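import Crest.Agent.R017.E1x_551
import Crest.Agent.R017.LB_48

/-!
# Row 17, block C70 (exact square), leaf E1, part y (helper551): smooth upper edge of the window

* `XT`, `XJw` : the main form with weights
* `E1posW` : `E1posJ` averaged over the upper end of the window
* `lbs2` : Bessel with two mains
-/

set_option autoImplicit false

noncomputable section

open Complex MeasureTheory
open scoped ComplexConjugate Classical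

namespace Crest.Agent.R017.E1551

open Crest.Agent.R012 Crest.Agent.R012.Eis Crest.Agent.R012.MC
open Crest.Agent.R012.LS2 (S mem_S)
open Crest.Agent.R012.Mob705 (pdiv PE)
open Crest.Agent.R017.CM106 (CS TG)
open Crest.Agent.R017.PX764 (n6 Gh)
open Crest.Agent.R017.SqLoc829 (JE JE_cf)
open Crest.Agent.R017.C70 (JW XJ)
open Crest.Agent.R017.LB48 (CrP GrP bessel)

/-! ### layers -/

lemma tele (ρ : ℕ → ℝ) {m n : ℕ} (h : m ≤ n) :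
    ∑ N ∈ Finset.Ico m n, (ρ N - ρ (N + 1)) = ρ m - ρ n := by
  induction n, h using Nat.le_induction with
  | base => simp
  | succ n hmn ih => rw [Finset.sum_Ico_succ_top hmn, ih]; ring

lemma layer {ρ : ℕ → ℝ} {N₀ N₁ : ℕ} (h01 : N₀ ≤ N₁) (h1 : ∀ n ≤ N₀, ρ n = 1)
    (h0 : ∀ n, N₁ < n → ρ n = 0) (n : ℕ) :
    ∑ N ∈ Finset.Ico N₀ (N₁ + 1), (if n ≤ N then ρ N - ρ (N + 1) else 0) = ρ n := by
  rw [← Finset.sum_filter]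
  have hN1 : ρ (N₁ + 1) = 0 := h0 _ (Nat.lt_succ_self _)
  by_cases hn : n ≤ N₀
  · have e : (Finset.Ico N₀ (N₁ + 1)).filter (fun N => n ≤ N) = Finset.Ico N₀ (N₁ + 1) := by
      apply Finset.filter_true_of_mem
      intro N hN
      exact hn.trans (Finset.mem_Ico.mp hN).1
    rw [e, tele ρ (by omega), hN1, h1 _ le_rfl, h1 _ hn]; ring
  · push Not at hn
    by_cases hn2 : n ≤ N₁ + 1
    · have e : (Finset.Ico N₀ (N₁ + 1)).filter (fun N => n ≤ N) = Finset.Ico n (N₁ + 1) := by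
        ext N
        rw [Finset.mem_filter, Finset.mem_Ico, Finset.mem_Ico]
        omega
      rw [e, tele ρ hn2, hN1]; ring
    · push Not at hn2
      have e : (Finset.Ico N₀ (N₁ + 1)).filter (fun N => n ≤ N) = ∅ := by
        ext N
        rw [Finset.mem_filter, Finset.mem_Ico]
        constructor
        · rintro ⟨h, h'⟩; omega
        · intro h; simp at h
      rw [e, Finset.sum_empty, h0 n (by omega)]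

lemma layer_sum {ρ : ℕ → ℝ} {N₀ N₁ : ℕ} (h01 : N₀ ≤ N₁) (h1 : ∀ n ≤ N₀, ρ n = 1)
    (h0 : ∀ n, N₁ < n → ρ n = 0) {ι : Type*} (T : Finset ι) (m : ι → ℕ) (f : ι → ℝ) :
    ∑ N ∈ Finset.Ico N₀ (N₁ + 1), (ρ N - ρ (N + 1)) * ∑ x ∈ T.filter (fun x => m x ≤ N), f x =
      ∑ x ∈ T, ρ (m x) * f x := by
  simp_rw [Finset.sum_filter, Finset.mul_sum]
  rw [Finset.sum_comm]
  refine Finset.sum_congr rfl fun x _ => ?_
  rw [← layer h01 h1 h0 (m x), Finset.sum_mul]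
  refine Finset.sum_congr rfl fun N _ => ?_
  split_ifs <;> simp

lemma layer_one {ρ : ℕ → ℝ} {N₀ N₁ : ℕ} (h01 : N₀ ≤ N₁) (h1 : ∀ n ≤ N₀, ρ n = 1)
    (h0 : ∀ n, N₁ < n → ρ n = 0) :
    ∑ N ∈ Finset.Ico N₀ (N₁ + 1), (ρ N - ρ (N + 1)) = 1 := by
  rw [tele ρ (by omega), h1 _ le_rfl, h0 _ (Nat.lt_succ_self _)]; ring

/-! ### the main form with weights -/

/-- the term of `XJ` -/
def XT (α : Eis → ℂ) (x : Eis × Eis) : ℂ :=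
  (((nm x.2 : ℝ) ^ (-(1 : ℝ) / 3) : ℝ) : ℂ) *
    ∑' m₁ : Eis, ∑' m₂ : Eis, if IsCoprime x.2 (x.1 * m₁ * m₂) then
      ((PE (x.1 * m₁ * m₂) : ℝ) : ℂ) * (α (x.1 * m₁) * ((n6 m₁ : ℂ) * Gh x.2 m₁)) *
        conj (α (x.1 * m₂) * ((n6 m₂ : ℂ) * Gh x.2 m₂)) else 0

lemma XJ_eq_XT (J : Finset (Eis × Eis)) (α : Eis → ℂ) : XJ J α = ∑ x ∈ J, XT α x := rfl

/-- the main form with weights -/
def XJw (ρ : ℕ → ℝ) (J : Finset (Eis × Eis)) (α : Eis → ℂ) : ℂ :=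
  ∑ x ∈ J, (ρ (nm (x.2 * x.1 ^ 2)) : ℂ) * XT α x

lemma JW_filter {D Y₀ Y₁ : ℝ} {N : ℕ} (h : (N : ℝ) ≤ Y₁) :
    JW D Y₀ N = (JW D Y₀ Y₁).filter (fun x => nm (x.2 * x.1 ^ 2) ≤ N) := by
  ext x
  unfold JW
  rw [Finset.mem_filter, Finset.mem_filter, Finset.mem_filter, Finset.mem_product,
    Finset.mem_product, mem_primBall, mem_ball, mem_ball]
  constructor
  · rintro ⟨⟨h1, h2⟩, h3, h4, h5, h6⟩
    have h7 : nm (x.2 * x.1 ^ 2) ≤ N := by exact_mod_cast h6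
    refine ⟨⟨⟨h1, h2.trans (Nat.floor_le_floor h)⟩, h3, h4, h5, h6.trans h⟩, h7⟩
  · rintro ⟨⟨⟨h1, h2⟩, h3, h4, h5, h6⟩, h7⟩
    have h8 : ((nm (x.2 * x.1 ^ 2) : ℕ) : ℝ) ≤ N := by exact_mod_cast h7
    refine ⟨⟨h1, ?_⟩, h3, h4, h5, h8⟩
    rw [Nat.floor_natCast]
    refine le_trans ?_ h7
    rw [nm_mul]
    exact Nat.le_mul_of_pos_right _ (nm_pos.mpr (pow_ne_zero 2 h1.2.ne_zero))

lemma XJw_layer {ρ : ℕ → ℝ} {N₀ N₁ : ℕ} (h01 : N₀ ≤ N₁) (h1 : ∀ n ≤ N₀, ρ n = 1)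
    (h0 : ∀ n, N₁ < n → ρ n = 0) (D Y₀ : ℝ) (α : Eis → ℂ) :
    ∑ N ∈ Finset.Ico N₀ (N₁ + 1), (ρ N - ρ (N + 1)) * (XJ (JW D Y₀ N) α).re =
      (XJw ρ (JW D Y₀ N₁) α).re := by
  have e1 : (XJw ρ (JW D Y₀ N₁) α).re =
      ∑ x ∈ JW D Y₀ N₁, ρ (nm (x.2 * x.1 ^ 2)) * (XT α x).re := by
    unfold XJw
    rw [Complex.re_sum]
    refine Finset.sum_congr rfl fun x _ => ?_
    rw [Complex.re_ofReal_mul]
  rw [e1, ← layer_sum h01 h1 h0]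
  refine Finset.sum_congr rfl fun N hN => ?_
  have hN1 : N ≤ N₁ := Nat.lt_succ_iff.mp (Finset.mem_Ico.mp hN).2
  rw [JW_filter (Y₁ := (N₁ : ℝ)) (by exact_mod_cast hN1), XJ_eq_XT, Complex.re_sum]

/-- the window of classes -/
def Wn (Y₀ Z : ℝ) : Finset Eis := (BF Z).filter (fun κ => Y₀ < nm κ)

lemma JE_one_filter {D Y₀ Y₁ : ℝ} (hD : 1 ≤ D) {N : ℕ} (h : (N : ℝ) ≤ Y₁) (P : Eis → Prop)
    [DecidablePred P] : (JE D Y₀ N 1).filter P = ((Wn Y₀ Y₁).filter P).filter (fun κ => nm κ ≤ N) := by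
  rw [JE_one_eq hD]
  unfold Wn
  ext κ
  simp only [Finset.mem_filter, mem_BF]
  constructor
  · rintro ⟨⟨⟨h1, h2⟩, h3⟩, h4⟩
    exact ⟨⟨⟨⟨h1, h2.trans h⟩, h3⟩, h4⟩, by exact_mod_cast h2⟩
  · rintro ⟨⟨⟨⟨h1, h2⟩, h3⟩, h4⟩, h5⟩
    exact ⟨⟨⟨h1, by exact_mod_cast h5⟩, h3⟩, h4⟩

lemma JE_one_filter' {D Y₀ Y₁ : ℝ} (hD : 1 ≤ D) {N : ℕ} (h : (N : ℝ) ≤ Y₁) :
    JE D Y₀ N 1 = (Wn Y₀ Y₁).filter (fun κ => nm κ ≤ N) := by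
  have := JE_one_filter (Y₀ := Y₀) hD h (fun _ => True)
  simpa using this

lemma Mo_mono {A K X Y₀ Y₁ Y₁' : ℝ} (hK : 0 ≤ K) (hX : 0 ≤ X) (h : Y₁ ≤ Y₁') (α : Eis → ℂ)
    (g : Eis) : Mo A K X Y₀ Y₁ α g ≤ Mo A K X Y₀ Y₁' α g := by
  unfold Mo
  have h1 := FW_mono (A := A) hK (by positivity : 0 ≤ X / nm g)
    (BF_mono (mul_le_mul_of_nonneg_right h (Nat.cast_nonneg (nm g)))) (sg α g)
  linarith

lemma Et_anti {A B K X Y Y₁ Y₁' : ℝ} (hB : 1 ≤ B) (hK : 0 < K) (hX : 0 ≤ X) (hY₁ : 0 < Y₁)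
    (h : Y₁ ≤ Y₁') (α : Eis → ℂ) : Et A B K X Y Y₁' α ≤ Et A B K X Y Y₁ α := by
  have hY₁' : 0 < Y₁' := hY₁.trans_le h
  unfold Et
  have h0 := Cz_nonneg A
  refine mul_le_mul_of_nonneg_right (mul_le_mul_of_nonneg_left ?_ h0) (by positivity)
  apply Real.rpow_le_rpow (by positivity)
  · have : (K * Y₁') ^ (-(1 / 3) : ℝ) ≤ (K * Y₁) ^ (-(1 / 3) : ℝ) := by
      apply Real.rpow_le_rpow_of_nonpos (by positivity)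
      · exact mul_le_mul_of_nonneg_left h hK.le
      · norm_num
    gcongr
  · nlinarith

/-- **E1, positive form, smooth upper edge.** -/
theorem E1posW : ∃ c : ℝ, 0 < c ∧ ∀ del : ℝ, 0 < del → ∃ w : ℝ → ℝ, Wgt w ∧ (∀ x, 0 ≤ w x) ∧
    ∀ A B : ℝ, 1 < A → 1 ≤ B → ∃ C : ℝ, 0 ≤ C ∧
    ∀ (K X Y η D Y₀ : ℝ) (N₀ N₁ : ℕ) (ρ : ℕ → ℝ), 0 < K → 0 < X → 1 ≤ Y → 0 < η → η ≤ 1 →
      1 ≤ D → 1 ≤ N₀ → N₀ ≤ N₁ → ((N₁ : ℝ) ≤ D ^ 2 ∨ Y ≤ D) → Antitone ρ →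
      (∀ n ≤ N₀, ρ n = 1) → (∀ n, N₁ < n → ρ n = 0) →
      ∀ α : Eis → ℂ, Adm Y X η α → ∀ δ : ℝ, 0 < δ → δ ≤ 1 →
      c * (K / X) * ∑ κ ∈ (Wn Y₀ N₁).filter (fun κ => (3 : ℤ) ∣ κ.im),
          ρ (nm κ) * (min 1 (lm K X 1 κ) * ‖TG α κ‖ ^ 2) ≤
        Dg w K Y α + 2 * cP w * K ^ (2 / 3 : ℝ) * (XJw ρ (JW D Y₀ N₁) α).re - SqP w K α +
        del * (K / X) * ∑ κ ∈ (Wn Y₀ N₁).filter (fun κ => ¬ (3 : ℤ) ∣ κ.im),
          ρ (nm κ) * (min 1 (lm K X 1 κ) * ‖TG α κ‖ ^ 2) +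
        C * (K / X) * (η * (∑ κ ∈ Wn Y₀ N₁, ρ (nm κ) * (min 1 (lm K X 1 κ) *
            ∫ t, jb A t * ‖Vt α κ (t / η)‖ ^ 2)) + Lo A K X Y₀ α) +
        C * (1 + Real.log Y) * (K / X) * (δ * Mo A K X Y₀ N₁ α 1 +
          δ⁻¹ * (∑ g ∈ (S Y).erase 1, nm g * (Div277.tau g : ℝ) ^ 4 * Mo A K X Y₀ N₁ α g) +
          δ⁻¹ * (2 + (∑ d ∈ S Y, (nm d : ℝ) ^ 4 * Div277.tau d) *
            (∑ L ∈ S Y, (Div277.tau L : ℝ) ^ 2)) * Et A B K X Y N₀ α) := by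
  obtain ⟨c, hc, h⟩ := E1posJ
  refine ⟨c, hc, fun del hdel => ?_⟩
  obtain ⟨w, hw, hw0, h1⟩ := h del hdel
  refine ⟨w, hw, hw0, fun A B hA hB => ?_⟩
  obtain ⟨C, hC, h2⟩ := h1 A B hA hB
  refine ⟨C, hC, fun K X Y η D Y₀ N₀ N₁ ρ hK hX hY hη hη1 hD1 hN₀ h01 hD hanti hρ1 hρ0 α hα δ
    hδ hδ1 => ?_⟩
  have hlog := Real.log_nonneg hY
  have hD0 : (0 : ℝ) ≤ D := by linarith
  set Ct := (2 + (∑ d ∈ S Y, (nm d : ℝ) ^ 4 * Div277.tau d) *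
            (∑ L ∈ S Y, (Div277.tau L : ℝ) ^ 2)) with hCt
  have hCt0 : 0 ≤ Ct := by rw [hCt]; positivity
  set E2 : ℝ := δ * Mo A K X Y₀ N₁ α 1 +
          δ⁻¹ * (∑ g ∈ (S Y).erase 1, nm g * (Div277.tau g : ℝ) ^ 4 * Mo A K X Y₀ N₁ α g) +
          δ⁻¹ * Ct * Et A B K X Y N₀ α with hE2
  have hP : 0 ≤ C * (K / X) := by positivity
  have hP2 : 0 ≤ C * (1 + Real.log Y) * (K / X) := by positivity
  have key : ∀ N ∈ Finset.Ico N₀ (N₁ + 1),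
      (ρ N - ρ (N + 1)) * (c * (K / X) * ∑ κ ∈ ((Wn Y₀ N₁).filter
        (fun κ => (3 : ℤ) ∣ κ.im)).filter (fun κ => nm κ ≤ N),
          min 1 (lm K X 1 κ) * ‖TG α κ‖ ^ 2) ≤
      (ρ N - ρ (N + 1)) * (Dg w K Y α + 2 * cP w * K ^ (2 / 3 : ℝ) * (XJ (JW D Y₀ N) α).re -
        SqP w K α +
        del * (K / X) * ∑ κ ∈ ((Wn Y₀ N₁).filter (fun κ => ¬ (3 : ℤ) ∣ κ.im)).filter
          (fun κ => nm κ ≤ N), min 1 (lm K X 1 κ) * ‖TG α κ‖ ^ 2 +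
        C * (K / X) * (η * (∑ κ ∈ (Wn Y₀ N₁).filter (fun κ => nm κ ≤ N), (min 1 (lm K X 1 κ) *
            ∫ t, jb A t * ‖Vt α κ (t / η)‖ ^ 2)) + Lo A K X Y₀ α) +
        C * (1 + Real.log Y) * (K / X) * E2) := by
    intro N hN
    obtain ⟨hN1, hN2⟩ := Finset.mem_Ico.mp hN
    have hN2' : N ≤ N₁ := Nat.lt_succ_iff.mp hN2
    have hNr : (N : ℝ) ≤ N₁ := by exact_mod_cast hN2'
    have hNr0 : ((N₀ : ℕ) : ℝ) ≤ N := by exact_mod_cast hN1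
    have hN₀' : (1 : ℝ) ≤ N₀ := by exact_mod_cast hN₀
    have hNpos : (0 : ℝ) < N := by linarith
    have hp : 0 ≤ ρ N - ρ (N + 1) := sub_nonneg.mpr (hanti (Nat.le_succ N))
    refine mul_le_mul_of_nonneg_left ?_ hp
    have hD' : (0 ≤ D ∧ (N : ℝ) ≤ D ^ 2) ∨ Y ≤ D := by
      rcases hD with h | h
      · exact Or.inl ⟨hD0, hNr.trans h⟩
      · exact Or.inr h
    have h3 := h2 K X Y η D Y₀ N hK hX hY hη hη1 hNpos hD' α hα δ hδ hδ1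
    rw [JE_one_filter hD1 hNr, JE_one_filter hD1 hNr, JE_one_filter' hD1 hNr] at h3
    refine h3.trans (add_le_add le_rfl (mul_le_mul_of_nonneg_left ?_ hP2))
    rw [hE2, ← hCt]
    have hδi : 0 ≤ δ⁻¹ := (inv_pos.mpr hδ).le
    refine add_le_add (add_le_add ?_ ?_) ?_
    · exact mul_le_mul_of_nonneg_left (Mo_mono hK.le hX.le hNr α 1) hδ.le
    · refine mul_le_mul_of_nonneg_left (Finset.sum_le_sum fun g _ => ?_) hδi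
      exact mul_le_mul_of_nonneg_left (Mo_mono hK.le hX.le hNr α g) (by positivity)
    · exact mul_le_mul_of_nonneg_left (Et_anti hB hK hX.le (by linarith) hNr0 α) (by positivity)
  have hsum := Finset.sum_le_sum key
  have l1 := layer_one h01 hρ1 hρ0
  have eL : ∑ N ∈ Finset.Ico N₀ (N₁ + 1), (ρ N - ρ (N + 1)) * (c * (K / X) *
      ∑ κ ∈ ((Wn Y₀ N₁).filter (fun κ => (3 : ℤ) ∣ κ.im)).filter (fun κ => nm κ ≤ N),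
        min 1 (lm K X 1 κ) * ‖TG α κ‖ ^ 2) =
      c * (K / X) * ∑ κ ∈ (Wn Y₀ N₁).filter (fun κ => (3 : ℤ) ∣ κ.im),
          ρ (nm κ) * (min 1 (lm K X 1 κ) * ‖TG α κ‖ ^ 2) := by
    rw [← layer_sum h01 hρ1 hρ0, Finset.mul_sum]
    exact Finset.sum_congr rfl fun N _ => by ring
  have eB : ∑ N ∈ Finset.Ico N₀ (N₁ + 1), (ρ N - ρ (N + 1)) * (del * (K / X) *
      ∑ κ ∈ ((Wn Y₀ N₁).filter (fun κ => ¬ (3 : ℤ) ∣ κ.im)).filter (fun κ => nm κ ≤ N),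
        min 1 (lm K X 1 κ) * ‖TG α κ‖ ^ 2) =
      del * (K / X) * ∑ κ ∈ (Wn Y₀ N₁).filter (fun κ => ¬ (3 : ℤ) ∣ κ.im),
          ρ (nm κ) * (min 1 (lm K X 1 κ) * ‖TG α κ‖ ^ 2) := by
    rw [← layer_sum h01 hρ1 hρ0, Finset.mul_sum]
    exact Finset.sum_congr rfl fun N _ => by ring
  have eI : ∑ N ∈ Finset.Ico N₀ (N₁ + 1), (ρ N - ρ (N + 1)) *
      ∑ κ ∈ (Wn Y₀ N₁).filter (fun κ => nm κ ≤ N), (min 1 (lm K X 1 κ) *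
            ∫ t, jb A t * ‖Vt α κ (t / η)‖ ^ 2) =
      ∑ κ ∈ Wn Y₀ N₁, ρ (nm κ) * (min 1 (lm K X 1 κ) *
            ∫ t, jb A t * ‖Vt α κ (t / η)‖ ^ 2) := layer_sum h01 hρ1 hρ0 _ _ _
  have eX := XJw_layer h01 hρ1 hρ0 D Y₀ α
  rw [eL] at hsum
  refine hsum.trans (le_of_eq ?_)
  rw [← eB, ← eI, ← eX]
  have e9 : ∀ N : ℕ, (ρ N - ρ (N + 1)) * (Dg w K Y α + 2 * cP w * K ^ (2 / 3 : ℝ) *
        (XJ (JW D Y₀ N) α).re - SqP w K α +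
        del * (K / X) * ∑ κ ∈ ((Wn Y₀ N₁).filter (fun κ => ¬ (3 : ℤ) ∣ κ.im)).filter
          (fun κ => nm κ ≤ N), min 1 (lm K X 1 κ) * ‖TG α κ‖ ^ 2 +
        C * (K / X) * (η * (∑ κ ∈ (Wn Y₀ N₁).filter (fun κ => nm κ ≤ N), (min 1 (lm K X 1 κ) *
            ∫ t, jb A t * ‖Vt α κ (t / η)‖ ^ 2)) + Lo A K X Y₀ α) +
        C * (1 + Real.log Y) * (K / X) * E2) =
      (ρ N - ρ (N + 1)) * (Dg w K Y α - SqP w K α + C * (K / X) * Lo A K X Y₀ α +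
        C * (1 + Real.log Y) * (K / X) * E2) +
      2 * cP w * K ^ (2 / 3 : ℝ) * ((ρ N - ρ (N + 1)) * (XJ (JW D Y₀ N) α).re) +
      (ρ N - ρ (N + 1)) * (del * (K / X) * ∑ κ ∈ ((Wn Y₀ N₁).filter
        (fun κ => ¬ (3 : ℤ) ∣ κ.im)).filter (fun κ => nm κ ≤ N),
          min 1 (lm K X 1 κ) * ‖TG α κ‖ ^ 2) +
      C * (K / X) * η * ((ρ N - ρ (N + 1)) * ∑ κ ∈ (Wn Y₀ N₁).filter (fun κ => nm κ ≤ N),
        (min 1 (lm K X 1 κ) * ∫ t, jb A t * ‖Vt α κ (t / η)‖ ^ 2)) := fun N => by ring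
  rw [Finset.sum_congr rfl fun N _ => e9 N, Finset.sum_add_distrib, Finset.sum_add_distrib,
    Finset.sum_add_distrib, ← Finset.sum_mul, l1, one_mul, ← Finset.mul_sum, ← Finset.mul_sum]
  ring

/-- **Bessel with two mains** -/
theorem lbs2 {w : ℝ → ℝ} {K : ℝ} (hw : Wgt w) (hw0 : ∀ x, 0 ≤ w x) (hK : 0 < K)
    (α u : Eis → ℂ) {c₂ c₃ M₁ M₂ R₂ R₃ : ℝ}
    (hc₂ : 0 ≤ c₂) (hc₃ : 0 < c₃) (hX : ‖CrP w K α u - ((c₂ * M₁ : ℝ) : ℂ)‖ ≤ R₂)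
    (hG : GrP w K u ≤ c₃ * M₂ + R₃) :
    c₂ ^ 2 / c₃ * (2 * M₁ - M₂) - SqP w K α ≤ 2 * (c₂ / c₃) * R₂ + (c₂ / c₃) ^ 2 * R₃ := by
  have hb := bessel hw hw0 hK α u ((c₂ / c₃ : ℝ) : ℂ)
  have hq : 0 ≤ c₂ / c₃ := by positivity
  rw [Complex.conj_ofReal, Complex.re_ofReal_mul, Complex.norm_real, Real.norm_of_nonneg hq] at hb
  have h1 : c₂ * M₁ - R₂ ≤ (CrP w K α u).re := by
    have h2 := (Complex.abs_re_le_norm (CrP w K α u - ((c₂ * M₁ : ℝ) : ℂ))).trans hX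
    rw [Complex.sub_re, Complex.ofReal_re] at h2
    linarith [(abs_le.1 h2).1]
  have h3 : c₂ / c₃ * (c₂ * M₁ - R₂) ≤ c₂ / c₃ * (CrP w K α u).re :=
    mul_le_mul_of_nonneg_left h1 hq
  have h4 : (c₂ / c₃) ^ 2 * GrP w K u ≤ (c₂ / c₃) ^ 2 * (c₃ * M₂ + R₃) :=
    mul_le_mul_of_nonneg_left hG (by positivity)
  have e1 : (c₂ / c₃) ^ 2 * (c₃ * M₂) = c₂ ^ 2 / c₃ * M₂ := by field_simp
  have e2 : c₂ / c₃ * (c₂ * M₁) = c₂ ^ 2 / c₃ * M₁ := by field_simp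
  nlinarith

end Crest.Agent.R017.E1551
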