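import Crest.Agent.R017.E1y_551

/-!
# Row 17, block C70 (exact square), leaf E1, part z (helper551): the errors regrouped

The part `g` of `d` which divides the class `κ = g j` is an `L`-term: the errors are sums over
pairs `(δ, G)` (`d = g δ`, `G = g L`) and classes `j` with `N(j δ²) ≤ Y₁`.

* `Wf_shift`, `lm_shift`
* `WJ`, `LJ` : the errors of `(δ, G)`
* `EP_le2`, `E1posW2`
-/

set_option autoImplicit false

noncomputable section

open Complex MeasureTheory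
open scoped ComplexConjugate Classical

namespace Crest.Agent.R017.E1551

open Crest.Agent.R012 Crest.Agent.R012.Eis Crest.Agent.R012.MC
open Crest.Agent.R012.LS2 (S mem_S)
open Crest.Agent.R012.Mob705 (pdiv PE)
open Crest.Agent.R012.Weight600 (pw)
open Crest.Agent.R017.CM106 (CS TG)
open Crest.Agent.R017.Dual2813 (S_of_dvd)
open Crest.Agent.R017.SqLoc829 (JE JE_cf mem_JE gd gd_prim gd_dvd_left gd_dvd_right)
open Crest.Agent.R017.C70 (JW XJ)

/-- the common part of `d` and `κ` moves to `L` -/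
lemma Wf_shift (A : ℝ) (α : Eis → ℂ) (g δ j L : Eis) :
    Wf A α (g * δ) (g * j) L = Wf A α δ j (g * L) := by
  unfold Wf
  have e1 : (g * j) * L = j * (g * L) := by ring
  have e2 : ∀ m, g * δ * (L * m) = δ * (g * L * m) := fun m => by ring
  simp_rw [e1, e2]

lemma lm_shift {K X : ℝ} (hK : 0 < K) (hX : 0 < X) {g δ j : Eis} (hg : g ≠ 0) (hδ : δ ≠ 0)
    (hj : j ≠ 0) : nm g * lm K X (g * δ) (g * j) = lm K X δ j := by
  have a0 := nmpos hg
  have d0 := nmpos hδ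
  have j0 := nmpos hj
  unfold lm
  rw [nm_mul, nm_mul]
  push_cast
  generalize (nm g : ℝ) = a at *
  generalize (nm δ : ℝ) = v at *
  generalize (nm j : ℝ) = u at *
  rw [Real.rpow_def_of_pos (show 0 < X / (a * v) by positivity),
    Real.rpow_def_of_pos (show 0 < K * (a * u) by positivity),
    Real.rpow_def_of_pos (show 0 < X / v by positivity),
    Real.rpow_def_of_pos (show 0 < K * u by positivity)]
  have l1 : Real.log (X / (a * v)) = Real.log (X / v) - Real.log a := by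
    rw [Real.log_div hX.ne' (by positivity), Real.log_mul a0.ne' d0.ne',
      Real.log_div hX.ne' d0.ne']; ring
  have l2 : Real.log (K * (a * u)) = Real.log (K * u) + Real.log a := by
    rw [Real.log_mul hK.ne' (by positivity), Real.log_mul a0.ne' j0.ne',
      Real.log_mul hK.ne' j0.ne']; ring
  rw [l1, l2]
  have e6 : a = Real.exp (Real.log a) := (Real.exp_log a0).symm
  have e7 : Real.exp (Real.log a) * (Real.exp ((Real.log (X / v) - Real.log a) * (2 / 3)) *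
      Real.exp ((Real.log (K * u) + Real.log a) * (-(1 / 3)))) =
      Real.exp (Real.log (X / v) * (2 / 3)) * Real.exp (Real.log (K * u) * (-(1 / 3))) := by
    rw [← Real.exp_add, ← Real.exp_add, ← Real.exp_add]
    congr 1; ring
  rw [← e7, ← e6]
  ring

/-- the finite errors of `(δ, G)` -/
def WJ (A K X Z : ℝ) (α : Eis → ℂ) (δ G : Eis) : ℝ :=
  ∑ j ∈ BF (Z / (nm δ : ℝ) ^ 2), min (nm G : ℝ) (lm K X δ j) * Wf A α δ j G

/-- the low tails of `(δ, G)` -/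
def LJ (A K X Z : ℝ) (α : Eis → ℂ) (δ G : Eis) : ℝ :=
  ∑ j ∈ BF (Z / (nm δ : ℝ) ^ 2), lm K X δ j * Wf A α δ j G

lemma WJ_nonneg {A K X Z : ℝ} (hK : 0 ≤ K) (hX : 0 ≤ X) (α : Eis → ℂ) (δ G : Eis) :
    0 ≤ WJ A K X Z α δ G :=
  Finset.sum_nonneg fun _ _ => mul_nonneg (le_min (Nat.cast_nonneg _) (lm_nonneg hK hX _ _))
    (Wf_nonneg _ _ _ _ _)

lemma LJ_nonneg {A K X Z : ℝ} (hK : 0 ≤ K) (hX : 0 ≤ X) (α : Eis → ℂ) (δ G : Eis) :
    0 ≤ LJ A K X Z α δ G :=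
  Finset.sum_nonneg fun _ _ => mul_nonneg (lm_nonneg hK hX _ _) (Wf_nonneg _ _ _ _ _)

lemma WJ_mono {A K X Z Z' : ℝ} (hK : 0 ≤ K) (hX : 0 ≤ X) (h : Z ≤ Z') (α : Eis → ℂ)
    (δ G : Eis) : WJ A K X Z α δ G ≤ WJ A K X Z' α δ G := by
  unfold WJ
  refine Finset.sum_le_sum_of_subset_of_nonneg (BF_mono (by gcongr)) fun _ _ _ =>
    mul_nonneg (le_min (Nat.cast_nonneg _) (lm_nonneg hK hX _ _)) (Wf_nonneg _ _ _ _ _)

lemma Wf_zero {A : ℝ} {α : Eis → ℂ} {δ G : Eis} (h : ∀ m, α (δ * (G * m)) = 0) (j : Eis) :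
    Wf A α δ j G = 0 := by
  unfold Wf TG
  simp [h]

lemma WJ_zero {A K X Z : ℝ} {α : Eis → ℂ} {δ G : Eis} (h : ∀ m, α (δ * (G * m)) = 0) :
    WJ A K X Z α δ G = 0 := by
  unfold WJ
  simp only [Wf_zero h, mul_zero, Finset.sum_const_zero]

lemma LJ_zero {A K X Z : ℝ} {α : Eis → ℂ} {δ G : Eis} (h : ∀ m, α (δ * (G * m)) = 0) :
    LJ A K X Z α δ G = 0 := by
  unfold LJ
  simp only [Wf_zero h, mul_zero, Finset.sum_const_zero]

/-! ### regrouping of the classes -/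

lemma cf_of_mul {a b : Eis} (h : CF (a * b)) : CF b :=
  ⟨right_ne_zero_of_mul h.1, fun p hp hd => h.2 p hp (hd.mul_left a)⟩

/-- regrouping of a finite sum over classes -/
lemma cls_sum_le {Y Z : ℝ} (hY : 0 ≤ Y) {d : Eis} (hd : d ∈ S Y) {J : Finset Eis}
    (hJ : ∀ κ ∈ J, CF κ ∧ (nm (κ / gd κ d * (d / gd κ d) ^ 2) : ℝ) ≤ Z)
    {f : Eis → ℝ} {F : Eis → Eis → Eis → ℝ} (hF : ∀ g δ j, 0 ≤ F g δ j)
    (h : ∀ g δ j, g ≠ 0 → δ ≠ 0 → d = g * δ → CF (g * j) → f (g * j) ≤ F g δ j) :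
    ∑ κ ∈ J, f κ ≤ ∑ g ∈ S Y, ∑ δ ∈ S Y,
      if g * δ = d then ∑ j ∈ BF (Z / (nm δ : ℝ) ^ 2), F g δ j else 0 := by
  have hdS := (mem_S hY).1 hd
  have hd0 := hdS.2.1.ne_zero
  have hgS : ∀ κ ∈ J, gd κ d ∈ S Y := fun κ _ => S_of_dvd hY hd (gd_prim κ d) (gd_dvd_right κ d)
  rw [← Finset.sum_fiberwise_of_maps_to (t := S Y) (g := fun κ => gd κ d) hgS]
  refine Finset.sum_le_sum fun g hg => ?_
  have hg' := (mem_S hY).1 hg
  have hg0 := hg'.2.1.ne_zero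
  have hnn : ∀ δ ∈ S Y, 0 ≤ (if g * δ = d then ∑ j ∈ BF (Z / (nm δ : ℝ) ^ 2), F g δ j else 0) := by
    intro δ _
    split_ifs
    · exact Finset.sum_nonneg fun _ _ => hF _ _ _
    · exact le_rfl
  by_cases hgd : g ∣ d
  · obtain ⟨δ, hδ⟩ := hgd
    have hδp : IsPrim δ := IsPrim.of_mul_left (by rw [← hδ]; exact hdS.2.1) hg'.2.1
    have hδS : δ ∈ S Y := S_of_dvd hY hd hδp (by rw [hδ]; exact dvd_mul_left _ _)
    have hδ0 : δ ≠ 0 := hδp.ne_zero
    refine le_trans ?_ (Finset.single_le_sum hnn hδS)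
    rw [if_pos hδ.symm]
    have hdiv : ∀ κ ∈ J.filter (fun κ => gd κ d = g), κ = g * (κ / g) := by
      intro κ hκ
      obtain ⟨hκ1, hκ2⟩ := Finset.mem_filter.mp hκ
      obtain ⟨x, hx⟩ : g ∣ κ := by rw [← hκ2]; exact gd_dvd_left κ d
      rw [div_of_eq hg0 hx]; exact hx
    have hle : ∑ κ ∈ J.filter (fun κ => gd κ d = g), f κ ≤
        ∑ κ ∈ J.filter (fun κ => gd κ d = g), F g δ (κ / g) := by
      refine Finset.sum_le_sum fun κ hκ => ?_
      have e := hdiv κ hκ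
      have hcf := (hJ κ (Finset.mem_filter.mp hκ).1).1
      have := h g δ (κ / g) hg0 hδ0 hδ (by rw [← e]; exact hcf)
      rwa [← e] at this
    refine hle.trans ?_
    have hinj : Set.InjOn (fun κ => κ / g) (J.filter (fun κ => gd κ d = g) : Set Eis) := by
      intro κ hκ κ' hκ' he
      have e1 := hdiv κ hκ
      have e2 := hdiv κ' hκ'
      simp only at he
      rw [e1, e2, he]
    rw [← Finset.sum_image (f := fun j => F g δ j) (g := fun κ => κ / g) hinj]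
    refine Finset.sum_le_sum_of_subset_of_nonneg ?_ fun _ _ _ => hF _ _ _
    intro j hj
    obtain ⟨κ, hκ, rfl⟩ := Finset.mem_image.mp hj
    obtain ⟨hκ1, hκ2⟩ := Finset.mem_filter.mp hκ
    have e := hdiv κ hκ
    obtain ⟨hcf, hle2⟩ := hJ κ hκ1
    refine mem_BF.mpr ⟨cf_of_mul (a := g) (by rw [← e]; exact hcf), ?_⟩
    have e3 : d / gd κ d = δ := by rw [hκ2]; exact div_of_eq hg0 hδ
    rw [e3, hκ2, nm_mul, nm_pow] at hle2
    push_cast at hle2
    have hδp' := nmpos hδ0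
    rw [le_div_iff₀ (by positivity)]
    exact hle2
  · have : J.filter (fun κ => gd κ d = g) = ∅ := by
      rw [Finset.filter_eq_empty_iff]
      intro κ hκ he
      exact hgd (by rw [← he]; exact gd_dvd_right κ d)
    rw [this, Finset.sum_empty]
    exact Finset.sum_nonneg hnn

/-- the finite part of one `(d, L)` -/
lemma fin_JE {A K X Y D Y₀ Y₁ : ℝ} (hK : 0 < K) (hX : 0 < X) (hY : 0 ≤ Y) {α : Eis → ℂ}
    {d L : Eis} (hd : d ∈ S Y) :
    nm d * ∑ κ ∈ JE D Y₀ Y₁ d, min (nm L : ℝ) (lm K X d κ) * Wf A α d κ L ≤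
      ∑ g ∈ S Y, ∑ δ ∈ S Y, if g * δ = d then nm δ * WJ A K X Y₁ α δ (g * L) else 0 := by
  have hdp := ((mem_S hY).1 hd).2.1
  rw [Finset.mul_sum]
  have h1 := cls_sum_le (Z := Y₁) hY hd (J := JE D Y₀ Y₁ d) (fun κ hκ => by
      have := (mem_JE hdp κ).mp hκ
      exact ⟨this.1, this.2.2.2⟩)
    (f := fun κ => nm d * (min (nm L : ℝ) (lm K X d κ) * Wf A α d κ L))
    (F := fun g δ j => nm δ * (min (nm (g * L) : ℝ) (lm K X δ j) * Wf A α δ j (g * L)))
    (fun g δ j => mul_nonneg (Nat.cast_nonneg _) (mul_nonneg (le_min (Nat.cast_nonneg _)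
      (lm_nonneg hK.le hX.le _ _)) (Wf_nonneg _ _ _ _ _)))
    (fun g δ j hg hδ hd' hcf => by
      have hj : j ≠ 0 := right_ne_zero_of_mul hcf.1
      have e1 := lm_shift hK hX hg hδ hj
      rw [hd', Wf_shift, nm_mul, nm_mul]
      push_cast
      have g0 : (0 : ℝ) ≤ nm g := Nat.cast_nonneg _
      have e2 : (nm g : ℝ) * min (nm L : ℝ) (lm K X (g * δ) (g * j)) =
          min ((nm g : ℝ) * nm L) (lm K X δ j) := by
        rw [mul_min_of_nonneg _ _ g0, e1]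
      rw [← e2]
      apply le_of_eq
      ring)
  refine h1.trans (le_of_eq ?_)
  refine Finset.sum_congr rfl fun g _ => Finset.sum_congr rfl fun δ _ => ?_
  split_ifs
  · unfold WJ
    rw [Finset.mul_sum]
  · rfl

/-- the tail with the exact low part -/
theorem tail_JE_raw {A B K X Y D Y₀ Y₁ : ℝ} (hA : 1 < A) (hB : 1 ≤ B) (hK : 0 < K) (hX : 0 < X)
    (hY : 0 ≤ Y) (hY₁ : 0 < Y₁) (hD : (0 ≤ D ∧ Y₁ ≤ D ^ 2) ∨ Y ≤ D)
    {α : Eis → ℂ} (hα : ∀ n, α n ≠ 0 → n ∈ S Y) {d L : Eis} (hd : d ∈ S Y) (hL : IsPrim L) :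
    (∑' κ : Eis, if CF κ ∧ κ ∉ JE D Y₀ Y₁ d then tl B K X d κ * Wf A α d κ L else 0) ≤
      ∑ κ ∈ (BF (Y₀ * nm d)).filter (fun κ => (nm (κ / gd κ d * (d / gd κ d) ^ 2) : ℝ) ≤ Y₀),
        lm K X d κ * Wf A α d κ L + (nm d : ℝ) ^ 3 * Et A B K X Y Y₁ α := by
  have hd' := (mem_S hY).1 hd
  have hdp := hd'.2.1
  set T := (BF (Y₀ * nm d)).filter
    (fun κ => (nm (κ / gd κ d * (d / gd κ d) ^ 2) : ℝ) ≤ Y₀) with hT
  set ρ := 3 * (X ^ (2 / 3 : ℝ) * (K * Y₁) ^ (-(1 / 3) : ℝ)) with hρ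
  set c1 := 3 * (X ^ (2 / 3 : ℝ) * K ^ (-(1 / 3) : ℝ)) with hc1
  have hρ0 : 0 ≤ ρ := by rw [hρ]; positivity
  set F0 : ℝ := (∫ t, jb A t) * (∑ n ∈ S Y, ‖α n‖) ^ 2 with hF0
  have hjb : 0 ≤ ∫ t, jb A t := integral_nonneg fun t => (jb_pos A t).le
  have hF00 : 0 ≤ F0 := mul_nonneg hjb (by positivity)
  have hWf : ∀ κ, Wf A α d κ L ≤ F0 := by
    intro κ
    refine (Wf_le hA hY hα hdp hL κ).trans ?_
    refine mul_le_mul_of_nonneg_left ?_ hjb
    refine pow_le_pow_left₀ (Finset.sum_nonneg fun _ _ => norm_nonneg _) ?_ 2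
    have := sum_sub_le hα (mul_ne_zero hdp.ne_zero hL.ne_zero)
    simpa only [mul_assoc] using this
  have hρB : 0 ≤ ρ ^ (3 * (B - 1)) := Real.rpow_nonneg hρ0 _
  set H : Eis → ℝ := fun κ => (ρ ^ (3 * (B - 1)) * ((nm d : ℝ) ^ 3 * c1 ^ 4) * F0) *
    (nm κ : ℝ) ^ (-(4 / 3) : ℝ) with hH
  have hsH : Summable H := (summable_inv_nm (by norm_num : (1 : ℝ) < 4 / 3)).mul_left _
  set f1 : Eis → ℝ := fun κ => if κ ∈ T then lm K X d κ * Wf A α d κ L else 0 with hf1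
  have hs1 : Summable f1 := summable_of_hasFiniteSupport (T.finite_toSet.subset
    fun κ hκ => by
      by_contra h
      apply hκ
      have h' : κ ∉ T := fun h3 => h (Finset.mem_coe.mpr h3)
      simp only [hf1, if_neg h'])
  have hf10 : ∀ κ, 0 ≤ f1 κ := fun κ => by
    simp only [hf1]
    split_ifs
    · exact mul_nonneg (lm_nonneg hK.le hX.le _ _) (Wf_nonneg _ _ _ _ _)
    · exact le_rfl
  have hH0 : ∀ κ, 0 ≤ H κ := fun κ => by simp only [hH]; positivity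
  have hle : ∀ κ : Eis, (if CF κ ∧ κ ∉ JE D Y₀ Y₁ d then tl B K X d κ * Wf A α d κ L else 0) ≤
      f1 κ + H κ := by
    intro κ
    by_cases h : CF κ ∧ κ ∉ JE D Y₀ Y₁ d
    · rw [if_pos h]
      have hW := Wf_nonneg A α d κ L
      rcases JE_out hD hdp hd'.1 h.1 h.2 with h1 | h1
      · have h2 : κ ∈ T := Finset.mem_filter.mpr
          ⟨mem_BF.mpr ⟨h.1, nm_low h.1.1 hdp h1⟩, h1⟩
        have h3 : tl B K X d κ * Wf A α d κ L ≤ f1 κ := by
          simp only [hf1, if_pos h2]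
          exact mul_le_mul_of_nonneg_right (tl_le_lm (by linarith) hK hX) hW
        linarith [hH0 κ]
      · have h2 := tl_le hB hK hX hdp hd'.2.2 h.1.1 (lm_high hK hX hY₁ h.1.1 hdp h1)
        have h3 : tl B K X d κ * Wf A α d κ L ≤ H κ := by
          calc tl B K X d κ * Wf A α d κ L
              ≤ (ρ ^ (3 * (B - 1)) * ((nm d : ℝ) ^ 3 * c1 ^ 4) * (nm κ : ℝ) ^ (-(4 / 3) : ℝ)) *
                F0 := mul_le_mul h2 (hWf κ) hW (by positivity)
            _ = _ := by simp only [hH]; ring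
        linarith [hf10 κ]
    · rw [if_neg h]
      exact add_nonneg (hf10 κ) (hH0 κ)
  have hsum : Summable fun κ : Eis =>
      if CF κ ∧ κ ∉ JE D Y₀ Y₁ d then tl B K X d κ * Wf A α d κ L else 0 :=
    Summable.of_nonneg_of_le (fun κ => by
      split_ifs
      · exact mul_nonneg (tl_nonneg hK.le hX.le _ _) (Wf_nonneg _ _ _ _ _)
      · exact le_rfl) hle (hs1.add hsH)
  refine (hsum.tsum_le_tsum hle (hs1.add hsH)).trans ?_
  rw [hs1.tsum_add hsH]
  refine add_le_add (le_of_eq ?_) (le_of_eq ?_)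
  · rw [tsum_eq_sum (s := T) fun κ hκ => by simp only [hf1, if_neg hκ]]
    exact Finset.sum_congr rfl fun κ hκ => by simp only [hf1, if_pos hκ]
  · simp only [hH]
    rw [tsum_mul_left]
    unfold Et Cz
    rw [← hρ, ← hc1, hF0]
    ring

/-- the tail of one `(d, L)` -/
lemma tail_JE2 {A B K X Y D Y₀ Y₁ : ℝ} (hA : 1 < A) (hB : 1 ≤ B) (hK : 0 < K) (hX : 0 < X)
    (hY : 0 ≤ Y) (hY₁ : 0 < Y₁) (hD : (0 ≤ D ∧ Y₁ ≤ D ^ 2) ∨ Y ≤ D)
    {α : Eis → ℂ} (hα : ∀ n, α n ≠ 0 → n ∈ S Y) {d L : Eis} (hd : d ∈ S Y) (hL : IsPrim L) :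
    nm d * (∑' κ : Eis, if CF κ ∧ κ ∉ JE D Y₀ Y₁ d then tl B K X d κ * Wf A α d κ L else 0) ≤
      (∑ g ∈ S Y, ∑ δ ∈ S Y, if g * δ = d then nm δ * LJ A K X Y₀ α δ (g * L) else 0) +
        (nm d : ℝ) ^ 4 * Et A B K X Y Y₁ α := by
  have h0 := mul_le_mul_of_nonneg_left
    (tail_JE_raw (Y₀ := Y₀) hA hB hK hX hY hY₁ hD hα hd hL) (Nat.cast_nonneg (nm d) : (0:ℝ) ≤ nm d)
  refine h0.trans ?_
  rw [mul_add]
  refine add_le_add ?_ (le_of_eq (by ring))
  rw [Finset.mul_sum]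
  have h1 := cls_sum_le (Z := Y₀) hY hd (J := (BF (Y₀ * nm d)).filter
      (fun κ => (nm (κ / gd κ d * (d / gd κ d) ^ 2) : ℝ) ≤ Y₀)) (fun κ hκ => by
      obtain ⟨a1, a2⟩ := Finset.mem_filter.mp hκ
      exact ⟨(mem_BF.mp a1).1, a2⟩)
    (f := fun κ => nm d * (lm K X d κ * Wf A α d κ L))
    (F := fun g δ j => nm δ * (lm K X δ j * Wf A α δ j (g * L)))
    (fun g δ j => mul_nonneg (Nat.cast_nonneg _) (mul_nonneg
      (lm_nonneg hK.le hX.le _ _) (Wf_nonneg _ _ _ _ _)))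
    (fun g δ j hg hδ hd' hcf => by
      have hj : j ≠ 0 := right_ne_zero_of_mul hcf.1
      have e1 := lm_shift hK hX hg hδ hj
      rw [hd', Wf_shift, nm_mul, ← e1]
      push_cast
      apply le_of_eq
      ring)
  refine h1.trans (le_of_eq ?_)
  refine Finset.sum_congr rfl fun g _ => Finset.sum_congr rfl fun δ _ => ?_
  split_ifs
  · unfold LJ
    rw [Finset.mul_sum]
  · rfl

/-! ### regrouping of the pairs -/

/-- regrouping `(g, δ, L)` to `(δ, g L)` -/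
lemma sum_triple_le {Y : ℝ} (hY : 0 ≤ Y) {α : Eis → ℂ} (hα : ∀ n, α n ≠ 0 → n ∈ S Y)
    {M : Eis → Eis → ℝ} (hM : ∀ δ G, 0 ≤ M δ G)
    (hM0 : ∀ δ G, (∀ m, α (δ * (G * m)) = 0) → M δ G = 0) :
    ∑ q ∈ (S Y ×ˢ (S Y ×ˢ S Y)).filter (fun q => ¬ (q.1 * q.2.1 = 1 ∧ q.2.2 = 1)),
      ((Div277.tau q.1 : ℝ) * Div277.tau q.2.1 * (Div277.tau q.2.2 : ℝ) ^ 2) *
        (nm q.2.1 * M q.2.1 (q.1 * q.2.2)) ≤
      ∑ p ∈ (S Y ×ˢ S Y).erase (1, 1), (nm p.1 * Div277.tau p.1 * (Div277.tau p.2 : ℝ) ^ 4) *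
        M p.1 p.2 := by
  set Q := (S Y ×ˢ (S Y ×ˢ S Y)).filter (fun q : Eis × Eis × Eis =>
    ¬ (q.1 * q.2.1 = 1 ∧ q.2.2 = 1)) with hQ
  set φ : Eis × Eis × Eis → Eis × Eis := fun q => (q.2.1, q.1 * q.2.2) with hφ
  set F : Eis × Eis × Eis → ℝ := fun q =>
    ((Div277.tau q.1 : ℝ) * Div277.tau q.2.1 * (Div277.tau q.2.2 : ℝ) ^ 2) *
        (nm q.2.1 * M q.2.1 (q.1 * q.2.2)) with hF
  set P := Q.filter (fun q => φ q ∈ (S Y ×ˢ S Y).erase (1, 1)) with hP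
  have e1 : ∑ q ∈ Q, F q = ∑ q ∈ P, F q := by
    conv_rhs => rw [hP, Finset.sum_filter]
    refine Finset.sum_congr rfl fun q hq => ?_
    split_ifs with h
    · rfl
    · obtain ⟨hq1, hq2⟩ := Finset.mem_filter.mp hq
      have hq3 := Finset.mem_product.mp hq1
      have hq4 := Finset.mem_product.mp hq3.2
      have dg := (mem_S hY).1 hq3.1
      have dδ := (mem_S hY).1 hq4.1
      have dL := (mem_S hY).1 hq4.2
      have hz : ∀ m, α (q.2.1 * (q.1 * q.2.2 * m)) = 0 := by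
        intro m
        by_contra h1
        apply h
        have h2 := hα _ h1
        have h3 := S_of_dvd hY h2 (dg.2.1.mul dL.2.1)
          ((dvd_mul_right _ m).trans (dvd_mul_left _ _))
        refine Finset.mem_erase.mpr ⟨fun h4 => hq2 ?_, Finset.mem_product.mpr ⟨hq4.1, h3⟩⟩
        have h5 : q.2.1 = 1 := congrArg Prod.fst h4
        have h6 : q.1 * q.2.2 = 1 := congrArg Prod.snd h4
        obtain ⟨h7, h8⟩ := isPrim_mul_eq_one dg.2.1 dL.2.1 h6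
        exact ⟨by rw [h5, h7, one_mul], h8⟩
      simp only [hF]
      rw [hM0 _ _ hz, mul_zero, mul_zero]
  rw [e1, ← Finset.sum_fiberwise_of_maps_to (s := P) (t := (S Y ×ˢ S Y).erase (1, 1))
    (g := φ) (fun q hq => (Finset.mem_filter.mp hq).2)]
  refine Finset.sum_le_sum fun p hp => ?_
  have hpS := Finset.mem_product.mp (Finset.mem_of_mem_erase hp)
  have hδS := (mem_S hY).1 hpS.1
  have hGS := (mem_S hY).1 hpS.2
  have hG0 : p.2 ≠ 0 := hGS.2.1.ne_zero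
  have hterm : ∀ q ∈ P.filter (fun q => φ q = p), F q ≤
      (Div277.tau p.1 * (Div277.tau p.2 : ℝ) ^ 3) * (nm p.1 * M p.1 p.2) := by
    intro q hq
    obtain ⟨hq1, hq2⟩ := Finset.mem_filter.mp hq
    have h1 : q.2.1 = p.1 := (congrArg Prod.fst hq2 : (φ q).1 = p.1)
    have h2 : q.1 * q.2.2 = p.2 := (congrArg Prod.snd hq2 : (φ q).2 = p.2)
    have t1 : (Div277.tau q.1 : ℝ) ≤ Div277.tau p.2 := by
      exact_mod_cast Div277.tau_le_of_dvd hG0 (Dvd.intro _ h2)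
    have t2 : (Div277.tau q.2.2 : ℝ) ≤ Div277.tau p.2 := by
      exact_mod_cast Div277.tau_le_of_dvd hG0 (Dvd.intro_left _ h2)
    have t3 : (0 : ℝ) ≤ Div277.tau q.1 := Nat.cast_nonneg _
    have t4 : (0 : ℝ) ≤ Div277.tau q.2.2 := Nat.cast_nonneg _
    have t5 : (Div277.tau q.1 : ℝ) * (Div277.tau q.2.2 : ℝ) ^ 2 ≤ (Div277.tau p.2 : ℝ) ^ 3 := by
      calc (Div277.tau q.1 : ℝ) * (Div277.tau q.2.2 : ℝ) ^ 2
          ≤ (Div277.tau p.2 : ℝ) * (Div277.tau p.2 : ℝ) ^ 2 := by gcongr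
        _ = _ := by ring
    simp only [hF]
    rw [h2, h1]
    have hM' := hM p.1 p.2
    calc ((Div277.tau q.1 : ℝ) * Div277.tau p.1 * (Div277.tau q.2.2 : ℝ) ^ 2) *
          (nm p.1 * M p.1 p.2) = (Div277.tau p.1 * ((Div277.tau q.1 : ℝ) *
            (Div277.tau q.2.2 : ℝ) ^ 2)) * (nm p.1 * M p.1 p.2) := by ring
      _ ≤ _ := by
          refine mul_le_mul_of_nonneg_right ?_ (mul_nonneg (Nat.cast_nonneg _) hM')
          exact mul_le_mul_of_nonneg_left t5 (Nat.cast_nonneg _)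
  have hcard : ((P.filter (fun q => φ q = p)).card : ℝ) ≤ Div277.tau p.2 := by
    have h1 : (P.filter (fun q => φ q = p)).card ≤ (Div277.dvs p.2).card := by
      refine Finset.card_le_card_of_injOn (fun q => q.1) (fun q hq => ?_) ?_
      · obtain ⟨hq1, hq2⟩ := Finset.mem_filter.mp hq
        have h2 : q.1 * q.2.2 = p.2 := (congrArg Prod.snd hq2 : (φ q).2 = p.2)
        have hq3 := (Finset.mem_filter.mp (Finset.mem_filter.mp hq1).1).1
        have hq4 := Finset.mem_product.mp hq3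
        exact (Div277.mem_dvs hG0).mpr ⟨((mem_S hY).1 hq4.1).2.1, Dvd.intro _ h2⟩
      · intro q hq q' hq' h
        have hq2 := (Finset.mem_filter.mp hq).2
        have hq2' := (Finset.mem_filter.mp hq').2
        have h2 : q.1 * q.2.2 = p.2 := (congrArg Prod.snd hq2 : (φ q).2 = p.2)
        have h2' : q'.1 * q'.2.2 = p.2 := (congrArg Prod.snd hq2' : (φ q').2 = p.2)
        have h3 : q.2.1 = p.1 := (congrArg Prod.fst hq2 : (φ q).1 = p.1)
        have h3' : q'.2.1 = p.1 := (congrArg Prod.fst hq2' : (φ q').1 = p.1)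
        replace h : q.1 = q'.1 := h
        have h0 : q.1 ≠ 0 := by
          intro h4; rw [h4, zero_mul] at h2; exact hG0 h2.symm
        refine Prod.ext h (Prod.ext (h3.trans h3'.symm) ?_)
        rw [← h] at h2'
        exact mul_left_cancel₀ h0 (h2.trans h2'.symm)
    exact_mod_cast h1
  calc ∑ q ∈ P.filter (fun q => φ q = p), F q
      ≤ ∑ _q ∈ P.filter (fun q => φ q = p),
        (Div277.tau p.1 * (Div277.tau p.2 : ℝ) ^ 3) * (nm p.1 * M p.1 p.2) :=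
        Finset.sum_le_sum hterm
    _ = (P.filter (fun q => φ q = p)).card *
        ((Div277.tau p.1 * (Div277.tau p.2 : ℝ) ^ 3) * (nm p.1 * M p.1 p.2)) := by
        rw [Finset.sum_const, nsmul_eq_mul]
    _ ≤ Div277.tau p.2 *
        ((Div277.tau p.1 * (Div277.tau p.2 : ℝ) ^ 3) * (nm p.1 * M p.1 p.2)) := by
        refine mul_le_mul_of_nonneg_right hcard ?_
        exact mul_nonneg (by positivity) (mul_nonneg (Nat.cast_nonneg _) (hM _ _))
    _ = _ := by ring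

end Crest.Agent.R017.E1551
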