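import Crest.Agent.R017.E1zc_551
import Crest.Agent.R017.RGwF_813

/-!
# Row 17, block C70 (exact square), leaf E1, part zd (helper551): the errors of `rg_absorb`
(pointwise in the height) as one number

* `UW`, `LW`, `EUW` : the errors in cube-free frequencies for a general weight `W g r`
* `EGp_le` : 813's `EGp` in cube-free frequencies
* `EUW_le`, `EGp_num` : one number
-/

set_option autoImplicit false

noncomputable section

open Complex MeasureTheory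
open scoped ComplexConjugate Classical

namespace Crest.Agent.R017.E1551

open Crest.Agent.R012 Crest.Agent.R012.Eis Crest.Agent.R012.MC
open Crest.Agent.R012.LS2 (S mem_S bl)
open Crest.Agent.R012.Weight600 (pw pw_mul norm_pw)
open Crest.Agent.R017.CM106 (CS TG)
open Crest.Agent.R017.Dual2813 (S_of_dvd)
open Crest.Agent.R017.Rough381 (VF)

/-- the finite errors of `(h, U)`, general weight -/
def UW (W : Eis → Eis → ℝ) (K X Z : ℝ) (h U : Eis) : ℝ :=
  ∑ κ ∈ BU (Z / (nm h : ℝ) ^ 2) U,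
    min 1 (lm K (X / nm (h * U)) 1 (κ * U)) * W (h * U) (κ * U)

/-- the low tails of `(h, U)`, general weight -/
def LW (W : Eis → Eis → ℝ) (K X Z : ℝ) (h U : Eis) : ℝ :=
  ∑ κ ∈ BU (Z / (nm h : ℝ) ^ 2) U,
    lm K (X / nm (h * U)) 1 (κ * U) * W (h * U) (κ * U)

/-- the errors of all `(h, U) ≠ (1, 1)`, general weight -/
def EUW (W : Eis → Eis → ℝ) (K X Y Y₀ Y₁ : ℝ) (P : Eis × Eis → Prop) : ℝ :=
  ∑ p ∈ ((S Y ×ˢ S Y).erase (1, 1)).filter P,
    ((Div277.tau p.1 : ℝ) ^ 7 * (Div277.tau p.2 : ℝ) ^ 4) * ((nm p.1 * nm p.2) *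
      (UW W K X Y₁ p.1 p.2 + LW W K X Y₀ p.1 p.2))

lemma EUW_true (W : Eis → Eis → ℝ) (K X Y Y₀ Y₁ : ℝ) :
    EUW W K X Y Y₀ Y₁ (fun _ => True) = ∑ p ∈ (S Y ×ˢ S Y).erase (1, 1),
    ((Div277.tau p.1 : ℝ) ^ 7 * (Div277.tau p.2 : ℝ) ^ 4) * ((nm p.1 * nm p.2) *
      (UW W K X Y₁ p.1 p.2 + LW W K X Y₀ p.1 p.2)) := by
  unfold EUW
  refine Finset.sum_congr ?_ fun _ _ => rfl
  ext p
  simp

/-- an admissible weight: nonnegative, supported on the divisors of the support of `α` -/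
structure WOK (α : Eis → ℂ) (W : Eis → Eis → ℝ) : Prop where
  nonneg : ∀ g r, 0 ≤ W g r
  zero : ∀ g, (∀ m, α (g * m) = 0) → ∀ r, W g r = 0

variable {α : Eis → ℂ} {W : Eis → Eis → ℝ}

lemma UW_nonneg (hW : WOK α W) {K X Z : ℝ} (hK : 0 ≤ K) (hX : 0 ≤ X) (h U : Eis) :
    0 ≤ UW W K X Z h U :=
  Finset.sum_nonneg fun _ _ => mul_nonneg (le_min zero_le_one
    (lm_nonneg hK (div_nonneg hX (Nat.cast_nonneg _)) _ _)) (hW.nonneg _ _)

lemma LW_nonneg (hW : WOK α W) {K X Z : ℝ} (hK : 0 ≤ K) (hX : 0 ≤ X) (h U : Eis) :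
    0 ≤ LW W K X Z h U :=
  Finset.sum_nonneg fun _ _ => mul_nonneg
    (lm_nonneg hK (div_nonneg hX (Nat.cast_nonneg _)) _ _) (hW.nonneg _ _)

lemma UW_zero (hW : WOK α W) {K X Z : ℝ} {h U : Eis} (h0 : ∀ m, α (h * (U * m)) = 0) :
    UW W K X Z h U = 0 := by
  unfold UW
  have : ∀ m, α (h * U * m) = 0 := fun m => by rw [mul_assoc]; exact h0 m
  simp only [hW.zero _ this, mul_zero, Finset.sum_const_zero]

lemma LW_zero (hW : WOK α W) {K X Z : ℝ} {h U : Eis} (h0 : ∀ m, α (h * (U * m)) = 0) :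
    LW W K X Z h U = 0 := by
  unfold LW
  have : ∀ m, α (h * U * m) = 0 := fun m => by rw [mul_assoc]; exact h0 m
  simp only [hW.zero _ this, mul_zero, Finset.sum_const_zero]

/-- the errors of `(δ, G)` in cube-free frequencies -/
lemma WJ_le_UW (hW : WOK α W) {K X Y Z : ℝ} (hK : 0 < K) (hX : 0 < X) (hY : 0 ≤ Y)
    {δ G : Eis} (hδ : δ ∈ S Y) (hG : G ∈ S Y) :
    nm δ * (∑ j ∈ BF (Z / (nm δ : ℝ) ^ 2), min (nm G : ℝ) (lm K X δ j) * W (δ * G) (tau j G)) ≤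
      ∑ e ∈ S Y, ∑ U ∈ S Y, if e * U = G then
        nm U * (nm (e * δ) * UW W K X Z (e * δ) U) else 0 := by
  have hδS := (mem_S hY).1 hδ
  have hGS := (mem_S hY).1 hG
  have hδ1 := nmpos hδS.2.1.ne_zero
  have h0 := tau_sum_le (Z := Z / (nm δ : ℝ) ^ 2) hY hG
    (f := fun j => nm δ * (min (nm G : ℝ) (lm K X δ j) * W (δ * G) (tau j G)))
    (F := fun e U κ => nm U * (nm (e * δ) * (min 1 (lm K (X / nm (e * δ * U)) 1 (κ * U)) *
      W (e * δ * U) (κ * U))))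
    (fun e U κ => mul_nonneg (Nat.cast_nonneg _) (mul_nonneg (Nat.cast_nonneg _)
      (mul_nonneg (le_min zero_le_one
      (lm_nonneg hK.le (div_nonneg hX.le (Nat.cast_nonneg _)) _ _)) (hW.nonneg _ _))))
    (fun j κ hj h1 h2 => by
      have e2 := lm_tau hK hX hδS.2.1.ne_zero hj.1 hGS.2.1 hGS.2.2
      have e3 := g1_mul_g2 (κ := j) hGS.2.1 hGS.2.2
      have e4 : g2 j G * δ * g1 j G = δ * G := by
        conv_rhs => rw [← e3]
        ring
      rw [e2, e4, h2]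
      have hW' := hW.nonneg (δ * G) (κ * g1 j G)
      have hl0 : 0 ≤ lm K (X / nm (δ * G)) 1 (κ * g1 j G) :=
        lm_nonneg hK.le (div_nonneg hX.le (Nat.cast_nonneg _)) _ _
      generalize lm K (X / nm (δ * G)) 1 (κ * g1 j G) = l at *
      generalize W (δ * G) (κ * g1 j G) = W' at *
      have e5 : (nm G : ℝ) = nm (g1 j G) * nm (g2 j G) := by
        rw [← Nat.cast_mul, ← nm_mul, e3]
      have hb1 := nm_ge_one (g2_prim j G).ne_zero
      have ha1 := nm_ge_one (g1_prim j G).ne_zero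
      rw [e5, nm_mul]
      push_cast
      generalize (nm (g1 j G) : ℝ) = a at *
      generalize (nm (g2 j G) : ℝ) = b at *
      generalize (nm δ : ℝ) = v at *
      have h3 : min (a * b) (a * l) ≤ a * (b * min 1 l) := by
        have h4 : min (a * b) (a * l) = a * min b l := by
          rw [mul_min_of_nonneg _ _ (by linarith)]
        rw [h4]
        refine mul_le_mul_of_nonneg_left ?_ (by linarith)
        rw [mul_min_of_nonneg _ _ (by linarith), mul_one]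
        exact min_le_min le_rfl (le_mul_of_one_le_left hl0 hb1)
      calc v * (min (a * b) (a * l) * W') ≤ v * ((a * (b * min 1 l)) * W') := by gcongr
        _ = a * (b * v * (min 1 l * W')) := by ring)
  rw [Finset.mul_sum]
  refine h0.trans (le_of_eq ?_)
  refine Finset.sum_congr rfl fun e he => Finset.sum_congr rfl fun U _ => ?_
  have he0 := nmpos ((mem_S hY).1 he).2.1.ne_zero
  split_ifs
  · unfold UW
    rw [Finset.mul_sum, Finset.mul_sum]
    refine Finset.sum_congr ?_ fun _ _ => rfl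
    congr 1
    rw [nm_mul]
    push_cast
    rw [div_div]
    congr 1
    ring
  · rfl

lemma LJ_le_LW (hW : WOK α W) {K X Y Z : ℝ} (hK : 0 < K) (hX : 0 < X) (hY : 0 ≤ Y)
    {δ G : Eis} (hδ : δ ∈ S Y) (hG : G ∈ S Y) :
    nm δ * (∑ j ∈ BF (Z / (nm δ : ℝ) ^ 2), lm K X δ j * W (δ * G) (tau j G)) ≤
      ∑ e ∈ S Y, ∑ U ∈ S Y, if e * U = G then
        nm U * (nm (e * δ) * LW W K X Z (e * δ) U) else 0 := by
  have hδS := (mem_S hY).1 hδ
  have hGS := (mem_S hY).1 hG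
  have hδ1 := nmpos hδS.2.1.ne_zero
  have h0 := tau_sum_le (Z := Z / (nm δ : ℝ) ^ 2) hY hG
    (f := fun j => nm δ * (lm K X δ j * W (δ * G) (tau j G)))
    (F := fun e U κ => nm U * (nm (e * δ) * (lm K (X / nm (e * δ * U)) 1 (κ * U) *
      W (e * δ * U) (κ * U))))
    (fun e U κ => mul_nonneg (Nat.cast_nonneg _) (mul_nonneg (Nat.cast_nonneg _)
      (mul_nonneg
      (lm_nonneg hK.le (div_nonneg hX.le (Nat.cast_nonneg _)) _ _) (hW.nonneg _ _))))
    (fun j κ hj h1 h2 => by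
      have e2 := lm_tau hK hX hδS.2.1.ne_zero hj.1 hGS.2.1 hGS.2.2
      have e3 := g1_mul_g2 (κ := j) hGS.2.1 hGS.2.2
      have e4 : g2 j G * δ * g1 j G = δ * G := by
        conv_rhs => rw [← e3]
        ring
      rw [e2, e4, h2]
      have hW' := hW.nonneg (δ * G) (κ * g1 j G)
      have hl0 : 0 ≤ lm K (X / nm (δ * G)) 1 (κ * g1 j G) :=
        lm_nonneg hK.le (div_nonneg hX.le (Nat.cast_nonneg _)) _ _
      generalize lm K (X / nm (δ * G)) 1 (κ * g1 j G) = l at *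
      generalize W (δ * G) (κ * g1 j G) = W' at *
      have hb1 := nm_ge_one (g2_prim j G).ne_zero
      have ha1 := nm_ge_one (g1_prim j G).ne_zero
      rw [nm_mul]
      push_cast
      generalize (nm (g1 j G) : ℝ) = a at *
      generalize (nm (g2 j G) : ℝ) = b at *
      generalize (nm δ : ℝ) = v at *
      have ha0 : 0 ≤ a := by linarith
      have h5 : 0 ≤ a * (v * (l * W')) := by positivity
      calc v * (a * l * W') = 1 * (a * (v * (l * W'))) := by ring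
        _ ≤ b * (a * (v * (l * W'))) := mul_le_mul_of_nonneg_right hb1 h5
        _ = a * (b * v * (l * W')) := by ring)
  rw [Finset.mul_sum]
  refine h0.trans (le_of_eq ?_)
  refine Finset.sum_congr rfl fun e he => Finset.sum_congr rfl fun U _ => ?_
  have he0 := nmpos ((mem_S hY).1 he).2.1.ne_zero
  split_ifs
  · unfold LW
    rw [Finset.mul_sum, Finset.mul_sum]
    refine Finset.sum_congr ?_ fun _ _ => rfl
    congr 1
    rw [nm_mul]
    push_cast
    rw [div_div]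
    congr 1
    ring
  · rfl

/-- swapping the coordinates of a sum over pairs -/
lemma sum_swap_erase (Y : ℝ) (F : Eis × Eis → ℝ) :
    ∑ p ∈ (S Y ×ˢ S Y).erase (1, 1), F p = ∑ p ∈ (S Y ×ˢ S Y).erase (1, 1), F (p.2, p.1) := by
  refine Finset.sum_bij' (fun p _ => (p.2, p.1)) (fun p _ => (p.2, p.1)) ?_ ?_ ?_ ?_ ?_
  · intro p hp
    have h1 := Finset.mem_erase.mp hp
    have h2 := Finset.mem_product.mp h1.2
    refine Finset.mem_erase.mpr ⟨fun h3 => h1.1 ?_, Finset.mem_product.mpr ⟨h2.2, h2.1⟩⟩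
    have h4 : p.2 = 1 := congrArg Prod.fst h3
    have h5 : p.1 = 1 := congrArg Prod.snd h3
    exact Prod.ext h5 h4
  · intro p hp
    have h1 := Finset.mem_erase.mp hp
    have h2 := Finset.mem_product.mp h1.2
    refine Finset.mem_erase.mpr ⟨fun h3 => h1.1 ?_, Finset.mem_product.mpr ⟨h2.2, h2.1⟩⟩
    have h4 : p.2 = 1 := congrArg Prod.fst h3
    have h5 : p.1 = 1 := congrArg Prod.snd h3
    exact Prod.ext h5 h4
  · intro p _; rfl
  · intro p _; rfl
  · intro p _; rfl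

/-- **EPJ, general weight** -/
theorem EPJW (hW : WOK α W) {K X Y Y₀ Y₁ : ℝ} (hK : 0 < K) (hX : 0 < X) (hY : 0 ≤ Y)
    (hα : ∀ n, α n ≠ 0 → n ∈ S Y) :
    ∑ p ∈ (S Y ×ˢ S Y).erase (1, 1), (nm p.1 * Div277.tau p.1 * (Div277.tau p.2 : ℝ) ^ 4) *
      ((∑ j ∈ BF (Y₁ / (nm p.1 : ℝ) ^ 2), min (nm p.2 : ℝ) (lm K X p.1 j) *
          W (p.1 * p.2) (tau j p.2)) +
        ∑ j ∈ BF (Y₀ / (nm p.1 : ℝ) ^ 2), lm K X p.1 j * W (p.1 * p.2) (tau j p.2)) ≤
      EUW W K X Y Y₀ Y₁ (fun _ => True) := by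
  set N : Eis → Eis → ℝ := fun h U => UW W K X Y₁ h U + LW W K X Y₀ h U with hN
  have hN0 : ∀ h U, 0 ≤ N h U := fun h U =>
    add_nonneg (UW_nonneg hW hK.le hX.le h U) (LW_nonneg hW hK.le hX.le h U)
  set T : Eis → Eis → ℝ := fun δ G => (∑ j ∈ BF (Y₁ / (nm δ : ℝ) ^ 2),
      min (nm G : ℝ) (lm K X δ j) * W (δ * G) (tau j G)) +
    ∑ j ∈ BF (Y₀ / (nm δ : ℝ) ^ 2), lm K X δ j * W (δ * G) (tau j G) with hT
  have hWT : ∀ δ ∈ S Y, ∀ G ∈ S Y, nm δ * T δ G ≤
      ∑ e ∈ S Y, ∑ U ∈ S Y, if e * U = G then nm U * (nm (e * δ) * N (e * δ) U) else 0 := by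
    intro δ hδ G hG
    have a1 := WJ_le_UW (Z := Y₁) hW hK hX hY hδ hG
    have a2 := LJ_le_LW (Z := Y₀) hW hK hX hY hδ hG
    rw [show nm δ * T δ G = nm δ * (∑ j ∈ BF (Y₁ / (nm δ : ℝ) ^ 2),
      min (nm G : ℝ) (lm K X δ j) * W (δ * G) (tau j G)) +
      nm δ * (∑ j ∈ BF (Y₀ / (nm δ : ℝ) ^ 2), lm K X δ j * W (δ * G) (tau j G)) from mul_add _ _ _]
    refine (add_le_add a1 a2).trans (le_of_eq ?_)
    rw [← Finset.sum_add_distrib]
    refine Finset.sum_congr rfl fun e _ => ?_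
    rw [← Finset.sum_add_distrib]
    refine Finset.sum_congr rfl fun U _ => ?_
    split_ifs
    · simp only [hN]; ring
    · ring
  have e1 : ∑ p ∈ (S Y ×ˢ S Y).erase (1, 1), (nm p.1 * Div277.tau p.1 *
      (Div277.tau p.2 : ℝ) ^ 4) * T p.1 p.2 = ∑ p ∈ (S Y ×ˢ S Y).erase (1, 1),
      ((Div277.tau p.2 : ℝ) * (Div277.tau p.1 : ℝ) ^ 4) * (nm p.2 * T p.2 p.1) := by
    rw [sum_swap_erase]
    exact Finset.sum_congr rfl fun p _ => by ring
  show ∑ p ∈ (S Y ×ˢ S Y).erase (1, 1), (nm p.1 * Div277.tau p.1 *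
      (Div277.tau p.2 : ℝ) ^ 4) * T p.1 p.2 ≤ _
  rw [e1]
  have h2 : ∀ p ∈ (S Y ×ˢ S Y).erase (1, 1), ((Div277.tau p.2 : ℝ) * (Div277.tau p.1 : ℝ) ^ 4) *
        (nm p.2 * T p.2 p.1) ≤
      ((Div277.tau p.2 : ℝ) * (Div277.tau p.1 : ℝ) ^ 4) * (∑ e ∈ S Y, ∑ U ∈ S Y,
        if e * U = p.1 then nm U * (nm (e * p.2) * N (e * p.2) U) else 0) := by
    intro p hp
    have hp2 := Finset.mem_product.mp (Finset.mem_of_mem_erase hp)
    exact mul_le_mul_of_nonneg_left (hWT _ hp2.2 _ hp2.1) (by positivity)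
  refine (Finset.sum_le_sum h2).trans ?_
  have h3 := sum_regroup (Y := Y) (a := fun G δ => (Div277.tau δ : ℝ) * (Div277.tau G : ℝ) ^ 4)
    (b := fun e U δ => nm U * (nm (e * δ) * N (e * δ) U))
    (c := fun e U δ => (Div277.tau δ : ℝ) * ((Div277.tau e : ℝ) * Div277.tau U) ^ 4)
    (fun e U δ => mul_nonneg (Nat.cast_nonneg _) (mul_nonneg (Nat.cast_nonneg _) (hN0 _ _)))
    (fun e U δ => by positivity)
    (fun e U δ => by
      have : (Div277.tau (e * U) : ℝ) ≤ Div277.tau e * Div277.tau U := by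
        exact_mod_cast Div277.tau_mul_le e U
      gcongr)
  refine h3.trans ?_
  set M : Eis → Eis → ℝ := fun U h => ((Div277.tau U : ℝ) ^ 3 * (Div277.tau h : ℝ) ^ 3) *
    (nm h * N h U) with hM
  have hM0 : ∀ U h, 0 ≤ M U h := fun U h =>
    mul_nonneg (by positivity) (mul_nonneg (Nat.cast_nonneg _) (hN0 _ _))
  have h4 : ∑ q ∈ Q3 Y, ((Div277.tau q.2.2 : ℝ) * ((Div277.tau q.1 : ℝ) *
        Div277.tau q.2.1) ^ 4) * (nm q.2.1 * (nm (q.1 * q.2.2) * N (q.1 * q.2.2) q.2.1)) ≤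
      ∑ q ∈ Q3 Y, ((Div277.tau q.1 : ℝ) * Div277.tau q.2.1 * (Div277.tau q.2.2 : ℝ) ^ 2) *
        (nm q.2.1 * M q.2.1 (q.1 * q.2.2)) := by
    refine Finset.sum_le_sum fun q hq => ?_
    obtain ⟨hq1, -⟩ := Finset.mem_filter.mp hq
    have hq3 := Finset.mem_product.mp hq1
    have hq4 := Finset.mem_product.mp hq3.2
    have dg := (mem_S hY).1 hq3.1
    have dL := (mem_S hY).1 hq4.2
    have hL0 := dL.2.1.ne_zero
    have hg0 := dg.2.1.ne_zero
    have t1 : (Div277.tau q.1 : ℝ) ≤ Div277.tau (q.1 * q.2.2) := by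
      exact_mod_cast Div277.tau_le_of_dvd (mul_ne_zero hg0 hL0) (dvd_mul_right _ _)
    have t2 := tau_ge_one hL0
    have hN' := hN0 (q.1 * q.2.2) q.2.1
    simp only [hM]
    generalize N (q.1 * q.2.2) q.2.1 = NN at *
    generalize (Div277.tau (q.1 * q.2.2) : ℝ) = th at *
    have t0 : (0 : ℝ) ≤ Div277.tau q.1 := Nat.cast_nonneg _
    have t3 : (0 : ℝ) ≤ Div277.tau q.2.1 := Nat.cast_nonneg _
    generalize (Div277.tau q.1 : ℝ) = te at *
    generalize (Div277.tau q.2.1 : ℝ) = tU at *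
    generalize (Div277.tau q.2.2 : ℝ) = td at *
    have n1 : (0 : ℝ) ≤ nm q.2.1 := Nat.cast_nonneg _
    have n2 : (0 : ℝ) ≤ nm (q.1 * q.2.2) := Nat.cast_nonneg _
    generalize (nm q.2.1 : ℝ) = nU at *
    generalize (nm (q.1 * q.2.2) : ℝ) = nh at *
    have h5 : td * (te * tU) ^ 4 ≤ (te * tU * td ^ 2) * (tU ^ 3 * th ^ 3) := by
      have h6 : te ^ 3 ≤ th ^ 3 := by gcongr
      have h7 : td ≤ td ^ 2 := by nlinarith
      have td0 : 0 ≤ td := by linarith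
      calc td * (te * tU) ^ 4 = (te * tU * td) * (tU ^ 3 * te ^ 3) := by ring
        _ ≤ (te * tU * td ^ 2) * (tU ^ 3 * th ^ 3) := by gcongr
    calc td * (te * tU) ^ 4 * (nU * (nh * NN)) ≤
          ((te * tU * td ^ 2) * (tU ^ 3 * th ^ 3)) * (nU * (nh * NN)) :=
          mul_le_mul_of_nonneg_right h5 (by positivity)
      _ = _ := by ring
  refine h4.trans ?_
  have h5 := sum_triple_le (M := M) (α := α) hY hα hM0 (fun U h h0 => by
    have h1 : ∀ m, α (h * (U * m)) = 0 := fun m => by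
      have := h0 m
      rwa [show U * (h * m) = h * (U * m) by ring] at this
    simp only [hM, hN]
    rw [UW_zero hW h1, LW_zero hW h1, add_zero, mul_zero, mul_zero])
  refine h5.trans (le_of_eq ?_)
  rw [EUW_true, sum_swap_erase]
  exact Finset.sum_congr rfl fun p _ => by
    simp only [hM, hN]
    ring

/-- the pointwise weight -/
def Wt1 (α : Eis → ℂ) (t : ℝ) (g r : Eis) : ℝ := ‖TG (tws (sg α g) t) r‖ ^ 2

lemma Wt1_OK (α : Eis → ℂ) (t : ℝ) : WOK α (Wt1 α t) := by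
  refine ⟨fun g r => by unfold Wt1; positivity, fun g h r => ?_⟩
  unfold Wt1 TG tws sg
  simp [h]

/-- **813's errors in cube-free frequencies** -/
theorem EGp_le {K X Y Z₀ Z₁ : ℝ} (hK : 0 < K) (hX : 0 < X) (hY : 0 ≤ Y)
    (hα : ∀ n, α n ≠ 0 → n ∈ S Y) (t : ℝ) :
    RGw813.EGp K X Y Z₀ Z₁ α t ≤ EUW (Wt1 α t) K X Y Z₀ Z₁ (fun _ => True) := by
  refine le_trans (le_of_eq ?_) (EPJW (Wt1_OK α t) hK hX hY hα)
  unfold RGw813.EGp
  have e0 : RGw813.PP Y = (S Y ×ˢ S Y).erase (1, 1) := rfl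
  rw [e0]
  refine Finset.sum_congr rfl fun p hp => ?_
  have hp2 := Finset.mem_product.mp (Finset.mem_of_mem_erase hp)
  have d1 := (mem_S hY).1 hp2.1
  have d2 := (mem_S hY).1 hp2.2
  have key : ∀ j : Eis, ‖TG (fun m => α (p.1 * p.2 * m) * pw t (nm m)) (j * p.2)‖ ^ 2 =
      Wt1 α t (p.1 * p.2) (tau j p.2) := by
    intro j
    unfold Wt1
    congr 2
    unfold TG
    refine tsum_congr fun m => ?_
    show α (p.1 * p.2 * m) * pw t (nm m) * (G m * conj (sy (j * p.2) m)) =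
      α (p.1 * p.2 * m) * pw t (nm m) * (G m * conj (sy (tau j p.2) m))
    by_cases h : α (p.1 * p.2 * m) = 0
    · rw [h]; simp
    · have h1 := (mem_S hY).1 (hα _ h)
      have hsq := h1.2.2
      have hLm := hsq.squarefree_of_dvd (show p.2 * m ∣ p.1 * p.2 * m from ⟨p.1, by ring⟩)
      have hcop : IsCoprime p.2 m := (squarefree_mul_iff.mp hLm).1.isCoprime
      have hm : IsPrim m := IsPrim.of_mul_left h1.2.1 (d1.2.1.mul d2.2.1)
      rw [sy_tau d2.2.1 d2.2.2 hm hcop]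
  simp only [key]

end Crest.Agent.R017.E1551
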