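import Crest.Agent.R017.E1zd_551

/-!
# Row 17, block C70 (exact square), leaf E1, part ze (helper551): the errors of `rg_absorb`
as one number

* `EUW_le`, `EGp_num`
-/

set_option autoImplicit false

noncomputable section

open Complex MeasureTheory
open scoped ComplexConjugate Classical

namespace Crest.Agent.R017.E1551

open Crest.Agent.R012 Crest.Agent.R012.Eis Crest.Agent.R012.MC
open Crest.Agent.R012.LS2 (S mem_S bl)
open Crest.Agent.R012.Weight600 (pw pw_mul norm_pw)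
open Crest.Agent.R017.CM106 (CS TG)
open Crest.Agent.R017.Dual2813 (S_of_dvd)
open Crest.Agent.R017.Rough381 (VF)

variable {α : Eis → ℂ} {W : Eis → Eis → ℝ}

lemma BF_empty {Z : ℝ} (hZ : ¬ 1 ≤ Z) : BF Z = ∅ := by
  rw [Finset.eq_empty_iff_forall_notMem]
  intro κ hκ
  obtain ⟨h1, h2⟩ := mem_BF.mp hκ
  exact hZ ((nm_ge_one h1.1).trans h2)

lemma BU_empty {Z : ℝ} (hZ : ¬ 1 ≤ Z) (U : Eis) : BU Z U = ∅ := by
  unfold BU
  rw [BF_empty hZ, Finset.filter_empty]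

lemma LW_empty {K X Z : ℝ} (hZ : Z < 1) {h U : Eis} (hh : h ≠ 0) : LW W K X Z h U = 0 := by
  unfold LW
  have h1 := nm_ge_one hh
  have h2 : ¬ 1 ≤ Z / (nm h : ℝ) ^ 2 := by
    rw [not_le, div_lt_one (by positivity)]
    exact hZ.trans_le (one_le_pow₀ h1)
  rw [BU_empty h2, Finset.sum_empty]

/-- **`h` fixed, main range, general weight** -/
theorem large_hW (hW : WOK α W) {K X Y Z M : ℝ} (hK : 0 < K)
    (hX : 0 < X) (hY : 1 ≤ Y) (hM : 0 ≤ M) {h : Eis} (hh : IsPrim h) {Q : Eis → Prop}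
    (hyp : ∀ B V, 1 ≤ B → B ≤ Y → 1 ≤ V → V ≤ Z / (nm h : ℝ) ^ 2 →
      ∑ U ∈ (S Y).filter (fun U => B / 2 < nm U ∧ nm U ≤ B ∧ Q U),
        ∑ κ ∈ BU V U, W (h * U) (κ * U) ≤ M * max B⁻¹ (yv K X h V)) :
    ∑ U ∈ (S Y).filter Q, nm U * UW W K X Z h U ≤
      4 * (1 + 2 * Real.log Y) * (1 + 2 * Real.log (max 1 (Z / (nm h : ℝ) ^ 2))) * M := by
  have hY0 : 0 ≤ Y := by linarith
  have hh0 := hh.ne_zero
  have hlY := Real.log_nonneg hY
  have hlZ := Real.log_nonneg (le_max_left 1 (Z / (nm h : ℝ) ^ 2))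
  set Z' := Z / (nm h : ℝ) ^ 2 with hZ'
  by_cases hZ1 : 1 ≤ Z'
  swap
  · have hz : ∀ U, UW W K X Z h U = 0 := by
      intro U
      unfold UW
      rw [← hZ', BU_empty hZ1, Finset.sum_empty]
    simp only [hz, mul_zero, Finset.sum_const_zero]
    positivity
  rw [max_eq_right hZ1]
  have hUp : ∀ x ∈ TH Y Z' Q, x.1 ∈ S Y ∧ CF x.2 ∧ (nm x.2 : ℝ) ≤ Z' := by
    intro x hx
    obtain ⟨h1, -⟩ := Finset.mem_filter.mp hx
    have h2 := Finset.mem_product.mp h1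
    exact ⟨(Finset.mem_filter.mp h2.1).1, mem_BF.mp h2.2⟩
  have e1 : ∑ U ∈ (S Y).filter Q, nm U * UW W K X Z h U = ∑ x ∈ TH Y Z' Q,
      (nm x.1 * min 1 (lm K (X / nm (h * x.1)) 1 (x.2 * x.1))) *
        W (h * x.1) (x.2 * x.1) := by
    rw [sum_TH Y Z' Q (fun U κ => (nm U * min 1 (lm K (X / nm (h * U)) 1 (κ * U))) *
        W (h * U) (κ * U))]
    refine Finset.sum_congr rfl fun U _ => ?_
    unfold UW
    rw [Finset.mul_sum]
    exact Finset.sum_congr rfl fun κ _ => by ring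
  rw [e1]
  have h1 := dyad2 (T := TH Y Z' Q) (n₁ := fun x => (nm x.1 : ℝ)) (n₂ := fun x => (nm x.2 : ℝ))
    (ω := fun x => nm x.1 * min 1 (lm K (X / nm (h * x.1)) 1 (x.2 * x.1)))
    (f := fun x => W (h * x.1) (x.2 * x.1)) (Z₁ := Y) (Z₂ := Z')
    (D := 4 * M) hY hZ1 (by positivity) (fun x _ => hW.nonneg _ _)
    (fun x _ => mul_nonneg (Nat.cast_nonneg _) (le_min zero_le_one
      (lm_nonneg hK.le (div_nonneg hX.le (Nat.cast_nonneg _)) _ _)))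
    (fun x hx => by
      have := (mem_S hY0).1 (hUp x hx).1
      exact ⟨nm_ge_one this.2.1.ne_zero, this.1⟩)
    (fun x hx => ⟨nm_ge_one (hUp x hx).2.1.1, (hUp x hx).2.2⟩)
    (Ω := fun B V => min B (4 * (yv K X h V)⁻¹))
    (fun B V hB hV => le_min hB.le (by have := yv_pos hK hX hV hh0; positivity))
    (fun x hx B V h1 h2 h3 h4 => by
      obtain ⟨hx1, hx2, -⟩ := hUp x hx
      have hU0 := ((mem_S hY0).1 hx1).2.1.ne_zero
      have hU1 := nmpos hU0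
      show nm x.1 * min 1 (lm K (X / nm (h * x.1)) 1 (x.2 * x.1)) ≤ _
      rw [mul_min_of_nonneg _ _ hU1.le, mul_one, nmU_lm hK hX hh0 hU0 hx2.1]
      exact min_le_min h1 (lm_block hK hX hh0 hx2.1 h3 h4))
    (fun B V hB1 hB2 hV1 hV2 => by
      have hB0 : 0 < B := by linarith
      have hV0 : 0 < V := by linarith
      have hy := yv_pos hK hX hV0 hh0
      rw [TH_filter hV2, sum_TH Y V (fun U => B / 2 < (nm U : ℝ) ∧ (nm U : ℝ) ≤ B ∧ Q U)
        (fun U κ => W (h * U) (κ * U))]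
      have h5 : ∑ U ∈ (S Y).filter (fun U => B / 2 < (nm U : ℝ) ∧ (nm U : ℝ) ≤ B ∧ Q U),
          ∑ κ ∈ BU V U, W (h * U) (κ * U) ≤ M * max B⁻¹ (yv K X h V) := by
        have h0 := hyp B V hB1 hB2 hV1 hV2
        convert h0
      set y := yv K X h V
      have h3 : min B (4 * y⁻¹) * max B⁻¹ y ≤ 4 := by
        rcases le_total B⁻¹ y with h4 | h4
        · rw [max_eq_right h4]
          calc min B (4 * y⁻¹) * y ≤ (4 * y⁻¹) * y :=
                mul_le_mul_of_nonneg_right (min_le_right _ _) hy.le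
            _ = 4 := by field_simp
        · rw [max_eq_left h4]
          calc min B (4 * y⁻¹) * B⁻¹ ≤ B * B⁻¹ :=
                mul_le_mul_of_nonneg_right (min_le_left _ _) (by positivity)
            _ = 1 := by field_simp
            _ ≤ 4 := by norm_num
      have h6 : 0 ≤ min B (4 * y⁻¹) := le_min hB0.le (by positivity)
      have h7 := mul_le_mul_of_nonneg_left h5 h6
      refine (le_of_eq (by congr)).trans (h7.trans ?_)
      calc min B (4 * y⁻¹) * (M * max B⁻¹ y) = (min B (4 * y⁻¹) * max B⁻¹ y) * M := by ring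
        _ ≤ 4 * M := mul_le_mul_of_nonneg_right h3 (by positivity))
  refine h1.trans (le_of_eq ?_)
  ring

/-- the moments at fixed `g`, general weight -/
def FWW (W : Eis → Eis → ℝ) (K X Z : ℝ) (g : Eis) : ℝ :=
  ∑ r ∈ BF (Z * nm g), min 1 (lm K (X / nm g) 1 r) * W g r

lemma UW_le_FWW (hW : WOK α W) {K X Z : ℝ} (hK : 0 ≤ K) (hX : 0 ≤ X) (hZ : 0 ≤ Z)
    {h U : Eis} (hh : h ≠ 0) (hU : U ≠ 0) : UW W K X Z h U ≤ FWW W K X Z (h * U) := by
  have hX' : 0 ≤ X / nm (h * U) := by positivity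
  unfold FWW UW
  exact sum_BU_le (F := fun r => min 1 (lm K (X / nm (h * U)) 1 r) * W (h * U) r) hU
      (win_le hZ hh) fun r => mul_nonneg (le_min zero_le_one (lm_nonneg hK hX' _ _))
        (hW.nonneg _ _)

lemma FWW_nonneg (hW : WOK α W) {K X : ℝ} (hK : 0 ≤ K) (hX : 0 ≤ X) (Z : ℝ) (g : Eis) :
    0 ≤ FWW W K X Z g := by
  have hX' : 0 ≤ X / nm g := by positivity
  exact Finset.sum_nonneg fun r _ => mul_nonneg (le_min zero_le_one (lm_nonneg hK hX' _ _))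
        (hW.nonneg _ _)

/-- `g` fixed from blocks -/
theorem FWW_le (hW : WOK α W) {K X Z M : ℝ} (hK : 0 < K) (hX : 0 < X) (hM : 0 ≤ M)
    {g : Eis} (hg : g ≠ 0) (h : ∀ V, 1 ≤ V → V ≤ Z * nm g → ∑ r ∈ BF V, W g r ≤
      M * max 1 ((V * K / (X / nm g) ^ 2) ^ (1 / 3 : ℝ))) :
    FWW W K X Z g ≤ 4 * (1 + 2 * Real.log (max 1 (Z * nm g))) * M := by
  have hlZ := Real.log_nonneg (le_max_left 1 (Z * nm g))
  have hg0 := nmpos hg
  have hX' : 0 < X / nm g := by positivity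
  by_cases hZ : 1 ≤ Z * nm g
  swap
  · unfold FWW
    rw [BF_empty hZ, Finset.sum_empty]
    positivity
  rw [max_eq_right hZ]
  have h1 := dyad hZ (f := fun r => W g r) (ω := fun r => min 1 (lm K (X / nm g) 1 r))
    (Ω := fun V => min 1 (4 * (V * K / (X / nm g) ^ 2) ^ (-(1 / 3) : ℝ))) (B := 4 * M)
    (fun r => hW.nonneg _ _)
    (fun r hr V h1 h2 => min_le_min le_rfl (lm_dyad hK hX' (mem_BF.mp hr).1.1 h1 h2))
    (fun V hV => le_min zero_le_one (by positivity)) (by positivity)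
    (fun V hV1 hVZ => by
      have h2 := h V hV1 hVZ
      set y := (V * K / (X / nm g) ^ 2) ^ (1 / 3 : ℝ) with hy
      have hV0 : 0 < V := by linarith
      have hy0 : 0 < y := by rw [hy]; positivity
      have e1 : (V * K / (X / nm g) ^ 2) ^ (-(1 / 3) : ℝ) = y⁻¹ := by
        rw [hy, Real.rpow_neg (by positivity)]
      rw [e1]
      have h3 : min 1 (4 * y⁻¹) * max 1 y ≤ 4 := by
        rcases le_total 1 y with h4 | h4
        · rw [max_eq_right h4]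
          calc min 1 (4 * y⁻¹) * y ≤ (4 * y⁻¹) * y :=
                mul_le_mul_of_nonneg_right (min_le_right _ _) hy0.le
            _ = 4 := by field_simp
        · rw [max_eq_left h4, mul_one]
          exact (min_le_left _ _).trans (by norm_num)
      have h5 : 0 ≤ min 1 (4 * y⁻¹) := le_min zero_le_one (by positivity)
      calc min 1 (4 * y⁻¹) * ∑ r ∈ BF V, W g r
          ≤ min 1 (4 * y⁻¹) * (M * max 1 y) := mul_le_mul_of_nonneg_left h2 h5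
        _ = (min 1 (4 * y⁻¹) * max 1 y) * M := by ring
        _ ≤ 4 * M := mul_le_mul_of_nonneg_right h3 (by positivity))
  unfold FWW
  refine h1.trans (le_of_eq ?_)
  ring

lemma EUW_split (W : Eis → Eis → ℝ) (K X Y Y₀ Y₁ : ℝ) (P : Eis × Eis → Prop) :
    EUW W K X Y Y₀ Y₁ (fun _ => True) =
      EUW W K X Y Y₀ Y₁ P + EUW W K X Y Y₀ Y₁ (fun p => ¬ P p) := by
  rw [EUW_true]
  unfold EUW
  convert (Finset.sum_filter_add_sum_filter_not _ P _).symm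

/-- **small part, fixed `g`, general weight, no low tail** -/
theorem EUWs_le (hW : WOK α W) {K X Y Z₀ Z₁ G₀ : ℝ} (hK : 0 ≤ K) (hX : 0 ≤ X) (hY : 0 ≤ Y)
    (hZ₀ : Z₀ < 1) (hZ₁ : 0 ≤ Z₁) (hα : ∀ n, α n ≠ 0 → n ∈ S Y) :
    EUW W K X Y Z₀ Z₁ (fun p => (nm (p.1 * p.2) : ℝ) ≤ G₀) ≤
      ∑ g ∈ ((S Y).erase 1).filter (fun g => (nm g : ℝ) ≤ G₀),
        nm g * (Div277.tau g : ℝ) ^ 12 * FWW W K X Z₁ g := by
  have h1 := sum_dL_le (Y := Y) hY hα
    (M := fun g => if (nm g : ℝ) ≤ G₀ then (Div277.tau g : ℝ) ^ 8 * FWW W K X Z₁ g else 0)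
    (fun g => by
      show 0 ≤ (if (nm g : ℝ) ≤ G₀ then (Div277.tau g : ℝ) ^ 8 * FWW W K X Z₁ g else 0)
      split_ifs
      · exact mul_nonneg (by positivity) (FWW_nonneg hW hK hX Z₁ g)
      · exact le_rfl)
    (fun g hg => by
      show (if (nm g : ℝ) ≤ G₀ then (Div277.tau g : ℝ) ^ 8 * FWW W K X Z₁ g else 0) = 0
      split_ifs
      · have : FWW W K X Z₁ g = 0 := by
          unfold FWW
          simp only [hW.zero g hg, mul_zero, Finset.sum_const_zero]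
        rw [this, mul_zero]
      · rfl)
  have e2 : ∑ g ∈ ((S Y).erase 1).filter (fun g => (nm g : ℝ) ≤ G₀),
        nm g * (Div277.tau g : ℝ) ^ 12 * FWW W K X Z₁ g =
      ∑ g ∈ (S Y).erase 1, nm g * (Div277.tau g : ℝ) ^ 4 *
        (if (nm g : ℝ) ≤ G₀ then (Div277.tau g : ℝ) ^ 8 * FWW W K X Z₁ g else 0) := by
    rw [Finset.sum_filter]
    refine Finset.sum_congr rfl fun g _ => ?_
    split_ifs <;> ring
  rw [e2]
  refine le_trans ?_ h1
  unfold EUW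
  rw [Finset.sum_filter]
  refine Finset.sum_le_sum fun p hp => ?_
  have hp1 := Finset.mem_erase.mp hp
  have hp2 := Finset.mem_product.mp hp1.2
  have d1 := ((mem_S hY).1 hp2.1).2.1.ne_zero
  have d2 := ((mem_S hY).1 hp2.2).2.1.ne_zero
  have hg0 : p.1 * p.2 ≠ 0 := mul_ne_zero d1 d2
  split_ifs with h
  · have t1 : (Div277.tau p.1 : ℝ) ≤ Div277.tau (p.1 * p.2) := by
      exact_mod_cast Div277.tau_le_of_dvd hg0 (dvd_mul_right _ _)
    have t2 : (Div277.tau p.2 : ℝ) ≤ Div277.tau (p.1 * p.2) := by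
      exact_mod_cast Div277.tau_le_of_dvd hg0 (dvd_mul_left _ _)
    have t3 : (0 : ℝ) ≤ Div277.tau p.1 := Nat.cast_nonneg _
    have t4 : (0 : ℝ) ≤ Div277.tau p.2 := Nat.cast_nonneg _
    have h3 := UW_le_FWW hW hK hX hZ₁ d1 d2
    have h4 := FWW_nonneg hW hK hX Z₁ (p.1 * p.2)
    rw [LW_empty hZ₀ d1, add_zero]
    have n1 : (0 : ℝ) ≤ nm p.1 := Nat.cast_nonneg _
    have n2 : (0 : ℝ) ≤ nm p.2 := Nat.cast_nonneg _
    generalize (Div277.tau (p.1 * p.2) : ℝ) = tg at *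
    generalize (Div277.tau p.1 : ℝ) = ta at *
    generalize (Div277.tau p.2 : ℝ) = tb at *
    generalize FWW W K X Z₁ (p.1 * p.2) = MM at *
    generalize UW W K X Z₁ p.1 p.2 = UU at *
    have h5 : ta ^ 7 * tb ^ 4 ≤ (ta * tb ^ 2) * tg ^ 8 := by
      calc ta ^ 7 * tb ^ 4 = (ta * tb ^ 2) * (ta ^ 6 * tb ^ 2) := by ring
        _ ≤ (ta * tb ^ 2) * (tg ^ 6 * tg ^ 2) := by gcongr
        _ = _ := by ring
    calc (ta ^ 7 * tb ^ 4) * ((nm p.1 * nm p.2) * UU)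
        ≤ (ta ^ 7 * tb ^ 4) * ((nm p.1 * nm p.2) * MM) := by gcongr
      _ ≤ ((ta * tb ^ 2) * tg ^ 8) * ((nm p.1 * nm p.2) * MM) := by gcongr
      _ = _ := by ring
  · rw [mul_zero]

/-- **all errors as one number, general weight, no low tail** -/
theorem EUW_le {ε : ℝ} (hε : 0 < ε) : ∃ C : ℝ, 0 ≤ C ∧
    ∀ (α : Eis → ℂ) (W : Eis → Eis → ℝ) (P K X Y Z₀ Z₁ G₀ Ms Ml : ℝ), WOK α W → 1 ≤ P →
      0 < K → 0 < X → 1 ≤ Y → Y ≤ P → Z₀ < 1 → 0 ≤ Z₁ → Z₁ ≤ P → 0 ≤ Ms → 0 ≤ Ml →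
      (∀ n, α n ≠ 0 → n ∈ S Y) →
      (∀ g ∈ S Y, g ≠ 1 → (nm g : ℝ) ≤ G₀ → ∀ V, 1 ≤ V → V ≤ Z₁ * nm g →
        ∑ r ∈ BF V, W g r ≤ Ms / (nm g : ℝ) ^ 2 *
          max 1 ((V * K / (X / nm g) ^ 2) ^ (1 / 3 : ℝ))) →
      (∀ h ∈ S Y, ∀ B V, 1 ≤ B → B ≤ Y → 1 ≤ V → V ≤ Z₁ / (nm h : ℝ) ^ 2 →
        ∑ U ∈ (S Y).filter (fun U => B / 2 < nm U ∧ nm U ≤ B ∧ G₀ < nm (h * U)),
          ∑ κ ∈ BU V U, W (h * U) (κ * U) ≤ Ml / (nm h : ℝ) ^ 2 * max B⁻¹ (yv K X h V)) →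
      EUW W K X Y Z₀ Z₁ (fun _ => True) ≤ C * P ^ ε * (Ms + Ml) := by
  obtain ⟨C₁, hC₁, hτ⟩ := CR3436.tau_pow_le 12 (ε := ε / 2) (by positivity)
  obtain ⟨C₂, hC₂, hτ7⟩ := CR3436.tau_pow_le 7 (ε := ε / 4) (by positivity)
  obtain ⟨C₃, hC₃, hτ4⟩ := CR3436.tau_pow_le 4 (ε := ε / 4) (by positivity)
  obtain ⟨C₄, hC₄, hlg⟩ := PInv255.one_add_log_pow_le 4 (ε / 2) (by positivity)
  refine ⟨1600 * C₁ * C₄ + 1600 * (C₂ * C₃) * C₄, by positivity,
    fun α W P K X Y Z₀ Z₁ G₀ Ms Ml hW hP hK hX hY hYP hZ₀ h1 h1P hMs hMl hα hS hL => ?_⟩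
  have hY0 : 0 ≤ Y := by linarith
  have hP0 : 0 < P := by linarith
  have hlP := Real.log_nonneg hP
  have hlYP : Real.log Y ≤ Real.log P := Real.log_le_log (by linarith) hYP
  have hsum : ∑ g ∈ S Y, 1 / (nm g : ℝ) ≤ 100 * (1 + Real.log P) :=
    (sum_inv_S551 hY).trans (by linarith)
  have hl4 := hlg P hP
  have hPe : P ^ (ε / 2) * P ^ (ε / 2) = P ^ ε := by
    rw [← Real.rpow_add hP0]; congr 1; ring
  have hPe4 : P ^ (ε / 4) * P ^ (ε / 4) = P ^ (ε / 2) := by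
    rw [← Real.rpow_add hP0]; congr 1; ring
  set l := Real.log P with hl
  have hPp : 0 < P ^ (ε / 2) := by positivity
  have hl24 : (1 + l) ^ 2 ≤ (1 + l) ^ 4 := pow_le_pow_right₀ (by linarith) (by norm_num)
  have hl34 : (1 + l) ^ 3 ≤ (1 + l) ^ 4 := pow_le_pow_right₀ (by linarith) (by norm_num)
  rw [EUW_split W K X Y Z₀ Z₁ (fun p => (nm (p.1 * p.2) : ℝ) ≤ G₀)]
  -- small part
  have hs : EUW W K X Y Z₀ Z₁ (fun p => (nm (p.1 * p.2) : ℝ) ≤ G₀) ≤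
      1600 * C₁ * C₄ * P ^ ε * Ms := by
    refine (EUWs_le hW hK.le hX.le hY0 hZ₀ h1 hα).trans ?_
    have h2 : ∀ g ∈ ((S Y).erase 1).filter (fun g => (nm g : ℝ) ≤ G₀),
        nm g * (Div277.tau g : ℝ) ^ 12 * FWW W K X Z₁ g ≤
          (C₁ * P ^ (ε / 2) * (4 * (1 + 4 * l) * Ms)) * (1 / (nm g : ℝ)) := by
      intro g hg
      obtain ⟨hg1, hg2⟩ := Finset.mem_filter.mp hg
      obtain ⟨hg3, hg4⟩ := Finset.mem_erase.mp hg1
      have hgS := (mem_S hY0).1 hg4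
      have hg0 := nmpos hgS.2.1.ne_zero
      have a1 := hτ P g hgS.2.1 (hgS.1.trans hYP)
      have a2 := FWW_le (Z := Z₁) (M := Ms / (nm g : ℝ) ^ 2) hW hK hX (by positivity)
        hgS.2.1.ne_zero (hS g hg4 hg3 hg2)
      have a4 : Real.log (max 1 (Z₁ * nm g)) ≤ 2 * l := by
        have h3 : max 1 (Z₁ * nm g) ≤ P ^ 2 := by
          refine max_le (one_le_pow₀ hP) ?_
          have hgP : (nm g : ℝ) ≤ P := hgS.1.trans hYP
          calc Z₁ * nm g ≤ P * nm g := mul_le_mul_of_nonneg_right h1P hg0.le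
            _ ≤ P * P := mul_le_mul_of_nonneg_left hgP (by linarith)
            _ = P ^ 2 := by ring
        have h4 := Real.log_le_log (by positivity) h3
        rw [Real.log_pow] at h4
        push_cast at h4
        exact h4
      have a5 : FWW W K X Z₁ g ≤ 4 * (1 + 4 * l) * (Ms / (nm g : ℝ) ^ 2) := by
        refine a2.trans ?_
        have : 1 + 2 * Real.log (max 1 (Z₁ * nm g)) ≤ 1 + 4 * l := by linarith
        gcongr
      have a3 := FWW_nonneg hW hK.le hX.le Z₁ g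
      calc nm g * (Div277.tau g : ℝ) ^ 12 * FWW W K X Z₁ g
          ≤ nm g * (C₁ * P ^ (ε / 2)) * (4 * (1 + 4 * l) * (Ms / (nm g : ℝ) ^ 2)) :=
            mul_le_mul (mul_le_mul_of_nonneg_left a1 hg0.le) a5 a3 (by positivity)
        _ = _ := by field_simp
    refine (Finset.sum_le_sum h2).trans ?_
    rw [← Finset.mul_sum]
    have h3 : ∑ g ∈ ((S Y).erase 1).filter (fun g => (nm g : ℝ) ≤ G₀), 1 / (nm g : ℝ) ≤
        100 * (1 + l) := by
      refine (Finset.sum_le_sum_of_subset_of_nonneg ?_ fun _ _ _ => by positivity).trans hsum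
      exact (Finset.filter_subset _ _).trans (Finset.erase_subset _ _)
    calc (C₁ * P ^ (ε / 2) * (4 * (1 + 4 * l) * Ms)) *
          ∑ g ∈ ((S Y).erase 1).filter (fun g => (nm g : ℝ) ≤ G₀), 1 / (nm g : ℝ)
        ≤ (C₁ * P ^ (ε / 2) * (4 * (4 * (1 + l)) * Ms)) * (100 * (1 + l)) := by
          have : 1 + 4 * l ≤ 4 * (1 + l) := by linarith
          gcongr
      _ = 1600 * C₁ * P ^ (ε / 2) * Ms * (1 + l) ^ 2 := by ring
      _ ≤ 1600 * C₁ * P ^ (ε / 2) * Ms * (C₄ * P ^ (ε / 2)) := by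
          have := hl24.trans hl4
          gcongr
      _ = 1600 * C₁ * C₄ * (P ^ (ε / 2) * P ^ (ε / 2)) * Ms := by ring
      _ = _ := by rw [hPe]
  -- large part
  have hlg2 : ∀ Pn : Eis × Eis → Prop, (∀ p, Pn p → G₀ < (nm (p.1 * p.2) : ℝ)) →
      EUW W K X Y Z₀ Z₁ Pn ≤ 1600 * (C₂ * C₃) * C₄ * P ^ ε * Ml := by
    intro Pn hPn
    have hN0 : ∀ h U, 0 ≤ UW W K X Z₁ h U := fun h U => UW_nonneg hW hK.le hX.le h U
    have h2 : EUW W K X Y Z₀ Z₁ Pn ≤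
        ∑ h ∈ S Y, (C₂ * C₃ * P ^ (ε / 2)) * (nm h * ∑ U ∈ (S Y).filter
          (fun U => G₀ < (nm (h * U) : ℝ)), nm U * UW W K X Z₁ h U) := by
      have e1 : ∑ h ∈ S Y, (C₂ * C₃ * P ^ (ε / 2)) * (nm h * ∑ U ∈ (S Y).filter
          (fun U => G₀ < (nm (h * U) : ℝ)), nm U * UW W K X Z₁ h U) =
          ∑ p ∈ (S Y ×ˢ S Y).filter (fun p => G₀ < (nm (p.1 * p.2) : ℝ)),
            (C₂ * C₃ * P ^ (ε / 2)) * ((nm p.1 * nm p.2) * UW W K X Z₁ p.1 p.2) := by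
        rw [Finset.sum_filter, Finset.sum_product]
        refine Finset.sum_congr rfl fun h _ => ?_
        rw [Finset.sum_filter, Finset.mul_sum, Finset.mul_sum]
        refine Finset.sum_congr rfl fun U _ => ?_
        split_ifs <;> ring
      rw [e1]
      unfold EUW
      have h3 : ((S Y ×ˢ S Y).erase (1, 1)).filter Pn ⊆
          (S Y ×ˢ S Y).filter (fun p => G₀ < (nm (p.1 * p.2) : ℝ)) := by
        intro p hp
        obtain ⟨hp1, hp2⟩ := Finset.mem_filter.mp hp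
        exact Finset.mem_filter.mpr ⟨Finset.mem_of_mem_erase hp1, hPn p hp2⟩
      refine (Finset.sum_le_sum fun p hp => ?_).trans
        (Finset.sum_le_sum_of_subset_of_nonneg h3 fun p _ _ => by
          have := hN0 p.1 p.2
          positivity)
      obtain ⟨hp1, -⟩ := Finset.mem_filter.mp hp
      have hp2 := Finset.mem_product.mp (Finset.mem_of_mem_erase hp1)
      have d1 := (mem_S hY0).1 hp2.1
      have d2 := (mem_S hY0).1 hp2.2
      have a1 := hτ7 P p.1 d1.2.1 (d1.1.trans hYP)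
      have a2 := hτ4 P p.2 d2.2.1 (d2.1.trans hYP)
      have h4 := hN0 p.1 p.2
      rw [LW_empty hZ₀ d1.2.1.ne_zero, add_zero]
      refine mul_le_mul_of_nonneg_right ?_ (by positivity)
      calc (Div277.tau p.1 : ℝ) ^ 7 * (Div277.tau p.2 : ℝ) ^ 4
          ≤ (C₂ * P ^ (ε / 4)) * (C₃ * P ^ (ε / 4)) := by gcongr
        _ = C₂ * C₃ * (P ^ (ε / 4) * P ^ (ε / 4)) := by ring
        _ = _ := by rw [hPe4]
    refine h2.trans ?_
    have h3 : ∀ h ∈ S Y, (C₂ * C₃ * P ^ (ε / 2)) * (nm h * ∑ U ∈ (S Y).filter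
          (fun U => G₀ < (nm (h * U) : ℝ)), nm U * UW W K X Z₁ h U) ≤
        (C₂ * C₃ * P ^ (ε / 2) * (4 * (1 + 2 * l) ^ 2 * Ml)) * (1 / (nm h : ℝ)) := by
      intro h hh
      have hhS := (mem_S hY0).1 hh
      have hh0 := nmpos hhS.2.1.ne_zero
      have hh1 := nm_ge_one hhS.2.1.ne_zero
      have b1 := large_hW (M := Ml / (nm h : ℝ) ^ 2) (Q := fun U => G₀ < (nm (h * U) : ℝ))
        hW hK hX hY (by positivity) hhS.2.1 (fun B V hB hB' hV hV' => by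
          have h0 := hL h hh B V hB hB' hV hV'
          convert h0)
      have c1 : Real.log (max 1 (Z₁ / (nm h : ℝ) ^ 2)) ≤ l := by
        refine Real.log_le_log (by positivity) (max_le hP ?_)
        exact (div_le_self h1 (one_le_pow₀ hh1)).trans h1P
      have c3 := Real.log_nonneg (le_max_left 1 (Z₁ / (nm h : ℝ) ^ 2))
      have hlY := Real.log_nonneg hY
      have b4 : ∑ U ∈ (S Y).filter (fun U => G₀ < (nm (h * U) : ℝ)),
          nm U * UW W K X Z₁ h U ≤ 4 * (1 + 2 * l) * (1 + 2 * l) * (Ml / (nm h : ℝ) ^ 2) := by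
        refine (le_trans (le_of_eq (by congr)) b1).trans ?_
        gcongr
      calc (C₂ * C₃ * P ^ (ε / 2)) * (nm h *
            ∑ U ∈ (S Y).filter (fun U => G₀ < (nm (h * U) : ℝ)), nm U * UW W K X Z₁ h U)
          ≤ (C₂ * C₃ * P ^ (ε / 2)) * (nm h *
            (4 * (1 + 2 * l) * (1 + 2 * l) * (Ml / (nm h : ℝ) ^ 2))) := by
            gcongr
        _ = _ := by field_simp
    refine (Finset.sum_le_sum h3).trans ?_
    rw [← Finset.mul_sum]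
    calc (C₂ * C₃ * P ^ (ε / 2) * (4 * (1 + 2 * l) ^ 2 * Ml)) * ∑ h ∈ S Y, 1 / (nm h : ℝ)
        ≤ (C₂ * C₃ * P ^ (ε / 2) * (4 * (2 * (1 + l)) ^ 2 * Ml)) * (100 * (1 + l)) := by
          have : 1 + 2 * l ≤ 2 * (1 + l) := by linarith
          gcongr
      _ = 1600 * (C₂ * C₃) * P ^ (ε / 2) * Ml * (1 + l) ^ 3 := by ring
      _ ≤ 1600 * (C₂ * C₃) * P ^ (ε / 2) * Ml * (C₄ * P ^ (ε / 2)) := by
          have := hl34.trans hl4
          gcongr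
      _ = 1600 * (C₂ * C₃) * C₄ * (P ^ (ε / 2) * P ^ (ε / 2)) * Ml := by ring
      _ = _ := by rw [hPe]
  have hp1 : 0 ≤ 1600 * C₁ * C₄ * P ^ ε * Ml := by positivity
  have hp2 : 0 ≤ 1600 * (C₂ * C₃) * C₄ * P ^ ε * Ms := by positivity
  calc _ ≤ 1600 * C₁ * C₄ * P ^ ε * Ms + 1600 * (C₂ * C₃) * C₄ * P ^ ε * Ml :=
        add_le_add hs (hlg2 _ fun p hp => not_le.mp hp)
    _ ≤ _ := by nlinarith

/-- **813's errors as one number** (`Z₀ < 1`: no low tail) -/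
theorem EGp_num {ε : ℝ} (hε : 0 < ε) : ∃ C : ℝ, 0 ≤ C ∧
    ∀ (α : Eis → ℂ) (t P K X Y Z₀ Z₁ G₀ Ms Ml : ℝ), 1 ≤ P →
      0 < K → 0 < X → 1 ≤ Y → Y ≤ P → Z₀ < 1 → 0 ≤ Z₁ → Z₁ ≤ P → 0 ≤ Ms → 0 ≤ Ml →
      (∀ n, α n ≠ 0 → n ∈ S Y) →
      (∀ g ∈ S Y, g ≠ 1 → (nm g : ℝ) ≤ G₀ → ∀ V, 1 ≤ V → V ≤ Z₁ * nm g →
        VF V (tws (sg α g) t) ≤ Ms / (nm g : ℝ) ^ 2 *
          max 1 ((V * K / (X / nm g) ^ 2) ^ (1 / 3 : ℝ))) →
      (∀ h ∈ S Y, ∀ B V, 1 ≤ B → B ≤ Y → 1 ≤ V → V ≤ Z₁ / (nm h : ℝ) ^ 2 →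
        JB Y α (fun U => G₀ < nm (h * U)) h B V t ≤
          Ml / (nm h : ℝ) ^ 2 * max B⁻¹ (yv K X h V)) →
      RGw813.EGp K X Y Z₀ Z₁ α t ≤ C * P ^ ε * (Ms + Ml) := by
  obtain ⟨C, hC, h⟩ := EUW_le hε
  refine ⟨C, hC, fun α t P K X Y Z₀ Z₁ G₀ Ms Ml hP hK hX hY hYP hZ₀ h1 h1P hMs hMl hα hS hL => ?_⟩
  refine (EGp_le hK hX (by linarith) hα t).trans ?_
  refine h α (Wt1 α t) P K X Y Z₀ Z₁ G₀ Ms Ml (Wt1_OK α t) hP hK hX hY hYP hZ₀ h1 h1P hMs hMl hα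
    (fun g hg hg1 hg2 V hV hV' => ?_) (fun h' hh B V hB hB' hV hV' => ?_)
  · have h3 := hS g hg hg1 hg2 V hV hV'
    rwa [← sum_BF_Vt] at h3
  · have h3 := hL h' hh B V hB hB' hV hV'
    unfold JB at h3
    refine (le_of_eq (by congr)).trans h3

end Crest.Agent.R017.E1551
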