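import Crest.Agent.R017.E1za_551

/-!
# Row 17, block C70 (exact square), leaf E1, part zf (helper551): the window `J` with an arbitrary
bound `D ≥ 1` for `δ`

The classes with `N(δ) > D` go to the errors with the full weight `lm`.

* `zd`, `EG3`, `EP_le3`, `E1posJ3`, `E1posW3`
* `ED`, `EG3_le`
-/

set_option autoImplicit false

noncomputable section

open Complex MeasureTheory
open scoped ComplexConjugate Classical

namespace Crest.Agent.R017.E1551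

open Crest.Agent.R012 Crest.Agent.R012.Eis Crest.Agent.R012.MC
open Crest.Agent.R012.LS2 (S mem_S)
open Crest.Agent.R012.Mob705 (pdiv PE)
open Crest.Agent.R012.Weight600 (pw)
open Crest.Agent.R017.CM106 (CS TG)
open Crest.Agent.R017.Dual2813 (S_of_dvd)
open Crest.Agent.R017.SqLoc829 (JE JE_cf mem_JE gd gd_prim gd_dvd_left gd_dvd_right)
open Crest.Agent.R017.C70 (JW XJ)

/-- the upper edge of the classes which stay in the errors with the full weight -/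
def zd (D Y₀ Y₁ : ℝ) (δ : Eis) : ℝ := if (nm δ : ℝ) ≤ D then Y₀ else Y₁

lemma zd_le {D Y₀ Y₁ : ℝ} (h : Y₀ ≤ Y₁) (δ : Eis) : zd D Y₀ Y₁ δ ≤ Y₁ := by
  unfold zd
  split_ifs
  · exact h
  · exact le_rfl

lemma JE_out3 {D Y₀ Y₁ : ℝ} {d : Eis} (hd : IsPrim d)
    {κ : Eis} (hκ : CF κ) (h : κ ∉ JE D Y₀ Y₁ d) :
    (nm (κ / gd κ d * (d / gd κ d) ^ 2) : ℝ) ≤ zd D Y₀ Y₁ (d / gd κ d) ∨
      Y₁ < nm (κ / gd κ d * (d / gd κ d) ^ 2) := by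
  rw [mem_JE hd] at h
  unfold zd
  split_ifs with hδ
  · by_contra hc
    push Not at hc
    exact h ⟨hκ, Nat.le_floor hδ, hc.1, hc.2⟩
  · exact le_or_gt _ _

/-- regrouping of a finite sum over classes -/
lemma cls_sum_le3 {Y : ℝ} {Z : Eis → ℝ} (hY : 0 ≤ Y) {d : Eis} (hd : d ∈ S Y) {J : Finset Eis}
    (hJ : ∀ κ ∈ J, CF κ ∧ (nm (κ / gd κ d * (d / gd κ d) ^ 2) : ℝ) ≤ Z (d / gd κ d))
    {f : Eis → ℝ} {F : Eis → Eis → Eis → ℝ} (hF : ∀ g δ j, 0 ≤ F g δ j)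
    (h : ∀ g δ j, g ≠ 0 → δ ≠ 0 → d = g * δ → CF (g * j) → f (g * j) ≤ F g δ j) :
    ∑ κ ∈ J, f κ ≤ ∑ g ∈ S Y, ∑ δ ∈ S Y,
      if g * δ = d then ∑ j ∈ BF (Z δ / (nm δ : ℝ) ^ 2), F g δ j else 0 := by
  have hdS := (mem_S hY).1 hd
  have hd0 := hdS.2.1.ne_zero
  have hgS : ∀ κ ∈ J, gd κ d ∈ S Y := fun κ _ => S_of_dvd hY hd (gd_prim κ d) (gd_dvd_right κ d)
  rw [← Finset.sum_fiberwise_of_maps_to (t := S Y) (g := fun κ => gd κ d) hgS]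
  refine Finset.sum_le_sum fun g hg => ?_
  have hg' := (mem_S hY).1 hg
  have hg0 := hg'.2.1.ne_zero
  have hnn : ∀ δ ∈ S Y, 0 ≤ (if g * δ = d then ∑ j ∈ BF (Z δ / (nm δ : ℝ) ^ 2), F g δ j else 0) := by
    intro δ _
    split_ifs
    · exact Finset.sum_nonneg fun _ _ => hF _ _ _
    · exact le_rfl
  by_cases hgd : g ∣ d
  · obtain ⟨δ, hδ⟩ := hgd
    have hδp : IsPrim δ := IsPrim.of_mul_left (by rw [← hδ]; exact hdS.2.1) hg'.2.1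
    have hδS : δ ∈ S Y := S_of_dvd hY hd hδp (by rw [hδ]; exact dvd_mul_left _ _)
    have hδ0 : δ ≠ 0 := hδp.ne_zero
    refine le_trans ?_ (Finset.single_le_sum hnn hδS)
    rw [if_pos hδ.symm]
    have hdiv : ∀ κ ∈ J.filter (fun κ => gd κ d = g), κ = g * (κ / g) := by
      intro κ hκ
      obtain ⟨hκ1, hκ2⟩ := Finset.mem_filter.mp hκ
      obtain ⟨x, hx⟩ : g ∣ κ := by rw [← hκ2]; exact gd_dvd_left κ d
      rw [div_of_eq hg0 hx]; exact hx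
    have hle : ∑ κ ∈ J.filter (fun κ => gd κ d = g), f κ ≤
        ∑ κ ∈ J.filter (fun κ => gd κ d = g), F g δ (κ / g) := by
      refine Finset.sum_le_sum fun κ hκ => ?_
      have e := hdiv κ hκ
      have hcf := (hJ κ (Finset.mem_filter.mp hκ).1).1
      have := h g δ (κ / g) hg0 hδ0 hδ (by rw [← e]; exact hcf)
      rwa [← e] at this
    refine hle.trans ?_
    have hinj : Set.InjOn (fun κ => κ / g) (J.filter (fun κ => gd κ d = g) : Set Eis) := by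
      intro κ hκ κ' hκ' he
      have e1 := hdiv κ hκ
      have e2 := hdiv κ' hκ'
      simp only at he
      rw [e1, e2, he]
    rw [← Finset.sum_image (f := fun j => F g δ j) (g := fun κ => κ / g) hinj]
    refine Finset.sum_le_sum_of_subset_of_nonneg ?_ fun _ _ _ => hF _ _ _
    intro j hj
    obtain ⟨κ, hκ, rfl⟩ := Finset.mem_image.mp hj
    obtain ⟨hκ1, hκ2⟩ := Finset.mem_filter.mp hκ
    have e := hdiv κ hκ
    obtain ⟨hcf, hle2⟩ := hJ κ hκ1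
    refine mem_BF.mpr ⟨cf_of_mul (a := g) (by rw [← e]; exact hcf), ?_⟩
    have e3 : d / gd κ d = δ := by rw [hκ2]; exact div_of_eq hg0 hδ
    rw [e3, hκ2, nm_mul, nm_pow] at hle2
    push_cast at hle2
    have hδp' := nmpos hδ0
    rw [le_div_iff₀ (by positivity)]
    exact hle2
  · have : J.filter (fun κ => gd κ d = g) = ∅ := by
      rw [Finset.filter_eq_empty_iff]
      intro κ hκ he
      exact hgd (by rw [← he]; exact gd_dvd_right κ d)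
    rw [this, Finset.sum_empty]
    exact Finset.sum_nonneg hnn

/-- the tail with the exact low part -/
theorem tail_JE_raw3 {A B K X Y D Y₀ Y₁ : ℝ} (hA : 1 < A) (hB : 1 ≤ B) (hK : 0 < K) (hX : 0 < X)
    (hY : 0 ≤ Y) (hY₁ : 0 < Y₁) (h01 : Y₀ ≤ Y₁)
    {α : Eis → ℂ} (hα : ∀ n, α n ≠ 0 → n ∈ S Y) {d L : Eis} (hd : d ∈ S Y) (hL : IsPrim L) :
    (∑' κ : Eis, if CF κ ∧ κ ∉ JE D Y₀ Y₁ d then tl B K X d κ * Wf A α d κ L else 0) ≤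
      ∑ κ ∈ (BF (Y₁ * nm d)).filter (fun κ => (nm (κ / gd κ d * (d / gd κ d) ^ 2) : ℝ) ≤
          zd D Y₀ Y₁ (d / gd κ d)),
        lm K X d κ * Wf A α d κ L + (nm d : ℝ) ^ 3 * Et A B K X Y Y₁ α := by
  have hd' := (mem_S hY).1 hd
  have hdp := hd'.2.1
  set T := (BF (Y₁ * nm d)).filter
    (fun κ => (nm (κ / gd κ d * (d / gd κ d) ^ 2) : ℝ) ≤ zd D Y₀ Y₁ (d / gd κ d)) with hT
  set ρ := 3 * (X ^ (2 / 3 : ℝ) * (K * Y₁) ^ (-(1 / 3) : ℝ)) with hρ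
  set c1 := 3 * (X ^ (2 / 3 : ℝ) * K ^ (-(1 / 3) : ℝ)) with hc1
  have hρ0 : 0 ≤ ρ := by rw [hρ]; positivity
  set F0 : ℝ := (∫ t, jb A t) * (∑ n ∈ S Y, ‖α n‖) ^ 2 with hF0
  have hjb : 0 ≤ ∫ t, jb A t := integral_nonneg fun t => (jb_pos A t).le
  have hF00 : 0 ≤ F0 := mul_nonneg hjb (by positivity)
  have hWf : ∀ κ, Wf A α d κ L ≤ F0 := by
    intro κ
    refine (Wf_le hA hY hα hdp hL κ).trans ?_
    refine mul_le_mul_of_nonneg_left ?_ hjb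
    refine pow_le_pow_left₀ (Finset.sum_nonneg fun _ _ => norm_nonneg _) ?_ 2
    have := sum_sub_le hα (mul_ne_zero hdp.ne_zero hL.ne_zero)
    simpa only [mul_assoc] using this
  have hρB : 0 ≤ ρ ^ (3 * (B - 1)) := Real.rpow_nonneg hρ0 _
  set H : Eis → ℝ := fun κ => (ρ ^ (3 * (B - 1)) * ((nm d : ℝ) ^ 3 * c1 ^ 4) * F0) *
    (nm κ : ℝ) ^ (-(4 / 3) : ℝ) with hH
  have hsH : Summable H := (summable_inv_nm (by norm_num : (1 : ℝ) < 4 / 3)).mul_left _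
  set f1 : Eis → ℝ := fun κ => if κ ∈ T then lm K X d κ * Wf A α d κ L else 0 with hf1
  have hs1 : Summable f1 := summable_of_hasFiniteSupport (T.finite_toSet.subset
    fun κ hκ => by
      by_contra h
      apply hκ
      have h' : κ ∉ T := fun h3 => h (Finset.mem_coe.mpr h3)
      simp only [hf1, if_neg h'])
  have hf10 : ∀ κ, 0 ≤ f1 κ := fun κ => by
    simp only [hf1]
    split_ifs
    · exact mul_nonneg (lm_nonneg hK.le hX.le _ _) (Wf_nonneg _ _ _ _ _)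
    · exact le_rfl
  have hH0 : ∀ κ, 0 ≤ H κ := fun κ => by simp only [hH]; positivity
  have hle : ∀ κ : Eis, (if CF κ ∧ κ ∉ JE D Y₀ Y₁ d then tl B K X d κ * Wf A α d κ L else 0) ≤
      f1 κ + H κ := by
    intro κ
    by_cases h : CF κ ∧ κ ∉ JE D Y₀ Y₁ d
    · rw [if_pos h]
      have hW := Wf_nonneg A α d κ L
      rcases JE_out3 hdp h.1 h.2 with h1 | h1
      · have h2 : κ ∈ T := Finset.mem_filter.mpr
          ⟨mem_BF.mpr ⟨h.1, nm_low h.1.1 hdp (h1.trans (zd_le h01 _))⟩, h1⟩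
        have h3 : tl B K X d κ * Wf A α d κ L ≤ f1 κ := by
          simp only [hf1, if_pos h2]
          exact mul_le_mul_of_nonneg_right (tl_le_lm (by linarith) hK hX) hW
        linarith [hH0 κ]
      · have h2 := tl_le hB hK hX hdp hd'.2.2 h.1.1 (lm_high hK hX hY₁ h.1.1 hdp h1)
        have h3 : tl B K X d κ * Wf A α d κ L ≤ H κ := by
          calc tl B K X d κ * Wf A α d κ L
              ≤ (ρ ^ (3 * (B - 1)) * ((nm d : ℝ) ^ 3 * c1 ^ 4) * (nm κ : ℝ) ^ (-(4 / 3) : ℝ)) *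
                F0 := mul_le_mul h2 (hWf κ) hW (by positivity)
            _ = _ := by simp only [hH]; ring
        linarith [hf10 κ]
    · rw [if_neg h]
      exact add_nonneg (hf10 κ) (hH0 κ)
  have hsum : Summable fun κ : Eis =>
      if CF κ ∧ κ ∉ JE D Y₀ Y₁ d then tl B K X d κ * Wf A α d κ L else 0 :=
    Summable.of_nonneg_of_le (fun κ => by
      split_ifs
      · exact mul_nonneg (tl_nonneg hK.le hX.le _ _) (Wf_nonneg _ _ _ _ _)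
      · exact le_rfl) hle (hs1.add hsH)
  refine (hsum.tsum_le_tsum hle (hs1.add hsH)).trans ?_
  rw [hs1.tsum_add hsH]
  refine add_le_add (le_of_eq ?_) (le_of_eq ?_)
  · rw [tsum_eq_sum (s := T) fun κ hκ => by simp only [hf1, if_neg hκ]]
    exact Finset.sum_congr rfl fun κ hκ => by simp only [hf1, if_pos hκ]
  · simp only [hH]
    rw [tsum_mul_left]
    unfold Et Cz
    rw [← hρ, ← hc1, hF0]
    ring

/-- the tail of one `(d, L)` -/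
lemma tail_JE3 {A B K X Y D Y₀ Y₁ : ℝ} (hA : 1 < A) (hB : 1 ≤ B) (hK : 0 < K) (hX : 0 < X)
    (hY : 0 ≤ Y) (hY₁ : 0 < Y₁) (h01 : Y₀ ≤ Y₁)
    {α : Eis → ℂ} (hα : ∀ n, α n ≠ 0 → n ∈ S Y) {d L : Eis} (hd : d ∈ S Y) (hL : IsPrim L) :
    nm d * (∑' κ : Eis, if CF κ ∧ κ ∉ JE D Y₀ Y₁ d then tl B K X d κ * Wf A α d κ L else 0) ≤
      (∑ g ∈ S Y, ∑ δ ∈ S Y, if g * δ = d then
        nm δ * LJ A K X (zd D Y₀ Y₁ δ) α δ (g * L) else 0) +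
        (nm d : ℝ) ^ 4 * Et A B K X Y Y₁ α := by
  have h0 := mul_le_mul_of_nonneg_left
    (tail_JE_raw3 (D := D) (Y₀ := Y₀) hA hB hK hX hY hY₁ h01 hα hd hL) (Nat.cast_nonneg (nm d) : (0:ℝ) ≤ nm d)
  refine h0.trans ?_
  rw [mul_add]
  refine add_le_add ?_ (le_of_eq (by ring))
  rw [Finset.mul_sum]
  have h1 := cls_sum_le3 (Z := zd D Y₀ Y₁) hY hd (J := (BF (Y₁ * nm d)).filter
      (fun κ => (nm (κ / gd κ d * (d / gd κ d) ^ 2) : ℝ) ≤ zd D Y₀ Y₁ (d / gd κ d)))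
      (fun κ hκ => by
      obtain ⟨a1, a2⟩ := Finset.mem_filter.mp hκ
      exact ⟨(mem_BF.mp a1).1, a2⟩)
    (f := fun κ => nm d * (lm K X d κ * Wf A α d κ L))
    (F := fun g δ j => nm δ * (lm K X δ j * Wf A α δ j (g * L)))
    (fun g δ j => mul_nonneg (Nat.cast_nonneg _) (mul_nonneg
      (lm_nonneg hK.le hX.le _ _) (Wf_nonneg _ _ _ _ _)))
    (fun g δ j hg hδ hd' hcf => by
      have hj : j ≠ 0 := right_ne_zero_of_mul hcf.1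
      have e1 := lm_shift hK hX hg hδ hj
      rw [hd', Wf_shift, nm_mul, ← e1]
      push_cast
      apply le_of_eq
      ring)
  refine h1.trans (le_of_eq ?_)
  refine Finset.sum_congr rfl fun g _ => Finset.sum_congr rfl fun δ _ => ?_
  split_ifs
  · unfold LJ
    rw [Finset.mul_sum]
  · rfl

/-- the tail for `d = 1`, `L = 1` -/
theorem tail_one3 {A B K X Y D Y₀ Y₁ : ℝ} (hA : 1 < A) (hB : 1 ≤ B) (hK : 0 < K) (hX : 0 < X)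
    (hY : 1 ≤ Y) (hY₁ : 0 < Y₁) (h01 : Y₀ ≤ Y₁) (hD : 1 ≤ D)
    {α : Eis → ℂ} (hα : ∀ n, α n ≠ 0 → n ∈ S Y) :
    (∑' κ : Eis, if CF κ ∧ κ ∉ JE D Y₀ Y₁ 1 then tl B K X 1 κ * Wf A α 1 κ 1 else 0) ≤
      Lo A K X Y₀ α + Et A B K X Y Y₁ α := by
  have h := tail_JE_raw3 (D := D) (Y₀ := Y₀) hA hB hK hX (by linarith) hY₁ h01 hα
    (one_mem_S hY) isPrim_one
  refine h.trans (add_le_add ?_ (le_of_eq (by rw [nm_one]; simp)))
  unfold Lo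
  refine (Finset.sum_le_sum_of_subset_of_nonneg (t := BF Y₀) ?_ fun κ _ _ =>
    mul_nonneg (lm_nonneg hK.le hX.le _ _) (Wf_nonneg _ _ _ _ _)).trans (le_of_eq ?_)
  · intro κ hκ
    obtain ⟨h1, h2⟩ := Finset.mem_filter.mp hκ
    refine mem_BF.mpr ⟨(mem_BF.mp h1).1, ?_⟩
    have hg : gd κ 1 = 1 := by
      have h3 : IsUnit (gd κ 1) := isUnit_of_dvd_one (gd_dvd_right κ 1)
      exact (gd_prim κ 1).eq_of_associated isPrim_one (associated_one_iff_isUnit.mpr h3)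
    have e1 : (1 : Eis) / 1 = 1 := div_of_eq one_ne_zero (by ring)
    have e2 : κ / 1 = κ := div_of_eq one_ne_zero (by ring)
    rw [hg, e1, e2] at h2
    unfold zd at h2
    rw [nm_one, if_pos (by push_cast; exact hD), one_pow, mul_one] at h2
    exact h2
  · exact Finset.sum_congr rfl fun κ _ => by rw [Wf_one]

/-- the errors of all `(δ, G) ≠ (1, 1)`, `D` arbitrary -/
def EG3 (A K X Y D Y₀ Y₁ : ℝ) (α : Eis → ℂ) : ℝ :=
  ∑ p ∈ (S Y ×ˢ S Y).erase (1, 1), (nm p.1 * Div277.tau p.1 * (Div277.tau p.2 : ℝ) ^ 4) *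
    (WJ A K X Y₁ α p.1 p.2 + LJ A K X (zd D Y₀ Y₁ p.1) α p.1 p.2)

/-- **`EP`, regrouped, `D` arbitrary** -/
theorem EP_le3 {A B K X Y D Y₀ Y₁ δ : ℝ} (hA : 1 < A) (hB : 1 ≤ B) (hK : 0 < K) (hX : 0 < X)
    (hY : 1 ≤ Y) (hY₁ : 0 < Y₁) (h01 : Y₀ ≤ Y₁) (hD : 1 ≤ D) (hδ : 0 < δ)
    {α : Eis → ℂ} (hα : ∀ n, α n ≠ 0 → n ∈ S Y) :
    EP A B K X Y δ α (JE D Y₀ Y₁) ≤
      δ * (∑ κ ∈ JE D Y₀ Y₁ 1, min 1 (lm K X 1 κ) * Wb A α κ + Lo A K X Y₀ α +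
        Et A B K X Y Y₁ α) +
      δ⁻¹ * (EG3 A K X Y D Y₀ Y₁ α + Ct Y * Et A B K X Y Y₁ α) := by
  have hY0 : 0 ≤ Y := by linarith
  have h1S := one_mem_S hY
  have hE : 0 ≤ Et A B K X Y Y₁ α := Et_nonneg hK.le hX.le hY₁.le α
  set J := JE D Y₀ Y₁ with hJ
  set E := Et A B K X Y Y₁ α with hEdef
  set M : Eis → Eis → ℝ := fun a b => WJ A K X Y₁ α a b + LJ A K X (zd D Y₀ Y₁ a) α a b with hM
  have hM0 : ∀ a b, 0 ≤ M a b := fun a b =>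
    add_nonneg (WJ_nonneg hK.le hX.le α a b) (LJ_nonneg hK.le hX.le α a b)
  have hW : ∀ d ∈ S Y, ∀ L ∈ S Y, nm d * WS A B K X α (J d) d L ≤
      (∑ g ∈ S Y, ∑ e ∈ S Y, if g * e = d then nm e * M e (g * L) else 0) +
        (nm d : ℝ) ^ 4 * E := by
    intro d hd L hL
    have hLp := ((mem_S hY0).1 hL).2.1
    have a1 := fin_JE (A := A) (D := D) (Y₀ := Y₀) (Y₁ := Y₁) hK hX hY0 (α := α) (L := L) hd
    have a2 := tail_JE3 (D := D) (Y₀ := Y₀) hA hB hK hX hY0 hY₁ h01 hα hd hLp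
    have e1 : (∑ g ∈ S Y, ∑ e ∈ S Y, if g * e = d then nm e * M e (g * L) else 0) =
        (∑ g ∈ S Y, ∑ e ∈ S Y, if g * e = d then nm e * WJ A K X Y₁ α e (g * L) else 0) +
        (∑ g ∈ S Y, ∑ e ∈ S Y, if g * e = d then
          nm e * LJ A K X (zd D Y₀ Y₁ e) α e (g * L) else 0) := by
      rw [← Finset.sum_add_distrib]
      refine Finset.sum_congr rfl fun g _ => ?_
      rw [← Finset.sum_add_distrib]
      refine Finset.sum_congr rfl fun e _ => ?_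
      split_ifs
      · simp only [hM]; ring
      · ring
    rw [e1]
    unfold WS
    rw [mul_add]
    linarith
  unfold EP
  refine add_le_add ?_ ?_
  · refine mul_le_mul_of_nonneg_left ?_ hδ.le
    have t1 := tail_one3 (A := A) (B := B) (D := D) (Y₀ := Y₀) hA hB hK hX hY hY₁ h01 hD hα
    unfold WS
    have e1 : ∑ κ ∈ J 1, min (nm (1 : Eis) : ℝ) (lm K X 1 κ) * Wf A α 1 κ 1 =
        ∑ κ ∈ J 1, min 1 (lm K X 1 κ) * Wb A α κ := by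
      refine Finset.sum_congr rfl fun κ _ => ?_
      rw [nm_one, Wf_one]; push_cast; rfl
    rw [e1]
    linarith
  · refine mul_le_mul_of_nonneg_left ?_ (inv_pos.mpr hδ).le
    set G' : Eis × Eis → ℝ := fun p => (Div277.tau p.1 * (Div277.tau p.2 : ℝ) ^ 2) *
      (nm p.1 * WS A B K X α (J p.1) p.1 p.2) with hG
    have htau1 := tau_one551
    have e1 : ∑ L ∈ (S Y).erase 1, (Div277.tau L : ℝ) ^ 2 * WS A B K X α (J 1) 1 L +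
        ∑ d ∈ (S Y).erase 1, (nm d * Div277.tau d *
          ∑ L ∈ S Y, (Div277.tau L : ℝ) ^ 2 * WS A B K X α (J d) d L) =
        ∑ p ∈ (S Y ×ˢ S Y).erase (1, 1), G' p := by
      have e2 := Finset.add_sum_erase (S Y ×ˢ S Y) G' (Finset.mem_product.mpr ⟨h1S, h1S⟩ :
        ((1, 1) : Eis × Eis) ∈ S Y ×ˢ S Y)
      have e3 : ∑ p ∈ S Y ×ˢ S Y, G' p = ∑ d ∈ S Y, (nm d * Div277.tau d *
          ∑ L ∈ S Y, (Div277.tau L : ℝ) ^ 2 * WS A B K X α (J d) d L) := by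
        rw [Finset.sum_product]
        refine Finset.sum_congr rfl fun d _ => ?_
        rw [Finset.mul_sum]
        refine Finset.sum_congr rfl fun L _ => ?_
        simp only [hG]; ring
      have e4 := Finset.add_sum_erase (S Y) (fun d => (nm d * Div277.tau d *
          ∑ L ∈ S Y, (Div277.tau L : ℝ) ^ 2 * WS A B K X α (J d) d L)) h1S
      have e5 := Finset.add_sum_erase (S Y) (fun L =>
        (Div277.tau L : ℝ) ^ 2 * WS A B K X α (J 1) 1 L) h1S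
      have e6 : G' (1, 1) = (Div277.tau (1 : Eis) : ℝ) ^ 2 * WS A B K X α (J 1) 1 1 := by
        simp only [hG]
        rw [nm_one, htau1]; push_cast; ring
      have e7 : ((nm (1 : Eis) : ℝ) * Div277.tau 1 *
          ∑ L ∈ S Y, (Div277.tau L : ℝ) ^ 2 * WS A B K X α (J 1) 1 L) =
          ∑ L ∈ S Y, (Div277.tau L : ℝ) ^ 2 * WS A B K X α (J 1) 1 L := by
        rw [nm_one, htau1]; push_cast; ring
      linarith
    rw [e1]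
    have h2 : ∀ p ∈ (S Y ×ˢ S Y).erase (1, 1), G' p ≤
        (Div277.tau p.1 * (Div277.tau p.2 : ℝ) ^ 2) *
          (∑ g ∈ S Y, ∑ e ∈ S Y, if g * e = p.1 then nm e * M e (g * p.2) else 0) +
        ((nm p.1 : ℝ) ^ 4 * Div277.tau p.1) * (Div277.tau p.2 : ℝ) ^ 2 * E := by
      intro p hp
      have hp2 := Finset.mem_product.mp (Finset.mem_of_mem_erase hp)
      have h3 := hW p.1 hp2.1 p.2 hp2.2
      have h4 : (0 : ℝ) ≤ Div277.tau p.1 * (Div277.tau p.2 : ℝ) ^ 2 := by positivity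
      have h5 := mul_le_mul_of_nonneg_left h3 h4
      simp only [hG]
      refine h5.trans (le_of_eq ?_)
      ring
    refine (Finset.sum_le_sum h2).trans ?_
    rw [Finset.sum_add_distrib]
    refine add_le_add ?_ ?_
    · have h3 := sum_regroup (Y := Y) (a := fun d L => (Div277.tau d : ℝ) *
          (Div277.tau L : ℝ) ^ 2) (b := fun g e L => nm e * M e (g * L))
        (c := fun g e L => (Div277.tau g : ℝ) * Div277.tau e * (Div277.tau L : ℝ) ^ 2)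
        (fun g e L => mul_nonneg (Nat.cast_nonneg _) (hM0 _ _)) (fun g e L => by positivity)
        (fun g e L => by
          have : (Div277.tau (g * e) : ℝ) ≤ Div277.tau g * Div277.tau e := by
            exact_mod_cast Div277.tau_mul_le g e
          exact mul_le_mul_of_nonneg_right this (by positivity))
      refine h3.trans ?_
      exact sum_triple_le hY0 hα hM0 (fun a b h => by
        simp only [hM]
        rw [WJ_zero h, LJ_zero h, add_zero])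
    · unfold Ct
      refine (Finset.sum_le_sum_of_subset_of_nonneg (Finset.erase_subset _ _)
        (fun p _ _ => by positivity)).trans (le_of_eq ?_)
      rw [Finset.sum_product, Finset.sum_mul_sum, Finset.sum_mul]
      refine Finset.sum_congr rfl fun d _ => ?_
      rw [Finset.sum_mul]

/-- **E1, positive form, in the window, errors regrouped, `D` arbitrary.** -/
theorem E1posJ3 : ∃ c : ℝ, 0 < c ∧ ∀ del : ℝ, 0 < del → ∃ w : ℝ → ℝ, Wgt w ∧ (∀ x, 0 ≤ w x) ∧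
    ∀ A B : ℝ, 1 < A → 1 ≤ B → ∃ C : ℝ, 0 ≤ C ∧
    ∀ K X Y η D Y₀ Y₁ : ℝ, 0 < K → 0 < X → 1 ≤ Y → 0 < η → η ≤ 1 → 0 < Y₁ →
      Y₀ ≤ Y₁ → 1 ≤ D → ∀ α : Eis → ℂ, Adm Y X η α → ∀ δ : ℝ, 0 < δ → δ ≤ 1 →
      c * (K / X) * ∑ κ ∈ (JE D Y₀ Y₁ 1).filter (fun κ => (3 : ℤ) ∣ κ.im),
          min 1 (lm K X 1 κ) * ‖TG α κ‖ ^ 2 ≤
        Dg w K Y α + 2 * cP w * K ^ (2 / 3 : ℝ) * (XJ (JW D Y₀ Y₁) α).re - SqP w K α +
        del * (K / X) * ∑ κ ∈ (JE D Y₀ Y₁ 1).filter (fun κ => ¬ (3 : ℤ) ∣ κ.im),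
          min 1 (lm K X 1 κ) * ‖TG α κ‖ ^ 2 +
        C * (K / X) * (η * (∑ κ ∈ JE D Y₀ Y₁ 1, min 1 (lm K X 1 κ) *
            ∫ t, jb A t * ‖Vt α κ (t / η)‖ ^ 2) + Lo A K X Y₀ α) +
        C * (1 + Real.log Y) * (K / X) * (δ * (∑ κ ∈ JE D Y₀ Y₁ 1, min 1 (lm K X 1 κ) *
            Wb A α κ + Lo A K X Y₀ α) +
          δ⁻¹ * EG3 A K X Y D Y₀ Y₁ α + δ⁻¹ * (2 + Ct Y) * Et A B K X Y Y₁ α) := by
  obtain ⟨c, hc, h⟩ := E1pos
  refine ⟨c, hc, fun del hdel => ?_⟩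
  obtain ⟨w, hw, hw0, h1⟩ := h del hdel
  refine ⟨w, hw, hw0, fun A B hA hB => ?_⟩
  obtain ⟨C, hC, h2⟩ := h1 A B hA hB
  refine ⟨C, hC, fun K X Y η D Y₀ Y₁ hK hX hY hη hη1 hY₁ h01 hD α hα δ hδ hδ1 => ?_⟩
  have hY0 : 0 ≤ Y := by linarith
  have hlog := Real.log_nonneg hY
  have h3 := h2 K X Y η hK hX hY hη hη1 α hα (JE D Y₀ Y₁) (fun d κ hκ => JE_cf κ hκ) δ hδ hδ1
  have h4 := EP_le3 (A := A) (B := B) (D := D) (Y₀ := Y₀) hA hB hK hX hY hY₁ h01 hD hδ hα.sup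
  have h5 := tail_one3 (A := A) (B := B) (D := D) (Y₀ := Y₀) hA hB hK hX hY hY₁ h01 hD hα.sup
  have e1 : (Mn w K Y α (JE D Y₀ Y₁)).re =
      2 * cP w * K ^ (2 / 3 : ℝ) * (XJ (JW D Y₀ Y₁) α).re := by
    rw [Mn_JE hY0 hα.sup, Complex.re_ofReal_mul]
  rw [e1] at h3
  have hE : 0 ≤ Et A B K X Y Y₁ α := Et_nonneg hK.le hX.le hY₁.le α
  have hδi : 1 ≤ δ⁻¹ := (one_le_inv₀ hδ).mpr hδ1
  have hCt0 := Ct_nonneg Y
  set I1 := ∑ κ ∈ JE D Y₀ Y₁ 1, min 1 (lm K X 1 κ) * ∫ t, jb A t * ‖Vt α κ (t / η)‖ ^ 2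
  set Tl := ∑' κ : Eis, if CF κ ∧ κ ∉ JE D Y₀ Y₁ 1 then tl B K X 1 κ * Wf A α 1 κ 1 else 0
  set M1 := ∑ κ ∈ JE D Y₀ Y₁ 1, min 1 (lm K X 1 κ) * Wb A α κ
  set Mg := EG3 A K X Y D Y₀ Y₁ α
  set E := Et A B K X Y Y₁ α
  set L0 := Lo A K X Y₀ α
  generalize Ct Y = Cc at *
  clear_value I1 Tl M1 Mg E L0
  have hP : 0 ≤ C * (K / X) := by positivity
  have hP2 : 0 ≤ C * (1 + Real.log Y) * (K / X) := by positivity
  have h6 : C * (K / X) * (η * I1 + Tl) ≤ C * (K / X) * (η * I1 + L0) +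
      C * (1 + Real.log Y) * (K / X) * (δ⁻¹ * E) := by
    have h7 : C * (K / X) * (η * I1 + Tl) ≤ C * (K / X) * (η * I1 + (L0 + E)) :=
      mul_le_mul_of_nonneg_left (by linarith) hP
    have h8 : C * (K / X) * E ≤ C * (1 + Real.log Y) * (K / X) * (δ⁻¹ * E) := by
      have h9 : C * (K / X) * E ≤ C * (K / X) * (δ⁻¹ * E) :=
        mul_le_mul_of_nonneg_left (le_mul_of_one_le_left hE hδi) hP
      refine h9.trans ?_
      refine mul_le_mul_of_nonneg_right ?_ (by positivity)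
      refine mul_le_mul_of_nonneg_right ?_ (by positivity)
      nlinarith
    calc C * (K / X) * (η * I1 + Tl) ≤ C * (K / X) * (η * I1 + (L0 + E)) := h7
      _ = C * (K / X) * (η * I1 + L0) + C * (K / X) * E := by ring
      _ ≤ _ := by linarith
  have h10 := mul_le_mul_of_nonneg_left h4 hP2
  have h11 : δ * E ≤ δ⁻¹ * E := mul_le_mul_of_nonneg_right (by linarith) hE
  have h12 : C * (1 + Real.log Y) * (K / X) * (δ * (M1 + L0 + E) + δ⁻¹ * (Mg + Cc * E)) ≤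
      C * (1 + Real.log Y) * (K / X) * (δ * (M1 + L0) + δ⁻¹ * Mg + δ⁻¹ * (1 + Cc) * E) := by
    refine mul_le_mul_of_nonneg_left ?_ hP2
    calc δ * (M1 + L0 + E) + δ⁻¹ * (Mg + Cc * E) =
          δ * (M1 + L0) + δ⁻¹ * Mg + δ⁻¹ * Cc * E + δ * E := by ring
      _ ≤ δ * (M1 + L0) + δ⁻¹ * Mg + δ⁻¹ * Cc * E + δ⁻¹ * E := by linarith
      _ = _ := by ring
  have e2 : C * (1 + Real.log Y) * (K / X) * (δ * (M1 + L0) + δ⁻¹ * Mg + δ⁻¹ * (2 + Cc) * E) =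
      C * (1 + Real.log Y) * (K / X) * (δ * (M1 + L0) + δ⁻¹ * Mg + δ⁻¹ * (1 + Cc) * E) +
      C * (1 + Real.log Y) * (K / X) * (δ⁻¹ * E) := by ring
  rw [e2]
  linarith

lemma LJ_mono {A K X Z Z' : ℝ} (hK : 0 ≤ K) (hX : 0 ≤ X) (h : Z ≤ Z') (α : Eis → ℂ)
    (δ G : Eis) : LJ A K X Z α δ G ≤ LJ A K X Z' α δ G := by
  unfold LJ
  refine Finset.sum_le_sum_of_subset_of_nonneg (BF_mono (by gcongr)) fun _ _ _ =>
    mul_nonneg (lm_nonneg hK hX _ _) (Wf_nonneg _ _ _ _ _)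

lemma EG3_mono {A K X Y D Y₀ Y₁ Y₁' : ℝ} (hK : 0 ≤ K) (hX : 0 ≤ X) (h : Y₁ ≤ Y₁')
    (α : Eis → ℂ) : EG3 A K X Y D Y₀ Y₁ α ≤ EG3 A K X Y D Y₀ Y₁' α := by
  unfold EG3
  refine Finset.sum_le_sum fun p _ => mul_le_mul_of_nonneg_left ?_ (by positivity)
  have h1 := WJ_mono (A := A) hK hX h α p.1 p.2
  have h2 : LJ A K X (zd D Y₀ Y₁ p.1) α p.1 p.2 ≤ LJ A K X (zd D Y₀ Y₁' p.1) α p.1 p.2 := by
    refine LJ_mono hK hX ?_ α p.1 p.2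
    unfold zd
    split_ifs
    · exact le_rfl
    · exact h
  linarith

/-- **E1, positive form, smooth upper edge, errors regrouped, `D ≥ 1`
arbitrary.** -/
theorem E1posW3a : ∃ c : ℝ, 0 < c ∧ ∀ del : ℝ, 0 < del → ∃ w : ℝ → ℝ, Wgt w ∧ (∀ x, 0 ≤ w x) ∧
    ∀ A B : ℝ, 1 < A → 1 ≤ B → ∃ C : ℝ, 0 ≤ C ∧
    ∀ (K X Y η D Y₀ : ℝ) (N₀ N₁ : ℕ) (ρ : ℕ → ℝ), 0 < K → 0 < X → 1 ≤ Y → 0 < η → η ≤ 1 →
      1 ≤ D → 1 ≤ N₀ → N₀ ≤ N₁ → Y₀ ≤ N₀ → Antitone ρ →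
      (∀ n ≤ N₀, ρ n = 1) → (∀ n, N₁ < n → ρ n = 0) →
      ∀ α : Eis → ℂ, Adm Y X η α → ∀ δ : ℝ, 0 < δ → δ ≤ 1 →
      c * (K / X) * ∑ κ ∈ (Wn Y₀ N₁).filter (fun κ => (3 : ℤ) ∣ κ.im),
          ρ (nm κ) * (min 1 (lm K X 1 κ) * ‖TG α κ‖ ^ 2) ≤
        Dg w K Y α + 2 * cP w * K ^ (2 / 3 : ℝ) * (XJw ρ (JW D Y₀ N₁) α).re - SqP w K α +
        del * (K / X) * ∑ κ ∈ (Wn Y₀ N₁).filter (fun κ => ¬ (3 : ℤ) ∣ κ.im),
          ρ (nm κ) * (min 1 (lm K X 1 κ) * ‖TG α κ‖ ^ 2) +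
        C * (K / X) * (η * (∑ κ ∈ Wn Y₀ N₁, ρ (nm κ) * (min 1 (lm K X 1 κ) *
            ∫ t, jb A t * ‖Vt α κ (t / η)‖ ^ 2)) + Lo A K X Y₀ α) +
        C * (1 + Real.log Y) * (K / X) * (δ * (∑ κ ∈ Wn Y₀ N₁, ρ (nm κ) *
            (min 1 (lm K X 1 κ) * Wb A α κ) + Lo A K X Y₀ α) +
          δ⁻¹ * EG3 A K X Y D Y₀ N₁ α + δ⁻¹ * (2 + Ct Y) * Et A B K X Y N₀ α) := by
  obtain ⟨c, hc, h⟩ := E1posJ3
  refine ⟨c, hc, fun del hdel => ?_⟩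
  obtain ⟨w, hw, hw0, h1⟩ := h del hdel
  refine ⟨w, hw, hw0, fun A B hA hB => ?_⟩
  obtain ⟨C, hC, h2⟩ := h1 A B hA hB
  refine ⟨C, hC, fun K X Y η D Y₀ N₀ N₁ ρ hK hX hY hη hη1 hD1 hN₀ h01 hY00 hanti hρ1 hρ0 α hα δ
    hδ hδ1 => ?_⟩
  have hlog := Real.log_nonneg hY
  have hD0 : (0 : ℝ) ≤ D := by linarith
  have hCt0 := Ct_nonneg Y
  set E2 : ℝ := δ * Lo A K X Y₀ α + δ⁻¹ * EG3 A K X Y D Y₀ N₁ α +
    δ⁻¹ * (2 + Ct Y) * Et A B K X Y N₀ α with hE2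
  have hP : 0 ≤ C * (K / X) := by positivity
  have hP2 : 0 ≤ C * (1 + Real.log Y) * (K / X) := by positivity
  have key : ∀ N ∈ Finset.Ico N₀ (N₁ + 1),
      (ρ N - ρ (N + 1)) * (c * (K / X) * ∑ κ ∈ ((Wn Y₀ N₁).filter
        (fun κ => (3 : ℤ) ∣ κ.im)).filter (fun κ => nm κ ≤ N),
          min 1 (lm K X 1 κ) * ‖TG α κ‖ ^ 2) ≤
      (ρ N - ρ (N + 1)) * (Dg w K Y α + 2 * cP w * K ^ (2 / 3 : ℝ) * (XJ (JW D Y₀ N) α).re -
        SqP w K α +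
        del * (K / X) * ∑ κ ∈ ((Wn Y₀ N₁).filter (fun κ => ¬ (3 : ℤ) ∣ κ.im)).filter
          (fun κ => nm κ ≤ N), min 1 (lm K X 1 κ) * ‖TG α κ‖ ^ 2 +
        C * (K / X) * (η * (∑ κ ∈ (Wn Y₀ N₁).filter (fun κ => nm κ ≤ N), (min 1 (lm K X 1 κ) *
            ∫ t, jb A t * ‖Vt α κ (t / η)‖ ^ 2)) + Lo A K X Y₀ α) +
        C * (1 + Real.log Y) * (K / X) * (δ * (∑ κ ∈ (Wn Y₀ N₁).filter (fun κ => nm κ ≤ N),
          (min 1 (lm K X 1 κ) * Wb A α κ)) + E2)) := by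
    intro N hN
    obtain ⟨hN1, hN2⟩ := Finset.mem_Ico.mp hN
    have hN2' : N ≤ N₁ := Nat.lt_succ_iff.mp hN2
    have hNr : (N : ℝ) ≤ N₁ := by exact_mod_cast hN2'
    have hNr0 : ((N₀ : ℕ) : ℝ) ≤ N := by exact_mod_cast hN1
    have hN₀' : (1 : ℝ) ≤ N₀ := by exact_mod_cast hN₀
    have hNpos : (0 : ℝ) < N := by linarith
    have hp : 0 ≤ ρ N - ρ (N + 1) := sub_nonneg.mpr (hanti (Nat.le_succ N))
    refine mul_le_mul_of_nonneg_left ?_ hp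
    have h3 := h2 K X Y η D Y₀ N hK hX hY hη hη1 hNpos (hY00.trans hNr0) hD1 α hα δ hδ hδ1
    rw [JE_one_filter hD1 hNr, JE_one_filter hD1 hNr, JE_one_filter' hD1 hNr] at h3
    refine h3.trans (add_le_add le_rfl (mul_le_mul_of_nonneg_left ?_ hP2))
    rw [hE2]
    have hδi : 0 ≤ δ⁻¹ := (inv_pos.mpr hδ).le
    have a1 : δ⁻¹ * EG3 A K X Y D Y₀ N α ≤ δ⁻¹ * EG3 A K X Y D Y₀ N₁ α :=
      mul_le_mul_of_nonneg_left (EG3_mono hK.le hX.le hNr α) hδi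
    have a2 : δ⁻¹ * (2 + Ct Y) * Et A B K X Y N α ≤ δ⁻¹ * (2 + Ct Y) * Et A B K X Y N₀ α :=
      mul_le_mul_of_nonneg_left (Et_anti hB hK hX.le (by linarith) hNr0 α) (by positivity)
    linarith
  have hsum := Finset.sum_le_sum key
  have l1 := layer_one h01 hρ1 hρ0
  have eL : ∑ N ∈ Finset.Ico N₀ (N₁ + 1), (ρ N - ρ (N + 1)) * (c * (K / X) *
      ∑ κ ∈ ((Wn Y₀ N₁).filter (fun κ => (3 : ℤ) ∣ κ.im)).filter (fun κ => nm κ ≤ N),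
        min 1 (lm K X 1 κ) * ‖TG α κ‖ ^ 2) =
      c * (K / X) * ∑ κ ∈ (Wn Y₀ N₁).filter (fun κ => (3 : ℤ) ∣ κ.im),
          ρ (nm κ) * (min 1 (lm K X 1 κ) * ‖TG α κ‖ ^ 2) := by
    rw [← layer_sum h01 hρ1 hρ0, Finset.mul_sum]
    exact Finset.sum_congr rfl fun N _ => by ring
  have eB : ∑ N ∈ Finset.Ico N₀ (N₁ + 1), (ρ N - ρ (N + 1)) * (del * (K / X) *
      ∑ κ ∈ ((Wn Y₀ N₁).filter (fun κ => ¬ (3 : ℤ) ∣ κ.im)).filter (fun κ => nm κ ≤ N),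
        min 1 (lm K X 1 κ) * ‖TG α κ‖ ^ 2) =
      del * (K / X) * ∑ κ ∈ (Wn Y₀ N₁).filter (fun κ => ¬ (3 : ℤ) ∣ κ.im),
          ρ (nm κ) * (min 1 (lm K X 1 κ) * ‖TG α κ‖ ^ 2) := by
    rw [← layer_sum h01 hρ1 hρ0, Finset.mul_sum]
    exact Finset.sum_congr rfl fun N _ => by ring
  have eI : ∑ N ∈ Finset.Ico N₀ (N₁ + 1), (ρ N - ρ (N + 1)) *
      ∑ κ ∈ (Wn Y₀ N₁).filter (fun κ => nm κ ≤ N), (min 1 (lm K X 1 κ) *
            ∫ t, jb A t * ‖Vt α κ (t / η)‖ ^ 2) =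
      ∑ κ ∈ Wn Y₀ N₁, ρ (nm κ) * (min 1 (lm K X 1 κ) *
            ∫ t, jb A t * ‖Vt α κ (t / η)‖ ^ 2) := layer_sum h01 hρ1 hρ0 _ _ _
  have eW : ∑ N ∈ Finset.Ico N₀ (N₁ + 1), (ρ N - ρ (N + 1)) *
      ∑ κ ∈ (Wn Y₀ N₁).filter (fun κ => nm κ ≤ N), (min 1 (lm K X 1 κ) * Wb A α κ) =
      ∑ κ ∈ Wn Y₀ N₁, ρ (nm κ) * (min 1 (lm K X 1 κ) * Wb A α κ) :=
    layer_sum h01 hρ1 hρ0 _ _ _
  have eX := XJw_layer h01 hρ1 hρ0 D Y₀ α
  rw [eL] at hsum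
  refine hsum.trans (le_of_eq ?_)
  rw [← eB, ← eI, ← eX, ← eW]
  have e9 : ∀ N : ℕ, (ρ N - ρ (N + 1)) * (Dg w K Y α + 2 * cP w * K ^ (2 / 3 : ℝ) *
        (XJ (JW D Y₀ N) α).re - SqP w K α +
        del * (K / X) * ∑ κ ∈ ((Wn Y₀ N₁).filter (fun κ => ¬ (3 : ℤ) ∣ κ.im)).filter
          (fun κ => nm κ ≤ N), min 1 (lm K X 1 κ) * ‖TG α κ‖ ^ 2 +
        C * (K / X) * (η * (∑ κ ∈ (Wn Y₀ N₁).filter (fun κ => nm κ ≤ N), (min 1 (lm K X 1 κ) *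
            ∫ t, jb A t * ‖Vt α κ (t / η)‖ ^ 2)) + Lo A K X Y₀ α) +
        C * (1 + Real.log Y) * (K / X) * (δ * (∑ κ ∈ (Wn Y₀ N₁).filter (fun κ => nm κ ≤ N),
          (min 1 (lm K X 1 κ) * Wb A α κ)) + E2)) =
      (ρ N - ρ (N + 1)) * (Dg w K Y α - SqP w K α + C * (K / X) * Lo A K X Y₀ α +
        C * (1 + Real.log Y) * (K / X) * E2) +
      2 * cP w * K ^ (2 / 3 : ℝ) * ((ρ N - ρ (N + 1)) * (XJ (JW D Y₀ N) α).re) +
      (ρ N - ρ (N + 1)) * (del * (K / X) * ∑ κ ∈ ((Wn Y₀ N₁).filter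
        (fun κ => ¬ (3 : ℤ) ∣ κ.im)).filter (fun κ => nm κ ≤ N),
          min 1 (lm K X 1 κ) * ‖TG α κ‖ ^ 2) +
      C * (K / X) * η * ((ρ N - ρ (N + 1)) * ∑ κ ∈ (Wn Y₀ N₁).filter (fun κ => nm κ ≤ N),
        (min 1 (lm K X 1 κ) * ∫ t, jb A t * ‖Vt α κ (t / η)‖ ^ 2)) +
      C * (1 + Real.log Y) * (K / X) * δ * ((ρ N - ρ (N + 1)) *
        ∑ κ ∈ (Wn Y₀ N₁).filter (fun κ => nm κ ≤ N), (min 1 (lm K X 1 κ) * Wb A α κ)) :=
    fun N => by ring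
  rw [Finset.sum_congr rfl fun N _ => e9 N, Finset.sum_add_distrib, Finset.sum_add_distrib,
    Finset.sum_add_distrib, Finset.sum_add_distrib, ← Finset.sum_mul, l1, one_mul,
    ← Finset.mul_sum, ← Finset.mul_sum, ← Finset.mul_sum, hE2]
  ring


/-- the errors of the classes with `N(δ) > D` -/
def ED (A K X Y D Z : ℝ) (α : Eis → ℂ) : ℝ :=
  ∑ p ∈ (S Y ×ˢ S Y).filter (fun p => D < nm p.1),
    (nm p.1 * Div277.tau p.1 * (Div277.tau p.2 : ℝ) ^ 4) * LJ A K X Z α p.1 p.2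

lemma ED_nonneg {A K X : ℝ} (hK : 0 ≤ K) (hX : 0 ≤ X) (Y D Z : ℝ) (α : Eis → ℂ) :
    0 ≤ ED A K X Y D Z α :=
  Finset.sum_nonneg fun _ _ => mul_nonneg (by positivity) (LJ_nonneg hK hX _ _ _)

lemma EG3_le {A K X Y D Y₀ Y₁ : ℝ} (hK : 0 ≤ K) (hX : 0 ≤ X) (α : Eis → ℂ) :
    EG3 A K X Y D Y₀ Y₁ α ≤ EG A K X Y Y₀ Y₁ α + ED A K X Y D Y₁ α := by
  have e1 : ED A K X Y D Y₁ α = ∑ p ∈ S Y ×ˢ S Y, if D < (nm p.1 : ℝ) then
      (nm p.1 * Div277.tau p.1 * (Div277.tau p.2 : ℝ) ^ 4) * LJ A K X Y₁ α p.1 p.2 else 0 := by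
    unfold ED
    rw [Finset.sum_filter]
  have e2 : ∑ p ∈ (S Y ×ˢ S Y).erase (1, 1), (if D < (nm p.1 : ℝ) then
      (nm p.1 * Div277.tau p.1 * (Div277.tau p.2 : ℝ) ^ 4) * LJ A K X Y₁ α p.1 p.2 else 0) ≤
      ED A K X Y D Y₁ α := by
    rw [e1]
    refine Finset.sum_le_sum_of_subset_of_nonneg (Finset.erase_subset _ _) fun p _ _ => ?_
    split_ifs
    · exact mul_nonneg (by positivity) (LJ_nonneg hK hX _ _ _)
    · exact le_rfl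
  refine le_trans ?_ (add_le_add le_rfl e2)
  unfold EG3 EG
  rw [← Finset.sum_add_distrib]
  refine Finset.sum_le_sum fun p _ => ?_
  have h0 := LJ_nonneg (A := A) (Z := Y₀) hK hX α p.1 p.2
  have h1 : (0 : ℝ) ≤ nm p.1 * Div277.tau p.1 * (Div277.tau p.2 : ℝ) ^ 4 := by positivity
  unfold zd
  by_cases h : (nm p.1 : ℝ) ≤ D
  · rw [if_pos h, if_neg (not_lt.mpr h), add_zero]
  · rw [if_neg h, if_pos (not_le.mp h)]
    nlinarith [mul_nonneg h1 h0]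

/-- **E1, positive form, smooth upper edge, `D ≥ 1` arbitrary.** -/
theorem E1posW3 : ∃ c : ℝ, 0 < c ∧ ∀ del : ℝ, 0 < del → ∃ w : ℝ → ℝ, Wgt w ∧ (∀ x, 0 ≤ w x) ∧
    ∀ A B : ℝ, 1 < A → 1 ≤ B → ∃ C : ℝ, 0 ≤ C ∧
    ∀ (K X Y η D Y₀ : ℝ) (N₀ N₁ : ℕ) (ρ : ℕ → ℝ), 0 < K → 0 < X → 1 ≤ Y → 0 < η → η ≤ 1 →
      1 ≤ D → 1 ≤ N₀ → N₀ ≤ N₁ → Y₀ ≤ N₀ → Antitone ρ →
      (∀ n ≤ N₀, ρ n = 1) → (∀ n, N₁ < n → ρ n = 0) →
      ∀ α : Eis → ℂ, Adm Y X η α → ∀ δ : ℝ, 0 < δ → δ ≤ 1 →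
      c * (K / X) * ∑ κ ∈ (Wn Y₀ N₁).filter (fun κ => (3 : ℤ) ∣ κ.im),
          ρ (nm κ) * (min 1 (lm K X 1 κ) * ‖TG α κ‖ ^ 2) ≤
        Dg w K Y α + 2 * cP w * K ^ (2 / 3 : ℝ) * (XJw ρ (JW D Y₀ N₁) α).re - SqP w K α +
        del * (K / X) * ∑ κ ∈ (Wn Y₀ N₁).filter (fun κ => ¬ (3 : ℤ) ∣ κ.im),
          ρ (nm κ) * (min 1 (lm K X 1 κ) * ‖TG α κ‖ ^ 2) +
        C * (K / X) * (η * (∑ κ ∈ Wn Y₀ N₁, ρ (nm κ) * (min 1 (lm K X 1 κ) *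
            ∫ t, jb A t * ‖Vt α κ (t / η)‖ ^ 2)) + Lo A K X Y₀ α) +
        C * (1 + Real.log Y) * (K / X) * (δ * (∑ κ ∈ Wn Y₀ N₁, ρ (nm κ) *
            (min 1 (lm K X 1 κ) * Wb A α κ) + Lo A K X Y₀ α) +
          δ⁻¹ * (EG A K X Y Y₀ N₁ α + ED A K X Y D N₁ α) +
          δ⁻¹ * (2 + Ct Y) * Et A B K X Y N₀ α) := by
  obtain ⟨c, hc, h⟩ := E1posW3a
  refine ⟨c, hc, fun del hdel => ?_⟩
  obtain ⟨w, hw, hw0, h1⟩ := h del hdel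
  refine ⟨w, hw, hw0, fun A B hA hB => ?_⟩
  obtain ⟨C, hC, h2⟩ := h1 A B hA hB
  refine ⟨C, hC, fun K X Y η D Y₀ N₀ N₁ ρ hK hX hY hη hη1 hD1 hN₀ h01 hY00 hanti hρ1 hρ0 α hα δ
    hδ hδ1 => ?_⟩
  have h3 := h2 K X Y η D Y₀ N₀ N₁ ρ hK hX hY hη hη1 hD1 hN₀ h01 hY00 hanti hρ1 hρ0 α hα δ hδ hδ1
  refine h3.trans ?_
  have hlog := Real.log_nonneg hY
  have hP2 : 0 ≤ C * (1 + Real.log Y) * (K / X) := by positivity
  refine add_le_add le_rfl (mul_le_mul_of_nonneg_left ?_ hP2)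
  have hδi : 0 ≤ δ⁻¹ := (inv_pos.mpr hδ).le
  have h4 := mul_le_mul_of_nonneg_left
    (EG3_le (A := A) (Y := Y) (D := D) (Y₀ := Y₀) (Y₁ := N₁) hK.le hX.le α) hδi
  linarith

end Crest.Agent.R017.E1551
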