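import Crest.Agent.R017.LBa_48
import Crest.Agent.R017.RGwJ_813
import Crest.Agent.R017.E1zc_551

/-!
# Row 17, C.REMg (helper320): the functional `EH` as sums over `(h, U)` and one number

* `regroup`   : 551's regrouping for an arbitrary functional
* `EHU`, `EH_le_EHU` : cube-free frequencies `κ U`
* `EHU_le`    : one number `M`
* `EH_num`    : pointwise in the height
-/

set_option autoImplicit false

noncomputable section

open Complex MeasureTheory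
open scoped ComplexConjugate Classical

namespace Crest.Agent.R017.EHu320

open Crest.Agent.R012 Crest.Agent.R012.Eis Crest.Agent.R012.MC
open Crest.Agent.R012.LS2 (S mem_S)
open Crest.Agent.R012.Mob705 (pdiv PE)
open Crest.Agent.R012.Weight600 (pw pw_mul norm_pw)
open Crest.Agent.R017.CM106 (CS TG)
open Crest.Agent.R017.Dual2813 (S_of_dvd)
open Crest.Agent.R017.E1551

/-- **regrouping**, arbitrary functionals -/
theorem regroup {Y : ℝ} (hY : 0 ≤ Y) {α : Eis → ℂ} (hα : ∀ n, α n ≠ 0 → n ∈ S Y)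
    {N W : Eis → Eis → ℝ} (hN0 : ∀ h U, 0 ≤ N h U)
    (hNz : ∀ h U, (∀ m, α (h * (U * m)) = 0) → N h U = 0)
    (hW : ∀ δ ∈ S Y, ∀ G ∈ S Y, nm δ * W δ G ≤
      ∑ e ∈ S Y, ∑ U ∈ S Y, if e * U = G then nm U * (nm (e * δ) * N (e * δ) U) else 0) :
    ∑ p ∈ (S Y ×ˢ S Y).erase (1, 1),
      (nm p.1 * Div277.tau p.1 * (Div277.tau p.2 : ℝ) ^ 4) * W p.1 p.2 ≤
    ∑ p ∈ (S Y ×ˢ S Y).erase (1, 1),
      ((Div277.tau p.1 : ℝ) ^ 7 * (Div277.tau p.2 : ℝ) ^ 4) * ((nm p.1 * nm p.2) *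
        N p.1 p.2) := by
  -- swap the coordinates
  have e1 : ∑ p ∈ (S Y ×ˢ S Y).erase (1, 1),
      (nm p.1 * Div277.tau p.1 * (Div277.tau p.2 : ℝ) ^ 4) * W p.1 p.2 = ∑ p ∈ (S Y ×ˢ S Y).erase (1, 1),
      ((Div277.tau p.2 : ℝ) * (Div277.tau p.1 : ℝ) ^ 4) *
        (nm p.2 * W p.2 p.1) := by
    refine Finset.sum_bij' (fun p _ => (p.2, p.1)) (fun p _ => (p.2, p.1)) ?_ ?_ ?_ ?_ ?_
    · intro p hp
      have h1 := Finset.mem_erase.mp hp
      have h2 := Finset.mem_product.mp h1.2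
      refine Finset.mem_erase.mpr ⟨fun h3 => h1.1 ?_, Finset.mem_product.mpr ⟨h2.2, h2.1⟩⟩
      have h4 : p.2 = 1 := congrArg Prod.fst h3
      have h5 : p.1 = 1 := congrArg Prod.snd h3
      exact Prod.ext h5 h4
    · intro p hp
      have h1 := Finset.mem_erase.mp hp
      have h2 := Finset.mem_product.mp h1.2
      refine Finset.mem_erase.mpr ⟨fun h3 => h1.1 ?_, Finset.mem_product.mpr ⟨h2.2, h2.1⟩⟩
      have h4 : p.2 = 1 := congrArg Prod.fst h3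
      have h5 : p.1 = 1 := congrArg Prod.snd h3
      exact Prod.ext h5 h4
    · intro p _; rfl
    · intro p _; rfl
    · intro p _; ring
  rw [e1]
  have h2 : ∀ p ∈ (S Y ×ˢ S Y).erase (1, 1), ((Div277.tau p.2 : ℝ) * (Div277.tau p.1 : ℝ) ^ 4) *
        (nm p.2 * W p.2 p.1) ≤
      ((Div277.tau p.2 : ℝ) * (Div277.tau p.1 : ℝ) ^ 4) * (∑ e ∈ S Y, ∑ U ∈ S Y,
        if e * U = p.1 then nm U * (nm (e * p.2) * N (e * p.2) U) else 0) := by
    intro p hp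
    have hp2 := Finset.mem_product.mp (Finset.mem_of_mem_erase hp)
    exact mul_le_mul_of_nonneg_left (hW _ hp2.2 _ hp2.1) (by positivity)
  refine (Finset.sum_le_sum h2).trans ?_
  have h3 := sum_regroup (Y := Y) (a := fun G δ => (Div277.tau δ : ℝ) * (Div277.tau G : ℝ) ^ 4)
    (b := fun e U δ => nm U * (nm (e * δ) * N (e * δ) U))
    (c := fun e U δ => (Div277.tau δ : ℝ) * ((Div277.tau e : ℝ) * Div277.tau U) ^ 4)
    (fun e U δ => mul_nonneg (Nat.cast_nonneg _) (mul_nonneg (Nat.cast_nonneg _) (hN0 _ _)))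
    (fun e U δ => by positivity)
    (fun e U δ => by
      have : (Div277.tau (e * U) : ℝ) ≤ Div277.tau e * Div277.tau U := by
        exact_mod_cast Div277.tau_mul_le e U
      gcongr)
  refine h3.trans ?_
  set M : Eis → Eis → ℝ := fun U h => ((Div277.tau U : ℝ) ^ 3 * (Div277.tau h : ℝ) ^ 3) *
    (nm h * N h U) with hM
  have hM0 : ∀ U h, 0 ≤ M U h := fun U h =>
    mul_nonneg (by positivity) (mul_nonneg (Nat.cast_nonneg _) (hN0 _ _))
  have h4 : ∑ q ∈ Q3 Y, ((Div277.tau q.2.2 : ℝ) * ((Div277.tau q.1 : ℝ) *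
        Div277.tau q.2.1) ^ 4) * (nm q.2.1 * (nm (q.1 * q.2.2) * N (q.1 * q.2.2) q.2.1)) ≤
      ∑ q ∈ Q3 Y, ((Div277.tau q.1 : ℝ) * Div277.tau q.2.1 * (Div277.tau q.2.2 : ℝ) ^ 2) *
        (nm q.2.1 * M q.2.1 (q.1 * q.2.2)) := by
    refine Finset.sum_le_sum fun q hq => ?_
    obtain ⟨hq1, -⟩ := Finset.mem_filter.mp hq
    have hq3 := Finset.mem_product.mp hq1
    have hq4 := Finset.mem_product.mp hq3.2
    have dg := (mem_S hY).1 hq3.1
    have dL := (mem_S hY).1 hq4.2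
    have hL0 := dL.2.1.ne_zero
    have hg0 := dg.2.1.ne_zero
    have t1 : (Div277.tau q.1 : ℝ) ≤ Div277.tau (q.1 * q.2.2) := by
      exact_mod_cast Div277.tau_le_of_dvd (mul_ne_zero hg0 hL0) (dvd_mul_right _ _)
    have t2 := tau_ge_one hL0
    have hN' := hN0 (q.1 * q.2.2) q.2.1
    simp only [hM]
    generalize N (q.1 * q.2.2) q.2.1 = NN at *
    generalize (Div277.tau (q.1 * q.2.2) : ℝ) = th at *
    have t0 : (0 : ℝ) ≤ Div277.tau q.1 := Nat.cast_nonneg _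
    have t3 : (0 : ℝ) ≤ Div277.tau q.2.1 := Nat.cast_nonneg _
    generalize (Div277.tau q.1 : ℝ) = te at *
    generalize (Div277.tau q.2.1 : ℝ) = tU at *
    generalize (Div277.tau q.2.2 : ℝ) = td at *
    have n1 : (0 : ℝ) ≤ nm q.2.1 := Nat.cast_nonneg _
    have n2 : (0 : ℝ) ≤ nm (q.1 * q.2.2) := Nat.cast_nonneg _
    generalize (nm q.2.1 : ℝ) = nU at *
    generalize (nm (q.1 * q.2.2) : ℝ) = nh at *
    have h5 : td * (te * tU) ^ 4 ≤ (te * tU * td ^ 2) * (tU ^ 3 * th ^ 3) := by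
      have h6 : te ^ 3 ≤ th ^ 3 := by gcongr
      have h7 : td ≤ td ^ 2 := by nlinarith
      have td0 : 0 ≤ td := by linarith
      calc td * (te * tU) ^ 4 = (te * tU * td) * (tU ^ 3 * te ^ 3) := by ring
        _ ≤ (te * tU * td ^ 2) * (tU ^ 3 * th ^ 3) := by gcongr
    calc td * (te * tU) ^ 4 * (nU * (nh * NN)) ≤
          ((te * tU * td ^ 2) * (tU ^ 3 * th ^ 3)) * (nU * (nh * NN)) :=
          mul_le_mul_of_nonneg_right h5 (by positivity)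
      _ = _ := by ring
  refine h4.trans ?_
  have h5 := sum_triple_le (M := M) (α := α) hY hα hM0 (fun U h h0 => by
    have h1 : ∀ m, α (h * (U * m)) = 0 := fun m => by
      have := h0 m
      rwa [show U * (h * m) = h * (U * m) by ring] at this
    simp only [hM]
    rw [hNz _ _ h1, mul_zero, mul_zero])
  refine h5.trans (le_of_eq ?_)
  refine Finset.sum_bij' (fun p _ => (p.2, p.1)) (fun p _ => (p.2, p.1)) ?_ ?_ ?_ ?_ ?_
  · intro p hp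
    have h1 := Finset.mem_erase.mp hp
    have h2 := Finset.mem_product.mp h1.2
    refine Finset.mem_erase.mpr ⟨fun h3 => h1.1 ?_, Finset.mem_product.mpr ⟨h2.2, h2.1⟩⟩
    have h4 : p.2 = 1 := congrArg Prod.fst h3
    have h5 : p.1 = 1 := congrArg Prod.snd h3
    exact Prod.ext h5 h4
  · intro p hp
    have h1 := Finset.mem_erase.mp hp
    have h2 := Finset.mem_product.mp h1.2
    refine Finset.mem_erase.mpr ⟨fun h3 => h1.1 ?_, Finset.mem_product.mpr ⟨h2.2, h2.1⟩⟩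
    have h4 : p.2 = 1 := congrArg Prod.fst h3
    have h5 : p.1 = 1 := congrArg Prod.snd h3
    exact Prod.ext h5 h4
  · intro p _; rfl
  · intro p _; rfl
  · intro p _
    simp only [hM]
    ring


/-! ### cube-free frequencies -/

lemma LJ2_le {A K X Y Z : ℝ} (hK : 0 < K) (hX : 0 < X) (hY : 0 ≤ Y) {α : Eis → ℂ}
    (hα : ∀ n, α n ≠ 0 → n ∈ S Y) {δ G : Eis} (hδ : δ ∈ S Y) (hG : G ∈ S Y) :
    nm δ * (nm G * LJ A K X Z α δ G) ≤ ∑ e ∈ S Y, ∑ U ∈ S Y, if e * U = G then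
      nm U * (nm (e * δ) * (nm U * UL A K X Z α (e * δ) U)) else 0 := by
  have hδS := (mem_S hY).1 hδ
  have hGS := (mem_S hY).1 hG
  have hδ1 := nmpos hδS.2.1.ne_zero
  have h0 := tau_sum_le (Z := Z / (nm δ : ℝ) ^ 2) hY hG
    (f := fun j => nm δ * (nm G * (lm K X δ j * Wf A α δ j G)))
    (F := fun e U κ => nm U * (nm (e * δ) * (nm U * (lm K (X / nm (e * δ * U)) 1 (κ * U) *
      Wb A (sg α (e * δ * U)) (κ * U)))))
    (fun e U κ => mul_nonneg (Nat.cast_nonneg _) (mul_nonneg (Nat.cast_nonneg _)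
      (mul_nonneg (Nat.cast_nonneg _) (mul_nonneg
      (lm_nonneg hK.le (div_nonneg hX.le (Nat.cast_nonneg _)) _ _) (Wb_nonneg _ _ _)))))
    (fun j κ hj h1 h2 => by
      have e1 := Wf_eq_Wb (A := A) hY hα hδS.2.1 hGS.2.1 hGS.2.2 j
      have e2 := lm_tau hK hX hδS.2.1.ne_zero hj.1 hGS.2.1 hGS.2.2
      have e3 := g1_mul_g2 (κ := j) hGS.2.1 hGS.2.2
      have e4 : g2 j G * δ * g1 j G = δ * G := by
        conv_rhs => rw [← e3]
        ring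
      rw [e1, e2, e4, h2]
      have e5 : (nm G : ℝ) = nm (g1 j G) * nm (g2 j G) := by
        rw [← Nat.cast_mul, ← nm_mul, e3]
      have e6 : (nm (g2 j G * δ) : ℝ) = nm (g2 j G) * nm δ := by
        rw [nm_mul, Nat.cast_mul]
      generalize lm K (X / nm (δ * G)) 1 (κ * g1 j G) = l
      generalize Wb A (sg α (δ * G)) (κ * g1 j G) = W
      rw [e5, e6]
      exact le_of_eq (by ring))
  have e0 : nm δ * (nm G * LJ A K X Z α δ G) =
      ∑ j ∈ BF (Z / (nm δ : ℝ) ^ 2), nm δ * (nm G * (lm K X δ j * Wf A α δ j G)) := by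
    unfold LJ
    rw [Finset.mul_sum, Finset.mul_sum]
  rw [e0]
  refine h0.trans (le_of_eq ?_)
  refine Finset.sum_congr rfl fun e he => Finset.sum_congr rfl fun U _ => ?_
  split_ifs
  · unfold UL
    rw [Finset.mul_sum, Finset.mul_sum, Finset.mul_sum]
    refine Finset.sum_congr ?_ fun _ _ => rfl
    congr 1
    rw [nm_mul]
    push_cast
    rw [div_div]
    congr 1
    ring
  · rfl

/-- `EH` in cube-free frequencies -/
def EHU (A K X Y Z : ℝ) (α : Eis → ℂ) : ℝ :=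
  ∑ p ∈ S Y ×ˢ S Y, ((Div277.tau p.1 : ℝ) ^ 7 * (Div277.tau p.2 : ℝ) ^ 4) *
    ((nm p.1 * nm p.2) * (nm p.2 * UL A K X Z α p.1 p.2))

/-- **48's (1)** -/
theorem EH_le_EHU {A K X Y Z : ℝ} (hK : 0 < K) (hX : 0 < X) (hY : 1 ≤ Y) {α : Eis → ℂ}
    (hα : ∀ n, α n ≠ 0 → n ∈ S Y) : LBx48.EH A K X Y Z α ≤ EHU A K X Y Z α := by
  have hY0 : 0 ≤ Y := by linarith
  have h1S : (1 : Eis) ∈ S Y := (mem_S hY0).2 ⟨by rw [nm_one]; simpa using hY, isPrim_one,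
    squarefree_one⟩
  have h11 : ((1 : Eis), (1 : Eis)) ∈ S Y ×ˢ S Y := Finset.mem_product.2 ⟨h1S, h1S⟩
  unfold LBx48.EH EHU
  rw [← Finset.add_sum_erase _ _ h11, ← Finset.add_sum_erase _ _ h11]
  refine add_le_add ?_ ?_
  · have h2 := LJ2_le (A := A) (Z := Z) hK hX hY0 hα h1S h1S
    have h3 : (∑ e ∈ S Y, ∑ U ∈ S Y, if e * U = 1 then
        nm U * (nm (e * 1) * (nm U * UL A K X Z α (e * 1) U)) else 0 : ℝ) =
        nm (1 : Eis) * (nm ((1 : Eis) * 1) * (nm (1 : Eis) * UL A K X Z α (1 * 1) 1)) := by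
      rw [Finset.sum_eq_single_of_mem 1 h1S, Finset.sum_eq_single_of_mem 1 h1S, if_pos (by ring)]
      · intro U hU hne
        rw [if_neg]
        intro h4
        exact hne (by simpa using h4)
      · intro e he hne
        refine Finset.sum_eq_zero fun U hU => ?_
        rw [if_neg]
        intro h4
        exact hne (isPrim_mul_eq_one ((mem_S hY0).1 he).2.1 ((mem_S hY0).1 hU).2.1 h4).1
    rw [h3] at h2
    simp only [nm_one, tau_one551, Nat.cast_one, one_mul, mul_one, one_pow] at h2 ⊢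
    exact h2
  · have h2 := regroup hY0 hα (N := fun h U => nm U * UL A K X Z α h U)
      (W := fun δ G => nm G * LJ A K X Z α δ G)
      (fun h U => mul_nonneg (Nat.cast_nonneg _) (UL_nonneg hK.le hX.le α h U))
      (fun h U h0 => by
        show (nm U : ℝ) * UL A K X Z α h U = 0
        rw [UL_zero h0, mul_zero])
      (fun δ hδ G hG => LJ2_le hK hX hY0 hα hδ hG)
    exact h2

/-! ### one number -/

/-- **`h` fixed** -/
theorem large_hE {A J : ℝ} (hA : J + 1 < A) (hJ : 0 ≤ J) {K X Y Z M : ℝ} (hK : 0 < K)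
    (hX : 0 < X) (hY : 1 ≤ Y) (hM : 0 ≤ M) {α : Eis → ℂ} (hα : ∀ n, α n ≠ 0 → n ∈ S Y)
    {h : Eis} (hh : IsPrim h) {Q : Eis → Prop}
    (hyp : ∀ B V, 1 ≤ B → B ≤ Y → 1 ≤ V → V ≤ Z / (nm h : ℝ) ^ 2 → ∀ t,
      JB Y α Q h B V t ≤ M * (B⁻¹ * yv K X h V) * (1 + |t|) ^ J) :
    ∑ U ∈ (S Y).filter Q, nm U * (nm U * UL A K X Z α h U) ≤
      4 * (∫ t, jb (A - J) t) * (1 + 2 * Real.log Y) *
        (1 + 2 * Real.log (max 1 (Z / (nm h : ℝ) ^ 2))) * M := by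
  have hY0 : 0 ≤ Y := by linarith
  have hh0 := hh.ne_zero
  have hI : 0 ≤ ∫ t, jb (A - J) t := integral_nonneg fun t => (jb_pos _ t).le
  have hlY := Real.log_nonneg hY
  have hlZ := Real.log_nonneg (le_max_left 1 (Z / (nm h : ℝ) ^ 2))
  set Z' := Z / (nm h : ℝ) ^ 2 with hZ'
  by_cases hZ1 : 1 ≤ Z'
  swap
  · have hz : ∀ U, UL A K X Z α h U = 0 := by
      intro U
      unfold UL
      rw [← hZ']
      have : BU Z' U = ∅ := by
        rw [Finset.eq_empty_iff_forall_notMem]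
        intro κ hκ
        obtain ⟨⟨h1, h2⟩, -⟩ := mem_BU.mp hκ
        exact hZ1 ((nm_ge_one h1.1).trans h2)
      rw [this, Finset.sum_empty]
    simp only [hz, mul_zero, Finset.sum_const_zero]
    positivity
  rw [max_eq_right hZ1]
  have hUp : ∀ x ∈ TH Y Z' Q, x.1 ∈ S Y ∧ CF x.2 ∧ (nm x.2 : ℝ) ≤ Z' := by
    intro x hx
    obtain ⟨h1, -⟩ := Finset.mem_filter.mp hx
    have h2 := Finset.mem_product.mp h1
    exact ⟨(Finset.mem_filter.mp h2.1).1, mem_BF.mp h2.2⟩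
  have e1 : ∑ U ∈ (S Y).filter Q, nm U * (nm U * UL A K X Z α h U) = ∑ x ∈ TH Y Z' Q,
      (nm x.1 * (nm x.1 * lm K (X / nm (h * x.1)) 1 (x.2 * x.1))) *
        Wb A (sg α (h * x.1)) (x.2 * x.1) := by
    rw [sum_TH Y Z' Q (fun U κ => (nm U * (nm U * lm K (X / nm (h * U)) 1 (κ * U))) *
        Wb A (sg α (h * U)) (κ * U))]
    refine Finset.sum_congr rfl fun U _ => ?_
    unfold UL
    rw [Finset.mul_sum, Finset.mul_sum]
    exact Finset.sum_congr rfl fun κ _ => by ring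
  rw [e1]
  have h1 := dyad2 (T := TH Y Z' Q) (n₁ := fun x => (nm x.1 : ℝ)) (n₂ := fun x => (nm x.2 : ℝ))
    (ω := fun x => nm x.1 * (nm x.1 * lm K (X / nm (h * x.1)) 1 (x.2 * x.1)))
    (f := fun x => Wb A (sg α (h * x.1)) (x.2 * x.1)) (Z₁ := Y) (Z₂ := Z')
    (D := 4 * M * ∫ t, jb (A - J) t) hY hZ1 (by positivity) (fun x _ => Wb_nonneg _ _ _)
    (fun x _ => mul_nonneg (Nat.cast_nonneg _) (mul_nonneg (Nat.cast_nonneg _)
      (lm_nonneg hK.le (div_nonneg hX.le (Nat.cast_nonneg _)) _ _)))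
    (fun x hx => by
      have := (mem_S hY0).1 (hUp x hx).1
      exact ⟨nm_ge_one this.2.1.ne_zero, this.1⟩)
    (fun x hx => ⟨nm_ge_one (hUp x hx).2.1.1, (hUp x hx).2.2⟩)
    (Ω := fun B V => B * (4 * (yv K X h V)⁻¹))
    (fun B V hB hV => by have := yv_pos hK hX hV hh0; positivity)
    (fun x hx B V h1 h2 h3 h4 => by
      obtain ⟨hx1, hx2, -⟩ := hUp x hx
      have hU0 := ((mem_S hY0).1 hx1).2.1.ne_zero
      have hU1 := nmpos hU0
      show nm x.1 * (nm x.1 * lm K (X / nm (h * x.1)) 1 (x.2 * x.1)) ≤ _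
      rw [nmU_lm hK hX hh0 hU0 hx2.1]
      exact mul_le_mul h1 (lm_block hK hX hh0 hx2.1 h3 h4) (lm_nonneg hK.le hX.le _ _)
        (hU1.le.trans h1))
    (fun B V hB1 hB2 hV1 hV2 => by
      have hB0 : 0 < B := by linarith
      have hV0 : 0 < V := by linarith
      have hy := yv_pos hK hX hV0 hh0
      rw [TH_filter hV2]
      have h5 := sum_Wb_TH hA hJ hY0 hα hh (V := V) (Q₀ := M * (B⁻¹ * yv K X h V))
        (Q := fun U => B / 2 < (nm U : ℝ) ∧ (nm U : ℝ) ≤ B ∧ Q U)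
        (fun t => by
          have h0 := hyp B V hB1 hB2 hV1 hV2 t
          unfold JB at h0
          convert h0)
      set y := yv K X h V
      calc B * (4 * y⁻¹) * _ ≤ B * (4 * y⁻¹) * (M * (B⁻¹ * y) * ∫ t, jb (A - J) t) :=
            mul_le_mul_of_nonneg_left h5 (by positivity)
        _ = 4 * M * (∫ t, jb (A - J) t) * (y⁻¹ * y) * (B * B⁻¹) := by ring
        _ = _ := by rw [inv_mul_cancel₀ hy.ne', mul_inv_cancel₀ hB0.ne', mul_one, mul_one])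
  refine h1.trans (le_of_eq ?_)
  ring

/-- **one number** -/
theorem EHU_le {A J ε : ℝ} (hA : J + 1 < A) (hJ : 0 ≤ J) (hε : 0 < ε) : ∃ C : ℝ, 0 ≤ C ∧
    ∀ (P K X Y Z M : ℝ) (α : Eis → ℂ), 1 ≤ P → 0 < K → 0 < X → 1 ≤ Y → Y ≤ P → Z ≤ P →
      0 ≤ M → (∀ n, α n ≠ 0 → n ∈ S Y) →
      (∀ h ∈ S Y, ∀ B V, 1 ≤ B → B ≤ Y → 1 ≤ V → V ≤ Z / (nm h : ℝ) ^ 2 → ∀ t,
        JB Y α (fun _ => True) h B V t ≤
          M / (nm h : ℝ) ^ 2 * (B⁻¹ * yv K X h V) * (1 + |t|) ^ J) →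
      EHU A K X Y Z α ≤ C * P ^ ε * M := by
  obtain ⟨C₂, hC₂, hτ7⟩ := CR3436.tau_pow_le 7 (ε := ε / 4) (by positivity)
  obtain ⟨C₃, hC₃, hτ4⟩ := CR3436.tau_pow_le 4 (ε := ε / 4) (by positivity)
  obtain ⟨C₄, hC₄, hlg⟩ := PInv255.one_add_log_pow_le 4 (ε / 2) (by positivity)
  set I := ∫ t, jb (A - J) t with hIdef
  have hI : 0 ≤ I := integral_nonneg fun t => (jb_pos _ t).le
  refine ⟨1600 * I * (C₂ * C₃) * C₄, by positivity,
    fun P K X Y Z M α hP hK hX hY hYP hZP hM hα hyp => ?_⟩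
  have hY0 : 0 ≤ Y := by linarith
  have hP0 : 0 < P := by linarith
  have hlP := Real.log_nonneg hP
  have hlYP : Real.log Y ≤ Real.log P := Real.log_le_log (by linarith) hYP
  have hsum : ∑ g ∈ S Y, 1 / (nm g : ℝ) ≤ 100 * (1 + Real.log P) :=
    (sum_inv_S551 hY).trans (by linarith)
  have hl4 := hlg P hP
  have hPe : P ^ (ε / 2) * P ^ (ε / 2) = P ^ ε := by
    rw [← Real.rpow_add hP0]; congr 1; ring
  have hPe4 : P ^ (ε / 4) * P ^ (ε / 4) = P ^ (ε / 2) := by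
    rw [← Real.rpow_add hP0]; congr 1; ring
  set l := Real.log P with hl
  have hPp : 0 < P ^ (ε / 2) := by positivity
  have hl34 : (1 + l) ^ 3 ≤ (1 + l) ^ 4 := pow_le_pow_right₀ (by linarith) (by norm_num)
  have hN0 : ∀ h U, 0 ≤ nm U * UL A K X Z α h U := fun h U =>
    mul_nonneg (Nat.cast_nonneg _) (UL_nonneg hK.le hX.le α h U)
  have h2 : EHU A K X Y Z α ≤ ∑ h ∈ S Y, (C₂ * C₃ * P ^ (ε / 2)) *
      (nm h * ∑ U ∈ S Y, nm U * (nm U * UL A K X Z α h U)) := by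
    unfold EHU
    rw [Finset.sum_product]
    refine Finset.sum_le_sum fun h hh => ?_
    rw [Finset.mul_sum, Finset.mul_sum]
    refine Finset.sum_le_sum fun U hU => ?_
    have d1 := (mem_S hY0).1 hh
    have d2 := (mem_S hY0).1 hU
    have a1 := hτ7 P h d1.2.1 (d1.1.trans hYP)
    have a2 := hτ4 P U d2.2.1 (d2.1.trans hYP)
    have h4 := hN0 h U
    have h5 : (Div277.tau h : ℝ) ^ 7 * (Div277.tau U : ℝ) ^ 4 ≤ C₂ * C₃ * P ^ (ε / 2) := by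
      calc (Div277.tau h : ℝ) ^ 7 * (Div277.tau U : ℝ) ^ 4
          ≤ (C₂ * P ^ (ε / 4)) * (C₃ * P ^ (ε / 4)) := by gcongr
        _ = C₂ * C₃ * (P ^ (ε / 4) * P ^ (ε / 4)) := by ring
        _ = _ := by rw [hPe4]
    calc (Div277.tau h : ℝ) ^ 7 * (Div277.tau U : ℝ) ^ 4 *
          ((nm h * nm U) * (nm U * UL A K X Z α h U))
        ≤ (C₂ * C₃ * P ^ (ε / 2)) * ((nm h * nm U) * (nm U * UL A K X Z α h U)) :=
          mul_le_mul_of_nonneg_right h5 (by positivity)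
      _ = _ := by ring
  refine h2.trans ?_
  have h3 : ∀ h ∈ S Y, (C₂ * C₃ * P ^ (ε / 2)) *
      (nm h * ∑ U ∈ S Y, nm U * (nm U * UL A K X Z α h U)) ≤
      (C₂ * C₃ * P ^ (ε / 2) * (4 * I * (1 + 2 * l) ^ 2 * M)) * (1 / (nm h : ℝ)) := by
    intro h hh
    have hhS := (mem_S hY0).1 hh
    have hh0 := nmpos hhS.2.1.ne_zero
    have hh1 := nm_ge_one hhS.2.1.ne_zero
    have b2 := large_hE (M := M / (nm h : ℝ) ^ 2) (Q := fun _ => True)
      hA hJ hK hX hY (by positivity) hα hhS.2.1 (fun B V => hyp h hh B V)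
    rw [← hIdef] at b2
    have c2 : Real.log (max 1 (Z / (nm h : ℝ) ^ 2)) ≤ l := by
      refine Real.log_le_log (by positivity) (max_le hP ?_)
      rcases le_total 0 Z with h5 | h5
      · exact (div_le_self h5 (one_le_pow₀ hh1)).trans hZP
      · exact (div_nonpos_of_nonpos_of_nonneg h5 (by positivity)).trans hP0.le
    have c4 := Real.log_nonneg (le_max_left 1 (Z / (nm h : ℝ) ^ 2))
    have hlY := Real.log_nonneg hY
    have b5 : ∑ U ∈ S Y, nm U * (nm U * UL A K X Z α h U) ≤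
        4 * I * (1 + 2 * l) * (1 + 2 * l) * (M / (nm h : ℝ) ^ 2) := by
      have b7 : ∑ U ∈ S Y, nm U * (nm U * UL A K X Z α h U) ≤
          4 * I * (1 + 2 * Real.log Y) * (1 + 2 * Real.log (max 1 (Z / (nm h : ℝ) ^ 2))) *
            (M / (nm h : ℝ) ^ 2) := by
        convert b2 using 2
        ext x
        simp only [Finset.mem_filter, and_true]
      refine b7.trans ?_
      gcongr
    calc (C₂ * C₃ * P ^ (ε / 2)) *
          (nm h * ∑ U ∈ S Y, nm U * (nm U * UL A K X Z α h U))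
        ≤ (C₂ * C₃ * P ^ (ε / 2)) * (nm h *
            (4 * I * (1 + 2 * l) * (1 + 2 * l) * (M / (nm h : ℝ) ^ 2))) := by
          gcongr
      _ = _ := by field_simp
  refine (Finset.sum_le_sum h3).trans ?_
  rw [← Finset.mul_sum]
  calc (C₂ * C₃ * P ^ (ε / 2) * (4 * I * (1 + 2 * l) ^ 2 * M)) * ∑ h ∈ S Y, 1 / (nm h : ℝ)
      ≤ (C₂ * C₃ * P ^ (ε / 2) * (4 * I * (2 * (1 + l)) ^ 2 * M)) * (100 * (1 + l)) := by
        have : 1 + 2 * l ≤ 2 * (1 + l) := by linarith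
        gcongr
    _ = 1600 * I * (C₂ * C₃) * P ^ (ε / 2) * M * (1 + l) ^ 3 := by ring
    _ ≤ 1600 * I * (C₂ * C₃) * P ^ (ε / 2) * M * (C₄ * P ^ (ε / 2)) := by
        have := hl34.trans hl4
        gcongr
    _ = 1600 * I * (C₂ * C₃) * C₄ * (P ^ (ε / 2) * P ^ (ε / 2)) * M := by ring
    _ = _ := by rw [hPe]

/-! ### pointwise in the height -/

lemma norm_TG_tws_tws {Y : ℝ} (hY : 0 ≤ Y) {α : Eis → ℂ} (hα : ∀ n, α n ≠ 0 → n ∈ S Y)
    {g : Eis} (hg : g ≠ 0) (s t : ℝ) (r : Eis) :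
    ‖TG (tws (sg (tws α s) g) t) r‖ = ‖TG (tws (sg α g) (s + t)) r‖ := by
  have h1 : TG (tws (sg (tws α s) g) t) r = pw s (nm g) * TG (tws (sg α g) (s + t)) r := by
    unfold TG
    rw [← tsum_mul_left]
    refine tsum_congr fun m => ?_
    show α (g * m) * pw s (nm (g * m)) * pw t (nm m) * (G m * conj (sy r m)) =
      pw s (nm g) * (α (g * m) * pw (s + t) (nm m) * (G m * conj (sy r m)))
    by_cases h : α (g * m) = 0
    · rw [h]; ring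
    · have h2 := ((mem_S hY).1 (hα _ h)).2.1.ne_zero
      have hm : m ≠ 0 := right_ne_zero_of_mul h2
      rw [nm_mul]
      push_cast
      rw [pw_mul (nmpos hg).ne' (nmpos hm).ne']
      have e1 : pw (s + t) (nm m) = pw s (nm m) * pw t (nm m) := by
        unfold Weight600.pw
        exact Weight600.osc_add_left _ _ _
      rw [e1]
      ring
  rw [h1, norm_mul, norm_pw, one_mul]

lemma JB_tws {Y : ℝ} (hY : 0 ≤ Y) {α : Eis → ℂ} (hα : ∀ n, α n ≠ 0 → n ∈ S Y)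
    (Q : Eis → Prop) {h : Eis} (hh : h ≠ 0) (B V s t : ℝ) :
    JB Y (tws α s) Q h B V t = JB Y α Q h B V (s + t) := by
  unfold JB
  refine Finset.sum_congr rfl fun U hU => Finset.sum_congr rfl fun κ _ => ?_
  have hU0 := ((mem_S hY).1 (Finset.mem_filter.1 hU).1).2.1.ne_zero
  rw [norm_TG_tws_tws hY hα (mul_ne_zero hh hU0)]

lemma tws_supp {Y : ℝ} {α : Eis → ℂ} (hα : ∀ n, α n ≠ 0 → n ∈ S Y) (s : ℝ) :
    ∀ n, tws α s n ≠ 0 → n ∈ S Y := fun n hn => hα n (left_ne_zero_of_mul hn)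

/-- **48's (2): `EH` from one number, pointwise in the height** -/
theorem EH_num {A J ε : ℝ} (hA : J + 1 < A) (hJ : 0 ≤ J) (hε : 0 < ε) : ∃ C : ℝ, 0 ≤ C ∧
    ∀ (P K X Y Z M : ℝ) (α : Eis → ℂ), 1 ≤ P → 0 < K → 0 < X → 1 ≤ Y → Y ≤ P → Z ≤ P →
      0 ≤ M → (∀ n, α n ≠ 0 → n ∈ S Y) →
      (∀ h ∈ S Y, ∀ B V, 1 ≤ B → B ≤ Y → 1 ≤ V → V ≤ Z / (nm h : ℝ) ^ 2 → ∀ t,
        JB Y α (fun _ => True) h B V t ≤
          M / (nm h : ℝ) ^ 2 * (B⁻¹ * yv K X h V) * (1 + |t|) ^ J) →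
      ∀ t : ℝ, LBx48.EH A K X Y Z (fun n => α n * pw t (nm n)) ≤
        C * P ^ ε * (M * (1 + |t|) ^ J) := by
  obtain ⟨C, hC, H⟩ := EHU_le hA hJ hε
  refine ⟨C, hC, fun P K X Y Z M α hP hK hX hY hYP hZP hM hα hyp t => ?_⟩
  have hY0 : 0 ≤ Y := by linarith
  have hα' := tws_supp hα t
  refine (EH_le_EHU (α := tws α t) hK hX hY hα').trans ?_
  refine H P K X Y Z (M * (1 + |t|) ^ J) (tws α t) hP hK hX hY hYP hZP (by positivity) hα' ?_
  intro h hh B V hB1 hB2 hV1 hV2 s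
  have hhS := (mem_S hY0).1 hh
  have hV0 : 0 < V := by linarith
  have hy := yv_pos hK hX hV0 hhS.2.1.ne_zero
  have hh0 := nmpos hhS.2.1.ne_zero
  rw [JB_tws hY0 hα _ hhS.2.1.ne_zero]
  refine (hyp h hh B V hB1 hB2 hV1 hV2 (t + s)).trans ?_
  have h1 : (1 + |t + s|) ^ J ≤ (1 + |t|) ^ J * (1 + |s|) ^ J := by
    rw [← Real.mul_rpow (by positivity) (by positivity)]
    refine Real.rpow_le_rpow (by positivity) ?_ hJ
    have := abs_add_le t s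
    nlinarith [abs_nonneg t, abs_nonneg s]
  have h2 : 0 ≤ M / (nm h : ℝ) ^ 2 * (B⁻¹ * yv K X h V) := by positivity
  calc M / (nm h : ℝ) ^ 2 * (B⁻¹ * yv K X h V) * (1 + |t + s|) ^ J
      ≤ M / (nm h : ℝ) ^ 2 * (B⁻¹ * yv K X h V) * ((1 + |t|) ^ J * (1 + |s|) ^ J) :=
        mul_le_mul_of_nonneg_left h1 h2
    _ = _ := by ring

/-! ### general weights, bare counts (146 #22089, 64 #21545) -/

/-- the `T`-functional with weight `c (N e)` on the pairs `Q e` -/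
def EHc (c : ℕ → ℝ) (Q : Eis → Prop) (A K X Y Z : ℝ) (α : Eis → ℂ) : ℝ :=
  ∑ δ ∈ S Y, ∑ e ∈ (S Y).filter Q, ((nm δ : ℝ) * Div277.tau δ * (Div277.tau e : ℝ) ^ 4) *
    (c (nm e) * LJ A K X Z α δ e)

/-- the bare count -/
def JC (Y : ℝ) (α : Eis → ℂ) (Q : Eis → Prop) (δ : Eis) (B V t : ℝ) : ℝ :=
  ∑ e ∈ (S Y).filter (fun e => B / 2 < nm e ∧ nm e ≤ B ∧ Q e),
    ∑ j ∈ BF V, ‖TG (tws (sg α (δ * e)) t) (j * e)‖ ^ 2

lemma Wf_eq_Wb' (A : ℝ) (α : Eis → ℂ) (δ j e : Eis) :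
    Wf A α δ j e = Wb A (sg α (δ * e)) (j * e) := by
  unfold Wf Wb Vt sg
  simp only [mul_assoc]

/-- integration over the twists -/
lemma sum_Wf_JC {A J : ℝ} (hA : J + 1 < A) (hJ : 0 ≤ J) {Y : ℝ} (hY : 0 ≤ Y) {α : Eis → ℂ}
    (hα : ∀ n, α n ≠ 0 → n ∈ S Y) {δ : Eis} (hδ : IsPrim δ) {V Q₀ : ℝ} {Q : Eis → Prop}
    (hyp : ∀ t, ∑ e ∈ (S Y).filter Q, ∑ j ∈ BF V, ‖TG (tws (sg α (δ * e)) t) (j * e)‖ ^ 2 ≤
      Q₀ * (1 + |t|) ^ J) :
    ∑ x ∈ ((S Y).filter Q) ×ˢ BF V, Wf A α δ x.2 x.1 ≤ Q₀ * ∫ t, jb (A - J) t := by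
  have hβ : ∀ x ∈ ((S Y).filter Q) ×ˢ BF V, ∀ n, sg α (δ * x.1) n ≠ 0 → n ∈ S Y := by
    intro x hx n hn
    have h2 := (mem_S hY).1 (Finset.mem_filter.mp (Finset.mem_product.mp hx).1).1
    have h3 := hα _ hn
    have h4 := (mem_S hY).1 h3
    exact S_of_dvd hY h3 (IsPrim.of_mul_left h4.2.1 (hδ.mul h2.2.1)) (dvd_mul_left _ _)
  have hint : ∀ x ∈ ((S Y).filter Q) ×ˢ BF V,
      Integrable fun t => jb A t * ‖Vt (sg α (δ * x.1)) (x.2 * x.1) t‖ ^ 2 := fun x hx => by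
    have := integrable_Vt (A := A) (by linarith) hY (hβ x hx) (x.2 * x.1) 1
    simpa using this
  simp only [Wf_eq_Wb']
  unfold Wb
  rw [← integral_finsetSum _ hint, ← integral_const_mul]
  refine integral_mono (integrable_finsetSum _ hint)
    ((integrable_jb (by linarith : 1 < A - J)).const_mul Q₀) fun t => ?_
  show ∑ x ∈ ((S Y).filter Q) ×ˢ BF V, jb A t * ‖Vt (sg α (δ * x.1)) (x.2 * x.1) t‖ ^ 2 ≤
    Q₀ * jb (A - J) t
  rw [← Finset.mul_sum]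
  have h1 : ∑ x ∈ ((S Y).filter Q) ×ˢ BF V, ‖Vt (sg α (δ * x.1)) (x.2 * x.1) t‖ ^ 2 ≤
      Q₀ * (1 + |t|) ^ J := by
    rw [Finset.sum_product]
    exact hyp t
  have h2 := mul_le_mul_of_nonneg_left h1 (jb_pos A t).le
  refine h2.trans (le_of_eq ?_)
  unfold jb
  have h3 : (0 : ℝ) < 1 + |t| := by positivity
  rw [show -(A - J) = -A + J by ring, Real.rpow_add h3]
  ring

/-- **`δ` fixed, general weight** -/
theorem cell_EHc {A J : ℝ} (hA : J + 1 < A) (hJ : 0 ≤ J) {K X Y Z M : ℝ} (hK : 0 < K)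
    (hX : 0 < X) (hY : 1 ≤ Y) (hM : 0 ≤ M) {α : Eis → ℂ} (hα : ∀ n, α n ≠ 0 → n ∈ S Y)
    {δ : Eis} (hδ : IsPrim δ) {Q : Eis → Prop} {c : ℕ → ℝ} {cb : ℝ → ℝ}
    (hc0 : ∀ n, 0 ≤ c n) (hcb : ∀ B, 0 < B → 0 ≤ cb B)
    (hc : ∀ e ∈ S Y, Q e → ∀ B : ℝ, (nm e : ℝ) ≤ B → B < 2 * nm e → c (nm e) ≤ cb B)
    (hyp : ∀ B V, 1 ≤ B → B ≤ Y → 1 ≤ V → V ≤ Z / (nm δ : ℝ) ^ 2 → ∀ t,
      cb B * JC Y α Q δ B V t ≤ M * yv K X δ V * (1 + |t|) ^ J) :
    ∑ e ∈ (S Y).filter Q, c (nm e) * LJ A K X Z α δ e ≤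
      4 * (∫ t, jb (A - J) t) * (1 + 2 * Real.log Y) *
        (1 + 2 * Real.log (max 1 (Z / (nm δ : ℝ) ^ 2))) * M := by
  have hY0 : 0 ≤ Y := by linarith
  have hh0 := hδ.ne_zero
  have hI : 0 ≤ ∫ t, jb (A - J) t := integral_nonneg fun t => (jb_pos _ t).le
  have hlY := Real.log_nonneg hY
  have hlZ := Real.log_nonneg (le_max_left 1 (Z / (nm δ : ℝ) ^ 2))
  set Z' := Z / (nm δ : ℝ) ^ 2 with hZ'
  by_cases hZ1 : 1 ≤ Z'
  swap
  · have hz : ∀ e, LJ A K X Z α δ e = 0 := by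
      intro e
      unfold LJ
      rw [← hZ']
      have : BF Z' = ∅ := by
        rw [Finset.eq_empty_iff_forall_notMem]
        intro κ hκ
        obtain ⟨h1, h2⟩ := mem_BF.mp hκ
        exact hZ1 ((nm_ge_one h1.1).trans h2)
      rw [this, Finset.sum_empty]
    simp only [hz, mul_zero, Finset.sum_const_zero]
    positivity
  rw [max_eq_right hZ1]
  set T := ((S Y).filter Q) ×ˢ BF Z' with hT
  have hUp : ∀ x ∈ T, (x.1 ∈ S Y ∧ Q x.1) ∧ CF x.2 ∧ (nm x.2 : ℝ) ≤ Z' := by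
    intro x hx
    have h2 := Finset.mem_product.mp hx
    exact ⟨Finset.mem_filter.mp h2.1, mem_BF.mp h2.2⟩
  have e1 : ∑ e ∈ (S Y).filter Q, c (nm e) * LJ A K X Z α δ e = ∑ x ∈ T,
      (c (nm x.1) * lm K X δ x.2) * Wf A α δ x.2 x.1 := by
    rw [hT, Finset.sum_product]
    refine Finset.sum_congr rfl fun e _ => ?_
    unfold LJ
    rw [Finset.mul_sum]
    exact Finset.sum_congr rfl fun j _ => by ring
  rw [e1]
  have h1 := dyad2 (T := T) (n₁ := fun x => (nm x.1 : ℝ)) (n₂ := fun x => (nm x.2 : ℝ))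
    (ω := fun x => c (nm x.1) * lm K X δ x.2)
    (f := fun x => Wf A α δ x.2 x.1) (Z₁ := Y) (Z₂ := Z')
    (D := 4 * M * ∫ t, jb (A - J) t) hY hZ1 (by positivity) (fun x _ => Wf_nonneg _ _ _ _ _)
    (fun x _ => mul_nonneg (hc0 _) (lm_nonneg hK.le hX.le _ _))
    (fun x hx => by
      have := (mem_S hY0).1 (hUp x hx).1.1
      exact ⟨nm_ge_one this.2.1.ne_zero, this.1⟩)
    (fun x hx => ⟨nm_ge_one (hUp x hx).2.1.1, (hUp x hx).2.2⟩)
    (Ω := fun B V => cb B * (4 * (yv K X δ V)⁻¹))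
    (fun B V hB hV => by have := yv_pos hK hX hV hh0; have := hcb B hB; positivity)
    (fun x hx B V h1 h2 h3 h4 => by
      obtain ⟨hx1, hx2, -⟩ := hUp x hx
      have hU1 := nmpos ((mem_S hY0).1 hx1.1).2.1.ne_zero
      exact mul_le_mul (hc x.1 hx1.1 hx1.2 B h1 h2) (lm_block hK hX hh0 hx2.1 h3 h4)
        (lm_nonneg hK.le hX.le _ _) (hcb B (hU1.trans_le h1)))
    (fun B V hB1 hB2 hV1 hV2 => by
      have hB0 : 0 < B := by linarith
      have hV0 : 0 < V := by linarith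
      have hy := yv_pos hK hX hV0 hh0
      have hcB := hcb B hB0
      have hf : T.filter (fun x => B / 2 < (nm x.1 : ℝ) ∧ (nm x.1 : ℝ) ≤ B ∧ (nm x.2 : ℝ) ≤ V) =
          ((S Y).filter (fun e => B / 2 < (nm e : ℝ) ∧ (nm e : ℝ) ≤ B ∧ Q e)) ×ˢ BF V := by
        ext x
        simp only [hT, Finset.mem_filter, Finset.mem_product, mem_BF]
        constructor
        · rintro ⟨⟨⟨h1, h2⟩, h3, -⟩, h5, h6, h7⟩
          exact ⟨⟨h1, h5, h6, h2⟩, h3, h7⟩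
        · rintro ⟨⟨h1, h5, h6, h2⟩, h3, h7⟩
          exact ⟨⟨⟨h1, h2⟩, h3, h7.trans hV2⟩, h5, h6, h7⟩
      rw [hf]
      set y := yv K X δ V with hyd
      have key : ∀ q : ℝ, (∀ t, JC Y α Q δ B V t ≤ q * (1 + |t|) ^ J) →
          ∑ x ∈ ((S Y).filter (fun e => B / 2 < (nm e : ℝ) ∧ (nm e : ℝ) ≤ B ∧ Q e)) ×ˢ BF V,
            Wf A α δ x.2 x.1 ≤ q * ∫ t, jb (A - J) t := fun q hq => by
        have h10 := sum_Wf_JC hA hJ hY0 hα hδ (V := V) (Q₀ := q)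
          (Q := fun e => B / 2 < (nm e : ℝ) ∧ (nm e : ℝ) ≤ B ∧ Q e) fun t => by
            have h0 := hq t
            unfold JC at h0
            convert h0
        convert h10
      rcases hcB.eq_or_lt with h8 | h8
      · rw [← h8, zero_mul, zero_mul]
        positivity
      · have h9 := key (M * y / cb B) fun t => by
          have h0 := hyp B V hB1 hB2 hV1 hV2 t
          rw [mul_comm] at h0
          rw [div_mul_eq_mul_div, le_div_iff₀ h8]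
          exact h0
        calc cb B * (4 * y⁻¹) * _ ≤ cb B * (4 * y⁻¹) * (M * y / cb B * ∫ t, jb (A - J) t) :=
              mul_le_mul_of_nonneg_left h9 (by positivity)
          _ = 4 * M * (∫ t, jb (A - J) t) * (y⁻¹ * y) * (cb B / cb B) := by ring
          _ = _ := by rw [inv_mul_cancel₀ hy.ne', div_self h8.ne', mul_one, mul_one])
  refine h1.trans (le_of_eq ?_)
  ring

/-- **one number**, general weight, bare count -/
theorem EHc_le {A J ε : ℝ} (hA : J + 1 < A) (hJ : 0 ≤ J) (hε : 0 < ε) : ∃ C : ℝ, 0 ≤ C ∧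
    ∀ (P K X Y Z M : ℝ) (α : Eis → ℂ), 1 ≤ P → 0 < K → 0 < X → 1 ≤ Y → Y ≤ P → Z ≤ P →
      0 ≤ M → (∀ n, α n ≠ 0 → n ∈ S Y) → ∀ (Q : Eis → Prop) (c : ℕ → ℝ) (cb : ℝ → ℝ),
      (∀ n, 0 ≤ c n) → (∀ B, 0 < B → 0 ≤ cb B) →
      (∀ e ∈ S Y, Q e → ∀ B : ℝ, (nm e : ℝ) ≤ B → B < 2 * nm e → c (nm e) ≤ cb B) →
      (∀ δ ∈ S Y, ∀ B V, 1 ≤ B → B ≤ Y → 1 ≤ V → V ≤ Z / (nm δ : ℝ) ^ 2 → ∀ t,
        cb B * JC Y α Q δ B V t ≤ M / (nm δ : ℝ) ^ 2 * yv K X δ V * (1 + |t|) ^ J) →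
      EHc c Q A K X Y Z α ≤ C * P ^ ε * M := by
  obtain ⟨C₂, hC₂, hτ7⟩ := CR3436.tau_pow_le 1 (ε := ε / 4) (by positivity)
  obtain ⟨C₃, hC₃, hτ4⟩ := CR3436.tau_pow_le 4 (ε := ε / 4) (by positivity)
  obtain ⟨C₄, hC₄, hlg⟩ := PInv255.one_add_log_pow_le 4 (ε / 2) (by positivity)
  set I := ∫ t, jb (A - J) t with hIdef
  have hI : 0 ≤ I := integral_nonneg fun t => (jb_pos _ t).le
  refine ⟨1600 * I * (C₂ * C₃) * C₄, by positivity,
    fun P K X Y Z M α hP hK hX hY hYP hZP hM hα Q c cb hc0 hcb hc hyp => ?_⟩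
  have hY0 : 0 ≤ Y := by linarith
  have hP0 : 0 < P := by linarith
  have hlP := Real.log_nonneg hP
  have hlYP : Real.log Y ≤ Real.log P := Real.log_le_log (by linarith) hYP
  have hsum : ∑ g ∈ S Y, 1 / (nm g : ℝ) ≤ 100 * (1 + Real.log P) :=
    (sum_inv_S551 hY).trans (by linarith)
  have hl4 := hlg P hP
  have hPe : P ^ (ε / 2) * P ^ (ε / 2) = P ^ ε := by
    rw [← Real.rpow_add hP0]; congr 1; ring
  have hPe4 : P ^ (ε / 4) * P ^ (ε / 4) = P ^ (ε / 2) := by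
    rw [← Real.rpow_add hP0]; congr 1; ring
  set l := Real.log P with hl
  have hPp : 0 < P ^ (ε / 2) := by positivity
  have hl34 : (1 + l) ^ 3 ≤ (1 + l) ^ 4 := pow_le_pow_right₀ (by linarith) (by norm_num)
  have hN0 : ∀ δ e, 0 ≤ c (nm e) * LJ A K X Z α δ e := fun δ e =>
    mul_nonneg (hc0 _) (LJ_nonneg hK.le hX.le α δ e)
  have h2 : EHc c Q A K X Y Z α ≤ ∑ δ ∈ S Y, (C₂ * C₃ * P ^ (ε / 2)) *
      (nm δ * ∑ e ∈ (S Y).filter Q, c (nm e) * LJ A K X Z α δ e) := by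
    unfold EHc
    refine Finset.sum_le_sum fun δ hδ => ?_
    rw [Finset.mul_sum, Finset.mul_sum]
    refine Finset.sum_le_sum fun e he => ?_
    have d1 := (mem_S hY0).1 hδ
    have d2 := (mem_S hY0).1 (Finset.mem_filter.1 he).1
    have a1 := hτ7 P δ d1.2.1 (d1.1.trans hYP)
    have a2 := hτ4 P e d2.2.1 (d2.1.trans hYP)
    rw [pow_one] at a1
    have h4 := hN0 δ e
    have h5 : (Div277.tau δ : ℝ) * (Div277.tau e : ℝ) ^ 4 ≤ C₂ * C₃ * P ^ (ε / 2) := by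
      calc (Div277.tau δ : ℝ) * (Div277.tau e : ℝ) ^ 4
          ≤ (C₂ * P ^ (ε / 4)) * (C₃ * P ^ (ε / 4)) := by gcongr
        _ = C₂ * C₃ * (P ^ (ε / 4) * P ^ (ε / 4)) := by ring
        _ = _ := by rw [hPe4]
    have hd0 : (0 : ℝ) ≤ nm δ := Nat.cast_nonneg _
    calc ((nm δ : ℝ) * Div277.tau δ * (Div277.tau e : ℝ) ^ 4) *
          (c (nm e) * LJ A K X Z α δ e)
        = ((Div277.tau δ : ℝ) * (Div277.tau e : ℝ) ^ 4) *
          (nm δ * (c (nm e) * LJ A K X Z α δ e)) := by ring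
      _ ≤ (C₂ * C₃ * P ^ (ε / 2)) * (nm δ * (c (nm e) * LJ A K X Z α δ e)) :=
          mul_le_mul_of_nonneg_right h5 (mul_nonneg hd0 h4)
      _ = _ := by ring
  refine h2.trans ?_
  have h3 : ∀ δ ∈ S Y, (C₂ * C₃ * P ^ (ε / 2)) *
      (nm δ * ∑ e ∈ (S Y).filter Q, c (nm e) * LJ A K X Z α δ e) ≤
      (C₂ * C₃ * P ^ (ε / 2) * (4 * I * (1 + 2 * l) ^ 2 * M)) * (1 / (nm δ : ℝ)) := by
    intro δ hδ
    have hhS := (mem_S hY0).1 hδ
    have hh0 := nmpos hhS.2.1.ne_zero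
    have hh1 := nm_ge_one hhS.2.1.ne_zero
    have b2 := cell_EHc (M := M / (nm δ : ℝ) ^ 2) (Q := Q) (c := c) (cb := cb)
      hA hJ hK hX hY (by positivity) hα hhS.2.1 hc0 hcb hc (fun B V => hyp δ hδ B V)
    rw [← hIdef] at b2
    have c2 : Real.log (max 1 (Z / (nm δ : ℝ) ^ 2)) ≤ l := by
      refine Real.log_le_log (by positivity) (max_le hP ?_)
      rcases le_total 0 Z with h5 | h5
      · exact (div_le_self h5 (one_le_pow₀ hh1)).trans hZP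
      · exact (div_nonpos_of_nonpos_of_nonneg h5 (by positivity)).trans hP0.le
    have c4 := Real.log_nonneg (le_max_left 1 (Z / (nm δ : ℝ) ^ 2))
    have hlY := Real.log_nonneg hY
    have b5 : ∑ e ∈ (S Y).filter Q, c (nm e) * LJ A K X Z α δ e ≤
        4 * I * (1 + 2 * l) * (1 + 2 * l) * (M / (nm δ : ℝ) ^ 2) := by
      refine b2.trans ?_
      gcongr
    calc (C₂ * C₃ * P ^ (ε / 2)) *
          (nm δ * ∑ e ∈ (S Y).filter Q, c (nm e) * LJ A K X Z α δ e)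
        ≤ (C₂ * C₃ * P ^ (ε / 2)) * (nm δ *
            (4 * I * (1 + 2 * l) * (1 + 2 * l) * (M / (nm δ : ℝ) ^ 2))) := by
          gcongr
      _ = _ := by field_simp
  refine (Finset.sum_le_sum h3).trans ?_
  rw [← Finset.mul_sum]
  calc (C₂ * C₃ * P ^ (ε / 2) * (4 * I * (1 + 2 * l) ^ 2 * M)) * ∑ h ∈ S Y, 1 / (nm h : ℝ)
      ≤ (C₂ * C₃ * P ^ (ε / 2) * (4 * I * (2 * (1 + l)) ^ 2 * M)) * (100 * (1 + l)) := by
        have : 1 + 2 * l ≤ 2 * (1 + l) := by linarith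
        gcongr
    _ = 1600 * I * (C₂ * C₃) * P ^ (ε / 2) * M * (1 + l) ^ 3 := by ring
    _ ≤ 1600 * I * (C₂ * C₃) * P ^ (ε / 2) * M * (C₄ * P ^ (ε / 2)) := by
        have := hl34.trans hl4
        gcongr
    _ = 1600 * I * (C₂ * C₃) * C₄ * (P ^ (ε / 2) * P ^ (ε / 2)) * M := by ring
    _ = _ := by rw [hPe]

lemma JC_tws {Y : ℝ} (hY : 0 ≤ Y) {α : Eis → ℂ} (hα : ∀ n, α n ≠ 0 → n ∈ S Y)
    (Q : Eis → Prop) {δ : Eis} (hδ : δ ≠ 0) (B V s t : ℝ) :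
    JC Y (tws α s) Q δ B V t = JC Y α Q δ B V (s + t) := by
  unfold JC
  refine Finset.sum_congr rfl fun U hU => Finset.sum_congr rfl fun κ _ => ?_
  have hU0 := ((mem_S hY).1 (Finset.mem_filter.1 hU).1).2.1.ne_zero
  rw [norm_TG_tws_tws hY hα (mul_ne_zero hδ hU0)]

/-- **one number, pointwise in the height** -/
theorem EHc_num {A J ε : ℝ} (hA : J + 1 < A) (hJ : 0 ≤ J) (hε : 0 < ε) : ∃ C : ℝ, 0 ≤ C ∧
    ∀ (P K X Y Z M : ℝ) (α : Eis → ℂ), 1 ≤ P → 0 < K → 0 < X → 1 ≤ Y → Y ≤ P → Z ≤ P →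
      0 ≤ M → (∀ n, α n ≠ 0 → n ∈ S Y) → ∀ (Q : Eis → Prop) (c : ℕ → ℝ) (cb : ℝ → ℝ),
      (∀ n, 0 ≤ c n) → (∀ B, 0 < B → 0 ≤ cb B) →
      (∀ e ∈ S Y, Q e → ∀ B : ℝ, (nm e : ℝ) ≤ B → B < 2 * nm e → c (nm e) ≤ cb B) →
      (∀ δ ∈ S Y, ∀ B V, 1 ≤ B → B ≤ Y → 1 ≤ V → V ≤ Z / (nm δ : ℝ) ^ 2 → ∀ t,
        cb B * JC Y α Q δ B V t ≤ M / (nm δ : ℝ) ^ 2 * yv K X δ V * (1 + |t|) ^ J) →
      ∀ t : ℝ, EHc c Q A K X Y Z (fun n => α n * pw t (nm n)) ≤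
        C * P ^ ε * (M * (1 + |t|) ^ J) := by
  obtain ⟨C, hC, H⟩ := EHc_le hA hJ hε
  refine ⟨C, hC, fun P K X Y Z M α hP hK hX hY hYP hZP hM hα Q c cb hc0 hcb hc hyp t => ?_⟩
  have hY0 : 0 ≤ Y := by linarith
  have hα' := tws_supp hα t
  refine H P K X Y Z (M * (1 + |t|) ^ J) (tws α t) hP hK hX hY hYP hZP (by positivity) hα'
    Q c cb hc0 hcb hc ?_
  intro δ hδ B V hB1 hB2 hV1 hV2 s
  have hhS := (mem_S hY0).1 hδ
  have hV0 : 0 < V := by linarith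
  have hy := yv_pos hK hX hV0 hhS.2.1.ne_zero
  have hh0 := nmpos hhS.2.1.ne_zero
  rw [JC_tws hY0 hα _ hhS.2.1.ne_zero]
  refine (hyp δ hδ B V hB1 hB2 hV1 hV2 (t + s)).trans ?_
  have h1 : (1 + |t + s|) ^ J ≤ (1 + |t|) ^ J * (1 + |s|) ^ J := by
    rw [← Real.mul_rpow (by positivity) (by positivity)]
    refine Real.rpow_le_rpow (by positivity) ?_ hJ
    have := abs_add_le t s
    nlinarith [abs_nonneg t, abs_nonneg s]
  have h2 : 0 ≤ M / (nm δ : ℝ) ^ 2 * yv K X δ V := by positivity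
  calc M / (nm δ : ℝ) ^ 2 * yv K X δ V * (1 + |t + s|) ^ J
      ≤ M / (nm δ : ℝ) ^ 2 * yv K X δ V * ((1 + |t|) ^ J * (1 + |s|) ^ J) :=
        mul_le_mul_of_nonneg_left h1 h2
    _ = _ := by ring

/-- 48's and 813's functionals agree -/
lemma EH_eq_813 (A K X Y Z : ℝ) (α : Eis → ℂ) :
    RGw813.EH A K X Y Z α = LBx48.EH A K X Y Z α := by
  unfold RGw813.EH LBx48.EH
  rw [Finset.sum_product]
  rfl

end Crest.Agent.R017.EHu320
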