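import Crest.Agent.R017.E1zf_551
import Crest.Agent.R017.EHu_320

/-!
# Row 17, block C70 (exact square), leaf E1, part zg (helper551): the errors of `E1posW3` as one
number

* `EDU`, `ED_le_EDU`, `EDU_le`
* `EGD_le` : `EG + ED ≤ C P^ε (Ms + Ml)` from (S) and (L+)
-/

set_option autoImplicit false

noncomputable section

open Complex MeasureTheory
open scoped ComplexConjugate Classical

namespace Crest.Agent.R017.E1551

open Crest.Agent.R012 Crest.Agent.R012.Eis Crest.Agent.R012.MC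
open Crest.Agent.R012.LS2 (S mem_S)
open Crest.Agent.R012.Weight600 (pw)
open Crest.Agent.R017.CM106 (CS TG)
open Crest.Agent.R017.Dual2813 (S_of_dvd)
open Crest.Agent.R017.Rough381 (VF)

/-- the errors of the classes with `N(δ) > D`, cube-free frequencies -/
def EDU (A K X Y D Z : ℝ) (α : Eis → ℂ) : ℝ :=
  ∑ p ∈ (S Y ×ˢ S Y).filter (fun p => D < nm p.1),
    ((Div277.tau p.1 : ℝ) ^ 7 * (Div277.tau p.2 : ℝ) ^ 4) * ((nm p.1 * nm p.2) *
      UL A K X Z α p.1 p.2)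

lemma sum_erase_D {Y D : ℝ} (hD : 1 ≤ D) (F : Eis × Eis → ℝ) :
    ∑ p ∈ (S Y ×ˢ S Y).filter (fun p => D < nm p.1), F p =
      ∑ p ∈ (S Y ×ˢ S Y).erase (1, 1), if D < (nm p.1 : ℝ) then F p else 0 := by
  rw [← Finset.sum_filter]
  refine Finset.sum_congr ?_ fun _ _ => rfl
  ext p
  rw [Finset.mem_filter, Finset.mem_filter, Finset.mem_erase]
  constructor
  · rintro ⟨h1, h2⟩
    refine ⟨⟨fun h3 => ?_, h1⟩, h2⟩
    rw [h3, nm_one] at h2
    push_cast at h2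
    linarith
  · rintro ⟨⟨-, h1⟩, h2⟩
    exact ⟨h1, h2⟩

theorem ED_le_EDU {A K X Y D Z : ℝ} (hK : 0 < K) (hX : 0 < X) (hY : 0 ≤ Y) (hD : 1 ≤ D)
    {α : Eis → ℂ} (hα : ∀ n, α n ≠ 0 → n ∈ S Y) : ED A K X Y D Z α ≤ EDU A K X Y D Z α := by
  have h1 := EHu320.regroup hY hα
    (N := fun h U => if D < (nm h : ℝ) then UL A K X Z α h U else 0)
    (W := fun δ G => if D < (nm δ : ℝ) then LJ A K X Z α δ G else 0)
    (fun h U => by
      show 0 ≤ (if D < (nm h : ℝ) then UL A K X Z α h U else 0)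
      split_ifs
      · exact UL_nonneg hK.le hX.le α h U
      · exact le_rfl)
    (fun h U h0 => by
      show (if D < (nm h : ℝ) then UL A K X Z α h U else 0) = 0
      split_ifs
      · exact UL_zero h0
      · rfl)
    (fun δ hδ G hG => by
      show nm δ * (if D < (nm δ : ℝ) then LJ A K X Z α δ G else 0) ≤
        ∑ e ∈ S Y, ∑ U ∈ S Y, if e * U = G then nm U * (nm (e * δ) *
          (if D < (nm (e * δ) : ℝ) then UL A K X Z α (e * δ) U else 0)) else 0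
      have hpos : 0 ≤ ∑ e ∈ S Y, ∑ U ∈ S Y, if e * U = G then nm U * (nm (e * δ) *
          (if D < (nm (e * δ) : ℝ) then UL A K X Z α (e * δ) U else 0)) else (0 : ℝ) := by
        refine Finset.sum_nonneg fun e _ => Finset.sum_nonneg fun U _ => ?_
        split_ifs
        · have := UL_nonneg (A := A) (Z := Z) hK.le hX.le α (e * δ) U
          positivity
        · simp
        · exact le_rfl
      by_cases hd : D < (nm δ : ℝ)
      · rw [if_pos hd]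
        refine (LJ_le_UL (A := A) (Z := Z) hK hX hY hα hδ hG).trans ?_
        refine Finset.sum_le_sum fun e he => Finset.sum_le_sum fun U _ => ?_
        have he1 := nm_ge_one ((mem_S hY).1 he).2.1.ne_zero
        have h2 : D < (nm (e * δ) : ℝ) := by
          rw [nm_mul]
          push_cast
          have : (0 : ℝ) ≤ nm δ := Nat.cast_nonneg _
          nlinarith
        rw [if_pos h2]
      · rw [if_neg hd, mul_zero]
        exact hpos)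
  unfold ED EDU
  rw [sum_erase_D hD, sum_erase_D hD]
  refine le_trans (le_of_eq ?_) (h1.trans (le_of_eq ?_))
  · refine Finset.sum_congr rfl fun p _ => ?_
    split_ifs
    · rfl
    · rw [mul_zero]
  · refine Finset.sum_congr rfl fun p _ => ?_
    split_ifs
    · rfl
    · rw [mul_zero, mul_zero]

/-- **one number for the classes with `N(δ) > D`** -/
theorem EDU_le {A J ε : ℝ} (hA : J + 1 < A) (hJ : 0 ≤ J) (hε : 0 < ε) : ∃ C : ℝ, 0 ≤ C ∧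
    ∀ (P K X Y D Z G₀ Ml : ℝ) (α : Eis → ℂ), 1 ≤ P → 0 < K → 0 < X → 1 ≤ Y → Y ≤ P →
      0 ≤ Z → Z ≤ P → 0 ≤ Ml → G₀ ≤ D → (∀ n, α n ≠ 0 → n ∈ S Y) →
      (∀ h ∈ S Y, ∀ B V, 1 ≤ B → B ≤ Y → 1 ≤ V → V ≤ Z / (nm h : ℝ) ^ 2 → ∀ t,
        JB Y α (fun U => G₀ < nm (h * U)) h B V t ≤
          Ml / (nm h : ℝ) ^ 2 * yv K X h V * (1 + |t|) ^ J) →
      EDU A K X Y D Z α ≤ C * P ^ ε * Ml := by
  obtain ⟨C₂, hC₂, hτ7⟩ := CR3436.tau_pow_le 7 (ε := ε / 4) (by positivity)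
  obtain ⟨C₃, hC₃, hτ4⟩ := CR3436.tau_pow_le 4 (ε := ε / 4) (by positivity)
  obtain ⟨C₄, hC₄, hlg⟩ := PInv255.one_add_log_pow_le 3 (ε / 2) (by positivity)
  set I := ∫ t, jb (A - J) t with hIdef
  have hI : 0 ≤ I := integral_nonneg fun t => (jb_pos _ t).le
  refine ⟨1600 * I * (C₂ * C₃) * C₄, by positivity,
    fun P K X Y D Z G₀ Ml α hP hK hX hY hYP h0 h0P hMl hGD hα hL => ?_⟩
  have hY0 : 0 ≤ Y := by linarith
  have hP0 : 0 < P := by linarith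
  have hlP := Real.log_nonneg hP
  have hlYP : Real.log Y ≤ Real.log P := Real.log_le_log (by linarith) hYP
  have hsum : ∑ g ∈ S Y, 1 / (nm g : ℝ) ≤ 100 * (1 + Real.log P) :=
    (sum_inv_S551 hY).trans (by linarith)
  have hl3 := hlg P hP
  have hPe : P ^ (ε / 2) * P ^ (ε / 2) = P ^ ε := by
    rw [← Real.rpow_add hP0]; congr 1; ring
  have hPe4 : P ^ (ε / 4) * P ^ (ε / 4) = P ^ (ε / 2) := by
    rw [← Real.rpow_add hP0]; congr 1; ring
  set l := Real.log P with hl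
  have hPp : 0 < P ^ (ε / 2) := by positivity
  have hN0 : ∀ h U, 0 ≤ UL A K X Z α h U := fun h U => UL_nonneg hK.le hX.le α h U
  have h2 : EDU A K X Y D Z α ≤
      ∑ h ∈ S Y, (C₂ * C₃ * P ^ (ε / 2)) * (nm h * ∑ U ∈ (S Y).filter
        (fun U => G₀ < (nm (h * U) : ℝ)), nm U * UL A K X Z α h U) := by
    have e1 : ∑ h ∈ S Y, (C₂ * C₃ * P ^ (ε / 2)) * (nm h * ∑ U ∈ (S Y).filter
        (fun U => G₀ < (nm (h * U) : ℝ)), nm U * UL A K X Z α h U) =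
        ∑ p ∈ (S Y ×ˢ S Y).filter (fun p => G₀ < (nm (p.1 * p.2) : ℝ)),
          (C₂ * C₃ * P ^ (ε / 2)) * ((nm p.1 * nm p.2) * UL A K X Z α p.1 p.2) := by
      rw [Finset.sum_filter, Finset.sum_product]
      refine Finset.sum_congr rfl fun h _ => ?_
      rw [Finset.sum_filter, Finset.mul_sum, Finset.mul_sum]
      refine Finset.sum_congr rfl fun U _ => ?_
      split_ifs <;> ring
    rw [e1]
    unfold EDU
    have h3 : (S Y ×ˢ S Y).filter (fun p => D < (nm p.1 : ℝ)) ⊆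
        (S Y ×ˢ S Y).filter (fun p => G₀ < (nm (p.1 * p.2) : ℝ)) := by
      intro p hp
      obtain ⟨hp1, hp2⟩ := Finset.mem_filter.mp hp
      have hU1 := nm_ge_one ((mem_S hY0).1 (Finset.mem_product.mp hp1).2).2.1.ne_zero
      refine Finset.mem_filter.mpr ⟨hp1, ?_⟩
      rw [nm_mul]
      push_cast
      have hh0 : (0 : ℝ) ≤ nm p.1 := Nat.cast_nonneg _
      nlinarith
    refine (Finset.sum_le_sum fun p hp => ?_).trans
      (Finset.sum_le_sum_of_subset_of_nonneg h3 fun p _ _ => by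
        have := hN0 p.1 p.2
        positivity)
    obtain ⟨hp1, -⟩ := Finset.mem_filter.mp hp
    have hp2 := Finset.mem_product.mp hp1
    have d1 := (mem_S hY0).1 hp2.1
    have d2 := (mem_S hY0).1 hp2.2
    have a1 := hτ7 P p.1 d1.2.1 (d1.1.trans hYP)
    have a2 := hτ4 P p.2 d2.2.1 (d2.1.trans hYP)
    have h4 := hN0 p.1 p.2
    refine mul_le_mul_of_nonneg_right ?_ (by positivity)
    calc (Div277.tau p.1 : ℝ) ^ 7 * (Div277.tau p.2 : ℝ) ^ 4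
        ≤ (C₂ * P ^ (ε / 4)) * (C₃ * P ^ (ε / 4)) := by gcongr
      _ = C₂ * C₃ * (P ^ (ε / 4) * P ^ (ε / 4)) := by ring
      _ = _ := by rw [hPe4]
  refine h2.trans ?_
  have h3 : ∀ h ∈ S Y, (C₂ * C₃ * P ^ (ε / 2)) * (nm h * ∑ U ∈ (S Y).filter
        (fun U => G₀ < (nm (h * U) : ℝ)), nm U * UL A K X Z α h U) ≤
      (C₂ * C₃ * P ^ (ε / 2) * (4 * I * (1 + 2 * l) ^ 2 * Ml)) * (1 / (nm h : ℝ)) := by
    intro h hh
    have hhS := (mem_S hY0).1 hh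
    have hh0 := nmpos hhS.2.1.ne_zero
    have hh1 := nm_ge_one hhS.2.1.ne_zero
    have b2 := large_h0 (M := Ml / (nm h : ℝ) ^ 2) (Q := fun U => G₀ < (nm (h * U) : ℝ))
      hA hJ hK hX hY (by positivity) hα hhS.2.1 (fun B V => hL h hh B V)
    rw [← hIdef] at b2
    have c2 : Real.log (max 1 (Z / (nm h : ℝ) ^ 2)) ≤ l := by
      refine Real.log_le_log (by positivity) (max_le hP ?_)
      exact (div_le_self h0 (one_le_pow₀ hh1)).trans h0P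
    have c4 := Real.log_nonneg (le_max_left 1 (Z / (nm h : ℝ) ^ 2))
    have hlY := Real.log_nonneg hY
    have b5 : ∑ U ∈ (S Y).filter (fun U => G₀ < (nm (h * U) : ℝ)), nm U * UL A K X Z α h U ≤
        4 * I * (1 + 2 * l) * (1 + 2 * l) * (Ml / (nm h : ℝ) ^ 2) := by
      refine b2.trans ?_
      gcongr
    calc (C₂ * C₃ * P ^ (ε / 2)) * (nm h *
          ∑ U ∈ (S Y).filter (fun U => G₀ < (nm (h * U) : ℝ)), nm U * UL A K X Z α h U)
        ≤ (C₂ * C₃ * P ^ (ε / 2)) * (nm h *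
          (4 * I * (1 + 2 * l) * (1 + 2 * l) * (Ml / (nm h : ℝ) ^ 2))) := by
          gcongr
      _ = _ := by field_simp
  refine (Finset.sum_le_sum h3).trans ?_
  rw [← Finset.mul_sum]
  calc (C₂ * C₃ * P ^ (ε / 2) * (4 * I * (1 + 2 * l) ^ 2 * Ml)) * ∑ h ∈ S Y, 1 / (nm h : ℝ)
      ≤ (C₂ * C₃ * P ^ (ε / 2) * (4 * I * (2 * (1 + l)) ^ 2 * Ml)) * (100 * (1 + l)) := by
        have : 1 + 2 * l ≤ 2 * (1 + l) := by linarith
        gcongr
    _ = 1600 * I * (C₂ * C₃) * P ^ (ε / 2) * Ml * (1 + l) ^ 3 := by ring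
    _ ≤ 1600 * I * (C₂ * C₃) * P ^ (ε / 2) * Ml * (C₄ * P ^ (ε / 2)) := by
        gcongr
    _ = 1600 * I * (C₂ * C₃) * C₄ * (P ^ (ε / 2) * P ^ (ε / 2)) * Ml := by ring
    _ = _ := by rw [hPe]

lemma EU_zero551 (A K X Y Y₁ : ℝ) {Y₀ : ℝ} (hY : 0 ≤ Y) (h0 : 0 ≤ Y₀) (h1 : Y₀ < 1)
    (α : Eis → ℂ) : EU A K X Y Y₀ Y₁ α = EU A K X Y 0 Y₁ α := by
  have hBU : ∀ (Z : ℝ) (U : Eis), Z < 1 → BU Z U = ∅ := by
    intro Z U hZ
    rw [Finset.eq_empty_iff_forall_notMem]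
    intro κ hκ
    obtain ⟨⟨h1, h2⟩, -⟩ := mem_BU.mp hκ
    have := nm_ge_one h1.1
    linarith
  unfold EU
  refine Finset.sum_congr rfl fun p hp => ?_
  have hp1 := nm_ge_one ((mem_S hY).1 (Finset.mem_product.1
    (Finset.mem_of_mem_erase hp)).1).2.1.ne_zero
  have h2 : UL A K X Y₀ α p.1 p.2 = 0 := by
    unfold UL
    rw [hBU, Finset.sum_empty]
    refine lt_of_le_of_lt ?_ h1
    exact div_le_self h0 (one_le_pow₀ hp1)
  have h3 : UL A K X 0 α p.1 p.2 = 0 := by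
    unfold UL
    rw [hBU, Finset.sum_empty]
    rw [zero_div]; exact one_pos
  rw [h2, h3]

/-- **the errors of `E1posW3` as one number** (`Y₀ < 1`, `G₀ ≤ D`) -/
theorem EGD_le {A J ε : ℝ} (hA : J + 1 < A) (hJ : 0 ≤ J) (hε : 0 < ε) : ∃ C : ℝ, 0 ≤ C ∧
    ∀ (P K X Y D Y₀ Y₁ G₀ Ms Ml : ℝ) (α : Eis → ℂ), 1 ≤ P → 0 < K → 0 < X → 1 ≤ Y → Y ≤ P →
      0 ≤ Y₀ → Y₀ < 1 → 0 ≤ Y₁ → Y₁ ≤ P → 0 ≤ Ms → 0 ≤ Ml → 1 ≤ D → G₀ ≤ D →
      (∀ n, α n ≠ 0 → n ∈ S Y) →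
      (∀ g ∈ S Y, g ≠ 1 → (nm g : ℝ) ≤ G₀ → ∀ V, 1 ≤ V → V ≤ Y₁ * nm g → ∀ t,
        VF V (tws (sg α g) t) ≤ Ms / (nm g : ℝ) ^ 2 *
          max 1 ((V * K / (X / nm g) ^ 2) ^ (1 / 3 : ℝ)) * (1 + |t|) ^ J) →
      (∀ h ∈ S Y, ∀ B V, 1 ≤ B → B ≤ Y → 1 ≤ V → V ≤ Y₁ / (nm h : ℝ) ^ 2 → ∀ t,
        JB Y α (fun U => G₀ < nm (h * U)) h B V t ≤
          Ml / (nm h : ℝ) ^ 2 * yv K X h V * (1 + |t|) ^ J) →
      EG A K X Y Y₀ Y₁ α + ED A K X Y D Y₁ α ≤ C * P ^ ε * (Ms + Ml) := by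
  obtain ⟨C₁, hC₁, h1⟩ := EU_le (A := A) (J := J) (ε := ε) hA hJ hε
  obtain ⟨C₂, hC₂, h2⟩ := EDU_le (A := A) (J := J) (ε := ε) hA hJ hε
  refine ⟨C₁ + C₂, by positivity, fun P K X Y D Y₀ Y₁ G₀ Ms Ml α hP hK hX hY hYP hY₀ hY₀1 hY₁ hY₁P
    hMs hMl hD hGD hα hS hL => ?_⟩
  have hY0 : 0 ≤ Y := by linarith
  have hP0 : 0 < P := by linarith
  have a1 := EPJ (A := A) (Y₀ := Y₀) (Y₁ := Y₁) hK hX hY0 hα
  rw [EU_zero551 A K X Y Y₁ hY0 hY₀ hY₀1] at a1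
  have a2 := h1 P K X Y 0 Y₁ G₀ Ms Ml α hP hK hX hY hYP le_rfl hP0.le hY₁ hY₁P hMs hMl hα hS
    (fun g hg _ _ V hV hV' => by
      rw [zero_mul] at hV'
      linarith)
    (fun h hh B V hB hB' hV hV' t => by
      have hh0 := nmpos ((mem_S hY0).1 hh).2.1.ne_zero
      refine (hL h hh B V hB hB' hV hV' t).trans ?_
      have : yv K X h V ≤ max B⁻¹ (yv K X h V) := le_max_right _ _
      gcongr)
    (fun h hh B V hB hB' hV hV' => by
      rw [zero_div] at hV'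
      linarith)
  have a3 := ED_le_EDU (A := A) (Z := Y₁) hK hX hY0 hD hα
  have a4 := h2 P K X Y D Y₁ G₀ Ml α hP hK hX hY hYP hY₁ hY₁P hMl hGD hα hL
  have a5 : 0 ≤ C₂ * P ^ ε * Ms := by positivity
  calc EG A K X Y Y₀ Y₁ α + ED A K X Y D Y₁ α ≤ C₁ * P ^ ε * (Ms + Ml) + C₂ * P ^ ε * Ml :=
        add_le_add (a1.trans a2) (a3.trans a4)
    _ ≤ _ := by nlinarith

end Crest.Agent.R017.E1551
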