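import Crest.Agent.R017.H1n_401

/-!
# Row 17, block C70, leaf E2, input (H1) (helper401), part o: the minimum form, theorem
-/

set_option autoImplicit false

noncomputable section

open Finset
open scoped ComplexConjugate

namespace Crest.Agent.R017.H1401

open Crest.Agent.R012 Crest.Agent.R012.Eis Crest.Agent.R012.LS2 Crest.Agent.R012.GaussLoc283
open Crest.Agent.R012.Div277 (tau dvs mem_dvs tau_le_rpow)
open Crest.Agent.R012.BilG811 (hbB Sq bil_ls)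
open Crest.Agent.R017.CM106

/-- index `(n, v, i, y, z)` -/
abbrev Tj := Eis × Eis × ℕ × Eis × Eis

/-- number of blocks -/
def nb (X : ℝ) : ℕ := Nat.log 2 ⌊X⌋₊ + 1

lemma bk_maps {X : ℝ} (hX : 0 ≤ X) : ∀ x ∈ S X, Nat.log 2 (nm x) ∈ Finset.range (nb X) := by
  intro x hx
  have h := (mem_S hX).mp hx
  rw [Finset.mem_range]
  unfold nb
  exact Nat.lt_succ_of_le (Nat.log_mono_right (Nat.le_floor h.1))

/-- the joint index set -/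
def AJ (ν : Eis) (R X : ℝ) : Finset Tj := by
  classical
  exact (dvs ν ×ˢ dvs ν ×ˢ Finset.range (nb X) ×ˢ S X ×ˢ S R).filter (fun a => a.1 * a.2.1 = ν)

lemma mem_AJ {ν : Eis} (hν : ν ≠ 0) {R X : ℝ} (hR : 0 ≤ R) (hX : 0 ≤ X) {a : Tj} :
    a ∈ AJ ν R X ↔ ((IsPrim a.1 ∧ a.1 ∣ ν) ∧ (IsPrim a.2.1 ∧ a.2.1 ∣ ν) ∧
      a.2.2.1 < nb X ∧
      ((nm a.2.2.2.1 : ℝ) ≤ X ∧ IsPrim a.2.2.2.1 ∧ Squarefree a.2.2.2.1) ∧
      ((nm a.2.2.2.2 : ℝ) ≤ R ∧ IsPrim a.2.2.2.2 ∧ Squarefree a.2.2.2.2)) ∧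
      a.1 * a.2.1 = ν := by
  unfold AJ
  rw [Finset.mem_filter]
  simp only [Finset.mem_product]
  rw [mem_dvs hν, mem_dvs hν, mem_S hX, mem_S hR, Finset.mem_range]

/-- regrouping -/
lemma regroup {M : Type*} [AddCommMonoid M] {ν : Eis} {R X : ℝ} (hX : 0 ≤ X)
    (F : Eis → Eis → Eis → Eis → Eis → M) :
    ∑ a ∈ AA ν R X, F a.1 a.2.1 a.2.2.1 a.2.2.2.1 a.2.2.2.2 =
      ∑ a ∈ AJ ν R X, ∑ x ∈ bk X a.2.2.1, F a.1 a.2.1 x a.2.2.2.1 a.2.2.2.2 := by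
  classical
  unfold AA AJ
  rw [Finset.sum_filter, Finset.sum_filter]
  simp only [Finset.sum_product]
  refine Finset.sum_congr rfl fun n _ => Finset.sum_congr rfl fun v _ => ?_
  by_cases h : n * v = ν
  · simp only [if_pos h]
    rw [← Finset.sum_fiberwise_of_maps_to (bk_maps hX)]
    refine Finset.sum_congr rfl fun i _ => ?_
    change ∑ x ∈ bk X i, ∑ y ∈ S X, ∑ z ∈ S R, F n v x y z = _
    rw [Finset.sum_comm]
    refine Finset.sum_congr rfl fun y _ => ?_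
    rw [Finset.sum_comm]
  · simp only [if_neg h, Finset.sum_const_zero]

/-- the joint `U` at a tuple -/
def Uj (κ : Eis) (b c : Eis → ℂ) (X Z : ℝ) (a : Tj) (s : Eis) : ℂ :=
  Ub κ b c X Z a.1 a.2.1 a.2.2.1 a.2.2.2.1 a.2.2.2.2 s

open Classical in
/-- the master identity, third form -/
lemma master3 {R Z X : ℝ} (hR : 1 ≤ R) (hZ : 1 ≤ Z) (hX : 1 ≤ X) {κ ν : Eis} (hκ : Cp κ)
    (hν : IsPrim ν) (hνs : Squarefree ν) {c b : Eis → ℂ} (hc : FS c)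
    (hs : ∀ D, c D ≠ 0 → Squarefree D ∧ (nm D : ℝ) ≤ X ∧ IsCoprime D ν) {r : Eis}
    (hr : r ∈ S R) (hrν : IsCoprime r ν) :
    ∑ d ∈ pb Z, b d * ∑' D : Eis, c D * conj (gs (κ * r * ν ^ 2 * D) d) =
      ∑ p ∈ (AJ ν R X ×ˢ S R).filter (fun p => (p.1.2.2.2.2 * p.1.2.2.2.1) * p.2 = r),
        Uj κ b c X Z p.1 p.2 := by
  rw [master2 hR hZ hX hκ hν hνs hc hs hr hrν, Finset.sum_filter, Finset.sum_product,
    Finset.sum_filter, Finset.sum_product]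
  have h := regroup (ν := ν) (R := R) (X := X) (by linarith) (fun n v x y z =>
    ∑ s ∈ S R, if (z * y) * s = r then UU κ b c Z n v x y z s else 0)
  refine h.trans ?_
  refine Finset.sum_congr rfl fun a _ => ?_
  rw [Finset.sum_comm]
  refine Finset.sum_congr rfl fun s _ => ?_
  simp only
  split_ifs
  · rfl
  · exact Finset.sum_const_zero

open Classical in
/-- the number of tuples -/
lemma card_tuples {R X : ℝ} (hR : 1 ≤ R) (hX : 1 ≤ X) {ν : Eis} (hν : IsPrim ν) {r : Eis}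
    (hr : r ∈ S R) :
    (((AJ ν R X ×ˢ S R).filter
      (fun p => (p.1.2.2.2.2 * p.1.2.2.2.1) * p.2 = r)).card : ℝ) ≤
      (tau ν : ℝ) ^ 2 * (tau r : ℝ) ^ 3 * nb X := by
  have hR0 : (0 : ℝ) ≤ R := by linarith
  have hX0 : (0 : ℝ) ≤ X := by linarith
  have hr0 : r ≠ 0 := ((mem_S hR0).mp hr).2.1.ne_zero
  have hcard : ((AJ ν R X ×ˢ S R).filter
      (fun p => (p.1.2.2.2.2 * p.1.2.2.2.1) * p.2 = r)).card ≤
      (dvs ν ×ˢ dvs ν ×ˢ Finset.range (nb X) ×ˢ dvs r ×ˢ dvs r ×ˢ dvs r).card := by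
    refine Finset.card_le_card_of_injOn (fun p =>
      (p.1.1, p.1.2.1, p.1.2.2.1, p.1.2.2.2.1, p.1.2.2.2.2, p.2)) ?_ ?_
    · intro p hp
      rw [Finset.mem_coe, Finset.mem_filter, Finset.mem_product, mem_AJ hν.ne_zero hR0 hX0,
        mem_S hR0] at hp
      obtain ⟨⟨⟨⟨h1, h2, h3, h4, h5⟩, h6⟩, h7⟩, h8⟩ := hp
      rw [Finset.mem_coe]
      simp only [Finset.mem_product]
      rw [mem_dvs hν.ne_zero, mem_dvs hν.ne_zero, Finset.mem_range, mem_dvs hr0, mem_dvs hr0,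
        mem_dvs hr0]
      exact ⟨h1, h2, h3, ⟨h4.2.1, ⟨p.1.2.2.2.2 * p.2, by rw [← h8]; ring⟩⟩,
        ⟨h5.2.1, ⟨p.1.2.2.2.1 * p.2, by rw [← h8]; ring⟩⟩,
        ⟨h7.2.1, ⟨p.1.2.2.2.2 * p.1.2.2.2.1, by rw [← h8]; ring⟩⟩⟩
    · rintro ⟨⟨a1, a2, a3, a4, a5⟩, a6⟩ _ ⟨⟨b1, b2, b3, b4, b5⟩, b6⟩ _ h
      simp only [Prod.mk.injEq] at h ⊢
      tauto
  simp only [Finset.card_product, Finset.card_range] at hcard
  calc _ ≤ (((dvs ν).card * ((dvs ν).card * (nb X * ((dvs r).card * ((dvs r).card *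
        (dvs r).card)))) : ℕ) : ℝ) := by exact_mod_cast hcard
    _ = _ := by unfold tau; push_cast; ring

open Classical in
/-- the second factor, summed over `r` -/
lemma second_gen {ι : Type*} {R : ℝ} (Q : Finset Eis) (hQ : Q ⊆ S R) (A : Finset ι) (φ : ι → Eis)
    (g : ι → Eis → ℝ) (hg : ∀ a s, 0 ≤ g a s) :
    ∑ r ∈ Q, ∑ p ∈ (A ×ˢ S R).filter (fun p => φ p.1 * p.2 = r),
      g p.1 p.2 ≤ ∑ a ∈ A, ∑ s ∈ S R, (if φ a * s ∈ S R then g a s else 0) := by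
  have e1 : ∀ r ∈ Q, ∑ p ∈ (A ×ˢ S R).filter (fun p => φ p.1 * p.2 = r),
      g p.1 p.2 = ∑ a ∈ A, ∑ s ∈ S R, (if φ a * s = r then g a s else 0) := by
    intro r _
    rw [Finset.sum_filter, Finset.sum_product]
  rw [Finset.sum_congr rfl e1, Finset.sum_comm]
  refine Finset.sum_le_sum fun a _ => ?_
  rw [Finset.sum_comm]
  refine Finset.sum_le_sum fun s _ => ?_
  rw [Finset.sum_ite_eq]
  by_cases h : φ a * s ∈ Q
  · rw [if_pos h, if_pos (hQ h)]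
  · rw [if_neg h]
    split_ifs
    · exact hg a s
    · exact le_rfl

/-- the number of blocks is `≤ C X^ε` -/
lemma nb_le {ε : ℝ} (hε : 0 < ε) : ∃ C : ℝ, 1 ≤ C ∧ ∀ X : ℝ, 1 ≤ X → (nb X : ℝ) ≤ C * X ^ ε := by
  refine ⟨(100 * (1 + ((1 : ℕ) : ℝ) / ε)) ^ 1, ?_, fun X hX => ?_⟩
  · have : 0 < ((1 : ℕ) : ℝ) / ε := by positivity
    rw [pow_one]; linarith
  · refine le_trans ?_ (Div277.poly_log_le 1 hX hε)
    rw [pow_one]
    unfold nb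
    have hfl : ⌊X⌋₊ ≠ 0 := (Nat.floor_pos.mpr hX).ne'
    have h1 : ((2 ^ Nat.log 2 ⌊X⌋₊ : ℕ) : ℝ) ≤ X := by
      have := Nat.pow_log_le_self 2 hfl
      calc ((2 ^ Nat.log 2 ⌊X⌋₊ : ℕ) : ℝ) ≤ (⌊X⌋₊ : ℝ) := by exact_mod_cast this
        _ ≤ X := Nat.floor_le (by linarith)
    have h2 := Real.log_le_log (by positivity) h1
    push_cast at h2
    rw [Real.log_pow] at h2
    have h3 := Real.log_two_gt_d9
    have h4 : (0 : ℝ) ≤ Nat.log 2 ⌊X⌋₊ := Nat.cast_nonneg _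
    push_cast
    nlinarith

set_option maxHeartbeats 1000000 in
open Classical in
/-- **(H1), sharp minimum form** -/
theorem H1m {ε : ℝ} (hε : 0 < ε) : ∃ C : ℝ, 1 ≤ C ∧ ∀ R Z X : ℝ, 1 ≤ R → 1 ≤ Z → 1 ≤ X →
    ∀ κ ν : Eis, (∀ p : Eis, Prime p → IsPrim p → ¬ p ∣ κ) → IsPrim ν → Squarefree ν →
    ∀ c b : Eis → ℂ, FS c →
    (∀ D, c D ≠ 0 → Squarefree D ∧ (nm D : ℝ) ≤ X ∧ IsCoprime D ν) →
    ∑ r ∈ (S R).filter (fun r => IsCoprime r ν),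
      ‖∑ d ∈ pb Z, b d * ∑' D : Eis, c D * conj (gs (κ * r * ν ^ 2 * D) d)‖ ^ 2 ≤
      C * (R * Z * X * nm ν) ^ ε * nm ν *
        ∑ g₂ ∈ S X, ∑ g₃ ∈ S X, WM R Z g₂ g₃ *
          ∑ d ∈ (pb Z).filter (DD ν g₂ g₃),
            (nm d : ℝ) * ‖b d‖ ^ 2 * ‖CS (sub c (g₂ * g₃)) d‖ ^ 2 := by
  set δ : ℝ := ε / 4 with hδ
  have hδ0 : 0 < δ := by rw [hδ]; linarith
  obtain ⟨K, hK, hLS⟩ := block_le hδ0
  obtain ⟨Ct, hCt1, hCt⟩ := tau_le_rpow hδ0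
  obtain ⟨Ci, hCi1, hCi⟩ := nb_le hδ0
  refine ⟨max 1 (Ct ^ 2 * Ct ^ 3 * Ci * K * Ct ^ 2), le_max_left _ _,
    fun R Z X hR hZ hX κ ν hκ hν hνs c b hc hs => ?_⟩
  have hR0 : (0 : ℝ) ≤ R := by linarith
  have hZ0 : (0 : ℝ) ≤ Z := by linarith
  have hX0 : (0 : ℝ) ≤ X := by linarith
  have hν1 : (1 : ℝ) ≤ nm ν := nm_ge_one hν
  set Sm : ℝ := ∑ g₂ ∈ S X, ∑ g₃ ∈ S X, WM R Z g₂ g₃ *
          ∑ d ∈ (pb Z).filter (DD ν g₂ g₃),
            (nm d : ℝ) * ‖b d‖ ^ 2 * ‖CS (sub c (g₂ * g₃)) d‖ ^ 2 with hSm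
  have hSm0 : 0 ≤ Sm := by
    rw [hSm]
    refine Finset.sum_nonneg fun x _ => Finset.sum_nonneg fun y _ =>
      mul_nonneg (WM_nonneg hR0 hZ0 x y) ?_
    exact Finset.sum_nonneg fun _ _ => by positivity
  set W1 : ℝ := (Ct * (nm ν : ℝ) ^ δ) ^ 2 * (Ct * R ^ δ) ^ 3 * (Ci * X ^ δ) with hW1
  set LSB : ℝ := K * (R * Z) ^ δ with hLSB
  have hLSB0 : 0 ≤ LSB := by rw [hLSB]; positivity
  have hCt0 : 0 ≤ Ct := by linarith
  have hCi0 : 0 ≤ Ci := by linarith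
  have hW10 : 0 ≤ W1 := by rw [hW1]; positivity
  have hstep1 : ∀ r ∈ (S R).filter (fun r => IsCoprime r ν),
      ‖∑ d ∈ pb Z, b d * ∑' D : Eis, c D * conj (gs (κ * r * ν ^ 2 * D) d)‖ ^ 2 ≤
      W1 * ∑ p ∈ (AJ ν R X ×ˢ S R).filter (fun p => (p.1.2.2.2.2 * p.1.2.2.2.1) * p.2 = r),
        ‖Uj κ b c X Z p.1 p.2‖ ^ 2 := by
    intro r hr
    rw [Finset.mem_filter] at hr
    rw [master3 hR hZ hX hκ hν hνs hc hs hr.1 hr.2]
    calc _ ≤ (∑ p ∈ (AJ ν R X ×ˢ S R).filter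
            (fun p => (p.1.2.2.2.2 * p.1.2.2.2.1) * p.2 = r), ‖Uj κ b c X Z p.1 p.2‖) ^ 2 :=
          pow_le_pow_left₀ (norm_nonneg _) (norm_sum_le _ _) 2
      _ ≤ _ := sq_sum_le_card_mul_sum_sq
      _ ≤ _ := ?_
    apply mul_le_mul_of_nonneg_right _ (Finset.sum_nonneg fun _ _ => by positivity)
    refine (card_tuples hR hX hν hr.1).trans ?_
    obtain ⟨h1, h2, h3⟩ := (mem_S hR0).mp hr.1
    have t1 : (tau ν : ℝ) ≤ Ct * (nm ν : ℝ) ^ δ := hCt ν hν.ne_zero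
    have t2 : (tau r : ℝ) ≤ Ct * R ^ δ := (hCt r h2.ne_zero).trans
      (mul_le_mul_of_nonneg_left (Real.rpow_le_rpow (by positivity) h1 hδ0.le) (by linarith))
    have t3 := hCi X hX
    rw [hW1]
    have t5 : (tau ν : ℝ) ^ 2 ≤ (Ct * (nm ν : ℝ) ^ δ) ^ 2 :=
      pow_le_pow_left₀ (Nat.cast_nonneg _) t1 2
    have t6 : (tau r : ℝ) ^ 3 ≤ (Ct * R ^ δ) ^ 3 := pow_le_pow_left₀ (Nat.cast_nonneg _) t2 3
    exact mul_le_mul (mul_le_mul t5 t6 (by positivity) (by positivity)) t3 (Nat.cast_nonneg _)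
      (by positivity)
  have hstep2 : ∑ r ∈ (S R).filter (fun r => IsCoprime r ν),
      ‖∑ d ∈ pb Z, b d * ∑' D : Eis, c D * conj (gs (κ * r * ν ^ 2 * D) d)‖ ^ 2 ≤
      W1 * ∑ a ∈ AJ ν R X, ∑ s ∈ S R,
        (if (a.2.2.2.2 * a.2.2.2.1) * s ∈ S R then ‖Uj κ b c X Z a s‖ ^ 2 else 0) := by
    refine (Finset.sum_le_sum hstep1).trans ?_
    rw [← Finset.mul_sum]
    apply mul_le_mul_of_nonneg_left _ hW10
    exact second_gen (R := R) _ (Finset.filter_subset _ _) (AJ ν R X)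
      (fun a => a.2.2.2.2 * a.2.2.2.1) (fun a s => ‖Uj κ b c X Z a s‖ ^ 2)
      (fun a s => by positivity)
  have hstep3 : ∀ a ∈ AJ ν R X, ∑ s ∈ S R,
        (if (a.2.2.2.2 * a.2.2.2.1) * s ∈ S R then ‖Uj κ b c X Z a s‖ ^ 2 else 0) ≤
      LSB * (nm ν : ℝ) * ∑ x ∈ bk X a.2.2.1, WM R Z x a.2.2.2.1 *
        Wb b c Z a.1 x a.2.2.2.1 a.2.2.2.2 := by
    intro a ha
    rw [mem_AJ hν.ne_zero hR0 hX0] at ha
    obtain ⟨⟨h1, h2, h3, h4, h5⟩, h6⟩ := ha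
    have h := hLS R Z X hR hZ hX κ hκ b c a.1 a.2.1 a.2.2.1 a.2.2.2.1 a.2.2.2.2 h1.1 h4.2.1 h5.2.1
    refine h.trans ?_
    have hw : 0 ≤ ∑ x ∈ bk X a.2.2.1, WM R Z x a.2.2.2.1 *
        Wb b c Z a.1 x a.2.2.2.1 a.2.2.2.2 := Finset.sum_nonneg fun x _ =>
          mul_nonneg (WM_nonneg hR0 hZ0 x _) (Wb_nonneg _ _ _ _ _ _ _)
    have hn : (nm a.1 : ℝ) ≤ nm ν := by exact_mod_cast Div277.nm_le_of_dvd hν.ne_zero h1.2
    rw [hLSB]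
    gcongr
  have hT : ∀ d ∈ pb Z, (tau d : ℝ) ^ 2 ≤ (Ct * Z ^ δ) ^ 2 := by
    intro d hd
    obtain ⟨h1, h2⟩ := (mem_pb hZ0).mp hd
    have t2 : (tau d : ℝ) ≤ Ct * Z ^ δ := (hCt d h2.ne_zero).trans
      (mul_le_mul_of_nonneg_left (Real.rpow_le_rpow (by positivity) h1 hδ0.le) (by linarith))
    exact pow_le_pow_left₀ (Nat.cast_nonneg _) t2 2
  have hstep4 : ∑ a ∈ AJ ν R X, ∑ x ∈ bk X a.2.2.1, WM R Z x a.2.2.2.1 *
        Wb b c Z a.1 x a.2.2.2.1 a.2.2.2.2 ≤ (Ct * Z ^ δ) ^ 2 * Sm := by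
    set f : Eis → Eis → Eis → Eis → ℝ := fun n x y z => WM R Z x y * Wb b c Z n x y z with hf
    have hf0 : ∀ n x y z, 0 ≤ f n x y z := fun n x y z =>
      mul_nonneg (WM_nonneg hR0 hZ0 x y) (Wb_nonneg _ _ _ _ _ _ _)
    have e0 := regroup (ν := ν) (R := R) (X := X) hX0 (fun n _ x y z => f n x y z)
    refine (le_of_eq e0.symm).trans ?_
    -- `v` is determined by `n`
    have e1 : ∑ a ∈ AA ν R X, f a.1 a.2.2.1 a.2.2.2.1 a.2.2.2.2 ≤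
        ∑ n ∈ dvs ν, ∑ x ∈ S X, ∑ y ∈ S X, ∑ z ∈ S R, f n x y z := by
      have e2 : ∑ n ∈ dvs ν, ∑ x ∈ S X, ∑ y ∈ S X, ∑ z ∈ S R, f n x y z =
          ∑ q ∈ dvs ν ×ˢ S X ×ˢ S X ×ˢ S R, f q.1 q.2.1 q.2.2.1 q.2.2.2 := by
        simp only [Finset.sum_product]
      rw [e2]
      have hinj : Set.InjOn (fun a : Ta => ((a.1, a.2.2.1, a.2.2.2.1, a.2.2.2.2) :
          Eis × Eis × Eis × Eis)) (AA ν R X) := by
        rintro ⟨a1, a2, a3, a4, a5⟩ ha ⟨b1, b2, b3, b4, b5⟩ hb h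
        rw [Finset.mem_coe, mem_AA hν.ne_zero hR0 hX0] at ha hb
        simp only [Prod.mk.injEq] at h ⊢
        obtain ⟨rfl, rfl, rfl, rfl⟩ := h
        refine ⟨rfl, ?_, rfl, rfl, rfl⟩
        exact mul_left_cancel₀ ha.1.1.1.ne_zero (ha.2.trans hb.2.symm)
      have e3 : ∑ a ∈ AA ν R X, f a.1 a.2.2.1 a.2.2.2.1 a.2.2.2.2 =
          ∑ q ∈ (AA ν R X).image (fun a : Ta => ((a.1, a.2.2.1, a.2.2.2.1, a.2.2.2.2) :
          Eis × Eis × Eis × Eis)), f q.1 q.2.1 q.2.2.1 q.2.2.2 := by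
        rw [Finset.sum_image hinj]
      rw [e3]
      refine Finset.sum_le_sum_of_subset_of_nonneg ?_ (fun q _ _ => hf0 _ _ _ _)
      intro q hq
      rw [Finset.mem_image] at hq
      obtain ⟨a, ha, rfl⟩ := hq
      rw [mem_AA hν.ne_zero hR0 hX0] at ha
      simp only [Finset.mem_product]
      rw [mem_dvs hν.ne_zero, mem_S hX0, mem_S hX0, mem_S hR0]
      exact ⟨ha.1.1, ha.1.2.2.1, ha.1.2.2.2.1, ha.1.2.2.2.2⟩
    refine e1.trans ?_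
    rw [Finset.sum_comm, hSm, Finset.mul_sum]
    refine Finset.sum_le_sum fun x hx => ?_
    rw [Finset.sum_comm, Finset.mul_sum]
    refine Finset.sum_le_sum fun y hy => ?_
    have hx' := ((mem_S hX0).mp hx).2.1
    have hy' := ((mem_S hX0).mp hy).2.1
    have h7 := div_sum' (R := R) (Z := Z) hR hZ hν hx' hy' hT (wt b c x y) (wt_nonneg b c x y)
    have e4 : ∑ n ∈ dvs ν, ∑ z ∈ S R, f n x y z = WM R Z x y *
        ∑ n ∈ dvs ν, ∑ z ∈ S R, ∑ m ∈ S Z,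
          (if GG Z n x y z m then wt b c x y (QQ n x y z m) else 0) := by
      rw [hf, Finset.mul_sum]
      refine Finset.sum_congr rfl fun n _ => ?_
      rw [Finset.mul_sum]
      rfl
    rw [e4]
    calc _ ≤ WM R Z x y * ((Ct * Z ^ δ) ^ 2 *
          ∑ d ∈ (pb Z).filter (DD ν x y), wt b c x y d) :=
          mul_le_mul_of_nonneg_left h7 (WM_nonneg hR0 hZ0 x y)
      _ = _ := by unfold wt; ring
  have hstep5 : ∑ r ∈ (S R).filter (fun r => IsCoprime r ν),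
      ‖∑ d ∈ pb Z, b d * ∑' D : Eis, c D * conj (gs (κ * r * ν ^ 2 * D) d)‖ ^ 2 ≤
      W1 * (LSB * (nm ν : ℝ) * ((Ct * Z ^ δ) ^ 2 * Sm)) := by
    refine hstep2.trans (mul_le_mul_of_nonneg_left ?_ hW10)
    refine (Finset.sum_le_sum hstep3).trans ?_
    rw [← Finset.mul_sum]
    exact mul_le_mul_of_nonneg_left hstep4 (by positivity)
  refine hstep5.trans ?_
  have hpow : ((nm ν : ℝ) ^ δ) ^ 2 * (R ^ δ) ^ 3 * X ^ δ * (R * Z) ^ δ * (Z ^ δ) ^ 2 ≤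
      (R * Z * X * nm ν) ^ ε := by
    have a1 : (1 : ℝ) ≤ (nm ν : ℝ) ^ δ := Real.one_le_rpow hν1 hδ0.le
    have a2 : (1 : ℝ) ≤ R ^ δ := Real.one_le_rpow hR hδ0.le
    have a3 : (1 : ℝ) ≤ X ^ δ := Real.one_le_rpow hX hδ0.le
    have a4 : (1 : ℝ) ≤ Z ^ δ := Real.one_le_rpow hZ hδ0.le
    have e1 : (R * Z * X * nm ν) ^ ε = (R ^ δ) ^ 4 * (Z ^ δ) ^ 4 * (X ^ δ) ^ 4 *
        ((nm ν : ℝ) ^ δ) ^ 4 := by
      rw [Real.mul_rpow (by positivity) (by positivity), Real.mul_rpow (by positivity) hX0,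
        Real.mul_rpow hR0 hZ0]
      have h4 : ∀ t : ℝ, 0 ≤ t → t ^ ε = (t ^ δ) ^ 4 := by
        intro t ht
        rw [← Real.rpow_natCast, ← Real.rpow_mul ht]
        congr 1
        rw [hδ]; push_cast; ring
      rw [h4 R hR0, h4 Z hZ0, h4 X hX0, h4 _ (by positivity)]
    rw [e1, Real.mul_rpow hR0 hZ0]
    set r1 := R ^ δ
    set z1 := Z ^ δ
    set x1 := X ^ δ
    set n1 := (nm ν : ℝ) ^ δ
    have b1 : z1 ^ 3 ≤ z1 ^ 4 := pow_le_pow_right₀ a4 (by norm_num)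
    have b2 : x1 ≤ x1 ^ 4 := by
      calc x1 = x1 ^ 1 := (pow_one _).symm
        _ ≤ x1 ^ 4 := pow_le_pow_right₀ a3 (by norm_num)
    have b3 : n1 ^ 2 ≤ n1 ^ 4 := pow_le_pow_right₀ a1 (by norm_num)
    calc n1 ^ 2 * r1 ^ 3 * x1 * (r1 * z1) * z1 ^ 2 = r1 ^ 4 * z1 ^ 3 * x1 * n1 ^ 2 := by ring
      _ ≤ r1 ^ 4 * z1 ^ 4 * x1 ^ 4 * n1 ^ 4 := by gcongr
  calc W1 * (LSB * (nm ν : ℝ) * ((Ct * Z ^ δ) ^ 2 * Sm))
      = (Ct ^ 2 * Ct ^ 3 * Ci * K * Ct ^ 2) *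
        (((nm ν : ℝ) ^ δ) ^ 2 * (R ^ δ) ^ 3 * X ^ δ * (R * Z) ^ δ * (Z ^ δ) ^ 2) * (nm ν : ℝ) *
        Sm := by
        rw [hW1, hLSB]; ring
    _ ≤ (max 1 (Ct ^ 2 * Ct ^ 3 * Ci * K * Ct ^ 2)) * (R * Z * X * nm ν) ^ ε * (nm ν : ℝ) *
        Sm := by
        gcongr
        exact le_max_right _ _

end Crest.Agent.R017.H1401
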