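import Crest.Agent.R017.Win_813
import Crest.Agent.R017.E1i_551

/-!
# Row 17: short windows, the error functionals `Wf` of E1 (helper813)

* `Wf_pw` : `Wf A (α N^{it}) d κ L ≤ (1+|t|)^A Wf A α d κ L`
* `Wf_win` : `Wf A (wn φ α) d κ L ≤ C η^(-A) Wf A α d κ L`
* `Wf_win_pw` : both
-/

set_option autoImplicit false

noncomputable section

open Complex MeasureTheory Filter Topology
open scoped ContDiff ComplexConjugate

namespace Crest.Agent.R017.Win813

open Crest.Agent.R012 Crest.Agent.R012.Eis Crest.Agent.R012.Gauss880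
open Crest.Agent.R012.Weight600 (osc norm_osc ker pw)
open Crest.Agent.R017.CM106 (CS TG FS)
open Crest.Agent.R017.E1551 (jb jb_pos Wf integrable_jb continuous_jb)

lemma jb_shift {A : ℝ} (hA : 0 ≤ A) (t s : ℝ) : jb A t ≤ (1 + |s|) ^ A * jb A (t + s) := by
  unfold E1551.jb
  have h1 : 1 + |t + s| ≤ (1 + |s|) * (1 + |t|) := by
    have := abs_add_le t s
    nlinarith [mul_nonneg (abs_nonneg s) (abs_nonneg t)]
  rw [Real.rpow_neg (by positivity), Real.rpow_neg (by positivity), ← div_eq_mul_inv,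
    inv_eq_one_div, div_le_div_iff₀ (by positivity) (by positivity), one_mul,
    ← Real.mul_rpow (by positivity) (by positivity)]
  exact Real.rpow_le_rpow (by positivity) h1 hA

/-- bounded continuous functions against `jb` -/
lemma integrable_jb_mul' {A : ℝ} (hA : 1 < A) {f : ℝ → ℝ} (hf : Continuous f) {B : ℝ}
    (hB : ∀ t, |f t| ≤ B) : Integrable fun t => jb A t * f t :=
  E1551.integrable_jb_mul hA hf hB

/-- the basic convolution estimate -/
lemma conv_le {A : ℝ} (hA : 1 < A) {B : ℕ} (hB : A + 2 ≤ B) {η : ℝ} (hη : 0 < η) (hη1 : η ≤ 1)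
    {f : ℝ → ℝ} (hf : Continuous f) (hf0 : ∀ t, 0 ≤ f t) {M : ℝ} (hM : ∀ t, f t ≤ M) :
    ∫ t, jb A t * ∫ s, ew B η s * f (t + s) ≤ iA 2 * η ^ (-A) * ∫ t, jb A t * f t := by
  have hB2 : 2 ≤ B := by
    have : (2 : ℝ) ≤ B := by linarith
    exact_mod_cast this
  have hM0 : 0 ≤ M := (hf0 0).trans (hM 0)
  have habs : ∀ t, |f t| ≤ M := fun t => by rw [abs_of_nonneg (hf0 t)]; exact hM t
  have hw : ∀ s, 0 ≤ ew B η s := fun s => ew_nonneg hη s
  -- swap
  have hint : Integrable (Function.uncurry fun t s => jb A t * (ew B η s * f (t + s)))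
      (volume.prod volume) := by
    have h1 : Integrable (fun p : ℝ × ℝ => jb A p.1 * ew B η p.2) (volume.prod volume) :=
      (integrable_jb hA).mul_prod (integrable_ew hB2 hη)
    have h2 : Integrable (fun p : ℝ × ℝ => (jb A p.1 * ew B η p.2) * f (p.1 + p.2))
        (volume.prod volume) :=
      h1.mul_bdd (c := M) (hf.comp (continuous_fst.add continuous_snd)).aestronglyMeasurable
        (Eventually.of_forall fun p => by rw [Real.norm_eq_abs]; exact habs _)
    refine h2.congr (Eventually.of_forall fun p => ?_)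
    simp only [Function.uncurry]; ring
  have e1 : ∫ t, jb A t * ∫ s, ew B η s * f (t + s) =
      ∫ s, ∫ t, jb A t * (ew B η s * f (t + s)) := by
    rw [← integral_integral_swap hint]
    congr 1
    funext t
    rw [integral_const_mul]
  rw [e1]
  have hI : 0 ≤ ∫ t, jb A t * f t := integral_nonneg fun t =>
    mul_nonneg (jb_pos A t).le (hf0 t)
  have key : ∀ s, ∫ t, jb A t * (ew B η s * f (t + s)) ≤
      η ^ (-A) * (∫ t, jb A t * f t) * ew 2 η s := by
    intro s
    have h3 : ∫ t, jb A (t + s) * f (t + s) = ∫ t, jb A t * f t :=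
      integral_add_right_eq_self (fun t => jb A t * f t) s
    have i1 : Integrable fun t => jb A t * (ew B η s * f (t + s)) := by
      refine integrable_jb_mul' hA (by fun_prop) (B := ew B η s * M) fun t => ?_
      rw [abs_mul, abs_of_nonneg (hw s)]
      exact mul_le_mul_of_nonneg_left (habs _) (hw s)
    have i2 : Integrable fun t => jb A (t + s) * f (t + s) :=
      (integrable_jb_mul' hA hf habs).comp_add_right s
    calc ∫ t, jb A t * (ew B η s * f (t + s)) ≤
        ∫ t, (ew B η s * (1 + |s|) ^ A) * (jb A (t + s) * f (t + s)) := by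
          refine integral_mono i1 (i2.const_mul _) fun t => ?_
          have h4 := jb_shift (by linarith : (0 : ℝ) ≤ A) t s
          calc jb A t * (ew B η s * f (t + s)) ≤
              ((1 + |s|) ^ A * jb A (t + s)) * (ew B η s * f (t + s)) :=
                mul_le_mul_of_nonneg_right h4 (mul_nonneg (hw s) (hf0 _))
            _ = _ := by ring
      _ = (ew B η s * (1 + |s|) ^ A) * ∫ t, jb A t * f t := by rw [integral_const_mul, h3]
      _ ≤ (η ^ (-A) * ew 2 η s) * ∫ t, jb A t * f t := by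
          refine mul_le_mul_of_nonneg_right ?_ hI
          have h5 : (1 + |s|) ≤ η⁻¹ * (1 + η * |s|) := by
            rw [mul_add, mul_one, ← mul_assoc, inv_mul_cancel₀ hη.ne', one_mul]
            have : 1 ≤ η⁻¹ := (one_le_inv₀ hη).mpr hη1
            linarith
          have h6 : (1 + |s|) ^ A ≤ η ^ (-A) * (1 + η * |s|) ^ A := by
            have h7 := Real.rpow_le_rpow (by positivity) h5 (by linarith : (0 : ℝ) ≤ A)
            rwa [Real.mul_rpow (by positivity) (by positivity), Real.inv_rpow hη.le,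
              ← Real.rpow_neg hη.le] at h7
          have h8 : (1 + η * |s|) ^ A * ((1 + η * |s|) ^ B)⁻¹ ≤ ((1 + η * |s|) ^ 2)⁻¹ := by
            have hp : (1 : ℝ) ≤ 1 + η * |s| := by
              linarith [mul_nonneg hη.le (abs_nonneg s)]
            have hp0 : (0 : ℝ) < 1 + η * |s| := by linarith
            rw [← Real.rpow_natCast _ B, ← Real.rpow_natCast _ 2, ← Real.rpow_neg hp0.le,
              ← Real.rpow_neg hp0.le, ← Real.rpow_add hp0]
            apply Real.rpow_le_rpow_of_exponent_le hp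
            push_cast; linarith
          unfold ew
          calc η * ((1 + η * |s|) ^ B)⁻¹ * (1 + |s|) ^ A ≤
              η * ((1 + η * |s|) ^ B)⁻¹ * (η ^ (-A) * (1 + η * |s|) ^ A) :=
                mul_le_mul_of_nonneg_left h6 (by positivity)
            _ = η ^ (-A) * (η * ((1 + η * |s|) ^ A * ((1 + η * |s|) ^ B)⁻¹)) := by ring
            _ ≤ η ^ (-A) * (η * ((1 + η * |s|) ^ 2)⁻¹) :=
                mul_le_mul_of_nonneg_left (mul_le_mul_of_nonneg_left h8 hη.le) (by positivity)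
      _ = _ := by ring
  have hint2 := hint.integral_prod_right
  calc ∫ s, ∫ t, jb A t * (ew B η s * f (t + s)) ≤
      ∫ s, η ^ (-A) * (∫ t, jb A t * f t) * ew 2 η s := by
        refine integral_mono ?_ ((integrable_ew le_rfl hη).const_mul _) key
        exact hint2
    _ = _ := by rw [integral_const_mul, integral_ew 2 hη]; ring

/-- `TG` of the twisted multiples -/
def tgf (α : Eis → ℂ) (e l : Eis) (t : ℝ) : ℝ :=
  ‖TG (fun m => α (e * m) * pw t (nm m)) l‖ ^ 2

lemma tgf_eq {α : Eis → ℂ} (h : FS α) {e : Eis} (he : e ≠ 0) (l : Eis) :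
    ∃ (T : Finset Eis) (a : Eis → ℂ), ∀ t, tgf α e l t = ‖HF T (fun m => e * m) a t‖ ^ 2 := by
  obtain ⟨T, hT, hT'⟩ := supp_fin h he
  refine ⟨T, fun m => α (e * m) * (G m * conj (sy l m)), fun t => ?_⟩
  have := KS_HF (fun l m => G m * conj (sy l m)) h he hT hT' t l
  unfold tgf
  rw [← this]; rfl

lemma continuous_tgf {α : Eis → ℂ} (h : FS α) {e : Eis} (he : e ≠ 0) (l : Eis) :
    Continuous (tgf α e l) := by
  obtain ⟨T, a, ha⟩ := tgf_eq h he l
  have : tgf α e l = fun t => ‖HF T (fun m => e * m) a t‖ ^ 2 := funext ha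
  rw [this]
  exact (continuous_HF T _ a).norm.pow 2

lemma tgf_bdd {α : Eis → ℂ} (h : FS α) {e : Eis} (he : e ≠ 0) (l : Eis) :
    ∃ M : ℝ, ∀ t, tgf α e l t ≤ M := by
  obtain ⟨T, a, ha⟩ := tgf_eq h he l
  refine ⟨(∑ b ∈ T, ‖a b‖) ^ 2, fun t => ?_⟩
  rw [ha]
  exact pow_le_pow_left₀ (norm_nonneg _) (norm_HF_le T _ a t) 2

lemma tgf_nonneg (α : Eis → ℂ) (e l : Eis) (t : ℝ) : 0 ≤ tgf α e l t := by
  unfold tgf; positivity

lemma Wf_eq (A : ℝ) (α : Eis → ℂ) (d κ L : Eis) :
    Wf A α d κ L = ∫ t, jb A t * tgf α (d * L) (κ * L) t := by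
  unfold E1551.Wf tgf
  simp only [mul_assoc]

/-- twisting -/
theorem tgf_pw {α : Eis → ℂ} (h : FS α) {e : Eis} (he : e ≠ 0) (l : Eis) (t₀ t : ℝ) :
    tgf (fun n => α n * pw t₀ (nm n)) e l t = tgf α e l (t₀ + t) := by
  unfold tgf
  have h1 : TG (fun m => α (e * m) * pw t₀ (nm (e * m)) * pw t (nm m)) l =
      pw t₀ (nm e) * TG (fun m => α (e * m) * pw (t₀ + t) (nm m)) l := by
    unfold CM106.TG
    rw [← tsum_mul_left]
    refine tsum_congr fun m => ?_
    by_cases hm : α (e * m) = 0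
    · simp [hm]
    · have hm0 : m ≠ 0 := fun h0 => (h.prim _ hm).ne_zero (by rw [h0, mul_zero])
      beta_reduce
      rw [pw_split he hm0, Weight600.pw_add_left]; ring
  rw [h1, norm_mul, Weight600.norm_pw, one_mul]

theorem Wf_pw {A : ℝ} (hA : 1 < A) {α : Eis → ℂ} (h : FS α) {d L : Eis} (hd : d ≠ 0) (hL : L ≠ 0)
    (κ : Eis) (t₀ : ℝ) :
    Wf A (fun n => α n * pw t₀ (nm n)) d κ L ≤ (1 + |t₀|) ^ A * Wf A α d κ L := by
  rw [Wf_eq, Wf_eq]
  have he : d * L ≠ 0 := mul_ne_zero hd hL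
  simp_rw [tgf_pw h he]
  obtain ⟨M, hM⟩ := tgf_bdd h he (κ * L)
  have habs : ∀ t, |tgf α (d * L) (κ * L) t| ≤ M := fun t => by
    rw [abs_of_nonneg (tgf_nonneg _ _ _ _)]; exact hM t
  have hc := continuous_tgf h he (κ * L)
  have i2 : Integrable fun t => jb A (t₀ + t) * tgf α (d * L) (κ * L) (t₀ + t) :=
    (integrable_jb_mul' hA hc habs).comp_add_left t₀
  calc ∫ t, jb A t * tgf α (d * L) (κ * L) (t₀ + t) ≤
      ∫ t, (1 + |t₀|) ^ A * (jb A (t₀ + t) * tgf α (d * L) (κ * L) (t₀ + t)) := by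
        refine integral_mono (integrable_jb_mul' hA (by fun_prop) fun t => habs _)
          (i2.const_mul _) fun t => ?_
        have h4 := jb_shift (by linarith : (0 : ℝ) ≤ A) t t₀
        rw [add_comm t t₀] at h4
        calc jb A t * tgf α (d * L) (κ * L) (t₀ + t) ≤
            ((1 + |t₀|) ^ A * jb A (t₀ + t)) * tgf α (d * L) (κ * L) (t₀ + t) :=
              mul_le_mul_of_nonneg_right h4 (tgf_nonneg _ _ _ _)
          _ = _ := by ring
    _ = _ := by
        rw [integral_const_mul]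
        congr 1
        exact integral_add_left_eq_self (fun t => jb A t * tgf α (d * L) (κ * L) t) t₀

/-- **error functional of a window** -/
theorem Wf_win {C η : ℝ} {B : ℕ} (hC : 0 ≤ C) (hη : 0 < η) (hη1 : η ≤ 1) {A : ℝ} (hA : 1 < A)
    (hB : A + 2 ≤ B) {φ : ℝ → ℝ} (hφ : WK C η B φ) {α : Eis → ℂ} (h : FS α) {d L : Eis}
    (hd : d ≠ 0) (hL : L ≠ 0) (κ : Eis) :
    Wf A (wn φ α) d κ L ≤ C ^ 2 * iA B * iA 2 * η ^ (-A) * Wf A α d κ L := by
  have hB2 : 2 ≤ B := by
    have : (2 : ℝ) ≤ B := by linarith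
    exact_mod_cast this
  rw [Wf_eq, Wf_eq]
  have he : d * L ≠ 0 := mul_ne_zero hd hL
  obtain ⟨M, hM⟩ := tgf_bdd h he (κ * L)
  have hc := continuous_tgf h he (κ * L)
  have hM0 : 0 ≤ M := (tgf_nonneg _ _ _ 0).trans (hM 0)
  have habs : ∀ t, |tgf α (d * L) (κ * L) t| ≤ M := fun t => by
    rw [abs_of_nonneg (tgf_nonneg _ _ _ _)]; exact hM t
  obtain ⟨M', hM'⟩ := tgf_bdd (FS_wn (φ := φ) h) he (κ * L)
  have h1 : ∀ t, tgf (wn φ α) (d * L) (κ * L) t ≤
      C ^ 2 * iA B * ∫ s, ew B η s * tgf α (d * L) (κ * L) (t + s) := by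
    intro t
    have := KS_win hC hη hB2 hφ (fun l m => G m * conj (sy l m)) h he (Finset.univ : Finset Unit)
      (fun _ => 1) (fun _ _ => zero_le_one) (fun _ => κ * L) t
    simp only [Finset.univ_unique, Finset.sum_singleton, one_mul] at this
    exact this
  have hcont2 : Continuous fun t => ∫ s, ew B η s * tgf α (d * L) (κ * L) (t + s) := by
    refine continuous_of_dominated (bound := fun s => ew B η s * M) (fun t => ?_) (fun t => ?_)
      ((integrable_ew hB2 hη).mul_const M) (Eventually.of_forall fun s => by fun_prop)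
    · exact ((continuous_ew B hη).mul (hc.comp (continuous_const.add
        continuous_id))).aestronglyMeasurable
    · refine Eventually.of_forall fun s => ?_
      rw [norm_mul, Real.norm_of_nonneg (ew_nonneg hη s), Real.norm_eq_abs]
      exact mul_le_mul_of_nonneg_left (habs _) (ew_nonneg hη s)
  have hb2 : ∀ t, |∫ s, ew B η s * tgf α (d * L) (κ * L) (t + s)| ≤ iA B * M := by
    intro t
    rw [abs_of_nonneg (integral_nonneg fun s => mul_nonneg (ew_nonneg hη s) (tgf_nonneg _ _ _ _)),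
      ← integral_ew B hη, ← integral_mul_const]
    refine integral_mono ?_ ((integrable_ew hB2 hη).mul_const M) fun s =>
      mul_le_mul_of_nonneg_left (hM _) (ew_nonneg hη s)
    exact (integrable_ew hB2 hη).mul_bdd (c := M)
      (hc.comp (continuous_const.add continuous_id)).aestronglyMeasurable
      (Eventually.of_forall fun s => by rw [Real.norm_eq_abs]; exact habs _)
  have h2 := conv_le hA hB hη hη1 hc (tgf_nonneg _ _ _) hM
  calc ∫ t, jb A t * tgf (wn φ α) (d * L) (κ * L) t ≤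
      ∫ t, (C ^ 2 * iA B) * (jb A t * ∫ s, ew B η s * tgf α (d * L) (κ * L) (t + s)) := by
        refine integral_mono (integrable_jb_mul' hA (continuous_tgf (FS_wn h) he (κ * L))
          (B := M') fun t => by rw [abs_of_nonneg (tgf_nonneg _ _ _ _)]; exact hM' t)
          ((integrable_jb_mul' hA hcont2 hb2).const_mul _) fun t => ?_
        calc jb A t * tgf (wn φ α) (d * L) (κ * L) t ≤
            jb A t * (C ^ 2 * iA B * ∫ s, ew B η s * tgf α (d * L) (κ * L) (t + s)) :=
              mul_le_mul_of_nonneg_left (h1 t) (jb_pos A t).le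
          _ = _ := by ring
    _ = (C ^ 2 * iA B) * ∫ t, jb A t * ∫ s, ew B η s * tgf α (d * L) (κ * L) (t + s) := by
        rw [integral_const_mul]
    _ ≤ (C ^ 2 * iA B) * (iA 2 * η ^ (-A) * ∫ t, jb A t * tgf α (d * L) (κ * L) t) :=
        mul_le_mul_of_nonneg_left h2 (mul_nonneg (by positivity) (iA_nonneg B))
    _ = _ := by ring

/-- window and twist -/
theorem Wf_win_pw {C η : ℝ} {B : ℕ} (hC : 0 ≤ C) (hη : 0 < η) (hη1 : η ≤ 1) {A : ℝ} (hA : 1 < A)
    (hB : A + 2 ≤ B) {φ : ℝ → ℝ} (hφ : WK C η B φ) {α : Eis → ℂ} (h : FS α) {d L : Eis}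
    (hd : d ≠ 0) (hL : L ≠ 0) (κ : Eis) (t₀ : ℝ) :
    Wf A (fun n => wn φ α n * pw t₀ (nm n)) d κ L ≤
      (1 + |t₀|) ^ A * (C ^ 2 * iA B * iA 2 * η ^ (-A) * Wf A α d κ L) :=
  (Wf_pw hA (FS_wn h) hd hL κ t₀).trans
    (mul_le_mul_of_nonneg_left (Wf_win hC hη hη1 hA hB hφ h hd hL κ) (by positivity))

end Crest.Agent.R017.Win813
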