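import Crest.Agent.R017.MoF3_106
import Crest.Agent.R017.Win2_813

/-!
# Row 17, E2: the moment functional of helper440, part 4: windows

* `aW φ γ q g₀ δ w` : the sub-sequence at `g₀`, prime to `δ`, of the part of `sq q w` in a window
* `MoP` : the moment functional with arbitrary weights and filters, `MoI` : its mean in the height
* `MoP_win` : `MoP` of the windowed sequence at `t` is `≤ C (1+|t|)^A MoI`
-/

set_option autoImplicit false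

noncomputable section

open MeasureTheory Finset Filter
open scoped ComplexConjugate

namespace Crest.Agent.R017.MoF106

open Crest.Agent.R012
open Eis CharSum852 Gauss880 LS2 CR2 MelSep811
open Crest.Agent.R012.Weight600 (osc norm_osc pw)
open Crest.Agent.R017.CM106 (CS TG FS sub)
open Crest.Agent.R017.TP320 (VC VG Fam SplitAt tw)
open Crest.Agent.R017.E2440 (cT MoF)
open Crest.Agent.R017.H1401 (pb mem_pb)
open Crest.Agent.R017.Win813 (ew ew_nonneg iA iA_nonneg WK HF HW wn integrable_base integrable_ew)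
open Div277 (tau dvs mem_dvs tau_le_rpow)

/-- the windowed sub-sequence -/
def aW (φ : ℝ → ℝ) (γ q g₀ δ : Eis) (w : Eis → ℂ) : Eis → ℂ := fun n =>
  aG γ q g₀ δ w n * (φ (Real.log (nm (g₀ * n))) : ℂ)

open Classical in
lemma aW_eq (φ : ℝ → ℝ) (γ q g₀ δ : Eis) (w : Eis → ℂ) :
    aW φ γ q g₀ δ w = fun n => if IsCoprime n δ then wn φ (dl γ (TP320.sq (q * γ) w)) (g₀ * n) else 0 := by
  funext n
  unfold aW aG Win813.wn
  split_ifs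
  · rfl
  · rw [zero_mul]

/-- the coefficients of the linear form -/
def lin (al : Eis → ℂ) (E B τ G d D : Eis) : ℂ :=
  al (B * (G * D)) * (sy E (G * D) * conj (sy (G * D) B)) * sy τ (G * D) * sy d D

lemma pw_neg_eq {x : Eis} (t : ℝ) : osc t (-Real.log (nm x)) = pw (-t) (nm x) := by
  unfold Weight600.pw
  rw [Weight600.osc_neg_left, Weight600.osc_neg_right]

lemma CS_fin {al : Eis → ℂ} {X : ℝ} {B G : Eis} (hal : ∀ D, D ∉ S X → al (B * (G * D)) = 0)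
    (E τ d : Eis) (t : ℝ) : CS (sub (cT al E B τ t) G) d =
      ∑ D ∈ S X, lin al E B τ G d D * pw (-t) (nm (G * D)) := by
  have e0 : CS (sub (cT al E B τ t) G) d = ∑ D ∈ S X, cT al E B τ t (G * D) * sy d D := by
    unfold CM106.CS CM106.sub
    apply tsum_eq_sum
    intro D hD
    unfold E2440.cT
    rw [hal D hD]
    ring
  rw [e0]
  refine Finset.sum_congr rfl fun D _ => ?_
  unfold E2440.cT lin
  rw [pw_neg_eq]
  ring

lemma nm_split {X : ℝ} (hX : 0 ≤ X) {g₀ B G D : Eis} (hg₀ : IsPrim g₀) (hB : IsPrim B)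
    (hG : IsPrim G) (hD : D ∈ S X) (t : ℝ) :
    pw t (nm (g₀ * (B * (G * D)))) = pw t (nm (g₀ * B)) * pw t (nm (G * D)) := by
  have hDp := ((mem_S hX).1 hD).2.1
  rw [← mul_assoc]
  exact Win813.pw_split (mul_ne_zero hg₀.ne_zero hB.ne_zero)
    (mul_ne_zero hG.ne_zero hDp.ne_zero) t

lemma CS_HF {al : Eis → ℂ} {X : ℝ} (hX : 0 ≤ X) {g₀ B G : Eis} (hg₀ : IsPrim g₀)
    (hB : IsPrim B) (hG : IsPrim G) (hal : ∀ D, D ∉ S X → al (B * (G * D)) = 0)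
    (E τ d : Eis) (t : ℝ) : ‖CS (sub (cT al E B τ t) G) d‖ =
      ‖HF (S X) (fun D => g₀ * (B * (G * D))) (lin al E B τ G d) (-t)‖ := by
  have e : HF (S X) (fun D => g₀ * (B * (G * D))) (lin al E B τ G d) (-t) =
      pw (-t) (nm (g₀ * B)) * CS (sub (cT al E B τ t) G) d := by
    rw [CS_fin hal, Finset.mul_sum]
    unfold Win813.HF
    refine Finset.sum_congr rfl fun D hD => ?_
    rw [nm_split hX hg₀ hB hG hD]
    ring
  rw [e, norm_mul, Weight600.norm_pw, one_mul]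

lemma CS_HW {φ : ℝ → ℝ} {al : Eis → ℂ} {X : ℝ} (hX : 0 ≤ X) {g₀ B G : Eis} (hg₀ : IsPrim g₀)
    (hB : IsPrim B) (hG : IsPrim G) (hal : ∀ D, D ∉ S X → al (B * (G * D)) = 0)
    (E τ d : Eis) (t : ℝ) :
    ‖CS (sub (cT (fun n => al n * (φ (Real.log (nm (g₀ * n))) : ℂ)) E B τ t) G) d‖ =
      ‖HW φ (S X) (fun D => g₀ * (B * (G * D))) (lin al E B τ G d) (-t)‖ := by
  have hal' : ∀ D, D ∉ S X → (fun n => al n * (φ (Real.log (nm (g₀ * n))) : ℂ)) (B * (G * D)) = 0 := by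
    intro D hD
    show al (B * (G * D)) * _ = 0
    rw [hal D hD, zero_mul]
  have e : HW φ (S X) (fun D => g₀ * (B * (G * D))) (lin al E B τ G d) (-t) =
      pw (-t) (nm (g₀ * B)) *
        CS (sub (cT (fun n => al n * (φ (Real.log (nm (g₀ * n))) : ℂ)) E B τ t) G) d := by
    rw [CS_fin hal', Finset.mul_sum]
    unfold Win813.HW
    refine Finset.sum_congr rfl fun D hD => ?_
    rw [nm_split hX hg₀ hB hG hD]
    unfold lin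
    ring
  rw [e, norm_mul, Weight600.norm_pw, one_mul]

/-- `aG` has bounded support -/
lemma aG_supp {w : Eis → ℂ} {X : ℝ} (hX : 0 ≤ X) (hw : ∀ n, w n ≠ 0 → (nm n : ℝ) ≤ X)
    {γ q g₀ δ B G : Eis} (hγ : IsPrim γ) (hγs : Squarefree γ) (hg₀ : IsPrim g₀) (hB : IsPrim B)
    (hG : IsPrim G) : ∀ D, D ∉ S (nm γ * X) → aG γ q g₀ δ w (B * (G * D)) = 0 := by
  intro D hD
  by_contra h0
  obtain ⟨_, c, h1, h2, h3, h4, h5⟩ := aG_ne hγ.ne_zero h0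
  apply hD
  have hγ0 : (0 : ℝ) ≤ nm γ := Nat.cast_nonneg _
  have hs : Squarefree (γ * c) :=
    squarefree_mul_iff.mpr ⟨h4.of_mul_right_right.symm.isRelPrime, hγs, h3⟩
  have hcp : IsPrim (γ * c) := hγ.mul h2
  have hd : D ∣ γ * c := h1 ▸ ⟨g₀ * B * G, by ring⟩
  have hp : IsPrim D := by
    have h6 : IsPrim (g₀ * (B * (G * D))) := h1 ▸ hcp
    exact IsPrim.of_mul_left (IsPrim.of_mul_left (IsPrim.of_mul_left h6 hg₀) hB) hG
  rw [mem_S (mul_nonneg hγ0 hX)]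
  refine ⟨?_, hp, hs.squarefree_of_dvd hd⟩
  have h7 := Div277.nm_le_of_dvd hcp.ne_zero hd
  have h8 : (nm D : ℝ) ≤ nm γ * nm c := by
    have : (nm D : ℝ) ≤ nm (γ * c) := by exact_mod_cast h7
    rwa [nm_mul, Nat.cast_mul] at this
  exact h8.trans (mul_le_mul_of_nonneg_left (hw c h5) hγ0)

open Classical in
/-- the moment functional with arbitrary weights and filters -/
def MoP (al : Eis → ℂ) (E B τ : Eis) (X t Z : ℝ) (W : Eis → Eis → ℝ)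
    (P : Eis → Eis → Eis → Prop) : ℝ :=
  ∑ g₂ ∈ S X, ∑ g₃ ∈ S X, W g₂ g₃ * ∑ d ∈ (pb Z).filter (P g₂ g₃),
    ‖CS (sub (cT al E B τ t) (g₂ * g₃)) d‖ ^ 2

lemma MoF_eq (al : Eis → ℂ) (E B τ : Eis) (X t Z : ℝ) : MoF al E B τ X t Z =
    MoP al E B τ X t Z (fun g₂ _ => (nm g₂ : ℝ) ^ 2) (fun g₂ g₃ d => g₂ ^ 2 * g₃ ^ 3 ∣ d) := by
  unfold E2440.MoF MoP
  rfl

lemma MoP_nonneg {al : Eis → ℂ} {E B τ : Eis} {X t Z : ℝ} {W : Eis → Eis → ℝ}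
    {P : Eis → Eis → Eis → Prop} (hW : ∀ g₂ ∈ S X, ∀ g₃ ∈ S X, 0 ≤ W g₂ g₃) :
    0 ≤ MoP al E B τ X t Z W P :=
  Finset.sum_nonneg fun _ h₂ => Finset.sum_nonneg fun _ h₃ => mul_nonneg (hW _ h₂ _ h₃)
    (Finset.sum_nonneg fun _ _ => sq_nonneg _)

section win

lemma hX2 {γ : Eis} {X₁ : ℝ} (_hγ : IsPrim γ) (hX₁ : 0 ≤ X₁) : 0 ≤ (nm γ : ℝ) * X₁ :=
  mul_nonneg (Nat.cast_nonneg _) hX₁

variable {w : Eis → ℂ} {X₁ : ℝ} {γ q g₀ δ E B τ : Eis} {X Z : ℝ} {W : Eis → Eis → ℝ}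
  {P : Eis → Eis → Eis → Prop}

/-- the functional as a function of the height is continuous -/
lemma MoP_cont (hX₁ : 0 ≤ X₁) (hw : ∀ n, w n ≠ 0 → (nm n : ℝ) ≤ X₁) (hX : 0 ≤ X) (hγ : IsPrim γ)
    (hγs : Squarefree γ) (hg₀ : IsPrim g₀) (hB : IsPrim B) :
    Continuous fun t => MoP (aG γ q g₀ δ w) E B τ X t Z W P := by
  classical
  unfold MoP
  refine continuous_finsetSum _ fun g₂ h₂ => continuous_finsetSum _ fun g₃ h₃ =>
    continuous_const.mul (continuous_finsetSum _ fun d _ => ?_)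
  have hG : IsPrim (g₂ * g₃) := ((mem_S hX).1 h₂).2.1.mul ((mem_S hX).1 h₃).2.1
  have e : (fun t => ‖CS (sub (cT (aG γ q g₀ δ w) E B τ t) (g₂ * g₃)) d‖ ^ 2) = fun t =>
      ‖HF (S (nm γ * X₁)) (fun D => g₀ * (B * (g₂ * g₃ * D))) (lin (aG γ q g₀ δ w) E B τ (g₂ * g₃) d)
        (-t)‖ ^ 2 := by
    funext t
    rw [CS_HF (hX2 hγ hX₁) hg₀ hB hG (aG_supp hX₁ hw hγ hγs hg₀ hB hG)]
  rw [e]
  exact (((Win813.continuous_HF _ _ _).comp continuous_neg).norm).pow 2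

/-- and bounded -/
lemma MoP_bound (hX₁ : 0 ≤ X₁) (hw : ∀ n, w n ≠ 0 → (nm n : ℝ) ≤ X₁) (hX : 0 ≤ X) (hγ : IsPrim γ)
    (hγs : Squarefree γ) (hg₀ : IsPrim g₀) (hB : IsPrim B) (hW : ∀ g₂ ∈ S X, ∀ g₃ ∈ S X, 0 ≤ W g₂ g₃) :
    ∃ M : ℝ, ∀ t, |MoP (aG γ q g₀ δ w) E B τ X t Z W P| ≤ M := by
  classical
  refine ⟨∑ g₂ ∈ S X, ∑ g₃ ∈ S X, W g₂ g₃ * ∑ d ∈ (pb Z).filter (P g₂ g₃),
    (∑ D ∈ S (nm γ * X₁), ‖lin (aG γ q g₀ δ w) E B τ (g₂ * g₃) d D‖) ^ 2, fun t => ?_⟩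
  rw [abs_of_nonneg (MoP_nonneg hW)]
  unfold MoP
  refine Finset.sum_le_sum fun g₂ h₂ => Finset.sum_le_sum fun g₃ h₃ =>
    mul_le_mul_of_nonneg_left (Finset.sum_le_sum fun d _ => ?_) (hW _ h₂ _ h₃)
  have hG : IsPrim (g₂ * g₃) := ((mem_S hX).1 h₂).2.1.mul ((mem_S hX).1 h₃).2.1
  rw [CS_HF (hX2 hγ hX₁) hg₀ hB hG (aG_supp hX₁ hw hγ hγs hg₀ hB hG)]
  exact pow_le_pow_left₀ (norm_nonneg _) (Win813.norm_HF_le _ _ _ _) 2

/-- **removal of the window** -/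
theorem MoP_win {C η : ℝ} {A : ℕ} (hC : 0 ≤ C) (hη : 0 < η) (hA : 2 ≤ A) {φ : ℝ → ℝ}
    (hφ : WK C η A φ) (hX₁ : 0 ≤ X₁) (hw : ∀ n, w n ≠ 0 → (nm n : ℝ) ≤ X₁) (hX : 0 ≤ X) (hγ : IsPrim γ)
    (hγs : Squarefree γ) (hg₀ : IsPrim g₀) (hB : IsPrim B) (hW : ∀ g₂ ∈ S X, ∀ g₃ ∈ S X, 0 ≤ W g₂ g₃) (t : ℝ) :
    MoP (aW φ γ q g₀ δ w) E B τ X t Z W P ≤
      C ^ 2 * iA A * ∫ s, ew A η s * MoP (aG γ q g₀ δ w) E B τ X (t - s) Z W P := by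
  classical
  set f : Eis → Eis → ℝ → ℝ := fun G d s => ‖CS (sub (cT (aG γ q g₀ δ w) E B τ (t - s)) G) d‖ ^ 2
    with hf
  have key : ∀ G, IsPrim G → ∀ d, Integrable (fun s => ew A η s * f G d s) ∧
      ‖CS (sub (cT (aW φ γ q g₀ δ w) E B τ t) G) d‖ ^ 2 ≤
        C ^ 2 * iA A * ∫ s, ew A η s * f G d s := by
    intro G hG d
    have hal := aG_supp (q := q) (δ := δ) hX₁ hw hγ hγs hg₀ hB hG
    have e1 : ∀ s, f G d s = ‖HF (S (nm γ * X₁)) (fun D => g₀ * (B * (G * D)))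
        (lin (aG γ q g₀ δ w) E B τ G d) (-t + s)‖ ^ 2 := by
      intro s
      simp only [hf]
      rw [CS_HF (hX2 hγ hX₁) hg₀ hB hG hal]
      have : -(t - s) = -t + s := by ring
      rw [this]
    have e2 : (fun s => ew A η s * f G d s) = fun s => ew A η s *
        ‖HF (S (nm γ * X₁)) (fun D => g₀ * (B * (G * D))) (lin (aG γ q g₀ δ w) E B τ G d) (-t + s)‖ ^ 2 := by
      funext s; rw [e1]
    rw [e2]
    refine ⟨Win813.integrable_HF hA hη _ _ _ _, ?_⟩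
    have h1 := Win813.win_sq hC hη hA hφ (S (nm γ * X₁)) (fun D => g₀ * (B * (G * D)))
      (lin (aG γ q g₀ δ w) E B τ G d) (-t)
    have h2 := CS_HW (φ := φ) (hX2 hγ hX₁) hg₀ hB hG hal E τ d t
    unfold aW
    rw [h2]
    exact h1
  have hpr : ∀ g₂ ∈ S X, ∀ g₃ ∈ S X, IsPrim (g₂ * g₃) := fun g₂ h₂ g₃ h₃ =>
    ((mem_S hX).1 h₂).2.1.mul ((mem_S hX).1 h₃).2.1
  have e3 : ∫ s, ew A η s * MoP (aG γ q g₀ δ w) E B τ X (t - s) Z W P =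
      ∑ g₂ ∈ S X, ∑ g₃ ∈ S X, W g₂ g₃ * ∑ d ∈ (pb Z).filter (P g₂ g₃),
        ∫ s, ew A η s * f (g₂ * g₃) d s := by
    have e4 : (fun s => ew A η s * MoP (aG γ q g₀ δ w) E B τ X (t - s) Z W P) = fun s =>
        ∑ g₂ ∈ S X, ∑ g₃ ∈ S X, ∑ d ∈ (pb Z).filter (P g₂ g₃),
          W g₂ g₃ * (ew A η s * f (g₂ * g₃) d s) := by
      funext s
      unfold MoP
      rw [Finset.mul_sum]
      refine Finset.sum_congr rfl fun g₂ _ => ?_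
      rw [Finset.mul_sum]
      refine Finset.sum_congr rfl fun g₃ _ => ?_
      rw [Finset.mul_sum, Finset.mul_sum]
      exact Finset.sum_congr rfl fun d _ => by simp only [hf]; ring
    rw [e4, integral_finsetSum _ fun g₂ h₂ => integrable_finsetSum _ fun g₃ h₃ =>
      integrable_finsetSum _ fun d _ => ((key _ (hpr g₂ h₂ g₃ h₃) d).1).const_mul _]
    refine Finset.sum_congr rfl fun g₂ h₂ => ?_
    rw [integral_finsetSum _ fun g₃ h₃ => integrable_finsetSum _ fun d _ =>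
      ((key _ (hpr g₂ h₂ g₃ h₃) d).1).const_mul _]
    refine Finset.sum_congr rfl fun g₃ h₃ => ?_
    rw [integral_finsetSum _ fun d _ => ((key _ (hpr g₂ h₂ g₃ h₃) d).1).const_mul _,
      Finset.mul_sum]
    exact Finset.sum_congr rfl fun d _ => integral_const_mul _ _
  rw [e3, Finset.mul_sum]
  unfold MoP
  refine Finset.sum_le_sum fun g₂ h₂ => ?_
  rw [Finset.mul_sum]
  refine Finset.sum_le_sum fun g₃ h₃ => ?_
  calc W g₂ g₃ * ∑ d ∈ (pb Z).filter (P g₂ g₃),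
        ‖CS (sub (cT (aW φ γ q g₀ δ w) E B τ t) (g₂ * g₃)) d‖ ^ 2
      ≤ W g₂ g₃ * ∑ d ∈ (pb Z).filter (P g₂ g₃),
        C ^ 2 * iA A * ∫ s, ew A η s * f (g₂ * g₃) d s :=
        mul_le_mul_of_nonneg_left (Finset.sum_le_sum fun d _ => (key _ (hpr g₂ h₂ g₃ h₃) d).2)
          (hW _ h₂ _ h₃)
    _ = _ := by rw [← Finset.mul_sum]; ring

/-- the mean over the heights -/
def MoI (A : ℕ) (al : Eis → ℂ) (E B τ : Eis) (X Z : ℝ) (W : Eis → Eis → ℝ)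
    (P : Eis → Eis → Eis → Prop) : ℝ :=
  ∫ v : ℝ, ((1 + |v|) ^ A)⁻¹ * MoP al E B τ X v Z W P

lemma MoI_int {A : ℕ} (hA : 2 ≤ A) (hX₁ : 0 ≤ X₁) (hw : ∀ n, w n ≠ 0 → (nm n : ℝ) ≤ X₁)
    (hX : 0 ≤ X) (hγ : IsPrim γ) (hγs : Squarefree γ)
    (hg₀ : IsPrim g₀) (hB : IsPrim B) (hW : ∀ g₂ ∈ S X, ∀ g₃ ∈ S X, 0 ≤ W g₂ g₃) :
    Integrable fun v : ℝ => ((1 + |v|) ^ A)⁻¹ * MoP (aG γ q g₀ δ w) E B τ X v Z W P := by
  obtain ⟨M, hM⟩ := MoP_bound (q := q) (δ := δ) (E := E) (τ := τ) (Z := Z) (P := P)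
    hX₁ hw hX hγ hγs hg₀ hB hW
  exact (integrable_base hA).mul_bdd (c := M)
    (MoP_cont hX₁ hw hX hγ hγs hg₀ hB).aestronglyMeasurable
    (Eventually.of_forall fun v => by rw [Real.norm_eq_abs]; exact hM v)

lemma ew_le_shift {A : ℕ} {η : ℝ} (hη : 0 < η) (hη1 : η ≤ 1) (t s : ℝ) :
    ew A η s ≤ η * (η ^ A)⁻¹ * (1 + |t|) ^ A * ((1 + |t - s|) ^ A)⁻¹ := by
  unfold Win813.ew
  have h1 : η * (1 + |t - s|) ≤ (1 + η * |s|) * (1 + |t|) := by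
    have h2 : |t - s| ≤ |t| + |s| := by
      have := abs_add_le t (-s)
      rw [abs_neg] at this
      simpa [sub_eq_add_neg] using this
    have h3 := abs_nonneg t
    have h4 := abs_nonneg s
    nlinarith [mul_nonneg (mul_nonneg hη.le h4) h3, mul_le_mul_of_nonneg_left h2 hη.le,
      mul_nonneg (sub_nonneg.2 hη1) h3]
  have h5 : η ^ A * (1 + |t - s|) ^ A ≤ (1 + η * |s|) ^ A * (1 + |t|) ^ A := by
    rw [← mul_pow, ← mul_pow]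
    exact pow_le_pow_left₀ (by positivity) h1 A
  have p1 : 0 < (1 + η * |s|) ^ A := by positivity
  have p2 : 0 < (1 + |t - s|) ^ A := by positivity
  have p3 : 0 < η ^ A := by positivity
  have h6 : ((1 + η * |s|) ^ A)⁻¹ ≤ (η ^ A)⁻¹ * (1 + |t|) ^ A * ((1 + |t - s|) ^ A)⁻¹ := by
    rw [← div_eq_mul_inv, ← div_eq_inv_mul, div_div, inv_eq_one_div, div_le_div_iff₀ p1
      (by positivity)]
    linarith
  calc η * ((1 + η * |s|) ^ A)⁻¹ ≤ η * ((η ^ A)⁻¹ * (1 + |t|) ^ A * ((1 + |t - s|) ^ A)⁻¹) :=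
        mul_le_mul_of_nonneg_left h6 hη.le
    _ = _ := by ring

/-- **windowed functional at height `t`, by the mean** -/
theorem MoP_win_le {C η : ℝ} {A : ℕ} (hC : 0 ≤ C) (hη : 0 < η) (hη1 : η ≤ 1) (hA : 2 ≤ A)
    {φ : ℝ → ℝ} (hφ : WK C η A φ) (hX₁ : 0 ≤ X₁) (hw : ∀ n, w n ≠ 0 → (nm n : ℝ) ≤ X₁)
    (hX : 0 ≤ X) (hγ : IsPrim γ) (hγs : Squarefree γ)
    (hg₀ : IsPrim g₀) (hB : IsPrim B) (hW : ∀ g₂ ∈ S X, ∀ g₃ ∈ S X, 0 ≤ W g₂ g₃)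
    (t : ℝ) :
    MoP (aW φ γ q g₀ δ w) E B τ X t Z W P ≤
      (1 + |t|) ^ A * (C ^ 2 * iA A * (η * (η ^ A)⁻¹) *
        MoI A (aG γ q g₀ δ w) E B τ X Z W P) := by
  have h1 := MoP_win (γ := γ) (q := q) (δ := δ) (E := E) (τ := τ) (Z := Z) (P := P) hC hη hA hφ hX₁ hw hX
    hγ hγs hg₀ hB hW t
  set F : ℝ → ℝ := fun v => MoP (aG γ q g₀ δ w) E B τ X v Z W P with hF
  obtain ⟨M, hM⟩ := MoP_bound (q := q) (δ := δ) (E := E) (τ := τ) (Z := Z) (P := P)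
    hX₁ hw hX hγ hγs hg₀ hB hW
  have hF0 : ∀ v, 0 ≤ F v := fun v => MoP_nonneg hW
  have hFc : Continuous F := MoP_cont hX₁ hw hX hγ hγs hg₀ hB
  have i1 : Integrable fun s => ew A η s * F (t - s) :=
    (integrable_ew hA hη).mul_bdd (c := M)
      (hFc.comp (continuous_const.sub continuous_id)).aestronglyMeasurable
      (Eventually.of_forall fun v => by rw [Real.norm_eq_abs]; exact hM _)
  have i2 : Integrable fun v : ℝ => ((1 + |v|) ^ A)⁻¹ * F v :=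
    MoI_int hA hX₁ hw hX hγ hγs hg₀ hB hW
  have i3 : Integrable fun s : ℝ => ((1 + |t - s|) ^ A)⁻¹ * F (t - s) :=
    i2.comp_sub_left t
  have e1 : ∫ s : ℝ, ((1 + |t - s|) ^ A)⁻¹ * F (t - s) =
      ∫ v : ℝ, ((1 + |v|) ^ A)⁻¹ * F v :=
    integral_sub_left_eq_self (fun v : ℝ => ((1 + |v|) ^ A)⁻¹ * F v) volume t
  have h2 : ∫ s, ew A η s * F (t - s) ≤
      η * (η ^ A)⁻¹ * (1 + |t|) ^ A * ∫ v : ℝ, ((1 + |v|) ^ A)⁻¹ * F v := by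
    rw [← e1, ← integral_const_mul]
    refine integral_mono i1 (i3.const_mul _) fun s => ?_
    show ew A η s * F (t - s) ≤ η * (η ^ A)⁻¹ * (1 + |t|) ^ A *
      (((1 + |t - s|) ^ A)⁻¹ * F (t - s))
    calc ew A η s * F (t - s) ≤
        (η * (η ^ A)⁻¹ * (1 + |t|) ^ A * ((1 + |t - s|) ^ A)⁻¹) * F (t - s) :=
          mul_le_mul_of_nonneg_right (ew_le_shift hη hη1 t s) (hF0 _)
      _ = _ := by ring
  refine h1.trans ?_
  calc C ^ 2 * iA A * ∫ s, ew A η s * F (t - s)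
      ≤ C ^ 2 * iA A * (η * (η ^ A)⁻¹ * (1 + |t|) ^ A * ∫ v : ℝ, ((1 + |v|) ^ A)⁻¹ * F v) :=
        mul_le_mul_of_nonneg_left h2 (mul_nonneg (sq_nonneg _) (iA_nonneg A))
    _ = _ := by unfold MoI; ring

end win

/-- **the mean, summed over `(J, B)`** -/
theorem sum_MoI_le {w : Eis → ℂ} {X₁ : ℝ} {γ q g₀ δ E τ : Eis} {X Z : ℝ} {W : Eis → Eis → ℝ}
    {P : Eis → Eis → Eis → Eis → Eis → Prop} {A : ℕ} {a c : ℝ} (hc : 0 ≤ c) (ha : a + 2 ≤ A) (hA : 2 ≤ A)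
    (hX₁ : 0 ≤ X₁) (hw : ∀ n, w n ≠ 0 → (nm n : ℝ) ≤ X₁) (hX : 0 ≤ X) (hγ : IsPrim γ)
    (hγs : Squarefree γ) (hg₀ : IsPrim g₀) (T U : Finset Eis) (hU : ∀ B ∈ U, IsPrim B) (hW : ∀ g₂ ∈ S X, ∀ g₃ ∈ S X, 0 ≤ W g₂ g₃)
    (hb : ∀ v, ∑ y ∈ T, ∑ B ∈ U, MoP (aG γ q g₀ δ w) (E * y) B τ X v Z W (P y B) ≤ (1 + |v|) ^ a * c) :
    ∑ y ∈ T, ∑ B ∈ U, MoI A (aG γ q g₀ δ w) (E * y) B τ X Z W (P y B) ≤ iA 2 * c := by
  unfold MoI
  have hi : ∀ y, ∀ B ∈ U, Integrable fun v : ℝ =>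
      ((1 + |v|) ^ A)⁻¹ * MoP (aG γ q g₀ δ w) (E * y) B τ X v Z W (P y B) := fun y B hB =>
    MoI_int hA hX₁ hw hX hγ hγs hg₀ (hU B hB) hW
  have e0 : ∑ y ∈ T, ∑ B ∈ U, ∫ v : ℝ,
      ((1 + |v|) ^ A)⁻¹ * MoP (aG γ q g₀ δ w) (E * y) B τ X v Z W (P y B) =
      ∫ v : ℝ, ∑ y ∈ T, ∑ B ∈ U,
        ((1 + |v|) ^ A)⁻¹ * MoP (aG γ q g₀ δ w) (E * y) B τ X v Z W (P y B) := by
    rw [integral_finsetSum _ fun y _ => integrable_finsetSum _ fun B hB => hi y B hB]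
    exact Finset.sum_congr rfl fun y _ => (integral_finsetSum _ fun B hB => hi y B hB).symm
  rw [e0]
  have e1 : iA 2 * c = ∫ v : ℝ, ((1 + |v|) ^ 2)⁻¹ * c := by
    unfold Win813.iA
    rw [integral_mul_const]
  rw [e1]
  refine integral_mono (integrable_finsetSum _ fun y _ => integrable_finsetSum _ fun B hB =>
    hi y B hB) ((integrable_base le_rfl).mul_const c) fun v => ?_
  show ∑ y ∈ T, ∑ B ∈ U, ((1 + |v|) ^ A)⁻¹ * MoP (aG γ q g₀ δ w) (E * y) B τ X v Z W (P y B) ≤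
    ((1 + |v|) ^ 2)⁻¹ * c
  have e2 : ∑ y ∈ T, ∑ B ∈ U, ((1 + |v|) ^ A)⁻¹ * MoP (aG γ q g₀ δ w) (E * y) B τ X v Z W (P y B) =
      ((1 + |v|) ^ A)⁻¹ * ∑ y ∈ T, ∑ B ∈ U, MoP (aG γ q g₀ δ w) (E * y) B τ X v Z W (P y B) := by
    rw [Finset.mul_sum]
    exact Finset.sum_congr rfl fun y _ => by rw [Finset.mul_sum]
  rw [e2]
  have hv : (1 : ℝ) ≤ 1 + |v| := by have := abs_nonneg v; linarith
  have hv0 : (0 : ℝ) < 1 + |v| := by linarith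
  calc ((1 + |v|) ^ A)⁻¹ * ∑ y ∈ T, ∑ B ∈ U, MoP (aG γ q g₀ δ w) (E * y) B τ X v Z W (P y B)
      ≤ ((1 + |v|) ^ A)⁻¹ * ((1 + |v|) ^ a * c) :=
        mul_le_mul_of_nonneg_left (hb v) (by positivity)
    _ = (((1 + |v|) ^ A)⁻¹ * (1 + |v|) ^ a) * c := by ring
    _ ≤ ((1 + |v|) ^ 2)⁻¹ * c := by
        refine mul_le_mul_of_nonneg_right ?_ hc
        rw [inv_mul_le_iff₀ (by positivity), ← div_eq_mul_inv, le_div_iff₀ (by positivity),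
          ← Real.rpow_natCast (1 + |v|) 2, ← Real.rpow_natCast (1 + |v|) A,
          ← Real.rpow_add hv0]
        exact Real.rpow_le_rpow_of_exponent_le hv (by push_cast; linarith)

end Crest.Agent.R017.MoF106
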