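import Crest.Agent.R017.E2s_440
import Crest.Agent.R017.MoF4_106
import Crest.Agent.R017.H1o_401

/-!
# Row 17, block C70, leaf E2 (helper401): the dyadic large sieve `DH` from `H1m`
-/

set_option autoImplicit false

noncomputable section

open Complex
open scoped ComplexConjugate

namespace Crest.Agent.R017.E2D401

open Crest.Agent.R012 Crest.Agent.R012.Eis Crest.Agent.R012.GaussLoc283
open Crest.Agent.R012.Mob705 hiding pb mem_pb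
open Crest.Agent.R012.Div277
open Crest.Agent.R012.LS2 (S mem_S)
open Crest.Agent.R012.Weight600 (osc norm_osc)
open Crest.Agent.R017.PX764 (th Gh n6 cD)
open Crest.Agent.R017.X6C180 (Sg fA WF V1 cM n13 IX dl' om' GF)
open Crest.Agent.R017.CM106 (sub CS FS)
open Crest.Agent.R017.H1401 (pb mem_pb DD WM HW)
open Crest.Agent.R017.MoF106 (MoP)
open Crest.Agent.R017.E2440

/-- the `cT` sequence -/
lemma fs_cT' {α : Eis → ℂ} (hα : FS α) {B : Eis} (hB : IsPrim B) (E τ : Eis) (t : ℝ) :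
    FS (cT α E B τ t) := by
  refine ⟨(hα.sub hB).fin.subset fun D hD h0 => hD ?_, fun D hD => ?_⟩
  · have h0' : α (B * D) = 0 := h0
    unfold cT
    rw [h0', zero_mul, zero_mul]
  · have h0 : α (B * D) ≠ 0 := fun h => hD (by unfold cT; rw [h, zero_mul, zero_mul])
    exact (hα.prim _ h0).of_mul_left hB

/-- `dl' σ i * σ` has no primary prime -/
lemma cp_dl {σ : Eis} (hσ : Sg σ) (i : IX σ) :
    ∀ p : Eis, Prime p → IsPrim p → ¬ p ∣ dl' σ i * σ := by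
  intro p hpp hp hd
  rcases hpp.dvd_or_dvd hd with h | h
  · have h2 : IsCoprime (dl' σ i) p := (H1401.Cp.coprime (κ := dl' σ i) (fun q hqq hq hqd => ?_) hp)
    exact hpp.not_isUnit (h2.isUnit_of_dvd' h dvd_rfl)
    obtain ⟨m, hm⟩ := X6C180.dl_SU hσ.ne_zero i
    have h3 : q ∣ lam ^ m := hqd.trans hm
    have h4 : q ∣ lam := hqq.dvd_of_dvd_pow h3
    have h5 : IsCoprime q (3 : Eis) := hq.isCoprime_three
    have h6 : q ∣ (3 : Eis) := by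
      rw [three_eq]
      exact (h4.trans (dvd_pow_self lam two_ne_zero)).mul_left _
    exact hqq.not_isUnit (h5.isUnit_of_dvd' dvd_rfl h6)
  · exact (sg_NoP hσ).2 p hpp ⟨hp, isCoprime_one_right⟩ h

open Classical in
/-- **the dyadic large sieve from a weighted (H1)** -/
theorem dh_of {W : ℝ → ℝ → Eis → Eis → ℝ} {ε C : ℝ}
    (hC1 : 1 ≤ C)
    (hW : ∀ R Z : ℝ, 1 ≤ R → 1 ≤ Z → ∀ x y : Eis, 0 ≤ W R Z x y)
    (hH : ∀ R Z X : ℝ, 1 ≤ R → 1 ≤ Z → 1 ≤ X →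
      ∀ κ ν : Eis, (∀ p : Eis, Prime p → IsPrim p → ¬ p ∣ κ) → IsPrim ν → Squarefree ν →
      ∀ c b : Eis → ℂ, FS c →
      (∀ D, c D ≠ 0 → Squarefree D ∧ (nm D : ℝ) ≤ X ∧ IsCoprime D ν) →
      ∑ r ∈ (S R).filter (fun r => IsCoprime r ν),
        ‖∑ d ∈ pb Z, b d * ∑' D : Eis, c D * conj (gs (κ * r * ν ^ 2 * D) d)‖ ^ 2 ≤
        C * (R * Z * X * nm ν) ^ ε * nm ν *
          ∑ g₂ ∈ S X, ∑ g₃ ∈ S X, W R Z g₂ g₃ *
            ∑ d ∈ (pb Z).filter (DD ν g₂ g₃),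
              (nm d : ℝ) * ‖b d‖ ^ 2 * ‖CS (sub c (g₂ * g₃)) d‖ ^ 2)
    {σ : Eis} (hσ : Sg σ) (J : ℕ) {R X : ℝ} (hR : 1 ≤ R) (hX : 1 ≤ X) {E ν : Eis} {α : Eis → ℂ}
    (hν : IsPrim ν) (hνs : Squarefree ν) (hα : Cf α ν) (hαX : ∀ n, α n ≠ 0 → (nm n : ℝ) ≤ X)
    {N : Eis → ℕ} {Mw : Eis → ℕ → ℝ}
    (hM : ∀ B ∈ S X, ∀ (i : IX σ) (t : ℝ) (j : ℕ), j < N B →
      MoP α E B (dl' σ i) X t (2 ^ j) (W R (2 ^ j)) (fun g₂ g₃ d => DD ν g₂ g₃ d ∧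
        (2 : ℝ) ^ j / 2 < nm d) ≤ (1 + |t|) ^ J * Mw B j) :
    DH J R X σ E ν α N (fun B j => C * (R * 2 ^ j * X * nm ν) ^ ε * nm ν * (2 / 2 ^ j) * Mw B j) := by
  intro B hB i t j hj b hb1 hb2
  have hX0 : (0 : ℝ) ≤ X := by linarith
  have hR0 : (0 : ℝ) ≤ R := by linarith
  obtain ⟨hBX, hB1, hBs⟩ := (mem_S hX0).mp hB
  set Z : ℝ := 2 ^ j with hZdef
  have hZ : 1 ≤ Z := one_le_pow₀ (by norm_num)
  have hZ0 : 0 < Z := by linarith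
  have h1 := hH R Z X hR hZ hX (dl' σ i * σ) ν (cp_dl hσ i) hν hνs (cT α E B (dl' σ i) t) b
    (fs_cT' hα.fs hB1 E _ t) (fun D hD => by
      have h0 : α (B * D) ≠ 0 := fun h => hD (by unfold cT; rw [h, zero_mul, zero_mul])
      have hND : nm D ≤ nm (B * D) := nm_le_of_dvd (hα.fs.prim _ h0).ne_zero (dvd_mul_left _ _)
      have hND' : (nm D : ℝ) ≤ nm (B * D) := by exact_mod_cast hND
      exact ⟨(hα.sqf _ h0).of_mul_right, hND'.trans (hαX _ h0), (hα.cop _ h0).of_mul_left_right⟩)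
  have h2 : ∑ r ∈ (S R).filter (fun r => IsCoprime r ν ∧ R / 2 < nm r),
      ‖∑ d ∈ pb Z, b d * ∑' D : Eis, cT α E B (dl' σ i) t D *
        conj (gs (dl' σ i * σ * r * ν ^ 2 * D) d)‖ ^ 2 ≤
      ∑ r ∈ (S R).filter (fun r => IsCoprime r ν),
        ‖∑ d ∈ pb Z, b d * ∑' D : Eis, cT α E B (dl' σ i) t D *
          conj (gs (dl' σ i * σ * r * ν ^ 2 * D) d)‖ ^ 2 := by
    refine Finset.sum_le_sum_of_subset_of_nonneg (fun r hr => ?_) (fun _ _ _ => sq_nonneg _)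
    rw [Finset.mem_filter] at hr ⊢
    exact ⟨hr.1, hr.2.1⟩
  have h3 : ∑ g₂ ∈ S X, ∑ g₃ ∈ S X, W R Z g₂ g₃ *
      ∑ d ∈ (pb Z).filter (DD ν g₂ g₃),
        (nm d : ℝ) * ‖b d‖ ^ 2 * ‖CS (sub (cT α E B (dl' σ i) t) (g₂ * g₃)) d‖ ^ 2 ≤
      (2 / Z) * ((1 + |t|) ^ J * Mw B j) := by
    refine le_trans ?_ (mul_le_mul_of_nonneg_left (hM B hB i t j hj) (by positivity))
    unfold MoP
    rw [Finset.mul_sum]
    refine Finset.sum_le_sum fun g₂ _ => ?_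
    rw [Finset.mul_sum]
    refine Finset.sum_le_sum fun g₃ _ => ?_
    rw [← mul_assoc, mul_comm (2 / Z) (W R (2 ^ j) g₂ g₃), mul_assoc]
    refine mul_le_mul_of_nonneg_left ?_ (hW R Z hR hZ g₂ g₃)
    rw [Finset.mul_sum]
    have hsub : (pb Z).filter (fun d => DD ν g₂ g₃ d ∧ (2 : ℝ) ^ j / 2 < nm d) ⊆
        (pb Z).filter (DD ν g₂ g₃) := by
      intro d hd
      rw [Finset.mem_filter] at hd ⊢
      exact ⟨hd.1, hd.2.1⟩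
    have hz : ∀ d ∈ (pb Z).filter (DD ν g₂ g₃),
        d ∉ (pb Z).filter (fun d => DD ν g₂ g₃ d ∧ (2 : ℝ) ^ j / 2 < nm d) →
        (nm d : ℝ) * ‖b d‖ ^ 2 * ‖CS (sub (cT α E B (dl' σ i) t) (g₂ * g₃)) d‖ ^ 2 = 0 := by
      intro d hd hd'
      rw [Finset.mem_filter] at hd
      have hbd : b d = 0 := by
        by_contra h
        exact hd' (Finset.mem_filter.mpr ⟨hd.1, hd.2, hb2 d h⟩)
      rw [hbd]; simp
    rw [← Finset.sum_subset hsub hz]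
    have hfin : ∑ d ∈ (pb Z).filter (fun d => DD ν g₂ g₃ d ∧ (2 : ℝ) ^ j / 2 < nm d),
        (nm d : ℝ) * ‖b d‖ ^ 2 * ‖CS (sub (cT α E B (dl' σ i) t) (g₂ * g₃)) d‖ ^ 2 ≤
        ∑ d ∈ (pb Z).filter (fun d => DD ν g₂ g₃ d ∧ (2 : ℝ) ^ j / 2 < nm d),
          (2 / Z) * ‖CS (sub (cT α E B (dl' σ i) t) (g₂ * g₃)) d‖ ^ 2 := by
      refine Finset.sum_le_sum fun d hd => ?_
      rw [Finset.mem_filter, mem_pb hZ0.le] at hd
      obtain ⟨⟨hdZ, hd1⟩, hd3, hd4⟩ := hd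
      have hNd : (1 : ℝ) ≤ nm d := one_le_nm hd1.ne_zero
      refine mul_le_mul_of_nonneg_right ?_ (sq_nonneg _)
      calc (nm d : ℝ) * ‖b d‖ ^ 2 ≤ nm d * ((nm d : ℝ)⁻¹) ^ 2 := by
            refine mul_le_mul_of_nonneg_left ?_ (by positivity)
            exact pow_le_pow_left₀ (norm_nonneg _) (hb1 d) 2
        _ = (nm d : ℝ)⁻¹ := by field_simp
        _ ≤ 2 / Z := by
            rw [inv_eq_one_div, div_le_div_iff₀ (by linarith) hZ0]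
            linarith
    refine hfin.trans (le_of_eq ?_)
    refine Finset.sum_congr ?_ fun _ _ => rfl
    ext d
    simp only [Finset.mem_filter]
    rfl
  refine h2.trans (h1.trans ?_)
  refine (mul_le_mul_of_nonneg_left h3 (by positivity)).trans (le_of_eq ?_)
  ring

/-- **`DH` from `H1m`** -/
theorem dh_H1m {ε : ℝ} (hε : 0 < ε) : ∃ C : ℝ, 1 ≤ C ∧ ∀ {σ : Eis}, Sg σ → ∀ (J : ℕ) {R X : ℝ},
    1 ≤ R → 1 ≤ X → ∀ {E ν : Eis} {α : Eis → ℂ}, IsPrim ν → Squarefree ν → Cf α ν →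
    (∀ n, α n ≠ 0 → (nm n : ℝ) ≤ X) → ∀ {N : Eis → ℕ} {Mw : Eis → ℕ → ℝ},
    (∀ B ∈ S X, ∀ (i : IX σ) (t : ℝ) (j : ℕ), j < N B →
      MoP α E B (dl' σ i) X t (2 ^ j) (WM R (2 ^ j)) (fun g₂ g₃ d => DD ν g₂ g₃ d ∧
        (2 : ℝ) ^ j / 2 < nm d) ≤ (1 + |t|) ^ J * Mw B j) →
    DH J R X σ E ν α N
      (fun B j => C * (R * 2 ^ j * X * nm ν) ^ ε * nm ν * (2 / 2 ^ j) * Mw B j) := by
  obtain ⟨C, hC1, hH⟩ := H1401.H1m hε
  exact ⟨C, hC1, fun hσ J _ _ hR hX _ _ _ hν hνs hα hαX _ _ hM =>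
    dh_of (W := WM) hC1 (fun R Z hR hZ x y => H1401.WM_nonneg (by linarith) (by linarith) x y)
      hH hσ J hR hX hν hνs hα hαX hM⟩

/-- **`DH` from `H1w`** -/
theorem dh_H1w {ε : ℝ} (hε : 0 < ε) : ∃ C : ℝ, 1 ≤ C ∧ ∀ {σ : Eis}, Sg σ → ∀ (J : ℕ) {R X : ℝ},
    1 ≤ R → 1 ≤ X → ∀ {E ν : Eis} {α : Eis → ℂ}, IsPrim ν → Squarefree ν → Cf α ν →
    (∀ n, α n ≠ 0 → (nm n : ℝ) ≤ X) → ∀ {N : Eis → ℕ} {Mw : Eis → ℕ → ℝ},
    (∀ B ∈ S X, ∀ (i : IX σ) (t : ℝ) (j : ℕ), j < N B →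
      MoP α E B (dl' σ i) X t (2 ^ j) (fun g₂ g₃ => (nm g₂ : ℝ) ^ 2 * HW R (2 ^ j) g₂ g₃)
        (fun g₂ g₃ d => DD ν g₂ g₃ d ∧ (2 : ℝ) ^ j / 2 < nm d) ≤ (1 + |t|) ^ J * Mw B j) →
    DH J R X σ E ν α N
      (fun B j => C * (R * 2 ^ j * X * nm ν) ^ ε * nm ν * (2 / 2 ^ j) * Mw B j) := by
  obtain ⟨C, hC1, hH⟩ := H1401.H1w hε
  exact ⟨C, hC1, fun hσ J _ _ hR hX _ _ _ hν hνs hα hαX _ _ hM =>
    dh_of (W := fun R Z g₂ g₃ => (nm g₂ : ℝ) ^ 2 * HW R Z g₂ g₃) hC1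
      (fun R Z hR hZ x y => mul_nonneg (by positivity)
        (H1401.HW_nonneg (by linarith) (by linarith) x y))
      hH hσ J hR hX hν hνs hα hαX hM⟩

end Crest.Agent.R017.E2D401
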