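import Crest.Agent.R017.H1p_401

/-!
# Row 17, block C70, leaf E2, input (H1) (helper401), part q: `H1m` with the `n`-sum kept

`H1v` : `H1m` with `nm ν Σ_{g₂,g₃} WM R Z g₂ g₃ Σ_{DD}` replaced by
`Σ_{n ∣ ν} nm n Σ_{g₂,g₃} WM R (Z / nm n ^ 3) g₂ g₃ Σ_{DN n g₂ g₃}`
-/

set_option autoImplicit false

noncomputable section

open Finset
open scoped ComplexConjugate

namespace Crest.Agent.R017.H1401

open Crest.Agent.R012 Crest.Agent.R012.Eis Crest.Agent.R012.LS2 Crest.Agent.R012.GaussLoc283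
open Crest.Agent.R012.Div277 (tau dvs mem_dvs tau_le_rpow)
open Crest.Agent.R012.BilG811 (hbB Sq bil_ls)
open Crest.Agent.R017.CM106

open Classical in
/-- **the large sieve on a block**, weight at `Z / nm n ^ 3` -/
theorem block_le_n {ε : ℝ} (hε : 0 < ε) : ∃ K : ℝ, 0 < K ∧
    ∀ R Z X : ℝ, 1 ≤ R → 1 ≤ Z → 1 ≤ X → ∀ κ : Eis, Cp κ → ∀ (b c : Eis → ℂ) (n v : Eis) (i : ℕ)
      (y z : Eis), IsPrim n → IsPrim y → IsPrim z →
      ∑ s ∈ S R, (if (z * y) * s ∈ S R then ‖Ub κ b c X Z n v i y z s‖ ^ 2 else 0) ≤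
        K * (R * Z) ^ ε * nm n * ∑ x ∈ bk X i, WM R (Z / (nm n : ℝ) ^ 3) x y * Wb b c Z n x y z := by
  obtain ⟨K1, hK1, hA1⟩ := ls_tuple_n LS448.hb_final hε
  obtain ⟨K2, hK2, hB1⟩ := ls_joint_n
  refine ⟨1600 * K1 + 8 * K2, by positivity, fun R Z X hR hZ hX κ hκ b c n v i y z hn hy hz => ?_⟩
  have hR0 : (0 : ℝ) ≤ R := by linarith
  have hZ0 : (0 : ℝ) ≤ Z := by linarith
  have hX0 : (0 : ℝ) ≤ X := by linarith
  have hZn : 0 ≤ Z / (nm n : ℝ) ^ 3 := by positivity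
  have hRZ : 1 ≤ (R * Z) ^ ε := Real.one_le_rpow (by nlinarith) hε.le
  have hy1 : (1 : ℝ) ≤ nm y := nm_ge_one hy
  have hG1 : (1 : ℝ) ≤ 2 ^ i := one_le_pow₀ (by norm_num)
  have hG0 : (0 : ℝ) < 2 ^ i := by positivity
  set Sx : ℝ := ∑ x ∈ bk X i, WM R (Z / (nm n : ℝ) ^ 3) x y * Wb b c Z n x y z with hSx
  have hSx0 : 0 ≤ Sx := Finset.sum_nonneg fun x _ =>
    mul_nonneg (WM_nonneg hR0 hZn x y) (Wb_nonneg _ _ _ _ _ _ _)
  rcases min_block (R := R) (Z := Z / (nm n : ℝ) ^ 3) (u := nm y) (G := 2 ^ i) hR0 hZn hy1 hG1 with hc | hc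
  · -- fixed `x`
    have h1 : ∀ s ∈ S R, (if (z * y) * s ∈ S R then ‖Ub κ b c X Z n v i y z s‖ ^ 2 else 0) ≤
        ∑ x ∈ bk X i, 200 * ((nm x : ℝ) *
          (if (z * y) * s ∈ S R then ‖UU κ b c Z n v x y z s‖ ^ 2 else 0)) := by
      intro s _
      by_cases h : (z * y) * s ∈ S R
      · simp only [if_pos h]
        calc ‖Ub κ b c X Z n v i y z s‖ ^ 2 ≤ (∑ x ∈ bk X i, ‖UU κ b c Z n v x y z s‖) ^ 2 :=
              pow_le_pow_left₀ (norm_nonneg _) (norm_sum_le _ _) 2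
          _ ≤ (bk X i).card * ∑ x ∈ bk X i, ‖UU κ b c Z n v x y z s‖ ^ 2 :=
              sq_sum_le_card_mul_sum_sq
          _ ≤ (200 * 2 ^ i) * ∑ x ∈ bk X i, ‖UU κ b c Z n v x y z s‖ ^ 2 :=
              mul_le_mul_of_nonneg_right (card_bk hX0 i) (Finset.sum_nonneg fun _ _ => by positivity)
          _ ≤ _ := by
              rw [Finset.mul_sum]
              refine Finset.sum_le_sum fun x hx => ?_
              have := (bk_size hX0 hx).1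
              have h5 : 0 ≤ ‖UU κ b c Z n v x y z s‖ ^ 2 := by positivity
              nlinarith
      · simp only [if_neg h]
        exact Finset.sum_nonneg fun _ _ => by simp
    calc _ ≤ ∑ s ∈ S R, ∑ x ∈ bk X i, 200 * ((nm x : ℝ) *
          (if (z * y) * s ∈ S R then ‖UU κ b c Z n v x y z s‖ ^ 2 else 0)) :=
          Finset.sum_le_sum h1
      _ = ∑ x ∈ bk X i, 200 * ((nm x : ℝ) * ∑ s ∈ S R,
          (if (z * y) * s ∈ S R then ‖UU κ b c Z n v x y z s‖ ^ 2 else 0)) := by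
          rw [Finset.sum_comm]
          refine Finset.sum_congr rfl fun x _ => ?_
          rw [Finset.mul_sum, Finset.mul_sum]
      _ ≤ ∑ x ∈ bk X i, (1600 * K1) * (R * Z) ^ ε * nm n * (WM R (Z / (nm n : ℝ) ^ 3) x y * Wb b c Z n x y z) := by
          refine Finset.sum_le_sum fun x hx => ?_
          have hx1 := (mem_bk hX0).mp hx
          have h2 := hA1 R Z hR hZ κ hκ b c n v x y z hn hx1.1.2.1 hy hz
          have h3 := bk_size hX0 hx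
          have h4 := hc (nm x) h3.1 h3.2.le
          rw [← WM_eq] at h4
          have h5 : hA R (Z / (nm n : ℝ) ^ 3) (nm y) (nm x) = (nm x : ℝ) ^ 2 * HN R Z n x y := by
            unfold hA HN HW; ring
          rw [h5] at h4
          have h6 := Wb_nonneg b c Z n x y z
          have h7 : (0 : ℝ) ≤ nm n := Nat.cast_nonneg _
          calc 200 * ((nm x : ℝ) * ∑ s ∈ S R,
              (if (z * y) * s ∈ S R then ‖UU κ b c Z n v x y z s‖ ^ 2 else 0))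
              ≤ 200 * (K1 * (R * Z) ^ ε * HN R Z n x y * ((nm x : ℝ) ^ 2 * nm n) *
                Wb b c Z n x y z) := mul_le_mul_of_nonneg_left h2 (by norm_num)
            _ = 200 * (K1 * (R * Z) ^ ε * nm n) * (((nm x : ℝ) ^ 2 * HN R Z n x y) *
                Wb b c Z n x y z) := by ring
            _ ≤ 200 * (K1 * (R * Z) ^ ε * nm n) * ((8 * WM R (Z / (nm n : ℝ) ^ 3) x y) * Wb b c Z n x y z) := by
                gcongr
            _ = _ := by ring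
      _ = (1600 * K1) * (R * Z) ^ ε * nm n * Sx := by rw [hSx, Finset.mul_sum]
      _ ≤ _ := by
          have : (0 : ℝ) ≤ nm n := Nat.cast_nonneg _
          gcongr
          linarith
  · -- joint
    have h2 := hB1 R Z (2 ^ i) hR hZ hG1 κ hκ b c (bk X i) n v y z hn hy hz (fun x hx => by
      have hx1 := (mem_bk hX0).mp hx
      exact ⟨hx1.1.2.1, hx1.1.2.2, (bk_size hX0 hx).1⟩)
    calc _ ≤ K2 * (R + (Z / (nm n : ℝ) ^ 3 / 2 ^ i) ^ 2) * nm n *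
          ∑ x ∈ bk X i, (nm x : ℝ) * Wb b c Z n x y z := h2
      _ = K2 * nm n * ∑ x ∈ bk X i, ((nm x : ℝ) * (R + (Z / (nm n : ℝ) ^ 3 / 2 ^ i) ^ 2)) * Wb b c Z n x y z := by
          rw [Finset.mul_sum, Finset.mul_sum]
          exact Finset.sum_congr rfl fun x _ => by ring
      _ ≤ K2 * nm n * ∑ x ∈ bk X i, (8 * WM R (Z / (nm n : ℝ) ^ 3) x y) * Wb b c Z n x y z := by
          refine mul_le_mul_of_nonneg_left ?_ (by positivity)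
          refine Finset.sum_le_sum fun x hx => ?_
          have h3 := bk_size hX0 hx
          have h4 := hc (nm x) h3.1 h3.2.le
          rw [← WM_eq] at h4
          exact mul_le_mul_of_nonneg_right h4 (Wb_nonneg _ _ _ _ _ _ _)
      _ = (8 * K2) * 1 * nm n * Sx := by
          rw [hSx, Finset.mul_sum, Finset.mul_sum]
          exact Finset.sum_congr rfl fun x _ => by ring
      _ ≤ _ := by
          have : (0 : ℝ) ≤ nm n := Nat.cast_nonneg _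
          gcongr
          linarith


set_option maxHeartbeats 1000000 in
open Classical in
/-- **(H1), sharp minimum form with the `n`-sum** -/
theorem H1v {ε : ℝ} (hε : 0 < ε) : ∃ C : ℝ, 1 ≤ C ∧ ∀ R Z X : ℝ, 1 ≤ R → 1 ≤ Z → 1 ≤ X →
    ∀ κ ν : Eis, (∀ p : Eis, Prime p → IsPrim p → ¬ p ∣ κ) → IsPrim ν → Squarefree ν →
    ∀ c b : Eis → ℂ, FS c →
    (∀ D, c D ≠ 0 → Squarefree D ∧ (nm D : ℝ) ≤ X ∧ IsCoprime D ν) →
    ∑ r ∈ (S R).filter (fun r => IsCoprime r ν),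
      ‖∑ d ∈ pb Z, b d * ∑' D : Eis, c D * conj (gs (κ * r * ν ^ 2 * D) d)‖ ^ 2 ≤
      C * (R * Z * X * nm ν) ^ ε *
        ∑ n ∈ dvs ν, (nm n : ℝ) *
          ∑ g₂ ∈ S X, ∑ g₃ ∈ S X, WM R (Z / (nm n : ℝ) ^ 3) g₂ g₃ *
            ∑ d ∈ (pb Z).filter (DN n g₂ g₃),
              (nm d : ℝ) * ‖b d‖ ^ 2 * ‖CS (sub c (g₂ * g₃)) d‖ ^ 2 := by
  set δ : ℝ := ε / 4 with hδ
  have hδ0 : 0 < δ := by rw [hδ]; linarith
  obtain ⟨K, hK, hLS⟩ := block_le_n hδ0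
  obtain ⟨Ct, hCt1, hCt⟩ := tau_le_rpow hδ0
  obtain ⟨Ci, hCi1, hCi⟩ := nb_le hδ0
  refine ⟨max 1 (Ct ^ 2 * Ct ^ 3 * Ci * K * Ct ^ 2), le_max_left _ _,
    fun R Z X hR hZ hX κ ν hκ hν hνs c b hc hs => ?_⟩
  have hR0 : (0 : ℝ) ≤ R := by linarith
  have hZ0 : (0 : ℝ) ≤ Z := by linarith
  have hX0 : (0 : ℝ) ≤ X := by linarith
  have hν1 : (1 : ℝ) ≤ nm ν := nm_ge_one hν
  have hZn : ∀ n : Eis, 0 ≤ Z / (nm n : ℝ) ^ 3 := fun n => by positivity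
  set Sm : ℝ := ∑ n ∈ dvs ν, (nm n : ℝ) *
          ∑ g₂ ∈ S X, ∑ g₃ ∈ S X, WM R (Z / (nm n : ℝ) ^ 3) g₂ g₃ *
            ∑ d ∈ (pb Z).filter (DN n g₂ g₃),
              (nm d : ℝ) * ‖b d‖ ^ 2 * ‖CS (sub c (g₂ * g₃)) d‖ ^ 2 with hSm
  have hSm0 : 0 ≤ Sm := by
    rw [hSm]
    refine Finset.sum_nonneg fun n _ => mul_nonneg (by positivity) ?_
    refine Finset.sum_nonneg fun x _ => Finset.sum_nonneg fun y _ =>
      mul_nonneg (WM_nonneg hR0 (hZn n) x y) ?_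
    exact Finset.sum_nonneg fun _ _ => by positivity
  set W1 : ℝ := (Ct * (nm ν : ℝ) ^ δ) ^ 2 * (Ct * R ^ δ) ^ 3 * (Ci * X ^ δ) with hW1
  set LSB : ℝ := K * (R * Z) ^ δ with hLSB
  have hLSB0 : 0 ≤ LSB := by rw [hLSB]; positivity
  have hCt0 : 0 ≤ Ct := by linarith
  have hCi0 : 0 ≤ Ci := by linarith
  have hW10 : 0 ≤ W1 := by rw [hW1]; positivity
  have hstep1 : ∀ r ∈ (S R).filter (fun r => IsCoprime r ν),
      ‖∑ d ∈ pb Z, b d * ∑' D : Eis, c D * conj (gs (κ * r * ν ^ 2 * D) d)‖ ^ 2 ≤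
      W1 * ∑ p ∈ (AJ ν R X ×ˢ S R).filter (fun p => (p.1.2.2.2.2 * p.1.2.2.2.1) * p.2 = r),
        ‖Uj κ b c X Z p.1 p.2‖ ^ 2 := by
    intro r hr
    rw [Finset.mem_filter] at hr
    rw [master3 hR hZ hX hκ hν hνs hc hs hr.1 hr.2]
    calc _ ≤ (∑ p ∈ (AJ ν R X ×ˢ S R).filter
            (fun p => (p.1.2.2.2.2 * p.1.2.2.2.1) * p.2 = r), ‖Uj κ b c X Z p.1 p.2‖) ^ 2 :=
          pow_le_pow_left₀ (norm_nonneg _) (norm_sum_le _ _) 2
      _ ≤ _ := sq_sum_le_card_mul_sum_sq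
      _ ≤ _ := ?_
    apply mul_le_mul_of_nonneg_right _ (Finset.sum_nonneg fun _ _ => by positivity)
    refine (card_tuples hR hX hν hr.1).trans ?_
    obtain ⟨h1, h2, h3⟩ := (mem_S hR0).mp hr.1
    have t1 : (tau ν : ℝ) ≤ Ct * (nm ν : ℝ) ^ δ := hCt ν hν.ne_zero
    have t2 : (tau r : ℝ) ≤ Ct * R ^ δ := (hCt r h2.ne_zero).trans
      (mul_le_mul_of_nonneg_left (Real.rpow_le_rpow (by positivity) h1 hδ0.le) (by linarith))
    have t3 := hCi X hX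
    rw [hW1]
    have t5 : (tau ν : ℝ) ^ 2 ≤ (Ct * (nm ν : ℝ) ^ δ) ^ 2 :=
      pow_le_pow_left₀ (Nat.cast_nonneg _) t1 2
    have t6 : (tau r : ℝ) ^ 3 ≤ (Ct * R ^ δ) ^ 3 := pow_le_pow_left₀ (Nat.cast_nonneg _) t2 3
    exact mul_le_mul (mul_le_mul t5 t6 (by positivity) (by positivity)) t3 (Nat.cast_nonneg _)
      (by positivity)
  have hstep2 : ∑ r ∈ (S R).filter (fun r => IsCoprime r ν),
      ‖∑ d ∈ pb Z, b d * ∑' D : Eis, c D * conj (gs (κ * r * ν ^ 2 * D) d)‖ ^ 2 ≤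
      W1 * ∑ a ∈ AJ ν R X, ∑ s ∈ S R,
        (if (a.2.2.2.2 * a.2.2.2.1) * s ∈ S R then ‖Uj κ b c X Z a s‖ ^ 2 else 0) := by
    refine (Finset.sum_le_sum hstep1).trans ?_
    rw [← Finset.mul_sum]
    apply mul_le_mul_of_nonneg_left _ hW10
    exact second_gen (R := R) _ (Finset.filter_subset _ _) (AJ ν R X)
      (fun a => a.2.2.2.2 * a.2.2.2.1) (fun a s => ‖Uj κ b c X Z a s‖ ^ 2)
      (fun a s => by positivity)
  have hstep3 : ∀ a ∈ AJ ν R X, ∑ s ∈ S R,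
        (if (a.2.2.2.2 * a.2.2.2.1) * s ∈ S R then ‖Uj κ b c X Z a s‖ ^ 2 else 0) ≤
      LSB * ∑ x ∈ bk X a.2.2.1, (nm a.1 : ℝ) * (WM R (Z / (nm a.1 : ℝ) ^ 3) x a.2.2.2.1 *
        Wb b c Z a.1 x a.2.2.2.1 a.2.2.2.2) := by
    intro a ha
    rw [mem_AJ hν.ne_zero hR0 hX0] at ha
    obtain ⟨⟨h1, h2, h3, h4, h5⟩, h6⟩ := ha
    have h := hLS R Z X hR hZ hX κ hκ b c a.1 a.2.1 a.2.2.1 a.2.2.2.1 a.2.2.2.2 h1.1 h4.2.1 h5.2.1
    refine h.trans (le_of_eq ?_)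
    rw [hLSB, ← Finset.mul_sum]
    ring
  have hT : ∀ d ∈ pb Z, (tau d : ℝ) ^ 2 ≤ (Ct * Z ^ δ) ^ 2 := by
    intro d hd
    obtain ⟨h1, h2⟩ := (mem_pb hZ0).mp hd
    have t2 : (tau d : ℝ) ≤ Ct * Z ^ δ := (hCt d h2.ne_zero).trans
      (mul_le_mul_of_nonneg_left (Real.rpow_le_rpow (by positivity) h1 hδ0.le) (by linarith))
    exact pow_le_pow_left₀ (Nat.cast_nonneg _) t2 2
  have hstep4 : ∑ a ∈ AJ ν R X, ∑ x ∈ bk X a.2.2.1, (nm a.1 : ℝ) *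
        (WM R (Z / (nm a.1 : ℝ) ^ 3) x a.2.2.2.1 *
        Wb b c Z a.1 x a.2.2.2.1 a.2.2.2.2) ≤ (Ct * Z ^ δ) ^ 2 * Sm := by
    set f : Eis → Eis → Eis → Eis → ℝ := fun n x y z =>
      (nm n : ℝ) * (WM R (Z / (nm n : ℝ) ^ 3) x y * Wb b c Z n x y z) with hf
    have hf0 : ∀ n x y z, 0 ≤ f n x y z := fun n x y z =>
      mul_nonneg (by positivity) (mul_nonneg (WM_nonneg hR0 (hZn n) x y)
        (Wb_nonneg _ _ _ _ _ _ _))
    have e0 := regroup (ν := ν) (R := R) (X := X) hX0 (fun n _ x y z => f n x y z)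
    refine (le_of_eq e0.symm).trans ?_
    -- `v` is determined by `n`
    have e1 : ∑ a ∈ AA ν R X, f a.1 a.2.2.1 a.2.2.2.1 a.2.2.2.2 ≤
        ∑ n ∈ dvs ν, ∑ x ∈ S X, ∑ y ∈ S X, ∑ z ∈ S R, f n x y z := by
      have e2 : ∑ n ∈ dvs ν, ∑ x ∈ S X, ∑ y ∈ S X, ∑ z ∈ S R, f n x y z =
          ∑ q ∈ dvs ν ×ˢ S X ×ˢ S X ×ˢ S R, f q.1 q.2.1 q.2.2.1 q.2.2.2 := by
        simp only [Finset.sum_product]
      rw [e2]
      have hinj : Set.InjOn (fun a : Ta => ((a.1, a.2.2.1, a.2.2.2.1, a.2.2.2.2) :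
          Eis × Eis × Eis × Eis)) (AA ν R X) := by
        rintro ⟨a1, a2, a3, a4, a5⟩ ha ⟨b1, b2, b3, b4, b5⟩ hb h
        rw [Finset.mem_coe, mem_AA hν.ne_zero hR0 hX0] at ha hb
        simp only [Prod.mk.injEq] at h ⊢
        obtain ⟨rfl, rfl, rfl, rfl⟩ := h
        refine ⟨rfl, ?_, rfl, rfl, rfl⟩
        exact mul_left_cancel₀ ha.1.1.1.ne_zero (ha.2.trans hb.2.symm)
      have e3 : ∑ a ∈ AA ν R X, f a.1 a.2.2.1 a.2.2.2.1 a.2.2.2.2 =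
          ∑ q ∈ (AA ν R X).image (fun a : Ta => ((a.1, a.2.2.1, a.2.2.2.1, a.2.2.2.2) :
          Eis × Eis × Eis × Eis)), f q.1 q.2.1 q.2.2.1 q.2.2.2 := by
        rw [Finset.sum_image hinj]
      rw [e3]
      refine Finset.sum_le_sum_of_subset_of_nonneg ?_ (fun q _ _ => hf0 _ _ _ _)
      intro q hq
      rw [Finset.mem_image] at hq
      obtain ⟨a, ha, rfl⟩ := hq
      rw [mem_AA hν.ne_zero hR0 hX0] at ha
      simp only [Finset.mem_product]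
      rw [mem_dvs hν.ne_zero, mem_S hX0, mem_S hX0, mem_S hR0]
      exact ⟨ha.1.1, ha.1.2.2.1, ha.1.2.2.2.1, ha.1.2.2.2.2⟩
    refine e1.trans ?_
    rw [hSm, Finset.mul_sum]
    refine Finset.sum_le_sum fun n hn => ?_
    have hn' := ((mem_dvs hν.ne_zero).mp hn).1
    have e5 : ∑ x ∈ S X, ∑ y ∈ S X, ∑ z ∈ S R, f n x y z = (nm n : ℝ) *
        ∑ x ∈ S X, ∑ y ∈ S X, WM R (Z / (nm n : ℝ) ^ 3) x y * ∑ z ∈ S R, Wb b c Z n x y z := by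
      rw [hf]
      simp only [Finset.mul_sum]
    rw [e5]
    have h8 : ∑ x ∈ S X, ∑ y ∈ S X, WM R (Z / (nm n : ℝ) ^ 3) x y * ∑ z ∈ S R, Wb b c Z n x y z ≤
        (Ct * Z ^ δ) ^ 2 * ∑ g₂ ∈ S X, ∑ g₃ ∈ S X, WM R (Z / (nm n : ℝ) ^ 3) g₂ g₃ *
            ∑ d ∈ (pb Z).filter (DN n g₂ g₃),
              (nm d : ℝ) * ‖b d‖ ^ 2 * ‖CS (sub c (g₂ * g₃)) d‖ ^ 2 := by
      rw [Finset.mul_sum]
      refine Finset.sum_le_sum fun x hx => ?_
      rw [Finset.mul_sum]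
      refine Finset.sum_le_sum fun y hy => ?_
      have hx' := ((mem_S hX0).mp hx).2.1
      have hy' := ((mem_S hX0).mp hy).2.1
      have h7 := div_sum_n (R := R) (Z := Z) hR hZ hn' hx' hy' hT (wt b c x y) (wt_nonneg b c x y)
      calc _ ≤ WM R (Z / (nm n : ℝ) ^ 3) x y * ((Ct * Z ^ δ) ^ 2 *
            ∑ d ∈ (pb Z).filter (DN n x y), wt b c x y d) :=
            mul_le_mul_of_nonneg_left h7 (WM_nonneg hR0 (hZn n) x y)
        _ = _ := by unfold wt; ring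
    calc _ ≤ (nm n : ℝ) * _ := mul_le_mul_of_nonneg_left h8 (by positivity)
      _ = _ := by ring
  have hstep5 : ∑ r ∈ (S R).filter (fun r => IsCoprime r ν),
      ‖∑ d ∈ pb Z, b d * ∑' D : Eis, c D * conj (gs (κ * r * ν ^ 2 * D) d)‖ ^ 2 ≤
      W1 * (LSB * ((Ct * Z ^ δ) ^ 2 * Sm)) := by
    refine hstep2.trans (mul_le_mul_of_nonneg_left ?_ hW10)
    refine (Finset.sum_le_sum hstep3).trans ?_
    rw [← Finset.mul_sum]
    exact mul_le_mul_of_nonneg_left hstep4 (by positivity)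
  refine hstep5.trans ?_
  have hpow : ((nm ν : ℝ) ^ δ) ^ 2 * (R ^ δ) ^ 3 * X ^ δ * (R * Z) ^ δ * (Z ^ δ) ^ 2 ≤
      (R * Z * X * nm ν) ^ ε := by
    have a1 : (1 : ℝ) ≤ (nm ν : ℝ) ^ δ := Real.one_le_rpow hν1 hδ0.le
    have a2 : (1 : ℝ) ≤ R ^ δ := Real.one_le_rpow hR hδ0.le
    have a3 : (1 : ℝ) ≤ X ^ δ := Real.one_le_rpow hX hδ0.le
    have a4 : (1 : ℝ) ≤ Z ^ δ := Real.one_le_rpow hZ hδ0.le
    have e1 : (R * Z * X * nm ν) ^ ε = (R ^ δ) ^ 4 * (Z ^ δ) ^ 4 * (X ^ δ) ^ 4 *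
        ((nm ν : ℝ) ^ δ) ^ 4 := by
      rw [Real.mul_rpow (by positivity) (by positivity), Real.mul_rpow (by positivity) hX0,
        Real.mul_rpow hR0 hZ0]
      have h4 : ∀ t : ℝ, 0 ≤ t → t ^ ε = (t ^ δ) ^ 4 := by
        intro t ht
        rw [← Real.rpow_natCast, ← Real.rpow_mul ht]
        congr 1
        rw [hδ]; push_cast; ring
      rw [h4 R hR0, h4 Z hZ0, h4 X hX0, h4 _ (by positivity)]
    rw [e1, Real.mul_rpow hR0 hZ0]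
    set r1 := R ^ δ
    set z1 := Z ^ δ
    set x1 := X ^ δ
    set n1 := (nm ν : ℝ) ^ δ
    have b1 : z1 ^ 3 ≤ z1 ^ 4 := pow_le_pow_right₀ a4 (by norm_num)
    have b2 : x1 ≤ x1 ^ 4 := by
      calc x1 = x1 ^ 1 := (pow_one _).symm
        _ ≤ x1 ^ 4 := pow_le_pow_right₀ a3 (by norm_num)
    have b3 : n1 ^ 2 ≤ n1 ^ 4 := pow_le_pow_right₀ a1 (by norm_num)
    calc n1 ^ 2 * r1 ^ 3 * x1 * (r1 * z1) * z1 ^ 2 = r1 ^ 4 * z1 ^ 3 * x1 * n1 ^ 2 := by ring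
      _ ≤ r1 ^ 4 * z1 ^ 4 * x1 ^ 4 * n1 ^ 4 := by gcongr
  calc W1 * (LSB * ((Ct * Z ^ δ) ^ 2 * Sm))
      = (Ct ^ 2 * Ct ^ 3 * Ci * K * Ct ^ 2) *
        (((nm ν : ℝ) ^ δ) ^ 2 * (R ^ δ) ^ 3 * X ^ δ * (R * Z) ^ δ * (Z ^ δ) ^ 2) *
        Sm := by
        rw [hW1, hLSB]; ring
    _ ≤ (max 1 (Ct ^ 2 * Ct ^ 3 * Ci * K * Ct ^ 2)) * (R * Z * X * nm ν) ^ ε *
        Sm := by
        gcongr
        exact le_max_right _ _

end Crest.Agent.R017.H1401
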