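import Crest.Agent.R017.H1Jc_401

/-!
# Row 17, block C70, leaf E2 (helper401): the joint large sieve in `(B, d)`, part d: theorem `H1J`
-/

set_option autoImplicit false

noncomputable section

open Finset
open scoped ComplexConjugate

namespace Crest.Agent.R017.H1401

open Crest.Agent.R012 Crest.Agent.R012.Eis Crest.Agent.R012.LS2 Crest.Agent.R012.GaussLoc283
open Crest.Agent.R012.Div277 (tau dvs mem_dvs tau_le_rpow)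
open Crest.Agent.R012.BilG811 (hbB Sq bil_ls)
open Crest.Agent.R017.CM106

/-- the weight of the joint form -/
def WJ (R Z B1 : ℝ) (g x : Eis) : ℝ :=
  (nm x : ℝ) * ((nm g : ℝ) * (R + (Z * B1 / ((nm x : ℝ) * (nm g : ℝ) ^ 2)) ^ 2))

lemma WJ_nonneg {R Z B1 : ℝ} (hR : 0 ≤ R) (g x : Eis) : 0 ≤ WJ R Z B1 g x := by
  unfold WJ
  positivity

/-- the joint `V` at a tuple -/
def Vj (κ : Eis) (b c : Eis → Eis → ℂ) (Bs : Finset Eis) (X Z : ℝ) (a : Tj) (s : Eis) : ℂ :=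
  VJ κ b c Bs (bk X a.2.2.1) Z a.1 a.2.1 a.2.2.2.1 a.2.2.2.2 s

open Classical in
/-- the master identity, joint form -/
lemma master4 {R Z X : ℝ} (hR : 1 ≤ R) (hZ : 1 ≤ Z) (hX : 1 ≤ X) {κ ν : Eis} (hκ : Cp κ)
    (hν : IsPrim ν) (hνs : Squarefree ν) {Bs : Finset Eis} {c b : Eis → Eis → ℂ}
    (hc : ∀ B ∈ Bs, FS (c B))
    (hs : ∀ B ∈ Bs, ∀ D, c B D ≠ 0 → Squarefree (B * D) ∧ (nm D : ℝ) ≤ X ∧ IsCoprime (B * D) ν)
    {r : Eis} (hr : r ∈ S R) (hrν : IsCoprime r ν) :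
    ∑ B ∈ Bs, conj (sy r B) * ∑ d ∈ pb Z, b B d * ∑' D : Eis, c B D *
        conj (gs (κ * r * ν ^ 2 * D) d) =
      ∑ p ∈ (AJ ν R X ×ˢ S R).filter (fun p => (p.1.2.2.2.2 * p.1.2.2.2.1) * p.2 = r),
        Vj κ b c Bs X Z p.1 p.2 := by
  have e1 : ∀ B ∈ Bs, conj (sy r B) * ∑ d ∈ pb Z, b B d * ∑' D : Eis, c B D *
        conj (gs (κ * r * ν ^ 2 * D) d) =
      ∑ p ∈ (AJ ν R X ×ˢ S R).filter (fun p => (p.1.2.2.2.2 * p.1.2.2.2.1) * p.2 = r),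
        conj (sy ((p.1.2.2.2.2 * p.1.2.2.2.1) * p.2) B) * Uj κ (b B) (c B) X Z p.1 p.2 := by
    intro B hB
    rw [master3 hR hZ hX hκ hν hνs (hc B hB) (fun D hD => by
      obtain ⟨h1, h2, h3⟩ := hs B hB D hD
      exact ⟨h1.of_mul_right, h2, h3.of_mul_left_right⟩) hr hrν, Finset.mul_sum]
    refine Finset.sum_congr rfl fun p hp => ?_
    rw [(Finset.mem_filter.mp hp).2]
  rw [Finset.sum_congr rfl e1, Finset.sum_comm]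
  rfl

open Classical in
/-- the joint large sieve on a block, weight `WJ` -/
theorem block_J {ε : ℝ} (hε : 0 < ε) : ∃ K : ℝ, 0 < K ∧
    ∀ R Z X B1 : ℝ, 1 ≤ R → 1 ≤ Z → 1 ≤ X → 1 ≤ B1 → ∀ κ : Eis, Cp κ →
    ∀ (b c : Eis → Eis → ℂ) (Bs : Finset Eis) (n v : Eis) (i : ℕ)
      (y z : Eis), IsPrim n → IsPrim y → IsPrim z →
      (∀ B ∈ Bs, IsPrim B ∧ Squarefree B ∧ (nm B : ℝ) ≤ B1) →
      (∀ B ∈ Bs, ∀ D, c B D ≠ 0 → Squarefree (B * D) ∧ IsCoprime (B * D) n) →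
      ∑ s ∈ S R, (if (z * y) * s ∈ S R then ‖VJ κ b c Bs (bk X i) Z n v y z s‖ ^ 2 else 0) ≤
        K * (Z * B1) ^ ε * nm n * ∑ x ∈ bk X i, ∑ g ∈ S B1, WJ R (Z / (nm n : ℝ) ^ 3) B1 g x *
          ∑ B ∈ Bs, WbJ b c Z g B n x y z := by
  obtain ⟨K, hK, hLS⟩ := ls_J hε
  refine ⟨4 * K, by positivity,
    fun R Z X B1 hR hZ hX hB1 κ hκ b c Bs n v i y z hn hy hz hBs hc => ?_⟩
  have hR0 : (0 : ℝ) ≤ R := by linarith
  have hZ0 : (0 : ℝ) ≤ Z := by linarith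
  have hX0 : (0 : ℝ) ≤ X := by linarith
  have hB0 : (0 : ℝ) ≤ B1 := by linarith
  have hN1 : (1 : ℝ) ≤ nm n := nm_ge_one hn
  have hG1 : (1 : ℝ) ≤ 2 ^ i := one_le_pow₀ (by norm_num)
  have hG0 : (0 : ℝ) < 2 ^ i := by positivity
  have h := hLS R Z B1 (2 ^ i) hR hZ hB1 hG1 κ hκ b c Bs (bk X i) n v y z hn hy hz (fun x hx => by
      have hx1 := (mem_bk hX0).mp hx
      exact ⟨hx1.1.2.1, hx1.1.2.2, (bk_size hX0 hx).1⟩) hBs hc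
  refine h.trans ?_
  have e1 : ∑ g ∈ S B1, (nm g : ℝ) *
          (R + (Z / (nm n : ℝ) ^ 3 * B1 / (2 ^ i * (nm g : ℝ) ^ 2)) ^ 2) *
          ∑ B ∈ Bs, ∑ x ∈ bk X i, (nm x : ℝ) * WbJ b c Z g B n x y z =
      ∑ x ∈ bk X i, ∑ g ∈ S B1, ((nm x : ℝ) * ((nm g : ℝ) *
          (R + (Z / (nm n : ℝ) ^ 3 * B1 / (2 ^ i * (nm g : ℝ) ^ 2)) ^ 2))) *
          ∑ B ∈ Bs, WbJ b c Z g B n x y z := by
    rw [Finset.sum_comm]
    refine Finset.sum_congr rfl fun g _ => ?_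
    rw [Finset.sum_comm, Finset.mul_sum]
    refine Finset.sum_congr rfl fun x _ => ?_
    rw [← Finset.mul_sum]
    ring
  rw [e1]
  have e2 : ∑ x ∈ bk X i, ∑ g ∈ S B1, ((nm x : ℝ) * ((nm g : ℝ) *
          (R + (Z / (nm n : ℝ) ^ 3 * B1 / (2 ^ i * (nm g : ℝ) ^ 2)) ^ 2))) *
          ∑ B ∈ Bs, WbJ b c Z g B n x y z ≤
      4 * ∑ x ∈ bk X i, ∑ g ∈ S B1, WJ R (Z / (nm n : ℝ) ^ 3) B1 g x *
          ∑ B ∈ Bs, WbJ b c Z g B n x y z := by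
    rw [Finset.mul_sum]
    refine Finset.sum_le_sum fun x hx => ?_
    rw [Finset.mul_sum]
    refine Finset.sum_le_sum fun g hg => ?_
    rw [← mul_assoc (4 : ℝ)]
    refine mul_le_mul_of_nonneg_right ?_ (Finset.sum_nonneg fun B _ => WbJ_nonneg _ _ _ _ _ _ _ _ _)
    have hx1 := (mem_bk hX0).mp hx
    obtain ⟨s1, s2⟩ := bk_size hX0 hx
    have hx2 : (1 : ℝ) ≤ nm x := nm_ge_one hx1.1.2.1
    have hg1 : (1 : ℝ) ≤ nm g := nm_ge_one ((mem_S hB0).mp hg).2.1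
    unfold WJ
    have h5 : Z / (nm n : ℝ) ^ 3 * B1 / (2 ^ i * (nm g : ℝ) ^ 2) ≤
        2 * (Z / (nm n : ℝ) ^ 3 * B1 / ((nm x : ℝ) * (nm g : ℝ) ^ 2)) := by
      rw [← mul_div_assoc, div_le_div_iff₀ (by positivity) (by positivity)]
      have h6 : 0 ≤ Z / (nm n : ℝ) ^ 3 * B1 * (nm g : ℝ) ^ 2 := by positivity
      nlinarith
    have h7 : (Z / (nm n : ℝ) ^ 3 * B1 / (2 ^ i * (nm g : ℝ) ^ 2)) ^ 2 ≤
        4 * (Z / (nm n : ℝ) ^ 3 * B1 / ((nm x : ℝ) * (nm g : ℝ) ^ 2)) ^ 2 := by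
      refine (pow_le_pow_left₀ (by positivity) h5 2).trans (le_of_eq ?_)
      ring
    calc (nm x : ℝ) * ((nm g : ℝ) *
          (R + (Z / (nm n : ℝ) ^ 3 * B1 / (2 ^ i * (nm g : ℝ) ^ 2)) ^ 2))
        ≤ (nm x : ℝ) * ((nm g : ℝ) *
          (4 * (R + (Z / (nm n : ℝ) ^ 3 * B1 / ((nm x : ℝ) * (nm g : ℝ) ^ 2)) ^ 2))) := by
          gcongr
          linarith
      _ = _ := by ring
  have h0 : 0 ≤ K * (Z * B1) ^ ε * (nm n : ℝ) := by positivity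
  refine (mul_le_mul_of_nonneg_left e2 h0).trans (le_of_eq ?_)
  ring

set_option maxHeartbeats 1000000 in
open Classical in
/-- **(H1), joint form in `(B, d)`** -/
theorem H1J {ε : ℝ} (hε : 0 < ε) : ∃ C : ℝ, 1 ≤ C ∧ ∀ R Z X B1 : ℝ, 1 ≤ R → 1 ≤ Z → 1 ≤ X →
    1 ≤ B1 → ∀ κ ν : Eis, (∀ p : Eis, Prime p → IsPrim p → ¬ p ∣ κ) → IsPrim ν → Squarefree ν →
    ∀ (Bs : Finset Eis) (c b : Eis → Eis → ℂ),
    (∀ B ∈ Bs, IsPrim B ∧ Squarefree B ∧ (nm B : ℝ) ≤ B1) → (∀ B ∈ Bs, FS (c B)) →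
    (∀ B ∈ Bs, ∀ D, c B D ≠ 0 → Squarefree (B * D) ∧ (nm D : ℝ) ≤ X ∧ IsCoprime (B * D) ν) →
    ∑ r ∈ (S R).filter (fun r => IsCoprime r ν),
      ‖∑ B ∈ Bs, conj (sy r B) * ∑ d ∈ pb Z, b B d * ∑' D : Eis, c B D *
        conj (gs (κ * r * ν ^ 2 * D) d)‖ ^ 2 ≤
      C * (R * Z * X * nm ν * B1) ^ ε *
        ∑ n ∈ dvs ν, (nm n : ℝ) *
          ∑ g₂ ∈ S X, ∑ g₃ ∈ S X, ∑ g ∈ S B1, WJ R (Z / (nm n : ℝ) ^ 3) B1 g g₂ *
            ∑ B ∈ Bs, ∑ d ∈ (pb Z).filter (fun d => DN n g₂ g₃ d ∧ GB g B d),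
              (nm d : ℝ) * ‖b B d‖ ^ 2 * ‖CS (sub (c B) (g₂ * g₃)) d‖ ^ 2 := by
  set δ : ℝ := ε / 4 with hδ
  have hδ0 : 0 < δ := by rw [hδ]; linarith
  obtain ⟨K, hK, hLS⟩ := block_J hδ0
  obtain ⟨Ct, hCt1, hCt⟩ := tau_le_rpow hδ0
  obtain ⟨Ci, hCi1, hCi⟩ := nb_le hδ0
  refine ⟨max 1 (Ct ^ 2 * Ct ^ 3 * Ci * K * Ct ^ 2), le_max_left _ _,
    fun R Z X B1 hR hZ hX hB1 κ ν hκ hν hνs Bs c b hBs hc hs => ?_⟩
  have hR0 : (0 : ℝ) ≤ R := by linarith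
  have hZ0 : (0 : ℝ) ≤ Z := by linarith
  have hX0 : (0 : ℝ) ≤ X := by linarith
  have hB0 : (0 : ℝ) ≤ B1 := by linarith
  have hν1 : (1 : ℝ) ≤ nm ν := nm_ge_one hν
  set Sm : ℝ := ∑ n ∈ dvs ν, (nm n : ℝ) *
          ∑ g₂ ∈ S X, ∑ g₃ ∈ S X, ∑ g ∈ S B1, WJ R (Z / (nm n : ℝ) ^ 3) B1 g g₂ *
            ∑ B ∈ Bs, ∑ d ∈ (pb Z).filter (fun d => DN n g₂ g₃ d ∧ GB g B d),
              (nm d : ℝ) * ‖b B d‖ ^ 2 * ‖CS (sub (c B) (g₂ * g₃)) d‖ ^ 2 with hSm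
  have hSm0 : 0 ≤ Sm := by
    rw [hSm]
    refine Finset.sum_nonneg fun n _ => mul_nonneg (by positivity) ?_
    refine Finset.sum_nonneg fun x _ => Finset.sum_nonneg fun y _ => Finset.sum_nonneg fun g _ =>
      mul_nonneg (WJ_nonneg hR0 g x) ?_
    exact Finset.sum_nonneg fun _ _ => Finset.sum_nonneg fun _ _ => by positivity
  set W1 : ℝ := (Ct * (nm ν : ℝ) ^ δ) ^ 2 * (Ct * R ^ δ) ^ 3 * (Ci * X ^ δ) with hW1
  set LSB : ℝ := K * (Z * B1) ^ δ with hLSB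
  have hLSB0 : 0 ≤ LSB := by rw [hLSB]; positivity
  have hCt0 : 0 ≤ Ct := by linarith
  have hCi0 : 0 ≤ Ci := by linarith
  have hW10 : 0 ≤ W1 := by rw [hW1]; positivity
  have hstep1 : ∀ r ∈ (S R).filter (fun r => IsCoprime r ν),
      ‖∑ B ∈ Bs, conj (sy r B) * ∑ d ∈ pb Z, b B d * ∑' D : Eis, c B D *
        conj (gs (κ * r * ν ^ 2 * D) d)‖ ^ 2 ≤
      W1 * ∑ p ∈ (AJ ν R X ×ˢ S R).filter (fun p => (p.1.2.2.2.2 * p.1.2.2.2.1) * p.2 = r),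
        ‖Vj κ b c Bs X Z p.1 p.2‖ ^ 2 := by
    intro r hr
    rw [Finset.mem_filter] at hr
    rw [master4 hR hZ hX hκ hν hνs hc hs hr.1 hr.2]
    calc _ ≤ (∑ p ∈ (AJ ν R X ×ˢ S R).filter
            (fun p => (p.1.2.2.2.2 * p.1.2.2.2.1) * p.2 = r), ‖Vj κ b c Bs X Z p.1 p.2‖) ^ 2 :=
          pow_le_pow_left₀ (norm_nonneg _) (norm_sum_le _ _) 2
      _ ≤ _ := sq_sum_le_card_mul_sum_sq
      _ ≤ _ := ?_
    apply mul_le_mul_of_nonneg_right _ (Finset.sum_nonneg fun _ _ => by positivity)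
    refine (card_tuples hR hX hν hr.1).trans ?_
    obtain ⟨h1, h2, h3⟩ := (mem_S hR0).mp hr.1
    have t1 : (tau ν : ℝ) ≤ Ct * (nm ν : ℝ) ^ δ := hCt ν hν.ne_zero
    have t2 : (tau r : ℝ) ≤ Ct * R ^ δ := (hCt r h2.ne_zero).trans
      (mul_le_mul_of_nonneg_left (Real.rpow_le_rpow (by positivity) h1 hδ0.le) (by linarith))
    have t3 := hCi X hX
    rw [hW1]
    have t5 : (tau ν : ℝ) ^ 2 ≤ (Ct * (nm ν : ℝ) ^ δ) ^ 2 :=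
      pow_le_pow_left₀ (Nat.cast_nonneg _) t1 2
    have t6 : (tau r : ℝ) ^ 3 ≤ (Ct * R ^ δ) ^ 3 := pow_le_pow_left₀ (Nat.cast_nonneg _) t2 3
    exact mul_le_mul (mul_le_mul t5 t6 (by positivity) (by positivity)) t3 (Nat.cast_nonneg _)
      (by positivity)
  have hstep2 : ∑ r ∈ (S R).filter (fun r => IsCoprime r ν),
      ‖∑ B ∈ Bs, conj (sy r B) * ∑ d ∈ pb Z, b B d * ∑' D : Eis, c B D *
        conj (gs (κ * r * ν ^ 2 * D) d)‖ ^ 2 ≤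
      W1 * ∑ a ∈ AJ ν R X, ∑ s ∈ S R,
        (if (a.2.2.2.2 * a.2.2.2.1) * s ∈ S R then ‖Vj κ b c Bs X Z a s‖ ^ 2 else 0) := by
    refine (Finset.sum_le_sum hstep1).trans ?_
    rw [← Finset.mul_sum]
    apply mul_le_mul_of_nonneg_left _ hW10
    exact second_gen (R := R) _ (Finset.filter_subset _ _) (AJ ν R X)
      (fun a => a.2.2.2.2 * a.2.2.2.1) (fun a s => ‖Vj κ b c Bs X Z a s‖ ^ 2)
      (fun a s => by positivity)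
  have hstep3 : ∀ a ∈ AJ ν R X, ∑ s ∈ S R,
        (if (a.2.2.2.2 * a.2.2.2.1) * s ∈ S R then ‖Vj κ b c Bs X Z a s‖ ^ 2 else 0) ≤
      LSB * ∑ x ∈ bk X a.2.2.1, (nm a.1 : ℝ) *
        ∑ g ∈ S B1, WJ R (Z / (nm a.1 : ℝ) ^ 3) B1 g x *
          ∑ B ∈ Bs, WbJ b c Z g B a.1 x a.2.2.2.1 a.2.2.2.2 := by
    intro a ha
    rw [mem_AJ hν.ne_zero hR0 hX0] at ha
    obtain ⟨⟨h1, h2, h3, h4, h5⟩, h6⟩ := ha
    have h := hLS R Z X B1 hR hZ hX hB1 κ hκ b c Bs a.1 a.2.1 a.2.2.1 a.2.2.2.1 a.2.2.2.2 h1.1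
      h4.2.1 h5.2.1 hBs (fun B hB D hD => by
        obtain ⟨k1, k2, k3⟩ := hs B hB D hD
        exact ⟨k1, k3.of_isCoprime_of_dvd_right h1.2⟩)
    refine h.trans (le_of_eq ?_)
    rw [hLSB, ← Finset.mul_sum]
    ring
  have hT : ∀ d ∈ pb Z, (tau d : ℝ) ^ 2 ≤ (Ct * Z ^ δ) ^ 2 := by
    intro d hd
    obtain ⟨h1, h2⟩ := (mem_pb hZ0).mp hd
    have t2 : (tau d : ℝ) ≤ Ct * Z ^ δ := (hCt d h2.ne_zero).trans
      (mul_le_mul_of_nonneg_left (Real.rpow_le_rpow (by positivity) h1 hδ0.le) (by linarith))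
    exact pow_le_pow_left₀ (Nat.cast_nonneg _) t2 2
  have hstep4 : ∑ a ∈ AJ ν R X, ∑ x ∈ bk X a.2.2.1, (nm a.1 : ℝ) *
        ∑ g ∈ S B1, WJ R (Z / (nm a.1 : ℝ) ^ 3) B1 g x *
          ∑ B ∈ Bs, WbJ b c Z g B a.1 x a.2.2.2.1 a.2.2.2.2 ≤ (Ct * Z ^ δ) ^ 2 * Sm := by
    set f : Eis → Eis → Eis → Eis → ℝ := fun n x y z => (nm n : ℝ) *
        ∑ g ∈ S B1, WJ R (Z / (nm n : ℝ) ^ 3) B1 g x *
          ∑ B ∈ Bs, WbJ b c Z g B n x y z with hf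
    have hf0 : ∀ n x y z, 0 ≤ f n x y z := fun n x y z =>
      mul_nonneg (by positivity) (Finset.sum_nonneg fun g _ => mul_nonneg (WJ_nonneg hR0 g x)
        (Finset.sum_nonneg fun B _ => WbJ_nonneg _ _ _ _ _ _ _ _ _))
    have e0 := regroup (ν := ν) (R := R) (X := X) hX0 (fun n _ x y z => f n x y z)
    refine (le_of_eq e0.symm).trans ?_
    -- `v` is determined by `n`
    have e1 : ∑ a ∈ AA ν R X, f a.1 a.2.2.1 a.2.2.2.1 a.2.2.2.2 ≤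
        ∑ n ∈ dvs ν, ∑ x ∈ S X, ∑ y ∈ S X, ∑ z ∈ S R, f n x y z := by
      have e2 : ∑ n ∈ dvs ν, ∑ x ∈ S X, ∑ y ∈ S X, ∑ z ∈ S R, f n x y z =
          ∑ q ∈ dvs ν ×ˢ S X ×ˢ S X ×ˢ S R, f q.1 q.2.1 q.2.2.1 q.2.2.2 := by
        simp only [Finset.sum_product]
      rw [e2]
      have hinj : Set.InjOn (fun a : Ta => ((a.1, a.2.2.1, a.2.2.2.1, a.2.2.2.2) :
          Eis × Eis × Eis × Eis)) (AA ν R X) := by
        rintro ⟨a1, a2, a3, a4, a5⟩ ha ⟨b1, b2, b3, b4, b5⟩ hb h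
        rw [Finset.mem_coe, mem_AA hν.ne_zero hR0 hX0] at ha hb
        simp only [Prod.mk.injEq] at h ⊢
        obtain ⟨rfl, rfl, rfl, rfl⟩ := h
        refine ⟨rfl, ?_, rfl, rfl, rfl⟩
        exact mul_left_cancel₀ ha.1.1.1.ne_zero (ha.2.trans hb.2.symm)
      have e3 : ∑ a ∈ AA ν R X, f a.1 a.2.2.1 a.2.2.2.1 a.2.2.2.2 =
          ∑ q ∈ (AA ν R X).image (fun a : Ta => ((a.1, a.2.2.1, a.2.2.2.1, a.2.2.2.2) :
          Eis × Eis × Eis × Eis)), f q.1 q.2.1 q.2.2.1 q.2.2.2 := by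
        rw [Finset.sum_image hinj]
      rw [e3]
      refine Finset.sum_le_sum_of_subset_of_nonneg ?_ (fun q _ _ => hf0 _ _ _ _)
      intro q hq
      rw [Finset.mem_image] at hq
      obtain ⟨a, ha, rfl⟩ := hq
      rw [mem_AA hν.ne_zero hR0 hX0] at ha
      simp only [Finset.mem_product]
      rw [mem_dvs hν.ne_zero, mem_S hX0, mem_S hX0, mem_S hR0]
      exact ⟨ha.1.1, ha.1.2.2.1, ha.1.2.2.2.1, ha.1.2.2.2.2⟩
    refine e1.trans ?_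
    rw [hSm, Finset.mul_sum]
    refine Finset.sum_le_sum fun n hn => ?_
    have hn' := ((mem_dvs hν.ne_zero).mp hn).1
    have e5 : ∑ x ∈ S X, ∑ y ∈ S X, ∑ z ∈ S R, f n x y z = (nm n : ℝ) *
        ∑ x ∈ S X, ∑ y ∈ S X, ∑ g ∈ S B1, WJ R (Z / (nm n : ℝ) ^ 3) B1 g x *
          ∑ B ∈ Bs, ∑ z ∈ S R, WbJ b c Z g B n x y z := by
      rw [hf, Finset.mul_sum]
      refine Finset.sum_congr rfl fun x _ => ?_
      rw [Finset.mul_sum]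
      refine Finset.sum_congr rfl fun y _ => ?_
      rw [← Finset.mul_sum, Finset.sum_comm]
      congr 1
      refine Finset.sum_congr rfl fun g _ => ?_
      rw [← Finset.mul_sum, Finset.sum_comm]
    rw [e5]
    have h8 : ∑ x ∈ S X, ∑ y ∈ S X, ∑ g ∈ S B1, WJ R (Z / (nm n : ℝ) ^ 3) B1 g x *
          ∑ B ∈ Bs, ∑ z ∈ S R, WbJ b c Z g B n x y z ≤
        (Ct * Z ^ δ) ^ 2 * ∑ g₂ ∈ S X, ∑ g₃ ∈ S X, ∑ g ∈ S B1,
          WJ R (Z / (nm n : ℝ) ^ 3) B1 g g₂ *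
            ∑ B ∈ Bs, ∑ d ∈ (pb Z).filter (fun d => DN n g₂ g₃ d ∧ GB g B d),
              (nm d : ℝ) * ‖b B d‖ ^ 2 * ‖CS (sub (c B) (g₂ * g₃)) d‖ ^ 2 := by
      rw [Finset.mul_sum]
      refine Finset.sum_le_sum fun x hx => ?_
      rw [Finset.mul_sum]
      refine Finset.sum_le_sum fun y hy => ?_
      rw [Finset.mul_sum]
      refine Finset.sum_le_sum fun g _ => ?_
      have hx' := ((mem_S hX0).mp hx).2.1
      have hy' := ((mem_S hX0).mp hy).2.1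
      have h9 : ∑ B ∈ Bs, ∑ z ∈ S R, WbJ b c Z g B n x y z ≤ ∑ B ∈ Bs, (Ct * Z ^ δ) ^ 2 *
          ∑ d ∈ (pb Z).filter (fun d => DN n x y d ∧ GB g B d),
              (nm d : ℝ) * ‖b B d‖ ^ 2 * ‖CS (sub (c B) (x * y)) d‖ ^ 2 := by
        refine Finset.sum_le_sum fun B _ => ?_
        have h7 := div_sum_n (R := R) (Z := Z) hR hZ hn' hx' hy' hT (wJ b c g B x y)
          (wJ_nonneg b c g B x y)
        refine le_trans (le_of_eq ?_) (h7.trans (le_of_eq ?_))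
        · rfl
        · rw [← Finset.filter_filter, Finset.sum_filter (p := fun d => GB g B d)]
          rfl
      calc _ ≤ WJ R (Z / (nm n : ℝ) ^ 3) B1 g x * (∑ B ∈ Bs, (Ct * Z ^ δ) ^ 2 *
          ∑ d ∈ (pb Z).filter (fun d => DN n x y d ∧ GB g B d),
              (nm d : ℝ) * ‖b B d‖ ^ 2 * ‖CS (sub (c B) (x * y)) d‖ ^ 2) :=
            mul_le_mul_of_nonneg_left h9 (WJ_nonneg hR0 g x)
        _ = _ := by rw [← Finset.mul_sum]; ring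
    calc _ ≤ (nm n : ℝ) * _ := mul_le_mul_of_nonneg_left h8 (by positivity)
      _ = _ := by ring
  have hstep5 : ∑ r ∈ (S R).filter (fun r => IsCoprime r ν),
      ‖∑ B ∈ Bs, conj (sy r B) * ∑ d ∈ pb Z, b B d * ∑' D : Eis, c B D *
        conj (gs (κ * r * ν ^ 2 * D) d)‖ ^ 2 ≤
      W1 * (LSB * ((Ct * Z ^ δ) ^ 2 * Sm)) := by
    refine hstep2.trans (mul_le_mul_of_nonneg_left ?_ hW10)
    refine (Finset.sum_le_sum hstep3).trans ?_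
    rw [← Finset.mul_sum]
    exact mul_le_mul_of_nonneg_left hstep4 (by positivity)
  refine hstep5.trans ?_
  have hpow : ((nm ν : ℝ) ^ δ) ^ 2 * (R ^ δ) ^ 3 * X ^ δ * (Z * B1) ^ δ * (Z ^ δ) ^ 2 ≤
      (R * Z * X * nm ν * B1) ^ ε := by
    have a1 : (1 : ℝ) ≤ (nm ν : ℝ) ^ δ := Real.one_le_rpow hν1 hδ0.le
    have a2 : (1 : ℝ) ≤ R ^ δ := Real.one_le_rpow hR hδ0.le
    have a3 : (1 : ℝ) ≤ X ^ δ := Real.one_le_rpow hX hδ0.le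
    have a4 : (1 : ℝ) ≤ Z ^ δ := Real.one_le_rpow hZ hδ0.le
    have a5 : (1 : ℝ) ≤ B1 ^ δ := Real.one_le_rpow hB1 hδ0.le
    have e1 : (R * Z * X * nm ν * B1) ^ ε = (R ^ δ) ^ 4 * (Z ^ δ) ^ 4 * (X ^ δ) ^ 4 *
        ((nm ν : ℝ) ^ δ) ^ 4 * (B1 ^ δ) ^ 4 := by
      rw [Real.mul_rpow (by positivity) hB0, Real.mul_rpow (by positivity) (by positivity),
        Real.mul_rpow (by positivity) hX0, Real.mul_rpow hR0 hZ0]
      have h4 : ∀ t : ℝ, 0 ≤ t → t ^ ε = (t ^ δ) ^ 4 := by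
        intro t ht
        rw [← Real.rpow_natCast, ← Real.rpow_mul ht]
        congr 1
        rw [hδ]; push_cast; ring
      rw [h4 R hR0, h4 Z hZ0, h4 X hX0, h4 B1 hB0, h4 _ (by positivity)]
    rw [e1, Real.mul_rpow hZ0 hB0]
    set r1 := R ^ δ
    set z1 := Z ^ δ
    set x1 := X ^ δ
    set n1 := (nm ν : ℝ) ^ δ
    set b1 := B1 ^ δ
    have c1 : z1 ^ 3 ≤ z1 ^ 4 := pow_le_pow_right₀ a4 (by norm_num)
    have c2 : x1 ≤ x1 ^ 4 := by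
      calc x1 = x1 ^ 1 := (pow_one _).symm
        _ ≤ x1 ^ 4 := pow_le_pow_right₀ a3 (by norm_num)
    have c3 : n1 ^ 2 ≤ n1 ^ 4 := pow_le_pow_right₀ a1 (by norm_num)
    have c4 : r1 ^ 3 ≤ r1 ^ 4 := pow_le_pow_right₀ a2 (by norm_num)
    have c5 : b1 ≤ b1 ^ 4 := by
      calc b1 = b1 ^ 1 := (pow_one _).symm
        _ ≤ b1 ^ 4 := pow_le_pow_right₀ a5 (by norm_num)
    calc n1 ^ 2 * r1 ^ 3 * x1 * (z1 * b1) * z1 ^ 2 = r1 ^ 3 * z1 ^ 3 * x1 * n1 ^ 2 * b1 := by ring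
      _ ≤ r1 ^ 4 * z1 ^ 4 * x1 ^ 4 * n1 ^ 4 * b1 ^ 4 := by gcongr
  calc W1 * (LSB * ((Ct * Z ^ δ) ^ 2 * Sm))
      = (Ct ^ 2 * Ct ^ 3 * Ci * K * Ct ^ 2) *
        (((nm ν : ℝ) ^ δ) ^ 2 * (R ^ δ) ^ 3 * X ^ δ * (Z * B1) ^ δ * (Z ^ δ) ^ 2) *
        Sm := by
        rw [hW1, hLSB]; ring
    _ ≤ (max 1 (Ct ^ 2 * Ct ^ 3 * Ci * K * Ct ^ 2)) * (R * Z * X * nm ν * B1) ^ ε *
        Sm := by
        gcongr
        exact le_max_right _ _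

end Crest.Agent.R017.H1401
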