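import Crest.Agent.R017.E2y_440
import Crest.Agent.R017.E2DHv_401
import Crest.Agent.R017.H1Jd_401

/-!
# Row 17, block C70, leaf E2 (helper401): the joint dyadic large sieve `DHJ` from `H1J`

* `MoJ` : the moment functional of one block of `B` (exact common part `g` of `B` and `d`)
* `dhJ_H1J` : `DHJ` from bounds of `MoJ`
* `dhr_H1v` : `DHr` from `H1v` (only the shells in `Pj`)
* `CS_gcd` : the sum at `(g B', g d')` is the sum of the child `sub α g` at `(B', d')`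
-/

set_option autoImplicit false

noncomputable section

open Complex
open scoped ComplexConjugate

namespace Crest.Agent.R017.E2D401

open Crest.Agent.R012 Crest.Agent.R012.Eis Crest.Agent.R012.GaussLoc283
open Crest.Agent.R012.Mob705 hiding pb mem_pb
open Crest.Agent.R012.Div277
open Crest.Agent.R012.LS2 (S mem_S)
open Crest.Agent.R012.Weight600 (osc norm_osc)
open Crest.Agent.R017.PX764 (th Gh n6 cD)
open Crest.Agent.R017.X6C180 (Sg fA WF V1 cM n13 IX dl' om' GF)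
open Crest.Agent.R017.CM106 (sub CS FS)
open Crest.Agent.R017.H1401 (pb mem_pb DD DN WM HW WJ GB)
open Crest.Agent.R017.MoF106 (MoP)
open Crest.Agent.R017.E2440

/-- the moment functional of a set `Bs` of `B`, weight `WJ` at block size `U` -/
def MoJ (ν : Eis) (α : Eis → ℂ) (E τ : Eis) (X t R Z U : ℝ) (Bs : Finset Eis) : ℝ := by
  classical
  exact ∑ n ∈ dvs ν, (nm n : ℝ) * ∑ g₂ ∈ S X, ∑ g₃ ∈ S X, ∑ g ∈ S U,
    WJ R (Z / (nm n : ℝ) ^ 3) U g g₂ * ∑ B ∈ Bs,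
      ∑ d ∈ (pb Z).filter (fun d => (DN n g₂ g₃ d ∧ GB g B d) ∧ Z / 2 < nm d),
        ‖CS (sub (cT α E B τ t) (g₂ * g₃)) d‖ ^ 2

/-- the `B` of a block with at least `j + 1` shells -/
def Bj (X : ℝ) (N : Eis → ℕ) (u j : ℕ) : Finset Eis := by
  classical
  exact (S X).filter (fun B => blk B = u ∧ j < N B)

/-- **`DHJ` from `H1J`** -/
theorem dhJ_H1J {ε : ℝ} (hε : 0 < ε) : ∃ C : ℝ, 1 ≤ C ∧ ∀ {σ : Eis}, Sg σ → ∀ (J : ℕ) {R X : ℝ},
    1 ≤ R → 1 ≤ X → ∀ {E ν : Eis} {α : Eis → ℂ}, IsPrim ν → Squarefree ν → Cf α ν →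
    (∀ n, α n ≠ 0 → (nm n : ℝ) ≤ X) → ∀ {N : Eis → ℕ} {jm : ℕ → ℕ → Prop} {Mw : ℕ → ℕ → ℝ},
    (∀ u j : ℕ, jm u j → ∀ (i : IX σ) (t : ℝ),
      MoJ ν α E (dl' σ i) X t R (2 ^ j) (2 ^ u) (Bj X N u j) ≤ (1 + |t|) ^ J * Mw u j) →
    DHJ J R X σ E ν α N jm
      (fun u j => C * (R * 2 ^ j * X * nm ν * 2 ^ u) ^ ε * (2 / 2 ^ j) * (2 / 2 ^ u) * Mw u j) := by
  classical
  obtain ⟨C, hC1, hH⟩ := H1401.H1J hε
  refine ⟨C, hC1, fun {σ} hσ J {R X} hR hX {E ν α} hν hνs hα hαX {N jm Mw} hM => ?_⟩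
  intro u j huj i t b hb1 hb2
  have hX0 : (0 : ℝ) ≤ X := by linarith
  have hR0 : (0 : ℝ) ≤ R := by linarith
  set Z : ℝ := 2 ^ j with hZdef
  have hZ : 1 ≤ Z := one_le_pow₀ (by norm_num)
  have hZ0 : 0 < Z := by linarith
  set U : ℝ := 2 ^ u with hUdef
  have hU : 1 ≤ U := one_le_pow₀ (by norm_num)
  have hU0 : 0 < U := by linarith
  set Bs := Bj X N u j with hBs
  have hBm : ∀ B, B ∈ Bs ↔ B ∈ S X ∧ blk B = u ∧ j < N B := by
    intro B
    rw [hBs]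
    unfold Bj
    rw [Finset.mem_filter]
  have h1 := hH R Z X U hR hZ hX hU (dl' σ i * σ) ν (cp_dl hσ i) hν hνs Bs
    (fun B => cT α E B (dl' σ i) t) b (fun B hB => by
      obtain ⟨h1, h2, -⟩ := (hBm B).mp hB
      obtain ⟨h3, h4, h5⟩ := (mem_S hX0).mp h1
      refine ⟨h4, h5, ?_⟩
      rw [hUdef, ← h2]
      exact blk_le B) (fun B hB => by
      obtain ⟨h1, -, -⟩ := (hBm B).mp hB
      exact fs_cT' hα.fs ((mem_S hX0).mp h1).2.1 E _ t) (fun B hB D hD => by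
      have h0 : α (B * D) ≠ 0 := fun h => hD (by unfold cT; rw [h, zero_mul, zero_mul])
      have hND : nm D ≤ nm (B * D) := nm_le_of_dvd (hα.fs.prim _ h0).ne_zero (dvd_mul_left _ _)
      have hND' : (nm D : ℝ) ≤ nm (B * D) := by exact_mod_cast hND
      exact ⟨hα.sqf _ h0, hND'.trans (hαX _ h0), hα.cop _ h0⟩)
  have hL : ∀ r : Eis, ∑ B ∈ S X, conj (sy r B) * ∑ d ∈ pb Z, b B d * ∑' D : Eis,
        cT α E B (dl' σ i) t D * conj (gs (dl' σ i * σ * r * ν ^ 2 * D) d) =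
      ∑ B ∈ Bs, conj (sy r B) * ∑ d ∈ pb Z, b B d * ∑' D : Eis,
        cT α E B (dl' σ i) t D * conj (gs (dl' σ i * σ * r * ν ^ 2 * D) d) := by
    intro r
    symm
    refine Finset.sum_subset (fun B hB => ((hBm B).mp hB).1) fun B hB hB' => ?_
    have h0 : ∀ d, b B d = 0 := by
      intro d
      by_contra h
      obtain ⟨k1, k2, k3, k4⟩ := hb2 B d h
      exact hB' ((hBm B).mpr ⟨k1, k2, k3⟩)
    rw [Finset.sum_eq_zero (fun d _ => by rw [h0 d, zero_mul]), mul_zero]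
  have h2 : ∑ r ∈ (S R).filter (fun r => IsCoprime r ν ∧ R / 2 < nm r),
      ‖∑ B ∈ S X, conj (sy r B) * ∑ d ∈ pb Z, b B d * ∑' D : Eis,
        cT α E B (dl' σ i) t D * conj (gs (dl' σ i * σ * r * ν ^ 2 * D) d)‖ ^ 2 ≤
      ∑ r ∈ (S R).filter (fun r => IsCoprime r ν),
        ‖∑ B ∈ Bs, conj (sy r B) * ∑ d ∈ pb Z, b B d * ∑' D : Eis,
          cT α E B (dl' σ i) t D * conj (gs (dl' σ i * σ * r * ν ^ 2 * D) d)‖ ^ 2 := by
    rw [Finset.sum_congr rfl fun r _ => by rw [hL r]]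
    refine Finset.sum_le_sum_of_subset_of_nonneg (fun r hr => ?_) (fun _ _ _ => sq_nonneg _)
    rw [Finset.mem_filter] at hr ⊢
    exact ⟨hr.1, hr.2.1⟩
  have h3 : ∑ n ∈ dvs ν, (nm n : ℝ) * ∑ g₂ ∈ S X, ∑ g₃ ∈ S X, ∑ g ∈ S U,
      WJ R (Z / (nm n : ℝ) ^ 3) U g g₂ * ∑ B ∈ Bs,
        ∑ d ∈ (pb Z).filter (fun d => DN n g₂ g₃ d ∧ GB g B d),
          (nm d : ℝ) * ‖b B d‖ ^ 2 * ‖CS (sub (cT α E B (dl' σ i) t) (g₂ * g₃)) d‖ ^ 2 ≤
      ((2 / Z) * (2 / U)) * ((1 + |t|) ^ J * Mw u j) := by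
    refine le_trans ?_ (mul_le_mul_of_nonneg_left (hM u j huj i t) (by positivity))
    unfold MoJ
    rw [Finset.mul_sum]
    refine Finset.sum_le_sum fun n hn => ?_
    rw [← mul_assoc, mul_comm ((2 / Z) * (2 / U)) (nm n : ℝ), mul_assoc]
    refine mul_le_mul_of_nonneg_left ?_ (by positivity)
    rw [Finset.mul_sum]
    refine Finset.sum_le_sum fun g₂ _ => ?_
    rw [Finset.mul_sum]
    refine Finset.sum_le_sum fun g₃ _ => ?_
    rw [Finset.mul_sum]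
    refine Finset.sum_le_sum fun g _ => ?_
    rw [← mul_assoc, mul_comm ((2 / Z) * (2 / U)) (WJ _ _ _ _ _), mul_assoc]
    refine mul_le_mul_of_nonneg_left ?_ (H1401.WJ_nonneg hR0 g g₂)
    rw [Finset.mul_sum]
    refine Finset.sum_le_sum fun B hB => ?_
    rw [Finset.mul_sum]
    obtain ⟨k1, k2, k3⟩ := (hBm B).mp hB
    obtain ⟨k4, k5, k6⟩ := (mem_S hX0).mp k1
    have hNB : (1 : ℝ) ≤ nm B := one_le_nm k5.ne_zero
    have hsub : (pb Z).filter (fun d => (DN n g₂ g₃ d ∧ GB g B d) ∧ Z / 2 < nm d) ⊆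
        (pb Z).filter (fun d => DN n g₂ g₃ d ∧ GB g B d) := by
      intro d hd
      rw [Finset.mem_filter] at hd ⊢
      exact ⟨hd.1, hd.2.1⟩
    have hz : ∀ d ∈ (pb Z).filter (fun d => DN n g₂ g₃ d ∧ GB g B d),
        d ∉ (pb Z).filter (fun d => (DN n g₂ g₃ d ∧ GB g B d) ∧ Z / 2 < nm d) →
        (nm d : ℝ) * ‖b B d‖ ^ 2 * ‖CS (sub (cT α E B (dl' σ i) t) (g₂ * g₃)) d‖ ^ 2 = 0 := by
      intro d hd hd'
      rw [Finset.mem_filter] at hd
      have hbd : b B d = 0 := by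
        by_contra h
        exact hd' (Finset.mem_filter.mpr ⟨hd.1, hd.2, (hb2 B d h).2.2.2⟩)
      rw [hbd]; simp
    rw [← Finset.sum_subset hsub hz]
    refine Finset.sum_le_sum fun d hd => ?_
    rw [Finset.mem_filter, mem_pb hZ0.le] at hd
    obtain ⟨⟨hdZ, hd1⟩, hd3, hd4⟩ := hd
    have hNd : (1 : ℝ) ≤ nm d := one_le_nm hd1.ne_zero
    refine mul_le_mul_of_nonneg_right ?_ (sq_nonneg _)
    have e5 : ((nm B : ℝ) ^ (-(1 : ℝ) / 2)) ^ 2 = (nm B : ℝ)⁻¹ := by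
      rw [← Real.rpow_natCast, ← Real.rpow_mul (by linarith)]
      norm_num
      exact Real.rpow_neg_one _
    calc (nm d : ℝ) * ‖b B d‖ ^ 2 ≤ nm d * ((nm B : ℝ) ^ (-(1 : ℝ) / 2) * (nm d : ℝ)⁻¹) ^ 2 := by
          refine mul_le_mul_of_nonneg_left ?_ (by positivity)
          exact pow_le_pow_left₀ (norm_nonneg _) (hb1 B d) 2
      _ = (nm d : ℝ)⁻¹ * (nm B : ℝ)⁻¹ := by
          rw [mul_pow, e5]
          field_simp
      _ ≤ (2 / Z) * (2 / U) := by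
          have a1 : (nm d : ℝ)⁻¹ ≤ 2 / Z := by
            rw [inv_eq_one_div, div_le_div_iff₀ (by linarith) hZ0]
            linarith
          have a2 : (nm B : ℝ)⁻¹ ≤ 2 / U := by
            have h6 := blk_lt k5.ne_zero
            rw [k2, ← hUdef] at h6
            rw [inv_eq_one_div, div_le_div_iff₀ (by linarith) hU0]
            linarith
          exact mul_le_mul a1 a2 (by positivity) (by positivity)
  refine h2.trans (h1.trans ?_)
  refine (mul_le_mul_of_nonneg_left h3 (by positivity)).trans (le_of_eq ?_)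
  ring

/-- **`DHr` from `H1v`** -/
theorem dhr_H1v {ε : ℝ} (hε : 0 < ε) : ∃ C : ℝ, 1 ≤ C ∧ ∀ {σ : Eis}, Sg σ → ∀ (J : ℕ) {R X : ℝ},
    1 ≤ R → 1 ≤ X → ∀ {E ν : Eis} {α : Eis → ℂ}, IsPrim ν → Squarefree ν → Cf α ν →
    (∀ n, α n ≠ 0 → (nm n : ℝ) ≤ X) → ∀ {N : Eis → ℕ} {Pj : Eis → ℕ → Prop} {Mw : Eis → ℕ → ℝ},
    (∀ B ∈ S X, ∀ (i : IX σ) (t : ℝ) (j : ℕ), j < N B → Pj B j →
      ∑ n ∈ dvs ν, (nm n : ℝ) * MoP α E B (dl' σ i) X t (2 ^ j) (WM R (2 ^ j / (nm n : ℝ) ^ 3))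
        (fun g₂ g₃ d => DN n g₂ g₃ d ∧ (2 : ℝ) ^ j / 2 < nm d) ≤ (1 + |t|) ^ J * Mw B j) →
    DHr J R X σ E ν α N Pj
      (fun B j => C * (R * 2 ^ j * X * nm ν) ^ ε * (2 / 2 ^ j) * Mw B j) := by
  classical
  obtain ⟨C, hC1, hH⟩ := H1401.H1v hε
  refine ⟨C, hC1, fun {σ} hσ J {R X} hR hX {E ν α} hν hνs hα hαX {N Pj Mw} hM => ?_⟩
  intro B hB i t j hj hPj b hb1 hb2
  have hX0 : (0 : ℝ) ≤ X := by linarith
  have hR0 : (0 : ℝ) ≤ R := by linarith
  obtain ⟨hBX, hB1, hBs⟩ := (mem_S hX0).mp hB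
  set Z : ℝ := 2 ^ j with hZdef
  have hZ : 1 ≤ Z := one_le_pow₀ (by norm_num)
  have hZ0 : 0 < Z := by linarith
  have h1 := hH R Z X hR hZ hX (dl' σ i * σ) ν (cp_dl hσ i) hν hνs (cT α E B (dl' σ i) t) b
    (fs_cT' hα.fs hB1 E _ t) (fun D hD => by
      have h0 : α (B * D) ≠ 0 := fun h => hD (by unfold cT; rw [h, zero_mul, zero_mul])
      have hND : nm D ≤ nm (B * D) := nm_le_of_dvd (hα.fs.prim _ h0).ne_zero (dvd_mul_left _ _)
      have hND' : (nm D : ℝ) ≤ nm (B * D) := by exact_mod_cast hND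
      exact ⟨(hα.sqf _ h0).of_mul_right, hND'.trans (hαX _ h0), (hα.cop _ h0).of_mul_left_right⟩)
  have h2 : ∑ r ∈ (S R).filter (fun r => IsCoprime r ν ∧ R / 2 < nm r),
      ‖∑ d ∈ pb Z, b d * ∑' D : Eis, cT α E B (dl' σ i) t D *
        conj (gs (dl' σ i * σ * r * ν ^ 2 * D) d)‖ ^ 2 ≤
      ∑ r ∈ (S R).filter (fun r => IsCoprime r ν),
        ‖∑ d ∈ pb Z, b d * ∑' D : Eis, cT α E B (dl' σ i) t D *
          conj (gs (dl' σ i * σ * r * ν ^ 2 * D) d)‖ ^ 2 := by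
    refine Finset.sum_le_sum_of_subset_of_nonneg (fun r hr => ?_) (fun _ _ _ => sq_nonneg _)
    rw [Finset.mem_filter] at hr ⊢
    exact ⟨hr.1, hr.2.1⟩
  have h3 : ∑ n ∈ dvs ν, (nm n : ℝ) * ∑ g₂ ∈ S X, ∑ g₃ ∈ S X, WM R (Z / (nm n : ℝ) ^ 3) g₂ g₃ *
      ∑ d ∈ (pb Z).filter (DN n g₂ g₃),
        (nm d : ℝ) * ‖b d‖ ^ 2 * ‖CS (sub (cT α E B (dl' σ i) t) (g₂ * g₃)) d‖ ^ 2 ≤
      (2 / Z) * ((1 + |t|) ^ J * Mw B j) := by
    refine le_trans ?_ (mul_le_mul_of_nonneg_left (hM B hB i t j hj hPj) (by positivity))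
    unfold MoP
    rw [Finset.mul_sum]
    refine Finset.sum_le_sum fun n hn => ?_
    rw [← mul_assoc, mul_comm (2 / Z) (nm n : ℝ), mul_assoc]
    refine mul_le_mul_of_nonneg_left ?_ (by positivity)
    rw [Finset.mul_sum]
    refine Finset.sum_le_sum fun g₂ _ => ?_
    rw [Finset.mul_sum]
    refine Finset.sum_le_sum fun g₃ _ => ?_
    rw [← mul_assoc, mul_comm (2 / Z) (WM R (2 ^ j / (nm n : ℝ) ^ 3) g₂ g₃), mul_assoc]
    refine mul_le_mul_of_nonneg_left ?_ (H1401.WM_nonneg hR0 (by positivity) g₂ g₃)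
    rw [Finset.mul_sum]
    have hsub : (pb Z).filter (fun d => DN n g₂ g₃ d ∧ (2 : ℝ) ^ j / 2 < nm d) ⊆
        (pb Z).filter (DN n g₂ g₃) := by
      intro d hd
      rw [Finset.mem_filter] at hd ⊢
      exact ⟨hd.1, hd.2.1⟩
    have hz : ∀ d ∈ (pb Z).filter (DN n g₂ g₃),
        d ∉ (pb Z).filter (fun d => DN n g₂ g₃ d ∧ (2 : ℝ) ^ j / 2 < nm d) →
        (nm d : ℝ) * ‖b d‖ ^ 2 * ‖CS (sub (cT α E B (dl' σ i) t) (g₂ * g₃)) d‖ ^ 2 = 0 := by
      intro d hd hd'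
      rw [Finset.mem_filter] at hd
      have hbd : b d = 0 := by
        by_contra h
        exact hd' (Finset.mem_filter.mpr ⟨hd.1, hd.2, hb2 d h⟩)
      rw [hbd]; simp
    rw [← Finset.sum_subset hsub hz]
    have hfin : ∑ d ∈ (pb Z).filter (fun d => DN n g₂ g₃ d ∧ (2 : ℝ) ^ j / 2 < nm d),
        (nm d : ℝ) * ‖b d‖ ^ 2 * ‖CS (sub (cT α E B (dl' σ i) t) (g₂ * g₃)) d‖ ^ 2 ≤
        ∑ d ∈ (pb Z).filter (fun d => DN n g₂ g₃ d ∧ (2 : ℝ) ^ j / 2 < nm d),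
          (2 / Z) * ‖CS (sub (cT α E B (dl' σ i) t) (g₂ * g₃)) d‖ ^ 2 := by
      refine Finset.sum_le_sum fun d hd => ?_
      rw [Finset.mem_filter, mem_pb hZ0.le] at hd
      obtain ⟨⟨hdZ, hd1⟩, hd3, hd4⟩ := hd
      have hNd : (1 : ℝ) ≤ nm d := one_le_nm hd1.ne_zero
      refine mul_le_mul_of_nonneg_right ?_ (sq_nonneg _)
      calc (nm d : ℝ) * ‖b d‖ ^ 2 ≤ nm d * ((nm d : ℝ)⁻¹) ^ 2 := by
            refine mul_le_mul_of_nonneg_left ?_ (by positivity)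
            exact pow_le_pow_left₀ (norm_nonneg _) (hb1 d) 2
        _ = (nm d : ℝ)⁻¹ := by field_simp
        _ ≤ 2 / Z := by
            rw [inv_eq_one_div, div_le_div_iff₀ (by linarith) hZ0]
            linarith
    refine hfin.trans (le_of_eq ?_)
    refine Finset.sum_congr ?_ fun _ _ => rfl
    ext d
    simp only [Finset.mem_filter]
    rfl
  refine h2.trans (h1.trans ?_)
  refine (mul_le_mul_of_nonneg_left h3 (by positivity)).trans (le_of_eq ?_)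
  ring


lemma conj_sy_self {g m : Eis} (hg : IsPrim g) (h : IsCoprime m g) :
    conj (sy m g) * sy m g = 1 := by
  have h1 : sy m g ^ 3 = 1 := Gauss880.syG.cube m g hg h
  rw [← PMB401.sy_sq hg, ← pow_succ, h1]

/-- **the child**: at `B = g B'`, `d = g d'` the common part `g` disappears -/
theorem CS_gcd {α : Eis → ℂ} (hα : FS α) (hs : ∀ n, α n ≠ 0 → Squarefree n) {g B' d' : Eis}
    (hg : IsPrim g) (hB : IsPrim B') (E τ h : Eis) (t : ℝ) (hh : IsPrim h) :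
    CS (sub (cT α E (g * B') τ t) h) (g * d') =
      conj (sy h g) * CS (sub (cT (sub α g) E B' τ t) h) d' := by
  unfold CS
  rw [← tsum_mul_left]
  refine tsum_congr fun m => ?_
  show cT α E (g * B') τ t (h * m) * sy (g * d') m =
    conj (sy h g) * (cT (sub α g) E B' τ t (h * m) * sy d' m)
  unfold cT
  show α (g * B' * (h * m)) * (sy E (h * m) * conj (sy (h * m) (g * B'))) *
      (sy τ (h * m) * osc t (-Real.log (nm (h * m)))) * sy (g * d') m =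
    conj (sy h g) * (α (g * (B' * (h * m))) * (sy E (h * m) * conj (sy (h * m) B')) *
      (sy τ (h * m) * osc t (-Real.log (nm (h * m)))) * sy d' m)
  by_cases h0 : α (g * (B' * (h * m))) = 0
  · have h0' : α (g * B' * (h * m)) = 0 := by rw [mul_assoc]; exact h0
    rw [h0, h0']; ring
  · have hp := hα.prim _ h0
    have hm : IsPrim m := ((hp.of_mul_left hg).of_mul_left hB).of_mul_left hh
    have hsq := hs _ h0
    have hgm : IsCoprime m g := by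
      have h5 : Squarefree (m * g) := hsq.squarefree_of_dvd ⟨B' * h, by ring⟩
      exact (squarefree_mul_iff.mp h5).1.isCoprime
    have e1 : sy (h * m) (g * B') = (sy h g * sy m g) * sy (h * m) B' := by
      rw [syAx.mul_right _ _ _ hg hB, syAx.mul_left h m g hg]
    have e2 : sy (g * d') m = sy m g * sy d' m := by
      rw [syAx.mul_left _ _ _ hm, syAx.recip g m hg hm]
    have e3 := conj_sy_self hg hgm
    rw [e1, e2, map_mul, map_mul, mul_assoc g B' (h * m)]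
    calc α (g * (B' * (h * m))) * (sy E (h * m) * (conj (sy h g) * conj (sy m g) *
          conj (sy (h * m) B'))) * (sy τ (h * m) * osc t (-Real.log (nm (h * m)))) *
          (sy m g * sy d' m)
        = (conj (sy m g) * sy m g) * (conj (sy h g) * (α (g * (B' * (h * m))) *
          (sy E (h * m) * conj (sy (h * m) B')) *
          (sy τ (h * m) * osc t (-Real.log (nm (h * m)))) * sy d' m)) := by ring
      _ = _ := by rw [e3, one_mul]

lemma norm_CS_gcd_le {α : Eis → ℂ} (hα : FS α) (hs : ∀ n, α n ≠ 0 → Squarefree n) {g B' d' : Eis}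
    (hg : IsPrim g) (hB : IsPrim B') (E τ h : Eis) (t : ℝ) (hh : IsPrim h) :
    ‖CS (sub (cT α E (g * B') τ t) h) (g * d')‖ ≤ ‖CS (sub (cT (sub α g) E B' τ t) h) d'‖ := by
  rw [CS_gcd hα hs hg hB E τ h t hh, norm_mul, RCLike.norm_conj]
  exact mul_le_of_le_one_left (norm_nonneg _) (norm_sy_le1 hg)

end Crest.Agent.R017.E2D401
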