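import Crest.Agent.R017.E2DJ_401

/-!
# Row 17, block C70, leaf E2 (helper401): the block moment in terms of the children `sub α g`

* `inner_le` : for fixed `g`, the sum over `(B, d)` with exact common part `g` is at most the sum
  over `(B', d')` for the child `sub α g`
* `MoJ_le` : the functional `MoJ`
-/

set_option autoImplicit false

noncomputable section

open Complex
open scoped ComplexConjugate

namespace Crest.Agent.R017.E2D401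

open Crest.Agent.R012 Crest.Agent.R012.Eis Crest.Agent.R012.GaussLoc283
open Crest.Agent.R012.Mob705 hiding pb mem_pb
open Crest.Agent.R012.Div277
open Crest.Agent.R012.LS2 (S mem_S)
open Crest.Agent.R012.Weight600 (osc norm_osc)
open Crest.Agent.R017.CM106 (sub CS FS)
open Crest.Agent.R017.H1401 (pb mem_pb DD DN WM HW WJ GB)
open Crest.Agent.R017.MoF106 (MoP)
open Crest.Agent.R017.E2440

lemma coprime_sq {g d' x : Eis} (hg : Squarefree g) (hc : IsCoprime g d') (h : x ^ 2 ∣ g * d') :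
    IsCoprime g x := by
  refine isCoprime_of_prime_dvd (fun h0 => hg.ne_zero h0.1) fun p hp h1 h2 => ?_
  obtain ⟨g', rfl⟩ := h1
  have h3 : p ^ 2 ∣ p * g' * d' := (pow_dvd_pow_of_dvd h2 2).trans h
  have h4 : p ∣ g' * d' := by
    rw [pow_two, mul_assoc] at h3
    exact (mul_dvd_mul_iff_left hp.ne_zero).mp h3
  rcases hp.dvd_or_dvd h4 with h5 | h5
  · obtain ⟨g'', rfl⟩ := h5
    exact hp.not_isUnit (hg p ⟨g'', by ring⟩)
  · exact hp.not_isUnit (hc.isUnit_of_dvd' (dvd_mul_right p g') h5)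

/-- the cube part divides the cofactor -/
lemma dn_dvd {n g₂ g₃ g d' : Eis} (hg : Squarefree g) (hc : IsCoprime g d')
    (h : DN n g₂ g₃ (g * d')) : n ^ 3 * (g₂ ^ 2 * g₃ ^ 3) ∣ d' := by
  have h1 := h.dvd
  have c1 : IsCoprime g n := coprime_sq hg hc
    (dvd_trans ⟨n * (g₂ ^ 2 * g₃ ^ 3), by ring⟩ h1)
  have c2 : IsCoprime g g₂ := coprime_sq hg hc
    (dvd_trans ⟨n ^ 3 * g₃ ^ 3, by ring⟩ h1)
  have c3 : IsCoprime g g₃ := coprime_sq hg hc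
    (dvd_trans ⟨g₃ * (n ^ 3 * g₂ ^ 2), by ring⟩ h1)
  have c4 : IsCoprime (n ^ 3 * (g₂ ^ 2 * g₃ ^ 3)) g :=
    (c1.pow_right.mul_right (c2.pow_right.mul_right c3.pow_right)).symm
  exact c4.dvd_of_dvd_mul_left h1

open Classical in
/-- **fixed `g`** -/
theorem inner_le {α : Eis → ℂ} (hα : FS α) (hs : ∀ n, α n ≠ 0 → Squarefree n)
    {X Z : ℝ} (hX : 0 ≤ X) (hZ : 0 ≤ Z) (E τ : Eis) (t : ℝ) {Bs : Finset Eis} (hBs : ∀ B ∈ Bs, B ∈ S X)
    {g n g₂ g₃ : Eis} (hg : IsPrim g) (hgs : Squarefree g) (h2 : IsPrim g₂) (h3 : IsPrim g₃) :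
    ∑ B ∈ Bs, ∑ d ∈ (pb Z).filter (fun d => (DN n g₂ g₃ d ∧ GB g B d) ∧ Z / 2 < nm d),
        ‖CS (sub (cT α E B τ t) (g₂ * g₃)) d‖ ^ 2 ≤
      ∑ B' ∈ (S X).filter (fun B' => g * B' ∈ Bs),
        ∑ d' ∈ (pb (Z / nm g)).filter (fun d' => n ^ 3 * (g₂ ^ 2 * g₃ ^ 3) ∣ d' ∧
          IsCoprime B' d' ∧ Z / (2 * nm g) < nm d'),
          ‖CS (sub (cT (sub α g) E B' τ t) (g₂ * g₃)) d'‖ ^ 2 := by
  have hg1 : (1 : ℝ) ≤ nm g := one_le_nm hg.ne_zero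
  have hg0 : (0 : ℝ) < nm g := by linarith
  -- only `B` divisible by `g`
  have e1 : ∑ B ∈ Bs, ∑ d ∈ (pb Z).filter (fun d => (DN n g₂ g₃ d ∧ GB g B d) ∧ Z / 2 < nm d),
        ‖CS (sub (cT α E B τ t) (g₂ * g₃)) d‖ ^ 2 =
      ∑ B ∈ Bs.filter (fun B => g ∣ B),
        ∑ d ∈ (pb Z).filter (fun d => (DN n g₂ g₃ d ∧ GB g B d) ∧ Z / 2 < nm d),
        ‖CS (sub (cT α E B τ t) (g₂ * g₃)) d‖ ^ 2 := by
    symm
    refine Finset.sum_subset (Finset.filter_subset _ _) fun B hB hB' => ?_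
    refine Finset.sum_eq_zero fun d hd => ?_
    exfalso
    rw [Finset.mem_filter] at hd
    obtain ⟨B', d', k1, -⟩ := hd.2.1.2
    exact hB' (Finset.mem_filter.mpr ⟨hB, ⟨B', k1⟩⟩)
  rw [e1]
  set T := (S X).filter (fun B' => g * B' ∈ Bs) with hT
  have e2 : Bs.filter (fun B => g ∣ B) ⊆ T.image (fun B' => g * B') := by
    intro B hB
    rw [Finset.mem_filter] at hB
    obtain ⟨hB1, ⟨B', rfl⟩⟩ := hB
    obtain ⟨k1, k2, k3⟩ := (mem_S hX).mp (hBs _ hB1)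
    rw [Finset.mem_image]
    refine ⟨B', ?_, rfl⟩
    rw [hT, Finset.mem_filter, mem_S hX]
    refine ⟨⟨le_trans ?_ k1, k2.of_mul_left hg, k3.of_mul_right⟩, hB1⟩
    exact_mod_cast nm_le_of_dvd k2.ne_zero (dvd_mul_left B' g)
  refine (Finset.sum_le_sum_of_subset_of_nonneg e2 fun _ _ _ =>
    Finset.sum_nonneg fun _ _ => sq_nonneg _).trans ?_
  rw [Finset.sum_image (fun a _ b _ h => mul_left_cancel₀ hg.ne_zero h)]
  refine Finset.sum_le_sum fun B' hB' => ?_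
  rw [hT, Finset.mem_filter, mem_S hX] at hB'
  obtain ⟨⟨k1, k2, k3⟩, k4⟩ := hB'
  set D := (pb (Z / nm g)).filter (fun d' => n ^ 3 * (g₂ ^ 2 * g₃ ^ 3) ∣ d' ∧
          IsCoprime B' d' ∧ Z / (2 * nm g) < nm d') with hD
  have e3 : (pb Z).filter (fun d => (DN n g₂ g₃ d ∧ GB g (g * B') d) ∧ Z / 2 < nm d) ⊆
      D.image (fun d' => g * d') := by
    intro d hd
    rw [Finset.mem_filter, mem_pb hZ] at hd
    obtain ⟨⟨m1, m2⟩, ⟨m3, ⟨B'', d', m4, rfl, m5, m6⟩⟩, m7⟩ := hd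
    have m8 : B'' = B' := (mul_left_cancel₀ hg.ne_zero m4).symm
    subst m8
    rw [nm_mul] at m1 m7
    push_cast at m1 m7
    rw [Finset.mem_image]
    refine ⟨d', ?_, rfl⟩
    rw [hD, Finset.mem_filter, mem_pb (by positivity)]
    refine ⟨⟨?_, m2.of_mul_left hg⟩, dn_dvd hgs m6 m3, m5.of_mul_right_right, ?_⟩
    · rw [le_div_iff₀ hg0]
      linarith
    · rw [div_lt_iff₀ (by positivity)]
      linarith
  refine (Finset.sum_le_sum_of_subset_of_nonneg e3 fun _ _ _ => sq_nonneg _).trans ?_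
  rw [Finset.sum_image (fun a _ b _ h => mul_left_cancel₀ hg.ne_zero h)]
  refine Finset.sum_le_sum fun d' _ => ?_
  exact pow_le_pow_left₀ (norm_nonneg _)
    (norm_CS_gcd_le hα hs hg k2 E τ (g₂ * g₃) t (h2.mul h3)) 2

/-- the pair moment of the child `sub α g` -/
def MoC2 (α : Eis → ℂ) (E τ : Eis) (X t Z : ℝ) (Bs : Finset Eis) (g n g₂ g₃ : Eis) : ℝ := by
  classical
  exact ∑ B' ∈ (S X).filter (fun B' => g * B' ∈ Bs),
        ∑ d' ∈ (pb (Z / nm g)).filter (fun d' => n ^ 3 * (g₂ ^ 2 * g₃ ^ 3) ∣ d' ∧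
          IsCoprime B' d' ∧ Z / (2 * nm g) < nm d'),
          ‖CS (sub (cT (sub α g) E B' τ t) (g₂ * g₃)) d'‖ ^ 2

/-- **the block moment through the children** -/
theorem MoJ_le {α : Eis → ℂ} (hα : FS α) (hs : ∀ n, α n ≠ 0 → Squarefree n)
    {X Z R U : ℝ} (hX : 0 ≤ X) (hZ : 0 ≤ Z) (hR : 0 ≤ R) (hU : 0 ≤ U) (ν E τ : Eis) (t : ℝ)
    {Bs : Finset Eis} (hBs : ∀ B ∈ Bs, B ∈ S X) :
    MoJ ν α E τ X t R Z U Bs ≤ ∑ n ∈ dvs ν, (nm n : ℝ) * ∑ g₂ ∈ S X, ∑ g₃ ∈ S X, ∑ g ∈ S U,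
      WJ R (Z / (nm n : ℝ) ^ 3) U g g₂ * MoC2 α E τ X t Z Bs g n g₂ g₃ := by
  classical
  unfold MoJ MoC2
  refine Finset.sum_le_sum fun n _ => mul_le_mul_of_nonneg_left ?_ (by positivity)
  refine Finset.sum_le_sum fun g₂ h2 => Finset.sum_le_sum fun g₃ h3 =>
    Finset.sum_le_sum fun g hg => ?_
  refine mul_le_mul_of_nonneg_left ?_ (H1401.WJ_nonneg hR g g₂)
  obtain ⟨-, k1, k2⟩ := (mem_S hU).mp hg
  exact inner_le hα hs hX hZ E τ t hBs k1 k2 ((mem_S hX).mp h2).2.1 ((mem_S hX).mp h3).2.1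

end Crest.Agent.R017.E2D401
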