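import Crest.Agent.R017.P10Sa_764

/-!
# Row 17, T.4 (helper764): the cross error, level form

* `RPb` : 146's `RPg`, blocks with `Lo < nm δ ^ 2 * V < 2 Z` only;  `RPb_Qs`
* `crossXb`, `crossSb` : the two-scale cross error with the R-functional of the level
* `LoL`, `JL` : the dyadic levels;  `sum_JL`, `StE_JL`, `X2_JL`, `cross_JL`
-/

set_option autoImplicit false
set_option linter.unusedSectionVars false

noncomputable section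

open Finset MeasureTheory
open scoped ComplexConjugate Classical

namespace Crest.Agent.R017.I1K764

open Crest.Agent.R012 Crest.Agent.R012.Eis Crest.Agent.R012.MC Crest.Agent.R012.Gauss880
open Crest.Agent.R012.LS2 (S mem_S)
open Crest.Agent.R012.Mob705 (pdiv mem_pdiv kap0 mu PE)
open Crest.Agent.R012.Weight600 (pw)
open Crest.Agent.R017.CM106 (CS FS TG)
open Crest.Agent.R017.C70
open Crest.Agent.R017.HP842 (Pc pc sqc alL KS Ker)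
open Crest.Agent.R017.B770
open Crest.Agent.R017.FE47 (PU cx)
open Crest.Agent.R017.Prov71
open Crest.Agent.R017.Leg381 (Pf alF SF LF natl alF_natl)
open Crest.Agent.R017.RG64 (FS_alF Ht one_le_Ht)
open Crest.Agent.R017.E1551 hiding tau Dg
open Crest.Agent.R017.E2440 (StE TE Fh Jb Qs)
open Crest.Agent.R017.LB48 (CrP GrP)
open Crest.Agent.R017.LBx48 (R2 neb sum_blk Jb_empty sqrt_mul_le prim_of_S)
open Crest.Agent.R017.Rough381 (VF)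
open Crest.Agent.R017.X6C180 (n13 cM GF)
open Crest.Agent.R017.WDec180 (WD sc sc_pos E2e cross_ex)
open Crest.Agent.R017.Ex385 (CrQ)
open Crest.Agent.R017.PX764 (Dk)
open Crest.Agent.R017.LegK545 (VK SFK JBK)
open Crest.Agent.R017.RX241 (Md Nb Nb_nonneg BJ BJ_le JB_x_le)
open Crest.Agent.R017.ExT764 (PBh ext_num num_L')
open Crest.Agent.R017.End699 (HC)
open Crest.Agent.R017.Sup271 (NPm)
open Crest.Agent.R017.I1146

/-! ### the R-functional of one level -/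

/-- the blocks of a level -/
def nebL (δ : Eis) (Z Lo : ℝ) (I : ℕ) : Finset ℕ :=
  (neb δ Z Z I).filter (fun j => Lo < (nm δ : ℝ) ^ 2 * (Z / 2 ^ j))

/-- **the R-functional of E2 with level weights, one level** (`Lo < nm δ ^ 2 V < 2 Z`) -/
def RPb (ρ : Eis → Eis → ℝ → ℝ) (α : Eis → ℂ) (κ : ℝ) (F : ℝ → ℂ) (D : Finset Eis) (I : ℕ)
    (E0 Z Lo : ℝ) : ℝ :=
  ∑ δ ∈ D, ∑ i ∈ nebL δ Z Lo I, ∑ e ∈ S E0,
    (κ ^ (-(2 / 3) : ℝ) * (Z / 2 ^ i) ^ (1 / 3 : ℝ) / ρ δ e (Z / 2 ^ i)) *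
      R2 α κ F δ e (Z / 2 ^ i) ^ 2

lemma RPb_nonneg {ρ : Eis → Eis → ℝ → ℝ} {c : ℝ} (hρ : RW ρ c) {κ Z : ℝ} (hκ : 0 ≤ κ)
    (hZ : 0 ≤ Z) (α : Eis → ℂ) (F : ℝ → ℂ) (D : Finset Eis) (I : ℕ) (E0 Lo : ℝ) :
    0 ≤ RPb ρ α κ F D I E0 Z Lo := by
  unfold RPb
  refine Finset.sum_nonneg fun δ _ => Finset.sum_nonneg fun i _ => Finset.sum_nonneg fun e _ => ?_
  have := (hρ.pos δ e (Z / 2 ^ i)).le
  positivity

lemma RPb_le_RPg {ρ : Eis → Eis → ℝ → ℝ} {c : ℝ} (hρ : RW ρ c) {κ Z : ℝ} (hκ : 0 ≤ κ)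
    (hZ : 0 ≤ Z) (α : Eis → ℂ) (F : ℝ → ℂ) (D : Finset Eis) (I : ℕ) (E0 Lo : ℝ) :
    RPb ρ α κ F D I E0 Z Lo ≤ RPg ρ α κ F D I E0 Z := by
  unfold RPb RPg
  refine Finset.sum_le_sum fun δ _ => Finset.sum_le_sum_of_subset_of_nonneg
    (Finset.filter_subset _ _) fun i _ _ => Finset.sum_nonneg fun e _ => ?_
  have := (hρ.pos δ e (Z / 2 ^ i)).le
  positivity

lemma Jb_empty2 {D Y₀ Z V : ℝ} {δ : Eis} (hV : (nm δ : ℝ) ^ 2 * V ≤ Y₀) :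
    Jb (JW D Y₀ Z) δ V = ∅ := by
  rw [Finset.eq_empty_iff_forall_notMem]
  intro x hx
  unfold E2440.Jb at hx
  rw [Finset.mem_filter] at hx
  obtain ⟨hx1, hx2, -, hx4⟩ := hx
  unfold JW at hx1
  rw [Finset.mem_filter] at hx1
  obtain ⟨-, -, -, h3, -⟩ := hx1
  rw [hx2, nm_mul, nm_pow] at h3
  push_cast at h3
  have : (nm δ : ℝ) ^ 2 * nm x.2 ≤ (nm δ : ℝ) ^ 2 * V := by gcongr
  nlinarith

set_option maxHeartbeats 1000000 in
/-- **the cross error with level weights** -/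
theorem crossGb {ρ : Eis → Eis → ℝ → ℝ} {c : ℝ} (hρ : RW ρ c) {κ θ Z D Y₀ E0 : ℝ} (hκ : 0 < κ)
    (hθ : 0 < θ) (hZ : 0 < Z) (α' : Eis → ℂ) (U : Eis × Eis → Eis → ℂ) {Ds : Finset Eis}
    (hDs : ∀ δ ∈ Ds, IsPrim δ ∧ Squarefree δ) (I : ℕ) {om : Eis × Eis → ℂ}
    (hom : ∀ x, ‖om x‖ ≤ 1) (F : ℝ → ℂ) :
    ∑ δ ∈ Ds, ∑ i ∈ Finset.range I, ∑ e ∈ S E0,
      Real.sqrt (∑ x ∈ Jb (JW D Y₀ Z) δ (Z / 2 ^ i), ‖om x‖ ^ 2 * ‖U x e‖ ^ 2) *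
        R2 α' κ F δ e (Z / 2 ^ i) ≤
      c * θ * (κ ^ (2 / 3 : ℝ) * TRg ρ (JW D Y₀ Z) E0 U) +
        θ⁻¹ * RPb ρ α' κ F Ds I E0 Z Y₀ := by
  have hc1 := hρ.c0
  have hc0 : 0 < c := by linarith
  set J := JW D Y₀ Z with hJ
  set g : Eis → Eis × Eis → ℝ := fun e x =>
    n13 x.2 * (ρ x.1 e (nm x.2) * ‖U x e‖ ^ 2)
    with hg
  have hg0 : ∀ e x, 0 ≤ g e x := fun e x => by
    simp only [hg]
    have := X6C180.n13_nonneg x.2
    have := (hρ.pos x.1 e (nm x.2)).le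
    positivity
  have hκ3 : 0 < κ ^ (2 / 3 : ℝ) := by positivity
  have hone : ∀ δ ∈ Ds, ∀ i ∈ Finset.range I, ∀ e ∈ S E0,
      Real.sqrt (∑ x ∈ Jb J δ (Z / 2 ^ i), ‖om x‖ ^ 2 * ‖U x e‖ ^ 2) *
        R2 α' κ F δ e (Z / 2 ^ i) ≤
      c * θ * κ ^ (2 / 3 : ℝ) * ∑ x ∈ Jb J δ (Z / 2 ^ i), g e x +
      (if (nm δ : ℝ) ^ 2 * (Z / 2 ^ i) < 2 * Z ∧ Y₀ < (nm δ : ℝ) ^ 2 * (Z / 2 ^ i) then
        θ⁻¹ * ((κ ^ (-(2 / 3) : ℝ) * (Z / 2 ^ i) ^ (1 / 3 : ℝ) / ρ δ e (Z / 2 ^ i)) *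
          R2 α' κ F δ e (Z / 2 ^ i) ^ 2) else 0) := by
    intro δ hδ i hi e he
    have hep := prim_of_S he
    by_cases hn : (nm δ : ℝ) ^ 2 * (Z / 2 ^ i) < 2 * Z ∧ Y₀ < (nm δ : ℝ) ^ 2 * (Z / 2 ^ i)
    swap
    · have hem : Jb J δ (Z / 2 ^ i) = ∅ := by
        rw [hJ]
        by_cases h1 : (nm δ : ℝ) ^ 2 * (Z / 2 ^ i) < 2 * Z
        · exact Jb_empty2 (not_lt.mp fun h2 => hn ⟨h1, h2⟩)
        · exact Jb_empty (hDs δ hδ).1 (not_lt.mp h1)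
      rw [hem, Finset.sum_empty, Finset.sum_empty,
        Real.sqrt_zero, zero_mul, mul_zero, if_neg hn, add_zero]
    rw [if_pos hn]
    have hVi : 0 < Z / 2 ^ i := by positivity
    set W := Z / 2 ^ i with hW
    set r := R2 α' κ F δ e W with hr
    set t := ∑ x ∈ Jb J δ W, ‖om x‖ ^ 2 * ‖U x e‖ ^ 2 with ht
    have ht0 : 0 ≤ t := Finset.sum_nonneg fun _ _ => by positivity
    have hW3 : 0 < W ^ (-(1 / 3) : ℝ) := by positivity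
    have hρ1 := hρ.pos δ e W
    set ρ₁ := ρ δ e W with hρdef
    set ω := 2 * θ * ρ₁ * κ ^ (2 / 3 : ℝ) * W ^ (-(1 / 3) : ℝ) with hω
    have hω0 : 0 < ω := by positivity
    refine (sqrt_mul_le (r := r) ht0 hω0).trans ?_
    have a1 : ω * t / 2 ≤ c * θ * κ ^ (2 / 3 : ℝ) * ∑ x ∈ Jb J δ W, g e x := by
      have e1 : ω * t / 2 = θ * κ ^ (2 / 3 : ℝ) * (W ^ (-(1 / 3) : ℝ) * ρ₁ * t) := by
        rw [hω]; ring
      have e2 : c * θ * κ ^ (2 / 3 : ℝ) * ∑ x ∈ Jb J δ W, g e x =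
          θ * κ ^ (2 / 3 : ℝ) * (c * ∑ x ∈ Jb J δ W, g e x) := by ring
      rw [e1, e2]
      refine mul_le_mul_of_nonneg_left ?_ (by positivity)
      rw [ht, Finset.mul_sum, Finset.mul_sum]
      refine Finset.sum_le_sum fun x hx => ?_
      unfold E2440.Jb at hx
      rw [Finset.mem_filter] at hx
      obtain ⟨hx1, hx2, hx3, hx4⟩ := hx
      have hxn : (0 : ℝ) < nm x.2 := lt_of_le_of_lt (by positivity) hx3
      have h3 : W ^ (-(1 / 3) : ℝ) ≤ n13 x.2 := by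
        unfold X6C180.n13
        rw [show (-(1 : ℝ) / 3) = (-(1 / 3) : ℝ) by norm_num]
        exact Real.rpow_le_rpow_of_nonpos hxn hx4 (by norm_num)
      have h4 : ρ₁ ≤ c * ρ x.1 e (nm x.2) := by
        rw [hρdef, hx2]
        exact hρ.two δ e W (nm x.2) hxn hx4 (by linarith)
      have h5 : ‖om x‖ ^ 2 ≤ 1 := pow_le_one₀ (norm_nonneg _) (hom x)
      have h6 := (hρ.pos x.1 e (nm x.2)).le
      have h8 := X6C180.n13_nonneg x.2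
      simp only [hg]
      calc W ^ (-(1 / 3) : ℝ) * ρ₁ * (‖om x‖ ^ 2 * ‖U x e‖ ^ 2) ≤
            n13 x.2 * (c * ρ x.1 e (nm x.2)) * (1 * ‖U x e‖ ^ 2) := by
            gcongr
        _ = _ := by ring
    have a2 : r ^ 2 / ω / 2 ≤ θ⁻¹ * ((κ ^ (-(2 / 3) : ℝ) * W ^ (1 / 3 : ℝ) / ρ₁) * r ^ 2) := by
      have e1 : κ ^ (-(2 / 3) : ℝ) = (κ ^ (2 / 3 : ℝ))⁻¹ := by
        rw [Real.rpow_neg hκ.le]
      have e2 : W ^ (-(1 / 3) : ℝ) = (W ^ (1 / 3 : ℝ))⁻¹ := by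
        rw [Real.rpow_neg hVi.le]
      have hW4 : 0 < W ^ (1 / 3 : ℝ) := by positivity
      have e3 : r ^ 2 / ω / 2 = 1 / 4 * (θ⁻¹ * ((κ ^ (-(2 / 3) : ℝ) * W ^ (1 / 3 : ℝ) / ρ₁) *
          r ^ 2)) := by
        rw [hω, e1, e2]
        field_simp
        ring
      rw [e3]
      have : 0 ≤ θ⁻¹ * ((κ ^ (-(2 / 3) : ℝ) * W ^ (1 / 3 : ℝ) / ρ₁) * r ^ 2) := by
        have : 0 < θ⁻¹ := inv_pos.mpr hθ
        positivity
      linarith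
    rw [add_div]
    exact add_le_add a1 a2
  refine (Finset.sum_le_sum fun δ hδ => Finset.sum_le_sum fun i hi =>
    Finset.sum_le_sum fun e he => hone δ hδ i hi e he).trans ?_
  simp_rw [Finset.sum_add_distrib]
  refine add_le_add ?_ (le_of_eq ?_)
  · have e1 : ∀ δ ∈ Ds, ∀ i ∈ Finset.range I, ∑ e ∈ S E0, c * θ * κ ^ (2 / 3 : ℝ) *
        ∑ x ∈ Jb J δ (Z / 2 ^ i), g e x = c * θ * κ ^ (2 / 3 : ℝ) *
          ∑ x ∈ Jb J δ (Z / 2 ^ i), ∑ e ∈ S E0, g e x := by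
      intro δ _ i _
      rw [← Finset.mul_sum, Finset.sum_comm]
    rw [Finset.sum_congr rfl fun δ hδ => Finset.sum_congr rfl fun i hi => e1 δ hδ i hi]
    simp_rw [← Finset.mul_sum]
    rw [← mul_assoc]
    refine mul_le_mul_of_nonneg_left ?_ (by positivity)
    refine (sum_blk Ds hZ.le I (f := fun x => ∑ e ∈ S E0, g e x)
      fun x => Finset.sum_nonneg fun e _ => hg0 e x).trans (le_of_eq ?_)
    unfold TRg
    refine Finset.sum_congr rfl fun x _ => ?_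
    simp only [hg]
    rw [Finset.mul_sum]
  · unfold RPb nebL neb
    simp_rw [Finset.mul_sum, Finset.filter_filter, Finset.sum_filter]
    refine Finset.sum_congr rfl fun δ _ => Finset.sum_congr rfl fun i _ => ?_
    split_ifs
    · rfl
    · exact Finset.sum_const_zero

set_option maxHeartbeats 1000000 in
/-- **`RPb` from a uniform bound of the inner double sums** -/
theorem RPb_Qs {ε : ℝ} (hε : 0 < ε) : ∃ C : ℝ, 0 ≤ C ∧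
    ∀ (P κ D Z E0 Rn Lo : ℝ) (I : ℕ), 1 ≤ P → 0 < κ → 0 ≤ D → D ≤ P →
      0 < Z → 0 ≤ E0 → E0 ≤ P → (2 : ℝ) ^ I ≤ P → 0 ≤ Rn → ∀ (α : Eis → ℂ) (F : ℝ → ℂ)
      (ρ : Eis → Eis → ℝ → ℝ) (c : ℝ), RW ρ c →
      (∀ δ ∈ S D, ∀ i ∈ nebL δ Z Lo I, ∀ e ∈ S E0, ∀ y ∈ E2440.prs δ, ∀ a ∈ pdiv y.1,
        ∑ c ∈ E2440.C4, ∑ j₂ ∈ S (Real.sqrt (Z / 2 ^ i)), Qs α δ e (Z / 2 ^ i) κ F y a c j₂ ≤
          Rn * ρ δ e (Z / 2 ^ i) *
            (κ ^ (2 / 3 : ℝ) * (Z / 2 ^ i) ^ (-(1 / 3) : ℝ) / (nm δ * nm e))) →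
      RPb ρ α κ F (S D) I E0 Z Lo ≤ C * P ^ ε * Rn := by
  obtain ⟨k, hk⟩ : ∃ k : ℕ, k = 2 ^ 6 := ⟨_, rfl⟩
  obtain ⟨C₁, hC₁, H₁⟩ := PInv255.one_add_log_pow_le (k + k + 1) ε hε
  obtain ⟨c₀, hc₀, hc₀1⟩ : ∃ c₀ : ℝ, c₀ = 100 ^ k ∧ 0 ≤ c₀ := ⟨_, rfl, by positivity⟩
  refine ⟨c₀ * c₀ * 2 * C₁, by positivity, ?_⟩
  intro P κ D Z E0 Rn Lo I hP hκ hD hDP hZ hE0 hEP hI hRn α F ρ c hρc hQ
  have hlP := Real.log_nonneg hP
  set L := 1 + Real.log P with hL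
  have hL0 : 0 ≤ L := by rw [hL]; linarith
  set N := ⌊P⌋₊ with hN
  have hN1 : (1 : ℝ) ≤ N := by exact_mod_cast Nat.le_floor (by exact_mod_cast hP)
  have hNP : (N : ℝ) ≤ P := Nat.floor_le (by linarith)
  have hlN : Real.log N ≤ Real.log P := Real.log_le_log (by linarith) hNP
  have hsub : ∀ E : ℝ, E ≤ P → S E ⊆ Div277.nz N := fun E hE x hx => by
    unfold LS2.S at hx
    have h1 := (Finset.mem_filter.1 hx).1
    rw [mem_primBall] at h1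
    exact Div277.primBall_subset_nz N (mem_primBall.2 ⟨h1.1.trans (Nat.floor_le_floor hE), h1.2⟩)
  have hsum := Div277.sum_tau_pow_div_le 6 N
  have hsum' : ∑ n ∈ Div277.nz N, ((Div277.tau n : ℝ) ^ 6 / nm n) ≤
      c₀ * L ^ k := by
    refine hsum.trans ?_
    rw [← hk, mul_pow, hc₀]
    have hl0 : 0 ≤ Real.log (N : ℝ) := Real.log_nonneg hN1
    have h1 : 1 + Real.log N ≤ L := by rw [hL]; linarith
    exact mul_le_mul_of_nonneg_left (pow_le_pow_left₀ (by linarith) h1 k) (by positivity)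
  have hterm : ∀ δ ∈ S D, ∀ i ∈ nebL δ Z Lo I, ∀ e ∈ S E0,
      (κ ^ (-(2 / 3) : ℝ) * (Z / 2 ^ i) ^ (1 / 3 : ℝ) / ρ δ e (Z / 2 ^ i)) *
        R2 α κ F δ e (Z / 2 ^ i) ^ 2 ≤
      Rn * (((Div277.tau δ : ℝ) ^ 6 / nm δ) * ((Div277.tau e : ℝ) ^ 6 / nm e)) := by
    intro δ hδ i hi e he
    have hδp := prim_of_S hδ
    have hep := prim_of_S he
    have hV : 0 < Z / 2 ^ i := by positivity
    set V := Z / 2 ^ i with hVdef
    have hρ := hρc.pos δ e V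
    set ρ₁ := ρ δ e V with hρd
    have hδn := nmpos hδp.ne_zero
    have hen := nmpos hep.ne_zero
    set Q0 := Rn * ρ₁ * (κ ^ (2 / 3 : ℝ) * V ^ (-(1 / 3) : ℝ) / (nm δ * nm e)) with hQ0
    have hQ00 : 0 ≤ Q0 := by positivity
    have hτ : (1 : ℝ) ≤ Div277.tau δ := one_le_tau1 hδp
    have h1 : R2 α κ F δ e V ≤ (Div277.tau δ : ℝ) ^ 3 * Real.sqrt Q0 := by
      unfold LBx48.R2
      have h2 : ∀ y ∈ E2440.prs δ, ∑ a ∈ pdiv y.1, Real.sqrt (∑ c ∈ E2440.C4,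
          ∑ j₂ ∈ S (Real.sqrt V), Qs α δ e V κ F y a c j₂) ≤
          (Div277.tau δ : ℝ) * Real.sqrt Q0 := by
        intro y hy
        refine (Finset.sum_le_sum fun a ha => Real.sqrt_le_sqrt (hQ δ hδ i hi e he y hy a ha)).trans
          ?_
        rw [Finset.sum_const, nsmul_eq_mul]
        exact mul_le_mul_of_nonneg_right (card_pdiv_le hδp hy) (Real.sqrt_nonneg _)
      refine (Finset.sum_le_sum h2).trans ?_
      rw [Finset.sum_const, nsmul_eq_mul]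
      have h3 := card_prs_le δ
      calc ((E2440.prs δ).card : ℝ) * ((Div277.tau δ : ℝ) * Real.sqrt Q0) ≤
            (Div277.tau δ : ℝ) ^ 2 * ((Div277.tau δ : ℝ) * Real.sqrt Q0) :=
            mul_le_mul_of_nonneg_right h3 (by positivity)
        _ = _ := by ring
    have h0 : 0 ≤ R2 α κ F δ e V := by
      unfold LBx48.R2
      exact Finset.sum_nonneg fun _ _ => Finset.sum_nonneg fun _ _ => Real.sqrt_nonneg _
    have h4 : R2 α κ F δ e V ^ 2 ≤ (Div277.tau δ : ℝ) ^ 6 * Q0 := by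
      calc R2 α κ F δ e V ^ 2 ≤ ((Div277.tau δ : ℝ) ^ 3 * Real.sqrt Q0) ^ 2 :=
            pow_le_pow_left₀ h0 h1 2
        _ = (Div277.tau δ : ℝ) ^ 6 * Real.sqrt Q0 ^ 2 := by ring
        _ = _ := by rw [Real.sq_sqrt hQ00]
    have hc : 0 ≤ κ ^ (-(2 / 3) : ℝ) * V ^ (1 / 3 : ℝ) / ρ₁ := by positivity
    refine (mul_le_mul_of_nonneg_left h4 hc).trans ?_
    have e1 : κ ^ (-(2 / 3) : ℝ) = (κ ^ (2 / 3 : ℝ))⁻¹ := by rw [Real.rpow_neg hκ.le]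
    have e2 : V ^ (-(1 / 3) : ℝ) = (V ^ (1 / 3 : ℝ))⁻¹ := by rw [Real.rpow_neg hV.le]
    have hk3 : 0 < κ ^ (2 / 3 : ℝ) := by positivity
    have hV3 : 0 < V ^ (1 / 3 : ℝ) := by positivity
    have e3 : κ ^ (-(2 / 3) : ℝ) * V ^ (1 / 3 : ℝ) / ρ₁ * ((Div277.tau δ : ℝ) ^ 6 * Q0) =
        Rn * (((Div277.tau δ : ℝ) ^ 6 / nm δ) * (1 / nm e)) := by
      rw [hQ0, e1, e2]
      field_simp
    rw [e3]
    have hτe : (1 : ℝ) ≤ (Div277.tau e : ℝ) ^ 6 := one_le_pow₀ (one_le_tau1 hep)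
    gcongr
  unfold RPb
  have h5 : ∑ δ ∈ S D, ∑ i ∈ nebL δ Z Lo I, ∑ e ∈ S E0,
      (κ ^ (-(2 / 3) : ℝ) * (Z / 2 ^ i) ^ (1 / 3 : ℝ) / ρ δ e (Z / 2 ^ i)) *
        R2 α κ F δ e (Z / 2 ^ i) ^ 2 ≤
      ∑ δ ∈ S D, ∑ _i ∈ Finset.range I, ∑ e ∈ S E0,
        Rn * (((Div277.tau δ : ℝ) ^ 6 / nm δ) * ((Div277.tau e : ℝ) ^ 6 / nm e)) := by
    refine Finset.sum_le_sum fun δ hδ => ?_
    refine (Finset.sum_le_sum fun i hi => Finset.sum_le_sum fun e he =>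
      hterm δ hδ i hi e he).trans ?_
    refine Finset.sum_le_sum_of_subset_of_nonneg ((Finset.filter_subset _ _).trans
      (Finset.filter_subset _ _)) fun i _ _ =>
      Finset.sum_nonneg fun e _ => by positivity
  refine h5.trans ?_
  have h6 : ∑ δ ∈ S D, ∑ _i ∈ Finset.range I, ∑ e ∈ S E0,
        Rn * (((Div277.tau δ : ℝ) ^ 6 / nm δ) * ((Div277.tau e : ℝ) ^ 6 / nm e)) =
      Rn * I * ((∑ δ ∈ S D, (Div277.tau δ : ℝ) ^ 6 / nm δ) *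
        ∑ e ∈ S E0, (Div277.tau e : ℝ) ^ 6 / nm e) := by
    rw [Finset.sum_mul_sum, Finset.mul_sum]
    refine Finset.sum_congr rfl fun δ _ => ?_
    rw [Finset.sum_const, Finset.card_range, nsmul_eq_mul, Finset.mul_sum, Finset.mul_sum]
    refine Finset.sum_congr rfl fun e _ => ?_
    ring
  rw [h6]
  have h7 : ∀ E : ℝ, E ≤ P → ∑ δ ∈ S E, (Div277.tau δ : ℝ) ^ 6 / nm δ ≤
      c₀ * L ^ k := fun E hE =>
    (Finset.sum_le_sum_of_subset_of_nonneg (hsub E hE) fun _ _ _ => by positivity).trans hsum'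
  have hI' : (I : ℝ) ≤ 2 * L := by
    have h8 : (I : ℝ) * Real.log 2 ≤ Real.log P := by
      rw [← Real.log_pow]
      exact Real.log_le_log (by positivity) hI
    have h9 : (1 : ℝ) / 2 ≤ Real.log 2 := by linarith [Real.log_two_gt_d9]
    have h10 : (I : ℝ) * (1 / 2) ≤ I * Real.log 2 :=
      mul_le_mul_of_nonneg_left h9 (Nat.cast_nonneg _)
    linarith
  have h11 : 0 ≤ ∑ e ∈ S E0, (Div277.tau e : ℝ) ^ 6 / nm e :=
    Finset.sum_nonneg fun _ _ => by positivity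
  calc Rn * I * ((∑ δ ∈ S D, (Div277.tau δ : ℝ) ^ 6 / nm δ) *
        ∑ e ∈ S E0, (Div277.tau e : ℝ) ^ 6 / nm e) ≤
      Rn * (2 * L) * ((c₀ * L ^ k) * (c₀ * L ^ k)) :=
        mul_le_mul (mul_le_mul_of_nonneg_left hI' hRn)
          (mul_le_mul (h7 D hDP) (h7 E0 hEP) h11 (by positivity))
          (mul_nonneg (Finset.sum_nonneg fun _ _ => by positivity) h11) (by positivity)
    _ = c₀ * c₀ * 2 * L ^ (k + k + 1) * Rn := by
        rw [pow_add, pow_add, pow_one]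
        ring
    _ ≤ c₀ * c₀ * 2 * (C₁ * P ^ ε) * Rn :=
        mul_le_mul_of_nonneg_right (mul_le_mul_of_nonneg_left (H₁ P hP) (by positivity)) hRn
    _ = _ := by ring

/-- **the compensated pieces with level weights** (146's `E2G`) -/
theorem E2Gb {w : ℝ → ℝ} {N : ℕ} {M : ℝ} {F : ℕ → ℝ → ℂ} (_h : WD w N M F) (R : ℝ) (hR : 0 ≤ R)
    (A : ℕ) (hA : 2 ≤ A) {c : ℝ} (hc : 0 ≤ c) : ∃ C : ℝ, 0 ≤ C ∧
    ∀ (ρ : Eis → Eis → ℝ → ℝ), RW ρ c →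
    ∀ (Y X K D Y₀ Z E0 η : ℝ) (I : ℕ), 0 ≤ Y → 0 < X → 0 < K → 0 ≤ D → 0 < Z →
      0 ≤ E0 → ∀ α : Eis → ℂ, Adm Y X R α → ∀ om : Eis × Eis → ℂ, (∀ x, ‖om x‖ ≤ 1) →
      ∑ i ∈ Finset.range N, E2e (GF (Fh (F i) η)) (sc K M i) E0 (S D) Z I (JW D Y₀ Z) om α ≤
      C * (K / X) * TJ (cG ρ E0) A K X Y (JW D Y₀ Z) α +
        ∑ i ∈ Finset.range N, RPb ρ α (sc K M i) (GF (Fh (F i) η)) (S D) I E0 Z Y₀ := by
  obtain ⟨C₁, hC₁, H₁⟩ := TRg_le R hR A hA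
  refine ⟨(∑ i ∈ Finset.range N, c * (Real.exp (i - M)) ^ (2 / 3 : ℝ)) * C₁,
    mul_nonneg (Finset.sum_nonneg fun _ _ => by positivity) hC₁, ?_⟩
  intro ρ hρ Y X K D Y₀ Z E0 η I hY hX hK hD hZ hE0 α hα om hom
  have h2 := H₁ Y X K E0 hY hX hK α hα (JW D Y₀ Z) (okJ_JW D Y₀ Z) ρ c hρ
  have h3 : ∀ i ∈ Finset.range N, E2e (GF (Fh (F i) η)) (sc K M i) E0 (S D) Z I (JW D Y₀ Z) om α ≤
      c * (Real.exp (i - M)) ^ (2 / 3 : ℝ) *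
        (C₁ * ((K / X) * TJ (cG ρ E0) A K X Y (JW D Y₀ Z) α)) +
        RPb ρ α (sc K M i) (GF (Fh (F i) η)) (S D) I E0 Z Y₀ := by
    intro i _
    have hs := sc_pos hK M i
    have h4 := crossGb hρ (Y₀ := Y₀) (D := D) (E0 := E0) hs one_pos hZ α (TE α) (Ds := S D)
      (fun δ hδ => ⟨((mem_S hD).1 hδ).2.1, ((mem_S hD).1 hδ).2.2⟩) I hom (GF (Fh (F i) η))
    have e1 : (sc K M i) ^ (2 / 3 : ℝ) = (Real.exp (i - M)) ^ (2 / 3 : ℝ) * K ^ (2 / 3 : ℝ) := by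
      unfold WDec180.sc
      rw [Real.mul_rpow hK.le (Real.exp_pos _).le]
      ring
    rw [e1, inv_one, one_mul, mul_one] at h4
    refine h4.trans ?_
    have h5 : 0 ≤ c * (Real.exp (i - M)) ^ (2 / 3 : ℝ) := by positivity
    have h6 := mul_le_mul_of_nonneg_left h2 h5
    refine add_le_add (le_trans (le_of_eq ?_) (h6.trans (le_of_eq ?_))) le_rfl
    · ring
    · ring
  refine (Finset.sum_le_sum h3).trans ?_
  rw [Finset.sum_add_distrib, ← Finset.sum_mul]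
  refine add_le_add (le_of_eq ?_) le_rfl
  ring

set_option maxHeartbeats 1000000 in
/-- **the cross error of a sequence dominated by a difference, two scales** -/
theorem crossXb {w : ℝ → ℝ} {Nw : ℕ} {Mw : ℝ} {Fw : ℕ → ℝ → ℂ}
    (hWD : WD w Nw Mw Fw) {h : ℝ → ℝ} {c : ℝ} (hpu : PU h c)
    (N : ℕ) {R₁ : ℝ} (hR₁ : 0 ≤ R₁) (hR : ∀ u, cx h u ≠ 0 → |u| ≤ R₁) {ε M B₂ : ℝ}
    (hε : 0 < ε) (hM : 0 ≤ M) (hB₂ : 0 < B₂) {ν Dd : ℝ} (hν : 1 ≤ ν)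
    (hDd : 0 ≤ Dd) {L : ℝ} (hL : 0 ≤ L) :
    ∃ C r : ℝ, 0 ≤ C ∧ 0 ≤ r ∧ ∀ X : ℝ, 3 ≤ X → ∀ (P : DPar), P.OK →
      ∀ (q : Eis) (ps ps' : List Pq), ps.length ≤ N → ps'.length ≤ N →
      (∀ p ∈ ps, 0 ≤ p.z ∧ p.z ≤ Real.log X) → (∀ p ∈ ps', 0 ≤ p.z ∧ p.z ≤ Real.log X) →
      LN ps' = LN ps → ∀ ζ : ℂ, ‖ζ‖ ≤ 1 → ∀ x : Eis → ℂ,
      (∀ n, x n = sqc q (alF 1 1 P h (natl ps)) n - ζ * sqc q (alF 1 1 P h (natl ps')) n) →
      ∀ (K Y D Y₀ Y₁ E0 Tg F F' Eb s0 Fb η : ℝ) (Sh : ℝ → ℝ → ℝ → ℝ) (I : ℕ), 1 ≤ K →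
      Real.exp (LN ps + N * R₁ + 1) ≤ Y → Y ≤ X ^ B₂ → 0 ≤ D → 0 < Y₁ → Y₁ * ν ≤ X → 0 < E0 →
      Y₁ < 2 ^ I → 0 ≤ η → 0 ≤ F → 0 ≤ F' → 0 ≤ Eb → 0 ≤ Fb → LipS L Sh →
      CellK Dk h P q ps (X ^ B₂) r M (Real.log (Y₁ * ν)) (Real.log E0) F Sh →
      CellK Dk h P q ps' (X ^ B₂) r M (Real.log (Y₁ * ν)) (Real.log E0) F' Sh →
      PBh x Eb (Real.exp (-s0)) (max (N * M) 12) ((X ^ (B₂ + 1)) ^ 2) →
      (∀ γ b v : ℝ, 0 ≤ γ → 0 ≤ b → b ≤ Real.log E0 + 1 → 0 ≤ v →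
        v ≤ Real.log (Y₁ * ν) - 2 * γ →
        Eb * Real.exp (bcx s0 γ b v) ≤ Fb * Real.exp (Sh γ b v)) →
      ∀ al : Eis → ℂ, Dom ν Dd x al →
      ∀ om : Eis × Eis → ℂ, (∀ x, ‖om x‖ ≤ 1) → ∀ (Q : Eis → Prop),
      ‖CrP w K al (fun k => if Q k then StE E0 (JW D Y₀ Y₁) om al k else 0) -
        ((pC * c3 w K : ℝ) : ℂ) * X2 Y E0 (JW D Y₀ Y₁) om al‖ ≤
      C * X ^ ε * (K / Real.exp (LN ps)) * ((F + F' + Fb) * Real.exp (Tg + 2 / 3 * LN ps)) +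
      ∑ i ∈ Finset.range Nw, RPb (rhoS Tg (Real.log K) Sh) al (sc K Mw i) (GF (Fh (Fw i) η))
        (S D) I E0 Y₁ Y₀ +
      ∑ i ∈ Finset.range Nw, ‖CrQ (GF (Fh (Fw i) η)) (fun k => ¬ Q k) (sc K Mw i) al
          (StE E0 (JW D Y₀ Y₁) om al)‖ +
      Real.exp (η / 3) * ‖CrP w (K * Real.exp (-η)) al
          (fun k => if Q k then StE E0 (JW D Y₀ Y₁) om al k else 0)‖ +
      Real.exp (-(η / 3)) * ‖((pC * c3 w K : ℝ) : ℂ) * X2 Y E0 (JW D Y₀ Y₁) om al‖ := by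
  have hN0 : (0 : ℝ) ≤ N := Nat.cast_nonneg _
  set A : ℕ := ⌈max ((N : ℝ) * M) 12⌉₊ + 2 with hA
  have hA2 : 2 ≤ A := by omega
  have hJA : max ((N : ℝ) * M) 12 + 1 < A := by
    have h1 := Nat.le_ceil (max ((N : ℝ) * M) 12)
    rw [hA]
    push_cast
    linarith
  obtain ⟨C₂, r₂, hC₂, hr₂, H₂⟩ := TJGx hpu N hε hM hB₂ hν hDd hJA hL
  obtain ⟨C₃, hC₃, H₃⟩ := E2Gb hWD (2 * (N * R₁)) (by positivity) A hA2
    (Real.exp_pos (1 + L)).le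
  refine ⟨C₃ * C₂, r₂, by positivity, hr₂, ?_⟩
  intro X hX P hP q ps ps' hN hN' hz hz' hLN ζ hζ x hx K Y D Y₀ Y₁ E0 Tg F F' Eb s0 Fb η Sh I hK
    hYl hYu hD hY₁ hYX hE0 hI hη hF hF' hEb hFb hLip hcs hcs' hPB hbias al hdom om homb Q
  have hX1 : (1 : ℝ) ≤ X := by linarith
  have hX0 : 0 < X := by linarith
  have hK0 : 0 < K := by linarith
  set n := LN ps with hn
  have hn0 : 0 ≤ n := by
    rw [hn]
    unfold LN
    refine List.sum_nonneg fun x hx => ?_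
    obtain ⟨p, hp, rfl⟩ := List.mem_map.1 hx
    exact (hz p hp).1
  have hY1 : 1 ≤ Y := le_trans (Real.one_le_exp (by positivity)) hYl
  have hY0 : 0 < Y := by linarith
  have hadm₀ : Adm Y (Real.exp n) (2 * (N * R₁)) (sqc q (alF 1 1 P h (natl ps))) :=
    Adm_list hR₁ hR P q hN (le_trans (Real.exp_le_exp.2 (by linarith)) hYl)
  have hadm₁ : Adm Y (Real.exp n) (2 * (N * R₁)) (sqc q (alF 1 1 P h (natl ps'))) := by
    have h1 := Adm_list (Y := Y) hR₁ hR P q hN' (le_trans (Real.exp_le_exp.2 (by linarith)) hYl)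
    rwa [hLN] at h1
  have hne : ∀ m, al m ≠ 0 → sqc q (alF 1 1 P h (natl ps)) m ≠ 0 ∨
      sqc q (alF 1 1 P h (natl ps')) m ≠ 0 := fun m hm => by
    by_contra h0
    push Not at h0
    apply hm
    have := hdom.le m
    rw [hx m, h0.1, h0.2, mul_zero, sub_zero, norm_zero] at this
    exact norm_le_zero_iff.1 (by simpa using this)
  have hadm : Adm Y (Real.exp n) (2 * (N * R₁)) al :=
    ⟨fun m hm => (hne m hm).elim (hadm₀.sup m) (hadm₁.sup m),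
      fun m hm => (hne m hm).elim (hadm₀.win m) (hadm₁.win m)⟩
  have b1 := H₂ X hX P hP q ps ps' hN hN' hz hz' ζ hζ x hx K Y D Y₀ Y₁ (Real.log (Y₁ * ν)) E0 Tg
    F F' Eb s0 Fb n Sh hK0 hY1 hYu hY₁ hYX le_rfl hE0 hF hF' hEb hFb hLip hcs hcs' hPB hbias al
    hdom hadm.sup
  have b2 := H₃ (rhoS Tg (Real.log K) Sh) (rw_rhoS hLip hL Tg (Real.log K)) Y (Real.exp n) K D Y₀
    Y₁ E0 η I hY0.le (Real.exp_pos n) hK0 hD hY₁ hE0.le al hadm om homb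
  have b3 : C₃ * (K / Real.exp n) * TJ (cG (rhoS Tg (Real.log K) Sh) E0) A K (Real.exp n) Y
      (JW D Y₀ Y₁) al ≤ C₃ * C₂ * X ^ ε * (K / Real.exp n) *
        ((F + F' + Fb) * Real.exp (Tg + 2 / 3 * n)) := by
    calc _ ≤ C₃ * (K / Real.exp n) * (C₂ * X ^ ε * ((F + F' + Fb) *
          Real.exp (Tg + 2 / 3 * n))) := mul_le_mul_of_nonneg_left b1 (by positivity)
      _ = _ := by ring
  have b4 := cross_ex (Y₀ := Y₀) hWD hη Q hK0 hE0.le hY0.le hD hY₁ hI hadm.sup om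
  refine b4.trans ?_
  exact add_le_add (add_le_add (add_le_add (b2.trans (add_le_add b3 le_rfl)) le_rfl) le_rfl) le_rfl

/-- **the cross error of a sequence dominated by a natural list, two scales, kernel `Dk`** -/
theorem crossSb {w : ℝ → ℝ} {Nw : ℕ} {Mw : ℝ} {Fw : ℕ → ℝ → ℂ}
    (hWD : WD w Nw Mw Fw) {h : ℝ → ℝ} {c : ℝ} (hpu : PU h c)
    (N : ℕ) {R₁ : ℝ} (hR₁ : 0 ≤ R₁) (hR : ∀ u, cx h u ≠ 0 → |u| ≤ R₁) {ε M B₂ : ℝ}
    (hε : 0 < ε) (hM : 0 ≤ M) (hB₂ : 0 < B₂) {ν Dd : ℝ} (hν : 1 ≤ ν)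
    (hDd : 0 ≤ Dd) {L : ℝ} (hL : 0 ≤ L) :
    ∃ C r : ℝ, 0 ≤ C ∧ 0 ≤ r ∧ ∀ X : ℝ, 3 ≤ X → ∀ (P : DPar), P.OK →
      ∀ (q : Eis) (ps : List Pq), ps.length ≤ N →
      (∀ p ∈ ps, 0 ≤ p.z ∧ p.z ≤ Real.log X) → LN ps ≤ Real.log X →
      ∀ (K Y D Y₀ Y₁ E0 Tg F Fb η : ℝ) (Sh : ℝ → ℝ → ℝ → ℝ) (I : ℕ), 1 ≤ K →
      Real.exp (LN ps + N * R₁ + 1) ≤ Y → Y ≤ X ^ B₂ → 0 ≤ D → 0 < Y₁ → Y₁ * ν ≤ X → 0 < E0 →
      Y₁ < 2 ^ I → 0 ≤ η → 0 ≤ F → 0 ≤ Fb → LipS L Sh →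
      CellK Dk h P q ps (X ^ B₂) r M (Real.log (Y₁ * ν)) (Real.log E0) F Sh →
      (∀ γ b v : ℝ, 0 ≤ γ → 0 ≤ b → b ≤ Real.log E0 + 1 → 0 ≤ v →
        v ≤ Real.log (Y₁ * ν) - 2 * γ →
        Real.exp (5 / 3 * LN ps + bcx 0 γ b v) ≤ Fb * Real.exp (Sh γ b v)) →
      ∀ al : Eis → ℂ, Dom ν Dd (sqc q (alF 1 1 P h (natl ps))) al →
      ∀ om : Eis × Eis → ℂ, (∀ x, ‖om x‖ ≤ 1) → ∀ (Q : Eis → Prop),
      ‖CrP w K al (fun k => if Q k then StE E0 (JW D Y₀ Y₁) om al k else 0) -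
        ((pC * c3 w K : ℝ) : ℂ) * X2 Y E0 (JW D Y₀ Y₁) om al‖ ≤
      C * X ^ ε * (K / Real.exp (LN ps)) * ((F + Fb) * Real.exp (Tg + 2 / 3 * LN ps)) +
      ∑ i ∈ Finset.range Nw, RPb (rhoS Tg (Real.log K) Sh) al (sc K Mw i) (GF (Fh (Fw i) η))
        (S D) I E0 Y₁ Y₀ +
      ∑ i ∈ Finset.range Nw, ‖CrQ (GF (Fh (Fw i) η)) (fun k => ¬ Q k) (sc K Mw i) al
          (StE E0 (JW D Y₀ Y₁) om al)‖ +
      Real.exp (η / 3) * ‖CrP w (K * Real.exp (-η)) al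
          (fun k => if Q k then StE E0 (JW D Y₀ Y₁) om al k else 0)‖ +
      Real.exp (-(η / 3)) * ‖((pC * c3 w K : ℝ) : ℂ) * X2 Y E0 (JW D Y₀ Y₁) om al‖ := by
  obtain ⟨C₀, hC₀, H₀⟩ := pbh_one hpu N (ε := ε / 2) (by positivity)
  obtain ⟨C₁, r, hC₁, hr, H₁⟩ := crossXb hWD hpu N hR₁ hR (ε := ε / 2) (M := M)
    (B₂ := B₂) (by positivity) hM hB₂ hν hDd hL
  refine ⟨2 * (C₁ * C₀), r, by positivity, hr, ?_⟩
  intro X hX P hP q ps hN hz hLX K Y D Y₀ Y₁ E0 Tg F Fb η Sh I hK hYl hYu hD hY₁ hYX hE0 hI hη hF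
    hFb hLip hcs hbias al hdom om homb Q
  have hX1 : (1 : ℝ) ≤ X := by linarith
  have hX0 : 0 < X := by linarith
  have hK0 : 0 < K := by linarith
  have hpb := H₀ X hX P hP q ps hN (fun p hp => (hz p hp).1) hLX (max (N * M) 12)
    ((by norm_num : (0 : ℝ) ≤ 12).trans (le_max_right _ _)) ((X ^ (B₂ + 1)) ^ 2)
  set n := LN ps with hn
  have key := H₁ X hX P hP q ps ps hN hN hz hz rfl 0 (by simp)
    (sqc q (alF 1 1 P h (natl ps))) (fun m => by simp)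
    K Y D Y₀ Y₁ E0 Tg F F _ 0 (C₀ * X ^ (ε / 2) * Fb) η Sh I
    hK hYl hYu hD hY₁ hYX hE0 hI hη hF hF (by positivity) (by positivity) hLip hcs hcs hpb
    (fun γ b v h1 h2 h3 h4 h5 => by
      have h6 := mul_le_mul_of_nonneg_left (hbias γ b v h1 h2 h3 h4 h5)
        (show 0 ≤ C₀ * X ^ (ε / 2) by positivity)
      rw [Real.exp_add] at h6
      calc _ = C₀ * X ^ (ε / 2) * (Real.exp (5 / 3 * n) * Real.exp (bcx 0 γ b v)) := by ring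
        _ ≤ _ := h6
        _ = _ := by ring) al hdom om homb Q
  refine key.trans ?_
  have hXe : X ^ (ε / 2) * X ^ (ε / 2) = X ^ ε := by
    rw [← Real.rpow_add hX0]; congr 1; ring
  have hXe1 : 1 ≤ X ^ (ε / 2) := Real.one_le_rpow hX1 (by positivity)
  have hCX : 1 ≤ C₀ * X ^ (ε / 2) := one_le_mul_of_one_le_of_one_le hC₀ hXe1
  have h1 : F + F + C₀ * X ^ (ε / 2) * Fb ≤ C₀ * X ^ (ε / 2) * (2 * (F + Fb)) := by
    have h2 : F + F ≤ C₀ * X ^ (ε / 2) * (F + F) := le_mul_of_one_le_left (by positivity) hCX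
    have h3 : 0 ≤ C₀ * X ^ (ε / 2) * Fb := by positivity
    have e : C₀ * X ^ (ε / 2) * (2 * (F + Fb)) = C₀ * X ^ (ε / 2) * (F + F) +
        C₀ * X ^ (ε / 2) * Fb + C₀ * X ^ (ε / 2) * Fb := by ring
    rw [e]
    linarith
  have h4 : C₁ * X ^ (ε / 2) * (K / Real.exp n) *
      ((F + F + C₀ * X ^ (ε / 2) * Fb) * Real.exp (Tg + 2 / 3 * n)) ≤
      2 * (C₁ * C₀) * X ^ ε * (K / Real.exp n) * ((F + Fb) * Real.exp (Tg + 2 / 3 * n)) := by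
    calc _ ≤ C₁ * X ^ (ε / 2) * (K / Real.exp n) *
          ((C₀ * X ^ (ε / 2) * (2 * (F + Fb))) * Real.exp (Tg + 2 / 3 * n)) := by gcongr
      _ = 2 * (C₁ * C₀) * (X ^ (ε / 2) * X ^ (ε / 2)) * (K / Real.exp n) *
          ((F + Fb) * Real.exp (Tg + 2 / 3 * n)) := by ring
      _ = _ := by rw [hXe]
  exact add_le_add (add_le_add (add_le_add (add_le_add h4 le_rfl) le_rfl) le_rfl) le_rfl


/-! ### the levels -/

/-- the lower end of a level -/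
def LoL (i : ℕ) : ℝ := if i = 0 then 1 / 10 else 2 ^ (i - 1)

/-- the index set of a level -/
def JL (i : ℕ) : Finset (Eis × Eis) := JW (Real.sqrt (2 ^ i)) (LoL i) (2 ^ i)

lemma LoL_pos (i : ℕ) : 0 < LoL i := by
  unfold LoL
  split_ifs <;> positivity

lemma LoL_succ (i : ℕ) : LoL (i + 1) = 2 ^ i := by
  unfold LoL
  simp

lemma mem_JWs {Lo Z : ℝ} {x : Eis × Eis} : x ∈ JW (Real.sqrt Z) Lo Z ↔
    (IsPrim x.1 ∧ (nm x.1 : ℝ) ≤ Real.sqrt Z) ∧ (x.2 ∈ ball ⌊Z⌋₊) ∧ Squarefree x.1 ∧ JC x.2 ∧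
      Lo < nm (x.2 * x.1 ^ 2) ∧ (nm (x.2 * x.1 ^ 2) : ℝ) ≤ Z := by
  unfold JW
  rw [Finset.mem_filter, Finset.mem_product, mem_primBall, Nat.le_floor_iff (Real.sqrt_nonneg _)]
  tauto

lemma JW_mono {Lo Z Z' : ℝ} (h : Z ≤ Z') : JW (Real.sqrt Z) Lo Z ⊆ JW (Real.sqrt Z') Lo Z' := by
  intro x hx
  rw [mem_JWs] at hx ⊢
  obtain ⟨⟨h1, h2⟩, h3, h4, h5, h6, h7⟩ := hx
  refine ⟨⟨h1, h2.trans (Real.sqrt_le_sqrt h)⟩, ?_, h4, h5, h6, h7.trans h⟩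
  rw [mem_ball] at h3 ⊢
  exact h3.trans (Nat.floor_le_floor h)

/-- the sum over the levels -/
lemma sum_JL {M : Type*} [AddCommMonoid M] (f : Eis × Eis → M) (n : ℕ) :
    ∑ x ∈ JW (Real.sqrt (2 ^ n)) (1 / 10) (2 ^ n), f x = ∑ i ∈ range (n + 1), ∑ x ∈ JL i, f x := by
  induction n with
  | zero =>
    rw [Finset.sum_range_one]
    rfl
  | succ n ih =>
    rw [Finset.sum_range_succ, ← ih]
    have hd : Disjoint (JW (Real.sqrt (2 ^ n)) (1 / 10) (2 ^ n)) (JL (n + 1)) := by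
      rw [Finset.disjoint_left]
      intro x h1 h2
      unfold JL at h2
      rw [mem_JWs] at h1 h2
      rw [LoL_succ] at h2
      exact absurd h1.2.2.2.2.2 (not_le.2 h2.2.2.2.2.1)
    rw [← Finset.sum_union hd]
    congr 1
    ext x
    rw [Finset.mem_union]
    unfold JL
    rw [LoL_succ]
    constructor
    · intro hx
      rw [mem_JWs] at hx
      obtain ⟨⟨h1, h2⟩, h3, h4, h5, h6, h7⟩ := hx
      by_cases h8 : (nm (x.2 * x.1 ^ 2) : ℝ) ≤ 2 ^ n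
      · left
        rw [mem_JWs]
        have hx2 : x.2 ≠ 0 := by
          rintro h0
          rw [h0, zero_mul, nm_zero] at h6
          norm_num at h6
        have e1 : (nm (x.2 * x.1 ^ 2) : ℝ) = nm x.2 * (nm x.1 : ℝ) ^ 2 := by
          rw [nm_mul, nm_pow]; push_cast; ring
        have g1 : (1 : ℝ) ≤ nm x.1 := by exact_mod_cast nm_pos.2 h1.ne_zero
        have g2 : (1 : ℝ) ≤ nm x.2 := by exact_mod_cast nm_pos.2 hx2
        rw [e1] at h8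
        refine ⟨⟨h1, ?_⟩, ?_, h4, h5, h6, by rw [e1]; exact h8⟩
        · apply Real.le_sqrt_of_sq_le
          nlinarith [sq_nonneg (nm x.1 : ℝ)]
        · rw [mem_ball]
          apply Nat.le_floor
          have : (nm x.2 : ℝ) * 1 ≤ nm x.2 * (nm x.1 : ℝ) ^ 2 :=
            mul_le_mul_of_nonneg_left (one_le_pow₀ g1) (by linarith)
          linarith
      · right
        rw [mem_JWs]
        exact ⟨⟨h1, h2⟩, h3, h4, h5, not_le.1 h8, h7⟩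
    · rintro (hx | hx)
      · exact JW_mono (by rw [pow_succ]; have : (0:ℝ) < 2 ^ n := by positivity
                          linarith) hx
      · rw [mem_JWs] at hx ⊢
        obtain ⟨h1, h3, h4, h5, h6, h7⟩ := hx
        refine ⟨h1, h3, h4, h5, ?_, h7⟩
        have : (1 : ℝ) ≤ 2 ^ n := one_le_pow₀ (by norm_num)
        linarith

/-! ### the sum over the levels -/

lemma StE_JL (E0 : ℝ) (om : Eis × Eis → ℂ) (α : Eis → ℂ) (n : ℕ) (k : Eis) :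
    StE E0 (JW (Real.sqrt (2 ^ n)) (1 / 10) (2 ^ n)) om α k =
      ∑ i ∈ range (n + 1), StE E0 (JL i) om α k := by
  unfold E2440.StE
  exact sum_JL _ n

lemma X2_JL (Y E0 : ℝ) (om : Eis × Eis → ℂ) (α : Eis → ℂ) (n : ℕ) :
    X2 Y E0 (JW (Real.sqrt (2 ^ n)) (1 / 10) (2 ^ n)) om α =
      ∑ i ∈ range (n + 1), X2 Y E0 (JL i) om α := by
  unfold I1146.X2
  exact sum_JL _ n

/-- the cross sum of a sum -/
lemma CrP_sum {w : ℝ → ℝ} (hw : Wgt w) {K : ℝ} (hK : 0 < K) (α : Eis → ℂ) {ι : Type*}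
    (s : Finset ι) (u : ι → Eis → ℂ) :
    CrP w K α (fun k => ∑ i ∈ s, u i k) = ∑ i ∈ s, CrP w K α (u i) := by
  obtain ⟨B, hB⟩ : ∃ B : ℝ, ∀ x, w x ≠ 0 → x ≤ B := by
    obtain ⟨B, hB⟩ := hw.cpt.isCompact.bddAbove
    exact ⟨B, fun x hx => hB (subset_tsupport _ hx)⟩
  have hfin : ∀ (v : Eis → ℂ) (k : Eis), k ∉ ball ⌊B * K⌋₊ →
      (if IsPrim k then ((w (nm k / K) : ℝ) : ℂ) * (CS α k * conj (v k)) else 0) = 0 := by
    intro v k hk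
    rw [mem_ball] at hk
    by_cases hp : IsPrim k
    · rw [if_pos hp]
      have h0 : w (nm k / K) = 0 := by
        by_contra h1
        apply hk
        have h2 := hB _ h1
        rw [div_le_iff₀ hK] at h2
        exact Nat.le_floor h2
      rw [h0]
      simp
    · rw [if_neg hp]
  unfold LB48.CrP
  rw [tsum_eq_sum (s := ball ⌊B * K⌋₊) (fun k hk => hfin (fun k => ∑ i ∈ s, u i k) k hk)]
  have h1 : ∀ i ∈ s, (∑' k : Eis, if IsPrim k then ((w (nm k / K) : ℝ) : ℂ) *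
      (CS α k * conj (u i k)) else 0) = ∑ k ∈ ball ⌊B * K⌋₊, if IsPrim k then
        ((w (nm k / K) : ℝ) : ℂ) * (CS α k * conj (u i k)) else 0 := fun i _ =>
    tsum_eq_sum (s := ball ⌊B * K⌋₊) (fun k hk => hfin (u i) k hk)
  rw [Finset.sum_congr rfl h1, Finset.sum_comm]
  refine Finset.sum_congr rfl fun k _ => ?_
  split_ifs
  · rw [map_sum, Finset.mul_sum, Finset.mul_sum]
  · rw [Finset.sum_const_zero]

/-- **the cross error is at most the sum of the cross errors of the levels** -/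
theorem cross_JL {w : ℝ → ℝ} (hw : Wgt w) {K : ℝ} (hK : 0 < K) (α : Eis → ℂ) (Q : Eis → Prop)
    (Y E0 : ℝ) (om : Eis × Eis → ℂ) (n : ℕ) (m : ℂ) :
    ‖CrP w K α (fun k => if Q k then StE E0 (JW (Real.sqrt (2 ^ n)) (1 / 10) (2 ^ n)) om α k
        else 0) - m * X2 Y E0 (JW (Real.sqrt (2 ^ n)) (1 / 10) (2 ^ n)) om α‖ ≤
      ∑ i ∈ range (n + 1), ‖CrP w K α (fun k => if Q k then StE E0 (JL i) om α k else 0) -
        m * X2 Y E0 (JL i) om α‖ := by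
  have e1 : (fun k => if Q k then StE E0 (JW (Real.sqrt (2 ^ n)) (1 / 10) (2 ^ n)) om α k
      else 0) = fun k => ∑ i ∈ range (n + 1), if Q k then StE E0 (JL i) om α k else 0 := by
    funext k
    split_ifs
    · exact StE_JL _ _ _ _ _
    · rw [Finset.sum_const_zero]
  rw [e1, CrP_sum hw hK, X2_JL, Finset.mul_sum, ← Finset.sum_sub_distrib]
  exact norm_sum_le _ _

/-- monotone in the window -/
lemma CellK.monoT {Kn : Eis → Eis → ℂ} {h : ℝ → ℝ} {P : DPar} {q : Eis} {ps : List Pq}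
    {G r M T T' E F : ℝ} {Sh : ℝ → ℝ → ℝ → ℝ} (H : CellK Kn h P q ps G r M T E F Sh)
    (hT : T' ≤ T) : CellK Kn h P q ps G r M T' E F Sh := by
  intro g hg hG b l ps' hb hbE hl hch hn hT'
  exact H g hg hG b l ps' hb hbE hl hch hn (by linarith)

end Crest.Agent.R017.I1K764
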