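import Crest.Agent.R012.Gauss_880
import Crest.Agent.R012.Mob_705

/-!
# Row 17: Gauss sums of a residue symbol of general order `n` (abstract)

`Sm m c` : `c` is primary and prime to `m`.
`Res n m σ` : `σ x c` is a residue symbol of exact order `n` (at every prime) for `c ∈ Sm m`.
(`n = 3, m = 1` : `sy`; `n = 2, m = 2` : the quadratic symbol; `n = 6, m = 2` : the sextic one.)

* `gR σ r c = Σ_{x mod c} σ(x, c) e(r x / c)`
* `tw σ j s p = Σ_{x mod p} σ(x, p)^j e(s x / p)`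
* `gR_crt`, `gR_mul_of_coprime`, the complete table of `gR (r p^a) (p^k)`
* `gR_dvd_bound` : `‖gR r c‖² ≤ N(c) N(d)` for some common divisor `d` of `r` and `c`.
-/

set_option autoImplicit false

noncomputable section

open Complex

namespace Crest.Agent.R017.Sx545

open Crest.Agent.R012 Crest.Agent.R012.Eis Crest.Agent.R012.Gauss880

/-- Primary and prime to `m`. -/
def Sm (m c : Eis) : Prop := IsPrim c ∧ IsCoprime c m

section Sm

variable {m c d : Eis}

lemma Sm.prim (h : Sm m c) : IsPrim c := h.1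
lemma Sm.cop (h : Sm m c) : IsCoprime c m := h.2
lemma Sm.ne_zero (h : Sm m c) : c ≠ 0 := h.1.ne_zero
lemma Sm.one (m : Eis) : Sm m 1 := ⟨isPrim_one, isCoprime_one_left⟩
lemma Sm.mul (h : Sm m c) (h' : Sm m d) : Sm m (c * d) := ⟨h.1.mul h'.1, h.2.mul_left h'.2⟩
lemma Sm.pow (h : Sm m c) (k : ℕ) : Sm m (c ^ k) := ⟨h.1.pow k, h.2.pow_left⟩
lemma Sm.of_mul_left (h : Sm m (c * d)) (h' : IsPrim c) : Sm m d :=
  ⟨h.1.of_mul_left h', h.2.of_mul_left_right⟩
lemma Sm.of_mul_right (h : Sm m (c * d)) (h' : IsPrim d) : Sm m c :=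
  ⟨h.1.of_mul_right h', h.2.of_mul_left_left⟩
lemma Sm.of_dvd (h : Sm m c) (hd : IsPrim d) (hdc : d ∣ c) : Sm m d :=
  ⟨hd, h.2.of_isCoprime_of_dvd_left hdc⟩
lemma Sm.not_lam_dvd (h : Sm m c) : ¬ lam ∣ c := h.1.not_lam_dvd

lemma sm_one_iff : Sm 1 c ↔ IsPrim c := ⟨fun h => h.1, fun h => ⟨h, isCoprime_one_right⟩⟩

lemma Sm.mul_iff (h : Sm m c) : Sm m (c * d) ↔ Sm m d :=
  ⟨fun h' => h'.of_mul_left h.1, fun h' => h.mul h'⟩

end Sm

/-- A residue symbol of order `n` (exactly, at every prime) on the moduli `c ∈ Sm m`. -/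
structure Res (n : ℕ) (m : Eis) (σ : Eis → Eis → ℂ) : Prop where
  npos : 0 < n
  mul_left : ∀ x y c, Sm m c → σ (x * y) c = σ x c * σ y c
  mul_right : ∀ x c d, Sm m c → Sm m d → σ x (c * d) = σ x c * σ x d
  congr : ∀ x y c, Sm m c → c ∣ x - y → σ x c = σ y c
  eq_zero : ∀ x c, Sm m c → (σ x c = 0 ↔ ¬ IsCoprime x c)
  pow_eq : ∀ x c, Sm m c → IsCoprime x c → σ x c ^ n = 1
  order : ∀ p, Sm m p → Prime p → ∀ j : ℕ, (∀ x, IsCoprime x p → σ x p ^ j = 1) → n ∣ j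

/-- `Σ_{x mod c} σ(x,c) e(r x/c)`. -/
def gR (σ : Eis → Eis → ℂ) (r c : Eis) : ℂ := gsum (fun x => σ x c) r c

/-- `Σ_{x mod p} σ(x,p)^j e(s x/p)`. -/
def tw (σ : Eis → Eis → ℂ) (j : ℕ) (s p : Eis) : ℂ := gsum (fun x => σ x p ^ j) s p

lemma gR_sy (r c : Eis) : gR sy r c = gs r c := rfl

variable {n : ℕ} {m : Eis} {σ : Eis → Eis → ℂ}

namespace Res

variable (H : Res n m σ)
include H

lemma one_left {c : Eis} (hc : Sm m c) : σ 1 c = 1 := by
  have h1 := H.mul_left 1 1 c hc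
  rw [one_mul] at h1
  have h2 : σ 1 c ≠ 0 := fun h => (H.eq_zero 1 c hc).mp h isCoprime_one_left
  field_simp at h1
  exact h1.symm

lemma one_right (x : Eis) : σ x 1 = 1 := by
  have h1 := H.mul_right x 1 1 (Sm.one m) (Sm.one m)
  rw [one_mul] at h1
  have h2 : σ x 1 ≠ 0 := fun h => (H.eq_zero x 1 (Sm.one m)).mp h isCoprime_one_right
  field_simp at h1
  exact h1.symm

lemma isCh {c : Eis} (hc : Sm m c) : IsCh c (fun x => σ x c) where
  one := H.one_left hc
  mul x y := H.mul_left x y c hc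
  per x t := H.congr _ _ _ hc (by simp)
  zero x hx := (H.eq_zero x c hc).mpr hx

lemma ne_zero {x c : Eis} (hc : Sm m c) (h : IsCoprime x c) : σ x c ≠ 0 :=
  fun h' => (H.eq_zero x c hc).mp h' h

lemma norm_eq_one {x c : Eis} (hc : Sm m c) (hx : IsCoprime x c) : ‖σ x c‖ = 1 :=
  (H.isCh hc).norm_eq_one hc.ne_zero hx

lemma norm_le_one (x : Eis) {c : Eis} (hc : Sm m c) : ‖σ x c‖ ≤ 1 :=
  (H.isCh hc).norm_le_one hc.ne_zero x

lemma mul_conj {x c : Eis} (hc : Sm m c) (h : IsCoprime x c) :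
    σ x c * (starRingEnd ℂ) (σ x c) = 1 := (H.isCh hc).mul_conj_self hc.ne_zero h

lemma conj_mul {x c : Eis} (hc : Sm m c) (h : IsCoprime x c) :
    (starRingEnd ℂ) (σ x c) * σ x c = 1 := by rw [mul_comm]; exact H.mul_conj hc h

lemma pow_left (x : Eis) {c : Eis} (hc : Sm m c) (k : ℕ) : σ (x ^ k) c = σ x c ^ k :=
  (H.isCh hc).pow x k

lemma pow_right (x : Eis) {c : Eis} (hc : Sm m c) (k : ℕ) : σ x (c ^ k) = σ x c ^ k := by
  induction k with
  | zero => rw [pow_zero, pow_zero, H.one_right]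
  | succ k ih => rw [pow_succ, H.mul_right _ _ _ (hc.pow k) hc, ih, pow_succ]

/-- `σ^{j}` only depends on `j` modulo `n` (on units). -/
lemma pow_mod {x c : Eis} (hc : Sm m c) (hx : IsCoprime x c) {i j : ℕ} (h : i % n = j % n) :
    σ x c ^ i = σ x c ^ j := by
  have h1 := H.pow_eq x c hc hx
  rw [← Nat.div_add_mod i n, ← Nat.div_add_mod j n, h, pow_add, pow_add, pow_mul, pow_mul, h1,
    one_pow, one_pow]

/-- `conj σ(x) = σ(x)^{n-1}`. -/
lemma conj_eq_pow (x : Eis) {c : Eis} (hc : Sm m c) (h2 : 2 ≤ n) :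
    (starRingEnd ℂ) (σ x c) = σ x c ^ (n - 1) := by
  by_cases hx : IsCoprime x c
  · have h1 := H.mul_conj hc hx
    have h3 := H.pow_eq x c hc hx
    apply mul_left_cancel₀ (H.ne_zero hc hx)
    rw [h1, ← h3, ← pow_succ']
    congr 1; omega
  · rw [(H.eq_zero x c hc).mpr hx, map_zero, zero_pow (by omega)]

/-- powers of the symbol are characters. -/
lemma isCh_pow {c : Eis} (hc : Sm m c) {j : ℕ} (hj : j ≠ 0) : IsCh c (fun x => σ x c ^ j) where
  one := by rw [H.one_left hc, one_pow]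
  mul x y := by rw [H.mul_left x y c hc, mul_pow]
  per x t := by
    simp only
    rw [H.congr (x + c * t) x c hc (by simp)]
  zero x hx := by rw [(H.eq_zero x c hc).mpr hx, zero_pow hj]

/-! ### general properties of `gR` -/

omit H in
lemma gR_congr {r s c : Eis} (h : c ∣ r - s) : gR σ r c = gR σ s c := gsum_congr h

theorem gR_mul_left {c : Eis} (hc : Sm m c) (r : Eis) {u : Eis} (hu : IsCoprime u c) :
    gR σ (r * u) c = (starRingEnd ℂ) (σ u c) * gR σ r c :=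
  gsum_mul_of_coprime hc.ne_zero (H.isCh hc) r hu

theorem gR_of_coprime {c : Eis} (hc : Sm m c) {r : Eis} (hr : IsCoprime r c) :
    gR σ r c = (starRingEnd ℂ) (σ r c) * gR σ 1 c :=
  gsum_of_coprime hc.ne_zero (H.isCh hc) hr

/-- `n`-th powers prime to `c` do not change the Gauss sum. -/
theorem gR_npow_left {c : Eis} (hc : Sm m c) (r : Eis) {u : Eis} (hu : IsCoprime u c) :
    gR σ (r * u ^ n) c = gR σ r c := by
  rw [H.gR_mul_left hc r hu.pow_left, H.pow_left u hc, H.pow_eq u c hc hu, map_one, one_mul]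

/-- twisted multiplicativity. -/
theorem gR_crt {c d : Eis} (hc : Sm m c) (hd : Sm m d) (hcd : IsCoprime c d) (r : Eis) :
    gR σ r (c * d) = σ d c * σ c d * (gR σ r c * gR σ r d) := by
  have h := gsum_crt hc.ne_zero hd.ne_zero hcd (H.isCh hc) (H.isCh hd) r
  unfold gR
  rw [← h]
  unfold gsum
  refine sumMod_congr fun x => ?_
  beta_reduce
  rw [H.mul_right x c d hc hd]

lemma gR_one_right (r : Eis) : gR σ r 1 = 1 := by
  have h1 : sumMod (1 : Eis) (fun _ => (1 : ℂ)) = 1 := by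
    rw [sumMod_const one_ne_zero]; simp
  rw [← h1]
  unfold gR gsum
  refine sumMod_congr fun x => ?_
  have h2 : eC (toC r * toC x / toC 1) = 1 := by
    rw [map_one, div_one, ← map_mul, eC_toC]
  beta_reduce
  rw [H.one_right, h2, one_mul]

theorem norm_gR_le (r : Eis) {c : Eis} (hc : Sm m c) : ‖gR σ r c‖ ≤ nm c :=
  norm_gsum_le hc.ne_zero (H.isCh hc) r

/-! ### prime moduli -/

omit H in
lemma isCoprime_iff_not_dvd {p : Eis} (hp : Prime p) (x : Eis) : IsCoprime x p ↔ ¬ p ∣ x := by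
  rw [isCoprime_comm]; exact hp.irreducible.coprime_iff_not_dvd

/-- `σ^j` is nontrivial modulo `p` if `n ∤ j`. -/
lemma exists_ne {p : Eis} (hp : Sm m p) (hpp : Prime p) {j : ℕ} (hj : ¬ n ∣ j) :
    ∃ u, IsCoprime u p ∧ σ u p ^ j ≠ 1 := by
  by_contra hcon
  push Not at hcon
  exact hj (H.order p hp hpp j hcon)

lemma primitive_pow {p : Eis} (hp : Sm m p) (hpp : Prime p) {j : ℕ} (hj : ¬ n ∣ j) :
    Primitive p (fun x => σ x p ^ j) := by
  obtain ⟨u, hu, h1⟩ := H.exists_ne hp hpp hj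
  have hj0 : j ≠ 0 := by rintro rfl; exact hj (dvd_zero n)
  exact primitive_of_prime hpp (H.isCh_pow hp hj0) hu h1

omit H in
lemma tw_congr {j : ℕ} {r s p : Eis} (h : p ∣ r - s) : tw σ j r p = tw σ j s p := gsum_congr h

omit H in
lemma tw_one (s p : Eis) : tw σ 1 s p = gR σ s p := by
  unfold tw gR; simp only [pow_one]

/-- `tw j s p = 0` for `p ∣ s`, `n ∤ j`. -/
lemma tw_of_dvd {p : Eis} (hp : Sm m p) (hpp : Prime p) {j : ℕ} (hj : ¬ n ∣ j) {s : Eis}
    (hs : p ∣ s) : tw σ j s p = 0 := by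
  apply H.primitive_pow hp hpp hj s
  rw [isCoprime_iff_not_dvd hpp]
  exact fun h => h hs

lemma tw_mul_left {p : Eis} (hp : Sm m p) {j : ℕ} (hj : j ≠ 0) (r : Eis) {u : Eis}
    (hu : IsCoprime u p) : tw σ j (r * u) p = (starRingEnd ℂ) (σ u p) ^ j * tw σ j r p := by
  have := gsum_mul_of_coprime hp.ne_zero (H.isCh_pow hp hj) r hu
  rw [← map_pow]; exact this

lemma norm_tw_sq {p : Eis} (hp : Sm m p) (hpp : Prime p) {j : ℕ} (hj : ¬ n ∣ j) {s : Eis}
    (hs : ¬ p ∣ s) : ‖tw σ j s p‖ ^ 2 = nm p := by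
  have hj0 : j ≠ 0 := by rintro rfl; exact hj (dvd_zero n)
  exact norm_gsum_sq hp.not_lam_dvd (H.isCh_pow hp hj0) (H.primitive_pow hp hpp hj)
    ((isCoprime_iff_not_dvd hpp s).mpr hs)

/-- `tw` only depends on `j` modulo `n`, for `j ≥ 1`. -/
lemma tw_mod {p : Eis} (hp : Sm m p) {i j : ℕ} (hi : i ≠ 0) (hj : j ≠ 0) (h : i % n = j % n)
    (s : Eis) : tw σ i s p = tw σ j s p := by
  unfold tw gsum
  refine sumMod_congr fun x => ?_
  congr 1
  beta_reduce
  by_cases hx : IsCoprime x p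
  · exact H.pow_mod hp hx h
  · rw [(H.eq_zero x p hp).mpr hx, zero_pow hi, zero_pow hj]

/-- the case `n ∣ j`: a Ramanujan sum. -/
lemma tw_of_dvd_exp {p : Eis} (hp : Sm m p) (hpp : Prime p) {j : ℕ} (hj0 : j ≠ 0) (hj : n ∣ j)
    (s : Eis) : tw σ j s p = (open Classical in if p ∣ s then (nm p : ℂ) else 0) - 1 := by
  classical
  have hp0 := hp.ne_zero
  unfold tw gsum
  have h1 : ∀ a, σ a p ^ j * eC (toC s * toC a / toC p) = eC (toC s * toC a / toC p) -
      (if p ∣ a then 1 else 0) := by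
    intro a
    by_cases h : p ∣ a
    · rw [if_pos h, (H.eq_zero a p hp).mpr (fun h' => (isCoprime_iff_not_dvd hpp a).mp h' h),
        zero_pow hj0, zero_mul]
      have := eC_congr_left (r := a) (s := 0) (c := p) (by simpa using h) s
      rw [mul_comm (toC s), this]; simp
    · have hc := (isCoprime_iff_not_dvd hpp a).mpr h
      obtain ⟨k, rfl⟩ := hj
      rw [if_neg h, pow_mul, H.pow_eq a p hp hc, one_pow, one_mul, sub_zero]
  rw [sumMod_congr h1, sumMod_sub hp0, sumMod_eC_of_not_lam_dvd hp.not_lam_dvd]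
  congr 1
  -- exactly one class
  let _ := @Fintype.ofFinite (QE p) (finite_QE hp0)
  rw [sumMod_of_finite hp0, Finset.sum_eq_single (mkQ p 0)]
  · rw [if_pos]
    have h3 : mkQ p (Quotient.out (mkQ p 0)) = mkQ p 0 := mkQ_out _
    rw [mkQ_eq_iff] at h3; simpa using h3
  · intro q _ hq
    rw [if_neg]
    intro h4
    apply hq
    rw [← mkQ_out q, mkQ_eq_iff]; simpa using h4
  · intro h; exact absurd (Finset.mem_univ _) h

/-- conjugation. -/
lemma conj_tw {p : Eis} (hp : Sm m p) {i j : ℕ} (hi : i ≠ 0) (hj : j ≠ 0)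
    (hij : (i + j) % n = 0) (s : Eis) :
    (starRingEnd ℂ) (tw σ i s p) = tw σ j (-s) p := by
  unfold tw
  rw [conj_gsum hp.ne_zero]
  unfold gsum
  refine sumMod_congr fun x => ?_
  congr 1
  beta_reduce
  by_cases hx : IsCoprime x p
  · have h1 : σ x p ^ i * σ x p ^ j = 1 := by
      rw [← pow_add, H.pow_mod hp hx (j := 0) (by rw [hij]; simp), pow_zero]
    have h2 : σ x p ^ i * (starRingEnd ℂ) (σ x p ^ i) = 1 := by
      rw [map_pow, ← mul_pow, H.mul_conj hp hx, one_pow]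
    have h0 : σ x p ^ i ≠ 0 := pow_ne_zero _ (H.ne_zero hp hx)
    exact mul_left_cancel₀ h0 (h2.trans h1.symm)
  · rw [(H.eq_zero x p hp).mpr hx, zero_pow hi, zero_pow hj, map_zero]

/-! ### prime powers -/

lemma sum_prime_pow (j : ℕ) (r : Eis) {p : Eis} (hp : Sm m p) (k : ℕ) :
    sumMod (p ^ (k + 1)) (fun x => σ x p ^ j * eC (toC r * toC x / toC (p ^ (k + 1)))) =
      open Classical in
      if p ^ k ∣ r then (nm p : ℂ) ^ k * sumMod p (fun a => σ a p ^ j *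
        eC (toC r * toC a / toC (p ^ (k + 1)))) else 0 := by
  have hp0 := hp.ne_zero
  have hp' : toC p ≠ 0 := by rwa [Ne, toC_eq_zero]
  have hper : PMod (p ^ (k + 1)) (fun x => σ x p ^ j * eC (toC r * toC x / toC (p ^ (k + 1)))) := by
    apply PMod.mul
    · have h1 : PMod p (fun x => σ x p ^ j) := fun x t => by
        simp only
        rw [H.congr (x + p * t) x p hp (by simp)]
      exact h1.mono (dvd_pow_self p (Nat.succ_ne_zero k))
    · exact pmod_eC r _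
  have e0 : p ^ (k + 1) = p * p ^ k := by ring
  rw [e0] at hper ⊢
  rw [sumMod_tower hp0 (pow_ne_zero k hp0) hper]
  have h1 : ∀ x, sumMod (p ^ k) (fun y => σ (x + p * y) p ^ j *
      eC (toC r * toC (x + p * y) / toC (p * p ^ k))) =
      σ x p ^ j * eC (toC r * toC x / toC (p * p ^ k)) *
        (open Classical in if p ^ k ∣ r then ((nm p : ℂ) ^ k) else 0) := by
    intro x
    have h2 : ∀ y, σ (x + p * y) p ^ j * eC (toC r * toC (x + p * y) / toC (p * p ^ k)) =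
        (σ x p ^ j * eC (toC r * toC x / toC (p * p ^ k))) *
          eC (toC r * toC y / toC (p ^ k)) := by
      intro y
      have e1 : σ (x + p * y) p = σ x p := H.congr _ _ _ hp ⟨y, by ring⟩
      have hpk : toC (p ^ k) ≠ 0 := by rw [Ne, toC_eq_zero]; exact pow_ne_zero _ hp0
      have e2 : toC r * toC (x + p * y) / toC (p * p ^ k) =
          toC r * toC x / toC (p * p ^ k) + toC r * toC y / toC (p ^ k) := by
        rw [map_add, map_mul toC p y, map_mul toC p (p ^ k)]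
        field_simp
      rw [e1, e2, eC_add]; ring
    rw [sumMod_congr h2, sumMod_mul_left (pow_ne_zero k hp0),
      sumMod_eC_of_not_lam_dvd ((hp.pow k).not_lam_dvd), nm_pow]
    push_cast
    rfl
  rw [sumMod_congr h1, sumMod_mul_right hp0]
  split_ifs
  · ring
  · rw [mul_zero]

/-- **vanishing**: `gR r (p^(k+1)) = 0` unless `p^k ∣ r`. -/
theorem gR_pow_of_not_dvd {r p : Eis} (hp : Sm m p) {k : ℕ} (h : ¬ p ^ k ∣ r) :
    gR σ r (p ^ (k + 1)) = 0 := by
  have h1 : gR σ r (p ^ (k + 1)) = sumMod (p ^ (k + 1)) (fun x => σ x p ^ (k + 1) *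
      eC (toC r * toC x / toC (p ^ (k + 1)))) := by
    unfold gR gsum
    refine sumMod_congr fun x => ?_
    beta_reduce
    rw [H.pow_right x hp]
  rw [h1, H.sum_prime_pow (k + 1) r hp k, if_neg h]

/-- `gR (s p^k) (p^(k+1)) = N(p)^k * tw (k+1) s p`. -/
theorem gR_pow (s : Eis) {p : Eis} (hp : Sm m p) (k : ℕ) :
    gR σ (s * p ^ k) (p ^ (k + 1)) = (nm p : ℂ) ^ k * tw σ (k + 1) s p := by
  have hp' : toC p ≠ 0 := by rw [Ne, toC_eq_zero]; exact hp.ne_zero
  have h1 : gR σ (s * p ^ k) (p ^ (k + 1)) = sumMod (p ^ (k + 1)) (fun x => σ x p ^ (k + 1) *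
      eC (toC (s * p ^ k) * toC x / toC (p ^ (k + 1)))) := by
    unfold gR gsum
    refine sumMod_congr fun x => ?_
    beta_reduce
    rw [H.pow_right x hp]
  rw [h1, H.sum_prime_pow (k + 1) _ hp k, if_pos (dvd_mul_left _ _)]
  congr 1
  unfold tw gsum
  refine sumMod_congr fun a => ?_
  congr 2
  rw [map_mul, map_pow, map_pow, pow_succ]
  field_simp

/-- the complete table, `1 ≤ k ≤ a` (Ramanujan range). -/
theorem gR_table_le {r p : Eis} (hp : Sm m p) (hpp : Prime p) {a k : ℕ} (hk : 1 ≤ k)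
    (hka : k ≤ a) : gR σ (r * p ^ a) (p ^ k) =
      if n ∣ k then (nm p : ℂ) ^ (k - 1) * (nm p - 1) else 0 := by
  obtain ⟨j, rfl⟩ : ∃ j, k = j + 1 := ⟨k - 1, by omega⟩
  have h1 : r * p ^ a = (r * p ^ (a - j)) * p ^ j := by
    rw [mul_assoc, ← pow_add]; congr 2; omega
  have h2 : p ∣ r * p ^ (a - j) := (dvd_pow_self p (by omega)).mul_left r
  rw [h1, H.gR_pow _ hp j]
  split_ifs with h
  · rw [H.tw_of_dvd_exp hp hpp (by omega) h, if_pos h2]; simp
  · rw [H.tw_of_dvd hp hpp h h2, mul_zero]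

/-- the complete table, `k = a + 1`. -/
theorem gR_table_succ (r : Eis) {p : Eis} (hp : Sm m p) (a : ℕ) :
    gR σ (r * p ^ a) (p ^ (a + 1)) = (nm p : ℂ) ^ a * tw σ (a + 1) r p := H.gR_pow r hp a

/-- the complete table, `p ∤ r`, `k ≥ a + 2`. -/
theorem gR_table_ge {r p : Eis} (hp : Sm m p) (hr : ¬ p ∣ r) {a k : ℕ}
    (hk : a + 2 ≤ k) : gR σ (r * p ^ a) (p ^ k) = 0 := by
  obtain ⟨j, rfl⟩ : ∃ j, k = j + 1 := ⟨k - 1, by omega⟩
  apply H.gR_pow_of_not_dvd hp
  intro h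
  apply hr
  have h1 : p ^ (a + 1) ∣ r * p ^ a := (pow_dvd_pow p (by omega)).trans h
  rw [pow_succ', mul_dvd_mul_iff_right (pow_ne_zero _ hp.ne_zero)] at h1
  exact h1

/-- frequency zero. -/
theorem gR_zero_pow {p : Eis} (hp : Sm m p) (hpp : Prime p) {k : ℕ} (hk : 1 ≤ k) :
    gR σ 0 (p ^ k) = if n ∣ k then (nm p : ℂ) ^ (k - 1) * (nm p - 1) else 0 := by
  have := H.gR_table_le (r := 0) hp hpp hk (le_refl k)
  rwa [zero_mul] at this

/-! ### general moduli -/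

omit H in
/-- splitting off the exact power of a prime. -/
lemma exists_split {p c : Eis} (hp : Sm m p) (hpp : Prime p) (hc : Sm m c) :
    ∃ k b, c = p ^ k * b ∧ ¬ p ∣ b ∧ Sm m b := by
  obtain ⟨k, b, hb, h⟩ := WfDvdMonoid.max_power_factor (a₀ := c) (x := p) hc.ne_zero
    hpp.irreducible
  refine ⟨k, b, h, hb, ?_⟩
  rw [h] at hc
  exact hc.of_mul_left (hp.pow k).prim

omit H in
lemma coprime_pow {p b : Eis} (hpp : Prime p) (hb : ¬ p ∣ b) (k : ℕ) : IsCoprime (p ^ k) b :=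
  (((isCoprime_iff_not_dvd hpp b).mpr hb).symm).pow_left

/-- the value at `p^k b`. -/
theorem gR_pow_mul {p b : Eis} (hp : Sm m p) (hpp : Prime p) (hb : Sm m b) (hpb : ¬ p ∣ b)
    (k : ℕ) (r : Eis) :
    gR σ r (p ^ k * b) = σ b p ^ k * σ p b ^ k * (gR σ r (p ^ k) * gR σ r b) := by
  rw [H.gR_crt (hp.pow k) hb (coprime_pow hpp hpb k), H.pow_right b hp, H.pow_left p hb]

/-- **vanishing**: `p^a ∥ r`, `p^(a+2) ∣ c`. -/
theorem gR_eq_zero {p c r : Eis} (hp : Sm m p) (hpp : Prime p) (hc : Sm m c) (hr : ¬ p ∣ r)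
    {a : ℕ} (h : p ^ (a + 2) ∣ c) : gR σ (r * p ^ a) c = 0 := by
  obtain ⟨k, b, rfl, hpb, hb⟩ := exists_split hp hpp hc
  have hk : a + 2 ≤ k := by
    by_contra hcon
    push Not at hcon
    have h2 : p ^ (k + 1) ∣ p ^ k * b := (pow_dvd_pow p (by omega)).trans h
    rw [pow_succ, mul_dvd_mul_iff_left (pow_ne_zero _ hp.ne_zero)] at h2
    exact hpb h2
  rw [H.gR_pow_mul hp hpp hb hpb, H.gR_table_ge hp hr hk]; ring

/-- **vanishing**, `p^k ∥ c` with `1 ≤ k ≤ a`, `n ∤ k`. -/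
theorem gR_eq_zero' {p b : Eis} (r : Eis) (hp : Sm m p) (hpp : Prime p) (hb : Sm m b)
    (hpb : ¬ p ∣ b) {a k : ℕ} (hk : 1 ≤ k) (hka : k ≤ a) (hn : ¬ n ∣ k) :
    gR σ (r * p ^ a) (p ^ k * b) = 0 := by
  rw [H.gR_pow_mul hp hpp hb hpb, H.gR_table_le hp hpp hk hka, if_neg hn]; ring

/-- primitivity for squarefree `c`, `n ≥ 2`. -/
theorem primitive {c : Eis} (hc : Sm m c) (hsf : Squarefree c) (hn : 2 ≤ n) :
    Primitive c (fun x => σ x c) := by
  intro r hr
  have hex : ∃ p, Prime p ∧ p ∣ r ∧ p ∣ c := by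
    by_contra hcon
    push Not at hcon
    apply hr
    refine isCoprime_of_prime_dvd (fun h => hc.ne_zero h.2) (fun p hp hpr hpc => ?_)
    exact hcon p hp hpr hpc
  obtain ⟨q, hq, hqr, hqc⟩ := hex
  have hql : ¬ lam ∣ q := fun h => hc.not_lam_dvd (h.trans hqc)
  have ha := prim_associated q
  have hpp : Prime (prim q) := ha.prime_iff.mp hq
  have hp : Sm m (prim q) := hc.of_dvd (prim_isPrim hql) (ha.symm.dvd.trans hqc)
  obtain ⟨s, hs⟩ := ha.symm.dvd.trans hqr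
  obtain ⟨e, he⟩ := ha.symm.dvd.trans hqc
  have hpe : Sm m e := by rw [he] at hc; exact hc.of_mul_left hp.prim
  have hcop : ¬ prim q ∣ e := by
    intro hd
    have : prim q * prim q ∣ c := by rw [he]; exact mul_dvd_mul_left _ hd
    exact hpp.not_isUnit (hsf _ this)
  have h := H.gR_eq_zero' s hp hpp hpe hcop (a := 1) (k := 1) le_rfl le_rfl
    (fun h => by have := Nat.le_of_dvd one_pos h; omega)
  rw [pow_one, ← he, mul_comm s, ← hs] at h
  exact h

theorem gR_squarefree {c : Eis} (hc : Sm m c) (hsf : Squarefree c) (hn : 2 ≤ n) (r : Eis) :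
    gR σ r c = (starRingEnd ℂ) (σ r c) * gR σ 1 c :=
  gsum_primitive hc.ne_zero (H.isCh hc) (H.primitive hc hsf hn) r

theorem norm_gR_sq {c : Eis} (hc : Sm m c) (hsf : Squarefree c) (hn : 2 ≤ n) {r : Eis}
    (hr : IsCoprime r c) : ‖gR σ r c‖ ^ 2 = nm c :=
  norm_gsum_sq hc.not_lam_dvd (H.isCh hc) (H.primitive hc hsf hn) hr

theorem norm_gR {c : Eis} (hc : Sm m c) (hsf : Squarefree c) (hn : 2 ≤ n) {r : Eis}
    (hr : IsCoprime r c) : ‖gR σ r c‖ = Real.sqrt (nm c) := by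
  rw [← H.norm_gR_sq hc hsf hn hr, Real.sqrt_sq (norm_nonneg _)]

omit H in
lemma exists_prime_sq_dvd {c : Eis} (hc : Sm m c) (hsf : ¬ Squarefree c) :
    ∃ p, Sm m p ∧ Prime p ∧ p ^ 2 ∣ c := by
  have hex : ∃ q : Eis, Prime q ∧ q * q ∣ c := by
    by_contra hcon
    push Not at hcon
    apply hsf
    rw [squarefree_iff_no_irreducibles hc.ne_zero]
    intro q hq h
    exact hcon q hq.prime h
  obtain ⟨q, hq, hqq⟩ := hex
  have hqc : q ∣ c := (dvd_mul_right q q).trans hqq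
  have hql : ¬ lam ∣ q := fun h => hc.not_lam_dvd (h.trans hqc)
  have ha := prim_associated q
  refine ⟨prim q, hc.of_dvd (prim_isPrim hql) (ha.symm.dvd.trans hqc), ha.prime_iff.mp hq, ?_⟩
  rw [pow_two]
  exact (ha.symm.mul_mul ha.symm).dvd.trans hqq

theorem gR_one_eq_zero {c : Eis} (hc : Sm m c) (hsf : ¬ Squarefree c) : gR σ 1 c = 0 := by
  obtain ⟨p, hp, hpp, hpc⟩ := exists_prime_sq_dvd hc hsf
  have h := H.gR_eq_zero (r := 1) (a := 0) hp hpp hc
    (fun h => hpp.not_isUnit (isUnit_of_dvd_one h)) (by simpa using hpc)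
  simpa using h

/-- `(r,c) = 1`, `c` not squarefree. -/
theorem gR_of_coprime_eq_zero {c r : Eis} (hc : Sm m c) (hsf : ¬ Squarefree c)
    (hr : IsCoprime r c) : gR σ r c = 0 := by
  rw [H.gR_of_coprime hc hr, H.gR_one_eq_zero hc hsf, mul_zero]

end Res

/-! ### induction over coprime prime powers -/

theorem Sm.induction_coprime {m : Eis} {P : Eis → Prop} (h1 : P 1)
    (hstep : ∀ p k b, Sm m p → Prime p → 1 ≤ k → Sm m b → ¬ p ∣ b → P b → P (p ^ k * b)) :
    ∀ c, Sm m c → P c := by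
  have key : ∀ N : ℕ, ∀ c, nm c ≤ N → Sm m c → P c := by
    intro N
    induction N with
    | zero =>
      intro c hN hc
      exact absurd (nm_eq_zero.mp (Nat.le_zero.mp hN)) hc.ne_zero
    | succ N ih =>
      intro c hN hc
      by_cases hc1 : c = 1
      · rw [hc1]; exact h1
      · obtain ⟨p, hp, hpc⟩ := Mob705.exists_pp_dvd_of_isPrim hc.prim hc1
        have hpS : Sm m p := hc.of_dvd hp.isPrim hpc
        obtain ⟨k, b, rfl, hpb, hb⟩ := Res.exists_split hpS hp.prime hc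
        have hk : 1 ≤ k := by
          by_contra hcon
          have : k = 0 := by omega
          subst this
          rw [pow_zero, one_mul] at hpc
          exact hpb hpc
        refine hstep p k b hpS hp.prime hk hb hpb (ih b ?_ hb)
        have h2 : 1 < nm p := hp.one_lt_nm
        have h3 : 0 < nm b := nm_pos.mpr hb.ne_zero
        have h4 : 1 < nm p ^ k := Nat.one_lt_pow (by omega) h2
        rw [nm_mul, nm_pow] at hN
        nlinarith
  exact fun c hc => key _ c le_rfl hc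

namespace Res

variable (H : Res n m σ)
include H

lemma norm_sq_pow {p : Eis} (hp : Sm m p) (hpp : Prime p) (r : Eis) {k : ℕ} (hk : 1 ≤ k) :
    ∃ d, d ∣ r ∧ d ∣ p ^ k ∧ ‖gR σ r (p ^ k)‖ ^ 2 ≤ nm (p ^ k) * nm d := by
  have htriv : ∀ c, Sm m c → ‖gR σ r c‖ ^ 2 ≤ (nm c : ℝ) * nm c := by
    intro c hc
    have := H.norm_gR_le r hc
    nlinarith [norm_nonneg (gR σ r c)]
  by_cases hr : p ^ k ∣ r
  · exact ⟨p ^ k, hr, dvd_rfl, htriv _ (hp.pow k)⟩
  · have hr0 : r ≠ 0 := by rintro rfl; exact hr (dvd_zero _)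
    obtain ⟨a, s, hs, rfl⟩ := WfDvdMonoid.max_power_factor (a₀ := r) (x := p) hr0
      hpp.irreducible
    have hak : a < k := by
      by_contra hcon
      push Not at hcon
      exact hr ((pow_dvd_pow p hcon).mul_right s)
    rw [mul_comm (p ^ a) s]
    rcases Nat.lt_or_ge (a + 1) k with h2 | h2
    · rw [H.gR_table_ge hp hs (by omega)]
      exact ⟨1, one_dvd _, one_dvd _, by simp⟩
    · have hk' : k = a + 1 := by omega
      subst hk'
      refine ⟨p ^ a, dvd_mul_left _ _, pow_dvd_pow p (by omega), ?_⟩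
      rw [H.gR_table_succ s hp a, norm_mul, mul_pow, nm_pow, nm_pow]
      have h3 : ‖tw σ (a + 1) s p‖ ^ 2 ≤ nm p := by
        by_cases hn : n ∣ a + 1
        · rw [H.tw_of_dvd_exp hp hpp (by omega) hn, if_neg hs]
          have : (1 : ℝ) ≤ nm p := by
            exact_mod_cast Nat.one_le_iff_ne_zero.mpr (fun h => hp.ne_zero (nm_eq_zero.mp h))
          simpa using this
        · exact (H.norm_tw_sq hp hpp hn hs).le
      have h4 : ‖((nm p : ℂ)) ^ a‖ ^ 2 = ((nm p : ℝ) ^ a) ^ 2 := by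
        rw [norm_pow, Complex.norm_natCast]
      rw [h4]
      push_cast
      have h5 : (0 : ℝ) ≤ ((nm p : ℝ) ^ a) ^ 2 := by positivity
      calc ((nm p : ℝ) ^ a) ^ 2 * ‖tw σ (a + 1) s p‖ ^ 2
          ≤ ((nm p : ℝ) ^ a) ^ 2 * nm p := mul_le_mul_of_nonneg_left h3 h5
        _ = (nm p : ℝ) ^ (a + 1) * (nm p : ℝ) ^ a := by ring

/-- the general bound `|g(r,c)|² ≤ N(c) N(d)`, `d` a common divisor of `r` and `c`. -/
theorem norm_gR_sq_le (r : Eis) {c : Eis} (hc : Sm m c) :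
    ∃ d, d ∣ r ∧ d ∣ c ∧ ‖gR σ r c‖ ^ 2 ≤ nm c * nm d := by
  refine Sm.induction_coprime (m := m)
    (P := fun c => ∃ d, d ∣ r ∧ d ∣ c ∧ ‖gR σ r c‖ ^ 2 ≤ nm c * nm d) ?_ ?_ c hc
  · refine ⟨1, one_dvd _, one_dvd _, ?_⟩
    rw [H.gR_one_right]; simp
  · rintro p k b hp hpp hk hb hpb ⟨d, hdr, hdb, hd⟩
    obtain ⟨e, her, hep, he⟩ := H.norm_sq_pow hp hpp r hk
    have hcop : IsCoprime (p ^ k) b := coprime_pow hpp hpb k
    have hed : IsCoprime e d := (hcop.of_isCoprime_of_dvd_left hep).of_isCoprime_of_dvd_right hdb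
    refine ⟨e * d, hed.mul_dvd her hdr, mul_dvd_mul hep hdb, ?_⟩
    rw [H.gR_pow_mul hp hpp hb hpb]
    have h1 : ‖σ b p ^ k * σ p b ^ k‖ ≤ 1 := by
      rw [norm_mul, norm_pow, norm_pow]
      have h2 := pow_le_one₀ (n := k) (norm_nonneg _) (H.norm_le_one b hp)
      have h3 := pow_le_one₀ (n := k) (norm_nonneg _) (H.norm_le_one p hb)
      exact mul_le_one₀ h2 (by positivity) h3
    rw [norm_mul, norm_mul (gR σ r (p ^ k)), mul_pow, mul_pow, nm_mul, nm_mul]
    push_cast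
    have h4 : ‖σ b p ^ k * σ p b ^ k‖ ^ 2 ≤ 1 := pow_le_one₀ (norm_nonneg _) h1
    calc ‖σ b p ^ k * σ p b ^ k‖ ^ 2 * (‖gR σ r (p ^ k)‖ ^ 2 * ‖gR σ r b‖ ^ 2)
        ≤ 1 * (‖gR σ r (p ^ k)‖ ^ 2 * ‖gR σ r b‖ ^ 2) :=
          mul_le_mul_of_nonneg_right h4 (by positivity)
      _ = ‖gR σ r (p ^ k)‖ ^ 2 * ‖gR σ r b‖ ^ 2 := one_mul _
      _ ≤ ((nm (p ^ k) : ℝ) * nm e) * ((nm b : ℝ) * nm d) :=
          mul_le_mul he hd (by positivity) (by positivity)
      _ = _ := by ring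

/-- `‖g(r,c)‖² ≤ N(c) N(r)`, `r ≠ 0`. -/
theorem norm_gR_sq_le' {r c : Eis} (hr : r ≠ 0) (hc : Sm m c) :
    ‖gR σ r c‖ ^ 2 ≤ (nm c : ℝ) * nm r := by
  obtain ⟨d, hdr, -, h⟩ := H.norm_gR_sq_le r hc
  refine h.trans ?_
  have : nm d ≤ nm r := Div277.nm_le_of_dvd hr hdr
  have h2 : (nm d : ℝ) ≤ nm r := by exact_mod_cast this
  exact mul_le_mul_of_nonneg_left h2 (by positivity)

end Res

end Crest.Agent.R017.Sx545
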