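import Crest.Agent.R012.PsiRel_283
import Crest.Agent.R012.CrossA_869
import Crest.Agent.R012.Mob_705
import Crest.Agent.R017.Sx3a_545

/-!
# Row 17, block C70 (near-equal 5-boxes), leaf E2, part a (helper440): natural cubic series

`NT M u φ = Σ_{e, d primary, prime to M} N(e)² conj (gs u d) φ(d e³)` is the natural cubic series at
frequency `u` (in `F1.Cg` notation `Cg u (fL f)` for `M = 1`, `φ k = f (toC k)`).
Local relations, `p` prime to `M`, `p ∤ h`, `q = nm p`: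

* `NT_rem0 : NT (M p) h φ = NT M h φ - √q conj (G p) (h/p) NT M (h p) (φ (p ·))`
* `NT_rem1 : NT (M p) (h p) φ = NT M (h p) φ - q √q conj (h/p) G(p) NT M h (φ (p² ·))`
* `NT_rem2 : NT (M p) (h p²) φ = NT M (h p²) φ`
-/

set_option autoImplicit false
set_option linter.unusedVariables false
set_option linter.unusedSectionVars false

noncomputable section

open Complex
open scoped ComplexConjugate

namespace Crest.Agent.R017.E2440

open Crest.Agent.R012 Crest.Agent.R012.Eis Crest.Agent.R012.GaussLoc283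
open Crest.Agent.R017.Sx545 (Sm)

/-! ### decay and summability -/

/-- decay of order `3` in the norm. -/
def Dcy (φ : Eis → ℂ) : Prop := ∃ C : ℝ, ∀ k, k ≠ 0 → ‖φ k‖ ≤ C * ((nm k : ℝ) ^ 3)⁻¹

lemma one_le_nm {k : Eis} (hk : k ≠ 0) : (1 : ℝ) ≤ nm k := by exact_mod_cast nm_pos.mpr hk

lemma Dcy.nonneg {φ : Eis → ℂ} (h : Dcy φ) :
    ∃ C : ℝ, 0 ≤ C ∧ ∀ k, k ≠ 0 → ‖φ k‖ ≤ C * ((nm k : ℝ) ^ 3)⁻¹ := by
  obtain ⟨C, hC⟩ := h
  refine ⟨|C|, abs_nonneg _, fun k hk => (hC k hk).trans ?_⟩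
  exact mul_le_mul_of_nonneg_right (le_abs_self C) (by positivity)

lemma Dcy.dil {φ : Eis → ℂ} (h : Dcy φ) {p : Eis} (hp : p ≠ 0) : Dcy (fun k => φ (p * k)) := by
  obtain ⟨C, hC0, hC⟩ := h.nonneg
  refine ⟨C, fun k hk => (hC _ (mul_ne_zero hp hk)).trans ?_⟩
  apply mul_le_mul_of_nonneg_left _ hC0
  rw [nm_mul, Nat.cast_mul]
  have h1 := one_le_nm hp
  have h2 := one_le_nm hk
  gcongr
  nlinarith

lemma Dcy.mul_bdd {φ : Eis → ℂ} (h : Dcy φ) {g : Eis → ℂ} {B : ℝ}
    (hg : ∀ k, k ≠ 0 → ‖g k‖ ≤ B) : Dcy (fun k => g k * φ k) := by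
  obtain ⟨C, hC0, hC⟩ := h.nonneg
  refine ⟨|B| * C, fun k hk => ?_⟩
  rw [norm_mul, mul_assoc]
  exact mul_le_mul ((hg k hk).trans (le_abs_self B)) (hC k hk) (norm_nonneg _) (abs_nonneg _)

/-- the inner sum -/
def DS (M u : Eis) (ψ : Eis → ℂ) : ℂ := by
  classical
  exact ∑' d : Eis, if Sm M d then conj (gs u d) * ψ d else 0

/-- the natural cubic series at frequency `u` -/
def NT (M u : Eis) (φ : Eis → ℂ) : ℂ := by
  classical
  exact ∑' e : Eis, if Sm M e then (nm e : ℂ) ^ 2 * DS M u (fun d => φ (d * e ^ 3)) else 0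

lemma summable_nm2 : Summable (fun x : Eis => ((nm x : ℝ) ^ 2)⁻¹) := by
  have h := Cross869.summable_nm (s := 2) (by norm_num)
  refine h.congr fun x => ?_
  rw [Real.rpow_neg (by positivity)]
  norm_num

/-- the constant -/
def K0 : ℝ := ∑' x : Eis, ((nm x : ℝ) ^ 2)⁻¹

lemma K0_nonneg : 0 ≤ K0 := tsum_nonneg fun x => by positivity

open Classical in
lemma ds_term_le {M u : Eis} {ψ : Eis → ℂ} {C : ℝ} (hC0 : 0 ≤ C)
    (hC : ∀ k, k ≠ 0 → ‖ψ k‖ ≤ C * ((nm k : ℝ) ^ 3)⁻¹) (d : Eis) :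
    ‖if Sm M d then conj (gs u d) * ψ d else 0‖ ≤ C * ((nm d : ℝ) ^ 2)⁻¹ := by
  split_ifs with h
  · have hd := h.ne_zero
    have h1 := one_le_nm hd
    rw [norm_mul, RCLike.norm_conj]
    calc ‖gs u d‖ * ‖ψ d‖ ≤ nm d * (C * ((nm d : ℝ) ^ 3)⁻¹) :=
          mul_le_mul (norm_gs_le syAx u h.prim) (hC d hd) (norm_nonneg _) (by positivity)
      _ = C * ((nm d : ℝ) ^ 2)⁻¹ := by
          have : (nm d : ℝ) ≠ 0 := by linarith
          field_simp
  · rw [norm_zero]; positivity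

open Classical in
lemma summable_DS {M u : Eis} {ψ : Eis → ℂ} (h : Dcy ψ) :
    Summable (fun d : Eis => if Sm M d then conj (gs u d) * ψ d else 0) := by
  obtain ⟨C, hC0, hC⟩ := h.nonneg
  exact Summable.of_norm_bounded (summable_nm2.mul_left C) (ds_term_le hC0 hC)

lemma norm_DS_le {M u : Eis} {ψ : Eis → ℂ} {C : ℝ} (hC0 : 0 ≤ C)
    (hC : ∀ k, k ≠ 0 → ‖ψ k‖ ≤ C * ((nm k : ℝ) ^ 3)⁻¹) : ‖DS M u ψ‖ ≤ C * K0 := by
  classical
  unfold DS K0
  rw [← tsum_mul_left]
  exact tsum_of_norm_bounded (summable_nm2.mul_left C).hasSum (ds_term_le hC0 hC)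

lemma dcy_cube {φ : Eis → ℂ} {C : ℝ} (hC0 : 0 ≤ C)
    (hC : ∀ k, k ≠ 0 → ‖φ k‖ ≤ C * ((nm k : ℝ) ^ 3)⁻¹) {e : Eis} (he : e ≠ 0) :
    ∀ k, k ≠ 0 → ‖φ (k * e ^ 3)‖ ≤ (C * ((nm e : ℝ) ^ 9)⁻¹) * ((nm k : ℝ) ^ 3)⁻¹ := by
  intro k hk
  refine (hC _ (mul_ne_zero hk (pow_ne_zero 3 he))).trans (le_of_eq ?_)
  rw [nm_mul, nm_pow]
  have h1 : (nm e : ℝ) ≠ 0 := by have := one_le_nm he; linarith
  have h2 : (nm k : ℝ) ≠ 0 := by have := one_le_nm hk; linarith
  push_cast
  field_simp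

lemma Dcy.cube {φ : Eis → ℂ} (h : Dcy φ) {e : Eis} (he : e ≠ 0) :
    Dcy (fun k => φ (k * e ^ 3)) := by
  obtain ⟨C, hC0, hC⟩ := h.nonneg
  exact ⟨_, dcy_cube hC0 hC he⟩

open Classical in
/-- a summability criterion for the `e`-sums -/
lemma summable_e {M : Eis} {A : Eis → ℂ} {C : ℝ} (hC0 : 0 ≤ C)
    (hA : ∀ e, Sm M e → ‖A e‖ ≤ C * ((nm e : ℝ) ^ 9)⁻¹) :
    Summable (fun e : Eis => if Sm M e then (nm e : ℂ) ^ 2 * A e else 0) ∧
      ‖∑' e : Eis, (if Sm M e then (nm e : ℂ) ^ 2 * A e else 0)‖ ≤ C * K0 := by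
  have h1 : ∀ e, ‖if Sm M e then (nm e : ℂ) ^ 2 * A e else 0‖ ≤ C * ((nm e : ℝ) ^ 2)⁻¹ := by
    intro e
    split_ifs with h
    · have h2 := one_le_nm h.ne_zero
      rw [norm_mul, norm_pow, Complex.norm_natCast]
      calc (nm e : ℝ) ^ 2 * ‖A e‖ ≤ (nm e : ℝ) ^ 2 * (C * ((nm e : ℝ) ^ 9)⁻¹) :=
            mul_le_mul_of_nonneg_left (hA e h) (by positivity)
        _ = C * ((nm e : ℝ) ^ 7)⁻¹ := by
            have : (nm e : ℝ) ≠ 0 := by linarith
            field_simp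
        _ ≤ C * ((nm e : ℝ) ^ 2)⁻¹ := by
            apply mul_le_mul_of_nonneg_left _ hC0
            apply inv_anti₀ (by positivity)
            exact pow_le_pow_right₀ h2 (by norm_num)
    · rw [norm_zero]; positivity
  refine ⟨Summable.of_norm_bounded (summable_nm2.mul_left C) h1, ?_⟩
  unfold K0
  rw [← tsum_mul_left]
  exact tsum_of_norm_bounded (summable_nm2.mul_left C).hasSum h1

open Classical in
lemma summable_NT {M u : Eis} {φ : Eis → ℂ} (h : Dcy φ) :
    Summable (fun e : Eis => if Sm M e then (nm e : ℂ) ^ 2 * DS M u (fun d => φ (d * e ^ 3)) else 0) := by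
  obtain ⟨C, hC0, hC⟩ := h.nonneg
  refine (summable_e (C := C * K0) (mul_nonneg hC0 K0_nonneg) fun e he => ?_).1
  refine (norm_DS_le (C := C * ((nm e : ℝ) ^ 9)⁻¹) (by positivity) (dcy_cube hC0 hC he.ne_zero)).trans
    (le_of_eq (by ring))

lemma norm_NT_le {M u : Eis} {φ : Eis → ℂ} {C : ℝ} (hC0 : 0 ≤ C)
    (hC : ∀ k, k ≠ 0 → ‖φ k‖ ≤ C * ((nm k : ℝ) ^ 3)⁻¹) : ‖NT M u φ‖ ≤ C * K0 * K0 := by
  classical
  unfold NT
  refine (summable_e (C := C * K0) (mul_nonneg hC0 K0_nonneg) fun e he => ?_).2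
  refine (norm_DS_le (C := C * ((nm e : ℝ) ^ 9)⁻¹) (by positivity) (dcy_cube hC0 hC he.ne_zero)).trans
    (le_of_eq (by ring))

/-! ### splitting off a prime -/

section split

variable {M p : Eis}

lemma sm_mul_right : Sm (M * p) = fun d => Sm M d ∧ IsCoprime d p := by
  funext d
  unfold Sm
  rw [IsCoprime.mul_right_iff, and_assoc]

lemma cop_iff (hpp : Prime p) (d : Eis) : IsCoprime d p ↔ ¬ p ∣ d := isCoprime_iff_not_dvd hpp d

open Classical in
/-- `Σ_{d prime to M} = Σ_{d prime to M p} + Σ_{d prime to M} F (p d)` -/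
theorem sum_split (hp : Sm M p) (hpp : Prime p) {F : Eis → ℂ}
    (hF : Summable (fun d => if Sm M d then F d else 0)) :
    ∑' d, (if Sm M d then F d else 0) =
      ∑' d, (if Sm (M * p) d then F d else 0) + ∑' d, (if Sm M d then F (p * d) else 0) := by
  have h0 : ∀ d, (if Sm M d then F d else 0) = (if Sm (M * p) d then F d else 0) +
      (if Sm M d ∧ p ∣ d then F d else 0) := by
    intro d
    rw [sm_mul_right]
    by_cases h1 : Sm M d <;> by_cases h2 : p ∣ d <;> simp [h1, h2, cop_iff hpp]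
  have hA : Summable (fun d => if Sm (M * p) d then F d else 0) := by
    refine Summable.of_norm_bounded hF.norm fun d => ?_
    rw [sm_mul_right]
    by_cases h1 : Sm M d <;> by_cases h2 : IsCoprime d p <;> simp [h1, h2]
  have hB : Summable (fun d => if Sm M d ∧ p ∣ d then F d else 0) := by
    refine Summable.of_norm_bounded hF.norm fun d => ?_
    by_cases h1 : Sm M d <;> by_cases h2 : p ∣ d <;> simp [h1, h2]
  rw [tsum_congr h0, hA.tsum_add hB]
  congr 1
  have hinj : Function.Injective (fun d : Eis => p * d) := mul_right_injective₀ hp.ne_zero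
  rw [← hinj.tsum_eq (f := fun d => if Sm M d ∧ p ∣ d then F d else 0)]
  · refine tsum_congr fun d => ?_
    have h1 : Sm M (p * d) ↔ Sm M d := hp.mul_iff
    simp only [h1, dvd_mul_right, and_true]
  · intro d hd
    rw [Function.mem_support] at hd
    by_cases h1 : Sm M d ∧ p ∣ d
    · obtain ⟨c, hc⟩ := h1.2
      exact ⟨c, hc.symm⟩
    · simp [h1] at hd

open Classical in
lemma summable_dil (hp : Sm M p) {F : Eis → ℂ}
    (hF : Summable (fun d => if Sm M d then F d else 0)) :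
    Summable (fun d => if Sm M d then F (p * d) else 0) := by
  have hinj : Function.Injective (fun d : Eis => p * d) := mul_right_injective₀ hp.ne_zero
  have := hF.comp_injective hinj
  refine this.congr fun d => ?_
  simp only [Function.comp]
  have h1 : Sm M (p * d) ↔ Sm M d := hp.mul_iff
  simp only [h1]

end split

/-! ### one prime, inner sums -/

section one

variable {M p h : Eis}

lemma sqrtC_mul_self (p : Eis) : ((Real.sqrt (nm p) : ℝ) : ℂ) * ((Real.sqrt (nm p) : ℝ) : ℂ) = nm p := by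
  rw [← Complex.ofReal_mul, Real.mul_self_sqrt (by positivity)]
  simp

/-- `gs h p = conj (h/p) √q G p` -/
lemma gs_prime_eq (hp : IsPrim p) (hpp : Prime p) (hh : ¬ p ∣ h) :
    gs h p = conj (sy h p) * (((Real.sqrt (nm p) : ℝ) : ℂ) * G p) := by
  rw [gs_eq_conj_mul syAx hp ((cop_iff hpp h).mpr hh), Gauss880.gs_one_eq hp]

lemma gs_p_mul (hp : IsPrim p) (hpp : Prime p) (hh : ¬ p ∣ h) {d : Eis} (hd : IsPrim d)
    (hpd : IsCoprime d p) :
    gs h (p * d) = conj (sy h p) * (((Real.sqrt (nm p) : ℝ) : ℂ) * G p) * gs (h * p) d := by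
  rw [gs_mul' syAx h hp hd hpd.symm, gs_prime_eq hp hpp hh]

lemma gs_p2_mul (hp : IsPrim p) (hpp : Prime p) (hh : ¬ p ∣ h) {d : Eis} (hd : IsPrim d)
    (hpd : IsCoprime d p) :
    gs (h * p) (p ^ 2 * d) =
      (nm p : ℂ) * (sy h p * (((Real.sqrt (nm p) : ℝ) : ℂ) * conj (G p))) * gs h d := by
  rw [gs_mul' syAx (h * p) (hp.pow 2) hd (hpd.symm.pow_left), gs_p_sq syAx hp,
    gs_prime_eq hp hpp hh]
  have e : h * p * p ^ 2 = h * p ^ 3 := by ring
  rw [e, gs_cube_left syAx h hd hpd.symm, map_mul, map_mul, Complex.conj_conj, Complex.conj_ofReal]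

lemma gs_p3_mul (hp : IsPrim p) (hpp : Prime p) (hh : ¬ p ∣ h) {d : Eis} (hd : IsPrim d)
    (hpd : IsCoprime d p) :
    gs (h * p ^ 2) (p ^ 3 * d) = -(nm p : ℂ) ^ 2 * gs (h * p ^ 2) d := by
  rw [gs_mul' syAx (h * p ^ 2) (hp.pow 3) hd (hpd.symm.pow_left), gs_sq_cube syAx hp hpp hh]
  have e : h * p ^ 2 * p ^ 3 = (h * p ^ 2) * p ^ 3 := by ring
  rw [gs_cube_left syAx (h * p ^ 2) hd hpd.symm]

/-- vanishing at a power of `p` (`c = p^j d`, `p ∤ d`) -/
lemma gs_pow_mul_eq_zero {u : Eis} (hp : IsPrim p) {j : ℕ} {d : Eis} (hd : IsPrim d)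
    (hpd : IsCoprime d p) (hz : gs u (p ^ j) = 0) : gs u (p ^ j * d) = 0 := by
  rw [gs_mul' syAx u (hp.pow j) hd (hpd.symm.pow_left), hz, zero_mul]

/-- `gs u c = 0` if `p^j ∣ c` and `gs u (p^i) = 0` for all `i ≥ j` -/
lemma gs_eq_zero_of_pow_dvd {u : Eis} (hp : IsPrim p) (hpp : Prime p) {j : ℕ} {c : Eis}
    (hc : IsPrim c) (hz : ∀ i, j ≤ i → gs u (p ^ i) = 0) : gs u (p ^ j * c) = 0 := by
  have hfin : FiniteMultiplicity p c := FiniteMultiplicity.of_prime_left hpp hc.ne_zero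
  obtain ⟨d, hd, hnd⟩ := hfin.exists_eq_pow_mul_and_not_dvd
  set m := multiplicity p c
  have hdp : IsPrim d := (hd ▸ hc : IsPrim (p ^ m * d)).of_mul_left (hp.pow m)
  rw [hd, ← mul_assoc, ← pow_add]
  exact gs_pow_mul_eq_zero hp hdp ((cop_iff hpp d).mpr hnd) (hz _ (by omega))

lemma DS_p0 (hp : Sm M p) (hpp : Prime p) (hh : ¬ p ∣ h) {ψ : Eis → ℂ} (hψ : Dcy ψ) :
    DS M h ψ = DS (M * p) h ψ + (((Real.sqrt (nm p) : ℝ) : ℂ) * (conj (G p) * sy h p)) *
      DS (M * p) (h * p) (fun d => ψ (p * d)) := by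
  classical
  have hs := summable_DS (M := M) (u := h) hψ
  have hs1 := summable_dil hp hs
  have h1 : DS M h ψ = _ := sum_split hp hpp hs
  have h2 := sum_split hp hpp hs1
  rw [h1, h2]
  have h3 : ∀ d, (if Sm M d then conj (gs h (p * (p * d))) * ψ (p * (p * d)) else 0) = 0 := by
    intro d
    split_ifs with hd
    · have : p * (p * d) = p ^ 2 * d := by ring
      rw [this, gs_eq_zero_of_pow_dvd hp.prim hpp hd.prim
        (fun i hi => gs_pow_ge_two syAx hp.prim hpp hh hi)]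
      simp
    · rfl
  rw [tsum_congr h3, tsum_zero, add_zero]
  unfold DS
  rw [← tsum_mul_left]
  congr 1
  refine tsum_congr fun d => ?_
  split_ifs with hd
  · rw [sm_mul_right] at hd
    rw [gs_p_mul hp.prim hpp hh hd.1.prim hd.2]
    simp only [map_mul, Complex.conj_conj, Complex.conj_ofReal]
    ring
  · simp

lemma DS_p1 (hp : Sm M p) (hpp : Prime p) (hh : ¬ p ∣ h) {ψ : Eis → ℂ} (hψ : Dcy ψ) :
    DS M (h * p) ψ = DS (M * p) (h * p) ψ +
      ((nm p : ℂ) * ((Real.sqrt (nm p) : ℝ) : ℂ) * (conj (sy h p) * G p)) *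
        DS (M * p) h (fun d => ψ (p ^ 2 * d)) := by
  classical
  have hs := summable_DS (M := M) (u := h * p) hψ
  have hs1 := summable_dil hp hs
  have hs2 := summable_dil hp hs1
  have h1 : DS M (h * p) ψ = _ := sum_split hp hpp hs
  have h2 := sum_split hp hpp hs1
  have h3 := sum_split hp hpp hs2
  rw [h1, h2, h3]
  have z1 : ∀ d, (if Sm (M * p) d then conj (gs (h * p) (p * d)) * ψ (p * d) else 0) = 0 := by
    intro d
    split_ifs with hd
    · rw [sm_mul_right] at hd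
      have := gs_pow_mul_eq_zero (u := h * p) (j := 1) hp.prim hd.1.prim hd.2
        (by rw [pow_one]; exact gs_mul_p_prime syAx hp.prim hpp)
      rw [pow_one] at this
      rw [this]; simp
    · rfl
  have z3 : ∀ d, (if Sm M d then conj (gs (h * p) (p * (p * (p * d)))) * ψ (p * (p * (p * d)))
      else 0) = 0 := by
    intro d
    split_ifs with hd
    · have : p * (p * (p * d)) = p ^ 3 * d := by ring
      rw [this, gs_eq_zero_of_pow_dvd hp.prim hpp hd.prim
        (fun i hi => gs_p_pow_ge_three syAx hp.prim hpp hh hi)]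
      simp
    · rfl
  rw [tsum_congr z1, tsum_congr z3, tsum_zero, zero_add, add_zero]
  unfold DS
  rw [← tsum_mul_left]
  congr 1
  refine tsum_congr fun d => ?_
  split_ifs with hd
  · rw [sm_mul_right] at hd
    have e : p * (p * d) = p ^ 2 * d := by ring
    rw [e, gs_p2_mul hp.prim hpp hh hd.1.prim hd.2]
    simp only [map_mul, Complex.conj_conj, Complex.conj_ofReal, map_natCast]
    ring
  · simp

lemma DS_p2 (hp : Sm M p) (hpp : Prime p) (hh : ¬ p ∣ h) {ψ : Eis → ℂ} (hψ : Dcy ψ) :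
    DS M (h * p ^ 2) ψ = DS (M * p) (h * p ^ 2) ψ -
      (nm p : ℂ) ^ 2 * DS (M * p) (h * p ^ 2) (fun d => ψ (p ^ 3 * d)) := by
  classical
  have hs := summable_DS (M := M) (u := h * p ^ 2) hψ
  have hs1 := summable_dil hp hs
  have hs2 := summable_dil hp hs1
  have hs3 := summable_dil hp hs2
  have h1 : DS M (h * p ^ 2) ψ = _ := sum_split hp hpp hs
  have h2 := sum_split hp hpp hs1
  have h3 := sum_split hp hpp hs2
  have h4 := sum_split hp hpp hs3
  rw [h1, h2, h3, h4]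
  have z1 : ∀ d, (if Sm (M * p) d then conj (gs (h * p ^ 2) (p * d)) * ψ (p * d) else 0) = 0 := by
    intro d
    split_ifs with hd
    · rw [sm_mul_right] at hd
      have := gs_pow_mul_eq_zero (u := h * p ^ 2) (j := 1) hp.prim hd.1.prim hd.2
        (by rw [pow_one]; exact gs_sq_p syAx hp.prim hpp)
      rw [pow_one] at this
      rw [this]; simp
    · rfl
  have z2 : ∀ d, (if Sm (M * p) d then conj (gs (h * p ^ 2) (p * (p * d))) * ψ (p * (p * d))
      else 0) = 0 := by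
    intro d
    split_ifs with hd
    · rw [sm_mul_right] at hd
      have := gs_pow_mul_eq_zero (u := h * p ^ 2) (j := 2) hp.prim hd.1.prim hd.2
        (gs_sq_sq syAx hp.prim hpp)
      have e : p * (p * d) = p ^ 2 * d := by ring
      rw [e, this]; simp
    · rfl
  have z4 : ∀ d, (if Sm M d then conj (gs (h * p ^ 2) (p * (p * (p * (p * d))))) *
      ψ (p * (p * (p * (p * d)))) else 0) = 0 := by
    intro d
    split_ifs with hd
    · have : p * (p * (p * (p * d))) = p ^ 4 * d := by ring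
      rw [this, gs_eq_zero_of_pow_dvd hp.prim hpp hd.prim
        (fun i hi => gs_sq_pow_ge_four syAx hp.prim hpp hh hi)]
      simp
    · rfl
  rw [tsum_congr z1, tsum_congr z2, tsum_congr z4, tsum_zero, zero_add, zero_add, add_zero,
    sub_eq_add_neg, ← neg_mul]
  unfold DS
  rw [← tsum_mul_left]
  congr 1
  refine tsum_congr fun d => ?_
  split_ifs with hd
  · rw [sm_mul_right] at hd
    have e : p * (p * (p * d)) = p ^ 3 * d := by ring
    rw [e, gs_p3_mul hp.prim hpp hh hd.1.prim hd.2]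
    simp only [map_mul, map_neg, map_pow, map_natCast]
    ring
  · simp

end one

end Crest.Agent.R017.E2440
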