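import Crest.Agent.R017.E2a_440

/-!
# Row 17, block C70, leaf E2, part b (helper440): removal of a prime from the natural cubic series
-/

set_option autoImplicit false
set_option linter.unusedVariables false
set_option linter.unusedSectionVars false

noncomputable section

open Complex
open scoped ComplexConjugate

namespace Crest.Agent.R017.E2440

open Crest.Agent.R012 Crest.Agent.R012.Eis Crest.Agent.R012.GaussLoc283
open Crest.Agent.R017.Sx545 (Sm)

variable {M p h : Eis}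

/-- telescoping in the `e`-sum -/
lemma tele (hp : Sm M p) (hpp : Prime p) {A : Eis → ℂ} {C : ℝ} (hC0 : 0 ≤ C)
    (hA : ∀ e, e ≠ 0 → ‖A e‖ ≤ C * ((nm e : ℝ) ^ 9)⁻¹) :
    open Classical in
    ∑' e, (if Sm M e then (nm e : ℂ) ^ 2 * (A e - (nm p : ℂ) ^ 2 * A (p * e)) else 0) =
      ∑' e, (if Sm (M * p) e then (nm e : ℂ) ^ 2 * A e else 0) := by
  classical
  have h1 := (summable_e (M := M) hC0 fun e he => hA e he.ne_zero).1
  have h2 := sum_split hp hpp h1
  have h3 := summable_dil hp h1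
  have h4 : ∀ e, (if Sm M e then (nm e : ℂ) ^ 2 * (A e - (nm p : ℂ) ^ 2 * A (p * e)) else 0) =
      (if Sm M e then (nm e : ℂ) ^ 2 * A e else 0) -
        (if Sm M e then (nm (p * e) : ℂ) ^ 2 * A (p * e) else 0) := by
    intro e
    split_ifs with he
    · rw [nm_mul]; push_cast; ring
    · simp
  rw [tsum_congr h4, h1.tsum_sub h3, h2, add_sub_cancel_right]

lemma dcy_const {φ : Eis → ℂ} {C : ℝ} (hC0 : 0 ≤ C)
    (hC : ∀ k, k ≠ 0 → ‖φ k‖ ≤ C * ((nm k : ℝ) ^ 3)⁻¹) {t : Eis} (ht : t ≠ 0) :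
    ∀ k, k ≠ 0 → ‖φ (t * k)‖ ≤ C * ((nm k : ℝ) ^ 3)⁻¹ := by
  intro k hk
  refine (hC _ (mul_ne_zero ht hk)).trans ?_
  apply mul_le_mul_of_nonneg_left _ hC0
  rw [nm_mul, Nat.cast_mul]
  have h1 := one_le_nm ht
  have h2 := one_le_nm hk
  gcongr
  nlinarith

/-- the norm of the coefficient sums at `e` -/
lemma norm_DS_cube_le {u : Eis} {φ : Eis → ℂ} {C : ℝ} (hC0 : 0 ≤ C)
    (hC : ∀ k, k ≠ 0 → ‖φ k‖ ≤ C * ((nm k : ℝ) ^ 3)⁻¹) (e : Eis) (he : e ≠ 0) :
    ‖DS M u (fun d => φ (d * e ^ 3))‖ ≤ (C * K0) * ((nm e : ℝ) ^ 9)⁻¹ :=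
  (norm_DS_le (C := C * ((nm e : ℝ) ^ 9)⁻¹) (by positivity) (dcy_cube hC0 hC he)).trans
    (le_of_eq (by ring))

/-- the coefficient at `p ∤ h` -/
def c0 (p h : Eis) : ℂ := ((Real.sqrt (nm p) : ℝ) : ℂ) * (conj (G p) * sy h p)

/-- the coefficient at `p ∥ h p` -/
def c1 (p h : Eis) : ℂ := (nm p : ℂ) * ((Real.sqrt (nm p) : ℝ) : ℂ) * (conj (sy h p) * G p)

lemma c0_mul_c1 (hp : IsPrim p) (hpp : Prime p) (hh : ¬ p ∣ h) : c0 p h * c1 p h = (nm p : ℂ) ^ 2 := by
  unfold c0 c1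
  have h1 : G p * conj (G p) = 1 := Gauss880.G_mul_conj Gauss880.syG hp hpp.squarefree
  have h2 : sy h p * conj (sy h p) = 1 := syAx.mul_conj hp ((cop_iff hpp h).mpr hh)
  have h3 := sqrtC_mul_self p
  calc _ = (nm p : ℂ) * (((Real.sqrt (nm p) : ℝ) : ℂ) * ((Real.sqrt (nm p) : ℝ) : ℂ)) *
        (G p * conj (G p)) * (sy h p * conj (sy h p)) := by ring
    _ = _ := by rw [h1, h2, h3]; ring

theorem NT_rem0 (hp : Sm M p) (hpp : Prime p) (hh : ¬ p ∣ h) {φ : Eis → ℂ} (hφ : Dcy φ) :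
    NT (M * p) h φ = NT M h φ - c0 p h * NT M (h * p) (fun k => φ (p * k)) := by
  classical
  obtain ⟨C, hC0, hC⟩ := hφ.nonneg
  have hp0 := hp.ne_zero
  have hs1 := summable_NT (M := M) (u := h) hφ
  have hs2 := (summable_NT (M := M) (u := h * p) (hφ.dil hp0)).mul_left (c0 p h)
  have e1 : NT M h φ - c0 p h * NT M (h * p) (fun k => φ (p * k)) =
      ∑' e, (if Sm M e then (nm e : ℂ) ^ 2 *
        (DS (M * p) h (fun d => φ (d * e ^ 3)) - (nm p : ℂ) ^ 2 *
          DS (M * p) h (fun d => φ (d * (p * e) ^ 3))) else 0) := by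
    unfold NT
    rw [← tsum_mul_left, ← hs1.tsum_sub hs2]
    refine tsum_congr fun e => ?_
    split_ifs with he
    · rw [DS_p0 hp hpp hh (hφ.cube he.ne_zero),
        DS_p1 hp hpp hh (ψ := fun d => φ (p * (d * e ^ 3))) ((hφ.dil hp0).cube he.ne_zero)]
      have h2 := c0_mul_c1 hp.prim hpp hh
      have h3 : (fun d => φ (p * (p ^ 2 * d * e ^ 3))) = (fun d => φ (d * (p * e) ^ 3)) := by
        funext d; congr 1; ring
      have h4 : (fun d => φ (p * d * e ^ 3)) = (fun d => φ (p * (d * e ^ 3))) := by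
        funext d; congr 1; ring
      simp only [h3, h4]
      rw [← h2]
      unfold c0 c1
      ring
    · simp
  rw [e1, tele hp hpp (C := C * K0) (mul_nonneg hC0 K0_nonneg)
    (A := fun e => DS (M * p) h (fun d => φ (d * e ^ 3)))
    (fun e he => norm_DS_cube_le hC0 hC e he)]
  rfl

theorem NT_rem1 (hp : Sm M p) (hpp : Prime p) (hh : ¬ p ∣ h) {φ : Eis → ℂ} (hφ : Dcy φ) :
    NT (M * p) (h * p) φ = NT M (h * p) φ - c1 p h * NT M h (fun k => φ (p ^ 2 * k)) := by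
  classical
  obtain ⟨C, hC0, hC⟩ := hφ.nonneg
  have hp0 := hp.ne_zero
  have hs1 := summable_NT (M := M) (u := h * p) hφ
  have hs2 := (summable_NT (M := M) (u := h) (hφ.dil (pow_ne_zero 2 hp0))).mul_left (c1 p h)
  have e1 : NT M (h * p) φ - c1 p h * NT M h (fun k => φ (p ^ 2 * k)) =
      ∑' e, (if Sm M e then (nm e : ℂ) ^ 2 *
        (DS (M * p) (h * p) (fun d => φ (d * e ^ 3)) - (nm p : ℂ) ^ 2 *
          DS (M * p) (h * p) (fun d => φ (d * (p * e) ^ 3))) else 0) := by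
    unfold NT
    rw [← tsum_mul_left, ← hs1.tsum_sub hs2]
    refine tsum_congr fun e => ?_
    split_ifs with he
    · rw [DS_p1 hp hpp hh (hφ.cube he.ne_zero),
        DS_p0 hp hpp hh (ψ := fun d => φ (p ^ 2 * (d * e ^ 3)))
          ((hφ.dil (pow_ne_zero 2 hp0)).cube he.ne_zero)]
      have h2 := c0_mul_c1 hp.prim hpp hh
      have h3 : (fun d => φ (p ^ 2 * (p * d * e ^ 3))) = (fun d => φ (d * (p * e) ^ 3)) := by
        funext d; congr 1; ring
      have h4 : (fun d => φ (p ^ 2 * d * e ^ 3)) = (fun d => φ (p ^ 2 * (d * e ^ 3))) := by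
        funext d; congr 1; ring
      simp only [h3, h4]
      rw [← h2]
      unfold c0 c1
      ring
    · simp
  rw [e1, tele hp hpp (C := C * K0) (mul_nonneg hC0 K0_nonneg)
    (A := fun e => DS (M * p) (h * p) (fun d => φ (d * e ^ 3)))
    (fun e he => norm_DS_cube_le hC0 hC e he)]
  rfl

theorem NT_rem2 (hp : Sm M p) (hpp : Prime p) (hh : ¬ p ∣ h) {φ : Eis → ℂ} (hφ : Dcy φ) :
    NT (M * p) (h * p ^ 2) φ = NT M (h * p ^ 2) φ := by
  classical
  obtain ⟨C, hC0, hC⟩ := hφ.nonneg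
  have hp0 := hp.ne_zero
  have e1 : NT M (h * p ^ 2) φ =
      ∑' e, (if Sm M e then (nm e : ℂ) ^ 2 *
        (DS (M * p) (h * p ^ 2) (fun d => φ (d * e ^ 3)) - (nm p : ℂ) ^ 2 *
          DS (M * p) (h * p ^ 2) (fun d => φ (d * (p * e) ^ 3))) else 0) := by
    unfold NT
    refine tsum_congr fun e => ?_
    split_ifs with he
    · rw [DS_p2 hp hpp hh (hφ.cube he.ne_zero)]
      have h3 : (fun d => φ (p ^ 3 * d * e ^ 3)) = (fun d => φ (d * (p * e) ^ 3)) := by
        funext d; congr 1; ring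
      simp only [h3]
    · rfl
  rw [e1, tele hp hpp (C := C * K0) (mul_nonneg hC0 K0_nonneg)
    (A := fun e => DS (M * p) (h * p ^ 2) (fun d => φ (d * e ^ 3)))
    (fun e he => norm_DS_cube_le hC0 hC e he)]
  rfl

/-! ### splitting the `e`-sum (used for the theta identity) -/

/-- `NT M u φ - q² NT M u (φ (p³ ·)) = Σ_{e prime to M p} ..` -/
theorem NT_step (hp : Sm M p) (hpp : Prime p) (u : Eis) {φ : Eis → ℂ} (hφ : Dcy φ) :
    open Classical in
    NT M u φ = (∑' e, if Sm (M * p) e then (nm e : ℂ) ^ 2 * DS M u (fun d => φ (d * e ^ 3)) else 0) +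
      (nm p : ℂ) ^ 2 * NT M u (fun k => φ (p ^ 3 * k)) := by
  classical
  have h1 := summable_NT (M := M) (u := u) hφ
  have h2 : NT M u φ = _ := sum_split hp hpp h1
  rw [h2]
  congr 1
  unfold NT
  rw [← tsum_mul_left]
  refine tsum_congr fun e => ?_
  split_ifs with he
  · rw [nm_mul]
    have : (fun d => φ (d * (p * e) ^ 3)) = (fun d => φ (p ^ 3 * (d * e ^ 3))) := by
      funext d; congr 1; ring
    rw [this]; push_cast; ring
  · simp

/-- `p ∥ h p`: `NT M (h p) φ = NT (M p) (h p) φ + c1 NT (M p) h (φ (p² ·)) + q² NT M (h p) (φ (p³ ·))` -/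
theorem NT_step1 (hp : Sm M p) (hpp : Prime p) (hh : ¬ p ∣ h) {φ : Eis → ℂ} (hφ : Dcy φ) :
    NT M (h * p) φ = NT (M * p) (h * p) φ + c1 p h * NT (M * p) h (fun k => φ (p ^ 2 * k)) +
      (nm p : ℂ) ^ 2 * NT M (h * p) (fun k => φ (p ^ 3 * k)) := by
  classical
  have hp0 := hp.ne_zero
  rw [NT_step hp hpp (h * p) hφ]
  congr 1
  unfold NT
  have hs1 := summable_NT (M := M * p) (u := h * p) hφ
  have hs2 := (summable_NT (M := M * p) (u := h) (hφ.dil (pow_ne_zero 2 hp0))).mul_left (c1 p h)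
  rw [← tsum_mul_left, ← hs1.tsum_add hs2]
  refine tsum_congr fun e => ?_
  split_ifs with he
  · rw [DS_p1 hp hpp hh (hφ.cube he.ne_zero)]
    have h4 : (fun d => φ (p ^ 2 * d * e ^ 3)) = (fun d => φ (p ^ 2 * (d * e ^ 3))) := by
      funext d; congr 1; ring
    simp only [h4]
    unfold c1
    ring
  · simp

/-- `p ∤ h`: `NT M h φ = NT (M p) h φ + c0 NT (M p) (h p) (φ (p ·)) + q² NT M h (φ (p³ ·))` -/
theorem NT_step0 (hp : Sm M p) (hpp : Prime p) (hh : ¬ p ∣ h) {φ : Eis → ℂ} (hφ : Dcy φ) :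
    NT M h φ = NT (M * p) h φ + c0 p h * NT (M * p) (h * p) (fun k => φ (p * k)) +
      (nm p : ℂ) ^ 2 * NT M h (fun k => φ (p ^ 3 * k)) := by
  classical
  have hp0 := hp.ne_zero
  rw [NT_step hp hpp h hφ]
  congr 1
  unfold NT
  have hs1 := summable_NT (M := M * p) (u := h) hφ
  have hs2 := (summable_NT (M := M * p) (u := h * p) (hφ.dil hp0)).mul_left (c0 p h)
  rw [← tsum_mul_left, ← hs1.tsum_add hs2]
  refine tsum_congr fun e => ?_
  split_ifs with he
  · rw [DS_p0 hp hpp hh (hφ.cube he.ne_zero)]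
    have h4 : (fun d => φ (p * d * e ^ 3)) = (fun d => φ (p * (d * e ^ 3))) := by
      funext d; congr 1; ring
    simp only [h4]
    unfold c0
    ring
  · simp

end Crest.Agent.R017.E2440
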