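import Crest.Agent.R017.E2c_440
import Crest.Agent.R012.Div_277
import Crest.Agent.R017.CM1_106

/-!
# Row 17, block C70, leaf E2, part d (helper440): the pair identity

* `NT_tw` : a twist by `sy · q` moves into the frequency
* `prs n` : ordered factorisations `n = x.1 * x.2` (primary)
* `NT_rmv` : removal of a squarefree modulus
* `NT_rmv2` : removal of `ν` at the frequency `v ν²`
* `pair_id` : `Σ_k th (r k) sy k n conj (sy k ν) φ k` as a sum of natural cubic series
-/

set_option autoImplicit false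
set_option linter.unusedVariables false
set_option linter.unusedSectionVars false

noncomputable section

open Complex
open scoped ComplexConjugate

namespace Crest.Agent.R017.E2440

open Crest.Agent.R012 Crest.Agent.R012.Eis Crest.Agent.R012.GaussLoc283
open Crest.Agent.R012.Mob705 Crest.Agent.R012.Div277
open Crest.Agent.R017.Sx545 (Sm)
open Crest.Agent.R017.PX764 (th Gh n6)

/-! ### twists -/

lemma sy_cube_one {e q : Eis} (hq : IsPrim q) (h : IsCoprime e q) (d : Eis) :
    sy (d * e ^ 3) q = sy d q := by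
  rw [syAx.mul_left _ _ _ hq, show e ^ 3 = e * (e * e) by ring, syAx.mul_left _ _ _ hq,
    syAx.mul_left _ _ _ hq]
  have := syAx.cube e q hq h
  rw [show sy e q * (sy e q * sy e q) = sy e q ^ 3 by ring, this, mul_one]

theorem NT_tw {M q : Eis} (hq : IsPrim q) (hqM : ∀ d, IsCoprime d M → IsCoprime d q) (r : Eis)
    (φ : Eis → ℂ) : NT M r (fun k => sy k q * φ k) = NT M (r * q) φ := by
  classical
  unfold NT
  refine tsum_congr fun e => ?_
  split_ifs with he
  · congr 1
    unfold DS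
    refine tsum_congr fun d => ?_
    split_ifs with hd
    · simp only
      have h1 : sy (d * e ^ 3) q = sy d q := sy_cube_one hq (hqM e he.2) d
      have h2 : gs (r * q) d = conj (sy q d) * gs r d :=
        Gauss880.gs_mul_of_coprime Gauss880.syG hd.1 r (hqM d hd.2).symm
      rw [h1, h2, map_mul, Complex.conj_conj, syAx.recip d q hd.1 hq]
      ring
    · rfl
  · rfl

/-! ### ordered factorisations -/

/-- ordered factorisations into primary factors -/
def prs (n : Eis) : Finset (Eis × Eis) := by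
  classical
  exact ((dvs n) ×ˢ (dvs n)).filter (fun x => x.1 * x.2 = n)

lemma mem_prs {n : Eis} (hn : IsPrim n) {x : Eis × Eis} :
    x ∈ prs n ↔ IsPrim x.1 ∧ IsPrim x.2 ∧ x.1 * x.2 = n := by
  classical
  unfold prs
  rw [Finset.mem_filter, Finset.mem_product, mem_dvs hn.ne_zero, mem_dvs hn.ne_zero]
  constructor
  · rintro ⟨⟨h1, h2⟩, h3⟩
    exact ⟨h1.1, h2.1, h3⟩
  · rintro ⟨h1, h2, h3⟩
    exact ⟨⟨⟨h1, h3 ▸ dvd_mul_right _ _⟩, ⟨h2, h3 ▸ dvd_mul_left _ _⟩⟩, h3⟩

lemma prs_one : prs 1 = {((1 : Eis), (1 : Eis))} := by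
  classical
  ext x
  rw [mem_prs isPrim_one, Finset.mem_singleton]
  constructor
  · rintro ⟨h1, h2, h3⟩
    have e1 : x.1 = 1 := isPrim_eq_one_of_isUnit h1 (IsUnit.of_mul_eq_one _ h3)
    have e2 : x.2 = 1 := by rw [e1, one_mul] at h3; exact h3
    exact Prod.ext e1 e2
  · rintro rfl
    exact ⟨isPrim_one, isPrim_one, one_mul _⟩

lemma sum_prs_p {R : Type*} [AddCommMonoid R] {p n : Eis} (hp : IsPrim p) (hpp : Prime p)
    (hn : IsPrim n) (hpn : ¬ p ∣ n) (F : Eis × Eis → R) :
    ∑ x ∈ prs (p * n), F x = ∑ x ∈ prs n, (F (x.1, p * x.2) + F (p * x.1, x.2)) := by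
  classical
  have hp0 := hpp.ne_zero
  have i1 : Set.InjOn (fun x : Eis × Eis => (x.1, p * x.2)) (prs n : Set (Eis × Eis)) := by
    rintro x - y - h
    simp only [Prod.mk.injEq] at h
    exact Prod.ext h.1 (mul_left_cancel₀ hp0 h.2)
  have i2 : Set.InjOn (fun x : Eis × Eis => (p * x.1, x.2)) (prs n : Set (Eis × Eis)) := by
    rintro x - y - h
    simp only [Prod.mk.injEq] at h
    exact Prod.ext (mul_left_cancel₀ hp0 h.1) h.2
  rw [Finset.sum_add_distrib, ← Finset.sum_image (f := F) i1, ← Finset.sum_image (f := F) i2,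
    ← Finset.sum_union]
  · refine Finset.sum_congr ?_ fun _ _ => rfl
    ext x
    rw [mem_prs (hp.mul hn), Finset.mem_union, Finset.mem_image, Finset.mem_image]
    constructor
    · rintro ⟨h1, h2, h3⟩
      have hd : p ∣ x.1 * x.2 := h3 ▸ dvd_mul_right _ _
      rcases hpp.dvd_or_dvd hd with h | h
      · right
        obtain ⟨y, hy⟩ := h
        have hy1 : IsPrim y := (hy ▸ h1 : IsPrim (p * y)).of_mul_left hp
        refine ⟨(y, x.2), (mem_prs hn).mpr ⟨hy1, h2, ?_⟩, ?_⟩
        · rw [hy, mul_assoc] at h3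
          exact mul_left_cancel₀ hp0 h3
        · exact Prod.ext hy.symm rfl
      · left
        obtain ⟨y, hy⟩ := h
        have hy1 : IsPrim y := (hy ▸ h2 : IsPrim (p * y)).of_mul_left hp
        refine ⟨(x.1, y), (mem_prs hn).mpr ⟨h1, hy1, ?_⟩, ?_⟩
        · rw [hy, mul_left_comm] at h3
          exact mul_left_cancel₀ hp0 h3
        · exact Prod.ext rfl hy.symm
    · rintro (⟨y, hy, rfl⟩ | ⟨y, hy, rfl⟩)
      · obtain ⟨h1, h2, h3⟩ := (mem_prs hn).mp hy
        refine ⟨h1, hp.mul h2, ?_⟩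
        simp only
        rw [← h3]; ring
      · obtain ⟨h1, h2, h3⟩ := (mem_prs hn).mp hy
        refine ⟨hp.mul h1, h2, ?_⟩
        simp only
        rw [← h3]; ring
  · rw [Finset.disjoint_left]
    rintro x hx hx'
    rw [Finset.mem_image] at hx hx'
    obtain ⟨y, hy, rfl⟩ := hx
    obtain ⟨z, hz, hzz⟩ := hx'
    obtain ⟨-, -, h3⟩ := (mem_prs hn).mp hy
    simp only [Prod.mk.injEq] at hzz
    exact hpn (h3 ▸ (Dvd.intro _ hzz.1 : p ∣ y.1).mul_right _)

/-! ### removal -/

lemma G_one' : G (1 : Eis) = 1 := by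
  have h := Gauss880.G_mul_conj Gauss880.syG isPrim_one squarefree_one
  have h2 := PX764.Gh_mul (h := 1) isPrim_one isPrim_one
  unfold PX764.Gh at h2
  rw [mul_one, syAx.one_right, map_one, mul_one] at h2
  have h3 : G (1 : Eis) ≠ 0 := left_ne_zero_of_mul_eq_one h
  exact (mul_left_cancel₀ h3 (by rw [mul_one]; exact h2)).symm

/-- the coefficient of the removal -/
def cB (B : Eis) : ℂ := (muE B : ℂ) * ((nm B : ℂ) * ((Real.sqrt (nm B) : ℝ) : ℂ)) * G B

lemma cB_one : cB 1 = 1 := by
  unfold cB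
  rw [muE_one, nm_one, G_one']
  simp

/-- `cB (p B) conj (h/(p B)) = - cB B conj ((h p)/B) c1 p h` -/
lemma cB_step {p B h : Eis} (hp : IsPrim p) (hpp : Prime p) (hB : IsPrim B) (hpB : ¬ p ∣ B) :
    cB (p * B) * conj (sy h (p * B)) = -(cB B * conj (sy (h * p) B) * c1 p h) := by
  have hcop : IsCoprime p B := ((hpp.irreducible).coprime_iff_not_dvd).mpr hpB
  unfold cB c1
  rw [muE_mul hpp.ne_zero hB.ne_zero hcop, muE_prime hpp, Gauss880.G_mul_all Gauss880.syG hp hB,
    syAx.mul_right h p B hp hB, syAx.mul_left h p B hB, nm_mul]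
  have h1 : Real.sqrt ((nm p * nm B : ℕ) : ℝ) = Real.sqrt (nm p) * Real.sqrt (nm B) := by
    rw [Nat.cast_mul, Real.sqrt_mul (Nat.cast_nonneg _)]
  rw [h1]
  simp only [map_mul]
  push_cast
  ring

theorem NT_rmv : ∀ (N : ℕ) (n : Eis), nm n ≤ N → Squarefree n → ∀ (M v : Eis), Sm M n →
    (∀ p, IsPP p → p ∣ n → ¬ p ^ 2 ∣ v) → ∀ φ : Eis → ℂ, Dcy φ →
    NT (M * n) (v * n) φ = ∑ x ∈ prs n, cB x.1 * conj (sy (v * x.2) x.1) *
      NT M (v * x.2) (fun k => φ (x.1 ^ 2 * k)) := by
  intro N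
  induction N with
  | zero =>
    intro n hn _ M v hM
    have := nm_pos.mpr hM.ne_zero
    omega
  | succ N ih =>
    intro n hn hsq M v hM hv φ hφ
    by_cases h1 : n = 1
    · subst h1
      rw [prs_one, Finset.sum_singleton, cB_one, syAx.one_right]
      simp
    · obtain ⟨p, hp, hpn⟩ := exists_pp_dvd_of_isPrim hM.prim h1
      obtain ⟨m, rfl⟩ := hpn
      have hp1 := hp.isPrim
      have hpp := hp.prime
      have hp0 := hpp.ne_zero
      have hm1 : IsPrim m := hM.prim.of_mul_left hp1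
      have hmS : Sm M m := hM.of_mul_left hp1
      have hpS : Sm M p := hM.of_dvd hp1 (dvd_mul_right _ _)
      have hsm : Squarefree m := hsq.of_mul_right
      have hpm : ¬ p ∣ m := by
        intro h
        exact hpp.not_isUnit (hsq p (mul_dvd_mul_left p h))
      have hcop : IsCoprime p m := ((hpp.irreducible).coprime_iff_not_dvd).mpr hpm
      have hnm : nm m ≤ N := by
        have h2 : nm (p * m) = nm p * nm m := nm_mul _ _
        have h3 := hp.four_le_nm
        have h4 := nm_pos.mpr hm1.ne_zero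
        have h5 : 4 * nm m ≤ nm p * nm m := Nat.mul_le_mul_right _ h3
        omega
      have hMm : Sm (M * p) m := ⟨hm1, hmS.2.mul_right hcop.symm⟩
      have e1 : M * (p * m) = (M * p) * m := by ring
      have e2 : v * (p * m) = (v * p) * m := by ring
      rw [e1, e2, ih m hnm hsm (M * p) (v * p) hMm (fun q hq hqm hq2 => ?_) φ hφ,
        sum_prs_p hp1 hpp hm1 hpm]
      swap
      · -- `q² ∣ v p` is impossible
        have hqp : q ≠ p := fun h => hpm (h ▸ hqm)
        have h3 : IsCoprime (q ^ 2) p := (hq.isCoprime hp hqp).pow_left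
        exact hv q hq (hqm.mul_left _) (h3.dvd_of_dvd_mul_right hq2)
      refine Finset.sum_congr rfl fun x hx => ?_
      obtain ⟨hx1, hx2, hx3⟩ := (mem_prs hm1).mp hx
      have hpx1 : ¬ p ∣ x.1 := fun h => hpm (hx3 ▸ h.mul_right _)
      have hpx2 : ¬ p ∣ x.2 := fun h => hpm (hx3 ▸ h.mul_left _)
      have hφ2 : Dcy (fun k => φ (x.1 ^ 2 * k)) := hφ.dil (pow_ne_zero 2 hx1.ne_zero)
      simp only
      have e3 : v * p * x.2 = (v * x.2) * p := by ring
      have e4 : v * (p * x.2) = (v * x.2) * p := by ring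
      rw [e3, e4]
      by_cases hpv : p ∣ v
      · -- `p ∣ v`
        obtain ⟨v', rfl⟩ := hpv
        have hpv' : ¬ p ∣ v' * x.2 := by
          intro h
          rcases hpp.dvd_or_dvd h with h | h
          · exact hv p hp (dvd_mul_right _ _) (by rw [pow_two]; exact mul_dvd_mul_left p h)
          · exact hpx2 h
        have e5 : p * v' * x.2 * p = (v' * x.2) * p ^ 2 := by ring
        have h6 : sy (p * v' * x.2) (p * x.1) = 0 := by
          rw [syAx.eq_zero _ _ (hp1.mul hx1)]
          intro h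
          exact hpp.not_isUnit (h.isUnit_of_dvd' ((dvd_mul_right p v').mul_right _) (dvd_mul_right _ _))
        rw [h6, map_zero, mul_zero, zero_mul, add_zero, e5, NT_rem2 hpS hpp hpv' hφ2]
      · have hpvx : ¬ p ∣ v * x.2 := by
          intro h
          rcases hpp.dvd_or_dvd h with h | h
          · exact hpv h
          · exact hpx2 h
        rw [NT_rem1 hpS hpp hpvx hφ2, cB_step hp1 hpp hx1 hpx1]
        have e6 : (fun k => φ ((p * x.1) ^ 2 * k)) = fun k => φ (x.1 ^ 2 * (p ^ 2 * k)) := by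
          funext k
          congr 1
          ring
        rw [e6]
        ring

theorem NT_rmv2 : ∀ (N : ℕ) (n : Eis), nm n ≤ N → Squarefree n → ∀ (M v : Eis), Sm M n →
    IsCoprime v n → ∀ φ : Eis → ℂ, Dcy φ →
    NT (M * n) (v * n ^ 2) φ = NT M (v * n ^ 2) φ := by
  intro N
  induction N with
  | zero =>
    intro n hn _ M v hM
    have := nm_pos.mpr hM.ne_zero
    omega
  | succ N ih =>
    intro n hn hsq M v hM hv φ hφ
    by_cases h1 : n = 1
    · subst h1
      simp
    · obtain ⟨p, hp, hpn⟩ := exists_pp_dvd_of_isPrim hM.prim h1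
      obtain ⟨m, rfl⟩ := hpn
      have hp1 := hp.isPrim
      have hpp := hp.prime
      have hp0 := hpp.ne_zero
      have hm1 : IsPrim m := hM.prim.of_mul_left hp1
      have hmS : Sm M m := hM.of_mul_left hp1
      have hpS : Sm M p := hM.of_dvd hp1 (dvd_mul_right _ _)
      have hsm : Squarefree m := hsq.of_mul_right
      have hpm : ¬ p ∣ m := by
        intro h
        exact hpp.not_isUnit (hsq p (mul_dvd_mul_left p h))
      have hcop : IsCoprime p m := ((hpp.irreducible).coprime_iff_not_dvd).mpr hpm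
      have hnm : nm m ≤ N := by
        have h2 : nm (p * m) = nm p * nm m := nm_mul _ _
        have h3 := hp.four_le_nm
        have h4 := nm_pos.mpr hm1.ne_zero
        have h5 : 4 * nm m ≤ nm p * nm m := Nat.mul_le_mul_right _ h3
        omega
      have hMm : Sm (M * p) m := ⟨hm1, hmS.2.mul_right hcop.symm⟩
      have hvm : IsCoprime v m := hv.of_mul_right_right
      have hvp : IsCoprime v p := hv.of_mul_right_left
      have e1 : M * (p * m) = (M * p) * m := by ring
      have e2 : v * (p * m) ^ 2 = (v * p ^ 2) * m ^ 2 := by ring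
      have e3 : (v * p ^ 2) * m ^ 2 = (v * m ^ 2) * p ^ 2 := by ring
      have hpvm : ¬ p ∣ v * m ^ 2 := by
        intro h
        rcases hpp.dvd_or_dvd h with h | h
        · exact hpp.not_isUnit (hvp.symm.isUnit_of_dvd' dvd_rfl h)
        · exact hpm (hpp.dvd_of_dvd_pow h)
      rw [e1, e2, ih m hnm hsm (M * p) (v * p ^ 2) hMm (hvm.mul_left hcop.pow_left) φ hφ, e3,
        NT_rem2 hpS hpp hpvm hφ]

/-! ### the pair identity -/

lemma split_M (M : Eis) {r : Eis} (hr : IsPrim r) (hs : Squarefree r) :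
    ∃ a b : Eis, IsPrim b ∧ Sm M a ∧ r = b * a ∧ ∀ p, IsPP p → p ∣ b → p ∣ M := by
  classical
  set A := (pp r).filter (fun p => ¬ p ∣ M) with hA
  set B := (pp r).filter (fun p => p ∣ M) with hB
  have hAP : PPSet A := (ppSet_pp r).subset (Finset.filter_subset _ _)
  have hBP : PPSet B := (ppSet_pp r).subset (Finset.filter_subset _ _)
  refine ⟨∏ p ∈ A, p, ∏ p ∈ B, p, hBP.isPrim_prod, ⟨hAP.isPrim_prod, ?_⟩, ?_, ?_⟩
  · rw [isCoprime_iff_pp hAP.isPrim_prod]
    intro p hp hpd
    rw [hAP.dvd_prod hp, hA, Finset.mem_filter] at hpd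
    exact hpd.2
  · rw [Finset.prod_filter_mul_prod_filter_not]
    exact (prod_pp hr hs).symm
  · intro p hp hpd
    rw [hBP.dvd_prod hp, hB, Finset.mem_filter] at hpd
    exact hpd.2

theorem THs_all {c r : Eis} (hc : NoP 1 c) (hr : IsPrim r) (hs : Squarefree r) (M : Eis) :
    THs M (c * r) := by
  obtain ⟨a, b, hb, ha, hab, hbM⟩ := split_M M hr hs
  have hNo : NoP M (c * b) := by
    refine ⟨mul_ne_zero hc.1 hb.ne_zero, fun p hpp hpM h => ?_⟩
    rcases hpp.dvd_or_dvd h with h | h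
    · exact hc.2 p hpp ⟨hpM.1, isCoprime_one_right⟩ h
    · have h2 := hbM p ⟨hpM.1, hpp⟩ h
      exact hpp.not_isUnit (hpM.2.isUnit_of_dvd' dvd_rfl h2)
  have h1 := TH_mul a M (c * b) hNo ha (by rw [hab] at hs; exact hs.of_mul_right)
  rw [hab, ← mul_assoc]
  exact h1

lemma sy_conj_sq {k ν : Eis} (hν : IsPrim ν) (hk : IsCoprime k ν) :
    conj (sy k ν) = sy k ν * sy k ν := by
  have h1 := syAx.mul_conj hν hk
  have h2 := syAx.cube k ν hν hk
  have h3 : sy k ν ≠ 0 := syAx.ne_zero hν hk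
  apply mul_left_cancel₀ h3
  rw [h1, ← h2]
  ring

lemma norm_sy_le1 {k n : Eis} (hn : IsPrim n) : ‖sy k n‖ ≤ 1 := CM106.norm_sy_le' hn

open Classical in
theorem pair_id {c r n ν : Eis} (hc : NoP 1 c) (hr : IsPrim r) (hrs : Squarefree r)
    (hn : IsPrim n) (hns : Squarefree n) (hν : IsPrim ν) (hνs : Squarefree ν)
    (hnν : IsCoprime n ν) (hrν : IsCoprime r ν) {φ : Eis → ℂ} (hφ : Dcy φ) :
    (∑' k : Eis, if IsPrim k then th (c * r * k) * (sy k n * conj (sy k ν) * φ k) else 0) =
      th (c * r) * ∑ x ∈ prs n, cB x.1 * conj (sy (c * r * ν ^ 2 * x.2) x.1) *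
        NT 1 (c * r * ν ^ 2 * x.2) (fun k => n23 (x.1 ^ 2 * k) * φ (x.1 ^ 2 * k)) := by
  have hq : IsPrim (n * ν ^ 2) := hn.mul (hν.pow 2)
  have hdM : ∀ d, IsCoprime d (1 * n * ν) → IsCoprime d (n * ν ^ 2) := by
    intro d hd
    rw [one_mul] at hd
    exact hd.of_mul_right_left.mul_right hd.of_mul_right_right.pow_right
  have hψ : Dcy (fun k => sy k (n * ν ^ 2) * φ k) :=
    hφ.mul_bdd (B := 1) fun k _ => norm_sy_le1 hq
  have e1 : (∑' k : Eis, if IsPrim k then th (c * r * k) * (sy k n * conj (sy k ν) * φ k) else 0)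
      = TS (1 * n * ν) (c * r) (fun k => sy k (n * ν ^ 2) * φ k) := by
    unfold TS
    refine tsum_congr fun k => ?_
    by_cases hk : IsPrim k
    · rw [if_pos hk]
      by_cases hkn : IsCoprime k n
      · by_cases hkν : IsCoprime k ν
        · have hS : Sm (1 * n * ν) k := ⟨hk, by rw [one_mul]; exact hkn.mul_right hkν⟩
          rw [if_pos hS]
          show _ = th (c * r * k) * (sy k (n * ν ^ 2) * φ k)
          rw [sy_conj_sq hν hkν, syAx.mul_right _ _ _ hn (hν.pow 2), pow_two,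
            syAx.mul_right _ _ _ hν hν]
        · rw [if_neg (fun h => hkν h.2.of_mul_right_right), (syAx.eq_zero _ _ hν).mpr hkν]
          simp
      · rw [if_neg (fun h => hkn (by
          have := h.2.of_mul_right_left
          rwa [one_mul] at this)), (syAx.eq_zero _ _ hn).mpr hkn]
        simp
    · rw [if_neg hk, if_neg (fun h => hk h.1)]
  have e2 := THs_all hc hr hrs (1 * n * ν) _ hψ
  have e3 : (fun k => n23 k * (sy k (n * ν ^ 2) * φ k)) =
      fun k => sy k (n * ν ^ 2) * (n23 k * φ k) := by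
    funext k; ring
  have hcν : IsCoprime c ν := hc.coprime ⟨hν, isCoprime_one_right⟩
  have hcn : IsCoprime c n := hc.coprime ⟨hn, isCoprime_one_right⟩
  have e4 : c * r * (n * ν ^ 2) = (c * r * n) * ν ^ 2 := by ring
  have e5 : c * r * n * ν ^ 2 = (c * r * ν ^ 2) * n := by ring
  rw [e1, e2, e3, NT_tw hq hdM, e4,
    NT_rmv2 (nm ν) ν le_rfl hνs (1 * n) (c * r * n) ⟨hν, by rw [one_mul]; exact hnν.symm⟩
      ((hcν.mul_left hrν).mul_left hnν) _ hφ.n23, e5,
    NT_rmv (nm n) n le_rfl hns 1 (c * r * ν ^ 2) ⟨hn, isCoprime_one_right⟩ ?_ _ hφ.n23]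
  intro p hp hpn hp2
  have hpν : IsCoprime (p ^ 2) (ν ^ 2) :=
    ((hnν.of_isCoprime_of_dvd_left hpn).pow_left).pow_right
  have hpc : IsCoprime (p ^ 2) c := ((hcn.of_isCoprime_of_dvd_right hpn).symm).pow_left
  have h1 := hpν.dvd_of_dvd_mul_right hp2
  have h2 := hpc.dvd_of_dvd_mul_left h1
  exact hp.prime.not_isUnit (hrs p (by rw [← pow_two]; exact h2))

end Crest.Agent.R017.E2440
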