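import Crest.Agent.R017.E2d_440
import Crest.Agent.R017.X6C6_180

/-!
# Row 17, block C70, leaf E2, part e (helper440): the functional equation of the pair

* `NT_eq_Cg` : `NT 1 u (f ∘ toC) = Cg u (fL f)`
-/

set_option autoImplicit false
set_option linter.unusedVariables false
set_option linter.unusedSectionVars false

noncomputable section

open Complex
open scoped ComplexConjugate

namespace Crest.Agent.R017.E2440

open Crest.Agent.R012 Crest.Agent.R012.Eis Crest.Agent.R012.GaussLoc283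
open Crest.Agent.R012.Mob705 Crest.Agent.R012.Div277
open Crest.Agent.R017.Sx545 (Sm sm_one_iff)
open Crest.Agent.R017.PX764 (th Gh n6 cD)
open Crest.Agent.R017.F1

lemma finite_nm_le (N : ℕ) : Set.Finite {x : Eis | nm x ≤ N} := by
  refine (ball N).finite_toSet.subset fun x hx => ?_
  rw [Finset.mem_coe, mem_ball]
  exact hx

theorem NT_eq_Cg {f : ℂ → ℂ} (hf : Ev f) (u : Eis) :
    NT 1 u (fun k => f (toC k)) = Cg u (fL f) := by
  classical
  obtain ⟨a, b, ha, hab, hs⟩ := hf.supp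
  have hb0 : 0 < b := ha.trans hab
  set F : Eis → Eis → ℂ := fun e d => if IsPrim e then (if IsPrim d then
    (nm e : ℂ) ^ 2 * (conj (gs u d) * f (toC (d * e ^ 3))) else 0) else 0 with hF
  have h1 : NT 1 u (fun k => f (toC k)) = ∑' e, ∑' d, F e d := by
    unfold NT DS
    refine tsum_congr fun e => ?_
    by_cases he : IsPrim e
    · rw [if_pos (sm_one_iff.mpr he), ← tsum_mul_left]
      refine tsum_congr fun d => ?_
      simp only [hF, if_pos he]
      by_cases hd : IsPrim d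
      · rw [if_pos (sm_one_iff.mpr hd), if_pos hd]
      · rw [if_neg (fun h => hd (sm_one_iff.mp h)), if_neg hd, mul_zero]
    · rw [if_neg (fun h => he (sm_one_iff.mp h))]
      simp only [hF, if_neg he, tsum_zero]
  have h2 : Cg u (fL f) = ∑' d, ∑' e, F e d := by
    unfold Cg
    refine tsum_congr fun d => ?_
    by_cases hd : IsPrim d
    · rw [if_pos hd, fL_eq_prim hf, ← tsum_mul_left]
      refine tsum_congr fun e => ?_
      simp only [hF]
      by_cases he : IsPrim e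
      · rw [if_pos he, if_pos he, if_pos hd, map_mul, map_pow]
        rw [show toC e ^ 3 * toC d = toC d * toC e ^ 3 by ring]
        ring
      · rw [if_neg he, if_neg he, mul_zero]
    · rw [if_neg hd]
      simp only [hF]
      have : ∀ e : Eis, (if IsPrim e then (if IsPrim d then
        (nm e : ℂ) ^ 2 * (conj (gs u d) * f (toC (d * e ^ 3))) else 0) else 0) = 0 := by
        intro e; rw [if_neg hd]; simp
      rw [tsum_congr this, tsum_zero]
  rw [h1, h2]
  have hfin : Function.HasFiniteSupport (Function.uncurry F) := by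
    set N : ℕ := ⌈b ^ 2⌉₊ with hN
    refine ((finite_nm_le N).prod (finite_nm_le N)).subset ?_
    rintro ⟨e, d⟩ hed
    rw [Function.mem_support] at hed
    simp only [Function.uncurry, hF] at hed
    have he : IsPrim e := by by_contra h; exact hed (by rw [if_neg h])
    rw [if_pos he] at hed
    have hd : IsPrim d := by by_contra h; exact hed (by rw [if_neg h])
    rw [if_pos hd] at hed
    have hfne : f (toC (d * e ^ 3)) ≠ 0 := fun h => hed (by rw [h]; simp)
    have h3 : ‖toC (d * e ^ 3)‖ ≤ b := by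
      by_contra h
      push Not at h
      exact hfne (hs _ (Or.inr h))
    have h4 : (nm (d * e ^ 3) : ℝ) ≤ b ^ 2 := by
      have h5 : (nm (d * e ^ 3) : ℝ) = ‖toC (d * e ^ 3)‖ ^ 2 := (norm_toC_sq _).symm
      rw [h5]
      exact pow_le_pow_left₀ (norm_nonneg _) h3 2
    have h5 : nm (d * e ^ 3) ≤ N := by exact_mod_cast h4.trans (Nat.le_ceil _)
    rw [nm_mul, nm_pow] at h5
    have hd1 : 1 ≤ nm d := nm_pos.mpr hd.ne_zero
    have he1 : 1 ≤ nm e := nm_pos.mpr he.ne_zero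
    have he3 : nm e ≤ nm e ^ 3 := Nat.le_self_pow (by norm_num) _
    constructor
    · show nm e ≤ N
      nlinarith
    · show nm d ≤ N
      nlinarith
  exact (summable_of_hasFiniteSupport hfin).tsum_comm.symm

/-! ### the identity for the sum over `n` -/

open Crest.Agent.R017.X6C180 (Sg fA WF V1 cM n13)
open Crest.Agent.R017.CM106 (sub)

lemma NT_congr {M u : Eis} {φ ψ : Eis → ℂ} (h : ∀ k, k ≠ 0 → φ k = ψ k) : NT M u φ = NT M u ψ := by
  classical
  unfold NT DS
  refine tsum_congr fun e => ?_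
  by_cases he : Sm M e
  · rw [if_pos he, if_pos he]
    congr 1
    refine tsum_congr fun d => ?_
    by_cases hd : Sm M d
    · rw [if_pos hd, if_pos hd]
      show conj (gs u d) * φ (d * e ^ 3) = conj (gs u d) * ψ (d * e ^ 3)
      rw [h _ (mul_ne_zero hd.ne_zero (pow_ne_zero 3 he.ne_zero))]
    · rw [if_neg hd, if_neg hd]
  · rw [if_neg he, if_neg he]

lemma wt_bdd {F : ℝ → ℂ} (hF : M49.Wt F) : ∃ B : ℝ, 0 ≤ B ∧ ∀ x, ‖F x‖ ≤ B := by
  obtain ⟨a, b, ha, hab, hs⟩ := hF.supp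
  have hc : HasCompactSupport F := by
    refine HasCompactSupport.intro (isCompact_Icc (a := a) (b := b)) fun x hx => hs x ?_
    rw [Set.mem_Icc, not_and_or, not_le, not_le] at hx
    exact hx
  obtain ⟨C, hC⟩ := hc.exists_bound_of_continuous hF.smooth.continuous
  exact ⟨C, (norm_nonneg _).trans (hC 0), hC⟩

lemma dcy_wt {F : ℝ → ℂ} (hF : M49.Wt F) {A : ℝ} (hA : 0 < A) :
    Dcy (fun k : Eis => F ((nm k : ℝ) / A)) := by
  obtain ⟨B, hB0, hB⟩ := wt_bdd hF
  obtain ⟨a, b, ha, hab, hs⟩ := hF.supp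
  have hb : 0 < b := ha.trans hab
  refine ⟨B * (b * A) ^ 3, fun k hk => ?_⟩
  have h1 := one_le_nm hk
  show ‖F ((nm k : ℝ) / A)‖ ≤ _
  by_cases h : F ((nm k : ℝ) / A) = 0
  · rw [h, norm_zero]; positivity
  · have h2 : (nm k : ℝ) / A ≤ b := by
      by_contra hc
      push Not at hc
      exact h (hs _ (Or.inr hc))
    rw [div_le_iff₀ hA] at h2
    refine (hB _).trans ?_
    rw [mul_assoc]
    refine le_mul_of_one_le_right hB0 ?_
    rw [← div_eq_mul_inv, one_le_div (by positivity)]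
    exact pow_le_pow_left₀ (by linarith) h2 3

lemma n23_fA {F : ℝ → ℂ} {A : ℝ} (hA : 0 < A) {B k : Eis} (hB : B ≠ 0) (hk : k ≠ 0) :
    n23 (B ^ 2 * k) * F ((nm (B ^ 2 * k) : ℝ) / A) =
      n23 (B ^ 2) * fA F (A / (nm B : ℝ) ^ 2) (toC k) := by
  have hB1 := one_le_nm hB
  have hB0 : (0 : ℝ) < nm B := by linarith
  have hk0 : toC k ≠ 0 := by rwa [Ne, toC_eq_zero]
  rw [X6C180.fA_eq (by positivity) hk0, norm_toC_sq, n23_mul, mul_assoc]
  congr 1
  unfold n23
  have e1 : (-(2 / 3 : ℝ)) = (-(2 / 3) : ℝ) := rfl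
  congr 2
  rw [nm_mul, nm_pow]
  push_cast
  field_simp

/-- `Σ_k th (σ r k) conj (sy k ν) (E k)-sum of α · F(N k / A)` -/
def VV (α : Eis → ℂ) (σ E r ν : Eis) (F : ℝ → ℂ) (A : ℝ) : ℂ := by
  classical
  exact ∑' k : Eis, if IsPrim k then
    th (σ * r * k) * (conj (sy k ν) * CM106.CS α (E * k)) * F ((nm k : ℝ) / A) else 0

/-- the pair functional -/
def PF (α : Eis → ℂ) (σ E r ν : Eis) (H : Eis → Eis → ℂ) : ℂ :=
  ∑' n : Eis, α n * (sy E n * ∑ x ∈ prs n, cB x.1 * conj (sy (σ * r * ν ^ 2 * x.2) x.1) *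
    n23 (x.1 ^ 2) * H x.1 x.2)

lemma sg_NoP {σ : Eis} (h : Sg σ) : NoP 1 σ := by
  refine ⟨h.ne_zero, fun p hpp hp hd => ?_⟩
  have h1 := h.SM.2 p hpp hd
  have h2 : IsCoprime p (3 : Eis) := hp.1.isCoprime_three
  exact hpp.not_isUnit (h2.isUnit_of_dvd' dvd_rfl h1)

/-- hypotheses on the coefficients -/
structure Cf (α : Eis → ℂ) (ν : Eis) : Prop where
  fs : CM106.FS α
  sqf : ∀ n, α n ≠ 0 → Squarefree n
  cop : ∀ n, α n ≠ 0 → IsCoprime n ν

lemma mul_left_comm4 (a b c d : ℂ) : a * (b * (c * d)) = c * (a * (b * d)) := by ring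

theorem VV_eq_PF {α : Eis → ℂ} {σ E r ν : Eis} (hσ : Sg σ) (hE : E ≠ 0) (hr : IsPrim r)
    (hrs : Squarefree r) (hν : IsPrim ν) (hνs : Squarefree ν) (hrν : IsCoprime r ν)
    (hα : Cf α ν) {F : ℝ → ℂ} (hF : M49.Wt F) {A : ℝ} (hA : 0 < A) :
    VV α σ E r ν F A = th (σ * r) * PF α σ E r ν
      (fun B D => Cg (σ * r * ν ^ 2 * D) (fL (fA F (A / (nm B : ℝ) ^ 2)))) := by
  classical
  have hφ := dcy_wt hF hA
  set T : Finset Eis := hα.fs.fin.toFinset with hT
  have hTm : ∀ n, n ∈ T ↔ α n ≠ 0 := by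
    intro n
    rw [hT, Set.Finite.mem_toFinset, Function.mem_support]
  have hts : ∀ g : Eis → ℂ, (∑' n, α n * g n) = ∑ n ∈ T, α n * g n := by
    intro g
    refine tsum_eq_sum fun n hn => ?_
    rw [hTm, not_not] at hn
    rw [hn, zero_mul]
  -- the left side
  have h1 : VV α σ E r ν F A = ∑ n ∈ T, α n * (sy E n *
      ∑' k : Eis, if IsPrim k then th (σ * r * k) * (sy k n * conj (sy k ν) *
        F ((nm k : ℝ) / A)) else 0) := by
    unfold VV
    have e1 : ∀ k : Eis, (if IsPrim k then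
        th (σ * r * k) * (conj (sy k ν) * CM106.CS α (E * k)) * F ((nm k : ℝ) / A) else 0) =
        ∑ n ∈ T, α n * (sy E n * (if IsPrim k then th (σ * r * k) * (sy k n * conj (sy k ν) *
          F ((nm k : ℝ) / A)) else 0)) := by
      intro k
      split_ifs with hk
      · unfold CM106.CS
        rw [hts, Finset.mul_sum, Finset.mul_sum, Finset.sum_mul]
        refine Finset.sum_congr rfl fun n hn => ?_
        rw [syAx.mul_left E k n (hα.fs.prim n ((hTm n).mp hn))]
        ring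
      · simp
    rw [tsum_congr e1, Summable.tsum_finsetSum]
    · refine Finset.sum_congr rfl fun n _ => ?_
      rw [tsum_mul_left, tsum_mul_left]
    · intro n hn
      refine Summable.mul_left _ (Summable.mul_left _ ?_)
      have hn1 := hα.fs.prim n ((hTm n).mp hn)
      have hb : ∀ k, k ≠ 0 → ‖sy k n * conj (sy k ν)‖ ≤ 1 := by
        intro k _
        rw [norm_mul, RCLike.norm_conj]
        exact mul_le_one₀ (norm_sy_le1 hn1) (norm_nonneg _) (norm_sy_le1 hν)
      have h2 := summable_TS (M := 1) (r := σ * r) (mul_ne_zero hσ.ne_zero hr.ne_zero)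
        (hφ.mul_bdd hb)
      refine h2.congr fun k => ?_
      by_cases hk : IsPrim k
      · rw [if_pos hk, if_pos (sm_one_iff.mpr hk)]
      · rw [if_neg hk, if_neg (fun h => hk (sm_one_iff.mp h))]
  rw [h1]
  unfold PF
  rw [hts, Finset.mul_sum]
  refine Finset.sum_congr rfl fun n hn => ?_
  have hn0 := (hTm n).mp hn
  have hn1 := hα.fs.prim n hn0
  rw [pair_id (sg_NoP hσ) hr hrs hn1 (hα.sqf n hn0) hν hνs (hα.cop n hn0) hrν hφ]
  have e2 : ∑ x ∈ prs n, cB x.1 * conj (sy (σ * r * ν ^ 2 * x.2) x.1) *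
      NT 1 (σ * r * ν ^ 2 * x.2) (fun k => n23 (x.1 ^ 2 * k) * F ((nm (x.1 ^ 2 * k) : ℝ) / A)) =
      ∑ x ∈ prs n, cB x.1 * conj (sy (σ * r * ν ^ 2 * x.2) x.1) * n23 (x.1 ^ 2) *
        Cg (σ * r * ν ^ 2 * x.2) (fL (fA F (A / (nm x.1 : ℝ) ^ 2))) := by
    refine Finset.sum_congr rfl fun x hx => ?_
    obtain ⟨hx1, hx2, hx3⟩ := (mem_prs hn1).mp hx
    have hB0 : (0 : ℝ) < nm x.1 := by have := one_le_nm hx1.ne_zero; linarith
    have hA' : 0 < A / (nm x.1 : ℝ) ^ 2 := by positivity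
    have e3 : NT 1 (σ * r * ν ^ 2 * x.2)
        (fun k => n23 (x.1 ^ 2 * k) * F ((nm (x.1 ^ 2 * k) : ℝ) / A)) =
        n23 (x.1 ^ 2) * Cg (σ * r * ν ^ 2 * x.2) (fL (fA F (A / (nm x.1 : ℝ) ^ 2))) := by
      rw [← NT_eq_Cg (X6C180.ev_fA hF hA'), ← NT_smul]
      exact NT_congr fun k hk => n23_fA hA hx1.ne_zero hk
    rw [e3]
    ring
  rw [e2]
  exact mul_left_comm4 _ _ _ _

end Crest.Agent.R017.E2440
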