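import Crest.Agent.R017.E2e_440

/-!
# Row 17, block C70, leaf E2, part f (helper440): the main term

* `PF_main` : the polar part of the pair functional
* `VV_split` : `VV = main term + dual part`
-/

set_option autoImplicit false
set_option linter.unusedVariables false
set_option linter.unusedSectionVars false

noncomputable section

open Complex
open scoped ComplexConjugate

namespace Crest.Agent.R017.E2440

open Crest.Agent.R012 Crest.Agent.R012.Eis Crest.Agent.R012.GaussLoc283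
open Crest.Agent.R012.Mob705 Crest.Agent.R012.Div277
open Crest.Agent.R017.Sx545 (Sm sm_one_iff)
open Crest.Agent.R017.PX764 (th Gh n6 cD)
open Crest.Agent.R017.F1
open Crest.Agent.R017.X6C180 (Sg fA WF V1 cM n13)
open Crest.Agent.R017.CM106 (sub)

lemma sum_prs_fst {R : Type*} [AddCommMonoid R] {n : Eis} (hn : IsPrim n) (f : Eis → R) :
    ∑ x ∈ prs n, f x.1 = ∑ d ∈ dvs n, f d := by
  classical
  refine Finset.sum_bij (fun x _ => x.1) ?_ ?_ ?_ ?_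
  · intro x hx
    obtain ⟨h1, h2, h3⟩ := (mem_prs hn).mp hx
    exact (mem_dvs hn.ne_zero).mpr ⟨h1, h3 ▸ dvd_mul_right _ _⟩
  · intro x hx y hy hxy
    obtain ⟨h1, h2, h3⟩ := (mem_prs hn).mp hx
    obtain ⟨h1', h2', h3'⟩ := (mem_prs hn).mp hy
    have hxy' : x.1 = y.1 := hxy
    refine Prod.ext hxy' ?_
    rw [← hxy', ← h3] at h3'
    exact (mul_left_cancel₀ h1.ne_zero h3').symm
  · intro d hd
    obtain ⟨h1, e, he⟩ := (mem_dvs hn.ne_zero).mp hd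
    exact ⟨(d, e), (mem_prs hn).mpr ⟨h1, (he ▸ hn : IsPrim (d * e)).of_mul_left h1, he.symm⟩, rfl⟩
  · intro x _
    rfl

lemma pow_id {N A : ℝ} (hN : 0 < N) (hA : 0 < A) :
    N * Real.sqrt N * (N ^ 2) ^ (-(2 / 3 : ℝ)) * (A / N ^ 2) ^ (2 / 3 : ℝ) =
      A ^ (2 / 3 : ℝ) * (1 / N * N ^ (-(1 : ℝ) / 6)) := by
  rw [Real.div_rpow hA.le (by positivity), Real.sqrt_eq_rpow, ← Real.rpow_natCast N 2,
    ← Real.rpow_mul hN.le, ← Real.rpow_mul hN.le]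
  have e0 : A ^ (2 / 3 : ℝ) / N ^ (((2 : ℕ) : ℝ) * (2 / 3)) =
      A ^ (2 / 3 : ℝ) * N ^ (-(((2 : ℕ) : ℝ) * (2 / 3))) := by
    rw [Real.rpow_neg hN.le, div_eq_mul_inv]
  have e01 : 1 / N = N ^ (-1 : ℝ) := by rw [Real.rpow_neg_one, one_div]
  have e1 : N * N ^ (1 / 2 : ℝ) = N ^ (1 + 1 / 2 : ℝ) := by
    rw [Real.rpow_add hN, Real.rpow_one]
  rw [e0, e01, e1]
  have e2 : N ^ (1 + 1 / 2 : ℝ) * N ^ (((2 : ℕ) : ℝ) * -(2 / 3)) *
      (A ^ (2 / 3 : ℝ) * N ^ (-(((2 : ℕ) : ℝ) * (2 / 3)))) =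
      A ^ (2 / 3 : ℝ) * (N ^ (1 + 1 / 2 : ℝ) * N ^ (((2 : ℕ) : ℝ) * -(2 / 3)) *
        N ^ (-(((2 : ℕ) : ℝ) * (2 / 3)))) := by ring
  rw [e2, ← Real.rpow_add hN, ← Real.rpow_add hN, ← Real.rpow_add hN]
  congr 2
  push_cast
  ring

lemma cB_pow {B : Eis} (hB : B ≠ 0) {A : ℝ} (hA : 0 < A) :
    cB B * n23 (B ^ 2) * (((A / (nm B : ℝ) ^ 2) ^ (2 / 3 : ℝ) : ℝ) : ℂ) =
      ((A ^ (2 / 3 : ℝ) : ℝ) : ℂ) * ((((muE B : ℝ) * (1 / (nm B : ℝ)) : ℝ) : ℂ) * (n6 B : ℂ) * G B) := by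
  have hN : (0 : ℝ) < nm B := by have := one_le_nm hB; linarith
  have h := pow_id hN hA
  unfold cB n23 n6
  rw [nm_pow]
  have e1 : (muE B : ℂ) * ((nm B : ℂ) * ((Real.sqrt (nm B) : ℝ) : ℂ)) * G B *
      (((((nm B ^ 2 : ℕ) : ℝ) ^ (-(2 / 3 : ℝ)) : ℝ)) : ℂ) *
      (((A / (nm B : ℝ) ^ 2) ^ (2 / 3 : ℝ) : ℝ) : ℂ) =
      (muE B : ℂ) * G B * (((nm B : ℝ) * Real.sqrt (nm B) * ((nm B : ℝ) ^ 2) ^ (-(2 / 3 : ℝ)) *
        (A / (nm B : ℝ) ^ 2) ^ (2 / 3 : ℝ) : ℝ) : ℂ) := by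
    push_cast
    ring
  rw [e1, h]
  push_cast
  ring

lemma conj_rho_mul {σ r D : Eis} (hD : IsPrim D) (hDs : Squarefree D) (hσ : Sg σ)
    (hr : IsPrim r) (hrs : Squarefree r) :
    conj (PX764.rho (σ * r * D)) = (cD : ℂ) * (Gh (σ * r) D * (n6 D : ℂ) * conj (th (σ * r))) := by
  have h1 : PX764.rho (σ * r * D) = (cD : ℂ) * th (σ * r * D) := by
    unfold th
    have := PX764.cD_ne
    field_simp
  rw [h1, map_mul, Complex.conj_ofReal]
  congr 1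
  by_cases hc : IsCoprime (σ * r) D
  · rw [PX764.th_mul hD hDs hc]
    simp only [map_mul, Complex.conj_conj, Complex.conj_ofReal]
  · rw [PX764.Gh_zero hD hc, zero_mul, zero_mul]
    -- a common prime
    obtain ⟨p, hp, hpD, hpr⟩ := exists_common_pp hD (fun h => hc h.symm)
    have hpσ : ¬ p ∣ σ := (sg_NoP hσ).2 p hp.prime ⟨hp.isPrim, isCoprime_one_right⟩
    have hpr' : p ∣ r := (hp.prime.dvd_or_dvd hpr).resolve_left hpσ
    obtain ⟨D', rfl⟩ := hpD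
    obtain ⟨r', rfl⟩ := hpr'
    have h2 : ¬ p ∣ σ * r' * D' := by
      intro h
      rcases hp.prime.dvd_or_dvd h with h | h
      · rcases hp.prime.dvd_or_dvd h with h | h
        · exact hpσ h
        · exact hp.prime.not_isUnit (hrs p (mul_dvd_mul_left p h))
      · exact hp.prime.not_isUnit (hDs p (mul_dvd_mul_left p h))
    have e1 : σ * (p * r') * (p * D') = (σ * r' * D') * p ^ 2 := by ring
    rw [e1, PX764.th_two hp.prime hp.isPrim h2, map_zero]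

/-- the main term -/
def Mn (α : Eis → ℂ) (σ E r ν : Eis) (F : ℝ → ℂ) (A : ℝ) : ℂ := by
  classical
  exact if ν = 1 then ((cM * ‖th σ‖ ^ 2 * n13 r * A ^ (2 / 3 : ℝ) : ℝ) : ℂ) *
    mellin F ((2 / 3 : ℝ) : ℂ) *
      ∑' n : Eis, α n * (sy E n * (((PE n : ℝ) : ℂ) * (n6 n : ℂ) * Gh (σ * r) n)) else 0

lemma rho_nu {σ r D ν : Eis} (hσ : Sg σ) (hν : IsPrim ν) (hν1 : ν ≠ 1) (hνs : Squarefree ν)
    (hrν : IsCoprime r ν) (hDν : IsCoprime D ν) : PX764.rho (σ * r * ν ^ 2 * D) = 0 := by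
  obtain ⟨p, hp, hpν⟩ := exists_pp_dvd_of_isPrim hν hν1
  obtain ⟨ν', rfl⟩ := hpν
  have hpσ : ¬ p ∣ σ := (sg_NoP hσ).2 p hp.prime ⟨hp.isPrim, isCoprime_one_right⟩
  have hpr : ¬ p ∣ r := fun h =>
    hp.prime.not_isUnit (hrν.isUnit_of_dvd' h (dvd_mul_right _ _))
  have hpD : ¬ p ∣ D := fun h =>
    hp.prime.not_isUnit (hDν.isUnit_of_dvd' h (dvd_mul_right _ _))
  have hpν' : ¬ p ∣ ν' := fun h => hp.prime.not_isUnit (hνs p (mul_dvd_mul_left p h))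
  have h2 : ¬ p ∣ σ * r * ν' ^ 2 * D := by
    intro h
    rcases hp.prime.dvd_or_dvd h with h | h
    · rcases hp.prime.dvd_or_dvd h with h | h
      · rcases hp.prime.dvd_or_dvd h with h | h
        · exact hpσ h
        · exact hpr h
      · exact hpν' (hp.prime.dvd_of_dvd_pow h)
    · exact hpD h
  have e1 : σ * r * (p * ν') ^ 2 * D = (σ * r * ν' ^ 2 * D) * p ^ 2 := by ring
  rw [e1]
  exact PX764.rho_rel.two_p p _ hp.prime hp.isPrim h2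

theorem PF_main {α : Eis → ℂ} {σ E r ν : Eis} (hσ : Sg σ) (hr : IsPrim r)
    (hrs : Squarefree r) (hν : IsPrim ν) (hνs : Squarefree ν) (hrν : IsCoprime r ν)
    (hα : Cf α ν) {F : ℝ → ℂ} (hF : M49.Wt F) {A : ℝ} (hA : 0 < A) :
    th (σ * r) * PF α σ E r ν (fun B D => (kP : ℂ) * conj (PX764.rho (σ * r * ν ^ 2 * D)) *
      mB (fA F (A / (nm B : ℝ) ^ 2))) = Mn α σ E r ν F A := by
  classical
  unfold Mn
  split_ifs with hν1
  · subst hν1
    have hcM : (kP : ℂ) * (cD : ℂ) * ((Xn960.gamN 3 * (Real.pi / 3) : ℝ) : ℂ) = (cM : ℂ) := by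
      rw [← X6C180.kP_cD]; push_cast; ring
    have hns := X6C180.norm_th_su hσ.SM hr hrs
    -- one `n`
    have key : ∀ n, α n ≠ 0 → (∑ x ∈ prs n, cB x.1 * conj (sy (σ * r * 1 ^ 2 * x.2) x.1) *
        n23 (x.1 ^ 2) * ((kP : ℂ) * conj (PX764.rho (σ * r * 1 ^ 2 * x.2)) *
          mB (fA F (A / (nm x.1 : ℝ) ^ 2)))) =
        (cM : ℂ) * ((A ^ (2 / 3 : ℝ) : ℝ) : ℂ) * mellin F ((2 / 3 : ℝ) : ℂ) * conj (th (σ * r)) *
          (((PE n : ℝ) : ℂ) * (n6 n : ℂ) * Gh (σ * r) n) := by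
      intro n hn
      have hn1 := hα.fs.prim n hn
      have hns := hα.sqf n hn
      have h1 : ∀ x ∈ prs n, cB x.1 * conj (sy (σ * r * 1 ^ 2 * x.2) x.1) *
          n23 (x.1 ^ 2) * ((kP : ℂ) * conj (PX764.rho (σ * r * 1 ^ 2 * x.2)) *
            mB (fA F (A / (nm x.1 : ℝ) ^ 2))) =
          ((cM : ℂ) * ((A ^ (2 / 3 : ℝ) : ℝ) : ℂ) * mellin F ((2 / 3 : ℝ) : ℂ) *
            conj (th (σ * r)) * ((n6 n : ℂ) * Gh (σ * r) n)) *
            ((((muE x.1 : ℝ) * (1 / (nm x.1 : ℝ)) : ℝ)) : ℂ) := by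
        intro x hx
        obtain ⟨hx1, hx2, hx3⟩ := (mem_prs hn1).mp hx
        have hx2s : Squarefree x.2 := by rw [← hx3] at hns; exact hns.of_mul_right
        have hB0 : (0 : ℝ) < nm x.1 := by have := one_le_nm hx1.ne_zero; linarith
        have hA' : 0 < A / (nm x.1 : ℝ) ^ 2 := by positivity
        have hc := cB_pow hx1.ne_zero hA
        have hG : Gh (σ * r) n = Gh (σ * r) x.2 * (G x.1 * conj (sy (σ * r * x.2) x.1)) := by
          rw [← hx3, mul_comm x.1 x.2, PX764.Gh_mul hx2 hx1]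
          rfl
        have hn6 : (n6 n : ℂ) = (n6 x.1 : ℂ) * (n6 x.2 : ℂ) := by
          rw [← hx3, PX764.n6_mul]; push_cast; ring
        rw [one_pow, mul_one, conj_rho_mul hx2 hx2s hσ hr hrs, X6C180.mB_fA hF hA',
          X6C180.mB_rV1 hF, ← hcM, hG, hn6]
        linear_combination (conj (sy (σ * r * x.2) x.1) * ((kP : ℂ) * ((cD : ℂ) *
          (Gh (σ * r) x.2 * (n6 x.2 : ℂ) * conj (th (σ * r)))) *
          (((Xn960.gamN 3 * (Real.pi / 3) : ℝ) : ℂ) * mellin F ((2 / 3 : ℝ) : ℂ)))) * hc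
      rw [Finset.sum_congr rfl h1, ← Finset.mul_sum,
        sum_prs_fst hn1 (fun B => (((muE B : ℝ) * (1 / (nm B : ℝ)) : ℝ) : ℂ)),
        PE_eq_sum hn1.ne_zero]
      push_cast
      ring
    unfold PF
    rw [← tsum_mul_left, ← tsum_mul_left]
    refine tsum_congr fun n => ?_
    by_cases hn : α n = 0
    · rw [hn]; ring
    · rw [key n hn]
      have e : ((cM * ‖th σ‖ ^ 2 * n13 r * A ^ (2 / 3 : ℝ) : ℝ) : ℂ) =
          (cM : ℂ) * ((‖th σ‖ ^ 2 * n13 r : ℝ) : ℂ) * ((A ^ (2 / 3 : ℝ) : ℝ) : ℂ) := by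
        push_cast; ring
      rw [e, ← hns]
      ring
  · unfold PF
    have h0 : ∀ n, α n * (sy E n * ∑ x ∈ prs n, cB x.1 * conj (sy (σ * r * ν ^ 2 * x.2) x.1) *
        n23 (x.1 ^ 2) * ((kP : ℂ) * conj (PX764.rho (σ * r * ν ^ 2 * x.2)) *
          mB (fA F (A / (nm x.1 : ℝ) ^ 2)))) = 0 := by
      intro n
      by_cases hn : α n = 0
      · rw [hn, zero_mul]
      · have hn1 := hα.fs.prim n hn
        have hcop := hα.cop n hn
        rw [Finset.sum_eq_zero, mul_zero, mul_zero]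
        intro x hx
        obtain ⟨hx1, hx2, hx3⟩ := (mem_prs hn1).mp hx
        have hx2c : IsCoprime x.2 ν := hcop.of_isCoprime_of_dvd_left (hx3 ▸ dvd_mul_left _ _)
        rw [rho_nu hσ hν hν1 hνs hrν hx2c, map_zero]
        ring
    rw [tsum_congr h0, tsum_zero, mul_zero]

end Crest.Agent.R017.E2440
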