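import Crest.Agent.R017.H1d_401
import Crest.Agent.R012.LS2Main_448

/-!
# Row 17, block C70, leaf E2, input (H1) (helper401), part e: the bilinear bound

`H1` : for `c` finitely supported on squarefree primary `D` (`nm D ≤ X`, prime to `ν`), any `b`,
`Σ_{r ∈ S R, (r,ν)=1} ‖Σ_{d ∈ pb Z} b d Σ'_D c D conj (gs (κ r ν² D) d)‖² ≤
  C (R Z X nm ν)^ε nm ν (R + Z + (R Z)^(2/3)) *
  Σ_{g₂, g₃ ∈ S X} (nm g₂)² Σ_{d ∈ pb Z, g₂² g₃³ ∣ d} nm d ‖b d‖² ‖CS (sub c (g₂ g₃)) d‖²`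
-/

set_option autoImplicit false

noncomputable section

open Finset
open scoped ComplexConjugate

namespace Crest.Agent.R017.H1401

open Crest.Agent.R012 Crest.Agent.R012.Eis Crest.Agent.R012.LS2 Crest.Agent.R012.GaussLoc283
open Crest.Agent.R012.Div277 (tau dvs mem_dvs tau_le_rpow)
open Crest.Agent.R012.BilG811 (hbB Sq bil_ls)
open Crest.Agent.R017.CM106

lemma nm_ge_one {x : Eis} (hx : IsPrim x) : (1 : ℝ) ≤ nm x := by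
  exact_mod_cast nm_pos.mpr hx.ne_zero

/-- `Σ_{x ∈ S X} 1 / nm x ≤ C X^ε` -/
lemma sum_inv_le {ε : ℝ} (hε : 0 < ε) : ∃ C : ℝ, 1 ≤ C ∧ ∀ X : ℝ, 1 ≤ X →
    ∑ x ∈ S X, ((nm x : ℝ))⁻¹ ≤ C * X ^ ε := by
  have hs := Cross869.summable_nm (s := 1 + ε) (by linarith)
  refine ⟨1 + ∑' x : Eis, (nm x : ℝ) ^ (-(1 + ε)), ?_, fun X hX => ?_⟩
  · have : 0 ≤ ∑' x : Eis, (nm x : ℝ) ^ (-(1 + ε)) := tsum_nonneg fun x => by positivity
    linarith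
  · have h1 : ∀ x ∈ S X, ((nm x : ℝ))⁻¹ ≤ X ^ ε * (nm x : ℝ) ^ (-(1 + ε)) := by
      intro x hx
      obtain ⟨h1, h2, _⟩ := (mem_S (by linarith)).mp hx
      have h3 := nm_ge_one h2
      have h4 : (nm x : ℝ) ^ (-(1 + ε)) = (nm x : ℝ)⁻¹ * ((nm x : ℝ) ^ ε)⁻¹ := by
        rw [show -(1 + ε) = -1 + -ε by ring, Real.rpow_add (by linarith),
          Real.rpow_neg_one, Real.rpow_neg (by linarith)]
      rw [h4]
      have h5 : (nm x : ℝ) ^ ε ≤ X ^ ε := Real.rpow_le_rpow (by linarith) h1 hε.le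
      have h6 : 0 < (nm x : ℝ) ^ ε := by positivity
      calc (nm x : ℝ)⁻¹ = (nm x : ℝ) ^ ε * ((nm x : ℝ)⁻¹ * ((nm x : ℝ) ^ ε)⁻¹) := by
            field_simp
        _ ≤ X ^ ε * ((nm x : ℝ)⁻¹ * ((nm x : ℝ) ^ ε)⁻¹) :=
            mul_le_mul_of_nonneg_right h5 (by positivity)
    calc ∑ x ∈ S X, ((nm x : ℝ))⁻¹ ≤ ∑ x ∈ S X, X ^ ε * (nm x : ℝ) ^ (-(1 + ε)) :=
          Finset.sum_le_sum h1
      _ = X ^ ε * ∑ x ∈ S X, (nm x : ℝ) ^ (-(1 + ε)) := by rw [Finset.mul_sum]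
      _ ≤ X ^ ε * ∑' x : Eis, (nm x : ℝ) ^ (-(1 + ε)) := by
          apply mul_le_mul_of_nonneg_left _ (by positivity)
          exact hs.sum_le_tsum _ (fun x _ => by positivity)
      _ ≤ _ := by
          rw [mul_comm]
          apply mul_le_mul_of_nonneg_right _ (by positivity)
          linarith

/-- index `(n, v, x, y, z)` -/
abbrev Ta := Eis × Eis × Eis × Eis × Eis

/-- the set of indices `(n, v, x, y, z)` with `n v = ν` -/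
def AA (ν : Eis) (R X : ℝ) : Finset Ta := by
  classical
  exact (dvs ν ×ˢ dvs ν ×ˢ S X ×ˢ S X ×ˢ S R).filter (fun a => a.1 * a.2.1 = ν)

/-- `U` at a tuple -/
def Ua (κ : Eis) (b c : Eis → ℂ) (Z : ℝ) (a : Ta) (s : Eis) : ℂ :=
  UU κ b c Z a.1 a.2.1 a.2.2.1 a.2.2.2.1 a.2.2.2.2 s

lemma mem_AA {ν : Eis} (hν : ν ≠ 0) {R X : ℝ} (hR : 0 ≤ R) (hX : 0 ≤ X) {a : Ta} :
    a ∈ AA ν R X ↔ ((IsPrim a.1 ∧ a.1 ∣ ν) ∧ (IsPrim a.2.1 ∧ a.2.1 ∣ ν) ∧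
      ((nm a.2.2.1 : ℝ) ≤ X ∧ IsPrim a.2.2.1 ∧ Squarefree a.2.2.1) ∧
      ((nm a.2.2.2.1 : ℝ) ≤ X ∧ IsPrim a.2.2.2.1 ∧ Squarefree a.2.2.2.1) ∧
      ((nm a.2.2.2.2 : ℝ) ≤ R ∧ IsPrim a.2.2.2.2 ∧ Squarefree a.2.2.2.2)) ∧
      a.1 * a.2.1 = ν := by
  unfold AA
  rw [Finset.mem_filter]
  simp only [Finset.mem_product]
  rw [mem_dvs hν, mem_dvs hν, mem_S hX, mem_S hX, mem_S hR]

open Classical in
/-- the master identity, second form -/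
lemma master2 {R Z X : ℝ} (hR : 1 ≤ R) (hZ : 1 ≤ Z) (hX : 1 ≤ X) {κ ν : Eis} (hκ : Cp κ)
    (hν : IsPrim ν) (hνs : Squarefree ν) {c b : Eis → ℂ} (hc : FS c)
    (hs : ∀ D, c D ≠ 0 → Squarefree D ∧ (nm D : ℝ) ≤ X ∧ IsCoprime D ν) {r : Eis}
    (hr : r ∈ S R) (hrν : IsCoprime r ν) :
    ∑ d ∈ pb Z, b d * ∑' D : Eis, c D * conj (gs (κ * r * ν ^ 2 * D) d) =
      ∑ p ∈ (AA ν R X ×ˢ S R).filter (fun p => (p.1.2.2.2.2 * p.1.2.2.2.1) * p.2 = r),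
        Ua κ b c Z p.1 p.2 := by
  rw [master hR hZ hX hκ hν hνs hc hs hr hrν]
  unfold II AA
  rw [Finset.sum_filter, Finset.sum_product]
  simp only [Finset.sum_filter, Finset.sum_product]
  refine Finset.sum_congr rfl fun n _ => Finset.sum_congr rfl fun v _ =>
    Finset.sum_congr rfl fun x _ => Finset.sum_congr rfl fun y _ =>
    Finset.sum_congr rfl fun z _ => ?_
  by_cases h1 : n * v = ν
  · rw [if_pos h1]
    refine Finset.sum_congr rfl fun s _ => ?_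
    by_cases h2 : z * y * s = r
    · rw [if_pos h2]
      unfold Ua UU
      refine Finset.sum_congr rfl fun m _ => ?_
      have : Cnd r ν Z (n, v, x, y, z, s, m) ↔ GG Z n x y z m :=
        ⟨fun h => h.2.2, fun h => ⟨h1, h2, h.1, h.2⟩⟩
      simp only [this]
    · rw [if_neg h2]
      refine Finset.sum_eq_zero fun m _ => ?_
      rw [if_neg fun h => h2 h.2.1]
  · rw [if_neg h1]
    refine Finset.sum_eq_zero fun s _ => Finset.sum_eq_zero fun m _ => ?_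
    rw [if_neg fun h => h1 h.1]

/-- Cauchy with weights -/
lemma cauchy_w {ι : Type*} (s : Finset ι) (w : ι → ℝ) (hw : ∀ i ∈ s, 0 < w i) (f : ι → ℂ) :
    ‖∑ i ∈ s, f i‖ ^ 2 ≤ (∑ i ∈ s, (w i)⁻¹) * ∑ i ∈ s, w i * ‖f i‖ ^ 2 := by
  have h1 : ‖∑ i ∈ s, f i‖ ≤ ∑ i ∈ s, Real.sqrt ((w i)⁻¹) * (Real.sqrt (w i) * ‖f i‖) := by
    refine (norm_sum_le _ _).trans (Finset.sum_le_sum fun i hi => ?_)
    rw [← mul_assoc, ← Real.sqrt_mul (inv_nonneg.mpr (hw i hi).le), inv_mul_cancel₀ (hw i hi).ne',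
      Real.sqrt_one, one_mul]
  calc ‖∑ i ∈ s, f i‖ ^ 2 ≤ (∑ i ∈ s, Real.sqrt ((w i)⁻¹) * (Real.sqrt (w i) * ‖f i‖)) ^ 2 :=
        pow_le_pow_left₀ (norm_nonneg _) h1 2
    _ ≤ (∑ i ∈ s, Real.sqrt ((w i)⁻¹) ^ 2) * ∑ i ∈ s, (Real.sqrt (w i) * ‖f i‖) ^ 2 :=
        Finset.sum_mul_sq_le_sq_mul_sq s _ _
    _ = _ := by
        congr 1
        · exact Finset.sum_congr rfl fun i hi => Real.sq_sqrt (inv_nonneg.mpr (hw i hi).le)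
        · refine Finset.sum_congr rfl fun i hi => ?_
          rw [mul_pow, Real.sq_sqrt (hw i hi).le]

open Classical in
/-- the first factor -/
lemma first_factor {R X : ℝ} (hR : 1 ≤ R) (hX : 1 ≤ X) {ν : Eis} (hν : IsPrim ν) {r : Eis}
    (hr : r ∈ S R) :
    ∑ p ∈ (AA ν R X ×ˢ S R).filter (fun p => (p.1.2.2.2.2 * p.1.2.2.2.1) * p.2 = r),
      ((nm p.1.2.2.1 : ℝ))⁻¹ ≤ (tau ν : ℝ) ^ 2 * (tau r : ℝ) ^ 3 * ∑ x ∈ S X, ((nm x : ℝ))⁻¹ := by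
  have hR0 : (0 : ℝ) ≤ R := by linarith
  have hX0 : (0 : ℝ) ≤ X := by linarith
  have hr0 : r ≠ 0 := ((mem_S hR0).mp hr).2.1.ne_zero
  have hsub : ∀ p ∈ (AA ν R X ×ˢ S R).filter (fun p => (p.1.2.2.2.2 * p.1.2.2.2.1) * p.2 = r),
      (p.1.1, p.1.2.1, p.1.2.2.1, p.1.2.2.2.1, p.1.2.2.2.2, p.2) ∈
        dvs ν ×ˢ dvs ν ×ˢ S X ×ˢ dvs r ×ˢ dvs r ×ˢ dvs r := by
    intro p hp
    rw [Finset.mem_filter, Finset.mem_product, mem_AA hν.ne_zero hR0 hX0, mem_S hR0] at hp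
    obtain ⟨⟨⟨⟨h1, h2, h3, h4, h5⟩, h6⟩, h7⟩, h8⟩ := hp
    simp only [Finset.mem_product]
    rw [mem_dvs hν.ne_zero, mem_dvs hν.ne_zero, mem_S hX0, mem_dvs hr0, mem_dvs hr0, mem_dvs hr0]
    exact ⟨h1, h2, h3, ⟨h4.2.1, ⟨p.1.2.2.2.2 * p.2, by rw [← h8]; ring⟩⟩,
      ⟨h5.2.1, ⟨p.1.2.2.2.1 * p.2, by rw [← h8]; ring⟩⟩,
      ⟨h7.2.1, ⟨p.1.2.2.2.2 * p.1.2.2.2.1, by rw [← h8]; ring⟩⟩⟩
  have hinj : Set.InjOn (fun p : Ta × Eis =>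
      ((p.1.1, p.1.2.1, p.1.2.2.1, p.1.2.2.2.1, p.1.2.2.2.2, p.2) : Eis × Eis × Eis × Eis × Eis × Eis))
      ((AA ν R X ×ˢ S R).filter (fun p => (p.1.2.2.2.2 * p.1.2.2.2.1) * p.2 = r) : Finset (Ta × Eis)) := by
    rintro ⟨⟨a1, a2, a3, a4, a5⟩, a6⟩ _ ⟨⟨b1, b2, b3, b4, b5⟩, b6⟩ _ h
    simp only [Prod.mk.injEq] at h ⊢
    tauto
  have e1 : ∑ p ∈ (AA ν R X ×ˢ S R).filter (fun p => (p.1.2.2.2.2 * p.1.2.2.2.1) * p.2 = r),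
      ((nm p.1.2.2.1 : ℝ))⁻¹ = ∑ q ∈ ((AA ν R X ×ˢ S R).filter
        (fun p => (p.1.2.2.2.2 * p.1.2.2.2.1) * p.2 = r)).image (fun p : Ta × Eis =>
      ((p.1.1, p.1.2.1, p.1.2.2.1, p.1.2.2.2.1, p.1.2.2.2.2, p.2) :
        Eis × Eis × Eis × Eis × Eis × Eis)), ((nm q.2.2.1 : ℝ))⁻¹ := by
    rw [Finset.sum_image hinj]
  rw [e1]
  calc _ ≤ ∑ q ∈ dvs ν ×ˢ dvs ν ×ˢ S X ×ˢ dvs r ×ˢ dvs r ×ˢ dvs r, ((nm q.2.2.1 : ℝ))⁻¹ := by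
        refine Finset.sum_le_sum_of_subset_of_nonneg ?_ (fun q _ _ => by positivity)
        intro q hq
        rw [Finset.mem_image] at hq
        obtain ⟨p, hp, rfl⟩ := hq
        exact hsub p hp
    _ = _ := by
        simp only [Finset.sum_product, Finset.sum_const, nsmul_eq_mul, ← Finset.mul_sum,
          Finset.card_product]
        unfold tau
        push_cast
        ring

open Classical in
/-- the second factor, summed over `r` -/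
lemma second_factor {R : ℝ} (Q : Finset Eis) (hQ : Q ⊆ S R) (A : Finset Ta)
    (g : Ta → Eis → ℝ) (hg : ∀ a s, 0 ≤ g a s) :
    ∑ r ∈ Q, ∑ p ∈ (A ×ˢ S R).filter (fun p => (p.1.2.2.2.2 * p.1.2.2.2.1) * p.2 = r),
      g p.1 p.2 ≤ ∑ a ∈ A, ∑ s ∈ S R, (if (a.2.2.2.2 * a.2.2.2.1) * s ∈ S R then g a s else 0) := by
  have e1 : ∀ r ∈ Q, ∑ p ∈ (A ×ˢ S R).filter (fun p => (p.1.2.2.2.2 * p.1.2.2.2.1) * p.2 = r),
      g p.1 p.2 = ∑ a ∈ A, ∑ s ∈ S R, (if (a.2.2.2.2 * a.2.2.2.1) * s = r then g a s else 0) := by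
    intro r _
    rw [Finset.sum_filter, Finset.sum_product]
  rw [Finset.sum_congr rfl e1, Finset.sum_comm]
  refine Finset.sum_le_sum fun a _ => ?_
  rw [Finset.sum_comm]
  refine Finset.sum_le_sum fun s _ => ?_
  rw [Finset.sum_ite_eq]
  by_cases h : (a.2.2.2.2 * a.2.2.2.1) * s ∈ Q
  · rw [if_pos h, if_pos (hQ h)]
  · rw [if_neg h]
    split_ifs
    · exact hg a s
    · exact le_rfl

open Classical in
/-- the divisor sum for fixed `x`, `y` -/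
lemma div_sum {R Z : ℝ} (hR : 1 ≤ R) (hZ : 1 ≤ Z) {ν : Eis} (hν : IsPrim ν) {x y : Eis}
    (hx : IsPrim x) (hy : IsPrim y) {Tb : ℝ} (hT : ∀ d ∈ pb Z, (tau d : ℝ) ^ 2 ≤ Tb)
    (F : Eis → ℝ) (hF : ∀ d, 0 ≤ F d) :
    ∑ n ∈ dvs ν, ∑ z ∈ S R, ∑ m ∈ S Z, (if GG Z n x y z m then F (QQ n x y z m) else 0) ≤
      Tb * ∑ d ∈ (pb Z).filter (fun d => x ^ 2 * y ^ 3 ∣ d), F d := by
  have hR0 : (0 : ℝ) ≤ R := by linarith
  have hZ0 : (0 : ℝ) ≤ Z := by linarith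
  set P := (dvs ν ×ˢ S R ×ˢ S Z).filter (fun p => GG Z p.1 x y p.2.1 p.2.2) with hP
  set D := (pb Z).filter (fun d => x ^ 2 * y ^ 3 ∣ d) with hD
  have e1 : ∑ n ∈ dvs ν, ∑ z ∈ S R, ∑ m ∈ S Z,
      (if GG Z n x y z m then F (QQ n x y z m) else 0) = ∑ p ∈ P, F (QQ p.1 x y p.2.1 p.2.2) := by
    rw [hP, Finset.sum_filter, Finset.sum_product]
    refine Finset.sum_congr rfl fun n _ => ?_
    rw [Finset.sum_product]
  have hPm : ∀ p ∈ P, IsPrim p.1 ∧ IsPrim p.2.1 ∧ IsPrim p.2.2 ∧ GG Z p.1 x y p.2.1 p.2.2 := by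
    intro p hp
    rw [hP, Finset.mem_filter, Finset.mem_product, Finset.mem_product, mem_dvs hν.ne_zero,
      mem_S hR0, mem_S hZ0] at hp
    exact ⟨hp.1.1.1, hp.1.2.1.2.1, hp.1.2.2.2.1, hp.2⟩
  have hmaps : ∀ p ∈ P, QQ p.1 x y p.2.1 p.2.2 ∈ D := by
    intro p hp
    obtain ⟨h1, h2, h3, h4⟩ := hPm p hp
    rw [hD, Finset.mem_filter, mem_pb hZ0]
    refine ⟨⟨h4.2, ?_⟩, ?_⟩
    · exact h3.mul (((hx.pow 2).mul (h2.pow 2)).mul ((hy.mul h1).pow 3))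
    · exact ⟨p.2.2 * (p.2.1 ^ 2 * p.1 ^ 3), by unfold QQ; ring⟩
  rw [e1, ← Finset.sum_fiberwise_of_maps_to hmaps, Finset.mul_sum]
  refine Finset.sum_le_sum fun d hd => ?_
  rw [Finset.sum_congr rfl (g := fun _ => F d) (fun p hp => by
    rw [(Finset.mem_filter.mp hp).2]), Finset.sum_const, nsmul_eq_mul]
  refine mul_le_mul_of_nonneg_right ?_ (hF d)
  have hdZ : d ∈ pb Z := (Finset.mem_filter.mp hd).1
  refine le_trans ?_ (hT d hdZ)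
  have hd0 : d ≠ 0 := ((mem_pb hZ0).mp hdZ).2.ne_zero
  have hcard : (P.filter (fun p => QQ p.1 x y p.2.1 p.2.2 = d)).card ≤ (dvs d ×ˢ dvs d).card := by
    refine Finset.card_le_card_of_injOn (fun p => (p.1, p.2.1)) ?_ ?_
    · intro p hp
      have hp' := Finset.mem_filter.mp (Finset.mem_coe.mp hp)
      obtain ⟨h1, h2, h3, h4⟩ := hPm p hp'.1
      rw [Finset.mem_coe, Finset.mem_product, mem_dvs hd0, mem_dvs hd0, ← hp'.2]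
      exact ⟨⟨h1, ⟨p.2.2 * (x ^ 2 * p.2.1 ^ 2 * (y ^ 3 * p.1 ^ 2)), by unfold QQ; ring⟩⟩,
        ⟨h2, ⟨p.2.2 * (x ^ 2 * p.2.1 * (y * p.1) ^ 3), by unfold QQ; ring⟩⟩⟩
    · intro p hp q hq h
      have hp' := Finset.mem_filter.mp (Finset.mem_coe.mp hp)
      have hq' := Finset.mem_filter.mp (Finset.mem_coe.mp hq)
      obtain ⟨h1, h2, h3, h4⟩ := hPm p hp'.1
      obtain ⟨n, z, m⟩ := p
      obtain ⟨n', z', m'⟩ := q
      simp only [Prod.mk.injEq] at h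
      obtain ⟨rfl, rfl⟩ := h
      have h5 : QQ n x y z m = QQ n x y z m' := hp'.2.trans hq'.2.symm
      unfold QQ at h5
      have h0' : x ^ 2 * z ^ 2 * (y * n) ^ 3 ≠ 0 :=
        (((hx.pow 2).mul (h2.pow 2)).mul ((hy.mul h1).pow 3)).ne_zero
      rw [mul_right_cancel₀ h0' h5]
  rw [Finset.card_product] at hcard
  unfold tau
  calc ((P.filter (fun p => QQ p.1 x y p.2.1 p.2.2 = d)).card : ℝ) ≤
        (((dvs d).card * (dvs d).card : ℕ) : ℝ) := by exact_mod_cast hcard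
    _ = _ := by push_cast; ring

set_option maxHeartbeats 1000000 in
open Classical in
/-- **(H1)** the bilinear bound for the natural Gauss sum series -/
theorem H1 {ε : ℝ} (hε : 0 < ε) : ∃ C : ℝ, 1 ≤ C ∧ ∀ R Z X : ℝ, 1 ≤ R → 1 ≤ Z → 1 ≤ X →
    ∀ κ ν : Eis, (∀ p : Eis, Prime p → IsPrim p → ¬ p ∣ κ) → IsPrim ν → Squarefree ν →
    ∀ c b : Eis → ℂ, FS c →
    (∀ D, c D ≠ 0 → Squarefree D ∧ (nm D : ℝ) ≤ X ∧ IsCoprime D ν) →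
    ∑ r ∈ (S R).filter (fun r => IsCoprime r ν),
      ‖∑ d ∈ pb Z, b d * ∑' D : Eis, c D * conj (gs (κ * r * ν ^ 2 * D) d)‖ ^ 2 ≤
      C * (R * Z * X * nm ν) ^ ε * nm ν * (R + Z + (R * Z) ^ ((2 : ℝ) / 3)) *
        ∑ g₂ ∈ S X, ∑ g₃ ∈ S X, (nm g₂ : ℝ) ^ 2 *
          ∑ d ∈ (pb Z).filter (fun d => g₂ ^ 2 * g₃ ^ 3 ∣ d),
            (nm d : ℝ) * ‖b d‖ ^ 2 * ‖CS (sub c (g₂ * g₃)) d‖ ^ 2 := by
  set δ : ℝ := ε / 4 with hδ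
  have hδ0 : 0 < δ := by rw [hδ]; linarith
  obtain ⟨K, hK, hLS⟩ := ls_tuple LS448.hb_final hδ0
  obtain ⟨Ct, hCt1, hCt⟩ := tau_le_rpow hδ0
  obtain ⟨Ci, hCi1, hCi⟩ := sum_inv_le hδ0
  refine ⟨max 1 (Ct ^ 2 * Ct ^ 3 * Ci * K * Ct ^ 2), le_max_left _ _,
    fun R Z X hR hZ hX κ ν hκ hν hνs c b hc hs => ?_⟩
  have hR0 : (0 : ℝ) ≤ R := by linarith
  have hZ0 : (0 : ℝ) ≤ Z := by linarith
  have hX0 : (0 : ℝ) ≤ X := by linarith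
  have hν1 : (1 : ℝ) ≤ nm ν := nm_ge_one hν
  set Sm : ℝ := ∑ g₂ ∈ S X, ∑ g₃ ∈ S X, (nm g₂ : ℝ) ^ 2 *
          ∑ d ∈ (pb Z).filter (fun d => g₂ ^ 2 * g₃ ^ 3 ∣ d),
            (nm d : ℝ) * ‖b d‖ ^ 2 * ‖CS (sub c (g₂ * g₃)) d‖ ^ 2 with hSm
  have hSm0 : 0 ≤ Sm := by
    rw [hSm]
    refine Finset.sum_nonneg fun _ _ => Finset.sum_nonneg fun _ _ => mul_nonneg (by positivity) ?_
    exact Finset.sum_nonneg fun _ _ => by positivity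
  set W1 : ℝ := (Ct * (nm ν : ℝ) ^ δ) ^ 2 * (Ct * R ^ δ) ^ 3 * (Ci * X ^ δ) with hW1
  set LSB : ℝ := K * (R * Z) ^ δ * (R + Z + (R * Z) ^ ((2 : ℝ) / 3)) with hLSB
  have hLSB0 : 0 ≤ LSB := by rw [hLSB]; positivity
  have hW10 : 0 ≤ W1 := by
    rw [hW1]
    have : 0 ≤ Ct := by linarith
    have : 0 ≤ Ci := by linarith
    positivity
  have hstep1 : ∀ r ∈ (S R).filter (fun r => IsCoprime r ν),
      ‖∑ d ∈ pb Z, b d * ∑' D : Eis, c D * conj (gs (κ * r * ν ^ 2 * D) d)‖ ^ 2 ≤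
      W1 * ∑ p ∈ (AA ν R X ×ˢ S R).filter (fun p => (p.1.2.2.2.2 * p.1.2.2.2.1) * p.2 = r),
        (nm p.1.2.2.1 : ℝ) * ‖Ua κ b c Z p.1 p.2‖ ^ 2 := by
    intro r hr
    rw [Finset.mem_filter] at hr
    rw [master2 hR hZ hX hκ hν hνs hc hs hr.1 hr.2]
    refine (cauchy_w _ (fun p => (nm p.1.2.2.1 : ℝ)) ?_ _).trans ?_
    · intro p hp
      rw [Finset.mem_filter, Finset.mem_product, mem_AA hν.ne_zero hR0 hX0] at hp
      exact lt_of_lt_of_le one_pos (nm_ge_one hp.1.1.1.2.2.1.2.1)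
    · apply mul_le_mul_of_nonneg_right _ (Finset.sum_nonneg fun _ _ => by positivity)
      refine (first_factor hR hX hν hr.1).trans ?_
      obtain ⟨h1, h2, h3⟩ := (mem_S hR0).mp hr.1
      have t1 : (tau ν : ℝ) ≤ Ct * (nm ν : ℝ) ^ δ := hCt ν hν.ne_zero
      have t2 : (tau r : ℝ) ≤ Ct * R ^ δ := (hCt r h2.ne_zero).trans
        (mul_le_mul_of_nonneg_left (Real.rpow_le_rpow (by positivity) h1 hδ0.le) (by linarith))
      have t3 := hCi X hX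
      rw [hW1]
      have t4 : 0 ≤ ∑ x ∈ S X, ((nm x : ℝ))⁻¹ := Finset.sum_nonneg fun _ _ => by positivity
      have t5 : (tau ν : ℝ) ^ 2 ≤ (Ct * (nm ν : ℝ) ^ δ) ^ 2 := pow_le_pow_left₀ (Nat.cast_nonneg _) t1 2
      have t6 : (tau r : ℝ) ^ 3 ≤ (Ct * R ^ δ) ^ 3 := pow_le_pow_left₀ (Nat.cast_nonneg _) t2 3
      exact mul_le_mul (mul_le_mul t5 t6 (by positivity) (by positivity)) t3 t4 (by positivity)
  have hstep2 : ∑ r ∈ (S R).filter (fun r => IsCoprime r ν),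
      ‖∑ d ∈ pb Z, b d * ∑' D : Eis, c D * conj (gs (κ * r * ν ^ 2 * D) d)‖ ^ 2 ≤
      W1 * ∑ a ∈ AA ν R X, (nm a.2.2.1 : ℝ) * ∑ s ∈ S R,
        (if (a.2.2.2.2 * a.2.2.2.1) * s ∈ S R then ‖Ua κ b c Z a s‖ ^ 2 else 0) := by
    refine (Finset.sum_le_sum hstep1).trans ?_
    rw [← Finset.mul_sum]
    apply mul_le_mul_of_nonneg_left _ hW10
    refine (second_factor (R := R) _ (Finset.filter_subset _ _) (AA ν R X)
      (fun a s => (nm a.2.2.1 : ℝ) * ‖Ua κ b c Z a s‖ ^ 2) (fun a s => by positivity)).trans ?_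
    refine Finset.sum_le_sum fun a _ => ?_
    rw [Finset.mul_sum]
    refine Finset.sum_le_sum fun s _ => ?_
    split_ifs
    · exact le_rfl
    · rw [mul_zero]
  have hstep3 : ∀ a ∈ AA ν R X, (nm a.2.2.1 : ℝ) * ∑ s ∈ S R,
        (if (a.2.2.2.2 * a.2.2.2.1) * s ∈ S R then ‖Ua κ b c Z a s‖ ^ 2 else 0) ≤
      LSB * (nm ν : ℝ) * ((nm a.2.2.1 : ℝ) ^ 2 * ∑ m ∈ S Z,
        (if GG Z a.1 a.2.2.1 a.2.2.2.1 a.2.2.2.2 m then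
          wt b c a.2.2.1 a.2.2.2.1 (QQ a.1 a.2.2.1 a.2.2.2.1 a.2.2.2.2 m) else 0)) := by
    intro a ha
    rw [mem_AA hν.ne_zero hR0 hX0] at ha
    obtain ⟨⟨h1, h2, h3, h4, h5⟩, h6⟩ := ha
    have h := hLS R Z hR hZ κ hκ b c a.1 a.2.1 a.2.2.1 a.2.2.2.1 a.2.2.2.2 h1.1 h3.2.1 h4.2.1 h5.2.1
    refine h.trans ?_
    have hw : 0 ≤ ∑ m ∈ S Z,
        (if GG Z a.1 a.2.2.1 a.2.2.2.1 a.2.2.2.2 m then
          wt b c a.2.2.1 a.2.2.2.1 (QQ a.1 a.2.2.1 a.2.2.2.1 a.2.2.2.2 m) else 0) := by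
      refine Finset.sum_nonneg fun m _ => ?_
      split_ifs
      · exact wt_nonneg _ _ _ _ _
      · exact le_rfl
    have hn : (nm a.1 : ℝ) ≤ nm ν := by exact_mod_cast Div277.nm_le_of_dvd hν.ne_zero h1.2
    calc _ = LSB * (nm a.1 : ℝ) * ((nm a.2.2.1 : ℝ) ^ 2 * ∑ m ∈ S Z,
        (if GG Z a.1 a.2.2.1 a.2.2.2.1 a.2.2.2.2 m then
          wt b c a.2.2.1 a.2.2.2.1 (QQ a.1 a.2.2.1 a.2.2.2.1 a.2.2.2.2 m) else 0)) := by
          rw [hLSB]; ring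
      _ ≤ _ := by gcongr
  have hT : ∀ d ∈ pb Z, (tau d : ℝ) ^ 2 ≤ (Ct * Z ^ δ) ^ 2 := by
    intro d hd
    obtain ⟨h1, h2⟩ := (mem_pb hZ0).mp hd
    have t2 : (tau d : ℝ) ≤ Ct * Z ^ δ := (hCt d h2.ne_zero).trans
      (mul_le_mul_of_nonneg_left (Real.rpow_le_rpow (by positivity) h1 hδ0.le) (by linarith))
    exact pow_le_pow_left₀ (Nat.cast_nonneg _) t2 2
  have hstep4 : ∑ a ∈ AA ν R X, (nm a.2.2.1 : ℝ) ^ 2 * ∑ m ∈ S Z,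
        (if GG Z a.1 a.2.2.1 a.2.2.2.1 a.2.2.2.2 m then
          wt b c a.2.2.1 a.2.2.2.1 (QQ a.1 a.2.2.1 a.2.2.2.1 a.2.2.2.2 m) else 0) ≤
      (Ct * Z ^ δ) ^ 2 * Sm := by
    set f : Eis → Eis → Eis → Eis → ℝ := fun n x y z => (nm x : ℝ) ^ 2 * ∑ m ∈ S Z,
        (if GG Z n x y z m then wt b c x y (QQ n x y z m) else 0) with hf
    have hf0 : ∀ n x y z, 0 ≤ f n x y z := by
      intro n x y z
      rw [hf]
      refine mul_nonneg (by positivity) (Finset.sum_nonneg fun m _ => ?_)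
      split_ifs
      · exact wt_nonneg _ _ _ _ _
      · exact le_rfl
    -- `v` is determined by `n`
    have e1 : ∑ a ∈ AA ν R X, f a.1 a.2.2.1 a.2.2.2.1 a.2.2.2.2 ≤
        ∑ n ∈ dvs ν, ∑ x ∈ S X, ∑ y ∈ S X, ∑ z ∈ S R, f n x y z := by
      have e2 : ∑ n ∈ dvs ν, ∑ x ∈ S X, ∑ y ∈ S X, ∑ z ∈ S R, f n x y z =
          ∑ q ∈ dvs ν ×ˢ S X ×ˢ S X ×ˢ S R, f q.1 q.2.1 q.2.2.1 q.2.2.2 := by
        simp only [Finset.sum_product]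
      rw [e2]
      have hinj : Set.InjOn (fun a : Ta => ((a.1, a.2.2.1, a.2.2.2.1, a.2.2.2.2) :
          Eis × Eis × Eis × Eis)) (AA ν R X) := by
        rintro ⟨a1, a2, a3, a4, a5⟩ ha ⟨b1, b2, b3, b4, b5⟩ hb h
        rw [Finset.mem_coe, mem_AA hν.ne_zero hR0 hX0] at ha hb
        simp only [Prod.mk.injEq] at h ⊢
        obtain ⟨rfl, rfl, rfl, rfl⟩ := h
        refine ⟨rfl, ?_, rfl, rfl, rfl⟩
        exact mul_left_cancel₀ ha.1.1.1.ne_zero (ha.2.trans hb.2.symm)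
      have e3 : ∑ a ∈ AA ν R X, f a.1 a.2.2.1 a.2.2.2.1 a.2.2.2.2 =
          ∑ q ∈ (AA ν R X).image (fun a : Ta => ((a.1, a.2.2.1, a.2.2.2.1, a.2.2.2.2) :
          Eis × Eis × Eis × Eis)), f q.1 q.2.1 q.2.2.1 q.2.2.2 := by
        rw [Finset.sum_image hinj]
      rw [e3]
      refine Finset.sum_le_sum_of_subset_of_nonneg ?_ (fun q _ _ => hf0 _ _ _ _)
      intro q hq
      rw [Finset.mem_image] at hq
      obtain ⟨a, ha, rfl⟩ := hq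
      rw [mem_AA hν.ne_zero hR0 hX0] at ha
      simp only [Finset.mem_product]
      rw [mem_dvs hν.ne_zero, mem_S hX0, mem_S hX0, mem_S hR0]
      exact ⟨ha.1.1, ha.1.2.2.1, ha.1.2.2.2.1, ha.1.2.2.2.2⟩
    refine e1.trans ?_
    rw [Finset.sum_comm, hSm, Finset.mul_sum]
    refine Finset.sum_le_sum fun x hx => ?_
    rw [Finset.sum_comm, Finset.mul_sum]
    refine Finset.sum_le_sum fun y hy => ?_
    have hx' := ((mem_S hX0).mp hx).2.1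
    have hy' := ((mem_S hX0).mp hy).2.1
    have h7 := div_sum (R := R) (Z := Z) hR hZ hν hx' hy' hT (wt b c x y) (wt_nonneg b c x y)
    have e4 : ∑ n ∈ dvs ν, ∑ z ∈ S R, f n x y z = (nm x : ℝ) ^ 2 *
        ∑ n ∈ dvs ν, ∑ z ∈ S R, ∑ m ∈ S Z,
          (if GG Z n x y z m then wt b c x y (QQ n x y z m) else 0) := by
      rw [hf, Finset.mul_sum]
      refine Finset.sum_congr rfl fun n _ => ?_
      rw [Finset.mul_sum]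
    rw [e4]
    calc _ ≤ (nm x : ℝ) ^ 2 * ((Ct * Z ^ δ) ^ 2 *
          ∑ d ∈ (pb Z).filter (fun d => x ^ 2 * y ^ 3 ∣ d), wt b c x y d) :=
          mul_le_mul_of_nonneg_left h7 (by positivity)
      _ = _ := by unfold wt; ring
  have hstep5 : ∑ r ∈ (S R).filter (fun r => IsCoprime r ν),
      ‖∑ d ∈ pb Z, b d * ∑' D : Eis, c D * conj (gs (κ * r * ν ^ 2 * D) d)‖ ^ 2 ≤
      W1 * (LSB * (nm ν : ℝ) * ((Ct * Z ^ δ) ^ 2 * Sm)) := by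
    refine hstep2.trans (mul_le_mul_of_nonneg_left ?_ hW10)
    refine (Finset.sum_le_sum hstep3).trans ?_
    rw [← Finset.mul_sum]
    exact mul_le_mul_of_nonneg_left hstep4 (by positivity)
  refine hstep5.trans ?_
  have hCt0 : 0 ≤ Ct := by linarith
  have hCi0 : 0 ≤ Ci := by linarith
  have hpow : ((nm ν : ℝ) ^ δ) ^ 2 * (R ^ δ) ^ 3 * X ^ δ * (R * Z) ^ δ * (Z ^ δ) ^ 2 ≤
      (R * Z * X * nm ν) ^ ε := by
    have a1 : (1 : ℝ) ≤ (nm ν : ℝ) ^ δ := Real.one_le_rpow hν1 hδ0.le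
    have a2 : (1 : ℝ) ≤ R ^ δ := Real.one_le_rpow hR hδ0.le
    have a3 : (1 : ℝ) ≤ X ^ δ := Real.one_le_rpow hX hδ0.le
    have a4 : (1 : ℝ) ≤ Z ^ δ := Real.one_le_rpow hZ hδ0.le
    have e1 : (R * Z * X * nm ν) ^ ε = (R ^ δ) ^ 4 * (Z ^ δ) ^ 4 * (X ^ δ) ^ 4 *
        ((nm ν : ℝ) ^ δ) ^ 4 := by
      rw [Real.mul_rpow (by positivity) (by positivity), Real.mul_rpow (by positivity) hX0,
        Real.mul_rpow hR0 hZ0]
      have h4 : ∀ t : ℝ, 0 ≤ t → t ^ ε = (t ^ δ) ^ 4 := by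
        intro t ht
        rw [← Real.rpow_natCast, ← Real.rpow_mul ht]
        congr 1
        rw [hδ]; push_cast; ring
      rw [h4 R hR0, h4 Z hZ0, h4 X hX0, h4 _ (by positivity)]
    rw [e1, Real.mul_rpow hR0 hZ0]
    set r1 := R ^ δ
    set z1 := Z ^ δ
    set x1 := X ^ δ
    set n1 := (nm ν : ℝ) ^ δ
    have b1 : z1 ^ 3 ≤ z1 ^ 4 := pow_le_pow_right₀ a4 (by norm_num)
    have b2 : x1 ≤ x1 ^ 4 := by
      calc x1 = x1 ^ 1 := (pow_one _).symm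
        _ ≤ x1 ^ 4 := pow_le_pow_right₀ a3 (by norm_num)
    have b3 : n1 ^ 2 ≤ n1 ^ 4 := pow_le_pow_right₀ a1 (by norm_num)
    calc n1 ^ 2 * r1 ^ 3 * x1 * (r1 * z1) * z1 ^ 2 = r1 ^ 4 * z1 ^ 3 * x1 * n1 ^ 2 := by ring
      _ ≤ r1 ^ 4 * z1 ^ 4 * x1 ^ 4 * n1 ^ 4 := by gcongr
  calc W1 * (LSB * (nm ν : ℝ) * ((Ct * Z ^ δ) ^ 2 * Sm))
      = (Ct ^ 2 * Ct ^ 3 * Ci * K * Ct ^ 2) *
        (((nm ν : ℝ) ^ δ) ^ 2 * (R ^ δ) ^ 3 * X ^ δ * (R * Z) ^ δ * (Z ^ δ) ^ 2) * (nm ν : ℝ) *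
        (R + Z + (R * Z) ^ ((2 : ℝ) / 3)) * Sm := by
        rw [hW1, hLSB]; ring
    _ ≤ (max 1 (Ct ^ 2 * Ct ^ 3 * Ci * K * Ct ^ 2)) * (R * Z * X * nm ν) ^ ε * (nm ν : ℝ) *
        (R + Z + (R * Z) ^ ((2 : ℝ) / 3)) * Sm := by
        gcongr
        exact le_max_right _ _

end Crest.Agent.R017.H1401
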