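import Crest.Agent.R017.X6W1_180

/-!
# Row 17 (helper180): smooth separation of the dual kernels `om'` of `X6C180.xc'`
-/

set_option autoImplicit false
set_option linter.unusedVariables false

noncomputable section

open Complex MeasureTheory Set Filter Topology
open scoped ComplexConjugate

namespace Crest.Agent.R017.X6W180

open Crest.Agent.R012 Crest.Agent.R012.Eis
open Crest.Agent.R012.Weight600 (osc)
open Crest.Agent.R012.Parseval499 (frq s3 toC_s3_ne)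
open Crest.Agent.R017.FE47 (SM BM)
open Crest.Agent.R017.F1
open Crest.Agent.R017.X6545 (SU TF Bd)
open Crest.Agent.R017.X6B848 (fyw ev_fyw XB)
open Crest.Agent.R017.X6C180

lemma fyw_add (s : ℝ) (F G : ℝ → ℂ) :
    fyw s (fun y => F y + G y) = fun x => fyw s F x + fyw s G x := by
  funext x; unfold fyw; ring

lemma fyw_smul (s : ℝ) (a : ℂ) (F : ℝ → ℂ) :
    fyw s (fun y => a * F y) = fun x => a * fyw s F x := by
  funext x; unfold fyw; ring

lemma fyw_tr {s : ℝ} (hs : s ≠ 0) (F : ℝ → ℂ) (h : ℝ) :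
    fyw s (fun y => F (y - h)) = fun x => ((Real.exp (s * h / 2) : ℝ) : ℂ) *
      dl ((Real.exp (h / 2) : ℝ) : ℂ) (fyw s F) x := by
  funext x
  have hw : 0 < Real.exp (h / 2) := Real.exp_pos _
  unfold fyw dl
  simp only
  by_cases hx : x = 0
  · subst hx
    rw [zero_div, norm_zero, Real.zero_rpow hs]
    simp
  · have hn : 0 < ‖x‖ := norm_pos_iff.mpr hx
    rw [norm_div, Complex.norm_real, Real.norm_of_nonneg hw.le, div_pow,
      Real.log_div (by positivity) (by positivity), ← Real.exp_nat_mul, Real.log_exp,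
      Real.div_rpow hn.le hw.le, ← Real.exp_mul, ← mul_assoc, ← Complex.ofReal_mul]
    congr 2
    · rw [mul_div_assoc', mul_comm (Real.exp (s * h / 2)), mul_div_assoc,
        show h / 2 * s = s * h / 2 by ring, div_self (Real.exp_pos _).ne', mul_one]
    · push_cast; ring

/-- `Wf` of a translate. -/
lemma Wf_tr (F : ℝ → ℂ) (h : ℝ) (y : ℂ) :
    Wf (fyw (-(4 / 3)) (fun y => F (y - h))) y = ((Real.exp (h / 3) : ℝ) : ℂ) *
      Wf (fyw (-(4 / 3)) F) (y / ((Real.exp (h / 2) : ℝ) : ℂ)) := by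
  have hw : ((Real.exp (h / 2) : ℝ) : ℂ) ≠ 0 := by
    exact_mod_cast (Real.exp_pos _).ne'
  rw [fyw_tr (by norm_num), Wf_const_mul, Wf_dl _ hw, ← mul_assoc, ← Complex.ofReal_mul]
  congr 2
  rw [Complex.norm_real, Real.norm_of_nonneg (Real.exp_pos _).le, ← Real.exp_nat_mul,
    ← Real.exp_add]
  congr 1
  push_cast; ring

lemma pr_tr (φ : ℂ → ℂ) {κ : ℝ} (hκ : 0 < κ) (x h : ℝ) :
    φ (((Real.sqrt (κ * Real.exp x) : ℝ) : ℂ) / ((Real.exp (h / 2) : ℝ) : ℂ)) =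
      pr φ (κ * Real.exp (x - h)) := by
  unfold pr
  rw [← Complex.ofReal_div]
  congr 2
  rw [Real.exp_sub, ← mul_div_assoc, Real.sqrt_div (by positivity)]
  congr 1
  rw [show Real.exp h = Real.exp (h / 2) ^ 2 by rw [← Real.exp_nat_mul]; congr 1; push_cast; ring,
    Real.sqrt_sq (Real.exp_pos _).le]

lemma sq_ne {κ : ℝ} (hκ : 0 < κ) (x : ℝ) : ((Real.sqrt (κ * Real.exp x) : ℝ) : ℂ) ≠ 0 := by
  have : 0 < Real.sqrt (κ * Real.exp x) := Real.sqrt_pos.mpr (by positivity)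
  exact_mod_cast this.ne'

lemma op_bd {φ : (ℝ → ℂ) → ℂ → ℂ} (hφ : ∀ M : ℕ, ∃ (k : ℕ) (C : ℝ), 0 ≤ C ∧
    ∀ (F : ℝ → ℂ) (S : ℝ), TF F → Bd F k S → ∀ y : ℂ, y ≠ 0 → ‖φ F y‖ ≤ C * S ∧
      ‖φ F y‖ ≤ C * S * ‖y‖ ^ M) (a : ℂ) {κ : ℝ} (hκ : 0 < κ) (M : ℕ) :
    ∃ (k : ℕ) (C : ℝ), 0 ≤ C ∧ ∀ (F : ℝ → ℂ) (S : ℝ), TF F → Bd F k S → ∀ x,
    ‖a * pr (φ F) (κ * Real.exp x)‖ ≤ C * S * min 1 (Real.exp (M * x)) := by
  obtain ⟨k, C, hC0, hC⟩ := hφ (2 * M)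
  refine ⟨k, ‖a‖ * (1 + κ ^ M) * C, by positivity, fun F S hF hB x => ?_⟩
  have hS : 0 ≤ S := (norm_nonneg _).trans (hB 0 (Nat.zero_le _) 0)
  have := pr_bd hC0 hS (hC F S hF hB) hκ a le_rfl (Real.exp_pos x)
  rwa [← Real.exp_nat_mul] at this

lemma XBW (M : ℕ) : ∃ (k : ℕ) (C : ℝ), 0 ≤ C ∧
    ∀ (F : ℝ → ℂ) (S : ℝ), TF F → Bd F k S → ∀ y : ℂ, y ≠ 0 →
      ‖Wf (fyw (-(4 / 3)) F) y‖ ≤ C * S ∧ ‖Wf (fyw (-(4 / 3)) F) y‖ ≤ C * S * ‖y‖ ^ M := by
  obtain ⟨k, C, hC0, hC⟩ := XB (s := -(4 / 3)) (by norm_num) M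
  exact ⟨k, C, hC0, fun F S hF hB y hy => ((hC F S hF hB).2.2 y hy).1⟩

lemma XBG (M : ℕ) : ∃ (k : ℕ) (C : ℝ), 0 ≤ C ∧
    ∀ (F : ℝ → ℂ) (S : ℝ), TF F → Bd F k S → ∀ y : ℂ, y ≠ 0 →
      ‖gg (Wf (fyw (-(4 / 3)) F)) y‖ ≤ C * S ∧
        ‖gg (Wf (fyw (-(4 / 3)) F)) y‖ ≤ C * S * ‖y‖ ^ M := by
  obtain ⟨k, C, hC0, hC⟩ := XB (s := -(4 / 3)) (by norm_num) M
  exact ⟨k, C, hC0, fun F S hF hB y hy => ((hC F S hF hB).2.2 y hy).2⟩

/-- the first kind of kernel -/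
theorem op_W (a : ℂ) {κ : ℝ} (hκ : 0 < κ) :
    Op fun F x => a * pr (Wf (fyw (-(4 / 3)) F)) (κ * Real.exp x) where
  add := fun F G hF hG x => by
    unfold pr
    rw [fyw_add, Wf_add (ev_fyw (by norm_num) hF) (ev_fyw (by norm_num) hG) (sq_ne hκ x)]
    ring
  smul := fun b F hF x => by
    unfold pr
    rw [fyw_smul, Wf_const_mul]
    ring
  tr := fun F h hF hF' x => by
    have : pr (Wf (fyw (-(4 / 3)) fun y => F (y - h))) (κ * Real.exp x) =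
        ((Real.exp (h / 3) : ℝ) : ℂ) * pr (Wf (fyw (-(4 / 3)) F)) (κ * Real.exp (x - h)) := by
      rw [← pr_tr _ hκ]
      unfold pr
      rw [Wf_tr]
    rw [this]; ring
  bd := op_bd (φ := fun F => Wf (fyw (-(4 / 3)) F)) XBW a hκ

/-- the second kind of kernel -/
theorem op_G (a : ℂ) {κ : ℝ} (hκ : 0 < κ) :
    Op fun F x => a * pr (gg (Wf (fyw (-(4 / 3)) F))) (κ * Real.exp x) where
  add := fun F G hF hG x => by
    have hy := sq_ne hκ x
    have h3 : ((Real.sqrt (κ * Real.exp x) : ℝ) : ℂ) / (3 * toC s3) ≠ 0 :=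
      div_ne_zero hy (mul_ne_zero (by norm_num) toC_s3_ne)
    unfold pr gg
    rw [fyw_add, Wf_add (ev_fyw (by norm_num) hF) (ev_fyw (by norm_num) hG) hy,
      Wf_add (ev_fyw (by norm_num) hF) (ev_fyw (by norm_num) hG) h3]
    ring
  smul := fun b F hF x => by
    unfold pr gg
    rw [fyw_smul, Wf_const_mul, Wf_const_mul]
    ring
  tr := fun F h hF hF' x => by
    have : pr (gg (Wf (fyw (-(4 / 3)) fun y => F (y - h)))) (κ * Real.exp x) =
        ((Real.exp (h / 3) : ℝ) : ℂ) * pr (gg (Wf (fyw (-(4 / 3)) F))) (κ * Real.exp (x - h)) := by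
      rw [← pr_tr _ hκ]
      have e : Wf (fyw (-(4 / 3)) fun y => F (y - h)) = fun y => ((Real.exp (h / 3) : ℝ) : ℂ) *
          Wf (fyw (-(4 / 3)) F) (y / ((Real.exp (h / 2) : ℝ) : ℂ)) := funext fun y => Wf_tr F h y
      rw [e, gg_dil']
      rfl
    rw [this]; ring
  bd := op_bd (φ := fun F => gg (Wf (fyw (-(4 / 3)) F))) XBG a hκ

/-- the dual kernels of `X6C180.xc'` -/
theorem op_om {v0 : Eis} (h0 : v0 ≠ 0) (i : IX v0) : Op fun F x => om' v0 F i (Real.exp x) := by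
  have hN0 : (0 : ℝ) < nm v0 := by exact_mod_cast nm_pos.2 h0
  rcases i with _ | _ | δ
  · exact op_W _ hN0
  · exact op_G _ hN0
  · have hdl : (0 : ℝ) < nm δ.1 := by exact_mod_cast nm_pos.2 ((mem_Dl h0).mp δ.2).1.1
    exact op_G _ (div_pos hN0 hdl)

/-- **smooth separation of the dual kernels** -/
theorem om_sep {v0 : Eis} (h0 : v0 ≠ 0) {R : ℝ} (hR : 0 ≤ R) (A M : ℕ) :
    ∃ (k : ℕ) (C : ℝ), 0 ≤ C ∧ ∀ (F : ℝ → ℂ) (S : ℝ), TF1 F → Bd F k S →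
      ∀ (i : IX v0) (x0 : ℝ), ∃ kk : ℝ → ℂ, Continuous kk ∧
      Integrable kk ∧ (∀ t, ‖kk t‖ * (1 + |t|) ^ A ≤ C * S * min 1 (Real.exp (M * x0))) ∧
      ∀ u, |u| ≤ R → om' v0 F i (Real.exp (x0 - u)) = ∫ t, kk t * osc t u := by
  classical
  have h := fun i : IX v0 => (op_om h0 i).sep hR A M
  choose k C hC0 hC using h
  refine ⟨∑ i, k i, ∑ i, C i, Finset.sum_nonneg fun i _ => hC0 i,
    fun F S hF hB i x0 => ?_⟩
  have hk : k i ≤ ∑ i, k i := Finset.single_le_sum (f := k) (fun i _ => Nat.zero_le _)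
    (Finset.mem_univ i)
  have hCi : C i ≤ ∑ i, C i := Finset.single_le_sum (f := C) (fun i _ => hC0 i)
    (Finset.mem_univ i)
  have hS : 0 ≤ S := (norm_nonneg _).trans (hB 0 (Nat.zero_le _) 0)
  obtain ⟨kk, h1, h2, h3, h4⟩ := hC i F S hF (bd_mono hB hk) x0
  refine ⟨kk, h1, h2, fun t => (h3 t).trans ?_, h4⟩
  have hm : 0 ≤ min 1 (Real.exp (M * x0)) := le_min zero_le_one (Real.exp_pos _).le
  gcongr

lemma osc_add (t a b : ℝ) : osc t (a + b) = osc t a * osc t b := by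
  unfold osc
  rw [← Complex.exp_add]
  congr 1
  push_cast; ring

/-- **separation in the block** `|log (nu / U)| ≤ R`, `|log (nd / D)| ≤ R` -/
theorem om_sep2 {v0 : Eis} (h0 : v0 ≠ 0) {R : ℝ} (hR : 0 ≤ R) (A M : ℕ) :
    ∃ (k : ℕ) (C : ℝ), 0 ≤ C ∧ ∀ (F : ℝ → ℂ) (S : ℝ), TF1 F → Bd F k S →
      ∀ (i : IX v0) (B U D : ℝ), 0 < B → 0 < U → 0 < D → ∃ kk : ℝ → ℂ, Continuous kk ∧
      Integrable kk ∧ (∀ t, ‖kk t‖ * (1 + |t|) ^ A ≤ C * S * min 1 ((U / (B * D)) ^ M)) ∧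
      ∀ nu nd : ℝ, 0 < nu → 0 < nd → |Real.log (nu / U)| ≤ R → |Real.log (nd / D)| ≤ R →
        om' v0 F i (nu / (B * nd)) =
          ∫ t, kk t * (osc t (-Real.log (nu / U)) * osc t (Real.log (nd / D))) := by
  obtain ⟨k, C, hC0, hC⟩ := om_sep h0 (R := 2 * R) (by positivity) A M
  refine ⟨k, C, hC0, fun F S hF hB i B U D hB0 hU hD => ?_⟩
  have hx : 0 < U / (B * D) := by positivity
  obtain ⟨kk, h1, h2, h3, h4⟩ := hC F S hF hB i (Real.log (U / (B * D)))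
  refine ⟨kk, h1, h2, fun t => (h3 t).trans (le_of_eq ?_), fun nu nd hnu hnd h5 h6 => ?_⟩
  · rw [Real.exp_nat_mul, Real.exp_log hx]
  · have h7 : |-Real.log (nu / U) + Real.log (nd / D)| ≤ 2 * R := by
      have := abs_add_le (-Real.log (nu / U)) (Real.log (nd / D))
      rw [abs_neg] at this
      linarith
    have h8 := h4 _ h7
    have e : Real.exp (Real.log (U / (B * D)) - (-Real.log (nu / U) + Real.log (nd / D))) =
        nu / (B * nd) := by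
      rw [Real.exp_sub, Real.exp_add, Real.exp_neg, Real.exp_log hx, Real.exp_log (by positivity),
        Real.exp_log (by positivity)]
      field_simp
    rw [e] at h8
    rw [h8]
    refine integral_congr_ae (Eventually.of_forall fun t => ?_)
    simp only
    rw [osc_add]

end Crest.Agent.R017.X6W180
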