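import Crest.Agent.R017.E2f_440
import Crest.Agent.R017.X6W2_180
import Crest.Agent.R017.H1e_401

/-!
# Row 17, block C70, leaf E2, part g (helper440): the pair functional, norm bound, dual pieces

* `VV_split` : `VV = Mn + th (σ r) PF (HR ..)`
* `PF_le` : `‖PF H‖ ≤ Σ_{B ∈ S X} N(B)^(1/6) ‖QB B H‖`
* `Du_eq` : the dual side as a finite sum of pieces with 180's kernels `om'`
-/

set_option autoImplicit false
set_option linter.unusedVariables false
set_option linter.unusedSectionVars false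

noncomputable section

open Complex
open scoped ComplexConjugate

namespace Crest.Agent.R017.E2440

open Crest.Agent.R012 Crest.Agent.R012.Eis Crest.Agent.R012.GaussLoc283
open Crest.Agent.R012.Mob705 Crest.Agent.R012.Div277
open Crest.Agent.R012.LS2 (S mem_S)
open Crest.Agent.R012.Parseval499 (frq s3 toC_s3_ne)
open Crest.Agent.R017.FE47 (SM)
open Crest.Agent.R017.Sx545 (Sm sm_one_iff)
open Crest.Agent.R017.PX764 (th Gh n6 cD)
open Crest.Agent.R017.F1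
open Crest.Agent.R017.X6C180 (Sg fA WF V1 cM n13 IX dl' om' GF)
open Crest.Agent.R017.X6545 (TF Bd)
open Crest.Agent.R017.CM106 (sub)

/-! ### the splitting -/

lemma PF_congr {α : Eis → ℂ} {σ E r ν : Eis} (hα : CM106.FS α) {H H' : Eis → Eis → ℂ}
    (h : ∀ B D, IsPrim B → IsPrim D → H B D = H' B D) : PF α σ E r ν H = PF α σ E r ν H' := by
  unfold PF
  refine tsum_congr fun n => ?_
  by_cases hn : α n = 0
  · rw [hn, zero_mul, zero_mul]
  · congr 2
    refine Finset.sum_congr rfl fun x hx => ?_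
    obtain ⟨h1, h2, h3⟩ := (mem_prs (hα.prim n hn)).mp hx
    rw [h x.1 x.2 h1 h2]

lemma PF_add {α : Eis → ℂ} {σ E r ν : Eis} (hα : CM106.FS α) (H H' : Eis → Eis → ℂ) :
    PF α σ E r ν (fun B D => H B D + H' B D) = PF α σ E r ν H + PF α σ E r ν H' := by
  unfold PF
  rw [← Summable.tsum_add (hα.summable _) (hα.summable _)]
  refine tsum_congr fun n => ?_
  rw [← mul_add, ← mul_add, ← Finset.sum_add_distrib]
  congr 2
  refine Finset.sum_congr rfl fun x hx => ?_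
  ring

/-- the remainder kernel -/
def HR (σ r ν : Eis) (F : ℝ → ℂ) (A B0 : ℝ) (B D : Eis) : ℂ := by
  classical
  exact if (nm B : ℝ) ≤ B0 then Du (σ * r * ν ^ 2 * D) (Wf (fA F (A / (nm B : ℝ) ^ 2))) else
    Cg (σ * r * ν ^ 2 * D) (fL (fA F (A / (nm B : ℝ) ^ 2))) -
      (kP : ℂ) * conj (PX764.rho (σ * r * ν ^ 2 * D)) * mB (fA F (A / (nm B : ℝ) ^ 2))

theorem VV_split {α : Eis → ℂ} {σ E r ν : Eis} (hσ : Sg σ) (hE : E ≠ 0) (hr : IsPrim r)
    (hrs : Squarefree r) (hν : IsPrim ν) (hνs : Squarefree ν) (hrν : IsCoprime r ν)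
    (hα : Cf α ν) {F : ℝ → ℂ} (hF : M49.Wt F) {A : ℝ} (hA : 0 < A) (B0 : ℝ) :
    VV α σ E r ν F A = Mn α σ E r ν F A + th (σ * r) * PF α σ E r ν (HR σ r ν F A B0) := by
  classical
  rw [VV_eq_PF hσ hE hr hrs hν hνs hrν hα hF hA, ← PF_main hσ hr hrs hν hνs hrν hα hF hA,
    ← mul_add, ← PF_add hα.fs]
  congr 1
  refine PF_congr hα.fs fun B D hB hD => ?_
  have hB0 : (0 : ℝ) < nm B := by have := one_le_nm hB.ne_zero; linarith
  have hA' : 0 < A / (nm B : ℝ) ^ 2 := by positivity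
  have hu : σ * r * ν ^ 2 * D ≠ 0 :=
    mul_ne_zero (mul_ne_zero (mul_ne_zero hσ.ne_zero hr.ne_zero) (pow_ne_zero 2 hν.ne_zero))
      hD.ne_zero
  have h1 := starR PX764.rho_MS (X6C180.ev_fA hF hA') hu
  unfold HR
  split_ifs
  · exact h1
  · ring

/-! ### regrouping -/

/-- the inner sum over `D` -/
def QB (α : Eis → ℂ) (E B : Eis) (H : Eis → Eis → ℂ) : ℂ :=
  ∑' D : Eis, α (B * D) * (sy E D * conj (sy D B)) * H B D

theorem PF_eq {α : Eis → ℂ} {σ E r ν : Eis} {X : ℝ} (hX : 0 ≤ X) (hα : CM106.FS α)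
    (hs : ∀ n, α n ≠ 0 → Squarefree n) (hαX : ∀ n, α n ≠ 0 → (nm n : ℝ) ≤ X)
    (H : Eis → Eis → ℂ) :
    PF α σ E r ν H = ∑ B ∈ S X, cB B * n23 (B ^ 2) * (sy E B * conj (sy (σ * r * ν ^ 2) B)) *
      QB α E B H := by
  classical
  set T : Finset Eis := hα.fin.toFinset with hT
  have hTm : ∀ n, n ∈ T ↔ α n ≠ 0 := by
    intro n
    rw [hT, Set.Finite.mem_toFinset, Function.mem_support]
  set f : Eis × Eis → ℂ := fun x => α (x.1 * x.2) * (sy E (x.1 * x.2) *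
    (cB x.1 * conj (sy (σ * r * ν ^ 2 * x.2) x.1) * n23 (x.1 ^ 2) * H x.1 x.2)) with hf
  have h1 : PF α σ E r ν H = ∑ n ∈ T, ∑ x ∈ prs n, f x := by
    unfold PF
    rw [tsum_eq_sum (s := T)]
    · refine Finset.sum_congr rfl fun n hn => ?_
      rw [Finset.mul_sum, Finset.mul_sum]
      refine Finset.sum_congr rfl fun x hx => ?_
      obtain ⟨-, -, h3⟩ := (mem_prs (hα.prim n ((hTm n).mp hn))).mp hx
      simp only [hf, h3]
    · intro n hn
      rw [hTm, not_not] at hn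
      rw [hn, zero_mul]
  have h2 : ∀ n ∈ T, prs n = (S X ×ˢ S X).filter (fun x => x.1 * x.2 = n) := by
    intro n hn
    have hn0 := (hTm n).mp hn
    have hn1 := hα.prim n hn0
    have hns := hs n hn0
    have hnX := hαX n hn0
    ext x
    rw [mem_prs hn1, Finset.mem_filter, Finset.mem_product, mem_S hX, mem_S hX]
    constructor
    · rintro ⟨ha, hb, hab⟩
      have h3 : nm x.1 ≤ nm n := nm_le_of_dvd hn1.ne_zero (hab ▸ dvd_mul_right _ _)
      have h4 : nm x.2 ≤ nm n := nm_le_of_dvd hn1.ne_zero (hab ▸ dvd_mul_left _ _)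
      have h3' : (nm x.1 : ℝ) ≤ nm n := by exact_mod_cast h3
      have h4' : (nm x.2 : ℝ) ≤ nm n := by exact_mod_cast h4
      have hsq : Squarefree (x.1 * x.2) := by rw [hab]; exact hns
      exact ⟨⟨⟨h3'.trans hnX, ha, hsq.of_mul_left⟩, ⟨h4'.trans hnX, hb, hsq.of_mul_right⟩⟩, hab⟩
    · rintro ⟨⟨⟨-, ha, -⟩, ⟨-, hb, -⟩⟩, hab⟩
      exact ⟨ha, hb, hab⟩
  have h3 : ∑ n ∈ T, ∑ x ∈ prs n, f x = ∑ x ∈ S X ×ˢ S X, f x := by
    have e1 : ∀ n ∈ T, ∑ x ∈ prs n, f x =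
        ∑ x ∈ S X ×ˢ S X, if x.1 * x.2 = n then f x else 0 := by
      intro n hn
      rw [h2 n hn, Finset.sum_filter]
    rw [Finset.sum_congr rfl e1, Finset.sum_comm]
    refine Finset.sum_congr rfl fun x _ => ?_
    rw [Finset.sum_ite_eq]
    split_ifs with h
    · rfl
    · rw [hTm, not_not] at h
      simp only [hf]
      rw [h, zero_mul]
  rw [h1, h3, Finset.sum_product]
  refine Finset.sum_congr rfl fun B hB => ?_
  obtain ⟨hBX, hB1, hBs⟩ := (mem_S hX).mp hB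
  unfold QB
  rw [tsum_eq_sum (s := S X), Finset.mul_sum]
  · refine Finset.sum_congr rfl fun D hD => ?_
    obtain ⟨hDX, hD1, hDs⟩ := (mem_S hX).mp hD
    simp only [hf]
    rw [syAx.mul_right E B D hB1 hD1, syAx.mul_left (σ * r * ν ^ 2) D B hB1, map_mul]
    ring
  · intro D hD
    by_cases h0 : α (B * D) = 0
    · rw [h0, zero_mul, zero_mul]
    · exfalso
      apply hD
      have hBD := hα.prim _ h0
      have hD1 := hBD.of_mul_left hB1
      have hns := hs _ h0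
      rw [mem_S hX]
      refine ⟨?_, hD1, hns.of_mul_right⟩
      have h4 : nm D ≤ nm (B * D) := nm_le_of_dvd hBD.ne_zero (dvd_mul_left _ _)
      have h4' : (nm D : ℝ) ≤ nm (B * D) := by exact_mod_cast h4
      exact h4'.trans (hαX _ h0)

lemma norm_cB_le {B : Eis} (hB : IsPrim B) (hBs : Squarefree B) :
    ‖cB B * n23 (B ^ 2)‖ ≤ (nm B : ℝ) ^ ((1 : ℝ) / 6) := by
  have hN : (0 : ℝ) < nm B := by have := one_le_nm hB.ne_zero; linarith
  unfold cB n23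
  rw [norm_mul, norm_mul, norm_mul, norm_mul, Complex.norm_real, Complex.norm_real,
    Gauss880.norm_G Gauss880.syG hB hBs, mul_one, nm_pow]
  have h1 : ‖(muE B : ℂ)‖ = 1 := by
    have h2 := abs_muE_of_squarefree hBs
    have h3 : ‖(muE B : ℂ)‖ = ((|muE B| : ℤ) : ℝ) := by
      rw [Complex.norm_intCast, Int.cast_abs]
    rw [h3, h2]; simp
  rw [h1, one_mul, Complex.norm_natCast, Real.norm_of_nonneg (Real.sqrt_nonneg _),
    Real.norm_of_nonneg (by positivity)]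
  push_cast
  rw [← Real.rpow_natCast, ← Real.rpow_mul hN.le, Real.sqrt_eq_rpow]
  have e1 : (nm B : ℝ) * (nm B : ℝ) ^ (1 / 2 : ℝ) = (nm B : ℝ) ^ (1 + 1 / 2 : ℝ) := by
    rw [Real.rpow_add hN, Real.rpow_one]
  rw [e1, ← Real.rpow_add hN]
  apply le_of_eq
  congr 1
  push_cast
  norm_num

theorem PF_le {α : Eis → ℂ} {σ E r ν : Eis} {X : ℝ} (hX : 0 ≤ X) (hα : CM106.FS α)
    (hs : ∀ n, α n ≠ 0 → Squarefree n) (hαX : ∀ n, α n ≠ 0 → (nm n : ℝ) ≤ X)
    (H : Eis → Eis → ℂ) :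
    ‖PF α σ E r ν H‖ ≤ ∑ B ∈ S X, (nm B : ℝ) ^ ((1 : ℝ) / 6) * ‖QB α E B H‖ := by
  rw [PF_eq hX hα hs hαX H]
  refine (norm_sum_le _ _).trans (Finset.sum_le_sum fun B hB => ?_)
  obtain ⟨hBX, hB1, hBs⟩ := (mem_S hX).mp hB
  rw [norm_mul, norm_mul]
  refine mul_le_mul_of_nonneg_right ?_ (norm_nonneg _)
  have h1 := norm_cB_le hB1 hBs
  have h2 : ‖sy E B * conj (sy (σ * r * ν ^ 2) B)‖ ≤ 1 := by
    rw [norm_mul, RCLike.norm_conj]
    exact mul_le_one₀ (norm_sy_le1 hB1) (norm_nonneg _) (norm_sy_le1 hB1)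
  calc ‖cB B * n23 (B ^ 2)‖ * ‖sy E B * conj (sy (σ * r * ν ^ 2) B)‖
      ≤ (nm B : ℝ) ^ ((1 : ℝ) / 6) * 1 := mul_le_mul h1 h2 (norm_nonneg _) (by positivity)
    _ = _ := mul_one _

/-! ### the dual pieces -/

/-- one dual piece at the frequency `σ v` -/
def TP' (σ v : Eis) (F : ℝ → ℂ) (A : ℝ) (i : IX σ) : ℂ := by
  classical
  exact sy (dl' σ i) v * ∑' d : Eis, (if IsPrim d then conj (gs (dl' σ i * σ * v) d) *
    ((((nm d : ℝ)⁻¹ : ℝ) : ℂ) * om' σ F i ((nm v : ℝ) / (A * nm d))) else 0)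

lemma Cg_piece {φ : ℂ → ℂ} (hφ : Rad φ) (δ σ v : Eis) {A : ℝ} (hA : 0 < A) {κ : Eis} (hκ : κ ≠ 0)
    (c : ℂ) : open Classical in
    c * Cg (δ * σ * v) (rc (fun y => φ (y / ((Real.sqrt A : ℝ) : ℂ))) (toC (σ * v) / toC κ)) =
      ∑' d : Eis, (if IsPrim d then conj (gs (δ * σ * v) d) *
        ((((nm d : ℝ)⁻¹ : ℝ) : ℂ) * (c * X6C180.pr φ ((nm σ : ℝ) / nm κ *
          ((nm v : ℝ) / (A * nm d))))) else 0) := by
  classical
  unfold Cg
  rw [← tsum_mul_left]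
  refine tsum_congr fun d => ?_
  by_cases hd : IsPrim d
  · rw [if_pos hd, if_pos hd]
    unfold rc
    simp only
    rw [norm_toC_sq, X6C180.pr_eq hφ]
    have e1 : ‖toC (σ * v) / toC κ / toC d / ((Real.sqrt A : ℝ) : ℂ)‖ ^ 2 =
        (nm σ : ℝ) / nm κ * ((nm v : ℝ) / (A * nm d)) := by
      rw [norm_div, norm_div, norm_div, div_pow, div_pow, div_pow, norm_toC_sq, norm_toC_sq,
        norm_toC_sq, Complex.norm_real, Real.norm_of_nonneg (Real.sqrt_nonneg _),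
        Real.sq_sqrt hA.le, nm_mul]
      push_cast
      have h1 : (nm κ : ℝ) ≠ 0 := by have := one_le_nm hκ; positivity
      have h2 : (nm d : ℝ) ≠ 0 := by have := one_le_nm hd.ne_zero; positivity
      field_simp
    rw [e1]
    ring
  · rw [if_neg hd, if_neg hd, mul_zero]

theorem Du_eq {σ v : Eis} (hσ : Sg σ) (hv : IsPrim v) {F : ℝ → ℂ} (hF : TF F) {A : ℝ}
    (hA : 0 < A) : Du (σ * v) (Wf (fA (GF F) A)) =
      ((A ^ (1 / 3 : ℝ) : ℝ) : ℂ) * ∑ i : IX σ, TP' σ v F A i := by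
  classical
  set W : ℂ → ℂ := Wf (X6B848.fyw (-(4 / 3)) F) with hW
  have hWF : WF (GF F) = W := by
    unfold WF
    rw [X6C180.rV_V1_GF hF]
  have hradW : Rad W := by rw [← hWF]; exact X6C180.rad_WF _
  have hradG : Rad (gg W) := hradW.gg
  set q : ℂ := ((Real.sqrt A : ℝ) : ℂ) with hq
  have e0 : Wf (fA (GF F) A) = fun y => ((A ^ (1 / 3 : ℝ) : ℝ) : ℂ) * W (y / q) := by
    funext y
    rw [X6C180.Wf_fA hA y, hWF]
  rw [e0, Du_const_mul]
  congr 1
  have hgg : gg (fun y => W (y / q)) = fun y => gg W (y / q) := by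
    have := X6C180.gg_dil' W 1 q
    simpa using this
  unfold Du
  rw [hgg, (X6C180.eC_frq_mul hv σ).1, (X6C180.eC_frq_mul hv σ).2, X6C180.Dl_mul hσ hv,
    Fintype.sum_option, Fintype.sum_option, ← add_assoc]
  congr 1
  · congr 1
    · have h := Cg_piece hradW 1 σ v hA (one_ne_zero) (2 / 3 : ℂ)
      rw [one_mul, map_one toC, div_one, nm_one, Nat.cast_one, div_one] at h
      unfold TP'
      show _ = sy 1 v * ∑' d : Eis, (if IsPrim d then conj (gs (1 * σ * v) d) *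
        ((((nm d : ℝ)⁻¹ : ℝ) : ℂ) * ((2 / 3 : ℂ) * X6C180.pr W ((nm σ : ℝ) *
          ((nm v : ℝ) / (A * nm d))))) else 0)
      rw [syAx.one_left hv, one_mul, one_mul, ← h]
    · have h := Cg_piece hradG 1 σ v hA (one_ne_zero) (eC (frq 3 σ) + eC (-frq 3 σ))
      rw [one_mul, map_one toC, div_one, nm_one, Nat.cast_one, div_one] at h
      unfold TP'
      show _ = sy 1 v * ∑' d : Eis, (if IsPrim d then conj (gs (1 * σ * v) d) *
        ((((nm d : ℝ)⁻¹ : ℝ) : ℂ) * ((eC (frq 3 σ) + eC (-frq 3 σ)) * X6C180.pr (gg W)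
          ((nm σ : ℝ) * ((nm v : ℝ) / (A * nm d))))) else 0)
      rw [syAx.one_left hv, one_mul, one_mul, ← h]
  · rw [← Finset.sum_coe_sort (Dl σ)]
    refine Finset.sum_congr rfl fun δ _ => ?_
    have hd := (mem_Dl hσ.ne_zero).mp δ.2
    rw [X6C180.Lam_mul_prim hd.2.1 hd.1 hv σ]
    have h := Cg_piece hradG δ.1 σ v hA (hd.1.1) (Lam δ.1 σ * (((nm δ.1 : ℝ)⁻¹ : ℝ) : ℂ))
    unfold TP'
    show _ = sy δ.1 v * ∑' d : Eis, (if IsPrim d then conj (gs (δ.1 * σ * v) d) *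
        ((((nm d : ℝ)⁻¹ : ℝ) : ℂ) * (Lam δ.1 σ * (((nm δ.1 : ℝ)⁻¹ : ℝ) : ℂ) *
          X6C180.pr (gg W) ((nm σ : ℝ) / nm δ.1 * ((nm v : ℝ) / (A * nm d))))) else 0)
    rw [← h, ← mul_assoc δ.1 σ v]
    ring

end Crest.Agent.R017.E2440
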