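import Crest.Agent.R017.E2g_440

/-!
# Row 17, block C70, leaf E2, part h (helper440): one dyadic shell of a dual piece

* `mink` : Minkowski's inequality for a separated kernel
* `MoH` : the moment hypothesis
* `shell_bd` : the bound for one shell
-/

set_option autoImplicit false
set_option linter.unusedVariables false
set_option linter.unusedSectionVars false

noncomputable section

open Complex MeasureTheory
open scoped ComplexConjugate

namespace Crest.Agent.R017.E2440

open Crest.Agent.R012 Crest.Agent.R012.Eis Crest.Agent.R012.GaussLoc283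
open Crest.Agent.R012.Mob705 hiding pb mem_pb
open Crest.Agent.R012.Div277
open Crest.Agent.R012.LS2 (S mem_S)
open Crest.Agent.R012.Weight600 (osc norm_osc)
open Crest.Agent.R017.Sx545 (Sm sm_one_iff)
open Crest.Agent.R017.PX764 (th Gh n6 cD)
open Crest.Agent.R017.F1
open Crest.Agent.R017.X6C180 (Sg fA WF V1 cM n13 IX dl' om' GF)
open Crest.Agent.R017.X6545 (TF Bd)
open Crest.Agent.R017.X6W180 (TF1 tf1_tf)
open Crest.Agent.R017.CM106 (sub CS FS)
open Crest.Agent.R017.H1401 (pb mem_pb)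

/-! ### Minkowski -/

lemma integrable_inv2 : Integrable (fun t : ℝ => ((1 + |t|) ^ 2)⁻¹) := by
  refine (integrable_inv_one_add_sq.const_mul 2).mono' ?_ ?_
  · exact (((continuous_const.add continuous_abs).pow 2).inv₀ fun t =>
      (pow_pos (by have := abs_nonneg t; linarith : (0 : ℝ) < 1 + |t|) 2).ne').aestronglyMeasurable
  · filter_upwards with t
    have ht := abs_nonneg t
    rw [Real.norm_eq_abs, abs_of_nonneg (by positivity)]
    have h2 : (1 + t ^ 2) ≤ 2 * (1 + |t|) ^ 2 := by nlinarith [sq_abs t]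
    rw [← div_eq_mul_inv, le_div_iff₀ (by positivity), inv_mul_le_iff₀ (by positivity)]
    linarith

/-- `∫ (1+|t|)^(-2)` -/
def c2 : ℝ := ∫ t : ℝ, ((1 + |t|) ^ 2)⁻¹

lemma c2_nonneg : 0 ≤ c2 := integral_nonneg fun t => by positivity

lemma cs_fin {ι : Type*} (s : Finset ι) (x y : ι → ℂ) {A B : ℝ} (hA : ∑ i ∈ s, ‖x i‖ ^ 2 ≤ A)
    (hB : ∑ i ∈ s, ‖y i‖ ^ 2 ≤ B) : ‖∑ i ∈ s, x i * y i‖ ≤ Real.sqrt A * Real.sqrt B := by
  have h1 : ‖∑ i ∈ s, x i * y i‖ ≤ ∑ i ∈ s, ‖x i‖ * ‖y i‖ := by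
    refine (norm_sum_le _ _).trans (le_of_eq ?_)
    exact Finset.sum_congr rfl fun i _ => norm_mul _ _
  have h2 := Finset.sum_mul_sq_le_sq_mul_sq s (fun i => ‖x i‖) (fun i => ‖y i‖)
  have h3 : 0 ≤ ∑ i ∈ s, ‖x i‖ * ‖y i‖ := Finset.sum_nonneg fun i _ => by positivity
  have hA0 : 0 ≤ A := (Finset.sum_nonneg fun i _ => by positivity).trans hA
  have hB0 : 0 ≤ B := (Finset.sum_nonneg fun i _ => by positivity).trans hB
  refine h1.trans ?_
  rw [← Real.sqrt_mul hA0]
  apply Real.le_sqrt_of_sq_le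
  refine h2.trans ?_
  exact mul_le_mul hA hB (Finset.sum_nonneg fun i _ => by positivity) hA0

theorem mink {ι : Type*} (s : Finset ι) {kk : ℝ → ℂ} {x : ι → ℝ → ℂ} {a : ι → ℂ} {V c : ℝ} {J : ℕ}
    (hV : 0 ≤ V) (hc : 0 ≤ c) (ha : ∀ i ∈ s, a i = ∫ t, kk t * x i t)
    (hint : ∀ i ∈ s, Integrable (fun t => kk t * x i t))
    (hk : ∀ t, ‖kk t‖ * (1 + |t|) ^ (J + 2) ≤ c)
    (hb : ∀ t, ∑ i ∈ s, ‖x i t‖ ^ 2 ≤ V * (1 + |t|) ^ J) :
    ∑ i ∈ s, ‖a i‖ ^ 2 ≤ (c * c2) ^ 2 * V := by
  set N : ℝ := ∑ i ∈ s, ‖a i‖ ^ 2 with hN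
  have hN0 : 0 ≤ N := Finset.sum_nonneg fun i _ => by positivity
  have e1 : (N : ℂ) = ∫ t, kk t * ∑ i ∈ s, conj (a i) * x i t := by
    have e2 : (fun t => kk t * ∑ i ∈ s, conj (a i) * x i t) =
        fun t => ∑ i ∈ s, conj (a i) * (kk t * x i t) := by
      funext t
      rw [Finset.mul_sum]
      exact Finset.sum_congr rfl fun i _ => by ring
    rw [e2, integral_finsetSum _ fun i hi => (hint i hi).const_mul _]
    rw [hN]
    push_cast
    refine Finset.sum_congr rfl fun i hi => ?_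
    rw [integral_const_mul, ← ha i hi, ← Complex.normSq_eq_conj_mul_self,
      Complex.normSq_eq_norm_sq]
    push_cast
    rfl
  have hpt : ∀ t, ‖kk t * ∑ i ∈ s, conj (a i) * x i t‖ ≤
      (Real.sqrt N * Real.sqrt V * c) * ((1 + |t|) ^ 2)⁻¹ := by
    intro t
    have ht : (1 : ℝ) ≤ 1 + |t| := by have := abs_nonneg t; linarith
    have ht0 : (0 : ℝ) < 1 + |t| := by linarith
    have h1 : ‖∑ i ∈ s, conj (a i) * x i t‖ ≤ Real.sqrt N * Real.sqrt (V * (1 + |t|) ^ J) :=
      cs_fin s _ _ (by simp only [RCLike.norm_conj]; exact le_rfl) (hb t)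
    have h2 : Real.sqrt (V * (1 + |t|) ^ J) ≤ Real.sqrt V * (1 + |t|) ^ J := by
      rw [Real.sqrt_mul hV]
      refine mul_le_mul_of_nonneg_left ?_ (Real.sqrt_nonneg _)
      apply Real.sqrt_le_iff.mpr
      refine ⟨by positivity, ?_⟩
      have h3 : (1 : ℝ) ≤ (1 + |t|) ^ J := one_le_pow₀ ht
      nlinarith
    rw [norm_mul]
    calc ‖kk t‖ * ‖∑ i ∈ s, conj (a i) * x i t‖
        ≤ ‖kk t‖ * (Real.sqrt N * (Real.sqrt V * (1 + |t|) ^ J)) :=
          mul_le_mul_of_nonneg_left (h1.trans (mul_le_mul_of_nonneg_left h2 (Real.sqrt_nonneg _)))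
            (norm_nonneg _)
      _ = Real.sqrt N * Real.sqrt V * (‖kk t‖ * (1 + |t|) ^ (J + 2)) * ((1 + |t|) ^ 2)⁻¹ := by
          rw [pow_add]
          field_simp
      _ ≤ _ := by
          refine mul_le_mul_of_nonneg_right ?_ (by positivity)
          exact mul_le_mul_of_nonneg_left (hk t) (by positivity)
  have h4 : N ≤ Real.sqrt N * Real.sqrt V * c * c2 := by
    have h5 : ‖(N : ℂ)‖ ≤ ∫ t, (Real.sqrt N * Real.sqrt V * c) * ((1 + |t|) ^ 2)⁻¹ := by
      rw [e1]
      exact norm_integral_le_of_norm_le (integrable_inv2.const_mul _)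
        (Filter.Eventually.of_forall hpt)
    rw [integral_const_mul, Complex.norm_real, Real.norm_of_nonneg hN0] at h5
    exact h5
  by_cases hz : N = 0
  · rw [hz]; positivity
  · have hNp : 0 < N := lt_of_le_of_ne hN0 (Ne.symm hz)
    have hs : 0 < Real.sqrt N := Real.sqrt_pos.mpr hNp
    have h6 : Real.sqrt N ≤ Real.sqrt V * c * c2 := by
      have h7 : Real.sqrt N * Real.sqrt N ≤ Real.sqrt N * (Real.sqrt V * c * c2) := by
        rw [Real.mul_self_sqrt hN0]
        calc N ≤ _ := h4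
          _ = _ := by ring
      exact le_of_mul_le_mul_left h7 hs
    calc N = Real.sqrt N ^ 2 := (Real.sq_sqrt hN0).symm
      _ ≤ (Real.sqrt V * c * c2) ^ 2 := pow_le_pow_left₀ hs.le h6 2
      _ = (c * c2) ^ 2 * (Real.sqrt V) ^ 2 := by ring
      _ = _ := by rw [Real.sq_sqrt hV]

/-! ### the moment hypothesis -/

/-- the coefficients of the dual form -/
def cT (α : Eis → ℂ) (E B τ : Eis) (t : ℝ) (D : Eis) : ℂ :=
  α (B * D) * (sy E D * conj (sy D B)) * (sy τ D * osc t (-Real.log (nm D)))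

/-- the moment functional -/
def MoF (α : Eis → ℂ) (E B τ : Eis) (X t Z : ℝ) : ℝ := by
  classical
  exact ∑ g₂ ∈ S X, ∑ g₃ ∈ S X, (nm g₂ : ℝ) ^ 2 *
    ∑ d ∈ (pb Z).filter (fun d => g₂ ^ 2 * g₃ ^ 3 ∣ d), ‖CS (sub (cT α E B τ t) (g₂ * g₃)) d‖ ^ 2

/-- the moment hypothesis -/
def MoH (α : Eis → ℂ) (E σ : Eis) (X : ℝ) (J : ℕ) (Mo : Eis → ℝ → ℝ) : Prop :=
  ∀ B ∈ S X, ∀ i : IX σ, ∀ t Z : ℝ, 1 ≤ Z →
    MoF α E B (dl' σ i) X t Z ≤ (1 + |t|) ^ J * Mo B Z

lemma MoF_nonneg (α : Eis → ℂ) (E B τ : Eis) (X t Z : ℝ) : 0 ≤ MoF α E B τ X t Z := by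
  classical
  unfold MoF
  exact Finset.sum_nonneg fun _ _ => Finset.sum_nonneg fun _ _ =>
    mul_nonneg (by positivity) (Finset.sum_nonneg fun _ _ => by positivity)

lemma MoH.nonneg {α : Eis → ℂ} {E σ : Eis} {X : ℝ} {J : ℕ} {Mo : Eis → ℝ → ℝ}
    (h : MoH α E σ X J Mo) {B : Eis} (hB : B ∈ S X) {Z : ℝ} (hZ : 1 ≤ Z) : 0 ≤ Mo B Z := by
  have h1 := h B hB none 0 Z hZ
  have h2 := (MoF_nonneg α E B (dl' σ none) X 0 Z).trans h1
  rw [abs_zero, add_zero, one_pow, one_mul] at h2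
  exact h2

/-- the dyadic shells -/
def sh (j : ℕ) : Finset Eis := by
  classical
  exact (pb ((2 : ℝ) ^ j)).filter (fun d => (2 : ℝ) ^ j / 2 < nm d)

lemma mem_sh {j : ℕ} {d : Eis} :
    d ∈ sh j ↔ ((nm d : ℝ) ≤ 2 ^ j ∧ IsPrim d) ∧ (2 : ℝ) ^ j / 2 < nm d := by
  classical
  unfold sh
  rw [Finset.mem_filter, mem_pb (by positivity)]

/-- the summand at `d` -/
def XT (α : Eis → ℂ) (E B σ : Eis) (i : IX σ) (r ν : Eis) (F : ℝ → ℂ) (A : ℝ) (d : Eis) : ℂ :=
  ∑' D : Eis, α (B * D) * (sy E D * conj (sy D B)) * sy (dl' σ i) D *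
    (conj (gs (dl' σ i * σ * r * ν ^ 2 * D) d) *
      om' σ F i ((nm (r * ν ^ 2 * D) : ℝ) / (A * nm d)))

lemma integrable_kk {kk : ℝ → ℂ} (hk : Integrable kk) (a b : ℝ) :
    Integrable fun t => kk t * (osc t a * osc t b) := by
  have h : Integrable fun t => (osc t a * osc t b) * kk t := by
    refine hk.bdd_mul (c := 1) ?_ ?_
    · exact ((Weight600.continuous_osc_left a).mul
        (Weight600.continuous_osc_left b)).aestronglyMeasurable
    · refine Filter.Eventually.of_forall fun t => ?_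
      rw [norm_mul, norm_osc, norm_osc, one_mul]
  refine h.congr (Filter.Eventually.of_forall fun t => ?_)
  simp only
  ring

lemma abs_log_le {x a : ℝ} (h1 : Real.exp (-a) ≤ x) (h2 : x ≤ Real.exp a) : |Real.log x| ≤ a := by
  have hx : 0 < x := (Real.exp_pos _).trans_le h1
  rw [abs_le]
  exact ⟨(Real.le_log_iff_exp_le hx).mpr h1, (Real.log_le_iff_le_exp hx).mpr h2⟩

lemma exp_two_ge : (4 : ℝ) ≤ Real.exp 2 := by
  have h1 : (2 : ℝ) ≤ Real.exp 1 := by have := Real.add_one_le_exp (1 : ℝ); linarith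
  have h2 : Real.exp 2 = Real.exp 1 * Real.exp 1 := by rw [← Real.exp_add]; norm_num
  rw [h2]; nlinarith

lemma exp_neg_two_le : Real.exp (-2) ≤ (1 : ℝ) / 4 := by
  rw [Real.exp_neg, ← one_div]
  exact one_div_le_one_div_of_le (by norm_num) exp_two_ge

open Classical in
theorem shell_bd {σ : Eis} (hσ : Sg σ) {ε : ℝ} (hε : 0 < ε) (J : ℕ) : ∃ (k : ℕ) (C : ℝ), 0 ≤ C ∧
    ∀ (F : ℝ → ℂ) (Sf : ℝ), TF1 F → Bd F k Sf → ∀ R X A : ℝ, 1 ≤ R → 1 ≤ X → 0 < A →
    ∀ (E ν : Eis) (α : Eis → ℂ), IsPrim ν → Squarefree ν → Cf α ν →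
    (∀ n, α n ≠ 0 → X / 2 < nm n ∧ (nm n : ℝ) ≤ X) → ∀ Mo : Eis → ℝ → ℝ, MoH α E σ X J Mo →
    ∀ B ∈ S X, ∀ (i : IX σ) (j : ℕ),
    ∑ r ∈ (S R).filter (fun r => IsCoprime r ν ∧ R / 2 < nm r),
      ‖∑ d ∈ sh j, (((nm d : ℝ)⁻¹ : ℝ) : ℂ) * XT α E B σ i r ν F A d‖ ^ 2 ≤
      C * Sf ^ 2 * ((R * 2 ^ j * X * nm ν) ^ ε * nm ν * (R + 2 ^ j + (R * 2 ^ j) ^ ((2 : ℝ) / 3)) *
        (2 / 2 ^ j) * Mo B (2 ^ j)) := by
  obtain ⟨C1, hC1, hH1⟩ := H1401.H1 hε
  obtain ⟨k, C0, hC0, hsep⟩ := X6W180.om_sep2 hσ.ne_zero (R := 2) (by norm_num) (J + 2) 0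
  refine ⟨k, (C0 * c2) ^ 2 * C1, by have := c2_nonneg; positivity, ?_⟩
  intro F Sf hF hBd R X A hR hX hA E ν α hν hνs hα hαX Mo hMo B hB i j
  have hSf : 0 ≤ Sf := (norm_nonneg _).trans (hBd 0 (Nat.zero_le _) 0)
  have hX0 : (0 : ℝ) ≤ X := by linarith
  have hR0 : (0 : ℝ) ≤ R := by linarith
  obtain ⟨hBX, hB1, hBs⟩ := (mem_S hX0).mp hB
  have hNB : (1 : ℝ) ≤ nm B := one_le_nm hB1.ne_zero
  have hNν : (1 : ℝ) ≤ nm ν := one_le_nm hν.ne_zero
  set Z : ℝ := 2 ^ j with hZdef
  have hZ : 1 ≤ Z := one_le_pow₀ (by norm_num)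
  set τ : Eis := dl' σ i with hτ
  set U : ℝ := R * (nm ν : ℝ) ^ 2 * (X / nm B) with hU
  have hU0 : 0 < U := by rw [hU]; positivity
  obtain ⟨kk, hk1, hk2, hk3, hk4⟩ := hsep F Sf hF hBd i A U Z hA hU0 (by linarith)
  set TD : Finset Eis := (hα.fs.sub hB1).fin.toFinset with hTD
  have hTm : ∀ D, D ∈ TD ↔ α (B * D) ≠ 0 := by
    intro D
    rw [hTD, Set.Finite.mem_toFinset, Function.mem_support]
    rfl
  set G : Eis → Eis → Eis → ℂ := fun r d D => (((nm d : ℝ)⁻¹ : ℝ) : ℂ) *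
    (α (B * D) * (sy E D * conj (sy D B)) * sy τ D * conj (gs (τ * σ * r * ν ^ 2 * D) d)) with hG
  set nu : Eis → Eis → ℝ := fun r D => (nm (r * ν ^ 2 * D) : ℝ) with hnu
  set x : Eis → ℝ → ℂ := fun r t => ∑ d ∈ sh j, ∑ D ∈ TD, G r d D *
    (osc t (-Real.log (nu r D / U)) * osc t (Real.log ((nm d : ℝ) / Z))) with hx
  have hLS0 : 0 ≤ R + Z + (R * Z) ^ ((2 : ℝ) / 3) := by positivity
  have hMo0 : 0 ≤ Mo B Z := hMo.nonneg hB hZ
  have key := mink ((S R).filter (fun r => IsCoprime r ν ∧ R / 2 < nm r)) (kk := kk) (x := x)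
    (a := fun r => ∑ d ∈ sh j, (((nm d : ℝ)⁻¹ : ℝ) : ℂ) * XT α E B σ i r ν F A d)
    (V := C1 * (R * Z * X * nm ν) ^ ε * nm ν * (R + Z + (R * Z) ^ ((2 : ℝ) / 3)) *
      ((2 / Z) * Mo B Z)) (c := C0 * Sf) (J := J) (by positivity) (by positivity) ?_ ?_ ?_ ?_
  · refine key.trans (le_of_eq ?_)
    ring
  · -- the separated form
    intro r hr
    rw [Finset.mem_filter, mem_S hR0] at hr
    obtain ⟨⟨hrR, hr1, hrs⟩, hrν, hrR2⟩ := hr
    have e1 : (fun t => kk t * x r t) = fun t => ∑ d ∈ sh j, ∑ D ∈ TD, G r d D *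
        (kk t * (osc t (-Real.log (nu r D / U)) * osc t (Real.log ((nm d : ℝ) / Z)))) := by
      funext t
      simp only [hx]
      rw [Finset.mul_sum]
      refine Finset.sum_congr rfl fun d _ => ?_
      rw [Finset.mul_sum]
      exact Finset.sum_congr rfl fun D _ => by ring
    rw [e1, integral_finsetSum _ fun d _ => integrable_finsetSum _ fun D _ =>
      (integrable_kk hk2 _ _).const_mul _]
    refine Finset.sum_congr rfl fun d hd => ?_
    rw [integral_finsetSum _ fun D _ => (integrable_kk hk2 _ _).const_mul _]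
    obtain ⟨⟨hdZ, hd1⟩, hdZ2⟩ := mem_sh.mp hd
    unfold XT
    rw [tsum_eq_sum (s := TD), Finset.mul_sum]
    · refine Finset.sum_congr rfl fun D hD => ?_
      have hD0 := (hTm D).mp hD
      have hBD := hα.fs.prim _ hD0
      have hD1 : IsPrim D := hBD.of_mul_left hB1
      have hND : (1 : ℝ) ≤ nm D := one_le_nm hD1.ne_zero
      have hNr : (1 : ℝ) ≤ nm r := one_le_nm hr1.ne_zero
      have hNd : (1 : ℝ) ≤ nm d := one_le_nm hd1.ne_zero
      obtain ⟨hX1, hX2⟩ := hαX _ hD0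
      rw [nm_mul, Nat.cast_mul] at hX1 hX2
      have hnuv : nu r D = (nm r : ℝ) * (nm ν : ℝ) ^ 2 * nm D := by
        simp only [hnu]
        rw [nm_mul, nm_mul, nm_pow]
        push_cast
        ring
      have hnu0 : 0 < nu r D := by rw [hnuv]; positivity
      have hq : nu r D / U = ((nm r : ℝ) / R) * ((nm B : ℝ) * nm D / X) := by
        rw [hnuv, hU]
        field_simp
      have hq1 : (nm r : ℝ) / R ≤ 1 := (div_le_one (by linarith)).mpr hrR
      have hq2 : 1 / 2 ≤ (nm r : ℝ) / R := by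
        rw [le_div_iff₀ (by linarith)]; linarith
      have hq3 : (nm B : ℝ) * nm D / X ≤ 1 := (div_le_one (by linarith)).mpr hX2
      have hq4 : 1 / 2 ≤ (nm B : ℝ) * nm D / X := by
        rw [le_div_iff₀ (by linarith)]; linarith
      have h1 : |Real.log (nu r D / U)| ≤ 2 := by
        apply abs_log_le
        · rw [hq]
          refine exp_neg_two_le.trans ?_
          calc (1 : ℝ) / 4 = 1 / 2 * (1 / 2) := by norm_num
            _ ≤ _ := mul_le_mul hq2 hq4 (by norm_num) (by positivity)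
        · rw [hq]
          have := exp_two_ge
          calc (nm r : ℝ) / R * ((nm B : ℝ) * nm D / X) ≤ 1 * 1 :=
                mul_le_mul hq1 hq3 (by positivity) (by norm_num)
            _ ≤ _ := by linarith
      have h2 : |Real.log ((nm d : ℝ) / Z)| ≤ 2 := by
        apply abs_log_le
        · refine exp_neg_two_le.trans ?_
          rw [le_div_iff₀ (by linarith)]
          linarith
        · have := exp_two_ge
          have h3 : (nm d : ℝ) / Z ≤ 1 := (div_le_one (by linarith)).mpr hdZ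
          linarith
      rw [integral_const_mul, ← hk4 (nu r D) (nm d) hnu0 (by linarith) h1 h2]
      simp only [hG, hnu]
      ring
    · intro D hD
      rw [hTm, not_not] at hD
      rw [hD]
      ring
  · -- integrability
    intro r _
    have e1 : (fun t => kk t * x r t) = fun t => ∑ d ∈ sh j, ∑ D ∈ TD, G r d D *
        (kk t * (osc t (-Real.log (nu r D / U)) * osc t (Real.log ((nm d : ℝ) / Z)))) := by
      funext t
      simp only [hx]
      rw [Finset.mul_sum]
      refine Finset.sum_congr rfl fun d _ => ?_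
      rw [Finset.mul_sum]
      exact Finset.sum_congr rfl fun D _ => by ring
    rw [e1]
    exact integrable_finsetSum _ fun d _ => integrable_finsetSum _ fun D _ =>
      (integrable_kk hk2 _ _).const_mul _
  · intro t
    have := hk3 t
    rw [pow_zero, min_self, mul_one] at this
    exact this
  · -- the large sieve
    intro t
    set b : Eis → ℂ := fun d => if Z / 2 < nm d then
      (((nm d : ℝ)⁻¹ : ℝ) : ℂ) * osc t (Real.log ((nm d : ℝ) / Z)) else 0 with hb
    have hc : FS (cT α E B τ t) := by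
      refine ⟨(hα.fs.sub hB1).fin.subset fun D hD h0 => hD ?_, fun D hD => ?_⟩
      · have h0' : α (B * D) = 0 := h0
        unfold cT
        rw [h0', zero_mul, zero_mul]
      · have h0 : α (B * D) ≠ 0 := fun h => hD (by unfold cT; rw [h, zero_mul, zero_mul])
        exact (hα.fs.prim _ h0).of_mul_left hB1
    have h1 := hH1 R Z X hR hZ hX (τ * σ) ν ?_ hν hνs (cT α E B τ t) b hc ?_
    rotate_left
    · intro p hpp hp hd
      rcases hpp.dvd_or_dvd hd with h | h
      · have h2 : IsCoprime τ p := (H1401.Cp.coprime (κ := τ) (fun q hqq hq hqd => ?_) hp)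
        exact hpp.not_isUnit (h2.isUnit_of_dvd' h dvd_rfl)
        obtain ⟨m, hm⟩ := X6C180.dl_SU hσ.ne_zero i
        have h3 : q ∣ lam ^ m := hqd.trans hm
        have h4 : q ∣ lam := hqq.dvd_of_dvd_pow h3
        have h5 : IsCoprime q (3 : Eis) := hq.isCoprime_three
        have h6 : q ∣ (3 : Eis) := by
          rw [three_eq]
          exact (h4.trans (dvd_pow_self lam two_ne_zero)).mul_left _
        exact hqq.not_isUnit (h5.isUnit_of_dvd' dvd_rfl h6)
      · exact (sg_NoP hσ).2 p hpp ⟨hp, isCoprime_one_right⟩ h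
    · intro D hD
      have h0 : α (B * D) ≠ 0 := fun h => hD (by unfold cT; rw [h, zero_mul, zero_mul])
      have hND : nm D ≤ nm (B * D) := nm_le_of_dvd (hα.fs.prim _ h0).ne_zero (dvd_mul_left _ _)
      have hND' : (nm D : ℝ) ≤ nm (B * D) := by exact_mod_cast hND
      exact ⟨(hα.sqf _ h0).of_mul_right, hND'.trans (hαX _ h0).2, (hα.cop _ h0).of_mul_left_right⟩
    · have h2 : ∑ r ∈ (S R).filter (fun r => IsCoprime r ν ∧ R / 2 < nm r), ‖x r t‖ ^ 2 ≤
          ∑ r ∈ (S R).filter (fun r => IsCoprime r ν), ‖∑ d ∈ pb Z, b d *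
            ∑' D : Eis, cT α E B τ t D * conj (gs (τ * σ * r * ν ^ 2 * D) d)‖ ^ 2 := by
        have h3 : ∀ r ∈ (S R).filter (fun r => IsCoprime r ν ∧ R / 2 < nm r), ‖x r t‖ ^ 2 =
            ‖∑ d ∈ pb Z, b d * ∑' D : Eis, cT α E B τ t D *
              conj (gs (τ * σ * r * ν ^ 2 * D) d)‖ ^ 2 := by
          intro r hr
          rw [Finset.mem_filter, mem_S hR0] at hr
          obtain ⟨⟨hrR, hr1, hrs⟩, hrν, hrR2⟩ := hr
          have hNr : (1 : ℝ) ≤ nm r := one_le_nm hr1.ne_zero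
          have h4 : x r t = osc t (-Real.log ((nm r : ℝ) * (nm ν : ℝ) ^ 2 / U)) *
              ∑ d ∈ pb Z, b d * ∑' D : Eis, cT α E B τ t D *
                conj (gs (τ * σ * r * ν ^ 2 * D) d) := by
            simp only [hx]
            have e2 : ∑ d ∈ pb Z, b d * ∑' D : Eis, cT α E B τ t D *
                conj (gs (τ * σ * r * ν ^ 2 * D) d) = ∑ d ∈ sh j, b d * ∑' D : Eis,
                cT α E B τ t D * conj (gs (τ * σ * r * ν ^ 2 * D) d) := by
              symm
              refine Finset.sum_subset (Finset.filter_subset _ _) fun d hd hd' => ?_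
              have h5 : ¬ (Z / 2 < nm d) := fun h => hd' (by
                rw [mem_sh]
                exact ⟨(mem_pb (by linarith)).mp hd, h⟩)
              simp only [hb]
              rw [if_neg h5, zero_mul]
            rw [e2, Finset.mul_sum]
            refine Finset.sum_congr rfl fun d hd => ?_
            obtain ⟨⟨hdZ, hd1⟩, hdZ2⟩ := mem_sh.mp hd
            rw [tsum_eq_sum (s := TD), Finset.mul_sum, Finset.mul_sum]
            · refine Finset.sum_congr rfl fun D hD => ?_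
              have hD0 := (hTm D).mp hD
              have hD1 : IsPrim D := (hα.fs.prim _ hD0).of_mul_left hB1
              have hND : (1 : ℝ) ≤ nm D := one_le_nm hD1.ne_zero
              have e3 : -Real.log (nu r D / U) =
                  -Real.log ((nm r : ℝ) * (nm ν : ℝ) ^ 2 / U) + -Real.log (nm D) := by
                simp only [hnu]
                rw [nm_mul, nm_mul, nm_pow]
                push_cast
                rw [mul_div_right_comm, Real.log_mul (by positivity) (by positivity)]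
                ring
              simp only [hG, hb]
              rw [if_pos hdZ2, e3, Weight600.osc_add_right]
              unfold cT
              ring
            · intro D hD
              rw [hTm, not_not] at hD
              unfold cT
              rw [hD]
              ring
          rw [h4, norm_mul, norm_osc, one_mul]
        rw [Finset.sum_congr rfl h3]
        refine Finset.sum_le_sum_of_subset_of_nonneg ?_ fun _ _ _ => by positivity
        intro r hr
        rw [Finset.mem_filter] at hr ⊢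
        exact ⟨hr.1, hr.2.1⟩
      refine (h2.trans h1).trans ?_
      have h5 : ∑ g₂ ∈ S X, ∑ g₃ ∈ S X, (nm g₂ : ℝ) ^ 2 *
          ∑ d ∈ (pb Z).filter (fun d => g₂ ^ 2 * g₃ ^ 3 ∣ d),
            (nm d : ℝ) * ‖b d‖ ^ 2 * ‖CS (sub (cT α E B τ t) (g₂ * g₃)) d‖ ^ 2 ≤
          (2 / Z) * MoF α E B τ X t Z := by
        unfold MoF
        rw [Finset.mul_sum]
        refine Finset.sum_le_sum fun g₂ _ => ?_
        rw [Finset.mul_sum]
        refine Finset.sum_le_sum fun g₃ _ => ?_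
        rw [mul_left_comm]
        refine mul_le_mul_of_nonneg_left ?_ (by positivity)
        rw [Finset.mul_sum]
        refine Finset.sum_le_sum fun d hd => ?_
        refine mul_le_mul_of_nonneg_right ?_ (by positivity)
        have hd1 := ((mem_pb (by linarith)).mp (Finset.mem_filter.mp hd).1).2
        have hNd : (1 : ℝ) ≤ nm d := one_le_nm hd1.ne_zero
        simp only [hb]
        split_ifs with h
        · rw [norm_mul, norm_osc, mul_one, Complex.norm_real,
            Real.norm_of_nonneg (by positivity)]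
          have e4 : (nm d : ℝ) * ((nm d : ℝ)⁻¹) ^ 2 = (nm d : ℝ)⁻¹ := by field_simp
          rw [e4, inv_le_comm₀ (by positivity) (by positivity), inv_div]
          exact h.le
        · rw [norm_zero]
          have : (0 : ℝ) ≤ 2 / Z := by positivity
          simpa using this
      have h6 := hMo B hB i t Z hZ
      calc _ ≤ C1 * (R * Z * X * nm ν) ^ ε * nm ν * (R + Z + (R * Z) ^ ((2 : ℝ) / 3)) *
            ((2 / Z) * MoF α E B τ X t Z) := mul_le_mul_of_nonneg_left h5 (by positivity)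
        _ ≤ C1 * (R * Z * X * nm ν) ^ ε * nm ν * (R + Z + (R * Z) ^ ((2 : ℝ) / 3)) *
            ((2 / Z) * ((1 + |t|) ^ J * Mo B Z)) := by
            refine mul_le_mul_of_nonneg_left ?_ (by positivity)
            exact mul_le_mul_of_nonneg_left h6 (by positivity)
        _ = _ := by ring

end Crest.Agent.R017.E2440
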