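import Crest.Agent.R017.E2h_440

/-!
# Row 17, block C70, leaf E2, part i (helper440): a complete dual piece

* `shells_split` : decomposition into dyadic shells
* `QB_Du` : `QB` of the dual side through the sums `YT`
* `YT_tail` : the tail of `YT`
* `YT_bd` : the bound of `YT`
-/

set_option autoImplicit false
set_option linter.unusedVariables false
set_option linter.unusedSectionVars false

noncomputable section

open Complex MeasureTheory
open scoped ComplexConjugate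

namespace Crest.Agent.R017.E2440

open Crest.Agent.R012 Crest.Agent.R012.Eis Crest.Agent.R012.GaussLoc283
open Crest.Agent.R012.Mob705 hiding pb mem_pb
open Crest.Agent.R012.Div277
open Crest.Agent.R012.LS2 (S mem_S)
open Crest.Agent.R012.Weight600 (osc norm_osc)
open Crest.Agent.R017.Sx545 (Sm sm_one_iff)
open Crest.Agent.R017.PX764 (th Gh n6 cD)
open Crest.Agent.R017.F1
open Crest.Agent.R017.X6C180 (Sg fA WF V1 cM n13 IX dl' om' GF)
open Crest.Agent.R017.X6545 (TF Bd)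
open Crest.Agent.R017.X6W180 (TF1 tf1_tf)
open Crest.Agent.R017.CM106 (sub CS FS)
open Crest.Agent.R017.H1401 (pb mem_pb)

open Classical in
theorem shells_split {g : Eis → ℂ} (hg : Summable (fun d : Eis => if IsPrim d then g d else 0))
    (N : ℕ) : ∑' d : Eis, (if IsPrim d then g d else 0) =
      ∑ j ∈ Finset.range N, ∑ d ∈ sh j, g d +
        ∑' d : Eis, (if IsPrim d ∧ (2 : ℝ) ^ N / 2 < nm d then g d else 0) := by
  induction N with
  | zero =>
    rw [Finset.sum_range_zero, zero_add]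
    refine tsum_congr fun d => ?_
    by_cases hd : IsPrim d
    · have h1 := one_le_nm hd.ne_zero
      rw [if_pos hd, if_pos ⟨hd, by rw [pow_zero]; linarith⟩]
    · rw [if_neg hd, if_neg (fun h => hd h.1)]
  | succ N ih =>
    rw [ih, Finset.sum_range_succ, add_assoc]
    congr 1
    have e1 : ∀ d : Eis, (if IsPrim d ∧ (2 : ℝ) ^ N / 2 < nm d then g d else 0) =
        (if d ∈ sh N then g d else 0) +
          (if IsPrim d ∧ (2 : ℝ) ^ (N + 1) / 2 < nm d then g d else 0) := by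
      intro d
      have e2 : (2 : ℝ) ^ (N + 1) / 2 = 2 ^ N := by rw [pow_succ]; ring
      rw [e2]
      have hsh : d ∈ sh N ↔ ((nm d : ℝ) ≤ 2 ^ N ∧ IsPrim d) ∧ (2 : ℝ) ^ N / 2 < nm d := mem_sh
      have hp : (0 : ℝ) < 2 ^ N := by positivity
      by_cases hd : IsPrim d
      · by_cases h1 : (2 : ℝ) ^ N / 2 < nm d
        · have hA : IsPrim d ∧ (2 : ℝ) ^ N / 2 < nm d := ⟨hd, h1⟩
          by_cases h2 : (2 : ℝ) ^ N < nm d
          · have hB : d ∉ sh N := fun h => by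
              have := (hsh.mp h).1.1
              linarith
            have hC : IsPrim d ∧ (2 : ℝ) ^ N < nm d := ⟨hd, h2⟩
            rw [if_pos hA, if_neg hB, if_pos hC, zero_add]
          · have hB : d ∈ sh N := hsh.mpr ⟨⟨not_lt.mp h2, hd⟩, h1⟩
            have hC : ¬ (IsPrim d ∧ (2 : ℝ) ^ N < nm d) := fun h => h2 h.2
            rw [if_pos hA, if_pos hB, if_neg hC, add_zero]
        · have hA : ¬ (IsPrim d ∧ (2 : ℝ) ^ N / 2 < nm d) := fun h => h1 h.2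
          have hB : d ∉ sh N := fun h => h1 (hsh.mp h).2
          have hC : ¬ (IsPrim d ∧ (2 : ℝ) ^ N < nm d) := fun h => by
            have := h.2
            linarith
          rw [if_neg hA, if_neg hB, if_neg hC, add_zero]
      · have hA : ¬ (IsPrim d ∧ (2 : ℝ) ^ N / 2 < nm d) := fun h => hd h.1
        have hB : d ∉ sh N := fun h => hd (hsh.mp h).1.2
        have hC : ¬ (IsPrim d ∧ (2 : ℝ) ^ N < nm d) := fun h => hd h.1
        rw [if_neg hA, if_neg hB, if_neg hC, add_zero]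
    have s1 : Summable fun d : Eis => if d ∈ sh N then g d else 0 := by
      refine summable_of_ne_finset_zero (s := sh N) fun d hd => if_neg hd
    have s2 : Summable fun d : Eis => if IsPrim d ∧ (2 : ℝ) ^ (N + 1) / 2 < nm d then g d else 0 := by
      have h1 := hg.indicator {d : Eis | (2 : ℝ) ^ (N + 1) / 2 < nm d}
      refine h1.congr fun d => ?_
      by_cases h2 : (2 : ℝ) ^ (N + 1) / 2 < nm d
      · rw [Set.indicator_of_mem (show d ∈ {d : Eis | (2 : ℝ) ^ (N + 1) / 2 < nm d} from h2)]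
        by_cases hd : IsPrim d
        · rw [if_pos hd, if_pos ⟨hd, h2⟩]
        · rw [if_neg hd, if_neg (fun h => hd h.1)]
      · rw [Set.indicator_of_notMem (show d ∉ {d : Eis | (2 : ℝ) ^ (N + 1) / 2 < nm d} from h2),
          if_neg (fun h => h2 h.2)]
    rw [tsum_congr e1, s1.tsum_add s2]
    congr 1
    rw [tsum_eq_sum (s := sh N) fun d hd => if_neg hd]
    exact Finset.sum_congr rfl fun d hd => if_pos hd

/-- the dual sum -/
def YT (α : Eis → ℂ) (E B σ : Eis) (i : IX σ) (r ν : Eis) (F : ℝ → ℂ) (A : ℝ) : ℂ := by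
  classical
  exact ∑' d : Eis, if IsPrim d then (((nm d : ℝ)⁻¹ : ℝ) : ℂ) * XT α E B σ i r ν F A d else 0

/-- `L¹`-norm of the coefficients -/
def L1 (α : Eis → ℂ) (X : ℝ) : ℝ := ∑ n ∈ S X, ‖α n‖

lemma L1_nonneg (α : Eis → ℂ) (X : ℝ) : 0 ≤ L1 α X := Finset.sum_nonneg fun _ _ => norm_nonneg _

lemma sum_sub_le {α : Eis → ℂ} {X : ℝ} (hX : 0 ≤ X) (hα : FS α)
    (hs : ∀ n, α n ≠ 0 → Squarefree n) (hαX : ∀ n, α n ≠ 0 → (nm n : ℝ) ≤ X) {B : Eis}
    (hB : B ≠ 0) (T : Finset Eis) (hT : ∀ D ∈ T, α (B * D) ≠ 0) :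
    ∑ D ∈ T, ‖α (B * D)‖ ≤ L1 α X := by
  classical
  unfold L1
  rw [← Finset.sum_image (f := fun n => ‖α n‖) (g := fun D => B * D)
    (fun x _ y _ h => mul_left_cancel₀ hB h)]
  refine Finset.sum_le_sum_of_subset_of_nonneg (fun n hn => ?_) fun _ _ _ => norm_nonneg _
  rw [Finset.mem_image] at hn
  obtain ⟨D, hD, rfl⟩ := hn
  have h0 := hT D hD
  rw [mem_S hX]
  exact ⟨hαX _ h0, hα.prim _ h0, hs _ h0⟩

lemma XT_le {σ : Eis} (hσ : Sg σ) (M : ℕ) : ∃ (k : ℕ) (C : ℝ), 0 ≤ C ∧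
    ∀ (F : ℝ → ℂ) (Sf : ℝ), TF F → Bd F k Sf → ∀ R X A : ℝ, 1 ≤ R → 1 ≤ X → 0 < A →
    ∀ (E ν : Eis) (α : Eis → ℂ), IsPrim ν → Cf α ν →
    (∀ n, α n ≠ 0 → (nm n : ℝ) ≤ X) → ∀ B ∈ S X, ∀ (i : IX σ) (r d : Eis),
    IsPrim r → (nm r : ℝ) ≤ R → IsPrim d →
    ‖(((nm d : ℝ)⁻¹ : ℝ) : ℂ) * XT α E B σ i r ν F A d‖ ≤
      L1 α X * (C * Sf * (R * (nm ν : ℝ) ^ 2 * (X / nm B) / (A * nm d)) ^ M) := by
  obtain ⟨k, C, hC0, hC⟩ := X6C180.om_bd hσ.ne_zero M
  refine ⟨k, C, hC0, ?_⟩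
  intro F Sf hF hBd R X A hR hX hA E ν α hν hα hαX B hB i r d hr hrR hd
  have hSf : 0 ≤ Sf := (norm_nonneg _).trans (hBd 0 (Nat.zero_le _) 0)
  have hX0 : (0 : ℝ) ≤ X := by linarith
  obtain ⟨hBX, hB1, hBs⟩ := (mem_S hX0).mp hB
  have hNB : (1 : ℝ) ≤ nm B := one_le_nm hB1.ne_zero
  have hNν : (1 : ℝ) ≤ nm ν := one_le_nm hν.ne_zero
  have hNd : (1 : ℝ) ≤ nm d := one_le_nm hd.ne_zero
  have hNr : (1 : ℝ) ≤ nm r := one_le_nm hr.ne_zero
  set TD : Finset Eis := (hα.fs.sub hB1).fin.toFinset with hTD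
  have hTm : ∀ D, D ∈ TD ↔ α (B * D) ≠ 0 := by
    intro D
    rw [hTD, Set.Finite.mem_toFinset, Function.mem_support]
    rfl
  set b : ℝ := C * Sf * (R * (nm ν : ℝ) ^ 2 * (X / nm B) / (A * nm d)) ^ M with hb
  have hb0 : 0 ≤ b := by positivity
  have e1 : XT α E B σ i r ν F A d = ∑ D ∈ TD, α (B * D) * (sy E D * conj (sy D B)) *
      sy (dl' σ i) D * (conj (gs (dl' σ i * σ * r * ν ^ 2 * D) d) *
      om' σ F i ((nm (r * ν ^ 2 * D) : ℝ) / (A * nm d))) := by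
    unfold XT
    refine tsum_eq_sum fun D hD => ?_
    rw [hTm, not_not] at hD
    rw [hD]; ring
  rw [e1, norm_mul, Complex.norm_real, Real.norm_of_nonneg (by positivity)]
  have h1 : ‖∑ D ∈ TD, α (B * D) * (sy E D * conj (sy D B)) * sy (dl' σ i) D *
      (conj (gs (dl' σ i * σ * r * ν ^ 2 * D) d) *
      om' σ F i ((nm (r * ν ^ 2 * D) : ℝ) / (A * nm d)))‖ ≤ ∑ D ∈ TD, ‖α (B * D)‖ * (nm d * b) := by
    refine (norm_sum_le _ _).trans (Finset.sum_le_sum fun D hD => ?_)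
    have hD0 := (hTm D).mp hD
    have hBD := hα.fs.prim _ hD0
    have hD1 : IsPrim D := hBD.of_mul_left hB1
    have hND : (1 : ℝ) ≤ nm D := one_le_nm hD1.ne_zero
    have hX2 := hαX _ hD0
    rw [nm_mul, Nat.cast_mul] at hX2
    rw [norm_mul, norm_mul, norm_mul, norm_mul, norm_mul, RCLike.norm_conj, RCLike.norm_conj]
    have h2 : ‖sy E D‖ * ‖sy D B‖ ≤ 1 := mul_le_one₀ (norm_sy_le1 hD1) (norm_nonneg _) (norm_sy_le1 hB1)
    have h3 : ‖sy (dl' σ i) D‖ ≤ 1 := norm_sy_le1 hD1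
    have h4 : ‖gs (dl' σ i * σ * r * ν ^ 2 * D) d‖ ≤ nm d := norm_gs_le' _ hd
    have hnu : (nm (r * ν ^ 2 * D) : ℝ) = (nm r : ℝ) * (nm ν : ℝ) ^ 2 * nm D := by
      rw [nm_mul, nm_mul, nm_pow]; push_cast; ring
    have h5 : ‖om' σ F i ((nm (r * ν ^ 2 * D) : ℝ) / (A * nm d))‖ ≤ b := by
      refine (hC F Sf hF hBd i _ (by rw [hnu]; positivity)).trans ?_
      rw [hb]
      refine mul_le_mul_of_nonneg_left ((min_le_right _ _).trans ?_) (by positivity)
      refine pow_le_pow_left₀ (by positivity) ?_ M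
      refine div_le_div_of_nonneg_right ?_ (by positivity)
      rw [hnu]
      have h6 : (nm D : ℝ) ≤ X / nm B := by
        rw [le_div_iff₀ (by linarith)]; linarith
      exact mul_le_mul (mul_le_mul_of_nonneg_right hrR (by positivity)) h6 (by positivity)
        (by positivity)
    calc ‖α (B * D)‖ * (‖sy E D‖ * ‖sy D B‖) * ‖sy (dl' σ i) D‖ *
        (‖gs (dl' σ i * σ * r * ν ^ 2 * D) d‖ * ‖om' σ F i ((nm (r * ν ^ 2 * D) : ℝ) / (A * nm d))‖)
        ≤ ‖α (B * D)‖ * 1 * 1 * (nm d * b) := by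
          refine mul_le_mul ?_ (mul_le_mul h4 h5 (norm_nonneg _) (by positivity)) (by positivity)
            (by positivity)
          exact mul_le_mul (mul_le_mul_of_nonneg_left h2 (norm_nonneg _)) h3 (norm_nonneg _)
            (by positivity)
      _ = _ := by ring
  rw [← Finset.sum_mul] at h1
  have h7 := sum_sub_le hX0 hα.fs hα.sqf hαX hB1.ne_zero TD (fun D hD => (hTm D).mp hD)
  calc (nm d : ℝ)⁻¹ * ‖_‖ ≤ (nm d : ℝ)⁻¹ * ((∑ D ∈ TD, ‖α (B * D)‖) * (nm d * b)) :=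
        mul_le_mul_of_nonneg_left h1 (by positivity)
    _ = (∑ D ∈ TD, ‖α (B * D)‖) * b := by field_simp
    _ ≤ L1 α X * b := mul_le_mul_of_nonneg_right h7 hb0

lemma norm_piece_le {σ : Eis} (hσ : Sg σ) {F : ℝ → ℂ} (hF : TF1 F) (i : IX σ) {A nu : ℝ}
    (hA : 0 < A) (hnu : 0 < nu) : ∃ c : ℝ, 0 ≤ c ∧ ∀ (u d : Eis), IsPrim d →
      ‖conj (gs u d) * ((((nm d : ℝ)⁻¹ : ℝ) : ℂ) * om' σ F i (nu / (A * nm d)))‖ ≤
        c * ((nm d : ℝ) ^ 2)⁻¹ := by
  obtain ⟨k, C, hC0, hC⟩ := X6C180.om_bd hσ.ne_zero 2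
  obtain ⟨Sf, hS0, hBd⟩ := X6W180.exists_Bd hF k
  refine ⟨C * Sf * (nu / A) ^ 2, by positivity, fun u d hd => ?_⟩
  have hNd : (1 : ℝ) ≤ nm d := one_le_nm hd.ne_zero
  have h4 : ‖gs u d‖ ≤ nm d := norm_gs_le' _ hd
  have h5 := hC F Sf (tf1_tf hF) hBd i (nu / (A * nm d)) (by positivity)
  rw [norm_mul, norm_mul, RCLike.norm_conj, Complex.norm_real, Real.norm_of_nonneg (by positivity)]
  calc ‖gs u d‖ * ((nm d : ℝ)⁻¹ * ‖om' σ F i (nu / (A * nm d))‖)
      ≤ nm d * ((nm d : ℝ)⁻¹ * (C * Sf * (nu / (A * nm d)) ^ 2)) := by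
        refine mul_le_mul h4 ?_ (by positivity) (by positivity)
        refine mul_le_mul_of_nonneg_left (h5.trans ?_) (by positivity)
        exact mul_le_mul_of_nonneg_left (min_le_right _ _) (by positivity)
    _ = _ := by field_simp

lemma summable_piece {σ : Eis} (hσ : Sg σ) {F : ℝ → ℂ} (hF : TF1 F) (i : IX σ) {A nu : ℝ}
    (hA : 0 < A) (hnu : 0 < nu) (u : Eis) : open Classical in
    Summable fun d : Eis => if IsPrim d then
      conj (gs u d) * ((((nm d : ℝ)⁻¹ : ℝ) : ℂ) * om' σ F i (nu / (A * nm d))) else 0 := by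
  classical
  obtain ⟨c, hc0, hc⟩ := norm_piece_le hσ hF i hA hnu
  refine Summable.of_norm_bounded (summable_nm2.mul_left c) fun d => ?_
  split_ifs with hd
  · exact hc u d hd
  · rw [norm_zero]; positivity

open Classical in
theorem YT_eq {α : Eis → ℂ} {E B σ : Eis} (hσ : Sg σ) (hB : IsPrim B) (i : IX σ) {r ν : Eis}
    (hr : IsPrim r) (hν : IsPrim ν) (hα : FS α) {F : ℝ → ℂ} (hF : TF1 F) {A : ℝ} (hA : 0 < A) :
    YT α E B σ i r ν F A = ∑' D : Eis, α (B * D) * (sy E D * conj (sy D B)) * sy (dl' σ i) D *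
      ∑' d : Eis, (if IsPrim d then conj (gs (dl' σ i * σ * (r * ν ^ 2 * D)) d) *
        ((((nm d : ℝ)⁻¹ : ℝ) : ℂ) * om' σ F i ((nm (r * ν ^ 2 * D) : ℝ) / (A * nm d))) else 0) := by
  set TD : Finset Eis := (hα.sub hB).fin.toFinset with hTD
  have hTm : ∀ D, D ∈ TD ↔ α (B * D) ≠ 0 := by
    intro D
    rw [hTD, Set.Finite.mem_toFinset, Function.mem_support]
    rfl
  have e1 : ∀ D, dl' σ i * σ * (r * ν ^ 2 * D) = dl' σ i * σ * r * ν ^ 2 * D := fun D => by ring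
  unfold YT XT
  rw [tsum_eq_sum (s := TD) (f := fun D : Eis => α (B * D) * (sy E D * conj (sy D B)) *
    sy (dl' σ i) D * ∑' d : Eis, (if IsPrim d then conj (gs (dl' σ i * σ * (r * ν ^ 2 * D)) d) *
        ((((nm d : ℝ)⁻¹ : ℝ) : ℂ) * om' σ F i ((nm (r * ν ^ 2 * D) : ℝ) / (A * nm d))) else 0))]
  · have e2 : ∀ d : Eis, (if IsPrim d then (((nm d : ℝ)⁻¹ : ℝ) : ℂ) *
        ∑' D : Eis, α (B * D) * (sy E D * conj (sy D B)) * sy (dl' σ i) D *
          (conj (gs (dl' σ i * σ * r * ν ^ 2 * D) d) *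
            om' σ F i ((nm (r * ν ^ 2 * D) : ℝ) / (A * nm d))) else 0) =
        ∑ D ∈ TD, α (B * D) * (sy E D * conj (sy D B)) * sy (dl' σ i) D *
          (if IsPrim d then conj (gs (dl' σ i * σ * (r * ν ^ 2 * D)) d) *
        ((((nm d : ℝ)⁻¹ : ℝ) : ℂ) * om' σ F i ((nm (r * ν ^ 2 * D) : ℝ) / (A * nm d))) else 0) := by
      intro d
      split_ifs with hd
      · rw [tsum_eq_sum (s := TD), Finset.mul_sum]
        · refine Finset.sum_congr rfl fun D _ => ?_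
          rw [e1]; ring
        · intro D hD
          rw [hTm, not_not] at hD
          rw [hD]; ring
      · simp
    rw [tsum_congr e2, Summable.tsum_finsetSum]
    · exact Finset.sum_congr rfl fun D _ => tsum_mul_left
    · intro D hD
      have hD1 : IsPrim D := (hα.prim _ ((hTm D).mp hD)).of_mul_left hB
      have hnu : (0 : ℝ) < nm (r * ν ^ 2 * D) := by
        exact_mod_cast nm_pos.2 ((hr.mul (hν.pow 2)).mul hD1).ne_zero
      exact (summable_piece hσ hF i hA hnu _).mul_left _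
  · intro D hD
    rw [hTm, not_not] at hD
    rw [hD]; ring

theorem QB_Du {α : Eis → ℂ} {E B σ : Eis} (hσ : Sg σ) (hB : IsPrim B) {r ν : Eis}
    (hr : IsPrim r) (hν : IsPrim ν) (hα : FS α) {F : ℝ → ℂ} (hF : TF1 F) {A : ℝ} (hA : 0 < A) :
    QB α E B (fun _ D => Du (σ * r * ν ^ 2 * D) (Wf (fA (GF F) A))) =
      ((A ^ (1 / 3 : ℝ) : ℝ) : ℂ) * ∑ i : IX σ, sy (dl' σ i) (r * ν ^ 2) *
        YT α E B σ i r ν F A := by
  classical
  set TD : Finset Eis := (hα.sub hB).fin.toFinset with hTD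
  have hTm : ∀ D, D ∈ TD ↔ α (B * D) ≠ 0 := by
    intro D
    rw [hTD, Set.Finite.mem_toFinset, Function.mem_support]
    rfl
  have h1 : ∀ i : IX σ, YT α E B σ i r ν F A = ∑ D ∈ TD, α (B * D) * (sy E D * conj (sy D B)) *
      sy (dl' σ i) D * ∑' d : Eis, (if IsPrim d then
        conj (gs (dl' σ i * σ * (r * ν ^ 2 * D)) d) * ((((nm d : ℝ)⁻¹ : ℝ) : ℂ) *
          om' σ F i ((nm (r * ν ^ 2 * D) : ℝ) / (A * nm d))) else 0) := by
    intro i
    rw [YT_eq hσ hB i hr hν hα hF hA]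
    refine tsum_eq_sum fun D hD => ?_
    rw [hTm, not_not] at hD
    rw [hD]; ring
  unfold QB
  rw [tsum_eq_sum (s := TD)]
  · have h2 : ∀ D ∈ TD, α (B * D) * (sy E D * conj (sy D B)) *
        Du (σ * r * ν ^ 2 * D) (Wf (fA (GF F) A)) =
        ∑ i : IX σ, ((A ^ (1 / 3 : ℝ) : ℝ) : ℂ) * (sy (dl' σ i) (r * ν ^ 2) *
          (α (B * D) * (sy E D * conj (sy D B)) * sy (dl' σ i) D *
          ∑' d : Eis, (if IsPrim d then
        conj (gs (dl' σ i * σ * (r * ν ^ 2 * D)) d) * ((((nm d : ℝ)⁻¹ : ℝ) : ℂ) *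
          om' σ F i ((nm (r * ν ^ 2 * D) : ℝ) / (A * nm d))) else 0))) := by
      intro D hD
      have hD1 : IsPrim D := (hα.prim _ ((hTm D).mp hD)).of_mul_left hB
      have hv : IsPrim (r * ν ^ 2 * D) := (hr.mul (hν.pow 2)).mul hD1
      have e1 : σ * r * ν ^ 2 * D = σ * (r * ν ^ 2 * D) := by ring
      rw [e1, Du_eq hσ hv (tf1_tf hF) hA, Finset.mul_sum, Finset.mul_sum]
      refine Finset.sum_congr rfl fun i _ => ?_
      unfold TP'
      rw [syAx.mul_right _ _ _ (hr.mul (hν.pow 2)) hD1]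
      ring
    rw [Finset.sum_congr rfl h2, Finset.sum_comm, Finset.mul_sum]
    refine Finset.sum_congr rfl fun i _ => ?_
    rw [h1 i, Finset.mul_sum, Finset.mul_sum]
  · intro D hD
    rw [hTm, not_not] at hD
    rw [hD]; ring

theorem YT_tail {σ : Eis} (hσ : Sg σ) (M : ℕ) : ∃ (k : ℕ) (C : ℝ), 0 ≤ C ∧
    ∀ (F : ℝ → ℂ) (Sf : ℝ), TF F → Bd F k Sf → ∀ R X A T : ℝ, 1 ≤ R → 1 ≤ X → 0 < A → 1 ≤ T →
    ∀ (E ν : Eis) (α : Eis → ℂ), IsPrim ν → Cf α ν →
    (∀ n, α n ≠ 0 → (nm n : ℝ) ≤ X) → ∀ B ∈ S X, ∀ (i : IX σ) (r : Eis),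
    IsPrim r → (nm r : ℝ) ≤ R → ∀ N : ℕ,
    2 * T * (R * (nm ν : ℝ) ^ 2 * (X / nm B)) ≤ A * 2 ^ N →
    ‖YT α E B σ i r ν F A - ∑ j ∈ Finset.range N, ∑ d ∈ sh j,
      (((nm d : ℝ)⁻¹ : ℝ) : ℂ) * XT α E B σ i r ν F A d‖ ≤
      L1 α X * (C * Sf * (R * (nm ν : ℝ) ^ 2 * (X / nm B) / A) ^ 2 * (T ^ M)⁻¹) := by
  classical
  obtain ⟨k, C, hC0, hC⟩ := XT_le hσ (M + 2)
  refine ⟨k, C * K0, mul_nonneg hC0 K0_nonneg, ?_⟩
  intro F Sf hF hBd R X A T hR hX hA hT E ν α hν hα hαX B hB i r hr hrR N hN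
  have hSf : 0 ≤ Sf := (norm_nonneg _).trans (hBd 0 (Nat.zero_le _) 0)
  have hX0 : (0 : ℝ) ≤ X := by linarith
  obtain ⟨hBX, hB1, hBs⟩ := (mem_S hX0).mp hB
  have hNB : (1 : ℝ) ≤ nm B := one_le_nm hB1.ne_zero
  have hNν : (1 : ℝ) ≤ nm ν := one_le_nm hν.ne_zero
  set U : ℝ := R * (nm ν : ℝ) ^ 2 * (X / nm B) with hU
  have hU0 : 0 < U := by rw [hU]; positivity
  have hL := L1_nonneg α X
  set g : Eis → ℂ := fun d => (((nm d : ℝ)⁻¹ : ℝ) : ℂ) * XT α E B σ i r ν F A d with hg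
  have hb : ∀ d, IsPrim d → ‖g d‖ ≤ L1 α X * (C * Sf * (U / (A * nm d)) ^ (M + 2)) :=
    fun d hd => hC F Sf hF hBd R X A hR hX hA E ν α hν hα hαX B hB i r d hr hrR hd
  have hsum : Summable (fun d : Eis => if IsPrim d then g d else 0) := by
    refine Summable.of_norm_bounded
      (summable_nm2.mul_left (L1 α X * (C * Sf * (U / A) ^ (M + 2)))) fun d => ?_
    split_ifs with hd
    · have hNd : (1 : ℝ) ≤ nm d := one_le_nm hd.ne_zero
      refine (hb d hd).trans ?_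
      rw [mul_assoc (L1 α X)]
      refine mul_le_mul_of_nonneg_left ?_ hL
      rw [mul_assoc (C * Sf)]
      refine mul_le_mul_of_nonneg_left ?_ (by positivity)
      have e1 : U / (A * nm d) = U / A * (nm d : ℝ)⁻¹ := by field_simp
      rw [e1, mul_pow]
      refine mul_le_mul_of_nonneg_left ?_ (by positivity)
      rw [inv_pow]
      refine inv_anti₀ (by positivity) ?_
      exact pow_le_pow_right₀ hNd (by omega)
    · rw [norm_zero]; positivity
  have h1 := shells_split hsum N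
  have h2 : YT α E B σ i r ν F A - ∑ j ∈ Finset.range N, ∑ d ∈ sh j, g d =
      ∑' d : Eis, (if IsPrim d ∧ (2 : ℝ) ^ N / 2 < nm d then g d else 0) := by
    unfold YT
    rw [h1]; ring
  show ‖YT α E B σ i r ν F A - ∑ j ∈ Finset.range N, ∑ d ∈ sh j, g d‖ ≤ _
  rw [h2]
  have h3 : ‖∑' d : Eis, (if IsPrim d ∧ (2 : ℝ) ^ N / 2 < nm d then g d else 0)‖ ≤
      (L1 α X * (C * Sf * ((U / A) ^ 2 * (T ^ M)⁻¹))) * K0 := by
    unfold K0
    rw [← tsum_mul_left]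
    refine tsum_of_norm_bounded (summable_nm2.mul_left _).hasSum fun d => ?_
    split_ifs with hd
    · obtain ⟨hd1, hd2⟩ := hd
      have hNd : (1 : ℝ) ≤ nm d := one_le_nm hd1.ne_zero
      refine (hb d hd1).trans ?_
      rw [mul_assoc (L1 α X)]
      refine mul_le_mul_of_nonneg_left ?_ hL
      rw [mul_assoc (C * Sf)]
      refine mul_le_mul_of_nonneg_left ?_ (by positivity)
      have h4 : T * U ≤ A * nm d := by
        have h5 : T * U ≤ A * (2 ^ N / 2) := by linarith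
        exact h5.trans (mul_le_mul_of_nonneg_left hd2.le hA.le)
      have h6 : U / (A * nm d) ≤ T⁻¹ := by
        rw [div_le_iff₀ (by positivity), inv_mul_eq_div, le_div_iff₀ (by linarith)]
        linarith
      have e1 : (U / (A * nm d)) ^ 2 = (U / A) ^ 2 * ((nm d : ℝ) ^ 2)⁻¹ := by field_simp
      rw [pow_add, e1]
      have h7 : (U / (A * nm d)) ^ M ≤ (T ^ M)⁻¹ := by
        rw [← inv_pow]
        exact pow_le_pow_left₀ (by positivity) h6 M
      calc (U / (A * nm d)) ^ M * ((U / A) ^ 2 * ((nm d : ℝ) ^ 2)⁻¹)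
          ≤ (T ^ M)⁻¹ * ((U / A) ^ 2 * ((nm d : ℝ) ^ 2)⁻¹) :=
            mul_le_mul_of_nonneg_right h7 (by positivity)
        _ = _ := by ring
    · rw [norm_zero]; positivity
  refine h3.trans (le_of_eq ?_)
  ring

end Crest.Agent.R017.E2440
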