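import Crest.Agent.R017.E2i_440
import Crest.Agent.R012.Lat_277

/-!
# Row 17, block C70, leaf E2, part j (helper440): the bound of a dual piece, the direct side

* `YT_bd` : `Σ_r ‖YT‖²`
* `QD_bd` : the direct side
-/

set_option autoImplicit false
set_option linter.unusedVariables false
set_option linter.unusedSectionVars false

noncomputable section

open Complex MeasureTheory
open scoped ComplexConjugate

namespace Crest.Agent.R017.E2440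

open Crest.Agent.R012 Crest.Agent.R012.Eis Crest.Agent.R012.GaussLoc283
open Crest.Agent.R012.Mob705 hiding pb mem_pb
open Crest.Agent.R012.Div277
open Crest.Agent.R012.LS2 (S mem_S)
open Crest.Agent.R012.Weight600 (osc norm_osc)
open Crest.Agent.R017.Sx545 (Sm sm_one_iff)
open Crest.Agent.R017.PX764 (th Gh n6 cD)
open Crest.Agent.R017.F1
open Crest.Agent.R017.X6C180 (Sg fA WF V1 cM n13 IX dl' om' GF)
open Crest.Agent.R017.X6545 (TF Bd)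
open Crest.Agent.R017.X6W180 (TF1 tf1_tf)
open Crest.Agent.R017.CM106 (sub CS FS)
open Crest.Agent.R017.H1401 (pb mem_pb)

lemma card_S_le' {R : ℝ} (hR : 1 ≤ R) : ((S R).card : ℝ) ≤ 100 * R := by
  classical
  have h1 : (S R).card ≤ (primBall ⌊R⌋₊).card := Finset.card_le_card (Finset.filter_subset _ _)
  have h2 : ((primBall ⌊R⌋₊).card : ℝ) ≤ 100 * ((⌊R⌋₊ : ℕ) : ℝ) := Lat277.card_primBall_le ⌊R⌋₊
  have h3 : ((⌊R⌋₊ : ℕ) : ℝ) ≤ R := Nat.floor_le (by linarith)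
  have h1' : ((S R).card : ℝ) ≤ ((primBall ⌊R⌋₊).card : ℝ) := by exact_mod_cast h1
  linarith

/-- the shell form -/
def Gn (R X : ℝ) (ν B : Eis) (ε : ℝ) (Mo : Eis → ℝ → ℝ) (N : ℕ) : ℝ :=
  ∑ j ∈ Finset.range N, (R * 2 ^ j * X * nm ν) ^ ε * nm ν *
    (R + 2 ^ j + (R * 2 ^ j) ^ ((2 : ℝ) / 3)) * (2 / 2 ^ j) * Mo B (2 ^ j)

lemma sq_shells {N : ℕ} (a : ℕ → ℝ) (b : ℝ) :
    (∑ j ∈ Finset.range N, a j + b) ^ 2 ≤ 2 * (N + 1) * (∑ j ∈ Finset.range N, a j ^ 2 + b ^ 2) := by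
  have h1 : (∑ j ∈ Finset.range N, a j) ^ 2 ≤ N * ∑ j ∈ Finset.range N, a j ^ 2 := by
    have h := sq_sum_le_card_mul_sum_sq (s := Finset.range N) (f := a)
    rw [Finset.card_range] at h
    exact h
  have h2 : 0 ≤ ∑ j ∈ Finset.range N, a j ^ 2 := Finset.sum_nonneg fun j _ => sq_nonneg _
  have hN : (0 : ℝ) ≤ N := Nat.cast_nonneg N
  nlinarith [sq_nonneg (∑ j ∈ Finset.range N, a j - b), sq_nonneg b,
    mul_nonneg hN (sq_nonneg b)]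

open Classical in
theorem YT_bd {σ : Eis} (hσ : Sg σ) {ε : ℝ} (hε : 0 < ε) (J M : ℕ) : ∃ (k : ℕ) (C : ℝ), 0 ≤ C ∧
    ∀ (F : ℝ → ℂ) (Sf : ℝ), TF1 F → Bd F k Sf → ∀ R X A T : ℝ, 1 ≤ R → 1 ≤ X → 0 < A → 1 ≤ T →
    ∀ (E ν : Eis) (α : Eis → ℂ), IsPrim ν → Squarefree ν → Cf α ν →
    (∀ n, α n ≠ 0 → X / 2 < nm n ∧ (nm n : ℝ) ≤ X) → ∀ Mo : Eis → ℝ → ℝ, MoH α E σ X J Mo →
    ∀ B ∈ S X, ∀ (i : IX σ) (N : ℕ), 2 * T * (R * (nm ν : ℝ) ^ 2 * (X / nm B)) ≤ A * 2 ^ N →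
    ∑ r ∈ (S R).filter (fun r => IsCoprime r ν ∧ R / 2 < nm r), ‖YT α E B σ i r ν F A‖ ^ 2 ≤
      C * Sf ^ 2 * (N + 1) * (Gn R X ν B ε Mo N +
        R * (L1 α X * (R * (nm ν : ℝ) ^ 2 * (X / nm B) / A) ^ 2 * (T ^ M)⁻¹) ^ 2) := by
  obtain ⟨k1, C1, hC1, hsh⟩ := shell_bd hσ hε J
  obtain ⟨k2, C2, hC2, htl⟩ := YT_tail hσ M
  refine ⟨k1 + k2, 2 * (C1 + 100 * C2 ^ 2), by positivity, ?_⟩
  intro F Sf hF hBd R X A T hR hX hA hT E ν α hν hνs hα hαX Mo hMo B hB i N hN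
  have hSf : 0 ≤ Sf := (norm_nonneg _).trans (hBd 0 (Nat.zero_le _) 0)
  have hB1 : Bd F k1 Sf := fun n hn y => hBd n (by omega) y
  have hB2 : Bd F k2 Sf := fun n hn y => hBd n (by omega) y
  have hR0 : (0 : ℝ) ≤ R := by linarith
  have hX0 : (0 : ℝ) ≤ X := by linarith
  obtain ⟨hBX, hBp, hBs⟩ := (mem_S hX0).mp hB
  have hNB : (1 : ℝ) ≤ nm B := one_le_nm hBp.ne_zero
  have hNν : (1 : ℝ) ≤ nm ν := one_le_nm hν.ne_zero
  have hL := L1_nonneg α X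
  set U : ℝ := R * (nm ν : ℝ) ^ 2 * (X / nm B) with hU
  set tl : ℝ := L1 α X * (C2 * Sf * (U / A) ^ 2 * (T ^ M)⁻¹) with htldef
  have htl0 : 0 ≤ tl := by rw [htldef]; positivity
  set P : ℕ → Eis → ℂ := fun j r => ∑ d ∈ sh j, (((nm d : ℝ)⁻¹ : ℝ) : ℂ) *
    XT α E B σ i r ν F A d with hP
  have h1 : ∀ r ∈ (S R).filter (fun r => IsCoprime r ν ∧ R / 2 < nm r),
      ‖YT α E B σ i r ν F A‖ ^ 2 ≤
        2 * (N + 1) * (∑ j ∈ Finset.range N, ‖P j r‖ ^ 2 + tl ^ 2) := by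
    intro r hr
    rw [Finset.mem_filter, mem_S hR0] at hr
    obtain ⟨⟨hrR, hr1, hrs⟩, hrν, hrR2⟩ := hr
    have h2 := htl F Sf (tf1_tf hF) hB2 R X A T hR hX hA hT E ν α hν hα
      (fun n hn => (hαX n hn).2) B hB i r hr1 hrR N hN
    have h3 : ‖YT α E B σ i r ν F A‖ ≤ ∑ j ∈ Finset.range N, ‖P j r‖ + tl := by
      calc ‖YT α E B σ i r ν F A‖ = ‖∑ j ∈ Finset.range N, P j r +
            (YT α E B σ i r ν F A - ∑ j ∈ Finset.range N, P j r)‖ := by congr 1; ring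
        _ ≤ ‖∑ j ∈ Finset.range N, P j r‖ + ‖YT α E B σ i r ν F A -
            ∑ j ∈ Finset.range N, P j r‖ := norm_add_le _ _
        _ ≤ _ := add_le_add (norm_sum_le _ _) h2
    exact (pow_le_pow_left₀ (norm_nonneg _) h3 2).trans (sq_shells _ _)
  have h4 : ∀ j, ∑ r ∈ (S R).filter (fun r => IsCoprime r ν ∧ R / 2 < nm r), ‖P j r‖ ^ 2 ≤
      C1 * Sf ^ 2 * ((R * 2 ^ j * X * nm ν) ^ ε * nm ν *
        (R + 2 ^ j + (R * 2 ^ j) ^ ((2 : ℝ) / 3)) * (2 / 2 ^ j) * Mo B (2 ^ j)) :=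
    fun j => hsh F Sf hF hB1 R X A hR hX hA E ν α hν hνs hα hαX Mo hMo B hB i j
  have hG0 : 0 ≤ Gn R X ν B ε Mo N := by
    unfold Gn
    refine Finset.sum_nonneg fun j _ => ?_
    have hZ : (1 : ℝ) ≤ 2 ^ j := one_le_pow₀ (by norm_num)
    have hMo0 : 0 ≤ Mo B (2 ^ j) := hMo.nonneg hB hZ
    positivity
  calc ∑ r ∈ (S R).filter (fun r => IsCoprime r ν ∧ R / 2 < nm r), ‖YT α E B σ i r ν F A‖ ^ 2
      ≤ ∑ r ∈ (S R).filter (fun r => IsCoprime r ν ∧ R / 2 < nm r),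
        2 * (N + 1) * (∑ j ∈ Finset.range N, ‖P j r‖ ^ 2 + tl ^ 2) := Finset.sum_le_sum h1
    _ = 2 * (N + 1) * (∑ j ∈ Finset.range N,
          ∑ r ∈ (S R).filter (fun r => IsCoprime r ν ∧ R / 2 < nm r), ‖P j r‖ ^ 2 +
          (((S R).filter (fun r => IsCoprime r ν ∧ R / 2 < nm r)).card : ℝ) * tl ^ 2) := by
        rw [← Finset.mul_sum, Finset.sum_add_distrib, Finset.sum_comm, Finset.sum_const,
          nsmul_eq_mul]
    _ ≤ 2 * (N + 1) * (C1 * Sf ^ 2 * Gn R X ν B ε Mo N + (100 * R) * tl ^ 2) := by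
        refine mul_le_mul_of_nonneg_left (add_le_add ?_ ?_) (by positivity)
        · unfold Gn
          rw [Finset.mul_sum]
          exact Finset.sum_le_sum fun j _ => h4 j
        · refine mul_le_mul_of_nonneg_right ?_ (sq_nonneg _)
          have h5 : (((S R).filter (fun r => IsCoprime r ν ∧ R / 2 < nm r)).card : ℝ) ≤
              (S R).card := by exact_mod_cast Finset.card_filter_le _ _
          exact h5.trans (card_S_le' hR)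
    _ ≤ _ := by
        have e1 : (100 * R) * tl ^ 2 = 100 * C2 ^ 2 * Sf ^ 2 *
            (R * (L1 α X * (U / A) ^ 2 * (T ^ M)⁻¹) ^ 2) := by
          rw [htldef]; ring
        rw [e1]
        set W : ℝ := R * (L1 α X * (U / A) ^ 2 * (T ^ M)⁻¹) ^ 2 with hW
        have hW0 : 0 ≤ W := by rw [hW]; positivity
        have hN0 : (0 : ℝ) ≤ (N : ℝ) + 1 := by positivity
        have h6 : C1 * Sf ^ 2 * Gn R X ν B ε Mo N + 100 * C2 ^ 2 * Sf ^ 2 * W ≤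
            (C1 + 100 * C2 ^ 2) * Sf ^ 2 * (Gn R X ν B ε Mo N + W) := by
          have a1 : 0 ≤ 100 * C2 ^ 2 * Sf ^ 2 * Gn R X ν B ε Mo N := by positivity
          have a2 : 0 ≤ C1 * Sf ^ 2 * W := by positivity
          nlinarith
        calc 2 * ((N : ℝ) + 1) * (C1 * Sf ^ 2 * Gn R X ν B ε Mo N + 100 * C2 ^ 2 * Sf ^ 2 * W)
            ≤ 2 * ((N : ℝ) + 1) * ((C1 + 100 * C2 ^ 2) * Sf ^ 2 * (Gn R X ν B ε Mo N + W)) :=
              mul_le_mul_of_nonneg_left h6 (by positivity)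
          _ = _ := by ring

end Crest.Agent.R017.E2440
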