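import Crest.Agent.R017.E2j_440

/-!
# Row 17, block C70, leaf E2, part k (helper440): the direct side and the polar part

* `fL_fA_le` : the weight of the direct side
* `QC_bd` : the bound of the direct side
* `QM_bd` : the bound of the polar part
-/

set_option autoImplicit false
set_option linter.unusedVariables false
set_option linter.unusedSectionVars false

noncomputable section

open Complex MeasureTheory
open scoped ComplexConjugate

namespace Crest.Agent.R017.E2440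

open Crest.Agent.R012 Crest.Agent.R012.Eis Crest.Agent.R012.GaussLoc283
open Crest.Agent.R012.Mob705 hiding pb mem_pb
open Crest.Agent.R012.Div277
open Crest.Agent.R012.LS2 (S mem_S)
open Crest.Agent.R012.Weight600 (osc norm_osc)
open Crest.Agent.R017.Sx545 (Sm sm_one_iff)
open Crest.Agent.R017.PX764 (th Gh n6 cD)
open Crest.Agent.R017.F1
open Crest.Agent.R017.X6C180 (Sg fA WF V1 cM n13 IX dl' om' GF)
open Crest.Agent.R017.X6545 (TF Bd)
open Crest.Agent.R017.X6W180 (TF1 tf1_tf)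
open Crest.Agent.R017.CM106 (sub CS FS)
open Crest.Agent.R017.H1401 (pb mem_pb)

lemma GF_le {F : ℝ → ℂ} {Sf : ℝ} (hS0 : 0 ≤ Sf) (hS : ∀ y, ‖F y‖ ≤ Sf) (x : ℝ) : ‖GF F x‖ ≤ Sf := by
  unfold X6C180.GF
  split_ifs
  · exact hS _
  · rw [norm_zero]; exact hS0

lemma GF_supp {F : ℝ → ℂ} (hF : TF1 F) {x : ℝ} (hx : 5 ≤ x) : GF F x = 0 := by
  unfold X6C180.GF
  rw [if_pos (by linarith), hF.supp]
  have h1 : 3 / 2 < Real.log x := by
    rw [Real.lt_log_iff_exp_lt (by linarith)]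
    have h2 : Real.exp (3 / 2) = Real.exp 1 * Real.exp (1 / 2) := by
      rw [← Real.exp_add]; norm_num
    have h3 := Real.exp_one_lt_d9
    have h4 : Real.exp (1 / 2) ^ 2 = Real.exp 1 := by
      rw [← Real.exp_nat_mul]; norm_num
    have h5 : 0 < Real.exp (1 / 2) := Real.exp_pos _
    have h6 : Real.exp (1 / 2) < 1.8 := by
      by_contra h
      have : (1.8 : ℝ) ^ 2 ≤ Real.exp (1 / 2) ^ 2 := pow_le_pow_left₀ (by norm_num) (not_lt.mp h) 2
      rw [h4] at this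
      norm_num at this h3
      linarith
    have h7 : Real.exp (3 / 2) < 5 := by
      rw [h2]
      calc Real.exp 1 * Real.exp (1 / 2) ≤ 2.72 * 1.8 := by
            refine mul_le_mul (by norm_num at h3 ⊢; linarith) h6.le h5.le (by norm_num)
        _ < 5 := by norm_num
    linarith
  rw [abs_of_pos (by linarith)]
  exact h1

lemma fL_fA_eq {F : ℝ → ℂ} (hF : TF1 F) {A : ℝ} (hA : 0 < A) {d : Eis} (hd : IsPrim d) :
    open Classical in
    fL (fA (GF F) A) (toC d) = ∑' e : Eis, if IsPrim e then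
      (((nm d : ℝ) ^ (-(2 / 3) : ℝ) : ℝ) : ℂ) * GF F ((nm e : ℝ) ^ 3 * nm d / A) else 0 := by
  classical
  rw [fL_eq_prim (X6C180.ev_fA (X6C180.wt_GF (tf1_tf hF)) hA)]
  refine tsum_congr fun e => ?_
  split_ifs with he
  · have hNd : (0 : ℝ) < nm d := by have := one_le_nm hd.ne_zero; linarith
    have hNe : (0 : ℝ) < nm e := by have := one_le_nm he.ne_zero; linarith
    have hne : toC e ^ 3 * toC d ≠ 0 := by
      refine mul_ne_zero (pow_ne_zero 3 ?_) ?_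
      · rw [Ne, toC_eq_zero]; exact he.ne_zero
      · rw [Ne, toC_eq_zero]; exact hd.ne_zero
    rw [X6C180.fA_eq hA hne]
    have e1 : ‖toC e ^ 3 * toC d‖ ^ 2 = (nm e : ℝ) ^ 3 * nm d := by
      rw [norm_mul, norm_pow, mul_pow, ← norm_toC_sq, ← norm_toC_sq]; ring
    rw [e1]
    have e3 : (nm e : ℝ) ^ 2 * ((nm e : ℝ) ^ 3 * nm d) ^ (-(2 / 3) : ℝ) =
        (nm d : ℝ) ^ (-(2 / 3) : ℝ) := by
      rw [Real.mul_rpow (by positivity) hNd.le, ← mul_assoc]
      have e4 : ((nm e : ℝ) ^ 3) ^ (-(2 / 3) : ℝ) = ((nm e : ℝ) ^ 2)⁻¹ := by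
        rw [← Real.rpow_natCast, ← Real.rpow_mul hNe.le, ← Real.rpow_natCast, ← Real.rpow_neg hNe.le]
        norm_num
      rw [e4, mul_inv_cancel₀ (by positivity), one_mul]
    rw [← e3]
    push_cast
    ring
  · rfl

lemma fL_fA_le {F : ℝ → ℂ} (hF : TF1 F) {Sf : ℝ} (hS0 : 0 ≤ Sf) (hS : ∀ y, ‖F y‖ ≤ Sf) {A : ℝ}
    (hA : 0 < A) {d : Eis} (hd : IsPrim d) :
    ‖fL (fA (GF F) A) (toC d)‖ ≤ 500 * Sf * A ^ ((1 : ℝ) / 3) * (nm d : ℝ)⁻¹ ∧
      (5 * A < nm d → fL (fA (GF F) A) (toC d) = 0) := by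
  classical
  have hNd1 := one_le_nm hd.ne_zero
  have hNd : (0 : ℝ) < nm d := by linarith
  rw [fL_fA_eq hF hA hd]
  set Y : ℝ := (5 * A / nm d) ^ ((1 : ℝ) / 3) with hY
  have hY0 : 0 < Y := by rw [hY]; positivity
  have hY3 : Y ^ 3 = 5 * A / nm d := by
    rw [hY, ← Real.rpow_natCast, ← Real.rpow_mul (by positivity)]
    norm_num
  have hz : ∀ e : Eis, IsPrim e → Y < nm e → GF F ((nm e : ℝ) ^ 3 * nm d / A) = 0 := by
    intro e he h
    apply GF_supp hF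
    have h1 : Y ^ 3 ≤ (nm e : ℝ) ^ 3 := pow_le_pow_left₀ hY0.le h.le 3
    rw [hY3, div_le_iff₀ hNd] at h1
    rw [le_div_iff₀ hA]
    exact h1
  constructor
  · rw [tsum_eq_sum (s := primBall ⌊Y⌋₊)]
    · have h1 : ‖∑ e ∈ primBall ⌊Y⌋₊, (if IsPrim e then (((nm d : ℝ) ^ (-(2 / 3) : ℝ) : ℝ) : ℂ) *
          GF F ((nm e : ℝ) ^ 3 * nm d / A) else 0)‖ ≤
          ∑ e ∈ primBall ⌊Y⌋₊, (nm d : ℝ) ^ (-(2 / 3) : ℝ) * Sf := by
        refine (norm_sum_le _ _).trans (Finset.sum_le_sum fun e _ => ?_)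
        split_ifs
        · rw [norm_mul, Complex.norm_real, Real.norm_of_nonneg (by positivity)]
          exact mul_le_mul_of_nonneg_left (GF_le hS0 hS _) (by positivity)
        · rw [norm_zero]; positivity
      refine h1.trans ?_
      rw [Finset.sum_const, nsmul_eq_mul]
      have h2 : ((primBall ⌊Y⌋₊).card : ℝ) ≤ 100 * Y := by
        have h3 : ((primBall ⌊Y⌋₊).card : ℝ) ≤ 100 * ((⌊Y⌋₊ : ℕ) : ℝ) :=
          Lat277.card_primBall_le ⌊Y⌋₊
        have h4 : ((⌊Y⌋₊ : ℕ) : ℝ) ≤ Y := Nat.floor_le hY0.le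
        linarith
      have h5 : Y = (5 : ℝ) ^ ((1 : ℝ) / 3) * (A ^ ((1 : ℝ) / 3) * (nm d : ℝ) ^ (-((1 : ℝ) / 3))) := by
        rw [hY, Real.div_rpow (by positivity) hNd.le, Real.mul_rpow (by norm_num) hA.le,
          Real.rpow_neg hNd.le]
        ring
      have h6 : (5 : ℝ) ^ ((1 : ℝ) / 3) ≤ 5 := by
        calc (5 : ℝ) ^ ((1 : ℝ) / 3) ≤ 5 ^ (1 : ℝ) :=
              Real.rpow_le_rpow_of_exponent_le (by norm_num) (by norm_num)
          _ = 5 := Real.rpow_one _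
      have h7 : (nm d : ℝ) ^ (-((1 : ℝ) / 3)) * (nm d : ℝ) ^ (-(2 / 3) : ℝ) = (nm d : ℝ)⁻¹ := by
        rw [← Real.rpow_add hNd, ← Real.rpow_neg_one]
        norm_num
      calc ((primBall ⌊Y⌋₊).card : ℝ) * ((nm d : ℝ) ^ (-(2 / 3) : ℝ) * Sf)
          ≤ (100 * Y) * ((nm d : ℝ) ^ (-(2 / 3) : ℝ) * Sf) :=
            mul_le_mul_of_nonneg_right h2 (by positivity)
        _ = 100 * (5 : ℝ) ^ ((1 : ℝ) / 3) * Sf * A ^ ((1 : ℝ) / 3) *
              ((nm d : ℝ) ^ (-((1 : ℝ) / 3)) * (nm d : ℝ) ^ (-(2 / 3) : ℝ)) := by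
            rw [h5]; ring
        _ = 100 * (5 : ℝ) ^ ((1 : ℝ) / 3) * Sf * A ^ ((1 : ℝ) / 3) * (nm d : ℝ)⁻¹ := by rw [h7]
        _ ≤ 500 * Sf * A ^ ((1 : ℝ) / 3) * (nm d : ℝ)⁻¹ := by
            have h8 : 100 * (5 : ℝ) ^ ((1 : ℝ) / 3) ≤ 500 := by linarith
            refine mul_le_mul_of_nonneg_right (mul_le_mul_of_nonneg_right
              (mul_le_mul_of_nonneg_right h8 hS0) (by positivity)) (by positivity)
    · intro e he
      split_ifs with h
      · rw [hz e h, mul_zero]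
        by_contra hc
        apply he
        rw [mem_primBall]
        exact ⟨Nat.le_floor (not_lt.mp hc), h⟩
      · rfl
  · intro h
    have hY1 : Y < 1 := by
      have h1 : 5 * A / nm d < 1 := (div_lt_one hNd).mpr h
      rw [hY]
      exact Real.rpow_lt_one (by positivity) h1 (by norm_num)
    have h2 : ∀ e : Eis, (if IsPrim e then (((nm d : ℝ) ^ (-(2 / 3) : ℝ) : ℝ) : ℂ) *
        GF F ((nm e : ℝ) ^ 3 * nm d / A) else 0) = 0 := by
      intro e
      split_ifs with he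
      · rw [hz e he (hY1.trans_le (one_le_nm he.ne_zero)), mul_zero]
      · rfl
    rw [tsum_congr h2, tsum_zero]

lemma cT_one_zero (α : Eis → ℂ) (E B : Eis) {D : Eis} (hD : IsPrim D) :
    cT α E B 1 0 D = α (B * D) * (sy E D * conj (sy D B)) := by
  unfold cT
  rw [syAx.one_left hD, Weight600.osc_zero_left]
  ring

lemma fs_cT {α : Eis → ℂ} (hα : FS α) {B : Eis} (hB : IsPrim B) (E τ : Eis) (t : ℝ) :
    FS (cT α E B τ t) := by
  refine ⟨(hα.sub hB).fin.subset fun D hD h0 => hD ?_, fun D hD => ?_⟩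
  · have h0' : α (B * D) = 0 := h0
    unfold cT
    rw [h0', zero_mul, zero_mul]
  · have h0 : α (B * D) ≠ 0 := fun h => hD (by unfold cT; rw [h, zero_mul, zero_mul])
    exact (hα.prim _ h0).of_mul_left hB

open Classical in
theorem QC_eq {α : Eis → ℂ} {E B σ : Eis} (hB : IsPrim B) {r ν : Eis} (hα : FS α) {F : ℝ → ℂ}
    (hF : TF1 F) {A : ℝ} (hA : 0 < A) {N : ℕ} (hN : 10 * A ≤ 2 ^ N) :
    QB α E B (fun _ D => Cg (σ * r * ν ^ 2 * D) (fL (fA (GF F) A))) =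
      ∑ j ∈ Finset.range N, ∑ d ∈ sh j, fL (fA (GF F) A) (toC d) *
        ∑' D : Eis, cT α E B 1 0 D * conj (gs (σ * r * ν ^ 2 * D) d) := by
  set TD : Finset Eis := (hα.sub hB).fin.toFinset with hTD
  have hTm : ∀ D, D ∈ TD ↔ α (B * D) ≠ 0 := by
    intro D
    rw [hTD, Set.Finite.mem_toFinset, Function.mem_support]
    rfl
  have hTp : ∀ D ∈ TD, IsPrim D := fun D hD => (hα.prim _ ((hTm D).mp hD)).of_mul_left hB
  obtain ⟨Sf, hS0, hBd⟩ := X6W180.exists_Bd hF 0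
  have hS : ∀ y, ‖F y‖ ≤ Sf := fun y => by
    have := hBd 0 le_rfl y
    rwa [iteratedDeriv_zero] at this
  set w : Eis → ℂ := fun d => fL (fA (GF F) A) (toC d) with hw
  have hwz : ∀ d, IsPrim d → 5 * A < nm d → w d = 0 := fun d hd => (fL_fA_le hF hS0 hS hA hd).2
  set g : Eis → ℂ := fun d => w d * ∑' D : Eis, cT α E B 1 0 D *
    conj (gs (σ * r * ν ^ 2 * D) d) with hg
  have hgz : ∀ d, IsPrim d → 5 * A < nm d → g d = 0 := by
    intro d hd h
    simp only [hg]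
    rw [hwz d hd h, zero_mul]
  have hfs : ∀ f : Eis → ℂ, Summable fun d : Eis => if IsPrim d then w d * f d else 0 := by
    intro f
    refine summable_of_ne_finset_zero (s := primBall ⌊5 * A⌋₊) fun d hd => ?_
    split_ifs with h
    · by_cases h2 : 5 * A < nm d
      · rw [hwz d h h2, zero_mul]
      · exfalso
        apply hd
        rw [mem_primBall]
        exact ⟨Nat.le_floor (not_lt.mp h2), h⟩
    · rfl
  have h1 := shells_split (g := g) (hfs _) N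
  have h2 : (∑' d : Eis, if IsPrim d ∧ (2 : ℝ) ^ N / 2 < nm d then g d else 0) = 0 := by
    have : ∀ d : Eis, (if IsPrim d ∧ (2 : ℝ) ^ N / 2 < nm d then g d else 0) = 0 := by
      intro d
      split_ifs with h
      · exact hgz d h.1 (by have := h.2; linarith)
      · rfl
    rw [tsum_congr this, tsum_zero]
  rw [h2, add_zero] at h1
  show _ = ∑ j ∈ Finset.range N, ∑ d ∈ sh j, g d
  rw [← h1]
  unfold QB Cg
  rw [tsum_eq_sum (s := TD)]
  · have e1 : ∀ d : Eis, (if IsPrim d then g d else 0) = ∑ D ∈ TD,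
        α (B * D) * (sy E D * conj (sy D B)) *
          (if IsPrim d then w d * conj (gs (σ * r * ν ^ 2 * D) d) else 0) := by
      intro d
      split_ifs with hd
      · simp only [hg]
        rw [tsum_eq_sum (s := TD), Finset.mul_sum]
        · refine Finset.sum_congr rfl fun D hD => ?_
          rw [cT_one_zero _ _ _ (hTp D hD)]
          ring
        · intro D hD
          rw [hTm, not_not] at hD
          unfold cT
          rw [hD]; ring
      · simp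
    rw [tsum_congr e1, Summable.tsum_finsetSum fun D _ => (hfs _).mul_left _]
    refine Finset.sum_congr rfl fun D _ => ?_
    rw [tsum_mul_left]
    congr 1
    refine tsum_congr fun d => ?_
    split_ifs
    · ring
    · rfl
  · intro D hD
    rw [hTm, not_not] at hD
    rw [hD]; ring

open Classical in
theorem QC_bd {σ : Eis} (hσ : Sg σ) {ε : ℝ} (hε : 0 < ε) (J : ℕ) : ∃ C : ℝ, 0 ≤ C ∧
    ∀ (F : ℝ → ℂ) (Sf : ℝ), TF1 F → Bd F 0 Sf → ∀ R X A : ℝ, 1 ≤ R → 1 ≤ X → 0 < A →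
    ∀ (E ν : Eis) (α : Eis → ℂ), IsPrim ν → Squarefree ν → Cf α ν →
    (∀ n, α n ≠ 0 → X / 2 < nm n ∧ (nm n : ℝ) ≤ X) → ∀ Mo : Eis → ℝ → ℝ, MoH α E σ X J Mo →
    ∀ B ∈ S X, ∀ N : ℕ, 10 * A ≤ 2 ^ N →
    ∑ r ∈ (S R).filter (fun r => IsCoprime r ν ∧ R / 2 < nm r),
      ‖QB α E B (fun _ D => Cg (σ * r * ν ^ 2 * D) (fL (fA (GF F) A)))‖ ^ 2 ≤
      C * Sf ^ 2 * (N + 1) * (A ^ ((2 : ℝ) / 3) * Gn R X ν B ε Mo N) := by
  obtain ⟨C1, hC1, hH1⟩ := H1401.H1 hε
  refine ⟨500 ^ 2 * C1, by positivity, ?_⟩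
  intro F Sf hF hBd R X A hR hX hA E ν α hν hνs hα hαX Mo hMo B hB N hN
  have hSf : 0 ≤ Sf := (norm_nonneg _).trans (hBd 0 le_rfl 0)
  have hS : ∀ y, ‖F y‖ ≤ Sf := fun y => by
    have := hBd 0 le_rfl y
    rwa [iteratedDeriv_zero] at this
  have hX0 : (0 : ℝ) ≤ X := by linarith
  have hR0 : (0 : ℝ) ≤ R := by linarith
  obtain ⟨hBX, hB1, hBs⟩ := (mem_S hX0).mp hB
  have hNν : (1 : ℝ) ≤ nm ν := one_le_nm hν.ne_zero
  set w : Eis → ℂ := fun d => fL (fA (GF F) A) (toC d) with hw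
  set P : ℕ → Eis → ℂ := fun j r => ∑ d ∈ sh j, w d *
    ∑' D : Eis, cT α E B 1 0 D * conj (gs (σ * r * ν ^ 2 * D) d) with hP
  have h1 : ∀ r ∈ (S R).filter (fun r => IsCoprime r ν ∧ R / 2 < nm r),
      ‖QB α E B (fun _ D => Cg (σ * r * ν ^ 2 * D) (fL (fA (GF F) A)))‖ ^ 2 ≤
        (N + 1) * ∑ j ∈ Finset.range N, ‖P j r‖ ^ 2 := by
    intro r hr
    rw [QC_eq hB1 hα.fs hF hA hN]
    have h2 : ‖∑ j ∈ Finset.range N, P j r‖ ≤ ∑ j ∈ Finset.range N, ‖P j r‖ := norm_sum_le _ _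
    have h3 := sq_sum_le_card_mul_sum_sq (s := Finset.range N) (f := fun j => ‖P j r‖)
    rw [Finset.card_range] at h3
    have h4 : 0 ≤ ∑ j ∈ Finset.range N, ‖P j r‖ ^ 2 := Finset.sum_nonneg fun j _ => sq_nonneg _
    calc ‖∑ j ∈ Finset.range N, P j r‖ ^ 2 ≤ (∑ j ∈ Finset.range N, ‖P j r‖) ^ 2 :=
          pow_le_pow_left₀ (norm_nonneg _) h2 2
      _ ≤ N * ∑ j ∈ Finset.range N, ‖P j r‖ ^ 2 := h3
      _ ≤ _ := by nlinarith
  have h5 : ∀ j, ∑ r ∈ (S R).filter (fun r => IsCoprime r ν ∧ R / 2 < nm r), ‖P j r‖ ^ 2 ≤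
      500 ^ 2 * C1 * Sf ^ 2 * (A ^ ((2 : ℝ) / 3) * ((R * 2 ^ j * X * nm ν) ^ ε * nm ν *
        (R + 2 ^ j + (R * 2 ^ j) ^ ((2 : ℝ) / 3)) * (2 / 2 ^ j) * Mo B (2 ^ j))) := by
    intro j
    set Z : ℝ := 2 ^ j with hZdef
    have hZ : 1 ≤ Z := one_le_pow₀ (by norm_num)
    have hMo0 : 0 ≤ Mo B Z := hMo.nonneg hB hZ
    set b : Eis → ℂ := fun d => if Z / 2 < nm d then w d else 0 with hb
    have h6 := hH1 R Z X hR hZ hX σ ν (fun p hpp hp h =>
      (sg_NoP hσ).2 p hpp ⟨hp, isCoprime_one_right⟩ h) hν hνs (cT α E B 1 0) b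
      (fs_cT hα.fs hB1 E 1 0) ?_
    · have h7 : ∑ r ∈ (S R).filter (fun r => IsCoprime r ν ∧ R / 2 < nm r), ‖P j r‖ ^ 2 ≤
          ∑ r ∈ (S R).filter (fun r => IsCoprime r ν), ‖∑ d ∈ pb Z, b d *
            ∑' D : Eis, cT α E B 1 0 D * conj (gs (σ * r * ν ^ 2 * D) d)‖ ^ 2 := by
        have h8 : ∀ r, P j r = ∑ d ∈ pb Z, b d *
            ∑' D : Eis, cT α E B 1 0 D * conj (gs (σ * r * ν ^ 2 * D) d) := by
          intro r
          simp only [hP]
          have e2 : ∑ d ∈ sh j, w d * ∑' D : Eis, cT α E B 1 0 D *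
              conj (gs (σ * r * ν ^ 2 * D) d) = ∑ d ∈ sh j, b d * ∑' D : Eis,
              cT α E B 1 0 D * conj (gs (σ * r * ν ^ 2 * D) d) := by
            refine Finset.sum_congr rfl fun d hd => ?_
            simp only [hb]
            rw [if_pos (mem_sh.mp hd).2]
          rw [e2]
          refine Finset.sum_subset (Finset.filter_subset _ _) fun d hd hd' => ?_
          have h9 : ¬ (Z / 2 < nm d) := fun h => hd' (by
            rw [mem_sh]
            exact ⟨(mem_pb (by linarith)).mp hd, h⟩)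
          simp only [hb]
          rw [if_neg h9, zero_mul]
        rw [Finset.sum_congr rfl fun r _ => by rw [h8 r]]
        refine Finset.sum_le_sum_of_subset_of_nonneg ?_ fun _ _ _ => by positivity
        intro r hr
        rw [Finset.mem_filter] at hr ⊢
        exact ⟨hr.1, hr.2.1⟩
      refine (h7.trans h6).trans ?_
      have h10 : ∑ g₂ ∈ S X, ∑ g₃ ∈ S X, (nm g₂ : ℝ) ^ 2 *
          ∑ d ∈ (pb Z).filter (fun d => g₂ ^ 2 * g₃ ^ 3 ∣ d),
            (nm d : ℝ) * ‖b d‖ ^ 2 * ‖CS (sub (cT α E B 1 0) (g₂ * g₃)) d‖ ^ 2 ≤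
          (500 ^ 2 * Sf ^ 2 * A ^ ((2 : ℝ) / 3) * (2 / Z)) * MoF α E B 1 X 0 Z := by
        unfold MoF
        rw [Finset.mul_sum]
        refine Finset.sum_le_sum fun g₂ _ => ?_
        rw [Finset.mul_sum]
        refine Finset.sum_le_sum fun g₃ _ => ?_
        rw [mul_left_comm]
        refine mul_le_mul_of_nonneg_left ?_ (by positivity)
        rw [Finset.mul_sum]
        refine Finset.sum_le_sum fun d hd => ?_
        refine mul_le_mul_of_nonneg_right ?_ (by positivity)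
        have hd1 := ((mem_pb (by linarith)).mp (Finset.mem_filter.mp hd).1).2
        have hNd : (1 : ℝ) ≤ nm d := one_le_nm hd1.ne_zero
        simp only [hb]
        split_ifs with h
        · have h11 := (fL_fA_le hF hSf hS hA hd1).1
          have h12 : ‖w d‖ ^ 2 ≤ (500 * Sf * A ^ ((1 : ℝ) / 3) * (nm d : ℝ)⁻¹) ^ 2 :=
            pow_le_pow_left₀ (norm_nonneg _) h11 2
          have e5 : (A ^ ((1 : ℝ) / 3)) ^ 2 = A ^ ((2 : ℝ) / 3) := by
            rw [← Real.rpow_natCast, ← Real.rpow_mul hA.le]; norm_num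
          have h13 : (nm d : ℝ)⁻¹ ≤ 2 / Z := by
            rw [inv_le_comm₀ (by positivity) (by positivity), inv_div]
            exact h.le
          calc (nm d : ℝ) * ‖w d‖ ^ 2 ≤ nm d * (500 * Sf * A ^ ((1 : ℝ) / 3) * (nm d : ℝ)⁻¹) ^ 2 :=
                mul_le_mul_of_nonneg_left h12 (by positivity)
            _ = 500 ^ 2 * Sf ^ 2 * (A ^ ((1 : ℝ) / 3)) ^ 2 * (nm d : ℝ)⁻¹ := by field_simp
            _ = 500 ^ 2 * Sf ^ 2 * A ^ ((2 : ℝ) / 3) * (nm d : ℝ)⁻¹ := by rw [e5]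
            _ ≤ _ := mul_le_mul_of_nonneg_left h13 (by positivity)
        · rw [norm_zero]
          have : (0 : ℝ) ≤ 500 ^ 2 * Sf ^ 2 * A ^ ((2 : ℝ) / 3) * (2 / Z) := by positivity
          simpa using this
      have h14 : MoF α E B 1 X 0 Z ≤ Mo B Z := by
        have := hMo B hB none 0 Z hZ
        rw [abs_zero, add_zero, one_pow, one_mul] at this
        exact this
      calc _ ≤ C1 * (R * Z * X * nm ν) ^ ε * nm ν * (R + Z + (R * Z) ^ ((2 : ℝ) / 3)) *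
            ((500 ^ 2 * Sf ^ 2 * A ^ ((2 : ℝ) / 3) * (2 / Z)) * MoF α E B 1 X 0 Z) :=
            mul_le_mul_of_nonneg_left h10 (by positivity)
        _ ≤ C1 * (R * Z * X * nm ν) ^ ε * nm ν * (R + Z + (R * Z) ^ ((2 : ℝ) / 3)) *
            ((500 ^ 2 * Sf ^ 2 * A ^ ((2 : ℝ) / 3) * (2 / Z)) * Mo B Z) := by
            refine mul_le_mul_of_nonneg_left ?_ (by positivity)
            exact mul_le_mul_of_nonneg_left h14 (by positivity)
        _ = _ := by ring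
    · intro D hD
      have h0 : α (B * D) ≠ 0 := fun h => hD (by unfold cT; rw [h, zero_mul, zero_mul])
      have hND : nm D ≤ nm (B * D) := nm_le_of_dvd (hα.fs.prim _ h0).ne_zero (dvd_mul_left _ _)
      have hND' : (nm D : ℝ) ≤ nm (B * D) := by exact_mod_cast hND
      exact ⟨(hα.sqf _ h0).of_mul_right, hND'.trans (hαX _ h0).2, (hα.cop _ h0).of_mul_left_right⟩
  refine (Finset.sum_le_sum h1).trans ?_
  rw [← Finset.mul_sum, Finset.sum_comm]
  have h15 : ∑ j ∈ Finset.range N,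
      ∑ r ∈ (S R).filter (fun r => IsCoprime r ν ∧ R / 2 < nm r), ‖P j r‖ ^ 2 ≤
      500 ^ 2 * C1 * Sf ^ 2 * (A ^ ((2 : ℝ) / 3) * Gn R X ν B ε Mo N) := by
    unfold Gn
    rw [Finset.mul_sum, Finset.mul_sum]
    exact Finset.sum_le_sum fun j _ => h5 j
  calc ((N : ℝ) + 1) * _ ≤ (N + 1) * (500 ^ 2 * C1 * Sf ^ 2 * (A ^ ((2 : ℝ) / 3) *
        Gn R X ν B ε Mo N)) := mul_le_mul_of_nonneg_left h15 (by positivity)
    _ = _ := by ring

end Crest.Agent.R017.E2440
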