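import Crest.Agent.R017.E2k_440

/-!
# Row 17, block C70, leaf E2, part l (helper440): E2core

`E2core` : `Σ_{r ∈ S R, nm r > R/2, (r,ν)=1} ‖VV - Mn‖²` is bounded by the moments `Mo`, `Mt`.
-/

set_option autoImplicit false
set_option linter.unusedVariables false
set_option linter.unusedSectionVars false

noncomputable section

open Complex MeasureTheory
open scoped ComplexConjugate

namespace Crest.Agent.R017.E2440

open Crest.Agent.R012 Crest.Agent.R012.Eis Crest.Agent.R012.GaussLoc283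
open Crest.Agent.R012.Mob705 hiding pb mem_pb
open Crest.Agent.R012.Div277
open Crest.Agent.R012.LS2 (S mem_S)
open Crest.Agent.R012.Weight600 (osc norm_osc)
open Crest.Agent.R017.Sx545 (Sm sm_one_iff)
open Crest.Agent.R017.PX764 (th Gh n6 cD)
open Crest.Agent.R017.F1
open Crest.Agent.R017.X6C180 (Sg fA WF V1 cM n13 IX dl' om' GF)
open Crest.Agent.R017.X6545 (TF Bd)
open Crest.Agent.R017.X6W180 (TF1 tf1_tf)
open Crest.Agent.R017.CM106 (sub CS FS)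
open Crest.Agent.R017.H1401 (pb mem_pb)

/-- the polar inner sum -/
def MT (α : Eis → ℂ) (E B σ r : Eis) : ℂ :=
  ∑' D : Eis, α (B * D) * (sy E D * conj (sy D B)) * ((n6 D : ℂ) * Gh (σ * r) D)

lemma QM_bd {σ : Eis} (hσ : Sg σ) : ∃ (k : ℕ) (C : ℝ), 0 ≤ C ∧
    ∀ (F : ℝ → ℂ) (Sf : ℝ), TF1 F → Bd F k Sf → ∀ A : ℝ, 0 < A →
    ∀ (E B ν r : Eis) (α : Eis → ℂ), IsPrim B → IsPrim ν → Squarefree ν → Cf α ν → IsPrim r →
    Squarefree r → IsCoprime r ν →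
    ‖QB α E B (fun _ D => (kP : ℂ) * conj (PX764.rho (σ * r * ν ^ 2 * D)) *
      mB (fA (GF F) A))‖ ≤ if ν = 1 then
        C * Sf * A ^ ((2 : ℝ) / 3) * (‖th (σ * r)‖ * ‖MT α E B σ r‖) else 0 := by
  obtain ⟨k, C, hC0, hC⟩ := X6B848.XB (s := -(4 / 3)) (by norm_num) 0
  refine ⟨k, kP * C * PX764.cD, by
    have := kP_pos; have := PX764.cD_pos; positivity, ?_⟩
  intro F Sf hF hBd A hA E B ν r α hB hν hνs hα hr hrs hrν
  split_ifs with h1
  · subst h1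
    have hSf : 0 ≤ Sf := (norm_nonneg _).trans (hBd 0 (Nat.zero_le _) 0)
    have hm : ‖mB (fA (GF F) A)‖ ≤ A ^ ((2 : ℝ) / 3) * (C * Sf) := by
      rw [X6C180.mB_fA (X6C180.wt_GF (tf1_tf hF)) hA, norm_mul, Complex.norm_real,
        Real.norm_of_nonneg (by positivity), X6C180.rV_V1_GF (tf1_tf hF)]
      exact mul_le_mul_of_nonneg_left (hC F Sf (tf1_tf hF) hBd).2.1 (by positivity)
    have e1 : QB α E B (fun _ D => (kP : ℂ) * conj (PX764.rho (σ * r * 1 ^ 2 * D)) *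
        mB (fA (GF F) A)) = ((kP : ℂ) * mB (fA (GF F) A) * (cD : ℂ) * conj (th (σ * r))) *
          MT α E B σ r := by
      unfold QB MT
      rw [← tsum_mul_left]
      refine tsum_congr fun D => ?_
      by_cases h0 : α (B * D) = 0
      · rw [h0]; ring
      · have hD : IsPrim D := (hα.fs.prim _ h0).of_mul_left hB
        have hDs : Squarefree D := (hα.sqf _ h0).of_mul_right
        beta_reduce
        rw [one_pow, mul_one, conj_rho_mul hD hDs hσ hr hrs]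
        ring
    rw [e1, norm_mul, norm_mul, norm_mul, norm_mul, RCLike.norm_conj, Complex.norm_real,
      Complex.norm_real, Real.norm_of_nonneg kP_pos.le, Real.norm_of_nonneg PX764.cD_pos.le]
    have hkP := kP_pos
    have hcD := PX764.cD_pos
    calc kP * ‖mB (fA (GF F) A)‖ * PX764.cD * ‖th (σ * r)‖ * ‖MT α E B σ r‖
        ≤ kP * (A ^ ((2 : ℝ) / 3) * (C * Sf)) * PX764.cD * ‖th (σ * r)‖ * ‖MT α E B σ r‖ := by
          gcongr
      _ = _ := by ring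
  · have e1 : QB α E B (fun _ D => (kP : ℂ) * conj (PX764.rho (σ * r * ν ^ 2 * D)) *
        mB (fA (GF F) A)) = 0 := by
      unfold QB
      have : ∀ D : Eis, α (B * D) * (sy E D * conj (sy D B)) *
          ((kP : ℂ) * conj (PX764.rho (σ * r * ν ^ 2 * D)) * mB (fA (GF F) A)) = 0 := by
        intro D
        by_cases h0 : α (B * D) = 0
        · rw [h0]; ring
        · rw [rho_nu hσ hν h1 hνs hrν (hα.cop _ h0).of_mul_left_right, map_zero]; ring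
      rw [tsum_congr this, tsum_zero]
    rw [e1, norm_zero]

lemma QB_sub {α : Eis → ℂ} {E B : Eis} (hα : FS α) (hB : IsPrim B) (H H' : Eis → Eis → ℂ) :
    QB α E B (fun B D => H B D - H' B D) = QB α E B H - QB α E B H' := by
  unfold QB
  have hs : ∀ f : Eis → ℂ, Summable fun D => α (B * D) * (sy E D * conj (sy D B)) * f D := by
    intro f
    have h := (hα.sub hB).summable (fun D => (sy E D * conj (sy D B)) * f D)
    refine h.congr fun D => ?_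
    unfold CM106.sub
    ring
  rw [← (hs _).tsum_sub (hs _)]
  refine tsum_congr fun D => ?_
  ring

lemma norm_th_sq_le {σ r : Eis} (hσ : Sg σ) (hr : IsPrim r) (hrs : Squarefree r) {R : ℝ}
    (hR : 0 < R) (h : R / 2 < nm r) :
    ‖th (σ * r)‖ ^ 2 ≤ 2 * ‖th σ‖ ^ 2 * R ^ (-(1 : ℝ) / 3) := by
  have h1 := X6C180.norm_th_su hσ.SM hr hrs
  rw [Complex.mul_conj, Complex.normSq_eq_norm_sq] at h1
  have h2 : ‖th (σ * r)‖ ^ 2 = ‖th σ‖ ^ 2 * n13 r := by exact_mod_cast h1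
  rw [h2]
  have h3 : n13 r ≤ 2 * R ^ (-(1 : ℝ) / 3) := by
    unfold X6C180.n13
    calc (nm r : ℝ) ^ (-(1 : ℝ) / 3) ≤ (R / 2) ^ (-(1 : ℝ) / 3) :=
          Real.rpow_le_rpow_of_nonpos (by linarith) h.le (by norm_num)
      _ = R ^ (-(1 : ℝ) / 3) * 2 ^ ((1 : ℝ) / 3) := by
          rw [Real.div_rpow hR.le (by norm_num), div_eq_mul_inv, ← Real.rpow_neg (by norm_num)]
          norm_num
      _ ≤ R ^ (-(1 : ℝ) / 3) * 2 := by
          refine mul_le_mul_of_nonneg_left ?_ (by positivity)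
          calc (2 : ℝ) ^ ((1 : ℝ) / 3) ≤ 2 ^ (1 : ℝ) :=
                Real.rpow_le_rpow_of_exponent_le (by norm_num) (by norm_num)
            _ = 2 := Real.rpow_one _
      _ = _ := by ring
  calc ‖th σ‖ ^ 2 * n13 r ≤ ‖th σ‖ ^ 2 * (2 * R ^ (-(1 : ℝ) / 3)) :=
        mul_le_mul_of_nonneg_left h3 (by positivity)
    _ = _ := by ring

lemma sum_inv_S {X : ℝ} (hX : 1 ≤ X) : ∑ B ∈ S X, (1 / (nm B : ℝ)) ≤ 100 * (1 + Real.log X) := by
  classical
  have h1 := Div277.sum_inv_nz_le ⌊X⌋₊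
  have h2 : ∑ B ∈ S X, (1 / (nm B : ℝ)) ≤ ∑ x ∈ Div277.nz ⌊X⌋₊, (1 / (nm x : ℝ)) := by
    refine Finset.sum_le_sum_of_subset_of_nonneg (fun B hB => ?_) fun _ _ _ => by positivity
    have hB' := (mem_S (by linarith)).mp hB
    rw [Div277.mem_nz]
    exact ⟨hB'.2.1.ne_zero, Nat.le_floor hB'.1⟩
  have h3 : Real.log (⌊X⌋₊ : ℝ) ≤ Real.log X := by
    apply Real.log_le_log
    · exact_mod_cast Nat.floor_pos.mpr hX
    · exact Nat.floor_le (by linarith)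
  linarith

/-- weighted Cauchy for the sum over `B` -/
lemma cauchy_B {X : ℝ} (hX : 1 ≤ X) (q : Eis → ℝ) (hq : ∀ B ∈ S X, 0 ≤ q B) :
    (∑ B ∈ S X, (nm B : ℝ) ^ ((1 : ℝ) / 6) * q B) ^ 2 ≤
      100 * (1 + Real.log X) * ∑ B ∈ S X, (nm B : ℝ) ^ ((4 : ℝ) / 3) * q B ^ 2 := by
  have hN : ∀ B ∈ S X, (1 : ℝ) ≤ nm B := fun B hB =>
    one_le_nm ((mem_S (by linarith)).mp hB).2.1.ne_zero
  have h1 := Finset.sum_mul_sq_le_sq_mul_sq (S X) (fun B => (nm B : ℝ) ^ (-(1 : ℝ) / 2))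
    (fun B => (nm B : ℝ) ^ ((2 : ℝ) / 3) * q B)
  have e1 : ∑ B ∈ S X, (nm B : ℝ) ^ (-(1 : ℝ) / 2) * ((nm B : ℝ) ^ ((2 : ℝ) / 3) * q B) =
      ∑ B ∈ S X, (nm B : ℝ) ^ ((1 : ℝ) / 6) * q B := by
    refine Finset.sum_congr rfl fun B hB => ?_
    have hB0 : (0 : ℝ) < nm B := by have := hN B hB; linarith
    rw [← mul_assoc, ← Real.rpow_add hB0]
    norm_num
  have e2 : ∑ B ∈ S X, ((nm B : ℝ) ^ (-(1 : ℝ) / 2)) ^ 2 = ∑ B ∈ S X, (1 / (nm B : ℝ)) := by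
    refine Finset.sum_congr rfl fun B hB => ?_
    have hB0 : (0 : ℝ) < nm B := by have := hN B hB; linarith
    rw [← Real.rpow_natCast, ← Real.rpow_mul hB0.le, one_div, ← Real.rpow_neg_one]
    norm_num
  have e3 : ∑ B ∈ S X, ((nm B : ℝ) ^ ((2 : ℝ) / 3) * q B) ^ 2 =
      ∑ B ∈ S X, (nm B : ℝ) ^ ((4 : ℝ) / 3) * q B ^ 2 := by
    refine Finset.sum_congr rfl fun B hB => ?_
    have hB0 : (0 : ℝ) < nm B := by have := hN B hB; linarith
    rw [mul_pow, ← Real.rpow_natCast ((nm B : ℝ) ^ ((2 : ℝ) / 3)), ← Real.rpow_mul hB0.le]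
    norm_num
  rw [e1, e2, e3] at h1
  refine h1.trans (mul_le_mul_of_nonneg_right (sum_inv_S hX) ?_)
  exact Finset.sum_nonneg fun B _ => by positivity

lemma fin_ar {c0 R13 A23 A43 X tl G Q δ a b s N L : ℝ} (hc : 0 ≤ c0) (hR : 0 ≤ R13)
    (hA : 0 ≤ A23) (hA' : 0 ≤ A43) (hX : 0 ≤ X) (htl : 0 ≤ tl) (hG : 0 ≤ G) (hQ : 0 ≤ Q)
    (hδ : 0 ≤ δ) (ha : 0 ≤ a) (hb : 0 ≤ b) (hs : 0 ≤ s) (hN : 0 ≤ N) (hL : 0 ≤ L) :
    c0 * R13 * (100 * (1 + L)) * (s * (N + 1) * (a * A23 * (G + 100 * X * tl) +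
      b * (c0 * R13) * δ * A43 * Q)) ≤
    c0 * 100 * 100 * (a + b * c0) * s * (N + 1) * (1 + L) *
      (R13 * A23 * G + δ * (R13 * R13 * A43 * Q) + R13 * A23 * (X * tl)) := by
  have e1 : c0 * R13 * (100 * (1 + L)) * (s * (N + 1) * (a * A23 * (G + 100 * X * tl) +
      b * (c0 * R13) * δ * A43 * Q)) = c0 * 100 * s * (N + 1) * (1 + L) *
        (a * (R13 * A23 * G) + 100 * a * (R13 * A23 * (X * tl)) +
          b * c0 * (δ * (R13 * R13 * A43 * Q))) := by ring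
  rw [e1]
  set u1 : ℝ := R13 * A23 * G
  set u2 : ℝ := δ * (R13 * R13 * A43 * Q)
  set u3 : ℝ := R13 * A23 * (X * tl)
  have hu1 : 0 ≤ u1 := by positivity
  have hu2 : 0 ≤ u2 := by positivity
  have hu3 : 0 ≤ u3 := by positivity
  have hb' : 0 ≤ b * c0 := by positivity
  have h9 : a * u1 + 100 * a * u3 + b * c0 * u2 ≤ 100 * (a + b * c0) * (u1 + u2 + u3) := by
    have b1 := mul_nonneg ha hu1
    have b2 := mul_nonneg ha hu2
    have b3 := mul_nonneg ha hu3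
    have b4 := mul_nonneg hb' hu1
    have b5 := mul_nonneg hb' hu2
    have b6 := mul_nonneg hb' hu3
    nlinarith
  calc c0 * 100 * s * (N + 1) * (1 + L) * (a * u1 + 100 * a * u3 + b * c0 * u2)
      ≤ c0 * 100 * s * (N + 1) * (1 + L) * (100 * (a + b * c0) * (u1 + u2 + u3)) :=
        mul_le_mul_of_nonneg_left h9 (by positivity)
    _ = _ := by ring

set_option maxHeartbeats 2000000 in
open Classical in
/-- **E2core** -/
theorem E2core {σ : Eis} (hσ : Sg σ) {ε : ℝ} (hε : 0 < ε) (J M : ℕ) : ∃ (k : ℕ) (C : ℝ), 0 ≤ C ∧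
    ∀ (F : ℝ → ℂ) (Sf : ℝ), TF1 F → Bd F k Sf → ∀ R X A T B0 : ℝ, 1 ≤ R → 1 ≤ X → 0 < A → 1 ≤ T →
    ∀ (E ν : Eis) (α : Eis → ℂ), E ≠ 0 → IsPrim ν → Squarefree ν → Cf α ν →
    (∀ n, α n ≠ 0 → X / 2 < nm n ∧ (nm n : ℝ) ≤ X) →
    ∀ (Mo : Eis → ℝ → ℝ) (Mt : Eis → ℝ), MoH α E σ X J Mo →
    (∀ B ∈ S X, B0 < nm B → ∑ r ∈ (S R).filter (fun r => IsCoprime r ν ∧ R / 2 < nm r),
      ‖MT α E B σ r‖ ^ 2 ≤ Mt B) →
    ∀ (N : Eis → ℕ) (N0 : ℕ), (∀ B ∈ S X, N B ≤ N0) →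
    (∀ B ∈ S X, (nm B : ℝ) ≤ B0 → 2 * T * (R * (nm ν : ℝ) ^ 2 * (X / nm B)) ≤
      A / (nm B : ℝ) ^ 2 * 2 ^ N B) →
    (∀ B ∈ S X, B0 < nm B → 10 * (A / (nm B : ℝ) ^ 2) ≤ 2 ^ N B) →
    ∑ r ∈ (S R).filter (fun r => IsCoprime r ν ∧ R / 2 < nm r),
      ‖VV α σ E r ν (GF F) A - Mn α σ E r ν (GF F) A‖ ^ 2 ≤
      C * Sf ^ 2 * (N0 + 1) * (1 + Real.log X) *
        (R ^ (-(1 : ℝ) / 3) * A ^ ((2 : ℝ) / 3) * ∑ B ∈ S X, Gn R X ν B ε Mo (N B) +
          (if ν = 1 then R ^ (-(2 : ℝ) / 3) * A ^ ((4 : ℝ) / 3) *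
            ∑ B ∈ (S X).filter (fun B => B0 < nm B), (nm B : ℝ) ^ (-(4 : ℝ) / 3) * Mt B else 0) +
          R ^ (-(1 : ℝ) / 3) * A ^ ((2 : ℝ) / 3) * (X * R * (L1 α X *
            (R * (nm ν : ℝ) ^ 2 * X ^ 2 / A) ^ 2 * (T ^ M)⁻¹) ^ 2)) := by
  obtain ⟨k1, C1, hC1, hYT⟩ := YT_bd hσ hε J M
  obtain ⟨C2, hC2, hQC⟩ := QC_bd hσ hε J
  obtain ⟨k3, C3, hC3, hQM⟩ := QM_bd hσ
  set I : ℝ := (Fintype.card (IX σ) : ℝ) with hI
  have hI0 : 0 ≤ I := Nat.cast_nonneg _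
  set c0 : ℝ := 2 * ‖th σ‖ ^ 2 with hc0
  have hc00 : 0 ≤ c0 := by positivity
  refine ⟨k1 + k3, c0 * 100 * 100 * (I ^ 2 * C1 + 2 * C2 + 2 * C3 ^ 2 * c0), by positivity, ?_⟩
  intro F Sf hF hBd R X A T B0 hR hX hA hT E ν α hE hν hνs hα hαX Mo Mt hMo hMt N N0 hNN hN1 hN2
  have hSf : 0 ≤ Sf := (norm_nonneg _).trans (hBd 0 (Nat.zero_le _) 0)
  have hBd1 : Bd F k1 Sf := fun n hn y => hBd n (by omega) y
  have hBd3 : Bd F k3 Sf := fun n hn y => hBd n (by omega) y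
  have hBd0 : Bd F 0 Sf := fun n hn y => hBd n (by omega) y
  have hX0 : (0 : ℝ) ≤ X := by linarith
  have hR0 : (0 : ℝ) ≤ R := by linarith
  have hRp : (0 : ℝ) < R := by linarith
  have hNν : (1 : ℝ) ≤ nm ν := one_le_nm hν.ne_zero
  have hL := L1_nonneg α X
  set Rs := (S R).filter (fun r => IsCoprime r ν ∧ R / 2 < nm r) with hRs
  have hmem : ∀ r ∈ Rs, IsPrim r ∧ Squarefree r ∧ (nm r : ℝ) ≤ R ∧ IsCoprime r ν ∧ R / 2 < nm r := by
    intro r hr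
    rw [hRs, Finset.mem_filter, mem_S hR0] at hr
    exact ⟨hr.1.2.1, hr.1.2.2, hr.1.1, hr.2.1, hr.2.2⟩
  have hBm : ∀ B ∈ S X, IsPrim B ∧ Squarefree B ∧ (1 : ℝ) ≤ nm B ∧ (nm B : ℝ) ≤ X := by
    intro B hB
    obtain ⟨h1, h2, h3⟩ := (mem_S hX0).mp hB
    exact ⟨h2, h3, one_le_nm h2.ne_zero, h1⟩
  have hWt : M49.Wt (GF F) := X6C180.wt_GF (tf1_tf hF)
  set q : Eis → Eis → ℝ := fun r B => ‖QB α E B (HR σ r ν (GF F) A B0)‖ with hq
  set AB : Eis → ℝ := fun B => A / (nm B : ℝ) ^ 2 with hAB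
  have hABp : ∀ B ∈ S X, 0 < AB B := fun B hB => by
    have := (hBm B hB).2.2.1
    simp only [hAB]; positivity
  set tl : ℝ := R * (L1 α X * (R * (nm ν : ℝ) ^ 2 * X ^ 2 / A) ^ 2 * (T ^ M)⁻¹) ^ 2 with htl
  have htl0 : 0 ≤ tl := by rw [htl]; positivity
  have hlog : 0 ≤ Real.log X := Real.log_nonneg hX
  have hGn : ∀ B ∈ S X, 0 ≤ Gn R X ν B ε Mo (N B) := by
    intro B hB
    unfold Gn
    refine Finset.sum_nonneg fun j _ => ?_
    have hZ : (1 : ℝ) ≤ 2 ^ j := one_le_pow₀ (by norm_num)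
    have hMo0 : 0 ≤ Mo B (2 ^ j) := hMo.nonneg hB hZ
    positivity
  have hMt0 : ∀ B ∈ S X, B0 < nm B → 0 ≤ Mt B := fun B hB h =>
    (Finset.sum_nonneg fun _ _ => by positivity).trans (hMt B hB h)
  set th2 : ℝ := c0 * R ^ (-(1 : ℝ) / 3) with hth2
  have hth20 : 0 ≤ th2 := by positivity
  have hthr : ∀ r ∈ Rs, ‖th (σ * r)‖ ^ 2 ≤ th2 := by
    intro r hr
    obtain ⟨h1, h2, h3, h4, h5⟩ := hmem r hr
    exact norm_th_sq_le hσ h1 h2 hRp h5
  -- step 1 : one `r`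
  have step1 : ∀ r ∈ Rs, ‖VV α σ E r ν (GF F) A - Mn α σ E r ν (GF F) A‖ ^ 2 ≤
      th2 * (100 * (1 + Real.log X) * ∑ B ∈ S X, (nm B : ℝ) ^ ((4 : ℝ) / 3) * q r B ^ 2) := by
    intro r hr
    obtain ⟨h1, h2, h3, h4, h5⟩ := hmem r hr
    rw [VV_split hσ hE h1 h2 hν hνs h4 hα hWt hA B0, add_sub_cancel_left, norm_mul, mul_pow]
    refine mul_le_mul (hthr r hr) ?_ (by positivity) hth20
    refine le_trans ?_ (cauchy_B hX (q r) fun B _ => norm_nonneg _)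
    exact pow_le_pow_left₀ (norm_nonneg _)
      (PF_le hX0 hα.fs hα.sqf (fun n hn => (hαX n hn).2) _) 2
  -- step 2 : one `B`
  set δν : ℝ := if ν = 1 then 1 else 0 with hδν
  have hδν0 : 0 ≤ δν := by rw [hδν]; split_ifs <;> norm_num
  have step2 : ∀ B ∈ S X, ∑ r ∈ Rs, q r B ^ 2 ≤
      Sf ^ 2 * (N0 + 1) * ((I ^ 2 * C1 + 2 * C2) * (AB B ^ ((2 : ℝ) / 3) *
        (Gn R X ν B ε Mo (N B) + tl)) +
        (if B0 < nm B then 2 * C3 ^ 2 * th2 * δν * AB B ^ ((4 : ℝ) / 3) * Mt B else 0)) := by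
    intro B hB
    obtain ⟨hB1, hBs, hNB, hBX⟩ := hBm B hB
    have hAp := hABp B hB
    have hGB := hGn B hB
    have hNB0 : ((N B : ℕ) : ℝ) ≤ N0 := by exact_mod_cast hNN B hB
    have hA23 : (0 : ℝ) ≤ AB B ^ ((2 : ℝ) / 3) := by positivity
    by_cases hcase : (nm B : ℝ) ≤ B0
    · -- dual side
      rw [if_neg (not_lt.mpr hcase), add_zero]
      have h1 : ∀ r ∈ Rs, q r B ^ 2 ≤ AB B ^ ((2 : ℝ) / 3) * (I * ∑ i : IX σ,
          ‖YT α E B σ i r ν F (AB B)‖ ^ 2) := by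
        intro r hr
        obtain ⟨hr1, hrs, hrR, hrν, hr2⟩ := hmem r hr
        have e1 : QB α E B (HR σ r ν (GF F) A B0) =
            QB α E B (fun _ D => Du (σ * r * ν ^ 2 * D) (Wf (fA (GF F) (AB B)))) := by
          unfold QB
          refine tsum_congr fun D => ?_
          unfold HR
          rw [if_pos hcase]
        simp only [hq]
        rw [e1, QB_Du hσ hB1 hr1 hν hα.fs hF hAp, norm_mul, mul_pow, Complex.norm_real,
          Real.norm_of_nonneg (by positivity)]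
        have e2 : (AB B ^ (1 / 3 : ℝ)) ^ 2 = AB B ^ ((2 : ℝ) / 3) := by
          rw [← Real.rpow_natCast, ← Real.rpow_mul hAp.le]; norm_num
        rw [e2]
        refine mul_le_mul_of_nonneg_left ?_ hA23
        have h2 : ‖∑ i : IX σ, sy (dl' σ i) (r * ν ^ 2) * YT α E B σ i r ν F (AB B)‖ ≤
            ∑ i : IX σ, ‖YT α E B σ i r ν F (AB B)‖ := by
          refine (norm_sum_le _ _).trans (Finset.sum_le_sum fun i _ => ?_)
          rw [norm_mul]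
          exact mul_le_of_le_one_left (norm_nonneg _) (norm_sy_le1 (hr1.mul (hν.pow 2)))
        have h3 := sq_sum_le_card_mul_sum_sq (s := (Finset.univ : Finset (IX σ)))
          (f := fun i => ‖YT α E B σ i r ν F (AB B)‖)
        rw [Finset.card_univ] at h3
        exact (pow_le_pow_left₀ (norm_nonneg _) h2 2).trans h3
      have h4 : ∀ i : IX σ, ∑ r ∈ Rs, ‖YT α E B σ i r ν F (AB B)‖ ^ 2 ≤
          C1 * Sf ^ 2 * (N0 + 1) * (Gn R X ν B ε Mo (N B) + tl) := by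
        intro i
        refine (hYT F Sf hF hBd1 R X (AB B) T hR hX hAp hT E ν α hν hνs hα hαX Mo hMo B hB i (N B)
          (hN1 B hB hcase)).trans ?_
        have h5 : R * (L1 α X * (R * (nm ν : ℝ) ^ 2 * (X / nm B) / AB B) ^ 2 * (T ^ M)⁻¹) ^ 2 ≤
            tl := by
          rw [htl]
          refine mul_le_mul_of_nonneg_left ?_ hR0
          refine pow_le_pow_left₀ (by positivity) ?_ 2
          refine mul_le_mul_of_nonneg_right ?_ (by positivity)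
          refine mul_le_mul_of_nonneg_left ?_ hL
          refine pow_le_pow_left₀ (by positivity) ?_ 2
          simp only [hAB]
          have e3 : R * (nm ν : ℝ) ^ 2 * (X / nm B) / (A / (nm B : ℝ) ^ 2) =
              R * (nm ν : ℝ) ^ 2 * (X * nm B) / A := by field_simp
          rw [e3]
          refine div_le_div_of_nonneg_right ?_ hA.le
          refine mul_le_mul_of_nonneg_left ?_ (by positivity)
          nlinarith
        refine mul_le_mul (mul_le_mul_of_nonneg_left (by linarith) (by positivity))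
          (add_le_add le_rfl h5) (by positivity) (by positivity)
      calc ∑ r ∈ Rs, q r B ^ 2 ≤ ∑ r ∈ Rs, AB B ^ ((2 : ℝ) / 3) * (I * ∑ i : IX σ,
            ‖YT α E B σ i r ν F (AB B)‖ ^ 2) := Finset.sum_le_sum h1
        _ = AB B ^ ((2 : ℝ) / 3) * (I * ∑ i : IX σ, ∑ r ∈ Rs,
              ‖YT α E B σ i r ν F (AB B)‖ ^ 2) := by
            rw [← Finset.mul_sum, ← Finset.mul_sum, Finset.sum_comm]
        _ ≤ AB B ^ ((2 : ℝ) / 3) * (I * ∑ i : IX σ, C1 * Sf ^ 2 * (N0 + 1) *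
              (Gn R X ν B ε Mo (N B) + tl)) := by
            refine mul_le_mul_of_nonneg_left ?_ hA23
            refine mul_le_mul_of_nonneg_left ?_ hI0
            exact Finset.sum_le_sum fun i _ => h4 i
        _ = Sf ^ 2 * (N0 + 1) * (I ^ 2 * C1 * (AB B ^ ((2 : ℝ) / 3) *
              (Gn R X ν B ε Mo (N B) + tl))) := by
            rw [Finset.sum_const, Finset.card_univ, nsmul_eq_mul]; ring
        _ ≤ _ := by
            refine mul_le_mul_of_nonneg_left ?_ (by positivity)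
            refine mul_le_mul_of_nonneg_right (by linarith) (by positivity)
    · -- direct side
      have hcase' : B0 < nm B := not_le.mp hcase
      rw [if_pos hcase']
      have h1 : ∀ r ∈ Rs, q r B ^ 2 ≤
          2 * ‖QB α E B (fun _ D => Cg (σ * r * ν ^ 2 * D) (fL (fA (GF F) (AB B))))‖ ^ 2 +
          2 * C3 ^ 2 * th2 * δν * (Sf ^ 2 * AB B ^ ((4 : ℝ) / 3)) * ‖MT α E B σ r‖ ^ 2 := by
        intro r hr
        obtain ⟨hr1, hrs, hrR, hrν, hr2⟩ := hmem r hr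
        have e1 : QB α E B (HR σ r ν (GF F) A B0) =
            QB α E B (fun _ D => Cg (σ * r * ν ^ 2 * D) (fL (fA (GF F) (AB B)))) -
            QB α E B (fun _ D => (kP : ℂ) * conj (PX764.rho (σ * r * ν ^ 2 * D)) *
              mB (fA (GF F) (AB B))) := by
          rw [← QB_sub hα.fs hB1]
          unfold QB
          refine tsum_congr fun D => ?_
          unfold HR
          rw [if_neg hcase]
        simp only [hq]
        rw [e1]
        have h2 := hQM F Sf hF hBd3 (AB B) hAp E B ν r α hB1 hν hνs hα hr1 hrs hrν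
        have h3 : ‖QB α E B (fun _ D => (kP : ℂ) * conj (PX764.rho (σ * r * ν ^ 2 * D)) *
              mB (fA (GF F) (AB B)))‖ ^ 2 ≤
            C3 ^ 2 * th2 * δν * (Sf ^ 2 * AB B ^ ((4 : ℝ) / 3)) * ‖MT α E B σ r‖ ^ 2 := by
          have h4 := pow_le_pow_left₀ (norm_nonneg _) h2 2
          refine h4.trans ?_
          rw [hδν]
          split_ifs with hν1
          · have e2 : (AB B ^ ((2 : ℝ) / 3)) ^ 2 = AB B ^ ((4 : ℝ) / 3) := by
              rw [← Real.rpow_natCast, ← Real.rpow_mul hAp.le]; norm_num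
            calc (C3 * Sf * AB B ^ ((2 : ℝ) / 3) * (‖th (σ * r)‖ * ‖MT α E B σ r‖)) ^ 2
                = C3 ^ 2 * ‖th (σ * r)‖ ^ 2 * (Sf ^ 2 * (AB B ^ ((2 : ℝ) / 3)) ^ 2) *
                  ‖MT α E B σ r‖ ^ 2 := by ring
              _ = C3 ^ 2 * ‖th (σ * r)‖ ^ 2 * (Sf ^ 2 * AB B ^ ((4 : ℝ) / 3)) *
                  ‖MT α E B σ r‖ ^ 2 := by rw [e2]
              _ ≤ C3 ^ 2 * th2 * (Sf ^ 2 * AB B ^ ((4 : ℝ) / 3)) * ‖MT α E B σ r‖ ^ 2 := by
                  refine mul_le_mul_of_nonneg_right ?_ (by positivity)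
                  refine mul_le_mul_of_nonneg_right ?_ (by positivity)
                  exact mul_le_mul_of_nonneg_left (hthr r hr) (by positivity)
              _ = _ := by ring
          · simp
        have h5 := norm_sub_le
          (QB α E B (fun _ D => Cg (σ * r * ν ^ 2 * D) (fL (fA (GF F) (AB B)))))
          (QB α E B (fun _ D => (kP : ℂ) * conj (PX764.rho (σ * r * ν ^ 2 * D)) *
              mB (fA (GF F) (AB B))))
        set x := ‖QB α E B (fun _ D => Cg (σ * r * ν ^ 2 * D) (fL (fA (GF F) (AB B))))‖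
        set y := ‖QB α E B (fun _ D => (kP : ℂ) * conj (PX764.rho (σ * r * ν ^ 2 * D)) *
              mB (fA (GF F) (AB B)))‖
        have h6 := pow_le_pow_left₀ (norm_nonneg _) h5 2
        refine h6.trans ?_
        nlinarith [sq_nonneg (x - y)]
      have h7 : ∑ r ∈ Rs,
          ‖QB α E B (fun _ D => Cg (σ * r * ν ^ 2 * D) (fL (fA (GF F) (AB B))))‖ ^ 2 ≤
          C2 * Sf ^ 2 * (N B + 1) * (AB B ^ ((2 : ℝ) / 3) * Gn R X ν B ε Mo (N B)) :=
        hQC F Sf hF hBd0 R X (AB B) hR hX hAp E ν α hν hνs hα hαX Mo hMo B hB (N B)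
          (hN2 B hB hcase')
      have h8 := hMt B hB hcase'
      have hMtB := hMt0 B hB hcase'
      calc ∑ r ∈ Rs, q r B ^ 2 ≤ ∑ r ∈ Rs,
            (2 * ‖QB α E B (fun _ D => Cg (σ * r * ν ^ 2 * D) (fL (fA (GF F) (AB B))))‖ ^ 2 +
            2 * C3 ^ 2 * th2 * δν * (Sf ^ 2 * AB B ^ ((4 : ℝ) / 3)) * ‖MT α E B σ r‖ ^ 2) :=
            Finset.sum_le_sum h1
        _ = 2 * ∑ r ∈ Rs,
            ‖QB α E B (fun _ D => Cg (σ * r * ν ^ 2 * D) (fL (fA (GF F) (AB B))))‖ ^ 2 +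
            2 * C3 ^ 2 * th2 * δν * (Sf ^ 2 * AB B ^ ((4 : ℝ) / 3)) *
              ∑ r ∈ Rs, ‖MT α E B σ r‖ ^ 2 := by
            rw [Finset.sum_add_distrib, ← Finset.mul_sum, ← Finset.mul_sum]
        _ ≤ 2 * (C2 * Sf ^ 2 * (N B + 1) * (AB B ^ ((2 : ℝ) / 3) * Gn R X ν B ε Mo (N B))) +
            2 * C3 ^ 2 * th2 * δν * (Sf ^ 2 * AB B ^ ((4 : ℝ) / 3)) * Mt B :=
            add_le_add (mul_le_mul_of_nonneg_left h7 (by norm_num))
              (mul_le_mul_of_nonneg_left h8 (by positivity))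
        _ ≤ 2 * (C2 * Sf ^ 2 * (N0 + 1) * (AB B ^ ((2 : ℝ) / 3) * Gn R X ν B ε Mo (N B))) +
            (N0 + 1) * (2 * C3 ^ 2 * th2 * δν * (Sf ^ 2 * AB B ^ ((4 : ℝ) / 3)) * Mt B) := by
            refine add_le_add ?_ ?_
            · refine mul_le_mul_of_nonneg_left ?_ (by norm_num)
              refine mul_le_mul_of_nonneg_right ?_ (by positivity)
              exact mul_le_mul_of_nonneg_left (by linarith) (by positivity)
            · refine le_mul_of_one_le_left (by positivity) ?_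
              have : (0 : ℝ) ≤ N0 := Nat.cast_nonneg _
              linarith
        _ = Sf ^ 2 * (N0 + 1) * (2 * C2 * (AB B ^ ((2 : ℝ) / 3) * Gn R X ν B ε Mo (N B)) +
              2 * C3 ^ 2 * th2 * δν * AB B ^ ((4 : ℝ) / 3) * Mt B) := by ring
        _ ≤ _ := by
            refine mul_le_mul_of_nonneg_left (add_le_add ?_ le_rfl) (by positivity)
            have a1 : (0 : ℝ) ≤ I ^ 2 * C1 := by positivity
            refine mul_le_mul (by linarith) ?_ (by positivity) (by positivity)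
            exact mul_le_mul_of_nonneg_left (by linarith) hA23
  -- step 3 : the sum over `B`
  have e4 : ∀ B ∈ S X, (nm B : ℝ) ^ ((4 : ℝ) / 3) * AB B ^ ((2 : ℝ) / 3) = A ^ ((2 : ℝ) / 3) := by
    intro B hB
    have hN0 : (0 : ℝ) < nm B := by have := (hBm B hB).2.2.1; linarith
    simp only [hAB]
    rw [Real.div_rpow hA.le (by positivity), ← Real.rpow_natCast, ← Real.rpow_mul hN0.le]
    have : ((2 : ℕ) : ℝ) * (2 / 3) = 4 / 3 := by norm_num
    rw [this]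
    field_simp
  have e5 : ∀ B ∈ S X, (nm B : ℝ) ^ ((4 : ℝ) / 3) * AB B ^ ((4 : ℝ) / 3) =
      A ^ ((4 : ℝ) / 3) * (nm B : ℝ) ^ (-(4 : ℝ) / 3) := by
    intro B hB
    have hN0 : (0 : ℝ) < nm B := by have := (hBm B hB).2.2.1; linarith
    simp only [hAB]
    rw [Real.div_rpow hA.le (by positivity), ← Real.rpow_natCast, ← Real.rpow_mul hN0.le]
    have h1 : ((2 : ℕ) : ℝ) * (4 / 3) = 4 / 3 + 4 / 3 := by norm_num
    have h2 : (-(4 : ℝ) / 3) = -(4 / 3) := by norm_num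
    rw [h1, Real.rpow_add hN0, h2, Real.rpow_neg hN0.le]
    field_simp
  have step3 : ∑ B ∈ S X, (nm B : ℝ) ^ ((4 : ℝ) / 3) * ∑ r ∈ Rs, q r B ^ 2 ≤
      Sf ^ 2 * (N0 + 1) * ((I ^ 2 * C1 + 2 * C2) * A ^ ((2 : ℝ) / 3) *
        (∑ B ∈ S X, Gn R X ν B ε Mo (N B) + 100 * X * tl) +
        2 * C3 ^ 2 * th2 * δν * A ^ ((4 : ℝ) / 3) *
          ∑ B ∈ (S X).filter (fun B => B0 < nm B), (nm B : ℝ) ^ (-(4 : ℝ) / 3) * Mt B) := by
    have h1 : ∀ B ∈ S X, (nm B : ℝ) ^ ((4 : ℝ) / 3) * ∑ r ∈ Rs, q r B ^ 2 ≤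
        Sf ^ 2 * (N0 + 1) * ((I ^ 2 * C1 + 2 * C2) * A ^ ((2 : ℝ) / 3) *
          (Gn R X ν B ε Mo (N B) + tl) + (if B0 < nm B then
            2 * C3 ^ 2 * th2 * δν * A ^ ((4 : ℝ) / 3) * ((nm B : ℝ) ^ (-(4 : ℝ) / 3) * Mt B)
            else 0)) := by
      intro B hB
      have hN0 : (0 : ℝ) < nm B := by have := (hBm B hB).2.2.1; linarith
      refine (mul_le_mul_of_nonneg_left (step2 B hB) (by positivity)).trans (le_of_eq ?_)
      have a1 := e4 B hB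
      have a2 := e5 B hB
      rw [← a1]
      split_ifs
      · have e6 : 2 * C3 ^ 2 * th2 * δν * A ^ ((4 : ℝ) / 3) * ((nm B : ℝ) ^ (-(4 : ℝ) / 3) * Mt B) =
            2 * C3 ^ 2 * th2 * δν * (A ^ ((4 : ℝ) / 3) * (nm B : ℝ) ^ (-(4 : ℝ) / 3)) * Mt B := by
          ring
        rw [e6, ← a2]
        ring
      · ring
    refine (Finset.sum_le_sum h1).trans ?_
    rw [← Finset.mul_sum, Finset.sum_add_distrib, ← Finset.mul_sum, Finset.sum_add_distrib,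
      Finset.sum_const, nsmul_eq_mul, Finset.sum_filter, Finset.mul_sum]
    refine mul_le_mul_of_nonneg_left (add_le_add ?_ (le_of_eq ?_)) (by positivity)
    · refine mul_le_mul_of_nonneg_left (add_le_add le_rfl ?_) (by positivity)
      exact mul_le_mul_of_nonneg_right (card_S_le' hX) htl0
    · refine Finset.sum_congr rfl fun B _ => ?_
      split_ifs
      · rfl
      · rw [mul_zero]
  -- conclusion
  have step4 : ∑ r ∈ Rs, ‖VV α σ E r ν (GF F) A - Mn α σ E r ν (GF F) A‖ ^ 2 ≤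
      th2 * (100 * (1 + Real.log X)) *
        ∑ B ∈ S X, (nm B : ℝ) ^ ((4 : ℝ) / 3) * ∑ r ∈ Rs, q r B ^ 2 := by
    refine (Finset.sum_le_sum step1).trans (le_of_eq ?_)
    rw [← Finset.mul_sum, ← Finset.mul_sum, Finset.sum_comm]
    have : ∑ y ∈ S X, ∑ x ∈ Rs, (nm y : ℝ) ^ ((4 : ℝ) / 3) * q x y ^ 2 =
        ∑ B ∈ S X, (nm B : ℝ) ^ ((4 : ℝ) / 3) * ∑ r ∈ Rs, q r B ^ 2 :=
      Finset.sum_congr rfl fun B _ => by rw [Finset.mul_sum]
    rw [this]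
    ring
  refine step4.trans ?_
  refine (mul_le_mul_of_nonneg_left step3 (by positivity)).trans ?_
  set G : ℝ := ∑ B ∈ S X, Gn R X ν B ε Mo (N B) with hG
  have hG0 : 0 ≤ G := Finset.sum_nonneg hGn
  set Q : ℝ := ∑ B ∈ (S X).filter (fun B => B0 < nm B), (nm B : ℝ) ^ (-(4 : ℝ) / 3) * Mt B with hQ
  have hQ0 : 0 ≤ Q := by
    rw [hQ]
    refine Finset.sum_nonneg fun B hB => ?_
    rw [Finset.mem_filter] at hB
    have := hMt0 B hB.1 hB.2
    positivity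
  have hA23 : (0 : ℝ) ≤ A ^ ((2 : ℝ) / 3) := by positivity
  have hA43 : (0 : ℝ) ≤ A ^ ((4 : ℝ) / 3) := by positivity
  have hR13 : (0 : ℝ) ≤ R ^ (-(1 : ℝ) / 3) := by positivity
  have e7 : R ^ (-(1 : ℝ) / 3) * R ^ (-(1 : ℝ) / 3) = R ^ (-(2 : ℝ) / 3) := by
    rw [← Real.rpow_add hRp]; norm_num
  have e8 : (if ν = 1 then R ^ (-(2 : ℝ) / 3) * A ^ ((4 : ℝ) / 3) * Q else 0) =
      δν * (R ^ (-(2 : ℝ) / 3) * A ^ ((4 : ℝ) / 3) * Q) := by
    rw [hδν]; split_ifs <;> simp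
  rw [e8, ← e7]
  have htlX : X * R * (L1 α X * (R * (nm ν : ℝ) ^ 2 * X ^ 2 / A) ^ 2 * (T ^ M)⁻¹) ^ 2 =
      X * tl := by rw [htl]; ring
  rw [htlX]
  have hN00 : (0 : ℝ) ≤ N0 := Nat.cast_nonneg _
  exact fin_ar hc00 hR13 hA23 hA43 hX0 htl0 hG0 hQ0 hδν0 (by positivity) (by positivity)
    (sq_nonneg Sf) hN00 hlog

end Crest.Agent.R017.E2440
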