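import Crest.Agent.R017.E2m_440

/-!
# Row 17, block C70, leaf E2, part n (helper440): the cross form through `VV`

* `JD j c j₁ j₂` : `j = c j₁ j₂²`
* `VX_eq` : `VX α x e F K = Σ_{g ν = δ} Σ_{A ∣ g} mu A conj(sy E ν) VV (α_g) c E (j₁ e A) ν F (K/nm E)`,
  `E = e A j₂`
-/

set_option autoImplicit false
set_option linter.unusedVariables false
set_option linter.unusedSectionVars false

noncomputable section

open Complex MeasureTheory
open scoped ComplexConjugate

namespace Crest.Agent.R017.E2440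

open Crest.Agent.R012 Crest.Agent.R012.Eis Crest.Agent.R012.GaussLoc283
open Crest.Agent.R012.Mob705 hiding pb mem_pb
open Crest.Agent.R012.Div277
open Crest.Agent.R012.LS2 (S mem_S)
open Crest.Agent.R017.Sx545 (Sm sm_one_iff)
open Crest.Agent.R017.PX764 (th Gh n6 cD)
open Crest.Agent.R017.F1
open Crest.Agent.R017.X6C180 (Sg fA cM n13 GF)
open Crest.Agent.R017.CM106 (CS FS sub)
open Crest.Agent.R017.C70 (JC CbF OKJ)
open Crest.Agent.R017.GrB829 (IsC)

/-- the decomposition of a frequency -/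
structure JD (j c j₁ j₂ : Eis) : Prop where
  ic : IsC c
  p1 : IsPrim j₁
  p2 : IsPrim j₂
  s1 : Squarefree j₁
  s2 : Squarefree j₂
  cop : IsCoprime j₁ j₂
  eq : j = c * (j₁ * j₂ ^ 2)

lemma exists_JD {j : Eis} (h : JC j) : ∃ c j₁ j₂, JD j c j₁ j₂ := by
  obtain ⟨c, hc, j', hp, hcf, rfl⟩ := h
  obtain ⟨k1, k2, m, p1, p2, pm, s1, s2, hcop, he⟩ := Char766.exists_prim_cubic_decomp hp
  have hm : m = 1 := by
    by_contra hm1
    have hu : ¬ IsUnit m := fun hu =>
      hm1 (pm.eq_of_associated isPrim_one (associated_one_iff_isUnit.mpr hu))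
    obtain ⟨p, hpp, hpm⟩ := WfDvdMonoid.exists_irreducible_factor hu pm.ne_zero
    exact hcf p hpp.prime (he ▸ ((pow_dvd_pow_of_dvd hpm 3).mul_left _))
  exact ⟨c, k1, k2, hc, p1, p2, s1, s2, hcop, by rw [he, hm]; ring⟩

lemma isC_sg {c : Eis} (hc : IsC c) : Sg c := by
  rcases hc with h | h | h | h
  · exact Or.inl h
  · exact Or.inr ⟨1, isUnit_one, by rw [h, mul_one]⟩
  · exact Or.inr ⟨w, isUnit_w, h⟩
  · exact Or.inr ⟨w ^ 2, isUnit_w.pow 2, h⟩

/-- reduction of the theta coefficient -/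
lemma th_red {j c j₁ j₂ y k : Eis} (h : JD j c j₁ j₂) :
    th (j * (j₂ * k * y)) = th (c * (j₁ * y) * k) := by
  rw [h.eq]
  have : c * (j₁ * j₂ ^ 2) * (j₂ * k * y) = (c * (j₁ * y) * k) * j₂ ^ 3 := by ring
  rw [this, PX764.th_cube h.p2]

/-- `j₂ ∣ k` -/
lemma dvd_of_th {j c j₁ j₂ y k : Eis} (h : JD j c j₁ j₂) (hy : IsPrim y) (hk : IsPrim k)
    (hc : IsCoprime j₂ y) (hne : th (j * (k * y)) ≠ 0) : j₂ ∣ k := by
  have e1 : j * (k * y) = c * j₁ * j₂ ^ 2 * (k * y * 1 ^ 2) := by rw [h.eq]; ring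
  rw [e1] at hne
  have h1 := E3s164.dvd_g h.ic h.p2 h.s2 h.cop (hk.mul hy) isPrim_one hne
  rw [mul_one] at h1
  exact hc.dvd_of_dvd_mul_right h1

/-- the symbol part -/
lemma sy_part {α : Eis → ℂ} (hα : FS α) (hs : ∀ n, α n ≠ 0 → Squarefree n) {δ : Eis}
    (hδ : IsPrim δ) (hδs : Squarefree δ) {e k : Eis} (he : IsPrim e) (hk : IsPrim k)
    (heδ : IsCoprime e δ) :
    conj (sy (e * k) δ) * CS α (e * k) = ∑ y ∈ prs δ, ∑ A ∈ pdiv y.1,
      (by classical exact if A ∣ k then (mu A : ℂ) * (conj (sy (e * k) y.2) *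
        CS (ag α δ y.1) (e * k)) else 0) := by
  classical
  unfold CM106.CS
  rw [gcd_sum hα hs hδ hδs, Finset.mul_sum]
  refine Finset.sum_congr rfl fun y hy => ?_
  rw [mem_prs hδ] at hy
  obtain ⟨h1, h2, h3⟩ := hy
  have e1 : ∑' n : Eis, ag α δ y.1 n * sy (e * k) (y.1 * n) =
      sy (e * k) y.1 * ∑' n : Eis, ag α δ y.1 n * sy (e * k) n := by
    rw [← tsum_mul_left]
    refine tsum_congr fun n => ?_
    by_cases hn : ag α δ y.1 n = 0
    · rw [hn]; ring
    · rw [syAx.mul_right _ _ _ h1 ((fs_ag hα h1).prim n hn)]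
      ring
  rw [e1]
  have e2 : sy (e * k) δ = sy (e * k) y.1 * sy (e * k) y.2 := by
    rw [← h3, syAx.mul_right _ _ _ h1 h2]
  rw [e2, map_mul]
  set V : ℂ := conj (sy (e * k) y.2) * ∑' n : Eis, ag α δ y.1 n * sy (e * k) n with hV
  have e3 : ∑ A ∈ pdiv y.1, (if A ∣ k then (mu A : ℂ) * V else 0) =
      (if IsCoprime k y.1 then V else 0) := by
    have h4 := congrArg (fun z : ℤ => (z : ℂ)) (sum_mu_coprime hk h1.ne_zero)
    simp only [Int.cast_sum, Int.cast_ite, Int.cast_zero, Int.cast_one] at h4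
    have h5 : ∑ A ∈ pdiv y.1, (if A ∣ k then (mu A : ℂ) * V else 0) =
        (∑ A ∈ pdiv y.1, (if A ∣ k then (mu A : ℂ) else 0)) * V := by
      rw [Finset.sum_mul]
      exact Finset.sum_congr rfl fun A _ => by split_ifs <;> simp
    rw [h5, h4]
    split_ifs <;> simp
  rw [e3]
  have hcop : IsCoprime e y.1 := heδ.of_isCoprime_of_dvd_right (h3 ▸ dvd_mul_right _ _)
  by_cases hkg : IsCoprime k y.1
  · rw [if_pos hkg]
    have h5 := syAx.mul_conj h1 (hcop.mul_left hkg)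
    calc _ = (sy (e * k) y.1 * conj (sy (e * k) y.1)) * V := by rw [hV]; ring
      _ = V := by rw [h5, one_mul]
  · rw [if_neg hkg]
    have h5 : sy (e * k) y.1 = 0 := by
      rw [syAx.eq_zero _ _ h1]
      intro h
      exact hkg h.of_mul_left_right
    rw [h5]
    ring

/-- **`VX` through `VV`** -/
theorem VX_eq {α : Eis → ℂ} (hα : FS α) (hs : ∀ n, α n ≠ 0 → Squarefree n) {x : Eis × Eis}
    (hδ : IsPrim x.1) (hδs : Squarefree x.1) {c j₁ j₂ e : Eis} (hj : JD x.2 c j₁ j₂)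
    (he : IsPrim e) (hjδ : IsCoprime x.2 x.1) (hje : IsCoprime x.2 e) (heδ : IsCoprime e x.1)
    {F : ℝ → ℂ} (hF : ∃ B : ℝ, ∀ x, F x ≠ 0 → x ≤ B) {K : ℝ} (hK : 0 < K) :
    VX α x e F K = ∑ y ∈ prs x.1, ∑ A ∈ pdiv y.1, (mu A : ℂ) *
      (conj (sy (e * A * j₂) y.2) * VV (ag α x.1 y.1) c (e * A * j₂) (j₁ * (e * A)) y.2 F
        (K / nm (e * A * j₂))) := by
  classical
  unfold VX
  have hfin := fun g => fin_wt hF hK he.ne_zero g
  have h1 : ∀ k : Eis, (if IsPrim k then th (x.2 * (e * k)) * (conj (sy (e * k) x.1) *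
      CS α (e * k)) * F ((nm (e * k) : ℝ) / K) else 0) =
      ∑ y ∈ prs x.1, ∑ A ∈ pdiv y.1, (mu A : ℂ) * (if IsPrim k ∧ A ∣ k then
        th (x.2 * (e * k)) * (conj (sy (e * k) y.2) * CS (ag α x.1 y.1) (e * k)) *
          F ((nm (e * k) : ℝ) / K) else 0) := by
    intro k
    by_cases hk : IsPrim k
    · rw [if_pos hk, sy_part hα hs hδ hδs he hk heδ, Finset.mul_sum, Finset.sum_mul]
      refine Finset.sum_congr rfl fun y _ => ?_
      rw [Finset.mul_sum, Finset.sum_mul]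
      refine Finset.sum_congr rfl fun A _ => ?_
      by_cases hA : A ∣ k
      · rw [if_pos hA, if_pos ⟨hk, hA⟩]; ring
      · rw [if_neg hA, if_neg (fun h => hA h.2)]; ring
    · rw [if_neg hk]
      symm
      refine Finset.sum_eq_zero fun y _ => Finset.sum_eq_zero fun A _ => ?_
      rw [if_neg (fun h => hk h.1), mul_zero]
  rw [tsum_congr h1]
  have hsm : ∀ y ∈ prs x.1, ∀ A ∈ pdiv y.1, Summable fun k : Eis => (mu A : ℂ) *
      (if IsPrim k ∧ A ∣ k then
        th (x.2 * (e * k)) * (conj (sy (e * k) y.2) * CS (ag α x.1 y.1) (e * k)) *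
          F ((nm (e * k) : ℝ) / K) else 0) := by
    intro y _ A _
    refine summable_of_hasFiniteSupport ((hfin (fun k => (mu A : ℂ) *
      (if IsPrim k ∧ A ∣ k then
        th (x.2 * (e * k)) * (conj (sy (e * k) y.2) * CS (ag α x.1 y.1) (e * k))
        else 0))).subset fun k hk => ?_)
    rw [Function.mem_support] at hk ⊢
    intro h
    apply hk
    rw [← h]
    split_ifs
    · ring
    · ring
  rw [Summable.tsum_finsetSum (fun y hy => summable_sum fun A hA => hsm y hy A hA)]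
  refine Finset.sum_congr rfl fun y hy => ?_
  rw [Summable.tsum_finsetSum (fun A hA => hsm y hy A hA)]
  refine Finset.sum_congr rfl fun A hA => ?_
  rw [mem_prs hδ] at hy
  obtain ⟨hy1, hy2, hy3⟩ := hy
  have hA' := (mem_pdiv hy1.ne_zero).mp hA
  rw [tsum_mul_left, tsum_mult hA'.1]
  congr 1
  set g : Eis → ℂ := fun k => th (x.2 * (e * k)) * (conj (sy (e * k) y.2) *
    CS (ag α x.1 y.1) (e * k)) * F ((nm (e * k) : ℝ) / K) with hg
  have hj2e : IsCoprime j₂ e := by
    have : j₂ ∣ x.2 := by rw [hj.eq]; exact ⟨c * (j₁ * j₂), by ring⟩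
    exact hje.of_isCoprime_of_dvd_left this
  have hAx : A ∣ x.1 := hA'.2.trans (hy3 ▸ dvd_mul_right _ _)
  have hj2A : IsCoprime j₂ A := by
    have : j₂ ∣ x.2 := by rw [hj.eq]; exact ⟨c * (j₁ * j₂), by ring⟩
    exact (hjδ.of_isCoprime_of_dvd_left this).of_isCoprime_of_dvd_right hAx
  have h2 : (∑' k : Eis, if IsPrim k then g (A * k) else 0) =
      ∑' k : Eis, if IsPrim k ∧ j₂ ∣ k then g (A * k) else 0 := by
    refine tsum_congr fun k => ?_
    by_cases hk : IsPrim k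
    · by_cases h3 : j₂ ∣ k
      · rw [if_pos hk, if_pos ⟨hk, h3⟩]
      · rw [if_pos hk, if_neg (fun h => h3 h.2)]
        simp only [hg]
        have h4 : th (x.2 * (e * (A * k))) = 0 := by
          by_contra hne
          apply h3
          refine dvd_of_th hj (he.mul hA'.1) hk (hj2e.mul_right hj2A) ?_
          rw [show k * (e * A) = e * (A * k) by ring]
          exact hne
        rw [h4]; ring
    · rw [if_neg hk, if_neg (fun h => hk h.1)]
  rw [h2, tsum_mult hj.p2 (fun k => g (A * k))]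
  unfold VV
  rw [← tsum_mul_left]
  refine tsum_congr fun k => ?_
  split_ifs with hk
  · simp only [hg]
    have e1 : e * (A * (j₂ * k)) = e * A * j₂ * k := by ring
    have e2 : x.2 * (e * (A * (j₂ * k))) = x.2 * (j₂ * k * (e * A)) := by ring
    have hE0 : (0 : ℝ) < nm (e * A * j₂) := by
      have := one_le_nm (mul_ne_zero (mul_ne_zero he.ne_zero hA'.1.ne_zero) hj.p2.ne_zero)
      linarith
    have e3 : (nm (e * A * j₂ * k) : ℝ) / K = (nm k : ℝ) / (K / nm (e * A * j₂)) := by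
      rw [nm_mul (e * A * j₂) k]
      push_cast
      field_simp
    rw [e2, th_red hj, e1, e3, syAx.mul_left _ _ _ hy2, map_mul]
    ring
  · rw [mul_zero]

end Crest.Agent.R017.E2440
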