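import Crest.Agent.R017.E2n_440

/-!
# Row 17, block C70, leaf E2, part o (helper440): the main term

`MX_eq` : `Σ_{g ν = δ} Σ_{A ∣ g} mu A conj(sy E ν) Mn (α_g) c E (j₁ e A) ν F (K/nm E)
  = cM K^{2/3} nm(j)^{-1/3} (PE δ / nm e) mellin F (2/3) Σ_{(m,e)=1} PE m α(δ m) n6 m Gh j m`
-/

set_option autoImplicit false
set_option linter.unusedVariables false
set_option linter.unusedSectionVars false

noncomputable section

open Complex MeasureTheory
open scoped ComplexConjugate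

namespace Crest.Agent.R017.E2440

open Crest.Agent.R012 Crest.Agent.R012.Eis Crest.Agent.R012.GaussLoc283
open Crest.Agent.R012.Mob705 hiding pb mem_pb
open Crest.Agent.R012.Div277
open Crest.Agent.R012.LS2 (S mem_S)
open Crest.Agent.R017.Sx545 (Sm sm_one_iff)
open Crest.Agent.R017.PX764 (th Gh n6 cD)
open Crest.Agent.R017.F1
open Crest.Agent.R017.X6C180 (Sg fA cM n13 GF)
open Crest.Agent.R017.CM106 (CS FS sub)
open Crest.Agent.R017.C70 (JC CbF OKJ)
open Crest.Agent.R017.GrB829 (IsC)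

/-- the companion of `TE` -/
def UE (α : Eis → ℂ) (x : Eis × Eis) (e : Eis) : ℂ := by
  classical
  exact ∑' m : Eis, if IsCoprime m e then
    ((PE m : ℝ) : ℂ) * (α (x.1 * m) * ((n6 m : ℂ) * Gh x.2 m)) else 0

/-- the main term of `VX` -/
def MX (α : Eis → ℂ) (x : Eis × Eis) (e : Eis) (F : ℝ → ℂ) (K : ℝ) : ℂ :=
  ((cM * K ^ (2 / 3 : ℝ) * n13 x.2 * (PE x.1 / nm e) : ℝ) : ℂ) * mellin F ((2 / 3 : ℝ) : ℂ) *
    UE α x e

/-- the real factor -/
lemma real_factor {c j₁ j₂ e A : Eis} (hc : IsC c) (h1 : j₁ ≠ 0) (h2 : j₂ ≠ 0) (he : e ≠ 0)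
    (hA : A ≠ 0) {K : ℝ} (hK : 0 < K) :
    ‖th c‖ ^ 2 * n13 (j₁ * (e * A)) * (K / nm (e * A * j₂)) ^ (2 / 3 : ℝ) =
      K ^ (2 / 3 : ℝ) * n13 (c * (j₁ * j₂ ^ 2)) * (1 / nm e) * (1 / nm A) := by
  rw [hc.norm_th]
  unfold X6C180.n13
  have pc : (0 : ℝ) < nm c := by have := one_le_nm hc.ne_zero; linarith
  have p1 : (0 : ℝ) < nm j₁ := by have := one_le_nm h1; linarith
  have p2 : (0 : ℝ) < nm j₂ := by have := one_le_nm h2; linarith
  have p3 : (0 : ℝ) < nm e := by have := one_le_nm he; linarith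
  have p4 : (0 : ℝ) < nm A := by have := one_le_nm hA; linarith
  simp only [nm_mul, nm_pow, Nat.cast_mul, Nat.cast_pow]
  rw [Real.div_rpow hK.le (by positivity), Real.mul_rpow p1.le (by positivity),
    Real.mul_rpow p3.le p4.le, Real.mul_rpow (by positivity) p2.le, Real.mul_rpow p3.le p4.le,
    Real.mul_rpow pc.le (by positivity), Real.mul_rpow p1.le (by positivity)]
  have e1 : ((nm j₂ : ℝ) ^ 2) ^ (-(1 : ℝ) / 3) = ((nm j₂ : ℝ) ^ (2 / 3 : ℝ))⁻¹ := by
    rw [← Real.rpow_natCast, ← Real.rpow_mul p2.le, ← Real.rpow_neg p2.le]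
    norm_num
  have e2 : ∀ y : ℝ, 0 < y → y ^ (-(1 : ℝ) / 3) / y ^ (2 / 3 : ℝ) = 1 / y := by
    intro y hy
    rw [← Real.rpow_sub hy, one_div, ← Real.rpow_neg_one]
    norm_num
  rw [e1, ← e2 _ p3, ← e2 _ p4]
  field_simp

/-- the symbol identity in the main term -/
lemma Gh_sy {c j₁ j₂ e A n : Eis} (h1 : IsPrim j₁) (h2 : IsPrim j₂) (he : IsPrim e)
    (hA : IsPrim A) (hn : IsPrim n) (hnA : IsCoprime n A) :
    sy (e * A * j₂) n * Gh (c * (j₁ * (e * A))) n =
      (by classical exact if IsCoprime n e then Gh (c * (j₁ * j₂ ^ 2)) n else 0) := by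
  classical
  unfold PX764.Gh
  have e1 : sy (e * A * j₂) n = sy e n * sy A n * sy j₂ n := by
    rw [syAx.mul_left _ _ _ hn, syAx.mul_left _ _ _ hn]
  have e2 : sy (c * (j₁ * (e * A))) n = sy c n * sy j₁ n * (sy e n * sy A n) := by
    rw [syAx.mul_left _ _ _ hn, syAx.mul_left _ _ _ hn, syAx.mul_left _ _ _ hn]
    ring
  have e3 : sy (c * (j₁ * j₂ ^ 2)) n = sy c n * sy j₁ n * sy j₂ n ^ 2 := by
    rw [syAx.mul_left _ _ _ hn, syAx.mul_left _ _ _ hn, syAx.pow_left _ hn]
    ring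
  rw [e1, e2, e3]
  simp only [map_mul, map_pow]
  have hAn : sy A n * conj (sy A n) = 1 := syAx.mul_conj hn hnA.symm
  have hj : conj (sy j₂ n) ^ 2 = sy j₂ n := syAx.conj_sq _ hn
  rw [hj]
  by_cases hc : IsCoprime n e
  · rw [if_pos hc]
    have hen : sy e n * conj (sy e n) = 1 := syAx.mul_conj hn hc.symm
    calc _ = (sy e n * conj (sy e n)) * (sy A n * conj (sy A n)) *
          (G n * (conj (sy c n) * conj (sy j₁ n) * sy j₂ n)) := by ring
      _ = _ := by rw [hen, hAn, one_mul, one_mul]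
  · rw [if_neg hc]
    have : sy e n = 0 := by
      rw [syAx.eq_zero _ _ hn]
      exact fun h => hc h.symm
    rw [this]
    ring

/-- **the main term of `VX`** -/
theorem MX_eq {α : Eis → ℂ} (hα : FS α) (hs : ∀ n, α n ≠ 0 → Squarefree n) {x : Eis × Eis}
    (hδ : IsPrim x.1) (hδs : Squarefree x.1) {c j₁ j₂ e : Eis} (hj : JD x.2 c j₁ j₂)
    (he : IsPrim e) (F : ℝ → ℂ) {K : ℝ} (hK : 0 < K) :
    ∑ y ∈ prs x.1, ∑ A ∈ pdiv y.1, (mu A : ℂ) *
      (conj (sy (e * A * j₂) y.2) * Mn (ag α x.1 y.1) c (e * A * j₂) (j₁ * (e * A)) y.2 F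
        (K / nm (e * A * j₂))) = MX α x e F K := by
  classical
  have hmem : (x.1, (1 : Eis)) ∈ prs x.1 := by
    rw [mem_prs hδ]
    exact ⟨hδ, isPrim_one, mul_one _⟩
  rw [Finset.sum_eq_single_of_mem _ hmem]
  · simp only
    have hAsum : ∀ A ∈ pdiv x.1, (mu A : ℂ) *
        (conj (sy (e * A * j₂) 1) * Mn (ag α x.1 x.1) c (e * A * j₂) (j₁ * (e * A)) 1 F
          (K / nm (e * A * j₂))) = ((((mu A : ℝ) / nm A) : ℝ) : ℂ) *
          (((cM * K ^ (2 / 3 : ℝ) * n13 x.2 * (1 / nm e) : ℝ) : ℂ) *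
            mellin F ((2 / 3 : ℝ) : ℂ) * UE α x e) := by
      intro A hA
      have hA' := (mem_pdiv hδ.ne_zero).mp hA
      unfold Mn
      rw [if_pos rfl, syAx.one_right, map_one, one_mul]
      have h1 : ∑' n : Eis, ag α x.1 x.1 n * (sy (e * A * j₂) n * (((PE n : ℝ) : ℂ) *
          (n6 n : ℂ) * Gh (c * (j₁ * (e * A))) n)) = UE α x e := by
        unfold UE
        refine tsum_congr fun n => ?_
        unfold ag
        by_cases hn : IsCoprime n x.1
        · rw [if_pos hn]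
          by_cases h0 : α (x.1 * n) = 0
          · rw [h0]
            simp
          · have hnp : IsPrim n := (hα.prim _ h0).of_mul_left hδ
            have h3 := Gh_sy (c := c) hj.p1 hj.p2 he hA'.1 hnp (hn.of_isCoprime_of_dvd_right hA'.2)
            calc _ = α (x.1 * n) * (((PE n : ℝ) : ℂ) * (n6 n : ℂ)) *
                  (sy (e * A * j₂) n * Gh (c * (j₁ * (e * A))) n) := by ring
              _ = _ := by
                rw [h3, ← hj.eq]
                split_ifs
                · ring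
                · ring
        · rw [if_neg hn, zero_mul]
          have h0 : α (x.1 * n) = 0 := by
            by_contra h0
            exact hn ((squarefree_mul_iff.mp (hs _ h0)).1.isCoprime.symm)
          rw [h0]
          simp
      rw [h1]
      have h2 := real_factor hj.ic hj.p1.ne_zero hj.p2.ne_zero he.ne_zero hA'.1.ne_zero hK
      have h3 : cM * ‖th c‖ ^ 2 * n13 (j₁ * (e * A)) * (K / nm (e * A * j₂)) ^ (2 / 3 : ℝ) =
          (1 / nm A) * (cM * K ^ (2 / 3 : ℝ) * n13 x.2 * (1 / nm e)) := by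
        calc _ = cM * (‖th c‖ ^ 2 * n13 (j₁ * (e * A)) * (K / nm (e * A * j₂)) ^ (2 / 3 : ℝ)) := by
              ring
          _ = _ := by rw [h2, ← hj.eq]; ring
      rw [h3]
      push_cast
      ring
    rw [Finset.sum_congr rfl hAsum, ← Finset.sum_mul, ← Complex.ofReal_sum,
      DgA829.PE_sum_real hδ.ne_zero]
    unfold MX
    push_cast
    ring
  · intro y hy hne
    refine Finset.sum_eq_zero fun A _ => ?_
    have : y.2 ≠ 1 := by
      intro h
      apply hne
      rw [mem_prs hδ] at hy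
      have h3 := hy.2.2
      rw [h, mul_one] at h3
      exact Prod.ext h3 h
    unfold Mn
    rw [if_neg this, mul_zero, mul_zero]

end Crest.Agent.R017.E2440
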