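import Crest.Agent.R017.E2o_440

/-!
# Row 17, block C70, leaf E2, part p (helper440): the block Cauchy

* `C4`, `RR`, `Qs` : the sums of `E2core`
* `E2blk` : one block (`x.1 = δ`, `Y/2 < nm x.2 ≤ Y`, one `e`)
-/

set_option autoImplicit false
set_option linter.unusedVariables false
set_option linter.unusedSectionVars false

noncomputable section

open Complex MeasureTheory
open scoped ComplexConjugate

namespace Crest.Agent.R017.E2440

open Crest.Agent.R012 Crest.Agent.R012.Eis Crest.Agent.R012.GaussLoc283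
open Crest.Agent.R012.Mob705 hiding pb mem_pb
open Crest.Agent.R012.Div277
open Crest.Agent.R012.LS2 (S mem_S)
open Crest.Agent.R017.Sx545 (Sm sm_one_iff)
open Crest.Agent.R017.PX764 (th Gh n6 cD)
open Crest.Agent.R017.F1
open Crest.Agent.R017.X6C180 (Sg fA cM n13 GF)
open Crest.Agent.R017.CM106 (CS FS sub)
open Crest.Agent.R017.C70 (JC CbF OKJ)
open Crest.Agent.R017.GrB829 (IsC)

/-- the four constants -/
def C4 : Finset Eis := by
  classical
  exact {1, 3, 3 * w, 3 * w ^ 2}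

lemma mem_C4 {c : Eis} : c ∈ C4 ↔ IsC c := by
  classical
  unfold C4 GrB829.IsC
  simp

/-- the length of the `r`-sum -/
def RR (Y : ℝ) (e A c j₂ : Eis) : ℝ := Y * nm (e * A) / (nm c * (nm j₂ : ℝ) ^ 2)

/-- the sums of `E2core` -/
def Qs (α : Eis → ℂ) (δ e : Eis) (Y K : ℝ) (F : ℝ → ℂ) (y : Eis × Eis) (A c j₂ : Eis) : ℝ := by
  classical
  exact ∑ r ∈ (S (RR Y e A c j₂)).filter (fun r => IsCoprime r y.2 ∧ RR Y e A c j₂ / 2 < nm r),
    ‖VV (ag α δ y.1) c (e * A * j₂) r y.2 F (K / nm (e * A * j₂)) -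
      Mn (ag α δ y.1) c (e * A * j₂) r y.2 F (K / nm (e * A * j₂))‖ ^ 2

lemma Qs_nonneg (α : Eis → ℂ) (δ e : Eis) (Y K : ℝ) (F : ℝ → ℂ) (y : Eis × Eis) (A c j₂ : Eis) :
    0 ≤ Qs α δ e Y K F y A c j₂ := Finset.sum_nonneg fun _ _ => by positivity

/-- the chosen decomposition -/
def jd (j : Eis) : Eis × Eis × Eis := by
  classical
  exact if h : JC j then ((exists_JD h).choose, (exists_JD h).choose_spec.choose,
    (exists_JD h).choose_spec.choose_spec.choose) else (1, 1, 1)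

lemma jd_spec {j : Eis} (h : JC j) : JD j (jd j).1 (jd j).2.1 (jd j).2.2 := by
  unfold jd
  rw [dif_pos h]
  exact (exists_JD h).choose_spec.choose_spec.choose_spec

/-- embedding of a block into the sums of `E2core` -/
lemma block_le {α : Eis → ℂ} {δ e : Eis} {Y K : ℝ} (hY : 0 ≤ Y) {F : ℝ → ℂ} {y : Eis × Eis}
    {A : Eis} (hδ : IsPrim δ) (he : IsPrim e) (hes : Squarefree e) (heδ : IsCoprime e δ)
    (hδs : Squarefree δ) (hy : y ∈ prs δ) (hA : A ∈ pdiv y.1) {J : Finset (Eis × Eis)}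
    (hJ : ∀ x ∈ J, x.1 = δ ∧ JC x.2 ∧ IsCoprime x.2 δ ∧ IsCoprime x.2 e ∧ Y / 2 < nm x.2 ∧
      (nm x.2 : ℝ) ≤ Y) :
    ∑ x ∈ J, ‖VV (ag α δ y.1) (jd x.2).1 (e * A * (jd x.2).2.2) ((jd x.2).2.1 * (e * A)) y.2 F
        (K / nm (e * A * (jd x.2).2.2)) -
      Mn (ag α δ y.1) (jd x.2).1 (e * A * (jd x.2).2.2) ((jd x.2).2.1 * (e * A)) y.2 F
        (K / nm (e * A * (jd x.2).2.2))‖ ^ 2 ≤
      ∑ c ∈ C4, ∑ j₂ ∈ S (Real.sqrt Y), Qs α δ e Y K F y A c j₂ := by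
  classical
  rw [mem_prs hδ] at hy
  obtain ⟨hy1, hy2, hy3⟩ := hy
  have hA' := (mem_pdiv hy1.ne_zero).mp hA
  have hAδ : A ∣ δ := hA'.2.trans (hy3 ▸ dvd_mul_right _ _)
  have hAs : Squarefree A := hδs.squarefree_of_dvd hAδ
  have heA : IsCoprime e A := heδ.of_isCoprime_of_dvd_right hAδ
  have heAs : Squarefree (e * A) := squarefree_mul_iff.mpr ⟨heA.isRelPrime, hes, hAs⟩
  have heA0 : (0 : ℝ) < nm (e * A) := by
    have := one_le_nm (mul_ne_zero he.ne_zero hA'.1.ne_zero); linarith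
  set f : (Σ _ : Eis × Eis, Eis) → ℝ := fun t =>
    ‖VV (ag α δ y.1) t.1.1 (e * A * t.1.2) t.2 y.2 F (K / nm (e * A * t.1.2)) -
      Mn (ag α δ y.1) t.1.1 (e * A * t.1.2) t.2 y.2 F (K / nm (e * A * t.1.2))‖ ^ 2 with hf
  set φ : Eis × Eis → (Σ _ : Eis × Eis, Eis) := fun x =>
    ⟨((jd x.2).1, (jd x.2).2.2), (jd x.2).2.1 * (e * A)⟩ with hφ
  set Tt : Finset (Σ _ : Eis × Eis, Eis) := (C4 ×ˢ S (Real.sqrt Y)).sigma (fun p =>
    (S (RR Y e A p.1 p.2)).filter (fun r => IsCoprime r y.2 ∧ RR Y e A p.1 p.2 / 2 < nm r)) with hTt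
  have e1 : ∑ c ∈ C4, ∑ j₂ ∈ S (Real.sqrt Y), Qs α δ e Y K F y A c j₂ = ∑ t ∈ Tt, f t := by
    rw [hTt, Finset.sum_sigma, Finset.sum_product]
    rfl
  rw [e1]
  have hinj : Set.InjOn φ (J : Set (Eis × Eis)) := by
    intro a ha b hb hab
    have ha' := hJ a ha
    have hb' := hJ b hb
    simp only [hφ, Sigma.mk.injEq, Prod.mk.injEq, heq_eq_eq] at hab
    obtain ⟨⟨h1, h2⟩, h3⟩ := hab
    have h4 : (jd a.2).2.1 = (jd b.2).2.1 :=
      mul_right_cancel₀ (mul_ne_zero he.ne_zero hA'.1.ne_zero) h3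
    refine Prod.ext (ha'.1.trans hb'.1.symm) ?_
    rw [(jd_spec ha'.2.1).eq, (jd_spec hb'.2.1).eq, h1, h2, h4]
  have hmaps : J.image φ ⊆ Tt := by
    intro t ht
    rw [Finset.mem_image] at ht
    obtain ⟨x, hx, rfl⟩ := ht
    obtain ⟨hx1, hx2, hx3, hx4, hx5, hx6⟩ := hJ x hx
    have hD := jd_spec hx2
    set c := (jd x.2).1
    set j₁ := (jd x.2).2.1
    set j₂ := (jd x.2).2.2
    have hc0 : (0 : ℝ) < nm c := by have := one_le_nm hD.ic.ne_zero; linarith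
    have hc1 : (1 : ℝ) ≤ nm c := one_le_nm hD.ic.ne_zero
    have hj1 : (1 : ℝ) ≤ nm j₁ := one_le_nm hD.p1.ne_zero
    have hj2 : (1 : ℝ) ≤ nm j₂ := one_le_nm hD.p2.ne_zero
    have hnm : (nm x.2 : ℝ) = nm c * (nm j₁ * (nm j₂ : ℝ) ^ 2) := by
      rw [hD.eq, nm_mul, nm_mul, nm_pow]
      push_cast
      ring
    have hr : (nm (j₁ * (e * A)) : ℝ) = nm j₁ * nm (e * A) := by
      rw [nm_mul j₁]; push_cast; ring
    have hd1 : c ∣ x.2 := by rw [hD.eq]; exact dvd_mul_right _ _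
    have hd2 : j₁ ∣ x.2 := by rw [hD.eq]; exact ⟨c * j₂ ^ 2, by ring⟩
    rw [hTt, Finset.mem_sigma, Finset.mem_product, Finset.mem_filter]
    refine ⟨⟨mem_C4.mpr hD.ic, ?_⟩, ?_, ?_, ?_⟩
    · rw [mem_S (Real.sqrt_nonneg _)]
      refine ⟨?_, hD.p2, hD.s2⟩
      apply Real.le_sqrt_of_sq_le
      rw [hnm] at hx6
      nlinarith [mul_le_mul hc1 hj1 (by norm_num) hc0.le, sq_nonneg (nm j₂ : ℝ)]
    · have hRpos : 0 ≤ RR Y e A c j₂ := by unfold RR; positivity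
      rw [mem_S hRpos]
      refine ⟨?_, hD.p1.mul (he.mul hA'.1), ?_⟩
      · show (nm (j₁ * (e * A)) : ℝ) ≤ RR Y e A c j₂
        rw [hr]
        unfold RR
        rw [le_div_iff₀ (by positivity)]
        calc (nm j₁ : ℝ) * (nm (e * A) : ℝ) * ((nm c : ℝ) * (nm j₂ : ℝ) ^ 2) =
              (nm (e * A) : ℝ) * ((nm c : ℝ) * ((nm j₁ : ℝ) * (nm j₂ : ℝ) ^ 2)) := by ring
          _ = (nm (e * A) : ℝ) * (nm x.2 : ℝ) := by rw [hnm]
          _ ≤ (nm (e * A) : ℝ) * Y := mul_le_mul_of_nonneg_left hx6 heA0.le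
          _ = Y * (nm (e * A) : ℝ) := by ring
      · have h1 : IsCoprime j₁ e := hx4.of_isCoprime_of_dvd_left hd2
        have h2 : IsCoprime j₁ A :=
          (hx3.of_isCoprime_of_dvd_left hd2).of_isCoprime_of_dvd_right hAδ
        exact squarefree_mul_iff.mpr ⟨(h1.mul_right h2).isRelPrime, hD.s1, heAs⟩
    · have hν : y.2 ∣ δ := hy3 ▸ dvd_mul_left _ _
      have h1 : IsCoprime j₁ y.2 :=
        (hx3.of_isCoprime_of_dvd_left hd2).of_isCoprime_of_dvd_right hν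
      have h2 : IsCoprime e y.2 := heδ.of_isCoprime_of_dvd_right hν
      have h3 : IsCoprime y.1 y.2 := by
        rw [← hy3] at hδs
        exact (squarefree_mul_iff.mp hδs).1.isCoprime
      exact h1.mul_left (h2.mul_left (h3.of_isCoprime_of_dvd_left hA'.2))
    · show RR Y e A c j₂ / 2 < (nm (j₁ * (e * A)) : ℝ)
      rw [hr]
      unfold RR
      rw [div_div, div_lt_iff₀ (by positivity)]
      calc Y * (nm (e * A) : ℝ) = 2 * (Y / 2) * (nm (e * A) : ℝ) := by ring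
        _ < 2 * (nm x.2 : ℝ) * (nm (e * A) : ℝ) := by
            refine mul_lt_mul_of_pos_right ?_ heA0
            linarith
        _ = (nm j₁ : ℝ) * (nm (e * A) : ℝ) * ((nm c : ℝ) * (nm j₂ : ℝ) ^ 2 * 2) := by
            rw [hnm]; ring
  calc _ = ∑ x ∈ J, f (φ x) := rfl
    _ = ∑ t ∈ J.image φ, f t := (Finset.sum_image hinj).symm
    _ ≤ ∑ t ∈ Tt, f t := Finset.sum_le_sum_of_subset_of_nonneg hmaps fun t _ _ => by
        simp only [hf]; positivity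

end Crest.Agent.R017.E2440
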