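import Crest.Agent.R017.E2p_440

/-!
# Row 17, block C70, leaf E2, part q (helper440): the cross form

* `E2blk` : one block (`x.1 = δ`, `Y/2 < nm x.2 ≤ Y`, one `e`)
* `E2fin` : the cross form minus its main term through the sums `Qs`
* `Qs_le` : `Qs` through `E2core`
-/

set_option autoImplicit false
set_option linter.unusedVariables false
set_option linter.unusedSectionVars false

noncomputable section

open Complex MeasureTheory
open scoped ComplexConjugate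

namespace Crest.Agent.R017.E2440

open Crest.Agent.R012 Crest.Agent.R012.Eis Crest.Agent.R012.GaussLoc283
open Crest.Agent.R012.Mob705 hiding pb mem_pb
open Crest.Agent.R012.Div277
open Crest.Agent.R012.LS2 (S mem_S)
open Crest.Agent.R017.Sx545 (Sm sm_one_iff)
open Crest.Agent.R017.PX764 (th Gh n6 cD)
open Crest.Agent.R017.F1
open Crest.Agent.R017.X6C180 (Sg fA cM n13 GF)
open Crest.Agent.R017.X6545 (TF Bd)
open Crest.Agent.R017.X6W180 (TF1 tf1_tf)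
open Crest.Agent.R017.CM106 (CS FS sub)
open Crest.Agent.R017.C70 (JC CbF OKJ)
open Crest.Agent.R017.GrB829 (IsC)

lemma TE_ne {α : Eis → ℂ} (hs : ∀ n, α n ≠ 0 → Squarefree n) {x : Eis × Eis} {e : Eis}
    (h : TE α x e ≠ 0) : IsCoprime x.2 x.1 ∧ IsCoprime x.2 e ∧ IsCoprime e x.1 := by
  classical
  by_contra hh
  apply h
  unfold TE
  have : ∀ m : Eis, (if e ∣ m ∧ IsCoprime x.2 (x.1 * m) then
      α (x.1 * m) * ((n6 m : ℂ) * Gh x.2 m) else 0) = 0 := by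
    intro m
    split_ifs with h1
    · by_cases h0 : α (x.1 * m) = 0
      · rw [h0, zero_mul]
      · exfalso
        apply hh
        have h2 : IsCoprime x.1 m := (squarefree_mul_iff.mp (hs _ h0)).1.isCoprime
        exact ⟨h1.2.of_mul_right_left, h1.2.of_mul_right_right.of_isCoprime_of_dvd_right h1.1,
          (h2.of_isCoprime_of_dvd_right h1.1).symm⟩
    · rfl
  rw [tsum_congr this, tsum_zero]

lemma norm_mu_le (A : Eis) : ‖((mu A : ℤ) : ℂ)‖ ≤ 1 := by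
  have h := abs_mu_le_one A
  rw [Complex.norm_intCast]
  exact_mod_cast h

/-- **one block** -/
theorem E2blk {α : Eis → ℂ} (hα : FS α) (hs : ∀ n, α n ≠ 0 → Squarefree n) {δ e : Eis}
    (hδ : IsPrim δ) (hδs : Squarefree δ) (he : IsPrim e) (hes : Squarefree e) {Y K : ℝ}
    (hY : 0 ≤ Y) (hK : 0 < K) {F : ℝ → ℂ} (hF : ∃ B : ℝ, ∀ x, F x ≠ 0 → x ≤ B)
    {J : Finset (Eis × Eis)}
    (hJ : ∀ x ∈ J, x.1 = δ ∧ JC x.2 ∧ Y / 2 < nm x.2 ∧ (nm x.2 : ℝ) ≤ Y) (om : Eis × Eis → ℂ) :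
    ‖∑ x ∈ J, conj (om x) * ((mu e : ℂ) * conj (TE α x e) * (VX α x e F K - MX α x e F K))‖ ≤
      Real.sqrt (∑ x ∈ J, ‖om x‖ ^ 2 * ‖TE α x e‖ ^ 2) *
      ∑ y ∈ prs δ, ∑ A ∈ pdiv y.1,
        Real.sqrt (∑ c ∈ C4, ∑ j₂ ∈ S (Real.sqrt Y), Qs α δ e Y K F y A c j₂) := by
  classical
  set TT : ℝ := ∑ x ∈ J, ‖om x‖ ^ 2 * ‖TE α x e‖ ^ 2 with hTT
  set J' : Finset (Eis × Eis) := J.filter (fun x => TE α x e ≠ 0) with hJ'
  have hsum : ∑ x ∈ J, conj (om x) * ((mu e : ℂ) * conj (TE α x e) *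
      (VX α x e F K - MX α x e F K)) = ∑ x ∈ J', conj (om x) * ((mu e : ℂ) * conj (TE α x e) *
      (VX α x e F K - MX α x e F K)) := by
    rw [hJ', Finset.sum_filter]
    refine Finset.sum_congr rfl fun x _ => ?_
    by_cases h : TE α x e = 0
    · rw [if_neg (by simp [h]), h]; simp
    · rw [if_pos h]
  rw [hsum]
  have hJm : ∀ x ∈ J', x.1 = δ ∧ JC x.2 ∧ IsCoprime x.2 δ ∧ IsCoprime x.2 e ∧ Y / 2 < nm x.2 ∧
      (nm x.2 : ℝ) ≤ Y := by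
    intro x hx
    rw [hJ', Finset.mem_filter] at hx
    obtain ⟨h1, h2, h3, h4⟩ := hJ x hx.1
    obtain ⟨h5, h6, h7⟩ := TE_ne hs hx.2
    rw [h1] at h5
    exact ⟨h1, h2, h5, h6, h3, h4⟩
  by_cases hne : J'.Nonempty
  swap
  · rw [Finset.not_nonempty_iff_eq_empty.mp hne, Finset.sum_empty, norm_zero]
    exact mul_nonneg (Real.sqrt_nonneg _) (Finset.sum_nonneg fun _ _ =>
      Finset.sum_nonneg fun _ _ => Real.sqrt_nonneg _)
  have heδ : IsCoprime e δ := by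
    obtain ⟨x, hx⟩ := hne
    have h1 := hJm x hx
    rw [hJ', Finset.mem_filter] at hx
    have h2 := (TE_ne hs hx.2).2.2
    rwa [h1.1] at h2
  set q : Eis × Eis → Eis × Eis → Eis → ℝ := fun x y A =>
    ‖VV (ag α δ y.1) (jd x.2).1 (e * A * (jd x.2).2.2) ((jd x.2).2.1 * (e * A)) y.2 F
        (K / nm (e * A * (jd x.2).2.2)) -
      Mn (ag α δ y.1) (jd x.2).1 (e * A * (jd x.2).2.2) ((jd x.2).2.1 * (e * A)) y.2 F
        (K / nm (e * A * (jd x.2).2.2))‖ with hq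
  have hpt : ∀ x ∈ J', ‖conj (om x) * ((mu e : ℂ) * conj (TE α x e) *
      (VX α x e F K - MX α x e F K))‖ ≤ ∑ y ∈ prs δ, ∑ A ∈ pdiv y.1,
        (‖om x‖ * ‖TE α x e‖) * q x y A := by
    intro x hx
    obtain ⟨h1, h2, h3, h4, -, -⟩ := hJm x hx
    have hD := jd_spec h2
    have e1 := VX_eq hα hs (x := x) (e := e) (by rw [h1]; exact hδ) (by rw [h1]; exact hδs) hD he
      (by rw [h1]; exact h3) h4 (by rw [h1]; exact heδ) hF hK
    have e2 := MX_eq hα hs (x := x) (e := e) (by rw [h1]; exact hδ) (by rw [h1]; exact hδs) hD he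
      F hK
    rw [h1] at e1 e2
    have e3 : VX α x e F K - MX α x e F K = ∑ y ∈ prs δ, ∑ A ∈ pdiv y.1, (mu A : ℂ) *
        (conj (sy (e * A * (jd x.2).2.2) y.2) *
        (VV (ag α δ y.1) (jd x.2).1 (e * A * (jd x.2).2.2) ((jd x.2).2.1 * (e * A)) y.2 F
          (K / nm (e * A * (jd x.2).2.2)) -
        Mn (ag α δ y.1) (jd x.2).1 (e * A * (jd x.2).2.2) ((jd x.2).2.1 * (e * A)) y.2 F
          (K / nm (e * A * (jd x.2).2.2)))) := by
      rw [e1, ← e2, ← Finset.sum_sub_distrib]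
      refine Finset.sum_congr rfl fun y _ => ?_
      rw [← Finset.sum_sub_distrib]
      exact Finset.sum_congr rfl fun A _ => by ring
    have e4 : ‖VX α x e F K - MX α x e F K‖ ≤ ∑ y ∈ prs δ, ∑ A ∈ pdiv y.1, q x y A := by
      rw [e3]
      refine (norm_sum_le _ _).trans (Finset.sum_le_sum fun y hy => ?_)
      refine (norm_sum_le _ _).trans (Finset.sum_le_sum fun A hA => ?_)
      rw [norm_mul, norm_mul, RCLike.norm_conj]
      have hy2 : IsPrim y.2 := ((mem_prs hδ).mp hy).2.1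
      have a1 := norm_mu_le A
      have a2 := norm_sy_le1 (k := e * A * (jd x.2).2.2) hy2
      have a3 : 0 ≤ q x y A := norm_nonneg _
      calc _ ≤ 1 * (1 * q x y A) := mul_le_mul a1 (mul_le_mul_of_nonneg_right a2 a3)
            (mul_nonneg (norm_nonneg _) a3) zero_le_one
        _ = q x y A := by ring
    rw [norm_mul, norm_mul, norm_mul, RCLike.norm_conj, RCLike.norm_conj]
    have a1 := norm_mu_le e
    calc ‖om x‖ * (‖((mu e : ℤ) : ℂ)‖ * ‖TE α x e‖ * ‖VX α x e F K - MX α x e F K‖)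
        ≤ ‖om x‖ * (1 * ‖TE α x e‖ * ∑ y ∈ prs δ, ∑ A ∈ pdiv y.1, q x y A) := by
          refine mul_le_mul_of_nonneg_left ?_ (norm_nonneg _)
          refine mul_le_mul (mul_le_mul_of_nonneg_right a1 (norm_nonneg _)) e4 (norm_nonneg _)
            (by positivity)
      _ = _ := by
          rw [one_mul, ← mul_assoc, Finset.mul_sum]
          refine Finset.sum_congr rfl fun y _ => ?_
          rw [Finset.mul_sum]
  refine (norm_sum_le _ _).trans ((Finset.sum_le_sum hpt).trans ?_)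
  rw [Finset.sum_comm, Finset.mul_sum]
  refine Finset.sum_le_sum fun y hy => ?_
  rw [Finset.sum_comm, Finset.mul_sum]
  refine Finset.sum_le_sum fun A hA => ?_
  refine (Real.sum_mul_le_sqrt_mul_sqrt _ _ _).trans ?_
  refine mul_le_mul (Real.sqrt_le_sqrt ?_) (Real.sqrt_le_sqrt ?_) (Real.sqrt_nonneg _)
    (Real.sqrt_nonneg _)
  · have : ∀ x ∈ J', (‖om x‖ * ‖TE α x e‖) ^ 2 = ‖om x‖ ^ 2 * ‖TE α x e‖ ^ 2 := fun x _ => by ring
    rw [Finset.sum_congr rfl this, hTT]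
    exact Finset.sum_le_sum_of_subset_of_nonneg (Finset.filter_subset _ _) fun _ _ _ => by
      positivity
  · exact block_le hY hδ he hes heδ hδs hy hA hJm

/-! ### all blocks -/

/-- the block -/
def Jb (J : Finset (Eis × Eis)) (δ : Eis) (Y : ℝ) : Finset (Eis × Eis) := by
  classical
  exact J.filter (fun x => x.1 = δ ∧ Y / 2 < nm x.2 ∧ (nm x.2 : ℝ) ≤ Y)

lemma dyad_one {n Y : ℝ} (hY : 0 ≤ Y) (z : ℂ) : ∀ I : ℕ, Y / 2 ^ I < n → n ≤ Y →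
    ∑ i ∈ Finset.range I, (by classical exact if Y / 2 ^ i / 2 < n ∧ n ≤ Y / 2 ^ i then z else 0) =
      z := by
  classical
  intro I
  induction I with
  | zero =>
    intro h1 h2
    rw [pow_zero, div_one] at h1
    linarith
  | succ I ih =>
    intro h1 h2
    rw [Finset.sum_range_succ]
    by_cases h : n ≤ Y / 2 ^ I
    · have h3 : Y / 2 ^ I / 2 < n := by
        rw [div_div, ← pow_succ]
        exact h1
      rw [if_pos ⟨h3, h⟩, Finset.sum_eq_zero, zero_add]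
      intro i hi
      rw [Finset.mem_range] at hi
      rw [if_neg]
      rintro ⟨h4, -⟩
      have h5 : Y / 2 ^ I ≤ Y / 2 ^ i / 2 := by
        rw [div_div, ← pow_succ]
        exact div_le_div_of_nonneg_left hY (by positivity)
          (pow_le_pow_right₀ (by norm_num) hi)
      linarith
    · rw [if_neg (fun h' => h h'.2), add_zero]
      exact ih (not_le.mp h) h2

lemma sum_blocks {J : Finset (Eis × Eis)} {D : Finset Eis} {Y : ℝ} (hY : 0 ≤ Y) {I : ℕ}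
    (hJ : ∀ x ∈ J, x.1 ∈ D ∧ (nm x.2 : ℝ) ≤ Y ∧ Y / 2 ^ I < nm x.2) (g : Eis × Eis → ℂ) :
    ∑ x ∈ J, g x = ∑ δ ∈ D, ∑ i ∈ Finset.range I, ∑ x ∈ Jb J δ (Y / 2 ^ i), g x := by
  classical
  have h1 : ∀ δ ∈ D, ∀ i ∈ Finset.range I, ∑ x ∈ Jb J δ (Y / 2 ^ i), g x =
      ∑ x ∈ J, (if x.1 = δ then (if Y / 2 ^ i / 2 < nm x.2 ∧ (nm x.2 : ℝ) ≤ Y / 2 ^ i then g x
        else 0) else 0) := by
    intro δ _ i _
    unfold Jb
    rw [Finset.sum_filter]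
    refine Finset.sum_congr rfl fun x _ => ?_
    by_cases h : x.1 = δ
    · rw [if_pos h]
      simp only [h, true_and]
    · rw [if_neg h, if_neg (fun h' => h h'.1)]
  have h2 : ∑ δ ∈ D, ∑ i ∈ Finset.range I, ∑ x ∈ Jb J δ (Y / 2 ^ i), g x =
      ∑ x ∈ J, ∑ δ ∈ D, ∑ i ∈ Finset.range I,
        (if x.1 = δ then (if Y / 2 ^ i / 2 < nm x.2 ∧ (nm x.2 : ℝ) ≤ Y / 2 ^ i then g x
        else 0) else 0) := by
    rw [Finset.sum_congr rfl fun δ hδ => Finset.sum_congr rfl (h1 δ hδ),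
      Finset.sum_comm' (s := J) (t := fun _ => D) (s' := fun _ => J) (t' := D)]
    · refine Finset.sum_congr rfl fun δ _ => ?_
      rw [Finset.sum_comm]
    · intro x δ; tauto
  rw [h2]
  refine Finset.sum_congr rfl fun x hx => ?_
  obtain ⟨h3, h4, h5⟩ := hJ x hx
  rw [Finset.sum_eq_single_of_mem x.1 h3]
  · simp only [if_true]
    exact (dyad_one hY (g x) I h5 h4).symm
  · intro δ _ hne
    refine Finset.sum_eq_zero fun i _ => ?_
    rw [if_neg (fun h => hne h.symm)]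

/-- **E2** : the cross form minus its main term through the sums `Qs` -/
theorem E2fin {α : Eis → ℂ} (hα : FS α) (hs : ∀ n, α n ≠ 0 → Squarefree n) {K E0 Y : ℝ}
    (hE0 : 0 ≤ E0) (hY : 0 ≤ Y) (hK : 0 < K) {F : ℝ → ℂ} (hF : ∃ B : ℝ, ∀ x, F x ≠ 0 → x ≤ B)
    {D : Finset Eis} (hD : ∀ δ ∈ D, IsPrim δ ∧ Squarefree δ) {I : ℕ} {J : Finset (Eis × Eis)}
    (hJ : OKJ J) (hJD : ∀ x ∈ J, x.1 ∈ D ∧ (nm x.2 : ℝ) ≤ Y ∧ Y / 2 ^ I < nm x.2)
    (om : Eis × Eis → ℂ) :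
    ‖(∑' k : Eis, by classical exact if IsPrim k then F ((nm k : ℝ) / K) *
        (CS α k * conj (StE E0 J om α k)) else 0) -
      ∑ x ∈ J, ∑ e ∈ S E0, conj (om x) * ((mu e : ℂ) * conj (TE α x e) * MX α x e F K)‖ ≤
      ∑ δ ∈ D, ∑ i ∈ Finset.range I, ∑ e ∈ S E0,
        Real.sqrt (∑ x ∈ Jb J δ (Y / 2 ^ i), ‖om x‖ ^ 2 * ‖TE α x e‖ ^ 2) *
        ∑ y ∈ prs δ, ∑ A ∈ pdiv y.1,
          Real.sqrt (∑ c ∈ C4, ∑ j₂ ∈ S (Real.sqrt (Y / 2 ^ i)),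
            Qs α δ e (Y / 2 ^ i) K F y A c j₂) := by
  classical
  rw [cross_eq hF hK hE0 J om, ← Finset.sum_sub_distrib]
  have h1 : ∀ x ∈ J, ∑ e ∈ S E0, conj (om x) * ((mu e : ℂ) * conj (TE α x e) * VX α x e F K) -
      ∑ e ∈ S E0, conj (om x) * ((mu e : ℂ) * conj (TE α x e) * MX α x e F K) =
      ∑ e ∈ S E0, conj (om x) * ((mu e : ℂ) * conj (TE α x e) *
        (VX α x e F K - MX α x e F K)) := by
    intro x _
    rw [← Finset.sum_sub_distrib]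
    exact Finset.sum_congr rfl fun e _ => by ring
  rw [Finset.sum_congr rfl h1, sum_blocks hY hJD]
  refine (norm_sum_le _ _).trans (Finset.sum_le_sum fun δ hδ => ?_)
  refine (norm_sum_le _ _).trans (Finset.sum_le_sum fun i hi => ?_)
  rw [Finset.sum_comm]
  refine (norm_sum_le _ _).trans (Finset.sum_le_sum fun e he => ?_)
  obtain ⟨-, hep, hes⟩ := (mem_S hE0).mp he
  refine E2blk hα hs (hD δ hδ).1 (hD δ hδ).2 hep hes (by positivity) hK hF ?_ om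
  intro x hx
  unfold Jb at hx
  rw [Finset.mem_filter] at hx
  exact ⟨hx.2.1, hJ.jc x hx.1, hx.2.2.1, hx.2.2.2⟩

/-! ### `Qs` through `E2core` -/

/-- the error functional of `E2core` -/
def EB (ε : ℝ) (M N0 : ℕ) (X R A T B0 : ℝ) (ν : Eis) (α : Eis → ℂ) (Mo : Eis → ℝ → ℝ)
    (Mt : Eis → ℝ) (N : Eis → ℕ) : ℝ := by
  classical
  exact (N0 + 1) * (1 + Real.log X) *
        (R ^ (-(1 : ℝ) / 3) * A ^ ((2 : ℝ) / 3) * ∑ B ∈ S X, Gn R X ν B ε Mo (N B) +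
          (if ν = 1 then R ^ (-(2 : ℝ) / 3) * A ^ ((4 : ℝ) / 3) *
            ∑ B ∈ (S X).filter (fun B => B0 < nm B), (nm B : ℝ) ^ (-(4 : ℝ) / 3) * Mt B else 0) +
          R ^ (-(1 : ℝ) / 3) * A ^ ((2 : ℝ) / 3) * (X * R * (L1 α X *
            (R * (nm ν : ℝ) ^ 2 * X ^ 2 / A) ^ 2 * (T ^ M)⁻¹) ^ 2))

/-- the hypotheses of `E2core` on the moments -/
structure MH (J : ℕ) (X R A T B0 : ℝ) (σ E ν : Eis) (α : Eis → ℂ) (Mo : Eis → ℝ → ℝ)
    (Mt : Eis → ℝ) (N : Eis → ℕ) (N0 : ℕ) : Prop where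
  mo : MoH α E σ X J Mo
  mt : by classical exact ∀ B ∈ S X, B0 < nm B →
    ∑ r ∈ (S R).filter (fun r => IsCoprime r ν ∧ R / 2 < nm r), ‖MT α E B σ r‖ ^ 2 ≤ Mt B
  n0 : ∀ B ∈ S X, N B ≤ N0
  n1 : ∀ B ∈ S X, (nm B : ℝ) ≤ B0 → 2 * T * (R * (nm ν : ℝ) ^ 2 * (X / nm B)) ≤
      A / (nm B : ℝ) ^ 2 * 2 ^ N B
  n2 : ∀ B ∈ S X, B0 < nm B → 10 * (A / (nm B : ℝ) ^ 2) ≤ 2 ^ N B

lemma Bd.mono {F : ℝ → ℂ} {k l : ℕ} {Sf : ℝ} (h : Bd F l Sf) (hkl : k ≤ l) : Bd F k Sf :=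
  fun i hi y => h i (hi.trans hkl) y

lemma EB_nonneg {ε : ℝ} {J M N0 : ℕ} {X R A T B0 : ℝ} (hX : 1 ≤ X) (hR : 1 ≤ R) (hA : 0 < A)
    {σ E ν : Eis} {α : Eis → ℂ} {Mo : Eis → ℝ → ℝ} {Mt : Eis → ℝ} {N : Eis → ℕ}
    (h : MH J X R A T B0 σ E ν α Mo Mt N N0) : 0 ≤ EB ε M N0 X R A T B0 ν α Mo Mt N := by
  classical
  unfold EB
  have h1 : 0 ≤ Real.log X := Real.log_nonneg hX
  have h2 : ∀ B ∈ S X, 0 ≤ Gn R X ν B ε Mo (N B) := by
    intro B hB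
    unfold Gn
    refine Finset.sum_nonneg fun j _ => ?_
    have h3 : 0 ≤ Mo B (2 ^ j) := h.mo.nonneg hB (one_le_pow₀ (by norm_num))
    positivity
  have h4 : ∀ B ∈ (S X).filter (fun B => B0 < nm B), 0 ≤ (nm B : ℝ) ^ (-(4 : ℝ) / 3) * Mt B := by
    intro B hB
    rw [Finset.mem_filter] at hB
    have h5 : 0 ≤ Mt B :=
      (Finset.sum_nonneg fun _ _ => by positivity).trans (h.mt B hB.1 hB.2)
    positivity
  have h5 := Finset.sum_nonneg h2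
  have h6 := Finset.sum_nonneg h4
  have h7 : 0 ≤ L1 α X := L1_nonneg α X
  refine mul_nonneg (by positivity) (add_nonneg (add_nonneg (by positivity) ?_) (by positivity))
  split_ifs
  · positivity
  · exact le_rfl

open Classical in
/-- `E2core`, uniform in `σ ∈ C4` -/
theorem E2core4 {ε : ℝ} (hε : 0 < ε) (J M : ℕ) : ∃ (k : ℕ) (C : ℝ), 0 ≤ C ∧
    ∀ (F : ℝ → ℂ) (Sf : ℝ), TF1 F → Bd F k Sf → ∀ R X A T B0 : ℝ, 1 ≤ R → 1 ≤ X → 0 < A → 1 ≤ T →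
    ∀ (σ E ν : Eis) (α : Eis → ℂ), IsC σ → E ≠ 0 → IsPrim ν → Squarefree ν → Cf α ν →
    (∀ n, α n ≠ 0 → X / 2 < nm n ∧ (nm n : ℝ) ≤ X) →
    ∀ (Mo : Eis → ℝ → ℝ) (Mt : Eis → ℝ) (N : Eis → ℕ) (N0 : ℕ),
      MH J X R A T B0 σ E ν α Mo Mt N N0 →
    ∑ r ∈ (S R).filter (fun r => IsCoprime r ν ∧ R / 2 < nm r),
      ‖VV α σ E r ν (GF F) A - Mn α σ E r ν (GF F) A‖ ^ 2 ≤
      C * Sf ^ 2 * EB ε M N0 X R A T B0 ν α Mo Mt N := by
  have key : ∀ s : Finset Eis, (∀ σ ∈ s, IsC σ) → ∃ (k : ℕ) (C : ℝ), 0 ≤ C ∧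
    ∀ σ ∈ s, ∀ (F : ℝ → ℂ) (Sf : ℝ), TF1 F → Bd F k Sf → ∀ R X A T B0 : ℝ, 1 ≤ R → 1 ≤ X →
    0 < A → 1 ≤ T →
    ∀ (E ν : Eis) (α : Eis → ℂ), E ≠ 0 → IsPrim ν → Squarefree ν → Cf α ν →
    (∀ n, α n ≠ 0 → X / 2 < nm n ∧ (nm n : ℝ) ≤ X) →
    ∀ (Mo : Eis → ℝ → ℝ) (Mt : Eis → ℝ) (N : Eis → ℕ) (N0 : ℕ),
      MH J X R A T B0 σ E ν α Mo Mt N N0 →
    ∑ r ∈ (S R).filter (fun r => IsCoprime r ν ∧ R / 2 < nm r),
      ‖VV α σ E r ν (GF F) A - Mn α σ E r ν (GF F) A‖ ^ 2 ≤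
      C * Sf ^ 2 * EB ε M N0 X R A T B0 ν α Mo Mt N := by
    intro s
    induction s using Finset.induction_on with
    | empty => exact fun _ => ⟨0, 0, le_rfl, fun σ hσ => by simp at hσ⟩
    | insert a s ha ih =>
      intro hs
      obtain ⟨k1, C1, hC1, h1⟩ := ih fun σ hσ => hs σ (Finset.mem_insert_of_mem hσ)
      obtain ⟨k2, C2, hC2, h2⟩ := E2core (isC_sg (hs a (Finset.mem_insert_self a s))) hε J M
      refine ⟨max k1 k2, max C1 C2, le_max_of_le_left hC1, ?_⟩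
      intro σ hσ F Sf hF hB R X A T B0 hR hX hA hT E ν α hE hν hνs hα hsp Mo Mt N N0 hM
      have hEB := EB_nonneg (ε := ε) (M := M) hX hR hA hM
      have hmono : ∀ {c : ℝ}, c ≤ max C1 C2 → c * Sf ^ 2 * EB ε M N0 X R A T B0 ν α Mo Mt N ≤
          max C1 C2 * Sf ^ 2 * EB ε M N0 X R A T B0 ν α Mo Mt N := fun hc =>
        mul_le_mul_of_nonneg_right (mul_le_mul_of_nonneg_right hc (sq_nonneg _)) hEB
      rw [Finset.mem_insert] at hσ
      rcases hσ with rfl | hσ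
      · refine le_trans ?_ (hmono (le_max_right C1 C2))
        have h3 := h2 F Sf hF (Bd.mono hB (le_max_right _ _)) R X A T B0 hR hX hA hT E ν α hE hν
          hνs hα hsp Mo Mt hM.mo (fun B hB h => hM.mt B hB h) N N0 hM.n0 hM.n1 hM.n2
        refine h3.trans (le_of_eq ?_)
        unfold EB
        ring
      · exact (h1 σ hσ F Sf hF (Bd.mono hB (le_max_left _ _)) R X A T B0 hR hX hA hT E ν α hE hν
          hνs hα hsp Mo Mt N N0 hM).trans (hmono (le_max_left C1 C2))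
  obtain ⟨k, C, hC, h⟩ := key C4 fun σ hσ => mem_C4.mp hσ
  exact ⟨k, C, hC, fun F Sf hF hB R X A T B0 hR hX hA hT σ E ν α hσ => h σ (mem_C4.mpr hσ) F Sf hF
    hB R X A T B0 hR hX hA hT E ν α⟩

lemma cf_ag {α : Eis → ℂ} (hα : FS α) (hs : ∀ n, α n ≠ 0 → Squarefree n) {δ : Eis}
    (hδ : IsPrim δ) {y : Eis × Eis} (hy : y ∈ prs δ) : Cf (ag α δ y.1) y.2 := by
  rw [mem_prs hδ] at hy
  refine ⟨fs_ag hα hy.1, fun n hn => ?_, fun n hn => ?_⟩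
  · exact (hs _ (ag_ne hn).2).of_mul_right
  · exact (ag_ne hn).1.of_isCoprime_of_dvd_right (hy.2.2 ▸ dvd_mul_left _ _)

open Classical in
/-- **`Qs` through `E2core`** -/
theorem Qs_le {ε : ℝ} (hε : 0 < ε) (Jt M : ℕ) : ∃ (k : ℕ) (C : ℝ), 0 ≤ C ∧
    ∀ (F : ℝ → ℂ) (Sf : ℝ), TF1 F → Bd F k Sf → ∀ X Y K T B0 : ℝ, 0 < K → 1 ≤ T →
    ∀ α : Eis → ℂ, FS α → (∀ n, α n ≠ 0 → Squarefree n) →
    (∀ n, α n ≠ 0 → X / 2 < nm n ∧ (nm n : ℝ) ≤ X) →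
    ∀ δ e : Eis, IsPrim δ → Squarefree δ → IsPrim e → ∀ y ∈ prs δ, ∀ A ∈ pdiv y.1, ∀ c ∈ C4,
    ∀ j₂ : Eis, IsPrim j₂ → 1 ≤ RR Y e A c j₂ → (nm y.1 : ℝ) ≤ X →
    ∀ (Mo : Eis → ℝ → ℝ) (Mt : Eis → ℝ) (N : Eis → ℕ) (N0 : ℕ),
      MH Jt (X / nm y.1) (RR Y e A c j₂) (K / nm (e * A * j₂)) T B0 c (e * A * j₂) y.2
        (ag α δ y.1) Mo Mt N N0 →
    Qs α δ e Y K (GF F) y A c j₂ ≤
      C * Sf ^ 2 * EB ε M N0 (X / nm y.1) (RR Y e A c j₂) (K / nm (e * A * j₂)) T B0 y.2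
        (ag α δ y.1) Mo Mt N := by
  obtain ⟨k, C, hC, h⟩ := E2core4 hε Jt M
  refine ⟨k, C, hC, ?_⟩
  intro F Sf hF hB X Y K T B0 hK hT α hα hs hsp δ e hδ hδs he y hy A hA c hc j₂ hj₂ hR hX Mo Mt N
    N0 hM
  have hy' := (mem_prs hδ).mp hy
  have hA' := (mem_pdiv hy'.1.ne_zero).mp hA
  have hE : e * A * j₂ ≠ 0 := mul_ne_zero (mul_ne_zero he.ne_zero hA'.1.ne_zero) hj₂.ne_zero
  have hE1 := one_le_nm hE
  have hy0 : (0 : ℝ) < nm y.1 := by have := one_le_nm hy'.1.ne_zero; linarith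
  have hX1 : 1 ≤ X / nm y.1 := by rwa [le_div_iff₀ hy0, one_mul]
  have h1 := h F Sf hF hB (RR Y e A c j₂) (X / nm y.1) (K / nm (e * A * j₂)) T B0 hR hX1
    (by positivity) hT c (e * A * j₂) y.2 (ag α δ y.1) (mem_C4.mp hc) hE hy'.2.1
    (hδs.squarefree_of_dvd (hy'.2.2 ▸ dvd_mul_left _ _)) (cf_ag hα hs hδ hy) ?_ Mo Mt N N0 hM
  · exact h1
  · intro n hn
    have h2 := hsp _ (ag_ne hn).2
    rw [nm_mul] at h2
    push_cast at h2
    rw [div_div, mul_comm (nm y.1 : ℝ) 2, ← div_div, div_lt_iff₀ hy0, le_div_iff₀ hy0]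
    constructor
    · nlinarith [h2.1]
    · nlinarith [h2.2]

lemma VV_zero (σ E r ν : Eis) (F : ℝ → ℂ) (A : ℝ) : VV (fun _ => 0) σ E r ν F A = 0 := by
  classical
  unfold VV CM106.CS
  simp

lemma Mn_zero (σ E r ν : Eis) (F : ℝ → ℂ) (A : ℝ) : Mn (fun _ => 0) σ E r ν F A = 0 := by
  classical
  unfold Mn
  simp

/-- the trivial cases -/
lemma Qs_zero {α : Eis → ℂ} {X : ℝ} (hsp : ∀ n, α n ≠ 0 → (nm n : ℝ) ≤ X) {δ e : Eis} {Y K : ℝ}
    (hY : 0 ≤ Y) (F : ℝ → ℂ) {y : Eis × Eis} {A c j₂ : Eis} (hα : FS α) (hδ : IsPrim δ)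
    (hy : y ∈ prs δ)
    (h : ¬ (1 ≤ RR Y e A c j₂ ∧ (nm y.1 : ℝ) ≤ X)) : Qs α δ e Y K F y A c j₂ = 0 := by
  classical
  unfold Qs
  by_cases h1 : 1 ≤ RR Y e A c j₂
  · have h2 : X < nm y.1 := by
      by_contra h3
      exact h ⟨h1, not_lt.mp h3⟩
    have hz : ag α δ y.1 = fun _ => 0 := by
      funext n
      by_contra h0
      have h3 := ag_ne h0
      have h4 := hsp _ h3.2
      have hn : n ≠ 0 := by
        rintro rfl
        exact (hα.prim _ h3.2).ne_zero (mul_zero _)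
      rw [nm_mul] at h4
      push_cast at h4
      have h5 := one_le_nm hn
      nlinarith [one_le_nm ((mem_prs hδ).mp hy).1.ne_zero]
    rw [hz]
    refine Finset.sum_eq_zero fun r _ => ?_
    rw [VV_zero, Mn_zero, sub_zero, norm_zero]
    norm_num
  · have h2 : 0 ≤ RR Y e A c j₂ := by unfold RR; positivity
    refine Finset.sum_eq_zero fun r hr => ?_
    exfalso
    rw [Finset.mem_filter, mem_S h2] at hr
    apply h1
    exact (one_le_nm hr.1.2.1.ne_zero).trans hr.1.1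

end Crest.Agent.R017.E2440
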