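import Crest.Agent.R017.E2l_440

/-!
# Row 17, block C70, leaf E2, part s (helper440): the abstract core, dual side

* `DH` : the dyadic large sieve, as a hypothesis
* `KD` : the kernel data of a weight
* `shellK` : one dyadic shell
* `YTk_bd` : a complete dual piece
-/

set_option autoImplicit false
set_option linter.unusedVariables false
set_option linter.unusedSectionVars false

noncomputable section

open Complex MeasureTheory
open scoped ComplexConjugate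

namespace Crest.Agent.R017.E2440

open Crest.Agent.R012 Crest.Agent.R012.Eis Crest.Agent.R012.GaussLoc283
open Crest.Agent.R012.Mob705 hiding pb mem_pb
open Crest.Agent.R012.Div277
open Crest.Agent.R012.LS2 (S mem_S)
open Crest.Agent.R012.Weight600 (osc norm_osc)
open Crest.Agent.R017.Sx545 (Sm sm_one_iff)
open Crest.Agent.R017.PX764 (th Gh n6 cD)
open Crest.Agent.R017.F1
open Crest.Agent.R017.X6C180 (Sg fA WF V1 cM n13 IX dl' om' GF)
open Crest.Agent.R017.X6545 (TF Bd)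
open Crest.Agent.R017.X6W180 (TF1 tf1_tf)
open Crest.Agent.R017.CM106 (sub CS FS)
open Crest.Agent.R017.H1401 (pb mem_pb)

/-- the dyadic large sieve -/
def DH (J : ℕ) (R X : ℝ) (σ E ν : Eis) (α : Eis → ℂ) (N : Eis → ℕ) (MD : Eis → ℕ → ℝ) : Prop := by
  classical
  exact ∀ B ∈ S X, ∀ (i : IX σ) (t : ℝ) (j : ℕ), j < N B → ∀ b : Eis → ℂ,
    (∀ d, ‖b d‖ ≤ (nm d : ℝ)⁻¹) → (∀ d, b d ≠ 0 → (2 : ℝ) ^ j / 2 < nm d) →
    ∑ r ∈ (S R).filter (fun r => IsCoprime r ν ∧ R / 2 < nm r),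
      ‖∑ d ∈ pb (2 ^ j), b d * ∑' D : Eis, cT α E B (dl' σ i) t D *
        conj (gs (dl' σ i * σ * r * ν ^ 2 * D) d)‖ ^ 2 ≤ (1 + |t|) ^ J * MD B j

/-- the kernel data of a weight -/
structure KD (σ : Eis) (J M : ℕ) (Ft : ℝ → ℂ) (c H : ℝ) (ϑ : ℝ → ℝ) (om : IX σ → ℝ → ℂ) : Prop where
  wt : M49.Wt Ft
  c0 : 0 ≤ c
  H1 : 1 ≤ H
  th0 : ∀ y : ℝ, 0 < y → 0 ≤ ϑ y
  du : ∀ v : Eis, IsPrim v → ∀ A : ℝ, 0 < A → Du (σ * v) (Wf (fA Ft A)) =
    ((A ^ (1 / 3 : ℝ) : ℝ) : ℂ) * ∑ i : IX σ, sy (dl' σ i) v * ∑' d : Eis,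
      (by classical exact if IsPrim d then conj (gs (dl' σ i * σ * v) d) *
        ((((nm d : ℝ)⁻¹ : ℝ) : ℂ) * om i ((nm v : ℝ) / (A * nm d))) else 0)
  bd : ∀ (i : IX σ) (y : ℝ), 0 < y → ‖om i y‖ ≤ c * min 1 ((H * y) ^ (M + 2))
  sep : ∀ (i : IX σ) (A U Z : ℝ), 0 < A → 0 < U → 0 < Z → ∃ kk : ℝ → ℂ,
    Continuous kk ∧ Integrable kk ∧ (∀ t, ‖kk t‖ * (1 + |t|) ^ (J + 2) ≤ c * ϑ (U / (A * Z))) ∧
    ∀ nu nd : ℝ, 0 < nu → 0 < nd → |Real.log (nu / U)| ≤ 2 → |Real.log (nd / Z)| ≤ 2 →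
      om i (nu / (A * nd)) =
        ∫ t, kk t * (osc t (-Real.log (nu / U)) * osc t (Real.log (nd / Z)))
  fl : ∀ (A : ℝ), 0 < A → ∀ d : Eis, IsPrim d →
    ‖fL (fA Ft A) (toC d)‖ ≤ c * A ^ ((1 : ℝ) / 3) * (nm d : ℝ)⁻¹ ∧
      (5 * A < nm d → fL (fA Ft A) (toC d) = 0)
  mb : ∀ A : ℝ, 0 < A → ‖mB (fA Ft A)‖ ≤ A ^ ((2 : ℝ) / 3) * c

lemma DH.nonneg {J : ℕ} {R X : ℝ} {σ E ν : Eis} {α : Eis → ℂ} {N : Eis → ℕ} {MD : Eis → ℕ → ℝ}
    (h : DH J R X σ E ν α N MD) {B : Eis} (hB : B ∈ S X) {j : ℕ} (hj : j < N B) : 0 ≤ MD B j := by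
  classical
  have h1 := h B hB none 0 j hj (fun _ => 0) (fun d => by rw [norm_zero]; positivity)
    (fun d hd => absurd rfl hd)
  rw [abs_zero, add_zero, one_pow, one_mul] at h1
  exact (Finset.sum_nonneg fun _ _ => by positivity).trans h1

/-- the summand at `d` -/
def XTk (α : Eis → ℂ) (E B σ : Eis) (i : IX σ) (r ν : Eis) (om : ℝ → ℂ) (A : ℝ) (d : Eis) : ℂ :=
  ∑' D : Eis, α (B * D) * (sy E D * conj (sy D B)) * sy (dl' σ i) D *
    (conj (gs (dl' σ i * σ * r * ν ^ 2 * D) d) *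
      om ((nm (r * ν ^ 2 * D) : ℝ) / (A * nm d)))

open Classical in
theorem shellK {σ : Eis} {J M : ℕ} {Ft : ℝ → ℂ} {c H : ℝ} {ϑ : ℝ → ℝ} {om : IX σ → ℝ → ℂ}
    (hK : KD σ J M Ft c H ϑ om) {R X A : ℝ} (hR : 1 ≤ R) (hX : 1 ≤ X) (hA : 0 < A)
    {E ν : Eis} {α : Eis → ℂ} (hν : IsPrim ν) (hα : Cf α ν)
    (hαX : ∀ n, α n ≠ 0 → X / 2 < nm n ∧ (nm n : ℝ) ≤ X) {N : Eis → ℕ} {MD : Eis → ℕ → ℝ}
    (hD : DH J R X σ E ν α N MD) {B : Eis} (hB : B ∈ S X) (i : IX σ) {j : ℕ} (hj : j < N B) :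
    ∑ r ∈ (S R).filter (fun r => IsCoprime r ν ∧ R / 2 < nm r),
      ‖∑ d ∈ sh j, (((nm d : ℝ)⁻¹ : ℝ) : ℂ) * XTk α E B σ i r ν (om i) A d‖ ^ 2 ≤
      (c * ϑ (R * (nm ν : ℝ) ^ 2 * (X / nm B) / (A * 2 ^ j)) * c2) ^ 2 * MD B j := by
  have hX0 : (0 : ℝ) ≤ X := by linarith
  have hR0 : (0 : ℝ) ≤ R := by linarith
  obtain ⟨hBX, hB1, hBs⟩ := (mem_S hX0).mp hB
  have hNB : (1 : ℝ) ≤ nm B := one_le_nm hB1.ne_zero
  have hNν : (1 : ℝ) ≤ nm ν := one_le_nm hν.ne_zero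
  set Z : ℝ := 2 ^ j with hZdef
  have hZ : 1 ≤ Z := one_le_pow₀ (by norm_num)
  set τ : Eis := dl' σ i with hτ
  set U : ℝ := R * (nm ν : ℝ) ^ 2 * (X / nm B) with hU
  have hU0 : 0 < U := by rw [hU]; positivity
  obtain ⟨kk, hk1, hk2, hk3, hk4⟩ := hK.sep i A U Z hA hU0 (by linarith)
  have hth := hK.th0 (U / (A * Z)) (by positivity)
  have hc0 := hK.c0
  have hMD := hD.nonneg hB hj
  set TD : Finset Eis := (hα.fs.sub hB1).fin.toFinset with hTD
  have hTm : ∀ D, D ∈ TD ↔ α (B * D) ≠ 0 := by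
    intro D
    rw [hTD, Set.Finite.mem_toFinset, Function.mem_support]
    rfl
  set G : Eis → Eis → Eis → ℂ := fun r d D => (((nm d : ℝ)⁻¹ : ℝ) : ℂ) *
    (α (B * D) * (sy E D * conj (sy D B)) * sy τ D * conj (gs (τ * σ * r * ν ^ 2 * D) d)) with hG
  set nu : Eis → Eis → ℝ := fun r D => (nm (r * ν ^ 2 * D) : ℝ) with hnu
  set x : Eis → ℝ → ℂ := fun r t => ∑ d ∈ sh j, ∑ D ∈ TD, G r d D *
    (osc t (-Real.log (nu r D / U)) * osc t (Real.log ((nm d : ℝ) / Z))) with hx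
  refine mink ((S R).filter (fun r => IsCoprime r ν ∧ R / 2 < nm r)) (kk := kk) (x := x)
    (a := fun r => ∑ d ∈ sh j, (((nm d : ℝ)⁻¹ : ℝ) : ℂ) * XTk α E B σ i r ν (om i) A d)
    (V := MD B j) (c := c * ϑ (U / (A * Z))) (J := J) hMD (by positivity) ?_ ?_ hk3 ?_
  · -- the separated form
    intro r hr
    rw [Finset.mem_filter, mem_S hR0] at hr
    obtain ⟨⟨hrR, hr1, hrs⟩, hrν, hrR2⟩ := hr
    have e1 : (fun t => kk t * x r t) = fun t => ∑ d ∈ sh j, ∑ D ∈ TD, G r d D *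
        (kk t * (osc t (-Real.log (nu r D / U)) * osc t (Real.log ((nm d : ℝ) / Z)))) := by
      funext t
      simp only [hx]
      rw [Finset.mul_sum]
      refine Finset.sum_congr rfl fun d _ => ?_
      rw [Finset.mul_sum]
      exact Finset.sum_congr rfl fun D _ => by ring
    rw [e1, integral_finsetSum _ fun d _ => integrable_finsetSum _ fun D _ =>
      (integrable_kk hk2 _ _).const_mul _]
    refine Finset.sum_congr rfl fun d hd => ?_
    rw [integral_finsetSum _ fun D _ => (integrable_kk hk2 _ _).const_mul _]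
    obtain ⟨⟨hdZ, hd1⟩, hdZ2⟩ := mem_sh.mp hd
    unfold XTk
    rw [tsum_eq_sum (s := TD), Finset.mul_sum]
    · refine Finset.sum_congr rfl fun D hD => ?_
      have hD0 := (hTm D).mp hD
      have hBD := hα.fs.prim _ hD0
      have hD1 : IsPrim D := hBD.of_mul_left hB1
      have hND : (1 : ℝ) ≤ nm D := one_le_nm hD1.ne_zero
      have hNr : (1 : ℝ) ≤ nm r := one_le_nm hr1.ne_zero
      have hNd : (1 : ℝ) ≤ nm d := one_le_nm hd1.ne_zero
      obtain ⟨hX1, hX2⟩ := hαX _ hD0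
      rw [nm_mul, Nat.cast_mul] at hX1 hX2
      have hnuv : nu r D = (nm r : ℝ) * (nm ν : ℝ) ^ 2 * nm D := by
        simp only [hnu]
        rw [nm_mul, nm_mul, nm_pow]
        push_cast
        ring
      have hnu0 : 0 < nu r D := by rw [hnuv]; positivity
      have hq : nu r D / U = ((nm r : ℝ) / R) * ((nm B : ℝ) * nm D / X) := by
        rw [hnuv, hU]
        field_simp
      have hq1 : (nm r : ℝ) / R ≤ 1 := (div_le_one (by linarith)).mpr hrR
      have hq2 : 1 / 2 ≤ (nm r : ℝ) / R := by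
        rw [le_div_iff₀ (by linarith)]; linarith
      have hq3 : (nm B : ℝ) * nm D / X ≤ 1 := (div_le_one (by linarith)).mpr hX2
      have hq4 : 1 / 2 ≤ (nm B : ℝ) * nm D / X := by
        rw [le_div_iff₀ (by linarith)]; linarith
      have h1 : |Real.log (nu r D / U)| ≤ 2 := by
        apply abs_log_le
        · rw [hq]
          refine exp_neg_two_le.trans ?_
          calc (1 : ℝ) / 4 = 1 / 2 * (1 / 2) := by norm_num
            _ ≤ _ := mul_le_mul hq2 hq4 (by norm_num) (by positivity)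
        · rw [hq]
          have := exp_two_ge
          calc (nm r : ℝ) / R * ((nm B : ℝ) * nm D / X) ≤ 1 * 1 :=
                mul_le_mul hq1 hq3 (by positivity) (by norm_num)
            _ ≤ _ := by linarith
      have h2 : |Real.log ((nm d : ℝ) / Z)| ≤ 2 := by
        apply abs_log_le
        · refine exp_neg_two_le.trans ?_
          rw [le_div_iff₀ (by linarith)]
          linarith
        · have := exp_two_ge
          have h3 : (nm d : ℝ) / Z ≤ 1 := (div_le_one (by linarith)).mpr hdZ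
          linarith
      rw [integral_const_mul, ← hk4 (nu r D) (nm d) hnu0 (by linarith) h1 h2]
      simp only [hG, hnu]
      ring
    · intro D hD
      rw [hTm, not_not] at hD
      rw [hD]
      ring
  · -- integrability
    intro r _
    have e1 : (fun t => kk t * x r t) = fun t => ∑ d ∈ sh j, ∑ D ∈ TD, G r d D *
        (kk t * (osc t (-Real.log (nu r D / U)) * osc t (Real.log ((nm d : ℝ) / Z)))) := by
      funext t
      simp only [hx]
      rw [Finset.mul_sum]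
      refine Finset.sum_congr rfl fun d _ => ?_
      rw [Finset.mul_sum]
      exact Finset.sum_congr rfl fun D _ => by ring
    rw [e1]
    exact integrable_finsetSum _ fun d _ => integrable_finsetSum _ fun D _ =>
      (integrable_kk hk2 _ _).const_mul _
  · -- the large sieve
    intro t
    set b : Eis → ℂ := fun d => if Z / 2 < nm d then
      (((nm d : ℝ)⁻¹ : ℝ) : ℂ) * osc t (Real.log ((nm d : ℝ) / Z)) else 0 with hb
    have h1 := hD B hB i t j hj b ?_ ?_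
    rotate_left
    · intro d
      simp only [hb]
      split_ifs
      · rw [norm_mul, norm_osc, mul_one, Complex.norm_real, Real.norm_of_nonneg (by positivity)]
      · rw [norm_zero]; positivity
    · intro d hd
      by_contra h
      apply hd
      simp only [hb]
      rw [if_neg h]
    rw [mul_comm (MD B j)]
    refine le_trans (le_of_eq ?_) h1
    refine Finset.sum_congr rfl fun r hr => ?_
    rw [Finset.mem_filter, mem_S hR0] at hr
    obtain ⟨⟨hrR, hr1, hrs⟩, hrν, hrR2⟩ := hr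
    have hNr : (1 : ℝ) ≤ nm r := one_le_nm hr1.ne_zero
    have h4 : x r t = osc t (-Real.log ((nm r : ℝ) * (nm ν : ℝ) ^ 2 / U)) *
        ∑ d ∈ pb Z, b d * ∑' D : Eis, cT α E B τ t D *
          conj (gs (τ * σ * r * ν ^ 2 * D) d) := by
      simp only [hx]
      have e2 : ∑ d ∈ pb Z, b d * ∑' D : Eis, cT α E B τ t D *
          conj (gs (τ * σ * r * ν ^ 2 * D) d) = ∑ d ∈ sh j, b d * ∑' D : Eis,
          cT α E B τ t D * conj (gs (τ * σ * r * ν ^ 2 * D) d) := by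
        symm
        refine Finset.sum_subset (Finset.filter_subset _ _) fun d hd hd' => ?_
        have h5 : ¬ (Z / 2 < nm d) := fun h => hd' (by
          rw [mem_sh]
          exact ⟨(mem_pb (by linarith)).mp hd, h⟩)
        simp only [hb]
        rw [if_neg h5, zero_mul]
      rw [e2, Finset.mul_sum]
      refine Finset.sum_congr rfl fun d hd => ?_
      obtain ⟨⟨hdZ, hd1⟩, hdZ2⟩ := mem_sh.mp hd
      rw [tsum_eq_sum (s := TD), Finset.mul_sum, Finset.mul_sum]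
      · refine Finset.sum_congr rfl fun D hD => ?_
        have hD0 := (hTm D).mp hD
        have hD1 : IsPrim D := (hα.fs.prim _ hD0).of_mul_left hB1
        have hND : (1 : ℝ) ≤ nm D := one_le_nm hD1.ne_zero
        have e3 : -Real.log (nu r D / U) =
            -Real.log ((nm r : ℝ) * (nm ν : ℝ) ^ 2 / U) + -Real.log (nm D) := by
          simp only [hnu]
          rw [nm_mul, nm_mul, nm_pow]
          push_cast
          rw [mul_div_right_comm, Real.log_mul (by positivity) (by positivity)]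
          ring
        simp only [hG, hb]
        rw [if_pos hdZ2, e3, Weight600.osc_add_right]
        unfold cT
        ring
      · intro D hD
        rw [hTm, not_not] at hD
        unfold cT
        rw [hD]
        ring
    rw [h4, norm_mul, norm_osc, one_mul]

/-- the dual sum -/
def YTk (α : Eis → ℂ) (E B σ : Eis) (i : IX σ) (r ν : Eis) (om : ℝ → ℂ) (A : ℝ) : ℂ := by
  classical
  exact ∑' d : Eis, if IsPrim d then (((nm d : ℝ)⁻¹ : ℝ) : ℂ) * XTk α E B σ i r ν om A d else 0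

lemma XTk_le {σ : Eis} {J M : ℕ} {Ft : ℝ → ℂ} {c H : ℝ} {ϑ : ℝ → ℝ} {om : IX σ → ℝ → ℂ}
    (hK : KD σ J M Ft c H ϑ om) {R X A : ℝ} (hR : 1 ≤ R) (hX : 1 ≤ X) (hA : 0 < A)
    {E ν : Eis} {α : Eis → ℂ} (hν : IsPrim ν) (hα : Cf α ν) (hαX : ∀ n, α n ≠ 0 → (nm n : ℝ) ≤ X)
    {B : Eis} (hB : B ∈ S X) (i : IX σ) {r d : Eis} (hr : IsPrim r) (hrR : (nm r : ℝ) ≤ R)
    (hd : IsPrim d) :
    ‖(((nm d : ℝ)⁻¹ : ℝ) : ℂ) * XTk α E B σ i r ν (om i) A d‖ ≤
      L1 α X * (c * (H * (R * (nm ν : ℝ) ^ 2 * (X / nm B)) / (A * nm d)) ^ (M + 2)) := by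
  have hX0 : (0 : ℝ) ≤ X := by linarith
  have hc0 := hK.c0
  have hH := hK.H1
  obtain ⟨hBX, hB1, hBs⟩ := (mem_S hX0).mp hB
  have hNB : (1 : ℝ) ≤ nm B := one_le_nm hB1.ne_zero
  have hNν : (1 : ℝ) ≤ nm ν := one_le_nm hν.ne_zero
  have hNd : (1 : ℝ) ≤ nm d := one_le_nm hd.ne_zero
  have hNr : (1 : ℝ) ≤ nm r := one_le_nm hr.ne_zero
  set TD : Finset Eis := (hα.fs.sub hB1).fin.toFinset with hTD
  have hTm : ∀ D, D ∈ TD ↔ α (B * D) ≠ 0 := by
    intro D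
    rw [hTD, Set.Finite.mem_toFinset, Function.mem_support]
    rfl
  set b : ℝ := c * (H * (R * (nm ν : ℝ) ^ 2 * (X / nm B)) / (A * nm d)) ^ (M + 2) with hb
  have hb0 : 0 ≤ b := by positivity
  have e1 : XTk α E B σ i r ν (om i) A d = ∑ D ∈ TD, α (B * D) * (sy E D * conj (sy D B)) *
      sy (dl' σ i) D * (conj (gs (dl' σ i * σ * r * ν ^ 2 * D) d) *
      om i ((nm (r * ν ^ 2 * D) : ℝ) / (A * nm d))) := by
    unfold XTk
    refine tsum_eq_sum fun D hD => ?_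
    rw [hTm, not_not] at hD
    rw [hD]; ring
  rw [e1, norm_mul, Complex.norm_real, Real.norm_of_nonneg (by positivity)]
  have h1 : ‖∑ D ∈ TD, α (B * D) * (sy E D * conj (sy D B)) * sy (dl' σ i) D *
      (conj (gs (dl' σ i * σ * r * ν ^ 2 * D) d) *
      om i ((nm (r * ν ^ 2 * D) : ℝ) / (A * nm d)))‖ ≤ ∑ D ∈ TD, ‖α (B * D)‖ * (nm d * b) := by
    refine (norm_sum_le _ _).trans (Finset.sum_le_sum fun D hD => ?_)
    have hD0 := (hTm D).mp hD
    have hBD := hα.fs.prim _ hD0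
    have hD1 : IsPrim D := hBD.of_mul_left hB1
    have hND : (1 : ℝ) ≤ nm D := one_le_nm hD1.ne_zero
    have hX2 := hαX _ hD0
    rw [nm_mul, Nat.cast_mul] at hX2
    rw [norm_mul, norm_mul, norm_mul, norm_mul, norm_mul, RCLike.norm_conj, RCLike.norm_conj]
    have h2 : ‖sy E D‖ * ‖sy D B‖ ≤ 1 :=
      mul_le_one₀ (norm_sy_le1 hD1) (norm_nonneg _) (norm_sy_le1 hB1)
    have h3 : ‖sy (dl' σ i) D‖ ≤ 1 := norm_sy_le1 hD1
    have h4 : ‖gs (dl' σ i * σ * r * ν ^ 2 * D) d‖ ≤ nm d := norm_gs_le' _ hd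
    have hnu : (nm (r * ν ^ 2 * D) : ℝ) = (nm r : ℝ) * (nm ν : ℝ) ^ 2 * nm D := by
      rw [nm_mul, nm_mul, nm_pow]; push_cast; ring
    have h5 : ‖om i ((nm (r * ν ^ 2 * D) : ℝ) / (A * nm d))‖ ≤ b := by
      refine (hK.bd i _ (by rw [hnu]; positivity)).trans ?_
      rw [hb]
      refine mul_le_mul_of_nonneg_left ((min_le_right _ _).trans ?_) (by positivity)
      refine pow_le_pow_left₀ (by positivity) ?_ (M + 2)
      rw [mul_div_assoc]
      refine mul_le_mul_of_nonneg_left ?_ (by positivity)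
      refine div_le_div_of_nonneg_right ?_ (by positivity)
      rw [hnu]
      have h6 : (nm D : ℝ) ≤ X / nm B := by
        rw [le_div_iff₀ (by linarith)]; linarith
      exact mul_le_mul (mul_le_mul_of_nonneg_right hrR (by positivity)) h6 (by positivity)
        (by positivity)
    calc ‖α (B * D)‖ * (‖sy E D‖ * ‖sy D B‖) * ‖sy (dl' σ i) D‖ *
        (‖gs (dl' σ i * σ * r * ν ^ 2 * D) d‖ * ‖om i ((nm (r * ν ^ 2 * D) : ℝ) / (A * nm d))‖)
        ≤ ‖α (B * D)‖ * 1 * 1 * (nm d * b) := by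
          refine mul_le_mul ?_ (mul_le_mul h4 h5 (norm_nonneg _) (by positivity)) (by positivity)
            (by positivity)
          exact mul_le_mul (mul_le_mul_of_nonneg_left h2 (norm_nonneg _)) h3 (norm_nonneg _)
            (by positivity)
      _ = _ := by ring
  rw [← Finset.sum_mul] at h1
  have h7 := sum_sub_le hX0 hα.fs hα.sqf hαX hB1.ne_zero TD (fun D hD => (hTm D).mp hD)
  calc (nm d : ℝ)⁻¹ * ‖_‖ ≤ (nm d : ℝ)⁻¹ * ((∑ D ∈ TD, ‖α (B * D)‖) * (nm d * b)) :=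
        mul_le_mul_of_nonneg_left h1 (by positivity)
    _ = (∑ D ∈ TD, ‖α (B * D)‖) * b := by field_simp
    _ ≤ L1 α X * b := mul_le_mul_of_nonneg_right h7 hb0

lemma summable_pieceK {σ : Eis} {J M : ℕ} {Ft : ℝ → ℂ} {c H : ℝ} {ϑ : ℝ → ℝ}
    {om : IX σ → ℝ → ℂ} (hK : KD σ J M Ft c H ϑ om) (i : IX σ) {A nu : ℝ}
    (hA : 0 < A) (hnu : 0 < nu) (u : Eis) : open Classical in
    Summable fun d : Eis => if IsPrim d then
      conj (gs u d) * ((((nm d : ℝ)⁻¹ : ℝ) : ℂ) * om i (nu / (A * nm d))) else 0 := by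
  classical
  have hc0 := hK.c0
  have hH := hK.H1
  refine Summable.of_norm_bounded
    (summable_nm2.mul_left (c * (H * nu / A) ^ (M + 2))) fun d => ?_
  split_ifs with hd
  · have hNd : (1 : ℝ) ≤ nm d := one_le_nm hd.ne_zero
    have h4 : ‖gs u d‖ ≤ nm d := norm_gs_le' _ hd
    have h5 := hK.bd i (nu / (A * nm d)) (by positivity)
    rw [norm_mul, norm_mul, RCLike.norm_conj, Complex.norm_real,
      Real.norm_of_nonneg (by positivity)]
    have e1 : (H * (nu / (A * nm d))) ^ (M + 2) = (H * nu / A) ^ (M + 2) * ((nm d : ℝ) ^ (M + 2))⁻¹ := by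
      rw [← inv_pow, ← mul_pow]
      congr 1
      field_simp
    have h6 : ((nm d : ℝ) ^ (M + 2))⁻¹ ≤ ((nm d : ℝ) ^ 2)⁻¹ := by
      refine inv_anti₀ (by positivity) ?_
      exact pow_le_pow_right₀ hNd (by omega)
    calc ‖gs u d‖ * ((nm d : ℝ)⁻¹ * ‖om i (nu / (A * nm d))‖)
        ≤ nm d * ((nm d : ℝ)⁻¹ * (c * (H * (nu / (A * nm d))) ^ (M + 2))) := by
          refine mul_le_mul h4 ?_ (by positivity) (by positivity)
          refine mul_le_mul_of_nonneg_left (h5.trans ?_) (by positivity)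
          exact mul_le_mul_of_nonneg_left (min_le_right _ _) (by positivity)
      _ = c * (H * (nu / (A * nm d))) ^ (M + 2) := by field_simp
      _ = c * (H * nu / A) ^ (M + 2) * ((nm d : ℝ) ^ (M + 2))⁻¹ := by rw [e1]; ring
      _ ≤ _ := mul_le_mul_of_nonneg_left h6 (by positivity)
  · rw [norm_zero]; positivity

open Classical in
theorem YTk_eq {σ : Eis} {J M : ℕ} {Ft : ℝ → ℂ} {c H : ℝ} {ϑ : ℝ → ℝ}
    {om : IX σ → ℝ → ℂ} (hK : KD σ J M Ft c H ϑ om) {α : Eis → ℂ} {E B : Eis} (hB : IsPrim B)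
    (i : IX σ) {r ν : Eis} (hr : IsPrim r) (hν : IsPrim ν) (hα : FS α) {A : ℝ} (hA : 0 < A) :
    YTk α E B σ i r ν (om i) A =
      ∑' D : Eis, α (B * D) * (sy E D * conj (sy D B)) * sy (dl' σ i) D *
      ∑' d : Eis, (if IsPrim d then conj (gs (dl' σ i * σ * (r * ν ^ 2 * D)) d) *
        ((((nm d : ℝ)⁻¹ : ℝ) : ℂ) * om i ((nm (r * ν ^ 2 * D) : ℝ) / (A * nm d))) else 0) := by
  set TD : Finset Eis := (hα.sub hB).fin.toFinset with hTD
  have hTm : ∀ D, D ∈ TD ↔ α (B * D) ≠ 0 := by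
    intro D
    rw [hTD, Set.Finite.mem_toFinset, Function.mem_support]
    rfl
  have e1 : ∀ D, dl' σ i * σ * (r * ν ^ 2 * D) = dl' σ i * σ * r * ν ^ 2 * D := fun D => by ring
  unfold YTk XTk
  rw [tsum_eq_sum (s := TD) (f := fun D : Eis => α (B * D) * (sy E D * conj (sy D B)) *
    sy (dl' σ i) D * ∑' d : Eis, (if IsPrim d then conj (gs (dl' σ i * σ * (r * ν ^ 2 * D)) d) *
        ((((nm d : ℝ)⁻¹ : ℝ) : ℂ) * om i ((nm (r * ν ^ 2 * D) : ℝ) / (A * nm d))) else 0))]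
  · have e2 : ∀ d : Eis, (if IsPrim d then (((nm d : ℝ)⁻¹ : ℝ) : ℂ) *
        ∑' D : Eis, α (B * D) * (sy E D * conj (sy D B)) * sy (dl' σ i) D *
          (conj (gs (dl' σ i * σ * r * ν ^ 2 * D) d) *
            om i ((nm (r * ν ^ 2 * D) : ℝ) / (A * nm d))) else 0) =
        ∑ D ∈ TD, α (B * D) * (sy E D * conj (sy D B)) * sy (dl' σ i) D *
          (if IsPrim d then conj (gs (dl' σ i * σ * (r * ν ^ 2 * D)) d) *
        ((((nm d : ℝ)⁻¹ : ℝ) : ℂ) * om i ((nm (r * ν ^ 2 * D) : ℝ) / (A * nm d))) else 0) := by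
      intro d
      split_ifs with hd
      · rw [tsum_eq_sum (s := TD), Finset.mul_sum]
        · refine Finset.sum_congr rfl fun D _ => ?_
          rw [e1]; ring
        · intro D hD
          rw [hTm, not_not] at hD
          rw [hD]; ring
      · simp
    rw [tsum_congr e2, Summable.tsum_finsetSum]
    · exact Finset.sum_congr rfl fun D _ => tsum_mul_left
    · intro D hD
      have hD1 : IsPrim D := (hα.prim _ ((hTm D).mp hD)).of_mul_left hB
      have hnu : (0 : ℝ) < nm (r * ν ^ 2 * D) := by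
        exact_mod_cast nm_pos.2 ((hr.mul (hν.pow 2)).mul hD1).ne_zero
      exact (summable_pieceK hK i hA hnu _).mul_left _
  · intro D hD
    rw [hTm, not_not] at hD
    rw [hD]; ring

theorem QBk_Du {σ : Eis} {J M : ℕ} {Ft : ℝ → ℂ} {c H : ℝ} {ϑ : ℝ → ℝ}
    {om : IX σ → ℝ → ℂ} (hK : KD σ J M Ft c H ϑ om) {α : Eis → ℂ} {E B : Eis} (hB : IsPrim B)
    {r ν : Eis} (hr : IsPrim r) (hν : IsPrim ν) (hα : FS α) {A : ℝ} (hA : 0 < A) :
    QB α E B (fun _ D => Du (σ * r * ν ^ 2 * D) (Wf (fA Ft A))) =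
      ((A ^ (1 / 3 : ℝ) : ℝ) : ℂ) * ∑ i : IX σ, sy (dl' σ i) (r * ν ^ 2) *
        YTk α E B σ i r ν (om i) A := by
  classical
  set TD : Finset Eis := (hα.sub hB).fin.toFinset with hTD
  have hTm : ∀ D, D ∈ TD ↔ α (B * D) ≠ 0 := by
    intro D
    rw [hTD, Set.Finite.mem_toFinset, Function.mem_support]
    rfl
  have h1 : ∀ i : IX σ, YTk α E B σ i r ν (om i) A =
      ∑ D ∈ TD, α (B * D) * (sy E D * conj (sy D B)) *
      sy (dl' σ i) D * ∑' d : Eis, (if IsPrim d then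
        conj (gs (dl' σ i * σ * (r * ν ^ 2 * D)) d) * ((((nm d : ℝ)⁻¹ : ℝ) : ℂ) *
          om i ((nm (r * ν ^ 2 * D) : ℝ) / (A * nm d))) else 0) := by
    intro i
    rw [YTk_eq hK hB i hr hν hα hA]
    refine tsum_eq_sum fun D hD => ?_
    rw [hTm, not_not] at hD
    rw [hD]; ring
  unfold QB
  rw [tsum_eq_sum (s := TD)]
  · have h2 : ∀ D ∈ TD, α (B * D) * (sy E D * conj (sy D B)) *
        Du (σ * r * ν ^ 2 * D) (Wf (fA Ft A)) =
        ∑ i : IX σ, ((A ^ (1 / 3 : ℝ) : ℝ) : ℂ) * (sy (dl' σ i) (r * ν ^ 2) *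
          (α (B * D) * (sy E D * conj (sy D B)) * sy (dl' σ i) D *
          ∑' d : Eis, (if IsPrim d then
        conj (gs (dl' σ i * σ * (r * ν ^ 2 * D)) d) * ((((nm d : ℝ)⁻¹ : ℝ) : ℂ) *
          om i ((nm (r * ν ^ 2 * D) : ℝ) / (A * nm d))) else 0))) := by
      intro D hD
      have hD1 : IsPrim D := (hα.prim _ ((hTm D).mp hD)).of_mul_left hB
      have hv : IsPrim (r * ν ^ 2 * D) := (hr.mul (hν.pow 2)).mul hD1
      have e1 : σ * r * ν ^ 2 * D = σ * (r * ν ^ 2 * D) := by ring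
      rw [e1, hK.du _ hv A hA, Finset.mul_sum, Finset.mul_sum]
      refine Finset.sum_congr rfl fun i _ => ?_
      rw [syAx.mul_right _ _ _ (hr.mul (hν.pow 2)) hD1]
      ring
    rw [Finset.sum_congr rfl h2, Finset.sum_comm, Finset.mul_sum]
    refine Finset.sum_congr rfl fun i _ => ?_
    rw [h1 i, Finset.mul_sum, Finset.mul_sum]
  · intro D hD
    rw [hTm, not_not] at hD
    rw [hD]; ring

theorem YTk_tail {σ : Eis} {J M : ℕ} {Ft : ℝ → ℂ} {c H : ℝ} {ϑ : ℝ → ℝ} {om : IX σ → ℝ → ℂ}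
    (hK : KD σ J M Ft c H ϑ om) {R X A T : ℝ} (hR : 1 ≤ R) (hX : 1 ≤ X) (hA : 0 < A) (hT : 1 ≤ T)
    {E ν : Eis} {α : Eis → ℂ} (hν : IsPrim ν) (hα : Cf α ν) (hαX : ∀ n, α n ≠ 0 → (nm n : ℝ) ≤ X)
    {B : Eis} (hB : B ∈ S X) (i : IX σ) {r : Eis} (hr : IsPrim r) (hrR : (nm r : ℝ) ≤ R) {N : ℕ}
    (hN : 2 * T * (H * (R * (nm ν : ℝ) ^ 2 * (X / nm B))) ≤ A * 2 ^ N) :
    ‖YTk α E B σ i r ν (om i) A - ∑ j ∈ Finset.range N, ∑ d ∈ sh j,
      (((nm d : ℝ)⁻¹ : ℝ) : ℂ) * XTk α E B σ i r ν (om i) A d‖ ≤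
      L1 α X * (c * K0 * (H * (R * (nm ν : ℝ) ^ 2 * (X / nm B)) / A) ^ 2 * (T ^ M)⁻¹) := by
  classical
  have hX0 : (0 : ℝ) ≤ X := by linarith
  have hc0 := hK.c0
  have hH := hK.H1
  have hK00 := K0_nonneg
  obtain ⟨hBX, hB1, hBs⟩ := (mem_S hX0).mp hB
  have hNB : (1 : ℝ) ≤ nm B := one_le_nm hB1.ne_zero
  have hNν : (1 : ℝ) ≤ nm ν := one_le_nm hν.ne_zero
  set U : ℝ := H * (R * (nm ν : ℝ) ^ 2 * (X / nm B)) with hU
  have hU0 : 0 < U := by rw [hU]; positivity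
  have hL := L1_nonneg α X
  set g : Eis → ℂ := fun d => (((nm d : ℝ)⁻¹ : ℝ) : ℂ) * XTk α E B σ i r ν (om i) A d with hg
  have hb : ∀ d, IsPrim d → ‖g d‖ ≤ L1 α X * (c * (U / (A * nm d)) ^ (M + 2)) :=
    fun d hd => XTk_le hK hR hX hA hν hα hαX hB i hr hrR hd
  have hsum : Summable (fun d : Eis => if IsPrim d then g d else 0) := by
    refine Summable.of_norm_bounded
      (summable_nm2.mul_left (L1 α X * (c * (U / A) ^ (M + 2)))) fun d => ?_
    split_ifs with hd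
    · have hNd : (1 : ℝ) ≤ nm d := one_le_nm hd.ne_zero
      refine (hb d hd).trans ?_
      rw [mul_assoc (L1 α X)]
      refine mul_le_mul_of_nonneg_left ?_ hL
      rw [mul_assoc c]
      refine mul_le_mul_of_nonneg_left ?_ (by positivity)
      have e1 : U / (A * nm d) = U / A * (nm d : ℝ)⁻¹ := by field_simp
      rw [e1, mul_pow]
      refine mul_le_mul_of_nonneg_left ?_ (by positivity)
      rw [inv_pow]
      refine inv_anti₀ (by positivity) ?_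
      exact pow_le_pow_right₀ hNd (by omega)
    · rw [norm_zero]; positivity
  have h1 := shells_split hsum N
  have h2 : YTk α E B σ i r ν (om i) A - ∑ j ∈ Finset.range N, ∑ d ∈ sh j, g d =
      ∑' d : Eis, (if IsPrim d ∧ (2 : ℝ) ^ N / 2 < nm d then g d else 0) := by
    unfold YTk
    rw [h1]; ring
  show ‖YTk α E B σ i r ν (om i) A - ∑ j ∈ Finset.range N, ∑ d ∈ sh j, g d‖ ≤ _
  rw [h2]
  have h3 : ‖∑' d : Eis, (if IsPrim d ∧ (2 : ℝ) ^ N / 2 < nm d then g d else 0)‖ ≤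
      (L1 α X * (c * ((U / A) ^ 2 * (T ^ M)⁻¹))) * K0 := by
    unfold K0
    rw [← tsum_mul_left]
    refine tsum_of_norm_bounded (summable_nm2.mul_left _).hasSum fun d => ?_
    split_ifs with hd
    · obtain ⟨hd1, hd2⟩ := hd
      have hNd : (1 : ℝ) ≤ nm d := one_le_nm hd1.ne_zero
      refine (hb d hd1).trans ?_
      rw [mul_assoc (L1 α X)]
      refine mul_le_mul_of_nonneg_left ?_ hL
      rw [mul_assoc c]
      refine mul_le_mul_of_nonneg_left ?_ (by positivity)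
      have h4 : T * U ≤ A * nm d := by
        have h5 : T * U ≤ A * (2 ^ N / 2) := by linarith
        exact h5.trans (mul_le_mul_of_nonneg_left hd2.le hA.le)
      have h6 : U / (A * nm d) ≤ T⁻¹ := by
        rw [div_le_iff₀ (by positivity), inv_mul_eq_div, le_div_iff₀ (by linarith)]
        linarith
      have e1 : (U / (A * nm d)) ^ 2 = (U / A) ^ 2 * ((nm d : ℝ) ^ 2)⁻¹ := by field_simp
      rw [pow_add, e1]
      have h7 : (U / (A * nm d)) ^ M ≤ (T ^ M)⁻¹ := by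
        rw [← inv_pow]
        exact pow_le_pow_left₀ (by positivity) h6 M
      calc (U / (A * nm d)) ^ M * ((U / A) ^ 2 * ((nm d : ℝ) ^ 2)⁻¹)
          ≤ (T ^ M)⁻¹ * ((U / A) ^ 2 * ((nm d : ℝ) ^ 2)⁻¹) :=
            mul_le_mul_of_nonneg_right h7 (by positivity)
        _ = _ := by ring
    · rw [norm_zero]; positivity
  refine h3.trans (le_of_eq ?_)
  ring

/-- the weighted shell form, dual side -/
def Gk (ϑ : ℝ → ℝ) (R X A : ℝ) (ν B : Eis) (MD : Eis → ℕ → ℝ) (N : ℕ) : ℝ :=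
  ∑ j ∈ Finset.range N, ϑ (R * (nm ν : ℝ) ^ 2 * (X / nm B) / (A * 2 ^ j)) ^ 2 * MD B j

open Classical in
theorem YTk_bd {σ : Eis} {J M : ℕ} {Ft : ℝ → ℂ} {c H : ℝ} {ϑ : ℝ → ℝ} {om : IX σ → ℝ → ℂ}
    (hK : KD σ J M Ft c H ϑ om) {R X A T : ℝ} (hR : 1 ≤ R) (hX : 1 ≤ X) (hA : 0 < A) (hT : 1 ≤ T)
    {E ν : Eis} {α : Eis → ℂ} (hν : IsPrim ν) (hα : Cf α ν)
    (hαX : ∀ n, α n ≠ 0 → X / 2 < nm n ∧ (nm n : ℝ) ≤ X) {N : Eis → ℕ} {MD : Eis → ℕ → ℝ}
    (hD : DH J R X σ E ν α N MD) {B : Eis} (hB : B ∈ S X) (i : IX σ)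
    (hN : 2 * T * (H * (R * (nm ν : ℝ) ^ 2 * (X / nm B))) ≤ A * 2 ^ N B) :
    ∑ r ∈ (S R).filter (fun r => IsCoprime r ν ∧ R / 2 < nm r),
      ‖YTk α E B σ i r ν (om i) A‖ ^ 2 ≤
      2 * (c2 ^ 2 + 100 * K0 ^ 2) * c ^ 2 * (N B + 1) * (Gk ϑ R X A ν B MD (N B) +
        R * (L1 α X * (H * (R * (nm ν : ℝ) ^ 2 * (X / nm B)) / A) ^ 2 * (T ^ M)⁻¹) ^ 2) := by
  have hc0 := hK.c0
  have hH := hK.H1
  have hK00 := K0_nonneg
  have hc20 := c2_nonneg
  have hR0 : (0 : ℝ) ≤ R := by linarith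
  have hX0 : (0 : ℝ) ≤ X := by linarith
  obtain ⟨hBX, hBp, hBs⟩ := (mem_S hX0).mp hB
  have hNB : (1 : ℝ) ≤ nm B := one_le_nm hBp.ne_zero
  have hNν : (1 : ℝ) ≤ nm ν := one_le_nm hν.ne_zero
  have hL := L1_nonneg α X
  set U : ℝ := H * (R * (nm ν : ℝ) ^ 2 * (X / nm B)) with hU
  set tl : ℝ := L1 α X * (c * K0 * (U / A) ^ 2 * (T ^ M)⁻¹) with htldef
  have htl0 : 0 ≤ tl := by rw [htldef]; positivity
  set P : ℕ → Eis → ℂ := fun j r => ∑ d ∈ sh j, (((nm d : ℝ)⁻¹ : ℝ) : ℂ) *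
    XTk α E B σ i r ν (om i) A d with hP
  have h1 : ∀ r ∈ (S R).filter (fun r => IsCoprime r ν ∧ R / 2 < nm r),
      ‖YTk α E B σ i r ν (om i) A‖ ^ 2 ≤
        2 * (N B + 1) * (∑ j ∈ Finset.range (N B), ‖P j r‖ ^ 2 + tl ^ 2) := by
    intro r hr
    rw [Finset.mem_filter, mem_S hR0] at hr
    obtain ⟨⟨hrR, hr1, hrs⟩, hrν, hrR2⟩ := hr
    have h2 := YTk_tail (E := E) hK hR hX hA hT hν hα (fun n hn => (hαX n hn).2) hB i hr1 hrR hN
    have h3 : ‖YTk α E B σ i r ν (om i) A‖ ≤ ∑ j ∈ Finset.range (N B), ‖P j r‖ + tl := by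
      calc ‖YTk α E B σ i r ν (om i) A‖ = ‖∑ j ∈ Finset.range (N B), P j r +
            (YTk α E B σ i r ν (om i) A - ∑ j ∈ Finset.range (N B), P j r)‖ := by congr 1; ring
        _ ≤ ‖∑ j ∈ Finset.range (N B), P j r‖ + ‖YTk α E B σ i r ν (om i) A -
            ∑ j ∈ Finset.range (N B), P j r‖ := norm_add_le _ _
        _ ≤ _ := add_le_add (norm_sum_le _ _) h2
    exact (pow_le_pow_left₀ (norm_nonneg _) h3 2).trans (sq_shells _ _)
  have h4 : ∀ j ∈ Finset.range (N B),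
      ∑ r ∈ (S R).filter (fun r => IsCoprime r ν ∧ R / 2 < nm r), ‖P j r‖ ^ 2 ≤
      (c * ϑ (R * (nm ν : ℝ) ^ 2 * (X / nm B) / (A * 2 ^ j)) * c2) ^ 2 * MD B j :=
    fun j hj => shellK hK hR hX hA hν hα hαX hD hB i (Finset.mem_range.mp hj)
  have hG0 : 0 ≤ Gk ϑ R X A ν B MD (N B) := by
    unfold Gk
    refine Finset.sum_nonneg fun j hj => ?_
    have := hD.nonneg hB (Finset.mem_range.mp hj)
    positivity
  calc ∑ r ∈ (S R).filter (fun r => IsCoprime r ν ∧ R / 2 < nm r),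
        ‖YTk α E B σ i r ν (om i) A‖ ^ 2
      ≤ ∑ r ∈ (S R).filter (fun r => IsCoprime r ν ∧ R / 2 < nm r),
        2 * (N B + 1) * (∑ j ∈ Finset.range (N B), ‖P j r‖ ^ 2 + tl ^ 2) :=
        Finset.sum_le_sum h1
    _ = 2 * (N B + 1) * (∑ j ∈ Finset.range (N B),
          ∑ r ∈ (S R).filter (fun r => IsCoprime r ν ∧ R / 2 < nm r), ‖P j r‖ ^ 2 +
          (((S R).filter (fun r => IsCoprime r ν ∧ R / 2 < nm r)).card : ℝ) * tl ^ 2) := by
        rw [← Finset.mul_sum, Finset.sum_add_distrib, Finset.sum_comm, Finset.sum_const,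
          nsmul_eq_mul]
    _ ≤ 2 * (N B + 1) * (c2 ^ 2 * c ^ 2 * Gk ϑ R X A ν B MD (N B) + (100 * R) * tl ^ 2) := by
        refine mul_le_mul_of_nonneg_left (add_le_add ?_ ?_) (by positivity)
        · unfold Gk
          rw [Finset.mul_sum]
          refine Finset.sum_le_sum fun j hj => (h4 j hj).trans (le_of_eq ?_)
          ring
        · refine mul_le_mul_of_nonneg_right ?_ (sq_nonneg _)
          have h5 : (((S R).filter (fun r => IsCoprime r ν ∧ R / 2 < nm r)).card : ℝ) ≤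
              (S R).card := by exact_mod_cast Finset.card_filter_le _ _
          exact h5.trans (card_S_le' hR)
    _ ≤ _ := by
        have e1 : (100 * R) * tl ^ 2 = 100 * K0 ^ 2 * c ^ 2 *
            (R * (L1 α X * (U / A) ^ 2 * (T ^ M)⁻¹) ^ 2) := by
          rw [htldef]; ring
        rw [e1]
        set W : ℝ := R * (L1 α X * (U / A) ^ 2 * (T ^ M)⁻¹) ^ 2 with hW
        have hW0 : 0 ≤ W := by rw [hW]; positivity
        set Gv : ℝ := Gk ϑ R X A ν B MD (N B) with hGv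
        have h6 : c2 ^ 2 * c ^ 2 * Gv + 100 * K0 ^ 2 * c ^ 2 * W ≤
            (c2 ^ 2 + 100 * K0 ^ 2) * c ^ 2 * (Gv + W) := by
          have a1 : 0 ≤ 100 * K0 ^ 2 * c ^ 2 * Gv := by positivity
          have a2 : 0 ≤ c2 ^ 2 * c ^ 2 * W := by positivity
          nlinarith
        calc 2 * ((N B : ℝ) + 1) * (c2 ^ 2 * c ^ 2 * Gv + 100 * K0 ^ 2 * c ^ 2 * W)
            ≤ 2 * ((N B : ℝ) + 1) * ((c2 ^ 2 + 100 * K0 ^ 2) * c ^ 2 * (Gv + W)) :=
              mul_le_mul_of_nonneg_left h6 (by positivity)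
          _ = _ := by ring

end Crest.Agent.R017.E2440
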