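import Crest.Agent.R017.X6W3_180

/-!
# Row 17 (helper180): the dual kernels at infinity, two-scale differences

* `om_inf` : `|om' v0 F i t - cI v0 F i| ≤ C S t^(-1/3)` for every `t > 0`
* `dom_bd` : `|om' v0 F i t - om' v0 F i (e^h t)| ≤ C S min (t^(-1/3)) (min 1 ((e^h t)^M))`, uniformly
  in `h ≥ 0`
* `dom_sep2` : separation of variables for the difference, uniformly in `h ≥ 0`.
-/

set_option autoImplicit false
set_option linter.unusedVariables false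

noncomputable section

open Complex MeasureTheory Set Filter Topology
open scoped ComplexConjugate SchwartzMap

namespace Crest.Agent.R017.OmInf180

open Crest.Agent.R012 Crest.Agent.R012.Eis
open Crest.Agent.R012.Weight600 (osc)
open Crest.Agent.R012.Parseval499 (frq s3 toC_s3_ne)
open Crest.Agent.R017.FE47 (SM BM)
open Crest.Agent.R017.Xi590 Crest.Agent.R017.Xn590
open Crest.Agent.R017.F1
open Crest.Agent.R017.X6545 (SU TF Bd)
open Crest.Agent.R017.X6B848 (fyw ev_fyw XB BD gr_Pg BD_fyw CS_fyw Pg Ts_le fCL poL)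
open Crest.Agent.R017.X6C180
open Crest.Agent.R017.X6W180
open Crest.Agent.R017.E1c146 (kernel_of_bounds)

/-! ### the kernel `fO` at infinity, uniformly in the test function -/

/-- `fO (fyw s F)` is rapidly decreasing, uniformly. -/
lemma fO_fyw {s : ℝ} (hs : s ≠ 0) (A : ℕ) : ∃ (k : ℕ) (C : ℝ), 0 ≤ C ∧ ∀ (F : ℝ → ℂ) (S : ℝ),
    TF F → Bd F k S → ∀ y : ℂ, 1 ≤ ‖y‖ → ‖fO (fyw s F) y‖ ≤ C * S * (‖y‖ ^ A)⁻¹ := by
  have h1 : BD Pg fun F : {F : ℝ → ℂ // TF F} => Ps (CS_fyw hs F.2) :=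
    BD.map gr_Pg (BD.map gr_Pg (BD_fyw hs) fCL) (poL 3 (by norm_num))
  obtain ⟨N, C, hC0, hC⟩ := BD.dec gr_Pg h1 (3 * A + 3)
  have hb := b0_pos
  have hC3 := C3_nonneg
  refine ⟨N, b0 * (C * 8 * C3), by positivity, fun F S hF hB y hy => ?_⟩
  have h2 := hC ⟨F, hF⟩ S hB
  have h3 : 1 ≤ ‖nrt 3 y‖ := by
    have h2 := norm_nrt3 y
    by_contra h3
    push Not at h3
    have h4 : ‖nrt 3 y‖ ^ 3 < 1 := pow_lt_one₀ (norm_nonneg _) h3 (by norm_num)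
    linarith
  have h4 := Ts_le (A := 3 * A) h2 h3
  rw [pow_mul, norm_nrt3] at h4
  rw [fO_eq_Ts (CS_fyw hs hF), norm_mul, Complex.norm_real, Real.norm_of_nonneg hb.le]
  calc b0 * ‖Ts (Ps (CS_fyw hs hF)) (nrt 3 y)‖ ≤ b0 * (C * S * 8 * C3 * (‖y‖ ^ A)⁻¹) := by gcongr
    _ = _ := by ring

/-- the value at infinity of `Wf (fyw s F)` -/
def W0 (F : ℝ → ℂ) : ℂ := (b0 : ℂ) * mA (fyw (-(4 / 3)) F)

lemma Wf_inf : ∃ (k : ℕ) (C : ℝ), 0 ≤ C ∧ ∀ (F : ℝ → ℂ) (S : ℝ),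
    TF F → Bd F k S → ‖W0 F‖ ≤ C * S ∧ ∀ y : ℂ, y ≠ 0 →
      ‖Wf (fyw (-(4 / 3)) F) y - W0 F‖ ≤ C * S * ‖y‖ ^ (-(2 / 3) : ℝ) := by
  have hs : (-(4 / 3) : ℝ) ≠ 0 := by norm_num
  obtain ⟨k1, C1, hC1, h1⟩ := fO_fyw hs 1
  obtain ⟨k2, C2, hC2, h2⟩ := XB hs 0
  have hb := b0_pos
  have hs3 : 0 < 2 / Real.sqrt 3 := by positivity
  refine ⟨max k1 k2, C1 + C2 + b0 * C2 + b0 * (2 / Real.sqrt 3) * C2, by positivity,
    fun F S hF hB => ?_⟩
  have hS : 0 ≤ S := (norm_nonneg _).trans (hB 0 (Nat.zero_le _) 0)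
  have h1' := h1 F S hF (bd_mono hB (le_max_left _ _))
  obtain ⟨a1, a2, a3⟩ := h2 F S hF (bd_mono hB (le_max_right _ _))
  have hW0 : ‖W0 F‖ ≤ b0 * C2 * S := by
    unfold W0
    rw [norm_mul, Complex.norm_real, Real.norm_of_nonneg hb.le, mul_assoc]
    gcongr
  have e1 : (C1 + C2 + b0 * C2 + b0 * (2 / Real.sqrt 3) * C2) * S =
      C1 * S + C2 * S + b0 * C2 * S + b0 * (2 / Real.sqrt 3) * C2 * S := by ring
  have p1 : 0 ≤ C1 * S := by positivity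
  have p2 : 0 ≤ C2 * S := by positivity
  have p3 : 0 ≤ b0 * C2 * S := by positivity
  have p4 : 0 ≤ b0 * (2 / Real.sqrt 3) * C2 * S := by positivity
  refine ⟨by rw [e1]; linarith, fun y hy => ?_⟩
  have hyp : 0 < ‖y‖ := norm_pos_iff.mpr hy
  rcases le_or_gt 1 ‖y‖ with hc | hc
  · have hn : (‖nrt 3 y‖ ^ 2)⁻¹ = ‖y‖ ^ (-(2 / 3) : ℝ) := by
      have ht : 0 < ‖nrt 3 y‖ := norm_pos_iff.mpr (nrt_ne_zero (by norm_num) hy)
      rw [← norm_nrt3 y, ← Real.rpow_natCast (‖nrt 3 y‖) 3, ← Real.rpow_mul ht.le,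
        ← Real.rpow_natCast (‖nrt 3 y‖) 2, ← Real.rpow_neg ht.le]
      norm_num
    have h3 : Wf (fyw (-(4 / 3)) F) y - W0 F = fO (fyw (-(4 / 3)) F) y -
        ((b0 * (2 / Real.sqrt 3) * (‖nrt 3 y‖ ^ 2)⁻¹ : ℝ) : ℂ) * mB (fyw (-(4 / 3)) F) := by
      unfold F1.Wf W0
      ring
    have h4 := h1' y hc
    rw [pow_one] at h4
    have h5 : ‖y‖⁻¹ ≤ ‖y‖ ^ (-(2 / 3) : ℝ) := by
      rw [← Real.rpow_neg_one]
      exact Real.rpow_le_rpow_of_exponent_le hc (by norm_num)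
    have hyr : 0 < ‖y‖ ^ (-(2 / 3) : ℝ) := by positivity
    rw [h3, hn]
    refine (norm_sub_le _ _).trans ?_
    rw [norm_mul, Complex.norm_real, Real.norm_of_nonneg (by positivity)]
    calc ‖fO (fyw (-(4 / 3)) F) y‖ + b0 * (2 / Real.sqrt 3) * ‖y‖ ^ (-(2 / 3) : ℝ) *
          ‖mB (fyw (-(4 / 3)) F)‖
        ≤ C1 * S * ‖y‖ ^ (-(2 / 3) : ℝ) + b0 * (2 / Real.sqrt 3) * ‖y‖ ^ (-(2 / 3) : ℝ) *
          (C2 * S) := by
          gcongr
          exact h4.trans (by gcongr)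
      _ = (C1 * S + b0 * (2 / Real.sqrt 3) * C2 * S) * ‖y‖ ^ (-(2 / 3) : ℝ) := by ring
      _ ≤ _ := by
          rw [e1]
          gcongr
          linarith
  · have h5 : 1 ≤ ‖y‖ ^ (-(2 / 3) : ℝ) :=
      Real.one_le_rpow_of_pos_of_le_one_of_nonpos hyp hc.le (by norm_num)
    have h6 := (a3 y hy).1.1
    calc ‖Wf (fyw (-(4 / 3)) F) y - W0 F‖ ≤ ‖Wf (fyw (-(4 / 3)) F) y‖ + ‖W0 F‖ := norm_sub_le _ _
      _ ≤ C2 * S + b0 * C2 * S := add_le_add h6 hW0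
      _ ≤ (C1 + C2 + b0 * C2 + b0 * (2 / Real.sqrt 3) * C2) * S * 1 := by
          rw [mul_one, e1]; linarith
      _ ≤ _ := by gcongr

lemma gg_inf : ∃ (k : ℕ) (C : ℝ), 0 ≤ C ∧ ∀ (F : ℝ → ℂ) (S : ℝ),
    TF F → Bd F k S → ∀ y : ℂ, y ≠ 0 →
      ‖gg (Wf (fyw (-(4 / 3)) F)) y‖ ≤ C * S * ‖y‖ ^ (-(2 / 3) : ℝ) := by
  obtain ⟨k, C, hC0, hC⟩ := Wf_inf
  have hk : (3 * toC s3 : ℂ) ≠ 0 := mul_ne_zero (by norm_num) toC_s3_ne
  set K : ℝ := ‖(3 * toC s3 : ℂ)‖ with hK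
  have hKp : 0 < K := norm_pos_iff.mpr hk
  refine ⟨k, C * (1 + (K ^ (-(2 / 3) : ℝ))⁻¹), by positivity, fun F S hF hB y hy => ?_⟩
  have hS : 0 ≤ S := (norm_nonneg _).trans (hB 0 (Nat.zero_le _) 0)
  have h1 := (hC F S hF hB).2 y hy
  have h2 := (hC F S hF hB).2 _ (div_ne_zero hy hk)
  rw [norm_div, ← hK, Real.div_rpow (norm_nonneg _) hKp.le] at h2
  have e : gg (Wf (fyw (-(4 / 3)) F)) y = (1 / 3 : ℂ) *
      ((Wf (fyw (-(4 / 3)) F) (y / (3 * toC s3)) - W0 F) - (Wf (fyw (-(4 / 3)) F) y - W0 F)) := by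
    unfold gg
    ring
  have hyr : 0 < ‖y‖ ^ (-(2 / 3) : ℝ) := by
    have : 0 < ‖y‖ := norm_pos_iff.mpr hy
    positivity
  rw [e, norm_mul, norm_third]
  have h3 := norm_sub_le (Wf (fyw (-(4 / 3)) F) (y / (3 * toC s3)) - W0 F)
    (Wf (fyw (-(4 / 3)) F) y - W0 F)
  have e2 : C * (1 + (K ^ (-(2 / 3) : ℝ))⁻¹) * S * ‖y‖ ^ (-(2 / 3) : ℝ) =
      C * S * ‖y‖ ^ (-(2 / 3) : ℝ) + C * S * (‖y‖ ^ (-(2 / 3) : ℝ) / K ^ (-(2 / 3) : ℝ)) := by
    rw [div_eq_mul_inv]; ring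
  have p1 : 0 ≤ C * S * ‖y‖ ^ (-(2 / 3) : ℝ) := by positivity
  have p2 : 0 ≤ C * S * (‖y‖ ^ (-(2 / 3) : ℝ) / K ^ (-(2 / 3) : ℝ)) := by positivity
  rw [e2]
  linarith

/-- the value of `om'` at infinity -/
def cI (v0 : Eis) (F : ℝ → ℂ) : IX v0 → ℂ
  | none => (2 / 3 : ℂ) * W0 F
  | some none => 0
  | some (some δ) => 0

lemma norm_sqrt_rpow {κ t : ℝ} (hκ : 0 < κ) (ht : 0 < t) :
    ‖((Real.sqrt (κ * t) : ℝ) : ℂ)‖ ^ (-(2 / 3) : ℝ) =
      κ ^ (-(1 / 3) : ℝ) * t ^ (-(1 / 3) : ℝ) := by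
  rw [Complex.norm_real, Real.norm_of_nonneg (Real.sqrt_nonneg _), Real.sqrt_eq_rpow,
    ← Real.rpow_mul (by positivity), Real.mul_rpow hκ.le ht.le]
  norm_num

lemma om_inf1 {v0 : Eis} (h0 : v0 ≠ 0) (i : IX v0) : ∃ (k : ℕ) (C : ℝ), 0 ≤ C ∧
    ∀ (F : ℝ → ℂ) (S : ℝ), TF F → Bd F k S → ∀ t : ℝ, 0 < t →
      ‖om' v0 F i t - cI v0 F i‖ ≤ C * S * t ^ (-(1 / 3) : ℝ) := by
  have hN0 : (0 : ℝ) < nm v0 := by exact_mod_cast nm_pos.2 h0
  obtain ⟨k1, C1, hC1, h1⟩ := Wf_inf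
  obtain ⟨k2, C2, hC2, h2⟩ := gg_inf
  have hsq : ∀ {κ : ℝ}, 0 < κ → ∀ {t : ℝ}, 0 < t → ((Real.sqrt (κ * t) : ℝ) : ℂ) ≠ 0 := by
    intro κ hκ t ht
    have := Real.sqrt_pos.mpr (mul_pos hκ ht)
    exact_mod_cast this.ne'
  rcases i with _ | _ | δ
  · refine ⟨k1, ‖(2 / 3 : ℂ)‖ * (C1 * (nm v0 : ℝ) ^ (-(1 / 3) : ℝ)), by positivity,
      fun F S hF hB t ht => ?_⟩
    have h3 := (h1 F S hF hB).2 _ (hsq hN0 ht)
    rw [norm_sqrt_rpow hN0 ht] at h3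
    have e : om' v0 F none t - cI v0 F none = (2 / 3 : ℂ) *
        (Wf (fyw (-(4 / 3)) F) ((Real.sqrt ((nm v0 : ℝ) * t) : ℝ) : ℂ) - W0 F) := by
      unfold om' cI pr
      ring
    rw [e, norm_mul]
    calc _ ≤ ‖(2 / 3 : ℂ)‖ * (C1 * S * ((nm v0 : ℝ) ^ (-(1 / 3) : ℝ) * t ^ (-(1 / 3) : ℝ))) := by
          gcongr
      _ = _ := by ring
  · refine ⟨k2, ‖(eC (frq 3 v0) + eC (-frq 3 v0))‖ * (C2 * (nm v0 : ℝ) ^ (-(1 / 3) : ℝ)),
      by positivity, fun F S hF hB t ht => ?_⟩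
    have h3 := h2 F S hF hB _ (hsq hN0 ht)
    rw [norm_sqrt_rpow hN0 ht] at h3
    have e : om' v0 F (some none) t - cI v0 F (some none) = (eC (frq 3 v0) + eC (-frq 3 v0)) *
        gg (Wf (fyw (-(4 / 3)) F)) ((Real.sqrt ((nm v0 : ℝ) * t) : ℝ) : ℂ) := by
      unfold om' cI pr
      ring
    rw [e, norm_mul]
    calc _ ≤ ‖(eC (frq 3 v0) + eC (-frq 3 v0))‖ *
          (C2 * S * ((nm v0 : ℝ) ^ (-(1 / 3) : ℝ) * t ^ (-(1 / 3) : ℝ))) := by gcongr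
      _ = _ := by ring
  · have hdl : (0 : ℝ) < nm δ.1 := by exact_mod_cast nm_pos.2 ((mem_Dl h0).mp δ.2).1.1
    have hq : 0 < (nm v0 : ℝ) / nm δ.1 := div_pos hN0 hdl
    refine ⟨k2, ‖Lam δ.1 v0 * (((nm δ.1 : ℝ)⁻¹ : ℝ) : ℂ)‖ *
      (C2 * ((nm v0 : ℝ) / nm δ.1) ^ (-(1 / 3) : ℝ)), by positivity, fun F S hF hB t ht => ?_⟩
    have h3 := h2 F S hF hB _ (hsq hq ht)
    rw [norm_sqrt_rpow hq ht] at h3
    have e : om' v0 F (some (some δ)) t - cI v0 F (some (some δ)) =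
        (Lam δ.1 v0 * (((nm δ.1 : ℝ)⁻¹ : ℝ) : ℂ)) *
        gg (Wf (fyw (-(4 / 3)) F)) ((Real.sqrt ((nm v0 : ℝ) / nm δ.1 * t) : ℝ) : ℂ) := by
      unfold om' cI pr
      ring
    rw [e, norm_mul]
    calc _ ≤ ‖Lam δ.1 v0 * (((nm δ.1 : ℝ)⁻¹ : ℝ) : ℂ)‖ *
          (C2 * S * (((nm v0 : ℝ) / nm δ.1) ^ (-(1 / 3) : ℝ) * t ^ (-(1 / 3) : ℝ))) := by gcongr
      _ = _ := by ring

/-- **the dual kernels at infinity.** -/
theorem om_inf {v0 : Eis} (h0 : v0 ≠ 0) : ∃ (k : ℕ) (C : ℝ), 0 ≤ C ∧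
    ∀ (F : ℝ → ℂ) (S : ℝ), TF F → Bd F k S → ∀ (i : IX v0) (t : ℝ), 0 < t →
      ‖om' v0 F i t - cI v0 F i‖ ≤ C * S * t ^ (-(1 / 3) : ℝ) := by
  classical
  choose k C hC0 hC using om_inf1 h0
  refine ⟨∑ i, k i, ∑ i, C i, Finset.sum_nonneg fun i _ => hC0 i,
    fun F S hF hB i t ht => ?_⟩
  have hk : k i ≤ ∑ i, k i := Finset.single_le_sum (f := k) (fun i _ => Nat.zero_le _)
    (Finset.mem_univ i)
  have hCi : C i ≤ ∑ i, C i := Finset.single_le_sum (f := C) (fun i _ => hC0 i)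
    (Finset.mem_univ i)
  have hS : 0 ≤ S := (norm_nonneg _).trans (hB 0 (Nat.zero_le _) 0)
  refine (hC i F S hF (bd_mono hB hk) t ht).trans ?_
  gcongr

/-- **two-scale difference**, uniformly in `h ≥ 0`. -/
theorem dom_bd {v0 : Eis} (h0 : v0 ≠ 0) (M : ℕ) : ∃ (k : ℕ) (C : ℝ), 0 ≤ C ∧
    ∀ (F : ℝ → ℂ) (S : ℝ), TF F → Bd F k S → ∀ (i : IX v0) (h x : ℝ), 0 ≤ h →
      ‖om' v0 F i (Real.exp x) - om' v0 F i (Real.exp (x + h))‖ ≤
        C * S * min (Real.exp (-(x / 3))) (min 1 (Real.exp (M * (x + h)))) := by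
  obtain ⟨k1, C1, hC1, h1⟩ := om_inf h0
  obtain ⟨k2, C2, hC2, h2⟩ := om_bd h0 M
  refine ⟨max k1 k2, 2 * C1 + 2 * C2, by positivity, fun F S hF hB i h x hh => ?_⟩
  have hS : 0 ≤ S := (norm_nonneg _).trans (hB 0 (Nat.zero_le _) 0)
  have a1 := h1 F S hF (bd_mono hB (le_max_left _ _)) i _ (Real.exp_pos x)
  have a2 := h1 F S hF (bd_mono hB (le_max_left _ _)) i _ (Real.exp_pos (x + h))
  have b1 := h2 F S hF (bd_mono hB (le_max_right _ _)) i _ (Real.exp_pos x)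
  have b2 := h2 F S hF (bd_mono hB (le_max_right _ _)) i _ (Real.exp_pos (x + h))
  rw [← Real.exp_mul] at a1 a2
  rw [← Real.exp_nat_mul] at b1 b2
  have e1 : Real.exp (x * -(1 / 3)) = Real.exp (-(x / 3)) := by congr 1; ring
  have e2 : Real.exp ((x + h) * -(1 / 3)) ≤ Real.exp (-(x / 3)) := by
    apply Real.exp_le_exp.mpr
    linarith
  rw [e1] at a1
  have hm0 : (0 : ℝ) ≤ M := Nat.cast_nonneg M
  have e3 : min 1 (Real.exp (M * x)) ≤ min 1 (Real.exp (M * (x + h))) := by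
    apply min_le_min le_rfl
    apply Real.exp_le_exp.mpr
    nlinarith
  have p1 : 0 ≤ C1 * S := by positivity
  have p2 : 0 ≤ C2 * S := by positivity
  have q1 : 0 ≤ Real.exp (-(x / 3)) := (Real.exp_pos _).le
  have q2 : 0 ≤ min 1 (Real.exp (M * (x + h))) := le_min zero_le_one (Real.exp_pos _).le
  have r1 : ‖om' v0 F i (Real.exp x) - om' v0 F i (Real.exp (x + h))‖ ≤
      2 * (C1 * S) * Real.exp (-(x / 3)) := by
    have := norm_sub_le (om' v0 F i (Real.exp x) - cI v0 F i)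
      (om' v0 F i (Real.exp (x + h)) - cI v0 F i)
    rw [sub_sub_sub_cancel_right] at this
    have a3 : C1 * S * Real.exp ((x + h) * -(1 / 3)) ≤ C1 * S * Real.exp (-(x / 3)) := by gcongr
    linarith
  have r2 : ‖om' v0 F i (Real.exp x) - om' v0 F i (Real.exp (x + h))‖ ≤
      2 * (C2 * S) * min 1 (Real.exp (M * (x + h))) := by
    have := norm_sub_le (om' v0 F i (Real.exp x)) (om' v0 F i (Real.exp (x + h)))
    have a3 : C2 * S * min 1 (Real.exp (M * x)) ≤ C2 * S * min 1 (Real.exp (M * (x + h))) := by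
      gcongr
    linarith
  rcases min_cases (Real.exp (-(x / 3))) (min 1 (Real.exp (M * (x + h)))) with ⟨e, _⟩ | ⟨e, _⟩
  · rw [e]
    exact r1.trans (mul_le_mul_of_nonneg_right (by linarith) q1)
  · rw [e]
    exact r2.trans (mul_le_mul_of_nonneg_right (by linarith) q2)

/-! ### separation of variables with a general weight -/

/-- **smooth separation**, general weight. -/
theorem sep_gen {R : ℝ} (hR : 0 ≤ R) (A : ℕ) : ∃ D : ℝ, 0 ≤ D ∧
    ∀ (L : (ℝ → ℂ) → ℝ → ℂ), Op L → ∀ (k : ℕ) (C E : ℝ) (w : ℝ → ℝ), 0 ≤ C → 0 ≤ E →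
      (∀ x, 0 ≤ w x) → (∀ x u, |u| ≤ R + 1 → w (x - u) ≤ E * w x) →
      (∀ (F : ℝ → ℂ) (S : ℝ), TF F → Bd F k S → ∀ x, ‖L F x‖ ≤ C * S * w x) →
      ∀ (F : ℝ → ℂ) (S : ℝ), TF1 F → Bd F (k + A) S → ∀ x0 : ℝ, ∃ kk : ℝ → ℂ, Continuous kk ∧
      Integrable kk ∧ (∀ t, ‖kk t‖ * (1 + |t|) ^ A ≤ D * C * E * S * w x0) ∧
      ∀ u, |u| ≤ R → L F (x0 - u) = ∫ t, kk t * osc t u := by
  obtain ⟨D, hD, h⟩ := kernel_of_bounds R hR A
  refine ⟨D * 2 ^ A, by positivity, fun L hL k C E w hC0 hE hw hwE hC F S hF hB x0 => ?_⟩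
  have hS : 0 ≤ S := (norm_nonneg _).trans (hB 0 (Nat.zero_le _) 0)
  have hw0 := hw x0
  obtain ⟨kk, hk1, hk2, hk3, hk4⟩ := h
    (fun n u => (-1 : ℂ) ^ n * L (DF^[n] F) (x0 - u))
    (C * 2 ^ A * E * S * w x0) (by positivity)
    (fun n u => by
      have h1 := hL.hasDerivAt (tf1_iter hF n) (x0 - u)
      have h12 : HasDerivAt (fun z : ℝ => x0 - z) (-1) u := by
        have := (hasDerivAt_id u).const_sub x0
        simpa using this
      have h2 := (HasDerivAt.scomp u h1 h12).const_mul ((-1 : ℂ) ^ n)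
      rw [← Function.iterate_succ_apply' DF n F] at h2
      have e3 : (-1 : ℂ) ^ (n + 1) * L (DF^[n + 1] F) (x0 - u) =
          (-1 : ℂ) ^ n * (-1 : ℝ) • L (DF^[n.succ] F) (x0 - u) := by
        rw [pow_succ, Complex.real_smul]
        push_cast
        ring
      rw [e3]
      exact h2)
    (fun n hn u hu => by
      rw [norm_mul, norm_pow, norm_neg, norm_one, one_pow, one_mul]
      have hB' : Bd (DF^[n] F) k (2 ^ n * S) := bd_iter hF n (bd_mono hB (by omega))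
      refine (hC _ _ (tf1_tf (tf1_iter hF n)) hB' _).trans ?_
      have h2n : (2 : ℝ) ^ n ≤ 2 ^ A := pow_le_pow_right₀ (by norm_num) hn
      have h3 := hwE x0 u hu
      have h9 := hw (x0 - u)
      calc C * (2 ^ n * S) * w (x0 - u)
          ≤ C * (2 ^ A * S) * (E * w x0) := by gcongr
        _ = _ := by ring)
  refine ⟨kk, hk1, hk2, fun t => (hk3 t).trans (le_of_eq (by ring)), fun u hu => ?_⟩
  rw [← hk4 u hu]
  simp

/-- the difference operator -/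
def Ld (v0 : Eis) (i : IX v0) (h : ℝ) (F : ℝ → ℂ) (x : ℝ) : ℂ :=
  om' v0 F i (Real.exp x) - om' v0 F i (Real.exp (x + h))

lemma op_Ld {v0 : Eis} (h0 : v0 ≠ 0) (i : IX v0) {h : ℝ} (hh : 0 ≤ h) : Op (Ld v0 i h) := by
  have hop := op_om h0 i
  refine ⟨fun F G hF hG x => ?_, fun a F hF x => ?_, fun F r hF hF' x => ?_, fun M => ?_⟩
  · have h1 := hop.add F G hF hG x
    have h2 := hop.add F G hF hG (x + h)
    unfold Ld
    rw [h1, h2]
    ring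
  · have h1 := hop.smul a F hF x
    have h2 := hop.smul a F hF (x + h)
    unfold Ld
    rw [h1, h2]
    ring
  · have h1 := hop.tr F r hF hF' x
    have h2 := hop.tr F r hF hF' (x + h)
    unfold Ld
    rw [h1, h2, show x + h - r = x - r + h by ring]
    ring
  · obtain ⟨k, C, hC0, hC⟩ := dom_bd h0 M
    have hm0 : (0 : ℝ) ≤ M := Nat.cast_nonneg M
    refine ⟨k, C * Real.exp (M * h), by positivity, fun F S hF hB x => ?_⟩
    have hS : 0 ≤ S := (norm_nonneg _).trans (hB 0 (Nat.zero_le _) 0)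
    have h1 := hC F S hF hB i h x hh
    have h2 : min (Real.exp (-(x / 3))) (min 1 (Real.exp (M * (x + h)))) ≤
        Real.exp (M * h) * min 1 (Real.exp (M * x)) := by
      refine (min_le_right _ _).trans ?_
      have h3 : 1 ≤ Real.exp (M * h) := Real.one_le_exp (by positivity)
      rcases le_total 1 (Real.exp (M * x)) with h4 | h4
      · rw [min_eq_left h4, mul_one]
        exact (min_le_left _ _).trans h3
      · rw [min_eq_right h4, ← Real.exp_add]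
        refine (min_le_right _ _).trans (le_of_eq ?_)
        congr 1; ring
    unfold Ld
    refine h1.trans ?_
    rw [show C * Real.exp (M * h) * S * min 1 (Real.exp (M * x)) =
      C * S * (Real.exp (M * h) * min 1 (Real.exp (M * x))) by ring]
    gcongr

/-- **separation of the two-scale difference** -/
theorem dom_sep {v0 : Eis} (h0 : v0 ≠ 0) {R : ℝ} (hR : 0 ≤ R) (A M : ℕ) :
    ∃ (k : ℕ) (C : ℝ), 0 ≤ C ∧ ∀ (F : ℝ → ℂ) (S : ℝ), TF1 F → Bd F k S →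
      ∀ (i : IX v0) (h x0 : ℝ), 0 ≤ h → ∃ kk : ℝ → ℂ, Continuous kk ∧
      Integrable kk ∧ (∀ t, ‖kk t‖ * (1 + |t|) ^ A ≤
        C * S * min (Real.exp (-(x0 / 3))) (min 1 (Real.exp (M * (x0 + h))))) ∧
      ∀ u, |u| ≤ R → om' v0 F i (Real.exp (x0 - u)) - om' v0 F i (Real.exp (x0 - u + h)) =
        ∫ t, kk t * osc t u := by
  obtain ⟨D, hD, hsep⟩ := sep_gen hR A
  obtain ⟨k, C, hC0, hC⟩ := dom_bd h0 M
  have hm0 : (0 : ℝ) ≤ M := Nat.cast_nonneg M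
  set E : ℝ := Real.exp ((M + 1) * (R + 1)) with hE
  refine ⟨k + A, D * C * E, by positivity, fun F S hF hB i h x0 hh => ?_⟩
  obtain ⟨kk, h1, h2, h3, h4⟩ := hsep (Ld v0 i h) (op_Ld h0 i hh) k C E
    (fun x => min (Real.exp (-(x / 3))) (min 1 (Real.exp (M * (x + h))))) hC0 (Real.exp_pos _).le
    (fun x => le_min (Real.exp_pos _).le (le_min zero_le_one (Real.exp_pos _).le))
    (fun x u hu => by
      have hu1 := (abs_le.mp hu).1
      have hu2 := (abs_le.mp hu).2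
      rw [mul_min_of_nonneg _ _ (Real.exp_pos _).le, mul_min_of_nonneg _ _ (Real.exp_pos _).le]
      refine min_le_min ?_ (min_le_min ?_ ?_)
      · rw [← Real.exp_add]
        apply Real.exp_le_exp.mpr
        have : 0 ≤ (M : ℝ) * (R + 1) := by positivity
        nlinarith
      · rw [mul_one]
        exact Real.one_le_exp (by positivity)
      · rw [← Real.exp_add]
        apply Real.exp_le_exp.mpr
        nlinarith)
    (fun F S hF hB x => hC F S hF hB i h x hh) F S hF hB x0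
  exact ⟨kk, h1, h2, h3, h4⟩

/-- **separation in the block** `|log (nu / U)| ≤ R`, `|log (nd / D)| ≤ R` of the two-scale
difference, uniformly in `h ≥ 0` (helper590's (i)) -/
theorem dom_sep2 {v0 : Eis} (h0 : v0 ≠ 0) {R : ℝ} (hR : 0 ≤ R) (A M : ℕ) :
    ∃ (k : ℕ) (C : ℝ), 0 ≤ C ∧ ∀ (F : ℝ → ℂ) (S : ℝ), TF1 F → Bd F k S →
      ∀ (i : IX v0) (h B U D : ℝ), 0 ≤ h → 0 < B → 0 < U → 0 < D → ∃ kk : ℝ → ℂ,
      Continuous kk ∧ Integrable kk ∧ (∀ t, ‖kk t‖ * (1 + |t|) ^ A ≤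
        C * S * min ((U / (B * D)) ^ (-(1 / 3) : ℝ)) (min 1 ((U * Real.exp h / (B * D)) ^ M))) ∧
      ∀ nu nd : ℝ, 0 < nu → 0 < nd → |Real.log (nu / U)| ≤ R → |Real.log (nd / D)| ≤ R →
        om' v0 F i (nu / (B * nd)) - om' v0 F i (nu * Real.exp h / (B * nd)) =
          ∫ t, kk t * (osc t (-Real.log (nu / U)) * osc t (Real.log (nd / D))) := by
  obtain ⟨k, C, hC0, hC⟩ := dom_sep h0 (R := 2 * R) (by positivity) A M
  refine ⟨k, C, hC0, fun F S hF hB i h B U D hh hB0 hU hD => ?_⟩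
  have hx : 0 < U / (B * D) := by positivity
  obtain ⟨kk, h1, h2, h3, h4⟩ := hC F S hF hB i h (Real.log (U / (B * D))) hh
  refine ⟨kk, h1, h2, fun t => (h3 t).trans (le_of_eq ?_), fun nu nd hnu hnd h5 h6 => ?_⟩
  · have e1 : Real.exp (-(Real.log (U / (B * D)) / 3)) = (U / (B * D)) ^ (-(1 / 3) : ℝ) := by
      rw [Real.rpow_def_of_pos hx]
      congr 1; ring
    have e2 : Real.exp (M * (Real.log (U / (B * D)) + h)) = (U * Real.exp h / (B * D)) ^ M := by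
      rw [Real.exp_nat_mul, Real.exp_add, Real.exp_log hx]
      congr 1; ring
    rw [e1, e2]
  · have h7 : |-Real.log (nu / U) + Real.log (nd / D)| ≤ 2 * R := by
      have := abs_add_le (-Real.log (nu / U)) (Real.log (nd / D))
      rw [abs_neg] at this
      linarith
    have h8 := h4 _ h7
    have e : Real.exp (Real.log (U / (B * D)) - (-Real.log (nu / U) + Real.log (nd / D))) =
        nu / (B * nd) := by
      rw [Real.exp_sub, Real.exp_add, Real.exp_neg, Real.exp_log hx, Real.exp_log (by positivity),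
        Real.exp_log (by positivity)]
      field_simp
    have e' : Real.exp (Real.log (U / (B * D)) - (-Real.log (nu / U) + Real.log (nd / D)) + h) =
        nu * Real.exp h / (B * nd) := by
      rw [Real.exp_add, e]
      ring
    rw [e, e'] at h8
    rw [h8]
    refine integral_congr_ae (Eventually.of_forall fun t => ?_)
    simp only
    rw [osc_add]

end Crest.Agent.R017.OmInf180
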