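import Crest.Agent.R017.E2t_440
import Crest.Agent.R017.E2r_440
import Crest.Agent.R017.OmInf_180
import Crest.Agent.R017.H1o_401

/-!
# Row 17, block C70, leaf E2, part u (helper440): instances of the abstract core

* `LSW` : the weighted large sieve; `lsw_w` (401's `H1w`), `lsw_m` (401's `H1m`)
* `MoW`, `MoHW`, `DH_of_LSW` : `DH` from the weighted large sieve and the moments
* `KD_GF` : the kernel data of `GF F`
* `KD_cmp` : the kernel data of the compensated weight `GF (F - e^(h/3) F (· + h))`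
* `QsK_le` : `Qs` through `E2coreK`
-/

set_option autoImplicit false
set_option linter.unusedVariables false
set_option linter.unusedSectionVars false

noncomputable section

open Complex MeasureTheory
open scoped ComplexConjugate

namespace Crest.Agent.R017.E2440

open Crest.Agent.R012 Crest.Agent.R012.Eis Crest.Agent.R012.GaussLoc283
open Crest.Agent.R012.Mob705 hiding pb mem_pb
open Crest.Agent.R012.Div277
open Crest.Agent.R012.LS2 (S mem_S)
open Crest.Agent.R012.Weight600 (osc norm_osc)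
open Crest.Agent.R017.Sx545 (Sm sm_one_iff)
open Crest.Agent.R017.PX764 (th Gh n6 cD)
open Crest.Agent.R017.F1
open Crest.Agent.R017.X6C180 (Sg fA WF V1 cM n13 IX dl' om' GF)
open Crest.Agent.R017.X6545 (TF Bd)
open Crest.Agent.R017.X6W180 (TF1 tf1_tf)
open Crest.Agent.R017.CM106 (sub CS FS)
open Crest.Agent.R017.H1401 (pb mem_pb DD HW WM)
open Crest.Agent.R017.GrB829 (IsC)

/-! ### the weighted large sieve -/

/-- the weighted large sieve -/
def LSW (W : ℝ → ℝ → Eis → Eis → ℝ) (ε C : ℝ) : Prop := by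
  classical
  exact ∀ R Z X : ℝ, 1 ≤ R → 1 ≤ Z → 1 ≤ X →
    ∀ κ ν : Eis, (∀ p : Eis, Prime p → IsPrim p → ¬ p ∣ κ) → IsPrim ν → Squarefree ν →
    ∀ c b : Eis → ℂ, FS c →
    (∀ D, c D ≠ 0 → Squarefree D ∧ (nm D : ℝ) ≤ X ∧ IsCoprime D ν) →
    ∑ r ∈ (S R).filter (fun r => IsCoprime r ν),
      ‖∑ d ∈ pb Z, b d * ∑' D : Eis, c D * conj (gs (κ * r * ν ^ 2 * D) d)‖ ^ 2 ≤
      C * (R * Z * X * nm ν) ^ ε * nm ν *
        ∑ g₂ ∈ S X, ∑ g₃ ∈ S X, W R Z g₂ g₃ *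
          ∑ d ∈ (pb Z).filter (DD ν g₂ g₃),
            (nm d : ℝ) * ‖b d‖ ^ 2 * ‖CS (sub c (g₂ * g₃)) d‖ ^ 2

lemma lsw_w {ε : ℝ} (hε : 0 < ε) : ∃ C : ℝ, 1 ≤ C ∧
    LSW (fun R Z x y => (nm x : ℝ) ^ 2 * HW R Z x y) ε C := H1401.H1w hε

lemma lsw_m {ε : ℝ} (hε : 0 < ε) : ∃ C : ℝ, 1 ≤ C ∧ LSW WM ε C := H1401.H1m hε

/-- the moment functional with weights -/
def MoW (W : ℝ → ℝ → Eis → Eis → ℝ) (α : Eis → ℂ) (E B τ ν : Eis) (R X t Z : ℝ) : ℝ := by
  classical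
  exact ∑ g₂ ∈ S X, ∑ g₃ ∈ S X, W R Z g₂ g₃ *
    ∑ d ∈ (pb Z).filter (DD ν g₂ g₃), ‖CS (sub (cT α E B τ t) (g₂ * g₃)) d‖ ^ 2

/-- the moment hypothesis with weights, on the dyadic shells `j < N B` -/
def MoHW (W : ℝ → ℝ → Eis → Eis → ℝ) (α : Eis → ℂ) (E σ ν : Eis) (R X : ℝ) (J : ℕ)
    (N : Eis → ℕ) (Mo : Eis → ℕ → ℝ) : Prop :=
  ∀ B ∈ S X, ∀ i : IX σ, ∀ t : ℝ, ∀ j : ℕ, j < N B →
    MoW W α E B (dl' σ i) ν R X t (2 ^ j) ≤ (1 + |t|) ^ J * Mo B j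

open Classical in
/-- `DH` from the weighted large sieve and the moments -/
theorem DH_of_LSW {W : ℝ → ℝ → Eis → Eis → ℝ} (hW : ∀ R Z x y, 1 ≤ R → 1 ≤ Z → 0 ≤ W R Z x y)
    {ε C : ℝ} (hC : 0 ≤ C) (hL : LSW W ε C) {σ : Eis} (hσ : Sg σ) {J : ℕ} {R X : ℝ} (hR : 1 ≤ R)
    (hX : 1 ≤ X) {E ν : Eis} {α : Eis → ℂ} (hν : IsPrim ν) (hνs : Squarefree ν) (hα : Cf α ν)
    (hαX : ∀ n, α n ≠ 0 → X / 2 < nm n ∧ (nm n : ℝ) ≤ X) {N : Eis → ℕ} {Mo : Eis → ℕ → ℝ}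
    (hM : MoHW W α E σ ν R X J N Mo) :
    DH J R X σ E ν α N (fun B j => C * (R * 2 ^ j * X * nm ν) ^ ε * nm ν * (2 / 2 ^ j) * Mo B j) := by
  intro B hB i t j hj b hb1 hb2
  have hX0 : (0 : ℝ) ≤ X := by linarith
  obtain ⟨hBX, hB1, hBs⟩ := (mem_S hX0).mp hB
  have hNB : (1 : ℝ) ≤ nm B := one_le_nm hB1.ne_zero
  have hNν : (1 : ℝ) ≤ nm ν := one_le_nm hν.ne_zero
  set Z : ℝ := 2 ^ j with hZdef
  have hZ : 1 ≤ Z := one_le_pow₀ (by norm_num)
  set τ : Eis := dl' σ i with hτ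
  have hc : FS (cT α E B τ t) := fs_cT hα.fs hB1 E τ t
  have h1 := hL R Z X hR hZ hX (τ * σ) ν ?_ hν hνs (cT α E B τ t) b hc ?_
  rotate_left
  · intro p hpp hp hd
    rcases hpp.dvd_or_dvd hd with h | h
    · have h2 : IsCoprime τ p := (H1401.Cp.coprime (κ := τ) (fun q hqq hq hqd => ?_) hp)
      exact hpp.not_isUnit (h2.isUnit_of_dvd' h dvd_rfl)
      obtain ⟨m, hm⟩ := X6C180.dl_SU hσ.ne_zero i
      have h3 : q ∣ lam ^ m := hqd.trans hm
      have h4 : q ∣ lam := hqq.dvd_of_dvd_pow h3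
      have h5 : IsCoprime q (3 : Eis) := hq.isCoprime_three
      have h6 : q ∣ (3 : Eis) := by
        rw [three_eq]
        exact (h4.trans (dvd_pow_self lam two_ne_zero)).mul_left _
      exact hqq.not_isUnit (h5.isUnit_of_dvd' dvd_rfl h6)
    · exact (sg_NoP hσ).2 p hpp ⟨hp, isCoprime_one_right⟩ h
  · intro D hD
    have h0 : α (B * D) ≠ 0 := fun h => hD (by unfold cT; rw [h, zero_mul, zero_mul])
    have hND : nm D ≤ nm (B * D) := nm_le_of_dvd (hα.fs.prim _ h0).ne_zero (dvd_mul_left _ _)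
    have hND' : (nm D : ℝ) ≤ nm (B * D) := by exact_mod_cast hND
    exact ⟨(hα.sqf _ h0).of_mul_right, hND'.trans (hαX _ h0).2, (hα.cop _ h0).of_mul_left_right⟩
  have h2 : ∑ r ∈ (S R).filter (fun r => IsCoprime r ν ∧ R / 2 < nm r),
      ‖∑ d ∈ pb Z, b d * ∑' D : Eis, cT α E B τ t D *
        conj (gs (τ * σ * r * ν ^ 2 * D) d)‖ ^ 2 ≤
      ∑ r ∈ (S R).filter (fun r => IsCoprime r ν), ‖∑ d ∈ pb Z, b d *
        ∑' D : Eis, cT α E B τ t D * conj (gs (τ * σ * r * ν ^ 2 * D) d)‖ ^ 2 := by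
    refine Finset.sum_le_sum_of_subset_of_nonneg ?_ fun _ _ _ => by positivity
    intro r hr
    rw [Finset.mem_filter] at hr ⊢
    exact ⟨hr.1, hr.2.1⟩
  refine (h2.trans h1).trans ?_
  have h5 : ∑ g₂ ∈ S X, ∑ g₃ ∈ S X, W R Z g₂ g₃ *
      ∑ d ∈ (pb Z).filter (DD ν g₂ g₃),
        (nm d : ℝ) * ‖b d‖ ^ 2 * ‖CS (sub (cT α E B τ t) (g₂ * g₃)) d‖ ^ 2 ≤
      (2 / Z) * MoW W α E B τ ν R X t Z := by
    unfold MoW
    rw [Finset.mul_sum]
    refine Finset.sum_le_sum fun g₂ _ => ?_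
    rw [Finset.mul_sum]
    refine Finset.sum_le_sum fun g₃ _ => ?_
    rw [mul_left_comm]
    refine mul_le_mul_of_nonneg_left ?_ (hW R Z g₂ g₃ hR hZ)
    rw [Finset.mul_sum]
    refine Finset.sum_le_sum fun d hd => ?_
    refine mul_le_mul_of_nonneg_right ?_ (by positivity)
    have hd1 := ((mem_pb (by linarith)).mp (Finset.mem_filter.mp hd).1).2
    have hNd : (1 : ℝ) ≤ nm d := one_le_nm hd1.ne_zero
    by_cases h0 : b d = 0
    · rw [h0, norm_zero]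
      have : (0 : ℝ) ≤ 2 / Z := by positivity
      simpa using this
    · have h6 : ‖b d‖ ^ 2 ≤ ((nm d : ℝ)⁻¹) ^ 2 := pow_le_pow_left₀ (norm_nonneg _) (hb1 d) 2
      have h7 := hb2 d h0
      have h8 : (nm d : ℝ)⁻¹ ≤ 2 / Z := by
        rw [inv_le_comm₀ (by positivity) (by positivity), inv_div]
        exact h7.le
      calc (nm d : ℝ) * ‖b d‖ ^ 2 ≤ nm d * ((nm d : ℝ)⁻¹) ^ 2 :=
            mul_le_mul_of_nonneg_left h6 (by positivity)
        _ = (nm d : ℝ)⁻¹ := by field_simp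
        _ ≤ _ := h8
  have h6 := hM B hB i t j hj
  calc _ ≤ C * (R * Z * X * nm ν) ^ ε * nm ν * ((2 / Z) * MoW W α E B τ ν R X t Z) :=
        mul_le_mul_of_nonneg_left h5 (by positivity)
    _ ≤ C * (R * Z * X * nm ν) ^ ε * nm ν * ((2 / Z) * ((1 + |t|) ^ J * Mo B j)) := by
        refine mul_le_mul_of_nonneg_left ?_ (by positivity)
        exact mul_le_mul_of_nonneg_left h6 (by positivity)
    _ = _ := by ring

/-! ### the kernel data of `GF F` -/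

lemma KD.mono {σ : Eis} {J M : ℕ} {Ft : ℝ → ℂ} {c c' H : ℝ} {ϑ : ℝ → ℝ} {om : IX σ → ℝ → ℂ}
    (h : KD σ J M Ft c H ϑ om) (hc : c ≤ c') : KD σ J M Ft c' H ϑ om where
  wt := h.wt
  c0 := h.c0.trans hc
  H1 := h.H1
  th0 := h.th0
  du := h.du
  bd := fun i y hy => (h.bd i y hy).trans (mul_le_mul_of_nonneg_right hc
    (le_min zero_le_one (by have := h.H1; positivity)))
  sep := fun i A U Z hA hU hZ => by
    obtain ⟨kk, h1, h2, h3, h4⟩ := h.sep i A U Z hA hU hZ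
    exact ⟨kk, h1, h2, fun t => (h3 t).trans (mul_le_mul_of_nonneg_right hc
      (h.th0 _ (by positivity))), h4⟩
  fl := fun A hA d hd => ⟨((h.fl A hA d hd).1).trans (by gcongr), (h.fl A hA d hd).2⟩
  mb := fun A hA => (h.mb A hA).trans (by gcongr)

theorem KD_GF {σ : Eis} (hσ : Sg σ) (J M P : ℕ) : ∃ (k : ℕ) (C : ℝ), 0 ≤ C ∧
    ∀ (F : ℝ → ℂ) (Sf : ℝ), TF1 F → Bd F k Sf →
      KD σ J M (GF F) (C * Sf) 1 (fun y => min 1 (y ^ P)) (fun i => om' σ F i) := by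
  obtain ⟨k1, C1, hC1, h1⟩ := X6C180.om_bd hσ.ne_zero (M + 2)
  obtain ⟨k2, C2, hC2, h2⟩ := X6W180.om_sep2 hσ.ne_zero (R := 2) (by norm_num) (J + 2) P
  obtain ⟨k3, C3, hC3, h3⟩ := X6B848.XB (s := -(4 / 3)) (by norm_num) 0
  refine ⟨k1 + k2 + k3, C1 + C2 + C3 + 500, by positivity, fun F Sf hF hBd => ?_⟩
  have hSf : 0 ≤ Sf := (norm_nonneg _).trans (hBd 0 (Nat.zero_le _) 0)
  have hBd1 : Bd F k1 Sf := fun n hn y => hBd n (by omega) y
  have hBd2 : Bd F k2 Sf := fun n hn y => hBd n (by omega) y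
  have hBd3 : Bd F k3 Sf := fun n hn y => hBd n (by omega) y
  have hS : ∀ y, ‖F y‖ ≤ Sf := fun y => by
    have := hBd 0 (Nat.zero_le _) y
    rwa [iteratedDeriv_zero] at this
  have e1 : C1 * Sf ≤ (C1 + C2 + C3 + 500) * Sf :=
    mul_le_mul_of_nonneg_right (by linarith) hSf
  have e2 : C2 * Sf ≤ (C1 + C2 + C3 + 500) * Sf :=
    mul_le_mul_of_nonneg_right (by linarith) hSf
  have e3 : C3 * Sf ≤ (C1 + C2 + C3 + 500) * Sf :=
    mul_le_mul_of_nonneg_right (by linarith) hSf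
  have e4 : 500 * Sf ≤ (C1 + C2 + C3 + 500) * Sf :=
    mul_le_mul_of_nonneg_right (by linarith) hSf
  refine ⟨X6C180.wt_GF (tf1_tf hF), by positivity, le_rfl, fun y hy => by positivity, ?_, ?_, ?_,
    ?_, ?_⟩
  · intro v hv A hA
    rw [Du_eq hσ hv (tf1_tf hF) hA]
    rfl
  · intro i y hy
    rw [one_mul]
    exact (h1 F Sf (tf1_tf hF) hBd1 i y hy).trans
      (mul_le_mul_of_nonneg_right e1 (le_min zero_le_one (by positivity)))
  · intro i A U Z hA hU hZ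
    obtain ⟨kk, hk1, hk2, hk3, hk4⟩ := h2 F Sf hF hBd2 i A U Z hA hU hZ
    exact ⟨kk, hk1, hk2, fun t => (hk3 t).trans
      (mul_le_mul_of_nonneg_right e2 (le_min zero_le_one (by positivity))), hk4⟩
  · intro A hA d hd
    obtain ⟨a1, a2⟩ := fL_fA_le hF hSf hS hA hd
    exact ⟨a1.trans (by gcongr), a2⟩
  · intro A hA
    rw [X6C180.mB_fA (X6C180.wt_GF (tf1_tf hF)) hA, norm_mul, Complex.norm_real,
      Real.norm_of_nonneg (by positivity), X6C180.rV_V1_GF (tf1_tf hF)]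
    exact mul_le_mul_of_nonneg_left (((h3 F Sf (tf1_tf hF) hBd3).2.1).trans e3) (by positivity)

/-! ### the compensated weight -/

/-- the compensated weight (log scale) -/
def Fh (F : ℝ → ℂ) (h : ℝ) (x : ℝ) : ℂ := F x - ((Real.exp (h / 3) : ℝ) : ℂ) * F (x + h)

/-- the compensated weight -/
def G2 (F : ℝ → ℂ) (h : ℝ) (x : ℝ) : ℂ :=
  GF F x + (-((Real.exp (h / 3) : ℝ) : ℂ)) * GF F (x * Real.exp h)

lemma GF_Fh (F : ℝ → ℂ) (h : ℝ) : GF (Fh F h) = G2 F h := by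
  funext x
  unfold G2 X6C180.GF Fh
  by_cases hx : 0 < x
  · rw [if_pos hx, if_pos hx, if_pos (mul_pos hx (Real.exp_pos h)),
      Real.log_mul hx.ne' (Real.exp_pos h).ne', Real.log_exp]
    ring
  · rw [if_neg hx, if_neg hx, if_neg]
    · ring
    · intro h'
      exact hx (pos_of_mul_pos_left h' (Real.exp_pos h).le)

lemma wt_G2 {F : ℝ → ℂ} (hF : TF F) {h : ℝ} (hh : 0 ≤ h) : M49.Wt (G2 F h) := by
  have hG := X6C180.wt_GF hF
  refine ⟨?_, ?_⟩
  · unfold G2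
    refine hG.smooth.add (contDiff_const.mul ?_)
    exact hG.smooth.comp (contDiff_id.mul contDiff_const)
  · obtain ⟨a, b, ha, hab, hs⟩ := hG.supp
    have hq : 1 ≤ Real.exp h := Real.one_le_exp hh
    have hq0 := Real.exp_pos h
    have ha' : a / Real.exp h ≤ a := div_le_self ha.le hq
    refine ⟨a / Real.exp h, b, by positivity, by linarith, fun x hx => ?_⟩
    unfold G2
    rcases hx with hx | hx
    · rw [lt_div_iff₀ hq0] at hx
      have h1 : x < a := by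
        by_contra hc
        push Not at hc
        nlinarith
      rw [hs x (Or.inl h1), hs _ (Or.inl hx)]
      ring
    · have h1 : b < x * Real.exp h := by nlinarith
      rw [hs x (Or.inr hx), hs _ (Or.inr h1)]
      ring

lemma V1_at_zero (F : ℝ → ℂ) : V1 F 0 = 0 := by
  unfold X6C180.V1
  rw [Real.zero_rpow (by norm_num)]
  simp

lemma fA_at_zero (F : ℝ → ℂ) (A : ℝ) : fA F A 0 = 0 := by
  unfold X6C180.fA
  have : dl ((Real.sqrt A : ℝ) : ℂ) (rV (V1 F)) 0 = 0 := by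
    unfold F1.dl F1.rV
    rw [zero_div, norm_zero]
    have e : (0 : ℝ) ^ 2 = 0 := by norm_num
    rw [e, V1_at_zero]
  rw [this, mul_zero]

lemma fA_G2 (F : ℝ → ℂ) (h : ℝ) {A : ℝ} (hA : 0 < A) :
    fA (G2 F h) A = fun x => fA (GF F) A x +
      (-((Real.exp (h / 3) : ℝ) : ℂ)) * fA (GF F) (A * Real.exp (-h)) x := by
  funext x
  by_cases hx : x = 0
  · rw [hx, fA_at_zero, fA_at_zero, fA_at_zero]; ring
  · have hA' : 0 < A * Real.exp (-h) := by positivity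
    rw [X6C180.fA_eq hA hx, X6C180.fA_eq hA hx, X6C180.fA_eq hA' hx]
    unfold G2
    have e : ‖x‖ ^ 2 / (A * Real.exp (-h)) = ‖x‖ ^ 2 / A * Real.exp h := by
      rw [Real.exp_neg]
      field_simp
    rw [e]
    ring

/-- scaling of the exponentials -/
lemma exp_scale {A : ℝ} (hA : 0 < A) (h : ℝ) :
    Real.exp (h / 3) * (A * Real.exp (-h)) ^ ((1 : ℝ) / 3) = A ^ ((1 : ℝ) / 3) := by
  rw [Real.mul_rpow hA.le (Real.exp_pos _).le, ← Real.exp_mul]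
  have e : Real.exp (h / 3) * (A ^ ((1 : ℝ) / 3) * Real.exp (-h * (1 / 3))) =
      A ^ ((1 : ℝ) / 3) * (Real.exp (h / 3) * Real.exp (-h * (1 / 3))) := by ring
  rw [e, ← Real.exp_add]
  have e2 : h / 3 + -h * (1 / 3) = 0 := by ring
  rw [e2, Real.exp_zero, mul_one]

set_option maxHeartbeats 1000000 in
theorem KD_cmp {σ : Eis} (hσ : Sg σ) (J M P : ℕ) : ∃ (k : ℕ) (C : ℝ), 0 ≤ C ∧
    ∀ (F : ℝ → ℂ) (Sf : ℝ), TF1 F → Bd F k Sf → ∀ h : ℝ, 0 ≤ h →
      KD σ J M (GF (Fh F h)) (C * Sf) (Real.exp h)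
        (fun y => min (y ^ (-(1 / 3) : ℝ)) (min 1 ((y * Real.exp h) ^ P)))
        (fun i y => om' σ F i y - om' σ F i (y * Real.exp h)) := by
  classical
  obtain ⟨k1, C1, hC1, h1⟩ := X6C180.om_bd hσ.ne_zero (M + 2)
  obtain ⟨k2, C2, hC2, h2⟩ := OmInf180.dom_sep2 hσ.ne_zero (R := 2) (by norm_num) (J + 2) P
  obtain ⟨k3, C3, hC3, h3⟩ := X6B848.XB (s := -(4 / 3)) (by norm_num) 0
  refine ⟨k1 + k2 + k3, 2 * C1 + C2 + 2 * C3 + 1000, by positivity, fun F Sf hF hBd h hh => ?_⟩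
  have hSf : 0 ≤ Sf := (norm_nonneg _).trans (hBd 0 (Nat.zero_le _) 0)
  have hBd1 : Bd F k1 Sf := fun n hn y => hBd n (by omega) y
  have hBd2 : Bd F k2 Sf := fun n hn y => hBd n (by omega) y
  have hBd3 : Bd F k3 Sf := fun n hn y => hBd n (by omega) y
  have hS : ∀ y, ‖F y‖ ≤ Sf := fun y => by
    have := hBd 0 (Nat.zero_le _) y
    rwa [iteratedDeriv_zero] at this
  have e1 : 2 * C1 * Sf ≤ (2 * C1 + C2 + 2 * C3 + 1000) * Sf :=
    mul_le_mul_of_nonneg_right (by linarith) hSf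
  have e2 : C2 * Sf ≤ (2 * C1 + C2 + 2 * C3 + 1000) * Sf :=
    mul_le_mul_of_nonneg_right (by linarith) hSf
  have e3 : 2 * C3 * Sf ≤ (2 * C1 + C2 + 2 * C3 + 1000) * Sf :=
    mul_le_mul_of_nonneg_right (by linarith) hSf
  have e4 : 1000 * Sf ≤ (2 * C1 + C2 + 2 * C3 + 1000) * Sf :=
    mul_le_mul_of_nonneg_right (by linarith) hSf
  have hTF := tf1_tf hF
  have hGw := X6C180.wt_GF hTF
  have hH : 1 ≤ Real.exp h := Real.one_le_exp hh
  have hH0 := Real.exp_pos h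
  have hE3 : 0 < Real.exp (h / 3) := Real.exp_pos _
  rw [GF_Fh]
  refine ⟨wt_G2 hTF hh, by positivity, hH, fun y hy => by positivity, ?_, ?_, ?_, ?_, ?_⟩
  · -- the dual functional
    intro v hv A hA
    have hA' : 0 < A * Real.exp (-h) := by positivity
    have hu : σ * v ≠ 0 := mul_ne_zero hσ.ne_zero hv.ne_zero
    have ev1 : Ev (fA (GF F) A) := X6C180.ev_fA hGw hA
    have ev2 : Ev (fA (GF F) (A * Real.exp (-h))) := X6C180.ev_fA hGw hA'
    have hcong : Du (σ * v) (Wf (fA (G2 F h) A)) = Du (σ * v) (fun y => Wf (fA (GF F) A) y +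
        (fun y => (-((Real.exp (h / 3) : ℝ) : ℂ)) * Wf (fA (GF F) (A * Real.exp (-h))) y) y) := by
      refine Du_congr hu fun y hy => ?_
      rw [fA_G2 F h hA, Wf_add ev1 (ev2.const_mul _) hy, Wf_const_mul]
    rw [hcong, Du_add hu ev1.Wf_p4 (ev2.Wf_p4.const_mul _), Du_const_mul, Du_eq hσ hv hTF hA,
      Du_eq hσ hv hTF hA']
    have e5 : (-((Real.exp (h / 3) : ℝ) : ℂ)) * ((((A * Real.exp (-h)) ^ (1 / 3 : ℝ) : ℝ) : ℂ) *
        ∑ i : IX σ, TP' σ v F (A * Real.exp (-h)) i) =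
        ((A ^ (1 / 3 : ℝ) : ℝ) : ℂ) * ∑ i : IX σ, -TP' σ v F (A * Real.exp (-h)) i := by
      rw [← exp_scale hA h, Finset.sum_neg_distrib]
      push_cast
      ring
    rw [e5, ← mul_add, ← Finset.sum_add_distrib]
    congr 1
    refine Finset.sum_congr rfl fun i _ => ?_
    unfold TP'
    have hnv : (0 : ℝ) < nm v := by have := one_le_nm hv.ne_zero; linarith
    rw [← mul_neg, ← mul_add]
    congr 1
    rw [← sub_eq_add_neg, ← (summable_piece hσ hF i hA hnv _).tsum_sub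
      (summable_piece hσ hF i hA' hnv _)]
    refine tsum_congr fun d => ?_
    by_cases hd : IsPrim d
    · rw [if_pos hd, if_pos hd, if_pos hd]
      have hNd : (0 : ℝ) < nm d := by have := one_le_nm hd.ne_zero; linarith
      have e6 : (nm v : ℝ) / (A * Real.exp (-h) * nm d) = (nm v : ℝ) / (A * nm d) * Real.exp h := by
        rw [Real.exp_neg]
        field_simp
      rw [e6]
      ring
    · rw [if_neg hd, if_neg hd, if_neg hd, sub_zero]
  · -- the bound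
    intro i y hy
    have a1 := h1 F Sf hTF hBd1 i y hy
    have a2 := h1 F Sf hTF hBd1 i (y * Real.exp h) (by positivity)
    have a3 : min 1 (y ^ (M + 2)) ≤ min 1 ((Real.exp h * y) ^ (M + 2)) := by
      refine min_le_min le_rfl (pow_le_pow_left₀ hy.le ?_ _)
      nlinarith
    have a4 : min 1 ((y * Real.exp h) ^ (M + 2)) = min 1 ((Real.exp h * y) ^ (M + 2)) := by
      rw [mul_comm]
    rw [a4] at a2
    set m := min 1 ((Real.exp h * y) ^ (M + 2)) with hm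
    have hm0 : 0 ≤ m := le_min zero_le_one (by positivity)
    have a5 : C1 * Sf * min 1 (y ^ (M + 2)) ≤ C1 * Sf * m :=
      mul_le_mul_of_nonneg_left a3 (by positivity)
    refine (norm_sub_le _ _).trans ?_
    have a6 : 2 * C1 * Sf * m ≤ (2 * C1 + C2 + 2 * C3 + 1000) * Sf * m :=
      mul_le_mul_of_nonneg_right e1 hm0
    linarith
  · -- separation
    intro i A U Z hA hU hZ
    obtain ⟨kk, hk1, hk2, hk3, hk4⟩ := h2 F Sf hF hBd2 i h A U Z hh hA hU hZ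
    refine ⟨kk, hk1, hk2, fun t => (hk3 t).trans ?_, fun nu nd hnu hnd l1 l2 => ?_⟩
    · have e7 : U * Real.exp h / (A * Z) = U / (A * Z) * Real.exp h := by ring
      rw [e7]
      exact mul_le_mul_of_nonneg_right e2 (by positivity)
    · rw [← hk4 nu nd hnu hnd l1 l2]
      have e7 : nu / (A * nd) * Real.exp h = nu * Real.exp h / (A * nd) := by ring
      simp only [e7]
  · -- the direct side
    intro A hA d hd
    have hA' : 0 < A * Real.exp (-h) := by positivity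
    have ev1 : Ev (fA (GF F) A) := X6C180.ev_fA hGw hA
    have ev2 : Ev (fA (GF F) (A * Real.exp (-h))) := X6C180.ev_fA hGw hA'
    rw [fA_G2 F h hA, fL_add ev1 (ev2.const_mul _), fL_const_mul]
    obtain ⟨a1, a2⟩ := fL_fA_le hF hSf hS hA hd
    obtain ⟨b1, b2⟩ := fL_fA_le hF hSf hS hA' hd
    constructor
    · refine (norm_add_le _ _).trans ?_
      rw [norm_mul, norm_neg, Complex.norm_real, Real.norm_of_nonneg hE3.le]
      have c1 : Real.exp (h / 3) * ‖fL (fA (GF F) (A * Real.exp (-h))) (toC d)‖ ≤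
          500 * Sf * A ^ ((1 : ℝ) / 3) * (nm d : ℝ)⁻¹ := by
        calc _ ≤ Real.exp (h / 3) * (500 * Sf * (A * Real.exp (-h)) ^ ((1 : ℝ) / 3) *
              (nm d : ℝ)⁻¹) := mul_le_mul_of_nonneg_left b1 hE3.le
          _ = 500 * Sf * (Real.exp (h / 3) * (A * Real.exp (-h)) ^ ((1 : ℝ) / 3)) *
              (nm d : ℝ)⁻¹ := by ring
          _ = _ := by rw [exp_scale hA h]
      have c2 : 1000 * Sf * A ^ ((1 : ℝ) / 3) * (nm d : ℝ)⁻¹ ≤
          (2 * C1 + C2 + 2 * C3 + 1000) * Sf * A ^ ((1 : ℝ) / 3) * (nm d : ℝ)⁻¹ := by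
        refine mul_le_mul_of_nonneg_right ?_ (by positivity)
        exact mul_le_mul_of_nonneg_right e4 (by positivity)
      linarith
    · intro hlt
      have hle : A * Real.exp (-h) ≤ A := by
        have : Real.exp (-h) ≤ 1 := Real.exp_le_one_iff.mpr (by linarith)
        exact mul_le_of_le_one_right hA.le this
      rw [a2 hlt, b2 (by linarith)]
      ring
  · -- the polar part
    intro A hA
    have hA' : 0 < A * Real.exp (-h) := by positivity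
    have ev1 : Ev (fA (GF F) A) := X6C180.ev_fA hGw hA
    have ev2 : Ev (fA (GF F) (A * Real.exp (-h))) := X6C180.ev_fA hGw hA'
    have hmB : ∀ A : ℝ, 0 < A → ‖mB (fA (GF F) A)‖ ≤ A ^ ((2 : ℝ) / 3) * (C3 * Sf) := by
      intro A hA
      rw [X6C180.mB_fA hGw hA, norm_mul, Complex.norm_real,
        Real.norm_of_nonneg (by positivity), X6C180.rV_V1_GF hTF]
      exact mul_le_mul_of_nonneg_left (h3 F Sf hTF hBd3).2.1 (by positivity)
    rw [fA_G2 F h hA, mB_add ev1 (ev2.const_mul _), mB_const_mul]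
    refine (norm_add_le _ _).trans ?_
    rw [norm_mul, norm_neg, Complex.norm_real, Real.norm_of_nonneg hE3.le]
    have c0 : Real.exp (h / 3) * (A * Real.exp (-h)) ^ ((2 : ℝ) / 3) ≤ A ^ ((2 : ℝ) / 3) := by
      rw [Real.mul_rpow hA.le (Real.exp_pos _).le, ← Real.exp_mul]
      have e8 : Real.exp (h / 3) * (A ^ ((2 : ℝ) / 3) * Real.exp (-h * (2 / 3))) =
          A ^ ((2 : ℝ) / 3) * (Real.exp (h / 3) * Real.exp (-h * (2 / 3))) := by ring
      rw [e8, ← Real.exp_add]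
      have : Real.exp (h / 3 + -h * (2 / 3)) ≤ 1 := Real.exp_le_one_iff.mpr (by linarith)
      exact mul_le_of_le_one_right (by positivity) this
    have c1 : Real.exp (h / 3) * ‖mB (fA (GF F) (A * Real.exp (-h)))‖ ≤
        A ^ ((2 : ℝ) / 3) * (C3 * Sf) := by
      calc _ ≤ Real.exp (h / 3) * ((A * Real.exp (-h)) ^ ((2 : ℝ) / 3) * (C3 * Sf)) :=
            mul_le_mul_of_nonneg_left (hmB _ hA') hE3.le
        _ = (Real.exp (h / 3) * (A * Real.exp (-h)) ^ ((2 : ℝ) / 3)) * (C3 * Sf) := by ring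
        _ ≤ _ := mul_le_mul_of_nonneg_right c0 (by positivity)
    have c2 := hmB A hA
    have c3 : A ^ ((2 : ℝ) / 3) * (2 * C3 * Sf) ≤
        A ^ ((2 : ℝ) / 3) * ((2 * C1 + C2 + 2 * C3 + 1000) * Sf) :=
      mul_le_mul_of_nonneg_left e3 (by positivity)
    linarith

/-! ### `Qs` through `E2coreK` -/

/-- the constant, uniform in `C4` -/
def cK4 : ℝ := ∑ c ∈ C4, cK c

lemma cK_le {c : Eis} (hc : c ∈ C4) : cK c ≤ cK4 :=
  Finset.single_le_sum (f := fun c => cK c) (fun c _ => cK_nonneg c) hc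

lemma cK4_nonneg : 0 ≤ cK4 := Finset.sum_nonneg fun c _ => cK_nonneg c

lemma GK_nonneg {J : ℕ} {R X A B0 : ℝ} {σ E ν : Eis} {α : Eis → ℂ} {ϑ : ℝ → ℝ} {N : Eis → ℕ}
    {MD : Eis → ℕ → ℝ} (h : DH J R X σ E ν α N MD) : 0 ≤ GK ϑ R X A B0 ν N MD := by
  unfold GK
  refine Finset.sum_nonneg fun B hB => Finset.sum_nonneg fun j hj => ?_
  have h1 := h.nonneg hB (Finset.mem_range.mp hj)
  refine mul_nonneg ?_ h1
  split_ifs
  · exact sq_nonneg _
  · exact zero_le_one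

lemma EK_nonneg {ϑ : ℝ → ℝ} {J M N0 : ℕ} {H X R A T B0 : ℝ} (hX : 1 ≤ X) (hR : 1 ≤ R) (hA : 0 < A)
    {σ E ν : Eis} {α : Eis → ℂ} {MD : Eis → ℕ → ℝ} {Mt : Eis → ℝ} {N : Eis → ℕ}
    (h : MHK J H X R A T B0 σ E ν α MD Mt N N0) : 0 ≤ EK ϑ H M N0 X R A T B0 ν α MD Mt N := by
  classical
  unfold EK
  have h1 : 0 ≤ Real.log X := Real.log_nonneg hX
  have h2 : 0 ≤ GK ϑ R X A B0 ν N MD := GK_nonneg h.dh
  have h4 : ∀ B ∈ (S X).filter (fun B => B0 < nm B), 0 ≤ (nm B : ℝ) ^ (-(4 : ℝ) / 3) * Mt B := by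
    intro B hB
    rw [Finset.mem_filter] at hB
    have h5 : 0 ≤ Mt B :=
      (Finset.sum_nonneg fun _ _ => by positivity).trans (h.mt B hB.1 hB.2)
    positivity
  have h6 := Finset.sum_nonneg h4
  have h7 : 0 ≤ L1 α X := L1_nonneg α X
  refine mul_nonneg (by positivity) (add_nonneg (add_nonneg (by positivity) ?_) (by positivity))
  split_ifs
  · positivity
  · exact le_rfl

open Classical in
/-- **`Qs` through `E2coreK`** -/
theorem QsK_le {Jt M : ℕ} {Ft : ℝ → ℂ} {cc H : ℝ} {ϑ : ℝ → ℝ} {om : ∀ σ : Eis, IX σ → ℝ → ℂ}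
    (hK : ∀ σ ∈ C4, KD σ Jt M Ft cc H ϑ (om σ)) {X Y K T B0 : ℝ} (hK0 : 0 < K) (hT : 1 ≤ T)
    {α : Eis → ℂ} (hα : FS α) (hs : ∀ n, α n ≠ 0 → Squarefree n)
    (hsp : ∀ n, α n ≠ 0 → X / 2 < nm n ∧ (nm n : ℝ) ≤ X) {δ e : Eis} (hδ : IsPrim δ)
    (hδs : Squarefree δ) (he : IsPrim e) {y : Eis × Eis} (hy : y ∈ prs δ) {A : Eis}
    (hA : A ∈ pdiv y.1) {c : Eis} (hc : c ∈ C4) {j₂ : Eis} (hj₂ : IsPrim j₂)
    (hR : 1 ≤ RR Y e A c j₂) (hX : (nm y.1 : ℝ) ≤ X) {MD : Eis → ℕ → ℝ} {Mt : Eis → ℝ}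
    {N : Eis → ℕ} {N0 : ℕ}
    (hM : MHK Jt H (X / nm y.1) (RR Y e A c j₂) (K / nm (e * A * j₂)) T B0 c (e * A * j₂) y.2
        (ag α δ y.1) MD Mt N N0) :
    Qs α δ e Y K Ft y A c j₂ ≤
      cK4 * cc ^ 2 * EK ϑ H M N0 (X / nm y.1) (RR Y e A c j₂) (K / nm (e * A * j₂)) T B0 y.2
        (ag α δ y.1) MD Mt N := by
  have hy' := (mem_prs hδ).mp hy
  have hA' := (mem_pdiv hy'.1.ne_zero).mp hA
  have hE : e * A * j₂ ≠ 0 := mul_ne_zero (mul_ne_zero he.ne_zero hA'.1.ne_zero) hj₂.ne_zero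
  have hE1 := one_le_nm hE
  have hy0 : (0 : ℝ) < nm y.1 := by have := one_le_nm hy'.1.ne_zero; linarith
  have hX1 : 1 ≤ X / nm y.1 := by rwa [le_div_iff₀ hy0, one_mul]
  have hAp : 0 < K / nm (e * A * j₂) := by positivity
  have hsp' : ∀ n, ag α δ y.1 n ≠ 0 → X / nm y.1 / 2 < nm n ∧ (nm n : ℝ) ≤ X / nm y.1 := by
    intro n hn
    have h2 := hsp _ (ag_ne hn).2
    rw [nm_mul] at h2
    push_cast at h2
    rw [div_div, mul_comm (nm y.1 : ℝ) 2, ← div_div, div_lt_iff₀ hy0, le_div_iff₀ hy0]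
    constructor
    · nlinarith [h2.1]
    · nlinarith [h2.2]
  have h1 := E2coreK (isC_sg (mem_C4.mp hc)) (hK c hc) hR hX1 hAp hT hE hy'.2.1
    (hδs.squarefree_of_dvd (hy'.2.2 ▸ dvd_mul_left _ _)) (cf_ag hα hs hδ hy) hsp' hM
  have h2 : 0 ≤ EK ϑ H M N0 (X / nm y.1) (RR Y e A c j₂) (K / nm (e * A * j₂)) T B0 y.2
        (ag α δ y.1) MD Mt N := EK_nonneg hX1 hR hAp hM
  refine h1.trans ?_
  exact mul_le_mul_of_nonneg_right (mul_le_mul_of_nonneg_right (cK_le hc) (sq_nonneg _)) h2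

end Crest.Agent.R017.E2440
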