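import Crest.Agent.R017.E2DHv_401
import Crest.Agent.R017.E2u_440

/-!
# Row 17, exceptional class, leaf E2 (T.7): the split of the moments by a predicate (helper579)

* `MoP_split` : `MoP P = MoP (P ∧ Q) + MoP (P ∧ ¬ Q)`
* `hyp_split` : the moment hypothesis of `dh_H1v` from the two halves (`Pr E B τ d` arbitrary)
* `dh_split`  : `DH` with `MD B j = C (..)^ε (2/2^j) (Mp B j + Mn B j)`
* `GK_add`, `GK_mono`, `GK_split` : the weighted shell sum of the two halves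
* `MoP_lin`, `MT_lin`, `mt_two` : differences `α = β - γ`
-/

set_option autoImplicit false
set_option linter.unusedVariables false

noncomputable section

open Complex
open scoped ComplexConjugate Classical

namespace Crest.Agent.R017.E2sp579

open Crest.Agent.R012 Crest.Agent.R012.Eis Crest.Agent.R012.GaussLoc283
open Crest.Agent.R012.Mob705 hiding pb mem_pb
open Crest.Agent.R012.Div277
open Crest.Agent.R012.LS2 (S mem_S)
open Crest.Agent.R012.Weight600 (osc norm_osc)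
open Crest.Agent.R017.PX764 (th Gh n6 cD)
open Crest.Agent.R017.X6C180 (Sg fA WF V1 cM n13 IX dl' om' GF)
open Crest.Agent.R017.CM106 (sub CS FS)
open Crest.Agent.R017.H1401 (pb mem_pb DD DN WM HW)
open Crest.Agent.R017.MoF106 (MoP)
open Crest.Agent.R017.E2440

/-! ### the split -/

/-- the filter with an extra predicate -/
def fP (P : Eis → Eis → Eis → Prop) (Q : Eis → Prop) (g₂ g₃ d : Eis) : Prop := P g₂ g₃ d ∧ Q d

theorem MoP_split (al : Eis → ℂ) (E B τ : Eis) (X t Z : ℝ) (W : Eis → Eis → ℝ)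
    (P : Eis → Eis → Eis → Prop) (Q : Eis → Prop) :
    MoP al E B τ X t Z W P =
      MoP al E B τ X t Z W (fP P Q) + MoP al E B τ X t Z W (fP P (fun d => ¬ Q d)) := by
  unfold MoP
  rw [← Finset.sum_add_distrib]
  refine Finset.sum_congr rfl fun g₂ _ => ?_
  rw [← Finset.sum_add_distrib]
  refine Finset.sum_congr rfl fun g₃ _ => ?_
  rw [← mul_add]
  congr 1
  rw [← Finset.sum_filter_add_sum_filter_not ((pb Z).filter (P g₂ g₃)) Q, Finset.filter_filter,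
    Finset.filter_filter]
  congr 1
  · refine Finset.sum_congr ?_ fun _ _ => rfl
    ext d
    simp only [Finset.mem_filter, fP]
  · refine Finset.sum_congr ?_ fun _ _ => rfl
    ext d
    simp only [Finset.mem_filter, fP]

/-- the moment hypothesis of `dh_H1v` -/
def MH (W : ℝ → Eis → Eis → ℝ) (P : Eis → ℕ → Eis → Eis → Eis → Prop)
    (Q : Eis → Eis → Eis → Prop) (α : Eis → ℂ) (E σ ν : Eis) (X : ℝ) (J : ℕ) (N : Eis → ℕ)
    (Mw : Eis → ℕ → ℝ) : Prop :=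
  ∀ B ∈ S X, ∀ (i : IX σ) (t : ℝ) (j : ℕ), j < N B →
    ∑ n ∈ dvs ν, (nm n : ℝ) * MoP α E B (dl' σ i) X t (2 ^ j) (W (2 ^ j / (nm n : ℝ) ^ 3))
      (fP (P n j) (Q B (dl' σ i))) ≤ (1 + |t|) ^ J * Mw B j

theorem hyp_split {W : ℝ → Eis → Eis → ℝ} {P : Eis → ℕ → Eis → Eis → Eis → Prop}
    {Q : Eis → Eis → Eis → Prop} {α : Eis → ℂ} {E σ ν : Eis} {X : ℝ} {J : ℕ} {N : Eis → ℕ}
    {Mp Mn : Eis → ℕ → ℝ} (hp : MH W P Q α E σ ν X J N Mp)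
    (hn : MH W P (fun B τ d => ¬ Q B τ d) α E σ ν X J N Mn) :
    ∀ B ∈ S X, ∀ (i : IX σ) (t : ℝ) (j : ℕ), j < N B →
    ∑ n ∈ dvs ν, (nm n : ℝ) * MoP α E B (dl' σ i) X t (2 ^ j) (W (2 ^ j / (nm n : ℝ) ^ 3))
      (P n j) ≤ (1 + |t|) ^ J * (Mp B j + Mn B j) := by
  intro B hB i t j hj
  rw [mul_add]
  refine le_trans (le_of_eq ?_) (add_le_add (hp B hB i t j hj) (hn B hB i t j hj))
  rw [← Finset.sum_add_distrib]
  refine Finset.sum_congr rfl fun n _ => ?_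
  rw [← mul_add, MoP_split _ _ _ _ _ _ _ _ (P n j) (Q B (dl' σ i))]

/-- **`DH` from the two halves** (`Q B τ d`: the principal `d`) -/
theorem dh_split {ε : ℝ} (hε : 0 < ε) : ∃ C : ℝ, 1 ≤ C ∧ ∀ {σ : Eis}, Sg σ → ∀ (J : ℕ) {R X : ℝ},
    1 ≤ R → 1 ≤ X → ∀ {E ν : Eis} {α : Eis → ℂ}, IsPrim ν → Squarefree ν → Cf α ν →
    (∀ n, α n ≠ 0 → (nm n : ℝ) ≤ X) → ∀ (Q : Eis → Eis → Eis → Prop) {N : Eis → ℕ}
    {Mp Mn : Eis → ℕ → ℝ},
    MH (WM R) (fun n j g₂ g₃ d => DN n g₂ g₃ d ∧ (2 : ℝ) ^ j / 2 < nm d) Q α E σ ν X J N Mp →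
    MH (WM R) (fun n j g₂ g₃ d => DN n g₂ g₃ d ∧ (2 : ℝ) ^ j / 2 < nm d)
      (fun B τ d => ¬ Q B τ d) α E σ ν X J N Mn →
    DH J R X σ E ν α N
      (fun B j => C * (R * 2 ^ j * X * nm ν) ^ ε * (2 / 2 ^ j) * (Mp B j + Mn B j)) := by
  obtain ⟨C, hC1, hH⟩ := E2D401.dh_H1v hε
  exact ⟨C, hC1, fun hσ J _ _ hR hX _ _ _ hν hνs hα hαX Q _ _ _ hp hn =>
    hH hσ J hR hX hν hνs hα hαX (hyp_split hp hn)⟩

/-! ### `DH` and `GK` in `MD` -/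

lemma DH_mono {J : ℕ} {R X : ℝ} {σ E ν : Eis} {α : Eis → ℂ} {N : Eis → ℕ}
    {MD MD' : Eis → ℕ → ℝ} (h : DH J R X σ E ν α N MD)
    (hle : ∀ B ∈ S X, ∀ j < N B, MD B j ≤ MD' B j) : DH J R X σ E ν α N MD' := by
  intro B hB i t j hj b h1 h2
  exact (h B hB i t j hj b h1 h2).trans (mul_le_mul_of_nonneg_left (hle B hB j hj) (by positivity))

lemma GK_add (ϑ : ℝ → ℝ) (R X A B0 : ℝ) (ν : Eis) (N : Eis → ℕ) (M1 M2 : Eis → ℕ → ℝ) :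
    GK ϑ R X A B0 ν N (fun B j => M1 B j + M2 B j) =
      GK ϑ R X A B0 ν N M1 + GK ϑ R X A B0 ν N M2 := by
  unfold GK
  rw [← Finset.sum_add_distrib]
  refine Finset.sum_congr rfl fun B _ => ?_
  rw [← Finset.sum_add_distrib]
  exact Finset.sum_congr rfl fun j _ => by ring

lemma GK_mono {ϑ : ℝ → ℝ} {R X A B0 : ℝ} {ν : Eis} {N : Eis → ℕ} {M1 M2 : Eis → ℕ → ℝ}
    (hle : ∀ B ∈ S X, ∀ j < N B, M1 B j ≤ M2 B j) :
    GK ϑ R X A B0 ν N M1 ≤ GK ϑ R X A B0 ν N M2 := by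
  unfold GK
  refine Finset.sum_le_sum fun B hB => Finset.sum_le_sum fun j hj => ?_
  refine mul_le_mul_of_nonneg_left (hle B hB j (Finset.mem_range.mp hj)) ?_
  split_ifs
  · positivity
  · exact zero_le_one

/-- dropping `ϑ ≤ 1` -/
lemma GK_le_one {ϑ : ℝ → ℝ} {R X A B0 : ℝ} {ν : Eis} {N : Eis → ℕ} {MD : Eis → ℕ → ℝ}
    (hϑ : ∀ y : ℝ, 0 < y → 0 ≤ ϑ y ∧ ϑ y ≤ 1) (hR : 0 < R) (hX : 0 < X) (hA : 0 < A) (hν : ν ≠ 0)
    (hM : ∀ B ∈ S X, ∀ j < N B, 0 ≤ MD B j) :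
    GK ϑ R X A B0 ν N MD ≤ ∑ B ∈ S X, ∑ j ∈ Finset.range (N B), MD B j := by
  unfold GK
  refine Finset.sum_le_sum fun B hB => Finset.sum_le_sum fun j hj => ?_
  have hB0 : (0 : ℝ) < nm B := by
    exact_mod_cast nm_pos.mpr ((mem_S hX.le).mp hB).2.1.ne_zero
  have hν0 : (0 : ℝ) < nm ν := by exact_mod_cast nm_pos.mpr hν
  have h1 := hM B hB j (Finset.mem_range.mp hj)
  have h2 := hϑ (R * (nm ν : ℝ) ^ 2 * (X / nm B) / (A / (nm B : ℝ) ^ 2 * 2 ^ j)) (by positivity)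
  refine mul_le_of_le_one_left h1 ?_
  split_ifs
  · exact pow_le_one₀ h2.1 h2.2
  · exact le_rfl

/-- the principal half of `GK`, with its weights -/
def GP (ϑ : ℝ → ℝ) (R X A B0 : ℝ) (ν : Eis) (N : Eis → ℕ) (Mp : Eis → ℕ → ℝ) : ℝ :=
  ∑ B ∈ S X, ∑ j ∈ Finset.range (N B), (if (nm B : ℝ) ≤ B0 then
    ϑ (R * (nm ν : ℝ) ^ 2 * (X / nm B) / (A / (nm B : ℝ) ^ 2 * 2 ^ j)) ^ 2 else 1) *
      ((2 / 2 ^ j) * Mp B j)

/-- the other half of `GK` -/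
def GN (X : ℝ) (N : Eis → ℕ) (Mn : Eis → ℕ → ℝ) : ℝ :=
  ∑ B ∈ S X, ∑ j ∈ Finset.range (N B), (2 / 2 ^ j) * Mn B j

/-- **`GK` of the two halves** -/
theorem GK_split {ϑ : ℝ → ℝ} {R X A B0 C ε : ℝ} {ν : Eis} {N : Eis → ℕ} {N0 : ℕ}
    {Mp Mn : Eis → ℕ → ℝ} (hϑ : ∀ y : ℝ, 0 < y → 0 ≤ ϑ y ∧ ϑ y ≤ 1) (hR : 1 ≤ R) (hX : 1 ≤ X)
    (hA : 0 < A) (hν : ν ≠ 0) (hε : 0 ≤ ε) (hC : 0 ≤ C) (hN : ∀ B ∈ S X, N B ≤ N0)
    (hp : ∀ B ∈ S X, ∀ j < N B, 0 ≤ Mp B j) (hn : ∀ B ∈ S X, ∀ j < N B, 0 ≤ Mn B j) :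
    GK ϑ R X A B0 ν N
      (fun B j => C * (R * 2 ^ j * X * nm ν) ^ ε * (2 / 2 ^ j) * (Mp B j + Mn B j)) ≤
      C * (R * 2 ^ N0 * X * nm ν) ^ ε * (GP ϑ R X A B0 ν N Mp + GN X N Mn) := by
  have hν0 : (0 : ℝ) < nm ν := by exact_mod_cast nm_pos.mpr hν
  set D := C * (R * 2 ^ N0 * X * nm ν) ^ ε with hD
  have hD0 : 0 ≤ D := by positivity
  have h1 : GK ϑ R X A B0 ν N
      (fun B j => C * (R * 2 ^ j * X * nm ν) ^ ε * (2 / 2 ^ j) * (Mp B j + Mn B j)) ≤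
      GK ϑ R X A B0 ν N (fun B j => D * ((2 / 2 ^ j) * Mp B j) + D * ((2 / 2 ^ j) * Mn B j)) := by
    refine GK_mono fun B hB j hj => ?_
    have h2 : (R * 2 ^ j * X * nm ν) ^ ε ≤ (R * 2 ^ N0 * X * nm ν) ^ ε := by
      refine Real.rpow_le_rpow (by positivity) ?_ hε
      have h3 : (2 : ℝ) ^ j ≤ 2 ^ N0 :=
        pow_le_pow_right₀ (by norm_num) (hj.le.trans (hN B hB))
      gcongr
    have h4 : 0 ≤ (2 / (2 : ℝ) ^ j) * (Mp B j + Mn B j) :=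
      mul_nonneg (by positivity) (add_nonneg (hp B hB j hj) (hn B hB j hj))
    calc C * (R * 2 ^ j * X * nm ν) ^ ε * (2 / 2 ^ j) * (Mp B j + Mn B j)
        = (C * (R * 2 ^ j * X * nm ν) ^ ε) * ((2 / (2 : ℝ) ^ j) * (Mp B j + Mn B j)) := by ring
      _ ≤ D * ((2 / (2 : ℝ) ^ j) * (Mp B j + Mn B j)) :=
          mul_le_mul_of_nonneg_right (mul_le_mul_of_nonneg_left h2 hC) h4
      _ = _ := by ring
  refine h1.trans ?_
  rw [GK_add, mul_add]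
  refine add_le_add (le_of_eq ?_) ?_
  · unfold GK GP
    rw [Finset.mul_sum]
    refine Finset.sum_congr rfl fun B _ => ?_
    rw [Finset.mul_sum]
    exact Finset.sum_congr rfl fun j _ => by ring
  · refine (GK_le_one hϑ (by linarith) (by linarith) hA hν fun B hB j hj => ?_).trans
      (le_of_eq ?_)
    · exact mul_nonneg hD0 (mul_nonneg (by positivity) (hn B hB j hj))
    · unfold GN
      rw [Finset.mul_sum]
      refine Finset.sum_congr rfl fun B _ => ?_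
      rw [Finset.mul_sum]

/-! ### differences -/

lemma cT_sub (β γ : Eis → ℂ) (E B τ : Eis) (t : ℝ) (D : Eis) :
    cT (fun n => β n - γ n) E B τ t D = cT β E B τ t D - cT γ E B τ t D := by
  unfold cT; ring

lemma CS_sub {a b : Eis → ℂ} (ha : FS a) (hb : FS b) (k : Eis) :
    CS (fun n => a n - b n) k = CS a k - CS b k := by
  unfold CM106.CS
  rw [← Summable.tsum_sub]
  · exact tsum_congr fun n => by ring
  · exact summable_of_finite_support (ha.fin.subset fun n hn h0 => hn (by simp [h0]))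
  · exact summable_of_finite_support (hb.fin.subset fun n hn h0 => hn (by simp [h0]))

/-- **the moments of a difference** -/
theorem MoP_sub_le {β γ : Eis → ℂ} (hβ : FS β) (hγ : FS γ) (E : Eis) {B : Eis} (hB : IsPrim B)
    (τ : Eis) {X : ℝ} (hX : 0 ≤ X) (t Z : ℝ) {W : Eis → Eis → ℝ} (hW : ∀ x y, 0 ≤ W x y)
    (P : Eis → Eis → Eis → Prop) :
    MoP (fun n => β n - γ n) E B τ X t Z W P ≤
      2 * (MoP β E B τ X t Z W P + MoP γ E B τ X t Z W P) := by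
  unfold MoP
  rw [← Finset.sum_add_distrib, Finset.mul_sum]
  refine Finset.sum_le_sum fun g₂ h2 => ?_
  rw [← Finset.sum_add_distrib, Finset.mul_sum]
  refine Finset.sum_le_sum fun g₃ h3 => ?_
  rw [← mul_add, mul_left_comm]
  refine mul_le_mul_of_nonneg_left ?_ (hW _ _)
  rw [← Finset.sum_add_distrib, Finset.mul_sum]
  refine Finset.sum_le_sum fun d _ => ?_
  have hg : IsPrim (g₂ * g₃) := ((mem_S hX).mp h2).2.1.mul ((mem_S hX).mp h3).2.1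
  have e1 : sub (cT (fun n => β n - γ n) E B τ t) (g₂ * g₃) =
      fun n => sub (cT β E B τ t) (g₂ * g₃) n - sub (cT γ E B τ t) (g₂ * g₃) n := by
    funext n
    unfold CM106.sub
    rw [cT_sub]
  rw [e1, CS_sub ((fs_cT hβ hB E τ t).sub hg) ((fs_cT hγ hB E τ t).sub hg)]
  set a := CS (sub (cT β E B τ t) (g₂ * g₃)) d
  set b := CS (sub (cT γ E B τ t) (g₂ * g₃)) d
  have h4 : ‖a - b‖ ≤ ‖a‖ + ‖b‖ := norm_sub_le a b
  have h5 : ‖a - b‖ ^ 2 ≤ (‖a‖ + ‖b‖) ^ 2 := pow_le_pow_left₀ (norm_nonneg _) h4 2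
  nlinarith [sq_nonneg (‖a‖ - ‖b‖)]

/-- the moment hypothesis of a difference -/
theorem MH_sub {W : ℝ → Eis → Eis → ℝ} (hW : ∀ Z x y, 0 ≤ Z → 0 ≤ W Z x y)
    {P : Eis → ℕ → Eis → Eis → Eis → Prop} {Q : Eis → Eis → Eis → Prop} {β γ : Eis → ℂ}
    (hβ : FS β) (hγ : FS γ) {E σ ν : Eis} {X : ℝ} (hX : 0 ≤ X) {J : ℕ} {N : Eis → ℕ}
    {M1 M2 : Eis → ℕ → ℝ} (h1 : MH W P Q β E σ ν X J N M1) (h2 : MH W P Q γ E σ ν X J N M2) :
    MH W P Q (fun n => β n - γ n) E σ ν X J N (fun B j => 2 * (M1 B j + M2 B j)) := by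
  intro B hB i t j hj
  have hBp := ((mem_S hX).mp hB).2.1
  have k1 := h1 B hB i t j hj
  have k2 := h2 B hB i t j hj
  have e : ∑ n ∈ dvs ν, (nm n : ℝ) * MoP (fun n => β n - γ n) E B (dl' σ i) X t (2 ^ j)
      (W (2 ^ j / (nm n : ℝ) ^ 3)) (fP (P n j) (Q B (dl' σ i))) ≤
      2 * ((∑ n ∈ dvs ν, (nm n : ℝ) * MoP β E B (dl' σ i) X t (2 ^ j)
        (W (2 ^ j / (nm n : ℝ) ^ 3)) (fP (P n j) (Q B (dl' σ i)))) +
        ∑ n ∈ dvs ν, (nm n : ℝ) * MoP γ E B (dl' σ i) X t (2 ^ j)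
        (W (2 ^ j / (nm n : ℝ) ^ 3)) (fP (P n j) (Q B (dl' σ i)))) := by
    rw [← Finset.sum_add_distrib, Finset.mul_sum]
    refine Finset.sum_le_sum fun n _ => ?_
    rw [← mul_add, mul_left_comm]
    refine mul_le_mul_of_nonneg_left ?_ (Nat.cast_nonneg _)
    exact MoP_sub_le hβ hγ E hBp _ hX t _ (fun x y => hW _ x y (by positivity)) _
  refine e.trans ?_
  calc _ ≤ 2 * ((1 + |t|) ^ J * M1 B j + (1 + |t|) ^ J * M2 B j) := by linarith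
    _ = _ := by ring

/-- the polar inner sum of a difference -/
lemma MT_sub {β γ : Eis → ℂ} (hβ : FS β) (hγ : FS γ) (E : Eis) {B : Eis} (hB : IsPrim B)
    (σ r : Eis) : MT (fun n => β n - γ n) E B σ r = MT β E B σ r - MT γ E B σ r := by
  unfold MT
  rw [← Summable.tsum_sub]
  · exact tsum_congr fun n => by ring
  · exact summable_of_finite_support ((hβ.sub hB).fin.subset fun n hn h0 => hn (by
      have h0' : β (B * n) = 0 := h0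
      simp [h0']))
  · exact summable_of_finite_support ((hγ.sub hB).fin.subset fun n hn h0 => hn (by
      have h0' : γ (B * n) = 0 := h0
      simp [h0']))

/-- **the polar moment of a difference** -/
theorem mt_sub {β γ : Eis → ℂ} (hβ : FS β) (hγ : FS γ) (E : Eis) {B : Eis} (hB : IsPrim B)
    (σ : Eis) (s : Finset Eis) {T1 T2 : ℝ} (h1 : ∑ r ∈ s, ‖MT β E B σ r‖ ^ 2 ≤ T1)
    (h2 : ∑ r ∈ s, ‖MT γ E B σ r‖ ^ 2 ≤ T2) :
    ∑ r ∈ s, ‖MT (fun n => β n - γ n) E B σ r‖ ^ 2 ≤ 2 * (T1 + T2) := by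
  have h3 : ∑ r ∈ s, ‖MT (fun n => β n - γ n) E B σ r‖ ^ 2 ≤
      2 * (∑ r ∈ s, ‖MT β E B σ r‖ ^ 2 + ∑ r ∈ s, ‖MT γ E B σ r‖ ^ 2) := by
    rw [← Finset.sum_add_distrib, Finset.mul_sum]
    refine Finset.sum_le_sum fun r _ => ?_
    rw [MT_sub hβ hγ E hB]
    have h4 : ‖MT β E B σ r - MT γ E B σ r‖ ≤ ‖MT β E B σ r‖ + ‖MT γ E B σ r‖ := norm_sub_le _ _
    have h5 := pow_le_pow_left₀ (norm_nonneg _) h4 2
    nlinarith [sq_nonneg (‖MT β E B σ r‖ - ‖MT γ E B σ r‖)]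
  linarith

/-- **`MHK` from the two halves** -/
theorem MHK_split {ε : ℝ} (hε : 0 < ε) : ∃ C : ℝ, 1 ≤ C ∧ ∀ {σ : Eis}, Sg σ → ∀ (J : ℕ)
    {H X R A T B0 : ℝ}, 1 ≤ R → 1 ≤ X → ∀ {E ν : Eis} {α : Eis → ℂ}, IsPrim ν → Squarefree ν →
    Cf α ν → (∀ n, α n ≠ 0 → (nm n : ℝ) ≤ X) → ∀ (Q : Eis → Eis → Eis → Prop) {N : Eis → ℕ}
    {N0 : ℕ} {Mp Mn : Eis → ℕ → ℝ} {Mt : Eis → ℝ},
    MH (WM R) (fun n j g₂ g₃ d => DN n g₂ g₃ d ∧ (2 : ℝ) ^ j / 2 < nm d) Q α E σ ν X J N Mp →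
    MH (WM R) (fun n j g₂ g₃ d => DN n g₂ g₃ d ∧ (2 : ℝ) ^ j / 2 < nm d)
      (fun B τ d => ¬ Q B τ d) α E σ ν X J N Mn →
    (∀ B ∈ S X, B0 < nm B →
      ∑ r ∈ (S R).filter (fun r => IsCoprime r ν ∧ R / 2 < nm r), ‖MT α E B σ r‖ ^ 2 ≤ Mt B) →
    (∀ B ∈ S X, N B ≤ N0) →
    (∀ B ∈ S X, (nm B : ℝ) ≤ B0 → 2 * T * (H * (R * (nm ν : ℝ) ^ 2 * (X / nm B))) ≤
      A / (nm B : ℝ) ^ 2 * 2 ^ N B) →
    (∀ B ∈ S X, B0 < nm B → 10 * (A / (nm B : ℝ) ^ 2) ≤ 2 ^ N B) →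
    MHK J H X R A T B0 σ E ν α
      (fun B j => C * (R * 2 ^ j * X * nm ν) ^ ε * (2 / 2 ^ j) * (Mp B j + Mn B j)) Mt N N0 := by
  obtain ⟨C, hC1, hH⟩ := dh_split hε
  refine ⟨C, hC1, fun hσ J _ _ _ _ _ _ hR hX _ _ _ hν hνs hα hαX Q _ _ _ _ _ hp hn hmt h0 h1 h2 =>
    ⟨hH hσ J hR hX hν hνs hα hαX Q hp hn, fun B hB hB0 => ?_, h0, h1, h2⟩⟩
  have h3 := hmt B hB hB0
  convert! h3 using 2

end Crest.Agent.R017.E2sp579
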