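import Crest.Agent.R017.E2s_440

/-!
# Row 17, block C70, leaf E2, part t (helper440): the abstract core

* `QCk_bd` : the direct side
* `QMk_bd` : the polar part
* `E2coreK` : the abstract core
-/

set_option autoImplicit false
set_option linter.unusedVariables false
set_option linter.unusedSectionVars false

noncomputable section

open Complex MeasureTheory
open scoped ComplexConjugate

namespace Crest.Agent.R017.E2440

open Crest.Agent.R012 Crest.Agent.R012.Eis Crest.Agent.R012.GaussLoc283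
open Crest.Agent.R012.Mob705 hiding pb mem_pb
open Crest.Agent.R012.Div277
open Crest.Agent.R012.LS2 (S mem_S)
open Crest.Agent.R012.Weight600 (osc norm_osc)
open Crest.Agent.R017.Sx545 (Sm sm_one_iff)
open Crest.Agent.R017.PX764 (th Gh n6 cD)
open Crest.Agent.R017.F1
open Crest.Agent.R017.X6C180 (Sg fA WF V1 cM n13 IX dl' om' GF)
open Crest.Agent.R017.X6545 (TF Bd)
open Crest.Agent.R017.X6W180 (TF1 tf1_tf)
open Crest.Agent.R017.CM106 (sub CS FS)
open Crest.Agent.R017.H1401 (pb mem_pb)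

open Classical in
theorem QCk_eq {σ : Eis} {J M : ℕ} {Ft : ℝ → ℂ} {c H : ℝ} {ϑ : ℝ → ℝ} {om : IX σ → ℝ → ℂ}
    (hK : KD σ J M Ft c H ϑ om) {α : Eis → ℂ} {E B : Eis} (hB : IsPrim B) {r ν : Eis} (hα : FS α)
    {A : ℝ} (hA : 0 < A) {N : ℕ} (hN : 10 * A ≤ 2 ^ N) :
    QB α E B (fun _ D => Cg (σ * r * ν ^ 2 * D) (fL (fA Ft A))) =
      ∑ j ∈ Finset.range N, ∑ d ∈ sh j, fL (fA Ft A) (toC d) *
        ∑' D : Eis, cT α E B 1 0 D * conj (gs (σ * r * ν ^ 2 * D) d) := by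
  set TD : Finset Eis := (hα.sub hB).fin.toFinset with hTD
  have hTm : ∀ D, D ∈ TD ↔ α (B * D) ≠ 0 := by
    intro D
    rw [hTD, Set.Finite.mem_toFinset, Function.mem_support]
    rfl
  have hTp : ∀ D ∈ TD, IsPrim D := fun D hD => (hα.prim _ ((hTm D).mp hD)).of_mul_left hB
  set w : Eis → ℂ := fun d => fL (fA Ft A) (toC d) with hw
  have hwz : ∀ d, IsPrim d → 5 * A < nm d → w d = 0 := fun d hd => (hK.fl A hA d hd).2
  set g : Eis → ℂ := fun d => w d * ∑' D : Eis, cT α E B 1 0 D *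
    conj (gs (σ * r * ν ^ 2 * D) d) with hg
  have hgz : ∀ d, IsPrim d → 5 * A < nm d → g d = 0 := by
    intro d hd h
    simp only [hg]
    rw [hwz d hd h, zero_mul]
  have hfs : ∀ f : Eis → ℂ, Summable fun d : Eis => if IsPrim d then w d * f d else 0 := by
    intro f
    refine summable_of_ne_finset_zero (s := primBall ⌊5 * A⌋₊) fun d hd => ?_
    split_ifs with h
    · by_cases h2 : 5 * A < nm d
      · rw [hwz d h h2, zero_mul]
      · exfalso
        apply hd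
        rw [mem_primBall]
        exact ⟨Nat.le_floor (not_lt.mp h2), h⟩
    · rfl
  have h1 := shells_split (g := g) (hfs _) N
  have h2 : (∑' d : Eis, if IsPrim d ∧ (2 : ℝ) ^ N / 2 < nm d then g d else 0) = 0 := by
    have : ∀ d : Eis, (if IsPrim d ∧ (2 : ℝ) ^ N / 2 < nm d then g d else 0) = 0 := by
      intro d
      split_ifs with h
      · exact hgz d h.1 (by have := h.2; linarith)
      · rfl
    rw [tsum_congr this, tsum_zero]
  rw [h2, add_zero] at h1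
  show _ = ∑ j ∈ Finset.range N, ∑ d ∈ sh j, g d
  rw [← h1]
  unfold QB Cg
  rw [tsum_eq_sum (s := TD)]
  · have e1 : ∀ d : Eis, (if IsPrim d then g d else 0) = ∑ D ∈ TD,
        α (B * D) * (sy E D * conj (sy D B)) *
          (if IsPrim d then w d * conj (gs (σ * r * ν ^ 2 * D) d) else 0) := by
      intro d
      split_ifs with hd
      · simp only [hg]
        rw [tsum_eq_sum (s := TD), Finset.mul_sum]
        · refine Finset.sum_congr rfl fun D hD => ?_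
          rw [cT_one_zero _ _ _ (hTp D hD)]
          ring
        · intro D hD
          rw [hTm, not_not] at hD
          unfold cT
          rw [hD]; ring
      · simp
    rw [tsum_congr e1, Summable.tsum_finsetSum fun D _ => (hfs _).mul_left _]
    refine Finset.sum_congr rfl fun D _ => ?_
    rw [tsum_mul_left]
    congr 1
    refine tsum_congr fun d => ?_
    split_ifs
    · ring
    · rfl
  · intro D hD
    rw [hTm, not_not] at hD
    rw [hD]; ring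

open Classical in
theorem QCk_bd {σ : Eis} {J M : ℕ} {Ft : ℝ → ℂ} {c H : ℝ} {ϑ : ℝ → ℝ} {om : IX σ → ℝ → ℂ}
    (hK : KD σ J M Ft c H ϑ om) {R X A : ℝ} (hR : 1 ≤ R) (hX : 1 ≤ X) (hA : 0 < A)
    {E ν : Eis} {α : Eis → ℂ} (hα : Cf α ν) {N : Eis → ℕ} {MD : Eis → ℕ → ℝ}
    (hD : DH J R X σ E ν α N MD) {B : Eis} (hB : B ∈ S X) (hN : 10 * A ≤ 2 ^ N B) :
    ∑ r ∈ (S R).filter (fun r => IsCoprime r ν ∧ R / 2 < nm r),
      ‖QB α E B (fun _ D => Cg (σ * r * ν ^ 2 * D) (fL (fA Ft A)))‖ ^ 2 ≤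
      c ^ 2 * (N B + 1) * (A ^ ((2 : ℝ) / 3) * ∑ j ∈ Finset.range (N B), MD B j) := by
  have hc0 := hK.c0
  have hX0 : (0 : ℝ) ≤ X := by linarith
  have hR0 : (0 : ℝ) ≤ R := by linarith
  obtain ⟨hBX, hB1, hBs⟩ := (mem_S hX0).mp hB
  set w : Eis → ℂ := fun d => fL (fA Ft A) (toC d) with hw
  set P : ℕ → Eis → ℂ := fun j r => ∑ d ∈ sh j, w d *
    ∑' D : Eis, cT α E B 1 0 D * conj (gs (σ * r * ν ^ 2 * D) d) with hP
  have h1 : ∀ r ∈ (S R).filter (fun r => IsCoprime r ν ∧ R / 2 < nm r),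
      ‖QB α E B (fun _ D => Cg (σ * r * ν ^ 2 * D) (fL (fA Ft A)))‖ ^ 2 ≤
        (N B + 1) * ∑ j ∈ Finset.range (N B), ‖P j r‖ ^ 2 := by
    intro r hr
    rw [QCk_eq hK hB1 hα.fs hA hN]
    have h2 : ‖∑ j ∈ Finset.range (N B), P j r‖ ≤ ∑ j ∈ Finset.range (N B), ‖P j r‖ :=
      norm_sum_le _ _
    have h3 := sq_sum_le_card_mul_sum_sq (s := Finset.range (N B)) (f := fun j => ‖P j r‖)
    rw [Finset.card_range] at h3
    have h4 : 0 ≤ ∑ j ∈ Finset.range (N B), ‖P j r‖ ^ 2 :=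
      Finset.sum_nonneg fun j _ => sq_nonneg _
    calc ‖∑ j ∈ Finset.range (N B), P j r‖ ^ 2 ≤ (∑ j ∈ Finset.range (N B), ‖P j r‖) ^ 2 :=
          pow_le_pow_left₀ (norm_nonneg _) h2 2
      _ ≤ (N B : ℕ) * ∑ j ∈ Finset.range (N B), ‖P j r‖ ^ 2 := h3
      _ ≤ _ := by nlinarith
  have h5 : ∀ j ∈ Finset.range (N B),
      ∑ r ∈ (S R).filter (fun r => IsCoprime r ν ∧ R / 2 < nm r), ‖P j r‖ ^ 2 ≤
      c ^ 2 * (A ^ ((2 : ℝ) / 3) * MD B j) := by
    intro j hj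
    set Z : ℝ := 2 ^ j with hZdef
    have hZ : 1 ≤ Z := one_le_pow₀ (by norm_num)
    have hA13 : 0 < A ^ ((1 : ℝ) / 3) := by positivity
    have hMD := hD.nonneg hB (Finset.mem_range.mp hj)
    set a : ℝ := c * A ^ ((1 : ℝ) / 3) with ha
    have ha0 : 0 ≤ a := by positivity
    set b : Eis → ℂ := fun d => if IsPrim d ∧ Z / 2 < nm d then ((a⁻¹ : ℝ) : ℂ) * w d else 0
      with hb
    have hwle : ∀ d, IsPrim d → ‖w d‖ ≤ a * (nm d : ℝ)⁻¹ := fun d hd => (hK.fl A hA d hd).1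
    have hwb : ∀ d ∈ sh j, w d = (a : ℂ) * b d := by
      intro d hd
      obtain ⟨⟨hdZ, hd1⟩, hdZ2⟩ := mem_sh.mp hd
      simp only [hb]
      rw [if_pos ⟨hd1, hdZ2⟩]
      rcases ha0.eq_or_lt with h0 | h0
      · have h6 := hwle d hd1
        rw [← h0, zero_mul] at h6
        have h7 : w d = 0 := norm_le_zero_iff.mp h6
        rw [h7]; ring
      · push_cast
        have : (a : ℂ) ≠ 0 := by exact_mod_cast h0.ne'
        field_simp
    have h6 := hD B hB none 0 j (Finset.mem_range.mp hj) b ?_ ?_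
    · rw [abs_zero, add_zero, one_pow, one_mul] at h6
      have h8 : ∀ r, P j r = (a : ℂ) * ∑ d ∈ pb Z, b d *
          ∑' D : Eis, cT α E B (dl' σ none) 0 D *
            conj (gs (dl' σ none * σ * r * ν ^ 2 * D) d) := by
        intro r
        simp only [hP]
        have e0 : dl' σ none = 1 := rfl
        have e2 : ∑ d ∈ sh j, w d * ∑' D : Eis, cT α E B 1 0 D *
            conj (gs (σ * r * ν ^ 2 * D) d) = (a : ℂ) * ∑ d ∈ sh j, b d * ∑' D : Eis,
            cT α E B (dl' σ none) 0 D * conj (gs (dl' σ none * σ * r * ν ^ 2 * D) d) := by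
          rw [Finset.mul_sum]
          refine Finset.sum_congr rfl fun d hd => ?_
          rw [hwb d hd, e0, one_mul]
          ring
        rw [e2]
        congr 1
        refine Finset.sum_subset (Finset.filter_subset _ _) fun d hd hd' => ?_
        have h9 : ¬ (Z / 2 < nm d) := fun h => hd' (by
          rw [mem_sh]
          exact ⟨(mem_pb (by linarith)).mp hd, h⟩)
        simp only [hb]
        rw [if_neg (fun h => h9 h.2), zero_mul]
      have e5 : (A ^ ((1 : ℝ) / 3)) ^ 2 = A ^ ((2 : ℝ) / 3) := by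
        rw [← Real.rpow_natCast, ← Real.rpow_mul hA.le]; norm_num
      have h9 : ∀ r, ‖P j r‖ ^ 2 = a ^ 2 * ‖∑ d ∈ pb Z, b d *
          ∑' D : Eis, cT α E B (dl' σ none) 0 D *
            conj (gs (dl' σ none * σ * r * ν ^ 2 * D) d)‖ ^ 2 := by
        intro r
        rw [h8 r, norm_mul, mul_pow, Complex.norm_real, Real.norm_of_nonneg ha0]
      rw [Finset.sum_congr rfl fun r _ => h9 r, ← Finset.mul_sum]
      calc _ ≤ a ^ 2 * MD B j := mul_le_mul_of_nonneg_left h6 (sq_nonneg _)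
        _ = _ := by rw [ha, mul_pow, e5]; ring
    · intro d
      simp only [hb]
      split_ifs with h
      · rw [norm_mul, Complex.norm_real, Real.norm_of_nonneg (by positivity)]
        rcases ha0.eq_or_lt with h0 | h0
        · rw [← h0, inv_zero, zero_mul]; positivity
        · calc a⁻¹ * ‖w d‖ ≤ a⁻¹ * (a * (nm d : ℝ)⁻¹) :=
                mul_le_mul_of_nonneg_left (hwle d h.1) (by positivity)
            _ = (nm d : ℝ)⁻¹ := by field_simp
      · rw [norm_zero]; positivity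
    · intro d hd
      by_contra h
      apply hd
      simp only [hb]
      rw [if_neg (fun h' => h h'.2)]
  refine (Finset.sum_le_sum h1).trans ?_
  rw [← Finset.mul_sum, Finset.sum_comm]
  have h15 : ∑ j ∈ Finset.range (N B),
      ∑ r ∈ (S R).filter (fun r => IsCoprime r ν ∧ R / 2 < nm r), ‖P j r‖ ^ 2 ≤
      c ^ 2 * (A ^ ((2 : ℝ) / 3) * ∑ j ∈ Finset.range (N B), MD B j) := by
    rw [Finset.mul_sum, Finset.mul_sum]
    exact Finset.sum_le_sum fun j hj => h5 j hj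
  calc ((N B : ℝ) + 1) * _ ≤ (N B + 1) * (c ^ 2 * (A ^ ((2 : ℝ) / 3) *
        ∑ j ∈ Finset.range (N B), MD B j)) := mul_le_mul_of_nonneg_left h15 (by positivity)
    _ = _ := by ring

lemma QMk_bd {σ : Eis} (hσ : Sg σ) {J M : ℕ} {Ft : ℝ → ℂ} {c H : ℝ} {ϑ : ℝ → ℝ}
    {om : IX σ → ℝ → ℂ} (hK : KD σ J M Ft c H ϑ om) {A : ℝ} (hA : 0 < A) {E B ν r : Eis}
    {α : Eis → ℂ} (hB : IsPrim B) (hν : IsPrim ν) (hνs : Squarefree ν) (hα : Cf α ν)
    (hr : IsPrim r) (hrs : Squarefree r) (hrν : IsCoprime r ν) :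
    ‖QB α E B (fun _ D => (kP : ℂ) * conj (PX764.rho (σ * r * ν ^ 2 * D)) *
      mB (fA Ft A))‖ ≤ if ν = 1 then
        (kP * PX764.cD) * c * A ^ ((2 : ℝ) / 3) * (‖th (σ * r)‖ * ‖MT α E B σ r‖) else 0 := by
  have hkP := kP_pos
  have hcD := PX764.cD_pos
  have hc0 := hK.c0
  split_ifs with h1
  · subst h1
    have hm := hK.mb A hA
    have e1 : QB α E B (fun _ D => (kP : ℂ) * conj (PX764.rho (σ * r * 1 ^ 2 * D)) *
        mB (fA Ft A)) = ((kP : ℂ) * mB (fA Ft A) * (cD : ℂ) * conj (th (σ * r))) *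
          MT α E B σ r := by
      unfold QB MT
      rw [← tsum_mul_left]
      refine tsum_congr fun D => ?_
      by_cases h0 : α (B * D) = 0
      · rw [h0]; ring
      · have hD : IsPrim D := (hα.fs.prim _ h0).of_mul_left hB
        have hDs : Squarefree D := (hα.sqf _ h0).of_mul_right
        beta_reduce
        rw [one_pow, mul_one, conj_rho_mul hD hDs hσ hr hrs]
        ring
    rw [e1, norm_mul, norm_mul, norm_mul, norm_mul, RCLike.norm_conj, Complex.norm_real,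
      Complex.norm_real, Real.norm_of_nonneg kP_pos.le, Real.norm_of_nonneg PX764.cD_pos.le]
    calc kP * ‖mB (fA Ft A)‖ * PX764.cD * ‖th (σ * r)‖ * ‖MT α E B σ r‖
        ≤ kP * (A ^ ((2 : ℝ) / 3) * c) * PX764.cD * ‖th (σ * r)‖ * ‖MT α E B σ r‖ := by
          gcongr
      _ = _ := by ring
  · have e1 : QB α E B (fun _ D => (kP : ℂ) * conj (PX764.rho (σ * r * ν ^ 2 * D)) *
        mB (fA Ft A)) = 0 := by
      unfold QB
      have : ∀ D : Eis, α (B * D) * (sy E D * conj (sy D B)) *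
          ((kP : ℂ) * conj (PX764.rho (σ * r * ν ^ 2 * D)) * mB (fA Ft A)) = 0 := by
        intro D
        by_cases h0 : α (B * D) = 0
        · rw [h0]; ring
        · rw [rho_nu hσ hν h1 hνs hrν (hα.cop _ h0).of_mul_left_right, map_zero]; ring
      rw [tsum_congr this, tsum_zero]
    rw [e1, norm_zero]

/-- the weighted shell sum -/
def GK (ϑ : ℝ → ℝ) (R X A B0 : ℝ) (ν : Eis) (N : Eis → ℕ) (MD : Eis → ℕ → ℝ) : ℝ := by
  classical
  exact ∑ B ∈ S X, ∑ j ∈ Finset.range (N B), (if (nm B : ℝ) ≤ B0 then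
    ϑ (R * (nm ν : ℝ) ^ 2 * (X / nm B) / (A / (nm B : ℝ) ^ 2 * 2 ^ j)) ^ 2 else 1) * MD B j

/-- the error functional of `E2coreK` -/
def EK (ϑ : ℝ → ℝ) (H : ℝ) (M N0 : ℕ) (X R A T B0 : ℝ) (ν : Eis) (α : Eis → ℂ)
    (MD : Eis → ℕ → ℝ) (Mt : Eis → ℝ) (N : Eis → ℕ) : ℝ := by
  classical
  exact (N0 + 1) * (1 + Real.log X) *
        (R ^ (-(1 : ℝ) / 3) * A ^ ((2 : ℝ) / 3) * GK ϑ R X A B0 ν N MD +
          (if ν = 1 then R ^ (-(2 : ℝ) / 3) * A ^ ((4 : ℝ) / 3) *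
            ∑ B ∈ (S X).filter (fun B => B0 < nm B), (nm B : ℝ) ^ (-(4 : ℝ) / 3) * Mt B else 0) +
          R ^ (-(1 : ℝ) / 3) * A ^ ((2 : ℝ) / 3) * (X * R * (L1 α X *
            (H * (R * (nm ν : ℝ) ^ 2 * X ^ 2) / A) ^ 2 * (T ^ M)⁻¹) ^ 2))

/-- the hypotheses of `E2coreK` on the moments -/
structure MHK (J : ℕ) (H X R A T B0 : ℝ) (σ E ν : Eis) (α : Eis → ℂ) (MD : Eis → ℕ → ℝ)
    (Mt : Eis → ℝ) (N : Eis → ℕ) (N0 : ℕ) : Prop where
  dh : DH J R X σ E ν α N MD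
  mt : by classical exact ∀ B ∈ S X, B0 < nm B →
    ∑ r ∈ (S R).filter (fun r => IsCoprime r ν ∧ R / 2 < nm r), ‖MT α E B σ r‖ ^ 2 ≤ Mt B
  n0 : ∀ B ∈ S X, N B ≤ N0
  n1 : ∀ B ∈ S X, (nm B : ℝ) ≤ B0 → 2 * T * (H * (R * (nm ν : ℝ) ^ 2 * (X / nm B))) ≤
      A / (nm B : ℝ) ^ 2 * 2 ^ N B
  n2 : ∀ B ∈ S X, B0 < nm B → 10 * (A / (nm B : ℝ) ^ 2) ≤ 2 ^ N B

/-- the constant of `E2coreK` -/
def cK (σ : Eis) : ℝ := 2 * ‖th σ‖ ^ 2 * 100 * 100 * ((Fintype.card (IX σ) : ℝ) ^ 2 *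
  (2 * (c2 ^ 2 + 100 * K0 ^ 2)) + 2 + 2 * (kP * PX764.cD) ^ 2 * (2 * ‖th σ‖ ^ 2))

lemma cK_nonneg (σ : Eis) : 0 ≤ cK σ := by
  unfold cK
  positivity

set_option maxHeartbeats 8000000 in
open Classical in
/-- **the abstract core** -/
theorem E2coreK {σ : Eis} (hσ : Sg σ) {J M : ℕ} {Ft : ℝ → ℂ} {c H : ℝ} {ϑ : ℝ → ℝ}
    {om : IX σ → ℝ → ℂ} (hK : KD σ J M Ft c H ϑ om) {R X A T B0 : ℝ} (hR : 1 ≤ R) (hX : 1 ≤ X)
    (hA : 0 < A) (hT : 1 ≤ T) {E ν : Eis} {α : Eis → ℂ} (hE : E ≠ 0) (hν : IsPrim ν)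
    (hνs : Squarefree ν) (hα : Cf α ν) (hαX : ∀ n, α n ≠ 0 → X / 2 < nm n ∧ (nm n : ℝ) ≤ X)
    {MD : Eis → ℕ → ℝ} {Mt : Eis → ℝ} {N : Eis → ℕ} {N0 : ℕ}
    (hM : MHK J H X R A T B0 σ E ν α MD Mt N N0) :
    ∑ r ∈ (S R).filter (fun r => IsCoprime r ν ∧ R / 2 < nm r),
      ‖VV α σ E r ν Ft A - Mn α σ E r ν Ft A‖ ^ 2 ≤
      cK σ * c ^ 2 * EK ϑ H M N0 X R A T B0 ν α MD Mt N := by
  obtain ⟨hD, hMt, hNN, hN1, hN2⟩ := hM
  set I : ℝ := (Fintype.card (IX σ) : ℝ) with hI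
  have hI0 : 0 ≤ I := Nat.cast_nonneg _
  set C1 : ℝ := 2 * (c2 ^ 2 + 100 * K0 ^ 2) with hC1d
  have hC1 : 0 ≤ C1 := by positivity
  set C3 : ℝ := kP * PX764.cD with hC3d
  have hC3 : 0 ≤ C3 := by have := kP_pos; have := PX764.cD_pos; positivity
  set c0 : ℝ := 2 * ‖th σ‖ ^ 2 with hc0
  have hc00 : 0 ≤ c0 := by positivity
  have hcc := hK.c0
  have hH := hK.H1
  have hX0 : (0 : ℝ) ≤ X := by linarith
  have hR0 : (0 : ℝ) ≤ R := by linarith
  have hRp : (0 : ℝ) < R := by linarith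
  have hNν : (1 : ℝ) ≤ nm ν := one_le_nm hν.ne_zero
  have hL := L1_nonneg α X
  set Rs := (S R).filter (fun r => IsCoprime r ν ∧ R / 2 < nm r) with hRs
  have hmem : ∀ r ∈ Rs, IsPrim r ∧ Squarefree r ∧ (nm r : ℝ) ≤ R ∧ IsCoprime r ν ∧ R / 2 < nm r := by
    intro r hr
    rw [hRs, Finset.mem_filter, mem_S hR0] at hr
    exact ⟨hr.1.2.1, hr.1.2.2, hr.1.1, hr.2.1, hr.2.2⟩
  have hBm : ∀ B ∈ S X, IsPrim B ∧ Squarefree B ∧ (1 : ℝ) ≤ nm B ∧ (nm B : ℝ) ≤ X := by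
    intro B hB
    obtain ⟨h1, h2, h3⟩ := (mem_S hX0).mp hB
    exact ⟨h2, h3, one_le_nm h2.ne_zero, h1⟩
  set q : Eis → Eis → ℝ := fun r B => ‖QB α E B (HR σ r ν Ft A B0)‖ with hq
  set AB : Eis → ℝ := fun B => A / (nm B : ℝ) ^ 2 with hAB
  have hABp : ∀ B ∈ S X, 0 < AB B := fun B hB => by
    have := (hBm B hB).2.2.1
    simp only [hAB]; positivity
  set tl : ℝ := R * (L1 α X * (H * (R * (nm ν : ℝ) ^ 2 * X ^ 2) / A) ^ 2 * (T ^ M)⁻¹) ^ 2 with htl
  have htl0 : 0 ≤ tl := by rw [htl]; positivity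
  have hlog : 0 ≤ Real.log X := Real.log_nonneg hX
  set gB : Eis → ℝ := fun B => ∑ j ∈ Finset.range (N B), (if (nm B : ℝ) ≤ B0 then
    ϑ (R * (nm ν : ℝ) ^ 2 * (X / nm B) / (A / (nm B : ℝ) ^ 2 * 2 ^ j)) ^ 2 else 1) * MD B j with hgB
  have hGn : ∀ B ∈ S X, 0 ≤ gB B := by
    intro B hB
    simp only [hgB]
    refine Finset.sum_nonneg fun j hj => ?_
    have h1 := hD.nonneg hB (Finset.mem_range.mp hj)
    refine mul_nonneg ?_ h1
    split_ifs
    · exact sq_nonneg _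
    · exact zero_le_one
  have hMt0 : ∀ B ∈ S X, B0 < nm B → 0 ≤ Mt B := fun B hB h =>
    (Finset.sum_nonneg fun _ _ => by positivity).trans (hMt B hB h)
  set th2 : ℝ := c0 * R ^ (-(1 : ℝ) / 3) with hth2
  have hth20 : 0 ≤ th2 := by positivity
  have hthr : ∀ r ∈ Rs, ‖th (σ * r)‖ ^ 2 ≤ th2 := by
    intro r hr
    obtain ⟨h1, h2, h3, h4, h5⟩ := hmem r hr
    exact norm_th_sq_le hσ h1 h2 hRp h5
  -- step 1 : one `r`
  have step1 : ∀ r ∈ Rs, ‖VV α σ E r ν Ft A - Mn α σ E r ν Ft A‖ ^ 2 ≤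
      th2 * (100 * (1 + Real.log X) * ∑ B ∈ S X, (nm B : ℝ) ^ ((4 : ℝ) / 3) * q r B ^ 2) := by
    intro r hr
    obtain ⟨h1, h2, h3, h4, h5⟩ := hmem r hr
    rw [VV_split hσ hE h1 h2 hν hνs h4 hα hK.wt hA B0, add_sub_cancel_left, norm_mul, mul_pow]
    refine mul_le_mul (hthr r hr) ?_ (by positivity) hth20
    refine le_trans ?_ (cauchy_B hX (q r) fun B _ => norm_nonneg _)
    exact pow_le_pow_left₀ (norm_nonneg _)
      (PF_le hX0 hα.fs hα.sqf (fun n hn => (hαX n hn).2) _) 2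
  -- step 2 : one `B`
  set δν : ℝ := if ν = 1 then 1 else 0 with hδν
  have hδν0 : 0 ≤ δν := by rw [hδν]; split_ifs <;> norm_num
  have step2 : ∀ B ∈ S X, ∑ r ∈ Rs, q r B ^ 2 ≤
      c ^ 2 * (N0 + 1) * ((I ^ 2 * C1 + 2) * (AB B ^ ((2 : ℝ) / 3) *
        (gB B + tl)) +
        (if B0 < nm B then 2 * C3 ^ 2 * th2 * δν * AB B ^ ((4 : ℝ) / 3) * Mt B else 0)) := by
    intro B hB
    obtain ⟨hB1, hBs, hNB, hBX⟩ := hBm B hB
    have hAp := hABp B hB
    have hGB := hGn B hB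
    have hNB0 : ((N B : ℕ) : ℝ) ≤ N0 := by exact_mod_cast hNN B hB
    have hA23 : (0 : ℝ) ≤ AB B ^ ((2 : ℝ) / 3) := by positivity
    by_cases hcase : (nm B : ℝ) ≤ B0
    · -- dual side
      rw [if_neg (not_lt.mpr hcase), add_zero]
      have hgBe : gB B = Gk ϑ R X (AB B) ν B MD (N B) := by
        simp only [hgB, if_pos hcase]
        rfl
      have h1 : ∀ r ∈ Rs, q r B ^ 2 ≤ AB B ^ ((2 : ℝ) / 3) * (I * ∑ i : IX σ,
          ‖YTk α E B σ i r ν (om i) (AB B)‖ ^ 2) := by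
        intro r hr
        obtain ⟨hr1, hrs, hrR, hrν, hr2⟩ := hmem r hr
        have e1 : QB α E B (HR σ r ν Ft A B0) =
            QB α E B (fun _ D => Du (σ * r * ν ^ 2 * D) (Wf (fA Ft (AB B)))) := by
          unfold QB
          refine tsum_congr fun D => ?_
          unfold HR
          rw [if_pos hcase]
        simp only [hq]
        rw [e1, QBk_Du hK hB1 hr1 hν hα.fs hAp, norm_mul, mul_pow, Complex.norm_real,
          Real.norm_of_nonneg (by positivity)]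
        have e2 : (AB B ^ (1 / 3 : ℝ)) ^ 2 = AB B ^ ((2 : ℝ) / 3) := by
          rw [← Real.rpow_natCast, ← Real.rpow_mul hAp.le]; norm_num
        rw [e2]
        refine mul_le_mul_of_nonneg_left ?_ hA23
        have h2 : ‖∑ i : IX σ, sy (dl' σ i) (r * ν ^ 2) * YTk α E B σ i r ν (om i) (AB B)‖ ≤
            ∑ i : IX σ, ‖YTk α E B σ i r ν (om i) (AB B)‖ := by
          refine (norm_sum_le _ _).trans (Finset.sum_le_sum fun i _ => ?_)
          rw [norm_mul]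
          exact mul_le_of_le_one_left (norm_nonneg _) (norm_sy_le1 (hr1.mul (hν.pow 2)))
        have h3 := sq_sum_le_card_mul_sum_sq (s := (Finset.univ : Finset (IX σ)))
          (f := fun i => ‖YTk α E B σ i r ν (om i) (AB B)‖)
        rw [Finset.card_univ] at h3
        exact (pow_le_pow_left₀ (norm_nonneg _) h2 2).trans h3
      have h4 : ∀ i : IX σ, ∑ r ∈ Rs, ‖YTk α E B σ i r ν (om i) (AB B)‖ ^ 2 ≤
          C1 * c ^ 2 * (N0 + 1) * (gB B + tl) := by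
        intro i
        refine (YTk_bd (E := E) hK hR hX hAp hT hν hα hαX hD hB i (hN1 B hB hcase)).trans ?_
        rw [← hgBe]
        have h5 : R * (L1 α X * (H * (R * (nm ν : ℝ) ^ 2 * (X / nm B)) / AB B) ^ 2 *
            (T ^ M)⁻¹) ^ 2 ≤ tl := by
          rw [htl]
          refine mul_le_mul_of_nonneg_left ?_ hR0
          refine pow_le_pow_left₀ (by positivity) ?_ 2
          refine mul_le_mul_of_nonneg_right ?_ (by positivity)
          refine mul_le_mul_of_nonneg_left ?_ hL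
          refine pow_le_pow_left₀ (by positivity) ?_ 2
          simp only [hAB]
          have e3 : H * (R * (nm ν : ℝ) ^ 2 * (X / nm B)) / (A / (nm B : ℝ) ^ 2) =
              H * (R * (nm ν : ℝ) ^ 2 * (X * nm B)) / A := by field_simp
          rw [e3]
          refine div_le_div_of_nonneg_right ?_ hA.le
          refine mul_le_mul_of_nonneg_left ?_ (by positivity)
          refine mul_le_mul_of_nonneg_left ?_ (by positivity)
          nlinarith
        refine mul_le_mul (mul_le_mul_of_nonneg_left (by linarith) (by positivity))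
          (add_le_add le_rfl h5) (by positivity) (by positivity)
      calc ∑ r ∈ Rs, q r B ^ 2 ≤ ∑ r ∈ Rs, AB B ^ ((2 : ℝ) / 3) * (I * ∑ i : IX σ,
            ‖YTk α E B σ i r ν (om i) (AB B)‖ ^ 2) := Finset.sum_le_sum h1
        _ = AB B ^ ((2 : ℝ) / 3) * (I * ∑ i : IX σ, ∑ r ∈ Rs,
              ‖YTk α E B σ i r ν (om i) (AB B)‖ ^ 2) := by
            rw [← Finset.mul_sum, ← Finset.mul_sum, Finset.sum_comm]
        _ ≤ AB B ^ ((2 : ℝ) / 3) * (I * ∑ i : IX σ, C1 * c ^ 2 * (N0 + 1) *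
              (gB B + tl)) := by
            refine mul_le_mul_of_nonneg_left ?_ hA23
            refine mul_le_mul_of_nonneg_left ?_ hI0
            exact Finset.sum_le_sum fun i _ => h4 i
        _ = c ^ 2 * (N0 + 1) * (I ^ 2 * C1 * (AB B ^ ((2 : ℝ) / 3) *
              (gB B + tl))) := by
            rw [Finset.sum_const, Finset.card_univ, nsmul_eq_mul]; ring
        _ ≤ _ := by
            refine mul_le_mul_of_nonneg_left ?_ (by positivity)
            refine mul_le_mul_of_nonneg_right (by linarith) (by positivity)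
    · -- direct side
      have hcase' : B0 < nm B := not_le.mp hcase
      rw [if_pos hcase']
      have hgBe : gB B = ∑ j ∈ Finset.range (N B), MD B j := by
        simp only [hgB, if_neg hcase, one_mul]
      have h1 : ∀ r ∈ Rs, q r B ^ 2 ≤
          2 * ‖QB α E B (fun _ D => Cg (σ * r * ν ^ 2 * D) (fL (fA Ft (AB B))))‖ ^ 2 +
          2 * C3 ^ 2 * th2 * δν * (c ^ 2 * AB B ^ ((4 : ℝ) / 3)) * ‖MT α E B σ r‖ ^ 2 := by
        intro r hr
        obtain ⟨hr1, hrs, hrR, hrν, hr2⟩ := hmem r hr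
        have e1 : QB α E B (HR σ r ν Ft A B0) =
            QB α E B (fun _ D => Cg (σ * r * ν ^ 2 * D) (fL (fA Ft (AB B)))) -
            QB α E B (fun _ D => (kP : ℂ) * conj (PX764.rho (σ * r * ν ^ 2 * D)) *
              mB (fA Ft (AB B))) := by
          rw [← QB_sub hα.fs hB1]
          unfold QB
          refine tsum_congr fun D => ?_
          unfold HR
          rw [if_neg hcase]
        simp only [hq]
        rw [e1]
        have h2 := QMk_bd hσ hK hAp (E := E) hB1 hν hνs hα hr1 hrs hrν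
        have h3 : ‖QB α E B (fun _ D => (kP : ℂ) * conj (PX764.rho (σ * r * ν ^ 2 * D)) *
              mB (fA Ft (AB B)))‖ ^ 2 ≤
            C3 ^ 2 * th2 * δν * (c ^ 2 * AB B ^ ((4 : ℝ) / 3)) * ‖MT α E B σ r‖ ^ 2 := by
          have h4 := pow_le_pow_left₀ (norm_nonneg _) h2 2
          refine h4.trans ?_
          rw [hδν]
          split_ifs with hν1
          · have e2 : (AB B ^ ((2 : ℝ) / 3)) ^ 2 = AB B ^ ((4 : ℝ) / 3) := by
              rw [← Real.rpow_natCast, ← Real.rpow_mul hAp.le]; norm_num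
            calc (kP * PX764.cD * c * AB B ^ ((2 : ℝ) / 3) * (‖th (σ * r)‖ * ‖MT α E B σ r‖)) ^ 2
                = C3 ^ 2 * ‖th (σ * r)‖ ^ 2 * (c ^ 2 * (AB B ^ ((2 : ℝ) / 3)) ^ 2) *
                  ‖MT α E B σ r‖ ^ 2 := by rw [hC3d]; ring
              _ = C3 ^ 2 * ‖th (σ * r)‖ ^ 2 * (c ^ 2 * AB B ^ ((4 : ℝ) / 3)) *
                  ‖MT α E B σ r‖ ^ 2 := by rw [e2]
              _ ≤ C3 ^ 2 * th2 * (c ^ 2 * AB B ^ ((4 : ℝ) / 3)) * ‖MT α E B σ r‖ ^ 2 := by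
                  refine mul_le_mul_of_nonneg_right ?_ (by positivity)
                  refine mul_le_mul_of_nonneg_right ?_ (by positivity)
                  exact mul_le_mul_of_nonneg_left (hthr r hr) (by positivity)
              _ = _ := by ring
          · simp
        have h5 := norm_sub_le
          (QB α E B (fun _ D => Cg (σ * r * ν ^ 2 * D) (fL (fA Ft (AB B)))))
          (QB α E B (fun _ D => (kP : ℂ) * conj (PX764.rho (σ * r * ν ^ 2 * D)) *
              mB (fA Ft (AB B))))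
        set x := ‖QB α E B (fun _ D => Cg (σ * r * ν ^ 2 * D) (fL (fA Ft (AB B))))‖
        set y := ‖QB α E B (fun _ D => (kP : ℂ) * conj (PX764.rho (σ * r * ν ^ 2 * D)) *
              mB (fA Ft (AB B)))‖
        have h6 := pow_le_pow_left₀ (norm_nonneg _) h5 2
        refine h6.trans ?_
        nlinarith [sq_nonneg (x - y)]
      have h7 : ∑ r ∈ Rs,
          ‖QB α E B (fun _ D => Cg (σ * r * ν ^ 2 * D) (fL (fA Ft (AB B))))‖ ^ 2 ≤
          c ^ 2 * (N B + 1) * (AB B ^ ((2 : ℝ) / 3) * gB B) := by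
        rw [hgBe]
        exact QCk_bd hK hR hX hAp hα hD hB (hN2 B hB hcase')
      have h8 := hMt B hB hcase'
      have hMtB := hMt0 B hB hcase'
      calc ∑ r ∈ Rs, q r B ^ 2 ≤ ∑ r ∈ Rs,
            (2 * ‖QB α E B (fun _ D => Cg (σ * r * ν ^ 2 * D) (fL (fA Ft (AB B))))‖ ^ 2 +
            2 * C3 ^ 2 * th2 * δν * (c ^ 2 * AB B ^ ((4 : ℝ) / 3)) * ‖MT α E B σ r‖ ^ 2) :=
            Finset.sum_le_sum h1
        _ = 2 * ∑ r ∈ Rs,
            ‖QB α E B (fun _ D => Cg (σ * r * ν ^ 2 * D) (fL (fA Ft (AB B))))‖ ^ 2 +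
            2 * C3 ^ 2 * th2 * δν * (c ^ 2 * AB B ^ ((4 : ℝ) / 3)) *
              ∑ r ∈ Rs, ‖MT α E B σ r‖ ^ 2 := by
            rw [Finset.sum_add_distrib, ← Finset.mul_sum, ← Finset.mul_sum]
        _ ≤ 2 * (c ^ 2 * (N B + 1) * (AB B ^ ((2 : ℝ) / 3) * gB B)) +
            2 * C3 ^ 2 * th2 * δν * (c ^ 2 * AB B ^ ((4 : ℝ) / 3)) * Mt B :=
            add_le_add (mul_le_mul_of_nonneg_left h7 (by norm_num))
              (mul_le_mul_of_nonneg_left h8 (by positivity))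
        _ ≤ 2 * (c ^ 2 * (N0 + 1) * (AB B ^ ((2 : ℝ) / 3) * gB B)) +
            (N0 + 1) * (2 * C3 ^ 2 * th2 * δν * (c ^ 2 * AB B ^ ((4 : ℝ) / 3)) * Mt B) := by
            refine add_le_add ?_ ?_
            · refine mul_le_mul_of_nonneg_left ?_ (by norm_num)
              refine mul_le_mul_of_nonneg_right ?_ (by positivity)
              exact mul_le_mul_of_nonneg_left (by linarith) (by positivity)
            · refine le_mul_of_one_le_left (by positivity) ?_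
              have : (0 : ℝ) ≤ N0 := Nat.cast_nonneg _
              linarith
        _ = c ^ 2 * (N0 + 1) * (2 * (AB B ^ ((2 : ℝ) / 3) * gB B) +
              2 * C3 ^ 2 * th2 * δν * AB B ^ ((4 : ℝ) / 3) * Mt B) := by ring
        _ ≤ _ := by
            refine mul_le_mul_of_nonneg_left (add_le_add ?_ le_rfl) (by positivity)
            have a1 : (0 : ℝ) ≤ I ^ 2 * C1 := by positivity
            refine mul_le_mul (by linarith) ?_ (by positivity) (by positivity)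
            exact mul_le_mul_of_nonneg_left (by linarith) hA23
  -- step 3 : the sum over `B`
  have e4 : ∀ B ∈ S X, (nm B : ℝ) ^ ((4 : ℝ) / 3) * AB B ^ ((2 : ℝ) / 3) = A ^ ((2 : ℝ) / 3) := by
    intro B hB
    have hN0 : (0 : ℝ) < nm B := by have := (hBm B hB).2.2.1; linarith
    simp only [hAB]
    rw [Real.div_rpow hA.le (by positivity), ← Real.rpow_natCast, ← Real.rpow_mul hN0.le]
    have : ((2 : ℕ) : ℝ) * (2 / 3) = 4 / 3 := by norm_num
    rw [this]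
    field_simp
  have e5 : ∀ B ∈ S X, (nm B : ℝ) ^ ((4 : ℝ) / 3) * AB B ^ ((4 : ℝ) / 3) =
      A ^ ((4 : ℝ) / 3) * (nm B : ℝ) ^ (-(4 : ℝ) / 3) := by
    intro B hB
    have hN0 : (0 : ℝ) < nm B := by have := (hBm B hB).2.2.1; linarith
    simp only [hAB]
    rw [Real.div_rpow hA.le (by positivity), ← Real.rpow_natCast, ← Real.rpow_mul hN0.le]
    have h1 : ((2 : ℕ) : ℝ) * (4 / 3) = 4 / 3 + 4 / 3 := by norm_num
    have h2 : (-(4 : ℝ) / 3) = -(4 / 3) := by norm_num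
    rw [h1, Real.rpow_add hN0, h2, Real.rpow_neg hN0.le]
    field_simp
  have step3 : ∑ B ∈ S X, (nm B : ℝ) ^ ((4 : ℝ) / 3) * ∑ r ∈ Rs, q r B ^ 2 ≤
      c ^ 2 * (N0 + 1) * ((I ^ 2 * C1 + 2) * A ^ ((2 : ℝ) / 3) *
        (∑ B ∈ S X, gB B + 100 * X * tl) +
        2 * C3 ^ 2 * th2 * δν * A ^ ((4 : ℝ) / 3) *
          ∑ B ∈ (S X).filter (fun B => B0 < nm B), (nm B : ℝ) ^ (-(4 : ℝ) / 3) * Mt B) := by
    have h1 : ∀ B ∈ S X, (nm B : ℝ) ^ ((4 : ℝ) / 3) * ∑ r ∈ Rs, q r B ^ 2 ≤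
        c ^ 2 * (N0 + 1) * ((I ^ 2 * C1 + 2) * A ^ ((2 : ℝ) / 3) *
          (gB B + tl) + (if B0 < nm B then
            2 * C3 ^ 2 * th2 * δν * A ^ ((4 : ℝ) / 3) * ((nm B : ℝ) ^ (-(4 : ℝ) / 3) * Mt B)
            else 0)) := by
      intro B hB
      have hN0 : (0 : ℝ) < nm B := by have := (hBm B hB).2.2.1; linarith
      refine (mul_le_mul_of_nonneg_left (step2 B hB) (by positivity)).trans (le_of_eq ?_)
      have a1 := e4 B hB
      have a2 := e5 B hB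
      rw [← a1]
      split_ifs
      · have e6 : 2 * C3 ^ 2 * th2 * δν * A ^ ((4 : ℝ) / 3) * ((nm B : ℝ) ^ (-(4 : ℝ) / 3) * Mt B) =
            2 * C3 ^ 2 * th2 * δν * (A ^ ((4 : ℝ) / 3) * (nm B : ℝ) ^ (-(4 : ℝ) / 3)) * Mt B := by
          ring
        rw [e6, ← a2]
        ring
      · ring
    refine (Finset.sum_le_sum h1).trans ?_
    rw [← Finset.mul_sum, Finset.sum_add_distrib, ← Finset.mul_sum, Finset.sum_add_distrib,
      Finset.sum_const, nsmul_eq_mul, Finset.sum_filter, Finset.mul_sum]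
    refine mul_le_mul_of_nonneg_left (add_le_add ?_ (le_of_eq ?_)) (by positivity)
    · refine mul_le_mul_of_nonneg_left (add_le_add le_rfl ?_) (by positivity)
      exact mul_le_mul_of_nonneg_right (card_S_le' hX) htl0
    · refine Finset.sum_congr rfl fun B _ => ?_
      split_ifs
      · rfl
      · rw [mul_zero]
  -- conclusion
  have step4 : ∑ r ∈ Rs, ‖VV α σ E r ν Ft A - Mn α σ E r ν Ft A‖ ^ 2 ≤
      th2 * (100 * (1 + Real.log X)) *
        ∑ B ∈ S X, (nm B : ℝ) ^ ((4 : ℝ) / 3) * ∑ r ∈ Rs, q r B ^ 2 := by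
    refine (Finset.sum_le_sum step1).trans (le_of_eq ?_)
    rw [← Finset.mul_sum, ← Finset.mul_sum, Finset.sum_comm]
    have : ∑ y ∈ S X, ∑ x ∈ Rs, (nm y : ℝ) ^ ((4 : ℝ) / 3) * q x y ^ 2 =
        ∑ B ∈ S X, (nm B : ℝ) ^ ((4 : ℝ) / 3) * ∑ r ∈ Rs, q r B ^ 2 :=
      Finset.sum_congr rfl fun B _ => by rw [Finset.mul_sum]
    rw [this]
    ring
  refine step4.trans ?_
  refine (mul_le_mul_of_nonneg_left step3 (by positivity)).trans ?_
  set G : ℝ := ∑ B ∈ S X, gB B with hG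
  have hG0 : 0 ≤ G := Finset.sum_nonneg hGn
  set Q : ℝ := ∑ B ∈ (S X).filter (fun B => B0 < nm B), (nm B : ℝ) ^ (-(4 : ℝ) / 3) * Mt B with hQ
  have hQ0 : 0 ≤ Q := by
    rw [hQ]
    refine Finset.sum_nonneg fun B hB => ?_
    rw [Finset.mem_filter] at hB
    have := hMt0 B hB.1 hB.2
    positivity
  have hA23 : (0 : ℝ) ≤ A ^ ((2 : ℝ) / 3) := by positivity
  have hA43 : (0 : ℝ) ≤ A ^ ((4 : ℝ) / 3) := by positivity
  have hR13 : (0 : ℝ) ≤ R ^ (-(1 : ℝ) / 3) := by positivity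
  have e7 : R ^ (-(1 : ℝ) / 3) * R ^ (-(1 : ℝ) / 3) = R ^ (-(2 : ℝ) / 3) := by
    rw [← Real.rpow_add hRp]; norm_num
  have e8 : (if ν = 1 then R ^ (-(2 : ℝ) / 3) * A ^ ((4 : ℝ) / 3) * Q else 0) =
      δν * (R ^ (-(2 : ℝ) / 3) * A ^ ((4 : ℝ) / 3) * Q) := by
    rw [hδν]; split_ifs <;> simp
  have eGK : GK ϑ R X A B0 ν N MD = G := rfl
  have hEK : EK ϑ H M N0 X R A T B0 ν α MD Mt N = (N0 + 1) * (1 + Real.log X) *
      (R ^ (-(1 : ℝ) / 3) * A ^ ((2 : ℝ) / 3) * G +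
        δν * (R ^ (-(1 : ℝ) / 3) * R ^ (-(1 : ℝ) / 3) * A ^ ((4 : ℝ) / 3) * Q) +
        R ^ (-(1 : ℝ) / 3) * A ^ ((2 : ℝ) / 3) * (X * tl)) := by
    rw [e7, ← e8]
    unfold EK
    rw [eGK, htl]
    ring
  rw [hEK]
  have hN00 : (0 : ℝ) ≤ N0 := Nat.cast_nonneg _
  have hfin := fin_ar hc00 hR13 hA23 hA43 hX0 htl0 hG0 hQ0 hδν0 (a := I ^ 2 * C1 + 2)
    (b := 2 * C3 ^ 2) (by positivity) (by positivity) (sq_nonneg c) hN00 hlog
  refine le_trans (le_of_eq ?_) (hfin.trans (le_of_eq ?_))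
  · rw [hth2]
  · unfold cK
    ring

end Crest.Agent.R017.E2440
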