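import Crest.Agent.R017.E2w_440

/-!
# Row 17, block C70, leaf E2, part y (helper440): the joint large sieve over pairs `(B, d)`

* `blk`, `DHJ`, `DHr` : dyadic blocks of `B`, the joint large sieve, the restricted one
* `shellJ` : one joint shell, dual side
* `dirJ` : one joint shell, direct side
-/

set_option autoImplicit false
set_option linter.unusedVariables false
set_option linter.unusedSectionVars false

noncomputable section

open Complex MeasureTheory
open scoped ComplexConjugate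

namespace Crest.Agent.R017.E2440

open Crest.Agent.R012 Crest.Agent.R012.Eis Crest.Agent.R012.GaussLoc283
open Crest.Agent.R012.Mob705 hiding pb mem_pb
open Crest.Agent.R012.Div277
open Crest.Agent.R012.LS2 (S mem_S)
open Crest.Agent.R012.Weight600 (osc norm_osc)
open Crest.Agent.R017.Sx545 (Sm sm_one_iff)
open Crest.Agent.R017.PX764 (th Gh n6 cD)
open Crest.Agent.R017.F1
open Crest.Agent.R017.X6C180 (Sg fA WF V1 cM n13 IX dl' om' GF)
open Crest.Agent.R017.X6545 (TF Bd)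
open Crest.Agent.R017.X6W180 (TF1 tf1_tf)
open Crest.Agent.R017.CM106 (sub CS FS)
open Crest.Agent.R017.H1401 (pb mem_pb)

/-- dyadic index of `B` -/
def blk (B : Eis) : ℕ := Nat.clog 2 (nm B)

lemma blk_le (B : Eis) : (nm B : ℝ) ≤ 2 ^ blk B := by
  unfold blk
  exact_mod_cast Nat.le_pow_clog (by norm_num) (nm B)

lemma blk_lt {B : Eis} (hB : B ≠ 0) : (2 : ℝ) ^ blk B / 2 < nm B := by
  have h1 : 1 ≤ nm B := nm_pos.2 hB
  rcases h1.eq_or_lt with h | h
  · unfold blk
    rw [← h]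
    simp
    norm_num
  · have h2 := Nat.pow_pred_clog_lt_self (b := 2) (by norm_num) h
    have h3 : 1 ≤ Nat.clog 2 (nm B) := Nat.clog_pos (by norm_num) (by omega)
    have h4 : (2 : ℝ) ^ blk B = 2 * 2 ^ (Nat.clog 2 (nm B)).pred := by
      unfold blk
      rw [← pow_succ', Nat.pred_eq_sub_one, Nat.sub_add_cancel h3]
    have h5 : ((2 ^ (Nat.clog 2 (nm B)).pred : ℕ) : ℝ) < nm B := by exact_mod_cast h2
    push_cast at h5
    rw [h4]
    linarith

/-- the joint dyadic large sieve over pairs `(B, d)` -/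
def DHJ (J : ℕ) (R X : ℝ) (σ E ν : Eis) (α : Eis → ℂ) (N : Eis → ℕ) (jm : ℕ → ℕ → Prop)
    (MJ : ℕ → ℕ → ℝ) : Prop := by
  classical
  exact ∀ u j : ℕ, jm u j → ∀ (i : IX σ) (t : ℝ) (b : Eis → Eis → ℂ),
    (∀ B d, ‖b B d‖ ≤ (nm B : ℝ) ^ (-(1 : ℝ) / 2) * (nm d : ℝ)⁻¹) →
    (∀ B d, b B d ≠ 0 → B ∈ S X ∧ blk B = u ∧ j < N B ∧ (2 : ℝ) ^ j / 2 < nm d) →
    ∑ r ∈ (S R).filter (fun r => IsCoprime r ν ∧ R / 2 < nm r),
      ‖∑ B ∈ S X, conj (sy r B) * ∑ d ∈ pb (2 ^ j), b B d * ∑' D : Eis,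
        cT α E B (dl' σ i) t D * conj (gs (dl' σ i * σ * r * ν ^ 2 * D) d)‖ ^ 2 ≤
      (1 + |t|) ^ J * MJ u j

/-- the dyadic large sieve for the shells in `Pj` only -/
def DHr (J : ℕ) (R X : ℝ) (σ E ν : Eis) (α : Eis → ℂ) (N : Eis → ℕ) (Pj : Eis → ℕ → Prop)
    (MD : Eis → ℕ → ℝ) : Prop := by
  classical
  exact ∀ B ∈ S X, ∀ (i : IX σ) (t : ℝ) (j : ℕ), j < N B → Pj B j → ∀ b : Eis → ℂ,
    (∀ d, ‖b d‖ ≤ (nm d : ℝ)⁻¹) → (∀ d, b d ≠ 0 → (2 : ℝ) ^ j / 2 < nm d) →
    ∑ r ∈ (S R).filter (fun r => IsCoprime r ν ∧ R / 2 < nm r),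
      ‖∑ d ∈ pb (2 ^ j), b d * ∑' D : Eis, cT α E B (dl' σ i) t D *
        conj (gs (dl' σ i * σ * r * ν ^ 2 * D) d)‖ ^ 2 ≤ (1 + |t|) ^ J * MD B j

lemma DHJ.nonneg {J : ℕ} {R X : ℝ} {σ E ν : Eis} {α : Eis → ℂ} {N : Eis → ℕ}
    {jm : ℕ → ℕ → Prop} {MJ : ℕ → ℕ → ℝ} (h : DHJ J R X σ E ν α N jm MJ) {u j : ℕ}
    (hj : jm u j) : 0 ≤ MJ u j := by
  classical
  have h1 := h u j hj none 0 (fun _ _ => 0) (fun B d => by rw [norm_zero]; positivity)
    (fun B d hd => absurd rfl hd)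
  rw [abs_zero, add_zero, one_pow, one_mul] at h1
  exact (Finset.sum_nonneg fun _ _ => by positivity).trans h1

lemma DHr.nonneg {J : ℕ} {R X : ℝ} {σ E ν : Eis} {α : Eis → ℂ} {N : Eis → ℕ}
    {Pj : Eis → ℕ → Prop} {MD : Eis → ℕ → ℝ} (h : DHr J R X σ E ν α N Pj MD) {B : Eis}
    (hB : B ∈ S X) {j : ℕ} (hj : j < N B) (hP : Pj B j) : 0 ≤ MD B j := by
  classical
  have h1 := h B hB none 0 j hj hP (fun _ => 0) (fun d => by rw [norm_zero]; positivity)
    (fun d hd => absurd rfl hd)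
  rw [abs_zero, add_zero, one_pow, one_mul] at h1
  exact (Finset.sum_nonneg fun _ _ => by positivity).trans h1

lemma DH.toDHr {J : ℕ} {R X : ℝ} {σ E ν : Eis} {α : Eis → ℂ} {N : Eis → ℕ}
    {MD : Eis → ℕ → ℝ} (h : DH J R X σ E ν α N MD) (Pj : Eis → ℕ → Prop) :
    DHr J R X σ E ν α N Pj MD := fun B hB i t j hj _ b hb hs => h B hB i t j hj b hb hs

open Classical in
/-- the trivial bound of the shells which are not in `Pj` -/
lemma DHr.toDH {J : ℕ} {R X : ℝ} (hR : 1 ≤ R) (hX : 1 ≤ X) {σ E ν : Eis} {α : Eis → ℂ}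
    (hα : Cf α ν) {N : Eis → ℕ} {Pj : Eis → ℕ → Prop} {MD : Eis → ℕ → ℝ}
    (h : DHr J R X σ E ν α N Pj MD) :
    ∃ MD' : Eis → ℕ → ℝ, DH J R X σ E ν α N MD' ∧ ∀ B j, Pj B j → MD' B j = MD B j := by
  have hX0 : (0 : ℝ) ≤ X := by linarith
  have hR0 : (0 : ℝ) ≤ R := by linarith
  set T : Finset Eis := hα.fs.fin.toFinset with hT
  have hTm : ∀ n, n ∈ T ↔ α n ≠ 0 := by
    intro n
    rw [hT, Set.Finite.mem_toFinset, Function.mem_support]
  set L : ℝ := ∑ n ∈ T, ‖α n‖ with hL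
  have hL0 : 0 ≤ L := Finset.sum_nonneg fun _ _ => norm_nonneg _
  refine ⟨fun B j => if Pj B j then MD B j else
    (S R).card * ((pb ((2 : ℝ) ^ j)).card * L) ^ 2, ?_, fun B j hP => if_pos hP⟩
  intro B hB i t j hj b hb hs
  obtain ⟨hBX, hB1, hBs⟩ := (mem_S hX0).mp hB
  beta_reduce
  split_ifs with hP
  · exact h B hB i t j hj hP b hb hs
  · have ht : (1 : ℝ) ≤ (1 + |t|) ^ J := one_le_pow₀ (by have := abs_nonneg t; linarith)
    set TD : Finset Eis := (hα.fs.sub hB1).fin.toFinset with hTD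
    have hTDm : ∀ D, D ∈ TD ↔ α (B * D) ≠ 0 := by
      intro D
      rw [hTD, Set.Finite.mem_toFinset, Function.mem_support]
      rfl
    have hsumD : ∑ D ∈ TD, ‖α (B * D)‖ ≤ L := by
      have hinj : Set.InjOn (fun D : Eis => B * D) TD := fun x _ y _ h =>
        mul_left_cancel₀ hB1.ne_zero h
      have e1 : ∑ D ∈ TD, ‖α (B * D)‖ = ∑ n ∈ TD.image (fun D => B * D), ‖α n‖ := by
        rw [Finset.sum_image hinj]
      rw [e1, hL]
      refine Finset.sum_le_sum_of_subset_of_nonneg ?_ fun _ _ _ => norm_nonneg _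
      intro n hn
      rw [Finset.mem_image] at hn
      obtain ⟨D, hD, rfl⟩ := hn
      exact (hTm _).mpr ((hTDm D).mp hD)
    have hone : ∀ r : Eis, ‖∑ d ∈ pb ((2 : ℝ) ^ j), b d * ∑' D : Eis, cT α E B (dl' σ i) t D *
        conj (gs (dl' σ i * σ * r * ν ^ 2 * D) d)‖ ≤ (pb ((2 : ℝ) ^ j)).card * L := by
      intro r
      refine (norm_sum_le _ _).trans ?_
      rw [← nsmul_eq_mul]
      refine Finset.sum_le_card_nsmul _ _ _ fun d hd => ?_
      have hd1 := ((mem_pb (by positivity)).mp hd).2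
      have hNd : (1 : ℝ) ≤ nm d := one_le_nm hd1.ne_zero
      rw [tsum_eq_sum (s := TD)]
      · rw [norm_mul]
        have h1 : ‖∑ D ∈ TD, cT α E B (dl' σ i) t D *
            conj (gs (dl' σ i * σ * r * ν ^ 2 * D) d)‖ ≤ nm d * L := by
          refine (norm_sum_le _ _).trans ?_
          have h2 : ∀ D ∈ TD, ‖cT α E B (dl' σ i) t D *
              conj (gs (dl' σ i * σ * r * ν ^ 2 * D) d)‖ ≤ nm d * ‖α (B * D)‖ := by
            intro D hD
            have hD1 : IsPrim D := (hα.fs.prim _ ((hTDm D).mp hD)).of_mul_left hB1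
            rw [norm_mul, RCLike.norm_conj]
            have h4 : ‖gs (dl' σ i * σ * r * ν ^ 2 * D) d‖ ≤ nm d := norm_gs_le' _ hd1
            have h5 : ‖cT α E B (dl' σ i) t D‖ ≤ ‖α (B * D)‖ := by
              unfold cT
              rw [norm_mul, norm_mul, norm_mul, norm_mul, norm_osc, RCLike.norm_conj, mul_one]
              have h6 : ‖sy E D‖ * ‖sy D B‖ ≤ 1 :=
                mul_le_one₀ (norm_sy_le1 hD1) (norm_nonneg _) (norm_sy_le1 hB1)
              have h7 : ‖sy (dl' σ i) D‖ ≤ 1 := norm_sy_le1 hD1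
              calc ‖α (B * D)‖ * (‖sy E D‖ * ‖sy D B‖) * ‖sy (dl' σ i) D‖
                  ≤ ‖α (B * D)‖ * 1 * 1 := by gcongr
                _ = _ := by ring
            rw [mul_comm (nm d : ℝ)]
            exact mul_le_mul h5 h4 (norm_nonneg _) (norm_nonneg _)
          refine (Finset.sum_le_sum h2).trans ?_
          rw [← Finset.mul_sum]
          exact mul_le_mul_of_nonneg_left hsumD (by positivity)
        calc ‖b d‖ * _ ≤ (nm d : ℝ)⁻¹ * (nm d * L) :=
              mul_le_mul (hb d) h1 (norm_nonneg _) (by positivity)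
          _ = L := by field_simp
      · intro D hD
        rw [hTDm, not_not] at hD
        unfold cT
        rw [hD]; ring
    calc ∑ r ∈ (S R).filter (fun r => IsCoprime r ν ∧ R / 2 < nm r), _
        ≤ ∑ r ∈ (S R).filter (fun r => IsCoprime r ν ∧ R / 2 < nm r),
          ((pb ((2 : ℝ) ^ j)).card * L) ^ 2 :=
          Finset.sum_le_sum fun r _ => pow_le_pow_left₀ (norm_nonneg _) (hone r) 2
      _ = ((S R).filter (fun r => IsCoprime r ν ∧ R / 2 < nm r)).card *
          ((pb ((2 : ℝ) ^ j)).card * L) ^ 2 := by rw [Finset.sum_const, nsmul_eq_mul]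
      _ ≤ (S R).card * ((pb ((2 : ℝ) ^ j)).card * L) ^ 2 := by
          refine mul_le_mul_of_nonneg_right ?_ (sq_nonneg _)
          exact_mod_cast Finset.card_filter_le _ _
      _ ≤ _ := le_mul_of_one_le_left (by positivity) ht

open Classical in
/-- one joint shell, dual side -/
theorem shellJ {σ : Eis} {J M : ℕ} {Ft : ℝ → ℂ} {c H : ℝ} {ϑ : ℝ → ℝ} {om : IX σ → ℝ → ℂ}
    (hK : KD σ J M Ft c H ϑ om) {R X A : ℝ} (hR : 1 ≤ R) (hX : 1 ≤ X) (hA : 0 < A)
    {E ν : Eis} {α : Eis → ℂ} (hν : IsPrim ν) (hα : Cf α ν)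
    (hαX : ∀ n, α n ≠ 0 → X / 2 < nm n ∧ (nm n : ℝ) ≤ X) {N : Eis → ℕ} {jm : ℕ → ℕ → Prop}
    {MJ : ℕ → ℕ → ℝ} (hD : DHJ J R X σ E ν α N jm MJ) {u j : ℕ} (hj : jm u j) (i : IX σ)
    (w : Eis → ℂ) (hw : ∀ B ∈ S X, ‖w B‖ ≤ (nm B : ℝ) ^ ((1 : ℝ) / 6))
    (hws : ∀ B, w B ≠ 0 → B ∈ S X ∧ blk B = u ∧ j < N B) :
    ∑ r ∈ (S R).filter (fun r => IsCoprime r ν ∧ R / 2 < nm r),
      ‖∑ B ∈ S X, w B * conj (sy r B) * ((((A / (nm B : ℝ) ^ 2) ^ (1 / 3 : ℝ) : ℝ) : ℂ) *
        ∑ d ∈ sh j, (((nm d : ℝ)⁻¹ : ℝ) : ℂ) *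
          XTk α E B σ i r ν (om i) (A / (nm B : ℝ) ^ 2) d)‖ ^ 2 ≤
      (c * ϑ (R * (nm ν : ℝ) ^ 2 * (X * 2 ^ u / 2) / (A * 2 ^ j)) * c2) ^ 2 *
        (A ^ ((2 : ℝ) / 3) * MJ u j) := by
  have hX0 : (0 : ℝ) ≤ X := by linarith
  have hR0 : (0 : ℝ) ≤ R := by linarith
  have hNν : (1 : ℝ) ≤ nm ν := one_le_nm hν.ne_zero
  set Z : ℝ := 2 ^ j with hZdef
  have hZ : 1 ≤ Z := one_le_pow₀ (by norm_num)
  set τ : Eis := dl' σ i with hτ
  set U : ℝ := R * (nm ν : ℝ) ^ 2 * (X * 2 ^ u / 2) with hU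
  have hU0 : 0 < U := by rw [hU]; positivity
  obtain ⟨kk, hk1, hk2, hk3, hk4⟩ := hK.sep i A U Z hA hU0 (by linarith)
  have hth := hK.th0 (U / (A * Z)) (by positivity)
  have hc0 := hK.c0
  have hMJ := hD.nonneg hj
  set AB : Eis → ℝ := fun B => A / (nm B : ℝ) ^ 2 with hAB
  set G : Eis → Eis → Eis → Eis → ℂ := fun r B d D => w B * conj (sy r B) *
    ((((AB B) ^ (1 / 3 : ℝ) : ℝ) : ℂ) * ((((nm d : ℝ)⁻¹ : ℝ) : ℂ) *
    (α (B * D) * (sy E D * conj (sy D B)) * sy τ D * conj (gs (τ * σ * r * ν ^ 2 * D) d)))) with hG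
  set nu : Eis → Eis → Eis → ℝ := fun r B D =>
    (nm (r * ν ^ 2 * D) : ℝ) * (nm B : ℝ) ^ 2 with hnu
  set x : Eis → ℝ → ℂ := fun r t => ∑ B ∈ S X, ∑ d ∈ sh j, ∑ D ∈ S X, G r B d D *
    (osc t (-Real.log (nu r B D / U)) * osc t (Real.log ((nm d : ℝ) / Z))) with hx
  -- support in `D`
  have hDS : ∀ B ∈ S X, ∀ D, α (B * D) ≠ 0 → D ∈ S X := by
    intro B hB D h0
    obtain ⟨hBX, hB1, hBs⟩ := (mem_S hX0).mp hB
    have hBD := hα.fs.prim _ h0
    rw [mem_S hX0]
    refine ⟨?_, hBD.of_mul_left hB1, (hα.sqf _ h0).of_mul_right⟩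
    have h4 : nm D ≤ nm (B * D) := nm_le_of_dvd hBD.ne_zero (dvd_mul_left _ _)
    have h4' : (nm D : ℝ) ≤ nm (B * D) := by exact_mod_cast h4
    exact h4'.trans (hαX _ h0).2
  have e1 : ∀ r, (fun t => kk t * x r t) = fun t => ∑ B ∈ S X, ∑ d ∈ sh j, ∑ D ∈ S X,
      G r B d D * (kk t * (osc t (-Real.log (nu r B D / U)) *
        osc t (Real.log ((nm d : ℝ) / Z)))) := by
    intro r
    funext t
    simp only [hx]
    rw [Finset.mul_sum]
    refine Finset.sum_congr rfl fun B _ => ?_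
    rw [Finset.mul_sum]
    refine Finset.sum_congr rfl fun d _ => ?_
    rw [Finset.mul_sum]
    exact Finset.sum_congr rfl fun D _ => by ring
  refine mink ((S R).filter (fun r => IsCoprime r ν ∧ R / 2 < nm r)) (kk := kk) (x := x)
    (a := fun r => ∑ B ∈ S X, w B * conj (sy r B) * ((((AB B) ^ (1 / 3 : ℝ) : ℝ) : ℂ) *
        ∑ d ∈ sh j, (((nm d : ℝ)⁻¹ : ℝ) : ℂ) * XTk α E B σ i r ν (om i) (AB B) d))
    (V := A ^ ((2 : ℝ) / 3) * MJ u j) (c := c * ϑ (U / (A * Z))) (J := J) (by positivity)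
    (by positivity) ?_ ?_ hk3 ?_
  · -- the separated form
    intro r hr
    rw [Finset.mem_filter, mem_S hR0] at hr
    obtain ⟨⟨hrR, hr1, hrs⟩, hrν, hrR2⟩ := hr
    rw [e1 r, integral_finsetSum _ fun B _ => integrable_finsetSum _ fun d _ =>
      integrable_finsetSum _ fun D _ => (integrable_kk hk2 _ _).const_mul _]
    refine Finset.sum_congr rfl fun B hB => ?_
    rw [integral_finsetSum _ fun d _ => integrable_finsetSum _ fun D _ =>
      (integrable_kk hk2 _ _).const_mul _]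
    by_cases hw0 : w B = 0
    · rw [hw0, zero_mul, zero_mul]
      symm
      refine Finset.sum_eq_zero fun d _ => ?_
      rw [integral_finsetSum _ fun D _ => (integrable_kk hk2 _ _).const_mul _]
      refine Finset.sum_eq_zero fun D _ => ?_
      simp only [hG, hw0, zero_mul, integral_zero]
    obtain ⟨-, hBu, hjN⟩ := hws B hw0
    obtain ⟨hBX, hB1, hBs⟩ := (mem_S hX0).mp hB
    have hNB : (1 : ℝ) ≤ nm B := one_le_nm hB1.ne_zero
    have hBu1 : (nm B : ℝ) ≤ 2 ^ u := hBu ▸ blk_le B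
    have hBu2 : (2 : ℝ) ^ u / 2 < nm B := hBu ▸ blk_lt hB1.ne_zero
    rw [Finset.mul_sum, Finset.mul_sum]
    refine Finset.sum_congr rfl fun d hd => ?_
    rw [integral_finsetSum _ fun D _ => (integrable_kk hk2 _ _).const_mul _]
    obtain ⟨⟨hdZ, hd1⟩, hdZ2⟩ := mem_sh.mp hd
    unfold XTk
    rw [tsum_eq_sum (s := S X), Finset.mul_sum, Finset.mul_sum, Finset.mul_sum]
    · refine Finset.sum_congr rfl fun D hDX => ?_
      by_cases hD0 : α (B * D) = 0
      · simp only [hG, hD0]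
        simp
      have hBD := hα.fs.prim _ hD0
      have hD1 : IsPrim D := hBD.of_mul_left hB1
      have hND : (1 : ℝ) ≤ nm D := one_le_nm hD1.ne_zero
      have hNr : (1 : ℝ) ≤ nm r := one_le_nm hr1.ne_zero
      have hNd : (1 : ℝ) ≤ nm d := one_le_nm hd1.ne_zero
      obtain ⟨hX1, hX2⟩ := hαX _ hD0
      rw [nm_mul, Nat.cast_mul] at hX1 hX2
      have hnuv : nu r B D = (nm r : ℝ) * (nm ν : ℝ) ^ 2 * nm D * (nm B : ℝ) ^ 2 := by
        simp only [hnu]
        rw [nm_mul, nm_mul, nm_pow]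
        push_cast
        ring
      have hnu0 : 0 < nu r B D := by rw [hnuv]; positivity
      have h2u : (0 : ℝ) < 2 ^ u := by positivity
      have hq : nu r B D / U = ((nm r : ℝ) / R) * ((nm B : ℝ) * nm D / X) *
          ((nm B : ℝ) / 2 ^ u) * 2 := by
        rw [hnuv, hU]
        field_simp
      have hq1 : (nm r : ℝ) / R ≤ 1 := (div_le_one (by linarith)).mpr hrR
      have hq2 : 1 / 2 ≤ (nm r : ℝ) / R := by
        rw [le_div_iff₀ (by linarith)]; linarith
      have hq3 : (nm B : ℝ) * nm D / X ≤ 1 := (div_le_one (by linarith)).mpr hX2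
      have hq4 : 1 / 2 ≤ (nm B : ℝ) * nm D / X := by
        rw [le_div_iff₀ (by linarith)]; linarith
      have hq5 : (nm B : ℝ) / 2 ^ u ≤ 1 := (div_le_one h2u).mpr hBu1
      have hq6 : 1 / 2 ≤ (nm B : ℝ) / 2 ^ u := by
        rw [le_div_iff₀ h2u]; linarith
      have h1 : |Real.log (nu r B D / U)| ≤ 2 := by
        apply abs_log_le
        · rw [hq]
          refine exp_neg_two_le.trans ?_
          calc (1 : ℝ) / 4 = 1 / 2 * (1 / 2) * (1 / 2) * 2 := by norm_num
            _ ≤ _ := by gcongr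
        · rw [hq]
          have := exp_two_ge
          calc (nm r : ℝ) / R * ((nm B : ℝ) * nm D / X) * ((nm B : ℝ) / 2 ^ u) * 2
              ≤ 1 * 1 * 1 * 2 := by gcongr
            _ ≤ _ := by linarith
      have h2 : |Real.log ((nm d : ℝ) / Z)| ≤ 2 := by
        apply abs_log_le
        · refine exp_neg_two_le.trans ?_
          rw [le_div_iff₀ (by linarith)]
          linarith
        · have := exp_two_ge
          have h3 : (nm d : ℝ) / Z ≤ 1 := (div_le_one (by linarith)).mpr hdZ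
          linarith
      have harg : (nm (r * ν ^ 2 * D) : ℝ) / (AB B * nm d) = nu r B D / (A * nm d) := by
        simp only [hnu, hAB]
        field_simp
      rw [integral_const_mul, ← hk4 (nu r B D) (nm d) hnu0 (by linarith) h1 h2, harg]
      simp only [hG]
      ring
    · intro D hDX
      have h0 : α (B * D) = 0 := by
        by_contra h
        exact hDX (hDS B hB D h)
      rw [h0]
      ring
  · -- integrability
    intro r _
    rw [e1 r]
    exact integrable_finsetSum _ fun B _ => integrable_finsetSum _ fun d _ =>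
      integrable_finsetSum _ fun D _ => (integrable_kk hk2 _ _).const_mul _
  · -- the large sieve
    intro t
    set b : Eis → Eis → ℂ := fun B d => if Z / 2 < nm d then
      w B * ((((nm B : ℝ) ^ (-(2 : ℝ) / 3) : ℝ) : ℂ) * osc t (-(2 * Real.log (nm B)))) *
        ((((nm d : ℝ)⁻¹ : ℝ) : ℂ) * osc t (Real.log ((nm d : ℝ) / Z))) else 0 with hb
    have h1 := hD u j hj i t b ?_ ?_
    rotate_left
    · intro B d
      simp only [hb]
      split_ifs
      · by_cases hw0 : w B = 0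
        · rw [hw0, zero_mul, zero_mul, norm_zero]; positivity
        · obtain ⟨hB, -, -⟩ := hws B hw0
          obtain ⟨hBX, hB1, hBs⟩ := (mem_S hX0).mp hB
          have hNB : (1 : ℝ) ≤ nm B := one_le_nm hB1.ne_zero
          have hNB0 : (0 : ℝ) < nm B := by linarith
          rw [norm_mul, norm_mul, norm_mul, norm_mul, norm_osc, norm_osc, mul_one, mul_one,
            Complex.norm_real, Complex.norm_real, Real.norm_of_nonneg (by positivity),
            Real.norm_of_nonneg (by positivity)]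
          refine mul_le_mul_of_nonneg_right ?_ (by positivity)
          have e3 : (nm B : ℝ) ^ (-(1 : ℝ) / 2) =
              (nm B : ℝ) ^ ((1 : ℝ) / 6) * (nm B : ℝ) ^ (-(2 : ℝ) / 3) := by
            rw [← Real.rpow_add hNB0]; norm_num
          rw [e3]
          exact mul_le_mul_of_nonneg_right (hw B hB) (by positivity)
      · rw [norm_zero]; positivity
    · intro B d hd
      simp only [hb] at hd
      split_ifs at hd with h5
      · have hw0 : w B ≠ 0 := by
          intro h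
          apply hd
          rw [h, zero_mul, zero_mul]
        obtain ⟨h6, h7, h8⟩ := hws B hw0
        exact ⟨h6, h7, h8, h5⟩
      · exact absurd rfl hd
    rw [mul_assoc, mul_comm (MJ u j)]
    refine le_trans (le_of_eq ?_) (mul_le_mul_of_nonneg_left h1 (by positivity))
    rw [Finset.mul_sum]
    refine Finset.sum_congr rfl fun r hr => ?_
    rw [Finset.mem_filter, mem_S hR0] at hr
    obtain ⟨⟨hrR, hr1, hrs⟩, hrν, hrR2⟩ := hr
    have hNr : (1 : ℝ) ≤ nm r := one_le_nm hr1.ne_zero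
    have h4 : x r t = osc t (-Real.log ((nm r : ℝ) * (nm ν : ℝ) ^ 2 / U)) *
        ((((A ^ (1 / 3 : ℝ) : ℝ)) : ℂ) * ∑ B ∈ S X, conj (sy r B) *
        ∑ d ∈ pb Z, b B d * ∑' D : Eis, cT α E B τ t D *
          conj (gs (τ * σ * r * ν ^ 2 * D) d)) := by
      simp only [hx]
      rw [Finset.mul_sum, Finset.mul_sum]
      refine Finset.sum_congr rfl fun B hB => ?_
      obtain ⟨hBX, hB1, hBs⟩ := (mem_S hX0).mp hB
      have hNB : (1 : ℝ) ≤ nm B := one_le_nm hB1.ne_zero
      have hNB0 : (0 : ℝ) < nm B := by linarith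
      have e2 : ∑ d ∈ pb Z, b B d * ∑' D : Eis, cT α E B τ t D *
          conj (gs (τ * σ * r * ν ^ 2 * D) d) = ∑ d ∈ sh j, b B d * ∑' D : Eis,
          cT α E B τ t D * conj (gs (τ * σ * r * ν ^ 2 * D) d) := by
        symm
        refine Finset.sum_subset (Finset.filter_subset _ _) fun d hd hd' => ?_
        have h5 : ¬ (Z / 2 < nm d) := fun h => hd' (by
          rw [mem_sh]
          exact ⟨(mem_pb (by linarith)).mp hd, h⟩)
        simp only [hb]
        rw [if_neg h5, zero_mul]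
      rw [e2]
      have eAB : (AB B) ^ (1 / 3 : ℝ) = A ^ (1 / 3 : ℝ) * (nm B : ℝ) ^ (-(2 : ℝ) / 3) := by
        simp only [hAB]
        rw [Real.div_rpow hA.le (by positivity), ← Real.rpow_natCast, ← Real.rpow_mul hNB0.le,
          div_eq_mul_inv, ← Real.rpow_neg hNB0.le]
        norm_num
      rw [Finset.mul_sum, Finset.mul_sum, Finset.mul_sum]
      refine Finset.sum_congr rfl fun d hd => ?_
      obtain ⟨⟨hdZ, hd1⟩, hdZ2⟩ := mem_sh.mp hd
      rw [tsum_eq_sum (s := S X), Finset.mul_sum, Finset.mul_sum, Finset.mul_sum,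
        Finset.mul_sum]
      · refine Finset.sum_congr rfl fun D hDX => ?_
        have hD1 : IsPrim D := ((mem_S hX0).mp hDX).2.1
        have hND : (1 : ℝ) ≤ nm D := one_le_nm hD1.ne_zero
        have e3 : -Real.log (nu r B D / U) =
            -Real.log ((nm r : ℝ) * (nm ν : ℝ) ^ 2 / U) +
              (-Real.log (nm D) + -(2 * Real.log (nm B))) := by
          have e4 : nu r B D / U = ((nm r : ℝ) * (nm ν : ℝ) ^ 2 / U) * (nm D * (nm B : ℝ) ^ 2) := by
            simp only [hnu]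
            rw [nm_mul, nm_mul, nm_pow]
            push_cast
            ring
          rw [e4, Real.log_mul (by positivity) (by positivity),
            Real.log_mul (by positivity) (by positivity), Real.log_pow]
          push_cast
          ring
        simp only [hG, hb]
        rw [if_pos hdZ2, e3, Weight600.osc_add_right, Weight600.osc_add_right, eAB]
        unfold cT
        push_cast
        ring
      · intro D hDX
        have h0 : α (B * D) = 0 := by
          by_contra h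
          exact hDX (hDS B hB D h)
        unfold cT
        rw [h0]
        ring
    rw [h4, norm_mul, norm_osc, one_mul, norm_mul, mul_pow, Complex.norm_real,
      Real.norm_of_nonneg (by positivity)]
    congr 1
    rw [← Real.rpow_natCast, ← Real.rpow_mul hA.le]
    norm_num

end Crest.Agent.R017.E2440
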