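import Crest.Agent.R017.E2y_440

/-!
# Row 17, block C70, leaf E2, part z (helper440): the core with joint shells, pieces

* `dirJ` : one joint shell, direct side
* `YR_bd`, `QCr_bd` : the remaining shells
* `swapJ` : regrouping by dyadic blocks
-/

set_option autoImplicit false
set_option linter.unusedVariables false
set_option linter.unusedSectionVars false

noncomputable section

open Complex MeasureTheory
open scoped ComplexConjugate

namespace Crest.Agent.R017.E2440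

open Crest.Agent.R012 Crest.Agent.R012.Eis Crest.Agent.R012.GaussLoc283
open Crest.Agent.R012.Mob705 hiding pb mem_pb
open Crest.Agent.R012.Div277
open Crest.Agent.R012.LS2 (S mem_S)
open Crest.Agent.R012.Weight600 (osc norm_osc)
open Crest.Agent.R017.Sx545 (Sm sm_one_iff)
open Crest.Agent.R017.PX764 (th Gh n6 cD)
open Crest.Agent.R017.F1
open Crest.Agent.R017.X6C180 (Sg fA WF V1 cM n13 IX dl' om' GF)
open Crest.Agent.R017.X6545 (TF Bd)
open Crest.Agent.R017.X6W180 (TF1 tf1_tf)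
open Crest.Agent.R017.CM106 (sub CS FS)
open Crest.Agent.R017.H1401 (pb mem_pb)

/-- one direct shell -/
def PD (α : Eis → ℂ) (E B σ ν : Eis) (Ft : ℝ → ℂ) (A : ℝ) (j : ℕ) (r : Eis) : ℂ :=
  ∑ d ∈ sh j, fL (fA Ft A) (toC d) * ∑' D : Eis, cT α E B 1 0 D *
    conj (gs (σ * r * ν ^ 2 * D) d)

/-- one dual shell -/
def PY (α : Eis → ℂ) (E B σ ν : Eis) (i : IX σ) (om : ℝ → ℂ) (A : ℝ) (j : ℕ) (r : Eis) : ℂ :=
  ∑ d ∈ sh j, (((nm d : ℝ)⁻¹ : ℝ) : ℂ) * XTk α E B σ i r ν om A d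

/-- kernel data with a gain on the direct side -/
structure KDd (σ : Eis) (J M : ℕ) (Ft : ℝ → ℂ) (c H : ℝ) (ϑ ϑd : ℝ → ℝ)
    (om : IX σ → ℝ → ℂ) : Prop where
  kd : KD σ J M Ft c H ϑ om
  d0 : ∀ y : ℝ, 0 < y → 0 ≤ ϑd y
  d1 : ∀ x y : ℝ, 0 < x → x ≤ y → ϑd x ≤ ϑd y
  fl : ∀ (A : ℝ), 0 < A → ∀ d : Eis, IsPrim d →
    ‖fL (fA Ft A) (toC d)‖ ≤ c * A ^ ((1 : ℝ) / 3) * (nm d : ℝ)⁻¹ * ϑd ((nm d : ℝ) / A)

lemma KD.toD {σ : Eis} {J M : ℕ} {Ft : ℝ → ℂ} {c H : ℝ} {ϑ : ℝ → ℝ} {om : IX σ → ℝ → ℂ}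
    (h : KD σ J M Ft c H ϑ om) : KDd σ J M Ft c H ϑ (fun _ => 1) om :=
  ⟨h, fun _ _ => zero_le_one, fun _ _ _ _ => le_rfl, fun A hA d hd => by
    rw [mul_one]
    exact (h.fl A hA d hd).1⟩

open Classical in
/-- one joint shell, direct side -/
theorem dirJ {σ : Eis} {J M : ℕ} {Ft : ℝ → ℂ} {c H : ℝ} {ϑ ϑd : ℝ → ℝ} {om : IX σ → ℝ → ℂ}
    (hK : KDd σ J M Ft c H ϑ ϑd om) {R X A : ℝ} (hR : 1 ≤ R) (hX : 1 ≤ X) (hA : 0 < A)
    {E ν : Eis} {α : Eis → ℂ} {N : Eis → ℕ} {jm : ℕ → ℕ → Prop}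
    {MJ : ℕ → ℕ → ℝ} (hD : DHJ J R X σ E ν α N jm MJ) {u j : ℕ} (hj : jm u j)
    (w : Eis → ℂ) (hw : ∀ B ∈ S X, ‖w B‖ ≤ (nm B : ℝ) ^ ((1 : ℝ) / 6))
    (hws : ∀ B, w B ≠ 0 → B ∈ S X ∧ blk B = u ∧ j < N B) :
    ∑ r ∈ (S R).filter (fun r => IsCoprime r ν ∧ R / 2 < nm r),
      ‖∑ B ∈ S X, w B * conj (sy r B) * PD α E B σ ν Ft (A / (nm B : ℝ) ^ 2) j r‖ ^ 2 ≤
      c ^ 2 * (A ^ ((2 : ℝ) / 3) * (ϑd (2 ^ j / (A / (2 ^ u) ^ 2)) ^ 2 * MJ u j)) := by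
  have hX0 : (0 : ℝ) ≤ X := by linarith
  have hR0 : (0 : ℝ) ≤ R := by linarith
  have hc0 := hK.kd.c0
  have hMJ := hD.nonneg hj
  set Z : ℝ := 2 ^ j with hZdef
  have hZ : 1 ≤ Z := one_le_pow₀ (by norm_num)
  have hA13 : 0 < A ^ ((1 : ℝ) / 3) := by positivity
  set θ : ℝ := ϑd (Z / (A / (2 ^ u) ^ 2)) with hθ
  have hθ0 : 0 ≤ θ := hK.d0 _ (by positivity)
  set a : ℝ := c * A ^ ((1 : ℝ) / 3) * θ with ha
  have ha0 : 0 ≤ a := by positivity
  set AB : Eis → ℝ := fun B => A / (nm B : ℝ) ^ 2 with hAB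
  set b : Eis → Eis → ℂ := fun B d => if d ∈ sh j then
    ((a⁻¹ : ℝ) : ℂ) * (w B * fL (fA Ft (AB B)) (toC d)) else 0 with hb
  have hwle : ∀ B ∈ S X, ∀ d ∈ sh j, ‖w B * fL (fA Ft (AB B)) (toC d)‖ ≤
      a * ((nm B : ℝ) ^ (-(1 : ℝ) / 2) * (nm d : ℝ)⁻¹) := by
    intro B hB d hd
    obtain ⟨⟨hdZ, hd1⟩, hdZ2⟩ := mem_sh.mp hd
    by_cases hw0 : w B = 0
    · rw [hw0, zero_mul, norm_zero]; positivity
    obtain ⟨-, hBu, -⟩ := hws B hw0
    obtain ⟨hBX, hB1, hBs⟩ := (mem_S hX0).mp hB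
    have hNB : (1 : ℝ) ≤ nm B := one_le_nm hB1.ne_zero
    have hNB0 : (0 : ℝ) < nm B := by linarith
    have hNd : (1 : ℝ) ≤ nm d := one_le_nm hd1.ne_zero
    have hABp : 0 < AB B := by simp only [hAB]; positivity
    have h1 := hK.fl (AB B) hABp d hd1
    have hth : ϑd ((nm d : ℝ) / AB B) ≤ θ := by
      refine hK.d1 _ _ (by positivity) ?_
      have hBu1 : (nm B : ℝ) ≤ 2 ^ u := hBu ▸ blk_le B
      have hle : A / (2 ^ u) ^ 2 ≤ AB B := by
        simp only [hAB]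
        exact div_le_div_of_nonneg_left hA.le (by positivity)
          (pow_le_pow_left₀ (by positivity) hBu1 2)
      exact div_le_div₀ (by positivity) hdZ (by positivity) hle
    have eAB : (AB B) ^ ((1 : ℝ) / 3) = A ^ ((1 : ℝ) / 3) * (nm B : ℝ) ^ (-(2 : ℝ) / 3) := by
      simp only [hAB]
      rw [Real.div_rpow hA.le (by positivity), ← Real.rpow_natCast, ← Real.rpow_mul hNB0.le,
        div_eq_mul_inv, ← Real.rpow_neg hNB0.le]
      norm_num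
    have e3 : (nm B : ℝ) ^ (-(1 : ℝ) / 2) =
        (nm B : ℝ) ^ ((1 : ℝ) / 6) * (nm B : ℝ) ^ (-(2 : ℝ) / 3) := by
      rw [← Real.rpow_add hNB0]; norm_num
    rw [norm_mul]
    calc ‖w B‖ * ‖fL (fA Ft (AB B)) (toC d)‖
        ≤ (nm B : ℝ) ^ ((1 : ℝ) / 6) * (c * (AB B) ^ ((1 : ℝ) / 3) * (nm d : ℝ)⁻¹ *
            ϑd ((nm d : ℝ) / AB B)) :=
          mul_le_mul (hw B hB) h1 (norm_nonneg _) (by positivity)
      _ ≤ (nm B : ℝ) ^ ((1 : ℝ) / 6) * (c * (AB B) ^ ((1 : ℝ) / 3) * (nm d : ℝ)⁻¹ * θ) := by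
          refine mul_le_mul_of_nonneg_left ?_ (by positivity)
          exact mul_le_mul_of_nonneg_left hth (by positivity)
      _ = _ := by rw [eAB, ha, e3]; ring
  have h6 := hD u j hj none 0 b ?_ ?_
  rotate_left
  · intro B d
    simp only [hb]
    split_ifs with h
    · by_cases hw0 : w B = 0
      · rw [hw0, zero_mul, mul_zero, norm_zero]; positivity
      · obtain ⟨hB, -, -⟩ := hws B hw0
        rw [norm_mul, Complex.norm_real, Real.norm_of_nonneg (by positivity)]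
        rcases ha0.eq_or_lt with h0 | h0
        · rw [← h0, inv_zero, zero_mul]; positivity
        · calc a⁻¹ * ‖w B * fL (fA Ft (AB B)) (toC d)‖
              ≤ a⁻¹ * (a * ((nm B : ℝ) ^ (-(1 : ℝ) / 2) * (nm d : ℝ)⁻¹)) :=
                mul_le_mul_of_nonneg_left (hwle B hB d h) (by positivity)
            _ = _ := by field_simp
    · rw [norm_zero]; positivity
  · intro B d hd
    simp only [hb] at hd
    split_ifs at hd with h5
    · have hw0 : w B ≠ 0 := by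
        intro h
        apply hd
        rw [h, zero_mul, mul_zero]
      obtain ⟨h6, h7, h8⟩ := hws B hw0
      exact ⟨h6, h7, h8, (mem_sh.mp h5).2⟩
    · exact absurd rfl hd
  rw [abs_zero, add_zero, one_pow, one_mul] at h6
  have h8 : ∀ r, ∑ B ∈ S X, w B * conj (sy r B) * PD α E B σ ν Ft (AB B) j r =
      (a : ℂ) * ∑ B ∈ S X, conj (sy r B) * ∑ d ∈ pb Z, b B d *
        ∑' D : Eis, cT α E B (dl' σ none) 0 D *
          conj (gs (dl' σ none * σ * r * ν ^ 2 * D) d) := by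
    intro r
    rw [Finset.mul_sum]
    refine Finset.sum_congr rfl fun B hB => ?_
    have e0 : dl' σ none = 1 := rfl
    have e2 : ∑ d ∈ pb Z, b B d * ∑' D : Eis, cT α E B (dl' σ none) 0 D *
          conj (gs (dl' σ none * σ * r * ν ^ 2 * D) d) = ∑ d ∈ sh j, b B d *
          ∑' D : Eis, cT α E B 1 0 D * conj (gs (σ * r * ν ^ 2 * D) d) := by
      rw [e0, one_mul]
      symm
      refine Finset.sum_subset (Finset.filter_subset _ _) fun d hd hd' => ?_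
      simp only [hb]
      rw [if_neg hd', zero_mul]
    rw [e2]
    unfold PD
    rw [Finset.mul_sum, Finset.mul_sum, Finset.mul_sum]
    refine Finset.sum_congr rfl fun d hd => ?_
    have hab : w B * fL (fA Ft (AB B)) (toC d) = (a : ℂ) * b B d := by
      simp only [hb]
      rw [if_pos hd]
      rcases ha0.eq_or_lt with h0 | h0
      · have h6 := hwle B hB d hd
        rw [← h0, zero_mul] at h6
        have h7 : w B * fL (fA Ft (AB B)) (toC d) = 0 := norm_le_zero_iff.mp h6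
        rw [h7]; ring
      · push_cast
        have : (a : ℂ) ≠ 0 := by exact_mod_cast h0.ne'
        field_simp
    calc w B * conj (sy r B) * (fL (fA Ft (AB B)) (toC d) *
          ∑' D : Eis, cT α E B 1 0 D * conj (gs (σ * r * ν ^ 2 * D) d))
        = (w B * fL (fA Ft (AB B)) (toC d)) * (conj (sy r B) *
          ∑' D : Eis, cT α E B 1 0 D * conj (gs (σ * r * ν ^ 2 * D) d)) := by ring
      _ = _ := by rw [hab]; ring
  have e5 : (A ^ ((1 : ℝ) / 3)) ^ 2 = A ^ ((2 : ℝ) / 3) := by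
    rw [← Real.rpow_natCast, ← Real.rpow_mul hA.le]; norm_num
  have h9 : ∀ r, ‖∑ B ∈ S X, w B * conj (sy r B) * PD α E B σ ν Ft (AB B) j r‖ ^ 2 =
      a ^ 2 * ‖∑ B ∈ S X, conj (sy r B) * ∑ d ∈ pb Z, b B d *
        ∑' D : Eis, cT α E B (dl' σ none) 0 D *
          conj (gs (dl' σ none * σ * r * ν ^ 2 * D) d)‖ ^ 2 := by
    intro r
    rw [h8 r, norm_mul, mul_pow, Complex.norm_real, Real.norm_of_nonneg ha0]
  rw [Finset.sum_congr rfl fun r _ => h9 r, ← Finset.mul_sum]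
  calc _ ≤ a ^ 2 * MJ u j := mul_le_mul_of_nonneg_left h6 (sq_nonneg _)
    _ = _ := by rw [ha, mul_pow, mul_pow, e5]; ring

open Classical in
/-- one direct shell -/
theorem PD_bd {σ : Eis} {J M : ℕ} {Ft : ℝ → ℂ} {c H : ℝ} {ϑ ϑd : ℝ → ℝ} {om : IX σ → ℝ → ℂ}
    (hK : KDd σ J M Ft c H ϑ ϑd om) {R X A : ℝ} (hR : 1 ≤ R) (hX : 1 ≤ X) (hA : 0 < A)
    {E ν : Eis} {α : Eis → ℂ} {N : Eis → ℕ} {MD : Eis → ℕ → ℝ}
    (hD : DH J R X σ E ν α N MD) {B : Eis} (hB : B ∈ S X) {j : ℕ} (hj : j < N B) :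
    ∑ r ∈ (S R).filter (fun r => IsCoprime r ν ∧ R / 2 < nm r), ‖PD α E B σ ν Ft A j r‖ ^ 2 ≤
      c ^ 2 * (A ^ ((2 : ℝ) / 3) * (ϑd (2 ^ j / A) ^ 2 * MD B j)) := by
  have hc0 := hK.kd.c0
  have hX0 : (0 : ℝ) ≤ X := by linarith
  have hR0 : (0 : ℝ) ≤ R := by linarith
  set w : Eis → ℂ := fun d => fL (fA Ft A) (toC d) with hw
  set Z : ℝ := 2 ^ j with hZdef
  have hZ : 1 ≤ Z := one_le_pow₀ (by norm_num)
  have hA13 : 0 < A ^ ((1 : ℝ) / 3) := by positivity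
  have hMD := hD.nonneg hB hj
  set θ : ℝ := ϑd (Z / A) with hθ
  have hθ0 : 0 ≤ θ := hK.d0 _ (by positivity)
  set a : ℝ := c * A ^ ((1 : ℝ) / 3) * θ with ha
  have ha0 : 0 ≤ a := by positivity
  set b : Eis → ℂ := fun d => if d ∈ sh j then ((a⁻¹ : ℝ) : ℂ) * w d else 0 with hb
  have hwle : ∀ d ∈ sh j, ‖w d‖ ≤ a * (nm d : ℝ)⁻¹ := by
    intro d hd
    obtain ⟨⟨hdZ, hd1⟩, hdZ2⟩ := mem_sh.mp hd
    have hNd : (1 : ℝ) ≤ nm d := one_le_nm hd1.ne_zero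
    have h1 := hK.fl A hA d hd1
    have hth : ϑd ((nm d : ℝ) / A) ≤ θ :=
      hK.d1 _ _ (by positivity) (div_le_div_of_nonneg_right hdZ hA.le)
    calc ‖w d‖ ≤ c * A ^ ((1 : ℝ) / 3) * (nm d : ℝ)⁻¹ * ϑd ((nm d : ℝ) / A) := h1
      _ ≤ c * A ^ ((1 : ℝ) / 3) * (nm d : ℝ)⁻¹ * θ :=
          mul_le_mul_of_nonneg_left hth (by positivity)
      _ = _ := by rw [ha]; ring
  have hwb : ∀ d ∈ sh j, w d = (a : ℂ) * b d := by
    intro d hd
    simp only [hb]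
    rw [if_pos hd]
    rcases ha0.eq_or_lt with h0 | h0
    · have h6 := hwle d hd
      rw [← h0, zero_mul] at h6
      have h7 : w d = 0 := norm_le_zero_iff.mp h6
      rw [h7]; ring
    · push_cast
      have : (a : ℂ) ≠ 0 := by exact_mod_cast h0.ne'
      field_simp
  have h6 := hD B hB none 0 j hj b ?_ ?_
  · rw [abs_zero, add_zero, one_pow, one_mul] at h6
    have h8 : ∀ r, PD α E B σ ν Ft A j r = (a : ℂ) * ∑ d ∈ pb Z, b d *
        ∑' D : Eis, cT α E B (dl' σ none) 0 D *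
          conj (gs (dl' σ none * σ * r * ν ^ 2 * D) d) := by
      intro r
      unfold PD
      have e0 : dl' σ none = 1 := rfl
      have e2 : ∑ d ∈ sh j, w d * ∑' D : Eis, cT α E B 1 0 D *
          conj (gs (σ * r * ν ^ 2 * D) d) = (a : ℂ) * ∑ d ∈ sh j, b d * ∑' D : Eis,
          cT α E B (dl' σ none) 0 D * conj (gs (dl' σ none * σ * r * ν ^ 2 * D) d) := by
        rw [Finset.mul_sum]
        refine Finset.sum_congr rfl fun d hd => ?_
        rw [hwb d hd, e0, one_mul]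
        ring
      rw [e2]
      congr 1
      refine Finset.sum_subset (Finset.filter_subset _ _) fun d hd hd' => ?_
      simp only [hb]
      rw [if_neg hd', zero_mul]
    have e5 : (A ^ ((1 : ℝ) / 3)) ^ 2 = A ^ ((2 : ℝ) / 3) := by
      rw [← Real.rpow_natCast, ← Real.rpow_mul hA.le]; norm_num
    have h9 : ∀ r, ‖PD α E B σ ν Ft A j r‖ ^ 2 = a ^ 2 * ‖∑ d ∈ pb Z, b d *
        ∑' D : Eis, cT α E B (dl' σ none) 0 D *
          conj (gs (dl' σ none * σ * r * ν ^ 2 * D) d)‖ ^ 2 := by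
      intro r
      rw [h8 r, norm_mul, mul_pow, Complex.norm_real, Real.norm_of_nonneg ha0]
    rw [Finset.sum_congr rfl fun r _ => h9 r, ← Finset.mul_sum]
    calc _ ≤ a ^ 2 * MD B j := mul_le_mul_of_nonneg_left h6 (sq_nonneg _)
      _ = _ := by rw [ha, mul_pow, mul_pow, e5]; ring
  · intro d
    simp only [hb]
    split_ifs with h
    · rw [norm_mul, Complex.norm_real, Real.norm_of_nonneg (by positivity)]
      rcases ha0.eq_or_lt with h0 | h0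
      · rw [← h0, inv_zero, zero_mul]; positivity
      · calc a⁻¹ * ‖w d‖ ≤ a⁻¹ * (a * (nm d : ℝ)⁻¹) :=
              mul_le_mul_of_nonneg_left (hwle d h) (by positivity)
          _ = (nm d : ℝ)⁻¹ := by field_simp
    · rw [norm_zero]; positivity
  · intro d hd
    simp only [hb] at hd
    split_ifs at hd with h5
    · exact (mem_sh.mp h5).2
    · exact absurd rfl hd

open Classical in
/-- the remaining direct shells -/
theorem QCr_bd {σ : Eis} {J M : ℕ} {Ft : ℝ → ℂ} {c H : ℝ} {ϑ ϑd : ℝ → ℝ} {om : IX σ → ℝ → ℂ}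
    (hK : KDd σ J M Ft c H ϑ ϑd om) {R X A : ℝ} (hR : 1 ≤ R) (hX : 1 ≤ X) (hA : 0 < A)
    {E ν : Eis} {α : Eis → ℂ} (hα : Cf α ν) {N : Eis → ℕ} {Pj : Eis → ℕ → Prop}
    {MD : Eis → ℕ → ℝ} (hD : DHr J R X σ E ν α N Pj MD) {B : Eis} (hB : B ∈ S X) :
    ∑ r ∈ (S R).filter (fun r => IsCoprime r ν ∧ R / 2 < nm r),
      ‖∑ j ∈ (Finset.range (N B)).filter (fun j => Pj B j), PD α E B σ ν Ft A j r‖ ^ 2 ≤
      c ^ 2 * (N B + 1) * (A ^ ((2 : ℝ) / 3) *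
        ∑ j ∈ (Finset.range (N B)).filter (fun j => Pj B j), ϑd (2 ^ j / A) ^ 2 * MD B j) := by
  obtain ⟨MD', hD', hMD⟩ := hD.toDH hR hX hα
  set F : Finset ℕ := (Finset.range (N B)).filter (fun j => Pj B j) with hF
  have hcard : (F.card : ℝ) ≤ N B := by
    have h := Finset.card_filter_le (Finset.range (N B)) (fun j => Pj B j)
    rw [Finset.card_range] at h
    exact_mod_cast h
  have h1 : ∀ r, ‖∑ j ∈ F, PD α E B σ ν Ft A j r‖ ^ 2 ≤
      (N B + 1) * ∑ j ∈ F, ‖PD α E B σ ν Ft A j r‖ ^ 2 := by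
    intro r
    have h3 := sq_sum_le_card_mul_sum_sq (s := F) (f := fun j => ‖PD α E B σ ν Ft A j r‖)
    have h4 : 0 ≤ ∑ j ∈ F, ‖PD α E B σ ν Ft A j r‖ ^ 2 :=
      Finset.sum_nonneg fun j _ => sq_nonneg _
    calc ‖∑ j ∈ F, PD α E B σ ν Ft A j r‖ ^ 2 ≤ (∑ j ∈ F, ‖PD α E B σ ν Ft A j r‖) ^ 2 :=
          pow_le_pow_left₀ (norm_nonneg _) (norm_sum_le _ _) 2
      _ ≤ F.card * ∑ j ∈ F, ‖PD α E B σ ν Ft A j r‖ ^ 2 := h3
      _ ≤ _ := mul_le_mul_of_nonneg_right (by linarith) h4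
  refine (Finset.sum_le_sum fun r _ => h1 r).trans ?_
  rw [← Finset.mul_sum, Finset.sum_comm]
  have h2 : ∑ j ∈ F, ∑ r ∈ (S R).filter (fun r => IsCoprime r ν ∧ R / 2 < nm r),
      ‖PD α E B σ ν Ft A j r‖ ^ 2 ≤ c ^ 2 * (A ^ ((2 : ℝ) / 3) *
        ∑ j ∈ F, ϑd (2 ^ j / A) ^ 2 * MD B j) := by
    rw [Finset.mul_sum, Finset.mul_sum]
    refine Finset.sum_le_sum fun j hj => ?_
    rw [hF, Finset.mem_filter, Finset.mem_range] at hj
    rw [← hMD B j hj.2]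
    exact PD_bd hK hR hX hA hD' hB hj.1
  calc ((N B : ℝ) + 1) * _ ≤ (N B + 1) * (c ^ 2 * (A ^ ((2 : ℝ) / 3) *
        ∑ j ∈ F, ϑd (2 ^ j / A) ^ 2 * MD B j)) :=
        mul_le_mul_of_nonneg_left h2 (by positivity)
    _ = _ := by ring

set_option maxHeartbeats 1000000 in
open Classical in
/-- the remaining dual shells and the tail -/
theorem YR_bd {σ : Eis} {J M : ℕ} {Ft : ℝ → ℂ} {c H : ℝ} {ϑ : ℝ → ℝ} {om : IX σ → ℝ → ℂ}
    (hK : KD σ J M Ft c H ϑ om) {R X A T : ℝ} (hR : 1 ≤ R) (hX : 1 ≤ X) (hA : 0 < A) (hT : 1 ≤ T)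
    {E ν : Eis} {α : Eis → ℂ} (hν : IsPrim ν) (hα : Cf α ν)
    (hαX : ∀ n, α n ≠ 0 → X / 2 < nm n ∧ (nm n : ℝ) ≤ X) {N : Eis → ℕ} {Pj : Eis → ℕ → Prop}
    {MD : Eis → ℕ → ℝ} (hD : DHr J R X σ E ν α N Pj MD) {B : Eis} (hB : B ∈ S X) (i : IX σ)
    (hN : 2 * T * (H * (R * (nm ν : ℝ) ^ 2 * (X / nm B))) ≤ A * 2 ^ N B) :
    ∑ r ∈ (S R).filter (fun r => IsCoprime r ν ∧ R / 2 < nm r),
      ‖YTk α E B σ i r ν (om i) A - ∑ j ∈ (Finset.range (N B)).filter (fun j => ¬ Pj B j),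
        PY α E B σ ν i (om i) A j r‖ ^ 2 ≤
      2 * (c2 ^ 2 + 100 * K0 ^ 2) * c ^ 2 * (N B + 1) *
        (∑ j ∈ (Finset.range (N B)).filter (fun j => Pj B j),
          ϑ (R * (nm ν : ℝ) ^ 2 * (X / nm B) / (A * 2 ^ j)) ^ 2 * MD B j +
        R * (L1 α X * (H * (R * (nm ν : ℝ) ^ 2 * (X / nm B)) / A) ^ 2 * (T ^ M)⁻¹) ^ 2) := by
  obtain ⟨MD', hD', hMD⟩ := hD.toDH hR hX hα
  have hc0 := hK.c0
  have hH := hK.H1
  have hK00 := K0_nonneg
  have hc20 := c2_nonneg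
  have hR0 : (0 : ℝ) ≤ R := by linarith
  have hX0 : (0 : ℝ) ≤ X := by linarith
  obtain ⟨hBX, hBp, hBs⟩ := (mem_S hX0).mp hB
  have hNB : (1 : ℝ) ≤ nm B := one_le_nm hBp.ne_zero
  have hNν : (1 : ℝ) ≤ nm ν := one_le_nm hν.ne_zero
  have hL := L1_nonneg α X
  set U : ℝ := H * (R * (nm ν : ℝ) ^ 2 * (X / nm B)) with hU
  set tl : ℝ := L1 α X * (c * K0 * (U / A) ^ 2 * (T ^ M)⁻¹) with htldef
  have htl0 : 0 ≤ tl := by rw [htldef]; positivity
  set P : ℕ → Eis → ℂ := fun j r => PY α E B σ ν i (om i) A j r with hP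
  set F : Finset ℕ := (Finset.range (N B)).filter (fun j => Pj B j) with hF
  set F' : Finset ℕ := (Finset.range (N B)).filter (fun j => ¬ Pj B j) with hF'
  have hcard : (F.card : ℝ) ≤ N B := by
    have h := Finset.card_filter_le (Finset.range (N B)) (fun j => Pj B j)
    rw [Finset.card_range] at h
    exact_mod_cast h
  have h1 : ∀ r ∈ (S R).filter (fun r => IsCoprime r ν ∧ R / 2 < nm r),
      ‖YTk α E B σ i r ν (om i) A - ∑ j ∈ F', P j r‖ ^ 2 ≤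
        2 * (N B + 1) * (∑ j ∈ F, ‖P j r‖ ^ 2 + tl ^ 2) := by
    intro r hr
    rw [Finset.mem_filter, mem_S hR0] at hr
    obtain ⟨⟨hrR, hr1, hrs⟩, hrν, hrR2⟩ := hr
    have h2 := YTk_tail (E := E) hK hR hX hA hT hν hα (fun n hn => (hαX n hn).2) hB i hr1 hrR hN
    have hsplit : ∑ j ∈ F, P j r + ∑ j ∈ F', P j r = ∑ j ∈ Finset.range (N B), P j r :=
      Finset.sum_filter_add_sum_filter_not _ _ _
    have h3 : ‖YTk α E B σ i r ν (om i) A - ∑ j ∈ F', P j r‖ ≤ ∑ j ∈ F, ‖P j r‖ + tl := by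
      calc ‖YTk α E B σ i r ν (om i) A - ∑ j ∈ F', P j r‖ = ‖∑ j ∈ F, P j r +
            (YTk α E B σ i r ν (om i) A - ∑ j ∈ Finset.range (N B), P j r)‖ := by
              congr 1; rw [← hsplit]; ring
        _ ≤ ‖∑ j ∈ F, P j r‖ + ‖YTk α E B σ i r ν (om i) A -
            ∑ j ∈ Finset.range (N B), P j r‖ := norm_add_le _ _
        _ ≤ _ := add_le_add (norm_sum_le _ _) h2
    have h5 := sq_sum_le_card_mul_sum_sq (s := F) (f := fun j => ‖P j r‖)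
    have h6 : 0 ≤ ∑ j ∈ F, ‖P j r‖ ^ 2 := Finset.sum_nonneg fun j _ => sq_nonneg _
    have h7 : (∑ j ∈ F, ‖P j r‖) ^ 2 ≤ N B * ∑ j ∈ F, ‖P j r‖ ^ 2 :=
      h5.trans (mul_le_mul_of_nonneg_right hcard h6)
    refine (pow_le_pow_left₀ (norm_nonneg _) h3 2).trans ?_
    have hN0 : (0 : ℝ) ≤ N B := Nat.cast_nonneg _
    nlinarith [sq_nonneg (∑ j ∈ F, ‖P j r‖ - tl), sq_nonneg tl, mul_nonneg hN0 (sq_nonneg tl)]
  have h4 : ∀ j ∈ F,
      ∑ r ∈ (S R).filter (fun r => IsCoprime r ν ∧ R / 2 < nm r), ‖P j r‖ ^ 2 ≤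
      (c * ϑ (R * (nm ν : ℝ) ^ 2 * (X / nm B) / (A * 2 ^ j)) * c2) ^ 2 * MD B j := by
    intro j hj
    rw [hF, Finset.mem_filter, Finset.mem_range] at hj
    rw [← hMD B j hj.2]
    exact shellK hK hR hX hA hν hα hαX hD' hB i hj.1
  set Gv : ℝ := ∑ j ∈ F, ϑ (R * (nm ν : ℝ) ^ 2 * (X / nm B) / (A * 2 ^ j)) ^ 2 * MD B j with hGv
  have hG0 : 0 ≤ Gv := by
    refine Finset.sum_nonneg fun j hj => ?_
    rw [hF, Finset.mem_filter, Finset.mem_range] at hj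
    have := hD.nonneg hB hj.1 hj.2
    positivity
  calc ∑ r ∈ (S R).filter (fun r => IsCoprime r ν ∧ R / 2 < nm r),
        ‖YTk α E B σ i r ν (om i) A - ∑ j ∈ F', P j r‖ ^ 2
      ≤ ∑ r ∈ (S R).filter (fun r => IsCoprime r ν ∧ R / 2 < nm r),
        2 * (N B + 1) * (∑ j ∈ F, ‖P j r‖ ^ 2 + tl ^ 2) :=
        Finset.sum_le_sum h1
    _ = 2 * (N B + 1) * (∑ j ∈ F,
          ∑ r ∈ (S R).filter (fun r => IsCoprime r ν ∧ R / 2 < nm r), ‖P j r‖ ^ 2 +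
          (((S R).filter (fun r => IsCoprime r ν ∧ R / 2 < nm r)).card : ℝ) * tl ^ 2) := by
        rw [← Finset.mul_sum, Finset.sum_add_distrib, Finset.sum_comm, Finset.sum_const,
          nsmul_eq_mul]
    _ ≤ 2 * (N B + 1) * (c2 ^ 2 * c ^ 2 * Gv + (100 * R) * tl ^ 2) := by
        refine mul_le_mul_of_nonneg_left (add_le_add ?_ ?_) (by positivity)
        · rw [hGv, Finset.mul_sum]
          refine Finset.sum_le_sum fun j hj => (h4 j hj).trans (le_of_eq ?_)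
          ring
        · refine mul_le_mul_of_nonneg_right ?_ (sq_nonneg _)
          have h5 : (((S R).filter (fun r => IsCoprime r ν ∧ R / 2 < nm r)).card : ℝ) ≤
              (S R).card := by exact_mod_cast Finset.card_filter_le _ _
          exact h5.trans (card_S_le' hR)
    _ ≤ _ := by
        have e1 : (100 * R) * tl ^ 2 = 100 * K0 ^ 2 * c ^ 2 *
            (R * (L1 α X * (U / A) ^ 2 * (T ^ M)⁻¹) ^ 2) := by
          rw [htldef]; ring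
        rw [e1]
        set W : ℝ := R * (L1 α X * (U / A) ^ 2 * (T ^ M)⁻¹) ^ 2 with hW
        have hW0 : 0 ≤ W := by rw [hW]; positivity
        have h6 : c2 ^ 2 * c ^ 2 * Gv + 100 * K0 ^ 2 * c ^ 2 * W ≤
            (c2 ^ 2 + 100 * K0 ^ 2) * c ^ 2 * (Gv + W) := by
          have a1 : 0 ≤ 100 * K0 ^ 2 * c ^ 2 * Gv := by positivity
          have a2 : 0 ≤ c2 ^ 2 * c ^ 2 * W := by positivity
          nlinarith
        calc 2 * ((N B : ℝ) + 1) * (c2 ^ 2 * c ^ 2 * Gv + 100 * K0 ^ 2 * c ^ 2 * W)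
            ≤ 2 * ((N B : ℝ) + 1) * ((c2 ^ 2 + 100 * K0 ^ 2) * c ^ 2 * (Gv + W)) :=
              mul_le_mul_of_nonneg_left h6 (by positivity)
          _ = _ := by ring

/-- the number of blocks -/
def bkN (X : ℝ) : ℕ := Nat.clog 2 ⌊X⌋₊ + 1

lemma blk_lt_bkN {X : ℝ} (hX : 0 ≤ X) {B : Eis} (hB : B ∈ S X) : blk B < bkN X := by
  unfold blk bkN
  exact Nat.lt_succ_of_le (Nat.clog_mono_right 2 (Nat.le_floor ((mem_S hX).mp hB).1))

lemma bkN_le {X : ℝ} (hX : 1 ≤ X) : (bkN X : ℝ) ≤ 2 * (1 + Real.log X) := by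
  have hl : 0 ≤ Real.log X := Real.log_nonneg hX
  have h2 := Real.log_two_gt_d9
  unfold bkN
  push_cast
  have h1 : 1 ≤ ⌊X⌋₊ := Nat.le_floor (by simpa using hX)
  rcases h1.eq_or_lt with h | h
  · rw [← h]
    simp
    linarith
  · have h3 := Nat.pow_pred_clog_lt_self (b := 2) (by norm_num) h
    have h4 : 1 ≤ Nat.clog 2 ⌊X⌋₊ := Nat.clog_pos (by norm_num) (by omega)
    have h5 : ((2 ^ (Nat.clog 2 ⌊X⌋₊).pred : ℕ) : ℝ) ≤ X := by
      have h6 : ((2 ^ (Nat.clog 2 ⌊X⌋₊).pred : ℕ) : ℝ) ≤ ⌊X⌋₊ := by exact_mod_cast h3.le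
      exact h6.trans (Nat.floor_le (by linarith))
    have h7 := Real.log_le_log (by positivity) h5
    push_cast at h7
    rw [Real.log_pow] at h7
    have h8 : ((Nat.clog 2 ⌊X⌋₊).pred : ℝ) = (Nat.clog 2 ⌊X⌋₊ : ℝ) - 1 := by
      rw [Nat.pred_eq_sub_one, Nat.cast_sub h4]; simp
    rw [h8] at h7
    have h9 : (0 : ℝ) ≤ (Nat.clog 2 ⌊X⌋₊ : ℝ) - 1 := by
      have : (1 : ℝ) ≤ (Nat.clog 2 ⌊X⌋₊ : ℝ) := by exact_mod_cast h4
      linarith
    nlinarith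

/-- the number of shells of a block -/
def NJ (N : Eis → ℕ) (X : ℝ) (u : ℕ) : ℕ := by
  classical
  exact ((S X).filter (fun B => blk B = u)).sup N

lemma le_NJ {N : Eis → ℕ} {X : ℝ} {B : Eis} (hB : B ∈ S X) : N B ≤ NJ N X (blk B) := by
  classical
  unfold NJ
  exact Finset.le_sup (f := N) (Finset.mem_filter.mpr ⟨hB, rfl⟩)

lemma NJ_le {N : Eis → ℕ} {X : ℝ} {N0 : ℕ} (h : ∀ B ∈ S X, N B ≤ N0) (u : ℕ) :
    NJ N X u ≤ N0 := by
  classical
  unfold NJ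
  exact Finset.sup_le fun B hB => h B (Finset.mem_filter.mp hB).1

open Classical in
/-- regrouping by dyadic blocks -/
lemma swapJ {X : ℝ} (hX : 0 ≤ X) (N : Eis → ℕ) (jm : ℕ → ℕ → Prop) (f : Eis → ℕ → ℂ) :
    ∑ B ∈ S X, ∑ j ∈ (Finset.range (N B)).filter (fun j => jm (blk B) j), f B j =
      ∑ u ∈ Finset.range (bkN X), ∑ j ∈ (Finset.range (NJ N X u)).filter (fun j => jm u j),
        ∑ B ∈ S X, if blk B = u ∧ j < N B then f B j else 0 := by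
  have e1 : ∀ u ∈ Finset.range (bkN X),
      ∑ j ∈ (Finset.range (NJ N X u)).filter (fun j => jm u j),
        ∑ B ∈ S X, (if blk B = u ∧ j < N B then f B j else 0) =
      ∑ B ∈ S X, ∑ j ∈ (Finset.range (NJ N X u)).filter (fun j => jm u j),
        (if blk B = u ∧ j < N B then f B j else 0) := fun u _ => Finset.sum_comm
  rw [Finset.sum_congr rfl e1, Finset.sum_comm]
  refine Finset.sum_congr rfl fun B hB => ?_
  symm
  rw [Finset.sum_eq_single (blk B)]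
  · rw [← Finset.sum_filter]
    refine Finset.sum_congr ?_ fun _ _ => rfl
    ext j
    simp only [Finset.mem_filter, Finset.mem_range]
    have := le_NJ (N := N) hB
    constructor
    · rintro ⟨⟨h3, h4⟩, h5⟩
      exact ⟨h5.2, h4⟩
    · rintro ⟨h5, h4⟩
      exact ⟨⟨by omega, h4⟩, trivial, h5⟩
  · intro u _ hu
    refine Finset.sum_eq_zero fun j _ => ?_
    rw [if_neg]
    rintro ⟨h, -⟩
    exact hu h.symm
  · intro h
    exact absurd (Finset.mem_range.mpr (blk_lt_bkN hX hB)) h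

end Crest.Agent.R017.E2440
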