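import Crest.Agent.R017.E2z_440

/-!
# Row 17, block C70, leaf E2, part za (helper440): the joint shells together

* `GR`, `GJ` : the weighted sums
* `JB` : the joint part of one `B`
* `joint_bd` : the joint part
-/

set_option autoImplicit false
set_option linter.unusedVariables false
set_option linter.unusedSectionVars false

noncomputable section

open Complex MeasureTheory
open scoped ComplexConjugate

namespace Crest.Agent.R017.E2440

open Crest.Agent.R012 Crest.Agent.R012.Eis Crest.Agent.R012.GaussLoc283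
open Crest.Agent.R012.Mob705 hiding pb mem_pb
open Crest.Agent.R012.Div277
open Crest.Agent.R012.LS2 (S mem_S)
open Crest.Agent.R012.Weight600 (osc norm_osc)
open Crest.Agent.R017.Sx545 (Sm sm_one_iff)
open Crest.Agent.R017.PX764 (th Gh n6 cD)
open Crest.Agent.R017.F1
open Crest.Agent.R017.X6C180 (Sg fA WF V1 cM n13 IX dl' om' GF)
open Crest.Agent.R017.X6545 (TF Bd)
open Crest.Agent.R017.X6W180 (TF1 tf1_tf)
open Crest.Agent.R017.CM106 (sub CS FS)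
open Crest.Agent.R017.H1401 (pb mem_pb)

/-- the weighted sum of the remaining shells -/
def GR (ϑ ϑd : ℝ → ℝ) (R X A B0 : ℝ) (ν : Eis) (N : Eis → ℕ) (Pj : Eis → ℕ → Prop)
    (MD : Eis → ℕ → ℝ) : ℝ := by
  classical
  exact ∑ B ∈ S X, ∑ j ∈ (Finset.range (N B)).filter (fun j => Pj B j),
    (if (nm B : ℝ) ≤ B0 then
    ϑ (R * (nm ν : ℝ) ^ 2 * (X / nm B) / (A / (nm B : ℝ) ^ 2 * 2 ^ j)) ^ 2 else
    ϑd (2 ^ j / (A / (nm B : ℝ) ^ 2)) ^ 2) * MD B j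

/-- the weight of a joint shell -/
def tJ (ϑ ϑd : ℝ → ℝ) (R X A B0 : ℝ) (ν : Eis) (u j : ℕ) : ℝ := by
  classical
  exact (if (2 : ℝ) ^ u / 2 < B0 then
      ϑ (R * (nm ν : ℝ) ^ 2 * (X * 2 ^ u / 2) / (A * 2 ^ j)) ^ 2 else 0) +
    (if B0 < (2 : ℝ) ^ u then ϑd (2 ^ j / (A / (2 ^ u) ^ 2)) ^ 2 else 0)

lemma tJ_nonneg (ϑ ϑd : ℝ → ℝ) (R X A B0 : ℝ) (ν : Eis) (u j : ℕ) :
    0 ≤ tJ ϑ ϑd R X A B0 ν u j := by
  unfold tJ
  split_ifs <;> positivity

/-- the weighted sum of the joint shells -/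
def GJ (ϑ ϑd : ℝ → ℝ) (R X A B0 : ℝ) (ν : Eis) (N : Eis → ℕ) (jm : ℕ → ℕ → Prop)
    (MJ : ℕ → ℕ → ℝ) : ℝ := by
  classical
  exact ∑ u ∈ Finset.range (bkN X), ∑ j ∈ (Finset.range (NJ N X u)).filter (fun j => jm u j),
    tJ ϑ ϑd R X A B0 ν u j * MJ u j

/-- one shell of one `B` -/
def FB (α : Eis → ℂ) (E σ ν : Eis) (om : IX σ → ℝ → ℂ) (Ft : ℝ → ℂ) (A B0 : ℝ) (r B : Eis)
    (j : ℕ) : ℂ := by
  classical
  exact if (nm B : ℝ) ≤ B0 then ((((A / (nm B : ℝ) ^ 2) ^ (1 / 3 : ℝ) : ℝ) : ℂ) *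
      ∑ i : IX σ, sy (dl' σ i) (r * ν ^ 2) * PY α E B σ ν i (om i) (A / (nm B : ℝ) ^ 2) j r)
    else PD α E B σ ν Ft (A / (nm B : ℝ) ^ 2) j r

set_option maxHeartbeats 1000000 in
open Classical in
/-- one pair (block, shell) -/
theorem pair_bd {σ : Eis} {J M : ℕ} {Ft : ℝ → ℂ} {c H : ℝ} {ϑ ϑd : ℝ → ℝ} {om : IX σ → ℝ → ℂ}
    (hK : KDd σ J M Ft c H ϑ ϑd om) {R X A : ℝ} (hR : 1 ≤ R) (hX : 1 ≤ X) (hA : 0 < A) (B0 : ℝ)
    {E ν : Eis} {α : Eis → ℂ} (hν : IsPrim ν) (hα : Cf α ν)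
    (hαX : ∀ n, α n ≠ 0 → X / 2 < nm n ∧ (nm n : ℝ) ≤ X) {N : Eis → ℕ} {jm : ℕ → ℕ → Prop}
    {MJ : ℕ → ℕ → ℝ} (hD : DHJ J R X σ E ν α N jm MJ) {u j : ℕ} (hj : jm u j)
    (w : Eis → ℂ) (hw : ∀ B ∈ S X, ‖w B‖ ≤ (nm B : ℝ) ^ ((1 : ℝ) / 6)) :
    ∑ r ∈ (S R).filter (fun r => IsCoprime r ν ∧ R / 2 < nm r),
      ‖∑ B ∈ S X, (if blk B = u ∧ j < N B then w B * conj (sy r B) *
        FB α E σ ν om Ft A B0 r B j else 0)‖ ^ 2 ≤
      2 * ((Fintype.card (IX σ) : ℝ) ^ 2 * c2 ^ 2 + 1) * c ^ 2 *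
        (A ^ ((2 : ℝ) / 3) * (tJ ϑ ϑd R X A B0 ν u j * MJ u j)) := by
  have hX0 : (0 : ℝ) ≤ X := by linarith
  have hR0 : (0 : ℝ) ≤ R := by linarith
  have hc0 := hK.kd.c0
  have hMJ := hD.nonneg hj
  set I : ℝ := (Fintype.card (IX σ) : ℝ) with hI
  have hI0 : 0 ≤ I := Nat.cast_nonneg _
  set Rs := (S R).filter (fun r => IsCoprime r ν ∧ R / 2 < nm r) with hRs
  have hmem : ∀ r ∈ Rs, IsPrim r := by
    intro r hr
    rw [hRs, Finset.mem_filter, mem_S hR0] at hr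
    exact hr.1.2.1
  set AB : Eis → ℝ := fun B => A / (nm B : ℝ) ^ 2 with hAB
  set wD : Eis → ℂ := fun B => if (B ∈ S X ∧ blk B = u ∧ j < N B) ∧ (nm B : ℝ) ≤ B0 then w B else 0
    with hwD
  set wP : Eis → ℂ := fun B => if (B ∈ S X ∧ blk B = u ∧ j < N B) ∧ ¬ (nm B : ℝ) ≤ B0 then w B
    else 0 with hwP
  have hD1 : ∀ B ∈ S X, ‖wD B‖ ≤ (nm B : ℝ) ^ ((1 : ℝ) / 6) := by
    intro B hB
    simp only [hwD]
    split_ifs
    · exact hw B hB
    · rw [norm_zero]; positivity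
  have hP1 : ∀ B ∈ S X, ‖wP B‖ ≤ (nm B : ℝ) ^ ((1 : ℝ) / 6) := by
    intro B hB
    simp only [hwP]
    split_ifs
    · exact hw B hB
    · rw [norm_zero]; positivity
  have hD2 : ∀ B, wD B ≠ 0 → B ∈ S X ∧ blk B = u ∧ j < N B := by
    intro B hB
    simp only [hwD] at hB
    split_ifs at hB with h
    · exact h.1
    · exact absurd rfl hB
  have hP2 : ∀ B, wP B ≠ 0 → B ∈ S X ∧ blk B = u ∧ j < N B := by
    intro B hB
    simp only [hwP] at hB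
    split_ifs at hB with h
    · exact h.1
    · exact absurd rfl hB
  set DI : IX σ → Eis → ℂ := fun i r => ∑ B ∈ S X, wD B * conj (sy r B) *
    ((((AB B) ^ (1 / 3 : ℝ) : ℝ) : ℂ) * PY α E B σ ν i (om i) (AB B) j r) with hDI
  set PI : Eis → ℂ := fun r => ∑ B ∈ S X, wP B * conj (sy r B) *
    PD α E B σ ν Ft (AB B) j r with hPI
  -- the decomposition
  have hdec : ∀ r, ∑ B ∈ S X, (if blk B = u ∧ j < N B then w B * conj (sy r B) *
        FB α E σ ν om Ft A B0 r B j else 0) =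
      ∑ i : IX σ, sy (dl' σ i) (r * ν ^ 2) * DI i r + PI r := by
    intro r
    have e1 : ∑ i : IX σ, sy (dl' σ i) (r * ν ^ 2) * DI i r = ∑ B ∈ S X, wD B * conj (sy r B) *
        ((((AB B) ^ (1 / 3 : ℝ) : ℝ) : ℂ) * ∑ i : IX σ, sy (dl' σ i) (r * ν ^ 2) *
          PY α E B σ ν i (om i) (AB B) j r) := by
      simp only [hDI]
      have e2 : ∀ i : IX σ, sy (dl' σ i) (r * ν ^ 2) * ∑ B ∈ S X, wD B * conj (sy r B) *
          ((((AB B) ^ (1 / 3 : ℝ) : ℝ) : ℂ) * PY α E B σ ν i (om i) (AB B) j r) =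
          ∑ B ∈ S X, wD B * conj (sy r B) * ((((AB B) ^ (1 / 3 : ℝ) : ℝ) : ℂ) *
            (sy (dl' σ i) (r * ν ^ 2) * PY α E B σ ν i (om i) (AB B) j r)) := by
        intro i
        rw [Finset.mul_sum]
        exact Finset.sum_congr rfl fun B _ => by ring
      rw [Finset.sum_congr rfl fun i _ => e2 i, Finset.sum_comm]
      refine Finset.sum_congr rfl fun B _ => ?_
      rw [Finset.mul_sum, Finset.mul_sum]
    rw [e1, hPI, ← Finset.sum_add_distrib]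
    refine Finset.sum_congr rfl fun B hB => ?_
    simp only [hwD, hwP]
    unfold FB
    by_cases h1 : blk B = u ∧ j < N B
    · by_cases h2 : (nm B : ℝ) ≤ B0
      · rw [if_pos h1, if_pos h2, if_pos ⟨⟨hB, h1⟩, h2⟩, if_neg (fun h => h.2 h2)]
        simp only [hAB]
        ring
      · rw [if_pos h1, if_neg h2, if_neg (fun h => h2 h.2), if_pos ⟨⟨hB, h1⟩, h2⟩]
        simp only [hAB]
        ring
    · rw [if_neg h1, if_neg (fun h => h1 h.1.2), if_neg (fun h => h1 h.1.2)]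
      ring
  -- the dual part
  have hDbd : ∀ i : IX σ, ∑ r ∈ Rs, ‖DI i r‖ ^ 2 ≤ if (2 : ℝ) ^ u / 2 < B0 then
      (c * ϑ (R * (nm ν : ℝ) ^ 2 * (X * 2 ^ u / 2) / (A * 2 ^ j)) * c2) ^ 2 *
        (A ^ ((2 : ℝ) / 3) * MJ u j) else 0 := by
    intro i
    split_ifs with h
    · have h1 := shellJ hK.kd hR hX hA hν hα hαX hD hj i wD hD1 hD2
      simp only [hDI, hAB]
      unfold PY
      exact h1
    · have h0 : ∀ r, DI i r = 0 := by
        intro r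
        simp only [hDI]
        refine Finset.sum_eq_zero fun B hB => ?_
        have : wD B = 0 := by
          by_contra hne
          obtain ⟨-, h3, -⟩ := hD2 B hne
          have h4 : (nm B : ℝ) ≤ B0 := by
            simp only [hwD] at hne
            split_ifs at hne with h
            · exact h.2
            · exact absurd rfl hne
          have hB1 := ((mem_S hX0).mp hB).2.1
          have h5 := blk_lt hB1.ne_zero
          rw [h3] at h5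
          exact h (h5.trans_le h4)
        rw [this]; ring
      simp [h0]
  have hPbd : ∑ r ∈ Rs, ‖PI r‖ ^ 2 ≤ if B0 < (2 : ℝ) ^ u then
      c ^ 2 * (A ^ ((2 : ℝ) / 3) * (ϑd (2 ^ j / (A / (2 ^ u) ^ 2)) ^ 2 * MJ u j)) else 0 := by
    split_ifs with h
    · exact dirJ hK hR hX hA hD hj wP hP1 hP2
    · have h0 : ∀ r, PI r = 0 := by
        intro r
        simp only [hPI]
        refine Finset.sum_eq_zero fun B hB => ?_
        have : wP B = 0 := by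
          by_contra hne
          obtain ⟨-, h3, -⟩ := hP2 B hne
          have h4 : ¬ (nm B : ℝ) ≤ B0 := by
            simp only [hwP] at hne
            split_ifs at hne with h
            · exact h.2
            · exact absurd rfl hne
          have h5 := blk_le B
          rw [h3] at h5
          push Not at h4
          exact h (h4.trans_le h5)
        rw [this]; ring
      simp [h0]
  -- together
  have h1 : ∀ r ∈ Rs, ‖∑ B ∈ S X, (if blk B = u ∧ j < N B then w B * conj (sy r B) *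
        FB α E σ ν om Ft A B0 r B j else 0)‖ ^ 2 ≤
      2 * (I * ∑ i : IX σ, ‖DI i r‖ ^ 2) + 2 * ‖PI r‖ ^ 2 := by
    intro r hr
    rw [hdec r]
    have h2 : ‖∑ i : IX σ, sy (dl' σ i) (r * ν ^ 2) * DI i r‖ ≤ ∑ i : IX σ, ‖DI i r‖ := by
      refine (norm_sum_le _ _).trans (Finset.sum_le_sum fun i _ => ?_)
      rw [norm_mul]
      exact mul_le_of_le_one_left (norm_nonneg _) (norm_sy_le1 ((hmem r hr).mul (hν.pow 2)))
    have h3 := sq_sum_le_card_mul_sum_sq (s := (Finset.univ : Finset (IX σ)))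
      (f := fun i => ‖DI i r‖)
    rw [Finset.card_univ] at h3
    have h4 : ‖∑ i : IX σ, sy (dl' σ i) (r * ν ^ 2) * DI i r‖ ^ 2 ≤
        I * ∑ i : IX σ, ‖DI i r‖ ^ 2 := (pow_le_pow_left₀ (norm_nonneg _) h2 2).trans h3
    have h5 := norm_add_le (∑ i : IX σ, sy (dl' σ i) (r * ν ^ 2) * DI i r) (PI r)
    have h6 := pow_le_pow_left₀ (norm_nonneg _) h5 2
    set x := ‖∑ i : IX σ, sy (dl' σ i) (r * ν ^ 2) * DI i r‖
    set y := ‖PI r‖
    nlinarith [sq_nonneg (x - y)]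
  refine (Finset.sum_le_sum h1).trans ?_
  rw [Finset.sum_add_distrib, ← Finset.mul_sum, ← Finset.mul_sum, ← Finset.mul_sum,
    Finset.sum_comm]
  have h7 : ∑ i : IX σ, ∑ r ∈ Rs, ‖DI i r‖ ^ 2 ≤ I * (if (2 : ℝ) ^ u / 2 < B0 then
      (c * ϑ (R * (nm ν : ℝ) ^ 2 * (X * 2 ^ u / 2) / (A * 2 ^ j)) * c2) ^ 2 *
        (A ^ ((2 : ℝ) / 3) * MJ u j) else 0) := by
    refine (Finset.sum_le_sum fun i _ => hDbd i).trans (le_of_eq ?_)
    rw [Finset.sum_const, Finset.card_univ, nsmul_eq_mul]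
  have hA23 : (0 : ℝ) ≤ A ^ ((2 : ℝ) / 3) := by positivity
  set V : ℝ := A ^ ((2 : ℝ) / 3) * MJ u j with hV
  have hV0 : 0 ≤ V := by positivity
  calc 2 * (I * ∑ i : IX σ, ∑ r ∈ Rs, ‖DI i r‖ ^ 2) + 2 * ∑ r ∈ Rs, ‖PI r‖ ^ 2
      ≤ 2 * (I * (I * (if (2 : ℝ) ^ u / 2 < B0 then
      (c * ϑ (R * (nm ν : ℝ) ^ 2 * (X * 2 ^ u / 2) / (A * 2 ^ j)) * c2) ^ 2 * V else 0))) +
        2 * (if B0 < (2 : ℝ) ^ u then c ^ 2 * (ϑd (2 ^ j / (A / (2 ^ u) ^ 2)) ^ 2 * V)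
          else 0) := by
        refine add_le_add ?_ ?_
        · refine mul_le_mul_of_nonneg_left ?_ (by norm_num)
          exact mul_le_mul_of_nonneg_left h7 hI0
        · refine mul_le_mul_of_nonneg_left (hPbd.trans (le_of_eq ?_)) (by norm_num)
          split_ifs
          · rw [hV]; ring
          · rfl
    _ ≤ _ := by
        have e8 : A ^ ((2 : ℝ) / 3) * (tJ ϑ ϑd R X A B0 ν u j * MJ u j) =
            tJ ϑ ϑd R X A B0 ν u j * V := by rw [hV]; ring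
        rw [e8]
        unfold tJ
        set q : ℝ := ϑ (R * (nm ν : ℝ) ^ 2 * (X * 2 ^ u / 2) / (A * 2 ^ j)) with hq
        set p : ℝ := ϑd (2 ^ j / (A / (2 ^ u) ^ 2)) with hp
        have a1 : 0 ≤ c ^ 2 * (q ^ 2 * V) := by positivity
        have a2 : 0 ≤ I ^ 2 * c2 ^ 2 * (c ^ 2 * (p ^ 2 * V)) := by positivity
        split_ifs
        · linarith
        · linarith
        · linarith
        · linarith

open Classical in
/-- **the joint part** -/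
theorem joint_bd {σ : Eis} {J M : ℕ} {Ft : ℝ → ℂ} {c H : ℝ} {ϑ ϑd : ℝ → ℝ} {om : IX σ → ℝ → ℂ}
    (hK : KDd σ J M Ft c H ϑ ϑd om) {R X A : ℝ} (hR : 1 ≤ R) (hX : 1 ≤ X) (hA : 0 < A) (B0 : ℝ)
    {E ν : Eis} {α : Eis → ℂ} (hν : IsPrim ν) (hα : Cf α ν)
    (hαX : ∀ n, α n ≠ 0 → X / 2 < nm n ∧ (nm n : ℝ) ≤ X) {N : Eis → ℕ} {N0 : ℕ}
    (hN0 : ∀ B ∈ S X, N B ≤ N0) {jm : ℕ → ℕ → Prop}
    {MJ : ℕ → ℕ → ℝ} (hD : DHJ J R X σ E ν α N jm MJ)
    (w : Eis → ℂ) (hw : ∀ B ∈ S X, ‖w B‖ ≤ (nm B : ℝ) ^ ((1 : ℝ) / 6)) :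
    ∑ r ∈ (S R).filter (fun r => IsCoprime r ν ∧ R / 2 < nm r),
      ‖∑ B ∈ S X, w B * conj (sy r B) * ∑ j ∈ (Finset.range (N B)).filter (fun j => jm (blk B) j),
        FB α E σ ν om Ft A B0 r B j‖ ^ 2 ≤
      2 * (1 + Real.log X) * N0 * (2 * ((Fintype.card (IX σ) : ℝ) ^ 2 * c2 ^ 2 + 1) * c ^ 2 *
        (A ^ ((2 : ℝ) / 3) * GJ ϑ ϑd R X A B0 ν N jm MJ)) := by
  have hX0 : (0 : ℝ) ≤ X := by linarith
  set Rs := (S R).filter (fun r => IsCoprime r ν ∧ R / 2 < nm r) with hRs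
  set CC : ℝ := 2 * ((Fintype.card (IX σ) : ℝ) ^ 2 * c2 ^ 2 + 1) * c ^ 2 with hCC
  have hCC0 : 0 ≤ CC := by positivity
  set Pr : Finset ((_ : ℕ) × ℕ) := (Finset.range (bkN X)).sigma
    (fun u => (Finset.range (NJ N X u)).filter (fun j => jm u j)) with hPr
  set g : Eis → ((_ : ℕ) × ℕ) → ℂ := fun r p => ∑ B ∈ S X, (if blk B = p.1 ∧ p.2 < N B then
    w B * conj (sy r B) * FB α E σ ν om Ft A B0 r B p.2 else 0) with hg
  have e1 : ∀ r, ∑ B ∈ S X, w B * conj (sy r B) *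
      ∑ j ∈ (Finset.range (N B)).filter (fun j => jm (blk B) j), FB α E σ ν om Ft A B0 r B j =
      ∑ p ∈ Pr, g r p := by
    intro r
    have h1 := swapJ hX0 N jm (fun B j => w B * conj (sy r B) * FB α E σ ν om Ft A B0 r B j)
    rw [hPr, Finset.sum_sigma]
    refine Eq.trans ?_ h1
    exact Finset.sum_congr rfl fun B _ => by rw [Finset.mul_sum]
  have hcard : (Pr.card : ℝ) ≤ 2 * (1 + Real.log X) * N0 := by
    have h1 : Pr.card ≤ bkN X * N0 := by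
      rw [hPr, Finset.card_sigma]
      calc ∑ u ∈ Finset.range (bkN X), ((Finset.range (NJ N X u)).filter (fun j => jm u j)).card
          ≤ ∑ u ∈ Finset.range (bkN X), N0 := by
            refine Finset.sum_le_sum fun u _ => ?_
            refine (Finset.card_filter_le _ _).trans ?_
            rw [Finset.card_range]
            exact NJ_le hN0 u
        _ = bkN X * N0 := by rw [Finset.sum_const, Finset.card_range, smul_eq_mul]
    calc (Pr.card : ℝ) ≤ ((bkN X * N0 : ℕ) : ℝ) := by exact_mod_cast h1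
      _ = bkN X * N0 := by push_cast; ring
      _ ≤ _ := mul_le_mul_of_nonneg_right (bkN_le hX) (Nat.cast_nonneg _)
  have h2 : ∀ r, ‖∑ p ∈ Pr, g r p‖ ^ 2 ≤ Pr.card * ∑ p ∈ Pr, ‖g r p‖ ^ 2 := by
    intro r
    exact (pow_le_pow_left₀ (norm_nonneg _) (norm_sum_le _ _) 2).trans sq_sum_le_card_mul_sum_sq
  have h3 : ∀ p ∈ Pr, ∑ r ∈ Rs, ‖g r p‖ ^ 2 ≤
      CC * (A ^ ((2 : ℝ) / 3) * (tJ ϑ ϑd R X A B0 ν p.1 p.2 * MJ p.1 p.2)) := by
    intro p hp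
    rw [hPr, Finset.mem_sigma, Finset.mem_filter] at hp
    exact pair_bd hK hR hX hA B0 hν hα hαX hD hp.2.2 w hw
  have hs0 : 0 ≤ ∑ p ∈ Pr, ∑ r ∈ Rs, ‖g r p‖ ^ 2 :=
    Finset.sum_nonneg fun _ _ => Finset.sum_nonneg fun _ _ => sq_nonneg _
  calc ∑ r ∈ Rs, ‖∑ B ∈ S X, w B * conj (sy r B) *
        ∑ j ∈ (Finset.range (N B)).filter (fun j => jm (blk B) j),
          FB α E σ ν om Ft A B0 r B j‖ ^ 2
      ≤ ∑ r ∈ Rs, Pr.card * ∑ p ∈ Pr, ‖g r p‖ ^ 2 := by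
        refine Finset.sum_le_sum fun r _ => ?_
        rw [e1 r]
        exact h2 r
    _ = Pr.card * ∑ p ∈ Pr, ∑ r ∈ Rs, ‖g r p‖ ^ 2 := by
        rw [← Finset.mul_sum, Finset.sum_comm]
    _ ≤ (2 * (1 + Real.log X) * N0) * ∑ p ∈ Pr, ∑ r ∈ Rs, ‖g r p‖ ^ 2 :=
        mul_le_mul_of_nonneg_right hcard hs0
    _ ≤ (2 * (1 + Real.log X) * N0) * ∑ p ∈ Pr,
          CC * (A ^ ((2 : ℝ) / 3) * (tJ ϑ ϑd R X A B0 ν p.1 p.2 * MJ p.1 p.2)) := by
        have hl : 0 ≤ Real.log X := Real.log_nonneg hX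
        exact mul_le_mul_of_nonneg_left (Finset.sum_le_sum h3) (by positivity)
    _ = _ := by
        rw [← Finset.mul_sum, ← Finset.mul_sum]
        unfold GJ
        rw [hPr, Finset.sum_sigma]

end Crest.Agent.R017.E2440
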