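import Crest.Agent.R017.E2za_440

/-!
# Row 17, block C70, leaf E2, part zb (helper440): the core with joint shells, one `B`

* `QRR` : the remaining part of one `B`
* `QRR_dual`, `QRR_dir` : its bounds
* `QRR_bd` : both
-/

set_option autoImplicit false
set_option linter.unusedVariables false
set_option linter.unusedSectionVars false

noncomputable section

open Complex MeasureTheory
open scoped ComplexConjugate

namespace Crest.Agent.R017.E2440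

open Crest.Agent.R012 Crest.Agent.R012.Eis Crest.Agent.R012.GaussLoc283
open Crest.Agent.R012.Mob705 hiding pb mem_pb
open Crest.Agent.R012.Div277
open Crest.Agent.R012.LS2 (S mem_S)
open Crest.Agent.R012.Weight600 (osc norm_osc)
open Crest.Agent.R017.Sx545 (Sm sm_one_iff)
open Crest.Agent.R017.PX764 (th Gh n6 cD)
open Crest.Agent.R017.F1
open Crest.Agent.R017.X6C180 (Sg fA WF V1 cM n13 IX dl' om' GF)
open Crest.Agent.R017.X6545 (TF Bd)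
open Crest.Agent.R017.X6W180 (TF1 tf1_tf)
open Crest.Agent.R017.CM106 (sub CS FS)
open Crest.Agent.R017.H1401 (pb mem_pb)

/-- the joint shells of `B` -/
def FJs (N : Eis → ℕ) (jm : ℕ → ℕ → Prop) (B : Eis) : Finset ℕ := by
  classical
  exact (Finset.range (N B)).filter (fun j => jm (blk B) j)

/-- the other shells of `B` -/
def FRs (N : Eis → ℕ) (jm : ℕ → ℕ → Prop) (B : Eis) : Finset ℕ := by
  classical
  exact (Finset.range (N B)).filter (fun j => ¬ jm (blk B) j)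

lemma mem_FJs {N : Eis → ℕ} {jm : ℕ → ℕ → Prop} {B : Eis} {j : ℕ} :
    j ∈ FJs N jm B ↔ j < N B ∧ jm (blk B) j := by
  classical
  unfold FJs
  rw [Finset.mem_filter, Finset.mem_range]

lemma mem_FRs {N : Eis → ℕ} {jm : ℕ → ℕ → Prop} {B : Eis} {j : ℕ} :
    j ∈ FRs N jm B ↔ j < N B ∧ ¬ jm (blk B) j := by
  classical
  unfold FRs
  rw [Finset.mem_filter, Finset.mem_range]

/-- the remaining part of one `B` -/
def QRR (α : Eis → ℂ) (σ E ν : Eis) (om : IX σ → ℝ → ℂ) (Ft : ℝ → ℂ) (A B0 : ℝ) (N : Eis → ℕ)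
    (jm : ℕ → ℕ → Prop) (r B : Eis) : ℂ :=
  QB α E B (HR σ r ν Ft A B0) - ∑ j ∈ FJs N jm B, FB α E σ ν om Ft A B0 r B j

open Classical in
lemma QCr_bd' {σ : Eis} {J M : ℕ} {Ft : ℝ → ℂ} {c H : ℝ} {ϑ ϑd : ℝ → ℝ} {om : IX σ → ℝ → ℂ}
    (hK : KDd σ J M Ft c H ϑ ϑd om) {R X A : ℝ} (hR : 1 ≤ R) (hX : 1 ≤ X) (hA : 0 < A)
    {E ν : Eis} {α : Eis → ℂ} (hα : Cf α ν) {N : Eis → ℕ} {Pj : Eis → ℕ → Prop}
    {MD : Eis → ℕ → ℝ} (hD : DHr J R X σ E ν α N Pj MD) {B : Eis} (hB : B ∈ S X)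
    {F : Finset ℕ} (hF : ∀ j, j ∈ F ↔ j < N B ∧ Pj B j) :
    ∑ r ∈ (S R).filter (fun r => IsCoprime r ν ∧ R / 2 < nm r),
      ‖∑ j ∈ F, PD α E B σ ν Ft A j r‖ ^ 2 ≤
      c ^ 2 * (N B + 1) * (A ^ ((2 : ℝ) / 3) * ∑ j ∈ F, ϑd (2 ^ j / A) ^ 2 * MD B j) := by
  have h : F = (Finset.range (N B)).filter (fun j => Pj B j) := by
    ext j
    rw [hF, Finset.mem_filter, Finset.mem_range]
  rw [h]
  exact QCr_bd hK hR hX hA hα hD hB

open Classical in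
lemma YR_bd' {σ : Eis} {J M : ℕ} {Ft : ℝ → ℂ} {c H : ℝ} {ϑ : ℝ → ℝ} {om : IX σ → ℝ → ℂ}
    (hK : KD σ J M Ft c H ϑ om) {R X A T : ℝ} (hR : 1 ≤ R) (hX : 1 ≤ X) (hA : 0 < A) (hT : 1 ≤ T)
    {E ν : Eis} {α : Eis → ℂ} (hν : IsPrim ν) (hα : Cf α ν)
    (hαX : ∀ n, α n ≠ 0 → X / 2 < nm n ∧ (nm n : ℝ) ≤ X) {N : Eis → ℕ} {Pj : Eis → ℕ → Prop}
    {MD : Eis → ℕ → ℝ} (hD : DHr J R X σ E ν α N Pj MD) {B : Eis} (hB : B ∈ S X) (i : IX σ)
    (hN : 2 * T * (H * (R * (nm ν : ℝ) ^ 2 * (X / nm B))) ≤ A * 2 ^ N B)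
    {F F' : Finset ℕ} (hF : ∀ j, j ∈ F ↔ j < N B ∧ Pj B j)
    (hF' : ∀ j, j ∈ F' ↔ j < N B ∧ ¬ Pj B j) :
    ∑ r ∈ (S R).filter (fun r => IsCoprime r ν ∧ R / 2 < nm r),
      ‖YTk α E B σ i r ν (om i) A - ∑ j ∈ F', PY α E B σ ν i (om i) A j r‖ ^ 2 ≤
      2 * (c2 ^ 2 + 100 * K0 ^ 2) * c ^ 2 * (N B + 1) *
        (∑ j ∈ F, ϑ (R * (nm ν : ℝ) ^ 2 * (X / nm B) / (A * 2 ^ j)) ^ 2 * MD B j +
        R * (L1 α X * (H * (R * (nm ν : ℝ) ^ 2 * (X / nm B)) / A) ^ 2 * (T ^ M)⁻¹) ^ 2) := by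
  have h : F = (Finset.range (N B)).filter (fun j => Pj B j) := by
    ext j
    rw [hF, Finset.mem_filter, Finset.mem_range]
  have h' : F' = (Finset.range (N B)).filter (fun j => ¬ Pj B j) := by
    ext j
    rw [hF', Finset.mem_filter, Finset.mem_range]
  have h3 := YR_bd (E := E) hK hR hX hA hT hν hα hαX hD hB i hN
  rw [h, h']
  convert h3

set_option maxHeartbeats 2000000 in
open Classical in
/-- the remaining part of `B`, dual side -/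
theorem QRR_dual {σ : Eis} {J M : ℕ} {Ft : ℝ → ℂ} {c H : ℝ} {ϑ ϑd : ℝ → ℝ} {om : IX σ → ℝ → ℂ}
    (hK : KDd σ J M Ft c H ϑ ϑd om) {R X A T B0 : ℝ} (hR : 1 ≤ R) (hX : 1 ≤ X) (hA : 0 < A)
    (hT : 1 ≤ T) {E ν : Eis} {α : Eis → ℂ} (hν : IsPrim ν) (hα : Cf α ν)
    (hαX : ∀ n, α n ≠ 0 → X / 2 < nm n ∧ (nm n : ℝ) ≤ X) {N : Eis → ℕ} {jm : ℕ → ℕ → Prop}
    {MD : Eis → ℕ → ℝ} (hD : DHr J R X σ E ν α N (fun B j => ¬ jm (blk B) j) MD) {B : Eis}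
    (hB : B ∈ S X) (hcase : (nm B : ℝ) ≤ B0)
    (hN : 2 * T * (H * (R * (nm ν : ℝ) ^ 2 * (X / nm B))) ≤ A / (nm B : ℝ) ^ 2 * 2 ^ N B) :
    ∑ r ∈ (S R).filter (fun r => IsCoprime r ν ∧ R / 2 < nm r),
      ‖QRR α σ E ν om Ft A B0 N jm r B‖ ^ 2 ≤
      (A / (nm B : ℝ) ^ 2) ^ ((2 : ℝ) / 3) * ((Fintype.card (IX σ) : ℝ) ^ 2 *
        (2 * (c2 ^ 2 + 100 * K0 ^ 2) * c ^ 2 * (N B + 1) *
          (∑ j ∈ FRs N jm B, ϑ (R * (nm ν : ℝ) ^ 2 * (X / nm B) /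
            (A / (nm B : ℝ) ^ 2 * 2 ^ j)) ^ 2 * MD B j +
          R * (L1 α X * (H * (R * (nm ν : ℝ) ^ 2 * X ^ 2) / A) ^ 2 * (T ^ M)⁻¹) ^ 2))) := by
  have hX0 : (0 : ℝ) ≤ X := by linarith
  have hR0 : (0 : ℝ) ≤ R := by linarith
  have hcc := hK.kd.c0
  have hH := hK.kd.H1
  have hL := L1_nonneg α X
  have hNν : (1 : ℝ) ≤ nm ν := one_le_nm hν.ne_zero
  obtain ⟨hBX, hB1, hBs⟩ := (mem_S hX0).mp hB
  have hNB : (1 : ℝ) ≤ nm B := one_le_nm hB1.ne_zero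
  have hAp : 0 < A / (nm B : ℝ) ^ 2 := by positivity
  have hA23 : (0 : ℝ) ≤ (A / (nm B : ℝ) ^ 2) ^ ((2 : ℝ) / 3) := by positivity
  have h9 : ∀ i : IX σ, ∑ r ∈ (S R).filter (fun r => IsCoprime r ν ∧ R / 2 < nm r),
      ‖YTk α E B σ i r ν (om i) (A / (nm B : ℝ) ^ 2) -
        ∑ j ∈ FJs N jm B, PY α E B σ ν i (om i) (A / (nm B : ℝ) ^ 2) j r‖ ^ 2 ≤
      2 * (c2 ^ 2 + 100 * K0 ^ 2) * c ^ 2 * (N B + 1) *
          (∑ j ∈ FRs N jm B, ϑ (R * (nm ν : ℝ) ^ 2 * (X / nm B) /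
            (A / (nm B : ℝ) ^ 2 * 2 ^ j)) ^ 2 * MD B j +
          R * (L1 α X * (H * (R * (nm ν : ℝ) ^ 2 * X ^ 2) / A) ^ 2 * (T ^ M)⁻¹) ^ 2) := by
    intro i
    refine (YR_bd' (E := E) hK.kd hR hX hAp hT hν hα hαX hD hB i hN
      (F := FRs N jm B) (F' := FJs N jm B) (fun j => mem_FRs)
      (fun j => by rw [mem_FJs, not_not])).trans ?_
    refine mul_le_mul_of_nonneg_left (add_le_add le_rfl ?_) (by positivity)
    refine mul_le_mul_of_nonneg_left ?_ hR0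
    refine pow_le_pow_left₀ (by positivity) ?_ 2
    refine mul_le_mul_of_nonneg_right ?_ (by positivity)
    refine mul_le_mul_of_nonneg_left ?_ hL
    refine pow_le_pow_left₀ (by positivity) ?_ 2
    have e3 : H * (R * (nm ν : ℝ) ^ 2 * (X / nm B)) / (A / (nm B : ℝ) ^ 2) =
        H * (R * (nm ν : ℝ) ^ 2 * (X * nm B)) / A := by field_simp
    rw [e3]
    refine div_le_div_of_nonneg_right ?_ hA.le
    refine mul_le_mul_of_nonneg_left ?_ (by positivity)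
    refine mul_le_mul_of_nonneg_left ?_ (by positivity)
    nlinarith
  set V : ℝ := 2 * (c2 ^ 2 + 100 * K0 ^ 2) * c ^ 2 * (N B + 1) *
          (∑ j ∈ FRs N jm B, ϑ (R * (nm ν : ℝ) ^ 2 * (X / nm B) /
            (A / (nm B : ℝ) ^ 2 * 2 ^ j)) ^ 2 * MD B j +
          R * (L1 α X * (H * (R * (nm ν : ℝ) ^ 2 * X ^ 2) / A) ^ 2 * (T ^ M)⁻¹) ^ 2) with hV
  have h1 : ∀ r ∈ (S R).filter (fun r => IsCoprime r ν ∧ R / 2 < nm r),
      ‖QRR α σ E ν om Ft A B0 N jm r B‖ ^ 2 ≤ (A / (nm B : ℝ) ^ 2) ^ ((2 : ℝ) / 3) *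
        ((Fintype.card (IX σ) : ℝ) * ∑ i : IX σ,
          ‖YTk α E B σ i r ν (om i) (A / (nm B : ℝ) ^ 2) -
            ∑ j ∈ FJs N jm B, PY α E B σ ν i (om i) (A / (nm B : ℝ) ^ 2) j r‖ ^ 2) := by
    intro r hr
    rw [Finset.mem_filter, mem_S hR0] at hr
    have hr1 := hr.1.2.1
    have e1 : QB α E B (HR σ r ν Ft A B0) =
        QB α E B (fun _ D => Du (σ * r * ν ^ 2 * D) (Wf (fA Ft (A / (nm B : ℝ) ^ 2)))) := by
      unfold QB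
      refine tsum_congr fun D => ?_
      unfold HR
      rw [if_pos hcase]
    have e10 : ∑ j ∈ FJs N jm B, FB α E σ ν om Ft A B0 r B j =
        (((A / (nm B : ℝ) ^ 2) ^ (1 / 3 : ℝ) : ℝ) : ℂ) * ∑ i : IX σ,
          sy (dl' σ i) (r * ν ^ 2) *
            ∑ j ∈ FJs N jm B, PY α E B σ ν i (om i) (A / (nm B : ℝ) ^ 2) j r := by
      unfold FB
      simp only [if_pos hcase]
      rw [← Finset.mul_sum, Finset.sum_comm]
      refine congrArg (fun z : ℂ => (((A / (nm B : ℝ) ^ 2) ^ (1 / 3 : ℝ) : ℝ) : ℂ) * z) ?_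
      exact Finset.sum_congr rfl fun i _ => by rw [Finset.mul_sum]
    have e9 : QRR α σ E ν om Ft A B0 N jm r B =
        (((A / (nm B : ℝ) ^ 2) ^ (1 / 3 : ℝ) : ℝ) : ℂ) *
        ∑ i : IX σ, sy (dl' σ i) (r * ν ^ 2) *
          (YTk α E B σ i r ν (om i) (A / (nm B : ℝ) ^ 2) -
            ∑ j ∈ FJs N jm B, PY α E B σ ν i (om i) (A / (nm B : ℝ) ^ 2) j r) := by
      unfold QRR
      rw [e1, QBk_Du hK.kd hB1 hr1 hν hα.fs hAp, e10, ← mul_sub, ← Finset.sum_sub_distrib]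
      refine congrArg (fun z : ℂ => (((A / (nm B : ℝ) ^ 2) ^ (1 / 3 : ℝ) : ℝ) : ℂ) * z) ?_
      exact Finset.sum_congr rfl fun i _ => (mul_sub _ _ _).symm
    rw [e9, norm_mul, mul_pow, Complex.norm_real, Real.norm_of_nonneg (by positivity)]
    have e2 : ((A / (nm B : ℝ) ^ 2) ^ (1 / 3 : ℝ)) ^ 2 =
        (A / (nm B : ℝ) ^ 2) ^ ((2 : ℝ) / 3) := by
      rw [← Real.rpow_natCast, ← Real.rpow_mul hAp.le]; norm_num
    rw [e2]
    refine mul_le_mul_of_nonneg_left ?_ hA23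
    have h2 : ‖∑ i : IX σ, sy (dl' σ i) (r * ν ^ 2) *
          (YTk α E B σ i r ν (om i) (A / (nm B : ℝ) ^ 2) -
            ∑ j ∈ FJs N jm B, PY α E B σ ν i (om i) (A / (nm B : ℝ) ^ 2) j r)‖ ≤
        ∑ i : IX σ, ‖YTk α E B σ i r ν (om i) (A / (nm B : ℝ) ^ 2) -
            ∑ j ∈ FJs N jm B, PY α E B σ ν i (om i) (A / (nm B : ℝ) ^ 2) j r‖ := by
      refine (norm_sum_le _ _).trans (Finset.sum_le_sum fun i _ => ?_)
      rw [norm_mul]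
      exact mul_le_of_le_one_left (norm_nonneg _) (norm_sy_le1 (hr1.mul (hν.pow 2)))
    have h3 := sq_sum_le_card_mul_sum_sq (s := (Finset.univ : Finset (IX σ)))
      (f := fun i => ‖YTk α E B σ i r ν (om i) (A / (nm B : ℝ) ^ 2) -
            ∑ j ∈ FJs N jm B, PY α E B σ ν i (om i) (A / (nm B : ℝ) ^ 2) j r‖)
    rw [Finset.card_univ] at h3
    exact (pow_le_pow_left₀ (norm_nonneg _) h2 2).trans h3
  refine (Finset.sum_le_sum h1).trans ?_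
  rw [← Finset.mul_sum, ← Finset.mul_sum, Finset.sum_comm]
  refine mul_le_mul_of_nonneg_left ?_ hA23
  have eI : (Fintype.card (IX σ) : ℝ) ^ 2 * V =
      (Fintype.card (IX σ) : ℝ) * ((Fintype.card (IX σ) : ℝ) * V) := by ring
  rw [eI]
  refine mul_le_mul_of_nonneg_left ?_ (Nat.cast_nonneg _)
  refine (Finset.sum_le_sum fun i _ => h9 i).trans (le_of_eq ?_)
  rw [Finset.sum_const, Finset.card_univ, nsmul_eq_mul]

set_option maxHeartbeats 2000000 in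
open Classical in
/-- the remaining part of `B`, direct side -/
theorem QRR_dir {σ : Eis} (hσ : Sg σ) {J M : ℕ} {Ft : ℝ → ℂ} {c H : ℝ} {ϑ ϑd : ℝ → ℝ}
    {om : IX σ → ℝ → ℂ}
    (hK : KDd σ J M Ft c H ϑ ϑd om) {R X A B0 : ℝ} (hR : 1 ≤ R) (hX : 1 ≤ X) (hA : 0 < A)
    {E ν : Eis} {α : Eis → ℂ} (hν : IsPrim ν) (hνs : Squarefree ν) (hα : Cf α ν)
    {N : Eis → ℕ} {jm : ℕ → ℕ → Prop}
    {MD : Eis → ℕ → ℝ} (hD : DHr J R X σ E ν α N (fun B j => ¬ jm (blk B) j) MD) {B : Eis}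
    (hB : B ∈ S X) (hcase : B0 < nm B) (hN : 10 * (A / (nm B : ℝ) ^ 2) ≤ 2 ^ N B) {Mt : ℝ}
    (hMt : ∑ r ∈ (S R).filter (fun r => IsCoprime r ν ∧ R / 2 < nm r),
      ‖MT α E B σ r‖ ^ 2 ≤ Mt) :
    ∑ r ∈ (S R).filter (fun r => IsCoprime r ν ∧ R / 2 < nm r),
      ‖QRR α σ E ν om Ft A B0 N jm r B‖ ^ 2 ≤
      2 * (c ^ 2 * (N B + 1) * ((A / (nm B : ℝ) ^ 2) ^ ((2 : ℝ) / 3) *
        ∑ j ∈ FRs N jm B, ϑd (2 ^ j / (A / (nm B : ℝ) ^ 2)) ^ 2 * MD B j)) +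
      2 * ((kP * PX764.cD) ^ 2 * (2 * ‖th σ‖ ^ 2 * R ^ (-(1 : ℝ) / 3)) * (if ν = 1 then 1 else 0) *
        (c ^ 2 * (A / (nm B : ℝ) ^ 2) ^ ((4 : ℝ) / 3)) * Mt) := by
  have hX0 : (0 : ℝ) ≤ X := by linarith
  have hR0 : (0 : ℝ) ≤ R := by linarith
  have hRp : (0 : ℝ) < R := by linarith
  have hcc := hK.kd.c0
  obtain ⟨hBX, hB1, hBs⟩ := (mem_S hX0).mp hB
  have hNB : (1 : ℝ) ≤ nm B := one_le_nm hB1.ne_zero
  have hAp : 0 < A / (nm B : ℝ) ^ 2 := by positivity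
  have hcase' : ¬ (nm B : ℝ) ≤ B0 := not_le.mpr hcase
  have hC3 : 0 ≤ kP * PX764.cD := by have := kP_pos; have := PX764.cD_pos; positivity
  set AB : ℝ := A / (nm B : ℝ) ^ 2 with hAB
  have h1 : ∀ r ∈ (S R).filter (fun r => IsCoprime r ν ∧ R / 2 < nm r),
      ‖QRR α σ E ν om Ft A B0 N jm r B‖ ^ 2 ≤
      2 * ‖∑ j ∈ FRs N jm B, PD α E B σ ν Ft AB j r‖ ^ 2 +
      2 * ((kP * PX764.cD) ^ 2 * (2 * ‖th σ‖ ^ 2 * R ^ (-(1 : ℝ) / 3)) *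
        (if ν = 1 then 1 else 0) * (c ^ 2 * AB ^ ((4 : ℝ) / 3)) * ‖MT α E B σ r‖ ^ 2) := by
    intro r hr
    rw [Finset.mem_filter, mem_S hR0] at hr
    obtain ⟨⟨hrR, hr1, hrs⟩, hrν, hr2⟩ := hr
    have e1 : QB α E B (HR σ r ν Ft A B0) =
        QB α E B (fun _ D => Cg (σ * r * ν ^ 2 * D) (fL (fA Ft AB))) -
        QB α E B (fun _ D => (kP : ℂ) * conj (PX764.rho (σ * r * ν ^ 2 * D)) *
          mB (fA Ft AB)) := by
      rw [← QB_sub hα.fs hB1]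
      unfold QB
      refine tsum_congr fun D => ?_
      unfold HR
      rw [if_neg hcase']
    have e10 : ∑ j ∈ FJs N jm B, FB α E σ ν om Ft A B0 r B j =
        ∑ j ∈ FJs N jm B, PD α E B σ ν Ft AB j r := by
      unfold FB
      simp only [if_neg hcase', hAB]
    have e11 : ∑ j ∈ Finset.range (N B), PD α E B σ ν Ft AB j r =
        ∑ j ∈ FJs N jm B, PD α E B σ ν Ft AB j r +
          ∑ j ∈ FRs N jm B, PD α E B σ ν Ft AB j r :=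
      (Finset.sum_filter_add_sum_filter_not _ _ _).symm
    have e12 : QB α E B (fun _ D => Cg (σ * r * ν ^ 2 * D) (fL (fA Ft AB))) =
        ∑ j ∈ Finset.range (N B), PD α E B σ ν Ft AB j r :=
      QCk_eq hK.kd hB1 hα.fs hAp hN
    have e9 : QRR α σ E ν om Ft A B0 N jm r B = ∑ j ∈ FRs N jm B, PD α E B σ ν Ft AB j r -
        QB α E B (fun _ D => (kP : ℂ) * conj (PX764.rho (σ * r * ν ^ 2 * D)) *
          mB (fA Ft AB)) := by
      unfold QRR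
      rw [e1, e12, e10, e11]
      ring
    rw [e9]
    have h2 := QMk_bd hσ hK.kd hAp (E := E) hB1 hν hνs hα hr1 hrs hrν
    have hth : ‖th (σ * r)‖ ^ 2 ≤ 2 * ‖th σ‖ ^ 2 * R ^ (-(1 : ℝ) / 3) :=
      norm_th_sq_le hσ hr1 hrs hRp hr2
    have h3 : ‖QB α E B (fun _ D => (kP : ℂ) * conj (PX764.rho (σ * r * ν ^ 2 * D)) *
          mB (fA Ft AB))‖ ^ 2 ≤
        (kP * PX764.cD) ^ 2 * (2 * ‖th σ‖ ^ 2 * R ^ (-(1 : ℝ) / 3)) *
        (if ν = 1 then 1 else 0) * (c ^ 2 * AB ^ ((4 : ℝ) / 3)) * ‖MT α E B σ r‖ ^ 2 := by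
      have h4 := pow_le_pow_left₀ (norm_nonneg _) h2 2
      refine h4.trans ?_
      split_ifs with hν1
      · have e2 : (AB ^ ((2 : ℝ) / 3)) ^ 2 = AB ^ ((4 : ℝ) / 3) := by
          rw [← Real.rpow_natCast, ← Real.rpow_mul hAp.le]; norm_num
        calc (kP * PX764.cD * c * AB ^ ((2 : ℝ) / 3) * (‖th (σ * r)‖ * ‖MT α E B σ r‖)) ^ 2
            = (kP * PX764.cD) ^ 2 * ‖th (σ * r)‖ ^ 2 * (c ^ 2 * (AB ^ ((2 : ℝ) / 3)) ^ 2) *
              ‖MT α E B σ r‖ ^ 2 := by ring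
          _ = (kP * PX764.cD) ^ 2 * ‖th (σ * r)‖ ^ 2 * (c ^ 2 * AB ^ ((4 : ℝ) / 3)) *
              ‖MT α E B σ r‖ ^ 2 := by rw [e2]
          _ ≤ (kP * PX764.cD) ^ 2 * (2 * ‖th σ‖ ^ 2 * R ^ (-(1 : ℝ) / 3)) *
              (c ^ 2 * AB ^ ((4 : ℝ) / 3)) * ‖MT α E B σ r‖ ^ 2 := by
              refine mul_le_mul_of_nonneg_right ?_ (by positivity)
              refine mul_le_mul_of_nonneg_right ?_ (by positivity)
              exact mul_le_mul_of_nonneg_left hth (by positivity)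
          _ = _ := by ring
      · simp
    have h5 := norm_sub_le
      (∑ j ∈ FRs N jm B, PD α E B σ ν Ft AB j r)
      (QB α E B (fun _ D => (kP : ℂ) * conj (PX764.rho (σ * r * ν ^ 2 * D)) *
          mB (fA Ft AB)))
    have h6 := pow_le_pow_left₀ (norm_nonneg _) h5 2
    refine h6.trans ?_
    have h7 := two_mul_le_add_sq (‖∑ j ∈ FRs N jm B, PD α E B σ ν Ft AB j r‖)
      (‖QB α E B (fun _ D => (kP : ℂ) * conj (PX764.rho (σ * r * ν ^ 2 * D)) *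
          mB (fA Ft AB))‖)
    rw [add_sq]
    linarith
  have h7 := QCr_bd' hK hR hX hAp hα hD hB (F := FRs N jm B) (fun j => mem_FRs)
  refine (Finset.sum_le_sum h1).trans ?_
  rw [Finset.sum_add_distrib, ← Finset.mul_sum, ← Finset.mul_sum, ← Finset.mul_sum]
  refine add_le_add (mul_le_mul_of_nonneg_left h7 (by norm_num))
    (mul_le_mul_of_nonneg_left ?_ (by norm_num))
  refine mul_le_mul_of_nonneg_left hMt ?_
  have : (0 : ℝ) ≤ (if ν = 1 then 1 else 0) := by split_ifs <;> norm_num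
  positivity

end Crest.Agent.R017.E2440
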