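import Crest.Agent.R017.E2zb_440

/-!
# Row 17, block C70, leaf E2, part zc (helper440): the core with joint shells

* `EJ`, `MHJ` : the error functional and the hypotheses
* `E2coreJ` : the core with joint shells
-/

set_option autoImplicit false
set_option linter.unusedVariables false
set_option linter.unusedSectionVars false

noncomputable section

open Complex MeasureTheory
open scoped ComplexConjugate

namespace Crest.Agent.R017.E2440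

open Crest.Agent.R012 Crest.Agent.R012.Eis Crest.Agent.R012.GaussLoc283
open Crest.Agent.R012.Mob705 hiding pb mem_pb
open Crest.Agent.R012.Div277
open Crest.Agent.R012.LS2 (S mem_S)
open Crest.Agent.R012.Weight600 (osc norm_osc)
open Crest.Agent.R017.Sx545 (Sm sm_one_iff)
open Crest.Agent.R017.PX764 (th Gh n6 cD)
open Crest.Agent.R017.F1
open Crest.Agent.R017.X6C180 (Sg fA WF V1 cM n13 IX dl' om' GF)
open Crest.Agent.R017.X6545 (TF Bd)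
open Crest.Agent.R017.X6W180 (TF1 tf1_tf)
open Crest.Agent.R017.CM106 (sub CS FS)
open Crest.Agent.R017.H1401 (pb mem_pb)

/-- the polar part of the error functionals -/
def PJ (X R A B0 : ℝ) (ν : Eis) (Mt : Eis → ℝ) : ℝ := by
  classical
  exact if ν = 1 then R ^ (-(2 : ℝ) / 3) * A ^ ((4 : ℝ) / 3) *
    ∑ B ∈ (S X).filter (fun B => B0 < nm B), (nm B : ℝ) ^ (-(4 : ℝ) / 3) * Mt B else 0

/-- the shells part of the error functionals -/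
def GG (ϑ ϑd : ℝ → ℝ) (R X A B0 : ℝ) (ν : Eis) (N : Eis → ℕ) (MD : Eis → ℕ → ℝ)
    (jm : ℕ → ℕ → Prop) (MJ : ℕ → ℕ → ℝ) : ℝ :=
  GR ϑ ϑd R X A B0 ν N (fun B j => ¬ jm (blk B) j) MD + GJ ϑ ϑd R X A B0 ν N jm MJ

/-- the error functional with joint shells -/
def EJ (ϑ ϑd : ℝ → ℝ) (H : ℝ) (M N0 : ℕ) (X R A T B0 : ℝ) (ν : Eis) (α : Eis → ℂ)
    (MD : Eis → ℕ → ℝ) (Mt : Eis → ℝ) (N : Eis → ℕ) (jm : ℕ → ℕ → Prop) (MJ : ℕ → ℕ → ℝ) : ℝ :=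
  (N0 + 1) * (1 + Real.log X) *
        (R ^ (-(1 : ℝ) / 3) * A ^ ((2 : ℝ) / 3) * GG ϑ ϑd R X A B0 ν N MD jm MJ +
          PJ X R A B0 ν Mt +
          R ^ (-(1 : ℝ) / 3) * A ^ ((2 : ℝ) / 3) * (X * R * (L1 α X *
            (H * (R * (nm ν : ℝ) ^ 2 * X ^ 2) / A) ^ 2 * (T ^ M)⁻¹) ^ 2))

/-- the hypotheses of `E2coreJ` on the moments -/
structure MHJ (J : ℕ) (H X R A T B0 : ℝ) (σ E ν : Eis) (α : Eis → ℂ) (MD : Eis → ℕ → ℝ)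
    (Mt : Eis → ℝ) (N : Eis → ℕ) (N0 : ℕ) (jm : ℕ → ℕ → Prop) (MJ : ℕ → ℕ → ℝ) : Prop where
  dj : DHJ J R X σ E ν α N jm MJ
  dh : DHr J R X σ E ν α N (fun B j => ¬ jm (blk B) j) MD
  mt : by classical exact ∀ B ∈ S X, B0 < nm B →
    ∑ r ∈ (S R).filter (fun r => IsCoprime r ν ∧ R / 2 < nm r), ‖MT α E B σ r‖ ^ 2 ≤ Mt B
  n0 : ∀ B ∈ S X, N B ≤ N0
  n1 : ∀ B ∈ S X, (nm B : ℝ) ≤ B0 → 2 * T * (H * (R * (nm ν : ℝ) ^ 2 * (X / nm B))) ≤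
      A / (nm B : ℝ) ^ 2 * 2 ^ N B
  n2 : ∀ B ∈ S X, B0 < nm B → 10 * (A / (nm B : ℝ) ^ 2) ≤ 2 ^ N B

/-- the constant of `E2coreJ` -/
def cKJ (σ : Eis) : ℝ := 2 * cK σ +
  2 * (2 * ‖th σ‖ ^ 2 * (2 * (2 * ((Fintype.card (IX σ) : ℝ) ^ 2 * c2 ^ 2 + 1))))

lemma cKJ_nonneg (σ : Eis) : 0 ≤ cKJ σ := by
  have := cK_nonneg σ
  unfold cKJ
  positivity

lemma GR_eq' (ϑ ϑd : ℝ → ℝ) (R X A B0 : ℝ) (ν : Eis) (N : Eis → ℕ) (Pj : Eis → ℕ → Prop)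
    (MD : Eis → ℕ → ℝ) {F : Eis → Finset ℕ} (hF : ∀ B j, j ∈ F B ↔ j < N B ∧ Pj B j) :
    open Classical in
    GR ϑ ϑd R X A B0 ν N Pj MD =
      ∑ B ∈ S X, ∑ j ∈ F B, (if (nm B : ℝ) ≤ B0 then
        ϑ (R * (nm ν : ℝ) ^ 2 * (X / nm B) / (A / (nm B : ℝ) ^ 2 * 2 ^ j)) ^ 2 else
        ϑd (2 ^ j / (A / (nm B : ℝ) ^ 2)) ^ 2) * MD B j := by
  classical
  unfold GR
  refine Finset.sum_congr rfl fun B _ => ?_
  refine Finset.sum_congr ?_ fun _ _ => rfl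
  ext j
  rw [hF, Finset.mem_filter, Finset.mem_range]

lemma GR_eq (ϑ ϑd : ℝ → ℝ) (R X A B0 : ℝ) (ν : Eis) (N : Eis → ℕ) (jm : ℕ → ℕ → Prop)
    (MD : Eis → ℕ → ℝ) : open Classical in
    GR ϑ ϑd R X A B0 ν N (fun B j => ¬ jm (blk B) j) MD =
      ∑ B ∈ S X, ∑ j ∈ FRs N jm B, (if (nm B : ℝ) ≤ B0 then
        ϑ (R * (nm ν : ℝ) ^ 2 * (X / nm B) / (A / (nm B : ℝ) ^ 2 * 2 ^ j)) ^ 2 else
        ϑd (2 ^ j / (A / (nm B : ℝ) ^ 2)) ^ 2) * MD B j :=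
  GR_eq' ϑ ϑd R X A B0 ν N _ MD fun B j => mem_FRs

/-- the final arithmetic -/
lemma fin_J {Sv SB SJ c c0 R13 A23 A43 X tl G GJv Q δ a b L N i : ℝ} (hc : 0 ≤ c0)
    (hR : 0 ≤ R13) (hA : 0 ≤ A23) (hA' : 0 ≤ A43) (hX : 0 ≤ X) (htl : 0 ≤ tl) (hG : 0 ≤ G)
    (hQ : 0 ≤ Q) (hδ : 0 ≤ δ) (ha : 0 ≤ a) (hb : 0 ≤ b) (hN : 0 ≤ N) (hL : 0 ≤ L) (hi : 0 ≤ i)
    (hJ : 0 ≤ GJv)
    (h1 : Sv ≤ 2 * (c0 * R13 * (100 * (1 + L)) * SB) + 2 * (c0 * R13 * SJ))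
    (h2 : SB ≤ c ^ 2 * (N + 1) * (a * A23 * (G + 100 * X * tl) + b * (c0 * R13) * δ * A43 * Q))
    (h3 : SJ ≤ 2 * (1 + L) * N * (2 * i * c ^ 2 * (A23 * GJv))) :
    Sv ≤ (2 * (c0 * 100 * 100 * (a + b * c0)) + 2 * (c0 * (2 * (2 * i)))) * c ^ 2 *
      ((N + 1) * (1 + L) * (R13 * A23 * G + δ * (R13 * R13 * A43 * Q) + R13 * A23 * (X * tl)) +
        (N + 1) * (1 + L) * (R13 * A23 * GJv)) := by
  have hfin := fin_ar hc hR hA hA' hX htl hG hQ hδ ha hb (sq_nonneg c) hN hL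
  set E : ℝ := (N + 1) * (1 + L) *
    (R13 * A23 * G + δ * (R13 * R13 * A43 * Q) + R13 * A23 * (X * tl)) with hE
  set F : ℝ := (N + 1) * (1 + L) * (R13 * A23 * GJv) with hF
  have hE0 : 0 ≤ E := by rw [hE]; positivity
  have hF0 : 0 ≤ F := by rw [hF]; positivity
  set ca : ℝ := c0 * 100 * 100 * (a + b * c0) with hca
  set cb : ℝ := c0 * (2 * (2 * i)) with hcb
  have hca0 : 0 ≤ ca := by positivity
  have hcb0 : 0 ≤ cb := by positivity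
  have b1 : c0 * R13 * (100 * (1 + L)) * SB ≤ ca * c ^ 2 * E := by
    refine (mul_le_mul_of_nonneg_left h2 (by positivity)).trans (hfin.trans (le_of_eq ?_))
    rw [hE, hca]; ring
  have b2 : c0 * R13 * SJ ≤ cb * c ^ 2 * F := by
    refine (mul_le_mul_of_nonneg_left h3 (by positivity)).trans ?_
    have e10 : c0 * R13 * (2 * (1 + L) * N * (2 * i * c ^ 2 * (A23 * GJv))) =
        cb * c ^ 2 * (N * ((1 + L) * (R13 * A23 * GJv))) := by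
      rw [hcb]; ring
    rw [e10, hF]
    refine mul_le_mul_of_nonneg_left ?_ (by positivity)
    have e12 : (N + 1) * (1 + L) * (R13 * A23 * GJv) =
        (N + 1) * ((1 + L) * (R13 * A23 * GJv)) := by ring
    rw [e12]
    exact mul_le_mul_of_nonneg_right (by linarith) (by positivity)
  have a1 : 0 ≤ cb * c ^ 2 * E := by positivity
  have a2 : 0 ≤ ca * c ^ 2 * F := by positivity
  calc Sv ≤ 2 * (ca * c ^ 2 * E) + 2 * (cb * c ^ 2 * F) := by linarith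
    _ ≤ 2 * (ca * c ^ 2 * E) + 2 * (cb * c ^ 2 * F) +
        (2 * (cb * c ^ 2 * E) + 2 * (ca * c ^ 2 * F)) := by linarith
    _ = _ := by ring

lemma GR_nonneg {J : ℕ} {σ E : Eis} {α : Eis → ℂ} {ϑ ϑd : ℝ → ℝ} {R X A B0 : ℝ} {ν : Eis}
    {N : Eis → ℕ} {Pj : Eis → ℕ → Prop} {MD : Eis → ℕ → ℝ}
    (hD : DHr J R X σ E ν α N Pj MD) : 0 ≤ GR ϑ ϑd R X A B0 ν N Pj MD := by
  classical
  unfold GR
  refine Finset.sum_nonneg fun B hB => Finset.sum_nonneg fun j hj => ?_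
  rw [Finset.mem_filter, Finset.mem_range] at hj
  refine mul_nonneg ?_ (hD.nonneg hB hj.1 hj.2)
  split_ifs <;> exact sq_nonneg _

lemma GJ_nonneg {J : ℕ} {σ E : Eis} {α : Eis → ℂ} {ϑ ϑd : ℝ → ℝ} {R X A B0 : ℝ} {ν : Eis}
    {N : Eis → ℕ} {jm : ℕ → ℕ → Prop} {MJ : ℕ → ℕ → ℝ}
    (hDJ : DHJ J R X σ E ν α N jm MJ) : 0 ≤ GJ ϑ ϑd R X A B0 ν N jm MJ := by
  classical
  unfold GJ
  refine Finset.sum_nonneg fun u _ => Finset.sum_nonneg fun j hj => ?_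
  exact mul_nonneg (tJ_nonneg _ _ _ _ _ _ _ _ _) (hDJ.nonneg (Finset.mem_filter.mp hj).2)

open Classical in
/-- one `r` -/
lemma one_r {σ : Eis} (hσ : Sg σ) {Ft : ℝ → ℂ} (hwt : M49.Wt Ft) {R X A B0 : ℝ} (hR : 1 ≤ R)
    (hX : 1 ≤ X) (hA : 0 < A) {E ν : Eis} {α : Eis → ℂ} (hE : E ≠ 0) (hν : IsPrim ν)
    (hνs : Squarefree ν) (hα : Cf α ν) (hαX : ∀ n, α n ≠ 0 → X / 2 < nm n ∧ (nm n : ℝ) ≤ X)
    (om : IX σ → ℝ → ℂ) (N : Eis → ℕ) (jm : ℕ → ℕ → Prop) {r : Eis}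
    (hr : r ∈ (S R).filter (fun r => IsCoprime r ν ∧ R / 2 < nm r)) :
    ‖VV α σ E r ν Ft A - Mn α σ E r ν Ft A‖ ^ 2 ≤
      2 * ((2 * ‖th σ‖ ^ 2 * R ^ (-(1 : ℝ) / 3)) * (100 * (1 + Real.log X) *
        ∑ B ∈ S X, (nm B : ℝ) ^ ((4 : ℝ) / 3) * ‖QRR α σ E ν om Ft A B0 N jm r B‖ ^ 2)) +
      2 * ((2 * ‖th σ‖ ^ 2 * R ^ (-(1 : ℝ) / 3)) *
        ‖∑ B ∈ S X, (cB B * n23 (B ^ 2) * (sy E B * conj (sy (σ * ν ^ 2) B))) * conj (sy r B) *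
          ∑ j ∈ FJs N jm B, FB α E σ ν om Ft A B0 r B j‖ ^ 2) := by
  have hX0 : (0 : ℝ) ≤ X := by linarith
  have hR0 : (0 : ℝ) ≤ R := by linarith
  have hRp : (0 : ℝ) < R := by linarith
  rw [Finset.mem_filter, mem_S hR0] at hr
  obtain ⟨⟨hrR, h1, h2⟩, h4, h5⟩ := hr
  have hth : ‖th (σ * r)‖ ^ 2 ≤ 2 * ‖th σ‖ ^ 2 * R ^ (-(1 : ℝ) / 3) :=
    norm_th_sq_le hσ h1 h2 hRp h5
  have hth20 : 0 ≤ 2 * ‖th σ‖ ^ 2 * R ^ (-(1 : ℝ) / 3) := by positivity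
  set w0 : Eis → ℂ := fun B => cB B * n23 (B ^ 2) * (sy E B * conj (sy (σ * ν ^ 2) B)) with hw0
  set JP : ℂ := ∑ B ∈ S X, w0 B * conj (sy r B) *
    ∑ j ∈ FJs N jm B, FB α E σ ν om Ft A B0 r B j with hJP
  set q : Eis → ℝ := fun B => ‖QRR α σ E ν om Ft A B0 N jm r B‖ with hq
  rw [VV_split hσ hE h1 h2 hν hνs h4 hα hwt hA B0, add_sub_cancel_left, norm_mul, mul_pow]
  have hw0n : ∀ B ∈ S X, ‖w0 B‖ ≤ (nm B : ℝ) ^ ((1 : ℝ) / 6) := by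
    intro B hB
    obtain ⟨hBX, hB1, hBs⟩ := (mem_S hX0).mp hB
    have h1 := norm_cB_le hB1 hBs
    have h2 : ‖sy E B * conj (sy (σ * ν ^ 2) B)‖ ≤ 1 := by
      rw [norm_mul, RCLike.norm_conj]
      exact mul_le_one₀ (norm_sy_le1 hB1) (norm_nonneg _) (norm_sy_le1 hB1)
    simp only [hw0]
    rw [norm_mul]
    calc ‖cB B * n23 (B ^ 2)‖ * ‖sy E B * conj (sy (σ * ν ^ 2) B)‖
        ≤ (nm B : ℝ) ^ ((1 : ℝ) / 6) * 1 := mul_le_mul h1 h2 (norm_nonneg _) (by positivity)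
      _ = _ := mul_one _
  have hPF : PF α σ E r ν (HR σ r ν Ft A B0) =
      ∑ B ∈ S X, w0 B * conj (sy r B) * QRR α σ E ν om Ft A B0 N jm r B + JP := by
    rw [PF_eq hX0 hα.fs hα.sqf (fun n hn => (hαX n hn).2), hJP, ← Finset.sum_add_distrib]
    refine Finset.sum_congr rfl fun B hB => ?_
    obtain ⟨hBX, hB1, hBs⟩ := (mem_S hX0).mp hB
    have e9 : σ * r * ν ^ 2 = r * (σ * ν ^ 2) := by ring
    rw [e9, syAx.mul_left r (σ * ν ^ 2) B hB1, map_mul]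
    simp only [hw0, QRR]
    ring
  have hQn : ‖∑ B ∈ S X, w0 B * conj (sy r B) * QRR α σ E ν om Ft A B0 N jm r B‖ ≤
      ∑ B ∈ S X, (nm B : ℝ) ^ ((1 : ℝ) / 6) * q B := by
    refine (norm_sum_le _ _).trans (Finset.sum_le_sum fun B hB => ?_)
    obtain ⟨hBX, hB1, hBs⟩ := (mem_S hX0).mp hB
    rw [norm_mul, norm_mul, RCLike.norm_conj]
    refine mul_le_mul_of_nonneg_right ?_ (norm_nonneg _)
    calc ‖w0 B‖ * ‖sy r B‖ ≤ (nm B : ℝ) ^ ((1 : ℝ) / 6) * 1 :=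
          mul_le_mul (hw0n B hB) (norm_sy_le1 hB1) (norm_nonneg _) (by positivity)
      _ = _ := mul_one _
  have hQ2 : ‖∑ B ∈ S X, w0 B * conj (sy r B) * QRR α σ E ν om Ft A B0 N jm r B‖ ^ 2 ≤
      100 * (1 + Real.log X) * ∑ B ∈ S X, (nm B : ℝ) ^ ((4 : ℝ) / 3) * q B ^ 2 :=
    (pow_le_pow_left₀ (norm_nonneg _) hQn 2).trans
      (cauchy_B hX q fun B _ => norm_nonneg _)
  have hsum : ‖PF α σ E r ν (HR σ r ν Ft A B0)‖ ^ 2 ≤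
      2 * (100 * (1 + Real.log X) * ∑ B ∈ S X, (nm B : ℝ) ^ ((4 : ℝ) / 3) * q B ^ 2) +
        2 * ‖JP‖ ^ 2 := by
    rw [hPF]
    have h6 := pow_le_pow_left₀ (norm_nonneg _)
      (norm_add_le (∑ B ∈ S X, w0 B * conj (sy r B) * QRR α σ E ν om Ft A B0 N jm r B) JP) 2
    have h7 := two_mul_le_add_sq
      (‖∑ B ∈ S X, w0 B * conj (sy r B) * QRR α σ E ν om Ft A B0 N jm r B‖) (‖JP‖)
    rw [add_sq] at h6
    linarith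
  calc ‖th (σ * r)‖ ^ 2 * ‖PF α σ E r ν (HR σ r ν Ft A B0)‖ ^ 2
      ≤ (2 * ‖th σ‖ ^ 2 * R ^ (-(1 : ℝ) / 3)) * (2 * (100 * (1 + Real.log X) *
        ∑ B ∈ S X, (nm B : ℝ) ^ ((4 : ℝ) / 3) * q B ^ 2) + 2 * ‖JP‖ ^ 2) :=
        mul_le_mul hth hsum (by positivity) hth20
    _ = _ := by ring

open Classical in
/-- one `B` -/
lemma one_B {σ : Eis} (hσ : Sg σ) {J M : ℕ} {Ft : ℝ → ℂ} {c H : ℝ} {ϑ ϑd : ℝ → ℝ}
    {om : IX σ → ℝ → ℂ} (hK : KDd σ J M Ft c H ϑ ϑd om) {R X A T B0 : ℝ} (hR : 1 ≤ R)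
    (hX : 1 ≤ X) (hA : 0 < A) (hT : 1 ≤ T) {E ν : Eis} {α : Eis → ℂ} (hν : IsPrim ν)
    (hνs : Squarefree ν) (hα : Cf α ν) (hαX : ∀ n, α n ≠ 0 → X / 2 < nm n ∧ (nm n : ℝ) ≤ X)
    {MD : Eis → ℕ → ℝ} {Mt : Eis → ℝ} {N : Eis → ℕ} {N0 : ℕ} {jm : ℕ → ℕ → Prop}
    {MJ : ℕ → ℕ → ℝ} (hM : MHJ J H X R A T B0 σ E ν α MD Mt N N0 jm MJ) {B : Eis}
    (hB : B ∈ S X) :
    (nm B : ℝ) ^ ((4 : ℝ) / 3) * ∑ r ∈ (S R).filter (fun r => IsCoprime r ν ∧ R / 2 < nm r),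
      ‖QRR α σ E ν om Ft A B0 N jm r B‖ ^ 2 ≤
      c ^ 2 * (N0 + 1) * (((Fintype.card (IX σ) : ℝ) ^ 2 * (2 * (c2 ^ 2 + 100 * K0 ^ 2)) + 2) *
        A ^ ((2 : ℝ) / 3) * (∑ j ∈ FRs N jm B, (if (nm B : ℝ) ≤ B0 then
          ϑ (R * (nm ν : ℝ) ^ 2 * (X / nm B) / (A / (nm B : ℝ) ^ 2 * 2 ^ j)) ^ 2 else
          ϑd (2 ^ j / (A / (nm B : ℝ) ^ 2)) ^ 2) * MD B j +
          R * (L1 α X * (H * (R * (nm ν : ℝ) ^ 2 * X ^ 2) / A) ^ 2 * (T ^ M)⁻¹) ^ 2) +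
        (if B0 < nm B then 2 * (kP * PX764.cD) ^ 2 * (2 * ‖th σ‖ ^ 2 * R ^ (-(1 : ℝ) / 3)) *
          (if ν = 1 then 1 else 0) * A ^ ((4 : ℝ) / 3) *
            ((nm B : ℝ) ^ (-(4 : ℝ) / 3) * Mt B) else 0)) := by
  obtain ⟨hDJ, hD, hMt, hNN, hN1, hN2⟩ := hM
  have hX0 : (0 : ℝ) ≤ X := by linarith
  have hR0 : (0 : ℝ) ≤ R := by linarith
  have hcc := hK.kd.c0
  obtain ⟨hBX, hB1, hBs⟩ := (mem_S hX0).mp hB
  have hNB : (1 : ℝ) ≤ nm B := one_le_nm hB1.ne_zero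
  have hNB0 : (0 : ℝ) < nm B := by linarith
  have hNBN : ((N B : ℕ) : ℝ) ≤ N0 := by exact_mod_cast hNN B hB
  have hNb0 : (0 : ℝ) ≤ N B := Nat.cast_nonneg _
  set tl : ℝ := R * (L1 α X * (H * (R * (nm ν : ℝ) ^ 2 * X ^ 2) / A) ^ 2 * (T ^ M)⁻¹) ^ 2 with htl
  have htl0 : 0 ≤ tl := mul_nonneg hR0 (sq_nonneg _)
  have e4 : (nm B : ℝ) ^ ((4 : ℝ) / 3) * (A / (nm B : ℝ) ^ 2) ^ ((2 : ℝ) / 3) =
      A ^ ((2 : ℝ) / 3) := by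
    rw [Real.div_rpow hA.le (by positivity), ← Real.rpow_natCast, ← Real.rpow_mul hNB0.le]
    have : ((2 : ℕ) : ℝ) * (2 / 3) = 4 / 3 := by norm_num
    rw [this]
    field_simp
  have e5 : (nm B : ℝ) ^ ((4 : ℝ) / 3) * (A / (nm B : ℝ) ^ 2) ^ ((4 : ℝ) / 3) =
      A ^ ((4 : ℝ) / 3) * (nm B : ℝ) ^ (-(4 : ℝ) / 3) := by
    rw [Real.div_rpow hA.le (by positivity), ← Real.rpow_natCast, ← Real.rpow_mul hNB0.le]
    have h1 : ((2 : ℕ) : ℝ) * (4 / 3) = 4 / 3 + 4 / 3 := by norm_num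
    have h2 : (-(4 : ℝ) / 3) = -(4 / 3) := by norm_num
    rw [h1, Real.rpow_add hNB0, h2, Real.rpow_neg hNB0.le]
    field_simp
  set I : ℝ := (Fintype.card (IX σ) : ℝ) with hI
  have hI0 : 0 ≤ I := Nat.cast_nonneg _
  set C1 : ℝ := 2 * (c2 ^ 2 + 100 * K0 ^ 2) with hC1d
  have hC1 : 0 ≤ C1 := by positivity
  have hA23 : (0 : ℝ) ≤ A ^ ((2 : ℝ) / 3) := by positivity
  have h43 : (0 : ℝ) ≤ (nm B : ℝ) ^ ((4 : ℝ) / 3) := by positivity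
  by_cases hcase : (nm B : ℝ) ≤ B0
  · -- dual side
    simp only [if_pos hcase, if_neg (not_lt.mpr hcase), add_zero]
    have h1 := QRR_dual (E := E) hK hR hX hA hT hν hα hαX hD hB hcase (hN1 B hB hcase)
    set g : ℝ := ∑ j ∈ FRs N jm B, ϑ (R * (nm ν : ℝ) ^ 2 * (X / nm B) /
      (A / (nm B : ℝ) ^ 2 * 2 ^ j)) ^ 2 * MD B j with hg
    have hg0 : 0 ≤ g := by
      refine Finset.sum_nonneg fun j hj => ?_
      rw [mem_FRs] at hj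
      exact mul_nonneg (sq_nonneg _) (hD.nonneg hB hj.1 hj.2)
    calc (nm B : ℝ) ^ ((4 : ℝ) / 3) * _
        ≤ (nm B : ℝ) ^ ((4 : ℝ) / 3) * ((A / (nm B : ℝ) ^ 2) ^ ((2 : ℝ) / 3) * (I ^ 2 *
          (C1 * c ^ 2 * (N B + 1) * (g + tl)))) := mul_le_mul_of_nonneg_left h1 h43
      _ = c ^ 2 * (N B + 1) * ((I ^ 2 * C1) * ((nm B : ℝ) ^ ((4 : ℝ) / 3) *
            (A / (nm B : ℝ) ^ 2) ^ ((2 : ℝ) / 3)) * (g + tl)) := by ring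
      _ = c ^ 2 * (N B + 1) * ((I ^ 2 * C1) * A ^ ((2 : ℝ) / 3) * (g + tl)) := by rw [e4]
      _ ≤ c ^ 2 * (N0 + 1) * ((I ^ 2 * C1 + 2) * A ^ ((2 : ℝ) / 3) * (g + tl)) := by
          have a1 : (0 : ℝ) ≤ I ^ 2 * C1 := mul_nonneg (sq_nonneg _) hC1
          have a2 : 0 ≤ g + tl := add_nonneg hg0 htl0
          refine mul_le_mul (mul_le_mul_of_nonneg_left (by linarith) (sq_nonneg _)) ?_
            (mul_nonneg (mul_nonneg a1 hA23) a2) (mul_nonneg (sq_nonneg _) (by linarith))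
          exact mul_le_mul_of_nonneg_right (mul_le_mul_of_nonneg_right (by linarith) hA23) a2
  · -- direct side
    have hcase' : B0 < nm B := not_le.mp hcase
    simp only [if_neg hcase, if_pos hcase']
    have h1 := QRR_dir (E := E) hσ hK hR hX hA hν hνs hα hD hB hcase' (hN2 B hB hcase')
      (hMt B hB hcase')
    have hMtB : 0 ≤ Mt B :=
      (Finset.sum_nonneg fun _ _ => by positivity).trans (hMt B hB hcase')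
    set g : ℝ := ∑ j ∈ FRs N jm B, ϑd (2 ^ j / (A / (nm B : ℝ) ^ 2)) ^ 2 * MD B j with hg
    have hg0 : 0 ≤ g := by
      refine Finset.sum_nonneg fun j hj => ?_
      rw [mem_FRs] at hj
      exact mul_nonneg (sq_nonneg _) (hD.nonneg hB hj.1 hj.2)
    set t2 : ℝ := 2 * ‖th σ‖ ^ 2 * R ^ (-(1 : ℝ) / 3) with ht2
    have ht20 : 0 ≤ t2 := by positivity
    set C3 : ℝ := kP * PX764.cD with hC3d
    set δν : ℝ := if ν = 1 then 1 else 0 with hδν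
    have hδν0 : 0 ≤ δν := by rw [hδν]; split_ifs <;> norm_num
    set Y : ℝ := 2 * C3 ^ 2 * t2 * δν * A ^ ((4 : ℝ) / 3) *
      ((nm B : ℝ) ^ (-(4 : ℝ) / 3) * Mt B) with hY
    have hY0 : 0 ≤ Y := by positivity
    calc (nm B : ℝ) ^ ((4 : ℝ) / 3) * _
        ≤ (nm B : ℝ) ^ ((4 : ℝ) / 3) * (2 * (c ^ 2 * (N B + 1) *
          ((A / (nm B : ℝ) ^ 2) ^ ((2 : ℝ) / 3) * g)) +
          2 * (C3 ^ 2 * t2 * δν * (c ^ 2 * (A / (nm B : ℝ) ^ 2) ^ ((4 : ℝ) / 3)) * Mt B)) :=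
          mul_le_mul_of_nonneg_left h1 h43
      _ = c ^ 2 * (N B + 1) * (2 * ((nm B : ℝ) ^ ((4 : ℝ) / 3) *
            (A / (nm B : ℝ) ^ 2) ^ ((2 : ℝ) / 3)) * g) +
          c ^ 2 * (2 * C3 ^ 2 * t2 * δν * ((nm B : ℝ) ^ ((4 : ℝ) / 3) *
            (A / (nm B : ℝ) ^ 2) ^ ((4 : ℝ) / 3)) * Mt B) := by ring
      _ = c ^ 2 * (N B + 1) * (2 * A ^ ((2 : ℝ) / 3) * g) + c ^ 2 * Y := by
          rw [e4, e5, hY]; ring
      _ ≤ c ^ 2 * (N0 + 1) * ((I ^ 2 * C1 + 2) * A ^ ((2 : ℝ) / 3) * (g + tl)) +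
          c ^ 2 * (N0 + 1) * Y := by
          have a1 : (0 : ℝ) ≤ I ^ 2 * C1 := mul_nonneg (sq_nonneg _) hC1
          have a3 : 2 * A ^ ((2 : ℝ) / 3) * g ≤ (I ^ 2 * C1 + 2) * A ^ ((2 : ℝ) / 3) * (g + tl) :=
            mul_le_mul (mul_le_mul_of_nonneg_right (by linarith) hA23) (by linarith) hg0
              (mul_nonneg (by linarith) hA23)
          have a4 : 0 ≤ 2 * A ^ ((2 : ℝ) / 3) * g :=
            mul_nonneg (mul_nonneg zero_le_two hA23) hg0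
          refine add_le_add ?_ ?_
          · exact mul_le_mul (mul_le_mul_of_nonneg_left (by linarith) (sq_nonneg _)) a3 a4
              (mul_nonneg (sq_nonneg _) (by linarith))
          · refine mul_le_mul_of_nonneg_right ?_ hY0
            refine le_mul_of_one_le_right (sq_nonneg _) ?_
            have : (0 : ℝ) ≤ N0 := Nat.cast_nonneg _
            linarith
      _ = _ := by ring

set_option maxHeartbeats 2000000 in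
open Classical in
/-- **the core with joint shells** -/
theorem E2coreJ {σ : Eis} (hσ : Sg σ) {J M : ℕ} {Ft : ℝ → ℂ} {c H : ℝ} {ϑ ϑd : ℝ → ℝ}
    {om : IX σ → ℝ → ℂ} (hK : KDd σ J M Ft c H ϑ ϑd om) {R X A T B0 : ℝ} (hR : 1 ≤ R)
    (hX : 1 ≤ X) (hA : 0 < A) (hT : 1 ≤ T) {E ν : Eis} {α : Eis → ℂ} (hE : E ≠ 0)
    (hν : IsPrim ν) (hνs : Squarefree ν) (hα : Cf α ν)
    (hαX : ∀ n, α n ≠ 0 → X / 2 < nm n ∧ (nm n : ℝ) ≤ X)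
    {MD : Eis → ℕ → ℝ} {Mt : Eis → ℝ} {N : Eis → ℕ} {N0 : ℕ} {jm : ℕ → ℕ → Prop}
    {MJ : ℕ → ℕ → ℝ} (hM : MHJ J H X R A T B0 σ E ν α MD Mt N N0 jm MJ) :
    ∑ r ∈ (S R).filter (fun r => IsCoprime r ν ∧ R / 2 < nm r),
      ‖VV α σ E r ν Ft A - Mn α σ E r ν Ft A‖ ^ 2 ≤
      cKJ σ * c ^ 2 * EJ ϑ ϑd H M N0 X R A T B0 ν α MD Mt N jm MJ := by
  have hM' := hM
  obtain ⟨hDJ, hD, hMt, hNN, hN1, hN2⟩ := hM'
  have hX0 : (0 : ℝ) ≤ X := by linarith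
  have hR0 : (0 : ℝ) ≤ R := by linarith
  have hRp : (0 : ℝ) < R := by linarith
  have hcc := hK.kd.c0
  have hlog : 0 ≤ Real.log X := Real.log_nonneg hX
  have hA23 : (0 : ℝ) ≤ A ^ ((2 : ℝ) / 3) := by positivity
  have hA43 : (0 : ℝ) ≤ A ^ ((4 : ℝ) / 3) := by positivity
  have hR13 : (0 : ℝ) ≤ R ^ (-(1 : ℝ) / 3) := by positivity
  have hN00 : (0 : ℝ) ≤ N0 := Nat.cast_nonneg _
  set Rs := (S R).filter (fun r => IsCoprime r ν ∧ R / 2 < nm r) with hRs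
  set I : ℝ := (Fintype.card (IX σ) : ℝ) with hI
  have hI0 : 0 ≤ I := Nat.cast_nonneg _
  set C1 : ℝ := 2 * (c2 ^ 2 + 100 * K0 ^ 2) with hC1d
  have hC1 : 0 ≤ C1 := by positivity
  set C3 : ℝ := kP * PX764.cD with hC3d
  have hC3 : 0 ≤ C3 := by have := kP_pos; have := PX764.cD_pos; positivity
  set c0 : ℝ := 2 * ‖th σ‖ ^ 2 with hc0
  have hc00 : 0 ≤ c0 := by positivity
  set δν : ℝ := if ν = 1 then 1 else 0 with hδν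
  have hδν0 : 0 ≤ δν := by rw [hδν]; split_ifs <;> norm_num
  set tl : ℝ := R * (L1 α X * (H * (R * (nm ν : ℝ) ^ 2 * X ^ 2) / A) ^ 2 * (T ^ M)⁻¹) ^ 2 with htl
  have htl0 : 0 ≤ tl := mul_nonneg hR0 (sq_nonneg _)
  set gB : Eis → ℝ := fun B => ∑ j ∈ FRs N jm B, (if (nm B : ℝ) ≤ B0 then
      ϑ (R * (nm ν : ℝ) ^ 2 * (X / nm B) / (A / (nm B : ℝ) ^ 2 * 2 ^ j)) ^ 2 else
      ϑd (2 ^ j / (A / (nm B : ℝ) ^ 2)) ^ 2) * MD B j with hgB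
  set G : ℝ := ∑ B ∈ S X, gB B with hG
  have hGe : GR ϑ ϑd R X A B0 ν N (fun B j => ¬ jm (blk B) j) MD = G :=
    GR_eq ϑ ϑd R X A B0 ν N jm MD
  have hG0 : 0 ≤ G := hGe ▸ GR_nonneg hD
  set GJv : ℝ := GJ ϑ ϑd R X A B0 ν N jm MJ with hGJv
  have hGJ0 : 0 ≤ GJv := GJ_nonneg hDJ
  set Q : ℝ := ∑ B ∈ (S X).filter (fun B => B0 < nm B), (nm B : ℝ) ^ (-(4 : ℝ) / 3) * Mt B with hQ
  have hQ0 : 0 ≤ Q := by
    rw [hQ]
    refine Finset.sum_nonneg fun B hB => ?_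
    rw [Finset.mem_filter] at hB
    have h5 : 0 ≤ Mt B :=
      (Finset.sum_nonneg fun _ _ => by positivity).trans (hMt B hB.1 hB.2)
    positivity
  set R13 : ℝ := R ^ (-(1 : ℝ) / 3) with hR13d
  set A23 : ℝ := A ^ ((2 : ℝ) / 3) with hA23d
  set A43 : ℝ := A ^ ((4 : ℝ) / 3) with hA43d
  set L : ℝ := Real.log X with hLd
  set w0 : Eis → ℂ := fun B => cB B * n23 (B ^ 2) * (sy E B * conj (sy (σ * ν ^ 2) B)) with hw0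
  have hw0n : ∀ B ∈ S X, ‖w0 B‖ ≤ (nm B : ℝ) ^ ((1 : ℝ) / 6) := by
    intro B hB
    obtain ⟨hBX, hB1, hBs⟩ := (mem_S hX0).mp hB
    have h1 := norm_cB_le hB1 hBs
    have h2 : ‖sy E B * conj (sy (σ * ν ^ 2) B)‖ ≤ 1 := by
      rw [norm_mul, RCLike.norm_conj]
      exact mul_le_one₀ (norm_sy_le1 hB1) (norm_nonneg _) (norm_sy_le1 hB1)
    simp only [hw0]
    rw [norm_mul]
    calc ‖cB B * n23 (B ^ 2)‖ * ‖sy E B * conj (sy (σ * ν ^ 2) B)‖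
        ≤ (nm B : ℝ) ^ ((1 : ℝ) / 6) * 1 := mul_le_mul h1 h2 (norm_nonneg _) (by positivity)
      _ = _ := mul_one _
  set JP : Eis → ℂ := fun r => ∑ B ∈ S X, w0 B * conj (sy r B) *
    ∑ j ∈ FJs N jm B, FB α E σ ν om Ft A B0 r B j with hJP
  set qq : Eis → Eis → ℝ := fun r B => ‖QRR α σ E ν om Ft A B0 N jm r B‖ ^ 2 with hqq
  -- the sum over `r`
  have step1 : ∑ r ∈ Rs, ‖VV α σ E r ν Ft A - Mn α σ E r ν Ft A‖ ^ 2 ≤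
      2 * (c0 * R13 * (100 * (1 + L)) *
        ∑ B ∈ S X, (nm B : ℝ) ^ ((4 : ℝ) / 3) * ∑ r ∈ Rs, qq r B) +
      2 * (c0 * R13 * ∑ r ∈ Rs, ‖JP r‖ ^ 2) := by
    have h1 : ∀ r ∈ Rs, ‖VV α σ E r ν Ft A - Mn α σ E r ν Ft A‖ ^ 2 ≤
        2 * ((c0 * R13) * (100 * (1 + L) *
          ∑ B ∈ S X, (nm B : ℝ) ^ ((4 : ℝ) / 3) * qq r B)) +
        2 * ((c0 * R13) * ‖JP r‖ ^ 2) :=
      fun r hr => one_r hσ hK.kd.wt hR hX hA hE hν hνs hα hαX om N jm hr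
    refine (Finset.sum_le_sum h1).trans (le_of_eq ?_)
    rw [Finset.sum_add_distrib, ← Finset.mul_sum, ← Finset.mul_sum, ← Finset.mul_sum,
      ← Finset.mul_sum, ← Finset.mul_sum, Finset.sum_comm]
    have : ∑ y ∈ S X, ∑ x ∈ Rs, (nm y : ℝ) ^ ((4 : ℝ) / 3) * qq x y =
        ∑ B ∈ S X, (nm B : ℝ) ^ ((4 : ℝ) / 3) * ∑ r ∈ Rs, qq r B :=
      Finset.sum_congr rfl fun B _ => by rw [Finset.mul_sum]
    rw [this]
    ring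
  -- the sum over `B`
  have step2 : ∑ B ∈ S X, (nm B : ℝ) ^ ((4 : ℝ) / 3) * ∑ r ∈ Rs, qq r B ≤
      c ^ 2 * (N0 + 1) * ((I ^ 2 * C1 + 2) * A23 * (G + 100 * X * tl) +
        (2 * C3 ^ 2) * (c0 * R13) * δν * A43 * Q) := by
    have h1 : ∀ B ∈ S X, (nm B : ℝ) ^ ((4 : ℝ) / 3) * ∑ r ∈ Rs, qq r B ≤
        c ^ 2 * (N0 + 1) * ((I ^ 2 * C1 + 2) * A23 * (gB B + tl) + (if B0 < nm B then
          2 * C3 ^ 2 * (c0 * R13) * δν * A43 * ((nm B : ℝ) ^ (-(4 : ℝ) / 3) * Mt B) else 0)) :=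
      fun B hB => one_B hσ hK hR hX hA hT hν hνs hα hαX hM hB
    refine (Finset.sum_le_sum h1).trans ?_
    rw [← Finset.mul_sum, Finset.sum_add_distrib, ← Finset.mul_sum, Finset.sum_add_distrib,
      Finset.sum_const, nsmul_eq_mul]
    refine mul_le_mul_of_nonneg_left (add_le_add ?_ (le_of_eq ?_))
      (mul_nonneg (sq_nonneg _) (by linarith))
    · refine mul_le_mul_of_nonneg_left (add_le_add le_rfl ?_) (mul_nonneg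
        (add_nonneg (mul_nonneg (sq_nonneg _) hC1) zero_le_two) hA23)
      exact mul_le_mul_of_nonneg_right (card_S_le' hX) htl0
    · rw [hQ, Finset.sum_filter, Finset.mul_sum]
      refine Finset.sum_congr rfl fun B _ => ?_
      split_ifs
      · rfl
      · rw [mul_zero]
  -- the joint part
  have hjoint : ∑ r ∈ Rs, ‖JP r‖ ^ 2 ≤ 2 * (1 + L) * N0 * (2 *
      (I ^ 2 * c2 ^ 2 + 1) * c ^ 2 * (A23 * GJv)) :=
    joint_bd hK hR hX hA B0 hν hα hαX hNN hDJ w0 hw0n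
  have hC1' : 0 ≤ I ^ 2 * C1 + 2 := add_nonneg (mul_nonneg (sq_nonneg _) hC1) zero_le_two
  have hC3' : 0 ≤ 2 * C3 ^ 2 := mul_nonneg zero_le_two (sq_nonneg _)
  have hI2 : 0 ≤ I ^ 2 * c2 ^ 2 + 1 :=
    add_nonneg (mul_nonneg (sq_nonneg _) (sq_nonneg _)) zero_le_one
  refine (fin_J hc00 hR13 hA23 hA43 hX0 htl0 hG0 hQ0 hδν0 hC1' hC3' hN00 hlog hI2 hGJ0
    step1 step2 hjoint).trans (le_of_eq ?_)
  have e7 : R13 * R13 = R ^ (-(2 : ℝ) / 3) := by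
    rw [hR13d, ← Real.rpow_add hRp]; norm_num
  have e8 : PJ X R A B0 ν Mt = δν * (R13 * R13 * A43 * Q) := by
    unfold PJ
    rw [hδν, e7]
    split_ifs
    · rw [one_mul]
    · rw [zero_mul]
  have hEJ : EJ ϑ ϑd H M N0 X R A T B0 ν α MD Mt N jm MJ = (N0 + 1) * (1 + L) *
      (R13 * A23 * G + δν * (R13 * R13 * A43 * Q) + R13 * A23 * (X * tl)) +
      (N0 + 1) * (1 + L) * (R13 * A23 * GJv) := by
    unfold EJ GG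
    rw [hGe, ← hGJv, e8, htl]
    ring
  have hcJ : cKJ σ = 2 * (c0 * 100 * 100 * ((I ^ 2 * C1 + 2) + (2 * C3 ^ 2) * c0)) +
      2 * (c0 * (2 * (2 * (I ^ 2 * c2 ^ 2 + 1)))) := by
    unfold cKJ cK
    rw [hc0, hC1d, hC3d, hI]
  rw [hEJ, hcJ]

end Crest.Agent.R017.E2440
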