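import Crest.Agent.R017.E2zc_440

/-!
# Row 17, block C70, leaf E2, part zd (helper440): the parameters of `E2coreJ`

* `par_num` : the parameters, abstractly
* `EJ_num` : `EJ` with the parameters chosen
* `QsNJ_le` : `Qs` with joint shells and the parameters chosen
-/

set_option autoImplicit false
set_option linter.unusedVariables false
set_option linter.unusedSectionVars false
set_option linter.unusedTactic false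

noncomputable section

open Complex MeasureTheory
open scoped ComplexConjugate

namespace Crest.Agent.R017.E2440

open Crest.Agent.R012 Crest.Agent.R012.Eis Crest.Agent.R012.GaussLoc283
open Crest.Agent.R012.Mob705 hiding pb mem_pb
open Crest.Agent.R012.Div277
open Crest.Agent.R012.LS2 (S mem_S)
open Crest.Agent.R017.PX764 (th Gh n6 cD)
open Crest.Agent.R017.F1
open Crest.Agent.R017.X6C180 (Sg fA WF V1 cM n13 IX dl' om' GF)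
open Crest.Agent.R017.X6545 (TF Bd)
open Crest.Agent.R017.X6W180 (TF1 tf1_tf)
open Crest.Agent.R017.CM106 (sub CS FS)
open Crest.Agent.R017.GrB829 (IsC)

open Classical in
lemma PJ_nonneg {X R A B0 : ℝ} (hR : 1 ≤ R) (hA : 0 < A) {σ E ν : Eis} {α : Eis → ℂ}
    {Mt : Eis → ℝ} (hMt : ∀ B ∈ S X, B0 < nm B →
      ∑ r ∈ (S R).filter (fun r => IsCoprime r ν ∧ R / 2 < nm r), ‖MT α E B σ r‖ ^ 2 ≤ Mt B) :
    0 ≤ PJ X R A B0 ν Mt := by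
  have hRp : 0 < R := by linarith
  unfold PJ
  split_ifs
  · have hMs : 0 ≤ ∑ B ∈ (S X).filter (fun B => B0 < nm B),
        (nm B : ℝ) ^ (-(4 : ℝ) / 3) * Mt B := by
      refine Finset.sum_nonneg fun B hB => ?_
      rw [Finset.mem_filter] at hB
      have h5 : 0 ≤ Mt B :=
        (Finset.sum_nonneg fun _ _ => by positivity).trans (hMt B hB.1 hB.2)
      positivity
    positivity
  · exact le_rfl

set_option maxHeartbeats 4000000 in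
open Classical in
/-- **the parameters, abstractly** -/
theorem par_num {ε : ℝ} (hε : 0 < ε) (b M' : ℕ) : ∃ (M : ℕ) (C : ℝ), 0 ≤ C ∧
    ∀ P : ℝ, 1 ≤ P → ∀ X R A H B0 : ℝ, 1 ≤ X → X ≤ P ^ b → 1 ≤ R → R ≤ P ^ b → 0 < A →
    A ≤ P ^ b → A⁻¹ ≤ P ^ b → 1 ≤ H → H ≤ P ^ b → ∀ (ν : Eis) (α : Eis → ℂ), IsPrim ν →
    (nm ν : ℝ) ≤ P ^ b → L1 α X ≤ 100 * P ^ b →
    ∃ N0 : ℕ, (∀ B ∈ S X, NBf (P ^ ε) H X R A B0 ν B ≤ N0) ∧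
      (∀ B ∈ S X, (nm B : ℝ) ≤ B0 → 2 * P ^ ε * (H * (R * (nm ν : ℝ) ^ 2 * (X / nm B))) ≤
        A / (nm B : ℝ) ^ 2 * 2 ^ NBf (P ^ ε) H X R A B0 ν B) ∧
      (∀ B ∈ S X, B0 < nm B → 10 * (A / (nm B : ℝ) ^ 2) ≤ 2 ^ NBf (P ^ ε) H X R A B0 ν B) ∧
      ∀ G D : ℝ, 0 ≤ G → 0 ≤ D → (N0 + 1) * (1 + Real.log X) *
        (R ^ (-(1 : ℝ) / 3) * A ^ ((2 : ℝ) / 3) * G + D +
          R ^ (-(1 : ℝ) / 3) * A ^ ((2 : ℝ) / 3) * (X * R * (L1 α X *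
            (H * (R * (nm ν : ℝ) ^ 2 * X ^ 2) / A) ^ 2 * ((P ^ ε) ^ M)⁻¹) ^ 2)) ≤
        C * P ^ ε * (R ^ (-(1 : ℝ) / 3) * A ^ ((2 : ℝ) / 3) * G + D + (P ^ M')⁻¹) := by
  have hε2 : 0 < ε / 2 := by linarith
  set cN : ℕ := ⌈ε⌉₊ + 7 * b with hcN
  obtain ⟨C1, hC1, hN0⟩ := shells_small hε2 cN
  set M : ℕ := ⌈((33 * b + M' : ℕ) : ℝ) / ε⌉₊ with hMd
  refine ⟨M, C1 * (1 + b * (ε / 2)⁻¹) * 10000, by positivity, ?_⟩
  intro P hP X R A H B0 hX hXP hR hRP hA hAP hAiP hH hHP ν α hν hνP hL1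
  have hP0 : 0 < P := by linarith
  have hPb : 1 ≤ P ^ b := one_le_pow₀ hP
  have hPe : 1 ≤ P ^ ε := Real.one_le_rpow hP hε.le
  have hPe2 : 1 ≤ P ^ (ε / 2) := Real.one_le_rpow hP hε2.le
  have hX0 : (0 : ℝ) ≤ X := by linarith
  have hNν : (1 : ℝ) ≤ nm ν := one_le_nm hν.ne_zero
  have hL0 := L1_nonneg α X
  set W : ℝ := 20 * (P ^ cN * P) with hW
  have hW0 : 0 < W := by positivity
  have hceil : P ^ ε ≤ P ^ ⌈ε⌉₊ := by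
    rw [← Real.rpow_natCast]
    exact Real.rpow_le_rpow_of_exponent_le hP (Nat.le_ceil _)
  have hPow : P ^ cN = P ^ ⌈ε⌉₊ * (P ^ b) ^ 7 := by rw [hcN, pow_add, mul_comm 7 b, pow_mul]
  have hc1 : (1 : ℝ) ≤ P ^ ⌈ε⌉₊ := one_le_pow₀ hP
  have h7 : (P ^ b) ^ 7 = P ^ b * P ^ b * (P ^ b) ^ 2 * (P ^ b) ^ 2 * P ^ b := by ring
  have hW1 : 2 * P ^ ε * (H * (R * (nm ν : ℝ) ^ 2 * X ^ 2)) / A ≤ W := by
    rw [div_eq_mul_inv]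
    calc 2 * P ^ ε * (H * (R * (nm ν : ℝ) ^ 2 * X ^ 2)) * A⁻¹
        ≤ 2 * P ^ ⌈ε⌉₊ * (P ^ b * (P ^ b * (P ^ b) ^ 2 * (P ^ b) ^ 2)) * P ^ b := by gcongr
      _ = 2 * (P ^ cN * 1) := by rw [hPow, h7]; ring
      _ ≤ 20 * (P ^ cN * P) := by
          have : 0 ≤ P ^ cN := by positivity
          nlinarith [mul_le_mul_of_nonneg_left hP this]
      _ = W := rfl
  have hW2 : 10 * A ≤ W := by
    have h8 : P ^ b ≤ P ^ cN := pow_le_pow_right₀ hP (by omega)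
    have h9 : P ^ cN ≤ P ^ cN * P := le_mul_of_one_le_right (by positivity) hP
    have h10 : 0 ≤ P ^ cN * P := by positivity
    rw [hW]
    linarith
  set N0 : ℕ := ⌈Real.logb 2 W⌉₊ with hN0d
  refine ⟨N0, ?_, ?_, ?_, fun Gv Dv hGv hDv => ?_⟩
  · intro B hB
    obtain ⟨hB1, hB2, -⟩ := (mem_S hX0).mp hB
    exact NBf_le hPe hH hX hR hA hν hB2.ne_zero hB1 hW0 hW1 hW2
  · intro B hB h
    obtain ⟨hB1, hB2, -⟩ := (mem_S hX0).mp hB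
    exact NBf_dual hPe hH hX hR hA hν hB2.ne_zero h
  · intro B hB h
    obtain ⟨hB1, hB2, -⟩ := (mem_S hX0).mp hB
    exact NBf_direct hA hB2.ne_zero h
  · skip
    have hRp : 0 < R := by linarith
    have htail : R ^ (-(1 : ℝ) / 3) * A ^ ((2 : ℝ) / 3) * (X * R * (L1 α X *
        (H * (R * (nm ν : ℝ) ^ 2 * X ^ 2) / A) ^ 2 * ((P ^ ε) ^ M)⁻¹) ^ 2) ≤
        10000 * (P ^ M')⁻¹ := by
      have a1 : R ^ (-(1 : ℝ) / 3) ≤ 1 := Real.rpow_le_one_of_one_le_of_nonpos hR (by norm_num)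
      have a2 : A ^ ((2 : ℝ) / 3) ≤ P ^ b := by
        calc A ^ ((2 : ℝ) / 3) ≤ (P ^ b) ^ ((2 : ℝ) / 3) :=
              Real.rpow_le_rpow hA.le hAP (by norm_num)
          _ ≤ (P ^ b) ^ (1 : ℝ) := Real.rpow_le_rpow_of_exponent_le hPb (by norm_num)
          _ = P ^ b := Real.rpow_one _
      have a3 : P ^ (33 * b + M') ≤ (P ^ ε) ^ M := by
        rw [← Real.rpow_natCast (P ^ ε), ← Real.rpow_mul hP0.le, ← Real.rpow_natCast P]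
        refine Real.rpow_le_rpow_of_exponent_le hP ?_
        have h1 := Nat.le_ceil (((33 * b + M' : ℕ) : ℝ) / ε)
        rw [div_le_iff₀ hε] at h1
        calc (((33 * b + M' : ℕ)) : ℝ) ≤ (M : ℝ) * ε := h1
          _ = ε * M := mul_comm _ _
      have a4 : ((P ^ ε) ^ M)⁻¹ ≤ (P ^ (33 * b + M'))⁻¹ := inv_anti₀ (by positivity) a3
      have a5 : H * (R * (nm ν : ℝ) ^ 2 * X ^ 2) / A ≤ P ^ b * (P ^ b * (P ^ b) ^ 2 * (P ^ b) ^ 2) *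
          P ^ b := by
        rw [div_eq_mul_inv]
        gcongr
      set Q : ℝ := P ^ b with hQ
      have hQ0 : 0 < Q := by positivity
      have a6 : (P ^ (33 * b + M'))⁻¹ = (Q ^ 33)⁻¹ * (P ^ M')⁻¹ := by
        rw [pow_add, mul_comm 33 b, pow_mul, mul_inv]
      have hQ33 : 1 ≤ Q ^ 33 := one_le_pow₀ hPb
      have hM1 : 1 ≤ P ^ M' := one_le_pow₀ hP
      calc R ^ (-(1 : ℝ) / 3) * A ^ ((2 : ℝ) / 3) * (X * R * (L1 α X *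
            (H * (R * (nm ν : ℝ) ^ 2 * X ^ 2) / A) ^ 2 * ((P ^ ε) ^ M)⁻¹) ^ 2)
          ≤ 1 * Q * (Q * Q * (100 * Q * (Q * (Q * Q ^ 2 * Q ^ 2) * Q) ^ 2 *
              ((Q ^ 33)⁻¹ * (P ^ M')⁻¹)) ^ 2) := by
            rw [← a6]
            gcongr
        _ = 10000 * (Q ^ 33 * (Q ^ 33)⁻¹) * (Q ^ 33)⁻¹ * ((P ^ M')⁻¹ * (P ^ M')⁻¹) := by ring
        _ ≤ 10000 * 1 * 1 * (1 * (P ^ M')⁻¹) := by
            have b1 : Q ^ 33 * (Q ^ 33)⁻¹ = 1 := mul_inv_cancel₀ (by positivity)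
            have b2 : (Q ^ 33)⁻¹ ≤ 1 := inv_le_one_of_one_le₀ hQ33
            have b3 : (P ^ M')⁻¹ ≤ 1 := inv_le_one_of_one_le₀ hM1
            rw [b1]
            gcongr
        _ = _ := by ring
    have hN1 : (N0 : ℝ) + 1 ≤ C1 * P ^ (ε / 2) := hN0 P hP
    have hlX : 1 + Real.log X ≤ (1 + b * (ε / 2)⁻¹) * P ^ (ε / 2) := by
      have h1 : Real.log X ≤ Real.log (P ^ b) := Real.log_le_log (by linarith) hXP
      rw [Real.log_pow] at h1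
      have h2 := log_le_pow hP hε2
      have h3 : (b : ℝ) * Real.log P ≤ b * ((ε / 2)⁻¹ * P ^ (ε / 2)) :=
        mul_le_mul_of_nonneg_left h2 (Nat.cast_nonneg b)
      nlinarith
    have hlX0 : 0 ≤ Real.log X := Real.log_nonneg hX
    set G : ℝ := R ^ (-(1 : ℝ) / 3) * A ^ ((2 : ℝ) / 3) * Gv with hG
    set D : ℝ := Dv with hDd
    have hG0 : 0 ≤ G := by positivity
    have hD0 : 0 ≤ D := hDv
    have hM0 : 0 ≤ (P ^ M')⁻¹ := by positivity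
    set tl : ℝ := R ^ (-(1 : ℝ) / 3) * A ^ ((2 : ℝ) / 3) * (X * R * (L1 α X *
        (H * (R * (nm ν : ℝ) ^ 2 * X ^ 2) / A) ^ 2 * ((P ^ ε) ^ M)⁻¹) ^ 2) with htl
    have htl0 : 0 ≤ tl := by positivity
    have hsum : G + D + tl ≤ 10000 * (G + D + (P ^ M')⁻¹) := by linarith
    have hee : P ^ (ε / 2) * P ^ (ε / 2) = P ^ ε := by
      rw [← Real.rpow_add hP0]; congr 1; ring
    calc ((N0 : ℝ) + 1) * (1 + Real.log X) * (G + D + tl)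
        ≤ (C1 * P ^ (ε / 2)) * ((1 + b * (ε / 2)⁻¹) * P ^ (ε / 2)) *
            (10000 * (G + D + (P ^ M')⁻¹)) := by
          gcongr
      _ = C1 * (1 + b * (ε / 2)⁻¹) * 10000 * (P ^ (ε / 2) * P ^ (ε / 2)) *
            (G + D + (P ^ M')⁻¹) := by ring
      _ = _ := by rw [hee]


open Classical in
/-- **`EJ` with the parameters chosen** -/
theorem EJ_num {ε : ℝ} (hε : 0 < ε) (b M' : ℕ) : ∃ (M : ℕ) (C : ℝ), 0 ≤ C ∧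
    ∀ P : ℝ, 1 ≤ P → ∀ X R A H B0 : ℝ, 1 ≤ X → X ≤ P ^ b → 1 ≤ R → R ≤ P ^ b → 0 < A →
    A ≤ P ^ b → A⁻¹ ≤ P ^ b → 1 ≤ H → H ≤ P ^ b → ∀ (σ E ν : Eis) (α : Eis → ℂ), IsPrim ν →
    (nm ν : ℝ) ≤ P ^ b → L1 α X ≤ 100 * P ^ b → ∀ (J : ℕ) (MD : Eis → ℕ → ℝ) (Mt : Eis → ℝ)
    (jm : ℕ → ℕ → Prop) (MJ : ℕ → ℕ → ℝ),
    DHJ J R X σ E ν α (NBf (P ^ ε) H X R A B0 ν) jm MJ →
    DHr J R X σ E ν α (NBf (P ^ ε) H X R A B0 ν) (fun B j => ¬ jm (blk B) j) MD →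
    (∀ B ∈ S X, B0 < nm B → ∑ r ∈ (S R).filter (fun r => IsCoprime r ν ∧ R / 2 < nm r),
      ‖MT α E B σ r‖ ^ 2 ≤ Mt B) →
    ∃ N0 : ℕ, MHJ J H X R A (P ^ ε) B0 σ E ν α MD Mt (NBf (P ^ ε) H X R A B0 ν) N0 jm MJ ∧
      ∀ ϑ ϑd : ℝ → ℝ,
        EJ ϑ ϑd H M N0 X R A (P ^ ε) B0 ν α MD Mt (NBf (P ^ ε) H X R A B0 ν) jm MJ ≤
        C * P ^ ε * (R ^ (-(1 : ℝ) / 3) * A ^ ((2 : ℝ) / 3) *
            GG ϑ ϑd R X A B0 ν (NBf (P ^ ε) H X R A B0 ν) MD jm MJ +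
          PJ X R A B0 ν Mt + (P ^ M')⁻¹) := by
  obtain ⟨M, C, hC, h⟩ := par_num hε b M'
  refine ⟨M, C, hC, ?_⟩
  intro P hP X R A H B0 hX hXP hR hRP hA hAP hAiP hH hHP σ E ν α hν hνP hL1 J MD Mt jm MJ hDJ hD hMt
  obtain ⟨N0, h0, h1, h2, h3⟩ := h P hP X R A H B0 hX hXP hR hRP hA hAP hAiP hH hHP ν α hν hνP hL1
  refine ⟨N0, ⟨hDJ, hD, hMt, h0, h1, h2⟩, fun ϑ ϑd => ?_⟩
  unfold EJ
  exact h3 _ _ (add_nonneg (GR_nonneg hD) (GJ_nonneg hDJ)) (PJ_nonneg hR hA hMt)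

lemma EJ_nonneg {ϑ ϑd : ℝ → ℝ} {J M N0 : ℕ} {H X R A T B0 : ℝ} (hX : 1 ≤ X) (hR : 1 ≤ R)
    (hA : 0 < A) {σ E ν : Eis} {α : Eis → ℂ} {MD : Eis → ℕ → ℝ} {Mt : Eis → ℝ} {N : Eis → ℕ}
    {jm : ℕ → ℕ → Prop} {MJ : ℕ → ℕ → ℝ}
    (hM : MHJ J H X R A T B0 σ E ν α MD Mt N N0 jm MJ) :
    0 ≤ EJ ϑ ϑd H M N0 X R A T B0 ν α MD Mt N jm MJ := by
  obtain ⟨hDJ, hD, hMt, -, -, -⟩ := hM
  have hl : 0 ≤ Real.log X := Real.log_nonneg hX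
  have hRp : 0 < R := by linarith
  have hX0 : 0 ≤ X := by linarith
  have h1 : 0 ≤ PJ X R A B0 ν Mt := PJ_nonneg hR hA hMt
  have h2 : 0 ≤ R ^ (-(1 : ℝ) / 3) * A ^ ((2 : ℝ) / 3) * GG ϑ ϑd R X A B0 ν N MD jm MJ :=
    mul_nonneg (by positivity) (add_nonneg (GR_nonneg hD) (GJ_nonneg hDJ))
  have h3 : 0 ≤ R ^ (-(1 : ℝ) / 3) * A ^ ((2 : ℝ) / 3) * (X * R * (L1 α X *
            (H * (R * (nm ν : ℝ) ^ 2 * X ^ 2) / A) ^ 2 * (T ^ M)⁻¹) ^ 2) :=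
    mul_nonneg (by positivity) (mul_nonneg (mul_nonneg hX0 hRp.le) (sq_nonneg _))
  have h4 : 0 ≤ ((N0 : ℝ) + 1) * (1 + Real.log X) := by positivity
  unfold EJ
  exact mul_nonneg h4 (add_nonneg (add_nonneg h2 h1) h3)

/-- the constant -/
def cKJ4 : ℝ := ∑ c ∈ C4, cKJ c

lemma cKJ_le {c : Eis} (hc : c ∈ C4) : cKJ c ≤ cKJ4 :=
  Finset.single_le_sum (f := fun c => cKJ c) (fun c _ => cKJ_nonneg c) hc

lemma cKJ4_nonneg : 0 ≤ cKJ4 := Finset.sum_nonneg fun c _ => cKJ_nonneg c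

/-- `Qs` with joint shells -/
theorem QsJ_le {Jt M : ℕ} {Ft : ℝ → ℂ} {cc H : ℝ} {ϑ ϑd : ℝ → ℝ} {om : ∀ σ : Eis, IX σ → ℝ → ℂ}
    (hK : ∀ σ ∈ C4, KDd σ Jt M Ft cc H ϑ ϑd (om σ)) {X Y K T B0 : ℝ} (hK0 : 0 < K) (hT : 1 ≤ T)
    {α : Eis → ℂ} (hα : FS α) (hs : ∀ n, α n ≠ 0 → Squarefree n)
    (hsp : ∀ n, α n ≠ 0 → X / 2 < nm n ∧ (nm n : ℝ) ≤ X) {δ e : Eis} (hδ : IsPrim δ)
    (hδs : Squarefree δ) (he : IsPrim e) {y : Eis × Eis} (hy : y ∈ prs δ) {A : Eis}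
    (hA : A ∈ pdiv y.1) {c : Eis} (hc : c ∈ C4) {j₂ : Eis} (hj₂ : IsPrim j₂)
    (hR : 1 ≤ RR Y e A c j₂) (hX : (nm y.1 : ℝ) ≤ X) {MD : Eis → ℕ → ℝ} {Mt : Eis → ℝ}
    {N : Eis → ℕ} {N0 : ℕ} {jm : ℕ → ℕ → Prop} {MJ : ℕ → ℕ → ℝ}
    (hM : MHJ Jt H (X / nm y.1) (RR Y e A c j₂) (K / nm (e * A * j₂)) T B0 c (e * A * j₂) y.2
        (ag α δ y.1) MD Mt N N0 jm MJ) :
    Qs α δ e Y K Ft y A c j₂ ≤
      cKJ4 * cc ^ 2 * EJ ϑ ϑd H M N0 (X / nm y.1) (RR Y e A c j₂) (K / nm (e * A * j₂)) T B0 y.2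
        (ag α δ y.1) MD Mt N jm MJ := by
  have hy' := (mem_prs hδ).mp hy
  have hA' := (mem_pdiv hy'.1.ne_zero).mp hA
  have hE : e * A * j₂ ≠ 0 := mul_ne_zero (mul_ne_zero he.ne_zero hA'.1.ne_zero) hj₂.ne_zero
  have hE1 := one_le_nm hE
  have hy0 : (0 : ℝ) < nm y.1 := by have := one_le_nm hy'.1.ne_zero; linarith
  have hX1 : 1 ≤ X / nm y.1 := by rwa [le_div_iff₀ hy0, one_mul]
  have hAp : 0 < K / nm (e * A * j₂) := by positivity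
  have hsp' : ∀ n, ag α δ y.1 n ≠ 0 → X / nm y.1 / 2 < nm n ∧ (nm n : ℝ) ≤ X / nm y.1 := by
    intro n hn
    have h2 := hsp _ (ag_ne hn).2
    rw [nm_mul] at h2
    push_cast at h2
    rw [div_div, mul_comm (nm y.1 : ℝ) 2, ← div_div, div_lt_iff₀ hy0, le_div_iff₀ hy0]
    constructor
    · nlinarith [h2.1]
    · nlinarith [h2.2]
  have h1 := E2coreJ (isC_sg (mem_C4.mp hc)) (hK c hc) hR hX1 hAp hT hE hy'.2.1
    (hδs.squarefree_of_dvd (hy'.2.2 ▸ dvd_mul_left _ _)) (cf_ag hα hs hδ hy) hsp' hM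
  have h2 : 0 ≤ EJ ϑ ϑd H M N0 (X / nm y.1) (RR Y e A c j₂) (K / nm (e * A * j₂)) T B0 y.2
        (ag α δ y.1) MD Mt N jm MJ := EJ_nonneg hX1 hR hAp hM
  refine h1.trans ?_
  exact mul_le_mul_of_nonneg_right (mul_le_mul_of_nonneg_right (cKJ_le hc) (sq_nonneg _)) h2

set_option maxHeartbeats 4000000 in
open Classical in
/-- **`Qs` with joint shells and the parameters chosen** -/
theorem QsNJ_le {ε : ℝ} (hε : 0 < ε) (a M' : ℕ) : ∃ (M : ℕ) (C : ℝ), 0 ≤ C ∧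
    ∀ P : ℝ, 1 ≤ P → ∀ (Jt : ℕ) (Ft : ℝ → ℂ) (cc H : ℝ) (ϑ ϑd : ℝ → ℝ)
    (om : ∀ σ : Eis, IX σ → ℝ → ℂ), (∀ σ ∈ C4, KDd σ Jt M Ft cc H ϑ ϑd (om σ)) → H ≤ P →
    ∀ X Y K B0 : ℝ, X ≤ P → Y ≤ P → 0 < K → K⁻¹ ≤ P → K ≤ P → ∀ α : Eis → ℂ, FS α →
    (∀ n, α n ≠ 0 → Squarefree n) → (∀ n, α n ≠ 0 → X / 2 < nm n ∧ (nm n : ℝ) ≤ X) →
    (∀ n, ‖α n‖ ≤ P ^ a) → ∀ δ e : Eis, IsPrim δ → Squarefree δ → (nm δ : ℝ) ≤ P → IsPrim e →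
    (nm e : ℝ) ≤ P → ∀ y ∈ prs δ, ∀ A ∈ pdiv y.1, ∀ c ∈ C4, ∀ j₂ : Eis, IsPrim j₂ →
    1 ≤ RR Y e A c j₂ → (nm y.1 : ℝ) ≤ X → ∀ (MD : Eis → ℕ → ℝ) (Mt : Eis → ℝ)
    (jm : ℕ → ℕ → Prop) (MJ : ℕ → ℕ → ℝ),
    DHJ Jt (RR Y e A c j₂) (X / nm y.1) c (e * A * j₂) y.2 (ag α δ y.1)
      (NBf (P ^ ε) H (X / nm y.1) (RR Y e A c j₂) (K / nm (e * A * j₂)) B0 y.2) jm MJ →
    DHr Jt (RR Y e A c j₂) (X / nm y.1) c (e * A * j₂) y.2 (ag α δ y.1)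
      (NBf (P ^ ε) H (X / nm y.1) (RR Y e A c j₂) (K / nm (e * A * j₂)) B0 y.2)
      (fun B j => ¬ jm (blk B) j) MD →
    (∀ B ∈ S (X / nm y.1), B0 < nm B →
      ∑ r ∈ (S (RR Y e A c j₂)).filter (fun r => IsCoprime r y.2 ∧ RR Y e A c j₂ / 2 < nm r),
        ‖MT (ag α δ y.1) (e * A * j₂) B c r‖ ^ 2 ≤ Mt B) →
    Qs α δ e Y K Ft y A c j₂ ≤ C * cc ^ 2 * P ^ ε *
      (RR Y e A c j₂ ^ (-(1 : ℝ) / 3) * (K / nm (e * A * j₂)) ^ ((2 : ℝ) / 3) *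
          GG ϑ ϑd (RR Y e A c j₂) (X / nm y.1) (K / nm (e * A * j₂)) B0 y.2
            (NBf (P ^ ε) H (X / nm y.1) (RR Y e A c j₂) (K / nm (e * A * j₂)) B0 y.2) MD jm MJ +
        PJ (X / nm y.1) (RR Y e A c j₂) (K / nm (e * A * j₂)) B0 y.2 Mt + (P ^ M')⁻¹) := by
  obtain ⟨M, C, hC, h⟩ := EJ_num hε (a + 6) M'
  refine ⟨M, cKJ4 * C, mul_nonneg cKJ4_nonneg hC, ?_⟩
  intro P hP Jt Ft cc H ϑ ϑd om hKD hHP X Y K B0 hXP hYP hK0 hKi hKP α hα hs hsp hαP δ e hδ hδs hδP he heP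
    y hy A hA c hc j₂ hj₂ hR hyX MD Mt jm MJ hDJ hD hMt
  have hy' := (mem_prs hδ).mp hy
  have hA' := (mem_pdiv hy'.1.ne_zero).mp hA
  have hcI := mem_C4.mp hc
  have hy0 : (1 : ℝ) ≤ nm y.1 := one_le_nm hy'.1.ne_zero
  have hP0 : 0 < P := by linarith
  have hNe : (1 : ℝ) ≤ nm e := one_le_nm he.ne_zero
  have hNA : (1 : ℝ) ≤ nm A := one_le_nm hA'.1.ne_zero
  have hNj : (1 : ℝ) ≤ nm j₂ := one_le_nm hj₂.ne_zero
  have hNc : (1 : ℝ) ≤ nm c := one_le_nm hcI.ne_zero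
  have hnδ : nm δ = nm y.1 * nm y.2 := by rw [← hy'.2.2, nm_mul]
  have hy2 : (1 : ℝ) ≤ nm y.2 := one_le_nm hy'.2.1.ne_zero
  have hnδ' : (nm δ : ℝ) = nm y.1 * nm y.2 := by exact_mod_cast hnδ
  have hy1P : (nm y.1 : ℝ) ≤ P := by nlinarith
  have hy2P : (nm y.2 : ℝ) ≤ P := by nlinarith
  have hAP : (nm A : ℝ) ≤ P := by
    have h1 : nm A ≤ nm y.1 := nm_le_of_dvd hy'.1.ne_zero hA'.2
    have h2 : (nm A : ℝ) ≤ nm y.1 := by exact_mod_cast h1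
    linarith
  have hX1 : 1 ≤ X / nm y.1 := by rwa [le_div_iff₀ (by linarith), one_mul]
  have hXP' : X / nm y.1 ≤ P := by
    have : X / nm y.1 ≤ X := div_le_self (by linarith) hy0
    linarith
  have hpow : ∀ m : ℕ, m ≤ a + 6 → P ^ m ≤ P ^ (a + 6) := fun m hm => pow_le_pow_right₀ hP hm
  have hP1 : P ≤ P ^ (a + 6) := by simpa using hpow 1 (by omega)
  have hY0 : 0 < Y := by
    by_contra hY
    push Not at hY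
    have : RR Y e A c j₂ ≤ 0 := by
      unfold RR
      refine div_nonpos_of_nonpos_of_nonneg ?_ (by positivity)
      exact mul_nonpos_of_nonpos_of_nonneg hY (Nat.cast_nonneg _)
    linarith
  have hnea : (nm (e * A) : ℝ) = nm e * nm A := by rw [nm_mul]; push_cast; ring
  have hRP : RR Y e A c j₂ ≤ P ^ 3 := by
    unfold RR
    rw [hnea]
    have h1 : (1 : ℝ) ≤ nm c * (nm j₂ : ℝ) ^ 2 := by
      have := one_le_pow₀ (n := 2) hNj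
      nlinarith
    refine (div_le_self (by positivity) h1).trans ?_
    calc Y * (nm e * nm A) ≤ P * (P * P) := by gcongr
      _ = P ^ 3 := by ring
  have hjP : (nm j₂ : ℝ) ≤ P ^ 3 := by
    have h1 : 1 ≤ RR Y e A c j₂ := hR
    unfold RR at h1
    rw [hnea, le_div_iff₀ (by positivity), one_mul] at h1
    have h2 : (nm j₂ : ℝ) ≤ (nm j₂ : ℝ) ^ 2 := by nlinarith
    have h3 : (nm j₂ : ℝ) ^ 2 ≤ nm c * (nm j₂ : ℝ) ^ 2 := by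
      have : 0 ≤ (nm j₂ : ℝ) ^ 2 := by positivity
      nlinarith
    calc (nm j₂ : ℝ) ≤ nm c * (nm j₂ : ℝ) ^ 2 := h2.trans h3
      _ ≤ Y * (nm e * nm A) := h1
      _ ≤ P * (P * P) := by gcongr
      _ = P ^ 3 := by ring
  have hEe : e * A * j₂ ≠ 0 := mul_ne_zero (mul_ne_zero he.ne_zero hA'.1.ne_zero) hj₂.ne_zero
  have hE1 : (1 : ℝ) ≤ nm (e * A * j₂) := one_le_nm hEe
  have hnE : (nm (e * A * j₂) : ℝ) = nm e * nm A * nm j₂ := by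
    rw [nm_mul, nm_mul]; push_cast; ring
  have hAp : 0 < K / nm (e * A * j₂) := by positivity
  have hApP : K / nm (e * A * j₂) ≤ P := by
    have := div_le_self hK0.le hE1
    linarith
  have hAiP : (K / nm (e * A * j₂))⁻¹ ≤ P ^ 6 := by
    rw [inv_div, div_eq_mul_inv, hnE]
    calc (nm e : ℝ) * nm A * nm j₂ * K⁻¹ ≤ P * P * P ^ 3 * P := by gcongr
      _ = P ^ 6 := by ring
  have hL1 : L1 (ag α δ y.1) (X / nm y.1) ≤ 100 * P ^ (a + 6) := by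
    unfold L1
    calc ∑ n ∈ S (X / nm y.1), ‖ag α δ y.1 n‖ ≤ ∑ n ∈ S (X / nm y.1), P ^ a := by
          refine Finset.sum_le_sum fun n _ => ?_
          unfold ag
          split_ifs
          · exact hαP _
          · rw [norm_zero]; positivity
      _ = (S (X / nm y.1)).card * P ^ a := by rw [Finset.sum_const, nsmul_eq_mul]
      _ ≤ (100 * (X / nm y.1)) * P ^ a :=
          mul_le_mul_of_nonneg_right (card_S_le' hX1) (by positivity)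
      _ ≤ (100 * P) * P ^ a := by gcongr
      _ = 100 * P ^ (a + 1) := by ring
      _ ≤ _ := mul_le_mul_of_nonneg_left (hpow _ (by omega)) (by norm_num)
  have hH1 : 1 ≤ H := (hKD c hc).kd.H1
  obtain ⟨N0, hM, hE⟩ := h P hP (X / nm y.1) (RR Y e A c j₂) (K / nm (e * A * j₂)) H B0 hX1
    (hXP'.trans hP1) hR (hRP.trans (hpow 3 (by omega))) hAp (hApP.trans hP1)
    (hAiP.trans (hpow 6 (by omega))) hH1 (hHP.trans hP1) c (e * A * j₂) y.2 (ag α δ y.1) hy'.2.1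
    (hy2P.trans hP1) hL1 Jt MD Mt jm MJ hDJ hD hMt
  have h1 := QsJ_le hKD hK0 (Real.one_le_rpow hP hε.le) hα hs hsp hδ hδs he hy hA hc hj₂ hR hyX hM
  refine h1.trans ?_
  have h2 := hE ϑ ϑd
  calc _ ≤ cKJ4 * cc ^ 2 * (C * P ^ ε * _) :=
        mul_le_mul_of_nonneg_left h2 (mul_nonneg cKJ4_nonneg (sq_nonneg _))
    _ = _ := by ring

/-! ### without joint shells -/

/-- the weighted shell sum with a gain on the direct side -/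
def GKd (ϑ ϑd : ℝ → ℝ) (R X A B0 : ℝ) (ν : Eis) (N : Eis → ℕ) (MD : Eis → ℕ → ℝ) : ℝ := by
  classical
  exact ∑ B ∈ S X, ∑ j ∈ Finset.range (N B), (if (nm B : ℝ) ≤ B0 then
    ϑ (R * (nm ν : ℝ) ^ 2 * (X / nm B) / (A / (nm B : ℝ) ^ 2 * 2 ^ j)) ^ 2 else
    ϑd (2 ^ j / (A / (nm B : ℝ) ^ 2)) ^ 2) * MD B j

lemma GKd_one (ϑ : ℝ → ℝ) (R X A B0 : ℝ) (ν : Eis) (N : Eis → ℕ) (MD : Eis → ℕ → ℝ) :
    GKd ϑ (fun _ => 1) R X A B0 ν N MD = GK ϑ R X A B0 ν N MD := by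
  unfold GKd GK
  simp only [one_pow]

lemma DHJ_false {J : ℕ} {R X : ℝ} {σ E ν : Eis} {α : Eis → ℂ} {N : Eis → ℕ} :
    DHJ J R X σ E ν α N (fun _ _ => False) (fun _ _ => 0) := fun _ _ h => h.elim

lemma GG_false (ϑ ϑd : ℝ → ℝ) (R X A B0 : ℝ) (ν : Eis) (N : Eis → ℕ) (MD : Eis → ℕ → ℝ) :
    GG ϑ ϑd R X A B0 ν N MD (fun _ _ => False) (fun _ _ => 0) = GKd ϑ ϑd R X A B0 ν N MD := by
  classical
  have h1 : GJ ϑ ϑd R X A B0 ν N (fun _ _ => False) (fun _ _ => 0) = 0 := by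
    unfold GJ
    exact Finset.sum_eq_zero fun u _ => Finset.sum_eq_zero fun j _ => mul_zero _
  unfold GG
  rw [h1, add_zero]
  have h2 := GR_eq' ϑ ϑd R X A B0 ν N (fun B j => ¬ (fun (_ _ : ℕ) => False) (blk B) j) MD
    (F := fun B => Finset.range (N B)) (fun B j => by simp)
  rw [h2]
  rfl

open Classical in
/-- **`Qs` with a gain on the direct side, without joint shells, parameters chosen** -/
theorem QsND_le {ε : ℝ} (hε : 0 < ε) (a M' : ℕ) : ∃ (M : ℕ) (C : ℝ), 0 ≤ C ∧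
    ∀ P : ℝ, 1 ≤ P → ∀ (Jt : ℕ) (Ft : ℝ → ℂ) (cc H : ℝ) (ϑ ϑd : ℝ → ℝ)
    (om : ∀ σ : Eis, IX σ → ℝ → ℂ), (∀ σ ∈ C4, KDd σ Jt M Ft cc H ϑ ϑd (om σ)) → H ≤ P →
    ∀ X Y K B0 : ℝ, X ≤ P → Y ≤ P → 0 < K → K⁻¹ ≤ P → K ≤ P → ∀ α : Eis → ℂ, FS α →
    (∀ n, α n ≠ 0 → Squarefree n) → (∀ n, α n ≠ 0 → X / 2 < nm n ∧ (nm n : ℝ) ≤ X) →
    (∀ n, ‖α n‖ ≤ P ^ a) → ∀ δ e : Eis, IsPrim δ → Squarefree δ → (nm δ : ℝ) ≤ P → IsPrim e →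
    (nm e : ℝ) ≤ P → ∀ y ∈ prs δ, ∀ A ∈ pdiv y.1, ∀ c ∈ C4, ∀ j₂ : Eis, IsPrim j₂ →
    1 ≤ RR Y e A c j₂ → (nm y.1 : ℝ) ≤ X → ∀ (MD : Eis → ℕ → ℝ) (Mt : Eis → ℝ),
    DH Jt (RR Y e A c j₂) (X / nm y.1) c (e * A * j₂) y.2 (ag α δ y.1)
      (NBf (P ^ ε) H (X / nm y.1) (RR Y e A c j₂) (K / nm (e * A * j₂)) B0 y.2) MD →
    (∀ B ∈ S (X / nm y.1), B0 < nm B →
      ∑ r ∈ (S (RR Y e A c j₂)).filter (fun r => IsCoprime r y.2 ∧ RR Y e A c j₂ / 2 < nm r),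
        ‖MT (ag α δ y.1) (e * A * j₂) B c r‖ ^ 2 ≤ Mt B) →
    Qs α δ e Y K Ft y A c j₂ ≤ C * cc ^ 2 * P ^ ε *
      (RR Y e A c j₂ ^ (-(1 : ℝ) / 3) * (K / nm (e * A * j₂)) ^ ((2 : ℝ) / 3) *
          GKd ϑ ϑd (RR Y e A c j₂) (X / nm y.1) (K / nm (e * A * j₂)) B0 y.2
            (NBf (P ^ ε) H (X / nm y.1) (RR Y e A c j₂) (K / nm (e * A * j₂)) B0 y.2) MD +
        PJ (X / nm y.1) (RR Y e A c j₂) (K / nm (e * A * j₂)) B0 y.2 Mt + (P ^ M')⁻¹) := by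
  obtain ⟨M, C, hC, h⟩ := QsNJ_le hε a M'
  refine ⟨M, C, hC, ?_⟩
  intro P hP Jt Ft cc H ϑ ϑd om hKD hHP X Y K B0 hXP hYP hK0 hKi hKP α hα hs hsp hαP δ e hδ hδs hδP he
    heP y hy A hA c hc j₂ hj₂ hR hyX MD Mt hD hMt
  have h1 := h P hP Jt Ft cc H ϑ ϑd om hKD hHP X Y K B0 hXP hYP hK0 hKi hKP α hα hs hsp hαP δ e hδ hδs
    hδP he heP y hy A hA c hc j₂ hj₂ hR hyX MD Mt (fun _ _ => False) (fun _ _ => 0) DHJ_false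
    (hD.toDHr _) hMt
  rwa [GG_false] at h1

end Crest.Agent.R017.E2440
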