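import Crest.Agent.R017.FE9_47
import Crest.Agent.R012.Mob_705

/-!
# Row 17: functional equation of the smooth family sums (10): imprimitive characters

`PS_cop`: removal of a coprimality condition.
`PS_congr`, `PS_shift`: bookkeeping.
-/

set_option autoImplicit false

noncomputable section

open Complex MeasureTheory Filter Topology
open scoped SchwartzMap ContDiff

namespace Crest.Agent.R017.FE47

open Crest.Agent.R012 Crest.Agent.R012.Eis Crest.Agent.R012.Po581 Crest.Agent.R012.Gauss880
open Crest.Agent.R012.PSer47 Crest.Agent.R012.Div277 Crest.Agent.R012.Mob705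
open Crest.Agent.R012.Weight600 (osc norm_osc)
open Crest.Agent.R017.End699

lemma PS_congr {w : ℝ → ℂ} {Ξ Ξ' : Eis → ℂ} (h : ∀ b, IsPrim b → Ξ b = Ξ' b) (k t : ℝ) :
    PS w Ξ k t = PS w Ξ' k t := by
  unfold PS
  refine tsum_congr fun b => ?_
  by_cases hb : IsPrim b
  · simp only [End699.ext, if_pos hb, h b hb]
  · simp [End699.ext, hb]

lemma PS_support {w : ℝ → ℂ} (hw : HasCompactSupport w) (k : ℝ) :
    ∃ N : ℕ, ∀ b : Eis, IsPrim b → w (Real.log (nm b) - k) ≠ 0 → b ∈ primBall N := by
  obtain ⟨R, hR0, hR⟩ := exists_R hw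
  refine ⟨⌊Real.exp (k + R)⌋₊, fun b hb h => mem_primBall.mpr ⟨?_, hb⟩⟩
  have h3 := (abs_le.mp (hR _ h)).2
  have h4 : Real.log (nm b) ≤ k + R := by linarith
  have h5 : (nm b : ℝ) ≤ Real.exp (k + R) := by
    rwa [← Real.log_le_iff_le_exp (by have := one_le_nm hb; linarith)]
  exact Nat.le_floor h5

lemma summable_PS {w : ℝ → ℂ} (hw : HasCompactSupport w) (F : Eis → ℂ) (k : ℝ) :
    Summable fun b : Eis => End699.ext F b * w (Real.log (nm b) - k) := by
  obtain ⟨N, hN⟩ := PS_support hw k
  refine summable_of_ne_finset_zero (s := primBall N) fun b hb => ?_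
  by_cases hp : IsPrim b
  · by_cases h0 : w (Real.log (nm b) - k) = 0
    · rw [h0, mul_zero]
    · exact absurd (hN b hp h0) hb
  · simp [End699.ext, hp]

open Classical in
/-- dilation by a primary element -/
lemma tsum_dvd {w : ℝ → ℂ} {Ξ : Eis → ℂ} (hΞ : IsChar Ξ) {d : Eis} (hd : IsPrim d) (k t : ℝ) :
    ∑' b : Eis, (if d ∣ b then End699.ext Ξ b * (osc t (Real.log (nm b)) * w (Real.log (nm b) - k))
      else 0) = Ξ d * osc t (Real.log (nm d)) * PS w Ξ (k - Real.log (nm d)) t := by
  have hinj : Function.Injective (fun b : Eis => d * b) := mul_right_injective₀ hd.ne_zero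
  have hsup : Function.support (fun b : Eis => if d ∣ b then End699.ext Ξ b *
      (osc t (Real.log (nm b)) * w (Real.log (nm b) - k)) else 0) ⊆
      Set.range (fun b : Eis => d * b) := by
    intro b hb
    by_cases h : d ∣ b
    · obtain ⟨c, rfl⟩ := h
      exact ⟨c, rfl⟩
    · exfalso; apply hb; simp [h]
  rw [← hinj.tsum_eq hsup]
  unfold PS
  rw [← tsum_mul_left]
  refine tsum_congr fun b => ?_
  rw [if_pos (dvd_mul_right d b)]
  by_cases hb : IsPrim b
  · have hdb : IsPrim (d * b) := hd.mul hb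
    simp only [End699.ext, if_pos hb, if_pos hdb]
    have e1 : Real.log (nm (d * b)) = Real.log (nm d) + Real.log (nm b) := by
      rw [nm_mul]
      push_cast
      have h1 := one_le_nm hd
      have h2 := one_le_nm hb
      rw [Real.log_mul (by linarith) (by linarith)]
    rw [e1, hΞ.mul d b hd hb, Weight600.osc_add_right]
    have e2 : Real.log (nm d) + Real.log (nm b) - k = Real.log (nm b) - (k - Real.log (nm d)) := by
      ring
    rw [e2]
    ring
  · have hdb : ¬ IsPrim (d * b) := fun h => hb ((P355.isPrim_mul_iff hd).mp h)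
    simp [End699.ext, hb, hdb]

open Classical in
/-- **Removal of the coprimality condition** `(b, m) = 1`. -/
theorem PS_cop {w : ℝ → ℂ} (hw : HasCompactSupport w) {Ξ : Eis → ℂ} (hΞ : IsChar Ξ) {m : Eis}
    (hm : m ≠ 0) (k t : ℝ) :
    PS w (fun b => if IsCoprime b m then Ξ b else 0) k t =
      ∑ d ∈ dvs m, (muE d : ℂ) * (Ξ d * osc t (Real.log (nm d)) *
        PS w Ξ (k - Real.log (nm d)) t) := by
  have e1 : ∀ b : Eis, End699.ext (fun b => if IsCoprime b m then Ξ b else 0) b *
      (osc t (Real.log (nm b)) * w (Real.log (nm b) - k)) =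
      ∑ d ∈ dvs m, (muE d : ℂ) * (if d ∣ b then End699.ext Ξ b *
        (osc t (Real.log (nm b)) * w (Real.log (nm b) - k)) else 0) := by
    intro b
    by_cases hb : IsPrim b
    · have h := sum_muE_coprime hb hm
      have h' : (∑ d ∈ dvs m, (muE d : ℂ) * (if d ∣ b then (1 : ℂ) else 0)) =
          if IsCoprime b m then 1 else 0 := by
        have h2 := congrArg (fun z : ℤ => (z : ℂ)) h
        simp only [Int.cast_sum] at h2
        have h3 : ((if IsCoprime b m then (1 : ℤ) else 0 : ℤ) : ℂ) =
            if IsCoprime b m then 1 else 0 := by split_ifs <;> simp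
        rw [← h3, ← h2]
        refine Finset.sum_congr rfl fun d _ => ?_
        split_ifs <;> simp
      have e2 : ∑ d ∈ dvs m, (muE d : ℂ) * (if d ∣ b then End699.ext Ξ b *
        (osc t (Real.log (nm b)) * w (Real.log (nm b) - k)) else 0) =
        (∑ d ∈ dvs m, (muE d : ℂ) * (if d ∣ b then (1 : ℂ) else 0)) * (End699.ext Ξ b *
        (osc t (Real.log (nm b)) * w (Real.log (nm b) - k))) := by
        rw [Finset.sum_mul]
        refine Finset.sum_congr rfl fun d _ => ?_
        split_ifs <;> ring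
      rw [e2, h']
      simp only [End699.ext, if_pos hb]
      split_ifs <;> ring
    · simp [End699.ext, hb]
  unfold PS
  rw [tsum_congr e1, Summable.tsum_finsetSum]
  · refine Finset.sum_congr rfl fun d hd => ?_
    rw [tsum_mul_left, tsum_dvd hΞ (Div277.isPrim_of_mem_dvs hd)]
    rfl
  · intro d _
    refine Summable.mul_left _ ?_
    obtain ⟨N, hN⟩ := PS_support hw k
    refine summable_of_ne_finset_zero (s := primBall N) fun b hb => ?_
    by_cases hp : IsPrim b
    · by_cases h0 : w (Real.log (nm b) - k) = 0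
      · rw [h0]; simp
      · exact absurd (hN b hp h0) hb
    · simp [End699.ext, hp]

open Classical in
/-- norm form -/
theorem norm_PS_cop_le {w : ℝ → ℂ} (hw : HasCompactSupport w) {Ξ : Eis → ℂ} (hΞ : IsChar Ξ) {m : Eis}
    (hm : m ≠ 0) (k t : ℝ) :
    ‖PS w (fun b => if IsCoprime b m then Ξ b else 0) k t‖ ≤
      ∑ d ∈ (dvs m).filter Squarefree, ‖PS w Ξ (k - Real.log (nm d)) t‖ := by
  rw [PS_cop hw hΞ hm, Finset.sum_filter]
  refine (norm_sum_le _ _).trans (Finset.sum_le_sum fun d hd => ?_)
  rw [norm_mul, norm_mul, norm_mul, norm_osc, mul_one]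
  have h1 : ‖(muE d : ℂ)‖ = if Squarefree d then 1 else 0 := by
    rw [Complex.norm_intCast]
    have := abs_muE d
    have h2 : ((|muE d| : ℤ) : ℝ) = ((if Squarefree d then (1 : ℤ) else 0 : ℤ) : ℝ) := by rw [this]
    rw [← Int.cast_abs, h2]
    split_ifs <;> simp
  rw [h1]
  have h3 := hΞ.norm_le (Div277.isPrim_of_mem_dvs hd)
  split_ifs
  · rw [one_mul]
    exact mul_le_of_le_one_left (norm_nonneg _) h3
  · simp

end Crest.Agent.R017.FE47
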