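import Crest.Agent.R017.TxDefs_939
import Crest.Agent.R017.FE10_47
import Crest.Agent.R012.Div_277

/-!
# Row 17: the smooth sums at a principal member of the family (helper791)

`PS_one_asymp` : `nm^{-it}`-normalised smooth sum over all primary elements,
`main + O((1+|t|)^3)`, uniformly in the scale.
`P_asymp` : the same for the principal members `k` of the family.
`Df_le` : **cube bound** for the differences of two shapes.
-/

set_option autoImplicit false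

noncomputable section

open Complex MeasureTheory Filter Topology
open scoped SchwartzMap ContDiff

namespace Crest.Agent.R017.TXC791

open Crest.Agent.R012 Crest.Agent.R012.Eis Crest.Agent.R012.Po581 Crest.Agent.R012.Gauss880
open Crest.Agent.R012.Weight600 (osc norm_osc)
open Crest.Agent.R012.PSer47 (IsChar)
open Crest.Agent.R017.End699 Crest.Agent.R017.FE47 Crest.Agent.R017.Two939
open Crest.Agent.R017.Sup271 (NPm)

/-- the constant `2/(√3 · 9)` -/
def c0 : ℝ := 2 / (Real.sqrt 3 * nm (3 : Eis))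

lemma c0_nonneg : 0 ≤ c0 := by unfold c0; positivity

/-- the main value -/
def mv (w : ℝ → ℂ) (t : ℝ) : ℂ := (c0 : ℂ) * fC (gt w 0 t) 0

lemma mv_le {w : ℝ → ℂ} (h1 : ContDiff ℝ ∞ w) (h2 : HasCompactSupport w) :
    ∃ C : ℝ, 0 ≤ C ∧ ∀ t : ℝ, ‖mv w t‖ ≤ C := by
  obtain ⟨C, hC, hb⟩ := fC_tws_decay 0 _ (ad_gf h1 h2 0)
  refine ⟨c0 * C, mul_nonneg c0_nonneg hC, fun t => ?_⟩
  have := hb t 0
  simp only [pow_zero, one_mul, mul_one] at this
  unfold mv gt
  rw [norm_mul, Complex.norm_real, Real.norm_of_nonneg c0_nonneg]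
  exact mul_le_mul_of_nonneg_left this c0_nonneg

lemma one_eq_XK : (fun _ : Eis => (1 : ℂ)) = XK (fun _ => 1) (fun _ => 1) 0 := by
  funext b; simp [XK, ang]

lemma three_ne : (3 : Eis) ≠ 0 := three_ne_zero'

/-- primary elements as a residue class -/
lemma tsum_prim (F : Eis → ℂ) :
    ∑' x : Eis, End699.ext (fun _ => 1) x * F x = ∑' y : Eis, F (1 + 3 * y) := by
  have hinj : Function.Injective (fun y : Eis => 1 + 3 * y) := by
    intro a b h
    have h1 : (3 : Eis) * a = 3 * b := add_left_cancel h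
    exact mul_left_cancel₀ three_ne h1
  have hsup : Function.support (fun x : Eis => End699.ext (fun _ => (1 : ℂ)) x * F x) ⊆
      Set.range (fun y : Eis => 1 + 3 * y) := by
    intro x hx
    by_cases h : IsPrim x
    · obtain ⟨y, hy⟩ := h
      exact ⟨y, by simp only; rw [← hy]; ring⟩
    · exfalso; apply hx; simp [End699.ext, h]
  rw [← hinj.tsum_eq hsup]
  refine tsum_congr fun y => ?_
  have : IsPrim (1 + 3 * y) := ⟨y, by ring⟩
  simp [End699.ext, this]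

lemma norm_dl3 (k : Eis) : ‖dl k / toC 3‖ = ‖toC k‖ / (3 * Real.sqrt 3) := by
  unfold dl
  rw [norm_div, norm_div, norm_iS3]
  have : ‖toC (3 : Eis)‖ = 3 := by
    rw [map_ofNat]; simp
  rw [this, div_div, mul_comm]

lemma sum_pow3 : ∃ B : ℝ, 0 ≤ B ∧ ∀ (g : Eis → ℂ) (a : ℝ), 0 ≤ a → g 0 = 0 →
    (∀ k, k ≠ 0 → ‖g k‖ ≤ a / ‖toC k‖ ^ 3) → Summable g ∧ ‖∑' k, g k‖ ≤ B * a := by
  have hs := summable_eis_pow3
  refine ⟨8 * ∑' x : Eis, 1 / (1 + ‖toC x‖) ^ 3, by positivity, fun g a ha h0 h => ?_⟩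
  have hb : ∀ k, ‖g k‖ ≤ 8 * a * (1 / (1 + ‖toC k‖) ^ 3) := by
    intro k
    by_cases hk : k = 0
    · subst hk
      rw [h0, norm_zero]
      positivity
    · refine (h k hk).trans ?_
      have h1 : 1 ≤ ‖toC k‖ := by
        have h2 : (1 : ℝ) ≤ nm k := by
          have := nm_pos.mpr hk
          exact_mod_cast this
        rw [← norm_toC_sq] at h2
        nlinarith [norm_nonneg (toC k)]
      rw [div_le_iff₀ (by positivity)]
      have h3 : (1 + ‖toC k‖) ^ 3 ≤ 8 * ‖toC k‖ ^ 3 := by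
        calc (1 + ‖toC k‖) ^ 3 ≤ (‖toC k‖ + ‖toC k‖) ^ 3 := by gcongr
          _ = _ := by ring
      calc a = a * (8 * ‖toC k‖ ^ 3) / (8 * ‖toC k‖ ^ 3) := by
            field_simp
        _ ≤ a * (8 * ‖toC k‖ ^ 3) / (1 + ‖toC k‖) ^ 3 := by gcongr
        _ = _ := by ring
  have hsum : Summable fun k : Eis => 8 * a * (1 / (1 + ‖toC k‖) ^ 3) := hs.mul_left _
  refine ⟨Summable.of_norm_bounded hsum hb, ?_⟩
  refine (tsum_of_norm_bounded hsum.hasSum hb).trans (le_of_eq ?_)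
  rw [tsum_mul_left]; ring

/-- **asymptotics of the smooth sum over all primary elements** -/
theorem PS_one_asymp {w : ℝ → ℂ} (hw1 : ContDiff ℝ ∞ w) (hw2 : HasCompactSupport w) :
    ∃ C : ℝ, 0 ≤ C ∧ ∀ κ t : ℝ,
      ‖osc t (-κ) * PS w (fun _ => 1) κ t - (Real.exp κ : ℂ) * mv w t‖ ≤ C * (1 + |t|) ^ 3 := by
  obtain ⟨R, hR0, hR⟩ := exists_R hw2
  obtain ⟨C3, hC3, h3⟩ := fC_tws_decay 3 _ (ad_gf hw1 hw2 0)
  obtain ⟨Cm, hCm, hm⟩ := mv_le hw1 hw2
  obtain ⟨B, hB, hsum⟩ := sum_pow3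
  set D := (3 * Real.sqrt 3) ^ 3 with hD
  have hD0 : 0 ≤ D := by positivity
  refine ⟨Cm + c0 * (B * (C3 * D * Real.exp (R / 2))), by
    have := c0_nonneg; positivity, fun κ t => ?_⟩
  have hT : 1 ≤ (1 + |t|) ^ 3 := one_le_pow₀ (by linarith [abs_nonneg t])
  have hc0 := c0_nonneg
  rcases lt_or_ge κ (-R) with hκ | hκ
  · -- empty sum
    have h0 : PS w (fun _ => 1) κ t = 0 := by
      unfold PS
      refine (tsum_congr fun b => ?_).trans tsum_zero
      by_cases hb : IsPrim b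
      · have h1 := log_nm_nonneg hb
        have h3 : w (Real.log (nm b) - κ) = 0 := by
          by_contra h0
          have := hR _ h0
          rw [abs_le] at this
          linarith [this.2]
        simp [h3]
      · simp [End699.ext, hb]
    rw [h0, mul_zero, zero_sub, norm_neg, norm_mul, Complex.norm_real,
      Real.norm_of_nonneg (Real.exp_pos κ).le]
    have he : Real.exp κ ≤ 1 := Real.exp_le_one_iff.mpr (by linarith)
    have h5 : 0 ≤ c0 * (B * (C3 * D * Real.exp (R / 2))) := by positivity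
    calc Real.exp κ * ‖mv w t‖ ≤ 1 * Cm := by
          gcongr
          exact hm t
      _ ≤ (Cm + c0 * (B * (C3 * D * Real.exp (R / 2)))) * 1 := by linarith
      _ ≤ _ := by gcongr
  · set X := Real.exp κ with hX
    have hX0 : 0 < X := Real.exp_pos κ
    have had : Ad (gt w 0 t) := (ad_gf hw1 hw2 0).tws t
    have hS := had.scale hX0
    have e1 : PS w (fun _ => 1) κ t = osc t κ * ((c0 : ℂ) *
        ∑' k : Eis, fC (fX (gt w 0 t) X) (dl k / toC 3) * eC (dl k / toC 3 * toC 1)) := by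
      rw [one_eq_XK, PS_eq_tsum]
      congr 1
      have h1 := poisson_class hS.toS three_ne (1 : Eis)
      rw [Ad.coe_toS] at h1
      rw [← hX]
      simp only [mul_one]
      rw [tsum_prim (fun x => fX (gt w 0 t) X (toC x))]
      exact h1
    have e2 : osc t (-κ) * osc t κ = 1 := by
      rw [← Weight600.osc_add_right]; simp [osc]
    set g : Eis → ℂ := fun k => if k = 0 then 0 else
      fC (fX (gt w 0 t) X) (dl k / toC 3) * eC (dl k / toC 3 * toC 1) with hg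
    have hgb : ∀ k, k ≠ 0 → ‖g k‖ ≤ (C3 * D * Real.exp (R / 2) * (1 + |t|) ^ 3) / ‖toC k‖ ^ 3 := by
      intro k hk
      have hk0 : 0 < ‖toC k‖ := norm_pos_iff.mpr (Po581.toC_ne_zero hk)
      rw [hg]
      simp only [if_neg hk]
      rw [norm_mul, eC_norm, mul_one, fC_fX _ hX0, norm_mul, Complex.norm_real,
        Real.norm_of_nonneg hX0.le]
      have h4 := h3 t ((Real.sqrt X : ℝ) * (dl k / toC 3))
      have hsX : 0 < Real.sqrt X := Real.sqrt_pos.mpr hX0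
      have h5 : ‖((Real.sqrt X : ℝ) : ℂ) * (dl k / toC 3)‖ =
          Real.sqrt X * (‖toC k‖ / (3 * Real.sqrt 3)) := by
        rw [norm_mul, Complex.norm_real, Real.norm_of_nonneg hsX.le, norm_dl3]
      rw [h5] at h4
      have h3' : 0 < Real.sqrt 3 := Real.sqrt_pos.mpr (by norm_num)
      rw [le_div_iff₀ (by positivity)]
      have h6 : X = Real.sqrt X * Real.sqrt X := (Real.mul_self_sqrt hX0.le).symm
      have h7 : (Real.sqrt X)⁻¹ ≤ Real.exp (R / 2) := by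
        have : Real.sqrt X = Real.exp (κ / 2) := by
          rw [hX, show κ = κ / 2 + κ / 2 by ring, Real.exp_add, Real.sqrt_mul_self (Real.exp_pos _).le]
          ring_nf
        rw [this, ← Real.exp_neg]
        exact Real.exp_le_exp.mpr (by linarith)
      set F := ‖fC (gt w 0 t) (((Real.sqrt X : ℝ) : ℂ) * (dl k / toC 3))‖ with hF
      have hF0 : 0 ≤ F := norm_nonneg _
      have h8 : (Real.sqrt X * (‖toC k‖ / (3 * Real.sqrt 3))) ^ 3 * F ≤ C3 * (1 + |t|) ^ 3 := h4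
      have h9 : X * F * ‖toC k‖ ^ 3 = (Real.sqrt X)⁻¹ * D *
          ((Real.sqrt X * (‖toC k‖ / (3 * Real.sqrt 3))) ^ 3 * F) := by
        rw [hD]
        nth_rewrite 1 [h6]
        field_simp
      rw [h9]
      calc (Real.sqrt X)⁻¹ * D * ((Real.sqrt X * (‖toC k‖ / (3 * Real.sqrt 3))) ^ 3 * F)
          ≤ Real.exp (R / 2) * D * (C3 * (1 + |t|) ^ 3) := by gcongr
        _ = _ := by ring
    obtain ⟨hgs, hgn⟩ := hsum g (C3 * D * Real.exp (R / 2) * (1 + |t|) ^ 3) (by positivity)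
      (by rw [hg]; simp) hgb
    have hful : ∑' k : Eis, fC (fX (gt w 0 t) X) (dl k / toC 3) * eC (dl k / toC 3 * toC 1) =
        (X : ℂ) * fC (gt w 0 t) 0 + ∑' k, g k := by
      have hsf : Summable fun k : Eis =>
          fC (fX (gt w 0 t) X) (dl k / toC 3) * eC (dl k / toC 3 * toC 1) := by
        have h1 := (hasSum_ite_eq (0 : Eis) (fC (fX (gt w 0 t) X) (dl 0 / toC 3) *
          eC (dl 0 / toC 3 * toC 1))).summable.add hgs
        refine h1.congr fun k => ?_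
        rw [hg]
        by_cases hk : k = 0
        · subst hk; simp
        · simp [hk]
      rw [hsf.tsum_eq_add_tsum_ite 0]
      congr 1
      rw [fC_fX _ hX0]
      have : dl 0 = 0 := by unfold dl; simp
      simp [this]
    rw [e1, hful, ← mul_assoc, e2, one_mul]
    have e3 : (c0 : ℂ) * ((X : ℂ) * fC (gt w 0 t) 0 + ∑' k, g k) - (X : ℂ) * mv w t =
        (c0 : ℂ) * ∑' k, g k := by unfold mv; ring
    rw [e3, norm_mul, Complex.norm_real, Real.norm_of_nonneg hc0]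
    calc c0 * ‖∑' k, g k‖ ≤ c0 * (B * (C3 * D * Real.exp (R / 2) * (1 + |t|) ^ 3)) := by gcongr
      _ = (c0 * (B * (C3 * D * Real.exp (R / 2)))) * (1 + |t|) ^ 3 := by ring
      _ ≤ _ := by
          gcongr
          linarith

/-! ### principal members -/

lemma isChar_one : IsChar (fun _ : Eis => (1 : ℂ)) where
  one := rfl
  mul _ _ _ _ := by simp
  norm _ _ := Or.inr (by simp)

lemma nine_ne : (9 : Eis) ≠ 0 := by
  have : (9 : Eis) = 3 * 3 := by norm_num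
  rw [this]
  exact mul_ne_zero three_ne three_ne

open Classical in
/-- at a principal member the smooth sum runs over the elements prime to `9 M k` -/
lemma P_principal (h : ℝ → ℝ) {M : Eis} {χ : Eis → ℂ} (hχ : HC M χ) {l : ℤ} {k : Eis} (hk : k ≠ 0)
    (hp : ¬ NPm M χ l k) (Y t : ℝ) :
    P h χ l k Y t = PS (cx h) (fun b => if IsCoprime b (M * (9 * k)) then 1 else 0)
      (Real.log Y) t := by
  unfold NPm NP at hp
  push Not at hp
  obtain ⟨hl, hb⟩ := hp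
  subst hl
  unfold P
  refine PS_congr (fun b hbp => ?_) _ _
  have hc := Sup271.HC.mul_sy hχ hk
  have e1 : XK χ (sy k) 0 b = χ b * sy k b := by simp [XK, ang]
  rw [e1]
  split_ifs with h1
  · exact hb b hbp h1
  · exact hc.van b hbp h1

/-- the size parameter of a member -/
def sk (M k : Eis) : ℝ := (nm M : ℝ) * nm k

lemma one_le_sk {M k : Eis} (hM : M ≠ 0) (hk : k ≠ 0) : 1 ≤ sk M k := by
  unfold sk
  have h1 : (1 : ℝ) ≤ nm M := by
    have := nm_pos.mpr hM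
    exact_mod_cast this
  have h2 : (1 : ℝ) ≤ nm k := by
    have := nm_pos.mpr hk
    exact_mod_cast this
  exact one_le_mul_of_one_le_of_one_le h1 h2

lemma tau_sk {ε : ℝ} (hε : 0 < ε) : ∃ C : ℝ, 1 ≤ C ∧ ∀ M k : Eis, M ≠ 0 → k ≠ 0 →
    (Div277.tau (M * (9 * k)) : ℝ) ≤ C * (sk M k) ^ ε := by
  obtain ⟨C, hC, hb⟩ := Div277.tau_le_rpow hε
  refine ⟨C * (81 : ℝ) ^ ε, one_le_mul_of_one_le_of_one_le hC
    (Real.one_le_rpow (by norm_num) hε.le), fun M k hM hk => ?_⟩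
  refine (hb _ (mul_ne_zero hM (mul_ne_zero nine_ne hk))).trans ?_
  have h9 : nm (9 : Eis) = 81 := by
    have h3 : (9 : Eis) = 3 * 3 := by norm_num
    have h4 : nm (3 : Eis) = 9 := by decide
    rw [h3, nm_mul, h4]
  have h0 : (0 : ℝ) ≤ sk M k := by unfold sk; positivity
  have e1 : ((nm (M * (9 * k)) : ℕ) : ℝ) = 81 * sk M k := by
    rw [nm_mul, nm_mul, h9]
    unfold sk
    push_cast
    ring
  rw [e1, Real.mul_rpow (by norm_num) h0]
  exact le_of_eq (by ring)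

/-- **asymptotics of the smooth sum at its own scale, principal member** -/
theorem Po_asymp {h : ℝ → ℝ} {c : ℝ} (hpu : PU h c) {ε : ℝ} (hε : 0 < ε) :
    ∃ C : ℝ, 1 ≤ C ∧ ∀ (M : Eis) (χ : Eis → ℂ), HC M χ → ∀ (l : ℤ) (k : Eis), k ≠ 0 →
      ¬ NPm M χ l k → ∃ γ : ℂ, ‖γ‖ ≤ C * (sk M k) ^ ε ∧ ∀ Y t : ℝ, 0 < Y →
        ‖Po h χ l k Y t - γ * (Y : ℂ) * mv (cx h) t‖ ≤ C * (sk M k) ^ ε * (1 + |t|) ^ 3 := by
  classical
  obtain ⟨C1, hC1, h1⟩ := PS_one_asymp (cd_cx hpu.cd) (cs_cx hpu.cs)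
  obtain ⟨C2, hC2, h2⟩ := tau_sk hε
  refine ⟨C2 * (1 + C1), one_le_mul_of_one_le_of_one_le hC2 (by linarith), ?_⟩
  intro M χ hχ l k hk hp
  have hm : M * (9 * k) ≠ 0 := mul_ne_zero hχ.q0 (mul_ne_zero nine_ne hk)
  have hsk : 0 ≤ (sk M k) ^ ε := Real.rpow_nonneg (by unfold sk; positivity) _
  have htau := h2 M k hχ.q0 hk
  have hmu : ∀ d : Eis, ‖(muE d : ℂ)‖ ≤ 1 := by
    intro d
    rw [Complex.norm_intCast]
    have := abs_muE_le d
    exact_mod_cast this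
  refine ⟨∑ d ∈ Div277.dvs (M * (9 * k)), (muE d : ℂ) * ((nm d : ℝ)⁻¹ : ℝ), ?_, ?_⟩
  · calc ‖∑ d ∈ Div277.dvs (M * (9 * k)), (muE d : ℂ) * ((nm d : ℝ)⁻¹ : ℝ)‖
        ≤ ∑ d ∈ Div277.dvs (M * (9 * k)), ‖(muE d : ℂ) * ((nm d : ℝ)⁻¹ : ℝ)‖ := norm_sum_le _ _
      _ ≤ ∑ d ∈ Div277.dvs (M * (9 * k)), (1 : ℝ) := by
          refine Finset.sum_le_sum fun d hd => ?_
          have hd1 := one_le_nm (Div277.isPrim_of_mem_dvs hd)
          rw [norm_mul, Complex.norm_real, Real.norm_of_nonneg (by positivity)]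
          calc ‖(muE d : ℂ)‖ * (nm d : ℝ)⁻¹ ≤ 1 * 1 := by
                gcongr
                · exact hmu d
                · exact inv_le_one_of_one_le₀ hd1
            _ = 1 := by ring
      _ = Div277.tau (M * (9 * k)) := by
          rw [Finset.sum_const, nsmul_eq_mul, mul_one]; rfl
      _ ≤ C2 * (sk M k) ^ ε := htau
      _ ≤ C2 * (1 + C1) * (sk M k) ^ ε := by
          gcongr
          nlinarith
  · intro Y t hY
    have e1 : Po h χ l k Y t = ∑ d ∈ Div277.dvs (M * (9 * k)), (muE d : ℂ) *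
        (osc t (-(Real.log Y - Real.log (nm d))) * PS (cx h) (fun _ => 1)
          (Real.log Y - Real.log (nm d)) t) := by
      unfold Po
      rw [P_principal h hχ hk hp, PS_cop (cs_cx hpu.cs) isChar_one hm, Finset.mul_sum]
      refine Finset.sum_congr rfl fun d hd => ?_
      have e2 : osc t (-(Real.log Y - Real.log (nm d))) =
          osc t (-Real.log Y) * osc t (Real.log (nm d)) := by
        rw [← Weight600.osc_add_right]; congr 1; ring
      rw [e2]; ring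
    have e3 : (∑ d ∈ Div277.dvs (M * (9 * k)), (muE d : ℂ) * ((nm d : ℝ)⁻¹ : ℝ)) * (Y : ℂ) *
        mv (cx h) t = ∑ d ∈ Div277.dvs (M * (9 * k)), (muE d : ℂ) *
        ((Real.exp (Real.log Y - Real.log (nm d)) : ℂ) * mv (cx h) t) := by
      rw [Finset.sum_mul, Finset.sum_mul]
      refine Finset.sum_congr rfl fun d hd => ?_
      have hd1 := one_le_nm (Div277.isPrim_of_mem_dvs hd)
      have e4 : Real.exp (Real.log Y - Real.log (nm d)) = Y * (nm d : ℝ)⁻¹ := by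
        rw [Real.exp_sub, Real.exp_log hY, Real.exp_log (by linarith)]
        rfl
      rw [e4]
      push_cast
      ring
    rw [e1, e3, ← Finset.sum_sub_distrib]
    calc ‖∑ d ∈ Div277.dvs (M * (9 * k)), ((muE d : ℂ) *
          (osc t (-(Real.log Y - Real.log (nm d))) * PS (cx h) (fun _ => 1)
          (Real.log Y - Real.log (nm d)) t) - (muE d : ℂ) *
          ((Real.exp (Real.log Y - Real.log (nm d)) : ℂ) * mv (cx h) t))‖
        ≤ ∑ d ∈ Div277.dvs (M * (9 * k)), C1 * (1 + |t|) ^ 3 := by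
          refine (norm_sum_le _ _).trans (Finset.sum_le_sum fun d hd => ?_)
          rw [← mul_sub, norm_mul]
          have h5 := h1 (Real.log Y - Real.log (nm d)) t
          calc ‖(muE d : ℂ)‖ * ‖osc t (-(Real.log Y - Real.log (nm d))) *
                PS (cx h) (fun _ => 1) (Real.log Y - Real.log (nm d)) t -
                (Real.exp (Real.log Y - Real.log (nm d)) : ℂ) * mv (cx h) t‖
              ≤ 1 * (C1 * (1 + |t|) ^ 3) := by
                gcongr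
                exact hmu d
            _ = _ := one_mul _
      _ = Div277.tau (M * (9 * k)) * (C1 * (1 + |t|) ^ 3) := by
          rw [Finset.sum_const, nsmul_eq_mul]; rfl
      _ ≤ C2 * (sk M k) ^ ε * (C1 * (1 + |t|) ^ 3) := by gcongr
      _ ≤ C2 * (sk M k) ^ ε * ((1 + C1) * (1 + |t|) ^ 3) := by
          gcongr
          linarith
      _ = _ := by ring

/-- **cube bound** : the difference of two shapes at a principal member -/
theorem Df_le {h : ℝ → ℝ} {c : ℝ} (hpu : PU h c) {ε : ℝ} (hε : 0 < ε) :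
    ∃ C : ℝ, 1 ≤ C ∧ ∀ (M : Eis) (χ : Eis → ℂ), HC M χ → ∀ (l : ℤ) (k : Eis), k ≠ 0 →
      ¬ NPm M χ l k → ∀ Y1 Y2 Z1 Z2 t1 t2 : ℝ, 0 < Y1 → 0 < Y2 → 0 < Z1 → 0 < Z2 →
        Y1 * Y2 = Z1 * Z2 → ‖Df h χ l k Y1 Y2 Z1 Z2 t1 t2‖ ≤
          C * (sk M k) ^ ε * ((1 + |t1|) * (1 + |t2|)) ^ 3 * min (Y1 * Y2) (Y1 + Y2 + Z1 + Z2) := by
  obtain ⟨C1, hC1, h1⟩ := Po_asymp hpu (ε := ε / 2) (by positivity)
  obtain ⟨C2, hC2, h2⟩ := mv_le (cd_cx hpu.cd) (cs_cx hpu.cs)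
  obtain ⟨C3, hC3, h3⟩ := norm_P_le hpu
  obtain ⟨z, hz0, hz1, hz⟩ := P_zero hpu
  refine ⟨2 * C3 ^ 2 + (C1 ^ 2 * C2 + 2 * C1 ^ 2 / z), ?_, ?_⟩
  · have : 1 ≤ 2 * C1 ^ 2 / z := by
      rw [one_le_div hz0]
      nlinarith
    have h4 : 0 ≤ C1 ^ 2 * C2 := by positivity
    have h5 : 0 ≤ 2 * C3 ^ 2 := by positivity
    linarith
  intro M χ hχ l k hk hp Y1 Y2 Z1 Z2 t1 t2 hY1 hY2 hZ1 hZ2 hN
  obtain ⟨γ, hγ, hP⟩ := h1 M χ hχ l k hk hp
  set X := sk M k with hX
  have hX1 : 1 ≤ X := one_le_sk hχ.q0 hk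
  have hX0 : 0 ≤ X := by linarith
  set E := X ^ (ε / 2) with hE
  have hE1 : 1 ≤ E := Real.one_le_rpow hX1 (by positivity)
  have hE0 : 0 ≤ E := by linarith
  have hEE : E * E = X ^ ε := by
    rw [hE, ← Real.rpow_add (by linarith)]; congr 1; ring
  set T1 := (1 + |t1|) ^ 3 with hT1
  set T2 := (1 + |t2|) ^ 3 with hT2
  have hT11 : 1 ≤ T1 := one_le_pow₀ (by linarith [abs_nonneg t1])
  have hT21 : 1 ≤ T2 := one_le_pow₀ (by linarith [abs_nonneg t2])
  have hTT : ((1 + |t1|) * (1 + |t2|)) ^ 3 = T1 * T2 := by rw [mul_pow]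
  rw [hTT, ← hEE]
  set S := Y1 + Y2 + Z1 + Z2 with hS
  have hS0 : 0 < S := by positivity
  -- the trivial bound
  have htriv : ‖Df h χ l k Y1 Y2 Z1 Z2 t1 t2‖ ≤ 2 * C3 ^ 2 * (Y1 * Y2) := by
    have q1 := h3 M χ hχ l k Y1 t1 hY1
    have q2 := h3 M χ hχ l k Y2 t2 hY2
    have q3 := h3 M χ hχ l k Z1 t1 hZ1
    have q4 := h3 M χ hχ l k Z2 t2 hZ2
    unfold Df
    refine (norm_sub_le _ _).trans ?_
    rw [norm_mul, norm_mul, norm_Po, norm_Po, norm_Po, norm_Po]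
    calc ‖P h χ l k Y1 t1‖ * ‖P h χ l k Y2 t2‖ + ‖P h χ l k Z1 t1‖ * ‖P h χ l k Z2 t2‖
        ≤ (C3 * Y1) * (C3 * Y2) + (C3 * Z1) * (C3 * Z2) := by gcongr
      _ = C3 ^ 2 * (Y1 * Y2) + C3 ^ 2 * (Z1 * Z2) := by ring
      _ = _ := by rw [← hN]; ring
  have hmain : ‖Df h χ l k Y1 Y2 Z1 Z2 t1 t2‖ ≤
      (C1 ^ 2 * C2 + 2 * C1 ^ 2 / z) * (E * E * (T1 * T2) * S) := by
    rcases lt_or_ge S z with hSz | hSz
    · have q1 : P h χ l k Y1 t1 = 0 := hz χ l k Y1 t1 hY1 (by rw [hS] at hSz; linarith)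
      have q3 : P h χ l k Z1 t1 = 0 := hz χ l k Z1 t1 hZ1 (by rw [hS] at hSz; linarith)
      have : Df h χ l k Y1 Y2 Z1 Z2 t1 t2 = 0 := by
        unfold Df Po
        rw [q1, q3]; ring
      rw [this, norm_zero]
      positivity
    · -- expansion
      set m1 := mv (cx h) t1 with hm1
      set m2 := mv (cx h) t2 with hm2
      have k1 := h2 t1
      have k2 := h2 t2
      rw [← hm1] at k1
      rw [← hm2] at k2
      set a1 := Po h χ l k Y1 t1 - γ * (Y1 : ℂ) * m1 with ha1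
      set a2 := Po h χ l k Y2 t2 - γ * (Y2 : ℂ) * m2 with ha2
      set b1 := Po h χ l k Z1 t1 - γ * (Z1 : ℂ) * m1 with hb1
      set b2 := Po h χ l k Z2 t2 - γ * (Z2 : ℂ) * m2 with hb2
      have i1 : ‖a1‖ ≤ C1 * E * T1 := hP Y1 t1 hY1
      have i2 : ‖a2‖ ≤ C1 * E * T2 := hP Y2 t2 hY2
      have i3 : ‖b1‖ ≤ C1 * E * T1 := hP Z1 t1 hZ1
      have i4 : ‖b2‖ ≤ C1 * E * T2 := hP Z2 t2 hZ2
      have hNc : (Y1 : ℂ) * Y2 = (Z1 : ℂ) * Z2 := by exact_mod_cast hN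
      have e1 : Df h χ l k Y1 Y2 Z1 Z2 t1 t2 =
          (γ * Y1 * m1 * a2 + γ * Y2 * m2 * a1 + a1 * a2) -
            (γ * Z1 * m1 * b2 + γ * Z2 * m2 * b1 + b1 * b2) := by
        have p1 : Po h χ l k Y1 t1 = γ * (Y1 : ℂ) * m1 + a1 := by rw [ha1]; ring
        have p2 : Po h χ l k Y2 t2 = γ * (Y2 : ℂ) * m2 + a2 := by rw [ha2]; ring
        have p3 : Po h χ l k Z1 t1 = γ * (Z1 : ℂ) * m1 + b1 := by rw [hb1]; ring
        have p4 : Po h χ l k Z2 t2 = γ * (Z2 : ℂ) * m2 + b2 := by rw [hb2]; ring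
        unfold Df
        rw [p1, p2, p3, p4]
        linear_combination (γ ^ 2 * m1 * m2) * hNc
      have tri : ∀ (U V : ℝ) (x1 x2 : ℂ), 0 < U → 0 < V → ‖x1‖ ≤ C1 * E * T1 →
          ‖x2‖ ≤ C1 * E * T2 → ‖γ * (U : ℂ) * m1 * x2 + γ * (V : ℂ) * m2 * x1 + x1 * x2‖ ≤
          (E * E * (T1 * T2)) * (C1 ^ 2 * C2 * (U + V) + C1 ^ 2) := by
        intro U V x1 x2 hU hV hx1 hx2
        refine (norm_add_le _ _).trans ?_
        have j1 : ‖γ * (U : ℂ) * m1 * x2 + γ * (V : ℂ) * m2 * x1‖ ≤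
            (C1 * E) * U * C2 * (C1 * E * T2) + (C1 * E) * V * C2 * (C1 * E * T1) := by
          refine (norm_add_le _ _).trans ?_
          rw [norm_mul, norm_mul, norm_mul, norm_mul, norm_mul, norm_mul, Complex.norm_real,
            Complex.norm_real, Real.norm_of_nonneg hU.le, Real.norm_of_nonneg hV.le]
          gcongr
        have j2 : ‖x1 * x2‖ ≤ (C1 * E * T1) * (C1 * E * T2) := by
          rw [norm_mul]; gcongr
        have j3 : T2 ≤ T1 * T2 := le_mul_of_one_le_left (by linarith) hT11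
        have j4 : T1 ≤ T1 * T2 := le_mul_of_one_le_right (by linarith) hT21
        calc _ ≤ ((C1 * E) * U * C2 * (C1 * E * T2) + (C1 * E) * V * C2 * (C1 * E * T1)) +
              (C1 * E * T1) * (C1 * E * T2) := add_le_add j1 j2
          _ ≤ ((C1 * E) * U * C2 * (C1 * E * (T1 * T2)) + (C1 * E) * V * C2 * (C1 * E * (T1 * T2)))
              + (C1 * E * T1) * (C1 * E * T2) := by gcongr
          _ = _ := by ring
      rw [e1]
      refine (norm_sub_le _ _).trans ?_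
      have s1 := tri Y1 Y2 a1 a2 hY1 hY2 i1 i2
      have s2 := tri Z1 Z2 b1 b2 hZ1 hZ2 i3 i4
      have s3 : (1 : ℝ) ≤ S / z := by rw [one_le_div hz0]; exact hSz
      calc _ ≤ (E * E * (T1 * T2)) * (C1 ^ 2 * C2 * (Y1 + Y2) + C1 ^ 2) +
            (E * E * (T1 * T2)) * (C1 ^ 2 * C2 * (Z1 + Z2) + C1 ^ 2) := add_le_add s1 s2
        _ = (E * E * (T1 * T2)) * (C1 ^ 2 * C2 * S + 2 * C1 ^ 2 * 1) := by rw [hS]; ring
        _ ≤ (E * E * (T1 * T2)) * (C1 ^ 2 * C2 * S + 2 * C1 ^ 2 * (S / z)) := by gcongr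
        _ = _ := by ring
  have hF : 1 ≤ E * E * (T1 * T2) := one_le_mul_of_one_le_of_one_le
    (one_le_mul_of_one_le_of_one_le hE1 hE1) (one_le_mul_of_one_le_of_one_le hT11 hT21)
  rw [mul_min_of_nonneg _ _ (by positivity)]
  refine le_min ?_ ?_
  · calc ‖Df h χ l k Y1 Y2 Z1 Z2 t1 t2‖ ≤ 2 * C3 ^ 2 * (Y1 * Y2) := htriv
      _ ≤ (2 * C3 ^ 2 + (C1 ^ 2 * C2 + 2 * C1 ^ 2 / z)) * (Y1 * Y2) := by
          gcongr
          have : 0 ≤ C1 ^ 2 * C2 + 2 * C1 ^ 2 / z := by positivity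
          linarith
      _ = (2 * C3 ^ 2 + (C1 ^ 2 * C2 + 2 * C1 ^ 2 / z)) * 1 * (Y1 * Y2) := by ring
      _ ≤ (2 * C3 ^ 2 + (C1 ^ 2 * C2 + 2 * C1 ^ 2 / z)) * (E * E * (T1 * T2)) * (Y1 * Y2) := by
          gcongr
      _ = _ := by ring
  · calc ‖Df h χ l k Y1 Y2 Z1 Z2 t1 t2‖ ≤ _ := hmain
      _ ≤ (2 * C3 ^ 2 + (C1 ^ 2 * C2 + 2 * C1 ^ 2 / z)) * (E * E * (T1 * T2) * S) := by
          refine mul_le_mul_of_nonneg_right ?_ (by positivity)
          have : 0 ≤ 2 * C3 ^ 2 := by positivity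
          linarith
      _ = _ := by ring

end Crest.Agent.R017.TXC791
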