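import Crest.Agent.R017.E2u_440
import Crest.Agent.R017.TXC1_791

/-!
# Row 17, T.7 / `E2` with the compensated weight: the direct side (helper502)

`fl_cmp` : `‖fL (fA (GF (Fh F h)) A) (toC d)‖ ≤ C S A^(1/3) (nm d)⁻¹ min 1 ((e^h nm d / A)^(1/3))`
-/

set_option autoImplicit false
set_option linter.unusedVariables false
set_option linter.unusedSectionVars false

noncomputable section

open Complex MeasureTheory
open scoped ComplexConjugate ContDiff

namespace Crest.Agent.R017.FlC502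

open Crest.Agent.R012 Crest.Agent.R012.Eis
open Crest.Agent.R012.Weight600 (osc norm_osc)
open Crest.Agent.R017.F1
open Crest.Agent.R017.X6C180 (Sg fA WF V1 cM n13 IX dl' om' GF)
open Crest.Agent.R017.X6545 (TF Bd)
open Crest.Agent.R017.X6W180 (TF1 tf1_tf)
open Crest.Agent.R017.E1c146 (kernel_of_bounds bR)
open Crest.Agent.R017.FE47 (PS)
open Crest.Agent.R017.TXC791 (PS_one_asymp mv)
open Crest.Agent.R017.E2440

/-- the cut-off -/
def wc (u : ℝ) : ℂ := (((bR 1 zero_le_one) u : ℝ) : ℂ)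

lemma wc_cd : ContDiff ℝ ∞ wc :=
  Complex.ofRealCLM.contDiff.comp (bR 1 zero_le_one).contDiff

lemma wc_cs : HasCompactSupport wc :=
  (bR 1 zero_le_one).hasCompactSupport.comp_left (g := fun x : ℝ => (x : ℂ)) (by simp)

lemma wc_one {u : ℝ} (hu : |u| ≤ 1) : wc u = 1 := by
  unfold wc
  rw [(bR 1 zero_le_one).one_of_mem_closedBall, Complex.ofReal_one]
  rw [mem_closedBall_zero_iff, Real.norm_eq_abs]
  show |u| ≤ 1 + 1 / 2
  linarith

lemma wc_zero {u : ℝ} (hu : 2 < |u|) : wc u = 0 := by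
  unfold wc
  rw [(bR 1 zero_le_one).zero_of_le_dist, Complex.ofReal_zero]
  rw [dist_zero_right, Real.norm_eq_abs]
  show 1 + 1 ≤ |u|
  linarith

/-- the separated form of `F (3 ·)` -/
lemma sep3 : ∃ D : ℝ, 0 ≤ D ∧ ∀ (F : ℝ → ℂ) (S : ℝ), TF1 F → Bd F 5 S → ∃ kk : ℝ → ℂ,
    Continuous kk ∧ Integrable kk ∧ (∀ t, ‖kk t‖ * (1 + |t|) ^ 5 ≤ D * S) ∧
    ∀ u, F (3 * u) = wc u * ∫ t, kk t * osc t u := by
  obtain ⟨D, hD, h⟩ := kernel_of_bounds 2 (by norm_num) 5
  refine ⟨D * 3 ^ 5, by positivity, fun F S hF hB => ?_⟩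
  have hS : 0 ≤ S := (norm_nonneg _).trans (hB 0 (Nat.zero_le _) 0)
  obtain ⟨kk, hk1, hk2, hk3, hk4⟩ := h (fun n u => (3 : ℂ) ^ n * iteratedDeriv n F (3 * u))
    (3 ^ 5 * S) (by positivity) (fun n u => by
      have h1 : Differentiable ℝ (iteratedDeriv n F) :=
        hF.smooth.differentiable_iteratedDeriv n (by exact_mod_cast WithTop.coe_lt_top _)
      have h2 : HasDerivAt (iteratedDeriv n F) (iteratedDeriv (n + 1) F (3 * u)) (3 * u) := by
        rw [iteratedDeriv_succ]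
        exact (h1 (3 * u)).hasDerivAt
      have h3 : HasDerivAt (fun u : ℝ => 3 * u) 3 u := by
        simpa using (hasDerivAt_id u).const_mul 3
      have h4 := (HasDerivAt.scomp u h2 h3).const_mul ((3 : ℂ) ^ n)
      have e : (3 : ℂ) ^ (n + 1) * iteratedDeriv (n + 1) F (3 * u) =
          (3 : ℂ) ^ n * (3 : ℝ) • iteratedDeriv (n + 1) F (3 * u) := by
        rw [pow_succ, Complex.real_smul]
        push_cast
        ring
      rw [e]
      exact h4) (fun n hn u _ => by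
      rw [norm_mul, norm_pow]
      have h5 : ‖(3 : ℂ)‖ = 3 := by norm_num
      rw [h5]
      have h6 : (3 : ℝ) ^ n ≤ 3 ^ 5 := pow_le_pow_right₀ (by norm_num) hn
      exact mul_le_mul h6 (hB n hn _) (norm_nonneg _) (by positivity))
  refine ⟨kk, hk1, hk2, fun t => (hk3 t).trans (le_of_eq (by ring)), fun u => ?_⟩
  rcases le_or_gt |u| 2 with h2 | h2
  · rw [← hk4 u h2]
    simp only [pow_zero, one_mul, iteratedDeriv_zero]
    rcases le_or_gt |u| 1 with h1 | h1
    · rw [wc_one h1, one_mul]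
    · have : F (3 * u) = 0 := by
        apply hF.supp
        rw [abs_mul, abs_of_pos (by norm_num : (0 : ℝ) < 3)]
        linarith
      rw [this, mul_zero]
  · rw [wc_zero h2, zero_mul]
    apply hF.supp
    rw [abs_mul, abs_of_pos (by norm_num : (0 : ℝ) < 3)]
    linarith

open Classical in
/-- the smooth sum over the primary elements -/
def NF (F : ℝ → ℂ) (κ : ℝ) : ℂ := ∑' e : Eis, if IsPrim e then F (3 * (Real.log (nm e) - κ)) else 0

lemma wc_nm {κ : ℝ} {e : Eis} (he : IsPrim e) (hn : e ∉ primBall ⌊Real.exp (κ + 2)⌋₊) :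
    wc (Real.log (nm e) - κ) = 0 := by
  apply wc_zero
  have h1 : ¬ nm e ≤ ⌊Real.exp (κ + 2)⌋₊ := fun h => hn (mem_primBall.mpr ⟨h, he⟩)
  have h2 : Real.exp (κ + 2) < nm e := by
    by_contra h
    exact h1 (Nat.le_floor (not_lt.mp h))
  have h3 : κ + 2 < Real.log (nm e) := by
    rwa [Real.lt_log_iff_exp_lt (lt_of_lt_of_le (Real.exp_pos _) h2.le)]
  have h4 : 2 < Real.log (nm e) - κ := by linarith
  rw [abs_of_pos (by linarith)]
  exact h4

/-- the smooth sum as an integral of the twisted smooth sums -/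
lemma NF_eq {F : ℝ → ℂ} {kk : ℝ → ℂ} (hk : Integrable kk)
    (hF : ∀ u, F (3 * u) = wc u * ∫ t, kk t * osc t u) (κ : ℝ) :
    (Integrable fun t => kk t * (osc t (-κ) * PS wc (fun _ => 1) κ t)) ∧
    NF F κ = ∫ t, kk t * (osc t (-κ) * PS wc (fun _ => 1) κ t) := by
  classical
  set E0 := primBall ⌊Real.exp (κ + 2)⌋₊ with hE0
  have hint : ∀ u : ℝ, Integrable fun t => kk t * osc t u := fun u =>
    hk.mul_bdd (c := 1) (Weight600.continuous_osc_left u).aestronglyMeasurable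
      (Filter.Eventually.of_forall fun t => (norm_osc _ _).le)
  have e1 : ∀ t, kk t * (osc t (-κ) * PS wc (fun _ => 1) κ t) =
      ∑ e ∈ E0, wc (Real.log (nm e) - κ) * (kk t * osc t (Real.log (nm e) - κ)) := by
    intro t
    unfold FE47.PS
    rw [tsum_eq_sum (s := E0), Finset.mul_sum, Finset.mul_sum]
    · refine Finset.sum_congr rfl fun e he => ?_
      have h1 : IsPrim e := (mem_primBall.mp he).2
      have h2 : End699.ext (fun _ => (1 : ℂ)) e = 1 := if_pos h1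
      rw [h2, sub_eq_add_neg, Weight600.osc_add_right]
      ring
    · intro e he
      by_cases h1 : IsPrim e
      · rw [wc_nm h1 he, mul_zero, mul_zero]
      · have h2 : End699.ext (fun _ => (1 : ℂ)) e = 0 := if_neg h1
        rw [h2, zero_mul]
  have e2 : NF F κ = ∑ e ∈ E0, wc (Real.log (nm e) - κ) *
      ∫ t, kk t * osc t (Real.log (nm e) - κ) := by
    unfold NF
    rw [tsum_eq_sum (s := E0)]
    · refine Finset.sum_congr rfl fun e he => ?_
      rw [if_pos (mem_primBall.mp he).2, hF]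
    · intro e he
      by_cases h1 : IsPrim e
      · rw [if_pos h1, hF, wc_nm h1 he, zero_mul]
      · rw [if_neg h1]
  constructor
  · simp_rw [e1]
    exact integrable_finsetSum _ fun e _ => (hint _).const_mul _
  · simp_rw [e1]
    rw [integral_finsetSum _ fun e _ => (hint _).const_mul _, e2]
    refine Finset.sum_congr rfl fun e _ => ?_
    rw [integral_const_mul]

/-- **the compensated smooth sum** -/
theorem NF_cmp : ∃ C : ℝ, 0 ≤ C ∧ ∀ (F : ℝ → ℂ) (S : ℝ), TF1 F → Bd F 5 S → ∀ h κ : ℝ, 0 ≤ h →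
    ‖NF F κ - (Real.exp (h / 3) : ℝ) * NF F (κ - h / 3)‖ ≤ C * S * Real.exp (h / 3) := by
  obtain ⟨D, hD, hsep⟩ := sep3
  obtain ⟨C1, hC1, h1⟩ := PS_one_asymp wc_cd wc_cs
  refine ⟨2 * D * C1 * c2, by have := c2_nonneg; positivity, fun F S hF hB h κ hh => ?_⟩
  have hS : 0 ≤ S := (norm_nonneg _).trans (hB 0 (Nat.zero_le _) 0)
  obtain ⟨kk, hk1, hk2, hk3, hk4⟩ := hsep F S hF hB
  obtain ⟨i1, e1⟩ := NF_eq hk2 hk4 κ
  obtain ⟨i2, e2⟩ := NF_eq hk2 hk4 (κ - h / 3)
  have hE1 : 1 ≤ Real.exp (h / 3) := Real.one_le_exp (by positivity)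
  rw [e1, e2, ← integral_const_mul, ← integral_sub i1 (i2.const_mul _)]
  have hpt : ∀ t, ‖kk t * (osc t (-κ) * PS wc (fun _ => 1) κ t) -
      ((Real.exp (h / 3) : ℝ) : ℂ) * (kk t * (osc t (-(κ - h / 3)) *
        PS wc (fun _ => 1) (κ - h / 3) t))‖ ≤
      (2 * D * C1 * S * Real.exp (h / 3)) * ((1 + |t|) ^ 2)⁻¹ := by
    intro t
    have ht := abs_nonneg t
    set a := osc t (-κ) * PS wc (fun _ => 1) κ t with ha
    set b := osc t (-(κ - h / 3)) * PS wc (fun _ => 1) (κ - h / 3) t with hb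
    have a1 := h1 κ t
    have a2 := h1 (κ - h / 3) t
    rw [← ha] at a1
    rw [← hb] at a2
    have e3 : kk t * a - ((Real.exp (h / 3) : ℝ) : ℂ) * (kk t * b) =
        kk t * ((a - (Real.exp κ : ℂ) * mv wc t) -
          ((Real.exp (h / 3) : ℝ) : ℂ) * (b - (Real.exp (κ - h / 3) : ℂ) * mv wc t)) := by
      have e4 : (Real.exp κ : ℂ) = ((Real.exp (h / 3) : ℝ) : ℂ) * (Real.exp (κ - h / 3) : ℂ) := by
        rw [← Complex.ofReal_mul, ← Real.exp_add]
        congr 2
        ring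
      rw [e4]
      ring
    rw [e3, norm_mul]
    have e5 : ‖(a - (Real.exp κ : ℂ) * mv wc t) -
        ((Real.exp (h / 3) : ℝ) : ℂ) * (b - (Real.exp (κ - h / 3) : ℂ) * mv wc t)‖ ≤
        2 * C1 * Real.exp (h / 3) * (1 + |t|) ^ 3 := by
      refine (norm_sub_le _ _).trans ?_
      rw [norm_mul, Complex.norm_real, Real.norm_of_nonneg (Real.exp_pos _).le]
      have b1 : C1 * (1 + |t|) ^ 3 ≤ C1 * (1 + |t|) ^ 3 * Real.exp (h / 3) :=
        le_mul_of_one_le_right (by positivity) hE1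
      have b2 := mul_le_mul_of_nonneg_left a2 (Real.exp_pos (h / 3)).le
      linarith
    calc ‖kk t‖ * _ ≤ ‖kk t‖ * (2 * C1 * Real.exp (h / 3) * (1 + |t|) ^ 3) :=
          mul_le_mul_of_nonneg_left e5 (norm_nonneg _)
      _ = 2 * C1 * Real.exp (h / 3) * (‖kk t‖ * (1 + |t|) ^ 5) * ((1 + |t|) ^ 2)⁻¹ := by
          have : (1 + |t|) ≠ 0 := by positivity
          field_simp
      _ ≤ 2 * C1 * Real.exp (h / 3) * (D * S) * ((1 + |t|) ^ 2)⁻¹ := by
          refine mul_le_mul_of_nonneg_right ?_ (by positivity)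
          exact mul_le_mul_of_nonneg_left (hk3 t) (by positivity)
      _ = _ := by ring
  refine (norm_integral_le_of_norm_le (integrable_inv2.const_mul _)
    (Filter.Eventually.of_forall hpt)).trans (le_of_eq ?_)
  rw [integral_const_mul]
  unfold E2440.c2
  ring

/-- the functional `fL` of the weight as a smooth sum -/
lemma fL_NF {F : ℝ → ℂ} (hF : TF1 F) {A : ℝ} (hA : 0 < A) {d : Eis} (hd : IsPrim d) :
    fL (fA (GF F) A) (toC d) = (((nm d : ℝ) ^ (-(2 / 3) : ℝ) : ℝ) : ℂ) *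
      NF F ((Real.log A - Real.log (nm d)) / 3) := by
  classical
  rw [fL_fA_eq hF hA hd]
  unfold NF
  rw [← tsum_mul_left]
  refine tsum_congr fun e => ?_
  by_cases he : IsPrim e
  · rw [if_pos he, if_pos he]
    have hNd : (0 : ℝ) < nm d := by have := one_le_nm hd.ne_zero; linarith
    have hNe : (0 : ℝ) < nm e := by have := one_le_nm he.ne_zero; linarith
    congr 1
    unfold X6C180.GF
    rw [if_pos (by positivity), Real.log_div (by positivity) hA.ne',
      Real.log_mul (by positivity) hNd.ne', Real.log_pow]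
    congr 1
    push_cast
    ring
  · rw [if_neg he, if_neg he, mul_zero]

/-- the weight of the direct side -/
def thd (H y : ℝ) : ℝ := min 1 ((H * y) ^ ((1 : ℝ) / 3))

lemma thd_nonneg {H y : ℝ} (hH : 0 ≤ H) (hy : 0 ≤ y) : 0 ≤ thd H y := by
  unfold thd
  exact le_min zero_le_one (Real.rpow_nonneg (mul_nonneg hH hy) _)

lemma thd_le_one (H y : ℝ) : thd H y ≤ 1 := min_le_left _ _

lemma thd_mono {H y y' : ℝ} (hH : 0 ≤ H) (hy : 0 ≤ y) (h : y ≤ y') : thd H y ≤ thd H y' := by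
  unfold thd
  exact min_le_min le_rfl (Real.rpow_le_rpow (mul_nonneg hH hy)
    (mul_le_mul_of_nonneg_left h hH) (by norm_num))

/-- **the direct kernel of the compensated weight** -/
theorem fl_cmp : ∃ C : ℝ, 0 ≤ C ∧ ∀ (F : ℝ → ℂ) (S : ℝ), TF1 F → Bd F 5 S → ∀ h : ℝ, 0 ≤ h →
    ∀ A : ℝ, 0 < A → ∀ d : Eis, IsPrim d →
    ‖fL (fA (GF (Fh F h)) A) (toC d)‖ ≤
      C * S * A ^ ((1 : ℝ) / 3) * (nm d : ℝ)⁻¹ * thd (Real.exp h) (nm d / A) := by
  obtain ⟨C1, hC1, h1⟩ := NF_cmp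
  refine ⟨C1 + 1000, by positivity, fun F S hF hB h hh A hA d hd => ?_⟩
  have hS : 0 ≤ S := (norm_nonneg _).trans (hB 0 (Nat.zero_le _) 0)
  have hSb : ∀ y, ‖F y‖ ≤ S := fun y => by
    have := hB 0 (Nat.zero_le _) y
    rwa [iteratedDeriv_zero] at this
  have hNd : (0 : ℝ) < nm d := by have := one_le_nm hd.ne_zero; linarith
  have hTF := tf1_tf hF
  have hGw := X6C180.wt_GF hTF
  have hA' : 0 < A * Real.exp (-h) := by positivity
  have hE3 : 0 < Real.exp (h / 3) := Real.exp_pos _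
  have ev1 : Ev (fA (GF F) A) := X6C180.ev_fA hGw hA
  have ev2 : Ev (fA (GF F) (A * Real.exp (-h))) := X6C180.ev_fA hGw hA'
  have e0 : fL (fA (GF (Fh F h)) A) (toC d) = fL (fA (GF F) A) (toC d) +
      (-((Real.exp (h / 3) : ℝ) : ℂ)) * fL (fA (GF F) (A * Real.exp (-h))) (toC d) := by
    rw [GF_Fh, fA_G2 F h hA, fL_add ev1 (ev2.const_mul _), fL_const_mul]
  -- the trivial bound
  have b1 : ‖fL (fA (GF (Fh F h)) A) (toC d)‖ ≤ 1000 * S * A ^ ((1 : ℝ) / 3) * (nm d : ℝ)⁻¹ := by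
    rw [e0]
    obtain ⟨a1, a2⟩ := fL_fA_le hF hS hSb hA hd
    obtain ⟨b1, b2⟩ := fL_fA_le hF hS hSb hA' hd
    refine (norm_add_le _ _).trans ?_
    rw [norm_mul, norm_neg, Complex.norm_real, Real.norm_of_nonneg hE3.le]
    have c1 : Real.exp (h / 3) * ‖fL (fA (GF F) (A * Real.exp (-h))) (toC d)‖ ≤
        500 * S * A ^ ((1 : ℝ) / 3) * (nm d : ℝ)⁻¹ := by
      calc _ ≤ Real.exp (h / 3) * (500 * S * (A * Real.exp (-h)) ^ ((1 : ℝ) / 3) *
            (nm d : ℝ)⁻¹) := mul_le_mul_of_nonneg_left b1 hE3.le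
        _ = 500 * S * (Real.exp (h / 3) * (A * Real.exp (-h)) ^ ((1 : ℝ) / 3)) *
            (nm d : ℝ)⁻¹ := by ring
        _ = _ := by rw [exp_scale hA h]
    linarith
  -- the compensated bound
  have b2 : ‖fL (fA (GF (Fh F h)) A) (toC d)‖ ≤
      C1 * S * A ^ ((1 : ℝ) / 3) * (nm d : ℝ)⁻¹ * (Real.exp h * (nm d / A)) ^ ((1 : ℝ) / 3) := by
    have e1 : fL (fA (GF (Fh F h)) A) (toC d) = (((nm d : ℝ) ^ (-(2 / 3) : ℝ) : ℝ) : ℂ) *
        (NF F ((Real.log A - Real.log (nm d)) / 3) -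
          (Real.exp (h / 3) : ℝ) * NF F ((Real.log A - Real.log (nm d)) / 3 - h / 3)) := by
      rw [e0, fL_NF hF hA hd, fL_NF hF hA' hd, Real.log_mul hA.ne' (Real.exp_pos _).ne',
        Real.log_exp]
      have e2 : (Real.log A + -h - Real.log (nm d)) / 3 =
          (Real.log A - Real.log (nm d)) / 3 - h / 3 := by ring
      rw [e2]
      ring
    rw [e1, norm_mul, Complex.norm_real, Real.norm_of_nonneg (by positivity)]
    have e3 : A ^ ((1 : ℝ) / 3) * (nm d : ℝ)⁻¹ * (Real.exp h * (nm d / A)) ^ ((1 : ℝ) / 3) =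
        (nm d : ℝ) ^ (-(2 / 3) : ℝ) * Real.exp (h / 3) := by
      rw [Real.mul_rpow (Real.exp_pos _).le (by positivity), Real.div_rpow hNd.le hA.le,
        ← Real.exp_mul]
      have e4 : A ^ ((1 : ℝ) / 3) ≠ 0 := by positivity
      have e5 : (nm d : ℝ)⁻¹ * (nm d : ℝ) ^ ((1 : ℝ) / 3) = (nm d : ℝ) ^ (-(2 / 3) : ℝ) := by
        rw [← Real.rpow_neg_one, ← Real.rpow_add hNd]
        norm_num
      have e6 : h * (1 / 3) = h / 3 := by ring
      rw [e6, ← e5]
      field_simp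
    calc (nm d : ℝ) ^ (-(2 / 3) : ℝ) * _ ≤ (nm d : ℝ) ^ (-(2 / 3) : ℝ) *
          (C1 * S * Real.exp (h / 3)) := by
          refine mul_le_mul_of_nonneg_left ?_ (by positivity)
          exact h1 F S hF hB h _ hh
      _ = C1 * S * ((nm d : ℝ) ^ (-(2 / 3) : ℝ) * Real.exp (h / 3)) := by ring
      _ = C1 * S * (A ^ ((1 : ℝ) / 3) * (nm d : ℝ)⁻¹ *
          (Real.exp h * (nm d / A)) ^ ((1 : ℝ) / 3)) := by rw [e3]
      _ = _ := by ring
  unfold thd
  rcases le_total 1 ((Real.exp h * (nm d / A)) ^ ((1 : ℝ) / 3)) with h5 | h5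
  · rw [min_eq_left h5, mul_one]
    refine b1.trans ?_
    refine mul_le_mul_of_nonneg_right (mul_le_mul_of_nonneg_right
      (mul_le_mul_of_nonneg_right (by linarith) hS) (by positivity)) (by positivity)
  · rw [min_eq_right h5]
    refine b2.trans ?_
    refine mul_le_mul_of_nonneg_right ?_ (by positivity)
    refine mul_le_mul_of_nonneg_right (mul_le_mul_of_nonneg_right
      (mul_le_mul_of_nonneg_right (by linarith) hS) (by positivity)) (by positivity)

end Crest.Agent.R017.FlC502
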