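import Crest.Agent.R017.E2zd_440
import Crest.Agent.R017.FlC_502

/-!
# Row 17, block C70, leaf E2, part ze (helper440): the kernel data with the direct gain

* `KDd_GF` : the weight `GF F` (no gain)
* `KDd_cmp` : the compensated weight (502's `fl_cmp`)
-/

set_option autoImplicit false

noncomputable section

open Complex MeasureTheory
open scoped ComplexConjugate

namespace Crest.Agent.R017.E2440

open Crest.Agent.R012 Crest.Agent.R012.Eis
open Crest.Agent.R017.X6C180 (Sg fA IX dl' om' GF)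
open Crest.Agent.R017.X6545 (TF Bd)
open Crest.Agent.R017.X6W180 (TF1 tf1_tf)
open Crest.Agent.R017.FlC502 (thd thd_nonneg thd_mono fl_cmp)

theorem KDd_GF {σ : Eis} (hσ : Sg σ) (J M P : ℕ) : ∃ (k : ℕ) (C : ℝ), 0 ≤ C ∧
    ∀ (F : ℝ → ℂ) (Sf : ℝ), TF1 F → Bd F k Sf →
      KDd σ J M (GF F) (C * Sf) 1 (fun y => min 1 (y ^ P)) (fun _ => 1) (om' σ F) := by
  obtain ⟨k, C, hC, h⟩ := KD_GF hσ J M P
  exact ⟨k, C, hC, fun F Sf hF hB => (h F Sf hF hB).toD⟩

/-- **the compensated weight with the gain on the direct side** -/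
theorem KDd_cmp {σ : Eis} (hσ : Sg σ) (J M P : ℕ) : ∃ (k : ℕ) (C : ℝ), 0 ≤ C ∧
    ∀ (F : ℝ → ℂ) (Sf : ℝ), TF1 F → Bd F k Sf → ∀ h : ℝ, 0 ≤ h →
      KDd σ J M (GF (Fh F h)) (C * Sf) (Real.exp h)
        (fun y => min (y ^ (-(1 / 3) : ℝ)) (min 1 ((y * Real.exp h) ^ P))) (thd (Real.exp h))
        (fun i y => om' σ F i y - om' σ F i (y * Real.exp h)) := by
  obtain ⟨k, C, hC, h1⟩ := KD_cmp hσ J M P
  obtain ⟨C', hC', h2⟩ := fl_cmp
  refine ⟨k + 5, C + C', by positivity, fun F Sf hF hB h hh => ?_⟩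
  have hSf : 0 ≤ Sf := (norm_nonneg _).trans (hB 0 (Nat.zero_le _) 0)
  have hB1 : Bd F k Sf := fun n hn y => hB n (by omega) y
  have hB2 : Bd F 5 Sf := fun n hn y => hB n (by omega) y
  have hc1 : C * Sf ≤ (C + C') * Sf := mul_le_mul_of_nonneg_right (by linarith) hSf
  have hc2 : C' * Sf ≤ (C + C') * Sf := mul_le_mul_of_nonneg_right (by linarith) hSf
  refine ⟨(h1 F Sf hF hB1 h hh).mono hc1, fun y hy => thd_nonneg (Real.exp_pos h).le hy.le,
    fun x y hx hxy => thd_mono (Real.exp_pos h).le hx.le hxy, fun A hA d hd => ?_⟩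
  have hNd : (1 : ℝ) ≤ nm d := one_le_nm hd.ne_zero
  refine (h2 F Sf hF hB2 h hh A hA d hd).trans ?_
  refine mul_le_mul_of_nonneg_right ?_
    (thd_nonneg (Real.exp_pos h).le (by positivity))
  refine mul_le_mul_of_nonneg_right ?_ (by positivity)
  exact mul_le_mul_of_nonneg_right hc2 (by positivity)

end Crest.Agent.R017.E2440
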