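import Crest.Agent.R017.E3s_164
import Crest.Agent.R012.LS2Spec_381

/-!
# Row 17, R8 (E3), part (A) of 548's assembly (helper164)

The truncated structured function (coefficients `T δ e j` arbitrary)

  `SteT J om E0 T k = Σ_{(δ,j) ∈ J} om (δ,j) sy k δ conj (th (j k)) Σ_{e ∈ S E0, e ∣ k} μ(e) T δ e j`

at `k = k₁ q² t³` (`k₁`, `q` squarefree, coprime, `t` primary): `conj (SteT ..) = conj (G k₁) · Fq k₁`,
`Fq k₁ = Σ_{y = (δ,e,c,g)} [g ∣ k₁] [e ∣ k₁ q t] kap_y n6(k') sy c k' conj (sy k' (δ g)) CS be_y k'`,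
`k' = k₁ / g`.
-/

set_option autoImplicit false

noncomputable section

open Finset
open scoped ComplexConjugate

namespace Crest.Agent.R017.E3A164

open Crest.Agent.R012 Crest.Agent.R012.Eis Crest.Agent.R012.Mob705 Crest.Agent.R012.Gauss880
open Crest.Agent.R012.LS2
open Crest.Agent.R017.CM106
open Crest.Agent.R017.PX764 Crest.Agent.R017.C70 Crest.Agent.R017.GrB829 Crest.Agent.R017.GrD829
open Crest.Agent.R017.E3s164

/-! ### decomposition of the frequencies -/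

lemma eq_c {c c' a b : Eis} (hc : IsC c) (hc' : IsC c') (ha : IsPrim a) (hb : IsPrim b)
    (h : c * a = c' * b) : c = c' ∧ a = b := by
  have hab : a = b := by
    refine eq_of_mult ha hb fun p hp => ?_
    rw [← mult_c_mul hc hp ha.ne_zero, ← mult_c_mul hc' hp hb.ne_zero, h]
  subst hab
  exact ⟨mul_right_cancel₀ ha.ne_zero h, rfl⟩

lemma mult_ng {p n g : Eis} (hp : IsPP p) (hn : IsPrim n) (hg : IsPrim g) :
    multiplicity p (n * g ^ 2) = multiplicity p n + 2 * multiplicity p g := by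
  rw [pow_two, mult_mul hp.2 hn.ne_zero (mul_ne_zero hg.ne_zero hg.ne_zero),
    mult_mul hp.2 hg.ne_zero hg.ne_zero]
  omega

lemma eq_ng {n g n' g' : Eis} (hn : IsPrim n) (hns : Squarefree n) (hg : IsPrim g)
    (hn' : IsPrim n') (hns' : Squarefree n') (hg' : IsPrim g')
    (h : n * g ^ 2 = n' * g' ^ 2) : n = n' ∧ g = g' := by
  have key : ∀ p, IsPP p → multiplicity p n = multiplicity p n' ∧
      multiplicity p g = multiplicity p g' := by
    intro p hp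
    have h1 := mult_ng hp hn hg
    have h2 := mult_ng hp hn' hg'
    have h3 := mult_le_one hp hn hns
    have h4 := mult_le_one hp hn' hns'
    rw [h] at h1
    omega
  exact ⟨eq_of_mult hn hn' fun p hp => (key p hp).1, eq_of_mult hg hg' fun p hp => (key p hp).2⟩

lemma cbf_dec {m : Eis} (hm : IsPrim m) (h : CbF m) : ∃ n g : Eis, IsPrim n ∧ Squarefree n ∧
    IsPrim g ∧ Squarefree g ∧ IsCoprime n g ∧ m = n * g ^ 2 := by
  obtain ⟨k1, k2, r, h1, h2, hr, s1, s2, hc, he⟩ := Char766.exists_prim_cubic_decomp hm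
  have hr1 : r = 1 := by
    by_contra hne
    obtain ⟨p, hp, hpr⟩ := exists_pp_dvd_of_isPrim hr hne
    exact h p hp.2 ((pow_dvd_pow_of_dvd hpr 3).trans ⟨k1 * k2 ^ 2, by rw [he]; ring⟩)
  exact ⟨k1, k2, h1, s1, h2, s2, hc, by rw [he, hr1]; ring⟩

/-- the frequency with parameters `q, c, g, n` -/
def fq (q c g n : Eis) : Eis := q * c * n * g ^ 2

lemma fq_inj {q c g n c' g' n' : Eis} (hq : IsPrim q) (hc : IsC c) (hc' : IsC c')
    (hg : IsPrim g) (hn : IsPrim n) (hns : Squarefree n)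
    (hg' : IsPrim g') (hn' : IsPrim n') (hns' : Squarefree n')
    (h : fq q c g n = fq q c' g' n') : c = c' ∧ g = g' ∧ n = n' := by
  unfold fq at h
  have h1 : c * (n * g ^ 2) = c' * (n' * g' ^ 2) := by
    apply mul_left_cancel₀ hq.ne_zero
    linear_combination h
  obtain ⟨h2, h3⟩ := eq_c hc hc' (hn.mul (hg.pow 2)) (hn'.mul (hg'.pow 2)) h1
  obtain ⟨h4, h5⟩ := eq_ng hn hns hg hn' hns' hg' h3
  exact ⟨h2, h5, h4⟩

/-- every `j ∈ JC` divisible by `q` is of the form `fq q c g n` -/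
lemma exists_fq {q j : Eis} (hq : IsPrim q) (hj : JC j) (h : q ∣ j) :
    ∃ c g n : Eis, IsC c ∧ IsPrim g ∧ Squarefree g ∧ IsPrim n ∧ Squarefree n ∧ IsCoprime n g ∧
      j = fq q c g n := by
  obtain ⟨c, hc, j', hj', hcf, rfl⟩ := hj
  have hc' : IsC c := hc
  have h1 : IsCoprime q c := (hc'.lamish.isCoprime hq).symm
  obtain ⟨m, rfl⟩ := h1.dvd_of_dvd_mul_left h
  have hm : IsPrim m := hj'.of_mul_left hq
  have hmc : CbF m := fun p hp hd => hcf p hp (hd.mul_left _)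
  obtain ⟨n, g, h2, h3, h4, h5, h6, rfl⟩ := cbf_dec hm hmc
  exact ⟨c, g, n, hc', h4, h5, h2, h3, h6, by unfold fq; ring⟩

/-- `th (j k) = 0` unless `q ∣ j` -/
lemma th_zero_of_not_dvd {j k₁ q t : Eis} (hj : JC j) (hk₁ : IsPrim k₁) (hs : Squarefree k₁)
    (hq : IsPrim q) (hqs : Squarefree q) (hkq : IsCoprime k₁ q) (ht : IsPrim t)
    (h : ¬ q ∣ j) : th (j * (k₁ * q ^ 2 * t ^ 3)) = 0 := by
  obtain ⟨c, hc, j', hj', hcf, rfl⟩ := hj
  have hc' : IsC c := hc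
  obtain ⟨n, g, h2, h3, h4, h5, h6, rfl⟩ := cbf_dec hj' hcf
  rw [th_drop_cube ht]
  by_contra hne
  have e : c * (n * g ^ 2) * (k₁ * q ^ 2) = c * n * g ^ 2 * (k₁ * q ^ 2) := by ring
  rw [e] at hne
  have := dvd_k2 hc' h2 h4 hk₁ hq hqs hkq hne
  apply h
  exact this.trans ⟨c * g, by ring⟩

/-- `th (j k)` at `j = fq q c g n` -/
lemma th_fq {q c g n k₁ t : Eis} (hq : IsPrim q) (ht : IsPrim t) :
    th (fq q c g n * (k₁ * q ^ 2 * t ^ 3)) = th (c * n * g ^ 2 * k₁) := by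
  rw [th_drop_cube ht]
  unfold fq
  rw [show q * c * n * g ^ 2 * (k₁ * q ^ 2) = (c * n * g ^ 2 * k₁) * q ^ 3 by ring, th_cube hq]

/-! ### definitions -/

open Classical in
/-- the truncated structured function with arbitrary coefficients -/
def SteT (J : Finset (Eis × Eis)) (om : Eis × Eis → ℂ) (E0 : ℝ) (T : Eis → Eis → Eis → ℂ)
    (k : Eis) : ℂ :=
  ∑ x ∈ J, om x * (sy k x.1 * conj (th (x.2 * k)) *
    ∑ e ∈ (S E0).filter (fun e => e ∣ k), (muE e : ℂ) * T x.1 e x.2)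

/-- parameters `y = (δ, e, c, g)` -/
abbrev Yp := Eis × Eis × Eis × Eis

open Classical in
/-- the sequence of `y` -/
def be (J : Finset (Eis × Eis)) (om : Eis × Eis → ℂ) (T : Eis → Eis → Eis → ℂ) (q : Eis) (y : Yp)
    (n : Eis) : ℂ :=
  if IsPrim n ∧ Squarefree n ∧ IsCoprime n y.2.2.2 ∧ (y.1, fq q y.2.2.1 y.2.2.2 n) ∈ J then
    conj (om (y.1, fq q y.2.2.1 y.2.2.2 n)) * (conj (G n) * sy y.2.2.1 n * (n6 n : ℂ)) *
      conj (T y.1 y.2.1 (fq q y.2.2.1 y.2.2.2 n)) else 0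

open Classical in
/-- the coefficient of `y` -/
def kap (q t : Eis) (y : Yp) : ℂ :=
  (muE y.2.1 : ℂ) * (th y.2.2.1 * (G y.2.2.2 * conj (sy y.2.2.2 y.1) * sy q y.1)) *
    (if IsCoprime t y.1 then 1 else 0)

open Classical in
/-- the quotient -/
def qu (k g : Eis) : Eis := if h : g ∣ k then h.choose else 0

lemma qu_mul {g : Eis} (hg : g ≠ 0) (k : Eis) : qu (g * k) g = k := by
  unfold qu
  rw [dif_pos (dvd_mul_right g k)]
  have := (dvd_mul_right g k).choose_spec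
  exact (mul_left_cancel₀ hg this).symm

open Classical in
/-- the summand of `y` -/
def Fy (J : Finset (Eis × Eis)) (om : Eis × Eis → ℂ) (T : Eis → Eis → Eis → ℂ) (q t : Eis)
    (k₁ : Eis) (y : Yp) : ℂ :=
  if y.2.2.2 ∣ k₁ ∧ y.2.1 ∣ k₁ * q * t then
    kap q t y * ((n6 (qu k₁ y.2.2.2) : ℂ) * sy y.2.2.1 (qu k₁ y.2.2.2) *
      conj (sy (qu k₁ y.2.2.2) (y.1 * y.2.2.2)) * CS (be J om T q y) (qu k₁ y.2.2.2)) else 0

/-- the constants `c` -/
def Cs : Finset Eis := {1, 3, 3 * w, 3 * w ^ 2}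

lemma mem_Cs {c : Eis} : c ∈ Cs ↔ IsC c := by
  unfold Cs IsC
  simp

open Classical in
/-- the index set -/
def Ys (J : Finset (Eis × Eis)) (E0 R : ℝ) : Finset Yp :=
  (J.image Prod.fst) ×ˢ ((S E0) ×ˢ (Cs ×ˢ (S R)))

/-! ### elementary properties -/

section props

variable {J : Finset (Eis × Eis)} {om : Eis × Eis → ℂ} {T : Eis → Eis → Eis → ℂ} {q : Eis}
  {y : Yp} {n : Eis}

lemma be_ne (h : be J om T q y n ≠ 0) : IsPrim n ∧ Squarefree n ∧ IsCoprime n y.2.2.2 ∧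
    (y.1, fq q y.2.2.1 y.2.2.2 n) ∈ J := by
  classical
  unfold be at h
  by_contra hh
  rw [if_neg hh] at h
  exact h rfl

lemma nm_le_fq {c g : Eis} (hq : q ≠ 0) (hc : c ≠ 0) (hg : g ≠ 0) (n : Eis) :
    nm n ≤ nm (fq q c g n) := by
  have e : fq q c g n = (q * c * g ^ 2) * n := by unfold fq; ring
  rw [e, nm_mul]
  have : 1 ≤ nm (q * c * g ^ 2) := nm_pos.mpr (mul_ne_zero (mul_ne_zero hq hc) (pow_ne_zero 2 hg))
  nlinarith [Nat.zero_le (nm n)]

lemma be_mem_S {R : ℝ} (hR : ∀ x ∈ J, (nm x.2 : ℝ) ≤ R) (hq : q ≠ 0) (hc : y.2.2.1 ≠ 0)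
    (hg : y.2.2.2 ≠ 0) (h : be J om T q y n ≠ 0) : n ∈ S R := by
  obtain ⟨h1, h2, h3, h4⟩ := be_ne h
  have h5 := hR _ h4
  have h6 : (nm n : ℝ) ≤ nm (fq q y.2.2.1 y.2.2.2 n) := by
    exact_mod_cast nm_le_fq hq hc hg n
  have h7 : (nm n : ℝ) ≤ R := h6.trans h5
  exact (mem_S ((Nat.cast_nonneg _).trans h7)).mpr ⟨h7, h1, h2⟩

lemma be_FS {R : ℝ} (hR : ∀ x ∈ J, (nm x.2 : ℝ) ≤ R) (hq : q ≠ 0) (hc : y.2.2.1 ≠ 0)
    (hg : y.2.2.2 ≠ 0) : FS (be J om T q y) where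
  fin := (S R).finite_toSet.subset fun n hn => be_mem_S hR hq hc hg hn
  prim := fun m hm => (be_ne hm).1

lemma CS_be {R : ℝ} (hR : ∀ x ∈ J, (nm x.2 : ℝ) ≤ R) (hq : q ≠ 0) (hc : y.2.2.1 ≠ 0)
    (hg : y.2.2.2 ≠ 0) (k : Eis) :
    CS (be J om T q y) k = ∑ n ∈ S R, be J om T q y n * sy k n := by
  unfold CS
  refine tsum_eq_sum fun n hn => ?_
  by_contra h
  exact hn (be_mem_S hR hq hc hg (left_ne_zero_of_mul h))

end props

lemma norm_th_c {c : Eis} (hc : IsC c) : ‖th c‖ ≤ 1 := by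
  have h := hc.norm_th
  have h1 : (1 : ℝ) ≤ nm c := by exact_mod_cast nm_pos.mpr hc.ne_zero
  have h2 : (nm c : ℝ) ^ (-(1 : ℝ) / 3) ≤ 1 :=
    Real.rpow_le_one_of_one_le_of_nonpos h1 (by norm_num)
  rw [← h] at h2
  exact (sq_le_one_iff₀ (norm_nonneg _)).mp h2

lemma norm_kap_le {q t : Eis} {y : Yp} (hc : IsC y.2.2.1) (hg : IsPrim y.2.2.2)
    (hgs : Squarefree y.2.2.2) (hd : IsPrim y.1) : ‖kap q t y‖ ≤ 1 := by
  classical
  unfold kap
  have h1 : ‖(muE y.2.1 : ℂ)‖ ≤ 1 := by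
    have := abs_muE_le_real y.2.1
    rw [← Complex.ofReal_intCast, Complex.norm_real, Real.norm_eq_abs]
    exact this
  have h2 : ‖G y.2.2.2‖ = 1 := by
    have := G_mul_conj syG hg hgs
    have h3 : ‖G y.2.2.2‖ ^ 2 = 1 := by
      rw [← Complex.normSq_eq_norm_sq, ← Complex.ofReal_inj, ← Complex.mul_conj, this]; simp
    exact (pow_eq_one_iff_of_nonneg (norm_nonneg _) (by norm_num)).mp h3
  have h4 : ‖sy y.2.2.2 y.1‖ ≤ 1 := norm_sy_le' hd
  have h5 : ‖sy q y.1‖ ≤ 1 := norm_sy_le' hd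
  have h6 : ‖(if IsCoprime t y.1 then (1 : ℂ) else 0)‖ ≤ 1 := by split_ifs <;> simp
  rw [norm_mul, norm_mul, norm_mul, norm_mul, norm_mul, h2, RCLike.norm_conj, one_mul]
  have h7 := norm_th_c hc
  have h8 : ‖(muE y.2.1 : ℂ)‖ * (‖th y.2.2.1‖ * (‖sy y.2.2.2 y.1‖ * ‖sy q y.1‖)) *
      ‖(if IsCoprime t y.1 then (1 : ℂ) else 0)‖ ≤ 1 * (1 * (1 * 1)) * 1 := by
    gcongr
  simpa using h8

/-! ### the theorem -/

section main

variable {J : Finset (Eis × Eis)} {om : Eis × Eis → ℂ} {T : Eis → Eis → Eis → ℂ} {q t k₁ : Eis}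

lemma sy_cube_left {a d : Eis} (ha : IsPrim d) :
    sy (a ^ 3) d = open Classical in if IsCoprime a d then 1 else 0 := by
  classical
  have e : sy (a ^ 3) d = sy a d ^ 3 := by
    rw [show a ^ 3 = a * (a * a) by ring, syG.mul_left _ _ _ ha, syG.mul_left _ _ _ ha]; ring
  split_ifs with h
  · rw [e, syG.cube a d ha h]
  · rw [e, (syG.eq_zero a d ha).mpr h]; simp

lemma conj_sy_sq {a d : Eis} (ha : IsPrim d) : conj (sy (a ^ 2) d) = sy a d := by
  have e : sy (a ^ 2) d = sy a d * sy a d := by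
    rw [show a ^ 2 = a * a by ring, syG.mul_left _ _ _ ha]
  rw [e]
  by_cases h : IsCoprime a d
  · have h1 := syG.cube a d ha h
    have h2 : sy a d * conj (sy a d) = 1 := by
      rw [Complex.mul_conj, Complex.normSq_eq_norm_sq, norm_sy_one ha h]; simp
    have h3 : sy a d ≠ 0 := left_ne_zero_of_mul_eq_one h2
    rw [map_mul]
    apply mul_left_cancel₀ (pow_ne_zero 2 h3)
    calc sy a d ^ 2 * (conj (sy a d) * conj (sy a d)) =
        (sy a d * conj (sy a d)) * (sy a d * conj (sy a d)) := by ring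
      _ = 1 := by rw [h2, one_mul]
      _ = sy a d ^ 3 := h1.symm
      _ = _ := by ring
  · rw [(syG.eq_zero a d ha).mpr h]; simp

open Classical in
/-- the symbol `conj (sy k δ)` -/
lemma conj_sy_k {g k' d : Eis} (hd : IsPrim d) (hk₁ : k₁ = g * k') :
    conj (sy (k₁ * q ^ 2 * t ^ 3) d) =
      conj (sy g d) * conj (sy k' d) * sy q d * (if IsCoprime t d then 1 else 0) := by
  rw [hk₁, syG.mul_left _ _ _ hd, syG.mul_left _ _ _ hd, syG.mul_left _ _ _ hd,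
    sy_cube_left hd]
  simp only [map_mul, conj_sy_sq hd]
  congr 1
  split_ifs <;> simp

lemma dvd_iff_sqf {e : Eis} (he : Squarefree e) :
    e ∣ k₁ * q ^ 2 * t ^ 3 ↔ e ∣ k₁ * q * t := by
  constructor
  · intro h
    have h1 : k₁ * q ^ 2 * t ^ 3 ∣ (k₁ * q * t) ^ 3 := ⟨k₁ ^ 2 * q, by ring⟩
    exact (he.dvd_pow_iff_dvd (by norm_num)).mp (h.trans h1)
  · intro h
    exact h.trans ⟨q * t ^ 2, by ring⟩

open Classical in
/-- the summand of `x` -/
def Tx (om : Eis × Eis → ℂ) (E0 : ℝ) (T : Eis → Eis → Eis → ℂ) (k : Eis) (x : Eis × Eis) : ℂ :=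
  conj (om x) * (conj (sy k x.1) * th (x.2 * k) *
    ∑ e ∈ (S E0).filter (fun e => e ∣ k), (muE e : ℂ) * conj (T x.1 e x.2))

lemma conj_SteT (E0 : ℝ) (k : Eis) : conj (SteT J om E0 T k) = ∑ x ∈ J, Tx om E0 T k x := by
  unfold SteT Tx
  rw [map_sum]
  refine sum_congr rfl fun x _ => ?_
  simp only [map_mul, map_sum, Complex.conj_conj, map_intCast]

open Classical in
/-- one pair -/
lemma Tx_fq {E0 : ℝ} {d c g n : Eis} (hd : IsPrim d) (hc : IsC c) (hg : IsPrim g)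
    (hgs : Squarefree g) (hn : IsPrim n) (hns : Squarefree n) (hng : IsCoprime n g)
    (hk₁ : IsPrim k₁) (hs : Squarefree k₁) (hq : IsPrim q) (ht : IsPrim t)
    (hJ : (d, fq q c g n) ∈ J) :
    Tx om E0 T (k₁ * q ^ 2 * t ^ 3) (d, fq q c g n) =
      conj (G k₁) * ∑ e ∈ S E0, if g ∣ k₁ ∧ e ∣ k₁ * q * t then
        kap q t (d, e, c, g) * ((n6 (qu k₁ g) : ℂ) * sy c (qu k₁ g) *
          conj (sy (qu k₁ g) (d * g)) * (be J om T q (d, e, c, g) n * sy (qu k₁ g) n)) else 0 := by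
  unfold Tx
  simp only
  rw [th_fq hq ht]
  by_cases hgk : g ∣ k₁
  · obtain ⟨k', rfl⟩ := hgk
    have hk' : IsPrim k' := hk₁.of_mul_left hg
    have hs' : Squarefree k' := hs.of_mul_right
    have hgk' : IsCoprime g k' := by
      by_contra hh
      obtain ⟨p, hp, h1, h2⟩ := exists_pp hg hh
      exact hp.2.not_isUnit (hs p (mul_dvd_mul h1 h2))
    rw [qu_mul hg.ne_zero]
    have e1 : ∀ e ∈ S E0, (e ∣ g * k' * q ^ 2 * t ^ 3 ↔ e ∣ g * k' * q * t) := fun e he => by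
      have : Squarefree e := by
        unfold S at he
        exact (Finset.mem_filter.mp he).2
      exact dvd_iff_sqf this
    rw [sum_filter, sum_congr rfl (g := fun e => if e ∣ g * k' * q * t then
      (muE e : ℂ) * conj (T d e (fq q c g n)) else 0) (fun e he => by simp only [e1 e he])]
    rw [mul_sum, mul_sum, mul_sum]
    refine sum_congr rfl fun e _ => ?_
    simp only [dvd_mul_right, true_and]
    split_ifs with hek
    · rw [conj_sy_k hd rfl]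
      have hbe : be J om T q (d, e, c, g) n = conj (om (d, fq q c g n)) *
          (conj (G n) * sy c n * (n6 n : ℂ)) * conj (T d e (fq q c g n)) := by
        unfold be
        simp only
        rw [if_pos ⟨hn, hns, hng, hJ⟩]
      rw [hbe]
      by_cases hnk : IsCoprime n (g * k')
      · rw [th_sqf_eq' hc hg hgs hk' hs' hnk.of_mul_right_right hgk', th_c_mul hc hn hns,
          syG.mul_right k' d g hd hg, syG.recip n k' hn hk', syG.recip g k' hg hk']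
        unfold kap Gh
        simp only [map_mul, Complex.conj_conj]
        ring
      · have h1 : th (c * n * g ^ 2 * (g * k')) = 0 := by
          by_contra hne
          exact hnk (th_sqf_ne hc hn hns hg hgs hng hk₁ hs hne).2
        have h2 : sy k' n = 0 := by
          rw [syG.eq_zero k' n hn]
          intro h3
          exact hnk (hng.mul_right h3.symm)
        rw [h1, h2]
        ring
    · simp
  · have h1 : th (c * n * g ^ 2 * k₁) = 0 := by
      by_contra hne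
      exact hgk (th_sqf_ne hc hn hns hg hgs hng hk₁ hs hne).1
    rw [h1]
    simp [hgk]

/-- **part (A)** -/
theorem conj_SteT_eq (hJ : OKJ J) {R : ℝ} (hR : ∀ x ∈ J, (nm x.2 : ℝ) ≤ R) (E0 : ℝ)
    (hk₁ : IsPrim k₁) (hs : Squarefree k₁) (hq : IsPrim q) (hqs : Squarefree q)
    (hkq : IsCoprime k₁ q) (ht : IsPrim t) :
    conj (SteT J om E0 T (k₁ * q ^ 2 * t ^ 3)) =
      conj (G k₁) * ∑ y ∈ Ys J E0 R, Fy J om T q t k₁ y := by
  classical
  rw [conj_SteT]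
  set k := k₁ * q ^ 2 * t ^ 3 with hk
  -- index set of the pairs
  set P : Finset (Eis × Eis × Eis × Eis) :=
    ((J.image Prod.fst) ×ˢ (Cs ×ˢ ((S R) ×ˢ (S R)))).filter
      (fun z => IsCoprime z.2.2.2 z.2.2.1 ∧ (z.1, fq q z.2.1 z.2.2.1 z.2.2.2) ∈ J) with hP
  have hSR : ∀ {a : Eis}, a ∈ S R → IsPrim a ∧ Squarefree a := fun {a} ha => by
    unfold S at ha
    rw [Finset.mem_filter, mem_primBall] at ha
    exact ⟨ha.1.2, ha.2⟩
  have hPm : ∀ z, z ∈ P ↔ (z.1 ∈ J.image Prod.fst ∧ IsC z.2.1 ∧ z.2.2.1 ∈ S R ∧ z.2.2.2 ∈ S R) ∧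
      IsCoprime z.2.2.2 z.2.2.1 ∧ (z.1, fq q z.2.1 z.2.2.1 z.2.2.2) ∈ J := by
    intro z
    rw [hP, mem_filter, mem_product, mem_product, mem_product, mem_Cs]
  -- the left side
  have hL : ∑ x ∈ J, Tx om E0 T k x = ∑ z ∈ P, Tx om E0 T k (z.1, fq q z.2.1 z.2.2.1 z.2.2.2) := by
    have h1 : ∑ x ∈ J, Tx om E0 T k x = ∑ x ∈ J.filter (fun x => q ∣ x.2), Tx om E0 T k x := by
      symm
      refine sum_subset (filter_subset _ _) fun x hx hxn => ?_
      rw [mem_filter, not_and] at hxn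
      have h2 := th_zero_of_not_dvd (hJ.jc x hx) hk₁ hs hq hqs hkq ht (hxn hx)
      unfold Tx
      rw [hk, h2]
      ring
    rw [h1]
    symm
    refine sum_nbij' (i := fun z => (z.1, fq q z.2.1 z.2.2.1 z.2.2.2))
      (j := fun x => if h : IsPrim q ∧ JC x.2 ∧ q ∣ x.2 then
        (x.1, (exists_fq h.1 h.2.1 h.2.2).choose,
          (exists_fq h.1 h.2.1 h.2.2).choose_spec.choose,
          (exists_fq h.1 h.2.1 h.2.2).choose_spec.choose_spec.choose) else 0) ?_ ?_ ?_ ?_ ?_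
    · intro z hz
      rw [hPm] at hz
      rw [mem_filter]
      exact ⟨hz.2.2, ⟨z.2.1 * z.2.2.2 * z.2.2.1 ^ 2, by simp only [fq]; ring⟩⟩
    · intro x hx
      rw [mem_filter] at hx
      have hx' : IsPrim q ∧ JC x.2 ∧ q ∣ x.2 := ⟨hq, hJ.jc x hx.1, hx.2⟩
      simp only [dif_pos hx']
      have hsp := (exists_fq hx'.1 hx'.2.1 hx'.2.2).choose_spec.choose_spec.choose_spec
      set c := (exists_fq hx'.1 hx'.2.1 hx'.2.2).choose
      set g := (exists_fq hx'.1 hx'.2.1 hx'.2.2).choose_spec.choose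
      set n := (exists_fq hx'.1 hx'.2.1 hx'.2.2).choose_spec.choose_spec.choose
      obtain ⟨s1, s2, s3, s4, s5, s6, s7⟩ := hsp
      rw [hPm]
      have hnR : (nm x.2 : ℝ) ≤ R := hR x hx.1
      have hR0 : 0 ≤ R := (Nat.cast_nonneg _).trans hnR
      have hn2 : (nm n : ℝ) ≤ R := by
        refine le_trans ?_ hnR
        rw [s7]
        exact_mod_cast nm_le_fq hq.ne_zero s1.ne_zero s2.ne_zero n
      have hg2 : (nm g : ℝ) ≤ R := by
        refine le_trans ?_ hnR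
        rw [s7]
        have e : fq q c g n = (q * c * n * g) * g := by unfold fq; ring
        rw [e, nm_mul]
        have h8 : 1 ≤ nm (q * c * n * g) := nm_pos.mpr
          (mul_ne_zero (mul_ne_zero (mul_ne_zero hq.ne_zero s1.ne_zero) s4.ne_zero) s2.ne_zero)
        have h9 : nm g ≤ nm (q * c * n * g) * nm g := by nlinarith [Nat.zero_le (nm g)]
        exact_mod_cast h9
      refine ⟨⟨mem_image_of_mem _ hx.1, s1, (mem_S hR0).mpr ⟨hg2, s2, s3⟩,
        (mem_S hR0).mpr ⟨hn2, s4, s5⟩⟩, s6, ?_⟩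
      have : (x.1, fq q c g n) = x := by rw [← s7]
      simp only
      rw [this]
      exact hx.1
    · intro z hz
      rw [hPm] at hz
      obtain ⟨⟨z1, z2, z3, z4⟩, z5, z6⟩ := hz
      have hx' : IsPrim q ∧ JC (fq q z.2.1 z.2.2.1 z.2.2.2) ∧ q ∣ fq q z.2.1 z.2.2.1 z.2.2.2 :=
        ⟨hq, hJ.jc _ z6, ⟨z.2.1 * z.2.2.2 * z.2.2.1 ^ 2, by simp only [fq]; ring⟩⟩
      simp only [dif_pos hx']
      have hsp := (exists_fq hx'.1 hx'.2.1 hx'.2.2).choose_spec.choose_spec.choose_spec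
      obtain ⟨s1, s2, s3, s4, s5, s6, s7⟩ := hsp
      obtain ⟨e1, e2, e3⟩ := fq_inj hq z2 s1 (hSR z3).1 (hSR z4).1 (hSR z4).2 s2 s4 s5 s7
      refine Prod.ext rfl (Prod.ext e1.symm (Prod.ext e2.symm e3.symm))
    · intro x hx
      rw [mem_filter] at hx
      have hx' : IsPrim q ∧ JC x.2 ∧ q ∣ x.2 := ⟨hq, hJ.jc x hx.1, hx.2⟩
      simp only [dif_pos hx']
      have hsp := (exists_fq hx'.1 hx'.2.1 hx'.2.2).choose_spec.choose_spec.choose_spec
      obtain ⟨s1, s2, s3, s4, s5, s6, s7⟩ := hsp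
      exact Prod.ext rfl s7.symm
    · intro z hz
      rfl
  rw [hL]
  -- the right side
  have hRt : ∑ y ∈ Ys J E0 R, Fy J om T q t k₁ y =
      ∑ z ∈ P, ∑ e ∈ S E0, if z.2.2.1 ∣ k₁ ∧ e ∣ k₁ * q * t then
        kap q t (z.1, e, z.2.1, z.2.2.1) * ((n6 (qu k₁ z.2.2.1) : ℂ) * sy z.2.1 (qu k₁ z.2.2.1) *
          conj (sy (qu k₁ z.2.2.1) (z.1 * z.2.2.1)) *
            (be J om T q (z.1, e, z.2.1, z.2.2.1) z.2.2.2 * sy (qu k₁ z.2.2.1) z.2.2.2)) else 0 := by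
    have h1 : ∀ y ∈ Ys J E0 R, Fy J om T q t k₁ y = ∑ n ∈ S R,
        if y.2.2.2 ∣ k₁ ∧ y.2.1 ∣ k₁ * q * t then
        kap q t y * ((n6 (qu k₁ y.2.2.2) : ℂ) * sy y.2.2.1 (qu k₁ y.2.2.2) *
          conj (sy (qu k₁ y.2.2.2) (y.1 * y.2.2.2)) *
            (be J om T q y n * sy (qu k₁ y.2.2.2) n)) else 0 := by
      intro y hy
      unfold Ys at hy
      rw [mem_product, mem_product, mem_product, mem_Cs] at hy
      unfold Fy
      split_ifs with h
      · rw [CS_be hR hq.ne_zero hy.2.2.1.ne_zero (hSR hy.2.2.2).1.ne_zero, mul_sum, mul_sum]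
      · simp
    rw [sum_congr rfl h1]
    unfold Ys
    simp only [sum_product, hP, sum_filter]
    refine sum_congr rfl fun d hd => ?_
    rw [sum_comm]
    refine sum_congr rfl fun c hc => ?_
    rw [sum_comm]
    refine sum_congr rfl fun g hg => ?_
    rw [sum_comm]
    refine sum_congr rfl fun n hn => ?_
    by_cases hz : IsCoprime n g ∧ (d, fq q c g n) ∈ J
    · rw [if_pos hz]
    · rw [if_neg hz]
      refine sum_eq_zero fun e he => ?_
      have h0 : be J om T q (d, e, c, g) n = 0 := by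
        by_contra hne
        obtain ⟨b1, b2, b3, b4⟩ := be_ne hne
        exact hz ⟨b3, b4⟩
      rw [h0]
      simp
  rw [hRt, mul_sum]
  refine sum_congr rfl fun z hz => ?_
  rw [hPm] at hz
  obtain ⟨⟨z1, z2, z3, z4⟩, z5, z6⟩ := hz
  exact Tx_fq (hJ.prim _ z6) z2 (hSR z3).1 (hSR z3).2 (hSR z4).1 (hSR z4).2 z5 hk₁ hs hq ht z6

end main

end Crest.Agent.R017.E3A164
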