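import Crest.Agent.R017.E3Ne_146

/-!
# Row 17, exceptional class, E3 (helper744): the bias lines of the T-half

`k` family, `N` length, `x` share, `ex = max 0 (5/4 N - k)`, `v` level, `vt` top of the own window,
`p` length of the child, `m` what the lumps lost, `y` what the share lost, `s0` shortest length,
`δ` divisor, `b` block of `e`, `l` level of the claim (with the block), `h` exponent of `H`,
`η` exponent of `E1`.  Choice of `H`: `hJ` for `δ ≤ k/6`, `k + δ - 2 v` beyond.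
-/

set_option autoImplicit false
set_option linter.unusedVariables false

noncomputable section

namespace Crest.Agent.R017.E3N146

/-- the frame of the bias lines -/
structure Bf (k N x ex vt p s0 D m y t : ℝ) : Prop where
  k0 : 0 < k
  x0 : 0 ≤ x
  N1 : N ≤ 102 / 125 * k
  adm : (x ≤ k / 320 ∧ (x = 0 ∨ N + x ≤ 4 / 5 * k)) ∨
    (3 / 4 * k ≤ N ∧ x ≤ k / 36 ∧ x + 7 / 10 * N ≤ 199 / 360 * k)
  ex0 : 0 ≤ ex
  ex1 : 5 / 4 * N - k ≤ ex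
  m0 : 0 ≤ m
  y0 : 0 ≤ y
  yx : y ≤ x
  D1 : D ≤ k / 40
  v1 : vt ≤ 2 * N - k + 11 / 5 * x + t
  v2 : vt ≤ 3 / 4 * N + 11 / 5 * x + t
  v3 : vt ≤ 2 * N - k + 11 / 5 * x + D / 2 - 2 * (m - y) + t
  v4 : vt ≤ 3 / 4 * N + 11 / 5 * x + D / 2 - 2 * (m - y) + t
  p1 : p ≤ N + x - m - y + t
  s1 : 17 / 100 * k - m - t ≤ s0
  t0 : 0 ≤ t
  t1 : t ≤ k / 20000

/-- the cases of the bias number (`l` with the block) -/
def BC (p s0 δ b l T : ℝ) : Prop :=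
  T ≤ 5 / 3 * p + 2 / 3 * l - 5 / 3 * (δ + b) ∧
  T ≤ 5 / 3 * p + 2 / 3 * l - 5 / 3 * (δ + b) - (s0 - (δ + b))

theorem bias_b1 {k N x ex vt v p s0 D m y t δ b l T M h : ℝ} (H : Bf k N x ex vt p s0 D m y t)
    (δ0 : 0 ≤ δ) (b0 : 0 ≤ b) (M0 : 0 ≤ M) (M1 : b - k / 64 - t ≤ M) (hv : v ≤ vt)
    (hl : l ≤ v - 2 * δ + b + t) (hT : BC p s0 δ b l T) (h1 : k / 64 - t ≤ h)
    (h2 : 4 / 3 * (p - δ) - k + x - 3 * ex - t ≤ h) :
    2 / 3 * k - h / 3 + T + 4 / 3 * δ + 4 / 3 * b - 2 * M - l / 3 - p / 3 ≤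
      k + p + ex + 10 * t := by
  obtain ⟨k0, x0, N1, adm, ex0, ex1, m0, y0, yx, D1, v1, v2, v3, v4, p1, s1, t0, t1⟩ := H
  obtain ⟨hA, hB⟩ := hT
  rcases adm with ⟨a1, rfl | a2⟩ | ⟨a1, a2, a3⟩ <;>
    rcases le_total (δ + b) s0 with h0 | h0 <;> linarith

theorem bias_b2 {k N x ex vt v p s0 D m y t δ b l T M h : ℝ} (H : Bf k N x ex vt p s0 D m y t)
    (δ0 : k / 6 - t ≤ δ) (b0 : 0 ≤ b) (M0 : 0 ≤ M) (M1 : b - k / 64 - t ≤ M) (hv : v ≤ vt)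
    (hl : l ≤ v - 2 * δ + b + t) (hT : BC p s0 δ b l T) (h1 : k + δ - 2 * v - t ≤ h) :
    2 / 3 * k - h / 3 + T + 4 / 3 * δ + 4 / 3 * b - 2 * M - l / 3 - p / 3 ≤
      k + p + ex + 10 * t := by
  obtain ⟨k0, x0, N1, adm, ex0, ex1, m0, y0, yx, D1, v1, v2, v3, v4, p1, s1, t0, t1⟩ := H
  obtain ⟨hA, hB⟩ := hT
  rcases adm with ⟨a1, rfl | a2⟩ | ⟨a1, a2, a3⟩ <;>
    rcases le_total (δ + b) s0 with h0 | h0 <;> linarith

theorem bias_L {k N x ex vt v p s0 D m y t δ b l T M η : ℝ} (H : Bf k N x ex vt p s0 D m y t)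
    (δ0 : 0 ≤ δ) (b0 : 0 ≤ b) (M0 : 0 ≤ M) (M1 : b - k / 64 - t ≤ M) (hv : v ≤ vt)
    (hl : l ≤ v - 2 * δ + b + t) (hT : BC p s0 δ b l T) (hη : η ≤ k / 22 + t) :
    2 / 3 * vt - k / 3 + 2 * η + v / 2 + T + 2 * δ + b - 2 * M - p / 3 ≤
      k + p + ex + 10 * t := by
  obtain ⟨k0, x0, N1, adm, ex0, ex1, m0, y0, yx, D1, v1, v2, v3, v4, p1, s1, t0, t1⟩ := H
  obtain ⟨hA, hB⟩ := hT
  rcases adm with ⟨a1, rfl | a2⟩ | ⟨a1, a2, a3⟩ <;>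
    rcases le_total (δ + b) s0 with h0 | h0 <;> linarith

theorem bias_S {k N x ex vt v p s0 D m y t δ b l T M η : ℝ} (H : Bf k N x ex vt p s0 D m y t)
    (δ0 : 0 ≤ δ) (b0 : 0 ≤ b) (M0 : 0 ≤ M) (M1 : b - k / 64 - t ≤ M) (hv : v ≤ vt)
    (hl : l ≤ v - 2 * δ + b + t) (hT : BC p s0 δ b l T) (hη : η ≤ k / 22 + t) :
    (v + vt) / 3 + η + T + 2 * δ + b - 2 * M - p / 3 ≤ k + p + ex + 10 * t := by
  obtain ⟨k0, x0, N1, adm, ex0, ex1, m0, y0, yx, D1, v1, v2, v3, v4, p1, s1, t0, t1⟩ := H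
  obtain ⟨hA, hB⟩ := hT
  rcases adm with ⟨a1, rfl | a2⟩ | ⟨a1, a2, a3⟩ <;>
    rcases le_total (δ + b) s0 with h0 | h0 <;> linarith

end Crest.Agent.R017.E3N146
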