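import Crest.Agent.R017.E3Br_744

/-!
# Row 17, exceptional class, E3 (helper744): the lines with the weight `(N e)⁻¹`, `η ≤ k/20`

* `line_Lb`, `line_Sb` : numbers of the lists
* `bias_Lb`, `bias_Sb` : the bias number
-/

set_option autoImplicit false
set_option linter.unusedVariables false

noncomputable section

namespace Crest.Agent.R017.E3N146

theorem line_Lb {k N x ex v vt p t δ b l T M η : ℝ} (H : Tf k N x ex vt p t) (δ0 : 0 ≤ δ)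
    (b0 : 0 ≤ b) (M0 : 0 ≤ M) (M1 : b - k / 64 - t ≤ M) (hv : v ≤ vt)
    (hl : l ≤ v - 2 * δ + b + t)
    (hT : TC (k + ex) b l (p - δ - b) x T) (hη : η ≤ k / 20 + t) :
    2 / 3 * v - k / 3 + 2 * η + T + 2 * δ - M - p / 3 ≤ k + p + ex + 10 * t := by
  obtain ⟨k0, x0, N1, adm, ex0, ex1, v1, v2, p0, p1, t0, t1⟩ := H
  rcases hT with hT | ⟨hF, hC⟩
  · rcases adm with ⟨a1, rfl | a2⟩ | ⟨a1, a2, a3⟩ <;> linarith
  · rcases hF with hF | hF | ⟨hF, hF2⟩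
    · rcases adm with ⟨a1, rfl | a2⟩ | ⟨a1, a2, a3⟩ <;> linarith
    · rcases adm with ⟨a1, rfl | a2⟩ | ⟨a1, a2, a3⟩ <;> linarith
    · rcases adm with ⟨a1, rfl | a2⟩ | ⟨a1, a2, a3⟩ <;> linarith

theorem line_Sb {k N x ex v vt p t δ b l T M η : ℝ} (H : Tf k N x ex vt p t) (δ0 : 0 ≤ δ)
    (b0 : 0 ≤ b) (M0 : 0 ≤ M) (M1 : b - k / 64 - t ≤ M) (hv : v ≤ vt)
    (hl : l ≤ v - 2 * δ + b + t)
    (hT : TC (k + ex) b l (p - δ - b) x T) (hη : η ≤ k / 20 + t) :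
    2 / 3 * v + η + T + 2 * δ - M - p / 3 ≤ k + p + ex + 10 * t := by
  obtain ⟨k0, x0, N1, adm, ex0, ex1, v1, v2, p0, p1, t0, t1⟩ := H
  rcases hT with hT | ⟨hF, hC⟩
  · rcases adm with ⟨a1, rfl | a2⟩ | ⟨a1, a2, a3⟩ <;> linarith
  · rcases hF with hF | hF | ⟨hF, hF2⟩
    · rcases hC with hC | hC
      · rcases adm with ⟨a1, rfl | a2⟩ | ⟨a1, a2, a3⟩ <;> linarith
      · rcases adm with ⟨a1, rfl | a2⟩ | ⟨a1, a2, a3⟩ <;> linarith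
    · rcases hC with hC | hC
      · rcases adm with ⟨a1, rfl | a2⟩ | ⟨a1, a2, a3⟩ <;> linarith
      · rcases adm with ⟨a1, rfl | a2⟩ | ⟨a1, a2, a3⟩ <;> linarith
    · rcases adm with ⟨a1, rfl | a2⟩ | ⟨a1, a2, a3⟩ <;> linarith

theorem bias_Lb {k N x ex vt v p s0 D m y t δ b l T M η : ℝ} (H : Bf k N x ex vt p s0 D m y t)
    (δ0 : 0 ≤ δ) (b0 : 0 ≤ b) (M0 : 0 ≤ M) (M1 : b - k / 64 - t ≤ M) (hv : v ≤ vt)
    (hl : l ≤ v - 2 * δ + b + t) (hT : BC p s0 δ b l T) (hη : η ≤ k / 20 + t) :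
    2 / 3 * v - k / 3 + 2 * η + T + 2 * δ - M - p / 3 ≤ k + p + ex + 10 * t := by
  obtain ⟨k0, x0, N1, adm, ex0, ex1, m0, y0, yx, D1, v1, v2, v3, v4, p1, s1, t0, t1⟩ := H
  obtain ⟨hA, hB⟩ := hT
  rcases adm with ⟨a1, rfl | a2⟩ | ⟨a1, a2, a3⟩ <;>
    rcases le_total (δ + b) s0 with h0 | h0 <;> linarith

theorem bias_Sb {k N x ex vt v p s0 D m y t δ b l T M η : ℝ} (H : Bf k N x ex vt p s0 D m y t)
    (δ0 : 0 ≤ δ) (b0 : 0 ≤ b) (M0 : 0 ≤ M) (M1 : b - k / 64 - t ≤ M) (hv : v ≤ vt)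
    (hl : l ≤ v - 2 * δ + b + t) (hT : BC p s0 δ b l T) (hη : η ≤ k / 20 + t) :
    2 / 3 * v + η + T + 2 * δ - M - p / 3 ≤ k + p + ex + 10 * t := by
  obtain ⟨k0, x0, N1, adm, ex0, ex1, m0, y0, yx, D1, v1, v2, v3, v4, p1, s1, t0, t1⟩ := H
  obtain ⟨hA, hB⟩ := hT
  rcases adm with ⟨a1, rfl | a2⟩ | ⟨a1, a2, a3⟩ <;>
    rcases le_total (δ + b) s0 with h0 | h0 <;> linarith

end Crest.Agent.R017.E3N146
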