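import Crest.Agent.R017.E3Td_829

/-!
# Row 17, R8 (E3), the majorant with a bound depending on the cube part (helper271)

The squarefree majorant `mj B k₁` is used with `B = E1 / N(t)`: the mass of the nonsquarefree `k₁`
has the weight `N(t)⁻²`, so its total is `E1⁻¹`, and the off-diagonal lines lose nothing.

* `sum_hmt`, `mass_qt`, `mass_let`, `diag_majt`, `cut_let` : helper829's theorems with `B = B t`
* **`gram_OPt`** : the cut Gram form with the pairs at `B = E1 / N(t)`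
-/

set_option autoImplicit false

noncomputable section

open scoped ComplexConjugate
open Finset

namespace Crest.Agent.R017.E3B271

open Crest.Agent.R012 Crest.Agent.R012.Eis Crest.Agent.R012.Gauss880
open Crest.Agent.R012.LS2 (S mem_S)
open Crest.Agent.R012.Mob705 (mu IsPP pdiv mem_pdiv cop mem_cop pb mem_pb kap0 kap0_pos)
open Crest.Agent.R012.Div277 (tau)
open Crest.Agent.R017.E1551 (nmpos)
open Crest.Agent.R017.PX764 Crest.Agent.R017.C70 Crest.Agent.R017.GrB829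
open Crest.Agent.R017.GrD829 Crest.Agent.R017.E3s164 Crest.Agent.R017.E3A164
open Crest.Agent.R017.Maj829 (mj mj_sq_le sqf_le_mj mj_sqf)
open Crest.Agent.R017.E3M829
open Crest.Agent.R017.E3F548 (OP one_qt)

/-- the bound of the majorant -/
def Bt (E1 : ℝ) (t : Eis) : ℝ := E1 / nm t

lemma Bt_pos {E1 : ℝ} (h : 0 < E1) {t : Eis} (ht : IsPrim t) : 0 < Bt E1 t :=
  div_pos h (nmpos ht.ne_zero)

lemma Bt_one {E1 : ℝ} {t : Eis} (ht : t ∈ pb E1) : 1 ≤ Bt E1 t := by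
  rw [mem_pb] at ht
  unfold Bt
  rw [le_div_iff₀ (nmpos ht.2.ne_zero), one_mul]
  exact ht.1

open Classical in
/-- **the mass of one pair** -/
theorem sum_hmt {E1 Y : ℝ} (hE1 : 0 < E1) (hY : 0 ≤ Y) {q g e : Eis} (hq : IsPrim q)
    (hg : IsPrim g) (hgs : Squarefree g) (he : e ∈ S e.nm) :
    ∑ t ∈ pb Y, ∑ b ∈ pb Y, ∑ k ∈ pb Y, hm (Bt E1 t) Y q g e t b k ≤
      150 * Y ^ (2 / 3 : ℝ) * (nm q : ℝ) ^ (-(4 : ℝ) / 3) * (1 / nm g) *
        (E1⁻¹ * Hp Y ^ 2 * ((tau e : ℝ) ^ 2 / nm e)) := by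
  set c : ℝ := 150 * Y ^ (2 / 3 : ℝ) * (nm q : ℝ) ^ (-(4 : ℝ) / 3) * (1 / nm g) with hc
  have hc0 : 0 ≤ c := by rw [hc]; positivity
  have hep := (S_pr he).1
  -- sum over k
  have h1 : ∀ t ∈ pb Y, ∀ b ∈ pb Y, ∑ k ∈ pb Y, hm (Bt E1 t) Y q g e t b k ≤
      ∑ p ∈ P3 e, c * (((if p.1 ∣ t then (1 : ℝ) / nm t else 0) *
        (if p.2.1 ∣ b then E1⁻¹ * (1 / nm b) else 0)) * (1 / nm p.2.2)) := by
    intro t ht b hb
    rw [mem_pb] at ht hb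
    have nt := one_le ht.2
    have nb := one_le hb.2
    refine (sum_le_sum fun k _ => hm_le (B := Bt E1 t) (Y := Y) (q := q) (t := t) (k := k) he hg hgs
      hb.2).trans ?_
    rw [sum_comm]
    refine sum_le_sum fun p hp => ?_
    have hp' := mem_P3.mp hp
    have hy : IsPrim p.2.2 := ((mem_pdiv hep.ne_zero).mp hp'.1.2.2).1
    by_cases h2 : p.1 ∣ t
    · by_cases h3 : p.2.1 ∣ b
      · by_cases h4 : Bt E1 t < nm b
        · rw [if_pos h2, if_pos h3]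
          have h5 := sum_k (q := q) hY hq ht.2 hg hb.2 hy
          have h6 : ∑ k ∈ pb Y, (if (p.1 ∣ t ∧ p.2.1 ∣ b ∧ Bt E1 t < nm b) ∧
              (g * b ^ 2 * p.2.2 ∣ k ∧ (nm k : ℝ) * (nm q) ^ 2 * (nm t) ^ 3 ≤ Y) then
              (nm k : ℝ) ^ (-(1 : ℝ) / 3) else 0) =
              ∑ k ∈ pb Y, (if g * b ^ 2 * p.2.2 ∣ k ∧ (nm k : ℝ) * (nm q) ^ 2 * (nm t) ^ 3 ≤ Y then
              (nm k : ℝ) ^ (-(1 : ℝ) / 3) else 0) := by
            refine sum_congr rfl fun k _ => ?_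
            by_cases h7 : g * b ^ 2 * p.2.2 ∣ k ∧ (nm k : ℝ) * (nm q) ^ 2 * (nm t) ^ 3 ≤ Y
            · rw [if_pos ⟨⟨h2, h3, h4⟩, h7⟩, if_pos h7]
            · rw [if_neg (fun h => h7 h.2), if_neg h7]
          rw [h6]
          refine h5.trans ?_
          refine mul_le_mul_of_nonneg_left ?_ hc0
          refine mul_le_mul_of_nonneg_right ?_ (by positivity)
          have nt0 : (0 : ℝ) < nm t := by linarith
          have nb0 : (0 : ℝ) < nm b := by linarith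
          have h8 : E1 < nm t * nm b := by
            unfold Bt at h4
            rw [div_lt_iff₀ nt0] at h4
            linarith
          have h9 : 1 / (nm t : ℝ) ^ 2 * (1 / (nm b : ℝ) ^ 2) ≤
              1 / nm t * (E1⁻¹ * (1 / nm b)) := by
            rw [← one_div E1, one_div_mul_one_div, one_div_mul_one_div, one_div_mul_one_div]
            refine one_div_le_one_div_of_le (by positivity) ?_
            nlinarith [mul_pos nt0 nb0]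
          exact h9
        · have h6 : ∑ k ∈ pb Y, (if (p.1 ∣ t ∧ p.2.1 ∣ b ∧ Bt E1 t < nm b) ∧
              (g * b ^ 2 * p.2.2 ∣ k ∧ (nm k : ℝ) * (nm q) ^ 2 * (nm t) ^ 3 ≤ Y) then
              (nm k : ℝ) ^ (-(1 : ℝ) / 3) else 0) = 0 :=
            sum_eq_zero fun k _ => if_neg fun h => h4 h.1.2.2
          rw [h6, if_pos h2, if_pos h3]
          positivity
      · have h6 : ∑ k ∈ pb Y, (if (p.1 ∣ t ∧ p.2.1 ∣ b ∧ Bt E1 t < nm b) ∧
              (g * b ^ 2 * p.2.2 ∣ k ∧ (nm k : ℝ) * (nm q) ^ 2 * (nm t) ^ 3 ≤ Y) then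
              (nm k : ℝ) ^ (-(1 : ℝ) / 3) else 0) = 0 :=
          sum_eq_zero fun k _ => if_neg fun h => h3 h.1.2.1
        rw [h6, if_neg h3]
        simp
    · have h6 : ∑ k ∈ pb Y, (if (p.1 ∣ t ∧ p.2.1 ∣ b ∧ Bt E1 t < nm b) ∧
              (g * b ^ 2 * p.2.2 ∣ k ∧ (nm k : ℝ) * (nm q) ^ 2 * (nm t) ^ 3 ≤ Y) then
              (nm k : ℝ) ^ (-(1 : ℝ) / 3) else 0) = 0 :=
        sum_eq_zero fun k _ => if_neg fun h => h2 h.1.1
      rw [h6, if_neg h2]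
      simp
  calc ∑ t ∈ pb Y, ∑ b ∈ pb Y, ∑ k ∈ pb Y, hm (Bt E1 t) Y q g e t b k
      ≤ ∑ t ∈ pb Y, ∑ b ∈ pb Y, ∑ p ∈ P3 e, c * (((if p.1 ∣ t then (1 : ℝ) / nm t else 0) *
        (if p.2.1 ∣ b then E1⁻¹ * (1 / nm b) else 0)) * (1 / nm p.2.2)) :=
        sum_le_sum fun t ht => sum_le_sum fun b hb => h1 t ht b hb
    _ = ∑ p ∈ P3 e, c * (((∑ t ∈ pb Y, if p.1 ∣ t then (1 : ℝ) / nm t else 0) *
        (∑ b ∈ pb Y, if p.2.1 ∣ b then E1⁻¹ * (1 / nm b) else 0)) * (1 / nm p.2.2)) := by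
        rw [sum_congr rfl fun t _ => sum_comm, sum_comm]
        refine sum_congr rfl fun p _ => ?_
        rw [sum_mul_sum, sum_mul, mul_sum]
        refine sum_congr rfl fun t _ => ?_
        rw [sum_mul, mul_sum]
    _ ≤ ∑ p ∈ P3 e, c * (((1 / nm p.1 * Hp Y) * (E1⁻¹ * (1 / nm p.2.1 * Hp Y))) *
          (1 / nm p.2.2)) := by
        refine sum_le_sum fun p hp => ?_
        have hp' := mem_P3.mp hp
        have hx := ((mem_pdiv hep.ne_zero).mp hp'.1.1).1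
        have hf := ((mem_pdiv hep.ne_zero).mp hp'.1.2.1).1
        have h2 := sum_inv_mult hY hx
        have h3 := sum_inv_mult hY hf
        have h4 : ∑ b ∈ pb Y, (if p.2.1 ∣ b then E1⁻¹ * (1 / (nm b : ℝ)) else 0) ≤
            E1⁻¹ * (1 / nm p.2.1 * Hp Y) := by
          calc ∑ b ∈ pb Y, (if p.2.1 ∣ b then E1⁻¹ * (1 / (nm b : ℝ)) else 0)
              = E1⁻¹ * ∑ b ∈ pb Y, (if p.2.1 ∣ b then (1 : ℝ) / nm b else 0) := by
                rw [mul_sum]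
                refine sum_congr rfl fun b _ => ?_
                split_ifs
                · rfl
                · rw [mul_zero]
            _ ≤ _ := mul_le_mul_of_nonneg_left h3 (by positivity)
        have h5 : 0 ≤ ∑ b ∈ pb Y, (if p.2.1 ∣ b then E1⁻¹ * (1 / (nm b : ℝ)) else 0) :=
          sum_nonneg fun b _ => by split_ifs <;> positivity
        have h6 := Hp_nonneg Y
        exact mul_le_mul_of_nonneg_left (mul_le_mul_of_nonneg_right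
          (mul_le_mul h2 h4 h5 (by positivity)) (by positivity)) hc0
    _ = c * (E1⁻¹ * Hp Y ^ 2 * ∑ p ∈ P3 e, (1 : ℝ) / nm p.1 * (1 / nm p.2.1) *
          (1 / nm p.2.2)) := by
        rw [mul_sum, mul_sum]
        refine sum_congr rfl fun p _ => ?_
        ring
    _ ≤ _ := by
        have h7 := sum_P3 hep
        have h6 := Hp_nonneg Y
        exact mul_le_mul_of_nonneg_left (mul_le_mul_of_nonneg_left h7 (by positivity)) hc0

section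

variable {J : Finset (Eis × Eis)} {om : Eis × Eis → ℂ} {T : Eis → Eis → Eis → ℂ} {q t k₁ : Eis}
  {w : ℝ → ℝ} {W a₀ b₀ D K E0 E1 R τ : ℝ}

/-- **the mass for fixed `q`** -/
theorem mass_qt {Y : ℝ} (hE1 : 0 < E1) (hY : 0 ≤ Y) (hq : IsPrim q) :
    ∑ t ∈ pb E1, ∑ k ∈ pb Y, mt (Bt E1 t) Y J om T E0 R q t k ≤
      if (nm q : ℝ) ≤ Y then 450 * Y ^ (2 / 3 : ℝ) * E1⁻¹ * Hp Y ^ 2 * (1 / nm q) *
        ∑ x ∈ J, MF om T E0 x else 0 := by
  classical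
  split_ifs with hqY
  · -- only t in pb Y matters
    have h1 : ∑ t ∈ pb E1, ∑ k ∈ pb Y, mt (Bt E1 t) Y J om T E0 R q t k ≤
        ∑ t ∈ pb Y, ∑ k ∈ pb Y, mt (Bt E1 t) Y J om T E0 R q t k := by
      have h2 : ∑ t ∈ pb E1, ∑ k ∈ pb Y, mt (Bt E1 t) Y J om T E0 R q t k =
          ∑ t ∈ (pb E1).filter (fun t => (nm t : ℝ) ≤ Y),
            ∑ k ∈ pb Y, mt (Bt E1 t) Y J om T E0 R q t k := by
        symm
        refine sum_subset (filter_subset _ _) fun t ht htn => ?_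
        rw [mem_filter, not_and, not_le] at htn
        have h3 := htn ht
        rw [mem_pb] at ht
        refine sum_eq_zero fun k hk => ?_
        rw [mem_pb] at hk
        unfold E3M829.mt
        refine sum_eq_zero fun b _ => sum_eq_zero fun z _ => sum_eq_zero fun e _ => ?_
        rw [hm_zero hk.2 hq ht.2 (Or.inl h3), mul_zero]
      rw [h2]
      refine sum_le_sum_of_subset_of_nonneg (fun t ht => ?_) fun _ _ _ =>
        sum_nonneg fun _ _ => mt_nonneg _ _ _ _ _ _ _ _ _ _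
      rw [mem_filter, mem_pb] at ht
      rw [mem_pb]
      exact ⟨ht.2, ht.1.2⟩
    refine h1.trans ?_
    -- commute
    have h4 : ∑ t ∈ pb Y, ∑ k ∈ pb Y, mt (Bt E1 t) Y J om T E0 R q t k =
        ∑ z ∈ PP J R q, ∑ e ∈ S E0, az om q z * ‖T (xz q z).1 e (xz q z).2‖ ^ 2 *
          ∑ t ∈ pb Y, ∑ b ∈ pb Y, ∑ k ∈ pb Y, hm (Bt E1 t) Y q z.2.2.1 e t b k := by
      unfold E3M829.mt
      have h5 : ∀ t ∈ pb Y, ∑ k ∈ pb Y, ∑ b ∈ pb Y, ∑ z ∈ PP J R q, ∑ e ∈ S E0,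
          az om q z * ‖T (xz q z).1 e (xz q z).2‖ ^ 2 * hm (Bt E1 t) Y q z.2.2.1 e t b k =
          ∑ z ∈ PP J R q, ∑ e ∈ S E0, ∑ b ∈ pb Y, ∑ k ∈ pb Y,
          az om q z * ‖T (xz q z).1 e (xz q z).2‖ ^ 2 * hm (Bt E1 t) Y q z.2.2.1 e t b k := by
        intro t _
        rw [sum_comm]
        rw [sum_congr rfl fun b _ => sum_comm]
        rw [sum_comm]
        refine sum_congr rfl fun z _ => ?_
        rw [sum_congr rfl fun b _ => sum_comm]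
        rw [sum_comm]
      rw [sum_congr rfl h5, sum_comm]
      refine sum_congr rfl fun z _ => ?_
      rw [sum_comm]
      refine sum_congr rfl fun e _ => ?_
      rw [mul_sum]
      refine sum_congr rfl fun t _ => ?_
      rw [mul_sum]
      refine sum_congr rfl fun b _ => ?_
      rw [mul_sum]
    rw [h4]
    have h6 : ∀ z ∈ PP J R q, ∑ e ∈ S E0, az om q z * ‖T (xz q z).1 e (xz q z).2‖ ^ 2 *
          ∑ t ∈ pb Y, ∑ b ∈ pb Y, ∑ k ∈ pb Y, hm (Bt E1 t) Y q z.2.2.1 e t b k ≤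
        450 * Y ^ (2 / 3 : ℝ) * E1⁻¹ * Hp Y ^ 2 * (1 / nm q) * MF om T E0 (xz q z) := by
      intro z hz
      obtain ⟨⟨z1, z2, z3, z4⟩, z5, z6⟩ := mem_PP.mp hz
      have hg := S_pr z3
      have haz := az_nonneg om q z
      have hHp := Hp_nonneg Y
      have h7 : ∀ e ∈ S E0, az om q z * ‖T (xz q z).1 e (xz q z).2‖ ^ 2 *
          ∑ t ∈ pb Y, ∑ b ∈ pb Y, ∑ k ∈ pb Y, hm (Bt E1 t) Y q z.2.2.1 e t b k ≤
          az om q z * ‖T (xz q z).1 e (xz q z).2‖ ^ 2 *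
          (150 * Y ^ (2 / 3 : ℝ) * (nm q : ℝ) ^ (-(4 : ℝ) / 3) * (1 / nm z.2.2.1) *
        (E1⁻¹ * Hp Y ^ 2 * ((tau e : ℝ) ^ 2 / nm e))) := by
        intro e he
        have he' : e ∈ S e.nm := by
          rw [mem_S (Nat.cast_nonneg _)]
          exact ⟨le_rfl, S_pr he⟩
        exact mul_le_mul_of_nonneg_left (sum_hmt hE1 hY hq hg.1 hg.2 he') (by positivity)
      refine (sum_le_sum h7).trans ?_
      have h8 : ∑ e ∈ S E0, az om q z * ‖T (xz q z).1 e (xz q z).2‖ ^ 2 *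
          (150 * Y ^ (2 / 3 : ℝ) * (nm q : ℝ) ^ (-(4 : ℝ) / 3) * (1 / nm z.2.2.1) *
        (E1⁻¹ * Hp Y ^ 2 * ((tau e : ℝ) ^ 2 / nm e))) =
          (az om q z * ((nm q : ℝ) ^ (-(4 : ℝ) / 3) * (1 / nm z.2.2.1))) *
          (150 * Y ^ (2 / 3 : ℝ) * E1⁻¹ * Hp Y ^ 2 *
          ∑ e ∈ S E0, (tau e : ℝ) ^ 2 / nm e * ‖T (xz q z).1 e (xz q z).2‖ ^ 2) := by
        rw [mul_sum, mul_sum]
        refine sum_congr rfl fun e _ => ?_
        ring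
      rw [h8]
      have h9 : 0 ≤ 150 * Y ^ (2 / 3 : ℝ) * E1⁻¹ * Hp Y ^ 2 *
          ∑ e ∈ S E0, (tau e : ℝ) ^ 2 / nm e * ‖T (xz q z).1 e (xz q z).2‖ ^ 2 := by positivity
      refine (mul_le_mul_of_nonneg_right (az_le hq hz) h9).trans (le_of_eq ?_)
      unfold MF
      ring
    refine (sum_le_sum h6).trans ?_
    rw [← mul_sum]
    have hHp := Hp_nonneg Y
    exact mul_le_mul_of_nonneg_left (sum_PP_le hq _ fun x _ => MF_nonneg om T E0 x)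
      (by positivity)
  · refine le_of_eq (sum_eq_zero fun t ht => sum_eq_zero fun k hk => ?_)
    rw [mem_pb] at ht hk
    unfold E3M829.mt
    refine sum_eq_zero fun b _ => sum_eq_zero fun z _ => sum_eq_zero fun e _ => ?_
    rw [hm_zero hk.2 hq ht.2 (Or.inr (not_le.mp hqY)), mul_zero]

/-- **the mass** -/
theorem mass_let {Y : ℝ} (hE1 : 0 < E1) (hY : 0 ≤ Y) :
    ∑ q ∈ S R, ∑ t ∈ pb E1, ∑ k ∈ pb Y, mt (Bt E1 t) Y J om T E0 R q t k ≤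
      450 * Y ^ (2 / 3 : ℝ) * E1⁻¹ * Hp Y ^ 3 * ∑ x ∈ J, MF om T E0 x := by
  classical
  have hHp := Hp_nonneg Y
  have hMF : 0 ≤ ∑ x ∈ J, MF om T E0 x := sum_nonneg fun x _ => MF_nonneg om T E0 x
  calc _ ≤ ∑ q ∈ S R, (if (nm q : ℝ) ≤ Y then 450 * Y ^ (2 / 3 : ℝ) * E1⁻¹ * Hp Y ^ 2 *
        (1 / nm q) * ∑ x ∈ J, MF om T E0 x else 0) :=
        sum_le_sum fun q hq => mass_qt hE1 hY (S_pr hq).1
    _ = ∑ q ∈ (S R).filter (fun q => (nm q : ℝ) ≤ Y), 450 * Y ^ (2 / 3 : ℝ) * E1⁻¹ * Hp Y ^ 2 *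
        (1 / nm q) * ∑ x ∈ J, MF om T E0 x := by rw [sum_filter]
    _ ≤ ∑ q ∈ pb Y, 450 * Y ^ (2 / 3 : ℝ) * E1⁻¹ * Hp Y ^ 2 *
        (1 / nm q) * ∑ x ∈ J, MF om T E0 x := by
        refine sum_le_sum_of_subset_of_nonneg (fun q hq => ?_) fun _ _ _ => by positivity
        rw [mem_filter] at hq
        rw [mem_pb]
        exact ⟨hq.2, (S_pr hq.1).1⟩
    _ = _ := by
        unfold Hp
        rw [← sum_mul, ← mul_sum]
        ring

open Classical in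
/-- **the diagonal with the majorant** -/
theorem diag_majt (hw : W0 w W b₀) (hb : 0 ≤ b₀) (hK : 0 < K) (hE1 : 0 < E1) (hJ : OKJ J)
    (hE : 0 ≤ E0) (hT : ∀ d e j, T d e j ≠ 0 → IsCoprime j e) (hτ0 : 0 ≤ τ)
    (hτ : ∀ m : Eis, (nm m : ℝ) ≤ b₀ * K → (tau m : ℝ) ≤ τ) :
    ∑ q ∈ S R, ∑ t ∈ pb E1, (∑' k₁ : Eis, if IsPrim k₁ ∧ IsCoprime k₁ q then
      mj (Bt E1 t) k₁ ^ 2 * w ((nm (k₁ * q ^ 2 * t ^ 3) : ℝ) / K) * Dg J om T E0 R q t k₁ else 0) ≤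
    ∑ x ∈ J, ‖om x‖ ^ 2 * MSr w K x.2 x.1 (DTx E0 T x) +
      450 * W * τ ^ 3 * (b₀ * K) ^ (2 / 3 : ℝ) * E1⁻¹ * Hp (b₀ * K) ^ 3 *
        ∑ x ∈ J, MF om T E0 x := by
  have hY : 0 ≤ b₀ * K := by positivity
  have hW := hw.nonneg
  have h1 : ∀ q ∈ S R, ∀ t ∈ pb E1, (∑' k₁ : Eis, if IsPrim k₁ ∧ IsCoprime k₁ q then
      mj (Bt E1 t) k₁ ^ 2 * w ((nm (k₁ * q ^ 2 * t ^ 3) : ℝ) / K) * Dg J om T E0 R q t k₁ else 0) ≤
      ∑ k ∈ pb (b₀ * K), ((if Squarefree k ∧ IsCoprime k q then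
        w ((nm (k * q ^ 2 * t ^ 3) : ℝ) / K) * Dg J om T E0 R q t k else 0) +
        W * τ ^ 3 * mt (Bt E1 t) (b₀ * K) J om T E0 R q t k) := by
    intro q hq t ht
    rw [tsum_k1 hw hK (S_pr hq).1 (mem_pb.mp ht).2]
    refine sum_le_sum fun k hk => ?_
    exact ms_le hw hK (Bt_one ht) hJ hE hT (mem_pb.mp hk).2 (S_pr hq).1 (mem_pb.mp ht).2 hτ
  refine (sum_le_sum fun q hq => sum_le_sum fun t ht => h1 q hq t ht).trans ?_
  simp_rw [sum_add_distrib]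
  refine add_le_add (sqf_part hw hK hJ E1) ?_
  simp_rw [← mul_sum]
  have h2 := mass_let (J := J) (om := om) (T := T) (E0 := E0) (R := R) hE1 hY
  calc W * τ ^ 3 * ∑ q ∈ S R, ∑ t ∈ pb E1, ∑ k ∈ pb (b₀ * K), mt (Bt E1 t) (b₀ * K) J om T E0 R q t k
      ≤ W * τ ^ 3 * (450 * (b₀ * K) ^ (2 / 3 : ℝ) * E1⁻¹ * Hp (b₀ * K) ^ 3 *
          ∑ x ∈ J, MF om T E0 x) := mul_le_mul_of_nonneg_left h2 (by positivity)
    _ = _ := by ring

open Classical in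
/-- **the cut mean square** -/
theorem cut_let (hw : W0 w W b₀) (hK : 0 < K) (hJ : OKJ J)
    (hR : ∀ x ∈ J, (nm x.2 : ℝ) ≤ R) (E0 E1 : ℝ) :
    (∑' k : Eis, if IsPrim k ∧ Cut E1 k then
      w ((nm k : ℝ) / K) * ‖SteT J om E0 T k‖ ^ 2 else 0) ≤
    ∑ q ∈ S R, ∑ t ∈ pb E1, (∑' k₁ : Eis, if IsPrim k₁ ∧ IsCoprime k₁ q then
      mj (Bt E1 t) k₁ ^ 2 * w ((nm (k₁ * q ^ 2 * t ^ 3) : ℝ) / K) *
        ‖∑ y ∈ Ys J E0 R, Fy J om T q t k₁ y‖ ^ 2 else 0) := by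
  set Y := b₀ * K with hY
  -- the left side
  have h1 : (∑' k : Eis, if IsPrim k ∧ Cut E1 k then
      w ((nm k : ℝ) / K) * ‖SteT J om E0 T k‖ ^ 2 else 0) =
      ∑ k ∈ (pb Y).filter (fun k => Cut E1 k ∧ SteT J om E0 T k ≠ 0),
        w ((nm k : ℝ) / K) * ‖SteT J om E0 T k‖ ^ 2 := by
    rw [tsum_eq_sum (s := pb Y), sum_filter]
    · refine sum_congr rfl fun k hk => ?_
      rw [mem_pb] at hk
      by_cases h : Cut E1 k
      · by_cases h2 : SteT J om E0 T k = 0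
        · rw [if_pos ⟨hk.2, h⟩, if_neg (fun h' => h'.2 h2), h2]; simp
        · rw [if_pos ⟨hk.2, h⟩, if_pos ⟨h, h2⟩]
      · rw [if_neg (fun h' => h h'.2), if_neg (fun h' => h h'.1)]
    · intro k hk
      split_ifs with hc
      · have h1 : b₀ * K < nm k := by
          by_contra hh
          exact hk (mem_pb.2 ⟨not_lt.1 hh, hc.1⟩)
        rw [hw.supp, zero_mul]
        rwa [lt_div_iff₀ hK]
      · rfl
  rw [h1]
  -- the decomposition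
  have hdec : ∀ k : Eis, ∃ u : Eis × Eis × Eis, IsPrim k →
      Tri u.2.2 u.1 u.2.1 ∧ k = u.2.2 * u.1 ^ 2 * u.2.1 ^ 3 := by
    intro k
    by_cases hk : IsPrim k
    · obtain ⟨k1, k2, m, p1, p2, pm, s1, s2, hcop, he⟩ := Char766.exists_prim_cubic_decomp hk
      exact ⟨(k2, m, k1), fun _ => ⟨⟨p1, s1, p2, s2, hcop, pm⟩, he⟩⟩
    · exact ⟨0, fun h => absurd h hk⟩
  choose i hi using hdec
  set A : Finset (Eis × Eis × Eis) := ((S R) ×ˢ ((pb E1) ×ˢ (pb Y))).filter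
    (fun u => Squarefree u.2.2 ∧ IsCoprime u.2.2 u.1) with hA
  set φ : Eis × Eis × Eis → Eis := fun u => u.2.2 * u.1 ^ 2 * u.2.1 ^ 3 with hφ
  set F : Eis → ℝ := fun k => w ((nm k : ℝ) / K) * ‖SteT J om E0 T k‖ ^ 2 with hF
  have hF0 : ∀ k, 0 ≤ F k := fun k => mul_nonneg (hw.nn _) (by positivity)
  have h2 : ∑ k ∈ (pb Y).filter (fun k => Cut E1 k ∧ SteT J om E0 T k ≠ 0), F k ≤
      ∑ u ∈ A, F (φ u) := by
    have hinj : Set.InjOn i ((pb Y).filter (fun k => Cut E1 k ∧ SteT J om E0 T k ≠ 0) :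
        Set Eis) := by
      intro k hk k' hk' h
      rw [Finset.mem_coe, mem_filter, mem_pb] at hk hk'
      rw [(hi k hk.1.2).2, (hi k' hk'.1.2).2, h]
    have h3 : ∑ k ∈ (pb Y).filter (fun k => Cut E1 k ∧ SteT J om E0 T k ≠ 0), F k =
        ∑ u ∈ ((pb Y).filter (fun k => Cut E1 k ∧ SteT J om E0 T k ≠ 0)).image i, F (φ u) := by
      rw [sum_image hinj]
      refine sum_congr rfl fun k hk => ?_
      rw [mem_filter, mem_pb] at hk
      congr 1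
      exact (hi k hk.1.2).2
    rw [h3]
    refine sum_le_sum_of_subset_of_nonneg (fun u hu => ?_) fun u _ _ => hF0 _
    obtain ⟨k, hk, rfl⟩ := mem_image.mp hu
    rw [mem_filter, mem_pb] at hk
    obtain ⟨⟨hkY, hkp⟩, hcut, hne⟩ := hk
    obtain ⟨⟨a1, a2, a3, a4, a5, a6⟩, he⟩ := hi k hkp
    rw [hA, mem_filter, mem_product, mem_product]
    have hR' : (nm (i k).1 : ℝ) ≤ R := by
      have h4 : ∃ x ∈ J, (i k).1 ∣ x.2 := by
        by_contra hh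
        push Not at hh
        apply hne
        unfold SteT
        refine sum_eq_zero fun x hx => ?_
        have h5 := th_zero_of_not_dvd (hJ.jc x hx) a1 a2 a3 a4 a5 a6 (hh x hx)
        rw [← he] at h5
        rw [h5]
        simp
      obtain ⟨x, hx, hd⟩ := h4
      refine le_trans ?_ (hR x hx)
      exact_mod_cast Div277.nm_le_of_dvd (GrE579.JC.ne_zero (hJ.jc x hx)) hd
    have hR0 : 0 ≤ R := (Nat.cast_nonneg _).trans hR'
    refine ⟨⟨(mem_S hR0).mpr ⟨hR', a3, a4⟩, mem_pb.mpr ⟨hcut _ a6 ?_, a6⟩,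
      mem_pb.mpr ⟨le_trans ?_ hkY, a1⟩⟩, a2, a5⟩
    · exact Dvd.intro_left _ he.symm
    · have : (i k).2.2 ∣ k := ⟨(i k).1 ^ 2 * (i k).2.1 ^ 3, he.trans (by ring)⟩
      exact_mod_cast Div277.nm_le_of_dvd hkp.ne_zero this
  refine h2.trans ?_
  rw [hA, sum_filter, sum_product]
  refine sum_le_sum fun q hq => ?_
  rw [sum_product]
  refine sum_le_sum fun t ht => ?_
  have hqp := (S_pr hq).1
  have htp := (mem_pb.mp ht).2
  rw [tsum_k1 hw hK hqp htp]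
  refine sum_le_sum fun k hk => ?_
  have hkp := (mem_pb.mp hk).2
  simp only
  by_cases hc : Squarefree k ∧ IsCoprime k q
  · rw [if_pos hc, if_pos ⟨hkp, hc.2⟩]
    have h6 := conj_SteT_eq (om := om) (T := T) hJ hR E0 hkp hc.1 hqp (S_pr hq).2 hc.2 htp
    have h7 : ‖SteT J om E0 T (k * q ^ 2 * t ^ 3)‖ = ‖∑ y ∈ Ys J E0 R, Fy J om T q t k y‖ := by
      rw [← RCLike.norm_conj (SteT J om E0 T (k * q ^ 2 * t ^ 3)), h6, norm_mul, RCLike.norm_conj,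
        norm_G hkp hc.1, one_mul]
    simp only [hF, hφ]
    rw [mj_sqf (Bt_one ht) hkp hc.1, h7, one_pow, one_mul]
  · rw [if_neg hc]
    split_ifs with h8
    · exact mul_nonneg (mul_nonneg (by positivity) (hw.nn _)) (by positivity)
    · exact le_rfl


open Classical in
/-- the sum with the majorant of `F`, bound `Bt E1 t` -/
def Sgt (w : ℝ → ℝ) (K R E1 : ℝ) (F : Eis → Eis → Eis → ℝ) : ℝ :=
  ∑ q ∈ S R, ∑ t ∈ pb E1, (∑' k₁ : Eis, if IsPrim k₁ ∧ IsCoprime k₁ q then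
      mj (Bt E1 t) k₁ ^ 2 * w ((nm (k₁ * q ^ 2 * t ^ 3) : ℝ) / K) * F q t k₁ else 0)

/-- the off-diagonal part -/
theorem off_t (hw : W0 w W b₀) (hK : 0 < K) (hJ : OKJ J) :
    Sgt w K R E1 (fun q t k₁ => ‖∑ y ∈ Ys J E0 R, Fy J om T q t k₁ y‖ ^ 2) ≤
      Sgt w K R E1 (fun q t k₁ => Dg J om T E0 R q t k₁) +
        ∑ q ∈ S R, ∑ t ∈ pb E1, OP w K (Bt E1 t) J om T E0 R b₀ q t := by
  unfold Sgt
  rw [← sum_add_distrib]
  refine sum_le_sum fun q hq => ?_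
  rw [← sum_add_distrib]
  refine sum_le_sum fun t ht => ?_
  exact one_qt hw hK hJ (S_pr hq).1 (mem_pb.mp ht).2

end

/-- **the cut Gram form with the pairs at `B = E1 / N(t)`** -/
theorem gram_OPt {w : ℝ → ℝ} (hw : MC.Wgt w) (hw0 : ∀ x, 0 ≤ w x) {ε : ℝ} (hε : 0 < ε) :
    ∃ C b₀ : ℝ, 0 ≤ C ∧ 0 ≤ b₀ ∧ ∀ (K Z R E0 E1 : ℝ), 0 < K → 1 ≤ Z → K ≤ Z → 0 ≤ E0 →
      E0 ≤ Z → R ≤ Z → 0 < E1 → ∀ (J : Finset (Eis × Eis)), OKJ J →
      (∀ x ∈ J, (nm x.1 : ℝ) ≤ Z) → (∀ x ∈ J, (nm x.2 : ℝ) ≤ R) →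
      ∀ (om : Eis × Eis → ℂ) (T : Eis → Eis → Eis → ℂ), TC T →
      (∑' k : Eis, open Classical in if IsPrim k ∧ Cut E1 k then
        w ((nm k : ℝ) / K) * ‖SteT J om E0 T k‖ ^ 2 else 0) ≤
        kap0 * K ^ (2 / 3 : ℝ) * Iw w * XT J om E0 T + C * Z ^ ε * K ^ (2 / 3 : ℝ) *
          ((R / K ^ 2) ^ (1 / 6 : ℝ) * TF (1 / 2) J om E0 T + E1⁻¹ * TF (-1) J om E0 T) +
        ∑ q ∈ S R, ∑ t ∈ pb E1, OP w K (Bt E1 t) J om T E0 R b₀ q t := by
  classical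
  obtain ⟨a₀, b₁, D, h⟩ := exists_Wt hw
  obtain ⟨W, b₂, hb2, hw2⟩ := exists_W0 hw hw0
  -- a common right end point
  have hw1 : W0 w W b₁ := ⟨hw0, hw2.le, fun x hx => by
    have h1 := h.supp x (fun h' => absurd h'.2 (not_le.mpr hx))
    exact_mod_cast h1⟩
  have hb1 : 0 ≤ b₁ := h.pos.le.trans h.le
  obtain ⟨C1, hC1, h1⟩ := ET_le h hε
  obtain ⟨C2, hC2, h2⟩ := MB_le hw1.nonneg hb1 hε
  refine ⟨C1 + C2, b₁, by positivity, hb1, ?_⟩
  intro K Z R E0 E1 hK hZ hKZ hE hEZ hRZ hE1 J hJ hJ1 hJ2 om T hT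
  obtain ⟨τ, hτ0, hτ, h3⟩ := h2 K Z E0 hK hZ hKZ hEZ
  have hcut := cut_let (om := om) (T := T) hw1 hK hJ hJ2 E0 E1
  have hoff := off_t (om := om) (T := T) (E0 := E0) (E1 := E1) (R := R) hw1 hK hJ
  have hdg := diag_majt (om := om) (R := R) hw1 hb1 hK hE1 hJ hE
    (fun d e j hh => (hT d e j hh).1) hτ0 hτ
  have htr := (le_abs_self _).trans (nat_trunc (om := om) h hK hE hT hJ)
  have h5 := h1 K Z R E0 hK hZ hKZ hEZ hRZ J hJ hJ1 hJ2 om T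
  have h6 := h3 E1 J hE1 om T
  have hZ0 : (0 : ℝ) < Z := by linarith
  have t1 := TF_nonneg (1 / 2) J om E0 T
  have t2 := TF_nonneg (-1) J om E0 T
  have hR : J.Nonempty → 0 ≤ R := fun ⟨x, hx⟩ => (Nat.cast_nonneg _).trans (hJ2 x hx)
  have hB1 : 0 < E1⁻¹ := inv_pos.mpr hE1
  have h7 : 0 ≤ C2 * Z ^ ε * K ^ (2 / 3 : ℝ) * ((R / K ^ 2) ^ (1 / 6 : ℝ) *
      TF (1 / 2) J om E0 T) := by
    rcases J.eq_empty_or_nonempty with hJe | hJn
    · have : TF (1 / 2) J om E0 T = 0 := by rw [hJe]; unfold TF; simp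
      rw [this]; simp
    · have := hR hJn
      positivity
  have h8 : 0 ≤ C1 * Z ^ ε * K ^ (2 / 3 : ℝ) * (E1⁻¹ * TF (-1) J om E0 T) := by positivity
  have h9 : (C1 + C2) * Z ^ ε * K ^ (2 / 3 : ℝ) *
        ((R / K ^ 2) ^ (1 / 6 : ℝ) * TF (1 / 2) J om E0 T + E1⁻¹ * TF (-1) J om E0 T) =
      C1 * Z ^ ε * ((R / K ^ 2) ^ (1 / 6 : ℝ) * K ^ (2 / 3 : ℝ)) * TF (1 / 2) J om E0 T +
      C2 * Z ^ ε * (E1⁻¹ * K ^ (2 / 3 : ℝ)) * TF (-1) J om E0 T +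
      C2 * Z ^ ε * K ^ (2 / 3 : ℝ) * ((R / K ^ 2) ^ (1 / 6 : ℝ) * TF (1 / 2) J om E0 T) +
      C1 * Z ^ ε * K ^ (2 / 3 : ℝ) * (E1⁻¹ * TF (-1) J om E0 T) := by ring
  rw [h9]
  unfold Sgt at hoff
  unfold MB at h6
  linarith

end Crest.Agent.R017.E3B271
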