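import Crest.Agent.R017.E3K_548
import Crest.Agent.R017.E3Td_829

/-!
# Row 17, R8 (E3), outer assembly (helper548): the Gram sum up to the modes

* `gram_MPT` : helper829's `gram_OP` with `OFF_le`
-/

set_option autoImplicit false
set_option linter.unusedVariables false

noncomputable section

open Finset
open scoped ComplexConjugate
open scoped Classical

namespace Crest.Agent.R017.E3F548

open Crest.Agent.R012 Crest.Agent.R012.Eis Crest.Agent.R012.Mob705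
open Crest.Agent.R012.LS2
open Crest.Agent.R017.CM106
open Crest.Agent.R017.PX764 Crest.Agent.R017.C70 Crest.Agent.R017.GrB829 Crest.Agent.R017.GrD829
open Crest.Agent.R017.E3s164 Crest.Agent.R017.E3A164
open Crest.Agent.R012.MC (Wgt)
open Crest.Agent.R017.E3M829 (TC TF Cut Iw XT)

/-- **the Gram sum, up to the mode sums of the pairs of levels** -/
theorem gram_MPT {w : ℝ → ℝ} (hw : Wgt w) (hw0 : ∀ x, 0 ≤ w x) {Rw : ℝ} {A Bw : ℕ}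
    (hRw : 0 ≤ Rw) (hA : 1 < A) (hBw : 1 < Bw) {ε : ℝ} (hε : 0 < ε) :
    ∃ C b₀ : ℝ, 1 ≤ C ∧ 0 ≤ b₀ ∧ ∀ (ι : Type) (I : Finset ι)
    (J : Finset (Eis × Eis)) (om : Eis × Eis → ℂ) (omi : ι → Eis × Eis → ℂ)
    (T : Eis → Eis → Eis → ℂ), TC T → OKJ J → (∀ x ∈ J, om x = ∑ i ∈ I, omi i x) →
    ∀ (V : ι → ℝ), (∀ i ∈ I, 0 < V i) →
    (∀ i ∈ I, ∀ x ∈ J, omi i x ≠ 0 →
      |Real.log (nm (x.2 * x.1 ^ 2)) - Real.log (V i)| ≤ Rw / 2) →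
    ∀ (K R Z B E0 E1 : ℝ), 0 < K → 1 ≤ Z → K ≤ Z → 0 ≤ R → R ≤ Z → 1 ≤ B → 0 ≤ E0 → E0 ≤ Z →
    0 ≤ E1 → (∀ x ∈ J, (nm x.1 : ℝ) ≤ Z) → (∀ x ∈ J, (nm x.2 : ℝ) ≤ R) →
    (∑' k : Eis, if IsPrim k ∧ Cut E1 k then
        w ((nm k : ℝ) / K) * ‖SteT J om E0 T k‖ ^ 2 else 0) ≤
      kap0 * K ^ (2 / 3 : ℝ) * Iw w * XT J om E0 T +
      C * Z ^ ε * (K ^ (2 / 3 : ℝ) *
        ((R / K ^ 2) ^ (1 / 6 : ℝ) * TF (1 / 2) J om E0 T + B⁻¹ * TF (-1) J om E0 T) +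
        (K ^ (-(1 : ℝ) / 3) * E1 ^ 2 * B ^ 2 * R) * ∑ x ∈ J, EF om T E0 x) +
      C * (∑ i ∈ I, ∑ j ∈ I, ∑ q ∈ S R, ∑ t ∈ pb E1,
        MPT A Bw K B (V i) (V j) (Z ^ 5) J (omi i) (omi j) T E0 R b₀ q t) := by
  obtain ⟨C1, b₀, hC1, hb0, h1⟩ := E3T829.gram_OP hw hw0 hε
  obtain ⟨C2, hC2, h2⟩ := OFF_le hw hRw hA hBw hε
  refine ⟨max C1 C2, b₀, hC2.trans (le_max_right _ _), hb0, ?_⟩
  intro ι I J om omi T hT hJ hom V hV hJV K R Z B E0 E1 hK hZ hKZ hR0 hRZ hB hE0 hE0Z hE1 hJ1 hJ2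
  have k1 := h1 K Z R E0 E1 B hK hZ hKZ hE0 hE0Z hRZ hB J hJ hJ1 hJ2 om T hT
  have k2 := h2 ι I J om omi T hT hJ hom V hV hJV K R Z B E0 E1 b₀ hK hZ hR0 hRZ hB hE1 hJ1 hJ2
  have t1 := E3M829.TF_nonneg (1 / 2) J om E0 T
  have t2 := E3M829.TF_nonneg (-1) J om E0 T
  have t3 : 0 ≤ ∑ x ∈ J, EF om T E0 x := sum_nonneg fun x _ => EF_nonneg om T E0 x
  have hZ0 : (0 : ℝ) < Z := by linarith
  have hB1 : 0 < B⁻¹ := inv_pos.mpr (by linarith)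
  have hMP : 0 ≤ ∑ i ∈ I, ∑ j ∈ I, ∑ q ∈ S R, ∑ t ∈ pb E1,
      MPT A Bw K B (V i) (V j) (Z ^ 5) J (omi i) (omi j) T E0 R b₀ q t :=
    sum_nonneg fun i hi => sum_nonneg fun j hj => sum_nonneg fun q hq => sum_nonneg fun t _ =>
      MPT_nonneg A Bw _ _ _ hK.le hJ (hV i hi) (hV j hj) (SR_prim hq).1
  have hRK : 0 ≤ (R / K ^ 2) ^ (1 / 6 : ℝ) := by positivity
  have a1 : C1 * Z ^ ε * K ^ (2 / 3 : ℝ) *
      ((R / K ^ 2) ^ (1 / 6 : ℝ) * TF (1 / 2) J om E0 T + B⁻¹ * TF (-1) J om E0 T) ≤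
      max C1 C2 * Z ^ ε * (K ^ (2 / 3 : ℝ) *
      ((R / K ^ 2) ^ (1 / 6 : ℝ) * TF (1 / 2) J om E0 T + B⁻¹ * TF (-1) J om E0 T)) := by
    rw [← mul_assoc (max C1 C2 * Z ^ ε)]
    have := le_max_left C1 C2
    gcongr
  have a2 : C2 * Z ^ ε * (K ^ (-(1 : ℝ) / 3) * E1 ^ 2 * B ^ 2 * R) * ∑ x ∈ J, EF om T E0 x ≤
      max C1 C2 * Z ^ ε * ((K ^ (-(1 : ℝ) / 3) * E1 ^ 2 * B ^ 2 * R) *
        ∑ x ∈ J, EF om T E0 x) := by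
    rw [← mul_assoc (max C1 C2 * Z ^ ε)]
    have := le_max_right C1 C2
    gcongr
  have a3 := mul_le_mul_of_nonneg_right (le_max_right C1 C2) hMP
  rw [mul_add]
  linarith

end Crest.Agent.R017.E3F548
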