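import Crest.Agent.R017.E3Bt_271
import Crest.Agent.R017.E3L_548

/-!
# Row 17, R8 (E3): the Gram sum up to the modes, `B = E1 / N(t)` (helper271)

* `OP_mono`, `OP_nonneg`
* **`gram_MPTt`** : helper548's `gram_MPT`; dyadic blocks `N(t) ~ E1 / 2^k` with `B = 2^(k+1)`
-/

set_option autoImplicit false
set_option linter.unusedVariables false

noncomputable section

open Finset
open scoped ComplexConjugate
open scoped Classical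

namespace Crest.Agent.R017.E3B271

open Crest.Agent.R012 Crest.Agent.R012.Eis Crest.Agent.R012.Mob705
open Crest.Agent.R012.LS2
open Crest.Agent.R017.CM106
open Crest.Agent.R017.PX764 Crest.Agent.R017.C70 Crest.Agent.R017.GrB829 Crest.Agent.R017.GrD829
open Crest.Agent.R017.E3s164 Crest.Agent.R017.E3A164
open Crest.Agent.R012.MC (Wgt)
open Crest.Agent.R017.E3M829 (TC TF Cut Iw XT)
open Crest.Agent.R017.E3F548

lemma S_sub {B B' : ℝ} (h : B ≤ B') : S B ⊆ S B' := by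
  intro x hx
  have h0 : x ∈ primBall ⌊B⌋₊ ∧ Squarefree x := by
    unfold S at hx
    exact mem_filter.mp hx
  unfold S
  rw [mem_filter]
  refine ⟨?_, h0.2⟩
  have h1 := h0.1
  rw [mem_primBall] at h1 ⊢
  exact ⟨h1.1.trans (Nat.floor_le_floor h), h1.2⟩

section

variable {w : ℝ → ℝ} {K B B' : ℝ} {J : Finset (Eis × Eis)} {om : Eis × Eis → ℂ}
  {T : Eis → Eis → Eis → ℂ} {E0 R b₀ : ℝ} {q t : Eis}

lemma OP_nonneg (hK : 0 ≤ K) : 0 ≤ OP w K B J om T E0 R b₀ q t := by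
  unfold OP
  refine sum_nonneg fun y _ => sum_nonneg fun y' _ => sum_nonneg fun b _ =>
    sum_nonneg fun b' _ => sum_nonneg fun s _ => ?_
  split_ifs
  · exact mul_nonneg (pf_nonneg hK y y') (norm_nonneg _)
  · exact le_rfl

lemma OP_mono (hK : 0 ≤ K) (h : B ≤ B') :
    OP w K B J om T E0 R b₀ q t ≤ OP w K B' J om T E0 R b₀ q t := by
  have hs := S_sub h
  unfold OP
  refine sum_le_sum fun y _ => sum_le_sum fun y' _ => ?_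
  have hn : ∀ b b' s : Eis, 0 ≤ (if Cop (MM q t y y' b b' s) y y' ∧
      (nm (MM q t y y' b b' s * q ^ 2 * t ^ 3) : ℝ) ≤ b₀ * K then
      pf K q t y y' * ‖PD w K J om T R q t (MM q t y y' b b' s) y y'‖ else 0) := by
    intro b b' s
    split_ifs
    · exact mul_nonneg (pf_nonneg hK y y') (norm_nonneg _)
    · exact le_rfl
  refine (sum_le_sum fun b _ => sum_le_sum_of_subset_of_nonneg hs
    fun b' _ _ => sum_nonneg fun s _ => hn b b' s).trans ?_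
  exact sum_le_sum_of_subset_of_nonneg hs fun b _ _ => sum_nonneg fun b' _ =>
    sum_nonneg fun s _ => hn b b' s

end

/-- the block of `t` -/
lemma block_t {E1 : ℝ} (hE1 : 1 ≤ E1) {t : Eis} (ht : t ∈ pb E1) :
    ∃ k ∈ range (Nat.log 2 ⌊E1⌋₊ + 1), t ∈ pb (E1 / 2 ^ k) ∧ Bt E1 t ≤ 2 ^ (k + 1) := by
  have ht1 := mem_pb.mp ht
  have nt : (1 : ℝ) ≤ nm t := E3M829.one_le ht1.2
  have nt0 : (0 : ℝ) < nm t := by linarith
  have hB : 1 ≤ Bt E1 t := Bt_one ht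
  set m : ℕ := ⌊Bt E1 t⌋₊ with hm
  have hm1 : 1 ≤ m := by
    rw [hm]
    exact Nat.one_le_floor_iff _ |>.mpr hB
  have hm0 : m ≠ 0 := by omega
  have h1 : 2 ^ (Nat.log 2 m) ≤ m := Nat.pow_log_le_self 2 hm0
  have h2 : m < 2 ^ (Nat.log 2 m + 1) := Nat.lt_pow_succ_log_self (by norm_num) m
  have hmB : (m : ℝ) ≤ Bt E1 t := Nat.floor_le (by linarith)
  have hBm : Bt E1 t < m + 1 := Nat.lt_floor_add_one _
  refine ⟨Nat.log 2 m, ?_, ?_, ?_⟩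
  · rw [mem_range]
    have : m ≤ ⌊E1⌋₊ := by
      rw [hm]
      refine Nat.floor_le_floor ?_
      unfold Bt
      exact div_le_self (by linarith) nt
    have := Nat.log_mono_right (b := 2) this
    omega
  · rw [mem_pb]
    refine ⟨?_, ht1.2⟩
    have h3 : ((2 : ℝ) ^ (Nat.log 2 m)) ≤ Bt E1 t := by
      have : ((2 ^ (Nat.log 2 m) : ℕ) : ℝ) ≤ m := by exact_mod_cast h1
      push_cast at this
      linarith
    unfold Bt at h3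
    rw [le_div_iff₀ nt0] at h3
    rw [le_div_iff₀ (by positivity)]
    linarith
  · have h4 : ((m : ℝ) + 1) ≤ (2 : ℝ) ^ (Nat.log 2 m + 1) := by
      have : m + 1 ≤ 2 ^ (Nat.log 2 m + 1) := h2
      exact_mod_cast this
    linarith

/-- the off-diagonal part in dyadic blocks -/
lemma OP_blocks {w : ℝ → ℝ} {K E1 R E0 b₀ : ℝ} (hK : 0 ≤ K) (hE1 : 1 ≤ E1)
    {J : Finset (Eis × Eis)} {om : Eis × Eis → ℂ} {T : Eis → Eis → Eis → ℂ} :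
    ∑ q ∈ S R, ∑ t ∈ pb E1, OP w K (Bt E1 t) J om T E0 R b₀ q t ≤
      ∑ k ∈ range (Nat.log 2 ⌊E1⌋₊ + 1), ∑ q ∈ S R, ∑ t ∈ pb (E1 / 2 ^ k),
        OP w K (2 ^ (k + 1)) J om T E0 R b₀ q t := by
  have hcomm : ∑ k ∈ range (Nat.log 2 ⌊E1⌋₊ + 1), ∑ q ∈ S R, ∑ t ∈ pb (E1 / 2 ^ k),
        OP w K (2 ^ (k + 1)) J om T E0 R b₀ q t =
      ∑ q ∈ S R, ∑ k ∈ range (Nat.log 2 ⌊E1⌋₊ + 1), ∑ t ∈ pb (E1 / 2 ^ k),
        OP w K (2 ^ (k + 1)) J om T E0 R b₀ q t := sum_comm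
  rw [hcomm]
  refine sum_le_sum fun q _ => ?_
  set N := Nat.log 2 ⌊E1⌋₊ + 1 with hN
  have h0 : ∀ k t, 0 ≤ OP w K (2 ^ (k + 1)) J om T E0 R b₀ q t := fun k t => OP_nonneg hK
  have h1 : ∀ t ∈ pb E1, OP w K (Bt E1 t) J om T E0 R b₀ q t ≤
      ∑ k ∈ range N, if t ∈ pb (E1 / 2 ^ k) then OP w K (2 ^ (k + 1)) J om T E0 R b₀ q t else 0 := by
    intro t ht
    obtain ⟨k, hk, h2, h3⟩ := block_t hE1 ht
    have h4 : (if t ∈ pb (E1 / 2 ^ k) then OP w K (2 ^ (k + 1)) J om T E0 R b₀ q t else 0) ≤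
        ∑ k ∈ range N, if t ∈ pb (E1 / 2 ^ k) then
          OP w K (2 ^ (k + 1)) J om T E0 R b₀ q t else 0 :=
      single_le_sum (f := fun k => if t ∈ pb (E1 / 2 ^ k) then
          OP w K (2 ^ (k + 1)) J om T E0 R b₀ q t else 0)
        (fun k _ => by beta_reduce; split_ifs <;> [exact h0 k t; exact le_rfl]) hk
    rw [if_pos h2] at h4
    exact (OP_mono hK h3).trans h4
  refine (sum_le_sum h1).trans ?_
  rw [sum_comm]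
  refine sum_le_sum fun k _ => ?_
  rw [← sum_filter]
  exact sum_le_sum_of_subset_of_nonneg (fun t ht => (mem_filter.mp ht).2) fun t _ _ => h0 k t

/-- **the Gram sum up to the mode sums of the pairs of levels, `B = E1 / N(t)`** -/
theorem gram_MPTt {w : ℝ → ℝ} (hw : Wgt w) (hw0 : ∀ x, 0 ≤ w x) {Rw : ℝ} {A Bw : ℕ}
    (hRw : 0 ≤ Rw) (hA : 1 < A) (hBw : 1 < Bw) {ε : ℝ} (hε : 0 < ε) :
    ∃ C b₀ : ℝ, 1 ≤ C ∧ 0 ≤ b₀ ∧ ∀ (ι : Type) (I : Finset ι)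
    (J : Finset (Eis × Eis)) (om : Eis × Eis → ℂ) (omi : ι → Eis × Eis → ℂ)
    (T : Eis → Eis → Eis → ℂ), TC T → OKJ J → (∀ x ∈ J, om x = ∑ i ∈ I, omi i x) →
    ∀ (V : ι → ℝ), (∀ i ∈ I, 0 < V i) →
    (∀ i ∈ I, ∀ x ∈ J, omi i x ≠ 0 →
      |Real.log (nm (x.2 * x.1 ^ 2)) - Real.log (V i)| ≤ Rw / 2) →
    ∀ (K R Z E0 E1 : ℝ), 0 < K → 1 ≤ Z → K ≤ Z → 0 ≤ R → R ≤ Z → 0 ≤ E0 → E0 ≤ Z →
    1 ≤ E1 → E1 ≤ Z → (∀ x ∈ J, (nm x.1 : ℝ) ≤ Z) → (∀ x ∈ J, (nm x.2 : ℝ) ≤ R) →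
    (∑' k : Eis, if IsPrim k ∧ Cut E1 k then
        w ((nm k : ℝ) / K) * ‖SteT J om E0 T k‖ ^ 2 else 0) ≤
      kap0 * K ^ (2 / 3 : ℝ) * Iw w * XT J om E0 T +
      C * Z ^ ε * (K ^ (2 / 3 : ℝ) *
        ((R / K ^ 2) ^ (1 / 6 : ℝ) * TF (1 / 2) J om E0 T + E1⁻¹ * TF (-1) J om E0 T) +
        (K ^ (-(1 : ℝ) / 3) * E1 ^ 2 * R) * ∑ x ∈ J, EF om T E0 x) +
      C * ∑ k ∈ range (Nat.log 2 ⌊E1⌋₊ + 1), ∑ i ∈ I, ∑ j ∈ I, ∑ q ∈ S R,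
        ∑ t ∈ pb (E1 / 2 ^ k),
        MPT A Bw K (2 ^ (k + 1)) (V i) (V j) (Z ^ 5) J (omi i) (omi j) T E0 R b₀ q t := by
  have hε2 : 0 < ε / 2 := by positivity
  obtain ⟨C1, b₀, hC1, hb0, h1⟩ := gram_OPt hw hw0 hε
  obtain ⟨C2, hC2, h2⟩ := OFF_le hw hRw hA hBw hε2
  have hlog : ∀ E1 Z : ℝ, 1 ≤ E1 → E1 ≤ Z →
      ((Nat.log 2 ⌊E1⌋₊ + 1 : ℕ) : ℝ) ≤ (2 + 4 / ε) * Z ^ (ε / 2) := by
    intro E1 Z hE1 hE1Z
    have hZ1 : 1 ≤ Z := hE1.trans hE1Z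
    have hf0 : ⌊E1⌋₊ ≠ 0 := by
      have : 1 ≤ ⌊E1⌋₊ := (Nat.one_le_floor_iff _).mpr hE1
      omega
    have a1 : (2 : ℝ) ^ (Nat.log 2 ⌊E1⌋₊) ≤ Z := by
      have b1 : 2 ^ (Nat.log 2 ⌊E1⌋₊) ≤ ⌊E1⌋₊ := Nat.pow_log_le_self 2 hf0
      have b2 : ((2 ^ (Nat.log 2 ⌊E1⌋₊) : ℕ) : ℝ) ≤ ⌊E1⌋₊ := by exact_mod_cast b1
      push_cast at b2
      exact (b2.trans (Nat.floor_le (by linarith))).trans hE1Z
    have a2 : (Nat.log 2 ⌊E1⌋₊ : ℝ) * Real.log 2 ≤ Real.log Z := by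
      have := Real.log_le_log (by positivity) a1
      rwa [Real.log_pow] at this
    have a3 : (1 : ℝ) / 2 ≤ Real.log 2 := by linarith [Real.log_two_gt_d9]
    have a4 : (Nat.log 2 ⌊E1⌋₊ : ℝ) ≤ 2 * Real.log Z := by
      have : (0 : ℝ) ≤ (Nat.log 2 ⌊E1⌋₊ : ℝ) := Nat.cast_nonneg _
      nlinarith
    have a5 := E3M829.log_Z hε2 hZ1
    have a6 : 1 ≤ Z ^ (ε / 2) := Real.one_le_rpow hZ1 hε2.le
    have a7 : 0 ≤ Real.log Z := Real.log_nonneg hZ1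
    push_cast
    have e : (1 + 1 / (ε / 2)) * Z ^ (ε / 2) * 2 = (2 + 4 / ε) * Z ^ (ε / 2) := by
      field_simp
      ring
    nlinarith
  refine ⟨C1 + C2 * (1 + (2 + 4 / ε) * 16), b₀, ?_, hb0, ?_⟩
  · have : 0 ≤ C2 * ((2 + 4 / ε) * 16) := by positivity
    nlinarith
  intro ι I J om omi T hT hJ hom V hV hJV K R Z E0 E1 hK hZ hKZ hR0 hRZ hE0 hE0Z hE1 hE1Z hJ1 hJ2
  have hZ0 : (0 : ℝ) < Z := by linarith
  have hE10 : 0 < E1 := by linarith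
  have k1 := h1 K Z R E0 E1 hK hZ hKZ hE0 hE0Z hRZ hE10 J hJ hJ1 hJ2 om T hT
  have kb := OP_blocks (w := w) (K := K) (R := R) (E0 := E0) (b₀ := b₀) (J := J) (om := om)
    (T := T) hK.le hE1
  set N := Nat.log 2 ⌊E1⌋₊ + 1 with hN
  set F := ∑ x ∈ J, EF om T E0 x with hF
  have t3 : 0 ≤ F := sum_nonneg fun x _ => EF_nonneg om T E0 x
  have k2 : ∀ k ∈ range N, ∑ q ∈ S R, ∑ t ∈ pb (E1 / 2 ^ k),
      OP w K (2 ^ (k + 1)) J om T E0 R b₀ q t ≤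
      C2 * (∑ i ∈ I, ∑ j ∈ I, ∑ q ∈ S R, ∑ t ∈ pb (E1 / 2 ^ k),
        MPT A Bw K (2 ^ (k + 1)) (V i) (V j) (Z ^ 5) J (omi i) (omi j) T E0 R b₀ q t) +
      C2 * Z ^ (ε / 2) * (4 * (K ^ (-(1 : ℝ) / 3) * E1 ^ 2 * R)) * F := by
    intro k _
    have := h2 ι I J om omi T hT hJ hom V hV hJV K R Z (2 ^ (k + 1)) E0 (E1 / 2 ^ k) b₀ hK hZ hR0
      hRZ (one_le_pow₀ (by norm_num)) (by positivity) hJ1 hJ2
    refine this.trans (le_of_eq ?_)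
    have e : K ^ (-(1 : ℝ) / 3) * (E1 / 2 ^ k) ^ 2 * (2 ^ (k + 1)) ^ 2 * R =
        4 * (K ^ (-(1 : ℝ) / 3) * E1 ^ 2 * R) := by
      rw [pow_succ]
      field_simp
      ring
    rw [e]
  have k3 := kb.trans (sum_le_sum k2)
  rw [sum_add_distrib, ← mul_sum, sum_const, card_range, nsmul_eq_mul] at k3
  have hlogN := hlog E1 Z hE1 hE1Z
  rw [← hN] at hlogN
  have t1 := E3M829.TF_nonneg (1 / 2) J om E0 T
  have t2 := E3M829.TF_nonneg (-1) J om E0 T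
  have hRK : 0 ≤ (R / K ^ 2) ^ (1 / 6 : ℝ) := by positivity
  have hi : 0 < E1⁻¹ := inv_pos.mpr hE10
  set a := K ^ (2 / 3 : ℝ) *
      ((R / K ^ 2) ^ (1 / 6 : ℝ) * TF (1 / 2) J om E0 T + E1⁻¹ * TF (-1) J om E0 T) with ha
  have ha0 : 0 ≤ a := by positivity
  set g := K ^ (-(1 : ℝ) / 3) * E1 ^ 2 * R with hg
  have hg0 : 0 ≤ g := by positivity
  set M := ∑ k ∈ range N, ∑ i ∈ I, ∑ j ∈ I, ∑ q ∈ S R, ∑ t ∈ pb (E1 / 2 ^ k),
        MPT A Bw K (2 ^ (k + 1)) (V i) (V j) (Z ^ 5) J (omi i) (omi j) T E0 R b₀ q t with hM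
  have hM0 : 0 ≤ M := sum_nonneg fun k _ => sum_nonneg fun i hi => sum_nonneg fun j hj =>
    sum_nonneg fun q hq => sum_nonneg fun t _ =>
      MPT_nonneg A Bw _ _ _ hK.le hJ (hV i hi) (hV j hj) (SR_prim hq).1
  have hz : Z ^ ε = Z ^ (ε / 2) * Z ^ (ε / 2) := by
    rw [← Real.rpow_add hZ0]
    congr 1; ring
  have hz1 : 1 ≤ Z ^ (ε / 2) := Real.one_le_rpow hZ hε2.le
  have a1 : C1 * Z ^ ε * K ^ (2 / 3 : ℝ) *
      ((R / K ^ 2) ^ (1 / 6 : ℝ) * TF (1 / 2) J om E0 T + E1⁻¹ * TF (-1) J om E0 T) =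
      C1 * Z ^ ε * a := by rw [ha]; ring
  rw [a1] at k1
  have hZε : 0 ≤ Z ^ ε := by positivity
  have c0 : 0 ≤ C2 := by linarith
  have hL : 0 ≤ (2 + 4 / ε) * 16 := by positivity
  have a2 : (N : ℝ) * (C2 * Z ^ (ε / 2) * (4 * g) * F) ≤
      (C1 + C2 * (1 + (2 + 4 / ε) * 16)) * Z ^ ε * (g * F) := by
    have b1 : (N : ℝ) * (C2 * Z ^ (ε / 2) * (4 * g) * F) ≤
        ((2 + 4 / ε) * Z ^ (ε / 2)) * (C2 * Z ^ (ε / 2) * (4 * g) * F) :=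
      mul_le_mul_of_nonneg_right hlogN (by positivity)
    refine b1.trans ?_
    have e1 : ((2 + 4 / ε) * Z ^ (ε / 2)) * (C2 * Z ^ (ε / 2) * (4 * g) * F) =
        (C2 * ((2 + 4 / ε) * 4)) * Z ^ ε * (g * F) := by rw [hz]; ring
    rw [e1]
    have hgF : 0 ≤ g * F := by positivity
    have hcc : C2 * ((2 + 4 / ε) * 4) ≤ C1 + C2 * (1 + (2 + 4 / ε) * 16) := by
      have : 0 ≤ C2 * (2 + 4 / ε) := by positivity
      nlinarith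
    gcongr
  have a3 : C2 * M ≤ (C1 + C2 * (1 + (2 + 4 / ε) * 16)) * M := by
    refine mul_le_mul_of_nonneg_right ?_ hM0
    have : 0 ≤ C2 * ((2 + 4 / ε) * 16) := by positivity
    nlinarith
  have a4 : C1 * Z ^ ε * a ≤ (C1 + C2 * (1 + (2 + 4 / ε) * 16)) * Z ^ ε * a := by
    have : C1 ≤ C1 + C2 * (1 + (2 + 4 / ε) * 16) := by
      have : 0 ≤ C2 * (1 + (2 + 4 / ε) * 16) := by positivity
      linarith
    gcongr
  have e5 : (C1 + C2 * (1 + (2 + 4 / ε) * 16)) * Z ^ ε * (a + g * F) =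
      (C1 + C2 * (1 + (2 + 4 / ε) * 16)) * Z ^ ε * a +
      (C1 + C2 * (1 + (2 + 4 / ε) * 16)) * Z ^ ε * (g * F) := by ring
  rw [e5]
  linarith

end Crest.Agent.R017.E3B271
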