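import Crest.Agent.R017.BD6_829

/-!
# Row 17, block C70, leaf E3 (D) (helper579): structured sequences, their Gauss side

* `uS om r b` : the structured sequences; `bt κ b`, `bF κ F b` : the inner coefficient at `κ F`
* `uS_mul_F` : `uS om r b (κ F μ) = cK * (sy F μ * uS (om (N (κ F) ·)) (r κ F) (bF κ F b) μ)`
* `TT_F` : `TT (sy s · sy F · uS) (H F) t = TT uS (H s²) t`;  `xF_eq'` : the sequences of (C)
* `TG_b0` : the c-side of `bF κ F (b0 a d e f)`: `κ` cancels
* `conj_TE0`, `norm_CS_bF` : relation with the inner sums `TE`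
-/

set_option autoImplicit false
set_option linter.unusedVariables false
set_option linter.unusedSectionVars false

noncomputable section

open Complex MeasureTheory
open scoped ComplexConjugate

namespace Crest.Agent.R017.E3D579

open Crest.Agent.R012 Crest.Agent.R012.Eis Crest.Agent.R012.MC
open Crest.Agent.R012.LS2 (S mem_S)
open Crest.Agent.R012.Weight600 (pw)
open Crest.Agent.R017.PX764 (Gh n6 n6_mul norm_Gh_one Gh_mul_conj Gh_zero norm_sy_one)
open Crest.Agent.R017.CM106 (CS TG FS)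
open Crest.Agent.R017.BD829 (TT EQ rs)
open Crest.Agent.R017.E1551 (jb jb_pos nmpos)
open Gauss880 (syG)

/-! ### definitions -/

open Classical in
/-- structured sequence -/
def uS (om : ℝ → ℂ) (r : Eis) (b : Eis → ℂ) (n : Eis) : ℂ :=
  if IsPrim n ∧ Squarefree n ∧ IsCoprime n r then
    om (nm n) * ((n6 n : ℂ) * (conj (G n) * CS b n)) else 0

open Classical in
/-- dilation of the inner coefficient -/
def bt (κ : Eis) (b : Eis → ℂ) (m : Eis) : ℂ :=
  if κ ∣ m then b (m / κ) * sy κ (m / κ) else 0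

open Classical in
/-- the inner coefficient of `TE`; `a m = al (d * m)` or `af d m` -/
def b0 (a : Eis → ℂ) (d e f : Eis) (m : Eis) : ℂ :=
  if e ∣ m ∧ IsCoprime f (d * m) then conj (a m) * ((n6 m : ℂ) * conj (Gh f m)) else 0

open Classical in
/-- the c-side sequence -/
def cs (a : Eis → ℂ) (d e f κ : Eis) (m : Eis) : ℂ :=
  if e ∣ m ∧ IsCoprime f (d * m) ∧ IsCoprime m κ then a m * (n6 m : ℂ) else 0

open Classical in
/-- 440's `TE al (d, j) e`, with `a m = al (d * m)` -/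
def TE0 (a : Eis → ℂ) (d j e : Eis) : ℂ :=
  ∑' m : Eis, if e ∣ m ∧ IsCoprime j (d * m) then a m * ((n6 m : ℂ) * Gh j m) else 0

/-! ### dilation -/

lemma bt_mul {κ : Eis} (hκ : κ ≠ 0) (b : Eis → ℂ) (m : Eis) :
    bt κ b (κ * m) = b m * sy κ m := by
  unfold bt
  rw [if_pos (dvd_mul_right _ _), mul_div_cancel_left₀ m hκ]

lemma bt_supp {κ : Eis} (hκ : κ ≠ 0) {b : Eis → ℂ} {m : Eis} (h : bt κ b m ≠ 0) :
    ∃ n, m = κ * n ∧ b n ≠ 0 := by
  unfold bt at h
  split_ifs at h with hd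
  · obtain ⟨n, rfl⟩ := hd
    rw [mul_div_cancel_left₀ n hκ] at h
    exact ⟨n, rfl, left_ne_zero_of_mul h⟩
  · exact absurd rfl h

lemma tsum_bt {κ : Eis} (hκ : κ ≠ 0) (b F : Eis → ℂ) :
    ∑' m, bt κ b m * F m = ∑' m, (b m * sy κ m) * F (κ * m) := by
  have hinj : Function.Injective (fun m : Eis => κ * m) := fun x y h => mul_left_cancel₀ hκ h
  rw [← hinj.tsum_eq (f := fun m => bt κ b m * F m)]
  · exact tsum_congr fun m => by rw [bt_mul hκ]
  · intro m hm
    obtain ⟨n, rfl, -⟩ := bt_supp hκ (left_ne_zero_of_mul (show bt κ b m * F m ≠ 0 from hm))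
    exact ⟨n, rfl⟩

lemma FS.bt {κ : Eis} (hκ : IsPrim κ) {b : Eis → ℂ} (h : FS b) : FS (bt κ b) where
  fin := by
    refine Set.Finite.subset (h.fin.image (fun m => κ * m)) ?_
    intro m hm
    obtain ⟨n, rfl, hn⟩ := bt_supp hκ.ne_zero hm
    exact ⟨n, hn, rfl⟩
  prim := fun m hm => by
    obtain ⟨n, rfl, hn⟩ := bt_supp hκ.ne_zero hm
    exact hκ.mul (h.prim n hn)

lemma sy_mulL {x y c : Eis} (hc : IsPrim c) : sy (x * y) c = sy x c * sy y c :=
  syG.mul_left x y c hc

lemma sy_mulR {x c d : Eis} (hc : IsPrim c) (hd : IsPrim d) : sy x (c * d) = sy x c * sy x d :=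
  syG.mul_right x c d hc hd

/-- `CS (bt κ b) μ = sy μ κ * CS b (κ μ)` -/
lemma CS_bt {κ : Eis} (hκ : IsPrim κ) {b : Eis → ℂ} (hb : FS b) (μ : Eis) :
    CS (bt κ b) μ = sy μ κ * CS b (κ * μ) := by
  unfold CS
  rw [tsum_bt hκ.ne_zero, ← tsum_mul_left]
  refine tsum_congr fun m => ?_
  by_cases hm : b m = 0
  · simp [hm]
  · have hp := hb.prim m hm
    rw [sy_mulR hκ hp, sy_mulL hp]; ring

/-! ### (D1) -/

open Classical in
/-- the constant of (D1) -/
def cK (r κ : Eis) : ℂ :=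
  if Squarefree κ ∧ IsCoprime κ r then (n6 κ : ℂ) * conj (G κ) else 0

lemma n6_nonneg (a : Eis) : 0 ≤ n6 a := Real.rpow_nonneg (Nat.cast_nonneg _) _

lemma norm_cK_le (r : Eis) {κ : Eis} (hκ : IsPrim κ) : ‖cK r κ‖ ≤ n6 κ := by
  unfold cK
  split_ifs with h
  · rw [norm_mul, RCLike.norm_conj, Complex.norm_real, Real.norm_eq_abs,
      abs_of_nonneg (n6_nonneg κ), Gauss880.norm_G syG hκ h.1, mul_one]
  · rw [norm_zero]; exact n6_nonneg κ

/-- **(D1)** -/
theorem uS_mul (om : ℝ → ℂ) (r : Eis) {b : Eis → ℂ} (hb : FS b) {κ : Eis} (hκ : IsPrim κ)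
    (μ : Eis) : uS om r b (κ * μ) =
      cK r κ * uS (fun x => om ((nm κ : ℝ) * x)) (r * κ) (bt κ b) μ := by
  classical
  by_cases h : IsPrim (κ * μ) ∧ Squarefree (κ * μ) ∧ IsCoprime (κ * μ) r
  · obtain ⟨h1, h2, h3⟩ := h
    have hμ : IsPrim μ := h1.of_mul_left hκ
    have hco : IsCoprime κ μ := (squarefree_mul_iff.mp h2).1.isCoprime
    have hs1 : Squarefree κ := h2.of_mul_left
    have hs2 : Squarefree μ := h2.of_mul_right
    unfold uS cK
    rw [if_pos ⟨h1, h2, h3⟩, if_pos ⟨hs1, h3.of_mul_left_left⟩,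
      if_pos ⟨hμ, hs2, h3.of_mul_left_right.mul_right hco.symm⟩]
    rw [CS_bt hκ hb, n6_mul, Gauss880.G_mul_all syG hκ hμ, nm_mul]
    have e1 : sy κ μ = sy μ κ := syG.recip κ μ hκ hμ
    simp only [map_mul, Complex.conj_conj]
    rw [e1]
    push_cast
    ring
  · have e1 : uS om r b (κ * μ) = 0 := by unfold uS; rw [if_neg h]
    rw [e1]
    symm
    by_contra hne
    apply h
    have hc := left_ne_zero_of_mul hne
    have hu := right_ne_zero_of_mul hne
    unfold cK at hc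
    unfold uS at hu
    split_ifs at hc with hc1
    · split_ifs at hu with hu1
      · obtain ⟨h1, h2, h3⟩ := hu1
        exact ⟨hκ.mul h1, squarefree_mul_iff.mpr
          ⟨(h3.of_mul_right_right.symm).isRelPrime, hc1.1, h2⟩,
          hc1.2.mul_left h3.of_mul_right_left⟩
      · exact (hu rfl).elim
    · exact (hc rfl).elim

/-! ### (D2) -/

lemma sy_conj_sq {s H m : Eis} (hm : IsPrim m) :
    sy s m * conj (sy H m) = conj (sy (H * s ^ 2) m) := by
  have e1 : sy (H * s ^ 2) m = sy H m * (sy s m * sy s m) := by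
    rw [pow_two, sy_mulL hm, sy_mulL hm]
  rw [e1]
  by_cases hc : IsCoprime s m
  · have h1 := syG.cube s m hm hc
    have h2 : sy s m * conj (sy s m) = 1 := by
      rw [Complex.mul_conj, Complex.normSq_eq_norm_sq, norm_sy_one hm hc]; simp
    simp only [map_mul]
    have h3 : conj (sy s m) * conj (sy s m) = sy s m := by
      have h4 : conj (sy s m) ^ 3 = 1 := by rw [← map_pow, h1, map_one]
      calc conj (sy s m) * conj (sy s m)
          = (sy s m * conj (sy s m)) * (conj (sy s m) * conj (sy s m)) := by rw [h2, one_mul]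
        _ = sy s m * conj (sy s m) ^ 3 := by ring
        _ = sy s m := by rw [h4, mul_one]
    rw [h3]; ring
  · have h0 : sy s m = 0 := (syG.eq_zero s m hm).mpr hc
    rw [h0]; simp

/-- **(D2)** -/
theorem TT_sy {u : Eis → ℂ} (hu : ∀ n, u n ≠ 0 → IsPrim n) (s H : Eis) (t : ℝ) :
    TT (fun m => sy s m * u m) H t = TT u (H * s ^ 2) t := by
  unfold TT TG
  refine tsum_congr fun m => ?_
  by_cases hm : u m = 0
  · simp [hm]
  · rw [← sy_conj_sq (hu m hm)]; ring

lemma TT_smul (c : ℂ) (u : Eis → ℂ) (H : Eis) (t : ℝ) :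
    TT (fun m => c * u m) H t = c * TT u H t := by
  unfold TT TG
  rw [← tsum_mul_left]
  exact tsum_congr fun m => by ring

lemma EQ_smul (A : ℝ) (c : ℂ) (u : Eis → ℂ) (H : Eis) :
    EQ A (fun m => c * u m) H = ‖c‖ ^ 2 * EQ A u H := by
  unfold EQ
  rw [← integral_const_mul]
  refine integral_congr_ae (Filter.Eventually.of_forall fun t => ?_)
  beta_reduce
  rw [TT_smul, norm_mul, mul_pow]; ring

lemma EQ_sy {u : Eis → ℂ} (hu : ∀ n, u n ≠ 0 → IsPrim n) (A : ℝ) (s H : Eis) :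
    EQ A (fun m => sy s m * u m) H = EQ A u (H * s ^ 2) := by
  unfold EQ
  refine integral_congr_ae (Filter.Eventually.of_forall fun t => ?_)
  beta_reduce
  rw [TT_sy hu]

lemma uS_supp {om : ℝ → ℂ} {r : Eis} {b : Eis → ℂ} {n : Eis} (h : uS om r b n ≠ 0) :
    IsPrim n ∧ Squarefree n ∧ IsCoprime n r ∧ om (nm n) ≠ 0 := by
  unfold uS at h
  split_ifs at h with h1
  · exact ⟨h1.1, h1.2.1, h1.2.2, left_ne_zero_of_mul h⟩
  · exact absurd rfl h

open Classical in
/-- cutting by a coprimality condition -/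
lemma uS_cop (om : ℝ → ℂ) (r q : Eis) (b : Eis → ℂ) (n : Eis) :
    (if IsCoprime n q then uS om r b n else 0) = uS om (r * q) b n := by
  unfold uS
  by_cases h1 : IsCoprime n q
  · rw [if_pos h1]
    by_cases h2 : IsPrim n ∧ Squarefree n ∧ IsCoprime n r
    · rw [if_pos h2, if_pos ⟨h2.1, h2.2.1, h2.2.2.mul_right h1⟩]
    · rw [if_neg h2, if_neg]
      rintro ⟨h3, h4, h5⟩
      exact h2 ⟨h3, h4, h5.of_mul_right_left⟩
  · rw [if_neg h1, if_neg]
    rintro ⟨h3, h4, h5⟩
    exact h1 h5.of_mul_right_right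

open Classical in
/-- the sequences `x_F` of (C): `U n = sy s₁ n * uS om r b n`, with `a`, `q`, `s` and the
restriction to multiples of `D F` -/
theorem xF_eq (om : ℝ → ℂ) (r : Eis) {b : Eis → ℂ} (hb : FS b) {a q s s₁ D F : Eis}
    (ha : IsPrim a) (hD : IsPrim D) (hF : IsPrim F) (μ : Eis) :
    (if IsCoprime (D * F * μ) q then
        (sy s₁ (a * (D * F * μ)) * uS om r b (a * (D * F * μ))) * sy s (a * (D * F * μ)) else 0) =
      ((if IsCoprime (D * F) q then sy (s₁ * s) (a * (D * F)) * cK r (a * (D * F)) else 0) *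
        (sy (s₁ * s) μ * uS (fun x => om ((nm (a * (D * F)) : ℝ) * x)) (r * (a * (D * F)) * q)
          (bt (a * (D * F)) b) μ)) := by
  have hκ : IsPrim (a * (D * F)) := ha.mul (hD.mul hF)
  have e0 : a * (D * F * μ) = (a * (D * F)) * μ := by ring
  rw [e0, uS_mul om r hb hκ μ, ← uS_cop _ (r * (a * (D * F))) q]
  by_cases h1 : uS (fun x => om ((nm (a * (D * F)) : ℝ) * x)) (r * (a * (D * F)))
      (bt (a * (D * F)) b) μ = 0
  · rw [h1]; simp
  · have hμ := (uS_supp h1).1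
    rw [sy_mulR hκ hμ, sy_mulR hκ hμ, sy_mulL hκ, sy_mulL hμ]
    by_cases h2 : IsCoprime (D * F) q
    · by_cases h3 : IsCoprime μ q
      · rw [if_pos (h2.mul_left h3), if_pos h2, if_pos h3]; ring
      · rw [if_neg (fun h => h3 h.of_mul_left_right), if_pos h2, if_neg h3]; ring
    · rw [if_neg (fun h => h2 h.of_mul_left_left), if_neg h2]; ring

/-! ### (D1) with the factor `F` kept outside -/

/-- the inner coefficient at `κ F` -/
def bF (κ F : Eis) (b : Eis → ℂ) : Eis → ℂ := bt κ (fun m => b m * sy F m)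

lemma FS.mul_right {b : Eis → ℂ} (h : FS b) (g : Eis → ℂ) : FS (fun m => b m * g m) where
  fin := h.fin.subset fun m hm h0 => hm (by
    have h0' : b m = 0 := h0
    simp [h0'])
  prim := fun m hm => h.prim m (left_ne_zero_of_mul hm)

lemma FS.bF {κ F : Eis} (hκ : IsPrim κ) {b : Eis → ℂ} (h : FS b) : FS (bF κ F b) :=
  FS.bt hκ (FS.mul_right h _)

/-- `CS (bF κ F b) μ = sy μ κ * CS b (F κ μ)` -/
lemma CS_bF {κ F : Eis} (hκ : IsPrim κ) {b : Eis → ℂ} (hb : FS b) (μ : Eis) :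
    CS (bF κ F b) μ = sy μ κ * CS b (F * (κ * μ)) := by
  unfold bF
  rw [CS_bt hκ (FS.mul_right hb _)]
  congr 1
  unfold CS
  refine tsum_congr fun m => ?_
  by_cases hm : b m = 0
  · simp [hm]
  · have hp := hb.prim m hm
    rw [sy_mulL hp, sy_mulL hp, sy_mulL hp]; ring

/-- **(D1')** the factor `F` outside -/
theorem uS_mul_F (om : ℝ → ℂ) (r : Eis) {b : Eis → ℂ} (hb : FS b) {κ F : Eis} (hκ : IsPrim κ)
    (hF : IsPrim F) (μ : Eis) : uS om r b (κ * F * μ) =
      cK r (κ * F) * (sy F μ *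
        uS (fun x => om ((nm (κ * F) : ℝ) * x)) (r * (κ * F)) (bF κ F b) μ) := by
  rw [uS_mul om r hb (hκ.mul hF)]
  congr 1
  by_cases h : IsPrim μ ∧ Squarefree μ ∧ IsCoprime μ (r * (κ * F))
  · unfold uS
    rw [if_pos h, if_pos h, CS_bt (hκ.mul hF) hb, CS_bF hκ hb, sy_mulR hκ hF]
    have e1 : sy F μ = sy μ F := syG.recip F μ hF h.1
    have e2 : κ * F * μ = F * (κ * μ) := by ring
    rw [e1, e2]; ring
  · unfold uS
    rw [if_neg h, if_neg h, mul_zero]

lemma TT_cube {u : Eis → ℂ} {F : Eis} (hu : ∀ n, u n ≠ 0 → IsPrim n ∧ IsCoprime F n) (H : Eis)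
    (t : ℝ) : TT u (H * F ^ 3) t = TT u H t := by
  unfold TT TG
  refine tsum_congr fun m => ?_
  by_cases hm : u m = 0
  · simp [hm]
  · obtain ⟨h1, h2⟩ := hu m hm
    have e1 : H * F ^ 3 = H * (F * (F * F)) := by ring
    have h3 := syG.cube F m h1 h2
    rw [e1, sy_mulL h1, sy_mulL h1, sy_mulL h1]
    have : sy F m * (sy F m * sy F m) = 1 := by rw [← h3]; ring
    rw [this, mul_one]

/-- **(D2')**: at the frequency `H F` the symbol of `F` disappears -/
theorem TT_F (om : ℝ → ℂ) (r s : Eis) (b : Eis → ℂ) {κ F : Eis} (H : Eis) (t : ℝ) :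
    TT (fun μ => sy s μ * (sy F μ * uS om (r * (κ * F)) b μ)) (H * F) t =
      TT (uS om (r * (κ * F)) b) (H * s ^ 2) t := by
  have e1 : (fun μ => sy s μ * (sy F μ * uS om (r * (κ * F)) b μ)) =
      fun μ => sy (s * F) μ * uS om (r * (κ * F)) b μ := by
    funext μ
    by_cases h : uS om (r * (κ * F)) b μ = 0
    · rw [h]; simp
    · rw [sy_mulL (uS_supp h).1]; ring
  rw [e1, TT_sy (fun n hn => (uS_supp hn).1)]
  have e2 : H * F * (s * F) ^ 2 = (H * s ^ 2) * F ^ 3 := by ring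
  rw [e2, TT_cube]
  intro n hn
  obtain ⟨h1, -, h2, -⟩ := uS_supp hn
  exact ⟨h1, h2.of_mul_right_right.of_mul_right_right.symm⟩

open Classical in
/-- **`x_F`**, final form: `U n = sy s₁ n * uS om r b n` at `n = a D F μ`, twisted by `ψ`. -/
theorem xF_eq' (om : ℝ → ℂ) (r : Eis) {b : Eis → ℂ} (hb : FS b) {a q s s₁ D F : Eis}
    (ha : IsPrim a) (hD : IsPrim D) (hF : IsPrim F) (μ : Eis) :
    (if IsCoprime (D * F * μ) q then
        (sy s₁ (a * (D * F * μ)) * uS om r b (a * (D * F * μ))) * sy s (a * (D * F * μ)) else 0) =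
      ((if IsCoprime (D * F) q then sy (s₁ * s) (a * D * F) * cK r (a * D * F) else 0) *
        (sy (s₁ * s) μ * (sy F μ *
          uS (fun x => om ((nm (a * D * F) : ℝ) * x)) (r * q * (a * D * F)) (bF (a * D) F b) μ))) := by
  have hκ : IsPrim (a * D * F) := (ha.mul hD).mul hF
  have e0 : a * (D * F * μ) = (a * D * F) * μ := by ring
  rw [e0, uS_mul_F om r hb (ha.mul hD) hF μ]
  have e9 : r * q * (a * D * F) = r * (a * D * F) * q := by ring
  rw [e9, ← uS_cop _ (r * (a * D * F)) q]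
  by_cases h1 : uS (fun x => om ((nm (a * D * F) : ℝ) * x)) (r * (a * D * F))
      (bF (a * D) F b) μ = 0
  · rw [h1]; simp
  · have hμ := (uS_supp h1).1
    rw [sy_mulR hκ hμ, sy_mulR hκ hμ, sy_mulL hκ, sy_mulL hμ]
    by_cases h2 : IsCoprime (D * F) q
    · by_cases h3 : IsCoprime μ q
      · rw [if_pos (h2.mul_left h3), if_pos h2, if_pos h3]; ring
      · rw [if_neg (fun h => h3 h.of_mul_left_right), if_pos h2, if_neg h3]; ring
    · rw [if_neg (fun h => h2 h.of_mul_left_left), if_neg h2]; ring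

/-! ### (D3) the c-side -/

/-- the Gauss side of a dilation -/
theorem TG_bt {κ : Eis} (hκ : IsPrim κ) {b : Eis → ℂ} (hb : FS b) (k : Eis) :
    TG (bt κ b) k = G κ * conj (sy k κ) *
      ∑' m, (sy κ m * conj (sy κ m)) * (b m * (G m * conj (sy k m))) := by
  unfold TG
  rw [tsum_bt hκ.ne_zero, ← tsum_mul_left]
  refine tsum_congr fun m => ?_
  by_cases hm : b m = 0
  · simp [hm]
  · have hp := hb.prim m hm
    rw [sy_mulR hκ hp, Gauss880.G_mul_all syG hκ hp]
    simp only [map_mul]; ring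

lemma FS_b0 {a : Eis → ℂ} (ha : FS a) (d e f : Eis) : FS (b0 a d e f) where
  fin := ha.fin.subset fun m hm h0 => hm (by
    have h0' : a m = 0 := h0
    show b0 a d e f m = 0
    unfold b0
    rw [h0']; simp)
  prim := fun m hm => ha.prim m fun h0 => hm (by unfold b0; rw [h0]; simp)

lemma FS_cs {a : Eis → ℂ} (ha : FS a) (d e f κ : Eis) : FS (cs a d e f κ) where
  fin := ha.fin.subset fun m hm h0 => hm (by
    have h0' : a m = 0 := h0
    show cs a d e f κ m = 0
    unfold cs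
    rw [h0']; simp)
  prim := fun m hm => ha.prim m fun h0 => hm (by unfold cs; rw [h0]; simp)

/-- **(D3)** -/
theorem TG_b0 {a : Eis → ℂ} (ha : FS a) (hsf : ∀ n, a n ≠ 0 → Squarefree n) (d : Eis) {κ : Eis}
    (hκ : IsPrim κ) (e f F k : Eis) :
    TG (bF κ F (b0 a d e f)) k =
      G κ * conj (sy k κ) * conj (CS (cs a d e f κ) (k * (f * F) ^ 2)) := by
  unfold bF
  rw [TG_bt hκ (FS.mul_right (FS_b0 ha d e f) _)]
  congr 1
  unfold CS
  rw [Complex.conj_tsum]
  refine tsum_congr fun m => ?_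
  by_cases h0 : a m = 0
  · unfold b0 cs
    rw [h0]; simp
  have hm : IsPrim m := ha.prim _ h0
  have hms : Squarefree m := hsf _ h0
  by_cases h1 : e ∣ m ∧ IsCoprime f (d * m)
  · have hfm : IsCoprime f m := h1.2.of_mul_right_right
    by_cases h2 : IsCoprime m κ
    · unfold b0 cs
      rw [if_pos h1, if_pos ⟨h1.1, h1.2, h2⟩]
      have e1 : sy κ m * conj (sy κ m) = 1 := by
        rw [Complex.mul_conj, Complex.normSq_eq_norm_sq, norm_sy_one hm h2.symm]; simp
      have e2 : G m * conj (G m) = 1 := Gauss880.G_mul_conj syG hm hms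
      have e3 : sy (f * F) m * conj (sy k m) = conj (sy (k * (f * F) ^ 2) m) := sy_conj_sq hm
      have e5 : sy (f * F) m = sy f m * sy F m := sy_mulL hm
      rw [e1]
      unfold Gh
      simp only [map_mul, Complex.conj_conj, Complex.conj_ofReal]
      have e4 : conj (a m) * ((n6 m : ℂ) * (conj (G m) * sy f m)) * sy F m *
          (G m * conj (sy k m)) = conj (a m) * (n6 m : ℂ) * (G m * conj (G m)) *
            (sy (f * F) m * conj (sy k m)) := by rw [e5]; ring
      rw [one_mul, e4, e2, e3]; ring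
    · have e1 : sy κ m = 0 := (syG.eq_zero κ m hm).mpr (fun h => h2 h.symm)
      unfold cs
      rw [e1, if_neg (fun h => h2 h.2.2)]; simp
  · unfold b0 cs
    rw [if_neg h1, if_neg (fun h => h1 ⟨h.1, h.2.1⟩)]; simp

/-! ### (D0), (D4) the inner sums -/

open Classical in
/-- **(D0)** -/
theorem conj_TE0 {a : Eis → ℂ} (ha : FS a) {d n : Eis} (hn : IsPrim n)
    (e f : Eis) : conj (TE0 a d (f * n) e) =
      if IsCoprime n d then CS (b0 a d e f) n else 0 := by
  unfold TE0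
  rw [Complex.conj_tsum]
  by_cases hnd : IsCoprime n d
  · rw [if_pos hnd]
    unfold CS
    refine tsum_congr fun m => ?_
    by_cases h0 : a m = 0
    · unfold b0
      rw [h0]; simp
    have hm : IsPrim m := ha.prim _ h0
    unfold b0
    by_cases h1 : e ∣ m ∧ IsCoprime f (d * m)
    · rw [if_pos h1]
      by_cases h2 : IsCoprime n m
      · rw [if_pos ⟨h1.1, h1.2.mul_left (hnd.mul_right h2)⟩]
        unfold Gh
        rw [sy_mulL hm]
        simp only [map_mul, Complex.conj_conj, Complex.conj_ofReal]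
        ring
      · have e1 : sy n m = 0 := (syG.eq_zero n m hm).mpr h2
        rw [if_neg (fun h => h2 h.2.of_mul_left_right.of_mul_right_right), e1]; simp
    · rw [if_neg h1, if_neg (fun h => h1 ⟨h.1, h.2.of_mul_left_left⟩)]; simp
  · rw [if_neg hnd]
    have : ∀ m, conj (if e ∣ m ∧ IsCoprime (f * n) (d * m) then
        a m * ((n6 m : ℂ) * Gh (f * n) m) else 0) = 0 := by
      intro m
      rw [if_neg (fun h => hnd h.2.of_mul_left_right.of_mul_right_left), map_zero]
    rw [tsum_congr this, tsum_zero]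

/-- **(D4)** -/
theorem norm_CS_bF {a : Eis → ℂ} (ha : FS a) {d κ F μ : Eis} (hκ : IsPrim κ) (hF : IsPrim F)
    (hμ : IsPrim μ) (hc : IsCoprime μ κ) (hcd : IsCoprime (F * (κ * μ)) d) (e f : Eis) :
    ‖CS (bF κ F (b0 a d e f)) μ‖ = ‖TE0 a d (f * (F * (κ * μ))) e‖ := by
  have h := conj_TE0 ha (hF.mul (hκ.mul hμ)) e f (d := d)
  rw [if_pos hcd] at h
  rw [CS_bF hκ (FS_b0 ha d e f), ← h, norm_mul, RCLike.norm_conj, norm_sy_one hκ hc, one_mul]

lemma CS_bF_zero {κ F μ : Eis} (hκ : IsPrim κ) {b : Eis → ℂ} (hb : FS b)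
    (hc : ¬ IsCoprime μ κ) : CS (bF κ F b) μ = 0 := by
  rw [CS_bF hκ hb, (syG.eq_zero μ κ hκ).mpr hc, zero_mul]

end Crest.Agent.R017.E3D579
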