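import Crest.Agent.R017.E3D_579
import Crest.Agent.R017.E3A_164
import Crest.Agent.R017.DgD_829

/-!
# Row 17, block C70, leaf E3 (D), part b (helper579): bridge to 164's `be`, ball sums

* `TE0_eq_TT` : `TE0 al d j e = DgB829.TT Y (aj al d j) e`
* `be_eq` : `be J om T q y n = sy c n * uS om' (g d) (b0 al d e (q c g²)) n`
* `mem_JW_fq` : the window in terms of `N n`
* `sum_CS_bt`, `sum_TG_le`, `CS_cs_merge`
-/

set_option autoImplicit false
set_option linter.unusedVariables false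
set_option linter.unusedSectionVars false

noncomputable section

open Complex MeasureTheory
open scoped ComplexConjugate

namespace Crest.Agent.R017.E3D579

open Crest.Agent.R012 Crest.Agent.R012.Eis Crest.Agent.R012.MC
open Crest.Agent.R012.LS2 (S mem_S)
open Crest.Agent.R017.PX764 (Gh n6 n6_mul norm_Gh_one Gh_mul_conj Gh_zero norm_sy_one)
open Crest.Agent.R017.CM106 (CS TG FS)
open Crest.Agent.R017.C70 (CbF JC JW OKJ)
open Crest.Agent.R017.E3A164 (be fq Yp)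
open Gauss880 (syG)

/-! ### `TE` -/

lemma TE0_eq_sum {a : Eis → ℂ} {Y : ℝ} (ha : ∀ n, a n ≠ 0 → n ∈ S Y) (d j e : Eis) :
    TE0 a d j e = ∑ m ∈ S Y, open Classical in
      if e ∣ m ∧ IsCoprime j (d * m) then a m * ((n6 m : ℂ) * Gh j m) else 0 := by
  classical
  unfold TE0
  refine tsum_eq_sum fun m hm => ?_
  split_ifs with h
  · have h0 : a m = 0 := by
      by_contra h0
      exact hm (ha _ h0)
    rw [h0, zero_mul]
  · rfl

lemma sub_supp {al : Eis → ℂ} {Y : ℝ} (hY : 0 ≤ Y) (hal : ∀ n, al n ≠ 0 → n ∈ S Y) {d : Eis}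
    (hd : IsPrim d) : ∀ m, al (d * m) ≠ 0 → m ∈ S Y := by
  intro m h0
  have h1 := (mem_S hY).1 (hal _ h0)
  refine (mem_S hY).2 ⟨le_trans ?_ h1.1, h1.2.1.of_mul_left hd, h1.2.2.of_mul_right⟩
  have : nm m ≤ nm (d * m) := by
    rw [nm_mul]
    have := nm_pos.mpr hd.ne_zero
    nlinarith [Nat.zero_le (nm m)]
  exact_mod_cast this

lemma TE0_eq_TT {al : Eis → ℂ} {Y : ℝ} (hY : 0 ≤ Y) (hal : ∀ n, al n ≠ 0 → n ∈ S Y) {d : Eis}
    (hd : IsPrim d) (j e : Eis) :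
    TE0 (fun m => al (d * m)) d j e = DgB829.TT Y (DgB829.aj al d j) e := by
  classical
  rw [TE0_eq_sum (sub_supp hY hal hd)]
  unfold DgB829.TT
  refine Finset.sum_congr rfl fun m _ => ?_
  unfold DgB829.aj
  by_cases h1 : e ∣ m
  · by_cases h2 : IsCoprime j (d * m)
    · rw [if_pos ⟨h1, h2⟩, if_pos h1, if_pos h2]
    · rw [if_neg (fun h => h2 h.2), if_pos h1, if_neg h2]
  · rw [if_neg (fun h => h1 h.1), if_neg h1]

/-! ### 164's sequences -/

open Classical in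
/-- **bridge**: 164's `be` is a structured sequence -/
theorem be_eq {J : Finset (Eis × Eis)} {om : Eis × Eis → ℂ} {af : Eis → Eis → ℂ} {q : Eis}
    {y : Yp} (haf : FS (af y.1)) {om' : ℝ → ℂ}
    (hom : ∀ n, IsPrim n → Squarefree n → IsCoprime n y.2.2.2 →
      (if (y.1, fq q y.2.2.1 y.2.2.2 n) ∈ J then conj (om (y.1, fq q y.2.2.1 y.2.2.2 n)) else 0) =
        om' (nm n)) (n : Eis) :
    be J om (fun d e j => TE0 (af d) d j e) q y n =
      sy y.2.2.1 n * uS om' (y.2.2.2 * y.1) (b0 (af y.1) y.1 y.2.1 (q * y.2.2.1 * y.2.2.2 ^ 2)) n := by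
  unfold be uS
  by_cases h1 : IsPrim n ∧ Squarefree n ∧ IsCoprime n y.2.2.2
  · obtain ⟨hn, hs, hg⟩ := h1
    have h2 := hom n hn hs hg
    have e1 : fq q y.2.2.1 y.2.2.2 n = (q * y.2.2.1 * y.2.2.2 ^ 2) * n := by unfold fq; ring
    have h3 := conj_TE0 haf (d := y.1) hn y.2.1 (q * y.2.2.1 * y.2.2.2 ^ 2)
    rw [← e1] at h3
    by_cases h4 : (y.1, fq q y.2.2.1 y.2.2.2 n) ∈ J
    · rw [if_pos h4] at h2
      rw [if_pos ⟨hn, hs, hg, h4⟩, h2, h3]
      by_cases h5 : IsCoprime n y.1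
      · rw [if_pos h5, if_pos ⟨hn, hs, hg.mul_right h5⟩]; ring
      · rw [if_neg h5, if_neg (fun h => h5 h.2.2.of_mul_right_right)]; ring
    · rw [if_neg h4] at h2
      rw [if_neg (fun h => h4 h.2.2.2), ← h2]
      simp
  · rw [if_neg (fun h => h1 ⟨h.1, h.2.1, h.2.2.1⟩),
      if_neg (fun h => h1 ⟨h.1, h.2.1, h.2.2.of_mul_right_left⟩), mul_zero]

/-! ### the window -/

lemma cbF_fq {q n g : Eis} (hq : IsPrim q) (hqs : Squarefree q) (hn : IsPrim n)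
    (hns : Squarefree n) (hg : IsPrim g) (hng : IsCoprime n g) :
    CbF (q * n * g ^ 2) ↔ Squarefree g ∧ IsCoprime q g := by
  constructor
  · intro h
    constructor
    · rw [squarefree_iff_no_irreducibles hg.ne_zero]
      rintro p hp ⟨t, ht⟩
      exact h p hp.prime ⟨q * n * (p * t ^ 2), by rw [ht]; ring⟩
    · rw [Mob705.isCoprime_iff_pp hq]
      rintro p hp ⟨a, rfl⟩ ⟨b, rfl⟩
      exact h p hp.prime ⟨a * n * b ^ 2, by ring⟩
  · rintro ⟨hgs, hqg⟩ p hp hd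
    have hpn : p ∣ n → ¬ p ∣ g := fun h1 h2 => hp.not_isUnit (hng.isUnit_of_dvd' h1 h2)
    have hpq : p ∣ q → ¬ p ∣ g := fun h1 h2 => hp.not_isUnit (hqg.isUnit_of_dvd' h1 h2)
    by_cases hpg : p ∣ g
    · -- `p ∤ q n`, so `p^3 ∣ g^2`
      have h1 : ¬ p ∣ q * n := fun h => (hp.dvd_or_dvd h).elim (fun h => hpq h hpg)
        (fun h => hpn h hpg)
      have h2 : p ^ 3 ∣ g ^ 2 := hp.pow_dvd_of_dvd_mul_left 3 h1 hd
      obtain ⟨t, rfl⟩ := hpg
      have hpt : ¬ p ∣ t := by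
        rintro ⟨s, rfl⟩
        exact hp.not_isUnit (hgs p ⟨s, by ring⟩)
      have h3 : p ^ 2 * p ∣ p ^ 2 * t ^ 2 := by
        have e1 : p ^ 2 * p = p ^ 3 := by ring
        have e2 : p ^ 2 * t ^ 2 = (p * t) ^ 2 := by ring
        rw [e1, e2]; exact h2
      have h4 : p ∣ t ^ 2 := (mul_dvd_mul_iff_left (pow_ne_zero 2 hp.ne_zero)).mp h3
      exact hpt (hp.dvd_of_dvd_pow h4)
    · have h2 : p ^ 3 ∣ q * n := by
        have : ¬ p ∣ g ^ 2 := fun h => hpg (hp.dvd_of_dvd_pow h)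
        exact hp.pow_dvd_of_dvd_mul_right 3 this hd
      by_cases hq1 : p ∣ q
      · obtain ⟨a, rfl⟩ := hq1
        have ha : ¬ p ∣ a := by
          rintro ⟨s, rfl⟩
          exact hp.not_isUnit (hqs p ⟨s, by ring⟩)
        have h3 : p * p ^ 2 ∣ p * (a * n) := by
          have e1 : p * p ^ 2 = p ^ 3 := by ring
          have e2 : p * (a * n) = p * a * n := by ring
          rw [e1, e2]; exact h2
        have h4 : p ^ 2 ∣ a * n := (mul_dvd_mul_iff_left hp.ne_zero).mp h3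
        have h5 : p ^ 2 ∣ n := hp.pow_dvd_of_dvd_mul_left 2 ha h4
        rw [pow_two] at h5
        exact hp.not_isUnit (hns p h5)
      · have h3 : p ^ 3 ∣ n := hp.pow_dvd_of_dvd_mul_left 3 hq1 h2
        have h5 : p * p ∣ n := (Dvd.intro (p) (by ring : p * p * p = p ^ 3)).trans h3
        exact hp.not_isUnit (hns p h5)

/-- the window in terms of `N n` -/
theorem mem_JW_fq {D Y₀ Y₁ : ℝ} (hY : 0 ≤ Y₁) {q c g d n : Eis} (hq : IsPrim q)
    (hqs : Squarefree q) (hc : c = 1 ∨ c = 3 ∨ c = 3 * w ∨ c = 3 * w ^ 2) (hg : IsPrim g)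
    (hd : IsPrim d) (hds : Squarefree d) (hD0 : 0 ≤ D) (hdD : (nm d : ℝ) ≤ D) (hn : IsPrim n)
    (hns : Squarefree n) (hng : IsCoprime n g) :
    (d, fq q c g n) ∈ JW D Y₀ Y₁ ↔ (Squarefree g ∧ IsCoprime q g) ∧
      Y₀ < (nm (q * c * g ^ 2 * d ^ 2) : ℝ) * nm n ∧
        (nm (q * c * g ^ 2 * d ^ 2) : ℝ) * nm n ≤ Y₁ := by
  classical
  have hjc : JC (fq q c g n) ↔ Squarefree g ∧ IsCoprime q g := by
    rw [← cbF_fq hq hqs hn hns hg hng]
    constructor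
    · rintro ⟨c', hc', j', hj', hcf, e⟩
      have e1 : c * (q * n * g ^ 2) = c' * j' := by rw [← e]; unfold fq; ring
      obtain ⟨-, h2⟩ := E3A164.eq_c hc hc' ((hq.mul hn).mul (hg.pow 2)) hj' e1
      rw [h2]; exact hcf
    · intro h
      exact ⟨c, hc, q * n * g ^ 2, (hq.mul hn).mul (hg.pow 2), h, by unfold fq; ring⟩
  have e2 : (nm (fq q c g n * d ^ 2) : ℝ) = (nm (q * c * g ^ 2 * d ^ 2) : ℝ) * nm n := by
    unfold fq
    rw [← Nat.cast_mul, ← nm_mul]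
    congr 2; ring
  unfold JW
  rw [Finset.mem_filter, Finset.mem_product, mem_primBall, mem_ball]
  simp only
  rw [hjc, e2]
  constructor
  · rintro ⟨-, -, h1, h2, h3⟩
    exact ⟨h1, h2, h3⟩
  · rintro ⟨h1, h2, h3⟩
    refine ⟨⟨⟨Nat.le_floor hdD, hd⟩, ?_⟩, hds, h1, h2, h3⟩
    refine Nat.le_floor (le_trans ?_ h3)
    rw [← e2]
    have : nm (fq q c g n) ≤ nm (fq q c g n * d ^ 2) := by
      rw [nm_mul]
      have := nm_pos.mpr (pow_ne_zero 2 hd.ne_zero)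
      nlinarith [Nat.zero_le (nm (fq q c g n))]
    exact_mod_cast this

/-! ### moments -/

open Classical in
/-- the T-side -/
theorem sum_CS_bF {a : Eis → ℂ} (ha : FS a) {d κ F : Eis} (hκ : IsPrim κ) (hF : IsPrim F)
    (e f : Eis) (s : Finset Eis) (hs : ∀ μ ∈ s, IsPrim μ) :
    ∑ μ ∈ s.filter (fun μ => IsCoprime μ κ ∧ IsCoprime (F * (κ * μ)) d),
        ‖CS (bF κ F (b0 a d e f)) μ‖ ^ 2 =
      ∑ μ ∈ s.filter (fun μ => IsCoprime μ κ ∧ IsCoprime (F * (κ * μ)) d),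
        ‖TE0 a d (f * (F * (κ * μ))) e‖ ^ 2 := by
  refine Finset.sum_congr rfl fun μ hμ => ?_
  rw [Finset.mem_filter] at hμ
  rw [norm_CS_bF ha hκ hF (hs μ hμ.1) hμ.2.1 hμ.2.2]

lemma norm_TG_le {a : Eis → ℂ} (ha : FS a) (hsf : ∀ n, a n ≠ 0 → Squarefree n) (d : Eis)
    {κ : Eis} (hκ : IsPrim κ) (e f F k : Eis) :
    ‖TG (bF κ F (b0 a d e f)) k‖ ≤ ‖CS (cs a d e f κ) (k * (f * F) ^ 2)‖ := by
  rw [TG_b0 ha hsf d hκ, norm_mul, norm_mul, RCLike.norm_conj, RCLike.norm_conj]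
  have h1 : ‖G κ‖ ≤ 1 := Gauss880.norm_G_le syG hκ
  have h2 : ‖sy k κ‖ ≤ 1 := Tau671.norm_sy_le hκ
  calc ‖G κ‖ * ‖sy k κ‖ * ‖CS (cs a d e f κ) (k * (f * F) ^ 2)‖
      ≤ 1 * 1 * ‖CS (cs a d e f κ) (k * (f * F) ^ 2)‖ := by gcongr
    _ = _ := by ring

/-- the c-side -/
theorem sum_TG_le {a : Eis → ℂ} (ha : FS a) (hsf : ∀ n, a n ≠ 0 → Squarefree n) (d : Eis)
    {κ : Eis} (hκ : IsPrim κ) (e f F : Eis) (s : Finset Eis) :
    ∑ k ∈ s, ‖TG (bF κ F (b0 a d e f)) k‖ ^ 2 ≤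
      ∑ k ∈ s, ‖CS (cs a d e f κ) (k * (f * F) ^ 2)‖ ^ 2 :=
  Finset.sum_le_sum fun k _ =>
    pow_le_pow_left₀ (norm_nonneg _) (norm_TG_le ha hsf d hκ e f F k) 2

/-- merging: `f = q c g²` acts as `q² c² g` -/
theorem CS_cs_merge {a : Eis → ℂ} (ha : FS a) (d e q c g κ F k : Eis) :
    CS (cs a d e (q * c * g ^ 2) κ) (k * (q * c * g ^ 2 * F) ^ 2) =
      CS (cs a d e (q * c * g ^ 2) κ) (k * ((q * c * F) ^ 2 * g)) := by
  unfold CS
  refine tsum_congr fun m => ?_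
  by_cases h0 : cs a d e (q * c * g ^ 2) κ m = 0
  · rw [h0]; simp
  · have hm := (FS_cs ha d e _ κ).prim m h0
    congr 1
    have hgm : IsCoprime g m := by
      unfold cs at h0
      split_ifs at h0 with h
      · exact (h.2.1.of_mul_right_right).of_mul_left_right.of_isCoprime_of_dvd_left
          (dvd_pow_self g (by norm_num))
      · exact absurd rfl h0
    have e1 : k * (q * c * g ^ 2 * F) ^ 2 = (k * ((q * c * F) ^ 2 * g)) * (g * (g * g)) := by ring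
    have h3 := syG.cube g m hm hgm
    have h4 : sy (g * (g * g)) m = 1 := by
      rw [sy_mulL hm, sy_mulL hm, ← h3]; ring
    rw [e1, sy_mulL (y := g * (g * g)) hm, h4, mul_one]

end Crest.Agent.R017.E3D579
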