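import Crest.Agent.R017.E3Uh_829

/-!
# Row 17, R8 (E3), the final form (helper548): the sets and the numbers

* `JV`, `JVc` : the frequencies of one block (all / cube-free)
* `TN` : the `T`-numbers;  `TM_le_TN` : helper829's `TM` by `TN`
-/

set_option autoImplicit false
set_option linter.unusedVariables false

noncomputable section

open Finset
open scoped Classical ComplexConjugate

namespace Crest.Agent.R017.E3Z548

open Crest.Agent.R012 Crest.Agent.R012.Eis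
open Crest.Agent.R012.LS2 (S mem_S)
open Crest.Agent.R017.C70 (JC)
open Crest.Agent.R017.E3D579 (TE0)
open Crest.Agent.R017.E3T829 (cg hE hE_nonneg)

/-- the frequencies of a block -/
def JV (c V : ℝ) (d γ : Eis) : Finset Eis :=
  (ball ⌊c * V⌋₊).filter fun j => j ≠ 0 ∧
    nm j * (nm d : ℝ) ^ 2 * (nm γ : ℝ) ^ 3 ≤ c * V

/-- the cube-free frequencies of a block -/
def JVc (c V : ℝ) (d γ : Eis) : Finset Eis := (JV c V d γ).filter fun j => JC j

lemma mem_JV {c V : ℝ} {d γ : Eis} (hd : d ≠ 0) (hγ : γ ≠ 0) {j : Eis} : j ∈ JV c V d γ ↔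
    j ≠ 0 ∧ nm j * (nm d : ℝ) ^ 2 * (nm γ : ℝ) ^ 3 ≤ c * V := by
  unfold JV
  rw [mem_filter, mem_ball]
  refine ⟨fun h => h.2, fun h => ⟨Nat.le_floor ?_, h⟩⟩
  refine le_trans ?_ h.2
  have h1 : (1 : ℝ) ≤ nm d := by exact_mod_cast nm_pos.mpr hd
  have h2 : (1 : ℝ) ≤ nm γ := by exact_mod_cast nm_pos.mpr hγ
  have h3 : (1 : ℝ) ≤ (nm d : ℝ) ^ 2 * (nm γ : ℝ) ^ 3 :=
    one_le_mul_of_one_le_of_one_le (one_le_pow₀ h1) (one_le_pow₀ h2)
  rw [mul_assoc]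
  exact le_mul_of_one_le_right (Nat.cast_nonneg _) h3

/-- the `T`-numbers of one line: weight `om` of `γ`, sets `A`, second argument `dl d` -/
def TN (af : Eis → Eis → Eis → ℂ) (we : Eis → ℝ) (Ds EE : Finset Eis) (om : Eis → ℝ)
    (Gs : Finset Eis) (A : Eis → Eis → Finset Eis) (dl : Eis → Eis) : ℝ :=
  ∑ d ∈ Ds, ∑ e ∈ EE, (nm d : ℝ) ^ (2 / 3 : ℝ) * we e *
    ∑ γ ∈ Gs, om γ * ∑ j ∈ A d γ, ‖TE0 (cg γ (af d e)) (dl d) j e‖ ^ 2

lemma TN_nonneg (af : Eis → Eis → Eis → ℂ) {we : Eis → ℝ} (hwe : ∀ e, 0 ≤ we e)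
    (Ds EE : Finset Eis) {om : Eis → ℝ} (hom : ∀ γ, 0 ≤ om γ) (Gs : Finset Eis)
    (A : Eis → Eis → Finset Eis) (dl : Eis → Eis) : 0 ≤ TN af we Ds EE om Gs A dl :=
  sum_nonneg fun d _ => sum_nonneg fun e _ => mul_nonneg (mul_nonneg (by positivity) (hwe e))
    (sum_nonneg fun γ _ => mul_nonneg (hom γ) (sum_nonneg fun j _ => by positivity))

end Crest.Agent.R017.E3Z548
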