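import Crest.Agent.R017.OT_551
import Crest.Agent.R017.E3Y_548

/-!
# Row 17, C.REMg, R8 (E3): the T-lines of OFF, all frequencies (helper551)

* `norm_TE0_cube` : `TE0 b dl (κ c³) e` is at most `TE0 (cg c b) 1 κ e`
* `TM_all` : `TM_le_EHf` for arbitrary `j ≠ 0` (loss `Z^ε`)
* `TN_le_EHf` : helper548's `TN`
-/

set_option autoImplicit false

noncomputable section

open Complex MeasureTheory
open scoped ComplexConjugate Classical

namespace Crest.Agent.R017.OT551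

open Crest.Agent.R012 Crest.Agent.R012.Eis Crest.Agent.R012.MC
open Crest.Agent.R012.LS2 (S mem_S bl mem_bl)
open Crest.Agent.R012.Mob705 (pdiv mem_pdiv kap0 mu PE)
open Crest.Agent.R012.Div277 (tau dvs mem_dvs)
open Crest.Agent.R017.PX764 (Gh n6 th)
open Crest.Agent.R017.X6C180 (n13 cM)
open Crest.Agent.R017.CM106 (CS TG FS)
open Crest.Agent.R017.E1551 hiding tau Dg
open Crest.Agent.R017.E2440 (TE)
open Crest.Agent.R017.DgA829 (lc lc_prim lc_dvd nm_lc)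
open Crest.Agent.R017.LBx48 (one_le_tauR tau_mono)
open Crest.Agent.R017.E3D579 (TE0)
open Crest.Agent.R017.E3T829 (cg TM)
open Crest.Agent.R017.EHu320 (EHc)

/-! ### Moebius and cubes -/

lemma TE0_fin {Y : ℝ} {b : Eis → ℂ} (hb : ∀ m, b m ≠ 0 → m ∈ S Y) (dl j e : Eis) :
    TE0 b dl j e = ∑ m ∈ S Y, if e ∣ m ∧ IsCoprime j (dl * m) then
      b m * ((n6 m : ℂ) * Gh j m) else 0 := by
  unfold E3D579.TE0
  refine tsum_eq_sum fun m hm => ?_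
  have : b m = 0 := by
    by_contra h; exact hm (hb m h)
  rw [this, zero_mul]
  split_ifs <;> rfl

/-- Moebius for `cg c`, `c ≠ 0` -/
lemma TE0_cg {Y : ℝ} (hY : 0 ≤ Y) {b : Eis → ℂ} (hb : ∀ m, b m ≠ 0 → m ∈ S Y) {c : Eis}
    (hc : c ≠ 0) (κ : Eis) {e : Eis} (he : IsPrim e) :
    TE0 (cg c b) 1 κ e = ∑ t ∈ dvs c, (mu t : ℂ) * TE0 b 1 κ (lc e t) := by
  have hb' : ∀ m, cg c b m ≠ 0 → m ∈ S Y := fun m hm => hb m (fun h => hm (by
    unfold E3T829.cg; rw [h]; simp))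
  rw [TE0_fin hb' 1 κ e]
  have h1 : ∀ t ∈ dvs c, (mu t : ℂ) * TE0 b 1 κ (lc e t) =
      ∑ m ∈ S Y, (mu t : ℂ) * (if lc e t ∣ m ∧ IsCoprime κ (1 * m) then
        b m * ((n6 m : ℂ) * Gh κ m) else 0) := by
    intro t _
    rw [TE0_fin hb, Finset.mul_sum]
  rw [Finset.sum_congr rfl h1, Finset.sum_comm]
  refine Finset.sum_congr rfl fun k hk => ?_
  have hkp := ((mem_S hY).1 hk).2.1
  have h2 : (∑ t ∈ dvs c, (mu t : ℂ) * (if lc e t ∣ k ∧ IsCoprime κ (1 * k) then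
        b k * ((n6 k : ℂ) * Gh κ k) else 0)) =
      (∑ t ∈ dvs c, (if t ∣ k then (mu t : ℂ) else 0)) *
        (if e ∣ k ∧ IsCoprime κ (1 * k) then b k * ((n6 k : ℂ) * Gh κ k) else 0) := by
    rw [Finset.sum_mul]
    refine Finset.sum_congr rfl fun t ht => ?_
    have ht' := (mem_dvs hc).mp ht
    have h3 : lc e t ∣ k ↔ e ∣ k ∧ t ∣ k := lc_dvd he ht'.1 k
    by_cases h4 : t ∣ k
    · rw [if_pos h4]
      congr 1
      by_cases h5 : e ∣ k ∧ IsCoprime κ (1 * k)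
      · rw [if_pos h5, if_pos ⟨h3.mpr ⟨h5.1, h4⟩, h5.2⟩]
      · rw [if_neg h5, if_neg (fun h => h5 ⟨(h3.mp h.1).1, h.2⟩)]
    · rw [if_neg h4, zero_mul, if_neg (fun h => h4 (h3.mp h.1).2), mul_zero]
  have h6 : (∑ t ∈ dvs c, (if t ∣ k then (mu t : ℂ) else 0)) =
      if IsCoprime k c then (1 : ℂ) else 0 := by
    have h7 := Mob705.sum_mu_coprime hkp hc
    have h8 : (∑ t ∈ dvs c, (if t ∣ k then (mu t : ℂ) else 0)) =
        ((∑ t ∈ pdiv c, (if t ∣ k then mu t else 0) : ℤ) : ℂ) := by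
      push_cast
      refine Finset.sum_congr ?_ fun t _ => ?_
      · rfl
      · split_ifs <;> simp
    rw [h8, h7]
    split_ifs <;> simp
  rw [h2, h6]
  unfold E3T829.cg
  by_cases h9 : IsCoprime k c
  · simp only [if_pos h9, one_mul]
  · rw [if_neg h9, if_neg h9, zero_mul, zero_mul]
    split_ifs <;> rfl

/-- the cube part of the frequency -/
lemma norm_TE0_cube {Y : ℝ} (hY : 0 ≤ Y) {b : Eis → ℂ} (hb : ∀ m, b m ≠ 0 → m ∈ S Y)
    (dl κ c e : Eis) : ‖TE0 b dl (κ * c ^ 3) e‖ ≤ ‖TE0 (cg c b) 1 κ e‖ := by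
  by_cases hd : IsCoprime (κ * c ^ 3) dl
  swap
  · have : TE0 b dl (κ * c ^ 3) e = 0 := by
      unfold E3D579.TE0
      refine (tsum_congr fun m => ?_).trans tsum_zero
      exact if_neg (fun h => hd h.2.of_mul_right_left)
    rw [this, norm_zero]
    exact norm_nonneg _
  refine le_of_eq (congrArg norm ?_)
  have hb' : ∀ m, cg c b m ≠ 0 → m ∈ S Y := fun m hm => hb m (fun h => hm (by
    unfold E3T829.cg; rw [h]; simp))
  rw [TE0_fin hb, TE0_fin hb']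
  refine Finset.sum_congr rfl fun m hm => ?_
  have hmp := ((mem_S hY).1 hm).2.1
  have h1 : IsCoprime (κ * c ^ 3) (dl * m) ↔ IsCoprime κ (1 * m) ∧ IsCoprime m c := by
    rw [one_mul]
    constructor
    · intro h
      have h2 := h.of_mul_right_right
      exact ⟨h2.of_mul_left_left, ((IsCoprime.pow_left_iff (by norm_num)).mp
        h2.of_mul_left_right).symm⟩
    · rintro ⟨h2, h3⟩
      exact hd.mul_right (h2.mul_left (h3.symm.pow_left))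
  unfold E3T829.cg
  by_cases h2 : e ∣ m
  · by_cases h3 : IsCoprime m c
    · by_cases h4 : IsCoprime κ (1 * m)
      · rw [if_pos ⟨h2, h1.mpr ⟨h4, h3⟩⟩, if_pos ⟨h2, h4⟩, if_pos h3]
        unfold PX764.Gh
        rw [PX764.sy_cube_left hmp κ h3.symm]
      · rw [if_neg (fun h => h4 (h1.mp h.2).1), if_neg (fun h => h4 h.2)]
    · rw [if_neg (fun h => h3 (h1.mp h.2).2), if_neg h3, zero_mul]
      split_ifs <;> rfl
  · rw [if_neg (fun h => h2 h.1), if_neg (fun h => h2 h.1)]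

/-- `TE0` of the part prime to `γ` at `κ c³`, any `dl` -/
lemma norm_TE0_cg_cube_sq {γ : Eis} (hγ : IsPrim γ) {c : Eis} (hc : c ≠ 0) {Y : ℝ} (hY : 0 ≤ Y)
    {α : Eis → ℂ} (hα : ∀ n, α n ≠ 0 → n ∈ S Y) {d : Eis} (hd : IsPrim d) (dl κ : Eis) {e : Eis}
    (he : IsPrim e) :
    ‖TE0 (cg γ (fun m => α (d * m))) dl (κ * c ^ 3) e‖ ^ 2 ≤
      (tau c : ℝ) * ∑ s ∈ dvs c, (if Squarefree s then (tau γ : ℝ) * ∑ t ∈ dvs γ,
        (if Squarefree t then ‖T1 α d κ (lc (lc e s) t)‖ ^ 2 else 0) else 0) := by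
  have hs : ∀ m, cg γ (fun m => α (d * m)) m ≠ 0 → m ∈ S Y := fun m hm => by
    have h0 : α (d * m) ≠ 0 := fun h => hm (by unfold E3T829.cg; simp [h])
    have h1 := hα _ h0
    exact Dual2813.S_of_dvd hY h1 (((mem_S hY).1 h1).2.1.of_mul_left hd) (dvd_mul_left _ _)
  have h1 := norm_TE0_cube hY hs dl κ c e
  rw [TE0_cg hY hs hc κ he] at h1
  have h3 := norm_sum_le (dvs c) (fun t => (mu t : ℂ) *
    TE0 (cg γ (fun m => α (d * m))) 1 κ (lc e t))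
  have h4 : (∑ t ∈ dvs c, ‖(mu t : ℂ) * TE0 (cg γ (fun m => α (d * m))) 1 κ (lc e t)‖) ^ 2 ≤
      ((dvs c).card : ℝ) * ∑ t ∈ dvs c,
        ‖(mu t : ℂ) * TE0 (cg γ (fun m => α (d * m))) 1 κ (lc e t)‖ ^ 2 :=
    sq_sum_le_card_mul_sum_sq
  refine (pow_le_pow_left₀ (norm_nonneg _) (h1.trans h3) 2).trans (h4.trans ?_)
  refine mul_le_mul_of_nonneg_left (Finset.sum_le_sum fun t ht => ?_) (Nat.cast_nonneg _)
  have htp := ((mem_dvs hc).mp ht).1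
  by_cases hq : Squarefree t
  · rw [if_pos hq, norm_mul]
    have m1 : ‖(mu t : ℂ)‖ ≤ 1 := by
      rw [Complex.norm_intCast]; exact_mod_cast Mob705.abs_mu_le_one t
    refine (pow_le_pow_left₀ (by positivity)
      (mul_le_of_le_one_left (norm_nonneg _) m1) 2).trans ?_
    exact norm_TE0_cg_sq hγ hY hα hd 1 κ (lc_prim he htp)
  · rw [if_neg hq, show mu t = 0 from Mob705.mu_of_not_squarefree hq]
    simp

/-! ### sums -/

/-- the sum over the cubes -/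
lemma sum_mult_c {ε : ℝ} (hε : 0 < ε) : ∃ C : ℝ, 0 ≤ C ∧ ∀ (Z : ℝ), 1 ≤ Z →
    ∀ (Cs : Finset Eis), (∀ c ∈ Cs, c ≠ 0 ∧ (nm c : ℝ) ≤ Z) →
    ∀ (g : Eis → ℝ), (∀ t, 0 ≤ g t) →
      ∑ c ∈ Cs, (nm c : ℝ)⁻¹ * ((tau c : ℝ) * ∑ t ∈ dvs c, g t) ≤
        C * Z ^ ε * ∑ t ∈ Cs.biUnion dvs, (nm t : ℝ)⁻¹ * g t := by
  obtain ⟨C1, hC1, h1⟩ := Div277.tau_le_rpow (ε := ε / 2) (by positivity)
  obtain ⟨C2, hC2, h2⟩ := Eul571.sum_nm_rpow_le (s := 1 + ε / 2) (by linarith)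
  refine ⟨C1 * C2, by positivity, fun Z hZ Cs hC g hg => ?_⟩
  have hZ0 : 0 < Z := by linarith
  set T := Cs.biUnion dvs with hT
  have a1 : ∀ c ∈ Cs, (nm c : ℝ)⁻¹ * ((tau c : ℝ) * ∑ t ∈ dvs c, g t) ≤
      ∑ t ∈ T, (if t ∣ c then C1 * Z ^ (ε / 2) * (nm c : ℝ)⁻¹ * g t else 0) := by
    intro c hc
    have hcn := nmpos (hC c hc).1
    have b1 : ∑ t ∈ dvs c, g t ≤ ∑ t ∈ T, (if t ∣ c then g t else 0) := by
      rw [← Finset.sum_filter]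
      refine Finset.sum_le_sum_of_subset_of_nonneg ?_ fun t _ _ => hg t
      intro t ht
      rw [Finset.mem_filter]
      exact ⟨Finset.mem_biUnion.mpr ⟨c, hc, ht⟩, ((mem_dvs (hC c hc).1).mp ht).2⟩
    have b0 : 0 ≤ ∑ t ∈ dvs c, g t := Finset.sum_nonneg fun t _ => hg t
    have b2 : (tau c : ℝ) ≤ C1 * Z ^ (ε / 2) := by
      refine (h1 c (hC c hc).1).trans ?_
      have := (hC c hc).2
      gcongr
    have b3 : 0 ≤ ∑ t ∈ T, (if t ∣ c then g t else 0) :=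
      Finset.sum_nonneg fun t _ => by split_ifs; exacts [hg t, le_rfl]
    calc (nm c : ℝ)⁻¹ * ((tau c : ℝ) * ∑ t ∈ dvs c, g t) ≤
          (nm c : ℝ)⁻¹ * ((C1 * Z ^ (ε / 2)) * ∑ t ∈ T, (if t ∣ c then g t else 0)) := by
          gcongr
      _ = (C1 * Z ^ (ε / 2) * (nm c : ℝ)⁻¹) * ∑ t ∈ T, (if t ∣ c then g t else 0) := by ring
      _ = _ := by
          rw [Finset.mul_sum]
          refine Finset.sum_congr rfl fun t _ => ?_
          split_ifs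
          · rfl
          · rw [mul_zero]
  refine (Finset.sum_le_sum a1).trans ?_
  rw [Finset.sum_comm, Finset.mul_sum]
  refine Finset.sum_le_sum fun t ht => ?_
  obtain ⟨c0, hc0, ht0⟩ := Finset.mem_biUnion.mp ht
  have htp := ((mem_dvs (hC c0 hc0).1).mp ht0).1
  have htn := nmpos htp.ne_zero
  have ht1 : (1 : ℝ) ≤ nm t := by exact_mod_cast nm_pos.mpr htp.ne_zero
  rw [← Finset.sum_filter]
  -- the cofactors
  have key : ∑ c ∈ Cs.filter (fun c => t ∣ c), (nm c : ℝ)⁻¹ ≤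
      (nm t : ℝ)⁻¹ * (Z ^ (ε / 2) * C2) := by
    have c1 : ∀ c ∈ Cs.filter (fun c => t ∣ c), (nm c : ℝ)⁻¹ ≤
        (nm t : ℝ)⁻¹ * (Z ^ (ε / 2) * (nm (c / t) : ℝ) ^ (-(1 + ε / 2))) := by
      intro c hc
      obtain ⟨hc1, s, rfl⟩ := Finset.mem_filter.mp hc
      have hs0 : s ≠ 0 := right_ne_zero_of_mul (hC _ hc1).1
      have hsn := nmpos hs0
      rw [mul_div_cancel_left₀ s htp.ne_zero, nm_mul]
      push_cast
      rw [mul_inv]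
      refine mul_le_mul_of_nonneg_left ?_ (by positivity)
      have d1 : (nm s : ℝ) ≤ Z := by
        have := (hC _ hc1).2
        rw [nm_mul] at this
        push_cast at this
        nlinarith
      calc (nm s : ℝ)⁻¹ = (nm s : ℝ) ^ (ε / 2) * (nm s : ℝ) ^ (-(1 + ε / 2)) := by
            rw [← Real.rpow_add hsn, ← Real.rpow_neg_one]
            congr 1; ring
        _ ≤ Z ^ (ε / 2) * (nm s : ℝ) ^ (-(1 + ε / 2)) := by gcongr
    refine (Finset.sum_le_sum c1).trans ?_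
    rw [← Finset.mul_sum, ← Finset.mul_sum]
    have hinj : Set.InjOn (fun γ : Eis => γ / t) (Cs.filter (fun γ => t ∣ γ) : Set Eis) := by
      intro a ha b hb hab
      obtain ⟨-, s, rfl⟩ := Finset.mem_filter.mp ha
      obtain ⟨-, s', rfl⟩ := Finset.mem_filter.mp hb
      beta_reduce at hab
      rw [mul_div_cancel_left₀ s htp.ne_zero, mul_div_cancel_left₀ s' htp.ne_zero] at hab
      rw [hab]
    have c2 := h2 ((Cs.filter (fun γ => t ∣ γ)).image (fun γ => γ / t))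
    rw [Finset.sum_image hinj] at c2
    gcongr
  calc ∑ c ∈ Cs.filter (fun c => t ∣ c), C1 * Z ^ (ε / 2) * (nm c : ℝ)⁻¹ * g t =
        C1 * Z ^ (ε / 2) * g t * ∑ c ∈ Cs.filter (fun c => t ∣ c), (nm c : ℝ)⁻¹ := by
        rw [Finset.mul_sum]
        exact Finset.sum_congr rfl fun γ _ => by ring
    _ ≤ C1 * Z ^ (ε / 2) * g t * ((nm t : ℝ)⁻¹ * (Z ^ (ε / 2) * C2)) :=
        mul_le_mul_of_nonneg_left key (mul_nonneg (by positivity) (hg t))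
    _ = C1 * C2 * (Z ^ (ε / 2) * Z ^ (ε / 2)) * ((nm t : ℝ)⁻¹ * g t) := by ring
    _ = _ := by
        rw [← Real.rpow_add hZ0, add_halves]

/-- the pairs `(e, t)`, general weights -/
lemma sum_lc_gen {Y : ℝ} {Es T : Finset Eis}
    (hE : ∀ e ∈ Es, IsPrim e) (hT : ∀ t ∈ T, IsPrim t) {a b : Eis → ℝ}
    (hb : ∀ u, 0 ≤ b u)
    (hab : ∀ e ∈ Es, ∀ t ∈ T, Squarefree t → a e * (nm t : ℝ)⁻¹ ≤ b (lc e t))
    {G : Eis → ℝ} (hG : ∀ u, 0 ≤ G u) (hG0 : ∀ u, IsPrim u → u ∉ S Y → G u = 0) :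
    ∑ e ∈ Es, a e * ∑ t ∈ T, (nm t : ℝ)⁻¹ * (if Squarefree t then G (lc e t) else 0) ≤
      ∑ u ∈ S Y, (b u * (tau u : ℝ) ^ 2) * G u := by
  have hnn : ∀ (e t u : Eis), 0 ≤ (if e ∈ dvs u ∧ t ∈ dvs u then b u * G u else 0) :=
    fun e t u => by
    have := hG u
    have := hb u
    split_ifs <;> positivity
  have a1 : ∀ e ∈ Es, ∀ t ∈ T, a e * ((nm t : ℝ)⁻¹ *
      (if Squarefree t then G (lc e t) else 0)) ≤
      ∑ u ∈ S Y, (if e ∈ dvs u ∧ t ∈ dvs u then b u * G u else 0) := by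
    intro e he t ht
    have hR0 : 0 ≤ ∑ u ∈ S Y, (if e ∈ dvs u ∧ t ∈ dvs u then b u * G u else 0) :=
      Finset.sum_nonneg fun u _ => hnn e t u
    have hep := hE e he
    have htp := hT t ht
    by_cases hs : Squarefree t
    swap
    · rw [if_neg hs]; simpa using hR0
    rw [if_pos hs]
    have hlp := lc_prim hep htp
    by_cases hl : lc e t ∈ S Y
    swap
    · rw [hG0 _ hlp hl]; simpa using hR0
    refine le_trans ?_ (Finset.single_le_sum (fun u _ => hnn e t u) hl)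
    have hd := (lc_dvd hep htp _).1 dvd_rfl
    rw [if_pos ⟨(mem_dvs hlp.ne_zero).2 ⟨hep, hd.1⟩, (mem_dvs hlp.ne_zero).2 ⟨htp, hd.2⟩⟩,
      ← mul_assoc]
    exact mul_le_mul_of_nonneg_right (hab e he t ht hs) (hG _)
  have a2 : ∑ e ∈ Es, a e * ∑ t ∈ T, (nm t : ℝ)⁻¹ *
      (if Squarefree t then G (lc e t) else 0) ≤
      ∑ e ∈ Es, ∑ t ∈ T, ∑ u ∈ S Y,
        (if e ∈ dvs u ∧ t ∈ dvs u then b u * G u else 0) := by
    refine Finset.sum_le_sum fun e he => ?_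
    rw [Finset.mul_sum]
    exact Finset.sum_le_sum fun t ht => a1 e he t ht
  refine a2.trans ?_
  have e1 : ∑ e ∈ Es, ∑ t ∈ T, ∑ u ∈ S Y,
      (if e ∈ dvs u ∧ t ∈ dvs u then b u * G u else 0) =
      ∑ u ∈ S Y, ∑ e ∈ Es, ∑ t ∈ T,
      (if e ∈ dvs u ∧ t ∈ dvs u then b u * G u else 0) := by
    have : ∀ e ∈ Es, ∑ t ∈ T, ∑ u ∈ S Y,
        (if e ∈ dvs u ∧ t ∈ dvs u then b u * G u else 0) =
        ∑ u ∈ S Y, ∑ t ∈ T,
        (if e ∈ dvs u ∧ t ∈ dvs u then b u * G u else 0) :=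
      fun e _ => Finset.sum_comm
    rw [Finset.sum_congr rfl this, Finset.sum_comm]
  rw [e1]
  refine Finset.sum_le_sum fun u _ => ?_
  have hu0 : 0 ≤ b u * G u := mul_nonneg (hb u) (hG u)
  have e2 : ∀ e ∈ Es, ∑ t ∈ T, (if e ∈ dvs u ∧ t ∈ dvs u then b u * G u else 0) ≤
      (if e ∈ dvs u then (tau u : ℝ) * (b u * G u) else 0) := by
    intro e _
    by_cases h : e ∈ dvs u
    · rw [if_pos h]
      have : ∀ t ∈ T, (if e ∈ dvs u ∧ t ∈ dvs u then b u * G u else 0) =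
          (if t ∈ dvs u then b u * G u else 0) := by
        intro t _
        by_cases h' : t ∈ dvs u
        · rw [if_pos h', if_pos ⟨h, h'⟩]
        · rw [if_neg h', if_neg (fun hh => h' hh.2)]
      rw [Finset.sum_congr rfl this, ← Finset.sum_filter, Finset.sum_const, nsmul_eq_mul]
      refine mul_le_mul_of_nonneg_right ?_ hu0
      have h5 : T.filter (fun t => t ∈ dvs u) ⊆ dvs u := fun t ht => (Finset.mem_filter.mp ht).2
      unfold Div277.tau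
      exact_mod_cast Finset.card_le_card h5
    · rw [if_neg h]
      exact le_of_eq (Finset.sum_eq_zero fun t _ => if_neg (fun hh => h hh.1))
  refine (Finset.sum_le_sum e2).trans ?_
  rw [← Finset.sum_filter, Finset.sum_const, nsmul_eq_mul]
  have h6 : ((Es.filter (fun e => e ∈ dvs u)).card : ℝ) ≤ tau u := by
    have h5 : Es.filter (fun e => e ∈ dvs u) ⊆ dvs u := fun t ht => (Finset.mem_filter.mp ht).2
    unfold Div277.tau
    exact_mod_cast Finset.card_le_card h5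
  calc ((Es.filter (fun e => e ∈ dvs u)).card : ℝ) * ((tau u : ℝ) * (b u * G u)) ≤
        (tau u : ℝ) * ((tau u : ℝ) * (b u * G u)) := by gcongr
    _ = _ := by ring

/-- `nm (lcm e t) ≤ nm e nm t` -/
lemma nm_lc_le {e t : Eis} (he : IsPrim e) (ht : IsPrim t) (he' : Squarefree e)
    (ht' : Squarefree t) : (nm (lc e t) : ℝ) ≤ nm e * nm t := by
  obtain ⟨g, hg, -, -, -, hgn, -⟩ := nm_lc he ht he' ht'
  have hg1 : (1 : ℝ) ≤ nm g := by exact_mod_cast nm_pos.mpr hg.ne_zero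
  have hln := nmpos (lc_prim he ht).ne_zero
  have : (nm (lc e t) : ℝ) ≤ nm (lc e t) * nm g := le_mul_of_one_le_right hln.le hg1
  exact this.trans (le_of_eq hgn)

/-- both Moebius sums -/
lemma sum_lc2 {Y E0 : ℝ} (hY : 0 ≤ Y) (hE0 : 0 ≤ E0) {Es T T' : Finset Eis}
    (hE : ∀ e ∈ Es, e ∈ S E0) (hT : ∀ t ∈ T, IsPrim t) (hT' : ∀ t ∈ T', IsPrim t)
    {G : Eis → ℝ} (hG : ∀ u, 0 ≤ G u) (hG0 : ∀ u, IsPrim u → u ∉ S Y → G u = 0) :
    ∑ e ∈ Es, (nm e : ℝ) * ∑ s ∈ T, (nm s : ℝ)⁻¹ * (if Squarefree s then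
      ∑ t ∈ T', (nm t : ℝ)⁻¹ * (if Squarefree t then G (lc (lc e s) t) else 0) else 0) ≤
      E0 ^ 2 * ∑ u ∈ S Y, ((nm u : ℝ)⁻¹ * (tau u : ℝ) ^ 4) * G u := by
  set G' : Eis → ℝ := fun v => if v ∈ S Y then
    ∑ t ∈ T', (nm t : ℝ)⁻¹ * (if Squarefree t then G (lc v t) else 0) else 0 with hG'
  have hnn : ∀ v, 0 ≤ ∑ t ∈ T', (nm t : ℝ)⁻¹ * (if Squarefree t then G (lc v t) else 0) :=
    fun v => Finset.sum_nonneg fun t _ => mul_nonneg (by positivity) (by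
      split_ifs; exacts [hG _, le_rfl])
  have hG'0 : ∀ v, 0 ≤ G' v := fun v => by
    simp only [hG']; split_ifs; exacts [hnn v, le_rfl]
  have e1 : ∀ v, IsPrim v →
      ∑ t ∈ T', (nm t : ℝ)⁻¹ * (if Squarefree t then G (lc v t) else 0) = G' v := by
    intro v hv
    simp only [hG']
    by_cases h : v ∈ S Y
    · rw [if_pos h]
    · rw [if_neg h]
      refine Finset.sum_eq_zero fun t ht => ?_
      by_cases hs : Squarefree t
      · rw [if_pos hs, hG0 _ (lc_prim hv (hT' t ht)) (fun h1 => h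
          (Dual2813.S_of_dvd hY h1 hv ((lc_dvd hv (hT' t ht) _).1 dvd_rfl).1)), mul_zero]
      · rw [if_neg hs, mul_zero]
  have e2 : ∑ e ∈ Es, (nm e : ℝ) * ∑ s ∈ T, (nm s : ℝ)⁻¹ * (if Squarefree s then
      ∑ t ∈ T', (nm t : ℝ)⁻¹ * (if Squarefree t then G (lc (lc e s) t) else 0) else 0) =
      ∑ e ∈ Es, (nm e : ℝ) * ∑ s ∈ T, (nm s : ℝ)⁻¹ *
        (if Squarefree s then G' (lc e s) else 0) := by
    refine Finset.sum_congr rfl fun e he => ?_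
    congr 1
    refine Finset.sum_congr rfl fun s hs => ?_
    congr 1
    by_cases h : Squarefree s
    · rw [if_pos h, if_pos h]
      exact e1 _ (lc_prim ((mem_S hE0).1 (hE e he)).2.1 (hT s hs))
    · rw [if_neg h, if_neg h]
  rw [e2]
  have s1 := sum_lc_gen (Y := Y) (Es := Es) (T := T) (a := fun e => (nm e : ℝ))
    (b := fun u => E0 ^ 2 * (nm u : ℝ)⁻¹) (fun e he => ((mem_S hE0).1 (hE e he)).2.1) hT
    (fun u => by positivity) (fun e he t ht hs => by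
      have he' := (mem_S hE0).1 (hE e he)
      have h1 := nm_lc_le he'.2.1 (hT t ht) he'.2.2 hs
      have htn := nmpos (hT t ht).ne_zero
      have hln := nmpos (lc_prim he'.2.1 (hT t ht)).ne_zero
      have h10 : (nm e : ℝ) ≤ E0 := he'.1
      show (nm e : ℝ) * (nm t : ℝ)⁻¹ ≤ E0 ^ 2 * (nm (lc e t) : ℝ)⁻¹
      rw [← div_eq_mul_inv, ← div_eq_mul_inv, div_le_div_iff₀ htn hln]
      calc (nm e : ℝ) * nm (lc e t) ≤ nm e * (nm e * nm t) := by gcongr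
        _ = nm e ^ 2 * nm t := by ring
        _ ≤ E0 ^ 2 * nm t := by gcongr) hG'0 (fun u _ hn => by
      simp only [hG']; exact if_neg hn)
  refine s1.trans ?_
  have e3 : ∑ u ∈ S Y, (E0 ^ 2 * (nm u : ℝ)⁻¹ * (tau u : ℝ) ^ 2) * G' u =
      E0 ^ 2 * ∑ u ∈ S Y, ((nm u : ℝ)⁻¹ * (tau u : ℝ) ^ 2) *
        ∑ t ∈ T', (nm t : ℝ)⁻¹ * (if Squarefree t then G (lc u t) else 0) := by
    rw [Finset.mul_sum]
    refine Finset.sum_congr rfl fun u hu => ?_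
    simp only [hG']
    rw [if_pos hu]
    ring
  rw [e3]
  refine mul_le_mul_of_nonneg_left ?_ (by positivity)
  have s2 := sum_lc_gen (Y := Y) (Es := S Y) (T := T')
    (a := fun u => (nm u : ℝ)⁻¹ * (tau u : ℝ) ^ 2)
    (b := fun u => (nm u : ℝ)⁻¹ * (tau u : ℝ) ^ 2)
    (fun e he => ((mem_S hY).1 he).2.1) hT'
    (fun u => by positivity) (fun e he t ht hs => by
      have he' := (mem_S hY).1 he
      have h1 := nm_lc_le he'.2.1 (hT' t ht) he'.2.2 hs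
      have htn := nmpos (hT' t ht).ne_zero
      have hen := nmpos he'.2.1.ne_zero
      have hlp := lc_prim he'.2.1 (hT' t ht)
      have hln := nmpos hlp.ne_zero
      have hτ : (tau e : ℝ) ≤ tau (lc e t) :=
        tau_mono hlp.ne_zero ((lc_dvd he'.2.1 (hT' t ht) _).1 dvd_rfl).1
      show (nm e : ℝ)⁻¹ * (tau e : ℝ) ^ 2 * (nm t : ℝ)⁻¹ ≤
        (nm (lc e t) : ℝ)⁻¹ * (tau (lc e t) : ℝ) ^ 2
      have h2 : (nm e : ℝ)⁻¹ * (nm t : ℝ)⁻¹ ≤ (nm (lc e t) : ℝ)⁻¹ := by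
        rw [← mul_inv]
        exact inv_anti₀ hln h1
      calc (nm e : ℝ)⁻¹ * (tau e : ℝ) ^ 2 * (nm t : ℝ)⁻¹ =
            ((nm e : ℝ)⁻¹ * (nm t : ℝ)⁻¹) * (tau e : ℝ) ^ 2 := by ring
        _ ≤ (nm (lc e t) : ℝ)⁻¹ * (tau (lc e t) : ℝ) ^ 2 := by gcongr) hG hG0
  refine s2.trans (le_of_eq (Finset.sum_congr rfl fun u _ => ?_))
  ring

/-! ### all frequencies -/

/-- **one T-line of OFF, all frequencies `j ≠ 0`** -/
theorem TM_all (R : ℝ) (hR : 0 ≤ R) (A : ℕ) (hA : 2 ≤ A) {ε : ℝ} (hε : 0 < ε) : ∃ C : ℝ, 0 ≤ C ∧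
    ∀ (Y X K Z E0 V c H : ℝ), 0 ≤ Y → 0 < X → 0 < K → 1 ≤ Z → 0 ≤ E0 → 0 < V → 0 ≤ c → 0 ≤ H →
    ∀ α : Eis → ℂ, Adm Y X R α →
    ∀ (dl : Eis → Eis) (P : Eis → Eis → ℝ) (om : Eis → ℝ) (Gs : Finset Eis)
      (As : Eis → Eis → Eis → Finset Eis) (Rs : Finset (Eis × Eis)),
      (∀ ρ ∈ Rs, IsPrim ρ.1 ∧ ρ.2 ∈ S E0) →
      (∀ ρ ∈ Rs, P ρ.1 ρ.2 ≤ H * (K ^ (2 / 3 : ℝ) * V ^ (-(1 / 3) : ℝ) *
        (nm ρ.1 : ℝ) ^ (2 / 3 : ℝ) * nm ρ.2)) →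
      (∀ γ ∈ Gs, IsPrim γ ∧ 0 ≤ om γ ∧ om γ ≤ (nm γ : ℝ) ^ (-(1 / 2) : ℝ)) →
      (∀ ρ ∈ Rs, ∀ γ ∈ Gs, ∀ j ∈ As ρ.1 ρ.2 γ, j ≠ 0 ∧
        (nm j : ℝ) * (nm ρ.1 : ℝ) ^ 2 * (nm γ : ℝ) ^ 3 ≤ c * V ∧
        (nm j : ℝ) * (nm ρ.1 : ℝ) ^ 2 ≤ Z) →
      ∑ ρ ∈ Rs, P ρ.1 ρ.2 * ∑ γ ∈ Gs, om γ * ∑ j ∈ As ρ.1 ρ.2 γ,
        ‖TE0 (cg γ (fun m => α (ρ.1 * m))) (dl ρ.1) j ρ.2‖ ^ 2 ≤
      C * (Z ^ ε * H * c ^ (1 / 3 : ℝ) * E0 ^ 2) * ((K / X) *
        EHc (fun n => ((n : ℝ))⁻¹) (fun _ => True) A K X Y Z α) := by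
  obtain ⟨C0, hC0, h0⟩ := norm_T1_sq_le R hR A hA
  obtain ⟨C1, hC1, h1⟩ := sum_mult
  obtain ⟨C2, hC2, h2⟩ := sum_mult_c hε
  refine ⟨C0 * C1 * C2, by positivity, ?_⟩
  intro Y X K Z E0 V c H hY hX hK hZ hE0 hV hc hH α hα dl P om Gs As Rs hRs hP hG hA'
  have hZ0 : 0 < Z := by linarith
  have hGp : ∀ γ ∈ Gs, IsPrim γ := fun γ hγ => (hG γ hγ).1
  -- the decomposition of the frequencies
  have hdec : ∀ j : Eis, ∃ x : Eis × Eis, j ≠ 0 → j = x.1 * x.2 ^ 3 ∧ CF x.1 ∧ x.2 ≠ 0 := by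
    intro j
    by_cases hj : j = 0
    · exact ⟨(1, 1), fun h => absurd hj h⟩
    · obtain ⟨κ, s, h⟩ := exists_cf hj
      exact ⟨(κ, s), fun _ => h⟩
  choose kc hkc using hdec
  set Cs := bl Z with hCs
  have hCs' : ∀ s ∈ Cs, s ≠ 0 ∧ (nm s : ℝ) ≤ Z := fun s hs => (mem_bl hZ0.le).mp hs
  set T := Gs.biUnion dvs with hT
  have hTp : ∀ t ∈ T, IsPrim t := fun t ht => by
    obtain ⟨γ, hγ, h⟩ := Finset.mem_biUnion.mp ht
    exact ((mem_dvs (hGp γ hγ).ne_zero).mp h).1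
  set T2 := Cs.biUnion dvs with hT2
  have hT2p : ∀ t ∈ T2, IsPrim t := fun t ht => by
    obtain ⟨γ, hγ, h⟩ := Finset.mem_biUnion.mp ht
    exact ((mem_dvs (hCs' γ hγ).1).mp h).1
  set B : ℝ := H * c ^ (1 / 3 : ℝ) * K ^ (2 / 3 : ℝ) with hB
  have hB0 : 0 ≤ B := by positivity
  set gt : Eis → Eis → Eis → Eis → ℝ := fun d κ v t =>
    if Squarefree t then ‖T1 α d κ (lc v t)‖ ^ 2 else 0 with hgt
  have hgt0 : ∀ d j e t, 0 ≤ gt d j e t := fun d j e t => by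
    simp only [hgt]; split_ifs <;> positivity
  set JJ : Eis → Finset Eis := fun d => BF (Z / (nm d : ℝ) ^ 2) with hJJ
  -- one pair
  have s1 : ∀ ρ ∈ Rs, P ρ.1 ρ.2 * ∑ γ ∈ Gs, om γ * ∑ j ∈ As ρ.1 ρ.2 γ,
        ‖TE0 (cg γ (fun m => α (ρ.1 * m))) (dl ρ.1) j ρ.2‖ ^ 2 ≤
      B * ∑ κ ∈ JJ ρ.1, n13 κ * (nm ρ.2 * (C2 * Z ^ ε * C1 * ∑ s ∈ T2, (nm s : ℝ)⁻¹ *
        (if Squarefree s then ∑ t ∈ T, (nm t : ℝ)⁻¹ * gt ρ.1 κ (lc ρ.2 s) t else 0))) := by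
    intro ρ hρ
    have hdp := (hRs ρ hρ).1
    have hep := ((mem_S hE0).1 (hRs ρ hρ).2).2.1
    have hdn := nmpos hdp.ne_zero
    have hd1 : (1 : ℝ) ≤ nm ρ.1 := by exact_mod_cast nm_pos.mpr hdp.ne_zero
    have hen := nmpos hep.ne_zero
    have b0 : ∀ γ ∈ Gs, 0 ≤ ∑ j ∈ As ρ.1 ρ.2 γ,
        ‖TE0 (cg γ (fun m => α (ρ.1 * m))) (dl ρ.1) j ρ.2‖ ^ 2 := fun γ _ =>
      Finset.sum_nonneg fun _ _ => by positivity
    -- the weights of γ
    have b1 : ∑ γ ∈ Gs, om γ * ∑ j ∈ As ρ.1 ρ.2 γ,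
        ‖TE0 (cg γ (fun m => α (ρ.1 * m))) (dl ρ.1) j ρ.2‖ ^ 2 ≤
        ∑ γ ∈ Gs, (nm γ : ℝ) ^ (-(1 / 2) : ℝ) * ∑ j ∈ As ρ.1 ρ.2 γ,
        ‖TE0 (cg γ (fun m => α (ρ.1 * m))) (dl ρ.1) j ρ.2‖ ^ 2 :=
      Finset.sum_le_sum fun γ hγ => mul_le_mul_of_nonneg_right (hG γ hγ).2.2 (b0 γ hγ)
    have b1' : 0 ≤ ∑ γ ∈ Gs, om γ * ∑ j ∈ As ρ.1 ρ.2 γ,
        ‖TE0 (cg γ (fun m => α (ρ.1 * m))) (dl ρ.1) j ρ.2‖ ^ 2 :=
      Finset.sum_nonneg fun γ hγ => mul_nonneg (hG γ hγ).2.1 (b0 γ hγ)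
    set Q : ℝ := H * (K ^ (2 / 3 : ℝ) * V ^ (-(1 / 3) : ℝ) * (nm ρ.1 : ℝ) ^ (2 / 3 : ℝ) * nm ρ.2)
      with hQ
    have hQ0 : 0 ≤ Q := by positivity
    have b3 : P ρ.1 ρ.2 * ∑ γ ∈ Gs, om γ * ∑ j ∈ As ρ.1 ρ.2 γ,
        ‖TE0 (cg γ (fun m => α (ρ.1 * m))) (dl ρ.1) j ρ.2‖ ^ 2 ≤
        Q * ∑ γ ∈ Gs, (nm γ : ℝ) ^ (-(1 / 2) : ℝ) * ∑ j ∈ As ρ.1 ρ.2 γ,
        ‖TE0 (cg γ (fun m => α (ρ.1 * m))) (dl ρ.1) j ρ.2‖ ^ 2 :=
      (mul_le_mul_of_nonneg_right (hP ρ hρ) b1').trans (mul_le_mul_of_nonneg_left b1 hQ0)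
    refine b3.trans ?_
    rw [Finset.mul_sum]
    -- the bound of one (γ, κ, s)
    set W : Eis → Eis → Eis → ℝ := fun γ κ s => B * (n13 κ * (nm ρ.2 * ((nm s : ℝ)⁻¹ *
      ((tau s : ℝ) * ∑ s' ∈ dvs s, (if Squarefree s' then (nm γ : ℝ) ^ (-(3 / 2) : ℝ) *
        ((tau γ : ℝ) * ∑ t ∈ dvs γ, gt ρ.1 κ (lc ρ.2 s') t) else 0))))) with hW
    have hW0 : ∀ γ κ s, 0 ≤ W γ κ s := fun γ κ s => by
      simp only [hW]
      refine mul_nonneg hB0 (mul_nonneg (X6C180.n13_nonneg _) (mul_nonneg (Nat.cast_nonneg _)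
        (mul_nonneg (by positivity) (mul_nonneg (Nat.cast_nonneg _)
        (Finset.sum_nonneg fun s' _ => ?_)))))
      split_ifs
      · exact mul_nonneg (by positivity) (mul_nonneg (Nat.cast_nonneg _)
          (Finset.sum_nonneg fun t _ => hgt0 _ _ _ _))
      · exact le_rfl
    have b4 : ∀ γ ∈ Gs, Q * ((nm γ : ℝ) ^ (-(1 / 2) : ℝ) * ∑ j ∈ As ρ.1 ρ.2 γ,
        ‖TE0 (cg γ (fun m => α (ρ.1 * m))) (dl ρ.1) j ρ.2‖ ^ 2) ≤
        ∑ x ∈ JJ ρ.1 ×ˢ Cs, W γ x.1 x.2 := by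
      intro γ hγ
      have hγn := nmpos (hGp γ hγ).ne_zero
      have hfac : ∀ j ∈ As ρ.1 ρ.2 γ, j = (kc j).1 * (kc j).2 ^ 3 ∧ CF (kc j).1 ∧
          (kc j).2 ≠ 0 := fun j hj => hkc j (hA' ρ hρ γ hγ j hj).1
      have hinj : Set.InjOn kc (As ρ.1 ρ.2 γ : Set Eis) := by
        intro a ha b hb hab
        rw [(hfac a ha).1, (hfac b hb).1, hab]
      have hsub : (As ρ.1 ρ.2 γ).image kc ⊆ JJ ρ.1 ×ˢ Cs := by
        intro x hx
        obtain ⟨j, hj, rfl⟩ := Finset.mem_image.mp hx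
        obtain ⟨q0, -, q3⟩ := hA' ρ hρ γ hγ j hj
        obtain ⟨f1, f2, f3⟩ := hfac j hj
        have f4 : (nm j : ℝ) = nm (kc j).1 * (nm (kc j).2 : ℝ) ^ 3 := by
          conv_lhs => rw [f1]
          rw [nm_mul, nm_pow]; push_cast; ring
        have g1 : (1 : ℝ) ≤ nm (kc j).1 := by exact_mod_cast nm_pos.mpr f2.1
        have g2 : (1 : ℝ) ≤ nm (kc j).2 := by exact_mod_cast nm_pos.mpr f3
        have g3 : (1 : ℝ) ≤ (nm (kc j).2 : ℝ) ^ 3 := one_le_pow₀ g2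
        have g4 : (1 : ℝ) ≤ (nm ρ.1 : ℝ) ^ 2 := one_le_pow₀ hd1
        rw [Finset.mem_product]
        refine ⟨?_, ?_⟩
        · simp only [hJJ]
          rw [mem_BF]
          refine ⟨f2, (le_div_iff₀ (by positivity)).mpr (le_trans ?_ q3)⟩
          rw [f4]
          have : (nm (kc j).1 : ℝ) ≤ nm (kc j).1 * (nm (kc j).2 : ℝ) ^ 3 :=
            le_mul_of_one_le_right (by positivity) g3
          gcongr
        · refine (mem_bl hZ0.le).mpr ⟨f3, le_trans ?_ q3⟩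
          have g5 : (nm (kc j).2 : ℝ) ≤ (nm (kc j).2 : ℝ) ^ 3 :=
            le_self_pow₀ g2 (by norm_num)
          have g6 : (nm (kc j).2 : ℝ) ^ 3 ≤ nm j := by
            rw [f4]; exact le_mul_of_one_le_left (by positivity) g1
          have g7 : (nm j : ℝ) ≤ nm j * (nm ρ.1 : ℝ) ^ 2 :=
            le_mul_of_one_le_right (Nat.cast_nonneg _) g4
          linarith
      rw [Finset.mul_sum, Finset.mul_sum]
      refine le_trans ?_ (Finset.sum_le_sum_of_subset_of_nonneg hsub fun x _ _ => hW0 _ _ _)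
      rw [Finset.sum_image hinj]
      refine Finset.sum_le_sum fun j hj => ?_
      obtain ⟨q1, q2, -⟩ := hA' ρ hρ γ hγ j hj
      obtain ⟨f1, f2, f3⟩ := hfac j hj
      have hjn := nmpos q1
      have hκn := nmpos f2.1
      have hsn := nmpos f3
      have w1 := wt_le hV hc hjn hdn hγn q2
      have w2 := norm_TE0_cg_cube_sq (hGp γ hγ) f3 hY hα.sup hdp (dl ρ.1) (kc j).1 hep
      rw [← f1] at w2
      have w3 : (nm j : ℝ) ^ (-(1 : ℝ) / 3) = n13 (kc j).1 * (nm (kc j).2 : ℝ)⁻¹ := by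
        have f4 : (nm j : ℝ) = nm (kc j).1 * (nm (kc j).2 : ℝ) ^ 3 := by
          conv_lhs => rw [f1]
          rw [nm_mul, nm_pow]; push_cast; ring
        rw [f4, Real.mul_rpow hκn.le (by positivity), ← Real.rpow_natCast (nm (kc j).2 : ℝ) 3,
          ← Real.rpow_mul hsn.le]
        have : ((3 : ℕ) : ℝ) * (-(1 : ℝ) / 3) = -1 := by norm_num
        rw [this, Real.rpow_neg_one]
        rfl
      have w4 : 0 ≤ (tau (kc j).2 : ℝ) * ∑ s ∈ dvs (kc j).2, (if Squarefree s then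
          (tau γ : ℝ) * ∑ t ∈ dvs γ, gt ρ.1 (kc j).1 (lc ρ.2 s) t else 0) :=
        mul_nonneg (Nat.cast_nonneg _) (Finset.sum_nonneg fun s _ => by
          split_ifs
          · exact mul_nonneg (Nat.cast_nonneg _) (Finset.sum_nonneg fun t _ => hgt0 _ _ _ _)
          · exact le_rfl)
      calc Q * ((nm γ : ℝ) ^ (-(1 / 2) : ℝ) *
            ‖TE0 (cg γ (fun m => α (ρ.1 * m))) (dl ρ.1) j ρ.2‖ ^ 2) =
            H * K ^ (2 / 3 : ℝ) * nm ρ.2 * (V ^ (-(1 / 3) : ℝ) * (nm ρ.1 : ℝ) ^ (2 / 3 : ℝ) *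
              (nm γ : ℝ) ^ (-(1 / 2) : ℝ)) *
              ‖TE0 (cg γ (fun m => α (ρ.1 * m))) (dl ρ.1) j ρ.2‖ ^ 2 := by
            rw [hQ]; ring
        _ ≤ H * K ^ (2 / 3 : ℝ) * nm ρ.2 * (c ^ (1 / 3 : ℝ) *
              ((nm j : ℝ) ^ (-(1 : ℝ) / 3) * (nm γ : ℝ) ^ (-(3 / 2) : ℝ))) *
              ((tau (kc j).2 : ℝ) * ∑ s ∈ dvs (kc j).2, (if Squarefree s then
                (tau γ : ℝ) * ∑ t ∈ dvs γ, gt ρ.1 (kc j).1 (lc ρ.2 s) t else 0)) := by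
            gcongr
        _ = W γ (kc j).1 (kc j).2 := by
            simp only [hW]
            have : ∑ s' ∈ dvs (kc j).2, (if Squarefree s' then (nm γ : ℝ) ^ (-(3 / 2) : ℝ) *
                ((tau γ : ℝ) * ∑ t ∈ dvs γ, gt ρ.1 (kc j).1 (lc ρ.2 s') t) else 0) =
                (nm γ : ℝ) ^ (-(3 / 2) : ℝ) * ∑ s ∈ dvs (kc j).2, (if Squarefree s then
                (tau γ : ℝ) * ∑ t ∈ dvs γ, gt ρ.1 (kc j).1 (lc ρ.2 s) t else 0) := by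
              rw [Finset.mul_sum]
              refine Finset.sum_congr rfl fun s _ => ?_
              split_ifs
              · rfl
              · rw [mul_zero]
            rw [this, w3, hB]
            ring
    refine (Finset.sum_le_sum b4).trans ?_
    rw [Finset.sum_comm, Finset.sum_product, Finset.mul_sum]
    refine Finset.sum_le_sum fun κ _ => ?_
    have hn3 := X6C180.n13_nonneg κ
    -- sum over γ, then over s
    have b5 : ∀ s' : Eis, ∑ γ ∈ Gs, (nm γ : ℝ) ^ (-(3 / 2) : ℝ) *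
        ((tau γ : ℝ) * ∑ t ∈ dvs γ, gt ρ.1 κ (lc ρ.2 s') t) ≤
        C1 * ∑ t ∈ T, (nm t : ℝ)⁻¹ * gt ρ.1 κ (lc ρ.2 s') t := fun s' =>
      h1 Gs hGp (gt ρ.1 κ (lc ρ.2 s')) (hgt0 ρ.1 κ (lc ρ.2 s'))
    set G2 : Eis → ℝ := fun s' => if Squarefree s' then
      C1 * ∑ t ∈ T, (nm t : ℝ)⁻¹ * gt ρ.1 κ (lc ρ.2 s') t else 0 with hG2
    have hG20 : ∀ s', 0 ≤ G2 s' := fun s' => by
      simp only [hG2]
      split_ifs
      · exact mul_nonneg hC1 (Finset.sum_nonneg fun t _ => mul_nonneg (by positivity)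
          (hgt0 _ _ _ _))
      · exact le_rfl
    have b6 : ∀ s ∈ Cs, ∑ γ ∈ Gs, W γ κ s ≤
        B * (n13 κ * (nm ρ.2 * ((nm s : ℝ)⁻¹ * ((tau s : ℝ) * ∑ s' ∈ dvs s, G2 s')))) := by
      intro s _
      have e1 : ∑ γ ∈ Gs, W γ κ s = B * (n13 κ * (nm ρ.2 * ((nm s : ℝ)⁻¹ *
          ((tau s : ℝ) * ∑ s' ∈ dvs s, (if Squarefree s' then
            ∑ γ ∈ Gs, (nm γ : ℝ) ^ (-(3 / 2) : ℝ) *
            ((tau γ : ℝ) * ∑ t ∈ dvs γ, gt ρ.1 κ (lc ρ.2 s') t) else 0))))) := by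
        simp only [hW]
        rw [← Finset.mul_sum, ← Finset.mul_sum, ← Finset.mul_sum, ← Finset.mul_sum,
          ← Finset.mul_sum, Finset.sum_comm]
        congr 5
        refine Finset.sum_congr rfl fun s' _ => ?_
        split_ifs
        · rfl
        · exact Finset.sum_const_zero
      rw [e1]
      have e2 : ∑ s' ∈ dvs s, (if Squarefree s' then
            ∑ γ ∈ Gs, (nm γ : ℝ) ^ (-(3 / 2) : ℝ) *
            ((tau γ : ℝ) * ∑ t ∈ dvs γ, gt ρ.1 κ (lc ρ.2 s') t) else 0) ≤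
          ∑ s' ∈ dvs s, G2 s' := by
        refine Finset.sum_le_sum fun s' _ => ?_
        simp only [hG2]
        split_ifs
        · exact b5 s'
        · exact le_rfl
      have e3 : 0 ≤ (tau s : ℝ) := Nat.cast_nonneg _
      exact mul_le_mul_of_nonneg_left (mul_le_mul_of_nonneg_left (mul_le_mul_of_nonneg_left
        (mul_le_mul_of_nonneg_left (mul_le_mul_of_nonneg_left e2 e3) (by positivity)) hen.le)
        hn3) hB0
    refine (Finset.sum_le_sum b6).trans ?_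
    have b7 := h2 Z hZ Cs hCs' G2 hG20
    have e4 : ∑ s ∈ T2, (nm s : ℝ)⁻¹ * G2 s = C1 * ∑ s ∈ T2, (nm s : ℝ)⁻¹ *
        (if Squarefree s then ∑ t ∈ T, (nm t : ℝ)⁻¹ * gt ρ.1 κ (lc ρ.2 s) t else 0) := by
      rw [Finset.mul_sum]
      refine Finset.sum_congr rfl fun s _ => ?_
      simp only [hG2]
      split_ifs
      · ring
      · ring
    rw [← Finset.mul_sum, ← Finset.mul_sum, ← Finset.mul_sum]
    calc B * (n13 κ * (nm ρ.2 * ∑ s ∈ Cs, (nm s : ℝ)⁻¹ * ((tau s : ℝ) * ∑ s' ∈ dvs s, G2 s'))) ≤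
          B * (n13 κ * (nm ρ.2 * (C2 * Z ^ ε * ∑ s ∈ T2, (nm s : ℝ)⁻¹ * G2 s))) := by
          gcongr
      _ = _ := by
          rw [e4]; ring
  refine (Finset.sum_le_sum s1).trans ?_
  -- all pairs
  set Dd := Rs.image Prod.fst with hDd
  set Es := Rs.image Prod.snd with hEs
  have hDp : ∀ d ∈ Dd, IsPrim d := fun d hd => by
    obtain ⟨ρ, hρ, rfl⟩ := Finset.mem_image.mp hd
    exact (hRs ρ hρ).1
  have hEp : ∀ e ∈ Es, e ∈ S E0 := fun e he => by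
    obtain ⟨ρ, hρ, rfl⟩ := Finset.mem_image.mp he
    exact (hRs ρ hρ).2
  set D0 : ℝ := C2 * Z ^ ε * C1 with hD0
  have hD00 : 0 ≤ D0 := by positivity
  set U : Eis → Eis → Eis → ℝ := fun d κ e => ∑ s ∈ T2, (nm s : ℝ)⁻¹ *
    (if Squarefree s then ∑ t ∈ T, (nm t : ℝ)⁻¹ * gt d κ (lc e s) t else 0) with hU
  have hU0 : ∀ d κ e, 0 ≤ U d κ e := fun d κ e => Finset.sum_nonneg fun s _ =>
    mul_nonneg (by positivity) (by
      split_ifs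
      · exact Finset.sum_nonneg fun t _ => mul_nonneg (by positivity) (hgt0 _ _ _ _)
      · exact le_rfl)
  set F : Eis → Eis → ℝ := fun d e => B * ∑ κ ∈ JJ d, n13 κ * (nm e * (D0 * U d κ e)) with hF
  have hF0 : ∀ d e, 0 ≤ F d e := fun d e => mul_nonneg hB0 (Finset.sum_nonneg fun j _ =>
    mul_nonneg (X6C180.n13_nonneg _) (mul_nonneg (Nat.cast_nonneg _) (mul_nonneg hD00
      (hU0 _ _ _))))
  have s2 : ∑ ρ ∈ Rs, F ρ.1 ρ.2 ≤ ∑ d ∈ Dd, ∑ e ∈ Es, F d e := by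
    rw [← Finset.sum_product']
    refine Finset.sum_le_sum_of_subset_of_nonneg ?_ fun x _ _ => hF0 _ _
    intro ρ hρ
    rw [Finset.mem_product]
    exact ⟨Finset.mem_image_of_mem _ hρ, Finset.mem_image_of_mem _ hρ⟩
  refine s2.trans ?_
  -- one δ
  have s3 : ∀ d ∈ Dd, ∑ e ∈ Es, F d e ≤ if d ∈ S Y then
      C0 * C1 * C2 * (Z ^ ε * H * c ^ (1 / 3 : ℝ) * E0 ^ 2) * ((K / X) * ∑ u ∈ S Y,
        (nm d * tau d * (tau u : ℝ) ^ 4) * ((nm u : ℝ)⁻¹ * LJ A K X Z α d u)) else 0 := by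
    intro d hd
    have hdp := hDp d hd
    have hdn := nmpos hdp.ne_zero
    have e1 : ∑ e ∈ Es, F d e = B * D0 * ∑ κ ∈ JJ d, n13 κ *
        ∑ e ∈ Es, (nm e : ℝ) * U d κ e := by
      simp only [hF]
      rw [← Finset.mul_sum, Finset.sum_comm, mul_assoc B D0, Finset.mul_sum (a := D0)]
      congr 1
      refine Finset.sum_congr rfl fun j _ => ?_
      rw [← Finset.mul_sum]
      have : ∑ e ∈ Es, (nm e : ℝ) * (D0 * U d j e) = D0 * ∑ e ∈ Es, (nm e : ℝ) * U d j e := by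
        rw [Finset.mul_sum]
        exact Finset.sum_congr rfl fun e _ => by ring
      rw [this]
      ring
    rw [e1]
    have e2 : ∀ κ, ∑ e ∈ Es, (nm e : ℝ) * U d κ e ≤
        E0 ^ 2 * ∑ u ∈ S Y, ((nm u : ℝ)⁻¹ * (tau u : ℝ) ^ 4) * ‖T1 α d κ u‖ ^ 2 := by
      intro κ
      exact sum_lc2 (Y := Y) hY hE0 hEp hT2p hTp (G := fun u => ‖T1 α d κ u‖ ^ 2)
        (fun u => by positivity) (fun u hu hn => by
          show ‖T1 α d κ u‖ ^ 2 = 0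
          rw [T1_zero_e hY hα.sup hdp κ hu hn]; simp)
    have e3 : B * D0 * ∑ κ ∈ JJ d, n13 κ * ∑ e ∈ Es, (nm e : ℝ) * U d κ e ≤
        B * D0 * ∑ j ∈ JJ d, n13 j * (E0 ^ 2 *
          ∑ u ∈ S Y, ((nm u : ℝ)⁻¹ * (tau u : ℝ) ^ 4) * ‖T1 α d j u‖ ^ 2) :=
      mul_le_mul_of_nonneg_left (Finset.sum_le_sum fun j _ =>
        mul_le_mul_of_nonneg_left (e2 j) (X6C180.n13_nonneg _)) (by positivity)
    refine e3.trans ?_
    by_cases hS : d ∈ S Y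
    swap
    · rw [if_neg hS]
      refine le_of_eq ?_
      have : ∀ j ∈ JJ d, n13 j * (E0 ^ 2 *
          ∑ u ∈ S Y, ((nm u : ℝ)⁻¹ * (tau u : ℝ) ^ 4) * ‖T1 α d j u‖ ^ 2) = 0 := by
        intro j _
        have : ∀ u ∈ S Y, ((nm u : ℝ)⁻¹ * (tau u : ℝ) ^ 4) * ‖T1 α d j u‖ ^ 2 = 0 := by
          intro u _
          rw [T1_zero_d hY hα.sup hdp hS]; simp
        rw [Finset.sum_eq_zero this]; simp
      rw [Finset.sum_eq_zero this, mul_zero]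
    rw [if_pos hS]
    -- one (j, u)
    have e4 : ∀ j ∈ JJ d, ∀ u ∈ S Y, B * (n13 j * (((nm u : ℝ)⁻¹ * (tau u : ℝ) ^ 4) *
        ‖T1 α d j u‖ ^ 2)) ≤ C0 * (H * c ^ (1 / 3 : ℝ)) * ((K / X) *
          ((nm d * tau d * (tau u : ℝ) ^ 4) * ((nm u : ℝ)⁻¹ *
            (lm K X d j * Wf A α d j u)))) := by
      intro j hj u hu
      have hup := ((mem_S hY).1 hu).2.1
      have hun := nmpos hup.ne_zero
      have hjc : CF j := by
        simp only [hJJ] at hj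
        exact (mem_BF.mp hj).1
      have hj0 := hjc.1
      have f1 := h0 Y X hY hX α hα d j u hdp hup
      have hn3 := X6C180.n13_nonneg j
      have hW := Wf_nonneg (A : ℝ) α d j u
      have hl := lm_nonneg hK.le hX.le d j
      have hτd := one_le_tauR hdp
      calc B * (n13 j * (((nm u : ℝ)⁻¹ * (tau u : ℝ) ^ 4) * ‖T1 α d j u‖ ^ 2)) ≤
            B * (n13 j * (((nm u : ℝ)⁻¹ * (tau u : ℝ) ^ 4) *
              (C0 * (X / nm d) ^ (-(1 / 3) : ℝ) * Wf (A : ℝ) α d j u))) := by gcongr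
        _ = C0 * (H * c ^ (1 / 3 : ℝ)) * (((nm u : ℝ)⁻¹ * (tau u : ℝ) ^ 4) * Wf (A : ℝ) α d j u) *
            (K ^ (2 / 3 : ℝ) * n13 j * (X / nm d) ^ (-(1 / 3) : ℝ)) := by rw [hB]; ring
        _ = C0 * (H * c ^ (1 / 3 : ℝ)) * ((K / X) * ((nm d * 1 * (tau u : ℝ) ^ 4) *
            ((nm u : ℝ)⁻¹ * (lm K X d j * Wf A α d j u)))) / 3 := by
            rw [wt_lm hK hX hdp.ne_zero hj0]; ring
        _ ≤ C0 * (H * c ^ (1 / 3 : ℝ)) * ((K / X) * ((nm d * tau d * (tau u : ℝ) ^ 4) *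
            ((nm u : ℝ)⁻¹ * (lm K X d j * Wf A α d j u)))) / 3 := by gcongr
        _ ≤ C0 * (H * c ^ (1 / 3 : ℝ)) * ((K / X) * ((nm d * tau d * (tau u : ℝ) ^ 4) *
            ((nm u : ℝ)⁻¹ * (lm K X d j * Wf A α d j u)))) := by
            refine div_le_self (by positivity) (by norm_num)
    have e5 : B * D0 * ∑ j ∈ JJ d, n13 j * (E0 ^ 2 *
          ∑ u ∈ S Y, ((nm u : ℝ)⁻¹ * (tau u : ℝ) ^ 4) * ‖T1 α d j u‖ ^ 2) =
        D0 * E0 ^ 2 * ∑ u ∈ S Y, ∑ j ∈ JJ d, B * (n13 j * (((nm u : ℝ)⁻¹ * (tau u : ℝ) ^ 4) *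
        ‖T1 α d j u‖ ^ 2)) := by
      rw [Finset.sum_comm, Finset.mul_sum, Finset.mul_sum]
      refine Finset.sum_congr rfl fun j _ => ?_
      rw [← Finset.mul_sum, ← Finset.mul_sum]
      ring
    rw [e5]
    have e6 : ∑ u ∈ S Y, ∑ j ∈ JJ d, B * (n13 j * (((nm u : ℝ)⁻¹ * (tau u : ℝ) ^ 4) *
        ‖T1 α d j u‖ ^ 2)) ≤ ∑ u ∈ S Y, ∑ j ∈ JJ d, C0 * (H * c ^ (1 / 3 : ℝ)) * ((K / X) *
          ((nm d * tau d * (tau u : ℝ) ^ 4) * ((nm u : ℝ)⁻¹ *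
            (lm K X d j * Wf A α d j u)))) :=
      Finset.sum_le_sum fun u hu => Finset.sum_le_sum fun j hj => e4 j hj u hu
    refine (mul_le_mul_of_nonneg_left e6 (by positivity)).trans (le_of_eq ?_)
    unfold LJ
    simp_rw [Finset.mul_sum]
    refine Finset.sum_congr rfl fun u _ => Finset.sum_congr rfl fun j _ => ?_
    rw [hD0]
    ring
  refine (Finset.sum_le_sum s3).trans ?_
  rw [← Finset.sum_filter, ← Finset.mul_sum, ← Finset.mul_sum]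
  refine mul_le_mul_of_nonneg_left ?_ (by positivity)
  refine mul_le_mul_of_nonneg_left ?_ (by positivity)
  unfold EHu320.EHc
  rw [Finset.filter_true]
  refine Finset.sum_le_sum_of_subset_of_nonneg (fun d hd => (Finset.mem_filter.mp hd).2)
    fun d _ _ => Finset.sum_nonneg fun u _ => ?_
  have := LJ_nonneg (A := (A : ℝ)) (Z := Z) hK.le hX.le α d u
  positivity

/-- **548's `TN`**: every line (`dl`, `om`, `A` free), one level `V` -/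
theorem TN_le_EHf (R : ℝ) (hR : 0 ≤ R) (A : ℕ) (hA : 2 ≤ A) {ε : ℝ} (hε : 0 < ε) :
    ∃ C : ℝ, 0 ≤ C ∧
    ∀ (Y X K Z E0 V c H : ℝ), 0 ≤ Y → 0 < X → 0 < K → 1 ≤ Z → 0 ≤ E0 → 0 < V → 0 ≤ c → 0 ≤ H →
      c * V ≤ Z →
    ∀ α : Eis → ℂ, Adm Y X R α →
    ∀ (we : Eis → ℝ) (Ds EE : Finset Eis) (om : Eis → ℝ) (Gs : Finset Eis)
      (As : Eis → Eis → Finset Eis) (dl : Eis → Eis),
      (∀ d ∈ Ds, IsPrim d) → (∀ e ∈ EE, e ∈ S E0) → (∀ e ∈ EE, we e ≤ H * nm e) →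
      (∀ γ ∈ Gs, IsPrim γ ∧ 0 ≤ om γ ∧ om γ ≤ (nm γ : ℝ) ^ (-(1 / 2) : ℝ)) →
      (∀ d ∈ Ds, ∀ γ ∈ Gs, As d γ ⊆ E3Z548.JV c V d γ) →
      K ^ (2 / 3 : ℝ) * V ^ (-(1 / 3) : ℝ) *
        E3Z548.TN (fun d _ m => α (d * m)) we Ds EE om Gs As dl ≤
      C * (Z ^ ε * H * c ^ (1 / 3 : ℝ) * E0 ^ 2) * ((K / X) *
        EHc (fun n => ((n : ℝ))⁻¹) (fun _ => True) A K X Y Z α) := by
  obtain ⟨C, hC, h⟩ := TM_all R hR A hA hε
  refine ⟨C, hC, ?_⟩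
  intro Y X K Z E0 V c H hY hX hK hZ hE0 hV hc hH hcV α hα we Ds EE om Gs As dl hDs hEE hwe hG hAs
  have h1 := h Y X K Z E0 V c H hY hX hK hZ hE0 hV hc hH α hα dl
    (fun d e => K ^ (2 / 3 : ℝ) * V ^ (-(1 / 3) : ℝ) * (nm d : ℝ) ^ (2 / 3 : ℝ) * we e) om Gs
    (fun d _ γ => As d γ) (Ds ×ˢ EE)
    (fun ρ hρ => ⟨hDs _ (Finset.mem_product.mp hρ).1, hEE _ (Finset.mem_product.mp hρ).2⟩)
    (fun ρ hρ => by
      have := hwe _ (Finset.mem_product.mp hρ).2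
      calc K ^ (2 / 3 : ℝ) * V ^ (-(1 / 3) : ℝ) * (nm ρ.1 : ℝ) ^ (2 / 3 : ℝ) * we ρ.2 ≤
            K ^ (2 / 3 : ℝ) * V ^ (-(1 / 3) : ℝ) * (nm ρ.1 : ℝ) ^ (2 / 3 : ℝ) *
              (H * nm ρ.2) := by gcongr
        _ = _ := by ring) hG
    (fun ρ hρ γ hγ j hj => by
      have hd := hDs _ (Finset.mem_product.mp hρ).1
      have hγp := (hG γ hγ).1
      have h2 := (E3Z548.mem_JV hd.ne_zero hγp.ne_zero).mp (hAs _ (Finset.mem_product.mp hρ).1 γ hγ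
        hj)
      refine ⟨h2.1, h2.2, ?_⟩
      refine le_trans ?_ (h2.2.trans hcV)
      have hg1 : (1 : ℝ) ≤ nm γ := by exact_mod_cast nm_pos.mpr hγp.ne_zero
      exact le_mul_of_one_le_right (by positivity) (one_le_pow₀ hg1))
  refine le_trans (le_of_eq ?_) h1
  unfold E3Z548.TN
  rw [Finset.sum_product, Finset.mul_sum]
  refine Finset.sum_congr rfl fun d _ => ?_
  rw [Finset.mul_sum]
  refine Finset.sum_congr rfl fun e _ => ?_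
  ring

end Crest.Agent.R017.OT551
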