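import Crest.Agent.R017.E3Kc_548
import Crest.Agent.R017.OTb_551

/-!
# Row 17, R8 (E3) (helper548): the diagonal error of (Z1), congruences in the product `om * T`

* `be_congr2`, `Fy_congr2`, `SF_congr2`, `Dg_congr2`, `EF_congr2`
* `Z1x` : (Z1) with a restricted weight on the left
* `afR`, .. : the sequences `[b ∣ d, (d, e₁) = 1] α (d m)`
* `EF_le` : the diagonal error in terms of helper48's `EHf`
-/

set_option autoImplicit false
set_option linter.unusedVariables false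

noncomputable section

open Finset
open scoped Classical ComplexConjugate ContDiff

namespace Crest.Agent.R017.E3Kf548

open Crest.Agent.R012 Crest.Agent.R012.Eis Crest.Agent.R012.Div277
open Crest.Agent.R012.MC (Wgt)
open Crest.Agent.R012.LS2 (S mem_S)
open Crest.Agent.R012.Mob705 (pb mem_pb pdiv mem_pdiv)
open Crest.Agent.R012.Weight600 (pw)
open Crest.Agent.R017.C70 (JC OKJ JW okJ_JW)
open Crest.Agent.R017.CM106 (CS FS)
open Crest.Agent.R017.HB645 (hh hh_nonneg hh_le_one abs_lt_of_hh contDiff_hh sum_hh_eq_one)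
open Crest.Agent.R017.E3D579 (TE0 mem_JW_fq)
open Crest.Agent.R017.E1551 (nmpos Adm)
open Crest.Agent.R017.PX764 (n6 Gh)
open Crest.Agent.R017.GrB829 (IsC)
open Crest.Agent.R017.E3A164 (Yp Ys fq Cs mem_Cs be Fy)
open Crest.Agent.R017.E3M829 (TC Tal Sg W0)
open Crest.Agent.R017.E3F548
open Crest.Agent.R017.E3T1579 (T3 WQ)
open Crest.Agent.R017.E3T829 (hE hE_nonneg cg)
open Crest.Agent.R017.E3Z548 (JV mem_JV TN TN_nonneg)
open Crest.Agent.R017.E3Kc548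

/-! ### congruences in the product -/

section congr

variable {J : Finset (Eis × Eis)} {om om' : Eis × Eis → ℂ} {T T' : Eis → Eis → Eis → ℂ}
  {E0 R : ℝ} {q t k₁ : Eis}

lemma be_congr2 {y : Yp} (h : ∀ j, (y.1, j) ∈ J →
    om (y.1, j) * T y.1 y.2.1 j = om' (y.1, j) * T' y.1 y.2.1 j) :
    be J om T q y = be J om' T' q y := by
  funext n
  unfold be
  split_ifs with h1
  · have h2 := congrArg conj (h _ h1.2.2.2)
    rw [map_mul, map_mul] at h2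
    rw [mul_right_comm, h2, mul_right_comm]
  · rfl

lemma Fy_congr2 {y : Yp} (h : ∀ j, (y.1, j) ∈ J →
    om (y.1, j) * T y.1 y.2.1 j = om' (y.1, j) * T' y.1 y.2.1 j) :
    Fy J om T q t k₁ y = Fy J om' T' q t k₁ y := by
  unfold Fy
  rw [be_congr2 h]

lemma SF_congr2 (h : ∀ x ∈ J, ∀ e ∈ S E0, om x * T x.1 e x.2 = om' x * T' x.1 e x.2) :
    ∑ y ∈ Ys J E0 R, Fy J om T q t k₁ y = ∑ y ∈ Ys J E0 R, Fy J om' T' q t k₁ y := by
  refine sum_congr rfl fun y hy => Fy_congr2 fun j hj => ?_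
  have h1 : y.2.1 ∈ S E0 := by
    rw [mem_Ys] at hy
    exact hy.2.1
  exact h _ hj _ h1

lemma Dg_congr2 (h : ∀ x ∈ J, ∀ e ∈ S E0, om x * T x.1 e x.2 = om' x * T' x.1 e x.2) :
    E3M829.Dg J om T E0 R q t k₁ = E3M829.Dg J om' T' E0 R q t k₁ := by
  unfold E3M829.Dg
  refine sum_congr rfl fun z _ => ?_
  have h1 : E3M829.AE J om T E0 q t k₁ z = E3M829.AE J om' T' E0 q t k₁ z := by
    unfold E3M829.AE
    refine sum_congr rfl fun e he => ?_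
    rw [be_congr2 (om' := om') (T' := T') fun j hj => h _ hj e he]
  rw [h1]

lemma EF_congr2 (h : ∀ x ∈ J, ∀ e ∈ S E0, om x * T x.1 e x.2 = om' x * T' x.1 e x.2)
    {x : Eis × Eis} (hx : x ∈ J) : EF om T E0 x = EF om' T' E0 x := by
  have key : ∀ (o : Eis × Eis → ℂ) (U : Eis → Eis → Eis → ℂ), EF o U E0 x =
      (nm x.2 : ℝ) ^ (-(1 : ℝ) / 3) * (∑ e ∈ S E0, ‖o x * U x.1 e x.2‖) ^ 2 := by
    intro o U
    unfold EF
    rw [sum_congr rfl fun e _ => norm_mul (o x) (U x.1 e x.2), ← mul_sum]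
    ring
  rw [key, key, sum_congr rfl fun e he => by rw [h x hx e he]]

end congr

/-- **(Z1)**, the weight `om'` on the left -/
theorem Z1x {w : ℝ → ℝ} (hw : Wgt w) {Rw : ℝ} {A Bw : ℕ} (hRw : 2 ≤ Rw) (hA : 1 < A)
    (hB : 1 < Bw) {ε : ℝ} (hε : 0 < ε) : ∃ C : ℝ, 1 ≤ C ∧
    ∀ (W b₀ : ℝ), W0 w W b₀ → ∀ (D Y₀ Y₁ : ℝ) (om om' : Eis × Eis → ℂ)
    (T T' : Eis → Eis → Eis → ℂ) (K R Z B E0 E1 : ℝ), TC T' →
    (∀ x ∈ JW D Y₀ Y₁, ∀ e ∈ S E0, om' x * T x.1 e x.2 = om x * T' x.1 e x.2) →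
    0 < K → 1 ≤ Z → 0 ≤ R → R ≤ Z → 1 ≤ B → 0 ≤ E1 →
    (∀ x ∈ JW D Y₀ Y₁, (nm x.1 : ℝ) ≤ Z) → (∀ x ∈ JW D Y₀ Y₁, (nm x.2 : ℝ) ≤ R) →
    Sg w K B R E1 (fun q t k₁ => ‖∑ y ∈ Ys (JW D Y₀ Y₁) E0 R, Fy (JW D Y₀ Y₁) om' T q t k₁ y‖ ^ 2) ≤
      Sg w K B R E1 (fun q t k₁ => E3M829.Dg (JW D Y₀ Y₁) om' T E0 R q t k₁) +
      (C * (∑ i ∈ LI Y₀ Y₁, ∑ j ∈ LI Y₀ Y₁, ∑ q ∈ S R, ∑ t ∈ pb E1,
        MPTr (fun _ _ => True) A Bw K B (Real.exp i) (Real.exp j) (Z ^ 5) (JW D Y₀ Y₁) (omk om i)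
          (omk om j) T' E0 R b₀ q t) +
      C * Z ^ ε * (K ^ (-(1 : ℝ) / 3) * E1 ^ 2 * B ^ 2 * R) *
        ∑ x ∈ JW D Y₀ Y₁, EF om' T E0 x) := by
  obtain ⟨C, hC, h⟩ := Z1 hw hRw hA hB hε
  refine ⟨C, hC, ?_⟩
  intro W b₀ hW D Y₀ Y₁ om om' T T' K R Z B E0 E1 hT hTT hK hZ hR hRZ hB1 hE1 hJ1 hJ2
  have k := h W b₀ hW D Y₀ Y₁ om T' T' K R Z B E0 E1 hT (fun _ _ _ _ => rfl) hK hZ hR hRZ hB1
    hE1 hJ1 hJ2
  have e1 : (fun q t k₁ => ‖∑ y ∈ Ys (JW D Y₀ Y₁) E0 R, Fy (JW D Y₀ Y₁) om' T q t k₁ y‖ ^ 2) =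
      fun q t k₁ => ‖∑ y ∈ Ys (JW D Y₀ Y₁) E0 R, Fy (JW D Y₀ Y₁) om T' q t k₁ y‖ ^ 2 := by
    funext q t k₁
    rw [SF_congr2 hTT]
  have e2 : (fun q t k₁ => E3M829.Dg (JW D Y₀ Y₁) om' T E0 R q t k₁) =
      fun q t k₁ => E3M829.Dg (JW D Y₀ Y₁) om T' E0 R q t k₁ := by
    funext q t k₁
    exact Dg_congr2 hTT
  rw [e1, e2, sum_congr rfl fun x hx => EF_congr2 hTT hx]
  exact k

/-! ### the restricted sequences -/

/-- the sequences `[b ∣ d, (d, e₁) = 1] α (d m)` -/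
def afR (b e₁ : Eis) (α : Eis → ℂ) (E0 : ℝ) (d e m : Eis) : ℂ :=
  if b ∣ d ∧ IsCoprime d e₁ then afT α E0 d e m else 0

section afR

variable {b e₁ : Eis} {α : Eis → ℂ} {E0 : ℝ} {d e j : Eis}

lemma afR_ne {m : Eis} (h : afR b e₁ α E0 d e m ≠ 0) :
    (b ∣ d ∧ IsCoprime d e₁) ∧ afT α E0 d e m ≠ 0 := by
  unfold afR at h
  split_ifs at h with h1
  · exact ⟨h1, h⟩
  · exact absurd rfl h

lemma FS_afR (hα : FS α) (d e : Eis) : FS (afR b e₁ α E0 d e) where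
  prim := fun m hm => (FS_afT hα d e).prim m (afR_ne hm).2
  fin := (FS_afT (E0 := E0) hα d e).fin.subset fun m hm => (afR_ne hm).2

lemma TC_afR (hs : ∀ n, α n ≠ 0 → Squarefree n) : TC (T3 (afR b e₁ α E0)) := by
  intro d e j h
  obtain ⟨m, h1, h2, h3⟩ := T3_ne h
  obtain ⟨-, -, -, h4⟩ := afT_ne (afR_ne h3).2
  have h5 : IsCoprime d m := (squarefree_mul_iff.mp (hs _ h4)).1.isCoprime
  exact ⟨h2.of_mul_right_right.of_isCoprime_of_dvd_right h1, h2.of_mul_right_left,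
    (h5.of_isCoprime_of_dvd_right h1).symm⟩

lemma T3_afR_zero (he : e ∉ S E0) (d j : Eis) : T3 (afR b e₁ α E0) d e j = 0 := by
  by_contra h
  obtain ⟨m, -, -, h3⟩ := T3_ne h
  exact he (afT_ne (afR_ne h3).2).2.2.1

lemma afR_sqf (hs : ∀ n, α n ≠ 0 → Squarefree n) {m : Eis} (h : afR b e₁ α E0 d e m ≠ 0) :
    Squarefree m := afT_sqf hs (afR_ne h).2

lemma afR_win {X R0 : ℝ} (hw : ∀ n, α n ≠ 0 → |Real.log (nm n) - Real.log X| ≤ R0) {m : Eis}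
    (h : afR b e₁ α E0 d e m ≠ 0) : |Real.log (nm d * nm m) - Real.log X| ≤ R0 :=
  afT_win hw (afR_ne h).2

/-- the restriction of the weight becomes the restriction of the sequence -/
lemma om_T3_afR (hp : ∀ n, α n ≠ 0 → IsPrim n) {om : Eis × Eis → ℂ} {x : Eis × Eis}
    (hd : IsPrim x.1) (he : e ∈ S E0) :
    (if b ∣ x.1 ∧ IsCoprime x.1 e₁ then om x else 0) * Tal α x.1 e x.2 =
      om x * T3 (afR b e₁ α E0) x.1 e x.2 := by
  by_cases h : b ∣ x.1 ∧ IsCoprime x.1 e₁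
  · rw [if_pos h, ← T3_afT hp hd he]
    congr 1
    unfold T3
    have : afR b e₁ α E0 x.1 e = afT α E0 x.1 e := by
      funext m
      unfold afR
      rw [if_pos h]
    rw [this]
  · rw [if_neg h, zero_mul]
    have : T3 (afR b e₁ α E0) x.1 e x.2 = 0 := by
      by_contra h1
      obtain ⟨m, -, -, h3⟩ := T3_ne h1
      exact h (afR_ne h3).1
    rw [this, mul_zero]

end afR

/-! ### the diagonal error -/

lemma cg_one (f : Eis → ℂ) : cg 1 f = f := by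
  funext m
  unfold cg
  rw [if_pos isCoprime_one_right]

lemma Tal_TE0 (α : Eis → ℂ) (d e j : Eis) :
    Tal α d e j = TE0 (cg 1 (fun m => α (d * m))) d j e := by
  rw [cg_one]
  rfl

lemma sq_sum_le (E0 : ℝ) (f : Eis → ℝ) (hf : ∀ e, 0 ≤ f e) :
    (∑ e ∈ S E0, f e) ^ 2 ≤ hE (S E0) * ∑ e ∈ S E0, nm e * f e ^ 2 := by
  have h1 : ∀ e ∈ S E0, (0 : ℝ) < nm e := fun e he => nmpos (SR_prim he).1.ne_zero
  have h2 := Finset.sum_mul_sq_le_sq_mul_sq (S E0) (fun e => (Real.sqrt (nm e))⁻¹)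
    (fun e => Real.sqrt (nm e) * f e)
  have e1 : ∑ e ∈ S E0, (Real.sqrt (nm e))⁻¹ * (Real.sqrt (nm e) * f e) = ∑ e ∈ S E0, f e := by
    refine sum_congr rfl fun e he => ?_
    have := Real.sqrt_pos.mpr (h1 e he)
    field_simp
  have e2 : ∑ e ∈ S E0, ((Real.sqrt (nm e))⁻¹) ^ 2 = hE (S E0) := by
    unfold hE
    refine sum_congr rfl fun e he => ?_
    rw [inv_pow, Real.sq_sqrt (h1 e he).le, one_div]
  have e3 : ∑ e ∈ S E0, (Real.sqrt (nm e) * f e) ^ 2 = ∑ e ∈ S E0, nm e * f e ^ 2 := by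
    refine sum_congr rfl fun e he => ?_
    rw [mul_pow, Real.sq_sqrt (h1 e he).le]
  rw [e1, e2, e3] at h2
  exact h2

/-- one level -/
lemma EF_level {D Y₀ Y₁ : ℝ} {om : Eis × Eis → ℂ} {α : Eis → ℂ} {E0 : ℝ}
    (hom : ∀ x ∈ JW D Y₀ Y₁, ‖om x‖ ≤ 1) (k : ℕ) :
    ∑ x ∈ JW D Y₀ Y₁, hh (Real.log (nm (x.2 * x.1 ^ 2)) - k) * EF om (Tal α) E0 x ≤
      Real.exp 1 ^ (1 / 3 : ℝ) * hE (S E0) * ((Real.exp k) ^ (-(1 / 3) : ℝ) *
        TN (fun d _ m => α (d * m)) (fun e => nm e) ((JW D Y₀ Y₁).image Prod.fst) (S E0)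
          (fun _ => 1) {1} (JV (Real.exp 1) (Real.exp k)) id) := by
  have hJ := okJ_JW D Y₀ Y₁
  set J := JW D Y₀ Y₁ with hJd
  set g : Eis × Eis → ℝ := fun x => (nm x.1 : ℝ) ^ (2 / 3 : ℝ) *
    ∑ e ∈ S E0, nm e * ‖Tal α x.1 e x.2‖ ^ 2 with hg
  have hg0 : ∀ x, 0 ≤ g x := fun x => by rw [hg]; positivity
  set c0 : ℝ := Real.exp 1 ^ (1 / 3 : ℝ) * hE (S E0) * (Real.exp k) ^ (-(1 / 3) : ℝ) with hc0
  have hc00 : 0 ≤ c0 := by
    rw [hc0]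
    have := hE_nonneg (S E0)
    positivity
  set P : Finset (Eis × Eis) := ((J.image Prod.fst) ×ˢ (ball ⌊Real.exp 1 * Real.exp k⌋₊)).filter
    fun x => x.2 ∈ JV (Real.exp 1) (Real.exp k) x.1 1 with hP
  -- the right side
  have e1 : TN (fun d _ m => α (d * m)) (fun e => nm e) (J.image Prod.fst) (S E0)
          (fun _ => 1) {1} (JV (Real.exp 1) (Real.exp k)) id = ∑ x ∈ P, g x := by
    rw [hP, sum_filter, sum_product]
    unfold TN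
    refine sum_congr rfl fun d _ => ?_
    have e2 : ∑ j ∈ ball ⌊Real.exp 1 * Real.exp k⌋₊,
        (if j ∈ JV (Real.exp 1) (Real.exp k) d 1 then g (d, j) else 0) =
        ∑ j ∈ JV (Real.exp 1) (Real.exp k) d 1, g (d, j) := by
      rw [← sum_filter]
      refine sum_congr ?_ fun _ _ => rfl
      ext j
      rw [mem_filter]
      refine ⟨fun h => h.2, fun h => ⟨?_, h⟩⟩
      unfold JV at h
      exact (mem_filter.mp h).1
    rw [e2, hg]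
    simp only [sum_singleton, one_mul, id]
    rw [← mul_sum, sum_comm, mul_sum]
    refine sum_congr rfl fun e _ => ?_
    rw [← mul_sum, mul_assoc]
    congr 2
    refine sum_congr rfl fun j _ => ?_
    rw [Tal_TE0]
  rw [e1, show Real.exp 1 ^ (1 / 3 : ℝ) * hE (S E0) * ((Real.exp k) ^ (-(1 / 3) : ℝ) *
    ∑ x ∈ P, g x) = ∑ x ∈ P, c0 * g x by rw [hc0, ← mul_sum]; ring]
  -- the left side
  have hle : ∀ x ∈ J, hh (Real.log (nm (x.2 * x.1 ^ 2)) - k) ≠ 0 → x ∈ P ∧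
      hh (Real.log (nm (x.2 * x.1 ^ 2)) - k) * EF om (Tal α) E0 x ≤ c0 * g x := by
    intro x hx hne
    have h0 := nm_pos_J hJ hx
    have hd := hJ.prim x hx
    have hj0 : x.2 ≠ 0 := by
      intro h
      rw [h, zero_mul] at h0
      simp at h0
    have hn0 : (0 : ℝ) < nm (x.2 * x.1 ^ 2) := by exact_mod_cast h0
    obtain ⟨h3, h4⟩ := abs_lt.mp (abs_lt_of_hh hne)
    have hup : (nm (x.2 * x.1 ^ 2) : ℝ) ≤ Real.exp 1 * Real.exp k := by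
      rw [← Real.exp_add, ← Real.log_le_iff_le_exp hn0]
      linarith
    have hlo : Real.exp k / Real.exp 1 ≤ nm (x.2 * x.1 ^ 2) := by
      rw [← Real.exp_sub, ← Real.le_log_iff_exp_le hn0]
      linarith
    have hnm : (nm (x.2 * x.1 ^ 2) : ℝ) = nm x.2 * (nm x.1 : ℝ) ^ 2 := by
      rw [nm_mul, nm_pow]; push_cast; ring
    have hdp : (0 : ℝ) < nm x.1 := nmpos hd.ne_zero
    have hjp : (0 : ℝ) < nm x.2 := nmpos hj0
    have hmem : x.2 ∈ JV (Real.exp 1) (Real.exp k) x.1 1 := by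
      rw [mem_JV hd.ne_zero one_ne_zero]
      refine ⟨hj0, ?_⟩
      rw [nm_one, Nat.cast_one, one_pow, mul_one, ← hnm]
      exact hup
    refine ⟨?_, ?_⟩
    · rw [hP, mem_filter, mem_product]
      refine ⟨⟨mem_image_of_mem _ hx, ?_⟩, hmem⟩
      unfold JV at hmem
      exact (mem_filter.mp hmem).1
    · have m1 : EF om (Tal α) E0 x ≤ (nm x.2 : ℝ) ^ (-(1 : ℝ) / 3) *
          (hE (S E0) * ∑ e ∈ S E0, nm e * ‖Tal α x.1 e x.2‖ ^ 2) := by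
        unfold EF
        have n1 := hom x hx
        have n2 : ‖om x‖ ^ 2 ≤ 1 := pow_le_one₀ (norm_nonneg _) n1
        have n3 := sq_sum_le E0 (fun e => ‖Tal α x.1 e x.2‖) fun e => norm_nonneg _
        calc ‖om x‖ ^ 2 * ((nm x.2 : ℝ) ^ (-(1 : ℝ) / 3) * (∑ e ∈ S E0, ‖Tal α x.1 e x.2‖) ^ 2) ≤
            1 * ((nm x.2 : ℝ) ^ (-(1 : ℝ) / 3) * (hE (S E0) *
              ∑ e ∈ S E0, nm e * ‖Tal α x.1 e x.2‖ ^ 2)) := by
              refine mul_le_mul n2 (mul_le_mul_of_nonneg_left n3 (by positivity)) (by positivity)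
                zero_le_one
          _ = _ := one_mul _
      have m2 : (nm x.2 : ℝ) ^ (-(1 : ℝ) / 3) ≤ Real.exp 1 ^ (1 / 3 : ℝ) *
          (Real.exp k) ^ (-(1 / 3) : ℝ) * (nm x.1 : ℝ) ^ (2 / 3 : ℝ) := by
        have r1 : (nm x.2 : ℝ) = nm (x.2 * x.1 ^ 2) * ((nm x.1 : ℝ) ^ 2)⁻¹ := by
          rw [hnm]; field_simp
        have r2 : (nm x.2 : ℝ) ^ (-(1 : ℝ) / 3) =
            (nm (x.2 * x.1 ^ 2) : ℝ) ^ (-(1 : ℝ) / 3) * (nm x.1 : ℝ) ^ (2 / 3 : ℝ) := by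
          rw [r1, Real.mul_rpow hn0.le (by positivity), Real.inv_rpow (by positivity),
            ← Real.rpow_neg (by positivity), ← Real.rpow_natCast, ← Real.rpow_mul hdp.le]
          congr 2
          push_cast
          ring
        rw [r2]
        refine mul_le_mul_of_nonneg_right ?_ (by positivity)
        have r3 : (nm (x.2 * x.1 ^ 2) : ℝ) ^ (-(1 : ℝ) / 3) ≤
            (Real.exp k / Real.exp 1) ^ (-(1 : ℝ) / 3) :=
          Real.rpow_le_rpow_of_nonpos (by positivity) hlo (by norm_num)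
        refine r3.trans (le_of_eq ?_)
        rw [Real.div_rpow (Real.exp_pos _).le (Real.exp_pos _).le, div_eq_mul_inv,
          ← Real.rpow_neg (Real.exp_pos _).le, mul_comm]
        norm_num
      have hh1 := hh_le_one (Real.log (nm (x.2 * x.1 ^ 2)) - k)
      have hEF := EF_nonneg om (Tal α) E0 x
      have hE0' := hE_nonneg (S E0)
      have hsum : 0 ≤ ∑ e ∈ S E0, nm e * ‖Tal α x.1 e x.2‖ ^ 2 :=
        sum_nonneg fun e _ => by positivity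
      calc hh (Real.log (nm (x.2 * x.1 ^ 2)) - k) * EF om (Tal α) E0 x ≤
          1 * EF om (Tal α) E0 x := mul_le_mul_of_nonneg_right hh1 hEF
        _ = EF om (Tal α) E0 x := one_mul _
        _ ≤ (nm x.2 : ℝ) ^ (-(1 : ℝ) / 3) *
          (hE (S E0) * ∑ e ∈ S E0, nm e * ‖Tal α x.1 e x.2‖ ^ 2) := m1
        _ ≤ (Real.exp 1 ^ (1 / 3 : ℝ) *
          (Real.exp k) ^ (-(1 / 3) : ℝ) * (nm x.1 : ℝ) ^ (2 / 3 : ℝ)) *
          (hE (S E0) * ∑ e ∈ S E0, nm e * ‖Tal α x.1 e x.2‖ ^ 2) :=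
            mul_le_mul_of_nonneg_right m2 (mul_nonneg hE0' hsum)
        _ = c0 * g x := by rw [hc0, hg]; ring
  calc ∑ x ∈ J, hh (Real.log (nm (x.2 * x.1 ^ 2)) - k) * EF om (Tal α) E0 x =
      ∑ x ∈ J.filter (fun x => hh (Real.log (nm (x.2 * x.1 ^ 2)) - k) ≠ 0),
        hh (Real.log (nm (x.2 * x.1 ^ 2)) - k) * EF om (Tal α) E0 x := by
        refine (sum_filter_of_ne fun x _ h => ?_).symm
        intro h2
        exact h (by rw [h2, zero_mul])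
    _ ≤ ∑ x ∈ J.filter (fun x => hh (Real.log (nm (x.2 * x.1 ^ 2)) - k) ≠ 0), c0 * g x :=
        sum_le_sum fun x hx => (hle x (mem_filter.mp hx).1 (mem_filter.mp hx).2).2
    _ ≤ ∑ x ∈ P, c0 * g x := sum_le_sum_of_subset_of_nonneg
        (fun x hx => (hle x (mem_filter.mp hx).1 (mem_filter.mp hx).2).1)
        fun x _ _ => mul_nonneg hc00 (hg0 x)

lemma sum_hh {D Y₀ Y₁ : ℝ} {x : Eis × Eis} (hx : x ∈ JW D Y₀ Y₁) :
    ∑ k ∈ LI Y₀ Y₁, hh (Real.log (nm (x.2 * x.1 ^ 2)) - k) = 1 := by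
  have h := om_sum (om := fun _ => 1) hx
  unfold omk at h
  simp only [mul_one] at h
  rw [← Complex.ofReal_sum] at h
  exact_mod_cast h.symm

/-- **the diagonal error** -/
theorem EF_le (R : ℝ) (hR : 0 ≤ R) (A : ℕ) (hA : 2 ≤ A) {ε : ℝ} (hε : 0 < ε) :
    ∃ C : ℝ, 0 ≤ C ∧ ∀ (Y X K Z E0 D Y₀ Y₁ : ℝ), 0 ≤ Y → 0 < X → 0 < K → 1 ≤ Z → 0 ≤ E0 →
      0 ≤ Y₁ → Real.exp 1 * (Real.exp 1 * Y₁) ≤ Z → ∀ α : Eis → ℂ, Adm Y X R α →
      ∀ om : Eis × Eis → ℂ, (∀ x ∈ JW D Y₀ Y₁, ‖om x‖ ≤ 1) →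
      K ^ (2 / 3 : ℝ) * ∑ x ∈ JW D Y₀ Y₁, EF om (Tal α) E0 x ≤
        C * (Z ^ ε * hE (S E0) * E0 ^ 2) * ((K / X) * LBx48.EHf A K X Y Z α) := by
  have hε2 : 0 < ε / 2 := by positivity
  obtain ⟨C, hC, h⟩ := OT551.TN_le_EHf R hR A hA hε2
  have hc0 : 0 ≤ 1 / (ε / 2) := by positivity
  refine ⟨Real.exp 1 ^ (1 / 3 : ℝ) * Real.exp 1 ^ (1 / 3 : ℝ) * C * (2 + 1 / (ε / 2)),
    by positivity, ?_⟩
  intro Y X K Z E0 D Y₀ Y₁ hY hX hK hZ hE0 hY1 hYZ α hα om hom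
  have hZ0 : (0 : ℝ) < Z := by linarith
  have he1 : (1 : ℝ) ≤ Real.exp 1 := Real.one_le_exp zero_le_one
  have hYZ' : Y₁ ≤ Z := by
    have y1 : Y₁ ≤ Real.exp 1 * Y₁ := le_mul_of_one_le_left hY1 he1
    have y2 : Real.exp 1 * Y₁ ≤ Real.exp 1 * (Real.exp 1 * Y₁) :=
      le_mul_of_one_le_left (by positivity) he1
    linarith
  have hcard := card_LI Y₀ hZ hY1 hYZ' hε2
  have hze : (Z ^ (ε / 2)) * Z ^ (ε / 2) = Z ^ ε := by
    rw [← Real.rpow_add hZ0]; congr 1; ring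
  have hEn : 0 ≤ LBx48.EHf A K X Y Z α := by
    unfold LBx48.EHf
    exact LBx48.EHc_nonneg (fun n => by positivity) _ hK.le hX.le α
  have hhE := hE_nonneg (S E0)
  -- the sum over the levels
  have e1 : ∑ x ∈ JW D Y₀ Y₁, EF om (Tal α) E0 x = ∑ k ∈ LI Y₀ Y₁, ∑ x ∈ JW D Y₀ Y₁,
      hh (Real.log (nm (x.2 * x.1 ^ 2)) - k) * EF om (Tal α) E0 x := by
    rw [sum_comm]
    refine sum_congr rfl fun x hx => ?_
    rw [← sum_mul, sum_hh hx, one_mul]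
  have key : ∀ k ∈ LI Y₀ Y₁, K ^ (2 / 3 : ℝ) * ∑ x ∈ JW D Y₀ Y₁,
      hh (Real.log (nm (x.2 * x.1 ^ 2)) - k) * EF om (Tal α) E0 x ≤
      Real.exp 1 ^ (1 / 3 : ℝ) * hE (S E0) * (C * (Z ^ (ε / 2) * 1 * Real.exp 1 ^ (1 / 3 : ℝ) *
        E0 ^ 2) * ((K / X) * LBx48.EHf A K X Y Z α)) := by
    intro k hk
    obtain ⟨h1, h2, h3⟩ := mem_LI hk
    have k1 := EF_level (α := α) (E0 := E0) hom k
    have k2 := h Y X K Z E0 (Real.exp k) (Real.exp 1) 1 hY hX hK hZ hE0 (Real.exp_pos _)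
      (Real.exp_pos _).le zero_le_one ((mul_le_mul_of_nonneg_left h3 (Real.exp_pos _).le).trans hYZ)
      α hα (fun e => nm e) ((JW D Y₀ Y₁).image Prod.fst) (S E0) (fun _ => 1) {1}
      (JV (Real.exp 1) (Real.exp k)) id
      (fun d hd => by
        obtain ⟨x, hx, rfl⟩ := mem_image.mp hd
        exact (okJ_JW D Y₀ Y₁).prim x hx)
      (fun e he => he) (fun e _ => by rw [one_mul])
      (fun γ hγ => by
        rw [mem_singleton] at hγ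
        subst hγ
        refine ⟨isPrim_one, zero_le_one, ?_⟩
        simp) (fun d _ γ _ => subset_rfl)
    have hK23 : 0 ≤ K ^ (2 / 3 : ℝ) := by positivity
    calc K ^ (2 / 3 : ℝ) * ∑ x ∈ JW D Y₀ Y₁,
        hh (Real.log (nm (x.2 * x.1 ^ 2)) - k) * EF om (Tal α) E0 x ≤
        K ^ (2 / 3 : ℝ) * (Real.exp 1 ^ (1 / 3 : ℝ) * hE (S E0) * ((Real.exp k) ^ (-(1 / 3) : ℝ) *
        TN (fun d _ m => α (d * m)) (fun e => nm e) ((JW D Y₀ Y₁).image Prod.fst) (S E0)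
          (fun _ => 1) {1} (JV (Real.exp 1) (Real.exp k)) id)) :=
          mul_le_mul_of_nonneg_left k1 hK23
      _ = Real.exp 1 ^ (1 / 3 : ℝ) * hE (S E0) * (K ^ (2 / 3 : ℝ) * (Real.exp k) ^ (-(1 / 3) : ℝ) *
        TN (fun d _ m => α (d * m)) (fun e => nm e) ((JW D Y₀ Y₁).image Prod.fst) (S E0)
          (fun _ => 1) {1} (JV (Real.exp 1) (Real.exp k)) id) := by ring
      _ ≤ _ := mul_le_mul_of_nonneg_left k2 (by positivity)
  rw [e1, mul_sum]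
  refine (sum_le_sum key).trans ?_
  rw [sum_const, nsmul_eq_mul]
  have hM : 0 ≤ Real.exp 1 ^ (1 / 3 : ℝ) * hE (S E0) * (C * (Z ^ (ε / 2) * 1 *
      Real.exp 1 ^ (1 / 3 : ℝ) * E0 ^ 2) * ((K / X) * LBx48.EHf A K X Y Z α)) := by positivity
  refine (mul_le_mul_of_nonneg_right hcard hM).trans (le_of_eq ?_)
  rw [← hze]
  ring

end Crest.Agent.R017.E3Kf548
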