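import Crest.Agent.R017.E3Nc_146
import Crest.Agent.R017.E3Mj_829
import Crest.Agent.R017.E3Kf_548

/-!
# Row 17, R8 (E3): the `T`-moments of the errors (helper579)

* `lev_le` : the sum over `JW` with the weight `N(j)^(-1/3)` by the levels
* `XE_TN`, `TF_TN` : the moments by the `T`-numbers of the levels
* `EF_TF` : the sum of `EF` by `TF 1`
-/

set_option autoImplicit false

noncomputable section

open Finset MeasureTheory
open scoped ComplexConjugate Classical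

namespace Crest.Agent.R017.E3Er579

open Crest.Agent.R012 Crest.Agent.R012.Eis Crest.Agent.R012.MC
open Crest.Agent.R012.LS2 (S mem_S)
open Crest.Agent.R017.C70
open Crest.Agent.R017.E1551 (nmpos)
open Crest.Agent.R017.E3D579 (TE0)
open Crest.Agent.R017.E3T829 (cg hE hE_nonneg)
open Crest.Agent.R017.HB645 (hh hh_nonneg hh_le_one abs_lt_of_hh)
open Crest.Agent.R017.E3Z548 (TN TN_nonneg JV JVc mem_JV)
open Crest.Agent.R017.E3M829 (TF Tal)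
open Crest.Agent.R017.E3Kc548 (LI mem_LI card_LI nm_pos_J mem_JW_win om_sum omk)
open Crest.Agent.R017.E3F548
open Crest.Agent.R017.E3Kf548 (Tal_TE0 sq_sum_le)

/-- the partition -/
lemma sum_hh' {D Y₀ Y₁ : ℝ} {x : Eis × Eis} (hx : x ∈ JW D Y₀ Y₁) :
    ∑ k ∈ LI Y₀ Y₁, hh (Real.log (nm (x.2 * x.1 ^ 2)) - k) = 1 := by
  have h := om_sum (om := fun _ => 1) hx
  unfold omk at h
  simp only [mul_one] at h
  rw [← Complex.ofReal_sum] at h
  exact_mod_cast h.symm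

/-- **the sum over the levels** -/
theorem lev_le {D Y₀ Y₁ : ℝ} {f : Eis × Eis → ℝ} (hf : ∀ x, 0 ≤ f x) :
    ∑ x ∈ JW D Y₀ Y₁, (nm x.2 : ℝ) ^ (-(1 : ℝ) / 3) * f x ≤
      Real.exp (1 / 3) * ∑ i ∈ LI Y₀ Y₁, Real.exp (-((i : ℝ) / 3)) *
        ∑ d ∈ (JW D Y₀ Y₁).image Prod.fst, (nm d : ℝ) ^ (2 / 3 : ℝ) *
          ∑ j ∈ JVc (Real.exp 1) (Real.exp i) d 1, f (d, j) := by
  have hJ := okJ_JW D Y₀ Y₁
  set J := JW D Y₀ Y₁ with hJd
  have e0 : ∑ x ∈ J, (nm x.2 : ℝ) ^ (-(1 : ℝ) / 3) * f x = ∑ k ∈ LI Y₀ Y₁, ∑ x ∈ J,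
      hh (Real.log (nm (x.2 * x.1 ^ 2)) - k) * ((nm x.2 : ℝ) ^ (-(1 : ℝ) / 3) * f x) := by
    rw [sum_comm]
    refine sum_congr rfl fun x hx => ?_
    rw [← sum_mul, sum_hh' hx, one_mul]
  rw [e0, mul_sum]
  refine sum_le_sum fun k hk => ?_
  set P : Finset (Eis × Eis) := ((J.image Prod.fst) ×ˢ (ball ⌊Real.exp 1 * Real.exp k⌋₊)).filter
    fun x => x.2 ∈ JVc (Real.exp 1) (Real.exp k) x.1 1 with hP
  set c0 : ℝ := Real.exp (1 / 3) * Real.exp (-((k : ℝ) / 3)) with hc0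
  set g : Eis × Eis → ℝ := fun x => (nm x.1 : ℝ) ^ (2 / 3 : ℝ) * f x with hg
  have hg0 : ∀ x, 0 ≤ g x := fun x => mul_nonneg (by positivity) (hf x)
  have hc00 : 0 ≤ c0 := by rw [hc0]; positivity
  have e1 : Real.exp (1 / 3) * (Real.exp (-((k : ℝ) / 3)) * ∑ d ∈ J.image Prod.fst,
      (nm d : ℝ) ^ (2 / 3 : ℝ) * ∑ j ∈ JVc (Real.exp 1) (Real.exp k) d 1, f (d, j)) =
      ∑ x ∈ P, c0 * g x := by
    rw [hP, sum_filter, sum_product, ← mul_assoc, mul_sum]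
    refine sum_congr rfl fun d _ => ?_
    have e2 : ∑ j ∈ ball ⌊Real.exp 1 * Real.exp k⌋₊,
        (if j ∈ JVc (Real.exp 1) (Real.exp k) d 1 then c0 * g (d, j) else 0) =
        ∑ j ∈ JVc (Real.exp 1) (Real.exp k) d 1, c0 * g (d, j) := by
      rw [← sum_filter]
      refine sum_congr ?_ fun _ _ => rfl
      ext j
      rw [mem_filter]
      refine ⟨fun h => h.2, fun h => ⟨?_, h⟩⟩
      unfold JVc JV at h
      exact (mem_filter.mp (mem_filter.mp h).1).1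
    rw [e2, ← mul_sum, hg, hc0]
    simp only
    rw [← mul_sum]
  rw [e1]
  have hle : ∀ x ∈ J, hh (Real.log (nm (x.2 * x.1 ^ 2)) - k) ≠ 0 → x ∈ P ∧
      hh (Real.log (nm (x.2 * x.1 ^ 2)) - k) * ((nm x.2 : ℝ) ^ (-(1 : ℝ) / 3) * f x) ≤
        c0 * g x := by
    intro x hx hne
    have h0 := nm_pos_J hJ hx
    have hd := hJ.prim x hx
    have hj0 : x.2 ≠ 0 := by
      intro h
      rw [h, zero_mul] at h0
      simp at h0
    have hn0 : (0 : ℝ) < nm (x.2 * x.1 ^ 2) := by exact_mod_cast h0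
    obtain ⟨h3, h4⟩ := abs_lt.mp (abs_lt_of_hh hne)
    have hup : (nm (x.2 * x.1 ^ 2) : ℝ) ≤ Real.exp 1 * Real.exp k := by
      rw [← Real.exp_add, ← Real.log_le_iff_le_exp hn0]
      linarith
    have hlo : Real.exp (k - 1) ≤ nm (x.2 * x.1 ^ 2) := by
      rw [← Real.le_log_iff_exp_le hn0]
      linarith
    have hnm : (nm (x.2 * x.1 ^ 2) : ℝ) = nm x.2 * (nm x.1 : ℝ) ^ 2 := by
      rw [nm_mul, nm_pow]; push_cast; ring
    have hdp : (0 : ℝ) < nm x.1 := nmpos hd.ne_zero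
    have hjp : (0 : ℝ) < nm x.2 := nmpos hj0
    have hmem : x.2 ∈ JVc (Real.exp 1) (Real.exp k) x.1 1 := by
      unfold JVc
      rw [mem_filter, mem_JV hd.ne_zero one_ne_zero]
      refine ⟨⟨hj0, ?_⟩, hJ.jc x hx⟩
      rw [nm_one, Nat.cast_one, one_pow, mul_one, ← hnm]
      exact hup
    refine ⟨?_, ?_⟩
    · rw [hP, mem_filter, mem_product]
      refine ⟨⟨mem_image_of_mem _ hx, ?_⟩, hmem⟩
      unfold JVc JV at hmem
      exact (mem_filter.mp (mem_filter.mp hmem).1).1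
    · have m2 : (nm x.2 : ℝ) ^ (-(1 : ℝ) / 3) ≤ c0 * (nm x.1 : ℝ) ^ (2 / 3 : ℝ) := by
        have r1 : (nm x.2 : ℝ) = nm (x.2 * x.1 ^ 2) * ((nm x.1 : ℝ) ^ 2)⁻¹ := by
          rw [hnm]; field_simp
        have r2 : (nm x.2 : ℝ) ^ (-(1 : ℝ) / 3) =
            (nm (x.2 * x.1 ^ 2) : ℝ) ^ (-(1 : ℝ) / 3) * (nm x.1 : ℝ) ^ (2 / 3 : ℝ) := by
          rw [r1, Real.mul_rpow hn0.le (by positivity), Real.inv_rpow (by positivity),
            ← Real.rpow_neg (by positivity), ← Real.rpow_natCast, ← Real.rpow_mul hdp.le]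
          congr 2
          push_cast
          ring
        rw [r2]
        refine mul_le_mul_of_nonneg_right ?_ (by positivity)
        have r3 : (nm (x.2 * x.1 ^ 2) : ℝ) ^ (-(1 : ℝ) / 3) ≤
            (Real.exp (k - 1)) ^ (-(1 : ℝ) / 3) :=
          Real.rpow_le_rpow_of_nonpos (by positivity) hlo (by norm_num)
        refine r3.trans (le_of_eq ?_)
        rw [hc0, ← Real.exp_add, ← Real.exp_mul]
        congr 1
        ring
      have hh1 := hh_le_one (Real.log (nm (x.2 * x.1 ^ 2)) - k)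
      have hf0 := hf x
      have hp : 0 ≤ (nm x.2 : ℝ) ^ (-(1 : ℝ) / 3) * f x := by positivity
      calc hh (Real.log (nm (x.2 * x.1 ^ 2)) - k) * ((nm x.2 : ℝ) ^ (-(1 : ℝ) / 3) * f x) ≤
          1 * ((nm x.2 : ℝ) ^ (-(1 : ℝ) / 3) * f x) := mul_le_mul_of_nonneg_right hh1 hp
        _ = (nm x.2 : ℝ) ^ (-(1 : ℝ) / 3) * f x := one_mul _
        _ ≤ (c0 * (nm x.1 : ℝ) ^ (2 / 3 : ℝ)) * f x := mul_le_mul_of_nonneg_right m2 hf0
        _ = c0 * g x := by rw [hg]; ring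
  calc ∑ x ∈ J, hh (Real.log (nm (x.2 * x.1 ^ 2)) - k) * ((nm x.2 : ℝ) ^ (-(1 : ℝ) / 3) * f x) =
      ∑ x ∈ J.filter (fun x => hh (Real.log (nm (x.2 * x.1 ^ 2)) - k) ≠ 0),
        hh (Real.log (nm (x.2 * x.1 ^ 2)) - k) * ((nm x.2 : ℝ) ^ (-(1 : ℝ) / 3) * f x) := by
        refine (sum_filter_of_ne fun x _ h => ?_).symm
        intro h2
        exact h (by rw [h2, zero_mul])
    _ ≤ ∑ x ∈ J.filter (fun x => hh (Real.log (nm (x.2 * x.1 ^ 2)) - k) ≠ 0), c0 * g x :=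
        sum_le_sum fun x hx => (hle x (mem_filter.mp hx).1 (mem_filter.mp hx).2).2
    _ ≤ ∑ x ∈ P, c0 * g x := sum_le_sum_of_subset_of_nonneg
        (fun x hx => (hle x (mem_filter.mp hx).1 (mem_filter.mp hx).2).1)
        fun x _ _ => mul_nonneg hc00 (hg0 x)

/-- the `T`-number of a level at one pair -/
def TL (al : Eis → ℂ) (i : ℕ) (d e : Eis) : ℝ :=
  TN (fun d _ n => al (d * n)) (fun e => (nm e : ℝ)) {d} {e} (fun _ => 1) {1}
    (JVc (Real.exp 1) (Real.exp i)) id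

lemma TL_nonneg (al : Eis → ℂ) (i : ℕ) (d e : Eis) : 0 ≤ TL al i d e :=
  TN_nonneg _ (fun _ => Nat.cast_nonneg _) _ _ (fun _ => zero_le_one) _ _ _

lemma TL_eq (al : Eis → ℂ) (i : ℕ) (d e : Eis) : TL al i d e =
    (nm d : ℝ) ^ (2 / 3 : ℝ) * nm e *
      ∑ j ∈ JVc (Real.exp 1) (Real.exp i) d 1, ‖Tal al d e j‖ ^ 2 := by
  unfold TL TN
  simp only [sum_singleton, one_mul, id]
  congr 1
  refine sum_congr rfl fun j _ => ?_
  rw [Tal_TE0]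

/-- **the weight of one `e`** -/
theorem XE_TN {D Y₀ Y₁ Mb : ℝ} {om : Eis × Eis → ℂ} {al : Eis → ℂ}
    (hom : ∀ x ∈ JW D Y₀ Y₁, ‖om x‖ ≤ Mb) {e : Eis} (he : e ≠ 0) :
    XE (JW D Y₀ Y₁) om (Tal al) e ≤
      Real.exp (1 / 3) * Mb ^ 2 * ∑ i ∈ LI Y₀ Y₁, Real.exp (-((i : ℝ) / 3)) *
        ∑ d ∈ (JW D Y₀ Y₁).image Prod.fst, (nm e : ℝ)⁻¹ * TL al i d e := by
  have hne := nmpos he
  have h1 : XE (JW D Y₀ Y₁) om (Tal al) e ≤ Mb ^ 2 * ∑ x ∈ JW D Y₀ Y₁,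
      (nm x.2 : ℝ) ^ (-(1 : ℝ) / 3) * ‖Tal al x.1 e x.2‖ ^ 2 := by
    unfold XE
    rw [mul_sum]
    exact sum_le_sum fun x hx => mul_le_mul_of_nonneg_right
      (pow_le_pow_left₀ (norm_nonneg _) (hom x hx) 2) (by positivity)
  refine h1.trans ((mul_le_mul_of_nonneg_left (lev_le (f := fun x => ‖Tal al x.1 e x.2‖ ^ 2)
    fun x => by positivity) (by positivity)).trans (le_of_eq ?_))
  rw [← mul_assoc, mul_comm (Mb ^ 2)]
  congr 1
  refine sum_congr rfl fun i _ => ?_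
  congr 1
  refine sum_congr rfl fun d _ => ?_
  rw [TL_eq]
  field_simp

/-- `TF` by `XE` -/
lemma TF_XE (s : ℝ) (J : Finset (Eis × Eis)) (om : Eis × Eis → ℂ) (E0 : ℝ)
    (T : Eis → Eis → Eis → ℂ) : TF s J om E0 T = ∑ e ∈ S E0, (nm e : ℝ) ^ s * XE J om T e := by
  unfold TF XE
  simp only [mul_sum]
  rw [sum_comm]
  refine sum_congr rfl fun e _ => sum_congr rfl fun x _ => ?_
  ring

/-- **the moments** -/
theorem TF_TN {D Y₀ Y₁ Mb E0 : ℝ} (s : ℝ) {om : Eis × Eis → ℂ} {al : Eis → ℂ}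
    (hom : ∀ x ∈ JW D Y₀ Y₁, ‖om x‖ ≤ Mb) :
    TF s (JW D Y₀ Y₁) om E0 (Tal al) ≤
      Real.exp (1 / 3) * Mb ^ 2 * ∑ i ∈ LI Y₀ Y₁, Real.exp (-((i : ℝ) / 3)) *
        ∑ d ∈ (JW D Y₀ Y₁).image Prod.fst, ∑ e ∈ S E0, (nm e : ℝ) ^ (s - 1) * TL al i d e := by
  rw [TF_XE]
  have h1 : ∀ e ∈ S E0, (nm e : ℝ) ^ s * XE (JW D Y₀ Y₁) om (Tal al) e ≤
      Real.exp (1 / 3) * Mb ^ 2 * ∑ i ∈ LI Y₀ Y₁, Real.exp (-((i : ℝ) / 3)) *
        ∑ d ∈ (JW D Y₀ Y₁).image Prod.fst, (nm e : ℝ) ^ (s - 1) * TL al i d e := by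
    intro e he
    have he0 := (SR_prim he).1.ne_zero
    have hne := nmpos he0
    refine (mul_le_mul_of_nonneg_left (XE_TN hom he0) (by positivity)).trans (le_of_eq ?_)
    rw [← mul_assoc, mul_comm ((nm e : ℝ) ^ s), mul_assoc, mul_sum]
    congr 1
    refine sum_congr rfl fun i _ => ?_
    rw [← mul_assoc, mul_comm ((nm e : ℝ) ^ s), mul_assoc, mul_sum]
    congr 1
    refine sum_congr rfl fun d _ => ?_
    rw [← mul_assoc, Real.rpow_sub_one hne.ne', div_eq_mul_inv]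
  refine (sum_le_sum h1).trans (le_of_eq ?_)
  rw [← mul_sum, sum_comm]
  congr 1
  refine sum_congr rfl fun i _ => ?_
  rw [← mul_sum, sum_comm]

/-- **the sum of `EF`** -/
theorem EF_TF (J : Finset (Eis × Eis)) (om : Eis × Eis → ℂ) (T : Eis → Eis → Eis → ℂ) (E0 : ℝ) :
    ∑ x ∈ J, EF om T E0 x ≤ hE (S E0) * TF 1 J om E0 T := by
  unfold TF
  rw [mul_sum]
  refine sum_le_sum fun x _ => ?_
  unfold EF
  have n3 := sq_sum_le E0 (fun e => ‖T x.1 e x.2‖) fun e => norm_nonneg _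
  calc ‖om x‖ ^ 2 * ((nm x.2 : ℝ) ^ (-(1 : ℝ) / 3) * (∑ e ∈ S E0, ‖T x.1 e x.2‖) ^ 2) ≤
      ‖om x‖ ^ 2 * ((nm x.2 : ℝ) ^ (-(1 : ℝ) / 3) * (hE (S E0) *
        ∑ e ∈ S E0, nm e * ‖T x.1 e x.2‖ ^ 2)) := by
        refine mul_le_mul_of_nonneg_left (mul_le_mul_of_nonneg_left n3 (by positivity))
          (by positivity)
    _ = _ := by
        simp only [Real.rpow_one]
        ring

end Crest.Agent.R017.E3Er579
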