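import Crest.Agent.R017.E3Er_579

/-!
# Row 17, R8 (E3): the `T`-moments of the errors from the `T`-claims (helper579)

* `TNt` : helper146's `TNw` with the weight `N(e)^(-t)`, `0 ≤ t ≤ 2`
* **`TFl`** : `A TF (1 - t)` from the real lines at every level
* **`EFl`** : `A Σ EF`
-/

set_option autoImplicit false

noncomputable section

open Finset MeasureTheory
open scoped ComplexConjugate Classical

namespace Crest.Agent.R017.E3Er579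

open Crest.Agent.R012 Crest.Agent.R012.Eis Crest.Agent.R012.MC
open Crest.Agent.R012.LS2 (S mem_S)
open Crest.Agent.R017.CM106 (CS FS TG)
open Crest.Agent.R017.C70
open Crest.Agent.R017.HP842 (Pc pc sqc alL)
open Crest.Agent.R017.B770
open Crest.Agent.R017.FE47 (PU cx)
open Crest.Agent.R017.Prov71
open Crest.Agent.R017.Leg381 (Pf alF SF LF natl alF_natl)
open Crest.Agent.R017.I1146 (ChN LN cN SN Dom cN_nonneg CellS LipS numS)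
open Crest.Agent.R017.E1551 hiding tau Dg XT BT
open Crest.Agent.R017.E3D579 (TE0)
open Crest.Agent.R017.E3T829 (cg hE hE_nonneg)
open Crest.Agent.R017.E3Z548 (TN TN_nonneg JV JVc mem_JV)
open Crest.Agent.R017.E3M829 (TF Tal)
open Crest.Agent.R017.E3Kc548 (LI mem_LI card_LI)
open Crest.Agent.R017.E3F548 (EF)
open Crest.Agent.R017.E3N146 (TNw blk_log blk_card blk_lt CF_of_JC)

/-- real line of a block of `e`, weight `N(e)^(-t)` -/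
lemma e_line_t {a b l E₀ t : ℝ} (ht0 : 0 ≤ t) (ht2 : t ≤ 2) (hl : 0 ≤ l) (ha : a ≤ E₀) :
    b - 2 * max 0 (b - (a + l)) ≤
      t * a + ((1 - t) * b - (2 - t) * max 0 (b - E₀)) + 2 * l := by
  rcases le_total b (a + l) with h | h
  · rw [max_eq_left (by linarith : b - (a + l) ≤ 0)]
    have h1 : max 0 (b - E₀) ≤ l := max_le hl (by linarith)
    have h2 := mul_le_mul_of_nonneg_left h1 (by linarith : 0 ≤ 2 - t)
    have h3 := mul_le_mul_of_nonneg_left h ht0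
    nlinarith
  · rw [max_eq_right (by linarith : 0 ≤ b - (a + l))]
    have h1 : max 0 (b - E₀) ≤ b - a := max_le (by linarith) (by linarith)
    have h2 := mul_le_mul_of_nonneg_left h1 (by linarith : 0 ≤ 2 - t)
    nlinarith

/-- the sum over the blocks of `e`, weight `N(e)^(-t)` -/
lemma esumt {T : Eis → Eis → ℝ} {Ds EE : Finset Eis} (hT : ∀ d ∈ Ds, ∀ e ∈ EE, 0 ≤ T d e)
    (he : ∀ e ∈ EE, e ≠ 0) {t : ℝ} (ht : 0 ≤ t) {I : ℕ} (hI : ∀ e ∈ EE, Nat.log 2 (nm e) ∈ range I)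
    {m Q : ℝ}
    (hR : ∀ a ∈ range I,
      ∑ d ∈ Ds, ∑ e ∈ EE.filter (fun e => Nat.log 2 (nm e) = a), T d e ≤
        Q * Real.exp (m + t * (a * Real.log 2))) :
    ∑ d ∈ Ds, ∑ e ∈ EE, (nm e : ℝ) ^ (-t) * T d e ≤ (I : ℝ) * (Q * Real.exp m) := by
  have e1 : ∀ d ∈ Ds, ∑ e ∈ EE, (nm e : ℝ) ^ (-t) * T d e = ∑ a ∈ range I,
      ∑ e ∈ EE.filter (fun e => Nat.log 2 (nm e) = a), (nm e : ℝ) ^ (-t) * T d e := fun d _ =>
    (sum_fiberwise_of_maps_to (fun e he => hI e he) _).symm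
  rw [sum_congr rfl e1, sum_comm]
  refine (sum_le_card_nsmul _ _ (Q * Real.exp m) ?_).trans (le_of_eq (by
    rw [card_range, nsmul_eq_mul]))
  intro a ha
  have h1 : ∑ d ∈ Ds, ∑ e ∈ EE.filter (fun e => Nat.log 2 (nm e) = a), (nm e : ℝ) ^ (-t) * T d e ≤
      Real.exp (-(t * (a * Real.log 2))) *
        ∑ d ∈ Ds, ∑ e ∈ EE.filter (fun e => Nat.log 2 (nm e) = a), T d e := by
    rw [mul_sum]
    refine sum_le_sum fun d hd => ?_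
    rw [mul_sum]
    refine sum_le_sum fun e he' => mul_le_mul_of_nonneg_right ?_ (hT d hd e (mem_filter.1 he').1)
    obtain ⟨heE, hea⟩ := mem_filter.1 he'
    obtain ⟨h2, -⟩ := blk_log (nm_pos.2 (he e heE)).ne' hea
    have hn0 : (0 : ℝ) < nm e := by exact_mod_cast nm_pos.2 (he e heE)
    rw [Real.rpow_def_of_pos hn0]
    refine Real.exp_le_exp.2 ?_
    have h3 := mul_le_mul_of_nonneg_left h2 ht
    linarith
  refine h1.trans ((mul_le_mul_of_nonneg_left (hR a ha) (Real.exp_pos _).le).trans (le_of_eq ?_))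
  rw [Real.exp_add, Real.exp_neg]
  field_simp

/-- **the T-part of a level, weights in `d`, total weight `N(e)^(1-t)` in `e`** -/
theorem TNt {h : ℝ → ℝ} {c : ℝ} (hpu : PU h c) (N : ℕ) {R : ℝ} (hR : 0 ≤ R) {ε M B₂ : ℝ}
    (hε : 0 < ε) (hM : 0 ≤ M) (hB₂ : 0 < B₂) {ν Dd : ℝ} (hν : 1 ≤ ν) (hDd : 0 ≤ Dd) {L Lφ t : ℝ}
    (hL : 0 ≤ L) (hLφ : 0 ≤ Lφ) (ht0 : 0 ≤ t) (ht2 : t ≤ 2) :
    ∃ C r : ℝ, 0 ≤ C ∧ 0 ≤ r ∧ ∀ X : ℝ, 3 ≤ X → ∀ (P : DPar), P.OK → ∀ (q : Eis) (ps : List Pq),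
      ps.length ≤ N → (∀ p ∈ ps, 0 ≤ p.z ∧ p.z ≤ Real.log X) →
      ∀ (Y W T E0 F : ℝ) (Sh : ℝ → ℝ → ℝ → ℝ), 1 ≤ Y → Y ≤ X ^ B₂ → W * ν ≤ X →
      Real.log (W * ν) ≤ T → 0 < E0 → E0 ≤ X ^ B₂ → 0 ≤ F → LipS L Sh →
      CellS h P q ps (X ^ B₂) r M T (B₂ * Real.log X) F Sh →
      ∀ al : Eis → ℂ, Dom ν Dd (sqc q (alF 1 1 P h (natl ps))) al →
      Adm Y (Real.exp (LN ps)) R al → ∀ (Ds EE : Finset Eis) (m : ℝ) (φ : ℝ → ℝ)
        (w : Eis → Eis → ℝ), (∀ x y, φ x ≤ φ y + Lφ * |x - y|) →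
      (∀ d ∈ Ds, IsPrim d ∧ (nm d : ℝ) ≤ X ^ B₂) → (∀ e ∈ EE, e ∈ S E0) →
      (∀ d ∈ Ds, ∀ e ∈ EE, 0 ≤ w d e) →
      (∀ d ∈ Ds, ∀ e ∈ EE, w d e ≤ Real.exp (φ (Real.log (nm d)))) →
      (∀ d ∈ Ds, ∀ b v : ℝ, 0 ≤ b → 0 ≤ v → v ≤ Real.log W - 2 * Real.log (nm d) →
          φ (Real.log (nm d)) + Sh (Real.log (nm d)) b v + 2 * Real.log (nm d) +
            ((1 - t) * b - (2 - t) * max 0 (b - Real.log E0)) ≤ m) →
        ∀ (om : Eis → ℝ) (As : Eis → Eis → Finset Eis) (dl : Eis → Eis), 0 ≤ om 1 → om 1 ≤ 1 →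
        (∀ γ, 0 ≤ om γ) →
        (∀ d ∈ Ds, ∀ j ∈ As d 1, CF j ∧ (nm j : ℝ) * (nm d : ℝ) ^ 2 ≤ W) →
        ∑ d ∈ Ds, ∑ e ∈ EE, (nm e : ℝ) ^ (-t) * (w d e *
          TN (fun d _ m => al (d * m)) (fun e => (nm e : ℝ)) {d} {e} om {1} As dl) ≤
          C * X ^ ε * F * Real.exp (-(LN ps / 3)) * Real.exp m := by
  have hε2 : 0 < ε / 2 := by positivity
  obtain ⟨C₁, r, hC₁, hr, H⟩ := TNw hpu N hR hε2 hM hB₂ hν hDd hL hLφ
  obtain ⟨C₂, hC₂, H₂⟩ := blk_card hB₂.le hε2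
  refine ⟨C₂ * (Real.exp (2 * Real.log 2) * C₁), r, by positivity, hr, ?_⟩
  intro X hX P hP q ps hN hz Y W T E0 F Sh hY1 hYu hWX hWT hE0 hE0X hF hLip hcl al hdom hadm Ds EE
    m φ w hφ hDs hEE hw0 hw hm om As dl ho0 ho1 hom hAs
  have hX0 : 0 < X := by linarith
  have hl2 : 0 ≤ Real.log 2 := Real.log_nonneg (by norm_num)
  have hXe : X ^ (ε / 2) * X ^ (ε / 2) = X ^ ε := by
    rw [← Real.rpow_add hX0]; congr 1; ring
  have he0 : ∀ e ∈ EE, e ≠ 0 := fun e he => ((mem_S hE0.le).1 (hEE e he)).2.1.ne_zero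
  have hI : ∀ e ∈ EE, Nat.log 2 (nm e) ∈ range (⌊2 * (B₂ * Real.log X)⌋₊ + 1) := fun e he =>
    blk_lt hX (nm_pos.2 (he0 e he)).ne' ((((mem_S hE0.le).1 (hEE e he)).1).trans hE0X)
  set Q : ℝ := Real.exp (2 * Real.log 2) * (C₁ * X ^ (ε / 2) * F * Real.exp (-(LN ps / 3))) with hQ
  have hQ0 : 0 ≤ Q := by positivity
  have hfin : ((⌊2 * (B₂ * Real.log X)⌋₊ + 1 : ℕ) : ℝ) * (Q * Real.exp m) ≤
      C₂ * (Real.exp (2 * Real.log 2) * C₁) * X ^ ε * F * Real.exp (-(LN ps / 3)) *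
        Real.exp m := by
    refine (mul_le_mul_of_nonneg_right (H₂ X hX) (by positivity)).trans (le_of_eq ?_)
    rw [hQ, ← hXe]
    ring
  -- a block
  have hblk : ∀ a : ℕ, ∀ e ∈ EE.filter (fun e => Nat.log 2 (nm e) = a),
      e ∈ S (Real.exp ((a : ℝ) * Real.log 2 + Real.log 2)) := by
    intro a e he
    obtain ⟨heE, hea⟩ := mem_filter.1 he
    obtain ⟨-, h3, h4⟩ := (mem_S hE0.le).1 (hEE e heE)
    refine (mem_S (Real.exp_pos _).le).2 ⟨?_, h3, h4⟩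
    obtain ⟨-, h2⟩ := blk_log (nm_pos.2 h3.ne_zero).ne' hea
    have hn0 : (0 : ℝ) < nm e := by exact_mod_cast nm_pos.2 h3.ne_zero
    rw [← Real.exp_log hn0]
    exact Real.exp_le_exp.2 h2
  have hexp : ∀ a : ℕ, Q * Real.exp (m + t * (a * Real.log 2)) =
      C₁ * X ^ (ε / 2) * F * Real.exp (-(LN ps / 3)) *
        Real.exp (m + t * (a * Real.log 2) + 2 * Real.log 2) := by
    intro a
    rw [hQ, Real.exp_add (m + t * (a * Real.log 2)) (2 * Real.log 2)]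
    ring
  -- the blocks which are not empty
  have hne : ∀ a : ℕ, (EE.filter (fun e => Nat.log 2 (nm e) = a)).Nonempty →
      (a : ℝ) * Real.log 2 ≤ Real.log E0 := by
    rintro a ⟨e, he⟩
    obtain ⟨heE, hea⟩ := mem_filter.1 he
    obtain ⟨h2, h3, -⟩ := (mem_S hE0.le).1 (hEE e heE)
    obtain ⟨h4, -⟩ := blk_log (nm_pos.2 h3.ne_zero).ne' hea
    have hn0 : (0 : ℝ) < nm e := by exact_mod_cast nm_pos.2 h3.ne_zero
    exact h4.trans (Real.log_le_log hn0 h2)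
  have hTn : ∀ d ∈ Ds, ∀ e ∈ EE, 0 ≤ w d e *
      TN (fun d _ m => al (d * m)) (fun e => (nm e : ℝ)) {d} {e} om {1} As dl :=
    fun d hd e he => mul_nonneg (hw0 d hd e he)
      (TN_nonneg _ (fun e => Nat.cast_nonneg _) _ _ hom _ _ _)
  refine le_trans (esumt hTn he0 ht0 hI (Q := Q) (m := m) ?_) hfin
  intro a _
  rcases (EE.filter (fun e => Nat.log 2 (nm e) = a)).eq_empty_or_nonempty with h0 | h0
  · rw [h0]
    simp only [sum_empty, sum_const_zero]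
    positivity
  rw [hexp]
  refine (H X hX P hP q ps hN hz Y W T (Real.exp ((a : ℝ) * Real.log 2 + Real.log 2)) F Sh hY1
    hYu hWX hWT (Real.exp_pos _) hF hLip hcl al hdom hadm Ds
    (EE.filter (fun e => Nat.log 2 (nm e) = a)) (m + t * (a * Real.log 2) + 2 * Real.log 2) φ w hφ
    hDs (hblk a) (fun d hd e he => hw d hd e (mem_filter.1 he).1)).1
    (fun d hd b v hb hv hvW => ?_) om As dl ho0 ho1 hom hAs
  rw [Real.log_exp]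
  have h2 := hm d hd b v hb hv hvW
  have h3 := e_line_t (b := b) ht0 ht2 hl2 (hne a h0)
  linarith

/-- **the moment `TF (1 - t)` from the T-claims** -/
theorem TFl {h : ℝ → ℝ} {c : ℝ} (hpu : PU h c) (N : ℕ) {R : ℝ} (hR : 0 ≤ R) {ε M B₂ : ℝ}
    (hε : 0 < ε) (hM : 0 ≤ M) (hB₂ : 0 < B₂) {ν Dd : ℝ} (hν : 1 ≤ ν) (hDd : 0 ≤ Dd) {L t : ℝ}
    (hL : 0 ≤ L) (ht0 : 0 ≤ t) (ht2 : t ≤ 2) :
    ∃ C r : ℝ, 0 ≤ C ∧ 0 ≤ r ∧ ∀ X : ℝ, 3 ≤ X → ∀ (P : DPar), P.OK → ∀ (q : Eis) (ps : List Pq),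
      ps.length ≤ N → (∀ p ∈ ps, 0 ≤ p.z ∧ p.z ≤ Real.log X) →
      ∀ (Y T E0 F D Y₀ Y₁ : ℝ) (Sh : ℝ → ℝ → ℝ → ℝ), 1 ≤ Y → Y ≤ X ^ B₂ → 0 < Y₁ →
      Real.exp 1 * (Real.exp 1 * Y₁) * ν ≤ X →
      Real.log (Real.exp 1 * (Real.exp 1 * Y₁) * ν) ≤ T → 0 < E0 → E0 ≤ X ^ B₂ → 0 ≤ F →
      LipS L Sh → CellS h P q ps (X ^ B₂) r M T (B₂ * Real.log X) F Sh →
      ∀ al : Eis → ℂ, Dom ν Dd (sqc q (alF 1 1 P h (natl ps))) al →
      Adm Y (Real.exp (LN ps)) R al → ∀ (om : Eis × Eis → ℂ) (Mb A m : ℝ), 0 ≤ Mb →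
      (∀ x ∈ JW D Y₀ Y₁, ‖om x‖ ≤ Mb) → (∀ x ∈ JW D Y₀ Y₁, (nm x.1 : ℝ) ≤ X ^ B₂) → 0 < A →
      (∀ i ∈ LI Y₀ Y₁, ∀ d ∈ (JW D Y₀ Y₁).image Prod.fst, ∀ b v : ℝ, 0 ≤ b → 0 ≤ v →
          v ≤ 1 + i - 2 * Real.log (nm d) →
          Real.log A - i / 3 + Sh (Real.log (nm d)) b v + 2 * Real.log (nm d) +
            ((1 - t) * b - (2 - t) * max 0 (b - Real.log E0)) ≤ m) →
      A * TF (1 - t) (JW D Y₀ Y₁) om E0 (Tal al) ≤
        C * Mb ^ 2 * X ^ ε * F * Real.exp (-(LN ps / 3)) * Real.exp m := by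
  have hε2 : 0 < ε / 2 := by positivity
  obtain ⟨C₁, r, hC₁, hr, H⟩ := TNt hpu N hR hε2 hM hB₂ hν hDd hL le_rfl ht0 ht2
  refine ⟨Real.exp (1 / 3) * (2 + 1 / (ε / 2)) * C₁, r, by positivity, hr, ?_⟩
  intro X hX P hP q ps hN hz Y T E0 F D Y₀ Y₁ Sh hY1 hYu hY1p hWX hWT hE0 hE0X hF hLip hcl al hdom
    hadm om Mb A m hMb hom hJ hA hm
  have hX0 : 0 < X := by linarith
  have hX1 : 1 ≤ X := by linarith
  have hν0 : 0 < ν := by linarith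
  have he1 : (1 : ℝ) ≤ Real.exp 1 := Real.one_le_exp zero_le_one
  have hXe : X ^ (ε / 2) * X ^ (ε / 2) = X ^ ε := by
    rw [← Real.rpow_add hX0]; congr 1; ring
  have hY1X : Y₁ ≤ X := by
    have h1 : Y₁ ≤ Real.exp 1 * Y₁ := le_mul_of_one_le_left hY1p.le he1
    have h2 : Real.exp 1 * Y₁ ≤ Real.exp 1 * (Real.exp 1 * Y₁) :=
      le_mul_of_one_le_left (by positivity) he1
    have h3 : Real.exp 1 * (Real.exp 1 * Y₁) ≤ Real.exp 1 * (Real.exp 1 * Y₁) * ν :=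
      le_mul_of_one_le_right (by positivity) hν
    linarith
  have hcard := card_LI Y₀ hX1 hY1p.le hY1X hε2
  -- one level
  have key : ∀ i ∈ LI Y₀ Y₁, A * (Real.exp (-((i : ℝ) / 3)) *
      ∑ d ∈ (JW D Y₀ Y₁).image Prod.fst, ∑ e ∈ S E0, (nm e : ℝ) ^ ((1 - t) - 1) * TL al i d e) ≤
      C₁ * X ^ (ε / 2) * F * Real.exp (-(LN ps / 3)) * Real.exp m := by
    intro i hi
    obtain ⟨h1, h2, h3⟩ := mem_LI hi
    have hle : Real.exp 1 * Real.exp i * ν ≤ Real.exp 1 * (Real.exp 1 * Y₁) * ν :=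
      mul_le_mul_of_nonneg_right (mul_le_mul_of_nonneg_left h3 (Real.exp_pos _).le) hν0.le
    have hk := H X hX P hP q ps hN hz Y (Real.exp 1 * Real.exp i) T E0 F Sh hY1 hYu
      (hle.trans hWX) ((Real.log_le_log (by positivity) hle).trans hWT) hE0 hE0X hF hLip hcl al
      hdom hadm ((JW D Y₀ Y₁).image Prod.fst) (S E0) m (fun _ => Real.log A - i / 3)
      (fun _ _ => A * Real.exp (-((i : ℝ) / 3))) (fun x y => by simp) (fun d hd => by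
        obtain ⟨x, hx, rfl⟩ := mem_image.1 hd
        exact ⟨(okJ_JW D Y₀ Y₁).prim x hx, hJ x hx⟩) (fun e he => he)
      (fun d _ e _ => by positivity) (fun d _ e _ => by
        rw [Real.exp_sub, Real.exp_log hA, Real.exp_neg]
        exact le_of_eq (by ring)) (fun d hd b v hb hv hvW => by
        refine hm i hi d hd b v hb hv ?_
        rw [← Real.exp_add, Real.log_exp] at hvW
        exact hvW) (fun _ => 1) (JVc (Real.exp 1) (Real.exp i)) id zero_le_one le_rfl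
      (fun _ => zero_le_one) (fun d hd j hj => by
        obtain ⟨x, hx, rfl⟩ := mem_image.1 hd
        obtain ⟨g1, g2⟩ := mem_filter.1 hj
        obtain ⟨g3, g4⟩ := (mem_JV ((okJ_JW D Y₀ Y₁).prim x hx).ne_zero one_ne_zero).1 g1
        refine ⟨CF_of_JC g2, ?_⟩
        simpa using g4)
    refine le_trans (le_of_eq ?_) hk
    rw [← mul_assoc, mul_sum]
    refine sum_congr rfl fun d _ => ?_
    rw [mul_sum]
    refine sum_congr rfl fun e _ => ?_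
    have e1 : (1 - t) - 1 = -t := by ring
    rw [e1]
    unfold TL
    ring
  have hQ0 : 0 ≤ C₁ * X ^ (ε / 2) * F * Real.exp (-(LN ps / 3)) * Real.exp m := by positivity
  have h1 := mul_le_mul_of_nonneg_left (TF_TN (E0 := E0) (1 - t) (al := al) hom) hA.le
  refine h1.trans ?_
  have e1 : A * (Real.exp (1 / 3) * Mb ^ 2 * ∑ i ∈ LI Y₀ Y₁, Real.exp (-((i : ℝ) / 3)) *
        ∑ d ∈ (JW D Y₀ Y₁).image Prod.fst, ∑ e ∈ S E0,
          (nm e : ℝ) ^ ((1 - t) - 1) * TL al i d e) =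
      Real.exp (1 / 3) * Mb ^ 2 * ∑ i ∈ LI Y₀ Y₁, A * (Real.exp (-((i : ℝ) / 3)) *
        ∑ d ∈ (JW D Y₀ Y₁).image Prod.fst, ∑ e ∈ S E0,
          (nm e : ℝ) ^ ((1 - t) - 1) * TL al i d e) := by
    rw [← mul_sum]; ring
  rw [e1]
  have h2 : ∑ i ∈ LI Y₀ Y₁, A * (Real.exp (-((i : ℝ) / 3)) *
        ∑ d ∈ (JW D Y₀ Y₁).image Prod.fst, ∑ e ∈ S E0,
          (nm e : ℝ) ^ ((1 - t) - 1) * TL al i d e) ≤
      ((2 + 1 / (ε / 2)) * X ^ (ε / 2)) *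
        (C₁ * X ^ (ε / 2) * F * Real.exp (-(LN ps / 3)) * Real.exp m) := by
    refine (sum_le_card_nsmul _ _ _ key).trans ?_
    rw [nsmul_eq_mul]
    exact mul_le_mul_of_nonneg_right hcard hQ0
  refine (mul_le_mul_of_nonneg_left h2 (by positivity)).trans (le_of_eq ?_)
  rw [← hXe]
  ring

/-- **the sum of `EF` from the T-claims** -/
theorem EFl {h : ℝ → ℝ} {c : ℝ} (hpu : PU h c) (N : ℕ) {R : ℝ} (hR : 0 ≤ R) {ε M B₂ : ℝ}
    (hε : 0 < ε) (hM : 0 ≤ M) (hB₂ : 0 < B₂) {ν Dd : ℝ} (hν : 1 ≤ ν) (hDd : 0 ≤ Dd) {L : ℝ}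
    (hL : 0 ≤ L) :
    ∃ C r : ℝ, 0 ≤ C ∧ 0 ≤ r ∧ ∀ X : ℝ, 3 ≤ X → ∀ (P : DPar), P.OK → ∀ (q : Eis) (ps : List Pq),
      ps.length ≤ N → (∀ p ∈ ps, 0 ≤ p.z ∧ p.z ≤ Real.log X) →
      ∀ (Y T E0 F D Y₀ Y₁ : ℝ) (Sh : ℝ → ℝ → ℝ → ℝ), 1 ≤ Y → Y ≤ X ^ B₂ → 0 < Y₁ →
      Real.exp 1 * (Real.exp 1 * Y₁) * ν ≤ X →
      Real.log (Real.exp 1 * (Real.exp 1 * Y₁) * ν) ≤ T → 0 < E0 → E0 ≤ X ^ B₂ → 0 ≤ F →
      LipS L Sh → CellS h P q ps (X ^ B₂) r M T (B₂ * Real.log X) F Sh →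
      ∀ al : Eis → ℂ, Dom ν Dd (sqc q (alF 1 1 P h (natl ps))) al →
      Adm Y (Real.exp (LN ps)) R al → ∀ (om : Eis × Eis → ℂ) (Mb A m : ℝ), 0 ≤ Mb →
      (∀ x ∈ JW D Y₀ Y₁, ‖om x‖ ≤ Mb) → (∀ x ∈ JW D Y₀ Y₁, (nm x.1 : ℝ) ≤ X ^ B₂) → 0 < A →
      (∀ i ∈ LI Y₀ Y₁, ∀ d ∈ (JW D Y₀ Y₁).image Prod.fst, ∀ b v : ℝ, 0 ≤ b → 0 ≤ v →
          v ≤ 1 + i - 2 * Real.log (nm d) →
          Real.log A - i / 3 + Sh (Real.log (nm d)) b v + 2 * Real.log (nm d) +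
            (b - 2 * max 0 (b - Real.log E0)) ≤ m) →
      A * ∑ x ∈ JW D Y₀ Y₁, EF om (Tal al) E0 x ≤
        hE (S E0) * (C * Mb ^ 2 * X ^ ε * F * Real.exp (-(LN ps / 3)) * Real.exp m) := by
  obtain ⟨C, r, hC, hr, H⟩ := TFl hpu N hR hε hM hB₂ hν hDd hL le_rfl (by norm_num : (0 : ℝ) ≤ 2)
  refine ⟨C, r, hC, hr, ?_⟩
  intro X hX P hP q ps hN hz Y T E0 F D Y₀ Y₁ Sh hY1 hYu hY1p hWX hWT hE0 hE0X hF hLip hcl al hdom
    hadm om Mb A m hMb hom hJ hA hm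
  have h1 := H X hX P hP q ps hN hz Y T E0 F D Y₀ Y₁ Sh hY1 hYu hY1p hWX hWT hE0 hE0X hF hLip hcl
    al hdom hadm om Mb A m hMb hom hJ hA (fun i hi d hd b v hb hv hvW => by
      have := hm i hi d hd b v hb hv hvW
      simp only [sub_zero, one_mul]
      exact this)
  rw [sub_zero] at h1
  have h2 := EF_TF (JW D Y₀ Y₁) om (Tal al) E0
  calc A * ∑ x ∈ JW D Y₀ Y₁, EF om (Tal al) E0 x ≤
      A * (hE (S E0) * TF 1 (JW D Y₀ Y₁) om E0 (Tal al)) := mul_le_mul_of_nonneg_left h2 hA.le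
    _ = hE (S E0) * (A * TF 1 (JW D Y₀ Y₁) om E0 (Tal al)) := by ring
    _ ≤ _ := mul_le_mul_of_nonneg_left h1 (hE_nonneg _)

end Crest.Agent.R017.E3Er579
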