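import Crest.Agent.R017.E3A_164
import Crest.Agent.R017.DgA_829

/-!
# Row 17, R8 (E3), part (B) of the assembly (helper548)

* `fn`, `Dg` : the summands of `Fy`, the diagonal form
* `sq_expand` : `‖Σ Fy‖² - Dg = Σ_{y,y'} (Fy conj Fy' - [sm y y'] Σ_n fn conj fn')`
* `mj` : the majorant of the squarefree frequencies
-/

set_option autoImplicit false
set_option linter.unusedVariables false

noncomputable section

open Finset
open scoped ComplexConjugate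
open scoped Classical

namespace Crest.Agent.R017.E3F548

open Crest.Agent.R012 Crest.Agent.R012.Eis Crest.Agent.R012.Mob705 Crest.Agent.R012.Gauss880
open Crest.Agent.R012.LS2
open Crest.Agent.R017.CM106
open Crest.Agent.R017.PX764 Crest.Agent.R017.C70 Crest.Agent.R017.GrB829 Crest.Agent.R017.GrD829
open Crest.Agent.R017.E3s164 Crest.Agent.R017.E3A164
open Crest.Agent.R017.DgA829 (lc lc_prim lc_dvd)

/-! ### the diagonal form -/

/-- the summand of `y` at `n` -/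
def fn (J : Finset (Eis × Eis)) (om : Eis × Eis → ℂ) (T : Eis → Eis → Eis → ℂ) (q t : Eis)
    (k₁ : Eis) (y : Yp) (n : Eis) : ℂ :=
  if y.2.2.2 ∣ k₁ ∧ y.2.1 ∣ k₁ * q * t then
    kap q t y * ((n6 (qu k₁ y.2.2.2) : ℂ) * sy y.2.2.1 (qu k₁ y.2.2.2) *
      conj (sy (qu k₁ y.2.2.2) (y.1 * y.2.2.2)) * (be J om T q y n * sy (qu k₁ y.2.2.2) n)) else 0

/-- the same `(δ, c, g)` -/
def sm (y y' : Yp) : Prop := y.1 = y'.1 ∧ y.2.2 = y'.2.2

/-- the diagonal form -/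
def Dg (J : Finset (Eis × Eis)) (om : Eis × Eis → ℂ) (T : Eis → Eis → Eis → ℂ) (E0 R : ℝ)
    (q t : Eis) (k₁ : Eis) : ℝ :=
  ∑ z ∈ (J.image Prod.fst) ×ˢ (Cs ×ˢ (S R)), ∑ n ∈ S R,
    ‖∑ e ∈ S E0, fn J om T q t k₁ (z.1, e, z.2) n‖ ^ 2

section expand

variable {J : Finset (Eis × Eis)} {om : Eis × Eis → ℂ} {T : Eis → Eis → Eis → ℂ} {q t : Eis}

lemma SR_prim {R : ℝ} {a : Eis} (ha : a ∈ S R) : IsPrim a ∧ Squarefree a := by
  unfold S at ha
  rw [Finset.mem_filter, mem_primBall] at ha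
  exact ⟨ha.1.2, ha.2⟩

lemma mem_Ys {E0 R : ℝ} {y : Yp} : y ∈ Ys J E0 R ↔
    y.1 ∈ J.image Prod.fst ∧ y.2.1 ∈ S E0 ∧ IsC y.2.2.1 ∧ y.2.2.2 ∈ S R := by
  unfold Ys
  rw [mem_product, mem_product, mem_product, mem_Cs]

lemma Fy_eq_sum {R : ℝ} (hR : ∀ x ∈ J, (nm x.2 : ℝ) ≤ R) {E0 : ℝ} (hq : q ≠ 0) (k₁ : Eis)
    {y : Yp} (hy : y ∈ Ys J E0 R) :
    Fy J om T q t k₁ y = ∑ n ∈ S R, fn J om T q t k₁ y n := by
  rw [mem_Ys] at hy
  unfold Fy fn
  split_ifs with h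
  · rw [CS_be hR hq hy.2.2.1.ne_zero (SR_prim hy.2.2.2).1.ne_zero, mul_sum, mul_sum]
  · simp

/-- `‖Σ Fy‖² - Dg` as a double sum -/
theorem sq_expand {R E0 : ℝ} (k₁ : Eis) :
    ((‖∑ y ∈ Ys J E0 R, Fy J om T q t k₁ y‖ ^ 2 : ℝ) : ℂ) =
      ((Dg J om T E0 R q t k₁ : ℝ) : ℂ) + ∑ y ∈ Ys J E0 R, ∑ y' ∈ Ys J E0 R,
        (Fy J om T q t k₁ y * conj (Fy J om T q t k₁ y') -
          if sm y y' then ∑ n ∈ S R, fn J om T q t k₁ y n * conj (fn J om T q t k₁ y' n)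
          else 0) := by
  have h1 : ((‖∑ y ∈ Ys J E0 R, Fy J om T q t k₁ y‖ ^ 2 : ℝ) : ℂ) =
      ∑ y ∈ Ys J E0 R, ∑ y' ∈ Ys J E0 R, Fy J om T q t k₁ y * conj (Fy J om T q t k₁ y') := by
    rw [Complex.ofReal_pow, ← Complex.mul_conj', map_sum, sum_mul_sum]
  have h2 : ((Dg J om T E0 R q t k₁ : ℝ) : ℂ) = ∑ y ∈ Ys J E0 R, ∑ y' ∈ Ys J E0 R,
      if sm y y' then ∑ n ∈ S R, fn J om T q t k₁ y n * conj (fn J om T q t k₁ y' n) else 0 := by
    unfold Dg Ys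
    push_cast
    simp only [sum_product]
    refine sum_congr rfl fun d hd => ?_
    -- right side : sum over e, c, g, d', e', c', g'
    have h3 : ∀ e ∈ S E0, ∀ c ∈ Cs, ∀ g ∈ S R,
        (∑ d' ∈ J.image Prod.fst, ∑ e' ∈ S E0, ∑ c' ∈ Cs, ∑ g' ∈ S R,
          if sm (d, e, c, g) (d', e', c', g') then
            ∑ n ∈ S R, fn J om T q t k₁ (d, e, c, g) n * conj (fn J om T q t k₁ (d', e', c', g') n)
          else 0) = ∑ e' ∈ S E0, ∑ n ∈ S R,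
            fn J om T q t k₁ (d, e, c, g) n * conj (fn J om T q t k₁ (d, e', c, g) n) := by
      intro e he c hc g hg
      rw [sum_eq_single_of_mem d hd ?_]
      · refine sum_congr rfl fun e' _ => ?_
        rw [sum_eq_single_of_mem c hc ?_]
        · rw [sum_eq_single_of_mem g hg ?_]
          · rw [if_pos ⟨rfl, rfl⟩]
          · intro g' _ hg'
            rw [if_neg]
            intro h
            have := h.2
            simp only [Prod.mk.injEq] at this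
            exact hg' this.2.symm
        · intro c' _ hc'
          refine sum_eq_zero fun g' _ => ?_
          rw [if_neg]
          intro h
          have := h.2
          simp only [Prod.mk.injEq] at this
          exact hc' this.1.symm
      · intro d' _ hd'
        refine sum_eq_zero fun e' _ => sum_eq_zero fun c' _ => sum_eq_zero fun g' _ => ?_
        rw [if_neg]
        intro h
        exact hd' h.1.symm
    rw [sum_congr rfl fun e he => sum_congr rfl fun c hc => sum_congr rfl fun g hg =>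
      h3 e he c hc g hg]
    conv_rhs => rw [sum_comm]
    refine sum_congr rfl fun c _ => ?_
    conv_rhs => rw [sum_comm]
    refine sum_congr rfl fun g _ => ?_
    -- Σ_n ‖Σ_e‖² = Σ_e Σ_e' Σ_n
    have h4 : ∀ n ∈ S R, ((‖∑ e ∈ S E0, fn J om T q t k₁ (d, e, c, g) n‖ : ℝ) : ℂ) ^ 2 =
        ∑ e ∈ S E0, ∑ e' ∈ S E0, fn J om T q t k₁ (d, e, c, g) n *
          conj (fn J om T q t k₁ (d, e', c, g) n) := by
      intro n _
      rw [← Complex.mul_conj', map_sum, sum_mul_sum]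
    rw [sum_congr rfl h4, sum_comm]
    refine sum_congr rfl fun e _ => ?_
    rw [sum_comm]
  rw [h1, h2, ← sum_add_distrib]
  refine sum_congr rfl fun y _ => ?_
  rw [← sum_add_distrib]
  refine sum_congr rfl fun y' _ => ?_
  ring

end expand

/-! ### the majorant -/

/-- the majorant of the squarefree frequencies -/
def mj (B : ℝ) (k : Eis) : ℤ := ∑ b ∈ S B, if b ^ 2 ∣ k then mu b else 0

lemma one_mem_S {B : ℝ} (hB : 1 ≤ B) : (1 : Eis) ∈ S B := by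
  rw [mem_S (by linarith)]
  exact ⟨by simpa using hB, isPrim_one, squarefree_one⟩

lemma mj_sqf {B : ℝ} (hB : 1 ≤ B) {k : Eis} (hk : Squarefree k) : mj B k = 1 := by
  unfold mj
  rw [sum_eq_single_of_mem 1 (one_mem_S hB)]
  · simp
  · intro b hb hb1
    rw [if_neg]
    intro h
    rw [pow_two] at h
    exact hb1 ((SR_prim hb).1.eq_of_associated isPrim_one
      (associated_one_iff_isUnit.mpr (hk b h)))

/-! ### divisibility -/

/-- `e / (e, a)` -/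
def rd (e a : Eis) : Eis := qu (lc e a) a

section rd

variable {e a : Eis}

lemma lc_eq (he : IsPrim e) (ha : IsPrim a) : lc e a = a * rd e a := by
  have h : a ∣ lc e a := ((lc_dvd he ha _).mp dvd_rfl).2
  unfold rd qu
  rw [dif_pos h]
  exact h.choose_spec

lemma rd_prim (he : IsPrim e) (ha : IsPrim a) : IsPrim (rd e a) := by
  have h := lc_prim he ha
  rw [lc_eq he ha] at h
  exact h.of_mul_left ha

lemma dvd_rd (he : IsPrim e) (ha : IsPrim a) (k : Eis) : e ∣ k * a ↔ rd e a ∣ k := by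
  have h1 : e ∣ k * a ↔ lc e a ∣ k * a := by
    rw [lc_dvd he ha]
    exact ⟨fun h => ⟨h, dvd_mul_left _ _⟩, fun h => h.1⟩
  rw [h1, lc_eq he ha, mul_comm k a]
  exact mul_dvd_mul_iff_left ha.ne_zero

lemma rd_dvd (he : IsPrim e) (ha : IsPrim a) : rd e a ∣ e :=
  (dvd_rd he ha e).mp (dvd_mul_right _ _)

end rd

/-- the modulus of the pair -/
def MM (q t : Eis) (y y' : Yp) (b b' s : Eis) : Eis :=
  lc (lc y.2.2.2 y'.2.2.2) (lc (lc (rd y.2.1 (q * t)) (rd y'.2.1 (q * t)))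
    (lc (lc (b ^ 2) (b' ^ 2)) s))

section MM

variable {q t b b' s : Eis} {y y' : Yp}

lemma MM_prim (hq : IsPrim q) (ht : IsPrim t) (he : IsPrim y.2.1) (he' : IsPrim y'.2.1)
    (hg : IsPrim y.2.2.2) (hg' : IsPrim y'.2.2.2) (hb : IsPrim b) (hb' : IsPrim b')
    (hs : IsPrim s) : IsPrim (MM q t y y' b b' s) :=
  lc_prim (lc_prim hg hg') (lc_prim (lc_prim (rd_prim he (hq.mul ht)) (rd_prim he' (hq.mul ht)))
    (lc_prim (lc_prim (hb.pow 2) (hb'.pow 2)) hs))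

lemma MM_dvd (hq : IsPrim q) (ht : IsPrim t) (he : IsPrim y.2.1) (he' : IsPrim y'.2.1)
    (hg : IsPrim y.2.2.2) (hg' : IsPrim y'.2.2.2) (hb : IsPrim b) (hb' : IsPrim b')
    (hs : IsPrim s) (k : Eis) : MM q t y y' b b' s ∣ k ↔
      (y.2.2.2 ∣ k ∧ y.2.1 ∣ k * q * t) ∧ (y'.2.2.2 ∣ k ∧ y'.2.1 ∣ k * q * t) ∧
        b ^ 2 ∣ k ∧ b' ^ 2 ∣ k ∧ s ∣ k := by
  unfold MM
  rw [lc_dvd (lc_prim hg hg') (lc_prim (lc_prim (rd_prim he (hq.mul ht))
      (rd_prim he' (hq.mul ht))) (lc_prim (lc_prim (hb.pow 2) (hb'.pow 2)) hs)),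
    lc_dvd hg hg', lc_dvd (lc_prim (rd_prim he (hq.mul ht)) (rd_prim he' (hq.mul ht)))
      (lc_prim (lc_prim (hb.pow 2) (hb'.pow 2)) hs),
    lc_dvd (rd_prim he (hq.mul ht)) (rd_prim he' (hq.mul ht)),
    lc_dvd (lc_prim (hb.pow 2) (hb'.pow 2)) hs, lc_dvd (hb.pow 2) (hb'.pow 2),
    ← dvd_rd he (hq.mul ht), ← dvd_rd he' (hq.mul ht), mul_assoc]
  tauto

end MM

/-! ### one pair -/

/-- the sequence of the pair -/
def UU (J : Finset (Eis × Eis)) (om : Eis × Eis → ℂ) (T : Eis → Eis → Eis → ℂ) (q M : Eis)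
    (y : Yp) (n : Eis) : ℂ := be J om T q y n * sy (qu M y.2.2.2) n

/-- the pair sum (842's `PR`) -/
def PR (w : ℝ → ℝ) (K : ℝ) (ψ : Eis → ℂ) (m m' : Eis) (U U' : Eis → ℂ) : ℂ :=
  ∑' r : Eis, (if IsPrim r then ψ r * ((conj (sy r m) * CS U r) *
    conj (conj (sy r m') * CS U' r)) else 0) * ((w (nm r / K) : ℝ) : ℂ)

/-- the diagonal of the pair sum -/
def DR (w : ℝ → ℝ) (K : ℝ) (R : ℝ) (ψ : Eis → ℂ) (m m' : Eis) (U U' : Eis → ℂ) : ℂ :=
  ∑' r : Eis, (if IsPrim r then ψ r * ((conj (sy r m) * conj (conj (sy r m'))) *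
    ∑ n ∈ S R, (U n * sy r n) * conj (U' n * sy r n)) else 0) * ((w (nm r / K) : ℝ) : ℂ)

/-- the constant of the pair -/
def ct (q t M : Eis) (y y' : Yp) : ℂ :=
  kap q t y * conj (kap q t y') * (sy y.2.2.1 (qu M y.2.2.2) * conj (sy y'.2.2.1 (qu M y'.2.2.2))) *
    (conj (sy (qu M y.2.2.2) (y.1 * y.2.2.2)) * sy (qu M y'.2.2.2) (y'.1 * y'.2.2.2))

/-- the coprimality conditions of the pair -/
def Cop (M : Eis) (y y' : Yp) : Prop :=
  IsCoprime (qu M y.2.2.2) (y.1 * y.2.2.2) ∧ IsCoprime (qu M y'.2.2.2) (y'.1 * y'.2.2.2)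

/-- the difference at one frequency -/
def Xk (J : Finset (Eis × Eis)) (om : Eis × Eis → ℂ) (T : Eis → Eis → Eis → ℂ) (R : ℝ) (q t : Eis)
    (y y' : Yp) (k₁ : Eis) : ℂ :=
  Fy J om T q t k₁ y * conj (Fy J om T q t k₁ y') -
    if sm y y' then ∑ n ∈ S R, fn J om T q t k₁ y n * conj (fn J om T q t k₁ y' n) else 0

lemma qu_spec {g M : Eis} (h : g ∣ M) : M = g * qu M g := by
  unfold qu
  rw [dif_pos h]
  exact h.choose_spec

lemma qu_prim {g M : Eis} (hg : IsPrim g) (hM : IsPrim M) (h : g ∣ M) : IsPrim (qu M g) := by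
  have := qu_spec h
  rw [this] at hM
  exact hM.of_mul_left hg

lemma qu_mul_right {g M : Eis} (hg : g ≠ 0) (h : g ∣ M) (r : Eis) : qu (M * r) g = qu M g * r := by
  conv_lhs => rw [qu_spec h, mul_assoc]
  exact qu_mul hg _

section pair

variable {J : Finset (Eis × Eis)} {om : Eis × Eis → ℂ} {T : Eis → Eis → Eis → ℂ} {q t M : Eis}
  {y y' : Yp} {R E0 : ℝ}

lemma be_prim {n : Eis} (h : be J om T q y n ≠ 0) : IsPrim n := (be_ne h).1

lemma CS_be_mul (M' r : Eis) : CS (be J om T q y) (M' * r) =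
    CS (fun n => be J om T q y n * sy M' n) r := by
  unfold CS
  refine tsum_congr fun n => ?_
  by_cases h : be J om T q y n = 0
  · simp [h]
  · rw [syG.mul_left _ _ _ (be_prim h)]; ring

lemma norm_ct_le (hy : y ∈ Ys J E0 R) (hy' : y' ∈ Ys J E0 R) (hJ : OKJ J)
    (hM : IsPrim M) (hg : y.2.2.2 ∣ M) (hg' : y'.2.2.2 ∣ M) : ‖ct q t M y y'‖ ≤ 1 := by
  rw [mem_Ys] at hy hy'
  obtain ⟨a1, a2, a3, a4⟩ := hy
  obtain ⟨b1, b2, b3, b4⟩ := hy'
  rw [mem_image] at a1 b1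
  obtain ⟨x, hx, hx1⟩ := a1
  obtain ⟨x', hx', hx1'⟩ := b1
  have hd : IsPrim y.1 := hx1 ▸ hJ.prim x hx
  have hd' : IsPrim y'.1 := hx1' ▸ hJ.prim x' hx'
  have h1 := norm_kap_le (q := q) (t := t) a3 (SR_prim a4).1 (SR_prim a4).2 hd
  have h2 := norm_kap_le (q := q) (t := t) b3 (SR_prim b4).1 (SR_prim b4).2 hd'
  have h3 : ‖sy y.2.2.1 (qu M y.2.2.2)‖ ≤ 1 := PX764.norm_sy_le' (qu_prim (SR_prim a4).1 hM hg)
  have h4 : ‖sy y'.2.2.1 (qu M y'.2.2.2)‖ ≤ 1 := PX764.norm_sy_le' (qu_prim (SR_prim b4).1 hM hg')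
  have h5 : ‖sy (qu M y.2.2.2) (y.1 * y.2.2.2)‖ ≤ 1 := PX764.norm_sy_le' (hd.mul (SR_prim a4).1)
  have h6 : ‖sy (qu M y'.2.2.2) (y'.1 * y'.2.2.2)‖ ≤ 1 := PX764.norm_sy_le' (hd'.mul (SR_prim b4).1)
  unfold ct
  rw [norm_mul, norm_mul, norm_mul, norm_mul, norm_mul, RCLike.norm_conj, RCLike.norm_conj,
    RCLike.norm_conj]
  calc ‖kap q t y‖ * ‖kap q t y'‖ *
        (‖sy y.2.2.1 (qu M y.2.2.2)‖ * ‖sy y'.2.2.1 (qu M y'.2.2.2)‖) *
        (‖sy (qu M y.2.2.2) (y.1 * y.2.2.2)‖ * ‖sy (qu M y'.2.2.2) (y'.1 * y'.2.2.2)‖) ≤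
        1 * 1 * (1 * 1) * (1 * 1) := by gcongr
    _ = 1 := by norm_num

lemma ct_zero (hy : y ∈ Ys J E0 R) (hy' : y' ∈ Ys J E0 R) (hJ : OKJ J)
    (h : ¬ Cop M y y') : ct q t M y y' = 0 := by
  rw [mem_Ys] at hy hy'
  obtain ⟨a1, a2, a3, a4⟩ := hy
  obtain ⟨b1, b2, b3, b4⟩ := hy'
  rw [mem_image] at a1 b1
  obtain ⟨x, hx, hx1⟩ := a1
  obtain ⟨x', hx', hx1'⟩ := b1
  have hd : IsPrim y.1 := hx1 ▸ hJ.prim x hx
  have hd' : IsPrim y'.1 := hx1' ▸ hJ.prim x' hx'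
  unfold Cop at h
  unfold ct
  rw [not_and_or] at h
  rcases h with h | h
  · rw [(syG.eq_zero _ _ (hd.mul (SR_prim a4).1)).mpr h]; simp
  · rw [(syG.eq_zero (qu M y'.2.2.2) _ (hd'.mul (SR_prim b4).1)).mpr h]; simp

/-- **the identity at `k₁ = M r`** -/
theorem Xk_eq (hy : y ∈ Ys J E0 R)
    (hy' : y' ∈ Ys J E0 R) (hJ : OKJ J) (hM : IsPrim M) (hd : y.2.2.2 ∣ M ∧ y.2.1 ∣ M * q * t)
    (hd' : y'.2.2.2 ∣ M ∧ y'.2.1 ∣ M * q * t) {r : Eis} (hr : IsPrim r) :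
    Xk J om T R q t y y' (M * r) =
      ct q t M y y' * (((n6 (qu M y.2.2.2) * n6 (qu M y'.2.2.2) * n6 r ^ 2 : ℝ) : ℂ) *
        (sy (y.2.2.1 * y'.2.2.1 ^ 2) r * ((conj (sy r (y.1 * y.2.2.2)) * CS (UU J om T q M y) r) *
          conj (conj (sy r (y'.1 * y'.2.2.2)) * CS (UU J om T q M y') r)) -
        if sm y y' then sy (y.2.2.1 * y'.2.2.1 ^ 2) r * ((conj (sy r (y.1 * y.2.2.2)) *
          conj (conj (sy r (y'.1 * y'.2.2.2)))) * ∑ n ∈ S R, (UU J om T q M y n * sy r n) *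
            conj (UU J om T q M y' n * sy r n)) else 0)) := by
  rw [mem_Ys] at hy hy'
  obtain ⟨a1, a2, a3, a4⟩ := hy
  obtain ⟨b1, b2, b3, b4⟩ := hy'
  rw [mem_image] at a1 b1
  obtain ⟨x, hx, hx1⟩ := a1
  obtain ⟨x', hx', hx1'⟩ := b1
  have hdp : IsPrim y.1 := hx1 ▸ hJ.prim x hx
  have hdp' : IsPrim y'.1 := hx1' ▸ hJ.prim x' hx'
  have hg := (SR_prim a4).1
  have hg' := (SR_prim b4).1
  have c1 : y.2.2.2 ∣ M * r ∧ y.2.1 ∣ M * r * q * t :=
    ⟨hd.1.mul_right _, hd.2.trans ⟨r, by ring⟩⟩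
  have c2 : y'.2.2.2 ∣ M * r ∧ y'.2.1 ∣ M * r * q * t :=
    ⟨hd'.1.mul_right _, hd'.2.trans ⟨r, by ring⟩⟩
  have e1 := qu_mul_right hg.ne_zero hd.1 r
  have e2 := qu_mul_right hg'.ne_zero hd'.1 r
  have s1 : ∀ c, IsC c → sy c (qu M y.2.2.2 * r) = sy c (qu M y.2.2.2) * sy c r := fun c _ =>
    syG.mul_right _ _ _ (qu_prim hg hM hd.1) hr
  have s2 : ∀ c, IsC c → sy c (qu M y'.2.2.2 * r) = sy c (qu M y'.2.2.2) * sy c r := fun c _ =>
    syG.mul_right _ _ _ (qu_prim hg' hM hd'.1) hr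
  have s3 : sy (y.2.2.1 * y'.2.2.1 ^ 2) r = sy y.2.2.1 r * conj (sy y'.2.2.1 r) := by
    rw [syG.mul_left _ _ _ hr]
    congr 1
    have := conj_sy_sq (a := y'.2.2.1) hr
    rw [← this, Complex.conj_conj]
  have F1 : Fy J om T q t (M * r) y = kap q t y * ((n6 (qu M y.2.2.2) * n6 r : ℝ) *
      (sy y.2.2.1 (qu M y.2.2.2) * sy y.2.2.1 r) * (conj (sy (qu M y.2.2.2) (y.1 * y.2.2.2)) *
        conj (sy r (y.1 * y.2.2.2))) * CS (UU J om T q M y) r) := by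
    unfold Fy
    rw [if_pos c1, e1, n6_mul, s1 _ a3, syG.mul_left _ _ _ (hdp.mul hg), CS_be_mul, map_mul]
    rfl
  have F2 : Fy J om T q t (M * r) y' = kap q t y' * ((n6 (qu M y'.2.2.2) * n6 r : ℝ) *
      (sy y'.2.2.1 (qu M y'.2.2.2) * sy y'.2.2.1 r) *
      (conj (sy (qu M y'.2.2.2) (y'.1 * y'.2.2.2)) *
        conj (sy r (y'.1 * y'.2.2.2))) * CS (UU J om T q M y') r) := by
    unfold Fy
    rw [if_pos c2, e2, n6_mul, s2 _ b3, syG.mul_left _ _ _ (hdp'.mul hg'), CS_be_mul, map_mul]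
    rfl
  have f1 : ∀ n, fn J om T q t (M * r) y n = kap q t y * ((n6 (qu M y.2.2.2) * n6 r : ℝ) *
      (sy y.2.2.1 (qu M y.2.2.2) * sy y.2.2.1 r) * (conj (sy (qu M y.2.2.2) (y.1 * y.2.2.2)) *
        conj (sy r (y.1 * y.2.2.2))) * (UU J om T q M y n * sy r n)) := by
    intro n
    unfold fn UU
    rw [if_pos c1, e1, n6_mul, s1 _ a3, syG.mul_left _ _ _ (hdp.mul hg), map_mul]
    by_cases h : be J om T q y n = 0
    · simp [h]
    · rw [syG.mul_left _ _ _ (be_prim h)]; ring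
  have f2 : ∀ n, fn J om T q t (M * r) y' n = kap q t y' * ((n6 (qu M y'.2.2.2) * n6 r : ℝ) *
      (sy y'.2.2.1 (qu M y'.2.2.2) * sy y'.2.2.1 r) *
      (conj (sy (qu M y'.2.2.2) (y'.1 * y'.2.2.2)) *
        conj (sy r (y'.1 * y'.2.2.2))) * (UU J om T q M y' n * sy r n)) := by
    intro n
    unfold fn UU
    rw [if_pos c2, e2, n6_mul, s2 _ b3, syG.mul_left _ _ _ (hdp'.mul hg'), map_mul]
    by_cases h : be J om T q y' n = 0
    · simp [h]
    · rw [syG.mul_left _ _ _ (be_prim h)]; ring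
  unfold Xk
  rw [F1, F2]
  by_cases hs : sm y y'
  · rw [if_pos hs, if_pos hs]
    have : ∑ n ∈ S R, fn J om T q t (M * r) y n * conj (fn J om T q t (M * r) y' n) =
        (kap q t y * ((n6 (qu M y.2.2.2) * n6 r : ℝ) *
      (sy y.2.2.1 (qu M y.2.2.2) * sy y.2.2.1 r) * (conj (sy (qu M y.2.2.2) (y.1 * y.2.2.2)) *
        conj (sy r (y.1 * y.2.2.2))))) * conj (kap q t y' * ((n6 (qu M y'.2.2.2) * n6 r : ℝ) *
      (sy y'.2.2.1 (qu M y'.2.2.2) * sy y'.2.2.1 r) *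
      (conj (sy (qu M y'.2.2.2) (y'.1 * y'.2.2.2)) *
        conj (sy r (y'.1 * y'.2.2.2))))) *
        ∑ n ∈ S R, (UU J om T q M y n * sy r n) * conj (UU J om T q M y' n * sy r n) := by
      rw [mul_sum]
      refine sum_congr rfl fun n _ => ?_
      rw [f1, f2]
      simp only [map_mul]
      ring
    rw [this, s3]
    unfold ct
    simp only [map_mul, Complex.conj_conj, Complex.conj_ofReal]
    push_cast
    ring
  · rw [if_neg hs, if_neg hs, s3]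
    unfold ct
    simp only [map_mul, Complex.conj_conj, Complex.conj_ofReal]
    push_cast
    ring

lemma Xk_zero {k₁ : Eis} (h : ¬ ((y.2.2.2 ∣ k₁ ∧ y.2.1 ∣ k₁ * q * t) ∧
    (y'.2.2.2 ∣ k₁ ∧ y'.2.1 ∣ k₁ * q * t))) : Xk J om T R q t y y' k₁ = 0 := by
  unfold Xk Fy fn
  rw [not_and_or] at h
  rcases h with h | h
  · simp only [if_neg h, zero_mul, sum_const_zero, ite_self, sub_zero]
  · simp only [if_neg h, map_zero, mul_zero, sum_const_zero, ite_self, sub_zero]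

end pair

/-! ### the sum over the frequencies of one pair -/

/-- the weight with the factor `x ^ (-1/3)` -/
def w3 (w : ℝ → ℝ) (x : ℝ) : ℝ := w x * x ^ (-(1 : ℝ) / 3)

/-- the scale -/
def Kr (K : ℝ) (q t M : Eis) : ℝ := K / (nm q ^ 2 * nm t ^ 3) / nm M

/-- the prefactor -/
def pf (K : ℝ) (q t : Eis) (y y' : Yp) : ℝ :=
  (nm y.2.2.2 * nm y'.2.2.2 : ℝ) ^ ((1 : ℝ) / 6) * (K / (nm q ^ 2 * nm t ^ 3)) ^ (-(1 : ℝ) / 3)

/-- the difference of the pair sum and its diagonal -/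
def PD (w : ℝ → ℝ) (K : ℝ) (J : Finset (Eis × Eis)) (om : Eis × Eis → ℂ)
    (T : Eis → Eis → Eis → ℂ) (R : ℝ) (q t M : Eis) (y y' : Yp) : ℂ :=
  PR (w3 w) (Kr K q t M) (sy (y.2.2.1 * y'.2.2.1 ^ 2)) (y.1 * y.2.2.2) (y'.1 * y'.2.2.2)
      (UU J om T q M y) (UU J om T q M y') -
    if sm y y' then DR (w3 w) (Kr K q t M) R (sy (y.2.2.1 * y'.2.2.1 ^ 2)) (y.1 * y.2.2.2)
      (y'.1 * y'.2.2.2) (UU J om T q M y) (UU J om T q M y') else 0

lemma nm_pos' {a : Eis} (ha : IsPrim a) : (0 : ℝ) < nm a := by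
  exact_mod_cast nm_pos.mpr ha.ne_zero

lemma nm_one_le {a : Eis} (ha : IsPrim a) : (1 : ℝ) ≤ nm a := by
  exact_mod_cast nm_pos.mpr ha.ne_zero

section one

variable {J : Finset (Eis × Eis)} {om : Eis × Eis → ℂ} {T : Eis → Eis → Eis → ℂ} {q t M : Eis}
  {y y' : Yp} {R E0 K : ℝ} {w : ℝ → ℝ}

lemma arg_eq (hK : 0 < K) (hq : IsPrim q) (ht : IsPrim t) (hM : IsPrim M) (r : Eis) :
    (nm (M * r * q ^ 2 * t ^ 3) : ℝ) / K = nm r / Kr K q t M := by
  unfold Kr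
  have h1 := nm_pos' hq
  have h2 := nm_pos' ht
  have h3 := nm_pos' hM
  rw [nm_mul, nm_mul, nm_mul, nm_pow, nm_pow]
  push_cast
  field_simp

lemma Kr_pos (hK : 0 < K) (hq : IsPrim q) (ht : IsPrim t) (hM : IsPrim M) : 0 < Kr K q t M := by
  unfold Kr
  have h1 := nm_pos' hq
  have h2 := nm_pos' ht
  have h3 := nm_pos' hM
  positivity

/-- the weights -/
lemma wt_eq (hK : 0 < K) (hq : IsPrim q) (ht : IsPrim t) (hM : IsPrim M) (hg : IsPrim y.2.2.2)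
    (hg' : IsPrim y'.2.2.2) (hd : y.2.2.2 ∣ M) (hd' : y'.2.2.2 ∣ M) {r : Eis} (hr : IsPrim r) :
    w (nm (M * r * q ^ 2 * t ^ 3) / K) * (n6 (qu M y.2.2.2) * n6 (qu M y'.2.2.2) * n6 r ^ 2) =
      pf K q t y y' * w3 w (nm r / Kr K q t M) := by
  rw [arg_eq hK hq ht hM]
  unfold w3 pf n6
  have a1 := nm_pos' hq
  have a2 := nm_pos' ht
  have a3 := nm_pos' hM
  have a4 := nm_pos' hg
  have a5 := nm_pos' hg'
  have a6 := nm_pos' hr
  have a7 := nm_pos' (qu_prim hg hM hd)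
  have a8 := nm_pos' (qu_prim hg' hM hd')
  have m1 : (nm M : ℝ) = nm y.2.2.2 * nm (qu M y.2.2.2) := by
    conv_lhs => rw [qu_spec hd, nm_mul]
    push_cast; rfl
  have m2 : (nm M : ℝ) = nm y'.2.2.2 * nm (qu M y'.2.2.2) := by
    conv_lhs => rw [qu_spec hd', nm_mul]
    push_cast; rfl
  set G := (nm y.2.2.2 : ℝ)
  set G' := (nm y'.2.2.2 : ℝ)
  set Q := (nm (qu M y.2.2.2) : ℝ)
  set Q' := (nm (qu M y'.2.2.2) : ℝ)
  set Mn := (nm M : ℝ)
  set rr := (nm r : ℝ)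
  set L := K / ((nm q : ℝ) ^ 2 * (nm t : ℝ) ^ 3) with hL
  have hL0 : 0 < L := by positivity
  have e1 : rr / Kr K q t M = rr * Mn / L := by
    unfold Kr
    rw [div_div_eq_mul_div]
  rw [e1]
  have e2 : (rr * Mn / L) ^ (-(1 : ℝ) / 3) = rr ^ (-(1 : ℝ) / 3) * Mn ^ (-(1 : ℝ) / 3) *
      L ^ ((1 : ℝ) / 3) := by
    rw [Real.div_rpow (by positivity) hL0.le, Real.mul_rpow (by positivity) (by positivity),
      div_eq_mul_inv, ← Real.rpow_neg hL0.le]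
    norm_num
  have e3 : Mn ^ (-(1 : ℝ) / 3) = (G * G') ^ (-(1 : ℝ) / 6) * (Q ^ (-(1 : ℝ) / 6) *
      Q' ^ (-(1 : ℝ) / 6)) := by
    rw [← Real.mul_rpow (by positivity) (by positivity),
      ← Real.mul_rpow (by positivity) (by positivity)]
    have : G * G' * (Q * Q') = Mn ^ (2 : ℝ) := by
      rw [Real.rpow_two, pow_two]
      nth_rewrite 1 [m1]
      rw [m2]; ring
    rw [this, ← Real.rpow_mul (by positivity)]
    norm_num
  have e4 : (rr ^ (-(1 : ℝ) / 6)) ^ 2 = rr ^ (-(1 : ℝ) / 3) := by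
    rw [← Real.rpow_natCast, ← Real.rpow_mul (by positivity)]
    norm_num
  have e5 : (G * G') ^ ((1 : ℝ) / 6) * (G * G') ^ (-(1 : ℝ) / 6) = 1 := by
    rw [← Real.rpow_add (by positivity)]; norm_num
  have e6 : L ^ (-(1 : ℝ) / 3) * L ^ ((1 : ℝ) / 3) = 1 := by
    rw [← Real.rpow_add hL0]; norm_num
  rw [e2, e3, e4]
  have : (G * G') ^ ((1 : ℝ) / 6) * L ^ (-(1 : ℝ) / 3) * (w (rr * Mn / L) *
      (rr ^ (-(1 : ℝ) / 3) * ((G * G') ^ (-(1 : ℝ) / 6) * (Q ^ (-(1 : ℝ) / 6) *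
        Q' ^ (-(1 : ℝ) / 6))) * L ^ ((1 : ℝ) / 3))) =
      ((G * G') ^ ((1 : ℝ) / 6) * (G * G') ^ (-(1 : ℝ) / 6)) *
        (L ^ (-(1 : ℝ) / 3) * L ^ ((1 : ℝ) / 3)) * (w (rr * Mn / L) * (rr ^ (-(1 : ℝ) / 3) *
          (Q ^ (-(1 : ℝ) / 6) * Q' ^ (-(1 : ℝ) / 6)))) := by ring
  rw [this, e5, e6]
  ring

/-- **one pair: the sum over the multiples of `M`** -/
theorem sum_Xk (hK : 0 < K) (hq : IsPrim q) (ht : IsPrim t) (hy : y ∈ Ys J E0 R)
    (hy' : y' ∈ Ys J E0 R) (hJ : OKJ J) (hM : IsPrim M) (hd : y.2.2.2 ∣ M ∧ y.2.1 ∣ M * q * t)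
    (hd' : y'.2.2.2 ∣ M ∧ y'.2.1 ∣ M * q * t) {N : ℕ} (hN : ∀ k : Eis, N < nm k →
      w (nm k / K) = 0) :
    ∑ k₁ ∈ primBall N, (if M ∣ k₁ then ((w (nm (k₁ * q ^ 2 * t ^ 3) / K) : ℝ) : ℂ) *
      Xk J om T R q t y y' k₁ else 0) =
      ct q t M y y' * (pf K q t y y' : ℂ) * PD w K J om T R q t M y y' := by
  have hg := (SR_prim (mem_Ys.mp hy).2.2.2).1
  have hg' := (SR_prim (mem_Ys.mp hy').2.2.2).1
  -- the sum over r
  have h1 : ∑ k₁ ∈ primBall N, (if M ∣ k₁ then ((w (nm (k₁ * q ^ 2 * t ^ 3) / K) : ℝ) : ℂ) *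
      Xk J om T R q t y y' k₁ else 0) = ∑ r ∈ primBall N,
        ((w (nm (M * r * q ^ 2 * t ^ 3) / K) : ℝ) : ℂ) * Xk J om T R q t y y' (M * r) := by
    have hsub : ∀ r : Eis, N < nm (M * r) → w (nm (M * r * q ^ 2 * t ^ 3) / K) = 0 := by
      intro r hr
      apply hN
      have : nm (M * r * q ^ 2 * t ^ 3) = nm (M * r) * (nm (q ^ 2) * nm (t ^ 3)) := by
        rw [nm_mul, nm_mul]; ring
      rw [this]
      have h2 : 1 ≤ nm (q ^ 2) * nm (t ^ 3) := Nat.one_le_iff_ne_zero.mpr (Nat.mul_ne_zero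
        (nm_pos.mpr (hq.pow 2).ne_zero).ne' (nm_pos.mpr (ht.pow 3).ne_zero).ne')
      nlinarith
    have hle : ∀ r : Eis, nm r ≤ nm (M * r) := by
      intro r
      rw [nm_mul]
      have : 1 ≤ nm M := nm_pos.mpr hM.ne_zero
      nlinarith [Nat.zero_le (nm r)]
    rw [← sum_filter]
    have e1 : ∑ r ∈ primBall N, ((w (nm (M * r * q ^ 2 * t ^ 3) / K) : ℝ) : ℂ) *
        Xk J om T R q t y y' (M * r) = ∑ r ∈ (primBall N).filter (fun r => nm (M * r) ≤ N),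
          ((w (nm (M * r * q ^ 2 * t ^ 3) / K) : ℝ) : ℂ) * Xk J om T R q t y y' (M * r) := by
      rw [sum_filter]
      refine sum_congr rfl fun r _ => ?_
      split_ifs with h
      · rfl
      · rw [hsub r (not_le.mp h)]; simp
    rw [e1]
    symm
    refine sum_nbij (fun r => M * r) ?_ ?_ ?_ ?_
    · intro r hr
      rw [mem_filter, mem_primBall] at hr
      rw [mem_filter, mem_primBall]
      exact ⟨⟨hr.2, hM.mul hr.1.2⟩, dvd_mul_right _ _⟩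
    · intro r _ r' _ h
      exact mul_left_cancel₀ hM.ne_zero h
    · intro k hk
      rw [mem_coe, mem_filter, mem_primBall] at hk
      obtain ⟨⟨k1, k2⟩, r, rfl⟩ := hk
      refine ⟨r, ?_, rfl⟩
      rw [mem_coe, mem_filter, mem_primBall]
      exact ⟨⟨(hle r).trans k1, k2.of_mul_left hM⟩, k1⟩
    · intro r _
      rfl
  rw [h1]
  -- the tsums
  have hz : ∀ r : Eis, r ∉ ball N → w3 w (nm r / Kr K q t M) = 0 := by
    intro r hr
    rw [mem_ball, not_le] at hr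
    unfold w3
    rw [← arg_eq hK hq ht hM, hN, zero_mul]
    have : nm (M * r * q ^ 2 * t ^ 3) = nm r * (nm M * (nm (q ^ 2) * nm (t ^ 3))) := by
      rw [nm_mul, nm_mul, nm_mul]; ring
    rw [this]
    have h2 : 1 ≤ nm M * (nm (q ^ 2) * nm (t ^ 3)) := Nat.one_le_iff_ne_zero.mpr (Nat.mul_ne_zero
      (nm_pos.mpr hM.ne_zero).ne' (Nat.mul_ne_zero
      (nm_pos.mpr (hq.pow 2).ne_zero).ne' (nm_pos.mpr (ht.pow 3).ne_zero).ne'))
    nlinarith
  have hfin : ∀ F : Eis → ℂ, ∑' r : Eis, (if IsPrim r then F r else 0) *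
      ((w3 w (nm r / Kr K q t M) : ℝ) : ℂ) =
      ∑ r ∈ primBall N, F r * ((w3 w (nm r / Kr K q t M) : ℝ) : ℂ) := by
    intro F
    rw [tsum_eq_sum (s := primBall N)]
    · refine sum_congr rfl fun r hr => ?_
      rw [if_pos (mem_primBall.mp hr).2]
    · intro r hr
      by_cases hp : IsPrim r
      · rw [hz r]
        · simp
        · rw [mem_ball]
          exact fun h => hr (mem_primBall.mpr ⟨h, hp⟩)
      · simp [hp]
  have hPD : PD w K J om T R q t M y y' = ∑ r ∈ primBall N,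
      (sy (y.2.2.1 * y'.2.2.1 ^ 2) r * ((conj (sy r (y.1 * y.2.2.2)) * CS (UU J om T q M y) r) *
          conj (conj (sy r (y'.1 * y'.2.2.2)) * CS (UU J om T q M y') r)) -
        if sm y y' then sy (y.2.2.1 * y'.2.2.1 ^ 2) r * ((conj (sy r (y.1 * y.2.2.2)) *
          conj (conj (sy r (y'.1 * y'.2.2.2)))) * ∑ n ∈ S R, (UU J om T q M y n * sy r n) *
            conj (UU J om T q M y' n * sy r n)) else 0) *
        ((w3 w (nm r / Kr K q t M) : ℝ) : ℂ) := by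
    unfold PD PR DR
    by_cases hs : sm y y'
    · simp only [if_pos hs]
      rw [hfin, hfin, ← sum_sub_distrib]
      refine sum_congr rfl fun r _ => ?_
      ring
    · simp only [if_neg hs]
      rw [hfin, sub_zero]
      refine sum_congr rfl fun r _ => ?_
      ring
  rw [hPD, mul_sum]
  refine sum_congr rfl fun r hr => ?_
  have hr' := (mem_primBall.mp hr).2
  rw [Xk_eq hy hy' hJ hM hd hd' hr']
  have hw := wt_eq (w := w) (y := y) (y' := y') hK hq ht hM hg hg' hd.1 hd'.1 hr'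
  have hw' : ((w (nm (M * r * q ^ 2 * t ^ 3) / K) : ℝ) : ℂ) *
      ((n6 (qu M y.2.2.2) * n6 (qu M y'.2.2.2) * n6 r ^ 2 : ℝ) : ℂ) =
      (pf K q t y y' : ℂ) * ((w3 w (nm r / Kr K q t M) : ℝ) : ℂ) := by
    rw [← Complex.ofReal_mul, ← Complex.ofReal_mul, hw]
  linear_combination (ct q t M y y' * (sy (y.2.2.1 * y'.2.2.1 ^ 2) r *
    ((conj (sy r (y.1 * y.2.2.2)) * CS (UU J om T q M y) r) *
          conj (conj (sy r (y'.1 * y'.2.2.2)) * CS (UU J om T q M y') r)) -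
        if sm y y' then sy (y.2.2.1 * y'.2.2.1 ^ 2) r * ((conj (sy r (y.1 * y.2.2.2)) *
          conj (conj (sy r (y'.1 * y'.2.2.2)))) * ∑ n ∈ S R, (UU J om T q M y n * sy r n) *
            conj (UU J om T q M y' n * sy r n)) else 0)) * hw'

end one

end Crest.Agent.R017.E3F548
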