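import Crest.Agent.R017.E3Kc_548
import Crest.Agent.R017.FE11_47

/-!
# Row 17, R8 (E3) (helper548): the plateau `omP` as a smooth function of `log N (j d²)`

* `OmP n u = Σ_{i < n} hD (u - i log 2)`; `contDiff_OmP`, `OmP_bd`, `OmP_win`, `OmP_form`
-/

set_option autoImplicit false

noncomputable section

open Finset
open scoped Classical ContDiff

namespace Crest.Agent.R017.E3Kh548

open Crest.Agent.R012 Crest.Agent.R012.Eis
open Crest.Agent.R012.Weight600 (pw osc)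
open Crest.Agent.R017.FE47 (hD contDiff_hD hasCompactSupport_hD hD_supp cx)

/-- the plateau -/
def OmP (n : ℕ) (u : ℝ) : ℂ := ∑ i ∈ range n, ((hD (u - Real.log 2 * i) : ℝ) : ℂ)

lemma hD_abs {u : ℝ} (h : hD u ≠ 0) : |u| ≤ Real.log 2 := by
  apply hD_supp
  unfold cx
  exact_mod_cast h

lemma contDiff_hDc : ContDiff ℝ ∞ fun u => ((hD u : ℝ) : ℂ) :=
  Complex.ofRealCLM.contDiff.comp contDiff_hD

lemma contDiff_term (i : ℕ) : ContDiff ℝ ∞ fun u => ((hD (u - Real.log 2 * i) : ℝ) : ℂ) :=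
  contDiff_hDc.comp (contDiff_id.sub contDiff_const)

theorem contDiff_OmP (n : ℕ) : ContDiff ℝ ∞ (OmP n) := by
  unfold OmP
  exact ContDiff.sum fun i _ => contDiff_term i

lemma deriv_term (m i : ℕ) (u : ℝ) :
    iteratedDeriv m (fun u => ((hD (u - Real.log 2 * i) : ℝ) : ℂ)) u =
      iteratedDeriv m (fun u => ((hD u : ℝ) : ℂ)) (u - Real.log 2 * i) :=
  congrFun (iteratedDeriv_comp_sub_const m (fun u => ((hD u : ℝ) : ℂ)) (Real.log 2 * i)) u

lemma deriv_supp (m : ℕ) {u : ℝ} (h : iteratedDeriv m (fun u => ((hD u : ℝ) : ℂ)) u ≠ 0) :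
    |u| ≤ Real.log 2 := by
  have h1 : u ∈ tsupport (fun u => ((hD u : ℝ) : ℂ)) := by
    refine support_iteratedFDeriv_subset (𝕜 := ℝ) m ?_
    intro h0
    apply h
    rw [← norm_eq_zero, ← norm_iteratedFDeriv_eq_norm_iteratedDeriv, h0, norm_zero]
  have h2 : tsupport (fun u => ((hD u : ℝ) : ℂ)) ⊆ {u | |u| ≤ Real.log 2} := by
    refine closure_minimal (fun v hv => ?_) (isClosed_le continuous_abs continuous_const)
    refine hD_abs fun h0 => hv ?_
    simp only [h0, Complex.ofReal_zero]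
  exact h2 h1

lemma card_near (x : ℝ) (n : ℕ) : ((range n).filter fun i : ℕ => |x - i| ≤ 1).card ≤ 3 := by
  have hsub : ((range n).filter fun i : ℕ => |x - i| ≤ 1) ⊆
      ({⌊x⌋₊ - 1, ⌊x⌋₊, ⌊x⌋₊ + 1} : Finset ℕ) := by
    intro i hi
    obtain ⟨h1, h2⟩ := abs_le.mp (mem_filter.mp hi).2
    simp only [mem_insert, mem_singleton]
    have h3 : (i : ℝ) ≤ x + 1 := by linarith
    have h4 : x - 1 ≤ i := by linarith
    have h5 : i ≤ ⌊x⌋₊ + 1 := by
      by_contra hc
      have h6 : ⌊x⌋₊ + 2 ≤ i := by omega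
      have h7 : ((⌊x⌋₊ : ℝ) + 2) ≤ i := by exact_mod_cast h6
      have h8 := Nat.lt_floor_add_one x
      linarith
    have h6 : ⌊x⌋₊ ≤ i + 1 := by
      by_cases hx : 0 ≤ x
      · have h7 : (⌊x⌋₊ : ℝ) ≤ x := Nat.floor_le hx
        have h8 : (⌊x⌋₊ : ℝ) ≤ (i : ℝ) + 1 := by linarith
        exact_mod_cast h8
      · rw [Nat.floor_of_nonpos (le_of_lt (not_le.mp hx))]
        omega
    omega
  exact (card_le_card hsub).trans card_le_three

theorem OmP_bd1 (m : ℕ) : ∃ M : ℝ, 0 ≤ M ∧ ∀ (n : ℕ) (u : ℝ), ‖iteratedDeriv m (OmP n) u‖ ≤ M := by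
  have h1 : Continuous (iteratedDeriv m (fun u => ((hD u : ℝ) : ℂ))) :=
    contDiff_hDc.continuous_iteratedDeriv m (by exact_mod_cast le_top)
  have h2 : HasCompactSupport (iteratedDeriv m (fun u => ((hD u : ℝ) : ℂ))) := by
    refine HasCompactSupport.intro (isCompact_Icc (a := -Real.log 2) (b := Real.log 2))
      fun x hx => ?_
    by_contra h
    exact hx (abs_le.mp (deriv_supp m h))
  obtain ⟨C, hC⟩ := h1.bounded_above_of_compact_support h2
  have hC0 : 0 ≤ C := (norm_nonneg _).trans (hC 0)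
  refine ⟨3 * C, by positivity, fun n u => ?_⟩
  have e1 : iteratedDeriv m (OmP n) u = ∑ i ∈ range n,
      iteratedDeriv m (fun u => ((hD u : ℝ) : ℂ)) (u - Real.log 2 * i) := by
    unfold OmP
    have e2 : (fun u : ℝ => ∑ i ∈ range n, ((hD (u - Real.log 2 * i) : ℝ) : ℂ)) =
        ∑ i ∈ range n, fun u : ℝ => ((hD (u - Real.log 2 * i) : ℝ) : ℂ) := by
      funext u
      rw [Finset.sum_apply]
    rw [e2, iteratedDeriv_sum fun i _ => ((contDiff_term i).of_le (by exact_mod_cast le_top)).contDiffAt]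
    exact sum_congr rfl fun i _ => deriv_term m i u
  rw [e1]
  have hlog : 0 < Real.log 2 := Real.log_pos (by norm_num)
  have e3 : ∑ i ∈ range n, iteratedDeriv m (fun u => ((hD u : ℝ) : ℂ)) (u - Real.log 2 * i) =
      ∑ i ∈ (range n).filter (fun i : ℕ => |u / Real.log 2 - i| ≤ 1),
        iteratedDeriv m (fun u => ((hD u : ℝ) : ℂ)) (u - Real.log 2 * i) := by
    refine (sum_filter_of_ne fun i _ h => ?_).symm
    have h3 := deriv_supp m h
    have e4 : u / Real.log 2 - i = (u - Real.log 2 * i) / Real.log 2 := by field_simp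
    rw [e4, abs_div, abs_of_pos hlog, div_le_one hlog]
    exact h3
  rw [e3]
  refine (norm_sum_le _ _).trans ((sum_le_sum fun i _ => hC _).trans ?_)
  rw [sum_const, nsmul_eq_mul]
  have h5 : (((range n).filter fun i : ℕ => |u / Real.log 2 - i| ≤ 1).card : ℝ) ≤ 3 := by
    exact_mod_cast card_near (u / Real.log 2) n
  exact mul_le_mul_of_nonneg_right h5 hC0

/-- **derivatives, uniformly in the length** -/
theorem OmP_bd (N : ℕ) : ∃ M : ℝ, 0 ≤ M ∧ ∀ (n m : ℕ), m ≤ N → ∀ u : ℝ,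
    ‖iteratedDeriv m (OmP n) u‖ ≤ M := by
  choose M hM0 hM using OmP_bd1
  refine ⟨∑ m ∈ range (N + 1), M m, sum_nonneg fun m _ => hM0 m, fun n m hm u => ?_⟩
  refine (hM m n u).trans ?_
  exact single_le_sum (f := M) (fun m _ => hM0 m) (mem_range.mpr (by omega))

/-- **the support** -/
theorem OmP_win {n k : ℕ} (hk : 0 < k) (h : OmP n (Real.log k) ≠ 0) :
    (1 / 10 : ℝ) < k ∧ (k : ℝ) ≤ 2 ^ n := by
  have hk1 : (1 : ℝ) ≤ k := by exact_mod_cast hk
  refine ⟨by linarith, ?_⟩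
  unfold OmP at h
  obtain ⟨i, hi, hne⟩ := exists_ne_zero_of_sum_ne_zero h
  have h1 : hD (Real.log k - Real.log 2 * i) ≠ 0 := fun h0 => hne (by simp only [h0, Complex.ofReal_zero])
  have h2 := (abs_le.mp (hD_abs h1)).2
  have hi' : (i : ℝ) + 1 ≤ n := by exact_mod_cast mem_range.mp hi
  have hlog : 0 < Real.log 2 := Real.log_pos (by norm_num)
  have h3 : Real.log k ≤ n * Real.log 2 := by nlinarith
  rw [← Real.log_rpow (by norm_num)] at h3
  have h4 := (Real.log_le_log_iff (by linarith) (by positivity)).mp h3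
  rwa [Real.rpow_natCast] at h4

/-- the weight as in helper548's (Z1), (Z2): `κ = 1`, `τ = 0` -/
theorem OmP_form (n : ℕ) (x : Eis × Eis) :
    (∑ i ∈ range n, ((hD (Real.log (nm (x.2 * x.1 ^ 2)) - Real.log 2 * i) : ℝ) : ℂ)) =
      1 * (OmP n (Real.log (nm (x.2 * x.1 ^ 2))) * pw 0 (nm x.2)) := by
  have h1 : pw 0 (nm x.2) = 1 := by simp [pw, osc]
  rw [h1, one_mul, mul_one]
  rfl

end Crest.Agent.R017.E3Kh548
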