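import Crest.Agent.R017.Z1Fy_579
import Crest.Agent.R017.LB_48
import Crest.Agent.R017.Sf_770
import Crest.Agent.R017.E5L_770
import Crest.Agent.R017.E5b_54
import Crest.Agent.R017.E3Kh_548
import Crest.Agent.R017.E3Mi_829

/-!
# Row 17, R8 (E3) (helper61): the Gram sum of the structured function, the frame

* `GrE` : the Gram sum with the cut `E1` from the second form at a smaller cut `E1'`
* `TnU`, `RnU`, `FaU`, `FbU`, `FcU`, `CtU` : the inputs at the level of lists; `SzU` : sizes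
-/

set_option autoImplicit false
set_option linter.unusedVariables false

noncomputable section

open Finset
open scoped Classical ComplexConjugate ContDiff

namespace Crest.Agent.R017.E3F61

open Crest.Agent.R012 Crest.Agent.R012.Eis
open Crest.Agent.R012.MC (Wgt)
open Crest.Agent.R012.LS2 (S mem_S)
open Crest.Agent.R012.Mob705 (kap0)
open Crest.Agent.R012.Weight600 (pw)
open Crest.Agent.R017.C70 (JC OKJ JW okJ_JW)
open Crest.Agent.R017.CM106 (CS FS)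
open Crest.Agent.R017.HB645 (hh)
open Crest.Agent.R017.E1551 (nmpos)
open Crest.Agent.R017.E3A164 (SteT)
open Crest.Agent.R017.E3M829 (TC TF TF_nonneg Cut Iw XT Tal SteT_Tal XT_eq c3_eq BT)
open Crest.Agent.R017.E3F548 (EF EF_nonneg)
open Crest.Agent.R017.E3T1579 (T3)
open Crest.Agent.R017.E3T829 (hE hE_nonneg RR)
open Crest.Agent.R017.E3Z548
open Crest.Agent.R017.E3Kc548
open Crest.Agent.R017.E3Kh548
open Crest.Agent.R017.Mode405 (Slp)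
open Crest.Agent.R017.E3Sz579 (Ld Md Ld_nonneg Md_nonneg)
open Crest.Agent.R017.E3Sx744 (Mxd Mxd_nonneg)
open Crest.Agent.R017.E3Xa72 (RHRx)
open Crest.Agent.R017.E3Hi290 (RN2XF RN2XF_nonneg)
open Crest.Agent.R017.Z1F579 (Z1Fy hE_Z)
open Crest.Agent.R017.E2440 (StE TE)
open Crest.Agent.R017.LB48 (GrP summable_wR)
open Crest.Agent.R017.I1146 (X3 c3 BB trunc px)
open Crest.Agent.R017.E5B71 (cutE)
open Crest.Agent.R017.Sf770 (JS okJ_JS)
open Crest.Agent.R017.E5L770 (omP)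

lemma JS_eq (n : ℕ) : JS n = JW (Real.sqrt (2 ^ n)) (1 / 10) (2 ^ n) := rfl

/-- the sizes of a class -/
lemma JS_bd {n : ℕ} {x : Eis × Eis} (hx : x ∈ JS n) :
    IsPrim x.1 ∧ (nm x.1 : ℝ) ≤ 2 ^ n ∧ (nm x.2 : ℝ) ≤ 2 ^ n := by
  have g1 := (okJ_JS n).prim x hx
  rw [JS_eq] at hx
  unfold C70.JW at hx
  rw [Finset.mem_filter, Finset.mem_product, mem_primBall] at hx
  obtain ⟨⟨⟨g2, -⟩, -⟩, -, g3, -, g5⟩ := hx
  have g6 : (1 : ℝ) ≤ nm x.1 := by exact_mod_cast nm_pos.mpr g1.ne_zero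
  have g7 : x.2 ≠ 0 := (E5b54.JC_cf g3).1
  have g8 : (1 : ℝ) ≤ nm x.2 := by exact_mod_cast nm_pos.mpr g7
  rw [nm_mul, nm_pow] at g5
  push_cast at g5
  have g9 : (1 : ℝ) ≤ (nm x.1 : ℝ) ^ 2 := one_le_pow₀ g6
  have g10 : (nm x.1 : ℝ) ≤ (nm x.1 : ℝ) ^ 2 := by nlinarith
  refine ⟨g1, ?_, ?_⟩
  · nlinarith
  · nlinarith

lemma TE_supp {Y : ℝ} (hY : 0 ≤ Y) {α : Eis → ℂ} (hα : ∀ n, α n ≠ 0 → n ∈ S Y) {x : Eis × Eis}
    (hx : x.1 ≠ 0) {E0 : ℝ} (hE : 0 ≤ E0) {t : Eis} (ht : t ∈ S E0) (h : TE α x t ≠ 0) :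
    t ∈ S Y := by
  unfold E2440.TE at h
  obtain ⟨m, hm⟩ : ∃ m : Eis, (if t ∣ m ∧ IsCoprime x.2 (x.1 * m) then
    α (x.1 * m) * ((PX764.n6 m : ℂ) * PX764.Gh x.2 m) else 0) ≠ 0 := by
    by_contra hc
    push Not at hc
    apply h
    rw [tsum_congr hc, tsum_zero]
  split_ifs at hm with h1
  swap
  · exact absurd rfl hm
  have h2 : α (x.1 * m) ≠ 0 := left_ne_zero_of_mul hm
  have h3 := (mem_S hY).1 (hα _ h2)
  have h4 := (mem_S hE).1 ht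
  rw [mem_S hY]
  refine ⟨?_, h4.2.1, h4.2.2⟩
  have h5 : m ≠ 0 := fun h0 => h3.2.1.ne_zero (by rw [h0, mul_zero])
  have h6 : nm t ≤ nm m := Div277.nm_le_of_dvd h5 h1.1
  have h7 : nm m ≤ nm (x.1 * m) := by
    rw [nm_mul]
    exact Nat.le_mul_of_pos_left _ (nm_pos.mpr hx)
  have h8 : (nm t : ℝ) ≤ nm (x.1 * m) := by exact_mod_cast h6.trans h7
  exact h8.trans h3.1

lemma BB_trunc' {E0 Y : ℝ} (U : Eis → ℂ) (hU : ∀ t ∈ S E0, U t ≠ 0 → t ∈ S Y) :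
    BB Y (trunc E0 U) (trunc E0 U) = BT E0 U U := by
  unfold BB BT
  have key : ∀ F : Eis → ℂ, (∀ t, t ∉ S E0 → F t = 0) → (∀ t ∈ S E0, t ∉ S Y → F t = 0) →
      ∑ t ∈ S Y, F t = ∑ t ∈ S E0, F t := by
    intro F h1 h2
    rw [← sum_filter_add_sum_filter_not (S Y) (fun t => t ∈ S E0),
      ← sum_filter_add_sum_filter_not (S E0) (fun t => t ∈ S Y)]
    have e1 : ∑ t ∈ (S Y).filter (fun t => ¬ t ∈ S E0), F t = 0 :=
      sum_eq_zero fun t ht => h1 t (mem_filter.1 ht).2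
    have e2 : ∑ t ∈ (S E0).filter (fun t => ¬ t ∈ S Y), F t = 0 :=
      sum_eq_zero fun t ht => h2 t (mem_filter.1 ht).1 (mem_filter.1 ht).2
    rw [e1, e2, add_zero, add_zero]
    refine sum_congr ?_ fun _ _ => rfl
    ext t
    simp only [mem_filter]
    tauto
  have z1 : ∀ t, t ∉ S E0 → trunc E0 U t = 0 := fun t ht => by
    unfold trunc
    rw [if_neg ht]
  have z2 : ∀ t ∈ S E0, t ∉ S Y → trunc E0 U t = 0 := fun t ht h2 => by
    unfold trunc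
    rw [if_pos ht]
    by_contra hc
    exact h2 (hU t ht hc)
  rw [key]
  · refine sum_congr rfl fun t ht => ?_
    rw [key]
    · refine sum_congr rfl fun t' ht' => ?_
      unfold trunc
      rw [if_pos ht, if_pos ht']
    · intro t' ht'
      rw [z1 t' ht']
      simp
    · intro t' ht' h2
      rw [z2 t' ht' h2]
      simp
  · intro t ht
    refine sum_eq_zero fun t' _ => ?_
    rw [z1 t ht]
    simp
  · intro t ht h2
    refine sum_eq_zero fun t' _ => ?_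
    rw [z2 t ht h2]
    simp

/-- the Gram main form, any `E0` -/
lemma XT_eq' {E0 Y : ℝ} (hE : 0 ≤ E0) (hY : 0 ≤ Y) {J : Finset (Eis × Eis)} (hJ : OKJ J)
    (om : Eis × Eis → ℂ) {α : Eis → ℂ} (hα : ∀ n, α n ≠ 0 → n ∈ S Y) :
    XT J om E0 (Tal α) = (X3 Y E0 J om α).re := by
  unfold XT X3
  rw [Complex.re_sum]
  refine sum_congr rfl fun x hx => ?_
  rw [BB_trunc' (E0 := E0) (Y := Y) (TE α x) (fun t ht h =>
    TE_supp hY hα (hJ.prim x hx).ne_zero hE ht h), ← Complex.ofReal_mul, Complex.re_ofReal_mul]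
  rfl

/-- the number of one side is affine in the `R`-number -/
lemma LVn_split (af : Eis → Eis → Eis → ℂ) (Ds EE : Finset Eis)
    (c Y K H V V' E1 B G1 RN : ℝ) : LVn af Ds EE c Y K H V V' E1 B G1 RN =
      LVn af Ds EE c Y K H V V' E1 B G1 0 + FH K H V * RN := by
  unfold LVn
  ring

lemma RN2XF_congr {c K V X : ℝ} {H H' : Eis → Eis → ℝ} (W0 : Bool → Eis → Eis → ℝ → ℝ)
    {d e : Eis} (h : H d e = H' d e) : RN2XF c K V X H W0 d e = RN2XF c K V X H' W0 d e := by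
  unfold RN2XF
  rw [h]

/-- the sum over the frequencies between two cuts -/
def CtS (w : ℝ → ℝ) (K E0 E1 E1' : ℝ) (n : ℕ) (α : Eis → ℂ) : ℝ :=
  ∑' k : Eis, if IsPrim k ∧ Cut E1 k ∧ ¬ Cut E1' k then
    w ((nm k : ℝ) / K) * ‖StE E0 (JS n) (omP n) α k‖ ^ 2 else 0

lemma CtS_nonneg {w : ℝ → ℝ} (hw0 : ∀ x, 0 ≤ w x) (K E0 E1 E1' : ℝ) (n : ℕ) (α : Eis → ℂ) :
    0 ≤ CtS w K E0 E1 E1' n α := by
  unfold CtS
  refine tsum_nonneg fun k => ?_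
  split_ifs
  · exact mul_nonneg (hw0 _) (by positivity)
  · exact le_rfl

/-- the Gram sum by the cut -/
lemma GrP_cut {w : ℝ → ℝ} (hw : Wgt w) {K E1 E1' : ℝ} (hK : 0 < K) (hE : E1' ≤ E1) (E0 : ℝ)
    (n : ℕ) (α : Eis → ℂ) :
    GrP w K (fun k => if cutE E1 k then StE E0 (JS n) (omP n) α k else 0) =
      (∑' k : Eis, if IsPrim k ∧ Cut E1' k then
        w ((nm k : ℝ) / K) * ‖SteT (JS n) (omP n) E0 (Tal α) k‖ ^ 2 else 0) +
      CtS w K E0 E1 E1' n α := by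
  have hcm : ∀ k : Eis, Cut E1' k → Cut E1 k := fun k h e he hek => (h e he hek).trans hE
  have hs : ∀ F : Eis → ℝ, (∀ k, F k ≠ 0 → w ((nm k : ℝ) / K) ≠ 0) → Summable F := by
    intro F hF
    exact summable_of_hasFiniteSupport ((hw.finite_support hK).subset fun k hk => hF k hk)
  unfold CtS LB48.GrP
  rw [← Summable.tsum_add]
  · refine tsum_congr fun k => ?_
    rw [SteT_Tal]
    beta_reduce
    by_cases h2 : IsPrim k
    · by_cases h3 : Cut E1' k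
      · have h4 : cutE E1 k := hcm k h3
        simp [h2, h3, h4]
      · by_cases h4 : cutE E1 k
        · have h5 : Cut E1 k := h4
          simp [h2, h3, h4, h5]
        · have h5 : ¬ Cut E1 k := h4
          simp [h2, h3, h4, h5]
    · simp [h2]
  · refine hs _ fun k hk h0 => hk ?_
    rw [h0, zero_mul, ite_self]
  · refine hs _ fun k hk h0 => hk ?_
    rw [h0, zero_mul, ite_self]

/-- the sum of the `T`-numbers -/
def TnS (cc Yg K E0 E1 : ℝ) (n : ℕ) (α : Eis → ℂ) (H : ℕ → Eis → Eis → ℝ) : ℝ :=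
  ∑ i ∈ LI (1 / 10) (2 ^ n), ∑ d ∈ (JS n).image Prod.fst, ∑ e ∈ S E0,
    LVn (afT α E0) {d} {e} cc Yg K (H i d e) (Real.exp i) (Real.exp 1 * 2 ^ n) E1 2
      (Real.sqrt (cc * Real.exp i)) 0

/-- the sum of the `R`-numbers -/
def RnS (cc K E0 X : ℝ) (n : ℕ) (H : ℕ → Eis → Eis → ℝ) (W0 : ℕ → Bool → Eis → Eis → ℝ → ℝ) :
    ℝ :=
  ∑ i ∈ LI (1 / 10) (2 ^ n), ∑ d ∈ (JS n).image Prod.fst, ∑ e ∈ S E0,
    FH K (H i d e) (Real.exp i) * RN2XF cc K (Real.exp i) X (H i) (W0 i) d e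

set_option maxHeartbeats 1000000 in
/-- **the Gram sum of the structured function**, cut `E1`, second form at the cut `E1'` -/
theorem GrE {w : ℝ → ℝ} (hw : Wgt w) (hw0 : ∀ x, 0 ≤ w x) {R0 : ℝ} (hR0 : 0 ≤ R0) (a A₁ : ℕ)
    (hA₁ : 1 < A₁) {ε : ℝ} (hε : 0 < ε) (hε1 : ε ≤ 1) :
    ∃ (c C : ℝ), 1 ≤ c ∧ 1 ≤ C ∧
    ∀ (Z : ℝ), 1 ≤ Z → ∀ (n : ℕ) (E0 E1 E1' K X Y : ℝ) (α : Eis → ℂ) (H : ℕ → Eis → Eis → ℝ)
      (u : Eis) (W0 : ℕ → Bool → Eis → Eis → ℝ → ℝ), u ≠ 0 →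
      (∀ n, α n ≠ 0 → IsCoprime u n) → FS α → (∀ n, α n ≠ 0 → Squarefree n) →
      (∀ n, α n ≠ 0 → |Real.log (nm n) - Real.log X| ≤ R0) →
      0 < K → K ≤ Z → 1 ≤ E0 → E0 ≤ Z → 0 ≤ Y → (∀ n, α n ≠ 0 → n ∈ S Y) → 1 ≤ E1' →
      E1' ≤ E1 → 2 * E1' ≤ Z →
      (2 : ℝ) ^ n ≤ Z → 0 < X → X ≤ Z ^ 5 → c * (Real.exp 1 * 2 ^ n) ≤ Z ^ 5 →
      (∀ i d e, 0 < H i d e) →
      (∀ i ∈ LI (1 / 10) (2 ^ n), ∀ d ∈ (JS n).image Prod.fst, ∀ e ∈ S E0,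
        c * (H i d e * Real.exp i ^ 2) ≤ K * X) →
      (∀ i jj d e, Slp a (W0 i jj d e)) →
      (∀ i ∈ LI (1 / 10) (2 ^ n),
        RHRx (c * Z ^ 300) A₁ (RR (JS n) (S E0)) (afT α E0) u (W0 i)) →
      GrP w K (fun k => if cutE E1 k then StE E0 (JS n) (omP n) α k else 0) ≤
        c3 w K * (X3 Y E0 (JS n) (omP n) α).re +
        (C * Z ^ ε * (K ^ (2 / 3 : ℝ) * ((2 ^ n / K ^ 2) ^ (1 / 6 : ℝ) *
            TF (1 / 2) (JS n) (omP n) E0 (Tal α)) +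
          K ^ (2 / 3 : ℝ) * (E1'⁻¹ * TF (-1) (JS n) (omP n) E0 (Tal α)) +
          K ^ (-(1 : ℝ) / 3) * E1' ^ 2 * 2 ^ n * ∑ x ∈ JS n, EF (omP n) (Tal α) E0 x +
          TnS c (Z ^ 5) K E0 E1' n α H + RnS c K E0 X n H W0) + CtS w K E0 E1 E1' n α) := by
  have hε2 : 0 < ε / 2 := by positivity
  obtain ⟨A, c, C₁, hc, hC₁, key⟩ := Z1Fy hw hw0 hR0 a A₁ hA₁ hε2 (by linarith)
  obtain ⟨Mb, hMb, hOb⟩ := OmP_bd (A + 2)
  have hc0 : 0 < c := by linarith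
  set C₂ : ℝ := 1 + Mb ^ 2 * (200 * (1 + 1 / (ε / 2))) with hC₂
  have hC₂1 : 1 ≤ C₂ := by
    have : 0 ≤ Mb ^ 2 * (200 * (1 + 1 / (ε / 2))) := by positivity
    linarith
  refine ⟨c, C₁ * C₂, hc, one_le_mul_of_one_le_of_one_le hC₁ hC₂1, ?_⟩
  intro Z hZ n E0 E1 E1' K X Y α H u W0 hu hup hFS hsf hwin hK hKZ hE0 hE0Z hY0 hαY hE1 hE11 hE1Z
    hnZ hX hXZ hcV hH hKX hS hRH
  have hZ0 : 0 < Z := by linarith
  have hE00 : 0 ≤ E0 := by linarith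
  have hprim : ∀ m, α m ≠ 0 → IsPrim m := hFS.prim
  have h2n : (0 : ℝ) < 2 ^ n := by positivity
  have hlt : 0 < K * X := by positivity
  -- the modified parameter
  obtain ⟨H', hH'⟩ : ∃ H' : ℕ → Eis → Eis → ℝ,
      H' = fun i d e => min (H i d e) (K * X / (c * Real.exp i ^ 2)) := ⟨_, rfl⟩
  have hH'0 : ∀ i d e, 0 < H' i d e := fun i d e => by
    rw [hH']
    exact lt_min (hH i d e) (by positivity)
  have hH'1 : ∀ i ∈ LI (1 / 10) (2 ^ n), ∀ d ∈ (JS n).image Prod.fst, ∀ e ∈ S E0,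
      H' i d e = H i d e := by
    intro i hi d hd e he
    rw [hH']
    refine min_eq_left ?_
    rw [le_div_iff₀ (by positivity)]
    linarith [hKX i hi d hd e he]
  have hH'2 : ∀ i d e, c * (H' i d e * Real.exp i ^ 2) ≤ K * X := by
    intro i d e
    have h1 : H' i d e ≤ K * X / (c * Real.exp i ^ 2) := by
      rw [hH']
      exact min_le_right _ _
    rw [le_div_iff₀ (by positivity)] at h1
    linarith
  have hY1 : ∀ i ∈ LI (1 / 10) (2 ^ n), c * Real.exp i ≤ Z ^ 5 := fun i hi =>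
    (mul_le_mul_of_nonneg_left (mem_LI hi).2.2 hc0.le).trans hcV
  have h := key (OmP n) Mb hMb (contDiff_OmP n) (fun m hm x => hOb n m hm x) 0 1 (by simp) Z hZ
    (Real.sqrt (2 ^ n)) (1 / 10) (2 ^ n) (omP n) (Tal α) (afT α E0) E0 E1' (2 ^ n) K X H' u W0 hu
    (fun d _ e _ m hm => (hup _ (afT_ne hm).2.2.2).of_mul_right_right)
    (TC_afT hsf) (fun d e => FS_afT hFS d e) (fun d e he j => T3_afT_zero he d j)
    (fun x hx e he => (T3_afT hprim (JS_bd hx).1 he x.2).symm) (Real.sqrt_nonneg _) h2n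
    (fun x hx => OmP_form n x) (fun i _ m hm _ h => OmP_win hm h) hK hKZ h2n.le hnZ hE00 hE0Z
    hE1 hE1Z hnZ (fun x hx => (JS_bd hx).2.1.trans hnZ) (fun x hx => (JS_bd hx).2.2) hX hXZ hH'0
    hY1 (fun i _ d _ e _ => hH'2 i d e) (fun d _ e _ m hm => afT_sqf hsf hm)
    (fun d _ e _ m hm => afT_win hwin hm) hS hRH
  rw [XT_eq' hE00 hY0 (okJ_JW _ _ _) _ hαY, ← c3_eq] at h
  rw [GrP_cut hw hK hE11]
  -- the sum of the numbers
  have hSum : (∑ i ∈ LI (1 / 10) (2 ^ n), ∑ d ∈ (JS n).image Prod.fst, ∑ e ∈ S E0,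
      LVn (afT α E0) {d} {e} c (Z ^ 5) K (H' i d e) (Real.exp i) (Real.exp 1 * 2 ^ n) E1' 2
        (Real.sqrt (c * Real.exp i)) (RN2XF c K (Real.exp i) X (H' i) (W0 i) d e)) =
      TnS c (Z ^ 5) K E0 E1' n α H + RnS c K E0 X n H W0 := by
    unfold TnS RnS
    rw [← sum_add_distrib]
    refine sum_congr rfl fun i hi => ?_
    rw [← sum_add_distrib]
    refine sum_congr rfl fun d hd => ?_
    rw [← sum_add_distrib]
    refine sum_congr rfl fun e he => ?_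
    rw [LVn_split, RN2XF_congr (W0 i) (hH'1 i hi d hd e he), hH'1 i hi d hd e he]
  have hT0 : 0 ≤ TnS c (Z ^ 5) K E0 E1' n α H := by
    unfold TnS
    refine sum_nonneg fun i _ => sum_nonneg fun d _ => sum_nonneg fun e _ => ?_
    exact LVn_nonneg hK.le (hH i d e).le (Real.exp_pos _).le (by positivity) (by linarith)
      (Real.sqrt_nonneg _) le_rfl
  have hR0' : 0 ≤ RnS c K E0 X n H W0 := by
    unfold RnS
    refine sum_nonneg fun i _ => sum_nonneg fun d _ => sum_nonneg fun e _ => ?_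
    have h1 := hH i d e
    have h3 := Real.exp_pos (i : ℝ)
    refine mul_nonneg (FH_nonneg hK.le h1.le h3.le) ?_
    have hI : 0 < c * (X * Real.exp i * H i d e / K) := by positivity
    exact RN2XF_nonneg (Ld_nonneg hK h1 d) (Md_nonneg hc0.le hK h3 h1 hX d)
      (Mxd_nonneg hc0.le hK h3 h1 hX d) (by positivity) (fun jj => (hS i jj d e).nonneg _ hI)
  rw [← JS_eq] at h
  rw [hSum] at h
  set ST := TnS c (Z ^ 5) K E0 E1' n α H with hST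
  set SR := RnS c K E0 X n H W0 with hSR
  set Fa := K ^ (2 / 3 : ℝ) * ((2 ^ n / K ^ 2) ^ (1 / 6 : ℝ) *
            TF (1 / 2) (JS n) (omP n) E0 (Tal α)) with hFa
  set Fb := K ^ (2 / 3 : ℝ) * (E1'⁻¹ * TF (-1) (JS n) (omP n) E0 (Tal α)) with hFb
  set Fc := K ^ (-(1 : ℝ) / 3) * E1' ^ 2 * 2 ^ n * ∑ x ∈ JS n, EF (omP n) (Tal α) E0 x with hFc
  have hFa0 : 0 ≤ Fa := by
    have := TF_nonneg (1 / 2) (JS n) (omP n) E0 (Tal α)
    positivity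
  have hFb0 : 0 ≤ Fb := by
    have := TF_nonneg (-1) (JS n) (omP n) E0 (Tal α)
    have h5 : 0 ≤ E1' := by linarith
    positivity
  have hFc0 : 0 ≤ Fc := by
    have : 0 ≤ ∑ x ∈ JS n, EF (omP n) (Tal α) E0 x :=
      sum_nonneg fun x _ => EF_nonneg _ _ _ _
    positivity
  have hz1 : 1 ≤ Z ^ (ε / 2) := Real.one_le_rpow hZ hε2.le
  have hzz : Z ^ (ε / 2) * Z ^ (ε / 2) = Z ^ ε := by
    rw [← Real.rpow_add hZ0]
    congr 1
    ring
  have hhE := hE_Z hε2 hE0 hE0Z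
  have hhE0 := hE_nonneg (S E0)
  have hM : Mb ^ 2 * (1 + |(0 : ℝ)|) ^ A * (hE (S E0) * (ST + SR)) ≤
      C₂ * Z ^ (ε / 2) * (ST + SR) := by
    rw [abs_zero, add_zero, one_pow, mul_one, ← mul_assoc]
    refine mul_le_mul_of_nonneg_right ?_ (by linarith)
    calc Mb ^ 2 * hE (S E0) ≤ Mb ^ 2 * (200 * (1 + 1 / (ε / 2)) * Z ^ (ε / 2)) :=
          mul_le_mul_of_nonneg_left hhE (by positivity)
      _ = (Mb ^ 2 * (200 * (1 + 1 / (ε / 2)))) * Z ^ (ε / 2) := by ring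
      _ ≤ C₂ * Z ^ (ε / 2) := by
          refine mul_le_mul_of_nonneg_right ?_ (by linarith)
          rw [hC₂]
          linarith
  have hW : Fa + Fb + Fc ≤ C₂ * Z ^ (ε / 2) * (Fa + Fb + Fc) := by
    have h1 : 1 ≤ C₂ * Z ^ (ε / 2) := one_le_mul_of_one_le_of_one_le hC₂1 hz1
    have h2 : 0 ≤ Fa + Fb + Fc := by linarith
    nlinarith
  have hfin : K ^ (2 / 3 : ℝ) * ((2 ^ n / K ^ 2) ^ (1 / 6 : ℝ) *
        TF (1 / 2) (JS n) (omP n) E0 (Tal α) + E1'⁻¹ * TF (-1) (JS n) (omP n) E0 (Tal α)) +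
      K ^ (-(1 : ℝ) / 3) * E1' ^ 2 * 2 ^ n * ∑ x ∈ JS n, EF (omP n) (Tal α) E0 x +
      Mb ^ 2 * (1 + |(0 : ℝ)|) ^ A * (hE (S E0) * (ST + SR)) ≤
      C₂ * Z ^ (ε / 2) * (Fa + Fb + Fc + ST + SR) := by
    have e1 : K ^ (2 / 3 : ℝ) * ((2 ^ n / K ^ 2) ^ (1 / 6 : ℝ) *
        TF (1 / 2) (JS n) (omP n) E0 (Tal α) + E1'⁻¹ * TF (-1) (JS n) (omP n) E0 (Tal α)) =
        Fa + Fb := by
      rw [hFa, hFb]
      ring
    rw [e1, ← hFc]
    nlinarith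
  rw [← hFc] at hfin
  have hfin2 := mul_le_mul_of_nonneg_left hfin
    (by positivity : (0 : ℝ) ≤ C₁ * Z ^ (ε / 2))
  have e2 : C₁ * Z ^ (ε / 2) * (C₂ * Z ^ (ε / 2) * (Fa + Fb + Fc + ST + SR)) =
      C₁ * C₂ * Z ^ ε * (Fa + Fb + Fc + ST + SR) := by
    rw [← hzz]
    ring
  rw [e2] at hfin2
  linarith

end Crest.Agent.R017.E3F61
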