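import Crest.Agent.R017.E5L_770

/-!
# Row 17, R8: the level as an exponent coordinate (helper770)

* `lev c S` : the system `S` with a level `i : ℕ`, coordinate `c i / log X` (`c = log 2`)
* `ub_of_lev` : a uniform bound at one level gives the uniform bound of the sum over the levels
* `strU_of_lev`, `tailU_of_lev` : `StrU`, `TailU` from one level
-/

set_option autoImplicit false

noncomputable section

open Finset Filter Topology
open scoped ComplexConjugate

namespace Crest.Agent.R017.E5L770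

open Crest.Agent.R012 Crest.Agent.R012.Eis
open Crest.Agent.R017.XG702 (Pcs)
open Crest.Agent.R017.XT71 (Sys Win)
open Crest.Agent.R017.B770 Crest.Agent.R017.Prov71
open Crest.Agent.R017.E5B71 Crest.Agent.R017.E5P571

variable {A Pc' ι τ Λ' : Type*} [DecidableEq τ]

/-- the system with a level -/
def lev (c : ℝ) (S : Sys A ι) : Sys (A × ℕ) (Option ι) where
  ev X a o := match o with
    | none => c * (a.2 : ℝ) / Real.log X
    | some i => S.ev X a.1 i
  g a := S.g a.1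
  n a := S.n a.1
  s₁ a := S.s₁ a.1
  s₂ a := S.s₂ a.1

/-- forget the level -/
def dn (p : Option ι → ℝ) : ι → ℝ := fun i => p (some i)

/-- the domain with the level -/
def DomL (Dom : Set ((ι → ℝ) × (τ → ℝ))) (top : (ι → ℝ) → ℝ) :
    Set ((Option ι → ℝ) × (τ → ℝ)) :=
  {q | (dn q.1, q.2) ∈ Dom ∧ 0 ≤ q.1 none ∧ q.1 none ≤ top (dn q.1)}

/-- conditions on the lumps, level free -/
def alL (al : Set ((ι → ℝ) × ℝ)) : Set ((Option ι → ℝ) × ℝ) := {p | (dn p.1, p.2) ∈ al}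

lemma ev_levels (M c : ℝ) {ε : ℝ} (hε : 0 < ε) :
    ∀ᶠ X : ℝ in atTop, M * Real.log X + c ≤ X ^ ε := by
  have h1 : (fun X : ℝ => M * Real.log X + c) =o[atTop] fun X : ℝ => X ^ ε := by
    refine Asymptotics.IsLittleO.add ((isLittleO_log_rpow_atTop hε).const_mul_left M) ?_
    exact Asymptotics.isLittleO_const_left.2 (Or.inr
      (tendsto_norm_atTop_atTop.comp (tendsto_rpow_atTop hε)))
  filter_upwards [h1.def (c := 1) one_pos, eventually_ge_atTop (0 : ℝ)] with X hX h0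
  rw [one_mul, Real.norm_of_nonneg (Real.rpow_nonneg h0 _)] at hX
  exact (le_abs_self _).trans hX

/-- **one level suffices** -/
theorem ub_of_lev {S : Sys A ι} {D : Pcs Pc' τ} {Ψ : Λ' → A → List Pc' → ℝ}
    {Ψl : ℕ → Λ' → A → List Pc' → ℝ} {Dom : Set ((ι → ℝ) × (τ → ℝ))} {al : Set ((ι → ℝ) × ℝ)}
    {E : (ι → ℝ) × (τ → ℝ) → ℝ} {EL : (Option ι → ℝ) × (τ → ℝ) → ℝ} {top : (ι → ℝ) → ℝ}
    {C₀ M c c₁ : ℝ} (hC₀ : 0 ≤ C₀) (hc : 0 < c) {nT : A → ℕ}
    (htop0 : ∀ q ∈ Dom, 0 ≤ top q.1) (htopM : ∀ q ∈ Dom, top q.1 ≤ M)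
    (hlip : ∀ (p p' : ι → ℝ) (δ : ℝ), 0 ≤ δ → (∀ i, |p i - p' i| ≤ δ) → top p ≤ top p' + C₀ * δ)
    (hnT : ∀ (X : ℝ) (a : A), 1 < X →
      c * (nT a : ℝ) ≤ max 0 (top (S.ev X a)) * Real.log X + c₁)
    (hsplit : ∀ lam a ps, Ψ lam a ps ≤ ∑ i ∈ range (nT a), Ψl i lam a ps)
    (hEL : ∀ q ∈ DomL Dom top, EL q ≤ E (dn q.1, q.2))
    (h : UB (lev c S) D (fun lam a ps => Ψl a.2 lam a.1 ps) (DomL Dom top) (alL al) EL) :
    UB S D Ψ Dom al E := by
  intro ε hε
  obtain ⟨δ₁, hδ₁, H⟩ := h (ε / 2) (half_pos hε)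
  have hC1 : 0 < C₀ + 2 := by linarith
  set δ : ℝ := δ₁ / (C₀ + 2) with hδdef
  have hδ : 0 < δ := by positivity
  have hδC : C₀ * δ + 2 * δ = δ₁ := by
    rw [hδdef]; field_simp
  have hδ1 : δ ≤ δ₁ := by nlinarith [mul_nonneg hC₀ hδ.le]
  refine ⟨δ, hδ, fun lam N B => ?_⟩
  obtain ⟨δ', hδ', X₀, hX₀, H'⟩ := H lam N B
  obtain ⟨X₁, hX₁⟩ := eventually_atTop.1 ((ev_levels ((M + C₀ * δ) / c) (c₁ / c) (half_pos hε)).and
    ((Real.tendsto_log_atTop.eventually_ge_atTop (c₁ / δ)).and (eventually_ge_atTop (1 : ℝ))))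
  refine ⟨δ', hδ', max X₀ X₁, lt_of_lt_of_le hX₀ (le_max_left _ _), ?_⟩
  intro X hX a ps h1 h2 q hq hw hm hg hl
  have hXX : X₀ ≤ X := (le_max_left _ _).trans hX
  have hX1 : 1 < X := hX₀.trans_le hXX
  obtain ⟨e1, e2, -⟩ := hX₁ X ((le_max_right _ _).trans hX)
  have hlog : 0 < Real.log X := Real.log_pos hX1
  have htp : top (S.ev X a) ≤ top q.1 + C₀ * δ := hlip _ _ δ hδ.le hw.ev
  have ht0 := htop0 q hq
  have htM := htopM q hq
  have hmx : max 0 (top (S.ev X a)) ≤ top q.1 + C₀ * δ :=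
    max_le (by positivity) htp
  have hcl : c₁ / Real.log X ≤ δ := by
    rw [div_le_iff₀ hlog]
    rw [div_le_iff₀ hδ] at e2
    linarith
  -- each level
  have key : ∀ i ∈ range (nT a), Ψl i lam a ps ≤ X ^ (E q + ε / 2) := by
    intro i hi
    have hi' : (i : ℝ) ≤ nT a := by
      exact_mod_cast (mem_range.1 hi).le
    have h3 : c * (i : ℝ) / Real.log X ≤ top q.1 + C₀ * δ + δ := by
      have h4 : c * (i : ℝ) / Real.log X ≤
          (max 0 (top (S.ev X a)) * Real.log X + c₁) / Real.log X :=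
        div_le_div_of_nonneg_right ((mul_le_mul_of_nonneg_left hi' hc.le).trans (hnT X a hX1))
          hlog.le
      rw [add_div, mul_div_cancel_right₀ _ hlog.ne'] at h4
      linarith
    have hi0 : 0 ≤ c * (i : ℝ) / Real.log X := by positivity
    set v : ℝ := min (c * (i : ℝ) / Real.log X) (top q.1) with hv
    have hv0 : 0 ≤ v := le_min hi0 ht0
    have hvt : v ≤ top q.1 := min_le_right _ _
    have hvd : |c * (i : ℝ) / Real.log X - v| ≤ δ₁ := by
      have h5 : v ≤ c * (i : ℝ) / Real.log X := min_le_left _ _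
      rw [abs_of_nonneg (by linarith)]
      rcases min_cases (c * (i : ℝ) / Real.log X) (top q.1) with h6 | h6
      · rw [hv, h6.1]; linarith
      · rw [hv, h6.1]; linarith
    have hq' : ((fun o => match o with
        | none => v
        | some i => q.1 i : Option ι → ℝ), q.2) ∈ DomL Dom top := ⟨hq, hv0, hvt⟩
    have hwin : Win (lev c S) (fun o => match o with
        | none => v
        | some i => q.1 i) δ₁ N B δ' X (a, i) := by
      refine ⟨fun o => ?_, ?_, hw.n, hw.s₁, hw.s₂⟩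
      · cases o with
        | none => exact hvd
        | some j => exact (hw.ev j).trans hδ1
      · exact hw.g.trans (Real.rpow_le_rpow_of_exponent_le hX1.le hδ1)
    have h7 := H' X hXX (a, i) ps h1
      (fun p hp => (h2 p hp).imp id fun h8 => h8.trans hδ1) _ hq' hwin
      (fun t => (hm t).trans hδ1) hg (fun p hp hlp => hl p hp hlp)
    refine h7.trans (Real.rpow_le_rpow_of_exponent_le hX1.le ?_)
    have h8 := hEL _ hq'
    have h9 : EL ((fun o => match o with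
        | none => v
        | some i => q.1 i : Option ι → ℝ), q.2) ≤ E q := h8
    linarith
  have hcount : (nT a : ℝ) ≤ X ^ (ε / 2) := by
    refine le_trans ?_ e1
    have h0 : max 0 (top (S.ev X a)) * Real.log X ≤ (M + C₀ * δ) * Real.log X :=
      mul_le_mul_of_nonneg_right (by linarith) hlog.le
    have h1 := hnT X a hX1
    have h2 : (nT a : ℝ) ≤ ((M + C₀ * δ) * Real.log X + c₁) / c := by
      rw [le_div_iff₀ hc]
      linarith
    refine h2.trans (le_of_eq ?_)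
    ring
  have hX0 : (0 : ℝ) < X := by linarith
  calc Ψ lam a ps ≤ ∑ i ∈ range (nT a), Ψl i lam a ps := hsplit lam a ps
    _ ≤ ∑ i ∈ range (nT a), X ^ (E q + ε / 2) := Finset.sum_le_sum key
    _ = (nT a : ℝ) * X ^ (E q + ε / 2) := by
      rw [Finset.sum_const, card_range, nsmul_eq_mul]
    _ ≤ X ^ (ε / 2) * X ^ (E q + ε / 2) :=
      mul_le_mul_of_nonneg_right hcount (Real.rpow_nonneg hX0.le _)
    _ = X ^ (E q + ε) := by
      rw [← Real.rpow_add hX0]; congr 1; ring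

/-! ### the structured middle term and the tail -/

/-- top of the levels in exponents : `min (2N - κ) (3/4 N) + 11/5 x` -/
def top5 (p : Fin 3 ⊕ Fin 5 → ℝ) : ℝ := min (2 * cN p - cκ p) (3 / 4 * cN p) + 11 / 5 * cx' p

/-- top of the levels in logarithms (828's `topS`) -/
def topL (l N z : ℝ) : ℝ := min (2 * N - l) (3 / 4 * N) + 11 / 5 * z

/-- number of levels (828's `nT (topS l N z)`) -/
def nL (l N z : ℝ) : ℕ := ⌊topL l N z / Real.log 2⌋₊ + 1

lemma top5_ev {X : ℝ} (hX : 1 < X) (a : Bd) : top5 (S5.ev X a) * Real.log X =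
    topL a.l (a3 a) a.z := by
  unfold a3
  have hl : Real.log X ≠ 0 := (Real.log_pos hX).ne'
  have hl0 : 0 ≤ Real.log X := (Real.log_pos hX).le
  have e1 : cκ (S5.ev X a) * Real.log X = a.l := by
    show a.l / Real.log X * Real.log X = a.l
    field_simp
  have e2 : cx' (S5.ev X a) * Real.log X = a.z := by
    show a.z / Real.log X * Real.log X = a.z
    field_simp
  have e3 : cN (S5.ev X a) * Real.log X = (a.us 2).z + (a.us 3).z + (a.us 4).z := by
    show ((a.us 2).z / Real.log X + (a.us 3).z / Real.log X + (a.us 4).z / Real.log X) *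
      Real.log X = _
    field_simp
  unfold top5 topL
  rw [add_mul, min_mul_of_nonneg _ _ hl0]
  have f1 : (2 * cN (S5.ev X a) - cκ (S5.ev X a)) * Real.log X =
      2 * ((a.us 2).z + (a.us 3).z + (a.us 4).z) - a.l := by
    rw [sub_mul, mul_assoc, e3, e1]
  have f2 : 3 / 4 * cN (S5.ev X a) * Real.log X =
      3 / 4 * ((a.us 2).z + (a.us 3).z + (a.us 4).z) := by
    rw [mul_assoc, e3]
  have f3 : 11 / 5 * cx' (S5.ev X a) * Real.log X = 11 / 5 * a.z := by
    rw [mul_assoc, e2]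
  rw [f1, f2, f3]

lemma top5_lip (p p' : Fin 3 ⊕ Fin 5 → ℝ) (δ : ℝ) (hδ : 0 ≤ δ) (h : ∀ i, |p i - p' i| ≤ δ) :
    top5 p ≤ top5 p' + 10 * δ := by
  have h0 := abs_le.1 (h (.inl 0))
  have h1 := abs_le.1 (h (.inl 1))
  have h2 := abs_le.1 (h (.inr 2))
  have h3 := abs_le.1 (h (.inr 3))
  have h4 := abs_le.1 (h (.inr 4))
  unfold top5 cN cκ cx' cu
  have e1 := min_le_left (2 * (p (.inr 2) + p (.inr 3) + p (.inr 4)) - p (.inl 0))
    (3 / 4 * (p (.inr 2) + p (.inr 3) + p (.inr 4)))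
  have e2 := min_le_right (2 * (p (.inr 2) + p (.inr 3) + p (.inr 4)) - p (.inl 0))
    (3 / 4 * (p (.inr 2) + p (.inr 3) + p (.inr 4)))
  have e3 : min (2 * (p (.inr 2) + p (.inr 3) + p (.inr 4)) - p (.inl 0))
      (3 / 4 * (p (.inr 2) + p (.inr 3) + p (.inr 4))) - 7 * δ ≤
      min (2 * (p' (.inr 2) + p' (.inr 3) + p' (.inr 4)) - p' (.inl 0))
        (3 / 4 * (p' (.inr 2) + p' (.inr 3) + p' (.inr 4))) :=
    le_min (by linarith) (by linarith)
  linarith

lemma nL_le {X : ℝ} (hX : 1 < X) (a : Bd) : Real.log 2 * (nL a.l (a3 a) a.z : ℝ) ≤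
    max 0 (top5 (S5.ev X a)) * Real.log X + Real.log 2 := by
  have h2 : 0 < Real.log 2 := Real.log_pos (by norm_num)
  have hl0 : 0 ≤ Real.log X := (Real.log_pos hX).le
  have e := top5_ev hX a
  have h1 : ((⌊topL a.l (a3 a) a.z / Real.log 2⌋₊ : ℕ) : ℝ) ≤
      max 0 (topL a.l (a3 a) a.z) / Real.log 2 := by
    rcases le_total 0 (topL a.l (a3 a) a.z) with h | h
    · rw [max_eq_right h]
      exact Nat.floor_le (by positivity)
    · rw [max_eq_left h, Nat.floor_of_nonpos (div_nonpos_of_nonpos_of_nonneg h h2.le)]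
      simp
  have h3 : max 0 (topL a.l (a3 a) a.z) = max 0 (top5 (S5.ev X a)) * Real.log X := by
    rw [max_mul_of_nonneg _ _ hl0, e, zero_mul]
  unfold nL
  push_cast
  rw [mul_add, mul_one]
  have h4 : Real.log 2 * ((⌊topL a.l (a3 a) a.z / Real.log 2⌋₊ : ℕ) : ℝ) ≤
      max 0 (topL a.l (a3 a) a.z) := by
    calc Real.log 2 * ((⌊topL a.l (a3 a) a.z / Real.log 2⌋₊ : ℕ) : ℝ) ≤
        Real.log 2 * (max 0 (topL a.l (a3 a) a.z) / Real.log 2) :=
          mul_le_mul_of_nonneg_left h1 h2.le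
      _ = _ := by field_simp
  rw [h3] at h4
  linarith

section dom

variable {A₀ d : ℝ} {p : Fin 3 ⊕ Fin 5 → ℝ} {w : Kd → ℝ}

lemma Nr5.N_ge (H : Nr5 A₀ p w) : 3 / 4 * (A₀ * cκ p) ≤ cN p := by
  have h := H.near
  obtain ⟨h1, h2, h3, h4⟩ := H.anti
  unfold cN at h ⊢
  linarith

lemma top5_nonneg (hA : 2 / 3 ≤ A₀) (H : Sq5 A₀ d p w) : 0 ≤ top5 p := by
  have h1 := Nr5.N_ge H.toNr5
  have h2 := H.κ0
  have h3 : 0 ≤ cκ p := by linarith
  have h4 : 2 / 3 * cκ p ≤ A₀ * cκ p := mul_le_mul_of_nonneg_right hA h3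
  have h5 : 0 ≤ cx' p := by
    have := H.tl.adm.1
    rw [le_div_iff₀ (by linarith)] at this
    linarith
  unfold top5
  have h6 : 0 ≤ min (2 * cN p - cκ p) (3 / 4 * cN p) := le_min (by linarith) (by linarith)
  linarith

lemma top5_le (hA : 2 / 3 ≤ A₀) (H : Sq5 A₀ d p w) : top5 p ≤ 2 := by
  have h1 := Nr5.N_ge H.toNr5
  have h2 := H.κ0
  have h3 : 0 ≤ cκ p := by linarith
  have h4 : 2 / 3 * cκ p ≤ A₀ * cκ p := mul_le_mul_of_nonneg_right hA h3
  have h5 : cx' p ≤ w .am := by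
    have := H.tl.adm.2.1
    have hκ : (0 : ℝ) < cκ p := by linarith
    exact (div_le_div_iff_of_pos_right hκ).1 this
  have h6 := H.c
  have h7 : cN p ≤ 17 / 20 * cκ p := by
    have := H.tl.N85
    rwa [div_le_iff₀ (by linarith)] at this
  have h8 := H.κ1
  unfold top5
  have h9 := min_le_right (2 * cN p - cκ p) (3 / 4 * cN p)
  linarith

end dom

variable {Λ : Type*} (π : Λ → DPar) (h : ℝ → ℝ)

/-- the domain of the levels -/
def SqL (A d : ℝ) : Set ((Option (Fin 3 ⊕ Fin 5) → ℝ) × (Kd → ℝ)) := DomL (SqD A d) top5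

/-- **StrU from one level** -/
theorem strU_of_lev (hP : ∀ lam, (π lam).OK) {θ A d μ : ℝ} (hA : 2 / 3 ≤ A) (e0 r : ℝ)
    (Bf : ℝ → ℝ → ℝ → ℝ) (Jf : ℝ → ℝ → ℝ → Finset (Eis × Eis))
    (H : UB (lev (Real.log 2) S5) Dq (fun lam a ps => MidF π h (SfV π h e0 r Bf Jf a.2) lam a.1 ps)
      (SqL A d) (alL al5) fun q => T5 θ (dn q.1, q.2) - μ) :
    StrU π h θ (SfP π h e0 r Bf Jf nL) A d μ :=
  ub_of_lev (S := S5) (Ψl := fun i lam a ps => MidF π h (SfV π h e0 r Bf Jf i) lam a ps)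
    (C₀ := 10) (M := 2) (c := Real.log 2) (c₁ := Real.log 2) (by norm_num)
    (Real.log_pos (by norm_num)) (nT := fun a => nL a.l (a3 a) a.z)
    (fun q hq => top5_nonneg hA hq) (fun q hq => top5_le hA hq) top5_lip
    (fun X a hX => nL_le hX a) (fun lam a ps => midF_lev π h e0 r Bf Jf nL (hP lam.1) a ps)
    (fun q _ => le_rfl) H

/-- **TailU from one level** -/
theorem tailU_of_lev {θ A d μ : ℝ} (hA : 2 / 3 ≤ A) (e0 r : ℝ)
    (Bf : ℝ → ℝ → ℝ → ℝ) (Jf : ℝ → ℝ → ℝ → Finset (Eis × Eis))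
    (H : ∀ R : Λ → ℝ, (∀ lam, 0 ≤ R lam) →
      UB (lev (Real.log 2) S5) Dq
        (fun lam a ps => TailS π h (SfV π h e0 r Bf Jf a.2) R lam a.1 ps)
        (SqL A d) (alL al5) fun q => T5 θ (dn q.1, q.2) - μ) :
    TailU π h θ (SfP π h e0 r Bf Jf nL) A d μ := fun R hR =>
  ub_of_lev (S := S5) (Ψl := fun i lam a ps => TailS π h (SfV π h e0 r Bf Jf i) R lam a ps)
    (C₀ := 10) (M := 2) (c := Real.log 2) (c₁ := Real.log 2) (by norm_num)
    (Real.log_pos (by norm_num)) (nT := fun a => nL a.l (a3 a) a.z)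
    (fun q hq => top5_nonneg hA hq) (fun q hq => top5_le hA hq) top5_lip
    (fun X a hX => nL_le hX a) (fun lam a ps => tailS_lev π h e0 r Bf Jf nL R lam a ps)
    (fun q _ => le_rfl) (H R hR)

end Crest.Agent.R017.E5L770
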