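import Crest.Agent.R017.LBc_298
import Crest.Agent.R017.HP1_842

/-!
# Row 17, (LB): coefficient classes, powers, counting (helper298)

* `Cf r X α` : `α` finitely supported on primary elements of norm `≤ X`, `‖α n‖ ≤ tau n ^ r`
* `Cf.cv`, `Cf_pow`, `Cf_lump` : convolutions, powers, lump times a power
* `Cf.l2`, `Cf.l1` : second and first moments
* `count_block` : large values counting on a block
-/

set_option autoImplicit false

noncomputable section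

open Complex Finset
open scoped ComplexConjugate

namespace Crest.Agent.R017.Lbc298

open Crest.Agent.R012 Crest.Agent.R012.Eis Crest.Agent.R012.LS2 Crest.Agent.R012.Char766
open Crest.Agent.R012.Div277 (tau dvs mem_dvs one_le_tau tau_le_of_dvd)
open Crest.Agent.R017.CM106 Crest.Agent.R017.LV404 Crest.Agent.R017.HP842
open Crest.Agent.R017.End699 (prin0)

/-- coefficient class -/
structure Cf (r : ℕ) (X : ℝ) (α : Eis → ℂ) : Prop where
  fs : FS α
  supp : ∀ n, α n ≠ 0 → (nm n : ℝ) ≤ X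
  bd : ∀ n, ‖α n‖ ≤ (tau n : ℝ) ^ r

lemma one_le_tau_of_prim {n : Eis} (h : IsPrim n) : (1 : ℝ) ≤ tau n := by
  exact_mod_cast one_le_tau h.ne_zero

lemma Cf.mono {r r' : ℕ} {X X' : ℝ} {α : Eis → ℂ} (h : Cf r X α) (hr : r ≤ r') (hX : X ≤ X') :
    Cf r' X' α where
  fs := h.fs
  supp := fun n hn => (h.supp n hn).trans hX
  bd := fun n => by
    by_cases h0 : α n = 0
    · rw [h0, norm_zero]; positivity
    · exact (h.bd n).trans (pow_le_pow_right₀ (one_le_tau_of_prim (h.fs.prim n h0)) hr)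

lemma Cf.mul_le {r : ℕ} {X : ℝ} {α g : Eis → ℂ} (h : Cf r X α)
    (hg : ∀ n, IsPrim n → ‖g n‖ ≤ 1) : Cf r X (fun n => α n * g n) where
  fs :=
    { fin := h.fs.fin.subset fun n hn h0 => hn (by
        have h0' : α n = 0 := h0
        simp [h0'])
      prim := fun n hn => h.fs.prim n fun h0 => hn (by rw [h0, zero_mul]) }
  supp := fun n hn => h.supp n fun h0 => hn (by rw [h0, zero_mul])
  bd := fun n => by
    by_cases h0 : α n = 0
    · simp only [h0, zero_mul, norm_zero]; positivity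
    · rw [norm_mul]
      calc ‖α n‖ * ‖g n‖ ≤ ‖α n‖ * 1 := by gcongr; exact hg n (h.fs.prim n h0)
        _ ≤ _ := by rw [mul_one]; exact h.bd n

section conv

variable {ι : Type*} [Fintype ι] [DecidableEq ι]

/-- convolution of members of the class -/
theorem Cf.cv {r : ℕ} {X : ι → ℝ} {f : ι → Eis → ℂ} (h : ∀ i, Cf r (X i) (f i)) :
    Cf ((r + 1) * Fintype.card ι) (∏ i, X i) (cv f) where
  fs := FS_cv fun i => (h i).fs
  supp := fun n hn => by
    classical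
    unfold HP842.cv at hn
    obtain ⟨x, hx, hx0⟩ := Finset.exists_ne_zero_of_sum_ne_zero hn
    rw [mem_Tu] at hx
    have h1 : ∀ i, f i (x i) ≠ 0 := fun i h0 => hx0 (Finset.prod_eq_zero (Finset.mem_univ i) h0)
    have e : (nm n : ℝ) = ∏ i, (nm (x i) : ℝ) := by
      rw [← hx.2]
      have : ∀ s : Finset ι, nm (∏ i ∈ s, x i) = ∏ i ∈ s, nm (x i) := by
        intro s
        induction s using Finset.induction_on with
        | empty => simp
        | insert a s ha ih => rw [Finset.prod_insert ha, Finset.prod_insert ha, nm_mul, ih]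
      rw [this]; push_cast; rfl
    rw [e]
    exact Finset.prod_le_prod (fun i _ => Nat.cast_nonneg _) fun i _ => (h i).supp _ (h1 i)
  bd := fun n => by
    classical
    by_cases hn : IsPrim n
    · unfold HP842.cv
      have ht := one_le_tau_of_prim hn
      calc ‖∑ x ∈ Tu ι n, ∏ i, f i (x i)‖ ≤ ∑ x ∈ Tu ι n, ‖∏ i, f i (x i)‖ := norm_sum_le _ _
        _ ≤ ∑ x ∈ Tu ι n, (tau n : ℝ) ^ (r * Fintype.card ι) := by
            refine Finset.sum_le_sum fun x hx => ?_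
            rw [mem_Tu] at hx
            rw [norm_prod]
            calc ∏ i, ‖f i (x i)‖ ≤ ∏ _i : ι, (tau n : ℝ) ^ r := by
                  refine Finset.prod_le_prod (fun i _ => norm_nonneg _) fun i _ => ?_
                  refine ((h i).bd _).trans ?_
                  have hd : x i ∣ n := by
                    rw [← hx.2]; exact Finset.dvd_prod_of_mem _ (Finset.mem_univ i)
                  have h1 : (tau (x i) : ℝ) ≤ tau n := by
                    exact_mod_cast tau_le_of_dvd hn.ne_zero hd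
                  gcongr
              _ = (tau n : ℝ) ^ (r * Fintype.card ι) := by
                  rw [Finset.prod_const, Finset.card_univ, ← pow_mul]
        _ = ((Tu ι n).card : ℝ) * (tau n : ℝ) ^ (r * Fintype.card ι) := by
            rw [Finset.sum_const, nsmul_eq_mul]
        _ ≤ (tau n : ℝ) ^ Fintype.card ι * (tau n : ℝ) ^ (r * Fintype.card ι) := by
            gcongr
            exact_mod_cast card_Tu_le n
        _ = (tau n : ℝ) ^ ((r + 1) * Fintype.card ι) := by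
            rw [← pow_add]; congr 1; ring
    · rw [cv_not_prim hn, norm_zero]; positivity

end conv

/-- powers -/
theorem Cf_pow {r : ℕ} {X : ℝ} {p : Eis → ℂ} (h : Cf r X p) (n : ℕ) :
    ∃ α : Eis → ℂ, Cf ((r + 1) * n) (X ^ n) α ∧ ∀ k, CS α k = CS p k ^ n := by
  refine ⟨cv (fun _ : Fin n => p), ?_, fun k => ?_⟩
  · have h1 := Cf.cv (ι := Fin n) (X := fun _ => X) (f := fun _ => p) (r := r) fun _ => h
    simpa using h1
  · rw [CS_cv fun _ => h.fs]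
    simp

/-- a lump times a power -/
theorem Cf_lump {r : ℕ} {X Y : ℝ} {p y : Eis → ℂ} (h : Cf r X p) (hy : Cf r Y y) (n : ℕ) :
    ∃ α : Eis → ℂ, Cf ((r + 1) * (n + 1)) (Y * X ^ n) α ∧ ∀ k, CS α k = CS y k * CS p k ^ n := by
  refine ⟨cv (fun o : Option (Fin n) => o.elim y (fun _ => p)), ?_, fun k => ?_⟩
  · have h1 := Cf.cv (ι := Option (Fin n)) (X := fun o => o.elim Y (fun _ => X))
      (f := fun o => o.elim y (fun _ => p)) (r := r) (by
        intro o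
        cases o with
        | none => exact hy
        | some a => exact h)
    simpa using h1
  · rw [CS_cv (by
      intro o
      cases o with
      | none => exact hy.fs
      | some a => exact h.fs)]
    simp

/-- moments of the divisor function over the support -/
lemma tau_sum (R : ℕ) {ε : ℝ} (hε : 0 < ε) : ∃ C : ℝ, 1 ≤ C ∧ ∀ X : ℝ, 1 ≤ X →
    ∑ n ∈ Div277.nz ⌊X⌋₊, (tau n : ℝ) ^ R ≤ C * X ^ (1 + ε) := by
  refine ⟨max 1 ((100 * (1 + ((2 ^ R : ℕ) : ℝ) / ε)) ^ (2 ^ R)), le_max_left _ _,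
    fun X hX => ?_⟩
  have hX0 : 0 < X := by linarith
  have hf1 : 1 ≤ ⌊X⌋₊ := Nat.floor_pos.mpr hX
  have hf1' : (1 : ℝ) ≤ (⌊X⌋₊ : ℝ) := by exact_mod_cast hf1
  have hf : (⌊X⌋₊ : ℝ) ≤ X := Nat.floor_le hX0.le
  have h2 := Div277.poly_log_le (2 ^ R) hX hε
  have h3 : 0 ≤ Real.log (⌊X⌋₊ : ℝ) := Real.log_nonneg hf1'
  have h4 : Real.log (⌊X⌋₊ : ℝ) ≤ Real.log X := Real.log_le_log (by linarith) hf
  calc ∑ n ∈ Div277.nz ⌊X⌋₊, (tau n : ℝ) ^ R
      ≤ (⌊X⌋₊ : ℝ) * (100 * (1 + Real.log (⌊X⌋₊ : ℝ))) ^ (2 ^ R) := Div277.sum_tau_pow_le R ⌊X⌋₊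
    _ ≤ X * (100 * (1 + Real.log X)) ^ (2 ^ R) := by gcongr
    _ ≤ X * ((100 * (1 + ((2 ^ R : ℕ) : ℝ) / ε)) ^ (2 ^ R) * X ^ ε) := by gcongr
    _ ≤ X * (max 1 ((100 * (1 + ((2 ^ R : ℕ) : ℝ) / ε)) ^ (2 ^ R)) * X ^ ε) := by
        gcongr
        exact le_max_right _ _
    _ = _ := by
        rw [Real.rpow_add hX0, Real.rpow_one]; ring

lemma Cf.sub_nz {r : ℕ} {X : ℝ} {α : Eis → ℂ} (h : Cf r X α) :
    ∀ n ∉ Div277.nz ⌊X⌋₊, α n = 0 := by
  intro n hn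
  by_contra h0
  apply hn
  rw [Div277.mem_nz]
  have h1 := h.fs.prim n h0
  have h2 := h.supp n h0
  have h3 : nm n ≠ 0 := (nm_pos.2 h1.ne_zero).ne'
  exact ⟨h1.ne_zero, (Nat.le_floor_iff' h3).mpr h2⟩

/-- second moment -/
theorem Cf_l2 (r : ℕ) {ε : ℝ} (hε : 0 < ε) : ∃ C : ℝ, 1 ≤ C ∧ ∀ (X : ℝ) (α : Eis → ℂ),
    1 ≤ X → Cf r X α → ∑' n, ‖α n‖ ^ 2 ≤ C * X ^ (1 + ε) := by
  obtain ⟨C, hC1, hC⟩ := tau_sum (2 * r) hε
  refine ⟨C, hC1, fun X α hX h => ?_⟩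
  rw [tsum_eq_sum (s := Div277.nz ⌊X⌋₊) (fun n hn => by rw [h.sub_nz n hn]; simp)]
  refine (Finset.sum_le_sum fun n _ => ?_).trans (hC X hX)
  calc ‖α n‖ ^ 2 ≤ ((tau n : ℝ) ^ r) ^ 2 := pow_le_pow_left₀ (norm_nonneg _) (h.bd n) 2
    _ = (tau n : ℝ) ^ (2 * r) := by rw [← pow_mul]; ring_nf

/-- trivial bound -/
theorem Cf_l1 (r : ℕ) {ε : ℝ} (hε : 0 < ε) : ∃ C : ℝ, 1 ≤ C ∧ ∀ (X : ℝ) (α : Eis → ℂ),
    1 ≤ X → Cf r X α → ∀ k, ‖CS α k‖ ≤ C * X ^ (1 + ε) := by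
  obtain ⟨C, hC1, hC⟩ := tau_sum r hε
  refine ⟨C, hC1, fun X α hX h k => ?_⟩
  unfold CS
  rw [tsum_eq_sum (s := Div277.nz ⌊X⌋₊) (fun n hn => by rw [h.sub_nz n hn]; simp)]
  refine (norm_sum_le _ _).trans ((Finset.sum_le_sum fun n _ => ?_).trans (hC X hX))
  by_cases h0 : α n = 0
  · rw [h0, zero_mul, norm_zero]; positivity
  · rw [norm_mul]
    calc ‖α n‖ * ‖sy k n‖ ≤ ‖α n‖ * 1 := by
          gcongr
          exact norm_sy_le' (h.fs.prim n h0)
      _ ≤ _ := by rw [mul_one]; exact h.bd n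

/-- **large values counting on a block** -/
theorem count_block (H : LVProp) {η : ℝ} (hη : 0 < η) (hη1 : η ≤ 1 / 10) (R : ℕ) :
    ∃ C : ℝ, 1 ≤ C ∧ ∀ (K : ℝ) (i j : ℕ) (m : Eis) (W : ℝ) (α : Eis → ℂ), 0 ≤ K → m ≠ 0 →
      1 ≤ K / (nm m : ℝ) ^ 3 → 1 ≤ W → W ≤ (K / (nm m : ℝ) ^ 3) ^ ((4 : ℝ) / 3) → Cf R W α →
      ∀ T : Finset Eis, T ⊆ Bk K i j m → ∀ V : ℝ,
      C * (K / (nm m : ℝ) ^ 3) ^ (4 * η) * (K / (nm m : ℝ) ^ 3) ^ ((8 : ℝ) / 9) * W ≤ V →
      (∀ k ∈ T, V ≤ ‖CS α k‖ ^ 2) →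
      (T.card : ℝ) * V ≤
        C * (K / (nm m : ℝ) ^ 3) ^ (4 * η) * (K / (nm m : ℝ) ^ 3) ^ ((4 : ℝ) / 3) * W := by
  obtain ⟨C1, hC1, h1⟩ := lv_block H hη hη
  obtain ⟨C2, hC2, h2⟩ := Cf_l2 R hη
  refine ⟨max 1 (C1 * C2), le_max_left _ _, ?_⟩
  intro K i j m W α hK hm hK1 hW1 hW hα T hT V hV hTV
  set L := K / (nm m : ℝ) ^ 3 with hL
  have hL0 : 0 < L := by linarith
  have hW0 : 0 < W := by linarith
  have hG : ∑' n, ‖α n‖ ^ 2 ≤ C2 * (W * L ^ (4 / 3 * η)) := by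
    refine (h2 W α hW1 hα).trans ?_
    rw [Real.rpow_add hW0, Real.rpow_one]
    have h3 : W ^ η ≤ (L ^ ((4 : ℝ) / 3)) ^ η := Real.rpow_le_rpow hW0.le hW hη.le
    rw [← Real.rpow_mul hL0.le] at h3
    gcongr
  have hG0 : 0 ≤ ∑' n, ‖α n‖ ^ 2 := tsum_nonneg fun n => by positivity
  have hZ2 : L ^ (4 / 3 + η) ≤ L ^ (2 : ℝ) := Real.rpow_le_rpow_of_exponent_le hK1 (by linarith)
  have hC12 : 0 ≤ C1 * C2 := by positivity
  have hmax : C1 * C2 ≤ max 1 (C1 * C2) := le_max_right _ _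
  have hres := h1 K i j m (L ^ (4 / 3 + η)) hK hm hK1 le_rfl hZ2 T hT α hα.fs
    (fun n hn => (hα.supp n hn).trans (hW.trans
      (Real.rpow_le_rpow_of_exponent_le hK1 (by linarith)))) V ?_ hTV
  · refine hres.trans ?_
    calc C1 * L ^ η * L ^ (4 / 3 + η) * ∑' n, ‖α n‖ ^ 2
        ≤ C1 * L ^ η * L ^ (4 / 3 + η) * (C2 * (W * L ^ (4 / 3 * η))) := by gcongr
      _ = (C1 * C2) * (L ^ η * L ^ (4 / 3 + η) * L ^ (4 / 3 * η)) * W := by ring
      _ = (C1 * C2) * (L ^ (η + (4 / 3 + η) + 4 / 3 * η)) * W := by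
          rw [← Real.rpow_add hL0, ← Real.rpow_add hL0]
      _ ≤ max 1 (C1 * C2) * (L ^ (4 * η + 4 / 3)) * W := by
          have : L ^ (η + (4 / 3 + η) + 4 / 3 * η) ≤ L ^ (4 * η + 4 / 3) :=
            Real.rpow_le_rpow_of_exponent_le hK1 (by linarith)
          gcongr
      _ = _ := by rw [Real.rpow_add hL0]; ring
  · refine le_trans ?_ hV
    calc C1 * L ^ η * (L ^ (4 / 3 + η)) ^ ((2 : ℝ) / 3) * ∑' n, ‖α n‖ ^ 2
        ≤ C1 * L ^ η * (L ^ (4 / 3 + η)) ^ ((2 : ℝ) / 3) * (C2 * (W * L ^ (4 / 3 * η))) := by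
          gcongr
      _ = C1 * L ^ η * L ^ ((4 / 3 + η) * (2 / 3)) * (C2 * (W * L ^ (4 / 3 * η))) := by
          rw [← Real.rpow_mul hL0.le]
      _ = (C1 * C2) * (L ^ η * L ^ ((4 / 3 + η) * (2 / 3)) * L ^ (4 / 3 * η)) * W := by ring
      _ = (C1 * C2) * (L ^ (η + (4 / 3 + η) * (2 / 3) + 4 / 3 * η)) * W := by
          rw [← Real.rpow_add hL0, ← Real.rpow_add hL0]
      _ ≤ max 1 (C1 * C2) * (L ^ (4 * η + 8 / 9)) * W := by
          have : L ^ (η + (4 / 3 + η) * (2 / 3) + 4 / 3 * η) ≤ L ^ (4 * η + 8 / 9) :=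
            Real.rpow_le_rpow_of_exponent_le hK1 (by linarith)
          gcongr
      _ = _ := by rw [Real.rpow_add hL0]; ring

end Crest.Agent.R017.Lbc298
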