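import Crest.Agent.R012.NonCubeW_52
import Crest.Agent.R012.Glue1_372
import Crest.Agent.R012.GLS_687
import Crest.Agent.R012.LS2Main_381
import Crest.Agent.R017.LBp_298
import Crest.Agent.R017.HP3_842
import Crest.Agent.R017.TPD_813

/-!
# Row 17, rule HB over complete families (helper411), analytic part

* `gls_all` : `∑_{h ≠ 0, nm h ≤ M} |∑_{n primary} c n sy h n|²`, all `n`, `‖c n‖ ≤ 1`
* `hb_cf`   : the same for a coefficient class `Cf r X`
* `hbG_cf`  : the Gauss side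
-/

set_option autoImplicit false

noncomputable section

open Complex Finset
open scoped BigOperators ComplexConjugate

namespace Crest.Agent.R017.XHB411

open Crest.Agent.R012 Crest.Agent.R012.Eis Crest.Agent.R012.CR290 Crest.Agent.R012.Div277
open Crest.Agent.R012.GLS687 (sqA sqD sq_spec)

/-- the bound over the complete family -/
def HBa (M N : ℝ) : ℝ := M + N * M ^ ((1 : ℝ) / 3) + (M * N) ^ ((2 : ℝ) / 3)

lemma HBa_nonneg {M N : ℝ} (hM : 0 ≤ M) (hN : 0 ≤ N) : 0 ≤ HBa M N := by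
  unfold HBa; positivity

lemma HBa_mono {M N N' : ℝ} (hM : 0 ≤ M) (hN : 0 ≤ N) (h : N ≤ N') : HBa M N ≤ HBa M N' := by
  unfold HBa; gcongr

/-- the complete family, squarefree variable -/
def AllB : Prop := ∀ ε : ℝ, 0 < ε → ∃ K : ℝ, 0 < K ∧ ∀ M N : ℝ, 1 ≤ M → 1 ≤ N →
  ∀ S T : Finset Eis, (∀ h ∈ S, h ≠ 0 ∧ (nm h : ℝ) ≤ M) → IsSF T N → ∀ c : Eis → ℂ,
    ∑ h ∈ S, ‖F T c h‖ ^ 2 ≤ K * (M * N) ^ ε * HBa M N * ∑ n ∈ T, ‖c n‖ ^ 2

theorem allB : AllB := by
  intro ε hε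
  obtain ⟨C, hC, h⟩ := NonCube52.all_bound Sym645.syFacts NonCube52.L1Prop_holds
    (Glue372.HBProp_of_final LS2.hb_final) hε
  refine ⟨C, hC, fun M N hM hN S T hS hT c => ?_⟩
  exact h N M hN hM T hT c S hS

/-- the general large sieve over the complete family -/
theorem gls_all (H : AllB) : ∀ ε : ℝ, 0 < ε → ∃ K : ℝ, 0 < K ∧ ∀ M N : ℝ, 1 ≤ M → 1 ≤ N →
    ∀ S T : Finset Eis, (∀ h ∈ S, h ≠ 0 ∧ (nm h : ℝ) ≤ M) → IsPB T N → ∀ c : Eis → ℂ,
      (∀ n ∈ T, ‖c n‖ ≤ 1) →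
    ∑ h ∈ S, ‖F T c h‖ ^ 2 ≤ K * (M * N) ^ ε * HBa M N * N := by
  classical
  intro ε hε
  obtain ⟨K, hK, HB⟩ := H (ε / 2) (by positivity)
  set κ : ℝ := (100 * (1 + (2 : ℕ) / (ε / 2))) ^ 2 with hκ
  have hκ0 : 0 < κ := by positivity
  refine ⟨100 * K * κ, by positivity, ?_⟩
  intro M N hM hN S T hS hT c hc
  have hM0 : (0 : ℝ) < M := by linarith
  have hN0 : (0 : ℝ) < N := by linarith
  -- the fibres
  set D : Finset Eis := T.image sqD with hD
  set A : Eis → Finset Eis := fun d => (T.filter (fun n => sqD n = d)).image sqA with hA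
  have hDprim : ∀ d ∈ D, IsPrim d := by
    intro d hd
    obtain ⟨n, hn, rfl⟩ := Finset.mem_image.1 hd
    exact (sq_spec (hT n hn).1).2.2.1
  have hnd : ∀ n ∈ T, (nm n : ℝ) = nm (sqA n) * (nm (sqD n) : ℝ) ^ 2 := by
    intro n hn
    have h := (sq_spec (hT n hn).1).2.2.2
    conv_lhs => rw [h]
    rw [nm_mul, nm_pow]
    push_cast
    ring
  have hone : ∀ {x : Eis}, IsPrim x → (1 : ℝ) ≤ nm x := by
    intro x hx
    exact_mod_cast nm_pos.2 hx.ne_zero
  -- each fibre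
  have hF : ∀ h : Eis, F T c h = ∑ d ∈ D, (sy h d) ^ 2 * F (A d) (fun a => c (a * d ^ 2)) h := by
    intro h
    unfold F
    rw [← Finset.sum_fiberwise_of_maps_to (s := T) (t := D) (g := sqD)
      (fun n hn => Finset.mem_image_of_mem _ hn)]
    refine Finset.sum_congr rfl fun d hd => ?_
    rw [Finset.mul_sum]
    rw [hA]
    rw [Finset.sum_image]
    · refine Finset.sum_congr rfl fun n hn => ?_
      obtain ⟨hnT, hnd'⟩ := Finset.mem_filter.1 hn
      obtain ⟨ha, hsq, hdp, he⟩ := sq_spec (hT n hnT).1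
      have h1 : sy h n = sy h (sqA n) * sy h (sqD n) ^ 2 := by
        conv_lhs => rw [he]
        rw [Sym645.sy_mul_right h ha.ne_zero (pow_ne_zero 2 hdp.ne_zero),
          Sym645.sy_pow_right h hdp.ne_zero 2]
      have h2 : c n = c (sqA n * d ^ 2) := by rw [← hnd', ← he]
      show c n * sy h n = sy h d ^ 2 * (c (sqA n * d ^ 2) * sy h (sqA n))
      rw [h1, ← h2, hnd']
      ring
    · intro n hn m hm hnm
      obtain ⟨hnT, hnd'⟩ := Finset.mem_filter.1 hn
      obtain ⟨hmT, hmd'⟩ := Finset.mem_filter.1 hm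
      rw [(sq_spec (hT n hnT).1).2.2.2, (sq_spec (hT m hmT).1).2.2.2, hnm, hnd', hmd']
  -- bound for a fibre
  have hfib : ∀ d ∈ D, ∑ h ∈ S, ‖F (A d) (fun a => c (a * d ^ 2)) h‖ ^ 2 ≤
      K * (M * N) ^ (ε / 2) * HBa M N * (100 * N / (nm d : ℝ) ^ 2) := by
    intro d hd
    have hdp := hDprim d hd
    have hd1 := hone hdp
    set N' : ℝ := N / (nm d : ℝ) ^ 2 with hN'
    have hmemA : ∀ a ∈ A d, IsPrim a ∧ Squarefree a ∧ (nm a : ℝ) ≤ N' ∧ ‖c (a * d ^ 2)‖ ≤ 1 := by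
      intro a ha
      obtain ⟨n, hn, rfl⟩ := Finset.mem_image.1 ha
      obtain ⟨hnT, hnd'⟩ := Finset.mem_filter.1 hn
      obtain ⟨ha, hsq, hdp', he⟩ := sq_spec (hT n hnT).1
      refine ⟨ha, hsq, ?_, ?_⟩
      · rw [hN', le_div_iff₀ (by positivity), ← hnd', ← hnd n hnT]
        exact (hT n hnT).2
      · rw [← hnd', ← he]; exact hc n hnT
    have hN'1 : 1 ≤ N' := by
      obtain ⟨n, hn, hnd'⟩ := Finset.mem_image.1 hd
      rw [hN', le_div_iff₀ (by positivity), one_mul, ← hnd']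
      have h1 := hone (sq_spec (hT n hn).1).1
      have h2 := hnd n hn
      have h3 := (hT n hn).2
      nlinarith [sq_nonneg (nm (sqD n) : ℝ)]
    have hN'N : N' ≤ N := by
      rw [hN']
      apply div_le_self hN0.le
      exact one_le_pow₀ hd1
    have h1 := HB M N' hM hN'1 S (A d) hS
      (fun a ha => ⟨(hmemA a ha).1, (hmemA a ha).2.1, (hmemA a ha).2.2.1⟩)
      (fun a => c (a * d ^ 2))
    have hcard : ((A d).card : ℝ) ≤ 100 * N' := by
      have hsub : A d ⊆ nz ⌊N'⌋₊ := by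
        intro a ha
        obtain ⟨h1, -, h3, -⟩ := hmemA a ha
        exact mem_nz.2 ⟨h1.ne_zero, Nat.le_floor h3⟩
      calc ((A d).card : ℝ) ≤ ((nz ⌊N'⌋₊).card : ℝ) := by exact_mod_cast Finset.card_le_card hsub
        _ ≤ 100 * (⌊N'⌋₊ : ℝ) := card_nz_le _
        _ ≤ 100 * N' := by
            have := Nat.floor_le (show 0 ≤ N' by linarith)
            linarith
    have hsum : ∑ a ∈ A d, ‖c (a * d ^ 2)‖ ^ 2 ≤ 100 * N' := by
      refine (Finset.sum_le_card_nsmul (A d) _ 1 ?_).trans ?_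
      · intro a ha
        exact pow_le_one₀ (norm_nonneg _) (hmemA a ha).2.2.2
      · simpa using hcard
    have hMN : (M * N') ^ (ε / 2) ≤ (M * N) ^ (ε / 2) := by
      apply Real.rpow_le_rpow (by positivity) _ (by positivity)
      gcongr
    have hb : HBa M N' ≤ HBa M N := HBa_mono hM0.le (by linarith) hN'N
    have hb0 : 0 ≤ HBa M N' := HBa_nonneg hM0.le (by linarith)
    calc _ ≤ _ := h1
      _ ≤ K * (M * N) ^ (ε / 2) * HBa M N * (100 * N') := by
          have hb1 : 0 ≤ HBa M N := HBa_nonneg hM0.le hN0.le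
          have hs0 : 0 ≤ ∑ a ∈ A d, ‖c (a * d ^ 2)‖ ^ 2 :=
            Finset.sum_nonneg fun _ _ => by positivity
          refine mul_le_mul ?_ hsum hs0 (by positivity)
          exact mul_le_mul (mul_le_mul_of_nonneg_left hMN hK.le) hb hb0 (by positivity)
      _ = K * (M * N) ^ (ε / 2) * HBa M N * (100 * N / (nm d : ℝ) ^ 2) := by rw [hN']; ring
  -- the sum of 1/nm d
  set L : ℝ := ∑ d ∈ D, 1 / (nm d : ℝ) with hL
  have hL0 : 0 ≤ L := Finset.sum_nonneg fun d _ => by positivity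
  have hLle : L ≤ 100 * (1 + Real.log N) := by
    have hsub : D ⊆ nz ⌊N⌋₊ := by
      intro d hd
      have hdp := hDprim d hd
      refine mem_nz.2 ⟨hdp.ne_zero, Nat.le_floor ?_⟩
      obtain ⟨n, hn, rfl⟩ := Finset.mem_image.1 hd
      have h1 := hone (sq_spec (hT n hn).1).1
      have h2 := hnd n hn
      have h3 := (hT n hn).2
      have h4 := hone hdp
      nlinarith [mul_le_mul h1 (le_refl ((nm (sqD n) : ℝ) ^ 2)) (by positivity) (by linarith)]
    calc L ≤ ∑ d ∈ nz ⌊N⌋₊, 1 / (nm d : ℝ) :=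
          Finset.sum_le_sum_of_subset_of_nonneg hsub fun _ _ _ => by positivity
      _ ≤ 100 * (1 + Real.log (⌊N⌋₊ : ℝ)) := sum_inv_nz_le _
      _ ≤ 100 * (1 + Real.log N) := by
          have h0 : (0 : ℝ) < (⌊N⌋₊ : ℝ) := by
            have := Nat.floor_pos.2 hN
            exact_mod_cast this
          have := Real.log_le_log h0 (Nat.floor_le hN0.le)
          linarith
  have hL2 : L ^ 2 ≤ κ * (M * N) ^ (ε / 2) := by
    calc L ^ 2 ≤ (100 * (1 + Real.log N)) ^ 2 := by gcongr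
      _ ≤ κ * N ^ (ε / 2) := poly_log_le 2 hN (by positivity)
      _ ≤ κ * (M * N) ^ (ε / 2) := by
          gcongr
          nlinarith
  -- Cauchy-Schwarz
  have hCS : ∀ h ∈ S, ‖F T c h‖ ^ 2 ≤
      L * ∑ d ∈ D, (nm d : ℝ) * ‖F (A d) (fun a => c (a * d ^ 2)) h‖ ^ 2 := by
    intro h _
    have h1 : ‖F T c h‖ ≤ ∑ d ∈ D, ‖F (A d) (fun a => c (a * d ^ 2)) h‖ := by
      rw [hF h]
      refine (norm_sum_le _ _).trans (Finset.sum_le_sum fun d hd => ?_)
      rw [norm_mul, norm_pow]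
      have : ‖sy h d‖ ^ 2 ≤ 1 :=
        pow_le_one₀ (norm_nonneg _) (Sym645.norm_sy_le_one (hDprim d hd).nm_mod h)
      nlinarith [norm_nonneg (F (A d) (fun a => c (a * d ^ 2)) h)]
    calc ‖F T c h‖ ^ 2 ≤ (∑ d ∈ D, ‖F (A d) (fun a => c (a * d ^ 2)) h‖) ^ 2 := by gcongr
      _ ≤ (∑ d ∈ D, 1 / (nm d : ℝ)) *
          ∑ d ∈ D, (nm d : ℝ) * ‖F (A d) (fun a => c (a * d ^ 2)) h‖ ^ 2 := by
          apply Finset.sum_sq_le_sum_mul_sum_of_sq_le_mul
          · intro d _; positivity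
          · intro d _; positivity
          · intro d hd
            have := hone (hDprim d hd)
            field_simp
            exact le_rfl
  calc ∑ h ∈ S, ‖F T c h‖ ^ 2
      ≤ ∑ h ∈ S, L * ∑ d ∈ D, (nm d : ℝ) * ‖F (A d) (fun a => c (a * d ^ 2)) h‖ ^ 2 :=
        Finset.sum_le_sum hCS
    _ = L * ∑ d ∈ D, (nm d : ℝ) * ∑ h ∈ S, ‖F (A d) (fun a => c (a * d ^ 2)) h‖ ^ 2 := by
        rw [← Finset.mul_sum, Finset.sum_comm]
        simp only [Finset.mul_sum]
    _ ≤ L * ∑ d ∈ D, (nm d : ℝ) *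
          (K * (M * N) ^ (ε / 2) * HBa M N * (100 * N / (nm d : ℝ) ^ 2)) := by
        gcongr with d hd
        exact hfib d hd
    _ = L * ((100 * K * (M * N) ^ (ε / 2) * HBa M N * N) * L) := by
        congr 1
        rw [hL, Finset.mul_sum]
        refine Finset.sum_congr rfl fun d hd => ?_
        have := hone (hDprim d hd)
        field_simp
    _ = 100 * K * (M * N) ^ (ε / 2) * HBa M N * N * L ^ 2 := by ring
    _ ≤ 100 * K * (M * N) ^ (ε / 2) * HBa M N * N * (κ * (M * N) ^ (ε / 2)) := by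
        have := HBa_nonneg hM0.le hN0.le
        gcongr
    _ = 100 * K * κ * ((M * N) ^ (ε / 2) * (M * N) ^ (ε / 2)) * HBa M N * N := by ring
    _ = 100 * K * κ * (M * N) ^ ε * HBa M N * N := by
        rw [← Real.rpow_add (by positivity), add_halves]

/-! ### coefficient classes -/

open Crest.Agent.R017.CM106 (CS TG)
open Crest.Agent.R017.Lbc298 (Cf one_le_tau_of_prim)
open Crest.Agent.R017.HP842 (KS Kg sqc Th)
open Crest.Agent.R012.LS2 (bl mem_bl)

lemma CS_eq_F {α : Eis → ℂ} (h : CM106.FS α) (k : Eis) :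
    CS α k = F h.fin.toFinset α k := by
  unfold CS F
  refine tsum_eq_sum fun n hn => ?_
  have : α n = 0 := by
    by_contra h0
    exact hn (h.fin.mem_toFinset.2 h0)
  rw [this, zero_mul]

lemma F_smul (T : Finset Eis) (γ : Eis → ℂ) (c : ℂ) (k : Eis) :
    F T (fun n => c * γ n) k = c * F T γ k := by
  unfold F
  rw [Finset.mul_sum]
  exact Finset.sum_congr rfl fun n _ => by ring

/-- **rule HB for a coefficient class, character side, complete family** -/
theorem hb_cf (r : ℕ) {ε : ℝ} (hε : 0 < ε) : ∃ C : ℝ, 1 ≤ C ∧ ∀ (K X : ℝ) (α : Eis → ℂ),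
    1 ≤ K → 1 ≤ X → Cf r X α →
      ∑ k ∈ bl K, ‖CS α k‖ ^ 2 ≤ C * (K * X) ^ ε * HBa K X * X := by
  obtain ⟨Ct, hCt, ht⟩ := tau_le_rpow (ε := ε / (4 * (r + 1))) (by positivity)
  obtain ⟨C0, hC0, h0⟩ := gls_all allB (ε / 2) (by positivity)
  refine ⟨C0 * (Ct ^ r) ^ 2 + 1, ?_, ?_⟩
  · have : 0 ≤ C0 * (Ct ^ r) ^ 2 := by positivity
    linarith
  intro K X α hK hX hα
  have hK0 : 0 < K := by linarith
  have hX0 : 0 < X := by linarith
  set W : ℝ := Ct ^ r * X ^ (ε / 4) with hW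
  have hWpos : 0 < W := by positivity
  have hbd : ∀ n, ‖α n‖ ≤ W := by
    intro n
    by_cases h1 : α n = 0
    · rw [h1, norm_zero]; exact hWpos.le
    have hp := hα.fs.prim n h1
    have hnX := hα.supp n h1
    have hn1 : (1 : ℝ) ≤ nm n := by exact_mod_cast nm_pos.2 hp.ne_zero
    calc ‖α n‖ ≤ (tau n : ℝ) ^ r := hα.bd n
      _ ≤ (Ct * (nm n : ℝ) ^ (ε / (4 * (r + 1)))) ^ r := by
          have := ht n hp.ne_zero
          gcongr
      _ ≤ (Ct * X ^ (ε / (4 * (r + 1)))) ^ r := by gcongr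
      _ = Ct ^ r * X ^ (ε / (4 * (r + 1)) * r) := by
          rw [mul_pow, ← Real.rpow_natCast (X ^ _), ← Real.rpow_mul hX0.le]
      _ ≤ Ct ^ r * X ^ (ε / 4) := by
          refine mul_le_mul_of_nonneg_left ?_ (by positivity)
          refine Real.rpow_le_rpow_of_exponent_le hX ?_
          rw [div_mul_eq_mul_div, div_le_div_iff₀ (by positivity) (by norm_num)]
          nlinarith
  set T : Finset Eis := hα.fs.fin.toFinset with hT
  have hTm : ∀ n ∈ T, α n ≠ 0 := fun n hn => hα.fs.fin.mem_toFinset.1 hn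
  have h1 := h0 K X hK hX (bl K) T (fun h hh => by
      rw [mem_bl hK0.le] at hh; exact hh)
    (fun n hn => ⟨hα.fs.prim n (hTm n hn), hα.supp n (hTm n hn)⟩)
    (fun n => (W : ℂ)⁻¹ * α n) (fun n _ => by
      rw [norm_mul, norm_inv, Complex.norm_real, Real.norm_of_nonneg hWpos.le]
      rw [inv_mul_le_iff₀ hWpos, mul_one]
      exact hbd n)
  have hWc : (W : ℂ) ≠ 0 := by exact_mod_cast hWpos.ne'
  have e1 : ∀ k, ‖CS α k‖ ^ 2 = W ^ 2 * ‖F T (fun n => (W : ℂ)⁻¹ * α n) k‖ ^ 2 := by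
    intro k
    rw [F_smul, norm_mul, norm_inv, Complex.norm_real, Real.norm_of_nonneg hWpos.le,
      CS_eq_F hα.fs]
    have hW1 := hWpos.ne'
    generalize ‖F hα.fs.fin.toFinset α k‖ = f
    clear_value W
    field_simp
  rw [Finset.sum_congr rfl fun k _ => e1 k, ← Finset.mul_sum]
  have hH : 0 ≤ HBa K X := HBa_nonneg hK0.le hX0.le
  calc W ^ 2 * ∑ k ∈ bl K, ‖F T (fun n => (W : ℂ)⁻¹ * α n) k‖ ^ 2
      ≤ W ^ 2 * (C0 * (K * X) ^ (ε / 2) * HBa K X * X) := by gcongr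
    _ = C0 * (Ct ^ r) ^ 2 * ((K * X) ^ (ε / 2) * (X ^ (ε / 4) * X ^ (ε / 4))) * HBa K X * X := by
        rw [hW]; ring
    _ ≤ C0 * (Ct ^ r) ^ 2 * ((K * X) ^ (ε / 2) * (K * X) ^ (ε / 2)) * HBa K X * X := by
        have e2 : X ^ (ε / 4) * X ^ (ε / 4) ≤ (K * X) ^ (ε / 2) := by
          rw [← Real.rpow_add hX0]
          have : ε / 4 + ε / 4 = ε / 2 := by ring
          rw [this]
          apply Real.rpow_le_rpow hX0.le _ (by positivity)
          nlinarith
        gcongr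
    _ = C0 * (Ct ^ r) ^ 2 * (K * X) ^ ε * HBa K X * X := by
        rw [← Real.rpow_add (by positivity), add_halves]
    _ ≤ (C0 * (Ct ^ r) ^ 2 + 1) * (K * X) ^ ε * HBa K X * X := by
        have h5 : 0 ≤ (K * X) ^ ε * HBa K X * X := by positivity
        nlinarith

/-- conjugation -/
lemma KS_Kg_conj (α : Eis → ℂ) (k : Eis) :
    KS Kg α k = conj (CS (fun n => conj (α n * G n)) k) := by
  unfold KS CS Kg
  rw [Complex.conj_tsum]
  refine tsum_congr fun n => ?_
  simp only [map_mul, Complex.conj_conj]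
  ring

lemma Cf_conj {r : ℕ} {X : ℝ} {α : Eis → ℂ} (h : Cf r X α) : Cf r X (fun n => conj (α n)) where
  fs :=
    { fin := h.fs.fin.subset fun n hn h0 => hn (by
        have h0' : α n = 0 := h0
        simp [h0'])
      prim := fun n hn => h.fs.prim n fun h0 => hn (by rw [h0, map_zero]) }
  supp := fun n hn => h.supp n fun h0 => hn (by rw [h0, map_zero])
  bd := fun n => by rw [RCLike.norm_conj]; exact h.bd n

/-- **rule HB, Gauss side, complete family** -/
theorem hbG_cf (r : ℕ) {ε : ℝ} (hε : 0 < ε) : ∃ C : ℝ, 1 ≤ C ∧ ∀ (K X : ℝ) (α : Eis → ℂ),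
    1 ≤ K → 1 ≤ X → Cf r X α →
      ∑ k ∈ bl K, ‖KS Kg α k‖ ^ 2 ≤ C * (K * X) ^ ε * HBa K X * X := by
  obtain ⟨C, hC, h⟩ := hb_cf r hε
  refine ⟨C, hC, fun K X α hK hX hα => ?_⟩
  have h1 := h K X (fun n => conj (α n * G n)) hK hX
    (Cf_conj (hα.mul_le fun n hn => Gauss880.norm_G_le Gauss880.syG hn))
  refine le_trans (le_of_eq ?_) h1
  refine Finset.sum_congr rfl fun k _ => ?_
  rw [KS_Kg_conj, RCLike.norm_conj]

lemma Cf_sqc {r : ℕ} {X : ℝ} {α : Eis → ℂ} (h : Cf r X α) (q : Eis) : Cf r X (sqc q α) := by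
  have h1 := h.mul_le (g := Th q) (fun n _ => by unfold Th; split_ifs <;> simp)
  have e : sqc q α = fun n => α n * Th q n := by
    funext n; unfold HP842.sqc; ring
  rw [e]
  exact h1

lemma Cf_conv {r r' : ℕ} {X X' : ℝ} (hX' : 0 ≤ X') {α β : Eis → ℂ} (h : Cf r X α) (h' : Cf r' X' β) :
    Cf (r + r' + 1) (X * X') (TP320.conv α β) where
  fs := TPD813.fs_conv h.fs h'.fs
  supp := fun n hn => by
    unfold TP320.conv at hn
    obtain ⟨d, hd, hne⟩ := Finset.exists_ne_zero_of_sum_ne_zero hn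
    have h1 := h.supp d (left_ne_zero_of_mul hne)
    have h2 := h'.supp (n / d) (right_ne_zero_of_mul hne)
    have e : (nm n : ℝ) = nm d * nm (n / d) := by
      rw [← Nat.cast_mul, ← nm_mul, TP320.mul_div_of_mem hd]
    rw [e]
    exact mul_le_mul h1 h2 (Nat.cast_nonneg _) (le_trans (Nat.cast_nonneg _) h1)
  bd := fun n => by
    by_cases h0 : TP320.conv α β n = 0
    · rw [h0, norm_zero]; positivity
    have hn : IsPrim n := (TPD813.fs_conv h.fs h'.fs).prim n h0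
    have ht := one_le_tau_of_prim hn
    unfold TP320.conv
    refine (norm_sum_le _ _).trans ?_
    calc ∑ d ∈ dvs n, ‖α d * β (n / d)‖ ≤ ∑ _d ∈ dvs n, (tau n : ℝ) ^ (r + r') := by
          refine Finset.sum_le_sum fun d hd => ?_
          rw [norm_mul, pow_add]
          have hd1 : d ∣ n := dvd_of_mem_dvs hd
          have hd2 : n / d ∣ n := ⟨d, by rw [mul_comm]; exact (TP320.mul_div_of_mem hd).symm⟩
          have t1 : (tau d : ℝ) ≤ tau n := by exact_mod_cast tau_le_of_dvd hn.ne_zero hd1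
          have t2 : (tau (n / d) : ℝ) ≤ tau n := by exact_mod_cast tau_le_of_dvd hn.ne_zero hd2
          refine mul_le_mul ((h.bd d).trans ?_) ((h'.bd _).trans ?_) (norm_nonneg _) (by positivity)
          · gcongr
          · gcongr
      _ = (tau n : ℝ) * (tau n : ℝ) ^ (r + r') := by
          rw [Finset.sum_const, nsmul_eq_mul]
          congr 1
      _ = _ := by ring

end Crest.Agent.R017.XHB411
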