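import Crest.Agent.R017.P1j_54
import Crest.Agent.R017.XHB1_411
import Crest.Agent.R017.HPL_842
import Crest.Agent.R017.E5L2_770

/-!
# Row 17, R8/P1 at list level, part 6 (helper54)

* `al_sum` : the sequence of a family on `Fin m ⊕ Fin n` as a typed list
* `hb_sqc` : the cubic large sieve over the complete family for the sequence of a family
* `wM` : the smooth majorant of `[e^{-R}, e^R]`, `wgt_wM`
* `uM` : the weight, `errF_le` : `ErrF` by the second moment with the weight `uM`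
-/

set_option autoImplicit false

noncomputable section

open Finset
open scoped ComplexConjugate ContDiff

namespace Crest.Agent.R017.P1k54

open Crest.Agent.R012 Crest.Agent.R012.Eis Crest.Agent.R012.Div277
open Crest.Agent.R012.Mob705 hiding pb mem_pb
open Crest.Agent.R012.LS2 (S mem_S bl mem_bl)
open Crest.Agent.R017.CM106 Crest.Agent.R017.C70
open Crest.Agent.R017.FE47 (PU cx)
open Crest.Agent.R017.StD828 (ln Tm)
open Crest.Agent.R017.E2440 (TE StE)
open Crest.Agent.R017.E5k54 (PT)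
open Crest.Agent.R017.P1e54 Crest.Agent.R017.P1f54 Crest.Agent.R017.P1i54 Crest.Agent.R017.P1j54
open Crest.Agent.R017.SSb54 (SST SSb PTb mem_PTb PTb_sub)
open Crest.Agent.R017.HP842 (Pc pc al alL cv Tu mem_Tu sqc Th)
open Crest.Agent.R017.XHB411 (HBa hb_cf)
open Crest.Agent.R017.Lbc298 (Cf)

/-! ### lists -/

theorem cv_equiv {I J : Type*} [Fintype I] [DecidableEq I] [Fintype J] [DecidableEq J]
    (e : J ≃ I) (f : I → Eis → ℂ) (n : Eis) : cv (fun j => f (e j)) n = cv f n := by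
  classical
  unfold cv
  refine sum_bij' (fun x _ => fun i => x (e.symm i)) (fun y _ => fun j => y (e j)) ?_ ?_ ?_ ?_ ?_
  · intro x hx
    rw [mem_Tu] at hx ⊢
    exact ⟨fun i => hx.1 _, by rw [← hx.2]; exact Equiv.prod_comp e.symm x⟩
  · intro y hy
    rw [mem_Tu] at hy ⊢
    exact ⟨fun i => hy.1 _, by rw [← hy.2]; exact Equiv.prod_comp e y⟩
  · intro x _
    funext j
    simp
  · intro y _
    funext i
    simp
  · intro x _
    rw [← Equiv.prod_comp e]
    refine prod_congr rfl fun j _ => ?_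
    simp

theorem al_sum (h : ℝ → ℝ) {m n : ℕ} (s : Fin m ⊕ Fin n → Pc) :
    al h s = alL h ((List.ofFn fun j => s (.inr j)) ++ List.ofFn fun i => s (.inl i)) := by
  have h1 : al h s = al h (fun i : Fin (m + n) => s (finSumFinEquiv.symm i)) := by
    funext x
    unfold al
    exact (cv_equiv finSumFinEquiv.symm (fun i => pc h (s i)) x).symm
  rw [h1, HP842.al_eq, List.ofFn_add]
  have h2 : (List.ofFn fun i : Fin m => s (finSumFinEquiv.symm (Fin.castAdd n i))) =
      List.ofFn fun i => s (.inl i) := by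
    congr 1
    funext i
    rw [finSumFinEquiv_symm_apply_castAdd]
  have h3 : (List.ofFn fun i : Fin n => s (finSumFinEquiv.symm (Fin.natAdd m i))) =
      List.ofFn fun j => s (.inr j) := by
    congr 1
    funext i
    rw [finSumFinEquiv_symm_apply_natAdd]
  refine (congrArg (alL h) (congrArg₂ (· ++ ·) h2 h3)).trans ?_
  exact Prov71.alL_perm h List.perm_append_comm

/-! ### the cubic large sieve -/

section HB

variable {I : Type*} [Fintype I] [DecidableEq I]

lemma Cf_sqc_al {h : ℝ → ℝ} {R H0 : ℝ} (hH0 : 0 < H0) (hH : ∀ u, ‖cx h u‖ ≤ H0)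
    (hR : ∀ u, cx h u ≠ 0 → |u| ≤ R) {s : I → Pc} (hs : ∀ i, (s i).OK) {N : ℝ}
    (hN : ∏ i, ((s i).Y * Real.exp R) ≤ N) :
    Cf (Fintype.card I) N
      (fun n => (((H0⁻¹ : ℝ) : ℂ) ^ Fintype.card I) * sqc 1 (al h s) n) := by
  classical
  have hsup : ∀ i m, pc h (s i) m ≠ 0 → IsPrim m ∧ (nm m : ℝ) ≤ (s i).Y * Real.exp R :=
    fun i m hm => by
      refine ⟨?_, supp_pc hR (hs i).Y0 hm⟩
      by_contra h0
      exact hm (by unfold pc; rw [if_neg h0])
  have hc0 : (((H0⁻¹ : ℝ) : ℂ) ^ Fintype.card I) ≠ 0 := by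
    apply pow_ne_zero
    exact_mod_cast (inv_pos.2 hH0).ne'
  have hnm : ∀ n, sqc 1 (al h s) n ≠ 0 → IsPrim n ∧ (nm n : ℝ) ≤ N := by
    intro n hn
    have h1 : cv (fun i => pc h (s i)) n ≠ 0 := right_ne_zero_of_mul hn
    unfold cv at h1
    obtain ⟨x, hx, hx0⟩ := Finset.exists_ne_zero_of_sum_ne_zero h1
    rw [mem_Tu] at hx
    rw [← hx.2]
    have h2 := fun i => hsup i _ (Finset.prod_ne_zero_iff.1 hx0 i (mem_univ i))
    refine ⟨E554.isPrim_prod fun i _ => (h2 i).1, le_trans ?_ hN⟩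
    rw [E554.nm_prod]
    push_cast
    exact prod_le_prod (fun i _ => Nat.cast_nonneg _) fun i _ => (h2 i).2
  refine ⟨?_, fun n hn => (hnm n (right_ne_zero_of_mul hn)).2, fun n => ?_⟩
  · have h1 := FS_sqc_al hR hs (1 : Eis)
    exact ⟨h1.fin.subset fun n hn => right_ne_zero_of_mul hn,
      fun n hn => (hnm n (right_ne_zero_of_mul hn)).1⟩
  · rw [norm_mul, norm_pow, Complex.norm_real, Real.norm_of_nonneg (by positivity)]
    have h1 : ‖sqc 1 (al h s) n‖ ≤ (tau n : ℝ) ^ Fintype.card I * H0 ^ Fintype.card I := by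
      show ‖Th 1 n * cv (fun i => pc h (s i)) n‖ ≤ _
      rw [norm_mul]
      have h1 : ‖Th 1 n‖ ≤ 1 := by
        unfold Th
        split_ifs <;> simp
      refine (mul_le_of_le_one_left (norm_nonneg _) h1).trans ?_
      unfold cv
      refine (norm_sum_le _ _).trans ?_
      calc ∑ x ∈ Tu I n, ‖∏ i, pc h (s i) (x i)‖ ≤ ∑ _x ∈ Tu I n, H0 ^ Fintype.card I := by
            refine sum_le_sum fun x _ => ?_
            rw [norm_prod]
            calc ∏ i, ‖pc h (s i) (x i)‖ ≤ ∏ _i : I, H0 :=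
                  prod_le_prod (fun i _ => norm_nonneg _) fun i _ =>
                    norm_pc_le' hH0.le hH (hs i) _
              _ = H0 ^ Fintype.card I := by rw [prod_const, card_univ]
        _ = ((Tu I n).card : ℝ) * H0 ^ Fintype.card I := by rw [sum_const, nsmul_eq_mul]
        _ ≤ _ := by
            refine mul_le_mul_of_nonneg_right ?_ (by positivity)
            exact_mod_cast HP842.card_Tu_le (ι := I) n
    calc H0⁻¹ ^ Fintype.card I * ‖sqc 1 (al h s) n‖
        ≤ H0⁻¹ ^ Fintype.card I * ((tau n : ℝ) ^ Fintype.card I * H0 ^ Fintype.card I) :=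
          mul_le_mul_of_nonneg_left h1 (by positivity)
      _ = (tau n : ℝ) ^ Fintype.card I * (H0⁻¹ ^ Fintype.card I * H0 ^ Fintype.card I) := by ring
      _ = _ := by rw [← mul_pow, inv_mul_cancel₀ hH0.ne', one_pow, mul_one]

end HB

/-- **the cubic large sieve for the sequence of a family** -/
theorem hb_sqc {h : ℝ → ℝ} {c : ℝ} (hpu : PU h c) {R : ℝ} (hR : ∀ u, cx h u ≠ 0 → |u| ≤ R)
    (n : ℕ) {ε : ℝ} (hε : 0 < ε) : ∃ C : ℝ, 0 ≤ C ∧ ∀ (I : Type) [Fintype I] [DecidableEq I],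
      Fintype.card I ≤ n → ∀ (s : I → Pc), (∀ i, (s i).OK) → ∀ K N : ℝ, 1 ≤ K → 1 ≤ N →
      ∏ i, ((s i).Y * Real.exp R) ≤ N →
      ∑ k ∈ bl K, ‖CS (sqc 1 (al h s)) k‖ ^ 2 ≤ C * (K * N) ^ ε * (HBa K N * N) := by
  obtain ⟨H1, hH1⟩ := (FE47.cs_cx hpu.cs).exists_bound_of_continuous (FE47.cd_cx hpu.cd).continuous
  set H0 : ℝ := max 1 H1 with hH0d
  have hH01 : 1 ≤ H0 := le_max_left _ _
  have hH0 : 0 < H0 := by linarith
  have hH : ∀ u, ‖cx h u‖ ≤ H0 := fun u => (hH1 u).trans (le_max_right _ _)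
  obtain ⟨C, hC, hb⟩ := hb_cf n hε
  refine ⟨(H0 ^ n) ^ 2 * C, by positivity, fun I _ _ hI s hs K N hK hN hsN => ?_⟩
  have h1 := hb K N _ hK hN ((Cf_sqc_al hH0 hH hR hs hsN).mono hI le_rfl)
  have e1 : ∀ k, ‖CS (sqc 1 (al h s)) k‖ ^ 2 = (H0 ^ Fintype.card I) ^ 2 *
      ‖CS (fun x => (((H0⁻¹ : ℝ) : ℂ) ^ Fintype.card I) * sqc 1 (al h s) x) k‖ ^ 2 := by
    intro k
    have h9 : H0 ^ Fintype.card I * H0⁻¹ ^ Fintype.card I = 1 := by
      rw [← mul_pow, mul_inv_cancel₀ hH0.ne', one_pow]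
    rw [TPD813.CS_smul, norm_mul, norm_pow, Complex.norm_real, Real.norm_of_nonneg (by positivity),
      ← mul_pow, ← mul_assoc, h9, one_mul]
  rw [Finset.sum_congr rfl fun k _ => e1 k, ← Finset.mul_sum]
  have hH0m : (H0 ^ Fintype.card I) ^ 2 ≤ (H0 ^ n) ^ 2 :=
    pow_le_pow_left₀ (by positivity) (pow_le_pow_right₀ hH01 hI) 2
  calc _ ≤ (H0 ^ n) ^ 2 * (C * (K * N) ^ ε * HBa K N * N) :=
        mul_le_mul hH0m h1 (Finset.sum_nonneg fun _ _ => by positivity) (by positivity)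
    _ = _ := by ring

/-! ### the majorant -/

/-- the smooth majorant -/
def wM (R x : ℝ) : ℝ := Real.smoothTransition ((x - Real.exp (-R) / 2) / (Real.exp (-R) / 2)) *
  Real.smoothTransition ((2 * Real.exp R - x) / Real.exp R)

lemma wM_nonneg (R x : ℝ) : 0 ≤ wM R x :=
  mul_nonneg (Real.smoothTransition.nonneg _) (Real.smoothTransition.nonneg _)

lemma wM_le_one (R x : ℝ) : wM R x ≤ 1 :=
  mul_le_one₀ (Real.smoothTransition.le_one _) (Real.smoothTransition.nonneg _)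
    (Real.smoothTransition.le_one _)

lemma wM_eq_one {R x : ℝ} (h1 : Real.exp (-R) ≤ x) (h2 : x ≤ Real.exp R) : wM R x = 1 := by
  have e1 := Real.exp_pos (-R)
  have e2 := Real.exp_pos R
  unfold wM
  rw [Real.smoothTransition.one_of_one_le, Real.smoothTransition.one_of_one_le, mul_one]
  · rw [le_div_iff₀ e2]; linarith
  · rw [le_div_iff₀ (by positivity)]; linarith

lemma wM_supp {R x : ℝ} (h : wM R x ≠ 0) : Real.exp (-R) / 2 < x ∧ x < 2 * Real.exp R := by
  have e1 := Real.exp_pos (-R)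
  have e2 := Real.exp_pos R
  constructor
  · by_contra h1
    push Not at h1
    apply h
    unfold wM
    rw [Real.smoothTransition.zero_of_nonpos, zero_mul]
    exact div_nonpos_of_nonpos_of_nonneg (by linarith) (by positivity)
  · by_contra h1
    push Not at h1
    apply h
    unfold wM
    rw [Real.smoothTransition.zero_of_nonpos (x := (2 * Real.exp R - x) / Real.exp R), mul_zero]
    exact div_nonpos_of_nonpos_of_nonneg (by linarith) e2.le

theorem wgt_wM (R : ℝ) : Crest.Agent.R012.MC.Wgt (wM R) where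
  smooth := by
    unfold wM
    exact ((Real.smoothTransition.contDiff.comp (by fun_prop)).mul
      (Real.smoothTransition.contDiff.comp (by fun_prop)))
  cpt := by
    refine HasCompactSupport.intro (isCompact_Icc (a := Real.exp (-R) / 2) (b := 2 * Real.exp R))
      fun x hx => ?_
    by_contra h
    obtain ⟨h1, h2⟩ := wM_supp h
    exact hx ⟨h1.le, h2.le⟩
  pos := by
    have h1 : tsupport (wM R) ⊆ Set.Icc (Real.exp (-R) / 2) (2 * Real.exp R) :=
      closure_minimal (fun x hx => ⟨(wM_supp hx).1.le, (wM_supp hx).2.le⟩) isClosed_Icc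
    exact h1.trans fun x hx => lt_of_lt_of_le (by positivity) hx.1

open Classical in
/-- **the weight**: family `K`, cut `E₁` -/
def uM (R K E₁ : ℝ) (k : Eis) : ℝ :=
  if IsPrim k ∧ E5B71.cutE E₁ k then wM R (nm k / K) else 0

lemma uM_nonneg (R K E₁ : ℝ) (k : Eis) : 0 ≤ uM R K E₁ k := by
  unfold uM
  split_ifs
  · exact wM_nonneg _ _
  · exact le_rfl

lemma uM_le_one (R K E₁ : ℝ) (k : Eis) : uM R K E₁ k ≤ 1 := by
  unfold uM
  split_ifs
  · exact wM_le_one _ _
  · exact zero_le_one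

lemma uM_supp {R K E₁ : ℝ} (hK : 0 < K) {k : Eis} (h : uM R K E₁ k ≠ 0) :
    IsPrim k ∧ (nm k : ℝ) ≤ 2 * Real.exp R * K := by
  unfold uM at h
  split_ifs at h with h1
  · refine ⟨h1.1, ?_⟩
    have h2 := (wM_supp h).2
    rw [div_lt_iff₀ hK] at h2
    exact h2.le
  · exact absurd rfl h

lemma uM_fin {R K E₁ : ℝ} (hK : 0 < K) : (Function.support (uM R K E₁)).Finite :=
  ((primBall ⌊2 * Real.exp R * K⌋₊).finite_toSet).subset fun k hk => by
    obtain ⟨h1, h2⟩ := uM_supp hK hk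
    exact mem_coe.2 (mem_primBall.2 ⟨(Nat.le_floor_iff (by positivity)).2 h2, h1⟩)

/-- sums over the range are bounded by the second moment -/
theorem sum_le_M2 {R K E₁ : ℝ} (hK : 0 < K) {T : Finset Eis} (hT : ∀ k ∈ T, IsPrim k ∧
    E5B71.cutE E₁ k ∧ Real.exp (-R) * K ≤ nm k ∧ (nm k : ℝ) ≤ Real.exp R * K) (F : Eis → ℂ) :
    ∑ k ∈ T, ‖F k‖ ^ 2 ≤ M2 (uM R K E₁) F := by
  have h1 : ∀ k ∈ T, ‖F k‖ ^ 2 = uM R K E₁ k * ‖F k‖ ^ 2 := by
    intro k hk
    obtain ⟨h1, h2, h3, h4⟩ := hT k hk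
    unfold uM
    rw [if_pos ⟨h1, h2⟩, wM_eq_one, one_mul]
    · rw [le_div_iff₀ hK]; exact h3
    · rw [div_le_iff₀ hK]; exact h4
  rw [sum_congr rfl h1]
  exact (summ_u (uM_fin hK) fun k => ‖F k‖ ^ 2).sum_le_tsum T
    fun k _ => mul_nonneg (uM_nonneg _ _ _ _) (sq_nonneg _)

/-- the second moment by the sum over the ball -/
theorem M2_le_bl {R K E₁ : ℝ} (hK : 0 < K) (F : Eis → ℂ) :
    M2 (uM R K E₁) F ≤ ∑ k ∈ bl (2 * Real.exp R * K), ‖F k‖ ^ 2 := by
  unfold M2
  rw [tsum_eq_sum (s := bl (2 * Real.exp R * K)) (fun k hk => by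
    by_contra h
    obtain ⟨h1, h2⟩ := uM_supp hK (left_ne_zero_of_mul h)
    exact hk ((mem_bl (by positivity)).2 ⟨h1.ne_zero, h2⟩))]
  refine sum_le_sum fun k _ => ?_
  exact mul_le_of_le_one_left (sq_nonneg _) (uM_le_one _ _ _ _)

end Crest.Agent.R017.P1k54
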