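import Mathlib

/-!
# Row 17: exponent framework (helper71), part 1

`Ex sz Ψ p e` : robust upper exponent of a functional `Ψ a L` (auxiliary data `a` of size `sz a`,
lengths `L = X^q`) at the exponent vector `p`.
-/

set_option autoImplicit false

noncomputable section

open Set Filter Topology

namespace Crest.Agent.R017.XF71

variable {A B ι κ : Type*}

/-- the vector of lengths `X^{q_i}` -/
def pw (X : ℝ) (q : ι → ℝ) : ι → ℝ := fun i => X ^ (q i)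

/-- coordinatewise closeness -/
def Nr (δ : ℝ) (q p : ι → ℝ) : Prop := ∀ i, |q i - p i| ≤ δ

/-- nonnegative vectors -/
def NN (q : ι → ℝ) : Prop := ∀ i, 0 ≤ q i

/-- robust upper exponent -/
def Ex (sz : A → ℝ) (Ψ : A → (ι → ℝ) → ℝ) (p : ι → ℝ) (e : ℝ) : Prop :=
  ∀ ε : ℝ, 0 < ε → ∃ δ : ℝ, 0 < δ ∧ ∃ X₀ : ℝ, 1 < X₀ ∧ ∀ X : ℝ, X₀ ≤ X → ∀ a : A, sz a ≤ X ^ δ →
    ∀ q : ι → ℝ, NN q → Nr δ q p → Ψ a (pw X q) ≤ X ^ (e + ε)

theorem Nr.mono {δ δ' : ℝ} {q p : ι → ℝ} (h : Nr δ q p) (hd : δ ≤ δ') : Nr δ' q p :=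
  fun i => (h i).trans hd

theorem Nr.refl {δ : ℝ} (hδ : 0 ≤ δ) (p : ι → ℝ) : Nr δ p p := fun i => by simpa using hδ

theorem Nr.symm {δ : ℝ} {q p : ι → ℝ} (h : Nr δ q p) : Nr δ p q := fun i => by
  rw [abs_sub_comm]; exact h i

theorem Nr.trans {δ δ' : ℝ} {q p r : ι → ℝ} (h : Nr δ q p) (h' : Nr δ' p r) : Nr (δ + δ') q r :=
  fun i => by
    have := abs_sub_le (q i) (p i) (r i)
    linarith [h i, h' i]

theorem Ex.mono {sz : A → ℝ} {Ψ : A → (ι → ℝ) → ℝ} {p : ι → ℝ} {e e' : ℝ} (h : Ex sz Ψ p e)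
    (he : e ≤ e') : Ex sz Ψ p e' := by
  intro ε hε
  obtain ⟨δ, hδ, X₀, hX₀, H⟩ := h ε hε
  refine ⟨δ, hδ, X₀, hX₀, fun X hX a ha q hq hn => (H X hX a ha q hq hn).trans ?_⟩
  exact Real.rpow_le_rpow_of_exponent_le (by linarith) (by linarith)

theorem Ex.of_forall {sz : A → ℝ} {Ψ : A → (ι → ℝ) → ℝ} {p : ι → ℝ} {e : ℝ}
    (h : ∀ e' : ℝ, e < e' → Ex sz Ψ p e') : Ex sz Ψ p e := by
  intro ε hε
  obtain ⟨δ, hδ, X₀, hX₀, H⟩ := h (e + ε / 2) (by linarith) (ε / 2) (by linarith)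
  refine ⟨δ, hδ, X₀, hX₀, fun X hX a ha q hq hn => (H X hX a ha q hq hn).trans ?_⟩
  exact Real.rpow_le_rpow_of_exponent_le (by linarith) (by linarith)

/-- changing the functional (pointwise comparison with arbitrary small power losses). -/
theorem Ex.comp {sz : A → ℝ} {Ψ Φ : A → (ι → ℝ) → ℝ} {p : ι → ℝ} {e e' : ℝ}
    (h : Ex sz Φ p e)
    (H : ∀ ε : ℝ, 0 < ε → ∃ δ : ℝ, 0 < δ ∧ ∃ X₀ : ℝ, 1 < X₀ ∧ ∀ X : ℝ, X₀ ≤ X → ∀ a : A,
      sz a ≤ X ^ δ → ∀ q : ι → ℝ, NN q → Nr δ q p →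
        Ψ a (pw X q) ≤ X ^ (e' - e + ε) * Φ a (pw X q)) :
    Ex sz Ψ p e' := by
  intro ε hε
  obtain ⟨δ, hδ, X₀, hX₀, H1⟩ := h (ε / 2) (by linarith)
  obtain ⟨δ', hδ', X₁, hX₁, H2⟩ := H (ε / 2) (by linarith)
  refine ⟨min δ δ', lt_min hδ hδ', max X₀ X₁, lt_of_lt_of_le hX₀ (le_max_left _ _), ?_⟩
  intro X hX a ha q hq hn
  have hX0 : X₀ ≤ X := (le_max_left _ _).trans hX
  have hX1 : X₁ ≤ X := (le_max_right _ _).trans hX
  have hXone : (1 : ℝ) ≤ X := by linarith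
  have hXpos : (0 : ℝ) < X := by linarith
  have ha1 : sz a ≤ X ^ δ :=
    ha.trans (Real.rpow_le_rpow_of_exponent_le hXone (min_le_left _ _))
  have ha2 : sz a ≤ X ^ δ' :=
    ha.trans (Real.rpow_le_rpow_of_exponent_le hXone (min_le_right _ _))
  have h1 := H1 X hX0 a ha1 q hq (hn.mono (min_le_left _ _))
  have h2 := H2 X hX1 a ha2 q hq (hn.mono (min_le_right _ _))
  calc Ψ a (pw X q) ≤ X ^ (e' - e + ε / 2) * Φ a (pw X q) := h2
    _ ≤ X ^ (e' - e + ε / 2) * X ^ (e + ε / 2) :=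
        mul_le_mul_of_nonneg_left h1 (Real.rpow_nonneg hXpos.le _)
    _ = X ^ (e' + ε) := by rw [← Real.rpow_add hXpos]; congr 1; ring

/-- constants are absorbed -/
theorem const_le_rpow {C ε : ℝ} (hε : 0 < ε) : ∃ X₀ : ℝ, 1 < X₀ ∧ ∀ X : ℝ, X₀ ≤ X → C ≤ X ^ ε := by
  have h := (tendsto_rpow_atTop hε).eventually_ge_atTop C
  obtain ⟨X₀, hX₀⟩ := (h.and (eventually_gt_atTop 1)).exists_forall_of_atTop
  exact ⟨max X₀ 2, by simp, fun X hX => (hX₀ X ((le_max_left _ _).trans hX)).1⟩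

/-- sums -/
theorem Ex.add {sz : A → ℝ} {Ψ Φ : A → (ι → ℝ) → ℝ} {p : ι → ℝ} {e : ℝ}
    (h : Ex sz Ψ p e) (h' : Ex sz Φ p e) : Ex sz (fun a L => Ψ a L + Φ a L) p e := by
  intro ε hε
  obtain ⟨δ, hδ, X₀, hX₀, H1⟩ := h (ε / 2) (by linarith)
  obtain ⟨δ', hδ', X₁, hX₁, H2⟩ := h' (ε / 2) (by linarith)
  obtain ⟨X₂, hX₂, H3⟩ := const_le_rpow (C := 2) (ε := ε / 2) (by linarith)
  refine ⟨min δ δ', lt_min hδ hδ', max X₂ (max X₀ X₁), lt_of_lt_of_le hX₂ (le_max_left _ _), ?_⟩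
  intro X hX a ha q hq hn
  have hX2 : X₂ ≤ X := (le_max_left _ _).trans hX
  have hX0 : X₀ ≤ X := (le_max_left _ _).trans ((le_max_right _ _).trans hX)
  have hX1 : X₁ ≤ X := (le_max_right _ _).trans ((le_max_right _ _).trans hX)
  have hXone : (1 : ℝ) ≤ X := by linarith
  have hXpos : (0 : ℝ) < X := by linarith
  have h1 := H1 X hX0 a (ha.trans (Real.rpow_le_rpow_of_exponent_le hXone (min_le_left _ _)))
    q hq (hn.mono (min_le_left _ _))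
  have h2 := H2 X hX1 a (ha.trans (Real.rpow_le_rpow_of_exponent_le hXone (min_le_right _ _)))
    q hq (hn.mono (min_le_right _ _))
  have h3 := H3 X hX2
  have hp : 0 ≤ X ^ (e + ε / 2) := Real.rpow_nonneg hXpos.le _
  calc Ψ a (pw X q) + Φ a (pw X q) ≤ 2 * X ^ (e + ε / 2) := by linarith
    _ ≤ X ^ (ε / 2) * X ^ (e + ε / 2) := mul_le_mul_of_nonneg_right h3 hp
    _ = X ^ (e + ε) := by rw [← Real.rpow_add hXpos]; congr 1; ring

/-- products -/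
theorem Ex.mul {sz : A → ℝ} {Ψ Φ : A → (ι → ℝ) → ℝ} {p : ι → ℝ} {e f : ℝ}
    (hnn : ∀ a L, 0 ≤ Φ a L)
    (h : Ex sz Ψ p e) (h' : Ex sz Φ p f) : Ex sz (fun a L => Ψ a L * Φ a L) p (e + f) := by
  intro ε hε
  obtain ⟨δ, hδ, X₀, hX₀, H1⟩ := h (ε / 2) (by linarith)
  obtain ⟨δ', hδ', X₁, hX₁, H2⟩ := h' (ε / 2) (by linarith)
  refine ⟨min δ δ', lt_min hδ hδ', max X₀ X₁, lt_of_lt_of_le hX₀ (le_max_left _ _), ?_⟩
  intro X hX a ha q hq hn
  have hX0 : X₀ ≤ X := (le_max_left _ _).trans hX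
  have hX1 : X₁ ≤ X := (le_max_right _ _).trans hX
  have hXone : (1 : ℝ) ≤ X := by linarith
  have hXpos : (0 : ℝ) < X := by linarith
  have h1 := H1 X hX0 a (ha.trans (Real.rpow_le_rpow_of_exponent_le hXone (min_le_left _ _)))
    q hq (hn.mono (min_le_left _ _))
  have h2 := H2 X hX1 a (ha.trans (Real.rpow_le_rpow_of_exponent_le hXone (min_le_right _ _)))
    q hq (hn.mono (min_le_right _ _))
  calc Ψ a (pw X q) * Φ a (pw X q) ≤ X ^ (e + ε / 2) * X ^ (f + ε / 2) :=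
        mul_le_mul h1 h2 (hnn _ _) (Real.rpow_nonneg hXpos.le _)
    _ = X ^ (e + f + ε) := by rw [← Real.rpow_add hXpos]; congr 1; ring

/-! ### homogeneity -/

theorem pw_rpow {X : ℝ} (hX : 0 ≤ X) (l : ℝ) (q : ι → ℝ) :
    pw (X ^ l) q = pw X (fun i => l * q i) := by
  funext i; simp only [pw]; rw [Real.rpow_mul hX]

theorem Ex.smul {sz : A → ℝ} {Ψ : A → (ι → ℝ) → ℝ} {p : ι → ℝ} {e l : ℝ} (hl : 0 < l)
    (h : Ex sz Ψ p e) : Ex sz Ψ (fun i => l * p i) (l * e) := by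
  intro ε hε
  obtain ⟨δ, hδ, X₀, hX₀, H⟩ := h (ε / l) (by positivity)
  refine ⟨l * δ, by positivity, X₀ ^ (1 / l), ?_, ?_⟩
  · exact Real.one_lt_rpow hX₀ (by positivity)
  intro X hX a ha q hq hn
  have hX00 : 0 ≤ X₀ ^ (1 / l) := Real.rpow_nonneg (by linarith) _
  have hX1 : 1 ≤ X := le_trans (Real.one_lt_rpow hX₀ (by positivity)).le hX
  have hXpos : 0 < X := by linarith
  have hY : X₀ ≤ X ^ l := by
    have := Real.rpow_le_rpow hX00 hX hl.le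
    rwa [← Real.rpow_mul (by linarith : (0:ℝ) ≤ X₀), one_div, inv_mul_cancel₀ hl.ne',
      Real.rpow_one] at this
  have ha' : sz a ≤ (X ^ l) ^ δ := by rwa [← Real.rpow_mul hXpos.le]
  have hq' : NN (fun i => q i / l) := fun i => div_nonneg (hq i) hl.le
  have hn' : Nr δ (fun i => q i / l) p := fun i => by
    have h1 := hn i
    have h2 : q i / l - p i = (q i - l * p i) / l := by field_simp
    rw [h2, abs_div, abs_of_pos hl, div_le_iff₀ hl]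
    simpa [mul_comm] using h1
  have := H (X ^ l) hY a ha' (fun i => q i / l) hq' hn'
  rw [pw_rpow hXpos.le] at this
  have e1 : (fun i => l * (q i / l)) = q := by funext i; field_simp
  rw [e1, ← Real.rpow_mul hXpos.le] at this
  have e2 : l * (e + ε / l) = l * e + ε := by field_simp
  rwa [e2] at this

theorem Ex.smul_iff {sz : A → ℝ} {Ψ : A → (ι → ℝ) → ℝ} {p : ι → ℝ} {e l : ℝ} (hl : 0 < l) :
    Ex sz Ψ (fun i => l * p i) (l * e) ↔ Ex sz Ψ p e := by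
  refine ⟨fun h => ?_, fun h => h.smul hl⟩
  have := h.smul (l := l⁻¹) (by positivity)
  simpa [← mul_assoc, inv_mul_cancel₀ hl.ne'] using this

/-! ### semicontinuity and compactness -/

/-- `Ex` at `p` implies `Ex` with a slightly larger exponent near `p` -/
theorem Ex.nearby {sz : A → ℝ} {Ψ : A → (ι → ℝ) → ℝ} {p : ι → ℝ} {e e' : ℝ}
    (h : Ex sz Ψ p e) (he : e < e') :
    ∃ δ : ℝ, 0 < δ ∧ ∀ p', Nr δ p' p → ∃ ρ : ℝ, 0 < ρ ∧ ∃ X₀ : ℝ, 1 < X₀ ∧ ∀ X : ℝ, X₀ ≤ X →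
      ∀ a : A, sz a ≤ X ^ ρ → ∀ q : ι → ℝ, NN q → Nr ρ q p' → Ψ a (pw X q) ≤ X ^ e' := by
  obtain ⟨δ, hδ, X₀, hX₀, H⟩ := h (e' - e) (by linarith)
  refine ⟨δ / 2, by linarith, fun p' hp' => ⟨δ / 2, by linarith, X₀, hX₀, ?_⟩⟩
  intro X hX a ha q hq hn
  have hX1 : (1:ℝ) ≤ X := by linarith
  have := H X hX a (ha.trans (Real.rpow_le_rpow_of_exponent_le hX1 (by linarith))) q hq
    (by simpa using hn.trans hp')
  simpa using this

/-- **compactness**: a family of pointwise robust bounds on a compact set is uniform. -/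
theorem unif [Fintype ι] {sz : A → ℝ} {Ψ : A → (ι → ℝ) → ℝ} {S : Set (ι → ℝ)} (hS : IsCompact S)
    {h : (ι → ℝ) → ℝ} (hh : Continuous h) {E : ℝ}
    (H : ∀ p ∈ S, Ex sz Ψ p (E - h p)) {ε : ℝ} (hε : 0 < ε) :
    ∃ δ : ℝ, 0 < δ ∧ ∃ X₀ : ℝ, 1 < X₀ ∧ ∀ X : ℝ, X₀ ≤ X → ∀ a : A, sz a ≤ X ^ δ →
      ∀ q : ι → ℝ, NN q → (∃ p ∈ S, Nr δ q p) → X ^ h q * Ψ a (pw X q) ≤ X ^ (E + ε) := by
  classical
  -- local data
  have key : ∀ p ∈ S, ∃ δ : ℝ, 0 < δ ∧ ∃ X₀ : ℝ, 1 < X₀ ∧ ∀ X : ℝ, X₀ ≤ X → ∀ a : A,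
      sz a ≤ X ^ δ → ∀ q : ι → ℝ, NN q → Nr δ q p → X ^ h q * Ψ a (pw X q) ≤ X ^ (E + ε) := by
    intro p hp
    obtain ⟨δ, hδ, X₀, hX₀, H1⟩ := H p hp (ε / 2) (by linarith)
    have hc := Metric.continuousAt_iff.1 (hh.continuousAt (x := p)) (ε / 2) (by linarith)
    obtain ⟨η, hη, H2⟩ := hc
    refine ⟨min δ (η / 2), lt_min hδ (by linarith), X₀, hX₀, ?_⟩
    intro X hX a ha q hq hn
    have hX1 : (1:ℝ) ≤ X := by linarith
    have hXpos : (0:ℝ) < X := by linarith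
    have h1 := H1 X hX a (ha.trans (Real.rpow_le_rpow_of_exponent_le hX1 (min_le_left _ _))) q hq
      (hn.mono (min_le_left _ _))
    have hd : dist q p < η := by
      refine lt_of_le_of_lt ((dist_pi_le_iff (by linarith : (0:ℝ) ≤ η / 2)).2 fun i => ?_)
        (by linarith : η / 2 < η)
      rw [Real.dist_eq]; exact (hn i).trans (min_le_right _ _)
    have h2 := H2 hd
    rw [Real.dist_eq] at h2
    have h3 : h q ≤ h p + ε / 2 := by linarith [(abs_lt.1 h2).2]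
    calc X ^ h q * Ψ a (pw X q) ≤ X ^ h q * X ^ (E - h p + ε / 2) :=
          mul_le_mul_of_nonneg_left h1 (Real.rpow_nonneg hXpos.le _)
      _ = X ^ (h q + (E - h p + ε / 2)) := by rw [← Real.rpow_add hXpos]
      _ ≤ X ^ (E + ε) := Real.rpow_le_rpow_of_exponent_le hX1 (by linarith)
  choose! δ hδ X₀ hX₀ K using key
  -- finite subcover by balls of radius δ p / 2
  obtain ⟨T, hTS, hT⟩ := hS.elim_nhds_subcover (fun p => Metric.ball p (δ p / 2))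
    (fun p hp => Metric.ball_mem_nhds p (by linarith [hδ p hp]))
  by_cases hne : T.Nonempty
  · set d := T.inf' hne (fun p => δ p / 2) with hd
    have hdpos : 0 < d := by
      rw [hd, Finset.lt_inf'_iff]; intro p hp; linarith [hδ p (hTS p hp)]
    set Y := T.sup' hne X₀ with hY
    obtain ⟨p0, hp0⟩ := hne
    have hY1 : 1 < Y := lt_of_lt_of_le (hX₀ p0 (hTS p0 hp0)) (Finset.le_sup' X₀ hp0)
    refine ⟨d, hdpos, Y, hY1, ?_⟩
    intro X hX a ha q hq ⟨p, hp, hn⟩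
    have hpT := hT hp
    rw [Set.mem_iUnion₂] at hpT
    obtain ⟨p1, hp1, hb⟩ := hpT
    have hX1 : (1:ℝ) ≤ X := by linarith
    have hd1 : d ≤ δ p1 / 2 := Finset.inf'_le _ hp1
    have hn1 : Nr (δ p1) q p1 := by
      intro i
      have := hn i
      have hb' : |p i - p1 i| ≤ δ p1 / 2 := by
        have := (dist_le_pi_dist p p1 i).trans (Metric.mem_ball.1 hb).le
        rwa [Real.dist_eq] at this
      have := abs_sub_le (q i) (p i) (p1 i)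
      linarith [hn i]
    have hpos1 := hδ p1 (hTS p1 hp1)
    exact K p1 (hTS p1 hp1) X ((Finset.le_sup' X₀ hp1).trans hX) a
      (ha.trans (Real.rpow_le_rpow_of_exponent_le hX1 (by linarith))) q hq hn1
  · rw [Finset.not_nonempty_iff_eq_empty] at hne
    refine ⟨1, one_pos, 2, by norm_num, ?_⟩
    intro X hX a ha q hq ⟨p, hp, hn⟩
    have := hT hp
    simp [hne] at this

end Crest.Agent.R017.XF71
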