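import Crest.Agent.R017.E3Fa_61
import Crest.Agent.R017.P1k_54
import Crest.Agent.R017.E5BDefs_71
import Crest.Agent.R017.XF1_71

/-!
# Row 17, R8 (E3) (helper61): the Gram error of the structured function, all lists

* `Prem` : the premises of `UB`;  `TnU`, `RnU`, `FaU`, `FbU`, `FcU`, `CtU`, `SzU` : the inputs
* `gram_ub` : the Gram error from the inputs
-/

set_option autoImplicit false
set_option linter.unusedVariables false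

noncomputable section

open Finset
open scoped Classical ComplexConjugate ContDiff

namespace Crest.Agent.R017.E3F61

open Crest.Agent.R012 Crest.Agent.R012.Eis
open Crest.Agent.R012.MC (Wgt)
open Crest.Agent.R012.LS2 (S mem_S)
open Crest.Agent.R017.CM106 (CS FS)
open Crest.Agent.R017.E3M829 (TF TF_nonneg Cut Tal)
open Crest.Agent.R017.E3F548 (EF EF_nonneg)
open Crest.Agent.R017.E3T829 (RR)
open Crest.Agent.R017.E3Z548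
open Crest.Agent.R017.E3Kc548
open Crest.Agent.R017.Mode405 (Slp)
open Crest.Agent.R017.E3Xa72 (RHRx)
open Crest.Agent.R017.E3Hi290 (RN2XF RN2XF_nonneg)
open Crest.Agent.R017.E2440 (StE)
open Crest.Agent.R017.LB48 (GrP)
open Crest.Agent.R017.I1146 (X3 c3)
open Crest.Agent.R017.E5B71 (cutE UB)
open Crest.Agent.R017.Sf770 (JS okJ_JS)
open Crest.Agent.R017.E5L770 (omP)
open Crest.Agent.R017.P1k54 (wM wM_nonneg wgt_wM)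
open Crest.Agent.R017.XT71 (Sys Win)
open Crest.Agent.R017.XG702 (Pcs Good_mono)
open Crest.Agent.R017.Prov71 (Kd Pq Dq)
open Crest.Agent.R017.XF71 (const_le_rpow)
open Crest.Agent.R017.E1551 (Adm)

variable {A ι Λ : Type*}

/-- the premises of `UB` -/
structure Prem (Sy : Sys A ι) (Dom : Set ((ι → ℝ) × (Kd → ℝ))) (al : Set ((ι → ℝ) × ℝ)) (δ : ℝ)
    (N : ℕ) (B δ' X : ℝ) (a : A) (ps : List Pq) (q : (ι → ℝ) × (Kd → ℝ)) : Prop where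
  len : ps.length ≤ N
  gl : ∀ p ∈ ps, Dq.lump p ∨ Dq.nl X p ≤ δ
  dom : q ∈ Dom
  win : Win Sy q.1 δ N B δ' X a
  mass : ∀ t, |Dq.mass X ps t - q.2 t| ≤ δ
  good : Dq.Good X δ' B ps
  al : ∀ p ∈ ps, Dq.lump p → (Sy.ev X a, Dq.nl X p) ∈ al

lemma Prem.mono {Sy : Sys A ι} {Dom : Set ((ι → ℝ) × (Kd → ℝ))} {al : Set ((ι → ℝ) × ℝ)}
    {δ δ₂ : ℝ} {N : ℕ} {B δ' δ₂' X : ℝ} {a : A} {ps : List Pq} {q : (ι → ℝ) × (Kd → ℝ)}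
    (h : Prem Sy Dom al δ N B δ' X a ps q) (hX : 1 ≤ X) (h1 : δ ≤ δ₂) (h2 : δ' ≤ δ₂') :
    Prem Sy Dom al δ₂ N B δ₂' X a ps q where
  len := h.len
  gl := fun p hp => (h.gl p hp).imp id fun h3 => h3.trans h1
  dom := h.dom
  win := h.win.mono hX h1 le_rfl le_rfl h2
  mass := fun t => (h.mass t).trans h1
  good := Good_mono hX h.good h2
  al := h.al

/-- a bound for all lists, on the admissible data (curried form of `UB`) -/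
def OU (Sy : Sys A ι) (Dom : Set ((ι → ℝ) × (Kd → ℝ))) (al : Set ((ι → ℝ) × ℝ))
    (E : (ι → ℝ) × (Kd → ℝ) → ℝ) (ok : Λ → A → List Pq → Prop) (Ψ : Λ → A → List Pq → ℝ) : Prop :=
  ∀ ε : ℝ, 0 < ε → ∃ δ : ℝ, 0 < δ ∧ ∀ (lam : Λ) (N : ℕ) (B : ℝ), ∃ δ' : ℝ, 0 < δ' ∧
    ∃ X₀ : ℝ, 1 < X₀ ∧ ∀ X : ℝ, X₀ ≤ X → ∀ (a : A) (ps : List Pq), ps.length ≤ N →
      (∀ p ∈ ps, Dq.lump p ∨ Dq.nl X p ≤ δ) → ∀ q ∈ Dom, Win Sy q.1 δ N B δ' X a →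
      (∀ t, |Dq.mass X ps t - q.2 t| ≤ δ) → Dq.Good X δ' B ps →
      (∀ p ∈ ps, Dq.lump p → (Sy.ev X a, Dq.nl X p) ∈ al) → ok lam a ps →
      Ψ lam a ps ≤ X ^ (E q + ε)

/-- the curried form gives `UB` -/
theorem OU.ub {Sy : Sys A ι} {Dom : Set ((ι → ℝ) × (Kd → ℝ))} {al : Set ((ι → ℝ) × ℝ)}
    {E : (ι → ℝ) × (Kd → ℝ) → ℝ} {ok : Λ → A → List Pq → Prop} {Ψ Φ : Λ → A → List Pq → ℝ}
    (h : OU Sy Dom al E ok Ψ) (h1 : ∀ lam a ps, ok lam a ps → Φ lam a ps = Ψ lam a ps)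
    (h2 : ∀ lam a ps, ¬ ok lam a ps → Φ lam a ps = 0) : UB Sy Dq Φ Dom al E := by
  intro ε hε
  obtain ⟨δ, hδ, h⟩ := h ε hε
  refine ⟨δ, hδ, fun lam N B => ?_⟩
  obtain ⟨δ', hδ', X₀, hX₀, h⟩ := h lam N B
  refine ⟨δ', hδ', X₀, hX₀, fun X hX a ps k1 k2 q k3 k4 k5 k6 k7 => ?_⟩
  by_cases hok : ok lam a ps
  · rw [h1 lam a ps hok]
    exact h X hX a ps k1 k2 q k3 k4 k5 k6 k7 hok
  · rw [h2 lam a ps hok]
    have : 0 < X := by linarith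
    positivity

/-- `UB` gives the curried form -/
theorem OU.of_ub {Sy : Sys A ι} {Dom : Set ((ι → ℝ) × (Kd → ℝ))} {al : Set ((ι → ℝ) × ℝ)}
    {E : (ι → ℝ) × (Kd → ℝ) → ℝ} {ok : Λ → A → List Pq → Prop} {Ψ Φ : Λ → A → List Pq → ℝ}
    (h : UB Sy Dq Φ Dom al E) (h1 : ∀ lam a ps, ok lam a ps → Ψ lam a ps ≤ Φ lam a ps) :
    OU Sy Dom al E ok Ψ := by
  intro ε hε
  obtain ⟨δ, hδ, h⟩ := h ε hε
  refine ⟨δ, hδ, fun lam N B => ?_⟩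
  obtain ⟨δ', hδ', X₀, hX₀, h⟩ := h lam N B
  refine ⟨δ', hδ', X₀, hX₀, fun X hX a ps k1 k2 q k3 k4 k5 k6 k7 hok => ?_⟩
  exact (h1 lam a ps hok).trans (h X hX a ps k1 k2 q k3 k4 k5 k6 k7)

section

variable (Sy : Sys A ι) (Dom : Set ((ι → ℝ) × (Kd → ℝ))) (al : Set ((ι → ℝ) × ℝ))
    (E : (ι → ℝ) × (Kd → ℝ) → ℝ) (lf : A → ℝ) (nf : A → ℕ)

/-- **(T)** the `T`-half -/
def TnU (e0 m₁ : ℝ) (alp : Λ → A → List Pq → Eis → ℂ) (ok : Λ → A → List Pq → Prop)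
    (H : ℝ → A → List Pq → ℕ → Eis → Eis → ℝ) : Prop :=
  ∀ ε : ℝ, 0 < ε → ∃ δ : ℝ, 0 < δ ∧ ∀ (lam : Λ) (N : ℕ) (B : ℝ), ∀ cc : ℝ, 1 ≤ cc →
    ∃ δ' : ℝ, 0 < δ' ∧
    ∃ X₀ : ℝ, 1 < X₀ ∧ ∀ X : ℝ, X₀ ≤ X → ∀ (a : A) (ps : List Pq), ps.length ≤ N →
      (∀ p ∈ ps, Dq.lump p ∨ Dq.nl X p ≤ δ) → ∀ q ∈ Dom, Win Sy q.1 δ N B δ' X a →
      (∀ t, |Dq.mass X ps t - q.2 t| ≤ δ) → Dq.Good X δ' B ps →
      (∀ p ∈ ps, Dq.lump p → (Sy.ev X a, Dq.nl X p) ∈ al) → ok lam a ps → ∀ Yg : ℝ,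
      ∑ i ∈ LI (1 / 10) (2 ^ nf a), ∑ d ∈ (JS (nf a)).image Prod.fst,
        ∑ e ∈ S (Real.exp (e0 * lf a)),
          LVn (afT (alp lam a ps) (Real.exp (e0 * lf a))) {d} {e} cc Yg (Real.exp (lf a))
            (H cc a ps i d e) (Real.exp i) (Real.exp 1 * 2 ^ nf a) (Real.exp (lf a / m₁)) 2
            (Real.sqrt (cc * Real.exp i)) 0 ≤ X ^ (E q + ε)

/-- **(R)** the `R`-half -/
def RnU (pf : A → List Pq → ℝ) (e0 : ℝ) (alp : Λ → A → List Pq → Eis → ℂ)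
    (ok : Λ → A → List Pq → Prop) (H : ℝ → A → List Pq → ℕ → Eis → Eis → ℝ) : Prop :=
  ∀ ε : ℝ, 0 < ε → ∃ δ : ℝ, 0 < δ ∧ ∀ (lam : Λ) (N : ℕ) (B : ℝ), ∀ B' : ℝ, 0 ≤ B' →
    ∃ a₁ A₀ : ℕ, ∀ A₁ : ℕ, A₀ ≤ A₁ → ∀ cc : ℝ, 1 ≤ cc → ∃ δ' : ℝ, 0 < δ' ∧
    ∃ X₀ : ℝ, 1 < X₀ ∧ ∀ X : ℝ, X₀ ≤ X → ∀ (a : A) (ps : List Pq), ps.length ≤ N →
      (∀ p ∈ ps, Dq.lump p ∨ Dq.nl X p ≤ δ) → ∀ q ∈ Dom, Win Sy q.1 δ N B δ' X a →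
      (∀ t, |Dq.mass X ps t - q.2 t| ≤ δ) → Dq.Good X δ' B ps →
      (∀ p ∈ ps, Dq.lump p → (Sy.ev X a, Dq.nl X p) ∈ al) → ok lam a ps →
      (∀ i ∈ LI (1 / 10) (2 ^ nf a), ∀ d ∈ (JS (nf a)).image Prod.fst,
        ∀ e ∈ S (Real.exp (e0 * lf a)),
        cc * (H cc a ps i d e * Real.exp i ^ 2) ≤ Real.exp (lf a) * Real.exp (pf a ps)) ∧
      ∃ (u : Eis) (W0 : ℕ → Bool → Eis → Eis → ℝ → ℝ), u ≠ 0 ∧
        (∀ n, alp lam a ps n ≠ 0 → IsCoprime u n) ∧ (∀ i jj d e, Slp a₁ (W0 i jj d e)) ∧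
        (∀ i ∈ LI (1 / 10) (2 ^ nf a), RHRx (cc * (X ^ B') ^ 300) A₁
          (RR (JS (nf a)) (S (Real.exp (e0 * lf a))))
          (afT (alp lam a ps) (Real.exp (e0 * lf a))) u (W0 i)) ∧
        ∑ i ∈ LI (1 / 10) (2 ^ nf a), ∑ d ∈ (JS (nf a)).image Prod.fst,
          ∑ e ∈ S (Real.exp (e0 * lf a)),
            FH (Real.exp (lf a)) (H cc a ps i d e) (Real.exp i) *
              RN2XF cc (Real.exp (lf a)) (Real.exp i) (Real.exp (pf a ps)) (H cc a ps i) (W0 i)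
                d e ≤ X ^ (E q + ε)

/-- **(Fa)** -/
def FaU (e0 : ℝ) (alp : Λ → A → List Pq → Eis → ℂ) (ok : Λ → A → List Pq → Prop) : Prop :=
  OU Sy Dom al E ok fun lam a ps => Real.exp (lf a) ^ (2 / 3 : ℝ) *
    ((2 ^ nf a / Real.exp (lf a) ^ 2) ^ (1 / 6 : ℝ) *
      TF (1 / 2) (JS (nf a)) (omP (nf a)) (Real.exp (e0 * lf a)) (Tal (alp lam a ps)))

/-- **(Fb)** -/
def FbU (e0 m₁ : ℝ) (alp : Λ → A → List Pq → Eis → ℂ) (ok : Λ → A → List Pq → Prop) : Prop :=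
  OU Sy Dom al E ok fun lam a ps => Real.exp (lf a) ^ (2 / 3 : ℝ) *
    ((Real.exp (lf a / m₁))⁻¹ *
      TF (-1) (JS (nf a)) (omP (nf a)) (Real.exp (e0 * lf a)) (Tal (alp lam a ps)))

/-- **(Fc)** -/
def FcU (e0 m₁ : ℝ) (alp : Λ → A → List Pq → Eis → ℂ) (ok : Λ → A → List Pq → Prop) : Prop :=
  OU Sy Dom al E ok fun lam a ps => Real.exp (lf a) ^ (-(1 : ℝ) / 3) *
    Real.exp (lf a / m₁) ^ 2 * 2 ^ nf a *
      ∑ x ∈ JS (nf a), EF (omP (nf a)) (Tal (alp lam a ps)) (Real.exp (e0 * lf a)) x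

/-- **(Cut)** the frequencies between the two cuts -/
def CtU (R : Λ → ℝ) (e0 m₁ : ℝ) (alp : Λ → A → List Pq → Eis → ℂ)
    (ok : Λ → A → List Pq → Prop) : Prop :=
  OU Sy Dom al E ok fun lam a ps => CtS (wM (R lam)) (Real.exp (lf a)) (Real.exp (e0 * lf a))
    (Real.exp (lf a / 20)) (Real.exp (lf a / m₁)) (nf a) (alp lam a ps)

/-- **(Sz)** sizes and admissibility -/
def SzU (pf Yf : A → List Pq → ℝ) (e0 : ℝ) (alp : Λ → A → List Pq → Eis → ℂ)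
    (ok : Λ → A → List Pq → Prop) : Prop :=
  ∃ δ : ℝ, 0 < δ ∧ ∀ (lam : Λ) (N : ℕ) (B : ℝ), ∃ B₀ R₀ : ℝ, 0 ≤ B₀ ∧ 0 ≤ R₀ ∧
    ∃ δ' : ℝ, 0 < δ' ∧
    ∃ X₀ : ℝ, 1 < X₀ ∧ ∀ X : ℝ, X₀ ≤ X → ∀ (a : A) (ps : List Pq), ps.length ≤ N →
      (∀ p ∈ ps, Dq.lump p ∨ Dq.nl X p ≤ δ) → ∀ q ∈ Dom, Win Sy q.1 δ N B δ' X a →
      (∀ t, |Dq.mass X ps t - q.2 t| ≤ δ) → Dq.Good X δ' B ps →
      (∀ p ∈ ps, Dq.lump p → (Sy.ev X a, Dq.nl X p) ∈ al) → ok lam a ps →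
      0 ≤ lf a ∧ Real.exp (lf a) ≤ X ^ B₀ ∧ (2 : ℝ) ^ nf a ≤ X ^ B₀ ∧
      Real.exp (pf a ps) ≤ X ^ B₀ ∧ 0 ≤ Yf a ps ∧
      Adm (Yf a ps) (Real.exp (pf a ps)) R₀ (alp lam a ps)

end

lemma adm_fs {Y X R : ℝ} {α : Eis → ℂ} (hY : 0 ≤ Y) (h : Adm Y X R α) : FS α where
  fin := Set.Finite.subset (S Y).finite_toSet fun n hn => h.sup n hn
  prim := fun n hn => ((mem_S hY).1 (h.sup n hn)).2.1

/-- the last step: numbers only -/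
lemma fin_num {C P y z a b c t r s G M : ℝ} (hC : 1 ≤ C) (hP : 0 < P) (hy : 1 ≤ y)
    (hz0 : 0 ≤ C * z) (hz : z ≤ y) (h : 5 * C + 1 ≤ y) (ha : a ≤ P) (hb : b ≤ P) (hc : c ≤ P)
    (ht : t ≤ P) (hr : r ≤ P) (hs : s ≤ P) (hG : G ≤ M + (C * z * (a + b + c + t + r) + s)) :
    G - M ≤ y * y * y * P := by
  have h5 : a + b + c + t + r ≤ 5 * P := by linarith
  have h6 := mul_le_mul_of_nonneg_left h5 hz0
  have h7 : C * z * (5 * P) ≤ C * y * (5 * P) :=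
    mul_le_mul_of_nonneg_right (mul_le_mul_of_nonneg_left hz (by linarith)) (by linarith)
  have h8 : P ≤ y * P := le_mul_of_one_le_left hP.le hy
  have h9 : C * y * (5 * P) + y * P = (5 * C + 1) * (y * P) := by ring
  have h10 : (5 * C + 1) * (y * P) ≤ y * (y * P) :=
    mul_le_mul_of_nonneg_right h (by positivity)
  have h11 : y * (y * P) ≤ y * (y * (y * P)) :=
    le_mul_of_one_le_left (by positivity) hy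
  have h12 : y * (y * (y * P)) = y * y * y * P := by ring
  have h13 : y * (y * P) ≤ y * y * y * P := by
    rw [← h12]
    have : y * (y * P) ≤ y * (y * (y * P)) := by
      have h14 : y * P ≤ y * (y * P) := le_mul_of_one_le_left (by positivity) hy
      exact mul_le_mul_of_nonneg_left h14 (by linarith)
    exact this
  linarith

set_option maxHeartbeats 4000000 in
/-- **the Gram error of the structured function, all lists** -/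
theorem gram_ub {Sy : Sys A ι} {Dom : Set ((ι → ℝ) × (Kd → ℝ))} {al : Set ((ι → ℝ) × ℝ)}
    {E : (ι → ℝ) × (Kd → ℝ) → ℝ} {lf : A → ℝ} {nf : A → ℕ} {pf Yf : A → List Pq → ℝ}
    {e0 m₁ : ℝ} {alp : Λ → A → List Pq → Eis → ℂ} {ok : Λ → A → List Pq → Prop}
    {H : ℝ → A → List Pq → ℕ → Eis → Eis → ℝ} (he0 : 0 ≤ e0) (he1 : e0 ≤ 1) (hm₁ : 20 ≤ m₁)
    (hH : ∀ cc a ps i d e, 0 < H cc a ps i d e)
    (hsz : SzU Sy Dom al lf nf pf Yf e0 alp ok) (hT : TnU Sy Dom al E lf nf e0 m₁ alp ok H)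
    (hR : RnU Sy Dom al E lf nf pf e0 alp ok H) (ha : FaU Sy Dom al E lf nf e0 alp ok)
    (hb : FbU Sy Dom al E lf nf e0 m₁ alp ok) (hc : FcU Sy Dom al E lf nf e0 m₁ alp ok)
    (Rw : Λ → ℝ) (hct : CtU Sy Dom al E lf nf Rw e0 m₁ alp ok) :
    OU Sy Dom al E ok fun lam a ps => max 0 (GrP (wM (Rw lam)) (Real.exp (lf a))
        (fun k => if cutE (Real.exp (lf a / 20)) k then
          StE (Real.exp (e0 * lf a)) (JS (nf a)) (omP (nf a)) (alp lam a ps) k else 0) -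
      c3 (wM (Rw lam)) (Real.exp (lf a)) * (X3 (Yf a ps) (Real.exp (e0 * lf a))
        (JS (nf a)) (omP (nf a)) (alp lam a ps)).re) := by
  intro ε hε
  have hε4 : 0 < ε / 4 := by positivity
  obtain ⟨δ₁, hδ₁, hT⟩ := hT (ε / 4) hε4
  obtain ⟨δ₂, hδ₂, hR⟩ := hR (ε / 4) hε4
  obtain ⟨δ₃, hδ₃, ha⟩ := ha (ε / 4) hε4
  obtain ⟨δ₄, hδ₄, hb⟩ := hb (ε / 4) hε4
  obtain ⟨δ₅, hδ₅, hc⟩ := hc (ε / 4) hε4
  obtain ⟨δ₆, hδ₆, hct⟩ := hct (ε / 4) hε4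
  obtain ⟨δ₇, hδ₇, hsz⟩ := hsz
  obtain ⟨δ, hδ, d1, d2, d3, d4, d5, d6, d7⟩ : ∃ δ : ℝ, 0 < δ ∧ δ ≤ δ₁ ∧ δ ≤ δ₂ ∧ δ ≤ δ₃ ∧
      δ ≤ δ₄ ∧ δ ≤ δ₅ ∧ δ ≤ δ₆ ∧ δ ≤ δ₇ := by
    refine ⟨min δ₁ (min δ₂ (min δ₃ (min δ₄ (min δ₅ (min δ₆ δ₇))))), ?_, ?_, ?_, ?_, ?_, ?_, ?_, ?_⟩
    · simp only [lt_min_iff]
      exact ⟨hδ₁, hδ₂, hδ₃, hδ₄, hδ₅, hδ₆, hδ₇⟩
    all_goals simp
  refine ⟨δ, hδ, fun lam N B => ?_⟩
  obtain ⟨B₀, R₀, hB₀, hR₀, ζ₇, hζ₇, X₇, hX₇, hsz⟩ := hsz lam N B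
  obtain ⟨B₃, hB₃⟩ : ∃ B₃ : ℝ, B₃ = B₀ + 1 := ⟨_, rfl⟩
  have hB₃0 : 0 < B₃ := by linarith
  obtain ⟨a₁, A₀, hR⟩ := hR lam N B B₃ hB₃0.le
  obtain ⟨ε', hε'⟩ : ∃ ε' : ℝ, ε' = min 1 (ε / (4 * B₃)) := ⟨_, rfl⟩
  have hε'0 : 0 < ε' := by rw [hε']; positivity
  have hε'1 : ε' ≤ 1 := by rw [hε']; exact min_le_left _ _
  have hε'2 : B₃ * ε' ≤ ε / 4 := by
    have h1 : ε' ≤ ε / (4 * B₃) := by rw [hε']; exact min_le_right _ _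
    rw [le_div_iff₀ (by positivity)] at h1
    linarith
  have hA2 : 1 < max A₀ 2 := lt_of_lt_of_le (by norm_num) (le_max_right _ _)
  obtain ⟨c, C, hc1, hC, key⟩ := GrE (wgt_wM (Rw lam)) (wM_nonneg _) hR₀ a₁ (max A₀ 2) hA2
    hε'0 hε'1
  obtain ⟨ζ₁, hζ₁, X₁, hX₁, hT⟩ := hT lam N B c hc1
  obtain ⟨ζ₂, hζ₂, X₂, hX₂, hR⟩ := hR (max A₀ 2) (le_max_left _ _) c hc1
  obtain ⟨ζ₃, hζ₃, X₃, hX₃, ha⟩ := ha lam N B
  obtain ⟨ζ₄, hζ₄, X₄, hX₄, hb⟩ := hb lam N B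
  obtain ⟨ζ₅, hζ₅, X₅, hX₅, hc⟩ := hc lam N B
  obtain ⟨ζ₆, hζ₆, X₆, hX₆, hct⟩ := hct lam N B
  obtain ⟨ζ, hζ, z1, z2, z3, z4, z5, z6, z7⟩ : ∃ ζ : ℝ, 0 < ζ ∧ ζ ≤ ζ₁ ∧ ζ ≤ ζ₂ ∧ ζ ≤ ζ₃ ∧
      ζ ≤ ζ₄ ∧ ζ ≤ ζ₅ ∧ ζ ≤ ζ₆ ∧ ζ ≤ ζ₇ := by
    refine ⟨min ζ₁ (min ζ₂ (min ζ₃ (min ζ₄ (min ζ₅ (min ζ₆ ζ₇))))), ?_, ?_, ?_, ?_, ?_, ?_, ?_, ?_⟩
    · simp only [lt_min_iff]
      exact ⟨hζ₁, hζ₂, hζ₃, hζ₄, hζ₅, hζ₆, hζ₇⟩
    all_goals simp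
  obtain ⟨X₈, hX₈, hC8⟩ := const_le_rpow (C := 5 * C + 1) (ε := ε / 4) hε4
  obtain ⟨X₀, hX₀, x1, x2, x3, x4, x5, x6, x7, x8, x9⟩ : ∃ X₀ : ℝ, 1 < X₀ ∧ X₁ ≤ X₀ ∧ X₂ ≤ X₀ ∧
      X₃ ≤ X₀ ∧ X₄ ≤ X₀ ∧ X₅ ≤ X₀ ∧ X₆ ≤ X₀ ∧ X₇ ≤ X₀ ∧ X₈ ≤ X₀ ∧ c * Real.exp 1 + 2 ≤ X₀ := by
    refine ⟨max X₁ (max X₂ (max X₃ (max X₄ (max X₅ (max X₆ (max X₇ (max X₈
      (c * Real.exp 1 + 2)))))))), ?_, ?_, ?_, ?_, ?_, ?_, ?_, ?_, ?_, ?_⟩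
    · exact lt_of_lt_of_le hX₁ (le_max_left _ _)
    all_goals simp
  refine ⟨ζ, hζ, X₀, hX₀, fun X hX a ps k1 k2 q k3 k4 k5 k6 k7 hok => ?_⟩
  have hX1 : 1 ≤ X := by linarith
  have hX0 : 0 < X := by linarith
  have hP : Prem Sy Dom al δ N B ζ X a ps q := ⟨k1, k2, k3, k4, k5, k6, k7⟩
  have g7 := hP.mono hX1 d7 z7
  obtain ⟨hl0, hlK, hnK, hpK, hY0, hadm⟩ := hsz X (x7.trans hX) a ps g7.len g7.gl q g7.dom g7.win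
    g7.mass g7.good g7.al hok
  have g1 := hP.mono hX1 d1 z1
  have iT := hT X (x1.trans hX) a ps g1.len g1.gl q g1.dom g1.win g1.mass g1.good g1.al hok
  have g2 := hP.mono hX1 d2 z2
  obtain ⟨iR1, u, W0, hu, hup, hS, hRH, iR2⟩ := hR X (x2.trans hX) a ps g2.len g2.gl q g2.dom
    g2.win g2.mass g2.good g2.al hok
  have g3 := hP.mono hX1 d3 z3
  have ia := ha X (x3.trans hX) a ps g3.len g3.gl q g3.dom g3.win g3.mass g3.good g3.al hok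
  have g4 := hP.mono hX1 d4 z4
  have ib := hb X (x4.trans hX) a ps g4.len g4.gl q g4.dom g4.win g4.mass g4.good g4.al hok
  have g5 := hP.mono hX1 d5 z5
  have ic := hc X (x5.trans hX) a ps g5.len g5.gl q g5.dom g5.win g5.mass g5.good g5.al hok
  have g6 := hP.mono hX1 d6 z6
  have ict := hct X (x6.trans hX) a ps g6.len g6.gl q g6.dom g6.win g6.mass g6.good g6.al hok
  beta_reduce at ia ib ic ict
  -- sizes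
  have hec : 0 < c * Real.exp 1 := by positivity
  have hXc : c * Real.exp 1 ≤ X := by linarith
  have hX2 : 2 ≤ X := by linarith
  obtain ⟨Z, hZ⟩ : ∃ Z : ℝ, Z = X ^ B₃ := ⟨_, rfl⟩
  have hZ1 : 1 ≤ Z := by rw [hZ]; exact Real.one_le_rpow hX1 hB₃0.le
  have hZe : Z = X ^ B₀ * X := by
    rw [hZ, hB₃, Real.rpow_add hX0, Real.rpow_one]
  have hXB : 1 ≤ X ^ B₀ := Real.one_le_rpow hX1 hB₀
  have hBZ : X ^ B₀ ≤ Z := by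
    rw [hZe]
    exact le_mul_of_one_le_right (by linarith) hX1
  have hE0K : Real.exp (e0 * lf a) ≤ Real.exp (lf a) :=
    Real.exp_le_exp.2 (mul_le_of_le_one_left hl0 he1)
  have hE01 : 1 ≤ Real.exp (e0 * lf a) := Real.one_le_exp (by positivity)
  have hm0 : 0 < m₁ := by linarith
  have hE1' : Real.exp (lf a / m₁) ≤ Real.exp (lf a / 20) :=
    Real.exp_le_exp.2 (div_le_div_of_nonneg_left hl0 (by norm_num) hm₁)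
  have hE1K : Real.exp (lf a / m₁) ≤ Real.exp (lf a) :=
    Real.exp_le_exp.2 (div_le_self hl0 (by linarith))
  have hE11 : 1 ≤ Real.exp (lf a / m₁) := Real.one_le_exp (by positivity)
  have h2E : 2 * Real.exp (lf a / m₁) ≤ Z := by
    have h1 : Real.exp (lf a / m₁) ≤ X ^ B₀ := hE1K.trans hlK
    rw [hZe, mul_comm (X ^ B₀) X]
    exact mul_le_mul hX2 h1 (Real.exp_pos _).le hX0.le
  have hZ5 : Z ≤ Z ^ 5 := le_self_pow₀ hZ1 (by norm_num)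
  have hcV : c * (Real.exp 1 * 2 ^ nf a) ≤ Z ^ 5 := by
    refine le_trans ?_ hZ5
    rw [hZe]
    have h1 : (0 : ℝ) < 2 ^ nf a := by positivity
    calc c * (Real.exp 1 * 2 ^ nf a) = (c * Real.exp 1) * 2 ^ nf a := by ring
      _ ≤ X * X ^ B₀ := mul_le_mul hXc hnK h1.le hX0.le
      _ = _ := mul_comm _ _
  have hFS := adm_fs hY0 hadm
  have hmain := key Z hZ1 (nf a) (Real.exp (e0 * lf a)) (Real.exp (lf a / 20))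
    (Real.exp (lf a / m₁)) (Real.exp (lf a)) (Real.exp (pf a ps)) (Yf a ps) (alp lam a ps)
    (H c a ps) u W0 hu hup hFS (fun n hn => ((mem_S hY0).1 (hadm.sup n hn)).2.2)
    (fun n hn => (hadm.win n hn).trans (by linarith)) (Real.exp_pos _) (hlK.trans hBZ) hE01
    ((hE0K.trans hlK).trans hBZ) hY0 hadm.sup hE11 hE1' h2E (hnK.trans hBZ) (Real.exp_pos _)
    ((hpK.trans hBZ).trans hZ5) hcV (hH c a ps) iR1 hS (by rw [hZ]; exact hRH)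
  have iT' : TnS c (Z ^ 5) (Real.exp (lf a)) (Real.exp (e0 * lf a)) (Real.exp (lf a / m₁))
      (nf a) (alp lam a ps) (H c a ps) ≤ X ^ (E q + ε / 4) := iT (Z ^ 5)
  have iR' : RnS c (Real.exp (lf a)) (Real.exp (e0 * lf a)) (Real.exp (pf a ps)) (nf a)
      (H c a ps) W0 ≤ X ^ (E q + ε / 4) := iR2
  obtain ⟨P, hPd⟩ : ∃ P : ℝ, P = X ^ (E q + ε / 4) := ⟨_, rfl⟩
  rw [← hPd] at ia ib ic ict iT' iR'
  have hP0 : 0 < P := by rw [hPd]; positivity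
  have hZε : Z ^ ε' ≤ X ^ (ε / 4) := by
    rw [hZ, ← Real.rpow_mul hX0.le]
    exact Real.rpow_le_rpow_of_exponent_le hX1 hε'2
  have hXε : 1 ≤ X ^ (ε / 4) := Real.one_le_rpow hX1 hε4.le
  have hCZ : 0 ≤ C * Z ^ ε' := by positivity
  refine max_le (by positivity) ?_
  have h10 : 5 * C + 1 ≤ X ^ (ε / 4) := hC8 X (x8.trans hX)
  have e1 : X ^ (E q + ε) = X ^ (ε / 4) * X ^ (ε / 4) * X ^ (ε / 4) * P := by
    rw [hPd, ← Real.rpow_add hX0, ← Real.rpow_add hX0, ← Real.rpow_add hX0]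
    congr 1
    ring
  rw [e1]
  exact fin_num hC hP0 hXε hCZ hZε h10 ia ib ic iT' iR' ict hmain

end Crest.Agent.R017.E3F61
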