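import Crest.Agent.R017.E3Fb_61
import Crest.Agent.R017.P10Xa_764

/-!
# Row 17, R8 (E3), exceptional class (helper61): `E3XU` from the frame

* **`e3xu_of`** : `E3XU` from `TnU`, `RnU`, `FaU`, `FbU`, `FcU`, `CtU`, `SzU`
-/

set_option autoImplicit false
set_option linter.unusedVariables false

noncomputable section

open Finset
open scoped Classical ComplexConjugate ContDiff

namespace Crest.Agent.R017.E3F61

open Crest.Agent.R012 Crest.Agent.R012.Eis
open Crest.Agent.R017.B770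
open Crest.Agent.R017.Prov71
open Crest.Agent.R017.UM71 Crest.Agent.R017.End699
open Crest.Agent.R017.E5B71 Crest.Agent.R017.E5P571
open Crest.Agent.R017.P1e54 Crest.Agent.R017.P1f54 Crest.Agent.R017.P1k54
open Crest.Agent.R017.ExBox960 Crest.Agent.R017.ExP960
open Crest.Agent.R017.P1X960
open Crest.Agent.R017.P10X764
open Crest.Agent.R017.I1146 (LN)

variable {Λ : Type*}

/-- the admissible data of a difference -/
def okX (π : Λ → DPar) (lam : Λ × Eis) (a : BcX) (qs : List Pq) : Prop :=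
  okCX (π lam.1) lam.2 a qs ∧ okD a

/-- **the Gram error of the differences** -/
theorem e3xu_of {π : Λ → DPar} {h : ℝ → ℝ} {e0 c Rh β m₁ : ℝ}
    {Par : Set (Fin 3 ⊕ Fin 5 → ℝ)} {L0 : (Fin 3 ⊕ Fin 5 → ℝ) → ℝ}
    {H : ℝ → BcX → List Pq → ℕ → Eis → Eis → ℝ} (he0 : 0 ≤ e0) (he1 : e0 ≤ 1) (hm₁ : 20 ≤ m₁)
    (hH : ∀ cc a ps i d e, 0 < H cc a ps i d e)
    (hsz : SzU S8X (Dom8X c β Par DifL) ∅ (fun a : BcX => a.1.l) (nw c)
      (fun a qs => LN (clN a qs)) (YcX Rh) e0 (alX π h) (okX π))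
    (hT : TnU S8X (Dom8X c β Par DifL) ∅ (E8X L0) (fun a : BcX => a.1.l) (nw c) e0 m₁
      (alX π h) (okX π) H)
    (hR : RnU S8X (Dom8X c β Par DifL) ∅ (E8X L0) (fun a : BcX => a.1.l) (nw c)
      (fun a qs => LN (clN a qs)) e0 (alX π h) (okX π) H)
    (ha : FaU S8X (Dom8X c β Par DifL) ∅ (E8X L0) (fun a : BcX => a.1.l) (nw c) e0
      (alX π h) (okX π))
    (hb : FbU S8X (Dom8X c β Par DifL) ∅ (E8X L0) (fun a : BcX => a.1.l) (nw c) e0 m₁
      (alX π h) (okX π))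
    (hc : FcU S8X (Dom8X c β Par DifL) ∅ (E8X L0) (fun a : BcX => a.1.l) (nw c) e0 m₁
      (alX π h) (okX π))
    (hct : ∀ R : Λ → ℝ, (∀ lam, 0 ≤ R lam) →
      CtU S8X (Dom8X c β Par DifL) ∅ (E8X L0) (fun a : BcX => a.1.l) (nw c)
        (fun lam : Λ × Eis => R lam.1) e0 m₁ (alX π h) (okX π)) :
    E3XU π h e0 c Rh β Par L0 := by
  intro R hR0
  refine (gram_ub he0 he1 hm₁ hH hsz hT hR ha hb hc (fun lam : Λ × Eis => R lam.1)
    (hct R hR0)).ub (fun lam a ps hok => ?_) (fun lam a ps hok => ?_)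
  · have h1 : okCX (π lam.1) lam.2 a ps ∧ okD a := hok
    unfold E3X
    rw [if_pos h1]
    rfl
  · have h1 : ¬ (okCX (π lam.1) lam.2 a ps ∧ okD a) := hok
    unfold E3X
    rw [if_neg h1]

end Crest.Agent.R017.E3F61
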