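import Crest.Agent.R017.E3Fc_61
import Crest.Agent.R017.FrX_579

/-!
# Row 17, R8 (E3), exceptional class (helper61): sizes and admissibility of the frame `S8X`

* **`szX`** : `SzU` of the differences from 579's frame `FrXD`
-/

set_option autoImplicit false
set_option linter.unusedVariables false

noncomputable section

open Finset
open scoped Classical ComplexConjugate ContDiff

namespace Crest.Agent.R017.E3F61

open Crest.Agent.R012 Crest.Agent.R012.Eis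
open Crest.Agent.R017.B770
open Crest.Agent.R017.Prov71
open Crest.Agent.R017.XT71 (Sys Win mx)
open Crest.Agent.R017.UM71 Crest.Agent.R017.End699
open Crest.Agent.R017.E5B71 Crest.Agent.R017.E5P571
open Crest.Agent.R017.P1e54 Crest.Agent.R017.P1f54 Crest.Agent.R017.P1k54
open Crest.Agent.R017.P1l54 (ParOK)
open Crest.Agent.R017.ExBox960 Crest.Agent.R017.ExP960
open Crest.Agent.R017.P1X960
open Crest.Agent.R017.P10X764
open Crest.Agent.R017.I1146 (LN)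
open Crest.Agent.R017.FrX579 (FrXD)

variable {Λ : Type*}

/-- **sizes and admissibility of the differences** -/
theorem szX {π : Λ → DPar} {h : ℝ → ℝ} {Rh e0 c β ε : ℝ} {Par : Set (Fin 3 ⊕ Fin 5 → ℝ)}
    {ℓ Kf Tf : (Fin 5 → ℝ) → ℝ} (hPar : ∀ p ∈ Par, ParOK p)
    (hfr : ∃ δ : ℝ, 0 < δ ∧ ∀ (lam : Λ × Eis) (N : ℕ) (B cw : ℝ), 1 ≤ cw →
      ∃ B₂ J R' : ℝ, 1 ≤ B₂ ∧ 0 ≤ J ∧ 0 ≤ R' ∧
      ∃ δ' : ℝ, 0 < δ' ∧ ∃ X₀ : ℝ, 1 < X₀ ∧ ∀ X : ℝ, X₀ ≤ X → ∀ (a : BcX) (qs : List Pq),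
        qs.length ≤ N → (∀ p ∈ qs, Dq.lump p ∨ Dq.nl X p ≤ δ) → ∀ q ∈ Dom8X c β Par DifL,
        Win S8X q.1 δ N B δ' X a → (∀ t, |Dq.mass X qs t - q.2 t| ≤ δ) → Dq.Good X δ' B qs →
        (∀ p ∈ qs, ¬ Dq.lump p) → okCX (π lam.1) lam.2 a qs ∧ okD a →
        FrXD π h Rh e0 c ℓ Kf Tf cw B₂ J R' (1 / 100) ε X lam a qs q) :
    SzU S8X (Dom8X c β Par DifL) ∅ (fun a : BcX => a.1.l) (nw c)
      (fun a qs => LN (clN a qs)) (YcX Rh) e0 (alX π h) (okX π) := by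
  obtain ⟨δ, hδ, hfr⟩ := hfr
  refine ⟨δ, hδ, fun lam N B => ?_⟩
  obtain ⟨B₂, J, R', hB₂, -, hR', δ', hδ', X₀, hX₀, hfr⟩ := hfr lam N B 1 le_rfl
  refine ⟨2, R', by norm_num, hR', δ', hδ', X₀, hX₀, ?_⟩
  intro X hX a qs k1 k2 q k3 k4 k5 k6 k7 hok
  have hok' : okCX (π lam.1) lam.2 a qs ∧ okD a := hok
  have hF := hfr X hX a qs k1 k2 q k3 k4 k5 k6 (fun p hp hl => k7 p hp hl) hok'
  have hP := hPar _ k3.1.par
  have hX3 := hF.X3
  have hX0 : 0 < X := by linarith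
  have hL : 1 ≤ Real.log X := by
    have h1 : Real.exp 1 ≤ X := by
      have := Real.exp_one_lt_d9
      linarith
    have h2 := Real.log_le_log (Real.exp_pos 1) h1
    rwa [Real.log_exp] at h2
  obtain ⟨l1, l2⟩ := abs_le.1 hF.kl
  have hκ0 := hP.κ0
  have hκ1 := hP.κ1
  have hN1 := hP.N1
  have hx1 := hP.x1
  have a1 : 8 / 9 * Real.log X ≤ cκ (prX (bp q.1)) * Real.log X :=
    mul_le_mul_of_nonneg_right hκ0 (by linarith)
  have a2 : cκ (prX (bp q.1)) * Real.log X ≤ 1 * Real.log X :=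
    mul_le_mul_of_nonneg_right hκ1 (by linarith)
  have a3 : (cN (prX (bp q.1)) + cx' (prX (bp q.1))) * Real.log X ≤ (1 + 1 / 3) * Real.log X :=
    mul_le_mul_of_nonneg_right (by linarith) (by linarith)
  have hex : ∀ t : ℝ, t ≤ 2 * Real.log X → Real.exp t ≤ X ^ (2 : ℝ) := by
    intro t ht
    rw [Real.rpow_def_of_pos hX0]
    exact Real.exp_le_exp.2 (by linarith)
  refine ⟨by linarith, hex _ (by linarith), ?_, hex _ (by linarith [hF.n1]),
    by linarith [hF.Y1], hF.adm⟩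
  have h1 := hF.yX
  rw [one_mul] at h1
  refine h1.trans ?_
  calc X = X ^ (1 : ℝ) := (Real.rpow_one X).symm
    _ ≤ X ^ (2 : ℝ) := Real.rpow_le_rpow_of_exponent_le (by linarith) (by norm_num)

end Crest.Agent.R017.E3F61
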