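import Crest.Agent.R017.E3M_548

/-!
# Row 17, R8 (E3), outer assembly (helper548): the non-sharp Gram sum

* `Sg_mono` : monotonicity of the majorized sum
* `same_g` : pointwise Cauchy over `g`
* `gram_ns0` : the Gram sum, pairs with the same `g`
* `gram_ns` : the same after Cauchy over `e`, the dyadic size of `δ` and the levels
-/

set_option autoImplicit false
set_option linter.unusedVariables false
set_option maxHeartbeats 800000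

noncomputable section

open Finset
open scoped ComplexConjugate
open scoped Classical

namespace Crest.Agent.R017.E3F548

open Crest.Agent.R012 Crest.Agent.R012.Eis Crest.Agent.R012.Mob705 Crest.Agent.R012.Gauss880
open Crest.Agent.R012.LS2
open Crest.Agent.R017.CM106
open Crest.Agent.R017.PX764 Crest.Agent.R017.C70 Crest.Agent.R017.GrB829 Crest.Agent.R017.GrD829
open Crest.Agent.R017.E3s164 Crest.Agent.R017.E3A164
open Crest.Agent.R012.Div277 (tau)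
open Crest.Agent.R012.MC (Wgt)
open Crest.Agent.R017.E1551 (nmpos)
open Crest.Agent.R017.DgA829 (lc lc_prim lc_dvd)
open Crest.Agent.R017.E3M829 (PP mem_PP AE W0 Sg TC TF Cut Iw XT)

/-- the same `g` -/
def Pg (y y' : Yp) : Prop := y.2.2.2 = y'.2.2.2

lemma sm_Pg (y y' : Yp) (h : sm y y') : Pg y y' := by
  unfold Pg; rw [h.2]

/-- the number of divisors in a set -/
lemma card_dvd_le {E0 : ℝ} {k : Eis} (hk : k ≠ 0) :
    (((S E0).filter fun e => e ∣ k).card : ℝ) ≤ tau k := by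
  have h : ((S E0).filter fun e => e ∣ k) ⊆ Div277.dvs k := by
    intro e he
    rw [mem_filter] at he
    exact (Div277.mem_dvs hk).mpr ⟨(SR_prim he.1).1, he.2⟩
  exact_mod_cast card_le_card h

section

variable {J : Finset (Eis × Eis)} {om : Eis × Eis → ℂ} {T : Eis → Eis → Eis → ℂ} {q t : Eis}
  {R E0 K B E1 W b₀ : ℝ} {w : ℝ → ℝ}

lemma Qc_Pg (k₁ : Eis) : Qc Pg J om T E0 R q t k₁ =
    ∑ g ∈ S R, ‖∑ y ∈ Ys J E0 R, if y.2.2.2 = g then Fy J om T q t k₁ y else 0‖ ^ 2 := by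
  have h1 : ∀ g ∈ S R, ((‖∑ y ∈ Ys J E0 R, if y.2.2.2 = g then Fy J om T q t k₁ y else 0‖ ^ 2 : ℝ)
      : ℂ) = ∑ y ∈ Ys J E0 R, ∑ y' ∈ Ys J E0 R,
        (if y.2.2.2 = g then (if y'.2.2.2 = g then
          Fy J om T q t k₁ y * conj (Fy J om T q t k₁ y') else 0) else 0) := by
    intro g _
    rw [Complex.ofReal_pow, ← Complex.mul_conj', map_sum, sum_mul_sum]
    refine sum_congr rfl fun y _ => sum_congr rfl fun y' _ => ?_
    split_ifs <;> simp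
  have h2 : ((∑ g ∈ S R, ‖∑ y ∈ Ys J E0 R, if y.2.2.2 = g then Fy J om T q t k₁ y else 0‖ ^ 2 : ℝ)
      : ℂ) = ∑ y ∈ Ys J E0 R, ∑ y' ∈ Ys J E0 R,
        if Pg y y' then Fy J om T q t k₁ y * conj (Fy J om T q t k₁ y') else 0 := by
    rw [Complex.ofReal_sum, sum_congr rfl h1, sum_comm]
    refine sum_congr rfl fun y hy => ?_
    rw [sum_comm]
    refine sum_congr rfl fun y' hy' => ?_
    rw [sum_ite_eq (S R) y.2.2.2, if_pos (mem_Ys.mp hy).2.2.2]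
    unfold Pg
    by_cases h : y.2.2.2 = y'.2.2.2
    · rw [if_pos h, if_pos h.symm]
    · rw [if_neg h, if_neg (fun h' => h h'.symm)]
  unfold Qc
  rw [← h2, Complex.ofReal_re]

/-- **pointwise Cauchy over `g`** -/
theorem same_g {k₁ : Eis} (hk : k₁ ≠ 0) :
    ‖∑ y ∈ Ys J E0 R, Fy J om T q t k₁ y‖ ^ 2 ≤ tau k₁ * Qc Pg J om T E0 R q t k₁ := by
  set G : Eis → ℂ := fun g => ∑ y ∈ Ys J E0 R, if y.2.2.2 = g then Fy J om T q t k₁ y else 0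
    with hG
  have e1 : ∑ y ∈ Ys J E0 R, Fy J om T q t k₁ y = ∑ g ∈ (S R).filter fun g => g ∣ k₁, G g := by
    have e2 : ∑ g ∈ (S R).filter (fun g => g ∣ k₁), G g = ∑ g ∈ S R, G g := by
      refine sum_filter_of_ne fun g _ hne => ?_
      by_contra hd
      apply hne
      refine sum_eq_zero fun y _ => ?_
      split_ifs with h
      · unfold Fy
        rw [if_neg]
        rintro ⟨h1, -⟩
        exact hd (h ▸ h1)
      · rfl
    rw [e2, hG, sum_comm]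
    refine sum_congr rfl fun y hy => ?_
    rw [sum_ite_eq (S R) y.2.2.2, if_pos (mem_Ys.mp hy).2.2.2]
  rw [e1, Qc_Pg]
  have h1 : ‖∑ g ∈ (S R).filter (fun g => g ∣ k₁), G g‖ ^ 2 ≤
      (((S R).filter fun g => g ∣ k₁).card : ℝ) * ∑ g ∈ (S R).filter (fun g => g ∣ k₁),
        ‖G g‖ ^ 2 := by
    refine (pow_le_pow_left₀ (norm_nonneg _) (norm_sum_le _ _) 2).trans ?_
    exact sq_sum_le_card_mul_sum_sq
  refine h1.trans ?_
  have h2 : ∑ g ∈ (S R).filter (fun g => g ∣ k₁), ‖G g‖ ^ 2 ≤ ∑ g ∈ S R, ‖G g‖ ^ 2 :=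
    sum_le_sum_of_subset_of_nonneg (filter_subset _ _) fun _ _ _ => by positivity
  exact mul_le_mul (card_dvd_le hk) h2 (sum_nonneg fun _ _ => by positivity) (by positivity)

lemma Qc_Pg_nonneg (k₁ : Eis) : 0 ≤ Qc Pg J om T E0 R q t k₁ := by
  rw [Qc_Pg]; positivity

/-- monotonicity of the majorized sum -/
lemma Sg_mono (hw : W0 w W b₀) (hK : 0 < K) {F G : Eis → Eis → Eis → ℝ}
    (h : ∀ q ∈ S R, ∀ t : Eis, IsPrim t → ∀ k₁ : Eis, IsPrim k₁ →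
      (nm (k₁ * q ^ 2 * t ^ 3) : ℝ) ≤ b₀ * K → F q t k₁ ≤ G q t k₁) :
    Sg w K B R E1 F ≤ Sg w K B R E1 G := by
  unfold Sg
  refine sum_le_sum fun q hq => sum_le_sum fun t ht => ?_
  have htp : IsPrim t := by
    rw [mem_pb] at ht
    exact ht.2
  have hqp := (SR_prim hq).1
  set N : ℕ := ⌊b₀ * K⌋₊ with hNd
  have hN : ∀ k : Eis, N < nm k → w ((nm (k * q ^ 2 * t ^ 3) : ℝ) / K) = 0 := by
    intro k hk
    apply hw.supp
    rw [lt_div_iff₀ hK]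
    refine Nat.lt_of_floor_lt (lt_of_lt_of_le hk ?_)
    have e : k * q ^ 2 * t ^ 3 = k * (q ^ 2 * t ^ 3) := by ring
    rw [e, nm_mul]
    exact Nat.le_mul_of_pos_right _ (nm_pos.mpr ((hqp.pow 2).mul (htp.pow 3)).ne_zero)
  have hfin : ∀ F : Eis → ℝ, (∑' k₁ : Eis, if IsPrim k₁ ∧ IsCoprime k₁ q then
      Maj829.mj B k₁ ^ 2 * w ((nm (k₁ * q ^ 2 * t ^ 3) : ℝ) / K) * F k₁ else 0) =
      ∑ k₁ ∈ primBall N, (if IsPrim k₁ ∧ IsCoprime k₁ q then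
      Maj829.mj B k₁ ^ 2 * w ((nm (k₁ * q ^ 2 * t ^ 3) : ℝ) / K) * F k₁ else 0) := by
    intro F
    refine tsum_eq_sum fun k hk => ?_
    split_ifs with h
    · rw [hN k]
      · ring
      · by_contra hle
        exact hk (mem_primBall.mpr ⟨not_lt.mp hle, h.1⟩)
    · rfl
  rw [hfin, hfin]
  refine sum_le_sum fun k hk => ?_
  have hkp := (mem_primBall.mp hk).2
  by_cases hc : IsPrim k ∧ IsCoprime k q
  · rw [if_pos hc, if_pos hc]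
    by_cases hs : (nm (k * q ^ 2 * t ^ 3) : ℝ) ≤ b₀ * K
    · exact mul_le_mul_of_nonneg_left (h q hq t htp k hkp hs) (mul_nonneg (sq_nonneg _) (hw.nn _))
    · have : w ((nm (k * q ^ 2 * t ^ 3) : ℝ) / K) = 0 := by
        apply hw.supp
        rw [lt_div_iff₀ hK]
        exact not_le.mp hs
      rw [this]
      simp
  · rw [if_neg hc, if_neg hc]

end

lemma Sg_smul (w : ℝ → ℝ) (K B R E1 c : ℝ) (F : Eis → Eis → Eis → ℝ) :
    Sg w K B R E1 (fun q t k₁ => c * F q t k₁) = c * Sg w K B R E1 F := by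
  unfold Sg
  rw [mul_sum]
  refine sum_congr rfl fun q _ => ?_
  rw [mul_sum]
  refine sum_congr rfl fun t _ => ?_
  rw [← tsum_mul_left]
  refine tsum_congr fun k => ?_
  split_ifs
  · ring
  · ring

lemma alg_ns {cI C1 C2 C3 z a1 a2 a3 a4 M D0 D1 D2 O : ℝ} (hz : 0 ≤ z) (hI : 0 ≤ cI)
    (h1 : 0 ≤ C1) (h2 : 0 ≤ C2) (h3 : 0 ≤ C3) (p1 : 0 ≤ a1) (p2 : 0 ≤ a2) (p3 : 0 ≤ a3)
    (p4 : 0 ≤ a4) (pM : 0 ≤ M) (d0 : D0 ≤ cI * z * a1) (d1 : D1 ≤ C1 * z * a2)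
    (d2 : D2 ≤ C2 * z * a3) (d3 : O ≤ C3 * z * (M + a4)) :
    D0 + D1 + D2 + O ≤ (cI + C1 + C2 + C3) * z * (a1 + a2 + a3 + a4 + M) := by
  have e6 : (cI + C1 + C2 + C3) * z * (a1 + a2 + a3 + a4 + M) = (cI * z) * a1 + (C1 * z) * a2 +
        (C2 * z) * a3 +
        (C3 * z) * (M + a4) + ((cI * z) * (a2 + a3 + a4 + M) + (C1 * z) * (a1 + a3 + a4 + M) +
        (C2 * z) * (a1 + a2 + a4 + M) + (C3 * z) * (a1 + a2 + a3)) := by
    ring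
  have e7 : 0 ≤ (cI * z) * (a2 + a3 + a4 + M) + (C1 * z) * (a1 + a3 + a4 + M) +
        (C2 * z) * (a1 + a2 + a4 + M) + (C3 * z) * (a1 + a2 + a3) := by positivity
  rw [e6]
  linarith

/-- **the cut Gram form, pairs with the same `g`** -/
theorem gram_ns0 {w : ℝ → ℝ} (hw : Wgt w) (hw0 : ∀ x, 0 ≤ w x) {Rw : ℝ} {A Bw : ℕ}
    (hRw : 0 ≤ Rw) (hA : 1 < A) (hBw : 1 < Bw) {ε : ℝ} (hε : 0 < ε) :
    ∃ C b₀ : ℝ, 1 ≤ C ∧ 0 ≤ b₀ ∧ ∀ (ι : Type) (I : Finset ι)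
    (J : Finset (Eis × Eis)) (om : Eis × Eis → ℂ) (omi : ι → Eis × Eis → ℂ)
    (T : Eis → Eis → Eis → ℂ), TC T → OKJ J → (∀ x ∈ J, om x = ∑ i ∈ I, omi i x) →
    ∀ (V : ι → ℝ), (∀ i ∈ I, 0 < V i) →
    (∀ i ∈ I, ∀ x ∈ J, omi i x ≠ 0 →
      |Real.log (nm (x.2 * x.1 ^ 2)) - Real.log (V i)| ≤ Rw / 2) →
    ∀ (K R Z B E0 E1 : ℝ), 0 < K → 1 ≤ Z → K ≤ Z → 0 ≤ R → R ≤ Z → 1 ≤ B → 0 ≤ E0 → E0 ≤ Z →
    0 ≤ E1 → (∀ x ∈ J, (nm x.1 : ℝ) ≤ Z) → (∀ x ∈ J, (nm x.2 : ℝ) ≤ R) →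
    (∑' k : Eis, if IsPrim k ∧ Cut E1 k then
        w ((nm k : ℝ) / K) * ‖SteT J om E0 T k‖ ^ 2 else 0) ≤
      C * Z ^ ε * (K ^ (2 / 3 : ℝ) * (|XT J om E0 T| +
        (R / K ^ 2) ^ (1 / 6 : ℝ) * TF (1 / 2) J om E0 T + B⁻¹ * TF (-1) J om E0 T +
        (E1 ^ 2 * B ^ 2 * R / K) * ∑ x ∈ J, EF om T E0 x) +
      ∑ i ∈ I, ∑ j ∈ I, ∑ q ∈ S R, ∑ t ∈ pb E1,
        MPTr Pg A Bw K B (V i) (V j) (Z ^ 5) J (omi i) (omi j) T E0 R b₀ q t) := by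
  obtain ⟨a₀, b₁, D, h⟩ := E3M829.exists_Wt hw
  obtain ⟨W, b₂, hb2, hw2⟩ := E3M829.exists_W0 hw hw0
  have hw1 : W0 w W b₁ := ⟨hw0, hw2.le, fun x hx => by
    have h1 := h.supp x (fun h' => absurd h'.2 (not_le.mpr hx))
    exact_mod_cast h1⟩
  have hb1 : 0 ≤ b₁ := h.pos.le.trans h.le
  have hε2 : 0 < ε / 2 := by positivity
  obtain ⟨C1, hC1, h1⟩ := E3M829.ET_le h hε2
  obtain ⟨C2, hC2, h2⟩ := E3M829.MB_le hw1.nonneg hb1 hε2
  obtain ⟨C3, hC3, h3⟩ := OFF_le_r Pg hw hRw hA hBw hε2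
  obtain ⟨Cτ, hCτ, htau⟩ := E3M829.tau_Z hε2
  set cI : ℝ := |kap0 * Iw w| with hcI
  set cτ : ℝ := Cτ * (1 + b₁) ^ (ε / 2) with hcτ
  have hcτ1 : 1 ≤ cτ := by
    rw [hcτ]
    exact one_le_mul_of_one_le_of_one_le hCτ (Real.one_le_rpow (by linarith) hε2.le)
  set CC : ℝ := cI + C1 + C2 + C3 with hCC
  have hcI0 : 0 ≤ cI := abs_nonneg _
  have hCC1 : 1 ≤ CC := by rw [hCC]; linarith
  refine ⟨cτ * CC, b₁, one_le_mul_of_one_le_of_one_le hcτ1 hCC1, hb1, ?_⟩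
  intro ι I J om omi T hT hJ hom V hV hJV K R Z B E0 E1 hK hZ hKZ hR0 hRZ hB hE0 hE0Z hE1 hJ1 hJ2
  have hZ0 : (0 : ℝ) < Z := by linarith
  set z := Z ^ (ε / 2) with hz
  have hz1 : 1 ≤ z := Real.one_le_rpow hZ hε2.le
  have hz2 : z * z = Z ^ ε := by
    rw [hz, ← Real.rpow_add hZ0]
    congr 1
    ring
  obtain ⟨τ, hτ0, hτ, h2'⟩ := h2 K Z E0 hK hZ hKZ hE0Z
  set τ0 : ℝ := cτ * z with hτ0d
  have hτ00 : 0 ≤ τ0 := by rw [hτ0d]; positivity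
  -- the pointwise Cauchy
  have k1 := E3M829.cut_le (om := om) (T := T) hw1 hK hB hJ hJ2 E0 E1
  have k2 : Sg w K B R E1 (fun q t k₁ => ‖∑ y ∈ Ys J E0 R, Fy J om T q t k₁ y‖ ^ 2) ≤
      τ0 * Sg w K B R E1 (fun q t k₁ => Qc Pg J om T E0 R q t k₁) := by
    rw [← Sg_smul]
    refine Sg_mono hw1 hK fun q hq t ht k₁ hk hle => ?_
    refine (same_g hk.ne_zero).trans (mul_le_mul_of_nonneg_right ?_ (Qc_Pg_nonneg k₁))
    have hq1 := (SR_prim hq).1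
    have hn : (nm k₁ : ℝ) ≤ (1 + b₁) * Z := by
      have e : k₁ * q ^ 2 * t ^ 3 = k₁ * (q ^ 2 * t ^ 3) := by ring
      rw [e, nm_mul] at hle
      have h4 : (1 : ℝ) ≤ nm (q ^ 2 * t ^ 3) := by
        exact_mod_cast nm_pos.mpr ((hq1.pow 2).mul (ht.pow 3)).ne_zero
      push_cast at hle
      have h5 : (nm k₁ : ℝ) ≤ nm k₁ * nm (q ^ 2 * t ^ 3) :=
        le_mul_of_one_le_right (Nat.cast_nonneg _) h4
      have h6 : b₁ * K ≤ b₁ * Z := mul_le_mul_of_nonneg_left hKZ hb1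
      nlinarith
    have h7 := htau ((1 + b₁) * Z) (by nlinarith) k₁ hn
    rw [Real.mul_rpow (by linarith) hZ0.le, ← hz] at h7
    rw [hτ0d, hcτ]
    linarith
  have k3 := off_pairs_r (om := om) (T := T) (E0 := E0) (B := B) (E1 := E1) (R := R) sm_Pg hw1 hK hJ
  have k4 := E3M829.diag_trunc (om := om) h hw1 hK hB hJ hE0 hT R E1 hτ0 hτ
  have k5 := h1 K Z R E0 hK hZ hKZ hE0Z hRZ J hJ hJ1 hJ2 om T
  have k6 := h2' B J (by linarith) om T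
  have k7 := h3 ι I J om omi T hT hJ hom V hV hJV K R Z B E0 E1 b₁ hK hZ hR0 hRZ hB hE1 hJ1 hJ2
  have t1 := E3M829.TF_nonneg (1 / 2) J om E0 T
  have t2 := E3M829.TF_nonneg (-1) J om E0 T
  have t3 : 0 ≤ ∑ x ∈ J, EF om T E0 x := sum_nonneg fun x _ => EF_nonneg om T E0 x
  have hB1 : 0 < B⁻¹ := inv_pos.mpr (by linarith)
  have hMP : 0 ≤ ∑ i ∈ I, ∑ j ∈ I, ∑ q ∈ S R, ∑ t ∈ pb E1,
      MPTr Pg A Bw K B (V i) (V j) (Z ^ 5) J (omi i) (omi j) T E0 R b₁ q t :=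
    sum_nonneg fun i hi => sum_nonneg fun j hj => sum_nonneg fun q hq => sum_nonneg fun t _ =>
      MPTr_nonneg Pg A Bw _ _ _ hK.le hJ (hV i hi) (hV j hj) (SR_prim hq).1
  have hRK : 0 ≤ (R / K ^ 2) ^ (1 / 6 : ℝ) := by positivity
  have hK23 : 0 < K ^ (2 / 3 : ℝ) := by positivity
  set MPs := ∑ i ∈ I, ∑ j ∈ I, ∑ q ∈ S R, ∑ t ∈ pb E1,
      MPTr Pg A Bw K B (V i) (V j) (Z ^ 5) J (omi i) (omi j) T E0 R b₁ q t with hMPs
  have e1 : K ^ (-(1 : ℝ) / 3) * E1 ^ 2 * B ^ 2 * R = K ^ (2 / 3 : ℝ) * (E1 ^ 2 * B ^ 2 * R / K) := by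
    have e2 : K ^ (2 / 3 : ℝ) = K ^ (-(1 : ℝ) / 3) * K := by
      rw [← Real.rpow_add_one hK.ne']; norm_num
    rw [e2]
    field_simp
  have hRK2 : 0 ≤ E1 ^ 2 * B ^ 2 * R / K := by positivity
  have m0 : kap0 * K ^ (2 / 3 : ℝ) * Iw w * XT J om E0 T ≤
      cI * z * (K ^ (2 / 3 : ℝ) * |XT J om E0 T|) := by
    have m1 : kap0 * K ^ (2 / 3 : ℝ) * Iw w * XT J om E0 T ≤
        |kap0 * Iw w| * (K ^ (2 / 3 : ℝ) * |XT J om E0 T|) := by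
      refine (le_abs_self _).trans (le_of_eq ?_)
      rw [show kap0 * K ^ (2 / 3 : ℝ) * Iw w * XT J om E0 T =
        (kap0 * Iw w) * (K ^ (2 / 3 : ℝ) * XT J om E0 T) by ring, abs_mul, abs_mul (K ^ (2 / 3 : ℝ)),
        abs_of_pos hK23]
    refine m1.trans ?_
    have m2 : 0 ≤ K ^ (2 / 3 : ℝ) * |XT J om E0 T| := by positivity
    have m3 : cI ≤ cI * z := le_mul_of_one_le_right hcI0 hz1
    exact mul_le_mul_of_nonneg_right m3 m2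
  have n1 : E3M829.ET a₀ b₁ D K J om E0 T ≤ C1 * z * (K ^ (2 / 3 : ℝ) *
        ((R / K ^ 2) ^ (1 / 6 : ℝ) * TF (1 / 2) J om E0 T)) := by
    refine k5.trans (le_of_eq ?_)
    ring
  have n2 : E3M829.MB W b₁ K B τ J om E0 T ≤ C2 * z * (K ^ (2 / 3 : ℝ) *
        (B⁻¹ * TF (-1) J om E0 T)) := by
    refine k6.trans (le_of_eq ?_)
    ring
  have n3 : ∑ q ∈ S R, ∑ t ∈ pb E1, OPr Pg w K B J om T E0 R b₁ q t ≤
        C3 * z * (MPs + K ^ (2 / 3 : ℝ) * ((E1 ^ 2 * B ^ 2 * R / K) * ∑ x ∈ J, EF om T E0 x)) := by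
    rw [e1] at k7
    refine k7.trans ?_
    have n4 : C3 * MPs ≤ C3 * z * MPs := by
      have : C3 ≤ C3 * z := le_mul_of_one_le_right (by linarith) hz1
      exact mul_le_mul_of_nonneg_right this hMP
    have n5 : C3 * z * (K ^ (2 / 3 : ℝ) * (E1 ^ 2 * B ^ 2 * R / K)) * ∑ x ∈ J, EF om T E0 x =
          C3 * z * (K ^ (2 / 3 : ℝ) * ((E1 ^ 2 * B ^ 2 * R / K) * ∑ x ∈ J, EF om T E0 x)) := by
      ring
    rw [n5, mul_add]
    exact add_le_add_left n4 _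
  have p1 : 0 ≤ K ^ (2 / 3 : ℝ) * |XT J om E0 T| := mul_nonneg hK23.le (abs_nonneg _)
  have p2 : 0 ≤ K ^ (2 / 3 : ℝ) * ((R / K ^ 2) ^ (1 / 6 : ℝ) * TF (1 / 2) J om E0 T) :=
    mul_nonneg hK23.le (mul_nonneg hRK t1)
  have p3 : 0 ≤ K ^ (2 / 3 : ℝ) * (B⁻¹ * TF (-1) J om E0 T) :=
    mul_nonneg hK23.le (mul_nonneg hB1.le t2)
  have p4 : 0 ≤ K ^ (2 / 3 : ℝ) * ((E1 ^ 2 * B ^ 2 * R / K) * ∑ x ∈ J, EF om T E0 x) :=
    mul_nonneg hK23.le (mul_nonneg hRK2 t3)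
  have m1 := alg_ns (by linarith : 0 ≤ z) hcI0 hC1 hC2 (by linarith : 0 ≤ C3) p1 p2 p3 p4 hMP
    m0 n1 n2 n3
  rw [← mul_add, ← mul_add, ← mul_add] at m1
  have m2 := k3.trans ((add_le_add_left k4 _).trans m1)
  have k1' : (∑' k : Eis, if IsPrim k ∧ Cut E1 k then
        w ((nm k : ℝ) / K) * ‖SteT J om E0 T k‖ ^ 2 else 0) ≤
      Sg w K B R E1 (fun q t k₁ => ‖∑ y ∈ Ys J E0 R, Fy J om T q t k₁ y‖ ^ 2) := k1
  refine k1'.trans (k2.trans ((mul_le_mul_of_nonneg_left m2 hτ00).trans (le_of_eq ?_)))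
  rw [hτ0d, ← hz2]
  ring

/-! ### Cauchy over `e`, the dyadic size of `δ` and the levels -/

/-- one `e` -/
def Tat (T : Eis → Eis → Eis → ℂ) (e : Eis) : Eis → Eis → Eis → ℂ :=
  fun d e' j => if e' = e then T d e' j else 0

/-- one dyadic class of `δ` -/
def Jat (J : Finset (Eis × Eis)) (a : ℕ) : Finset (Eis × Eis) :=
  J.filter fun x => Nat.log 2 (nm x.1) = a

/-- the weight of one `e` -/
def XE (J : Finset (Eis × Eis)) (om : Eis × Eis → ℂ) (T : Eis → Eis → Eis → ℂ) (e : Eis) : ℝ :=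
  ∑ x ∈ J, ‖om x‖ ^ 2 * ((nm x.2 : ℝ) ^ (-(1 : ℝ) / 3) * ‖T x.1 e x.2‖ ^ 2)

lemma XE_nonneg (J : Finset (Eis × Eis)) (om : Eis × Eis → ℂ) (T : Eis → Eis → Eis → ℂ)
    (e : Eis) : 0 ≤ XE J om T e := by unfold XE; positivity

lemma TC_Tat {T : Eis → Eis → Eis → ℂ} (hT : TC T) (e : Eis) : TC (Tat T e) := by
  intro d e' j h
  unfold Tat at h
  split_ifs at h
  · exact hT d e' j h
  · exact absurd rfl h

lemma OKJ_Jat {J : Finset (Eis × Eis)} (hJ : OKJ J) (a : ℕ) : OKJ (Jat J a) :=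
  ⟨fun x hx => hJ.prim x (mem_filter.mp hx).1, fun x hx => hJ.sqf x (mem_filter.mp hx).1,
    fun x hx => hJ.jc x (mem_filter.mp hx).1⟩

lemma TF_Tat (s : ℝ) (J : Finset (Eis × Eis)) (om : Eis × Eis → ℂ) (E0 : ℝ)
    (T : Eis → Eis → Eis → ℂ) {e : Eis} (he : e ∈ S E0) :
    TF s J om E0 (Tat T e) = (nm e : ℝ) ^ s * XE J om T e := by
  unfold TF XE Tat
  rw [mul_sum]
  refine sum_congr rfl fun x _ => ?_
  have e1 : ∑ e' ∈ S E0, (nm e' : ℝ) ^ s * ‖(if e' = e then T x.1 e' x.2 else 0 : ℂ)‖ ^ 2 =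
      (nm e : ℝ) ^ s * ‖T x.1 e x.2‖ ^ 2 := by
    rw [sum_eq_single e]
    · rw [if_pos rfl]
    · intro b _ hb
      rw [if_neg hb]; simp
    · intro h; exact absurd he h
  rw [e1]; ring

lemma EF_Tat (J : Finset (Eis × Eis)) (om : Eis × Eis → ℂ) (E0 : ℝ)
    (T : Eis → Eis → Eis → ℂ) {e : Eis} (he : e ∈ S E0) :
    ∑ x ∈ J, EF om (Tat T e) E0 x = XE J om T e := by
  unfold EF XE Tat
  refine sum_congr rfl fun x _ => ?_
  have e1 : ∑ e' ∈ S E0, ‖(if e' = e then T x.1 e' x.2 else 0 : ℂ)‖ = ‖T x.1 e x.2‖ := by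
    rw [sum_eq_single e]
    · rw [if_pos rfl]
    · intro b _ hb
      rw [if_neg hb]; simp
    · intro h; exact absurd he h
  rw [e1]

lemma XT_Tat (J : Finset (Eis × Eis)) (om : Eis × Eis → ℂ) (E0 : ℝ) (hJ : OKJ J)
    (T : Eis → Eis → Eis → ℂ) {e : Eis} (he : e ∈ S E0) :
    |XT J om E0 (Tat T e)| ≤ (nm e : ℝ) ^ (-1 : ℝ) * XE J om T e := by
  have hep := (SR_prim he).1
  have ne := nmpos hep.ne_zero
  unfold XT XE
  rw [mul_sum]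
  refine (abs_sum_le_sum_abs _ _).trans (sum_le_sum fun x hx => ?_)
  have e1 : E3M829.BT E0 (fun t => Tat T e x.1 t x.2) (fun t => Tat T e x.1 t x.2) =
      (((mu e : ℝ) ^ 2 * ‖T x.1 e x.2‖ ^ 2 * (nm e : ℝ)⁻¹ : ℝ) : ℂ) := by
    unfold E3M829.BT Tat
    rw [sum_eq_single e]
    · rw [sum_eq_single e]
      · dsimp only
        rw [if_pos rfl, E3M829.lc_self hep, Complex.mul_conj, Complex.normSq_eq_norm_sq]
        push_cast
        ring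
      · intro b _ hb
        dsimp only
        rw [if_neg hb]; simp
      · intro h; exact absurd he h
    · intro b _ hb
      refine sum_eq_zero fun t _ => ?_
      dsimp only
      rw [if_neg hb]; simp
    · intro h; exact absurd he h
  rw [e1, Complex.ofReal_re]
  have hP := Mob705.PE_pos x.1
  have hP1 := Mob705.PE_le_one x.1
  have hmu : (mu e : ℝ) ^ 2 ≤ 1 := by
    have := abs_mu_le_one e
    rw [← sq_abs]
    have h2 : |(mu e : ℝ)| ≤ 1 := by exact_mod_cast this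
    nlinarith [abs_nonneg (mu e : ℝ)]
  rw [abs_of_nonneg (by positivity), Real.rpow_neg_one]
  have h3 : (0 : ℝ) ≤ ‖om x‖ ^ 2 * (nm x.2 : ℝ) ^ (-(1 : ℝ) / 3) * (‖T x.1 e x.2‖ ^ 2 * (nm e : ℝ)⁻¹) := by
    positivity
  calc ‖om x‖ ^ 2 * ((nm x.2 : ℝ) ^ (-(1 : ℝ) / 3) * Mob705.PE x.1) *
        ((mu e : ℝ) ^ 2 * ‖T x.1 e x.2‖ ^ 2 * (nm e : ℝ)⁻¹)
      = (Mob705.PE x.1 * (mu e : ℝ) ^ 2) * (‖om x‖ ^ 2 * (nm x.2 : ℝ) ^ (-(1 : ℝ) / 3) *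
        (‖T x.1 e x.2‖ ^ 2 * (nm e : ℝ)⁻¹)) := by ring
    _ ≤ 1 * (‖om x‖ ^ 2 * (nm x.2 : ℝ) ^ (-(1 : ℝ) / 3) *
        (‖T x.1 e x.2‖ ^ 2 * (nm e : ℝ)⁻¹)) := by
        refine mul_le_mul_of_nonneg_right ?_ h3
        exact mul_le_one₀ hP1 (sq_nonneg _) hmu
    _ = _ := by ring

/-- the sum over one `e` -/
lemma SteT_split {ι : Type} {I : Finset ι} {J : Finset (Eis × Eis)} {om : Eis × Eis → ℂ}
    {omi : ι → Eis × Eis → ℂ} (T : Eis → Eis → Eis → ℂ) (E0 : ℝ) (k : Eis)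
    (hom : ∀ x ∈ J, om x = ∑ i ∈ I, omi i x) :
    SteT J om E0 T k = ∑ e ∈ (S E0).filter (fun e => e ∣ k),
      ∑ a ∈ J.image (fun x => Nat.log 2 (nm x.1)), ∑ i ∈ I,
        SteT (Jat J a) (omi i) E0 (Tat T e) k := by
  have h1 : ∀ e ∈ (S E0).filter (fun e => e ∣ k), ∀ a : ℕ, ∀ i : ι,
      SteT (Jat J a) (omi i) E0 (Tat T e) k =
      ∑ x ∈ J, if Nat.log 2 (nm x.1) = a then omi i x * (sy k x.1 * conj (th (x.2 * k)) *
        ((muE e : ℂ) * T x.1 e x.2)) else 0 := by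
    intro e he a i
    unfold SteT Jat
    rw [sum_filter]
    refine sum_congr rfl fun x _ => ?_
    split_ifs with hx
    · congr 2
      unfold Tat
      rw [sum_eq_single e]
      · rw [if_pos rfl]
      · intro b _ hb
        rw [if_neg hb, mul_zero]
      · intro h; exact absurd he h
    · rfl
  rw [sum_congr rfl fun e he => sum_congr rfl fun a _ => sum_congr rfl fun i _ => h1 e he a i]
  unfold SteT
  have h2 : ∀ e ∈ (S E0).filter (fun e => e ∣ k),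
      ∑ a ∈ J.image (fun x => Nat.log 2 (nm x.1)), ∑ i ∈ I, ∑ x ∈ J,
        (if Nat.log 2 (nm x.1) = a then omi i x * (sy k x.1 * conj (th (x.2 * k)) *
        ((muE e : ℂ) * T x.1 e x.2)) else 0) =
      ∑ x ∈ J, om x * (sy k x.1 * conj (th (x.2 * k)) * ((muE e : ℂ) * T x.1 e x.2)) := by
    intro e _
    have h3 : ∀ a ∈ J.image (fun x => Nat.log 2 (nm x.1)), ∑ i ∈ I, ∑ x ∈ J,
        (if Nat.log 2 (nm x.1) = a then omi i x * (sy k x.1 * conj (th (x.2 * k)) *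
        ((muE e : ℂ) * T x.1 e x.2)) else 0) = ∑ x ∈ J,
        (if Nat.log 2 (nm x.1) = a then om x * (sy k x.1 * conj (th (x.2 * k)) *
        ((muE e : ℂ) * T x.1 e x.2)) else 0) := by
      intro a _
      rw [sum_comm]
      refine sum_congr rfl fun x hx => ?_
      split_ifs
      · rw [hom x hx, sum_mul]
      · simp
    rw [sum_congr rfl h3, sum_comm]
    refine sum_congr rfl fun x hx => ?_
    rw [sum_ite_eq, if_pos (mem_image_of_mem _ hx)]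
  rw [sum_congr rfl h2, sum_comm]
  refine sum_congr rfl fun x _ => ?_
  rw [mul_sum, mul_sum]

/-- the cut sum is finite -/
lemma Gc_fin {w : ℝ → ℝ} {W b₀ K : ℝ} (hw : W0 w W b₀) (hK : 0 < K) (E1 : ℝ) (F : Eis → ℝ) :
    (∑' k : Eis, if IsPrim k ∧ Cut E1 k then w ((nm k : ℝ) / K) * F k else 0) =
      ∑ k ∈ pb (b₀ * K), if Cut E1 k then w ((nm k : ℝ) / K) * F k else 0 := by
  rw [tsum_eq_sum (s := pb (b₀ * K))]
  · refine sum_congr rfl fun k hk => ?_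
    rw [mem_pb] at hk
    by_cases h : Cut E1 k
    · rw [if_pos ⟨hk.2, h⟩, if_pos h]
    · rw [if_neg (fun h' => h h'.2), if_neg h]
  · intro k hk
    split_ifs with hc
    · have h1 : b₀ * K < nm k := by
        by_contra hh
        exact hk (mem_pb.2 ⟨not_lt.1 hh, hc.1⟩)
      rw [hw.supp, zero_mul]
      rwa [lt_div_iff₀ hK]
    · rfl

/-- the number of dyadic classes -/
lemma card_log {J : Finset (Eis × Eis)} {Z ε : ℝ} (hε : 0 < ε) (hZ : 1 ≤ Z)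
    (hJ1 : ∀ x ∈ J, (nm x.1 : ℝ) ≤ Z) :
    ((J.image (fun x => Nat.log 2 (nm x.1))).card : ℝ) ≤ 2 * (1 + 1 / ε) * Z ^ ε := by
  have h1 : J.image (fun x => Nat.log 2 (nm x.1)) ⊆ range (Nat.log 2 ⌊Z⌋₊ + 1) := by
    intro a ha
    rw [mem_image] at ha
    obtain ⟨x, hx, rfl⟩ := ha
    rw [mem_range]
    have : nm x.1 ≤ ⌊Z⌋₊ := Nat.le_floor (hJ1 x hx)
    exact Nat.lt_succ_of_le (Nat.log_mono_right this)
  have h2 : ((J.image (fun x => Nat.log 2 (nm x.1))).card : ℝ) ≤ Nat.log 2 ⌊Z⌋₊ + 1 := by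
    have := card_le_card h1
    rw [card_range] at this
    exact_mod_cast this
  have hZ0 : 0 < Z := by linarith
  have h3 : (Nat.log 2 ⌊Z⌋₊ : ℝ) ≤ 2 * Real.log Z := by
    have h4 : (Nat.log 2 ⌊Z⌋₊ : ℝ) ≤ Real.logb 2 (⌊Z⌋₊ : ℕ) := by
      exact_mod_cast Real.natLog_le_logb ⌊Z⌋₊ 2
    have h5 : Real.logb 2 (⌊Z⌋₊ : ℕ) ≤ Real.logb 2 Z := by
      have : (1 : ℝ) ≤ (⌊Z⌋₊ : ℕ) := by exact_mod_cast (Nat.one_le_floor_iff Z).mpr hZ
      exact Real.logb_le_logb_of_le (by norm_num) (by linarith) (Nat.floor_le hZ0.le)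
    have h6 : Real.logb 2 Z ≤ 2 * Real.log Z := by
      unfold Real.logb
      have h7 : (1 / 2 : ℝ) ≤ Real.log 2 := by
        have := Real.log_two_gt_d9
        linarith
      have h8 : 0 ≤ Real.log Z := Real.log_nonneg hZ
      rw [div_le_iff₀ (by linarith)]
      nlinarith
    linarith
  have h4 := E3M829.log_Z hε hZ
  have h5 : 0 ≤ Real.log Z := Real.log_nonneg hZ
  linarith

/-- **the non-sharp Gram sum** -/
theorem gram_ns {w : ℝ → ℝ} (hw : Wgt w) (hw0 : ∀ x, 0 ≤ w x) {Rw : ℝ} {A Bw : ℕ}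
    (hRw : 0 ≤ Rw) (hA : 1 < A) (hBw : 1 < Bw) {ε : ℝ} (hε : 0 < ε) :
    ∃ C b₀ : ℝ, 1 ≤ C ∧ 0 ≤ b₀ ∧ ∀ (ι : Type) (I : Finset ι)
    (J : Finset (Eis × Eis)) (om : Eis × Eis → ℂ) (omi : ι → Eis × Eis → ℂ)
    (T : Eis → Eis → Eis → ℂ), TC T → OKJ J → (∀ x ∈ J, om x = ∑ i ∈ I, omi i x) →
    ∀ (V : ι → ℝ), (∀ i ∈ I, 0 < V i) →
    (∀ i ∈ I, ∀ x ∈ J, omi i x ≠ 0 →
      |Real.log (nm (x.2 * x.1 ^ 2)) - Real.log (V i)| ≤ Rw / 2) →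
    ∀ (K R Z B E0 E1 : ℝ), 0 < K → 1 ≤ Z → K ≤ Z → 0 ≤ R → R ≤ Z → 1 ≤ B → 0 ≤ E0 → E0 ≤ Z →
    0 ≤ E1 → (∀ x ∈ J, (nm x.1 : ℝ) ≤ Z) → (∀ x ∈ J, (nm x.2 : ℝ) ≤ R) →
    (∑' k : Eis, if IsPrim k ∧ Cut E1 k then
        w ((nm k : ℝ) / K) * ‖SteT J om E0 T k‖ ^ 2 else 0) ≤
      C * Z ^ ε * I.card * ∑ e ∈ S E0, ∑ a ∈ J.image (fun x => Nat.log 2 (nm x.1)), ∑ i ∈ I,
      (K ^ (2 / 3 : ℝ) * (((nm e : ℝ) ^ (-1 : ℝ) +
        (R / K ^ 2) ^ (1 / 6 : ℝ) * (nm e : ℝ) ^ (1 / 2 : ℝ) + E1 ^ 2 * B ^ 2 * R / K) *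
          XE (Jat J a) (omi i) T e) +
      ∑ q ∈ S R, ∑ t ∈ pb E1,
        MPTr Pg A Bw K B (V i) (V i) (Z ^ 5) (Jat J a) (omi i) (omi i) (Tat T e) E0 R b₀ q t) := by
  obtain ⟨a₀, b₁, D, h⟩ := E3M829.exists_Wt hw
  obtain ⟨W, b₂, hb2, hw2⟩ := E3M829.exists_W0 hw hw0
  have hε3 : 0 < ε / 3 := by positivity
  obtain ⟨C0, b₀, hC0, hb0, h0⟩ := gram_ns0 hw hw0 hRw hA hBw hε3
  obtain ⟨Cτ, hCτ, htau⟩ := E3M829.tau_Z hε3
  set cτ : ℝ := Cτ * (1 + b₂) ^ (ε / 3) with hcτ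
  have hcτ1 : 1 ≤ cτ := by
    rw [hcτ]
    exact one_le_mul_of_one_le_of_one_le hCτ (Real.one_le_rpow (by linarith) hε3.le)
  set cl : ℝ := 2 * (1 + 1 / (ε / 3)) with hcl
  have hcl1 : 1 ≤ cl := by
    have : 0 ≤ 1 / (ε / 3) := by positivity
    rw [hcl]; linarith
  refine ⟨cτ * cl * (2 * C0), b₀, ?_, hb0, ?_⟩
  · exact one_le_mul_of_one_le_of_one_le (one_le_mul_of_one_le_of_one_le hcτ1 hcl1) (by linarith)
  intro ι I J om omi T hT hJ hom V hV hJV K R Z B E0 E1 hK hZ hKZ hR0 hRZ hB hE0 hE0Z hE1 hJ1 hJ2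
  have hZ0 : (0 : ℝ) < Z := by linarith
  set z := Z ^ (ε / 3) with hz
  have hz1 : 1 ≤ z := Real.one_le_rpow hZ hε3.le
  have hz3 : z * z * z = Z ^ ε := by
    rw [hz, ← Real.rpow_add hZ0, ← Real.rpow_add hZ0]
    congr 1
    ring
  set G : Eis → ℕ → ι → Eis → ℝ := fun e a i k =>
    ‖SteT (Jat J a) (omi i) E0 (Tat T e) k‖ ^ 2 with hG
  set LA := J.image (fun x => Nat.log 2 (nm x.1)) with hLA
  -- pointwise
  have key : ∀ k : Eis, IsPrim k → (nm k : ℝ) ≤ b₂ * K →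
      ‖SteT J om E0 T k‖ ^ 2 ≤ (cτ * z) * (cl * z) * I.card *
        ∑ e ∈ S E0, ∑ a ∈ LA, ∑ i ∈ I, G e a i k := by
    intro k hk hkK
    rw [SteT_split T E0 k hom]
    have c1 : (((S E0).filter fun e => e ∣ k).card : ℝ) ≤ cτ * z := by
      refine (card_dvd_le hk.ne_zero).trans ?_
      have hn : (nm k : ℝ) ≤ (1 + b₂) * Z := by
        have h6 : b₂ * K ≤ b₂ * Z := mul_le_mul_of_nonneg_left hKZ hb2.le
        nlinarith
      have h7 := htau ((1 + b₂) * Z) (by nlinarith) k hn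
      rw [Real.mul_rpow (by linarith) hZ0.le, ← hz] at h7
      rw [hcτ]
      linarith
    have c2 : (LA.card : ℝ) ≤ cl * z := card_log hε3 hZ hJ1
    have c3 : ‖∑ e ∈ (S E0).filter (fun e => e ∣ k), ∑ a ∈ LA, ∑ i ∈ I,
        SteT (Jat J a) (omi i) E0 (Tat T e) k‖ ^ 2 ≤
        (((S E0).filter fun e => e ∣ k).card : ℝ) * ∑ e ∈ (S E0).filter (fun e => e ∣ k),
          ((LA.card : ℝ) * ∑ a ∈ LA, ((I.card : ℝ) * ∑ i ∈ I, G e a i k)) := by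
      refine (pow_le_pow_left₀ (norm_nonneg _) (norm_sum_le _ _) 2).trans ?_
      refine sq_sum_le_card_mul_sum_sq.trans ?_
      refine mul_le_mul_of_nonneg_left (sum_le_sum fun e _ => ?_) (Nat.cast_nonneg _)
      refine (pow_le_pow_left₀ (norm_nonneg _) (norm_sum_le _ _) 2).trans ?_
      refine sq_sum_le_card_mul_sum_sq.trans ?_
      refine mul_le_mul_of_nonneg_left (sum_le_sum fun a _ => ?_) (Nat.cast_nonneg _)
      refine (pow_le_pow_left₀ (norm_nonneg _) (norm_sum_le _ _) 2).trans ?_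
      exact sq_sum_le_card_mul_sum_sq
    refine c3.trans ?_
    have c4 : ∑ e ∈ (S E0).filter (fun e => e ∣ k),
          ((LA.card : ℝ) * ∑ a ∈ LA, ((I.card : ℝ) * ∑ i ∈ I, G e a i k)) ≤
        (LA.card : ℝ) * ((I.card : ℝ) * ∑ e ∈ S E0, ∑ a ∈ LA, ∑ i ∈ I, G e a i k) := by
      simp only [← mul_sum]
      refine mul_le_mul_of_nonneg_left (mul_le_mul_of_nonneg_left ?_ (Nat.cast_nonneg _))
        (Nat.cast_nonneg _)
      exact sum_le_sum_of_subset_of_nonneg (filter_subset _ _) fun _ _ _ =>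
        sum_nonneg fun _ _ => sum_nonneg fun _ _ => by simp only [hG]; positivity
    have hS : 0 ≤ ∑ e ∈ S E0, ∑ a ∈ LA, ∑ i ∈ I, G e a i k :=
      sum_nonneg fun _ _ => sum_nonneg fun _ _ => sum_nonneg fun _ _ => by
        simp only [hG]; positivity
    calc (((S E0).filter fun e => e ∣ k).card : ℝ) * ∑ e ∈ (S E0).filter (fun e => e ∣ k),
          ((LA.card : ℝ) * ∑ a ∈ LA, ((I.card : ℝ) * ∑ i ∈ I, G e a i k))
        ≤ (((S E0).filter fun e => e ∣ k).card : ℝ) *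
          ((LA.card : ℝ) * ((I.card : ℝ) * ∑ e ∈ S E0, ∑ a ∈ LA, ∑ i ∈ I, G e a i k)) :=
          mul_le_mul_of_nonneg_left c4 (Nat.cast_nonneg _)
      _ ≤ (cτ * z) * ((cl * z) * ((I.card : ℝ) * ∑ e ∈ S E0, ∑ a ∈ LA, ∑ i ∈ I, G e a i k)) := by
          gcongr
      _ = _ := by ring
  -- the sum over `k`
  have k1 : (∑' k : Eis, if IsPrim k ∧ Cut E1 k then
        w ((nm k : ℝ) / K) * ‖SteT J om E0 T k‖ ^ 2 else 0) ≤
      (cτ * z) * (cl * z) * I.card * ∑ e ∈ S E0, ∑ a ∈ LA, ∑ i ∈ I,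
        (∑' k : Eis, if IsPrim k ∧ Cut E1 k then
        w ((nm k : ℝ) / K) * G e a i k else 0) := by
    rw [Gc_fin hw2 hK]
    rw [sum_congr rfl fun e _ => sum_congr rfl fun a _ => sum_congr rfl fun i _ =>
      Gc_fin hw2 hK E1 (G e a i)]
    have e1 : ∑ e ∈ S E0, ∑ a ∈ LA, ∑ i ∈ I, ∑ k ∈ pb (b₂ * K),
        (if Cut E1 k then w ((nm k : ℝ) / K) * G e a i k else 0) =
        ∑ k ∈ pb (b₂ * K), (if Cut E1 k then w ((nm k : ℝ) / K) *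
          ∑ e ∈ S E0, ∑ a ∈ LA, ∑ i ∈ I, G e a i k else 0) := by
      have e2 : ∀ e ∈ S E0, ∑ a ∈ LA, ∑ i ∈ I, ∑ k ∈ pb (b₂ * K),
        (if Cut E1 k then w ((nm k : ℝ) / K) * G e a i k else 0) = ∑ k ∈ pb (b₂ * K),
        ∑ a ∈ LA, ∑ i ∈ I, (if Cut E1 k then w ((nm k : ℝ) / K) * G e a i k else 0) := by
        intro e _
        rw [sum_congr rfl fun a _ => sum_comm, sum_comm]
      rw [sum_congr rfl e2, sum_comm]
      refine sum_congr rfl fun k _ => ?_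
      split_ifs
      · rw [mul_sum]
        refine sum_congr rfl fun e _ => ?_
        rw [mul_sum]
        refine sum_congr rfl fun a _ => ?_
        rw [mul_sum]
      · simp
    rw [e1, mul_sum]
    refine sum_le_sum fun k hk => ?_
    rw [mem_pb] at hk
    split_ifs
    · have := mul_le_mul_of_nonneg_left (key k hk.2 hk.1) (hw0 ((nm k : ℝ) / K))
      refine this.trans (le_of_eq ?_)
      ring
    · rw [mul_zero]
  refine k1.trans ?_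
  have k2 : ∀ e ∈ S E0, ∀ a ∈ LA, ∀ i ∈ I, (∑' k : Eis, if IsPrim k ∧ Cut E1 k then
        w ((nm k : ℝ) / K) * G e a i k else 0) ≤ (2 * C0) * z *
      (K ^ (2 / 3 : ℝ) * (((nm e : ℝ) ^ (-1 : ℝ) +
        (R / K ^ 2) ^ (1 / 6 : ℝ) * (nm e : ℝ) ^ (1 / 2 : ℝ) + E1 ^ 2 * B ^ 2 * R / K) *
          XE (Jat J a) (omi i) T e) +
      ∑ q ∈ S R, ∑ t ∈ pb E1,
        MPTr Pg A Bw K B (V i) (V i) (Z ^ 5) (Jat J a) (omi i) (omi i) (Tat T e) E0 R b₀ q t) := by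
    intro e he a ha i hi
    have g := h0 Unit {()} (Jat J a) (omi i) (fun _ => omi i) (Tat T e) (TC_Tat hT e)
      (OKJ_Jat hJ a) (fun x _ => by simp) (fun _ => V i) (fun _ _ => hV i hi)
      (fun _ _ x hx hne => hJV i hi x (mem_filter.mp hx).1 hne) K R Z B E0 E1 hK hZ hKZ hR0 hRZ hB
      hE0 hE0Z hE1 (fun x hx => hJ1 x (mem_filter.mp hx).1) (fun x hx => hJ2 x (mem_filter.mp hx).1)
    rw [sum_singleton, sum_singleton, TF_Tat _ _ _ _ _ he, TF_Tat _ _ _ _ _ he,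
      EF_Tat _ _ _ _ he] at g
    have hX := XT_Tat (Jat J a) (omi i) E0 (OKJ_Jat hJ a) T he
    have hXE := XE_nonneg (Jat J a) (omi i) T e
    refine g.trans ?_
    have hM : 0 ≤ ∑ q ∈ S R, ∑ t ∈ pb E1,
        MPTr Pg A Bw K B (V i) (V i) (Z ^ 5) (Jat J a) (omi i) (omi i) (Tat T e) E0 R b₀ q t :=
      sum_nonneg fun q hq => sum_nonneg fun t _ =>
        MPTr_nonneg Pg A Bw _ _ _ hK.le (OKJ_Jat hJ a) (hV i hi) (hV i hi) (SR_prim hq).1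
    have hne := nmpos (SR_prim he).1.ne_zero
    have hB1 : B⁻¹ ≤ 1 := inv_le_one_of_one_le₀ hB
    have hB0 : 0 < B⁻¹ := inv_pos.mpr (by linarith)
    have p1 : 0 ≤ (R / K ^ 2) ^ (1 / 6 : ℝ) * ((nm e : ℝ) ^ (1 / 2 : ℝ) *
        XE (Jat J a) (omi i) T e) := by positivity
    have p2 : 0 ≤ (nm e : ℝ) ^ (-1 : ℝ) * XE (Jat J a) (omi i) T e := by positivity
    have p3 : 0 ≤ E1 ^ 2 * B ^ 2 * R / K * XE (Jat J a) (omi i) T e := by positivity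
    have p4 : B⁻¹ * ((nm e : ℝ) ^ (-1 : ℝ) * XE (Jat J a) (omi i) T e) ≤
        (nm e : ℝ) ^ (-1 : ℝ) * XE (Jat J a) (omi i) T e := mul_le_of_le_one_left p2 hB1
    have p5 : |XT (Jat J a) (omi i) E0 (Tat T e)| +
        (R / K ^ 2) ^ (1 / 6 : ℝ) * ((nm e : ℝ) ^ (1 / 2 : ℝ) * XE (Jat J a) (omi i) T e) +
        B⁻¹ * ((nm e : ℝ) ^ (-1 : ℝ) * XE (Jat J a) (omi i) T e) +
        E1 ^ 2 * B ^ 2 * R / K * XE (Jat J a) (omi i) T e ≤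
        2 * (((nm e : ℝ) ^ (-1 : ℝ) +
        (R / K ^ 2) ^ (1 / 6 : ℝ) * (nm e : ℝ) ^ (1 / 2 : ℝ) + E1 ^ 2 * B ^ 2 * R / K) *
          XE (Jat J a) (omi i) T e) := by
      have e1 : 2 * (((nm e : ℝ) ^ (-1 : ℝ) +
        (R / K ^ 2) ^ (1 / 6 : ℝ) * (nm e : ℝ) ^ (1 / 2 : ℝ) + E1 ^ 2 * B ^ 2 * R / K) *
          XE (Jat J a) (omi i) T e) = 2 * ((nm e : ℝ) ^ (-1 : ℝ) * XE (Jat J a) (omi i) T e) +
          2 * ((R / K ^ 2) ^ (1 / 6 : ℝ) * ((nm e : ℝ) ^ (1 / 2 : ℝ) *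
        XE (Jat J a) (omi i) T e)) + 2 * (E1 ^ 2 * B ^ 2 * R / K * XE (Jat J a) (omi i) T e) := by
        ring
      rw [e1]
      linarith
    have hK23 : 0 < K ^ (2 / 3 : ℝ) := by positivity
    have hC0z : 0 ≤ C0 * z := by positivity
    refine (mul_le_mul_of_nonneg_left (add_le_add (mul_le_mul_of_nonneg_left p5 hK23.le)
      (le_refl _)) hC0z).trans ?_
    have e2 : (2 * C0) * z * (K ^ (2 / 3 : ℝ) * (((nm e : ℝ) ^ (-1 : ℝ) +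
        (R / K ^ 2) ^ (1 / 6 : ℝ) * (nm e : ℝ) ^ (1 / 2 : ℝ) + E1 ^ 2 * B ^ 2 * R / K) *
          XE (Jat J a) (omi i) T e) +
      ∑ q ∈ S R, ∑ t ∈ pb E1,
        MPTr Pg A Bw K B (V i) (V i) (Z ^ 5) (Jat J a) (omi i) (omi i) (Tat T e) E0 R b₀ q t) =
      C0 * z * (K ^ (2 / 3 : ℝ) * (2 * (((nm e : ℝ) ^ (-1 : ℝ) +
        (R / K ^ 2) ^ (1 / 6 : ℝ) * (nm e : ℝ) ^ (1 / 2 : ℝ) + E1 ^ 2 * B ^ 2 * R / K) *
          XE (Jat J a) (omi i) T e)) + (∑ q ∈ S R, ∑ t ∈ pb E1,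
        MPTr Pg A Bw K B (V i) (V i) (Z ^ 5) (Jat J a) (omi i) (omi i) (Tat T e) E0 R b₀ q t)) +
      C0 * z * (∑ q ∈ S R, ∑ t ∈ pb E1,
        MPTr Pg A Bw K B (V i) (V i) (Z ^ 5) (Jat J a) (omi i) (omi i) (Tat T e) E0 R b₀ q t) := by
      ring
    rw [e2]
    exact le_add_of_nonneg_right (mul_nonneg hC0z hM)
  refine (mul_le_mul_of_nonneg_left (sum_le_sum fun e he => sum_le_sum fun a ha =>
    sum_le_sum fun i hi => k2 e he a ha i hi) (by positivity)).trans (le_of_eq ?_)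
  simp only [← mul_sum]
  rw [← hz3]
  ring

end Crest.Agent.R017.E3F548
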