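import Crest.Agent.R017.E3Fb_61
import Crest.Agent.R017.CutX_290
import Crest.Agent.R017.E3Er_579
import Crest.Agent.R017.E3N_548

/-!
# Row 17, R8 (E3) (helper61): the frequencies between the two cuts, all lists

* `CtE` : the sum over the frequencies between the cuts (from 290's `CutXE`)
* `TcU` : the `T`-half;  **`ct_ub`** : `CtU` from `SzU`, `TcU`, `RnU`, `FaU`, `FbU`, `FcU`
-/

set_option autoImplicit false
set_option linter.unusedVariables false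

noncomputable section

open Finset
open scoped Classical ComplexConjugate ContDiff

namespace Crest.Agent.R017.E3F61

open Crest.Agent.R012 Crest.Agent.R012.Eis
open Crest.Agent.R012.MC (Wgt)
open Crest.Agent.R012.LS2 (S mem_S bl)
open Crest.Agent.R012.Weight600 (pw)
open Crest.Agent.R017.C70 (JC OKJ JW okJ_JW)
open Crest.Agent.R017.CM106 (CS FS)
open Crest.Agent.R017.HB645 (hh)
open Crest.Agent.R017.E3M829 (TC TF TF_nonneg Cut Tal)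
open Crest.Agent.R017.E3F548 (EF EF_nonneg XE XE_nonneg)
open Crest.Agent.R017.E3T829 (RR)
open Crest.Agent.R017.E3Z548
open Crest.Agent.R017.E3Kc548
open Crest.Agent.R017.E3Kh548
open Crest.Agent.R017.Mode405 (Slp)
open Crest.Agent.R017.E3Sz579 (Ld Md Ld_nonneg Md_nonneg)
open Crest.Agent.R017.E3Sx744 (Mxd Mxd_nonneg)
open Crest.Agent.R017.E3Xa72 (RHRx)
open Crest.Agent.R017.E3Hi290 (RN2XF RN2XF_nonneg)
open Crest.Agent.R017.CutX290 (CutXE)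
open Crest.Agent.R017.E3Er579 (TF_XE)
open Crest.Agent.R017.E2440 (StE TE)
open Crest.Agent.R017.Sf770 (JS okJ_JS)
open Crest.Agent.R017.E5L770 (omP)
open Crest.Agent.R017.P1k54 (wM wM_nonneg wgt_wM)
open Crest.Agent.R017.XT71 (Sys Win)
open Crest.Agent.R017.XG702 (Pcs Good_mono)
open Crest.Agent.R017.Prov71 (Kd Pq Dq)
open Crest.Agent.R017.XF71 (const_le_rpow)
open Crest.Agent.R017.E1551 (Adm)

/-- the truncated sequence on primary `d` -/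
lemma afT_fun {α : Eis → ℂ} (hp : ∀ n, α n ≠ 0 → IsPrim n) {E0 : ℝ} {d f : Eis} (hd : IsPrim d)
    (hf : f ∈ S E0) : afT α E0 d f = fun n => α (d * n) := by
  funext m
  unfold afT
  by_cases hm : IsPrim m
  · rw [if_pos ⟨hm, hd, hf⟩]
  · rw [if_neg fun h => hm h.1]
    by_contra h
    exact hm ((hp _ (Ne.symm h)).of_mul_left hd)

/-- `TF 0` by the error of the diagonal -/
lemma TF_zero_le (J : Finset (Eis × Eis)) (om : Eis × Eis → ℂ) (E0 : ℝ)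
    (T : Eis → Eis → Eis → ℂ) : TF 0 J om E0 T ≤ ∑ x ∈ J, EF om T E0 x := by
  unfold TF EF
  refine sum_le_sum fun x _ => ?_
  refine mul_le_mul_of_nonneg_left (mul_le_mul_of_nonneg_left ?_ (by positivity)) (by positivity)
  have h1 : ∀ e ∈ S E0, (nm e : ℝ) ^ (0 : ℝ) * ‖T x.1 e x.2‖ ^ 2 ≤
      ‖T x.1 e x.2‖ * ∑ e' ∈ S E0, ‖T x.1 e' x.2‖ := by
    intro e he
    rw [Real.rpow_zero, one_mul, sq]
    exact mul_le_mul_of_nonneg_left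
      (single_le_sum (f := fun e => ‖T x.1 e x.2‖) (fun _ _ => norm_nonneg _) he)
      (norm_nonneg _)
  refine (sum_le_sum h1).trans (le_of_eq ?_)
  rw [← sum_mul, sq]

/-- the sum of the `T`-numbers of the cube layer -/
def TcS (cc Yg K E0 E1 : ℝ) (n : ℕ) (α : Eis → ℂ) (H : ℕ → Eis → Eis → ℝ) : ℝ :=
  ∑ f ∈ S E0, ∑ i ∈ LI (1 / 10) (2 ^ n), ∑ d ∈ (JS n).image Prod.fst,
    (nm f : ℝ)⁻¹ * LVn (fun d _ n => α (d * n)) {d} {f} cc Yg K (H i d f) (Real.exp i)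
      (Real.exp i) E1 1 1 0

lemma JS_img {n : ℕ} {d : Eis} (hd : d ∈ (JS n).image Prod.fst) : IsPrim d := by
  obtain ⟨x, hx, rfl⟩ := mem_image.1 hd
  exact (JS_bd hx).1

set_option maxHeartbeats 1000000 in
/-- **the frequencies between the two cuts** -/
theorem CtE {w : ℝ → ℝ} (hw : Wgt w) (hw0 : ∀ x, 0 ≤ w x) {R0 : ℝ} (hR0 : 0 ≤ R0) (a A₁ : ℕ)
    (hA₁ : 1 < A₁) {ε : ℝ} (hε : 0 < ε) (hε1 : ε ≤ 1) :
    ∃ (c C c2 : ℝ), 1 ≤ c ∧ 1 ≤ C ∧ 1 ≤ c2 ∧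
    ∀ (Z : ℝ), 1 ≤ Z → ∀ (n : ℕ) (E0 E1 E1' K X : ℝ) (α : Eis → ℂ) (H : ℕ → Eis → Eis → ℝ)
      (u : Eis) (W0 : ℕ → Bool → Eis → Eis → ℝ → ℝ), u ≠ 0 →
      (∀ n, α n ≠ 0 → IsCoprime u n) → FS α → (∀ n, α n ≠ 0 → Squarefree n) →
      (∀ n, α n ≠ 0 → |Real.log (nm n) - Real.log X| ≤ R0) →
      0 < K → c2 * K ≤ Z → 1 ≤ E0 → E0 ≤ Z → 0 < E1' → 1 ≤ E1 → E1 ≤ Z →
      (2 : ℝ) ^ n ≤ Z → 0 < X → X ≤ Z ^ 5 → c * (Real.exp 1 * 2 ^ n) ≤ Z ^ 5 →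
      (∀ i d e, 0 < H i d e) →
      (∀ i ∈ LI (1 / 10) (2 ^ n), ∀ d ∈ (JS n).image Prod.fst, ∀ e ∈ S E0,
        c * (H i d e * Real.exp i ^ 2) ≤ K * X) →
      (∀ i jj d e, Slp a (W0 i jj d e)) →
      (∀ i ∈ LI (1 / 10) (2 ^ n),
        RHRx (c * Z ^ 300) A₁ (RR (JS n) (S E0)) (afT α E0) u (W0 i)) →
      CtS w K E0 E1 E1' n α ≤
        C * Z ^ ε * (K ^ (2 / 3 : ℝ) * ((2 ^ n / K ^ 2) ^ (1 / 6 : ℝ) *
            TF (1 / 2) (JS n) (omP n) E0 (Tal α)) +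
          K ^ (2 / 3 : ℝ) * (E1'⁻¹ * TF (-1) (JS n) (omP n) E0 (Tal α)) +
          K ^ (-(1 : ℝ) / 3) * E1 ^ 2 * 2 ^ n * ∑ x ∈ JS n, EF (omP n) (Tal α) E0 x +
          TcS c (Z ^ 5) K E0 E1 n α H + RnS c K E0 X n H W0) := by
  obtain ⟨A, c, C₁, c2, hc, hC₁, hc2, key⟩ := CutXE hw hw0 hR0 a A₁ hA₁ hε hε1
  obtain ⟨Mb, hMb, hOb⟩ := OmP_bd (A + 2)
  have hc0 : 0 < c := by linarith
  have hMb2 : 0 ≤ Mb ^ 2 := by positivity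
  refine ⟨c, C₁ * (1 + Mb ^ 2), c2, hc, one_le_mul_of_one_le_of_one_le hC₁ (by linarith), hc2, ?_⟩
  intro Z hZ n E0 E1 E1' K X α H u W0 hu hup hFS hsf hwin hK hKZ hE0 hE0Z hE1' hE1 hE1Z
    hnZ hX hXZ hcV hH hKX hS hRH
  have hZ0 : 0 < Z := by linarith
  have hE00 : 0 ≤ E0 := by linarith
  have hprim : ∀ m, α m ≠ 0 → IsPrim m := hFS.prim
  have h2n : (0 : ℝ) < 2 ^ n := by positivity
  have hlt : 0 < K * X := by positivity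
  obtain ⟨H', hH'⟩ : ∃ H' : ℕ → Eis → Eis → ℝ,
      H' = fun i d e => min (H i d e) (K * X / (c * Real.exp i ^ 2)) := ⟨_, rfl⟩
  have hH'0 : ∀ i d e, 0 < H' i d e := fun i d e => by
    rw [hH']
    exact lt_min (hH i d e) (by positivity)
  have hH'1 : ∀ i ∈ LI (1 / 10) (2 ^ n), ∀ d ∈ (JS n).image Prod.fst, ∀ e ∈ S E0,
      H' i d e = H i d e := by
    intro i hi d hd e he
    rw [hH']
    refine min_eq_left ?_
    rw [le_div_iff₀ (by positivity)]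
    linarith [hKX i hi d hd e he]
  have hH'2 : ∀ i d e, c * (H' i d e * Real.exp i ^ 2) ≤ K * X := by
    intro i d e
    have h1 : H' i d e ≤ K * X / (c * Real.exp i ^ 2) := by
      rw [hH']
      exact min_le_right _ _
    rw [le_div_iff₀ (by positivity)] at h1
    linarith
  have hY1 : ∀ i ∈ LI (1 / 10) (2 ^ n), c * Real.exp i ≤ Z ^ 5 := fun i hi =>
    (mul_le_mul_of_nonneg_left (mem_LI hi).2.2 hc0.le).trans hcV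
  have h := key (OmP n) Mb hMb (contDiff_OmP n) (fun m hm x => hOb n m hm x) 0 1 (by simp) Z hZ
    (Real.sqrt (2 ^ n)) (1 / 10) (2 ^ n) (omP n) α E0 (2 ^ n) E1 E1' K X H' u W0 hu hup hFS hsf
    hwin hE1' hE1 hE1Z (Real.sqrt_nonneg _) h2n.le
    (fun x hx => OmP_form n x) (fun i _ m hm _ h => OmP_win hm h) hK hKZ h2n.le hnZ hE00 hE0Z
    hnZ (fun x hx => (JS_bd hx).2.1.trans hnZ) (fun x hx => (JS_bd hx).2.2) hX hXZ hH'0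
    hY1 (fun i _ d _ e _ => hH'2 i d e) hS (fun i hi jj d hd f hf γ π h1 h2 h3 P hP => by
      have h4 := hRH i hi jj (d, f) (mem_product.2 ⟨hd, hf⟩) γ π h1 h2 h3 P hP
      beta_reduce at h4
      rw [afT_fun hprim (JS_img hd) hf] at h4
      exact h4)
  rw [← JS_eq] at h
  -- the sum of the numbers
  have hSum : (∑ f ∈ S E0, ∑ i ∈ LI (1 / 10) (2 ^ n), ∑ d ∈ (JS n).image Prod.fst,
      (nm f : ℝ)⁻¹ * LVn (fun d _ n => α (d * n)) {d} {f} c (Z ^ 5) K (H' i d f) (Real.exp i)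
        (Real.exp i) E1 1 1 (RN2XF c K (Real.exp i) X (H' i) (W0 i) d f)) ≤
      TcS c (Z ^ 5) K E0 E1 n α H + RnS c K E0 X n H W0 := by
    have e1 : RnS c K E0 X n H W0 = ∑ f ∈ S E0, ∑ i ∈ LI (1 / 10) (2 ^ n),
        ∑ d ∈ (JS n).image Prod.fst, FH K (H i d f) (Real.exp i) *
          RN2XF c K (Real.exp i) X (H i) (W0 i) d f := by
      unfold RnS
      exact (sum_congr rfl fun i _ => sum_comm).trans sum_comm
    rw [e1]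
    unfold TcS
    rw [← sum_add_distrib]
    refine sum_le_sum fun f hf => ?_
    rw [← sum_add_distrib]
    refine sum_le_sum fun i hi => ?_
    rw [← sum_add_distrib]
    refine sum_le_sum fun d hd => ?_
    rw [LVn_split, RN2XF_congr (W0 i) (hH'1 i hi d hd f hf), hH'1 i hi d hd f hf, mul_add]
    refine add_le_add le_rfl ?_
    have h1 := hH i d f
    have h3 := Real.exp_pos (i : ℝ)
    have hI : 0 < c * (X * Real.exp i * H i d f / K) := by positivity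
    have h4 : 0 ≤ FH K (H i d f) (Real.exp i) * RN2XF c K (Real.exp i) X (H i) (W0 i) d f :=
      mul_nonneg (FH_nonneg hK.le h1.le h3.le)
        (RN2XF_nonneg (Ld_nonneg hK h1 d) (Md_nonneg hc0.le hK h3 h1 hX d)
          (Mxd_nonneg hc0.le hK h3 h1 hX d) (by positivity) (fun jj => (hS i jj d f).nonneg _ hI))
    have h5 : (1 : ℝ) ≤ nm f := by
      exact_mod_cast nm_pos.mpr ((mem_S hE00).1 hf).2.1.ne_zero
    exact mul_le_of_le_one_left h4 (inv_le_one_of_one_le₀ h5)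
  have hT0 : 0 ≤ TcS c (Z ^ 5) K E0 E1 n α H := by
    unfold TcS
    refine sum_nonneg fun f _ => sum_nonneg fun i _ => sum_nonneg fun d _ => ?_
    exact mul_nonneg (by positivity) (LVn_nonneg hK.le (hH i d f).le (Real.exp_pos _).le
      (Real.exp_pos _).le (by linarith) zero_le_one le_rfl)
  have hR0' : 0 ≤ RnS c K E0 X n H W0 := by
    unfold RnS
    refine sum_nonneg fun i _ => sum_nonneg fun d _ => sum_nonneg fun e _ => ?_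
    have h1 := hH i d e
    have h3 := Real.exp_pos (i : ℝ)
    refine mul_nonneg (FH_nonneg hK.le h1.le h3.le) ?_
    have hI : 0 < c * (X * Real.exp i * H i d e / K) := by positivity
    exact RN2XF_nonneg (Ld_nonneg hK h1 d) (Md_nonneg hc0.le hK h3 h1 hX d)
      (Mxd_nonneg hc0.le hK h3 h1 hX d) (by positivity) (fun jj => (hS i jj d e).nonneg _ hI)
  have hZε : 1 ≤ Z ^ ε := Real.one_le_rpow hZ hε.le
  -- the errors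
  have hXE : K ^ (2 / 3 : ℝ) * ∑ f ∈ S E0, ((E1'⁻¹ * (nm f : ℝ)⁻¹ +
      (2 ^ n / K ^ 2) ^ (1 / 6 : ℝ) * (nm f : ℝ) ^ (1 / 2 : ℝ) + E1 ^ 2 * 2 ^ n / K) *
        XE (JS n) (omP n) (Tal α) f) ≤
      K ^ (2 / 3 : ℝ) * ((2 ^ n / K ^ 2) ^ (1 / 6 : ℝ) *
            TF (1 / 2) (JS n) (omP n) E0 (Tal α)) +
          K ^ (2 / 3 : ℝ) * (E1'⁻¹ * TF (-1) (JS n) (omP n) E0 (Tal α)) +
          K ^ (-(1 : ℝ) / 3) * E1 ^ 2 * 2 ^ n * ∑ x ∈ JS n, EF (omP n) (Tal α) E0 x := by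
    have e1 : ∑ f ∈ S E0, ((E1'⁻¹ * (nm f : ℝ)⁻¹ +
      (2 ^ n / K ^ 2) ^ (1 / 6 : ℝ) * (nm f : ℝ) ^ (1 / 2 : ℝ) + E1 ^ 2 * 2 ^ n / K) *
        XE (JS n) (omP n) (Tal α) f) =
        E1'⁻¹ * TF (-1) (JS n) (omP n) E0 (Tal α) +
        (2 ^ n / K ^ 2) ^ (1 / 6 : ℝ) * TF (1 / 2) (JS n) (omP n) E0 (Tal α) +
        E1 ^ 2 * 2 ^ n / K * TF 0 (JS n) (omP n) E0 (Tal α) := by
      rw [TF_XE (-1), TF_XE (1 / 2), TF_XE 0, mul_sum, mul_sum, mul_sum, ← sum_add_distrib,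
        ← sum_add_distrib]
      refine sum_congr rfl fun f _ => ?_
      rw [Real.rpow_neg_one, Real.rpow_zero]
      ring
    have e2 : K ^ (2 / 3 : ℝ) * (E1 ^ 2 * 2 ^ n / K) = K ^ (-(1 : ℝ) / 3) * E1 ^ 2 * 2 ^ n := by
      have h1 : K ^ (-(1 : ℝ) / 3) = K ^ (2 / 3 : ℝ) / K := by
        rw [eq_div_iff hK.ne']
        nth_rewrite 2 [← Real.rpow_one K]
        rw [← Real.rpow_add hK]
        norm_num
      rw [h1]
      ring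
    have e3 := TF_zero_le (JS n) (omP n) E0 (Tal α)
    have e4 : 0 ≤ K ^ (-(1 : ℝ) / 3) * E1 ^ 2 * 2 ^ n := by positivity
    have e5 := mul_le_mul_of_nonneg_left e3 e4
    rw [e1]
    calc K ^ (2 / 3 : ℝ) * (E1'⁻¹ * TF (-1) (JS n) (omP n) E0 (Tal α) +
        (2 ^ n / K ^ 2) ^ (1 / 6 : ℝ) * TF (1 / 2) (JS n) (omP n) E0 (Tal α) +
        E1 ^ 2 * 2 ^ n / K * TF 0 (JS n) (omP n) E0 (Tal α)) =
        K ^ (2 / 3 : ℝ) * ((2 ^ n / K ^ 2) ^ (1 / 6 : ℝ) *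
            TF (1 / 2) (JS n) (omP n) E0 (Tal α)) +
          K ^ (2 / 3 : ℝ) * (E1'⁻¹ * TF (-1) (JS n) (omP n) E0 (Tal α)) +
          (K ^ (2 / 3 : ℝ) * (E1 ^ 2 * 2 ^ n / K)) * TF 0 (JS n) (omP n) E0 (Tal α) := by ring
      _ ≤ _ := by
          rw [e2]
          exact add_le_add le_rfl e5
  unfold CtS
  refine h.trans ?_
  rw [abs_zero, add_zero, one_pow, mul_one]
  rw [mul_assoc C₁ (1 + Mb ^ 2), mul_comm (1 + Mb ^ 2) (Z ^ ε), ← mul_assoc C₁,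
    mul_assoc (C₁ * Z ^ ε) (1 + Mb ^ 2)]
  refine mul_le_mul_of_nonneg_left ?_ (by positivity)
  have g1 := mul_le_mul_of_nonneg_left hSum hMb2
  have g2 := TF_nonneg (1 / 2) (JS n) (omP n) E0 (Tal α)
  have g3 := TF_nonneg (-1) (JS n) (omP n) E0 (Tal α)
  have g4 : 0 ≤ ∑ x ∈ JS n, EF (omP n) (Tal α) E0 x := sum_nonneg fun x _ => EF_nonneg _ _ _ _
  have g5 : 0 ≤ K ^ (2 / 3 : ℝ) * ((2 ^ n / K ^ 2) ^ (1 / 6 : ℝ) *
            TF (1 / 2) (JS n) (omP n) E0 (Tal α)) +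
          K ^ (2 / 3 : ℝ) * (E1'⁻¹ * TF (-1) (JS n) (omP n) E0 (Tal α)) +
          K ^ (-(1 : ℝ) / 3) * E1 ^ 2 * 2 ^ n * ∑ x ∈ JS n, EF (omP n) (Tal α) E0 x := by
    positivity
  nlinarith

section

variable {A ι Λ : Type*}

/-- **(Tc)** the `T`-half of the cube layer -/
def TcU (Sy : Sys A ι) (Dom : Set ((ι → ℝ) × (Kd → ℝ))) (al : Set ((ι → ℝ) × ℝ))
    (E : (ι → ℝ) × (Kd → ℝ) → ℝ) (lf : A → ℝ) (nf : A → ℕ) (e0 : ℝ)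
    (alp : Λ → A → List Pq → Eis → ℂ) (ok : Λ → A → List Pq → Prop)
    (H : ℝ → A → List Pq → ℕ → Eis → Eis → ℝ) : Prop :=
  ∀ ε : ℝ, 0 < ε → ∃ δ : ℝ, 0 < δ ∧ ∀ (lam : Λ) (N : ℕ) (B : ℝ), ∀ cc : ℝ, 1 ≤ cc →
    ∃ δ' : ℝ, 0 < δ' ∧
    ∃ X₀ : ℝ, 1 < X₀ ∧ ∀ X : ℝ, X₀ ≤ X → ∀ (a : A) (ps : List Pq), ps.length ≤ N →
      (∀ p ∈ ps, Dq.lump p ∨ Dq.nl X p ≤ δ) → ∀ q ∈ Dom, Win Sy q.1 δ N B δ' X a →
      (∀ t, |Dq.mass X ps t - q.2 t| ≤ δ) → Dq.Good X δ' B ps →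
      (∀ p ∈ ps, Dq.lump p → (Sy.ev X a, Dq.nl X p) ∈ al) → ok lam a ps → ∀ Yg : ℝ,
      ∑ f ∈ S (Real.exp (e0 * lf a)), ∑ i ∈ LI (1 / 10) (2 ^ nf a),
        ∑ d ∈ (JS (nf a)).image Prod.fst, (nm f : ℝ)⁻¹ *
          LVn (fun d _ n => alp lam a ps (d * n)) {d} {f} cc Yg (Real.exp (lf a))
            (H cc a ps i d f) (Real.exp i) (Real.exp i) (Real.exp (lf a / 20)) 1 1 0 ≤
      X ^ (E q + ε)

/-- numbers only -/
lemma fin_num2 {C P y z a b c t r G : ℝ} (hC : 1 ≤ C) (hP : 0 < P) (hy : 1 ≤ y)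
    (hz0 : 0 ≤ C * z) (hz : z ≤ y) (h : 5 * C ≤ y) (ha : a ≤ P) (hb : b ≤ P) (hc : c ≤ P)
    (ht : t ≤ P) (hr : r ≤ P) (hG : G ≤ C * z * (a + b + c + t + r)) :
    G ≤ y * y * P := by
  have h5 : a + b + c + t + r ≤ 5 * P := by linarith
  have h6 := mul_le_mul_of_nonneg_left h5 hz0
  have h7 : C * z * (5 * P) ≤ C * y * (5 * P) :=
    mul_le_mul_of_nonneg_right (mul_le_mul_of_nonneg_left hz (by linarith)) (by linarith)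
  have h9 : C * y * (5 * P) = (5 * C) * (y * P) := by ring
  have h10 : (5 * C) * (y * P) ≤ y * (y * P) :=
    mul_le_mul_of_nonneg_right h (by positivity)
  have h12 : y * (y * P) = y * y * P := by ring
  linarith

set_option maxHeartbeats 4000000 in
/-- **the frequencies between the two cuts, all lists** -/
theorem ct_ub {Sy : Sys A ι} {Dom : Set ((ι → ℝ) × (Kd → ℝ))} {al : Set ((ι → ℝ) × ℝ)}
    {E : (ι → ℝ) × (Kd → ℝ) → ℝ} {lf : A → ℝ} {nf : A → ℕ} {pf Yf : A → List Pq → ℝ}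
    {e0 m₁ : ℝ} {alp : Λ → A → List Pq → Eis → ℂ} {ok : Λ → A → List Pq → Prop}
    {H : ℝ → A → List Pq → ℕ → Eis → Eis → ℝ} (he0 : 0 ≤ e0) (he1 : e0 ≤ 1)
    (hH : ∀ cc a ps i d e, 0 < H cc a ps i d e)
    (hsz : SzU Sy Dom al lf nf pf Yf e0 alp ok) (hT : TcU Sy Dom al E lf nf e0 alp ok H)
    (hR : RnU Sy Dom al E lf nf pf e0 alp ok H) (ha : FaU Sy Dom al E lf nf e0 alp ok)
    (hb : FbU Sy Dom al E lf nf e0 m₁ alp ok) (hc : FcU Sy Dom al E lf nf e0 20 alp ok)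
    (Rw : Λ → ℝ) : CtU Sy Dom al E lf nf Rw e0 m₁ alp ok := by
  intro ε hε
  have hε4 : 0 < ε / 4 := by positivity
  obtain ⟨δ₁, hδ₁, hT⟩ := hT (ε / 4) hε4
  obtain ⟨δ₂, hδ₂, hR⟩ := hR (ε / 4) hε4
  obtain ⟨δ₃, hδ₃, ha⟩ := ha (ε / 4) hε4
  obtain ⟨δ₄, hδ₄, hb⟩ := hb (ε / 4) hε4
  obtain ⟨δ₅, hδ₅, hc⟩ := hc (ε / 4) hε4
  obtain ⟨δ₇, hδ₇, hsz⟩ := hsz
  obtain ⟨δ, hδ, d1, d2, d3, d4, d5, d7⟩ : ∃ δ : ℝ, 0 < δ ∧ δ ≤ δ₁ ∧ δ ≤ δ₂ ∧ δ ≤ δ₃ ∧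
      δ ≤ δ₄ ∧ δ ≤ δ₅ ∧ δ ≤ δ₇ := by
    refine ⟨min δ₁ (min δ₂ (min δ₃ (min δ₄ (min δ₅ δ₇)))), ?_, ?_, ?_, ?_, ?_, ?_, ?_⟩
    · simp only [lt_min_iff]
      exact ⟨hδ₁, hδ₂, hδ₃, hδ₄, hδ₅, hδ₇⟩
    all_goals simp
  refine ⟨δ, hδ, fun lam N B => ?_⟩
  obtain ⟨B₀, R₀, hB₀, hR₀, ζ₇, hζ₇, X₇, hX₇, hsz⟩ := hsz lam N B
  obtain ⟨B₃, hB₃⟩ : ∃ B₃ : ℝ, B₃ = B₀ + 1 := ⟨_, rfl⟩
  have hB₃0 : 0 < B₃ := by linarith
  obtain ⟨a₁, A₀, hR⟩ := hR lam N B B₃ hB₃0.le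
  obtain ⟨ε', hε'⟩ : ∃ ε' : ℝ, ε' = min 1 (ε / (4 * B₃)) := ⟨_, rfl⟩
  have hε'0 : 0 < ε' := by rw [hε']; positivity
  have hε'1 : ε' ≤ 1 := by rw [hε']; exact min_le_left _ _
  have hε'2 : B₃ * ε' ≤ ε / 4 := by
    have h1 : ε' ≤ ε / (4 * B₃) := by rw [hε']; exact min_le_right _ _
    rw [le_div_iff₀ (by positivity)] at h1
    linarith
  have hA2 : 1 < max A₀ 2 := lt_of_lt_of_le (by norm_num) (le_max_right _ _)
  obtain ⟨c, C, c2, hc1, hC, hc2, key⟩ := CtE (wgt_wM (Rw lam)) (wM_nonneg _) hR₀ a₁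
    (max A₀ 2) hA2 hε'0 hε'1
  obtain ⟨ζ₁, hζ₁, X₁, hX₁, hT⟩ := hT lam N B c hc1
  obtain ⟨ζ₂, hζ₂, X₂, hX₂, hR⟩ := hR (max A₀ 2) (le_max_left _ _) c hc1
  obtain ⟨ζ₃, hζ₃, X₃, hX₃, ha⟩ := ha lam N B
  obtain ⟨ζ₄, hζ₄, X₄, hX₄, hb⟩ := hb lam N B
  obtain ⟨ζ₅, hζ₅, X₅, hX₅, hc⟩ := hc lam N B
  obtain ⟨ζ, hζ, z1, z2, z3, z4, z5, z7⟩ : ∃ ζ : ℝ, 0 < ζ ∧ ζ ≤ ζ₁ ∧ ζ ≤ ζ₂ ∧ ζ ≤ ζ₃ ∧
      ζ ≤ ζ₄ ∧ ζ ≤ ζ₅ ∧ ζ ≤ ζ₇ := by
    refine ⟨min ζ₁ (min ζ₂ (min ζ₃ (min ζ₄ (min ζ₅ ζ₇)))), ?_, ?_, ?_, ?_, ?_, ?_, ?_⟩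
    · simp only [lt_min_iff]
      exact ⟨hζ₁, hζ₂, hζ₃, hζ₄, hζ₅, hζ₇⟩
    all_goals simp
  obtain ⟨X₈, hX₈, hC8⟩ := const_le_rpow (C := 5 * C) (ε := ε / 4) hε4
  obtain ⟨X₀, hX₀, x1, x2, x3, x4, x5, x7, x8, x9⟩ : ∃ X₀ : ℝ, 1 < X₀ ∧ X₁ ≤ X₀ ∧ X₂ ≤ X₀ ∧
      X₃ ≤ X₀ ∧ X₄ ≤ X₀ ∧ X₅ ≤ X₀ ∧ X₇ ≤ X₀ ∧ X₈ ≤ X₀ ∧ c * Real.exp 1 + 2 + c2 ≤ X₀ := by
    refine ⟨max X₁ (max X₂ (max X₃ (max X₄ (max X₅ (max X₇ (max X₈
      (c * Real.exp 1 + 2 + c2))))))), ?_, ?_, ?_, ?_, ?_, ?_, ?_, ?_, ?_⟩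
    · exact lt_of_lt_of_le hX₁ (le_max_left _ _)
    all_goals simp
  refine ⟨ζ, hζ, X₀, hX₀, fun X hX a ps k1 k2 q k3 k4 k5 k6 k7 hok => ?_⟩
  have hX1 : 1 ≤ X := by linarith
  have hX0 : 0 < X := by linarith
  have hP : Prem Sy Dom al δ N B ζ X a ps q := ⟨k1, k2, k3, k4, k5, k6, k7⟩
  have g7 := hP.mono hX1 d7 z7
  obtain ⟨hl0, hlK, hnK, hpK, hY0, hadm⟩ := hsz X (x7.trans hX) a ps g7.len g7.gl q g7.dom g7.win
    g7.mass g7.good g7.al hok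
  have g1 := hP.mono hX1 d1 z1
  have iT := hT X (x1.trans hX) a ps g1.len g1.gl q g1.dom g1.win g1.mass g1.good g1.al hok
  have g2 := hP.mono hX1 d2 z2
  obtain ⟨iR1, u, W0, hu, hup, hS, hRH, iR2⟩ := hR X (x2.trans hX) a ps g2.len g2.gl q g2.dom
    g2.win g2.mass g2.good g2.al hok
  have g3 := hP.mono hX1 d3 z3
  have ia := ha X (x3.trans hX) a ps g3.len g3.gl q g3.dom g3.win g3.mass g3.good g3.al hok
  have g4 := hP.mono hX1 d4 z4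
  have ib := hb X (x4.trans hX) a ps g4.len g4.gl q g4.dom g4.win g4.mass g4.good g4.al hok
  have g5 := hP.mono hX1 d5 z5
  have ic := hc X (x5.trans hX) a ps g5.len g5.gl q g5.dom g5.win g5.mass g5.good g5.al hok
  beta_reduce at ia ib ic
  -- sizes
  have hec : 0 < c * Real.exp 1 := by positivity
  have hXc : c * Real.exp 1 ≤ X := by linarith
  have hXc2 : c2 ≤ X := by linarith
  obtain ⟨Z, hZ⟩ : ∃ Z : ℝ, Z = X ^ B₃ := ⟨_, rfl⟩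
  have hZ1 : 1 ≤ Z := by rw [hZ]; exact Real.one_le_rpow hX1 hB₃0.le
  have hZe : Z = X ^ B₀ * X := by
    rw [hZ, hB₃, Real.rpow_add hX0, Real.rpow_one]
  have hXB : 1 ≤ X ^ B₀ := Real.one_le_rpow hX1 hB₀
  have hBZ : X ^ B₀ ≤ Z := by
    rw [hZe]
    exact le_mul_of_one_le_right (by linarith) hX1
  have hE0K : Real.exp (e0 * lf a) ≤ Real.exp (lf a) :=
    Real.exp_le_exp.2 (mul_le_of_le_one_left hl0 he1)
  have hE01 : 1 ≤ Real.exp (e0 * lf a) := Real.one_le_exp (by positivity)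
  have hE1K : Real.exp (lf a / 20) ≤ Real.exp (lf a) :=
    Real.exp_le_exp.2 (div_le_self hl0 (by norm_num))
  have hE11 : 1 ≤ Real.exp (lf a / 20) := Real.one_le_exp (by positivity)
  have hZ5 : Z ≤ Z ^ 5 := le_self_pow₀ hZ1 (by norm_num)
  have hc2K : c2 * Real.exp (lf a) ≤ Z := by
    rw [hZe, mul_comm (X ^ B₀) X]
    exact mul_le_mul hXc2 hlK (Real.exp_pos _).le hX0.le
  have hcV : c * (Real.exp 1 * 2 ^ nf a) ≤ Z ^ 5 := by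
    refine le_trans ?_ hZ5
    rw [hZe]
    have h1 : (0 : ℝ) < 2 ^ nf a := by positivity
    calc c * (Real.exp 1 * 2 ^ nf a) = (c * Real.exp 1) * 2 ^ nf a := by ring
      _ ≤ X * X ^ B₀ := mul_le_mul hXc hnK h1.le hX0.le
      _ = _ := mul_comm _ _
  have hFS := adm_fs hY0 hadm
  have hmain := key Z hZ1 (nf a) (Real.exp (e0 * lf a)) (Real.exp (lf a / 20))
    (Real.exp (lf a / m₁)) (Real.exp (lf a)) (Real.exp (pf a ps)) (alp lam a ps)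
    (H c a ps) u W0 hu hup hFS (fun n hn => ((mem_S hY0).1 (hadm.sup n hn)).2.2)
    (fun n hn => (hadm.win n hn).trans (by linarith)) (Real.exp_pos _) hc2K hE01
    ((hE0K.trans hlK).trans hBZ) (Real.exp_pos _) hE11 ((hE1K.trans hlK).trans hBZ)
    (hnK.trans hBZ) (Real.exp_pos _)
    ((hpK.trans hBZ).trans hZ5) hcV (hH c a ps) iR1 hS (by rw [hZ]; exact hRH)
  have iT' : TcS c (Z ^ 5) (Real.exp (lf a)) (Real.exp (e0 * lf a)) (Real.exp (lf a / 20))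
      (nf a) (alp lam a ps) (H c a ps) ≤ X ^ (E q + ε / 4) := iT (Z ^ 5)
  have iR' : RnS c (Real.exp (lf a)) (Real.exp (e0 * lf a)) (Real.exp (pf a ps)) (nf a)
      (H c a ps) W0 ≤ X ^ (E q + ε / 4) := iR2
  obtain ⟨P, hPd⟩ : ∃ P : ℝ, P = X ^ (E q + ε / 4) := ⟨_, rfl⟩
  rw [← hPd] at ia ib ic iT' iR'
  have hP0 : 0 < P := by rw [hPd]; positivity
  have hZε : Z ^ ε' ≤ X ^ (ε / 4) := by
    rw [hZ, ← Real.rpow_mul hX0.le]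
    exact Real.rpow_le_rpow_of_exponent_le hX1 hε'2
  have hXε : 1 ≤ X ^ (ε / 4) := Real.one_le_rpow hX1 hε4.le
  have hCZ : 0 ≤ C * Z ^ ε' := by positivity
  have h10 : 5 * C ≤ X ^ (ε / 4) := hC8 X (x8.trans hX)
  have h11 := fin_num2 hC hP0 hXε hCZ hZε h10 ia ib ic iT' iR' hmain
  refine h11.trans ?_
  rw [hPd, ← Real.rpow_add hX0, ← Real.rpow_add hX0]
  exact Real.rpow_le_rpow_of_exponent_le hX1 (by linarith)

end

end Crest.Agent.R017.E3F61
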