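import Crest.Agent.R017.E3Fx_579
import Crest.Agent.R017.E3Fb_61

/-!
# Row 17, exceptional class, E3 (helper579): (Fa), (Fb), (Fc) of the frame for the differences

* `FrH` : the hypotheses of the frame `S8X`
* `tfX`, `efX` : the moments, all lists
* **`faX`**, **`fbX`**, **`fcX`** : helper61's `FaU`, `FbU`, `FcU` for `Dom8X c β Par DifL`
-/

set_option autoImplicit false
set_option linter.unusedSectionVars false
set_option linter.unusedVariables false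

noncomputable section

open Finset MeasureTheory
open scoped ComplexConjugate Classical

namespace Crest.Agent.R017.E3Fw579

open Crest.Agent.R012 Crest.Agent.R012.Eis Crest.Agent.R012.MC
open Crest.Agent.R012.LS2 (S mem_S)
open Crest.Agent.R017.C70
open Crest.Agent.R017.B770
open Crest.Agent.R017.FE47 (PU cx SM)
open Crest.Agent.R017.Prov71
open Crest.Agent.R017.I1146 hiding cN
open Crest.Agent.R017.I1K764
open Crest.Agent.R017.XG702 (Pcs)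
open Crest.Agent.R017.XT71 (Sys Win mx)
open Crest.Agent.R017.UM71 Crest.Agent.R017.End699
open Crest.Agent.R017.E5B71 Crest.Agent.R017.E5P571 Crest.Agent.R017.E5L770
open Crest.Agent.R017.ExBox960 Crest.Agent.R017.ExP960
open Crest.Agent.R017.Sf770
open Crest.Agent.R017.P1l54 (ParOK)
open Crest.Agent.R017.P1X960
open Crest.Agent.R017.Sup271 (NPm)
open Crest.Agent.R017.PX764 (Dk)
open Crest.Agent.R017.TM708 (PD R5)
open Crest.Agent.R017.P10X764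
open Crest.Agent.R017.P10146 (omP_bd)
open Crest.Agent.R017.E3Nx744 (CBA thK)
open Crest.Agent.R017.TNj90 (JBc)
open Crest.Agent.R017.E3T829 (hE hE_nonneg)
open Crest.Agent.R017.E3M829 (TF TF_nonneg Tal)
open Crest.Agent.R017.E3F548 (EF EF_nonneg)
open Crest.Agent.R017.E3Kc548 (LI mem_LI)
open Crest.Agent.R017.FrX579 Crest.Agent.R017.E3Er579 Crest.Agent.R017.E3Fs579
open Crest.Agent.R017.E3Fx579
open Crest.Agent.R017.E3F61 (OU FaU FbU FcU JS_bd)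

variable {Λ : Type*}

/-- **the hypotheses of the frame `S8X`** -/
structure FrH (π : Λ → DPar) (h : ℝ → ℝ) (c₀ Rh e0 c β : ℝ) (Par : Set (Fin 3 ⊕ Fin 5 → ℝ))
    (D5 : Set (Fin 5 → ℝ)) (ℓ Kf Tf Tt : (Fin 5 → ℝ) → ℝ)
    (L0 : (Fin 3 ⊕ Fin 5 → ℝ) → ℝ) : Prop where
  hpu : PU h c₀
  hP : ∀ lam, (π lam).OK
  hex : ∀ lam, ¬ NPm (π lam).n (π lam).ψ (π lam).l₂ 1
  hRh0 : 0 ≤ Rh
  hRh : ∀ u, cx h u ≠ 0 → |u| ≤ Rh
  he0 : 0 ≤ e0
  he0' : e0 ≤ 1 / 64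
  hc0 : 0 ≤ c
  hc1 : c ≤ 1
  hPar : ∀ p ∈ Par, ParOK p
  hDN : ∀ p : IX5 → ℝ, prX p ∈ Par → ZR β p → bN p ∈ D5
  hDR : ∀ p : IX5 → ℝ, prX p ∈ Par → ZR β p → bR p ∈ D5
  hR5 : ∀ p : IX5 → ℝ, prX p ∈ Par → ZR β p → R5 (bN p)
  hKN : ∀ p : IX5 → ℝ, prX p ∈ Par → ZR β p →
    Kf (bN p) = max (cκ (prX p)) (5 / 4 * cN (prX p))
  hKR : ∀ p : IX5 → ℝ, prX p ∈ Par → ZR β p →
    Kf (bR p) = max (cκ (prX p)) (5 / 4 * cN (prX p))
  hTN : ∀ (p : IX5 → ℝ) (v₀ v₁ v₂ b x' : ℝ), ChC c β Par p v₀ v₁ v₂ b x' →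
    DifL p v₀ v₁ v₂ → tpW c p b ≤ Tf (bN p)
  hTR : ∀ (p : IX5 → ℝ) (v₀ v₁ v₂ b x' : ℝ), ChC c β Par p v₀ v₁ v₂ b x' →
    DifL p v₀ v₁ v₂ → tpW c p b ≤ Tf (bR p)
  hcb : CBA π h Dk Kf Tf D5 ℓ
  hL0 : ∀ p : IX5 → ℝ, prX p ∈ Par → ZR β p →
    max 0 (5 / 4 * cN (prX p) - cκ (prX p)) + lmX ℓ Kf Tf p ≤ L0 (prX p)
  hbt : BTl c β Par L0 Tt

/-- the last step: exponents -/
lemma fin_exp {X ε C g κL n L₀ t₀ E : ℝ} (hX : 1 < X) (hε : 0 < ε) (hC0 : 0 ≤ C) (hg0 : 0 ≤ g)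
    (hC : C ≤ X ^ (ε / 8)) (hg : g ≤ X ^ (ε / 4))
    (hE : κL + n + L₀ + t₀ ≤ (E + ε / 8) * Real.log X) :
    g * (C * 1 ^ 2 * X ^ (ε / 8) * X ^ (ε / 8) * Real.exp (-(n / 3)) *
      Real.exp (κL + n + n / 3 + L₀ + t₀)) ≤ X ^ (E + ε) := by
  have hX0 : 0 < X := by linarith
  have h1 : Real.exp (-(n / 3)) * Real.exp (κL + n + n / 3 + L₀ + t₀) ≤ X ^ (E + ε / 8) := by
    rw [← Real.exp_add, Real.rpow_def_of_pos hX0]
    exact Real.exp_le_exp.2 (by linarith)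
  calc g * (C * 1 ^ 2 * X ^ (ε / 8) * X ^ (ε / 8) * Real.exp (-(n / 3)) *
      Real.exp (κL + n + n / 3 + L₀ + t₀)) =
      g * (C * X ^ (ε / 8) * X ^ (ε / 8) * (Real.exp (-(n / 3)) *
      Real.exp (κL + n + n / 3 + L₀ + t₀))) := by ring
    _ ≤ X ^ (ε / 4) * (X ^ (ε / 8) * X ^ (ε / 8) * X ^ (ε / 8) * X ^ (E + ε / 8)) := by gcongr
    _ = X ^ (ε / 4 + (ε / 8 + ε / 8 + ε / 8 + (E + ε / 8))) := by
        rw [← Real.rpow_add hX0, ← Real.rpow_add hX0, ← Real.rpow_add hX0, ← Real.rpow_add hX0]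
    _ ≤ X ^ (E + ε) := Real.rpow_le_rpow_of_exponent_le hX.le (by linarith)

set_option maxHeartbeats 2000000 in
/-- **the moments in the frame `S8X`**, all lists -/
theorem momX {π : Λ → DPar} {h : ℝ → ℝ} {c₀ Rh e0 c β : ℝ} {Par : Set (Fin 3 ⊕ Fin 5 → ℝ)}
    {D5 : Set (Fin 5 → ℝ)} {ℓ Kf Tf Tt : (Fin 5 → ℝ) → ℝ} {L0 : (Fin 3 ⊕ Fin 5 → ℝ) → ℝ}
    (H : FrH π h c₀ Rh e0 c β Par D5 ℓ Kf Tf Tt L0) {c1 c2 t : ℝ} (hc1 : |c1| ≤ 1)
    (hc2 : 0 ≤ c2) (hc2' : c2 ≤ 1) (ht0 : 0 ≤ t) (ht2 : t ≤ 2) (hlin : LinX c1 c2 t)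
    {ε : ℝ} (hε : 0 < ε) :
    ∃ δ : ℝ, 0 < δ ∧ ∀ (lam : Λ × Eis) (N : ℕ) (B : ℝ), ∃ δ' : ℝ, 0 < δ' ∧
      ∃ X₀ : ℝ, 1 < X₀ ∧ ∀ X : ℝ, X₀ ≤ X → ∀ (a : BcX) (ps : List Pq), ps.length ≤ N →
        (∀ p ∈ ps, Dq.lump p ∨ Dq.nl X p ≤ δ) → ∀ q ∈ Dom8X c β Par DifL,
        Win S8X q.1 δ N B δ' X a → (∀ t, |Dq.mass X ps t - q.2 t| ≤ δ) → Dq.Good X δ' B ps →
        (∀ p ∈ ps, ¬ Dq.lump p) → okCX (π lam.1) lam.2 a ps ∧ okD a →
        Real.exp (c1 * a.1.l + c2 * Real.log (2 ^ nw c a)) *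
          TF (1 - t) (JS (nw c a)) (omP (nw c a)) (Real.exp (e0 * a.1.l))
            (Tal (alX π h lam a ps)) ≤ X ^ (E8X L0 q + ε) ∧
        (t = 0 → Real.exp (c1 * a.1.l + c2 * Real.log (2 ^ nw c a)) *
          ∑ x ∈ JS (nw c a), EF (omP (nw c a)) (Tal (alX π h lam a ps))
            (Real.exp (e0 * a.1.l)) x ≤ X ^ (E8X L0 q + ε)) := by
  obtain ⟨t₀, ht₀, ht₁, ht₂⟩ : ∃ t₀ : ℝ, 0 < t₀ ∧ t₀ ≤ 1 / 100000 ∧ t₀ ≤ ε / 400 :=
    ⟨min (1 / 100000) (ε / 400), lt_min (by norm_num) (by positivity), min_le_left _ _,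
      min_le_right _ _⟩
  have hε8 : 0 < ε / 8 := by positivity
  obtain ⟨δ, hδ, hfr⟩ := frX H.hpu H.hP H.hex H.hRh0 H.hRh H.he0
    (H.he0'.trans (by norm_num)) H.hc0 H.hc1 H.hPar H.hDN H.hDR H.hR5 H.hKN H.hKR H.hTN H.hTR H.hcb
    hε8 ht₀
  refine ⟨δ, hδ, fun lam N B => ?_⟩
  have hcw : 1 ≤ Real.exp 1 * Real.exp 1 := by
    have := Real.one_le_exp (zero_le_one (α := ℝ))
    nlinarith
  obtain ⟨B₂, J, R', hB₂, hJ, hR', δ', hδ', X₀, hX₀, hfr⟩ := hfr lam N B _ hcw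
  have hB0 : 0 < B₂ := by linarith
  obtain ⟨C₁, hC₁, HT⟩ := TFlJ hR' hε8 hJ hB0 ht0 ht2
  obtain ⟨C₂, hC₂, HE⟩ := EFlJ hR' hε8 hJ hB0
  obtain ⟨C, hC⟩ : ∃ C : ℝ, C = max C₁ C₂ + 200 * (1 + 1 / (ε / (8 * B₂))) + 1 := ⟨_, rfl⟩
  have hεB : 0 < ε / (8 * B₂) := by positivity
  have hC3 : 0 ≤ 200 * (1 + 1 / (ε / (8 * B₂))) := by positivity
  have hC12 := le_max_left C₁ C₂
  have hC22 := le_max_right C₁ C₂
  have hC0 : 1 ≤ C := by linarith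
  obtain ⟨Q, hQ⟩ : ∃ Q : ℝ, Q = 1 / t₀ + 8 * Real.log C / ε := ⟨_, rfl⟩
  have hlC : 0 ≤ Real.log C := Real.log_nonneg hC0
  have hQ1 : 0 ≤ 1 / t₀ := by positivity
  have hQ2 : 0 ≤ 8 * Real.log C / ε := by positivity
  refine ⟨δ', hδ', max X₀ (Real.exp Q), hX₀.trans_le (le_max_left _ _), ?_⟩
  intro X hX a ps k1 k2 q k3 k4 k5 k6 k7 hok
  have hXX : X₀ ≤ X := (le_max_left _ _).trans hX
  have hXQ : Real.exp Q ≤ X := (le_max_right _ _).trans hX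
  have hX1 : 1 < X := by linarith
  have hX0 : 0 < X := by linarith
  have hQL : Q ≤ Real.log X := by
    have := Real.log_le_log (Real.exp_pos Q) hXQ
    rwa [Real.log_exp] at this
  have hL1 : 1 ≤ t₀ * Real.log X := by
    have h1 : 1 / t₀ ≤ Real.log X := by linarith
    rw [div_le_iff₀ ht₀] at h1
    linarith
  have hCX : C ≤ X ^ (ε / 8) := by
    have h1 : 8 * Real.log C / ε ≤ Real.log X := by linarith
    rw [div_le_iff₀ hε] at h1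
    rw [Real.rpow_def_of_pos hX0]
    calc C = Real.exp (Real.log C) := (Real.exp_log (by linarith)).symm
      _ ≤ _ := Real.exp_le_exp.2 (by linarith)
  have F := hfr X hXX a ps k1 k2 q k3 k4 k5 k6 k7 hok
  have hl := linesX H.he0 H.he0' H.hPar H.hR5 H.hL0 H.hbt hc1 hc2 hc2' hlin ht₀ ht₁ hL1 k3 F
  obtain ⟨hX3, hkl, hzl, hAl, hnl, hn0, hn1, hnp, hyl, hyX, hsl, hY1, hYX, hEX, hjb, hadm⟩ := F
  have hY0 : (0 : ℝ) < 2 ^ nw c a := by positivity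
  have hYle : (2 : ℝ) ^ nw c a ≤ X := by
    refine le_trans ?_ hyX
    exact le_mul_of_one_le_left hY0.le hcw
  have hXB : X ≤ X ^ B₂ := by
    calc X = X ^ (1 : ℝ) := (Real.rpow_one X).symm
      _ ≤ X ^ B₂ := Real.rpow_le_rpow_of_exponent_le hX1.le hB₂
  rw [mul_assoc] at hjb hyX
  have hnmX : ∀ x ∈ JS (nw c a), (nm x.1 : ℝ) ≤ X ^ B₂ := fun x hx =>
    (JS_bd hx).2.1.trans (hYle.trans hXB)
  have hAp : 0 < Real.exp (c1 * a.1.l + c2 * Real.log (2 ^ nw c a)) := Real.exp_pos _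
  have hEE : cκ (prX (bp q.1)) * Real.log X + LN (clN a ps) + L0 (prX (bp q.1)) * Real.log X +
      40 * (t₀ * Real.log X) ≤ (E8X L0 q + ε / 8) * Real.log X := by
    have h1 := (abs_le.1 hnl).2
    have h2 : E8X L0 q = cκ (prX (bp q.1)) + svX q + L0 (prX (bp q.1)) := by
      unfold E8X svX; ring
    have h3 : t₀ * Real.log X ≤ ε / 400 * Real.log X :=
      mul_le_mul_of_nonneg_right ht₂ (by linarith)
    have h4 : 0 ≤ ε * Real.log X := mul_nonneg hε.le (by linarith)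
    rw [h2]
    linarith
  have hX4 : 1 ≤ X ^ (ε / 4) := Real.one_le_rpow hX1.le (by positivity)
  constructor
  · have h1 := HT X hX3 (LN (clN a ps)) (YcX Rh a ps) (Real.exp (e0 * a.1.l)) (X ^ (ε / 8))
      (Real.sqrt (2 ^ nw c a)) (1 / 10) (2 ^ nw c a)
      (ShXl (lmX ℓ Kf Tf (bp q.1) * Real.log X) a ps) hY1 hYX hY0 hYle (hyX.trans hXB)
      (Real.exp_pos _) hEX (Real.rpow_nonneg hX0.le _) (alX π h lam a ps) hjb hadm
      (omP (nw c a)) 1 _ _ zero_le_one (fun x _ => (omP_bd _ x).1) hnmX hAp hl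
    refine h1.trans ?_
    have h2 := fin_exp (g := 1) hX1 hε hC₁ zero_le_one ((show C₁ ≤ C by linarith).trans hCX) hX4
      hEE
    rw [one_mul] at h2
    exact h2
  · rintro rfl
    have h1 := HE X hX3 (LN (clN a ps)) (YcX Rh a ps) (Real.exp (e0 * a.1.l)) (X ^ (ε / 8))
      (Real.sqrt (2 ^ nw c a)) (1 / 10) (2 ^ nw c a)
      (ShXl (lmX ℓ Kf Tf (bp q.1) * Real.log X) a ps) hY1 hYX hY0 hYle (hyX.trans hXB)
      (Real.exp_pos _) hEX (Real.rpow_nonneg hX0.le _) (alX π h lam a ps) hjb hadm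
      (omP (nw c a)) 1 _ _ zero_le_one (fun x _ => (omP_bd _ x).1) hnmX hAp
      (fun i hi d hd b v hb hv hvi => by
        have h3 := hl i hi d hd b v hb hv hvi
        have e1 : (1 - (0 : ℝ)) * b - (2 - 0) * max 0 (b - Real.log (Real.exp (e0 * a.1.l))) =
          b - 2 * max 0 (b - Real.log (Real.exp (e0 * a.1.l))) := by ring
        rw [e1] at h3
        exact h3)
    refine h1.trans ?_
    have hl0 : 0 ≤ a.1.l := by
      have h4 := (abs_le.1 hkl).1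
      have h5 := (H.hPar _ k3.1.par).κ0
      have h6 : 8 / 9 * Real.log X ≤ cκ (prX (bp q.1)) * Real.log X :=
        mul_le_mul_of_nonneg_right h5 (by linarith)
      have h7 : t₀ * Real.log X ≤ 1 / 100000 * Real.log X :=
        mul_le_mul_of_nonneg_right ht₁ (by linarith)
      linarith
    have hE1 : 1 ≤ Real.exp (e0 * a.1.l) := Real.one_le_exp (mul_nonneg H.he0 hl0)
    have hh := Z1F579.hE_Z hεB hE1 hEX
    have hh2 : hE (S (Real.exp (e0 * a.1.l))) ≤ X ^ (ε / 4) := by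
      refine hh.trans ?_
      have e1 : (X ^ B₂) ^ (ε / (8 * B₂)) = X ^ (ε / 8) := by
        rw [← Real.rpow_mul hX0.le]
        congr 1
        field_simp
      have e2 : X ^ (ε / 4) = X ^ (ε / 8) * X ^ (ε / 8) := by
        rw [← Real.rpow_add hX0]; congr 1; ring
      have hCm : 200 * (1 + 1 / (ε / (8 * B₂))) ≤ C := by
        have := hC₁
        linarith
      rw [e1, e2]
      exact mul_le_mul_of_nonneg_right (hCm.trans hCX) (by positivity)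
    exact fin_exp hX1 hε hC₂ (hE_nonneg _) ((show C₂ ≤ C by linarith).trans hCX) hh2 hEE

section

variable {π : Λ → DPar} {h : ℝ → ℝ} {c₀ Rh e0 c β : ℝ} {Par : Set (Fin 3 ⊕ Fin 5 → ℝ)}
  {D5 : Set (Fin 5 → ℝ)} {ℓ Kf Tf Tt : (Fin 5 → ℝ) → ℝ} {L0 : (Fin 3 ⊕ Fin 5 → ℝ) → ℝ}

/-- **(Fa)** for the differences -/
theorem faX (H : FrH π h c₀ Rh e0 c β Par D5 ℓ Kf Tf Tt L0) :
    FaU S8X (Dom8X c β Par DifL) ∅ (E8X L0) (fun a => a.1.l) (nw c) e0 (alX π h)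
      (fun (lam : Λ × Eis) a qs => okCX (π lam.1) lam.2 a qs ∧ okD a) := by
  intro ε hε
  obtain ⟨δ, hδ, G⟩ := momX H (by norm_num [abs_le] : |(1 / 3 : ℝ)| ≤ 1)
    (by norm_num : (0 : ℝ) ≤ 1 / 6) (by norm_num) (by norm_num : (0 : ℝ) ≤ 1 / 2) (by norm_num)
    linX_Fa hε
  refine ⟨δ, hδ, fun lam N B => ?_⟩
  obtain ⟨δ', hδ', X₀, hX₀, G⟩ := G lam N B
  refine ⟨δ', hδ', X₀, hX₀, fun X hX a ps k1 k2 q k3 k4 k5 k6 k7 hok => ?_⟩
  have g := (G X hX a ps k1 k2 q k3 k4 k5 k6 (fun p hp hlu => k7 p hp hlu) hok).1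
  have e1 : (1 : ℝ) - 1 / 2 = 1 / 2 := by norm_num
  rw [e1] at g
  refine le_trans (le_of_eq ?_) g
  beta_reduce
  have hY0 : (0 : ℝ) < 2 ^ nw c a := by positivity
  have e3 : (Real.exp a.1.l ^ 2) ^ (1 / 6 : ℝ) = Real.exp (1 / 3 * a.1.l) := by
    rw [← Real.exp_nat_mul, ← Real.exp_mul]
    congr 1
    push_cast
    ring
  have e4 : Real.exp a.1.l ^ (2 / 3 : ℝ) = Real.exp (1 / 3 * a.1.l) * Real.exp (1 / 3 * a.1.l) := by
    rw [← Real.exp_mul, ← Real.exp_add]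
    congr 1
    ring
  have e6 : Real.exp (1 / 6 * Real.log (2 ^ nw c a)) = (2 ^ nw c a : ℝ) ^ (1 / 6 : ℝ) := by
    rw [mul_comm, ← Real.rpow_def_of_pos hY0]
  rw [← mul_assoc]
  congr 1
  rw [Real.exp_add, Real.div_rpow hY0.le (by positivity), e3, e4, e6]
  field_simp

/-- **(Fb)** for the differences -/
theorem fbX (H : FrH π h c₀ Rh e0 c β Par D5 ℓ Kf Tf Tt L0) {m₁ : ℝ} (hm : 20 ≤ m₁)
    (hm' : m₁ ≤ 30) :
    FbU S8X (Dom8X c β Par DifL) ∅ (E8X L0) (fun a => a.1.l) (nw c) e0 m₁ (alX π h)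
      (fun (lam : Λ × Eis) a qs => okCX (π lam.1) lam.2 a qs ∧ okD a) := by
  intro ε hε
  have hm0 : 0 < m₁ := by linarith
  have h1 : 1 / 30 ≤ 1 / m₁ := one_div_le_one_div_of_le hm0 hm'
  have h2 : 1 / m₁ ≤ 1 / 20 := one_div_le_one_div_of_le (by norm_num) hm
  obtain ⟨δ, hδ, G⟩ := momX H (show |2 / 3 - 1 / m₁| ≤ 1 by
      rw [abs_le]; constructor <;> linarith)
    le_rfl zero_le_one (by norm_num : (0 : ℝ) ≤ 2) le_rfl (linX_Fb h1) hε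
  refine ⟨δ, hδ, fun lam N B => ?_⟩
  obtain ⟨δ', hδ', X₀, hX₀, G⟩ := G lam N B
  refine ⟨δ', hδ', X₀, hX₀, fun X hX a ps k1 k2 q k3 k4 k5 k6 k7 hok => ?_⟩
  have g := (G X hX a ps k1 k2 q k3 k4 k5 k6 (fun p hp hlu => k7 p hp hlu) hok).1
  have e1 : (1 : ℝ) - 2 = -1 := by norm_num
  rw [e1] at g
  refine le_trans (le_of_eq ?_) g
  beta_reduce
  rw [← mul_assoc]
  congr 1
  rw [← Real.exp_mul, ← Real.exp_neg, ← Real.exp_add]
  congr 1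
  ring

/-- **(Fc)** for the differences -/
theorem fcX (H : FrH π h c₀ Rh e0 c β Par D5 ℓ Kf Tf Tt L0) {m₁ : ℝ} (hm : 20 ≤ m₁) :
    FcU S8X (Dom8X c β Par DifL) ∅ (E8X L0) (fun a => a.1.l) (nw c) e0 m₁ (alX π h)
      (fun (lam : Λ × Eis) a qs => okCX (π lam.1) lam.2 a qs ∧ okD a) := by
  intro ε hε
  have hm0 : 0 < m₁ := by linarith
  have h0 : 0 < 1 / m₁ := by positivity
  have h2 : 1 / m₁ ≤ 1 / 20 := one_div_le_one_div_of_le (by norm_num) hm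
  obtain ⟨δ, hδ, G⟩ := momX H (show |-(1 / 3) + 2 * (1 / m₁)| ≤ 1 by
      rw [abs_le]; constructor <;> linarith)
    zero_le_one le_rfl le_rfl (by norm_num : (0 : ℝ) ≤ 2) (linX_Fc h2) hε
  refine ⟨δ, hδ, fun lam N B => ?_⟩
  obtain ⟨δ', hδ', X₀, hX₀, G⟩ := G lam N B
  refine ⟨δ', hδ', X₀, hX₀, fun X hX a ps k1 k2 q k3 k4 k5 k6 k7 hok => ?_⟩
  have g := (G X hX a ps k1 k2 q k3 k4 k5 k6 (fun p hp hlu => k7 p hp hlu) hok).2 rfl
  refine le_trans (le_of_eq ?_) g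
  beta_reduce
  have hY0 : (0 : ℝ) < 2 ^ nw c a := by positivity
  congr 1
  rw [Real.exp_add, one_mul, Real.exp_log hY0, ← Real.exp_mul, ← Real.exp_nat_mul, ← Real.exp_add]
  congr 2
  push_cast
  ring

end

end Crest.Agent.R017.E3Fw579
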