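import Crest.Agent.R017.E3Fe_61
import Crest.Agent.R017.E3Ff_61
import Crest.Agent.R017.E3Fw_579

/-!
# Row 17, R8 (E3), exceptional class (helper61): `E3XU` from 579's frame, the `T`-halves and the
`R`-half

* **`e3xu_H`** : `E3XU` from `FrH`, `TnU`, `TcU`, `RnU`
-/

set_option autoImplicit false
set_option linter.unusedVariables false

noncomputable section

open Finset
open scoped Classical ComplexConjugate ContDiff

namespace Crest.Agent.R017.E3F61

open Crest.Agent.R012 Crest.Agent.R012.Eis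
open Crest.Agent.R017.B770
open Crest.Agent.R017.Prov71
open Crest.Agent.R017.UM71 Crest.Agent.R017.End699
open Crest.Agent.R017.E5B71 Crest.Agent.R017.E5P571
open Crest.Agent.R017.P1e54 Crest.Agent.R017.P1f54 Crest.Agent.R017.P1k54
open Crest.Agent.R017.ExBox960 Crest.Agent.R017.ExP960
open Crest.Agent.R017.P1X960
open Crest.Agent.R017.P10X764
open Crest.Agent.R017.I1146 (LN)
open Crest.Agent.R017.FrX579 (FrXD frX)
open Crest.Agent.R017.E3Fw579

variable {Λ : Type*}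

section

variable {π : Λ → DPar} {h : ℝ → ℝ} {c₀ Rh e0 c β : ℝ} {Par : Set (Fin 3 ⊕ Fin 5 → ℝ)}
  {D5 : Set (Fin 5 → ℝ)} {ℓ Kf Tf Tt : (Fin 5 → ℝ) → ℝ} {L0 : (Fin 3 ⊕ Fin 5 → ℝ) → ℝ}

/-- sizes and admissibility -/
theorem szX_H (H : FrH π h c₀ Rh e0 c β Par D5 ℓ Kf Tf Tt L0) :
    SzU S8X (Dom8X c β Par DifL) ∅ (fun a : BcX => a.1.l) (nw c)
      (fun a qs => LN (clN a qs)) (YcX Rh) e0 (alX π h) (okX π) :=
  szX (ε := 1) (ℓ := ℓ) (Kf := Kf) (Tf := Tf) H.hPar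
    (frX H.hpu H.hP H.hex H.hRh0 H.hRh H.he0 (by linarith [H.he0']) H.hc0 H.hc1 H.hPar H.hDN
      H.hDR H.hR5 H.hKN H.hKR H.hTN H.hTR H.hcb one_pos (by norm_num))

/-- **the Gram error of the differences** -/
theorem e3xu_H (H : FrH π h c₀ Rh e0 c β Par D5 ℓ Kf Tf Tt L0)
    {Hf : ℝ → BcX → List Pq → ℕ → Eis → Eis → ℝ} (hH : ∀ cc a ps i d e, 0 < Hf cc a ps i d e)
    (hT : TnU S8X (Dom8X c β Par DifL) ∅ (E8X L0) (fun a : BcX => a.1.l) (nw c) e0 22
      (alX π h) (okX π) Hf)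
    (hTc : TcU S8X (Dom8X c β Par DifL) ∅ (E8X L0) (fun a : BcX => a.1.l) (nw c) e0
      (alX π h) (okX π) Hf)
    (hR : RnU S8X (Dom8X c β Par DifL) ∅ (E8X L0) (fun a : BcX => a.1.l) (nw c)
      (fun a qs => LN (clN a qs)) e0 (alX π h) (okX π) Hf) :
    E3XU π h e0 c Rh β Par L0 :=
  e3xu_of H.he0 (by linarith [H.he0']) (by norm_num : (20 : ℝ) ≤ 22) hH (szX_H H) hT hR (faX H)
    (fbX H (by norm_num) (by norm_num)) (fcX H (by norm_num))
    (fun R _ => ct_ub H.he0 (by linarith [H.he0']) hH (szX_H H) hTc hR (faX H)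
      (fbX H (by norm_num) (by norm_num)) (fcX H (by norm_num)) _)

end

end Crest.Agent.R017.E3F61
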