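import Crest.Agent.R017.E3Ne_146

/-!
# Row 17, R8 (E3): the real lines of the errors in the frame of `R5` (helper579)

Notation as in `E3Ne_146`; `i` the level, `vt` the top level, `η` exponent of `E1`.
* `line_Fa`, `line_Fb`, `line_Fc`, `line_Fd` : numbers of the lists
* `bline_Fa`, `bline_Fb`, `bline_Fc`, `bline_Fd` : the bias number (class E), `mx = max 0 (s0 - δ - b)`
-/

set_option autoImplicit false
set_option linter.unusedVariables false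

noncomputable section

namespace Crest.Agent.R017.E3Fs579

open Crest.Agent.R017.E3N146

/-- the frame of the lines of the errors -/
structure Ff (k N x ex v p t : ℝ) : Prop where
  k0 : 0 < k
  x0 : 0 ≤ x
  N1 : N ≤ 102 / 125 * k
  x1 : x ≤ k / 36
  adm : x = 0 ∨ N + x ≤ 4 / 5 * k
  ex0 : 0 ≤ ex
  ex1 : 5 / 4 * N - k ≤ ex
  v1 : v ≤ 2 * N - k + 11 / 5 * x + t
  v2 : v ≤ 3 / 4 * N + 11 / 5 * x + t
  p0 : k / 2 - 2 * x - t ≤ p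
  p1 : p ≤ N + x + t
  t0 : 0 ≤ t
  t1 : t ≤ k / 20000

/-- line of `K^(2/3) (R / K^2)^(1/6) TF (1/2)` -/
theorem line_Fa {k N x ex i vt p t δ b l T M : ℝ} (H : Ff k N x ex vt p t) (δ0 : 0 ≤ δ)
    (b0 : 0 ≤ b) (M0 : 0 ≤ M) (M1 : b - k / 64 - t ≤ M) (hv : i ≤ vt)
    (hl : l ≤ i - 2 * δ + b + t)
    (hT : TC (k + ex) b l (p - δ - b) x T) :
    k / 3 + vt / 6 - i / 3 + T + 2 * δ + b / 2 - 3 / 2 * M - p / 3 ≤ k + p + ex + 10 * t := by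
  obtain ⟨k0, x0, N1, x1, adm, ex0, ex1, v1, v2, p0, p1, t0, t1⟩ := H
  rcases hT with hT | ⟨hF, hC⟩
  · rcases adm with rfl | a2 <;> linarith
  · rcases hC with hC | hC
    · rcases adm with rfl | a2 <;> linarith
    · rcases adm with rfl | a2 <;> linarith

/-- line of `K^(2/3) E1⁻¹ TF (-1)` -/
theorem line_Fb {k N x ex i vt p t δ b l T η : ℝ} (H : Ff k N x ex vt p t) (δ0 : 0 ≤ δ)
    (b0 : 0 ≤ b) (hv : i ≤ vt) (hl : l ≤ i - 2 * δ + b + t)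
    (hT : TC (k + ex) b l (p - δ - b) x T) (hη : k / 30 - t ≤ η) :
    2 / 3 * k - η - i / 3 + T + 2 * δ - b - p / 3 ≤ k + p + ex + 10 * t := by
  obtain ⟨k0, x0, N1, x1, adm, ex0, ex1, v1, v2, p0, p1, t0, t1⟩ := H
  rcases hT with hT | ⟨hF, hC⟩
  · rcases adm with rfl | a2 <;> linarith
  · rcases hF with hF | hF | ⟨hF, hF2⟩
    · rcases hC with hC | hC
      · rcases adm with rfl | a2 <;> linarith
      · rcases adm with rfl | a2 <;> linarith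
    · rcases hC with hC | hC
      · rcases adm with rfl | a2 <;> linarith
      · rcases adm with rfl | a2 <;> linarith
    · rcases adm with rfl | a2 <;> linarith

/-- line of `K^(-1/3) E1^2 R` and `EF` -/
theorem line_Fc {k N x ex i vt p t δ b l T M η : ℝ} (H : Ff k N x ex vt p t) (δ0 : 0 ≤ δ)
    (b0 : 0 ≤ b) (M0 : 0 ≤ M) (M1 : b - k / 64 - t ≤ M) (hv : i ≤ vt)
    (hl : l ≤ i - 2 * δ + b + t)
    (hT : TC (k + ex) b l (p - δ - b) x T) (hη : η ≤ k / 20 + t) :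
    -(k / 3) + 2 * η + vt - i / 3 + T + 2 * δ + b - 2 * M - p / 3 ≤ k + p + ex + 10 * t := by
  obtain ⟨k0, x0, N1, x1, adm, ex0, ex1, v1, v2, p0, p1, t0, t1⟩ := H
  rcases hT with hT | ⟨hF, hC⟩
  · rcases adm with rfl | a2 <;> linarith
  · rcases hC with hC | hC
    · rcases adm with rfl | a2 <;> linarith
    · rcases adm with rfl | a2 <;> linarith

/-- line of `K^(-1/3) E1^2 R TF 0` -/
theorem line_Fd {k N x ex i vt p t δ b l T M η : ℝ} (H : Ff k N x ex vt p t) (δ0 : 0 ≤ δ)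
    (b0 : 0 ≤ b) (M0 : 0 ≤ M) (hv : i ≤ vt)
    (hl : l ≤ i - 2 * δ + b + t)
    (hT : TC (k + ex) b l (p - δ - b) x T) (hη : η ≤ k / 20 + t) :
    -(k / 3) + 2 * η + vt - i / 3 + T + 2 * δ - M - p / 3 ≤ k + p + ex + 10 * t := by
  obtain ⟨k0, x0, N1, x1, adm, ex0, ex1, v1, v2, p0, p1, t0, t1⟩ := H
  rcases hT with hT | ⟨hF, hC⟩
  · rcases adm with rfl | a2 <;> linarith
  · rcases hC with hC | hC
    · rcases adm with rfl | a2 <;> linarith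
    · rcases adm with rfl | a2 <;> linarith

/-- line of `K^(2/3) (R / K^2)^(1/6) TF (1/2)`, bias -/
theorem bline_Fa {k N x ex i vt p t δ b l T M mx LL : ℝ} (H : Ff k N x ex vt p t) (δ0 : 0 ≤ δ)
    (b0 : 0 ≤ b) (M0 : 0 ≤ M) (M1 : b - k / 64 - t ≤ M) (hv : i ≤ vt)
    (hl : l ≤ i - 2 * δ + b + t) (hm : 0 ≤ mx)
    (hT : T ≤ 5 / 3 * p + 2 / 3 * l - 5 / 3 * (δ + b) - mx) (hL : 0 ≤ LL) :
    k / 3 + vt / 6 - i / 3 + T + 2 * δ + b / 2 - 3 / 2 * M - p / 3 ≤ k + p + LL + 10 * t := by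
  obtain ⟨k0, x0, N1, x1, adm, ex0, ex1, v1, v2, p0, p1, t0, t1⟩ := H
  rcases adm with rfl | a2 <;> linarith

/-- line of `K^(2/3) E1⁻¹ TF (-1)`, bias -/
theorem bline_Fb {k i vt p t δ b l T η mx s0 LL : ℝ} (k0 : 0 ≤ k) (t0 : 0 ≤ t) (δ0 : 0 ≤ δ)
    (b0 : 0 ≤ b) (hv : i ≤ vt) (hl : l ≤ i - 2 * δ + b + t) (hm : s0 - (δ + b) ≤ mx)
    (hT : T ≤ 5 / 3 * p + 2 / 3 * l - 5 / 3 * (δ + b) - mx)
    (bt : (vt + p - k) / 3 ≤ s0 + LL + t) (hη : 0 ≤ η) :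
    2 / 3 * k - η - i / 3 + T + 2 * δ - b - p / 3 ≤ k + p + LL + 10 * t := by
  linarith

/-- line of `K^(-1/3) E1^2 R` and `EF`, bias -/
theorem bline_Fc {k N x ex i vt p t δ b l T M η mx LL : ℝ} (H : Ff k N x ex vt p t) (δ0 : 0 ≤ δ)
    (b0 : 0 ≤ b) (M0 : 0 ≤ M) (M1 : b - k / 64 - t ≤ M) (hv : i ≤ vt)
    (hl : l ≤ i - 2 * δ + b + t) (hm : 0 ≤ mx)
    (hT : T ≤ 5 / 3 * p + 2 / 3 * l - 5 / 3 * (δ + b) - mx) (hη : η ≤ k / 20 + t) (hL : 0 ≤ LL) :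
    -(k / 3) + 2 * η + vt - i / 3 + T + 2 * δ + b - 2 * M - p / 3 ≤ k + p + LL + 10 * t := by
  obtain ⟨k0, x0, N1, x1, adm, ex0, ex1, v1, v2, p0, p1, t0, t1⟩ := H
  rcases adm with rfl | a2 <;> linarith

/-- line of `K^(-1/3) E1^2 R TF 0`, bias -/
theorem bline_Fd {k N x ex i vt p t δ b l T M η mx LL : ℝ} (H : Ff k N x ex vt p t) (δ0 : 0 ≤ δ)
    (b0 : 0 ≤ b) (M0 : 0 ≤ M) (hv : i ≤ vt)
    (hl : l ≤ i - 2 * δ + b + t) (hm : 0 ≤ mx)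
    (hT : T ≤ 5 / 3 * p + 2 / 3 * l - 5 / 3 * (δ + b) - mx) (hη : η ≤ k / 20 + t) (hL : 0 ≤ LL) :
    -(k / 3) + 2 * η + vt - i / 3 + T + 2 * δ - M - p / 3 ≤ k + p + LL + 10 * t := by
  obtain ⟨k0, x0, N1, x1, adm, ex0, ex1, v1, v2, p0, p1, t0, t1⟩ := H
  rcases adm with rfl | a2 <;> linarith

end Crest.Agent.R017.E3Fs579
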