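import Crest.Agent.R017.FrX_579
import Crest.Agent.R017.E3Eu_579
import Crest.Agent.R017.E3Fs_579

/-!
# Row 17, exceptional class, E3 (helper579): the errors of the Gram sum, all lists

* `tc_shift`, `shXl_cases` : the cases of the numbers
* `LinX` : the real line of a moment
* **`tfX`**, **`efX`** : the moments in the frame `S8X` (curried)
-/

set_option autoImplicit false
set_option linter.unusedSectionVars false
set_option linter.unusedVariables false

noncomputable section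

open Finset MeasureTheory
open scoped ComplexConjugate Classical

namespace Crest.Agent.R017.E3Fx579

open Crest.Agent.R012 Crest.Agent.R012.Eis Crest.Agent.R012.MC
open Crest.Agent.R012.LS2 (S mem_S)
open Crest.Agent.R017.CM106 (CS FS TG)
open Crest.Agent.R017.C70
open Crest.Agent.R017.B770
open Crest.Agent.R017.FE47 (PU cx SM)
open Crest.Agent.R017.Prov71
open Crest.Agent.R017.I1146 hiding cN
open Crest.Agent.R017.I1K764
open Crest.Agent.R017.XG702 (Pcs)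
open Crest.Agent.R017.XT71 (Sys Win mx)
open Crest.Agent.R017.UM71 Crest.Agent.R017.End699
open Crest.Agent.R017.E5B71 Crest.Agent.R017.E5P571 Crest.Agent.R017.E5L770
open Crest.Agent.R017.ExBox960 Crest.Agent.R017.ExP960
open Crest.Agent.R017.Sf770
open Crest.Agent.R017.P1l54 (ParOK)
open Crest.Agent.R017.P1X960
open Crest.Agent.R017.Sup271 (NPm)
open Crest.Agent.R017.PX764 (Dk)
open Crest.Agent.R017.TM708 (PD R5)
open Crest.Agent.R017.P10X764
open Crest.Agent.R017.E3N146 (ShT ShT_le TC tc_of)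
open Crest.Agent.R017.E3Nx744 (CBA thK)
open Crest.Agent.R017.TNj90 (JBc)
open Crest.Agent.R017.E1551 (Adm nmpos)
open Crest.Agent.R017.E3T829 (hE hE_nonneg)
open Crest.Agent.R017.E3M829 (TF Tal)
open Crest.Agent.R017.E3F548 (EF)
open Crest.Agent.R017.E3Kc548 (LI mem_LI)
open Crest.Agent.R017.FrX579 Crest.Agent.R017.E3Er579 Crest.Agent.R017.E3Fs579

lemma tc_shift {K5 K5' b l n x x' T s : ℝ} (h : TC K5' b l n x' T) (h1 : |K5' - K5| ≤ s)
    (h2 : |x' - x| ≤ s) : TC K5 b l n x (T - s) := by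
  obtain ⟨a1, a2⟩ := abs_le.1 h1
  obtain ⟨b1, b2⟩ := abs_le.1 h2
  have hs : 0 ≤ s := (abs_nonneg _).trans h1
  rcases h with h | ⟨h3, h4⟩
  · left; linarith
  · right
    constructor
    · rcases h3 with h3 | h3 | ⟨h3, h5⟩
      · left; linarith
      · right; left; linarith
      · rcases le_total (K5 + b / 2) (3 / 2 * l) with h6 | h6
        · right; right
          exact ⟨by linarith, h6⟩
        · right; left; linarith
    · rcases h4 with h4 | h4
      · left; linarith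
      · right; linarith

/-- the cases of the numbers -/
lemma shXl_cases {lm K5 x s : ℝ} {a : BcX} {qs : List Pq} {γ b v : ℝ} (hs : 0 ≤ s)
    (h1 : |k5X a - K5| ≤ s) (h2 : |a.1.z - x| ≤ s) :
    TC K5 b (v + b) (LN (clN a qs) - γ - b) x (ShXl lm a qs γ b v - lm - s) ∨
    (ShXl lm a qs γ b v ≤ 5 / 3 * LN (clN a qs) + 2 / 3 * (v + b) - 5 / 3 * (γ + b) -
      max 0 (s0X a - (γ + b))) := by
  unfold ShXl shB
  rcases le_total (5 / 3 * LN (clN a qs) + bcx (s0X a) γ b v)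
    (ShT (k5X a) a.1.z (a.2.1 2).z (LN (clN a qs)) γ b v + lm) with h | h
  · left
    rw [max_eq_left h]
    have e : ShT (k5X a) a.1.z (a.2.1 2).z (LN (clN a qs)) γ b v + lm - lm =
        ShT (k5X a) a.1.z (a.2.1 2).z (LN (clN a qs)) γ b v := by ring
    rw [e]
    refine tc_shift (tc_of ?_) h1 h2
    have h3 := ShT_le (k5 := k5X a) (x := a.1.z) (um := (a.2.1 2).z) (p := LN (clN a qs)) (γ := γ)
      (b := b) (l := v + b) (m := (LN (clN a qs) - γ - b) / 3 + 2 / 3 * a.1.z) (min_le_right _ _)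
    rw [add_sub_cancel_right] at h3
    exact h3
  · right
    rw [max_eq_right h]
    unfold bcx
    linarith

/-- the real line of the moment `TF (1 - t)` with the factor `exp (c1 l + c2 y)` -/
def LinX (c1 c2 t : ℝ) : Prop :=
  ∀ k N x ex LL i vt p tt δ b l T M mx s0 : ℝ, Ff k N x ex vt p tt → 0 ≤ δ → 0 ≤ b → 0 ≤ M →
    b - k / 64 - tt ≤ M → 0 ≤ i → i ≤ vt → l ≤ i - 2 * δ + b + tt →
    (TC (k + ex) b l (p - δ - b) x T → c1 * k + c2 * vt - i / 3 + T + 2 * δ +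
      ((1 - t) * b - (2 - t) * M) - p / 3 ≤ k + p + ex + 10 * tt) ∧
    (0 ≤ mx → s0 - (δ + b) ≤ mx → (vt + p - k) / 3 ≤ s0 + LL + tt → 0 ≤ LL →
      T ≤ 5 / 3 * p + 2 / 3 * l - 5 / 3 * (δ + b) - mx →
      c1 * k + c2 * vt - i / 3 + T + 2 * δ + ((1 - t) * b - (2 - t) * M) - p / 3 ≤
        k + p + LL + 10 * tt)

/-- (Fa) -/
theorem linX_Fa : LinX (1 / 3) (1 / 6) (1 / 2) := by
  intro k N x ex LL i vt p tt δ b l T M mx s0 H δ0 b0 M0 M1 i0 hv hl
  refine ⟨fun hT => ?_, fun m0 m1 bt L0 hT => ?_⟩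
  · have := line_Fa H δ0 b0 M0 M1 hv hl hT
    linarith
  · have := bline_Fa H δ0 b0 M0 M1 hv hl m0 hT L0
    linarith

/-- (Fb) -/
theorem linX_Fb {η : ℝ} (hη : 1 / 30 ≤ η) : LinX (2 / 3 - η) 0 2 := by
  intro k N x ex LL i vt p tt δ b l T M mx s0 H δ0 b0 M0 M1 i0 hv hl
  have hk := H.k0
  have ht := H.t0
  have h1 : k / 30 - tt ≤ η * k := by nlinarith
  have h2 : 0 ≤ η * k := by nlinarith
  refine ⟨fun hT => ?_, fun m0 m1 bt L0 hT => ?_⟩
  · have := line_Fb H δ0 b0 hv hl hT h1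
    linarith
  · have := bline_Fb hk.le ht δ0 b0 hv hl m1 hT bt h2
    linarith

/-- (Fc) -/
theorem linX_Fc {η : ℝ} (hη : η ≤ 1 / 20) : LinX (-(1 / 3) + 2 * η) 1 0 := by
  intro k N x ex LL i vt p tt δ b l T M mx s0 H δ0 b0 M0 M1 i0 hv hl
  have hk := H.k0
  have ht := H.t0
  have h1 : η * k ≤ k / 20 + tt := by nlinarith
  refine ⟨fun hT => ?_, fun m0 m1 bt L0 hT => ?_⟩
  · have := line_Fc H δ0 b0 M0 M1 hv hl hT h1
    linarith
  · have := bline_Fc H δ0 b0 M0 M1 hv hl m0 hT h1 L0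
    linarith

/-- `TF 0` -/
theorem linX_Fd {η : ℝ} (hη : η ≤ 1 / 20) : LinX (-(1 / 3) + 2 * η) 1 1 := by
  intro k N x ex LL i vt p tt δ b l T M mx s0 H δ0 b0 M0 M1 i0 hv hl
  have hk := H.k0
  have ht := H.t0
  have h1 : η * k ≤ k / 20 + tt := by nlinarith
  refine ⟨fun hT => ?_, fun m0 m1 bt L0 hT => ?_⟩
  · have := line_Fd H δ0 b0 M0 hv hl hT h1
    linarith
  · have := bline_Fd H δ0 b0 M0 hv hl m0 hT h1 L0
    linarith

variable {Λ : Type*}

set_option maxHeartbeats 2000000 in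
/-- **the lines of a moment in the frame** -/
lemma linesX {π : Λ → DPar} {h : ℝ → ℝ} {Rh e0 c β : ℝ} (he0 : 0 ≤ e0) (he1 : e0 ≤ 1 / 64)
    {Par : Set (Fin 3 ⊕ Fin 5 → ℝ)} {L0 : (Fin 3 ⊕ Fin 5 → ℝ) → ℝ} (hPar : ∀ p ∈ Par, ParOK p)
    {ℓ Kf Tf Tt : (Fin 5 → ℝ) → ℝ}
    (hR5 : ∀ p : IX5 → ℝ, prX p ∈ Par → ZR β p → R5 (bN p))
    (hL0 : ∀ p : IX5 → ℝ, prX p ∈ Par → ZR β p →
      max 0 (5 / 4 * cN (prX p) - cκ (prX p)) + lmX ℓ Kf Tf p ≤ L0 (prX p))
    (hbt : BTl c β Par L0 Tt) {c1 c2 t : ℝ} (hc1 : |c1| ≤ 1) (hc2 : 0 ≤ c2) (hc2' : c2 ≤ 1)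
    (hlin : LinX c1 c2 t) {cw B₂ J R' t₀ ε X : ℝ} (ht₀ : 0 < t₀) (ht₁ : t₀ ≤ 1 / 100000)
    (hL1 : 1 ≤ t₀ * Real.log X) {lam : Λ × Eis} {a : BcX} {qs : List Pq}
    {q : (I8X → ℝ) × (Kd → ℝ)} (hq : q ∈ Dom8X c β Par DifL)
    (F : FrXD π h Rh e0 c ℓ Kf Tf cw B₂ J R' t₀ ε X lam a qs q) :
    ∀ i ∈ LI (1 / 10) (2 ^ nw c a), ∀ d ∈ (JS (nw c a)).image Prod.fst, ∀ b v : ℝ, 0 ≤ b →
      0 ≤ v → v ≤ 1 + i - 2 * Real.log (nm d) →
      Real.log (Real.exp (c1 * a.1.l + c2 * Real.log (2 ^ nw c a))) - i / 3 +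
        ShXl (lmX ℓ Kf Tf (bp q.1) * Real.log X) a qs (Real.log (nm d)) b v +
        2 * Real.log (nm d) +
        ((1 - t) * b - (2 - t) * max 0 (b - Real.log (Real.exp (e0 * a.1.l)))) ≤
      cκ (prX (bp q.1)) * Real.log X + LN (clN a qs) + LN (clN a qs) / 3 +
        L0 (prX (bp q.1)) * Real.log X + 40 * (t₀ * Real.log X) := by
  intro i hi d hd b v hb hv hvi
  obtain ⟨hq1, hq2, -, -⟩ := hq
  obtain ⟨-, hkl, hzl, hAl, hnl, hn0, hn1, hnp, hyl, -, hsl, -, -, -, -, -⟩ := F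
  set L := Real.log X with hL
  set p : IX5 → ℝ := bp q.1 with hp
  have hpar : prX p ∈ Par := hq1.par
  have hzr : ZR β p := hq1.zr
  have hPp := hPar _ hpar
  have hRb := hR5 p hpar hzr
  have hL0p := hL0 p hpar hzr
  have hbtp := hbt.bt p _ _ _ _ _ hq1 hq2
  set κ := cκ (prX p) with hκ
  set NN := cN (prX p) with hNN
  set xx := cx' (prX p) with hxx
  set ex := max 0 (5 / 4 * NN - κ) with hex
  set lm := lmX ℓ Kf Tf p with hlm
  set n := LN (clN a qs) with hn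
  set y := Real.log (2 ^ nw c a) with hy
  have hL0' : 0 < L := by
    by_contra h0
    have := mul_nonpos_of_nonneg_of_nonpos ht₀.le (not_lt.1 h0)
    linarith
  set u := t₀ * L with hu
  have hu0 : 0 ≤ u := by linarith
  have hlm0 : 0 ≤ lm := le_max_left _ _
  have hex0 : 0 ≤ ex := le_max_left _ _
  have hex1 : 5 / 4 * NN - κ ≤ ex := le_max_right _ _
  have rN : NN ≤ 102 / 125 * κ := hRb.hN
  have rx1 : xx ≤ 1 / 36 * κ := hRb.x1
  have radm : xx ≤ 0 ∨ (NN + xx ≤ 4 / 5 * κ ∧ 2 * NN + 5 * xx ≤ 59 / 36 * κ ∧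
    2 * NN + 6 * xx ≤ 5 / 3 * κ) := hRb.adm
  have hκ0 : 8 / 9 * L ≤ κ * L := mul_le_mul_of_nonneg_right hPp.κ0 hL0'.le
  have hx0 : 0 ≤ xx * L := mul_nonneg hPp.x0 hL0'.le
  have hNL := mul_le_mul_of_nonneg_right rN hL0'.le
  have hxL := mul_le_mul_of_nonneg_right rx1 hL0'.le
  have hexL := mul_le_mul_of_nonneg_right hex1 hL0'.le
  have hexL0 : 0 ≤ ex * L := mul_nonneg hex0 hL0'.le
  have hlmL0 : 0 ≤ lm * L := mul_nonneg hlm0 hL0'.le
  have hL0L := mul_le_mul_of_nonneg_right hL0p hL0'.le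
  have hu1 : u ≤ 1 / 100000 * L := mul_le_mul_of_nonneg_right ht₁ hL0'.le
  have htp : tpW c p (q.1 (.inr 3)) ≤ top5 (prX p) := min_le_left _ _
  have htpL := mul_le_mul_of_nonneg_right htp hL0'.le
  have ht5a : top5 (prX p) ≤ 2 * NN - κ + 11 / 5 * xx := by
    have := min_le_left (2 * NN - κ) (3 / 4 * NN)
    unfold E5L770.top5
    linarith
  have ht5b : top5 (prX p) ≤ 3 / 4 * NN + 11 / 5 * xx := by
    have := min_le_right (2 * NN - κ) (3 / 4 * NN)
    unfold E5L770.top5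
    linarith
  have ht5aL := mul_le_mul_of_nonneg_right ht5a hL0'.le
  have ht5bL := mul_le_mul_of_nonneg_right ht5b hL0'.le
  have hFf : Ff (κ * L) (NN * L) (xx * L) (ex * L) (1 + y) n (3 * u) := by
    refine ⟨by linarith, hx0, by linarith, by linarith, ?_, hexL0, by linarith, by linarith,
      by linarith, by linarith, by linarith, by linarith, by linarith⟩
    rcases radm with h1 | ⟨h1, -, -⟩
    · left
      have h2 : xx = 0 := le_antisymm h1 hPp.x0
      rw [h2, zero_mul]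
    · right
      have := mul_le_mul_of_nonneg_right h1 hL0'.le
      linarith
  obtain ⟨x, hx, rfl⟩ := mem_image.1 hd
  have hprim : IsPrim x.1 := (okJ_JW _ _ _).prim x hx
  have hnd : (1 : ℝ) ≤ nm x.1 := by exact_mod_cast nm_pos.2 hprim.ne_zero
  have hδ0 : 0 ≤ Real.log (nm x.1) := Real.log_nonneg hnd
  set δd := Real.log (nm x.1) with hδd
  obtain ⟨hi1, hi2, hi3⟩ := mem_LI hi
  have hY0 : (0 : ℝ) < 2 ^ nw c a := by positivity
  have hiv : (i : ℝ) ≤ 1 + y := by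
    have h1 := Real.log_le_log (Real.exp_pos _) hi3
    rw [Real.log_exp, Real.log_mul (Real.exp_pos _).ne' hY0.ne', Real.log_exp] at h1
    exact h1
  have hi0 : (0 : ℝ) ≤ i := Nat.cast_nonneg _
  have hl : v + b ≤ i - 2 * δd + b + 3 * u := by linarith
  obtain ⟨k1, k2⟩ := abs_le.1 hkl
  rw [Real.log_exp, Real.log_exp]
  set M := max 0 (b - e0 * a.1.l) with hM
  have hM0 : 0 ≤ M := le_max_left _ _
  have hl0 : 0 ≤ a.1.l := by linarith
  have hM1 : b - κ * L / 64 - 3 * u ≤ M := by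
    have h1 : b - e0 * a.1.l ≤ M := le_max_right _ _
    have h2 : e0 * a.1.l ≤ 1 / 64 * a.1.l := mul_le_mul_of_nonneg_right he1 hl0
    linarith
  have hc1l : c1 * a.1.l ≤ c1 * (κ * L) + u := by
    have h1 : c1 * (a.1.l - κ * L) ≤ 1 * u :=
      (le_abs_self _).trans (by
        rw [abs_mul]
        exact mul_le_mul hc1 hkl (abs_nonneg _) zero_le_one)
    linarith
  have hc2y : c2 * y ≤ c2 * (1 + y) := by nlinarith
  have hk5 : |k5X a - (κ * L + ex * L)| ≤ 2 * u := by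
    have e1 : κ * L + ex * L = max (κ * L) (5 / 4 * NN * L) := by
      rw [← add_mul, hex, ← max_mul_of_nonneg _ _ hL0'.le]
      congr 1
      rw [← max_add_add_left]
      congr 1 <;> ring
    rw [e1]
    unfold k5X
    refine (abs_max_sub_max_le_max _ _ _ _).trans (max_le ?_ ?_)
    · linarith
    · have e : 5 / 4 * a3 a.1.toBd - 5 / 4 * NN * L = 5 / 4 * (a3 a.1.toBd - NN * L) := by ring
      rw [e, abs_mul, abs_of_pos (by norm_num : (0 : ℝ) < 5 / 4)]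
      linarith
  have hz2 : |a.1.z - xx * L| ≤ 2 * u := hzl.trans (by linarith)
  obtain ⟨s1, s2⟩ := abs_le.1 hsl
  obtain ⟨n1, n2⟩ := abs_le.1 hnl
  rcases shXl_cases (lm := lm * L) (qs := qs) (γ := δd) (b := b) (v := v)
      (by linarith : (0 : ℝ) ≤ 2 * u) hk5 hz2 with hT | hT
  · have key := (hlin (κ * L) (NN * L) (xx * L) (ex * L) 0 i (1 + y) n (3 * u) δd b (v + b)
      (ShXl (lm * L) a qs δd b v - lm * L - 2 * u) M 0 0 hFf hδ0 hb hM0 hM1 hi0 hiv hl).1 hT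
    linarith
  · have hsv : (tpW c p (q.1 (.inr 3)) + svX q - κ) / 3 ≤ s0R q + L0 (prX p) := by
      refine le_trans ?_ hbtp
      have h1 := le_max_left (tpW c p (q.1 (.inr 3)))
        (2 * (q.1 (.inr 0) + q.1 (.inr 1) + q.1 (.inr 2) + q.2 .am) - κ)
      unfold svX
      linarith
    have hsvL := mul_le_mul_of_nonneg_right hsv hL0'.le
    have hbt' : (1 + y + n - κ * L) / 3 ≤ s0X a + L0 (prX p) * L + 3 * u := by
      have e1 : (tpW c p (q.1 (.inr 3)) + svX q - κ) / 3 * L =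
        (tpW c p (q.1 (.inr 3)) * L + svX q * L - κ * L) / 3 := by ring
      have e2 : (s0R q + L0 (prX p)) * L = s0R q * L + L0 (prX p) * L := by ring
      rw [e1, e2] at hsvL
      linarith
    have key := (hlin (κ * L) (NN * L) (xx * L) (ex * L) (L0 (prX p) * L) i (1 + y) n (3 * u) δd b
      (v + b) (ShXl (lm * L) a qs δd b v) M (max 0 (s0X a - (δd + b))) (s0X a) hFf hδ0 hb hM0 hM1
      hi0 hiv hl).2 (le_max_left _ _) (le_max_right _ _) hbt' (by linarith) hT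
    linarith

end Crest.Agent.R017.E3Fx579
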