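import Crest.Agent.R012.Cst2_566
import Crest.Agent.R012.Mob_705
import Crest.Agent.R012.Gauss_880
import Crest.Agent.R017.E2a_440

/-!
# Row 17, exceptional class (590 #20257 (3)(iii)): principal `k = c³` with a compensated weight
(helper579)

* `Tc w n A = Σ_{a primary, (a,n)=1} w(N(a)/A)`;  `Tc_main` : `|Tc w n A - m A Σ_{e ∣ n} μ(e)/N(e)| ≤ C τ(n)`
* `comp_cube` : `|Σ_{c primary, (c,n)=1} (w(N(c³)/K) - (K/K')^{1/3} w(N(c³)/K'))| ≤ C τ(n)(1+(K/K')^{1/3})`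
-/

set_option autoImplicit false
set_option linter.unusedVariables false

noncomputable section

open Complex
open scoped ComplexConjugate ContDiff

namespace Crest.Agent.R017.PrC579

open Crest.Agent.R012 Crest.Agent.R012.Eis Crest.Agent.R012.MC
open Crest.Agent.R012.Mob705 (mu pdiv mem_pdiv sum_mu_coprime abs_mu_le_one)
open Crest.Agent.R012.Div277 (tau dvs mem_dvs)

open Classical in
/-- `Σ_{a primary} w(N(a)/A)` -/
def Sc (w : ℝ → ℝ) (A : ℝ) : ℝ := ∑' a : Eis, if IsPrim a then w (nm a / A) else 0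

open Classical in
/-- `Σ_{a primary, (a,n)=1} w(N(a)/A)` -/
def Tc (w : ℝ → ℝ) (n : Eis) (A : ℝ) : ℝ :=
  ∑' a : Eis, if IsPrim a ∧ IsCoprime a n then w (nm a / A) else 0

lemma fin_supp {w : ℝ → ℝ} (hw : Wgt w) {A : ℝ} (hA : 0 < A) :
    (Function.support fun a : Eis => w (nm a / A)).Finite := by
  obtain ⟨c1, c2, h1, h2, h⟩ := hw.exists_bounds
  refine (ball ⌊c2 * A⌋₊).finite_toSet.subset fun a ha => ?_
  have h3 := (h _ ha).2
  rw [div_le_iff₀ hA] at h3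
  exact mem_ball.mpr (Nat.le_floor h3)

lemma summable_w {w : ℝ → ℝ} (hw : Wgt w) {A : ℝ} (hA : 0 < A) (F : Eis → ℝ) :
    Summable fun a : Eis => F a * w (nm a / A) :=
  summable_of_hasFiniteSupport ((fin_supp hw hA).subset fun a ha h0 => ha (by
    have h0' : w (nm a / A) = 0 := h0
    simp [h0']))

lemma sy_one (x : Eis) : sy x 1 = 1 := GaussLoc283.SyAx.one_right GaussLoc283.syAx x

open Classical in
lemma Sc_eq {w : ℝ → ℝ} (hw : Wgt w) {A : ℝ} (hA : 0 < A) :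
    ((Sc w A : ℝ) : ℂ) = ((2 * A / (9 * Real.sqrt 3) : ℝ) : ℂ) *
      ∑' k : Eis, ek k * (Wt w (kap A k) : ℂ) := by
  have h := dual_weight hw hA isPrim_one
  have e1 : ∀ a : Eis, chiB 1 a * (w (nm a / A) : ℂ) =
      (((if IsPrim a then w (nm a / A) else 0 : ℝ)) : ℂ) := by
    intro a
    unfold chiB
    split_ifs with ha
    · rw [GaussLoc283.gs_one_right GaussLoc283.syAx, one_mul]
    · simp
  have e2 : ∀ k : Eis, sy k 1 * ek k * (Wt w (kap A k / ‖toC (1 : Eis)‖) : ℂ) =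
      ek k * (Wt w (kap A k) : ℂ) := by
    intro k
    rw [sy_one, map_one, norm_one, div_one, one_mul]
  simp_rw [e1, e2] at h
  rw [← h, ← Complex.ofReal_tsum]
  rfl

lemma nm_toC (k : Eis) : ‖toC k‖ ^ 2 = nm k := norm_toC_sq k

lemma kap_four {A : ℝ} (hA : 0 < A) (k : Eis) : kap A k ^ 4 = A ^ 2 * (nm k : ℝ) ^ 2 / 729 := by
  unfold kap
  have h3 : Real.sqrt 3 ^ 4 = 9 := by
    have : Real.sqrt 3 ^ 4 = (Real.sqrt 3 ^ 2) ^ 2 := by ring
    rw [this, Real.sq_sqrt (by norm_num)]; norm_num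
  have hs : Real.sqrt A ^ 4 = A ^ 2 := by
    have : Real.sqrt A ^ 4 = (Real.sqrt A ^ 2) ^ 2 := by ring
    rw [this, Real.sq_sqrt hA.le]
  have hk : ‖toC k‖ ^ 4 = (nm k : ℝ) ^ 2 := by
    rw [← nm_toC]; ring
  rw [div_pow, mul_pow, mul_pow, hs, hk, h3]
  norm_num

/-- the main constant -/
def mS (w : ℝ → ℝ) : ℝ := 2 / (9 * Real.sqrt 3) * Wt w 0

open Classical in
/-- large `A` -/
lemma Sc_large {w : ℝ → ℝ} (hw : Wgt w) : ∃ C : ℝ, 0 ≤ C ∧ ∀ A : ℝ, 0 < A →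
    |Sc w A - mS w * A| ≤ C / A := by
  obtain ⟨C, hC0, hC⟩ := Wt_decay hw 4
  refine ⟨2 / (9 * Real.sqrt 3) * (729 * C * E2440.K0), by
    have := E2440.K0_nonneg; positivity, fun A hA => ?_⟩
  have hb : ∀ k : Eis, k ≠ 0 → ‖ek k * (Wt w (kap A k) : ℂ)‖ ≤
      729 * C / A ^ 2 * ((nm k : ℝ) ^ 2)⁻¹ := by
    intro k hk
    rw [norm_mul, norm_ek, one_mul, Complex.norm_real, Real.norm_eq_abs]
    have hn : (0 : ℝ) < nm k := by exact_mod_cast nm_pos.mpr hk
    have h1 := hC (kap A k) (kap_nonneg A k)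
    have h2 : 0 < kap A k ^ 4 := by rw [kap_four hA]; positivity
    have h3 : kap A k ^ 4 ≤ (1 + kap A k) ^ 4 := by
      have := kap_nonneg A k
      gcongr
      linarith
    calc |Wt w (kap A k)| ≤ C / (1 + kap A k) ^ 4 := h1
      _ ≤ C / kap A k ^ 4 := by gcongr
      _ = 729 * C / A ^ 2 * ((nm k : ℝ) ^ 2)⁻¹ := by rw [kap_four hA]; field_simp
  have hsum : Summable fun k : Eis => ek k * (Wt w (kap A k) : ℂ) := by
    have : Summable fun k : Eis => if k = 0 then ‖(Wt w (kap A 0) : ℂ)‖ else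
        729 * C / A ^ 2 * ((nm k : ℝ) ^ 2)⁻¹ := by
      have h1 := E2440.summable_nm2.mul_left (729 * C / A ^ 2)
      refine (h1.update (0 : Eis) ‖(Wt w (kap A 0) : ℂ)‖).congr fun k => ?_
      by_cases hk : k = 0
      · subst hk; simp
      · rw [if_neg hk, Function.update_of_ne hk]
    refine Summable.of_norm_bounded this fun k => ?_
    by_cases hk : k = 0
    · rw [if_pos hk, hk, norm_mul, norm_ek, one_mul]
    · rw [if_neg hk]; exact hb k hk
  have h0 : ek 0 * (Wt w (kap A 0) : ℂ) = (Wt w 0 : ℂ) := by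
    have h1 : ek 0 = 1 := by unfold ek; rw [map_zero, zero_div, eC_zero]
    have h2 : kap A 0 = 0 := by unfold kap; rw [map_zero, norm_zero]; ring
    rw [h1, h2, one_mul]
  have hsplit := hsum.tsum_eq_add_tsum_ite (0 : Eis)
  have hrest : ‖∑' k : Eis, (if k = 0 then 0 else ek k * (Wt w (kap A k) : ℂ))‖ ≤
      729 * C / A ^ 2 * E2440.K0 := by
    unfold E2440.K0
    rw [← tsum_mul_left]
    refine tsum_of_norm_bounded (E2440.summable_nm2.mul_left _).hasSum fun k => ?_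
    split_ifs with hk
    · rw [norm_zero]; positivity
    · exact hb k hk
  have e : ((Sc w A - mS w * A : ℝ) : ℂ) = ((2 * A / (9 * Real.sqrt 3) : ℝ) : ℂ) *
      ∑' k : Eis, (if k = 0 then 0 else ek k * (Wt w (kap A k) : ℂ)) := by
    rw [Complex.ofReal_sub, Sc_eq hw hA, hsplit, h0]
    unfold mS
    push_cast
    ring
  have e2 : |Sc w A - mS w * A| = ‖((Sc w A - mS w * A : ℝ) : ℂ)‖ := by
    rw [Complex.norm_real, Real.norm_eq_abs]
  rw [e2, e, norm_mul, Complex.norm_real, Real.norm_of_nonneg (by positivity)]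
  calc 2 * A / (9 * Real.sqrt 3) * _ ≤ 2 * A / (9 * Real.sqrt 3) * (729 * C / A ^ 2 * E2440.K0) :=
        mul_le_mul_of_nonneg_left hrest (by positivity)
    _ = _ := by field_simp

open Classical in
lemma Sc_small {w : ℝ → ℝ} (hw : Wgt w) : ∃ A₀ : ℝ, 0 < A₀ ∧ ∀ A : ℝ, 0 < A → A < A₀ →
    Sc w A = 0 := by
  obtain ⟨c1, c2, h1, h2, h⟩ := hw.exists_bounds
  have hc2 : 0 < c2 := h1.trans h2
  refine ⟨1 / c2, by positivity, fun A hA hA0 => ?_⟩
  unfold Sc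
  have : ∀ a : Eis, (if IsPrim a then w (nm a / A) else 0) = 0 := by
    intro a
    split_ifs with ha
    · by_contra hne
      have h3 := (h _ hne).2
      rw [div_le_iff₀ hA] at h3
      have h4 : (1 : ℝ) ≤ nm a := by exact_mod_cast nm_pos.mpr ha.ne_zero
      rw [lt_div_iff₀ hc2] at hA0
      nlinarith
    · rfl
  rw [tsum_congr this, tsum_zero]

/-- **the count of primary elements with a smooth weight** -/
theorem Sc_main {w : ℝ → ℝ} (hw : Wgt w) : ∃ C : ℝ, 0 ≤ C ∧ ∀ A : ℝ, 0 < A →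
    |Sc w A - mS w * A| ≤ C := by
  obtain ⟨C, hC0, hC⟩ := Sc_large hw
  obtain ⟨A₀, hA₀, h0⟩ := Sc_small hw
  refine ⟨C / A₀ + |mS w| * A₀, by positivity, fun A hA => ?_⟩
  rcases lt_or_ge A A₀ with h | h
  · rw [h0 A hA h, zero_sub, abs_neg, abs_mul, abs_of_pos hA]
    have : |mS w| * A ≤ |mS w| * A₀ := by gcongr
    have h2 : 0 ≤ C / A₀ := by positivity
    linarith
  · have h1 : C / A ≤ C / A₀ := by gcongr
    have h2 : 0 ≤ |mS w| * A₀ := by positivity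
    linarith [hC A hA]

open Classical in
/-- Moebius inversion -/
theorem Tc_eq {w : ℝ → ℝ} (hw : Wgt w) {n : Eis} (hn : n ≠ 0) {A : ℝ} (hA : 0 < A) :
    Tc w n A = ∑ e ∈ pdiv n, (mu e : ℝ) * Sc w (A / nm e) := by
  have h1 : ∀ a : Eis, (if IsPrim a ∧ IsCoprime a n then w (nm a / A) else 0) =
      ∑ e ∈ pdiv n, (if IsPrim a ∧ e ∣ a then (mu e : ℝ) else 0) * w (nm a / A) := by
    intro a
    rw [← Finset.sum_mul]
    by_cases ha : IsPrim a
    · have h2 := sum_mu_coprime ha hn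
      have h3 : ∑ e ∈ pdiv n, (if IsPrim a ∧ e ∣ a then (mu e : ℝ) else 0) =
          ((∑ e ∈ pdiv n, (if e ∣ a then mu e else 0) : ℤ) : ℝ) := by
        push_cast
        refine Finset.sum_congr rfl fun e _ => ?_
        by_cases he : e ∣ a
        · rw [if_pos ⟨ha, he⟩, if_pos he]
        · rw [if_neg (fun h => he h.2), if_neg he]
      rw [h3, h2]
      by_cases hc : IsCoprime a n
      · rw [if_pos ⟨ha, hc⟩, if_pos hc, Int.cast_one, one_mul]
      · rw [if_neg (fun h => hc h.2), if_neg hc, Int.cast_zero, zero_mul]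
    · rw [if_neg (fun h => ha h.1)]
      rw [Finset.sum_eq_zero fun e _ => if_neg (fun h => ha h.1), zero_mul]
  unfold Tc
  rw [tsum_congr h1, Summable.tsum_finsetSum fun e _ => summable_w hw hA _]
  refine Finset.sum_congr rfl fun e he => ?_
  have hep : IsPrim e := ((mem_pdiv hn).mp he).1
  have he0 : (0 : ℝ) < nm e := by exact_mod_cast nm_pos.mpr hep.ne_zero
  have hinj : Function.Injective (fun a : Eis => e * a) := fun x y h => mul_left_cancel₀ hep.ne_zero h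
  unfold Sc
  rw [← tsum_mul_left,
    ← hinj.tsum_eq (f := fun a => (if IsPrim a ∧ e ∣ a then (mu e : ℝ) else 0) * w (nm a / A))]
  · refine tsum_congr fun a => ?_
    have hiff : IsPrim (e * a) ∧ e ∣ e * a ↔ IsPrim a :=
      ⟨fun h => h.1.of_mul_left hep, fun h => ⟨hep.mul h, dvd_mul_right _ _⟩⟩
    have e1 : ((nm (e * a) : ℕ) : ℝ) / A = (nm a : ℝ) / (A / nm e) := by
      rw [nm_mul]; push_cast; field_simp
    by_cases ha : IsPrim a
    · rw [if_pos (hiff.mpr ha), if_pos ha, e1]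
    · rw [if_neg (fun h => ha (hiff.mp h)), if_neg ha]; simp
  · intro a ha
    have h3 : (if IsPrim a ∧ e ∣ a then (mu e : ℝ) else 0) ≠ 0 := left_ne_zero_of_mul ha
    by_cases h4 : IsPrim a ∧ e ∣ a
    · obtain ⟨-, t, rfl⟩ := h4
      exact ⟨t, rfl⟩
    · rw [if_neg h4] at h3; exact absurd rfl h3

/-- **with a coprimality condition** -/
theorem Tc_main {w : ℝ → ℝ} (hw : Wgt w) : ∃ C : ℝ, 0 ≤ C ∧ ∀ n : Eis, n ≠ 0 → ∀ A : ℝ, 0 < A →
    |Tc w n A - mS w * A * ∑ e ∈ pdiv n, (mu e : ℝ) / nm e| ≤ C * tau n := by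
  obtain ⟨C, hC0, hC⟩ := Sc_main hw
  refine ⟨C, hC0, fun n hn A hA => ?_⟩
  rw [Tc_eq hw hn hA, Finset.mul_sum, ← Finset.sum_sub_distrib]
  refine (Finset.abs_sum_le_sum_abs _ _).trans ?_
  have h1 : ∀ e ∈ pdiv n, |(mu e : ℝ) * Sc w (A / nm e) - mS w * A * ((mu e : ℝ) / nm e)| ≤ C := by
    intro e he
    have hep : IsPrim e := ((mem_pdiv hn).mp he).1
    have he0 : (0 : ℝ) < nm e := by exact_mod_cast nm_pos.mpr hep.ne_zero
    have e1 : (mu e : ℝ) * Sc w (A / nm e) - mS w * A * ((mu e : ℝ) / nm e) =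
        (mu e : ℝ) * (Sc w (A / nm e) - mS w * (A / nm e)) := by ring
    rw [e1, abs_mul]
    have h2 : |(mu e : ℝ)| ≤ 1 := by exact_mod_cast abs_mu_le_one e
    calc |(mu e : ℝ)| * |Sc w (A / nm e) - mS w * (A / nm e)| ≤ 1 * C :=
          mul_le_mul h2 (hC _ (by positivity)) (abs_nonneg _) zero_le_one
      _ = C := one_mul C
  refine (Finset.sum_le_sum h1).trans ?_
  rw [Finset.sum_const, nsmul_eq_mul, mul_comm]
  refine mul_le_mul_of_nonneg_left ?_ hC0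
  unfold tau
  have : pdiv n ⊆ dvs n := fun e he => (mem_dvs hn).mpr ((mem_pdiv hn).mp he)
  exact_mod_cast Finset.card_le_card this

/-! ### cubes -/

lemma Wgt_cube {w : ℝ → ℝ} (hw : Wgt w) : Wgt (fun x => w (x ^ 3)) := by
  obtain ⟨c1, c2, h1, h2, h⟩ := hw.exists_bounds
  have hc2 : 0 < c2 := h1.trans h2
  have hd1 : 0 < min c1 1 := lt_min h1 one_pos
  have hb : ∀ x, w (x ^ 3) ≠ 0 → min c1 1 ≤ x ∧ x ≤ max c2 1 := by
    intro x hx
    obtain ⟨h3, h4⟩ := h _ hx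
    have hx0 : 0 < x := by
      by_contra hc
      push Not at hc
      have : x ^ 3 ≤ 0 := by nlinarith [sq_nonneg x]
      linarith
    constructor
    · by_contra hc
      push Not at hc
      have h5 := lt_min_iff.mp hc
      have : x ^ 3 < c1 := by nlinarith [sq_nonneg x, mul_pos hx0 hx0]
      linarith
    · by_contra hc
      push Not at hc
      have h5 := max_lt_iff.mp hc
      have : c2 < x ^ 3 := by nlinarith [sq_nonneg x, mul_pos hx0 hx0]
      linarith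
  have hsub : tsupport (fun x => w (x ^ 3)) ⊆ Set.Icc (min c1 1) (max c2 1) :=
    closure_minimal (fun x hx => hb x hx) isClosed_Icc
  refine ⟨hw.smooth.comp (contDiff_id.pow 3), ?_, ?_⟩
  · exact HasCompactSupport.of_support_subset_isCompact isCompact_Icc
      ((subset_tsupport _).trans hsub)
  · intro x hx
    exact lt_of_lt_of_le hd1 (hsub hx).1

open Classical in
/-- `Σ_{c primary, (c,n)=1} w(N(c³)/K)` -/
def Cc (w : ℝ → ℝ) (n : Eis) (K : ℝ) : ℝ :=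
  ∑' c : Eis, if IsPrim c ∧ IsCoprime c n then w (nm (c ^ 3) / K) else 0

lemma Cc_eq (w : ℝ → ℝ) (n : Eis) {K : ℝ} (hK : 0 < K) :
    Cc w n K = Tc (fun x => w (x ^ 3)) n (K ^ (1 / 3 : ℝ)) := by
  unfold Cc Tc
  refine tsum_congr fun c => ?_
  congr 1
  have h : (K ^ (1 / 3 : ℝ)) ^ 3 = K := by
    rw [← Real.rpow_natCast, ← Real.rpow_mul hK.le]; norm_num
  show w (((nm (c ^ 3) : ℕ) : ℝ) / K) = w (((nm c : ℝ) / K ^ (1 / 3 : ℝ)) ^ 3)
  rw [div_pow, h, nm_pow]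
  push_cast
  rfl

/-- cubes prime to `n` -/
theorem Cc_main {w : ℝ → ℝ} (hw : Wgt w) : ∃ C : ℝ, 0 ≤ C ∧ ∀ n : Eis, n ≠ 0 → ∀ K : ℝ, 0 < K →
    |Cc w n K - mS (fun x => w (x ^ 3)) * K ^ (1 / 3 : ℝ) * ∑ e ∈ pdiv n, (mu e : ℝ) / nm e| ≤
      C * tau n := by
  obtain ⟨C, hC0, hC⟩ := Tc_main (Wgt_cube hw)
  refine ⟨C, hC0, fun n hn K hK => ?_⟩
  rw [Cc_eq w n hK]
  exact hC n hn _ (Real.rpow_pos_of_pos hK _)

/-- **the compensated weight**: the main terms cancel identically. -/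
theorem comp_cube {w : ℝ → ℝ} (hw : Wgt w) : ∃ C : ℝ, 0 ≤ C ∧ ∀ n : Eis, n ≠ 0 →
    ∀ K K' : ℝ, 0 < K → 0 < K' →
    |Cc w n K - (K / K') ^ (1 / 3 : ℝ) * Cc w n K'| ≤ C * tau n * (1 + (K / K') ^ (1 / 3 : ℝ)) := by
  obtain ⟨C, hC0, hC⟩ := Cc_main hw
  refine ⟨C, hC0, fun n hn K K' hK hK' => ?_⟩
  have h1 := hC n hn K hK
  have h2 := hC n hn K' hK'
  have hr : 0 ≤ (K / K') ^ (1 / 3 : ℝ) := by positivity
  have e1 : (K / K') ^ (1 / 3 : ℝ) * K' ^ (1 / 3 : ℝ) = K ^ (1 / 3 : ℝ) := by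
    rw [← Real.mul_rpow (by positivity) hK'.le]; congr 1; field_simp
  set P := ∑ e ∈ pdiv n, (mu e : ℝ) / nm e
  set m := mS (fun x => w (x ^ 3))
  have e2 : Cc w n K - (K / K') ^ (1 / 3 : ℝ) * Cc w n K' =
      (Cc w n K - m * K ^ (1 / 3 : ℝ) * P) -
        (K / K') ^ (1 / 3 : ℝ) * (Cc w n K' - m * K' ^ (1 / 3 : ℝ) * P) := by
    rw [← e1]; ring
  rw [e2]
  refine (abs_sub _ _).trans ?_
  rw [abs_mul, abs_of_nonneg hr]
  nlinarith [mul_le_mul_of_nonneg_left h2 hr]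

end Crest.Agent.R017.PrC579
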