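import Crest.Agent.R017.E3G_548
import Crest.Agent.R017.PrC_579
import Crest.Agent.R017.FYm_571

/-!
# Row 17, R8 (E3), outer assembly (helper548): the main term of the diagonal

* `DR_main` : `DR` = the main term of 842's `PD.PR_one` up to `C Σ τ(mn) |U n V n|`
-/

set_option autoImplicit false
set_option linter.unusedVariables false

noncomputable section

open Finset
open scoped ComplexConjugate
open scoped Classical

namespace Crest.Agent.R017.E3F548

open Crest.Agent.R012 Crest.Agent.R012.Eis Crest.Agent.R012.Mob705 Crest.Agent.R012.Gauss880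
open Crest.Agent.R012.LS2
open Crest.Agent.R017.CM106
open Crest.Agent.R017.PX764 Crest.Agent.R017.C70 Crest.Agent.R017.GrB829 Crest.Agent.R017.GrD829
open Crest.Agent.R017.E3s164 Crest.Agent.R017.E3A164
open Crest.Agent.R012.Div277 (tau)
open Crest.Agent.R012.MC (Wgt Wt)

/-- `|(r / m)|² = [(r, m) = 1]` -/
lemma sy_sq_ite {r m : Eis} (hm : IsPrim m) :
    sy r m * conj (sy r m) = if IsCoprime r m then 1 else 0 := by
  split_ifs with h
  · rw [Complex.mul_conj, Complex.normSq_eq_norm_sq, norm_sy_one hm h]; simp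
  · rw [(syG.eq_zero r m hm).mpr h]; simp

lemma DR_eq {w : ℝ → ℝ} (hw : Wgt w) {K R : ℝ} (hK : 0 < K) {ψ : Eis → ℂ}
    (hψ : ∀ r, IsPrim r → ψ r = 1) {m : Eis} (hm : IsPrim m) (U V : Eis → ℂ) :
    DR w K R ψ m m U V = ∑ n ∈ S R, (U n * conj (V n)) * ((PrC579.Tc w (m * n) K : ℝ) : ℂ) := by
  obtain ⟨c1, c2, h1, h2, h⟩ := hw.exists_bounds
  set N : ℕ := ⌊c2 * K⌋₊
  have hN : ∀ r : Eis, r ∉ ball N → w (nm r / K) = 0 := by
    intro r hr
    by_contra hne
    apply hr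
    rw [mem_ball]
    refine Nat.le_floor ?_
    have := (h _ hne).2
    rwa [div_le_iff₀ hK] at this
  unfold DR PrC579.Tc
  rw [tsum_eq_sum (s := ball N) (fun r hr => by rw [hN r hr]; simp)]
  have e1 : ∀ n ∈ S R, (U n * conj (V n)) * (((∑' a : Eis, if IsPrim a ∧ IsCoprime a (m * n) then
      w (nm a / K) else 0 : ℝ)) : ℂ) = ∑ r ∈ ball N, (U n * conj (V n)) *
        (if IsPrim r ∧ IsCoprime r (m * n) then ((w (nm r / K) : ℝ) : ℂ) else 0) := by
    intro n _
    rw [tsum_eq_sum (s := ball N) (fun r hr => by rw [hN r hr]; simp), Complex.ofReal_sum, mul_sum]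
    refine sum_congr rfl fun r _ => ?_
    congr 1
    split_ifs <;> simp
  rw [sum_congr rfl e1, sum_comm]
  refine sum_congr rfl fun r _ => ?_
  by_cases hr : IsPrim r
  · rw [if_pos hr, hψ r hr, one_mul, mul_sum, sum_mul]
    refine sum_congr rfl fun n hn => ?_
    have hnp := (SR_prim hn).1
    have e2 := sy_sq_ite (r := r) hm
    have e3 := sy_sq_ite (r := r) hnp
    have e4 : (conj (sy r m) * conj (conj (sy r m))) * ((U n * sy r n) * conj (V n * sy r n)) *
        ((w (nm r / K) : ℝ) : ℂ) = (U n * conj (V n)) * ((sy r m * conj (sy r m)) *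
          (sy r n * conj (sy r n)) * ((w (nm r / K) : ℝ) : ℂ)) := by
      simp only [map_mul, Complex.conj_conj]; ring
    rw [e4, e2, e3]
    congr 1
    by_cases h1 : IsCoprime r m
    · by_cases h2 : IsCoprime r n
      · rw [if_pos h1, if_pos h2, if_pos ⟨hr, h1.mul_right h2⟩]; ring
      · have h3 : ¬ (IsPrim r ∧ IsCoprime r (m * n)) := fun h => h2 h.2.of_mul_right_right
        rw [if_neg h2, if_neg h3]; ring
    · have h3 : ¬ (IsPrim r ∧ IsCoprime r (m * n)) := fun h => h1 h.2.of_mul_right_left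
      rw [if_neg h1, if_neg h3]; ring
  · rw [if_neg hr, zero_mul]
    symm
    refine sum_eq_zero fun n _ => ?_
    rw [if_neg (fun h => hr h.1), mul_zero]

/-- **the main term of the diagonal** -/
theorem DR_main {w : ℝ → ℝ} (hw : Wgt w) : ∃ C : ℝ, 0 ≤ C ∧ ∀ (K R : ℝ), 0 < K →
    ∀ ψ : Eis → ℂ, (∀ r, IsPrim r → ψ r = 1) → ∀ m : Eis, IsPrim m → ∀ U V : Eis → ℂ,
    (∀ n, U n ≠ 0 → IsCoprime n m) →
    ‖DR w K R ψ m m U V - ((2 * K / (9 * Real.sqrt 3) * Wt w 0 : ℝ) : ℂ) *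
      ((PE m : ℂ) * ∑ n ∈ S R, (PE n : ℂ) * (U n * conj (V n)))‖ ≤
      C * ∑ n ∈ S R, (tau (m * n) : ℝ) * (‖U n‖ * ‖V n‖) := by
  obtain ⟨C, hC0, hC⟩ := PrC579.Tc_main hw
  refine ⟨C, hC0, fun K R hK ψ hψ m hm U V hU => ?_⟩
  rw [DR_eq hw hK hψ hm, mul_sum, mul_sum, ← sum_sub_distrib, mul_sum]
  refine (norm_sum_le _ _).trans (sum_le_sum fun n hn => ?_)
  have hnp := (SR_prim hn).1
  by_cases h0 : U n = 0
  · rw [h0]; simp
  have hc := hU n h0
  have hmn : m * n ≠ 0 := mul_ne_zero hm.ne_zero hnp.ne_zero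
  have h1 := hC (m * n) hmn K hK
  rw [DgA829.PE_sum_real hmn, FYm571.PE_mul hm.ne_zero hnp.ne_zero hc.symm] at h1
  have e1 : (U n * conj (V n)) * ((PrC579.Tc w (m * n) K : ℝ) : ℂ) -
      ((2 * K / (9 * Real.sqrt 3) * Wt w 0 : ℝ) : ℂ) * ((PE m : ℂ) * ((PE n : ℂ) *
        (U n * conj (V n)))) = (U n * conj (V n)) *
        ((PrC579.Tc w (m * n) K - PrC579.mS w * K * (PE m * PE n) : ℝ) : ℂ) := by
    unfold PrC579.mS
    push_cast
    ring
  rw [e1, norm_mul, norm_mul, RCLike.norm_conj, Complex.norm_real, Real.norm_eq_abs]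
  calc ‖U n‖ * ‖V n‖ * |PrC579.Tc w (m * n) K - PrC579.mS w * K * (PE m * PE n)| ≤
      ‖U n‖ * ‖V n‖ * (C * tau (m * n)) := by gcongr
    _ = C * (tau (m * n) * (‖U n‖ * ‖V n‖)) := by ring

end Crest.Agent.R017.E3F548
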