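import Crest.Agent.R017.E3Zi_290

/-!
# Row 17, block C70, leaf E3 (S-sum) (helper290): `H` a function of `(d, e)`, part 1

* `CELLr` : `CELL` with the Möbius bounds at the `(d, e)` of the cell only
* `sdH` : the data of one side;  `sdH_OK`, `CellF_sdH`
* `MB1H`, `MB2H`, `cellsF` : the cells of the literal family
-/

set_option autoImplicit false
set_option linter.unusedVariables false

noncomputable section

open Complex MeasureTheory
open scoped ComplexConjugate Classical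

namespace Crest.Agent.R017.E3Ha290

open Crest.Agent.R012 Crest.Agent.R012.Eis Crest.Agent.R012.MC
open Crest.Agent.R012.LS2 (S mem_S bl mem_bl)
open Crest.Agent.R012.Div277 (dvs mem_dvs)
open Crest.Agent.R012.Mob705 (mu pdiv mem_pdiv)
open Crest.Agent.R017.CM106 (CS TG FS)
open Crest.Agent.R017.C70 (JC CbF OKJ)
open Crest.Agent.R017.BD829 (TT EQ EQ_nonneg)
open Crest.Agent.R017.E3D579 (uS bF b0 FS_b0)
open Crest.Agent.R017.E3Sd579 (pS)
open Crest.Agent.R017.E3Sp579 (UE)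
open Crest.Agent.R017.E3T1579 (UF)
open Crest.Agent.R017.E3T2579 (wL w1L)
open Crest.Agent.R017.GrB829 (IsC)
open Crest.Agent.R017.E3A164 (Yp Ys fq Cs mem_Cs)
open Crest.Agent.R017.E3T829
open Crest.Agent.R017.E1551 (nmpos)
open Crest.Agent.R017.E3F548 (Mc pc LC_pc Nq MPTr isC_ne)
open Crest.Agent.R017.Mode405 (DT DT_nonneg)
open Crest.Agent.R017.E3Sr290 (CellD cellOf Fac)
open Crest.Agent.R017.E3Sj290 (nL)
open Crest.Agent.R017.E3Sm290 Crest.Agent.R017.E3Su290 Crest.Agent.R017.E3Sv290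
open Crest.Agent.R017.E3Zr579 (dil dil_spec dil_SU)
open Crest.Agent.R017.E3Z548 (JV JVc mem_JV Rdil)
open Crest.Agent.R017.E3Sy290 (w_le nm_Mc Nq_pos_eq CellF_nonneg)
open Crest.Agent.R017.E3Sw290

/-- **(CELL)**, the Möbius bounds at the `(d, e)` of the cell only -/
theorem CELLr {ε : ℝ} (hε : 0 < ε) (hε1 : ε ≤ 1) : ∃ C' : ℝ, 0 ≤ C' ∧
    ∀ {A Bw : ℕ}, 4 ≤ Bw → ∀ {C cw cs mc b₀ : ℝ}, 0 ≤ C → 1 ≤ cw → 1 ≤ cs → 0 ≤ b₀ →
    ∀ {w' : ℝ → ℝ}, (∀ y, w' y ≠ 0 → y ≤ 1) →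
    ∀ {ψ : Eis → ℂ} {M₀ : Eis}, M₀ ≠ 0 → (nm M₀ : ℝ) ≤ mc → (∀ p, IsPrim p → IsCoprime p M₀) →
    ∀ {z K V V' H X Zm : ℝ} {EE : Finset Eis}, 0 < K → K ≤ z → 0 < V → V ≤ z → 0 < V' → V' ≤ z →
      0 < H → 0 < X → 1 ≤ Zm → kZ mc b₀ * z ^ 10 ≤ Zm →
    ∀ {af : Eis → Eis → Eis → ℂ}, (∀ d e, FS (af d e)) → ∀ {Bs : UT → ℝ}, (∀ t, 0 ≤ Bs t) →
    ∀ {x : Cd}, (∀ t, TU z EE t → t.1 = x.d → t.2.1 = x.e → 1 ≤ cs * YU V t →
      MBU ψ w' A ε C cw cs K V H af Bs Zm t) → PcC z EE b₀ K x → ∀ {wz : ℝ → ℂ},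
      (∀ y, wz y = ((w' (y / (cs * ZU V x.U)) : ℝ) : ℂ)) →
    ∀ (P : Fin 5 → Eis → Eis → ℝ) (PR : Eis → Eis → ℝ) (cJ : ℝ),
      SEc A Bw M₀ ψ K V V' af wz x ≤ C' * C * cs ^ 2 * kC mc * Zm ^ (3 * ε) *
        CellF (sdC P PR z cJ cw cs K V V' H X Bs) K V V' X af x := by
  obtain ⟨C', hC', hmain⟩ := cell_UF hε hε1
  refine ⟨C', hC', ?_⟩
  intro A Bw hBw C cw cs mc b₀ hC hcw hcs hb₀ w' hw' ψ M₀ hM₀ hmcn hMp z K V V' H X Zm EE hK hKz
    hV hVz hV' hVz' hH hX hZm hZm2 af haf Bs hBs x hMB hx wz hwz P PR cJ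
  have hx' := hx
  obtain ⟨hok, hpc⟩ := hx
  have hz1 := hok.Z1
  have hz0 : 0 ≤ z := by linarith
  obtain ⟨pL0, pLt, pY, pnL, pZ⟩ := hok.cell_pos hK hV hV' hH hX
  obtain ⟨nq, nt, nd, ne, nc, ng, nd', ne', nc', ng', nD, nE, nF⟩ := hok.np
  have hmc1 : 1 ≤ mc := (E1551.nm_ge_one hM₀).trans hmcn
  have hmc0 : 0 ≤ mc := by linarith
  have hkC : 0 ≤ kC mc := by unfold kC; positivity
  have hZm0 : 0 < Zm := by linarith
  -- the right side
  have hS : CellF (sdC P PR z cJ cw cs K V V' H X Bs) K V V' X af x =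
      fc (x.cell K V V' H X x.xk) * ((1 * TQ af (fun _ => 1) (N0 cw cs V x) x.U +
        x.extL K V V' H X * TQ af (fun _ => 1) (N0 cw cs V x) x.U +
        x.extS K V V' H X * TQ af (fun _ => 1) (N0 cw cs V x) x.U +
        x.extD1 K V V' H X * TQ af (fun γ => (nm γ : ℝ) ^ (-(1 : ℝ))) (N3 cw cs V x) x.U +
        x.extD2 K V V' H X * TQ af (fun γ => (nm γ : ℝ) ^ (-(1 / 2 : ℝ))) (N3 cw cs V x) x.U) +
        Rdil Bs x.U) := by
    unfold CellF
    rw [Fin.sum_univ_five]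
    rfl
  have hTQ0 := TQ_nonneg (af := af) (om := fun _ => 1) (fun _ => zero_le_one) (N0 cw cs V x) x.U
  have hTQ1 := TQ_nonneg (af := af) (om := fun γ => (nm γ : ℝ) ^ (-(1 : ℝ)))
    (fun _ => by positivity) (N3 cw cs V x) x.U
  have hTQ2 := TQ_nonneg (af := af) (om := fun γ => (nm γ : ℝ) ^ (-(1 / 2 : ℝ)))
    (fun _ => by positivity) (N3 cw cs V x) x.U
  have hR := Rdil_nonneg hBs x.U
  have hfc : 0 ≤ fc (x.cell K V V' H X x.xk) := by unfold fc; positivity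
  have hE1 : 0 ≤ x.extL K V V' H X := by unfold Cd.extL; positivity
  have hE2 : 0 ≤ x.extS K V V' H X := by unfold Cd.extS; positivity
  have hE3 : 0 ≤ x.extD1 K V V' H X := by unfold Cd.extD1; positivity
  have hE4 : 0 ≤ x.extD2 K V V' H X := by unfold Cd.extD2; positivity
  have hRHS : 0 ≤ C' * C * cs ^ 2 * kC mc * Zm ^ (3 * ε) *
        CellF (sdC P PR z cJ cw cs K V V' H X Bs) K V V' X af x := by
    rw [hS]
    positivity
  -- the trivial cases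
  by_cases hcond : Squarefree (x.a * x.D * x.F) ∧ IsCoprime (x.a * x.D * x.F) (x.g * x.d)
  swap
  · refine le_trans (le_of_eq ?_) hRHS
    unfold SEc E3T1579.UF
    split_ifs
    · unfold E3Sp579.UE
      rw [if_neg (fun h => hcond ⟨h.1, h.2.1⟩)]
    · rfl
  obtain ⟨h1, h2⟩ := hcond
  have hPpos : (0 : ℝ) < nm (x.a * x.D * x.F) :=
    nmpos ((hok.a.mul (hok.prim hok.D)).mul (hok.prim hok.F)).ne_zero
  have hYU : YU V x.U = ZU V x.U / nm (x.a * x.D * x.F) := by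
    rw [nm_mul, nm_mul]
    push_cast
    rfl
  have hom : ∀ y : ℝ, wz ((nm (x.a * x.D * x.F) : ℝ) * y) =
      ((w' (y / (cs * YU V x.U)) : ℝ) : ℂ) := by
    intro y
    rw [hwz, hYU]
    congr 2
    have hcs0 : cs ≠ 0 := by linarith
    have hZ0 : ZU V x.U ≠ 0 := by
      have h3 := YU_pos hV hok
      rw [hYU] at h3
      intro h0
      rw [h0, zero_div] at h3
      exact lt_irrefl _ h3
    field_simp
  by_cases hY1 : 1 ≤ cs * YU V x.U
  swap
  · -- the window is empty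
    refine le_trans (le_of_eq ?_) hRHS
    unfold SEc E3T1579.UF
    split_ifs
    · unfold E3Sp579.UE
      split_ifs
      · have hz : ∀ n, pS ψ (fun y => wz ((nm (x.a * x.D * x.F) : ℝ) * y))
            (x.g * x.d * x.m' * (x.a * x.D * x.F)) (bF (x.a * x.D) x.F
              (b0 (af x.d x.e) x.d x.e (x.q * x.c * x.g ^ 2))) n = 0 := by
          intro n
          by_contra h0
          obtain ⟨p1, -, -, p4⟩ := E3Sd579.pS_supp h0
          rw [hom] at p4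
          have p5 : w' ((nm n : ℝ) / (cs * YU V x.U)) ≠ 0 := fun h => p4 (by rw [h]; simp)
          have p6 := hw' _ p5
          have p7 : 0 < cs * YU V x.U := mul_pos (by linarith) (YU_pos hV hok)
          rw [div_le_one p7] at p6
          have p8 : (1 : ℝ) ≤ nm n := E1551.nm_ge_one p1.ne_zero
          linarith
        have e1 : ∀ y : Eis, (if y = 0 then (0 : ℝ) else
            BD829.WB M₀ (x.cell K V V' 1 1 1).KM ((x.cell K V V' 1 1 1).N1 *
              (x.cell K V V' 1 1 1).N2) 1 Bw x.D x.E y *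
            EQ A (pS ψ (fun y => wz ((nm (x.a * x.D * x.F) : ℝ) * y))
            (x.g * x.d * x.m' * (x.a * x.D * x.F)) (bF (x.a * x.D) x.F
              (b0 (af x.d x.e) x.d x.e (x.q * x.c * x.g ^ 2))))
              (y * ((x.E * (M₀ * sq3) * (x.c * x.N)) ^ 2 * (x.m' / x.a * x.a')))) = 0 := by
          intro y
          rw [EQ_zero' hz, mul_zero, ite_self]
        simp only [e1, tsum_zero, mul_zero]
      · rfl
    · rfl
  -- the main case
  have hb : FS (b0 (af x.d x.e) x.d x.e (x.q * x.c * x.g ^ 2)) := FS_b0 (haf _ _) _ _ _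
  have key := hmain (A' := A) (B := Bw) hBw (C := C) (cw := cw) (cs := cs) (mc := mc) hC hcw hcs
    (w' := w') (om := wz) (ψ := ψ) (Mc := M₀) hM₀ hmcn hMp (x := x) hok hpc.DF hK hV hV' hH hX
    (c := x.cell K V V' H X x.xk) rfl (K₁ := (x.cell K V V' 1 1 1).KM) rfl
    (NN := (x.cell K V V' 1 1 1).N1 * (x.cell K V V' 1 1 1).N2) rfl hb hom hZm
    (by
      have k1 := nL_size (H := H) (X := X) hx' hK hV hV' hVz hVz' hb₀
      refine le_trans ?_ hZm2
      unfold kZ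
      calc 3 * mc * nL (x.cell K V V' H X x.xk) ≤ 3 * mc * (b₀ * z ^ 9) := by gcongr
        _ ≤ 729 * mc ^ 2 * (1 + b₀) ^ 2 * z ^ 10 := by
          have k2 : 3 * mc ≤ 729 * mc ^ 2 := by nlinarith
          have k3 : b₀ ≤ (1 + b₀) ^ 2 := by nlinarith
          have k4 : z ^ 9 ≤ z ^ 10 := pow_le_pow_right₀ hz1 (by norm_num)
          calc 3 * mc * (b₀ * z ^ 9) ≤ 729 * mc ^ 2 * ((1 + b₀) ^ 2 * z ^ 10) := by gcongr
            _ = _ := by ring)
    (by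
      refine le_trans ?_ hZm2
      rw [nm_mul]
      push_cast
      have k1 := hok.na
      have k2 := hok.size hok.D
      unfold kZ
      calc (nm x.a : ℝ) * nm x.D ≤ z * z := by gcongr
        _ = 1 * z ^ 2 := by ring
        _ ≤ 729 * mc ^ 2 * (1 + b₀) ^ 2 * z ^ 10 := by
          have k3 : z ^ 2 ≤ z ^ 10 := pow_le_pow_right₀ hz1 (by norm_num)
          have k4 : 1 ≤ 729 * mc ^ 2 * (1 + b₀) ^ 2 := by
            have k5 : 1 ≤ mc ^ 2 := one_le_pow₀ hmc1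
            have k6 : (1 : ℝ) ≤ (1 + b₀) ^ 2 := one_le_pow₀ (by linarith)
            nlinarith
          gcongr)
    (by
      refine le_trans ?_ hZm2
      simp only [nm_mul]
      push_cast
      have k1 := hok.na
      have k2 := hok.size hok.D
      have k3 := hok.size hok.F
      have k4 := hok.size hok.g
      have k5 := hok.size hok.d
      have k6 : (nm x.m' : ℝ) ≤ z ^ 2 := by
        have q1 : (nm x.m' : ℝ) ≤ nm x.r * nm x.m' :=
          le_mul_of_one_le_left (Nat.cast_nonneg _) (E1551.nm_ge_one hok.r.ne_zero)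
        have q3 : (nm x.r * nm x.m' : ℝ) = nm x.d' * nm x.g' := by
          have h2 := congrArg nm hok.e2
          rw [nm_mul, nm_mul] at h2
          exact_mod_cast h2.symm
        have q4 := hok.size hok.d'
        have q5 := hok.size hok.g'
        calc (nm x.m' : ℝ) ≤ nm x.d' * nm x.g' := by rw [← q3]; exact q1
          _ ≤ z * z := by gcongr
          _ = z ^ 2 := by ring
      unfold kZ
      calc (nm x.g : ℝ) * nm x.d * nm x.m' * (nm x.a * nm x.D * nm x.F) ≤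
            z * z * z ^ 2 * (z * z * z) := by gcongr
        _ = 1 * z ^ 7 := by ring
        _ ≤ 729 * mc ^ 2 * (1 + b₀) ^ 2 * z ^ 10 := by
          have k3 : z ^ 7 ≤ z ^ 10 := pow_le_pow_right₀ hz1 (by norm_num)
          have k4 : 1 ≤ 729 * mc ^ 2 * (1 + b₀) ^ 2 := by
            have k5 : 1 ≤ mc ^ 2 := one_le_pow₀ hmc1
            have k6 : (1 : ℝ) ≤ (1 + b₀) ^ 2 := one_le_pow₀ (by linarith)
            nlinarith
          gcongr)
    (by
      refine le_trans ?_ hZm2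
      have k1 := hok.na'
      have kE : (nm x.E : ℝ) ≤ z := by
        have h3 := (mem_dvs (hok.prim hok.D).ne_zero).mp hok.E
        have h2 : nm x.E ≤ nm x.D := Div277.nm_le_of_dvd (hok.prim hok.D).ne_zero h3.2
        have h2' : (nm x.E : ℝ) ≤ nm x.D := by exact_mod_cast h2
        exact h2'.trans (hok.size hok.D)
      have k6 : (nm x.u : ℝ) ≤ z ^ 2 := by
        have q0 : (nm x.u : ℝ) ≤ nm x.m' := by
          rw [hok.eu, nm_mul]
          push_cast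
          exact le_mul_of_one_le_left (Nat.cast_nonneg _) (E1551.nm_ge_one hok.a.ne_zero)
        have q1 : (nm x.m' : ℝ) ≤ nm x.r * nm x.m' :=
          le_mul_of_one_le_left (Nat.cast_nonneg _) (E1551.nm_ge_one hok.r.ne_zero)
        have q3 : (nm x.r * nm x.m' : ℝ) = nm x.d' * nm x.g' := by
          have h2 := congrArg nm hok.e2
          rw [nm_mul, nm_mul] at h2
          exact_mod_cast h2.symm
        have q4 := hok.size hok.d'
        have q5 := hok.size hok.g'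
        calc (nm x.u : ℝ) ≤ nm x.d' * nm x.g' := by rw [← q3]; linarith
          _ ≤ z * z := by gcongr
          _ = z ^ 2 := by ring
      have kN : (nm x.N : ℝ) ≤ b₀ * z ^ 3 := by
        have sg0 := (mem_dvs hok.r.ne_zero).mp hok.sg
        have hsg : (nm x.sg : ℝ) ≤ z ^ 2 := by
          have h2 : nm x.sg ≤ nm x.r := Div277.nm_le_of_dvd hok.r.ne_zero sg0.2
          have h2' : (nm x.sg : ℝ) ≤ nm x.r := by exact_mod_cast h2
          have h4 : (nm x.r : ℝ) ≤ nm x.r * nm x.m :=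
            le_mul_of_one_le_right (Nat.cast_nonneg _) (E1551.nm_ge_one hok.m.ne_zero)
          have h3 : (nm x.r * nm x.m : ℝ) = nm x.d * nm x.g := by
            have h2 := congrArg nm hok.e1
            rw [nm_mul, nm_mul] at h2
            exact_mod_cast h2.symm
          have k1 := hok.size hok.d
          have k2 := hok.size hok.g
          calc (nm x.sg : ℝ) ≤ nm x.d * nm x.g := by rw [← h3]; linarith
            _ ≤ z * z := by gcongr
            _ = z ^ 2 := by ring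
        have h5 := hpc.size
        rw [nm_mul, nm_mul, nm_pow, nm_pow] at h5
        push_cast at h5
        have h6 : (nm x.N : ℝ) ≤ nm x.M := by
          rw [hok.eN, nm_mul]
          push_cast
          exact le_mul_of_one_le_left (Nat.cast_nonneg _)
            (E1551.nm_ge_one (hok.prim hok.g).ne_zero)
        have h7 : (1 : ℝ) ≤ (nm x.q : ℝ) ^ 2 * (nm x.t : ℝ) ^ 3 :=
          one_le_mul_of_one_le_of_one_le (one_le_pow₀ (E1551.nm_ge_one (hok.prim hok.q).ne_zero))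
            (one_le_pow₀ (E1551.nm_ge_one hok.pt.ne_zero))
        have h8 : (nm x.M : ℝ) ≤ nm x.M * (nm x.q : ℝ) ^ 2 * (nm x.t : ℝ) ^ 3 := by
          rw [mul_assoc]
          exact le_mul_of_one_le_right (Nat.cast_nonneg _) h7
        calc (nm x.N : ℝ) ≤ b₀ * K * nm x.sg := h6.trans (h8.trans h5)
          _ ≤ b₀ * z * z ^ 2 := by gcongr
          _ = b₀ * z ^ 3 := by ring
      unfold kZ
      calc 9 * mc ^ 2 * 81 * ((nm x.E : ℝ) * nm x.u * nm x.a' * (nm x.N : ℝ) ^ 2) ≤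
            9 * mc ^ 2 * 81 * (z * z ^ 2 * z * (b₀ * z ^ 3) ^ 2) := by gcongr
        _ = 729 * mc ^ 2 * b₀ ^ 2 * z ^ 10 := by ring
        _ ≤ 729 * mc ^ 2 * (1 + b₀) ^ 2 * z ^ 10 := by
          have k3 : b₀ ^ 2 ≤ (1 + b₀) ^ 2 := by nlinarith
          gcongr)
    (fun v => Bs (dil x.U x.E v)) (fun v => hBs _)
    (fun hs hc v hv => by
      obtain ⟨d1, d2, d3⟩ := dil_nums (K := K) (V := V) (H := H) hok hv
      have h5 := hMB _ (dil_TU hx' hs hc hv) rfl rfl (by rw [d1]; exact hY1)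
      unfold MBU at h5
      rw [d1, d2, ← cell_Lt hX] at h5
      have e1 : bu af (dil x.U x.E v) = bF (x.a * x.D / (x.E * v) * 1) (x.F * x.E * v)
          (b0 (af x.d x.e) x.d x.e (x.q * x.c * x.g ^ 2)) := rfl
      rw [e1] at h5
      have e2 : x.a * x.D / (x.E * v) * 1 = x.a * x.D / (x.E * v) := mul_one _
      rw [e2] at h5
      change MB ψ w' A ε C cw _ (x.g * (x.a * x.D / (x.E * v) * 1) * (x.F * x.E * v))
        (x.a * x.D / (x.E * v) * 1) _ _ _ _ at h5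
      rw [e2] at h5
      exact h5)
  refine (le_of_eq ?_).trans (key.trans ?_)
  · unfold SEc
    rfl
  refine mul_le_mul_of_nonneg_left ?_ (by positivity)
  rw [hS]
  refine mul_le_mul_of_nonneg_left ?_ hfc
  have t0 := T1_eq_TQ (cw := cw) (cs := cs) (V := V) (af := af) h1 h2
  change T1 (cw * (cs * (x.cell K V V' H X x.xk).Y)) (bF (x.a * x.D) x.F
    (b0 (af x.d x.e) x.d x.e (x.q * x.c * x.g ^ 2)))
      (x.g * x.d * x.m' * (x.a * x.D * x.F)) = _ at t0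
  rw [t0]
  have t1 := DT_le_TQ 1 (cw * (cs * YU V x.U)) (bu af x.U) (x.g * (x.a * x.D) * x.F)
  have t2 := DT_le_TQ (1 / 2) (cw * (cs * YU V x.U)) (bu af x.U) (x.g * (x.a * x.D) * x.F)
  have t1' : DT 1 (cw * (cs * (x.cell K V V' H X x.xk).Y)) (bF (x.a * x.D) x.F
      (b0 (af x.d x.e) x.d x.e (x.q * x.c * x.g ^ 2))) (x.g * (x.a * x.D) * x.F) ≤
      TQ af (fun γ => (nm γ : ℝ) ^ (-(1 : ℝ))) (N3 cw cs V x) x.U := t1
  have t2' : DT (1 / 2) (cw * (cs * (x.cell K V V' H X x.xk).Y)) (bF (x.a * x.D) x.F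
      (b0 (af x.d x.e) x.d x.e (x.q * x.c * x.g ^ 2))) (x.g * (x.a * x.D) * x.F) ≤
      TQ af (fun γ => (nm γ : ℝ) ^ (-(1 / 2 : ℝ))) (N3 cw cs V x) x.U := t2
  have t3 : (if Squarefree (x.a * x.D * x.F) then
      ∑ v ∈ pdiv (x.a * x.D / x.E), Bs (dil x.U x.E v) else 0) ≤ Rdil Bs x.U := by
    unfold Rdil
    rw [if_pos h1]
    change _ ≤ (if Squarefree (x.a * x.D * x.F) then _ else _)
    rw [if_pos h1]
    have hE : x.E ∈ pdiv x.D := (mem_pdiv (hok.prim hok.D).ne_zero).mpr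
      ((mem_dvs (hok.prim hok.D).ne_zero).mp hok.E)
    exact Finset.single_le_sum (f := fun E => ∑ v ∈ pdiv (x.a * x.D / E), Bs (dil x.U E v))
      (fun E _ => Finset.sum_nonneg fun _ _ => hBs _) hE
  unfold RP
  have u1 := mul_le_mul_of_nonneg_left t1' hE3
  have u2 := mul_le_mul_of_nonneg_left t2' hE4
  have u3 : xL (x.cell K V V' H X x.xk) = x.extL K V V' H X := rfl
  have u4 : xLS (x.cell K V V' H X x.xk) = x.extS K V V' H X := rfl
  have u5 : ((x.cell K V V' H X x.xk).Y + ((x.cell K V V' H X x.xk).Lt *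
    (x.cell K V V' H X x.xk).Y) ^ (2 / 3 : ℝ)) / (x.cell K V V' H X x.xk).Y =
      x.extD1 K V V' H X := rfl
  have u6 : (x.cell K V V' H X x.xk).Lt * (x.cell K V V' H X x.xk).Y ^ (-(1 / 2) : ℝ) =
      x.extD2 K V V' H X := by
    unfold Cd.extD2
    have e2 : (x.cell K V V' H X x.xk).Y ^ (1 / 2 : ℝ) =
        (x.cell K V V' H X x.xk).Y ^ (-(1 / 2) : ℝ) * (x.cell K V V' H X x.xk).Y := by
      nth_rewrite 3 [← Real.rpow_one (x.cell K V V' H X x.xk).Y]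
      rw [← Real.rpow_add pY]; norm_num
    rw [e2]
    field_simp
  rw [u3, u4, u5, u6]
  linarith

/-! ### the data of one side -/

/-- the data of one side, `H` a function of `(d, e)` -/
def sdH (P : Fin 5 → Eis → Eis → ℝ) (PR : Eis → Eis → ℝ) (z cJ cw cs K V V' : ℝ)
    (H : Eis → Eis → ℝ) (X : ℝ) (Bs : UT → ℝ) : SF 5 :=
  { sdC P PR z cJ cw cs K V V' 1 X Bs with
    H := fun x => H x.d x.e
    ext := fun l x => (sdC P PR z cJ cw cs K V V' (H x.d x.e) X Bs).ext l x }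

lemma CellF_sdH {P : Fin 5 → Eis → Eis → ℝ} {PR : Eis → Eis → ℝ} {z cJ cw cs K V V' X : ℝ}
    {H : Eis → Eis → ℝ} {Bs : UT → ℝ} {af : Eis → Eis → Eis → ℂ} {x : Cd} :
    CellF (sdH P PR z cJ cw cs K V V' H X Bs) K V V' X af x =
      CellF (sdC P PR z cJ cw cs K V V' (H x.d x.e) X Bs) K V V' X af x := rfl

theorem sdH_OK {P : Fin 5 → Eis → Eis → ℝ} {PR : Eis → Eis → ℝ} {z cJ cw cs K V V' X b₀ : ℝ}
    {H : Eis → Eis → ℝ} {Bs : UT → ℝ} {EE : Finset Eis} (hP : ∀ l d e, 0 ≤ P l d e)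
    (hPR : ∀ d e, 0 ≤ PR d e)
    (hcw : 1 ≤ cw) (hcs : 1 ≤ cs) (hcJ : cw * cs ≤ cJ) (hK : 0 < K) (hV : 0 < V) (hV' : 0 < V')
    (hH : ∀ d e, 0 < H d e) (hX : 0 < X) (hz : cJ * V ≤ z) (hBs : ∀ t, 0 ≤ Bs t) :
    (sdH P PR z cJ cw cs K V V' H X Bs).OK z (PcC z EE b₀ K) := by
  have h1 : (sdC P PR z cJ cw cs K V V' 1 X Bs).OK z (PcC z EE b₀ K) :=
    sdC_OK hP hPR hcw hcs hcJ hK hV hV' one_pos hX hz hBs
  exact
    { ext := fun l x hx => (sdC_OK (P := P) (PR := PR) (Bs := Bs) (b₀ := b₀) (EE := EE) hP hPR hcw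
        hcs hcJ hK hV hV' (hH x.d x.e) hX hz hBs).ext l x hx
      P := h1.P
      PR := h1.PR
      om := h1.om
      Rp := h1.Rp
      dl := h1.dl
      N := h1.N }

/-! ### the cells -/

/-- the condition on the Möbius sums of one side -/
def MB1H (w1 : ℝ → ℝ) (A ε C cw cs K V : ℝ) (H : Eis → Eis → ℝ) (af : Eis → Eis → Eis → ℂ)
    (z : ℝ) (EE : Finset Eis) (Bs : UT → ℝ) (Zm : ℝ) : Prop :=
  ∀ c c', IsC c → IsC c' → ∀ t, TU z EE t → 1 ≤ cs * YU V t →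
    MBU (pc c c') (fun y => w1 (cs * y)) A ε C cw cs K V (H t.1 t.2.1) af Bs Zm t

/-- the condition on the Möbius sums of the other side -/
def MB2H (w1 : ℝ → ℝ) (A ε C cw cs K V : ℝ) (H : Eis → Eis → ℝ) (af : Eis → Eis → Eis → ℂ)
    (z : ℝ) (EE : Finset Eis) (Bs : UT → ℝ) (Zm : ℝ) : Prop :=
  ∀ c c', IsC c → IsC c' → ∀ t, TU z EE t → 1 ≤ cs * YU V t →
    MBU (fun m => conj (pc c c' m)) (fun y => w1 (cs * y)) A ε C cw cs K V (H t.1 t.2.1) af Bs Zm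
      t

/-- **the cells of the literal family** -/
theorem cellsF {ε : ℝ} (hε : 0 < ε) (hε1 : ε ≤ 1) : ∃ C' : ℝ, 0 < C' ∧
    ∀ {A Bw : ℕ}, 4 ≤ Bw → ∀ {Rw : ℝ} {w1 : ℝ → ℝ},
      (∀ x, w1 x ≠ 0 → 0 < x ∧ |Real.log x| ≤ Rw) → ∀ {C cw cs b₀ : ℝ}, 0 ≤ C → 1 ≤ cw →
      1 ≤ cs → Real.exp Rw ≤ cs → 0 ≤ b₀ →
    ∀ {Z K V V' X Zm : ℝ} {H H' : Eis → Eis → ℝ} {EE : Finset Eis} {Pr : Yp → Yp → Prop} {J : Finset (Eis × Eis)}
      {E0 E1 R B : ℝ},
      1 ≤ Z → OKJ J → 0 ≤ R → R ≤ Z → 0 ≤ B → B ≤ Z → E1 ≤ Z → (∀ x ∈ J, (nm x.1 : ℝ) ≤ Z) →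
      0 < K → K ≤ Z ^ 5 → 0 < V → 0 < V' → cw * cs * V ≤ Z ^ 5 → cw * cs * V' ≤ Z ^ 5 →
      (∀ d e, 0 < H d e) → (∀ d e, 0 < H' d e) → 0 < X → 1 ≤ Zm → kZ 59049 b₀ * (Z ^ 5) ^ 10 ≤ Zm →
    ∀ {af : Eis → Eis → Eis → ℂ}, (∀ d e, FS (af d e)) → ∀ {Bs Bs' : UT → ℝ},
      (∀ t, 0 ≤ Bs t) → (∀ t, 0 ≤ Bs' t) →
      MB1H w1 A ε C cw cs K V H af (Z ^ 5) EE Bs Zm →
      MB2H w1 A ε C cw cs K V' H' af (Z ^ 5) EE Bs' Zm →
      (∀ P PR, ∀ i ∈ OI Pr J EE E0 E1 R B Z b₀ K,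
        sE1 A Bw K V V' af (w1L w1 V) i ≤ C' * C * cs ^ 2 * Zm ^ (3 * ε) *
          CellF (sdH P PR (Z ^ 5) (cw * cs) cw cs K V V' H X Bs) K V V' X af (cdI i)) ∧
      (∀ P PR, ∀ i ∈ OI Pr J EE E0 E1 R B Z b₀ K,
        sE2 A Bw K V V' af (w1L w1 V') i ≤ C' * C * cs ^ 2 * Zm ^ (3 * ε) *
          CellF (sdH P PR (Z ^ 5) (cw * cs) cw cs K V' V H' X Bs') K V' V X af
            (cdI i).swap) := by
  obtain ⟨C', hC', h⟩ := CELLr hε hε1
  have hk0 : 0 ≤ kC 59049 := by unfold kC; norm_num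
  refine ⟨C' * kC 59049 + 1, by positivity, ?_⟩
  intro A Bw hBw Rw w1 hw C cw cs b₀ hC hcw hcs hRcs hb₀ Z K V V' X Zm H H' EE Pr J E0 E1 R B hZ hJ
    hR0 hRZ hB0 hBZ hE1 hJ1 hK hKz hV hV' hVz hVz' hH hH' hX hZm hZm2 af haf Bs Bs' hBs hBs' hM1
    hM2
  have hcc : 1 ≤ cw * cs := one_le_mul_of_one_le_of_one_le hcw hcs
  have hV1 : V ≤ Z ^ 5 := (le_mul_of_one_le_left hV.le hcc).trans hVz
  have hV1' : V' ≤ Z ^ 5 := (le_mul_of_one_le_left hV'.le hcc).trans hVz'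
  have hcs0 : cs ≠ 0 := by positivity
  have hZm0 : 0 < Zm := by linarith
  have hP : ∀ i ∈ OI Pr J EE E0 E1 R B Z b₀ K, PcC (Z ^ 5) EE b₀ K (cdI i) := fun i hi =>
    ⟨OI_OK hJ hZ hR0 hRZ hB0 hBZ hE1 hJ1 hi, OI_PC hi⟩
  have hP' : ∀ i ∈ OI Pr J EE E0 E1 R B Z b₀ K, PcC (Z ^ 5) EE b₀ K (cdI i).swap := fun i hi =>
    ⟨(hP i hi).1.swap, (hP i hi).2.swap⟩
  have hwt : ∀ (V : ℝ) (t : UT) (y : ℝ), w1 (y / ZU V t) = w1 (cs * (y / (cs * ZU V t))) := by
    intro V t y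
    congr 1
    rw [← mul_div_assoc, mul_div_mul_left _ _ hcs0]
  have hlast : ∀ F : ℝ, 0 ≤ F → C' * C * cs ^ 2 * kC 59049 * Zm ^ (3 * ε) * F ≤
      (C' * kC 59049 + 1) * C * cs ^ 2 * Zm ^ (3 * ε) * F := by
    intro F hF
    have h1 : 0 ≤ C * cs ^ 2 * Zm ^ (3 * ε) * F := by positivity
    nlinarith
  constructor
  · intro P PR i hi
    have hx := hP i hi
    have hc := hx.1.c
    have hc' := hx.1.c'
    have hLC := LC_pc hc hc'
    have k := h (A := A) hBw hC hcw hcs hb₀ (w' := fun y => w1 (cs * y))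
      (fun y hy => w_le hw hRcs hy) (ψ := pc (cdI i).c (cdI i).c') hLC.ne (nm_Mc hc hc')
      (fun p hp => (hLC.cop p hp).symm) hK hKz hV hV1 hV' hV1' (hH (cdI i).d (cdI i).e) hX hZm
      hZm2 haf hBs (x := cdI i) (fun t ht hd he hY => by
        have := hM1 _ _ hc hc' t ht hY
        rwa [hd, he] at this) hx (wz := w1L w1 V i.1 i.2.2.1)
      (fun y => by
        unfold w1L
        rw [Nq_pos_eq (cdI i) i.1 i.2.2.1 rfl rfl rfl rfl, hwt]) P PR (cw * cs)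
    exact k.trans (hlast _ (CellF_nonneg hcw hcs le_rfl hK hV hV' (hH _ _) hX hVz hBs hx))
  · intro P PR i hi
    have hx := hP' i hi
    have hc := (hP i hi).1.c
    have hc' := (hP i hi).1.c'
    have hLC := LC_pc hc hc'
    have k := h (A := A) hBw hC hcw hcs hb₀ (w' := fun y => w1 (cs * y))
      (fun y hy => w_le hw hRcs hy) (ψ := fun m => conj (pc (cdI i).c (cdI i).c' m)) hLC.ne
      (nm_Mc hc hc') (fun p hp => (hLC.cop p hp).symm) hK hKz hV' hV1' hV hV1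
      (hH' (cdI i).swap.d (cdI i).swap.e) hX hZm hZm2 haf hBs' (x := (cdI i).swap)
      (fun t ht hd he hY => by
        have := hM2 _ _ hc hc' t ht hY
        rwa [hd, he] at this) hx (wz := w1L w1 V' i.1 i.2.2.2.1)
      (fun y => by
        unfold w1L
        rw [Nq_pos_eq (cdI i).swap i.1 i.2.2.2.1 rfl rfl rfl rfl, hwt]) P PR (cw * cs)
    exact k.trans (hlast _ (CellF_nonneg hcw hcs le_rfl hK hV' hV (hH' _ _) hX hVz' hBs' hx))

end Crest.Agent.R017.E3Ha290
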