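import Crest.Agent.R017.E3Ha_290

/-!
# Row 17, block C70, leaf E3 (S-sum) (helper290): `H` a function of `(d, e)`, part 2

* `PHd`, `PRHd` : the weights;  `LVH` : the number of one side;  `RPH` : its `R`-number
* `fibH`, `fibH'` : the fibre sums
* `SFBH_le` : the total of one side
-/

set_option autoImplicit false
set_option linter.unusedVariables false

noncomputable section

open Finset
open scoped Classical ComplexConjugate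

namespace Crest.Agent.R017.E3Hb290

open Crest.Agent.R012 Crest.Agent.R012.Eis Crest.Agent.R012.Div277
open Crest.Agent.R012.LS2 (S mem_S)
open Crest.Agent.R012.Mob705 (pb mem_pb pdiv mem_pdiv)
open Crest.Agent.R017.C70 (JC OKJ)
open Crest.Agent.R017.CM106 (CS FS)
open Crest.Agent.R017.E3D579 (TE0)
open Crest.Agent.R017.E1551 (nmpos)
open Crest.Agent.R017.GrB829 (IsC)
open Crest.Agent.R017.E3A164 (Yp Ys fq Cs mem_Cs)
open Crest.Agent.R017.E3T829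
open Crest.Agent.R017.E3T829.Cd (Pde)
open Crest.Agent.R017.E3Z548
open Crest.Agent.R017.E3Sy290 (sdC_SDf)
open Crest.Agent.R017.E3Sw290 (sdC PcC kZ)
open Crest.Agent.R017.E3Ha290

/-- the weights of the `T`-lines -/
def PHd (b K : ℝ) (H : Eis → Eis → ℝ) (V V' E1 B G1 : ℝ) (EE : Finset Eis) (l : Fin 5)
    (d e : Eis) : ℝ :=
  PZ b K (H d e) V V' E1 B (b * G1) ((H d e * V ^ 2 * V' * E1 ^ 3 * B ^ 2 / K ^ 2) ^ (1 / 3 : ℝ))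
    (1 + (H d e ^ 2 * V ^ 3 / K ^ 2) ^ (1 / 3 : ℝ)) ((H d e ^ 2 * V ^ 3 / K ^ 2) ^ (1 / 2 : ℝ)) EE
    l d e

/-- the weights of the `R`-part -/
def PRHd (b K : ℝ) (H : Eis → Eis → ℝ) (V : ℝ) (EE : Finset Eis) (d e : Eis) : ℝ :=
  PRZ b K (H d e) V EE d e

/-- the number of one side -/
def LVH (af : Eis → Eis → Eis → ℂ) (Ds EE : Finset Eis) (c Y K : ℝ) (H : Eis → Eis → ℝ)
    (V V' E1 B G1 : ℝ) (RN : Eis → Eis → ℝ) : ℝ :=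
  ∑ d ∈ Ds, ∑ e ∈ EE, LVn af {d} {e} c Y K (H d e) V V' E1 B G1 (RN d e)

/-- the `R`-number of one side -/
def RPH (J : Finset (Eis × Eis)) (EE : Finset Eis) (z K : ℝ) (H : Eis → Eis → ℝ) (V : ℝ)
    (Bs : UT → ℝ) (ρ : ℝ) (RN : Eis → Eis → ℝ) : Prop :=
  ∀ b : ℝ, 0 ≤ b → ∑ u ∈ RUs J EE z, PRHd b K H V EE u.1 u.2.1 * Rdil Bs u ≤
    ρ * (b * hE EE * ∑ d ∈ J.image Prod.fst, ∑ e ∈ EE, FH K (H d e) V * RN d e)

/-- the data of one side with the weights -/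
def sdP (b z cJ cw cs K V V' : ℝ) (H : Eis → Eis → ℝ) (X E1 B G1 : ℝ) (EE : Finset Eis)
    (Bs : UT → ℝ) : SF 5 :=
  cut1 (Real.sqrt (cJ * V)) (sdH (PHd b K H V V' E1 B G1 EE) (PRHd b K H V EE) z cJ cw cs K V V'
    H X Bs)

/-- the same data at a constant `h` -/
def sdu (b z cJ cw cs K V V' h X E1 B G1 : ℝ) (EE : Finset Eis) (Bs : UT → ℝ) : SF 5 :=
  cut1 (Real.sqrt (cJ * V)) (sdC (PZ b K h V V' E1 B (b * G1)
    ((h * V ^ 2 * V' * E1 ^ 3 * B ^ 2 / K ^ 2) ^ (1 / 3 : ℝ))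
    (1 + (h ^ 2 * V ^ 3 / K ^ 2) ^ (1 / 3 : ℝ)) ((h ^ 2 * V ^ 3 / K ^ 2) ^ (1 / 2 : ℝ)) EE)
    (PRZ b K h V EE) z cJ cw cs K V V' h X Bs)

lemma sdu_lin {b z cJ cw cs K V V' h X E1 B G1 : ℝ} {EE : Finset Eis} {Bs : UT → ℝ} :
    Lin (sdu b z cJ cw cs K V V' h X E1 B G1 EE Bs) K V V' h X (Real.sqrt (cJ * V)) (b * G1) E1 B
      b ((h * V ^ 2 * V' * E1 ^ 3 * B ^ 2 / K ^ 2) ^ (1 / 3 : ℝ))
      (1 + (h ^ 2 * V ^ 3 / K ^ 2) ^ (1 / 3 : ℝ)) ((h ^ 2 * V ^ 3 / K ^ 2) ^ (1 / 2 : ℝ)) EE where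
  hH := fun _ => rfl
  e0 := fun x => by
    unfold sdu
    rw [cut1_ext _ _ (by decide)]
    rfl
  e1 := fun x => by
    unfold sdu
    rw [cut1_ext1]
    rfl
  P := rfl
  PR := rfl

lemma sdP_H {b z cJ cw cs K V V' X E1 B G1 : ℝ} {H : Eis → Eis → ℝ} {EE : Finset Eis}
    {Bs : UT → ℝ} (x : Cd) : (sdP b z cJ cw cs K V V' H X E1 B G1 EE Bs).H x = H x.d x.e := rfl

lemma sdP_ext {b z cJ cw cs K V V' X E1 B G1 h : ℝ} {H : Eis → Eis → ℝ} {EE : Finset Eis}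
    {Bs : UT → ℝ} {x : Cd} (hx : H x.d x.e = h) (l : Fin 5) :
    (sdP b z cJ cw cs K V V' H X E1 B G1 EE Bs).ext l x =
      (sdu b z cJ cw cs K V V' h X E1 B G1 EE Bs).ext l x := by
  subst hx
  rfl

/-- from the fibre sums at constant `h` -/
lemma Fib_of {b z cJ cw cs K V V' X E1 B G1 rv : ℝ} {H : Eis → Eis → ℝ} {EE : Finset Eis}
    {Bs : UT → ℝ} {ι : Type} {O : Finset ι} {x : ι → Cd}
    (h : ∀ d e, (sdu b z cJ cw cs K V V' (H d e) X E1 B G1 EE Bs).Fib K V V' rv X O x) :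
    (sdP b z cJ cw cs K V V' H X E1 B G1 EE Bs).Fib K V V' rv X O x where
  T := fun l u => by
    refine le_trans (le_of_eq ?_) ((h u.1 u.2.1).T l u)
    refine sum_congr rfl fun i hi => ?_
    have hu := (mem_filter.mp hi).2
    have hx : H (x i).d (x i).e = H u.1 u.2.1 := by rw [← hu]; rfl
    rw [sdP_ext hx, sdP_H, hx]
    rfl
  R := fun u => by
    refine le_trans (le_of_eq ?_) ((h u.1 u.2.1).R u)
    refine sum_congr rfl fun i hi => ?_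
    have hu := (mem_filter.mp hi).2
    have hx : H (x i).d (x i).e = H u.1 u.2.1 := by rw [← hu]; rfl
    rw [sdP_H, hx]
    rfl

/-- **the fibre sums** -/
theorem fibH {ε : ℝ} (hε : 0 < ε) : ∃ C : ℝ, 1 ≤ C ∧ ∀ Z : ℝ, 1 ≤ Z →
    ∀ (Pr : Yp → Yp → Prop) (J : Finset (Eis × Eis)) (EE : Finset Eis)
      (E0 E1 R B b₀ K V V' X cJ cw cs G1 b : ℝ) (H : Eis → Eis → ℝ) (Bs : UT → ℝ),
      OKJ J → 0 ≤ R → R ≤ Z → 0 ≤ B → B ≤ Z → 0 ≤ E1 → E1 ≤ Z → (∀ x ∈ J, (nm x.1 : ℝ) ≤ Z) →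
      0 < K → 0 < V → 0 < V' → 0 < X → (∀ d e, 0 < H d e) → 0 ≤ G1 →
      (Real.sqrt (cJ * V) ≤ G1 ∨ (ClsP Pr J E0 R ∧ 1 ≤ G1)) → C * Z ^ ε ≤ b →
      (sdP b (Z ^ 5) cJ cw cs K V V' H X E1 B G1 EE Bs).Fib K V V' ((V' / V) ^ (1 / 6 : ℝ)) X
        (OI Pr J EE E0 E1 R B Z b₀ K) cdI := by
  obtain ⟨C, hC, h⟩ := fib_OI hε
  refine ⟨C, hC, ?_⟩
  intro Z hZ Pr J EE E0 E1 R B b₀ K V V' X cJ cw cs G1 b H Bs hJ hR0 hRZ hB0 hBZ hE10 hE1 hJ1 hK hV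
    hV' hX hH hG1 hcl hb
  refine Fib_of fun d e => ?_
  have hh := hH d e
  refine h Z hZ Pr J EE E0 E1 R B b₀ K V V' X (H d e) (Real.sqrt (cJ * V)) G1 _ _ _ b b _ hJ hR0
    hRZ hB0 hBZ hE10 hE1 hJ1 hK hV hV' hX hh (by positivity) (by positivity) (by positivity) hcl
    hG1 hb hb sdu_lin ?_ ?_ ?_
  · intro i hi
    unfold sdu
    rw [cut1_ext _ _ (by decide)]
    exact (ext_OI hJ hZ hR0 hRZ hB0 hBZ hE1 hJ1 hi hK hV hV' hh hX).1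
  · intro i hi
    unfold sdu
    rw [cut1_ext _ _ (by decide)]
    exact (ext_OI hJ hZ hR0 hRZ hB0 hBZ hE1 hJ1 hi hK hV hV' hh hX).2.2.1
  · intro i hi
    unfold sdu
    rw [cut1_ext _ _ (by decide)]
    exact (ext_OI hJ hZ hR0 hRZ hB0 hBZ hE1 hJ1 hi hK hV hV' hh hX).2.2.2.2.1

/-- **the fibre sums, the other side** -/
theorem fibH' {ε : ℝ} (hε : 0 < ε) : ∃ C : ℝ, 1 ≤ C ∧ ∀ Z : ℝ, 1 ≤ Z →
    ∀ (Pr : Yp → Yp → Prop) (J : Finset (Eis × Eis)) (EE : Finset Eis)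
      (E0 E1 R B b₀ K V V' X cJ cw cs G1 b : ℝ) (H : Eis → Eis → ℝ) (Bs : UT → ℝ),
      OKJ J → 0 ≤ R → R ≤ Z → 0 ≤ B → B ≤ Z → 0 ≤ E1 → E1 ≤ Z → (∀ x ∈ J, (nm x.1 : ℝ) ≤ Z) →
      0 < K → 0 < V → 0 < V' → 0 < X → (∀ d e, 0 < H d e) → 0 ≤ G1 →
      (Real.sqrt (cJ * V') ≤ G1 ∨ (ClsP Pr J E0 R ∧ 1 ≤ G1)) → C * Z ^ ε ≤ b →
      (sdP b (Z ^ 5) cJ cw cs K V' V H X E1 B G1 EE Bs).Fib K V' V ((V' / V) ^ (1 / 6 : ℝ))⁻¹ X
        (OI Pr J EE E0 E1 R B Z b₀ K) (fun i => (cdI i).swap) := by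
  obtain ⟨C, hC, h⟩ := fib_OI' hε
  refine ⟨C, hC, ?_⟩
  intro Z hZ Pr J EE E0 E1 R B b₀ K V V' X cJ cw cs G1 b H Bs hJ hR0 hRZ hB0 hBZ hE10 hE1 hJ1 hK hV
    hV' hX hH hG1 hcl hb
  refine Fib_of fun d e => ?_
  have hh := hH d e
  refine h Z hZ Pr J EE E0 E1 R B b₀ K V V' X (H d e) (Real.sqrt (cJ * V')) G1 _ _ _ b b _ hJ hR0
    hRZ hB0 hBZ hE10 hE1 hJ1 hK hV hV' hX hh (by positivity) (by positivity) (by positivity) hcl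
    hG1 hb hb sdu_lin ?_ ?_ ?_
  · intro i hi
    unfold sdu
    rw [cut1_ext _ _ (by decide)]
    exact (ext_OI hJ hZ hR0 hRZ hB0 hBZ hE1 hJ1 hi hK hV hV' hh hX).2.1
  · intro i hi
    unfold sdu
    rw [cut1_ext _ _ (by decide)]
    exact (ext_OI hJ hZ hR0 hRZ hB0 hBZ hE1 hJ1 hi hK hV hV' hh hX).2.2.2.1
  · intro i hi
    unfold sdu
    rw [cut1_ext _ _ (by decide)]
    exact (ext_OI hJ hZ hR0 hRZ hB0 hBZ hE1 hJ1 hi hK hV hV' hh hX).2.2.2.2.2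

/-! ### the total of one side -/

lemma line_H (af : Eis → Eis → Eis → ℂ) (b K : ℝ) (H : Eis → Eis → ℝ) (V V' E1 B G1 : ℝ)
    (EE Ds : Finset Eis) (l : Fin 5) (om : Eis → ℝ) (Gs : Finset Eis)
    (A : Eis → Eis → Finset Eis) (dl : Eis → Eis) :
    TMd af (PHd b K H V V' E1 B G1 EE l) om Gs (fun d _ γ => A d γ) dl (Ds ×ˢ EE) =
      ∑ d ∈ Ds, ∑ e ∈ EE, 3 * b * hE EE * FH K (H d e) V *
        (BZ K (H d e) V V' E1 B (b * G1)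
          ((H d e * V ^ 2 * V' * E1 ^ 3 * B ^ 2 / K ^ 2) ^ (1 / 3 : ℝ))
          (1 + (H d e ^ 2 * V ^ 3 / K ^ 2) ^ (1 / 3 : ℝ))
          ((H d e ^ 2 * V ^ 3 / K ^ 2) ^ (1 / 2 : ℝ)) l *
        TN af (fun e => nm e) {d} {e} om Gs A dl) := by
  unfold TMd TN PHd PZ Pde QH FH
  rw [sum_product]
  refine sum_congr rfl fun d _ => sum_congr rfl fun e _ => ?_
  simp only [sum_singleton]
  ring

theorem SFBH_le {J : Finset (Eis × Eis)} {EE : Finset Eis} {af : Eis → Eis → Eis → ℂ}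
    {cJ cw cs K V V' X E1 B G1 b z ρ : ℝ} {H : Eis → Eis → ℝ} {RN : Eis → Eis → ℝ}
    {Bs : UT → ℝ} (hb : 1 ≤ b) (hK : 0 < K) (hH : ∀ d e, 0 < H d e) (hV : 0 < V) (hV' : 0 < V')
    (hE1 : 0 ≤ E1) (hB : 0 ≤ B) (hG1 : 0 ≤ G1) (hρ : 0 ≤ ρ) (hRN : ∀ d e, 0 ≤ RN d e)
    (hR : RPH J EE z K H V Bs ρ RN) :
    SFB (sdP b z cJ cw cs K V V' H X E1 B G1 EE Bs) af (RR J EE) (RUs J EE z) ≤
      (3 + ρ) * b ^ 2 * (hE EE * LVH af (J.image Prod.fst) EE cJ z K H V V' E1 B G1 RN) := by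
  have hb0 : 0 ≤ b := by linarith
  have hne : ∀ e : Eis, (0 : ℝ) ≤ nm e := fun e => Nat.cast_nonneg _
  have hlin : ∀ l : Fin 5, TMd af ((sdP b z cJ cw cs K V V' H X E1 B G1 EE Bs).P l)
      ((sdP b z cJ cw cs K V V' H X E1 B G1 EE Bs).om l)
      ((sdP b z cJ cw cs K V V' H X E1 B G1 EE Bs).Gs l)
      ((sdP b z cJ cw cs K V V' H X E1 B G1 EE Bs).A l)
      ((sdP b z cJ cw cs K V V' H X E1 B G1 EE Bs).dl l) (RR J EE) =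
      ∑ d ∈ J.image Prod.fst, ∑ e ∈ EE, 3 * b * hE EE * FH K (H d e) V *
        (BZ K (H d e) V V' E1 B (b * G1)
          ((H d e * V ^ 2 * V' * E1 ^ 3 * B ^ 2 / K ^ 2) ^ (1 / 3 : ℝ))
          (1 + (H d e ^ 2 * V ^ 3 / K ^ 2) ^ (1 / 3 : ℝ))
          ((H d e ^ 2 * V ^ 3 / K ^ 2) ^ (1 / 2 : ℝ)) l *
        TN af (fun e => nm e) {d} {e} (OMs l) (GSs z l) (ASs cJ V l) (DLs l)) := by
    intro l
    rw [← line_H]
    have e1 : (sdP b z cJ cw cs K V V' H X E1 B G1 EE Bs).om l = OMs l := by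
      fin_cases l
      · rfl
      · rfl
      · rfl
      · funext γ
        exact Real.rpow_neg_one _
      · rfl
    have e2 : (sdP b z cJ cw cs K V V' H X E1 B G1 EE Bs).Gs l = GSs z l := by
      fin_cases l <;> rfl
    have e3 : (sdP b z cJ cw cs K V V' H X E1 B G1 EE Bs).A l =
        fun d _ γ => ASs cJ V l d γ := by
      fin_cases l <;> rfl
    have e4 : (sdP b z cJ cw cs K V V' H X E1 B G1 EE Bs).dl l = DLs l := by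
      fin_cases l <;> rfl
    rw [e1, e2, e3, e4]
    rfl
  have hRR : ∑ u ∈ RUs J EE z, (sdP b z cJ cw cs K V V' H X E1 B G1 EE Bs).PR u.1 u.2.1 *
      (sdP b z cJ cw cs K V V' H X E1 B G1 EE Bs).Rp u ≤
      ∑ d ∈ J.image Prod.fst, ∑ e ∈ EE, ρ * 1 * (b * hE EE * FH K (H d e) V * RN d e) := by
    refine (hR b hb0).trans (le_of_eq ?_)
    rw [mul_sum, mul_sum]
    refine sum_congr rfl fun d _ => ?_
    rw [mul_sum, mul_sum]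
    refine sum_congr rfl fun e _ => ?_
    ring
  unfold SFB
  rw [sum_congr rfl fun l _ => hlin l]
  refine (add_le_add le_rfl hRR).trans ?_
  rw [sum_comm, ← sum_add_distrib]
  unfold LVH
  rw [mul_sum, mul_sum]
  refine sum_le_sum fun d _ => ?_
  rw [sum_comm, ← sum_add_distrib, mul_sum, mul_sum]
  refine sum_le_sum fun e _ => ?_
  have hh := hH d e
  rw [Fin.sum_univ_five]
  have e0 : ∀ hL B2 B3 B4, BZ K (H d e) V V' E1 B hL B2 B3 B4 0 = 1 := fun _ _ _ _ => rfl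
  have e1 : ∀ hL B2 B3 B4, BZ K (H d e) V V' E1 B hL B2 B3 B4 1 =
    (H d e * (V / V')) ^ (1 / 3 : ℝ) * (V' / K) * (E1 ^ 2 * B ^ 2 * hL) := fun _ _ _ _ => rfl
  have e2 : ∀ hL B2 B3 B4, BZ K (H d e) V V' E1 B hL B2 B3 B4 2 = B2 := fun _ _ _ _ => rfl
  have e3 : ∀ hL B2 B3 B4, BZ K (H d e) V V' E1 B hL B2 B3 B4 3 = B3 := fun _ _ _ _ => rfl
  have e4 : ∀ hL B2 B3 B4, BZ K (H d e) V V' E1 B hL B2 B3 B4 4 = B4 := fun _ _ _ _ => rfl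
  rw [e0, e1, e2, e3, e4]
  have f0 : TN af (fun e => nm e) {d} {e} (OMs 0) (GSs z 0) (ASs cJ V 0) (DLs 0) =
    TN af (fun e => nm e) {d} {e} (fun _ => 1) {1} (JVc cJ V) id := rfl
  have f1 : TN af (fun e => nm e) {d} {e} (OMs 1) (GSs z 1) (ASs cJ V 1) (DLs 1) =
    TN af (fun e => nm e) {d} {e} (fun _ => 1) {1} (JVc cJ V) id := rfl
  have f2 : TN af (fun e => nm e) {d} {e} (OMs 2) (GSs z 2) (ASs cJ V 2) (DLs 2) =
    TN af (fun e => nm e) {d} {e} (fun _ => 1) {1} (JVc cJ V) id := rfl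
  have f3 : TN af (fun e => nm e) {d} {e} (OMs 3) (GSs z 3) (ASs cJ V 3) (DLs 3) =
    TN af (fun e => nm e) {d} {e} (fun γ => (nm γ : ℝ)⁻¹)
          (primBall ⌊z⌋₊) (JV cJ V) (fun _ => 1) := rfl
  have f4 : TN af (fun e => nm e) {d} {e} (OMs 4) (GSs z 4) (ASs cJ V 4) (DLs 4) =
    TN af (fun e => nm e) {d} {e} (fun γ => (nm γ : ℝ) ^ (-(1 / 2) : ℝ))
          (primBall ⌊z⌋₊) (JV cJ V) (fun _ => 1) := rfl
  rw [f0, f1, f2, f3, f4]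
  have key := alg_SFB (b := b) (E := hE EE) (F := FH K (H d e) V)
    (xL := (H d e * (V / V')) ^ (1 / 3 : ℝ) * (V' / K) * (E1 ^ 2 * B ^ 2 * G1))
    (xS := (H d e * V ^ 2 * V' * E1 ^ 3 * B ^ 2 / K ^ 2) ^ (1 / 3 : ℝ))
    (x1 := (H d e ^ 2 * V ^ 3 / K ^ 2) ^ (1 / 3 : ℝ))
    (x2 := (H d e ^ 2 * V ^ 3 / K ^ 2) ^ (1 / 2 : ℝ))
    (T0 := TN af (fun e => nm e) {d} {e} (fun _ => 1) {1} (JVc cJ V) id)
    (T1 := TN af (fun e => nm e) {d} {e} (fun γ => (nm γ : ℝ)⁻¹)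
          (primBall ⌊z⌋₊) (JV cJ V) (fun _ => 1))
    (T2 := TN af (fun e => nm e) {d} {e} (fun γ => (nm γ : ℝ) ^ (-(1 / 2) : ℝ))
          (primBall ⌊z⌋₊) (JV cJ V) (fun _ => 1)) (RN := RN d e) (z := 1) (C := ρ)
    hb (hE_nonneg EE) (FH_nonneg hK.le hh.le hV.le) (by positivity) (by positivity)
    (by positivity) (by positivity) (TN_nonneg _ hne _ _ (fun _ => zero_le_one) _ _ _)
    (TN_nonneg _ hne _ _ (fun _ => by positivity) _ _ _)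
    (TN_nonneg _ hne _ _ (fun _ => by positivity) _ _ _) (hRN d e) le_rfl hρ
  unfold LVn
  refine le_trans (le_of_eq ?_) (key.trans (le_of_eq ?_))
  · ring
  · ring

end Crest.Agent.R017.E3Hb290
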