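import Crest.Agent.R017.E3Hb_290

/-!
# Row 17, block C70, leaf E3 (S-sum) (helper290): `H` a function of `(d, e)`, part 3

* `PAIRF` : one pair of levels from the Möbius bounds, `H, H' : Eis → Eis → ℝ`
* `RNd`, `RPH_of` : the `R`-number, first form
-/

set_option autoImplicit false
set_option linter.unusedVariables false

noncomputable section

open Finset
open scoped Classical ComplexConjugate ContDiff

namespace Crest.Agent.R017.E3Hc290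

open Crest.Agent.R012 Crest.Agent.R012.Eis Crest.Agent.R012.Div277
open Crest.Agent.R012.LS2 (S mem_S)
open Crest.Agent.R012.Mob705 (pb mem_pb pdiv mem_pdiv)
open Crest.Agent.R017.C70 (JC OKJ)
open Crest.Agent.R017.CM106 (CS FS)
open Crest.Agent.R017.E3D579 (TE0)
open Crest.Agent.R017.E1551 (nmpos)
open Crest.Agent.R017.GrB829 (IsC)
open Crest.Agent.R017.E3A164 (Yp Ys fq Cs mem_Cs)
open Crest.Agent.R017.E3M829 (TC)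
open Crest.Agent.R017.E3F548 (MPTr)
open Crest.Agent.R017.E3T1579 (T3 WQ)
open Crest.Agent.R017.E3T2579 (wL w1L)
open Crest.Agent.R017.E3T829
open Crest.Agent.R017.E3T829.Cd (Pde)
open Crest.Agent.R017.E3Z548
open Crest.Agent.R017.E3Zr579 (dil Rsum)
open Crest.Agent.R017.E3Sw290 (sdC PcC kZ)
open Crest.Agent.R017.E3Ha290 Crest.Agent.R017.E3Hb290

lemma PHd_nonneg {b K V V' E1 B G1 : ℝ} {H : Eis → Eis → ℝ} (hb : 0 ≤ b) (hK : 0 ≤ K)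
    (hH : ∀ d e, 0 ≤ H d e) (hV : 0 ≤ V) (hV' : 0 ≤ V') (hG1 : 0 ≤ G1) (hE1 : 0 ≤ E1)
    (EE : Finset Eis) (l : Fin 5) (d e : Eis) : 0 ≤ PHd b K H V V' E1 B G1 EE l d e := by
  have hh := hH d e
  exact PZ_nonneg hb hK hh hV hV' (by positivity) (by positivity) (by positivity)
    (by positivity) l d e

lemma PRHd_nonneg {b K V : ℝ} {H : Eis → Eis → ℝ} (hb : 0 ≤ b) (hK : 0 ≤ K)
    (hH : ∀ d e, 0 ≤ H d e) (hV : 0 ≤ V) (EE : Finset Eis) (d e : Eis) :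
    0 ≤ PRHd b K H V EE d e := PRZ_nonneg hb hK (hH d e) hV d e

section

variable {b z cJ cw cs K V V' X E1 B G1 b₀ : ℝ} {H : Eis → Eis → ℝ} {EE : Finset Eis}
  {Bs : UT → ℝ}

lemma sdP_OK (hb : 0 ≤ b) (hcw : 1 ≤ cw) (hcs : 1 ≤ cs) (hcJ : cw * cs ≤ cJ) (hK : 0 < K)
    (hV : 0 < V) (hV' : 0 < V') (hH : ∀ d e, 0 < H d e) (hX : 0 < X) (hz : cJ * V ≤ z)
    (hBs : ∀ t, 0 ≤ Bs t) (hG1 : 0 ≤ G1) (hE1 : 0 ≤ E1) :
    (sdP b z cJ cw cs K V V' H X E1 B G1 EE Bs).OK z (PcC z EE b₀ K) :=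
  cut1_OK (sdH_OK (PHd_nonneg hb hK.le (fun d e => (hH d e).le) hV.le hV'.le hG1 hE1 EE)
    (PRHd_nonneg hb hK.le (fun d e => (hH d e).le) hV.le EE) hcw hcs hcJ hK hV hV' hH hX hz hBs)

lemma sdP_CellF (hb : 0 ≤ b) (hcw : 1 ≤ cw) (hcs : 1 ≤ cs) (hcJ : cw * cs ≤ cJ) (hK : 0 < K)
    (hV : 0 < V) (hV' : 0 < V') (hH : ∀ d e, 0 < H d e) (hX : 0 < X) (hz : cJ * V ≤ z)
    (hBs : ∀ t, 0 ≤ Bs t) (hG1 : 0 ≤ G1) (hE1 : 0 ≤ E1) {af : Eis → Eis → Eis → ℂ} {x : Cd}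
    (hx : PcC z EE b₀ K x) :
    CellF (sdP b z cJ cw cs K V V' H X E1 B G1 EE Bs) K V V' X af x =
      CellF (sdH (PHd b K H V V' E1 B G1 EE) (PRHd b K H V EE) z cJ cw cs K V V' H X Bs) K V V' X
        af x :=
  cut1_CellF fun hg => N1_empty (sdH_OK (b₀ := b₀) (EE := EE)
    (PHd_nonneg hb hK.le (fun d e => (hH d e).le) hV.le hV'.le hG1 hE1 EE)
    (PRHd_nonneg hb hK.le (fun d e => (hH d e).le) hV.le EE) hcw hcs hcJ hK hV hV' hH hX hz hBs)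
    (fun d e γ => subset_rfl) hx hx.1.OU hg

end

lemma LVH_nonneg {af : Eis → Eis → Eis → ℂ} {Ds EE : Finset Eis} {c Y K V V' E1 B G1 : ℝ}
    {H RN : Eis → Eis → ℝ} (hK : 0 ≤ K) (hH : ∀ d e, 0 ≤ H d e) (hV : 0 ≤ V) (hV' : 0 ≤ V')
    (hE1 : 0 ≤ E1) (hG : 0 ≤ G1) (hR : ∀ d e, 0 ≤ RN d e) :
    0 ≤ LVH af Ds EE c Y K H V V' E1 B G1 RN :=
  sum_nonneg fun d _ => sum_nonneg fun e _ => LVn_nonneg hK (hH d e) hV hV' hE1 hG (hR d e)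

/-- **one pair of levels from the Möbius bounds**, `H` a function of `(d, e)` -/
theorem PAIRF {A Bw : ℕ} (hA : 1 < A) (hB : 4 ≤ Bw) {Rw : ℝ} (hRw : 0 ≤ Rw) {h : ℝ → ℝ}
    (hh : ContDiff ℝ ∞ h) (hhc : HasCompactSupport h) {w1 : ℝ → ℝ}
    (hw : ∀ x, w1 x ≠ 0 → 0 < x ∧ |Real.log x| ≤ Rw)
    (hw1 : ∀ x, 0 < x → h (Real.log x) ≠ 0 → w1 x = 1) {cw cs b₀ : ℝ} (hcw : 1 ≤ cw)
    (hcs : 1 ≤ cs) (hRcs : Real.exp Rw ≤ cs) (hb₀ : 0 ≤ b₀) {ε : ℝ} (hε : 0 < ε)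
    (hε1 : ε ≤ 1) :
    ∃ C : ℝ, 0 ≤ C ∧
    ∀ (Om Om' : ℝ → ℂ) (Mb : ℝ), 0 ≤ Mb → ContDiff ℝ ∞ Om → ContDiff ℝ ∞ Om' →
      (∀ n ≤ A + 2, ∀ x, ‖iteratedDeriv n Om x‖ ≤ Mb) →
      (∀ n ≤ A + 2, ∀ x, ‖iteratedDeriv n Om' x‖ ≤ Mb) →
    ∀ (V V' τ : ℝ) (κ κ' : ℂ), 0 < V → 0 < V' → ‖κ‖ ≤ 1 → ‖κ'‖ ≤ 1 →
    ∀ (Z : ℝ), 1 ≤ Z → ∀ (Pr : Yp → Yp → Prop) (J : Finset (Eis × Eis))
      (om om' : Eis × Eis → ℂ) (af : Eis → Eis → Eis → ℂ) (EE : Finset Eis)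
      (E0 E1 R B K X G1 G1' C0 Zm ρ : ℝ) (H H' RN RN' : Eis → Eis → ℝ)
      (Bs Bs' : UT → ℝ),
      TC (T3 af) → (∀ d e, FS (af d e)) → OKJ J → (∀ d e, e ∉ EE → ∀ j, T3 af d e j = 0) →
      0 < K → 0 ≤ R → R ≤ Z → 0 ≤ B → B ≤ Z → 0 ≤ E1 → E1 ≤ Z →
      (∀ x ∈ J, (nm x.1 : ℝ) ≤ Z) → (∀ x ∈ J, (nm x.2 : ℝ) ≤ R) →
      WQ J om E0 R (wL κ h Om τ V) → WQ J om' E0 R (wL κ' h Om' τ V') →
      0 < X → (∀ d e, 0 < H d e) → (∀ d e, 0 < H' d e) → 0 < C0 → 0 ≤ G1 → 0 ≤ G1' →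
      K ≤ Z ^ 5 → cw * cs * V ≤ Z ^ 5 → cw * cs * V' ≤ Z ^ 5 →
      1 ≤ Zm → kZ 59049 b₀ * (Z ^ 5) ^ 10 ≤ Zm →
      (Real.sqrt (cw * cs * V) ≤ G1 ∨ (ClsP Pr J E0 R ∧ 1 ≤ G1)) →
      (Real.sqrt (cw * cs * V') ≤ G1' ∨ (ClsP Pr J E0 R ∧ 1 ≤ G1')) →
      (∀ t, 0 ≤ Bs t) → (∀ t, 0 ≤ Bs' t) →
      MB1H w1 A ε C0 cw cs K V H af (Z ^ 5) EE Bs Zm →
      MB2H w1 A ε C0 cw cs K V' H' af (Z ^ 5) EE Bs' Zm →
      0 ≤ ρ → (∀ d e, 0 ≤ RN d e) → (∀ d e, 0 ≤ RN' d e) →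
      RPH J EE (Z ^ 5) K H V Bs ρ RN → RPH J EE (Z ^ 5) K H' V' Bs' ρ RN' →
      ∑ q ∈ S R, ∑ t ∈ pb E1, MPTr Pr A Bw K B V V' (Z ^ 5) J om om' (T3 af) E0 R b₀ q t ≤
        C * (3 + ρ) * (C0 * cs ^ 2 * Zm ^ (3 * ε)) * Mb ^ 2 * (1 + |τ|) ^ A * Z ^ ε * (hE EE *
          (LVH af (J.image Prod.fst) EE (cw * cs) (Z ^ 5) K H V V' E1 B G1 RN +
          LVH af (J.image Prod.fst) EE (cw * cs) (Z ^ 5) K H' V' V E1 B G1' RN')) := by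
  have hε7 : 0 < ε / 7 := by positivity
  obtain ⟨C1, hC1, h1⟩ := MPT_level hA (by omega : 1 < Bw) hRw hh hhc hw hw1 hε7
  obtain ⟨C2, hC2, h2⟩ := cellsF hε hε1
  obtain ⟨C3, hC3, h3⟩ := fibH hε7
  obtain ⟨C4, hC4, h4⟩ := fibH' hε7
  refine ⟨C1 * C2 * (C3 + C4) ^ 2, by positivity, ?_⟩
  intro Om Om' Mb hMb hOm hOm' hOb hOb' V V' τ κ κ' hV hV' hκ hκ' Z hZ Pr J om om' af EE E0 E1 R B
    K X G1 G1' C0 Zm ρ H H' RN RN' Bs Bs' hT haf hJ hEE hK hR0 hRZ hB0 hBZ hE10 hE1 hJ1 hJ2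
    hwq hwq' hX hH hH' hC0 hG1 hG1' hKz hVz hVz' hZm hZm2 hcl hcl' hBs hBs' hM1 hM2 hρ hRN hRN'
    hR hR'
  have hZ0 : 0 < Z := by linarith
  have hZ5 : 1 ≤ Z ^ 5 := one_le_pow₀ hZ
  have hcs0 : 0 < cs := by linarith
  have hZm0 : 0 < Zm := by linarith
  have hZe : 1 ≤ Z ^ (ε / 7) := Real.one_le_rpow hZ hε7.le
  obtain ⟨b, hb⟩ : ∃ b, b = (C3 + C4) * Z ^ (ε / 7) := ⟨_, rfl⟩
  have hb1 : 1 ≤ b := by
    rw [hb]; exact one_le_mul_of_one_le_of_one_le (by linarith) hZe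
  have hb0 : 0 ≤ b := by linarith
  have hb3 : C3 * Z ^ (ε / 7) ≤ b := by
    rw [hb]; exact mul_le_mul_of_nonneg_right (by linarith) (by positivity)
  have hb4 : C4 * Z ^ (ε / 7) ≤ b := by
    rw [hb]; exact mul_le_mul_of_nonneg_right (by linarith) (by positivity)
  obtain ⟨k1, k2⟩ := h2 (A := A) hB hw hC0.le hcw hcs hRcs hb₀ (Pr := Pr) (J := J) (E0 := E0)
    (E1 := E1) (R := R) (B := B) (EE := EE) hZ hJ hR0 hRZ hB0 hBZ hE1 hJ1 hK hKz hV hV' hVz hVz'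
    hH hH' hX hZm hZm2 haf hBs hBs' hM1 hM2
  have hPc : ∀ i ∈ OI Pr J EE E0 E1 R B Z b₀ K, PcC (Z ^ 5) EE b₀ K (cdI i) ∧
      PcC (Z ^ 5) EE b₀ K (cdI i).swap := fun i hi =>
    ⟨⟨OI_OK hJ hZ hR0 hRZ hB0 hBZ hE1 hJ1 hi, OI_PC hi⟩,
      ⟨(OI_OK hJ hZ hR0 hRZ hB0 hBZ hE1 hJ1 hi).swap, (OI_PC hi).swap⟩⟩
  have key := h1 Om Om' Mb hMb hOm hOm' hOb hOb' V V' τ κ κ' hV hV' hκ hκ' Z hZ Pr J om om' af EE
    E0 E1 R B b₀ K ((V' / V) ^ (1 / 6 : ℝ)) X (C2 * C0 * cs ^ 2 * Zm ^ (3 * ε)) 5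
    (sdP b (Z ^ 5) (cw * cs) cw cs K V V' H X E1 B G1 EE Bs)
    (sdP b (Z ^ 5) (cw * cs) cw cs K V' V H' X E1 B G1' EE Bs') (PcC (Z ^ 5) EE b₀ K) hT haf hJ
    hEE hK hR0 hRZ hB0 hBZ hE1 hJ1 hJ2 hwq hwq' (by positivity) hX (by positivity)
    (sdP_OK hb0 hcw hcs le_rfl hK hV hV' hH hX hVz hBs hG1 hE10)
    (sdP_OK hb0 hcw hcs le_rfl hK hV' hV hH' hX hVz' hBs' hG1' hE10)
    (fun i _ => ⟨hH _ _, hH' _ _⟩)
    (h3 Z hZ Pr J EE E0 E1 R B b₀ K V V' X (cw * cs) cw cs G1 b H Bs hJ hR0 hRZ hB0 hBZ hE10 hE1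
      hJ1 hK hV hV' hX hH hG1 hcl hb3)
    (h4 Z hZ Pr J EE E0 E1 R B b₀ K V V' X (cw * cs) cw cs G1' b H' Bs' hJ hR0 hRZ hB0 hBZ hE10 hE1
      hJ1 hK hV hV' hX hH' hG1' hcl' hb4)
    hPc
    (fun i hi => by
      rw [sdP_CellF hb0 hcw hcs le_rfl hK hV hV' hH hX hVz hBs hG1 hE10 (hPc i hi).1]
      exact k1 _ _ i hi)
    (fun i hi => by
      rw [sdP_CellF hb0 hcw hcs le_rfl hK hV' hV hH' hX hVz' hBs' hG1' hE10 (hPc i hi).2]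
      exact k2 _ _ i hi)
  have a5 := SFBH_le (af := af) (cw := cw) (cs := cs) (X := X) hb1 hK hH hV hV' hE10 hB0 hG1 hρ
    hRN hR (cJ := cw * cs)
  have a5' := SFBH_le (af := af) (cw := cw) (cs := cs) (X := X) hb1 hK hH' hV' hV hE10 hB0 hG1' hρ
    hRN' hR' (cJ := cw * cs)
  have hc0 : 0 ≤ C1 * (C2 * C0 * cs ^ 2 * Zm ^ (3 * ε)) * Mb ^ 2 * (1 + |τ|) ^ A *
      (Z ^ 5) ^ (ε / 7) := by positivity
  refine key.trans ((mul_le_mul_of_nonneg_left (add_le_add a5 a5') hc0).trans (le_of_eq ?_))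
  have e5 : (Z ^ 5) ^ (ε / 7) = (Z ^ (ε / 7)) ^ 5 := by
    rw [← Real.rpow_natCast, ← Real.rpow_natCast, ← Real.rpow_mul hZ0.le, ← Real.rpow_mul hZ0.le]
    congr 1; ring
  have e6 : Z ^ ε = (Z ^ (ε / 7)) ^ 7 := by
    rw [← Real.rpow_natCast, ← Real.rpow_mul hZ0.le]
    congr 1; push_cast; ring
  rw [e5, e6, hb]
  ring

/-! ### the `R`-number, first form -/

lemma RUs_split (J : Finset (Eis × Eis)) (EE : Finset Eis) (z : ℝ) (f : UT → ℝ) :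
    ∑ u ∈ RUs J EE z, f u = ∑ e ∈ EE, ∑ u ∈ RUs J {e} z, f u := by
  unfold RUs
  rw [sum_product]
  have h1 : ∀ e ∈ EE, ∑ u ∈ (J.image Prod.fst) ×ˢ ({e} : Finset Eis) ×ˢ S z ×ˢ Cs ×ˢ S z ×ˢ S z ×ˢ
      S z ×ˢ S z, f u = ∑ d ∈ J.image Prod.fst, ∑ t ∈ S z ×ˢ Cs ×ˢ S z ×ˢ S z ×ˢ S z ×ˢ S z,
        f (d, e, t) := by
    intro e _
    rw [sum_product]
    refine sum_congr rfl fun d _ => ?_
    rw [sum_product, sum_singleton]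
  refine Eq.trans ?_ (sum_congr rfl h1).symm
  refine Eq.trans ?_ sum_comm
  refine sum_congr rfl fun d _ => ?_
  rw [sum_product]

/-- **the `R`-number** -/
theorem RPH_of {ε : ℝ} (hε : 0 < ε) : ∃ C : ℝ, 0 ≤ C ∧ ∀ z : ℝ, 1 ≤ z →
    ∀ (J : Finset (Eis × Eis)) (EE : Finset Eis) (K V : ℝ) (H L M W1 : Eis → Eis → ℝ)
      (Bs : UT → ℝ), 0 ≤ K → (∀ d e, 0 ≤ H d e) → 0 ≤ V →
      (∀ d e, 0 ≤ W1 d e) → (∀ d e, 0 ≤ L d e) → (∀ d e, 0 ≤ M d e) →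
      (∀ t, SU (z ^ 3) t → (∃ u ∈ RUs J EE z, t.1 = u.1 ∧ t.2.1 = u.2.1) →
        Bs t ≤ if (nm (t.2.2.2.2.2.1 * t.2.2.2.2.2.2.1) : ℝ) ^ 2 *
          (nm (t.2.2.1 * t.2.2.2.2.1 * t.2.2.2.2.2.2.2) : ℝ) ^ 3 ≤ L t.1 t.2.1 then
          (1 + M t.1 t.2.1 * kU t) * W1 t.1 t.2.1 else 0) →
      RPH J EE z K H V Bs (C * z ^ ε)
        (fun d e => RNn (fun _ => L d e) (fun _ => M d e) W1 {d} {e}) := by
  obtain ⟨C, hC, h⟩ := Rsum hε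
  refine ⟨3 * C, by positivity, ?_⟩
  intro z hz J EE K V H L M W1 Bs hK hH hV hW hL hM hBs b hb
  have hz0 : 0 < z := by linarith
  have hhE := hE_nonneg EE
  have hP : ∀ d e, 0 ≤ PRHd b K H V EE d e := PRHd_nonneg hb hK hH hV EE
  have hmem : ∀ e ∈ EE, ∀ u ∈ RUs J {e} z, SU z u ∧ IsC u.2.2.2.1 ∧ u.1 ∈ J.image Prod.fst ∧
      u.2.1 = e ∧ u ∈ RUs J EE z := by
    intro e he u hu
    unfold RUs at hu ⊢
    simp only [mem_product, mem_Cs, mem_singleton] at hu ⊢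
    obtain ⟨h1, h2, h3, h4, h5, h6, h7, h8⟩ := hu
    exact ⟨⟨h3, h5, h6, h7, h8⟩, h4, h1, h2, h1, h2 ▸ he, h3, h4, h5, h6, h7, h8⟩
  have key : ∀ e ∈ EE, ∑ u ∈ RUs J {e} z, PRHd b K H V EE u.1 u.2.1 * Rdil Bs u ≤
      C * z ^ ε * ∑ d ∈ J.image Prod.fst, PRHd b K H V EE d e *
        ((if 1 ≤ L d e then Real.sqrt (L d e) + M d e else 0) * W1 d e) := by
    intro e he
    have k := h z hz (RUs J {e} z) (PRHd b K H V EE) W1 (fun d => L d e) (fun d => M d e) Bs hP hW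
      (fun d => hL d e) (fun d => hM d e) (fun u hu => (hmem e he u hu).1)
      (fun u hu => (hmem e he u hu).2.1) (by
        rintro t ht ⟨u, hu, h1, h2⟩
        obtain ⟨-, -, -, h3, h4⟩ := hmem e he u hu
        have k2 := hBs t ht ⟨u, h4, h1, h2⟩
        have h5 : t.2.1 = e := h2.trans h3
        rw [h5] at k2
        rw [h5]
        exact k2)
    refine k.trans (mul_le_mul_of_nonneg_left ?_ (by positivity))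
    have hsub : (RUs J {e} z).image (fun u => (u.1, u.2.1)) ⊆
        (J.image Prod.fst) ×ˢ ({e} : Finset Eis) := by
      intro ρ hρ
      obtain ⟨u, hu, rfl⟩ := mem_image.mp hρ
      obtain ⟨-, -, h2, h3, -⟩ := hmem e he u hu
      exact mem_product.mpr ⟨h2, mem_singleton.mpr h3⟩
    refine (sum_le_sum_of_subset_of_nonneg hsub fun ρ _ _ => mul_nonneg (hP _ _)
      (mul_nonneg ?_ (hW _ _))).trans (le_of_eq ?_)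
    · split_ifs
      · exact add_nonneg (Real.sqrt_nonneg _) (hM _ _)
      · exact le_rfl
    · rw [sum_product]
      refine sum_congr rfl fun d _ => ?_
      rw [sum_singleton]
  rw [RUs_split]
  refine (sum_le_sum key).trans (le_of_eq ?_)
  rw [← mul_sum, sum_comm]
  have e1 : ∀ d ∈ J.image Prod.fst, ∑ e ∈ EE, PRHd b K H V EE d e *
        ((if 1 ≤ L d e then Real.sqrt (L d e) + M d e else 0) * W1 d e) =
      3 * (b * hE EE) * ∑ e ∈ EE, FH K (H d e) V *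
        RNn (fun _ => L d e) (fun _ => M d e) W1 {d} {e} := by
    intro d _
    rw [mul_sum]
    refine sum_congr rfl fun e _ => ?_
    unfold RNn PRHd PRZ Pde QH FH
    rw [sum_singleton, sum_singleton]
    ring
  rw [sum_congr rfl e1, ← mul_sum]
  ring

end Crest.Agent.R017.E3Hc290
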