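import Crest.Agent.R017.E3Zr_579

/-!
# Row 17, R8 (E3), the structured parts with the second form (helper829)

* `real_min` : the minimum of the two forms of one dyadic block
* `blk_le` : one dyadic block
* `Rsum2` : `Σ_u P Σ_{E ∣ D} Σ_{v ∣ a D / E} Bs (dil u E v) ≤
  C Z^ε Σ_{(d, e)} P (L^{1/3} + M + L^{7/9} I^{-2/3} + L^{11/18} I^{-1/3}) W1`
-/

set_option autoImplicit false
set_option linter.unusedVariables false
set_option maxHeartbeats 800000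

noncomputable section

open Finset
open scoped Classical ComplexConjugate

namespace Crest.Agent.R017.E3T829

open Crest.Agent.R012 Crest.Agent.R012.Eis Crest.Agent.R012.Div277
open Crest.Agent.R012.LS2 (S mem_S bl mem_bl)
open Crest.Agent.R012.Mob705 (pdiv mem_pdiv)
open Crest.Agent.R017.E3A164 (Cs mem_Cs fq)
open Crest.Agent.R017.GrB829 (IsC)
open Crest.Agent.R017.DgB829 (HS HS_nonneg HS_le)
open Crest.Agent.R017.E3Zr579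

/-- the second form of one block (`P` : the norm of `q g F`, `Iq` : the length of the frequency) -/
def F2 (Lq Δ Iq : ℝ) : ℝ :=
  Lq * (1 + Δ * Lq ^ (1 / 3 : ℝ) * Iq ^ (-(2 / 3) : ℝ) + Δ ^ (2 / 3 : ℝ) * Lq ^ (1 / 6 : ℝ) *
    Iq ^ (-(1 / 3) : ℝ))

/-- the total of the second form -/
def G2 (L M I : ℝ) : ℝ :=
  L ^ (1 / 3 : ℝ) + M + L ^ (7 / 9 : ℝ) * I ^ (-(2 / 3) : ℝ) +
    L ^ (11 / 18 : ℝ) * I ^ (-(1 / 3) : ℝ)

lemma G2_nonneg {L M I : ℝ} (hL : 0 ≤ L) (hM : 0 ≤ M) (hI : 0 ≤ I) : 0 ≤ G2 L M I := by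
  unfold G2; positivity

/-- **the minimum of the two forms** -/
theorem real_min {L M I P Δ Iq : ℝ} (hL : 0 < L) (hM : 0 ≤ M) (hI : 0 < I) (hP : 1 ≤ P)
    (hΔ : 0 < Δ) (hIq : I / P ^ 2 ≤ Iq) :
    Δ + M / P ≤ G2 L M I / P ∨ F2 (L / (Δ ^ 2 * P ^ 3)) Δ Iq ≤ G2 L M I / P := by
  have hP0 : 0 < P := by linarith
  have hT : 0 < L ^ (1 / 3 : ℝ) / P := by positivity
  have hIq0 : 0 < I / P ^ 2 := by positivity
  have hIq1 : 0 < Iq := lt_of_lt_of_le hIq0 hIq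
  have n1 : 0 ≤ L ^ (7 / 9 : ℝ) * I ^ (-(2 / 3) : ℝ) := by positivity
  have n2 : 0 ≤ L ^ (11 / 18 : ℝ) * I ^ (-(1 / 3) : ℝ) := by positivity
  have n3 : 0 ≤ L ^ (1 / 3 : ℝ) := by positivity
  by_cases hc : Δ ≤ L ^ (1 / 3 : ℝ) / P
  · left
    unfold G2
    rw [le_div_iff₀ hP0]
    rw [le_div_iff₀ hP0] at hc
    have : (Δ + M / P) * P = Δ * P + M := by field_simp
    rw [this]
    linarith
  · right
    push Not at hc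
    -- logarithms
    obtain ⟨l, hl⟩ : ∃ l, L = Real.exp l := ⟨Real.log L, (Real.exp_log hL).symm⟩
    obtain ⟨p, hp⟩ : ∃ p, P = Real.exp p := ⟨Real.log P, (Real.exp_log hP0).symm⟩
    obtain ⟨δ, hδ⟩ : ∃ δ, Δ = Real.exp δ := ⟨Real.log Δ, (Real.exp_log hΔ).symm⟩
    obtain ⟨i, hi⟩ : ∃ i, I = Real.exp i := ⟨Real.log I, (Real.exp_log hI).symm⟩
    have hp0 : 0 ≤ p := by
      have : Real.exp 0 ≤ Real.exp p := by rw [Real.exp_zero, ← hp]; exact hP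
      exact Real.exp_le_exp.mp this
    have hc' : l / 3 - p < δ := by
      rw [hl, hp, hδ, ← Real.exp_mul, ← Real.exp_sub] at hc
      have := Real.exp_lt_exp.mp hc
      linarith
    have e1 : F2 (L / (Δ ^ 2 * P ^ 3)) Δ Iq ≤ F2 (L / (Δ ^ 2 * P ^ 3)) Δ (I / P ^ 2) := by
      unfold F2
      have k1 : Iq ^ (-(2 / 3) : ℝ) ≤ (I / P ^ 2) ^ (-(2 / 3) : ℝ) :=
        Real.rpow_le_rpow_of_nonpos hIq0 hIq (by norm_num)
      have k2 : Iq ^ (-(1 / 3) : ℝ) ≤ (I / P ^ 2) ^ (-(1 / 3) : ℝ) :=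
        Real.rpow_le_rpow_of_nonpos hIq0 hIq (by norm_num)
      gcongr
    refine e1.trans ?_
    have e2 : F2 (L / (Δ ^ 2 * P ^ 3)) Δ (I / P ^ 2) =
        Real.exp (l - 2 * δ - 3 * p) + Real.exp ((l - 2 * δ - 3 * p) * (4 / 3) + δ -
          (i - 2 * p) * (2 / 3)) + Real.exp ((l - 2 * δ - 3 * p) * (7 / 6) + δ * (2 / 3) -
          (i - 2 * p) * (1 / 3)) := by
      unfold F2
      rw [hl, hp, hδ, hi]
      simp only [← Real.exp_nat_mul, ← Real.exp_add, ← Real.exp_sub, ← Real.exp_mul]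
      rw [mul_add, mul_add, mul_one, ← Real.exp_add, ← Real.exp_add]
      push_cast
      congr 1
      · congr 1
        · congr 1; ring
        · congr 1; ring
      · congr 1; ring
    rw [e2]
    have e3 : G2 L M I / P = Real.exp (l / 3 - p) + M / P + Real.exp (l * (7 / 9) - i * (2 / 3) - p)
        + Real.exp (l * (11 / 18) - i * (1 / 3) - p) := by
      unfold G2
      rw [hl, hp, hi]
      simp only [← Real.exp_mul, ← Real.exp_add]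
      rw [add_div, add_div, add_div, ← Real.exp_sub, ← Real.exp_sub, ← Real.exp_sub]
      congr 1
      · congr 1
        · congr 1
          congr 1; ring
        · congr 1; ring
      · congr 1; ring
    rw [e3]
    have m1 : Real.exp (l - 2 * δ - 3 * p) ≤ Real.exp (l / 3 - p) :=
      Real.exp_le_exp.mpr (by linarith)
    have m2 : Real.exp ((l - 2 * δ - 3 * p) * (4 / 3) + δ - (i - 2 * p) * (2 / 3)) ≤
        Real.exp (l * (7 / 9) - i * (2 / 3) - p) := Real.exp_le_exp.mpr (by linarith)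
    have m3 : Real.exp ((l - 2 * δ - 3 * p) * (7 / 6) + δ * (2 / 3) - (i - 2 * p) * (1 / 3)) ≤
        Real.exp (l * (11 / 18) - i * (1 / 3) - p) := Real.exp_le_exp.mpr (by linarith)
    have m4 : 0 ≤ M / P := by positivity
    linarith

lemma one_le_HS {Y : ℝ} (hY : 1 ≤ Y) : 1 ≤ HS Y := by
  unfold HS
  have h1 : (1 : Eis) ∈ S Y := (mem_S (by linarith)).2
    ⟨by rw [nm_one, Nat.cast_one]; exact hY, isPrim_one, squarefree_one⟩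
  have h2 := single_le_sum (f := fun t : Eis => (1 : ℝ) / nm t) (fun t _ => by positivity) h1
  simpa using h2

/-- the hypothesis of the first form -/
def S1h (Z : ℝ) (R : Finset (Eis × Eis)) (L M : Eis → ℝ) (W1 : Eis → Eis → ℝ) (Bs : UT → ℝ) :
    Prop :=
  ∀ t, SU Z t → (t.1, t.2.1) ∈ R →
    Bs t ≤ if (nm (t.2.2.2.2.2.1 * t.2.2.2.2.2.2.1) : ℝ) ^ 2 *
      (nm (t.2.2.1 * t.2.2.2.2.1 * t.2.2.2.2.2.2.2) : ℝ) ^ 3 ≤ L t.1 then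
      (1 + M t.1 * kU t) * W1 t.1 t.2.1 else 0

/-- the hypothesis of the second form -/
def S2h (Z : ℝ) (R : Finset (Eis × Eis)) (L : Eis → ℝ) (I : ℝ) (W1 : Eis → Eis → ℝ)
    (Bs : UT → ℝ) : Prop :=
  ∀ ρ ∈ R, ∀ q ∈ S Z, ∀ c, IsC c → ∀ g ∈ S Z, ∀ F ∈ S Z, ∀ Δ : ℝ, 1 ≤ Δ → ∀ Kp : Finset Eis,
    (∀ κ ∈ Kp, κ ∈ S Z ∧ Δ / 2 ≤ nm κ ∧ (nm κ : ℝ) ≤ Δ) →
    ∑ κ ∈ Kp, Bs (ρ.1, ρ.2, q, c, g, κ, 1, F) ≤
      F2 (L ρ.1 / (Δ ^ 2 * (nm (q * g * F) : ℝ) ^ 3)) Δ (I / nm (q ^ 2 * g * F ^ 2)) * W1 ρ.1 ρ.2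

/-- **one dyadic block** -/
theorem blk_le {Z : ℝ} (hZ : 1 ≤ Z) {R : Finset (Eis × Eis)} {L M : Eis → ℝ} {I : ℝ}
    {W1 : Eis → Eis → ℝ} {Bs : UT → ℝ} (hL : ∀ d, 0 ≤ L d) (hM : ∀ d, 0 ≤ M d) (hI : 0 < I)
    (hW : ∀ d e, 0 ≤ W1 d e) (hS1 : S1h Z R L M W1 Bs) (hS2 : S2h Z R L I W1 Bs)
    {ρ : Eis × Eis} (hρ : ρ ∈ R) (hL0 : 0 < L ρ.1) {q c g F : Eis} (hq : q ∈ S Z) (hc : IsC c)
    (hg : g ∈ S Z) (hF : F ∈ S Z) {Δ : ℝ} (hΔ : 1 ≤ Δ) {Kp : Finset Eis}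
    (hK : ∀ κ ∈ Kp, κ ∈ S Z ∧ Δ / 2 ≤ nm κ ∧ (nm κ : ℝ) ≤ Δ) :
    ∑ κ ∈ Kp, Bs (ρ.1, ρ.2, q, c, g, κ, 1, F) ≤
      HS Z * W1 ρ.1 ρ.2 * (G2 (L ρ.1) (M ρ.1) I / nm (q * g * F)) := by
  have hZ0 : 0 ≤ Z := by linarith
  obtain ⟨q1, q2, q3⟩ := (mem_S hZ0).1 hq
  obtain ⟨g1, g2, g3⟩ := (mem_S hZ0).1 hg
  obtain ⟨F1, F2', F3⟩ := (mem_S hZ0).1 hF
  have hH := one_le_HS hZ
  have nP : (1 : ℝ) ≤ nm (q * g * F) := by
    exact_mod_cast nm_pos.mpr ((q2.mul g2).mul F2').ne_zero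
  have ng : (1 : ℝ) ≤ nm g := by exact_mod_cast nm_pos.mpr g2.ne_zero
  have nq : (0 : ℝ) < nm q := by exact_mod_cast nm_pos.mpr q2.ne_zero
  have nF : (0 : ℝ) < nm F := by exact_mod_cast nm_pos.mpr F2'.ne_zero
  have hIq : I / (nm (q * g * F) : ℝ) ^ 2 ≤ I / nm (q ^ 2 * g * F ^ 2) := by
    have e1 : (nm (q ^ 2 * g * F ^ 2) : ℝ) = nm q ^ 2 * nm g * nm F ^ 2 := by
      simp only [nm_mul, pow_two]; push_cast; ring
    have e2 : (nm (q * g * F) : ℝ) ^ 2 = nm q ^ 2 * nm g ^ 2 * nm F ^ 2 := by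
      simp only [nm_mul, pow_two]; push_cast; ring
    rw [e1, e2]
    refine div_le_div_of_nonneg_left hI.le (by positivity) ?_
    have : (nm g : ℝ) ≤ nm g ^ 2 := by nlinarith
    gcongr
  have hc0 : 0 ≤ HS Z * W1 ρ.1 ρ.2 := mul_nonneg (HS_nonneg Z) (hW _ _)
  rcases real_min hL0 (hM ρ.1) hI nP (by linarith : 0 < Δ) hIq with h | h
  · -- the first form
    refine le_trans ?_ (mul_le_mul_of_nonneg_left h hc0)
    have h1 : ∀ κ ∈ Kp, Bs (ρ.1, ρ.2, q, c, g, κ, 1, F) ≤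
        (Δ + M ρ.1 / nm (q * g * F)) * W1 ρ.1 ρ.2 * (1 / nm κ) := by
      intro κ hκ
      obtain ⟨k1, k2, k3⟩ := hK κ hκ
      obtain ⟨p1, p2, p3⟩ := (mem_S hZ0).1 k1
      have nκ : (0 : ℝ) < nm κ := by exact_mod_cast nm_pos.mpr p2.ne_zero
      have h2 := hS1 (ρ.1, ρ.2, q, c, g, κ, 1, F)
        { q := hq, g := hg, a := k1, D := (mem_S hZ0).2
            ⟨by
              show (nm (1 : Eis) : ℝ) ≤ Z
              rw [nm_one, Nat.cast_one]; exact hZ, isPrim_one, squarefree_one⟩, F := hF } hρ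
      refine h2.trans ?_
      have hMp : 0 ≤ M ρ.1 / nm (q * g * F) := div_nonneg (hM _) (by linarith)
      split_ifs with hcond
      · have e1 : kU (ρ.1, ρ.2, q, c, g, κ, 1, F) = (1 / nm (q * g * F)) * (1 / nm κ) := by
          unfold kU
          simp only [nm_mul, nm_one]
          push_cast
          have := ng
          field_simp
        rw [e1]
        have h3 : 1 ≤ Δ * (1 / nm κ) := by
          rw [mul_one_div, le_div_iff₀ nκ]; linarith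
        calc (1 + M ρ.1 * (1 / nm (q * g * F) * (1 / nm κ))) * W1 ρ.1 ρ.2
            ≤ (Δ * (1 / nm κ) + M ρ.1 * (1 / nm (q * g * F) * (1 / nm κ))) * W1 ρ.1 ρ.2 := by
              have := hW ρ.1 ρ.2
              gcongr
          _ = _ := by ring
      · have := hW ρ.1 ρ.2
        positivity
    calc ∑ κ ∈ Kp, Bs (ρ.1, ρ.2, q, c, g, κ, 1, F)
        ≤ ∑ κ ∈ Kp, (Δ + M ρ.1 / nm (q * g * F)) * W1 ρ.1 ρ.2 * (1 / nm κ) := sum_le_sum h1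
      _ = (Δ + M ρ.1 / nm (q * g * F)) * W1 ρ.1 ρ.2 * ∑ κ ∈ Kp, (1 : ℝ) / nm κ := by
          rw [mul_sum]
      _ ≤ (Δ + M ρ.1 / nm (q * g * F)) * W1 ρ.1 ρ.2 * HS Z := by
          have hMp : 0 ≤ M ρ.1 / nm (q * g * F) := div_nonneg (hM _) (by linarith)
          refine mul_le_mul_of_nonneg_left ?_ (mul_nonneg (by linarith) (hW _ _))
          unfold HS
          exact sum_le_sum_of_subset_of_nonneg (fun κ hκ => (hK κ hκ).1)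
            fun κ _ _ => by positivity
      _ = _ := by ring
  · refine (hS2 ρ hρ q hq c hc g hg F hF Δ hΔ Kp hK).trans ?_
    have h3 : F2 (L ρ.1 / (Δ ^ 2 * (nm (q * g * F) : ℝ) ^ 3)) Δ (I / nm (q ^ 2 * g * F ^ 2)) *
        W1 ρ.1 ρ.2 ≤ (G2 (L ρ.1) (M ρ.1) I / nm (q * g * F)) * W1 ρ.1 ρ.2 :=
      mul_le_mul_of_nonneg_right h (hW _ _)
    refine h3.trans ?_
    have h4 : 0 ≤ G2 (L ρ.1) (M ρ.1) I / nm (q * g * F) :=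
      div_nonneg (G2_nonneg (hL _) (hM _) hI.le) (by linarith)
    have h5 := mul_nonneg h4 (hW ρ.1 ρ.2)
    calc (G2 (L ρ.1) (M ρ.1) I / nm (q * g * F)) * W1 ρ.1 ρ.2
        ≤ HS Z * ((G2 (L ρ.1) (M ρ.1) I / nm (q * g * F)) * W1 ρ.1 ρ.2) :=
          le_mul_of_one_le_left h5 hH
      _ = _ := by ring

/-- the sum over the blocks -/
theorem A_sum {Z : ℝ} (hZ : 1 ≤ Z) {R : Finset (Eis × Eis)} {L M : Eis → ℝ} {I : ℝ}
    {P W1 : Eis → Eis → ℝ} {Bs : UT → ℝ} (hL : ∀ d, 0 ≤ L d) (hM : ∀ d, 0 ≤ M d) (hI : 0 < I)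
    (hP : ∀ d e, 0 ≤ P d e) (hW : ∀ d e, 0 ≤ W1 d e) (hB : ∀ t, 0 ≤ Bs t)
    (hS1 : S1h Z R L M W1 Bs) (hS2 : S2h Z R L I W1 Bs) (A : Finset UT)
    (hA : ∀ t ∈ A, SU Z t ∧ IsC t.2.2.2.1 ∧ (t.1, t.2.1) ∈ R ∧ t.2.2.2.2.2.2.1 = 1 ∧
      1 ≤ L t.1) :
    ∑ t ∈ A, P t.1 t.2.1 * Bs t ≤ (4 * HS Z ^ 4) * (Nat.log 2 ⌊Z⌋₊ + 1) *
      ∑ ρ ∈ R, P ρ.1 ρ.2 * ((if 1 ≤ L ρ.1 then G2 (L ρ.1) (M ρ.1) I else 0) * W1 ρ.1 ρ.2) := by
  have hZ0 : 0 ≤ Z := by linarith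
  set key : UT → (Eis × Eis) × (Eis × Eis × Eis × Eis) × ℕ := fun t =>
    ((t.1, t.2.1), (t.2.2.1, t.2.2.2.1, t.2.2.2.2.1, t.2.2.2.2.2.2.2),
      Nat.log 2 (nm t.2.2.2.2.2.1)) with hkey
  set T : Finset ((Eis × Eis) × (Eis × Eis × Eis × Eis) × ℕ) :=
    (R.filter fun ρ => 1 ≤ L ρ.1) ×ˢ (S Z ×ˢ Cs ×ˢ S Z ×ˢ S Z) ×ˢ
      range (Nat.log 2 ⌊Z⌋₊ + 1) with hT
  have hmaps : ∀ t ∈ A, key t ∈ T := by
    intro t ht
    obtain ⟨h1, h2, h3, h4, h5⟩ := hA t ht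
    rw [hT]
    simp only [mem_product, mem_filter, mem_range, hkey]
    refine ⟨⟨h3, h5⟩, ⟨h1.q, mem_Cs.mpr h2, h1.g, h1.F⟩, ?_⟩
    have h6 := ((mem_S hZ0).1 h1.a).1
    exact Nat.lt_succ_of_le (Nat.log_mono_right (Nat.le_floor h6))
  rw [← sum_fiberwise_of_maps_to (s := A) (t := T) (g := key) hmaps]
  -- one fibre
  have hfib : ∀ k ∈ T, ∑ t ∈ A.filter (fun t => key t = k), P t.1 t.2.1 * Bs t ≤
      P k.1.1 k.1.2 * (HS Z * W1 k.1.1 k.1.2 * (G2 (L k.1.1) (M k.1.1) I /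
        nm (k.2.1.1 * k.2.1.2.2.1 * k.2.1.2.2.2))) := by
    rintro ⟨⟨d, e⟩, ⟨q, c, g, F⟩, j⟩ hk
    rw [hT] at hk
    simp only [mem_product, mem_filter, mem_range] at hk
    obtain ⟨⟨k1, k2⟩, ⟨k3, k4, k5, k6⟩, k7⟩ := hk
    set Fb := A.filter (fun t => key t = ((d, e), (q, c, g, F), j)) with hFb
    have hmem : ∀ t ∈ Fb, t = (d, e, q, c, g, t.2.2.2.2.2.1, 1, F) ∧ t.2.2.2.2.2.1 ∈ S Z ∧
        Nat.log 2 (nm t.2.2.2.2.2.1) = j := by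
      intro t ht
      obtain ⟨h1, h2⟩ := mem_filter.mp ht
      obtain ⟨a1, a2, a3, a4, a5⟩ := hA t h1
      simp only [hkey, Prod.mk.injEq] at h2
      obtain ⟨⟨b1, b2⟩, ⟨b3, b4, b5, b6⟩, b7⟩ := h2
      refine ⟨?_, a1.a, b7⟩
      exact Prod.ext b1 (Prod.ext b2 (Prod.ext b3 (Prod.ext b4 (Prod.ext b5 (Prod.ext rfl
        (Prod.ext a4 b6))))))
    set Kp := Fb.image (fun t => t.2.2.2.2.2.1) with hKp
    have e1 : ∑ t ∈ Fb, P t.1 t.2.1 * Bs t = P d e * ∑ κ ∈ Kp, Bs (d, e, q, c, g, κ, 1, F) := by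
      rw [hKp, sum_image, mul_sum]
      · refine sum_congr rfl fun t ht => ?_
        obtain ⟨h1, -⟩ := hmem t ht
        have h2 : P t.1 t.2.1 = P d e := by rw [h1]
        have h3 : Bs t = Bs (d, e, q, c, g, t.2.2.2.2.2.1, 1, F) := by
          conv_lhs => rw [h1]
        rw [h2, h3]
      · intro t ht t' ht' hh
        obtain ⟨h1, -⟩ := hmem t ht
        obtain ⟨h1', -⟩ := hmem t' ht'
        have hh' : t.2.2.2.2.2.1 = t'.2.2.2.2.2.1 := hh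
        rw [h1, h1', hh']
    rw [e1]
    refine mul_le_mul_of_nonneg_left ?_ (hP _ _)
    have hΔ : (1 : ℝ) ≤ (2 : ℝ) ^ (j + 1) := one_le_pow₀ (by norm_num)
    refine blk_le hZ hL hM hI hW hS1 hS2 (ρ := (d, e)) k1 (by linarith) k3 (mem_Cs.mp k4) k5 k6
      hΔ ?_
    intro κ hκ
    obtain ⟨t, ht, rfl⟩ := mem_image.mp hκ
    obtain ⟨-, h2, h3⟩ := hmem t ht
    have h4 : nm t.2.2.2.2.2.1 ≠ 0 := by
      have := nm_pos.mpr ((mem_S hZ0).1 h2).2.1.ne_zero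
      omega
    have h5 := Nat.pow_log_le_self 2 h4
    have h6 := Nat.lt_pow_succ_log_self (b := 2) (by norm_num) (nm t.2.2.2.2.2.1)
    rw [h3] at h5 h6
    refine ⟨h2, ?_, ?_⟩
    · have h7 : ((2 : ℝ)) ^ j ≤ nm t.2.2.2.2.2.1 := by exact_mod_cast h5
      calc (2 : ℝ) ^ (j + 1) / 2 = 2 ^ j := by rw [pow_succ]; ring
        _ ≤ _ := h7
    · have h7 : (nm t.2.2.2.2.2.1 : ℝ) < 2 ^ (j + 1) := by exact_mod_cast h6
      exact h7.le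
  refine (sum_le_sum hfib).trans ?_
  -- the sum over the keys
  rw [hT, sum_product]
  have e2 : ∀ ρ : Eis × Eis, ∑ y ∈ (S Z ×ˢ Cs ×ˢ S Z ×ˢ S Z) ×ˢ range (Nat.log 2 ⌊Z⌋₊ + 1),
      P ρ.1 ρ.2 * (HS Z * W1 ρ.1 ρ.2 * (G2 (L ρ.1) (M ρ.1) I /
        nm (y.1.1 * y.1.2.2.1 * y.1.2.2.2))) =
      (4 * HS Z ^ 4) * (Nat.log 2 ⌊Z⌋₊ + 1) *
        (P ρ.1 ρ.2 * (G2 (L ρ.1) (M ρ.1) I * W1 ρ.1 ρ.2)) * ((Cs.card : ℝ) / 4) := by
    intro ρ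
    rw [sum_product]
    have e3 : ∀ z ∈ S Z ×ˢ Cs ×ˢ S Z ×ˢ S Z, ∑ j ∈ range (Nat.log 2 ⌊Z⌋₊ + 1),
        P ρ.1 ρ.2 * (HS Z * W1 ρ.1 ρ.2 * (G2 (L ρ.1) (M ρ.1) I /
        nm (z.1 * z.2.2.1 * z.2.2.2))) = ((Nat.log 2 ⌊Z⌋₊ + 1 : ℝ) * (P ρ.1 ρ.2 * (HS Z *
          W1 ρ.1 ρ.2 * G2 (L ρ.1) (M ρ.1) I))) * ((1 / nm z.1) * ((1 / nm z.2.2.1) *
            (1 / nm z.2.2.2))) := by
      intro z hz
      rw [sum_const, card_range, nsmul_eq_mul]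
      simp only [nm_mul]
      push_cast
      rw [div_eq_mul_inv, mul_inv, mul_inv]
      ring
    rw [sum_congr rfl e3, ← mul_sum]
    have e4 : ∑ z ∈ S Z ×ˢ Cs ×ˢ S Z ×ˢ S Z, ((1 : ℝ) / nm z.1) * ((1 / nm z.2.2.1) *
            (1 / nm z.2.2.2)) = HS Z * ((Cs.card : ℝ) * (HS Z * HS Z)) := by
      rw [sum_product]
      have e5 : ∀ x ∈ S Z, ∑ y ∈ Cs ×ˢ S Z ×ˢ S Z, ((1 : ℝ) / nm x) * ((1 / nm y.2.1) *
            (1 / nm y.2.2)) = (1 / nm x) * ((Cs.card : ℝ) * (HS Z * HS Z)) := by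
        intro x _
        rw [← mul_sum, sum_product]
        congr 1
        have e6 : ∀ y ∈ Cs, ∑ z ∈ S Z ×ˢ S Z, ((1 : ℝ) / nm z.1) * (1 / nm z.2) =
            HS Z * HS Z := by
          intro y _
          rw [sum_product]
          unfold HS
          rw [sum_mul_sum]
        rw [sum_congr rfl e6, sum_const, nsmul_eq_mul]
      rw [sum_congr rfl e5, ← sum_mul]
      rfl
    rw [e4]
    ring
  rw [sum_congr rfl (fun ρ _ => e2 ρ)]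
  have hCs : (Cs.card : ℝ) / 4 ≤ 1 := by
    have : (Cs.card : ℝ) ≤ 4 := by exact_mod_cast card_Cs
    linarith
  rw [sum_filter, mul_sum]
  refine sum_le_sum fun ρ _ => ?_
  have hG : 0 ≤ (4 * HS Z ^ 4) * (Nat.log 2 ⌊Z⌋₊ + 1 : ℝ) *
        (P ρ.1 ρ.2 * (G2 (L ρ.1) (M ρ.1) I * W1 ρ.1 ρ.2)) := by
    have h1 := G2_nonneg (hL ρ.1) (hM ρ.1) hI.le
    have h2 := HS_nonneg Z
    have h3 := hP ρ.1 ρ.2
    have h4 := hW ρ.1 ρ.2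
    positivity
  split_ifs with h
  · exact mul_le_of_le_one_right hG hCs
  · simp

/-- **the sum of the structured parts, both forms** -/
theorem Rsum2 {ε : ℝ} (hε : 0 < ε) : ∃ C : ℝ, 0 ≤ C ∧ ∀ Z : ℝ, 1 ≤ Z →
    ∀ (Us : Finset UT) (P W1 : Eis → Eis → ℝ) (L M : Eis → ℝ) (I : ℝ) (Bs : UT → ℝ),
      (∀ d e, 0 ≤ P d e) → (∀ d e, 0 ≤ W1 d e) → (∀ d, 0 ≤ L d) → (∀ d, 0 ≤ M d) → 0 < I →
      (∀ t, 0 ≤ Bs t) → (∀ u ∈ Us, SU Z u) → (∀ u ∈ Us, IsC u.2.2.2.1) →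
      S1h (Z ^ 3) (Us.image fun u => (u.1, u.2.1)) L M W1 Bs →
      S2h (Z ^ 3) (Us.image fun u => (u.1, u.2.1)) L I W1 Bs →
      ∑ u ∈ Us, P u.1 u.2.1 *
        (if Squarefree (u.2.2.2.2.2.1 * u.2.2.2.2.2.2.1 * u.2.2.2.2.2.2.2) then
          ∑ E ∈ pdiv u.2.2.2.2.2.2.1, ∑ v ∈ pdiv (u.2.2.2.2.2.1 * u.2.2.2.2.2.2.1 / E),
            Bs (dil u E v) else 0) ≤
        C * Z ^ ε * ∑ ρ ∈ Us.image (fun u => (u.1, u.2.1)), P ρ.1 ρ.2 *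
          ((if 1 ≤ L ρ.1 then G2 (L ρ.1) (M ρ.1) I else 0) * W1 ρ.1 ρ.2) := by
  obtain ⟨C1, hC1, h1⟩ := dil_card (ε := ε / 2) (by positivity)
  set η := ε / 30 with hη
  have hη0 : 0 < η := by positivity
  set c0 : ℝ := 200 * (1 + 1 / η) with hc0
  have hc00 : 0 ≤ c0 := by positivity
  refine ⟨C1 * ((4 * c0 ^ 4) * (2 * c0)), by positivity, ?_⟩
  intro Z hZ Us P W1 L M I Bs hP hW hL hM hI hB hUs hUc hS1 hS2
  have hZ0 : 0 < Z := by linarith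
  have hZ3 : 1 ≤ Z ^ 3 := one_le_pow₀ hZ
  have hZ30 : 0 ≤ Z ^ 3 := by positivity
  set R := Us.image (fun u => (u.1, u.2.1)) with hR
  set cond : UT → Prop := fun t => (nm (t.2.2.2.2.2.1 * t.2.2.2.2.2.2.1) : ℝ) ^ 2 *
          (nm (t.2.2.1 * t.2.2.2.2.1 * t.2.2.2.2.2.2.2) : ℝ) ^ 3 ≤ L t.1 with hcond
  set G : UT → ℝ := fun t => P t.1 t.2.1 * Bs t with hG
  have hG0 : ∀ t, 0 ≤ G t := fun t => mul_nonneg (hP _ _) (hB t)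
  -- step 1
  have s1 : ∑ u ∈ Us, P u.1 u.2.1 *
        (if Squarefree (u.2.2.2.2.2.1 * u.2.2.2.2.2.2.1 * u.2.2.2.2.2.2.2) then
          ∑ E ∈ pdiv u.2.2.2.2.2.2.1, ∑ v ∈ pdiv (u.2.2.2.2.2.1 * u.2.2.2.2.2.2.1 / E),
            Bs (dil u E v) else 0) = ∑ x ∈ OD Us, G (dil x.1.1 x.1.2 x.2) := by
    rw [← sum_OD]
    refine sum_congr rfl fun u hu => ?_
    split_ifs with hs
    · rw [mul_sum]
      refine sum_congr rfl fun E hE => ?_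
      rw [mul_sum]
      exact sum_congr rfl fun v hv => rfl
    · rw [mul_zero]
  rw [s1]
  -- step 2
  have hOD : ∀ x ∈ OD Us, SU (Z ^ 3) (dil x.1.1 x.1.2 x.2) ∧ IsC (dil x.1.1 x.1.2 x.2).2.2.2.1 ∧
      ((dil x.1.1 x.1.2 x.2).1, (dil x.1.1 x.1.2 x.2).2.1) ∈ R := by
    intro x hx
    unfold OD at hx
    rw [mem_pr, mem_pr, mem_filter] at hx
    obtain ⟨⟨⟨b1, b2⟩, b3⟩, b4⟩ := hx
    exact ⟨dil_SU hZ (hUs _ b1) b2 b3 b4, hUc x.1.1 b1, mem_image.mpr ⟨x.1.1, b1, rfl⟩⟩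
  set A : Finset UT := ((OD Us).image fun x => dil x.1.1 x.1.2 x.2).filter cond with hA
  have s2 := sum_fib (OD Us) (fun x => dil x.1.1 x.1.2 x.2) G hG0 A
    (fun x hx h => by
      rw [hA, mem_filter]
      refine ⟨mem_image_of_mem _ hx, ?_⟩
      by_contra h3
      apply h
      obtain ⟨k1, k2, k3⟩ := hOD x hx
      have h4 := hS1 _ k1 k3
      simp only [hcond] at h3
      rw [if_neg h3] at h4
      have h5 : Bs (dil x.1.1 x.1.2 x.2) = 0 := le_antisymm h4 (hB _)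
      simp only [hG]
      rw [h5, mul_zero])
    (M := C1 * Z ^ (ε / 2)) (fun t _ _ => by convert h1 Z hZ Us hUs t)
  have hAm : ∀ t ∈ A, SU (Z ^ 3) t ∧ IsC t.2.2.2.1 ∧ (t.1, t.2.1) ∈ R ∧
      t.2.2.2.2.2.2.1 = 1 ∧ 1 ≤ L t.1 := by
    intro t ht
    rw [hA, mem_filter, mem_image] at ht
    obtain ⟨⟨x, hx, rfl⟩, hc⟩ := ht
    obtain ⟨k1, k2, k3⟩ := hOD x hx
    refine ⟨k1, k2, k3, rfl, ?_⟩
    have p1 := ((mem_S hZ30).1 k1.a).2.1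
    have p2 := ((mem_S hZ30).1 k1.D).2.1
    have p3 := ((mem_S hZ30).1 k1.q).2.1
    have p4 := ((mem_S hZ30).1 k1.g).2.1
    have p5 := ((mem_S hZ30).1 k1.F).2.1
    have n1 : (1 : ℝ) ≤ nm ((dil x.1.1 x.1.2 x.2).2.2.2.2.2.1 *
        (dil x.1.1 x.1.2 x.2).2.2.2.2.2.2.1) := by
      exact_mod_cast nm_pos.mpr (p1.mul p2).ne_zero
    have n2 : (1 : ℝ) ≤ nm ((dil x.1.1 x.1.2 x.2).2.2.1 * (dil x.1.1 x.1.2 x.2).2.2.2.2.1 *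
        (dil x.1.1 x.1.2 x.2).2.2.2.2.2.2.2) := by
      exact_mod_cast nm_pos.mpr ((p3.mul p4).mul p5).ne_zero
    refine le_trans ?_ hc
    exact one_le_mul_of_one_le_of_one_le (one_le_pow₀ n1) (one_le_pow₀ n2)
  have s3 := A_sum hZ3 hL hM hI hP hW hB hS1 hS2 A hAm
  set X := ∑ ρ ∈ R, P ρ.1 ρ.2 * ((if 1 ≤ L ρ.1 then G2 (L ρ.1) (M ρ.1) I else 0) *
    W1 ρ.1 ρ.2) with hX
  have hX0 : 0 ≤ X := sum_nonneg fun ρ _ => by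
    refine mul_nonneg (hP _ _) (mul_nonneg ?_ (hW _ _))
    split_ifs
    · exact G2_nonneg (hL _) (hM _) hI.le
    · exact le_rfl
  -- harmonic sums
  have h6 : 1 ≤ (Z ^ 3) ^ η := Real.one_le_rpow hZ3 hη0.le
  have h7 : (Z ^ 3) ^ η = Z ^ (3 * η) := by
    rw [← Real.rpow_natCast, ← Real.rpow_mul hZ0.le]; norm_num
  have h4 := E3M829.log_Z hη0 hZ3
  have hH0 : HS (Z ^ 3) ≤ c0 * Z ^ (3 * η) := by
    have h3 := HS_le hZ3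
    rw [← h7]
    nlinarith
  have hHS0 := HS_nonneg (Z ^ 3)
  have hH4 : HS (Z ^ 3) ^ 4 ≤ c0 ^ 4 * Z ^ (12 * η) := by
    refine (pow_le_pow_left₀ hHS0 hH0 4).trans ?_
    rw [mul_pow]
    refine mul_le_mul_of_nonneg_left ?_ (by positivity)
    rw [← Real.rpow_natCast, ← Real.rpow_mul hZ0.le]
    refine Real.rpow_le_rpow_of_exponent_le hZ ?_
    push_cast
    linarith
  have hlog : (Nat.log 2 ⌊Z ^ 3⌋₊ + 1 : ℝ) ≤ 2 * c0 * Z ^ (3 * η) := by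
    have k0 : ⌊Z ^ 3⌋₊ ≠ 0 := by
      have : 1 ≤ ⌊Z ^ 3⌋₊ := Nat.le_floor (by simpa using hZ3)
      omega
    have k1 := Nat.pow_log_le_self 2 k0
    have k2 : ((2 : ℝ)) ^ (Nat.log 2 ⌊Z ^ 3⌋₊) ≤ Z ^ 3 := by
      calc ((2 : ℝ)) ^ (Nat.log 2 ⌊Z ^ 3⌋₊) ≤ (⌊Z ^ 3⌋₊ : ℝ) := by exact_mod_cast k1
        _ ≤ Z ^ 3 := Nat.floor_le hZ30
    have k3 : (Nat.log 2 ⌊Z ^ 3⌋₊ : ℝ) * Real.log 2 ≤ Real.log (Z ^ 3) := by
      rw [← Real.log_pow]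
      exact Real.log_le_log (by positivity) k2
    have k4 : (1 / 2 : ℝ) ≤ Real.log 2 := by
      have := Real.log_two_gt_d9
      linarith
    have k5 : (Nat.log 2 ⌊Z ^ 3⌋₊ : ℝ) ≤ 2 * Real.log (Z ^ 3) := by
      have : (0 : ℝ) ≤ Nat.log 2 ⌊Z ^ 3⌋₊ := Nat.cast_nonneg _
      nlinarith
    have k6 : (Nat.log 2 ⌊Z ^ 3⌋₊ + 1 : ℝ) ≤ 2 * (1 + Real.log (Z ^ 3)) := by linarith
    refine k6.trans ?_
    rw [← h7]
    have k7 : (1 + 1 / η) * (Z ^ 3) ^ η ≤ c0 * (Z ^ 3) ^ η := by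
      rw [hc0]
      have : 0 ≤ (1 + 1 / η) * (Z ^ 3) ^ η := by positivity
      linarith
    linarith
  have hL0 : (0 : ℝ) ≤ Nat.log 2 ⌊Z ^ 3⌋₊ + 1 := by positivity
  have e15 : Z ^ (12 * η) * Z ^ (3 * η) = Z ^ (ε / 2) := by
    rw [← Real.rpow_add hZ0]; congr 1; rw [hη]; ring
  have e3 : Z ^ (ε / 2) * Z ^ (ε / 2) = Z ^ ε := by
    rw [← Real.rpow_add hZ0]; congr 1; ring
  have s4 : ∑ t ∈ A, G t ≤ (4 * (c0 ^ 4 * Z ^ (12 * η))) * (2 * c0 * Z ^ (3 * η)) * X := by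
    refine s3.trans ?_
    gcongr
  calc ∑ x ∈ OD Us, G (dil x.1.1 x.1.2 x.2) ≤ C1 * Z ^ (ε / 2) * ∑ t ∈ A, G t := s2
    _ ≤ C1 * Z ^ (ε / 2) * ((4 * (c0 ^ 4 * Z ^ (12 * η))) * (2 * c0 * Z ^ (3 * η)) * X) :=
        mul_le_mul_of_nonneg_left s4 (by positivity)
    _ = C1 * ((4 * c0 ^ 4) * (2 * c0)) * (Z ^ (ε / 2) * (Z ^ (12 * η) * Z ^ (3 * η))) * X := by
        ring
    _ = _ := by rw [e15, e3]

end Crest.Agent.R017.E3T829
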