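import Crest.Agent.R017.E3Sx3_579
import Crest.Agent.R017.E3Ul_829

/-!
# Row 17, block C70, leaf E3 (S-sum): both forms for the canonical number of a tuple (helper579)

* `S1h_Q` : first form
* `S2h_Q` : second form
-/

set_option autoImplicit false
set_option linter.unusedVariables false

noncomputable section

open Complex MeasureTheory
open scoped ComplexConjugate Classical

namespace Crest.Agent.R017.E3Sx579

open Crest.Agent.R012 Crest.Agent.R012.Eis Crest.Agent.R012.MC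
open Crest.Agent.R012.LS2 (S mem_S bl mem_bl)
open Crest.Agent.R017.CM106 (CS TG FS)
open Crest.Agent.R017.GrB829 (IsC)
open Crest.Agent.R017.PX764 (n6)
open Crest.Agent.R017.E1551 (nmpos)
open Crest.Agent.R017.E3D579 (uS bF b0 bt)
open Crest.Agent.R017.E3T829 (Cd UT SU kU kU_nonneg S1h S2h F2 bu)
open Crest.Agent.R017.Mode405

/-- (RH) for the sequences of the levels, over a set of pairs -/
def RHR (m : ℝ) (A : ℕ) (R : Finset (Eis × Eis)) (af : Eis → Eis → Eis → ℂ)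
    (W0 : Eis → Eis → ℝ → ℝ) : Prop :=
  ∀ ρ ∈ R, ∀ γ π, IsPrim γ → IsPrim π → (nm π : ℝ) ≤ m →
    ∀ P : ℝ, 0 < P → (nm γ : ℝ) * n6 γ ^ 2 * ∑ r ∈ bl P, R3571.RMm A (af ρ.1 ρ.2) ρ.2 γ π r ≤
      W0 ρ.1 ρ.2 P

/-- the bounding function at the dual length of a cell -/
lemma slp_Il {a : ℕ} {W : ℝ → ℝ} (hW : Slp a W) {c X V H K cs cc F q g : ℝ} (hc : 0 < c)
    (hX : 0 < X) (hV : 0 < V) (hH : 0 < H) (hK : 0 < K) (hcs : 1 ≤ cs) (c1 : 1 ≤ cc) (hF : 0 < F)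
    (hq : 0 < q) (hg : 0 < g) :
    W (c * (X * (V / cc) * H / K / (cs * (F ^ 2 * q ^ 2 * g)) * (F ^ 2 * q ^ 2 * g))) ≤
      W (c * (X * V * H / K)) := by
  have hcs0 : 0 < cs := by linarith
  have hcc : 0 < cc := by linarith
  have hI : 0 < c * (X * V * H / K) := by positivity
  have e1 : c * (X * (V / cc) * H / K / (cs * (F ^ 2 * q ^ 2 * g)) * (F ^ 2 * q ^ 2 * g)) =
      c * (X * V * H / K) / (cc * cs) := by field_simp
  rw [e1]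
  exact slp_mono hW (by positivity) (div_le_self hI.le (one_le_mul_of_one_le_of_one_le c1 hcs))

set_option maxHeartbeats 400000 in
/-- **first form for the canonical number** -/
theorem S1h_Q {χ : Eis → ℂ} (hχ : Mul1 χ) {w : ℝ → ℝ} (hP : PoHW OK3 nfo χ (w6 w))
    (hw1 : ∀ x, w x ≠ 0 → x ≤ 1) {R0 : ℝ} (hR0 : 0 ≤ R0) (a A : ℕ) (hA : 1 < A) {ε : ℝ}
    (hε : 0 < ε) {cs : ℝ} (hcs : 1 ≤ cs) :
    ∃ (C c : ℝ) (A₀ : ℕ), 0 ≤ C ∧ 1 ≤ c ∧ ∀ A' : ℝ, (A₀ : ℝ) ≤ A' →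
      ∀ z Zm K V H X : ℝ, 1 ≤ z → z ^ 5 ≤ Zm → 0 < K → 0 < V → 0 < H → 0 < X →
      H * V ^ 2 * Real.exp (2 * R0) < K * X → cs * V ≤ Zm → z ^ 2 * (Real.exp R0 * X) ≤ Zm →
      ∀ (R : Finset (Eis × Eis)) (af : Eis → Eis → Eis → ℂ), (∀ ρ ∈ R, FS (af ρ.1 ρ.2)) →
      (∀ ρ ∈ R, ∀ n, af ρ.1 ρ.2 n ≠ 0 → Squarefree n) →
      (∀ ρ ∈ R, ∀ n, af ρ.1 ρ.2 n ≠ 0 → |Real.log (nm ρ.1 * nm n) - Real.log X| ≤ R0) →
      ∀ W0 : Eis → Eis → ℝ → ℝ, (∀ d e, Slp a (W0 d e)) → RHR (Zm ^ 4) A R af W0 →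
      (∀ ρ ∈ R, ρ.1 ≠ 0) →
      S1h z R (fun d => H * V ^ 2 / (K * nm d))
        (fun d => cs * (H * V ^ 2 / (K * nm d)) * (X * V * H / K) ^ (-(1 / 2) : ℝ))
        (fun d e => C * Zm ^ (2 * ε) * W0 d e (c * (X * V * H / K)))
        (BsQt ε χ w A' cs K V H af) := by
  obtain ⟨C, c, A₀, hC, hc, h⟩ := bsq_cell hχ hP le_rfl (fun x hx => w6_le hw1 hx) hR0 a A hA hε
  refine ⟨C, c, A₀, hC, hc, ?_⟩
  intro A' hA' z Zm K V H X hz hzZ hK hV hH hX hKX hVZ hXZ R af haf hsf hwin W0 hW0 hRH hR0' t ht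
    htR
  have hz0 : 0 ≤ z := by linarith
  have hZm : 1 ≤ Zm := (one_le_pow₀ hz).trans hzZ
  have hI0 : 0 < X * V * H / K := by positivity
  have hcI0 : 0 < c * (X * V * H / K) := mul_pos (by linarith) hI0
  have hW10 : ∀ d e, 0 ≤ C * Zm ^ (2 * ε) * W0 d e (c * (X * V * H / K)) := fun d e =>
    mul_nonneg (by positivity) ((hW0 d e).nonneg _ hcI0)
  refine le_trans ?_ (S1h_BsT hcs hz0 hK hV hH hX hW10 (R := R) hR0' t ht htR)
  have hT0 := BsT_nonneg hcs hK hV hH hX hW10 t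
  unfold BsQt
  split_ifs with hTQ
  swap
  · exact hT0
  obtain ⟨d, e, q, cc, g, a₁, D, F⟩ := t
  obtain ⟨pd, pe, hcc, hsq, hY1⟩ := hTQ
  change IsPrim d at pd
  change IsPrim e at pe
  change IsC cc at hcc
  change Squarefree (g * (a₁ * D) * F) at hsq
  change (d, e) ∈ R at htR
  have hq : q ∈ S z := ht.q
  have hg : g ∈ S z := ht.g
  have ha₁ : a₁ ∈ S z := ht.a
  have hD : D ∈ S z := ht.D
  have hF : F ∈ S z := ht.F
  obtain ⟨nzq, pq, -⟩ := (mem_S hz0).1 hq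
  obtain ⟨nzg, pg, -⟩ := (mem_S hz0).1 hg
  obtain ⟨nza, pa, -⟩ := (mem_S hz0).1 ha₁
  obtain ⟨nzD, pD, -⟩ := (mem_S hz0).1 hD
  obtain ⟨nzF, pF, -⟩ := (mem_S hz0).1 hF
  have hcne := isC_ne0 hcc
  have nc := nmpos hcne
  have c1 : (1 : ℝ) ≤ nm cc := E1551.nm_ge_one hcne
  have nd := nmpos pd.ne_zero
  have nq := nmpos pq.ne_zero
  have ng := nmpos pg.ne_zero
  have na := nmpos pa.ne_zero
  have nD := nmpos pD.ne_zero
  have nF := nmpos pF.ne_zero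
  have nd1 : (1 : ℝ) ≤ nm d := E1551.nm_ge_one pd.ne_zero
  have hcs0 : 0 < cs := by linarith
  have hnm : (nm (q * g * (a₁ * D) * F) : ℝ) ≤ Zm := by
    refine le_trans ?_ hzZ
    simp only [nm_mul, Nat.cast_mul]
    calc (nm q : ℝ) * nm g * (nm a₁ * nm D) * nm F ≤ z * z * (z * z) * z := by gcongr
      _ = z ^ 5 := by ring
  have hκ : (nm (a₁ * D) : ℝ) * (Real.exp R0 * X) ≤ Zm := by
    refine le_trans ?_ hXZ
    refine mul_le_mul_of_nonneg_right ?_ (by positivity)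
    rw [nm_mul]
    push_cast
    calc (nm a₁ : ℝ) * nm D ≤ z * z := by gcongr
      _ = z ^ 2 := by ring
  have hYZ : cs * E3Sw290.YU V (d, e, q, cc, g, a₁, D, F) ≤ Zm :=
    (mul_le_mul_of_nonneg_left (YU_le hV pd.ne_zero pq.ne_zero hcne pg.ne_zero pa.ne_zero
      pD.ne_zero pF.ne_zero) hcs0.le).trans hVZ
  have hLe := LtU_eq (t := (d, e, q, cc, g, a₁, D, F)) hK hV hH pd.ne_zero pq.ne_zero hcne
    pg.ne_zero pa.ne_zero pD.ne_zero pF.ne_zero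
  have hLle := LtU_le (t := (d, e, q, cc, g, a₁, D, F)) hK hV hH pd.ne_zero pq.ne_zero hcne
    pg.ne_zero pa.ne_zero pD.ne_zero pF.ne_zero
  change LtU K V H (d, e, q, cc, g, a₁, D, F) ≤ H * V ^ 2 / (K * nm d) at hLle
  have hLn := LtU_nonneg (V := V) hK hH (d, e, q, cc, g, a₁, D, F)
  have hexp : 1 ≤ Real.exp (2 * R0) := Real.one_le_exp (by positivity)
  have hLX : LtU K V H (d, e, q, cc, g, a₁, D, F) * Real.exp (2 * R0) < X / nm d := by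
    calc _ ≤ H * V ^ 2 / (K * nm d) * Real.exp (2 * R0) :=
          mul_le_mul_of_nonneg_right hLle (Real.exp_pos _).le
      _ = (H * V ^ 2 * Real.exp (2 * R0)) / (K * nm d) := by ring
      _ < (K * X) / (K * nm d) := div_lt_div_of_pos_right hKX (by positivity)
      _ = X / nm d := by field_simp
  have hκ1 : (1 : ℝ) ≤ nm (a₁ * D) := E1551.nm_ge_one (pa.mul pD).ne_zero
  have hLZ : LtU K V H (d, e, q, cc, g, a₁, D, F) ≤ Zm := by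
    have h1 := le_mul_of_one_le_right hLn hexp
    have h2 : X / nm d ≤ X := div_le_self hX.le nd1
    have h3 : X ≤ Zm := by
      refine le_trans ?_ hXZ
      have h4 : 1 ≤ z ^ 2 * Real.exp R0 :=
        one_le_mul_of_one_le_of_one_le (one_le_pow₀ hz) (Real.one_le_exp hR0)
      calc X ≤ (z ^ 2 * Real.exp R0) * X := le_mul_of_one_le_left hX.le h4
        _ = _ := by ring
    linarith
  have hIl : Il (nm (a₁ * D) * X / nm d) (LtU K V H (d, e, q, cc, g, a₁, D, F))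
      (cs * E3Sw290.YU V (d, e, q, cc, g, a₁, D, F)) =
      IlU cs K V H X (d, e, q, cc, g, a₁, D, F) := by
    have h1 := Il_eq (K := K) (V := V) (H := H) (X := X) (cs := cs) (d := nm d) (q := nm q)
      (g := nm g) (κ := nm a₁ * nm D) (F := nm F) (c := nm cc) hK hV hH hX hcs0 nd nq ng
      (by positivity) nF nc
    unfold LtU IlU E3Sw290.YU E3Sw290.ZU
    simp only [nm_mul, Nat.cast_mul]
    rw [← h1]
    simp only [mul_one]
  have hIU : IlU cs K V H X (d, e, q, cc, g, a₁, D, F) =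
      X * (V / nm cc) * H / K / (cs * ((nm F : ℝ) ^ 2 * (nm q : ℝ) ^ 2 * nm g)) := rfl
  have hIl0 : 0 ≤ IlU cs K V H X (d, e, q, cc, g, a₁, D, F) := IlU_nonneg hcs hK hV hH hX _
  have k1 : FS (af d e) := haf _ htR
  have k2 : ∀ n, af d e n ≠ 0 → Squarefree n := hsf _ htR
  have k3 : ∀ n, af d e n ≠ 0 → |Real.log (nm d * nm n) - Real.log X| ≤ R0 := hwin _ htR
  have k4 : ∀ γ π, IsPrim γ → IsPrim π → (nm π : ℝ) ≤ Zm ^ 4 →
    ∀ P : ℝ, 0 < P → (nm γ : ℝ) * n6 γ ^ 2 * ∑ r ∈ bl P, R3571.RMm A (af d e) e γ π r ≤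
      W0 d e P := by
    intro γ π hγ hπ hn P hP
    exact hRH (d, e) htR γ π hγ hπ hn P hP
  have k5 : 1 ≤ LtU K V H (d, e, q, cc, g, a₁, D, F) →
      LtU K V H (d, e, q, cc, g, a₁, D, F) * Real.exp (2 * R0) < nm (a₁ * D) * X / nm d ∧
      W0 d e (c * (Il (nm (a₁ * D) * X / nm d) (LtU K V H (d, e, q, cc, g, a₁, D, F))
        (cs * E3Sw290.YU V (d, e, q, cc, g, a₁, D, F)) *
          ((nm F : ℝ) ^ 2 * (nm q : ℝ) ^ 2 * nm g))) ≤ W0 d e (c * (X * V * H / K)) := by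
    intro h1
    refine ⟨hLX.trans_le ?_, ?_⟩
    · rw [mul_div_assoc]
      exact le_mul_of_one_le_left (by positivity) hκ1
    · rw [hIl, hIU]
      have hc0 : 0 < c := by linarith
      exact slp_Il (hW0 d e) hc0 hX hV hH hK hcs c1 nF nq ng
  have key := h A' hA' Zm hZm (af d e) k1 k2 d e q g (a₁ * D) F cc pd pe pq pg
    (pa.mul pD) pF hcc hsq hnm X hX k3 hκ (W0 d e) (hW0 d e) k4
    (cs * E3Sw290.YU V (d, e, q, cc, g, a₁, D, F)) (LtU K V H (d, e, q, cc, g, a₁, D, F))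
    (W0 d e (c * (X * V * H / K))) hY1 hYZ hLZ ((hW0 d e).nonneg _ hcI0) k5
  rw [hLe]
  refine key.trans (le_of_eq ?_)
  rw [hIl]
  unfold BsT
  split_ifs
  · ring
  · ring

/-! ### second form -/

/-- comparison of the factors -/
lemma nfD_F2 {Δ L I cs cc : ℝ} (hΔ : 0 ≤ Δ) (hL : 0 ≤ L) (hI : 0 < I) (hcs : 1 ≤ cs)
    (c1 : 1 ≤ cc) (c9 : cc ≤ 9) :
    nfD Δ (4 * (L / cc ^ 2)) (2 * I / (cc * cs)) ≤ 144 * cs * F2 L Δ I := by
  have hcs0 : 0 < cs := by linarith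
  have hcc0 : 0 < cc := by linarith
  set k : ℝ := 9 * cs with hk
  have hk1 : 1 ≤ k := by rw [hk]; linarith
  have hk0 : 0 < k := by linarith
  have hL4 : 4 * (L / cc ^ 2) ≤ 4 * L := by
    have : L / cc ^ 2 ≤ L := div_le_self hL (one_le_pow₀ c1)
    linarith
  have hL0 : 0 ≤ 4 * (L / cc ^ 2) := by positivity
  have hIk : I / k ≤ 2 * I / (cc * cs) := by
    rw [hk, div_le_div_iff₀ (by positivity) (by positivity)]
    have h2 : cc * cs ≤ 2 * (9 * cs) := by nlinarith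
    nlinarith
  have hIk0 : 0 < I / k := by positivity
  have g1 : (4 * (L / cc ^ 2)) ^ (1 / 3 : ℝ) ≤ 4 * L ^ (1 / 3 : ℝ) := by
    calc (4 * (L / cc ^ 2)) ^ (1 / 3 : ℝ) ≤ (4 * L) ^ (1 / 3 : ℝ) :=
          Real.rpow_le_rpow hL0 hL4 (by norm_num)
      _ = 4 ^ (1 / 3 : ℝ) * L ^ (1 / 3 : ℝ) := Real.mul_rpow (by norm_num) hL
      _ ≤ 4 ^ (1 : ℝ) * L ^ (1 / 3 : ℝ) := by
          refine mul_le_mul_of_nonneg_right ?_ (by positivity)
          exact Real.rpow_le_rpow_of_exponent_le (by norm_num) (by norm_num)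
      _ = _ := by rw [Real.rpow_one]
  have g2 : (4 * (L / cc ^ 2)) ^ (1 / 6 : ℝ) ≤ 4 * L ^ (1 / 6 : ℝ) := by
    calc (4 * (L / cc ^ 2)) ^ (1 / 6 : ℝ) ≤ (4 * L) ^ (1 / 6 : ℝ) :=
          Real.rpow_le_rpow hL0 hL4 (by norm_num)
      _ = 4 ^ (1 / 6 : ℝ) * L ^ (1 / 6 : ℝ) := Real.mul_rpow (by norm_num) hL
      _ ≤ 4 ^ (1 : ℝ) * L ^ (1 / 6 : ℝ) := by
          refine mul_le_mul_of_nonneg_right ?_ (by positivity)
          exact Real.rpow_le_rpow_of_exponent_le (by norm_num) (by norm_num)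
      _ = _ := by rw [Real.rpow_one]
  have gI : ∀ x : ℝ, 0 ≤ x → x ≤ 1 → (2 * I / (cc * cs)) ^ (-x) ≤ k * I ^ (-x) := by
    intro x hx0 hx1
    calc (2 * I / (cc * cs)) ^ (-x) ≤ (I / k) ^ (-x) :=
          Real.rpow_le_rpow_of_nonpos hIk0 hIk (by linarith)
      _ = k ^ x * I ^ (-x) := by
          rw [Real.div_rpow hI.le hk0.le, Real.rpow_neg hk0.le, div_inv_eq_mul, mul_comm]
      _ ≤ k ^ (1 : ℝ) * I ^ (-x) := by
          refine mul_le_mul_of_nonneg_right ?_ (by positivity)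
          exact Real.rpow_le_rpow_of_exponent_le hk1 hx1
      _ = _ := by rw [Real.rpow_one]
  have g3 := gI (2 / 3) (by norm_num) (by norm_num)
  have g4 := gI (1 / 3) (by norm_num) (by norm_num)
  have hpos : 0 < 2 * I / (cc * cs) := by positivity
  unfold Mode405.nfD Mode405.nfE E3T829.F2
  have hI3 : 0 ≤ I ^ (-(2 / 3) : ℝ) := by positivity
  have hI4 : 0 ≤ I ^ (-(1 / 3) : ℝ) := by positivity
  have hL3 : 0 ≤ L ^ (1 / 3 : ℝ) := by positivity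
  have hL6 : 0 ≤ L ^ (1 / 6 : ℝ) := by positivity
  have hΔ2 : 0 ≤ Δ ^ (2 / 3 : ℝ) := by positivity
  have t1 : Δ * (4 * (L / cc ^ 2)) ^ (1 / 3 : ℝ) * (2 * I / (cc * cs)) ^ (-(2 / 3) : ℝ) ≤
      36 * cs * (Δ * L ^ (1 / 3 : ℝ) * I ^ (-(2 / 3) : ℝ)) := by
    calc _ ≤ Δ * (4 * L ^ (1 / 3 : ℝ)) * (k * I ^ (-(2 / 3) : ℝ)) := by gcongr
      _ = _ := by rw [hk]; ring
  have t2 : Δ ^ (2 / 3 : ℝ) * (4 * (L / cc ^ 2)) ^ (1 / 6 : ℝ) *
      (2 * I / (cc * cs)) ^ (-(1 / 3) : ℝ) ≤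
      36 * cs * (Δ ^ (2 / 3 : ℝ) * L ^ (1 / 6 : ℝ) * I ^ (-(1 / 3) : ℝ)) := by
    calc _ ≤ Δ ^ (2 / 3 : ℝ) * (4 * L ^ (1 / 6 : ℝ)) * (k * I ^ (-(1 / 3) : ℝ)) := by gcongr
      _ = _ := by rw [hk]; ring
  have t0 : (1 : ℝ) ≤ 36 * cs * 1 := by linarith
  have hn1 : 0 ≤ Δ * L ^ (1 / 3 : ℝ) * I ^ (-(2 / 3) : ℝ) := by positivity
  have hn2 : 0 ≤ Δ ^ (2 / 3 : ℝ) * L ^ (1 / 6 : ℝ) * I ^ (-(1 / 3) : ℝ) := by positivity
  calc 4 * (L / cc ^ 2) * (1 + Δ * (4 * (L / cc ^ 2)) ^ (1 / 3 : ℝ) *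
        (2 * I / (cc * cs)) ^ (-(2 / 3) : ℝ) + Δ ^ (2 / 3 : ℝ) *
        (4 * (L / cc ^ 2)) ^ (1 / 6 : ℝ) * (2 * I / (cc * cs)) ^ (-(1 / 3) : ℝ))
      ≤ 4 * L * (36 * cs * 1 + 36 * cs * (Δ * L ^ (1 / 3 : ℝ) * I ^ (-(2 / 3) : ℝ)) +
        36 * cs * (Δ ^ (2 / 3 : ℝ) * L ^ (1 / 6 : ℝ) * I ^ (-(1 / 3) : ℝ))) := by
        refine mul_le_mul hL4 (by linarith) ?_ (by positivity)
        positivity
    _ = _ := by ring

/-- the lengths of a family of cells -/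
lemma fam_Il {X d Δ H V c K q g F cs : ℝ} (hX : 0 < X) (hd : 0 < d) (hΔ : 0 < Δ) (hH : 0 < H)
    (hV : 0 < V) (hc : 0 < c) (hK : 0 < K) (hq : 0 < q) (hg : 0 < g) (hF : 0 < F)
    (hcs : 0 < cs) :
    Il (X / d * Δ) (4 * (H * (V / c) ^ 2 / (K * d) / (Δ ^ 2 * (q * g * F) ^ 3)))
      (2 * (cs * (V / c / (q * d ^ 2 * g ^ 2) / (Δ * F)))) =
      2 * (X * (V / c) * H / K / (cs * (F ^ 2 * q ^ 2 * g))) := by
  unfold Mode405.Il
  field_simp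
  ring

lemma fam_L {H V c K d Δ q g F : ℝ} (hc : 0 < c) :
    4 * (H * (V / c) ^ 2 / (K * d) / (Δ ^ 2 * (q * g * F) ^ 3)) =
      4 * (H * V ^ 2 / (K * d) / (Δ ^ 2 * (q * g * F) ^ 3) / c ^ 2) := by
  field_simp

lemma fam_I {X V H K c cs q g F : ℝ} (hc : 0 < c) :
    2 * (X * (V / c) * H / K / (cs * (F ^ 2 * q ^ 2 * g))) =
      2 * (X * V * H / K / (q ^ 2 * g * F ^ 2)) / (c * cs) := by
  have e : F ^ 2 * q ^ 2 * g = q ^ 2 * g * F ^ 2 := by ring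
  rw [e]
  field_simp

lemma fam_Y {B x Δ F cs : ℝ} (hB : 0 ≤ B) (hΔ : 0 < Δ) (hF : 0 < F) (hcs : 0 < cs)
    (h1 : Δ / 2 ≤ x) (h2 : x ≤ Δ) :
    2 * (cs * (B / (Δ * F))) / 4 ≤ cs * (B / (x * 1 * F)) ∧
      cs * (B / (x * 1 * F)) ≤ 2 * (cs * (B / (Δ * F))) := by
  have hx : 0 < x := by linarith
  have e1 : B / (Δ * F) ≤ B / (x * 1 * F) := by
    rw [mul_one]; gcongr
  have e2 : B / (x * 1 * F) ≤ 2 * (B / (Δ * F)) := by
    have e3 : 2 * (B / (Δ * F)) = B / (Δ / 2 * F) := by field_simp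
    rw [mul_one, e3]
    gcongr
  have h0 : 0 ≤ B / (Δ * F) := by positivity
  constructor
  · have : cs * (B / (Δ * F)) ≤ cs * (B / (x * 1 * F)) := mul_le_mul_of_nonneg_left e1 hcs.le
    have h3 : 0 ≤ cs * (B / (Δ * F)) := by positivity
    linarith
  · have := mul_le_mul_of_nonneg_left e2 hcs.le
    linarith

lemma fam_Lt {A x Δ G : ℝ} (hA : 0 ≤ A) (hΔ : 0 < Δ) (hG : 0 < G) (h1 : Δ / 2 ≤ x) :
    A / ((x * 1) ^ 2 * G) ≤ 4 * (A / (Δ ^ 2 * G)) := by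
  have hx : 0 < x := by linarith
  have e3 : 4 * (A / (Δ ^ 2 * G)) = A / ((Δ / 2) ^ 2 * G) := by field_simp; ring
  rw [e3, mul_one]
  gcongr

set_option maxHeartbeats 1000000 in
/-- **second form for the canonical number** -/
theorem S2h_Q {χ : Eis → ℂ} (hχ : Mul1 χ) {w : ℝ → ℝ} (hP : PoHG (GD χ (w6 w)))
    (hw1 : ∀ x, w x ≠ 0 → x ≤ 1) {R0 : ℝ} (hR0 : 0 ≤ R0) (a A : ℕ) (hA : 1 < A) {ε : ℝ}
    (hε : 0 < ε) {cs : ℝ} (hcs : 1 ≤ cs) :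
    ∃ (C c : ℝ) (A₀ : ℕ), 0 ≤ C ∧ 1 ≤ c ∧ ∀ A' : ℝ, (A₀ : ℝ) ≤ A' →
      ∀ z Zm K V H X : ℝ, 1 ≤ z → 2 * z ^ 3 ≤ Zm → 0 < K → 0 < V → 0 < H → 0 < X →
      4 * (H * V ^ 2) * Real.exp (2 * R0 + 3) < K * X → 2 * (cs * V) ≤ Zm →
      2 * z * (Real.exp R0 * X) ≤ Zm →
      ∀ (R : Finset (Eis × Eis)) (af : Eis → Eis → Eis → ℂ), (∀ ρ ∈ R, FS (af ρ.1 ρ.2)) →
      (∀ ρ ∈ R, ∀ n, af ρ.1 ρ.2 n ≠ 0 → Squarefree n) →
      (∀ ρ ∈ R, ∀ n, af ρ.1 ρ.2 n ≠ 0 → |Real.log (nm ρ.1 * nm n) - Real.log X| ≤ R0) →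
      ∀ W0 : Eis → Eis → ℝ → ℝ, (∀ d e, Slp a (W0 d e)) → RHR (Zm ^ 4) A R af W0 →
      S2h z R (fun d => H * V ^ 2 / (K * nm d)) (X * V * H / K)
        (fun d e => C * Zm ^ (2 * ε) * W0 d e (c * (X * V * H / K)))
        (BsQt ε χ w A' cs K V H af) := by
  obtain ⟨C, c, A₀, hC, hc, h⟩ := bsq_cellf hχ hP le_rfl (fun x hx => w6_le hw1 hx) hR0 a A hA hε
  refine ⟨144 * cs * C, 2 * c, A₀, by positivity, by linarith, ?_⟩
  intro A' hA' z Zm K V H X hz hzZ hK hV hH hX hKX hVZ hXZ R af haf hsf hwin W0 hW0 hRH ρ hρ q hq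
    k hk g hg F hF Δ hΔ Kp hKp
  obtain ⟨d, e⟩ := ρ
  have hz0 : 0 ≤ z := by linarith
  have hcs0 : 0 < cs := by linarith
  have hΔ0 : 0 < Δ := by linarith
  have hc0 : 0 < c := by linarith
  have hz3 : z ≤ z ^ 3 := by
    calc z = z ^ 1 := (pow_one z).symm
      _ ≤ z ^ 3 := pow_le_pow_right₀ hz (by norm_num)
  have hZm : 1 ≤ Zm := by linarith
  have hI0 : 0 < X * V * H / K := by positivity
  have hcI0 : 0 < 2 * c * (X * V * H / K) := by positivity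
  have hW : 0 ≤ W0 d e (2 * c * (X * V * H / K)) := (hW0 d e).nonneg _ hcI0
  obtain ⟨nzq, pq, -⟩ := (mem_S hz0).1 hq
  obtain ⟨nzg, pg, -⟩ := (mem_S hz0).1 hg
  obtain ⟨nzF, pF, -⟩ := (mem_S hz0).1 hF
  have hkne := isC_ne0 hk
  have nk := nmpos hkne
  have k1' : (1 : ℝ) ≤ nm k := E1551.nm_ge_one hkne
  have k9 : (nm k : ℝ) ≤ 9 := by exact_mod_cast (E3T829.Cd.nm_c_le hk).2
  have nq := nmpos pq.ne_zero
  have ng := nmpos pg.ne_zero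
  have nF := nmpos pF.ne_zero
  have q1 : (1 : ℝ) ≤ nm q := E1551.nm_ge_one pq.ne_zero
  have g1 : (1 : ℝ) ≤ nm g := E1551.nm_ge_one pg.ne_zero
  have F1 : (1 : ℝ) ≤ nm F := E1551.nm_ge_one pF.ne_zero
  -- the reduction to the admissible members
  set Kp' : Finset Eis := Kp.filter (fun κ => TQc cs V (d, e, q, k, g, κ, 1, F)) with hKp'
  have hsum : ∑ κ ∈ Kp, BsQt ε χ w A' cs K V H af (d, e, q, k, g, κ, 1, F) =
      ∑ κ ∈ Kp', BsQ ε χ (w6 w) 1 A' (E3Sw290.LtU K V H (d, e, q, k, g, κ, 1, F))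
        (cs * E3Sw290.YU V (d, e, q, k, g, κ, 1, F))
        (bF κ F (b0 (af d e) d e (q * k * g ^ 2))) (g * κ * F) κ := by
    rw [hKp', Finset.sum_filter]
    refine Finset.sum_congr rfl fun κ _ => ?_
    unfold BsQt
    split_ifs
    · change BsQ ε χ (w6 w) 1 A' _ _ (bF (κ * 1) F (b0 (af d e) d e (q * k * g ^ 2)))
        (g * (κ * 1) * F) (κ * 1) = _
      rw [mul_one]
    · rfl
  have hF20 : ∀ d' : ℝ, 0 ≤ d' → 0 ≤ F2 (H * V ^ 2 / (K * d') / (Δ ^ 2 * (nm (q * g * F) : ℝ) ^ 3)) Δ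
      (X * V * H / K / nm (q ^ 2 * g * F ^ 2)) := by
    intro d' hd'
    unfold E3T829.F2
    positivity
  change ∑ κ ∈ Kp, BsQt ε χ w A' cs K V H af (d, e, q, k, g, κ, 1, F) ≤
    F2 (H * V ^ 2 / (K * nm d) / (Δ ^ 2 * (nm (q * g * F) : ℝ) ^ 3)) Δ
      (X * V * H / K / nm (q ^ 2 * g * F ^ 2)) *
      (144 * cs * C * Zm ^ (2 * ε) * W0 d e (2 * c * (X * V * H / K)))
  rw [hsum]
  by_cases hemp : Kp' = ∅
  · rw [hemp, Finset.sum_empty]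
    exact mul_nonneg (hF20 _ (Nat.cast_nonneg _)) (by positivity)
  obtain ⟨κ₀, hκ₀⟩ := Finset.nonempty_iff_ne_empty.mpr hemp
  have hκ₀' := hκ₀
  rw [hKp', Finset.mem_filter] at hκ₀'
  obtain ⟨hκ₀K, pd, pe, -, hsq0, hY0⟩ := hκ₀'
  change IsPrim d at pd
  change IsPrim e at pe
  change Squarefree (g * (κ₀ * 1) * F) at hsq0
  have nd := nmpos pd.ne_zero
  have d1 : (1 : ℝ) ≤ nm d := E1551.nm_ge_one pd.ne_zero
  obtain ⟨hκS, hκ1, hκ2⟩ := hKp κ₀ hκ₀K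
  have hκz : (nm κ₀ : ℝ) ≤ z := ((mem_S hz0).1 hκS).1
  have hΔz : Δ ≤ 2 * z := by linarith
  have hsq : Squarefree (g * F) := hsq0.squarefree_of_dvd ⟨κ₀, by ring⟩
  -- the lengths of the family
  set B : ℝ := V / nm k / (nm q * (nm d : ℝ) ^ 2 * (nm g : ℝ) ^ 2) with hB
  have hB0 : 0 < B := by rw [hB]; positivity
  have hBV : B ≤ V := by
    have h1 : (1 : ℝ) ≤ nm q * (nm d : ℝ) ^ 2 * (nm g : ℝ) ^ 2 :=
      one_le_mul_of_one_le_of_one_le (one_le_mul_of_one_le_of_one_le q1 (one_le_pow₀ d1))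
        (one_le_pow₀ g1)
    exact (div_le_self (by positivity) h1).trans (div_le_self hV.le k1')
  set Y : ℝ := 2 * (cs * (B / (Δ * nm F))) with hY
  set A₂ : ℝ := H * (V / nm k) ^ 2 / (K * nm d) with hA₂
  have hA₂0 : 0 < A₂ := by rw [hA₂]; positivity
  have hA₂le : A₂ ≤ H * V ^ 2 / (K * nm d) := by
    rw [hA₂]
    have h2 : V / nm k ≤ V := div_le_self hV.le k1'
    have h3 : 0 ≤ V / nm k := by positivity
    gcongr
  set G : ℝ := (nm q * nm g * nm F : ℝ) ^ 3 with hG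
  have hG0 : 0 < G := by rw [hG]; positivity
  have hG1 : 1 ≤ G := by
    rw [hG]
    exact one_le_pow₀ (one_le_mul_of_one_le_of_one_le (one_le_mul_of_one_le_of_one_le q1 g1) F1)
  set Lt : ℝ := 4 * (A₂ / (Δ ^ 2 * G)) with hLt
  have hLt0 : 0 < Lt := by rw [hLt]; positivity
  have hLtA : Lt ≤ 4 * (H * V ^ 2 / (K * nm d)) := by
    rw [hLt]
    have h1 : (1 : ℝ) ≤ Δ ^ 2 * G := one_le_mul_of_one_le_of_one_le (one_le_pow₀ hΔ) hG1
    have h2 : A₂ / (Δ ^ 2 * G) ≤ A₂ := div_le_self hA₂0.le h1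
    linarith
  have hexp : 1 ≤ Real.exp (2 * R0 + 3) := Real.one_le_exp (by positivity)
  have hLX : Lt * Real.exp (2 * R0 + 3) < X / nm d := by
    calc Lt * Real.exp (2 * R0 + 3) ≤ 4 * (H * V ^ 2 / (K * nm d)) * Real.exp (2 * R0 + 3) :=
          mul_le_mul_of_nonneg_right hLtA (Real.exp_pos _).le
      _ = (4 * (H * V ^ 2) * Real.exp (2 * R0 + 3)) / (K * nm d) := by ring
      _ < (K * X) / (K * nm d) := div_lt_div_of_pos_right hKX (by positivity)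
      _ = X / nm d := by field_simp
  have hXm : X ≤ Zm := by
    refine le_trans ?_ hXZ
    have h1 : 1 ≤ 2 * z * Real.exp R0 :=
      one_le_mul_of_one_le_of_one_le (by linarith) (Real.one_le_exp hR0)
    calc X ≤ (2 * z * Real.exp R0) * X := le_mul_of_one_le_left hX.le h1
      _ = _ := by ring
  have hLZ : Lt ≤ Zm := by
    have h1 := le_mul_of_one_le_right hLt0.le hexp
    have h2 : X / nm d ≤ X := div_le_self hX.le d1
    linarith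
  have hYZ : Y ≤ Zm := by
    refine le_trans ?_ hVZ
    rw [hY]
    have h1 : (1 : ℝ) ≤ Δ * nm F := one_le_mul_of_one_le_of_one_le hΔ F1
    have h2 : B / (Δ * nm F) ≤ V := (div_le_self hB0.le h1).trans hBV
    have h3 := mul_le_mul_of_nonneg_left h2 hcs0.le
    linarith
  have hYd : ∀ κ ∈ Kp', Y / 4 ≤ cs * E3Sw290.YU V (d, e, q, k, g, κ, 1, F) ∧
      cs * E3Sw290.YU V (d, e, q, k, g, κ, 1, F) ≤ Y := by
    intro κ hκ
    rw [hKp', Finset.mem_filter] at hκ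
    obtain ⟨-, h1, h2⟩ := hKp κ hκ.1
    have h3 := fam_Y (cs := cs) hB0.le hΔ0 nF hcs0 h1 h2
    have e1 : E3Sw290.YU V (d, e, q, k, g, κ, 1, F) = B / (nm κ * 1 * nm F) := by
      unfold E3Sw290.YU E3Sw290.ZU
      simp only [nm_one, Nat.cast_one]
      rw [hB]
    rw [e1]
    exact h3
  have hY1 : 1 ≤ Y := hY0.trans (hYd κ₀ hκ₀).2
  have hLd : ∀ κ ∈ Kp', E3Sw290.LtU K V H (d, e, q, k, g, κ, 1, F) ≤ Lt := by
    intro κ hκ
    rw [hKp', Finset.mem_filter] at hκ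
    obtain ⟨h0, h1, h2⟩ := hKp κ hκ.1
    have pκ := ((mem_S hz0).1 h0).2.1
    rw [LtU_eq (t := (d, e, q, k, g, κ, 1, F)) hK hV hH pd.ne_zero pq.ne_zero hkne pg.ne_zero
      pκ.ne_zero isPrim_one.ne_zero pF.ne_zero]
    have h3 := fam_Lt (G := G) hA₂0.le hΔ0 hG0 h1
    have e1 : LtU K V H (d, e, q, k, g, κ, 1, F) = A₂ / ((nm κ * 1) ^ 2 * G) := by
      unfold LtU
      simp only [nm_mul, nm_one, Nat.cast_one, Nat.cast_mul]
      rw [hA₂, hG]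
    rw [e1]
    exact h3
  have hfam : ∀ κ ∈ Kp', IsPrim κ ∧ Squarefree κ ∧ Δ / 4 < nm κ ∧ (nm κ : ℝ) ≤ Δ ∧
      Y / 4 ≤ cs * E3Sw290.YU V (d, e, q, k, g, κ, 1, F) ∧
      cs * E3Sw290.YU V (d, e, q, k, g, κ, 1, F) ≤ Y ∧
      E3Sw290.LtU K V H (d, e, q, k, g, κ, 1, F) ≤ Lt := by
    intro κ hκ
    have hκ' := hκ
    rw [hKp', Finset.mem_filter] at hκ'
    obtain ⟨h0, h1, h2⟩ := hKp κ hκ'.1
    obtain ⟨-, pκ, sκ⟩ := (mem_S hz0).1 h0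
    exact ⟨pκ, sκ, by linarith, h2, (hYd κ hκ).1, (hYd κ hκ).2, hLd κ hκ⟩
  -- the hypotheses
  have j1 : FS (af d e) := haf (d, e) hρ
  have j2 : ∀ n, af d e n ≠ 0 → Squarefree n := fun n hn => hsf (d, e) hρ n hn
  have j3 : ∀ n, af d e n ≠ 0 → |Real.log (nm d * nm n) - Real.log X| ≤ R0 :=
    fun n hn => hwin (d, e) hρ n hn
  have j4 : ∀ γ π, IsPrim γ → IsPrim π → (nm π : ℝ) ≤ Zm ^ 4 →
    ∀ P : ℝ, 0 < P → (nm γ : ℝ) * n6 γ ^ 2 * ∑ r ∈ bl P, R3571.RMm A (af d e) e γ π r ≤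
      W0 d e P := by
    intro γ π hγ hπ hn P hP
    exact hRH (d, e) hρ γ π hγ hπ hn P hP
  have hIl : Il (X / nm d * Δ) Lt Y =
      2 * (X * (V / nm k) * H / K / (cs * ((nm F : ℝ) ^ 2 * (nm q : ℝ) ^ 2 * nm g))) :=
    fam_Il hX nd hΔ0 hH hV nk hK nq ng nF hcs0
  have j5 : 1 ≤ Lt → Lt * Real.exp (2 * R0 + 3) < X / nm d * Δ ∧
      W0 d e (c * (Il (X / nm d * Δ) Lt Y * ((nm F : ℝ) ^ 2 * (nm q : ℝ) ^ 2 * nm g))) ≤
        W0 d e (2 * c * (X * V * H / K)) := by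
    intro _
    refine ⟨hLX.trans_le (le_mul_of_one_le_right (by positivity) hΔ), ?_⟩
    have e1 : c * (Il (X / nm d * Δ) Lt Y * ((nm F : ℝ) ^ 2 * (nm q : ℝ) ^ 2 * nm g)) =
        2 * c * (X * (V / nm k) * H / K / (cs * ((nm F : ℝ) ^ 2 * (nm q : ℝ) ^ 2 * nm g)) *
          ((nm F : ℝ) ^ 2 * (nm q : ℝ) ^ 2 * nm g)) := by
      rw [hIl]; ring
    rw [e1]
    exact slp_Il (hW0 d e) (by positivity) hX hV hH hK hcs k1' nF nq ng
  have hnm : (nm (q * g * F) : ℝ) ≤ Zm := by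
    simp only [nm_mul, Nat.cast_mul]
    calc (nm q : ℝ) * nm g * nm F ≤ z * z * z := by gcongr
      _ = z ^ 3 := by ring
      _ ≤ Zm := by linarith
  have hΔm : Δ ≤ Zm := by linarith
  have hΔX : Δ * (Real.exp R0 * X) ≤ Zm :=
    (mul_le_mul_of_nonneg_right hΔz (by positivity)).trans hXZ
  have key := h A' hA' Zm hZm (af d e) j1 j2 d e q g F k pd pe pq pg pF hk hsq hnm X hX j3 Δ hΔ
    hΔm hΔX (W0 d e) (hW0 d e) j4 Y Lt (W0 d e (2 * c * (X * V * H / K))) hY1 hYZ hLZ hW j5 Kp'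
    (fun κ => cs * E3Sw290.YU V (d, e, q, k, g, κ, 1, F))
    (fun κ => E3Sw290.LtU K V H (d, e, q, k, g, κ, 1, F)) hfam
  refine key.trans ?_
  -- the number
  set L : ℝ := H * V ^ 2 / (K * nm d) / (Δ ^ 2 * G) with hLdef
  set I : ℝ := X * V * H / K / ((nm q : ℝ) ^ 2 * nm g * (nm F : ℝ) ^ 2) with hIdef
  have hL0 : 0 ≤ L := by rw [hLdef]; positivity
  have hI0' : 0 < I := by rw [hIdef]; positivity
  have eL : Lt = 4 * (L / (nm k : ℝ) ^ 2) := by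
    rw [hLt, hA₂, hLdef, hG]
    exact fam_L nk
  have eI : Il (X / nm d * Δ) Lt Y = 2 * I / (nm k * cs) := by
    rw [hIl, hIdef]
    exact fam_I nk
  have hF2 := nfD_F2 (Δ := Δ) (L := L) (I := I) (cs := cs) (cc := nm k) hΔ0.le hL0 hI0' hcs k1' k9
  have e3 : F2 (H * V ^ 2 / (K * nm d) / (Δ ^ 2 * (nm (q * g * F) : ℝ) ^ 3)) Δ
      (X * V * H / K / nm (q ^ 2 * g * F ^ 2)) = F2 L Δ I := by
    simp only [nm_mul, nm_pow, Nat.cast_mul, Nat.cast_pow]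
    rfl
  rw [e3]
  have hF0 : 0 ≤ F2 L Δ I := by unfold E3T829.F2; positivity
  have hCm : 0 ≤ C * Zm ^ (2 * ε) * W0 d e (2 * c * (X * V * H / K)) := by positivity
  have hle : (if 1 ≤ Lt then nfD Δ Lt (Il (X / nm d * Δ) Lt Y) *
      W0 d e (2 * c * (X * V * H / K)) else 0) ≤
      144 * cs * F2 L Δ I * W0 d e (2 * c * (X * V * H / K)) := by
    split_ifs
    · refine mul_le_mul_of_nonneg_right ?_ hW
      rw [eI, eL]
      exact hF2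
    · positivity
  calc C * Zm ^ (2 * ε) * _ ≤ C * Zm ^ (2 * ε) *
        (144 * cs * F2 L Δ I * W0 d e (2 * c * (X * V * H / K))) :=
        mul_le_mul_of_nonneg_left hle (by positivity)
    _ = _ := by ring

end Crest.Agent.R017.E3Sx579
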