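import Crest.Agent.R017.E3Zb_548
import Crest.Agent.R017.E3Ul_829

/-!
# Row 17, R8 (E3), the R-part with both forms of the structured numbers (helper829)

* `RN2` : the number with `G2` instead of `√L + M`
* `R_PZ2` : helper548's `R_PZ` with the second form
-/

set_option autoImplicit false
set_option linter.unusedVariables false

noncomputable section

open Finset
open scoped Classical ComplexConjugate

namespace Crest.Agent.R017.E3T829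

open Crest.Agent.R012 Crest.Agent.R012.Eis Crest.Agent.R012.Div277
open Crest.Agent.R012.LS2 (S mem_S)
open Crest.Agent.R017.E3A164 (Cs mem_Cs fq)
open Crest.Agent.R017.GrB829 (IsC)
open Crest.Agent.R017.E3Zr579 (dil)
open Crest.Agent.R017.E3Z548 (PRZ FH FH_nonneg QH QH_nonneg Rdil)

open Cd (Pde)

/-- the number of the R-part, both forms -/
def RN2 (L M : Eis → ℝ) (I : ℝ) (W1 : Eis → Eis → ℝ) (Ds EE : Finset Eis) : ℝ :=
  ∑ d ∈ Ds, ∑ e ∈ EE, (nm d : ℝ) ^ (2 / 3 : ℝ) * nm e *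
    ((if 1 ≤ L d then G2 (L d) (M d) I else 0) * W1 d e)

/-- **the `R`-part, both forms** -/
theorem R_PZ2 {ε : ℝ} (hε : 0 < ε) : ∃ C : ℝ, 0 ≤ C ∧ ∀ Z : ℝ, 1 ≤ Z →
    ∀ (J : Finset (Eis × Eis)) (EE : Finset Eis) (c K H V : ℝ) (W1 : Eis → Eis → ℝ)
      (L M : Eis → ℝ) (I : ℝ) (Bs : UT → ℝ), 0 ≤ c → 0 ≤ K → 0 ≤ H → 0 ≤ V →
      (∀ d e, 0 ≤ W1 d e) → (∀ d, 0 ≤ L d) → (∀ d, 0 ≤ M d) → 0 < I → (∀ t, 0 ≤ Bs t) →
      S1h (Z ^ 3) ((RUs J EE Z).image fun u => (u.1, u.2.1)) L M W1 Bs →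
      S2h (Z ^ 3) ((RUs J EE Z).image fun u => (u.1, u.2.1)) L I W1 Bs →
      ∑ u ∈ RUs J EE Z, PRZ c K H V EE u.1 u.2.1 * Rdil Bs u ≤
        C * Z ^ ε * (c * hE EE * FH K H V * RN2 L M I W1 (J.image Prod.fst) EE) := by
  obtain ⟨C, hC, h⟩ := Rsum2 hε
  refine ⟨3 * C, by positivity, ?_⟩
  intro Z hZ J EE c K H V W1 L M I Bs hc hK hH hV hW hL hM hI hB hS1 hS2
  have hZ0 : 0 < Z := by linarith
  have hhE := hE_nonneg EE
  have hP : ∀ d e, 0 ≤ PRZ c K H V EE d e := fun d e => by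
    unfold PRZ
    have := Cd.Pde_nonneg hK (QH_nonneg hH hV) d e
    positivity
  have hmem : ∀ u ∈ RUs J EE Z, SU Z u ∧ IsC u.2.2.2.1 ∧ (u.1, u.2.1) ∈ RR J EE := by
    intro u hu
    unfold RUs at hu
    simp only [mem_product, mem_Cs] at hu
    obtain ⟨h1, h2, h3, h4, h5, h6, h7, h8⟩ := hu
    exact ⟨⟨h3, h5, h6, h7, h8⟩, h4, mem_product.mpr ⟨h1, h2⟩⟩
  have key := h Z hZ (RUs J EE Z) (PRZ c K H V EE) W1 L M I Bs hP hW hL hM hI hB
    (fun u hu => (hmem u hu).1) (fun u hu => (hmem u hu).2.1) hS1 hS2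
  refine key.trans ?_
  have hsub : (RUs J EE Z).image (fun u => (u.1, u.2.1)) ⊆ RR J EE := by
    intro ρ hρ
    obtain ⟨u, hu, rfl⟩ := mem_image.mp hρ
    exact (hmem u hu).2.2
  have e1 : ∑ ρ ∈ RR J EE, PRZ c K H V EE ρ.1 ρ.2 *
      ((if 1 ≤ L ρ.1 then G2 (L ρ.1) (M ρ.1) I else 0) * W1 ρ.1 ρ.2) =
      3 * (c * hE EE * FH K H V * RN2 L M I W1 (J.image Prod.fst) EE) := by
    unfold RR RN2 PRZ Pde QH FH
    rw [sum_product, mul_sum, mul_sum]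
    refine sum_congr rfl fun d _ => ?_
    rw [mul_sum, mul_sum]
    refine sum_congr rfl fun e _ => ?_
    ring
  have e2 : ∑ ρ ∈ (RUs J EE Z).image (fun u => (u.1, u.2.1)), PRZ c K H V EE ρ.1 ρ.2 *
      ((if 1 ≤ L ρ.1 then G2 (L ρ.1) (M ρ.1) I else 0) * W1 ρ.1 ρ.2) ≤
      ∑ ρ ∈ RR J EE, PRZ c K H V EE ρ.1 ρ.2 *
      ((if 1 ≤ L ρ.1 then G2 (L ρ.1) (M ρ.1) I else 0) * W1 ρ.1 ρ.2) := by
    refine sum_le_sum_of_subset_of_nonneg hsub fun ρ _ _ => mul_nonneg (hP _ _)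
      (mul_nonneg ?_ (hW _ _))
    split_ifs
    · exact G2_nonneg (hL _) (hM _) hI.le
    · exact le_rfl
  refine (mul_le_mul_of_nonneg_left (e2.trans e1.le) (by positivity)).trans (le_of_eq ?_)
  ring

end Crest.Agent.R017.E3T829
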