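import Crest.Agent.R017.PoD12_50

/-!
# Row 17, block C70: a family `bt D b`, `D ∈ 𝒟`, against one kernel (helper50), part 13

`pod` : **the second form for one kernel** in the literal form of helper405.
-/

set_option autoImplicit false

noncomputable section

open Complex MeasureTheory
open scoped ComplexConjugate Classical

namespace Crest.Agent.R017.PoD50

open Crest.Agent.R012 Crest.Agent.R012.Eis Crest.Agent.R012.MC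
open Crest.Agent.R012.LS2 (S mem_S bl mem_bl)
open Crest.Agent.R012.NonCube52 (Ker kv Good nm_kv)
open Crest.Agent.R012.Weight600 (osc pw norm_osc)
open Crest.Agent.R017.CM106 (CS)
open Crest.Agent.R017.E1551 (nmpos nm_ge_one)
open Crest.Agent.R017.BD829
open Crest.Agent.R017.PoH347
open Crest.Agent.R017.Mode405 (VI Slp XS)
open Crest.Agent.R017.E3D579 (bt)
open Gauss880 (syG)

lemma bt_zero {b : Eis → ℂ} (hb : ∀ n, b n = 0) (D n : Eis) : bt D b n = 0 := by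
  unfold bt
  split_ifs
  · rw [hb, zero_mul]
  · rfl

lemma XS_zero {b : Eis → ℂ} (hb : ∀ n, b n = 0) (χ : Eis → ℂ) (w : ℝ → ℝ) (X t : ℝ) (κ : Ker) :
    XS χ w X t b κ = 0 := by
  have h1 : ∀ x, CS b x = 0 := by
    intro x
    unfold CS
    simp [hb]
  unfold XS
  simp [h1]

/-- the two forms of the second form -/
lemma nf2_eq {Δ N X K : ℝ} (hN : 0 < N) (hΔ : 0 < Δ) (hX : 0 < X) (hK : 0 < K) :
    nf2 Δ ((X / (N * Δ)) ^ 2 / K) = 1 + Δ * K ^ (1 / 3 : ℝ) * (N * Δ * K / X) ^ (-(2 / 3) : ℝ) +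
      Δ ^ (2 / 3 : ℝ) * K ^ (1 / 6 : ℝ) * (N * Δ * K / X) ^ (-(1 / 3) : ℝ) := by
  have hI : 0 < N * Δ * K / X := by positivity
  have e1 : (X / (N * Δ)) ^ 2 / K = K * ((N * Δ * K / X) ^ 2)⁻¹ := by
    field_simp
  have e2 : ∀ s : ℝ, (K * ((N * Δ * K / X) ^ 2)⁻¹) ^ s = K ^ s * (N * Δ * K / X) ^ (-(2 * s)) := by
    intro s
    rw [Real.mul_rpow hK.le (by positivity), Real.inv_rpow (by positivity),
      ← Real.rpow_natCast (N * Δ * K / X) 2, ← Real.rpow_mul hI.le, ← Real.rpow_neg hI.le]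
    norm_num
  unfold nf2
  rw [e1, e2, e2]
  have e3 : (-(2 * (1 / 3)) : ℝ) = -(2 / 3) := by norm_num
  have e4 : (-(2 * (1 / 6)) : ℝ) = -(1 / 3) := by norm_num
  rw [e3, e4]
  ring

/-- the second form for one kernel: a family `bt D b`, `D ∈ 𝒟 q`, of a family `b q` -/
def PoD (R : ℝ) (χ : Eis → ℂ) (w : ℝ → ℝ) : Prop :=
  ∀ (a A : ℕ), 1 < A → ∀ ε : ℝ, 0 < ε → ∃ (C c : ℝ) (J : ℕ), 0 ≤ C ∧ 1 ≤ c ∧
    ∀ Z N Δ X : ℝ, 1 ≤ Z → 0 < N → N ≤ Z → 1 ≤ Δ → Δ ≤ Z → 0 < X → 1 ≤ X * Z →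
    ∀ κ : Ker, Good κ → (nm (kv κ) : ℝ) ≤ Z → (nm (kv κ) : ℝ) * Real.exp (R + 3) < N * Δ →
    ∀ {ι : Type} (Q : Finset ι) (b : ι → Eis → ℂ) (Xq : ι → ℝ) (𝒟 : ι → Finset Eis),
      (∀ q ∈ Q, X / 64 ≤ Xq q ∧ Xq q ≤ X) →
      (∀ q ∈ Q, ∀ n, b q n ≠ 0 → n ∈ S Z) → (∀ q ∈ Q, Win (b q) (Real.log N) R) →
      (∀ q ∈ Q, ∀ D ∈ 𝒟 q, IsPrim D ∧ Squarefree D ∧ Δ / 4 < nm D ∧ (nm D : ℝ) ≤ Δ) →
    ∀ W : ℝ → ℝ, Slp a W → HW A ((N * Δ) ^ 2) Q b 1 W →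
    ∀ W1 : ℝ, W (c * (N * Δ * nm (kv κ) / X)) ≤ W1 →
    ∀ t : ℝ, ∑ q ∈ Q, ∑ D ∈ 𝒟 q, ‖XS χ w (Xq q) t (bt D (b q)) κ‖ ^ 2 ≤
      C * Z ^ ε * (1 + |t|) ^ J * (X * (1 + Δ * (nm (kv κ) : ℝ) ^ (1 / 3 : ℝ) *
          (N * Δ * nm (kv κ) / X) ^ (-(2 / 3) : ℝ) + Δ ^ (2 / 3 : ℝ) *
          (nm (kv κ) : ℝ) ^ (1 / 6 : ℝ) * (N * Δ * nm (kv κ) / X) ^ (-(1 / 3) : ℝ)) * W1)

/-- **the second form for one kernel** -/
theorem pod {u : Eis} (hu : SU u) {χ : Eis → ℂ} (hχ : ∀ x, IsPrim x → χ x = conj (sy u x))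
    {w : ℝ → ℝ} (hw : Wgt w) {R : ℝ} (hR : 0 ≤ R) : PoD R χ w := by
  intro a A hA ε hε
  obtain ⟨C, c, J, hC, hc, h⟩ := pod_ka hu hχ hw hR (a := a) hA hε
  refine ⟨C, c, J, hC, hc, ?_⟩
  intro Z N Δ X hZ hN hNZ hΔ1 hΔZ hX hXZ κ hκ hkZ hkN ι Q b Xq 𝒟 hXq hb hwb hD W hW hHW W1 hW1 t
  have hZ0 : 0 < Z := by linarith
  have hΔ0 : 0 < Δ := by linarith
  have nkv : (1 : ℝ) ≤ nm (kv κ) := NonCube52.one_le_nmkv hκ
  have nk0 : (0 : ℝ) < nm (kv κ) := by linarith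
  rw [← nf2_eq hN hΔ0 hX nk0]
  by_cases hN1 : Real.exp (-(R + 3)) ≤ N
  · refine h Z N Δ X ((N * Δ) ^ 2) hZ hN hNZ hΔ1 hΔZ hX hXZ κ hκ hkZ hkN ?_ 1 Q b Xq 𝒟
      isCoprime_one_right hXq
      ⟨hb, hwb, fun q hq D hDm => (mem_S hΔ0.le).2 ⟨(hD q hq D hDm).2.2.2, (hD q hq D hDm).1,
        (hD q hq D hDm).2.1⟩, fun q hq D hDm => by linarith [(hD q hq D hDm).2.2.1],
        fun q _ D _ => isCoprime_one_right⟩ W hW hHW W1 hW1 t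
    have h1 : (nm (kv κ) : ℝ) ≤ N * Δ * Real.exp (-(R + 3)) := by
      rw [Real.exp_neg, ← div_eq_mul_inv, le_div_iff₀ (Real.exp_pos _)]
      exact hkN.le
    calc (nm (kv κ) : ℝ) * Δ ≤ N * Δ * Real.exp (-(R + 3)) * Δ :=
          mul_le_mul_of_nonneg_right h1 hΔ0.le
      _ ≤ N * Δ * N * Δ := by gcongr
      _ = (N * Δ) ^ 2 := by ring
  · -- everything vanishes
    push Not at hN1
    have hb0 : ∀ q ∈ Q, ∀ n, b q n = 0 := by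
      intro q hq n
      by_contra hn
      have h1 := (mem_S hZ0.le).1 (hb q hq n hn)
      have h2 := hwb q hq n hn
      have h3 : (1 : ℝ) ≤ nm n := nm_ge_one h1.2.1.ne_zero
      have h4 := Real.log_nonneg h3
      have h5 := Real.log_lt_log hN hN1
      rw [Real.log_exp] at h5
      have h6 := (abs_le.mp h2).2
      linarith
    have e1 : ∑ q ∈ Q, ∑ D ∈ 𝒟 q, ‖XS χ w (Xq q) t (bt D (b q)) κ‖ ^ 2 = 0 := by
      refine Finset.sum_eq_zero fun q hq => Finset.sum_eq_zero fun D _ => ?_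
      rw [XS_zero (bt_zero (hb0 q hq) D)]
      simp
    rw [e1]
    have hW10 : 0 ≤ W1 := (hW.nonneg _ (by positivity)).trans hW1
    have hnf : 0 ≤ nf2 Δ ((X / (N * Δ)) ^ 2 / nm (kv κ)) := nf2_nonneg hΔ0.le (by positivity)
    positivity

end Crest.Agent.R017.PoD50
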