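import Crest.Agent.R017.ModeD4_405
import Crest.Agent.R017.PoD13_50

/-!
# Row 17, block C70, leaf E3: MODE*, second form: the instance for `S`-unit twists (helper405)

* `pohg_of` : `PoHG (GD χ v)` for `χ = conj (sy u ·)`
-/

set_option autoImplicit false

noncomputable section

open Complex MeasureTheory
open scoped ComplexConjugate

namespace Crest.Agent.R017.Mode405

open Crest.Agent.R012 Crest.Agent.R012.Eis Crest.Agent.R012.MC

/-- helper50's theorem in the form of `PoD` -/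
theorem pod_of {u : Eis} (hu : PoH347.SU u) {χ : Eis → ℂ}
    (hχ : ∀ x, IsPrim x → χ x = conj (sy u x)) {w : ℝ → ℝ} (hw : Wgt w) : PoD χ w := by
  intro R hR a A hA ε hε
  obtain ⟨C, c, J, hC, hc, h⟩ := PoD50.pod hu hχ hw hR a A hA ε hε
  refine ⟨C, c, J, hC, hc, ?_⟩
  intro Z N Δ X hZ hN hNZ hΔ hΔZ hX _ hXZ κ hκ hκZ hlen ι Q b Xq 𝒟 hXq hb hbW h𝒟 W hW hHW W1 hW1 t
  exact h Z N Δ X hZ hN hNZ hΔ hΔZ hX hXZ κ hκ hκZ hlen Q b Xq 𝒟 hXq hb hbW
    (fun q hq D hD => by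
      obtain ⟨a1, a2, a3, a4, -⟩ := h𝒟 q hq D hD
      exact ⟨a1, a2, a3, a4⟩) W hW hHW W1 hW1 t

/-- **the structured bound of the dilations** -/
theorem pohg_of {u : Eis} (hu : PoH347.SU u) {χ : Eis → ℂ}
    (hχ : ∀ x, IsPrim x → χ x = conj (sy u x)) {v : ℝ → ℝ} (hv : Wgt v) : PoHG (GD χ v) :=
  pohg_D hv fun _ hv₂ => pod_of hu hχ hv₂

theorem pohg_one {v : ℝ → ℝ} (hv : Wgt v) : PoHG (GD (fun _ => 1) v) :=
  pohg_of PoH347.SU_one (fun x hx => by
    have := Char766.sy_one_left hx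
    rw [this]; simp) hv

end Crest.Agent.R017.Mode405
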