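import Crest.Agent.R017.E3Hd_290
import Crest.Agent.R017.E3Sx4_579
import Crest.Agent.R017.E3Um_829
import Crest.Agent.R017.ModeD5_405

/-!
# Row 17, block C70, leaf E3 (S-sum) (helper290, after helper579): both forms, all characters

* `chi`, `CC` : the characters of the pairs, `BsA` : the sum of the canonical numbers
* `MB_A` : the Möbius bounds with `BsA`
* `S12_A` : both forms for `BsA`
* `RPH2_of` : the `R`-number with both forms, `L, M, I, W1` functions of `(d, e)`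
-/

set_option autoImplicit false
set_option linter.unusedVariables false

noncomputable section

open Finset
open scoped ComplexConjugate Classical ContDiff

namespace Crest.Agent.R017.E3He290

open Crest.Agent.R012 Crest.Agent.R012.Eis Crest.Agent.R012.MC
open Crest.Agent.R012.LS2 (S mem_S bl mem_bl)
open Crest.Agent.R012.Mob705 (pb mem_pb pdiv mem_pdiv)
open Crest.Agent.R017.CM106 (CS FS)
open Crest.Agent.R017.C70 (JC OKJ)
open Crest.Agent.R017.E3A164 (Yp Ys Cs mem_Cs)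
open Crest.Agent.R017.GrB829 (IsC)
open Crest.Agent.R017.PX764 (n6)
open Crest.Agent.R017.E3M829 (TC)
open Crest.Agent.R017.E3T829
open Crest.Agent.R017.E3T829.Cd (Pde)
open Crest.Agent.R017.E3T1579 (T3 WQ)
open Crest.Agent.R017.E3T2579 (wL w1L)
open Crest.Agent.R017.E3F548 (pc MPTr isC_ne)
open Crest.Agent.R017.Mode405
open Crest.Agent.R017.E3D579 (sy_mulR sy_conj_sq)
open Crest.Agent.R017.E3Su290 (MB)
open Crest.Agent.R017.E3Sw290 (TU MBU kZ)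
open Crest.Agent.R017.E3Sx579 (BsQt BsQt_nonneg MBU_Q S1h_Q S2h_Q RHR slp_mono)
open Crest.Agent.R017.E3Sy290
open Crest.Agent.R017.E3Z548
open Crest.Agent.R017.E3Sz579
open Crest.Agent.R017.E3Ha290 Crest.Agent.R017.E3Hb290 Crest.Agent.R017.E3Hc290

/-! ### the characters -/

theorem pohg_pc {c c' : Eis} (hc : IsC c) (hc' : IsC c') {w : ℝ → ℝ} (hw : Wgt w) :
    PoHG (GD (pc c c') (w6 w)) := by
  unfold E3F548.pc
  split_ifs with h
  · exact pohg_one (wgt_w6 hw)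
  · have hu := SU_ccc hc hc'
    refine pohg_of (u := 1 * (c * c' ^ 2) ^ 2) ?_ ?_ (wgt_w6 hw)
    · rw [one_mul, pow_two]; exact hu.mul hu
    · intro x hx
      have h1 := sy_conj_sq (s := c * c' ^ 2) (H := 1) hx
      rw [Char766.sy_one_left hx, map_one, mul_one] at h1
      exact h1

theorem pohg_pc' {c c' : Eis} (hc : IsC c) (hc' : IsC c') {w : ℝ → ℝ} (hw : Wgt w) :
    PoHG (GD (fun m => conj (pc c c' m)) (w6 w)) := by
  unfold E3F548.pc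
  split_ifs with h
  · simp only [map_one]
    exact pohg_one (wgt_w6 hw)
  · exact pohg_of (SU_ccc hc hc') (fun x _ => rfl) (wgt_w6 hw)

/-- the index set of the characters -/
def CC : Finset ((Eis × Eis) × Bool) := (Cs ×ˢ Cs) ×ˢ univ

/-- the characters -/
def chi (p : (Eis × Eis) × Bool) (m : Eis) : ℂ :=
  if p.2 then conj (pc p.1.1 p.1.2 m) else pc p.1.1 p.1.2 m

lemma mem_CC {c c' : Eis} (hc : IsC c) (hc' : IsC c') (b : Bool) : ((c, c'), b) ∈ CC := by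
  unfold CC
  simp only [mem_product, mem_Cs, mem_univ, and_true]
  exact ⟨hc, hc'⟩

lemma chi_all {p : (Eis × Eis) × Bool} (hp : p ∈ CC) {w : ℝ → ℝ} (hw : Wgt w) :
    Mul1 (chi p) ∧ PoHW OK3 nfo (chi p) (w6 w) ∧ PoHG (GD (chi p) (w6 w)) := by
  obtain ⟨⟨c, c'⟩, b⟩ := p
  unfold CC at hp
  simp only [mem_product, mem_Cs, mem_univ, and_true] at hp
  obtain ⟨hc, hc'⟩ := hp
  cases b
  · have e : chi ((c, c'), false) = pc c c' := by
      funext m; simp [chi]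
    rw [e]
    obtain ⟨h1, h2⟩ := poh_pc hc hc' hw
    exact ⟨h1, h2, pohg_pc hc hc' hw⟩
  · have e : chi ((c, c'), true) = fun m => conj (pc c c' m) := by
      funext m; simp [chi]
    rw [e]
    obtain ⟨h1, h2⟩ := poh_pc' hc hc' hw
    exact ⟨h1, h2, pohg_pc' hc hc' hw⟩

/-- **the structured number of a tuple, all characters** -/
def BsA (ε : ℝ) (w : ℝ → ℝ) (A' cs K V H : ℝ) (af : Eis → Eis → Eis → ℂ) (t : UT) : ℝ :=
  ∑ p ∈ CC, BsQt ε (chi p) w A' cs K V H af t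

lemma BsA_nonneg (ε : ℝ) (w : ℝ → ℝ) (A' cs K V H : ℝ) (af : Eis → Eis → Eis → ℂ) (t : UT) :
    0 ≤ BsA ε w A' cs K V H af t := sum_nonneg fun p _ => BsQt_nonneg _ _ _ _ _ _ _ _ _ _

lemma BsQt_le_BsA {p : (Eis × Eis) × Bool} (hp : p ∈ CC) (ε : ℝ) (w : ℝ → ℝ)
    (A' cs K V H : ℝ) (af : Eis → Eis → Eis → ℂ) (t : UT) :
    BsQt ε (chi p) w A' cs K V H af t ≤ BsA ε w A' cs K V H af t :=
  single_le_sum (f := fun p => BsQt ε (chi p) w A' cs K V H af t)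
    (fun q _ => BsQt_nonneg _ _ _ _ _ _ _ _ _ _) hp

/-- **the Möbius bounds** -/
theorem MB_A {w : ℝ → ℝ} (hw : Wgt w) (hw1 : ∀ x, w x ≠ 0 → x ≤ 1) {ε : ℝ} (hε : 0 < ε) :
    ∃ C : ℝ, 0 < C ∧ ∀ A' : ℝ, 2 ≤ A' → ∀ cs z Zm K V H : ℝ, 1 ≤ cs → 1 ≤ z → 1 ≤ Zm → 0 < K →
      0 < V → 0 < H → cs * V ≤ Zm → H * V ^ 2 / K ≤ Zm →
      ∀ (EE : Finset Eis) (af : Eis → Eis → Eis → ℂ) (t : UT), TU z EE t →
        1 ≤ cs * E3Sw290.YU V t → ∀ p ∈ CC,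
        MBU (chi p) w A' (3 * ε) C 1 cs K V H af (BsA ε w A' cs K V H af) Zm t := by
  have h1 : ∀ p : (Eis × Eis) × Bool, ∃ C : ℝ, 0 ≤ C ∧ (p ∈ CC → ∀ A' : ℝ, 2 ≤ A' →
      ∀ cs z Zm K V H : ℝ, 1 ≤ cs → 1 ≤ z → 1 ≤ Zm → 0 < K →
      0 < V → 0 < H → cs * V ≤ Zm → H * V ^ 2 / K ≤ Zm →
      ∀ (EE : Finset Eis) (af : Eis → Eis → Eis → ℂ) (t : UT), TU z EE t →
        1 ≤ cs * E3Sw290.YU V t →
        MBU (chi p) w A' (3 * ε) C 1 cs K V H af (BsQt ε (chi p) w A' cs K V H af) Zm t) := by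
    intro p
    by_cases hp : p ∈ CC
    · obtain ⟨C, hC, h⟩ := MBU_Q (chi_all hp hw).1 hw hw1 hε
      exact ⟨C, hC, fun _ => h⟩
    · exact ⟨0, le_rfl, fun h => absurd h hp⟩
  choose C hC h using h1
  refine ⟨1 + ∑ p ∈ CC, C p, by
    have := sum_nonneg fun p (_ : p ∈ CC) => hC p
    linarith, ?_⟩
  intro A' hA' cs z Zm K V H hcs hz hZm hK hV hH hVZ hHZ EE af t ht hY p hp
  have key := h p hp A' hA' cs z Zm K V H hcs hz hZm hK hV hH hVZ hHZ EE af t ht hY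
  have h2 : C p ≤ 1 + ∑ q ∈ CC, C q := by
    have := single_le_sum (f := C) (fun q _ => hC q) hp
    linarith
  refine MB_mono (by linarith) (hC p) h2 zero_le_one le_rfl (by linarith) ?_
    (BsQt_nonneg _ _ _ _ _ _ _ _ _ _) (BsQt_le_BsA hp _ _ _ _ _ _ _ _ _) key
  unfold E3Sw290.LtU E3Sw290.YU E3Sw290.ZU
  positivity

/-! ### sums of numbers -/

lemma S1h_sum {ι : Type*} {P : Finset ι} {z : ℝ} {R : Finset (Eis × Eis)} {L M : Eis → ℝ}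
    {W1 : ι → Eis → Eis → ℝ} {W : Eis → Eis → ℝ} {Bs : ι → UT → ℝ}
    (h : ∀ p ∈ P, S1h z R L M (W1 p) (Bs p)) (hM : ∀ d, 0 ≤ M d)
    (hW : ∀ d e, ∑ p ∈ P, W1 p d e ≤ W d e) : S1h z R L M W (fun t => ∑ p ∈ P, Bs p t) := by
  intro t ht hR
  have h1 : ∑ p ∈ P, Bs p t ≤ ∑ p ∈ P, if (nm (t.2.2.2.2.2.1 * t.2.2.2.2.2.2.1) : ℝ) ^ 2 *
      (nm (t.2.2.1 * t.2.2.2.2.1 * t.2.2.2.2.2.2.2) : ℝ) ^ 3 ≤ L t.1 then
      (1 + M t.1 * kU t) * W1 p t.1 t.2.1 else 0 := sum_le_sum fun p hp => h p hp t ht hR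
  refine h1.trans ?_
  have h2 : 0 ≤ 1 + M t.1 * kU t := by
    have := hM t.1
    have := kU_nonneg t
    positivity
  by_cases hc : (nm (t.2.2.2.2.2.1 * t.2.2.2.2.2.2.1) : ℝ) ^ 2 *
      (nm (t.2.2.1 * t.2.2.2.2.1 * t.2.2.2.2.2.2.2) : ℝ) ^ 3 ≤ L t.1
  · simp only [if_pos hc]
    rw [← mul_sum]
    exact mul_le_mul_of_nonneg_left (hW _ _) h2
  · simp only [if_neg hc]
    rw [sum_const_zero]

lemma S2h_sum {ι : Type*} {P : Finset ι} {z : ℝ} {R : Finset (Eis × Eis)} {L : Eis → ℝ}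
    {I : ℝ} {W1 : ι → Eis → Eis → ℝ} {W : Eis → Eis → ℝ} {Bs : ι → UT → ℝ}
    (h : ∀ p ∈ P, S2h z R L I (W1 p) (Bs p)) (hL : ∀ d, 0 ≤ L d) (hI : 0 ≤ I)
    (hW : ∀ d e, ∑ p ∈ P, W1 p d e ≤ W d e) : S2h z R L I W (fun t => ∑ p ∈ P, Bs p t) := by
  intro ρ hρ q hq k hk g hg F hF Δ hΔ Kp hKp
  rw [sum_comm]
  refine (sum_le_sum fun p hp => h p hp ρ hρ q hq k hk g hg F hF Δ hΔ Kp hKp).trans ?_
  rw [← mul_sum]
  refine mul_le_mul_of_nonneg_left (hW _ _) ?_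
  have := hL ρ.1
  unfold E3T829.F2
  positivity

/-- **both forms, all characters** -/
theorem S12_A {w : ℝ → ℝ} (hw : Wgt w) (hw1 : ∀ x, w x ≠ 0 → x ≤ 1) {R0 : ℝ} (hR0 : 0 ≤ R0)
    (a A : ℕ) (hA : 1 < A) {ε : ℝ} (hε : 0 < ε) {cs : ℝ} (hcs : 1 ≤ cs) :
    ∃ (C c : ℝ) (A₀ : ℕ), 0 ≤ C ∧ 1 ≤ c ∧ ∀ A' : ℝ, (A₀ : ℝ) ≤ A' →
      ∀ z Zm K V H X : ℝ, 1 ≤ z → 2 * z ^ 5 ≤ Zm → 0 < K → 0 < V → 0 < H → 0 < X →
      4 * (H * V ^ 2) * Real.exp (2 * R0 + 3) < K * X → 2 * (cs * V) ≤ Zm →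
      2 * z ^ 2 * (Real.exp R0 * X) ≤ Zm →
      ∀ (R : Finset (Eis × Eis)) (af : Eis → Eis → Eis → ℂ), (∀ ρ ∈ R, FS (af ρ.1 ρ.2)) →
      (∀ ρ ∈ R, ∀ n, af ρ.1 ρ.2 n ≠ 0 → Squarefree n) →
      (∀ ρ ∈ R, ∀ n, af ρ.1 ρ.2 n ≠ 0 → |Real.log (nm ρ.1 * nm n) - Real.log X| ≤ R0) →
      ∀ W0 : Eis → Eis → ℝ → ℝ, (∀ d e, Slp a (W0 d e)) → RHR (Zm ^ 4) A R af W0 →
      (∀ ρ ∈ R, ρ.1 ≠ 0) →
      S1h z R (fun d => H * V ^ 2 / (K * nm d))
        (fun d => cs * (H * V ^ 2 / (K * nm d)) * (X * V * H / K) ^ (-(1 / 2) : ℝ))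
        (fun d e => C * Zm ^ (2 * ε) * W0 d e (c * (X * V * H / K)))
        (BsA ε w A' cs K V H af) ∧
      S2h z R (fun d => H * V ^ 2 / (K * nm d)) (X * V * H / K)
        (fun d e => C * Zm ^ (2 * ε) * W0 d e (c * (X * V * H / K)))
        (BsA ε w A' cs K V H af) := by
  have h1 : ∀ p : (Eis × Eis) × Bool, ∃ (C c : ℝ) (A₀ : ℕ), 0 ≤ C ∧ 1 ≤ c ∧ (p ∈ CC →
      ∀ A' : ℝ, (A₀ : ℝ) ≤ A' →
      ∀ z Zm K V H X : ℝ, 1 ≤ z → z ^ 5 ≤ Zm → 0 < K → 0 < V → 0 < H → 0 < X →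
      H * V ^ 2 * Real.exp (2 * R0) < K * X → cs * V ≤ Zm → z ^ 2 * (Real.exp R0 * X) ≤ Zm →
      ∀ (R : Finset (Eis × Eis)) (af : Eis → Eis → Eis → ℂ), (∀ ρ ∈ R, FS (af ρ.1 ρ.2)) →
      (∀ ρ ∈ R, ∀ n, af ρ.1 ρ.2 n ≠ 0 → Squarefree n) →
      (∀ ρ ∈ R, ∀ n, af ρ.1 ρ.2 n ≠ 0 → |Real.log (nm ρ.1 * nm n) - Real.log X| ≤ R0) →
      ∀ W0 : Eis → Eis → ℝ → ℝ, (∀ d e, Slp a (W0 d e)) → RHR (Zm ^ 4) A R af W0 →
      (∀ ρ ∈ R, ρ.1 ≠ 0) →
      S1h z R (fun d => H * V ^ 2 / (K * nm d))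
        (fun d => cs * (H * V ^ 2 / (K * nm d)) * (X * V * H / K) ^ (-(1 / 2) : ℝ))
        (fun d e => C * Zm ^ (2 * ε) * W0 d e (c * (X * V * H / K)))
        (BsQt ε (chi p) w A' cs K V H af)) := by
    intro p
    by_cases hp : p ∈ CC
    · obtain ⟨C, c, A₀, hC, hc, h⟩ := S1h_Q (chi_all hp hw).1 (chi_all hp hw).2.1 hw1 hR0 a A hA
        hε hcs
      exact ⟨C, c, A₀, hC, hc, fun _ => h⟩
    · exact ⟨0, 1, 0, le_rfl, le_rfl, fun h => absurd h hp⟩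
  have h2 : ∀ p : (Eis × Eis) × Bool, ∃ (C c : ℝ) (A₀ : ℕ), 0 ≤ C ∧ 1 ≤ c ∧ (p ∈ CC →
      ∀ A' : ℝ, (A₀ : ℝ) ≤ A' →
      ∀ z Zm K V H X : ℝ, 1 ≤ z → 2 * z ^ 3 ≤ Zm → 0 < K → 0 < V → 0 < H → 0 < X →
      4 * (H * V ^ 2) * Real.exp (2 * R0 + 3) < K * X → 2 * (cs * V) ≤ Zm →
      2 * z * (Real.exp R0 * X) ≤ Zm →
      ∀ (R : Finset (Eis × Eis)) (af : Eis → Eis → Eis → ℂ), (∀ ρ ∈ R, FS (af ρ.1 ρ.2)) →
      (∀ ρ ∈ R, ∀ n, af ρ.1 ρ.2 n ≠ 0 → Squarefree n) →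
      (∀ ρ ∈ R, ∀ n, af ρ.1 ρ.2 n ≠ 0 → |Real.log (nm ρ.1 * nm n) - Real.log X| ≤ R0) →
      ∀ W0 : Eis → Eis → ℝ → ℝ, (∀ d e, Slp a (W0 d e)) → RHR (Zm ^ 4) A R af W0 →
      S2h z R (fun d => H * V ^ 2 / (K * nm d)) (X * V * H / K)
        (fun d e => C * Zm ^ (2 * ε) * W0 d e (c * (X * V * H / K)))
        (BsQt ε (chi p) w A' cs K V H af)) := by
    intro p
    by_cases hp : p ∈ CC
    · obtain ⟨C, c, A₀, hC, hc, h⟩ := S2h_Q (chi_all hp hw).1 (chi_all hp hw).2.2 hw1 hR0 a A hA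
        hε hcs
      exact ⟨C, c, A₀, hC, hc, fun _ => h⟩
    · exact ⟨0, 1, 0, le_rfl, le_rfl, fun h => absurd h hp⟩
  choose C c A₀ hC hc h using h1
  choose C' c' A₀' hC' hc' h' using h2
  have s0 : ∀ (f : (Eis × Eis) × Bool → ℝ), (∀ p, 0 ≤ f p) → ∀ p ∈ CC, f p ≤ ∑ q ∈ CC, f q :=
    fun f hf p hp => single_le_sum (fun q _ => hf q) hp
  have t1 : ∀ p ∈ CC, c p ≤ 1 + ∑ q ∈ CC, (c q + c' q) := fun p hp => by
    have := s0 (fun q => c q + c' q) (fun q => by linarith [hc q, hc' q]) p hp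
    linarith [hc' p]
  have t2 : ∀ p ∈ CC, c' p ≤ 1 + ∑ q ∈ CC, (c q + c' q) := fun p hp => by
    have := s0 (fun q => c q + c' q) (fun q => by linarith [hc q, hc' q]) p hp
    linarith [hc p]
  have t3 : ∀ p ∈ CC, A₀ p + A₀' p ≤ ∑ q ∈ CC, (A₀ q + A₀' q) := fun p hp =>
    single_le_sum (f := fun q => A₀ q + A₀' q) (fun q _ => Nat.zero_le _) hp
  have t4 : 0 ≤ ∑ q ∈ CC, (c q + c' q) := sum_nonneg fun q _ => by linarith [hc q, hc' q]
  have t5 : 0 ≤ ∑ q ∈ CC, (C q + C' q) := sum_nonneg fun q _ => by linarith [hC q, hC' q]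
  refine ⟨∑ q ∈ CC, (C q + C' q), 1 + ∑ q ∈ CC, (c q + c' q), ∑ q ∈ CC, (A₀ q + A₀' q), t5,
    by linarith, ?_⟩
  intro A' hA' z Zm K V H X hz hzZ hK hV hH hX hKX hVZ hXZ R af haf hsf hwin W0 hW0 hRH hR0'
  have hz5 : 0 ≤ z ^ 5 := by positivity
  have hZm : 0 ≤ Zm := by linarith
  have hI : 0 < X * V * H / K := by positivity
  have hex : Real.exp (2 * R0) ≤ Real.exp (2 * R0 + 3) := Real.exp_le_exp.mpr (by linarith)
  have hHV : 0 < H * V ^ 2 := by positivity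
  have hexp := Real.exp_pos (2 * R0 + 3)
  have hKX1 : H * V ^ 2 * Real.exp (2 * R0) < K * X := by
    have h1 : H * V ^ 2 * Real.exp (2 * R0) ≤ H * V ^ 2 * Real.exp (2 * R0 + 3) :=
      mul_le_mul_of_nonneg_left hex hHV.le
    have h2 : 0 < H * V ^ 2 * Real.exp (2 * R0 + 3) := by positivity
    linarith
  have hcs0 : 0 < cs := by linarith
  have hcV : 0 < cs * V := by positivity
  have heX : 0 < Real.exp R0 * X := by positivity
  have hz35 : z ^ 3 ≤ z ^ 5 := pow_le_pow_right₀ hz (by norm_num)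
  have hz12 : z ≤ z ^ 2 := by nlinarith
  have hX1 : z ^ 2 * (Real.exp R0 * X) ≤ Zm := by
    have : 0 ≤ z ^ 2 * (Real.exp R0 * X) := by positivity
    linarith
  have hX2 : 2 * z * (Real.exp R0 * X) ≤ Zm := by
    refine le_trans ?_ hXZ
    exact mul_le_mul_of_nonneg_right (by linarith) heX.le
  have hmon : ∀ d e, ∀ x y : ℝ, 1 ≤ x → x ≤ y → W0 d e (x * (X * V * H / K)) ≤
      W0 d e (y * (X * V * H / K)) := fun d e x y hx hxy =>
    slp_mono (hW0 d e) (mul_pos (by linarith) hI) (mul_le_mul_of_nonneg_right hxy hI.le)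
  have hW0n : ∀ d e, ∀ x : ℝ, 1 ≤ x → 0 ≤ W0 d e (x * (X * V * H / K)) := fun d e x hx =>
    (hW0 d e).nonneg _ (mul_pos (by linarith) hI)
  have hM : ∀ d : Eis, 0 ≤ cs * (H * V ^ 2 / (K * nm d)) * (X * V * H / K) ^ (-(1 / 2) : ℝ) :=
    fun d => by positivity
  constructor
  · refine S1h_sum (P := CC) (Bs := fun p => BsQt ε (chi p) w A' cs K V H af)
      (W1 := fun p d e => C p * Zm ^ (2 * ε) * W0 d e (c p * (X * V * H / K)))
      (fun p hp => h p hp A' ?_ z Zm K V H X hz (by linarith) hK hV hH hX hKX1 (by linarith) hX1 R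
        af haf hsf hwin W0 hW0 hRH hR0') hM ?_
    · have h5 : A₀ p ≤ ∑ q ∈ CC, (A₀ q + A₀' q) := by have := t3 p hp; omega
      exact le_trans (by exact_mod_cast h5) hA'
    · intro d e
      calc ∑ p ∈ CC, C p * Zm ^ (2 * ε) * W0 d e (c p * (X * V * H / K))
          ≤ ∑ p ∈ CC, (C p + C' p) * Zm ^ (2 * ε) *
            W0 d e ((1 + ∑ q ∈ CC, (c q + c' q)) * (X * V * H / K)) := by
            refine sum_le_sum fun p hp => ?_
            have k1 := hmon d e (c p) _ (hc p) (t1 p hp)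
            have k2 := hW0n d e (c p) (hc p)
            have k3 := hC p
            have k4 := hC' p
            refine mul_le_mul ?_ k1 k2 (by positivity)
            exact mul_le_mul_of_nonneg_right (by linarith) (by positivity)
        _ = _ := by rw [← sum_mul, ← sum_mul]
  · refine S2h_sum (P := CC) (Bs := fun p => BsQt ε (chi p) w A' cs K V H af)
      (W1 := fun p d e => C' p * Zm ^ (2 * ε) * W0 d e (c' p * (X * V * H / K)))
      (fun p hp => h' p hp A' ?_ z Zm K V H X hz (by linarith) hK hV hH hX hKX hVZ hX2 R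
        af haf hsf hwin W0 hW0 hRH) (fun d => by positivity) hI.le ?_
    · have h5 : A₀' p ≤ ∑ q ∈ CC, (A₀ q + A₀' q) := by have := t3 p hp; omega
      exact le_trans (by exact_mod_cast h5) hA'
    · intro d e
      calc ∑ p ∈ CC, C' p * Zm ^ (2 * ε) * W0 d e (c' p * (X * V * H / K))
          ≤ ∑ p ∈ CC, (C p + C' p) * Zm ^ (2 * ε) *
            W0 d e ((1 + ∑ q ∈ CC, (c q + c' q)) * (X * V * H / K)) := by
            refine sum_le_sum fun p hp => ?_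
            have k1 := hmon d e (c' p) _ (hc' p) (t2 p hp)
            have k2 := hW0n d e (c' p) (hc' p)
            have k3 := hC p
            have k4 := hC' p
            refine mul_le_mul ?_ k1 k2 (by positivity)
            exact mul_le_mul_of_nonneg_right (by linarith) (by positivity)
        _ = _ := by rw [← sum_mul, ← sum_mul]

/-! ### the `R`-number, both forms -/

/-- the tuples above one `(d, e)` -/
def Us1 (d e : Eis) (z : ℝ) : Finset UT :=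
  ({d} : Finset Eis) ×ˢ ({e} : Finset Eis) ×ˢ S z ×ˢ Cs ×ˢ S z ×ˢ S z ×ˢ S z ×ˢ S z

lemma RUs_split2 (J : Finset (Eis × Eis)) (EE : Finset Eis) (z : ℝ) (f : UT → ℝ) :
    ∑ u ∈ RUs J EE z, f u = ∑ d ∈ J.image Prod.fst, ∑ e ∈ EE, ∑ u ∈ Us1 d e z, f u := by
  unfold RUs Us1
  rw [sum_product]
  refine sum_congr rfl fun d _ => ?_
  rw [sum_product]
  refine sum_congr rfl fun e _ => ?_
  symm
  rw [sum_product, sum_singleton, sum_product, sum_singleton]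

/-- **the `R`-number, both forms** -/
theorem RPH2_of {ε : ℝ} (hε : 0 < ε) : ∃ C : ℝ, 0 ≤ C ∧ ∀ z : ℝ, 1 ≤ z →
    ∀ (J : Finset (Eis × Eis)) (EE : Finset Eis) (K V : ℝ) (H L M I W1 : Eis → Eis → ℝ)
      (Bs : UT → ℝ), 0 ≤ K → (∀ d e, 0 ≤ H d e) → 0 ≤ V →
      (∀ d e, 0 ≤ W1 d e) → (∀ d e, 0 ≤ L d e) → (∀ d e, 0 ≤ M d e) → (∀ d e, 0 < I d e) →
      (∀ t, 0 ≤ Bs t) →
      (∀ d ∈ J.image Prod.fst, ∀ e ∈ EE,
        S1h (z ^ 3) {(d, e)} (fun _ => L d e) (fun _ => M d e) W1 Bs ∧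
        S2h (z ^ 3) {(d, e)} (fun _ => L d e) (I d e) W1 Bs) →
      RPH J EE z K H V Bs (C * z ^ ε) (fun d e => (nm d : ℝ) ^ (2 / 3 : ℝ) * nm e *
        ((if 1 ≤ L d e then G2 (L d e) (M d e) (I d e) else 0) * W1 d e)) := by
  obtain ⟨C, hC, h⟩ := Rsum2 hε
  refine ⟨3 * C, by positivity, ?_⟩
  intro z hz J EE K V H L M I W1 Bs hK hH hV hW hL hM hI hB hS b hb
  have hz0 : 0 < z := by linarith
  have hhE := hE_nonneg EE
  have hP : ∀ d e, 0 ≤ PRHd b K H V EE d e := PRHd_nonneg hb hK hH hV EE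
  have hmem : ∀ d e : Eis, ∀ u ∈ Us1 d e z, SU z u ∧ IsC u.2.2.2.1 ∧ u.1 = d ∧ u.2.1 = e := by
    intro d e u hu
    unfold Us1 at hu
    simp only [mem_product, mem_Cs, mem_singleton] at hu
    obtain ⟨h1, h2, h3, h4, h5, h6, h7, h8⟩ := hu
    exact ⟨⟨h3, h5, h6, h7, h8⟩, h4, h1, h2⟩
  have himg : ∀ d e : Eis, (Us1 d e z).image (fun u => (u.1, u.2.1)) ⊆ {(d, e)} := by
    intro d e ρ hρ
    obtain ⟨u, hu, rfl⟩ := mem_image.mp hρ
    obtain ⟨-, -, h1, h2⟩ := hmem d e u hu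
    rw [mem_singleton, h1, h2]
  have hG : ∀ d e : Eis, 0 ≤ (if 1 ≤ L d e then G2 (L d e) (M d e) (I d e) else 0) := by
    intro d e
    split_ifs
    · exact G2_nonneg (hL _ _) (hM _ _) (hI _ _).le
    · exact le_rfl
  have key : ∀ d ∈ J.image Prod.fst, ∀ e ∈ EE,
      ∑ u ∈ Us1 d e z, PRHd b K H V EE u.1 u.2.1 * Rdil Bs u ≤
      C * z ^ ε * (PRHd b K H V EE d e *
        ((if 1 ≤ L d e then G2 (L d e) (M d e) (I d e) else 0) * W1 d e)) := by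
    intro d hd e he
    obtain ⟨s1, s2⟩ := hS d hd e he
    have k := h z hz (Us1 d e z) (PRHd b K H V EE) W1 (fun _ => L d e) (fun _ => M d e) (I d e) Bs
      hP hW (fun _ => hL d e) (fun _ => hM d e) (hI d e) hB (fun u hu => (hmem d e u hu).1)
      (fun u hu => (hmem d e u hu).2.1) (fun t ht hR => s1 t ht (himg d e hR))
      (fun ρ hρ => s2 ρ (himg d e hρ))
    refine k.trans (mul_le_mul_of_nonneg_left ?_ (by positivity))
    refine (sum_le_sum_of_subset_of_nonneg (himg d e) fun ρ _ _ => mul_nonneg (hP _ _)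
      (mul_nonneg (hG d e) (hW _ _))).trans (le_of_eq ?_)
    rw [sum_singleton]
  rw [RUs_split2]
  refine (sum_le_sum fun d hd => sum_le_sum fun e he => key d hd e he).trans (le_of_eq ?_)
  rw [mul_sum, mul_sum]
  refine sum_congr rfl fun d _ => ?_
  rw [mul_sum, mul_sum]
  refine sum_congr rfl fun e _ => ?_
  unfold PRHd PRZ Pde QH FH
  ring

end Crest.Agent.R017.E3He290
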