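import Crest.Agent.R017.Rsumx_72

/-!
# Row 17, E3 with principal frequencies, the second form without a split of the structured number
(helper72)

* `S1hx`, `S2hx` : the two forms for a structured number with principal frequencies
* `B1` : the excess over the principal part; `S1h_B1`, `S2h_B1`
* `R_PZx3` : the sum of the R-parts
-/

set_option autoImplicit false
set_option linter.unusedVariables false

noncomputable section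

open Finset
open scoped Classical ComplexConjugate

namespace Crest.Agent.R017.Rsx72

open Crest.Agent.R012 Crest.Agent.R012.Eis
open Crest.Agent.R012.LS2 (S mem_S bl mem_bl)
open Crest.Agent.R012.Mob705 (pdiv mem_pdiv)
open Crest.Agent.R017.GrB829 (IsC)
open Crest.Agent.R017.E3T829 (UT SU kU kU_nonneg hE hE_nonneg S1h S2h F2 G2 G2_nonneg RR RUs Cd)
open Crest.Agent.R017.E3Z548 (Rdil PRZ FH RNn)

/-- the principal part of the structured number at a tuple -/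
def prT (L Mx : Eis → ℝ) (Wx : Eis → Eis → ℝ) (t : UT) : ℝ :=
  if Cnd L t then Mx t.1 * kU t * Wx t.1 t.2.1 else 0

lemma prT_nonneg {L Mx : Eis → ℝ} {Wx : Eis → Eis → ℝ} (hM : ∀ d, 0 ≤ Mx d)
    (hW : ∀ d e, 0 ≤ Wx d e) (t : UT) : 0 ≤ prT L Mx Wx t := by
  have h1 := hM t.1
  have h2 := hW t.1 t.2.1
  have h3 := kU_nonneg t
  unfold prT
  split_ifs
  · positivity
  · exact le_rfl

/-- the first form, two classes -/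
def S1hx (Z : ℝ) (R : Finset (Eis × Eis)) (L M Mx : Eis → ℝ) (W1 Wx : Eis → Eis → ℝ)
    (Bs : UT → ℝ) : Prop :=
  ∀ t, SU Z t → (t.1, t.2.1) ∈ R →
    Bs t ≤ if Cnd L t then (1 + M t.1 * kU t) * W1 t.1 t.2.1 + Mx t.1 * kU t * Wx t.1 t.2.1 else 0

/-- the second form, two classes -/
def S2hx (Z : ℝ) (R : Finset (Eis × Eis)) (L Mx : Eis → ℝ) (I : ℝ) (W1 Wx : Eis → Eis → ℝ)
    (Bs : UT → ℝ) : Prop :=
  ∀ ρ ∈ R, ∀ q ∈ S Z, ∀ c, IsC c → ∀ g ∈ S Z, ∀ F ∈ S Z, ∀ Δ : ℝ, 1 ≤ Δ → ∀ Kp : Finset Eis,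
    (∀ κ ∈ Kp, κ ∈ S Z ∧ Δ / 2 ≤ nm κ ∧ (nm κ : ℝ) ≤ Δ) →
    ∑ κ ∈ Kp, Bs (ρ.1, ρ.2, q, c, g, κ, 1, F) ≤
      F2 (L ρ.1 / (Δ ^ 2 * (nm (q * g * F) : ℝ) ^ 3)) Δ (I / nm (q ^ 2 * g * F ^ 2)) * W1 ρ.1 ρ.2 +
        ∑ κ ∈ Kp, prT L Mx Wx (ρ.1, ρ.2, q, c, g, κ, 1, F)

/-- the excess over the principal part -/
def B1 (L Mx : Eis → ℝ) (Wx : Eis → Eis → ℝ) (Bs : UT → ℝ) (t : UT) : ℝ :=
  max 0 (Bs t - prT L Mx Wx t)

lemma B1_nonneg (L Mx : Eis → ℝ) (Wx : Eis → Eis → ℝ) (Bs : UT → ℝ) (t : UT) :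
    0 ≤ B1 L Mx Wx Bs t := le_max_left _ _

lemma le_B1 (L Mx : Eis → ℝ) (Wx : Eis → Eis → ℝ) (Bs : UT → ℝ) (t : UT) :
    Bs t ≤ B1 L Mx Wx Bs t + prT L Mx Wx t := by
  have := le_max_right 0 (Bs t - prT L Mx Wx t)
  unfold B1
  linarith

/-- **the first form of the excess** -/
theorem S1h_B1 {Z : ℝ} {R : Finset (Eis × Eis)} {L M Mx : Eis → ℝ} {W1 Wx : Eis → Eis → ℝ}
    {Bs : UT → ℝ} (hM : ∀ d, 0 ≤ M d) (hW : ∀ d e, 0 ≤ W1 d e)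
    (h : S1hx Z R L M Mx W1 Wx Bs) : S1h Z R L M W1 (B1 L Mx Wx Bs) := by
  intro t ht hR
  have h1 := h t ht hR
  have h2 := hM t.1
  have h3 := hW t.1 t.2.1
  have h4 := kU_nonneg t
  unfold B1 prT
  by_cases hc : Cnd L t
  · have hc' : (nm (t.2.2.2.2.2.1 * t.2.2.2.2.2.2.1) : ℝ) ^ 2 *
      (nm (t.2.2.1 * t.2.2.2.2.1 * t.2.2.2.2.2.2.2) : ℝ) ^ 3 ≤ L t.1 := hc
    rw [if_pos hc] at h1 ⊢
    rw [if_pos hc']
    refine max_le (by positivity) ?_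
    linarith
  · have hc' : ¬ (nm (t.2.2.2.2.2.1 * t.2.2.2.2.2.2.1) : ℝ) ^ 2 *
      (nm (t.2.2.1 * t.2.2.2.2.1 * t.2.2.2.2.2.2.2) : ℝ) ^ 3 ≤ L t.1 := hc
    rw [if_neg hc] at h1 ⊢
    rw [if_neg hc', sub_zero]
    exact max_le le_rfl h1

/-- **the second form of the excess** -/
theorem S2h_B1 {Z : ℝ} {R : Finset (Eis × Eis)} {L Mx : Eis → ℝ} {I : ℝ} {W1 Wx : Eis → Eis → ℝ}
    {Bs : UT → ℝ} (h : S2hx Z R L Mx I W1 Wx Bs) : S2h Z R L I W1 (B1 L Mx Wx Bs) := by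
  intro ρ hρ q hq c hc g hg F hF Δ hΔ Kp hK
  set Kp' := Kp.filter fun κ => prT L Mx Wx (ρ.1, ρ.2, q, c, g, κ, 1, F) ≤
    Bs (ρ.1, ρ.2, q, c, g, κ, 1, F) with hKp'
  have h1 := h ρ hρ q hq c hc g hg F hF Δ hΔ Kp' fun κ hκ => hK κ (mem_filter.mp hκ).1
  have e1 : ∑ κ ∈ Kp, B1 L Mx Wx Bs (ρ.1, ρ.2, q, c, g, κ, 1, F) =
      ∑ κ ∈ Kp', (Bs (ρ.1, ρ.2, q, c, g, κ, 1, F) -
        prT L Mx Wx (ρ.1, ρ.2, q, c, g, κ, 1, F)) := by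
    rw [hKp', sum_filter]
    refine sum_congr rfl fun κ _ => ?_
    unfold B1
    split_ifs with h2
    · exact max_eq_right (by linarith)
    · exact max_eq_left (by linarith)
  rw [e1, sum_sub_distrib]
  linarith

/-- **the `R`-part in classes, from the two forms** -/
theorem R_PZx3 {ε : ℝ} (hε : 0 < ε) : ∃ C : ℝ, 0 ≤ C ∧ ∀ Z : ℝ, 1 ≤ Z →
    ∀ (J : Finset (Eis × Eis)) (EE : Finset Eis) (c K H V : ℝ) (W1 Wx : Eis → Eis → ℝ)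
      (L M Mx : Eis → ℝ) (I : ℝ) (Bs : UT → ℝ), 0 ≤ c → 0 ≤ K → 0 ≤ H → 0 ≤ V →
      (∀ d e, 0 ≤ W1 d e) → (∀ d e, 0 ≤ Wx d e) → (∀ d, 0 ≤ L d) → (∀ d, 0 ≤ M d) →
      (∀ d, 0 ≤ Mx d) → 0 < I →
      S1hx (Z ^ 3) ((RUs J EE Z).image fun u => (u.1, u.2.1)) L M Mx W1 Wx Bs →
      S2hx (Z ^ 3) ((RUs J EE Z).image fun u => (u.1, u.2.1)) L Mx I W1 Wx Bs →
      ∑ u ∈ RUs J EE Z, PRZ c K H V EE u.1 u.2.1 * Rdil Bs u ≤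
        C * Z ^ ε * (c * hE EE * FH K H V * (RN2 L M I W1 (J.image Prod.fst) EE +
          RNp L Mx Wx (J.image Prod.fst) EE)) := by
  obtain ⟨C, hC, h⟩ := R_PZx2 hε
  refine ⟨C, hC, ?_⟩
  intro Z hZ J EE c K H V W1 Wx L M Mx I Bs hc hK hH hV hW1 hWx hL hM hMx hI hS1 hS2
  exact h Z hZ J EE c K H V W1 Wx L M Mx I Bs (B1 L Mx Wx Bs) hc hK hH hV hW1 hWx hL hM hMx hI
    (B1_nonneg L Mx Wx Bs) (S1h_B1 hM hW1 hS1) (S2h_B1 hS2) fun t _ _ => le_B1 L Mx Wx Bs t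

end Crest.Agent.R017.Rsx72
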