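import Crest.Agent.R017.E3He_290
import Crest.Agent.R017.RsxC_72

/-!
# Row 17, T.7 (class E), leaf E3 (S-sum) (helper290, after helper72): the `R`-number in classes,
`H, L, M, ...` functions of `(d, e)`

* `RPH_pt` : the `R`-number from the sums over the tuples above one `(d, e)`
* `RPHx_of` : first form in classes
* `RPHx2_of` : both forms in classes
-/

set_option autoImplicit false
set_option linter.unusedVariables false

noncomputable section

open Finset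
open scoped ComplexConjugate Classical ContDiff

namespace Crest.Agent.R017.E3Hg290

open Crest.Agent.R012 Crest.Agent.R012.Eis Crest.Agent.R012.MC
open Crest.Agent.R012.LS2 (S mem_S bl mem_bl)
open Crest.Agent.R012.Mob705 (pb mem_pb pdiv mem_pdiv)
open Crest.Agent.R017.E3A164 (Yp Ys Cs mem_Cs)
open Crest.Agent.R017.GrB829 (IsC)
open Crest.Agent.R017.E3T829
open Crest.Agent.R017.E3T829.Cd (Pde)
open Crest.Agent.R017.E3Z548
open Crest.Agent.R017.E3Hb290 Crest.Agent.R017.E3Hc290 Crest.Agent.R017.E3He290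
open Crest.Agent.R017.Rsx72 (Cnd SD Rsumx Rsumx2 S1hx S2hx B1 B1_nonneg S1h_B1 S2h_B1 le_B1 prT)

lemma mem_Us1 {d e : Eis} {z : ℝ} {u : UT} (hu : u ∈ Us1 d e z) :
    SU z u ∧ IsC u.2.2.2.1 ∧ u.1 = d ∧ u.2.1 = e := by
  unfold E3He290.Us1 at hu
  simp only [mem_product, mem_Cs, mem_singleton] at hu
  obtain ⟨h1, h2, h3, h4, h5, h6, h7, h8⟩ := hu
  exact ⟨⟨h3, h5, h6, h7, h8⟩, h4, h1, h2⟩

lemma img_Us1 (d e : Eis) (z : ℝ) : (Us1 d e z).image (fun u => (u.1, u.2.1)) ⊆ {(d, e)} := by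
  intro ρ hρ
  obtain ⟨u, hu, rfl⟩ := mem_image.mp hρ
  obtain ⟨-, -, h1, h2⟩ := mem_Us1 hu
  rw [mem_singleton, h1, h2]

/-- **the `R`-number from the sums above one `(d, e)`** -/
lemma RPH_pt {J : Finset (Eis × Eis)} {EE : Finset Eis} {z K V : ℝ} {H N : Eis → Eis → ℝ}
    {Bs : UT → ℝ} {r : ℝ}
    (h : ∀ b : ℝ, 0 ≤ b → ∀ d ∈ J.image Prod.fst, ∀ e ∈ EE,
      ∑ u ∈ Us1 d e z, PRHd b K H V EE u.1 u.2.1 * Rdil Bs u ≤
        r * (PRHd b K H V EE d e * N d e)) :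
    RPH J EE z K H V Bs (3 * r) (fun d e => (nm d : ℝ) ^ (2 / 3 : ℝ) * nm e * N d e) := by
  intro b hb
  rw [RUs_split2]
  refine (sum_le_sum fun d hd => sum_le_sum fun e he => h b hb d hd e he).trans (le_of_eq ?_)
  rw [mul_sum, mul_sum]
  refine sum_congr rfl fun d _ => ?_
  rw [mul_sum, mul_sum]
  refine sum_congr rfl fun e _ => ?_
  unfold PRHd PRZ Pde QH FH
  ring

/-- **the `R`-number in classes, first form** -/
theorem RPHx_of {ε : ℝ} (hε : 0 < ε) : ∃ C : ℝ, 0 ≤ C ∧ ∀ z : ℝ, 1 ≤ z →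
    ∀ (J : Finset (Eis × Eis)) (EE : Finset Eis) (K V : ℝ) (H L M Mx W1 Wx : Eis → Eis → ℝ)
      (Bs : UT → ℝ), 0 ≤ K → (∀ d e, 0 ≤ H d e) → 0 ≤ V →
      (∀ d e, 0 ≤ W1 d e) → (∀ d e, 0 ≤ Wx d e) → (∀ d e, 0 ≤ L d e) → (∀ d e, 0 ≤ M d e) →
      (∀ d e, 0 ≤ Mx d e) →
      (∀ t, SU (z ^ 3) t → t.1 ∈ J.image Prod.fst → t.2.1 ∈ EE →
        Bs t ≤ if Cnd (fun _ => L t.1 t.2.1) t then
          (1 + M t.1 t.2.1 * kU t) * W1 t.1 t.2.1 + Mx t.1 t.2.1 * kU t * Wx t.1 t.2.1 else 0) →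
      RPH J EE z K H V Bs (C * z ^ ε) (fun d e => (nm d : ℝ) ^ (2 / 3 : ℝ) * nm e *
        ((if 1 ≤ L d e then Real.sqrt (L d e) + M d e else 0) * W1 d e +
          (if 1 ≤ L d e then Mx d e else 0) * Wx d e)) := by
  obtain ⟨C, hC, h⟩ := Rsumx hε
  refine ⟨3 * C, by positivity, ?_⟩
  intro z hz J EE K V H L M Mx W1 Wx Bs hK hH hV hW hWx hL hM hMx hBs
  have hz0 : 0 < z := by linarith
  have hG : ∀ d e : Eis, 0 ≤ (if 1 ≤ L d e then Real.sqrt (L d e) + M d e else 0) * W1 d e +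
      (if 1 ≤ L d e then Mx d e else 0) * Wx d e := by
    intro d e
    have h1 := hM d e
    have h2 := hMx d e
    have h3 := hW d e
    have h4 := hWx d e
    split_ifs <;> positivity
  rw [mul_assoc]
  refine RPH_pt (N := fun d e => (if 1 ≤ L d e then Real.sqrt (L d e) + M d e else 0) * W1 d e +
    (if 1 ≤ L d e then Mx d e else 0) * Wx d e) ?_
  intro b hb d hd e he
  have hP : ∀ d e, 0 ≤ PRHd b K H V EE d e := PRHd_nonneg hb hK hH hV EE
  have k := h z hz (Us1 d e z) (PRHd b K H V EE) W1 Wx (fun _ => L d e) (fun _ => M d e)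
    (fun _ => Mx d e) Bs hP hW hWx (fun _ => hL d e) (fun _ => hM d e) (fun _ => hMx d e)
    (fun u hu => (mem_Us1 hu).1) (fun u hu => (mem_Us1 hu).2.1) (by
      rintro t ht ⟨u, hu, h1, h2⟩
      obtain ⟨-, -, h3, h4⟩ := mem_Us1 hu
      have r1 : t.1 = d := h1.trans h3
      have r2 : t.2.1 = e := h2.trans h4
      have k2 := hBs t ht (by rw [r1]; exact hd) (by rw [r2]; exact he)
      rw [r1, r2] at k2
      rw [r1, r2]
      exact k2)
  refine k.trans (mul_le_mul_of_nonneg_left ?_ (by positivity))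
  refine (sum_le_sum_of_subset_of_nonneg (img_Us1 d e z) fun ρ hρ _ => ?_).trans (le_of_eq ?_)
  · rw [mem_singleton] at hρ
    subst hρ
    exact mul_nonneg (hP _ _) (hG d e)
  · rw [sum_singleton]

/-- **the `R`-number in classes, both forms** -/
theorem RPHx2_of {ε : ℝ} (hε : 0 < ε) : ∃ C : ℝ, 0 ≤ C ∧ ∀ z : ℝ, 1 ≤ z →
    ∀ (J : Finset (Eis × Eis)) (EE : Finset Eis) (K V : ℝ) (H L M Mx I W1 Wx : Eis → Eis → ℝ)
      (Bs : UT → ℝ), 0 ≤ K → (∀ d e, 0 ≤ H d e) → 0 ≤ V →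
      (∀ d e, 0 ≤ W1 d e) → (∀ d e, 0 ≤ Wx d e) → (∀ d e, 0 ≤ L d e) → (∀ d e, 0 ≤ M d e) →
      (∀ d e, 0 ≤ Mx d e) → (∀ d e, 0 < I d e) →
      (∀ d ∈ J.image Prod.fst, ∀ e ∈ EE,
        S1hx (z ^ 3) {(d, e)} (fun _ => L d e) (fun _ => M d e) (fun _ => Mx d e) W1 Wx Bs ∧
        S2hx (z ^ 3) {(d, e)} (fun _ => L d e) (fun _ => Mx d e) (I d e) W1 Wx Bs) →
      RPH J EE z K H V Bs (C * z ^ ε) (fun d e => (nm d : ℝ) ^ (2 / 3 : ℝ) * nm e *
        ((if 1 ≤ L d e then G2 (L d e) (M d e) (I d e) else 0) * W1 d e +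
          (if 1 ≤ L d e then Mx d e else 0) * Wx d e)) := by
  obtain ⟨C, hC, h⟩ := Rsumx2 hε
  refine ⟨3 * C, by positivity, ?_⟩
  intro z hz J EE K V H L M Mx I W1 Wx Bs hK hH hV hW hWx hL hM hMx hI hS
  have hz0 : 0 < z := by linarith
  have hG : ∀ d e : Eis, 0 ≤ (if 1 ≤ L d e then G2 (L d e) (M d e) (I d e) else 0) * W1 d e +
      (if 1 ≤ L d e then Mx d e else 0) * Wx d e := by
    intro d e
    have h1 := hM d e
    have h2 := hMx d e
    have h3 := hW d e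
    have h4 := hWx d e
    have h5 := G2_nonneg (hL d e) h1 (hI d e).le
    split_ifs <;> positivity
  rw [mul_assoc]
  refine RPH_pt (N := fun d e => (if 1 ≤ L d e then G2 (L d e) (M d e) (I d e) else 0) * W1 d e +
    (if 1 ≤ L d e then Mx d e else 0) * Wx d e) ?_
  intro b hb d hd e he
  obtain ⟨s1, s2⟩ := hS d hd e he
  have hP : ∀ d e, 0 ≤ PRHd b K H V EE d e := PRHd_nonneg hb hK hH hV EE
  have s1' : S1hx (z ^ 3) ((Us1 d e z).image fun u => (u.1, u.2.1)) (fun _ => L d e)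
      (fun _ => M d e) (fun _ => Mx d e) W1 Wx Bs := fun t ht hR => s1 t ht (img_Us1 d e z hR)
  have s2' : S2hx (z ^ 3) ((Us1 d e z).image fun u => (u.1, u.2.1)) (fun _ => L d e)
      (fun _ => Mx d e) (I d e) W1 Wx Bs := fun ρ hρ => s2 ρ (img_Us1 d e z hρ)
  have k := h z hz (Us1 d e z) (PRHd b K H V EE) W1 Wx (fun _ => L d e) (fun _ => M d e)
    (fun _ => Mx d e) (I d e) Bs (B1 (fun _ => L d e) (fun _ => Mx d e) Wx Bs) hP hW hWx
    (fun _ => hL d e) (fun _ => hM d e) (fun _ => hMx d e) (hI d e) (B1_nonneg _ _ _ _)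
    (fun u hu => (mem_Us1 hu).1) (fun u hu => (mem_Us1 hu).2.1)
    (S1h_B1 (fun _ => hM d e) hW s1') (S2h_B1 s2') (fun t _ _ => le_B1 _ _ _ _ t)
  refine k.trans (mul_le_mul_of_nonneg_left ?_ (by positivity))
  refine (sum_le_sum_of_subset_of_nonneg (img_Us1 d e z) fun ρ hρ _ => ?_).trans (le_of_eq ?_)
  · rw [mem_singleton] at hρ
    subst hρ
    exact mul_nonneg (hP _ _) (hG d e)
  · rw [sum_singleton]

end Crest.Agent.R017.E3Hg290
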