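import Crest.Agent.R017.E3Zb_548

/-!
# Row 17, R8 (E3), the final form (helper548): one pair of levels

* `Std` : the data of one side (helper290's lines)
* `LVn` : the number of one side at a pair of levels
* `SFB_le` : helper829's total of one side by `LVn`
* `pair_Z` : `Σ_{q,t} MPTr` at a pair of levels from the bounds of the cells
-/

set_option autoImplicit false
set_option linter.unusedVariables false

noncomputable section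

open Finset
open scoped Classical ComplexConjugate ContDiff

namespace Crest.Agent.R017.E3Z548

open Crest.Agent.R012 Crest.Agent.R012.Eis Crest.Agent.R012.Div277
open Crest.Agent.R012.LS2 (S mem_S)
open Crest.Agent.R012.Mob705 (pb mem_pb pdiv mem_pdiv)
open Crest.Agent.R017.C70 (JC OKJ)
open Crest.Agent.R017.CM106 (CS FS)
open Crest.Agent.R017.E3D579 (TE0)
open Crest.Agent.R017.E1551 (nmpos)
open Crest.Agent.R017.GrB829 (IsC)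
open Crest.Agent.R017.E3A164 (Yp Ys fq Cs mem_Cs)
open Crest.Agent.R017.E3M829 (TC)
open Crest.Agent.R017.E3F548 (SR_prim mem_Ys' Pg Jat Tat MPTr)
open Crest.Agent.R017.E3T1579 (T3 WQ)
open Crest.Agent.R017.E3T2579 (wL w1L)
open Crest.Agent.R017.E3T829 (UT SU kU hE hE_nonneg cg TMd SF CellF SFB Cd TQ ju jj RR RUs OU Mud
  OI IX cdI OI_OK sE1 sE2 MPT_level ext_OI Z_le5)
open Crest.Agent.R017.E3T829.Cd (Pde)

/-- the weights of `γ` -/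
def OMs : Fin 5 → Eis → ℝ :=
  ![fun _ => 1, fun _ => 1, fun _ => 1, fun γ => (nm γ : ℝ)⁻¹, fun γ => (nm γ : ℝ) ^ (-(1 / 2) : ℝ)]

/-- the sets of `γ` -/
def GSs (Y : ℝ) : Fin 5 → Finset Eis := ![{1}, {1}, {1}, primBall ⌊Y⌋₊, primBall ⌊Y⌋₊]

/-- the sets of the frequencies -/
def ASs (c V : ℝ) : Fin 5 → Eis → Eis → Finset Eis := ![JVc c V, JVc c V, JVc c V, JV c V, JV c V]

/-- the modules -/
def DLs : Fin 5 → Eis → Eis := ![id, id, id, fun _ => 1, fun _ => 1]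

/-- the extra factors -/
def EXs (K V V' H X : ℝ) : Fin 5 → Cd → ℝ :=
  ![fun _ => 1, fun x => x.extL K V V' H X, fun x => x.extS K V V' H X,
    fun x => x.extD1 K V V' H X, fun x => x.extD2 K V V' H X]

/-- the data of one side -/
structure Std (sd : SF 5) (c Y K V V' H X : ℝ) (Bs : UT → ℝ) : Prop where
  hH : ∀ x, sd.H x = H
  ext : ∀ l x, sd.ext l x = EXs K V V' H X l x
  om : ∀ l, sd.om l = OMs l
  Gs : ∀ l, sd.Gs l = GSs Y l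
  A : ∀ l d e γ, sd.A l d e γ = ASs c V l d γ
  dl : ∀ l, sd.dl l = DLs l
  Rp : ∀ u, sd.Rp u = Rdil Bs u

/-- the number of one side at a pair of levels -/
def LVn (af : Eis → Eis → Eis → ℂ) (Ds EE : Finset Eis) (c Y K H V V' E1 B G1 RN : ℝ) : ℝ :=
  FH K H V * ((1 + (H * (V / V')) ^ (1 / 3 : ℝ) * (V' / K) * (E1 ^ 2 * B ^ 2 * G1) +
      (H * V ^ 2 * V' * E1 ^ 3 * B ^ 2 / K ^ 2) ^ (1 / 3 : ℝ)) *
        TN af (fun e => nm e) Ds EE (fun _ => 1) {1} (JVc c V) id +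
    (1 + (H ^ 2 * V ^ 3 / K ^ 2) ^ (1 / 3 : ℝ)) *
        TN af (fun e => nm e) Ds EE (fun γ => (nm γ : ℝ)⁻¹) (primBall ⌊Y⌋₊) (JV c V) (fun _ => 1) +
    (H ^ 2 * V ^ 3 / K ^ 2) ^ (1 / 2 : ℝ) *
        TN af (fun e => nm e) Ds EE (fun γ => (nm γ : ℝ) ^ (-(1 / 2) : ℝ)) (primBall ⌊Y⌋₊)
          (JV c V) (fun _ => 1) + RN)

lemma alg_SFB {b E F xL xS x1 x2 T0 T1 T2 RN z C : ℝ} (hb : 1 ≤ b) (hE : 0 ≤ E) (hF : 0 ≤ F)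
    (hL : 0 ≤ xL) (hS : 0 ≤ xS) (h1 : 0 ≤ x1) (h2 : 0 ≤ x2) (t0 : 0 ≤ T0) (t1 : 0 ≤ T1)
    (t2 : 0 ≤ T2) (hR : 0 ≤ RN) (hz : 1 ≤ z) (hC : 0 ≤ C) :
    3 * b * E * F * ((1 + b * xL + xS) * T0 + (1 + x1) * T1 + x2 * T2) +
      C * z * (b * E * F * RN) ≤ (3 + C) * z * b ^ 2 * (E * (F * ((1 + xL + xS) * T0 +
        (1 + x1) * T1 + x2 * T2 + RN))) := by
  have hb0 : 0 ≤ b := by linarith
  have hbb : b ≤ b ^ 2 := by nlinarith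
  have n1 : 0 ≤ E * F := by positivity
  have a1 : b * ((1 + b * xL + xS) * T0 + (1 + x1) * T1 + x2 * T2) ≤
      b ^ 2 * ((1 + xL + xS) * T0 + (1 + x1) * T1 + x2 * T2) := by
    have b1 : b * (1 + b * xL + xS) ≤ b ^ 2 * (1 + xL + xS) := by nlinarith
    have b2 : b * (1 + b * xL + xS) * T0 ≤ b ^ 2 * (1 + xL + xS) * T0 :=
      mul_le_mul_of_nonneg_right b1 t0
    have b3 : b * ((1 + x1) * T1 + x2 * T2) ≤ b ^ 2 * ((1 + x1) * T1 + x2 * T2) :=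
      mul_le_mul_of_nonneg_right hbb (by positivity)
    nlinarith
  have a2 : b * RN ≤ b ^ 2 * RN := mul_le_mul_of_nonneg_right hbb hR
  have s0 : 0 ≤ b ^ 2 * ((1 + xL + xS) * T0 + (1 + x1) * T1 + x2 * T2) := by positivity
  have s1 : 0 ≤ b ^ 2 * RN := by positivity
  have d1 : (3 : ℝ) ≤ (3 + C) * z := by nlinarith
  have d2 : C * z ≤ (3 + C) * z := by nlinarith
  have d0 : 0 ≤ C * z := by positivity
  have c1 : 3 * b * E * F * ((1 + b * xL + xS) * T0 + (1 + x1) * T1 + x2 * T2) ≤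
      (E * F) * (((3 + C) * z) * (b ^ 2 * ((1 + xL + xS) * T0 + (1 + x1) * T1 + x2 * T2))) := by
    calc 3 * b * E * F * ((1 + b * xL + xS) * T0 + (1 + x1) * T1 + x2 * T2)
        = (E * F) * (3 * (b * ((1 + b * xL + xS) * T0 + (1 + x1) * T1 + x2 * T2))) := by ring
      _ ≤ _ := by
          refine mul_le_mul_of_nonneg_left ?_ n1
          exact (mul_le_mul_of_nonneg_left a1 (by norm_num)).trans
            (mul_le_mul_of_nonneg_right d1 s0)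
  have c2 : C * z * (b * E * F * RN) ≤ (E * F) * (((3 + C) * z) * (b ^ 2 * RN)) := by
    calc C * z * (b * E * F * RN) = (E * F) * (C * z * (b * RN)) := by ring
      _ ≤ _ := by
          refine mul_le_mul_of_nonneg_left ?_ n1
          exact (mul_le_mul_of_nonneg_left a2 d0).trans (mul_le_mul_of_nonneg_right d2 s1)
  refine (add_le_add c1 c2).trans (le_of_eq ?_)
  ring

section lines

variable {af : Eis → Eis → Eis → ℂ} {J : Finset (Eis × Eis)} {EE : Finset Eis}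
  {c Y K H V V' X E1 B G0 b hL B2 B3 B4 Z : ℝ} {sd : SF 5} {Bs : UT → ℝ}

lemma line_eq (hsd : Std sd c Y K V V' H X Bs) (hP : sd.P = PZ b K H V V' E1 B hL B2 B3 B4 EE)
    (l : Fin 5) : TMd af ((cut1 G0 sd).P l) ((cut1 G0 sd).om l) ((cut1 G0 sd).Gs l)
      ((cut1 G0 sd).A l) ((cut1 G0 sd).dl l) (RR J EE) =
      3 * b * hE EE * FH K H V * (BZ K H V V' E1 B hL B2 B3 B4 l *
        TN af (fun e => nm e) (J.image Prod.fst) EE (OMs l) (GSs Y l) (ASs c V l) (DLs l)) := by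
  rw [← TMd_PZ af b K H V V' E1 B hL B2 B3 B4 EE (J.image Prod.fst) l]
  change TMd af (sd.P l) (sd.om l) (sd.Gs l) (sd.A l) (sd.dl l) (RR J EE) = _
  have e : sd.A l = fun d _ γ => ASs c V l d γ := by
    funext d e γ
    exact hsd.A l d e γ
  rw [hP, hsd.om, hsd.Gs, hsd.dl, e]
  rfl

lemma lines_sum (hsd : Std sd c Y K V V' H X Bs)
    (hP : sd.P = PZ b K H V V' E1 B hL B2 B3 B4 EE) :
    ∑ l : Fin 5, TMd af ((cut1 G0 sd).P l) ((cut1 G0 sd).om l) ((cut1 G0 sd).Gs l)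
      ((cut1 G0 sd).A l) ((cut1 G0 sd).dl l) (RR J EE) =
      3 * b * hE EE * FH K H V * ((1 +
        (H * (V / V')) ^ (1 / 3 : ℝ) * (V' / K) * (E1 ^ 2 * B ^ 2 * hL) + B2) *
        TN af (fun e => nm e) (J.image Prod.fst) EE (fun _ => 1) {1} (JVc c V) id +
        B3 * TN af (fun e => nm e) (J.image Prod.fst) EE (fun γ => (nm γ : ℝ)⁻¹)
          (primBall ⌊Y⌋₊) (JV c V) (fun _ => 1) +
        B4 * TN af (fun e => nm e) (J.image Prod.fst) EE (fun γ => (nm γ : ℝ) ^ (-(1 / 2) : ℝ))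
          (primBall ⌊Y⌋₊) (JV c V) (fun _ => 1)) := by
  rw [sum_congr rfl fun l _ => line_eq hsd hP l, Fin.sum_univ_five]
  have e0 : BZ K H V V' E1 B hL B2 B3 B4 0 = 1 := rfl
  have e1 : BZ K H V V' E1 B hL B2 B3 B4 1 =
    (H * (V / V')) ^ (1 / 3 : ℝ) * (V' / K) * (E1 ^ 2 * B ^ 2 * hL) := rfl
  have e2 : BZ K H V V' E1 B hL B2 B3 B4 2 = B2 := rfl
  have e3 : BZ K H V V' E1 B hL B2 B3 B4 3 = B3 := rfl
  have e4 : BZ K H V V' E1 B hL B2 B3 B4 4 = B4 := rfl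
  rw [e0, e1, e2, e3, e4]
  have f0 : TN af (fun e => nm e) (J.image Prod.fst) EE (OMs 0) (GSs Y 0) (ASs c V 0) (DLs 0) =
    TN af (fun e => nm e) (J.image Prod.fst) EE (fun _ => 1) {1} (JVc c V) id := rfl
  have f1 : TN af (fun e => nm e) (J.image Prod.fst) EE (OMs 1) (GSs Y 1) (ASs c V 1) (DLs 1) =
    TN af (fun e => nm e) (J.image Prod.fst) EE (fun _ => 1) {1} (JVc c V) id := rfl
  have f2 : TN af (fun e => nm e) (J.image Prod.fst) EE (OMs 2) (GSs Y 2) (ASs c V 2) (DLs 2) =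
    TN af (fun e => nm e) (J.image Prod.fst) EE (fun _ => 1) {1} (JVc c V) id := rfl
  have f3 : TN af (fun e => nm e) (J.image Prod.fst) EE (OMs 3) (GSs Y 3) (ASs c V 3) (DLs 3) =
    TN af (fun e => nm e) (J.image Prod.fst) EE (fun γ => (nm γ : ℝ)⁻¹)
          (primBall ⌊Y⌋₊) (JV c V) (fun _ => 1) := rfl
  have f4 : TN af (fun e => nm e) (J.image Prod.fst) EE (OMs 4) (GSs Y 4) (ASs c V 4) (DLs 4) =
    TN af (fun e => nm e) (J.image Prod.fst) EE (fun γ => (nm γ : ℝ) ^ (-(1 / 2) : ℝ))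
          (primBall ⌊Y⌋₊) (JV c V) (fun _ => 1) := rfl
  rw [f0, f1, f2, f3, f4]
  ring

end lines

/-- **the total of one side** -/
theorem SFB_le {ε : ℝ} (hε : 0 < ε) : ∃ C : ℝ, 1 ≤ C ∧ ∀ Z : ℝ, 1 ≤ Z →
    ∀ (J : Finset (Eis × Eis)) (EE : Finset Eis) (af : Eis → Eis → Eis → ℂ)
      (c Y K H V V' X E1 B G0 G1 b : ℝ) (W1 : Eis → Eis → ℝ) (L M : Eis → ℝ) (Bs : UT → ℝ)
      (sd : SF 5), 1 ≤ b → 0 < K → 0 < H → 0 < V → 0 < V' → 0 ≤ E1 → 0 ≤ B → 0 ≤ G1 →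
      (∀ d e, 0 ≤ W1 d e) → (∀ d, 0 ≤ L d) → (∀ d, 0 ≤ M d) →
      Std sd c Y K V V' H X Bs →
      sd.P = PZ b K H V V' E1 B (b * G1) ((H * V ^ 2 * V' * E1 ^ 3 * B ^ 2 / K ^ 2) ^ (1 / 3 : ℝ))
        (1 + (H ^ 2 * V ^ 3 / K ^ 2) ^ (1 / 3 : ℝ)) ((H ^ 2 * V ^ 3 / K ^ 2) ^ (1 / 2 : ℝ)) EE →
      sd.PR = PRZ b K H V EE →
      (∀ t, SU (Z ^ 3) t → (∃ u ∈ RUs J EE Z, t.1 = u.1 ∧ t.2.1 = u.2.1) →
        Bs t ≤ if (nm (t.2.2.2.2.2.1 * t.2.2.2.2.2.2.1) : ℝ) ^ 2 *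
          (nm (t.2.2.1 * t.2.2.2.2.1 * t.2.2.2.2.2.2.2) : ℝ) ^ 3 ≤ L t.1 then
          (1 + M t.1 * kU t) * W1 t.1 t.2.1 else 0) →
      SFB (cut1 G0 sd) af (RR J EE) (RUs J EE Z) ≤ C * Z ^ ε * b ^ 2 * (hE EE *
        LVn af (J.image Prod.fst) EE c Y K H V V' E1 B G1
          (RNn L M W1 (J.image Prod.fst) EE)) := by
  obtain ⟨C, hC, h⟩ := R_PZ hε
  refine ⟨3 + C, by linarith, ?_⟩
  intro Z hZ J EE af c Y K H V V' X E1 B G0 G1 b W1 L M Bs sd hb hK hH hV hV' hE1 hB hG1 hW hL hM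
    hsd hP hPR hBs
  have hne : ∀ e : Eis, (0 : ℝ) ≤ nm e := fun e => Nat.cast_nonneg _
  have hb0 : 0 ≤ b := by linarith
  have hR : ∑ u ∈ RUs J EE Z, (cut1 G0 sd).PR u.1 u.2.1 * (cut1 G0 sd).Rp u ≤
      C * Z ^ ε * (b * hE EE * FH K H V * RNn L M W1 (J.image Prod.fst) EE) := by
    have k := h Z hZ J EE b K H V W1 L M Bs hb0 hK.le hH.le hV.le hW hL hM hBs
    refine le_trans (le_of_eq ?_) k
    refine sum_congr rfl fun u _ => ?_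
    change sd.PR u.1 u.2.1 * sd.Rp u = _
    rw [hPR, hsd.Rp]
  unfold SFB
  rw [lines_sum hsd hP]
  have e1 : (H * (V / V')) ^ (1 / 3 : ℝ) * (V' / K) * (E1 ^ 2 * B ^ 2 * (b * G1)) =
      b * ((H * (V / V')) ^ (1 / 3 : ℝ) * (V' / K) * (E1 ^ 2 * B ^ 2 * G1)) := by ring
  rw [e1]
  refine (add_le_add le_rfl hR).trans ?_
  unfold LVn
  exact alg_SFB hb (hE_nonneg EE) (FH_nonneg hK.le hH.le hV.le) (by positivity) (by positivity)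
    (by positivity) (by positivity) (TN_nonneg _ hne _ _ (fun _ => zero_le_one) _ _ _)
    (TN_nonneg _ hne _ _ (fun _ => by positivity) _ _ _)
    (TN_nonneg _ hne _ _ (fun _ => by positivity) _ _ _) (RNn_nonneg hM hW _ _)
    (Real.one_le_rpow hZ hε.le) hC

/-! ### one pair of levels -/

/-- the data of one side, any weights -/
structure SDf (sdf : (Fin 5 → Eis → Eis → ℝ) → (Eis → Eis → ℝ) → SF 5) (c Y K V V' H X : ℝ)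
    (Bs : UT → ℝ) (Z : ℝ) (Pc : Cd → Prop) : Prop where
  std : ∀ P PR, Std (sdf P PR) c Y K V V' H X Bs
  P : ∀ P PR, (sdf P PR).P = P
  PR : ∀ P PR, (sdf P PR).PR = PR
  ok : ∀ P PR, (∀ l d e, 0 ≤ P l d e) → (∀ d e, 0 ≤ PR d e) → (sdf P PR).OK Z Pc

section

variable {sdf : (Fin 5 → Eis → Eis → ℝ) → (Eis → Eis → ℝ) → SF 5}
  {c Y K V V' H X Z : ℝ} {Bs : UT → ℝ} {Pc : Cd → Prop} {P : Fin 5 → Eis → Eis → ℝ}
  {PR : Eis → Eis → ℝ} {G0 hL E1 B b B2 B3 B4 : ℝ} {EE : Finset Eis}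

lemma SDf.lin (h : SDf sdf c Y K V V' H X Bs Z Pc) :
    Lin (cut1 G0 (sdf (PZ b K H V V' E1 B hL B2 B3 B4 EE) (PRZ b K H V EE))) K V V' H X G0 hL E1 B
      b B2 B3 B4 EE where
  hH := (h.std _ _).hH
  e0 := fun x => by
    rw [cut1_ext _ _ (by decide), (h.std _ _).ext]
    rfl
  e1 := fun x => by
    rw [cut1_ext1, (h.std _ _).ext]
    rfl
  P := h.P _ _
  PR := h.PR _ _

lemma PZ_nonneg (hb : 0 ≤ b) (hK : 0 ≤ K) (hH : 0 ≤ H) (hV : 0 ≤ V) (hV' : 0 ≤ V')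
    (h1 : 0 ≤ hL) (h2 : 0 ≤ B2) (h3 : 0 ≤ B3) (h4 : 0 ≤ B4) (l : Fin 5) (d e : Eis) :
    0 ≤ PZ b K H V V' E1 B hL B2 B3 B4 EE l d e := by
  unfold PZ
  have h5 := Cd.Pde_nonneg hK (QH_nonneg hH hV) d e
  have h6 := hE_nonneg EE
  have h7 : 0 ≤ BZ K H V V' E1 B hL B2 B3 B4 l := by
    fin_cases l
    · exact zero_le_one
    · change 0 ≤ (H * (V / V')) ^ (1 / 3 : ℝ) * (V' / K) * (E1 ^ 2 * B ^ 2 * hL)
      positivity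
    · exact h2
    · exact h3
    · exact h4
  positivity

lemma PRZ_nonneg (hb : 0 ≤ b) (hK : 0 ≤ K) (hH : 0 ≤ H) (hV : 0 ≤ V) (d e : Eis) :
    0 ≤ PRZ b K H V EE d e := by
  unfold PRZ
  have h5 := Cd.Pde_nonneg hK (QH_nonneg hH hV) d e
  have h6 := hE_nonneg EE
  positivity

lemma SDf.cut (h : SDf sdf c Y K V V' H X Bs Z Pc) {af : Eis → Eis → Eis → ℂ}
    (hP : ∀ l d e, 0 ≤ P l d e) (hPR : ∀ d e, 0 ≤ PR d e) {x : Cd} (hx : Pc x)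
    (hu : OU Z x.U) :
    CellF (cut1 (Real.sqrt (c * V)) (sdf P PR)) K V V' X af x = CellF (sdf P PR) K V V' X af x :=
  cut1_CellF fun hg => N1_empty (h.ok P PR hP hPR)
    (fun d e γ => by rw [(h.std P PR).A]; exact subset_rfl) hx hu hg

end

/-- **one side** -/
theorem side_Z {ε : ℝ} (hε : 0 < ε) : ∃ C : ℝ, 1 ≤ C ∧ ∀ Z : ℝ, 1 ≤ Z →
    ∀ (Pr : Yp → Yp → Prop) (J : Finset (Eis × Eis)) (EE : Finset Eis)
      (af : Eis → Eis → Eis → ℂ) (E0 E1 R B b₀ K V V' X H c Y G1 : ℝ) (W1 : Eis → Eis → ℝ)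
      (L M : Eis → ℝ) (Bs : UT → ℝ) (sdf : (Fin 5 → Eis → Eis → ℝ) → (Eis → Eis → ℝ) → SF 5)
      (Pc : Cd → Prop),
      OKJ J → 0 ≤ R → R ≤ Z → 0 ≤ B → B ≤ Z → 0 ≤ E1 → E1 ≤ Z → (∀ x ∈ J, (nm x.1 : ℝ) ≤ Z) →
      0 < K → 0 < V → 0 < V' → 0 < X → 0 < H → 0 ≤ G1 →
      (Real.sqrt (c * V) ≤ G1 ∨ (ClsP Pr J E0 R ∧ 1 ≤ G1)) →
      SDf sdf c Y K V V' H X Bs (Z ^ 5) Pc →
      (∀ i ∈ OI Pr J EE E0 E1 R B Z b₀ K, Pc (cdI i)) →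
      (∀ d e, 0 ≤ W1 d e) → (∀ d, 0 ≤ L d) → (∀ d, 0 ≤ M d) →
      (∀ t, SU ((Z ^ 5) ^ 3) t → (∃ u ∈ RUs J EE (Z ^ 5), t.1 = u.1 ∧ t.2.1 = u.2.1) →
        Bs t ≤ if (nm (t.2.2.2.2.2.1 * t.2.2.2.2.2.2.1) : ℝ) ^ 2 *
          (nm (t.2.2.1 * t.2.2.2.2.1 * t.2.2.2.2.2.2.2) : ℝ) ^ 3 ≤ L t.1 then
          (1 + M t.1 * kU t) * W1 t.1 t.2.1 else 0) →
      ∃ sd : SF 5, sd.OK (Z ^ 5) Pc ∧ (∀ x, sd.H x = H) ∧
        sd.Fib K V V' ((V' / V) ^ (1 / 6 : ℝ)) X (OI Pr J EE E0 E1 R B Z b₀ K) cdI ∧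
        (∀ (cc u : ℝ), ∀ i ∈ OI Pr J EE E0 E1 R B Z b₀ K,
          (∀ P PR, u ≤ cc * CellF (sdf P PR) K V V' X af (cdI i)) →
          u ≤ cc * CellF sd K V V' X af (cdI i)) ∧
        SFB sd af (RR J EE) (RUs J EE (Z ^ 5)) ≤ C * Z ^ ε * (hE EE *
          LVn af (J.image Prod.fst) EE c Y K H V V' E1 B G1
            (RNn L M W1 (J.image Prod.fst) EE)) := by
  have hε7 : 0 < ε / 7 := by positivity
  obtain ⟨C2, hC2, h2⟩ := fib_OI hε7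
  obtain ⟨C4, hC4, h4⟩ := SFB_le hε7
  refine ⟨C4 * C2 ^ 2, one_le_mul_of_one_le_of_one_le hC4 (one_le_pow₀ hC2), ?_⟩
  intro Z hZ Pr J EE af E0 E1 R B b₀ K V V' X H c Y G1 W1 L M Bs sdf Pc hJ hR0 hRZ hB0 hBZ hE10
    hE1 hJ1 hK hV hV' hX hH hG1 hcl hs hPc hW hL hM hBs
  have hZ0 : 0 < Z := by linarith
  have hZ5 : 1 ≤ Z ^ 5 := one_le_pow₀ hZ
  have hZe : 1 ≤ Z ^ (ε / 7) := Real.one_le_rpow hZ hε7.le
  obtain ⟨b, hb⟩ : ∃ b, b = C2 * Z ^ (ε / 7) := ⟨_, rfl⟩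
  have hb1 : 1 ≤ b := by rw [hb]; exact one_le_mul_of_one_le_of_one_le hC2 hZe
  have hb0 : 0 ≤ b := by linarith
  obtain ⟨P, hP⟩ : ∃ P, P = PZ b K H V V' E1 B (b * G1)
    ((H * V ^ 2 * V' * E1 ^ 3 * B ^ 2 / K ^ 2) ^ (1 / 3 : ℝ))
    (1 + (H ^ 2 * V ^ 3 / K ^ 2) ^ (1 / 3 : ℝ)) ((H ^ 2 * V ^ 3 / K ^ 2) ^ (1 / 2 : ℝ)) EE :=
    ⟨_, rfl⟩
  obtain ⟨Q, hQ⟩ : ∃ Q, Q = PRZ b K H V EE := ⟨_, rfl⟩
  have hP0 : ∀ l d e, 0 ≤ P l d e := by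
    rw [hP]
    exact PZ_nonneg hb0 hK.le hH.le hV.le hV'.le (by positivity) (by positivity) (by positivity)
      (by positivity)
  have hQ0 : ∀ d e, 0 ≤ Q d e := by rw [hQ]; exact PRZ_nonneg hb0 hK.le hH.le hV.le
  have hok := hs.ok P Q hP0 hQ0
  have hOK : ∀ i ∈ OI Pr J EE E0 E1 R B Z b₀ K, (cdI i).OK (Z ^ 5) EE := fun i hi =>
    OI_OK hJ hZ hR0 hRZ hB0 hBZ hE1 hJ1 hi
  refine ⟨cut1 (Real.sqrt (c * V)) (sdf P Q), cut1_OK hok, (hs.std P Q).hH, ?_, ?_, ?_⟩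
  · refine h2 Z hZ Pr J EE E0 E1 R B b₀ K V V' X H (Real.sqrt (c * V)) G1
      ((H * V ^ 2 * V' * E1 ^ 3 * B ^ 2 / K ^ 2) ^ (1 / 3 : ℝ))
      (1 + (H ^ 2 * V ^ 3 / K ^ 2) ^ (1 / 3 : ℝ)) ((H ^ 2 * V ^ 3 / K ^ 2) ^ (1 / 2 : ℝ)) b b _
      hJ hR0 hRZ hB0 hBZ hE10 hE1 hJ1 hK hV hV' hX hH (by positivity) (by positivity)
      (by positivity) hcl hG1 hb.ge hb.ge (by rw [hP, hQ]; exact hs.lin) ?_ ?_ ?_
    · intro i hi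
      rw [cut1_ext _ _ (by decide), (hs.std P Q).ext]
      exact (ext_OI hJ hZ hR0 hRZ hB0 hBZ hE1 hJ1 hi hK hV hV' hH hX).1
    · intro i hi
      rw [cut1_ext _ _ (by decide), (hs.std P Q).ext]
      exact (ext_OI hJ hZ hR0 hRZ hB0 hBZ hE1 hJ1 hi hK hV hV' hH hX).2.2.1
    · intro i hi
      rw [cut1_ext _ _ (by decide), (hs.std P Q).ext]
      exact (ext_OI hJ hZ hR0 hRZ hB0 hBZ hE1 hJ1 hi hK hV hV' hH hX).2.2.2.2.1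
  · intro cc u i hi hu
    rw [hs.cut hP0 hQ0 (hPc i hi) (hOK i hi).OU]
    exact hu P Q
  · have k := h4 (Z ^ 5) hZ5 J EE af c Y K H V V' X E1 B (Real.sqrt (c * V)) G1 b W1 L M Bs
      (sdf P Q) hb1 hK hH hV hV' hE10 hB0 hG1 hW hL hM (hs.std P Q) ((hs.P P Q).trans hP)
      ((hs.PR P Q).trans hQ) hBs
    refine k.trans (le_of_eq ?_)
    have e5 : (Z ^ 5) ^ (ε / 7) = (Z ^ (ε / 7)) ^ 5 := by
      rw [← Real.rpow_natCast, ← Real.rpow_natCast, ← Real.rpow_mul hZ0.le, ← Real.rpow_mul hZ0.le]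
      congr 1; ring
    have e7 : Z ^ ε = (Z ^ (ε / 7)) ^ 7 := by
      rw [← Real.rpow_natCast, ← Real.rpow_mul hZ0.le]
      congr 1; push_cast; ring
    rw [e5, e7, hb]
    ring

/-- **the other side** -/
theorem side_Z' {ε : ℝ} (hε : 0 < ε) : ∃ C : ℝ, 1 ≤ C ∧ ∀ Z : ℝ, 1 ≤ Z →
    ∀ (Pr : Yp → Yp → Prop) (J : Finset (Eis × Eis)) (EE : Finset Eis)
      (af : Eis → Eis → Eis → ℂ) (E0 E1 R B b₀ K V V' X H c Y G1 : ℝ) (W1 : Eis → Eis → ℝ)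
      (L M : Eis → ℝ) (Bs : UT → ℝ) (sdf : (Fin 5 → Eis → Eis → ℝ) → (Eis → Eis → ℝ) → SF 5)
      (Pc : Cd → Prop),
      OKJ J → 0 ≤ R → R ≤ Z → 0 ≤ B → B ≤ Z → 0 ≤ E1 → E1 ≤ Z → (∀ x ∈ J, (nm x.1 : ℝ) ≤ Z) →
      0 < K → 0 < V → 0 < V' → 0 < X → 0 < H → 0 ≤ G1 →
      (Real.sqrt (c * V') ≤ G1 ∨ (ClsP Pr J E0 R ∧ 1 ≤ G1)) →
      SDf sdf c Y K V' V H X Bs (Z ^ 5) Pc →
      (∀ i ∈ OI Pr J EE E0 E1 R B Z b₀ K, Pc (cdI i).swap) →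
      (∀ d e, 0 ≤ W1 d e) → (∀ d, 0 ≤ L d) → (∀ d, 0 ≤ M d) →
      (∀ t, SU ((Z ^ 5) ^ 3) t → (∃ u ∈ RUs J EE (Z ^ 5), t.1 = u.1 ∧ t.2.1 = u.2.1) →
        Bs t ≤ if (nm (t.2.2.2.2.2.1 * t.2.2.2.2.2.2.1) : ℝ) ^ 2 *
          (nm (t.2.2.1 * t.2.2.2.2.1 * t.2.2.2.2.2.2.2) : ℝ) ^ 3 ≤ L t.1 then
          (1 + M t.1 * kU t) * W1 t.1 t.2.1 else 0) →
      ∃ sd : SF 5, sd.OK (Z ^ 5) Pc ∧ (∀ x, sd.H x = H) ∧
        sd.Fib K V' V ((V' / V) ^ (1 / 6 : ℝ))⁻¹ X (OI Pr J EE E0 E1 R B Z b₀ K)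
          (fun i => (cdI i).swap) ∧
        (∀ (cc u : ℝ), ∀ i ∈ OI Pr J EE E0 E1 R B Z b₀ K,
          (∀ P PR, u ≤ cc * CellF (sdf P PR) K V' V X af (cdI i).swap) →
          u ≤ cc * CellF sd K V' V X af (cdI i).swap) ∧
        SFB sd af (RR J EE) (RUs J EE (Z ^ 5)) ≤ C * Z ^ ε * (hE EE *
          LVn af (J.image Prod.fst) EE c Y K H V' V E1 B G1
            (RNn L M W1 (J.image Prod.fst) EE)) := by
  have hε7 : 0 < ε / 7 := by positivity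
  obtain ⟨C2, hC2, h2⟩ := fib_OI' hε7
  obtain ⟨C4, hC4, h4⟩ := SFB_le hε7
  refine ⟨C4 * C2 ^ 2, one_le_mul_of_one_le_of_one_le hC4 (one_le_pow₀ hC2), ?_⟩
  intro Z hZ Pr J EE af E0 E1 R B b₀ K V V' X H c Y G1 W1 L M Bs sdf Pc hJ hR0 hRZ hB0 hBZ hE10
    hE1 hJ1 hK hV hV' hX hH hG1 hcl hs hPc hW hL hM hBs
  have hZ0 : 0 < Z := by linarith
  have hZ5 : 1 ≤ Z ^ 5 := one_le_pow₀ hZ
  have hZe : 1 ≤ Z ^ (ε / 7) := Real.one_le_rpow hZ hε7.le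
  obtain ⟨b, hb⟩ : ∃ b, b = C2 * Z ^ (ε / 7) := ⟨_, rfl⟩
  have hb1 : 1 ≤ b := by rw [hb]; exact one_le_mul_of_one_le_of_one_le hC2 hZe
  have hb0 : 0 ≤ b := by linarith
  obtain ⟨P, hP⟩ : ∃ P, P = PZ b K H V' V E1 B (b * G1)
    ((H * V' ^ 2 * V * E1 ^ 3 * B ^ 2 / K ^ 2) ^ (1 / 3 : ℝ))
    (1 + (H ^ 2 * V' ^ 3 / K ^ 2) ^ (1 / 3 : ℝ)) ((H ^ 2 * V' ^ 3 / K ^ 2) ^ (1 / 2 : ℝ)) EE :=
    ⟨_, rfl⟩
  obtain ⟨Q, hQ⟩ : ∃ Q, Q = PRZ b K H V' EE := ⟨_, rfl⟩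
  have hP0 : ∀ l d e, 0 ≤ P l d e := by
    rw [hP]
    exact PZ_nonneg hb0 hK.le hH.le hV'.le hV.le (by positivity) (by positivity) (by positivity)
      (by positivity)
  have hQ0 : ∀ d e, 0 ≤ Q d e := by rw [hQ]; exact PRZ_nonneg hb0 hK.le hH.le hV'.le
  have hok := hs.ok P Q hP0 hQ0
  have hOK : ∀ i ∈ OI Pr J EE E0 E1 R B Z b₀ K, (cdI i).OK (Z ^ 5) EE := fun i hi =>
    OI_OK hJ hZ hR0 hRZ hB0 hBZ hE1 hJ1 hi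
  refine ⟨cut1 (Real.sqrt (c * V')) (sdf P Q), cut1_OK hok, (hs.std P Q).hH, ?_, ?_, ?_⟩
  · refine h2 Z hZ Pr J EE E0 E1 R B b₀ K V V' X H (Real.sqrt (c * V')) G1
      ((H * V' ^ 2 * V * E1 ^ 3 * B ^ 2 / K ^ 2) ^ (1 / 3 : ℝ))
      (1 + (H ^ 2 * V' ^ 3 / K ^ 2) ^ (1 / 3 : ℝ)) ((H ^ 2 * V' ^ 3 / K ^ 2) ^ (1 / 2 : ℝ)) b b _
      hJ hR0 hRZ hB0 hBZ hE10 hE1 hJ1 hK hV hV' hX hH (by positivity) (by positivity)
      (by positivity) hcl hG1 hb.ge hb.ge (by rw [hP, hQ]; exact hs.lin) ?_ ?_ ?_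
    · intro i hi
      rw [cut1_ext _ _ (by decide), (hs.std P Q).ext]
      exact (ext_OI hJ hZ hR0 hRZ hB0 hBZ hE1 hJ1 hi hK hV hV' hH hX).2.1
    · intro i hi
      rw [cut1_ext _ _ (by decide), (hs.std P Q).ext]
      exact (ext_OI hJ hZ hR0 hRZ hB0 hBZ hE1 hJ1 hi hK hV hV' hH hX).2.2.2.1
    · intro i hi
      rw [cut1_ext _ _ (by decide), (hs.std P Q).ext]
      exact (ext_OI hJ hZ hR0 hRZ hB0 hBZ hE1 hJ1 hi hK hV hV' hH hX).2.2.2.2.2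
  · intro cc u i hi hu
    rw [hs.cut hP0 hQ0 (hPc i hi) (hOK i hi).swap.OU]
    exact hu P Q
  · have k := h4 (Z ^ 5) hZ5 J EE af c Y K H V' V X E1 B (Real.sqrt (c * V')) G1 b W1 L M Bs
      (sdf P Q) hb1 hK hH hV' hV hE10 hB0 hG1 hW hL hM (hs.std P Q) ((hs.P P Q).trans hP)
      ((hs.PR P Q).trans hQ) hBs
    refine k.trans (le_of_eq ?_)
    have e5 : (Z ^ 5) ^ (ε / 7) = (Z ^ (ε / 7)) ^ 5 := by
      rw [← Real.rpow_natCast, ← Real.rpow_natCast, ← Real.rpow_mul hZ0.le, ← Real.rpow_mul hZ0.le]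
      congr 1; ring
    have e7 : Z ^ ε = (Z ^ (ε / 7)) ^ 7 := by
      rw [← Real.rpow_natCast, ← Real.rpow_mul hZ0.le]
      congr 1; push_cast; ring
    rw [e5, e7, hb]
    ring

lemma LVn_nonneg {af : Eis → Eis → Eis → ℂ} {Ds EE : Finset Eis}
    {c Y K H V V' E1 B G1 RN : ℝ} (hK : 0 ≤ K) (hH : 0 ≤ H) (hV : 0 ≤ V) (hV' : 0 ≤ V')
    (hE1 : 0 ≤ E1) (hG : 0 ≤ G1) (hR : 0 ≤ RN) : 0 ≤ LVn af Ds EE c Y K H V V' E1 B G1 RN := by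
  have hne : ∀ e : Eis, (0 : ℝ) ≤ nm e := fun e => Nat.cast_nonneg _
  have t0 := TN_nonneg af hne Ds EE (om := fun _ => (1 : ℝ))
    (fun _ => zero_le_one) {1} (JVc c V) id
  have t1 := TN_nonneg af hne Ds EE (om := fun γ => (nm γ : ℝ)⁻¹)
    (fun _ => by positivity) (primBall ⌊Y⌋₊) (JV c V) (fun _ => 1)
  have t2 := TN_nonneg af hne Ds EE (om := fun γ => (nm γ : ℝ) ^ (-(1 / 2) : ℝ))
    (fun _ => by positivity) (primBall ⌊Y⌋₊) (JV c V) (fun _ => 1)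
  have t4 := FH_nonneg hK hH hV
  unfold LVn
  refine mul_nonneg t4 (add_nonneg (add_nonneg (add_nonneg (mul_nonneg ?_ t0) (mul_nonneg ?_ t1))
    (mul_nonneg ?_ t2)) hR)
  · positivity
  · positivity
  · positivity

/-- **one pair of levels** -/
theorem pair_Z {A Bw : ℕ} (hA : 1 < A) (hB : 1 < Bw) {Rw : ℝ} (hRw : 0 ≤ Rw) {h : ℝ → ℝ}
    (hh : ContDiff ℝ ∞ h) (hhc : HasCompactSupport h) {w1 : ℝ → ℝ}
    (hw : ∀ x, w1 x ≠ 0 → 0 < x ∧ |Real.log x| ≤ Rw)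
    (hw1 : ∀ x, 0 < x → h (Real.log x) ≠ 0 → w1 x = 1) {ε : ℝ} (hε : 0 < ε) :
    ∃ C : ℝ, 0 ≤ C ∧
    ∀ (Om Om' : ℝ → ℂ) (Mb : ℝ), 0 ≤ Mb → ContDiff ℝ ∞ Om → ContDiff ℝ ∞ Om' →
      (∀ n ≤ A + 2, ∀ x, ‖iteratedDeriv n Om x‖ ≤ Mb) →
      (∀ n ≤ A + 2, ∀ x, ‖iteratedDeriv n Om' x‖ ≤ Mb) →
    ∀ (V V' τ : ℝ) (κ κ' : ℂ), 0 < V → 0 < V' → ‖κ‖ ≤ 1 → ‖κ'‖ ≤ 1 →
    ∀ (Z : ℝ), 1 ≤ Z → ∀ (Pr : Yp → Yp → Prop) (J : Finset (Eis × Eis))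
      (om om' : Eis × Eis → ℂ) (af : Eis → Eis → Eis → ℂ) (EE : Finset Eis)
      (E0 E1 R B b₀ K X H c Y G1 G1' cc : ℝ) (W1 W1' : Eis → Eis → ℝ) (L M L' M' : Eis → ℝ)
      (Bs Bs' : UT → ℝ) (sdf sdf' : (Fin 5 → Eis → Eis → ℝ) → (Eis → Eis → ℝ) → SF 5)
      (Pc : Cd → Prop),
      TC (T3 af) → (∀ d e, FS (af d e)) → OKJ J → (∀ d e, e ∉ EE → ∀ j, T3 af d e j = 0) →
      0 < K → 0 ≤ R → R ≤ Z → 0 ≤ B → B ≤ Z → 0 ≤ E1 → E1 ≤ Z →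
      (∀ x ∈ J, (nm x.1 : ℝ) ≤ Z) → (∀ x ∈ J, (nm x.2 : ℝ) ≤ R) →
      WQ J om E0 R (wL κ h Om τ V) → WQ J om' E0 R (wL κ' h Om' τ V') →
      0 < X → 0 < H → 0 < cc → 0 ≤ G1 → 0 ≤ G1' →
      (Real.sqrt (c * V) ≤ G1 ∨ (ClsP Pr J E0 R ∧ 1 ≤ G1)) →
      (Real.sqrt (c * V') ≤ G1' ∨ (ClsP Pr J E0 R ∧ 1 ≤ G1')) →
      SDf sdf c Y K V V' H X Bs (Z ^ 5) Pc → SDf sdf' c Y K V' V H X Bs' (Z ^ 5) Pc →
      (∀ i ∈ OI Pr J EE E0 E1 R B Z b₀ K, Pc (cdI i) ∧ Pc (cdI i).swap) →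
      (∀ P PR, ∀ i ∈ OI Pr J EE E0 E1 R B Z b₀ K,
        sE1 A Bw K V V' af (w1L w1 V) i ≤ cc * CellF (sdf P PR) K V V' X af (cdI i)) →
      (∀ P PR, ∀ i ∈ OI Pr J EE E0 E1 R B Z b₀ K,
        sE2 A Bw K V V' af (w1L w1 V') i ≤ cc * CellF (sdf' P PR) K V' V X af (cdI i).swap) →
      (∀ d e, 0 ≤ W1 d e) → (∀ d, 0 ≤ L d) → (∀ d, 0 ≤ M d) →
      (∀ d e, 0 ≤ W1' d e) → (∀ d, 0 ≤ L' d) → (∀ d, 0 ≤ M' d) →
      (∀ t, SU ((Z ^ 5) ^ 3) t → (∃ u ∈ RUs J EE (Z ^ 5), t.1 = u.1 ∧ t.2.1 = u.2.1) →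
        Bs t ≤ if (nm (t.2.2.2.2.2.1 * t.2.2.2.2.2.2.1) : ℝ) ^ 2 *
          (nm (t.2.2.1 * t.2.2.2.2.1 * t.2.2.2.2.2.2.2) : ℝ) ^ 3 ≤ L t.1 then
          (1 + M t.1 * kU t) * W1 t.1 t.2.1 else 0) →
      (∀ t, SU ((Z ^ 5) ^ 3) t → (∃ u ∈ RUs J EE (Z ^ 5), t.1 = u.1 ∧ t.2.1 = u.2.1) →
        Bs' t ≤ if (nm (t.2.2.2.2.2.1 * t.2.2.2.2.2.2.1) : ℝ) ^ 2 *
          (nm (t.2.2.1 * t.2.2.2.2.1 * t.2.2.2.2.2.2.2) : ℝ) ^ 3 ≤ L' t.1 then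
          (1 + M' t.1 * kU t) * W1' t.1 t.2.1 else 0) →
      ∑ q ∈ S R, ∑ t ∈ pb E1, MPTr Pr A Bw K B V V' (Z ^ 5) J om om' (T3 af) E0 R b₀ q t ≤
        C * cc * Mb ^ 2 * (1 + |τ|) ^ A * Z ^ ε * (hE EE *
          (LVn af (J.image Prod.fst) EE c Y K H V V' E1 B G1
            (RNn L M W1 (J.image Prod.fst) EE) +
          LVn af (J.image Prod.fst) EE c Y K H V' V E1 B G1'
            (RNn L' M' W1' (J.image Prod.fst) EE))) := by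
  have hε6 : 0 < ε / 6 := by positivity
  obtain ⟨C1, hC1, h1⟩ := MPT_level hA hB hRw hh hhc hw hw1 hε6
  obtain ⟨C2, hC2, h2⟩ := side_Z hε6
  obtain ⟨C3, hC3, h3⟩ := side_Z' hε6
  refine ⟨C1 * (C2 + C3), by positivity, ?_⟩
  intro Om Om' Mb hMb hOm hOm' hOb hOb' V V' τ κ κ' hV hV' hκ hκ' Z hZ Pr J om om' af EE E0 E1 R B
    b₀ K X H c Y G1 G1' cc W1 W1' L M L' M' Bs Bs' sdf sdf' Pc hT haf hJ hEE hK hR0 hRZ hB0 hBZ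
    hE10 hE1 hJ1 hJ2 hwq hwq' hX hH hcc hG1 hG1' hcl hcl' hs hs' hPc hu hu' hW hL hM hW' hL' hM'
    hBs hBs'
  have hZ0 : 0 < Z := by linarith
  obtain ⟨sd, a1, a2, a3, a4, a5⟩ := h2 Z hZ Pr J EE af E0 E1 R B b₀ K V V' X H c Y G1 W1 L M Bs
    sdf Pc hJ hR0 hRZ hB0 hBZ hE10 hE1 hJ1 hK hV hV' hX hH hG1 hcl hs (fun i hi => (hPc i hi).1)
    hW hL hM hBs
  obtain ⟨sd', a1', a2', a3', a4', a5'⟩ := h3 Z hZ Pr J EE af E0 E1 R B b₀ K V V' X H c Y G1' W1'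
    L' M' Bs' sdf' Pc hJ hR0 hRZ hB0 hBZ hE10 hE1 hJ1 hK hV hV' hX hH hG1' hcl' hs'
    (fun i hi => (hPc i hi).2) hW' hL' hM' hBs'
  have key := h1 Om Om' Mb hMb hOm hOm' hOb hOb' V V' τ κ κ' hV hV' hκ hκ' Z hZ Pr J om om' af EE
    E0 E1 R B b₀ K ((V' / V) ^ (1 / 6 : ℝ)) X cc 5 sd sd' Pc hT haf hJ hEE hK hR0 hRZ hB0 hBZ hE1
    hJ1 hJ2 hwq hwq' (by positivity) hX hcc a1 a1'
    (fun i _ => ⟨by rw [a2]; exact hH, by rw [a2']; exact hH⟩) a3 a3' hPc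
    (fun i hi => a4 cc _ i hi (fun P PR => hu P PR i hi))
    (fun i hi => a4' cc _ i hi (fun P PR => hu' P PR i hi))
  have n1 := LVn_nonneg (af := af) (Ds := J.image Prod.fst) (EE := EE) (c := c) (Y := Y) (E1 := E1)
    (B := B) hK.le hH.le hV.le hV'.le hE10 hG1 (RNn_nonneg (L := L) hM hW (J.image Prod.fst) EE)
  have n2 := LVn_nonneg (af := af) (Ds := J.image Prod.fst) (EE := EE) (c := c) (Y := Y) (E1 := E1)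
    (B := B) hK.le hH.le hV'.le hV.le hE10 hG1' (RNn_nonneg (L := L') hM' hW' (J.image Prod.fst) EE)
  obtain ⟨N1, hN1⟩ : ∃ N1, N1 = LVn af (J.image Prod.fst) EE c Y K H V V' E1 B G1
    (RNn L M W1 (J.image Prod.fst) EE) := ⟨_, rfl⟩
  obtain ⟨N2, hN2⟩ : ∃ N2, N2 = LVn af (J.image Prod.fst) EE c Y K H V' V E1 B G1'
    (RNn L' M' W1' (J.image Prod.fst) EE) := ⟨_, rfl⟩
  rw [← hN1] at a5 n1 ⊢
  rw [← hN2] at a5' n2 ⊢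
  have e5 : (Z ^ 5) ^ (ε / 6) = (Z ^ (ε / 6)) ^ 5 := by
    rw [← Real.rpow_natCast, ← Real.rpow_natCast, ← Real.rpow_mul hZ0.le, ← Real.rpow_mul hZ0.le]
    congr 1; ring
  have e6 : Z ^ ε = (Z ^ (ε / 6)) ^ 6 := by
    rw [← Real.rpow_natCast, ← Real.rpow_mul hZ0.le]
    congr 1; push_cast; ring
  rw [e6]
  rw [e5] at key
  obtain ⟨z, hz⟩ : ∃ z, z = Z ^ (ε / 6) := ⟨_, rfl⟩
  have hz0 : 0 ≤ z := by rw [hz]; positivity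
  rw [← hz] at a5 a5' key ⊢
  have hhE := hE_nonneg EE
  have hc0 : 0 ≤ C1 * cc * Mb ^ 2 * (1 + |τ|) ^ A * z ^ 5 := by positivity
  have k3 : SFB sd af (RR J EE) (RUs J EE (Z ^ 5)) + SFB sd' af (RR J EE) (RUs J EE (Z ^ 5)) ≤
      (C2 + C3) * z * (hE EE * (N1 + N2)) := by
    refine (add_le_add a5 a5').trans ?_
    have m1 : 0 ≤ C3 * z * (hE EE * N1) := by positivity
    have m2 : 0 ≤ C2 * z * (hE EE * N2) := by positivity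
    linarith
  refine key.trans ((mul_le_mul_of_nonneg_left k3 hc0).trans (le_of_eq ?_))
  ring

end Crest.Agent.R017.E3Z548
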