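import Crest.Agent.R017.E3Sy_290
import Crest.Agent.R017.E3Zc_548

/-!
# Row 17, R8 (E3): one pair of levels, abstract `R`-number (helper744, after helper548 and helper290)

* `RPn` : the `R`-number of one side
* `SFB_leA`, `side_ZA`, `side_Z'A`, `pair_ZA`, `PAIRA` : helper548's `SFB_le`, `side_Z`, `side_Z'`,
  `pair_Z` and helper290's `PAIR` with `RPn` as hypothesis
-/

set_option autoImplicit false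
set_option linter.unusedVariables false

noncomputable section

open Finset
open scoped Classical ComplexConjugate ContDiff

namespace Crest.Agent.R017.E3Zx744

open Crest.Agent.R012 Crest.Agent.R012.Eis Crest.Agent.R012.Div277
open Crest.Agent.R012.LS2 (S mem_S)
open Crest.Agent.R012.Mob705 (pb mem_pb pdiv mem_pdiv)
open Crest.Agent.R017.C70 (JC OKJ)
open Crest.Agent.R017.CM106 (CS FS)
open Crest.Agent.R017.E3D579 (TE0)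
open Crest.Agent.R017.E1551 (nmpos)
open Crest.Agent.R017.GrB829 (IsC)
open Crest.Agent.R017.E3A164 (Yp Ys fq Cs mem_Cs)
open Crest.Agent.R017.E3M829 (TC)
open Crest.Agent.R017.E3F548 (SR_prim mem_Ys' Pg Jat Tat MPTr)
open Crest.Agent.R017.E3T1579 (T3 WQ)
open Crest.Agent.R017.E3T2579 (wL w1L)
open Crest.Agent.R017.E3T829 (UT SU kU hE hE_nonneg cg TMd SF CellF SFB Cd TQ ju jj RR RUs OU Mud
  OI IX cdI OI_OK OI_PC sE1 sE2 MPT_level ext_OI Z_le5)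
open Crest.Agent.R017.E3T829.Cd (Pde)
open Crest.Agent.R017.E3Z548
open Crest.Agent.R017.E3Sy290 (MB1 MB2 cells sdC_SDf)
open Crest.Agent.R017.E3Sw290 (sdC PcC kZ)

/-- the `R`-number of one side at the size `z` -/
def RPn (J : Finset (Eis × Eis)) (EE : Finset Eis) (z K H V : ℝ) (Bs : UT → ℝ) (ρ RN : ℝ) :
    Prop :=
  ∀ b : ℝ, 0 ≤ b → ∑ u ∈ RUs J EE z, PRZ b K H V EE u.1 u.2.1 * Rdil Bs u ≤
    ρ * (b * hE EE * FH K H V * RN)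

/-- **the total of one side** -/
theorem SFB_leA (J : Finset (Eis × Eis)) (EE : Finset Eis) (af : Eis → Eis → Eis → ℂ)
      (c Y K H V V' X E1 B G0 G1 b z ρ RN : ℝ) (Bs : UT → ℝ)
      (sd : SF 5) : 1 ≤ b → 0 < K → 0 < H → 0 < V → 0 < V' → 0 ≤ E1 → 0 ≤ B → 0 ≤ G1 →
      0 ≤ ρ → 0 ≤ RN →
      Std sd c Y K V V' H X Bs →
      sd.P = PZ b K H V V' E1 B (b * G1) ((H * V ^ 2 * V' * E1 ^ 3 * B ^ 2 / K ^ 2) ^ (1 / 3 : ℝ))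
        (1 + (H ^ 2 * V ^ 3 / K ^ 2) ^ (1 / 3 : ℝ)) ((H ^ 2 * V ^ 3 / K ^ 2) ^ (1 / 2 : ℝ)) EE →
      sd.PR = PRZ b K H V EE →
      RPn J EE z K H V Bs ρ RN →
      SFB (cut1 G0 sd) af (RR J EE) (RUs J EE z) ≤ (3 + ρ) * b ^ 2 * (hE EE *
        LVn af (J.image Prod.fst) EE c Y K H V V' E1 B G1 RN) := by
  intro hb hK hH hV hV' hE1 hB hG1 hρ hRN hsd hP hPR hR0
  have hne : ∀ e : Eis, (0 : ℝ) ≤ nm e := fun e => Nat.cast_nonneg _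
  have hb0 : 0 ≤ b := by linarith
  have hR : ∑ u ∈ RUs J EE z, (cut1 G0 sd).PR u.1 u.2.1 * (cut1 G0 sd).Rp u ≤
      ρ * 1 * (b * hE EE * FH K H V * RN) := by
    rw [mul_one]
    refine le_trans (le_of_eq ?_) (hR0 b hb0)
    refine sum_congr rfl fun u _ => ?_
    change sd.PR u.1 u.2.1 * sd.Rp u = _
    rw [hPR, hsd.Rp]
  unfold SFB
  rw [lines_sum hsd hP]
  have e1 : (H * (V / V')) ^ (1 / 3 : ℝ) * (V' / K) * (E1 ^ 2 * B ^ 2 * (b * G1)) =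
      b * ((H * (V / V')) ^ (1 / 3 : ℝ) * (V' / K) * (E1 ^ 2 * B ^ 2 * G1)) := by ring
  rw [e1]
  refine (add_le_add le_rfl hR).trans ?_
  unfold LVn
  have h3 : (3 + ρ) * b ^ 2 = (3 + ρ) * 1 * b ^ 2 := by ring
  rw [h3]
  exact alg_SFB hb (hE_nonneg EE) (FH_nonneg hK.le hH.le hV.le) (by positivity) (by positivity)
    (by positivity) (by positivity) (TN_nonneg _ hne _ _ (fun _ => zero_le_one) _ _ _)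
    (TN_nonneg _ hne _ _ (fun _ => by positivity) _ _ _)
    (TN_nonneg _ hne _ _ (fun _ => by positivity) _ _ _) hRN le_rfl hρ

/-- **one side** -/
theorem side_ZA {ε : ℝ} (hε : 0 < ε) : ∃ C : ℝ, 1 ≤ C ∧ ∀ Z : ℝ, 1 ≤ Z →
    ∀ (Pr : Yp → Yp → Prop) (J : Finset (Eis × Eis)) (EE : Finset Eis)
      (af : Eis → Eis → Eis → ℂ) (E0 E1 R B b₀ K V V' X H c Y G1 ρ RN : ℝ)
      (Bs : UT → ℝ) (sdf : (Fin 5 → Eis → Eis → ℝ) → (Eis → Eis → ℝ) → SF 5)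
      (Pc : Cd → Prop),
      OKJ J → 0 ≤ R → R ≤ Z → 0 ≤ B → B ≤ Z → 0 ≤ E1 → E1 ≤ Z → (∀ x ∈ J, (nm x.1 : ℝ) ≤ Z) →
      0 < K → 0 < V → 0 < V' → 0 < X → 0 < H → 0 ≤ G1 →
      (Real.sqrt (c * V) ≤ G1 ∨ (ClsP Pr J E0 R ∧ 1 ≤ G1)) →
      SDf sdf c Y K V V' H X Bs (Z ^ 5) Pc →
      (∀ i ∈ OI Pr J EE E0 E1 R B Z b₀ K, Pc (cdI i)) →
      0 ≤ ρ → 0 ≤ RN → RPn J EE (Z ^ 5) K H V Bs ρ RN →
      ∃ sd : SF 5, sd.OK (Z ^ 5) Pc ∧ (∀ x, sd.H x = H) ∧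
        sd.Fib K V V' ((V' / V) ^ (1 / 6 : ℝ)) X (OI Pr J EE E0 E1 R B Z b₀ K) cdI ∧
        (∀ (cc u : ℝ), ∀ i ∈ OI Pr J EE E0 E1 R B Z b₀ K,
          (∀ P PR, u ≤ cc * CellF (sdf P PR) K V V' X af (cdI i)) →
          u ≤ cc * CellF sd K V V' X af (cdI i)) ∧
        SFB sd af (RR J EE) (RUs J EE (Z ^ 5)) ≤ C * Z ^ ε * (3 + ρ) * (hE EE *
          LVn af (J.image Prod.fst) EE c Y K H V V' E1 B G1 RN) := by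
  have hε7 : 0 < ε / 2 := by positivity
  obtain ⟨C2, hC2, h2⟩ := fib_OI hε7
  refine ⟨C2 ^ 2, one_le_pow₀ hC2, ?_⟩
  intro Z hZ Pr J EE af E0 E1 R B b₀ K V V' X H c Y G1 ρ RN Bs sdf Pc hJ hR0 hRZ hB0 hBZ hE10
    hE1 hJ1 hK hV hV' hX hH hG1 hcl hs hPc hρ hRN hR
  have hZ0 : 0 < Z := by linarith
  have hZ5 : 1 ≤ Z ^ 5 := one_le_pow₀ hZ
  have hZe : 1 ≤ Z ^ (ε / 2) := Real.one_le_rpow hZ hε7.le
  obtain ⟨b, hb⟩ : ∃ b, b = C2 * Z ^ (ε / 2) := ⟨_, rfl⟩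
  have hb1 : 1 ≤ b := by rw [hb]; exact one_le_mul_of_one_le_of_one_le hC2 hZe
  have hb0 : 0 ≤ b := by linarith
  obtain ⟨P, hP⟩ : ∃ P, P = PZ b K H V V' E1 B (b * G1)
    ((H * V ^ 2 * V' * E1 ^ 3 * B ^ 2 / K ^ 2) ^ (1 / 3 : ℝ))
    (1 + (H ^ 2 * V ^ 3 / K ^ 2) ^ (1 / 3 : ℝ)) ((H ^ 2 * V ^ 3 / K ^ 2) ^ (1 / 2 : ℝ)) EE :=
    ⟨_, rfl⟩
  obtain ⟨Q, hQ⟩ : ∃ Q, Q = PRZ b K H V EE := ⟨_, rfl⟩
  have hP0 : ∀ l d e, 0 ≤ P l d e := by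
    rw [hP]
    exact PZ_nonneg hb0 hK.le hH.le hV.le hV'.le (by positivity) (by positivity) (by positivity)
      (by positivity)
  have hQ0 : ∀ d e, 0 ≤ Q d e := by rw [hQ]; exact PRZ_nonneg hb0 hK.le hH.le hV.le
  have hok := hs.ok P Q hP0 hQ0
  have hOK : ∀ i ∈ OI Pr J EE E0 E1 R B Z b₀ K, (cdI i).OK (Z ^ 5) EE := fun i hi =>
    OI_OK hJ hZ hR0 hRZ hB0 hBZ hE1 hJ1 hi
  refine ⟨cut1 (Real.sqrt (c * V)) (sdf P Q), cut1_OK hok, (hs.std P Q).hH, ?_, ?_, ?_⟩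
  · refine h2 Z hZ Pr J EE E0 E1 R B b₀ K V V' X H (Real.sqrt (c * V)) G1
      ((H * V ^ 2 * V' * E1 ^ 3 * B ^ 2 / K ^ 2) ^ (1 / 3 : ℝ))
      (1 + (H ^ 2 * V ^ 3 / K ^ 2) ^ (1 / 3 : ℝ)) ((H ^ 2 * V ^ 3 / K ^ 2) ^ (1 / 2 : ℝ)) b b _
      hJ hR0 hRZ hB0 hBZ hE10 hE1 hJ1 hK hV hV' hX hH (by positivity) (by positivity)
      (by positivity) hcl hG1 hb.ge hb.ge (by rw [hP, hQ]; exact hs.lin) ?_ ?_ ?_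
    · intro i hi
      rw [cut1_ext _ _ (by decide), (hs.std P Q).ext]
      exact (ext_OI hJ hZ hR0 hRZ hB0 hBZ hE1 hJ1 hi hK hV hV' hH hX).1
    · intro i hi
      rw [cut1_ext _ _ (by decide), (hs.std P Q).ext]
      exact (ext_OI hJ hZ hR0 hRZ hB0 hBZ hE1 hJ1 hi hK hV hV' hH hX).2.2.1
    · intro i hi
      rw [cut1_ext _ _ (by decide), (hs.std P Q).ext]
      exact (ext_OI hJ hZ hR0 hRZ hB0 hBZ hE1 hJ1 hi hK hV hV' hH hX).2.2.2.2.1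
  · intro cc u i hi hu
    rw [hs.cut hP0 hQ0 (hPc i hi) (hOK i hi).OU]
    exact hu P Q
  · have k := SFB_leA J EE af c Y K H V V' X E1 B (Real.sqrt (c * V)) G1 b (Z ^ 5) ρ RN Bs
      (sdf P Q) hb1 hK hH hV hV' hE10 hB0 hG1 hρ hRN (hs.std P Q) ((hs.P P Q).trans hP)
      ((hs.PR P Q).trans hQ) hR
    refine k.trans (le_of_eq ?_)
    have e7 : Z ^ ε = (Z ^ (ε / 2)) ^ 2 := by
      rw [← Real.rpow_natCast, ← Real.rpow_mul hZ0.le]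
      congr 1; push_cast; ring
    rw [e7, hb]
    ring

/-- **the other side** -/
theorem side_Z'A {ε : ℝ} (hε : 0 < ε) : ∃ C : ℝ, 1 ≤ C ∧ ∀ Z : ℝ, 1 ≤ Z →
    ∀ (Pr : Yp → Yp → Prop) (J : Finset (Eis × Eis)) (EE : Finset Eis)
      (af : Eis → Eis → Eis → ℂ) (E0 E1 R B b₀ K V V' X H c Y G1 ρ RN : ℝ)
      (Bs : UT → ℝ) (sdf : (Fin 5 → Eis → Eis → ℝ) → (Eis → Eis → ℝ) → SF 5)
      (Pc : Cd → Prop),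
      OKJ J → 0 ≤ R → R ≤ Z → 0 ≤ B → B ≤ Z → 0 ≤ E1 → E1 ≤ Z → (∀ x ∈ J, (nm x.1 : ℝ) ≤ Z) →
      0 < K → 0 < V → 0 < V' → 0 < X → 0 < H → 0 ≤ G1 →
      (Real.sqrt (c * V') ≤ G1 ∨ (ClsP Pr J E0 R ∧ 1 ≤ G1)) →
      SDf sdf c Y K V' V H X Bs (Z ^ 5) Pc →
      (∀ i ∈ OI Pr J EE E0 E1 R B Z b₀ K, Pc (cdI i).swap) →
      0 ≤ ρ → 0 ≤ RN → RPn J EE (Z ^ 5) K H V' Bs ρ RN →
      ∃ sd : SF 5, sd.OK (Z ^ 5) Pc ∧ (∀ x, sd.H x = H) ∧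
        sd.Fib K V' V ((V' / V) ^ (1 / 6 : ℝ))⁻¹ X (OI Pr J EE E0 E1 R B Z b₀ K)
          (fun i => (cdI i).swap) ∧
        (∀ (cc u : ℝ), ∀ i ∈ OI Pr J EE E0 E1 R B Z b₀ K,
          (∀ P PR, u ≤ cc * CellF (sdf P PR) K V' V X af (cdI i).swap) →
          u ≤ cc * CellF sd K V' V X af (cdI i).swap) ∧
        SFB sd af (RR J EE) (RUs J EE (Z ^ 5)) ≤ C * Z ^ ε * (3 + ρ) * (hE EE *
          LVn af (J.image Prod.fst) EE c Y K H V' V E1 B G1 RN) := by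
  have hε7 : 0 < ε / 2 := by positivity
  obtain ⟨C2, hC2, h2⟩ := fib_OI' hε7
  refine ⟨C2 ^ 2, one_le_pow₀ hC2, ?_⟩
  intro Z hZ Pr J EE af E0 E1 R B b₀ K V V' X H c Y G1 ρ RN Bs sdf Pc hJ hR0 hRZ hB0 hBZ hE10
    hE1 hJ1 hK hV hV' hX hH hG1 hcl hs hPc hρ hRN hR
  have hZ0 : 0 < Z := by linarith
  have hZ5 : 1 ≤ Z ^ 5 := one_le_pow₀ hZ
  have hZe : 1 ≤ Z ^ (ε / 2) := Real.one_le_rpow hZ hε7.le
  obtain ⟨b, hb⟩ : ∃ b, b = C2 * Z ^ (ε / 2) := ⟨_, rfl⟩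
  have hb1 : 1 ≤ b := by rw [hb]; exact one_le_mul_of_one_le_of_one_le hC2 hZe
  have hb0 : 0 ≤ b := by linarith
  obtain ⟨P, hP⟩ : ∃ P, P = PZ b K H V' V E1 B (b * G1)
    ((H * V' ^ 2 * V * E1 ^ 3 * B ^ 2 / K ^ 2) ^ (1 / 3 : ℝ))
    (1 + (H ^ 2 * V' ^ 3 / K ^ 2) ^ (1 / 3 : ℝ)) ((H ^ 2 * V' ^ 3 / K ^ 2) ^ (1 / 2 : ℝ)) EE :=
    ⟨_, rfl⟩
  obtain ⟨Q, hQ⟩ : ∃ Q, Q = PRZ b K H V' EE := ⟨_, rfl⟩
  have hP0 : ∀ l d e, 0 ≤ P l d e := by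
    rw [hP]
    exact PZ_nonneg hb0 hK.le hH.le hV'.le hV.le (by positivity) (by positivity) (by positivity)
      (by positivity)
  have hQ0 : ∀ d e, 0 ≤ Q d e := by rw [hQ]; exact PRZ_nonneg hb0 hK.le hH.le hV'.le
  have hok := hs.ok P Q hP0 hQ0
  have hOK : ∀ i ∈ OI Pr J EE E0 E1 R B Z b₀ K, (cdI i).OK (Z ^ 5) EE := fun i hi =>
    OI_OK hJ hZ hR0 hRZ hB0 hBZ hE1 hJ1 hi
  refine ⟨cut1 (Real.sqrt (c * V')) (sdf P Q), cut1_OK hok, (hs.std P Q).hH, ?_, ?_, ?_⟩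
  · refine h2 Z hZ Pr J EE E0 E1 R B b₀ K V V' X H (Real.sqrt (c * V')) G1
      ((H * V' ^ 2 * V * E1 ^ 3 * B ^ 2 / K ^ 2) ^ (1 / 3 : ℝ))
      (1 + (H ^ 2 * V' ^ 3 / K ^ 2) ^ (1 / 3 : ℝ)) ((H ^ 2 * V' ^ 3 / K ^ 2) ^ (1 / 2 : ℝ)) b b _
      hJ hR0 hRZ hB0 hBZ hE10 hE1 hJ1 hK hV hV' hX hH (by positivity) (by positivity)
      (by positivity) hcl hG1 hb.ge hb.ge (by rw [hP, hQ]; exact hs.lin) ?_ ?_ ?_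
    · intro i hi
      rw [cut1_ext _ _ (by decide), (hs.std P Q).ext]
      exact (ext_OI hJ hZ hR0 hRZ hB0 hBZ hE1 hJ1 hi hK hV hV' hH hX).2.1
    · intro i hi
      rw [cut1_ext _ _ (by decide), (hs.std P Q).ext]
      exact (ext_OI hJ hZ hR0 hRZ hB0 hBZ hE1 hJ1 hi hK hV hV' hH hX).2.2.2.1
    · intro i hi
      rw [cut1_ext _ _ (by decide), (hs.std P Q).ext]
      exact (ext_OI hJ hZ hR0 hRZ hB0 hBZ hE1 hJ1 hi hK hV hV' hH hX).2.2.2.2.2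
  · intro cc u i hi hu
    rw [hs.cut hP0 hQ0 (hPc i hi) (hOK i hi).swap.OU]
    exact hu P Q
  · have k := SFB_leA J EE af c Y K H V' V X E1 B (Real.sqrt (c * V')) G1 b (Z ^ 5) ρ RN Bs
      (sdf P Q) hb1 hK hH hV' hV hE10 hB0 hG1 hρ hRN (hs.std P Q) ((hs.P P Q).trans hP)
      ((hs.PR P Q).trans hQ) hR
    refine k.trans (le_of_eq ?_)
    have e7 : Z ^ ε = (Z ^ (ε / 2)) ^ 2 := by
      rw [← Real.rpow_natCast, ← Real.rpow_mul hZ0.le]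
      congr 1; push_cast; ring
    rw [e7, hb]
    ring

/-- **one pair of levels** -/
theorem pair_ZA {A Bw : ℕ} (hA : 1 < A) (hB : 1 < Bw) {Rw : ℝ} (hRw : 0 ≤ Rw) {h : ℝ → ℝ}
    (hh : ContDiff ℝ ∞ h) (hhc : HasCompactSupport h) {w1 : ℝ → ℝ}
    (hw : ∀ x, w1 x ≠ 0 → 0 < x ∧ |Real.log x| ≤ Rw)
    (hw1 : ∀ x, 0 < x → h (Real.log x) ≠ 0 → w1 x = 1) {ε : ℝ} (hε : 0 < ε) :
    ∃ C : ℝ, 0 ≤ C ∧
    ∀ (Om Om' : ℝ → ℂ) (Mb : ℝ), 0 ≤ Mb → ContDiff ℝ ∞ Om → ContDiff ℝ ∞ Om' →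
      (∀ n ≤ A + 2, ∀ x, ‖iteratedDeriv n Om x‖ ≤ Mb) →
      (∀ n ≤ A + 2, ∀ x, ‖iteratedDeriv n Om' x‖ ≤ Mb) →
    ∀ (V V' τ : ℝ) (κ κ' : ℂ), 0 < V → 0 < V' → ‖κ‖ ≤ 1 → ‖κ'‖ ≤ 1 →
    ∀ (Z : ℝ), 1 ≤ Z → ∀ (Pr : Yp → Yp → Prop) (J : Finset (Eis × Eis))
      (om om' : Eis × Eis → ℂ) (af : Eis → Eis → Eis → ℂ) (EE : Finset Eis)
      (E0 E1 R B b₀ K X H c Y G1 G1' cc ρ RN RN' : ℝ)
      (Bs Bs' : UT → ℝ) (sdf sdf' : (Fin 5 → Eis → Eis → ℝ) → (Eis → Eis → ℝ) → SF 5)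
      (Pc : Cd → Prop),
      TC (T3 af) → (∀ d e, FS (af d e)) → OKJ J → (∀ d e, e ∉ EE → ∀ j, T3 af d e j = 0) →
      0 < K → 0 ≤ R → R ≤ Z → 0 ≤ B → B ≤ Z → 0 ≤ E1 → E1 ≤ Z →
      (∀ x ∈ J, (nm x.1 : ℝ) ≤ Z) → (∀ x ∈ J, (nm x.2 : ℝ) ≤ R) →
      WQ J om E0 R (wL κ h Om τ V) → WQ J om' E0 R (wL κ' h Om' τ V') →
      0 < X → 0 < H → 0 < cc → 0 ≤ G1 → 0 ≤ G1' →
      (Real.sqrt (c * V) ≤ G1 ∨ (ClsP Pr J E0 R ∧ 1 ≤ G1)) →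
      (Real.sqrt (c * V') ≤ G1' ∨ (ClsP Pr J E0 R ∧ 1 ≤ G1')) →
      SDf sdf c Y K V V' H X Bs (Z ^ 5) Pc → SDf sdf' c Y K V' V H X Bs' (Z ^ 5) Pc →
      (∀ i ∈ OI Pr J EE E0 E1 R B Z b₀ K, Pc (cdI i) ∧ Pc (cdI i).swap) →
      (∀ P PR, ∀ i ∈ OI Pr J EE E0 E1 R B Z b₀ K,
        sE1 A Bw K V V' af (w1L w1 V) i ≤ cc * CellF (sdf P PR) K V V' X af (cdI i)) →
      (∀ P PR, ∀ i ∈ OI Pr J EE E0 E1 R B Z b₀ K,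
        sE2 A Bw K V V' af (w1L w1 V') i ≤ cc * CellF (sdf' P PR) K V' V X af (cdI i).swap) →
      0 ≤ ρ → 0 ≤ RN → 0 ≤ RN' → RPn J EE (Z ^ 5) K H V Bs ρ RN →
      RPn J EE (Z ^ 5) K H V' Bs' ρ RN' →
      ∑ q ∈ S R, ∑ t ∈ pb E1, MPTr Pr A Bw K B V V' (Z ^ 5) J om om' (T3 af) E0 R b₀ q t ≤
        C * (3 + ρ) * cc * Mb ^ 2 * (1 + |τ|) ^ A * Z ^ ε * (hE EE *
          (LVn af (J.image Prod.fst) EE c Y K H V V' E1 B G1 RN +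
          LVn af (J.image Prod.fst) EE c Y K H V' V E1 B G1' RN')) := by
  have hε6 : 0 < ε / 6 := by positivity
  obtain ⟨C1, hC1, h1⟩ := MPT_level hA hB hRw hh hhc hw hw1 hε6
  obtain ⟨C2, hC2, h2⟩ := side_ZA hε6
  obtain ⟨C3, hC3, h3⟩ := side_Z'A hε6
  refine ⟨C1 * (C2 + C3), by positivity, ?_⟩
  intro Om Om' Mb hMb hOm hOm' hOb hOb' V V' τ κ κ' hV hV' hκ hκ' Z hZ Pr J om om' af EE E0 E1 R B
    b₀ K X H c Y G1 G1' cc ρ RN RN' Bs Bs' sdf sdf' Pc hT haf hJ hEE hK hR0 hRZ hB0 hBZ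
    hE10 hE1 hJ1 hJ2 hwq hwq' hX hH hcc hG1 hG1' hcl hcl' hs hs' hPc hu hu' hρ hRN hRN' hR hR'
  have hZ0 : 0 < Z := by linarith
  obtain ⟨sd, a1, a2, a3, a4, a5⟩ := h2 Z hZ Pr J EE af E0 E1 R B b₀ K V V' X H c Y G1 ρ RN Bs
    sdf Pc hJ hR0 hRZ hB0 hBZ hE10 hE1 hJ1 hK hV hV' hX hH hG1 hcl hs (fun i hi => (hPc i hi).1)
    hρ hRN hR
  obtain ⟨sd', a1', a2', a3', a4', a5'⟩ := h3 Z hZ Pr J EE af E0 E1 R B b₀ K V V' X H c Y G1' ρ RN'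
    Bs' sdf' Pc hJ hR0 hRZ hB0 hBZ hE10 hE1 hJ1 hK hV hV' hX hH hG1' hcl' hs'
    (fun i hi => (hPc i hi).2) hρ hRN' hR'
  have key := h1 Om Om' Mb hMb hOm hOm' hOb hOb' V V' τ κ κ' hV hV' hκ hκ' Z hZ Pr J om om' af EE
    E0 E1 R B b₀ K ((V' / V) ^ (1 / 6 : ℝ)) X cc 5 sd sd' Pc hT haf hJ hEE hK hR0 hRZ hB0 hBZ hE1
    hJ1 hJ2 hwq hwq' (by positivity) hX hcc a1 a1'
    (fun i _ => ⟨by rw [a2]; exact hH, by rw [a2']; exact hH⟩) a3 a3' hPc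
    (fun i hi => a4 cc _ i hi (fun P PR => hu P PR i hi))
    (fun i hi => a4' cc _ i hi (fun P PR => hu' P PR i hi))
  have n1 := LVn_nonneg (af := af) (Ds := J.image Prod.fst) (EE := EE) (c := c) (Y := Y) (E1 := E1)
    (B := B) hK.le hH.le hV.le hV'.le hE10 hG1 hRN
  have n2 := LVn_nonneg (af := af) (Ds := J.image Prod.fst) (EE := EE) (c := c) (Y := Y) (E1 := E1)
    (B := B) hK.le hH.le hV'.le hV.le hE10 hG1' hRN'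
  obtain ⟨N1, hN1⟩ : ∃ N1, N1 = LVn af (J.image Prod.fst) EE c Y K H V V' E1 B G1 RN := ⟨_, rfl⟩
  obtain ⟨N2, hN2⟩ : ∃ N2, N2 = LVn af (J.image Prod.fst) EE c Y K H V' V E1 B G1' RN' :=
    ⟨_, rfl⟩
  rw [← hN1] at a5 n1 ⊢
  rw [← hN2] at a5' n2 ⊢
  have e5 : (Z ^ 5) ^ (ε / 6) = (Z ^ (ε / 6)) ^ 5 := by
    rw [← Real.rpow_natCast, ← Real.rpow_natCast, ← Real.rpow_mul hZ0.le, ← Real.rpow_mul hZ0.le]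
    congr 1; ring
  have e6 : Z ^ ε = (Z ^ (ε / 6)) ^ 6 := by
    rw [← Real.rpow_natCast, ← Real.rpow_mul hZ0.le]
    congr 1; push_cast; ring
  rw [e6]
  rw [e5] at key
  obtain ⟨z, hz⟩ : ∃ z, z = Z ^ (ε / 6) := ⟨_, rfl⟩
  have hz0 : 0 ≤ z := by rw [hz]; positivity
  rw [← hz] at a5 a5' key ⊢
  have hhE := hE_nonneg EE
  have hc0 : 0 ≤ C1 * cc * Mb ^ 2 * (1 + |τ|) ^ A * z ^ 5 := by positivity
  have k3 : SFB sd af (RR J EE) (RUs J EE (Z ^ 5)) + SFB sd' af (RR J EE) (RUs J EE (Z ^ 5)) ≤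
      (C2 + C3) * z * (3 + ρ) * (hE EE * (N1 + N2)) := by
    refine (add_le_add a5 a5').trans ?_
    have m1 : 0 ≤ C3 * z * (3 + ρ) * (hE EE * N1) := by positivity
    have m2 : 0 ≤ C2 * z * (3 + ρ) * (hE EE * N2) := by positivity
    linarith
  refine key.trans ((mul_le_mul_of_nonneg_left k3 hc0).trans (le_of_eq ?_))
  ring

/-- **one pair of levels from the Möbius bounds** -/
theorem PAIRA {A Bw : ℕ} (hA : 1 < A) (hB : 4 ≤ Bw) {Rw : ℝ} (hRw : 0 ≤ Rw) {h : ℝ → ℝ}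
    (hh : ContDiff ℝ ∞ h) (hhc : HasCompactSupport h) {w1 : ℝ → ℝ}
    (hw : ∀ x, w1 x ≠ 0 → 0 < x ∧ |Real.log x| ≤ Rw)
    (hw1 : ∀ x, 0 < x → h (Real.log x) ≠ 0 → w1 x = 1) {cw cs b₀ : ℝ} (hcw : 1 ≤ cw)
    (hcs : 1 ≤ cs) (hRcs : Real.exp Rw ≤ cs) (hb₀ : 0 ≤ b₀) {ε : ℝ} (hε : 0 < ε)
    (hε1 : ε ≤ 1) :
    ∃ C : ℝ, 0 ≤ C ∧
    ∀ (Om Om' : ℝ → ℂ) (Mb : ℝ), 0 ≤ Mb → ContDiff ℝ ∞ Om → ContDiff ℝ ∞ Om' →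
      (∀ n ≤ A + 2, ∀ x, ‖iteratedDeriv n Om x‖ ≤ Mb) →
      (∀ n ≤ A + 2, ∀ x, ‖iteratedDeriv n Om' x‖ ≤ Mb) →
    ∀ (V V' τ : ℝ) (κ κ' : ℂ), 0 < V → 0 < V' → ‖κ‖ ≤ 1 → ‖κ'‖ ≤ 1 →
    ∀ (Z : ℝ), 1 ≤ Z → ∀ (Pr : Yp → Yp → Prop) (J : Finset (Eis × Eis))
      (om om' : Eis × Eis → ℂ) (af : Eis → Eis → Eis → ℂ) (EE : Finset Eis)
      (E0 E1 R B K X H G1 G1' C0 Zm ρ RN RN' : ℝ)
      (Bs Bs' : UT → ℝ),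
      TC (T3 af) → (∀ d e, FS (af d e)) → OKJ J → (∀ d e, e ∉ EE → ∀ j, T3 af d e j = 0) →
      0 < K → 0 ≤ R → R ≤ Z → 0 ≤ B → B ≤ Z → 0 ≤ E1 → E1 ≤ Z →
      (∀ x ∈ J, (nm x.1 : ℝ) ≤ Z) → (∀ x ∈ J, (nm x.2 : ℝ) ≤ R) →
      WQ J om E0 R (wL κ h Om τ V) → WQ J om' E0 R (wL κ' h Om' τ V') →
      0 < X → 0 < H → 0 < C0 → 0 ≤ G1 → 0 ≤ G1' →
      K ≤ Z ^ 5 → cw * cs * V ≤ Z ^ 5 → cw * cs * V' ≤ Z ^ 5 →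
      1 ≤ Zm → kZ 59049 b₀ * (Z ^ 5) ^ 10 ≤ Zm →
      (Real.sqrt (cw * cs * V) ≤ G1 ∨ (ClsP Pr J E0 R ∧ 1 ≤ G1)) →
      (Real.sqrt (cw * cs * V') ≤ G1' ∨ (ClsP Pr J E0 R ∧ 1 ≤ G1')) →
      (∀ t, 0 ≤ Bs t) → (∀ t, 0 ≤ Bs' t) →
      MB1 w1 A ε C0 cw cs K V H af (Z ^ 5) EE Bs Zm →
      MB2 w1 A ε C0 cw cs K V' H af (Z ^ 5) EE Bs' Zm →
      0 ≤ ρ → 0 ≤ RN → 0 ≤ RN' → RPn J EE (Z ^ 5) K H V Bs ρ RN →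
      RPn J EE (Z ^ 5) K H V' Bs' ρ RN' →
      ∑ q ∈ S R, ∑ t ∈ pb E1, MPTr Pr A Bw K B V V' (Z ^ 5) J om om' (T3 af) E0 R b₀ q t ≤
        C * (3 + ρ) * (C0 * cs ^ 2 * Zm ^ (3 * ε)) * Mb ^ 2 * (1 + |τ|) ^ A * Z ^ ε * (hE EE *
          (LVn af (J.image Prod.fst) EE (cw * cs) (Z ^ 5) K H V V' E1 B G1 RN +
          LVn af (J.image Prod.fst) EE (cw * cs) (Z ^ 5) K H V' V E1 B G1' RN')) := by
  obtain ⟨C1, hC1, h1⟩ := pair_ZA hA (by omega : 1 < Bw) hRw hh hhc hw hw1 hε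
  obtain ⟨C2, hC2, h2⟩ := cells hε hε1
  refine ⟨C1 * C2, by positivity, ?_⟩
  intro Om Om' Mb hMb hOm hOm' hOb hOb' V V' τ κ κ' hV hV' hκ hκ' Z hZ Pr J om om' af EE E0 E1 R B
    K X H G1 G1' C0 Zm ρ RN RN' Bs Bs' hT haf hJ hEE hK hR0 hRZ hB0 hBZ hE10 hE1 hJ1 hJ2
    hwq hwq' hX hH hC0 hG1 hG1' hKz hVz hVz' hZm hZm2 hcl hcl' hBs hBs' hM1 hM2 hρ hRN hRN' hR hR'
  have hcs0 : 0 < cs := by linarith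
  have hZm0 : 0 < Zm := by linarith
  obtain ⟨k1, k2⟩ := h2 (A := A) hB hw hC0.le hcw hcs hRcs hb₀ (Pr := Pr) (J := J) (E0 := E0)
    (E1 := E1) (R := R) (B := B) (EE := EE) hZ hJ hR0 hRZ hB0 hBZ hE1 hJ1 hK hKz hV hV' hVz hVz'
    hH hX hZm hZm2 haf hBs hBs' hM1 hM2
  have key := h1 Om Om' Mb hMb hOm hOm' hOb hOb' V V' τ κ κ' hV hV' hκ hκ' Z hZ Pr J om om' af EE
    E0 E1 R B b₀ K X H (cw * cs) (Z ^ 5) G1 G1' (C2 * C0 * cs ^ 2 * Zm ^ (3 * ε)) ρ RN RN'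
    Bs Bs' (fun P PR => sdC P PR (Z ^ 5) (cw * cs) cw cs K V V' H X Bs)
    (fun P PR => sdC P PR (Z ^ 5) (cw * cs) cw cs K V' V H X Bs') (PcC (Z ^ 5) EE b₀ K) hT haf hJ
    hEE hK hR0 hRZ hB0 hBZ hE10 hE1 hJ1 hJ2 hwq hwq' hX hH (by positivity) hG1 hG1' hcl hcl'
    (sdC_SDf hcw hcs le_rfl hK hV hV' hH hX hVz hBs)
    (sdC_SDf hcw hcs le_rfl hK hV' hV hH hX hVz' hBs')
    (fun i hi => ⟨⟨OI_OK hJ hZ hR0 hRZ hB0 hBZ hE1 hJ1 hi, OI_PC hi⟩,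
      ⟨(OI_OK hJ hZ hR0 hRZ hB0 hBZ hE1 hJ1 hi).swap, (OI_PC hi).swap⟩⟩) k1 k2 hρ hRN hRN' hR hR'
  exact key.trans (le_of_eq (by ring))

end Crest.Agent.R017.E3Zx744
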