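import Crest.Agent.R017.E3T1_579

/-!
# Row 17, block C70, leaf E3 (T2 at the levels) (helper579)

* `wL` : the weight of the sequences of a level `κ h (log ln x - log V) Om (log ln x) pw τ (nm x.2)`
* `WQ_level`, `WQ_JW` : `WQ` for the level weights
* `SE_level` : one side with the level weight against the fixed weight `w1 (x / Nq V q y)`
* `NSum`, `MPTr_le_NSum`, `MPTr_level` : T1 + T2
-/

set_option autoImplicit false
set_option linter.unusedVariables false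
set_option maxHeartbeats 800000

noncomputable section

open Complex MeasureTheory
open scoped ComplexConjugate Classical ContDiff

namespace Crest.Agent.R017.E3T2579

open Crest.Agent.R012 Crest.Agent.R012.Eis Crest.Agent.R012.MC
open Crest.Agent.R012.LS2 (S mem_S bl mem_bl)
open Crest.Agent.R012.Div277 (dvs mem_dvs isPrim_of_mem_dvs dvd_of_mem_dvs)
open Crest.Agent.R012.Mob705 (mu pdiv mem_pdiv)
open Crest.Agent.R012.Weight600 (pw osc norm_osc norm_pw pw_mul)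
open Crest.Agent.R017.CM106 (CS TG FS)
open Crest.Agent.R017.BD829
open Crest.Agent.R017.E3D579
open Crest.Agent.R017.E3Sp579
open Crest.Agent.R017.E3Sq579
open Crest.Agent.R017.E3T1579
open Crest.Agent.R017.C70
open Crest.Agent.R017.GrB829 (IsC)
open Crest.Agent.R017.E3M829 (TC)
open Crest.Agent.R017.E3A164 (be fq Yp Ys qu mem_Cs)
open Crest.Agent.R017.E3F548 (UU MM MM_prim MM_dvd Cop Kr pf gg cf₁ cf₂ Mc pc LC_pc Nq MPTr mem_Ys'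
  Nq_pos pf_nonneg isC_ne SR_prim)
open Crest.Agent.R017.E1551 (nmpos)

lemma conj_pw (t x : ℝ) : conj (pw t x) = pw (-t) x := by
  unfold pw osc
  rw [← Complex.exp_conj]
  congr 1
  simp

/-- the scale of `n` -/
def Pq (q : Eis) (y : Yp) : ℝ := nm y.1 ^ 2 * (nm q * nm y.2.2.1 * nm y.2.2.2 ^ 2)

/-- the weight of a level -/
def wL (κ : ℂ) (h : ℝ → ℝ) (Om : ℝ → ℂ) (τ V : ℝ) (q : Eis) (y : Yp) (z : ℝ) : ℂ :=
  (conj κ * conj (pw τ (nm (q * y.2.2.1 * y.2.2.2 ^ 2)))) *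
    (((h (Real.log z - Real.log (Nq V q y)) : ℝ) : ℂ) *
      conj (Om (Real.log z + Real.log (Pq q y))) * pw (-τ) z)

lemma Pq_pos {q : Eis} (hq : IsPrim q) {y : Yp} (hd : IsPrim y.1) (hc : IsC y.2.2.1)
    (hg : IsPrim y.2.2.2) : 0 < Pq q y := by
  unfold Pq
  have n0 := nmpos hd.ne_zero
  have n1 := nmpos hq.ne_zero
  have n2 := nmpos (isC_ne hc)
  have n3 := nmpos hg.ne_zero
  positivity

section

variable {J : Finset (Eis × Eis)} {om om' : Eis × Eis → ℂ} {E0 R V τ : ℝ} {κ : ℂ} {h : ℝ → ℝ}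
  {Om : ℝ → ℂ}

/-- **the weights of a level** -/
theorem WQ_level (hV : 0 < V) (hJ : OKJ J)
    (hom : ∀ x ∈ J, om x = κ * (((h (Real.log (nm (x.2 * x.1 ^ 2)) - Real.log V) : ℝ) : ℂ) *
      Om (Real.log (nm (x.2 * x.1 ^ 2))) * pw τ (nm x.2)))
    (hin : ∀ q ∈ S R, ∀ y ∈ Ys J E0 R, Squarefree (y.1 * y.2.2.2) → IsCoprime q (y.1 * y.2.2.2) →
      ∀ n, IsPrim n → Squarefree n → IsCoprime n y.2.2.2 →
      h (Real.log (nm (fq q y.2.2.1 y.2.2.2 n * y.1 ^ 2)) - Real.log V) ≠ 0 →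
      Om (Real.log (nm (fq q y.2.2.1 y.2.2.2 n * y.1 ^ 2))) ≠ 0 →
      (y.1, fq q y.2.2.1 y.2.2.2 n) ∈ J) : WQ J om E0 R (wL κ h Om τ V) := by
  intro q hq y hy hs hc n hn hns hng
  have hqp := (SR_prim hq).1
  obtain ⟨-, hy1, -, hyc, -⟩ := mem_Ys' hJ hy
  have hP := Pq_pos hqp hy1.1 hyc hy1.2.2.1
  have nn := nmpos hn.ne_zero
  have e1 : (nm (fq q y.2.2.1 y.2.2.2 n * y.1 ^ 2) : ℝ) = Pq q y * nm n := by
    unfold fq Pq
    rw [nm_mul, nm_mul, nm_mul, nm_mul, nm_pow, nm_pow]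
    push_cast
    ring
  have e2 : Real.log (nm (fq q y.2.2.1 y.2.2.2 n * y.1 ^ 2)) =
      Real.log (nm n) + Real.log (Pq q y) := by
    rw [e1, Real.log_mul hP.ne' nn.ne', add_comm]
  have e3 : Real.log (Nq V q y) = Real.log V - Real.log (Pq q y) := by
    have : Nq V q y = V / Pq q y := rfl
    rw [this, Real.log_div hV.ne' hP.ne']
  have e4 : fq q y.2.2.1 y.2.2.2 n = (q * y.2.2.1 * y.2.2.2 ^ 2) * n := by unfold fq; ring
  have hqc : (0 : ℝ) < nm (q * y.2.2.1 * y.2.2.2 ^ 2) :=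
    nmpos (mul_ne_zero (mul_ne_zero hqp.ne_zero (isC_ne hyc)) (pow_ne_zero 2 hy1.2.2.1.ne_zero))
  have e5 : pw τ (nm (fq q y.2.2.1 y.2.2.2 n)) =
      pw τ (nm (q * y.2.2.1 * y.2.2.2 ^ 2)) * pw τ (nm n) := by
    rw [e4, nm_mul, Nat.cast_mul, pw_mul hqc.ne' nn.ne']
  have e6 : Real.log (nm n) + Real.log (Pq q y) - Real.log V =
      Real.log (nm n) - (Real.log V - Real.log (Pq q y)) := by ring
  unfold wL
  by_cases hx : (y.1, fq q y.2.2.1 y.2.2.2 n) ∈ J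
  · rw [if_pos hx, hom _ hx]
    simp only
    rw [e2, e5, e3, e6, ← conj_pw]
    simp only [map_mul, Complex.conj_ofReal]
    ring
  · rw [if_neg hx]
    by_cases h1 : h (Real.log (nm (fq q y.2.2.1 y.2.2.2 n * y.1 ^ 2)) - Real.log V) = 0
    · rw [e2, e6] at h1
      rw [e3, h1]
      simp
    · by_cases h2 : Om (Real.log (nm (fq q y.2.2.1 y.2.2.2 n * y.1 ^ 2))) = 0
      · rw [e2] at h2
        rw [h2]
        simp
      · exact absurd (hin q hq y hy hs hc n hn hns hng h1 h2) hx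

/-- the weights of a level, the window -/
theorem WQ_JW {D Y₀ Y₁ : ℝ} (hD : 0 ≤ D) (hY : 0 ≤ Y₁) (hV : 0 < V)
    (hom : ∀ x ∈ JW D Y₀ Y₁, om x = κ * (((h (Real.log (nm (x.2 * x.1 ^ 2)) - Real.log V) : ℝ) :
      ℂ) * Om (Real.log (nm (x.2 * x.1 ^ 2))) * pw τ (nm x.2)))
    (hwin : ∀ z, 0 < z → h (Real.log z - Real.log V) ≠ 0 → Om (Real.log z) ≠ 0 →
      Y₀ < z ∧ z ≤ Y₁) : WQ (JW D Y₀ Y₁) om E0 R (wL κ h Om τ V) := by
  refine WQ_level hV (okJ_JW D Y₀ Y₁) hom ?_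
  intro q hq y hy hs hc n hn hns hng h1 h2
  have hqp := SR_prim hq
  obtain ⟨⟨x, hx, hxy⟩, hy1, -, hyc, -⟩ := mem_Ys' (okJ_JW D Y₀ Y₁) hy
  have hdD : (nm y.1 : ℝ) ≤ D := by
    unfold JW at hx
    rw [Finset.mem_filter, Finset.mem_product, mem_primBall] at hx
    rw [← hxy]
    exact (Nat.le_floor_iff hD).mp hx.1.1.1
  have nn := nmpos hn.ne_zero
  have hP := Pq_pos hqp.1 hy1.1 hyc hy1.2.2.1
  have e1 : (nm (fq q y.2.2.1 y.2.2.2 n * y.1 ^ 2) : ℝ) = Pq q y * nm n := by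
    unfold fq Pq
    rw [nm_mul, nm_mul, nm_mul, nm_mul, nm_pow, nm_pow]
    push_cast
    ring
  have e2 : (nm (q * y.2.2.1 * y.2.2.2 ^ 2 * y.1 ^ 2) : ℝ) = Pq q y := by
    unfold Pq
    rw [nm_mul, nm_mul, nm_mul, nm_pow, nm_pow]
    push_cast
    ring
  rw [mem_JW_fq hY hqp.1 hqp.2 hyc hy1.2.2.1 hy1.1 hy1.2.1 hD hdD hn hns hng, e2, ← e1]
  exact ⟨⟨hy1.2.2.2, hc.of_mul_right_right⟩, hwin _ (by rw [e1]; positivity) h1 h2⟩

end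

/-! ### one side -/

lemma norm_iteratedDeriv_conj (f : ℝ → ℂ) (n : ℕ) (x : ℝ) :
    ‖iteratedDeriv n (fun x => conj (f x)) x‖ = ‖iteratedDeriv n f x‖ := by
  rw [← norm_iteratedFDeriv_eq_norm_iteratedDeriv, ← norm_iteratedFDeriv_eq_norm_iteratedDeriv]
  exact LinearIsometryEquiv.norm_iteratedFDeriv_comp_left Complex.conjLIE f x n

/-- **one side at a level** -/
theorem SE_level {A : ℕ} (hA : 1 < A) {Rw : ℝ} (hR : 0 ≤ Rw) {h : ℝ → ℝ} (hh : ContDiff ℝ ∞ h)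
    (hhc : HasCompactSupport h) {w1 : ℝ → ℝ}
    (hw : ∀ x, w1 x ≠ 0 → 0 < x ∧ |Real.log x| ≤ Rw)
    (hw1 : ∀ x, 0 < x → h (Real.log x) ≠ 0 → w1 x = 1) : ∃ C : ℝ, 0 ≤ C ∧
    ∀ (Om : ℝ → ℂ) (Mb : ℝ), 0 ≤ Mb → ContDiff ℝ ∞ Om →
      (∀ n ≤ A + 2, ∀ x, ‖iteratedDeriv n Om x‖ ≤ Mb) →
    ∀ (V τ : ℝ) (κ : ℂ), 0 < V → ‖κ‖ ≤ 1 →
    ∀ (Bw : ℕ) (M₀ : Eis) (ψ : Eis → ℂ) (Kq NN : ℝ) (af : Eis → Eis → Eis → ℂ) (q M : Eis)
      (y : Yp) (sg m a a' D E F : Eis), 1 < Bw → M₀ ≠ 0 → 0 < Kq → 0 < NN → IsPrim q →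
      IsPrim y.1 → IsC y.2.2.1 → IsPrim y.2.2.2 → IsPrim a → IsPrim D → IsPrim F → E ≠ 0 →
      SE A Bw M₀ ψ Kq NN af (wL κ h Om τ V q y) q M y sg m a a' D E F ≤
        C * Mb ^ 2 * (1 + |τ|) ^ A *
        SE A Bw M₀ ψ Kq NN af (fun x => ((w1 (x / Nq V q y) : ℝ) : ℂ)) q M y sg m a a' D E F := by
  obtain ⟨C, hC0, hC⟩ := UE_part hA hR hh hhc hw hw1
  refine ⟨C, hC0, fun Om Mb hMb hOm hOb V τ κ hV hκ Bw M₀ ψ Kq NN af q M y sg m a a' D E F hB hM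
    hK hN hq hd hc hg ha hD hF hE => ?_⟩
  have h1 := hC (fun z => conj (Om (z + Real.log (Pq q y)))) Mb hMb
    (Complex.conjCLE.contDiff.comp (hOm.comp (contDiff_id.add contDiff_const)))
    (fun n hn x => by
      rw [norm_iteratedDeriv_conj, iteratedDeriv_comp_add_const]
      exact hOb n hn _)
    (Nq V q y) (-τ) (conj κ * conj (pw τ (nm (q * y.2.2.1 * y.2.2.2 ^ 2))))
    (Nq_pos hV hq hd hc hg)
    (by rw [norm_mul, RCLike.norm_conj, RCLike.norm_conj, norm_pw, mul_one]; exact hκ)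
    (wL κ h Om τ V q y) (fun x _ => rfl) Bw M₀ ψ Kq NN (y.2.2.1 * (qu M y.2.2.2 * sg))
    (y.2.2.2 * y.1) (b0 (af y.1 y.2.1) y.1 y.2.1 (q * y.2.2.1 * y.2.2.2 ^ 2)) m a a' D E F hB hM
    hK hN ha hD hF hE
  rw [abs_neg] at h1
  unfold SE UF
  split_ifs
  · exact h1
  · rw [mul_zero]

/-! ### the nested sum -/

/-- **the nested sum** of T1 at `(q, t)` -/
def NSum (Pr : Yp → Yp → Prop) (A Bw : ℕ) (K B b₀ V V' Z : ℝ) (J : Finset (Eis × Eis))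
    (E0 R : ℝ) (EE : Finset Eis) (af : Eis → Eis → Eis → ℂ) (wq wq' : Eis → Yp → ℝ → ℂ)
    (ρ : Yp → Yp → Eis → Eis → Eis → Eis → Eis → Eis → Eis → Eis → Eis → ℝ) (q t : Eis) : ℝ :=
  ∑ y ∈ Ys J E0 R, ∑ y' ∈ Ys J E0 R, ∑ b ∈ S B, ∑ b' ∈ S B, ∑ s ∈ pdiv q,
      ∑ sg ∈ pdiv (gg y y'), ∑ a ∈ dvs (cf₂ y y'), ∑ a' ∈ dvs (cf₁ y y'), ∑ D ∈ S (Z ^ 5),
        ∑ E ∈ pdiv D, ∑ F ∈ S (Z ^ 5), if (Pr y y' ∧ Cop (MM q t y y' b b' s) y y' ∧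
          (nm (MM q t y y' b b' s * q ^ 2 * t ^ 3) : ℝ) ≤ b₀ * K) ∧ CO EE q y y' D F then
          pf K q t y y' * (Kr K q t (MM q t y y' b b' s) / nm sg / Real.sqrt (Nq V q y *
            Nq V' q y' * nm (cf₁ y y') * nm (cf₂ y y') / (nm a * nm a'))) * (nm D / nm E : ℝ) *
          (ρ y y' b b' s sg a a' D E F * SE A Bw (Mc y.2.2.1 y'.2.2.1) (pc y.2.2.1 y'.2.2.1)
            (Kr K q t (MM q t y y' b b' s) / nm sg) (Nq V q y * Nq V' q y' * nm (cf₁ y y') *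
              nm (cf₂ y y') / (nm a * nm a')) af (wq q y) q (MM q t y y' b b' s) y sg
                (cf₂ y y') a a' D E F +
          (ρ y y' b b' s sg a a' D E F)⁻¹ * SE A Bw (Mc y.2.2.1 y'.2.2.1)
            (fun m => conj (pc y.2.2.1 y'.2.2.1 m)) (Kr K q t (MM q t y y' b b' s) / nm sg)
            (Nq V q y * Nq V' q y' * nm (cf₁ y y') * nm (cf₂ y y') / (nm a * nm a')) af
              (wq' q y') q (MM q t y y' b b' s) y' sg (cf₁ y y') a' a D E F) else 0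

/-- the fixed weight at a level -/
def w1L (w1 : ℝ → ℝ) (V : ℝ) (q : Eis) (y : Yp) (x : ℝ) : ℂ := ((w1 (x / Nq V q y) : ℝ) : ℂ)

/-- **T1 + T2** -/
theorem MPTr_level {A Bw : ℕ} (hA : 1 < A) (hB : 1 < Bw) {Rw : ℝ} (hRw : 0 ≤ Rw) {h : ℝ → ℝ}
    (hh : ContDiff ℝ ∞ h) (hhc : HasCompactSupport h) {w1 : ℝ → ℝ}
    (hw : ∀ x, w1 x ≠ 0 → 0 < x ∧ |Real.log x| ≤ Rw)
    (hw1 : ∀ x, 0 < x → h (Real.log x) ≠ 0 → w1 x = 1) : ∃ C : ℝ, 0 ≤ C ∧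
    ∀ (Om Om' : ℝ → ℂ) (Mb : ℝ), 0 ≤ Mb → ContDiff ℝ ∞ Om → ContDiff ℝ ∞ Om' →
      (∀ n ≤ A + 2, ∀ x, ‖iteratedDeriv n Om x‖ ≤ Mb) →
      (∀ n ≤ A + 2, ∀ x, ‖iteratedDeriv n Om' x‖ ≤ Mb) →
    ∀ (V V' τ : ℝ) (κ κ' : ℂ), 0 < V → 0 < V' → ‖κ‖ ≤ 1 → ‖κ'‖ ≤ 1 →
    ∀ (J : Finset (Eis × Eis)) (om om' : Eis × Eis → ℂ) (af : Eis → Eis → Eis → ℂ)
      (EE : Finset Eis) (K Z R E0 B b₀ : ℝ) (Pr : Yp → Yp → Prop)
      (ρ : Yp → Yp → Eis → Eis → Eis → Eis → Eis → Eis → Eis → Eis → Eis → ℝ),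
      TC (T3 af) → (∀ d e, FS (af d e)) → OKJ J → (∀ d e, e ∉ EE → ∀ j, T3 af d e j = 0) →
      0 < K → 1 ≤ Z → 0 ≤ R → R ≤ Z → (∀ x ∈ J, (nm x.1 : ℝ) ≤ Z) →
      (∀ x ∈ J, (nm x.2 : ℝ) ≤ R) → WQ J om E0 R (wL κ h Om τ V) →
      WQ J om' E0 R (wL κ' h Om' τ V') →
      (∀ y y' b b' s sg a a' D E F, 0 < ρ y y' b b' s sg a a' D E F) →
    ∀ q ∈ S R, ∀ t, IsPrim t →
    MPTr Pr A Bw K B V V' (Z ^ 5) J om om' (T3 af) E0 R b₀ q t ≤ C * Mb ^ 2 * (1 + |τ|) ^ A *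
      NSum Pr A Bw K B b₀ V V' Z J E0 R EE af (w1L w1 V) (w1L w1 V') ρ q t := by
  obtain ⟨C, hC0, hC⟩ := SE_level hA hRw hh hhc hw hw1
  refine ⟨C, hC0, fun Om Om' Mb hMb hOm hOm' hOb hOb' V V' τ κ κ' hV hV' hκ hκ' J om om' af EE K Z
    R E0 B b₀ Pr ρ hT haf hJ hEE hK hZ hR0 hRZ hJ1 hJ2 hwq hwq' hρ q hq t ht => ?_⟩
  refine (MPTr_le hA hB hT haf hJ hEE hK hZ hR0 hRZ hJ1 hJ2 hV hV' hq ht hwq hwq' Pr hρ).trans ?_
  have hqp := (SR_prim hq).1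
  set c : ℝ := C * Mb ^ 2 * (1 + |τ|) ^ A with hc
  have hc0 : 0 ≤ c := by positivity
  have hZ5 : 0 ≤ Z ^ 5 := by positivity
  unfold NSum
  rw [Finset.mul_sum]; refine Finset.sum_le_sum fun y hy => ?_
  rw [Finset.mul_sum]; refine Finset.sum_le_sum fun y' hy' => ?_
  obtain ⟨-, hy1, hy2, hyc, -⟩ := mem_Ys' hJ hy
  obtain ⟨-, hy1', hy2', hyc', -⟩ := mem_Ys' hJ hy'
  have hNq := Nq_pos hV hqp hy1.1 hyc hy1.2.2.1
  have hNq' := Nq_pos hV' hqp hy1'.1 hyc' hy1'.2.2.1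
  rw [Finset.mul_sum]; refine Finset.sum_le_sum fun b hb => ?_
  rw [Finset.mul_sum]; refine Finset.sum_le_sum fun b' hb' => ?_
  rw [Finset.mul_sum]; refine Finset.sum_le_sum fun s hs => ?_
  have hsp := ((mem_pdiv hqp.ne_zero).mp hs).1
  have hMp : IsPrim (MM q t y y' b b' s) := MM_prim hqp ht hy2 hy2' hy1.2.2.1 hy1'.2.2.1
    (SR_prim hb).1 (SR_prim hb').1 hsp
  rw [Finset.mul_sum]; refine Finset.sum_le_sum fun sg hsg => ?_
  rw [Finset.mul_sum]; refine Finset.sum_le_sum fun a ha => ?_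
  rw [Finset.mul_sum]; refine Finset.sum_le_sum fun a' ha' => ?_
  rw [Finset.mul_sum]; refine Finset.sum_le_sum fun D hD => ?_
  rw [Finset.mul_sum]; refine Finset.sum_le_sum fun E hE => ?_
  rw [Finset.mul_sum]; refine Finset.sum_le_sum fun F hF => ?_
  split_ifs with hco
  · obtain ⟨g1, g2, g3, g4, g5⟩ := StA828.gp_spec (y.1 * y.2.2.2) (hy1'.1.mul hy1'.2.2.1)
    have e1 : y.1 * y.2.2.2 = gg y y' * cf₁ y y' := g3
    have p2 : IsPrim (cf₂ y y') := g2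
    have p1 : IsPrim (cf₁ y y') := IsPrim.of_mul_left (e1 ▸ (hy1.1.mul hy1.2.2.1)) g1
    have hap := isPrim_of_mem_dvs ha
    have hap' := isPrim_of_mem_dvs ha'
    have hDp := (SR_prim hD).1
    have hFp := (SR_prim hF).1
    have hEp := ((mem_pdiv hDp.ne_zero).mp hE).1
    have hsgp := ((mem_pdiv g1.ne_zero).mp hsg).1
    have n1 := nmpos hqp.ne_zero
    have n2 := nmpos ht.ne_zero
    have n3 := nmpos hMp.ne_zero
    have n4 := nmpos hsgp.ne_zero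
    have n5 := nmpos p1.ne_zero
    have n6 := nmpos p2.ne_zero
    have n7 := nmpos hap.ne_zero
    have n8 := nmpos hap'.ne_zero
    have hKr : 0 < Kr K q t (MM q t y y' b b' s) / nm sg := by
      unfold Kr
      positivity
    have hNN : 0 < Nq V q y * Nq V' q y' * nm (cf₁ y y') * nm (cf₂ y y') / (nm a * nm a' : ℝ) := by
      positivity
    have hM0 : Mc y.2.2.1 y'.2.2.1 ≠ 0 := (LC_pc hyc hyc').ne
    have k1 := hC Om Mb hMb hOm hOb V τ κ hV hκ Bw (Mc y.2.2.1 y'.2.2.1) (pc y.2.2.1 y'.2.2.1)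
      (Kr K q t (MM q t y y' b b' s) / nm sg) (Nq V q y * Nq V' q y' * nm (cf₁ y y') *
        nm (cf₂ y y') / (nm a * nm a')) af q (MM q t y y' b b' s) y sg (cf₂ y y') a a' D E F hB
      hM0 hKr hNN hqp hy1.1 hyc hy1.2.2.1 hap hDp hFp hEp.ne_zero
    have k2 := hC Om' Mb hMb hOm' hOb' V' τ κ' hV' hκ' Bw (Mc y.2.2.1 y'.2.2.1)
      (fun m => conj (pc y.2.2.1 y'.2.2.1 m))
      (Kr K q t (MM q t y y' b b' s) / nm sg) (Nq V q y * Nq V' q y' * nm (cf₁ y y') *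
        nm (cf₂ y y') / (nm a * nm a')) af q (MM q t y y' b b' s) y' sg (cf₁ y y') a' a D E F hB
      hM0 hKr hNN hqp hy1'.1 hyc' hy1'.2.2.1 hap' hDp hFp hEp.ne_zero
    have hρ0 := (hρ y y' b b' s sg a a' D E F).le
    have hρ1 := inv_nonneg.mpr hρ0
    have hpf := pf_nonneg (q := q) (t := t) hK.le y y'
    have hpre : 0 ≤ pf K q t y y' * (Kr K q t (MM q t y y' b b' s) / nm sg / Real.sqrt (Nq V q y *
            Nq V' q y' * nm (cf₁ y y') * nm (cf₂ y y') / (nm a * nm a'))) * (nm D / nm E : ℝ) := by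
      positivity
    have k3 := mul_le_mul_of_nonneg_left (add_le_add (mul_le_mul_of_nonneg_left k1 hρ0)
      (mul_le_mul_of_nonneg_left k2 hρ1)) hpre
    refine k3.trans (le_of_eq ?_)
    unfold w1L
    ring
  · rw [mul_zero]

end Crest.Agent.R017.E3T2579
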