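import Crest.Agent.R017.E3Uh_829
import Crest.Agent.R017.E3T2_579

/-!
# Row 17, R8 (E3), the mode total of the level weights through the cells (helper829)

* `NSum_eq` : the nested sum = the sum over the literal family
* `OI_sum` : the sum over the literal family from the bound of one cell
* `MPT_level` : `Σ_{q,t} MPTr ≤ C c Mb² (1+|τ|)^A Z^ε (SFB + SFB')`
-/

set_option autoImplicit false
set_option linter.unusedVariables false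

noncomputable section

open Finset
open scoped Classical ComplexConjugate ContDiff

namespace Crest.Agent.R017.E3T829

open Crest.Agent.R012 Crest.Agent.R012.Eis Crest.Agent.R012.Div277
open Crest.Agent.R012.LS2 (S mem_S bl mem_bl)
open Crest.Agent.R012.Mob705 (pdiv mem_pdiv pb mem_pb)
open Crest.Agent.R017.CM106 (CS FS)
open Crest.Agent.R017.C70 (JC OKJ)
open Crest.Agent.R017.GrB829 (IsC)
open Crest.Agent.R017.E3A164 (Yp Cs mem_Cs qu Ys)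
open Crest.Agent.R017.E3M829 (TC)
open Crest.Agent.R017.E3F548 (MM Kr pf gg cf₁ cf₂ Nq Cop MPTr Mc pc SR_prim mem_Ys' nm_cf_le)
open Crest.Agent.R017.E3T1579 (T3 SE UF CO WQ MPTr_le)
open Crest.Agent.R017.E3T2579 (NSum w1L wL MPTr_level)

/-- the weights `ρ` of the nested sum -/
def rhoI (rv : ℝ) (i : IX) : ℝ := if 0 < (cdI i).rho rv then (cdI i).rho rv else 1

lemma rhoI_pos (rv : ℝ) (i : IX) : 0 < rhoI rv i := by
  unfold rhoI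
  split_ifs with h0
  · exact h0
  · norm_num

/-- **the nested sum = the sum over the literal family** -/
theorem NSum_eq {Pr : Yp → Yp → Prop} {A Bw : ℕ} {J : Finset (Eis × Eis)}
    {af : Eis → Eis → Eis → ℂ} {EE : Finset Eis} {E0 E1 R B b₀ K V V' rv Z : ℝ}
    {wq wq' : Eis → Yp → ℝ → ℂ} (hJ : OKJ J) (hK : 0 < K) (hZ : 1 ≤ Z) (hR0 : 0 ≤ R)
    (hRZ : R ≤ Z) (hB0 : 0 ≤ B) (hBZ : B ≤ Z) (hE1 : E1 ≤ Z)
    (hJ1 : ∀ x ∈ J, (nm x.1 : ℝ) ≤ Z) (hV : 0 < V) (hV' : 0 < V') (hrv : 0 < rv) :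
    ∑ q ∈ S R, ∑ t ∈ pb E1, NSum Pr A Bw K B b₀ V V' Z J E0 R EE af wq wq'
      (fun y y' b b' s sg a a' D E F => rhoI rv (q, t, y, y', b, b', s, sg, a, a', D, E, F)) q t =
    ∑ i ∈ OI Pr J EE E0 E1 R B Z b₀ K, (cdI i).om0 K V V' *
      ((cdI i).rho rv * sE1 A Bw K V V' af wq i +
        ((cdI i).rho rv)⁻¹ * sE2 A Bw K V V' af wq' i) := by
  unfold OI
  rw [sum_filter, sum_IX0]
  refine sum_congr rfl fun q hq => sum_congr rfl fun t ht => ?_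
  unfold NSum
  refine sum_congr rfl fun y hy => sum_congr rfl fun y' hy' => sum_congr rfl fun b hb =>
      sum_congr rfl fun b' hb' => sum_congr rfl fun s hs => sum_congr rfl fun sg hsg =>
      sum_congr rfl fun a ha => sum_congr rfl fun a' ha' => sum_congr rfl fun D hD =>
      sum_congr rfl fun E hE => sum_congr rfl fun F hF => ?_
  by_cases hc : CI Pr EE b₀ K (q, t, y, y', b, b', s, sg, a, a', D, E, F)
  · have hmem : (q, t, y, y', b, b', s, sg, a, a', D, E, F) ∈ OI Pr J EE E0 E1 R B Z b₀ K := by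
      unfold OI
      rw [mem_filter, mem_IX0]
      exact ⟨⟨hq, ht, hy, hy', hb, hb', hs, hsg, ha, ha', hD, hE, hF⟩, hc⟩
    have hok := OI_OK hJ hZ hR0 hRZ hB0 hBZ hE1 hJ1 hmem
    have hρ1 : rhoI rv (q, t, y, y', b, b', s, sg, a, a', D, E, F) =
        (cdI (q, t, y, y', b, b', s, sg, a, a', D, E, F)).rho rv := by
      unfold rhoI
      rw [if_pos (Cd.rho_pos hok hrv)]
    rw [if_pos hc]
    unfold CI at hc
    rw [if_pos hc]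
    beta_reduce
    rw [hρ1]
    have e1 := Cd.mk'_om0 hok hK hV hV'
    have e2 := SE_eq hok hK hV hV' A Bw (Mc y.2.2.1 y'.2.2.1) (pc y.2.2.1 y'.2.2.1) af (wq q y)
    have e3 := SE_eq' hok hK hV hV' A Bw (Mc y.2.2.1 y'.2.2.1)
      (fun m => conj (pc y.2.2.1 y'.2.2.1 m)) af (wq' q y')
    rw [e2, e3, e1]
    rfl
  · rw [if_neg hc]
    unfold CI at hc
    rw [if_neg hc]

/-- **the sum over the literal family from the bound of one cell** -/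
theorem OI_sum {ε : ℝ} (hε : 0 < ε) : ∃ C : ℝ, 1 ≤ C ∧ ∀ Z : ℝ, 1 ≤ Z →
    ∀ (Pr : Yp → Yp → Prop) (A Bw : ℕ) (J : Finset (Eis × Eis))
      (af : Eis → Eis → Eis → ℂ) (EE : Finset Eis) (E0 E1 R B b₀ K V V' rv X c : ℝ)
      (wq wq' : Eis → Yp → ℝ → ℂ) (n : ℕ) (sd sd' : SF n) (Pc : Cd → Prop),
      (∀ d e, FS (af d e)) → OKJ J → 0 < K → 0 ≤ R → R ≤ Z → 0 ≤ B → B ≤ Z → E1 ≤ Z →
      (∀ x ∈ J, (nm x.1 : ℝ) ≤ Z) → 0 < V → 0 < V' → 0 < rv → 0 < X → 0 < c →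
      sd.OK (Z ^ 5) Pc → sd'.OK (Z ^ 5) Pc →
      (∀ i ∈ OI Pr J EE E0 E1 R B Z b₀ K, 0 < sd.H (cdI i) ∧ 0 < sd'.H (cdI i).swap) →
      sd.Fib K V V' rv X (OI Pr J EE E0 E1 R B Z b₀ K) cdI →
      sd'.Fib K V' V rv⁻¹ X (OI Pr J EE E0 E1 R B Z b₀ K) (fun i => (cdI i).swap) →
      (∀ i ∈ OI Pr J EE E0 E1 R B Z b₀ K, Pc (cdI i) ∧ Pc (cdI i).swap) →
      (∀ i ∈ OI Pr J EE E0 E1 R B Z b₀ K,
        sE1 A Bw K V V' af wq i ≤ c * CellF sd K V V' X af (cdI i)) →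
      (∀ i ∈ OI Pr J EE E0 E1 R B Z b₀ K,
        sE2 A Bw K V V' af wq' i ≤ c * CellF sd' K V' V X af (cdI i).swap) →
      ∑ i ∈ OI Pr J EE E0 E1 R B Z b₀ K, (cdI i).om0 K V V' *
        ((cdI i).rho rv * sE1 A Bw K V V' af wq i +
        ((cdI i).rho rv)⁻¹ * sE2 A Bw K V V' af wq' i) ≤
        C * c * (Z ^ 5) ^ ε * (SFB sd af (RR J EE) (RUs J EE (Z ^ 5)) +
          SFB sd' af (RR J EE) (RUs J EE (Z ^ 5))) := by
  obtain ⟨C, hC, h⟩ := S_fib hε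
  refine ⟨C, hC, ?_⟩
  intro Z hZ Pr A Bw J af EE E0 E1 R B b₀ K V V' rv X c wq wq' n sd sd' Pc haf hJ hK hR0 hRZ hB0
    hBZ hE1 hJ1 hV hV' hrv hX hc hs hs' hH hF hF' hPc hu hu'
  have hZ5 : 1 ≤ Z ^ 5 := hZ.trans (Z_le5 hZ)
  have hOK : ∀ i ∈ OI Pr J EE E0 E1 R B Z b₀ K, (cdI i).OK (Z ^ 5) EE := fun i hi =>
    OI_OK hJ hZ hR0 hRZ hB0 hBZ hE1 hJ1 hi
  have key := h (Z ^ 5) hZ5 EE (OI Pr J EE E0 E1 R B Z b₀ K) cdI K V V' rv X af n sd sd' Pc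
    (RR J EE) (RUs J EE (Z ^ 5))
    (fun i => c⁻¹ * sE1 A Bw K V V' af wq i) (fun i => c⁻¹ * sE2 A Bw K V V' af wq' i)
    hK hV hV' hrv hs hs' hF hF'
    (fun i hi => ⟨hOK i hi, hPc i hi⟩)
    (fun i hi => ⟨(hOK i hi).fac_nonneg hK hV hV' (hH i hi).1 hX,
      (hOK i hi).swap.fac_nonneg hK hV' hV (hH i hi).2 hX⟩)
    (fun i hi => ⟨haf _ _, haf _ _⟩)
    (fun i hi => OI_mem hJ hZ hR0 hRZ hB0 hBZ hE1 hJ1 hi)
    (fun i hi => by rw [inv_mul_le_iff₀ hc]; exact hu i hi)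
    (fun i hi => by rw [inv_mul_le_iff₀ hc]; exact hu' i hi)
  have e1 : ∑ i ∈ OI Pr J EE E0 E1 R B Z b₀ K, (cdI i).om0 K V V' *
        ((cdI i).rho rv * sE1 A Bw K V V' af wq i +
        ((cdI i).rho rv)⁻¹ * sE2 A Bw K V V' af wq' i) =
      c * ∑ i ∈ OI Pr J EE E0 E1 R B Z b₀ K, (cdI i).om0 K V V' *
        ((cdI i).rho rv * (c⁻¹ * sE1 A Bw K V V' af wq i) +
        ((cdI i).rho rv)⁻¹ * (c⁻¹ * sE2 A Bw K V V' af wq' i)) := by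
    rw [mul_sum]
    refine sum_congr rfl fun i _ => ?_
    have hc1 : c * c⁻¹ = 1 := mul_inv_cancel₀ hc.ne'
    have e2 : c * ((cdI i).om0 K V V' * ((cdI i).rho rv * (c⁻¹ * sE1 A Bw K V V' af wq i) +
        ((cdI i).rho rv)⁻¹ * (c⁻¹ * sE2 A Bw K V V' af wq' i))) =
        (c * c⁻¹) * ((cdI i).om0 K V V' * ((cdI i).rho rv * sE1 A Bw K V V' af wq i +
        ((cdI i).rho rv)⁻¹ * sE2 A Bw K V V' af wq' i)) := by ring
    rw [e2, hc1, one_mul]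
  rw [e1]
  exact (mul_le_mul_of_nonneg_left key hc.le).trans (le_of_eq (by ring))

/-- **the mode total of the level weights through the cells** -/
theorem MPT_level {A Bw : ℕ} (hA : 1 < A) (hB : 1 < Bw) {Rw : ℝ} (hRw : 0 ≤ Rw) {h : ℝ → ℝ}
    (hh : ContDiff ℝ ∞ h) (hhc : HasCompactSupport h) {w1 : ℝ → ℝ}
    (hw : ∀ x, w1 x ≠ 0 → 0 < x ∧ |Real.log x| ≤ Rw)
    (hw1 : ∀ x, 0 < x → h (Real.log x) ≠ 0 → w1 x = 1) {ε : ℝ} (hε : 0 < ε) :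
    ∃ C : ℝ, 0 ≤ C ∧
    ∀ (Om Om' : ℝ → ℂ) (Mb : ℝ), 0 ≤ Mb → ContDiff ℝ ∞ Om → ContDiff ℝ ∞ Om' →
      (∀ n ≤ A + 2, ∀ x, ‖iteratedDeriv n Om x‖ ≤ Mb) →
      (∀ n ≤ A + 2, ∀ x, ‖iteratedDeriv n Om' x‖ ≤ Mb) →
    ∀ (V V' τ : ℝ) (κ κ' : ℂ), 0 < V → 0 < V' → ‖κ‖ ≤ 1 → ‖κ'‖ ≤ 1 →
    ∀ (Z : ℝ), 1 ≤ Z → ∀ (Pr : Yp → Yp → Prop) (J : Finset (Eis × Eis))
      (om om' : Eis × Eis → ℂ) (af : Eis → Eis → Eis → ℂ) (EE : Finset Eis)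
      (E0 E1 R B b₀ K rv X c : ℝ) (n : ℕ) (sd sd' : SF n) (Pc : Cd → Prop),
      TC (T3 af) → (∀ d e, FS (af d e)) → OKJ J → (∀ d e, e ∉ EE → ∀ j, T3 af d e j = 0) →
      0 < K → 0 ≤ R → R ≤ Z → 0 ≤ B → B ≤ Z → E1 ≤ Z →
      (∀ x ∈ J, (nm x.1 : ℝ) ≤ Z) → (∀ x ∈ J, (nm x.2 : ℝ) ≤ R) →
      WQ J om E0 R (wL κ h Om τ V) → WQ J om' E0 R (wL κ' h Om' τ V') →
      0 < rv → 0 < X → 0 < c →
      sd.OK (Z ^ 5) Pc → sd'.OK (Z ^ 5) Pc →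
      (∀ i ∈ OI Pr J EE E0 E1 R B Z b₀ K, 0 < sd.H (cdI i) ∧ 0 < sd'.H (cdI i).swap) →
      sd.Fib K V V' rv X (OI Pr J EE E0 E1 R B Z b₀ K) cdI →
      sd'.Fib K V' V rv⁻¹ X (OI Pr J EE E0 E1 R B Z b₀ K) (fun i => (cdI i).swap) →
      (∀ i ∈ OI Pr J EE E0 E1 R B Z b₀ K, Pc (cdI i) ∧ Pc (cdI i).swap) →
      (∀ i ∈ OI Pr J EE E0 E1 R B Z b₀ K,
        sE1 A Bw K V V' af (w1L w1 V) i ≤ c * CellF sd K V V' X af (cdI i)) →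
      (∀ i ∈ OI Pr J EE E0 E1 R B Z b₀ K,
        sE2 A Bw K V V' af (w1L w1 V') i ≤ c * CellF sd' K V' V X af (cdI i).swap) →
      ∑ q ∈ S R, ∑ t ∈ pb E1, MPTr Pr A Bw K B V V' (Z ^ 5) J om om' (T3 af) E0 R b₀ q t ≤
        C * c * Mb ^ 2 * (1 + |τ|) ^ A * (Z ^ 5) ^ ε *
          (SFB sd af (RR J EE) (RUs J EE (Z ^ 5)) + SFB sd' af (RR J EE) (RUs J EE (Z ^ 5))) := by
  obtain ⟨C1, hC1, h1⟩ := MPTr_level hA hB hRw hh hhc hw hw1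
  obtain ⟨C2, hC2, h2⟩ := OI_sum hε
  refine ⟨C1 * C2, by positivity, ?_⟩
  intro Om Om' Mb hMb hOm hOm' hOb hOb' V V' τ κ κ' hV hV' hκ hκ' Z hZ Pr J om om' af EE E0 E1 R B
    b₀ K rv X c n sd sd' Pc hT haf hJ hEE hK hR0 hRZ hB0 hBZ hE1 hJ1 hJ2 hwq hwq' hrv hX hc hs hs'
    hH hF hF' hPc hu hu'
  have key := h2 Z hZ Pr A Bw J af EE E0 E1 R B b₀ K V V' rv X c (w1L w1 V) (w1L w1 V') n sd sd'
    Pc haf hJ hK hR0 hRZ hB0 hBZ hE1 hJ1 hV hV' hrv hX hc hs hs' hH hF hF' hPc hu hu'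
  rw [← NSum_eq hJ hK hZ hR0 hRZ hB0 hBZ hE1 hJ1 hV hV' hrv] at key
  have hc0 : 0 ≤ C1 * Mb ^ 2 * (1 + |τ|) ^ A := by positivity
  have s1 : ∑ q ∈ S R, ∑ t ∈ pb E1,
      MPTr Pr A Bw K B V V' (Z ^ 5) J om om' (T3 af) E0 R b₀ q t ≤
      (C1 * Mb ^ 2 * (1 + |τ|) ^ A) * ∑ q ∈ S R, ∑ t ∈ pb E1,
        NSum Pr A Bw K B b₀ V V' Z J E0 R EE af (w1L w1 V) (w1L w1 V')
      (fun y y' b b' s sg a a' D E F => rhoI rv (q, t, y, y', b, b', s, sg, a, a', D, E, F))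
        q t := by
    rw [mul_sum]
    refine sum_le_sum fun q hq => ?_
    rw [mul_sum]
    refine sum_le_sum fun t ht => ?_
    have htp : IsPrim t := by
      rw [mem_pb] at ht
      exact ht.2
    exact h1 Om Om' Mb hMb hOm hOm' hOb hOb' V V' τ κ κ' hV hV' hκ hκ' J om om' af EE K Z R E0 B
      b₀ Pr _ hT haf hJ hEE hK hZ hR0 hRZ hJ1 hJ2 hwq hwq'
      (fun y y' b b' s sg a a' D E F => rhoI_pos rv _) q hq t htp
  exact s1.trans ((mul_le_mul_of_nonneg_left key hc0).trans (le_of_eq (by ring)))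

end Crest.Agent.R017.E3T829
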