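import Crest.Agent.R017.E3Sr_290

/-!
# Row 17, block C70, leaf E3 (S), the extra terms of the large sieve in one cell (helper290)

With `nL` = number of modes (`L0 = nL * (E^2 xk)`):
* `Fac.lsY` : `(nL Y)^{2/3} ≤ (L0/Lt)^{1/3} Y · (H V^2 V' t^3 b / K^2)^{1/3}`
* `Fac.lsL` : `nL ≤ (L0/Lt)^{1/3} Y · (H V/V')^{1/3} (V' d g/K) t^2 b`
-/

set_option autoImplicit false

noncomputable section

open scoped Classical

namespace Crest.Agent.R017.E3Sj290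

open Crest.Agent.R012 Crest.Agent.R012.Eis
open Crest.Agent.R017.E1551 (nmpos)
open Crest.Agent.R017.StA828 (gp)
open Crest.Agent.R017.E3Sr290

/-- the number of modes -/
def nL (c : CellD) : ℝ := c.N1 * c.N2 * c.E / (c.KM * c.D ^ 2)

lemma L0_eq (c : CellD) : c.L0 = nL c * (c.E ^ 2 * c.xk) := rfl

/-- the two ratios, exactly, in the variables of the factorization -/
lemma real_ls {K V V' H q t D E F X gam kap ag g3 e1 ad d3 b2 c3 g d a' : ℝ}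
    (h1 : 0 < gam) (h2 : 0 < kap) (h3 : 0 < ag) (h4 : 0 < g3) (h5 : 0 < e1) (h6 : 0 < ad)
    (h7 : 0 < d3) (h8 : 0 < b2) (h9 : 0 < c3) (h10 : 0 < g) (h11 : 0 < d) (h12 : 0 < a')
    (hK : 0 < K) (hV : 0 < V) (hV' : 0 < V') (hH : 0 < H) (hq : 0 < q) (ht : 0 < t) (hD : 0 < D)
    (hE : 0 < E) (hF : 0 < F) (hX : 0 < X) :
    let c : CellD := ⟨K, V, V', H, q, t, g * (kap * (ag * g3) * (b2 ^ 2 * c3)), g,
      gam * kap * (ag * g3), d, e1 * (ad * d3), ad * ag, a', e1 * (gam * kap), D, E, F, X,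
      d3 * a' * kap ^ 2 * ag ^ 2 * b2 * c3 ^ 2⟩
    (nL c * c.Y) ^ (2 / 3 : ℝ) = (c.L0 / c.Lt) ^ (1 / 3 : ℝ) * c.Y *
        (H * V ^ 2 * V' * t ^ 3 * b2 / K ^ 2 / (q ^ 2 * F ^ 2 * (ad * ag) ^ 2 * a' ^ 2 * D ^ 3 * E *
          g * e1 ^ 3 * ad * d3 ^ 2 * gam ^ 3 * kap ^ 4 * ag ^ 2 * c3)) ^ (1 / 3 : ℝ) ∧
      nL c = (c.L0 / c.Lt) ^ (1 / 3 : ℝ) * c.Y *
        ((H * (V / V')) ^ (1 / 3 : ℝ) * (V' * d * g / K) * t ^ 2 * b2 /
          (a' * D * e1 ^ 2 * ad * d3 * gam ^ 2 * kap ^ 2 * ag)) := by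
  obtain ⟨gam, rfl⟩ := CellD.ex h1
  obtain ⟨kap, rfl⟩ := CellD.ex h2
  obtain ⟨ag, rfl⟩ := CellD.ex h3
  obtain ⟨g3, rfl⟩ := CellD.ex h4
  obtain ⟨e1, rfl⟩ := CellD.ex h5
  obtain ⟨ad, rfl⟩ := CellD.ex h6
  obtain ⟨d3, rfl⟩ := CellD.ex h7
  obtain ⟨b2, rfl⟩ := CellD.ex h8
  obtain ⟨c3, rfl⟩ := CellD.ex h9
  obtain ⟨g, rfl⟩ := CellD.ex h10
  obtain ⟨d, rfl⟩ := CellD.ex h11
  obtain ⟨a', rfl⟩ := CellD.ex h12
  obtain ⟨K, rfl⟩ := CellD.ex hK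
  obtain ⟨V, rfl⟩ := CellD.ex hV
  obtain ⟨V', rfl⟩ := CellD.ex hV'
  obtain ⟨H, rfl⟩ := CellD.ex hH
  obtain ⟨q, rfl⟩ := CellD.ex hq
  obtain ⟨t, rfl⟩ := CellD.ex ht
  obtain ⟨D, rfl⟩ := CellD.ex hD
  obtain ⟨E, rfl⟩ := CellD.ex hE
  obtain ⟨F, rfl⟩ := CellD.ex hF
  obtain ⟨X, rfl⟩ := CellD.ex hX
  simp only [nL, CellD.L0, CellD.Lt, CellD.N1, CellD.N2, CellD.KM, CellD.A, CellD.A', CellD.m,
    CellD.m', CellD.Z, CellD.Z', CellD.Y, CellD.Nb, CellD.zeta, CellD.Is, ← Real.exp_nat_mul,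
    ← Real.exp_add, ← Real.exp_sub, ← Real.exp_mul]
  constructor
  · congr 1
    push_cast
    ring
  · congr 1
    push_cast
    ring

/-- the cell in the variables of the factorization -/
lemma Fac_form {g g' d d' r m m' a x a' M N b : Eis} (f : Fac g g' d d' r m m' a x a' M N b)
    (hM : M = g * N) (K V V' H q t D E F X : ℝ) :
    cellOf K V V' H q t D E F X M g g' d d' a a' r f.xk =
      ⟨K, V, V', H, q, t, nm g * (nm f.kap * (nm f.ag * nm f.g3) * ((nm f.b2 : ℝ) ^ 2 * nm f.c3)),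
        nm g, nm f.gam * nm f.kap * (nm f.ag * nm f.g3), nm d, nm f.e1 * (nm f.ad * nm f.d3),
        nm f.ad * nm f.ag, nm a', nm f.e1 * (nm f.gam * nm f.kap), D, E, F, X,
        nm f.d3 * nm a' * (nm f.kap : ℝ) ^ 2 * (nm f.ag : ℝ) ^ 2 * nm f.b2 * (nm f.c3 : ℝ) ^ 2⟩ := by
  have eg' : (nm g' : ℝ) = nm f.gam * nm f.kap * (nm f.ag * nm f.g3) := by
    conv_lhs => rw [f.hg', nm_mul, nm_mul, nm_mul]
    push_cast; ring
  have ed' : (nm d' : ℝ) = nm f.e1 * (nm f.ad * nm f.d3) := by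
    conv_lhs => rw [f.hd', nm_mul, nm_mul]
    push_cast; ring
  have er : (nm r : ℝ) = nm f.e1 * (nm f.gam * nm f.kap) := by
    conv_lhs => rw [f.hr, nm_mul, nm_mul]
    push_cast; ring
  have ea : (nm a : ℝ) = nm f.ad * nm f.ag := by
    conv_lhs => rw [f.ha, nm_mul]
    push_cast; ring
  have eM : (nm M : ℝ) = nm g * (nm f.kap * (nm f.ag * nm f.g3) * ((nm f.b2) ^ 2 * nm f.c3)) := by
    conv_lhs => rw [hM, f.hN]
    simp only [nm_mul, pow_two]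
    push_cast; ring
  have ex : (nm f.xk : ℝ) = nm f.d3 * nm a' * (nm f.kap) ^ 2 * (nm f.ag) ^ 2 * nm f.b2 *
      (nm f.c3) ^ 2 := by
    rw [Fac.xk]
    simp only [nm_mul, pow_two]
    push_cast; ring
  unfold cellOf
  rw [eg', ed', er, ea, eM, ex]

lemma one_le_nm' {a : Eis} (h : IsPrim a) : (1 : ℝ) ≤ nm a := by
  have := nm_pos.mpr h.ne_zero
  exact_mod_cast this

/-- the number of modes against the length, exactly -/
theorem Fac_ls {g g' d d' r m m' a x a' M N b : Eis} (f : Fac g g' d d' r m m' a x a' M N b)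
    (pg : IsPrim g) (pd : IsPrim d) (pa' : IsPrim a') (hM : M = g * N)
    {K V V' H q t D E F X : ℝ} (hK : 0 < K) (hV : 0 < V) (hV' : 0 < V') (hH : 0 < H) (hq : 0 < q)
    (ht : 0 < t) (hD : 0 < D) (hE : 0 < E) (hF : 0 < F) (hX : 0 < X) :
    let c := cellOf K V V' H q t D E F X M g g' d d' a a' r f.xk
    (nL c * c.Y) ^ (2 / 3 : ℝ) = (c.L0 / c.Lt) ^ (1 / 3 : ℝ) * c.Y *
        (H * V ^ 2 * V' * t ^ 3 * nm f.b2 / K ^ 2 / (q ^ 2 * F ^ 2 * (nm f.ad * nm f.ag) ^ 2 *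
          (nm a' : ℝ) ^ 2 * D ^ 3 * E * nm g * (nm f.e1 : ℝ) ^ 3 * nm f.ad * (nm f.d3 : ℝ) ^ 2 *
          (nm f.gam : ℝ) ^ 3 * (nm f.kap : ℝ) ^ 4 * (nm f.ag : ℝ) ^ 2 * nm f.c3)) ^ (1 / 3 : ℝ) ∧
      nL c = (c.L0 / c.Lt) ^ (1 / 3 : ℝ) * c.Y *
        ((H * (V / V')) ^ (1 / 3 : ℝ) * (V' * nm d * nm g / K) * t ^ 2 * nm f.b2 /
          (nm a' * D * (nm f.e1 : ℝ) ^ 2 * nm f.ad * nm f.d3 * (nm f.gam : ℝ) ^ 2 *
            (nm f.kap : ℝ) ^ 2 * nm f.ag)) := by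
  have h := real_ls (nmpos f.pgam.ne_zero) (nmpos f.pkap.ne_zero) (nmpos f.pag.ne_zero)
    (nmpos f.pg3.ne_zero) (nmpos f.pe1.ne_zero) (nmpos f.pad.ne_zero) (nmpos f.pd3.ne_zero)
    (nmpos f.pb2.ne_zero) (nmpos f.pc3.ne_zero) (nmpos pg.ne_zero) (nmpos pd.ne_zero)
    (nmpos pa'.ne_zero) hK hV hV' hH hq ht hD hE hF hX
  intro c
  have hc : c = _ := Fac_form f hM K V V' H q t D E F X
  rw [hc]
  exact h

lemma cell_ratio_nonneg {g g' d d' r m m' a x a' M N b : Eis}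
    (f : Fac g g' d d' r m m' a x a' M N b)
    (pg : IsPrim g) (pd : IsPrim d) (pa' : IsPrim a') (hM : M = g * N)
    {K V V' H q t D E F X : ℝ} (hK : 0 < K) (hV : 0 < V) (hV' : 0 < V') (hH : 0 < H) (hq : 0 < q)
    (ht : 0 < t) (hD : 0 < D) (hE : 0 < E) (hF : 0 < F) (hX : 0 < X) :
    let c := cellOf K V V' H q t D E F X M g g' d d' a a' r f.xk
    0 < c.L0 ∧ 0 < c.Lt ∧ 0 < c.Y ∧ 0 < nL c := by
  have n1 := nmpos f.pgam.ne_zero
  have n2 := nmpos f.pkap.ne_zero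
  have n3 := nmpos f.pag.ne_zero
  have n4 := nmpos f.pg3.ne_zero
  have n5 := nmpos f.pe1.ne_zero
  have n6 := nmpos f.pad.ne_zero
  have n7 := nmpos f.pd3.ne_zero
  have n8 := nmpos f.pb2.ne_zero
  have n9 := nmpos f.pc3.ne_zero
  have n10 := nmpos pg.ne_zero
  have n11 := nmpos pd.ne_zero
  have n12 := nmpos pa'.ne_zero
  intro c
  have hc : c = _ := Fac_form f hM K V V' H q t D E F X
  rw [hc]
  simp only [nL, CellD.L0, CellD.Lt, CellD.N1, CellD.N2, CellD.KM, CellD.A, CellD.A', CellD.m,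
    CellD.m', CellD.Z, CellD.Z', CellD.Y, CellD.Nb, CellD.zeta, CellD.Is]
  refine ⟨?_, ?_, ?_, ?_⟩ <;> positivity

/-- **the extra term `(L Y)^{2/3}` of the large sieve in one cell** -/
theorem Fac_lsY {g g' d d' r m m' a x a' M N b : Eis} (f : Fac g g' d d' r m m' a x a' M N b)
    (pg : IsPrim g) (pd : IsPrim d) (pa' : IsPrim a') (hM : M = g * N)
    {K V V' H q t D E F X : ℝ} (hK : 0 < K) (hV : 0 < V) (hV' : 0 < V') (hH : 0 < H) (hq : 1 ≤ q)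
    (ht : 0 < t) (hD : 1 ≤ D) (hE : 1 ≤ E) (hF : 1 ≤ F) (hX : 0 < X) :
    let c := cellOf K V V' H q t D E F X M g g' d d' a a' r f.xk
    (nL c * c.Y) ^ (2 / 3 : ℝ) ≤ (c.L0 / c.Lt) ^ (1 / 3 : ℝ) * c.Y *
        (H * V ^ 2 * V' * t ^ 3 * nm b / K ^ 2) ^ (1 / 3 : ℝ) := by
  have hq0 : 0 < q := by linarith
  have hD0 : 0 < D := by linarith
  have hE0 : 0 < E := by linarith
  have hF0 : 0 < F := by linarith
  intro c
  obtain ⟨p1, p2, p3, -⟩ := cell_ratio_nonneg f pg pd pa' hM hK hV hV' hH hq0 ht hD0 hE0 hF0 hX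
  obtain ⟨h1, -⟩ := Fac_ls f pg pd pa' hM hK hV hV' hH hq0 ht hD0 hE0 hF0 hX
  refine h1.le.trans ?_
  have n0 : 0 ≤ (c.L0 / c.Lt) ^ (1 / 3 : ℝ) * c.Y :=
    mul_nonneg (Real.rpow_nonneg (div_nonneg p1.le p2.le) _) p3.le
  refine mul_le_mul_of_nonneg_left (Real.rpow_le_rpow (by positivity) ?_ (by norm_num)) n0
  have m1 := one_le_nm' f.pgam
  have m2 := one_le_nm' f.pkap
  have m3 := one_le_nm' f.pag
  have m5 := one_le_nm' f.pe1
  have m6 := one_le_nm' f.pad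
  have m7 := one_le_nm' f.pd3
  have m8 := one_le_nm' f.pb1
  have m9 := one_le_nm' f.pc3
  have m10 := one_le_nm' pg
  have m12 := one_le_nm' pa'
  have n8 := nmpos f.pb2.ne_zero
  have eb : (nm b : ℝ) = nm f.b1 * nm f.b2 := by
    conv_lhs => rw [f.hb, nm_mul]
    push_cast; ring
  have i1 : (nm f.b2 : ℝ) ≤ nm b := by
    rw [eb]; nlinarith
  have i2 : (1 : ℝ) ≤ q ^ 2 * F ^ 2 * (nm f.ad * nm f.ag) ^ 2 *
          (nm a' : ℝ) ^ 2 * D ^ 3 * E * nm g * (nm f.e1 : ℝ) ^ 3 * nm f.ad * (nm f.d3 : ℝ) ^ 2 *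
          (nm f.gam : ℝ) ^ 3 * (nm f.kap : ℝ) ^ 4 * (nm f.ag : ℝ) ^ 2 * nm f.c3 := by
    have k1 := one_le_pow₀ (n := 2) hq
    have k2 := one_le_pow₀ (n := 2) hF
    have k3 := one_le_pow₀ (n := 2) (one_le_mul_of_one_le_of_one_le m6 m3)
    have k4 := one_le_pow₀ (n := 2) m12
    have k5 := one_le_pow₀ (n := 3) hD
    have k6 := one_le_pow₀ (n := 3) m5
    have k7 := one_le_pow₀ (n := 2) m7
    have k8 := one_le_pow₀ (n := 3) m1
    have k9 := one_le_pow₀ (n := 4) m2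
    have k10 := one_le_pow₀ (n := 2) m3
    have mm : ∀ {x y : ℝ}, 1 ≤ x → 1 ≤ y → 1 ≤ x * y := fun h h' =>
      one_le_mul_of_one_le_of_one_le h h'
    exact mm (mm (mm (mm (mm (mm (mm (mm (mm (mm (mm (mm (mm k1 k2) k3) k4) k5) hE) m10) k6) m6) k7)
      k8) k9) k10) m9
  refine (div_le_self (by positivity) i2).trans ?_
  gcongr

/-- **the extra term `L` of the large sieve in one cell** -/
theorem Fac_lsL {g g' d d' r m m' a x a' M N b : Eis} (f : Fac g g' d d' r m m' a x a' M N b)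
    (pg : IsPrim g) (pd : IsPrim d) (pa' : IsPrim a') (hM : M = g * N)
    {K V V' H q t D E F X : ℝ} (hK : 0 < K) (hV : 0 < V) (hV' : 0 < V') (hH : 0 < H) (hq : 1 ≤ q)
    (ht : 0 < t) (hD : 1 ≤ D) (hE : 1 ≤ E) (hF : 1 ≤ F) (hX : 0 < X) :
    let c := cellOf K V V' H q t D E F X M g g' d d' a a' r f.xk
    nL c ≤ (c.L0 / c.Lt) ^ (1 / 3 : ℝ) * c.Y *
        ((H * (V / V')) ^ (1 / 3 : ℝ) * (V' * nm d * nm g / K) * t ^ 2 * nm b) := by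
  have hq0 : 0 < q := by linarith
  have hD0 : 0 < D := by linarith
  have hE0 : 0 < E := by linarith
  have hF0 : 0 < F := by linarith
  intro c
  obtain ⟨p1, p2, p3, -⟩ := cell_ratio_nonneg f pg pd pa' hM hK hV hV' hH hq0 ht hD0 hE0 hF0 hX
  obtain ⟨-, h1⟩ := Fac_ls f pg pd pa' hM hK hV hV' hH hq0 ht hD0 hE0 hF0 hX
  refine h1.le.trans ?_
  have n0 : 0 ≤ (c.L0 / c.Lt) ^ (1 / 3 : ℝ) * c.Y :=
    mul_nonneg (Real.rpow_nonneg (div_nonneg p1.le p2.le) _) p3.le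
  refine mul_le_mul_of_nonneg_left ?_ n0
  have m1 := one_le_nm' f.pgam
  have m2 := one_le_nm' f.pkap
  have m3 := one_le_nm' f.pag
  have m5 := one_le_nm' f.pe1
  have m6 := one_le_nm' f.pad
  have m7 := one_le_nm' f.pd3
  have m8 := one_le_nm' f.pb1
  have m12 := one_le_nm' pa'
  have n8 := nmpos f.pb2.ne_zero
  have n10 := nmpos pg.ne_zero
  have n11 := nmpos pd.ne_zero
  have eb : (nm b : ℝ) = nm f.b1 * nm f.b2 := by
    conv_lhs => rw [f.hb, nm_mul]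
    push_cast; ring
  have i1 : (nm f.b2 : ℝ) ≤ nm b := by
    rw [eb]; nlinarith
  have i2 : (1 : ℝ) ≤ nm a' * D * (nm f.e1 : ℝ) ^ 2 * nm f.ad * nm f.d3 * (nm f.gam : ℝ) ^ 2 *
            (nm f.kap : ℝ) ^ 2 * nm f.ag := by
    have k6 := one_le_pow₀ (n := 2) m5
    have k8 := one_le_pow₀ (n := 2) m1
    have k9 := one_le_pow₀ (n := 2) m2
    have mm : ∀ {x y : ℝ}, 1 ≤ x → 1 ≤ y → 1 ≤ x * y := fun h h' =>
      one_le_mul_of_one_le_of_one_le h h'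
    exact mm (mm (mm (mm (mm (mm (mm m12 hD) k6) m6) m7) k8) k9) m3
  refine (div_le_self (by positivity) i2).trans ?_
  gcongr

end Crest.Agent.R017.E3Sj290
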