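import Crest.Agent.R017.E3So_290
import Crest.Agent.R017.E3Sj_290

/-!
# Row 17, block C70, leaf E3 (S-sum), (CELL) part 3 (helper290): the arithmetic of a cell

* `RH_cell` : the bound `RH` in the norms of a cell
* `Lt_sq` : `Lt² ≤ Y (H² V³ / K²)`
* `R1_cell` : the structured part
-/

set_option autoImplicit false

noncomputable section

open scoped Classical

namespace Crest.Agent.R017.E3Ss290

open Crest.Agent.R012 Crest.Agent.R012.Eis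
open Crest.Agent.R017.E1551 (nmpos)
open Crest.Agent.R017.E3Sr290 Crest.Agent.R017.E3Sj290
open Crest.Agent.R017.E3So290

/-- the extra factor of the large sieve -/
def extL (K V V' H t b dg : ℝ) : ℝ :=
  1 + (H * (V / V')) ^ (1 / 3 : ℝ) * (V' * dg / K) * t ^ 2 * b +
    (H * V ^ 2 * V' * t ^ 3 * b / K ^ 2) ^ (1 / 3 : ℝ)

/-- **the bound of the modes in the norms of a cell** -/
theorem RH_cell {g g' d d' r m m' a x a' M N b : Eis} (f : Fac g g' d d' r m m' a x a' M N b)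
    (pg : IsPrim g) (pd : IsPrim d) (pa : IsPrim a) (pa' : IsPrim a') (hM : M = g * N)
    {K V V' H q t D E F X : ℝ} (hK : 0 < K) (hV : 0 < V) (hV' : 0 < V') (hH : 0 < H) (hq : 1 ≤ q)
    (ht : 0 < t) (hD : 1 ≤ D) (hE : 1 ≤ E) (hF : 1 ≤ F) (hX : 0 < X) {mc k lam X0 T R1 : ℝ}
    (hmc : 1 ≤ mc) (hk : mc ≤ k) (hT : 0 ≤ T) (hR1 : 0 ≤ R1) :
    let c := cellOf K V V' H q t D E F X M g g' d d' a a' r f.xk
    lam = mc * nL c → lam * X0 = k * c.L0 →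
    (nm a * D * F : ℝ) ^ (-(1 / 3) : ℝ) * RH c.Y c.Lt X0 T R1 lam ≤
      k * (c.Z ^ (-(1 / 3) : ℝ) * ((c.L0 / c.Lt) ^ (1 / 3 : ℝ) * c.Y *
        (extL K V V' H t (nm b) (nm d * nm g) * T + R1 / c.Y))) := by
  have hq0 : 0 < q := by linarith
  have hD0 : 0 < D := by linarith
  have hE0 : 0 < E := by linarith
  have hF0 : 0 < F := by linarith
  intro c hlam hX0
  obtain ⟨p1, p2, p3, p4⟩ := cell_ratio_nonneg f pg pd pa' hM hK hV hV' hH hq0 ht hD0 hE0 hF0 hX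
  have h1 := Fac_lsY f pg pd pa' hM hK hV hV' hH hq ht hD hE hF hX
  have h2 := Fac_lsL f pg pd pa' hM hK hV hV' hH hq ht hD hE hF hX
  change 0 < c.L0 at p1
  change 0 < c.Lt at p2
  change 0 < c.Y at p3
  change 0 < nL c at p4
  set ρ : ℝ := (c.L0 / c.Lt) ^ (1 / 3 : ℝ) with hρ
  have hρ0 : 0 ≤ ρ := Real.rpow_nonneg (div_nonneg p1.le p2.le) _
  have na := nmpos pa.ne_zero
  have hP : (0 : ℝ) < nm a * D * F := by positivity
  have hk0 : 0 ≤ k := by linarith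
  have hk1 : 1 ≤ k := by linarith
  -- the power of the length
  have e1 : (nm a * D * F : ℝ) ^ (-(1 / 3) : ℝ) * c.Y ^ (-(1 / 3) : ℝ) = c.Z ^ (-(1 / 3) : ℝ) := by
    rw [← Real.mul_rpow hP.le p3.le]
    congr 1
    change (nm a * D * F : ℝ) * (c.Z / (nm a * D * F)) = c.Z
    field_simp
  have hZ0 : 0 ≤ c.Z ^ (-(1 / 3) : ℝ) := by rw [← e1]; positivity
  -- the ratio
  have e2 : lam * X0 / c.Lt = k * (c.L0 / c.Lt) := by rw [hX0]; ring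
  have e3 : (lam * X0 / c.Lt) ^ (1 / 3 : ℝ) ≤ k * ρ := by
    rw [e2, Real.mul_rpow hk0 (div_nonneg p1.le p2.le)]
    refine mul_le_mul_of_nonneg_right ?_ hρ0
    calc k ^ (1 / 3 : ℝ) ≤ k ^ (1 : ℝ) := Real.rpow_le_rpow_of_exponent_le hk1 (by norm_num)
      _ = k := Real.rpow_one k
  have e4 : lam + (lam * c.Y) ^ (2 / 3 : ℝ) ≤
      k * (ρ * c.Y * ((H * (V / V')) ^ (1 / 3 : ℝ) * (V' * (nm d * nm g) / K) * t ^ 2 * nm b +
        (H * V ^ 2 * V' * t ^ 3 * nm b / K ^ 2) ^ (1 / 3 : ℝ))) := by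
    have e5 : (lam * c.Y) ^ (2 / 3 : ℝ) ≤ mc * (nL c * c.Y) ^ (2 / 3 : ℝ) := by
      rw [hlam, mul_assoc, Real.mul_rpow (by linarith) (by positivity)]
      refine mul_le_mul_of_nonneg_right ?_ (by positivity)
      calc mc ^ (2 / 3 : ℝ) ≤ mc ^ (1 : ℝ) := Real.rpow_le_rpow_of_exponent_le hmc (by norm_num)
        _ = mc := Real.rpow_one mc
    have e6 : (H * (V / V')) ^ (1 / 3 : ℝ) * (V' * (nm d * nm g) / K) * t ^ 2 * nm b =
        (H * (V / V')) ^ (1 / 3 : ℝ) * (V' * nm d * nm g / K) * t ^ 2 * nm b := by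
      rw [← mul_assoc V']
    calc lam + (lam * c.Y) ^ (2 / 3 : ℝ) ≤ mc * nL c + mc * (nL c * c.Y) ^ (2 / 3 : ℝ) := by
          rw [← hlam]; gcongr
      _ = mc * (nL c + (nL c * c.Y) ^ (2 / 3 : ℝ)) := by ring
      _ ≤ k * (nL c + (nL c * c.Y) ^ (2 / 3 : ℝ)) :=
          mul_le_mul_of_nonneg_right hk (by positivity)
      _ ≤ k * (ρ * c.Y * ((H * (V / V')) ^ (1 / 3 : ℝ) * (V' * nm d * nm g / K) * t ^ 2 * nm b) +
          ρ * c.Y * (H * V ^ 2 * V' * t ^ 3 * nm b / K ^ 2) ^ (1 / 3 : ℝ)) :=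
          mul_le_mul_of_nonneg_left (add_le_add h2 h1) hk0
      _ = _ := by rw [e6]; ring
  have e7 : min 1 (lam * X0 / c.Lt) * (lam + (lam * c.Y) ^ (2 / 3 : ℝ)) ≤
      lam + (lam * c.Y) ^ (2 / 3 : ℝ) := by
    have : 0 ≤ lam + (lam * c.Y) ^ (2 / 3 : ℝ) := by rw [hlam]; positivity
    exact mul_le_of_le_one_left this (min_le_left _ _)
  have hR : 0 ≤ R1 / c.Y := by positivity
  unfold RH
  rw [← mul_assoc, e1]
  have e8 : ((lam * X0 / c.Lt) ^ (1 / 3 : ℝ) * c.Y +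
        min 1 (lam * X0 / c.Lt) * (lam + (lam * c.Y) ^ (2 / 3 : ℝ))) * T +
      (lam * X0 / c.Lt) ^ (1 / 3 : ℝ) * R1 ≤
      (k * ρ * c.Y + k * (ρ * c.Y * ((H * (V / V')) ^ (1 / 3 : ℝ) * (V' * (nm d * nm g) / K) *
        t ^ 2 * nm b + (H * V ^ 2 * V' * t ^ 3 * nm b / K ^ 2) ^ (1 / 3 : ℝ)))) * T +
        k * ρ * R1 := by
    refine add_le_add (mul_le_mul_of_nonneg_right (add_le_add ?_ (e7.trans e4)) hT)
      (mul_le_mul_of_nonneg_right e3 hR1)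
    exact mul_le_mul_of_nonneg_right e3 p3.le
  refine (mul_le_mul_of_nonneg_left e8 hZ0).trans (le_of_eq ?_)
  unfold extL
  field_simp
  ring

/-- the threshold against the length -/
theorem Lt_sq {K V V' H q t D E F X : ℝ} {M g g' d d' a a' r xk : Eis} (pg : IsPrim g)
    (pd : IsPrim d) (pa : IsPrim a) (hK : 0 < K) (hV : 0 < V) (hH : 0 < H)
    (hq : 1 ≤ q) (hD : 1 ≤ D) (hF : 1 ≤ F) (hX : 0 < X) :
    let c := cellOf K V V' H q t D E F X M g g' d d' a a' r xk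
    c.Lt ^ 2 ≤ c.Y * (H ^ 2 * V ^ 3 / K ^ 2) := by
  intro c
  have na := one_le_nm' pa
  have ng := one_le_nm' pg
  have nd := one_le_nm' pd
  have hA : (1 : ℝ) ≤ (nm a * D) ^ 3 * q ^ 5 * (nm g : ℝ) ^ 4 * F ^ 5 := by
    have mm : ∀ {x y : ℝ}, 1 ≤ x → 1 ≤ y → 1 ≤ x * y := fun h h' =>
      one_le_mul_of_one_le_of_one_le h h'
    exact mm (mm (mm (one_le_pow₀ (mm na hD)) (one_le_pow₀ hq)) (one_le_pow₀ ng)) (one_le_pow₀ hF)
  have e : c.Lt ^ 2 = c.Y * (H ^ 2 * V ^ 3 / K ^ 2 /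
      ((nm a * D) ^ 3 * q ^ 5 * (nm g : ℝ) ^ 4 * F ^ 5)) := by
    change ((X * V / K * H) * (V / (q * (nm d : ℝ) ^ 2 * (nm g : ℝ) ^ 2) / (nm a * D * F)) /
      ((nm a * D * X / nm d) * (q ^ 2 * nm g * F ^ 2))) ^ 2 =
      (V / (q * (nm d : ℝ) ^ 2 * (nm g : ℝ) ^ 2) / (nm a * D * F)) * _
    have h1 : (0 : ℝ) < nm a := by linarith
    have h2 : (0 : ℝ) < nm g := by linarith
    have h3 : (0 : ℝ) < nm d := by linarith
    have h4 : 0 < q := by linarith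
    have h5 : 0 < D := by linarith
    have h6 : 0 < F := by linarith
    field_simp
  have hY : 0 ≤ c.Y := by
    change 0 ≤ (V / (q * (nm d : ℝ) ^ 2 * (nm g : ℝ) ^ 2) / (nm a * D * F))
    positivity
  rw [e]
  refine mul_le_mul_of_nonneg_left (div_le_self (by positivity) hA) hY

/-- the small parts of the structured half against the length -/
theorem R1_cell {Y Lt θ T2 T3 Bs : ℝ} (hY : 0 < Y) (hLt : 0 < Lt) (hθ : 0 ≤ θ)
    (h : Lt ^ 2 ≤ Y * θ) (h2 : 0 ≤ T2) (h3 : 0 ≤ T3) :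
    ((Y + (Lt * Y) ^ (2 / 3 : ℝ)) * T2 + Lt * Y ^ (1 / 2 : ℝ) * T3 + Y * Bs) / Y ≤
      (1 + θ ^ (1 / 3 : ℝ)) * T2 + θ ^ (1 / 2 : ℝ) * T3 + Bs := by
  rw [div_le_iff₀ hY]
  have e1 : (Lt * Y) ^ (2 / 3 : ℝ) ≤ θ ^ (1 / 3 : ℝ) * Y := by
    have a1 : (Lt * Y) ^ (2 / 3 : ℝ) = (Lt ^ 2) ^ (1 / 3 : ℝ) * Y ^ (2 / 3 : ℝ) := by
      rw [Real.mul_rpow hLt.le hY.le, ← Real.rpow_natCast Lt 2, ← Real.rpow_mul hLt.le]
      norm_num
    have a2 : (Lt ^ 2) ^ (1 / 3 : ℝ) ≤ (Y * θ) ^ (1 / 3 : ℝ) :=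
      Real.rpow_le_rpow (by positivity) h (by norm_num)
    have a3 : (Y * θ) ^ (1 / 3 : ℝ) * Y ^ (2 / 3 : ℝ) = θ ^ (1 / 3 : ℝ) * Y := by
      rw [Real.mul_rpow hY.le hθ]
      have : Y ^ (1 / 3 : ℝ) * Y ^ (2 / 3 : ℝ) = Y := by
        rw [← Real.rpow_add hY]; norm_num
      calc Y ^ (1 / 3 : ℝ) * θ ^ (1 / 3 : ℝ) * Y ^ (2 / 3 : ℝ) =
            θ ^ (1 / 3 : ℝ) * (Y ^ (1 / 3 : ℝ) * Y ^ (2 / 3 : ℝ)) := by ring
        _ = _ := by rw [this]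
    rw [a1, ← a3]
    exact mul_le_mul_of_nonneg_right a2 (by positivity)
  have e2 : Lt * Y ^ (1 / 2 : ℝ) ≤ θ ^ (1 / 2 : ℝ) * Y := by
    have a1 : Lt = (Lt ^ 2) ^ (1 / 2 : ℝ) := by
      rw [← Real.rpow_natCast Lt 2, ← Real.rpow_mul hLt.le]
      norm_num
    have a2 : (Lt ^ 2) ^ (1 / 2 : ℝ) ≤ (Y * θ) ^ (1 / 2 : ℝ) :=
      Real.rpow_le_rpow (by positivity) h (by norm_num)
    have a3 : (Y * θ) ^ (1 / 2 : ℝ) * Y ^ (1 / 2 : ℝ) = θ ^ (1 / 2 : ℝ) * Y := by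
      rw [Real.mul_rpow hY.le hθ]
      have : Y ^ (1 / 2 : ℝ) * Y ^ (1 / 2 : ℝ) = Y := by
        rw [← Real.rpow_add hY]; norm_num
      calc Y ^ (1 / 2 : ℝ) * θ ^ (1 / 2 : ℝ) * Y ^ (1 / 2 : ℝ) =
            θ ^ (1 / 2 : ℝ) * (Y ^ (1 / 2 : ℝ) * Y ^ (1 / 2 : ℝ)) := by ring
        _ = _ := by rw [this]
    rw [← a3]
    refine mul_le_mul_of_nonneg_right ?_ (by positivity)
    rw [a1]
    exact a2
  have k1 := mul_le_mul_of_nonneg_right e1 h2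
  have k2 := mul_le_mul_of_nonneg_right e2 h3
  nlinarith [k1, k2]

end Crest.Agent.R017.E3Ss290
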