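import Crest.Agent.R017.E3Uh_829
import Crest.Agent.R017.E3Ss_290

/-!
# Row 17, R8 (E3), the extra factors of a cell (helper829)

* `Cd.extS`, `Cd.extD1`, `Cd.extD2` : the relative weights of the second term of the large sieve
  and of the two parts of the structured half
* `OK.extS_le`, `OK.extD1_le`, `OK.extD2_le`
* `ext_OI`, `ext_OI_swap` : the bounds on the literal family
-/

set_option autoImplicit false
set_option linter.unusedVariables false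

noncomputable section

open Finset
open scoped Classical ComplexConjugate

namespace Crest.Agent.R017.E3T829

open Crest.Agent.R012 Crest.Agent.R012.Eis Crest.Agent.R012.Div277
open Crest.Agent.R012.LS2 (S mem_S bl mem_bl)
open Crest.Agent.R012.Mob705 (pdiv mem_pdiv pb mem_pb)
open Crest.Agent.R017.DgA829 (lc nm_lc)
open Crest.Agent.R017.E1551 (nmpos)
open Crest.Agent.R017.C70 (JC OKJ)
open Crest.Agent.R017.E3A164 (Yp Cs mem_Cs fq Ys)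
open Crest.Agent.R017.GrB829 (IsC)
open Crest.Agent.R017.E3Sr290 (CellD cellOf Fac exists_fac)
open Crest.Agent.R017.E3Sj290 (nL Fac_ls Fac_lsY cell_ratio_nonneg one_le_nm')
open Crest.Agent.R017.E3Ss290 (Lt_sq R1_cell)

namespace Cd

/-- the relative weight of the second term of the large sieve -/
def extS (x : Cd) (K V V' H X : ℝ) : ℝ :=
  (nL (x.cell K V V' H X x.xk) * (x.cell K V V' H X x.xk).Y) ^ (2 / 3 : ℝ) /
    (((x.cell K V V' H X x.xk).L0 / (x.cell K V V' H X x.xk).Lt) ^ (1 / 3 : ℝ) *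
      (x.cell K V V' H X x.xk).Y)

/-- the relative weight of the first structured part -/
def extD1 (x : Cd) (K V V' H X : ℝ) : ℝ :=
  ((x.cell K V V' H X x.xk).Y +
    ((x.cell K V V' H X x.xk).Lt * (x.cell K V V' H X x.xk).Y) ^ (2 / 3 : ℝ)) /
    (x.cell K V V' H X x.xk).Y

/-- the relative weight of the second structured part -/
def extD2 (x : Cd) (K V V' H X : ℝ) : ℝ :=
  (x.cell K V V' H X x.xk).Lt * (x.cell K V V' H X x.xk).Y ^ (1 / 2 : ℝ) /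
    (x.cell K V V' H X x.xk).Y

variable {x : Cd} {Z : ℝ} {EE : Finset Eis}

lemma OK.ext_nonneg (h : x.OK Z EE) {K V V' H X : ℝ} (hK : 0 < K) (hV : 0 < V) (hV' : 0 < V')
    (hH : 0 < H) (hX : 0 < X) :
    0 ≤ x.extL K V V' H X ∧ 0 ≤ x.extS K V V' H X ∧ 0 ≤ x.extD1 K V V' H X ∧
      0 ≤ x.extD2 K V V' H X := by
  obtain ⟨h1, h2, h3, h4, h5⟩ := h.cell_pos hK hV hV' hH hX
  unfold extL extS extD1 extD2
  have h6 := Real.rpow_pos_of_pos (div_pos h1 h2) (1 / 3 : ℝ)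
  refine ⟨by positivity, by positivity, by positivity, by positivity⟩

lemma nm_lc_le {b b' : Eis} (hb : IsPrim b) (hb' : IsPrim b') (hs : Squarefree b)
    (hs' : Squarefree b') : (nm (lc b b') : ℝ) ≤ nm b * nm b' := by
  obtain ⟨g, hg, -, -, -, h1, -⟩ := nm_lc hb hb' hs hs'
  have h2 := one_le_nm' hg
  have h3 : (0 : ℝ) ≤ nm (lc b b') := Nat.cast_nonneg _
  nlinarith

theorem OK.extS_le (h : x.OK Z EE) {K V V' H X : ℝ} (hK : 0 < K) (hV : 0 < V) (hV' : 0 < V')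
    (hH : 0 < H) (hX : 0 < X) :
    x.extS K V V' H X ≤
      (H * V ^ 2 * V' * nm x.t ^ 3 * (nm x.b * nm x.b') / K ^ 2) ^ (1 / 3 : ℝ) := by
  obtain ⟨nq, nt, nd, ne, nc, ng, nd', ne', nc', ng', nD, nE, nF⟩ := h.np
  obtain ⟨f, hf⟩ := h.xk_spec
  have hVc : 0 < V / nm x.c := by positivity
  have hVc' : 0 < V' / nm x.c' := by positivity
  obtain ⟨c1, c2, c3, c4, c5⟩ := h.cell_pos hK hV hV' hH hX
  have e0 : x.cell K V V' H X x.xk = cellOf K (V / nm x.c) (V' / nm x.c') H (nm x.q) (nm x.t)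
    (nm x.D) (nm x.E) (nm x.F) X x.M x.g x.g' x.d x.d' x.a x.a' x.r f.xk := by
    rw [hf]; rfl
  have o1 := one_le_nm' (h.prim h.q)
  have o2 := one_le_nm' (h.prim h.D)
  have o3 := one_le_nm' (isPrim_of_mem_dvs h.E)
  have o4 := one_le_nm' (h.prim h.F)
  have key := Fac_lsY f (h.prim h.g) (h.prim h.d) h.a' h.eN hK hVc hVc' hH o1 nt o2 o3 o4 hX
  rw [← e0] at key
  have hpos : 0 < ((x.cell K V V' H X x.xk).L0 / (x.cell K V V' H X x.xk).Lt) ^ (1 / 3 : ℝ) *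
      (x.cell K V V' H X x.xk).Y := mul_pos (Real.rpow_pos_of_pos (div_pos c1 c2) _) c3
  unfold extS
  rw [div_le_iff₀ hpos]
  refine (key.trans (mul_le_mul_of_nonneg_left ?_ hpos.le)).trans (le_of_eq (mul_comm _ _))
  have hc1 : (1 : ℝ) ≤ nm x.c := by exact_mod_cast (nm_c_le h.c).1
  have hc1' : (1 : ℝ) ≤ nm x.c' := by exact_mod_cast (nm_c_le h.c').1
  have hb := (mem_S (by linarith [h.Z1])).1 h.b
  have hb' := (mem_S (by linarith [h.Z1])).1 h.b'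
  have hlc := nm_lc_le hb.2.1 hb'.2.1 hb.2.2 hb'.2.2
  have q1 : V / nm x.c ≤ V := div_le_self hV.le hc1
  have q2 : V' / nm x.c' ≤ V' := div_le_self hV'.le hc1'
  refine Real.rpow_le_rpow (by positivity) ?_ (by norm_num)
  gcongr

theorem OK.extD1_le (h : x.OK Z EE) {K V V' H X : ℝ} (hK : 0 < K) (hV : 0 < V) (hV' : 0 < V')
    (hH : 0 < H) (hX : 0 < X) :
    x.extD1 K V V' H X ≤ 1 + (H ^ 2 * V ^ 3 / K ^ 2) ^ (1 / 3 : ℝ) ∧
    x.extD2 K V V' H X ≤ (H ^ 2 * V ^ 3 / K ^ 2) ^ (1 / 2 : ℝ) := by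
  obtain ⟨nq, nt, nd, ne, nc, ng, nd', ne', nc', ng', nD, nE, nF⟩ := h.np
  have hVc : 0 < V / nm x.c := by positivity
  have hVc' : 0 < V' / nm x.c' := by positivity
  obtain ⟨c1, c2, c3, c4, c5⟩ := h.cell_pos hK hV hV' hH hX
  have o1 := one_le_nm' (h.prim h.q)
  have o2 := one_le_nm' (h.prim h.D)
  have o4 := one_le_nm' (h.prim h.F)
  have hc1 : (1 : ℝ) ≤ nm x.c := by exact_mod_cast (nm_c_le h.c).1
  have q1 : V / nm x.c ≤ V := div_le_self hV.le hc1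
  have key0 : (x.cell K V V' H X x.xk).Lt ^ 2 ≤
      (x.cell K V V' H X x.xk).Y * (H ^ 2 * (V / nm x.c) ^ 3 / K ^ 2) :=
    Lt_sq (h.prim h.g) (h.prim h.d) h.a hK hVc hH o1 o2 o4 hX
  have key : (x.cell K V V' H X x.xk).Lt ^ 2 ≤
      (x.cell K V V' H X x.xk).Y * (H ^ 2 * V ^ 3 / K ^ 2) := by
    refine key0.trans (mul_le_mul_of_nonneg_left ?_ c3.le)
    gcongr
  have hθ : 0 ≤ H ^ 2 * V ^ 3 / K ^ 2 := by positivity
  constructor
  · have h1 := R1_cell (T2 := 1) (T3 := 0) (Bs := 0) c3 c2 hθ key (by norm_num) le_rfl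
    simp only [mul_one, mul_zero, add_zero] at h1
    exact h1
  · have h1 := R1_cell (T2 := 0) (T3 := 1) (Bs := 0) c3 c2 hθ key le_rfl (by norm_num)
    simp only [mul_one, mul_zero, add_zero, zero_add] at h1
    exact h1

end Cd

section fam

variable {Pr : Yp → Yp → Prop} {J : Finset (Eis × Eis)} {EE : Finset Eis}
  {E0 E1 R B Z b₀ K : ℝ}

lemma OI_tb (hB0 : 0 ≤ B) {i : IX} (hi : i ∈ OI Pr J EE E0 E1 R B Z b₀ K) :
    (nm (cdI i).t : ℝ) ≤ E1 ∧ (nm (cdI i).b : ℝ) ≤ B ∧ (nm (cdI i).b' : ℝ) ≤ B := by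
  obtain ⟨h0, hc⟩ := mem_filter.mp hi
  rw [mem_IX0] at h0
  obtain ⟨q, t, y, y', b, b', s, sg, a, a', D, E, F⟩ := i
  obtain ⟨k1, k2, k3, k4, k5, k6, k7, k8, k9, k10, k11, k12, k13⟩ := h0
  simp only at k2 k5 k6
  rw [mem_pb] at k2
  exact ⟨k2.1, ((mem_S hB0).1 k5).1, ((mem_S hB0).1 k6).1⟩

/-- **the extra factors on the literal family** -/
theorem ext_OI (hJ : OKJ J) (hZ : 1 ≤ Z) (hR0 : 0 ≤ R) (hRZ : R ≤ Z) (hB0 : 0 ≤ B) (hBZ : B ≤ Z)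
    (hE1 : E1 ≤ Z) (hJ1 : ∀ x ∈ J, (nm x.1 : ℝ) ≤ Z) {i : IX}
    (hi : i ∈ OI Pr J EE E0 E1 R B Z b₀ K) {V V' H X : ℝ} (hK : 0 < K) (hV : 0 < V)
    (hV' : 0 < V') (hH : 0 < H) (hX : 0 < X) :
    (cdI i).extS K V V' H X ≤ (H * V ^ 2 * V' * E1 ^ 3 * B ^ 2 / K ^ 2) ^ (1 / 3 : ℝ) ∧
    (cdI i).swap.extS K V' V H X ≤ (H * V' ^ 2 * V * E1 ^ 3 * B ^ 2 / K ^ 2) ^ (1 / 3 : ℝ) ∧
    (cdI i).extD1 K V V' H X ≤ 1 + (H ^ 2 * V ^ 3 / K ^ 2) ^ (1 / 3 : ℝ) ∧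
    (cdI i).swap.extD1 K V' V H X ≤ 1 + (H ^ 2 * V' ^ 3 / K ^ 2) ^ (1 / 3 : ℝ) ∧
    (cdI i).extD2 K V V' H X ≤ (H ^ 2 * V ^ 3 / K ^ 2) ^ (1 / 2 : ℝ) ∧
    (cdI i).swap.extD2 K V' V H X ≤ (H ^ 2 * V' ^ 3 / K ^ 2) ^ (1 / 2 : ℝ) := by
  have hk := OI_OK hJ hZ hR0 hRZ hB0 hBZ hE1 hJ1 hi
  obtain ⟨ht, hb, hb'⟩ := OI_tb hB0 hi
  have n1 : (0 : ℝ) ≤ nm (cdI i).t := Nat.cast_nonneg _
  have n2 : (0 : ℝ) ≤ nm (cdI i).b := Nat.cast_nonneg _
  have n3 : (0 : ℝ) ≤ nm (cdI i).b' := Nat.cast_nonneg _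
  have hbb : (nm (cdI i).b * nm (cdI i).b' : ℝ) ≤ B ^ 2 := by
    rw [pow_two]; gcongr
  have hbb' : (nm (cdI i).b' * nm (cdI i).b : ℝ) ≤ B ^ 2 := by
    rw [mul_comm]; exact hbb
  have hE10 : 0 ≤ E1 := n1.trans ht
  obtain ⟨a1, a2⟩ := hk.extD1_le hK hV hV' hH hX
  obtain ⟨b1, b2⟩ := hk.swap.extD1_le hK hV' hV hH hX
  refine ⟨(hk.extS_le hK hV hV' hH hX).trans ?_, (hk.swap.extS_le hK hV' hV hH hX).trans ?_,
    a1, b1, a2, b2⟩
  · refine Real.rpow_le_rpow (by positivity) ?_ (by norm_num)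
    gcongr
  · change (H * V' ^ 2 * V * nm (cdI i).t ^ 3 * (nm (cdI i).b' * nm (cdI i).b) / K ^ 2 : ℝ) ^
      (1 / 3 : ℝ) ≤ _
    refine Real.rpow_le_rpow (by positivity) ?_ (by norm_num)
    gcongr

end fam

end Crest.Agent.R017.E3T829
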