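import Crest.Agent.R017.E3Tg_829

/-!
# Row 17, R8 (E3), part (T4): the R-half, convergent form (helper829)

`R_conv` : `Σ_o val_o κ_o ≤ C Z^ε Σ_{(d,e)} P` if `κ_o ≤ 1 / N(a D q g F)`.
-/

set_option autoImplicit false
set_option linter.unusedVariables false

noncomputable section

open Finset
open scoped Classical ComplexConjugate

namespace Crest.Agent.R017.E3T829

open Crest.Agent.R012 Crest.Agent.R012.Eis Crest.Agent.R012.Div277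
open Crest.Agent.R012.LS2 (S mem_S bl mem_bl)
open Crest.Agent.R017.E3A164 (Cs mem_Cs fq)
open Crest.Agent.R017.GrB829 (IsC)
open Crest.Agent.R017.DgB829 (HS HS_nonneg HS_le)

/-- the convergent weight of a cell -/
def kU (u : UT) : ℝ := 1 / nm u.2.2.1 * (1 / nm u.2.2.2.2.1) * (1 / nm u.2.2.2.2.2.2.2) *
  (1 / nm u.2.2.2.2.2.1) * (1 / nm u.2.2.2.2.2.2.1)

lemma kU_nonneg (u : UT) : 0 ≤ kU u := by unfold kU; positivity

/-- the sum of the convergent weights -/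
theorem conv_U {Z : ℝ} (hZ : 0 ≤ Z) (Us : Finset UT) (G : Eis → Eis → ℝ)
    (hG : ∀ d e, 0 ≤ G d e) (hs : ∀ u ∈ Us, SU Z u) (hc : ∀ u ∈ Us, IsC u.2.2.2.1) :
    ∑ u ∈ Us, G u.1 u.2.1 * kU u ≤ 4 * HS Z ^ 5 *
      ∑ ρ ∈ Us.image (fun u => (u.1, u.2.1)), G ρ.1 ρ.2 := by
  rw [← sum_fiberwise_of_maps_to (s := Us) (t := Us.image (fun u => (u.1, u.2.1)))
    (g := fun u => (u.1, u.2.1)) (fun u hu => mem_image_of_mem _ hu), mul_sum]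
  refine sum_le_sum fun ρ _ => ?_
  have e1 : ∑ u ∈ Us.filter (fun u => (u.1, u.2.1) = ρ), G u.1 u.2.1 * kU u =
      G ρ.1 ρ.2 * ∑ u ∈ Us.filter (fun u => (u.1, u.2.1) = ρ), kU u := by
    rw [mul_sum]
    refine sum_congr rfl fun u hu => ?_
    have h := (mem_filter.mp hu).2
    rw [← h]
  rw [e1]
  set k' : Eis × Eis × Eis × Eis × Eis × Eis → ℝ := fun v =>
    1 / nm v.2.1 * (1 / nm v.2.2.1) * (1 / nm v.2.2.2.1) * (1 / nm v.2.2.2.2.1) *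
      (1 / nm v.2.2.2.2.2) with hk'
  set T : Finset (Eis × Eis × Eis × Eis × Eis × Eis) :=
    Cs ×ˢ (S Z ×ˢ S Z ×ˢ S Z ×ˢ S Z ×ˢ S Z) with hT
  set φ : UT → Eis × Eis × Eis × Eis × Eis × Eis := fun u => (u.2.2.2.1, u.2.2.1, u.2.2.2.2.1,
    u.2.2.2.2.2.2.2, u.2.2.2.2.2.1, u.2.2.2.2.2.2.1) with hφ
  have hinj : Set.InjOn φ ↑(Us.filter (fun u => (u.1, u.2.1) = ρ)) := by
    intro u hu u' hu' h
    obtain ⟨hu1, hu2⟩ := mem_filter.mp hu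
    obtain ⟨hu1', hu2'⟩ := mem_filter.mp hu'
    have h2 := hu2.trans hu2'.symm
    simp only [hφ, Prod.mk.injEq] at h h2
    obtain ⟨a1, a2, a3, a4, a5, a6⟩ := h
    exact Prod.ext h2.1 (Prod.ext h2.2 (Prod.ext a2 (Prod.ext a1 (Prod.ext a3
      (Prod.ext a5 (Prod.ext a6 a4))))))
  have h1 : ∑ u ∈ Us.filter (fun u => (u.1, u.2.1) = ρ), kU u ≤ ∑ v ∈ T, k' v := by
    have e2 : ∑ u ∈ Us.filter (fun u => (u.1, u.2.1) = ρ), kU u =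
        ∑ v ∈ (Us.filter (fun u => (u.1, u.2.1) = ρ)).image φ, k' v := by
      rw [sum_image hinj]
      rfl
    rw [e2]
    refine sum_le_sum_of_subset_of_nonneg ?_ fun v _ _ => by simp only [hk']; positivity
    intro v hv
    obtain ⟨u, hu, rfl⟩ := mem_image.mp hv
    obtain ⟨hu1, hu2⟩ := mem_filter.mp hu
    have hS := hs u hu1
    simp only [hT, hφ, mem_product, mem_Cs]
    exact ⟨hc u hu1, hS.q, hS.g, hS.F, hS.a, hS.D⟩
  have h2 : ∑ v ∈ T, k' v = Cs.card * HS Z ^ 5 := by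
    rw [hT, sum_product]
    simp only [hk', sum_product, sum_const, nsmul_eq_mul]
    unfold HS
    simp only [← mul_sum, ← sum_mul]
    ring
  have h3 : (Cs.card : ℝ) ≤ 4 := by exact_mod_cast card_Cs
  have h4 : 0 ≤ HS Z ^ 5 := pow_nonneg (HS_nonneg Z) 5
  calc G ρ.1 ρ.2 * ∑ u ∈ Us.filter (fun u => (u.1, u.2.1) = ρ), kU u
      ≤ G ρ.1 ρ.2 * (Cs.card * HS Z ^ 5) := mul_le_mul_of_nonneg_left (h1.trans h2.le) (hG _ _)
    _ ≤ G ρ.1 ρ.2 * (4 * HS Z ^ 5) :=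
        mul_le_mul_of_nonneg_left (mul_le_mul_of_nonneg_right h3 h4) (hG _ _)
    _ = _ := by ring

/-- **the R-half of the sum over the cells, convergent form** -/
theorem R_conv {ε : ℝ} (hε : 0 < ε) : ∃ C : ℝ, 0 ≤ C ∧ ∀ Z : ℝ, 1 ≤ Z →
    ∀ (EE : Finset Eis) {ι : Type} (O : Finset ι) (U : ι → UT) (V : ι → VT) (val κ : ι → ℝ) (P : Eis → Eis → ℝ),
      (∀ d e, 0 ≤ P d e) → (∀ o ∈ O, OU Z (U o)) → (∀ o ∈ O, SU Z (U o)) →
      (∀ o ∈ O, V o ∈ VS Z EE (U o).2.2.1 (U o).1 (U o).2.2.2.2.1 (U o).2.2.2.2.2.2.1) →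
      (∀ o ∈ O, ∀ o' ∈ O, U o = U o' → V o = V o' → o = o') →
      (∀ o ∈ O, val o ≤ P (U o).1 (U o).2.1 *
        wV (U o).2.2.2.2.1 (U o).1 (U o).2.2.2.2.2.1 (V o)) →
      (∀ o ∈ O, 0 ≤ κ o ∧ κ o ≤ kU (U o)) →
      ∑ o ∈ O, val o * κ o ≤
        C * Z ^ ε * hE EE * ∑ ρ ∈ O.image (fun o => ((U o).1, (U o).2.1)), P ρ.1 ρ.2 := by
  obtain ⟨C1, hC1, h1⟩ := sum_VI (ε := ε / 2) (by positivity)
  set η := ε / 10 with hη
  have hη0 : 0 < η := by positivity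
  refine ⟨C1 * (4 * (200 * (1 + 1 / η)) ^ 5), by positivity, ?_⟩
  intro Z hZ EE ι O U V val κ P hP hU hS hV inj hval hκ
  have hZ0 : 0 < Z := by linarith
  set G : UT → ℝ := fun u => P u.1 u.2.1 * kU u with hG
  have hG0 : ∀ u, 0 ≤ G u := fun u => mul_nonneg (hP _ _) (kU_nonneg _)
  have s1 : ∑ o ∈ O, val o * κ o ≤
      ∑ o ∈ O, wV (U o).2.2.2.2.1 (U o).1 (U o).2.2.2.2.2.1 (V o) * G (U o) := by
    refine sum_le_sum fun o ho => ?_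
    have a4 : 0 ≤ P (U o).1 (U o).2.1 * wV (U o).2.2.2.2.1 (U o).1 (U o).2.2.2.2.2.1 (V o) :=
      mul_nonneg (hP _ _) (wV_nonneg _ _ _ _)
    calc val o * κ o ≤ (P (U o).1 (U o).2.1 *
          wV (U o).2.2.2.2.1 (U o).1 (U o).2.2.2.2.2.1 (V o)) * kU (U o) :=
          mul_le_mul (hval o ho) (hκ o ho).2 (hκ o ho).1 a4
      _ = _ := by simp only [hG]; ring
  have s2 := h1 Z hZ EE O U (fun u => u.2.2.1) (fun u => u.1) (fun u => u.2.2.2.2.1)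
    (fun u => u.2.2.2.2.2.1) (fun u => u.2.2.2.2.2.2.1) G V hG0
    (fun o ho => ⟨(hU o ho).q.ne_zero, (hU o ho).d.ne_zero, (hU o ho).g.ne_zero,
      (hU o ho).a.ne_zero, (hU o ho).D.ne_zero⟩)
    (fun o ho => ⟨(hU o ho).nq, (hU o ho).nd, (hU o ho).ng, (hU o ho).na, (hU o ho).nD⟩) hV inj
  obtain ⟨OI, hOI⟩ : ∃ OI : Finset UT, OI = O.image U := ⟨_, rfl⟩
  have s2' : ∑ o ∈ O, wV (U o).2.2.2.2.1 (U o).1 (U o).2.2.2.2.2.1 (V o) * G (U o) ≤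
      C1 * Z ^ (ε / 2) * hE EE * ∑ u ∈ OI, G u := by
    rw [hOI]
    convert s2
  have hm : ∀ u ∈ OI, ∃ o ∈ O, U o = u := by
    intro u hu
    rw [hOI, mem_image] at hu
    exact hu
  have s3 := conv_U (Z := Z) hZ0.le OI P hP
    (fun u hu => by obtain ⟨o, ho, rfl⟩ := hm u hu; exact hS o ho)
    (fun u hu => by obtain ⟨o, ho, rfl⟩ := hm u hu; exact (hU o ho).c)
  have e1 : OI.image (fun u => (u.1, u.2.1)) = O.image (fun o => ((U o).1, (U o).2.1)) := by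
    rw [hOI]
    ext ρ
    simp only [mem_image]
    constructor
    · rintro ⟨u, ⟨o, ho, rfl⟩, rfl⟩; exact ⟨o, ho, rfl⟩
    · rintro ⟨o, ho, rfl⟩; exact ⟨U o, ⟨o, ho, rfl⟩, rfl⟩
  rw [e1] at s3
  set X := ∑ ρ ∈ O.image (fun o => ((U o).1, (U o).2.1)), P ρ.1 ρ.2 with hX
  have hX0 : 0 ≤ X := sum_nonneg fun ρ _ => hP _ _
  have hH : HS Z ^ 5 ≤ (200 * (1 + 1 / η)) ^ 5 * Z ^ (ε / 2) := by
    have h3 := HS_le hZ
    have h4 := E3M829.log_Z hη0 hZ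
    have h5 : HS Z ≤ 200 * (1 + 1 / η) * Z ^ η := by nlinarith
    have h6 := pow_le_pow_left₀ (HS_nonneg Z) h5 5
    refine h6.trans (le_of_eq ?_)
    rw [mul_pow]
    congr 1
    rw [← Real.rpow_natCast, ← Real.rpow_mul hZ0.le]
    congr 1
    rw [hη]; push_cast; ring
  have hZZ : Z ^ (ε / 2) * Z ^ (ε / 2) = Z ^ ε := by
    rw [← Real.rpow_add hZ0]; congr 1; ring
  have hp : 0 ≤ C1 * Z ^ (ε / 2) * hE EE := mul_nonneg (by positivity) (hE_nonneg EE)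
  have hE0 := hE_nonneg EE
  calc ∑ o ∈ O, val o * κ o ≤ C1 * Z ^ (ε / 2) * hE EE * ∑ u ∈ OI, G u := s1.trans s2'
    _ ≤ C1 * Z ^ (ε / 2) * hE EE * (4 * HS Z ^ 5 * X) := mul_le_mul_of_nonneg_left s3 hp
    _ ≤ C1 * Z ^ (ε / 2) * hE EE * (4 * ((200 * (1 + 1 / η)) ^ 5 * Z ^ (ε / 2)) * X) := by gcongr
    _ = C1 * (4 * (200 * (1 + 1 / η)) ^ 5) * (Z ^ (ε / 2) * Z ^ (ε / 2)) * hE EE * X := by ring
    _ = _ := by rw [hZZ]

end Crest.Agent.R017.E3T829
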