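import Crest.Agent.R017.E3Ub_829
import Crest.Agent.R017.E3Th_829

/-!
# Row 17, R8 (E3), leaf (Rsum) (helper579): the structured part after the removal of the dilation

* `dil u E v` : the variables `(κ', F') = (a D / (E v), F E v)` of the mode call
* `dil_card` : at most `C Z^ε` triples `(u, E, v)` with given dilated variables
* `Rsum` : `Σ_u P Σ_{E ∣ D} Σ_{v ∣ a D / E} Bs (dil u E v) ≤ C Z^ε Σ_{(d, e)} P (L^{1/2} + M) W1`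
-/

set_option autoImplicit false
set_option linter.unusedVariables false
set_option maxHeartbeats 800000

noncomputable section

open Finset
open scoped Classical ComplexConjugate

namespace Crest.Agent.R017.E3Zr579

open Crest.Agent.R012 Crest.Agent.R012.Eis Crest.Agent.R012.Div277
open Crest.Agent.R012.LS2 (S mem_S bl mem_bl)
open Crest.Agent.R012.Mob705 (pdiv mem_pdiv)
open Crest.Agent.R017.E3A164 (Cs mem_Cs fq)
open Crest.Agent.R017.GrB829 (IsC)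
open Crest.Agent.R017.DgB829 (HS HS_nonneg HS_le)
open Crest.Agent.R017.E3T829

/-- the variables of the mode call -/
def dil (u : UT) (E v : Eis) : UT :=
  (u.1, u.2.1, u.2.2.1, u.2.2.2.1, u.2.2.2.2.1, u.2.2.2.2.2.1 * u.2.2.2.2.2.2.1 / (E * v), 1,
    u.2.2.2.2.2.2.2 * E * v)

/-- the arithmetic of the dilation -/
lemma dil_spec {a D E v : Eis} (ha : IsPrim a) (hD : IsPrim D) (hE : E ∈ pdiv D)
    (hv : v ∈ pdiv (a * D / E)) : IsPrim E ∧ IsPrim v ∧ IsPrim (a * D / (E * v)) ∧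
      a * D = E * v * (a * D / (E * v)) ∧ a * D / E / v = a * D / (E * v) := by
  obtain ⟨hEp, ⟨x, hx⟩⟩ := (mem_pdiv hD.ne_zero).mp hE
  have e0 : a * D = E * (a * x) := by rw [hx]; ring
  have e1 : a * D / E = a * x := by rw [e0, mul_div_cancel_left₀ _ hEp.ne_zero]
  have haD : IsPrim (a * D) := ha.mul hD
  have hax : IsPrim (a * x) := by rw [e0] at haD; exact haD.of_mul_left hEp
  rw [e1] at hv ⊢
  obtain ⟨hvp, ⟨z, hz⟩⟩ := (mem_pdiv hax.ne_zero).mp hv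
  have e2 : a * D = E * v * z := by rw [e0, hz]; ring
  have e3 : a * D / (E * v) = z := by
    rw [e2, mul_div_cancel_left₀ _ (hEp.mul hvp).ne_zero]
  have hz' : IsPrim z := by rw [hz] at hax; exact hax.of_mul_left hvp
  refine ⟨hEp, hvp, e3 ▸ hz', ?_, ?_⟩
  · rw [e3]; exact e2
  · rw [e3, hz, mul_div_cancel_left₀ _ hvp.ne_zero]

/-- the index set -/
def OD (Us : Finset UT) : Finset ((UT × Eis) × Eis) :=
  pr (pr (Us.filter fun u => Squarefree (u.2.2.2.2.2.1 * u.2.2.2.2.2.2.1 * u.2.2.2.2.2.2.2))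
    (fun u => pdiv u.2.2.2.2.2.2.1))
    (fun x => pdiv (x.1.2.2.2.2.2.1 * x.1.2.2.2.2.2.2.1 / x.2))

lemma sum_OD (Us : Finset UT) (G : UT → ℝ) :
    ∑ u ∈ Us, (if Squarefree (u.2.2.2.2.2.1 * u.2.2.2.2.2.2.1 * u.2.2.2.2.2.2.2) then
      ∑ E ∈ pdiv u.2.2.2.2.2.2.1, ∑ v ∈ pdiv (u.2.2.2.2.2.1 * u.2.2.2.2.2.2.1 / E),
        G (dil u E v) else 0) = ∑ x ∈ OD Us, G (dil x.1.1 x.1.2 x.2) := by
  unfold OD
  rw [sum_pr, sum_pr, sum_filter]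

/-- the dilated variables are admissible -/
lemma dil_SU {Z : ℝ} (hZ : 1 ≤ Z) {u : UT} (hu : SU Z u)
    (hs : Squarefree (u.2.2.2.2.2.1 * u.2.2.2.2.2.2.1 * u.2.2.2.2.2.2.2)) {E v : Eis}
    (hE : E ∈ pdiv u.2.2.2.2.2.2.1) (hv : v ∈ pdiv (u.2.2.2.2.2.1 * u.2.2.2.2.2.2.1 / E)) :
    SU (Z ^ 3) (dil u E v) := by
  have hZ0 : 0 ≤ Z := by linarith
  have hZ3 : Z ≤ Z ^ 3 := by nlinarith [sq_nonneg Z, mul_le_mul hZ hZ zero_le_one hZ0]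
  have hZ30 : 0 ≤ Z ^ 3 := by positivity
  obtain ⟨q1, q2, q3⟩ := (mem_S hZ0).1 hu.q
  obtain ⟨g1, g2, g3⟩ := (mem_S hZ0).1 hu.g
  obtain ⟨a1, a2, a3⟩ := (mem_S hZ0).1 hu.a
  obtain ⟨D1, D2, D3⟩ := (mem_S hZ0).1 hu.D
  obtain ⟨F1, F2, F3⟩ := (mem_S hZ0).1 hu.F
  obtain ⟨hEp, hvp, hκp, e, -⟩ := dil_spec a2 D2 hE hv
  set κ := u.2.2.2.2.2.1 * u.2.2.2.2.2.2.1 / (E * v) with hκ
  have e1 : u.2.2.2.2.2.1 * u.2.2.2.2.2.2.1 * u.2.2.2.2.2.2.2 =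
      κ * (u.2.2.2.2.2.2.2 * E * v) := by rw [e]; ring
  have hn : (nm (u.2.2.2.2.2.1 * u.2.2.2.2.2.2.1 * u.2.2.2.2.2.2.2) : ℝ) ≤ Z ^ 3 := by
    rw [nm_mul, nm_mul]
    push_cast
    calc (nm u.2.2.2.2.2.1 : ℝ) * nm u.2.2.2.2.2.2.1 * nm u.2.2.2.2.2.2.2 ≤ Z * Z * Z := by gcongr
      _ = Z ^ 3 := by ring
  rw [e1] at hs hn
  have hFp : IsPrim (u.2.2.2.2.2.2.2 * E * v) := (F2.mul hEp).mul hvp
  have k1 : (1 : ℝ) ≤ nm κ := by exact_mod_cast nm_pos.mpr hκp.ne_zero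
  have k2 : (1 : ℝ) ≤ nm (u.2.2.2.2.2.2.2 * E * v) := by exact_mod_cast nm_pos.mpr hFp.ne_zero
  have k3 : (nm κ : ℝ) * nm (u.2.2.2.2.2.2.2 * E * v) ≤ Z ^ 3 := by
    rw [nm_mul κ] at hn
    push_cast at hn
    exact hn
  exact
    { q := (mem_S hZ30).2 ⟨q1.trans hZ3, q2, q3⟩
      g := (mem_S hZ30).2 ⟨g1.trans hZ3, g2, g3⟩
      a := (mem_S hZ30).2 ⟨by
        show (nm κ : ℝ) ≤ Z ^ 3
        nlinarith, hκp, hs.of_mul_left⟩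
      D := (mem_S hZ30).2 ⟨by
        show (nm (1 : Eis) : ℝ) ≤ Z ^ 3
        rw [nm_one, Nat.cast_one]; linarith, isPrim_one, squarefree_one⟩
      F := (mem_S hZ30).2 ⟨by
        show (nm (u.2.2.2.2.2.2.2 * E * v) : ℝ) ≤ Z ^ 3
        nlinarith, hFp, hs.of_mul_right⟩ }

/-- **the fibres of the dilation** -/
theorem dil_card {ε : ℝ} (hε : 0 < ε) : ∃ C : ℝ, 1 ≤ C ∧ ∀ Z : ℝ, 1 ≤ Z →
    ∀ (Us : Finset UT), (∀ u ∈ Us, SU Z u) → ∀ t : UT,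
      (((OD Us).filter fun x => dil x.1.1 x.1.2 x.2 = t).card : ℝ) ≤ C * Z ^ ε := by
  obtain ⟨C, hC, hτ⟩ := tau_pow (ε := ε / 15) (by positivity)
  refine ⟨C ^ 5, one_le_pow₀ hC, fun Z hZ Us hUs t => ?_⟩
  have hZ0 : 0 < Z := by linarith
  set P := (OD Us).filter fun x => dil x.1.1 x.1.2 x.2 = t with hP
  by_cases hemp : P = ∅
  · rw [hemp, card_empty, Nat.cast_zero]
    have := Real.rpow_nonneg hZ0.le ε
    positivity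
  have hmem : ∀ x ∈ P, (x.1.1 ∈ Us ∧ Squarefree (x.1.1.2.2.2.2.2.1 * x.1.1.2.2.2.2.2.2.1 *
      x.1.1.2.2.2.2.2.2.2) ∧ x.1.2 ∈ pdiv x.1.1.2.2.2.2.2.2.1 ∧
      x.2 ∈ pdiv (x.1.1.2.2.2.2.2.1 * x.1.1.2.2.2.2.2.2.1 / x.1.2)) ∧
      dil x.1.1 x.1.2 x.2 = t := by
    intro x hx
    rw [hP, mem_filter] at hx
    unfold OD at hx
    rw [mem_pr, mem_pr, mem_filter] at hx
    exact ⟨⟨hx.1.1.1.1, hx.1.1.1.2, hx.1.1.2, hx.1.2⟩, hx.2⟩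
  set n0 : Eis := t.2.2.2.2.2.1 * t.2.2.2.2.2.2.2 with hn0
  -- the product
  have hprod : ∀ x ∈ P, n0 = x.1.1.2.2.2.2.2.1 * x.1.1.2.2.2.2.2.2.1 * x.1.1.2.2.2.2.2.2.2 ∧
      IsPrim x.1.1.2.2.2.2.2.1 ∧ IsPrim x.1.1.2.2.2.2.2.2.1 ∧ IsPrim x.1.1.2.2.2.2.2.2.2 ∧
      IsPrim x.1.2 ∧ IsPrim x.2 ∧ x.1.2 ∣ n0 ∧ x.2 ∣ n0 ∧ (nm n0 : ℝ) ≤ Z ^ 3 := by
    intro x hx
    obtain ⟨⟨h1, h2, h3, h4⟩, h5⟩ := hmem x hx
    have hu := hUs _ h1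
    obtain ⟨a1, a2, a3⟩ := (mem_S hZ0.le).1 hu.a
    obtain ⟨D1, D2, D3⟩ := (mem_S hZ0.le).1 hu.D
    obtain ⟨F1, F2, F3⟩ := (mem_S hZ0.le).1 hu.F
    obtain ⟨hEp, hvp, hκp, e, -⟩ := dil_spec a2 D2 h3 h4
    have e1 : n0 = x.1.1.2.2.2.2.2.1 * x.1.1.2.2.2.2.2.2.1 * x.1.1.2.2.2.2.2.2.2 := by
      rw [hn0, ← h5]
      show x.1.1.2.2.2.2.2.1 * x.1.1.2.2.2.2.2.2.1 / (x.1.2 * x.2) *
        (x.1.1.2.2.2.2.2.2.2 * x.1.2 * x.2) = _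
      conv_rhs => rw [e]
      ring
    have e2 : n0 = x.1.2 * x.2 * (x.1.1.2.2.2.2.2.1 * x.1.1.2.2.2.2.2.2.1 / (x.1.2 * x.2)) *
        x.1.1.2.2.2.2.2.2.2 := by rw [e1]; conv_lhs => rw [e]
    refine ⟨e1, a2, D2, F2, hEp, hvp, ⟨x.2 * (x.1.1.2.2.2.2.2.1 * x.1.1.2.2.2.2.2.2.1 /
      (x.1.2 * x.2)) * x.1.1.2.2.2.2.2.2.2, by rw [e2]; ring⟩, ⟨x.1.2 *
      (x.1.1.2.2.2.2.2.1 * x.1.1.2.2.2.2.2.2.1 / (x.1.2 * x.2)) * x.1.1.2.2.2.2.2.2.2, by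
        rw [e2]; ring⟩, ?_⟩
    rw [e1, nm_mul, nm_mul]
    push_cast
    calc (nm x.1.1.2.2.2.2.2.1 : ℝ) * nm x.1.1.2.2.2.2.2.2.1 * nm x.1.1.2.2.2.2.2.2.2 ≤
        Z * Z * Z := by gcongr
      _ = Z ^ 3 := by ring
  obtain ⟨x0, hx0⟩ := nonempty_iff_ne_empty.mpr hemp
  have hn0Z : (nm n0 : ℝ) ≤ Z ^ 3 := (hprod x0 hx0).2.2.2.2.2.2.2.2
  have hn00 : n0 ≠ 0 := by
    obtain ⟨e1, a2, D2, F2, -⟩ := hprod x0 hx0
    rw [e1]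
    exact ((a2.mul D2).mul F2).ne_zero
  have key := count (M := C * (Z ^ (ε / 15)) ^ 3) P (fun _ => ()) 5
    (fun x => ![x.1.1.2.2.2.2.2.1, x.1.1.2.2.2.2.2.2.1, x.1.1.2.2.2.2.2.2.2, x.1.2, x.2]) {()}
    (fun _ => n0) (fun _ _ => mem_singleton_self _) ?_ (fun _ _ => hτ Z hZ 3 n0 hn0Z) ?_
  · rw [card_singleton, Nat.cast_one, one_mul] at key
    refine key.trans (le_of_eq ?_)
    have : ((Z ^ (ε / 15)) ^ 3) ^ 5 = Z ^ ε := by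
      rw [← pow_mul, ← Real.rpow_natCast, ← Real.rpow_mul hZ0.le]
      congr 1
      push_cast
      ring
    rw [mul_pow, this]
  · intro x hx l
    obtain ⟨e1, a2, D2, F2, hEp, hvp, d1, d2, -⟩ := hprod x hx
    rw [mem_dvs hn00]
    fin_cases l
    · exact ⟨a2, by
        show x.1.1.2.2.2.2.2.1 ∣ n0
        rw [e1]; exact (dvd_mul_right _ _).mul_right _⟩
    · exact ⟨D2, by
        show x.1.1.2.2.2.2.2.2.1 ∣ n0
        rw [e1]; exact (dvd_mul_left _ _).mul_right _⟩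
    · exact ⟨F2, by
        show x.1.1.2.2.2.2.2.2.2 ∣ n0
        rw [e1]; exact dvd_mul_left _ _⟩
    · exact ⟨hEp, d1⟩
    · exact ⟨hvp, d2⟩
  · intro x hx x' hx' _ h
    obtain ⟨-, h5⟩ := hmem x hx
    obtain ⟨-, h5'⟩ := hmem x' hx'
    have h6 := h5.trans h5'.symm
    have k0 := congrFun h 0
    have k1 := congrFun h 1
    have k2 := congrFun h 2
    have k3 := congrFun h 3
    have k4 := congrFun h 4
    simp only [Matrix.cons_val] at k0 k1 k2 k3 k4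
    unfold dil at h6
    simp only [Prod.mk.injEq] at h6
    obtain ⟨b1, b2, b3, b4, b5, -⟩ := h6
    exact Prod.ext (Prod.ext (Prod.ext b1 (Prod.ext b2 (Prod.ext b3 (Prod.ext b4
      (Prod.ext b5 (Prod.ext k0 (Prod.ext k1 k2))))))) k3) k4

/-- **(Rsum)** : the sum of the structured parts -/
theorem Rsum {ε : ℝ} (hε : 0 < ε) : ∃ C : ℝ, 0 ≤ C ∧ ∀ Z : ℝ, 1 ≤ Z →
    ∀ (Us : Finset UT) (P W1 : Eis → Eis → ℝ) (L M : Eis → ℝ) (Bs : UT → ℝ),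
      (∀ d e, 0 ≤ P d e) → (∀ d e, 0 ≤ W1 d e) → (∀ d, 0 ≤ L d) → (∀ d, 0 ≤ M d) →
      (∀ u ∈ Us, SU Z u) → (∀ u ∈ Us, IsC u.2.2.2.1) →
      (∀ t, SU (Z ^ 3) t → (∃ u ∈ Us, t.1 = u.1 ∧ t.2.1 = u.2.1) →
        Bs t ≤ if (nm (t.2.2.2.2.2.1 * t.2.2.2.2.2.2.1) : ℝ) ^ 2 *
          (nm (t.2.2.1 * t.2.2.2.2.1 * t.2.2.2.2.2.2.2) : ℝ) ^ 3 ≤ L t.1 then
          (1 + M t.1 * kU t) * W1 t.1 t.2.1 else 0) →
      ∑ u ∈ Us, P u.1 u.2.1 *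
        (if Squarefree (u.2.2.2.2.2.1 * u.2.2.2.2.2.2.1 * u.2.2.2.2.2.2.2) then
          ∑ E ∈ pdiv u.2.2.2.2.2.2.1, ∑ v ∈ pdiv (u.2.2.2.2.2.1 * u.2.2.2.2.2.2.1 / E),
            Bs (dil u E v) else 0) ≤
        C * Z ^ ε * ∑ ρ ∈ Us.image (fun u => (u.1, u.2.1)), P ρ.1 ρ.2 *
          ((if 1 ≤ L ρ.1 then Real.sqrt (L ρ.1) + M ρ.1 else 0) * W1 ρ.1 ρ.2) := by
  obtain ⟨C1, hC1, h1⟩ := dil_card (ε := ε / 2) (by positivity)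
  set η := ε / 30 with hη
  have hη0 : 0 < η := by positivity
  set c0 : ℝ := 200 * (1 + 1 / η) with hc0
  have hc00 : 0 ≤ c0 := by positivity
  refine ⟨C1 * (64 * c0 ^ 4 + 4 * c0 ^ 5), by positivity, ?_⟩
  intro Z hZ Us P W1 L M Bs hP hW hL hM hUs hUc hBs
  have hZ0 : 0 < Z := by linarith
  have hZ3 : 1 ≤ Z ^ 3 := one_le_pow₀ hZ
  set cond : UT → Prop := fun t => (nm (t.2.2.2.2.2.1 * t.2.2.2.2.2.2.1) : ℝ) ^ 2 *
          (nm (t.2.2.1 * t.2.2.2.2.1 * t.2.2.2.2.2.2.2) : ℝ) ^ 3 ≤ L t.1 with hcond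
  set G : UT → ℝ := fun t => if cond t then P t.1 t.2.1 * ((1 + M t.1 * kU t) * W1 t.1 t.2.1)
    else 0 with hG
  have hG0 : ∀ t, 0 ≤ G t := by
    intro t
    simp only [hG]
    split_ifs
    · have := kU_nonneg t
      have h2 := hM t.1
      exact mul_nonneg (hP _ _) (mul_nonneg (by positivity) (hW _ _))
    · exact le_rfl
  -- step 1
  have s1 : ∑ u ∈ Us, P u.1 u.2.1 *
        (if Squarefree (u.2.2.2.2.2.1 * u.2.2.2.2.2.2.1 * u.2.2.2.2.2.2.2) then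
          ∑ E ∈ pdiv u.2.2.2.2.2.2.1, ∑ v ∈ pdiv (u.2.2.2.2.2.1 * u.2.2.2.2.2.2.1 / E),
            Bs (dil u E v) else 0) ≤ ∑ x ∈ OD Us, G (dil x.1.1 x.1.2 x.2) := by
    rw [← sum_OD]
    refine sum_le_sum fun u hu => ?_
    split_ifs with hs
    · rw [mul_sum]
      refine sum_le_sum fun E hE => ?_
      rw [mul_sum]
      refine sum_le_sum fun v hv => ?_
      have h3 := hBs (dil u E v) (dil_SU hZ (hUs u hu) hs hE hv) ⟨u, hu, rfl, rfl⟩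
      have h4 := mul_le_mul_of_nonneg_left h3 (hP u.1 u.2.1)
      refine h4.trans (le_of_eq ?_)
      simp only [hG, hcond]
      rw [mul_ite, mul_zero]
      rfl
    · rw [mul_zero]
  refine s1.trans ?_
  -- step 2
  set A : Finset UT := ((OD Us).image fun x => dil x.1.1 x.1.2 x.2).filter cond with hA
  have s2 := sum_fib (OD Us) (fun x => dil x.1.1 x.1.2 x.2) G hG0 A
    (fun x hx h => by
      rw [hA, mem_filter]
      refine ⟨mem_image_of_mem _ hx, ?_⟩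
      by_contra h3
      apply h
      simp only [hG]
      rw [if_neg h3])
    (M := C1 * Z ^ (ε / 2)) (fun t _ _ => by convert h1 Z hZ Us hUs t)
  have hAm : ∀ t ∈ A, SU (Z ^ 3) t ∧ IsC t.2.2.2.1 ∧ cond t ∧
      (t.1, t.2.1) ∈ Us.image (fun u => (u.1, u.2.1)) := by
    intro t ht
    rw [hA, mem_filter, mem_image] at ht
    obtain ⟨⟨x, hx, rfl⟩, hc⟩ := ht
    unfold OD at hx
    rw [mem_pr, mem_pr, mem_filter] at hx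
    obtain ⟨⟨⟨b1, b2⟩, b3⟩, b4⟩ := hx
    exact ⟨dil_SU hZ (hUs _ b1) b2 b3 b4, hUc x.1.1 b1, hc, mem_image.mpr ⟨x.1.1, b1, rfl⟩⟩
  have e2 : ∑ t ∈ A, G t = ∑ t ∈ A, P t.1 t.2.1 * W1 t.1 t.2.1 +
      ∑ t ∈ A, (P t.1 t.2.1 * M t.1 * W1 t.1 t.2.1) * kU t := by
    rw [← sum_add_distrib]
    refine sum_congr rfl fun t ht => ?_
    simp only [hG]
    rw [if_pos (hAm t ht).2.2.1]
    ring
  have s3 := count_U (Z := Z ^ 3) (by positivity) A L (fun d e => P d e * W1 d e) hL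
    (fun d e => mul_nonneg (hP _ _) (hW _ _)) (fun t ht => (hAm t ht).1)
    (fun t ht => (hAm t ht).2.1) (fun t ht => (hAm t ht).2.2.1)
  have s4 := conv_U (Z := Z ^ 3) (by positivity) A (fun d e => P d e * M d * W1 d e)
    (fun d e => mul_nonneg (mul_nonneg (hP _ _) (hM _)) (hW _ _)) (fun t ht => (hAm t ht).1)
    (fun t ht => (hAm t ht).2.1)
  have hL1 : ∀ t ∈ A, 1 ≤ L t.1 := by
    intro t ht
    obtain ⟨hs, -, hc, -⟩ := hAm t ht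
    have hZ30 : 0 ≤ Z ^ 3 := by positivity
    have p1 := ((mem_S hZ30).1 hs.a).2.1
    have p2 := ((mem_S hZ30).1 hs.D).2.1
    have p3 := ((mem_S hZ30).1 hs.q).2.1
    have p4 := ((mem_S hZ30).1 hs.g).2.1
    have p5 := ((mem_S hZ30).1 hs.F).2.1
    have n1 : (1 : ℝ) ≤ nm (t.2.2.2.2.2.1 * t.2.2.2.2.2.2.1) := by
      exact_mod_cast nm_pos.mpr (p1.mul p2).ne_zero
    have n2 : (1 : ℝ) ≤ nm (t.2.2.1 * t.2.2.2.2.1 * t.2.2.2.2.2.2.2) := by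
      exact_mod_cast nm_pos.mpr ((p3.mul p4).mul p5).ne_zero
    refine le_trans ?_ hc
    exact one_le_mul_of_one_le_of_one_le (one_le_pow₀ n1) (one_le_pow₀ n2)
  -- the sums over `(d, e)`
  set X := ∑ ρ ∈ Us.image (fun u => (u.1, u.2.1)), P ρ.1 ρ.2 *
          ((if 1 ≤ L ρ.1 then Real.sqrt (L ρ.1) + M ρ.1 else 0) * W1 ρ.1 ρ.2) with hX
  have hX0 : 0 ≤ X := sum_nonneg fun ρ _ => by
    refine mul_nonneg (hP _ _) (mul_nonneg ?_ (hW _ _))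
    split_ifs
    · exact add_nonneg (Real.sqrt_nonneg _) (hM _)
    · exact le_rfl
  have hsub : A.image (fun u => (u.1, u.2.1)) ⊆ Us.image (fun u => (u.1, u.2.1)) := by
    intro ρ hρ
    obtain ⟨t, ht, rfl⟩ := mem_image.mp hρ
    exact (hAm t ht).2.2.2
  have hterm : ∀ (f : Eis × Eis → ℝ), (∀ ρ, 0 ≤ f ρ) → (∀ ρ, 1 ≤ L ρ.1 → f ρ ≤ P ρ.1 ρ.2 *
      ((if 1 ≤ L ρ.1 then Real.sqrt (L ρ.1) + M ρ.1 else 0) * W1 ρ.1 ρ.2)) →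
      ∑ ρ ∈ A.image (fun u => (u.1, u.2.1)), f ρ ≤ X := by
    intro f hf0 hf
    refine (sum_le_sum fun ρ hρ => ?_).trans (sum_le_sum_of_subset_of_nonneg hsub fun ρ _ _ => ?_)
    · obtain ⟨t, ht, rfl⟩ := mem_image.mp hρ
      exact hf _ (hL1 t ht)
    · refine mul_nonneg (hP _ _) (mul_nonneg ?_ (hW _ _))
      split_ifs
      · exact add_nonneg (Real.sqrt_nonneg _) (hM _)
      · exact le_rfl
  have s5 : ∑ ρ ∈ A.image (fun u => (u.1, u.2.1)), P ρ.1 ρ.2 * W1 ρ.1 ρ.2 *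
      Real.sqrt (L ρ.1) ≤ X := by
    refine hterm (fun ρ => P ρ.1 ρ.2 * W1 ρ.1 ρ.2 * Real.sqrt (L ρ.1)) (fun ρ =>
      mul_nonneg (mul_nonneg (hP _ _) (hW _ _)) (Real.sqrt_nonneg _)) fun ρ hρ => ?_
    beta_reduce
    rw [if_pos hρ, mul_assoc]
    refine mul_le_mul_of_nonneg_left ?_ (hP _ _)
    rw [mul_comm]
    exact mul_le_mul_of_nonneg_right (by linarith [hM ρ.1]) (hW _ _)
  have s6 : ∑ ρ ∈ A.image (fun u => (u.1, u.2.1)), P ρ.1 ρ.2 * M ρ.1 * W1 ρ.1 ρ.2 ≤ X := by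
    refine hterm (fun ρ => P ρ.1 ρ.2 * M ρ.1 * W1 ρ.1 ρ.2) (fun ρ =>
      mul_nonneg (mul_nonneg (hP _ _) (hM _)) (hW _ _)) fun ρ hρ => ?_
    beta_reduce
    rw [if_pos hρ, mul_assoc]
    refine mul_le_mul_of_nonneg_left ?_ (hP _ _)
    exact mul_le_mul_of_nonneg_right (by linarith [Real.sqrt_nonneg (L ρ.1)]) (hW _ _)
  -- harmonic sums
  have hH0 : HS (Z ^ 3) ≤ c0 * Z ^ (3 * η) := by
    have h3 := HS_le hZ3
    have h4 := E3M829.log_Z hη0 hZ3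
    have h6 : 1 ≤ (Z ^ 3) ^ η := Real.one_le_rpow hZ3 hη0.le
    have h7 : (Z ^ 3) ^ η = Z ^ (3 * η) := by
      rw [← Real.rpow_natCast, ← Real.rpow_mul hZ0.le]; norm_num
    rw [← h7]
    nlinarith
  have hHS0 := HS_nonneg (Z ^ 3)
  have hH4 : HS (Z ^ 3) ^ 4 ≤ c0 ^ 4 * Z ^ (ε / 2) := by
    refine (pow_le_pow_left₀ hHS0 hH0 4).trans ?_
    rw [mul_pow]
    refine mul_le_mul_of_nonneg_left ?_ (by positivity)
    rw [← Real.rpow_natCast, ← Real.rpow_mul hZ0.le]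
    refine Real.rpow_le_rpow_of_exponent_le hZ ?_
    rw [hη]
    push_cast
    linarith
  have hH5 : HS (Z ^ 3) ^ 5 ≤ c0 ^ 5 * Z ^ (ε / 2) := by
    refine (pow_le_pow_left₀ hHS0 hH0 5).trans ?_
    rw [mul_pow]
    refine mul_le_mul_of_nonneg_left ?_ (by positivity)
    rw [← Real.rpow_natCast, ← Real.rpow_mul hZ0.le]
    refine Real.rpow_le_rpow_of_exponent_le hZ ?_
    rw [hη]
    push_cast
    linarith
  have hZe : 0 ≤ Z ^ (ε / 2) := by positivity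
  have t1 : ∑ t ∈ A, P t.1 t.2.1 * W1 t.1 t.2.1 ≤ 64 * (c0 ^ 4 * Z ^ (ε / 2)) * X := by
    refine s3.trans ?_
    refine mul_le_mul (mul_le_mul_of_nonneg_left hH4 (by norm_num)) s5 ?_ (by positivity)
    exact sum_nonneg fun ρ _ => mul_nonneg (mul_nonneg (hP _ _) (hW _ _)) (Real.sqrt_nonneg _)
  have t2 : ∑ t ∈ A, (P t.1 t.2.1 * M t.1 * W1 t.1 t.2.1) * kU t ≤
      4 * (c0 ^ 5 * Z ^ (ε / 2)) * X := by
    refine s4.trans ?_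
    refine mul_le_mul (mul_le_mul_of_nonneg_left hH5 (by norm_num)) s6 ?_ (by positivity)
    exact sum_nonneg fun ρ _ => mul_nonneg (mul_nonneg (hP _ _) (hM _)) (hW _ _)
  have e3 : Z ^ (ε / 2) * Z ^ (ε / 2) = Z ^ ε := by
    rw [← Real.rpow_add hZ0]; congr 1; ring
  calc ∑ x ∈ OD Us, G (dil x.1.1 x.1.2 x.2) ≤ C1 * Z ^ (ε / 2) * ∑ t ∈ A, G t := s2
    _ ≤ C1 * Z ^ (ε / 2) * (64 * (c0 ^ 4 * Z ^ (ε / 2)) * X + 4 * (c0 ^ 5 * Z ^ (ε / 2)) * X) := by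
        rw [e2]
        exact mul_le_mul_of_nonneg_left (add_le_add t1 t2) (by positivity)
    _ = C1 * (64 * c0 ^ 4 + 4 * c0 ^ 5) * (Z ^ (ε / 2) * Z ^ (ε / 2)) * X := by ring
    _ = _ := by rw [e3]

end Crest.Agent.R017.E3Zr579
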