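import Crest.Agent.R017.E3Za_548
import Crest.Agent.R017.E3Ui_829
import Crest.Agent.R017.E3Uj_829
import Crest.Agent.R017.E3Zr_579

/-!
# Row 17, R8 (E3), the final form (helper548): tools for one pair of levels

* `TMd_PZ` : helper829's `TMd` by the `T`-numbers `TN`
* `RNn`, `R_PZ` : the `R`-part by helper579's `Rsum`
* `cut1` : the factor of the second line vanishes for `nm d nm g > G0`
* `WQ_Jat`, `T3_Tat`, `ClsP_Jat`, `pair_swap`
-/

set_option autoImplicit false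
set_option linter.unusedVariables false

noncomputable section

open Finset
open scoped Classical ComplexConjugate

namespace Crest.Agent.R017.E3Z548

open Crest.Agent.R012 Crest.Agent.R012.Eis Crest.Agent.R012.Div277
open Crest.Agent.R012.LS2 (S mem_S)
open Crest.Agent.R012.Mob705 (pb mem_pb pdiv mem_pdiv)
open Crest.Agent.R017.C70 (JC OKJ)
open Crest.Agent.R017.CM106 (CS FS)
open Crest.Agent.R017.E3D579 (TE0)
open Crest.Agent.R017.E1551 (nmpos)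
open Crest.Agent.R017.GrB829 (IsC)
open Crest.Agent.R017.E3A164 (Yp Ys fq Cs mem_Cs)
open Crest.Agent.R017.E3M829 (TC)
open Crest.Agent.R017.E3F548 (SR_prim mem_Ys' Pg Jat Tat)
open Crest.Agent.R017.E3T1579 (T3 WQ)
open Crest.Agent.R017.E3Zr579 (dil Rsum)
open Crest.Agent.R017.E3T829 (UT SU kU hE hE_nonneg cg TMd SF CellF SFB Cd TQ ju jj RR RUs OU Mud)
open Crest.Agent.R017.E3T829.Cd (Pde)

/-! ### the `T`-part -/

/-- the common factor of a level -/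
def FH (K H V : ℝ) : ℝ := K ^ (2 / 3 : ℝ) * (H * V) ^ (-(1 / 3) : ℝ)

lemma FH_nonneg {K H V : ℝ} (hK : 0 ≤ K) (hH : 0 ≤ H) (hV : 0 ≤ V) : 0 ≤ FH K H V := by
  unfold FH; positivity

/-- **the `T`-part of one line** -/
lemma TMd_PZ (af : Eis → Eis → Eis → ℂ) (c K H V V' E1 B hL B2 B3 B4 : ℝ) (EE Ds : Finset Eis)
    (l : Fin 5) (om : Eis → ℝ) (Gs : Finset Eis) (A : Eis → Eis → Finset Eis) (dl : Eis → Eis) :
    TMd af (PZ c K H V V' E1 B hL B2 B3 B4 EE l) om Gs (fun d _ γ => A d γ) dl (Ds ×ˢ EE) =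
      3 * c * hE EE * FH K H V * (BZ K H V V' E1 B hL B2 B3 B4 l *
        TN af (fun e => nm e) Ds EE om Gs A dl) := by
  unfold TMd TN PZ Pde QH FH
  rw [sum_product, mul_sum, mul_sum]
  refine sum_congr rfl fun d _ => ?_
  rw [mul_sum, mul_sum]
  refine sum_congr rfl fun e _ => ?_
  ring

/-! ### the `R`-part -/

/-- the `R`-numbers of a level -/
def RNn (L M : Eis → ℝ) (W1 : Eis → Eis → ℝ) (Ds EE : Finset Eis) : ℝ :=
  ∑ d ∈ Ds, ∑ e ∈ EE, (nm d : ℝ) ^ (2 / 3 : ℝ) * nm e *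
    ((if 1 ≤ L d then Real.sqrt (L d) + M d else 0) * W1 d e)

lemma RNn_nonneg {L M : Eis → ℝ} {W1 : Eis → Eis → ℝ} (hM : ∀ d, 0 ≤ M d)
    (hW : ∀ d e, 0 ≤ W1 d e) (Ds EE : Finset Eis) : 0 ≤ RNn L M W1 Ds EE := by
  unfold RNn
  refine sum_nonneg fun d _ => sum_nonneg fun e _ => mul_nonneg (by positivity)
    (mul_nonneg ?_ (hW d e))
  split_ifs
  · exact add_nonneg (Real.sqrt_nonneg _) (hM d)
  · exact le_rfl

/-- the structured part with the removal of the dilation -/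
def Rdil (Bs : UT → ℝ) (u : UT) : ℝ :=
  if Squarefree (u.2.2.2.2.2.1 * u.2.2.2.2.2.2.1 * u.2.2.2.2.2.2.2) then
    ∑ E ∈ pdiv u.2.2.2.2.2.2.1, ∑ v ∈ pdiv (u.2.2.2.2.2.1 * u.2.2.2.2.2.2.1 / E),
      Bs (dil u E v) else 0

/-- **the `R`-part** -/
theorem R_PZ {ε : ℝ} (hε : 0 < ε) : ∃ C : ℝ, 0 ≤ C ∧ ∀ Z : ℝ, 1 ≤ Z →
    ∀ (J : Finset (Eis × Eis)) (EE : Finset Eis) (c K H V : ℝ) (W1 : Eis → Eis → ℝ)
      (L M : Eis → ℝ) (Bs : UT → ℝ), 0 ≤ c → 0 ≤ K → 0 ≤ H → 0 ≤ V →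
      (∀ d e, 0 ≤ W1 d e) → (∀ d, 0 ≤ L d) → (∀ d, 0 ≤ M d) →
      (∀ t, SU (Z ^ 3) t → (∃ u ∈ RUs J EE Z, t.1 = u.1 ∧ t.2.1 = u.2.1) →
        Bs t ≤ if (nm (t.2.2.2.2.2.1 * t.2.2.2.2.2.2.1) : ℝ) ^ 2 *
          (nm (t.2.2.1 * t.2.2.2.2.1 * t.2.2.2.2.2.2.2) : ℝ) ^ 3 ≤ L t.1 then
          (1 + M t.1 * kU t) * W1 t.1 t.2.1 else 0) →
      ∑ u ∈ RUs J EE Z, PRZ c K H V EE u.1 u.2.1 * Rdil Bs u ≤
        C * Z ^ ε * (c * hE EE * FH K H V * RNn L M W1 (J.image Prod.fst) EE) := by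
  obtain ⟨C, hC, h⟩ := Rsum hε
  refine ⟨3 * C, by positivity, ?_⟩
  intro Z hZ J EE c K H V W1 L M Bs hc hK hH hV hW hL hM hBs
  have hZ0 : 0 < Z := by linarith
  have hhE := hE_nonneg EE
  have hP : ∀ d e, 0 ≤ PRZ c K H V EE d e := fun d e => by
    unfold PRZ
    have := Cd.Pde_nonneg hK (QH_nonneg hH hV) d e
    positivity
  have hmem : ∀ u ∈ RUs J EE Z, SU Z u ∧ IsC u.2.2.2.1 ∧ (u.1, u.2.1) ∈ RR J EE := by
    intro u hu
    unfold RUs at hu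
    simp only [mem_product, mem_Cs] at hu
    obtain ⟨h1, h2, h3, h4, h5, h6, h7, h8⟩ := hu
    exact ⟨⟨h3, h5, h6, h7, h8⟩, h4, mem_product.mpr ⟨h1, h2⟩⟩
  have key := h Z hZ (RUs J EE Z) (PRZ c K H V EE) W1 L M Bs hP hW hL hM
    (fun u hu => (hmem u hu).1) (fun u hu => (hmem u hu).2.1) hBs
  refine key.trans ?_
  have hsub : (RUs J EE Z).image (fun u => (u.1, u.2.1)) ⊆ RR J EE := by
    intro ρ hρ
    obtain ⟨u, hu, rfl⟩ := mem_image.mp hρ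
    exact (hmem u hu).2.2
  have e1 : ∑ ρ ∈ RR J EE, PRZ c K H V EE ρ.1 ρ.2 *
      ((if 1 ≤ L ρ.1 then Real.sqrt (L ρ.1) + M ρ.1 else 0) * W1 ρ.1 ρ.2) =
      3 * (c * hE EE * FH K H V * RNn L M W1 (J.image Prod.fst) EE) := by
    unfold RR RNn PRZ Pde QH FH
    rw [sum_product, mul_sum, mul_sum]
    refine sum_congr rfl fun d _ => ?_
    rw [mul_sum, mul_sum]
    refine sum_congr rfl fun e _ => ?_
    ring
  have e2 : ∑ ρ ∈ (RUs J EE Z).image (fun u => (u.1, u.2.1)), PRZ c K H V EE ρ.1 ρ.2 *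
      ((if 1 ≤ L ρ.1 then Real.sqrt (L ρ.1) + M ρ.1 else 0) * W1 ρ.1 ρ.2) ≤
      ∑ ρ ∈ RR J EE, PRZ c K H V EE ρ.1 ρ.2 *
      ((if 1 ≤ L ρ.1 then Real.sqrt (L ρ.1) + M ρ.1 else 0) * W1 ρ.1 ρ.2) := by
    refine sum_le_sum_of_subset_of_nonneg hsub fun ρ _ _ => mul_nonneg (hP _ _)
      (mul_nonneg ?_ (hW _ _))
    split_ifs
    · exact add_nonneg (Real.sqrt_nonneg _) (hM _)
    · exact le_rfl
  refine (mul_le_mul_of_nonneg_left (e2.trans e1.le) (by positivity)).trans (le_of_eq ?_)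
  ring

/-! ### the second line -/

/-- the factor of the second line vanishes for `nm d nm g > G0` -/
def cut1 (G0 : ℝ) (sd : SF 5) : SF 5 :=
  { sd with ext := fun l x => if l = 1 then
      (if (nm x.d * nm x.g : ℝ) ≤ G0 then sd.ext 1 x else 0) else sd.ext l x }

lemma cut1_ext1 (G0 : ℝ) (sd : SF 5) (x : Cd) :
    (cut1 G0 sd).ext 1 x = if (nm x.d * nm x.g : ℝ) ≤ G0 then sd.ext 1 x else 0 := by
  simp [cut1]

lemma cut1_ext (G0 : ℝ) (sd : SF 5) {l : Fin 5} (hl : l ≠ 1) (x : Cd) :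
    (cut1 G0 sd).ext l x = sd.ext l x := by
  simp [cut1, hl]

lemma cut1_CellF {G0 K V V' X : ℝ} {sd : SF 5} {af : Eis → Eis → Eis → ℂ} {x : Cd}
    (hN : ¬ (nm x.d * nm x.g : ℝ) ≤ G0 → sd.N 1 x = ∅) :
    CellF (cut1 G0 sd) K V V' X af x = CellF sd K V V' X af x := by
  unfold CellF
  have e : ∀ l : Fin 5, (cut1 G0 sd).ext l x * TQ af ((cut1 G0 sd).om l) ((cut1 G0 sd).N l x) x.U =
      sd.ext l x * TQ af (sd.om l) (sd.N l x) x.U := by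
    intro l
    by_cases hl : l = 1
    · subst hl
      rw [cut1_ext1]
      change _ * TQ af (sd.om 1) (sd.N 1 x) x.U = _
      by_cases hg : (nm x.d * nm x.g : ℝ) ≤ G0
      · rw [if_pos hg]
      · rw [if_neg hg, hN hg]
        simp [TQ]
    · rw [cut1_ext G0 sd hl]
      rfl
  rw [sum_congr rfl fun l _ => e l]
  rfl

lemma cut1_OK {G0 Z : ℝ} {sd : SF 5} {Pc : Cd → Prop} (h : sd.OK Z Pc) :
    (cut1 G0 sd).OK Z Pc where
  ext := by
    intro l x hx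
    by_cases hl : l = 1
    · subst hl
      rw [cut1_ext1]
      split_ifs
      · exact h.ext 1 x hx
      · exact le_rfl
    · rw [cut1_ext G0 sd hl]
      exact h.ext l x hx
  P := h.P
  PR := h.PR
  om := h.om
  Rp := h.Rp
  dl := h.dl
  N := h.N

/-- an element of a block with `d`, `g` -/
lemma dg_le_of_JVc {c V : ℝ} {u : UT} {Z : ℝ} (hu : OU Z u) {μ γ : Eis} (hμ : IsPrim μ)
    (hγ : IsPrim γ) (h : ju u μ ∈ JVc c V u.1 γ) :
    (nm u.1 * nm u.2.2.2.2.1 : ℝ) ≤ Real.sqrt (c * V) := by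
  have h1 := ((mem_JV hu.d.ne_zero hγ.ne_zero).mp (mem_filter.mp h).1).2
  obtain ⟨w, hw⟩ : ∃ w, w = u.2.2.1 * u.2.2.2.1 * (u.2.2.2.2.2.1 * u.2.2.2.2.2.2.1 *
      u.2.2.2.2.2.2.2) * μ := ⟨_, rfl⟩
  have e : ju u μ = w * u.2.2.2.2.1 ^ 2 := by
    rw [hw]
    unfold ju jj fq; ring
  have hw0 : w ≠ 0 := by
    rw [hw]
    exact mul_ne_zero (mul_ne_zero (mul_ne_zero hu.q.ne_zero hu.c.lamish.1)
      ((hu.a.mul hu.D).mul hu.F).ne_zero) hμ.ne_zero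
  have h2 : (1 : ℝ) ≤ nm w := by exact_mod_cast nm_pos.mpr hw0
  have h3 : (1 : ℝ) ≤ nm γ := by exact_mod_cast nm_pos.mpr hγ.ne_zero
  refine Real.le_sqrt_of_sq_le ?_
  rw [e, nm_mul, nm_pow, Nat.cast_mul, Nat.cast_pow] at h1
  have h4 : (1 : ℝ) ≤ (nm γ : ℝ) ^ 3 := one_le_pow₀ h3
  have h5 : 0 ≤ (nm u.1 * nm u.2.2.2.2.1 : ℝ) ^ 2 := by positivity
  have h6 : (nm u.1 * nm u.2.2.2.2.1 : ℝ) ^ 2 ≤
      (nm u.1 * nm u.2.2.2.2.1 : ℝ) ^ 2 * (nm w * (nm γ : ℝ) ^ 3) :=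
    le_mul_of_one_le_right h5 (one_le_mul_of_one_le_of_one_le h2 h4)
  refine h6.trans (le_trans (le_of_eq ?_) h1)
  ring

/-- the second line is empty for `nm d nm g > √(c V)` -/
lemma N1_empty {c V Z : ℝ} {sd : SF 5} {Pc : Cd → Prop} (h : sd.OK Z Pc)
    (hA : ∀ d e γ, sd.A 1 d e γ ⊆ JVc c V d γ) {x : Cd} (hx : Pc x) (hu : OU Z x.U)
    (hg : ¬ (nm x.d * nm x.g : ℝ) ≤ Real.sqrt (c * V)) : sd.N 1 x = ∅ := by
  by_contra hne
  obtain ⟨z, hz⟩ := Finset.nonempty_iff_ne_empty.mpr hne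
  obtain ⟨h1, h2, h3, h4, h5⟩ := h.N 1 x hx z hz
  have h6 : ju x.U z.1 ∈ JVc c V x.U.1 z.2 := hA _ _ _ h5
  have h7 := dg_le_of_JVc hu h1.1 h2 h6
  have e1 : x.U.1 = x.d := rfl
  have e2 : x.U.2.2.2.2.1 = x.g := rfl
  rw [e1, e2] at h7
  exact hg h7

/-! ### classes -/

lemma WQ_Jat {J : Finset (Eis × Eis)} {om : Eis × Eis → ℂ} {E0 R : ℝ}
    {wq : Eis → Yp → ℝ → ℂ} (h : WQ J om E0 R wq) (hJ : OKJ J) (a : ℕ) :
    WQ (Jat J a) om E0 R wq := by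
  intro q hq y hy hs hc n hn hns hng
  have hy' := hy
  unfold Ys at hy
  rw [mem_product] at hy
  obtain ⟨x, hx, hxy⟩ := mem_image.mp hy.1
  have hxa := (mem_filter.mp hx).2
  have hx' := (mem_filter.mp hx).1
  have hyJ : y ∈ Ys J E0 R := by
    unfold Ys
    rw [mem_product]
    exact ⟨mem_image.mpr ⟨x, hx', hxy⟩, hy.2⟩
  rw [← h q hq y hyJ hs hc n hn hns hng]
  have e : (y.1, fq q y.2.2.1 y.2.2.2 n) ∈ Jat J a ↔ (y.1, fq q y.2.2.1 y.2.2.2 n) ∈ J := by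
    unfold Jat
    rw [mem_filter]
    refine ⟨fun h => h.1, fun h => ⟨h, ?_⟩⟩
    rw [← hxy]
    exact hxa
  by_cases h1 : (y.1, fq q y.2.2.1 y.2.2.2 n) ∈ J
  · rw [if_pos h1, if_pos (e.mpr h1)]
  · rw [if_neg h1, if_neg (fun h2 => h1 (e.mp h2))]

/-- the coefficients at one `e` -/
def afat (af : Eis → Eis → Eis → ℂ) (e : Eis) : Eis → Eis → Eis → ℂ :=
  fun d e' m => if e' = e then af d e' m else 0

lemma T3_Tat (af : Eis → Eis → Eis → ℂ) (e : Eis) : Tat (T3 af) e = T3 (afat af e) := by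
  funext d e' j
  unfold Tat T3 afat
  by_cases he : e' = e
  · simp [he]
  · simp [he, TE0]

lemma FS_afat {af : Eis → Eis → Eis → ℂ} (h : ∀ d e, FS (af d e)) (e : Eis) :
    ∀ d e', FS (afat af e d e') := by
  intro d e'
  by_cases he : e' = e
  · have e1 : afat af e d e' = af d e' := by
      funext m
      simp [afat, he]
    rw [e1]
    exact h d e'
  · exact
      { fin := by
          have e1 : afat af e d e' = fun _ => 0 := by
            funext m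
            simp [afat, he]
          rw [e1]
          simp
        prim := fun m hm => by
          exfalso
          apply hm
          simp [afat, he] }

lemma EE_afat (af : Eis → Eis → Eis → ℂ) (e : Eis) :
    ∀ d e', e' ∉ ({e} : Finset Eis) → ∀ j, T3 (afat af e) d e' j = 0 := by
  intro d e' he j
  rw [mem_singleton] at he
  unfold T3 afat
  simp [he, TE0]

lemma log_two_le {m n : ℕ} (hm : m ≠ 0) (h : Nat.log 2 m = Nat.log 2 n) : n ≤ 2 * m := by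
  have h1 : n < 2 ^ (Nat.log 2 n).succ := Nat.lt_pow_succ_log_self (by norm_num) n
  have h2 : 2 ^ Nat.log 2 m ≤ m := Nat.pow_log_le_self 2 hm
  rw [← h, pow_succ] at h1
  omega

/-- the pairs with the same `g` in one dyadic class of `δ` -/
lemma ClsP_Jat {J : Finset (Eis × Eis)} (hJ : OKJ J) (a : ℕ) (E0 R : ℝ) :
    ClsP Pg (Jat J a) E0 R := by
  intro y hy y' hy' hp
  have hJa := E3F548.OKJ_Jat hJ a
  obtain ⟨⟨x, hx, hxy⟩, hy1, -⟩ := mem_Ys' hJa hy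
  obtain ⟨⟨x', hx', hxy'⟩, hy1', -⟩ := mem_Ys' hJa hy'
  have l1 : Nat.log 2 (nm y.1) = a := by rw [← hxy]; exact (mem_filter.mp hx).2
  have l2 : Nat.log 2 (nm y'.1) = a := by rw [← hxy']; exact (mem_filter.mp hx').2
  have n1 : nm y.1 ≠ 0 := (nm_pos.mpr hy1.1.ne_zero).ne'
  have n2 : nm y'.1 ≠ 0 := (nm_pos.mpr hy1'.1.ne_zero).ne'
  refine ⟨hp, ?_, ?_⟩
  · exact_mod_cast log_two_le n2 (l2.trans l1.symm)
  · exact_mod_cast log_two_le n1 (l1.trans l2.symm)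

lemma pair_swap {ι : Type*} (I : Finset ι) (F : ι → ι → ℝ) :
    ∑ i ∈ I, ∑ j ∈ I, (F i j + F j i) = 2 * ∑ i ∈ I, ∑ j ∈ I, F i j := by
  simp only [sum_add_distrib]
  rw [sum_comm (f := fun i j => F j i)]
  ring

end Crest.Agent.R017.E3Z548
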