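import Crest.Agent.R017.E3Sv_290
import Crest.Agent.R017.E3Ui_829
import Crest.Agent.R017.E3Zb_548

/-!
# Row 17, block C70, leaf E3 (S-sum), (CELL) part 6 (helper290): the data of one side

* `YU`, `LtU`, `ZU` : the numbers of a tuple
* `sdC` : the data of one side;  `sdC_OK`
* `CELL` : `SEc ≤ c CellF sdC`
-/

set_option autoImplicit false

noncomputable section

open Complex MeasureTheory
open scoped ComplexConjugate Classical

namespace Crest.Agent.R017.E3Sw290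

open Crest.Agent.R012 Crest.Agent.R012.Eis Crest.Agent.R012.MC
open Crest.Agent.R012.LS2 (S mem_S bl mem_bl)
open Crest.Agent.R012.Div277 (dvs mem_dvs)
open Crest.Agent.R012.Mob705 (mu pdiv mem_pdiv)
open Crest.Agent.R017.CM106 (CS TG FS)
open Crest.Agent.R017.C70 (JC CbF)
open Crest.Agent.R017.BD829 (TT EQ EQ_nonneg)
open Crest.Agent.R017.E3D579 (uS bF b0 FS_b0)
open Crest.Agent.R017.E3Sd579 (pS)
open Crest.Agent.R017.E3Sp579 (UE)
open Crest.Agent.R017.E3T1579 (UF)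
open Crest.Agent.R017.GrB829 (IsC)
open Crest.Agent.R017.E3T829
open Crest.Agent.R017.E1551 (nmpos)
open Crest.Agent.R017.Mode405 (DT DT_nonneg)
open Crest.Agent.R017.E3Sr290 (CellD cellOf Fac)
open Crest.Agent.R017.E3Sj290 (nL)
open Crest.Agent.R017.E3Sm290 Crest.Agent.R017.E3Su290 Crest.Agent.R017.E3Sv290
open Crest.Agent.R017.E3Zr579 (dil dil_spec dil_SU)
open Crest.Agent.R017.E3Z548 (JV JVc mem_JV Rdil)

/-! ### the numbers of a tuple -/

/-- the length of `n` -/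
def ZU (V : ℝ) (t : UT) : ℝ :=
  V / nm t.2.2.2.1 / (nm t.2.2.1 * (nm t.1 : ℝ) ^ 2 * (nm t.2.2.2.2.1 : ℝ) ^ 2)

/-- the length of `μ` -/
def YU (V : ℝ) (t : UT) : ℝ :=
  ZU V t / (nm t.2.2.2.2.2.1 * nm t.2.2.2.2.2.2.1 * nm t.2.2.2.2.2.2.2)

/-- the threshold -/
def LtU (K V H : ℝ) (t : UT) : ℝ :=
  (V / nm t.2.2.2.1 / K * H) * YU V t /
    ((nm t.2.2.2.2.2.1 * nm t.2.2.2.2.2.2.1 / nm t.1) *
      ((nm t.2.2.1 : ℝ) ^ 2 * nm t.2.2.2.2.1 * (nm t.2.2.2.2.2.2.2 : ℝ) ^ 2))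

lemma cell_Z (x : Cd) (K V V' H X : ℝ) : (x.cell K V V' H X x.xk).Z = ZU V x.U := rfl

lemma cell_Y (x : Cd) (K V V' H X : ℝ) : (x.cell K V V' H X x.xk).Y = YU V x.U := rfl

lemma cell_Lt {x : Cd} {K V V' H X : ℝ} (hX : 0 < X) :
    (x.cell K V V' H X x.xk).Lt = LtU K V H x.U := by
  change (X * (V / nm x.c) / K * H) * YU V x.U /
    ((nm x.a * nm x.D * X / nm x.d) * ((nm x.q : ℝ) ^ 2 * nm x.g * (nm x.F : ℝ) ^ 2)) =
    (V / nm x.c / K * H) * YU V x.U /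
    ((nm x.a * nm x.D / nm x.d) * ((nm x.q : ℝ) ^ 2 * nm x.g * (nm x.F : ℝ) ^ 2))
  have e1 : (X * (V / nm x.c) / K * H) * YU V x.U = X * ((V / nm x.c / K * H) * YU V x.U) := by
    ring
  have e2 : (nm x.a * nm x.D * X / nm x.d) * ((nm x.q : ℝ) ^ 2 * nm x.g * (nm x.F : ℝ) ^ 2) =
      X * ((nm x.a * nm x.D / nm x.d) * ((nm x.q : ℝ) ^ 2 * nm x.g * (nm x.F : ℝ) ^ 2)) := by ring
  rw [e1, e2, mul_div_mul_left _ _ hX.ne']

/-! ### the data of one side -/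

/-- the variables of the lines `T`, `L`, `LS` -/
def N0 (cw cs V : ℝ) (x : Cd) : Finset (Eis × Eis) :=
  if Squarefree (x.a * x.D * x.F) ∧ IsCoprime (x.a * x.D * x.F) (x.g * x.d) then
    ((S (cw * (cs * YU V x.U))).filter (fun n =>
      IsCoprime n (x.g * x.d * x.m' * (x.a * x.D * x.F)))).image (fun n => (n, 1)) else ∅

/-- the variables of the lines of all frequencies -/
def N3 (cw cs V : ℝ) (x : Cd) : Finset (Eis × Eis) :=
  Nd (cw * (cs * YU V x.U)) (x.g * (x.a * x.D) * x.F)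

lemma Rdil_nonneg {Bs : UT → ℝ} (h : ∀ t, 0 ≤ Bs t) (u : UT) : 0 ≤ Rdil Bs u := by
  unfold Rdil
  split_ifs
  · exact Finset.sum_nonneg fun _ _ => Finset.sum_nonneg fun _ _ => h _
  · exact le_rfl

/-- **the data of one side** (`P`, `PR` free) -/
def sdC (P : Fin 5 → Eis → Eis → ℝ) (PR : Eis → Eis → ℝ) (z cJ cw cs K V V' H X : ℝ)
    (Bs : UT → ℝ) : SF 5 where
  H := fun _ => H
  ext := ![fun _ => 1, fun x => x.extL K V V' H X, fun x => x.extS K V V' H X,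
    fun x => x.extD1 K V V' H X, fun x => x.extD2 K V V' H X]
  P := P
  PR := PR
  om := ![fun _ => 1, fun _ => 1, fun _ => 1, fun γ => (nm γ : ℝ) ^ (-(1 : ℝ)),
    fun γ => (nm γ : ℝ) ^ (-(1 / 2 : ℝ))]
  N := ![N0 cw cs V, N0 cw cs V, N0 cw cs V, N3 cw cs V, N3 cw cs V]
  Gs := ![{1}, {1}, {1}, primBall ⌊z⌋₊, primBall ⌊z⌋₊]
  A := ![fun d _ γ => JVc cJ V d γ, fun d _ γ => JVc cJ V d γ, fun d _ γ => JVc cJ V d γ,
    fun d _ γ => JV cJ V d γ, fun d _ γ => JV cJ V d γ]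
  dl := ![fun d => d, fun d => d, fun d => d, fun _ => 1, fun _ => 1]
  Rp := Rdil Bs

/-- the conditions of a cell -/
def PcC (z : ℝ) (EE : Finset Eis) (b₀ K : ℝ) (x : Cd) : Prop := x.OK z EE ∧ x.PC b₀ K

/-- the size of the frequency of a cell -/
lemma ju_size {V cw cs : ℝ} {z : ℝ} {EE : Finset Eis} {x : Cd} (hx : x.OK z EE) {μ γ : Eis}
    (h : (nm (μ * γ ^ 3) : ℝ) ≤ cw * (cs * YU V x.U)) :
    nm (ju x.U μ) * (nm x.d : ℝ) ^ 2 * (nm γ : ℝ) ^ 3 ≤ (cw * cs) * V := by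
  obtain ⟨nq, nt, nd, ne, nc, ng, nd', ne', nc', ng', nD, nE, nF⟩ := hx.np
  have na := nmpos hx.a.ne_zero
  have e1 : (nm (ju x.U μ) : ℝ) = nm x.q * nm x.c * (nm x.a * nm x.D * nm x.F * nm μ) *
      (nm x.g : ℝ) ^ 2 := by
    change (nm (E3A164.fq x.q x.c x.g (x.a * x.D * x.F * μ)) : ℝ) = _
    unfold E3A164.fq
    simp only [nm_mul, nm_pow]
    push_cast
    ring
  rw [nm_mul, nm_pow] at h
  push_cast at h
  have e2 : (cw * (cs * YU V x.U)) * (nm x.q * nm x.c * (nm x.a * nm x.D * nm x.F) *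
      (nm x.g : ℝ) ^ 2 * (nm x.d : ℝ) ^ 2) = (cw * cs) * V := by
    change (cw * (cs * (V / nm x.c / (nm x.q * (nm x.d : ℝ) ^ 2 * (nm x.g : ℝ) ^ 2) /
      (nm x.a * nm x.D * nm x.F)))) * _ = _
    field_simp
  rw [e1, ← e2]
  have h3 := mul_le_mul_of_nonneg_right h (show 0 ≤ nm x.q * nm x.c * (nm x.a * nm x.D * nm x.F) *
      (nm x.g : ℝ) ^ 2 * (nm x.d : ℝ) ^ 2 by positivity)
  refine le_trans (le_of_eq ?_) h3
  ring

lemma ju_ne {z : ℝ} {EE : Finset Eis} {x : Cd} (hx : x.OK z EE) {μ : Eis} (hμ : μ ≠ 0) :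
    ju x.U μ ≠ 0 := by
  obtain ⟨nq, nt, nd, ne, nc, ng, nd', ne', nc', ng', nD, nE, nF⟩ := hx.np
  have hc0 : x.c ≠ 0 := nm_pos.mp (by exact_mod_cast nc)
  change E3A164.fq x.q x.c x.g (x.a * x.D * x.F * μ) ≠ 0
  unfold E3A164.fq
  exact mul_ne_zero (mul_ne_zero (mul_ne_zero (hx.prim hx.q).ne_zero hc0)
    (mul_ne_zero (mul_ne_zero (mul_ne_zero hx.a.ne_zero (hx.prim hx.D).ne_zero)
      (hx.prim hx.F).ne_zero) hμ)) (pow_ne_zero _ (hx.prim hx.g).ne_zero)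

/-- `q m g²` is cube-free -/
lemma cbf_qmg {q m g : Eis} (hq : Squarefree q) (hm : Squarefree m) (hg : Squarefree g)
    (h1 : IsCoprime g q) (h2 : IsCoprime g m) : CbF (q * m * g ^ 2) := by
  intro p hp h
  by_cases hpg : p ∣ g
  · have c1 : IsCoprime p (q * m) :=
      (h1.of_isCoprime_of_dvd_left hpg).mul_right (h2.of_isCoprime_of_dvd_left hpg)
    have c2 : IsCoprime (p ^ 3) (q * m) := c1.pow_left
    have h3 : p ^ 3 ∣ g ^ 2 := c2.dvd_of_dvd_mul_left h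
    obtain ⟨y, rfl⟩ := hpg
    have h4 : p * p ^ 2 ∣ y ^ 2 * p ^ 2 := by
      have e1 : p * p ^ 2 = p ^ 3 := by ring
      have e2 : y ^ 2 * p ^ 2 = (p * y) ^ 2 := by ring
      rw [e1, e2]; exact h3
    have h5 : p ∣ y ^ 2 := (mul_dvd_mul_iff_right (pow_ne_zero 2 hp.ne_zero)).mp h4
    obtain ⟨y', rfl⟩ := hp.dvd_of_dvd_pow h5
    exact hp.not_isUnit (hg p ⟨y', by ring⟩)
  · have c1 : IsCoprime p g := (hp.irreducible.coprime_iff_not_dvd.mpr hpg)
    have c2 : IsCoprime (p ^ 3) (g ^ 2) := c1.pow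
    have h3 : p ^ 3 ∣ q * m := c2.dvd_of_dvd_mul_right h
    by_cases hpq : p ∣ q
    · obtain ⟨y, rfl⟩ := hpq
      have hpy : ¬ p ∣ y := by
        rintro ⟨y', rfl⟩
        exact hp.not_isUnit (hq p ⟨y', by ring⟩)
      have h4 : p * p ^ 2 ∣ p * (y * m) := by
        have e1 : p * p ^ 2 = p ^ 3 := by ring
        have e2 : p * (y * m) = p * y * m := by ring
        rw [e1, e2]; exact h3
      have h5 : p ^ 2 ∣ y * m := (mul_dvd_mul_iff_left hp.ne_zero).mp h4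
      have h6 : p ^ 2 ∣ m := ((hp.irreducible.coprime_iff_not_dvd.mpr hpy).pow_left
        ).dvd_of_dvd_mul_left h5
      exact hp.not_isUnit (hm p (by rwa [pow_two] at h6))
    · have h6 : p ^ 3 ∣ m := ((hp.irreducible.coprime_iff_not_dvd.mpr hpq).pow_left
        ).dvd_of_dvd_mul_left h3
      exact hp.not_isUnit (hm p ((dvd_trans ⟨p, by ring⟩ h6)))

lemma N0_spec {V cw cs z b₀ K : ℝ} {EE : Finset Eis} {x : Cd} (hx : PcC z EE b₀ K x)
    (hY : 0 ≤ cw * (cs * YU V x.U)) {w : Eis × Eis} (hw : w ∈ N0 cw cs V x) :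
    w.2 = 1 ∧ IsPrim w.1 ∧ IsCoprime (x.F * (x.a * x.D * w.1)) x.d ∧
      (nm (w.1 * w.2 ^ 3) : ℝ) ≤ cw * (cs * YU V x.U) ∧ JC (ju x.U w.1) := by
  obtain ⟨hok, hpc⟩ := hx
  unfold N0 at hw
  split_ifs at hw with h
  · obtain ⟨h1, h2⟩ := h
    obtain ⟨n, hn, rfl⟩ := Finset.mem_image.mp hw
    rw [Finset.mem_filter, mem_S hY] at hn
    obtain ⟨⟨n1, n2, n3⟩, n4⟩ := hn
    have n5 : IsCoprime n (x.a * x.D * x.F) := n4.of_mul_right_right
    have n6 : IsCoprime n (x.g * x.d) := n4.of_mul_right_left.of_mul_right_left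
    refine ⟨rfl, n2, ?_, ?_, ?_⟩
    · have h3 : IsCoprime (x.a * x.D * x.F * n) x.d :=
        (h2.of_mul_right_right).mul_left n6.of_mul_right_right
      have e : x.F * (x.a * x.D * n) = x.a * x.D * x.F * n := by ring
      rw [e]; exact h3
    · simpa using n1
    · refine ⟨x.c, ?_, x.q * (x.a * x.D * x.F * n) * x.g ^ 2, ?_, ?_, ?_⟩
      · exact hok.c
      · exact ((hok.prim hok.q).mul (((hok.a.mul (hok.prim hok.D)).mul (hok.prim hok.F)).mul
          n2)).mul ((hok.prim hok.g).pow 2)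
      · have hz : (0 : ℝ) ≤ z := by linarith [hok.Z1]
        refine cbf_qmg ((mem_S hz).1 hok.q).2.2 ?_ ((mem_S hz).1 hok.g).2.2 ?_ ?_
        · exact (squarefree_mul_iff.mpr ⟨n5.symm.isRelPrime, h1, n3⟩)
        · exact hpc.qd.of_mul_right_right.symm
        · exact (h2.of_mul_right_left.symm).mul_right n6.of_mul_right_left.symm
      · change E3A164.fq x.q x.c x.g (x.a * x.D * x.F * n) = _
        unfold E3A164.fq
        ring
  · exact absurd hw (Finset.notMem_empty _)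

lemma N3_spec {V cw cs z : ℝ} {EE : Finset Eis} {x : Cd} (hx : x.OK z EE)
    (hY : 0 ≤ cw * (cs * YU V x.U)) {w : Eis × Eis} (hw : w ∈ N3 cw cs V x) :
    IsPrim w.1 ∧ IsPrim w.2 ∧ (nm (w.1 * w.2 ^ 3) : ℝ) ≤ cw * (cs * YU V x.U) := by
  unfold N3 Nd at hw
  rw [Finset.mem_filter, Finset.mem_product, mem_primBall, mem_primBall] at hw
  refine ⟨hw.1.1.2, hw.1.2.2, ?_⟩
  exact (Nat.cast_le.mpr hw.2.2).trans (Nat.floor_le hY)

lemma YU_pos {V : ℝ} (hV : 0 < V) {z : ℝ} {EE : Finset Eis} {x : Cd} (hx : x.OK z EE) :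
    0 < YU V x.U := by
  obtain ⟨nq, nt, nd, ne, nc, ng, nd', ne', nc', ng', nD, nE, nF⟩ := hx.np
  have na := nmpos hx.a.ne_zero
  change 0 < V / nm x.c / (nm x.q * (nm x.d : ℝ) ^ 2 * (nm x.g : ℝ) ^ 2) /
    (nm x.a * nm x.D * nm x.F)
  positivity

/-- **the data are admissible** -/
theorem sdC_OK {P : Fin 5 → Eis → Eis → ℝ} {PR : Eis → Eis → ℝ} {z cJ cw cs K V V' H X b₀ : ℝ}
    {Bs : UT → ℝ} {EE : Finset Eis} (hP : ∀ l d e, 0 ≤ P l d e) (hPR : ∀ d e, 0 ≤ PR d e)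
    (hcw : 1 ≤ cw) (hcs : 1 ≤ cs) (hcJ : cw * cs ≤ cJ) (hK : 0 < K) (hV : 0 < V) (hV' : 0 < V')
    (hH : 0 < H) (hX : 0 < X) (hz : cJ * V ≤ z) (hBs : ∀ t, 0 ≤ Bs t) :
    (sdC P PR z cJ cw cs K V V' H X Bs).OK z (PcC z EE b₀ K) where
  ext := by
    intro l x hx
    obtain ⟨p1, p2, p3, p4, p5⟩ := hx.1.cell_pos hK hV hV' hH hX
    fin_cases l
    · exact zero_le_one
    · change 0 ≤ x.extL K V V' H X
      unfold Cd.extL
      positivity
    · change 0 ≤ x.extS K V V' H X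
      unfold Cd.extS
      positivity
    · change 0 ≤ x.extD1 K V V' H X
      unfold Cd.extD1
      positivity
    · change 0 ≤ x.extD2 K V V' H X
      unfold Cd.extD2
      positivity
  P := hP
  PR := hPR
  om := by
    intro l γ
    fin_cases l
    · exact zero_le_one
    · exact zero_le_one
    · exact zero_le_one
    · change 0 ≤ (nm γ : ℝ) ^ (-(1 : ℝ)); positivity
    · change 0 ≤ (nm γ : ℝ) ^ (-(1 / 2 : ℝ)); positivity
  Rp := fun u => Rdil_nonneg hBs u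
  dl := by
    intro l d
    fin_cases l
    · exact dvd_rfl
    · exact dvd_rfl
    · exact dvd_rfl
    · exact one_dvd _
    · exact one_dvd _
  N := by
    intro l x hx w hw
    have hok := hx.1
    have hYp := YU_pos hV hok
    have hY : 0 ≤ cw * (cs * YU V x.U) := by positivity
    have pd := (hok.prim hok.d).ne_zero
    have hcV : (cw * cs) * V ≤ cJ * V := mul_le_mul_of_nonneg_right hcJ hV.le
    have hdn : (1 : ℝ) ≤ nm x.d := E1551.nm_ge_one pd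
    have main0 : w ∈ N0 cw cs V x → Mud x.U x.d w.1 ∧ IsPrim w.2 ∧ w.2 ∈ ({1} : Finset Eis) ∧
        (nm (ju x.U w.1) : ℝ) ≤ z ∧ ju x.U w.1 ∈ JVc cJ V x.d w.2 := by
      intro hw
      obtain ⟨h1, h2, h3, h4, h5⟩ := N0_spec hx hY hw
      have h6 := ju_size hok h4
      have h7 := ju_ne hok h2.ne_zero
      have p2 : IsPrim w.2 := by rw [h1]; exact isPrim_one
      refine ⟨⟨h2, h3⟩, p2, by rw [h1]; exact Finset.mem_singleton_self _, ?_, ?_⟩
      · rw [h1, nm_one] at h6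
        have e1 : (nm (ju x.U w.1) : ℝ) ≤ nm (ju x.U w.1) * (nm x.d : ℝ) ^ 2 :=
          le_mul_of_one_le_right (Nat.cast_nonneg _) (one_le_pow₀ hdn)
        have e2 : nm (ju x.U w.1) * (nm x.d : ℝ) ^ 2 * ((1 : ℕ) : ℝ) ^ 3 =
          nm (ju x.U w.1) * (nm x.d : ℝ) ^ 2 := by push_cast; ring
        rw [e2] at h6
        linarith
      · unfold JVc
        rw [Finset.mem_filter, mem_JV pd p2.ne_zero]
        exact ⟨⟨h7, h6.trans hcV⟩, h5⟩
    have main3 : w ∈ N3 cw cs V x → Mud x.U 1 w.1 ∧ IsPrim w.2 ∧ w.2 ∈ primBall ⌊z⌋₊ ∧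
        (nm (ju x.U w.1) : ℝ) ≤ z ∧ ju x.U w.1 ∈ JV cJ V x.d w.2 := by
      intro hw
      obtain ⟨h2, p2, h4⟩ := N3_spec hok hY hw
      have h6 := (ju_size hok h4).trans hcV
      have h7 := ju_ne hok h2.ne_zero
      have g1 : (1 : ℝ) ≤ nm w.2 := E1551.nm_ge_one p2.ne_zero
      have j1 : (1 : ℝ) ≤ nm (ju x.U w.1) := E1551.nm_ge_one h7
      have d1 : (1 : ℝ) ≤ (nm x.d : ℝ) ^ 2 := one_le_pow₀ hdn
      have k1 : (nm (ju x.U w.1) : ℝ) ≤ nm (ju x.U w.1) * (nm x.d : ℝ) ^ 2 * (nm w.2 : ℝ) ^ 3 := by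
        rw [mul_assoc]
        exact le_mul_of_one_le_right (Nat.cast_nonneg _)
          (one_le_mul_of_one_le_of_one_le d1 (one_le_pow₀ g1))
      have k2 : (nm w.2 : ℝ) ≤ nm (ju x.U w.1) * (nm x.d : ℝ) ^ 2 * (nm w.2 : ℝ) ^ 3 := by
        calc (nm w.2 : ℝ) = (nm w.2 : ℝ) ^ 1 := (pow_one _).symm
          _ ≤ (nm w.2 : ℝ) ^ 3 := pow_le_pow_right₀ g1 (by norm_num)
          _ ≤ _ := le_mul_of_one_le_left (by positivity) (one_le_mul_of_one_le_of_one_le j1 d1)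
      refine ⟨⟨h2, isCoprime_one_right⟩, p2, mem_primBall.mpr ⟨Nat.le_floor ?_, p2⟩, ?_, ?_⟩
      · linarith
      · linarith
      · rw [mem_JV pd p2.ne_zero]
        exact ⟨h7, h6⟩
    fin_cases l
    · exact main0 hw
    · exact main0 hw
    · exact main0 hw
    · exact main3 hw
    · exact main3 hw

/-! ### the mode call -/

/-- the admissible variables of the mode call -/
structure TU (z : ℝ) (EE : Finset Eis) (t : UT) : Prop where
  su : SU (z ^ 3) t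
  d : t.1 ∈ S z
  e : t.2.1 ∈ EE
  pe : IsPrim t.2.1
  c : IsC t.2.2.2.1
  q : t.2.2.1 ∈ S z
  g : t.2.2.2.2.1 ∈ S z
  dg : Squarefree (t.1 * t.2.2.2.2.1)
  qd : IsCoprime t.2.2.1 (t.1 * t.2.2.2.2.1)
  sq : Squarefree (t.2.2.2.2.2.1 * t.2.2.2.2.2.2.1 * t.2.2.2.2.2.2.2)
  cop : IsCoprime (t.2.2.2.2.2.1 * t.2.2.2.2.2.2.1 * t.2.2.2.2.2.2.2) (t.2.2.2.2.1 * t.1)
  n : (nm (t.2.2.2.2.2.1 * t.2.2.2.2.2.2.1 * t.2.2.2.2.2.2.2) : ℝ) ≤ z ^ 3

/-- the bound of the modes of one tuple -/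
def MBU (χ : Eis → ℂ) (w : ℝ → ℝ) (A' ε C cw cs K V H : ℝ) (af : Eis → Eis → Eis → ℂ)
    (Bs : UT → ℝ) (Zm : ℝ) (t : UT) : Prop :=
  MB χ w A' ε C cw (bu af t) (t.2.2.2.2.1 * (t.2.2.2.2.2.1 * t.2.2.2.2.2.2.1) * t.2.2.2.2.2.2.2)
    (t.2.2.2.2.2.1 * t.2.2.2.2.2.2.1) (cs * YU V t) (LtU K V H t) (Bs t) Zm

lemma EQ_zero' {A : ℝ} {u : Eis → ℂ} (h : ∀ n, u n = 0) (H : Eis) : EQ A u H = 0 := by
  unfold BD829.EQ
  simp [E3T1579.TT_zero h]

/-- the dilated tuple: the norms -/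
lemma dil_nums {z : ℝ} {EE : Finset Eis} {x : Cd} (hx : x.OK z EE) {K V H : ℝ} {v : Eis}
    (hv : v ∈ pdiv (x.a * x.D / x.E)) :
    YU V (dil x.U x.E v) = YU V x.U ∧
      LtU K V H (dil x.U x.E v) = LtU K V H x.U / nm (x.E * v) ∧
      x.a * x.D / (x.E * v) * 1 * (x.F * x.E * v) = x.a * x.D * x.F := by
  obtain ⟨nq, nt, nd, ne, nc, ng, nd', ne', nc', ng', nD, nE, nF⟩ := hx.np
  have pD := hx.prim hx.D
  have hE : x.E ∈ pdiv x.D := (mem_pdiv pD.ne_zero).mpr ((mem_dvs pD.ne_zero).mp hx.E)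
  obtain ⟨hEp, hvp, hκp, e, -⟩ := dil_spec hx.a pD hE hv
  set κ := x.a * x.D / (x.E * v) with hκ
  have nκ := nmpos hκp.ne_zero
  have nv := nmpos hvp.ne_zero
  have na := nmpos hx.a.ne_zero
  have e1 : (nm x.a * nm x.D : ℝ) = nm x.E * nm v * nm κ := by
    have h1 := congrArg nm e
    rw [nm_mul, nm_mul, nm_mul] at h1
    exact_mod_cast h1
  have hY : YU V (dil x.U x.E v) = YU V x.U := by
    change ZU V x.U / (nm κ * nm (1 : Eis) * nm (x.F * x.E * v)) =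
      ZU V x.U / (nm x.a * nm x.D * nm x.F)
    congr 1
    rw [e1, nm_one, nm_mul, nm_mul]
    push_cast
    ring
  refine ⟨hY, ?_, ?_⟩
  · unfold LtU
    rw [hY]
    change (V / nm x.c / K * H) * YU V x.U / ((nm κ * nm (1 : Eis) / nm x.d) *
      ((nm x.q : ℝ) ^ 2 * nm x.g * (nm (x.F * x.E * v) : ℝ) ^ 2)) =
      (V / nm x.c / K * H) * YU V x.U / ((nm x.a * nm x.D / nm x.d) *
      ((nm x.q : ℝ) ^ 2 * nm x.g * (nm x.F : ℝ) ^ 2)) / nm (x.E * v)
    have e3 : (nm κ * nm (1 : Eis) / nm x.d) *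
      ((nm x.q : ℝ) ^ 2 * nm x.g * (nm (x.F * x.E * v) : ℝ) ^ 2) = ((nm x.a * nm x.D / nm x.d) *
      ((nm x.q : ℝ) ^ 2 * nm x.g * (nm x.F : ℝ) ^ 2)) * nm (x.E * v) := by
      rw [e1, nm_one, nm_mul, nm_mul, nm_mul]
      push_cast
      ring
    rw [e3]
    exact (div_div _ _ _).symm
  · rw [e]; ring

lemma dil_TU {z b₀ K : ℝ} {EE : Finset Eis} {x : Cd} (hx : PcC z EE b₀ K x)
    (h1 : Squarefree (x.a * x.D * x.F)) (h2 : IsCoprime (x.a * x.D * x.F) (x.g * x.d)) {v : Eis}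
    (hv : v ∈ pdiv (x.a * x.D / x.E)) : TU z EE (dil x.U x.E v) := by
  obtain ⟨hok, hpc⟩ := hx
  have pD := hok.prim hok.D
  have hE : x.E ∈ pdiv x.D := (mem_pdiv pD.ne_zero).mpr ((mem_dvs pD.ne_zero).mp hok.E)
  have e := (dil_nums (K := 1) (V := 1) (H := 1) hok hv).2.2
  have hz1 := hok.Z1
  exact
    { su := dil_SU hz1 hok.SU h1 hE hv
      d := hok.d
      e := hok.e
      pe := hok.pe
      c := hok.c
      q := hok.q
      g := hok.g
      dg := hok.sdg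
      qd := hpc.qd
      sq := by
        change Squarefree (x.a * x.D / (x.E * v) * 1 * (x.F * x.E * v))
        rw [e]; exact h1
      cop := by
        change IsCoprime (x.a * x.D / (x.E * v) * 1 * (x.F * x.E * v)) (x.g * x.d)
        rw [e]; exact h2
      n := by
        change (nm (x.a * x.D / (x.E * v) * 1 * (x.F * x.E * v)) : ℝ) ≤ z ^ 3
        rw [e, nm_mul, nm_mul]
        push_cast
        have k1 := hok.na
        have k2 := hok.size hok.D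
        have k3 := hok.size hok.F
        have hz0 : 0 ≤ z := by linarith
        calc (nm x.a : ℝ) * nm x.D * nm x.F ≤ z * z * z := by gcongr
          _ = z ^ 3 := by ring }

/-- the size of the number of modes -/
lemma nL_size {z b₀ K V V' H X : ℝ} {EE : Finset Eis} {x : Cd} (hx : PcC z EE b₀ K x)
    (hK : 0 < K) (hV : 0 < V) (hV' : 0 < V') (hVz : V ≤ z) (hVz' : V' ≤ z) (hb : 0 ≤ b₀) :
    nL (x.cell K V V' H X x.xk) ≤ b₀ * z ^ 9 := by
  obtain ⟨hok, hpc⟩ := hx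
  obtain ⟨nq, nt, nd, ne, nc, ng, nd', ne', nc', ng', nD, nE, nF⟩ := hok.np
  have hz1 := hok.Z1
  have hz0 : 0 ≤ z := by linarith
  have na := nmpos hok.a.ne_zero
  have na' := nmpos hok.a'.ne_zero
  have nM := nmpos hok.M.ne_zero
  have nr := nmpos hok.r.ne_zero
  have h1 : ∀ {y : Eis}, y ≠ 0 → (1 : ℝ) ≤ nm y := fun h => E1551.nm_ge_one h
  have pD := hok.prim hok.D
  have sg0 := (mem_dvs hok.r.ne_zero).mp hok.sg
  have nsg := nmpos sg0.1.ne_zero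
  -- the norms of `m`, `m'`
  have em : (nm x.d * nm x.g / nm x.r : ℝ) = nm x.m := by
    have h2 := congrArg nm hok.e1
    rw [nm_mul, nm_mul] at h2
    have h3 : (nm x.d * nm x.g : ℝ) = nm x.r * nm x.m := by exact_mod_cast h2
    rw [h3]; field_simp
  have em' : (nm x.d' * nm x.g' / nm x.r : ℝ) = nm x.m' := by
    have h2 := congrArg nm hok.e2
    rw [nm_mul, nm_mul] at h2
    have h3 : (nm x.d' * nm x.g' : ℝ) = nm x.r * nm x.m' := by exact_mod_cast h2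
    rw [h3]; field_simp
  have e0 : nL (x.cell K V V' H X x.xk) =
      ((nm x.d' * nm x.g' / nm x.r : ℝ) / nm x.a * nm x.a' *
        (V / nm x.c / (nm x.q * (nm x.d : ℝ) ^ 2 * (nm x.g : ℝ) ^ 2)) / nm x.a) *
      ((nm x.d * nm x.g / nm x.r : ℝ) / nm x.a' * nm x.a *
        (V' / nm x.c' / (nm x.q * (nm x.d' : ℝ) ^ 2 * (nm x.g' : ℝ) ^ 2)) / nm x.a') * nm x.E /
      ((K / ((nm x.q : ℝ) ^ 2 * (nm x.t : ℝ) ^ 3 * nm x.M)) * (nm x.D : ℝ) ^ 2) := rfl
  have hsz : (nm x.M : ℝ) * (nm x.q : ℝ) ^ 2 * (nm x.t : ℝ) ^ 3 ≤ b₀ * K * nm x.sg := by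
    have h2 := hpc.size
    rw [nm_mul, nm_mul, nm_pow, nm_pow] at h2
    push_cast at h2
    exact h2
  have hm : (nm x.m : ℝ) ≤ z ^ 2 := by
    have h2 : (nm x.m : ℝ) ≤ nm x.r * nm x.m :=
      le_mul_of_one_le_left (Nat.cast_nonneg _) (h1 hok.r.ne_zero)
    have h3 : (nm x.r * nm x.m : ℝ) = nm x.d * nm x.g := by
      have h2 := congrArg nm hok.e1
      rw [nm_mul, nm_mul] at h2
      exact_mod_cast h2.symm
    have k1 := hok.size hok.d
    have k2 := hok.size hok.g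
    calc (nm x.m : ℝ) ≤ nm x.d * nm x.g := by rw [← h3]; exact h2
      _ ≤ z * z := by gcongr
      _ = z ^ 2 := by ring
  have hm' : (nm x.m' : ℝ) ≤ z ^ 2 := by
    have h2 : (nm x.m' : ℝ) ≤ nm x.r * nm x.m' :=
      le_mul_of_one_le_left (Nat.cast_nonneg _) (h1 hok.r.ne_zero)
    have h3 : (nm x.r * nm x.m' : ℝ) = nm x.d' * nm x.g' := by
      have h2 := congrArg nm hok.e2
      rw [nm_mul, nm_mul] at h2
      exact_mod_cast h2.symm
    have k1 := hok.size hok.d'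
    have k2 := hok.size hok.g'
    calc (nm x.m' : ℝ) ≤ nm x.d' * nm x.g' := by rw [← h3]; exact h2
      _ ≤ z * z := by gcongr
      _ = z ^ 2 := by ring
  have hsg : (nm x.sg : ℝ) ≤ z ^ 2 := by
    have h2 : nm x.sg ≤ nm x.r := Div277.nm_le_of_dvd hok.r.ne_zero sg0.2
    have h2' : (nm x.sg : ℝ) ≤ nm x.r := by exact_mod_cast h2
    have h4 : (nm x.r : ℝ) ≤ nm x.r * nm x.m :=
      le_mul_of_one_le_right (Nat.cast_nonneg _) (h1 hok.m.ne_zero)
    have h3 : (nm x.r * nm x.m : ℝ) = nm x.d * nm x.g := by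
      have h2 := congrArg nm hok.e1
      rw [nm_mul, nm_mul] at h2
      exact_mod_cast h2.symm
    have k1 := hok.size hok.d
    have k2 := hok.size hok.g
    calc (nm x.sg : ℝ) ≤ nm x.d * nm x.g := by rw [← h3]; linarith
      _ ≤ z * z := by gcongr
      _ = z ^ 2 := by ring
  have hE : (nm x.E : ℝ) ≤ z := by
    have h3 := (mem_dvs pD.ne_zero).mp hok.E
    have h2 : nm x.E ≤ nm x.D := Div277.nm_le_of_dvd pD.ne_zero h3.2
    have h2' : (nm x.E : ℝ) ≤ nm x.D := by exact_mod_cast h2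
    exact h2'.trans (hok.size hok.D)
  rw [e0, em, em']
  have hq1 := h1 (hok.prim hok.q).ne_zero
  have hd1 := h1 (hok.prim hok.d).ne_zero
  have hg1 := h1 (hok.prim hok.g).ne_zero
  have hd1' := h1 (hok.prim hok.d').ne_zero
  have hg1' := h1 (hok.prim hok.g').ne_zero
  have ha1 := h1 hok.a.ne_zero
  have ha1' := h1 hok.a'.ne_zero
  have hD1 := h1 pD.ne_zero
  have hc1 : (1 : ℝ) ≤ nm x.c := by exact_mod_cast (Cd.nm_c_le hok.c).1
  have hc1' : (1 : ℝ) ≤ nm x.c' := by exact_mod_cast (Cd.nm_c_le hok.c').1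
  have e1 : ((nm x.m' : ℝ) / nm x.a * nm x.a' *
        (V / nm x.c / (nm x.q * (nm x.d : ℝ) ^ 2 * (nm x.g : ℝ) ^ 2)) / nm x.a) *
      ((nm x.m : ℝ) / nm x.a' * nm x.a *
        (V' / nm x.c' / (nm x.q * (nm x.d' : ℝ) ^ 2 * (nm x.g' : ℝ) ^ 2)) / nm x.a') * nm x.E /
      ((K / ((nm x.q : ℝ) ^ 2 * (nm x.t : ℝ) ^ 3 * nm x.M)) * (nm x.D : ℝ) ^ 2) =
      (nm x.m' * nm x.m * V * V' * nm x.E *
        (nm x.M * (nm x.q : ℝ) ^ 2 * (nm x.t : ℝ) ^ 3)) / (K * (nm x.a * nm x.a' *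
        (nm x.c * (nm x.q * (nm x.d : ℝ) ^ 2 * (nm x.g : ℝ) ^ 2)) *
        (nm x.c' * (nm x.q * (nm x.d' : ℝ) ^ 2 * (nm x.g' : ℝ) ^ 2)) * (nm x.D : ℝ) ^ 2)) := by
    field_simp
  rw [e1]
  have hden : (1 : ℝ) ≤ nm x.a * nm x.a' *
        (nm x.c * (nm x.q * (nm x.d : ℝ) ^ 2 * (nm x.g : ℝ) ^ 2)) *
        (nm x.c' * (nm x.q * (nm x.d' : ℝ) ^ 2 * (nm x.g' : ℝ) ^ 2)) * (nm x.D : ℝ) ^ 2 := by
    have mm : ∀ {x y : ℝ}, 1 ≤ x → 1 ≤ y → 1 ≤ x * y := fun h h' =>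
      one_le_mul_of_one_le_of_one_le h h'
    exact mm (mm (mm (mm ha1 ha1') (mm hc1 (mm (mm hq1 (one_le_pow₀ hd1)) (one_le_pow₀ hg1))))
      (mm hc1' (mm (mm hq1 (one_le_pow₀ hd1')) (one_le_pow₀ hg1')))) (one_le_pow₀ hD1)
  rw [div_le_iff₀ (by positivity)]
  calc nm x.m' * nm x.m * V * V' * nm x.E * (nm x.M * (nm x.q : ℝ) ^ 2 * (nm x.t : ℝ) ^ 3)
      ≤ z ^ 2 * z ^ 2 * z * z * z * (b₀ * K * z ^ 2) := by
        have k3 : (nm x.M : ℝ) * (nm x.q : ℝ) ^ 2 * (nm x.t : ℝ) ^ 3 ≤ b₀ * K * z ^ 2 :=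
          hsz.trans (mul_le_mul_of_nonneg_left hsg (by positivity))
        gcongr
    _ = b₀ * z ^ 9 * (K * 1) := by ring
    _ ≤ _ := by
        refine mul_le_mul_of_nonneg_left ?_ (by positivity)
        exact mul_le_mul_of_nonneg_left hden hK.le

/-- the sum over squarefree `n` as a moment sum -/
lemma T1_eq_TQ {cw cs V : ℝ} {af : Eis → Eis → Eis → ℂ} {x : Cd}
    (h1 : Squarefree (x.a * x.D * x.F)) (h2 : IsCoprime (x.a * x.D * x.F) (x.g * x.d)) :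
    T1 (cw * (cs * YU V x.U)) (bu af x.U) (x.g * x.d * x.m' * (x.a * x.D * x.F)) =
      TQ af (fun _ => 1) (N0 cw cs V x) x.U := by
  unfold N0 TQ T1
  rw [if_pos ⟨h1, h2⟩, Finset.sum_image (fun n _ n' _ h => (Prod.mk.inj h).1)]
  refine Finset.sum_congr (by ext; simp) fun n _ => ?_
  rw [one_pow, mul_one, one_mul]

lemma fac_eq_fc (x : Cd) (K V V' H X : ℝ) :
    x.fac K V V' H X = fc (x.cell K V V' H X x.xk) := rfl

/-- the constant of the sizes -/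
def kZ (mc b₀ : ℝ) : ℝ := 729 * mc ^ 2 * (1 + b₀) ^ 2

/-- **(CELL)** -/
theorem CELL {ε : ℝ} (hε : 0 < ε) (hε1 : ε ≤ 1) : ∃ C' : ℝ, 0 ≤ C' ∧
    ∀ {A Bw : ℕ}, 4 ≤ Bw → ∀ {C cw cs mc b₀ : ℝ}, 0 ≤ C → 1 ≤ cw → 1 ≤ cs → 0 ≤ b₀ →
    ∀ {w' : ℝ → ℝ}, (∀ y, w' y ≠ 0 → y ≤ 1) →
    ∀ {ψ : Eis → ℂ} {M₀ : Eis}, M₀ ≠ 0 → (nm M₀ : ℝ) ≤ mc → (∀ p, IsPrim p → IsCoprime p M₀) →
    ∀ {z K V V' H X Zm : ℝ} {EE : Finset Eis}, 0 < K → K ≤ z → 0 < V → V ≤ z → 0 < V' → V' ≤ z →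
      0 < H → 0 < X → 1 ≤ Zm → kZ mc b₀ * z ^ 10 ≤ Zm →
    ∀ {af : Eis → Eis → Eis → ℂ}, (∀ d e, FS (af d e)) → ∀ {Bs : UT → ℝ}, (∀ t, 0 ≤ Bs t) →
      (∀ t, TU z EE t → 1 ≤ cs * YU V t → MBU ψ w' A ε C cw cs K V H af Bs Zm t) →
    ∀ {x : Cd}, PcC z EE b₀ K x → ∀ {wz : ℝ → ℂ},
      (∀ y, wz y = ((w' (y / (cs * ZU V x.U)) : ℝ) : ℂ)) →
    ∀ (P : Fin 5 → Eis → Eis → ℝ) (PR : Eis → Eis → ℝ) (cJ : ℝ),
      SEc A Bw M₀ ψ K V V' af wz x ≤ C' * C * cs ^ 2 * kC mc * Zm ^ (3 * ε) *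
        CellF (sdC P PR z cJ cw cs K V V' H X Bs) K V V' X af x := by
  obtain ⟨C', hC', hmain⟩ := cell_UF hε hε1
  refine ⟨C', hC', ?_⟩
  intro A Bw hBw C cw cs mc b₀ hC hcw hcs hb₀ w' hw' ψ M₀ hM₀ hmcn hMp z K V V' H X Zm EE hK hKz
    hV hVz hV' hVz' hH hX hZm hZm2 af haf Bs hBs hMB x hx wz hwz P PR cJ
  have hx' := hx
  obtain ⟨hok, hpc⟩ := hx
  have hz1 := hok.Z1
  have hz0 : 0 ≤ z := by linarith
  obtain ⟨pL0, pLt, pY, pnL, pZ⟩ := hok.cell_pos hK hV hV' hH hX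
  obtain ⟨nq, nt, nd, ne, nc, ng, nd', ne', nc', ng', nD, nE, nF⟩ := hok.np
  have hmc1 : 1 ≤ mc := (E1551.nm_ge_one hM₀).trans hmcn
  have hmc0 : 0 ≤ mc := by linarith
  have hkC : 0 ≤ kC mc := by unfold kC; positivity
  have hZm0 : 0 < Zm := by linarith
  -- the right side
  have hS : CellF (sdC P PR z cJ cw cs K V V' H X Bs) K V V' X af x =
      fc (x.cell K V V' H X x.xk) * ((1 * TQ af (fun _ => 1) (N0 cw cs V x) x.U +
        x.extL K V V' H X * TQ af (fun _ => 1) (N0 cw cs V x) x.U +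
        x.extS K V V' H X * TQ af (fun _ => 1) (N0 cw cs V x) x.U +
        x.extD1 K V V' H X * TQ af (fun γ => (nm γ : ℝ) ^ (-(1 : ℝ))) (N3 cw cs V x) x.U +
        x.extD2 K V V' H X * TQ af (fun γ => (nm γ : ℝ) ^ (-(1 / 2 : ℝ))) (N3 cw cs V x) x.U) +
        Rdil Bs x.U) := by
    unfold CellF
    rw [Fin.sum_univ_five]
    rfl
  have hTQ0 := TQ_nonneg (af := af) (om := fun _ => 1) (fun _ => zero_le_one) (N0 cw cs V x) x.U
  have hTQ1 := TQ_nonneg (af := af) (om := fun γ => (nm γ : ℝ) ^ (-(1 : ℝ)))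
    (fun _ => by positivity) (N3 cw cs V x) x.U
  have hTQ2 := TQ_nonneg (af := af) (om := fun γ => (nm γ : ℝ) ^ (-(1 / 2 : ℝ)))
    (fun _ => by positivity) (N3 cw cs V x) x.U
  have hR := Rdil_nonneg hBs x.U
  have hfc : 0 ≤ fc (x.cell K V V' H X x.xk) := by unfold fc; positivity
  have hE1 : 0 ≤ x.extL K V V' H X := by unfold Cd.extL; positivity
  have hE2 : 0 ≤ x.extS K V V' H X := by unfold Cd.extS; positivity
  have hE3 : 0 ≤ x.extD1 K V V' H X := by unfold Cd.extD1; positivity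
  have hE4 : 0 ≤ x.extD2 K V V' H X := by unfold Cd.extD2; positivity
  have hRHS : 0 ≤ C' * C * cs ^ 2 * kC mc * Zm ^ (3 * ε) *
        CellF (sdC P PR z cJ cw cs K V V' H X Bs) K V V' X af x := by
    rw [hS]
    positivity
  -- the trivial cases
  by_cases hcond : Squarefree (x.a * x.D * x.F) ∧ IsCoprime (x.a * x.D * x.F) (x.g * x.d)
  swap
  · refine le_trans (le_of_eq ?_) hRHS
    unfold SEc E3T1579.UF
    split_ifs
    · unfold E3Sp579.UE
      rw [if_neg (fun h => hcond ⟨h.1, h.2.1⟩)]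
    · rfl
  obtain ⟨h1, h2⟩ := hcond
  have hPpos : (0 : ℝ) < nm (x.a * x.D * x.F) :=
    nmpos ((hok.a.mul (hok.prim hok.D)).mul (hok.prim hok.F)).ne_zero
  have hYU : YU V x.U = ZU V x.U / nm (x.a * x.D * x.F) := by
    rw [nm_mul, nm_mul]
    push_cast
    rfl
  have hom : ∀ y : ℝ, wz ((nm (x.a * x.D * x.F) : ℝ) * y) =
      ((w' (y / (cs * YU V x.U)) : ℝ) : ℂ) := by
    intro y
    rw [hwz, hYU]
    congr 2
    have hcs0 : cs ≠ 0 := by linarith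
    have hZ0 : ZU V x.U ≠ 0 := by
      have h3 := YU_pos hV hok
      rw [hYU] at h3
      intro h0
      rw [h0, zero_div] at h3
      exact lt_irrefl _ h3
    field_simp
  by_cases hY1 : 1 ≤ cs * YU V x.U
  swap
  · -- the window is empty
    refine le_trans (le_of_eq ?_) hRHS
    unfold SEc E3T1579.UF
    split_ifs
    · unfold E3Sp579.UE
      split_ifs
      · have hz : ∀ n, pS ψ (fun y => wz ((nm (x.a * x.D * x.F) : ℝ) * y))
            (x.g * x.d * x.m' * (x.a * x.D * x.F)) (bF (x.a * x.D) x.F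
              (b0 (af x.d x.e) x.d x.e (x.q * x.c * x.g ^ 2))) n = 0 := by
          intro n
          by_contra h0
          obtain ⟨p1, -, -, p4⟩ := E3Sd579.pS_supp h0
          rw [hom] at p4
          have p5 : w' ((nm n : ℝ) / (cs * YU V x.U)) ≠ 0 := fun h => p4 (by rw [h]; simp)
          have p6 := hw' _ p5
          have p7 : 0 < cs * YU V x.U := mul_pos (by linarith) (YU_pos hV hok)
          rw [div_le_one p7] at p6
          have p8 : (1 : ℝ) ≤ nm n := E1551.nm_ge_one p1.ne_zero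
          linarith
        have e1 : ∀ y : Eis, (if y = 0 then (0 : ℝ) else
            BD829.WB M₀ (x.cell K V V' 1 1 1).KM ((x.cell K V V' 1 1 1).N1 *
              (x.cell K V V' 1 1 1).N2) 1 Bw x.D x.E y *
            EQ A (pS ψ (fun y => wz ((nm (x.a * x.D * x.F) : ℝ) * y))
            (x.g * x.d * x.m' * (x.a * x.D * x.F)) (bF (x.a * x.D) x.F
              (b0 (af x.d x.e) x.d x.e (x.q * x.c * x.g ^ 2))))
              (y * ((x.E * (M₀ * sq3) * (x.c * x.N)) ^ 2 * (x.m' / x.a * x.a')))) = 0 := by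
          intro y
          rw [EQ_zero' hz, mul_zero, ite_self]
        simp only [e1, tsum_zero, mul_zero]
      · rfl
    · rfl
  -- the main case
  have hb : FS (b0 (af x.d x.e) x.d x.e (x.q * x.c * x.g ^ 2)) := FS_b0 (haf _ _) _ _ _
  have key := hmain (A' := A) (B := Bw) hBw (C := C) (cw := cw) (cs := cs) (mc := mc) hC hcw hcs
    (w' := w') (om := wz) (ψ := ψ) (Mc := M₀) hM₀ hmcn hMp (x := x) hok hpc.DF hK hV hV' hH hX
    (c := x.cell K V V' H X x.xk) rfl (K₁ := (x.cell K V V' 1 1 1).KM) rfl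
    (NN := (x.cell K V V' 1 1 1).N1 * (x.cell K V V' 1 1 1).N2) rfl hb hom hZm
    (by
      have k1 := nL_size (H := H) (X := X) hx' hK hV hV' hVz hVz' hb₀
      refine le_trans ?_ hZm2
      unfold kZ
      calc 3 * mc * nL (x.cell K V V' H X x.xk) ≤ 3 * mc * (b₀ * z ^ 9) := by gcongr
        _ ≤ 729 * mc ^ 2 * (1 + b₀) ^ 2 * z ^ 10 := by
          have k2 : 3 * mc ≤ 729 * mc ^ 2 := by nlinarith
          have k3 : b₀ ≤ (1 + b₀) ^ 2 := by nlinarith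
          have k4 : z ^ 9 ≤ z ^ 10 := pow_le_pow_right₀ hz1 (by norm_num)
          calc 3 * mc * (b₀ * z ^ 9) ≤ 729 * mc ^ 2 * ((1 + b₀) ^ 2 * z ^ 10) := by gcongr
            _ = _ := by ring)
    (by
      refine le_trans ?_ hZm2
      rw [nm_mul]
      push_cast
      have k1 := hok.na
      have k2 := hok.size hok.D
      unfold kZ
      calc (nm x.a : ℝ) * nm x.D ≤ z * z := by gcongr
        _ = 1 * z ^ 2 := by ring
        _ ≤ 729 * mc ^ 2 * (1 + b₀) ^ 2 * z ^ 10 := by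
          have k3 : z ^ 2 ≤ z ^ 10 := pow_le_pow_right₀ hz1 (by norm_num)
          have k4 : 1 ≤ 729 * mc ^ 2 * (1 + b₀) ^ 2 := by
            have k5 : 1 ≤ mc ^ 2 := one_le_pow₀ hmc1
            have k6 : (1 : ℝ) ≤ (1 + b₀) ^ 2 := one_le_pow₀ (by linarith)
            nlinarith
          gcongr)
    (by
      refine le_trans ?_ hZm2
      simp only [nm_mul]
      push_cast
      have k1 := hok.na
      have k2 := hok.size hok.D
      have k3 := hok.size hok.F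
      have k4 := hok.size hok.g
      have k5 := hok.size hok.d
      have k6 : (nm x.m' : ℝ) ≤ z ^ 2 := by
        have q1 : (nm x.m' : ℝ) ≤ nm x.r * nm x.m' :=
          le_mul_of_one_le_left (Nat.cast_nonneg _) (E1551.nm_ge_one hok.r.ne_zero)
        have q3 : (nm x.r * nm x.m' : ℝ) = nm x.d' * nm x.g' := by
          have h2 := congrArg nm hok.e2
          rw [nm_mul, nm_mul] at h2
          exact_mod_cast h2.symm
        have q4 := hok.size hok.d'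
        have q5 := hok.size hok.g'
        calc (nm x.m' : ℝ) ≤ nm x.d' * nm x.g' := by rw [← q3]; exact q1
          _ ≤ z * z := by gcongr
          _ = z ^ 2 := by ring
      unfold kZ
      calc (nm x.g : ℝ) * nm x.d * nm x.m' * (nm x.a * nm x.D * nm x.F) ≤
            z * z * z ^ 2 * (z * z * z) := by gcongr
        _ = 1 * z ^ 7 := by ring
        _ ≤ 729 * mc ^ 2 * (1 + b₀) ^ 2 * z ^ 10 := by
          have k3 : z ^ 7 ≤ z ^ 10 := pow_le_pow_right₀ hz1 (by norm_num)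
          have k4 : 1 ≤ 729 * mc ^ 2 * (1 + b₀) ^ 2 := by
            have k5 : 1 ≤ mc ^ 2 := one_le_pow₀ hmc1
            have k6 : (1 : ℝ) ≤ (1 + b₀) ^ 2 := one_le_pow₀ (by linarith)
            nlinarith
          gcongr)
    (by
      refine le_trans ?_ hZm2
      have k1 := hok.na'
      have kE : (nm x.E : ℝ) ≤ z := by
        have h3 := (mem_dvs (hok.prim hok.D).ne_zero).mp hok.E
        have h2 : nm x.E ≤ nm x.D := Div277.nm_le_of_dvd (hok.prim hok.D).ne_zero h3.2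
        have h2' : (nm x.E : ℝ) ≤ nm x.D := by exact_mod_cast h2
        exact h2'.trans (hok.size hok.D)
      have k6 : (nm x.u : ℝ) ≤ z ^ 2 := by
        have q0 : (nm x.u : ℝ) ≤ nm x.m' := by
          rw [hok.eu, nm_mul]
          push_cast
          exact le_mul_of_one_le_left (Nat.cast_nonneg _) (E1551.nm_ge_one hok.a.ne_zero)
        have q1 : (nm x.m' : ℝ) ≤ nm x.r * nm x.m' :=
          le_mul_of_one_le_left (Nat.cast_nonneg _) (E1551.nm_ge_one hok.r.ne_zero)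
        have q3 : (nm x.r * nm x.m' : ℝ) = nm x.d' * nm x.g' := by
          have h2 := congrArg nm hok.e2
          rw [nm_mul, nm_mul] at h2
          exact_mod_cast h2.symm
        have q4 := hok.size hok.d'
        have q5 := hok.size hok.g'
        calc (nm x.u : ℝ) ≤ nm x.d' * nm x.g' := by rw [← q3]; linarith
          _ ≤ z * z := by gcongr
          _ = z ^ 2 := by ring
      have kN : (nm x.N : ℝ) ≤ b₀ * z ^ 3 := by
        have sg0 := (mem_dvs hok.r.ne_zero).mp hok.sg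
        have hsg : (nm x.sg : ℝ) ≤ z ^ 2 := by
          have h2 : nm x.sg ≤ nm x.r := Div277.nm_le_of_dvd hok.r.ne_zero sg0.2
          have h2' : (nm x.sg : ℝ) ≤ nm x.r := by exact_mod_cast h2
          have h4 : (nm x.r : ℝ) ≤ nm x.r * nm x.m :=
            le_mul_of_one_le_right (Nat.cast_nonneg _) (E1551.nm_ge_one hok.m.ne_zero)
          have h3 : (nm x.r * nm x.m : ℝ) = nm x.d * nm x.g := by
            have h2 := congrArg nm hok.e1
            rw [nm_mul, nm_mul] at h2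
            exact_mod_cast h2.symm
          have k1 := hok.size hok.d
          have k2 := hok.size hok.g
          calc (nm x.sg : ℝ) ≤ nm x.d * nm x.g := by rw [← h3]; linarith
            _ ≤ z * z := by gcongr
            _ = z ^ 2 := by ring
        have h5 := hpc.size
        rw [nm_mul, nm_mul, nm_pow, nm_pow] at h5
        push_cast at h5
        have h6 : (nm x.N : ℝ) ≤ nm x.M := by
          rw [hok.eN, nm_mul]
          push_cast
          exact le_mul_of_one_le_left (Nat.cast_nonneg _)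
            (E1551.nm_ge_one (hok.prim hok.g).ne_zero)
        have h7 : (1 : ℝ) ≤ (nm x.q : ℝ) ^ 2 * (nm x.t : ℝ) ^ 3 :=
          one_le_mul_of_one_le_of_one_le (one_le_pow₀ (E1551.nm_ge_one (hok.prim hok.q).ne_zero))
            (one_le_pow₀ (E1551.nm_ge_one hok.pt.ne_zero))
        have h8 : (nm x.M : ℝ) ≤ nm x.M * (nm x.q : ℝ) ^ 2 * (nm x.t : ℝ) ^ 3 := by
          rw [mul_assoc]
          exact le_mul_of_one_le_right (Nat.cast_nonneg _) h7
        calc (nm x.N : ℝ) ≤ b₀ * K * nm x.sg := h6.trans (h8.trans h5)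
          _ ≤ b₀ * z * z ^ 2 := by gcongr
          _ = b₀ * z ^ 3 := by ring
      unfold kZ
      calc 9 * mc ^ 2 * 81 * ((nm x.E : ℝ) * nm x.u * nm x.a' * (nm x.N : ℝ) ^ 2) ≤
            9 * mc ^ 2 * 81 * (z * z ^ 2 * z * (b₀ * z ^ 3) ^ 2) := by gcongr
        _ = 729 * mc ^ 2 * b₀ ^ 2 * z ^ 10 := by ring
        _ ≤ 729 * mc ^ 2 * (1 + b₀) ^ 2 * z ^ 10 := by
          have k3 : b₀ ^ 2 ≤ (1 + b₀) ^ 2 := by nlinarith
          gcongr)
    (fun v => Bs (dil x.U x.E v)) (fun v => hBs _)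
    (fun hs hc v hv => by
      obtain ⟨d1, d2, d3⟩ := dil_nums (K := K) (V := V) (H := H) hok hv
      have h5 := hMB _ (dil_TU hx' hs hc hv) (by rw [d1]; exact hY1)
      unfold MBU at h5
      rw [d1, d2, ← cell_Lt hX] at h5
      have e1 : bu af (dil x.U x.E v) = bF (x.a * x.D / (x.E * v) * 1) (x.F * x.E * v)
          (b0 (af x.d x.e) x.d x.e (x.q * x.c * x.g ^ 2)) := rfl
      rw [e1] at h5
      have e2 : x.a * x.D / (x.E * v) * 1 = x.a * x.D / (x.E * v) := mul_one _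
      rw [e2] at h5
      change MB ψ w' A ε C cw _ (x.g * (x.a * x.D / (x.E * v) * 1) * (x.F * x.E * v))
        (x.a * x.D / (x.E * v) * 1) _ _ _ _ at h5
      rw [e2] at h5
      exact h5)
  refine (le_of_eq ?_).trans (key.trans ?_)
  · unfold SEc
    rfl
  refine mul_le_mul_of_nonneg_left ?_ (by positivity)
  rw [hS]
  refine mul_le_mul_of_nonneg_left ?_ hfc
  have t0 := T1_eq_TQ (cw := cw) (cs := cs) (V := V) (af := af) h1 h2
  change T1 (cw * (cs * (x.cell K V V' H X x.xk).Y)) (bF (x.a * x.D) x.F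
    (b0 (af x.d x.e) x.d x.e (x.q * x.c * x.g ^ 2)))
      (x.g * x.d * x.m' * (x.a * x.D * x.F)) = _ at t0
  rw [t0]
  have t1 := DT_le_TQ 1 (cw * (cs * YU V x.U)) (bu af x.U) (x.g * (x.a * x.D) * x.F)
  have t2 := DT_le_TQ (1 / 2) (cw * (cs * YU V x.U)) (bu af x.U) (x.g * (x.a * x.D) * x.F)
  have t1' : DT 1 (cw * (cs * (x.cell K V V' H X x.xk).Y)) (bF (x.a * x.D) x.F
      (b0 (af x.d x.e) x.d x.e (x.q * x.c * x.g ^ 2))) (x.g * (x.a * x.D) * x.F) ≤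
      TQ af (fun γ => (nm γ : ℝ) ^ (-(1 : ℝ))) (N3 cw cs V x) x.U := t1
  have t2' : DT (1 / 2) (cw * (cs * (x.cell K V V' H X x.xk).Y)) (bF (x.a * x.D) x.F
      (b0 (af x.d x.e) x.d x.e (x.q * x.c * x.g ^ 2))) (x.g * (x.a * x.D) * x.F) ≤
      TQ af (fun γ => (nm γ : ℝ) ^ (-(1 / 2 : ℝ))) (N3 cw cs V x) x.U := t2
  have t3 : (if Squarefree (x.a * x.D * x.F) then
      ∑ v ∈ pdiv (x.a * x.D / x.E), Bs (dil x.U x.E v) else 0) ≤ Rdil Bs x.U := by
    unfold Rdil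
    rw [if_pos h1]
    change _ ≤ (if Squarefree (x.a * x.D * x.F) then _ else _)
    rw [if_pos h1]
    have hE : x.E ∈ pdiv x.D := (mem_pdiv (hok.prim hok.D).ne_zero).mpr
      ((mem_dvs (hok.prim hok.D).ne_zero).mp hok.E)
    exact Finset.single_le_sum (f := fun E => ∑ v ∈ pdiv (x.a * x.D / E), Bs (dil x.U E v))
      (fun E _ => Finset.sum_nonneg fun _ _ => hBs _) hE
  unfold RP
  have u1 := mul_le_mul_of_nonneg_left t1' hE3
  have u2 := mul_le_mul_of_nonneg_left t2' hE4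
  have u3 : xL (x.cell K V V' H X x.xk) = x.extL K V V' H X := rfl
  have u4 : xLS (x.cell K V V' H X x.xk) = x.extS K V V' H X := rfl
  have u5 : ((x.cell K V V' H X x.xk).Y + ((x.cell K V V' H X x.xk).Lt *
    (x.cell K V V' H X x.xk).Y) ^ (2 / 3 : ℝ)) / (x.cell K V V' H X x.xk).Y =
      x.extD1 K V V' H X := rfl
  have u6 : (x.cell K V V' H X x.xk).Lt * (x.cell K V V' H X x.xk).Y ^ (-(1 / 2) : ℝ) =
      x.extD2 K V V' H X := by
    unfold Cd.extD2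
    have e2 : (x.cell K V V' H X x.xk).Y ^ (1 / 2 : ℝ) =
        (x.cell K V V' H X x.xk).Y ^ (-(1 / 2) : ℝ) * (x.cell K V V' H X x.xk).Y := by
      nth_rewrite 3 [← Real.rpow_one (x.cell K V V' H X x.xk).Y]
      rw [← Real.rpow_add pY]; norm_num
    rw [e2]
    field_simp
  rw [u3, u4, u5, u6]
  linarith

end Crest.Agent.R017.E3Sw290
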