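import Crest.Agent.R017.ROXc_744
import Crest.Agent.R017.E3Sx2_579

/-!
# Row 17, T.7 (class E), E3: the hypothesis of helper290's `CELL`, in classes (helper744)

* `MBUx_of` : helper579's `MBU_of` for class E (structured number `BsX`)
-/

set_option autoImplicit false
set_option linter.unusedVariables false

noncomputable section

open Complex MeasureTheory
open scoped ComplexConjugate Classical

namespace Crest.Agent.R017.ROX744

open Crest.Agent.R012 Crest.Agent.R012.Eis Crest.Agent.R012.MC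
open Crest.Agent.R012.LS2 (S mem_S bl mem_bl)
open Crest.Agent.R012.Mob705 (mu pdiv mem_pdiv)
open Crest.Agent.R017.CM106 (CS TG FS)
open Crest.Agent.R017.GrB829 (IsC)
open Crest.Agent.R017.PX764 (n6)
open Crest.Agent.R017.E1551 (nmpos)
open Crest.Agent.R017.E3D579 (uS bF b0)
open Crest.Agent.R017.E3T829 (Cd UT SU kU kU_nonneg S1h)
open Crest.Agent.R017.Mode405
open Crest.Agent.R017.E3Su290 (MB)
open Crest.Agent.R017.E3Sw290 (TU MBU)
open Crest.Agent.R017.E3Sx579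
open Crest.Agent.R017.MX744
open Crest.Agent.R017.PoHx72

/-- **`MBU` for every tuple, class E** -/
theorem MBUx_of {χ : Eis → ℂ} (hχ : Mul1 χ) {w : ℝ → ℝ} (hw : Wgt w)
    (hP : PoHWx χ (w6 w)) (hw1 : ∀ x, w x ≠ 0 → x ≤ 1) {R0 : ℝ} (hR0 : 0 ≤ R0)
    (a A : ℕ) (hA : 1 < A) {ε : ℝ} (hε : 0 < ε) {cs : ℝ} (hcs : 1 ≤ cs) :
    ∃ (C c cw C₂ : ℝ) (A₀ : ℕ), 0 ≤ C ∧ 1 ≤ c ∧ 1 ≤ cw ∧ 0 ≤ C₂ ∧ ∀ A' : ℝ, (A₀ : ℝ) ≤ A' →
      ∀ z Zm K V H X : ℝ, 1 ≤ z → z ^ 5 ≤ Zm → 0 < K → 0 < V → 0 < H → 0 < X →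
      H * V ^ 2 * Real.exp (2 * R0) < K * X → cs * V ≤ Zm → z ^ 3 * (Real.exp R0 * X) ≤ Zm →
      ∀ (EE : Finset Eis) (af : Eis → Eis → Eis → ℂ), (∀ d e, FS (af d e)) →
      (∀ d ∈ S z, ∀ e ∈ EE, ∀ n, af d e n ≠ 0 → Squarefree n) →
      (∀ d ∈ S z, ∀ e ∈ EE, ∀ n, af d e n ≠ 0 →
        |Real.log (nm d * nm n) - Real.log X| ≤ R0) →
      ∀ u : Eis, u ≠ 0 → (∀ p, IsPrim p → IsCoprime u p) →
      ∀ W0 : Bool → Eis → Eis → ℝ → ℝ, (∀ jj d e, Slp a (W0 jj d e)) →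
      (∀ jj, ∀ d ∈ S z, ∀ e ∈ EE, ∀ γ π, IsPrim γ → IsPrim π → (nm π : ℝ) ≤ Zm ^ 4 →
        ∀ P : ℝ, 0 < P → (nm γ : ℝ) * n6 γ ^ 2 * ∑ r ∈ (bl P).filter (Cls (PrU u) jj),
          R3571.RMm A (af d e) e γ π r ≤ W0 jj d e P) →
      ∀ t, TU z EE t → MBU χ w A' ε C cw cs K V H af
        (BsX cs K V H X (fun d e => C₂ * Zm ^ ε * W0 false d e (c * (X * V * H / K)))
          (fun d e => C₂ * Zm ^ ε * W0 true d e (c * (X * V * H / K)))) Zm t := by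
  obtain ⟨C, c, cw, C₂, A₀, hC, hc, hcw, hC₂, h⟩ := MB_dilx hχ hw hP hw1 hR0 a A hA hε hcs
  refine ⟨C, c, cw, C₂, A₀, hC, hc, hcw, hC₂, ?_⟩
  intro A' hA' z Zm K V H X hz hzZ hK hV hH hX hKX hVZ hXZ EE af haf hsf hwin u hu huc W0 hW0
    hRH t ht
  obtain ⟨d, e, q, cc, g, a₁, D, F⟩ := t
  obtain ⟨hsu, hd, he, pe, hcc, hq, hg, hdg, hqd, hsq, hcop, hn⟩ := ht
  have hz0 : 0 ≤ z := by linarith
  have hz30 : 0 ≤ z ^ 3 := by positivity
  have hZm : 1 ≤ Zm := (one_le_pow₀ hz).trans hzZ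
  change d ∈ S z at hd
  change e ∈ EE at he
  change IsPrim e at pe
  change IsC cc at hcc
  change q ∈ S z at hq
  change g ∈ S z at hg
  change Squarefree (a₁ * D * F) at hsq
  change IsCoprime (a₁ * D * F) (g * d) at hcop
  change (nm (a₁ * D * F) : ℝ) ≤ z ^ 3 at hn
  have ha₁ : a₁ ∈ S (z ^ 3) := hsu.a
  have hD : D ∈ S (z ^ 3) := hsu.D
  have hF : F ∈ S (z ^ 3) := hsu.F
  obtain ⟨nz_d, pd, sd⟩ := (mem_S hz0).1 hd
  obtain ⟨nz_q, pq, sq⟩ := (mem_S hz0).1 hq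
  obtain ⟨nz_g, pg, sg⟩ := (mem_S hz0).1 hg
  have pa := ((mem_S hz30).1 ha₁).2.1
  have pD := ((mem_S hz30).1 hD).2.1
  have pF := ((mem_S hz30).1 hF).2.1
  have nd := nmpos pd.ne_zero
  have nq := nmpos pq.ne_zero
  have ng := nmpos pg.ne_zero
  have na := nmpos pa.ne_zero
  have nD := nmpos pD.ne_zero
  have nF := nmpos pF.ne_zero
  have nc : (0 : ℝ) < nm cc := by
    have : (1 : ℝ) ≤ nm cc := by exact_mod_cast (E3T829.Cd.nm_c_le hcc).1
    linarith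
  have hsq' : Squarefree (g * (a₁ * D) * F) := by
    rw [mul_assoc g (a₁ * D) F]
    exact squarefree_mul_iff.mpr ⟨(hcop.of_mul_right_left).symm.isRelPrime, sg, hsq⟩
  have hnm : (nm (q * g * (a₁ * D) * F) : ℝ) ≤ Zm := by
    refine le_trans ?_ hzZ
    have e1 : q * g * (a₁ * D) * F = q * g * (a₁ * D * F) := by ring
    rw [e1, nm_mul, nm_mul]
    push_cast
    calc (nm q : ℝ) * nm g * nm (a₁ * D * F) ≤ z * z * z ^ 3 := by gcongr
      _ = z ^ 5 := by ring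
  have hκ : (nm (a₁ * D) : ℝ) * (Real.exp R0 * X) ≤ Zm := by
    refine le_trans ?_ hXZ
    refine mul_le_mul_of_nonneg_right ?_ (by positivity)
    refine le_trans ?_ hn
    rw [nm_mul (a₁ * D)]
    push_cast
    exact le_mul_of_one_le_right (by positivity) (E1551.nm_ge_one pF.ne_zero)
  have hI0 : 0 < c * (X * V * H / K) := by
    have : 0 < c := by linarith
    positivity
  have key := h A' hA' Zm hZm (af d e) (haf d e) (hsf d hd e he) d e q g (a₁ * D) F cc pd pe pq pg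
    (pa.mul pD) pF hcc hsq' hnm K V H X hK hV hH hX hKX (hwin d hd e he) hκ hVZ u hu huc
    (fun jj => W0 jj d e) (fun jj => hW0 jj d e) (fun jj => hRH jj d hd e he)
    (fun d e => C₂ * Zm ^ ε * W0 false d e (c * (X * V * H / K)))
    (fun d e => C₂ * Zm ^ ε * W0 true d e (c * (X * V * H / K)))
    (mul_nonneg (by positivity) ((hW0 false d e).nonneg _ hI0))
    (mul_nonneg (by positivity) ((hW0 true d e).nonneg _ hI0)) le_rfl le_rfl
  have e1 : YU cs V (d, e, q, cc, g, a₁ * D, 1, F) =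
      cs * E3Sw290.YU V (d, e, q, cc, g, a₁, D, F) := by
    unfold YU E3Sw290.YU E3Sw290.ZU
    simp only [nm_mul, nm_one, Nat.cast_mul, Nat.cast_one, mul_one]
  have e2 : LtU K V H (d, e, q, cc, g, a₁ * D, 1, F) =
      E3Sw290.LtU K V H (d, e, q, cc, g, a₁, D, F) := by
    unfold LtU E3Sw290.LtU E3Sw290.YU E3Sw290.ZU
    simp only [nm_mul, nm_one, Nat.cast_mul, Nat.cast_one]
    exact Lt_eq' hK hV hH nd nq ng nF nc na nD
  have e3 : ∀ W1 Wx : Eis → Eis → ℝ, BsX cs K V H X W1 Wx (d, e, q, cc, g, a₁ * D, 1, F) =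
      BsX cs K V H X W1 Wx (d, e, q, cc, g, a₁, D, F) := by
    intro W1 Wx
    unfold BsX LtU IlU
    simp only [mul_one]
  rw [e1, e2, e3] at key
  exact key

end Crest.Agent.R017.ROX744
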