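import Crest.Agent.R017.E3Ul_829
import Crest.Agent.R017.E3Zb_548
import Crest.Agent.R017.E3Sw_290

/-!
# Row 17, E3 with principal frequencies, the sum of the structured parts (helper72)

* `Rsumx` : helper579's `Rsum` with two weights: `W1` (other frequencies) and `Wx` (principal ones)
* `Rsumx2` : the same with helper829's second form for `W1`
* `prin_le`, `cond_LtU` : the real inequalities of the principal part at a tuple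
* `RNx`, `R_PZx`, `RNx2`, `R_PZx2` : helper548's `R_PZ` in classes
-/

set_option autoImplicit false
set_option linter.unusedVariables false
set_option maxHeartbeats 800000

noncomputable section

open Finset
open scoped Classical ComplexConjugate

namespace Crest.Agent.R017.Rsx72

open Crest.Agent.R012 Crest.Agent.R012.Eis Crest.Agent.R012.Div277
open Crest.Agent.R012.LS2 (S mem_S bl mem_bl)
open Crest.Agent.R012.Mob705 (pdiv mem_pdiv)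
open Crest.Agent.R017.E3A164 (Cs mem_Cs fq)
open Crest.Agent.R017.GrB829 (IsC)
open Crest.Agent.R017.E3Zr579 (dil dil_spec dil_SU Rsum)
open Crest.Agent.R017.E3T829 (UT SU kU kU_nonneg hE hE_nonneg S1h S2h F2 G2 G2_nonneg Rsum2 RR RUs Cd)
open Crest.Agent.R017.E3T829.Cd (Pde)
open Crest.Agent.R017.E3Z548 (Rdil PRZ FH QH_nonneg)

/-- the condition of a tuple -/
def Cnd (L : Eis → ℝ) (t : UT) : Prop := (nm (t.2.2.2.2.2.1 * t.2.2.2.2.2.2.1) : ℝ) ^ 2 *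
  (nm (t.2.2.1 * t.2.2.2.2.1 * t.2.2.2.2.2.2.2) : ℝ) ^ 3 ≤ L t.1

/-- the norms of a tuple -/
lemma SU_ge {Z : ℝ} (hZ : 0 ≤ Z) {t : UT} (h : SU Z t) :
    (1 : ℝ) ≤ nm (t.2.2.2.2.2.1 * t.2.2.2.2.2.2.1) ∧
      (1 : ℝ) ≤ nm (t.2.2.1 * t.2.2.2.2.1 * t.2.2.2.2.2.2.2) := by
  have p1 := ((mem_S hZ).1 h.a).2.1
  have p2 := ((mem_S hZ).1 h.D).2.1
  have p3 := ((mem_S hZ).1 h.q).2.1
  have p4 := ((mem_S hZ).1 h.g).2.1
  have p5 := ((mem_S hZ).1 h.F).2.1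
  constructor
  · exact_mod_cast nm_pos.mpr (p1.mul p2).ne_zero
  · exact_mod_cast nm_pos.mpr ((p3.mul p4).mul p5).ne_zero

lemma Cnd_one {Z : ℝ} (hZ : 0 ≤ Z) {t : UT} (h : SU Z t) {L : Eis → ℝ} (hc : Cnd L t) :
    1 ≤ L t.1 := by
  obtain ⟨n1, n2⟩ := SU_ge hZ h
  exact le_trans (one_le_mul_of_one_le_of_one_le (one_le_pow₀ n1) (one_le_pow₀ n2)) hc

/-- the sum over the dilations -/
def SD (Us : Finset UT) (P : Eis → Eis → ℝ) (Bs : UT → ℝ) : ℝ :=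
  ∑ u ∈ Us, P u.1 u.2.1 *
    (if Squarefree (u.2.2.2.2.2.1 * u.2.2.2.2.2.2.1 * u.2.2.2.2.2.2.2) then
      ∑ E ∈ pdiv u.2.2.2.2.2.2.1, ∑ v ∈ pdiv (u.2.2.2.2.2.1 * u.2.2.2.2.2.2.1 / E),
        Bs (dil u E v) else 0)

/-- linearity and monotonicity of the sum over the dilations -/
lemma SD_le {Z : ℝ} (hZ : 1 ≤ Z) {Us : Finset UT} {P : Eis → Eis → ℝ} {Bs B1 B2 : UT → ℝ}
    (hP : ∀ d e, 0 ≤ P d e) (hUs : ∀ u ∈ Us, SU Z u)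
    (h : ∀ t, SU (Z ^ 3) t → (∃ u ∈ Us, t.1 = u.1 ∧ t.2.1 = u.2.1) → Bs t ≤ B1 t + B2 t) :
    SD Us P Bs ≤ SD Us P B1 + SD Us P B2 := by
  unfold SD
  rw [← sum_add_distrib]
  refine sum_le_sum fun u hu => ?_
  rw [← mul_add]
  refine mul_le_mul_of_nonneg_left ?_ (hP _ _)
  split_ifs with hs
  · rw [← sum_add_distrib]
    refine sum_le_sum fun E hE => ?_
    rw [← sum_add_distrib]
    exact sum_le_sum fun v hv => h _ (dil_SU hZ (hUs u hu) hs hE hv) ⟨u, hu, rfl, rfl⟩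
  · rw [add_zero]

/-- **the principal part** -/
theorem Rsum_pr {ε : ℝ} (hε : 0 < ε) : ∃ C : ℝ, 0 ≤ C ∧ ∀ Z : ℝ, 1 ≤ Z →
    ∀ (Us : Finset UT) (P Wx : Eis → Eis → ℝ) (L Mx : Eis → ℝ) (Bs : UT → ℝ),
      (∀ d e, 0 ≤ P d e) → (∀ d e, 0 ≤ Wx d e) → (∀ d, 0 ≤ L d) → (∀ d, 0 ≤ Mx d) →
      (∀ u ∈ Us, SU Z u) → (∀ u ∈ Us, IsC u.2.2.2.1) →
      (∀ t, SU (Z ^ 3) t → (∃ u ∈ Us, t.1 = u.1 ∧ t.2.1 = u.2.1) →
        Bs t ≤ if Cnd L t then Mx t.1 * kU t * Wx t.1 t.2.1 else 0) →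
      SD Us P Bs ≤ C * Z ^ ε * ∑ ρ ∈ Us.image (fun u => (u.1, u.2.1)), P ρ.1 ρ.2 *
          ((if 1 ≤ L ρ.1 then Mx ρ.1 else 0) * Wx ρ.1 ρ.2) := by
  obtain ⟨C, hC, h⟩ := Rsum hε
  refine ⟨2 * C, by positivity, ?_⟩
  intro Z hZ Us P Wx L Mx Bs hP hWx hL hMx hUs hUc hBs
  have hZ0 : 0 < Z := by linarith
  have key := h Z hZ Us P (fun d e => Mx d * Wx d e / Real.sqrt (L d)) L
    (fun d => Real.sqrt (L d)) Bs hP (fun d e => div_nonneg (mul_nonneg (hMx d) (hWx d e))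
      (Real.sqrt_nonneg _)) hL (fun d => Real.sqrt_nonneg _) hUs hUc ?_
  · refine key.trans (le_of_eq ?_)
    have e1 : ∀ ρ : Eis × Eis, P ρ.1 ρ.2 * ((if 1 ≤ L ρ.1 then Real.sqrt (L ρ.1) +
        Real.sqrt (L ρ.1) else 0) * (Mx ρ.1 * Wx ρ.1 ρ.2 / Real.sqrt (L ρ.1))) =
        2 * (P ρ.1 ρ.2 * ((if 1 ≤ L ρ.1 then Mx ρ.1 else 0) * Wx ρ.1 ρ.2)) := by
      intro ρ
      split_ifs with h1
      · have h2 : 0 < Real.sqrt (L ρ.1) := Real.sqrt_pos.mpr (by linarith)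
        field_simp
        ring
      · ring
    rw [sum_congr rfl fun ρ _ => e1 ρ, ← mul_sum]
    ring
  · intro t ht hu
    refine (hBs t ht hu).trans ?_
    have hU := kU_nonneg t
    by_cases hc : Cnd L t
    · have h1 := Cnd_one (by positivity) ht hc
      have h2 : 0 < Real.sqrt (L t.1) := Real.sqrt_pos.mpr (by linarith)
      have hc' : (nm (t.2.2.2.2.2.1 * t.2.2.2.2.2.2.1) : ℝ) ^ 2 *
        (nm (t.2.2.1 * t.2.2.2.2.1 * t.2.2.2.2.2.2.2) : ℝ) ^ 3 ≤ L t.1 := hc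
      rw [if_pos hc, if_pos hc']
      have h3 := hMx t.1
      have h4 := hWx t.1 t.2.1
      have e1 : (1 + Real.sqrt (L t.1) * kU t) * (Mx t.1 * Wx t.1 t.2.1 / Real.sqrt (L t.1)) =
          Mx t.1 * Wx t.1 t.2.1 / Real.sqrt (L t.1) + Mx t.1 * kU t * Wx t.1 t.2.1 := by
        field_simp
      rw [e1]
      have : 0 ≤ Mx t.1 * Wx t.1 t.2.1 / Real.sqrt (L t.1) := by positivity
      linarith
    · have hc' : ¬ (nm (t.2.2.2.2.2.1 * t.2.2.2.2.2.2.1) : ℝ) ^ 2 *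
        (nm (t.2.2.1 * t.2.2.2.2.1 * t.2.2.2.2.2.2.2) : ℝ) ^ 3 ≤ L t.1 := hc
      rw [if_neg hc, if_neg hc']

/-- **(Rsum) in classes** -/
theorem Rsumx {ε : ℝ} (hε : 0 < ε) : ∃ C : ℝ, 0 ≤ C ∧ ∀ Z : ℝ, 1 ≤ Z →
    ∀ (Us : Finset UT) (P W1 Wx : Eis → Eis → ℝ) (L M Mx : Eis → ℝ) (Bs : UT → ℝ),
      (∀ d e, 0 ≤ P d e) → (∀ d e, 0 ≤ W1 d e) → (∀ d e, 0 ≤ Wx d e) → (∀ d, 0 ≤ L d) →
      (∀ d, 0 ≤ M d) → (∀ d, 0 ≤ Mx d) →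
      (∀ u ∈ Us, SU Z u) → (∀ u ∈ Us, IsC u.2.2.2.1) →
      (∀ t, SU (Z ^ 3) t → (∃ u ∈ Us, t.1 = u.1 ∧ t.2.1 = u.2.1) →
        Bs t ≤ if Cnd L t then (1 + M t.1 * kU t) * W1 t.1 t.2.1 + Mx t.1 * kU t * Wx t.1 t.2.1
          else 0) →
      SD Us P Bs ≤ C * Z ^ ε * ∑ ρ ∈ Us.image (fun u => (u.1, u.2.1)), P ρ.1 ρ.2 *
          ((if 1 ≤ L ρ.1 then Real.sqrt (L ρ.1) + M ρ.1 else 0) * W1 ρ.1 ρ.2 +
            (if 1 ≤ L ρ.1 then Mx ρ.1 else 0) * Wx ρ.1 ρ.2) := by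
  obtain ⟨C1, hC1, h1⟩ := Rsum hε
  obtain ⟨C2, hC2, h2⟩ := Rsum_pr hε
  refine ⟨C1 + C2, by positivity, ?_⟩
  intro Z hZ Us P W1 Wx L M Mx Bs hP hW1 hWx hL hM hMx hUs hUc hBs
  have hZ0 : 0 < Z := by linarith
  have k1 := h1 Z hZ Us P W1 L M (fun t => if Cnd L t then (1 + M t.1 * kU t) * W1 t.1 t.2.1 else 0)
    hP hW1 hL hM hUs hUc (fun t _ _ => by
      by_cases hc : Cnd L t
      · have hc' : (nm (t.2.2.2.2.2.1 * t.2.2.2.2.2.2.1) : ℝ) ^ 2 *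
          (nm (t.2.2.1 * t.2.2.2.2.1 * t.2.2.2.2.2.2.2) : ℝ) ^ 3 ≤ L t.1 := hc
        rw [if_pos hc, if_pos hc']
      · have hc' : ¬ (nm (t.2.2.2.2.2.1 * t.2.2.2.2.2.2.1) : ℝ) ^ 2 *
          (nm (t.2.2.1 * t.2.2.2.2.1 * t.2.2.2.2.2.2.2) : ℝ) ^ 3 ≤ L t.1 := hc
        rw [if_neg hc, if_neg hc'])
  have k2 := h2 Z hZ Us P Wx L Mx (fun t => if Cnd L t then Mx t.1 * kU t * Wx t.1 t.2.1 else 0)
    hP hWx hL hMx hUs hUc (fun t _ _ => le_rfl)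
  have k3 := SD_le (P := P) (Bs := Bs)
    (B1 := fun t => if Cnd L t then (1 + M t.1 * kU t) * W1 t.1 t.2.1 else 0)
    (B2 := fun t => if Cnd L t then Mx t.1 * kU t * Wx t.1 t.2.1 else 0) hZ hP hUs
    (fun t ht hu => (hBs t ht hu).trans (le_of_eq (by
      split_ifs
      · rfl
      · rw [add_zero])))
  refine k3.trans ((add_le_add k1 k2).trans ?_)
  set X1 := ∑ ρ ∈ Us.image (fun u => (u.1, u.2.1)), P ρ.1 ρ.2 *
          ((if 1 ≤ L ρ.1 then Real.sqrt (L ρ.1) + M ρ.1 else 0) * W1 ρ.1 ρ.2) with hX1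
  set X2 := ∑ ρ ∈ Us.image (fun u => (u.1, u.2.1)), P ρ.1 ρ.2 *
            ((if 1 ≤ L ρ.1 then Mx ρ.1 else 0) * Wx ρ.1 ρ.2) with hX2
  have hX10 : 0 ≤ X1 := sum_nonneg fun ρ _ => by
    refine mul_nonneg (hP _ _) (mul_nonneg ?_ (hW1 _ _))
    split_ifs
    · exact add_nonneg (Real.sqrt_nonneg _) (hM _)
    · exact le_rfl
  have hX20 : 0 ≤ X2 := sum_nonneg fun ρ _ => by
    refine mul_nonneg (hP _ _) (mul_nonneg ?_ (hWx _ _))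
    split_ifs
    · exact hMx _
    · exact le_rfl
  have e1 : ∑ ρ ∈ Us.image (fun u => (u.1, u.2.1)), P ρ.1 ρ.2 *
          ((if 1 ≤ L ρ.1 then Real.sqrt (L ρ.1) + M ρ.1 else 0) * W1 ρ.1 ρ.2 +
            (if 1 ≤ L ρ.1 then Mx ρ.1 else 0) * Wx ρ.1 ρ.2) = X1 + X2 := by
    rw [hX1, hX2, ← sum_add_distrib]
    exact sum_congr rfl fun ρ _ => by ring
  rw [e1]
  have hZe : 0 ≤ Z ^ ε := by positivity
  have m1 : 0 ≤ C1 * Z ^ ε * X2 := by positivity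
  have m2 : 0 ≤ C2 * Z ^ ε * X1 := by positivity
  nlinarith [m1, m2]

/-- **(Rsum) in classes, both forms for the other frequencies** -/
theorem Rsumx2 {ε : ℝ} (hε : 0 < ε) : ∃ C : ℝ, 0 ≤ C ∧ ∀ Z : ℝ, 1 ≤ Z →
    ∀ (Us : Finset UT) (P W1 Wx : Eis → Eis → ℝ) (L M Mx : Eis → ℝ) (I : ℝ) (Bs B1 : UT → ℝ),
      (∀ d e, 0 ≤ P d e) → (∀ d e, 0 ≤ W1 d e) → (∀ d e, 0 ≤ Wx d e) → (∀ d, 0 ≤ L d) →
      (∀ d, 0 ≤ M d) → (∀ d, 0 ≤ Mx d) → 0 < I → (∀ t, 0 ≤ B1 t) →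
      (∀ u ∈ Us, SU Z u) → (∀ u ∈ Us, IsC u.2.2.2.1) →
      S1h (Z ^ 3) (Us.image fun u => (u.1, u.2.1)) L M W1 B1 →
      S2h (Z ^ 3) (Us.image fun u => (u.1, u.2.1)) L I W1 B1 →
      (∀ t, SU (Z ^ 3) t → (∃ u ∈ Us, t.1 = u.1 ∧ t.2.1 = u.2.1) →
        Bs t ≤ B1 t + if Cnd L t then Mx t.1 * kU t * Wx t.1 t.2.1 else 0) →
      SD Us P Bs ≤ C * Z ^ ε * ∑ ρ ∈ Us.image (fun u => (u.1, u.2.1)), P ρ.1 ρ.2 *
          ((if 1 ≤ L ρ.1 then G2 (L ρ.1) (M ρ.1) I else 0) * W1 ρ.1 ρ.2 +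
            (if 1 ≤ L ρ.1 then Mx ρ.1 else 0) * Wx ρ.1 ρ.2) := by
  obtain ⟨C1, hC1, h1⟩ := Rsum2 hε
  obtain ⟨C2, hC2, h2⟩ := Rsum_pr hε
  refine ⟨C1 + C2, by positivity, ?_⟩
  intro Z hZ Us P W1 Wx L M Mx I Bs B1 hP hW1 hWx hL hM hMx hI hB1 hUs hUc hS1 hS2 hBs
  have hZ0 : 0 < Z := by linarith
  have k1 := h1 Z hZ Us P W1 L M I B1 hP hW1 hL hM hI hB1 hUs hUc hS1 hS2
  have k2 := h2 Z hZ Us P Wx L Mx (fun t => if Cnd L t then Mx t.1 * kU t * Wx t.1 t.2.1 else 0)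
    hP hWx hL hMx hUs hUc (fun t _ _ => le_rfl)
  have k3 := SD_le (P := P) (Bs := Bs) (B1 := B1)
    (B2 := fun t => if Cnd L t then Mx t.1 * kU t * Wx t.1 t.2.1 else 0) hZ hP hUs hBs
  refine k3.trans ((add_le_add k1 k2).trans ?_)
  set X1 := ∑ ρ ∈ Us.image (fun u => (u.1, u.2.1)), P ρ.1 ρ.2 *
          ((if 1 ≤ L ρ.1 then G2 (L ρ.1) (M ρ.1) I else 0) * W1 ρ.1 ρ.2) with hX1
  set X2 := ∑ ρ ∈ Us.image (fun u => (u.1, u.2.1)), P ρ.1 ρ.2 *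
            ((if 1 ≤ L ρ.1 then Mx ρ.1 else 0) * Wx ρ.1 ρ.2) with hX2
  have hX10 : 0 ≤ X1 := sum_nonneg fun ρ _ => by
    refine mul_nonneg (hP _ _) (mul_nonneg ?_ (hW1 _ _))
    split_ifs
    · exact G2_nonneg (hL _) (hM _) hI.le
    · exact le_rfl
  have hX20 : 0 ≤ X2 := sum_nonneg fun ρ _ => by
    refine mul_nonneg (hP _ _) (mul_nonneg ?_ (hWx _ _))
    split_ifs
    · exact hMx _
    · exact le_rfl
  have e1 : ∑ ρ ∈ Us.image (fun u => (u.1, u.2.1)), P ρ.1 ρ.2 *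
          ((if 1 ≤ L ρ.1 then G2 (L ρ.1) (M ρ.1) I else 0) * W1 ρ.1 ρ.2 +
            (if 1 ≤ L ρ.1 then Mx ρ.1 else 0) * Wx ρ.1 ρ.2) = X1 + X2 := by
    rw [hX1, hX2, ← sum_add_distrib]
    exact sum_congr rfl fun ρ _ => by ring
  rw [e1]
  have hZe : 0 ≤ Z ^ ε := by positivity
  have m1 : 0 ≤ C1 * Z ^ ε * X2 := by positivity
  have m2 : 0 ≤ C2 * Z ^ ε * X1 := by positivity
  nlinarith [m1, m2]

/-! ### the real inequalities of the principal part -/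

open Crest.Agent.R017.E3Sw290 (LtU YU ZU)

/-- the threshold of a tuple -/
lemma LtU_eq {K V H : ℝ} (hK : K ≠ 0) {t : UT} (hd : (nm t.1 : ℝ) ≠ 0)
    (hc : (nm t.2.2.2.1 : ℝ) ≠ 0) (hq : (nm t.2.2.1 : ℝ) ≠ 0) (hg : (nm t.2.2.2.2.1 : ℝ) ≠ 0)
    (ha : (nm t.2.2.2.2.2.1 : ℝ) ≠ 0) (hD : (nm t.2.2.2.2.2.2.1 : ℝ) ≠ 0)
    (hF : (nm t.2.2.2.2.2.2.2 : ℝ) ≠ 0) :
    LtU K V H t * ((nm t.2.2.2.1 : ℝ) ^ 2 * ((nm (t.2.2.2.2.2.1 * t.2.2.2.2.2.2.1) : ℝ) ^ 2 *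
      (nm (t.2.2.1 * t.2.2.2.2.1 * t.2.2.2.2.2.2.2) : ℝ) ^ 3)) = V ^ 2 * H / (K * nm t.1) := by
  unfold LtU YU ZU
  simp only [nm_mul]
  push_cast
  field_simp

/-- the norms of a tuple, separately -/
lemma SU_norms {Z : ℝ} (hZ : 0 ≤ Z) {t : UT} (h : SU Z t) :
    (1 : ℝ) ≤ nm t.2.2.1 ∧ (1 : ℝ) ≤ nm t.2.2.2.2.1 ∧ (1 : ℝ) ≤ nm t.2.2.2.2.2.1 ∧
      (1 : ℝ) ≤ nm t.2.2.2.2.2.2.1 ∧ (1 : ℝ) ≤ nm t.2.2.2.2.2.2.2 := by
  have f : ∀ x : Eis, x ∈ S Z → (1 : ℝ) ≤ nm x := fun x hx => by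
    exact_mod_cast nm_pos.mpr ((mem_S hZ).1 hx).2.1.ne_zero
  exact ⟨f _ h.q, f _ h.g, f _ h.a, f _ h.D, f _ h.F⟩

/-- **the condition of a tuple** -/
theorem cond_LtU {Z K V H : ℝ} (hZ : 0 ≤ Z) (hK : 0 < K) {t : UT} (ht : SU Z t)
    (hd : t.1 ≠ 0) (hc : t.2.2.2.1 ≠ 0) {L : Eis → ℝ} (hL : V ^ 2 * H / (K * nm t.1) ≤ L t.1)
    (h : 1 ≤ LtU K V H t) : Cnd L t := by
  obtain ⟨nq, ng, na, nD, nF⟩ := SU_norms hZ ht
  have nd : (1 : ℝ) ≤ nm t.1 := by exact_mod_cast nm_pos.mpr hd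
  have nc : (1 : ℝ) ≤ nm t.2.2.2.1 := by exact_mod_cast nm_pos.mpr hc
  have e := LtU_eq (K := K) (V := V) (H := H) (t := t) hK.ne' (by linarith) (by linarith)
    (by linarith) (by linarith) (by linarith) (by linarith) (by linarith)
  unfold Cnd
  refine le_trans ?_ hL
  rw [← e]
  set X : ℝ := (nm (t.2.2.2.2.2.1 * t.2.2.2.2.2.2.1) : ℝ) ^ 2 *
      (nm (t.2.2.1 * t.2.2.2.2.1 * t.2.2.2.2.2.2.2) : ℝ) ^ 3 with hX
  have hX0 : 0 ≤ X := by positivity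
  have h1 : 1 ≤ (nm t.2.2.2.1 : ℝ) ^ 2 := one_le_pow₀ nc
  have h2 : X ≤ (nm t.2.2.2.1 : ℝ) ^ 2 * X := le_mul_of_one_le_left hX0 h1
  have h3 : 0 ≤ (nm t.2.2.2.1 : ℝ) ^ 2 * X := by positivity
  exact h2.trans (le_mul_of_one_le_left h3 h)

/-- **the principal part at a tuple** -/
theorem prin_le {Z K V H Is c0 I' : ℝ} (hZ : 0 ≤ Z) (hK : 0 < K) (hV : 0 < V) (hH : 0 < H)
    (hIs : 0 < Is) (hc0 : 0 < c0) {t : UT} (ht : SU Z t) (hd : t.1 ≠ 0) (hc : t.2.2.2.1 ≠ 0)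
    (hI : c0 * (Is / (nm t.2.2.2.1 *
      ((nm t.2.2.1 : ℝ) ^ 2 * nm t.2.2.2.2.1 * (nm t.2.2.2.2.2.2.2 : ℝ) ^ 2))) ≤ I') :
    LtU K V H t * I' ^ (-(2 / 3) : ℝ) ≤
      c0 ^ (-(2 / 3) : ℝ) * (V ^ 2 * H / (K * nm t.1) * Is ^ (-(2 / 3) : ℝ)) * kU t := by
  obtain ⟨nq, ng, na, nD, nF⟩ := SU_norms hZ ht
  have nd : (1 : ℝ) ≤ nm t.1 := by exact_mod_cast nm_pos.mpr hd
  have nc : (1 : ℝ) ≤ nm t.2.2.2.1 := by exact_mod_cast nm_pos.mpr hc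
  have e := LtU_eq (K := K) (V := V) (H := H) (t := t) hK.ne' (by linarith) (by linarith)
    (by linarith) (by linarith) (by linarith) (by linarith) (by linarith)
  have ekU : kU t = 1 / ((nm t.2.2.1 : ℝ) * nm t.2.2.2.2.1 * nm t.2.2.2.2.2.2.2 *
      (nm t.2.2.2.2.2.1 * nm t.2.2.2.2.2.2.1)) := by
    unfold kU
    have : (0 : ℝ) < nm t.2.2.1 := by linarith
    field_simp
  simp only [nm_mul] at e
  push_cast at e
  set c := (nm t.2.2.2.1 : ℝ)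
  set q := (nm t.2.2.1 : ℝ)
  set g := (nm t.2.2.2.2.1 : ℝ)
  set a := (nm t.2.2.2.2.2.1 : ℝ)
  set D := (nm t.2.2.2.2.2.2.1 : ℝ)
  set F := (nm t.2.2.2.2.2.2.2 : ℝ)
  set L0 : ℝ := V ^ 2 * H / (K * nm t.1) with hL0
  have hL00 : 0 < L0 := by rw [hL0]; positivity
  set y : ℝ := c * (q ^ 2 * g * F ^ 2) with hy
  have q2 : 1 ≤ q ^ 2 := one_le_pow₀ nq
  have F2 : 1 ≤ F ^ 2 := one_le_pow₀ nF
  have y1 : 1 ≤ y := by
    rw [hy]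
    exact one_le_mul_of_one_le_of_one_le nc
      (one_le_mul_of_one_le_of_one_le (one_le_mul_of_one_le_of_one_le q2 ng) F2)
  have y0 : 0 < y := by linarith
  have hL : LtU K V H t = L0 / (c ^ 2 * ((a * D) ^ 2 * (q * g * F) ^ 3)) := by
    rw [← e, mul_div_assoc, div_self (by positivity), mul_one]
  have h1 : I' ^ (-(2 / 3) : ℝ) ≤ (c0 * (Is / y)) ^ (-(2 / 3) : ℝ) :=
    Real.rpow_le_rpow_of_nonpos (by positivity) hI (by norm_num)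
  have h2 : (c0 * (Is / y)) ^ (-(2 / 3) : ℝ) =
      c0 ^ (-(2 / 3) : ℝ) * (Is ^ (-(2 / 3) : ℝ) * y ^ (2 / 3 : ℝ)) := by
    rw [Real.mul_rpow hc0.le (by positivity), Real.div_rpow hIs.le y0.le, Real.rpow_neg y0.le,
      div_inv_eq_mul]
  have h3 : y ^ (2 / 3 : ℝ) ≤ y := by
    calc y ^ (2 / 3 : ℝ) ≤ y ^ (1 : ℝ) := Real.rpow_le_rpow_of_exponent_le y1 (by norm_num)
      _ = y := Real.rpow_one y
  have h4 : y / (c ^ 2 * ((a * D) ^ 2 * (q * g * F) ^ 3)) ≤ 1 / (q * g * F * (a * D)) := by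
    rw [div_le_div_iff₀ (by positivity) (by positivity), one_mul]
    have aD : 1 ≤ a * D := one_le_mul_of_one_le_of_one_le na nD
    have k1 : y ≤ c ^ 2 * ((a * D) * (q * g * F) ^ 2) := by
      have m1 : c ≤ c ^ 2 := by nlinarith
      have m2 : q ^ 2 * g * F ^ 2 ≤ (q * g * F) ^ 2 := by
        have : g ≤ g ^ 2 := by nlinarith
        calc q ^ 2 * g * F ^ 2 ≤ q ^ 2 * g ^ 2 * F ^ 2 := by gcongr
          _ = _ := by ring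
      have m3 : (q * g * F) ^ 2 ≤ (a * D) * (q * g * F) ^ 2 :=
        le_mul_of_one_le_left (by positivity) aD
      rw [hy]
      exact mul_le_mul m1 (m2.trans m3) (by positivity) (by positivity)
    calc y * (q * g * F * (a * D)) ≤ (c ^ 2 * ((a * D) * (q * g * F) ^ 2)) *
          (q * g * F * (a * D)) := mul_le_mul_of_nonneg_right k1 (by positivity)
      _ = _ := by ring
  rw [hL, ekU]
  have hc00 : 0 ≤ c0 ^ (-(2 / 3) : ℝ) := by positivity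
  have hIs0 : 0 ≤ Is ^ (-(2 / 3) : ℝ) := by positivity
  calc L0 / (c ^ 2 * ((a * D) ^ 2 * (q * g * F) ^ 3)) * I' ^ (-(2 / 3) : ℝ)
      ≤ L0 / (c ^ 2 * ((a * D) ^ 2 * (q * g * F) ^ 3)) *
        (c0 ^ (-(2 / 3) : ℝ) * (Is ^ (-(2 / 3) : ℝ) * y)) := by
        refine mul_le_mul_of_nonneg_left ?_ (by positivity)
        refine h1.trans (h2.le.trans ?_)
        gcongr
    _ = c0 ^ (-(2 / 3) : ℝ) * (L0 * Is ^ (-(2 / 3) : ℝ)) *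
        (y / (c ^ 2 * ((a * D) ^ 2 * (q * g * F) ^ 3))) := by ring
    _ ≤ c0 ^ (-(2 / 3) : ℝ) * (L0 * Is ^ (-(2 / 3) : ℝ)) * (1 / (q * g * F * (a * D))) :=
        mul_le_mul_of_nonneg_left h4 (by positivity)

/-! ### helper548's `R_PZ` in classes -/

/-- the principal `R`-numbers of a level -/
def RNp (L Mx : Eis → ℝ) (Wx : Eis → Eis → ℝ) (Ds EE : Finset Eis) : ℝ :=
  ∑ d ∈ Ds, ∑ e ∈ EE, (nm d : ℝ) ^ (2 / 3 : ℝ) * nm e *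
    ((if 1 ≤ L d then Mx d else 0) * Wx d e)

/-- the `R`-numbers of a level, second form -/
def RN2 (L M : Eis → ℝ) (I : ℝ) (W1 : Eis → Eis → ℝ) (Ds EE : Finset Eis) : ℝ :=
  ∑ d ∈ Ds, ∑ e ∈ EE, (nm d : ℝ) ^ (2 / 3 : ℝ) * nm e *
    ((if 1 ≤ L d then G2 (L d) (M d) I else 0) * W1 d e)

lemma RNp_nonneg {L Mx : Eis → ℝ} {Wx : Eis → Eis → ℝ} (hM : ∀ d, 0 ≤ Mx d)
    (hW : ∀ d e, 0 ≤ Wx d e) (Ds EE : Finset Eis) : 0 ≤ RNp L Mx Wx Ds EE := by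
  unfold RNp
  refine sum_nonneg fun d _ => sum_nonneg fun e _ => mul_nonneg (by positivity)
    (mul_nonneg ?_ (hW d e))
  split_ifs
  · exact hM d
  · exact le_rfl

lemma RN2_nonneg {L M : Eis → ℝ} {I : ℝ} {W1 : Eis → Eis → ℝ} (hL : ∀ d, 0 ≤ L d)
    (hM : ∀ d, 0 ≤ M d) (hI : 0 ≤ I) (hW : ∀ d e, 0 ≤ W1 d e) (Ds EE : Finset Eis) :
    0 ≤ RN2 L M I W1 Ds EE := by
  unfold RN2
  refine sum_nonneg fun d _ => sum_nonneg fun e _ => mul_nonneg (by positivity)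
    (mul_nonneg ?_ (hW d e))
  split_ifs
  · exact G2_nonneg (hL d) (hM d) hI
  · exact le_rfl

lemma PRZ_nonneg {c K H V : ℝ} (hc : 0 ≤ c) (hK : 0 ≤ K) (hH : 0 ≤ H) (hV : 0 ≤ V)
    (EE : Finset Eis) (d e : Eis) : 0 ≤ PRZ c K H V EE d e := by
  have hhE := hE_nonneg EE
  unfold PRZ
  have := Cd.Pde_nonneg hK (QH_nonneg hH hV) d e
  positivity

lemma RUs_mem {J : Finset (Eis × Eis)} {EE : Finset Eis} {Z : ℝ} {u : UT}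
    (hu : u ∈ RUs J EE Z) : SU Z u ∧ IsC u.2.2.2.1 ∧ (u.1, u.2.1) ∈ RR J EE := by
  unfold RUs at hu
  simp only [mem_product, mem_Cs] at hu
  obtain ⟨h1, h2, h3, h4, h5, h6, h7, h8⟩ := hu
  exact ⟨⟨h3, h5, h6, h7, h8⟩, h4, mem_product.mpr ⟨h1, h2⟩⟩

/-- the sum over `(d, e)` -/
lemma PRZ_sum (J : Finset (Eis × Eis)) (EE : Finset Eis) {Z c K H V : ℝ} (hc : 0 ≤ c)
    (hK : 0 ≤ K) (hH : 0 ≤ H) (hV : 0 ≤ V) {f : Eis → Eis → ℝ} (hf : ∀ d e, 0 ≤ f d e) :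
    ∑ ρ ∈ (RUs J EE Z).image (fun u => (u.1, u.2.1)), PRZ c K H V EE ρ.1 ρ.2 * f ρ.1 ρ.2 ≤
      3 * (c * hE EE * FH K H V *
        ∑ d ∈ J.image Prod.fst, ∑ e ∈ EE, (nm d : ℝ) ^ (2 / 3 : ℝ) * nm e * f d e) := by
  have hsub : (RUs J EE Z).image (fun u => (u.1, u.2.1)) ⊆ RR J EE := by
    intro ρ hρ
    obtain ⟨u, hu, rfl⟩ := mem_image.mp hρ
    exact (RUs_mem hu).2.2
  refine (sum_le_sum_of_subset_of_nonneg hsub fun ρ _ _ =>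
    mul_nonneg (PRZ_nonneg hc hK hH hV EE _ _) (hf _ _)).trans (le_of_eq ?_)
  unfold RR PRZ Pde E3Z548.QH FH
  rw [sum_product, mul_sum, mul_sum]
  refine sum_congr rfl fun d _ => ?_
  rw [mul_sum, mul_sum]
  refine sum_congr rfl fun e _ => ?_
  ring

/-- **the `R`-part in classes** -/
theorem R_PZx {ε : ℝ} (hε : 0 < ε) : ∃ C : ℝ, 0 ≤ C ∧ ∀ Z : ℝ, 1 ≤ Z →
    ∀ (J : Finset (Eis × Eis)) (EE : Finset Eis) (c K H V : ℝ) (W1 Wx : Eis → Eis → ℝ)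
      (L M Mx : Eis → ℝ) (Bs : UT → ℝ), 0 ≤ c → 0 ≤ K → 0 ≤ H → 0 ≤ V →
      (∀ d e, 0 ≤ W1 d e) → (∀ d e, 0 ≤ Wx d e) → (∀ d, 0 ≤ L d) → (∀ d, 0 ≤ M d) →
      (∀ d, 0 ≤ Mx d) →
      (∀ t, SU (Z ^ 3) t → (∃ u ∈ RUs J EE Z, t.1 = u.1 ∧ t.2.1 = u.2.1) →
        Bs t ≤ if Cnd L t then (1 + M t.1 * kU t) * W1 t.1 t.2.1 + Mx t.1 * kU t * Wx t.1 t.2.1
          else 0) →
      ∑ u ∈ RUs J EE Z, PRZ c K H V EE u.1 u.2.1 * Rdil Bs u ≤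
        C * Z ^ ε * (c * hE EE * FH K H V * (E3Z548.RNn L M W1 (J.image Prod.fst) EE +
          RNp L Mx Wx (J.image Prod.fst) EE)) := by
  obtain ⟨C, hC, h⟩ := Rsumx hε
  refine ⟨3 * C, by positivity, ?_⟩
  intro Z hZ J EE c K H V W1 Wx L M Mx Bs hc hK hH hV hW1 hWx hL hM hMx hBs
  have hZ0 : 0 < Z := by linarith
  have key := h Z hZ (RUs J EE Z) (PRZ c K H V EE) W1 Wx L M Mx Bs
    (PRZ_nonneg hc hK hH hV EE) hW1 hWx hL hM hMx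
    (fun u hu => (RUs_mem hu).1) (fun u hu => (RUs_mem hu).2.1) hBs
  refine key.trans ?_
  have k2 := PRZ_sum J EE (Z := Z) hc hK hH hV
    (f := fun d e => (if 1 ≤ L d then Real.sqrt (L d) + M d else 0) * W1 d e +
            (if 1 ≤ L d then Mx d else 0) * Wx d e) (fun d e => by
      refine add_nonneg (mul_nonneg ?_ (hW1 _ _)) (mul_nonneg ?_ (hWx _ _))
      · split_ifs
        · exact add_nonneg (Real.sqrt_nonneg _) (hM _)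
        · exact le_rfl
      · split_ifs
        · exact hMx _
        · exact le_rfl)
  refine (mul_le_mul_of_nonneg_left k2 (by positivity)).trans (le_of_eq ?_)
  have e1 : E3Z548.RNn L M W1 (J.image Prod.fst) EE + RNp L Mx Wx (J.image Prod.fst) EE =
      ∑ d ∈ J.image Prod.fst, ∑ e ∈ EE, (nm d : ℝ) ^ (2 / 3 : ℝ) * nm e *
        ((if 1 ≤ L d then Real.sqrt (L d) + M d else 0) * W1 d e +
            (if 1 ≤ L d then Mx d else 0) * Wx d e) := by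
    unfold E3Z548.RNn RNp
    rw [← sum_add_distrib]
    refine sum_congr rfl fun d _ => ?_
    rw [← sum_add_distrib]
    exact sum_congr rfl fun e _ => by ring
  rw [e1]
  ring

/-- **the `R`-part in classes, second form** -/
theorem R_PZx2 {ε : ℝ} (hε : 0 < ε) : ∃ C : ℝ, 0 ≤ C ∧ ∀ Z : ℝ, 1 ≤ Z →
    ∀ (J : Finset (Eis × Eis)) (EE : Finset Eis) (c K H V : ℝ) (W1 Wx : Eis → Eis → ℝ)
      (L M Mx : Eis → ℝ) (I : ℝ) (Bs B1 : UT → ℝ), 0 ≤ c → 0 ≤ K → 0 ≤ H → 0 ≤ V →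
      (∀ d e, 0 ≤ W1 d e) → (∀ d e, 0 ≤ Wx d e) → (∀ d, 0 ≤ L d) → (∀ d, 0 ≤ M d) →
      (∀ d, 0 ≤ Mx d) → 0 < I → (∀ t, 0 ≤ B1 t) →
      S1h (Z ^ 3) ((RUs J EE Z).image fun u => (u.1, u.2.1)) L M W1 B1 →
      S2h (Z ^ 3) ((RUs J EE Z).image fun u => (u.1, u.2.1)) L I W1 B1 →
      (∀ t, SU (Z ^ 3) t → (∃ u ∈ RUs J EE Z, t.1 = u.1 ∧ t.2.1 = u.2.1) →
        Bs t ≤ B1 t + if Cnd L t then Mx t.1 * kU t * Wx t.1 t.2.1 else 0) →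
      ∑ u ∈ RUs J EE Z, PRZ c K H V EE u.1 u.2.1 * Rdil Bs u ≤
        C * Z ^ ε * (c * hE EE * FH K H V * (RN2 L M I W1 (J.image Prod.fst) EE +
          RNp L Mx Wx (J.image Prod.fst) EE)) := by
  obtain ⟨C, hC, h⟩ := Rsumx2 hε
  refine ⟨3 * C, by positivity, ?_⟩
  intro Z hZ J EE c K H V W1 Wx L M Mx I Bs B1 hc hK hH hV hW1 hWx hL hM hMx hI hB1 hS1 hS2 hBs
  have hZ0 : 0 < Z := by linarith
  have key := h Z hZ (RUs J EE Z) (PRZ c K H V EE) W1 Wx L M Mx I Bs B1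
    (PRZ_nonneg hc hK hH hV EE) hW1 hWx hL hM hMx hI hB1
    (fun u hu => (RUs_mem hu).1) (fun u hu => (RUs_mem hu).2.1) hS1 hS2 hBs
  refine key.trans ?_
  have k2 := PRZ_sum J EE (Z := Z) hc hK hH hV
    (f := fun d e => (if 1 ≤ L d then G2 (L d) (M d) I else 0) * W1 d e +
            (if 1 ≤ L d then Mx d else 0) * Wx d e) (fun d e => by
      refine add_nonneg (mul_nonneg ?_ (hW1 _ _)) (mul_nonneg ?_ (hWx _ _))
      · split_ifs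
        · exact G2_nonneg (hL _) (hM _) hI.le
        · exact le_rfl
      · split_ifs
        · exact hMx _
        · exact le_rfl)
  refine (mul_le_mul_of_nonneg_left k2 (by positivity)).trans (le_of_eq ?_)
  have e1 : RN2 L M I W1 (J.image Prod.fst) EE + RNp L Mx Wx (J.image Prod.fst) EE =
      ∑ d ∈ J.image Prod.fst, ∑ e ∈ EE, (nm d : ℝ) ^ (2 / 3 : ℝ) * nm e *
        ((if 1 ≤ L d then G2 (L d) (M d) I else 0) * W1 d e +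
            (if 1 ≤ L d then Mx d else 0) * Wx d e) := by
    unfold RN2 RNp
    rw [← sum_add_distrib]
    refine sum_congr rfl fun d _ => ?_
    rw [← sum_add_distrib]
    exact sum_congr rfl fun e _ => by ring
  rw [e1]
  ring

end Crest.Agent.R017.Rsx72
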