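import Crest.Agent.R017.E3Sz2_579
import Crest.Agent.R017.E3Zx_744
import Crest.Agent.R017.ROXd_744
import Crest.Agent.R017.Rsumx_72

/-!
# Row 17, T.7 (class E), E3 (S-sum): one pair of levels from (RH) in classes (helper744, after
helper579's `E3Sz`)

* `pohx_pc`, `pohx_pc'` : the characters of the pairs
* `BsX_mono`, `BsX_le`, `BsX_b` : the structured number in classes
* `MB12x_of` : helper290's `MB1`, `MB2` from (RH) in classes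
* `PAIR_RHx` : `Σ_{q,t} MPTr` at a pair of levels from (RH) in classes
-/

set_option autoImplicit false
set_option linter.unusedVariables false

noncomputable section

open Finset
open scoped ComplexConjugate Classical ContDiff

namespace Crest.Agent.R017.E3Sx744

open Crest.Agent.R012 Crest.Agent.R012.Eis Crest.Agent.R012.MC
open Crest.Agent.R012.LS2 (S mem_S bl mem_bl)
open Crest.Agent.R012.Mob705 (pb mem_pb pdiv mem_pdiv)
open Crest.Agent.R017.CM106 (CS FS)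
open Crest.Agent.R017.C70 (JC OKJ)
open Crest.Agent.R017.E3A164 (Yp Ys Cs mem_Cs)
open Crest.Agent.R017.E3s164 (cop_c)
open Crest.Agent.R017.GrB829 (IsC)
open Crest.Agent.R017.PX764 (n6)
open Crest.Agent.R017.E3M829 (TC)
open Crest.Agent.R017.E3T829
open Crest.Agent.R017.E3T1579 (T3 WQ)
open Crest.Agent.R017.E3T2579 (wL w1L)
open Crest.Agent.R017.E3F548 (pc MPTr isC_ne)
open Crest.Agent.R017.E1551 (nmpos)
open Crest.Agent.R017.E3D579 (sy_mulR sy_conj_sq)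
open Crest.Agent.R017.Mode405
open Crest.Agent.R017.E3Su290 (MB T1 T1_nonneg)
open Crest.Agent.R017.E3Sw290 (TU MBU kZ)
open Crest.Agent.R017.E3Sx579 (LtU IlU LtU_nonneg IlU_nonneg slp_mono nm_zero')
open Crest.Agent.R017.E3Sy290
open Crest.Agent.R017.E3Z548
open Crest.Agent.R017.E3Sz579 (SU_ccc poh_pc poh_pc' MB_mono T1_mono DT_mono Ld Md Ld_nonneg
  Md_nonneg RNn_smul LVn_smul Z_exp fin_alg)
open Crest.Agent.R017.E3Zx744 (RPn PAIRA)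
open Crest.Agent.R017.MX744
open Crest.Agent.R017.ROX744
open Crest.Agent.R017.PoHx72
open Crest.Agent.R017.Rsx72 (Cnd RNp RNp_nonneg R_PZx)

/-! ### the characters -/

/-- the character of the pair -/
theorem pohx_pc {c c' : Eis} (hc : IsC c) (hc' : IsC c') {w : ℝ → ℝ} (hw : Wgt w) :
    Mul1 (pc c c') ∧ PoHWx (pc c c') (w6 w) := by
  refine ⟨(poh_pc hc hc' hw).1, ?_⟩
  unfold E3F548.pc
  split_ifs with h
  · exact poHWx_one (wgt_w6 hw)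
  · have hu := SU_ccc hc hc'
    refine poHWx_of (u := 1 * (c * c' ^ 2) ^ 2) ?_ ?_ (wgt_w6 hw)
    · rw [one_mul, pow_two]; exact hu.mul hu
    · intro x hx
      have h1 := sy_conj_sq (s := c * c' ^ 2) (H := 1) hx
      rw [Char766.sy_one_left hx, map_one, mul_one] at h1
      exact h1

/-- the conjugate character of the pair -/
theorem pohx_pc' {c c' : Eis} (hc : IsC c) (hc' : IsC c') {w : ℝ → ℝ} (hw : Wgt w) :
    Mul1 (fun m => conj (pc c c' m)) ∧ PoHWx (fun m => conj (pc c c' m)) (w6 w) := by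
  refine ⟨(poh_pc' hc hc' hw).1, ?_⟩
  unfold E3F548.pc
  split_ifs with h
  · simp only [map_one]
    exact poHWx_one (wgt_w6 hw)
  · have hu := SU_ccc hc hc'
    exact poHWx_of hu (fun x _ => rfl) (wgt_w6 hw)

/-! ### the structured number -/

/-- `BsX` is monotone -/
lemma BsX_mono {cs K V H X : ℝ} (hcs : 1 ≤ cs) (hK : 0 < K) (hV : 0 < V) (hH : 0 < H)
    (hX : 0 < X) {W1 W1' Wx Wx' : Eis → Eis → ℝ} {t : UT} (h : W1 t.1 t.2.1 ≤ W1' t.1 t.2.1)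
    (h' : Wx t.1 t.2.1 ≤ Wx' t.1 t.2.1) :
    BsX cs K V H X W1 Wx t ≤ BsX cs K V H X W1' Wx' t := by
  unfold ROX744.BsX
  have h1 := LtU_nonneg (V := V) hK hH t
  have h2 := IlU_nonneg hcs hK hV hH hX t
  split_ifs
  · refine add_le_add ?_ ?_
    · refine mul_le_mul_of_nonneg_left h ?_
      unfold Mode405.nfo
      positivity
    · exact mul_le_mul_of_nonneg_left h' (by positivity)
  · exact le_rfl

/-- the third term of the structured number -/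
lemma real_nx {q g a D F cc d K V H X cs : ℝ} (q1 : 1 ≤ q) (g1 : 1 ≤ g) (a1 : 1 ≤ a) (D1 : 1 ≤ D)
    (F1 : 1 ≤ F) (c1 : 1 ≤ cc) (hd : 0 < d) (hK : 0 < K) (hV : 0 < V) (hH : 0 < H) (hX : 0 < X)
    (hcs : 1 ≤ cs) :
    H * (V / cc) ^ 2 / (K * d) / ((a * D) ^ 2 * (q * g * F) ^ 3) *
      (X * (V / cc) * H / K / (cs * (F ^ 2 * q ^ 2 * g))) ^ (-(2 / 3) : ℝ) ≤
      cs * (H * V ^ 2 / (K * d)) * (X * V * H / K) ^ (-(2 / 3) : ℝ) *
        (1 / q * (1 / g) * (1 / F) * (1 / a) * (1 / D)) := by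
  have hq : 0 < q := by linarith
  have hg : 0 < g := by linarith
  have ha : 0 < a := by linarith
  have hD : 0 < D := by linarith
  have hF : 0 < F := by linarith
  have hc : 0 < cc := by linarith
  have hs : 0 < cs := by linarith
  set L : ℝ := H * V ^ 2 / (K * d) with hL
  set I : ℝ := X * V * H / K with hI
  have hL0 : 0 < L := by rw [hL]; positivity
  have hI0 : 0 < I := by rw [hI]; positivity
  have e1 : H * (V / cc) ^ 2 / (K * d) = L / cc ^ 2 := by rw [hL]; field_simp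
  have e2 : X * (V / cc) * H / K / (cs * (F ^ 2 * q ^ 2 * g)) =
      I / (cc * cs * (F ^ 2 * q ^ 2 * g)) := by rw [hI]; field_simp
  rw [e1, e2]
  have hm : 0 < cc * cs * (F ^ 2 * q ^ 2 * g) := by positivity
  have hm1 : 1 ≤ cc * cs * (F ^ 2 * q ^ 2 * g) := by
    refine one_le_mul_of_one_le_of_one_le (one_le_mul_of_one_le_of_one_le c1 hcs) ?_
    exact one_le_mul_of_one_le_of_one_le (one_le_mul_of_one_le_of_one_le (one_le_pow₀ F1)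
      (one_le_pow₀ q1)) g1
  have e3 : (I / (cc * cs * (F ^ 2 * q ^ 2 * g))) ^ (-(2 / 3) : ℝ) =
      I ^ (-(2 / 3) : ℝ) * (cc * cs * (F ^ 2 * q ^ 2 * g)) ^ (2 / 3 : ℝ) := by
    rw [Real.div_rpow hI0.le hm.le, Real.rpow_neg hm.le, div_inv_eq_mul]
  have e4 : (cc * cs * (F ^ 2 * q ^ 2 * g)) ^ (2 / 3 : ℝ) ≤ cc * cs * (F ^ 2 * q ^ 2 * g) := by
    calc (cc * cs * (F ^ 2 * q ^ 2 * g)) ^ (2 / 3 : ℝ)
        ≤ (cc * cs * (F ^ 2 * q ^ 2 * g)) ^ (1 : ℝ) :=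
          Real.rpow_le_rpow_of_exponent_le hm1 (by norm_num)
      _ = _ := Real.rpow_one _
  rw [e3]
  have hI2 : 0 < I ^ (-(2 / 3) : ℝ) := by positivity
  calc L / cc ^ 2 / ((a * D) ^ 2 * (q * g * F) ^ 3) *
        (I ^ (-(2 / 3) : ℝ) * (cc * cs * (F ^ 2 * q ^ 2 * g)) ^ (2 / 3 : ℝ))
      ≤ L / cc ^ 2 / ((a * D) ^ 2 * (q * g * F) ^ 3) *
        (I ^ (-(2 / 3) : ℝ) * (cc * cs * (F ^ 2 * q ^ 2 * g))) := by gcongr
    _ = cs * L * I ^ (-(2 / 3) : ℝ) * (1 / q * (1 / g) * (1 / F) * (1 / a) * (1 / D)) *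
        (1 / (cc * a * D * g)) := by field_simp
    _ ≤ cs * L * I ^ (-(2 / 3) : ℝ) * (1 / q * (1 / g) * (1 / F) * (1 / a) * (1 / D)) := by
        refine mul_le_of_le_one_right (by positivity) ?_
        rw [div_le_one (by positivity)]
        have h1 := one_le_mul_of_one_le_of_one_le c1 a1
        have h2 := one_le_mul_of_one_le_of_one_le h1 D1
        exact one_le_mul_of_one_le_of_one_le h2 g1

/-- **the hypothesis of `Rsumx`** -/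
theorem BsX_le {cs K V H X : ℝ} (hcs : 1 ≤ cs) (hK : 0 < K) (hV : 0 < V) (hH : 0 < H)
    (hX : 0 < X) {W1 Wx : Eis → Eis → ℝ} (hW1 : ∀ d e, 0 ≤ W1 d e) (hWx : ∀ d e, 0 ≤ Wx d e)
    {t : UT} (hd : t.1 ≠ 0) (hq : t.2.2.1 ≠ 0) (hg : t.2.2.2.2.1 ≠ 0)
    (ha : t.2.2.2.2.2.1 ≠ 0) (hD : t.2.2.2.2.2.2.1 ≠ 0) (hF : t.2.2.2.2.2.2.2 ≠ 0) :
    BsX cs K V H X W1 Wx t ≤
      if (nm (t.2.2.2.2.2.1 * t.2.2.2.2.2.2.1) : ℝ) ^ 2 *
          (nm (t.2.2.1 * t.2.2.2.2.1 * t.2.2.2.2.2.2.2) : ℝ) ^ 3 ≤ H * V ^ 2 / (K * nm t.1) then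
        (1 + cs * (H * V ^ 2 / (K * nm t.1)) * (X * V * H / K) ^ (-(1 / 2) : ℝ) * kU t) *
          W1 t.1 t.2.1 + cs * (H * V ^ 2 / (K * nm t.1)) * (X * V * H / K) ^ (-(2 / 3) : ℝ) *
            kU t * Wx t.1 t.2.1 else 0 := by
  have nd := nmpos hd
  have nq := nmpos hq
  have ng := nmpos hg
  have na := nmpos ha
  have nD := nmpos hD
  have nF := nmpos hF
  have hc0 : t.2.2.2.1 = 0 ∨ (1 : ℝ) ≤ nm t.2.2.2.1 := by
    by_cases h : t.2.2.2.1 = 0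
    · exact Or.inl h
    · exact Or.inr (E1551.nm_ge_one h)
  have d1 : (1 : ℝ) ≤ nm t.1 := E1551.nm_ge_one hd
  have q1 : (1 : ℝ) ≤ nm t.2.2.1 := E1551.nm_ge_one hq
  have g1 : (1 : ℝ) ≤ nm t.2.2.2.2.1 := E1551.nm_ge_one hg
  have a1 : (1 : ℝ) ≤ nm t.2.2.2.2.2.1 := E1551.nm_ge_one ha
  have D1 : (1 : ℝ) ≤ nm t.2.2.2.2.2.2.1 := E1551.nm_ge_one hD
  have F1 : (1 : ℝ) ≤ nm t.2.2.2.2.2.2.2 := E1551.nm_ge_one hF
  have hcs0 : 0 < cs := by linarith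
  have hW := hW1 t.1 t.2.1
  have hW' := hWx t.1 t.2.1
  unfold ROX744.BsX
  rcases hc0 with hc0 | hc1
  · have h1 : ¬ 1 ≤ LtU K V H t := by
      have h2 : LtU K V H t = 0 := by
        unfold E3Sx579.LtU
        rw [hc0, nm_zero']
        simp
      rw [h2]; norm_num
    rw [if_neg h1]
    split_ifs
    · have h3 := kU_nonneg t
      positivity
    · exact le_rfl
  have hLle : H * (V / nm t.2.2.2.1) ^ 2 / (K * nm t.1) ≤ H * V ^ 2 / (K * nm t.1) := by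
    have : V / nm t.2.2.2.1 ≤ V := div_le_self hV.le hc1
    have h0 : 0 ≤ V / nm t.2.2.2.1 := by positivity
    gcongr
  by_cases h1 : 1 ≤ LtU K V H t
  · rw [if_pos h1]
    have hpos : 0 < (nm (t.2.2.2.2.2.1 * t.2.2.2.2.2.2.1) : ℝ) ^ 2 *
      (nm (t.2.2.1 * t.2.2.2.2.1 * t.2.2.2.2.2.2.2) : ℝ) ^ 3 := by
      rw [nm_mul, nm_mul, nm_mul]
      push_cast
      positivity
    have h2 : (nm (t.2.2.2.2.2.1 * t.2.2.2.2.2.2.1) : ℝ) ^ 2 *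
      (nm (t.2.2.1 * t.2.2.2.2.1 * t.2.2.2.2.2.2.2) : ℝ) ^ 3 ≤ H * V ^ 2 / (K * nm t.1) := by
      unfold E3Sx579.LtU at h1
      rw [one_le_div hpos] at h1
      exact h1.trans hLle
    rw [if_pos h2]
    refine add_le_add (mul_le_mul_of_nonneg_right ?_ hW) (mul_le_mul_of_nonneg_right ?_ hW')
    · unfold Mode405.nfo
      refine add_le_add le_rfl ?_
      have key := E3Sx579.real_nf q1 g1 a1 D1 F1 hc1 nd hK hV hH hX hcs
      refine le_trans (le_of_eq ?_) key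
      unfold E3Sx579.LtU E3Sx579.IlU
      simp only [nm_mul, Nat.cast_mul]
    · have key := real_nx q1 g1 a1 D1 F1 hc1 nd hK hV hH hX hcs
      refine le_trans (le_of_eq ?_) key
      unfold E3Sx579.LtU E3Sx579.IlU
      simp only [nm_mul, Nat.cast_mul]
  · rw [if_neg h1]
    split_ifs
    · have h3 := kU_nonneg t
      positivity
    · exact le_rfl

/-- the statement of `MBUx_of` -/
def MBstx (χ : Eis → ℂ) (w : ℝ → ℝ) (R0 : ℝ) (a A : ℕ) (ε cs C c cw C₂ : ℝ) (A₀ : ℕ) : Prop :=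
  ∀ A' : ℝ, (A₀ : ℝ) ≤ A' →
      ∀ z Zm K V H X : ℝ, 1 ≤ z → z ^ 5 ≤ Zm → 0 < K → 0 < V → 0 < H → 0 < X →
      H * V ^ 2 * Real.exp (2 * R0) < K * X → cs * V ≤ Zm → z ^ 3 * (Real.exp R0 * X) ≤ Zm →
      ∀ (EE : Finset Eis) (af : Eis → Eis → Eis → ℂ), (∀ d e, FS (af d e)) →
      (∀ d ∈ S z, ∀ e ∈ EE, ∀ n, af d e n ≠ 0 → Squarefree n) →
      (∀ d ∈ S z, ∀ e ∈ EE, ∀ n, af d e n ≠ 0 →
        |Real.log (nm d * nm n) - Real.log X| ≤ R0) →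
      ∀ u : Eis, u ≠ 0 → (∀ p, IsPrim p → IsCoprime u p) →
      ∀ W0 : Bool → Eis → Eis → ℝ → ℝ, (∀ jj d e, Slp a (W0 jj d e)) →
      (∀ jj, ∀ d ∈ S z, ∀ e ∈ EE, ∀ γ π, IsPrim γ → IsPrim π → (nm π : ℝ) ≤ Zm ^ 4 →
        ∀ P : ℝ, 0 < P → (nm γ : ℝ) * n6 γ ^ 2 * ∑ r ∈ (bl P).filter (Cls (PrU u) jj),
          R3571.RMm A (af d e) e γ π r ≤ W0 jj d e P) →
      ∀ t, TU z EE t → MBU χ w A' ε C cw cs K V H af
        (BsX cs K V H X (fun d e => C₂ * Zm ^ ε * W0 false d e (c * (X * V * H / K)))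
          (fun d e => C₂ * Zm ^ ε * W0 true d e (c * (X * V * H / K)))) Zm t

/-- the statement is monotone in the constants -/
theorem MBstx_mono {χ : Eis → ℂ} {w : ℝ → ℝ} {R0 : ℝ} {a A : ℕ}
    {ε cs C c cw C₂ C' c' cw' C₂' : ℝ} {A₀ A₀' : ℕ} (hcs : 1 ≤ cs) (hC : 0 ≤ C) (hc : 1 ≤ c)
    (hcw : 1 ≤ cw) (hC₂ : 0 ≤ C₂) (h1 : C ≤ C') (h2 : c ≤ c') (h3 : cw ≤ cw') (h4 : C₂ ≤ C₂')
    (h5 : A₀ ≤ A₀') (h : MBstx χ w R0 a A ε cs C c cw C₂ A₀) :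
    MBstx χ w R0 a A ε cs C' c' cw' C₂' A₀' := by
  intro A' hA' z Zm K V H X hz hzZ hK hV hH hX hKX hVZ hXZ EE af haf hsf hwin u hu huc W0 hW0
    hRH t ht
  have hA'0 : (A₀ : ℝ) ≤ A' := le_trans (by exact_mod_cast h5) hA'
  have key := h A' hA'0 z Zm K V H X hz hzZ hK hV hH hX hKX hVZ hXZ EE af haf hsf hwin u hu huc
    W0 hW0 hRH t ht
  have hZm : 1 ≤ Zm := (one_le_pow₀ hz).trans hzZ
  have hI : 0 < X * V * H / K := by positivity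
  have hcI : 0 < c * (X * V * H / K) := mul_pos (by linarith) hI
  have hW : ∀ jj d e, 0 ≤ C₂ * Zm ^ ε * W0 jj d e (c * (X * V * H / K)) := fun jj d e =>
    mul_nonneg (by positivity) ((hW0 jj d e).nonneg _ hcI)
  have hm : ∀ jj, C₂ * Zm ^ ε * W0 jj t.1 t.2.1 (c * (X * V * H / K)) ≤
      C₂' * Zm ^ ε * W0 jj t.1 t.2.1 (c' * (X * V * H / K)) := by
    intro jj
    have k1 : W0 jj t.1 t.2.1 (c * (X * V * H / K)) ≤ W0 jj t.1 t.2.1 (c' * (X * V * H / K)) :=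
      slp_mono (hW0 _ _ _) hcI (mul_le_mul_of_nonneg_right h2 hI.le)
    have k0 := (hW0 jj t.1 t.2.1).nonneg _ hcI
    have k2 : 0 ≤ C₂' := hC₂.trans h4
    exact mul_le_mul (mul_le_mul_of_nonneg_right h4 (by positivity)) k1 k0 (by positivity)
  refine MB_mono (by linarith) hC h1 (by linarith) h3 ?_ ?_
    (BsX_nonneg hcs hK hV hH hX (hW false) (hW true) t)
    (BsX_mono hcs hK hV hH hX (hm false) (hm true)) key
  · have : 0 < cs := by linarith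
    unfold E3Sw290.YU E3Sw290.ZU
    positivity
  · unfold E3Sw290.LtU E3Sw290.YU E3Sw290.ZU
    positivity

/-- **the two sides, all pairs** -/
theorem MB12x_of {cs : ℝ} (hcs : 1 ≤ cs) {w1 : ℝ → ℝ} (hw : Wgt (fun y => w1 (cs * y)))
    (hw1 : ∀ y, w1 (cs * y) ≠ 0 → y ≤ 1) {R0 : ℝ} (hR0 : 0 ≤ R0) (a A : ℕ) (hA : 1 < A)
    {ε : ℝ} (hε : 0 < ε) :
    ∃ (C c cw C₂ : ℝ) (A₀ : ℕ), 0 < C ∧ 1 ≤ c ∧ 1 ≤ cw ∧ 0 ≤ C₂ ∧ ∀ p ∈ Cs ×ˢ Cs,
      MBstx (pc p.1 p.2) (fun y => w1 (cs * y)) R0 a A ε cs C c cw C₂ A₀ ∧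
      MBstx (fun m => conj (pc p.1 p.2 m)) (fun y => w1 (cs * y)) R0 a A ε cs C c cw C₂ A₀ := by
  have h1 : ∀ p : Eis × Eis, ∃ (C c cw C₂ : ℝ) (A₀ : ℕ), 0 ≤ C ∧ 1 ≤ c ∧ 1 ≤ cw ∧ 0 ≤ C₂ ∧
      (p ∈ Cs ×ˢ Cs →
        MBstx (pc p.1 p.2) (fun y => w1 (cs * y)) R0 a A ε cs C c cw C₂ A₀ ∧
        MBstx (fun m => conj (pc p.1 p.2 m)) (fun y => w1 (cs * y)) R0 a A ε cs C c cw C₂ A₀) := by
    intro p
    by_cases hp : p ∈ Cs ×ˢ Cs
    · have hp' := hp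
      rw [mem_product, mem_Cs, mem_Cs] at hp'
      obtain ⟨k1, k2⟩ := pohx_pc hp'.1 hp'.2 hw
      obtain ⟨k3, k4⟩ := pohx_pc' hp'.1 hp'.2 hw
      obtain ⟨C, c, cw, C₂, A₀, a1, a2, a3, a4, a5⟩ := MBUx_of k1 hw k2 hw1 hR0 a A hA hε hcs
      obtain ⟨C', c', cw', C₂', A₀', b1, b2, b3, b4, b5⟩ := MBUx_of k3 hw k4 hw1 hR0 a A hA hε hcs
      refine ⟨C + C', c + c', cw + cw', C₂ + C₂', A₀ + A₀', by linarith, by linarith,
        by linarith, by linarith, fun _ => ⟨?_, ?_⟩⟩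
      · exact MBstx_mono hcs a1 a2 a3 a4 (by linarith) (by linarith) (by linarith) (by linarith)
          (by omega) a5
      · exact MBstx_mono hcs b1 b2 b3 b4 (by linarith) (by linarith) (by linarith) (by linarith)
          (by omega) b5
    · exact ⟨0, 1, 1, 0, 0, le_rfl, le_rfl, le_rfl, le_rfl, fun h => absurd h hp⟩
  choose C c cw C₂ A₀ a1 a2 a3 a4 a5 using h1
  have s0 : ∀ (f : Eis × Eis → ℝ), (∀ p, 0 ≤ f p) → ∀ p ∈ Cs ×ˢ Cs, f p ≤ ∑ q ∈ Cs ×ˢ Cs, f q :=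
    fun f hf p hp => single_le_sum (fun q _ => hf q) hp
  have t1 : 0 ≤ ∑ q ∈ Cs ×ˢ Cs, C q := sum_nonneg fun q _ => a1 q
  have t2 : 0 ≤ ∑ q ∈ Cs ×ˢ Cs, c q := sum_nonneg fun q _ => by linarith [a2 q]
  have t3 : 0 ≤ ∑ q ∈ Cs ×ˢ Cs, cw q := sum_nonneg fun q _ => by linarith [a3 q]
  have t4 : 0 ≤ ∑ q ∈ Cs ×ˢ Cs, C₂ q := sum_nonneg fun q _ => a4 q
  refine ⟨1 + ∑ q ∈ Cs ×ˢ Cs, C q, 1 + ∑ q ∈ Cs ×ˢ Cs, c q, 1 + ∑ q ∈ Cs ×ˢ Cs, cw q,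
    ∑ q ∈ Cs ×ˢ Cs, C₂ q, ∑ q ∈ Cs ×ˢ Cs, A₀ q, by linarith, by linarith, by linarith, t4, ?_⟩
  intro p hp
  have u1 := s0 C a1 p hp
  have u2 := s0 c (fun q => by linarith [a2 q]) p hp
  have u3 := s0 cw (fun q => by linarith [a3 q]) p hp
  have u4 := s0 C₂ a4 p hp
  have u5 : A₀ p ≤ ∑ q ∈ Cs ×ˢ Cs, A₀ q := single_le_sum (fun q _ => Nat.zero_le _) hp
  exact ⟨MBstx_mono hcs (a1 p) (a2 p) (a3 p) (a4 p) (by linarith) (by linarith) (by linarith)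
      u4 u5 (a5 p hp).1,
    MBstx_mono hcs (a1 p) (a2 p) (a3 p) (a4 p) (by linarith) (by linarith) (by linarith)
      u4 u5 (a5 p hp).2⟩

/-! ### one pair of levels -/

/-- the third term of the structured part -/
def Mxd (c K V H X : ℝ) (d : Eis) : ℝ :=
  c * (H * V ^ 2 / (K * nm d)) * (X * V * H / K) ^ (-(2 / 3) : ℝ)

lemma Mxd_nonneg {c K V H X : ℝ} (hc : 0 ≤ c) (hK : 0 < K) (hV : 0 < V) (hH : 0 < H) (hX : 0 < X)
    (d : Eis) : 0 ≤ Mxd c K V H X d := by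
  unfold Mxd; positivity

/-- the pointwise bound of the structured number -/
lemma BsX_b {cs c K V H X z : ℝ} (hcs : 1 ≤ cs) (hc : cs ≤ c) (hz : 0 ≤ z) (hK : 0 < K)
    (hV : 0 < V) (hH : 0 < H) (hX : 0 < X) {W1 Wx : Eis → Eis → ℝ} (hW1 : ∀ d e, 0 ≤ W1 d e)
    (hWx : ∀ d e, 0 ≤ Wx d e) {t : UT} (ht : SU z t) (hd : t.1 ≠ 0) :
    BsX cs K V H X W1 Wx t ≤
      if Cnd (Ld K V H) t then
        (1 + Md c K V H X t.1 * kU t) * W1 t.1 t.2.1 + Mxd c K V H X t.1 * kU t * Wx t.1 t.2.1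
          else 0 := by
  have h := BsX_le hcs hK hV hH hX hW1 hWx hd ((mem_S hz).1 ht.q).2.1.ne_zero
    ((mem_S hz).1 ht.g).2.1.ne_zero ((mem_S hz).1 ht.a).2.1.ne_zero
    ((mem_S hz).1 ht.D).2.1.ne_zero ((mem_S hz).1 ht.F).2.1.ne_zero
  refine h.trans ?_
  unfold Rsx72.Cnd E3Sz579.Ld E3Sz579.Md Mxd
  split_ifs
  · have h1 := hW1 t.1 t.2.1
    have h3 := hWx t.1 t.2.1
    have h2 := kU_nonneg t
    refine add_le_add (mul_le_mul_of_nonneg_right ?_ h1) (mul_le_mul_of_nonneg_right ?_ h3)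
    · refine add_le_add le_rfl (mul_le_mul_of_nonneg_right ?_ h2)
      refine mul_le_mul_of_nonneg_right ?_ (by positivity)
      exact mul_le_mul_of_nonneg_right hc (by positivity)
    · refine mul_le_mul_of_nonneg_right ?_ h2
      refine mul_le_mul_of_nonneg_right ?_ (by positivity)
      exact mul_le_mul_of_nonneg_right hc (by positivity)
  · exact le_rfl

lemma RNp_smul (L M : Eis → ℝ) (W : Eis → Eis → ℝ) (k : ℝ) (Ds EE : Finset Eis) :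
    RNp L M (fun d e => k * W d e) Ds EE = k * RNp L M W Ds EE := by
  unfold Rsx72.RNp
  rw [mul_sum]
  refine sum_congr rfl fun d _ => ?_
  rw [mul_sum]
  refine sum_congr rfl fun e _ => ?_
  ring

/-- the `R`-number of one side, in classes -/
def RNX (c K V H X : ℝ) (W : Bool → Eis → Eis → ℝ) (Ds EE : Finset Eis) : ℝ :=
  RNn (Ld K V H) (Md c K V H X) (W false) Ds EE + RNp (Ld K V H) (Mxd c K V H X) (W true) Ds EE

lemma RNX_nonneg {c K V H X : ℝ} (hc : 0 ≤ c) (hK : 0 < K) (hV : 0 < V) (hH : 0 < H) (hX : 0 < X)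
    {W : Bool → Eis → Eis → ℝ} (hW : ∀ jj d e, 0 ≤ W jj d e) (Ds EE : Finset Eis) :
    0 ≤ RNX c K V H X W Ds EE :=
  add_nonneg (RNn_nonneg (Md_nonneg hc hK hV hH hX) (hW false) Ds EE)
    (RNp_nonneg (Mxd_nonneg hc hK hV hH hX) (hW true) Ds EE)

lemma RNX_smul {c K V H X : ℝ} (W : Bool → Eis → Eis → ℝ) (k : ℝ) (Ds EE : Finset Eis) :
    RNX c K V H X (fun jj d e => k * W jj d e) Ds EE = k * RNX c K V H X W Ds EE := by
  unfold RNX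
  rw [RNn_smul, RNp_smul]
  ring

/-- (RH) for the sequences of the levels, in classes -/
def RHdx (z m : ℝ) (A : ℕ) (EE : Finset Eis) (af : Eis → Eis → Eis → ℂ) (u : Eis)
    (W0 : Bool → Eis → Eis → ℝ → ℝ) : Prop :=
  ∀ jj, ∀ d ∈ S z, ∀ e ∈ EE, ∀ γ π, IsPrim γ → IsPrim π → (nm π : ℝ) ≤ m →
    ∀ P : ℝ, 0 < P → (nm γ : ℝ) * n6 γ ^ 2 * ∑ r ∈ (bl P).filter (Cls (PrU u) jj),
      R3571.RMm A (af d e) e γ π r ≤ W0 jj d e P

lemma alg_rho {a b ρ z : ℝ} (ha : 0 ≤ a) (hb : 0 ≤ b) (hρ : 0 ≤ ρ) (hz : 0 ≤ z) (h : a * b ≤ z)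
    (hb1 : 1 ≤ b) : a * (3 + ρ * b) ≤ (3 + ρ) * z := by
  nlinarith [mul_nonneg ha (sub_nonneg.2 hb1), mul_nonneg hρ (sub_nonneg.2 h)]

set_option maxHeartbeats 4000000 in
/-- **one pair of levels from (RH), in classes** -/
theorem PAIR_RHx {Rw : ℝ} (hRw : 0 ≤ Rw) {h : ℝ → ℝ} (hh : ContDiff ℝ ∞ h)
    (hhc : HasCompactSupport h) {w1 : ℝ → ℝ} (hW1 : Wgt w1)
    (hw : ∀ x, w1 x ≠ 0 → 0 < x ∧ |Real.log x| ≤ Rw)
    (hw1 : ∀ x, 0 < x → h (Real.log x) ≠ 0 → w1 x = 1) {R0 : ℝ} (hR0 : 0 ≤ R0) (a A₁ : ℕ)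
    (hA₁ : 1 < A₁) {b₀ : ℝ} (hb₀ : 0 ≤ b₀) {ε : ℝ} (hε : 0 < ε) (hε1 : ε ≤ 1) :
    ∃ (A₀ : ℕ) (c : ℝ), 1 ≤ c ∧ ∀ A : ℕ, A₀ ≤ A → ∀ Bw : ℕ, 4 ≤ Bw → ∃ C : ℝ, 0 ≤ C ∧
    ∀ (Om Om' : ℝ → ℂ) (Mb : ℝ), 0 ≤ Mb → ContDiff ℝ ∞ Om → ContDiff ℝ ∞ Om' →
      (∀ n ≤ A + 2, ∀ x, ‖iteratedDeriv n Om x‖ ≤ Mb) →
      (∀ n ≤ A + 2, ∀ x, ‖iteratedDeriv n Om' x‖ ≤ Mb) →
    ∀ (V V' τ : ℝ) (κ κ' : ℂ), 0 < V → 0 < V' → ‖κ‖ ≤ 1 → ‖κ'‖ ≤ 1 →
    ∀ (Z : ℝ), 1 ≤ Z → ∀ (Pr : Yp → Yp → Prop) (J : Finset (Eis × Eis))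
      (om om' : Eis × Eis → ℂ) (af : Eis → Eis → Eis → ℂ) (EE : Finset Eis)
      (E0 E1 R B K X H G1 G1' : ℝ) (u : Eis) (W0 W0' : Bool → Eis → Eis → ℝ → ℝ),
      u ≠ 0 → (∀ p, IsPrim p → IsCoprime u p) →
      TC (T3 af) → (∀ d e, FS (af d e)) → OKJ J → (∀ d e, e ∉ EE → ∀ j, T3 af d e j = 0) →
      0 < K → 0 ≤ R → R ≤ Z → 0 ≤ B → B ≤ Z → 0 ≤ E1 → E1 ≤ Z →
      (∀ x ∈ J, (nm x.1 : ℝ) ≤ Z) → (∀ x ∈ J, (nm x.2 : ℝ) ≤ R) →
      WQ J om E0 R (wL κ h Om τ V) → WQ J om' E0 R (wL κ' h Om' τ V') →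
      0 < X → 0 < H → 0 ≤ G1 → 0 ≤ G1' →
      K ≤ Z ^ 5 → X ≤ Z ^ 5 → c * V ≤ Z ^ 5 → c * V' ≤ Z ^ 5 →
      c * (H * V ^ 2) ≤ K * X → c * (H * V' ^ 2) ≤ K * X →
      (Real.sqrt (c * V) ≤ G1 ∨ (ClsP Pr J E0 R ∧ 1 ≤ G1)) →
      (Real.sqrt (c * V') ≤ G1' ∨ (ClsP Pr J E0 R ∧ 1 ≤ G1')) →
      (∀ d ∈ S (Z ^ 5), ∀ e ∈ EE, ∀ n, af d e n ≠ 0 → Squarefree n) →
      (∀ d ∈ S (Z ^ 5), ∀ e ∈ EE, ∀ n, af d e n ≠ 0 →
        |Real.log (nm d * nm n) - Real.log X| ≤ R0) →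
      (∀ jj d e, Slp a (W0 jj d e)) → (∀ jj d e, Slp a (W0' jj d e)) →
      RHdx (Z ^ 5) (c * Z ^ 200) A₁ EE af u W0 → RHdx (Z ^ 5) (c * Z ^ 200) A₁ EE af u W0' →
      ∑ q ∈ S R, ∑ t ∈ pb E1, MPTr Pr A Bw K B V V' (Z ^ 5) J om om' (T3 af) E0 R b₀ q t ≤
        C * Mb ^ 2 * (1 + |τ|) ^ A * Z ^ ε * (hE EE *
          (LVn af (J.image Prod.fst) EE c (Z ^ 5) K H V V' E1 B G1
            (RNX c K V H X (fun jj d e => W0 jj d e (c * (X * V * H / K)))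
              (J.image Prod.fst) EE) +
          LVn af (J.image Prod.fst) EE c (Z ^ 5) K H V' V E1 B G1'
            (RNX c K V' H X (fun jj d e => W0' jj d e (c * (X * V' * H / K)))
              (J.image Prod.fst) EE))) := by
  -- the constants
  obtain ⟨cs, hcsd⟩ : ∃ cs, cs = Real.exp Rw := ⟨_, rfl⟩
  have hcs : 1 ≤ cs := by rw [hcsd]; exact Real.one_le_exp hRw
  have hcs0 : 0 < cs := by linarith
  have hwcs : Wgt (fun y => w1 (cs * y)) := by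
    have h1 := hW1.scale (A := cs⁻¹) (by positivity)
    have e : (fun x => w1 (x / cs⁻¹)) = fun y => w1 (cs * y) := by
      funext x
      rw [div_inv_eq_mul, mul_comm]
    rwa [e] at h1
  have hw1' : ∀ y, w1 (cs * y) ≠ 0 → y ≤ 1 := fun y hy => w_le hw hcsd.ge hy
  set η : ℝ := ε / 206 with hη
  have hη0 : 0 < η := by positivity
  have hη1 : η ≤ 1 := by rw [hη]; linarith
  obtain ⟨C0, c₁, cw, C₂, A₀, hC0, hc₁, hcw, hC₂, hMB⟩ :=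
    MB12x_of hcs hwcs hw1' hR0 a A₁ hA₁ hη0
  obtain ⟨Cr, hCr, hRr⟩ := R_PZx hη0
  obtain ⟨CZ, hCZd⟩ : ∃ CZ, CZ = kZ 59049 b₀ + Real.exp R0 + 1 := ⟨_, rfl⟩
  have hkZ : 0 ≤ kZ 59049 b₀ := by unfold E3Sw290.kZ; positivity
  have hCZ1 : 1 ≤ CZ := by rw [hCZd]; linarith [Real.exp_pos R0]
  have he2 : 1 ≤ Real.exp (2 * R0) + 1 := by linarith [Real.exp_pos (2 * R0)]
  obtain ⟨cw', hcwd⟩ : ∃ cw', cw' = cw * c₁ * (Real.exp (2 * R0) + 1) * CZ ^ 4 := ⟨_, rfl⟩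
  have p1 : 1 ≤ cw * c₁ := one_le_mul_of_one_le_of_one_le hcw hc₁
  have p2 : 1 ≤ cw * c₁ * (Real.exp (2 * R0) + 1) := one_le_mul_of_one_le_of_one_le p1 he2
  have p3 : 1 ≤ CZ ^ 4 := one_le_pow₀ hCZ1
  have hcw' : 1 ≤ cw' := by rw [hcwd]; exact one_le_mul_of_one_le_of_one_le p2 p3
  have q1 : cw ≤ cw' := by
    rw [hcwd, mul_assoc, mul_assoc]
    refine le_mul_of_one_le_right (by linarith) ?_
    exact one_le_mul_of_one_le_of_one_le hc₁ (one_le_mul_of_one_le_of_one_le he2 p3)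
  have q2 : c₁ ≤ cw' := by
    rw [hcwd, mul_assoc, mul_assoc, mul_left_comm]
    refine le_mul_of_one_le_right (by linarith) ?_
    exact one_le_mul_of_one_le_of_one_le hcw (one_le_mul_of_one_le_of_one_le he2 p3)
  have q3 : Real.exp (2 * R0) + 1 ≤ cw' := by
    rw [hcwd]
    calc Real.exp (2 * R0) + 1 ≤ (cw * c₁) * (Real.exp (2 * R0) + 1) :=
          le_mul_of_one_le_left (by linarith) p1
      _ ≤ _ := le_mul_of_one_le_right (by linarith) p3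
  have q4 : CZ ^ 4 ≤ cw' := by
    rw [hcwd]
    exact le_mul_of_one_le_left (by linarith) p2
  obtain ⟨c, hcd⟩ : ∃ c, c = cw' * cs := ⟨_, rfl⟩
  have hcwc : cw' ≤ c := by rw [hcd]; exact le_mul_of_one_le_right (by linarith) hcs
  have hcsc : cs ≤ c := by rw [hcd]; exact le_mul_of_one_le_left (by linarith) hcw'
  have hc1 : 1 ≤ c := hcw'.trans hcwc
  refine ⟨A₀ + 2, c, hc1, ?_⟩
  intro A hA Bw hBw
  obtain ⟨C, hC, hP⟩ := PAIRA (A := A) (Bw := Bw) (by omega) hBw hRw hh hhc hw hw1 (cw := cw')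
    (cs := cs) (b₀ := b₀) hcw' hcs hcsd.ge hb₀ hη0 hη1
  refine ⟨C * (C0 * cs ^ 2) * ((1 + C₂) * CZ ^ 4) * (3 + Cr), by positivity, ?_⟩
  intro Om Om' Mb hMb hOm hOm' hOb hOb' V V' τ κ κ' hV hV' hκ hκ' Z hZ Pr J om om' af EE E0 E1 R B
    K X H G1 G1' u W0 W0' hu huc hT haf hJ hEE hK hR0' hRZ hB0 hBZ hE10 hE1 hJ1 hJ2 hwq hwq' hX hH hG1 hG1'
    hKz hXz hVz hVz' hKX hKX' hcl hcl' hsf hwin hS hS' hRH hRH'
  have hZ0 : 0 < Z := by linarith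
  have hz : 1 ≤ Z ^ 5 := one_le_pow₀ hZ
  obtain ⟨Zm, hZmd⟩ : ∃ Zm, Zm = CZ * Z ^ 50 := ⟨_, rfl⟩
  have h50 : 1 ≤ Z ^ 50 := one_le_pow₀ hZ
  have hZm : 1 ≤ Zm := by rw [hZmd]; exact one_le_mul_of_one_le_of_one_le hCZ1 h50
  have hZm50 : Z ^ 50 ≤ Zm := by
    rw [hZmd]; exact le_mul_of_one_le_left (by positivity) hCZ1
  have hz50 : Z ^ 5 ≤ Z ^ 50 := pow_le_pow_right₀ hZ (by norm_num)
  have hz5 : (Z ^ 5) ^ 5 ≤ Zm := by
    rw [← pow_mul]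
    exact (pow_le_pow_right₀ hZ (by norm_num)).trans hZm50
  have hkZm : kZ 59049 b₀ * (Z ^ 5) ^ 10 ≤ Zm := by
    rw [hZmd, ← pow_mul]
    refine mul_le_mul_of_nonneg_right ?_ (by positivity)
    rw [hCZd]; linarith [Real.exp_pos R0]
  have hXm : (Z ^ 5) ^ 3 * (Real.exp R0 * X) ≤ Zm := by
    have h1 : Real.exp R0 ≤ CZ := by rw [hCZd]; linarith
    calc (Z ^ 5) ^ 3 * (Real.exp R0 * X) ≤ (Z ^ 5) ^ 3 * (CZ * Z ^ 5) := by gcongr
      _ = CZ * Z ^ 20 := by ring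
      _ ≤ CZ * Z ^ 50 := by
          refine mul_le_mul_of_nonneg_left ?_ (by linarith)
          exact pow_le_pow_right₀ hZ (by norm_num)
      _ = Zm := hZmd.symm
  have hπ : Zm ^ 4 ≤ c * Z ^ 200 := by
    rw [hZmd, mul_pow, ← pow_mul]
    exact mul_le_mul_of_nonneg_right (q4.trans hcwc) (by positivity)
  have hcsV : ∀ V : ℝ, 0 < V → c * V ≤ Z ^ 5 → cs * V ≤ Zm := fun V hV h =>
    ((mul_le_mul_of_nonneg_right hcsc hV.le).trans h).trans (hz50.trans hZm50)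
  have hKXs : ∀ V : ℝ, 0 < V → c * (H * V ^ 2) ≤ K * X →
      H * V ^ 2 * Real.exp (2 * R0) < K * X := by
    intro V hV h
    have h1 : 0 < H * V ^ 2 := by positivity
    have h2 : (Real.exp (2 * R0) + 1) * (H * V ^ 2) ≤ c * (H * V ^ 2) :=
      mul_le_mul_of_nonneg_right (q3.trans hcwc) h1.le
    nlinarith
  -- the structured numbers
  have hc0 : 0 < c := by linarith
  have hI : 0 < c * (X * V * H / K) := by positivity
  have hI' : 0 < c * (X * V' * H / K) := by positivity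
  have hCZm : 0 ≤ C₂ * Zm ^ η := by positivity
  have n0 : ∀ jj d e, 0 ≤ W0 jj d e (c * (X * V * H / K)) := fun jj d e =>
    (hS jj d e).nonneg _ hI
  have n0' : ∀ jj d e, 0 ≤ W0' jj d e (c * (X * V' * H / K)) := fun jj d e =>
    (hS' jj d e).nonneg _ hI'
  have hW10 : ∀ jj d e, 0 ≤ C₂ * Zm ^ η * W0 jj d e (c * (X * V * H / K)) := fun jj d e =>
    mul_nonneg hCZm (n0 jj d e)
  have hW10' : ∀ jj d e, 0 ≤ C₂ * Zm ^ η * W0' jj d e (c * (X * V' * H / K)) := fun jj d e =>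
    mul_nonneg hCZm (n0' jj d e)
  have hAA : ((A₀ : ℕ) : ℝ) ≤ (A : ℝ) := by exact_mod_cast (by omega : A₀ ≤ A)
  have hM1 : MB1 w1 A η C0 cw' cs K V H af (Z ^ 5) EE (BsX cs K V H X
      (fun d e => C₂ * Zm ^ η * W0 false d e (c * (X * V * H / K)))
      (fun d e => C₂ * Zm ^ η * W0 true d e (c * (X * V * H / K)))) Zm := by
    intro k k' hk hk' t ht hY
    have h1 := (hMB (k, k') (by rw [mem_product, mem_Cs, mem_Cs]; exact ⟨hk, hk'⟩)).1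
    have h2 := MBstx_mono hcs hC0.le hc₁ hcw hC₂ le_rfl (q2.trans hcwc) q1 le_rfl le_rfl h1
    exact h2 A hAA (Z ^ 5) Zm K V H X hz hz5 hK hV hH hX (hKXs V hV hKX) (hcsV V hV hVz) hXm EE
      af haf hsf hwin u hu huc W0 hS (fun jj d hd e he γ π hγ hπ' hn P hP =>
        hRH jj d hd e he γ π hγ hπ' (hn.trans hπ) P hP) t ht
  have hM2 : MB2 w1 A η C0 cw' cs K V' H af (Z ^ 5) EE (BsX cs K V' H X
      (fun d e => C₂ * Zm ^ η * W0' false d e (c * (X * V' * H / K)))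
      (fun d e => C₂ * Zm ^ η * W0' true d e (c * (X * V' * H / K)))) Zm := by
    intro k k' hk hk' t ht hY
    have h1 := (hMB (k, k') (by rw [mem_product, mem_Cs, mem_Cs]; exact ⟨hk, hk'⟩)).2
    have h2 := MBstx_mono hcs hC0.le hc₁ hcw hC₂ le_rfl (q2.trans hcwc) q1 le_rfl le_rfl h1
    exact h2 A hAA (Z ^ 5) Zm K V' H X hz hz5 hK hV' hH hX (hKXs V' hV' hKX') (hcsV V' hV' hVz')
      hXm EE af haf hsf hwin u hu huc W0' hS' (fun jj d hd e he γ π hγ hπ' hn P hP =>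
        hRH' jj d hd e he γ π hγ hπ' (hn.trans hπ) P hP) t ht
  have hne : ∀ t : UT, (∃ u ∈ RUs J EE (Z ^ 5), t.1 = u.1 ∧ t.2.1 = u.2.1) → t.1 ≠ 0 := by
    rintro t ⟨u, hu, h1, -⟩
    rw [h1]
    unfold E3T829.RUs at hu
    rw [mem_product, mem_image] at hu
    obtain ⟨⟨y, hy, hy'⟩, -⟩ := hu
    rw [← hy']
    exact (hJ.prim y hy).ne_zero
  have hRn0 := RNX_nonneg (X := X) hc0.le hK hV hH hX n0 (J.image Prod.fst) EE
  have hRn0' := RNX_nonneg (X := X) hc0.le hK hV' hH hX n0' (J.image Prod.fst) EE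
  have r1 := RNX_smul (c := c) (K := K) (V := V) (H := H) (X := X)
    (fun jj d e => W0 jj d e (c * (X * V * H / K))) (C₂ * Zm ^ η) (J.image Prod.fst) EE
  have r2 := RNX_smul (c := c) (K := K) (V := V') (H := H) (X := X)
    (fun jj d e => W0' jj d e (c * (X * V' * H / K))) (C₂ * Zm ^ η) (J.image Prod.fst) EE
  have hRp : RPn J EE (Z ^ 5) K H V (BsX cs K V H X
      (fun d e => C₂ * Zm ^ η * W0 false d e (c * (X * V * H / K)))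
      (fun d e => C₂ * Zm ^ η * W0 true d e (c * (X * V * H / K)))) (Cr * (Z ^ 5) ^ η)
      (C₂ * Zm ^ η * RNX c K V H X (fun jj d e => W0 jj d e (c * (X * V * H / K)))
        (J.image Prod.fst) EE) := by
    intro b hb
    rw [← r1]
    exact hRr (Z ^ 5) hz J EE b K H V _ _ (Ld K V H) (Md c K V H X) (Mxd c K V H X) _ hb hK.le
      hH.le hV.le (hW10 false) (hW10 true) (Ld_nonneg hK hH) (Md_nonneg hc0.le hK hV hH hX)
      (Mxd_nonneg hc0.le hK hV hH hX)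
      (fun t ht hu => BsX_b hcs hcsc (by positivity) hK hV hH hX (hW10 false) (hW10 true) ht
        (hne t hu))
  have hRp' : RPn J EE (Z ^ 5) K H V' (BsX cs K V' H X
      (fun d e => C₂ * Zm ^ η * W0' false d e (c * (X * V' * H / K)))
      (fun d e => C₂ * Zm ^ η * W0' true d e (c * (X * V' * H / K)))) (Cr * (Z ^ 5) ^ η)
      (C₂ * Zm ^ η * RNX c K V' H X (fun jj d e => W0' jj d e (c * (X * V' * H / K)))
        (J.image Prod.fst) EE) := by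
    intro b hb
    rw [← r2]
    exact hRr (Z ^ 5) hz J EE b K H V' _ _ (Ld K V' H) (Md c K V' H X) (Mxd c K V' H X) _ hb
      hK.le hH.le hV'.le (hW10' false) (hW10' true) (Ld_nonneg hK hH)
      (Md_nonneg hc0.le hK hV' hH hX) (Mxd_nonneg hc0.le hK hV' hH hX)
      (fun t ht hu => BsX_b hcs hcsc (by positivity) hK hV' hH hX (hW10' false) (hW10' true) ht
        (hne t hu))
  have key := hP Om Om' Mb hMb hOm hOm' hOb hOb' V V' τ κ κ' hV hV' hκ hκ' Z hZ Pr J om om' af EE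
    E0 E1 R B K X H G1 G1' C0 Zm (Cr * (Z ^ 5) ^ η)
    (C₂ * Zm ^ η * RNX c K V H X (fun jj d e => W0 jj d e (c * (X * V * H / K)))
        (J.image Prod.fst) EE)
    (C₂ * Zm ^ η * RNX c K V' H X (fun jj d e => W0' jj d e (c * (X * V' * H / K)))
        (J.image Prod.fst) EE) _ _ hT haf hJ hEE hK hR0' hRZ hB0 hBZ hE10 hE1 hJ1 hJ2
    hwq hwq' hX hH hC0 hG1 hG1' hKz (by rw [← hcd]; exact hVz) (by rw [← hcd]; exact hVz') hZm
    hkZm (by rw [← hcd]; exact hcl) (by rw [← hcd]; exact hcl')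
    (BsX_nonneg hcs hK hV hH hX (hW10 false) (hW10 true))
    (BsX_nonneg hcs hK hV' hH hX (hW10' false) (hW10' true)) hM1 hM2 (by positivity)
    (mul_nonneg hCZm hRn0) (mul_nonneg hCZm hRn0') hRp hRp'
  rw [← hcd] at key
  refine key.trans ?_
  -- the numbers
  have l1 := LVn_smul (af := af) (Ds := J.image Prod.fst) (EE := EE) (c := c) (Y := Z ^ 5)
    (RN := RNX c K V H X (fun jj d e => W0 jj d e (c * (X * V * H / K)))
        (J.image Prod.fst) EE) (k := C₂ * Zm ^ η) hK hH hV hV' hE10 hB0 hG1 hRn0 hCZm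
  have l2 := LVn_smul (af := af) (Ds := J.image Prod.fst) (EE := EE) (c := c) (Y := Z ^ 5)
    (RN := RNX c K V' H X (fun jj d e => W0' jj d e (c * (X * V' * H / K)))
        (J.image Prod.fst) EE) (k := C₂ * Zm ^ η) hK hH hV' hV hE10 hB0 hG1' hRn0' hCZm
  have ly1 := LVn_nonneg (af := af) (Ds := J.image Prod.fst) (EE := EE) (c := c) (Y := Z ^ 5)
    (E1 := E1) (B := B) hK.le hH.le hV.le hV'.le hE10 hG1 hRn0
  have ly2 := LVn_nonneg (af := af) (Ds := J.image Prod.fst) (EE := EE) (c := c) (Y := Z ^ 5)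
    (E1 := E1) (B := B) hK.le hH.le hV'.le hV.le hE10 hG1' hRn0'
  have hz1 := Z_exp (Z := Z) (CZ := CZ) (C₂ := C₂) (η := η) (ε := 201 * η) hZ hCZ1 hC₂ hη0 hη1
    le_rfl
  rw [← hZmd] at hz1
  generalize LVn af (J.image Prod.fst) EE c (Z ^ 5) K H V V' E1 B G1
    (C₂ * Zm ^ η * RNX c K V H X (fun jj d e => W0 jj d e (c * (X * V * H / K)))
        (J.image Prod.fst) EE) = x1 at *
  generalize LVn af (J.image Prod.fst) EE c (Z ^ 5) K H V' V E1 B G1'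
    (C₂ * Zm ^ η * RNX c K V' H X (fun jj d e => W0' jj d e (c * (X * V' * H / K)))
        (J.image Prod.fst) EE) = x2 at *
  generalize LVn af (J.image Prod.fst) EE c (Z ^ 5) K H V V' E1 B G1
    (RNX c K V H X (fun jj d e => W0 jj d e (c * (X * V * H / K)))
      (J.image Prod.fst) EE) = y1 at *
  generalize LVn af (J.image Prod.fst) EE c (Z ^ 5) K H V' V E1 B G1'
    (RNX c K V' H X (fun jj d e => W0' jj d e (c * (X * V' * H / K)))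
      (J.image Prod.fst) EE) = y2 at *
  have h5 : (Z ^ 5) ^ η = Z ^ (5 * η) := by
    rw [← Real.rpow_natCast Z 5, ← Real.rpow_mul hZ0.le]
    norm_num
  have hZ5 : 1 ≤ Z ^ (5 * η) := Real.one_le_rpow hZ (by positivity)
  have hZe : Z ^ (201 * η) * Z ^ (5 * η) = Z ^ ε := by
    rw [← Real.rpow_add hZ0]
    congr 1
    rw [hη]; ring
  have hρz : (3 + Cr * (Z ^ 5) ^ η) * Z ^ (201 * η) ≤ (3 + Cr) * Z ^ ε := by
    rw [h5, ← hZe]
    have h0 : 0 ≤ Z ^ (201 * η) := by positivity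
    have h1 : 3 + Cr * Z ^ (5 * η) ≤ (3 + Cr) * Z ^ (5 * η) := by nlinarith
    calc (3 + Cr * Z ^ (5 * η)) * Z ^ (201 * η) ≤ ((3 + Cr) * Z ^ (5 * η)) * Z ^ (201 * η) :=
          mul_le_mul_of_nonneg_right h1 h0
      _ = _ := by ring
  have hfin := fin_alg (C := C * (3 + Cr * (Z ^ 5) ^ η)) (cs := cs)
    (F := Mb ^ 2 * (1 + |τ|) ^ A) (a := Zm ^ (3 * η))
    (b := Z ^ η) (by positivity) hC0.le (hE_nonneg EE) (by positivity) (by positivity) l1 l2 hz1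
    ly1 ly2
  have hF : 0 ≤ C * (C0 * cs ^ 2) * ((1 + C₂) * CZ ^ 4) * (Mb ^ 2 * (1 + |τ|) ^ A) *
      (hE EE * (y1 + y2)) := by
    have := hE_nonneg EE
    positivity
  calc C * (3 + Cr * (Z ^ 5) ^ η) * (C0 * cs ^ 2 * Zm ^ (3 * η)) * Mb ^ 2 * (1 + |τ|) ^ A *
        Z ^ η * (hE EE * (x1 + x2))
      = C * (3 + Cr * (Z ^ 5) ^ η) * (C0 * cs ^ 2 * Zm ^ (3 * η)) *
        (Mb ^ 2 * (1 + |τ|) ^ A) * Z ^ η * (hE EE * (x1 + x2)) := by ring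
    _ ≤ C * (3 + Cr * (Z ^ 5) ^ η) * (C0 * cs ^ 2) * ((1 + C₂) * CZ ^ 4 * Z ^ (201 * η)) *
        (Mb ^ 2 * (1 + |τ|) ^ A) * (hE EE * (y1 + y2)) := hfin
    _ = (C * (C0 * cs ^ 2) * ((1 + C₂) * CZ ^ 4) * (Mb ^ 2 * (1 + |τ|) ^ A) *
      (hE EE * (y1 + y2))) * ((3 + Cr * (Z ^ 5) ^ η) * Z ^ (201 * η)) := by ring
    _ ≤ (C * (C0 * cs ^ 2) * ((1 + C₂) * CZ ^ 4) * (Mb ^ 2 * (1 + |τ|) ^ A) *
      (hE EE * (y1 + y2))) * ((3 + Cr) * Z ^ ε) := mul_le_mul_of_nonneg_left hρz hF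
    _ = _ := by ring

end Crest.Agent.R017.E3Sx744
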