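import Crest.Agent.R017.E3Hg_290
import Crest.Agent.R017.E3Szx_744

/-!
# Row 17, T.7 (class E), leaf E3 (S-sum) (helper290, after helper744): one pair of levels from (RH)
in classes, first form, `H` a function of `(d, e)` per side

* `RNXF` : the `R`-number;  `PAIR_RHFx`
-/

set_option autoImplicit false
set_option linter.unusedVariables false

noncomputable section

open Finset
open scoped ComplexConjugate Classical ContDiff

namespace Crest.Agent.R017.E3Hh290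

open Crest.Agent.R012 Crest.Agent.R012.Eis Crest.Agent.R012.MC
open Crest.Agent.R012.LS2 (S mem_S bl mem_bl)
open Crest.Agent.R012.Mob705 (pb mem_pb pdiv mem_pdiv)
open Crest.Agent.R017.CM106 (CS FS)
open Crest.Agent.R017.C70 (JC OKJ)
open Crest.Agent.R017.E3A164 (Yp Ys Cs mem_Cs)
open Crest.Agent.R017.GrB829 (IsC)
open Crest.Agent.R017.PX764 (n6)
open Crest.Agent.R017.E3M829 (TC)
open Crest.Agent.R017.E3T829
open Crest.Agent.R017.E3T1579 (T3 WQ)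
open Crest.Agent.R017.E3T2579 (wL w1L)
open Crest.Agent.R017.E3F548 (pc MPTr isC_ne)
open Crest.Agent.R017.Mode405
open Crest.Agent.R017.E3Sw290 (TU MBU kZ)
open Crest.Agent.R017.E3Sy290
open Crest.Agent.R017.E3Z548
open Crest.Agent.R017.E3Sz579
open Crest.Agent.R017.E3Ha290 Crest.Agent.R017.E3Hb290 Crest.Agent.R017.E3Hc290
open Crest.Agent.R017.E3Hd290 Crest.Agent.R017.E3Hg290
open Crest.Agent.R017.ROX744 Crest.Agent.R017.E3Sx744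
open Crest.Agent.R017.Rsx72 (Cnd)

/-- the `R`-number at `(d, e)` in classes, first form -/
def RNXF (c K V X : ℝ) (H : Eis → Eis → ℝ) (W0 : Bool → Eis → Eis → ℝ → ℝ) (d e : Eis) : ℝ :=
  (nm d : ℝ) ^ (2 / 3 : ℝ) * nm e * ((if 1 ≤ Ld K V (H d e) d then
    Real.sqrt (Ld K V (H d e) d) + Md c K V (H d e) X d else 0) *
      W0 false d e (c * (X * V * H d e / K)) +
    (if 1 ≤ Ld K V (H d e) d then Mxd c K V (H d e) X d else 0) *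
      W0 true d e (c * (X * V * H d e / K)))

lemma RNXF_nonneg {c K V X : ℝ} {H : Eis → Eis → ℝ} {W0 : Bool → Eis → Eis → ℝ → ℝ} {d e : Eis}
    (hM : 0 ≤ Md c K V (H d e) X d) (hMx : 0 ≤ Mxd c K V (H d e) X d)
    (hW : ∀ jj, 0 ≤ W0 jj d e (c * (X * V * H d e / K))) :
    0 ≤ RNXF c K V X H W0 d e := by
  have h1 := hW false
  have h2 := hW true
  unfold RNXF
  split_ifs <;> positivity

set_option maxHeartbeats 4000000 in
/-- **one pair of levels from (RH), in classes**, `H` a function of `(d, e)` per side -/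
theorem PAIR_RHFx {Rw : ℝ} (hRw : 0 ≤ Rw) {h : ℝ → ℝ} (hh : ContDiff ℝ ∞ h)
    (hhc : HasCompactSupport h) {w1 : ℝ → ℝ} (hW1 : Wgt w1)
    (hw : ∀ x, w1 x ≠ 0 → 0 < x ∧ |Real.log x| ≤ Rw)
    (hw1 : ∀ x, 0 < x → h (Real.log x) ≠ 0 → w1 x = 1) {R0 : ℝ} (hR0 : 0 ≤ R0) (a A₁ : ℕ)
    (hA₁ : 1 < A₁) {b₀ : ℝ} (hb₀ : 0 ≤ b₀) {ε : ℝ} (hε : 0 < ε) (hε1 : ε ≤ 1) :
    ∃ (A₀ : ℕ) (c : ℝ), 1 ≤ c ∧ ∀ A : ℕ, A₀ ≤ A → ∀ Bw : ℕ, 4 ≤ Bw → ∃ C : ℝ, 0 ≤ C ∧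
    ∀ (Om Om' : ℝ → ℂ) (Mb : ℝ), 0 ≤ Mb → ContDiff ℝ ∞ Om → ContDiff ℝ ∞ Om' →
      (∀ n ≤ A + 2, ∀ x, ‖iteratedDeriv n Om x‖ ≤ Mb) →
      (∀ n ≤ A + 2, ∀ x, ‖iteratedDeriv n Om' x‖ ≤ Mb) →
    ∀ (V V' τ : ℝ) (κ κ' : ℂ), 0 < V → 0 < V' → ‖κ‖ ≤ 1 → ‖κ'‖ ≤ 1 →
    ∀ (Z : ℝ), 1 ≤ Z → ∀ (Pr : Yp → Yp → Prop) (J : Finset (Eis × Eis))
      (om om' : Eis × Eis → ℂ) (af : Eis → Eis → Eis → ℂ) (EE : Finset Eis)
      (E0 E1 R B K X G1 G1' : ℝ) (H H' : Eis → Eis → ℝ) (u : Eis)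
      (W0 W0' : Bool → Eis → Eis → ℝ → ℝ),
      u ≠ 0 → (∀ p, IsPrim p → IsCoprime u p) →
      TC (T3 af) → (∀ d e, FS (af d e)) → OKJ J → (∀ d e, e ∉ EE → ∀ j, T3 af d e j = 0) →
      0 < K → 0 ≤ R → R ≤ Z → 0 ≤ B → B ≤ Z → 0 ≤ E1 → E1 ≤ Z →
      (∀ x ∈ J, (nm x.1 : ℝ) ≤ Z) → (∀ x ∈ J, (nm x.2 : ℝ) ≤ R) →
      WQ J om E0 R (wL κ h Om τ V) → WQ J om' E0 R (wL κ' h Om' τ V') →
      0 < X → (∀ d e, 0 < H d e) → (∀ d e, 0 < H' d e) → 0 ≤ G1 → 0 ≤ G1' →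
      K ≤ Z ^ 5 → X ≤ Z ^ 5 → c * V ≤ Z ^ 5 → c * V' ≤ Z ^ 5 →
      (∀ d ∈ S (Z ^ 5), ∀ e ∈ EE, c * (H d e * V ^ 2) ≤ K * X) →
      (∀ d ∈ S (Z ^ 5), ∀ e ∈ EE, c * (H' d e * V' ^ 2) ≤ K * X) →
      (Real.sqrt (c * V) ≤ G1 ∨ (ClsP Pr J E0 R ∧ 1 ≤ G1)) →
      (Real.sqrt (c * V') ≤ G1' ∨ (ClsP Pr J E0 R ∧ 1 ≤ G1')) →
      (∀ d ∈ S (Z ^ 5), ∀ e ∈ EE, ∀ n, af d e n ≠ 0 → Squarefree n) →
      (∀ d ∈ S (Z ^ 5), ∀ e ∈ EE, ∀ n, af d e n ≠ 0 →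
        |Real.log (nm d * nm n) - Real.log X| ≤ R0) →
      (∀ jj d e, Slp a (W0 jj d e)) → (∀ jj d e, Slp a (W0' jj d e)) →
      RHdx (Z ^ 5) (c * Z ^ 200) A₁ EE af u W0 → RHdx (Z ^ 5) (c * Z ^ 200) A₁ EE af u W0' →
      ∑ q ∈ S R, ∑ t ∈ pb E1, MPTr Pr A Bw K B V V' (Z ^ 5) J om om' (T3 af) E0 R b₀ q t ≤
        C * Mb ^ 2 * (1 + |τ|) ^ A * Z ^ ε * (hE EE *
          (LVH af (J.image Prod.fst) EE c (Z ^ 5) K H V V' E1 B G1 (RNXF c K V X H W0) +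
          LVH af (J.image Prod.fst) EE c (Z ^ 5) K H' V' V E1 B G1' (RNXF c K V' X H' W0'))) := by
  -- the constants
  obtain ⟨cs, hcsd⟩ : ∃ cs, cs = Real.exp Rw := ⟨_, rfl⟩
  have hcs : 1 ≤ cs := by rw [hcsd]; exact Real.one_le_exp hRw
  have hcs0 : 0 < cs := by linarith
  have hwcs : Wgt (fun y => w1 (cs * y)) := by
    have h1 := hW1.scale (A := cs⁻¹) (by positivity)
    have e : (fun x => w1 (x / cs⁻¹)) = fun y => w1 (cs * y) := by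
      funext x
      rw [div_inv_eq_mul, mul_comm]
    rwa [e] at h1
  have hw1' : ∀ y, w1 (cs * y) ≠ 0 → y ≤ 1 := fun y hy => w_le hw hcsd.ge hy
  set η : ℝ := ε / 402 with hη
  have hη0 : 0 < η := by positivity
  have hη1 : η ≤ 1 := by rw [hη]; linarith
  obtain ⟨C0, c₁, cw, C₂, A₀, hC0, hc₁, hcw, hC₂, hMB⟩ :=
    MB12x_of hcs hwcs hw1' hR0 a A₁ hA₁ hη0
  obtain ⟨CR, hCR, hPZ⟩ := RPHx_of hη0
  obtain ⟨CZ, hCZd⟩ : ∃ CZ, CZ = kZ 59049 b₀ + Real.exp R0 + 1 := ⟨_, rfl⟩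
  have hkZ : 0 ≤ kZ 59049 b₀ := by unfold E3Sw290.kZ; positivity
  have hCZ1 : 1 ≤ CZ := by rw [hCZd]; linarith [Real.exp_pos R0]
  have he2 : 1 ≤ Real.exp (2 * R0) + 1 := by linarith [Real.exp_pos (2 * R0)]
  obtain ⟨cw', hcwd⟩ : ∃ cw', cw' = cw * c₁ * (Real.exp (2 * R0) + 1) * CZ ^ 4 := ⟨_, rfl⟩
  have p1 : 1 ≤ cw * c₁ := one_le_mul_of_one_le_of_one_le hcw hc₁
  have p2 : 1 ≤ cw * c₁ * (Real.exp (2 * R0) + 1) := one_le_mul_of_one_le_of_one_le p1 he2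
  have p3 : 1 ≤ CZ ^ 4 := one_le_pow₀ hCZ1
  have hcw' : 1 ≤ cw' := by rw [hcwd]; exact one_le_mul_of_one_le_of_one_le p2 p3
  have q1 : cw ≤ cw' := by
    rw [hcwd, mul_assoc, mul_assoc]
    refine le_mul_of_one_le_right (by linarith) ?_
    exact one_le_mul_of_one_le_of_one_le hc₁ (one_le_mul_of_one_le_of_one_le he2 p3)
  have q2 : c₁ ≤ cw' := by
    rw [hcwd, mul_assoc, mul_assoc, mul_left_comm]
    refine le_mul_of_one_le_right (by linarith) ?_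
    exact one_le_mul_of_one_le_of_one_le hcw (one_le_mul_of_one_le_of_one_le he2 p3)
  have q3 : Real.exp (2 * R0) + 1 ≤ cw' := by
    rw [hcwd]
    calc Real.exp (2 * R0) + 1 ≤ (cw * c₁) * (Real.exp (2 * R0) + 1) :=
          le_mul_of_one_le_left (by linarith) p1
      _ ≤ _ := le_mul_of_one_le_right (by linarith) p3
  have q4 : CZ ^ 4 ≤ cw' := by
    rw [hcwd]
    exact le_mul_of_one_le_left (by linarith) p2
  obtain ⟨c, hcd⟩ : ∃ c, c = cw' * cs := ⟨_, rfl⟩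
  have hcwc : cw' ≤ c := by rw [hcd]; exact le_mul_of_one_le_right (by linarith) hcs
  have hcsc : cs ≤ c := by rw [hcd]; exact le_mul_of_one_le_left (by linarith) hcw'
  have hc1 : 1 ≤ c := hcw'.trans hcwc
  refine ⟨A₀ + 2, c, hc1, ?_⟩
  intro A hA Bw hBw
  obtain ⟨C, hC, hP⟩ := PAIRF (A := A) (Bw := Bw) (by omega) hBw hRw hh hhc hw hw1 (cw := cw')
    (cs := cs) (b₀ := b₀) hcw' hcs hcsd.ge hb₀ hη0 hη1
  refine ⟨C * (C0 * cs ^ 2) * ((1 + C₂) * CZ ^ 4) * (3 + CR), by positivity, ?_⟩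
  intro Om Om' Mb hMb hOm hOm' hOb hOb' V V' τ κ κ' hV hV' hκ hκ' Z hZ Pr J om om' af EE E0 E1 R B
    K X G1 G1' H H' u W0 W0' hu huc hT haf hJ hEE hK hR0' hRZ hB0 hBZ hE10 hE1 hJ1 hJ2 hwq hwq' hX
    hH hH' hG1 hG1' hKz hXz hVz hVz' hKX hKX' hcl hcl' hsf hwin hS hS' hRH hRH'
  have hZ0 : 0 < Z := by linarith
  have hz : 1 ≤ Z ^ 5 := one_le_pow₀ hZ
  obtain ⟨Zm, hZmd⟩ : ∃ Zm, Zm = CZ * Z ^ 50 := ⟨_, rfl⟩
  have h50 : 1 ≤ Z ^ 50 := one_le_pow₀ hZ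
  have hZm : 1 ≤ Zm := by rw [hZmd]; exact one_le_mul_of_one_le_of_one_le hCZ1 h50
  have hZm50 : Z ^ 50 ≤ Zm := by
    rw [hZmd]; exact le_mul_of_one_le_left (by positivity) hCZ1
  have hz50 : Z ^ 5 ≤ Z ^ 50 := pow_le_pow_right₀ hZ (by norm_num)
  have hz5 : (Z ^ 5) ^ 5 ≤ Zm := by
    rw [← pow_mul]
    exact (pow_le_pow_right₀ hZ (by norm_num)).trans hZm50
  have hkZm : kZ 59049 b₀ * (Z ^ 5) ^ 10 ≤ Zm := by
    rw [hZmd, ← pow_mul]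
    refine mul_le_mul_of_nonneg_right ?_ (by positivity)
    rw [hCZd]; linarith [Real.exp_pos R0]
  have hXm : (Z ^ 5) ^ 3 * (Real.exp R0 * X) ≤ Zm := by
    have h1 : Real.exp R0 ≤ CZ := by rw [hCZd]; linarith
    calc (Z ^ 5) ^ 3 * (Real.exp R0 * X) ≤ (Z ^ 5) ^ 3 * (CZ * Z ^ 5) := by gcongr
      _ = CZ * Z ^ 20 := by ring
      _ ≤ CZ * Z ^ 50 := by
          refine mul_le_mul_of_nonneg_left ?_ (by linarith)
          exact pow_le_pow_right₀ hZ (by norm_num)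
      _ = Zm := hZmd.symm
  have hπ : Zm ^ 4 ≤ c * Z ^ 200 := by
    rw [hZmd, mul_pow, ← pow_mul]
    exact mul_le_mul_of_nonneg_right (q4.trans hcwc) (by positivity)
  have hcsV : ∀ V : ℝ, 0 < V → c * V ≤ Z ^ 5 → cs * V ≤ Zm := fun V hV h =>
    ((mul_le_mul_of_nonneg_right hcsc hV.le).trans h).trans (hz50.trans hZm50)
  have hKXs : ∀ H V : ℝ, 0 < H → 0 < V → c * (H * V ^ 2) ≤ K * X →
      H * V ^ 2 * Real.exp (2 * R0) < K * X := by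
    intro H V hH hV h
    have h1 : 0 < H * V ^ 2 := by positivity
    have h2 : (Real.exp (2 * R0) + 1) * (H * V ^ 2) ≤ c * (H * V ^ 2) :=
      mul_le_mul_of_nonneg_right (q3.trans hcwc) h1.le
    nlinarith
  have hc0 : 0 < c := by linarith
  have hCZm : 0 ≤ C₂ * Zm ^ η := by positivity
  have hAA : ((A₀ : ℕ) : ℝ) ≤ (A : ℝ) := by exact_mod_cast (by omega : A₀ ≤ A)
  -- the structured numbers of one side
  obtain ⟨BB, hBB⟩ : ∃ BB : ℝ → (Eis → Eis → ℝ) → (Bool → Eis → Eis → ℝ → ℝ) → UT → ℝ,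
      BB = fun V H W0 t => BsX cs K V (H t.1 t.2.1) X
        (fun d e => C₂ * Zm ^ η * W0 false d e (c * (X * V * H d e / K)))
        (fun d e => C₂ * Zm ^ η * W0 true d e (c * (X * V * H d e / K))) t := ⟨_, rfl⟩
  have hI : ∀ (V : ℝ) (H : Eis → Eis → ℝ), 0 < V → (∀ d e, 0 < H d e) → ∀ d e,
      0 < c * (X * V * H d e / K) := fun V H hV hH d e => by
    have := hH d e
    positivity
  have hn : ∀ (V : ℝ) (H : Eis → Eis → ℝ) (W0 : Bool → Eis → Eis → ℝ → ℝ), 0 < V →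
      (∀ d e, 0 < H d e) → (∀ jj d e, Slp a (W0 jj d e)) → ∀ jj d e,
      0 ≤ W0 jj d e (c * (X * V * H d e / K)) := fun V H W0 hV hH hS jj d e =>
    (hS jj d e).nonneg _ (hI V H hV hH d e)
  have hn' : ∀ (V : ℝ) (H : Eis → Eis → ℝ) (W0 : Bool → Eis → Eis → ℝ → ℝ), 0 < V →
      (∀ d e, 0 < H d e) → (∀ jj d e, Slp a (W0 jj d e)) → ∀ jj d e,
      0 ≤ C₂ * Zm ^ η * W0 jj d e (c * (X * V * H d e / K)) := fun V H W0 hV hH hS jj d e =>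
    mul_nonneg hCZm (hn V H W0 hV hH hS jj d e)
  have hB0' : ∀ (V : ℝ) (H : Eis → Eis → ℝ) (W0 : Bool → Eis → Eis → ℝ → ℝ), 0 < V →
      (∀ d e, 0 < H d e) → (∀ jj d e, Slp a (W0 jj d e)) → ∀ t, 0 ≤ BB V H W0 t := by
    intro V H W0 hV hH hS t
    rw [hBB]
    exact BsX_nonneg hcs hK hV (hH _ _) hX (hn' V H W0 hV hH hS false)
      (hn' V H W0 hV hH hS true) t
  have hMX : ∀ (χ : Eis → ℂ), MBstx χ (fun y => w1 (cs * y)) R0 a A₁ η cs C0 c₁ cw C₂ A₀ →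
      ∀ (V : ℝ) (H : Eis → Eis → ℝ) (W0 : Bool → Eis → Eis → ℝ → ℝ), 0 < V →
      (∀ d e, 0 < H d e) → (∀ jj d e, Slp a (W0 jj d e)) → c * V ≤ Z ^ 5 →
      (∀ d ∈ S (Z ^ 5), ∀ e ∈ EE, c * (H d e * V ^ 2) ≤ K * X) →
      RHdx (Z ^ 5) (c * Z ^ 200) A₁ EE af u W0 → ∀ t, TU (Z ^ 5) EE t →
      MBU χ (fun y => w1 (cs * y)) A η C0 cw' cs K V (H t.1 t.2.1) af (BB V H W0) Zm t := by
    intro χ h1 V H W0 hV hH hS hVz hKX hRH t ht
    have h2 := MBstx_mono hcs hC0.le hc₁ hcw hC₂ le_rfl (q2.trans hcwc) q1 le_rfl le_rfl h1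
    have hIt := hI V H hV hH t.1 t.2.1
    have h3 := h2 A hAA (Z ^ 5) Zm K V (H t.1 t.2.1) X hz hz5 hK hV (hH _ _) hX
      (hKXs _ V (hH _ _) hV (hKX t.1 ht.d t.2.1 ht.e)) (hcsV V hV hVz) hXm EE
      af haf hsf hwin u hu huc W0 hS (fun jj d hd e he γ π hγ hπ' hn P hP =>
        hRH jj d hd e he γ π hγ hπ' (hn.trans hπ) P hP) t ht
    rw [hBB]
    exact h3
  have hM1 : MB1H w1 A η C0 cw' cs K V H af (Z ^ 5) EE (BB V H W0) Zm := by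
    intro k k' hk hk' t ht hY
    exact hMX _ (hMB (k, k') (by rw [mem_product, mem_Cs, mem_Cs]; exact ⟨hk, hk'⟩)).1 V H W0 hV hH
      hS hVz hKX hRH t ht
  have hM2 : MB2H w1 A η C0 cw' cs K V' H' af (Z ^ 5) EE (BB V' H' W0') Zm := by
    intro k k' hk hk' t ht hY
    exact hMX _ (hMB (k, k') (by rw [mem_product, mem_Cs, mem_Cs]; exact ⟨hk, hk'⟩)).2 V' H' W0'
      hV' hH' hS' hVz' hKX' hRH' t ht
  have hne : ∀ d ∈ J.image Prod.fst, d ≠ 0 := by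
    intro d hd
    obtain ⟨y, hy, rfl⟩ := mem_image.mp hd
    exact (hJ.prim y hy).ne_zero
  obtain ⟨ρ, hρd⟩ : ∃ ρ, ρ = CR * (Z ^ 5) ^ η := ⟨_, rfl⟩
  have hρ0 : 0 ≤ ρ := by rw [hρd]; positivity
  have hρ1 : 3 + ρ ≤ (3 + CR) * Z ^ (ε / 2) := by
    have e1 : (Z ^ 5) ^ η = Z ^ (5 * η) := by
      rw [← Real.rpow_natCast, ← Real.rpow_mul hZ0.le]
      push_cast; rfl
    have e2 : Z ^ (5 * η) ≤ Z ^ (ε / 2) := by
      refine Real.rpow_le_rpow_of_exponent_le hZ ?_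
      rw [hη]; linarith
    have e3 : 1 ≤ Z ^ (ε / 2) := Real.one_le_rpow hZ (by positivity)
    rw [hρd, e1]
    nlinarith
  have hRP : ∀ (V : ℝ) (H : Eis → Eis → ℝ) (W0 : Bool → Eis → Eis → ℝ → ℝ), 0 < V →
      (∀ d e, 0 < H d e) → (∀ jj d e, Slp a (W0 jj d e)) →
      RPH J EE (Z ^ 5) K H V (BB V H W0) ρ
        (fun d e => (C₂ * Zm ^ η) * RNXF c K V X H W0 d e) := by
    intro V H W0 hV hH hS
    have k := hPZ (Z ^ 5) hz J EE K V H (fun d e => Ld K V (H d e) d)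
      (fun d e => Md c K V (H d e) X d) (fun d e => Mxd c K V (H d e) X d)
      (fun d e => C₂ * Zm ^ η * W0 false d e (c * (X * V * H d e / K)))
      (fun d e => C₂ * Zm ^ η * W0 true d e (c * (X * V * H d e / K)))
      (BB V H W0) hK.le (fun d e => (hH d e).le) hV.le (hn' V H W0 hV hH hS false)
      (hn' V H W0 hV hH hS true)
      (fun d e => Ld_nonneg hK (hH d e) d) (fun d e => Md_nonneg hc0.le hK hV (hH d e) hX d)
      (fun d e => Mxd_nonneg hc0.le hK hV (hH d e) hX d)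
      (fun t ht hd he => by
        have k := BsX_b (c := c) hcs hcsc (by positivity) hK hV (hH t.1 t.2.1) hX
          (hn' V H W0 hV hH hS false) (hn' V H W0 hV hH hS true) ht (hne _ hd)
        rw [hBB]
        exact k)
    rw [← hρd] at k
    have e : (fun d e => (C₂ * Zm ^ η) * RNXF c K V X H W0 d e) = fun d e =>
        (nm d : ℝ) ^ (2 / 3 : ℝ) * nm e *
        ((if 1 ≤ Ld K V (H d e) d then Real.sqrt (Ld K V (H d e) d) + Md c K V (H d e) X d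
          else 0) * (C₂ * Zm ^ η * W0 false d e (c * (X * V * H d e / K))) +
          (if 1 ≤ Ld K V (H d e) d then Mxd c K V (H d e) X d else 0) *
            (C₂ * Zm ^ η * W0 true d e (c * (X * V * H d e / K)))) := by
      funext d e
      unfold RNXF
      ring
    rw [e]
    exact k
  have nR : ∀ d e, 0 ≤ RNXF c K V X H W0 d e := fun d e =>
    RNXF_nonneg (Md_nonneg hc0.le hK hV (hH d e) hX d) (Mxd_nonneg hc0.le hK hV (hH d e) hX d)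
      (fun jj => hn V H W0 hV hH hS jj d e)
  have nR' : ∀ d e, 0 ≤ RNXF c K V' X H' W0' d e := fun d e =>
    RNXF_nonneg (Md_nonneg hc0.le hK hV' (hH' d e) hX d)
      (Mxd_nonneg hc0.le hK hV' (hH' d e) hX d) (fun jj => hn V' H' W0' hV' hH' hS' jj d e)
  have key := hP Om Om' Mb hMb hOm hOm' hOb hOb' V V' τ κ κ' hV hV' hκ hκ' Z hZ Pr J om om' af EE
    E0 E1 R B K X G1 G1' C0 Zm ρ H H' (fun d e => (C₂ * Zm ^ η) * RNXF c K V X H W0 d e)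
    (fun d e => (C₂ * Zm ^ η) * RNXF c K V' X H' W0' d e)
    (BB V H W0) (BB V' H' W0') hT haf hJ hEE hK hR0' hRZ hB0 hBZ hE10 hE1 hJ1 hJ2
    hwq hwq' hX hH hH' hC0 hG1 hG1' hKz (by rw [← hcd]; exact hVz) (by rw [← hcd]; exact hVz') hZm
    hkZm (by rw [← hcd]; exact hcl) (by rw [← hcd]; exact hcl') (hB0' V H W0 hV hH hS)
    (hB0' V' H' W0' hV' hH' hS') hM1 hM2 hρ0
    (fun d e => mul_nonneg hCZm (nR d e)) (fun d e => mul_nonneg hCZm (nR' d e))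
    (hRP V H W0 hV hH hS) (hRP V' H' W0' hV' hH' hS')
  rw [← hcd] at key
  refine key.trans ?_
  -- the numbers
  have l1 := LVH_smul (af := af) (Ds := J.image Prod.fst) (EE := EE) (c := c) (Y := Z ^ 5)
    (RN := RNXF c K V X H W0) (k := C₂ * Zm ^ η) hK hH hV hV' hE10 hB0 hG1 nR hCZm
  have l2 := LVH_smul (af := af) (Ds := J.image Prod.fst) (EE := EE) (c := c) (Y := Z ^ 5)
    (RN := RNXF c K V' X H' W0') (k := C₂ * Zm ^ η) hK hH' hV' hV hE10 hB0 hG1' nR' hCZm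
  have ly1 := LVH_nonneg (af := af) (Ds := J.image Prod.fst) (EE := EE) (c := c) (Y := Z ^ 5)
    (E1 := E1) (B := B) hK.le (fun d e => (hH d e).le) hV.le hV'.le hE10 hG1 nR
  have ly2 := LVH_nonneg (af := af) (Ds := J.image Prod.fst) (EE := EE) (c := c) (Y := Z ^ 5)
    (E1 := E1) (B := B) hK.le (fun d e => (hH' d e).le) hV'.le hV.le hE10 hG1' nR'
  have hz1 := Z_exp (Z := Z) (CZ := CZ) (C₂ := C₂) (η := η) (ε := ε / 2) hZ hCZ1 hC₂ hη0 hη1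
    (by rw [hη]; linarith)
  rw [← hZmd] at hz1
  generalize LVH af (J.image Prod.fst) EE c (Z ^ 5) K H V V' E1 B G1
    (fun d e => (C₂ * Zm ^ η) * RNXF c K V X H W0 d e) = x1 at *
  generalize LVH af (J.image Prod.fst) EE c (Z ^ 5) K H' V' V E1 B G1'
    (fun d e => (C₂ * Zm ^ η) * RNXF c K V' X H' W0' d e) = x2 at *
  generalize LVH af (J.image Prod.fst) EE c (Z ^ 5) K H V V' E1 B G1 (RNXF c K V X H W0) = y1 at *
  generalize LVH af (J.image Prod.fst) EE c (Z ^ 5) K H' V' V E1 B G1'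
    (RNXF c K V' X H' W0') = y2 at *
  have hfin := fin_alg (cs := cs) (F := Mb ^ 2 * (1 + |τ|) ^ A * (3 + ρ)) (a := Zm ^ (3 * η))
    (b := Z ^ η) hC hC0.le (hE_nonneg EE) (by positivity) (by positivity) l1 l2 hz1 ly1 ly2
  have hhE := hE_nonneg EE
  have hlast : C * (C0 * cs ^ 2) * ((1 + C₂) * CZ ^ 4 * Z ^ (ε / 2)) *
      (Mb ^ 2 * (1 + |τ|) ^ A * (3 + ρ)) * (hE EE * (y1 + y2)) ≤
      C * (C0 * cs ^ 2) * ((1 + C₂) * CZ ^ 4 * Z ^ (ε / 2)) *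
      (Mb ^ 2 * (1 + |τ|) ^ A * ((3 + CR) * Z ^ (ε / 2))) * (hE EE * (y1 + y2)) := by
    refine mul_le_mul_of_nonneg_right ?_ (by positivity)
    refine mul_le_mul_of_nonneg_left ?_ (by positivity)
    exact mul_le_mul_of_nonneg_left hρ1 (by positivity)
  have ehalf : Z ^ ε = Z ^ (ε / 2) * Z ^ (ε / 2) := by
    rw [← Real.rpow_add hZ0]; congr 1; ring
  rw [ehalf]
  refine le_trans (le_of_eq ?_) (hfin.trans (hlast.trans (le_of_eq ?_))) <;> ring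

end Crest.Agent.R017.E3Hh290
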