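import Crest.Agent.R017.E3Xb_72

/-!
# Row 17, T.7 (class E), E3: both forms of the structured number of a character, in classes
(helper72)

* `S1hx_mono`, `S2hx_mono`, `S1hx_sum`, `S2hx_sum`
* `S12xs`, `S12x_of` : the two forms with the same constants
-/

set_option autoImplicit false
set_option linter.unusedVariables false

noncomputable section

open Complex MeasureTheory Finset
open scoped ComplexConjugate Classical

namespace Crest.Agent.R017.E3Xa72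

open Crest.Agent.R012 Crest.Agent.R012.Eis Crest.Agent.R012.MC
open Crest.Agent.R012.LS2 (S mem_S bl mem_bl)
open Crest.Agent.R017.CM106 (CS TG FS)
open Crest.Agent.R017.GrB829 (IsC)
open Crest.Agent.R017.PX764 (n6)
open Crest.Agent.R017.E1551 (nmpos)
open Crest.Agent.R017.E3T829 (Cd UT SU kU kU_nonneg F2)
open Crest.Agent.R017.Mode405
open Crest.Agent.R017.E3Sx579
open Crest.Agent.R017.MX744
open Crest.Agent.R017.ROX744
open Crest.Agent.R017.PoHx72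
open Crest.Agent.R017.Rsx72 (Cnd prT prT_nonneg S1hx S2hx)

lemma S1hx_mono {z : ℝ} {R : Finset (Eis × Eis)} {L M Mx M' Mx' : Eis → ℝ}
    {W1 Wx W1' Wx' : Eis → Eis → ℝ} {Bs : UT → ℝ} (hM : ∀ d, 0 ≤ M d) (hMx : ∀ d, 0 ≤ Mx d)
    (hMM : ∀ d, M d ≤ M' d) (hMMx : ∀ d, Mx d ≤ Mx' d) (hW : ∀ d e, 0 ≤ W1 d e)
    (hWx : ∀ d e, 0 ≤ Wx d e) (hWW : ∀ d e, W1 d e ≤ W1' d e) (hWWx : ∀ d e, Wx d e ≤ Wx' d e)
    (h : S1hx z R L M Mx W1 Wx Bs) : S1hx z R L M' Mx' W1' Wx' Bs := by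
  intro t ht htR
  refine (h t ht htR).trans ?_
  have hk := kU_nonneg t
  have h1 := hM t.1
  have h2 := hMx t.1
  have h3 := hMM t.1
  have h4 := hMMx t.1
  have h5 := hW t.1 t.2.1
  have h6 := hWx t.1 t.2.1
  have h7 := hWW t.1 t.2.1
  have h8 := hWWx t.1 t.2.1
  split_ifs
  · have h9 : 0 ≤ M' t.1 := h1.trans h3
    have h10 : 0 ≤ Mx' t.1 := h2.trans h4
    gcongr
  · exact le_rfl

lemma prT_mono {L Mx Mx' : Eis → ℝ} {Wx Wx' : Eis → Eis → ℝ} (hMx : ∀ d, 0 ≤ Mx d)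
    (hMMx : ∀ d, Mx d ≤ Mx' d) (hWx : ∀ d e, 0 ≤ Wx d e) (hWWx : ∀ d e, Wx d e ≤ Wx' d e)
    (t : UT) : prT L Mx Wx t ≤ prT L Mx' Wx' t := by
  unfold Rsx72.prT
  have hk := kU_nonneg t
  have h2 := hMx t.1
  have h4 := hMMx t.1
  have h6 := hWx t.1 t.2.1
  have h8 := hWWx t.1 t.2.1
  split_ifs
  · have h10 : 0 ≤ Mx' t.1 := h2.trans h4
    gcongr
  · exact le_rfl

lemma S2hx_mono {z : ℝ} {R : Finset (Eis × Eis)} {L Mx Mx' : Eis → ℝ} {I : ℝ}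
    {W1 Wx W1' Wx' : Eis → Eis → ℝ} {Bs : UT → ℝ} (hL : ∀ d, 0 ≤ L d) (hI : 0 ≤ I)
    (hMx : ∀ d, 0 ≤ Mx d) (hMMx : ∀ d, Mx d ≤ Mx' d) (hWx : ∀ d e, 0 ≤ Wx d e)
    (hWW : ∀ d e, W1 d e ≤ W1' d e) (hWWx : ∀ d e, Wx d e ≤ Wx' d e)
    (h : S2hx z R L Mx I W1 Wx Bs) : S2hx z R L Mx' I W1' Wx' Bs := by
  intro ρ hρ q hq c hc g hg F hF Δ hΔ Kp hKp
  refine (h ρ hρ q hq c hc g hg F hF Δ hΔ Kp hKp).trans (add_le_add ?_ ?_)
  · refine mul_le_mul_of_nonneg_left (hWW _ _) ?_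
    have := hL ρ.1
    unfold E3T829.F2
    positivity
  · exact sum_le_sum fun κ _ => prT_mono hMx hMMx hWx hWWx _

lemma S1hx_sum {ι : Type} {s : Finset ι} {z : ℝ} {R : Finset (Eis × Eis)} {L M Mx : Eis → ℝ}
    {k : ι → ℝ} {W Wx : Eis → Eis → ℝ} {Bs : ι → UT → ℝ}
    (h : ∀ i ∈ s, S1hx z R L M Mx (fun d e => k i * W d e) (fun d e => k i * Wx d e) (Bs i)) :
    S1hx z R L M Mx (fun d e => (∑ i ∈ s, k i) * W d e) (fun d e => (∑ i ∈ s, k i) * Wx d e)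
      (fun t => ∑ i ∈ s, Bs i t) := by
  intro t ht htR
  refine (sum_le_sum fun i hi => h i hi t ht htR).trans (le_of_eq ?_)
  split_ifs
  · beta_reduce
    rw [sum_add_distrib, sum_mul, sum_mul, mul_sum, mul_sum]
  · exact sum_const_zero

lemma S2hx_sum {ι : Type} {s : Finset ι} {z : ℝ} {R : Finset (Eis × Eis)} {L Mx : Eis → ℝ} {I : ℝ}
    {k : ι → ℝ} {W Wx : Eis → Eis → ℝ} {Bs : ι → UT → ℝ}
    (h : ∀ i ∈ s, S2hx z R L Mx I (fun d e => k i * W d e) (fun d e => k i * Wx d e) (Bs i)) :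
    S2hx z R L Mx I (fun d e => (∑ i ∈ s, k i) * W d e) (fun d e => (∑ i ∈ s, k i) * Wx d e)
      (fun t => ∑ i ∈ s, Bs i t) := by
  intro ρ hρ q hq c hc g hg F hF Δ hΔ Kp hKp
  rw [sum_comm]
  refine (sum_le_sum fun i hi => h i hi ρ hρ q hq c hc g hg F hF Δ hΔ Kp hKp).trans (le_of_eq ?_)
  rw [sum_add_distrib]
  congr 1
  · beta_reduce
    rw [sum_mul, mul_sum]
  · rw [sum_comm]
    refine sum_congr rfl fun κ _ => ?_
    unfold Rsx72.prT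
    split_ifs
    · beta_reduce
      rw [sum_mul, mul_sum]
    · exact sum_const_zero

/-- the two forms of the number of a character -/
def S12xs (χ : Eis → ℂ) (w : ℝ → ℝ) (R0 : ℝ) (a A : ℕ) (ε cs C c : ℝ) (A₀ : ℕ) : Prop :=
  ∀ A' : ℝ, (A₀ : ℝ) ≤ A' →
      ∀ z Zm K V H X : ℝ, 1 ≤ z → 2 * z ^ 5 ≤ Zm → 0 < K → 0 < V → 0 < H → 0 < X →
      c * (H * V ^ 2) ≤ K * X → 2 * (cs * V) ≤ Zm → 2 * z ^ 2 * (Real.exp R0 * X) ≤ Zm →
      ∀ (R : Finset (Eis × Eis)) (af : Eis → Eis → Eis → ℂ), (∀ ρ ∈ R, FS (af ρ.1 ρ.2)) →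
      (∀ ρ ∈ R, ∀ n, af ρ.1 ρ.2 n ≠ 0 → Squarefree n) →
      (∀ ρ ∈ R, ∀ n, af ρ.1 ρ.2 n ≠ 0 → |Real.log (nm ρ.1 * nm n) - Real.log X| ≤ R0) →
      ∀ u : Eis, u ≠ 0 → (∀ p, IsPrim p → IsCoprime u p) →
      ∀ W0 : Bool → Eis → Eis → ℝ → ℝ, (∀ jj d e, Slp a (W0 jj d e)) →
      (∀ jj, ∀ ρ ∈ R, ∀ γ π, IsPrim γ → IsPrim π → (nm π : ℝ) ≤ Zm ^ 4 →
        ∀ P : ℝ, 0 < P → (nm γ : ℝ) * n6 γ ^ 2 * ∑ r ∈ (bl P).filter (Cls (PrU u) jj),
          R3571.RMm A (af ρ.1 ρ.2) ρ.2 γ π r ≤ W0 jj ρ.1 ρ.2 P) →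
      (∀ ρ ∈ R, ρ.1 ≠ 0) →
      S1hx z R (fun d => H * V ^ 2 / (K * nm d))
        (fun d => cs * (H * V ^ 2 / (K * nm d)) * (X * V * H / K) ^ (-(1 / 2) : ℝ))
        (fun d => 4 * cs * (H * V ^ 2 / (K * nm d)) * (X * V * H / K) ^ (-(2 / 3) : ℝ))
        (fun d e => C * Zm ^ (2 * ε) * W0 false d e (c * (X * V * H / K)))
        (fun d e => C * Zm ^ (2 * ε) * W0 true d e (c * (X * V * H / K)))
        (BsQt ε χ w A' cs K V H af) ∧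
      S2hx z R (fun d => H * V ^ 2 / (K * nm d))
        (fun d => 4 * cs * (H * V ^ 2 / (K * nm d)) * (X * V * H / K) ^ (-(2 / 3) : ℝ))
        (X * V * H / K)
        (fun d e => C * Zm ^ (2 * ε) * W0 false d e (c * (X * V * H / K)))
        (fun d e => C * Zm ^ (2 * ε) * W0 true d e (c * (X * V * H / K)))
        (BsQt ε χ w A' cs K V H af)

set_option maxHeartbeats 400000 in
/-- **both forms of the number of a character, in classes** -/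
theorem S12x_of {χ : Eis → ℂ} {w : ℝ → ℝ} {R0 : ℝ} (hR0 : 0 ≤ R0) {a A : ℕ} {ε : ℝ}
    (h1 : ∃ (C c : ℝ) (A₀ : ℕ), 0 ≤ C ∧ 1 ≤ c ∧ Cel1 χ (w6 w) 1 R0 a A ε C c A₀)
    (h2 : ∃ (C c : ℝ) (A₀ : ℕ), 0 ≤ C ∧ 1 ≤ c ∧ Cel2 χ (w6 w) 1 R0 a A ε C c A₀)
    {cs : ℝ} (hcs : 1 ≤ cs) :
    ∃ (C c : ℝ) (A₀ : ℕ), 0 ≤ C ∧ 1 ≤ c ∧ S12xs χ w R0 a A ε cs C c A₀ := by
  obtain ⟨C1, c1, A1, hC1, hc1, h1⟩ := h1
  obtain ⟨C2, c2, A2, hC2, hc2, h2⟩ := h2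
  have k1 := S1hx_Q hR0 hC1 hc1 h1 hcs
  have k2 := S2hx_Q hR0 hC2 hc2 h2 hcs
  have heR3 := Real.exp_pos (2 * R0 + 3)
  have hC2' : 0 ≤ 144 * cs * C2 := by positivity
  refine ⟨C1 + 144 * cs * C2, c1 + 2 * c2 + (4 * Real.exp (2 * R0 + 3) + 1), A1 + A2,
    by linarith, by linarith, ?_⟩
  obtain ⟨c, hcd⟩ : ∃ c, c = c1 + 2 * c2 + (4 * Real.exp (2 * R0 + 3) + 1) := ⟨_, rfl⟩
  obtain ⟨C, hCd⟩ : ∃ C, C = C1 + 144 * cs * C2 := ⟨_, rfl⟩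
  rw [← hcd, ← hCd]
  intro A' hA' z Zm K V H X hz hz5 hK hV hH hX hKX hVZ hXZ R af haf hsf hwin u hu huc W0 hW0 hRH
    hne
  have hz0 : 0 < z := by linarith
  have hA1 : (A1 : ℝ) ≤ A' := le_trans (by push_cast; linarith [Nat.cast_nonneg (α := ℝ) A2]) hA'
  have hA2 : (A2 : ℝ) ≤ A' := le_trans (by push_cast; linarith [Nat.cast_nonneg (α := ℝ) A1]) hA'
  have hHV : 0 < H * V ^ 2 := by positivity
  have hcsV : 0 < cs * V := by positivity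
  have hz51 : 1 ≤ z ^ 5 := one_le_pow₀ hz
  have hz35 : z ^ 3 ≤ z ^ 5 := pow_le_pow_right₀ hz (by norm_num)
  have hKX2 : 4 * (H * V ^ 2) * Real.exp (2 * R0 + 3) < K * X := by
    have e1 : (4 * Real.exp (2 * R0 + 3) + 1) * (H * V ^ 2) ≤ c * (H * V ^ 2) :=
      mul_le_mul_of_nonneg_right (by rw [hcd]; linarith) hHV.le
    have e2 : (4 * Real.exp (2 * R0 + 3) + 1) * (H * V ^ 2) =
        4 * (H * V ^ 2) * Real.exp (2 * R0 + 3) + H * V ^ 2 := by ring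
    linarith
  have hE : Real.exp (2 * R0) ≤ Real.exp (2 * R0 + 3) := Real.exp_le_exp.mpr (by linarith)
  have hKX1 : H * V ^ 2 * Real.exp (2 * R0) < K * X := by
    refine lt_of_le_of_lt ?_ hKX2
    have h3 : 0 < Real.exp (2 * R0) := Real.exp_pos _
    calc H * V ^ 2 * Real.exp (2 * R0) ≤ (4 * (H * V ^ 2)) * Real.exp (2 * R0) := by
          refine mul_le_mul_of_nonneg_right (by linarith) h3.le
      _ ≤ _ := mul_le_mul_of_nonneg_left hE (by positivity)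
  have hXp : 0 < Real.exp R0 * X := by positivity
  have hZm : 1 ≤ Zm := by linarith
  have hI : 0 < X * V * H / K := by positivity
  have hZ2 : 0 ≤ Zm ^ (2 * ε) := by positivity
  have hz12 : z ≤ z ^ 2 := le_self_pow₀ hz (by norm_num)
  have m1 := k1 A' hA1 z Zm K V H X hz (by linarith) hK hV hH hX hKX1 (by linarith)
    (by
      have : 0 < z ^ 2 * (Real.exp R0 * X) := by positivity
      linarith) R af haf hsf hwin u hu huc W0 hW0 hRH hne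
  have m2 := k2 A' hA2 z Zm K V H X hz (by linarith) hK hV hH hX hKX2 hVZ
    (by
      have : z * (Real.exp R0 * X) ≤ z ^ 2 * (Real.exp R0 * X) :=
        mul_le_mul_of_nonneg_right hz12 hXp.le
      linarith) R af haf hsf hwin u hu huc W0 hW0 hRH
  have hw : ∀ C' c', 0 ≤ C' → 0 < c' → C' ≤ C → c' ≤ c → ∀ jj d e,
      C' * Zm ^ (2 * ε) * W0 jj d e (c' * (X * V * H / K)) ≤
        C * Zm ^ (2 * ε) * W0 jj d e (c * (X * V * H / K)) := by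
    intro C' c' hC' hc' h3 h4 jj d e
    have hcI : 0 < c' * (X * V * H / K) := mul_pos hc' hI
    have k3 : W0 jj d e (c' * (X * V * H / K)) ≤ W0 jj d e (c * (X * V * H / K)) :=
      slp_mono (hW0 jj d e) hcI (mul_le_mul_of_nonneg_right h4 hI.le)
    have k0 := (hW0 jj d e).nonneg _ hcI
    exact mul_le_mul (mul_le_mul_of_nonneg_right h3 hZ2) k3 k0
      (mul_nonneg (hC'.trans h3) hZ2)
  have hw0 : ∀ C' c', 0 ≤ C' → 0 < c' → ∀ jj d e,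
      0 ≤ C' * Zm ^ (2 * ε) * W0 jj d e (c' * (X * V * H / K)) := by
    intro C' c' hC' hc' jj d e
    exact mul_nonneg (mul_nonneg hC' hZ2) ((hW0 jj d e).nonneg _ (mul_pos hc' hI))
  have hcc1 : c1 ≤ c := by rw [hcd]; linarith
  have hcc2 : 2 * c2 ≤ c := by rw [hcd]; linarith
  have hCC1 : C1 ≤ C := by rw [hCd]; linarith
  have hCC2 : 144 * cs * C2 ≤ C := by rw [hCd]; linarith
  have hM : ∀ d : Eis, 0 ≤ cs * (H * V ^ 2 / (K * nm d)) * (X * V * H / K) ^ (-(1 / 2) : ℝ) :=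
    fun d => by positivity
  have hMx : ∀ d : Eis, 0 ≤ cs * (H * V ^ 2 / (K * nm d)) * (X * V * H / K) ^ (-(2 / 3) : ℝ) :=
    fun d => by positivity
  have hMx4 : ∀ d : Eis, 0 ≤ 4 * cs * (H * V ^ 2 / (K * nm d)) *
      (X * V * H / K) ^ (-(2 / 3) : ℝ) := fun d => by positivity
  constructor
  · refine S1hx_mono hM hMx (fun _ => le_rfl) (fun d => ?_) (hw0 C1 c1 hC1 (by linarith) false)
      (hw0 C1 c1 hC1 (by linarith) true) (hw C1 c1 hC1 (by linarith) hCC1 hcc1 false)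
      (hw C1 c1 hC1 (by linarith) hCC1 hcc1 true) m1
    have := hMx d
    linarith
  · exact S2hx_mono (fun d => by positivity) hI.le hMx4 (fun _ => le_rfl)
      (hw0 _ _ hC2' (by linarith) true) (hw _ _ hC2' (by linarith) hCC2 hcc2 false)
      (hw _ _ hC2' (by linarith) hCC2 hcc2 true) m2

end Crest.Agent.R017.E3Xa72
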