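import Crest.Agent.R017.E3Hf_290
import Crest.Agent.R017.E3Hh_290
import Crest.Agent.R017.E3Xc_72

/-!
# Row 17, T.7 (class E), leaf E3 (S-sum) (helper290, after helper579 and helper744): one pair of
levels from (RH) in classes, both forms, `H` a function of `(d, e)` per side

* `S12_Ax` : both forms for the sum of the canonical numbers, in classes
* `RN2XF` : the `R`-number;  `PAIR_RHF2x'`, `PAIR_RHF2x`
-/

set_option autoImplicit false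
set_option linter.unusedVariables false

noncomputable section

open Finset
open scoped ComplexConjugate Classical ContDiff

namespace Crest.Agent.R017.E3Hi290

open Crest.Agent.R012 Crest.Agent.R012.Eis Crest.Agent.R012.MC
open Crest.Agent.R012.LS2 (S mem_S bl mem_bl)
open Crest.Agent.R012.Mob705 (pb mem_pb pdiv mem_pdiv)
open Crest.Agent.R017.CM106 (CS FS)
open Crest.Agent.R017.C70 (JC OKJ)
open Crest.Agent.R017.E3A164 (Yp Ys Cs mem_Cs)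
open Crest.Agent.R017.GrB829 (IsC)
open Crest.Agent.R017.PX764 (n6)
open Crest.Agent.R017.E3M829 (TC)
open Crest.Agent.R017.E3T829
open Crest.Agent.R017.E3T1579 (T3 WQ)
open Crest.Agent.R017.E3T2579 (wL w1L)
open Crest.Agent.R017.E3F548 (pc MPTr isC_ne)
open Crest.Agent.R017.Mode405
open Crest.Agent.R017.E3Sw290 (TU MBU kZ)
open Crest.Agent.R017.E3Sx579 (BsQt BsQt_nonneg slp_mono)
open Crest.Agent.R017.E3Sy290
open Crest.Agent.R017.E3Z548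
open Crest.Agent.R017.E3Sz579
open Crest.Agent.R017.E3Ha290 Crest.Agent.R017.E3Hb290 Crest.Agent.R017.E3Hc290
open Crest.Agent.R017.E3Hd290 Crest.Agent.R017.E3He290 Crest.Agent.R017.E3Hg290
open Crest.Agent.R017.E3Hf290 (Z_exp2)
open Crest.Agent.R017.ROX744
open Crest.Agent.R017.E3Sx744 (Mxd Mxd_nonneg RHdx)
open Crest.Agent.R017.E3Xa72 (S12xs RHRx S1hx_mono S2hx_mono S1hx_sum S2hx_sum)
open Crest.Agent.R017.Rsx72 (Cnd prT S1hx S2hx)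

/-- both forms in classes for every character -/
def S12xAll : Prop := ∀ w : ℝ → ℝ, Wgt w → (∀ x, w x ≠ 0 → x ≤ 1) → ∀ R0 : ℝ, 0 ≤ R0 →
  ∀ a A : ℕ, 1 < A → ∀ ε : ℝ, 0 < ε → ∀ cs : ℝ, 1 ≤ cs → ∀ p ∈ CC, ∃ (C c : ℝ) (A₀ : ℕ),
    0 ≤ C ∧ 1 ≤ c ∧ S12xs (chi p) w R0 a A ε cs C c A₀

/-- **both forms, all characters, in classes** -/
theorem S12_Ax (hAll : S12xAll) {w : ℝ → ℝ} (hw : Wgt w) (hw1 : ∀ x, w x ≠ 0 → x ≤ 1) {R0 : ℝ}
    (hR0 : 0 ≤ R0) (a A : ℕ) (hA : 1 < A) {ε : ℝ} (hε : 0 < ε) {cs : ℝ} (hcs : 1 ≤ cs) :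
    ∃ (C c : ℝ) (A₀ : ℕ), 0 ≤ C ∧ 1 ≤ c ∧ ∀ A' : ℝ, (A₀ : ℝ) ≤ A' →
      ∀ z Zm K V H X : ℝ, 1 ≤ z → 2 * z ^ 5 ≤ Zm → 0 < K → 0 < V → 0 < H → 0 < X →
      c * (H * V ^ 2) ≤ K * X → 2 * (cs * V) ≤ Zm → 2 * z ^ 2 * (Real.exp R0 * X) ≤ Zm →
      ∀ (R : Finset (Eis × Eis)) (af : Eis → Eis → Eis → ℂ), (∀ ρ ∈ R, FS (af ρ.1 ρ.2)) →
      (∀ ρ ∈ R, ∀ n, af ρ.1 ρ.2 n ≠ 0 → Squarefree n) →
      (∀ ρ ∈ R, ∀ n, af ρ.1 ρ.2 n ≠ 0 → |Real.log (nm ρ.1 * nm n) - Real.log X| ≤ R0) →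
      ∀ u : Eis, u ≠ 0 → (∀ p, IsPrim p → IsCoprime u p) →
      ∀ W0 : Bool → Eis → Eis → ℝ → ℝ, (∀ jj d e, Slp a (W0 jj d e)) →
      RHRx (Zm ^ 4) A R af u W0 → (∀ ρ ∈ R, ρ.1 ≠ 0) →
      S1hx z R (fun d => H * V ^ 2 / (K * nm d))
        (fun d => cs * (H * V ^ 2 / (K * nm d)) * (X * V * H / K) ^ (-(1 / 2) : ℝ))
        (fun d => 4 * cs * (H * V ^ 2 / (K * nm d)) * (X * V * H / K) ^ (-(2 / 3) : ℝ))
        (fun d e => C * (Zm ^ (2 * ε) * W0 false d e (c * (X * V * H / K))))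
        (fun d e => C * (Zm ^ (2 * ε) * W0 true d e (c * (X * V * H / K))))
        (BsA ε w A' cs K V H af) ∧
      S2hx z R (fun d => H * V ^ 2 / (K * nm d))
        (fun d => 4 * cs * (H * V ^ 2 / (K * nm d)) * (X * V * H / K) ^ (-(2 / 3) : ℝ))
        (X * V * H / K)
        (fun d e => C * (Zm ^ (2 * ε) * W0 false d e (c * (X * V * H / K))))
        (fun d e => C * (Zm ^ (2 * ε) * W0 true d e (c * (X * V * H / K))))
        (BsA ε w A' cs K V H af) := by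
  have h1 : ∀ p : (Eis × Eis) × Bool, ∃ (C c : ℝ) (A₀ : ℕ), 0 ≤ C ∧ 1 ≤ c ∧ (p ∈ CC →
      S12xs (chi p) w R0 a A ε cs C c A₀) := by
    intro p
    by_cases hp : p ∈ CC
    · obtain ⟨C, c, A₀, hC, hc, h⟩ := hAll w hw hw1 R0 hR0 a A hA ε hε cs hcs p hp
      exact ⟨C, c, A₀, hC, hc, fun _ => h⟩
    · exact ⟨0, 1, 0, le_rfl, le_rfl, fun h => absurd h hp⟩
  choose C c A₀ hC hc h using h1
  have t1 : ∀ p ∈ CC, c p ≤ 1 + ∑ q ∈ CC, c q := fun p hp => by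
    have := single_le_sum (f := c) (fun q _ => by linarith [hc q]) hp
    linarith
  have t3 : ∀ p ∈ CC, A₀ p ≤ ∑ q ∈ CC, A₀ q := fun p hp =>
    single_le_sum (f := A₀) (fun q _ => Nat.zero_le _) hp
  have t4 : 0 ≤ ∑ q ∈ CC, c q := sum_nonneg fun q _ => by linarith [hc q]
  have t5 : 0 ≤ ∑ q ∈ CC, C q := sum_nonneg fun q _ => hC q
  refine ⟨∑ q ∈ CC, C q, 1 + ∑ q ∈ CC, c q, ∑ q ∈ CC, A₀ q, t5, by linarith, ?_⟩
  intro A' hA' z Zm K V H X hz hzZ hK hV hH hX hKX hVZ hXZ R af haf hsf hwin u hu huc W0 hW0 hRH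
    hR0'
  have hz5 : 0 ≤ z ^ 5 := by positivity
  have hZm : 0 ≤ Zm := by linarith
  have hI : 0 < X * V * H / K := by positivity
  have hHV : 0 < H * V ^ 2 := by positivity
  have hcs0 : 0 < cs := by linarith
  have hmon : ∀ jj d e, ∀ x y : ℝ, 1 ≤ x → x ≤ y → W0 jj d e (x * (X * V * H / K)) ≤
      W0 jj d e (y * (X * V * H / K)) := fun jj d e x y hx hxy =>
    slp_mono (hW0 jj d e) (mul_pos (by linarith) hI) (mul_le_mul_of_nonneg_right hxy hI.le)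
  have hW0n : ∀ jj d e, ∀ x : ℝ, 1 ≤ x → 0 ≤ W0 jj d e (x * (X * V * H / K)) :=
    fun jj d e x hx => (hW0 jj d e).nonneg _ (mul_pos (by linarith) hI)
  have hcp : ∀ p ∈ CC, c p * (H * V ^ 2) ≤ K * X := fun p hp =>
    (mul_le_mul_of_nonneg_right (t1 p hp) hHV.le).trans hKX
  have hAp : ∀ p ∈ CC, (A₀ p : ℝ) ≤ A' := fun p hp =>
    le_trans (by exact_mod_cast t3 p hp) hA'
  have hM : ∀ d : Eis, 0 ≤ cs * (H * V ^ 2 / (K * nm d)) * (X * V * H / K) ^ (-(1 / 2) : ℝ) :=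
    fun d => by positivity
  have hMx : ∀ d : Eis, 0 ≤ 4 * cs * (H * V ^ 2 / (K * nm d)) *
      (X * V * H / K) ^ (-(2 / 3) : ℝ) := fun d => by positivity
  have hWp : ∀ jj, ∀ p ∈ CC, ∀ d e, C p * Zm ^ (2 * ε) * W0 jj d e (c p * (X * V * H / K)) ≤
      C p * (Zm ^ (2 * ε) * W0 jj d e ((1 + ∑ q ∈ CC, c q) * (X * V * H / K))) := by
    intro jj p hp d e
    rw [mul_assoc]
    exact mul_le_mul_of_nonneg_left (mul_le_mul_of_nonneg_left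
      (hmon jj d e _ _ (hc p) (t1 p hp)) (by positivity)) (hC p)
  have hWn : ∀ jj, ∀ p ∈ CC, ∀ d e,
      0 ≤ C p * Zm ^ (2 * ε) * W0 jj d e (c p * (X * V * H / K)) := fun jj p hp d e =>
    mul_nonneg (mul_nonneg (hC p) (by positivity)) (hW0n jj d e _ (hc p))
  have hS := fun p (hp : p ∈ CC) => h p hp A' (hAp p hp) z Zm K V H X hz hzZ hK hV hH hX
    (hcp p hp) hVZ hXZ R af haf hsf hwin u hu huc W0 hW0 hRH hR0'
  constructor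
  · exact S1hx_sum (s := CC) (k := C)
      (W := fun d e => Zm ^ (2 * ε) * W0 false d e ((1 + ∑ q ∈ CC, c q) * (X * V * H / K)))
      (Wx := fun d e => Zm ^ (2 * ε) * W0 true d e ((1 + ∑ q ∈ CC, c q) * (X * V * H / K)))
      (Bs := fun p => BsQt ε (chi p) w A' cs K V H af)
      (fun p hp => S1hx_mono hM hMx (fun _ => le_rfl) (fun _ => le_rfl) (hWn false p hp)
        (hWn true p hp) (hWp false p hp) (hWp true p hp) (hS p hp).1)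
  · exact S2hx_sum (s := CC) (k := C)
      (W := fun d e => Zm ^ (2 * ε) * W0 false d e ((1 + ∑ q ∈ CC, c q) * (X * V * H / K)))
      (Wx := fun d e => Zm ^ (2 * ε) * W0 true d e ((1 + ∑ q ∈ CC, c q) * (X * V * H / K)))
      (Bs := fun p => BsQt ε (chi p) w A' cs K V H af)
      (fun p hp => S2hx_mono (fun d => by positivity) hI.le hMx (fun _ => le_rfl)
        (hWn true p hp) (hWp false p hp) (hWp true p hp) (hS p hp).2)

/-- the `R`-number at `(d, e)` in classes, both forms -/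
def RN2XF (c K V X : ℝ) (H : Eis → Eis → ℝ) (W0 : Bool → Eis → Eis → ℝ → ℝ) (d e : Eis) : ℝ :=
  (nm d : ℝ) ^ (2 / 3 : ℝ) * nm e * ((if 1 ≤ Ld K V (H d e) d then
    G2 (Ld K V (H d e) d) (Md c K V (H d e) X d) (X * V * H d e / K) else 0) *
      W0 false d e (c * (X * V * H d e / K)) +
    (if 1 ≤ Ld K V (H d e) d then Mxd c K V (H d e) X d else 0) *
      W0 true d e (c * (X * V * H d e / K)))

lemma RN2XF_nonneg {c K V X : ℝ} {H : Eis → Eis → ℝ} {W0 : Bool → Eis → Eis → ℝ → ℝ} {d e : Eis}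
    (hL : 0 ≤ Ld K V (H d e) d) (hM : 0 ≤ Md c K V (H d e) X d)
    (hMx : 0 ≤ Mxd c K V (H d e) X d) (hI : 0 ≤ X * V * H d e / K)
    (hW : ∀ jj, 0 ≤ W0 jj d e (c * (X * V * H d e / K))) : 0 ≤ RN2XF c K V X H W0 d e := by
  have h1 := hW false
  have h2 := hW true
  have h3 := G2_nonneg hL hM hI
  unfold RN2XF
  split_ifs <;> positivity

set_option maxHeartbeats 4000000 in
/-- **one pair of levels from (RH) in classes, both forms**, `H` a function of `(d, e)` per side;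
the hypotheses only for the `d` present -/
theorem PAIR_RHF2x' (hAll : S12xAll) {Rw : ℝ} (hRw : 0 ≤ Rw) {h : ℝ → ℝ} (hh : ContDiff ℝ ∞ h)
    (hhc : HasCompactSupport h) {w1 : ℝ → ℝ} (hW1 : Wgt w1)
    (hw : ∀ x, w1 x ≠ 0 → 0 < x ∧ |Real.log x| ≤ Rw)
    (hw1 : ∀ x, 0 < x → h (Real.log x) ≠ 0 → w1 x = 1) {R0 : ℝ} (hR0 : 0 ≤ R0) (a A₁ : ℕ)
    (hA₁ : 1 < A₁) {b₀ : ℝ} (hb₀ : 0 ≤ b₀) {ε : ℝ} (hε : 0 < ε) (hε1 : ε ≤ 1) :
    ∃ (A₀ : ℕ) (c : ℝ), 1 ≤ c ∧ ∀ A : ℕ, A₀ ≤ A → ∀ Bw : ℕ, 4 ≤ Bw → ∃ C : ℝ, 0 ≤ C ∧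
    ∀ (Om Om' : ℝ → ℂ) (Mb : ℝ), 0 ≤ Mb → ContDiff ℝ ∞ Om → ContDiff ℝ ∞ Om' →
      (∀ n ≤ A + 2, ∀ x, ‖iteratedDeriv n Om x‖ ≤ Mb) →
      (∀ n ≤ A + 2, ∀ x, ‖iteratedDeriv n Om' x‖ ≤ Mb) →
    ∀ (V V' τ : ℝ) (κ κ' : ℂ), 0 < V → 0 < V' → ‖κ‖ ≤ 1 → ‖κ'‖ ≤ 1 →
    ∀ (Z : ℝ), 1 ≤ Z → ∀ (Pr : Yp → Yp → Prop) (J : Finset (Eis × Eis))
      (om om' : Eis × Eis → ℂ) (af : Eis → Eis → Eis → ℂ) (EE : Finset Eis)
      (E0 E1 R B K X G1 G1' : ℝ) (H H' : Eis → Eis → ℝ) (u : Eis)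
      (W0 W0' : Bool → Eis → Eis → ℝ → ℝ),
      u ≠ 0 → (∀ p, IsPrim p → IsCoprime u p) →
      TC (T3 af) → (∀ d e, FS (af d e)) → OKJ J → (∀ d e, e ∉ EE → ∀ j, T3 af d e j = 0) →
      0 < K → 0 ≤ R → R ≤ Z → 0 ≤ B → B ≤ Z → 0 ≤ E1 → E1 ≤ Z →
      (∀ x ∈ J, (nm x.1 : ℝ) ≤ Z) → (∀ x ∈ J, (nm x.2 : ℝ) ≤ R) →
      WQ J om E0 R (wL κ h Om τ V) → WQ J om' E0 R (wL κ' h Om' τ V') →
      0 < X → (∀ d e, 0 < H d e) → (∀ d e, 0 < H' d e) → 0 ≤ G1 → 0 ≤ G1' →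
      K ≤ Z ^ 5 → X ≤ Z ^ 5 → c * V ≤ Z ^ 5 → c * V' ≤ Z ^ 5 →
      (∀ d ∈ S (Z ^ 5), ∀ e ∈ EE, c * (H d e * V ^ 2) ≤ K * X) →
      (∀ d ∈ S (Z ^ 5), ∀ e ∈ EE, c * (H' d e * V' ^ 2) ≤ K * X) →
      (Real.sqrt (c * V) ≤ G1 ∨ (ClsP Pr J E0 R ∧ 1 ≤ G1)) →
      (Real.sqrt (c * V') ≤ G1' ∨ (ClsP Pr J E0 R ∧ 1 ≤ G1')) →
      (∀ d ∈ J.image Prod.fst, ∀ e ∈ EE, ∀ n, af d e n ≠ 0 → Squarefree n) →
      (∀ d ∈ J.image Prod.fst, ∀ e ∈ EE, ∀ n, af d e n ≠ 0 →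
        |Real.log (nm d * nm n) - Real.log X| ≤ R0) →
      (∀ jj d e, Slp a (W0 jj d e)) → (∀ jj d e, Slp a (W0' jj d e)) →
      RHRx (c * Z ^ 300) A₁ (RR J EE) af u W0 → RHRx (c * Z ^ 300) A₁ (RR J EE) af u W0' →
      ∑ q ∈ S R, ∑ t ∈ pb E1, MPTr Pr A Bw K B V V' (Z ^ 5) J om om' (T3 af) E0 R b₀ q t ≤
        C * Mb ^ 2 * (1 + |τ|) ^ A * Z ^ ε * (hE EE *
          (LVH af (J.image Prod.fst) EE c (Z ^ 5) K H V V' E1 B G1 (RN2XF c K V X H W0) +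
          LVH af (J.image Prod.fst) EE c (Z ^ 5) K H' V' V E1 B G1' (RN2XF c K V' X H' W0'))) := by
  -- the constants
  obtain ⟨cs, hcsd⟩ : ∃ cs, cs = Real.exp Rw := ⟨_, rfl⟩
  have hcs : 1 ≤ cs := by rw [hcsd]; exact Real.one_le_exp hRw
  have hcs0 : 0 < cs := by linarith
  have hwcs : Wgt (fun y => w1 (cs * y)) := by
    have h1 := hW1.scale (A := cs⁻¹) (by positivity)
    have e : (fun x => w1 (x / cs⁻¹)) = fun y => w1 (cs * y) := by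
      funext x
      rw [div_inv_eq_mul, mul_comm]
    rwa [e] at h1
  have hw1' : ∀ y, w1 (cs * y) ≠ 0 → y ≤ 1 := fun y hy => w_le hw hcsd.ge hy
  obtain ⟨η, hη⟩ : ∃ η, η = ε / 1656 := ⟨_, rfl⟩
  have hη0 : 0 < η := by rw [hη]; positivity
  have hη1 : 11 * η ≤ 1 := by rw [hη]; linarith
  obtain ⟨C0, hC0, hMB⟩ := MB_A (w := fun y => w1 (cs * y)) hwcs hw1' hη0
  obtain ⟨C₂, c₁, A₀, hC₂, hc₁, hS12⟩ := S12_Ax hAll (w := fun y => w1 (cs * y)) hwcs hw1' hR0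
    a A₁ hA₁ hη0 hcs
  obtain ⟨CR, hCR, hPZ⟩ := RPHx2_of hη0
  obtain ⟨CZ, hCZd⟩ : ∃ CZ, CZ = kZ 59049 b₀ + 2 * Real.exp R0 + 2 := ⟨_, rfl⟩
  have hkZ : 0 ≤ kZ 59049 b₀ := by unfold E3Sw290.kZ; positivity
  have hCZ2 : 2 ≤ CZ := by rw [hCZd]; linarith [Real.exp_pos R0]
  have hCZ1 : 1 ≤ CZ := by linarith
  have he2 : 1 ≤ 4 * Real.exp (2 * R0 + 3) + 1 := by linarith [Real.exp_pos (2 * R0 + 3)]
  obtain ⟨cw', hcwd⟩ : ∃ cw', cw' = c₁ * (4 * Real.exp (2 * R0 + 3) + 1) * CZ ^ 4 := ⟨_, rfl⟩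
  have p2 : 1 ≤ c₁ * (4 * Real.exp (2 * R0 + 3) + 1) := one_le_mul_of_one_le_of_one_le hc₁ he2
  have p3 : 1 ≤ CZ ^ 4 := one_le_pow₀ hCZ1
  have hcw' : 1 ≤ cw' := by rw [hcwd]; exact one_le_mul_of_one_le_of_one_le p2 p3
  have q2 : c₁ ≤ cw' := by
    rw [hcwd, mul_assoc]
    exact le_mul_of_one_le_right (by linarith) (one_le_mul_of_one_le_of_one_le he2 p3)
  have q3 : 4 * Real.exp (2 * R0 + 3) + 1 ≤ cw' := by
    rw [hcwd]
    calc 4 * Real.exp (2 * R0 + 3) + 1 ≤ c₁ * (4 * Real.exp (2 * R0 + 3) + 1) :=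
          le_mul_of_one_le_left (by linarith) hc₁
      _ ≤ _ := le_mul_of_one_le_right (by linarith) p3
  have q4 : CZ ^ 4 ≤ cw' := by
    rw [hcwd]
    exact le_mul_of_one_le_left (by linarith) p2
  obtain ⟨c, hcd⟩ : ∃ c, c = cw' * cs := ⟨_, rfl⟩
  have hcwc : cw' ≤ c := by rw [hcd]; exact le_mul_of_one_le_right (by linarith) hcs
  have hcsc : cs ≤ c := by rw [hcd]; exact le_mul_of_one_le_left (by linarith) hcw'
  have hc1 : 1 ≤ c := hcw'.trans hcwc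
  refine ⟨A₀ + 2, c, hc1, ?_⟩
  intro A hA Bw hBw
  obtain ⟨C, hC, hP⟩ := PAIRF (A := A) (Bw := Bw) (by omega) hBw hRw hh hhc hw hw1 (cw := cw')
    (cs := cs) (b₀ := b₀) hcw' hcs hcsd.ge hb₀ (ε := 3 * η) (by positivity) (by linarith)
  refine ⟨C * (C0 * cs ^ 2) * ((1 + C₂) * CZ) * (3 + CR), by positivity, ?_⟩
  intro Om Om' Mb hMb hOm hOm' hOb hOb' V V' τ κ κ' hV hV' hκ hκ' Z hZ Pr J om om' af EE E0 E1 R B
    K X G1 G1' H H' u W0 W0' hu huc hT haf hJ hEE hK hR0' hRZ hB0 hBZ hE10 hE1 hJ1 hJ2 hwq hwq' hX hH hH' hG1 hG1'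
    hKz hXz hVz hVz' hKX hKX' hcl hcl' hsf hwin hS hS' hRH hRH'
  have hZ0 : 0 < Z := by linarith
  have hz : 1 ≤ Z ^ 5 := one_le_pow₀ hZ
  obtain ⟨Zm, hZmd⟩ : ∃ Zm, Zm = CZ * Z ^ 75 := ⟨_, rfl⟩
  have h75 : 1 ≤ Z ^ 75 := one_le_pow₀ hZ
  have hZm : 1 ≤ Zm := by rw [hZmd]; exact one_le_mul_of_one_le_of_one_le hCZ1 h75
  have hZm75 : Z ^ 75 ≤ Zm := by
    rw [hZmd]; exact le_mul_of_one_le_left (by positivity) hCZ1
  have hZm75' : 2 * Z ^ 75 ≤ Zm := by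
    rw [hZmd]; exact mul_le_mul_of_nonneg_right hCZ2 (by positivity)
  have hz75 : Z ^ 5 ≤ Z ^ 75 := pow_le_pow_right₀ hZ (by norm_num)
  have hz15 : 2 * ((Z ^ 5) ^ 3) ^ 5 ≤ Zm := by
    rw [← pow_mul, ← pow_mul]
    exact hZm75'
  have hkZm : kZ 59049 b₀ * (Z ^ 5) ^ 10 ≤ Zm := by
    rw [hZmd, ← pow_mul]
    have h1 : kZ 59049 b₀ ≤ CZ := by rw [hCZd]; linarith [Real.exp_pos R0]
    have h2 : Z ^ (5 * 10) ≤ Z ^ 75 := pow_le_pow_right₀ hZ (by norm_num)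
    exact mul_le_mul h1 h2 (by positivity) (by linarith)
  have hXm : 2 * ((Z ^ 5) ^ 3) ^ 2 * (Real.exp R0 * X) ≤ Zm := by
    have h1 : 2 * Real.exp R0 ≤ CZ := by rw [hCZd]; linarith [Real.exp_pos R0]
    calc 2 * ((Z ^ 5) ^ 3) ^ 2 * (Real.exp R0 * X)
        = ((Z ^ 5) ^ 3) ^ 2 * (2 * Real.exp R0 * X) := by ring
      _ ≤ ((Z ^ 5) ^ 3) ^ 2 * (CZ * Z ^ 5) := by gcongr
      _ = CZ * Z ^ 35 := by ring
      _ ≤ CZ * Z ^ 75 := by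
          refine mul_le_mul_of_nonneg_left ?_ (by linarith)
          exact pow_le_pow_right₀ hZ (by norm_num)
      _ = Zm := hZmd.symm
  have hπ : Zm ^ 4 ≤ c * Z ^ 300 := by
    rw [hZmd, mul_pow, ← pow_mul]
    exact mul_le_mul_of_nonneg_right (q4.trans hcwc) (by positivity)
  have hcsV2 : ∀ V : ℝ, 0 < V → c * V ≤ Z ^ 5 → 2 * (cs * V) ≤ Zm := fun V hV h => by
    have h1 := (mul_le_mul_of_nonneg_right hcsc hV.le).trans h
    linarith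
  have hcsV : ∀ V : ℝ, 0 < V → c * V ≤ Z ^ 5 → cs * V ≤ Zm := fun V hV h => by
    have h1 := hcsV2 V hV h
    have h2 : 0 < cs * V := by positivity
    linarith
  have hKXs : ∀ H V : ℝ, 0 < H → 0 < V → c * (H * V ^ 2) ≤ K * X →
      c₁ * (H * V ^ 2) ≤ K * X := by
    intro H V hH hV h
    have h1 : 0 < H * V ^ 2 := by positivity
    exact (mul_le_mul_of_nonneg_right (q2.trans hcwc) h1.le).trans h
  have h4cs : 4 * cs ≤ c := by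
    have h1 : 1 ≤ Real.exp (2 * R0 + 3) := Real.one_le_exp (by linarith)
    have h2 : 4 ≤ cw' := by linarith
    rw [hcd]
    exact mul_le_mul_of_nonneg_right h2 hcs0.le
  have hHK : ∀ H V : ℝ, 0 < H → 0 < V → c * (H * V ^ 2) ≤ K * X → H * V ^ 2 / K ≤ Zm := by
    intro H V hH hV h
    have h1 : 0 < H * V ^ 2 := by positivity
    have h2 : H * V ^ 2 ≤ c * (H * V ^ 2) := le_mul_of_one_le_left h1.le hc1
    have h3 : H * V ^ 2 / K ≤ X := by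
      rw [div_le_iff₀ hK]; linarith
    linarith
  -- the structured numbers
  have hc0 : 0 < c := by linarith
  have hIg : ∀ (V : ℝ) (H : Eis → Eis → ℝ), 0 < V → (∀ d e, 0 < H d e) → ∀ d e,
      0 < X * V * H d e / K := fun V H hV hH d e => by
    have := hH d e
    positivity
  have hI0 := hIg V H hV hH
  have hI0' := hIg V' H' hV' hH'
  have hCZm : 0 ≤ C₂ * Zm ^ (2 * η) := by positivity
  have hn : ∀ (V : ℝ) (H : Eis → Eis → ℝ) (W0 : Bool → Eis → Eis → ℝ → ℝ), 0 < V →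
      (∀ d e, 0 < H d e) → (∀ jj d e, Slp a (W0 jj d e)) → ∀ jj d e,
      0 ≤ W0 jj d e (c * (X * V * H d e / K)) := fun V H W0 hV hH hS jj d e =>
    (hS jj d e).nonneg _ (mul_pos hc0 (hIg V H hV hH d e))
  have n0 := hn V H W0 hV hH hS
  have n0' := hn V' H' W0' hV' hH' hS'
  have hA2 : (2 : ℝ) ≤ (A : ℝ) := by exact_mod_cast (by omega : 2 ≤ A)
  have hAA : ((A₀ : ℕ) : ℝ) ≤ (A : ℝ) := by exact_mod_cast (by omega : A₀ ≤ A)
  obtain ⟨w, hwd⟩ : ∃ w : ℝ → ℝ, w = fun y => w1 (cs * y) := ⟨_, rfl⟩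
  rw [← hwd] at hMB hS12
  obtain ⟨Bs, hBsd⟩ : ∃ Bs : UT → ℝ, Bs = fun t => BsA η w A cs K V (H t.1 t.2.1) af t :=
    ⟨_, rfl⟩
  obtain ⟨Bs', hBsd'⟩ : ∃ Bs' : UT → ℝ, Bs' = fun t => BsA η w A cs K V' (H' t.1 t.2.1) af t :=
    ⟨_, rfl⟩
  have hBs0 : ∀ t, 0 ≤ Bs t := fun t => by rw [hBsd]; exact BsA_nonneg _ _ _ _ _ _ _ _ _
  have hBs0' : ∀ t, 0 ≤ Bs' t := fun t => by rw [hBsd']; exact BsA_nonneg _ _ _ _ _ _ _ _ _
  have hmono : ∀ (χ : Eis → ℂ) (V H : ℝ) (Bs : UT → ℝ) (t : UT), 0 < V → 0 < H → 0 ≤ Bs t →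
      MBU χ w A (3 * η) C0 1 cs K V H af Bs Zm t →
      MBU χ w A (3 * η) C0 cw' cs K V H af Bs Zm t := by
    intro χ V H Bs t hV hH hB h
    refine MB_mono (by linarith) hC0.le le_rfl zero_le_one hcw' ?_ ?_ hB le_rfl h
    · unfold E3Sw290.YU E3Sw290.ZU
      positivity
    · unfold E3Sw290.LtU E3Sw290.YU E3Sw290.ZU
      positivity
  have hM1 : MB1H w1 A (3 * η) C0 cw' cs K V H af (Z ^ 5) EE Bs Zm := by
    intro k k' hk hk' t ht hY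
    have h1 := hMB A hA2 cs (Z ^ 5) Zm K V (H t.1 t.2.1) hcs hz hZm hK hV (hH _ _)
      (hcsV V hV hVz) (hHK _ V (hH _ _) hV (hKX t.1 ht.d t.2.1 ht.e)) EE af t ht hY ((k, k'), false)
      (mem_CC hk hk' _)
    have e1 : chi ((k, k'), false) = pc k k' := by funext m; simp [chi]
    rw [e1] at h1
    rw [← hwd]
    refine hmono _ _ _ _ _ hV (hH _ _) (hBs0 t) ?_
    rw [hBsd]
    exact h1
  have hM2 : MB2H w1 A (3 * η) C0 cw' cs K V' H' af (Z ^ 5) EE Bs' Zm := by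
    intro k k' hk hk' t ht hY
    have h1 := hMB A hA2 cs (Z ^ 5) Zm K V' (H' t.1 t.2.1) hcs hz hZm hK hV' (hH' _ _)
      (hcsV V' hV' hVz') (hHK _ V' (hH' _ _) hV' (hKX' t.1 ht.d t.2.1 ht.e)) EE af t ht hY
      ((k, k'), true) (mem_CC hk hk' _)
    have e1 : chi ((k, k'), true) = fun m => conj (pc k k' m) := by funext m; simp [chi]
    rw [e1] at h1
    rw [← hwd]
    refine hmono _ _ _ _ _ hV' (hH' _ _) (hBs0' t) ?_
    rw [hBsd']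
    exact h1
  have hz15' : 1 ≤ (Z ^ 5) ^ 3 := one_le_pow₀ hz
  have hne : ∀ d ∈ J.image Prod.fst, d ∈ S (Z ^ 5) ∧ d ≠ 0 := by
    intro d hd
    obtain ⟨y, hy, rfl⟩ := mem_image.mp hd
    have pd := hJ.prim y hy
    refine ⟨(mem_S (by positivity)).2 ⟨(hJ1 y hy).trans ?_, pd, ?_⟩, pd.ne_zero⟩
    · calc Z = Z ^ 1 := (pow_one Z).symm
        _ ≤ Z ^ 5 := pow_le_pow_right₀ hZ (by norm_num)
    · exact hJ.sqf y hy
  have hforms : ∀ (V : ℝ) (H : Eis → Eis → ℝ) (W0 : Bool → Eis → Eis → ℝ → ℝ), 0 < V →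
      (∀ d e, 0 < H d e) → c * V ≤ Z ^ 5 →
      (∀ d ∈ S (Z ^ 5), ∀ e ∈ EE, c * (H d e * V ^ 2) ≤ K * X) → (∀ jj d e, Slp a (W0 jj d e)) →
      RHRx (c * Z ^ 300) A₁ (RR J EE) af u W0 →
      ∀ d ∈ J.image Prod.fst, ∀ e ∈ EE,
        S1hx ((Z ^ 5) ^ 3) {(d, e)} (fun _ => Ld K V (H d e) d) (fun _ => Md c K V (H d e) X d)
          (fun _ => Mxd c K V (H d e) X d)
          (fun d e => C₂ * (Zm ^ (2 * η) * W0 false d e (c * (X * V * H d e / K))))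
          (fun d e => C₂ * (Zm ^ (2 * η) * W0 true d e (c * (X * V * H d e / K))))
          (fun t => BsA η w A cs K V (H t.1 t.2.1) af t) ∧
        S2hx ((Z ^ 5) ^ 3) {(d, e)} (fun _ => Ld K V (H d e) d)
          (fun _ => Mxd c K V (H d e) X d) (X * V * H d e / K)
          (fun d e => C₂ * (Zm ^ (2 * η) * W0 false d e (c * (X * V * H d e / K))))
          (fun d e => C₂ * (Zm ^ (2 * η) * W0 true d e (c * (X * V * H d e / K))))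
          (fun t => BsA η w A cs K V (H t.1 t.2.1) af t) := by
    intro V H W0 hV hH hVz hKX hS hRH d hd e he
    obtain ⟨hdS, hd0⟩ := hne d hd
    have hHd := hH d e
    have hρ : (d, e) ∈ RR J EE := by
      unfold RR
      exact mem_product.mpr ⟨hd, he⟩
    obtain ⟨s1, s2⟩ := hS12 A hAA ((Z ^ 5) ^ 3) Zm K V (H d e) X hz15' hz15 hK hV hHd hX
      (hKXs _ V hHd hV (hKX d hdS e he)) (hcsV2 V hV hVz) hXm {(d, e)} af
      (fun ρ hρ' => haf _ _)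
      (fun ρ hρ' n hn => by
        rw [mem_singleton] at hρ'
        subst hρ'
        exact hsf d hd e he n hn)
      (fun ρ hρ' n hn => by
        rw [mem_singleton] at hρ'
        subst hρ'
        exact hwin d hd e he n hn) u hu huc W0 hS
      (fun jj ρ hρ' γ π hγ hπ' hn P hP => by
        rw [mem_singleton] at hρ'
        subst hρ'
        exact hRH jj (d, e) hρ γ π hγ hπ' (hn.trans hπ) P hP)
      (fun ρ hρ' => by
        rw [mem_singleton] at hρ'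
        subst hρ'
        exact hd0)
    have hIp : 0 < X * V * H d e / K := by positivity
    have hcI : 0 < c₁ * (X * V * H d e / K) := mul_pos (by linarith) hIp
    have hW : ∀ jj, C₂ * (Zm ^ (2 * η) * W0 jj d e (c₁ * (X * V * H d e / K))) ≤
        C₂ * (Zm ^ (2 * η) * W0 jj d e (c * (X * V * H d e / K))) := by
      intro jj
      refine mul_le_mul_of_nonneg_left (mul_le_mul_of_nonneg_left ?_ (by positivity)) hC₂
      exact slp_mono (hS jj d e) hcI (mul_le_mul_of_nonneg_right (q2.trans hcwc) hIp.le)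
    have hW0' : ∀ jj, 0 ≤ C₂ * (Zm ^ (2 * η) * W0 jj d e (c₁ * (X * V * H d e / K))) :=
      fun jj => mul_nonneg hC₂ (mul_nonneg (by positivity) ((hS jj d e).nonneg _ hcI))
    have hM : cs * (H d e * V ^ 2 / (K * nm d)) * (X * V * H d e / K) ^ (-(1 / 2) : ℝ) ≤
        Md c K V (H d e) X d := by
      unfold E3Sz579.Md
      gcongr
    have hMx : 4 * cs * (H d e * V ^ 2 / (K * nm d)) * (X * V * H d e / K) ^ (-(2 / 3) : ℝ) ≤
        Mxd c K V (H d e) X d := by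
      unfold E3Sx744.Mxd
      gcongr
    have hM0 : 0 ≤ Md c K V (H d e) X d := Md_nonneg hc0.le hK hV hHd hX d
    have hMx0 : 0 ≤ Mxd c K V (H d e) X d := Mxd_nonneg hc0.le hK hV hHd hX d
    have hLe : Ld K V (H d e) d = H d e * V ^ 2 / (K * nm d) := rfl
    constructor
    · intro t ht hR
      have hR' := hR
      rw [mem_singleton, Prod.mk.injEq] at hR'
      obtain ⟨r1, r2⟩ := hR'
      have k := s1 t ht hR
      unfold Rsx72.Cnd at k ⊢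
      beta_reduce at k ⊢
      rw [r1, r2] at k ⊢
      refine k.trans ?_
      have hk := kU_nonneg t
      rw [hLe]
      split_ifs
      · refine add_le_add (mul_le_mul ?_ (hW false) (hW0' false) (by positivity))
          (mul_le_mul ?_ (hW true) (hW0' true) (by positivity))
        · exact add_le_add le_rfl (mul_le_mul_of_nonneg_right hM hk)
        · exact mul_le_mul_of_nonneg_right hMx hk
      · exact le_rfl
    · intro ρ hρ' q hq k hk g hg F hF Δ hΔ Kp hKp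
      have k2 := s2 ρ hρ' q hq k hk g hg F hF Δ hΔ Kp hKp
      rw [mem_singleton] at hρ'
      subst hρ'
      refine le_trans ?_ (k2.trans ?_)
      · exact le_rfl
      · refine add_le_add (mul_le_mul_of_nonneg_left (hW false) ?_) ?_
        · unfold E3T829.F2
          positivity
        · refine sum_le_sum fun x hx => ?_
          have hkU := kU_nonneg (d, e, q, k, g, x, 1, F)
          unfold Rsx72.prT Rsx72.Cnd
          beta_reduce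
          rw [hLe]
          split_ifs
          · exact mul_le_mul (mul_le_mul_of_nonneg_right hMx hkU) (hW true) (hW0' true)
              (by positivity)
          · exact le_rfl
  obtain ⟨ρ, hρd⟩ : ∃ ρ, ρ = CR * (Z ^ 5) ^ η := ⟨_, rfl⟩
  have hρ0 : 0 ≤ ρ := by rw [hρd]; positivity
  have hρ1 : 3 + ρ ≤ (3 + CR) * Z ^ (ε / 2) := by
    have e1 : (Z ^ 5) ^ η = Z ^ (5 * η) := by
      rw [← Real.rpow_natCast, ← Real.rpow_mul hZ0.le]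
      push_cast; rfl
    have e2 : Z ^ (5 * η) ≤ Z ^ (ε / 2) := by
      refine Real.rpow_le_rpow_of_exponent_le hZ ?_
      rw [hη]; linarith
    have e3 : 1 ≤ Z ^ (ε / 2) := Real.one_le_rpow hZ (by positivity)
    rw [hρd, e1]
    nlinarith
  have hRP : ∀ (V : ℝ) (H : Eis → Eis → ℝ) (W0 : Bool → Eis → Eis → ℝ → ℝ), 0 < V →
      (∀ d e, 0 < H d e) → c * V ≤ Z ^ 5 →
      (∀ d ∈ S (Z ^ 5), ∀ e ∈ EE, c * (H d e * V ^ 2) ≤ K * X) → (∀ jj d e, Slp a (W0 jj d e)) →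
      RHRx (c * Z ^ 300) A₁ (RR J EE) af u W0 →
      RPH J EE (Z ^ 5) K H V (fun t => BsA η w A cs K V (H t.1 t.2.1) af t) ρ
      (fun d e => (C₂ * Zm ^ (2 * η)) * RN2XF c K V X H W0 d e) := by
    intro V H W0 hV hH hVz hKX hS hRH
    have hW : ∀ jj, ∀ d e, 0 ≤ C₂ * (Zm ^ (2 * η) * W0 jj d e (c * (X * V * H d e / K))) :=
      fun jj d e => mul_nonneg hC₂ (mul_nonneg (by positivity) (hn V H W0 hV hH hS jj d e))
    have k := hPZ (Z ^ 5) hz J EE K V H (fun d e => Ld K V (H d e) d)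
      (fun d e => Md c K V (H d e) X d) (fun d e => Mxd c K V (H d e) X d)
      (fun d e => X * V * H d e / K)
      (fun d e => C₂ * (Zm ^ (2 * η) * W0 false d e (c * (X * V * H d e / K))))
      (fun d e => C₂ * (Zm ^ (2 * η) * W0 true d e (c * (X * V * H d e / K))))
      (fun t => BsA η w A cs K V (H t.1 t.2.1) af t) hK.le
      (fun d e => (hH d e).le) hV.le (hW false) (hW true)
      (fun d e => Ld_nonneg hK (hH d e) d) (fun d e => Md_nonneg hc0.le hK hV (hH d e) hX d)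
      (fun d e => Mxd_nonneg hc0.le hK hV (hH d e) hX d)
      (hIg V H hV hH) (hforms V H W0 hV hH hVz hKX hS hRH)
    rw [← hρd] at k
    have e : (fun d e => (C₂ * Zm ^ (2 * η)) * RN2XF c K V X H W0 d e) = fun d e =>
        (nm d : ℝ) ^ (2 / 3 : ℝ) * nm e * ((if 1 ≤ Ld K V (H d e) d then
          G2 (Ld K V (H d e) d) (Md c K V (H d e) X d) (X * V * H d e / K) else 0) *
            (C₂ * (Zm ^ (2 * η) * W0 false d e (c * (X * V * H d e / K)))) +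
          (if 1 ≤ Ld K V (H d e) d then Mxd c K V (H d e) X d else 0) *
            (C₂ * (Zm ^ (2 * η) * W0 true d e (c * (X * V * H d e / K))))) := by
      funext d e
      unfold RN2XF
      ring
    rw [e]
    exact k
  have hR1 : RPH J EE (Z ^ 5) K H V Bs ρ
      (fun d e => (C₂ * Zm ^ (2 * η)) * RN2XF c K V X H W0 d e) := by
    rw [hBsd]
    exact hRP V H W0 hV hH hVz hKX hS hRH
  have hR2 : RPH J EE (Z ^ 5) K H' V' Bs' ρ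
      (fun d e => (C₂ * Zm ^ (2 * η)) * RN2XF c K V' X H' W0' d e) := by
    rw [hBsd']
    exact hRP V' H' W0' hV' hH' hVz' hKX' hS' hRH'
  have nR : ∀ d e, 0 ≤ RN2XF c K V X H W0 d e := fun d e =>
    RN2XF_nonneg (Ld_nonneg hK (hH d e) d) (Md_nonneg hc0.le hK hV (hH d e) hX d)
      (Mxd_nonneg hc0.le hK hV (hH d e) hX d) (hI0 d e).le (fun jj => n0 jj d e)
  have nR' : ∀ d e, 0 ≤ RN2XF c K V' X H' W0' d e := fun d e =>
    RN2XF_nonneg (Ld_nonneg hK (hH' d e) d) (Md_nonneg hc0.le hK hV' (hH' d e) hX d)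
      (Mxd_nonneg hc0.le hK hV' (hH' d e) hX d) (hI0' d e).le (fun jj => n0' jj d e)
  have key := hP Om Om' Mb hMb hOm hOm' hOb hOb' V V' τ κ κ' hV hV' hκ hκ' Z hZ Pr J om om' af EE
    E0 E1 R B K X G1 G1' C0 Zm ρ H H' (fun d e => (C₂ * Zm ^ (2 * η)) * RN2XF c K V X H W0 d e)
    (fun d e => (C₂ * Zm ^ (2 * η)) * RN2XF c K V' X H' W0' d e)
    Bs Bs' hT haf hJ hEE hK hR0' hRZ hB0 hBZ hE10 hE1 hJ1 hJ2
    hwq hwq' hX hH hH' hC0 hG1 hG1' hKz (by rw [← hcd]; exact hVz) (by rw [← hcd]; exact hVz') hZm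
    hkZm (by rw [← hcd]; exact hcl) (by rw [← hcd]; exact hcl') hBs0 hBs0' hM1 hM2 hρ0
    (fun d e => mul_nonneg hCZm (nR d e)) (fun d e => mul_nonneg hCZm (nR' d e)) hR1 hR2
  rw [← hcd] at key
  refine key.trans ?_
  -- the numbers
  have l1 := LVH_smul (af := af) (Ds := J.image Prod.fst) (EE := EE) (c := c) (Y := Z ^ 5)
    (RN := RN2XF c K V X H W0) (k := C₂ * Zm ^ (2 * η)) hK hH hV hV' hE10 hB0 hG1 nR hCZm
  have l2 := LVH_smul (af := af) (Ds := J.image Prod.fst) (EE := EE) (c := c) (Y := Z ^ 5)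
    (RN := RN2XF c K V' X H' W0') (k := C₂ * Zm ^ (2 * η)) hK hH' hV' hV hE10 hB0 hG1' nR' hCZm
  have ly1 := LVH_nonneg (af := af) (Ds := J.image Prod.fst) (EE := EE) (c := c) (Y := Z ^ 5)
    (E1 := E1) (B := B) hK.le (fun d e => (hH d e).le) hV.le hV'.le hE10 hG1 nR
  have ly2 := LVH_nonneg (af := af) (Ds := J.image Prod.fst) (EE := EE) (c := c) (Y := Z ^ 5)
    (E1 := E1) (B := B) hK.le (fun d e => (hH' d e).le) hV'.le hV.le hE10 hG1' nR'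
  have hz1 := Z_exp2 (Z := Z) (CZ := CZ) (C₂ := C₂) (η := η) (ε := ε / 2) hZ hCZ1 hC₂ hη0 hη1
    (by rw [hη]; linarith)
  rw [← hZmd] at hz1
  generalize LVH af (J.image Prod.fst) EE c (Z ^ 5) K H V V' E1 B G1
    (fun d e => (C₂ * Zm ^ (2 * η)) * RN2XF c K V X H W0 d e) = x1 at *
  generalize LVH af (J.image Prod.fst) EE c (Z ^ 5) K H' V' V E1 B G1'
    (fun d e => (C₂ * Zm ^ (2 * η)) * RN2XF c K V' X H' W0' d e) = x2 at *
  generalize LVH af (J.image Prod.fst) EE c (Z ^ 5) K H V V' E1 B G1 (RN2XF c K V X H W0) = y1 at *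
  generalize LVH af (J.image Prod.fst) EE c (Z ^ 5) K H' V' V E1 B G1'
    (RN2XF c K V' X H' W0') = y2 at *
  have hfin := fin_alg (cs := cs) (F := Mb ^ 2 * (1 + |τ|) ^ A * (3 + ρ))
    (a := Zm ^ (3 * (3 * η))) (b := Z ^ (3 * η)) hC hC0.le (hE_nonneg EE) (by positivity)
    (by positivity) l1 l2 hz1 ly1 ly2
  have hhE := hE_nonneg EE
  have hlast : C * (C0 * cs ^ 2) * ((1 + C₂) * CZ * Z ^ (ε / 2)) *
      (Mb ^ 2 * (1 + |τ|) ^ A * (3 + ρ)) * (hE EE * (y1 + y2)) ≤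
      C * (C0 * cs ^ 2) * ((1 + C₂) * CZ * Z ^ (ε / 2)) *
      (Mb ^ 2 * (1 + |τ|) ^ A * ((3 + CR) * Z ^ (ε / 2))) * (hE EE * (y1 + y2)) := by
    refine mul_le_mul_of_nonneg_right ?_ (by positivity)
    refine mul_le_mul_of_nonneg_left ?_ (by positivity)
    exact mul_le_mul_of_nonneg_left hρ1 (by positivity)
  have ehalf : Z ^ ε = Z ^ (ε / 2) * Z ^ (ε / 2) := by
    rw [← Real.rpow_add hZ0]; congr 1; ring
  rw [ehalf]
  refine le_trans (le_of_eq ?_) (hfin.trans (hlast.trans (le_of_eq ?_))) <;> ring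

/-- **one pair of levels from (RH) in classes, both forms**, `H` a function of `(d, e)` per side (the
hypotheses of `PAIR_RHFx`) -/
theorem PAIR_RHF2x (hAll : S12xAll) {Rw : ℝ} (hRw : 0 ≤ Rw) {h : ℝ → ℝ} (hh : ContDiff ℝ ∞ h)
    (hhc : HasCompactSupport h) {w1 : ℝ → ℝ} (hW1 : Wgt w1)
    (hw : ∀ x, w1 x ≠ 0 → 0 < x ∧ |Real.log x| ≤ Rw)
    (hw1 : ∀ x, 0 < x → h (Real.log x) ≠ 0 → w1 x = 1) {R0 : ℝ} (hR0 : 0 ≤ R0) (a A₁ : ℕ)
    (hA₁ : 1 < A₁) {b₀ : ℝ} (hb₀ : 0 ≤ b₀) {ε : ℝ} (hε : 0 < ε) (hε1 : ε ≤ 1) :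
    ∃ (A₀ : ℕ) (c : ℝ), 1 ≤ c ∧ ∀ A : ℕ, A₀ ≤ A → ∀ Bw : ℕ, 4 ≤ Bw → ∃ C : ℝ, 0 ≤ C ∧
    ∀ (Om Om' : ℝ → ℂ) (Mb : ℝ), 0 ≤ Mb → ContDiff ℝ ∞ Om → ContDiff ℝ ∞ Om' →
      (∀ n ≤ A + 2, ∀ x, ‖iteratedDeriv n Om x‖ ≤ Mb) →
      (∀ n ≤ A + 2, ∀ x, ‖iteratedDeriv n Om' x‖ ≤ Mb) →
    ∀ (V V' τ : ℝ) (κ κ' : ℂ), 0 < V → 0 < V' → ‖κ‖ ≤ 1 → ‖κ'‖ ≤ 1 →
    ∀ (Z : ℝ), 1 ≤ Z → ∀ (Pr : Yp → Yp → Prop) (J : Finset (Eis × Eis))
      (om om' : Eis × Eis → ℂ) (af : Eis → Eis → Eis → ℂ) (EE : Finset Eis)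
      (E0 E1 R B K X G1 G1' : ℝ) (H H' : Eis → Eis → ℝ) (u : Eis)
      (W0 W0' : Bool → Eis → Eis → ℝ → ℝ),
      u ≠ 0 → (∀ p, IsPrim p → IsCoprime u p) →
      TC (T3 af) → (∀ d e, FS (af d e)) → OKJ J → (∀ d e, e ∉ EE → ∀ j, T3 af d e j = 0) →
      0 < K → 0 ≤ R → R ≤ Z → 0 ≤ B → B ≤ Z → 0 ≤ E1 → E1 ≤ Z →
      (∀ x ∈ J, (nm x.1 : ℝ) ≤ Z) → (∀ x ∈ J, (nm x.2 : ℝ) ≤ R) →
      WQ J om E0 R (wL κ h Om τ V) → WQ J om' E0 R (wL κ' h Om' τ V') →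
      0 < X → (∀ d e, 0 < H d e) → (∀ d e, 0 < H' d e) → 0 ≤ G1 → 0 ≤ G1' →
      K ≤ Z ^ 5 → X ≤ Z ^ 5 → c * V ≤ Z ^ 5 → c * V' ≤ Z ^ 5 →
      (∀ d ∈ S (Z ^ 5), ∀ e ∈ EE, c * (H d e * V ^ 2) ≤ K * X) →
      (∀ d ∈ S (Z ^ 5), ∀ e ∈ EE, c * (H' d e * V' ^ 2) ≤ K * X) →
      (Real.sqrt (c * V) ≤ G1 ∨ (ClsP Pr J E0 R ∧ 1 ≤ G1)) →
      (Real.sqrt (c * V') ≤ G1' ∨ (ClsP Pr J E0 R ∧ 1 ≤ G1')) →
      (∀ d ∈ S (Z ^ 5), ∀ e ∈ EE, ∀ n, af d e n ≠ 0 → Squarefree n) →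
      (∀ d ∈ S (Z ^ 5), ∀ e ∈ EE, ∀ n, af d e n ≠ 0 →
        |Real.log (nm d * nm n) - Real.log X| ≤ R0) →
      (∀ jj d e, Slp a (W0 jj d e)) → (∀ jj d e, Slp a (W0' jj d e)) →
      RHdx (Z ^ 5) (c * Z ^ 300) A₁ EE af u W0 → RHdx (Z ^ 5) (c * Z ^ 300) A₁ EE af u W0' →
      ∑ q ∈ S R, ∑ t ∈ pb E1, MPTr Pr A Bw K B V V' (Z ^ 5) J om om' (T3 af) E0 R b₀ q t ≤
        C * Mb ^ 2 * (1 + |τ|) ^ A * Z ^ ε * (hE EE *
          (LVH af (J.image Prod.fst) EE c (Z ^ 5) K H V V' E1 B G1 (RN2XF c K V X H W0) +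
          LVH af (J.image Prod.fst) EE c (Z ^ 5) K H' V' V E1 B G1' (RN2XF c K V' X H' W0'))) := by
  obtain ⟨A₀, c, hc, hP⟩ := PAIR_RHF2x' hAll hRw hh hhc hW1 hw hw1 hR0 a A₁ hA₁ hb₀ hε hε1
  refine ⟨A₀, c, hc, ?_⟩
  intro A hA Bw hBw
  obtain ⟨C, hC, hP'⟩ := hP A hA Bw hBw
  refine ⟨C, hC, ?_⟩
  intro Om Om' Mb hMb hOm hOm' hOb hOb' V V' τ κ κ' hV hV' hκ hκ' Z hZ Pr J om om' af EE E0 E1 R B
    K X G1 G1' H H' u W0 W0' hu huc hT haf hJ hEE hK hR0' hRZ hB0 hBZ hE10 hE1 hJ1 hJ2 hwq hwq' hX hH hH'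
    hG1 hG1' hKz hXz hVz hVz' hKX hKX' hcl hcl' hsf hwin hS hS' hRH hRH'
  have hne : ∀ d ∈ J.image Prod.fst, d ∈ S (Z ^ 5) := by
    intro d hd
    obtain ⟨y, hy, rfl⟩ := mem_image.mp hd
    refine (mem_S (by positivity)).2 ⟨(hJ1 y hy).trans ?_, hJ.prim y hy, hJ.sqf y hy⟩
    calc Z = Z ^ 1 := (pow_one Z).symm
      _ ≤ Z ^ 5 := pow_le_pow_right₀ hZ (by norm_num)
  have hRR : ∀ W : Bool → Eis → Eis → ℝ → ℝ, RHdx (Z ^ 5) (c * Z ^ 300) A₁ EE af u W →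
      RHRx (c * Z ^ 300) A₁ (RR J EE) af u W := by
    intro W hW jj ρ hρ γ π hγ hπ hn P hP
    unfold RR at hρ
    rw [mem_product] at hρ
    exact hW jj ρ.1 (hne _ hρ.1) ρ.2 hρ.2 γ π hγ hπ hn P hP
  exact hP' Om Om' Mb hMb hOm hOm' hOb hOb' V V' τ κ κ' hV hV' hκ hκ' Z hZ Pr J om om' af EE
    E0 E1 R B K X G1 G1' H H' u W0 W0' hu huc hT haf hJ hEE hK hR0' hRZ hB0 hBZ hE10 hE1 hJ1 hJ2 hwq hwq'
    hX hH hH' hG1 hG1' hKz hXz hVz hVz' hKX hKX' hcl hcl'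
    (fun d hd => hsf d (hne d hd)) (fun d hd => hwin d (hne d hd)) hS hS' (hRR _ hRH)
    (hRR _ hRH')

end Crest.Agent.R017.E3Hi290
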