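import Crest.Agent.R017.E3Sx2_579
import Crest.Agent.R017.ModeD4_405

/-!
# Row 17, block C70, leaf E3 (S-sum): the canonical structured number of a tuple (helper579)

* `win_b`, `S_b` : window and support of the coefficient of a cell
* `bsq_cell` : first form of helper405's number at a cell
* `bsq_cellf` : second form for a family of cells
* `BsQt` : the number of a tuple
* `MBU_Q`, `S1h_Q`, `S2h_Q`
-/

set_option autoImplicit false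
set_option linter.unusedVariables false

noncomputable section

open Complex MeasureTheory
open scoped ComplexConjugate Classical

namespace Crest.Agent.R017.E3Sx579

open Crest.Agent.R012 Crest.Agent.R012.Eis Crest.Agent.R012.MC
open Crest.Agent.R012.LS2 (S mem_S bl mem_bl)
open Crest.Agent.R012.Mob705 (mu pdiv mem_pdiv)
open Crest.Agent.R017.CM106 (CS TG FS)
open Crest.Agent.R017.BD829 (TT EQ EQ_nonneg Win)
open Crest.Agent.R017.GrB829 (IsC)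
open Crest.Agent.R017.PX764 (n6)
open Crest.Agent.R017.E1551 (nmpos)
open Crest.Agent.R017.E3D579 (uS bF b0 bt bt_supp FS_b0)
open Crest.Agent.R017.E3T829 (Cd UT SU kU kU_nonneg S1h S2h F2 bu)
open Crest.Agent.R017.Mode405
open Crest.Agent.R017.E3Su290 (MB)
open Crest.Agent.R017.E3Sw290 (TU MBU)

section cell

variable {af : Eis → ℂ} {d e q g κ F cc : Eis} {X R0 Z : ℝ}

lemma supp_b' (haf : FS af) (hκ : IsPrim κ) {n f : Eis} (h : bF κ F (b0 af d e f) n ≠ 0) :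
    ∃ m, n = κ * m ∧ af m ≠ 0 ∧ IsCoprime κ m ∧ IsPrim m := by
  obtain ⟨m, h1, h3, h4⟩ := supp_b hκ h
  have hm : IsPrim m := haf.prim m h3
  refine ⟨m, h1, h3, ?_, hm⟩
  by_contra h5
  exact h4 ((Gauss880.syG.eq_zero κ m hm).mpr h5)

/-- the window of the coefficient of a cell -/
lemma win_b (haf : FS af) (hκ : IsPrim κ) (hd : IsPrim d) (hX : 0 < X) (hR0 : 0 ≤ R0)
    (hwin : ∀ n, af n ≠ 0 → |Real.log (nm d * nm n) - Real.log X| ≤ R0) (f : Eis) :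
    Win (bF κ F (b0 af d e f)) (Real.log (nm κ * X / nm d)) (2 * R0) := by
  have nd := nmpos hd.ne_zero
  have nκ := nmpos hκ.ne_zero
  intro n hn
  obtain ⟨m, h1, h3, -, hm⟩ := supp_b' haf hκ hn
  have nm' := nmpos hm.ne_zero
  have h5 := hwin m h3
  rw [h1, nm_mul]
  push_cast
  have e1 : Real.log (nm κ * nm m) - Real.log (nm κ * X / nm d) =
      Real.log (nm d * nm m) - Real.log X := by
    rw [Real.log_mul nκ.ne' nm'.ne', Real.log_div (by positivity) nd.ne',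
      Real.log_mul nκ.ne' hX.ne', Real.log_mul nd.ne' nm'.ne']
    ring
  rw [e1]
  linarith

/-- the support of the coefficient of a cell -/
lemma S_b (haf : FS af) (hsf : ∀ n, af n ≠ 0 → Squarefree n) (hκ : IsPrim κ)
    (hsκ : Squarefree κ) (hd : IsPrim d) (hX : 0 < X) (hZ : 0 ≤ Z)
    (hwin : ∀ n, af n ≠ 0 → |Real.log (nm d * nm n) - Real.log X| ≤ R0)
    (hXZ : (nm κ : ℝ) * (Real.exp R0 * X) ≤ Z) (f : Eis) :
    ∀ n, bF κ F (b0 af d e f) n ≠ 0 → n ∈ S Z := by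
  have nd := nmpos hd.ne_zero
  have nκ := nmpos hκ.ne_zero
  have hd1 : (1 : ℝ) ≤ nm d := E1551.nm_ge_one hd.ne_zero
  intro n hn
  obtain ⟨m, h1, h3, h4, hm⟩ := supp_b' haf hκ hn
  have nm' := nmpos hm.ne_zero
  rw [mem_S hZ]
  refine ⟨?_, h1 ▸ hκ.mul hm, ?_⟩
  · refine le_trans ?_ hXZ
    rw [h1, nm_mul]
    push_cast
    refine mul_le_mul_of_nonneg_left ?_ nκ.le
    have h5 := (abs_le.mp (hwin m h3)).2
    have h6 : Real.log (nm d * nm m) ≤ Real.log (Real.exp R0 * X) := by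
      rw [Real.log_mul (Real.exp_pos R0).ne' hX.ne', Real.log_exp]
      linarith
    have h7 := (Real.log_le_log_iff (by positivity) (by positivity)).mp h6
    refine le_trans ?_ h7
    exact le_mul_of_one_le_left nm'.le hd1
  · rw [h1]
    exact squarefree_mul_iff.mpr ⟨h4.isRelPrime, hsκ, hsf m h3⟩

end cell

/-- **first form at a cell** -/
theorem bsq_cell {χ : Eis → ℂ} (hχ : Mul1 χ) {v : ℝ → ℝ} (hP : PoHW OK3 nfo χ v) {cw : ℝ}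
    (hcw : 1 ≤ cw) (hw : ∀ x, v x ≠ 0 → x ≤ cw) {R0 : ℝ} (hR0 : 0 ≤ R0) (a A : ℕ) (hA : 1 < A)
    {ε : ℝ} (hε : 0 < ε) :
    ∃ (C c : ℝ) (A₀ : ℕ), 0 ≤ C ∧ 1 ≤ c ∧ ∀ A' : ℝ, (A₀ : ℝ) ≤ A' →
      ∀ Z : ℝ, 1 ≤ Z → ∀ af : Eis → ℂ, FS af → (∀ n, af n ≠ 0 → Squarefree n) →
      ∀ d e q g κ F cc : Eis, IsPrim d → IsPrim e → IsPrim q → IsPrim g → IsPrim κ → IsPrim F →
      IsC cc → Squarefree (g * κ * F) → (nm (q * g * κ * F) : ℝ) ≤ Z →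
      ∀ X : ℝ, 0 < X → (∀ n, af n ≠ 0 → |Real.log (nm d * nm n) - Real.log X| ≤ R0) →
      (nm κ : ℝ) * (Real.exp R0 * X) ≤ Z →
      ∀ W0 : ℝ → ℝ, Slp a W0 → (∀ γ π, IsPrim γ → IsPrim π → (nm π : ℝ) ≤ Z ^ 4 →
        ∀ P : ℝ, 0 < P → (nm γ : ℝ) * n6 γ ^ 2 * ∑ r ∈ bl P, R3571.RMm A af e γ π r ≤ W0 P) →
      ∀ Y Lt W1 : ℝ, 1 ≤ Y → Y ≤ Z → Lt ≤ Z → 0 ≤ W1 →
      (1 ≤ Lt → Lt * Real.exp (2 * R0) < nm κ * X / nm d ∧
        W0 (c * (Il (nm κ * X / nm d) Lt Y *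
          ((nm F : ℝ) ^ 2 * (nm q : ℝ) ^ 2 * nm g))) ≤ W1) →
      BsQ ε χ v cw A' Lt Y (bF κ F (b0 af d e (q * cc * g ^ 2))) (g * κ * F) κ ≤
        C * Z ^ (2 * ε) * (if 1 ≤ Lt then nfo Lt (Il (nm κ * X / nm d) Lt Y) * W1 else 0) := by
  obtain ⟨C, c, A₀, hC, hc, h⟩ := bsq_le okw_three nfok_nfo hχ hP hcw hw
    (R := 2 * R0) (by positivity) a A hA hε
  obtain ⟨C₂, hC₂, h2⟩ := R3571.hW_of_q (A := (A : ℝ)) (by exact_mod_cast hA) hε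
  refine ⟨C * C₂, 81 * c, A₀, by positivity, by linarith, ?_⟩
  intro A' hA' Z hZ af haf hsf d e q g κ F cc hd he hq hg hκ hF hcc hsq hnm X hX hwin hXZ W0 hW0
    hRH Y Lt W1 hY hYZ hLtZ hW1 hyp
  have hZ0 : 0 < Z := by linarith
  have nd := nmpos hd.ne_zero
  have nκ := nmpos hκ.ne_zero
  have nF := nmpos hF.ne_zero
  have nq := nmpos hq.ne_zero
  have ng := nmpos hg.ne_zero
  have hd1 : (1 : ℝ) ≤ nm d := E1551.nm_ge_one hd.ne_zero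
  have hκ1 : (1 : ℝ) ≤ nm κ := E1551.nm_ge_one hκ.ne_zero
  have hq1 : (1 : ℝ) ≤ nm q := E1551.nm_ge_one hq.ne_zero
  have hN : 0 < (nm κ : ℝ) * X / nm d := by positivity
  have hexp1 : 1 ≤ Real.exp R0 := Real.one_le_exp hR0
  have hNZ : (nm κ : ℝ) * X / nm d ≤ Z := by
    refine le_trans ?_ hXZ
    calc (nm κ : ℝ) * X / nm d ≤ nm κ * X := div_le_self (by positivity) hd1
      _ ≤ nm κ * (Real.exp R0 * X) := by
        refine mul_le_mul_of_nonneg_left ?_ nκ.le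
        exact le_mul_of_one_le_left hX.le hexp1
  have hsκ : Squarefree κ := (hsq.of_mul_left).of_mul_right
  have hz : (0 : ℝ) < (nm F : ℝ) ^ 2 * (nm q : ℝ) ^ 2 * nm g := by positivity
  have hCZ : 0 ≤ C₂ * Z ^ ε := by positivity
  have hr : (nm (g * κ * F) : ℝ) ≤ Z := by
    refine le_trans ?_ hnm
    have e1 : q * g * κ * F = q * (g * κ * F) := by ring
    rw [e1, nm_mul q]
    push_cast
    exact le_mul_of_one_le_left (Nat.cast_nonneg _) hq1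
  have hκZ : (nm κ : ℝ) ≤ Z := by
    refine le_trans ?_ hr
    have h5 : nm κ ≤ nm (g * κ * F) := by
      rw [nm_mul, nm_mul]
      have k2 : 0 < nm g := nm_pos.mpr hg.ne_zero
      have k3 : 0 < nm F := nm_pos.mpr hF.ne_zero
      calc nm κ ≤ nm g * nm κ := Nat.le_mul_of_pos_left _ k2
        _ ≤ _ := Nat.le_mul_of_pos_right _ k3
    exact_mod_cast h5
  have key := h A' hA' Z (nm κ * X / nm d) Y Lt hZ hN hNZ hY hYZ hLtZ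
    (bF κ F (b0 af d e (q * cc * g ^ 2))) (g * κ * F) κ (S_b haf hsf hκ hsκ hd hX hZ0.le hwin hXZ _)
    (win_b haf hκ hd hX hR0 hwin _) ((hg.mul hκ).mul hF).ne_zero hr
    (fun P => C₂ * Z ^ ε * W0 (81 * (P * ((nm F : ℝ) ^ 2 * (nm q : ℝ) ^ 2 * nm g))))
    (C₂ * Z ^ ε * W1) (by positivity) (fun h1 => by
      obtain ⟨h3, h4⟩ := hyp h1
      refine ⟨h3, slp_scale hW0 hCZ hz, ?_, _, ⟨hκ, hκZ, rfl⟩, ?_⟩
      · refine mul_le_mul_of_nonneg_left (le_trans (le_of_eq ?_) h4) hCZ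
        congr 1
        ring
      · intro τ hτ P hP
        obtain ⟨γ, φ, x, C3, hγ, hγκ, hφ, hx, hC3, hC3N, hid, rfl⟩ := hτ
        have hC3Z : (nm C3 : ℝ) ≤ Z ^ 2 := hC3N.trans (pow_le_pow_left₀ hN.le hNZ 2)
        have key := h2 Z hZ af haf hsf d e q g κ F cc hd he hq hg hκ hF hcc hsq hnm W0 hRH γ φ x C3
          hγ hγκ hφ hx hC3 hid hC3Z P hP
        refine le_trans (le_of_eq ?_) key
        refine Finset.sum_congr rfl fun d₁ _ => ?_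
        rw [TV_three])
  refine key.trans (le_of_eq ?_)
  have e2 : Z ^ (2 * ε) = Z ^ ε * Z ^ ε := by rw [← Real.rpow_add hZ0]; congr 1; ring
  rw [e2]
  split_ifs
  · ring
  · ring

/-- the base sequence of a family of cells -/
lemma bF_one {b : Eis → ℂ} (hb : FS b) (F : Eis) : bF 1 F b = fun m => b m * sy F m := by
  funext m
  unfold E3D579.bF E3D579.bt
  rw [if_pos (one_dvd m), EuclideanDomain.div_one]
  by_cases h : b m = 0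
  · simp [h]
  · rw [Char766.sy_one_left (hb.prim m h), mul_one]

lemma bF_base {b : Eis → ℂ} (hb : FS b) (D F : Eis) : bF D F b = bt D (bF 1 F b) := by
  rw [bF_one hb]; rfl

/-- **second form for a family of cells** -/
theorem bsq_cellf {χ : Eis → ℂ} (hχ : Mul1 χ) {v : ℝ → ℝ} (hP : PoHG (GD χ v)) {cw : ℝ}
    (hcw : 1 ≤ cw) (hw : ∀ x, v x ≠ 0 → x ≤ cw) {R0 : ℝ} (hR0 : 0 ≤ R0) (a A : ℕ) (hA : 1 < A)
    {ε : ℝ} (hε : 0 < ε) :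
    ∃ (C c : ℝ) (A₀ : ℕ), 0 ≤ C ∧ 1 ≤ c ∧ ∀ A' : ℝ, (A₀ : ℝ) ≤ A' →
      ∀ Z : ℝ, 1 ≤ Z → ∀ af : Eis → ℂ, FS af → (∀ n, af n ≠ 0 → Squarefree n) →
      ∀ d e q g F cc : Eis, IsPrim d → IsPrim e → IsPrim q → IsPrim g → IsPrim F →
      IsC cc → Squarefree (g * F) → (nm (q * g * F) : ℝ) ≤ Z →
      ∀ X : ℝ, 0 < X → (∀ n, af n ≠ 0 → |Real.log (nm d * nm n) - Real.log X| ≤ R0) →
      ∀ Δ : ℝ, 1 ≤ Δ → Δ ≤ Z → Δ * (Real.exp R0 * X) ≤ Z →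
      ∀ W0 : ℝ → ℝ, Slp a W0 → (∀ γ π, IsPrim γ → IsPrim π → (nm π : ℝ) ≤ Z ^ 4 →
        ∀ P : ℝ, 0 < P → (nm γ : ℝ) * n6 γ ^ 2 * ∑ r ∈ bl P, R3571.RMm A af e γ π r ≤ W0 P) →
      ∀ Y Lt W1 : ℝ, 1 ≤ Y → Y ≤ Z → Lt ≤ Z → 0 ≤ W1 →
      (1 ≤ Lt → Lt * Real.exp (2 * R0 + 3) < X / nm d * Δ ∧
        W0 (c * (Il (X / nm d * Δ) Lt Y *
          ((nm F : ℝ) ^ 2 * (nm q : ℝ) ^ 2 * nm g))) ≤ W1) →
      ∀ (𝒟 : Finset Eis) (Yd Ltd : Eis → ℝ),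
      (∀ D ∈ 𝒟, IsPrim D ∧ Squarefree D ∧ Δ / 4 < nm D ∧ (nm D : ℝ) ≤ Δ ∧ Y / 4 ≤ Yd D ∧
        Yd D ≤ Y ∧ Ltd D ≤ Lt) →
      ∑ D ∈ 𝒟, BsQ ε χ v cw A' (Ltd D) (Yd D) (bF D F (b0 af d e (q * cc * g ^ 2)))
          (g * D * F) D ≤
        C * Z ^ (2 * ε) * (if 1 ≤ Lt then nfD Δ Lt (Il (X / nm d * Δ) Lt Y) * W1 else 0) := by
  obtain ⟨C, c, A₀, hC, hc, h⟩ := bsq_fam hχ hP hcw hw (R := 2 * R0) (by positivity) a A hA hε
  obtain ⟨C₂, hC₂, h2⟩ := R3571.hW_of_q (A := (A : ℝ)) (by exact_mod_cast hA) hε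
  refine ⟨C * C₂, 81 * c, A₀, by positivity, by linarith, ?_⟩
  intro A' hA' Z hZ af haf hsf d e q g F cc hd he hq hg hF hcc hsq hnm X hX hwin Δ hΔ hΔZ hXZ W0
    hW0 hRH Y Lt W1 hY hYZ hLtZ hW1 hyp 𝒟 Yd Ltd h𝒟
  have hZ0 : 0 < Z := by linarith
  have hΔ0 : 0 < Δ := by linarith
  have nd := nmpos hd.ne_zero
  have nF := nmpos hF.ne_zero
  have nq := nmpos hq.ne_zero
  have ng := nmpos hg.ne_zero
  have hd1 : (1 : ℝ) ≤ nm d := E1551.nm_ge_one hd.ne_zero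
  have hq1 : (1 : ℝ) ≤ nm q := E1551.nm_ge_one hq.ne_zero
  have hN : 0 < X / nm d := by positivity
  have hexp1 : 1 ≤ Real.exp R0 := Real.one_le_exp hR0
  have hXd : X / nm d ≤ Real.exp R0 * X :=
    (div_le_self hX.le hd1).trans (le_mul_of_one_le_left hX.le hexp1)
  have hNZ : X / nm d * Δ ≤ Z := by
    refine le_trans ?_ hXZ
    rw [mul_comm]
    exact mul_le_mul_of_nonneg_left hXd hΔ0.le
  have hz : (0 : ℝ) < (nm F : ℝ) ^ 2 * (nm q : ℝ) ^ 2 * nm g := by positivity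
  have hCZ : 0 ≤ C₂ * Z ^ ε := by positivity
  have hr : (nm (g * F) : ℝ) ≤ Z := by
    refine le_trans ?_ hnm
    have e1 : q * g * F = q * (g * F) := by ring
    rw [e1, nm_mul q]
    push_cast
    exact le_mul_of_one_le_left (Nat.cast_nonneg _) hq1
  set b' : Eis → ℂ := b0 af d e (q * cc * g ^ 2) with hb'
  have hfs : FS b' := FS_b0 haf d e _
  have hX1 : (nm (1 : Eis) : ℝ) * (Real.exp R0 * X) ≤ Z := by
    rw [nm_one, Nat.cast_one, one_mul]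
    refine le_trans ?_ hXZ
    exact le_mul_of_one_le_left (by positivity) hΔ
  have hbS := S_b haf hsf (F := F) (e := e) isPrim_one squarefree_one hd hX hZ0.le hwin hX1
    (q * cc * g ^ 2)
  have hbW : Win (bF 1 F b') (Real.log (X / nm d)) (2 * R0) := by
    have h1 := win_b haf (F := F) (e := e) isPrim_one hd hX hR0 hwin (q * cc * g ^ 2)
    rw [nm_one, Nat.cast_one, one_mul] at h1
    exact h1
  have key := h A' hA' Z (X / nm d) Δ Y Lt hZ hN hΔ hNZ hΔZ hY hYZ hLtZ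
    (bF 1 F b') (g * F) hbS hbW (hg.mul hF).ne_zero hr
    (fun P => C₂ * Z ^ ε * W0 (81 * (P * ((nm F : ℝ) ^ 2 * (nm q : ℝ) ^ 2 * nm g))))
    (C₂ * Z ^ ε * W1) (by positivity) (fun h1 => by
      obtain ⟨h3, h4⟩ := hyp h1
      have hLt0 : 0 < Lt := by linarith
      refine ⟨lt_of_le_of_lt (mul_le_mul_of_nonneg_left (Real.exp_le_exp.mpr (by linarith))
        hLt0.le) h3, slp_scale hW0 hCZ hz, ?_, ?_⟩
      · refine mul_le_mul_of_nonneg_left (le_trans (le_of_eq ?_) h4) hCZ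
        congr 1
        ring
      · intro τ hτ P hP
        obtain ⟨γ, φ, x, C3, hγ, hφ, hx, hC3, hC3N, hid, rfl⟩ := hτ
        have hC3Z : (nm C3 : ℝ) ≤ Z ^ 2 :=
          hC3N.trans (pow_le_pow_left₀ (by positivity) hNZ 2)
        have key := h2 Z hZ af haf hsf d e q g 1 F cc hd he hq hg isPrim_one hF hcc
          (by rw [mul_one]; exact hsq) (by rw [mul_one]; exact hnm) W0 hRH γ φ x C3
          hγ isCoprime_one_right hφ hx hC3 hid hC3Z P hP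
        rw [mul_one] at key
        refine le_trans (le_of_eq ?_) key
        refine Finset.sum_congr rfl fun d₁ _ => ?_
        rw [TV_three]) 𝒟 Yd Ltd h𝒟
  have e1 : ∑ D ∈ 𝒟, BsQ ε χ v cw A' (Ltd D) (Yd D) (bF D F b') (g * D * F) D =
      ∑ D ∈ 𝒟, BsQ ε χ v cw A' (Ltd D) (Yd D) (bt D (bF 1 F b')) (D * (g * F)) D := by
    refine Finset.sum_congr rfl fun D _ => ?_
    rw [bF_base hfs D F, show g * D * F = D * (g * F) by ring]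
  rw [e1]
  refine key.trans (le_of_eq ?_)
  have e2 : Z ^ (2 * ε) = Z ^ ε * Z ^ ε := by rw [← Real.rpow_add hZ0]; congr 1; ring
  rw [e2]
  split_ifs
  · ring
  · ring

/-! ### the number of a tuple -/

/-- the conditions of a tuple -/
def TQc (cs V : ℝ) (t : UT) : Prop :=
  IsPrim t.1 ∧ IsPrim t.2.1 ∧ IsC t.2.2.2.1 ∧
    Squarefree (t.2.2.2.2.1 * (t.2.2.2.2.2.1 * t.2.2.2.2.2.2.1) * t.2.2.2.2.2.2.2) ∧
    1 ≤ cs * E3Sw290.YU V t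

/-- **the canonical structured number of a tuple** -/
def BsQt (ε : ℝ) (χ : Eis → ℂ) (w : ℝ → ℝ) (A' cs K V H : ℝ) (af : Eis → Eis → Eis → ℂ)
    (t : UT) : ℝ :=
  if TQc cs V t then BsQ ε χ (w6 w) 1 A' (E3Sw290.LtU K V H t) (cs * E3Sw290.YU V t) (bu af t)
    (t.2.2.2.2.1 * (t.2.2.2.2.2.1 * t.2.2.2.2.2.2.1) * t.2.2.2.2.2.2.2)
    (t.2.2.2.2.2.1 * t.2.2.2.2.2.2.1) else 0

lemma BsQt_nonneg (ε : ℝ) (χ : Eis → ℂ) (w : ℝ → ℝ) (A' cs K V H : ℝ)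
    (af : Eis → Eis → Eis → ℂ) (t : UT) : 0 ≤ BsQt ε χ w A' cs K V H af t := by
  unfold BsQt
  split_ifs with h
  · exact BsQ_nonneg (by linarith [h.2.2.2.2])
  · exact le_rfl

lemma w6_le {w : ℝ → ℝ} (hw1 : ∀ x, w x ≠ 0 → x ≤ 1) {x : ℝ} (h : w6 w x ≠ 0) : x ≤ 1 :=
  hw1 x (left_ne_zero_of_mul h)

/-- bounds of the lengths of a tuple -/
lemma YU_le {V : ℝ} (hV : 0 < V) {t : UT} (hd : t.1 ≠ 0) (hq : t.2.2.1 ≠ 0)
    (hc : t.2.2.2.1 ≠ 0) (hg : t.2.2.2.2.1 ≠ 0) (ha : t.2.2.2.2.2.1 ≠ 0)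
    (hD : t.2.2.2.2.2.2.1 ≠ 0) (hF : t.2.2.2.2.2.2.2 ≠ 0) : E3Sw290.YU V t ≤ V := by
  have d1 : (1 : ℝ) ≤ nm t.1 := E1551.nm_ge_one hd
  have q1 : (1 : ℝ) ≤ nm t.2.2.1 := E1551.nm_ge_one hq
  have c1 : (1 : ℝ) ≤ nm t.2.2.2.1 := E1551.nm_ge_one hc
  have g1 : (1 : ℝ) ≤ nm t.2.2.2.2.1 := E1551.nm_ge_one hg
  have a1 : (1 : ℝ) ≤ nm t.2.2.2.2.2.1 := E1551.nm_ge_one ha
  have D1 : (1 : ℝ) ≤ nm t.2.2.2.2.2.2.1 := E1551.nm_ge_one hD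
  have F1 : (1 : ℝ) ≤ nm t.2.2.2.2.2.2.2 := E1551.nm_ge_one hF
  unfold E3Sw290.YU E3Sw290.ZU
  have h1 : (1 : ℝ) ≤ nm t.2.2.1 * (nm t.1 : ℝ) ^ 2 * (nm t.2.2.2.2.1 : ℝ) ^ 2 :=
    one_le_mul_of_one_le_of_one_le (one_le_mul_of_one_le_of_one_le q1 (one_le_pow₀ d1))
      (one_le_pow₀ g1)
  have h2 : (1 : ℝ) ≤ nm t.2.2.2.2.2.1 * nm t.2.2.2.2.2.2.1 * nm t.2.2.2.2.2.2.2 :=
    one_le_mul_of_one_le_of_one_le (one_le_mul_of_one_le_of_one_le a1 D1) F1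
  calc _ ≤ V / nm t.2.2.2.1 / (nm t.2.2.1 * (nm t.1 : ℝ) ^ 2 * (nm t.2.2.2.2.1 : ℝ) ^ 2) :=
        div_le_self (by positivity) h2
    _ ≤ V / nm t.2.2.2.1 := div_le_self (by positivity) h1
    _ ≤ V := div_le_self hV.le c1

/-- the two forms of the threshold -/
lemma LtU_eq {K V H : ℝ} (hK : 0 < K) (hV : 0 < V) (hH : 0 < H) {t : UT} (hd : t.1 ≠ 0)
    (hq : t.2.2.1 ≠ 0) (hc : t.2.2.2.1 ≠ 0) (hg : t.2.2.2.2.1 ≠ 0) (ha : t.2.2.2.2.2.1 ≠ 0)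
    (hD : t.2.2.2.2.2.2.1 ≠ 0) (hF : t.2.2.2.2.2.2.2 ≠ 0) :
    E3Sw290.LtU K V H t = LtU K V H t := by
  have h := Lt_eq' hK hV hH (nmpos hd) (nmpos hq) (nmpos hg) (nmpos hF) (nmpos hc) (nmpos ha)
    (nmpos hD)
  unfold E3Sw290.LtU LtU E3Sw290.YU E3Sw290.ZU
  rw [← h]
  simp only [nm_mul, Nat.cast_mul, mul_one]

lemma LtU_le {K V H : ℝ} (hK : 0 < K) (hV : 0 < V) (hH : 0 < H) {t : UT} (hd : t.1 ≠ 0)
    (hq : t.2.2.1 ≠ 0) (hc : t.2.2.2.1 ≠ 0) (hg : t.2.2.2.2.1 ≠ 0) (ha : t.2.2.2.2.2.1 ≠ 0)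
    (hD : t.2.2.2.2.2.2.1 ≠ 0) (hF : t.2.2.2.2.2.2.2 ≠ 0) :
    LtU K V H t ≤ H * V ^ 2 / (K * nm t.1) := by
  have nd := nmpos hd
  have q1 : (1 : ℝ) ≤ nm t.2.2.1 := E1551.nm_ge_one hq
  have c1 : (1 : ℝ) ≤ nm t.2.2.2.1 := E1551.nm_ge_one hc
  have g1 : (1 : ℝ) ≤ nm t.2.2.2.2.1 := E1551.nm_ge_one hg
  have a1 : (1 : ℝ) ≤ nm t.2.2.2.2.2.1 := E1551.nm_ge_one ha
  have D1 : (1 : ℝ) ≤ nm t.2.2.2.2.2.2.1 := E1551.nm_ge_one hD
  have F1 : (1 : ℝ) ≤ nm t.2.2.2.2.2.2.2 := E1551.nm_ge_one hF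
  unfold LtU
  simp only [nm_mul, Nat.cast_mul]
  have h1 : (1 : ℝ) ≤ (nm t.2.2.2.2.2.1 * nm t.2.2.2.2.2.2.1 : ℝ) ^ 2 *
      (nm t.2.2.1 * nm t.2.2.2.2.1 * nm t.2.2.2.2.2.2.2 : ℝ) ^ 3 :=
    one_le_mul_of_one_le_of_one_le (one_le_pow₀ (one_le_mul_of_one_le_of_one_le a1 D1))
      (one_le_pow₀ (one_le_mul_of_one_le_of_one_le (one_le_mul_of_one_le_of_one_le q1 g1) F1))
  refine (div_le_self (by positivity) h1).trans ?_
  have h2 : V / nm t.2.2.2.1 ≤ V := div_le_self hV.le c1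
  have h3 : 0 ≤ V / nm t.2.2.2.1 := by positivity
  gcongr

lemma isC_ne0 {c : Eis} (hc : IsC c) : c ≠ 0 := by
  have h : 1 ≤ nm c := (E3T829.Cd.nm_c_le hc).1
  exact nm_pos.mp (by omega)

/-- **`MBU` with the canonical number** -/
theorem MBU_Q {χ : Eis → ℂ} (hχ : Mul1 χ) {w : ℝ → ℝ} (hw : Wgt w) (hw1 : ∀ x, w x ≠ 0 → x ≤ 1)
    {ε : ℝ} (hε : 0 < ε) :
    ∃ C : ℝ, 0 ≤ C ∧ ∀ A' : ℝ, 2 ≤ A' → ∀ cs z Zm K V H : ℝ, 1 ≤ cs → 1 ≤ z → 1 ≤ Zm → 0 < K →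
      0 < V → 0 < H → cs * V ≤ Zm → H * V ^ 2 / K ≤ Zm →
      ∀ (EE : Finset Eis) (af : Eis → Eis → Eis → ℂ) (t : UT), TU z EE t →
        1 ≤ cs * E3Sw290.YU V t →
        MBU χ w A' (3 * ε) C 1 cs K V H af (BsQt ε χ w A' cs K V H af) Zm t := by
  obtain ⟨C, hC, h⟩ := bsq_mode hχ hw le_rfl (fun x hx => w6_le hw1 hx) hε
  refine ⟨C, hC, ?_⟩
  intro A' hA' cs z Zm K V H hcs hz hZm hK hV hH hVZ hHZ EE af t ht hY1
  have hz0 : 0 ≤ z := by linarith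
  have hz30 : 0 ≤ z ^ 3 := by positivity
  have pd := ((mem_S hz0).1 ht.d).2.1
  have pq := ((mem_S hz0).1 ht.q).2.1
  obtain ⟨-, pg, sg⟩ := (mem_S hz0).1 ht.g
  have pa := ((mem_S hz30).1 ht.su.a).2.1
  have pD := ((mem_S hz30).1 ht.su.D).2.1
  have pF := ((mem_S hz30).1 ht.su.F).2.1
  have hcne := isC_ne0 ht.c
  have hTQ : TQc cs V t := by
    refine ⟨pd, ht.pe, ht.c, ?_, hY1⟩
    rw [mul_assoc t.2.2.2.2.1]
    exact squarefree_mul_iff.mpr ⟨(ht.cop.of_mul_right_left).symm.isRelPrime, sg, ht.sq⟩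
  have hB : BsQt ε χ w A' cs K V H af t = BsQ ε χ (w6 w) 1 A' (E3Sw290.LtU K V H t)
      (cs * E3Sw290.YU V t) (bu af t)
      (t.2.2.2.2.1 * (t.2.2.2.2.2.1 * t.2.2.2.2.2.2.1) * t.2.2.2.2.2.2.2)
      (t.2.2.2.2.2.1 * t.2.2.2.2.2.2.1) := by
    unfold BsQt
    rw [if_pos hTQ]
  have hcs0 : 0 < cs := by linarith
  have hYZ : cs * E3Sw290.YU V t ≤ Zm :=
    (mul_le_mul_of_nonneg_left (YU_le hV pd.ne_zero pq.ne_zero hcne pg.ne_zero pa.ne_zero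
      pD.ne_zero pF.ne_zero) hcs0.le).trans hVZ
  have nd1 : (1 : ℝ) ≤ nm t.1 := E1551.nm_ge_one pd.ne_zero
  have nd := nmpos pd.ne_zero
  have hLe := LtU_eq hK hV hH pd.ne_zero pq.ne_zero hcne pg.ne_zero pa.ne_zero pD.ne_zero
    pF.ne_zero
  have hLt0 : 0 < E3Sw290.LtU K V H t := by
    have n1 := nmpos pq.ne_zero
    have n2 := nmpos pg.ne_zero
    have n3 := nmpos pa.ne_zero
    have n4 := nmpos pD.ne_zero
    have n5 := nmpos pF.ne_zero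
    have n6 := nmpos hcne
    unfold E3Sw290.LtU E3Sw290.YU E3Sw290.ZU
    positivity
  have hLZ : E3Sw290.LtU K V H t ≤ Zm := by
    rw [hLe]
    refine (LtU_le hK hV hH pd.ne_zero pq.ne_zero hcne pg.ne_zero pa.ne_zero pD.ne_zero
      pF.ne_zero).trans (le_trans ?_ hHZ)
    rw [div_mul_eq_div_div]
    exact div_le_self (by positivity) nd1
  intro Z L L0 hZZ hL hLZ' hL0 hL0Z r q hr hrZ hr₁ hq hqZ hLq
  have key := h A' hA' Z (cs * E3Sw290.YU V t) L L0 (E3Sw290.LtU K V H t) (hZm.trans hZZ) hY1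
    (hYZ.trans hZZ) hL hLZ' hL0 hL0Z hLt0 (hLZ.trans hZZ) (bu af t) r _ q hr hrZ hr₁ hq hqZ hLq
    (t.2.2.2.2.2.1 * t.2.2.2.2.2.2.1)
  rw [hB]
  exact key

end Crest.Agent.R017.E3Sx579
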