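import Crest.Agent.R017.MDxc_744

/-!
# Row 17, T.7 (class E), E3: second form, part d (helper744)

* `bsq_famx` : second form of helper405's `BsQ` in two classes
-/

set_option autoImplicit false

noncomputable section

open Complex MeasureTheory
open scoped ComplexConjugate Classical

namespace Crest.Agent.R017.MX744

open Crest.Agent.R012 Crest.Agent.R012.Eis Crest.Agent.R012.MC
open Crest.Agent.R012.LS2 (S mem_S bl mem_bl)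
open Crest.Agent.R012.LS448 (one_le_nm')
open Crest.Agent.R012.NonCube52 (Ker kv Good)
open Crest.Agent.R012.Mob705 (mu pdiv mem_pdiv abs_mu_le_one)
open Crest.Agent.R012.Weight600 (pw osc norm_pw)
open Crest.Agent.R017.CM106 (CS TG FS)
open Crest.Agent.R017.BD829 (TT EQ Win EQ_nonneg)
open Crest.Agent.R017.E1551 (jb jb_pos nmpos integrable_jb)
open Crest.Agent.R017.DgB829 (HS HS_le HS_nonneg)
open Crest.Agent.R017.E3D579 (bt bt_supp CS_bt)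
open Crest.Agent.R017.Mode405
open Crest.Agent.R017.PoHx72

set_option maxHeartbeats 1000000 in
/-- **second form**, two classes -/
theorem bsq_famx {χ : Eis → ℂ} (hχ : Mul1 χ) {v : ℝ → ℝ} (hP : PoHGx (GDx χ v)) {cw : ℝ}
    (hcw : 1 ≤ cw) (hw : ∀ x, v x ≠ 0 → x ≤ cw) {R : ℝ} (hR : 0 ≤ R) (a A : ℕ) (hA : 1 < A)
    {ε : ℝ} (hε : 0 < ε) :
    ∃ (C c : ℝ) (A₀ : ℕ), 0 ≤ C ∧ 1 ≤ c ∧ ∀ A' : ℝ, (A₀ : ℝ) ≤ A' →
    ∀ Z N Δ Y Lt : ℝ, 1 ≤ Z → 0 < N → 1 ≤ Δ →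
      N * Δ ≤ Z → Δ ≤ Z → 1 ≤ Y → Y ≤ Z → Lt ≤ Z →
    ∀ (b : Eis → ℂ) (r : Eis), (∀ n, b n ≠ 0 → n ∈ S Z) → Win b (Real.log N) R → r ≠ 0 →
      (nm r : ℝ) ≤ Z →
    ∀ (Prd : Eis → Eis → Prop) (W : Bool → ℝ → ℝ) (W1 : Bool → ℝ), (∀ jj, 0 ≤ W1 jj) →
      (1 ≤ Lt → Lt * Real.exp (R + 3) < N * Δ ∧ PrOK b Prd ∧ (∀ jj, Slp a (W jj)) ∧
        (∀ jj, W jj (c * Il (N * Δ) Lt Y) ≤ W1 jj) ∧
        ∀ jj γ φ x, Adm ((N * Δ) ^ 2) 1 γ φ x → ∀ P : ℝ, 0 < P → ∑ e ∈ pdiv r,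
          (nm e : ℝ)⁻¹ * ((nm γ : ℝ) * VIc A (Mode405.bs b e) γ φ 1 (nm e * P / nm x)
            (Cls (PrS Prd e γ) jj)) ≤ W jj P) →
    ∀ (𝒟 : Finset Eis) (Yd Ltd : Eis → ℝ),
      (∀ D ∈ 𝒟, IsPrim D ∧ Squarefree D ∧ Δ / 4 < nm D ∧ (nm D : ℝ) ≤ Δ ∧ Y / 4 ≤ Yd D ∧
        Yd D ≤ Y ∧ Ltd D ≤ Lt) →
    ∑ D ∈ 𝒟, BsQ ε χ v cw A' (Ltd D) (Yd D) (bt D b) (D * r) D ≤
      C * Z ^ ε * (if 1 ≤ Lt then
        ∑ jj : Bool, nfDx Δ (𝒟.card : ℝ) jj Lt (Il (N * Δ) Lt Y) * W1 jj else 0) := by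
  obtain ⟨C, c, A₀, hC, hc, h⟩ := strDx_int hχ hP hcw hw hR a A hA (ε := ε / 2) (by positivity)
  obtain ⟨Ct, hCt, htau⟩ := Div277.tau_le_rpow (ε := ε) hε
  set c5 : ℝ := 2 * (1 + 1 / (ε / 2)) * 2 ^ (ε / 2) with hc5
  have hc50 : 0 ≤ c5 := by positivity
  refine ⟨8 * c5 * Ct * C, c, A₀ + 2, by positivity, hc, ?_⟩
  intro A' hA' Z N Δ Y Lt hZ hN hΔ hNZ hΔZ hY hYZ hLZ b r hbS hbW hr hrZ Prd W W1 hW1 hyp
    𝒟 Yd Ltd h𝒟
  have hA'0 : (A₀ : ℝ) ≤ A' := by push_cast at hA'; linarith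
  have hA'1 : 1 < A' := by
    have : (0 : ℝ) ≤ A₀ := Nat.cast_nonneg A₀
    push_cast at hA'; linarith
  have hZ0 : 0 < Z := by linarith
  have hY0 : 0 < Y := by linarith
  have hCt0 : 0 < Ct := by linarith
  have hYd0 : ∀ D ∈ 𝒟, 0 < Yd D := fun D hD => by
    have := (h𝒟 D hD).2.2.2.2.1
    linarith
  by_cases hLt : 1 ≤ Lt
  swap
  · rw [if_neg hLt, mul_zero]
    refine Finset.sum_nonpos fun D hD => le_of_eq ?_
    have h1 : ¬ 1 ≤ Ltd D := fun h1 => hLt (h1.trans (h𝒟 D hD).2.2.2.2.2.2)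
    unfold BsQ
    rw [if_neg h1]
  rw [if_pos hLt]
  obtain ⟨hLN, hPrd, hWs, hW1le, hTW⟩ := hyp hLt
  have hLt0 : 0 < Lt := by linarith
  have hΔ0 : 0 < Δ := by linarith
  -- the choice of the blocks
  set 𝒟₁ : Finset Eis := 𝒟.filter (fun D => 1 ≤ Ltd D) with h𝒟₁
  have hex : ∀ D ∈ 𝒟₁, ∃ (j : ℕ) (ρ : Eis), (2 : ℝ) ^ j ≤ 2 * Ltd D ∧ ρ ≠ 0 ∧
      BsQ ε χ v cw A' (Ltd D) (Yd D) (bt D b) (D * r) D ≤
        2 * FQ ε χ v cw A' (Ltd D) (Yd D) (bt D b) (D * r) D j ρ := by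
    intro D hD
    rw [h𝒟₁, Finset.mem_filter] at hD
    exact BsQ_exists (hYd0 D hD.1).le hD.2
  choose! jj ρ hjj hρ0 hle using hex
  have hsum1 : ∑ D ∈ 𝒟, BsQ ε χ v cw A' (Ltd D) (Yd D) (bt D b) (D * r) D =
      ∑ D ∈ 𝒟₁, BsQ ε χ v cw A' (Ltd D) (Yd D) (bt D b) (D * r) D := by
    symm
    refine Finset.sum_subset (Finset.filter_subset _ _) fun D hD hD' => ?_
    have h1 : ¬ 1 ≤ Ltd D := fun h1 => hD' (Finset.mem_filter.mpr ⟨hD, h1⟩)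
    unfold BsQ
    rw [if_neg h1]
  set J₁ : ℕ := Nat.log 2 ⌊2 * Lt⌋₊ + 1 with hJ₁
  have hmaps : ∀ D ∈ 𝒟₁, jj D ∈ Finset.range J₁ := by
    intro D hD
    rw [Finset.mem_range, hJ₁, Nat.lt_succ_iff]
    have h1 := hjj D hD
    rw [h𝒟₁, Finset.mem_filter] at hD
    have h2 := (h𝒟 D hD.1).2.2.2.2.2.2
    have h3 : (2 : ℝ) ^ jj D ≤ 2 * Lt := h1.trans (by linarith)
    refine Nat.le_log_of_pow_le (by norm_num) (Nat.le_floor ?_)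
    exact_mod_cast h3
  -- one block
  set BS : ℝ := ∑ jj : Bool, nfDx Δ (𝒟.card : ℝ) jj Lt (Il (N * Δ) Lt Y) * W1 jj with hBS
  set Bb : ℝ := 4 * Ct * (C * Z ^ (ε / 2) * BS) with hBb
  have hIl0 : 0 < Il (N * Δ) Lt Y := by unfold Il; positivity
  have hBS0 : 0 ≤ BS := Finset.sum_nonneg fun jj _ =>
    mul_nonneg (nfDx_nonneg hΔ0.le (Nat.cast_nonneg _) jj hLt0.le hIl0) (hW1 jj)
  have hBb0 : 0 ≤ Bb := by positivity
  have hblk : ∀ j ∈ Finset.range J₁, ∑ D ∈ 𝒟₁.filter (fun D => jj D = j),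
      FQ ε χ v cw A' (Ltd D) (Yd D) (bt D b) (D * r) D j (ρ D) ≤ Bb := by
    intro j _
    set lm : ℝ := lmQ Lt j with hlmd
    have hlm := lmQ_one hLt j
    have hlm0 : 0 < lm := by rw [hlmd]; linarith
    have hlmL : lm ≤ Lt := lmQ_le Lt j
    set 𝒟j := 𝒟₁.filter (fun D => jj D = j) with h𝒟j
    have hmemj : ∀ D ∈ 𝒟j, D ∈ 𝒟 ∧ 1 ≤ Ltd D ∧ D ∈ 𝒟₁ := by
      intro D hD
      rw [h𝒟j, Finset.mem_filter] at hD
      have h2 := hD.1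
      rw [h𝒟₁, Finset.mem_filter] at h2
      exact ⟨h2.1, h2.2, hD.1⟩
    have hratio : ∀ D ∈ 𝒟j, Ltd D / lmQ (Ltd D) j ≤ Lt / lm := by
      intro D hD
      obtain ⟨h1, h2, -⟩ := hmemj D hD
      have h3 := (h𝒟 D h1).2.2.2.2.2.2
      rw [hlmd]
      unfold lmQ
      rcases le_total ((2 : ℝ) ^ j) (Ltd D) with h4 | h4
      · rw [min_eq_left h4, min_eq_left (h4.trans h3)]
        exact div_le_div_of_nonneg_right h3 (by positivity)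
      · rw [min_eq_right h4, div_self (by linarith)]
        rw [one_le_div (lt_min (by positivity) hLt0)]
        exact min_le_right _ _
    have hKK : ∀ D ∈ 𝒟j, KSa (lmQ (Ltd D) j) D ⊆ KSa lm D := by
      intro D hD κ hκ
      have h3 := (h𝒟 D (hmemj D hD).1).2.2.2.2.2.2
      rw [mem_KSa] at hκ ⊢
      refine ⟨⟨hκ.1.1, hκ.1.2.trans ?_⟩, hκ.2⟩
      rw [hlmd]
      exact min_le_min le_rfl h3
    have key := h A' hA'0 Z N Δ Y Lt lm hZ hN hΔ hNZ hΔZ hY hYZ hlm hlmL hLZ hLN b r hbS hbW hr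
      hrZ Prd hPrd W hWs hTW W1 hW1 hW1le 𝒟j Yd ρ (fun D => Ct⁻¹ * (nm (ρ D) : ℝ) ^ (-ε))
      (fun D => (Ltd D / lmQ (Ltd D) j) ^ (1 / 3 : ℝ)) (fun D => KSa (lmQ (Ltd D) j) D)
      (fun D hD => by
        obtain ⟨a1, a2, a3, a4, a5, a6, -⟩ := h𝒟 D (hmemj D hD).1
        exact ⟨a1, a2, a3, a4, a5, a6⟩)
      (fun D hD => by
        have hρD := hρ0 D (hmemj D hD).2.2
        have hn : (0 : ℝ) < nm (ρ D) := nmpos hρD
        refine ⟨hρD, by positivity, ?_, ?_, hKK D hD⟩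
        · have h1 : ((pdiv (ρ D)).card : ℝ) ≤ Ct * (nm (ρ D) : ℝ) ^ ε := htau _ hρD
          calc Ct⁻¹ * (nm (ρ D) : ℝ) ^ (-ε) * ((pdiv (ρ D)).card : ℝ)
              ≤ Ct⁻¹ * (nm (ρ D) : ℝ) ^ (-ε) * (Ct * (nm (ρ D) : ℝ) ^ ε) :=
                mul_le_mul_of_nonneg_left h1 (by positivity)
            _ = (Ct⁻¹ * Ct) * ((nm (ρ D) : ℝ) ^ (-ε) * (nm (ρ D) : ℝ) ^ ε) := by ring
            _ = 1 := by
                rw [inv_mul_cancel₀ hCt0.ne', ← Real.rpow_add hn]; simp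
        · have h1 := hratio D hD
          have h2 := lmQ_one (hmemj D hD).2.1 j
          refine Real.rpow_le_rpow ?_ h1 (by norm_num)
          have := (hmemj D hD).2.1
          positivity)
    have hsubc : ∑ jj : Bool, nfDx Δ (𝒟j.card : ℝ) jj Lt (Il (N * Δ) Lt Y) * W1 jj ≤ BS := by
      refine Finset.sum_le_sum fun jj _ => mul_le_mul_of_nonneg_right ?_ (hW1 jj)
      refine nfDx_le_card (Nat.cast_le.mpr (Finset.card_le_card fun D hD => (hmemj D hD).1)) jj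
        hLt0.le hIl0
    have e1 : (Lt / lm) ^ (1 / 3 : ℝ) * (lm / Lt) ^ (1 / 3 : ℝ) = 1 := by
      rw [← Real.mul_rpow (by positivity) (by positivity)]
      have : Lt / lm * (lm / Lt) = 1 := by field_simp
      rw [this, Real.one_rpow]
    have hterm : ∀ D ∈ 𝒟j, FQ ε χ v cw A' (Ltd D) (Yd D) (bt D b) (D * r) D j (ρ D) ≤
        (Ct * ((Lt / lm) ^ (1 / 3 : ℝ) * (4 * Y⁻¹))) * ((Ct⁻¹ * (nm (ρ D) : ℝ) ^ (-ε)) *
          ∫ t, jb A' t * ∑ κ ∈ KSa (lmQ (Ltd D) j) D,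
          ‖StrQ χ v (Yd D) t (bt D b) κ (ρ D) (D * r) (cw * Yd D)
            ((Ltd D / lmQ (Ltd D) j) ^ (1 / 3 : ℝ))‖ ^ 2) := by
      intro D hD
      obtain ⟨m1, m2, m3⟩ := hmemj D hD
      have hρD := hρ0 D m3
      have hn : (0 : ℝ) < nm (ρ D) := nmpos hρD
      have hYD := hYd0 D m1
      have h2 := lmQ_one m2 j
      have h3 : (Ltd D / lmQ (Ltd D) j) ^ (1 / 3 : ℝ) ≤ (Lt / lm) ^ (1 / 3 : ℝ) :=
        Real.rpow_le_rpow (by positivity) (hratio D hD) (by norm_num)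
      have h4 : (Yd D)⁻¹ ≤ 4 * Y⁻¹ := by
        have h5 := (h𝒟 D m1).2.2.2.2.1
        have h6 : (Yd D)⁻¹ ≤ (Y / 4)⁻¹ := inv_anti₀ (by positivity) h5
        rw [inv_div] at h6
        rw [← div_eq_mul_inv]; exact h6
      have hI0 := int_nonneg (A' := A') (Lt := Ltd D) (ka := D) (χ := χ) (v := v) (Y := Yd D)
        (b := bt D b) (r₁ := D * r) (cw := cw) j (ρ D) ((Ltd D / lmQ (Ltd D) j) ^ (1 / 3 : ℝ))
      unfold FQ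
      set I := ∫ t, jb A' t * ∑ κ ∈ KSa (lmQ (Ltd D) j) D,
          ‖StrQ χ v (Yd D) t (bt D b) κ (ρ D) (D * r) (cw * Yd D)
            ((Ltd D / lmQ (Ltd D) j) ^ (1 / 3 : ℝ))‖ ^ 2 with hI
      have hn' : 0 ≤ (nm (ρ D) : ℝ) ^ (-ε) := by positivity
      have hL0 : 0 ≤ (Lt / lm) ^ (1 / 3 : ℝ) := by positivity
      calc (nm (ρ D) : ℝ) ^ (-ε) * ((Ltd D / lmQ (Ltd D) j) ^ (1 / 3 : ℝ) * ((Yd D)⁻¹ * I))
          ≤ (nm (ρ D) : ℝ) ^ (-ε) * ((Lt / lm) ^ (1 / 3 : ℝ) * ((4 * Y⁻¹) * I)) := by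
            gcongr
        _ = (Ct * Ct⁻¹) * ((nm (ρ D) : ℝ) ^ (-ε) * ((Lt / lm) ^ (1 / 3 : ℝ) *
            ((4 * Y⁻¹) * I))) := by rw [mul_inv_cancel₀ hCt0.ne', one_mul]
        _ = _ := by ring
    calc ∑ D ∈ 𝒟j, FQ ε χ v cw A' (Ltd D) (Yd D) (bt D b) (D * r) D j (ρ D)
        ≤ ∑ D ∈ 𝒟j, (Ct * ((Lt / lm) ^ (1 / 3 : ℝ) * (4 * Y⁻¹))) *
          ((Ct⁻¹ * (nm (ρ D) : ℝ) ^ (-ε)) * ∫ t, jb A' t * ∑ κ ∈ KSa (lmQ (Ltd D) j) D,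
          ‖StrQ χ v (Yd D) t (bt D b) κ (ρ D) (D * r) (cw * Yd D)
            ((Ltd D / lmQ (Ltd D) j) ^ (1 / 3 : ℝ))‖ ^ 2) := Finset.sum_le_sum hterm
      _ = (Ct * ((Lt / lm) ^ (1 / 3 : ℝ) * (4 * Y⁻¹))) * ∑ D ∈ 𝒟j,
          ((Ct⁻¹ * (nm (ρ D) : ℝ) ^ (-ε)) * ∫ t, jb A' t * ∑ κ ∈ KSa (lmQ (Ltd D) j) D,
          ‖StrQ χ v (Yd D) t (bt D b) κ (ρ D) (D * r) (cw * Yd D)
            ((Ltd D / lmQ (Ltd D) j) ^ (1 / 3 : ℝ))‖ ^ 2) := by rw [← Finset.mul_sum]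
      _ ≤ (Ct * ((Lt / lm) ^ (1 / 3 : ℝ) * (4 * Y⁻¹))) * ((lm / Lt) ^ (1 / 3 : ℝ) *
          (Y * (C * Z ^ (ε / 2) *
            ∑ jj : Bool, nfDx Δ (𝒟j.card : ℝ) jj Lt (Il (N * Δ) Lt Y) * W1 jj))) :=
          mul_le_mul_of_nonneg_left key (by positivity)
      _ ≤ (Ct * ((Lt / lm) ^ (1 / 3 : ℝ) * (4 * Y⁻¹))) * ((lm / Lt) ^ (1 / 3 : ℝ) *
          (Y * (C * Z ^ (ε / 2) * BS))) := by
          have hl1 : 0 ≤ (lm / Lt) ^ (1 / 3 : ℝ) := by positivity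
          refine mul_le_mul_of_nonneg_left (mul_le_mul_of_nonneg_left
            (mul_le_mul_of_nonneg_left (mul_le_mul_of_nonneg_left hsubc (by positivity)) hY0.le)
            hl1) (by positivity)
      _ = ((Lt / lm) ^ (1 / 3 : ℝ) * (lm / Lt) ^ (1 / 3 : ℝ)) * (Y⁻¹ * Y) *
          (4 * Ct * (C * Z ^ (ε / 2) * BS)) := by ring
      _ = Bb := by rw [e1, inv_mul_cancel₀ hY0.ne', hBb]; ring
  -- the number of the blocks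
  have hJ : ((J₁ : ℕ) : ℝ) ≤ c5 * Z ^ (ε / 2) := by
    have h1 : ((⌊2 * Lt⌋₊ : ℕ) : ℝ) ≤ 2 * Z := (Nat.floor_le (by positivity)).trans (by linarith)
    have h2 := natlog_le (by linarith : 1 ≤ 2 * Z) (δ := ε / 2) (by positivity) h1
    rw [hJ₁]
    push_cast
    refine h2.trans (le_of_eq ?_)
    rw [Real.mul_rpow (by norm_num) hZ0.le, hc5]; ring
  calc ∑ D ∈ 𝒟, BsQ ε χ v cw A' (Ltd D) (Yd D) (bt D b) (D * r) D
      = ∑ D ∈ 𝒟₁, BsQ ε χ v cw A' (Ltd D) (Yd D) (bt D b) (D * r) D := hsum1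
    _ ≤ ∑ D ∈ 𝒟₁, 2 * FQ ε χ v cw A' (Ltd D) (Yd D) (bt D b) (D * r) D (jj D) (ρ D) :=
        Finset.sum_le_sum hle
    _ = ∑ j ∈ Finset.range J₁, ∑ D ∈ 𝒟₁.filter (fun D => jj D = j),
        2 * FQ ε χ v cw A' (Ltd D) (Yd D) (bt D b) (D * r) D (jj D) (ρ D) :=
        (Finset.sum_fiberwise_of_maps_to hmaps _).symm
    _ ≤ ∑ j ∈ Finset.range J₁, 2 * Bb := by
        refine Finset.sum_le_sum fun j hj => ?_
        have e2 : ∑ D ∈ 𝒟₁.filter (fun D => jj D = j),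
            2 * FQ ε χ v cw A' (Ltd D) (Yd D) (bt D b) (D * r) D (jj D) (ρ D) =
            2 * ∑ D ∈ 𝒟₁.filter (fun D => jj D = j),
            FQ ε χ v cw A' (Ltd D) (Yd D) (bt D b) (D * r) D j (ρ D) := by
          rw [Finset.mul_sum]
          refine Finset.sum_congr rfl fun D hD => ?_
          rw [(Finset.mem_filter.mp hD).2]
        rw [e2]
        exact mul_le_mul_of_nonneg_left (hblk j hj) (by norm_num)
    _ = (J₁ : ℝ) * (2 * Bb) := by rw [Finset.sum_const, Finset.card_range, nsmul_eq_mul]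
    _ ≤ (c5 * Z ^ (ε / 2)) * (2 * Bb) := mul_le_mul_of_nonneg_right hJ (by positivity)
    _ = 8 * c5 * Ct * C * (Z ^ (ε / 2) * Z ^ (ε / 2)) * BS := by rw [hBb]; ring
    _ = _ := by rw [← Real.rpow_add hZ0, add_halves]

end Crest.Agent.R017.MX744
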