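import Crest.Agent.R017.E3Sv_290
import Crest.Agent.R017.PoHB_405
import Crest.Agent.R017.R4aq_579
import Crest.Agent.R017.E3Zr_579

/-!
# Row 17, block C70, leaf E3 (S-sum): the bound of the modes of every dilated cell (helper579)

* `slp_scale` : scaling of the bounding function
* `MB_core` : `MB` of the cell coefficient from MODE* (405), `hW_of_q` and (RH)
* `LtU`, `IlU`, `BsT` : the threshold, the dual length, the structured number of the mode call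
* `MB_dil` : `MB` at the literal lengths of the cell
* `MB_cell` : the hypothesis of `cell_UF`
* `BsT_le` : the hypothesis of `Rsum`
-/

set_option autoImplicit false
set_option linter.unusedVariables false

noncomputable section

open Complex MeasureTheory
open scoped ComplexConjugate Classical

namespace Crest.Agent.R017.E3Sx579

open Crest.Agent.R012 Crest.Agent.R012.Eis Crest.Agent.R012.MC
open Crest.Agent.R012.LS2 (S mem_S bl mem_bl)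
open Crest.Agent.R012.Mob705 (mu pdiv mem_pdiv)
open Crest.Agent.R017.CM106 (CS TG FS)
open Crest.Agent.R017.BD829 (TT EQ EQ_nonneg Win)
open Crest.Agent.R017.GrB829 (IsC)
open Crest.Agent.R017.PX764 (n6)
open Crest.Agent.R017.E1551 (nmpos)
open Crest.Agent.R017.E3D579 (uS bF b0 bt bt_supp FS_b0)
open Crest.Agent.R017.E3T829 (Cd UT kU kU_nonneg)
open Crest.Agent.R017.E3Zr579 (dil dil_spec)
open Crest.Agent.R017.Mode405
open Crest.Agent.R017.E3Su290 (MB modeE_MB)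

/-- scaling of the bounding function -/
lemma slp_scale {a : ℕ} {W : ℝ → ℝ} (h : Slp a W) {C z : ℝ} (hC : 0 ≤ C) (hz : 0 < z) :
    Slp a (fun P => C * W (81 * (P * z))) where
  nonneg P hP := mul_nonneg hC (h.nonneg _ (by positivity))
  low P' P hP' hPP := by
    have hP : 0 < P := hP'.trans_le hPP
    have h1 := h.low (81 * (P' * z)) (81 * (P * z)) (by positivity) (by gcongr)
    have e1 : 81 * (P' * z) / (81 * (P * z)) = P' / P := by field_simp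
    rw [e1] at h1
    calc C * W (81 * (P' * z)) ≤ C * ((P' / P) ^ (1 / 3 : ℝ) * W (81 * (P * z))) :=
          mul_le_mul_of_nonneg_left h1 hC
      _ = _ := by ring
  dbl P hP := by
    have h1 := h.dbl (81 * (P * z)) (by positivity)
    have e1 : 2 * (81 * (P * z)) = 81 * (2 * P * z) := by ring
    rw [e1] at h1
    calc C * W (81 * (2 * P * z)) ≤ C * (2 ^ a * W (81 * (P * z))) :=
          mul_le_mul_of_nonneg_left h1 hC
      _ = _ := by ring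

/-- the bounding function is monotone -/
lemma slp_mono {a : ℕ} {W : ℝ → ℝ} (h : Slp a W) {P' P : ℝ} (hP' : 0 < P') (hPP : P' ≤ P) :
    W P' ≤ W P := by
  have hP : 0 < P := hP'.trans_le hPP
  refine (h.low P' P hP' hPP).trans ?_
  refine mul_le_of_le_one_left (h.nonneg P hP) ?_
  exact Real.rpow_le_one (by positivity) ((div_le_one hP).mpr hPP) (by norm_num)

/-- the support of the coefficient of a cell -/
lemma supp_b {κ F : Eis} (hκ : IsPrim κ) {a : Eis → ℂ} {d e f n : Eis}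
    (h : bF κ F (b0 a d e f) n ≠ 0) : ∃ m, n = κ * m ∧ a m ≠ 0 ∧ sy κ m ≠ 0 := by
  unfold E3D579.bF at h
  obtain ⟨m, hm, -⟩ := bt_supp hκ.ne_zero h
  rw [hm, E3D579.bt_mul hκ.ne_zero] at h
  refine ⟨m, hm, ?_, right_ne_zero_of_mul h⟩
  have h1 := left_ne_zero_of_mul (left_ne_zero_of_mul h)
  unfold E3D579.b0 at h1
  split_ifs at h1 with h2
  · intro h3
    rw [h3] at h1
    simp at h1
  · exact absurd rfl h1

/-- **`MB` of the coefficient of a cell** -/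
theorem MB_core {χ : Eis → ℂ} (hχ : Mul1 χ) {w : ℝ → ℝ} (hw : Wgt w)
    (hP : PoHW OK3 nfo χ (w6 w)) {R0 : ℝ} (hR0 : 0 ≤ R0) (a A : ℕ) (hA : 1 < A) {ε : ℝ}
    (hε : 0 < ε) :
    ∃ (C c cw C₂ : ℝ) (A₀ : ℕ), 0 ≤ C ∧ 1 ≤ c ∧ 1 ≤ cw ∧ 0 ≤ C₂ ∧ ∀ A' : ℝ, (A₀ : ℝ) ≤ A' →
      ∀ Z : ℝ, 1 ≤ Z → ∀ af : Eis → ℂ, FS af → (∀ n, af n ≠ 0 → Squarefree n) →
      ∀ d e q g κ F cc : Eis, IsPrim d → IsPrim e → IsPrim q → IsPrim g → IsPrim κ → IsPrim F →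
      IsC cc → Squarefree (g * κ * F) → (nm (q * g * κ * F) : ℝ) ≤ Z →
      ∀ X : ℝ, 0 < X → (∀ n, af n ≠ 0 → |Real.log (nm d * nm n) - Real.log X| ≤ R0) →
      (nm κ : ℝ) * (Real.exp R0 * X) ≤ Z →
      ∀ W0 : ℝ → ℝ, Slp a W0 → (∀ γ π, IsPrim γ → IsPrim π → (nm π : ℝ) ≤ Z ^ 4 →
        ∀ P : ℝ, 0 < P → (nm γ : ℝ) * n6 γ ^ 2 * ∑ r ∈ bl P, R3571.RMm A af e γ π r ≤ W0 P) →
      ∀ Y Lt W1 : ℝ, 1 ≤ Y → Y ≤ Z → 0 < Lt → Lt ≤ Z → 0 ≤ W1 →
      (1 ≤ Lt → Lt * Real.exp (2 * R0) < nm κ * X / nm d ∧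
        C₂ * Z ^ ε * W0 (81 * (c * Il (nm κ * X / nm d) Lt Y *
          ((nm F : ℝ) ^ 2 * (nm q : ℝ) ^ 2 * nm g))) ≤ W1) →
      MB χ w A' ε C cw (bF κ F (b0 af d e (q * cc * g ^ 2))) (g * κ * F) κ Y Lt
        (nfo Lt (Il (nm κ * X / nm d) Lt Y) * W1) Z := by
  obtain ⟨C, c, cw, A₀, hC, hc, hcw, h⟩ := modeE_MB okw_three nfok_nfo hχ hw hP
    (R := 2 * R0) (by positivity) a A hA hε
  obtain ⟨C₂, hC₂, h2⟩ := R3571.hW_of_q (A := (A : ℝ)) (by exact_mod_cast hA) hε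
  refine ⟨C, c, cw, C₂, A₀, hC, hc, hcw, hC₂, ?_⟩
  intro A' hA' Z hZ af haf hsf d e q g κ F cc hd he hq hg hκ hF hcc hsq hnm X hX hwin hXZ W0 hW0
    hRH Y Lt W1 hY hYZ hLt hLtZ hW1 hyp
  have hZ0 : 0 < Z := by linarith
  have nd := nmpos hd.ne_zero
  have nκ := nmpos hκ.ne_zero
  have nF := nmpos hF.ne_zero
  have nq := nmpos hq.ne_zero
  have ng := nmpos hg.ne_zero
  have hd1 : (1 : ℝ) ≤ nm d := E1551.nm_ge_one hd.ne_zero
  have hκ1 : (1 : ℝ) ≤ nm κ := E1551.nm_ge_one hκ.ne_zero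
  have hN : 0 < (nm κ : ℝ) * X / nm d := by positivity
  have hexp1 : 1 ≤ Real.exp R0 := Real.one_le_exp hR0
  have hNZ : (nm κ : ℝ) * X / nm d ≤ Z := by
    refine le_trans ?_ hXZ
    calc (nm κ : ℝ) * X / nm d ≤ nm κ * X := div_le_self (by positivity) hd1
      _ ≤ nm κ * (Real.exp R0 * X) := by
        refine mul_le_mul_of_nonneg_left ?_ nκ.le
        exact le_mul_of_one_le_left hX.le hexp1
  have hsκ : Squarefree κ := (hsq.of_mul_left).of_mul_right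
  set b : Eis → ℂ := bF κ F (b0 af d e (q * cc * g ^ 2)) with hb
  -- the window
  have hw1 : ∀ n, b n ≠ 0 → ∃ m, n = κ * m ∧ af m ≠ 0 ∧ IsCoprime κ m ∧ IsPrim m := by
    intro n hn
    obtain ⟨m, h1, h3, h4⟩ := supp_b hκ hn
    have hm : IsPrim m := haf.prim m h3
    refine ⟨m, h1, h3, ?_, hm⟩
    by_contra h5
    exact h4 ((Gauss880.syG.eq_zero κ m hm).mpr h5)
  have hbW : Win b (Real.log (nm κ * X / nm d)) (2 * R0) := by
    intro n hn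
    obtain ⟨m, h1, h3, -, hm⟩ := hw1 n hn
    have nm' := nmpos hm.ne_zero
    have h5 := hwin m h3
    rw [h1, nm_mul]
    push_cast
    have e1 : Real.log (nm κ * nm m) - Real.log (nm κ * X / nm d) =
        Real.log (nm d * nm m) - Real.log X := by
      rw [Real.log_mul nκ.ne' nm'.ne', Real.log_div (by positivity) nd.ne',
        Real.log_mul nκ.ne' hX.ne', Real.log_mul nd.ne' nm'.ne']
      ring
    rw [e1]
    linarith
  have hbS : ∀ n, b n ≠ 0 → n ∈ S Z := by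
    intro n hn
    obtain ⟨m, h1, h3, h4, hm⟩ := hw1 n hn
    have nm' := nmpos hm.ne_zero
    rw [mem_S hZ0.le]
    refine ⟨?_, h1 ▸ hκ.mul hm, ?_⟩
    · refine le_trans ?_ hXZ
      rw [h1, nm_mul]
      push_cast
      refine mul_le_mul_of_nonneg_left ?_ nκ.le
      have h5 := (abs_le.mp (hwin m h3)).2
      have h6 : Real.log (nm d * nm m) ≤ Real.log (Real.exp R0 * X) := by
        rw [Real.log_mul (Real.exp_pos R0).ne' hX.ne', Real.log_exp]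
        linarith
      have h7 := (Real.log_le_log_iff (by positivity) (by positivity)).mp h6
      refine le_trans ?_ h7
      exact le_mul_of_one_le_left nm'.le hd1
    · rw [h1]
      exact squarefree_mul_iff.mpr ⟨h4.isRelPrime, hsκ, hsf m h3⟩
  have hz : (0 : ℝ) < (nm F : ℝ) ^ 2 * (nm q : ℝ) ^ 2 * nm g := by positivity
  have hCZ : 0 ≤ C₂ * Z ^ ε := by positivity
  refine h A' hA' Z (nm κ * X / nm d) Y Lt hZ hN hNZ hY hYZ hLt hLtZ b (g * κ * F) κ hbS hbW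
    (fun P => C₂ * Z ^ ε * W0 (81 * (P * ((nm F : ℝ) ^ 2 * (nm q : ℝ) ^ 2 * nm g)))) W1 hW1 ?_
  intro h1
  obtain ⟨h3, h4⟩ := hyp h1
  refine ⟨h3, slp_scale hW0 hCZ hz, h4, ?_⟩
  intro Z' hZZ
  refine ⟨_, ⟨hκ, ?_, rfl⟩, ?_⟩
  · refine le_trans ?_ hZZ
    refine le_trans ?_ hnm
    have h5 : nm κ ≤ nm (q * g * κ * F) := by
      rw [nm_mul, nm_mul, nm_mul]
      have k1 : 0 < nm q := nm_pos.mpr hq.ne_zero
      have k2 : 0 < nm g := nm_pos.mpr hg.ne_zero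
      have k3 : 0 < nm F := nm_pos.mpr hF.ne_zero
      calc nm κ ≤ nm q * nm g * nm κ := Nat.le_mul_of_pos_left _ (by positivity)
        _ ≤ _ := Nat.le_mul_of_pos_right _ k3
    exact_mod_cast h5
  · intro τ hτ P hP
    obtain ⟨γ, φ, x, C3, hγ, hγκ, hφ, hx, hC3, hC3N, hid, rfl⟩ := hτ
    have hC3Z : (nm C3 : ℝ) ≤ Z ^ 2 := hC3N.trans (pow_le_pow_left₀ hN.le hNZ 2)
    have key := h2 Z hZ af haf hsf d e q g κ F cc hd he hq hg hκ hF hcc hsq hnm W0 hRH γ φ x C3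
      hγ hγκ hφ hx hC3 hid hC3Z P hP
    refine le_trans (le_of_eq ?_) key
    refine Finset.sum_congr rfl fun d₁ _ => ?_
    rw [TV_three]

/-! ### trivial cases -/

/-- nothing at lengths below one -/
lemma MB_triv {χ : Eis → ℂ} {w : ℝ → ℝ} (hw1 : ∀ x, w x ≠ 0 → x ≤ 1) {A' ε C cw : ℝ}
    {b : Eis → ℂ} {r₁ ka : Eis} {Y Lt Bs Z₀ : ℝ} (hZ₀ : 1 ≤ Z₀) (hC : 0 ≤ C) (hY : 0 < Y)
    (hY1 : Y < 1) (hLt : 0 < Lt) (hBs : 0 ≤ Bs) : MB χ w A' ε C cw b r₁ ka Y Lt Bs Z₀ := by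
  intro Z L L0 hZ hL hLZ hL0 hL0Z r q hr hrZ hr₁ hq hqZ hLq
  have hZ0 : 0 ≤ Z := by linarith
  have hT := E3Su290.T1_nonneg (cw * Y) b r
  have hD1 := DT_nonneg 1 (cw * Y) b r₁
  have hD2 := DT_nonneg (1 / 2) (cw * Y) b r₁
  have e1 : (fun n => χ n * uS (fun x => ((w (x / Y) : ℝ) : ℂ)) r b n) = fun _ => (0 : ℂ) := by
    funext n
    unfold E3D579.uS
    split_ifs with h
    · have h1 : (1 : ℝ) ≤ nm n := E1551.nm_ge_one h.1.ne_zero
      have h2 : w (nm n / Y) = 0 := by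
        by_contra h3
        have h4 := hw1 _ h3
        rw [div_le_one hY] at h4
        linarith
      have h3 : ((w (nm n / Y) : ℝ) : ℂ) = 0 := by rw [h2]; simp
      change χ n * (((w (nm n / Y) : ℝ) : ℂ) * _) = 0
      rw [h3]; ring
    · rw [mul_zero]
  rw [e1]
  have e2 : ∀ h, EQ A' (fun _ : Eis => (0 : ℂ)) h = 0 := by
    intro h
    unfold BD829.EQ BD829.TT CM106.TG
    simp
  simp only [e2, Finset.sum_const_zero]
  have h1 : 0 ≤ (L0 / Lt) ^ (1 / 3 : ℝ) := by positivity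
  have h2 : 0 ≤ (if Lt ≤ L0 then L + (L * Y) ^ (2 / 3 : ℝ) else 0) := by
    split_ifs
    · positivity
    · exact le_rfl
  have h3 : 0 ≤ (if 1 ≤ Lt then (L0 / Lt) ^ (1 / 3 : ℝ) * (Y * Bs +
          ((Y + (Lt * Y) ^ (2 / 3 : ℝ)) * DT 1 (cw * Y) b r₁ +
          Lt * Y ^ (1 / 2 : ℝ) * DT (1 / 2) (cw * Y) b r₁)) else 0) := by
    split_ifs
    · positivity
    · exact le_rfl
  have h4 : 0 ≤ C * Z ^ ε * Y ^ (-(1 : ℝ) / 3) := by positivity
  exact mul_nonneg h4 (add_nonneg (mul_nonneg (add_nonneg (mul_nonneg h1 hY.le) h2) hT) h3)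

/-- the structured number is free at thresholds below one -/
lemma MB_lt {χ : Eis → ℂ} {w : ℝ → ℝ} {A' ε C cw : ℝ} {b : Eis → ℂ} {r₁ ka : Eis}
    {Y Lt Bs Bs' Z₀ : ℝ} (hLt : ¬ 1 ≤ Lt) (h : MB χ w A' ε C cw b r₁ ka Y Lt Bs Z₀) :
    MB χ w A' ε C cw b r₁ ka Y Lt Bs' Z₀ := by
  intro Z L L0 hZ hL hLZ hL0 hL0Z r q hr hrZ hr₁ hq hqZ hLq
  have key := h Z L L0 hZ hL hLZ hL0 hL0Z r q hr hrZ hr₁ hq hqZ hLq
  rw [if_neg hLt] at key ⊢
  exact key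

/-! ### the literal lengths -/

/-- the threshold of the mode call with the variables `t` -/
def LtU (K V H : ℝ) (t : UT) : ℝ :=
  H * (V / nm t.2.2.2.1) ^ 2 / (K * nm t.1) /
    ((nm (t.2.2.2.2.2.1 * t.2.2.2.2.2.2.1) : ℝ) ^ 2 *
      (nm (t.2.2.1 * t.2.2.2.2.1 * t.2.2.2.2.2.2.2) : ℝ) ^ 3)

/-- the dual length of the mode call with the variables `t` -/
def IlU (cs K V H X : ℝ) (t : UT) : ℝ :=
  X * (V / nm t.2.2.2.1) * H / K /
    (cs * ((nm t.2.2.2.2.2.2.2 : ℝ) ^ 2 * (nm t.2.2.1 : ℝ) ^ 2 * nm t.2.2.2.2.1))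

/-- the structured number of the mode call with the variables `t` -/
def BsT (cs K V H X : ℝ) (W1 : Eis → Eis → ℝ) (t : UT) : ℝ :=
  if 1 ≤ LtU K V H t then nfo (LtU K V H t) (IlU cs K V H X t) * W1 t.1 t.2.1 else 0

lemma LtU_nonneg {K V H : ℝ} (hK : 0 < K) (hH : 0 < H) (t : UT) : 0 ≤ LtU K V H t := by
  unfold LtU; positivity

lemma IlU_nonneg {cs K V H X : ℝ} (hcs : 1 ≤ cs) (hK : 0 < K) (hV : 0 < V) (hH : 0 < H)
    (hX : 0 < X) (t : UT) : 0 ≤ IlU cs K V H X t := by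
  unfold IlU
  have : 0 < cs := by linarith
  positivity

lemma BsT_nonneg {cs K V H X : ℝ} (hcs : 1 ≤ cs) (hK : 0 < K) (hV : 0 < V) (hH : 0 < H)
    (hX : 0 < X) {W1 : Eis → Eis → ℝ} (hW1 : ∀ d e, 0 ≤ W1 d e) (t : UT) :
    0 ≤ BsT cs K V H X W1 t := by
  unfold BsT
  have h1 := LtU_nonneg (V := V) hK hH t
  have h2 := IlU_nonneg hcs hK hV hH hX t
  have h3 := hW1 t.1 t.2.1
  split_ifs
  · unfold Mode405.nfo
    positivity
  · exact le_rfl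

/-- the second term of the structured number -/
lemma real_nf {q g a D F cc d K V H X cs : ℝ} (q1 : 1 ≤ q) (g1 : 1 ≤ g) (a1 : 1 ≤ a) (D1 : 1 ≤ D)
    (F1 : 1 ≤ F) (c1 : 1 ≤ cc) (hd : 0 < d) (hK : 0 < K) (hV : 0 < V) (hH : 0 < H) (hX : 0 < X)
    (hcs : 1 ≤ cs) :
    H * (V / cc) ^ 2 / (K * d) / ((a * D) ^ 2 * (q * g * F) ^ 3) *
      (X * (V / cc) * H / K / (cs * (F ^ 2 * q ^ 2 * g))) ^ (-(1 / 2) : ℝ) ≤
      cs * (H * V ^ 2 / (K * d)) * (X * V * H / K) ^ (-(1 / 2) : ℝ) *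
        (1 / q * (1 / g) * (1 / F) * (1 / a) * (1 / D)) := by
  have hq : 0 < q := by linarith
  have hg : 0 < g := by linarith
  have ha : 0 < a := by linarith
  have hD : 0 < D := by linarith
  have hF : 0 < F := by linarith
  have hc : 0 < cc := by linarith
  have hs : 0 < cs := by linarith
  set L : ℝ := H * V ^ 2 / (K * d) with hL
  set I : ℝ := X * V * H / K with hI
  have hL0 : 0 < L := by rw [hL]; positivity
  have hI0 : 0 < I := by rw [hI]; positivity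
  have e1 : H * (V / cc) ^ 2 / (K * d) = L / cc ^ 2 := by rw [hL]; field_simp
  have e2 : X * (V / cc) * H / K / (cs * (F ^ 2 * q ^ 2 * g)) =
      I / (cc * cs * (F ^ 2 * q ^ 2 * g)) := by rw [hI]; field_simp
  rw [e1, e2]
  have hm : 0 < cc * cs * (F ^ 2 * q ^ 2 * g) := by positivity
  have e3 : (I / (cc * cs * (F ^ 2 * q ^ 2 * g))) ^ (-(1 / 2) : ℝ) =
      I ^ (-(1 / 2) : ℝ) * (cc * cs * (F ^ 2 * q ^ 2 * g)) ^ (1 / 2 : ℝ) := by
    rw [Real.div_rpow hI0.le hm.le, Real.rpow_neg hm.le, div_inv_eq_mul]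
  have e4 : (cc * cs * (F ^ 2 * q ^ 2 * g)) ^ (1 / 2 : ℝ) ≤ cc * cs * (F * q * g) := by
    rw [← Real.sqrt_eq_rpow, Real.sqrt_le_iff]
    refine ⟨by positivity, ?_⟩
    have h1 : 1 ≤ cc * cs * g := by
      have : 1 ≤ cc * cs := one_le_mul_of_one_le_of_one_le c1 hcs
      exact one_le_mul_of_one_le_of_one_le this g1
    calc cc * cs * (F ^ 2 * q ^ 2 * g) ≤ (cc * cs * (F ^ 2 * q ^ 2 * g)) * (cc * cs * g) :=
          le_mul_of_one_le_right hm.le h1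
      _ = _ := by ring
  rw [e3]
  have hI2 : 0 < I ^ (-(1 / 2) : ℝ) := by positivity
  calc L / cc ^ 2 / ((a * D) ^ 2 * (q * g * F) ^ 3) *
        (I ^ (-(1 / 2) : ℝ) * (cc * cs * (F ^ 2 * q ^ 2 * g)) ^ (1 / 2 : ℝ))
      ≤ L / cc ^ 2 / ((a * D) ^ 2 * (q * g * F) ^ 3) *
        (I ^ (-(1 / 2) : ℝ) * (cc * cs * (F * q * g))) := by gcongr
    _ = cs * L * I ^ (-(1 / 2) : ℝ) * (1 / q * (1 / g) * (1 / F) * (1 / a) * (1 / D)) *
        (1 / (cc * a * D * q * g * F)) := by field_simp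
    _ ≤ cs * L * I ^ (-(1 / 2) : ℝ) * (1 / q * (1 / g) * (1 / F) * (1 / a) * (1 / D)) := by
        refine mul_le_of_le_one_right (by positivity) ?_
        rw [div_le_one (by positivity)]
        have h1 := one_le_mul_of_one_le_of_one_le c1 a1
        have h2 := one_le_mul_of_one_le_of_one_le h1 D1
        have h3 := one_le_mul_of_one_le_of_one_le h2 q1
        have h4 := one_le_mul_of_one_le_of_one_le h3 g1
        exact one_le_mul_of_one_le_of_one_le h4 F1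

lemma nm_zero' : nm (0 : Eis) = 0 := by decide

/-- **the hypothesis of `Rsum`** -/
theorem BsT_le {cs K V H X : ℝ} (hcs : 1 ≤ cs) (hK : 0 < K) (hV : 0 < V) (hH : 0 < H)
    (hX : 0 < X) {W1 : Eis → Eis → ℝ} (hW1 : ∀ d e, 0 ≤ W1 d e) {t : UT}
    (hd : t.1 ≠ 0) (hq : t.2.2.1 ≠ 0) (hg : t.2.2.2.2.1 ≠ 0)
    (ha : t.2.2.2.2.2.1 ≠ 0) (hD : t.2.2.2.2.2.2.1 ≠ 0) (hF : t.2.2.2.2.2.2.2 ≠ 0) :
    BsT cs K V H X W1 t ≤
      if (nm (t.2.2.2.2.2.1 * t.2.2.2.2.2.2.1) : ℝ) ^ 2 *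
          (nm (t.2.2.1 * t.2.2.2.2.1 * t.2.2.2.2.2.2.2) : ℝ) ^ 3 ≤ H * V ^ 2 / (K * nm t.1) then
        (1 + cs * (H * V ^ 2 / (K * nm t.1)) * (X * V * H / K) ^ (-(1 / 2) : ℝ) * kU t) *
          W1 t.1 t.2.1 else 0 := by
  have nd := nmpos hd
  have nq := nmpos hq
  have ng := nmpos hg
  have na := nmpos ha
  have nD := nmpos hD
  have nF := nmpos hF
  have hc0 : t.2.2.2.1 = 0 ∨ (1 : ℝ) ≤ nm t.2.2.2.1 := by
    by_cases h : t.2.2.2.1 = 0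
    · exact Or.inl h
    · exact Or.inr (E1551.nm_ge_one h)
  have d1 : (1 : ℝ) ≤ nm t.1 := E1551.nm_ge_one hd
  have q1 : (1 : ℝ) ≤ nm t.2.2.1 := E1551.nm_ge_one hq
  have g1 : (1 : ℝ) ≤ nm t.2.2.2.2.1 := E1551.nm_ge_one hg
  have a1 : (1 : ℝ) ≤ nm t.2.2.2.2.2.1 := E1551.nm_ge_one ha
  have D1 : (1 : ℝ) ≤ nm t.2.2.2.2.2.2.1 := E1551.nm_ge_one hD
  have F1 : (1 : ℝ) ≤ nm t.2.2.2.2.2.2.2 := E1551.nm_ge_one hF
  have hcs0 : 0 < cs := by linarith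
  have hW := hW1 t.1 t.2.1
  unfold BsT
  rcases hc0 with hc0 | hc1
  · have h1 : ¬ 1 ≤ LtU K V H t := by
      have h2 : LtU K V H t = 0 := by
        unfold LtU
        rw [hc0, nm_zero']
        simp
      rw [h2]; norm_num
    rw [if_neg h1]
    split_ifs
    · have h3 := kU_nonneg t
      positivity
    · exact le_rfl
  have hLle : H * (V / nm t.2.2.2.1) ^ 2 / (K * nm t.1) ≤ H * V ^ 2 / (K * nm t.1) := by
    have : V / nm t.2.2.2.1 ≤ V := div_le_self hV.le hc1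
    have h0 : 0 ≤ V / nm t.2.2.2.1 := by positivity
    gcongr
  by_cases h1 : 1 ≤ LtU K V H t
  · rw [if_pos h1]
    have hpos : 0 < (nm (t.2.2.2.2.2.1 * t.2.2.2.2.2.2.1) : ℝ) ^ 2 *
      (nm (t.2.2.1 * t.2.2.2.2.1 * t.2.2.2.2.2.2.2) : ℝ) ^ 3 := by
      rw [nm_mul, nm_mul, nm_mul]
      push_cast
      positivity
    have h2 : (nm (t.2.2.2.2.2.1 * t.2.2.2.2.2.2.1) : ℝ) ^ 2 *
      (nm (t.2.2.1 * t.2.2.2.2.1 * t.2.2.2.2.2.2.2) : ℝ) ^ 3 ≤ H * V ^ 2 / (K * nm t.1) := by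
      unfold LtU at h1
      rw [one_le_div hpos] at h1
      exact h1.trans hLle
    rw [if_pos h2]
    refine mul_le_mul_of_nonneg_right ?_ hW
    unfold Mode405.nfo
    refine add_le_add le_rfl ?_
    have key := real_nf q1 g1 a1 D1 F1 hc1 nd hK hV hH hX hcs
    refine le_trans (le_of_eq ?_) key
    unfold LtU IlU
    simp only [nm_mul, Nat.cast_mul]
  · rw [if_neg h1]
    split_ifs
    · have h3 := kU_nonneg t
      positivity
    · exact le_rfl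

/-! ### `MB` at the lengths of a cell -/

/-- the length of the mode call with the variables `t` -/
def YU (cs V : ℝ) (t : UT) : ℝ :=
  cs * (V / nm t.2.2.2.1 / (nm t.2.2.1 * (nm t.1 : ℝ) ^ 2 * (nm t.2.2.2.2.1 : ℝ) ^ 2) /
    (nm t.2.2.2.2.2.1 * nm t.2.2.2.2.2.2.1 * nm t.2.2.2.2.2.2.2))

/-- the dual length at the threshold -/
lemma Il_eq {K V H X cs d q g κ F c : ℝ} (hK : 0 < K) (hV : 0 < V) (hH : 0 < H) (hX : 0 < X)
    (hcs : 0 < cs) (hd : 0 < d) (hq : 0 < q) (hg : 0 < g) (hκ : 0 < κ) (hF : 0 < F)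
    (hc : 0 < c) :
    Il (κ * X / d) (H * (V / c) ^ 2 / (K * d) / ((κ * 1) ^ 2 * (q * g * F) ^ 3))
      (cs * (V / c / (q * d ^ 2 * g ^ 2) / (κ * 1 * F))) =
      X * (V / c) * H / K / (cs * (F ^ 2 * q ^ 2 * g)) := by
  unfold Mode405.Il
  field_simp

/-- **`MB` at the lengths of a cell** -/
theorem MB_dil {χ : Eis → ℂ} (hχ : Mul1 χ) {w : ℝ → ℝ} (hw : Wgt w)
    (hP : PoHW OK3 nfo χ (w6 w)) (hw1 : ∀ x, w x ≠ 0 → x ≤ 1) {R0 : ℝ} (hR0 : 0 ≤ R0)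
    (a A : ℕ) (hA : 1 < A) {ε : ℝ} (hε : 0 < ε) {cs : ℝ} (hcs : 1 ≤ cs) :
    ∃ (C c cw C₂ : ℝ) (A₀ : ℕ), 0 ≤ C ∧ 1 ≤ c ∧ 1 ≤ cw ∧ 0 ≤ C₂ ∧ ∀ A' : ℝ, (A₀ : ℝ) ≤ A' →
      ∀ Z : ℝ, 1 ≤ Z → ∀ af : Eis → ℂ, FS af → (∀ n, af n ≠ 0 → Squarefree n) →
      ∀ d e q g κ F cc : Eis, IsPrim d → IsPrim e → IsPrim q → IsPrim g → IsPrim κ → IsPrim F →
      IsC cc → Squarefree (g * κ * F) → (nm (q * g * κ * F) : ℝ) ≤ Z →
      ∀ K V H X : ℝ, 0 < K → 0 < V → 0 < H → 0 < X → H * V ^ 2 * Real.exp (2 * R0) < K * X →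
      (∀ n, af n ≠ 0 → |Real.log (nm d * nm n) - Real.log X| ≤ R0) →
      (nm κ : ℝ) * (Real.exp R0 * X) ≤ Z → cs * V ≤ Z →
      ∀ W0 : ℝ → ℝ, Slp a W0 → (∀ γ π, IsPrim γ → IsPrim π → (nm π : ℝ) ≤ Z ^ 4 →
        ∀ P : ℝ, 0 < P → (nm γ : ℝ) * n6 γ ^ 2 * ∑ r ∈ bl P, R3571.RMm A af e γ π r ≤ W0 P) →
      ∀ W1 : Eis → Eis → ℝ, 0 ≤ W1 d e → C₂ * Z ^ ε * W0 (c * (X * V * H / K)) ≤ W1 d e →
      MB χ w A' ε C cw (bF κ F (b0 af d e (q * cc * g ^ 2))) (g * κ * F) κ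
        (YU cs V (d, e, q, cc, g, κ, 1, F)) (LtU K V H (d, e, q, cc, g, κ, 1, F))
        (BsT cs K V H X W1 (d, e, q, cc, g, κ, 1, F)) Z := by
  obtain ⟨C, c, cw, C₂, A₀, hC, hc, hcw, hC₂, h⟩ := MB_core hχ hw hP hR0 a A hA hε
  refine ⟨C, 81 * c, cw, C₂, A₀, hC, by linarith, hcw, hC₂, ?_⟩
  intro A' hA' Z hZ af haf hsf d e q g κ F cc hd he hq hg hκ hF hcc hsq hnm K V H X hK hV hH hX
    hKX hwin hXZ hVZ W0 hW0 hRH W1 hW10 hW1
  have hcs0 : 0 < cs := by linarith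
  have hZ0 : 0 < Z := by linarith
  have nd := nmpos hd.ne_zero
  have nq := nmpos hq.ne_zero
  have ng := nmpos hg.ne_zero
  have nκ := nmpos hκ.ne_zero
  have nF := nmpos hF.ne_zero
  have c1 : (1 : ℝ) ≤ nm cc := by exact_mod_cast (E3T829.Cd.nm_c_le hcc).1
  have d1 : (1 : ℝ) ≤ nm d := E1551.nm_ge_one hd.ne_zero
  have q1 : (1 : ℝ) ≤ nm q := E1551.nm_ge_one hq.ne_zero
  have g1 : (1 : ℝ) ≤ nm g := E1551.nm_ge_one hg.ne_zero
  have κ1 : (1 : ℝ) ≤ nm κ := E1551.nm_ge_one hκ.ne_zero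
  have F1 : (1 : ℝ) ≤ nm F := E1551.nm_ge_one hF.ne_zero
  have nc : (0 : ℝ) < nm cc := by linarith
  set t : UT := (d, e, q, cc, g, κ, 1, F) with ht
  have hYU : YU cs V t = cs * (V / nm cc / (nm q * (nm d : ℝ) ^ 2 * (nm g : ℝ) ^ 2) /
      (nm κ * 1 * nm F)) := by
    rw [ht]; unfold YU; simp only [nm_one, Nat.cast_one]
  have hLU : LtU K V H t = H * (V / nm cc) ^ 2 / (K * nm d) /
      ((nm κ * 1 : ℝ) ^ 2 * (nm q * nm g * nm F : ℝ) ^ 3) := by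
    rw [ht]; unfold LtU; simp only [nm_mul, nm_one, Nat.cast_one, Nat.cast_mul]
  have hIU : IlU cs K V H X t = X * (V / nm cc) * H / K /
      (cs * ((nm F : ℝ) ^ 2 * (nm q : ℝ) ^ 2 * nm g)) := by
    rw [ht]; rfl
  have hY0 : 0 < YU cs V t := by rw [hYU]; positivity
  have hL0 : 0 < LtU K V H t := by rw [hLU]; positivity
  have hI0 : 0 < IlU cs K V H X t := by rw [hIU]; positivity
  have hBs0 : 0 ≤ BsT cs K V H X W1 t := by
    unfold BsT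
    split_ifs
    · unfold Mode405.nfo
      have : (0 : ℝ) ≤ W1 t.1 t.2.1 := hW10
      positivity
    · exact le_rfl
  by_cases hY1 : 1 ≤ YU cs V t
  swap
  · exact MB_triv hw1 hZ hC hY0 (by linarith) hL0 hBs0
  -- the sizes
  have hVle : V / nm cc / (nm q * (nm d : ℝ) ^ 2 * (nm g : ℝ) ^ 2) / (nm κ * 1 * nm F) ≤ V := by
    have h1 : (1 : ℝ) ≤ nm q * (nm d : ℝ) ^ 2 * (nm g : ℝ) ^ 2 :=
      one_le_mul_of_one_le_of_one_le (one_le_mul_of_one_le_of_one_le q1 (one_le_pow₀ d1))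
        (one_le_pow₀ g1)
    have h2 : (1 : ℝ) ≤ nm κ * 1 * nm F := by
      rw [mul_one]; exact one_le_mul_of_one_le_of_one_le κ1 F1
    calc _ ≤ V / nm cc / (nm q * (nm d : ℝ) ^ 2 * (nm g : ℝ) ^ 2) :=
          div_le_self (by positivity) h2
      _ ≤ V / nm cc := div_le_self (by positivity) h1
      _ ≤ V := div_le_self hV.le c1
  have hYZ : YU cs V t ≤ Z := by
    rw [hYU]
    exact (mul_le_mul_of_nonneg_left hVle hcs0.le).trans hVZ
  have hLle : LtU K V H t ≤ H * V ^ 2 / (K * nm d) := by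
    rw [hLU]
    have h1 : (1 : ℝ) ≤ (nm κ * 1 : ℝ) ^ 2 * (nm q * nm g * nm F : ℝ) ^ 3 := by
      refine one_le_mul_of_one_le_of_one_le (one_le_pow₀ (by linarith)) (one_le_pow₀ ?_)
      exact one_le_mul_of_one_le_of_one_le (one_le_mul_of_one_le_of_one_le q1 g1) F1
    refine (div_le_self (by positivity) h1).trans ?_
    have h2 : V / nm cc ≤ V := div_le_self hV.le c1
    have h3 : 0 ≤ V / nm cc := by positivity
    gcongr
  have hexp : 1 ≤ Real.exp (2 * R0) := Real.one_le_exp (by positivity)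
  have hLX : LtU K V H t * Real.exp (2 * R0) < X / nm d := by
    calc LtU K V H t * Real.exp (2 * R0) ≤ H * V ^ 2 / (K * nm d) * Real.exp (2 * R0) :=
          mul_le_mul_of_nonneg_right hLle (Real.exp_pos _).le
      _ = (H * V ^ 2 * Real.exp (2 * R0)) / (K * nm d) := by ring
      _ < (K * X) / (K * nm d) := by
          refine div_lt_div_of_pos_right hKX (by positivity)
      _ = X / nm d := by field_simp
  have hXZ' : X ≤ Z := by
    refine le_trans ?_ hXZ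
    have h1 : 1 ≤ (nm κ : ℝ) * Real.exp R0 :=
      one_le_mul_of_one_le_of_one_le κ1 (Real.one_le_exp hR0)
    calc X ≤ (nm κ * Real.exp R0) * X := le_mul_of_one_le_left hX.le h1
      _ = _ := by ring
  have hLZ : LtU K V H t ≤ Z := by
    have h1 : LtU K V H t ≤ LtU K V H t * Real.exp (2 * R0) := le_mul_of_one_le_right hL0.le hexp
    have h2 : X / nm d ≤ X := div_le_self hX.le d1
    linarith
  have hIl : Il (nm κ * X / nm d) (LtU K V H t) (YU cs V t) = IlU cs K V H X t := by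
    rw [hLU, hYU, hIU]
    exact Il_eq hK hV hH hX hcs0 nd nq ng nκ nF nc
  have key := h A' hA' Z hZ af haf hsf d e q g κ F cc hd he hq hg hκ hF hcc hsq hnm X hX hwin hXZ
    W0 hW0 hRH (YU cs V t) (LtU K V H t) (W1 d e) hY1 hYZ hL0 hLZ hW10 (fun h1 => by
      refine ⟨?_, ?_⟩
      · refine hLX.trans_le ?_
        rw [mul_div_assoc]
        exact le_mul_of_one_le_left (by positivity) κ1
      · refine le_trans ?_ hW1
        refine mul_le_mul_of_nonneg_left ?_ (by positivity)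
        rw [hIl, hIU]
        refine slp_mono hW0 (by positivity) ?_
        have e1 : 81 * (c * (X * (V / nm cc) * H / K /
            (cs * ((nm F : ℝ) ^ 2 * (nm q : ℝ) ^ 2 * nm g))) *
            ((nm F : ℝ) ^ 2 * (nm q : ℝ) ^ 2 * nm g)) =
            81 * c * (X * V * H / K) / (nm cc * cs) := by
          field_simp
        rw [e1]
        exact div_le_self (by positivity) (one_le_mul_of_one_le_of_one_le c1 hcs))
  by_cases h1 : 1 ≤ LtU K V H t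
  · unfold BsT
    rw [if_pos h1, ← hIl]
    exact key
  · exact MB_lt h1 key

/-- the threshold of a cell after the dilation -/
lemma Lt_eq {K V H X cs d q g F c a D E v κ : ℝ} (hK : 0 < K) (hV : 0 < V) (hH : 0 < H)
    (hX : 0 < X) (hd : 0 < d) (hq : 0 < q) (hg : 0 < g) (hF : 0 < F) (hc : 0 < c) (ha : 0 < a)
    (hD : 0 < D) (hE : 0 < E) (hv : 0 < v) (hκ : 0 < κ) (h : a * D = E * v * κ) :
    X * (V / c) / K * H * (V / c / (q * d ^ 2 * g ^ 2) / (a * D * F)) /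
      (a * D * X / d * (q ^ 2 * g * F ^ 2)) / (E * v) =
      H * (V / c) ^ 2 / (K * d) / ((κ * 1) ^ 2 * (q * g * (F * E * v)) ^ 3) := by
  rw [h]
  field_simp

/-- **the hypothesis of `cell_UF`** -/
theorem MB_cell {χ : Eis → ℂ} (hχ : Mul1 χ) {w : ℝ → ℝ} (hw : Wgt w)
    (hP : PoHW OK3 nfo χ (w6 w)) (hw1 : ∀ x, w x ≠ 0 → x ≤ 1) {R0 : ℝ} (hR0 : 0 ≤ R0)
    (a A : ℕ) (hA : 1 < A) {ε : ℝ} (hε : 0 < ε) {cs : ℝ} (hcs : 1 ≤ cs) :
    ∃ (C c cw C₂ : ℝ) (A₀ : ℕ), 0 ≤ C ∧ 1 ≤ c ∧ 1 ≤ cw ∧ 0 ≤ C₂ ∧ ∀ A' : ℝ, (A₀ : ℝ) ≤ A' →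
      ∀ Zm : ℝ, 1 ≤ Zm → ∀ af : Eis → Eis → Eis → ℂ,
      ∀ K V V' H X : ℝ, 0 < K → 0 < V → 0 < V' → 0 < H → 0 < X →
      H * V ^ 2 * Real.exp (2 * R0) < K * X → cs * V ≤ Zm →
      ∀ (W0 : Eis → Eis → ℝ → ℝ) (W1 : Eis → Eis → ℝ) {Z : ℝ} {EE : Finset Eis} (x : Cd),
      x.OK Z EE → Squarefree (x.a * x.D * x.F) →
      IsCoprime (x.a * x.D * x.F) (x.g * x.d) → FS (af x.d x.e) →
      (∀ n, af x.d x.e n ≠ 0 → Squarefree n) →
      (∀ n, af x.d x.e n ≠ 0 → |Real.log (nm x.d * nm n) - Real.log X| ≤ R0) →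
      (nm (x.a * x.D) : ℝ) * (Real.exp R0 * X) ≤ Zm →
      (nm (x.q * x.g * (x.a * x.D * x.F)) : ℝ) ≤ Zm → Slp a (W0 x.d x.e) →
      (∀ γ π, IsPrim γ → IsPrim π → (nm π : ℝ) ≤ Zm ^ 4 → ∀ P : ℝ, 0 < P →
        (nm γ : ℝ) * n6 γ ^ 2 * ∑ r ∈ bl P, R3571.RMm A (af x.d x.e) x.e γ π r ≤
          W0 x.d x.e P) →
      0 ≤ W1 x.d x.e → C₂ * Zm ^ ε * W0 x.d x.e (c * (X * V * H / K)) ≤ W1 x.d x.e →
      ∀ v ∈ pdiv (x.a * x.D / x.E),
      MB χ w A' ε C cw (bF (x.a * x.D / (x.E * v)) (x.F * x.E * v)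
          (b0 (af x.d x.e) x.d x.e (x.q * x.c * x.g ^ 2)))
        (x.g * (x.a * x.D / (x.E * v)) * (x.F * x.E * v)) (x.a * x.D / (x.E * v))
        (cs * (x.cell K V V' H X x.xk).Y) ((x.cell K V V' H X x.xk).Lt / nm (x.E * v))
        (BsT cs K V H X W1 (dil x.U x.E v)) Zm := by
  obtain ⟨C, c, cw, C₂, A₀, hC, hc, hcw, hC₂, h⟩ := MB_dil hχ hw hP hw1 hR0 a A hA hε hcs
  refine ⟨C, c, cw, C₂, A₀, hC, hc, hcw, hC₂, ?_⟩
  intro A' hA' Zm hZm af K V V' H X hK hV hV' hH hX hKX hVZ W0 W1 Z EE x hx hsq hcop haf hsf hwin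
    hs1 hs2 hW0 hRH hW1 hW1' v hv
  have pD := hx.prim hx.D
  have pF := hx.prim hx.F
  have pg := hx.prim hx.g
  have pd := hx.prim hx.d
  have pq := hx.prim hx.q
  have hE' : x.E ∈ pdiv x.D :=
    (mem_pdiv pD.ne_zero).mpr ((Div277.mem_dvs pD.ne_zero).mp hx.E)
  obtain ⟨pE, pv, pκ, e1, -⟩ := dil_spec hx.a pD hE' hv
  set κ : Eis := x.a * x.D / (x.E * v) with hκ
  have pF' : IsPrim (x.F * x.E * v) := (pF.mul pE).mul pv
  have e2 : x.g * κ * (x.F * x.E * v) = x.g * (x.a * x.D * x.F) := by rw [e1]; ring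
  have hsg : Squarefree x.g := ((mem_S (by linarith [hx.Z1])).1 hx.g).2.2
  have hsq' : Squarefree (x.g * κ * (x.F * x.E * v)) := by
    rw [e2]
    exact squarefree_mul_iff.mpr ⟨(hcop.of_mul_right_left).symm.isRelPrime, hsg, hsq⟩
  have hnm : (nm (x.q * x.g * κ * (x.F * x.E * v)) : ℝ) ≤ Zm := by
    have e3 : x.q * x.g * κ * (x.F * x.E * v) = x.q * x.g * (x.a * x.D * x.F) := by
      calc _ = x.q * (x.g * κ * (x.F * x.E * v)) := by ring
        _ = _ := by rw [e2]; ring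
    rw [e3]; exact hs2
  have nE := nmpos pE.ne_zero
  have nv := nmpos pv.ne_zero
  have nκ := nmpos pκ.ne_zero
  have na := nmpos hx.a.ne_zero
  have nD := nmpos pD.ne_zero
  have nF := nmpos pF.ne_zero
  have ng := nmpos pg.ne_zero
  have nd := nmpos pd.ne_zero
  have nq := nmpos pq.ne_zero
  have nc : (0 : ℝ) < nm x.c := by
    have : (1 : ℝ) ≤ nm x.c := by exact_mod_cast (E3T829.Cd.nm_c_le hx.c).1
    linarith
  have e4 : (nm x.a : ℝ) * nm x.D = nm x.E * nm v * nm κ := by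
    have h1 := congrArg nm e1
    rw [nm_mul, nm_mul, nm_mul] at h1
    exact_mod_cast h1
  have hκX : (nm κ : ℝ) * (Real.exp R0 * X) ≤ Zm := by
    refine le_trans ?_ hs1
    have h1 : (nm κ : ℝ) ≤ nm (x.a * x.D) := by
      rw [nm_mul]; push_cast; rw [e4]
      have h2 : (1 : ℝ) ≤ nm x.E * nm v := one_le_mul_of_one_le_of_one_le
        (E1551.nm_ge_one pE.ne_zero) (E1551.nm_ge_one pv.ne_zero)
      exact le_mul_of_one_le_left nκ.le h2
    have h3 : 0 ≤ Real.exp R0 * X := by positivity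
    exact mul_le_mul_of_nonneg_right h1 h3
  have key := h A' hA' Zm hZm (af x.d x.e) haf hsf x.d x.e x.q x.g κ (x.F * x.E * v) x.c pd hx.pe
    pq pg pκ pF' hx.c hsq' hnm K V H X hK hV hH hX hKX hwin hκX hVZ (W0 x.d x.e) hW0 hRH W1 hW1
    hW1'
  have f1 : (x.d, x.e, x.q, x.c, x.g, κ, (1 : Eis), x.F * x.E * v) = dil x.U x.E v := rfl
  have f2 : YU cs V (x.d, x.e, x.q, x.c, x.g, κ, (1 : Eis), x.F * x.E * v) =
      cs * (x.cell K V V' H X x.xk).Y := by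
    unfold YU E3T829.Cd.cell E3Sr290.cellOf E3Sr290.CellD.Y E3Sr290.CellD.Z
    simp only [nm_mul, nm_one, Nat.cast_mul, Nat.cast_one]
    rw [e4]
    congr 2
    ring
  have f3 : LtU K V H (x.d, x.e, x.q, x.c, x.g, κ, (1 : Eis), x.F * x.E * v) =
      (x.cell K V V' H X x.xk).Lt / nm (x.E * v) := by
    unfold LtU E3T829.Cd.cell E3Sr290.cellOf E3Sr290.CellD.Lt E3Sr290.CellD.Is E3Sr290.CellD.Nb
      E3Sr290.CellD.zeta E3Sr290.CellD.Y E3Sr290.CellD.Z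
    simp only [nm_mul, nm_one, Nat.cast_mul, Nat.cast_one]
    exact (Lt_eq (cs := cs) hK hV hH hX nd nq ng nF nc na nD nE nv nκ e4).symm
  rw [f2, f3, f1] at key
  exact key

end Crest.Agent.R017.E3Sx579
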