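import Crest.Agent.R017.ROXb_744
import Crest.Agent.R017.E3Sx_579

/-!
# Row 17, T.7 (class E), E3: the bound of the modes of every dilated cell, in classes (helper744)

Helper579's `E3Sx_579` with two classes of frequencies (principal = `PrU u`):

* `PrU u` : the frequency `r` is principal: `r u²` is a cube (`u` = the twist of the window)
* `hyp_cellu`, `prOK_cellu` : the cell sequences
* `BsX` : the structured number, `nfo Lt I W1 + Lt I^(-2/3) Wx`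
* `MB_corex`, `MB_dilx`, `MB_cellx`
-/

set_option autoImplicit false
set_option linter.unusedVariables false

noncomputable section

open Complex MeasureTheory
open scoped ComplexConjugate Classical

namespace Crest.Agent.R017.ROX744

open Crest.Agent.R012 Crest.Agent.R012.Eis Crest.Agent.R012.MC
open Crest.Agent.R012.LS2 (S mem_S bl mem_bl)
open Crest.Agent.R012.Mob705 (mu pdiv mem_pdiv)
open Crest.Agent.R017.CM106 (CS TG FS)
open Crest.Agent.R017.BD829 (TT EQ EQ_nonneg Win)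
open Crest.Agent.R017.GrB829 (IsC)
open Crest.Agent.R017.PX764 (n6)
open Crest.Agent.R017.E1551 (nmpos)
open Crest.Agent.R017.E3D579 (uS bF b0 bt bt_supp FS_b0)
open Crest.Agent.R017.E3T829 (Cd UT kU kU_nonneg)
open Crest.Agent.R017.E3Zr579 (dil dil_spec)
open Crest.Agent.R017.Mode405
open Crest.Agent.R017.E3Su290 (MB)
open Crest.Agent.R017.E3Sx579
open Crest.Agent.R017.MX744
open Crest.Agent.R017.PoHx72

/-- the natural frequency `r` is principal; `u` = the twist of the window -/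
def PrU (u r : Eis) : Prop := ∃ c₀ : Eis, r * u ^ 2 = c₀ ^ 3

lemma cinv_PrU {u : Eis} (hu : u ≠ 0) : CInv (PrU u) := by
  intro r D hr hD
  unfold PrU
  have e1 : r * D ^ 3 * u ^ 2 = r * u ^ 2 * D ^ 3 := by ring
  rw [e1]
  exact cinv_cube (r * u ^ 2) D (mul_ne_zero hr (pow_ne_zero 2 hu)) hD

/-- **the predicate of a cell is admissible**, with the twist of the window -/
theorem prOK_cellu {a : Eis → ℂ} (ha : FS a) {d κ e f F u : Eis} (hκ : IsPrim κ) (hX : f * F ≠ 0)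
    (hu : u ≠ 0) (huc : ∀ p, IsPrim p → IsCoprime u p) :
    PrOK (bF κ F (b0 a d e f)) (Prk (u * (f * F)) κ) where
  cub D hD := by
    by_cases h : IsCoprime D κ
    · have e1 : Prk (u * (f * F)) κ D = Prc (u * (f * F)) D := by
        funext H
        unfold Prk
        simp [h]
      rw [e1]
      exact Prc_cub (mul_ne_zero hu hX) hD
    · have e1 : Prk (u * (f * F)) κ D = fun _ => False := by
        funext H
        unfold Prk
        simp [h]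
      rw [e1]
      exact Cub.false
  hcp D H hD hH hm hP := by
    obtain ⟨m, hm⟩ := hm
    obtain ⟨hDκ, hP⟩ := hP
    refine Prc_hcp ?_ hP
    unfold E3D579.bF at hm
    obtain ⟨n, hn, h2⟩ := bt_supp hκ.ne_zero hm
    have h3 : sy F n ≠ 0 := right_ne_zero_of_mul h2
    have h4 : b0 a d e f n ≠ 0 := left_ne_zero_of_mul h2
    have hp : IsPrim n := (FS_b0 ha d e f).prim _ h4
    have h5 : IsCoprime F n := (R3571.cop_m h3 hp).symm
    have h6 : IsCoprime f n := by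
      unfold E3D579.b0 at h4
      split_ifs at h4 with h7
      · exact h7.2.of_mul_right_right
      · exact absurd rfl h4
    have hDn : D ∣ n := by
      have h7 : D ∣ κ * n := ⟨m, hn.symm⟩
      exact hDκ.dvd_of_dvd_mul_left h7
    exact (huc D hD).mul_left ((h6.mul_left h5).of_isCoprime_of_dvd_right hDn)
  inv D H q hH hq := by
    by_cases hD : D = 0
    · subst hD
      unfold Prk Prc
      constructor
      · rintro ⟨h1, -⟩
        exact ⟨h1, 0, by ring⟩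
      · rintro ⟨h1, -⟩
        exact ⟨h1, 0, by ring⟩
    · unfold Prk
      rw [Prc_inv (mul_ne_zero hu hX) hD hH hq]

/-- **the hypothesis of `modeEx_MB` for a cell sequence**, with the twist of the window -/
theorem hyp_cellu {A : ℝ} (hA : 1 < A) {ε : ℝ} (hε : 0 < ε) : ∃ C : ℝ, 0 ≤ C ∧ ∀ Z N : ℝ, 1 ≤ Z →
    0 < N → N ≤ Z →
    ∀ a : Eis → ℂ, FS a → (∀ n, a n ≠ 0 → Squarefree n) →
    ∀ d e q g κ F c : Eis, IsPrim d → IsPrim e → IsPrim q → IsPrim g → IsPrim κ → IsPrim F →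
    IsC c → Squarefree (g * κ * F) → (nm (q * g * κ * F) : ℝ) ≤ Z → ∀ u : Eis, u ≠ 0 →
    ∀ W0 : Bool → ℝ → ℝ, (∀ jj γ π, IsPrim γ → IsPrim π → (nm π : ℝ) ≤ Z ^ 4 → ∀ P : ℝ, 0 < P →
      (nm γ : ℝ) * n6 γ ^ 2 * ∑ r ∈ (bl P).filter (Cls (PrU u) jj),
        R3571.RMm A a e γ π r ≤ W0 jj P) →
    ∀ jj γ φ x, Adm (N ^ 2) κ γ φ x → ∀ P : ℝ, 0 < P →
    ∑ d₁ ∈ pdiv (g * κ * F), (nm d₁ : ℝ)⁻¹ *
      ((nm γ : ℝ) * VIc A (bs (bF κ F (b0 a d e (q * c * g ^ 2))) d₁) γ φ 1 (nm d₁ * P / nm x)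
        (Cls (PrS (Prk (u * (q * c * g ^ 2 * F)) κ) d₁ γ) jj)) ≤
      C * Z ^ ε * W0 jj (81 * (P * ((nm F : ℝ) ^ 2 * (nm q : ℝ) ^ 2 * nm g))) := by
  obtain ⟨C, hC, h⟩ := hWx_of_q hA hε
  refine ⟨C, hC, ?_⟩
  intro Z N hZ hN hNZ a ha hsf d e q g κ F c hd he hq hg hκ hF hc hsq hnm u hu W0 hW0 jj γ φ x hadm
    P hP
  obtain ⟨hγ, hγκ, hφ, hx, C3, hC3, hC3N, hid⟩ := hadm
  have hC3Z : (nm C3 : ℝ) ≤ Z ^ 2 := hC3N.trans (pow_le_pow_left₀ hN.le hNZ 2)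
  refine h Z hZ (Cls (PrU u) jj) ?_ a ha hsf d e q g κ F c hd he hq hg hκ
    hF hc hsq hnm (W0 jj) (hW0 jj) γ φ x C3 hγ hγκ hφ hx hC3 hid hC3Z _ ?_ P hP
  · intro r D hr hD
    exact Cls_iff jj (cinv_PrU hu r D hr hD)
  · intro d₁ H _ hH hQ
    refine (Cls_iff jj ?_).1 hQ
    unfold PrS Prk Prc PrU
    have e1 : H * (d₁ * (q * c * g ^ 2 * F) * γ) ^ 2 * u ^ 2 =
        γ ^ 2 * (H * d₁ ^ 2 * (u * (q * c * g ^ 2 * F)) ^ 2) := by ring
    rw [e1]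
    exact ⟨fun h => h.2, fun h => ⟨hγκ, h⟩⟩

/-- the structured number of the mode call with the variables `t`, two classes -/
def BsX (cs K V H X : ℝ) (W1 Wx : Eis → Eis → ℝ) (t : UT) : ℝ :=
  if 1 ≤ LtU K V H t then nfo (LtU K V H t) (IlU cs K V H X t) * W1 t.1 t.2.1 +
    LtU K V H t * (IlU cs K V H X t) ^ (-(2 / 3) : ℝ) * Wx t.1 t.2.1 else 0

lemma BsX_nonneg {cs K V H X : ℝ} (hcs : 1 ≤ cs) (hK : 0 < K) (hV : 0 < V) (hH : 0 < H)
    (hX : 0 < X) {W1 Wx : Eis → Eis → ℝ} (hW1 : ∀ d e, 0 ≤ W1 d e) (hWx : ∀ d e, 0 ≤ Wx d e)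
    (t : UT) : 0 ≤ BsX cs K V H X W1 Wx t := by
  unfold BsX
  have h1 := LtU_nonneg (V := V) hK hH t
  have h2 := IlU_nonneg hcs hK hV hH hX t
  have h3 := hW1 t.1 t.2.1
  have h4 := hWx t.1 t.2.1
  split_ifs
  · unfold Mode405.nfo
    positivity
  · exact le_rfl

/-- **`MB` of the coefficient of a cell** -/
theorem MB_corex {χ : Eis → ℂ} (hχ : Mul1 χ) {w : ℝ → ℝ} (hw : Wgt w)
    (hP : PoHWx χ (w6 w)) {R0 : ℝ} (hR0 : 0 ≤ R0) (a A : ℕ) (hA : 1 < A) {ε : ℝ}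
    (hε : 0 < ε) :
    ∃ (C c cw C₂ : ℝ) (A₀ : ℕ), 0 ≤ C ∧ 1 ≤ c ∧ 1 ≤ cw ∧ 0 ≤ C₂ ∧ ∀ A' : ℝ, (A₀ : ℝ) ≤ A' →
      ∀ Z : ℝ, 1 ≤ Z → ∀ af : Eis → ℂ, FS af → (∀ n, af n ≠ 0 → Squarefree n) →
      ∀ d e q g κ F cc : Eis, IsPrim d → IsPrim e → IsPrim q → IsPrim g → IsPrim κ → IsPrim F →
      IsC cc → Squarefree (g * κ * F) → (nm (q * g * κ * F) : ℝ) ≤ Z →
      ∀ X : ℝ, 0 < X → (∀ n, af n ≠ 0 → |Real.log (nm d * nm n) - Real.log X| ≤ R0) →
      (nm κ : ℝ) * (Real.exp R0 * X) ≤ Z →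
      ∀ u : Eis, u ≠ 0 → (∀ p, IsPrim p → IsCoprime u p) →
      ∀ W0 : Bool → ℝ → ℝ, (∀ jj, Slp a (W0 jj)) →
        (∀ jj γ π, IsPrim γ → IsPrim π → (nm π : ℝ) ≤ Z ^ 4 →
        ∀ P : ℝ, 0 < P → (nm γ : ℝ) * n6 γ ^ 2 *
          ∑ r ∈ (bl P).filter (Cls (PrU u) jj), R3571.RMm A af e γ π r ≤ W0 jj P) →
      ∀ (Y Lt : ℝ) (W1 : Bool → ℝ), 1 ≤ Y → Y ≤ Z → 0 < Lt → Lt ≤ Z → (∀ jj, 0 ≤ W1 jj) →
      (1 ≤ Lt → Lt * Real.exp (2 * R0) < nm κ * X / nm d ∧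
        ∀ jj, C₂ * Z ^ ε * W0 jj (81 * (c * Il (nm κ * X / nm d) Lt Y *
          ((nm F : ℝ) ^ 2 * (nm q : ℝ) ^ 2 * nm g))) ≤ W1 jj) →
      MB χ w A' ε C cw (bF κ F (b0 af d e (q * cc * g ^ 2))) (g * κ * F) κ Y Lt
        (∑ jj : Bool, nfx jj Lt (Il (nm κ * X / nm d) Lt Y) * W1 jj) Z := by
  obtain ⟨C, c, cw, A₀, hC, hc, hcw, h⟩ := modeEx_MB hχ hw hP
    (R := 2 * R0) (by positivity) a A hA hε
  obtain ⟨C₂, hC₂, h2⟩ := hyp_cellu (A := (A : ℝ)) (by exact_mod_cast hA) hε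
  refine ⟨C, c, cw, C₂, A₀, hC, hc, hcw, hC₂, ?_⟩
  intro A' hA' Z hZ af haf hsf d e q g κ F cc hd he hq hg hκ hF hcc hsq hnm X hX hwin hXZ u hu huc W0 hW0
    hRH Y Lt W1 hY hYZ hLt hLtZ hW1 hyp
  have hZ0 : 0 < Z := by linarith
  have nd := nmpos hd.ne_zero
  have nκ := nmpos hκ.ne_zero
  have nF := nmpos hF.ne_zero
  have nq := nmpos hq.ne_zero
  have ng := nmpos hg.ne_zero
  have hd1 : (1 : ℝ) ≤ nm d := E1551.nm_ge_one hd.ne_zero
  have hκ1 : (1 : ℝ) ≤ nm κ := E1551.nm_ge_one hκ.ne_zero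
  have hN : 0 < (nm κ : ℝ) * X / nm d := by positivity
  have hexp1 : 1 ≤ Real.exp R0 := Real.one_le_exp hR0
  have hNZ : (nm κ : ℝ) * X / nm d ≤ Z := by
    refine le_trans ?_ hXZ
    calc (nm κ : ℝ) * X / nm d ≤ nm κ * X := div_le_self (by positivity) hd1
      _ ≤ nm κ * (Real.exp R0 * X) := by
        refine mul_le_mul_of_nonneg_left ?_ nκ.le
        exact le_mul_of_one_le_left hX.le hexp1
  have hsκ : Squarefree κ := (hsq.of_mul_left).of_mul_right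
  set b : Eis → ℂ := bF κ F (b0 af d e (q * cc * g ^ 2)) with hb
  -- the window
  have hw1 : ∀ n, b n ≠ 0 → ∃ m, n = κ * m ∧ af m ≠ 0 ∧ IsCoprime κ m ∧ IsPrim m := by
    intro n hn
    obtain ⟨m, h1, h3, h4⟩ := supp_b hκ hn
    have hm : IsPrim m := haf.prim m h3
    refine ⟨m, h1, h3, ?_, hm⟩
    by_contra h5
    exact h4 ((Gauss880.syG.eq_zero κ m hm).mpr h5)
  have hbW : Win b (Real.log (nm κ * X / nm d)) (2 * R0) := by
    intro n hn
    obtain ⟨m, h1, h3, -, hm⟩ := hw1 n hn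
    have nm' := nmpos hm.ne_zero
    have h5 := hwin m h3
    rw [h1, nm_mul]
    push_cast
    have e1 : Real.log (nm κ * nm m) - Real.log (nm κ * X / nm d) =
        Real.log (nm d * nm m) - Real.log X := by
      rw [Real.log_mul nκ.ne' nm'.ne', Real.log_div (by positivity) nd.ne',
        Real.log_mul nκ.ne' hX.ne', Real.log_mul nd.ne' nm'.ne']
      ring
    rw [e1]
    linarith
  have hbS : ∀ n, b n ≠ 0 → n ∈ S Z := by
    intro n hn
    obtain ⟨m, h1, h3, h4, hm⟩ := hw1 n hn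
    have nm' := nmpos hm.ne_zero
    rw [mem_S hZ0.le]
    refine ⟨?_, h1 ▸ hκ.mul hm, ?_⟩
    · refine le_trans ?_ hXZ
      rw [h1, nm_mul]
      push_cast
      refine mul_le_mul_of_nonneg_left ?_ nκ.le
      have h5 := (abs_le.mp (hwin m h3)).2
      have h6 : Real.log (nm d * nm m) ≤ Real.log (Real.exp R0 * X) := by
        rw [Real.log_mul (Real.exp_pos R0).ne' hX.ne', Real.log_exp]
        linarith
      have h7 := (Real.log_le_log_iff (by positivity) (by positivity)).mp h6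
      refine le_trans ?_ h7
      exact le_mul_of_one_le_left nm'.le hd1
    · rw [h1]
      exact squarefree_mul_iff.mpr ⟨h4.isRelPrime, hsκ, hsf m h3⟩
  have hz : (0 : ℝ) < (nm F : ℝ) ^ 2 * (nm q : ℝ) ^ 2 * nm g := by positivity
  have hCZ : 0 ≤ C₂ * Z ^ ε := by positivity
  have hκZ : (nm κ : ℝ) ≤ Z := by
    refine le_trans ?_ hnm
    have h5 : nm κ ≤ nm (q * g * κ * F) := by
      rw [nm_mul, nm_mul, nm_mul]
      have k1 : 0 < nm q := nm_pos.mpr hq.ne_zero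
      have k2 : 0 < nm g := nm_pos.mpr hg.ne_zero
      have k3 : 0 < nm F := nm_pos.mpr hF.ne_zero
      calc nm κ ≤ nm q * nm g * nm κ := Nat.le_mul_of_pos_left _ (by positivity)
        _ ≤ _ := Nat.le_mul_of_pos_right _ k3
    exact_mod_cast h5
  have hX0 : q * cc * g ^ 2 * F ≠ 0 := mul_ne_zero (mul_ne_zero (mul_ne_zero hq.ne_zero
    (R3571.c_ne hcc)) (pow_ne_zero 2 hg.ne_zero)) hF.ne_zero
  refine h A' hA' Z (nm κ * X / nm d) Y Lt hZ hN hNZ hY hYZ hLt hLtZ b (g * κ * F) κ hbS hbW hκ hκZ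
    (Prk (u * (q * cc * g ^ 2 * F)) κ)
    (fun jj P => C₂ * Z ^ ε * W0 jj (81 * (P * ((nm F : ℝ) ^ 2 * (nm q : ℝ) ^ 2 * nm g)))) W1 hW1 ?_
  intro h1
  obtain ⟨h3, h4⟩ := hyp h1
  refine ⟨h3, prOK_cellu haf hκ hX0 hu huc, fun jj => slp_scale (hW0 jj) hCZ hz, h4, ?_⟩
  intro jj γ φ x hadm P hP
  exact h2 Z (nm κ * X / nm d) hZ hN hNZ af haf hsf d e q g κ F cc hd he hq hg hκ hF hcc hsq hnm u
    hu W0 hRH jj γ φ x hadm P hP

/-- **`MB` at the lengths of a cell** -/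
theorem MB_dilx {χ : Eis → ℂ} (hχ : Mul1 χ) {w : ℝ → ℝ} (hw : Wgt w)
    (hP : PoHWx χ (w6 w)) (hw1 : ∀ x, w x ≠ 0 → x ≤ 1) {R0 : ℝ} (hR0 : 0 ≤ R0)
    (a A : ℕ) (hA : 1 < A) {ε : ℝ} (hε : 0 < ε) {cs : ℝ} (hcs : 1 ≤ cs) :
    ∃ (C c cw C₂ : ℝ) (A₀ : ℕ), 0 ≤ C ∧ 1 ≤ c ∧ 1 ≤ cw ∧ 0 ≤ C₂ ∧ ∀ A' : ℝ, (A₀ : ℝ) ≤ A' →
      ∀ Z : ℝ, 1 ≤ Z → ∀ af : Eis → ℂ, FS af → (∀ n, af n ≠ 0 → Squarefree n) →
      ∀ d e q g κ F cc : Eis, IsPrim d → IsPrim e → IsPrim q → IsPrim g → IsPrim κ → IsPrim F →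
      IsC cc → Squarefree (g * κ * F) → (nm (q * g * κ * F) : ℝ) ≤ Z →
      ∀ K V H X : ℝ, 0 < K → 0 < V → 0 < H → 0 < X → H * V ^ 2 * Real.exp (2 * R0) < K * X →
      (∀ n, af n ≠ 0 → |Real.log (nm d * nm n) - Real.log X| ≤ R0) →
      (nm κ : ℝ) * (Real.exp R0 * X) ≤ Z → cs * V ≤ Z →
      ∀ u : Eis, u ≠ 0 → (∀ p, IsPrim p → IsCoprime u p) →
      ∀ W0 : Bool → ℝ → ℝ, (∀ jj, Slp a (W0 jj)) →
        (∀ jj γ π, IsPrim γ → IsPrim π → (nm π : ℝ) ≤ Z ^ 4 →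
        ∀ P : ℝ, 0 < P → (nm γ : ℝ) * n6 γ ^ 2 *
          ∑ r ∈ (bl P).filter (Cls (PrU u) jj), R3571.RMm A af e γ π r ≤ W0 jj P) →
      ∀ W1 Wx : Eis → Eis → ℝ, 0 ≤ W1 d e → 0 ≤ Wx d e →
      C₂ * Z ^ ε * W0 false (c * (X * V * H / K)) ≤ W1 d e →
      C₂ * Z ^ ε * W0 true (c * (X * V * H / K)) ≤ Wx d e →
      MB χ w A' ε C cw (bF κ F (b0 af d e (q * cc * g ^ 2))) (g * κ * F) κ
        (YU cs V (d, e, q, cc, g, κ, 1, F)) (LtU K V H (d, e, q, cc, g, κ, 1, F))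
        (BsX cs K V H X W1 Wx (d, e, q, cc, g, κ, 1, F)) Z := by
  obtain ⟨C, c, cw, C₂, A₀, hC, hc, hcw, hC₂, h⟩ := MB_corex hχ hw hP hR0 a A hA hε
  refine ⟨C, 81 * c, cw, C₂, A₀, hC, by linarith, hcw, hC₂, ?_⟩
  intro A' hA' Z hZ af haf hsf d e q g κ F cc hd he hq hg hκ hF hcc hsq hnm K V H X hK hV hH hX
    hKX hwin hXZ hVZ u hu huc W0 hW0 hRH W1 Wx hW10 hWx0 hW1 hWx
  have hcs0 : 0 < cs := by linarith
  have hZ0 : 0 < Z := by linarith
  have nd := nmpos hd.ne_zero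
  have nq := nmpos hq.ne_zero
  have ng := nmpos hg.ne_zero
  have nκ := nmpos hκ.ne_zero
  have nF := nmpos hF.ne_zero
  have c1 : (1 : ℝ) ≤ nm cc := by exact_mod_cast (E3T829.Cd.nm_c_le hcc).1
  have d1 : (1 : ℝ) ≤ nm d := E1551.nm_ge_one hd.ne_zero
  have q1 : (1 : ℝ) ≤ nm q := E1551.nm_ge_one hq.ne_zero
  have g1 : (1 : ℝ) ≤ nm g := E1551.nm_ge_one hg.ne_zero
  have κ1 : (1 : ℝ) ≤ nm κ := E1551.nm_ge_one hκ.ne_zero
  have F1 : (1 : ℝ) ≤ nm F := E1551.nm_ge_one hF.ne_zero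
  have nc : (0 : ℝ) < nm cc := by linarith
  set t : UT := (d, e, q, cc, g, κ, 1, F) with ht
  have hYU : YU cs V t = cs * (V / nm cc / (nm q * (nm d : ℝ) ^ 2 * (nm g : ℝ) ^ 2) /
      (nm κ * 1 * nm F)) := by
    rw [ht]; unfold YU; simp only [nm_one, Nat.cast_one]
  have hLU : LtU K V H t = H * (V / nm cc) ^ 2 / (K * nm d) /
      ((nm κ * 1 : ℝ) ^ 2 * (nm q * nm g * nm F : ℝ) ^ 3) := by
    rw [ht]; unfold LtU; simp only [nm_mul, nm_one, Nat.cast_one, Nat.cast_mul]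
  have hIU : IlU cs K V H X t = X * (V / nm cc) * H / K /
      (cs * ((nm F : ℝ) ^ 2 * (nm q : ℝ) ^ 2 * nm g)) := by
    rw [ht]; rfl
  have hY0 : 0 < YU cs V t := by rw [hYU]; positivity
  have hL0 : 0 < LtU K V H t := by rw [hLU]; positivity
  have hI0 : 0 < IlU cs K V H X t := by rw [hIU]; positivity
  have hBs0 : 0 ≤ BsX cs K V H X W1 Wx t := by
    unfold BsX
    split_ifs
    · unfold Mode405.nfo
      have : (0 : ℝ) ≤ W1 t.1 t.2.1 := hW10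
      have : (0 : ℝ) ≤ Wx t.1 t.2.1 := hWx0
      positivity
    · exact le_rfl
  by_cases hY1 : 1 ≤ YU cs V t
  swap
  · exact MB_triv hw1 hZ hC hY0 (by linarith) hL0 hBs0
  -- the sizes
  have hVle : V / nm cc / (nm q * (nm d : ℝ) ^ 2 * (nm g : ℝ) ^ 2) / (nm κ * 1 * nm F) ≤ V := by
    have h1 : (1 : ℝ) ≤ nm q * (nm d : ℝ) ^ 2 * (nm g : ℝ) ^ 2 :=
      one_le_mul_of_one_le_of_one_le (one_le_mul_of_one_le_of_one_le q1 (one_le_pow₀ d1))
        (one_le_pow₀ g1)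
    have h2 : (1 : ℝ) ≤ nm κ * 1 * nm F := by
      rw [mul_one]; exact one_le_mul_of_one_le_of_one_le κ1 F1
    calc _ ≤ V / nm cc / (nm q * (nm d : ℝ) ^ 2 * (nm g : ℝ) ^ 2) :=
          div_le_self (by positivity) h2
      _ ≤ V / nm cc := div_le_self (by positivity) h1
      _ ≤ V := div_le_self hV.le c1
  have hYZ : YU cs V t ≤ Z := by
    rw [hYU]
    exact (mul_le_mul_of_nonneg_left hVle hcs0.le).trans hVZ
  have hLle : LtU K V H t ≤ H * V ^ 2 / (K * nm d) := by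
    rw [hLU]
    have h1 : (1 : ℝ) ≤ (nm κ * 1 : ℝ) ^ 2 * (nm q * nm g * nm F : ℝ) ^ 3 := by
      refine one_le_mul_of_one_le_of_one_le (one_le_pow₀ (by linarith)) (one_le_pow₀ ?_)
      exact one_le_mul_of_one_le_of_one_le (one_le_mul_of_one_le_of_one_le q1 g1) F1
    refine (div_le_self (by positivity) h1).trans ?_
    have h2 : V / nm cc ≤ V := div_le_self hV.le c1
    have h3 : 0 ≤ V / nm cc := by positivity
    gcongr
  have hexp : 1 ≤ Real.exp (2 * R0) := Real.one_le_exp (by positivity)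
  have hLX : LtU K V H t * Real.exp (2 * R0) < X / nm d := by
    calc LtU K V H t * Real.exp (2 * R0) ≤ H * V ^ 2 / (K * nm d) * Real.exp (2 * R0) :=
          mul_le_mul_of_nonneg_right hLle (Real.exp_pos _).le
      _ = (H * V ^ 2 * Real.exp (2 * R0)) / (K * nm d) := by ring
      _ < (K * X) / (K * nm d) := by
          refine div_lt_div_of_pos_right hKX (by positivity)
      _ = X / nm d := by field_simp
  have hXZ' : X ≤ Z := by
    refine le_trans ?_ hXZ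
    have h1 : 1 ≤ (nm κ : ℝ) * Real.exp R0 :=
      one_le_mul_of_one_le_of_one_le κ1 (Real.one_le_exp hR0)
    calc X ≤ (nm κ * Real.exp R0) * X := le_mul_of_one_le_left hX.le h1
      _ = _ := by ring
  have hLZ : LtU K V H t ≤ Z := by
    have h1 : LtU K V H t ≤ LtU K V H t * Real.exp (2 * R0) := le_mul_of_one_le_right hL0.le hexp
    have h2 : X / nm d ≤ X := div_le_self hX.le d1
    linarith
  have hIl : Il (nm κ * X / nm d) (LtU K V H t) (YU cs V t) = IlU cs K V H X t := by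
    rw [hLU, hYU, hIU]
    exact Il_eq hK hV hH hX hcs0 nd nq ng nκ nF nc
  have key := h A' hA' Z hZ af haf hsf d e q g κ F cc hd he hq hg hκ hF hcc hsq hnm X hX hwin hXZ
    u hu huc W0 hW0 hRH (YU cs V t) (LtU K V H t) (fun jj => if jj then Wx d e else W1 d e) hY1 hYZ
    hL0 hLZ (fun jj => by cases jj <;> simpa) (fun h1 => by
      refine ⟨?_, ?_⟩
      · refine hLX.trans_le ?_
        rw [mul_div_assoc]
        exact le_mul_of_one_le_left (by positivity) κ1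
      · intro jj
        have hmain : C₂ * Z ^ ε * W0 jj (c * 81 * (X * V * H / K)) ≤
            (if jj then Wx d e else W1 d e) := by
          rw [mul_comm c 81]
          cases jj
          · simpa using hW1
          · simpa using hWx
        refine le_trans ?_ hmain
        rw [mul_comm c 81]
        refine mul_le_mul_of_nonneg_left ?_ (by positivity)
        rw [hIl, hIU]
        refine slp_mono (hW0 jj) (by positivity) ?_
        have e1 : 81 * (c * (X * (V / nm cc) * H / K /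
            (cs * ((nm F : ℝ) ^ 2 * (nm q : ℝ) ^ 2 * nm g))) *
            ((nm F : ℝ) ^ 2 * (nm q : ℝ) ^ 2 * nm g)) =
            81 * c * (X * V * H / K) / (nm cc * cs) := by
          field_simp
        rw [e1]
        exact div_le_self (by positivity) (one_le_mul_of_one_le_of_one_le c1 hcs))
  by_cases h1 : 1 ≤ LtU K V H t
  · unfold BsX
    rw [if_pos h1, ← hIl]
    have e5 : nfo (LtU K V H t) (Il (nm κ * X / nm d) (LtU K V H t) (YU cs V t)) * W1 t.1 t.2.1 +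
        LtU K V H t * (Il (nm κ * X / nm d) (LtU K V H t) (YU cs V t)) ^ (-(2 / 3) : ℝ) *
          Wx t.1 t.2.1 = ∑ jj : Bool, nfx jj (LtU K V H t)
          (Il (nm κ * X / nm d) (LtU K V H t) (YU cs V t)) * (if jj then Wx d e else W1 d e) := by
      rw [Fintype.sum_bool]
      unfold nfx
      simp only [if_true, Bool.false_eq_true, if_false]
      rw [add_comm]
      rfl
    rw [e5]
    exact key
  · exact MB_lt h1 key

/-- **the hypothesis of `cell_UF`** -/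
theorem MB_cellx {χ : Eis → ℂ} (hχ : Mul1 χ) {w : ℝ → ℝ} (hw : Wgt w)
    (hP : PoHWx χ (w6 w)) (hw1 : ∀ x, w x ≠ 0 → x ≤ 1) {R0 : ℝ} (hR0 : 0 ≤ R0)
    (a A : ℕ) (hA : 1 < A) {ε : ℝ} (hε : 0 < ε) {cs : ℝ} (hcs : 1 ≤ cs) :
    ∃ (C c cw C₂ : ℝ) (A₀ : ℕ), 0 ≤ C ∧ 1 ≤ c ∧ 1 ≤ cw ∧ 0 ≤ C₂ ∧ ∀ A' : ℝ, (A₀ : ℝ) ≤ A' →
      ∀ Zm : ℝ, 1 ≤ Zm → ∀ af : Eis → Eis → Eis → ℂ,
      ∀ K V V' H X : ℝ, 0 < K → 0 < V → 0 < V' → 0 < H → 0 < X →
      H * V ^ 2 * Real.exp (2 * R0) < K * X → cs * V ≤ Zm →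
      ∀ (u : Eis), u ≠ 0 → (∀ p, IsPrim p → IsCoprime u p) →
      ∀ (W0 : Bool → Eis → Eis → ℝ → ℝ) (W1 Wx : Eis → Eis → ℝ) {Z : ℝ} {EE : Finset Eis} (x : Cd),
      x.OK Z EE → Squarefree (x.a * x.D * x.F) →
      IsCoprime (x.a * x.D * x.F) (x.g * x.d) → FS (af x.d x.e) →
      (∀ n, af x.d x.e n ≠ 0 → Squarefree n) →
      (∀ n, af x.d x.e n ≠ 0 → |Real.log (nm x.d * nm n) - Real.log X| ≤ R0) →
      (nm (x.a * x.D) : ℝ) * (Real.exp R0 * X) ≤ Zm →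
      (nm (x.q * x.g * (x.a * x.D * x.F)) : ℝ) ≤ Zm → (∀ jj, Slp a (W0 jj x.d x.e)) →
      (∀ jj γ π, IsPrim γ → IsPrim π → (nm π : ℝ) ≤ Zm ^ 4 → ∀ P : ℝ, 0 < P →
        (nm γ : ℝ) * n6 γ ^ 2 * ∑ r ∈ (bl P).filter (Cls (PrU u) jj),
          R3571.RMm A (af x.d x.e) x.e γ π r ≤ W0 jj x.d x.e P) →
      0 ≤ W1 x.d x.e → 0 ≤ Wx x.d x.e →
      C₂ * Zm ^ ε * W0 false x.d x.e (c * (X * V * H / K)) ≤ W1 x.d x.e →
      C₂ * Zm ^ ε * W0 true x.d x.e (c * (X * V * H / K)) ≤ Wx x.d x.e →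
      ∀ v ∈ pdiv (x.a * x.D / x.E),
      MB χ w A' ε C cw (bF (x.a * x.D / (x.E * v)) (x.F * x.E * v)
          (b0 (af x.d x.e) x.d x.e (x.q * x.c * x.g ^ 2)))
        (x.g * (x.a * x.D / (x.E * v)) * (x.F * x.E * v)) (x.a * x.D / (x.E * v))
        (cs * (x.cell K V V' H X x.xk).Y) ((x.cell K V V' H X x.xk).Lt / nm (x.E * v))
        (BsX cs K V H X W1 Wx (dil x.U x.E v)) Zm := by
  obtain ⟨C, c, cw, C₂, A₀, hC, hc, hcw, hC₂, h⟩ := MB_dilx hχ hw hP hw1 hR0 a A hA hε hcs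
  refine ⟨C, c, cw, C₂, A₀, hC, hc, hcw, hC₂, ?_⟩
  intro A' hA' Zm hZm af K V V' H X hK hV hV' hH hX hKX hVZ u hu huc W0 W1 Wx Z EE x hx hsq hcop haf
    hsf hwin hs1 hs2 hW0 hRH hW1 hWx hW1' hWx' v hv
  have pD := hx.prim hx.D
  have pF := hx.prim hx.F
  have pg := hx.prim hx.g
  have pd := hx.prim hx.d
  have pq := hx.prim hx.q
  have hE' : x.E ∈ pdiv x.D :=
    (mem_pdiv pD.ne_zero).mpr ((Div277.mem_dvs pD.ne_zero).mp hx.E)
  obtain ⟨pE, pv, pκ, e1, -⟩ := dil_spec hx.a pD hE' hv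
  set κ : Eis := x.a * x.D / (x.E * v) with hκ
  have pF' : IsPrim (x.F * x.E * v) := (pF.mul pE).mul pv
  have e2 : x.g * κ * (x.F * x.E * v) = x.g * (x.a * x.D * x.F) := by rw [e1]; ring
  have hsg : Squarefree x.g := ((mem_S (by linarith [hx.Z1])).1 hx.g).2.2
  have hsq' : Squarefree (x.g * κ * (x.F * x.E * v)) := by
    rw [e2]
    exact squarefree_mul_iff.mpr ⟨(hcop.of_mul_right_left).symm.isRelPrime, hsg, hsq⟩
  have hnm : (nm (x.q * x.g * κ * (x.F * x.E * v)) : ℝ) ≤ Zm := by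
    have e3 : x.q * x.g * κ * (x.F * x.E * v) = x.q * x.g * (x.a * x.D * x.F) := by
      calc _ = x.q * (x.g * κ * (x.F * x.E * v)) := by ring
        _ = _ := by rw [e2]; ring
    rw [e3]; exact hs2
  have nE := nmpos pE.ne_zero
  have nv := nmpos pv.ne_zero
  have nκ := nmpos pκ.ne_zero
  have na := nmpos hx.a.ne_zero
  have nD := nmpos pD.ne_zero
  have nF := nmpos pF.ne_zero
  have ng := nmpos pg.ne_zero
  have nd := nmpos pd.ne_zero
  have nq := nmpos pq.ne_zero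
  have nc : (0 : ℝ) < nm x.c := by
    have : (1 : ℝ) ≤ nm x.c := by exact_mod_cast (E3T829.Cd.nm_c_le hx.c).1
    linarith
  have e4 : (nm x.a : ℝ) * nm x.D = nm x.E * nm v * nm κ := by
    have h1 := congrArg nm e1
    rw [nm_mul, nm_mul, nm_mul] at h1
    exact_mod_cast h1
  have hκX : (nm κ : ℝ) * (Real.exp R0 * X) ≤ Zm := by
    refine le_trans ?_ hs1
    have h1 : (nm κ : ℝ) ≤ nm (x.a * x.D) := by
      rw [nm_mul]; push_cast; rw [e4]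
      have h2 : (1 : ℝ) ≤ nm x.E * nm v := one_le_mul_of_one_le_of_one_le
        (E1551.nm_ge_one pE.ne_zero) (E1551.nm_ge_one pv.ne_zero)
      exact le_mul_of_one_le_left nκ.le h2
    have h3 : 0 ≤ Real.exp R0 * X := by positivity
    exact mul_le_mul_of_nonneg_right h1 h3
  have key := h A' hA' Zm hZm (af x.d x.e) haf hsf x.d x.e x.q x.g κ (x.F * x.E * v) x.c pd hx.pe
    pq pg pκ pF' hx.c hsq' hnm K V H X hK hV hH hX hKX hwin hκX hVZ u hu huc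
    (fun jj => W0 jj x.d x.e) hW0 hRH W1 Wx hW1 hWx hW1' hWx'
  have f1 : (x.d, x.e, x.q, x.c, x.g, κ, (1 : Eis), x.F * x.E * v) = dil x.U x.E v := rfl
  have f2 : YU cs V (x.d, x.e, x.q, x.c, x.g, κ, (1 : Eis), x.F * x.E * v) =
      cs * (x.cell K V V' H X x.xk).Y := by
    unfold YU E3T829.Cd.cell E3Sr290.cellOf E3Sr290.CellD.Y E3Sr290.CellD.Z
    simp only [nm_mul, nm_one, Nat.cast_mul, Nat.cast_one]
    rw [e4]
    congr 2
    ring
  have f3 : LtU K V H (x.d, x.e, x.q, x.c, x.g, κ, (1 : Eis), x.F * x.E * v) =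
      (x.cell K V V' H X x.xk).Lt / nm (x.E * v) := by
    unfold LtU E3T829.Cd.cell E3Sr290.cellOf E3Sr290.CellD.Lt E3Sr290.CellD.Is E3Sr290.CellD.Nb
      E3Sr290.CellD.zeta E3Sr290.CellD.Y E3Sr290.CellD.Z
    simp only [nm_mul, nm_one, Nat.cast_mul, Nat.cast_one]
    exact (Lt_eq (cs := cs) hK hV hH hX nd nq ng nF nc na nD nE nv nκ e4).symm
  rw [f2, f3, f1] at key
  exact key

end Crest.Agent.R017.ROX744
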