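import Crest.Agent.R017.MDxe_405
import Crest.Agent.R017.MDxd_744
import Crest.Agent.R017.ROXc_744
import Crest.Agent.R017.E3Sx3_579

/-!
# Row 17, T.7 (class E), E3: the canonical number at a cell and at a family of cells, two classes
(helper405)

* `bsq_cellx` : helper579's `bsq_cell` in classes
* `FamX`, `bsq_cellfx_of`, `bsq_cellfx` : helper579's `bsq_cellf` in classes
-/

set_option autoImplicit false
set_option linter.unusedVariables false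

noncomputable section

open Complex MeasureTheory
open scoped ComplexConjugate Classical

namespace Crest.Agent.R017.Cx405

open Crest.Agent.R012 Crest.Agent.R012.Eis Crest.Agent.R012.MC
open Crest.Agent.R012.LS2 (S mem_S bl mem_bl)
open Crest.Agent.R012.Mob705 (mu pdiv mem_pdiv)
open Crest.Agent.R017.CM106 (CS TG FS)
open Crest.Agent.R017.BD829 (TT EQ EQ_nonneg Win)
open Crest.Agent.R017.GrB829 (IsC)
open Crest.Agent.R017.PX764 (n6)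
open Crest.Agent.R017.E1551 (nmpos)
open Crest.Agent.R017.E3D579 (uS bF b0 bt bt_supp FS_b0)
open Crest.Agent.R017.Mode405
open Crest.Agent.R017.E3Sx579
open Crest.Agent.R017.MX744
open Crest.Agent.R017.ROX744
open Crest.Agent.R017.PoHx72

/-- **first form at a cell**, two classes of frequencies -/
theorem bsq_cellx {χ : Eis → ℂ} (hχ : Mul1 χ) {v : ℝ → ℝ} (hP : PoHWx χ v) {cw : ℝ}
    (hcw : 1 ≤ cw) (hw : ∀ x, v x ≠ 0 → x ≤ cw) {R0 : ℝ} (hR0 : 0 ≤ R0) (a A : ℕ) (hA : 1 < A)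
    {ε : ℝ} (hε : 0 < ε) :
    ∃ (C c : ℝ) (A₀ : ℕ), 0 ≤ C ∧ 1 ≤ c ∧ ∀ A' : ℝ, (A₀ : ℝ) ≤ A' →
      ∀ Z : ℝ, 1 ≤ Z → ∀ af : Eis → ℂ, FS af → (∀ n, af n ≠ 0 → Squarefree n) →
      ∀ d e q g κ F cc : Eis, IsPrim d → IsPrim e → IsPrim q → IsPrim g → IsPrim κ → IsPrim F →
      IsC cc → Squarefree (g * κ * F) → (nm (q * g * κ * F) : ℝ) ≤ Z →
      ∀ X : ℝ, 0 < X → (∀ n, af n ≠ 0 → |Real.log (nm d * nm n) - Real.log X| ≤ R0) →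
      (nm κ : ℝ) * (Real.exp R0 * X) ≤ Z →
      ∀ u : Eis, u ≠ 0 → (∀ p, IsPrim p → IsCoprime u p) →
      ∀ W0 : Bool → ℝ → ℝ, (∀ jj, Slp a (W0 jj)) →
        (∀ jj γ π, IsPrim γ → IsPrim π → (nm π : ℝ) ≤ Z ^ 4 →
        ∀ P : ℝ, 0 < P → (nm γ : ℝ) * n6 γ ^ 2 *
          ∑ r ∈ (bl P).filter (Cls (PrU u) jj), R3571.RMm A af e γ π r ≤ W0 jj P) →
      ∀ (Y Lt : ℝ) (W1 : Bool → ℝ), 1 ≤ Y → Y ≤ Z → Lt ≤ Z → (∀ jj, 0 ≤ W1 jj) →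
      (1 ≤ Lt → Lt * Real.exp (2 * R0) < nm κ * X / nm d ∧
        ∀ jj, W0 jj (c * (Il (nm κ * X / nm d) Lt Y *
          ((nm F : ℝ) ^ 2 * (nm q : ℝ) ^ 2 * nm g))) ≤ W1 jj) →
      BsQ ε χ v cw A' Lt Y (bF κ F (b0 af d e (q * cc * g ^ 2))) (g * κ * F) κ ≤
        C * Z ^ (2 * ε) * (if 1 ≤ Lt then
          ∑ jj : Bool, nfx jj Lt (Il (nm κ * X / nm d) Lt Y) * W1 jj else 0) := by
  obtain ⟨C, c, A₀, hC, hc, h⟩ := bsq_lex hχ hP hcw hw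
    (R := 2 * R0) (by positivity) a A hA hε
  obtain ⟨C₂, hC₂, h2⟩ := hyp_cellu (A := (A : ℝ)) (by exact_mod_cast hA) hε
  refine ⟨C * C₂, 81 * c, A₀, by positivity, by linarith, ?_⟩
  intro A' hA' Z hZ af haf hsf d e q g κ F cc hd he hq hg hκ hF hcc hsq hnm X hX hwin hXZ u hu huc
    W0 hW0 hRH Y Lt W1 hY hYZ hLtZ hW1 hyp
  have hZ0 : 0 < Z := by linarith
  have nd := nmpos hd.ne_zero
  have nκ := nmpos hκ.ne_zero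
  have nF := nmpos hF.ne_zero
  have nq := nmpos hq.ne_zero
  have ng := nmpos hg.ne_zero
  have hd1 : (1 : ℝ) ≤ nm d := E1551.nm_ge_one hd.ne_zero
  have hq1 : (1 : ℝ) ≤ nm q := E1551.nm_ge_one hq.ne_zero
  have hN : 0 < (nm κ : ℝ) * X / nm d := by positivity
  have hexp1 : 1 ≤ Real.exp R0 := Real.one_le_exp hR0
  have hNZ : (nm κ : ℝ) * X / nm d ≤ Z := by
    refine le_trans ?_ hXZ
    calc (nm κ : ℝ) * X / nm d ≤ nm κ * X := div_le_self (by positivity) hd1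
      _ ≤ nm κ * (Real.exp R0 * X) := by
        refine mul_le_mul_of_nonneg_left ?_ nκ.le
        exact le_mul_of_one_le_left hX.le hexp1
  have hsκ : Squarefree κ := (hsq.of_mul_left).of_mul_right
  have hz : (0 : ℝ) < (nm F : ℝ) ^ 2 * (nm q : ℝ) ^ 2 * nm g := by positivity
  have hCZ : 0 ≤ C₂ * Z ^ ε := by positivity
  have hr : (nm (g * κ * F) : ℝ) ≤ Z := by
    refine le_trans ?_ hnm
    have e1 : q * g * κ * F = q * (g * κ * F) := by ring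
    rw [e1, nm_mul q]
    push_cast
    exact le_mul_of_one_le_left (Nat.cast_nonneg _) hq1
  have hκZ : (nm κ : ℝ) ≤ Z := by
    refine le_trans ?_ hr
    have h5 : nm κ ≤ nm (g * κ * F) := by
      rw [nm_mul, nm_mul]
      have k2 : 0 < nm g := nm_pos.mpr hg.ne_zero
      have k3 : 0 < nm F := nm_pos.mpr hF.ne_zero
      calc nm κ ≤ nm g * nm κ := Nat.le_mul_of_pos_left _ k2
        _ ≤ _ := Nat.le_mul_of_pos_right _ k3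
    exact_mod_cast h5
  have hX0 : q * cc * g ^ 2 * F ≠ 0 := mul_ne_zero (mul_ne_zero (mul_ne_zero hq.ne_zero
    (R3571.c_ne hcc)) (pow_ne_zero 2 hg.ne_zero)) hF.ne_zero
  have key := h A' hA' Z (nm κ * X / nm d) Y Lt hZ hN hNZ hY hYZ hLtZ
    (bF κ F (b0 af d e (q * cc * g ^ 2))) (g * κ * F) κ (S_b haf hsf hκ hsκ hd hX hZ0.le hwin hXZ _)
    (win_b haf hκ hd hX hR0 hwin _) ((hg.mul hκ).mul hF).ne_zero hr hκ hκZ
    (Prk (u * (q * cc * g ^ 2 * F)) κ)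
    (fun jj P => C₂ * Z ^ ε * W0 jj (81 * (P * ((nm F : ℝ) ^ 2 * (nm q : ℝ) ^ 2 * nm g))))
    (fun jj => C₂ * Z ^ ε * W1 jj) (fun jj => mul_nonneg hCZ (hW1 jj)) (fun h1 => by
      obtain ⟨h3, h4⟩ := hyp h1
      refine ⟨h3, prOK_cellu haf hκ hX0 hu huc, fun jj => slp_scale (hW0 jj) hCZ hz,
        fun jj => ?_, ?_⟩
      · refine mul_le_mul_of_nonneg_left (le_trans (le_of_eq ?_) (h4 jj)) hCZ
        congr 1
        ring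
      · intro jj γ φ x hadm P hP
        exact h2 Z (nm κ * X / nm d) hZ hN hNZ af haf hsf d e q g κ F cc hd he hq hg hκ hF hcc hsq
          hnm u hu W0 hRH jj γ φ x hadm P hP)
  refine key.trans (le_of_eq ?_)
  have e2 : Z ^ (2 * ε) = Z ^ ε * Z ^ ε := by rw [← Real.rpow_add hZ0]; congr 1; ring
  rw [e2]
  split_ifs
  · rw [Finset.mul_sum, Finset.mul_sum]
    exact Finset.sum_congr rfl fun jj _ => by ring
  · ring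

/-- the statement of helper744's `bsq_famx` -/
def FamX (ε : ℝ) (χ : Eis → ℂ) (v : ℝ → ℝ) (cw R : ℝ) (a A : ℕ) : Prop :=
    ∃ (C c : ℝ) (A₀ : ℕ), 0 ≤ C ∧ 1 ≤ c ∧ ∀ A' : ℝ, (A₀ : ℝ) ≤ A' →
    ∀ Z N Δ Y Lt : ℝ, 1 ≤ Z → 0 < N → 1 ≤ Δ →
      N * Δ ≤ Z → Δ ≤ Z → 1 ≤ Y → Y ≤ Z → Lt ≤ Z →
    ∀ (b : Eis → ℂ) (r : Eis), (∀ n, b n ≠ 0 → n ∈ S Z) → Win b (Real.log N) R → r ≠ 0 →
      (nm r : ℝ) ≤ Z →
    ∀ (Prd : Eis → Eis → Prop) (W : Bool → ℝ → ℝ) (W1 : Bool → ℝ), (∀ jj, 0 ≤ W1 jj) →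
      (1 ≤ Lt → Lt * Real.exp (R + 3) < N * Δ ∧ PrOK b Prd ∧ (∀ jj, Slp a (W jj)) ∧
        (∀ jj, W jj (c * Il (N * Δ) Lt Y) ≤ W1 jj) ∧
        ∀ jj γ φ x, Adm ((N * Δ) ^ 2) 1 γ φ x → ∀ P : ℝ, 0 < P → ∑ e ∈ pdiv r,
          (nm e : ℝ)⁻¹ * ((nm γ : ℝ) * VIc A (Mode405.bs b e) γ φ 1 (nm e * P / nm x)
            (Cls (PrS Prd e γ) jj)) ≤ W jj P) →
    ∀ (𝒟 : Finset Eis) (Yd Ltd : Eis → ℝ),
      (∀ D ∈ 𝒟, IsPrim D ∧ Squarefree D ∧ Δ / 4 < nm D ∧ (nm D : ℝ) ≤ Δ ∧ Y / 4 ≤ Yd D ∧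
        Yd D ≤ Y ∧ Ltd D ≤ Lt) →
    ∑ D ∈ 𝒟, BsQ ε χ v cw A' (Ltd D) (Yd D) (bt D b) (D * r) D ≤
      C * Z ^ ε * (if 1 ≤ Lt then
        ∑ jj : Bool, nfDx Δ (𝒟.card : ℝ) jj Lt (Il (N * Δ) Lt Y) * W1 jj else 0)

/-- **second form for a family of cells**, two classes of frequencies -/
theorem bsq_cellfx_of {χ : Eis → ℂ} {v : ℝ → ℝ} {cw : ℝ}
    {R0 : ℝ} (hR0 : 0 ≤ R0) (a A : ℕ) (hA : 1 < A)
    {ε : ℝ} (hε : 0 < ε) (hfam : FamX ε χ v cw (2 * R0) a A) :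
    ∃ (C c : ℝ) (A₀ : ℕ), 0 ≤ C ∧ 1 ≤ c ∧ ∀ A' : ℝ, (A₀ : ℝ) ≤ A' →
      ∀ Z : ℝ, 1 ≤ Z → ∀ af : Eis → ℂ, FS af → (∀ n, af n ≠ 0 → Squarefree n) →
      ∀ d e q g F cc : Eis, IsPrim d → IsPrim e → IsPrim q → IsPrim g → IsPrim F →
      IsC cc → Squarefree (g * F) → (nm (q * g * F) : ℝ) ≤ Z →
      ∀ X : ℝ, 0 < X → (∀ n, af n ≠ 0 → |Real.log (nm d * nm n) - Real.log X| ≤ R0) →
      ∀ Δ : ℝ, 1 ≤ Δ → Δ ≤ Z → Δ * (Real.exp R0 * X) ≤ Z →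
      ∀ u : Eis, u ≠ 0 → (∀ p, IsPrim p → IsCoprime u p) →
      ∀ W0 : Bool → ℝ → ℝ, (∀ jj, Slp a (W0 jj)) →
        (∀ jj γ π, IsPrim γ → IsPrim π → (nm π : ℝ) ≤ Z ^ 4 →
        ∀ P : ℝ, 0 < P → (nm γ : ℝ) * n6 γ ^ 2 *
          ∑ r ∈ (bl P).filter (Cls (PrU u) jj), R3571.RMm A af e γ π r ≤ W0 jj P) →
      ∀ (Y Lt : ℝ) (W1 : Bool → ℝ), 1 ≤ Y → Y ≤ Z → Lt ≤ Z → (∀ jj, 0 ≤ W1 jj) →
      (1 ≤ Lt → Lt * Real.exp (2 * R0 + 3) < X / nm d * Δ ∧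
        ∀ jj, W0 jj (c * (Il (X / nm d * Δ) Lt Y *
          ((nm F : ℝ) ^ 2 * (nm q : ℝ) ^ 2 * nm g))) ≤ W1 jj) →
      ∀ (𝒟 : Finset Eis) (Yd Ltd : Eis → ℝ),
      (∀ D ∈ 𝒟, IsPrim D ∧ Squarefree D ∧ Δ / 4 < nm D ∧ (nm D : ℝ) ≤ Δ ∧ Y / 4 ≤ Yd D ∧
        Yd D ≤ Y ∧ Ltd D ≤ Lt) →
      ∑ D ∈ 𝒟, BsQ ε χ v cw A' (Ltd D) (Yd D) (bF D F (b0 af d e (q * cc * g ^ 2)))
          (g * D * F) D ≤
        C * Z ^ (2 * ε) * (if 1 ≤ Lt then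
          ∑ jj : Bool, nfDx Δ (𝒟.card : ℝ) jj Lt (Il (X / nm d * Δ) Lt Y) * W1 jj else 0) := by
  obtain ⟨C, c, A₀, hC, hc, h⟩ := hfam
  obtain ⟨C₂, hC₂, h2⟩ := hyp_cellu (A := (A : ℝ)) (by exact_mod_cast hA) hε
  refine ⟨C * C₂, 81 * c, A₀, by positivity, by linarith, ?_⟩
  intro A' hA' Z hZ af haf hsf d e q g F cc hd he hq hg hF hcc hsq hnm X hX hwin Δ hΔ hΔZ hXZ u hu
    huc W0 hW0 hRH Y Lt W1 hY hYZ hLtZ hW1 hyp 𝒟 Yd Ltd h𝒟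
  have hZ0 : 0 < Z := by linarith
  have hΔ0 : 0 < Δ := by linarith
  have nd := nmpos hd.ne_zero
  have nF := nmpos hF.ne_zero
  have nq := nmpos hq.ne_zero
  have ng := nmpos hg.ne_zero
  have hd1 : (1 : ℝ) ≤ nm d := E1551.nm_ge_one hd.ne_zero
  have hq1 : (1 : ℝ) ≤ nm q := E1551.nm_ge_one hq.ne_zero
  have hN : 0 < X / nm d := by positivity
  have hexp1 : 1 ≤ Real.exp R0 := Real.one_le_exp hR0
  have hXd : X / nm d ≤ Real.exp R0 * X :=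
    (div_le_self hX.le hd1).trans (le_mul_of_one_le_left hX.le hexp1)
  have hNZ : X / nm d * Δ ≤ Z := by
    refine le_trans ?_ hXZ
    rw [mul_comm]
    exact mul_le_mul_of_nonneg_left hXd hΔ0.le
  have hz : (0 : ℝ) < (nm F : ℝ) ^ 2 * (nm q : ℝ) ^ 2 * nm g := by positivity
  have hCZ : 0 ≤ C₂ * Z ^ ε := by positivity
  have hr : (nm (g * F) : ℝ) ≤ Z := by
    refine le_trans ?_ hnm
    have e1 : q * g * F = q * (g * F) := by ring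
    rw [e1, nm_mul q]
    push_cast
    exact le_mul_of_one_le_left (Nat.cast_nonneg _) hq1
  set b' : Eis → ℂ := b0 af d e (q * cc * g ^ 2) with hb'
  have hfs : FS b' := FS_b0 haf d e _
  have hX1 : (nm (1 : Eis) : ℝ) * (Real.exp R0 * X) ≤ Z := by
    rw [nm_one, Nat.cast_one, one_mul]
    refine le_trans ?_ hXZ
    exact le_mul_of_one_le_left (by positivity) hΔ
  have hbS := S_b haf hsf (F := F) (e := e) isPrim_one squarefree_one hd hX hZ0.le hwin hX1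
    (q * cc * g ^ 2)
  have hbW : Win (bF 1 F b') (Real.log (X / nm d)) (2 * R0) := by
    have h1 := win_b haf (F := F) (e := e) isPrim_one hd hX hR0 hwin (q * cc * g ^ 2)
    rw [nm_one, Nat.cast_one, one_mul] at h1
    exact h1
  have hX0 : q * cc * g ^ 2 * F ≠ 0 := mul_ne_zero (mul_ne_zero (mul_ne_zero hq.ne_zero
    (R3571.c_ne hcc)) (pow_ne_zero 2 hg.ne_zero)) hF.ne_zero
  have key := h A' hA' Z (X / nm d) Δ Y Lt hZ hN hΔ hNZ hΔZ hY hYZ hLtZ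
    (bF 1 F b') (g * F) hbS hbW (hg.mul hF).ne_zero hr
    (Prk (u * (q * cc * g ^ 2 * F)) 1)
    (fun jj P => C₂ * Z ^ ε * W0 jj (81 * (P * ((nm F : ℝ) ^ 2 * (nm q : ℝ) ^ 2 * nm g))))
    (fun jj => C₂ * Z ^ ε * W1 jj) (fun jj => mul_nonneg hCZ (hW1 jj)) (fun h1 => by
      obtain ⟨h3, h4⟩ := hyp h1
      refine ⟨h3, prOK_cellu haf isPrim_one hX0 hu huc, fun jj => slp_scale (hW0 jj) hCZ hz,
        fun jj => ?_, ?_⟩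
      · refine mul_le_mul_of_nonneg_left (le_trans (le_of_eq ?_) (h4 jj)) hCZ
        congr 1
        ring
      · intro jj γ φ x hadm P hP
        have key := h2 Z (X / nm d * Δ) hZ (by positivity) hNZ af haf hsf d e q g 1 F cc hd he hq hg
          isPrim_one hF hcc (by rw [mul_one]; exact hsq) (by rw [mul_one]; exact hnm) u hu W0 hRH
          jj γ φ x hadm P hP
        rw [mul_one] at key
        exact key) 𝒟 Yd Ltd h𝒟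
  have e1 : ∑ D ∈ 𝒟, BsQ ε χ v cw A' (Ltd D) (Yd D) (bF D F b') (g * D * F) D =
      ∑ D ∈ 𝒟, BsQ ε χ v cw A' (Ltd D) (Yd D) (bt D (bF 1 F b')) (D * (g * F)) D := by
    refine Finset.sum_congr rfl fun D _ => ?_
    rw [bF_base hfs D F, show g * D * F = D * (g * F) by ring]
  rw [e1]
  refine key.trans (le_of_eq ?_)
  have e2 : Z ^ (2 * ε) = Z ^ ε * Z ^ ε := by rw [← Real.rpow_add hZ0]; congr 1; ring
  rw [e2]
  split_ifs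
  · rw [Finset.mul_sum, Finset.mul_sum]
    exact Finset.sum_congr rfl fun jj _ => by ring
  · ring

/-- **second form for a family of cells**, two classes of frequencies -/
theorem bsq_cellfx {χ : Eis → ℂ} (hχ : Mul1 χ) {v : ℝ → ℝ} (hP : PoHGx (GDx χ v)) {cw : ℝ}
    (hcw : 1 ≤ cw) (hw : ∀ x, v x ≠ 0 → x ≤ cw) {R0 : ℝ} (hR0 : 0 ≤ R0) (a A : ℕ) (hA : 1 < A)
    {ε : ℝ} (hε : 0 < ε) :
    ∃ (C c : ℝ) (A₀ : ℕ), 0 ≤ C ∧ 1 ≤ c ∧ ∀ A' : ℝ, (A₀ : ℝ) ≤ A' →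
      ∀ Z : ℝ, 1 ≤ Z → ∀ af : Eis → ℂ, FS af → (∀ n, af n ≠ 0 → Squarefree n) →
      ∀ d e q g F cc : Eis, IsPrim d → IsPrim e → IsPrim q → IsPrim g → IsPrim F →
      IsC cc → Squarefree (g * F) → (nm (q * g * F) : ℝ) ≤ Z →
      ∀ X : ℝ, 0 < X → (∀ n, af n ≠ 0 → |Real.log (nm d * nm n) - Real.log X| ≤ R0) →
      ∀ Δ : ℝ, 1 ≤ Δ → Δ ≤ Z → Δ * (Real.exp R0 * X) ≤ Z →
      ∀ u : Eis, u ≠ 0 → (∀ p, IsPrim p → IsCoprime u p) →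
      ∀ W0 : Bool → ℝ → ℝ, (∀ jj, Slp a (W0 jj)) →
        (∀ jj γ π, IsPrim γ → IsPrim π → (nm π : ℝ) ≤ Z ^ 4 →
        ∀ P : ℝ, 0 < P → (nm γ : ℝ) * n6 γ ^ 2 *
          ∑ r ∈ (bl P).filter (Cls (PrU u) jj), R3571.RMm A af e γ π r ≤ W0 jj P) →
      ∀ (Y Lt : ℝ) (W1 : Bool → ℝ), 1 ≤ Y → Y ≤ Z → Lt ≤ Z → (∀ jj, 0 ≤ W1 jj) →
      (1 ≤ Lt → Lt * Real.exp (2 * R0 + 3) < X / nm d * Δ ∧
        ∀ jj, W0 jj (c * (Il (X / nm d * Δ) Lt Y *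
          ((nm F : ℝ) ^ 2 * (nm q : ℝ) ^ 2 * nm g))) ≤ W1 jj) →
      ∀ (𝒟 : Finset Eis) (Yd Ltd : Eis → ℝ),
      (∀ D ∈ 𝒟, IsPrim D ∧ Squarefree D ∧ Δ / 4 < nm D ∧ (nm D : ℝ) ≤ Δ ∧ Y / 4 ≤ Yd D ∧
        Yd D ≤ Y ∧ Ltd D ≤ Lt) →
      ∑ D ∈ 𝒟, BsQ ε χ v cw A' (Ltd D) (Yd D) (bF D F (b0 af d e (q * cc * g ^ 2)))
          (g * D * F) D ≤
        C * Z ^ (2 * ε) * (if 1 ≤ Lt then
          ∑ jj : Bool, nfDx Δ (𝒟.card : ℝ) jj Lt (Il (X / nm d * Δ) Lt Y) * W1 jj else 0) :=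
  bsq_cellfx_of hR0 a A hA hε (bsq_famx hχ hP hcw hw (R := 2 * R0) (by positivity) a A hA hε)

end Crest.Agent.R017.Cx405
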