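import Crest.Agent.R017.E3Xc_72
import Crest.Agent.R017.E3Sx3x_405

/-!
# Row 17, T.7 (class E), E3: both forms of the structured number of a character, in classes, from the
structured bounds (helper72, with helper405's cells)

* `S12x_char`
-/

set_option autoImplicit false
set_option linter.unusedVariables false

noncomputable section

open Complex MeasureTheory Finset
open scoped ComplexConjugate Classical

namespace Crest.Agent.R017.E3Xa72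

open Crest.Agent.R012 Crest.Agent.R012.Eis Crest.Agent.R012.MC
open Crest.Agent.R012.LS2 (S mem_S bl mem_bl)
open Crest.Agent.R017.CM106 (CS TG FS)
open Crest.Agent.R017.GrB829 (IsC)
open Crest.Agent.R017.PX764 (n6)
open Crest.Agent.R017.E1551 (nmpos)
open Crest.Agent.R017.Mode405
open Crest.Agent.R017.E3Sx579
open Crest.Agent.R017.MX744
open Crest.Agent.R017.ROX744
open Crest.Agent.R017.PoHx72

theorem cel1_of {χ : Eis → ℂ} (hχ : Mul1 χ) {w : ℝ → ℝ} (hP : PoHWx χ (w6 w))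
    (hw1 : ∀ x, w x ≠ 0 → x ≤ 1) {R0 : ℝ} (hR0 : 0 ≤ R0) (a A : ℕ) (hA : 1 < A) {ε : ℝ}
    (hε : 0 < ε) :
    ∃ (C c : ℝ) (A₀ : ℕ), 0 ≤ C ∧ 1 ≤ c ∧ Cel1 χ (w6 w) 1 R0 a A ε C c A₀ :=
  Cx405.bsq_cellx hχ hP le_rfl (fun x hx => w6_le hw1 hx) hR0 a A hA hε

theorem cel2_of {χ : Eis → ℂ} (hχ : Mul1 χ) {w : ℝ → ℝ} (hG : PoHGx (GDx χ (w6 w)))
    (hw1 : ∀ x, w x ≠ 0 → x ≤ 1) {R0 : ℝ} (hR0 : 0 ≤ R0) (a A : ℕ) (hA : 1 < A) {ε : ℝ}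
    (hε : 0 < ε) :
    ∃ (C c : ℝ) (A₀ : ℕ), 0 ≤ C ∧ 1 ≤ c ∧ Cel2 χ (w6 w) 1 R0 a A ε C c A₀ := by
  obtain ⟨C, c, A₀, hC, hc, h⟩ := Cx405.bsq_cellfx hχ hG le_rfl (fun x hx => w6_le hw1 hx) hR0 a A
    hA hε
  refine ⟨C, c, A₀, hC, hc, ?_⟩
  intro A' hA' Z hZ af haf hsf d e q g F cc hd he hq hg hF hcc hsq hnm X hX hwin Δ hΔ hΔZ hΔX u hu
    huc W0 hW0 hRH Y Lt W1 hY hYZ hLtZ hW1 hyp 𝒟 Yd Ltd h𝒟
  refine (h A' hA' Z hZ af haf hsf d e q g F cc hd he hq hg hF hcc hsq hnm X hX hwin Δ hΔ hΔZ hΔX u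
    hu huc W0 hW0 hRH Y Lt W1 hY hYZ hLtZ hW1 hyp 𝒟 Yd Ltd h𝒟).trans (le_of_eq ?_)
  split_ifs
  · rw [Fintype.sum_bool]
    unfold MX744.nfDx
    simp only [if_true, Bool.false_eq_true, if_false]
    ring
  · rfl

/-- **both forms of the number of a character, in classes** -/
theorem S12x_char {χ : Eis → ℂ} (hχ : Mul1 χ) {w : ℝ → ℝ} (hP : PoHWx χ (w6 w))
    (hG : PoHGx (GDx χ (w6 w))) (hw1 : ∀ x, w x ≠ 0 → x ≤ 1) {R0 : ℝ} (hR0 : 0 ≤ R0) (a A : ℕ)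
    (hA : 1 < A) {ε : ℝ} (hε : 0 < ε) {cs : ℝ} (hcs : 1 ≤ cs) :
    ∃ (C c : ℝ) (A₀ : ℕ), 0 ≤ C ∧ 1 ≤ c ∧ S12xs χ w R0 a A ε cs C c A₀ :=
  S12x_of hR0 (cel1_of hχ hP hw1 hR0 a A hA hε) (cel2_of hχ hG hw1 hR0 a A hA hε) hcs

end Crest.Agent.R017.E3Xa72
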