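import Crest.Agent.R017.E3Hi_290
import Crest.Agent.R017.E3Xd_72

/-!
# Row 17, T.7 (class E), leaf E3 (S-sum) (helper290): one pair of levels from (RH) in classes, both
forms, from helper50's bound at one kernel

* `PoDxAll` : helper50's bound at one kernel in classes, for all characters
* `s12xAll_of` : `PoDxAll → S12xAll`
-/

set_option autoImplicit false
set_option linter.unusedVariables false

noncomputable section

open Finset
open scoped ComplexConjugate Classical ContDiff

namespace Crest.Agent.R017.E3Hj290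

open Crest.Agent.R012 Crest.Agent.R012.Eis Crest.Agent.R012.MC
open Crest.Agent.R017.E3A164 (Yp Ys Cs mem_Cs)
open Crest.Agent.R017.GrB829 (IsC)
open Crest.Agent.R017.E3F548 (pc MPTr isC_ne)
open Crest.Agent.R017.Mode405
open Crest.Agent.R017.E3D579 (sy_mulR sy_conj_sq)
open Crest.Agent.R017.E3Sz579 (SU_ccc)
open Crest.Agent.R017.MX744
open Crest.Agent.R017.PoHx72
open Crest.Agent.R017.E3Sx744 (pohx_pc pohx_pc')
open Crest.Agent.R017.E3Xa72
open Crest.Agent.R017.E3He290 Crest.Agent.R017.E3Hi290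

/-- the bound at one kernel in classes, all characters -/
def PoDxAll : Prop := ∀ u : Eis, PoH347.SU u → ∀ χ : Eis → ℂ,
  (∀ x, IsPrim x → χ x = conj (sy u x)) → ∀ w : ℝ → ℝ, Wgt w → MX744.PoDx χ w

/-- the characters of the pairs in the form of `PoDxAll` -/
lemma chi_sy {p : (Eis × Eis) × Bool} (hp : p ∈ CC) :
    ∃ u : Eis, PoH347.SU u ∧ ∀ x, IsPrim x → chi p x = conj (sy u x) := by
  obtain ⟨⟨c, c'⟩, b⟩ := p
  unfold E3He290.CC at hp
  simp only [mem_product, mem_Cs, mem_univ, and_true] at hp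
  obtain ⟨hc, hc'⟩ := hp
  have hu := SU_ccc hc hc'
  have h1u : ∀ x, IsPrim x → (1 : ℂ) = conj (sy 1 x) := fun x hx => by
    rw [Char766.sy_one_left hx]; simp
  cases b
  · have e : ∀ m, chi ((c, c'), false) m = pc c c' m := by
      intro m; simp [chi]
    simp only [e]
    unfold E3F548.pc
    split_ifs with h
    · exact ⟨1, PoH347.SU_one, h1u⟩
    · refine ⟨1 * (c * c' ^ 2) ^ 2, ?_, ?_⟩
      · rw [one_mul, pow_two]; exact hu.mul hu
      · intro x hx
        have h1 := sy_conj_sq (s := c * c' ^ 2) (H := 1) hx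
        rw [Char766.sy_one_left hx, map_one, mul_one] at h1
        exact h1
  · have e : ∀ m, chi ((c, c'), true) m = conj (pc c c' m) := by
      intro m; simp [chi]
    simp only [e]
    unfold E3F548.pc
    split_ifs with h
    · simp only [map_one]
      exact ⟨1, PoH347.SU_one, h1u⟩
    · exact ⟨c * c' ^ 2, hu, fun x _ => rfl⟩

/-- the structured bounds of the characters in classes -/
lemma chix_all (hPo : PoDxAll) {p : (Eis × Eis) × Bool} (hp : p ∈ CC) {w : ℝ → ℝ} (hw : Wgt w) :
    Mul1 (chi p) ∧ PoHWx (chi p) (w6 w) ∧ PoHGx (GDx (chi p) (w6 w)) := by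
  obtain ⟨u, hu, hχ⟩ := chi_sy hp
  refine ⟨(chi_all hp hw).1, ?_, pohg_Dx (wgt_w6 hw) fun v₂ hv₂ => hPo u hu _ hχ v₂ hv₂⟩
  obtain ⟨⟨c, c'⟩, b⟩ := p
  unfold E3He290.CC at hp
  simp only [mem_product, mem_Cs, mem_univ, and_true] at hp
  obtain ⟨hc, hc'⟩ := hp
  cases b
  · have e : chi ((c, c'), false) = pc c c' := by
      funext m; simp [chi]
    rw [e]
    exact (pohx_pc hc hc' hw).2
  · have e : chi ((c, c'), true) = fun m => conj (pc c c' m) := by
      funext m; simp [chi]
    rw [e]
    exact (pohx_pc' hc hc' hw).2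

/-- **both forms in classes for every character, from helper50's bound at one kernel** -/
theorem s12xAll_of (hPo : PoDxAll) : S12xAll := by
  intro w hw hw1 R0 hR0 a A hA ε hε cs hcs p hp
  obtain ⟨h1, h2, h3⟩ := chix_all hPo hp hw
  exact S12x_char h1 h2 h3 hw1 hR0 a A hA hε hcs

end Crest.Agent.R017.E3Hj290
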