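import Crest.Agent.R017.PoH15_347

/-!
# Row 17, block C70, leaf E3 (HB form of the MODE lemma), part 16 (helper347)

`pohs_w` : **the structured bound**, hypothesis `HW` (helper290), kernels prime to `ka`, twist
`χ = conj (u/·)` for an `S`-unit `u`.
-/

set_option autoImplicit false

noncomputable section

open Complex MeasureTheory
open scoped ComplexConjugate Classical

namespace Crest.Agent.R017.PoH347

open Crest.Agent.R012 Crest.Agent.R012.Eis Crest.Agent.R012.MC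
open Crest.Agent.R012.LS2 (S mem_S bl mem_bl)
open Crest.Agent.R012.Mob705 (mu pdiv mem_pdiv)
open Crest.Agent.R012.Weight600 (osc pw norm_osc)
open Crest.Agent.R012.NonCube52 (Ker kv Good)
open Crest.Agent.R017.CM106 (CS TG norm_Gsy_le)
open Crest.Agent.R017.E1551 (nmpos jb jb_pos nm_ge_one CS_fin summable_wF)
open Crest.Agent.R017.BD829
open Crest.Agent.R017.Mode405 (Slp Il VI KS mem_KS XS)
open Gauss880 (syG)

lemma sy_kvs (u : Eis) {κ : Ker} {x : Eis} (hx : IsPrim x) :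
    conj (sy u x) * conj (sy (kv κ) x) = pt (u * su κ) x * conj (sy κ.2.1 x) * sy κ.2.2 x := by
  rw [sy_kv hx]
  unfold pt ps
  rw [syG.mul_left _ _ _ hx, map_mul]
  ring

/-- **`XS` through `Sh`** -/
theorem XS_splits (u : Eis) {χ : Eis → ℂ} (hχ : ∀ x, IsPrim x → χ x = conj (sy u x))
    {w₀ : ℝ → ℝ} (hw : Wgt w₀) {X : ℝ} (hX : 0 < X) (t : ℝ) {Y : ℝ} (hY : 0 ≤ Y)
    {b : Eis → ℂ} (hb : ∀ n, b n ≠ 0 → n ∈ S Y) {κ : Ker} (hκ : Good κ) :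
    XS χ w₀ X t b κ = pw t X * ∑ g ∈ pdiv κ.2.2,
      (Sh (TWt405.wc w₀ t) X (pt (u * su κ)) (bg b g (κ.2.2 / g)) (g * κ.2.1) +
        Sh (TWt405.wsn w₀ t) X (pt (u * su κ)) (bg b g (κ.2.2 / g)) (g * κ.2.1) * I) := by
  have hwc := TWt405.wgt_wc hw t
  have hws := TWt405.wgt_wsn hw t
  have hpt : ∀ x : Eis, IsPrim x → pw t (nm x) * ((w₀ (nm x / X) : ℝ) : ℂ) =
      pw t X * ((((TWt405.wc w₀ t (nm x / X) : ℝ) : ℂ)) +
        ((TWt405.wsn w₀ t (nm x / X) : ℝ) : ℂ) * I) := by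
    intro x hx
    have nx := nmpos hx.ne_zero
    rw [← TWt405.wc_add_wsn]
    unfold pw
    rw [Real.log_div nx.ne' hX.ne']
    unfold osc
    have : cexp (↑(t * Real.log (nm x)) * I) = cexp (↑(t * Real.log X) * I) *
        cexp (↑(t * (Real.log (nm x) - Real.log X)) * I) := by
      rw [← Complex.exp_add]
      congr 1
      push_cast
      ring
    push_cast at this ⊢
    rw [this]
    ring
  have e1 : ∀ g ∈ pdiv κ.2.2, Sh (TWt405.wc w₀ t) X (pt (u * su κ)) (bg b g (κ.2.2 / g)) (g * κ.2.1) +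
        Sh (TWt405.wsn w₀ t) X (pt (u * su κ)) (bg b g (κ.2.2 / g)) (g * κ.2.1) * I =
      ∑' x : Eis, (if IsPrim x then pt (u * su κ) x * (CS (bg b g (κ.2.2 / g)) x *
        conj (sy x (g * κ.2.1))) else 0) * ((((TWt405.wc w₀ t (nm x / X) : ℝ) : ℂ)) +
        ((TWt405.wsn w₀ t (nm x / X) : ℝ) : ℂ) * I) := by
    intro g _
    unfold Sh
    rw [← tsum_mul_right, ← Summable.tsum_add (summable_wF hwc hX _)
      ((summable_wF hws hX _).mul_right _)]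
    refine tsum_congr fun x => ?_
    ring
  rw [Finset.sum_congr rfl e1, ← Summable.tsum_finsetSum, ← tsum_mul_left]
  · unfold XS
    refine tsum_congr fun x => ?_
    by_cases hx : IsPrim x
    · rw [if_pos hx]
      simp only [if_pos hx]
      rw [← Finset.sum_mul]
      have e2 : χ x * (CS b x * conj (sy (kv κ) x)) = ∑ g ∈ pdiv κ.2.2, pt (u * su κ) x *
          (CS (bg b g (κ.2.2 / g)) x * conj (sy x (g * κ.2.1))) := by
        have e0 := sy_kvs u (κ := κ) hx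
        rw [hχ x hx]
        calc conj (sy u x) * (CS b x * conj (sy (kv κ) x))
            = CS b x * (conj (sy u x) * conj (sy (kv κ) x)) := by ring
          _ = pt (u * su κ) x * conj (sy κ.2.1 x) * (CS b x * sy κ.2.2 x) := by rw [e0]; ring
          _ = _ := by
            rw [CS_split hY hb hκ.prim2 hx, Finset.mul_sum]
            refine Finset.sum_congr rfl fun g hg => ?_
            have hg' := (mem_pdiv hκ.prim2.ne_zero).mp hg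
            rw [syG.mul_right _ _ _ hg'.1 hκ.prim1, Sym645.sy_reciprocity hx hg'.1,
              Sym645.sy_reciprocity hx hκ.prim1, map_mul]
            ring
      have e3 := hpt x hx
      rw [← Finset.mul_sum] at e2
      calc χ x * (CS b x * conj (sy (kv κ) x)) * pw t (nm x) * ((w₀ (nm x / X) : ℝ) : ℂ)
          = (χ x * (CS b x * conj (sy (kv κ) x))) *
            (pw t (nm x) * ((w₀ (nm x / X) : ℝ) : ℂ)) := by ring
        _ = _ := by rw [e2, e3, ← Finset.mul_sum]; ring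
    · rw [if_neg hx]
      simp only [if_neg hx, zero_mul, Finset.sum_const_zero, mul_zero]
  · intro g _
    have h1 := (summable_wF hwc hX (fun x => if IsPrim x then pt (u * su κ) x *
      (CS (bg b g (κ.2.2 / g)) x * conj (sy x (g * κ.2.1))) else 0)).add
      ((summable_wF hws hX (fun x => if IsPrim x then pt (u * su κ) x *
      (CS (bg b g (κ.2.2 / g)) x * conj (sy x (g * κ.2.1))) else 0)).mul_right I)
    refine h1.congr fun x => ?_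
    ring

/-- the cube-free kernels prime to `ka` -/
def KSa (ka : Eis) (lam : ℝ) : Finset Ker :=
  (KS lam).filter fun κ => IsCoprime (κ.2.1 * κ.2.2) ka

/-- **all blocks**, one weight -/
theorem pohs_vs {R : ℝ} (hR : 0 ≤ R) {u : Eis} (hu : SU u) {A a : ℕ} (hA : 1 < A) {ε : ℝ} (hε0 : 0 < ε)
    (hε : ε ≤ 1) :
    ∃ C : ℝ, 0 < C ∧ ∀ (v : ℝ → ℝ), Wgt v → ∀ C0 : ℝ, KT v (max R 2) A (a + 4) C0 →
      ∀ Z N X lam₀ : ℝ, 1 ≤ Z → 0 < N → N ≤ Z → 0 < X → 1 ≤ X * Z →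
      1 ≤ lam₀ → lam₀ ≤ Z → lam₀ * Real.exp R < N →
      ∀ {ι : Type} (Q : Finset ι) (b : ι → Eis → ℂ) (Xq : ι → ℝ),
      (∀ q ∈ Q, X / 64 ≤ Xq q ∧ Xq q ≤ X) →
      (∀ q ∈ Q, ∀ n, b q n ≠ 0 → n ∈ S Z) → (∀ q ∈ Q, Win (b q) (Real.log N) R) →
      ∀ W : ℝ → ℝ, Slp a W → ∀ (B0 : ℝ) (ka : Eis), HW A B0 Q b ka W → lam₀ ^ 2 ≤ B0 →
      ∀ W1 : ℝ, W (18 * (729 * (nm u : ℝ)) ^ 3 * (384 * (729 * (nm u : ℝ))) * Il N lam₀ X) ≤ W1 →
      ∑ q ∈ Q, ∑ κ ∈ KSa ka lam₀, ∑ g ∈ pdiv κ.2.2,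
        ‖Sh v (Xq q) (pt (u * su κ)) (bg (b q) g (κ.2.2 / g)) (g * κ.2.1)‖ ^ 2 ≤
        C * (1 + C0) ^ 2 * Z ^ (11 * ε) * (X * nfo lam₀ (Il N lam₀ X) * W1) := by
  have hnu : (1 : ℝ) ≤ nm u := nm_ge_one hu.ne
  set U : ℝ := 729 * (nm u : ℝ) with hUdef
  have hU : 81 ≤ U := by rw [hUdef]; linarith
  have hU0 : 0 < U := by linarith
  obtain ⟨Cb, hCb, hblk⟩ := fam_blocks hR hU (A := A) (a := a) hA hε0 hε
  obtain ⟨Ch, hCh, hharm⟩ := harm hε0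
  obtain ⟨Cj, hCj, hJn⟩ := Jn_le hε0
  refine ⟨9 * (Ch * (Cj * (Cj * Cb))), by positivity, ?_⟩
  intro v hv C0 hk Z N X lam₀ hZ hN hNZ hX hXZ hlam1 hlamZ hlamN ι Q b Xq hXq hb hwb W hW B0 ka
    hVI hB0 W1 hW1
  have hZ0 : 0 < Z := by linarith
  have hlam0 : 0 ≤ lam₀ := by linarith
  have hC0 := hk.1
  have hI : 0 < Il N lam₀ X := by unfold Il; positivity
  set T : ℝ := X * nfo lam₀ (Il N lam₀ X) * W1 with hT
  have hW10 : 0 ≤ W1 := (hW.nonneg _ (by positivity)).trans hW1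
  have hnf0 : 0 ≤ nfo lam₀ (Il N lam₀ X) := nfo_nonneg hlam0 hI.le
  have hT0 : 0 ≤ T := by rw [hT]; positivity
  -- the family inside
  set Ψ : ℕ × ℕ → Eis → Eis → Eis → ℝ := fun p g l x =>
    if IsCoprime x ka ∧ IsCoprime g ka then ∑ q ∈ Q,
        ‖Sh v (Xq q) (pt (u * su (p, (1, 1)))) (bg (b q) g l) (g * x)‖ ^ 2 else 0 with hΨ
  have hΨ0 : ∀ p g l x, 0 ≤ Ψ p g l x := by
    intro p g l x
    rw [hΨ]
    beta_reduce
    split_ifs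
    · exact Finset.sum_nonneg fun _ _ => by positivity
    · exact le_rfl
  have e1 : ∑ q ∈ Q, ∑ κ ∈ KSa ka lam₀, ∑ g ∈ pdiv κ.2.2,
        ‖Sh v (Xq q) (pt (u * su κ)) (bg (b q) g (κ.2.2 / g)) (g * κ.2.1)‖ ^ 2 ≤
      ∑ κ ∈ KS lam₀, ∑ g ∈ pdiv κ.2.2, Ψ κ.1 g (κ.2.2 / g) κ.2.1 := by
    rw [Finset.sum_comm]
    unfold KSa
    rw [Finset.sum_filter]
    refine Finset.sum_le_sum fun κ hκ => ?_
    split_ifs with hc
    · rw [Finset.sum_comm]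
      refine Finset.sum_le_sum fun g hg => ?_
      have hg' := (mem_pdiv (mem_KS.mp hκ).1.prim2.ne_zero).mp hg
      have h1 : IsCoprime κ.2.1 ka := hc.of_mul_left_left
      have h2 : IsCoprime g ka := hc.of_mul_left_right.of_isCoprime_of_dvd_left hg'.2
      rw [hΨ]
      beta_reduce
      rw [if_pos ⟨h1, h2⟩]
      rfl
    · exact Finset.sum_nonneg fun g _ => hΨ0 _ _ _ _
  refine e1.trans ?_
  refine (reorg hlam0 (Ψ := Ψ) hΨ0).trans ?_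
  have h1 : ∀ p ∈ Finset.range 3 ×ˢ Finset.range 3, ∀ g ∈ S lam₀,
      ∀ j3 ∈ Finset.range (Jn lam₀), ∀ j1 ∈ Finset.range (Jn lam₀),
      ∑ l ∈ T3 lam₀ g j3, ∑ x ∈ H1 lam₀ p g l j1, Ψ p g l x ≤
      Cb * (1 + C0) ^ 2 * Z ^ (8 * ε) * T * (1 / nm g) := by
    intro p hp g hg j3 _ j1 _
    have hp' := Finset.mem_product.mp hp
    by_cases hgk : IsCoprime g ka
    swap
    · have h0 : ∑ l ∈ T3 lam₀ g j3, ∑ x ∈ H1 lam₀ p g l j1, Ψ p g l x = 0 := by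
        refine Finset.sum_eq_zero fun l _ => Finset.sum_eq_zero fun x _ => ?_
        rw [hΨ]
        beta_reduce
        exact if_neg fun h => hgk h.2
      rw [h0]
      positivity
    have e2 : ∑ l ∈ T3 lam₀ g j3, ∑ x ∈ H1 lam₀ p g l j1, Ψ p g l x =
        ∑ q ∈ Q, ∑ l ∈ T3 lam₀ g j3, ∑ x ∈ H1k lam₀ ka p g l j1,
        ‖Sh v (Xq q) (pt (u * su (p, (1, 1)))) (bg (b q) g l) (g * x)‖ ^ 2 := by
      symm
      rw [Finset.sum_comm]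
      refine Finset.sum_congr rfl fun l _ => ?_
      rw [Finset.sum_comm]
      unfold H1k
      rw [Finset.sum_filter]
      refine Finset.sum_congr rfl fun x _ => ?_
      rw [hΨ]
      beta_reduce
      simp only [hgk, and_true]
    refine e2.le.trans ?_
    have hsu : SU (u * su (p, (1, 1))) := hu.mul (SU_su _)
    have hsU : (nm (9 * (u * su (p, (1, 1)))) : ℝ) ≤ U := by
      have h2 : (nm (9 * su (p, ((1 : Eis), (1 : Eis)))) : ℝ) ≤ 729 :=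
        nm_M_le (Finset.mem_range.mp hp'.2)
      have h3 : (nm (9 * (u * su (p, ((1 : Eis), (1 : Eis))))) : ℝ) =
          nm (9 * su (p, ((1 : Eis), (1 : Eis)))) * nm u := by
        simp only [nm_mul]
        push_cast
        ring
      rw [h3, hUdef]
      exact mul_le_mul_of_nonneg_right h2 (Nat.cast_nonneg _)
    refine (hblk v hv C0 hk _ hsu hsU Z N X lam₀ hZ hN hNZ hX hXZ hlam1 hlamZ hlamN Q b Xq hXq hb
      hwb W hW B0 ka hVI hB0 W1 hW1 p g ((mem_S hlam0).1 hg).2.1 hgk j1 j3).trans (le_of_eq ?_)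
    rw [← hT]
    ring
  have hJ0 : (0 : ℝ) ≤ Jn lam₀ := Nat.cast_nonneg _
  have hJ := hJn lam₀ Z hlam1 hlamZ
  have hH := hharm lam₀ Z hlam1 hlamZ
  set K : ℝ := Cb * (1 + C0) ^ 2 * Z ^ (8 * ε) * T with hK
  have hK0 : 0 ≤ K := by positivity
  calc ∑ p ∈ Finset.range 3 ×ˢ Finset.range 3, ∑ g ∈ S lam₀, ∑ j3 ∈ Finset.range (Jn lam₀),
        ∑ j1 ∈ Finset.range (Jn lam₀), ∑ l ∈ T3 lam₀ g j3, ∑ x ∈ H1 lam₀ p g l j1,
          Ψ p g l x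
      ≤ ∑ _p ∈ Finset.range 3 ×ˢ Finset.range 3, ∑ g ∈ S lam₀, ∑ _j3 ∈ Finset.range (Jn lam₀),
        ∑ _j1 ∈ Finset.range (Jn lam₀), K * (1 / nm g) :=
        Finset.sum_le_sum fun p hp => Finset.sum_le_sum fun g hg => Finset.sum_le_sum fun j3 hj3 =>
          Finset.sum_le_sum fun j1 hj1 => h1 p hp g hg j3 hj3 j1 hj1
    _ = 9 * ((∑ g ∈ S lam₀, (1 / (nm g : ℝ))) * ((Jn lam₀ : ℝ) * ((Jn lam₀ : ℝ) * K))) := by
        have e3 : ∑ g ∈ S lam₀, ((Jn lam₀ : ℝ) * ((Jn lam₀ : ℝ) * (K * (1 / nm g)))) =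
            (∑ g ∈ S lam₀, (1 / (nm g : ℝ))) * ((Jn lam₀ : ℝ) * ((Jn lam₀ : ℝ) * K)) := by
          rw [Finset.sum_mul]
          exact Finset.sum_congr rfl fun g _ => by ring
        simp only [Finset.sum_const, Finset.card_product, Finset.card_range, nsmul_eq_mul]
        rw [e3]
        push_cast
        ring
    _ ≤ 9 * ((Ch * Z ^ ε) * ((Cj * Z ^ ε) * ((Cj * Z ^ ε) * K))) := by gcongr
    _ = 9 * (Ch * (Cj * (Cj * Cb))) * (1 + C0) ^ 2 * (Z ^ ε * Z ^ ε * Z ^ ε * Z ^ (8 * ε)) * T := by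
        rw [hK]; ring
    _ = _ := by
        rw [← Real.rpow_add hZ0, ← Real.rpow_add hZ0, ← Real.rpow_add hZ0]
        congr 3
        ring

set_option maxHeartbeats 1000000 in
/-- **the structured bound**, hypothesis `HW` -/
theorem pohs_w {u : Eis} (hu : SU u) {χ : Eis → ℂ} (hχ : ∀ x, IsPrim x → χ x = conj (sy u x))
    {w₀ : ℝ → ℝ} (hw : Wgt w₀) {R : ℝ} (hR : 0 ≤ R) {a A : ℕ} (hA : 1 < A) {ε : ℝ} (hε : 0 < ε) :
    ∃ (C c : ℝ) (J : ℕ), 0 ≤ C ∧ 1 ≤ c ∧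
    ∀ Z N X lam : ℝ, 1 ≤ Z → 0 < N → N ≤ Z → 0 < X → 1 ≤ X * Z → 1 ≤ lam → lam ≤ Z →
      lam * Real.exp R < N →
    ∀ {ι : Type} (Q : Finset ι) (b : ι → Eis → ℂ) (Xq : ι → ℝ),
      (∀ q ∈ Q, X / 64 ≤ Xq q ∧ Xq q ≤ X) →
      (∀ q ∈ Q, ∀ n, b q n ≠ 0 → n ∈ S Z) → (∀ q ∈ Q, Win (b q) (Real.log N) R) →
    ∀ W : ℝ → ℝ, Slp a W → ∀ (ka : Eis), HW A (N ^ 2) Q b ka W →
    ∀ W1 : ℝ, W (c * Il N lam X) ≤ W1 →
    ∀ t : ℝ, ∑ q ∈ Q, ∑ κ ∈ KSa ka lam, ‖XS χ w₀ (Xq q) t (b q) κ‖ ^ 2 ≤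
      C * Z ^ ε * (1 + |t|) ^ J * (X * nfo lam (Il N lam X) * W1) := by
  set ε1 : ℝ := min 1 (ε / 12) with hε1
  have hε1p : 0 < ε1 := lt_min one_pos (by linarith)
  have hε1l : ε1 ≤ 1 := min_le_left _ _
  have hε1e : 12 * ε1 ≤ ε := by
    have : ε1 ≤ ε / 12 := min_le_right _ _
    linarith
  have hnu : (1 : ℝ) ≤ nm u := nm_ge_one hu.ne
  obtain ⟨Ck, J, hCk, hKT⟩ := TWt405.KT_tw hw (R := max R 2) (by positivity) A (a + 4)
  obtain ⟨Cp, hCp, hpv⟩ := pohs_vs hR hu (A := A) (a := a) hA hε1p hε1l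
  obtain ⟨Ct, hCt1, hCt⟩ := tau_unif hε1p
  have hCt0 : 0 < Ct := by linarith
  refine ⟨4 * Ct * (Cp * (1 + Ck) ^ 2),
    18 * (729 * (nm u : ℝ)) ^ 3 * (384 * (729 * (nm u : ℝ))), 2 * J, by positivity, ?_, ?_⟩
  · have h1 : (1 : ℝ) ≤ (729 * (nm u : ℝ)) ^ 3 := one_le_pow₀ (by linarith)
    exact one_le_mul_of_one_le_of_one_le (by linarith) (by linarith)
  intro Z N X lam₀ hZ hN hNZ hX hXZ hlam1 hlamZ hlamN ι Q b Xq hXq hb hwb W hW ka hVI W1 hW1 t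
  have hZ0 : 0 < Z := by linarith
  have hlam0 : 0 ≤ lam₀ := by linarith
  have hlamN' : lam₀ ≤ N :=
    (le_mul_of_one_le_right hlam0 (Real.one_le_exp hR)).trans hlamN.le
  have hB0 : lam₀ ^ 2 ≤ N ^ 2 := pow_le_pow_left₀ hlam0 hlamN' 2
  have ht1 : 1 ≤ 1 + |t| := by linarith [abs_nonneg t]
  have hI : 0 < Il N lam₀ X := by unfold Il; positivity
  have hW10 : 0 ≤ W1 := (hW.nonneg _ (by positivity)).trans hW1
  have hnf0 : 0 ≤ nfo lam₀ (Il N lam₀ X) := nfo_nonneg hlam0 hI.le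
  set T : ℝ := X * nfo lam₀ (Il N lam₀ X) * W1 with hT
  have hT0 : 0 ≤ T := by rw [hT]; positivity
  set C0 : ℝ := Ck * (1 + |t|) ^ J with hC0d
  have hC00 : 0 ≤ C0 := by positivity
  have hkc : KT (TWt405.wc w₀ t) (max R 2) A (a + 4) C0 := (hKT t).1
  have hks : KT (TWt405.wsn w₀ t) (max R 2) A (a + 4) C0 := (hKT t).2
  have b1 := hpv _ (TWt405.wgt_wc hw t) C0 hkc Z N X lam₀ hZ hN hNZ hX hXZ hlam1 hlamZ hlamN Q b
    Xq hXq hb hwb W hW (N ^ 2) ka hVI hB0 W1 hW1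
  have b2 := hpv _ (TWt405.wgt_wsn hw t) C0 hks Z N X lam₀ hZ hN hNZ hX hXZ hlam1 hlamZ hlamN Q b
    Xq hXq hb hwb W hW (N ^ 2) ka hVI hB0 W1 hW1
  rw [← hT] at b1 b2
  -- one kernel
  have h1 : ∀ q ∈ Q, ∀ κ ∈ KSa ka lam₀, ‖XS χ w₀ (Xq q) t (b q) κ‖ ^ 2 ≤
      2 * (Ct * Z ^ ε1) * ((∑ g ∈ pdiv κ.2.2, ‖Sh (TWt405.wc w₀ t) (Xq q) (pt (u * su κ))
          (bg (b q) g (κ.2.2 / g)) (g * κ.2.1)‖ ^ 2) +
        ∑ g ∈ pdiv κ.2.2, ‖Sh (TWt405.wsn w₀ t) (Xq q) (pt (u * su κ))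
          (bg (b q) g (κ.2.2 / g)) (g * κ.2.1)‖ ^ 2) := by
    intro q hq κ hκ
    obtain ⟨hg, hkv⟩ := mem_KS.mp (Finset.mem_filter.mp hκ).1
    have hXq0 : 0 < Xq q := by have := (hXq q hq).1; linarith
    rw [XS_splits u hχ hw hXq0 t hZ0.le (hb q hq) hg, norm_mul, norm_pw, one_mul]
    have hcs := norm_sum_le (pdiv κ.2.2) (fun g =>
      (Sh (TWt405.wc w₀ t) (Xq q) (pt (u * su κ)) (bg (b q) g (κ.2.2 / g)) (g * κ.2.1) +
        Sh (TWt405.wsn w₀ t) (Xq q) (pt (u * su κ)) (bg (b q) g (κ.2.2 / g)) (g * κ.2.1) * I))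
    have hsq : ‖∑ g ∈ pdiv κ.2.2,
      (Sh (TWt405.wc w₀ t) (Xq q) (pt (u * su κ)) (bg (b q) g (κ.2.2 / g)) (g * κ.2.1) +
        Sh (TWt405.wsn w₀ t) (Xq q) (pt (u * su κ)) (bg (b q) g (κ.2.2 / g)) (g * κ.2.1) * I)‖ ^ 2 ≤
      (Div277.tau κ.2.2 : ℝ) * ∑ g ∈ pdiv κ.2.2,
      ‖Sh (TWt405.wc w₀ t) (Xq q) (pt (u * su κ)) (bg (b q) g (κ.2.2 / g)) (g * κ.2.1) +
        Sh (TWt405.wsn w₀ t) (Xq q) (pt (u * su κ)) (bg (b q) g (κ.2.2 / g)) (g * κ.2.1) * I‖ ^ 2 := by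
      refine (pow_le_pow_left₀ (norm_nonneg _) hcs 2).trans ?_
      exact sq_sum_le_card_mul_sum_sq
    have htau : (Div277.tau κ.2.2 : ℝ) ≤ Ct * Z ^ ε1 := by
      refine hCt Z hZ κ.2.2 ((mem_S hZ0.le).mpr ⟨?_, hg.prim2, hg.sqf2⟩)
      have n1 := nm_ge_one hg.prim1.ne_zero
      have n2 := nm_ge_one hg.prim2.ne_zero
      have h3 := NonCube52.nm_kv_ge κ
      have h7 : (nm κ.2.2 : ℝ) ≤ (nm κ.2.2 : ℝ) ^ 2 := by nlinarith
      have h8 : (nm κ.2.2 : ℝ) ^ 2 ≤ nm κ.2.1 * (nm κ.2.2 : ℝ) ^ 2 :=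
        le_mul_of_one_le_left (by positivity) n1
      linarith
    have hpt : ∀ x y : ℂ, ‖x + y * I‖ ^ 2 ≤ 2 * (‖x‖ ^ 2 + ‖y‖ ^ 2) := by
      intro x y
      have h3 := norm_add_le x (y * I)
      rw [norm_mul, Complex.norm_I, mul_one] at h3
      nlinarith [norm_nonneg x, norm_nonneg y, norm_nonneg (x + y * I), sq_nonneg (‖x‖ - ‖y‖)]
    calc _ ≤ (Div277.tau κ.2.2 : ℝ) * ∑ g ∈ pdiv κ.2.2,
      ‖Sh (TWt405.wc w₀ t) (Xq q) (pt (u * su κ)) (bg (b q) g (κ.2.2 / g)) (g * κ.2.1) +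
        Sh (TWt405.wsn w₀ t) (Xq q) (pt (u * su κ)) (bg (b q) g (κ.2.2 / g)) (g * κ.2.1) * I‖ ^ 2 :=
          hsq
      _ ≤ (Ct * Z ^ ε1) * ∑ g ∈ pdiv κ.2.2,
        2 * (‖Sh (TWt405.wc w₀ t) (Xq q) (pt (u * su κ)) (bg (b q) g (κ.2.2 / g)) (g * κ.2.1)‖ ^ 2 +
        ‖Sh (TWt405.wsn w₀ t) (Xq q) (pt (u * su κ)) (bg (b q) g (κ.2.2 / g)) (g * κ.2.1)‖ ^ 2) := by
          refine mul_le_mul htau (Finset.sum_le_sum fun g _ => hpt _ _)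
            (Finset.sum_nonneg fun _ _ => by positivity) (by positivity)
      _ = _ := by rw [← Finset.mul_sum, Finset.sum_add_distrib]; ring
  have h2 : ∑ q ∈ Q, ∑ κ ∈ KSa ka lam₀, ‖XS χ w₀ (Xq q) t (b q) κ‖ ^ 2 ≤
      2 * (Ct * Z ^ ε1) * ((∑ q ∈ Q, ∑ κ ∈ KSa ka lam₀, ∑ g ∈ pdiv κ.2.2,
        ‖Sh (TWt405.wc w₀ t) (Xq q) (pt (u * su κ)) (bg (b q) g (κ.2.2 / g)) (g * κ.2.1)‖ ^ 2) +
        ∑ q ∈ Q, ∑ κ ∈ KSa ka lam₀, ∑ g ∈ pdiv κ.2.2,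
        ‖Sh (TWt405.wsn w₀ t) (Xq q) (pt (u * su κ)) (bg (b q) g (κ.2.2 / g)) (g * κ.2.1)‖ ^ 2) := by
    refine (Finset.sum_le_sum fun q hq => Finset.sum_le_sum fun κ hκ => h1 q hq κ hκ).trans
      (le_of_eq ?_)
    simp only [← Finset.mul_sum, Finset.sum_add_distrib]
  refine h2.trans ?_
  have h3 : 0 ≤ 2 * (Ct * Z ^ ε1) := by positivity
  refine (mul_le_mul_of_nonneg_left (add_le_add b1 b2) h3).trans ?_
  have h4 : (1 + C0) ^ 2 ≤ (1 + Ck) ^ 2 * (1 + |t|) ^ (2 * J) := by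
    have h5 : 1 ≤ (1 + |t|) ^ J := one_le_pow₀ ht1
    have h6 : 1 + C0 ≤ (1 + Ck) * (1 + |t|) ^ J := by rw [hC0d]; nlinarith
    calc (1 + C0) ^ 2 ≤ ((1 + Ck) * (1 + |t|) ^ J) ^ 2 :=
          pow_le_pow_left₀ (by positivity) h6 2
      _ = _ := by rw [mul_pow, ← pow_mul, mul_comm J 2]
  have h7 : Z ^ ε1 * Z ^ (11 * ε1) ≤ Z ^ ε := by
    rw [← Real.rpow_add hZ0]
    exact Real.rpow_le_rpow_of_exponent_le hZ (by linarith)
  calc 2 * (Ct * Z ^ ε1) * (Cp * (1 + C0) ^ 2 * Z ^ (11 * ε1) * T +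
        Cp * (1 + C0) ^ 2 * Z ^ (11 * ε1) * T)
      = 4 * Ct * Cp * (1 + C0) ^ 2 * (Z ^ ε1 * Z ^ (11 * ε1)) * T := by ring
    _ ≤ 4 * Ct * Cp * ((1 + Ck) ^ 2 * (1 + |t|) ^ (2 * J)) * Z ^ ε * T := by gcongr
    _ = _ := by ring

end Crest.Agent.R017.PoH347
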