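import Crest.Agent.R017.PoHv_72
import Crest.Agent.R017.PoH16_347

/-!
# Row 17, E3 with principal frequencies, part 7 (helper72)

The class version of helper347's `PoH14`, `PoH15` : S-unit twist `pt s`, kernels prime to `ka`,
hypothesis `HWx j`.
-/

set_option autoImplicit false

noncomputable section

open Complex MeasureTheory
open scoped ComplexConjugate Classical

namespace Crest.Agent.R017.PoHx72

open Crest.Agent.R012 Crest.Agent.R012.Eis Crest.Agent.R012.MC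
open Crest.Agent.R012.LS2 (S mem_S bl mem_bl)
open Crest.Agent.R012.Mob705 (mu pdiv mem_pdiv)
open Crest.Agent.R012.NonCube52 (Ker kv Good)
open Crest.Agent.R017.E1551 (nmpos jb jb_pos nm_ge_one)
open Crest.Agent.R017.BD829
open Crest.Agent.R017.PoH347
open Crest.Agent.R017.Mode405 (Slp Il VI)

/-- the hypothesis `HW` for the class `j` of the frequencies (`true` = principal) -/
def HWx (j : Bool) (A B0 : ℝ) {ι : Type} (Q : Finset ι) (b : ι → Eis → ℂ) (ka : Eis)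
    (Pr : ι → Eis → Eis → Prop) (W : ℝ → ℝ) : Prop :=
  ∀ γ φ x D : Eis, IsPrim γ → IsCoprime γ ka → φ ≠ 0 → x ≠ 0 → D ≠ 0 → (nm D : ℝ) ≤ B0 →
    φ * γ ^ 2 = x * D ^ 3 →
    ∀ P : ℝ, 1 ≤ P → (nm γ : ℝ) * ∑ q ∈ Q, VIc A (b q) γ φ 1 P (Cls (Pr q γ) j) ≤ W (P * nm x)

/-- one term of the block bound -/
def Tmsx (j : Bool) (Pr : Eis → Eis → Prop) (A : ℝ) (B a : ℕ) (U N X : ℝ) (j1 j3 : ℕ) (s : Eis) (b : Eis → ℂ) (g l d e f : Eis) : ℝ :=
  X ^ 2 / (N * 2 ^ j3 * 2 ^ j1) * (nm d / nm e : ℝ) ^ 2 *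
    nj (cpx g d e) j (nm g * 2 ^ j1 / (nm d * nm f)) (max 1 (lmq U N X j1 j3 d e)) *
    ((min 1 (lmq U N X j1 j3 d e)) ^ B *
      RGq A a (rs (bg b g l) (pt s) d f) ((e * ((9 * s) * sq3)) ^ 2 * f)
        (fun H => Cls (Pr (g * (d * f))) j (s * l * H))
        (max 1 (lmq U N X j1 j3 d e)))

lemma Tmsx_nonneg (j : Bool) (Pr : Eis → Eis → Prop) {A : ℝ} {B a : ℕ} {U N X : ℝ} (hU : 0 < U) (hN : 0 < N) (hX : 0 < X)
    (j1 j3 : ℕ) (s : Eis) (b : Eis → ℂ) (g l : Eis) {d e f : Eis} (hd : d ≠ 0) (he : e ≠ 0) :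
    0 ≤ Tmsx j Pr A B a U N X j1 j3 s b g l d e f := by
  have h := lmq_pos hU hN hX j1 j3 hd he
  have h1 : 0 ≤ nj (cpx g d e) j (nm g * 2 ^ j1 / (nm d * nm f)) (max 1 (lmq U N X j1 j3 d e)) :=
    nj_nonneg (cpx_pos g d e).le j (by positivity) (by positivity)
  have h2 := RGq_nonneg A a (rs (bg b g l) (pt s) d f) ((e * ((9 * s) * sq3)) ^ 2 * f)
        (fun H => Cls (Pr (g * (d * f))) j (s * l * H))
        (max 1 (lmq U N X j1 j3 d e))
  have h3 : 0 ≤ min 1 (lmq U N X j1 j3 d e) := (lt_min one_pos h).le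
  unfold Tmsx; positivity

set_option maxHeartbeats 1000000 in
/-- **one dilated sequence, one dyadic block**, both classes of frequencies -/
theorem inner_blocksx {R : ℝ} (hR : 0 ≤ R) {U : ℝ} (hU : 81 ≤ U) {A B a : ℕ} (hA : 1 < A)
    (hB : a + 1 ≤ B) (ha : 3 ≤ a) {ε : ℝ} (hε : 0 < ε) :
    ∃ C : ℝ, 0 < C ∧ ∀ (v : ℝ → ℝ), Wgt v → ∀ C0 : ℝ, KT v (max R 2) A B C0 →
      ∀ s : Eis, SU s → (nm (9 * s) : ℝ) ≤ U →
      ∀ Z N X X' lam₀ : ℝ, 1 ≤ Z → 0 < N → N ≤ Z → 0 < X → 1 ≤ X * Z → X / 64 ≤ X' → X' ≤ X →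
      1 ≤ lam₀ → lam₀ ≤ Z → lam₀ * Real.exp R < N →
      ∀ b : Eis → ℂ, (∀ n, b n ≠ 0 → n ∈ S Z) → Win b (Real.log N) R →
      ∀ (ka : Eis) (p : ℕ × ℕ) (g l : Eis), IsPrim g → IsPrim l → Squarefree (g * l) →
      ∀ j1 j3 : ℕ, Nat.log 2 (nm l) = j3 →
      ∀ Pr : Eis → Eis → Prop, (∀ D, D ≠ 0 → Cub (Pr D)) →
      (∀ D H, IsPrim D → H ≠ 0 → (∃ m, b (D * m) ≠ 0) → Pr D H →
        ∃ s t, D ^ 2 * H * s = t ^ 3 ∧ IsCoprime s D) →
      ∑ l₁ ∈ H1k lam₀ ka p g l j1, ‖Sh v X' (pt s) (bg b g l) (g * l₁)‖ ^ 2 ≤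
        C * (1 + C0) ^ 2 * Z ^ ε * ∑ d ∈ S lam₀, ∑ e ∈ pdiv d, ∑ f ∈ S lam₀,
          if IsCoprime (d * f) l ∧ IsCoprime (d * f) ka then
            ∑ j : Bool, Tmsx j Pr A B a U N X j1 j3 s b g l d e f else 0 := by
  have hA' : (1 : ℝ) < (A : ℝ) := by exact_mod_cast hA
  set R' : ℝ := max R 2 with hR'
  have hR'0 : 0 ≤ R' := by rw [hR']; positivity
  have hR'2 : 2 ≤ R' := le_max_right _ _
  have hRR' : R ≤ R' := le_max_left _ _
  obtain ⟨C, hC, hreg⟩ := poh_regc hR'0 hA hB ha (ε := ε / 2) (by linarith)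
  have hU0 : 0 < U := by linarith
  refine ⟨C * U ^ (ε / 2), by positivity, ?_⟩
  intro v hv C0 hk s hs hsU Z N X X' lam₀ hZ hN hNZ hX hXZ hX'1 hX'2 hlam1 hlZ hlN b hb hwb ka p g l
    hg hl hgl j1 j3 hj3 Pr hPr hcp
  have hZ0 : 0 < Z := by linarith
  have hX' : 0 < X' := by linarith
  have hlam0 : 0 ≤ lam₀ := by linarith
  have ng := nmpos hg.ne_zero
  have nl := nmpos hl.ne_zero
  have ng1 := nm_ge_one hg.ne_zero
  have nl1 := nm_ge_one hl.ne_zero
  have hl3 := pow_log_le (nm_pos.mpr hl.ne_zero).ne' hj3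
  have hgs : Squarefree g := (squarefree_mul_iff.mp hgl).2.1
  have hls : Squarefree l := (squarefree_mul_iff.mp hgl).2.2
  have hglc : IsCoprime g l := cop_of_sqf hgl
  have hC0 := hk.1
  -- nonnegativity of the right side
  have hTm : ∀ d ∈ S lam₀, ∀ e ∈ pdiv d, ∀ f ∈ S lam₀,
      0 ≤ if IsCoprime (d * f) l ∧ IsCoprime (d * f) ka then
            ∑ j : Bool, Tmsx j Pr A B a U N X j1 j3 s b g l d e f else 0 := by
    intro d hd e he f _
    have hd' := (mem_S hlam0).1 hd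
    split_ifs
    · exact Finset.sum_nonneg fun j _ => Tmsx_nonneg j Pr hU0 hN hX j1 j3 s b g l hd'.2.1.ne_zero
        ((mem_pdiv hd'.2.1.ne_zero).mp he).1.ne_zero
    · exact le_rfl
  rcases (H1k lam₀ ka p g l j1).eq_empty_or_nonempty with hem | ⟨x0, hx0⟩
  · rw [hem, Finset.sum_empty]
    have : 0 ≤ ∑ d ∈ S lam₀, ∑ e ∈ pdiv d, ∑ f ∈ S lam₀,
          if IsCoprime (d * f) l ∧ IsCoprime (d * f) ka then
            ∑ j : Bool, Tmsx j Pr A B a U N X j1 j3 s b g l d e f else 0 :=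
      Finset.sum_nonneg fun d hd => Finset.sum_nonneg fun e he => Finset.sum_nonneg fun f hf =>
        hTm d hd e he f hf
    exact mul_nonneg (by positivity) this
  -- the properties of the elements of the block
  have hprop : ∀ x ∈ H1k lam₀ ka p g l j1, IsPrim x ∧ Squarefree x ∧ IsCoprime x (g * l) ∧
      (nm x : ℝ) * (nm g * nm l) ^ 2 ≤ lam₀ ∧ (2 : ℝ) ^ j1 ≤ nm x ∧ (nm x : ℝ) ≤ 2 * 2 ^ j1 := by
    intro x hx
    obtain ⟨h1, h2, h3, h4⟩ := Finset.mem_filter.mp (Finset.mem_filter.mp hx).1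
    have h5 := pow_log_le (nm_pos.mpr h2.prim1.ne_zero).ne' h4
    refine ⟨h2.prim1, h2.sqf1, h2.cop, ?_, h5.1, h5.2⟩
    have h6 := NonCube52.nm_kv_ge (p, (x, g * l))
    refine le_trans (le_trans (le_of_eq ?_) h6) h3
    rw [nm_mul]
    push_cast
    ring
  -- the set of the products
  set Hs : Finset Eis := (H1k lam₀ ka p g l j1).image (fun x => g * x) with hHs
  have hinj : Set.InjOn (fun x : Eis => g * x) (H1k lam₀ ka p g l j1 : Set Eis) := by
    intro x _ y _ hxy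
    exact mul_left_cancel₀ hg.ne_zero hxy
  have hmemH : ∀ h ∈ Hs, ∃ x ∈ H1k lam₀ ka p g l j1, h = g * x := by
    intro h hh
    obtain ⟨x, hx, hx'⟩ := Finset.mem_image.mp hh
    exact ⟨x, hx, hx'.symm⟩
  have hsumH : ∑ l₁ ∈ H1k lam₀ ka p g l j1, ‖Sh v X' (pt s) (bg b g l) (g * l₁)‖ ^ 2 =
      ∑ h ∈ Hs, ‖Sh v X' (pt s) (bg b g l) h‖ ^ 2 := by
    rw [hHs, Finset.sum_image hinj]
  have hgx : ∀ x ∈ H1k lam₀ ka p g l j1, (nm g : ℝ) * nm x ≤ lam₀ := by
    intro x hx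
    obtain ⟨h1, -, -, h4, -, -⟩ := hprop x hx
    have nx := nmpos h1.ne_zero
    refine le_trans ?_ h4
    have h5 : (nm g : ℝ) ≤ (nm g * nm l) ^ 2 := by
      have h6 : (nm g : ℝ) ≤ nm g * nm l := le_mul_of_one_le_right ng.le nl1
      have h7 : (1 : ℝ) ≤ nm g * nm l := ng1.trans h6
      calc (nm g : ℝ) ≤ nm g * nm l := h6
        _ ≤ (nm g * nm l) * (nm g * nm l) := le_mul_of_one_le_left (by linarith) h7
        _ = _ := by ring
    rw [mul_comm]
    exact mul_le_mul_of_nonneg_left h5 nx.le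
  set Y : ℝ := Z ^ 2 with hY
  have hZY : Z ≤ Y := by rw [hY]; nlinarith
  have hY1 : 1 ≤ Y := by linarith
  have hY0 : 0 ≤ Y := by linarith
  -- support and window of the dilated sequence
  have hbs : ∀ n, bg b g l n ≠ 0 → n ∈ S Y := by
    intro m hm
    obtain ⟨n, rfl, hc, hn⟩ := exists_of_bg hl.ne_zero hm
    have h1 := (mem_S hZ0.le).1 (hb _ hn)
    have hnp : IsPrim n := h1.2.1.of_mul_left hg
    have hns : Squarefree n := h1.2.2.of_mul_right
    rw [mem_S hY0]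
    refine ⟨?_, hl.mul hnp, ?_⟩
    · rw [nm_mul]
      push_cast
      have h2 : (nm n : ℝ) ≤ Z := by
        refine le_trans ?_ h1.1
        rw [nm_mul]
        push_cast
        exact le_mul_of_one_le_left (Nat.cast_nonneg _) ng1
      have h3 : (nm l : ℝ) ≤ Z := by
        obtain ⟨h4, -, -, h5, -, -⟩ := hprop x0 hx0
        have nx1 := nm_ge_one h4.ne_zero
        have h6 : (nm l : ℝ) ≤ nm x0 * (nm g * nm l) ^ 2 := by
          have h7 : (nm l : ℝ) ≤ nm g * nm l := le_mul_of_one_le_left nl.le ng1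
          have h8 : (1 : ℝ) ≤ nm g * nm l := nl1.trans h7
          calc (nm l : ℝ) ≤ nm g * nm l := h7
            _ ≤ (nm g * nm l) * (nm g * nm l) := le_mul_of_one_le_left (by linarith) h8
            _ ≤ nm x0 * ((nm g * nm l) * (nm g * nm l)) :=
                le_mul_of_one_le_left (by positivity) nx1
            _ = _ := by ring
        linarith
      calc (nm l : ℝ) * nm n ≤ Z * Z := mul_le_mul h3 h2 (Nat.cast_nonneg _) hZ0.le
        _ = Y := by rw [hY]; ring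
    · exact squarefree_mul_iff.mpr ⟨(hc.of_mul_right_right).symm.isRelPrime, hls, hns⟩
  have hN' : 0 < N * nm l / nm g := by positivity
  have hwbs : Win (bg b g l) (Real.log (N * nm l / nm g)) R' := by
    intro m hm
    obtain ⟨n, rfl, hc, hn⟩ := exists_of_bg hl.ne_zero hm
    have h1 := hwb _ hn
    have h2 := (mem_S hZ0.le).1 (hb _ hn)
    have hnp : IsPrim n := h2.2.1.of_mul_left hg
    have nn := nmpos hnp.ne_zero
    rw [nm_mul] at h1 ⊢
    push_cast at h1 ⊢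
    rw [Real.log_mul ng.ne' nn.ne'] at h1
    rw [Real.log_mul nl.ne' nn.ne', Real.log_div (by positivity) ng.ne',
      Real.log_mul hN.ne' nl.ne']
    have e1 : Real.log (nm l) + Real.log (nm n) -
        (Real.log N + Real.log (nm l) - Real.log (nm g)) =
        Real.log (nm g) + Real.log (nm n) - Real.log N := by ring
    rw [e1]
    linarith
  -- the set `Hs`
  have hHsY : Hs ⊆ S Y := by
    intro h hh
    obtain ⟨x, hx, rfl⟩ := hmemH h hh
    obtain ⟨h1, h2, h3, -, -, -⟩ := hprop x hx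
    rw [mem_S hY0]
    refine ⟨?_, hg.mul h1, squarefree_mul_iff.mpr ⟨(h3.of_mul_right_left).symm.isRelPrime, hgs, h2⟩⟩
    rw [nm_mul]
    push_cast
    linarith [hgx x hx]
  have hL : (0 : ℝ) < nm g * 2 ^ j1 := by positivity
  have hHw : ∀ h ∈ Hs, |Real.log (nm h) - Real.log (nm g * 2 ^ j1)| ≤ R' / 2 := by
    intro h hh
    obtain ⟨x, hx, rfl⟩ := hmemH h hh
    obtain ⟨h1, -, -, -, h5, h6⟩ := hprop x hx
    have nx := nmpos h1.ne_zero
    have h2j : (0 : ℝ) < 2 ^ j1 := by positivity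
    rw [nm_mul]
    push_cast
    rw [Real.log_mul ng.ne' nx.ne', Real.log_mul ng.ne' h2j.ne']
    have h7 : Real.log (2 ^ j1) ≤ Real.log (nm x) := Real.log_le_log h2j h5
    have h8 : Real.log (nm x) ≤ Real.log 2 + Real.log (2 ^ j1) := by
      rw [← Real.log_mul (by norm_num) h2j.ne']
      exact Real.log_le_log nx h6
    have h9 : Real.log 2 ≤ 1 := by linarith [Real.log_two_lt_d9]
    rw [abs_le]
    constructor <;> linarith
  have hHb : ∀ h ∈ Hs, bg b g l h = 0 := by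
    intro h hh
    obtain ⟨x, hx, rfl⟩ := hmemH h hh
    obtain ⟨h1, -, h3, h4, -, -⟩ := hprop x hx
    by_contra hne
    obtain ⟨n, hn1, hn2, hn3⟩ := exists_of_bg hl.ne_zero hne
    -- `l = 1`
    have hl1 : l = 1 := by
      have h5 : IsCoprime (g * x) l := hglc.mul_left h3.of_mul_right_right
      have h6 : IsUnit l := by
        have h7 : l ∣ g * x := ⟨n, hn1⟩
        exact (h5.symm.of_isCoprime_of_dvd_right h7 : IsCoprime l l).isUnit_of_dvd' dvd_rfl dvd_rfl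
      exact hl.eq_of_associated isPrim_one (associated_one_iff_isUnit.mpr h6)
    have hg1 : g = 1 := by
      have h7 : g ∣ l * n := ⟨x, hn1.symm⟩
      rw [hl1, one_mul] at h7
      have h8 : IsCoprime n g := hn2.of_mul_right_left
      have h6 : IsUnit g := (h8.symm.of_isCoprime_of_dvd_right h7 : IsCoprime g g).isUnit_of_dvd'
        dvd_rfl dvd_rfl
      exact hg.eq_of_associated isPrim_one (associated_one_iff_isUnit.mpr h6)
    rw [hl1, hg1, one_mul, one_mul] at hn1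
    rw [hg1, one_mul] at hn3
    rw [← hn1] at hn3
    have h9 := hwb x hn3
    have nx := nmpos h1.ne_zero
    have h10 := hgx x hx
    rw [hg1, nm_one] at h10
    push_cast at h10
    rw [one_mul] at h10
    have h11 : Real.log (nm x) + R < Real.log N := by
      have h12 : (nm x : ℝ) * Real.exp R < N :=
        lt_of_le_of_lt (mul_le_mul_of_nonneg_right h10 (Real.exp_pos _).le) hlN
      have h13 := Real.log_lt_log (by positivity) h12
      rwa [Real.log_mul nx.ne' (Real.exp_pos _).ne', Real.log_exp] at h13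
    have h14 := (abs_le.mp h9).1
    linarith
  -- the size parameters
  have hxy0 := hprop x0 hx0
  have hlP : (nm g : ℝ) * 2 ^ j1 ≤ U * Z ^ 2 := by
    have h1 := hgx x0 hx0
    have h2 : (nm g : ℝ) * 2 ^ j1 ≤ nm g * nm x0 :=
      mul_le_mul_of_nonneg_left hxy0.2.2.2.2.1 ng.le
    nlinarith
  have hnl : (nm l : ℝ) ≤ Z := by
    obtain ⟨h4, -, -, h5, -, -⟩ := hxy0
    have nx1 := nm_ge_one h4.ne_zero
    have h6 : (nm l : ℝ) ≤ nm x0 * (nm g * nm l) ^ 2 := by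
      have h7 : (nm l : ℝ) ≤ nm g * nm l := le_mul_of_one_le_left nl.le ng1
      have h8 : (1 : ℝ) ≤ nm g * nm l := nl1.trans h7
      calc (nm l : ℝ) ≤ nm g * nm l := h7
        _ ≤ (nm g * nm l) * (nm g * nm l) := le_mul_of_one_le_left (by linarith) h8
        _ ≤ nm x0 * ((nm g * nm l) * (nm g * nm l)) :=
            le_mul_of_one_le_left (by positivity) nx1
        _ = _ := by ring
    linarith
  have hNP : N * nm l / nm g ≤ U * Z ^ 2 := by
    rw [div_le_iff₀ ng]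
    have h1 : N * nm l ≤ Z * Z := mul_le_mul hNZ hnl nl.le hZ0.le
    nlinarith
  have hXP : 1 ≤ X' * (U * Z ^ 2) := by
    have h1 : X * Z ≤ X' * (U * Z ^ 2) := by
      have h2 : X ≤ 64 * X' := by linarith
      have h3 : Z ≤ Z ^ 2 := by nlinarith
      calc X * Z ≤ (64 * X') * Z ^ 2 := mul_le_mul h2 h3 hZ0.le (by positivity)
        _ ≤ X' * (U * Z ^ 2) := by nlinarith [mul_pos hX' (pow_pos hZ0 2)]
    linarith
  -- the principal frequencies
  set Pr' : Eis → Eis → Prop := fun D H => (∃ m, bg b g l (D * m) ≠ 0) ∧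
    Pr (g * D) (s * l * H) with hPr'
  have hcnt : ∀ d ∈ Dh Y Hs, ∀ e ∈ pdiv d, ∀ f ∈ Fh Y Hs d, ∀ Z₁ : ℝ, 1 ≤ Z₁ →
      (((bl Z₁).filter (fun k => Pr' (d * f) (k * ((e * (9 * s * sq3)) ^ 2 * f)))).card : ℝ) ≤
        cpx g d e * Z₁ ^ (1 / 3 : ℝ) := by
    intro d hd e he f hf Z₁ hZ₁
    obtain ⟨hdY, hdh⟩ := Finset.mem_filter.mp hd
    obtain ⟨hfY, hfh⟩ := Finset.mem_filter.mp hf
    have hd' := (mem_S hY0).1 hdY
    have hf' := (mem_S hY0).1 hfY
    have he' := (mem_pdiv hd'.2.1.ne_zero).mp he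
    by_cases hnv : ∃ m, bg b g l (d * f * m) ≠ 0
    swap
    · rw [Finset.filter_false_of_mem (fun k _ hk => hnv hk.1)]
      rw [Finset.card_empty, Nat.cast_zero]
      have := cpx_pos g d e
      positivity
    obtain ⟨h, hh, hdf⟩ := hfh
    obtain ⟨x, hx, rfl⟩ := hmemH h hh
    obtain ⟨hx1, -, hx3, -, -, -⟩ := hprop x hx
    have hcl : IsCoprime (d * f) l := by
      have h5 : IsCoprime (g * x) l := hglc.mul_left hx3.of_mul_right_right
      exact h5.of_isCoprime_of_dvd_left hdf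
    obtain ⟨m, hm⟩ := hnv
    obtain ⟨n, hn1, hn2, hn3⟩ := exists_of_bg hl.ne_zero hm
    have hdn : d * f ∣ n := by
      have : d * f ∣ l * n := ⟨m, hn1.symm⟩
      exact hcl.dvd_of_dvd_mul_left this
    have hcg : IsCoprime (d * f) g := (hn2.of_mul_right_left).of_isCoprime_of_dvd_left hdn
    obtain ⟨m', rfl⟩ := hdn
    have hb2 : b (g * (d * f) * m') ≠ 0 := by
      rw [mul_assoc]; exact hn3
    have hDs : Squarefree (g * (d * f)) := by
      have h6 := ((mem_S hZ0.le).1 (hb _ hb2)).2.2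
      exact h6.of_mul_left
    obtain ⟨d', hd''⟩ := he'.2
    have hd'0 : d' ≠ 0 := by
      rintro rfl
      rw [mul_zero] at hd''
      exact hd'.2.1.ne_zero hd''
    have hd'p : IsPrim d' := by
      have : IsPrim (e * d') := by rw [← hd'']; exact hd'.2.1
      exact this.of_mul_left he'.1
    have hgdp : IsPrim (g * (d * f)) := hg.mul (hd'.2.1.mul hf'.2.1)
    have hup : IsPrim (g * d') := hg.mul hd'p
    have h1 := card_u (Q := fun H => Pr (g * (d * f)) (s * l * H))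
      (Cub.mul_left' (hPr (g * (d * f)) hgdp.ne_zero) (mul_ne_zero hs.ne hl.ne_zero))
      (u := g * d') hup.ne_zero (F := (e * (9 * s * sq3)) ^ 2 * f)
      (mul_ne_zero (pow_ne_zero 2 (mul_ne_zero he'.1.ne_zero
        (mul_ne_zero (LC_pt hs).ne sq3_ne_zero))) hf'.2.1.ne_zero) hZ₁ (fun k hk hQ => ?_)
    · refine le_trans ?_ (h1.trans (le_of_eq ?_))
      · refine Nat.cast_le.mpr (Finset.card_le_card ?_)
        intro k hk
        obtain ⟨hk1, hk2⟩ := Finset.mem_filter.mp hk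
        exact Finset.mem_filter.mpr ⟨hk1, hk2.2⟩
      · have e9 : (nm (g * d') : ℝ) = nm g * nm d / nm e := by
          rw [hd'', nm_mul, nm_mul]
          push_cast
          have := nmpos he'.1.ne_zero
          field_simp
        have e10 : max (1 : ℝ) (nm g * nm d / nm e) = nm g * nm d / nm e := by
          rw [← e9]
          exact max_eq_right (nm_ge_one hup.ne_zero)
        unfold cpx
        rw [e10, ← e9]
    · -- the divisibility
      have hk' := (mem_bl (by linarith)).1 hk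
      have hH0 : s * l * (k * ((e * (9 * s * sq3)) ^ 2 * f)) ≠ 0 :=
        mul_ne_zero (mul_ne_zero hs.ne hl.ne_zero) (mul_ne_zero hk'.1
          (mul_ne_zero (pow_ne_zero 2 (mul_ne_zero he'.1.ne_zero
            (mul_ne_zero (LC_pt hs).ne sq3_ne_zero))) hf'.2.1.ne_zero))
      obtain ⟨s', t, hst, hsc⟩ := hcp _ _ hgdp hH0 ⟨m', hb2⟩ hQ
      have h2 := dvd_of_pr hDs hgdp.ne_zero hsc hst
      have h3 : g * d' ∣ s * l * (k * ((e * (9 * s * sq3)) ^ 2 * f)) := by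
        refine dvd_trans ?_ h2
        rw [hd'']
        exact ⟨e * f, by ring⟩
      -- coprimality
      have hDs' : Squarefree (g * (e * d' * f)) := by rw [← hd'']; exact hDs
      have c1 : IsCoprime (g * d') (e * f) := by
        have h4 : Squarefree (g * d' * (e * f)) := by
          have : g * (e * d' * f) = g * d' * (e * f) := by ring
          rwa [this] at hDs'
        exact cop_of_sqf h4
      have c2 : IsCoprime (g * d') s := (hs.cop _ hup).symm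
      have c3 : IsCoprime (g * d') (9 * s * sq3) := by
        have h5 : IsCoprime (9 * s) (g * d') := (LC_pt hs).cop _ hup
        have h6 : IsCoprime sq3 (g * d') := sq3_cop hup
        exact (h5.mul_left h6).symm
      have c4 : IsCoprime (g * d') l := by
        refine hglc.mul_left ?_
        have : d' ∣ d * f := ⟨e * f, by rw [hd'']; ring⟩
        exact hcl.of_isCoprime_of_dvd_left this
      have h7 : g * d' ∣ k * ((e * (9 * s * sq3)) ^ 2 * f) :=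
        (c2.mul_right c4).dvd_of_dvd_mul_left h3
      have c5 : IsCoprime (g * d') ((e * (9 * s * sq3)) ^ 2 * f) :=
        ((c1.of_mul_right_left.mul_right c3).pow_right).mul_right c1.of_mul_right_right
      exact c5.dvd_of_dvd_mul_right h7
  have hmain := hreg v hv C0 hk (9 * s) (pt s) (LC_pt hs) (U * Z ^ 2) X' Y
    (N * nm l / nm g) (nm g * 2 ^ j1) (by nlinarith) (hsU.trans (by nlinarith)) hY1
    (by rw [hY]; nlinarith) hX' hXP hN' hNP hL hlP (bg b g l) hbs hwbs Hs hHsY hHw hHb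
    Pr' (fun d e => cpx g d e) (fun d e => cpx_pos g d e) (fun d hd e he f hf Z₁ hZ₁ => by
      convert hcnt d hd e he f hf Z₁ hZ₁)
  rw [hsumH]
  refine hmain.trans ?_
  -- the constant
  have hcst : C * (1 + C0) ^ 2 * (U * Z ^ 2) ^ (ε / 2) =
      C * U ^ (ε / 2) * (1 + C0) ^ 2 * Z ^ ε := by
    rw [Real.mul_rpow hU0.le (by positivity), ← Real.rpow_natCast Z 2,
      ← Real.rpow_mul hZ0.le]
    have : (((2 : ℕ) : ℝ)) * (ε / 2) = ε := by push_cast; ring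
    rw [this]
    ring
  rw [hcst, mul_assoc (C * U ^ (ε / 2) * (1 + C0) ^ 2 * Z ^ ε)]
  refine mul_le_mul_of_nonneg_left ?_ (by positivity)
  rw [Finset.mul_sum]
  -- comparison of the scales
  have hlmle : ∀ d e : Eis, d ≠ 0 → e ≠ 0 →
      lmB (9 * s) X' (N * nm l / nm g) (nm g * 2 ^ j1) d e ≤ lmq U N X j1 j3 d e := by
    intro d e hd he
    have nd := nmpos hd
    have ne := nmpos he
    unfold lmB lmq
    have hMle := hsU
    have e1 : N * nm l / nm g * (nm g * 2 ^ j1) = N * nm l * 2 ^ j1 := by field_simp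
    rw [e1, div_le_div_iff₀ (by positivity) (by positivity)]
    have h1 : N * nm l * 2 ^ j1 ≤ 2 * (N * 2 ^ j3 * 2 ^ j1) := by
      have : N * nm l * 2 ^ j1 ≤ N * (2 * 2 ^ j3) * 2 ^ j1 := by
        have := hl3.2
        gcongr
      linarith
    have h2 : X ≤ 64 * X' := by linarith
    have hMe : 3 * (nm (9 * s) : ℝ) * nm e ≤ 3 * U * nm e := by gcongr
    calc 3 * (nm (9 * s) : ℝ) * nm e * (N * nm l * 2 ^ j1) * (X * nm d ^ 2)
        ≤ 3 * U * nm e * (2 * (N * 2 ^ j3 * 2 ^ j1)) * ((64 * X') * nm d ^ 2) := by gcongr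
      _ = 384 * U * nm e * (N * 2 ^ j3 * 2 ^ j1) * (X' * nm d ^ 2) := by ring
  have hlBpos : ∀ d e : Eis, d ≠ 0 → e ≠ 0 →
      0 < lmB (9 * s) X' (N * nm l / nm g) (nm g * 2 ^ j1) d e := by
    intro d e hd he
    have nd := nmpos hd
    have ne := nmpos he
    have nM := nmpos (LC_pt hs).ne
    unfold lmB
    positivity
  -- the terms
  have hkey : ∀ d ∈ Dh Y Hs, ∀ e ∈ pdiv d, ∀ f ∈ Fh Y Hs d,
      X' ^ 2 / (N * nm l / nm g * (nm g * 2 ^ j1)) *
(∑ j : Bool, ((nm d / nm e : ℝ) ^ 2 * nj (cpx g d e) j (nm g * 2 ^ j1 / (nm d * nm f))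
          (max 1 (lmB (9 * s) X' (N * nm l / nm g) (nm g * 2 ^ j1) d e)) *
          ((min 1 (lmB (9 * s) X' (N * nm l / nm g) (nm g * 2 ^ j1) d e)) ^ B *
            RGq A a (rs (bg b g l) (pt s) d f) ((e * ((9 * s) * sq3)) ^ 2 * f)
              (Cls (Pr' (d * f)) j)
              (max 1 (lmB (9 * s) X' (N * nm l / nm g) (nm g * 2 ^ j1) d e))))) ≠ 0 →
      (d ∈ S lam₀ ∧ f ∈ S lam₀) ∧
      X' ^ 2 / (N * nm l / nm g * (nm g * 2 ^ j1)) *
(∑ j : Bool, ((nm d / nm e : ℝ) ^ 2 * nj (cpx g d e) j (nm g * 2 ^ j1 / (nm d * nm f))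
          (max 1 (lmB (9 * s) X' (N * nm l / nm g) (nm g * 2 ^ j1) d e)) *
          ((min 1 (lmB (9 * s) X' (N * nm l / nm g) (nm g * 2 ^ j1) d e)) ^ B *
            RGq A a (rs (bg b g l) (pt s) d f) ((e * ((9 * s) * sq3)) ^ 2 * f)
              (Cls (Pr' (d * f)) j)
              (max 1 (lmB (9 * s) X' (N * nm l / nm g) (nm g * 2 ^ j1) d e))))) ≤
        if IsCoprime (d * f) l ∧ IsCoprime (d * f) ka then
            ∑ j : Bool, Tmsx j Pr A B a U N X j1 j3 s b g l d e f else 0 := by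
    intro d hd e he f hf hne
    obtain ⟨hdY, hdh⟩ := Finset.mem_filter.mp hd
    obtain ⟨hfY, hfh⟩ := Finset.mem_filter.mp hf
    have hd' := (mem_S hY0).1 hdY
    have hf' := (mem_S hY0).1 hfY
    have he' := (mem_pdiv hd'.2.1.ne_zero).mp he
    have nd := nmpos hd'.2.1.ne_zero
    have nf := nmpos hf'.2.1.ne_zero
    have ne := nmpos he'.1.ne_zero
    have nd1 := nm_ge_one hd'.2.1.ne_zero
    have nf1 := nm_ge_one hf'.2.1.ne_zero
    obtain ⟨h, hh, hdf⟩ := hfh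
    obtain ⟨x, hx, rfl⟩ := hmemH h hh
    obtain ⟨hx1, -, hx3, hx4, hx5, -⟩ := hprop x hx
    have hcl : IsCoprime (d * f) l := by
      have h5 : IsCoprime (g * x) l := hglc.mul_left hx3.of_mul_right_right
      exact h5.of_isCoprime_of_dvd_left hdf
    -- the sequence does not vanish
    have hex : ∃ m, rs (bg b g l) (pt s) d f m ≠ 0 := by
      by_contra h0
      push Not at h0
      apply hne
      simp [RGq_zero h0]
    obtain ⟨m, hm⟩ := hex
    have hm1 : bg b g l (d * f * m) ≠ 0 := by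
      intro h0; apply hm; unfold rs; rw [h0, zero_mul]
    obtain ⟨n, hn1, hn2, -⟩ := exists_of_bg hl.ne_zero hm1
    have hdn : d * f ∣ n := by
      have : d * f ∣ l * n := ⟨m, hn1.symm⟩
      exact hcl.dvd_of_dvd_mul_left this
    have hcg : IsCoprime (d * f) g := (hn2.of_mul_right_left).of_isCoprime_of_dvd_left hdn
    have hdx : d * f ∣ x := hcg.dvd_of_dvd_mul_left hdf
    have hle : (nm d : ℝ) * nm f ≤ lam₀ := by
      have h1 : (nm (d * f) : ℝ) ≤ nm x := by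
        exact_mod_cast Div277.nm_le_of_dvd hx1.ne_zero hdx
      rw [nm_mul] at h1
      push_cast at h1
      have h2 := hgx x hx
      have h3 : (nm x : ℝ) ≤ nm g * nm x := le_mul_of_one_le_left (Nat.cast_nonneg _) ng1
      linarith
    have hdl : (nm d : ℝ) ≤ lam₀ := (le_mul_of_one_le_right nd.le nf1).trans hle
    have hfl : (nm f : ℝ) ≤ lam₀ := (le_mul_of_one_le_left nf.le nd1).trans hle
    refine ⟨⟨(mem_S hlam0).mpr ⟨hdl, hd'.2.1, hd'.2.2⟩, (mem_S hlam0).mpr ⟨hfl, hf'.2.1, hf'.2.2⟩⟩, ?_⟩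
    have hcka : IsCoprime (d * f) ka :=
      (Finset.mem_filter.mp hx).2.of_isCoprime_of_dvd_left hdx
    rw [if_pos ⟨hcl, hcka⟩, Finset.mul_sum]
    refine Finset.sum_le_sum fun j _ => ?_
    have eCls : Cls (Pr' (d * f)) j = fun H => Cls (Pr (g * (d * f))) j (s * l * H) := by
      funext H
      have hnv : ∃ m, bg b g l (d * f * m) ≠ 0 := ⟨m, hm1⟩
      unfold Cls
      rw [hPr']
      simp only [hnv, true_and]
    rw [eCls]
    have hlm := hlmle d e hd'.2.1.ne_zero he'.1.ne_zero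
    have hlB := hlBpos d e hd'.2.1.ne_zero he'.1.ne_zero
    have hsup := rs_supp hY0 hbs (pt s) hd'.2.1 hf'.2.1
    have hmx : max 1 (lmB (9 * s) X' (N * nm l / nm g) (nm g * 2 ^ j1) d e) ≤
        max 1 (lmq U N X j1 j3 d e) := max_le_max le_rfl hlm
    have hRG := RGq_mono hA' ha hY1 hsup ((e * ((9 * s) * sq3)) ^ 2 * f)
      (fun H => Cls (Pr (g * (d * f))) j (s * l * H))
      (le_max_left 1 (lmB (9 * s) X' (N * nm l / nm g) (nm g * 2 ^ j1) d e)) hmx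
    have hRG0 := RGq_nonneg A a (rs (bg b g l) (pt s) d f) ((e * ((9 * s) * sq3)) ^ 2 * f)
      (fun H => Cls (Pr (g * (d * f))) j (s * l * H))
      (max 1 (lmB (9 * s) X' (N * nm l / nm g) (nm g * 2 ^ j1) d e))
    have hnr := nj_mono (cpx_pos g d e).le j (N := nm g * 2 ^ j1 / (nm d * nm f)) (by positivity)
      (le_trans zero_le_one (le_max_left 1
        (lmB (9 * s) X' (N * nm l / nm g) (nm g * 2 ^ j1) d e))) hmx
    have hnr0 : 0 ≤ nj (cpx g d e) j (nm g * 2 ^ j1 / (nm d * nm f))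
      (max 1 (lmB (9 * s) X' (N * nm l / nm g) (nm g * 2 ^ j1) d e)) :=
      nj_nonneg (cpx_pos g d e).le j (by positivity) (by positivity)
    have hmin0 : 0 < min 1 (lmB (9 * s) X' (N * nm l / nm g) (nm g * 2 ^ j1) d e) :=
      lt_min one_pos hlB
    have hmin : (min 1 (lmB (9 * s) X' (N * nm l / nm g) (nm g * 2 ^ j1) d e)) ^ B ≤
        (min 1 (lmq U N X j1 j3 d e)) ^ B :=
      pow_le_pow_left₀ hmin0.le (min_le_min le_rfl hlm) B
    have hpre : X' ^ 2 / (N * nm l / nm g * (nm g * 2 ^ j1)) ≤ X ^ 2 / (N * 2 ^ j3 * 2 ^ j1) := by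
      have e1 : N * nm l / nm g * (nm g * 2 ^ j1) = N * nm l * 2 ^ j1 := by field_simp
      rw [e1]
      have h1 := hl3.1
      gcongr
    have hlp := lmq_pos hU0 hN hX j1 j3 hd'.2.1.ne_zero he'.1.ne_zero
    have hmp0 : 0 < min 1 (lmq U N X j1 j3 d e) := lt_min one_pos hlp
    have hnr1 : 0 ≤ nj (cpx g d e) j (nm g * 2 ^ j1 / (nm d * nm f))
        (max 1 (lmq U N X j1 j3 d e)) :=
      hnr0.trans hnr
    unfold Tmsx
    calc X' ^ 2 / (N * nm l / nm g * (nm g * 2 ^ j1)) *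
        ((nm d / nm e : ℝ) ^ 2 * nj (cpx g d e) j (nm g * 2 ^ j1 / (nm d * nm f))
          (max 1 (lmB (9 * s) X' (N * nm l / nm g) (nm g * 2 ^ j1) d e)) *
          ((min 1 (lmB (9 * s) X' (N * nm l / nm g) (nm g * 2 ^ j1) d e)) ^ B *
            RGq A a (rs (bg b g l) (pt s) d f) ((e * ((9 * s) * sq3)) ^ 2 * f)
              (fun H => Cls (Pr (g * (d * f))) j (s * l * H))
              (max 1 (lmB (9 * s) X' (N * nm l / nm g) (nm g * 2 ^ j1) d e))))
        ≤ X ^ 2 / (N * 2 ^ j3 * 2 ^ j1) *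
        ((nm d / nm e : ℝ) ^ 2 * nj (cpx g d e) j (nm g * 2 ^ j1 / (nm d * nm f))
          (max 1 (lmq U N X j1 j3 d e)) *
          ((min 1 (lmq U N X j1 j3 d e)) ^ B *
            RGq A a (rs (bg b g l) (pt s) d f) ((e * ((9 * s) * sq3)) ^ 2 * f)
              (fun H => Cls (Pr (g * (d * f))) j (s * l * H))
              (max 1 (lmq U N X j1 j3 d e)))) := by
          gcongr
      _ = _ := by ring
  -- the sums
  refine sum_le_sub (fun d hd => Finset.sum_nonneg fun e he => Finset.sum_nonneg fun f hf =>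
    hTm d hd e he f hf) (fun d hd hdne => ?_)
  rw [Finset.mul_sum] at hdne ⊢
  obtain ⟨e0, he0, hne0⟩ := Finset.exists_ne_zero_of_sum_ne_zero hdne
  rw [Finset.mul_sum] at hne0
  obtain ⟨f0, hf0, hne1⟩ := Finset.exists_ne_zero_of_sum_ne_zero hne0
  have hdmem := (hkey d hd e0 he0 f0 hf0 hne1).1.1
  refine ⟨hdmem, Finset.sum_le_sum fun e he => ?_⟩
  rw [Finset.mul_sum]
  refine sum_le_sub (fun f hf => hTm d hdmem e he f hf) (fun f hf hfne => ?_)
  have := hkey d hd e he f hf hfne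
  exact ⟨this.1.2, this.2⟩

/-- **the merged mean squares** over the frequencies with `Q`, generic twist -/
theorem sum_EBq_bgsx {A : ℝ} (hA : 1 < A) {Y : ℝ} (hY : 0 ≤ Y) {b : Eis → ℂ}
    (hb : ∀ n, b n ≠ 0 → n ∈ S Y) {g d f : Eis} (hg : IsPrim g) (hd : IsPrim d) (hf : IsPrim f)
    (s : Eis) {F0 : Eis} {Z L τ : ℝ} (hZ : 0 ≤ Z) (hL : 0 ≤ L) (hτ : 0 ≤ τ)
    {T : Finset Eis} (hT : ∀ l ∈ T, IsPrim l ∧ (nm l : ℝ) ≤ L ∧ IsCoprime (d * f) l)
    (ht : ∀ x ∈ bl (Z * L), (Div277.tau x : ℝ) ≤ τ) (Q : Eis → Prop) :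
    ∑ l ∈ T, EBq A (rs (bg b g l) (pt s) d f) (F0 * f) (fun H => Q (s * l * H)) Z ≤
      τ * VIc A b (g * (d * f)) (s * F0 * f) 1 (Z * L) Q := by
  set F : Eis → ℝ := fun y => if Q (y * (s * F0 * f)) then
    EQ A (fun n => b (g * (d * f) * n)) (y * (s * F0 * f)) else 0 with hFd
  have hF : ∀ x, 0 ≤ F x := fun x => by
    rw [hFd]; beta_reduce
    split_ifs
    · exact EQ_nonneg _ _ _
    · exact le_rfl
  have h1 : ∀ l ∈ T, EBq A (rs (bg b g l) (pt s) d f) (F0 * f) (fun H => Q (s * l * H)) Z ≤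
      ∑ k ∈ bl Z, F (k * l) := by
    intro l hl
    obtain ⟨hl1, -, hl3⟩ := hT l hl
    unfold EBq
    rw [Finset.sum_filter]
    refine Finset.sum_le_sum fun k _ => ?_
    have e0 : s * l * (k * (F0 * f)) = k * l * (s * F0 * f) := by ring
    have h2 := EQ_bgs hA hY hb hg hl1 (hd.mul hf) hl3 s (k * (F0 * f))
    unfold rs
    rw [hFd]
    beta_reduce
    rw [e0] at h2 ⊢
    split_ifs
    · exact h2
    · exact le_rfl
  refine (Finset.sum_le_sum h1).trans ?_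
  refine (merge hF hZ hL (fun l hl => ⟨(hT l hl).1, (hT l hl).2.1⟩) ht).trans ?_
  refine mul_le_mul_of_nonneg_left (le_of_eq ?_) hτ
  unfold VIc
  rw [Finset.sum_filter]
  refine Finset.sum_congr rfl fun k _ => ?_
  rw [hFd]
  beta_reduce
  congr 2
  funext n
  rw [if_pos isCoprime_one_right]

set_option maxHeartbeats 2000000 in
/-- the family of mean squares of one class, merged -/
theorem RG_famsx (j : Bool) {A a : ℕ} (hA : 1 < A) {ε : ℝ} (hε0 : 0 < ε) (hε : ε ≤ 1) :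
    ∃ C : ℝ, 0 < C ∧ ∀ Z : ℝ, 1 ≤ Z → ∀ {ι : Type} (Q : Finset ι) (b : ι → Eis → ℂ),
      (∀ q ∈ Q, ∀ n, b q n ≠ 0 → n ∈ S Z) → ∀ W : ℝ → ℝ, Slp a W →
      ∀ (B0 : ℝ) (ka : Eis) (Pr : ι → Eis → Eis → Prop), HWx j A B0 Q b ka Pr W →
      ∀ s : Eis, SU s → ∀ lam₀ : ℝ, 0 ≤ lam₀ → lam₀ ≤ Z → lam₀ ^ 2 ≤ B0 →
      ∀ (g : Eis), IsPrim g → IsCoprime g ka → ∀ (j3 : ℕ), ∀ d ∈ S lam₀, ∀ e ∈ pdiv d,
      ∀ f ∈ S lam₀, IsCoprime (d * f) ka →
      ∀ Λ : ℝ, 1 ≤ Λ →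
      ∑ i ∈ (Q ×ˢ T3 lam₀ g j3).filter (fun i => IsCoprime (d * f) i.2),
        RGq A (a + 3) (rs (bg (b i.1) g i.2) (pt s) d f) ((e * ((9 * s) * sq3)) ^ 2 * f)
          (fun H => Cls (Pr i.1 (g * (d * f))) j (s * i.2 * H)) Λ ≤
      C * (Λ * (2 * 2 ^ j3)) ^ ε * (W (Λ * (2 * 2 ^ j3) * nm (xx s g d e)) /
        (nm g * nm d * nm f)) := by
  have hA' : (1 : ℝ) < (A : ℝ) := by exact_mod_cast hA
  obtain ⟨C, hC1, hC⟩ := Div277.tau_le_rpow hε0
  have hC0 : 0 < C := by linarith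
  refine ⟨2 * C, by positivity, ?_⟩
  intro Z hZ ι Q b hb W hW B0 ka Pr hVI s hs lam₀ hlam0 hlamZ hB0 g hg hgk j3 d hd e he f hf hdfk Λ hΛ
  have hZ0 : 0 ≤ Z := by linarith
  have hd' := (mem_S hlam0).1 hd
  have hf' := (mem_S hlam0).1 hf
  have he' := (mem_pdiv hd'.2.1.ne_zero).mp he
  have ng := nmpos hg.ne_zero
  have nd := nmpos hd'.2.1.ne_zero
  have nf' := nmpos hf'.2.1.ne_zero
  have ne := nmpos he'.1.ne_zero
  have hΛ0 : 0 < Λ := by linarith
  set F0 : Eis := (e * ((9 * s) * sq3)) ^ 2 with hF0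
  have hF0n : F0 ≠ 0 := by
    rw [hF0]
    exact pow_ne_zero _ (mul_ne_zero he'.1.ne_zero (mul_ne_zero (LC_pt hs).ne sq3_ne_zero))
  set Wc : ℝ := W (Λ * (2 * 2 ^ j3) * nm (xx s g d e)) with hWc
  have hxne : xx s g d e ≠ 0 := xx_ne hs hg.ne_zero hd'.2.1.ne_zero he'.1.ne_zero he'.2
  have nxx := nmpos hxne
  have hWc0 : 0 ≤ Wc := hW.nonneg _ (by positivity)
  set V : ℝ := (Λ * (2 * 2 ^ j3)) ^ ε with hV
  have hV0 : 0 ≤ V := by positivity
  have hY1 : (1 : ℝ) ≤ Z ^ 2 := one_le_pow₀ hZ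
  set Qc : ι × Eis → Eis → Prop := fun i H => Cls (Pr i.1 (g * (d * f))) j (s * i.2 * H) with hQc
  -- the supports
  have hsup : ∀ i ∈ (Q ×ˢ T3 lam₀ g j3).filter (fun i => IsCoprime (d * f) i.2),
      ∀ n, rs (bg (b i.1) g i.2) (pt s) d f n ≠ 0 → n ∈ S (Z ^ 2) := by
    rintro ⟨q, l⟩ hi n hn
    obtain ⟨hi1, -⟩ := Finset.mem_filter.mp hi
    obtain ⟨hq, hl⟩ := Finset.mem_product.mp hi1
    obtain ⟨hl1, hl2, -⟩ := Finset.mem_filter.mp hl
    have hl' := (mem_S hlam0).1 hl1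
    refine rs_supp (by positivity) (u := bg (b q) g l) (fun m hm => ?_) (pt s) hd'.2.1 hf'.2.1 n hn
    obtain ⟨k, rfl, hc, hk⟩ := exists_of_bg hl'.2.1.ne_zero hm
    have h1 := (mem_S hZ0).1 (hb q hq _ hk)
    have hkp : IsPrim k := h1.2.1.of_mul_left hg
    rw [mem_S (by positivity)]
    refine ⟨?_, hl'.2.1.mul hkp, squarefree_mul_iff.mpr
      ⟨(hc.of_mul_right_right).symm.isRelPrime, hl'.2.2, h1.2.2.of_mul_right⟩⟩
    rw [nm_mul]
    push_cast
    have h2 : (nm k : ℝ) ≤ Z := by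
      refine le_trans ?_ h1.1
      rw [nm_mul]
      push_cast
      exact le_mul_of_one_le_left (Nat.cast_nonneg _) (nm_ge_one hg.ne_zero)
    calc (nm l : ℝ) * nm k ≤ Z * Z := mul_le_mul (hl'.1.trans hlamZ) h2 (Nat.cast_nonneg _) hZ0
      _ = Z ^ 2 := by ring
  have hbound : ∀ jj : ℕ, ∑ i ∈ (Q ×ˢ T3 lam₀ g j3).filter (fun i => IsCoprime (d * f) i.2),
      EBq A (rs (bg (b i.1) g i.2) (pt s) d f) (F0 * f) (Qc i) (2 ^ jj * Λ) ≤
      (C * V * (Wc / (nm g * nm d * nm f))) * (2 ^ (a + 1)) ^ jj := by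
    intro jj
    have h2j : (1 : ℝ) ≤ 2 ^ jj := one_le_pow₀ (by norm_num)
    set τ : ℝ := C * (2 ^ jj * V) with hτ
    have hτ0 : 0 ≤ τ := by positivity
    -- reorganise
    have e1 : ∑ i ∈ (Q ×ˢ T3 lam₀ g j3).filter (fun i => IsCoprime (d * f) i.2),
        EBq A (rs (bg (b i.1) g i.2) (pt s) d f) (F0 * f) (Qc i) (2 ^ jj * Λ) =
        ∑ q ∈ Q, ∑ l ∈ (T3 lam₀ g j3).filter (fun l => IsCoprime (d * f) l),
          EBq A (rs (bg (b q) g l) (pt s) d f) (F0 * f) (Qc (q, l)) (2 ^ jj * Λ) := by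
      rw [Finset.sum_filter, Finset.sum_product]
      refine Finset.sum_congr rfl fun q _ => ?_
      rw [Finset.sum_filter]
    rw [e1]
    have h1 : ∀ q ∈ Q, ∑ l ∈ (T3 lam₀ g j3).filter (fun l => IsCoprime (d * f) l),
        EBq A (rs (bg (b q) g l) (pt s) d f) (F0 * f) (Qc (q, l)) (2 ^ jj * Λ) ≤
        τ * VIc A (b q) (g * (d * f)) (s * F0 * f) 1 (2 ^ jj * Λ * (2 * 2 ^ j3))
          (Cls (Pr q (g * (d * f))) j) := by
      intro q hq
      refine sum_EBq_bgsx hA' hZ0 (hb q hq) hg hd'.2.1 hf'.2.1 s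
        (Z := 2 ^ jj * Λ) (L := 2 * 2 ^ j3) (by positivity) (by positivity) hτ0 (fun l hl => ?_)
        (fun x hx => ?_) (Cls (Pr q (g * (d * f))) j)
      · obtain ⟨hl1, hl2⟩ := Finset.mem_filter.mp hl
        obtain ⟨hl3, -, hl4⟩ := Finset.mem_filter.mp hl1
        have hl' := (mem_S hlam0).1 hl3
        exact ⟨hl'.2.1, (pow_log_le (nm_pos.mpr hl'.2.1.ne_zero).ne' hl4).2, hl2⟩
      · have hx' := (mem_bl (by positivity)).1 hx
        refine (hC x hx'.1).trans ?_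
        rw [hτ]
        refine mul_le_mul_of_nonneg_left ?_ hC0.le
        calc (nm x : ℝ) ^ ε ≤ (2 ^ jj * Λ * (2 * 2 ^ j3)) ^ ε :=
              Real.rpow_le_rpow (Nat.cast_nonneg _) hx'.2 hε0.le
          _ = (2 ^ jj : ℝ) ^ ε * V := by
              rw [mul_assoc, Real.mul_rpow (by positivity) (by positivity)]
          _ ≤ 2 ^ jj * V := by
              refine mul_le_mul_of_nonneg_right ?_ hV0
              calc (2 ^ jj : ℝ) ^ ε ≤ (2 ^ jj : ℝ) ^ (1 : ℝ) :=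
                    Real.rpow_le_rpow_of_exponent_le h2j hε
                _ = 2 ^ jj := Real.rpow_one _
    refine (Finset.sum_le_sum h1).trans ?_
    rw [← Finset.mul_sum]
    have hP1 : (1 : ℝ) ≤ 2 ^ jj * Λ * (2 * 2 ^ j3) := by
      have h3 : (1 : ℝ) ≤ 2 ^ j3 := one_le_pow₀ (by norm_num)
      exact one_le_mul_of_one_le_of_one_le (one_le_mul_of_one_le_of_one_le h2j hΛ) (by linarith)
    have hφ : s * F0 * f ≠ 0 := mul_ne_zero (mul_ne_zero hs.ne hF0n) hf'.2.1.ne_zero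
    have hnD : (nm (e * f) : ℝ) ≤ B0 := by
      refine le_trans ?_ hB0
      have h3 : (nm e : ℝ) ≤ lam₀ := by
        refine le_trans ?_ hd'.1
        exact_mod_cast Div277.nm_le_of_dvd hd'.2.1.ne_zero he'.2
      rw [nm_mul, sq]
      push_cast
      exact mul_le_mul h3 hf'.1 (Nat.cast_nonneg _) hlam0
    have h2 := hVI (g * (d * f)) (s * F0 * f) (xx s g d e) (e * f) (hg.mul (hd'.2.1.mul hf'.2.1))
      (hgk.mul_left hdfk) hφ hxne
      (mul_ne_zero he'.1.ne_zero hf'.2.1.ne_zero) hnD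
      (by rw [hF0, ← mul_assoc g d f]; exact xx_eq he'.1.ne_zero he'.2) _ hP1
    have h3 := slp_dbl_pow hW (P := Λ * (2 * 2 ^ j3) * nm (xx s g d e)) (by positivity) jj
    have h4 : ∑ q ∈ Q, VIc A (b q) (g * (d * f)) (s * F0 * f) 1 (2 ^ jj * Λ * (2 * 2 ^ j3))
          (Cls (Pr q (g * (d * f))) j) ≤
        (2 ^ a) ^ jj * (Wc / (nm g * nm d * nm f)) := by
      rw [← mul_div_assoc, le_div_iff₀ (by positivity), mul_comm]
      have e3 : (nm (g * (d * f)) : ℝ) = nm g * nm d * nm f := by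
        rw [nm_mul, nm_mul]; push_cast; ring
      rw [e3] at h2
      refine h2.trans (le_trans (le_of_eq ?_) h3)
      congr 1
      ring
    calc τ * ∑ q ∈ Q, VIc A (b q) (g * (d * f)) (s * F0 * f) 1 (2 ^ jj * Λ * (2 * 2 ^ j3))
          (Cls (Pr q (g * (d * f))) j)
        ≤ τ * ((2 ^ a) ^ jj * (Wc / (nm g * nm d * nm f))) := mul_le_mul_of_nonneg_left h4 hτ0
      _ = (C * V * (Wc / (nm g * nm d * nm f))) * (2 ^ (a + 1)) ^ jj := by
          rw [hτ, pow_succ, mul_pow]; ring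
  have hfin := RGq_sum_lex (A := (A : ℝ)) (a := a) (N := Z ^ 2) hA' hY1
    ((Q ×ˢ T3 lam₀ g j3).filter (fun i => IsCoprime (d * f) i.2))
    (u := fun i => rs (bg (b i.1) g i.2) (pt s) d f) (fun i hi n hn => by
      exact hsup i hi n hn) (F0 * f) Qc (Z := Λ) hΛ
    (K := C * V * (Wc / (nm g * nm d * nm f))) (fun jj => by exact hbound jj)
  refine hfin.trans (le_of_eq ?_)
  ring

/-- **one term of the family**, class `j` -/
theorem fam_onesx (j : Bool) {U : ℝ} (hU : 1 ≤ U) {A a : ℕ} (hA : 1 < A) {ε : ℝ} (hε0 : 0 < ε) (hε : ε ≤ 1) :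
    ∃ C : ℝ, 0 < C ∧ ∀ Z N X lam₀ : ℝ, 1 ≤ Z → 0 < N → N ≤ Z → 0 < X → 1 ≤ X * Z →
      1 ≤ lam₀ → lam₀ ≤ Z →
      ∀ {ι : Type} (Q : Finset ι) (b : ι → Eis → ℂ),
      (∀ q ∈ Q, ∀ n, b q n ≠ 0 → n ∈ S Z) →
      ∀ W : ℝ → ℝ, Slp a W → ∀ (B0 : ℝ) (ka : Eis) (Pr : ι → Eis → Eis → Prop),
      HWx j A B0 Q b ka Pr W → lam₀ ^ 2 ≤ B0 →
      ∀ W1 : ℝ, W (18 * U ^ 3 * (384 * U) * Il N lam₀ X) ≤ W1 →
      ∀ s : Eis, SU s → (nm (9 * s) : ℝ) ≤ U → ∀ g : Eis, IsPrim g → IsCoprime g ka →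
      ∀ j1 j3 : ℕ,
      (2 : ℝ) ^ j1 * (nm g * 2 ^ j3) ^ 2 ≤ lam₀ → (2 : ℝ) ^ j3 * 2 ^ j1 ≤ Z →
      ∀ d ∈ S lam₀, ∀ e ∈ pdiv d, ∀ f ∈ S lam₀,
      ∑ q ∈ Q, ∑ l ∈ T3 lam₀ g j3, (if IsCoprime (d * f) l ∧ IsCoprime (d * f) ka then
        Tmsx j (Pr q) A (a + 4) (a + 3) U N X j1 j3 s (b q) g l d e f else 0) ≤
      C * Z ^ (4 * ε) * (1 / nm g * (X * nfx j lam₀ (Il N lam₀ X) * W1)) *
        (1 / nm d * (1 / nm f)) := by
  obtain ⟨Cr, hCr, hRG⟩ := RG_famsx j (A := A) (a := a) hA hε0 hε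
  have hU0 : 0 < U := by linarith
  refine ⟨Cr * (768 * U) * (18 * (2 ^ a * (384 * U))), by positivity, ?_⟩
  intro Z N X lam₀ hZ hN hNZ hX hXZ hlam1 hlamZ ι Q b hb W hW B0 ka Pr hVI hB0 W1
    hW1 s hs hsU g hg hgk j1 j3 hl hprod d hd e he f hf
  have hZ0 : 0 < Z := by linarith
  have hlam0 : 0 ≤ lam₀ := by linarith
  have ng := nmpos hg.ne_zero
  have ng1 := nm_ge_one hg.ne_zero
  have h2j1 : (1 : ℝ) ≤ 2 ^ j1 := one_le_pow₀ (by norm_num)
  have h2j3 : (1 : ℝ) ≤ 2 ^ j3 := one_le_pow₀ (by norm_num)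
  have hd' := (mem_S hlam0).1 hd
  have hf' := (mem_S hlam0).1 hf
  have he' := (mem_pdiv hd'.2.1.ne_zero).mp he
  have nd := nmpos hd'.2.1.ne_zero
  have nf' := nmpos hf'.2.1.ne_zero
  have ne := nmpos he'.1.ne_zero
  have nd1 := nm_ge_one hd'.2.1.ne_zero
  have nf1 := nm_ge_one hf'.2.1.ne_zero
  have ne1 := nm_ge_one he'.1.ne_zero
  have hed : (nm e : ℝ) ≤ nm d := by
    exact_mod_cast Div277.nm_le_of_dvd hd'.2.1.ne_zero he'.2
  have hlp := lmq_pos hU0 hN hX j1 j3 hd'.2.1.ne_zero he'.1.ne_zero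
  have hΛ1 : 1 ≤ max 1 (lmq U N X j1 j3 d e) := le_max_left _ _
  have hΛ0 : 0 < max 1 (lmq U N X j1 j3 d e) := by linarith
  have hnr0 : 0 ≤ nj (cpx g d e) j (nm g * 2 ^ j1 / (nm d * nm f))
      (max 1 (lmq U N X j1 j3 d e)) := nj_nonneg (cpx_pos g d e).le j (by positivity) hΛ0.le
  have hmin0 : 0 < min 1 (lmq U N X j1 j3 d e) := lt_min one_pos hlp
  have hIl : 0 < Il N lam₀ X := by unfold Il; positivity
  have hW10 : 0 ≤ W1 := (hW.nonneg _ (by positivity)).trans hW1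
  have hnf0 : 0 ≤ nfx j lam₀ (Il N lam₀ X) := nfx_nonneg j hlam0 hIl.le
  by_cases hk : IsCoprime (d * f) ka
  swap
  · have h0 : ∑ q ∈ Q, ∑ l ∈ T3 lam₀ g j3, (if IsCoprime (d * f) l ∧ IsCoprime (d * f) ka then
        Tmsx j (Pr q) A (a + 4) (a + 3) U N X j1 j3 s (b q) g l d e f else 0) = 0 :=
      Finset.sum_eq_zero fun q _ => Finset.sum_eq_zero fun l _ => if_neg fun h => hk h.2
    rw [h0]
    positivity
  have e1 : ∑ q ∈ Q, ∑ l ∈ T3 lam₀ g j3, (if IsCoprime (d * f) l ∧ IsCoprime (d * f) ka then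
      Tmsx j (Pr q) A (a + 4) (a + 3) U N X j1 j3 s (b q) g l d e f else 0) =
      (X ^ 2 / (N * 2 ^ j3 * 2 ^ j1) * (nm d / nm e : ℝ) ^ 2 *
      nj (cpx g d e) j (nm g * 2 ^ j1 / (nm d * nm f)) (max 1 (lmq U N X j1 j3 d e)) *
      (min 1 (lmq U N X j1 j3 d e)) ^ (a + 4)) *
        ∑ i ∈ (Q ×ˢ T3 lam₀ g j3).filter (fun i => IsCoprime (d * f) i.2),
        RGq A (a + 3) (rs (bg (b i.1) g i.2) (pt s) d f) ((e * ((9 * s) * sq3)) ^ 2 * f)
          (fun H => Cls (Pr i.1 (g * (d * f))) j (s * i.2 * H)) (max 1 (lmq U N X j1 j3 d e)) := by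
    rw [Finset.sum_filter, Finset.sum_product, Finset.mul_sum]
    refine Finset.sum_congr rfl fun q _ => ?_
    rw [Finset.mul_sum]
    refine Finset.sum_congr rfl fun l _ => ?_
    simp only [hk, and_true]
    split_ifs
    · unfold Tmsx
      ring
    · rw [mul_zero]
  rw [e1]
  have h1 := hRG Z hZ Q b hb W hW B0 ka Pr hVI s hs lam₀ hlam0 hlamZ hB0 g hg hgk j3 d hd e he f hf hk
    _ hΛ1
  have hxne : xx s g d e ≠ 0 := xx_ne hs hg.ne_zero hd'.2.1.ne_zero he'.1.ne_zero he'.2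
  have nxx := nmpos hxne
  have hmono : W (max 1 (lmq U N X j1 j3 d e) * (2 * 2 ^ j3) * nm (xx s g d e)) ≤
      W (18 * U ^ 3 * max 1 (lmq U N X j1 j3 d e) * 2 ^ j3 *
        ((nm d : ℝ) ^ 2 * (nm g : ℝ) ^ 2 / nm e)) := by
    refine slp_mono hW (by positivity) ?_
    have h2 := nm_xx_le (g := g) hs hsU hd'.2.1.ne_zero he'.1.ne_zero he'.2
    have e7 : (nm g : ℝ) ^ 2 * ((nm d : ℝ) ^ 2 / nm e) = (nm d : ℝ) ^ 2 * (nm g : ℝ) ^ 2 / nm e := by
      ring
    rw [e7] at h2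
    calc max 1 (lmq U N X j1 j3 d e) * (2 * 2 ^ j3) * (nm (xx s g d e) : ℝ)
        ≤ max 1 (lmq U N X j1 j3 d e) * (2 * 2 ^ j3) *
          (9 * U ^ 3 * ((nm d : ℝ) ^ 2 * (nm g : ℝ) ^ 2 / nm e)) :=
          mul_le_mul_of_nonneg_left h2 (by positivity)
      _ = _ := by ring
  have h1' := h1.trans (mul_le_mul_of_nonneg_left
    (div_le_div_of_nonneg_right hmono (by positivity : (0 : ℝ) ≤ nm g * nm d * nm f))
    (by positivity : 0 ≤ Cr * (max 1 (lmq U N X j1 j3 d e) * (2 * 2 ^ j3)) ^ ε))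
  have hU1 : 1 ≤ U ^ 3 := one_le_pow₀ hU
  have hblock := block_boundx j (B := a + 4) (by omega) hW (c1 := 18 * U ^ 3) (c2 := 384 * U)
    (X := X) (N := N) (lam := lam₀) (L1 := 2 ^ j1) (L3 := 2 ^ j3) (G := nm g) (D := nm d)
    (E := nm e) (F := nm f) (lm := lmq U N X j1 j3 d e) (by linarith) (by linarith) hX hN
    (by linarith) h2j1 h2j3 ng1 ne1 hed nf1 hl hW10 hW1 rfl
  have hV := V_les hU hN hNZ hX hXZ hZ hprod nd1 hed hε0 hε
  have hWc : 0 ≤ W (18 * U ^ 3 * max 1 (lmq U N X j1 j3 d e) * 2 ^ j3 *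
        ((nm d : ℝ) ^ 2 * (nm g : ℝ) ^ 2 / nm e)) :=
    hW.nonneg _ (by positivity)
  have hfin := term_arith (by positivity) h1' rfl ng nd nf' hCr.le hV hblock (by positivity)
    (by positivity)
  refine hfin.trans (le_of_eq ?_)
  ring

end Crest.Agent.R017.PoHx72
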