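import Crest.Agent.R017.MDxa_744
import Crest.Agent.R017.ModeD4_405
import Crest.Agent.R017.PoHs_72

/-!
# Row 17, T.7 (class E), E3: second form, part b (helper744)

* `PoDx χ w` : the bound at one kernel for families of dilations, two classes of frequencies
* `GDx χ v` : the structured bound of the dilations as an instance of `GPx`
* `pohg_Dx` : `PoHGx (GDx χ v)` from `PoDx`
-/

set_option autoImplicit false

noncomputable section

open Complex MeasureTheory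
open scoped ComplexConjugate Classical

namespace Crest.Agent.R017.MX744

open Crest.Agent.R012 Crest.Agent.R012.Eis Crest.Agent.R012.MC
open Crest.Agent.R012.LS2 (S mem_S bl mem_bl)
open Crest.Agent.R012.LS448 (one_le_nm')
open Crest.Agent.R012.NonCube52 (Ker kv Good)
open Crest.Agent.R012.Mob705 (mu pdiv mem_pdiv)
open Crest.Agent.R012.Weight600 (pw osc)
open Crest.Agent.R017.CM106 (CS TG FS)
open Crest.Agent.R017.BD829 (TT EQ Win EQ_nonneg)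
open Crest.Agent.R017.E1551 (jb jb_pos nmpos integrable_jb)
open Crest.Agent.R017.DgB829 (HS HS_le HS_nonneg)
open Crest.Agent.R017.E3D579 (bt)
open Crest.Agent.R017.Mode405
open Crest.Agent.R017.PoHx72

/-- the harmonic sum over the kernels -/
lemma sum_KS_inv {lm : ℝ} (hl : 1 ≤ lm) :
    ∑ κ ∈ KS lm, (1 / (nm κ.2.1 : ℝ)) * (1 / (nm κ.2.2 : ℝ)) ≤ 9 * HS lm ^ 2 := by
  have hl0 : 0 ≤ lm := by linarith
  set T : Finset Ker := (Finset.range 3 ×ˢ Finset.range 3) ×ˢ (S lm ×ˢ S lm) with hT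
  have hb : ∀ κ ∈ KS lm, κ ∈ T := by
    intro κ hκ
    obtain ⟨hg, hn⟩ := mem_KS.mp hκ
    have h1 : (1 : ℝ) ≤ nm κ.2.1 := one_le_nm' hg.prim1.ne_zero
    have h2 : (1 : ℝ) ≤ nm κ.2.2 := one_le_nm' hg.prim2.ne_zero
    have h3 := NonCube52.nm_kv_ge κ
    have h4 : (nm κ.2.2 : ℝ) ≤ (nm κ.2.2 : ℝ) ^ 2 := by nlinarith
    have h5 : (nm κ.2.1 : ℝ) * nm κ.2.2 ≤ nm (kv κ) :=
      (mul_le_mul_of_nonneg_left h4 (by linarith)).trans h3
    have h6 : (nm κ.2.1 : ℝ) ≤ nm (kv κ) :=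
      (le_mul_of_one_le_right (by linarith) h2).trans h5
    have h7 : (nm κ.2.2 : ℝ) ≤ nm (kv κ) :=
      (le_mul_of_one_le_left (by linarith) h1).trans h5
    rw [hT, Finset.mem_product, Finset.mem_product, Finset.mem_product, Finset.mem_range,
      Finset.mem_range, mem_S hl0, mem_S hl0]
    exact ⟨⟨hg.hi, hg.hj⟩, ⟨h6.trans hn, hg.prim1, hg.sqf1⟩, ⟨h7.trans hn, hg.prim2, hg.sqf2⟩⟩
  calc ∑ κ ∈ KS lm, (1 / (nm κ.2.1 : ℝ)) * (1 / (nm κ.2.2 : ℝ))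
      ≤ ∑ κ ∈ T, (1 / (nm κ.2.1 : ℝ)) * (1 / (nm κ.2.2 : ℝ)) :=
        Finset.sum_le_sum_of_subset_of_nonneg hb fun _ _ _ => by positivity
    _ = 9 * HS lm ^ 2 := by
        have e1 : ∑ x ∈ S lm ×ˢ S lm, (1 / (nm x.1 : ℝ)) * (1 / (nm x.2 : ℝ)) = HS lm * HS lm := by
          unfold HS
          rw [Finset.sum_product, Finset.sum_mul_sum]
        rw [hT, Finset.sum_product]
        simp only
        rw [Finset.sum_const, e1, Finset.card_product, Finset.card_range]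
        simp only [nsmul_eq_mul]
        push_cast
        ring

/-- one kernel: the loss of the second factor is paid by the shape of the kernel -/
lemma ker_pay {lm : ℝ} {κ : Ker} (hg : Good κ) (hn : (nm (kv κ) : ℝ) ≤ lm) :
    ((nm (kv κ) : ℝ) / lm) ^ (-(1 / 3) : ℝ) * (nm κ.2.2 : ℝ) ^ (2 / 3 : ℝ) ≤
      lm * ((1 / (nm κ.2.1 : ℝ)) * (1 / (nm κ.2.2 : ℝ))) := by
  have h1 : (1 : ℝ) ≤ nm κ.2.1 := one_le_nm' hg.prim1.ne_zero
  have h2 : (1 : ℝ) ≤ nm κ.2.2 := one_le_nm' hg.prim2.ne_zero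
  have h3 := NonCube52.nm_kv_ge κ
  set x : ℝ := ((nm κ.2.1 : ℕ) : ℝ) with hx
  set y : ℝ := ((nm κ.2.2 : ℕ) : ℝ) with hy
  have hK : 1 ≤ (nm (kv κ) : ℝ) := one_le_nm' (NonCube52.kv_ne_zero hg)
  set K : ℝ := ((nm (kv κ) : ℕ) : ℝ) with hKd
  have hx0 : 0 < x := by linarith
  have hy0 : 0 < y := by linarith
  have hK0 : 0 < K := by linarith
  have hl0 : 0 < lm := by linarith
  -- (K/lm)^(-1/3) = (lm/K)^(1/3) ≤ (lm/(x y²))^(1/3)
  have hxy0 : 0 < x * y ^ 2 := by positivity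
  have e1 : (K / lm) ^ (-(1 / 3) : ℝ) = (lm / K) ^ (1 / 3 : ℝ) := by
    rw [Real.rpow_neg (by positivity), ← Real.inv_rpow (by positivity), inv_div]
  have e2 : (lm / K) ^ (1 / 3 : ℝ) ≤ (lm / (x * y ^ 2)) ^ (1 / 3 : ℝ) :=
    Real.rpow_le_rpow (by positivity) (div_le_div_of_nonneg_left hl0.le hxy0 h3) (by norm_num)
  set q : ℝ := lm / (x * y ^ 2) with hq
  have hq1 : 1 ≤ q := (one_le_div hxy0).mpr (h3.trans hn)
  have hq0 : 0 < q := by linarith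
  have e3 : q ^ (1 / 3 : ℝ) ≤ q := by
    conv_rhs => rw [← Real.rpow_one q]
    exact Real.rpow_le_rpow_of_exponent_le hq1 (by norm_num)
  have e4 : y ^ (2 / 3 : ℝ) ≤ y := by
    conv_rhs => rw [← Real.rpow_one y]
    exact Real.rpow_le_rpow_of_exponent_le h2 (by norm_num)
  rw [e1]
  calc (lm / K) ^ (1 / 3 : ℝ) * y ^ (2 / 3 : ℝ) ≤ q * y :=
        mul_le_mul (e2.trans e3) e4 (by positivity) hq0.le
    _ = lm * ((1 / x) * (1 / y)) := by rw [hq]; field_simp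

/-- **the bound at one kernel** for families of dilations, two classes of frequencies
(`true` = principal) -/
def PoDx (χ : Eis → ℂ) (w : ℝ → ℝ) : Prop :=
  ∀ R : ℝ, 0 ≤ R → ∀ a A : ℕ, 1 < A → ∀ ε : ℝ, 0 < ε → ∃ (C c : ℝ) (J : ℕ), 0 ≤ C ∧ 1 ≤ c ∧
    ∀ Z N Δ X : ℝ, 1 ≤ Z → 0 < N → N ≤ Z → 1 ≤ Δ → Δ ≤ Z → 0 < X → X ≤ Z → 1 ≤ X * Z →
    ∀ κ : Ker, Good κ → (nm (kv κ) : ℝ) ≤ Z → (nm (kv κ) : ℝ) * Real.exp (R + 3) < N * Δ →
    ∀ {ι : Type} (Q : Finset ι) (b : ι → Eis → ℂ) (Xq : ι → ℝ) (𝒟 : ι → Finset Eis),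
      (∀ q ∈ Q, X / 64 ≤ Xq q ∧ Xq q ≤ X) →
      (∀ q ∈ Q, ∀ n, b q n ≠ 0 → n ∈ S Z) → (∀ q ∈ Q, Win (b q) (Real.log N) R) →
      (∀ q ∈ Q, ∀ D ∈ 𝒟 q, IsPrim D ∧ Squarefree D ∧ Δ / 4 < nm D ∧ (nm D : ℝ) ≤ Δ ∧
        IsCoprime (kv κ) D) →
    ∀ Pr : ι → Eis → Eis → Prop, (∀ q ∈ Q, PrOK (b q) (Pr q)) →
    ∀ W : Bool → ℝ → ℝ, (∀ j, Slp a (W j)) →
      (∀ j, HWx j A ((N * Δ) ^ 2) Q b 1 Pr (W j)) →
    ∀ W1 : Bool → ℝ, (∀ j, 0 ≤ W1 j) → (∀ j, W j (c * (N * Δ * nm (kv κ) / X)) ≤ W1 j) →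
    ∀ t : ℝ, ∑ q ∈ Q, ∑ D ∈ 𝒟 q, ‖XS χ w (Xq q) t (bt D (b q)) κ‖ ^ 2 ≤
      C * Z ^ ε * (1 + |t|) ^ J *
        (X * (nfE Δ (nm (kv κ)) (N * Δ * nm (kv κ) / X) * W1 false +
          ((Q.biUnion 𝒟).card : ℝ) * (N * Δ * nm (kv κ) / X) ^ (-(2 / 3) : ℝ) *
            (nm κ.2.2 : ℝ) ^ (2 / 3 : ℝ) * W1 true))

/-- the norm factors of the dilations -/
def nfDx (Δ m : ℝ) (j : Bool) (lm I : ℝ) : ℝ :=
  if j = true then m * (lm * I ^ (-(2 / 3) : ℝ)) else nfD Δ lm I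

lemma nfDx_nonneg {Δ m : ℝ} (hΔ : 0 ≤ Δ) (hm : 0 ≤ m) (j : Bool) {lm I : ℝ} (hl : 0 ≤ lm)
    (hI : 0 < I) : 0 ≤ nfDx Δ m j lm I := by
  unfold nfDx
  split_ifs
  · positivity
  · exact (nfok_nfD hΔ).nonneg lm I hl hI

lemma nfDx_anti {Δ m : ℝ} (hΔ : 0 ≤ Δ) (hm : 0 ≤ m) (j : Bool) {lm I I' : ℝ} (hl : 0 ≤ lm)
    (hI : 0 < I) (h : I ≤ I') : nfDx Δ m j lm I' ≤ nfDx Δ m j lm I := by
  unfold nfDx
  split_ifs
  · have h1 : I' ^ (-(2 / 3) : ℝ) ≤ I ^ (-(2 / 3) : ℝ) :=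
      Real.rpow_le_rpow_of_nonpos hI h (by norm_num)
    gcongr
  · exact (nfok_nfD hΔ).anti lm I I' hl hI h

lemma nfDx_mono {Δ m : ℝ} (hΔ : 0 ≤ Δ) (hm : 0 ≤ m) (j : Bool) {lam lam' u : ℝ} (hl : 0 < lam)
    (h : lam ≤ lam') (hu : 0 < u) : nfDx Δ m j lam (u * lam) ≤ nfDx Δ m j lam' (u * lam') := by
  have h1 := nfx_mono j hl h hu
  unfold nfx at h1
  unfold nfDx
  cases j
  · simp only [Bool.false_eq_true, if_false]
    exact (nfok_nfD hΔ).mono lam lam' u hl h hu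
  · simp only [if_true] at h1 ⊢
    exact mul_le_mul_of_nonneg_left h1 hm

lemma nfDx_le_card {Δ m m' : ℝ} (h : m ≤ m') (j : Bool) {lm I : ℝ} (hl : 0 ≤ lm) (hI : 0 < I) :
    nfDx Δ m j lm I ≤ nfDx Δ m' j lm I := by
  unfold nfDx
  split_ifs
  · exact mul_le_mul_of_nonneg_right h (by positivity)
  · exact le_rfl

/-- parameters of the dilations -/
structure TDx where
  Δ : ℝ
  hΔ : 1 ≤ Δ
  D0 : Finset Eis

/-- the values of a family of dilations, dilations in `D0` -/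
def RlDx (χ : Eis → ℂ) (v : ℝ → ℝ) (Δ : ℝ) (D0 : Finset Eis) :
    ℝ → ℝ → ℝ → (Eis → ℂ) → ℝ → Prop :=
  fun lm X t b s => ∃ (𝒟 : Finset Eis) (Xd : Eis → ℝ), 𝒟 ⊆ D0 ∧
    (∀ D ∈ 𝒟, IsPrim D ∧ Squarefree D ∧ Δ / 4 < nm D ∧ (nm D : ℝ) ≤ Δ ∧
      X / 4 ≤ Xd D ∧ Xd D ≤ X) ∧
    s = ∑ D ∈ 𝒟, ∑ κ ∈ KSa lm D, ‖XS χ v (Xd D) t (bt D b) κ‖ ^ 2

/-- **the structured bound of the dilations**, two classes -/
def GDx (χ : Eis → ℂ) (v : ℝ → ℝ) : GPx TDx where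
  tk _ := 1
  Ok θ Z := θ.Δ ≤ Z
  Adq θ N R b := Win b (Real.log (N / θ.Δ)) R
  Cnd _ R N lm := lm * Real.exp (R + 3) < N
  nfn θ := nfDx θ.Δ (θ.D0.card : ℝ)
  Rl θ := RlDx χ v θ.Δ θ.D0
  ok _ _ _ h h' := le_trans h' h
  adq θ N R b b' h h' := fun n hn => h n (h' n hn)
  cnd θ R N lm lm' h h' := lt_of_le_of_lt
    (mul_le_mul_of_nonneg_right h' (Real.exp_pos _).le) h
  nonneg θ j lam I hl hI := nfDx_nonneg (by linarith [θ.hΔ]) (Nat.cast_nonneg _) j hl hI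
  anti θ j lam I I' hl hI h := nfDx_anti (by linarith [θ.hΔ]) (Nat.cast_nonneg _) j hl hI h

set_option maxHeartbeats 2000000 in
/-- **the structured bound of the dilations** from the bound at one kernel, two classes -/
theorem pohg_Dx {χ : Eis → ℂ} {v : ℝ → ℝ} (hv : Wgt v) (hP : ∀ v₂, Wgt v₂ → PoDx χ v₂) :
    PoHGx (GDx χ v) := by
  intro R hR a A hA ε hε
  have hl4 : 0 ≤ Real.log 4 := Real.log_nonneg (by norm_num)
  obtain ⟨Rv, hRv0, hRv⟩ := wgt_log hv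
  obtain ⟨v₂, hv₂, hmaj⟩ := exists_maj (R := Rv + Real.log 4) (by linarith)
  obtain ⟨R₂, hR₂0, hR₂⟩ := wgt_log hv₂
  obtain ⟨C, c, J, hC, hc, h⟩ := hP v₂ hv₂ R hR a A hA (ε / 2) (by positivity)
  obtain ⟨k, K, hK, hkc, hki, hkA, hkr⟩ := exists_ker hv (R := R₂ + Real.log 4)
    (by linarith) (J + 2)
  set KJ : ℝ := (K * ∫ ξ, jb 2 ξ) ^ 2 with hKJ
  have hKJ0 : 0 ≤ KJ := by positivity
  set cH : ℝ := 200 * (1 + Real.log 1) * (1 + 1 / (ε / 4)) with hcH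
  have hcH0 : 0 ≤ cH := by rw [hcH, Real.log_one]; positivity
  refine ⟨(144 * cH + 9 * cH ^ 2) * (KJ * C), c, J, by positivity, hc, ?_⟩
  intro θ Z N X lm hZ hN hNZ hX hXZ hXZ1 hlm hlmZ hcnd hOk ι Q b Xq hXq hbS hAdm Pr hPr W hW hWle
    W1 hW1 hW1le t s hs
  obtain ⟨Δ, hΔ1, D0⟩ := θ
  have hT1 : Δ ≤ Z := hOk
  have hcnd' : lm * Real.exp (R + 3) < N := hcnd
  have hZ0 : 0 < Z := by linarith
  have hΔ0 : 0 < Δ := by linarith
  have hlm0 : 0 < lm := by linarith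
  have hc0 : 0 < c := by linarith
  set m : ℝ := (D0.card : ℝ) with hm
  have hm0 : 0 ≤ m := Nat.cast_nonneg _
  set I : ℝ := Il N lm X with hI
  have hI0 : 0 < I := by rw [hI]; unfold Il; positivity
  choose! 𝒟 Xd h𝒟0 h𝒟 hsv using hs
  have hNΔ : 0 < N / Δ := by positivity
  have hNΔZ : N / Δ ≤ Z := (div_le_self hN.le hΔ1).trans hNZ
  have hNN : N / Δ * Δ = N := div_mul_cancel₀ _ hΔ0.ne'
  have hwf := hW1 false
  have hwt := hW1 true
  -- the hypothesis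
  have hHW : ∀ j, HWx j A ((N / Δ * Δ) ^ 2) Q b 1 Pr (W j) := by
    intro j γ φ x D hγ hγ1 hφ hx hD hDN he P hP1
    exact hWle j γ φ x ⟨hγ, hγ1, hφ, hx, D, hD, by rwa [hNN] at hDN, he⟩ P hP1
  -- one kernel
  have hnf0 : 0 ≤ nfE Δ lm I := nfE_nonneg hΔ0.le hlm0.le hI0.le
  set Bf : ℝ := C * Z ^ (ε / 2) * (X * (nfE Δ lm I * W1 false)) with hBf
  set Bt : ℝ := C * Z ^ (ε / 2) * (X * (m * I ^ (-(2 / 3) : ℝ) * W1 true)) with hBt
  have hBf0 : 0 ≤ Bf := by positivity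
  have hBt0 : 0 ≤ Bt := by positivity
  have hone : ∀ κ ∈ KS lm, ∑ q ∈ Q, ∑ D ∈ (𝒟 q).filter (fun D => IsCoprime (kv κ) D),
      ‖XS χ v (Xd q D) t (bt D (b q)) κ‖ ^ 2 ≤
        KJ * ((Bf + lm * ((1 / (nm κ.2.1 : ℝ)) * (1 / (nm κ.2.2 : ℝ))) * Bt) *
          (1 + |t|) ^ J) := by
    intro κ hκ
    obtain ⟨hg, hn⟩ := mem_KS.mp hκ
    have hpay := ker_pay hg hn
    set y2 : ℝ := (nm κ.2.2 : ℝ) with hy2
    set Ki : ℝ := (1 / (nm κ.2.1 : ℝ)) * (1 / y2) with hKi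
    have hKi0 : 0 ≤ Ki := by rw [hKi]; positivity
    set K1 : ℝ := (nm (kv κ) : ℝ) with hK1
    have hK11 : 1 ≤ K1 := one_le_nm' (NonCube52.kv_ne_zero hg)
    have hK10 : 0 < K1 := by linarith
    set Fm : Finset (Σ _ : ι, Eis) := Q.sigma fun q => (𝒟 q).filter
      (fun D => IsCoprime (kv κ) D) with hFm
    have hmem : ∀ x ∈ Fm, x.1 ∈ Q ∧ x.2 ∈ 𝒟 x.1 ∧ IsCoprime (kv κ) x.2 := by
      intro x hx
      rw [hFm, Finset.mem_sigma, Finset.mem_filter] at hx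
      exact hx
    have hBk0 : 0 ≤ Bf + lm * Ki * Bt := by positivity
    have hsm := fam_smooth hRv hR₂ hmaj hki hkA hkr Fm χ (fun x => Xq x.1)
      (fun x => Xd x.1 x.2) (fun x => bt x.2 (b x.1)) (fun _ => κ)
      (fun x hx => by
        obtain ⟨h1, h2, -⟩ := hmem x hx
        obtain ⟨-, -, -, -, h3, h4⟩ := h𝒟 _ h1 _ h2
        refine ⟨?_, h3, h4⟩
        have := (hXq _ h1).1
        have : 0 < X / 64 := by positivity
        linarith) hBk0 (fun t' => by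
        rw [hFm, Finset.sum_sigma]
        set sκ : ℝ := K1 / lm with hsκ
        have hsκ0 : 0 < sκ := by positivity
        have hsκ1 : sκ ≤ 1 := (div_le_one hlm0).mpr hn
        have hIκ : N / Δ * Δ * K1 / X = sκ * I := by
          rw [hNN, hI, hsκ]; unfold Il; field_simp
        have hKκ : K1 = sκ * lm := by rw [hsκ]; field_simp
        have hW' : ∀ j, W j (c * (N / Δ * Δ * K1 / X)) ≤ sκ ^ (1 / 3 : ℝ) * W1 j := by
          intro j
          rw [hIκ]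
          have h7 := (hW j).low (c * (sκ * I)) (c * I) (by positivity) (by
            refine mul_le_mul_of_nonneg_left ?_ hc0.le
            exact mul_le_of_le_one_left hI0.le hsκ1)
          have e3 : c * (sκ * I) / (c * I) = sκ := by field_simp
          rw [e3] at h7
          exact h7.trans (mul_le_mul_of_nonneg_left (hW1le j) (by positivity))
        have h8 := h Z (N / Δ) Δ X hZ hNΔ hNΔZ hΔ1 hT1 hX hXZ hXZ1 κ hg (hn.trans hlmZ)
          (by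
            rw [hNN]
            refine lt_of_le_of_lt ?_ hcnd'
            exact mul_le_mul_of_nonneg_right hn (Real.exp_pos _).le)
          Q b Xq (fun q => (𝒟 q).filter (fun D => IsCoprime (kv κ) D)) hXq hbS hAdm
          (fun q hq D hD => by
            rw [Finset.mem_filter] at hD
            obtain ⟨h1, h2, h3, h4, -, -⟩ := h𝒟 _ hq _ hD.1
            exact ⟨h1, h2, h3, h4, hD.2⟩)
          Pr hPr W hW hHW (fun j => sκ ^ (1 / 3 : ℝ) * W1 j)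
          (fun j => mul_nonneg (by positivity) (hW1 j)) hW' t'
        refine h8.trans ?_
        have hkey := nfE_key hΔ0.le hlm0 hI0 hsκ0 hsκ1
        rw [← hK1, hIκ]
        have h9 : nfE Δ K1 (sκ * I) * (sκ ^ (1 / 3 : ℝ) * W1 false) ≤ nfE Δ lm I * W1 false := by
          rw [hKκ]
          calc _ = (sκ ^ (1 / 3 : ℝ) * nfE Δ (sκ * lm) (sκ * I)) * W1 false := by ring
            _ ≤ _ := mul_le_mul_of_nonneg_right hkey hwf
        have hcard : ((Q.biUnion fun q => (𝒟 q).filter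
            (fun D => IsCoprime (kv κ) D)).card : ℝ) ≤ m := by
          rw [hm]
          refine Nat.cast_le.mpr (Finset.card_le_card ?_)
          intro D hD
          rw [Finset.mem_biUnion] at hD
          obtain ⟨q, hq, hD⟩ := hD
          exact h𝒟0 q hq (Finset.mem_filter.mp hD).1
        set cd : ℝ := ((Q.biUnion fun q => (𝒟 q).filter
            (fun D => IsCoprime (kv κ) D)).card : ℝ) with hcd
        have hcd0 : 0 ≤ cd := Nat.cast_nonneg _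
        have h10 : cd * (sκ * I) ^ (-(2 / 3) : ℝ) * y2 ^ (2 / 3 : ℝ) *
            (sκ ^ (1 / 3 : ℝ) * W1 true) ≤ lm * Ki * (m * I ^ (-(2 / 3) : ℝ) * W1 true) := by
          have e1 : (sκ * I) ^ (-(2 / 3) : ℝ) = sκ ^ (-(2 / 3) : ℝ) * I ^ (-(2 / 3) : ℝ) :=
            Real.mul_rpow hsκ0.le hI0.le
          have e2 : sκ ^ (-(2 / 3) : ℝ) * sκ ^ (1 / 3 : ℝ) = sκ ^ (-(1 / 3) : ℝ) := by
            rw [← Real.rpow_add hsκ0]; norm_num
          rw [e1]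
          have hI23 : 0 ≤ I ^ (-(2 / 3) : ℝ) := by positivity
          calc cd * (sκ ^ (-(2 / 3) : ℝ) * I ^ (-(2 / 3) : ℝ)) * y2 ^ (2 / 3 : ℝ) *
                (sκ ^ (1 / 3 : ℝ) * W1 true)
              = (cd * I ^ (-(2 / 3) : ℝ) * W1 true) *
                ((sκ ^ (-(2 / 3) : ℝ) * sκ ^ (1 / 3 : ℝ)) * y2 ^ (2 / 3 : ℝ)) := by ring
            _ = (cd * I ^ (-(2 / 3) : ℝ) * W1 true) *
                (sκ ^ (-(1 / 3) : ℝ) * y2 ^ (2 / 3 : ℝ)) := by rw [e2]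
            _ ≤ (m * I ^ (-(2 / 3) : ℝ) * W1 true) * (lm * Ki) := by
                refine mul_le_mul ?_ hpay
                  (mul_nonneg (Real.rpow_nonneg hsκ0.le _) (Real.rpow_nonneg (Nat.cast_nonneg _) _))
                  (mul_nonneg (mul_nonneg hm0 hI23) hwt)
                exact mul_le_mul_of_nonneg_right (mul_le_mul_of_nonneg_right hcard hI23) hwt
            _ = _ := by ring
        have hpre : 0 ≤ C * Z ^ (ε / 2) * (1 + |t'|) ^ J := by positivity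
        calc C * Z ^ (ε / 2) * (1 + |t'|) ^ J *
              (X * (nfE Δ K1 (sκ * I) * (sκ ^ (1 / 3 : ℝ) * W1 false) +
              cd * (sκ * I) ^ (-(2 / 3) : ℝ) * y2 ^ (2 / 3 : ℝ) *
                (sκ ^ (1 / 3 : ℝ) * W1 true)))
            ≤ C * Z ^ (ε / 2) * (1 + |t'|) ^ J *
              (X * (nfE Δ lm I * W1 false + lm * Ki * (m * I ^ (-(2 / 3) : ℝ) * W1 true))) :=
              mul_le_mul_of_nonneg_left (mul_le_mul_of_nonneg_left (add_le_add h9 h10) hX.le) hpre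
          _ = (Bf + lm * Ki * Bt) * (1 + |t'|) ^ J := by rw [hBf, hBt]; ring) t
    rw [hFm, Finset.sum_sigma] at hsm
    exact hsm
  -- the sum over the kernels
  have hsum : ∑ q ∈ Q, s q = ∑ κ ∈ KS lm, ∑ q ∈ Q, ∑ D ∈ (𝒟 q).filter
      (fun D => IsCoprime (kv κ) D), ‖XS χ v (Xd q D) t (bt D (b q)) κ‖ ^ 2 := by
    rw [Finset.sum_comm]
    refine Finset.sum_congr rfl fun q hq => ?_
    rw [hsv q hq]
    have e1 : ∀ κ ∈ KS lm, ∑ D ∈ (𝒟 q).filter (fun D => IsCoprime (kv κ) D),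
        ‖XS χ v (Xd q D) t (bt D (b q)) κ‖ ^ 2 = ∑ D ∈ 𝒟 q, if IsCoprime (kv κ) D then
        ‖XS χ v (Xd q D) t (bt D (b q)) κ‖ ^ 2 else 0 := fun κ _ => Finset.sum_filter _ _
    rw [Finset.sum_congr rfl e1, Finset.sum_comm]
    refine Finset.sum_congr rfl fun D _ => ?_
    rw [← Finset.sum_filter]
    unfold KSa
    congr 1
  rw [hsum]
  have hHS : HS lm ≤ cH * Z ^ (ε / 4) := by
    have := HS_rpow (c := 1) hlm (by linarith : lm ≤ 1 * Z) hZ le_rfl (δ := ε / 4) (by positivity)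
    rwa [← hcH] at this
  have hHS0 := HS_nonneg lm
  have hZ4 : Z ^ (ε / 4) ≤ Z ^ (ε / 2) := Real.rpow_le_rpow_of_exponent_le hZ (by linarith)
  have hZ42 : (Z ^ (ε / 4)) ^ 2 = Z ^ (ε / 2) := by
    rw [← Real.rpow_natCast, ← Real.rpow_mul hZ0.le]
    congr 1
    push_cast
    ring
  have hcardK : ((KS lm).card : ℝ) ≤ 144 * cH * Z ^ (ε / 2) * lm := by
    refine (card_KS hlm).trans ?_
    calc 144 * lm * HS lm ≤ 144 * lm * (cH * Z ^ (ε / 2)) := by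
          refine mul_le_mul_of_nonneg_left (hHS.trans ?_) (by positivity)
          exact mul_le_mul_of_nonneg_left hZ4 hcH0
      _ = _ := by ring
  have hinvK : ∑ κ ∈ KS lm, (1 / (nm κ.2.1 : ℝ)) * (1 / (nm κ.2.2 : ℝ)) ≤ 9 * cH ^ 2 * Z ^ (ε / 2) := by
    refine (sum_KS_inv hlm).trans ?_
    calc 9 * HS lm ^ 2 ≤ 9 * (cH * Z ^ (ε / 4)) ^ 2 := by gcongr
      _ = _ := by rw [mul_pow, hZ42]; ring
  have ht0 : 0 ≤ (1 + |t|) ^ J := by positivity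
  have hZZ : Z ^ (ε / 2) * Z ^ (ε / 2) = Z ^ ε := by rw [← Real.rpow_add hZ0, add_halves]
  have hfin : ∑ κ ∈ KS lm, KJ * ((Bf + lm * ((1 / (nm κ.2.1 : ℝ)) * (1 / (nm κ.2.2 : ℝ))) * Bt) * (1 + |t|) ^ J) ≤
      (144 * cH + 9 * cH ^ 2) * (KJ * C) * Z ^ ε * (1 + |t|) ^ J *
        (X * (lm * nfE Δ lm I * W1 false) + X * (m * (lm * I ^ (-(2 / 3) : ℝ)) * W1 true)) := by
    calc ∑ κ ∈ KS lm, KJ * ((Bf + lm * ((1 / (nm κ.2.1 : ℝ)) * (1 / (nm κ.2.2 : ℝ))) * Bt) * (1 + |t|) ^ J)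
        = KJ * (1 + |t|) ^ J * (((KS lm).card : ℝ) * Bf +
            lm * Bt * ∑ κ ∈ KS lm, (1 / (nm κ.2.1 : ℝ)) * (1 / (nm κ.2.2 : ℝ))) := by
          have e1 : ∀ κ ∈ KS lm, KJ * ((Bf + lm * ((1 / (nm κ.2.1 : ℝ)) * (1 / (nm κ.2.2 : ℝ))) * Bt) *
              (1 + |t|) ^ J) = KJ * (1 + |t|) ^ J * Bf +
              KJ * (1 + |t|) ^ J * (lm * Bt) * ((1 / (nm κ.2.1 : ℝ)) * (1 / (nm κ.2.2 : ℝ))) := fun κ _ => by ring
          rw [Finset.sum_congr rfl e1, Finset.sum_add_distrib, Finset.sum_const, nsmul_eq_mul,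
            ← Finset.mul_sum]
          ring
      _ ≤ KJ * (1 + |t|) ^ J * ((144 * cH * Z ^ (ε / 2) * lm) * Bf +
            lm * Bt * (9 * cH ^ 2 * Z ^ (ε / 2))) := by
          refine mul_le_mul_of_nonneg_left (add_le_add ?_ ?_) (by positivity)
          · exact mul_le_mul_of_nonneg_right hcardK hBf0
          · exact mul_le_mul_of_nonneg_left hinvK (by positivity)
      _ = KJ * C * (Z ^ (ε / 2) * Z ^ (ε / 2)) * (1 + |t|) ^ J *
            (144 * cH * (X * (lm * nfE Δ lm I * W1 false)) +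
              9 * cH ^ 2 * (X * (m * (lm * I ^ (-(2 / 3) : ℝ)) * W1 true))) := by
          rw [hBf, hBt]; ring
      _ ≤ KJ * C * (Z ^ (ε / 2) * Z ^ (ε / 2)) * (1 + |t|) ^ J *
            ((144 * cH + 9 * cH ^ 2) * (X * (lm * nfE Δ lm I * W1 false)) +
              (144 * cH + 9 * cH ^ 2) * (X * (m * (lm * I ^ (-(2 / 3) : ℝ)) * W1 true))) := by
          have a1 : 0 ≤ X * (lm * nfE Δ lm I * W1 false) := by positivity
          have a2 : 0 ≤ X * (m * (lm * I ^ (-(2 / 3) : ℝ)) * W1 true) := by positivity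
          have a3 : 144 * cH ≤ 144 * cH + 9 * cH ^ 2 := by nlinarith [sq_nonneg cH]
          have a4 : 9 * cH ^ 2 ≤ 144 * cH + 9 * cH ^ 2 := by linarith
          refine mul_le_mul_of_nonneg_left (add_le_add ?_ ?_) (by positivity)
          · exact mul_le_mul_of_nonneg_right a3 a1
          · exact mul_le_mul_of_nonneg_right a4 a2
      _ = _ := by rw [hZZ]; ring
  refine (Finset.sum_le_sum hone).trans (hfin.trans (le_of_eq ?_))
  rw [Fintype.sum_bool]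
  show _ = (144 * cH + 9 * cH ^ 2) * (KJ * C) * Z ^ ε * (1 + |t|) ^ J *
    (X * nfDx Δ m true lm I * W1 true + X * nfDx Δ m false lm I * W1 false)
  unfold nfDx nfD
  simp only [if_true, Bool.false_eq_true, if_false]
  ring

end Crest.Agent.R017.MX744
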