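import Crest.Agent.R017.PoDx7_50
import Crest.Agent.R017.MDxb_744

/-!
# Row 17, E3 class E: the second form in two classes (helper50), part 8

`podx` : **the second form for one kernel in two classes**, the literal form of helper744.
-/

set_option autoImplicit false
set_option linter.unusedVariables false

noncomputable section

open Complex MeasureTheory
open scoped ComplexConjugate Classical

namespace Crest.Agent.R017.PoDx50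

open Crest.Agent.R012 Crest.Agent.R012.Eis Crest.Agent.R012.MC
open Crest.Agent.R012.LS2 (S mem_S bl mem_bl)
open Crest.Agent.R012.Mob705 (mu pdiv mem_pdiv abs_mu_le_one sum_mu_coprime)
open Crest.Agent.R012.NonCube52 (Ker kv Good nm_kv)
open Crest.Agent.R012.Weight600 (osc pw norm_osc)
open Crest.Agent.R017.E1551 (nmpos jb jb_pos integrable_jb integrable_jb_mul nm_ge_one)
open Crest.Agent.R017.BD829
open Crest.Agent.R017.PoH347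
open Crest.Agent.R017.Mode405 (VI Slp XS nfE)
open Crest.Agent.R017.E3D579 (bt)
open Crest.Agent.R017.PoD50
open Crest.Agent.R017.PoHx72
open Crest.Agent.R017.MX744
open Gauss880 (syG)

/-- the principal number of one divisor against the kernel -/
lemma y2_val {N Δ X L G L1 σ : ℝ} (hN : 0 < N) (hΔ : 0 < Δ) (hX : 0 < X) (hL : 1 ≤ L)
    (hG : 1 ≤ G) (hL1 : 1 ≤ L1) (hσ1 : 1 ≤ σ) (hσ9 : σ ≤ 9) :
    (N * Δ * L * L1 / X * G ^ 2) ^ (-(2 / 3) : ℝ) ≤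
      9 * ((N * Δ * (σ * (L1 * (G * L) ^ 2)) / X) ^ (-(2 / 3) : ℝ) * (G * L) ^ (2 / 3 : ℝ)) := by
  have hL0 : 0 < L := by linarith
  have hG0 : 0 < G := by linarith
  have hL10 : 0 < L1 := by linarith
  have hσ0 : 0 < σ := by linarith
  have hI : 0 < N * Δ * (σ * (L1 * (G * L) ^ 2)) / X := by positivity
  have e1 : N * Δ * L * L1 / X * G ^ 2 =
      N * Δ * (σ * (L1 * (G * L) ^ 2)) / X * (σ * L)⁻¹ := by
    field_simp
  have h1 : ((σ * L)⁻¹) ^ (-(2 / 3) : ℝ) ≤ 9 * (G * L) ^ (2 / 3 : ℝ) := by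
    rw [Real.inv_rpow (by positivity), Real.rpow_neg (by positivity), inv_inv]
    calc (σ * L) ^ (2 / 3 : ℝ) ≤ (9 * (G * L)) ^ (2 / 3 : ℝ) := by
          refine Real.rpow_le_rpow (by positivity) ?_ (by norm_num)
          have h2 : L ≤ G * L := le_mul_of_one_le_left hL0.le hG
          calc σ * L ≤ 9 * (G * L) := mul_le_mul hσ9 h2 hL0.le (by norm_num)
            _ = _ := rfl
      _ = 9 ^ (2 / 3 : ℝ) * (G * L) ^ (2 / 3 : ℝ) :=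
          Real.mul_rpow (by norm_num) (by positivity)
      _ ≤ 9 * (G * L) ^ (2 / 3 : ℝ) := by
          refine mul_le_mul_of_nonneg_right ?_ (by positivity)
          calc (9 : ℝ) ^ (2 / 3 : ℝ) ≤ 9 ^ (1 : ℝ) :=
                Real.rpow_le_rpow_of_exponent_le (by norm_num) (by norm_num)
            _ = 9 := Real.rpow_one 9
  rw [e1, Real.mul_rpow hI.le (by positivity)]
  calc _ ≤ (N * Δ * (σ * (L1 * (G * L) ^ 2)) / X) ^ (-(2 / 3) : ℝ) *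
        (9 * (G * L) ^ (2 / 3 : ℝ)) := mul_le_mul_of_nonneg_left h1 (by positivity)
    _ = _ := by ring

set_option maxHeartbeats 1000000 in
/-- **the second form for one kernel in two classes**, general `B0` -/
theorem podx_ka {u : Eis} (hu : SU u) {χ : Eis → ℂ} (hχ : ∀ x, IsPrim x → χ x = conj (sy u x))
    {w₀ : ℝ → ℝ} (hw : Wgt w₀) {R : ℝ} (hR : 0 ≤ R) {a A : ℕ} (hA : 1 < A) {ε : ℝ} (hε : 0 < ε) :
    ∃ (C c : ℝ) (J : ℕ), 0 ≤ C ∧ 1 ≤ c ∧ ∀ Z N Δ X B0 Nd : ℝ, 1 ≤ Z → 0 < N → N ≤ Z → 1 ≤ Δ →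
      Δ ≤ Z → 0 < X → 1 ≤ X * Z → ∀ κ : Ker, Good κ → (nm (kv κ) : ℝ) ≤ Z →
      (nm (kv κ) : ℝ) * Real.exp (R + 3) < N * Δ → (nm (kv κ) : ℝ) * Δ ≤ B0 → 0 < Nd →
    ∀ {ι : Type} (Q : Finset ι) (b : ι → Eis → ℂ) (Xq : ι → ℝ) (𝒟 : ι → Finset Eis),
      (∀ q ∈ Q, ∀ D ∈ 𝒟 q, IsCoprime (κ.2.1 * κ.2.2) D) → (∀ q ∈ Q, X / 64 ≤ Xq q ∧ Xq q ≤ X) →
      DFam R Z N Δ 1 Q b 𝒟 → (∀ q ∈ Q, ((𝒟 q).card : ℝ) ≤ Nd) →
    ∀ Pr : ι → Eis → Eis → Prop, (∀ q ∈ Q, PrOK (b q) (Pr q)) →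
    ∀ W : Bool → ℝ → ℝ, (∀ j, Slp a (W j)) → (∀ j, HWx j A B0 Q b 1 Pr (W j)) →
    ∀ W1 : Bool → ℝ, (∀ j, W j (c * (N * Δ * nm (kv κ) / X)) ≤ W1 j) →
    ∀ t : ℝ, ∑ q ∈ Q, ∑ D ∈ 𝒟 q, ‖XS χ w₀ (Xq q) t (bt D (b q)) κ‖ ^ 2 ≤
      C * Z ^ ε * (1 + |t|) ^ J *
        (X * (nf2 Δ ((X / (N * Δ)) ^ 2 / nm (kv κ)) * W1 false +
          Nd * (N * Δ * nm (kv κ) / X) ^ (-(2 / 3) : ℝ) * (nm κ.2.2 : ℝ) ^ (2 / 3 : ℝ) *
            W1 true)) := by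
  set ε1 : ℝ := ε / 3 with hε1
  have hε1p : 0 < ε1 := by positivity
  have hnu : (1 : ℝ) ≤ nm u := nm_ge_one hu.ne
  have hU1 : (1 : ℝ) ≤ 729 * (nm u : ℝ) := by linarith
  obtain ⟨Ck, J, hCk, hKT⟩ := TWt405.KT_tw hw (R := R + 3) (by positivity) A (a + 3)
  obtain ⟨Cp, hCp, hpv⟩ := one_blockx hR hU1 (A := A) (a := a) (B := a + 3) hA le_rfl hε1p
  obtain ⟨Ct, hCt1, hCt⟩ := tau_unif hε1p
  have hCt0 : 0 < Ct := by linarith
  refine ⟨4 * Ct ^ 2 * (9 * Cp * (1 + Ck) ^ 2), cst (729 * (nm u : ℝ)), 2 * J, by positivity, ?_, ?_⟩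
  · unfold cst
    have h1 : (1 : ℝ) ≤ (3 * (729 * (nm u : ℝ))) ^ 2 := one_le_pow₀ (by linarith)
    have h2 : (1 : ℝ) ≤ 729 * (nm u : ℝ) * (3 * (729 * (nm u : ℝ))) ^ 2 :=
      one_le_mul_of_one_le_of_one_le hU1 h1
    exact one_le_mul_of_one_le_of_one_le (by linarith) h2
  intro Z N Δ X B0 Nd hZ hN hNZ hΔ1 hΔZ hX hXZ κ hκ hkZ hkN hkB hNd ι Q b Xq 𝒟 hka hXq hF hcd Pr
    hP W hW hHW W1 hW1 t
  have hZ0 : 0 < Z := by linarith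
  have hΔ0 : 0 < Δ := by linarith
  have ht1 : 1 ≤ 1 + |t| := by linarith [abs_nonneg t]
  have nkv : (1 : ℝ) ≤ nm (kv κ) := NonCube52.one_le_nmkv hκ
  have n1 := nmpos hκ.prim1.ne_zero
  have n2 := nmpos hκ.prim2.ne_zero
  have ekv : (nm (kv κ) : ℝ) = 3 ^ κ.1.2 * (nm κ.2.1 * (nm κ.2.2 : ℝ) ^ 2) := by
    rw [nm_kv]; push_cast; ring
  have hσ1 : (1 : ℝ) ≤ 3 ^ κ.1.2 := one_le_pow₀ (by norm_num)
  have hσ9 : (3 : ℝ) ^ κ.1.2 ≤ 9 := by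
    calc (3 : ℝ) ^ κ.1.2 ≤ 3 ^ 2 := pow_le_pow_right₀ (by norm_num) (by have := hκ.hj; omega)
      _ = 9 := by norm_num
  have hkge : (nm κ.2.1 : ℝ) * (nm κ.2.2 : ℝ) ^ 2 ≤ nm (kv κ) := NonCube52.nm_kv_ge κ
  have hl1 : (nm κ.2.1 : ℝ) ≤ nm (kv κ) := by
    refine le_trans ?_ hkge
    exact le_mul_of_one_le_right n1.le (one_le_pow₀ (nm_ge_one hκ.prim2.ne_zero))
  set C0 : ℝ := Ck * (1 + |t|) ^ J with hC0d
  have hC00 : 0 ≤ C0 := by positivity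
  set T : ℝ := X * (nf2 Δ ((X / (N * Δ)) ^ 2 / nm (kv κ)) * W1 false +
          Nd * (N * Δ * nm (kv κ) / X) ^ (-(2 / 3) : ℝ) * (nm κ.2.2 : ℝ) ^ (2 / 3 : ℝ) *
            W1 true) with hT
  have hW10 : ∀ j, 0 ≤ W1 j :=
    fun j => ((hW j).nonneg _ (by unfold cst; positivity)).trans (hW1 j)
  have hnf : 0 ≤ nf2 Δ ((X / (N * Δ)) ^ 2 / nm (kv κ)) := nf2_nonneg hΔ0.le (by positivity)
  have hT0 : 0 ≤ T := by
    have e1 := hW10 true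
    have e2 := hW10 false
    positivity
  -- one divisor
  have hsu : SU (u * su κ) := hu.mul (SU_su _)
  have hsU : (nm (9 * (u * su κ)) : ℝ) ≤ 729 * (nm u : ℝ) := by
    have h2 : (nm (9 * su κ) : ℝ) ≤ 729 := nm_M_le hκ.hj
    have h3 : (nm (9 * (u * su κ)) : ℝ) = nm (9 * su κ) * nm u := by
      simp only [nm_mul]
      push_cast
      ring
    rw [h3]
    exact mul_le_mul_of_nonneg_right h2 (Nat.cast_nonneg _)
  have hdiv : ∀ v : ℝ → ℝ, Wgt v → KT v (R + 3) A (a + 3) C0 → ∀ g ∈ pdiv κ.2.2,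
      ∑ q ∈ Q, ∑ D ∈ 𝒟 q, ‖Sh v (Xq q) (pt (u * su κ)) (bg (bt D (b q)) g (κ.2.2 / g))
        (g * κ.2.1)‖ ^ 2 ≤ 9 * Cp * (1 + C0) ^ 2 * Z ^ ε1 * T := by
    intro v hv hk g hg
    have hg' := (mem_pdiv hκ.prim2.ne_zero).mp hg
    have egl : g * (κ.2.2 / g) = κ.2.2 := EuclideanDomain.mul_div_cancel' hg'.1.ne_zero hg'.2
    have hl : IsPrim (κ.2.2 / g) := div_prim hκ.prim2 hg
    have enm : (nm g : ℝ) * nm (κ.2.2 / g) = nm κ.2.2 := by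
      conv_rhs => rw [← egl, nm_mul]
      push_cast
      rfl
    have hcg : ∀ q ∈ Q, ∀ D ∈ 𝒟 q, IsCoprime (g * κ.2.1) D := by
      intro q hq D hD
      refine (hka q hq D hD).of_isCoprime_of_dvd_left ?_
      rw [mul_comm g]
      exact mul_dvd_mul_left _ hg'.2
    have h1 := hpv v hv C0 hk Z N X Δ (3 ^ κ.1.2) B0 Nd hZ hN hNZ hX hXZ hΔ1 hΔZ hσ1 hσ9 hNd Q b Xq 𝒟
      hXq hF hcd Pr hP W hW hHW (u * su κ) hsu hsU g (κ.2.2 / g) κ.2.1 hg'.1 hl hκ.prim1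
      (by rw [egl]; exact hκ.sqf2) hκ.sqf1 (by rw [egl]; exact hκ.cop) hcg
      ((mul_le_mul_of_nonneg_right hl1 hΔ0.le).trans hkB)
      (by rw [enm]; exact hkge.trans hkZ)
      ((mul_le_mul_of_nonneg_right hl1 (Real.exp_pos _).le).trans_lt hkN)
    refine h1.trans ?_
    have hg1 : (1 : ℝ) ≤ nm g := nm_ge_one hg'.1.ne_zero
    have hl1' : (1 : ℝ) ≤ nm (κ.2.2 / g) := nm_ge_one hl.ne_zero
    have hy := y2_val (N := N) (Δ := Δ) (X := X) (L := nm (κ.2.2 / g)) (G := nm g)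
      (L1 := nm κ.2.1) (σ := 3 ^ κ.1.2) hN hΔ0 hX hl1' hg1 (nm_ge_one hκ.prim1.ne_zero) hσ1 hσ9
    rw [enm, ← ekv] at hy
    rw [enm, ← ekv]
    have h2 : ∀ j, W j (cst (729 * (nm u : ℝ)) *
        (N * Δ * (nm κ.2.1 * (nm κ.2.2 : ℝ) ^ 2) / X)) ≤ W1 j := by
      intro j
      refine le_trans (PoD50.slp_mono (hW j) (by unfold cst; positivity) ?_) (hW1 j)
      have h3 : 0 ≤ cst (729 * (nm u : ℝ)) := by unfold cst; positivity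
      refine mul_le_mul_of_nonneg_left ?_ h3
      exact div_le_div_of_nonneg_right (mul_le_mul_of_nonneg_left hkge (by positivity)) hX.le
    have h5 : ∑ j : Bool, (X * vx j Δ Nd ((X / (N * Δ)) ^ 2 / nm (kv κ))
        (N * Δ * nm (κ.2.2 / g) * nm κ.2.1 / X * (nm g : ℝ) ^ 2) *
        W j (cst (729 * (nm u : ℝ)) * (N * Δ * (nm κ.2.1 * (nm κ.2.2 : ℝ) ^ 2) / X))) ≤
        9 * T := by
      rw [Fintype.sum_bool]
      unfold vx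
      simp only [if_true, Bool.false_eq_true, if_false]
      have w1 := (hW true).nonneg (cst (729 * (nm u : ℝ)) *
        (N * Δ * (nm κ.2.1 * (nm κ.2.2 : ℝ) ^ 2) / X)) (by unfold cst; positivity)
      have w2 := (hW false).nonneg (cst (729 * (nm u : ℝ)) *
        (N * Δ * (nm κ.2.1 * (nm κ.2.2 : ℝ) ^ 2) / X)) (by unfold cst; positivity)
      have a1 := hW10 true
      have a2 := hW10 false
      have t1 : X * (Nd * (N * Δ * nm (κ.2.2 / g) * nm κ.2.1 / X * (nm g : ℝ) ^ 2) ^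
          (-(2 / 3) : ℝ)) * W true (cst (729 * (nm u : ℝ)) *
          (N * Δ * (nm κ.2.1 * (nm κ.2.2 : ℝ) ^ 2) / X)) ≤
          X * (Nd * (9 * ((N * Δ * nm (kv κ) / X) ^ (-(2 / 3) : ℝ) *
            (nm κ.2.2 : ℝ) ^ (2 / 3 : ℝ)))) * W1 true := by
        refine mul_le_mul ?_ (h2 true) w1 (by positivity)
        exact mul_le_mul_of_nonneg_left (mul_le_mul_of_nonneg_left hy hNd.le) hX.le
      have t2 : X * nf2 Δ ((X / (N * Δ)) ^ 2 / nm (kv κ)) * W false (cst (729 * (nm u : ℝ)) *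
          (N * Δ * (nm κ.2.1 * (nm κ.2.2 : ℝ) ^ 2) / X)) ≤
          9 * (X * nf2 Δ ((X / (N * Δ)) ^ 2 / nm (kv κ)) * W1 false) := by
        have t3 : X * nf2 Δ ((X / (N * Δ)) ^ 2 / nm (kv κ)) * W false (cst (729 * (nm u : ℝ)) *
          (N * Δ * (nm κ.2.1 * (nm κ.2.2 : ℝ) ^ 2) / X)) ≤
          X * nf2 Δ ((X / (N * Δ)) ^ 2 / nm (kv κ)) * W1 false :=
          mul_le_mul_of_nonneg_left (h2 false) (by positivity)
        have t4 : 0 ≤ X * nf2 Δ ((X / (N * Δ)) ^ 2 / nm (kv κ)) * W1 false := by positivity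
        linarith
      refine (add_le_add t1 t2).trans (le_of_eq ?_)
      rw [hT]
      ring
    have h6 : 0 ≤ Cp * (1 + C0) ^ 2 * Z ^ ε1 := by positivity
    refine (mul_le_mul_of_nonneg_left h5 h6).trans (le_of_eq ?_)
    ring
  have htau : (Div277.tau κ.2.2 : ℝ) ≤ Ct * Z ^ ε1 := by
    refine hCt Z hZ κ.2.2 ((mem_S hZ0.le).mpr ⟨?_, hκ.prim2, hκ.sqf2⟩)
    have h7 : (nm κ.2.2 : ℝ) ≤ (nm κ.2.2 : ℝ) ^ 2 :=
      le_self_pow₀ (nm_ge_one hκ.prim2.ne_zero) (by norm_num)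
    have h8 : (nm κ.2.2 : ℝ) ^ 2 ≤ nm κ.2.1 * (nm κ.2.2 : ℝ) ^ 2 :=
      le_mul_of_one_le_left (by positivity) (nm_ge_one hκ.prim1.ne_zero)
    linarith
  have hcard : ((pdiv κ.2.2).card : ℝ) ≤ Ct * Z ^ ε1 := htau
  -- the sum
  have h1 : ∑ q ∈ Q, ∑ D ∈ 𝒟 q, ‖XS χ w₀ (Xq q) t (bt D (b q)) κ‖ ^ 2 ≤
      2 * (Div277.tau κ.2.2 : ℝ) * ∑ g ∈ pdiv κ.2.2, (∑ q ∈ Q, ∑ D ∈ 𝒟 q,
        ‖Sh (TWt405.wc w₀ t) (Xq q) (pt (u * su κ)) (bg (bt D (b q)) g (κ.2.2 / g))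
          (g * κ.2.1)‖ ^ 2 + ∑ q ∈ Q, ∑ D ∈ 𝒟 q,
        ‖Sh (TWt405.wsn w₀ t) (Xq q) (pt (u * su κ)) (bg (bt D (b q)) g (κ.2.2 / g))
          (g * κ.2.1)‖ ^ 2) := by
    refine (Finset.sum_le_sum fun q hq => Finset.sum_le_sum fun D hD =>
      XS_le_Sh u hχ hw (lt_of_lt_of_le (by positivity) (hXq q hq).1) t
        (Y := Δ * Z) (by positivity) (bt_supp hZ0.le hΔ0.le (hF.supp q hq) (hF.sub q hq hD))
        hκ).trans (le_of_eq ?_)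
    simp only [← Finset.mul_sum]
    congr 1
    exact swap3 Q 𝒟 (pdiv κ.2.2) (fun q D g =>
      ‖Sh (TWt405.wc w₀ t) (Xq q) (pt (u * su κ)) (bg (bt D (b q)) g (κ.2.2 / g))
          (g * κ.2.1)‖ ^ 2) (fun q D g =>
      ‖Sh (TWt405.wsn w₀ t) (Xq q) (pt (u * su κ)) (bg (bt D (b q)) g (κ.2.2 / g))
          (g * κ.2.1)‖ ^ 2)
  have h2 : ∀ g ∈ pdiv κ.2.2, (∑ q ∈ Q, ∑ D ∈ 𝒟 q,
        ‖Sh (TWt405.wc w₀ t) (Xq q) (pt (u * su κ)) (bg (bt D (b q)) g (κ.2.2 / g))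
          (g * κ.2.1)‖ ^ 2 + ∑ q ∈ Q, ∑ D ∈ 𝒟 q,
        ‖Sh (TWt405.wsn w₀ t) (Xq q) (pt (u * su κ)) (bg (bt D (b q)) g (κ.2.2 / g))
          (g * κ.2.1)‖ ^ 2) ≤ 2 * (9 * Cp * (1 + C0) ^ 2 * Z ^ ε1 * T) := by
    intro g hg
    have b1 := hdiv _ (TWt405.wgt_wc hw t) (hKT t).1 g hg
    have b2 := hdiv _ (TWt405.wgt_wsn hw t) (hKT t).2 g hg
    linarith
  have h3 : ∑ g ∈ pdiv κ.2.2, (∑ q ∈ Q, ∑ D ∈ 𝒟 q,
        ‖Sh (TWt405.wc w₀ t) (Xq q) (pt (u * su κ)) (bg (bt D (b q)) g (κ.2.2 / g))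
          (g * κ.2.1)‖ ^ 2 + ∑ q ∈ Q, ∑ D ∈ 𝒟 q,
        ‖Sh (TWt405.wsn w₀ t) (Xq q) (pt (u * su κ)) (bg (bt D (b q)) g (κ.2.2 / g))
          (g * κ.2.1)‖ ^ 2) ≤ (Ct * Z ^ ε1) * (2 * (9 * Cp * (1 + C0) ^ 2 * Z ^ ε1 * T)) := by
    refine (Finset.sum_le_sum h2).trans ?_
    rw [Finset.sum_const, nsmul_eq_mul]
    exact mul_le_mul_of_nonneg_right hcard (by positivity)
  refine h1.trans ?_
  have h4 : (1 + C0) ^ 2 ≤ (1 + Ck) ^ 2 * (1 + |t|) ^ (2 * J) := by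
    have h5 : 1 ≤ (1 + |t|) ^ J := one_le_pow₀ ht1
    have h6 : 1 + C0 ≤ (1 + Ck) * (1 + |t|) ^ J := by rw [hC0d]; nlinarith
    calc (1 + C0) ^ 2 ≤ ((1 + Ck) * (1 + |t|) ^ J) ^ 2 :=
          pow_le_pow_left₀ (by positivity) h6 2
      _ = _ := by rw [mul_pow, ← pow_mul, mul_comm J 2]
  have h7 : Z ^ ε1 * Z ^ ε1 * Z ^ ε1 = Z ^ ε := by
    rw [← Real.rpow_add hZ0, ← Real.rpow_add hZ0]
    congr 1
    rw [hε1]; ring
  calc _ ≤ 2 * (Ct * Z ^ ε1) * ((Ct * Z ^ ε1) * (2 * (9 * Cp * (1 + C0) ^ 2 * Z ^ ε1 * T))) := by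
        refine mul_le_mul (mul_le_mul_of_nonneg_left htau (by norm_num)) h3 ?_ (by positivity)
        exact Finset.sum_nonneg fun _ _ => by positivity
    _ = 4 * Ct ^ 2 * (9 * Cp) * (1 + C0) ^ 2 * (Z ^ ε1 * Z ^ ε1 * Z ^ ε1) * T := by ring
    _ = 4 * Ct ^ 2 * (9 * Cp) * (1 + C0) ^ 2 * Z ^ ε * T := by rw [h7]
    _ ≤ 4 * Ct ^ 2 * (9 * Cp) * ((1 + Ck) ^ 2 * (1 + |t|) ^ (2 * J)) * Z ^ ε * T := by gcongr
    _ = _ := by ring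


/-- **the second form for one kernel in two classes** -/
theorem podx {u : Eis} (hu : SU u) {χ : Eis → ℂ} (hχ : ∀ x, IsPrim x → χ x = conj (sy u x))
    {w : ℝ → ℝ} (hw : Wgt w) : MX744.PoDx χ w := by
  intro R hR a A hA ε hε
  obtain ⟨C, c, J, hC, hc, h⟩ := podx_ka hu hχ hw hR (a := a) hA hε
  refine ⟨C, c, J, hC, hc, ?_⟩
  intro Z N Δ X hZ hN hNZ hΔ1 hΔZ hX hXZ' hXZ κ hκ hkZ hkN ι Q b Xq 𝒟 hXq hb hwb hD Pr hP W hW hHW
    W1 hW10 hW1 t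
  have hZ0 : 0 < Z := by linarith
  have hΔ0 : 0 < Δ := by linarith
  have nkv : (1 : ℝ) ≤ nm (kv κ) := NonCube52.one_le_nmkv hκ
  have nk0 : (0 : ℝ) < nm (kv κ) := by linarith
  have hnfE : nfE Δ (nm (kv κ)) (N * Δ * nm (kv κ) / X) =
      nf2 Δ ((X / (N * Δ)) ^ 2 / nm (kv κ)) := (nf2_eq hN hΔ0 hX nk0).symm
  rw [hnfE]
  have hnf : 0 ≤ nf2 Δ ((X / (N * Δ)) ^ 2 / nm (kv κ)) := nf2_nonneg hΔ0.le (by positivity)
  have a1 := hW10 true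
  have a2 := hW10 false
  have hRHS : 0 ≤ C * Z ^ ε * (1 + |t|) ^ J *
        (X * (nf2 Δ ((X / (N * Δ)) ^ 2 / nm (kv κ)) * W1 false +
          ((Q.biUnion 𝒟).card : ℝ) * (N * Δ * nm (kv κ) / X) ^ (-(2 / 3) : ℝ) *
            (nm κ.2.2 : ℝ) ^ (2 / 3 : ℝ) * W1 true)) := by positivity
  by_cases hne : Q.biUnion 𝒟 = ∅
  · -- no dilations
    have e1 : ∑ q ∈ Q, ∑ D ∈ 𝒟 q, ‖XS χ w (Xq q) t (bt D (b q)) κ‖ ^ 2 = 0 := by
      refine Finset.sum_eq_zero fun q hq => ?_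
      have h1 : 𝒟 q = ∅ := by
        rw [Finset.eq_empty_iff_forall_notMem]
        intro D hDq
        have : D ∈ Q.biUnion 𝒟 := Finset.mem_biUnion.mpr ⟨q, hq, hDq⟩
        rw [hne] at this
        exact absurd this (Finset.notMem_empty D)
      rw [h1, Finset.sum_empty]
    rw [e1]
    exact hRHS
  have hNd : (0 : ℝ) < ((Q.biUnion 𝒟).card : ℝ) := by
    exact_mod_cast Finset.card_pos.mpr (Finset.nonempty_iff_ne_empty.mpr hne)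
  by_cases hN1 : Real.exp (-(R + 3)) ≤ N
  · refine h Z N Δ X ((N * Δ) ^ 2) ((Q.biUnion 𝒟).card : ℝ) hZ hN hNZ hΔ1 hΔZ hX hXZ κ hκ hkZ hkN
      ?_ hNd Q b Xq 𝒟 (fun q hq D hDm => ?_) hXq
      ⟨hb, hwb, fun q hq D hDm => (mem_S hΔ0.le).2 ⟨(hD q hq D hDm).2.2.2.1, (hD q hq D hDm).1,
        (hD q hq D hDm).2.1⟩, fun q hq D hDm => by linarith [(hD q hq D hDm).2.2.1],
        fun q _ D _ => isCoprime_one_right⟩ (fun q hq => ?_) Pr hP W hW hHW W1 hW1 t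
    · have h1 : (nm (kv κ) : ℝ) ≤ N * Δ * Real.exp (-(R + 3)) := by
        rw [Real.exp_neg, ← div_eq_mul_inv, le_div_iff₀ (Real.exp_pos _)]
        exact hkN.le
      calc (nm (kv κ) : ℝ) * Δ ≤ N * Δ * Real.exp (-(R + 3)) * Δ :=
            mul_le_mul_of_nonneg_right h1 hΔ0.le
        _ ≤ N * Δ * N * Δ := by gcongr
        _ = (N * Δ) ^ 2 := by ring
    · refine (hD q hq D hDm).2.2.2.2.of_isCoprime_of_dvd_left ?_
      unfold kv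
      exact ⟨Eis.w ^ κ.1.1 * lam ^ κ.1.2 * κ.2.2, by ring⟩
    · exact_mod_cast Finset.card_le_card (Finset.subset_biUnion_of_mem 𝒟 hq)
  · -- everything vanishes
    push Not at hN1
    have hb0 : ∀ q ∈ Q, ∀ n, b q n = 0 := by
      intro q hq n
      by_contra hn
      have h1 := (mem_S hZ0.le).1 (hb q hq n hn)
      have h2 := hwb q hq n hn
      have h3 : (1 : ℝ) ≤ nm n := nm_ge_one h1.2.1.ne_zero
      have h4 := Real.log_nonneg h3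
      have h5 := Real.log_lt_log hN hN1
      rw [Real.log_exp] at h5
      have h6 := (abs_le.mp h2).2
      linarith
    have e1 : ∑ q ∈ Q, ∑ D ∈ 𝒟 q, ‖XS χ w (Xq q) t (bt D (b q)) κ‖ ^ 2 = 0 := by
      refine Finset.sum_eq_zero fun q hq => Finset.sum_eq_zero fun D _ => ?_
      rw [XS_zero (bt_zero (hb0 q hq) D)]
      simp
    rw [e1]
    exact hRHS

end Crest.Agent.R017.PoDx50
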