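import Crest.Agent.R017.E3Hj_290
import Crest.Agent.R017.PoDx8_50

/-!
# Row 17, T.7 (class E), leaf E3 (S-sum) (helper290): one pair of levels from (RH) in classes, both
forms, unconditional (with helper50's `podx`)

* `poDxAll` : `PoDxAll`
* `s12xAll` : `S12xAll`
-/

set_option autoImplicit false
set_option linter.unusedVariables false

namespace Crest.Agent.R017.E3Hk290

open Crest.Agent.R017.E3Hi290 Crest.Agent.R017.E3Hj290

/-- helper50's bound at one kernel in classes, all characters -/
theorem poDxAll : PoDxAll := fun u hu χ hχ w hw => PoDx50.podx hu hχ hw

/-- the mean-square bound for the two sums of class E, all characters -/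
theorem s12xAll : S12xAll := s12xAll_of poDxAll

end Crest.Agent.R017.E3Hk290
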