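import Crest.Agent.R017.E3Tx_744

/-!
# Row 17, exceptional class, E3 (helper744): the choice of `H`

* `HX cc a n i d` : `exp hJ` for `N d ≤ K^(1/6)`, `K N d e^(-2 i) / (e cc)` beyond
* `HX_pos`, `HX_small`, `HX_large`
* `Ld_HX` : `Ld < 1` beyond
-/

set_option autoImplicit false

noncomputable section

namespace Crest.Agent.R017.E3Nx744

open Crest.Agent.R012 Crest.Agent.R012.Eis
open Crest.Agent.R017.Prov71
open Crest.Agent.R017.B770
open Crest.Agent.R017.ER911
open Crest.Agent.R017.E5L770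
open Crest.Agent.R017.P1X960 (BcX)
open Crest.Agent.R017.RnP571 (hJ)
open Crest.Agent.R017.E3Sz579 (Ld)

/-- **the choice of `H` in class E** -/
def HX (cc : ℝ) (a : BcX) (n : ℝ) (i : ℕ) (d : Eis) : ℝ :=
  if Real.log (nm d) ≤ a.1.l / 6 then
    Real.exp (hJ a.1.l n (Real.log (nm d)) a.1.z (max 0 (5 / 4 * a3 a.1.toBd - a.1.l)))
  else Real.exp (a.1.l + Real.log (nm d) - 2 * i - (Real.log cc + 1))

variable {cc : ℝ} {a : BcX} {n : ℝ} {i : ℕ} {d : Eis}

lemma HX_pos : 0 < HX cc a n i d := by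
  unfold HX
  split_ifs <;> exact Real.exp_pos _

lemma HX_small (h : Real.log (nm d) ≤ a.1.l / 6) : HX cc a n i d =
    Real.exp (hJ a.1.l n (Real.log (nm d)) a.1.z (max 0 (5 / 4 * a3 a.1.toBd - a.1.l))) := by
  unfold HX
  rw [if_pos h]

lemma HX_large (h : a.1.l / 6 < Real.log (nm d)) : HX cc a n i d =
    Real.exp (a.1.l + Real.log (nm d) - 2 * i - (Real.log cc + 1)) := by
  unfold HX
  rw [if_neg (not_le.2 h)]

/-- the structured part is empty beyond the threshold -/
lemma Ld_HX (hcc : 1 ≤ cc) (h : a.1.l / 6 < Real.log (nm d)) (hd : d ≠ 0) :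
    Ld (Real.exp a.1.l) (Real.exp i) (HX cc a n i d) d < 1 := by
  have hd0 : (0 : ℝ) < nm d := by exact_mod_cast nm_pos.2 hd
  have hc := Real.log_nonneg hcc
  rw [HX_large h]
  unfold Ld
  rw [div_lt_one (by positivity), ← Real.exp_nat_mul, ← Real.exp_add]
  calc _ < Real.exp (a.1.l + Real.log (nm d)) := Real.exp_lt_exp.2 (by push_cast; linarith)
    _ = _ := by rw [Real.exp_add, Real.exp_log hd0]

end Crest.Agent.R017.E3Nx744
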