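import Crest.Agent.R017.E3H_548

/-!
# Row 17, R8 (E3), outer assembly (helper548): the error of the diagonal, summed over all pairs
-/

set_option autoImplicit false
set_option linter.unusedVariables false

noncomputable section

open Finset
open scoped ComplexConjugate
open scoped Classical

namespace Crest.Agent.R017.E3F548

open Crest.Agent.R012 Crest.Agent.R012.Eis Crest.Agent.R012.Mob705 Crest.Agent.R012.Gauss880
open Crest.Agent.R012.LS2
open Crest.Agent.R017.CM106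
open Crest.Agent.R017.PX764 Crest.Agent.R017.C70 Crest.Agent.R017.GrB829 Crest.Agent.R017.GrD829
open Crest.Agent.R017.E3s164 Crest.Agent.R017.E3A164
open Crest.Agent.R012.Div277 (tau dvs mem_dvs)
open Crest.Agent.R017.E3M829 (PP mem_PP xz xz_inj sum_PP_le)

section

variable {J : Finset (Eis × Eis)} {om : Eis × Eis → ℂ} {T : Eis → Eis → Eis → ℂ} {q t : Eis}
  {R E0 K B E1 b₀ τ : ℝ}

/-- the weight of `x` in the error -/
def EF (om : Eis × Eis → ℂ) (T : Eis → Eis → Eis → ℂ) (E0 : ℝ) (x : Eis × Eis) : ℝ :=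
  ‖om x‖ ^ 2 * ((nm x.2 : ℝ) ^ (-(1 : ℝ) / 3) * (∑ e ∈ S E0, ‖T x.1 e x.2‖) ^ 2)

lemma EF_nonneg (om : Eis × Eis → ℂ) (T : Eis → Eis → Eis → ℂ) (E0 : ℝ) (x : Eis × Eis) :
    0 ≤ EF om T E0 x := by unfold EF; positivity

/-- the sum of the diagonal errors at `(q, t)` -/
def DEr (K B : ℝ) (J : Finset (Eis × Eis)) (om : Eis × Eis → ℂ)
    (T : Eis → Eis → Eis → ℂ) (E0 R : ℝ) (q t : Eis) : ℝ :=
  ∑ y ∈ Ys J E0 R, ∑ y' ∈ Ys J E0 R, ∑ b ∈ S B, ∑ b' ∈ S B, ∑ s ∈ pdiv q,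
    if sm y y' then
      pf K q t y y' * ∑ n ∈ S R, (tau (y.1 * y.2.2.2 * n) : ℝ) *
        (‖UU J om T q (MM q t y y' b b' s) y n‖ * ‖UU J om T q (MM q t y y' b b' s) y' n‖) else 0

/-- the bound of `UU` -/
def NU (J : Finset (Eis × Eis)) (om : Eis × Eis → ℂ) (T : Eis → Eis → Eis → ℂ) (q : Eis)
    (y : Yp) (n : Eis) : ℝ :=
    if IsPrim n ∧ Squarefree n ∧ IsCoprime n y.2.2.2 ∧
      (y.1, E3A164.fq q y.2.2.1 y.2.2.2 n) ∈ J then
      ‖om (y.1, E3A164.fq q y.2.2.1 y.2.2.2 n)‖ * n6 n *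
        ‖T y.1 y.2.1 (E3A164.fq q y.2.2.1 y.2.2.2 n)‖ else 0

lemma NU_nonneg (y : Yp) (n : Eis) : 0 ≤ NU J om T q y n := by
  unfold NU
  split_ifs with h
  · have := (n6_pos h.1.ne_zero).le
    positivity
  · exact le_rfl

lemma norm_UU_le (M : Eis) (y : Yp) (n : Eis) : ‖UU J om T q M y n‖ ≤ NU J om T q y n := by
  unfold UU NU
  by_cases h : IsPrim n ∧ Squarefree n ∧ IsCoprime n y.2.2.2 ∧
      (y.1, fq q y.2.2.1 y.2.2.2 n) ∈ J
  · rw [if_pos h]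
    unfold be
    rw [if_pos h]
    have b6 : ‖sy y.2.2.1 n‖ ≤ 1 := PX764.norm_sy_le' h.1
    have b8 : ‖sy (qu M y.2.2.2) n‖ ≤ 1 := PX764.norm_sy_le' h.1
    have b7 := E3M829.norm_G h.1 h.2.1
    have b9 := n6_pos h.1.ne_zero
    rw [norm_mul, norm_mul, norm_mul, norm_mul, norm_mul, RCLike.norm_conj, RCLike.norm_conj,
      RCLike.norm_conj, b7, one_mul, Complex.norm_real, Real.norm_of_nonneg b9.le]
    calc ‖om (y.1, fq q y.2.2.1 y.2.2.2 n)‖ * (‖sy y.2.2.1 n‖ * n6 n) *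
          ‖T y.1 y.2.1 (fq q y.2.2.1 y.2.2.2 n)‖ * ‖sy (qu M y.2.2.2) n‖ ≤
        ‖om (y.1, fq q y.2.2.1 y.2.2.2 n)‖ * (1 * n6 n) *
          ‖T y.1 y.2.1 (fq q y.2.2.1 y.2.2.2 n)‖ * 1 := by gcongr
      _ = _ := by ring
  · rw [if_neg h]
    unfold be
    rw [if_neg h]
    simp

/-- the monomial of one tuple -/
lemma pf_n6 (hK : 0 < K) (hq : IsPrim q) (ht : IsPrim t) {d e e' c g n : Eis} (hc : IsC c)
    (hg : IsPrim g) (hn : IsPrim n) (hR : (nm (fq q c g n) : ℝ) ≤ R) (htE : (nm t : ℝ) ≤ E1) :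
    pf K q t (d, e, c, g) (d, e', c, g) * n6 n ^ 2 ≤
      3 * K ^ (-(1 : ℝ) / 3) * E1 * R * (nm (fq q c g n) : ℝ) ^ (-(1 : ℝ) / 3) := by
  have a1 := nm_pos' hq
  have a2 := nm_pos' ht
  have a3 := nm_pos' hg
  have a4 := nm_pos' hn
  have a5 : (0 : ℝ) < nm c := by exact_mod_cast nm_pos.mpr hc.ne_zero
  have c9 : (nm c : ℝ) ≤ 9 := by
    have h3 : nm (3 : Eis) = 9 := nm_three
    have hw : nm w = 1 := nm_w
    rcases hc with rfl | rfl | rfl | rfl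
    · rw [nm_one]; norm_num
    · rw [h3]; norm_num
    · rw [nm_mul, h3, hw]; norm_num
    · rw [nm_mul, nm_pow, h3, hw]; norm_num
  have hj : (nm (fq q c g n) : ℝ) = nm q * nm c * nm n * nm g ^ 2 := by
    unfold E3A164.fq
    rw [nm_mul, nm_mul, nm_mul, nm_pow]
    push_cast; rfl
  unfold pf n6
  simp only
  set Q := (nm q : ℝ)
  set T' := (nm t : ℝ)
  set g' := (nm g : ℝ)
  set n' := (nm n : ℝ)
  set c' := (nm c : ℝ)
  rw [hj] at hR ⊢
  have e1 : (g' * g') ^ ((1 : ℝ) / 6) = g' ^ ((1 : ℝ) / 3) := by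
    rw [← pow_two, ← Real.rpow_natCast, ← Real.rpow_mul a3.le]; norm_num
  have e2 : (K / (Q ^ 2 * T' ^ 3)) ^ (-(1 : ℝ) / 3) = K ^ (-(1 : ℝ) / 3) * (Q ^ ((2 : ℝ) / 3) * T') := by
    rw [Real.div_rpow hK.le (by positivity), Real.mul_rpow (by positivity) (by positivity),
      div_eq_mul_inv, mul_inv, ← Real.rpow_neg (by positivity), ← Real.rpow_neg (by positivity),
      ← Real.rpow_natCast, ← Real.rpow_natCast, ← Real.rpow_mul a1.le, ← Real.rpow_mul a2.le]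
    norm_num
  have e3 : (n' ^ (-(1 : ℝ) / 6)) ^ 2 = n' ^ (-(1 : ℝ) / 3) := by
    rw [← Real.rpow_natCast, ← Real.rpow_mul a4.le]; norm_num
  have e4 : (Q * c' * n' * g' ^ 2) ^ (-(1 : ℝ) / 3) =
      Q ^ (-(1 : ℝ) / 3) * c' ^ (-(1 : ℝ) / 3) * n' ^ (-(1 : ℝ) / 3) * g' ^ (-(2 : ℝ) / 3) := by
    rw [Real.mul_rpow (by positivity) (by positivity), Real.mul_rpow (by positivity) (by positivity),
      Real.mul_rpow (by positivity) (by positivity), ← Real.rpow_natCast, ← Real.rpow_mul a3.le]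
    norm_num
  rw [e1, e2, e3, e4]
  have e5 : g' ^ ((1 : ℝ) / 3) * (K ^ (-(1 : ℝ) / 3) * (Q ^ ((2 : ℝ) / 3) * T')) *
      n' ^ (-(1 : ℝ) / 3) = (K ^ (-(1 : ℝ) / 3) * T' * (Q * g') * c' ^ ((1 : ℝ) / 3)) *
      (Q ^ (-(1 : ℝ) / 3) * c' ^ (-(1 : ℝ) / 3) * n' ^ (-(1 : ℝ) / 3) * g' ^ (-(2 : ℝ) / 3)) := by
    have q1 : Q * Q ^ (-(1 : ℝ) / 3) = Q ^ ((2 : ℝ) / 3) := by
      nth_rewrite 1 [← Real.rpow_one Q]
      rw [← Real.rpow_add a1]; norm_num
    have q2 : g' * g' ^ (-(2 : ℝ) / 3) = g' ^ ((1 : ℝ) / 3) := by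
      nth_rewrite 1 [← Real.rpow_one g']
      rw [← Real.rpow_add a3]; norm_num
    have q3 : c' ^ ((1 : ℝ) / 3) * c' ^ (-(1 : ℝ) / 3) = 1 := by
      rw [← Real.rpow_add a5]; norm_num
    calc g' ^ ((1 : ℝ) / 3) * (K ^ (-(1 : ℝ) / 3) * (Q ^ ((2 : ℝ) / 3) * T')) * n' ^ (-(1 : ℝ) / 3)
        = (K ^ (-(1 : ℝ) / 3) * T' * n' ^ (-(1 : ℝ) / 3)) * (Q ^ ((2 : ℝ) / 3)) *
          (g' ^ ((1 : ℝ) / 3)) * 1 := by ring
      _ = (K ^ (-(1 : ℝ) / 3) * T' * n' ^ (-(1 : ℝ) / 3)) * (Q * Q ^ (-(1 : ℝ) / 3)) *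
          (g' * g' ^ (-(2 : ℝ) / 3)) * (c' ^ ((1 : ℝ) / 3) * c' ^ (-(1 : ℝ) / 3)) := by
            rw [q1, q2, q3]
      _ = _ := by ring
  rw [e5]
  have hc3 : c' ^ ((1 : ℝ) / 3) ≤ 3 := by
    calc c' ^ ((1 : ℝ) / 3) ≤ (27 : ℝ) ^ ((1 : ℝ) / 3) :=
          Real.rpow_le_rpow a5.le (by linarith) (by norm_num)
      _ = 3 := by
          rw [show (27 : ℝ) = 3 ^ (3 : ℝ) by norm_num, ← Real.rpow_mul (by norm_num)]; norm_num
  have g1 : 1 ≤ g' := nm_one_le hg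
  have n1 : 1 ≤ n' := nm_one_le hn
  have c1 : (1 : ℝ) ≤ c' := by
    have h : (1 : ℕ) ≤ nm c := nm_pos.mpr hc.ne_zero
    show (1 : ℝ) ≤ (nm c : ℝ)
    exact_mod_cast h
  have hQg : Q * g' ≤ R := by
    refine le_trans ?_ hR
    have : Q * g' * 1 ≤ Q * g' * (c' * n' * g') := by
      refine mul_le_mul_of_nonneg_left ?_ (by positivity)
      calc (1 : ℝ) = 1 * 1 * 1 := by norm_num
        _ ≤ c' * n' * g' := by gcongr
    calc Q * g' = Q * g' * 1 := by ring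
      _ ≤ Q * g' * (c' * n' * g') := this
      _ = _ := by ring
  refine mul_le_mul_of_nonneg_right ?_ (by positivity)
  calc K ^ (-(1 : ℝ) / 3) * T' * (Q * g') * c' ^ ((1 : ℝ) / 3) ≤
      K ^ (-(1 : ℝ) / 3) * E1 * R * 3 := by
        have : 0 ≤ E1 := a2.le.trans htE
        have hR0 : 0 ≤ R := le_trans (by positivity) hR
        gcongr
    _ = _ := by ring

/-- one tuple `z` -/
lemma tuple_le (hK : 0 < K) (hq : IsPrim q) (ht : IsPrim t) (htE : (nm t : ℝ) ≤ E1)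
    (hR : ∀ x ∈ J, (nm x.2 : ℝ) ≤ R) (hτ : ∀ x ∈ J, ∀ m : Eis, m ≠ 0 → (nm m : ℝ) ≤ nm x.1 * nm x.2 →
      (tau m : ℝ) ≤ τ) (hJ : OKJ J) {d c g n : Eis} (hc : IsC c) (hg : g ∈ S R)
    (hn : n ∈ S R) :
    ∑ e ∈ S E0, ∑ e' ∈ S E0, pf K q t (d, e, c, g) (d, e', c, g) * ((tau (d * g * n) : ℝ) *
      (NU J om T q (d, e, c, g) n * NU J om T q (d, e', c, g) n)) ≤
    if (d, c, g, n) ∈ PP J R q then 3 * K ^ (-(1 : ℝ) / 3) * E1 * R * τ *
      EF om T E0 (xz q (d, c, g, n)) else 0 := by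
  have hgp := SR_prim hg
  have hnp := SR_prim hn
  by_cases h : IsPrim n ∧ Squarefree n ∧ IsCoprime n g ∧ (d, E3A164.fq q c g n) ∈ J
  · have hz : (d, c, g, n) ∈ PP J R q := by
      rw [mem_PP]
      exact ⟨⟨mem_image_of_mem _ h.2.2.2, hc, hg, hn⟩, h.2.2.1, h.2.2.2⟩
    rw [if_pos hz]
    have hxR := hR _ h.2.2.2
    have hd : IsPrim d := hJ.prim _ h.2.2.2
    have hτ1 : (tau (d * g * n) : ℝ) ≤ τ := by
      apply hτ _ h.2.2.2 _ (mul_ne_zero (mul_ne_zero hd.ne_zero hgp.1.ne_zero) hnp.1.ne_zero)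
      simp only
      have e1 : d * E3A164.fq q c g n = (d * g * n) * (q * c * g) := by
        unfold E3A164.fq; ring
      have h1 : nm (d * g * n) ≤ nm (d * E3A164.fq q c g n) := by
        rw [e1, nm_mul _ (q * c * g)]
        exact Nat.le_mul_of_pos_right _ (nm_pos.mpr
          (mul_ne_zero (mul_ne_zero hq.ne_zero hc.ne_zero) hgp.1.ne_zero))
      rw [← Nat.cast_mul, ← nm_mul]
      exact_mod_cast h1
    have hU : ∀ e, NU J om T q (d, e, c, g) n = ‖om (xz q (d, c, g, n))‖ * n6 n *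
        ‖T (xz q (d, c, g, n)).1 e (xz q (d, c, g, n)).2‖ := by
      intro e
      unfold NU
      rw [if_pos h]
      rfl
    have n6n := (n6_pos hnp.1.ne_zero).le
    have hτ0 : (0 : ℝ) ≤ τ := (Nat.cast_nonneg _).trans hτ1
    have h2 : ∀ e ∈ S E0, ∀ e' ∈ S E0, pf K q t (d, e, c, g) (d, e', c, g) *
        ((tau (d * g * n) : ℝ) * (NU J om T q (d, e, c, g) n * NU J om T q (d, e', c, g) n)) ≤
        (3 * K ^ (-(1 : ℝ) / 3) * E1 * R * (nm (E3A164.fq q c g n) : ℝ) ^ (-(1 : ℝ) / 3) * τ *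
          ‖om (xz q (d, c, g, n))‖ ^ 2) * (‖T (xz q (d, c, g, n)).1 e (xz q (d, c, g, n)).2‖ *
          ‖T (xz q (d, c, g, n)).1 e' (xz q (d, c, g, n)).2‖) := by
      intro e _ e' _
      have h3 := pf_n6 (e := e) (e' := e') (d := d) hK hq ht hc hgp.1 hnp.1 hxR htE
      have h4 := pf_nonneg (q := q) (t := t) hK.le (d, e, c, g) (d, e', c, g)
      calc pf K q t (d, e, c, g) (d, e', c, g) * ((tau (d * g * n) : ℝ) *
            (NU J om T q (d, e, c, g) n * NU J om T q (d, e', c, g) n))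
          ≤ pf K q t (d, e, c, g) (d, e', c, g) * (τ *
            ((‖om (xz q (d, c, g, n))‖ * n6 n *
              ‖T (xz q (d, c, g, n)).1 e (xz q (d, c, g, n)).2‖) *
            (‖om (xz q (d, c, g, n))‖ * n6 n *
              ‖T (xz q (d, c, g, n)).1 e' (xz q (d, c, g, n)).2‖))) := by
              rw [hU e, hU e']
              gcongr
        _ = (pf K q t (d, e, c, g) (d, e', c, g) * n6 n ^ 2) * (τ *
            ‖om (xz q (d, c, g, n))‖ ^ 2 * (‖T (xz q (d, c, g, n)).1 e (xz q (d, c, g, n)).2‖ *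
          ‖T (xz q (d, c, g, n)).1 e' (xz q (d, c, g, n)).2‖)) := by ring
        _ ≤ (3 * K ^ (-(1 : ℝ) / 3) * E1 * R * (nm (E3A164.fq q c g n) : ℝ) ^ (-(1 : ℝ) / 3)) * (τ *
            ‖om (xz q (d, c, g, n))‖ ^ 2 * (‖T (xz q (d, c, g, n)).1 e (xz q (d, c, g, n)).2‖ *
          ‖T (xz q (d, c, g, n)).1 e' (xz q (d, c, g, n)).2‖)) := by
              refine mul_le_mul_of_nonneg_right h3 ?_
              positivity
        _ = _ := by ring
    refine (sum_le_sum fun e he => sum_le_sum fun e' he' => h2 e he e' he').trans (le_of_eq ?_)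
    simp only [← mul_sum]
    rw [← sum_mul]
    unfold EF
    have e3 : (xz q (d, c, g, n)).2 = E3A164.fq q c g n := rfl
    rw [e3]
    ring
  · have h0 : ∀ e, NU J om T q (d, e, c, g) n = 0 := by
      intro e
      unfold NU
      rw [if_neg h]
    have h1 : ¬ (d, c, g, n) ∈ PP J R q := by
      rw [mem_PP]
      rintro ⟨⟨-, -, -, b4⟩, b5, b6⟩
      exact h ⟨hnp.1, hnp.2, b5, b6⟩
    rw [if_neg h1]
    simp [h0]

lemma sum_sm (F : Yp → Yp → ℝ) : ∑ y ∈ Ys J E0 R, ∑ y' ∈ Ys J E0 R, (if sm y y' then F y y'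
    else 0) = ∑ d ∈ J.image Prod.fst, ∑ c ∈ Cs, ∑ g ∈ S R, ∑ e ∈ S E0, ∑ e' ∈ S E0,
      F (d, e, c, g) (d, e', c, g) := by
  unfold Ys
  simp only [sum_product]
  refine sum_congr rfl fun d hd => ?_
  have h3 : ∀ e ∈ S E0, ∀ c ∈ Cs, ∀ g ∈ S R,
      (∑ d' ∈ J.image Prod.fst, ∑ e' ∈ S E0, ∑ c' ∈ Cs, ∑ g' ∈ S R,
        if sm (d, e, c, g) (d', e', c', g') then F (d, e, c, g) (d', e', c', g')
        else 0) = ∑ e' ∈ S E0, F (d, e, c, g) (d, e', c, g) := by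
    intro e he c hc g hg
    rw [sum_eq_single_of_mem d hd ?_]
    · refine sum_congr rfl fun e' _ => ?_
      rw [sum_eq_single_of_mem c hc ?_]
      · rw [sum_eq_single_of_mem g hg ?_]
        · rw [if_pos ⟨rfl, rfl⟩]
        · intro g' _ hg'
          rw [if_neg]
          intro h
          have := h.2
          simp only [Prod.mk.injEq] at this
          exact hg' this.2.symm
      · intro c' _ hc'
        refine sum_eq_zero fun g' _ => ?_
        rw [if_neg]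
        intro h
        have := h.2
        simp only [Prod.mk.injEq] at this
        exact hc' this.1.symm
    · intro d' _ hd'
      refine sum_eq_zero fun e' _ => sum_eq_zero fun c' _ => sum_eq_zero fun g' _ => ?_
      rw [if_neg]
      intro h
      exact hd' h.1.symm
  rw [sum_congr rfl fun e he => sum_congr rfl fun c hc => sum_congr rfl fun g hg =>
    h3 e he c hc g hg]
  rw [sum_comm]
  refine sum_congr rfl fun c _ => ?_
  rw [sum_comm]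

/-- **the error of the diagonal at `(q, t)`** -/
theorem DEr_le (hK : 0 < K) (hq : IsPrim q) (ht : IsPrim t) (htE : (nm t : ℝ) ≤ E1)
    (hR : ∀ x ∈ J, (nm x.2 : ℝ) ≤ R) (hτ : ∀ x ∈ J, ∀ m : Eis, m ≠ 0 → (nm m : ℝ) ≤ nm x.1 * nm x.2 →
      (tau m : ℝ) ≤ τ) (hτq : (tau q : ℝ) ≤ τ) (hJ : OKJ J) :
    DEr K B J om T E0 R q t ≤ 3 * K ^ (-(1 : ℝ) / 3) * E1 * R * τ ^ 2 * ((S B).card : ℝ) ^ 2 *
      ∑ z ∈ PP J R q, EF om T E0 (xz q z) := by
  have hτ0 : (0 : ℝ) ≤ τ := (Nat.cast_nonneg _).trans hτq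
  set D0 : ℝ := ∑ y ∈ Ys J E0 R, ∑ y' ∈ Ys J E0 R, if sm y y' then
      pf K q t y y' * ∑ n ∈ S R, (tau (y.1 * y.2.2.2 * n) : ℝ) *
        (NU J om T q y n * NU J om T q y' n) else 0 with hD0
  -- replace `UU` by the bound
  have e1 : DEr K B J om T E0 R q t ≤ ∑ y ∈ Ys J E0 R, ∑ y' ∈ Ys J E0 R, ∑ b ∈ S B, ∑ b' ∈ S B,
      ∑ s ∈ pdiv q, if sm y y' then
      pf K q t y y' * ∑ n ∈ S R, (tau (y.1 * y.2.2.2 * n) : ℝ) *
        (NU J om T q y n * NU J om T q y' n) else 0 := by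
    unfold DEr
    refine sum_le_sum fun y _ => sum_le_sum fun y' _ => sum_le_sum fun b _ =>
      sum_le_sum fun b' _ => sum_le_sum fun s _ => ?_
    split_ifs with h
    · have := pf_nonneg (q := q) (t := t) hK.le y y'
      refine mul_le_mul_of_nonneg_left (sum_le_sum fun n _ => ?_) this
      refine mul_le_mul_of_nonneg_left ?_ (Nat.cast_nonneg _)
      exact mul_le_mul (norm_UU_le _ y n) (norm_UU_le _ y' n) (norm_nonneg _) (NU_nonneg y n)
    · exact le_rfl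
  have e2 : (∑ y ∈ Ys J E0 R, ∑ y' ∈ Ys J E0 R, ∑ b ∈ S B, ∑ b' ∈ S B,
      ∑ s ∈ pdiv q, if sm y y' then
      pf K q t y y' * ∑ n ∈ S R, (tau (y.1 * y.2.2.2 * n) : ℝ) *
        (NU J om T q y n * NU J om T q y' n) else 0) =
      ((S B).card : ℝ) ^ 2 * ((pdiv q).card : ℝ) * D0 := by
    simp only [sum_const, nsmul_eq_mul, hD0]
    simp only [← mul_sum]
    ring
  have hpd : ((pdiv q).card : ℝ) ≤ τ := by
    refine le_trans ?_ hτq
    have : (pdiv q).card ≤ tau q := by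
      refine card_le_card fun x hx => ?_
      rw [mem_pdiv hq.ne_zero] at hx
      exact (mem_dvs hq.ne_zero).mpr hx
    exact_mod_cast this
  -- the sum over `y, y'`
  have e3 : D0 ≤ 3 * K ^ (-(1 : ℝ) / 3) * E1 * R * τ * ∑ z ∈ PP J R q, EF om T E0 (xz q z) := by
    rw [hD0, sum_sm]
    have h1 : ∀ d ∈ J.image Prod.fst, ∀ c ∈ Cs, ∀ g ∈ S R, (∑ e ∈ S E0, ∑ e' ∈ S E0,
        pf K q t (d, e, c, g) (d, e', c, g) * ∑ n ∈ S R,
          (tau ((d, e, c, g).1 * (d, e, c, g).2.2.2 * n) : ℝ) *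
        (NU J om T q (d, e, c, g) n * NU J om T q (d, e', c, g) n)) ≤
        ∑ n ∈ S R, if (d, c, g, n) ∈ PP J R q then 3 * K ^ (-(1 : ℝ) / 3) * E1 * R * τ *
          EF om T E0 (xz q (d, c, g, n)) else 0 := by
      intro d hd c hc g hg
      have h2 : (∑ e ∈ S E0, ∑ e' ∈ S E0,
        pf K q t (d, e, c, g) (d, e', c, g) * ∑ n ∈ S R,
          (tau ((d, e, c, g).1 * (d, e, c, g).2.2.2 * n) : ℝ) *
        (NU J om T q (d, e, c, g) n * NU J om T q (d, e', c, g) n)) =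
        ∑ n ∈ S R, ∑ e ∈ S E0, ∑ e' ∈ S E0,
        pf K q t (d, e, c, g) (d, e', c, g) * ((tau (d * g * n) : ℝ) *
        (NU J om T q (d, e, c, g) n * NU J om T q (d, e', c, g) n)) := by
        simp only [mul_sum]
        rw [sum_comm]
        rw [sum_congr rfl fun e _ => sum_comm]
        rw [sum_comm]
        refine sum_congr rfl fun n _ => ?_
        rw [sum_comm]
      rw [h2]
      exact sum_le_sum fun n hn => tuple_le hK hq ht htE hR hτ hJ (mem_Cs.mp hc) hg hn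
    refine (sum_le_sum fun d hd => sum_le_sum fun c hc => sum_le_sum fun g hg =>
      h1 d hd c hc g hg).trans (le_of_eq ?_)
    have e5 : ∀ z, z ∈ (J.image Prod.fst) ×ˢ (Cs ×ˢ ((S R) ×ˢ (S R))) →
        ((if z ∈ PP J R q then 3 * K ^ (-(1 : ℝ) / 3) * E1 * R * τ *
          EF om T E0 (xz q z) else 0) = if (IsCoprime z.2.2.2 z.2.2.1 ∧
          (z.1, E3A164.fq q z.2.1 z.2.2.1 z.2.2.2) ∈ J) then 3 * K ^ (-(1 : ℝ) / 3) * E1 * R * τ *
          EF om T E0 (xz q z) else 0) := by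
      intro z hz
      unfold PP
      simp only [mem_filter, hz, true_and]
    rw [mul_sum]
    unfold PP at *
    rw [sum_filter, ← sum_congr rfl e5]
    simp only [sum_product]
  have hD0n : 0 ≤ D0 := by
    rw [hD0]
    refine sum_nonneg fun y _ => sum_nonneg fun y' _ => ?_
    split_ifs
    · refine mul_nonneg (pf_nonneg hK.le y y') (sum_nonneg fun n _ => ?_)
      exact mul_nonneg (Nat.cast_nonneg _) (mul_nonneg (NU_nonneg y n) (NU_nonneg y' n))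
    · exact le_rfl
  calc DEr K B J om T E0 R q t ≤ ((S B).card : ℝ) ^ 2 * ((pdiv q).card : ℝ) * D0 := e2 ▸ e1
    _ ≤ ((S B).card : ℝ) ^ 2 * τ * (3 * K ^ (-(1 : ℝ) / 3) * E1 * R * τ *
        ∑ z ∈ PP J R q, EF om T E0 (xz q z)) := by gcongr
    _ = _ := by ring

lemma sum_q_PP (hJ : OKJ J) (F : Eis × Eis → ℝ) (hF : ∀ x, 0 ≤ F x)
    (hτ : ∀ x ∈ J, (tau x.2 : ℝ) ≤ τ) :
    ∑ q ∈ S R, ∑ z ∈ PP J R q, F (xz q z) ≤ τ * ∑ x ∈ J, F x := by
  have h1 : ∀ q ∈ S R, ∑ z ∈ PP J R q, F (xz q z) ≤ ∑ x ∈ J, if q ∣ x.2 then F x else 0 := by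
    intro q hq
    have hqp := SR_prim hq
    have e1 : ∑ z ∈ PP J R q, F (xz q z) = ∑ z ∈ PP J R q,
        (fun x : Eis × Eis => if q ∣ x.2 then F x else 0) (xz q z) := by
      refine sum_congr rfl fun z hz => ?_
      have : q ∣ (xz q z).2 := ⟨z.2.1 * z.2.2.2 * z.2.2.1 ^ 2, by
        show E3A164.fq q z.2.1 z.2.2.1 z.2.2.2 = _
        unfold E3A164.fq; ring⟩
      simp only [this, if_true]
    rw [e1]
    exact sum_PP_le hqp.1 (fun x : Eis × Eis => if q ∣ x.2 then F x else 0) fun x _ => by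
      beta_reduce; split_ifs <;> [exact hF x; exact le_rfl]
  refine (sum_le_sum h1).trans ?_
  rw [sum_comm, mul_sum]
  refine sum_le_sum fun x hx => ?_
  rw [← sum_filter, sum_const, nsmul_eq_mul]
  have hx0 : x.2 ≠ 0 := by
    obtain ⟨c, hc, j', hj', -, h⟩ := hJ.jc x hx
    have hc' : IsC c := hc
    rw [h]
    exact mul_ne_zero hc'.ne_zero hj'.ne_zero
  have h2 : (((S R).filter (fun q => q ∣ x.2)).card : ℝ) ≤ τ := by
    refine le_trans ?_ (hτ x hx)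
    have : ((S R).filter (fun q => q ∣ x.2)).card ≤ tau x.2 := by
      refine card_le_card fun q hq => ?_
      rw [mem_filter] at hq
      exact (mem_dvs hx0).mpr ⟨(SR_prim hq.1).1, hq.2⟩
    exact_mod_cast this
  exact mul_le_mul_of_nonneg_right h2 (hF x)

/-- **the total error of the diagonal** -/
theorem DEr_total (hK : 0 < K) (hE1 : 0 ≤ E1) (hB : 1 ≤ B) (hR0 : 0 ≤ R)
    (hR : ∀ x ∈ J, (nm x.2 : ℝ) ≤ R) (hτ : ∀ x ∈ J, ∀ m : Eis, m ≠ 0 → (nm m : ℝ) ≤ nm x.1 * nm x.2 →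
      (tau m : ℝ) ≤ τ) (hτq : ∀ q ∈ S R, (tau q : ℝ) ≤ τ) (hτ0 : 0 ≤ τ) (hJ : OKJ J) :
    ∑ q ∈ S R, ∑ t ∈ pb E1, DEr K B J om T E0 R q t ≤
      76800 * K ^ (-(1 : ℝ) / 3) * E1 ^ 2 * B ^ 2 * R * τ ^ 3 * ∑ x ∈ J, EF om T E0 x := by
  have hEF := EF_nonneg om T E0
  have hcB : ((S B).card : ℝ) ≤ 16 * B := GLS106.card_S_le hB
  have hcE : ((pb E1).card : ℝ) ≤ 100 * E1 := Mob705.card_pb_le E1 hE1
  have h1 : ∀ q ∈ S R, ∑ t ∈ pb E1, DEr K B J om T E0 R q t ≤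
      (100 * E1) * (3 * K ^ (-(1 : ℝ) / 3) * E1 * R * τ ^ 2 * (16 * B) ^ 2) *
        ∑ z ∈ PP J R q, EF om T E0 (xz q z) := by
    intro q hq
    have hP : 0 ≤ ∑ z ∈ PP J R q, EF om T E0 (xz q z) := sum_nonneg fun z _ => hEF _
    have h2 : ∀ t ∈ pb E1, DEr K B J om T E0 R q t ≤
        (3 * K ^ (-(1 : ℝ) / 3) * E1 * R * τ ^ 2 * (16 * B) ^ 2) *
        ∑ z ∈ PP J R q, EF om T E0 (xz q z) := by
      intro t ht
      rw [mem_pb] at ht
      refine (DEr_le hK (SR_prim hq).1 ht.2 ht.1 hR hτ (hτq q hq) hJ).trans ?_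
      refine mul_le_mul_of_nonneg_right ?_ hP
      gcongr
    refine (sum_le_sum h2).trans ?_
    rw [sum_const, nsmul_eq_mul, ← mul_assoc]
    refine mul_le_mul_of_nonneg_right ?_ hP
    refine mul_le_mul_of_nonneg_right hcE ?_
    positivity
  refine (sum_le_sum h1).trans ?_
  rw [← mul_sum]
  have h3 := sum_q_PP (R := R) hJ (EF om T E0) hEF (fun x hx => by
    obtain ⟨c, hc, j', hj', -, h⟩ := hJ.jc x hx
    have hc' : IsC c := hc
    refine hτ x hx x.2 ?_ ?_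
    · rw [h]; exact mul_ne_zero hc'.ne_zero hj'.ne_zero
    · have h1 := nm_one_le (hJ.prim x hx)
      have h2 : (0 : ℝ) ≤ nm x.2 := Nat.cast_nonneg _
      nlinarith)
  calc (100 * E1) * (3 * K ^ (-(1 : ℝ) / 3) * E1 * R * τ ^ 2 * (16 * B) ^ 2) *
        ∑ q ∈ S R, ∑ z ∈ PP J R q, EF om T E0 (xz q z) ≤
      (100 * E1) * (3 * K ^ (-(1 : ℝ) / 3) * E1 * R * τ ^ 2 * (16 * B) ^ 2) *
        (τ * ∑ x ∈ J, EF om T E0 x) := by
        refine mul_le_mul_of_nonneg_left h3 ?_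
        positivity
    _ = _ := by ring

end

end Crest.Agent.R017.E3F548
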