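import Crest.Agent.R017.E3Me_829

/-!
# Row 17, block C70, leaf E3 (helper829): upper bound of the natural diagonal, arbitrary `T`

* `e_sum` : `Σ'_k [e ∣ k, (k,b)=1] w(N k/K) |th(jk)|² ≤ main/N e + error`
* **`nat_upper`** : `MSr w K j b (DTx E0 T x) ≤ τ Σ_e ‖T e‖² (main/N e + error)`
* **`diag_upper`** : the diagonal with the majorant for arbitrary `T`
-/

set_option autoImplicit false

noncomputable section

open scoped ComplexConjugate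
open Finset MeasureTheory

namespace Crest.Agent.R017.E3M829

open Crest.Agent.R012 Crest.Agent.R012.Eis Crest.Agent.R012.Gauss880
open Crest.Agent.R012.LS2 (S mem_S)
open Crest.Agent.R012.Mob705 (IsPP pdiv mem_pdiv cop mem_cop pb mem_pb kap0 kap0_pos PE PE_pos
  PE_le_one)
open Crest.Agent.R012.Div277 (tau)
open Crest.Agent.R017.E1551 (nmpos)
open Crest.Agent.R017.PX764 Crest.Agent.R017.C70 Crest.Agent.R017.GrB829
open Crest.Agent.R017.GrD829 Crest.Agent.R017.E3s164 Crest.Agent.R017.E3A164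
open Crest.Agent.R017.Maj829 (mj)
open Crest.Agent.R017.GrC829 (Wt)
open Crest.Agent.R017.GrE579 (GDE GDE_cop cbF_of_sqf)
open Crest.Agent.R017.DgB829

/-- the bound of the sum over the multiples of `e` -/
def Ub (w : ℝ → ℝ) (a₀ b₀ D K : ℝ) (j b e : Eis) : ℝ :=
  kap0 * K ^ (2 / 3 : ℝ) * (nm j : ℝ) ^ (-(1 : ℝ) / 3) *
      ‖∫ t in Set.Ioi (0 : ℝ), ((t ^ (-(1 : ℝ) / 3) : ℝ) : ℂ) * (w t : ℂ)‖ * (1 / nm e) +
    Ec a₀ b₀ D K j b * ((tau e : ℝ) ^ 4 * (nm e : ℝ) ^ (-(1 : ℝ) / 2))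

lemma lc_self {e : Eis} (he : IsPrim e) : DgA829.lc e e = e :=
  DgA829.lc_unique he he he fun k => by simp

lemma Ub_nonneg {w : ℝ → ℝ} {a₀ b₀ D : ℝ} (h : Wt (fun t => (w t : ℂ)) a₀ b₀ D) {K : ℝ}
    (hK : 0 < K) {j b e : Eis} (hj : j ≠ 0) : 0 ≤ Ub w a₀ b₀ D K j b e := by
  have h1 := Ec_nonneg h hK (b := b) hj
  have := kap0_pos
  unfold Ub
  positivity

/-- **the multiples of `e`** -/
theorem e_sum {w : ℝ → ℝ} {a₀ b₀ D : ℝ} (h : Wt (fun t => (w t : ℂ)) a₀ b₀ D) {K : ℝ}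
    (hK : 0 < K) {j b e : Eis} (hj : JC j) (hb : b ≠ 0) (hjb : IsCoprime j b) (he : IsPrim e)
    (hes : Squarefree e) (heb : IsCoprime e b) (hje : IsCoprime j e) :
    ‖GDE (fun t => (w t : ℂ)) K j b e‖ ≤ Ub w a₀ b₀ D K j b e := by
  have h1 := GDE_cop h hK hj hb hjb he heb (cbF_of_sqf hes) hje
  have h2 := err_le h hK (b := b) hj he he hes hes
  rw [lc_self he] at h2
  have h3 := h1.trans h2
  have hP := PE_pos b
  have hP1 := PE_le_one b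
  have hk := kap0_pos
  have hj0 := GrE579.JC.ne_zero hj
  have ne := nmpos he.ne_zero
  have nj := nmpos hj0
  set I := ∫ t in Set.Ioi (0 : ℝ), ((t ^ (-(1 : ℝ) / 3) : ℝ) : ℂ) * (w t : ℂ) with hI
  set c : ℝ := kap0 * PE b * (nm j : ℝ) ^ (-(1 : ℝ) / 3) * (1 / (nm e : ℝ)) *
        K ^ (2 / 3 : ℝ) with hc
  have hc0 : 0 ≤ c := by rw [hc]; positivity
  have h4 : ‖GDE (fun t => (w t : ℂ)) K j b e‖ ≤ ‖(c : ℂ) * I‖ +
      Ec a₀ b₀ D K j b * (((tau e : ℝ) ^ 2 * (nm e : ℝ) ^ (-(1 : ℝ) / 4)) *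
        ((tau e : ℝ) ^ 2 * (nm e : ℝ) ^ (-(1 : ℝ) / 4))) := by
    calc ‖GDE (fun t => (w t : ℂ)) K j b e‖ = ‖(c : ℂ) * I +
          (GDE (fun t => (w t : ℂ)) K j b e - (c : ℂ) * I)‖ := by rw [add_sub_cancel]
      _ ≤ _ := (norm_add_le _ _).trans (add_le_add le_rfl h3)
  refine h4.trans ?_
  unfold Ub
  refine add_le_add ?_ (le_of_eq ?_)
  · rw [norm_mul, Complex.norm_real, Real.norm_of_nonneg hc0, hc]
    have hI0 := norm_nonneg I
    calc kap0 * PE b * (nm j : ℝ) ^ (-(1 : ℝ) / 3) * (1 / (nm e : ℝ)) * K ^ (2 / 3 : ℝ) * ‖I‖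
        = PE b * (kap0 * K ^ (2 / 3 : ℝ) * (nm j : ℝ) ^ (-(1 : ℝ) / 3) * ‖I‖ * (1 / nm e)) := by
          ring
      _ ≤ 1 * (kap0 * K ^ (2 / 3 : ℝ) * (nm j : ℝ) ^ (-(1 : ℝ) / 3) * ‖I‖ * (1 / nm e)) :=
          mul_le_mul_of_nonneg_right hP1 (by positivity)
      _ = _ := one_mul _
  · have e1 : (nm e : ℝ) ^ (-(1 : ℝ) / 2) =
        (nm e : ℝ) ^ (-(1 : ℝ) / 4) * (nm e : ℝ) ^ (-(1 : ℝ) / 4) := by
      rw [← Real.rpow_add ne]; norm_num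
    rw [e1]
    ring

/-- coprimality of the coefficients -/
def TC (T : Eis → Eis → Eis → ℂ) : Prop :=
  ∀ d e j, T d e j ≠ 0 → IsCoprime j e ∧ IsCoprime j d ∧ IsCoprime e d

section

variable {J : Finset (Eis × Eis)} {om : Eis × Eis → ℂ} {T : Eis → Eis → Eis → ℂ}
  {w : ℝ → ℝ} {W a₀ b₀ D K B E0 R τ : ℝ}

lemma GDE_real (h : Wt (fun t => (w t : ℂ)) a₀ b₀ D) (hw : W0 w W b₀) (hK : 0 < K) (j b e : Eis) :
    ‖GDE (fun t => (w t : ℂ)) K j b e‖ = ∑ k ∈ cop b (b₀ * K), open Classical in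
      if e ∣ k then w ((nm k : ℝ) / K) * ‖th (j * k)‖ ^ 2 else 0 := by
  classical
  rw [GDE_fin h hK]
  have e1 : (∑ k ∈ cop b (b₀ * K), if e ∣ k then
      ((w ((nm k : ℝ) / K) : ℝ) : ℂ) * ((‖th (j * k)‖ ^ 2 : ℝ) : ℂ) else 0) =
      ((∑ k ∈ cop b (b₀ * K), if e ∣ k then w ((nm k : ℝ) / K) * ‖th (j * k)‖ ^ 2 else 0 : ℝ) :
        ℂ) := by
    rw [Complex.ofReal_sum]
    refine sum_congr rfl fun k _ => ?_
    split_ifs
    · push_cast; ring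
    · simp
  rw [e1, Complex.norm_real, Real.norm_of_nonneg]
  refine sum_nonneg fun k _ => ?_
  split_ifs
  · exact mul_nonneg (hw.nn _) (by positivity)
  · exact le_rfl

/-- **the natural diagonal, arbitrary `T`** -/
theorem nat_upper (h : Wt (fun t => (w t : ℂ)) a₀ b₀ D) (hw : W0 w W b₀) (hK : 0 < K)
    (hT : TC T) {x : Eis × Eis} (hδ : IsPrim x.1) (hj : JC x.2) (hτ0 : 0 ≤ τ)
    (hτ : ∀ m : Eis, (nm m : ℝ) ≤ b₀ * K → (tau m : ℝ) ≤ τ) :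
    MSr w K x.2 x.1 (DTx E0 T x) ≤
      τ * ∑ e ∈ S E0, ‖T x.1 e x.2‖ ^ 2 * Ub w a₀ b₀ D K x.2 x.1 e := by
  classical
  have hj0 := GrE579.JC.ne_zero hj
  rw [MSr_fin hw hK]
  -- pointwise
  have h1 : ∀ k ∈ pb (b₀ * K), (if IsCoprime k x.1 then
      w ((nm k : ℝ) / K) * (‖th (x.2 * k)‖ ^ 2 * ‖DTx E0 T x k‖ ^ 2) else 0) ≤
      ∑ e ∈ S E0, τ * (‖T x.1 e x.2‖ ^ 2 * (if IsCoprime k x.1 then (if e ∣ k then
        w ((nm k : ℝ) / K) * ‖th (x.2 * k)‖ ^ 2 else 0) else 0)) := by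
    intro k hk
    rw [mem_pb] at hk
    by_cases hc : IsCoprime k x.1
    · simp only [if_pos hc]
      have h2 : ‖DTx E0 T x k‖ ^ 2 ≤ τ * ∑ e ∈ (S E0).filter (fun e => e ∣ k),
          ‖T x.1 e x.2‖ ^ 2 := by
        unfold DTx
        have h3 : ‖∑ e ∈ (S E0).filter (fun e => e ∣ k), (muE e : ℂ) * T x.1 e x.2‖ ≤
            ∑ e ∈ (S E0).filter (fun e => e ∣ k), ‖T x.1 e x.2‖ := by
          refine (norm_sum_le _ _).trans (sum_le_sum fun e _ => ?_)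
          rw [norm_mul]
          calc ‖(muE e : ℂ)‖ * ‖T x.1 e x.2‖ ≤ 1 * ‖T x.1 e x.2‖ :=
                mul_le_mul_of_nonneg_right (norm_mu_le e) (norm_nonneg _)
            _ = _ := one_mul _
        have h4 := sq_sum_le_card_mul_sum_sq (s := (S E0).filter (fun e => e ∣ k))
          (f := fun e => ‖T x.1 e x.2‖)
        have h5 : (((S E0).filter (fun e => e ∣ k)).card : ℝ) ≤ τ := by
          refine le_trans ?_ (hτ k hk.1)
          have h6 : ((S E0).filter (fun e => e ∣ k)) ⊆ Div277.dvs k := by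
            intro e he
            rw [Finset.mem_filter] at he
            exact (Div277.mem_dvs hk.2.ne_zero).mpr ⟨(S_pr he.1).1, he.2⟩
          exact_mod_cast Finset.card_le_card h6
        calc _ ≤ (∑ e ∈ (S E0).filter (fun e => e ∣ k), ‖T x.1 e x.2‖) ^ 2 :=
              pow_le_pow_left₀ (norm_nonneg _) h3 2
          _ ≤ _ := h4
          _ ≤ _ := mul_le_mul_of_nonneg_right h5 (by positivity)
      calc w ((nm k : ℝ) / K) * (‖th (x.2 * k)‖ ^ 2 * ‖DTx E0 T x k‖ ^ 2)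
          ≤ w ((nm k : ℝ) / K) * (‖th (x.2 * k)‖ ^ 2 *
            (τ * ∑ e ∈ (S E0).filter (fun e => e ∣ k), ‖T x.1 e x.2‖ ^ 2)) :=
            mul_le_mul_of_nonneg_left (mul_le_mul_of_nonneg_left h2 (by positivity)) (hw.nn _)
        _ = ∑ e ∈ S E0, τ * (‖T x.1 e x.2‖ ^ 2 * (if e ∣ k then
              w ((nm k : ℝ) / K) * ‖th (x.2 * k)‖ ^ 2 else 0)) := by
            rw [sum_filter]
            simp_rw [mul_sum]
            refine sum_congr rfl fun e _ => ?_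
            split_ifs <;> ring
    · simp only [if_neg hc]
      simp
  refine (sum_le_sum h1).trans ?_
  rw [sum_comm, mul_sum]
  refine sum_le_sum fun e he => ?_
  rw [← mul_sum, ← mul_sum]
  refine mul_le_mul_of_nonneg_left ?_ hτ0
  by_cases hz : T x.1 e x.2 = 0
  · rw [hz]; simp
  · obtain ⟨c1, c2, c3⟩ := hT _ _ _ hz
    have h7 := e_sum h hK hj hδ.ne_zero c2 (S_pr he).1 (S_pr he).2 c3 c1
    rw [GDE_real h hw hK] at h7
    refine mul_le_mul_of_nonneg_left (le_trans (le_of_eq ?_) h7) (by positivity)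
    rw [show cop x.1 (b₀ * K) = (pb (b₀ * K)).filter (fun k => IsCoprime k x.1) from rfl,
      sum_filter]

/-- **the diagonal with the majorant, arbitrary `T`** -/
theorem diag_upper (h : Wt (fun t => (w t : ℂ)) a₀ b₀ D) (hw : W0 w W b₀) (hK : 0 < K)
    (hB : 1 ≤ B) (hJ : OKJ J) (hE : 0 ≤ E0) (hT : TC T) (E1 : ℝ) (hτ0 : 0 ≤ τ)
    (hτ : ∀ m : Eis, (nm m : ℝ) ≤ b₀ * K → (tau m : ℝ) ≤ τ) : open Classical in
    ∑ q ∈ S R, ∑ t ∈ pb E1, (∑' k₁ : Eis, if IsPrim k₁ ∧ IsCoprime k₁ q then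
      mj B k₁ ^ 2 * w ((nm (k₁ * q ^ 2 * t ^ 3) : ℝ) / K) * Dg J om T E0 R q t k₁ else 0) ≤
    τ * ∑ x ∈ J, ‖om x‖ ^ 2 * ∑ e ∈ S E0, ‖T x.1 e x.2‖ ^ 2 * Ub w a₀ b₀ D K x.2 x.1 e +
      450 * W * τ ^ 3 * (b₀ * K) ^ (2 / 3 : ℝ) * B⁻¹ * Hp (b₀ * K) ^ 3 *
        ∑ x ∈ J, MF om T E0 x := by
  have h1 := diag_maj (om := om) (R := R) hw (h.pos.le.trans h.le) hK hB hJ hE
    (fun d e j hh => (hT d e j hh).1) E1 hτ0 hτ
  refine h1.trans (add_le_add ?_ le_rfl)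
  rw [mul_sum]
  refine sum_le_sum fun x hx => ?_
  calc ‖om x‖ ^ 2 * MSr w K x.2 x.1 (DTx E0 T x)
      ≤ ‖om x‖ ^ 2 * (τ * ∑ e ∈ S E0, ‖T x.1 e x.2‖ ^ 2 * Ub w a₀ b₀ D K x.2 x.1 e) :=
        mul_le_mul_of_nonneg_left (nat_upper h hw hK hT (hJ.prim x hx) (hJ.jc x hx) hτ0 hτ)
          (by positivity)
    _ = _ := by ring

end

end Crest.Agent.R017.E3M829
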