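import Crest.Agent.R017.E3P3_842

/-!
# Row 17, C70, leaf E3 (C), part 4 (helper842): the theorem `PAIR`
-/

set_option autoImplicit false
set_option maxHeartbeats 400000

noncomputable section

open Complex MeasureTheory
open scoped ComplexConjugate Classical

namespace Crest.Agent.R017.E3P842

open Crest.Agent.R012 Crest.Agent.R012.Eis Crest.Agent.R012.MC
open Crest.Agent.R012.LS2 (S mem_S)
open Crest.Agent.R012.Div277 (dvs mem_dvs isPrim_of_mem_dvs dvd_of_mem_dvs)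
open Crest.Agent.R012.Mob705 (mu pdiv mem_pdiv mu_mul abs_mu_le_one PE sum_mu_coprime)
open Crest.Agent.R012.Weight600 (osc norm_osc osc_add_right pw pw_mul norm_pw)
open Crest.Agent.R017.PX764 (Gh Gh_mul)
open Crest.Agent.R017.CM106 (CS TG)
open Crest.Agent.R017.Dual2813 (S_of_dvd)
open Crest.Agent.R017.E1551 (nmpos jb jb_pos summable_wF CS_fin integrable_jb_mul integrable_jb
  nm_ge_one)
open Crest.Agent.R017.BD829
open Gauss880 (syG)

variable {Y₀ Y : ℝ} {g p q : Eis} {U V : Eis → ℂ}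

lemma WB_prod (M : Eis) (K N₁ N₂ : ℝ) (B : ℕ) (d e h : Eis) :
    WB M K (N₁ * N₂) 1 B d e h = WB M K N₁ N₂ B d e h := by
  unfold WB; rw [mul_one]

lemma ModeP_prod (A B : ℕ) (M : Eis) (ψ : Eis → ℂ) (K N₁ N₂ Y : ℝ) (p q : Eis) (U V : Eis → ℂ)
    (a b D E : Eis) :
    ModeP A B M ψ K (N₁ * N₂) 1 Y p q U V a b D E = ModeP A B M ψ K N₁ N₂ Y p q U V a b D E := by
  unfold ModeP
  simp only [WB_prod]

/-- the total of the modes of the pair sum, `NN = N N'` -/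
def MP (A B : ℕ) (M : Eis) (ψ : Eis → ℂ) (K NN Y : ℝ) (p q : Eis) (U V : Eis → ℂ) : ℝ :=
  ∑ a ∈ dvs q, ∑ b ∈ dvs p,
    (K / Real.sqrt (NN * nm p * nm q / (nm a * nm b))) *
      ∑ D ∈ S Y, ∑ E ∈ pdiv D, (nm D / nm E : ℝ) *
        ModeP A B M ψ K (NN * nm p * nm q / (nm a * nm b)) 1 Y p q U V a b D E

/-- the main term -/
def MT (w : ℝ → ℝ) (K : ℝ) (M : Eis) (ψ : Eis → ℂ) (Y : ℝ) (U V : Eis → ℂ) : ℂ :=
  ((2 * K / (Real.sqrt 3 * nm M) * Wt w 0 : ℝ) : ℂ) * tw M ψ 0 *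
    ∑ d ∈ S Y, (∑ e ∈ pdiv d, (mu e : ℂ) * (nm e : ℂ)⁻¹ * ψ e) * (U d * conj (V d))

lemma Lq_one (U : Eis → ℂ) : Lq U 1 1 1 = U := by
  funext x
  unfold Lq lf ua
  have e1 : (1 : Eis) / 1 * 1 = 1 := by
    rw [mul_one]; exact EuclideanDomain.div_self one_ne_zero
  rw [e1]
  have e2 : x / 1 = x := by simp
  rw [e2, if_pos (one_dvd x), if_pos isCoprime_one_right, one_mul]

lemma dvs_one : dvs (1 : Eis) = {1} := by
  ext x
  rw [mem_dvs one_ne_zero, Finset.mem_singleton]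
  constructor
  · rintro ⟨h1, h2⟩
    exact K695.prim_eq_one_of_isUnit h1 (isUnit_of_dvd_one h2)
  · rintro rfl
    exact ⟨K695.isPrim_one, dvd_rfl⟩

theorem PD.PR1_le (h : PD Y₀ Y g p q U V) (hY1 : 1 ≤ Y) {w : ℝ → ℝ} (hw : Wgt w) {R : ℝ}
    {A B : ℕ} {C : ℝ} (hk : KT w R A B C) (hA : 1 < A) (hB : 1 < B) {M : Eis} {ψ : Eis → ℂ}
    (hψ : LC M ψ) {K : ℝ} (hK : 0 < K) {N N' : ℝ} (hN : 0 < N) (hN' : 0 < N')
    (hwU : Win U (Real.log N) R) (hwV : Win V (Real.log N') R) :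
    ‖PR1 w K ψ p q U V - (if p = 1 ∧ q = 1 then MT w K M ψ Y U V else 0)‖ ≤
      2 * C * MP A B M ψ K (N * N') Y p q U V := by
  have hC := hk.1
  have main : ∀ a ∈ dvs q, ∀ b ∈ dvs p, ‖BS w K ψ (Lq U q a b) (Lq V p b a) -
      (if p = 1 ∧ q = 1 then MT w K M ψ Y U V else 0)‖ ≤
      2 * C * ((K / Real.sqrt ((N * N') * nm p * nm q / (nm a * nm b))) *
      ∑ D ∈ S Y, ∑ E ∈ pdiv D, (nm D / nm E : ℝ) *
        ModeP A B M ψ K ((N * N') * nm p * nm q / (nm a * nm b)) 1 Y p q U V a b D E) := by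
    intro a ha b hb
    have hap := isPrim_of_mem_dvs ha
    have hbp := isPrim_of_mem_dvs hb
    obtain ⟨q1, q1'⟩ := dvs_quo h.hq ha
    obtain ⟨p1, p1'⟩ := dvs_quo h.hp hb
    have n1 := nmpos hap.ne_zero
    have n2 := nmpos hbp.ne_zero
    have n3 := nmpos q1.ne_zero
    have n4 := nmpos p1.ne_zero
    set N₁ : ℝ := N * nm (q / a * b) / nm a with hN1
    set N₂ : ℝ := N' * nm (p / b * a) / nm b with hN2
    have hN1p : 0 < N₁ := by
      rw [hN1, nm_mul]; push_cast; positivity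
    have hN2p : 0 < N₂ := by
      rw [hN2, nm_mul]; push_cast; positivity
    have eN : (N * N') * nm p * nm q / (nm a * nm b) = N₁ * N₂ := by
      have e1 : (nm p : ℝ) = nm b * nm (p / b) := by
        have := congrArg nm p1'
        rw [nm_mul] at this
        exact_mod_cast this
      have e2 : (nm q : ℝ) = nm a * nm (q / a) := by
        have := congrArg nm q1'
        rw [nm_mul] at this
        exact_mod_cast this
      rw [hN1, hN2, e1, e2, nm_mul, nm_mul]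
      push_cast
      field_simp
    have hs1 : ∀ n, Lq U q a b n ≠ 0 → n ∈ S Y :=
      fun n hn => Lq_supp h.hU h.Y0 h.hp h.hq h.ps h.qs h.pq ha hb h.hUp h.le hn
    have hs2 : ∀ n, Lq V p b a n ≠ 0 → n ∈ S Y :=
      fun n hn => Lq_supp h.hV h.Y0 h.hq h.hp h.qs h.ps h.pq.symm hb ha h.hVq
        (by rw [mul_comm (nm q : ℝ)]; exact h.le) hn
    have hbd := BD_kt hw hk hA hB M ψ hψ K hK Y hY1 (Lq U q a b) (Lq V p b a) hs1 hs2 N₁ N₂
      hN1p hN2p (Lq_win h.hU h.Y0 h.hp h.hq ha hb h.hUp hN hwU)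
      (Lq_win h.hV h.Y0 h.hq h.hp hb ha h.hVq hN' hwV)
    have emain : ((2 * K / (Real.sqrt 3 * nm M) * Wt w 0 : ℝ) : ℂ) * tw M ψ 0 *
        ∑ d ∈ S Y, (∑ e ∈ pdiv d, (mu e : ℂ) * (nm e : ℂ)⁻¹ * ψ e) *
          (Lq U q a b d * conj (Lq V p b a d)) =
        (if p = 1 ∧ q = 1 then MT w K M ψ Y U V else 0) := by
      split_ifs with hpq
      · obtain ⟨rfl, rfl⟩ := hpq
        rw [dvs_one, Finset.mem_singleton] at ha hb
        subst ha
        subst hb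
        rw [Lq_one, Lq_one]
        rfl
      · rw [Finset.sum_eq_zero, mul_zero]
        intro d _
        rw [h.diag ha hb hpq, mul_zero]
    rw [emain] at hbd
    refine hbd.trans ?_
    rw [eN, mul_assoc]
    refine mul_le_mul_of_nonneg_left ?_ (by positivity)
    refine mul_le_mul_of_nonneg_left ?_ (by positivity)
    refine Finset.sum_le_sum fun D hD => Finset.sum_le_sum fun E hE => ?_
    have hDp := ((mem_S h.hY).1 hD).2.1
    have hEp := ((mem_pdiv hDp.ne_zero).mp hE).1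
    have nE := nmpos hEp.ne_zero
    refine mul_le_mul_of_nonneg_left ?_ (by positivity)
    rw [ModeP_prod]
    exact h.ModeS_le ha hb hA hB hψ hK hN1p hN2p hDp hEp.ne_zero
  rw [PR1_eq hw hK h.hU h.hV h.Y0 h.hp h.hq]
  have e1 : (∑ a ∈ dvs q, ∑ b ∈ dvs p, BS w K ψ (Lq U q a b) (Lq V p b a)) -
      (if p = 1 ∧ q = 1 then MT w K M ψ Y U V else 0) =
      ∑ a ∈ dvs q, ∑ b ∈ dvs p, (BS w K ψ (Lq U q a b) (Lq V p b a) -
        (if p = 1 ∧ q = 1 then MT w K M ψ Y U V else 0)) := by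
    by_cases hpq : p = 1 ∧ q = 1
    · obtain ⟨rfl, rfl⟩ := hpq
      rw [dvs_one]
      simp
    · simp only [if_neg hpq, sub_zero]
  rw [e1]
  refine (norm_sum_le _ _).trans ?_
  unfold MP
  rw [Finset.mul_sum]
  refine Finset.sum_le_sum fun a ha => ?_
  refine (norm_sum_le _ _).trans ?_
  rw [Finset.mul_sum]
  exact Finset.sum_le_sum fun b hb => main a ha b hb

/-- the sequence twisted by `(s / ·)` -/
def tws (s : Eis) (U : Eis → ℂ) : Eis → ℂ := fun n => U n * sy s n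

lemma PD.twist (h : PD Y₀ Y g p q U V) (s : Eis) : PD Y₀ Y g p q (tws s U) (tws s V) :=
  { h with
    hU := fun n hn => h.hU n (left_ne_zero_of_mul hn)
    hV := fun n hn => h.hV n (left_ne_zero_of_mul hn)
    hUg := fun n hn => h.hUg n (left_ne_zero_of_mul hn)
    hVg := fun n hn => h.hVg n (left_ne_zero_of_mul hn)
    hUp := fun n hn => h.hUp n (left_ne_zero_of_mul hn)
    hVq := fun n hn => h.hVq n (left_ne_zero_of_mul hn) }

/-- **PAIR** -/
theorem PD.PR_le (h : PD Y₀ Y g p q U V) (hY1 : 1 ≤ Y) {w : ℝ → ℝ} (hw : Wgt w) {R : ℝ}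
    {A B : ℕ} {C : ℝ} (hk : KT w R A B C) (hA : 1 < A) (hB : 1 < B) {M : Eis} {ψ : Eis → ℂ}
    (hψ : LC M ψ) {K : ℝ} (hK : 0 < K) {N N' : ℝ} (hN : 0 < N) (hN' : 0 < N')
    (hwU : Win U (Real.log N) R) (hwV : Win V (Real.log N') R) :
    ‖PR w K ψ (g * p) (g * q) U V - (if p = 1 ∧ q = 1 then
      (∑ s ∈ pdiv g, (mu s : ℂ) * (nm s : ℂ)⁻¹ * ψ s) * MT w K M ψ Y U V else 0)‖ ≤
      2 * C * ∑ s ∈ pdiv g, MP A B M ψ (K / nm s) (N * N') Y p q (tws s U) (tws s V) := by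
  have hC := hk.1
  have hUp : ∀ n, U n ≠ 0 → IsPrim n := fun n hn => ((mem_S h.Y0).1 (h.hU n hn)).2.1
  have hVp : ∀ n, V n ≠ 0 → IsPrim n := fun n hn => ((mem_S h.Y0).1 (h.hV n hn)).2.1
  rw [PR_eq hw hK hψ hUp hVp h.hg h.hp h.hq]
  have emain : (if p = 1 ∧ q = 1 then
      (∑ s ∈ pdiv g, (mu s : ℂ) * (nm s : ℂ)⁻¹ * ψ s) * MT w K M ψ Y U V else 0) =
      ∑ s ∈ pdiv g, (mu s : ℂ) * ψ s * (conj (sy s p) * sy s q) *
        (if p = 1 ∧ q = 1 then MT w (K / nm s) M ψ Y (tws s U) (tws s V) else 0) := by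
    by_cases hpq : p = 1 ∧ q = 1
    · obtain ⟨rfl, rfl⟩ := hpq
      simp only [and_self, if_true]
      rw [Finset.sum_mul]
      refine Finset.sum_congr rfl fun s hs => ?_
      obtain ⟨hsp, hsg⟩ := (mem_pdiv h.hg.ne_zero).mp hs
      have ns := nmpos hsp.ne_zero
      have e1 : sy s 1 = 1 := Sym645.sy_one_right s
      rw [e1, map_one, mul_one, mul_one]
      have e2 : ∀ d, tws s U d * conj (tws s V d) = U d * conj (V d) := by
        intro d
        unfold tws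
        by_cases hd : U d = 0
        · simp [hd]
        · have hcd : IsCoprime s d := by
            have := h.hUg d hd
            obtain ⟨c, hc⟩ := hsg
            rw [hc] at this
            exact (IsCoprime.of_mul_right_left this).symm
          have h1 : sy s d * conj (sy s d) = 1 := by
            rw [Complex.mul_conj, Complex.normSq_eq_norm_sq, Char766.norm_sy (hUp d hd) hcd]
            simp
          rw [map_mul]
          linear_combination (U d * conj (V d)) * h1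
      unfold MT
      simp only [e2]
      have e3 : (2 * (K / nm s) / (Real.sqrt 3 * nm M) * Wt w 0 : ℝ) =
          (nm s : ℝ)⁻¹ * (2 * K / (Real.sqrt 3 * nm M) * Wt w 0) := by
        field_simp
      rw [e3]
      push_cast
      ring
    · simp only [if_neg hpq, mul_zero, Finset.sum_const_zero]
  rw [emain, ← Finset.sum_sub_distrib, Finset.mul_sum]
  refine (norm_sum_le _ _).trans (Finset.sum_le_sum fun s hs => ?_)
  obtain ⟨hsp, hsg⟩ := (mem_pdiv h.hg.ne_zero).mp hs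
  have ns := nmpos hsp.ne_zero
  rw [← mul_sub, norm_mul]
  have hwU' : Win (tws s U) (Real.log N) R := fun n hn => hwU n (left_ne_zero_of_mul hn)
  have hwV' : Win (tws s V) (Real.log N') R := fun n hn => hwV n (left_ne_zero_of_mul hn)
  have h1 := (h.twist s).PR1_le hY1 hw hk hA hB hψ (K := K / nm s) (by positivity) hN hN' hwU' hwV'
  have h2 : ‖(mu s : ℂ) * ψ s * (conj (sy s p) * sy s q)‖ ≤ 1 := by
    rw [norm_mul, norm_mul, norm_mul, RCLike.norm_conj, hψ.norm s hsp]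
    have m1 : ‖(mu s : ℂ)‖ ≤ 1 := by
      have := abs_mu_le_one s
      rw [Complex.norm_intCast]
      exact_mod_cast this
    have m2 := Tau671.norm_sy_le (x := s) h.hp
    have m3 := Tau671.norm_sy_le (x := s) h.hq
    rw [mul_one]
    exact mul_le_one₀ m1 (by positivity) (mul_le_one₀ m2 (norm_nonneg _) m3)
  exact (mul_le_of_le_one_left (norm_nonneg _) h2).trans h1

/-- **PAIR, trivial twist** -/
theorem PD.PR_one (h : PD Y₀ Y g p q U V) (hY1 : 1 ≤ Y) {w : ℝ → ℝ} (hw : Wgt w) {R : ℝ}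
    {A B : ℕ} {C : ℝ} (hk : KT w R A B C) (hA : 1 < A) (hB : 1 < B) {K : ℝ} (hK : 0 < K)
    {N N' : ℝ} (hN : 0 < N) (hN' : 0 < N')
    (hwU : Win U (Real.log N) R) (hwV : Win V (Real.log N') R) :
    ‖PR w K (fun _ => 1) (g * p) (g * q) U V - (if p = 1 ∧ q = 1 then
      ((2 * K / (9 * Real.sqrt 3) * Wt w 0 : ℝ) : ℂ) *
        ((PE g : ℂ) * ∑ d ∈ S Y, (PE d : ℂ) * (U d * conj (V d))) else 0)‖ ≤
      2 * C * ∑ s ∈ pdiv g, MP A B 3 (fun _ => 1) (K / nm s) (N * N') Y p q (tws s U) (tws s V) := by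
  have h1 := h.PR_le hY1 hw hk hA hB LC_one hK hN hN' hwU hwV
  have e0 : (∑ s ∈ pdiv g, (mu s : ℂ) * (nm s : ℂ)⁻¹ * (fun _ : Eis => (1 : ℂ)) s) = (PE g : ℂ) := by
    rw [PE_sum h.hg.ne_zero]
    exact Finset.sum_congr rfl fun s _ => by rw [mul_one]
  have e1 : MT w K 3 (fun _ => 1) Y U V = ((2 * K / (9 * Real.sqrt 3) * Wt w 0 : ℝ) : ℂ) *
      ∑ d ∈ S Y, (PE d : ℂ) * (U d * conj (V d)) := by
    unfold MT
    rw [tw_one, mul_one]
    have e2 : (2 * K / (9 * Real.sqrt 3) * Wt w 0 : ℝ) =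
        2 * K / (Real.sqrt 3 * nm (3 : Eis)) * Wt w 0 := by
      rw [nm_three]; push_cast; ring
    rw [e2]
    congr 1
    refine Finset.sum_congr rfl fun d hd => ?_
    rw [PE_sum ((mem_S h.hY).1 hd).2.1.ne_zero]
    congr 1
    exact Finset.sum_congr rfl fun e _ => by rw [mul_one]
  rw [e0, e1] at h1
  refine le_trans (le_of_eq ?_) h1
  congr 2
  split_ifs
  · ring
  · rfl

/-- **PAIR, nontrivial twist by an `S`-unit** -/
theorem PD.PR_sy (h : PD Y₀ Y g p q U V) (hY1 : 1 ≤ Y) {w : ℝ → ℝ} (hw : Wgt w) {R : ℝ}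
    {A B : ℕ} {C : ℝ} (hk : KT w R A B C) (hA : 1 < A) (hB : 1 < B) {s₀ : Eis} (h0 : s₀ ≠ 0)
    (hs : ∀ c, IsPrim c → IsCoprime s₀ c) (hc : ¬ ∃ t, s₀ = t ^ 3) {K : ℝ} (hK : 0 < K)
    {N N' : ℝ} (hN : 0 < N) (hN' : 0 < N')
    (hwU : Win U (Real.log N) R) (hwV : Win V (Real.log N') R) :
    ‖PR w K (sy s₀) (g * p) (g * q) U V‖ ≤
      2 * C * ∑ s ∈ pdiv g, MP A B (9 * s₀) (sy s₀) (K / nm s) (N * N') Y p q
        (tws s U) (tws s V) := by
  have h1 := h.PR_le hY1 hw hk hA hB (LC_sy h0 hs) hK hN hN' hwU hwV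
  have e1 : MT w K (9 * s₀) (sy s₀) Y U V = 0 := by
    unfold MT
    rw [tw_sy h0 hs hc, mul_zero, zero_mul]
  rw [e1, mul_zero, ite_self, sub_zero] at h1
  exact h1

end Crest.Agent.R017.E3P842
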