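import Crest.Agent.R017.E3H_548
import Crest.Agent.R017.E3P4_842
import Crest.Agent.R017.E3Mg_829

/-!
# Row 17, R8 (E3), outer assembly (helper548): the pair `PD` through 842's modes

* `Mc`, `pc`, `LC_pc` : the character `(c c'² / ·)`
* `PD_zero`, `PD_struct` : 842's structure for a pair `(y, y')`
* `PD_modes` : `‖PD‖ ≤ 2 C Σ_{s ∣ g₀} MP + [sm] C' Σ τ(mn) |U n V n|`
-/

set_option autoImplicit false
set_option linter.unusedVariables false
set_option maxHeartbeats 800000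

noncomputable section

open Finset
open scoped ComplexConjugate
open scoped Classical

namespace Crest.Agent.R017.E3F548

open Crest.Agent.R012 Crest.Agent.R012.Eis Crest.Agent.R012.Mob705 Crest.Agent.R012.Gauss880
open Crest.Agent.R012.LS2
open Crest.Agent.R017.CM106
open Crest.Agent.R017.PX764 Crest.Agent.R017.C70 Crest.Agent.R017.GrB829 Crest.Agent.R017.GrD829
open Crest.Agent.R017.E3s164 Crest.Agent.R017.E3A164
open Crest.Agent.R012.Div277 (tau)
open Crest.Agent.R012.MC (Wgt)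
open Crest.Agent.R017.E3M829 (TC)
open Crest.Agent.R017.StA828 (gp gp_spec gp_eq)
open Crest.Agent.R017.BD829 (LC LC_one LC_sy KT Win)
open Crest.Agent.R017.E3P842 (MP tws)

/-! ### the character of a pair -/

lemma cube_coord (t : Eis) : (t ^ 3).re = t.re ^ 3 + t.im ^ 3 - 3 * t.re * t.im ^ 2 ∧
    (t ^ 3).im = 3 * t.re ^ 2 * t.im - 3 * t.re * t.im ^ 2 := by
  have e : t ^ 3 = t * t * t := by ring
  rw [e]
  simp only [QuadraticAlgebra.re_mul, QuadraticAlgebra.im_mul]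
  constructor <;> ring

lemma coord27 {t : Eis} {k : ℕ} (h : t ^ 3 = 27 * w ^ k) (hk : k = 1 ∨ k = 2) : False := by
  have hn : nm t ^ 3 = 27 ^ 2 := by
    have h1 := congrArg nm h
    rw [nm_pow, nm_mul, nm_pow, nm_w, one_pow, mul_one] at h1
    rw [h1]
    decide
  have hn9 : nm t = 9 := by
    have : nm t ^ 3 = 9 ^ 3 := by rw [hn]; norm_num
    exact Nat.pow_left_injective (by norm_num : 3 ≠ 0) this
  have hq : t.re ^ 2 - t.re * t.im + t.im ^ 2 = 9 := by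
    have h2 := nm_cast t
    rw [hn9] at h2
    exact_mod_cast h2.symm
  have hb1 : t.re ≤ 3 := by nlinarith [sq_nonneg (t.re - 2 * t.im)]
  have hb2 : -3 ≤ t.re := by nlinarith [sq_nonneg (t.re - 2 * t.im)]
  have hb3 : t.im ≤ 3 := by nlinarith [sq_nonneg (t.im - 2 * t.re)]
  have hb4 : -3 ≤ t.im := by nlinarith [sq_nonneg (t.im - 2 * t.re)]
  obtain ⟨c1, c2⟩ := cube_coord t
  rw [h] at c1 c2
  have d1 : ((27 : Eis) * w ^ 1).re = 0 ∧ ((27 : Eis) * w ^ 1).im = 27 := by decide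
  have d2 : ((27 : Eis) * w ^ 2).re = -27 ∧ ((27 : Eis) * w ^ 2).im = -27 := by decide
  generalize t.re = a at *
  generalize t.im = b at *
  rcases hk with rfl | rfl
  · rw [d1.1] at c1
    rw [d1.2] at c2
    interval_cases a <;> interval_cases b <;> omega
  · rw [d2.1] at c1
    rw [d2.2] at c2
    interval_cases a <;> interval_cases b <;> omega

lemma not_cube {c c' : Eis} (hc : IsC c) (hc' : IsC c') (hne : c ≠ c') :
    ¬ ∃ t, c * c' ^ 2 = t ^ 3 := by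
  rintro ⟨t, ht⟩
  have w3 : w ^ 3 = 1 := w_cube
  have n81 : ∀ n : ℕ, n ^ 3 ≠ 81 := by
    intro n h
    have h1 : n ≤ 4 := by
      by_contra h2
      push Not at h2
      have : 5 ^ 3 ≤ n ^ 3 := Nat.pow_le_pow_left h2 3
      omega
    interval_cases n <;> omega
  have n9 : ∀ n : ℕ, n ^ 3 ≠ 9 := by
    intro n h
    have h1 : n ≤ 2 := by
      by_contra h2
      push Not at h2
      have : 3 ^ 3 ≤ n ^ 3 := Nat.pow_le_pow_left h2 3
      omega
    interval_cases n <;> omega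
  have hn := congrArg nm ht
  have e3 : nm (3 : Eis) = 9 := by decide
  rcases hc with rfl | rfl | rfl | rfl <;> rcases hc' with rfl | rfl | rfl | rfl
  · exact hne rfl
  · rw [nm_pow, nm_mul, nm_pow, nm_one, e3] at hn
    exact n81 _ (by rw [← hn]; norm_num)
  · rw [nm_pow, nm_mul, nm_pow, nm_one, nm_mul, e3, nm_w] at hn
    exact n81 _ (by rw [← hn]; norm_num)
  · rw [nm_pow, nm_mul, nm_pow, nm_one, nm_mul, nm_pow, e3, nm_w] at hn
    exact n81 _ (by rw [← hn]; norm_num)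
  · rw [nm_pow, nm_mul, nm_pow, nm_one, e3] at hn
    exact n9 _ (by rw [← hn]; norm_num)
  · exact hne rfl
  · exact coord27 (t := t) (k := 2) (by rw [← ht]; ring) (Or.inr rfl)
  · exact coord27 (t := t) (k := 1) (by rw [← ht]; linear_combination 27 * w * w3) (Or.inl rfl)
  · rw [nm_pow, nm_mul, nm_pow, nm_one, nm_mul, e3, nm_w] at hn
    exact n9 _ (by rw [← hn]; norm_num)
  · exact coord27 (t := t) (k := 1) (by rw [← ht]; ring) (Or.inl rfl)
  · exact hne rfl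
  · exact coord27 (t := t) (k := 2) (by rw [← ht]; linear_combination 27 * w ^ 2 * w3) (Or.inr rfl)
  · rw [nm_pow, nm_mul, nm_pow, nm_one, nm_mul, nm_pow, e3, nm_w] at hn
    exact n9 _ (by rw [← hn]; norm_num)
  · exact coord27 (t := t) (k := 2) (by rw [← ht]; ring) (Or.inr rfl)
  · exact coord27 (t := t) (k := 1) (by rw [← ht]; linear_combination 27 * w * w3) (Or.inl rfl)
  · exact hne rfl


/-- the modulus of the pair -/
def Mc (c c' : Eis) : Eis := if c = c' then 3 else 9 * (c * c' ^ 2)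

/-- the character of the pair -/
def pc (c c' : Eis) : Eis → ℂ := if c = c' then fun _ => 1 else sy (c * c' ^ 2)

lemma isC_ne {c : Eis} (hc : IsC c) : c ≠ 0 := by
  rcases hc with rfl | rfl | rfl | rfl
  · exact one_ne_zero
  · exact three_ne_zero'
  · exact mul_ne_zero three_ne_zero' isUnit_w.ne_zero
  · exact mul_ne_zero three_ne_zero' (pow_ne_zero 2 isUnit_w.ne_zero)

lemma LC_pc {c c' : Eis} (hc : IsC c) (hc' : IsC c') : LC (Mc c c') (pc c c') := by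
  unfold Mc pc
  split_ifs with h
  · exact LC_one
  · exact LC_sy (mul_ne_zero (isC_ne hc) (pow_ne_zero 2 (isC_ne hc')))
      fun k hk => (cop_c hc hk).mul_left ((cop_c hc' hk).pow_left)

lemma sy_ccc {c r : Eis} (hc : IsC c) (hr : IsPrim r) : sy (c * c ^ 2) r = 1 := by
  have e : c * c ^ 2 = c ^ 3 := by ring
  rw [e, E3A164.sy_cube_left hr, if_pos (cop_c hc hr)]

/-! ### the pair -/

variable {J : Finset (Eis × Eis)} {om : Eis × Eis → ℂ} {T : Eis → Eis → Eis → ℂ}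
  {w : ℝ → ℝ} {K B E0 R : ℝ} {q t M : Eis} {y y' : Yp}

lemma UU_ne {n : Eis} (h : UU J om T q M y n ≠ 0) : be J om T q y n ≠ 0 := left_ne_zero_of_mul h

/-- the support of `be` -/
lemma be_cop (hT : TC T) {n : Eis} (h : be J om T q y n ≠ 0) :
    IsPrim n ∧ Squarefree n ∧ IsCoprime n (y.1 * y.2.2.2) ∧ IsCoprime q y.1 ∧
      IsCoprime y.2.2.2 y.1 := by
  unfold be at h
  split_ifs at h with h1
  · have h2 := hT _ _ _ (by
      intro h0
      exact right_ne_zero_of_mul h (by rw [h0, map_zero]))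
    have h3 : IsCoprime (E3A164.fq q y.2.2.1 y.2.2.2 n) y.1 := h2.2.1
    unfold E3A164.fq at h3
    have h4 : IsCoprime (q * y.2.2.1 * n) y.1 := IsCoprime.of_mul_left_left h3
    have h5 : IsCoprime (y.2.2.2 ^ 2) y.1 := IsCoprime.of_mul_left_right h3
    have h6 : IsCoprime n y.1 := IsCoprime.of_mul_left_right h4
    have h7 : IsCoprime q y.1 := IsCoprime.of_mul_left_left (IsCoprime.of_mul_left_left h4)
    refine ⟨h1.1, h1.2.1, h6.mul_right h1.2.2.1, h7, ?_⟩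
    rw [pow_two] at h5
    exact IsCoprime.of_mul_left_left h5
  · exact absurd rfl h

/-- the gcd of the pair, and the two cofactors -/
def gg (y y' : Yp) : Eis := gp (y.1 * y.2.2.2) (y'.1 * y'.2.2.2)

def cf₁ (y y' : Yp) : Eis := y.1 * y.2.2.2 / gg y y'

def cf₂ (y y' : Yp) : Eis := y'.1 * y'.2.2.2 / gg y y'

lemma sqf_of_mul {a b : Eis} (h : Squarefree (a * b)) : Squarefree b :=
  h.of_mul_right

/-- **842's structure for a pair** -/
theorem PD_struct (hT : TC T) (hy : IsPrim y.1 ∧ Squarefree y.1 ∧ IsPrim y.2.2.2 ∧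
      Squarefree y.2.2.2) (hy' : IsPrim y'.1 ∧ Squarefree y'.1 ∧ IsPrim y'.2.2.2 ∧
      Squarefree y'.2.2.2) {Y₀ Y : ℝ} (hY0 : 0 ≤ Y₀)
    (hU : ∀ n, UU J om T q M y n ≠ 0 → (nm n : ℝ) ≤ Y₀)
    (hV : ∀ n, UU J om T q M y' n ≠ 0 → (nm n : ℝ) ≤ Y₀)
    (h1 : ∃ n, UU J om T q M y n ≠ 0) (h2 : ∃ n, UU J om T q M y' n ≠ 0)
    (hle : (nm (cf₁ y y') : ℝ) * nm (cf₂ y y') * Y₀ ≤ Y) :
    E3P842.PD Y₀ Y (gg y y') (cf₁ y y') (cf₂ y y') (UU J om T q M y) (UU J om T q M y') ∧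
      y.1 * y.2.2.2 = gg y y' * cf₁ y y' ∧ y'.1 * y'.2.2.2 = gg y y' * cf₂ y y' := by
  obtain ⟨n, hn⟩ := h1
  obtain ⟨n', hn'⟩ := h2
  obtain ⟨-, -, -, -, c1⟩ := be_cop hT (UU_ne hn)
  obtain ⟨-, -, -, -, c2⟩ := be_cop hT (UU_ne hn')
  have hm : IsPrim (y.1 * y.2.2.2) := hy.1.mul hy.2.2.1
  have hm' : IsPrim (y'.1 * y'.2.2.2) := hy'.1.mul hy'.2.2.1
  have hs : Squarefree (y.1 * y.2.2.2) := (sqf_mul c1.symm).2 ⟨hy.2.1, hy.2.2.2⟩
  have hs' : Squarefree (y'.1 * y'.2.2.2) := (sqf_mul c2.symm).2 ⟨hy'.2.1, hy'.2.2.2⟩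
  obtain ⟨g1, g2, g3, g4, g5⟩ := gp_spec (y.1 * y.2.2.2) hm'
  have e1 : y.1 * y.2.2.2 = gg y y' * cf₁ y y' := g3
  have e2 : y'.1 * y'.2.2.2 = gg y y' * cf₂ y y' := g4
  have p1 : IsPrim (cf₁ y y') := IsPrim.of_mul_left (e1 ▸ hm) g1
  refine ⟨⟨hY0, g1, p1, g2, ?_, ?_, g5, ?_, ?_, ?_, ?_, ?_, ?_, hle⟩, e1, e2⟩
  · rw [e1] at hs; exact hs.of_mul_right
  · rw [e2] at hs'; exact hs'.of_mul_right
  · intro n hn
    obtain ⟨a1, a2, -⟩ := be_cop hT (UU_ne hn)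
    exact (mem_S hY0).2 ⟨hU n hn, a1, a2⟩
  · intro n hn
    obtain ⟨a1, a2, -⟩ := be_cop hT (UU_ne hn)
    exact (mem_S hY0).2 ⟨hV n hn, a1, a2⟩
  · intro n hn
    obtain ⟨a1, a2, a3, -⟩ := be_cop hT (UU_ne hn)
    rw [e1] at a3
    exact IsCoprime.of_mul_right_left a3
  · intro n hn
    obtain ⟨a1, a2, a3, -⟩ := be_cop hT (UU_ne hn)
    rw [e2] at a3
    exact IsCoprime.of_mul_right_left a3
  · intro n hn
    obtain ⟨a1, a2, a3, -⟩ := be_cop hT (UU_ne hn)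
    rw [e1] at a3
    exact IsCoprime.of_mul_right_right a3
  · intro n hn
    obtain ⟨a1, a2, a3, -⟩ := be_cop hT (UU_ne hn)
    rw [e2] at a3
    exact IsCoprime.of_mul_right_right a3

lemma PR_zero {ψ : Eis → ℂ} {m m' : Eis} {U V : Eis → ℂ} (h : (∀ n, U n = 0) ∨ ∀ n, V n = 0) :
    PR w K ψ m m' U V = 0 := by
  unfold PR CS
  rcases h with h | h <;> simp [h]

lemma DR_zero {ψ : Eis → ℂ} {m m' : Eis} {U V : Eis → ℂ} (h : (∀ n, U n = 0) ∨ ∀ n, V n = 0) :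
    DR w K R ψ m m' U V = 0 := by
  unfold DR
  rcases h with h | h <;> simp [h]

lemma PD_zero (h : (∀ n, UU J om T q M y n = 0) ∨ ∀ n, UU J om T q M y' n = 0) :
    PD w K J om T R q t M y y' = 0 := by
  unfold PD
  rw [PR_zero h, DR_zero h]
  simp

lemma PR_eq_842 {c c' : Eis} (hc : IsC c) (m m' : Eis) (U V : Eis → ℂ) :
    PR w K (sy (c * c' ^ 2)) m m' U V = E3P842.PR w K (pc c c') m m' U V := by
  unfold PR E3P842.PR pc
  split_ifs with h
  · subst h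
    refine tsum_congr fun r => ?_
    split_ifs with hr
    · rw [sy_ccc hc hr]
    · rfl
  · rfl

/-- the gcd is everything iff the data agree -/
lemma sm_iff (hy : IsPrim y.1 ∧ IsPrim y.2.2.2) (hy' : IsPrim y'.1 ∧ IsPrim y'.2.2.2)
    (hc : y.2.2.1 = y'.2.2.1) (hM : IsPrim M) (hg : y.2.2.2 ∣ M) (hg' : y'.2.2.2 ∣ M)
    (hcop : Cop M y y') : (cf₁ y y' = 1 ∧ cf₂ y y' = 1) ↔ sm y y' := by
  have hm : IsPrim (y.1 * y.2.2.2) := hy.1.mul hy.2
  have hm' : IsPrim (y'.1 * y'.2.2.2) := hy'.1.mul hy'.2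
  obtain ⟨g1, g2, g3, g4, g5⟩ := gp_spec (y.1 * y.2.2.2) hm'
  constructor
  · rintro ⟨h1, h2⟩
    have e1 : y.1 * y.2.2.2 = gg y y' * cf₁ y y' := g3
    have e2 : y'.1 * y'.2.2.2 = gg y y' * cf₂ y y' := g4
    rw [h1, mul_one] at e1
    rw [h2, mul_one] at e2
    have e3 : y.1 * y.2.2.2 = y'.1 * y'.2.2.2 := e1.trans e2.symm
    obtain ⟨k1, k2⟩ := hcop
    have m1 := qu_spec hg
    have m2 := qu_spec hg'
    have d1 : y'.2.2.2 ∣ y.2.2.2 := by
      have : y'.2.2.2 ∣ y.2.2.2 * qu M y.2.2.2 := by rw [← m1]; exact hg'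
      refine IsCoprime.dvd_of_dvd_mul_right ?_ this
      rw [e3] at k1
      exact (IsCoprime.of_mul_right_right k1).symm
    have d2 : y.2.2.2 ∣ y'.2.2.2 := by
      have : y.2.2.2 ∣ y'.2.2.2 * qu M y'.2.2.2 := by rw [← m2]; exact hg
      refine IsCoprime.dvd_of_dvd_mul_right ?_ this
      rw [← e3] at k2
      exact (IsCoprime.of_mul_right_right k2).symm
    have e4 : y.2.2.2 = y'.2.2.2 := by
      obtain ⟨a, ha⟩ := d1
      obtain ⟨b, hb⟩ := d2
      have ha' : IsPrim a := IsPrim.of_mul_left (ha ▸ hy.2) hy'.2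
      have hu : IsUnit a := by
        rw [ha] at hb
        have : y'.2.2.2 * 1 = y'.2.2.2 * (a * b) := by rw [mul_one, ← mul_assoc]; exact hb
        exact IsUnit.of_mul_eq_one _ (mul_left_cancel₀ hy'.2.ne_zero this).symm
      rw [ha, K695.prim_eq_one_of_isUnit ha' hu, mul_one]
    have e5 : y.1 = y'.1 := by
      rw [e4] at e3
      exact mul_right_cancel₀ hy'.2.ne_zero e3
    refine ⟨e5, ?_⟩
    exact Prod.ext hc e4
  · rintro ⟨h1, h2⟩
    have e3 : y.1 * y.2.2.2 = y'.1 * y'.2.2.2 := by rw [h1, h2]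
    have hg0 : gg y y' = y'.1 * y'.2.2.2 := by
      unfold gg
      exact gp_eq hm' hm' (l₁ := 1) (u₁ := 1) (by rw [mul_one]; exact e3) (by rw [mul_one])
        isCoprime_one_left
    unfold cf₁ cf₂
    rw [hg0, e3]
    exact ⟨EuclideanDomain.div_self hm'.ne_zero, EuclideanDomain.div_self hm'.ne_zero⟩

lemma MP_nonneg (A Bw : ℕ) (M₀ : Eis) (ψ : Eis → ℂ) {K NN : ℝ} (hK : 0 ≤ K) (hN : 0 ≤ NN) (Y : ℝ)
    (p q : Eis) (U V : Eis → ℂ) : 0 ≤ MP A Bw M₀ ψ K NN Y p q U V := by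
  unfold MP
  refine sum_nonneg fun a _ => sum_nonneg fun b _ => ?_
  refine mul_nonneg (by positivity) (sum_nonneg fun D _ => sum_nonneg fun E _ => ?_)
  refine mul_nonneg (by positivity) ?_
  unfold E3P842.ModeP
  refine tsum_nonneg fun h' => ?_
  split_ifs
  · exact le_rfl
  · refine mul_nonneg (BD829.WB_nonneg hK (by positivity) (by norm_num) Bw D E h')
      (Finset.sum_nonneg fun F _ => ?_)
    split_ifs
    · exact E3P842.EP_nonneg _ _ _ _ _
    · exact le_rfl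

/-- **the pair: modes and diagonal error** -/
theorem PD_modes (hw : Wgt (w3 w)) {Rw : ℝ} {A Bw : ℕ} {C : ℝ} (hk : KT (w3 w) Rw A Bw C)
    (hA : 1 < A) (hB : 1 < Bw) : ∃ C' : ℝ, 0 ≤ C' ∧ ∀ (J : Finset (Eis × Eis))
    (om : Eis × Eis → ℂ) (T : Eis → Eis → Eis → ℂ), TC T → ∀ (K R : ℝ), 0 < K →
    (∀ x ∈ J, (nm x.2 : ℝ) ≤ R) → ∀ (q t M : Eis), IsPrim q → IsPrim t → IsPrim M →
    ∀ (y y' : Yp), (IsPrim y.1 ∧ Squarefree y.1 ∧ IsPrim y.2.2.2 ∧ Squarefree y.2.2.2) →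
    (IsPrim y'.1 ∧ Squarefree y'.1 ∧ IsPrim y'.2.2.2 ∧ Squarefree y'.2.2.2) →
    IsC y.2.2.1 → IsC y'.2.2.1 → y.2.2.2 ∣ M → y'.2.2.2 ∣ M → Cop M y y' →
    ∀ (Y₀ Y N N' : ℝ), 0 ≤ Y₀ → 1 ≤ Y → 0 < N → 0 < N' →
    (∀ n, UU J om T q M y n ≠ 0 → (nm n : ℝ) ≤ Y₀) →
    (∀ n, UU J om T q M y' n ≠ 0 → (nm n : ℝ) ≤ Y₀) →
    Win (UU J om T q M y) (Real.log N) Rw → Win (UU J om T q M y') (Real.log N') Rw →
    (nm (cf₁ y y') : ℝ) * nm (cf₂ y y') * Y₀ ≤ Y →
    ‖PD w K J om T R q t M y y'‖ ≤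
      2 * C * (∑ s ∈ pdiv (gg y y'), MP A Bw (Mc y.2.2.1 y'.2.2.1) (pc y.2.2.1 y'.2.2.1)
        (Kr K q t M / nm s) (N * N') Y (cf₁ y y') (cf₂ y y')
        (tws s (UU J om T q M y)) (tws s (UU J om T q M y'))) +
      if sm y y' then C' * ∑ n ∈ S R, (tau (y.1 * y.2.2.2 * n) : ℝ) *
        (‖UU J om T q M y n‖ * ‖UU J om T q M y' n‖) else 0 := by
  obtain ⟨C', hC', hD⟩ := DR_main hw
  refine ⟨C', hC', fun J om T hT K R hK hR q t M hq ht hM y y' hy hy' hc hc' hg hg' hcop Y₀ Y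
    N N' hY0 hY1 hN hN' hU hV hwU hwV hle => ?_⟩
  have hC := hk.1
  have hKr : 0 < Kr K q t M := by
    unfold Kr
    have n1 := nm_pos' hq
    have n2 := nm_pos' ht
    have n3 := nm_pos' hM
    positivity
  have hE0 : 0 ≤ if sm y y' then C' * ∑ n ∈ S R, (tau (y.1 * y.2.2.2 * n) : ℝ) *
        (‖UU J om T q M y n‖ * ‖UU J om T q M y' n‖) else 0 := by
    split_ifs
    · positivity
    · exact le_rfl
  have hM0 : 0 ≤ ∑ s ∈ pdiv (gg y y'), MP A Bw (Mc y.2.2.1 y'.2.2.1) (pc y.2.2.1 y'.2.2.1)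
        (Kr K q t M / nm s) (N * N') Y (cf₁ y y') (cf₂ y y')
        (tws s (UU J om T q M y)) (tws s (UU J om T q M y')) :=
    sum_nonneg fun s _ => MP_nonneg _ _ _ _ (by positivity) (by positivity) _ _ _ _ _
  by_cases h1 : ∃ n, UU J om T q M y n ≠ 0
  swap
  · push Not at h1
    rw [PD_zero (Or.inl h1), norm_zero]
    exact add_nonneg (mul_nonneg (mul_nonneg zero_le_two hC) hM0) hE0
  by_cases h2 : ∃ n, UU J om T q M y' n ≠ 0
  swap
  · push Not at h2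
    rw [PD_zero (Or.inr h2), norm_zero]
    exact add_nonneg (mul_nonneg (mul_nonneg zero_le_two hC) hM0) hE0
  obtain ⟨hPD, e1, e2⟩ := PD_struct (M := M) hT hy hy' hY0 hU hV h1 h2 hle
  have hcm : y.2.2.1 = y'.2.2.1 → ((cf₁ y y' = 1 ∧ cf₂ y y' = 1) ↔ sm y y') := fun h =>
    sm_iff ⟨hy.1, hy.2.2.1⟩ ⟨hy'.1, hy'.2.2.1⟩ h hM hg hg' hcop
  have ePR : PR (w3 w) (Kr K q t M) (sy (y.2.2.1 * y'.2.2.1 ^ 2)) (y.1 * y.2.2.2) (y'.1 * y'.2.2.2)
      (UU J om T q M y) (UU J om T q M y') = E3P842.PR (w3 w) (Kr K q t M)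
        (pc y.2.2.1 y'.2.2.1) (gg y y' * cf₁ y y') (gg y y' * cf₂ y y')
        (UU J om T q M y) (UU J om T q M y') := by
    rw [PR_eq_842 hc, e1, e2]
  by_cases hcc : y.2.2.1 = y'.2.2.1
  · have eM : Mc y.2.2.1 y'.2.2.1 = 3 := by unfold Mc; rw [if_pos hcc]
    have eP : pc y.2.2.1 y'.2.2.1 = fun _ => 1 := by unfold pc; rw [if_pos hcc]
    rw [eP] at ePR
    have hone := hPD.PR_one hY1 hw hk hA hB hKr hN hN' hwU hwV
    rw [← ePR] at hone
    rw [eM, eP]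
    by_cases hsm : sm y y'
    · have hpq := (hcm hcc).mpr hsm
      rw [if_pos hpq] at hone
      have hg0 : gg y y' = y.1 * y.2.2.2 := by rw [e1, hpq.1, mul_one]
      have hm' : y'.1 * y'.2.2.2 = y.1 * y.2.2.2 := by rw [hsm.1, hsm.2]
      have hpsi : ∀ r, IsPrim r → sy (y.2.2.1 * y'.2.2.1 ^ 2) r = 1 := by
        intro r hr
        rw [← hcc]
        exact sy_ccc hc hr
      have hDm := hD (Kr K q t M) R hKr (sy (y.2.2.1 * y'.2.2.1 ^ 2)) hpsi (y.1 * y.2.2.2)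
        (hy.1.mul hy.2.2.1) (UU J om T q M y) (UU J om T q M y')
        (fun n hn => (be_cop hT (UU_ne hn)).2.2.1)
      rw [if_pos hsm]
      unfold PD
      rw [if_pos hsm, hm', hg0]
      rw [hm', hg0] at hone
      have hYS : ∀ n, UU J om T q M y n ≠ 0 → n ∈ S Y := by
        intro n hn
        have h3 := (mem_S hY0).1 (hPD.hU n hn)
        refine (mem_S (by linarith)).2 ⟨h3.1.trans ?_, h3.2⟩
        refine le_trans ?_ hle
        rw [hpq.1, hpq.2, nm_one]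
        norm_num
      have hRS : ∀ n, UU J om T q M y n ≠ 0 → n ∈ S R := by
        intro n hn
        exact be_mem_S hR hq.ne_zero (isC_ne hc) hy.2.2.1.ne_zero (UU_ne hn)
      have esum : ∑ d ∈ S Y, (PE d : ℂ) * (UU J om T q M y d * conj (UU J om T q M y' d)) =
          ∑ n ∈ S R, (PE n : ℂ) * (UU J om T q M y n * conj (UU J om T q M y' n)) := by
        rw [← sum_filter_ne_zero (s := S Y), ← sum_filter_ne_zero (s := S R)]
        refine sum_congr ?_ fun _ _ => rfl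
        ext n
        simp only [mem_filter]
        constructor
        · rintro ⟨-, h⟩
          exact ⟨hRS n (left_ne_zero_of_mul (right_ne_zero_of_mul h)), h⟩
        · rintro ⟨-, h⟩
          exact ⟨hYS n (left_ne_zero_of_mul (right_ne_zero_of_mul h)), h⟩
      rw [esum] at hone
      have h5 := norm_sub_le_norm_sub_add_norm_sub
        (PR (w3 w) (Kr K q t M) (sy (y.2.2.1 * y'.2.2.1 ^ 2)) (y.1 * y.2.2.2) (y.1 * y.2.2.2)
          (UU J om T q M y) (UU J om T q M y'))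
        (((2 * Kr K q t M / (9 * Real.sqrt 3) * MC.Wt (w3 w) 0 : ℝ) : ℂ) *
          ((PE (y.1 * y.2.2.2) : ℂ) * ∑ n ∈ S R, (PE n : ℂ) *
            (UU J om T q M y n * conj (UU J om T q M y' n))))
        (DR (w3 w) (Kr K q t M) R (sy (y.2.2.1 * y'.2.2.1 ^ 2)) (y.1 * y.2.2.2) (y.1 * y.2.2.2)
          (UU J om T q M y) (UU J om T q M y'))
      exact h5.trans (add_le_add hone (by rw [norm_sub_rev]; exact hDm))
    · have hpq : ¬ (cf₁ y y' = 1 ∧ cf₂ y y' = 1) := fun h => hsm ((hcm hcc).mp h)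
      rw [if_neg hpq, sub_zero] at hone
      rw [if_neg hsm, add_zero]
      unfold PD
      rw [if_neg hsm, sub_zero]
      exact hone
  · have hsm : ¬ sm y y' := fun h => hcc (by rw [h.2])
    have eM : Mc y.2.2.1 y'.2.2.1 = 9 * (y.2.2.1 * y'.2.2.1 ^ 2) := by unfold Mc; rw [if_neg hcc]
    have eP : pc y.2.2.1 y'.2.2.1 = sy (y.2.2.1 * y'.2.2.1 ^ 2) := by unfold pc; rw [if_neg hcc]
    rw [if_neg hsm, add_zero]
    rw [eP] at ePR
    unfold PD
    rw [if_neg hsm, sub_zero, eM, eP, ePR]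
    exact hPD.PR_sy hY1 hw hk hA hB (mul_ne_zero (isC_ne hc) (pow_ne_zero 2 (isC_ne hc')))
      (fun k hk => (cop_c hc hk).mul_left ((cop_c hc' hk).pow_left)) (not_cube hc hc' hcc)
      hKr hN hN' hwU hwV

end Crest.Agent.R017.E3F548
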