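import Crest.Agent.R017.E3I_548
import Crest.Agent.R017.E3J_548
import Crest.Agent.R017.E3Mj_829
import Crest.Agent.R012.Rho_777

/-!
# Row 17, R8 (E3), outer assembly (helper548): the off-diagonal part = sum of 842's mode sums

* `PR_modes` : one pair of sequences
* `PR_sum`, `UU_sum` : the decomposition into levels
* `Nq`, `MP1`, `MPT` : the mode total at `(q, t)` for a pair of levels
* `PD_levels`, `OP_le`, `OFF_le` : the sum over `(q, t)`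
-/

set_option autoImplicit false
set_option linter.unusedVariables false
set_option maxHeartbeats 800000

noncomputable section

open Finset
open scoped ComplexConjugate
open scoped Classical

namespace Crest.Agent.R017.E3F548

open Crest.Agent.R012 Crest.Agent.R012.Eis Crest.Agent.R012.Mob705 Crest.Agent.R012.Gauss880
open Crest.Agent.R012.LS2
open Crest.Agent.R017.CM106
open Crest.Agent.R017.PX764 Crest.Agent.R017.C70 Crest.Agent.R017.GrB829 Crest.Agent.R017.GrD829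
open Crest.Agent.R017.E3s164 Crest.Agent.R017.E3A164
open Crest.Agent.R012.Div277 (tau)
open Crest.Agent.R012.MC (Wgt)
open Crest.Agent.R017.E3M829 (TC)
open Crest.Agent.R017.BD829 (KT Win exists_KT)
open Crest.Agent.R017.E3P842 (MP tws)
open Crest.Agent.R017.StA828 (gp_spec)

lemma wgt_w3 {w : ℝ → ℝ} (hw : Wgt w) : Wgt (w3 w) := by
  have := Rho777.wgt_mul_rpow hw (-(1 : ℝ) / 3)
  exact this

/-! ### one pair of sequences -/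

/-- the support condition of a sequence attached to `y` -/
def SU (y : Yp) (R : ℝ) (U : Eis → ℂ) : Prop :=
  ∀ n, U n ≠ 0 → IsPrim n ∧ Squarefree n ∧ IsCoprime n (y.1 * y.2.2.2) ∧
    IsCoprime y.2.2.2 y.1 ∧ (nm n : ℝ) ≤ R

/-- the main term of a pair -/
def mT (w : ℝ → ℝ) (Kq R : ℝ) (m : Eis) (U V : Eis → ℂ) : ℂ :=
  ((2 * Kq / (9 * Real.sqrt 3) * MC.Wt (w3 w) 0 : ℝ) : ℂ) *
    ((PE m : ℂ) * ∑ n ∈ S R, (PE n : ℂ) * (U n * conj (V n)))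

section

variable {J : Finset (Eis × Eis)} {om : Eis × Eis → ℂ} {T : Eis → Eis → Eis → ℂ} {q t M : Eis}
  {R E0 K B E1 b₀ X Z : ℝ} {w : ℝ → ℝ} {y y' : Yp}

lemma SU_UU (hT : TC T) (hR : ∀ x ∈ J, (nm x.2 : ℝ) ≤ R) (hR0 : 0 ≤ R) (hq : IsPrim q)
    (hc : IsC y.2.2.1) (hg : IsPrim y.2.2.2) (M : Eis) : SU y R (UU J om T q M y) := by
  intro n hn
  obtain ⟨h1, h2, h3, h4, h5⟩ := be_cop hT (UU_ne hn)
  exact ⟨h1, h2, h3, h5, ((mem_S hR0).1 (be_mem_S hR hq.ne_zero (isC_ne hc) hg.ne_zero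
    (UU_ne hn))).1⟩

/-- **842's structure for a pair of sequences** -/
theorem SU_PD (hy : IsPrim y.1 ∧ Squarefree y.1 ∧ IsPrim y.2.2.2 ∧ Squarefree y.2.2.2)
    (hy' : IsPrim y'.1 ∧ Squarefree y'.1 ∧ IsPrim y'.2.2.2 ∧ Squarefree y'.2.2.2)
    {Y : ℝ} (hR0 : 0 ≤ R) {U V : Eis → ℂ} (hU : SU y R U) (hV : SU y' R V)
    (h1 : ∃ n, U n ≠ 0) (h2 : ∃ n, V n ≠ 0)
    (hle : (nm (cf₁ y y') : ℝ) * nm (cf₂ y y') * R ≤ Y) :
    E3P842.PD R Y (gg y y') (cf₁ y y') (cf₂ y y') U V ∧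
      y.1 * y.2.2.2 = gg y y' * cf₁ y y' ∧ y'.1 * y'.2.2.2 = gg y y' * cf₂ y y' := by
  obtain ⟨n, hn⟩ := h1
  obtain ⟨n', hn'⟩ := h2
  obtain ⟨-, -, -, c1, -⟩ := hU n hn
  obtain ⟨-, -, -, c2, -⟩ := hV n' hn'
  have hm : IsPrim (y.1 * y.2.2.2) := hy.1.mul hy.2.2.1
  have hm' : IsPrim (y'.1 * y'.2.2.2) := hy'.1.mul hy'.2.2.1
  have hs : Squarefree (y.1 * y.2.2.2) := (sqf_mul c1.symm).2 ⟨hy.2.1, hy.2.2.2⟩
  have hs' : Squarefree (y'.1 * y'.2.2.2) := (sqf_mul c2.symm).2 ⟨hy'.2.1, hy'.2.2.2⟩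
  obtain ⟨g1, g2, g3, g4, g5⟩ := gp_spec (y.1 * y.2.2.2) hm'
  have e1 : y.1 * y.2.2.2 = gg y y' * cf₁ y y' := g3
  have e2 : y'.1 * y'.2.2.2 = gg y y' * cf₂ y y' := g4
  have p1 : IsPrim (cf₁ y y') := IsPrim.of_mul_left (e1 ▸ hm) g1
  refine ⟨⟨hR0, g1, p1, g2, ?_, ?_, g5, ?_, ?_, ?_, ?_, ?_, ?_, hle⟩, e1, e2⟩
  · rw [e1] at hs; exact hs.of_mul_right
  · rw [e2] at hs'; exact hs'.of_mul_right
  · intro n hn
    obtain ⟨a1, a2, -, -, a5⟩ := hU n hn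
    exact (mem_S hR0).2 ⟨a5, a1, a2⟩
  · intro n hn
    obtain ⟨a1, a2, -, -, a5⟩ := hV n hn
    exact (mem_S hR0).2 ⟨a5, a1, a2⟩
  · intro n hn
    obtain ⟨a1, a2, a3, -⟩ := hU n hn
    rw [e1] at a3
    exact IsCoprime.of_mul_right_left a3
  · intro n hn
    obtain ⟨a1, a2, a3, -⟩ := hV n hn
    rw [e2] at a3
    exact IsCoprime.of_mul_right_left a3
  · intro n hn
    obtain ⟨a1, a2, a3, -⟩ := hU n hn
    rw [e1] at a3
    exact IsCoprime.of_mul_right_right a3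
  · intro n hn
    obtain ⟨a1, a2, a3, -⟩ := hV n hn
    rw [e2] at a3
    exact IsCoprime.of_mul_right_right a3

lemma mT_zero {m : Eis} {U V : Eis → ℂ} {Kq : ℝ} (h : (∀ n, U n = 0) ∨ ∀ n, V n = 0) :
    mT w Kq R m U V = 0 := by
  unfold mT
  rcases h with h | h <;> simp [h]

/-- **one pair of sequences** -/
theorem PR_modes (hw : Wgt (w3 w)) {Rw : ℝ} {A Bw : ℕ} {C : ℝ} (hk : KT (w3 w) Rw A Bw C)
    (hA : 1 < A) (hB : 1 < Bw) {Kq Y N N' : ℝ} (hK : 0 < Kq) (hR0 : 0 ≤ R) (hM : IsPrim M)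
    (hy : IsPrim y.1 ∧ Squarefree y.1 ∧ IsPrim y.2.2.2 ∧ Squarefree y.2.2.2)
    (hy' : IsPrim y'.1 ∧ Squarefree y'.1 ∧ IsPrim y'.2.2.2 ∧ Squarefree y'.2.2.2)
    (hc : IsC y.2.2.1) (hc' : IsC y'.2.2.1) (hg : y.2.2.2 ∣ M) (hg' : y'.2.2.2 ∣ M)
    (hcop : Cop M y y') (hY1 : 1 ≤ Y) (hN : 0 < N) (hN' : 0 < N') {U V : Eis → ℂ}
    (hU : SU y R U) (hV : SU y' R V) (hwU : Win U (Real.log N) Rw) (hwV : Win V (Real.log N') Rw)
    (hle : (nm (cf₁ y y') : ℝ) * nm (cf₂ y y') * R ≤ Y) :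
    ‖PR (w3 w) Kq (sy (y.2.2.1 * y'.2.2.1 ^ 2)) (y.1 * y.2.2.2) (y'.1 * y'.2.2.2) U V -
      (if sm y y' then mT w Kq R (y.1 * y.2.2.2) U V else 0)‖ ≤
      2 * C * ∑ s ∈ pdiv (gg y y'), MP A Bw (Mc y.2.2.1 y'.2.2.1) (pc y.2.2.1 y'.2.2.1)
        (Kq / nm s) (N * N') Y (cf₁ y y') (cf₂ y y') (tws s U) (tws s V) := by
  have hC := hk.1
  have hM0 : 0 ≤ ∑ s ∈ pdiv (gg y y'), MP A Bw (Mc y.2.2.1 y'.2.2.1) (pc y.2.2.1 y'.2.2.1)
        (Kq / nm s) (N * N') Y (cf₁ y y') (cf₂ y y') (tws s U) (tws s V) :=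
    sum_nonneg fun s _ => MP_nonneg _ _ _ _ (by positivity) (by positivity) _ _ _ _ _
  by_cases h1 : ∃ n, U n ≠ 0
  swap
  · push Not at h1
    rw [PR_zero (Or.inl h1), mT_zero (Or.inl h1), ite_self, sub_zero, norm_zero]
    exact mul_nonneg (mul_nonneg zero_le_two hC) hM0
  by_cases h2 : ∃ n, V n ≠ 0
  swap
  · push Not at h2
    rw [PR_zero (Or.inr h2), mT_zero (Or.inr h2), ite_self, sub_zero, norm_zero]
    exact mul_nonneg (mul_nonneg zero_le_two hC) hM0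
  obtain ⟨hPD, e1, e2⟩ := SU_PD hy hy' hR0 hU hV h1 h2 hle
  have hcm : y.2.2.1 = y'.2.2.1 → ((cf₁ y y' = 1 ∧ cf₂ y y' = 1) ↔ sm y y') := fun h =>
    sm_iff ⟨hy.1, hy.2.2.1⟩ ⟨hy'.1, hy'.2.2.1⟩ h hM hg hg' hcop
  have ePR : PR (w3 w) Kq (sy (y.2.2.1 * y'.2.2.1 ^ 2)) (y.1 * y.2.2.2) (y'.1 * y'.2.2.2)
      U V = E3P842.PR (w3 w) Kq
        (pc y.2.2.1 y'.2.2.1) (gg y y' * cf₁ y y') (gg y y' * cf₂ y y') U V := by
    rw [PR_eq_842 hc, e1, e2]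
  by_cases hcc : y.2.2.1 = y'.2.2.1
  · have eM : Mc y.2.2.1 y'.2.2.1 = 3 := by unfold Mc; rw [if_pos hcc]
    have eP : pc y.2.2.1 y'.2.2.1 = fun _ => 1 := by unfold pc; rw [if_pos hcc]
    rw [eP] at ePR
    have hone := hPD.PR_one hY1 hw hk hA hB hK hN hN' hwU hwV
    rw [← ePR] at hone
    rw [eM, eP]
    by_cases hsm : sm y y'
    · have hpq := (hcm hcc).mpr hsm
      rw [if_pos hpq] at hone
      have hg0 : gg y y' = y.1 * y.2.2.2 := by rw [e1, hpq.1, mul_one]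
      rw [if_pos hsm]
      have hYS : ∀ n, U n ≠ 0 → n ∈ S Y := by
        intro n hn
        obtain ⟨a1, a2, -, -, a5⟩ := hU n hn
        refine (mem_S (by linarith)).2 ⟨a5.trans ?_, a1, a2⟩
        refine le_trans ?_ hle
        rw [hpq.1, hpq.2, nm_one]
        norm_num
      have hRS : ∀ n, U n ≠ 0 → n ∈ S R := by
        intro n hn
        obtain ⟨a1, a2, -, -, a5⟩ := hU n hn
        exact (mem_S hR0).2 ⟨a5, a1, a2⟩
      have esum : ∑ d ∈ S Y, (PE d : ℂ) * (U d * conj (V d)) =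
          ∑ n ∈ S R, (PE n : ℂ) * (U n * conj (V n)) := by
        rw [← sum_filter_ne_zero (s := S Y), ← sum_filter_ne_zero (s := S R)]
        refine sum_congr ?_ fun _ _ => rfl
        ext n
        simp only [mem_filter]
        constructor
        · rintro ⟨-, h⟩
          exact ⟨hRS n (left_ne_zero_of_mul (right_ne_zero_of_mul h)), h⟩
        · rintro ⟨-, h⟩
          exact ⟨hYS n (left_ne_zero_of_mul (right_ne_zero_of_mul h)), h⟩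
      rw [esum] at hone
      unfold mT
      rw [← hg0]
      rw [← hg0] at hone
      exact hone
    · have hpq : ¬ (cf₁ y y' = 1 ∧ cf₂ y y' = 1) := fun h => hsm ((hcm hcc).mp h)
      rw [if_neg hpq, sub_zero] at hone
      rw [if_neg hsm, sub_zero]
      exact hone
  · have hsm : ¬ sm y y' := fun h => hcc (by rw [h.2])
    have eM : Mc y.2.2.1 y'.2.2.1 = 9 * (y.2.2.1 * y'.2.2.1 ^ 2) := by unfold Mc; rw [if_neg hcc]
    have eP : pc y.2.2.1 y'.2.2.1 = sy (y.2.2.1 * y'.2.2.1 ^ 2) := by unfold pc; rw [if_neg hcc]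
    rw [if_neg hsm, sub_zero]
    rw [eP] at ePR
    rw [eM, eP, ePR]
    exact hPD.PR_sy hY1 hw hk hA hB (mul_ne_zero (isC_ne hc) (pow_ne_zero 2 (isC_ne hc')))
      (fun k hk => (cop_c hc hk).mul_left ((cop_c hc' hk).pow_left)) (not_cube hc hc' hcc)
      hK hN hN' hwU hwV

/-! ### levels -/

section levels

variable {ι : Type*} {I I' : Finset ι}

lemma CS_sum {U : ι → Eis → ℂ} (hR0 : 0 ≤ R) (hU : ∀ i ∈ I, ∀ n, U i n ≠ 0 → n ∈ S R) (r : Eis) :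
    CS (fun n => ∑ i ∈ I, U i n) r = ∑ i ∈ I, CS (U i) r := by
  have h1 : ∀ n, (fun n => ∑ i ∈ I, U i n) n ≠ 0 → n ∈ S R := by
    intro n hn
    obtain ⟨i, hi, hi'⟩ := exists_ne_zero_of_sum_ne_zero hn
    exact hU i hi n hi'
  rw [E1551.CS_fin h1, sum_congr rfl fun i hi => E1551.CS_fin (hU i hi) r, sum_comm]
  exact sum_congr rfl fun n _ => by rw [sum_mul]

lemma PR_sum (hw : Wgt (w3 w)) {Kq : ℝ} (hK : 0 < Kq) (hR0 : 0 ≤ R) {U V : ι → Eis → ℂ}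
    (hU : ∀ i ∈ I, ∀ n, U i n ≠ 0 → n ∈ S R) (hV : ∀ i ∈ I', ∀ n, V i n ≠ 0 → n ∈ S R)
    (ψ : Eis → ℂ) (m m' : Eis) :
    PR (w3 w) Kq ψ m m' (fun n => ∑ i ∈ I, U i n) (fun n => ∑ i ∈ I', V i n) =
      ∑ i ∈ I, ∑ j ∈ I', PR (w3 w) Kq ψ m m' (U i) (V j) := by
  obtain ⟨c1, c2, h1, h2, h⟩ := hw.exists_bounds
  set N : ℕ := ⌊c2 * Kq⌋₊
  have hN : ∀ r : Eis, r ∉ ball N → w3 w (nm r / Kq) = 0 := by
    intro r hr
    by_contra hne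
    apply hr
    rw [mem_ball]
    refine Nat.le_floor ?_
    have := (h _ hne).2
    rwa [div_le_iff₀ hK] at this
  have e0 : ∀ U V : Eis → ℂ, PR (w3 w) Kq ψ m m' U V = ∑ r ∈ ball N,
      (if IsPrim r then ψ r * ((conj (sy r m) * CS U r) *
        conj (conj (sy r m') * CS V r)) else 0) * ((w3 w (nm r / Kq) : ℝ) : ℂ) := by
    intro U V
    unfold PR
    exact tsum_eq_sum fun r hr => by rw [hN r hr]; simp
  simp only [e0]
  have e1 : ∀ r ∈ ball N, (if IsPrim r then ψ r * ((conj (sy r m) *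
        CS (fun n => ∑ i ∈ I, U i n) r) *
        conj (conj (sy r m') * CS (fun n => ∑ i ∈ I', V i n) r)) else 0) *
          ((w3 w (nm r / Kq) : ℝ) : ℂ) = ∑ i ∈ I, ∑ j ∈ I',
      (if IsPrim r then ψ r * ((conj (sy r m) * CS (U i) r) *
        conj (conj (sy r m') * CS (V j) r)) else 0) * ((w3 w (nm r / Kq) : ℝ) : ℂ) := by
    intro r _
    split_ifs with hr
    · rw [CS_sum hR0 hU, CS_sum hR0 hV]
      simp only [map_mul, map_sum, mul_sum, sum_mul]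
      rw [sum_comm]
    · simp
  rw [sum_congr rfl e1, sum_comm]
  refine sum_congr rfl fun i _ => ?_
  rw [sum_comm]

lemma mT_sum {Kq : ℝ} (m : Eis) (U V : ι → Eis → ℂ) :
    mT w Kq R m (fun n => ∑ i ∈ I, U i n) (fun n => ∑ i ∈ I', V i n) =
      ∑ i ∈ I, ∑ j ∈ I', mT w Kq R m (U i) (V j) := by
  unfold mT
  simp only [← mul_sum]
  congr 2
  have e1 : ∀ n ∈ S R, (PE n : ℂ) * ((∑ i ∈ I, U i n) * conj (∑ i ∈ I', V i n)) =
      ∑ i ∈ I, ∑ j ∈ I', (PE n : ℂ) * (U i n * conj (V j n)) := by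
    intro n _
    rw [map_sum, sum_mul_sum, mul_sum]
    exact sum_congr rfl fun i _ => by rw [mul_sum]
  rw [sum_congr rfl e1, sum_comm]
  refine sum_congr rfl fun i _ => ?_
  rw [sum_comm]

lemma UU_sum {omi : ι → Eis × Eis → ℂ} (hom : ∀ x ∈ J, om x = ∑ i ∈ I, omi i x) (y : Yp) :
    UU J om T q M y = fun n => ∑ i ∈ I, UU J (omi i) T q M y n := by
  funext n
  unfold UU be
  by_cases h : IsPrim n ∧ Squarefree n ∧ IsCoprime n y.2.2.2 ∧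
      (y.1, E3A164.fq q y.2.2.1 y.2.2.2 n) ∈ J
  · simp only [if_pos h]
    rw [hom _ h.2.2.2, map_sum, sum_mul, sum_mul, sum_mul]
  · simp only [if_neg h, zero_mul, sum_const_zero]

/-- the centre of the window of `be .. y` for the level `V` -/
def Nq (V : ℝ) (q : Eis) (y : Yp) : ℝ :=
  V / (nm y.1 ^ 2 * (nm q * nm y.2.2.1 * nm y.2.2.2 ^ 2))

/-- the modes of one tuple `(q, t, y, y', b, b', s)` for the levels `V, V'` -/
def MP1 (A Bw : ℕ) (K V V' Y : ℝ) (J : Finset (Eis × Eis)) (om om' : Eis × Eis → ℂ)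
    (T : Eis → Eis → Eis → ℂ) (q t M : Eis) (y y' : Yp) : ℝ :=
  ∑ s ∈ pdiv (gg y y'), MP A Bw (Mc y.2.2.1 y'.2.2.1) (pc y.2.2.1 y'.2.2.1)
    (Kr K q t M / nm s) (Nq V q y * Nq V' q y') Y (cf₁ y y') (cf₂ y y')
    (tws s (UU J om T q M y)) (tws s (UU J om' T q M y'))

/-- the modes at `(q, t)` -/
def MPT (A Bw : ℕ) (K B V V' Y : ℝ) (J : Finset (Eis × Eis)) (om om' : Eis × Eis → ℂ)
    (T : Eis → Eis → Eis → ℂ) (E0 R b₀ : ℝ) (q t : Eis) : ℝ :=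
  ∑ y ∈ Ys J E0 R, ∑ y' ∈ Ys J E0 R, ∑ b ∈ S B, ∑ b' ∈ S B, ∑ s ∈ pdiv q,
    if Cop (MM q t y y' b b' s) y y' ∧ (nm (MM q t y y' b b' s * q ^ 2 * t ^ 3) : ℝ) ≤ b₀ * K then
      pf K q t y y' * MP1 A Bw K V V' Y J om om' T q t (MM q t y y' b b' s) y y' else 0

lemma mem_Ys' (hJ : OKJ J) {y : Yp} (hy : y ∈ Ys J E0 R) :
    (∃ x ∈ J, x.1 = y.1) ∧ (IsPrim y.1 ∧ Squarefree y.1 ∧ IsPrim y.2.2.2 ∧ Squarefree y.2.2.2) ∧
      IsPrim y.2.1 ∧ IsC y.2.2.1 ∧ y.2.2.2 ∈ S R := by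
  unfold Ys at hy
  rw [mem_product, mem_product, mem_product] at hy
  obtain ⟨h1, h2, h3, h4⟩ := hy
  obtain ⟨x, hx, hxy⟩ := mem_image.mp h1
  refine ⟨⟨x, hx, hxy⟩, ⟨hxy ▸ hJ.prim x hx, hxy ▸ hJ.sqf x hx, (SR_prim h4).1, (SR_prim h4).2⟩,
    (SR_prim h2).1, mem_Cs.mp h3, h4⟩

lemma Nq_pos {V : ℝ} (hV : 0 < V) (hq : IsPrim q) {y : Yp} (hd : IsPrim y.1) (hc : IsC y.2.2.1)
    (hg : IsPrim y.2.2.2) : 0 < Nq V q y := by
  unfold Nq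
  have n0 := nm_pos' hd
  have n1 := nm_pos' hq
  have n2 : (0 : ℝ) < nm y.2.2.1 := by exact_mod_cast nm_pos.mpr (isC_ne hc)
  have n3 := nm_pos' hg
  positivity

lemma win_UU {Rw V : ℝ} (hV : 0 < V)
    (hJV : ∀ x ∈ J, om x ≠ 0 → |Real.log (nm (x.2 * x.1 ^ 2)) - Real.log V| ≤ Rw / 2)
    (hq : IsPrim q) {y : Yp} (hd : IsPrim y.1) (hc : IsC y.2.2.1) (hg : IsPrim y.2.2.2) (M : Eis) :
    Win (UU J om T q M y) (Real.log (Nq V q y)) Rw := by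
  intro n hn
  have hb := UU_ne hn
  obtain ⟨h1, h2, h3, h4⟩ := be_ne hb
  have hom : om (y.1, E3A164.fq q y.2.2.1 y.2.2.2 n) ≠ 0 := by
    intro h0
    apply hb
    unfold be
    rw [if_pos ⟨h1, h2, h3, h4⟩, h0]
    simp
  have h5 := hJV _ h4 hom
  have n0 := nm_pos' hd
  have n1 := nm_pos' hq
  have n2 : (0 : ℝ) < nm y.2.2.1 := by exact_mod_cast nm_pos.mpr (isC_ne hc)
  have n3 := nm_pos' hg
  have n4 := nm_pos' h1
  have e1 : (nm (E3A164.fq q y.2.2.1 y.2.2.2 n * y.1 ^ 2) : ℝ) =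
      (nm y.1 ^ 2 * (nm q * nm y.2.2.1 * nm y.2.2.2 ^ 2)) * nm n := by
    unfold E3A164.fq
    rw [nm_mul, nm_mul, nm_mul, nm_mul, nm_pow, nm_pow]
    push_cast
    ring
  have e2 : Real.log (nm (E3A164.fq q y.2.2.1 y.2.2.2 n * y.1 ^ 2)) =
      Real.log (nm y.1 ^ 2 * (nm q * nm y.2.2.1 * nm y.2.2.2 ^ 2)) + Real.log (nm n) := by
    rw [e1, Real.log_mul (by positivity) (by positivity)]
  have e3 : Real.log (Nq V q y) = Real.log V -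
      Real.log (nm y.1 ^ 2 * (nm q * nm y.2.2.1 * nm y.2.2.2 ^ 2)) := by
    unfold Nq
    rw [Real.log_div (by positivity) (by positivity)]
  have h6 : |Real.log (nm (E3A164.fq q y.2.2.1 y.2.2.2 n * y.1 ^ 2)) - Real.log V| ≤ Rw / 2 := h5
  rw [e3]
  rw [e2] at h6
  have e4 : Real.log (nm n) - (Real.log V -
      Real.log (nm y.1 ^ 2 * (nm q * nm y.2.2.1 * nm y.2.2.2 ^ 2))) =
      Real.log (nm y.1 ^ 2 * (nm q * nm y.2.2.1 * nm y.2.2.2 ^ 2)) + Real.log (nm n) -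
        Real.log V := by ring
  rw [e4]
  exact h6

/-- the cofactors are at most the products -/
lemma nm_cf_le {y y' : Yp} (hy : IsPrim y.1 ∧ IsPrim y.2.2.2) (hy' : IsPrim y'.1 ∧ IsPrim y'.2.2.2) :
    (nm (cf₁ y y') : ℝ) ≤ nm y.1 * nm y.2.2.2 ∧ (nm (cf₂ y y') : ℝ) ≤ nm y'.1 * nm y'.2.2.2 := by
  have hm' : IsPrim (y'.1 * y'.2.2.2) := hy'.1.mul hy'.2
  obtain ⟨g1, g2, g3, g4, g5⟩ := gp_spec (y.1 * y.2.2.2) hm'
  have e1 : y.1 * y.2.2.2 = gg y y' * cf₁ y y' := g3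
  have e2 : y'.1 * y'.2.2.2 = gg y y' * cf₂ y y' := g4
  have n1 := nm_one_le (a := gg y y') g1
  have k1 := congrArg nm e1
  have k2 := congrArg nm e2
  rw [nm_mul, nm_mul] at k1 k2
  have k1' : (nm y.1 : ℝ) * nm y.2.2.2 = nm (gg y y') * nm (cf₁ y y') := by exact_mod_cast k1
  have k2' : (nm y'.1 : ℝ) * nm y'.2.2.2 = nm (gg y y') * nm (cf₂ y y') := by exact_mod_cast k2
  rw [k1', k2']
  exact ⟨le_mul_of_one_le_left (Nat.cast_nonneg _) n1, le_mul_of_one_le_left (Nat.cast_nonneg _) n1⟩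

/-- **one pair `(y, y')`, all levels** -/
theorem PD_levels (hw : Wgt (w3 w)) {Rw : ℝ} {A Bw : ℕ} {C : ℝ} (hk : KT (w3 w) Rw A Bw C)
    (hA : 1 < A) (hB : 1 < Bw) : ∃ C' : ℝ, 0 ≤ C' ∧ ∀ (ι : Type) (I : Finset ι)
    (J : Finset (Eis × Eis)) (om : Eis × Eis → ℂ) (omi : ι → Eis × Eis → ℂ)
    (T : Eis → Eis → Eis → ℂ), TC T → (∀ x ∈ J, om x = ∑ i ∈ I, omi i x) →
    ∀ (V : ι → ℝ), (∀ i ∈ I, 0 < V i) →
    (∀ i ∈ I, ∀ x ∈ J, omi i x ≠ 0 →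
      |Real.log (nm (x.2 * x.1 ^ 2)) - Real.log (V i)| ≤ Rw / 2) →
    ∀ (K R Y : ℝ), 0 < K → 0 ≤ R → 1 ≤ Y → (∀ x ∈ J, (nm x.2 : ℝ) ≤ R) →
    ∀ (q t M : Eis), IsPrim q → IsPrim t → IsPrim M →
    ∀ (y y' : Yp), (IsPrim y.1 ∧ Squarefree y.1 ∧ IsPrim y.2.2.2 ∧ Squarefree y.2.2.2) →
    (IsPrim y'.1 ∧ Squarefree y'.1 ∧ IsPrim y'.2.2.2 ∧ Squarefree y'.2.2.2) →
    IsC y.2.2.1 → IsC y'.2.2.1 → y.2.2.2 ∣ M → y'.2.2.2 ∣ M → Cop M y y' →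
    (nm (cf₁ y y') : ℝ) * nm (cf₂ y y') * R ≤ Y →
    ‖PD w K J om T R q t M y y'‖ ≤
      2 * C * (∑ i ∈ I, ∑ j ∈ I, MP1 A Bw K (V i) (V j) Y J (omi i) (omi j) T q t M y y') +
      if sm y y' then C' * ∑ n ∈ S R, (tau (y.1 * y.2.2.2 * n) : ℝ) *
        (‖UU J om T q M y n‖ * ‖UU J om T q M y' n‖) else 0 := by
  obtain ⟨C', hC', hD⟩ := DR_main hw
  refine ⟨C', hC', fun ι I J om omi T hT hom V hV hJV K R Y hK hR0 hY1 hR q t M hq ht hM y y'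
    hy hy' hc hc' hg hg' hcop hle => ?_⟩
  have hKr : 0 < Kr K q t M := by
    unfold Kr
    have n1 := nm_pos' hq
    have n2 := nm_pos' ht
    have n3 := nm_pos' hM
    positivity
  have hsu : ∀ (om : Eis × Eis → ℂ), SU y R (UU J om T q M y) := fun om =>
    SU_UU hT hR hR0 hq hc hy.2.2.1 M
  have hsv : ∀ (om : Eis × Eis → ℂ), SU y' R (UU J om T q M y') := fun om =>
    SU_UU hT hR hR0 hq hc' hy'.2.2.1 M
  have hS : ∀ {y : Yp} {U : Eis → ℂ}, SU y R U → ∀ n, U n ≠ 0 → n ∈ S R := by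
    intro y U h n hn
    obtain ⟨a1, a2, -, -, a5⟩ := h n hn
    exact (mem_S hR0).2 ⟨a5, a1, a2⟩
  have ePR := PR_sum (w := w) (I := I) (I' := I) hw hKr hR0
    (U := fun i => UU J (omi i) T q M y) (V := fun i => UU J (omi i) T q M y')
    (fun i _ => hS (hsu (omi i))) (fun i _ => hS (hsv (omi i)))
    (sy (y.2.2.1 * y'.2.2.1 ^ 2)) (y.1 * y.2.2.2) (y'.1 * y'.2.2.2)
  rw [← UU_sum hom y, ← UU_sum hom y'] at ePR
  have emT := mT_sum (w := w) (R := R) (I := I) (I' := I) (Kq := Kr K q t M) (y.1 * y.2.2.2)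
    (fun i => UU J (omi i) T q M y) (fun i => UU J (omi i) T q M y')
  rw [← UU_sum hom y, ← UU_sum hom y'] at emT
  have hpair : ∀ i ∈ I, ∀ j ∈ I,
      ‖PR (w3 w) (Kr K q t M) (sy (y.2.2.1 * y'.2.2.1 ^ 2)) (y.1 * y.2.2.2) (y'.1 * y'.2.2.2)
        (UU J (omi i) T q M y) (UU J (omi j) T q M y') -
      (if sm y y' then mT w (Kr K q t M) R (y.1 * y.2.2.2)
        (UU J (omi i) T q M y) (UU J (omi j) T q M y') else 0)‖ ≤
      2 * C * MP1 A Bw K (V i) (V j) Y J (omi i) (omi j) T q t M y y' := by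
    intro i hi j hj
    exact PR_modes hw hk hA hB hKr hR0 hM hy hy' hc hc' hg hg' hcop hY1
      (Nq_pos (hV i hi) hq hy.1 hc hy.2.2.1) (Nq_pos (hV j hj) hq hy'.1 hc' hy'.2.2.1)
      (hsu (omi i)) (hsv (omi j)) (win_UU (hV i hi) (hJV i hi) hq hy.1 hc hy.2.2.1 M)
      (win_UU (hV j hj) (hJV j hj) hq hy'.1 hc' hy'.2.2.1 M) hle
  have htot : ‖PR (w3 w) (Kr K q t M) (sy (y.2.2.1 * y'.2.2.1 ^ 2)) (y.1 * y.2.2.2)
        (y'.1 * y'.2.2.2) (UU J om T q M y) (UU J om T q M y') -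
      (if sm y y' then mT w (Kr K q t M) R (y.1 * y.2.2.2)
        (UU J om T q M y) (UU J om T q M y') else 0)‖ ≤
      2 * C * (∑ i ∈ I, ∑ j ∈ I, MP1 A Bw K (V i) (V j) Y J (omi i) (omi j) T q t M y y') := by
    have e1 : PR (w3 w) (Kr K q t M) (sy (y.2.2.1 * y'.2.2.1 ^ 2)) (y.1 * y.2.2.2)
        (y'.1 * y'.2.2.2) (UU J om T q M y) (UU J om T q M y') -
      (if sm y y' then mT w (Kr K q t M) R (y.1 * y.2.2.2)
        (UU J om T q M y) (UU J om T q M y') else 0) = ∑ i ∈ I, ∑ j ∈ I,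
        (PR (w3 w) (Kr K q t M) (sy (y.2.2.1 * y'.2.2.1 ^ 2)) (y.1 * y.2.2.2) (y'.1 * y'.2.2.2)
        (UU J (omi i) T q M y) (UU J (omi j) T q M y') -
      (if sm y y' then mT w (Kr K q t M) R (y.1 * y.2.2.2)
        (UU J (omi i) T q M y) (UU J (omi j) T q M y') else 0)) := by
      simp only [sum_sub_distrib]
      rw [ePR]
      congr 1
      split_ifs
      · exact emT
      · simp
    rw [e1, mul_sum]
    refine (norm_sum_le _ _).trans (sum_le_sum fun i hi => ?_)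
    rw [mul_sum]
    exact (norm_sum_le _ _).trans (sum_le_sum fun j hj => hpair i hi j hj)
  unfold PD
  by_cases hsm : sm y y'
  · rw [if_pos hsm, if_pos hsm]
    rw [if_pos hsm] at htot
    have hm' : y'.1 * y'.2.2.2 = y.1 * y.2.2.2 := by rw [hsm.1, hsm.2]
    have hcc : y.2.2.1 = y'.2.2.1 := by rw [hsm.2]
    have hpsi : ∀ r, IsPrim r → sy (y.2.2.1 * y'.2.2.1 ^ 2) r = 1 := by
      intro r hr
      rw [← hcc]
      exact sy_ccc hc hr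
    have hDm := hD (Kr K q t M) R hKr (sy (y.2.2.1 * y'.2.2.1 ^ 2)) hpsi (y.1 * y.2.2.2)
      (hy.1.mul hy.2.2.1) (UU J om T q M y) (UU J om T q M y')
      (fun n hn => (be_cop hT (UU_ne hn)).2.2.1)
    rw [hm'] at htot ⊢
    have h5 := norm_sub_le_norm_sub_add_norm_sub
      (PR (w3 w) (Kr K q t M) (sy (y.2.2.1 * y'.2.2.1 ^ 2)) (y.1 * y.2.2.2) (y.1 * y.2.2.2)
        (UU J om T q M y) (UU J om T q M y'))
      (mT w (Kr K q t M) R (y.1 * y.2.2.2) (UU J om T q M y) (UU J om T q M y'))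
      (DR (w3 w) (Kr K q t M) R (sy (y.2.2.1 * y'.2.2.1 ^ 2)) (y.1 * y.2.2.2) (y.1 * y.2.2.2)
        (UU J om T q M y) (UU J om T q M y'))
    exact h5.trans (add_le_add htot (by rw [norm_sub_rev]; exact hDm))
  · rw [if_neg hsm, if_neg hsm, sub_zero, add_zero]
    rw [if_neg hsm, sub_zero] at htot
    exact htot

/-- **one `(q, t)`** -/
theorem OP_le (hw : Wgt w) {Rw : ℝ} {A Bw : ℕ} {C : ℝ} (hk : KT (w3 w) Rw A Bw C)
    (hA : 1 < A) (hB : 1 < Bw) : ∃ C' : ℝ, 0 ≤ C' ∧ ∀ (ι : Type) (I : Finset ι)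
    (J : Finset (Eis × Eis)) (om : Eis × Eis → ℂ) (omi : ι → Eis × Eis → ℂ)
    (T : Eis → Eis → Eis → ℂ), TC T → OKJ J → (∀ x ∈ J, om x = ∑ i ∈ I, omi i x) →
    ∀ (V : ι → ℝ), (∀ i ∈ I, 0 < V i) →
    (∀ i ∈ I, ∀ x ∈ J, omi i x ≠ 0 →
      |Real.log (nm (x.2 * x.1 ^ 2)) - Real.log (V i)| ≤ Rw / 2) →
    ∀ (K R Z B E0 b₀ : ℝ), 0 < K → 1 ≤ Z → 0 ≤ R → R ≤ Z → (∀ x ∈ J, (nm x.1 : ℝ) ≤ Z) →
    (∀ x ∈ J, (nm x.2 : ℝ) ≤ R) → ∀ q ∈ S R, ∀ t : Eis, IsPrim t →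
    OP w K B J om T E0 R b₀ q t ≤
      2 * C * (∑ i ∈ I, ∑ j ∈ I,
        MPT A Bw K B (V i) (V j) (Z ^ 5) J (omi i) (omi j) T E0 R b₀ q t) +
      C' * DEr K B J om T E0 R q t := by
  obtain ⟨C', hC', h⟩ := PD_levels (wgt_w3 hw) hk hA hB
  refine ⟨C', hC', fun ι I J om omi T hT hJ hom V hV hJV K R Z B E0 b₀ hK hZ hR0 hRZ hJ1 hJ2 q hq
    t ht => ?_⟩
  have hqp := (SR_prim hq).1
  have e0 : ∑ i ∈ I, ∑ j ∈ I,
        MPT A Bw K B (V i) (V j) (Z ^ 5) J (omi i) (omi j) T E0 R b₀ q t =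
      ∑ y ∈ Ys J E0 R, ∑ y' ∈ Ys J E0 R, ∑ b ∈ S B, ∑ b' ∈ S B, ∑ s ∈ pdiv q,
        if Cop (MM q t y y' b b' s) y y' ∧ (nm (MM q t y y' b b' s * q ^ 2 * t ^ 3) : ℝ) ≤ b₀ * K
        then pf K q t y y' * ∑ i ∈ I, ∑ j ∈ I, MP1 A Bw K (V i) (V j) (Z ^ 5) J (omi i) (omi j) T
          q t (MM q t y y' b b' s) y y' else 0 := by
    unfold MPT
    have e1 : ∀ i ∈ I, ∑ j ∈ I, ∑ y ∈ Ys J E0 R, ∑ y' ∈ Ys J E0 R, ∑ b ∈ S B, ∑ b' ∈ S B,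
        ∑ s ∈ pdiv q, (if Cop (MM q t y y' b b' s) y y' ∧
          (nm (MM q t y y' b b' s * q ^ 2 * t ^ 3) : ℝ) ≤ b₀ * K
        then pf K q t y y' * MP1 A Bw K (V i) (V j) (Z ^ 5) J (omi i) (omi j) T
          q t (MM q t y y' b b' s) y y' else 0) =
        ∑ y ∈ Ys J E0 R, ∑ y' ∈ Ys J E0 R, ∑ b ∈ S B, ∑ b' ∈ S B,
        ∑ s ∈ pdiv q, ∑ j ∈ I, (if Cop (MM q t y y' b b' s) y y' ∧
          (nm (MM q t y y' b b' s * q ^ 2 * t ^ 3) : ℝ) ≤ b₀ * K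
        then pf K q t y y' * MP1 A Bw K (V i) (V j) (Z ^ 5) J (omi i) (omi j) T
          q t (MM q t y y' b b' s) y y' else 0) := by
      intro i _
      rw [sum_comm]; refine sum_congr rfl fun y _ => ?_
      rw [sum_comm]; refine sum_congr rfl fun y' _ => ?_
      rw [sum_comm]; refine sum_congr rfl fun b _ => ?_
      rw [sum_comm]; refine sum_congr rfl fun b' _ => ?_
      rw [sum_comm]
    rw [sum_congr rfl e1]
    rw [sum_comm]; refine sum_congr rfl fun y _ => ?_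
    rw [sum_comm]; refine sum_congr rfl fun y' _ => ?_
    rw [sum_comm]; refine sum_congr rfl fun b _ => ?_
    rw [sum_comm]; refine sum_congr rfl fun b' _ => ?_
    rw [sum_comm]; refine sum_congr rfl fun s _ => ?_
    split_ifs
    · rw [mul_sum]
      exact sum_congr rfl fun i _ => by rw [mul_sum]
    · simp
  rw [e0]
  unfold OP DEr
  rw [mul_sum, mul_sum, ← sum_add_distrib]
  refine sum_le_sum fun y hy => ?_
  rw [mul_sum, mul_sum, ← sum_add_distrib]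
  refine sum_le_sum fun y' hy' => ?_
  rw [mul_sum, mul_sum, ← sum_add_distrib]
  refine sum_le_sum fun b hb => ?_
  rw [mul_sum, mul_sum, ← sum_add_distrib]
  refine sum_le_sum fun b' hb' => ?_
  rw [mul_sum, mul_sum, ← sum_add_distrib]
  refine sum_le_sum fun s hs => ?_
  obtain ⟨⟨x, hx, hxy⟩, hy1, hy2, hyc, hyg⟩ := mem_Ys' hJ hy
  obtain ⟨⟨x', hx', hxy'⟩, hy1', hy2', hyc', hyg'⟩ := mem_Ys' hJ hy'
  have hsp := ((mem_pdiv hqp.ne_zero).mp hs).1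
  have hbp := (SR_prim hb).1
  have hbp' := (SR_prim hb').1
  set M := MM q t y y' b b' s with hMdef
  have hpf : 0 ≤ pf K q t y y' := pf_nonneg hK.le y y'
  have hMp : IsPrim M := MM_prim hqp ht hy2 hy2' hy1.2.2.1 hy1'.2.2.1 hbp hbp' hsp
  have hMd := (MM_dvd hqp ht hy2 hy2' hy1.2.2.1 hy1'.2.2.1 hbp hbp' hsp M).mp dvd_rfl
  have hE : 0 ≤ C' * (if sm y y' then
      pf K q t y y' * ∑ n ∈ S R, (tau (y.1 * y.2.2.2 * n) : ℝ) *
        (‖UU J om T q M y n‖ * ‖UU J om T q M y' n‖) else 0) := by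
    refine mul_nonneg hC' ?_
    split_ifs
    · positivity
    · exact le_rfl
  by_cases hcop : Cop M y y' ∧ (nm (M * q ^ 2 * t ^ 3) : ℝ) ≤ b₀ * K
  · rw [if_pos hcop, if_pos hcop]
    have hn1 : (nm y.1 : ℝ) ≤ Z := hxy ▸ hJ1 x hx
    have hn1' : (nm y'.1 : ℝ) ≤ Z := hxy' ▸ hJ1 x' hx'
    have hn2 : (nm y.2.2.2 : ℝ) ≤ Z := ((mem_S hR0).1 hyg).1.trans hRZ
    have hn2' : (nm y'.2.2.2 : ℝ) ≤ Z := ((mem_S hR0).1 hyg').1.trans hRZ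
    obtain ⟨c1, c2⟩ := nm_cf_le ⟨hy1.1, hy1.2.2.1⟩ ⟨hy1'.1, hy1'.2.2.1⟩
    have hle : (nm (cf₁ y y') : ℝ) * nm (cf₂ y y') * R ≤ Z ^ 5 := by
      have d1 : (nm (cf₁ y y') : ℝ) ≤ Z * Z := c1.trans (by gcongr)
      have d2 : (nm (cf₂ y y') : ℝ) ≤ Z * Z := c2.trans (by gcongr)
      calc (nm (cf₁ y y') : ℝ) * nm (cf₂ y y') * R ≤ (Z * Z) * (Z * Z) * Z := by gcongr
        _ = Z ^ 5 := by ring
    have key := h ι I J om omi T hT hom V hV hJV K R (Z ^ 5) hK hR0 (one_le_pow₀ hZ) hJ2 q t M hqp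
      ht hMp y y' hy1 hy1' hyc hyc' hMd.1.1 hMd.2.1.1 hcop.1 hle
    refine (mul_le_mul_of_nonneg_left key hpf).trans (le_of_eq ?_)
    split_ifs <;> ring
  · rw [if_neg hcop, if_neg hcop, mul_zero, zero_add]
    exact hE

lemma MPT_nonneg (A Bw : ℕ) {V V' : ℝ} (Y : ℝ) (om om' : Eis × Eis → ℂ) (hK : 0 ≤ K) (hJ : OKJ J)
    (hV : 0 < V) (hV' : 0 < V') (hq : IsPrim q) :
    0 ≤ MPT A Bw K B V V' Y J om om' T E0 R b₀ q t := by
  unfold MPT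
  refine sum_nonneg fun y hy => sum_nonneg fun y' hy' => sum_nonneg fun b _ =>
    sum_nonneg fun b' _ => sum_nonneg fun s _ => ?_
  split_ifs
  · refine mul_nonneg (pf_nonneg hK y y') ?_
    unfold MP1
    obtain ⟨-, hy1, hy2, hyc, hyg⟩ := mem_Ys' hJ hy
    obtain ⟨-, hy1', hy2', hyc', hyg'⟩ := mem_Ys' hJ hy'
    refine sum_nonneg fun s _ => MP_nonneg _ _ _ _ ?_ ?_ _ _ _ _ _
    · unfold Kr; positivity
    · exact mul_nonneg (Nq_pos hV hq hy1.1 hyc hy1.2.2.1).le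
        (Nq_pos hV' hq hy1'.1 hyc' hy1'.2.2.1).le
  · exact le_rfl

/-- **the off-diagonal part** = the modes of all pairs of levels, up to the diagonal error -/
theorem OFF_le (hw : Wgt w) {Rw : ℝ} {A Bw : ℕ} (hRw : 0 ≤ Rw) (hA : 1 < A) (hB : 1 < Bw)
    {ε : ℝ} (hε : 0 < ε) : ∃ C : ℝ, 1 ≤ C ∧ ∀ (ι : Type) (I : Finset ι)
    (J : Finset (Eis × Eis)) (om : Eis × Eis → ℂ) (omi : ι → Eis × Eis → ℂ)
    (T : Eis → Eis → Eis → ℂ), TC T → OKJ J → (∀ x ∈ J, om x = ∑ i ∈ I, omi i x) →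
    ∀ (V : ι → ℝ), (∀ i ∈ I, 0 < V i) →
    (∀ i ∈ I, ∀ x ∈ J, omi i x ≠ 0 →
      |Real.log (nm (x.2 * x.1 ^ 2)) - Real.log (V i)| ≤ Rw / 2) →
    ∀ (K R Z B E0 E1 b₀ : ℝ), 0 < K → 1 ≤ Z → 0 ≤ R → R ≤ Z → 1 ≤ B → 0 ≤ E1 →
    (∀ x ∈ J, (nm x.1 : ℝ) ≤ Z) → (∀ x ∈ J, (nm x.2 : ℝ) ≤ R) →
    ∑ q ∈ S R, ∑ t ∈ pb E1, OP w K B J om T E0 R b₀ q t ≤
      C * (∑ i ∈ I, ∑ j ∈ I, ∑ q ∈ S R, ∑ t ∈ pb E1,
        MPT A Bw K B (V i) (V j) (Z ^ 5) J (omi i) (omi j) T E0 R b₀ q t) +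
      C * Z ^ ε * (K ^ (-(1 : ℝ) / 3) * E1 ^ 2 * B ^ 2 * R) * ∑ x ∈ J, EF om T E0 x := by
  obtain ⟨C0, hk⟩ := exists_KT (wgt_w3 hw) hRw A Bw
  obtain ⟨C1, hC1, h⟩ := OP_le hw hk hA hB
  obtain ⟨C2, hC2, htau⟩ := E3M829.tau_Z (ε := ε / 6) (by positivity)
  have hC0 := hk.1
  have hC20 : 0 ≤ C2 := by linarith
  refine ⟨max 1 (max (2 * C0) (C1 * 76800 * C2 ^ 3)), le_max_left _ _,
    fun ι I J om omi T hT hJ hom V hV hJV K R Z B E0 E1 b₀ hK hZ hR0 hRZ hB1 hE1 hJ1 hJ2 => ?_⟩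
  have hZ0 : 0 < Z := by linarith
  have hZ2 : 1 ≤ Z ^ 2 := one_le_pow₀ hZ
  have e0 : ∑ i ∈ I, ∑ j ∈ I, ∑ q ∈ S R, ∑ t ∈ pb E1,
        MPT A Bw K B (V i) (V j) (Z ^ 5) J (omi i) (omi j) T E0 R b₀ q t =
      ∑ q ∈ S R, ∑ t ∈ pb E1, ∑ i ∈ I, ∑ j ∈ I,
        MPT A Bw K B (V i) (V j) (Z ^ 5) J (omi i) (omi j) T E0 R b₀ q t := by
    have e1 : ∀ i ∈ I, ∑ j ∈ I, ∑ q ∈ S R, ∑ t ∈ pb E1,
        MPT A Bw K B (V i) (V j) (Z ^ 5) J (omi i) (omi j) T E0 R b₀ q t =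
        ∑ q ∈ S R, ∑ t ∈ pb E1, ∑ j ∈ I,
        MPT A Bw K B (V i) (V j) (Z ^ 5) J (omi i) (omi j) T E0 R b₀ q t := by
      intro i _
      rw [sum_comm]
      refine sum_congr rfl fun q _ => ?_
      rw [sum_comm]
    rw [sum_congr rfl e1, sum_comm]
    refine sum_congr rfl fun q _ => ?_
    rw [sum_comm]
  have h1 : ∑ q ∈ S R, ∑ t ∈ pb E1, OP w K B J om T E0 R b₀ q t ≤
      2 * C0 * (∑ q ∈ S R, ∑ t ∈ pb E1, ∑ i ∈ I, ∑ j ∈ I,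
        MPT A Bw K B (V i) (V j) (Z ^ 5) J (omi i) (omi j) T E0 R b₀ q t) +
        C1 * ∑ q ∈ S R, ∑ t ∈ pb E1, DEr K B J om T E0 R q t := by
    rw [mul_sum, mul_sum, ← sum_add_distrib]
    refine sum_le_sum fun q hq => ?_
    rw [mul_sum, mul_sum, ← sum_add_distrib]
    refine sum_le_sum fun t ht => ?_
    refine h ι I J om omi T hT hJ hom V hV hJV K R Z B E0 b₀ hK hZ hR0 hRZ hJ1 hJ2 q hq t ?_
    rw [mem_pb] at ht
    exact ht.2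
  have hτ : ∀ m : Eis, (nm m : ℝ) ≤ Z ^ 2 → (tau m : ℝ) ≤ C2 * Z ^ (ε / 3) := by
    intro m hm
    refine (htau (Z ^ 2) hZ2 m hm).trans (le_of_eq ?_)
    rw [← Real.rpow_natCast, ← Real.rpow_mul hZ0.le]
    congr 2
    push_cast
    ring
  have hMP : 0 ≤ ∑ q ∈ S R, ∑ t ∈ pb E1, ∑ i ∈ I, ∑ j ∈ I,
      MPT A Bw K B (V i) (V j) (Z ^ 5) J (omi i) (omi j) T E0 R b₀ q t :=
    sum_nonneg fun q hq => sum_nonneg fun t _ => sum_nonneg fun i hi => sum_nonneg fun j hj =>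
      MPT_nonneg A Bw _ _ _ hK.le hJ (hV i hi) (hV j hj) (SR_prim hq).1
  have h2 := DEr_total (om := om) (T := T) (E0 := E0) hK hE1 hB1 hR0 hJ2
    (τ := C2 * Z ^ (ε / 3)) (fun x hx m hm0 hm => hτ m (hm.trans (by
      have a1 := hJ1 x hx
      have a2 := (hJ2 x hx).trans hRZ
      calc (nm x.1 : ℝ) * nm x.2 ≤ Z * Z := by gcongr
        _ = Z ^ 2 := by ring)))
    (fun q hq => hτ q (by
      have a1 := ((mem_S hR0).1 hq).1.trans hRZ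
      calc (nm q : ℝ) ≤ Z := a1
        _ ≤ Z ^ 2 := by nlinarith)) (by positivity) hJ
  have e3 : (C2 * Z ^ (ε / 3)) ^ 3 = C2 ^ 3 * Z ^ ε := by
    rw [mul_pow]
    congr 1
    rw [← Real.rpow_natCast, ← Real.rpow_mul hZ0.le]
    congr 1
    push_cast
    ring
  rw [e3] at h2
  have hEF : 0 ≤ ∑ x ∈ J, EF om T E0 x := sum_nonneg fun x _ => EF_nonneg om T E0 x
  have hR00 : 0 ≤ K ^ (-(1 : ℝ) / 3) * E1 ^ 2 * B ^ 2 * R := by positivity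
  rw [e0]
  refine h1.trans (add_le_add ?_ ?_)
  · exact mul_le_mul_of_nonneg_right ((le_max_left _ _).trans (le_max_right _ _)) hMP
  · refine (mul_le_mul_of_nonneg_left h2 hC1).trans ?_
    have e4 : C1 * (76800 * K ^ (-(1 : ℝ) / 3) * E1 ^ 2 * B ^ 2 * R * (C2 ^ 3 * Z ^ ε) *
        ∑ x ∈ J, EF om T E0 x) = (C1 * 76800 * C2 ^ 3) * (Z ^ ε *
          (K ^ (-(1 : ℝ) / 3) * E1 ^ 2 * B ^ 2 * R) * ∑ x ∈ J, EF om T E0 x) := by ring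
    rw [e4, mul_assoc (max 1 (max (2 * C0) (C1 * 76800 * C2 ^ 3))) (Z ^ ε),
      mul_assoc (max 1 (max (2 * C0) (C1 * 76800 * C2 ^ 3)))]
    exact mul_le_mul_of_nonneg_right ((le_max_right _ _).trans (le_max_right _ _)) (by positivity)

end levels

end

end Crest.Agent.R017.E3F548
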