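import Crest.Agent.R017.E3Zc_548

/-!
# Row 17, R8 (E3), the final form (helper548): `H` a function of `(d, e)`, one for each side

* `StdH`, `SDfH` : the data of one side
* `LVh` : the number of one side at a pair of levels;  `RPh` : the structured part
* `side_H`, `side_H'`, `pair_H` : one pair of levels
-/

set_option autoImplicit false
set_option linter.unusedVariables false

noncomputable section

open Finset
open scoped Classical ComplexConjugate ContDiff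

namespace Crest.Agent.R017.E3Z548

open Crest.Agent.R012 Crest.Agent.R012.Eis Crest.Agent.R012.Div277
open Crest.Agent.R012.LS2 (S mem_S)
open Crest.Agent.R012.Mob705 (pb mem_pb pdiv mem_pdiv)
open Crest.Agent.R017.C70 (JC OKJ)
open Crest.Agent.R017.CM106 (CS FS)
open Crest.Agent.R017.E3D579 (TE0)
open Crest.Agent.R017.E1551 (nmpos)
open Crest.Agent.R017.GrB829 (IsC)
open Crest.Agent.R017.E3A164 (Yp Ys fq Cs mem_Cs)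
open Crest.Agent.R017.E3M829 (TC)
open Crest.Agent.R017.E3F548 (SR_prim mem_Ys' Pg Jat Tat MPTr)
open Crest.Agent.R017.E3T1579 (T3 WQ)
open Crest.Agent.R017.E3T2579 (wL w1L)
open Crest.Agent.R017.E3T829 (UT SU kU hE hE_nonneg cg TMd SF CellF SFB Cd TQ ju jj RR RUs OU Mud
  OI IX cdI OI_OK sE1 sE2 MPT_level ext_OI Z_le5)
open Crest.Agent.R017.E3T829.Cd (Pde)

/-- the data of one side -/
structure StdH (sd : SF 5) (c Y K V V' : ℝ) (H : Eis → Eis → ℝ) (X : ℝ) (Bs : UT → ℝ) : Prop where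
  hH : ∀ x, sd.H x = H x.d x.e
  ext : ∀ l x, sd.ext l x = EXs K V V' (H x.d x.e) X l x
  om : ∀ l, sd.om l = OMs l
  Gs : ∀ l, sd.Gs l = GSs Y l
  A : ∀ l d e γ, sd.A l d e γ = ASs c V l d γ
  dl : ∀ l, sd.dl l = DLs l
  Rp : ∀ u, sd.Rp u = Rdil Bs u

/-- the data of one side, any weights -/
structure SDfH (sdf : (Fin 5 → Eis → Eis → ℝ) → (Eis → Eis → ℝ) → SF 5) (c Y K V V' : ℝ)
    (H : Eis → Eis → ℝ) (X : ℝ) (Bs : UT → ℝ) (Z : ℝ) (Pc : Cd → Prop) : Prop where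
  std : ∀ P PR, StdH (sdf P PR) c Y K V V' H X Bs
  P : ∀ P PR, (sdf P PR).P = P
  PR : ∀ P PR, (sdf P PR).PR = PR
  ok : ∀ P PR, (∀ l d e, 0 ≤ P l d e) → (∀ d e, 0 ≤ PR d e) → (sdf P PR).OK Z Pc

/-- the number of one side at a pair of levels -/
def LVh (af : Eis → Eis → Eis → ℂ) (Ds EE : Finset Eis) (c Y K : ℝ) (H : Eis → Eis → ℝ)
    (V V' E1 B G1 : ℝ) : ℝ :=
  ∑ d ∈ Ds, ∑ e ∈ EE, LVn af {d} {e} c Y K (H d e) V V' E1 B G1 0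

/-- the structured part of one side -/
def RPh (J : Finset (Eis × Eis)) (EE : Finset Eis) (Y K : ℝ) (H : Eis → Eis → ℝ) (V : ℝ)
    (Bs : UT → ℝ) : ℝ :=
  ∑ u ∈ RUs J EE Y, PRZ 1 K (H u.1 u.2.1) V EE u.1 u.2.1 * Rdil Bs u

/-- the weights of the `T`-lines -/
def PHl (b K : ℝ) (H : Eis → Eis → ℝ) (V V' E1 B G1 : ℝ) (EE : Finset Eis) (l : Fin 5)
    (d e : Eis) : ℝ :=
  PZ b K (H d e) V V' E1 B (b * G1) ((H d e * V ^ 2 * V' * E1 ^ 3 * B ^ 2 / K ^ 2) ^ (1 / 3 : ℝ))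
    (1 + (H d e ^ 2 * V ^ 3 / K ^ 2) ^ (1 / 3 : ℝ)) ((H d e ^ 2 * V ^ 3 / K ^ 2) ^ (1 / 2 : ℝ)) EE
    l d e

/-- the weight of the structured part -/
def PRHl (b K : ℝ) (H : Eis → Eis → ℝ) (V : ℝ) (EE : Finset Eis) (d e : Eis) : ℝ :=
  PRZ b K (H d e) V EE d e

lemma Rdil_nonneg {Bs : UT → ℝ} (h : ∀ t, 0 ≤ Bs t) (u : UT) : 0 ≤ Rdil Bs u := by
  unfold Rdil
  split_ifs
  · exact sum_nonneg fun _ _ => sum_nonneg fun _ _ => h _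
  · exact le_rfl

lemma LVn_nonneg' {af : Eis → Eis → Eis → ℂ} {Ds EE : Finset Eis}
    {c Y K H V V' E1 B G1 : ℝ} (hK : 0 < K) (hH : 0 < H) (hV : 0 < V) (hV' : 0 < V')
    (hE1 : 0 ≤ E1) (hG : 0 ≤ G1) : 0 ≤ LVn af Ds EE c Y K H V V' E1 B G1 0 :=
  LVn_nonneg hK.le hH.le hV.le hV'.le hE1 hG le_rfl

section side

variable {sdf : (Fin 5 → Eis → Eis → ℝ) → (Eis → Eis → ℝ) → SF 5}
  {c Y K V V' X Z : ℝ} {H : Eis → Eis → ℝ} {Bs : UT → ℝ} {Pc : Cd → Prop}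
  {P : Fin 5 → Eis → Eis → ℝ} {af : Eis → Eis → Eis → ℂ}
  {PR : Eis → Eis → ℝ} {G0 G1 E1 B b : ℝ} {EE : Finset Eis}

lemma LVh_nonneg {Ds : Finset Eis} (hK : 0 < K) (hH : ∀ d e, 0 < H d e) (hV : 0 < V)
    (hV' : 0 < V') (hE1 : 0 ≤ E1) (hG : 0 ≤ G1) : 0 ≤ LVh af Ds EE c Y K H V V' E1 B G1 :=
  sum_nonneg fun d _ => sum_nonneg fun e _ => LVn_nonneg' hK (hH d e) hV hV' hE1 hG

lemma RPh_nonneg {J : Finset (Eis × Eis)} (hK : 0 < K) (hH : ∀ d e, 0 < H d e) (hV : 0 < V)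
    (hBs : ∀ t, 0 ≤ Bs t) : 0 ≤ RPh J EE Y K H V Bs :=
  sum_nonneg fun u _ => mul_nonneg (PRZ_nonneg zero_le_one hK.le (hH _ _).le hV.le _ _)
    (Rdil_nonneg hBs u)

lemma SDfH.cut (h : SDfH sdf c Y K V V' H X Bs Z Pc)
    (hP : ∀ l d e, 0 ≤ P l d e) (hPR : ∀ d e, 0 ≤ PR d e) {x : Cd} (hx : Pc x)
    (hu : OU Z x.U) :
    CellF (cut1 (Real.sqrt (c * V)) (sdf P PR)) K V V' X af x = CellF (sdf P PR) K V V' X af x :=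
  cut1_CellF fun hg => N1_empty (h.ok P PR hP hPR)
    (fun d e γ => by rw [(h.std P PR).A]; exact subset_rfl) hx hu hg

lemma PHl_nonneg (hb : 0 ≤ b) (hK : 0 < K) (hH : ∀ d e, 0 < H d e) (hV : 0 < V) (hV' : 0 < V')
    (hE1 : 0 ≤ E1) (hG : 0 ≤ G1) (l : Fin 5) (d e : Eis) :
    0 ≤ PHl b K H V V' E1 B G1 EE l d e := by
  have h := hH d e
  exact PZ_nonneg hb hK.le h.le hV.le hV'.le (by positivity) (by positivity) (by positivity)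
    (by positivity) l d e

/-- one term of a line -/
lemma line_de (l : Fin 5) (d e : Eis) {hL B2 B3 B4 h : ℝ} :
    PZ b K h V V' E1 B hL B2 B3 B4 EE l d e *
      ∑ γ ∈ GSs Y l, OMs l γ * ∑ j ∈ ASs c V l d γ, ‖TE0 (cg γ (af d e)) (DLs l d) j e‖ ^ 2 =
      3 * b * hE EE * FH K h V * (BZ K h V V' E1 B hL B2 B3 B4 l *
        TN af (fun e => nm e) {d} {e} (OMs l) (GSs Y l) (ASs c V l) (DLs l)) := by
  unfold PZ TN Pde QH FH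
  rw [sum_singleton, sum_singleton]
  ring

lemma lines_de (d e : Eis) {h : ℝ} (hb : 1 ≤ b) (hK : 0 < K) (hh : 0 < h)
    (hV : 0 < V) (hV' : 0 < V') (hE1 : 0 ≤ E1) (hG : 0 ≤ G1) :
    ∑ l : Fin 5, PZ b K h V V' E1 B (b * G1)
      ((h * V ^ 2 * V' * E1 ^ 3 * B ^ 2 / K ^ 2) ^ (1 / 3 : ℝ))
      (1 + (h ^ 2 * V ^ 3 / K ^ 2) ^ (1 / 3 : ℝ)) ((h ^ 2 * V ^ 3 / K ^ 2) ^ (1 / 2 : ℝ)) EE l d e *
      (∑ γ ∈ GSs Y l, OMs l γ * ∑ j ∈ ASs c V l d γ, ‖TE0 (cg γ (af d e)) (DLs l d) j e‖ ^ 2) ≤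
      3 * b ^ 2 * (hE EE * LVn af {d} {e} c Y K h V V' E1 B G1 0) := by
  rw [sum_congr rfl fun l _ => line_de l d e, Fin.sum_univ_five]
  have hne : ∀ e : Eis, (0 : ℝ) ≤ nm e := fun e => Nat.cast_nonneg _
  have e0 : BZ K h V V' E1 B (b * G1) ((h * V ^ 2 * V' * E1 ^ 3 * B ^ 2 / K ^ 2) ^ (1 / 3 : ℝ))
      (1 + (h ^ 2 * V ^ 3 / K ^ 2) ^ (1 / 3 : ℝ)) ((h ^ 2 * V ^ 3 / K ^ 2) ^ (1 / 2 : ℝ)) 0 = 1 :=
    rfl
  have e1 : BZ K h V V' E1 B (b * G1) ((h * V ^ 2 * V' * E1 ^ 3 * B ^ 2 / K ^ 2) ^ (1 / 3 : ℝ))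
      (1 + (h ^ 2 * V ^ 3 / K ^ 2) ^ (1 / 3 : ℝ)) ((h ^ 2 * V ^ 3 / K ^ 2) ^ (1 / 2 : ℝ)) 1 =
      b * ((h * (V / V')) ^ (1 / 3 : ℝ) * (V' / K) * (E1 ^ 2 * B ^ 2 * G1)) := by
    change (h * (V / V')) ^ (1 / 3 : ℝ) * (V' / K) * (E1 ^ 2 * B ^ 2 * (b * G1)) = _
    ring
  have e2 : BZ K h V V' E1 B (b * G1) ((h * V ^ 2 * V' * E1 ^ 3 * B ^ 2 / K ^ 2) ^ (1 / 3 : ℝ))
      (1 + (h ^ 2 * V ^ 3 / K ^ 2) ^ (1 / 3 : ℝ)) ((h ^ 2 * V ^ 3 / K ^ 2) ^ (1 / 2 : ℝ)) 2 =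
      (h * V ^ 2 * V' * E1 ^ 3 * B ^ 2 / K ^ 2) ^ (1 / 3 : ℝ) := rfl
  have e3 : BZ K h V V' E1 B (b * G1) ((h * V ^ 2 * V' * E1 ^ 3 * B ^ 2 / K ^ 2) ^ (1 / 3 : ℝ))
      (1 + (h ^ 2 * V ^ 3 / K ^ 2) ^ (1 / 3 : ℝ)) ((h ^ 2 * V ^ 3 / K ^ 2) ^ (1 / 2 : ℝ)) 3 =
      1 + (h ^ 2 * V ^ 3 / K ^ 2) ^ (1 / 3 : ℝ) := rfl
  have e4 : BZ K h V V' E1 B (b * G1) ((h * V ^ 2 * V' * E1 ^ 3 * B ^ 2 / K ^ 2) ^ (1 / 3 : ℝ))
      (1 + (h ^ 2 * V ^ 3 / K ^ 2) ^ (1 / 3 : ℝ)) ((h ^ 2 * V ^ 3 / K ^ 2) ^ (1 / 2 : ℝ)) 4 =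
      (h ^ 2 * V ^ 3 / K ^ 2) ^ (1 / 2 : ℝ) := rfl
  rw [e0, e1, e2, e3, e4]
  have f0 : TN af (fun e => nm e) {d} {e} (OMs 0) (GSs Y 0) (ASs c V 0) (DLs 0) =
    TN af (fun e => nm e) {d} {e} (fun _ => 1) {1} (JVc c V) id := rfl
  have f1 : TN af (fun e => nm e) {d} {e} (OMs 1) (GSs Y 1) (ASs c V 1) (DLs 1) =
    TN af (fun e => nm e) {d} {e} (fun _ => 1) {1} (JVc c V) id := rfl
  have f2 : TN af (fun e => nm e) {d} {e} (OMs 2) (GSs Y 2) (ASs c V 2) (DLs 2) =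
    TN af (fun e => nm e) {d} {e} (fun _ => 1) {1} (JVc c V) id := rfl
  have f3 : TN af (fun e => nm e) {d} {e} (OMs 3) (GSs Y 3) (ASs c V 3) (DLs 3) =
    TN af (fun e => nm e) {d} {e} (fun γ => (nm γ : ℝ)⁻¹)
          (primBall ⌊Y⌋₊) (JV c V) (fun _ => 1) := rfl
  have f4 : TN af (fun e => nm e) {d} {e} (OMs 4) (GSs Y 4) (ASs c V 4) (DLs 4) =
    TN af (fun e => nm e) {d} {e} (fun γ => (nm γ : ℝ) ^ (-(1 / 2) : ℝ))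
          (primBall ⌊Y⌋₊) (JV c V) (fun _ => 1) := rfl
  rw [f0, f1, f2, f3, f4]
  have key := alg_SFB (b := b) (E := hE EE) (F := FH K h V)
    (xL := (h * (V / V')) ^ (1 / 3 : ℝ) * (V' / K) * (E1 ^ 2 * B ^ 2 * G1))
    (xS := (h * V ^ 2 * V' * E1 ^ 3 * B ^ 2 / K ^ 2) ^ (1 / 3 : ℝ))
    (x1 := (h ^ 2 * V ^ 3 / K ^ 2) ^ (1 / 3 : ℝ)) (x2 := (h ^ 2 * V ^ 3 / K ^ 2) ^ (1 / 2 : ℝ))
    (T0 := TN af (fun e => nm e) {d} {e} (fun _ => 1) {1} (JVc c V) id)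
    (T1 := TN af (fun e => nm e) {d} {e} (fun γ => (nm γ : ℝ)⁻¹)
          (primBall ⌊Y⌋₊) (JV c V) (fun _ => 1))
    (T2 := TN af (fun e => nm e) {d} {e} (fun γ => (nm γ : ℝ) ^ (-(1 / 2) : ℝ))
          (primBall ⌊Y⌋₊) (JV c V) (fun _ => 1)) (RN := 0) (z := 1) (C := 0)
    hb (hE_nonneg EE) (FH_nonneg hK.le hh.le hV.le) (by positivity) (by positivity)
    (by positivity) (by positivity) (TN_nonneg _ hne _ _ (fun _ => zero_le_one) _ _ _)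
    (TN_nonneg _ hne _ _ (fun _ => by positivity) _ _ _)
    (TN_nonneg _ hne _ _ (fun _ => by positivity) _ _ _) le_rfl le_rfl le_rfl
  unfold LVn
  refine le_trans (le_of_eq ?_) (key.trans (le_of_eq ?_))
  · ring
  · ring

/-- **the total of one side** -/
lemma SFB_H {J : Finset (Eis × Eis)} {sd : SF 5} (hb : 1 ≤ b) (hK : 0 < K)
    (hH : ∀ d e, 0 < H d e) (hV : 0 < V) (hV' : 0 < V') (hE1 : 0 ≤ E1) (hG : 0 ≤ G1)
    (hBs : ∀ t, 0 ≤ Bs t) (hsd : StdH sd c Y K V V' H X Bs)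
    (hP : sd.P = PHl b K H V V' E1 B G1 EE) (hPR : sd.PR = PRHl b K H V EE) :
    SFB (cut1 G0 sd) af (RR J EE) (RUs J EE Z) ≤ 3 * b ^ 2 * (hE EE *
      LVh af (J.image Prod.fst) EE c Y K H V V' E1 B G1 + RPh J EE Z K H V Bs) := by
  have hb0 : 0 ≤ b := by linarith
  have s1 : ∑ l : Fin 5, TMd af ((cut1 G0 sd).P l) ((cut1 G0 sd).om l) ((cut1 G0 sd).Gs l)
      ((cut1 G0 sd).A l) ((cut1 G0 sd).dl l) (RR J EE) ≤
      3 * b ^ 2 * (hE EE * LVh af (J.image Prod.fst) EE c Y K H V V' E1 B G1) := by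
    have e1 : ∀ l : Fin 5, TMd af ((cut1 G0 sd).P l) ((cut1 G0 sd).om l) ((cut1 G0 sd).Gs l)
        ((cut1 G0 sd).A l) ((cut1 G0 sd).dl l) (RR J EE) =
        ∑ d ∈ J.image Prod.fst, ∑ e ∈ EE, PHl b K H V V' E1 B G1 EE l d e *
          ∑ γ ∈ GSs Y l, OMs l γ * ∑ j ∈ ASs c V l d γ,
            ‖TE0 (cg γ (af d e)) (DLs l d) j e‖ ^ 2 := by
      intro l
      change TMd af (sd.P l) (sd.om l) (sd.Gs l) (sd.A l) (sd.dl l) (RR J EE) = _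
      have e : sd.A l = fun d _ γ => ASs c V l d γ := by
        funext d e γ
        exact hsd.A l d e γ
      rw [hP, hsd.om, hsd.Gs, hsd.dl, e]
      unfold TMd RR
      rw [sum_product]
    rw [sum_congr rfl fun l _ => e1 l, sum_comm]
    unfold LVh
    rw [mul_sum, mul_sum]
    refine sum_le_sum fun d _ => ?_
    rw [sum_comm, mul_sum, mul_sum]
    refine sum_le_sum fun e _ => ?_
    exact lines_de d e hb hK (hH d e) hV hV' hE1 hG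
  have hR0 := RPh_nonneg (J := J) (EE := EE) (Y := Z) hK hH hV hBs
  have s2 : ∑ u ∈ RUs J EE Z, (cut1 G0 sd).PR u.1 u.2.1 * (cut1 G0 sd).Rp u =
      b * RPh J EE Z K H V Bs := by
    unfold RPh
    rw [mul_sum]
    refine sum_congr rfl fun u _ => ?_
    change sd.PR u.1 u.2.1 * sd.Rp u = _
    rw [hPR, hsd.Rp]
    unfold PRHl PRZ
    ring
  unfold SFB
  rw [s2, mul_add]
  refine add_le_add s1 (mul_le_mul_of_nonneg_right ?_ hR0)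
  nlinarith

/-- the `ext` of the data with a constant `h` -/
def EXh (K V V' h X S : ℝ) (l : Fin 5) (x : Cd) : ℝ :=
  if l = 1 then (if (nm x.d * nm x.g : ℝ) ≤ S then x.extL K V V' h X else 0) else
    EXs K V V' h X l x

/-- the data with a constant `h` -/
def sdh (sd : SF 5) (K V V' h X S E1 B G1 b : ℝ) (EE : Finset Eis) : SF 5 :=
  { sd with
    H := fun _ => h
    ext := EXh K V V' h X S
    P := PZ b K h V V' E1 B (b * G1) ((h * V ^ 2 * V' * E1 ^ 3 * B ^ 2 / K ^ 2) ^ (1 / 3 : ℝ))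
      (1 + (h ^ 2 * V ^ 3 / K ^ 2) ^ (1 / 3 : ℝ)) ((h ^ 2 * V ^ 3 / K ^ 2) ^ (1 / 2 : ℝ)) EE
    PR := PRZ b K h V EE }

lemma EXh_one {h S : ℝ} (x : Cd) :
    EXh K V V' h X S 1 x = if (nm x.d * nm x.g : ℝ) ≤ S then x.extL K V V' h X else 0 := by
  simp [EXh]

lemma EXh_ne {h S : ℝ} {l : Fin 5} (hl : l ≠ 1) (x : Cd) :
    EXh K V V' h X S l x = EXs K V V' h X l x := by
  simp [EXh, hl]

lemma sdh_lin {sd : SF 5} {h S : ℝ} :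
    Lin (sdh sd K V V' h X S E1 B G1 b EE) K V V' h X S (b * G1) E1 B b
      ((h * V ^ 2 * V' * E1 ^ 3 * B ^ 2 / K ^ 2) ^ (1 / 3 : ℝ))
      (1 + (h ^ 2 * V ^ 3 / K ^ 2) ^ (1 / 3 : ℝ)) ((h ^ 2 * V ^ 3 / K ^ 2) ^ (1 / 2 : ℝ)) EE where
  hH := fun _ => rfl
  e0 := fun x => by
    change EXh K V V' h X S 0 x = 1
    rw [EXh_ne (by decide)]
    rfl
  e1 := fun x => EXh_one x
  P := rfl
  PR := rfl

/-- **from constant `H` to `H (d, e)`** -/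
lemma fibH {ι : Type} {O : Finset ι} {x : ι → Cd} {rv : ℝ}
    (hH : ∀ d e, 0 < H d e)
    (hs : SDfH sdf c Y K V V' H X Bs Z Pc) {P : Fin 5 → Eis → Eis → ℝ} {Q : Eis → Eis → ℝ}
    (hP : P = PHl b K H V V' E1 B G1 EE) (hQ : Q = PRHl b K H V EE)
    (hfib : ∀ h : ℝ, 0 < h → ∀ sd : SF 5,
      Lin sd K V V' h X (Real.sqrt (c * V)) (b * G1) E1 B b
        ((h * V ^ 2 * V' * E1 ^ 3 * B ^ 2 / K ^ 2) ^ (1 / 3 : ℝ))
        (1 + (h ^ 2 * V ^ 3 / K ^ 2) ^ (1 / 3 : ℝ)) ((h ^ 2 * V ^ 3 / K ^ 2) ^ (1 / 2 : ℝ)) EE →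
      (∀ l x, l ≠ 1 → sd.ext l x = EXs K V V' h X l x) →
      sd.Fib K V V' rv X O x) :
    (cut1 (Real.sqrt (c * V)) (sdf P Q)).Fib K V V' rv X O x := by
  have key : ∀ u : UT, ∃ sd : SF 5,
      sd.Fib K V V' rv X O x ∧
      (∀ x : Cd, x.U = u → sd.H x = (cut1 (Real.sqrt (c * V)) (sdf P Q)).H x ∧
        ∀ l, sd.ext l x = (cut1 (Real.sqrt (c * V)) (sdf P Q)).ext l x) ∧
      (∀ l, sd.P l u.1 u.2.1 = (cut1 (Real.sqrt (c * V)) (sdf P Q)).P l u.1 u.2.1) ∧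
      sd.PR u.1 u.2.1 = (cut1 (Real.sqrt (c * V)) (sdf P Q)).PR u.1 u.2.1 := by
    intro u
    obtain ⟨h, hh⟩ : ∃ h, h = H u.1 u.2.1 := ⟨_, rfl⟩
    have hh0 : 0 < h := by rw [hh]; exact hH _ _
    refine ⟨sdh (sdf P Q) K V V' h X (Real.sqrt (c * V)) E1 B G1 b EE,
      hfib h hh0 _ sdh_lin fun l x hl => EXh_ne hl x, ?_, ?_, ?_⟩
    · intro x hx
      have hd : H x.d x.e = h := by
        rw [hh, ← hx]
        rfl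
      refine ⟨?_, fun l => ?_⟩
      · change h = (sdf P Q).H x
        rw [(hs.std P Q).hH, hd]
      · change EXh K V V' h X (Real.sqrt (c * V)) l x = _
        by_cases hl : l = 1
        · subst hl
          rw [EXh_one, cut1_ext1, (hs.std P Q).ext, hd]
          rfl
        · rw [EXh_ne hl, cut1_ext _ _ hl, (hs.std P Q).ext, hd]
    · intro l
      change _ = (sdf P Q).P l u.1 u.2.1
      rw [hs.P, hP, hh]
      rfl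
    · change _ = (sdf P Q).PR u.1 u.2.1
      rw [hs.PR, hQ, hh]
      rfl
  constructor
  · intro l u
    obtain ⟨sd, k1, k2, k3, k4⟩ := key u
    rw [← k3 l]
    refine le_trans (le_of_eq ?_) (k1.T l u)
    refine sum_congr rfl fun i hi => ?_
    obtain ⟨m1, m2⟩ := k2 (x i) (mem_filter.mp hi).2
    rw [m1, m2]
  · intro u
    obtain ⟨sd, k1, k2, k3, k4⟩ := key u
    rw [← k4]
    refine le_trans (le_of_eq ?_) (k1.R u)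
    refine sum_congr rfl fun i hi => ?_
    obtain ⟨m1, m2⟩ := k2 (x i) (mem_filter.mp hi).2
    rw [m1]

end side

/-- **one side** -/
theorem side_H {ε : ℝ} (hε : 0 < ε) : ∃ C : ℝ, 1 ≤ C ∧ ∀ Z : ℝ, 1 ≤ Z →
    ∀ (Pr : Yp → Yp → Prop) (J : Finset (Eis × Eis)) (EE : Finset Eis)
      (af : Eis → Eis → Eis → ℂ) (E0 E1 R B b₀ K V V' X : ℝ) (H : Eis → Eis → ℝ) (c Y G1 : ℝ)
      (Bs : UT → ℝ) (sdf : (Fin 5 → Eis → Eis → ℝ) → (Eis → Eis → ℝ) → SF 5)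
      (Pc : Cd → Prop),
      OKJ J → 0 ≤ R → R ≤ Z → 0 ≤ B → B ≤ Z → 0 ≤ E1 → E1 ≤ Z → (∀ x ∈ J, (nm x.1 : ℝ) ≤ Z) →
      0 < K → 0 < V → 0 < V' → 0 < X → (∀ d e, 0 < H d e) → 0 ≤ G1 →
      (Real.sqrt (c * V) ≤ G1 ∨ (ClsP Pr J E0 R ∧ 1 ≤ G1)) →
      SDfH sdf c Y K V V' H X Bs (Z ^ 5) Pc →
      (∀ i ∈ OI Pr J EE E0 E1 R B Z b₀ K, Pc (cdI i)) → (∀ t, 0 ≤ Bs t) →
      ∃ sd : SF 5, sd.OK (Z ^ 5) Pc ∧ (∀ x, 0 < sd.H x) ∧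
        sd.Fib K V V' ((V' / V) ^ (1 / 6 : ℝ)) X (OI Pr J EE E0 E1 R B Z b₀ K) cdI ∧
        (∀ (cc u : ℝ), ∀ i ∈ OI Pr J EE E0 E1 R B Z b₀ K,
          (∀ P PR, u ≤ cc * CellF (sdf P PR) K V V' X af (cdI i)) →
          u ≤ cc * CellF sd K V V' X af (cdI i)) ∧
        SFB sd af (RR J EE) (RUs J EE (Z ^ 5)) ≤ C * Z ^ ε * (hE EE *
          LVh af (J.image Prod.fst) EE c Y K H V V' E1 B G1 + RPh J EE (Z ^ 5) K H V Bs) := by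
  have hε2 : 0 < ε / 2 := by positivity
  obtain ⟨C2, hC2, h2⟩ := fib_OI hε2
  refine ⟨3 * C2 ^ 2, by nlinarith, ?_⟩
  intro Z hZ Pr J EE af E0 E1 R B b₀ K V V' X H c Y G1 Bs sdf Pc hJ hR0 hRZ hB0 hBZ hE10
    hE1 hJ1 hK hV hV' hX hH hG1 hcl hs hPc hBs
  have hZ0 : 0 < Z := by linarith
  have hZe : 1 ≤ Z ^ (ε / 2) := Real.one_le_rpow hZ hε2.le
  obtain ⟨b, hb⟩ : ∃ b, b = C2 * Z ^ (ε / 2) := ⟨_, rfl⟩
  have hb1 : 1 ≤ b := by rw [hb]; exact one_le_mul_of_one_le_of_one_le hC2 hZe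
  have hb0 : 0 ≤ b := by linarith
  obtain ⟨P, hP⟩ : ∃ P, P = PHl b K H V V' E1 B G1 EE := ⟨_, rfl⟩
  obtain ⟨Q, hQ⟩ : ∃ Q, Q = PRHl b K H V EE := ⟨_, rfl⟩
  have hP0 : ∀ l d e, 0 ≤ P l d e := by
    rw [hP]
    exact PHl_nonneg hb0 hK hH hV hV' hE10 hG1
  have hQ0 : ∀ d e, 0 ≤ Q d e := by
    rw [hQ]
    exact fun d e => PRZ_nonneg hb0 hK.le (hH d e).le hV.le d e
  have hok := hs.ok P Q hP0 hQ0
  have hOK : ∀ i ∈ OI Pr J EE E0 E1 R B Z b₀ K, (cdI i).OK (Z ^ 5) EE := fun i hi =>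
    OI_OK hJ hZ hR0 hRZ hB0 hBZ hE1 hJ1 hi
  refine ⟨cut1 (Real.sqrt (c * V)) (sdf P Q), cut1_OK hok, fun x => ?_,
    fibH hH hs hP hQ fun h hh sd hl hx => ?_, ?_, ?_⟩
  · change 0 < (sdf P Q).H x
    rw [(hs.std P Q).hH]
    exact hH _ _
  · refine h2 Z hZ Pr J EE E0 E1 R B b₀ K V V' X h (Real.sqrt (c * V)) G1
      ((h * V ^ 2 * V' * E1 ^ 3 * B ^ 2 / K ^ 2) ^ (1 / 3 : ℝ))
      (1 + (h ^ 2 * V ^ 3 / K ^ 2) ^ (1 / 3 : ℝ)) ((h ^ 2 * V ^ 3 / K ^ 2) ^ (1 / 2 : ℝ)) b b sd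
      hJ hR0 hRZ hB0 hBZ hE10 hE1 hJ1 hK hV hV' hX hh (by positivity) (by positivity)
      (by positivity) hcl hG1 hb.ge hb.ge hl ?_ ?_ ?_
    · intro i hi
      rw [hx _ _ (by decide)]
      exact (ext_OI hJ hZ hR0 hRZ hB0 hBZ hE1 hJ1 hi hK hV hV' hh hX).1
    · intro i hi
      rw [hx _ _ (by decide)]
      exact (ext_OI hJ hZ hR0 hRZ hB0 hBZ hE1 hJ1 hi hK hV hV' hh hX).2.2.1
    · intro i hi
      rw [hx _ _ (by decide)]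
      exact (ext_OI hJ hZ hR0 hRZ hB0 hBZ hE1 hJ1 hi hK hV hV' hh hX).2.2.2.2.1
  · intro cc u i hi hu
    rw [hs.cut hP0 hQ0 (hPc i hi) (hOK i hi).OU]
    exact hu P Q
  · refine (SFB_H hb1 hK hH hV hV' hE10 hG1 hBs (hs.std P Q) ((hs.P P Q).trans hP)
      ((hs.PR P Q).trans hQ)).trans (le_of_eq ?_)
    have e2 : Z ^ ε = (Z ^ (ε / 2)) ^ 2 := by
      rw [← Real.rpow_natCast, ← Real.rpow_mul hZ0.le]
      congr 1; push_cast; ring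
    rw [e2, hb]
    ring

end Crest.Agent.R017.E3Z548
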