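import Crest.Agent.R017.E3Ka_548

/-!
# Row 17, R8 (E3), the final form (helper548): `pair_H`, one pair of levels, `H = H (d, e)` for
each side, the structured part abstract
-/

set_option autoImplicit false
set_option linter.unusedVariables false

noncomputable section

open Finset
open scoped Classical ComplexConjugate ContDiff

namespace Crest.Agent.R017.E3Z548

open Crest.Agent.R012 Crest.Agent.R012.Eis Crest.Agent.R012.Div277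
open Crest.Agent.R012.LS2 (S mem_S)
open Crest.Agent.R012.Mob705 (pb mem_pb pdiv mem_pdiv)
open Crest.Agent.R017.C70 (JC OKJ)
open Crest.Agent.R017.CM106 (CS FS)
open Crest.Agent.R017.E3D579 (TE0)
open Crest.Agent.R017.E1551 (nmpos)
open Crest.Agent.R017.GrB829 (IsC)
open Crest.Agent.R017.E3A164 (Yp Ys fq Cs mem_Cs)
open Crest.Agent.R017.E3M829 (TC)
open Crest.Agent.R017.E3F548 (SR_prim mem_Ys' Pg Jat Tat MPTr)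
open Crest.Agent.R017.E3T1579 (T3 WQ)
open Crest.Agent.R017.E3T2579 (wL w1L)
open Crest.Agent.R017.E3T829 (UT SU kU hE hE_nonneg cg TMd SF CellF SFB Cd TQ ju jj RR RUs OU Mud
  OI IX cdI OI_OK sE1 sE2 MPT_level ext_OI Z_le5)
open Crest.Agent.R017.E3T829.Cd (Pde)

/-- **the other side** -/
theorem side_H' {ε : ℝ} (hε : 0 < ε) : ∃ C : ℝ, 1 ≤ C ∧ ∀ Z : ℝ, 1 ≤ Z →
    ∀ (Pr : Yp → Yp → Prop) (J : Finset (Eis × Eis)) (EE : Finset Eis)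
      (af : Eis → Eis → Eis → ℂ) (E0 E1 R B b₀ K V V' X : ℝ) (H : Eis → Eis → ℝ) (c Y G1 : ℝ)
      (Bs : UT → ℝ) (sdf : (Fin 5 → Eis → Eis → ℝ) → (Eis → Eis → ℝ) → SF 5)
      (Pc : Cd → Prop),
      OKJ J → 0 ≤ R → R ≤ Z → 0 ≤ B → B ≤ Z → 0 ≤ E1 → E1 ≤ Z → (∀ x ∈ J, (nm x.1 : ℝ) ≤ Z) →
      0 < K → 0 < V → 0 < V' → 0 < X → (∀ d e, 0 < H d e) → 0 ≤ G1 →
      (Real.sqrt (c * V') ≤ G1 ∨ (ClsP Pr J E0 R ∧ 1 ≤ G1)) →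
      SDfH sdf c Y K V' V H X Bs (Z ^ 5) Pc →
      (∀ i ∈ OI Pr J EE E0 E1 R B Z b₀ K, Pc (cdI i).swap) → (∀ t, 0 ≤ Bs t) →
      ∃ sd : SF 5, sd.OK (Z ^ 5) Pc ∧ (∀ x, 0 < sd.H x) ∧
        sd.Fib K V' V ((V' / V) ^ (1 / 6 : ℝ))⁻¹ X (OI Pr J EE E0 E1 R B Z b₀ K)
          (fun i => (cdI i).swap) ∧
        (∀ (cc u : ℝ), ∀ i ∈ OI Pr J EE E0 E1 R B Z b₀ K,
          (∀ P PR, u ≤ cc * CellF (sdf P PR) K V' V X af (cdI i).swap) →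
          u ≤ cc * CellF sd K V' V X af (cdI i).swap) ∧
        SFB sd af (RR J EE) (RUs J EE (Z ^ 5)) ≤ C * Z ^ ε * (hE EE *
          LVh af (J.image Prod.fst) EE c Y K H V' V E1 B G1 + RPh J EE (Z ^ 5) K H V' Bs) := by
  have hε2 : 0 < ε / 2 := by positivity
  obtain ⟨C2, hC2, h2⟩ := fib_OI' hε2
  refine ⟨3 * C2 ^ 2, by nlinarith, ?_⟩
  intro Z hZ Pr J EE af E0 E1 R B b₀ K V V' X H c Y G1 Bs sdf Pc hJ hR0 hRZ hB0 hBZ hE10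
    hE1 hJ1 hK hV hV' hX hH hG1 hcl hs hPc hBs
  have hZ0 : 0 < Z := by linarith
  have hZe : 1 ≤ Z ^ (ε / 2) := Real.one_le_rpow hZ hε2.le
  obtain ⟨b, hb⟩ : ∃ b, b = C2 * Z ^ (ε / 2) := ⟨_, rfl⟩
  have hb1 : 1 ≤ b := by rw [hb]; exact one_le_mul_of_one_le_of_one_le hC2 hZe
  have hb0 : 0 ≤ b := by linarith
  obtain ⟨P, hP⟩ : ∃ P, P = PHl b K H V' V E1 B G1 EE := ⟨_, rfl⟩
  obtain ⟨Q, hQ⟩ : ∃ Q, Q = PRHl b K H V' EE := ⟨_, rfl⟩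
  have hP0 : ∀ l d e, 0 ≤ P l d e := by
    rw [hP]
    exact PHl_nonneg hb0 hK hH hV' hV hE10 hG1
  have hQ0 : ∀ d e, 0 ≤ Q d e := by
    rw [hQ]
    exact fun d e => PRZ_nonneg hb0 hK.le (hH d e).le hV'.le d e
  have hok := hs.ok P Q hP0 hQ0
  have hOK : ∀ i ∈ OI Pr J EE E0 E1 R B Z b₀ K, (cdI i).OK (Z ^ 5) EE := fun i hi =>
    OI_OK hJ hZ hR0 hRZ hB0 hBZ hE1 hJ1 hi
  refine ⟨cut1 (Real.sqrt (c * V')) (sdf P Q), cut1_OK hok, fun x => ?_,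
    fibH hH hs hP hQ fun h hh sd hl hx => ?_, ?_, ?_⟩
  · change 0 < (sdf P Q).H x
    rw [(hs.std P Q).hH]
    exact hH _ _
  · refine h2 Z hZ Pr J EE E0 E1 R B b₀ K V V' X h (Real.sqrt (c * V')) G1
      ((h * V' ^ 2 * V * E1 ^ 3 * B ^ 2 / K ^ 2) ^ (1 / 3 : ℝ))
      (1 + (h ^ 2 * V' ^ 3 / K ^ 2) ^ (1 / 3 : ℝ)) ((h ^ 2 * V' ^ 3 / K ^ 2) ^ (1 / 2 : ℝ)) b b sd
      hJ hR0 hRZ hB0 hBZ hE10 hE1 hJ1 hK hV hV' hX hh (by positivity) (by positivity)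
      (by positivity) hcl hG1 hb.ge hb.ge hl ?_ ?_ ?_
    · intro i hi
      rw [hx _ _ (by decide)]
      exact (ext_OI hJ hZ hR0 hRZ hB0 hBZ hE1 hJ1 hi hK hV hV' hh hX).2.1
    · intro i hi
      rw [hx _ _ (by decide)]
      exact (ext_OI hJ hZ hR0 hRZ hB0 hBZ hE1 hJ1 hi hK hV hV' hh hX).2.2.2.1
    · intro i hi
      rw [hx _ _ (by decide)]
      exact (ext_OI hJ hZ hR0 hRZ hB0 hBZ hE1 hJ1 hi hK hV hV' hh hX).2.2.2.2.2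
  · intro cc u i hi hu
    rw [hs.cut hP0 hQ0 (hPc i hi) (hOK i hi).swap.OU]
    exact hu P Q
  · refine (SFB_H hb1 hK hH hV' hV hE10 hG1 hBs (hs.std P Q) ((hs.P P Q).trans hP)
      ((hs.PR P Q).trans hQ)).trans (le_of_eq ?_)
    have e2 : Z ^ ε = (Z ^ (ε / 2)) ^ 2 := by
      rw [← Real.rpow_natCast, ← Real.rpow_mul hZ0.le]
      congr 1; push_cast; ring
    rw [e2, hb]
    ring

/-- **one pair of levels** -/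
theorem pair_H {A Bw : ℕ} (hA : 1 < A) (hB : 1 < Bw) {Rw : ℝ} (hRw : 0 ≤ Rw) {h : ℝ → ℝ}
    (hh : ContDiff ℝ ∞ h) (hhc : HasCompactSupport h) {w1 : ℝ → ℝ}
    (hw : ∀ x, w1 x ≠ 0 → 0 < x ∧ |Real.log x| ≤ Rw)
    (hw1 : ∀ x, 0 < x → h (Real.log x) ≠ 0 → w1 x = 1) {ε : ℝ} (hε : 0 < ε) :
    ∃ C : ℝ, 0 ≤ C ∧
    ∀ (Om Om' : ℝ → ℂ) (Mb : ℝ), 0 ≤ Mb → ContDiff ℝ ∞ Om → ContDiff ℝ ∞ Om' →
      (∀ n ≤ A + 2, ∀ x, ‖iteratedDeriv n Om x‖ ≤ Mb) →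
      (∀ n ≤ A + 2, ∀ x, ‖iteratedDeriv n Om' x‖ ≤ Mb) →
    ∀ (V V' τ : ℝ) (κ κ' : ℂ), 0 < V → 0 < V' → ‖κ‖ ≤ 1 → ‖κ'‖ ≤ 1 →
    ∀ (Z : ℝ), 1 ≤ Z → ∀ (Pr : Yp → Yp → Prop) (J : Finset (Eis × Eis))
      (om om' : Eis × Eis → ℂ) (af : Eis → Eis → Eis → ℂ) (EE : Finset Eis)
      (E0 E1 R B b₀ K X : ℝ) (H H' : Eis → Eis → ℝ) (c Y G1 G1' cc : ℝ)
      (Bs Bs' : UT → ℝ) (sdf sdf' : (Fin 5 → Eis → Eis → ℝ) → (Eis → Eis → ℝ) → SF 5)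
      (Pc : Cd → Prop),
      TC (T3 af) → (∀ d e, FS (af d e)) → OKJ J → (∀ d e, e ∉ EE → ∀ j, T3 af d e j = 0) →
      0 < K → 0 ≤ R → R ≤ Z → 0 ≤ B → B ≤ Z → 0 ≤ E1 → E1 ≤ Z →
      (∀ x ∈ J, (nm x.1 : ℝ) ≤ Z) → (∀ x ∈ J, (nm x.2 : ℝ) ≤ R) →
      WQ J om E0 R (wL κ h Om τ V) → WQ J om' E0 R (wL κ' h Om' τ V') →
      0 < X → (∀ d e, 0 < H d e) → (∀ d e, 0 < H' d e) → 0 < cc → 0 ≤ G1 → 0 ≤ G1' →
      (Real.sqrt (c * V) ≤ G1 ∨ (ClsP Pr J E0 R ∧ 1 ≤ G1)) →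
      (Real.sqrt (c * V') ≤ G1' ∨ (ClsP Pr J E0 R ∧ 1 ≤ G1')) →
      SDfH sdf c Y K V V' H X Bs (Z ^ 5) Pc → SDfH sdf' c Y K V' V H' X Bs' (Z ^ 5) Pc →
      (∀ i ∈ OI Pr J EE E0 E1 R B Z b₀ K, Pc (cdI i) ∧ Pc (cdI i).swap) →
      (∀ P PR, ∀ i ∈ OI Pr J EE E0 E1 R B Z b₀ K,
        sE1 A Bw K V V' af (w1L w1 V) i ≤ cc * CellF (sdf P PR) K V V' X af (cdI i)) →
      (∀ P PR, ∀ i ∈ OI Pr J EE E0 E1 R B Z b₀ K,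
        sE2 A Bw K V V' af (w1L w1 V') i ≤ cc * CellF (sdf' P PR) K V' V X af (cdI i).swap) →
      (∀ t, 0 ≤ Bs t) → (∀ t, 0 ≤ Bs' t) →
      ∑ q ∈ S R, ∑ t ∈ pb E1, MPTr Pr A Bw K B V V' (Z ^ 5) J om om' (T3 af) E0 R b₀ q t ≤
        C * cc * Mb ^ 2 * (1 + |τ|) ^ A * Z ^ ε * (hE EE *
          (LVh af (J.image Prod.fst) EE c Y K H V V' E1 B G1 +
            LVh af (J.image Prod.fst) EE c Y K H' V' V E1 B G1') +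
          (RPh J EE (Z ^ 5) K H V Bs + RPh J EE (Z ^ 5) K H' V' Bs')) := by
  have hε6 : 0 < ε / 6 := by positivity
  obtain ⟨C1, hC1, h1⟩ := MPT_level hA hB hRw hh hhc hw hw1 hε6
  obtain ⟨C2, hC2, h2⟩ := side_H hε6
  obtain ⟨C3, hC3, h3⟩ := side_H' hε6
  refine ⟨C1 * (C2 + C3), by positivity, ?_⟩
  intro Om Om' Mb hMb hOm hOm' hOb hOb' V V' τ κ κ' hV hV' hκ hκ' Z hZ Pr J om om' af EE E0 E1 R B
    b₀ K X H H' c Y G1 G1' cc Bs Bs' sdf sdf' Pc hT haf hJ hEE hK hR0 hRZ hB0 hBZ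
    hE10 hE1 hJ1 hJ2 hwq hwq' hX hH hH' hcc hG1 hG1' hcl hcl' hs hs' hPc hu hu' hBs hBs'
  have hZ0 : 0 < Z := by linarith
  obtain ⟨sd, a1, a2, a3, a4, a5⟩ := h2 Z hZ Pr J EE af E0 E1 R B b₀ K V V' X H c Y G1 Bs
    sdf Pc hJ hR0 hRZ hB0 hBZ hE10 hE1 hJ1 hK hV hV' hX hH hG1 hcl hs (fun i hi => (hPc i hi).1)
    hBs
  obtain ⟨sd', a1', a2', a3', a4', a5'⟩ := h3 Z hZ Pr J EE af E0 E1 R B b₀ K V V' X H' c Y G1'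
    Bs' sdf' Pc hJ hR0 hRZ hB0 hBZ hE10 hE1 hJ1 hK hV hV' hX hH' hG1' hcl' hs'
    (fun i hi => (hPc i hi).2) hBs'
  have key := h1 Om Om' Mb hMb hOm hOm' hOb hOb' V V' τ κ κ' hV hV' hκ hκ' Z hZ Pr J om om' af EE
    E0 E1 R B b₀ K ((V' / V) ^ (1 / 6 : ℝ)) X cc 5 sd sd' Pc hT haf hJ hEE hK hR0 hRZ hB0 hBZ hE1
    hJ1 hJ2 hwq hwq' (by positivity) hX hcc a1 a1'
    (fun i _ => ⟨a2 _, a2' _⟩) a3 a3' hPc
    (fun i hi => a4 cc _ i hi (fun P PR => hu P PR i hi))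
    (fun i hi => a4' cc _ i hi (fun P PR => hu' P PR i hi))
  have hhE := hE_nonneg EE
  have n1 : 0 ≤ hE EE * LVh af (J.image Prod.fst) EE c Y K H V V' E1 B G1 +
      RPh J EE (Z ^ 5) K H V Bs :=
    add_nonneg (mul_nonneg hhE (LVh_nonneg hK hH hV hV' hE10 hG1)) (RPh_nonneg hK hH hV hBs)
  have n2 : 0 ≤ hE EE * LVh af (J.image Prod.fst) EE c Y K H' V' V E1 B G1' +
      RPh J EE (Z ^ 5) K H' V' Bs' :=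
    add_nonneg (mul_nonneg hhE (LVh_nonneg hK hH' hV' hV hE10 hG1')) (RPh_nonneg hK hH' hV' hBs')
  obtain ⟨L1, hL1⟩ : ∃ L1, L1 = LVh af (J.image Prod.fst) EE c Y K H V V' E1 B G1 := ⟨_, rfl⟩
  obtain ⟨L2, hL2⟩ : ∃ L2, L2 = LVh af (J.image Prod.fst) EE c Y K H' V' V E1 B G1' := ⟨_, rfl⟩
  obtain ⟨P1, hP1⟩ : ∃ P1, P1 = RPh J EE (Z ^ 5) K H V Bs := ⟨_, rfl⟩
  obtain ⟨P2, hP2⟩ : ∃ P2, P2 = RPh J EE (Z ^ 5) K H' V' Bs' := ⟨_, rfl⟩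
  rw [← hL1, ← hP1] at a5 n1
  rw [← hL2, ← hP2] at a5' n2
  rw [← hL1, ← hP1, ← hL2, ← hP2]
  have e5 : (Z ^ 5) ^ (ε / 6) = (Z ^ (ε / 6)) ^ 5 := by
    rw [← Real.rpow_natCast, ← Real.rpow_natCast, ← Real.rpow_mul hZ0.le, ← Real.rpow_mul hZ0.le]
    congr 1; ring
  have e6 : Z ^ ε = (Z ^ (ε / 6)) ^ 6 := by
    rw [← Real.rpow_natCast, ← Real.rpow_mul hZ0.le]
    congr 1; push_cast; ring
  rw [e6]
  rw [e5] at key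
  obtain ⟨z, hz⟩ : ∃ z, z = Z ^ (ε / 6) := ⟨_, rfl⟩
  have hz0 : 0 ≤ z := by rw [hz]; positivity
  rw [← hz] at a5 a5' key ⊢
  have hc0 : 0 ≤ C1 * cc * Mb ^ 2 * (1 + |τ|) ^ A * z ^ 5 := by positivity
  have k3 : SFB sd af (RR J EE) (RUs J EE (Z ^ 5)) + SFB sd' af (RR J EE) (RUs J EE (Z ^ 5)) ≤
      (C2 + C3) * z * (hE EE * (L1 + L2) + (P1 + P2)) := by
    refine (add_le_add a5 a5').trans ?_
    have m1 : 0 ≤ C3 * z * (hE EE * L1 + P1) := by positivity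
    have m2 : 0 ≤ C2 * z * (hE EE * L2 + P2) := by positivity
    linarith
  refine key.trans ((mul_le_mul_of_nonneg_left k3 hc0).trans (le_of_eq ?_))
  ring

end Crest.Agent.R017.E3Z548
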