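import Crest.Agent.R017.HB1_645
import Crest.Agent.R012.Weight_600

/-!
# Row 17: Heath-Brown's identity with smooth separated pieces

`hb_smooth`: a smoothed Möbius sum of a completely multiplicative function is bounded by a sum over
`O(log^{2L-1})` boxes of integrals (with rapidly decaying weight) of products of smooth pieces.
-/

set_option autoImplicit false

noncomputable section

namespace Crest.Agent.R017.HB645

open Crest.Agent.R012 Crest.Agent.R012.Eis Crest.Agent.R012.PSer47 Crest.Agent.R012.Weight600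
open MeasureTheory Set
open scoped ContDiff

/-! ### the partition of unity -/

/-- smooth step on `[0,1]` -/
def sg (u : ℝ) : ℝ := Phi (2 * u - 1)

lemma sg_of_le {u : ℝ} (h : u ≤ 0) : sg u = 0 := Phi_of_le (by linarith)
lemma sg_of_ge {u : ℝ} (h : 1 ≤ u) : sg u = 1 := Phi_of_ge (by linarith)
lemma sg_nonneg (u : ℝ) : 0 ≤ sg u := Phi_nonneg _
lemma sg_le_one (u : ℝ) : sg u ≤ 1 := Phi_le_one _
lemma sg_mono : Monotone sg := fun a b h => monotone_Phi (by linarith)
lemma contDiff_sg : ContDiff ℝ ∞ sg := contDiff_Phi.comp (by fun_prop)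

/-- smooth bump on `[-1,1]` with `∑ₖ hh (u - k) = 1` -/
def hh (u : ℝ) : ℝ := sg (u + 1) - sg u

lemma hh_nonneg (u : ℝ) : 0 ≤ hh u := sub_nonneg.mpr (sg_mono (by linarith))
lemma hh_le_one (u : ℝ) : hh u ≤ 1 := by unfold hh; linarith [sg_le_one (u + 1), sg_nonneg u]
lemma hh_left {u : ℝ} (h : u ≤ -1) : hh u = 0 := by
  unfold hh; rw [sg_of_le (by linarith), sg_of_le (by linarith), sub_self]
lemma hh_right {u : ℝ} (h : 1 ≤ u) : hh u = 0 := by
  unfold hh; rw [sg_of_ge (by linarith), sg_of_ge (by linarith), sub_self]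
lemma abs_lt_of_hh {u : ℝ} (h : hh u ≠ 0) : |u| < 1 := by
  rw [abs_lt]
  constructor
  · by_contra hc; exact h (hh_left (not_lt.mp hc))
  · by_contra hc; exact h (hh_right (not_lt.mp hc))
lemma contDiff_hh : ContDiff ℝ ∞ hh := by
  unfold hh
  exact (contDiff_sg.comp (by fun_prop)).sub contDiff_sg

lemma sum_hh (u : ℝ) (K : ℕ) :
    ∑ k ∈ Finset.range (K + 1), hh (u - k) = sg (u + 1) - sg (u - K) := by
  induction K with
  | zero => simp [hh]
  | succ K ih =>
    rw [Finset.sum_range_succ, ih, hh]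
    push_cast
    rw [show u - ((K : ℝ) + 1) + 1 = u - K by ring]
    ring

lemma sum_hh_eq_one {u : ℝ} {K : ℕ} (h0 : 0 ≤ u) (h1 : u ≤ K) :
    ∑ k ∈ Finset.range (K + 1), hh (u - k) = 1 := by
  rw [sum_hh, sg_of_ge (by linarith), sg_of_le (by linarith), sub_zero]

/-! ### pieces -/

/-- general piece at the scale `e ^ κ` twisted by `N ^ {it}` -/
def PG (g : Eis → ℂ) (κ : ℕ) (t : ℝ) : ℂ :=
  ∑ b ∈ primBall ⌊Real.exp (κ + 1)⌋₊, g b * pw t (nm b) * (hh (Real.log (nm b) - κ) : ℂ)

/-- cut-off Möbius function -/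
def cM (z : ℝ) (b : Eis) : ℂ := (muE b : ℂ) * ((1 - sg (Real.log (nm b) - Real.log z) : ℝ) : ℂ)

/-- smooth piece -/
def PS (ψ : Eis → ℂ) (κ : ℕ) (t : ℝ) : ℂ :=
  ∑ b ∈ primBall ⌊Real.exp (κ + 1)⌋₊, ψ b * pw t (nm b) * (hh (Real.log (nm b) - κ) : ℂ)

/-- short Möbius piece -/
def PM (ψ : Eis → ℂ) (z : ℝ) (κ : ℕ) (t : ℝ) : ℂ :=
  ∑ b ∈ primBall ⌊Real.exp (κ + 1)⌋₊, (cM z b * ψ b) * pw t (nm b) * (hh (Real.log (nm b) - κ) : ℂ)

lemma PS_eq (ψ : Eis → ℂ) : PS ψ = PG ψ := rfl

lemma PM_eq (ψ : Eis → ℂ) (z : ℝ) : PM ψ z = PG fun b => cM z b * ψ b := rfl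

/-- enlarging the range of summation does not change a piece -/
lemma PG_eq (g : Eis → ℂ) {κ : ℕ} {X : ℕ} (hX : Real.exp (κ + 1) ≤ X) (t : ℝ) :
    PG g κ t = ∑ b ∈ primBall X, g b * pw t (nm b) * (hh (Real.log (nm b) - κ) : ℂ) := by
  unfold PG
  apply Finset.sum_subset
  · intro b hb
    rw [mem_primBall] at hb ⊢
    refine ⟨hb.1.trans ?_, hb.2⟩
    exact Nat.floor_le_of_le hX
  · intro b hb hb2
    rw [mem_primBall] at hb hb2
    have h1 : ¬ nm b ≤ ⌊Real.exp (κ + 1)⌋₊ := fun h => hb2 ⟨h, hb.2⟩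
    rw [not_le, Nat.floor_lt (Real.exp_pos _).le] at h1
    rw [hh_right, Complex.ofReal_zero, mul_zero]
    have h2 : ((κ : ℝ) + 1) < Real.log (nm b) := by
      rw [Real.lt_log_iff_exp_lt ((Real.exp_pos _).trans h1)]
      exact h1
    linarith

lemma continuous_PG (g : Eis → ℂ) (κ : ℕ) : Continuous (PG g κ) := by
  unfold PG
  refine continuous_finsetSum _ fun b _ => ?_
  exact (continuous_const.mul (continuous_pw_left _)).mul continuous_const

lemma norm_PG_le (g : Eis → ℂ) (κ : ℕ) : ∃ B : ℝ, 0 ≤ B ∧ ∀ t, ‖PG g κ t‖ ≤ B := by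
  refine ⟨∑ b ∈ primBall ⌊Real.exp (κ + 1)⌋₊, ‖g b‖, by positivity, fun t => ?_⟩
  unfold PG
  refine (norm_sum_le _ _).trans (Finset.sum_le_sum fun b _ => ?_)
  rw [norm_mul, norm_mul, norm_pw, mul_one, Complex.norm_real, Real.norm_of_nonneg (hh_nonneg _)]
  exact mul_le_of_le_one_right (norm_nonneg _) (hh_le_one _)

/-- the Möbius pieces vanish beyond the cut-off -/
lemma PM_eq_zero (ψ : Eis → ℂ) {z : ℝ} {κ : ℕ} (h : Real.log z + 2 ≤ κ) (t : ℝ) :
    PM ψ z κ t = 0 := by
  unfold PM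
  refine Finset.sum_eq_zero fun b _ => ?_
  by_cases hb : hh (Real.log (nm b) - κ) = 0
  · rw [hb, Complex.ofReal_zero, mul_zero]
  · have h1 := abs_lt.mp (abs_lt_of_hh hb)
    have h2 : sg (Real.log (nm b) - Real.log z) = 1 := sg_of_ge (by linarith [h1.1])
    simp [cM, h2]

/-! ### expansion of a tuple sum into boxes -/

section expand

variable {ι : Type*} [Fintype ι] [DecidableEq ι]

lemma log_nm_nonneg {b : Eis} (hb : IsPrim b) : 0 ≤ Real.log (nm b) := by
  apply Real.log_nonneg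
  exact_mod_cast nm_pos.mpr hb.ne_zero

lemma log_nm_prod (x : ι → Eis) (hx : ∀ i, IsPrim (x i)) (s : Finset ι) :
    Real.log (nm (∏ i ∈ s, x i)) = ∑ i ∈ s, Real.log (nm (x i)) := by
  induction s using Finset.induction_on with
  | empty => simp
  | insert a s ha ih =>
    rw [Finset.prod_insert ha, Finset.sum_insert ha, nm_mul, ← ih]
    push_cast
    have h1 : (0 : ℝ) < nm (x a) := by exact_mod_cast nm_pos.mpr (hx a).ne_zero
    have h2 : ∏ i ∈ s, x i ≠ 0 := Finset.prod_ne_zero_iff.mpr fun i _ => (hx i).ne_zero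
    have h3 : (0 : ℝ) < nm (∏ i ∈ s, x i) := by exact_mod_cast nm_pos.mpr h2
    exact Real.log_mul h1.ne' h3.ne'

lemma osc_sum (t : ℝ) (u : ι → ℝ) (s : Finset ι) : osc t (∑ i ∈ s, u i) = ∏ i ∈ s, osc t (u i) := by
  induction s using Finset.induction_on with
  | empty => simp [osc_zero_right]
  | insert a s ha ih => rw [Finset.sum_insert ha, Finset.prod_insert ha, osc_add_right, ih]

open Classical in
/-- admissible boxes -/
def adm (ι : Type*) [Fintype ι] [DecidableEq ι] (K : ℕ) (y R : ℝ) : Finset (ι → ℕ) :=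
  (Fintype.piFinset fun _ : ι => Finset.range (K + 1)).filter
    fun κ => |∑ i, (κ i : ℝ) - y| ≤ R

/-- **box expansion** -/
theorem box_expand {V : ℝ → ℂ} (hV : ContDiff ℝ ∞ V) (hV2 : HasCompactSupport V) {β : ℝ}
    (hβ : ∀ u, β < |u| → V u = 0) (g : ι → Eis → ℂ) {K X : ℕ} {y : ℝ} (hK : y + β ≤ K)
    (hX : Real.exp (K + 1) ≤ X) :
    ∑ x ∈ Fintype.piFinset (fun _ : ι => primBall X),
      (∏ i, g i (x i)) * V (Real.log (nm (∏ i, x i)) - y) =
    ∑ κ ∈ adm ι K y (β + Fintype.card ι), ∫ t : ℝ, ker V t * osc t (-y) * ∏ i, PG (g i) (κ i) t := by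
  classical
  -- the weight of a box
  have key : ∀ x ∈ Fintype.piFinset (fun _ : ι => primBall X),
      (∏ i, g i (x i)) * V (Real.log (nm (∏ i, x i)) - y) =
      ∑ κ ∈ adm ι K y (β + Fintype.card ι), (∏ i, (g i (x i) * (hh (Real.log (nm (x i)) - κ i) : ℂ))) *
        V (Real.log (nm (∏ i, x i)) - y) := by
    intro x hx
    rw [Fintype.mem_piFinset] at hx
    have hxp : ∀ i, IsPrim (x i) := fun i => (mem_primBall.mp (hx i)).2
    by_cases hv : V (Real.log (nm (∏ i, x i)) - y) = 0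
    · simp [hv]
    · have hu : |Real.log (nm (∏ i, x i)) - y| ≤ β := by
        by_contra hc; exact hv (hβ _ (not_le.mp hc))
      rw [log_nm_prod x hxp] at hu
      have hle : ∀ i, Real.log (nm (x i)) ≤ K := by
        intro i
        have h1 : Real.log (nm (x i)) ≤ ∑ i, Real.log (nm (x i)) :=
          Finset.single_le_sum (f := fun i => Real.log (nm (x i)))
            (fun j _ => log_nm_nonneg (hxp j)) (Finset.mem_univ i)
        have h2 := (abs_le.mp hu).2
        linarith
      rw [← Finset.sum_mul]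
      congr 1
      have e1 : ∏ i, g i (x i) = ∑ κ ∈ Fintype.piFinset (fun _ : ι => Finset.range (K + 1)),
          ∏ i, (g i (x i) * (hh (Real.log (nm (x i)) - κ i) : ℂ)) := by
        rw [← Finset.prod_univ_sum (fun _ : ι => Finset.range (K + 1))
          (fun i k => g i (x i) * (hh (Real.log (nm (x i)) - k) : ℂ))]
        refine Finset.prod_congr rfl fun i _ => ?_
        rw [← Finset.mul_sum]
        have h1 := sum_hh_eq_one (log_nm_nonneg (hxp i)) (hle i)
        have h2 := congrArg Complex.ofReal h1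
        push_cast at h2
        rw [h2, mul_one]
      rw [e1]
      symm
      apply Finset.sum_subset (Finset.filter_subset _ _)
      intro κ hκ hκ2
      by_contra hne
      apply hκ2
      refine Finset.mem_filter.mpr ⟨hκ, ?_⟩
      have h1 : ∀ i, |Real.log (nm (x i)) - κ i| ≤ 1 := by
        intro i
        have h2 := Finset.prod_ne_zero_iff.mp hne i (Finset.mem_univ i)
        have h3 : hh (Real.log (nm (x i)) - κ i) ≠ 0 := by
          intro h0; rw [h0] at h2; simp at h2
        exact (abs_lt_of_hh h3).le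
      have h2 : |∑ i, Real.log (nm (x i)) - ∑ i, (κ i : ℝ)| ≤ Fintype.card ι := by
        rw [← Finset.sum_sub_distrib]
        refine (Finset.abs_sum_le_sum_abs _ _).trans ?_
        refine (Finset.sum_le_sum fun i _ => h1 i).trans ?_
        simp
      have h3 := abs_le.mp h2
      have h4 := abs_le.mp hu
      rw [abs_le]
      constructor <;> linarith [h3.1, h3.2, h4.1, h4.2]
  rw [Finset.sum_congr rfl key, Finset.sum_comm]
  refine Finset.sum_congr rfl fun κ hκ => ?_
  have hκK : ∀ i, κ i ≤ K := by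
    intro i
    have := Finset.mem_range.mp (Fintype.mem_piFinset.mp (Finset.mem_filter.mp hκ).1 i)
    omega
  -- Mellin separation
  have e2 : ∀ t : ℝ, ker V t * osc t (-y) * ∏ i, PG (g i) (κ i) t =
      ∑ x ∈ Fintype.piFinset (fun _ : ι => primBall X),
        (∏ i, (g i (x i) * (hh (Real.log (nm (x i)) - κ i) : ℂ))) *
          (ker V t * osc t (Real.log (nm (∏ i, x i)) - y)) := by
    intro t
    have e3 : ∏ i, PG (g i) (κ i) t = ∑ x ∈ Fintype.piFinset (fun _ : ι => primBall X),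
        ∏ i, (g i (x i) * pw t (nm (x i)) * (hh (Real.log (nm (x i)) - κ i) : ℂ)) := by
      rw [← Finset.prod_univ_sum (fun _ : ι => primBall X)
        (fun i b => g i b * pw t (nm b) * (hh (Real.log (nm b) - κ i) : ℂ))]
      refine Finset.prod_congr rfl fun i _ => ?_
      apply PG_eq
      refine le_trans ?_ hX
      have : (κ i : ℝ) ≤ K := by exact_mod_cast hκK i
      exact Real.exp_le_exp.mpr (by linarith)
    rw [e3, Finset.mul_sum]
    refine Finset.sum_congr rfl fun x hx => ?_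
    rw [Fintype.mem_piFinset] at hx
    have hxp : ∀ i, IsPrim (x i) := fun i => (mem_primBall.mp (hx i)).2
    rw [log_nm_prod x hxp, sub_eq_add_neg, osc_add_right, osc_sum]
    have e4 : ∏ i, (g i (x i) * pw t (nm (x i)) * (hh (Real.log (nm (x i)) - κ i) : ℂ)) =
        (∏ i, (g i (x i) * (hh (Real.log (nm (x i)) - κ i) : ℂ))) *
          ∏ i, osc t (Real.log (nm (x i))) := by
      rw [← Finset.prod_mul_distrib]
      refine Finset.prod_congr rfl fun i _ => ?_
      unfold pw
      ring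
    rw [e4]
    ring
  rw [integral_congr_ae (Filter.Eventually.of_forall e2)]
  rw [integral_finsetSum]
  · refine Finset.sum_congr rfl fun x _ => ?_
    rw [integral_const_mul, inversion_smooth hV hV2]
  · intro x _
    apply Integrable.const_mul
    refine (ker_integrable hV hV2).mul_bdd (c := 1) ?_ ?_
    · exact (continuous_osc_left _).aestronglyMeasurable
    · exact Filter.Eventually.of_forall fun u => (norm_osc _ _).le

/-- norm form of the box expansion, with rapidly decaying weight -/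
theorem norm_box_expand {V : ℝ → ℂ} (hV : ContDiff ℝ ∞ V) (hV2 : HasCompactSupport V) {β : ℝ}
    (hβ : ∀ u, β < |u| → V u = 0) {k : ℕ} (hk : 2 ≤ k) {C : ℝ}
    (hC : ∀ t, ‖ker V t‖ * (1 + |t|) ^ k ≤ C) (g : ι → Eis → ℂ) {K X : ℕ} {y : ℝ}
    (hK : y + β ≤ K) (hX : Real.exp (K + 1) ≤ X) :
    ‖∑ x ∈ Fintype.piFinset (fun _ : ι => primBall X),
      (∏ i, g i (x i)) * V (Real.log (nm (∏ i, x i)) - y)‖ ≤
    C * ∑ κ ∈ adm ι K y (β + Fintype.card ι),
      ∫ t : ℝ, ((1 + |t|) ^ k)⁻¹ * ∏ i, ‖PG (g i) (κ i) t‖ := by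
  rw [box_expand hV hV2 hβ g hK hX, Finset.mul_sum]
  refine (norm_sum_le _ _).trans (Finset.sum_le_sum fun κ _ => ?_)
  rw [← integral_const_mul]
  choose B hB0 hB using fun i => norm_PG_le (g i) (κ i)
  have hcont : Continuous fun t => ∏ i, ‖PG (g i) (κ i) t‖ :=
    continuous_finsetProd _ fun i _ => (continuous_PG (g i) (κ i)).norm
  have hbd : ∀ t, ∏ i, ‖PG (g i) (κ i) t‖ ≤ ∏ i, B i := fun t =>
    Finset.prod_le_prod (fun i _ => norm_nonneg _) fun i _ => hB i t
  have hpos : ∀ t : ℝ, 0 < 1 + |t| := fun t => by positivity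
  have hint1 : Integrable fun t : ℝ => ((1 + |t|) ^ k)⁻¹ := by
    have h2 : Integrable fun t : ℝ => (1 + ‖t‖) ^ (-(2 : ℝ)) :=
      integrable_one_add_norm (by simp)
    refine h2.mono' ?_ ?_
    · refine Continuous.aestronglyMeasurable ?_
      refine Continuous.inv₀ (by fun_prop) fun t => ?_
      exact (pow_pos (hpos t) k).ne'
    · refine Filter.Eventually.of_forall fun t => ?_
      rw [Real.norm_of_nonneg (by have := hpos t; positivity)]
      rw [Real.rpow_neg (by have := hpos t; rw [Real.norm_eq_abs]; exact this.le), Real.norm_eq_abs]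
      refine inv_anti₀ (by have := hpos t; positivity) ?_
      rw [show (2 : ℝ) = ((2 : ℕ) : ℝ) by norm_num, Real.rpow_natCast]
      exact pow_le_pow_right₀ (by linarith [abs_nonneg t]) hk
  refine norm_integral_le_of_norm_le ?_ ?_
  · apply Integrable.const_mul
    refine hint1.mul_bdd (c := ∏ i, B i) hcont.aestronglyMeasurable ?_
    refine Filter.Eventually.of_forall fun t => ?_
    rw [Real.norm_of_nonneg (Finset.prod_nonneg fun i _ => norm_nonneg _)]
    exact hbd t
  · refine Filter.Eventually.of_forall fun t => ?_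
    rw [norm_mul, norm_mul, norm_osc, mul_one, norm_prod, ← mul_assoc]
    refine mul_le_mul_of_nonneg_right ?_ (Finset.prod_nonneg fun i _ => norm_nonneg _)
    have h1 := hC t
    have h2 := pow_pos (hpos t) k
    rw [← div_eq_mul_inv, le_div_iff₀ h2]
    exact h1

end expand

end Crest.Agent.R017.HB645
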