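import Crest.Agent.R017.E3N_548
import Crest.Agent.R017.E3T2_579
import Crest.Agent.R017.HB2_645

/-!
# Row 17, R8 (E3) (Z1) (helper548): the levels, the sequence `α (d m)`

* `exists_w1` : the fixed window of the levels
* `LI`, `omk`, `om_sum`, `omk_win`, `omk_WQ`, `mem_LI`, `card_LI` : the levels `V = e ^ k`
* `afT`, `T3_afT`, .. : `Tal α` as `T3 (afT ..)` on a window
* `Fy_congr`, `Dg_congr`, `EF_congr`, `SteT_congr`, `XT`-free congruences in `T`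
* `Z1` : the mean square up to the modes of the pairs of levels
-/

set_option autoImplicit false
set_option linter.unusedVariables false

noncomputable section

open Finset
open scoped Classical ComplexConjugate ContDiff

namespace Crest.Agent.R017.E3Kc548

open Crest.Agent.R012 Crest.Agent.R012.Eis Crest.Agent.R012.Div277
open Crest.Agent.R012.MC (Wgt)
open Crest.Agent.R012.LS2 (S mem_S)
open Crest.Agent.R012.Mob705 (pb mem_pb pdiv mem_pdiv)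
open Crest.Agent.R012.Weight600 (pw)
open Crest.Agent.R017.C70 (JC OKJ JW okJ_JW)
open Crest.Agent.R017.CM106 (CS FS)
open Crest.Agent.R017.HB645 (hh hh_nonneg hh_le_one abs_lt_of_hh contDiff_hh sum_hh_eq_one)
open Crest.Agent.R017.E3D579 (TE0 mem_JW_fq)
open Crest.Agent.R017.E1551 (nmpos)
open Crest.Agent.R017.PX764 (n6 Gh)
open Crest.Agent.R017.GrB829 (IsC)
open Crest.Agent.R017.E3A164 (Yp Ys fq Cs mem_Cs be Fy)
open Crest.Agent.R017.E3M829 (TC Tal Sg W0)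
open Crest.Agent.R017.E3F548
open Crest.Agent.R017.E3T1579 (T3 WQ)
open Crest.Agent.R017.E3T2579 (wL WQ_level Pq Pq_pos)

/-! ### the window -/

/-- the fixed window of the levels -/
lemma exists_w1 : ∃ w1 : ℝ → ℝ, Wgt w1 ∧ (∀ x, w1 x ≠ 0 → 0 < x ∧ |Real.log x| ≤ 3) ∧
    (∀ x, 0 < x → hh (Real.log x) ≠ 0 → w1 x = 1) := by
  set a : ℝ := Real.exp (-2) with ha
  set b : ℝ := Real.exp 2 with hb
  have ha0 : 0 < a := Real.exp_pos _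
  have hab : a < b := Real.exp_lt_exp.mpr (by norm_num)
  let f : ContDiffBump ((a + b) / 2 : ℝ) :=
    ⟨(b - a) / 2, (b - a) / 2 + a / 2, by linarith, by linarith⟩
  have he1 : (2 : ℝ) ≤ Real.exp 1 := by
    have := Real.add_one_le_exp (1 : ℝ); linarith
  refine ⟨f, ⟨f.contDiff, f.hasCompactSupport, ?_⟩, fun x hx => ?_, fun x hx hl => ?_⟩
  · rw [f.tsupport_eq]
    intro x hx
    rw [Metric.mem_closedBall, Real.dist_eq] at hx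
    have h3 : |x - (a + b) / 2| ≤ (b - a) / 2 + a / 2 := hx
    have := (abs_le.mp h3).1
    exact Set.mem_Ioi.mpr (by linarith)
  · have h1 : x ∈ Function.support (f : ℝ → ℝ) := hx
    rw [f.support_eq, Metric.mem_ball, Real.dist_eq] at h1
    have h3 : |x - (a + b) / 2| < (b - a) / 2 + a / 2 := h1
    obtain ⟨h4, h5⟩ := abs_lt.mp h3
    have hx0 : 0 < x := by linarith
    refine ⟨hx0, ?_⟩
    rw [abs_le]
    constructor
    · rw [Real.le_log_iff_exp_le hx0]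
      have e1 : Real.exp (-3) * Real.exp 1 = a := by rw [ha, ← Real.exp_add]; norm_num
      have := Real.exp_pos (-3)
      nlinarith
    · rw [Real.log_le_iff_le_exp hx0]
      have e1 : Real.exp 3 = b * Real.exp 1 := by rw [hb, ← Real.exp_add]; norm_num
      have hb0 : 0 < b := Real.exp_pos _
      nlinarith
  · refine f.one_of_mem_closedBall ?_
    rw [Metric.mem_closedBall, Real.dist_eq]
    show |x - (a + b) / 2| ≤ (b - a) / 2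
    have h1 := abs_lt.mp (abs_lt_of_hh hl)
    have h2 : a ≤ x := by
      rw [ha, ← Real.exp_log hx]
      exact Real.exp_le_exp.mpr (by linarith [h1.1])
    have h3 : x ≤ b := by
      rw [hb, ← Real.exp_log hx]
      exact Real.exp_le_exp.mpr (by linarith [h1.2])
    rw [abs_le]
    constructor <;> linarith

lemma hhc : HasCompactSupport hh := by
  refine HasCompactSupport.intro (isCompact_Icc (a := (-1 : ℝ)) (b := 1)) fun x hx => ?_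
  by_contra h
  have h1 := abs_lt.mp (abs_lt_of_hh h)
  exact hx ⟨h1.1.le, h1.2.le⟩

/-! ### the levels -/

/-- the indices of the levels -/
def LI (Y₀ Y₁ : ℝ) : Finset ℕ :=
  (range (⌈Real.log Y₁⌉₊ + 1)).filter fun k => Y₀ ≤ Real.exp (k + 1) ∧
    Real.exp k ≤ Real.exp 1 * Y₁

/-- the weight of a level -/
def omk (om : Eis × Eis → ℂ) (k : ℕ) (x : Eis × Eis) : ℂ :=
  ((hh (Real.log (nm (x.2 * x.1 ^ 2)) - k) : ℝ) : ℂ) * om x

section levels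

variable {J : Finset (Eis × Eis)} {om : Eis × Eis → ℂ} {D Y₀ Y₁ : ℝ}

lemma mem_LI {k : ℕ} (h : k ∈ LI Y₀ Y₁) : 1 ≤ Real.exp k ∧ Y₀ ≤ Real.exp 1 * Real.exp k ∧
    Real.exp k ≤ Real.exp 1 * Y₁ := by
  unfold LI at h
  rw [mem_filter] at h
  refine ⟨Real.one_le_exp (Nat.cast_nonneg _), h.2.1.trans (le_of_eq ?_), h.2.2⟩
  rw [← Real.exp_add, add_comm]

lemma card_LI (Y₀ : ℝ) {Y₁ Z ε : ℝ} (hZ : 1 ≤ Z) (hY0 : 0 ≤ Y₁) (hY : Y₁ ≤ Z) (hε : 0 < ε) :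
    ((LI Y₀ Y₁).card : ℝ) ≤ (2 + 1 / ε) * Z ^ ε := by
  have h1 : (LI Y₀ Y₁).card ≤ ⌈Real.log Y₁⌉₊ + 1 := by
    refine (card_filter_le _ _).trans ?_
    rw [card_range]
  have hZe : 1 ≤ Z ^ ε := Real.one_le_rpow hZ hε.le
  have h2 : (⌈Real.log Y₁⌉₊ : ℝ) ≤ 1 + Z ^ ε / ε := by
    by_cases h0 : Y₁ ≤ 1
    · rw [Nat.ceil_eq_zero.mpr (Real.log_nonpos hY0 h0)]
      push_cast
      positivity
    · have h0' : 1 < Y₁ := not_le.mp h0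
      have h3 : 0 ≤ Real.log Y₁ := Real.log_nonneg h0'.le
      have h4 : Real.log Y₁ ≤ Z ^ ε / ε :=
        (Real.log_le_log (by linarith) hY).trans (Real.log_le_rpow_div (by linarith) hε)
      exact (Nat.ceil_lt_add_one h3).le.trans (by linarith)
  have h3 : ((LI Y₀ Y₁).card : ℝ) ≤ (⌈Real.log Y₁⌉₊ : ℝ) + 1 := by exact_mod_cast h1
  have h4 : Z ^ ε / ε = 1 / ε * Z ^ ε := by ring
  rw [add_mul]
  linarith

lemma nm_pos_J (hJ : OKJ J) {x : Eis × Eis} (hx : x ∈ J) : 0 < nm (x.2 * x.1 ^ 2) := by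
  have h1 := (hJ.prim x hx).ne_zero
  have h2 : x.2 ≠ 0 := by
    obtain ⟨c, hc, j, hj, -, e⟩ := hJ.jc x hx
    rw [e]
    exact mul_ne_zero (isC_ne hc) hj.ne_zero
  exact nm_pos.mpr (mul_ne_zero h2 (pow_ne_zero 2 h1))

lemma mem_JW_win {x : Eis × Eis} (hx : x ∈ JW D Y₀ Y₁) :
    Y₀ < nm (x.2 * x.1 ^ 2) ∧ (nm (x.2 * x.1 ^ 2) : ℝ) ≤ Y₁ := by
  unfold JW at hx
  rw [mem_filter] at hx
  exact hx.2.2.2

/-- **the partition** -/
theorem om_sum {x : Eis × Eis} (hx : x ∈ JW D Y₀ Y₁) :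
    om x = ∑ k ∈ LI Y₀ Y₁, omk om k x := by
  obtain ⟨h1, h2⟩ := mem_JW_win hx
  have h0 := nm_pos_J (okJ_JW D Y₀ Y₁) hx
  obtain ⟨n, hn⟩ : ∃ n : ℕ, n = nm (x.2 * x.1 ^ 2) := ⟨_, rfl⟩
  rw [← hn] at h0 h1 h2
  have hn0 : (0 : ℝ) < n := by exact_mod_cast h0
  have hn1 : (1 : ℝ) ≤ n := by exact_mod_cast h0
  have hu : 0 ≤ Real.log n := Real.log_nonneg hn1
  have hu2 : Real.log n ≤ (⌈Real.log Y₁⌉₊ : ℕ) :=
    (Real.log_le_log hn0 h2).trans (Nat.le_ceil _)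
  have key : ∑ k ∈ LI Y₀ Y₁, hh (Real.log n - k) = 1 := by
    rw [← sum_hh_eq_one hu hu2]
    refine sum_subset (filter_subset _ _) fun k hk hk' => ?_
    by_contra hne
    obtain ⟨h3, h4⟩ := abs_lt.mp (abs_lt_of_hh hne)
    refine hk' (mem_filter.mpr ⟨hk, ?_, ?_⟩)
    · refine h1.le.trans ?_
      rw [← Real.log_le_iff_le_exp hn0]
      linarith
    · have h5 : Real.exp k ≤ Real.exp 1 * n := by
        rw [← Real.exp_log hn0, ← Real.exp_add]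
        exact Real.exp_le_exp.mpr (by linarith)
      exact h5.trans (mul_le_mul_of_nonneg_left h2 (Real.exp_pos 1).le)
  unfold omk
  rw [← hn, ← sum_mul]
  rw [← Complex.ofReal_sum, key, Complex.ofReal_one, one_mul]

lemma omk_win {k : ℕ} {x : Eis × Eis} {Rw : ℝ} (hR : 2 ≤ Rw) (h : omk om k x ≠ 0) :
    |Real.log (nm (x.2 * x.1 ^ 2)) - Real.log (Real.exp k)| ≤ Rw / 2 := by
  unfold omk at h
  have h1 : hh (Real.log (nm (x.2 * x.1 ^ 2)) - k) ≠ 0 := by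
    intro h2
    apply h
    rw [h2]; simp
  rw [Real.log_exp]
  linarith [(abs_lt_of_hh h1).le]

/-- **the weight of a level is a `wL`** -/
theorem omk_WQ {κ : ℂ} {Om : ℝ → ℂ} {τ E0 R : ℝ} (hD : 0 ≤ D) (hY : 0 ≤ Y₁)
    (hom : ∀ x ∈ JW D Y₀ Y₁, om x = κ * (Om (Real.log (nm (x.2 * x.1 ^ 2))) * pw τ (nm x.2)))
    (k : ℕ)
    (hwin : ∀ n : ℕ, 0 < n → hh (Real.log n - k) ≠ 0 → Om (Real.log n) ≠ 0 →
      Y₀ < n ∧ (n : ℝ) ≤ Y₁) :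
    WQ (JW D Y₀ Y₁) (omk om k) E0 R (wL κ hh Om τ (Real.exp k)) := by
  refine WQ_level (Real.exp_pos _) (okJ_JW D Y₀ Y₁) ?_ ?_
  · intro x hx
    unfold omk
    rw [hom x hx, Real.log_exp]
    ring
  intro q hq y hy hs hc n hn hns hng h1 h2
  have hqp := SR_prim hq
  obtain ⟨⟨x, hx, hxy⟩, hy1, -, hyc, -⟩ := mem_Ys' (okJ_JW D Y₀ Y₁) hy
  have hdD : (nm y.1 : ℝ) ≤ D := by
    unfold JW at hx
    rw [Finset.mem_filter, Finset.mem_product, mem_primBall] at hx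
    rw [← hxy]
    exact (Nat.le_floor_iff hD).mp hx.1.1.1
  have nn := nmpos hn.ne_zero
  have hP := Pq_pos hqp.1 hy1.1 hyc hy1.2.2.1
  have e1 : (nm (fq q y.2.2.1 y.2.2.2 n * y.1 ^ 2) : ℝ) = Pq q y * nm n := by
    unfold fq Pq
    rw [nm_mul, nm_mul, nm_mul, nm_mul, nm_pow, nm_pow]
    push_cast
    ring
  have e2 : (nm (q * y.2.2.1 * y.2.2.2 ^ 2 * y.1 ^ 2) : ℝ) = Pq q y := by
    unfold Pq
    rw [nm_mul, nm_mul, nm_mul, nm_pow, nm_pow]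
    push_cast
    ring
  rw [mem_JW_fq hY hqp.1 hqp.2 hyc hy1.2.2.1 hy1.1 hy1.2.1 hD hdD hn hns hng, e2, ← e1]
  rw [Real.log_exp] at h1
  have hpos : 0 < nm (fq q y.2.2.1 y.2.2.2 n * y.1 ^ 2) := by
    have : (0 : ℝ) < nm (fq q y.2.2.1 y.2.2.2 n * y.1 ^ 2) := by rw [e1]; positivity
    exact_mod_cast this
  exact ⟨⟨hy1.2.2.2, hc.of_mul_right_right⟩, hwin _ hpos h1 h2⟩

end levels

/-! ### the sequences `α (d m)` -/

/-- the sequences `α (d m)`, truncated -/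
def afT (α : Eis → ℂ) (E0 : ℝ) (d e m : Eis) : ℂ :=
  if IsPrim m ∧ IsPrim d ∧ e ∈ S E0 then α (d * m) else 0

section afT

variable {α : Eis → ℂ} {E0 : ℝ} {d e j : Eis}

lemma afT_ne {m : Eis} (h : afT α E0 d e m ≠ 0) :
    IsPrim m ∧ IsPrim d ∧ e ∈ S E0 ∧ α (d * m) ≠ 0 := by
  unfold afT at h
  split_ifs at h with h1
  · exact ⟨h1.1, h1.2.1, h1.2.2, h⟩
  · exact absurd rfl h

lemma FS_afT (hα : FS α) (d e : Eis) : FS (afT α E0 d e) where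
  prim := fun m hm => (afT_ne hm).1
  fin := by
    by_cases hd : d = 0
    · refine Set.Finite.subset Set.finite_empty fun m hm => ?_
      exact absurd hd (afT_ne hm).2.1.ne_zero
    · refine Set.Finite.subset (hα.fin.preimage (f := fun m => d * m)
        (fun a _ b _ h => mul_left_cancel₀ hd h)) fun m hm => ?_
      exact (afT_ne hm).2.2.2

lemma afT_sqf (hs : ∀ n, α n ≠ 0 → Squarefree n) {m : Eis} (h : afT α E0 d e m ≠ 0) :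
    Squarefree m := (hs _ (afT_ne h).2.2.2).of_mul_right

lemma afT_win {X R0 : ℝ} (hw : ∀ n, α n ≠ 0 → |Real.log (nm n) - Real.log X| ≤ R0) {m : Eis}
    (h : afT α E0 d e m ≠ 0) : |Real.log (nm d * nm m) - Real.log X| ≤ R0 := by
  have := hw _ (afT_ne h).2.2.2
  rwa [nm_mul, Nat.cast_mul] at this

lemma T3_ne {af : Eis → Eis → Eis → ℂ} (h : T3 af d e j ≠ 0) :
    ∃ m, e ∣ m ∧ IsCoprime j (d * m) ∧ af d e m ≠ 0 := by
  by_contra hh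
  push Not at hh
  apply h
  unfold T3 TE0
  have h0 : ∀ m : Eis, (if e ∣ m ∧ IsCoprime j (d * m) then
      af d e m * ((n6 m : ℂ) * Gh j m) else 0) = 0 := by
    intro m
    split_ifs with hc
    · rw [hh m hc.1 hc.2, zero_mul]
    · rfl
  rw [tsum_congr h0, tsum_zero]

lemma TC_afT (hs : ∀ n, α n ≠ 0 → Squarefree n) : TC (T3 (afT α E0)) := by
  intro d e j h
  obtain ⟨m, h1, h2, h3⟩ := T3_ne h
  obtain ⟨-, -, -, h4⟩ := afT_ne h3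
  have h5 : IsCoprime d m := (squarefree_mul_iff.mp (hs _ h4)).1.isCoprime
  exact ⟨h2.of_mul_right_right.of_isCoprime_of_dvd_right h1, h2.of_mul_right_left,
    (h5.of_isCoprime_of_dvd_right h1).symm⟩

lemma T3_afT_zero (he : e ∉ S E0) (d j : Eis) : T3 (afT α E0) d e j = 0 := by
  by_contra h
  obtain ⟨m, -, -, h3⟩ := T3_ne h
  exact he (afT_ne h3).2.2.1

/-- on primary `d` and `e ∈ S E0` nothing changes -/
lemma T3_afT (hp : ∀ n, α n ≠ 0 → IsPrim n) (hd : IsPrim d) (he : e ∈ S E0) (j : Eis) :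
    T3 (afT α E0) d e j = Tal α d e j := by
  unfold T3 TE0 Tal E2440.TE
  refine tsum_congr fun m => ?_
  have key : afT α E0 d e m = α (d * m) := by
    unfold afT
    by_cases hm : IsPrim m
    · rw [if_pos ⟨hm, hd, he⟩]
    · rw [if_neg fun h => hm h.1]
      by_contra h
      exact hm ((hp _ (Ne.symm h)).of_mul_left hd)
  rw [key]

end afT

/-! ### congruences in `T` -/

section congr

variable {J : Finset (Eis × Eis)} {om : Eis × Eis → ℂ} {T T' : Eis → Eis → Eis → ℂ} {E0 R : ℝ}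
  {q t k₁ : Eis}

lemma be_congr {y : Yp} (h : ∀ j, (y.1, j) ∈ J → T y.1 y.2.1 j = T' y.1 y.2.1 j) :
    be J om T q y = be J om T' q y := by
  funext n
  unfold be
  split_ifs with h1
  · rw [h _ h1.2.2.2]
  · rfl

lemma Fy_congr {y : Yp} (h : ∀ j, (y.1, j) ∈ J → T y.1 y.2.1 j = T' y.1 y.2.1 j) :
    Fy J om T q t k₁ y = Fy J om T' q t k₁ y := by
  unfold Fy
  rw [be_congr h]

lemma AE_congr (h : ∀ x ∈ J, ∀ e ∈ S E0, T x.1 e x.2 = T' x.1 e x.2) (z : E3M829.Zp) :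
    E3M829.AE J om T E0 q t k₁ z = E3M829.AE J om T' E0 q t k₁ z := by
  unfold E3M829.AE
  refine sum_congr rfl fun e he => ?_
  rw [be_congr (T' := T') fun j hj => h _ hj e he]

lemma Dg_congr (h : ∀ x ∈ J, ∀ e ∈ S E0, T x.1 e x.2 = T' x.1 e x.2) :
    E3M829.Dg J om T E0 R q t k₁ = E3M829.Dg J om T' E0 R q t k₁ := by
  unfold E3M829.Dg
  refine sum_congr rfl fun z _ => ?_
  rw [AE_congr h]

lemma EF_congr (h : ∀ x ∈ J, ∀ e ∈ S E0, T x.1 e x.2 = T' x.1 e x.2) {x : Eis × Eis}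
    (hx : x ∈ J) : EF om T E0 x = EF om T' E0 x := by
  unfold EF
  rw [sum_congr rfl fun e he => by rw [h x hx e he]]

lemma SF_congr (h : ∀ x ∈ J, ∀ e ∈ S E0, T x.1 e x.2 = T' x.1 e x.2) :
    ∑ y ∈ Ys J E0 R, Fy J om T q t k₁ y = ∑ y ∈ Ys J E0 R, Fy J om T' q t k₁ y := by
  refine sum_congr rfl fun y hy => Fy_congr fun j hj => ?_
  have h1 : y.2.1 ∈ S E0 := by
    rw [mem_Ys] at hy
    exact hy.2.1
  exact h _ hj _ h1

end congr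

/-! ### (Z1) -/

lemma Qc_True (J : Finset (Eis × Eis)) (om : Eis × Eis → ℂ) (T : Eis → Eis → Eis → ℂ)
    (E0 R : ℝ) (q t k₁ : Eis) : Qc (fun _ _ => True) J om T E0 R q t k₁ =
      ‖∑ y ∈ Ys J E0 R, Fy J om T q t k₁ y‖ ^ 2 := by
  have h1 : ((‖∑ y ∈ Ys J E0 R, Fy J om T q t k₁ y‖ ^ 2 : ℝ) : ℂ) =
      ∑ y ∈ Ys J E0 R, ∑ y' ∈ Ys J E0 R, Fy J om T q t k₁ y * conj (Fy J om T q t k₁ y') := by
    rw [Complex.ofReal_pow, ← Complex.mul_conj', map_sum, sum_mul_sum]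
  have h2 := congrArg Complex.re h1
  rw [Complex.ofReal_re] at h2
  rw [h2]
  unfold Qc
  simp only [if_true]

/-- **(Z1)** the mean square up to the modes of the pairs of levels -/
theorem Z1 {w : ℝ → ℝ} (hw : Wgt w) {Rw : ℝ} {A Bw : ℕ} (hRw : 2 ≤ Rw) (hA : 1 < A)
    (hB : 1 < Bw) {ε : ℝ} (hε : 0 < ε) : ∃ C : ℝ, 1 ≤ C ∧
    ∀ (W b₀ : ℝ), W0 w W b₀ → ∀ (D Y₀ Y₁ : ℝ) (om : Eis × Eis → ℂ)
    (T T' : Eis → Eis → Eis → ℂ) (K R Z B E0 E1 : ℝ), TC T' →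
    (∀ x ∈ JW D Y₀ Y₁, ∀ e ∈ S E0, T x.1 e x.2 = T' x.1 e x.2) →
    0 < K → 1 ≤ Z → 0 ≤ R → R ≤ Z → 1 ≤ B → 0 ≤ E1 →
    (∀ x ∈ JW D Y₀ Y₁, (nm x.1 : ℝ) ≤ Z) → (∀ x ∈ JW D Y₀ Y₁, (nm x.2 : ℝ) ≤ R) →
    Sg w K B R E1 (fun q t k₁ => ‖∑ y ∈ Ys (JW D Y₀ Y₁) E0 R, Fy (JW D Y₀ Y₁) om T q t k₁ y‖ ^ 2) ≤
      Sg w K B R E1 (fun q t k₁ => E3M829.Dg (JW D Y₀ Y₁) om T E0 R q t k₁) +
      (C * (∑ i ∈ LI Y₀ Y₁, ∑ j ∈ LI Y₀ Y₁, ∑ q ∈ S R, ∑ t ∈ pb E1,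
        MPTr (fun _ _ => True) A Bw K B (Real.exp i) (Real.exp j) (Z ^ 5) (JW D Y₀ Y₁) (omk om i)
          (omk om j) T' E0 R b₀ q t) +
      C * Z ^ ε * (K ^ (-(1 : ℝ) / 3) * E1 ^ 2 * B ^ 2 * R) *
        ∑ x ∈ JW D Y₀ Y₁, EF om T' E0 x) := by
  obtain ⟨C, hC, h⟩ := OFF_le_r (fun _ _ => True) hw (by linarith : 0 ≤ Rw) hA hB hε
  refine ⟨C, hC, ?_⟩
  intro W b₀ hW D Y₀ Y₁ om T T' K R Z B E0 E1 hT hTT hK hZ hR hRZ hB1 hE1 hJ1 hJ2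
  have hJ := okJ_JW D Y₀ Y₁
  have k1 := off_pairs_r (Pr := fun _ _ => True) (J := JW D Y₀ Y₁) (om := om) (T := T') (E0 := E0)
    (R := R) (B := B) (E1 := E1) (fun _ _ _ => trivial) hW hK hJ
  have k2 := h ℕ (LI Y₀ Y₁) (JW D Y₀ Y₁) om (omk om) T' hT hJ (fun x hx => om_sum hx)
    (fun k => Real.exp k) (fun k _ => Real.exp_pos _) (fun k _ x _ hne => omk_win hRw hne)
    K R Z B E0 E1 b₀ hK hZ hR hRZ hB1 hE1 hJ1 hJ2
  have e1 : (fun q t k₁ => ‖∑ y ∈ Ys (JW D Y₀ Y₁) E0 R, Fy (JW D Y₀ Y₁) om T q t k₁ y‖ ^ 2) =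
      fun q t k₁ => Qc (fun _ _ => True) (JW D Y₀ Y₁) om T' E0 R q t k₁ := by
    funext q t k₁
    rw [Qc_True, SF_congr hTT]
  have e2 : (fun q t k₁ => E3M829.Dg (JW D Y₀ Y₁) om T E0 R q t k₁) =
      fun q t k₁ => E3M829.Dg (JW D Y₀ Y₁) om T' E0 R q t k₁ := by
    funext q t k₁
    exact Dg_congr hTT
  rw [e1, e2]
  exact k1.trans (add_le_add le_rfl k2)

/-- **(Z1)** for `Tal α` -/
theorem Z1_Tal {w : ℝ → ℝ} (hw : Wgt w) {Rw : ℝ} {A Bw : ℕ} (hRw : 2 ≤ Rw) (hA : 1 < A)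
    (hB : 1 < Bw) {ε : ℝ} (hε : 0 < ε) : ∃ C : ℝ, 1 ≤ C ∧
    ∀ (W b₀ : ℝ), W0 w W b₀ → ∀ (D Y₀ Y₁ : ℝ) (om : Eis × Eis → ℂ)
    (α : Eis → ℂ) (K R Z B E0 E1 : ℝ), (∀ n, α n ≠ 0 → IsPrim n ∧ Squarefree n) →
    0 < K → 1 ≤ Z → 0 ≤ R → R ≤ Z → 1 ≤ B → 0 ≤ E1 →
    (∀ x ∈ JW D Y₀ Y₁, (nm x.1 : ℝ) ≤ Z) → (∀ x ∈ JW D Y₀ Y₁, (nm x.2 : ℝ) ≤ R) →
    Sg w K B R E1 (fun q t k₁ =>
        ‖∑ y ∈ Ys (JW D Y₀ Y₁) E0 R, Fy (JW D Y₀ Y₁) om (Tal α) q t k₁ y‖ ^ 2) ≤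
      Sg w K B R E1 (fun q t k₁ => E3M829.Dg (JW D Y₀ Y₁) om (Tal α) E0 R q t k₁) +
      (C * (∑ i ∈ LI Y₀ Y₁, ∑ j ∈ LI Y₀ Y₁, ∑ q ∈ S R, ∑ t ∈ pb E1,
        MPTr (fun _ _ => True) A Bw K B (Real.exp i) (Real.exp j) (Z ^ 5) (JW D Y₀ Y₁) (omk om i)
          (omk om j) (T3 (afT α E0)) E0 R b₀ q t) +
      C * Z ^ ε * (K ^ (-(1 : ℝ) / 3) * E1 ^ 2 * B ^ 2 * R) *
        ∑ x ∈ JW D Y₀ Y₁, EF om (Tal α) E0 x) := by
  obtain ⟨C, hC, h⟩ := Z1 hw hRw hA hB hε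
  refine ⟨C, hC, ?_⟩
  intro W b₀ hW D Y₀ Y₁ om α K R Z B E0 E1 hα hK hZ hR hRZ hB1 hE1 hJ1 hJ2
  have hTT : ∀ x ∈ JW D Y₀ Y₁, ∀ e ∈ S E0, Tal α x.1 e x.2 = T3 (afT α E0) x.1 e x.2 :=
    fun x hx e he => (T3_afT (fun n hn => (hα n hn).1) ((okJ_JW D Y₀ Y₁).prim x hx) he x.2).symm
  have k := h W b₀ hW D Y₀ Y₁ om (Tal α) (T3 (afT α E0)) K R Z B E0 E1
    (TC_afT fun n hn => (hα n hn).2) hTT hK hZ hR hRZ hB1 hE1 hJ1 hJ2
  rw [sum_congr rfl fun x hx => (EF_congr (om := om) hTT hx)]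
  exact k

end Crest.Agent.R017.E3Kc548
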