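import Crest.Agent.R017.E3Kc_548

/-!
# Row 17, R8 (E3) (helper548): the non-sharp Gram sum with `b₀` independent of the orders

* `gram_ns0u`, `gram_nsu` : `∃ b₀, ∀ Rw A Bw, ∃ C, ..`
-/

set_option autoImplicit false
set_option linter.unusedVariables false
set_option maxHeartbeats 800000

noncomputable section

open Finset
open scoped ComplexConjugate
open scoped Classical

namespace Crest.Agent.R017.E3F548

open Crest.Agent.R012 Crest.Agent.R012.Eis Crest.Agent.R012.Mob705 Crest.Agent.R012.Gauss880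
open Crest.Agent.R012.LS2
open Crest.Agent.R017.CM106
open Crest.Agent.R017.PX764 Crest.Agent.R017.C70 Crest.Agent.R017.GrB829 Crest.Agent.R017.GrD829
open Crest.Agent.R017.E3s164 Crest.Agent.R017.E3A164
open Crest.Agent.R012.Div277 (tau)
open Crest.Agent.R012.MC (Wgt)
open Crest.Agent.R017.E1551 (nmpos)
open Crest.Agent.R017.DgA829 (lc lc_prim lc_dvd)
open Crest.Agent.R017.E3M829 (PP mem_PP AE W0 Sg TC TF Cut Iw XT)

/-- **the cut Gram form, pairs with the same `g`** -/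
theorem gram_ns0u {w : ℝ → ℝ} (hw : Wgt w) (hw0 : ∀ x, 0 ≤ w x) {ε : ℝ} (hε : 0 < ε) :
    ∃ b₀ : ℝ, 0 ≤ b₀ ∧ ∀ (Rw : ℝ) (A Bw : ℕ), 0 ≤ Rw → 1 < A → 1 < Bw → ∃ C : ℝ, 1 ≤ C ∧
    ∀ (ι : Type) (I : Finset ι)
    (J : Finset (Eis × Eis)) (om : Eis × Eis → ℂ) (omi : ι → Eis × Eis → ℂ)
    (T : Eis → Eis → Eis → ℂ), TC T → OKJ J → (∀ x ∈ J, om x = ∑ i ∈ I, omi i x) →
    ∀ (V : ι → ℝ), (∀ i ∈ I, 0 < V i) →
    (∀ i ∈ I, ∀ x ∈ J, omi i x ≠ 0 →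
      |Real.log (nm (x.2 * x.1 ^ 2)) - Real.log (V i)| ≤ Rw / 2) →
    ∀ (K R Z B E0 E1 : ℝ), 0 < K → 1 ≤ Z → K ≤ Z → 0 ≤ R → R ≤ Z → 1 ≤ B → 0 ≤ E0 → E0 ≤ Z →
    0 ≤ E1 → (∀ x ∈ J, (nm x.1 : ℝ) ≤ Z) → (∀ x ∈ J, (nm x.2 : ℝ) ≤ R) →
    (∑' k : Eis, if IsPrim k ∧ Cut E1 k then
        w ((nm k : ℝ) / K) * ‖SteT J om E0 T k‖ ^ 2 else 0) ≤
      C * Z ^ ε * (K ^ (2 / 3 : ℝ) * (|XT J om E0 T| +
        (R / K ^ 2) ^ (1 / 6 : ℝ) * TF (1 / 2) J om E0 T + B⁻¹ * TF (-1) J om E0 T +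
        (E1 ^ 2 * B ^ 2 * R / K) * ∑ x ∈ J, EF om T E0 x) +
      ∑ i ∈ I, ∑ j ∈ I, ∑ q ∈ S R, ∑ t ∈ pb E1,
        MPTr Pg A Bw K B (V i) (V j) (Z ^ 5) J (omi i) (omi j) T E0 R b₀ q t) := by
  obtain ⟨a₀, b₁, D, h⟩ := E3M829.exists_Wt hw
  obtain ⟨W, b₂, hb2, hw2⟩ := E3M829.exists_W0 hw hw0
  have hw1 : W0 w W b₁ := ⟨hw0, hw2.le, fun x hx => by
    have h1 := h.supp x (fun h' => absurd h'.2 (not_le.mpr hx))
    exact_mod_cast h1⟩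
  have hb1 : 0 ≤ b₁ := h.pos.le.trans h.le
  refine ⟨b₁, hb1, fun Rw A Bw hRw hA hBw => ?_⟩
  have hε2 : 0 < ε / 2 := by positivity
  obtain ⟨C1, hC1, h1⟩ := E3M829.ET_le h hε2
  obtain ⟨C2, hC2, h2⟩ := E3M829.MB_le hw1.nonneg hb1 hε2
  obtain ⟨C3, hC3, h3⟩ := OFF_le_r Pg hw hRw hA hBw hε2
  obtain ⟨Cτ, hCτ, htau⟩ := E3M829.tau_Z hε2
  set cI : ℝ := |kap0 * Iw w| with hcI
  set cτ : ℝ := Cτ * (1 + b₁) ^ (ε / 2) with hcτ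
  have hcτ1 : 1 ≤ cτ := by
    rw [hcτ]
    exact one_le_mul_of_one_le_of_one_le hCτ (Real.one_le_rpow (by linarith) hε2.le)
  set CC : ℝ := cI + C1 + C2 + C3 with hCC
  have hcI0 : 0 ≤ cI := abs_nonneg _
  have hCC1 : 1 ≤ CC := by rw [hCC]; linarith
  refine ⟨cτ * CC, one_le_mul_of_one_le_of_one_le hcτ1 hCC1, ?_⟩
  intro ι I J om omi T hT hJ hom V hV hJV K R Z B E0 E1 hK hZ hKZ hR0 hRZ hB hE0 hE0Z hE1 hJ1 hJ2
  have hZ0 : (0 : ℝ) < Z := by linarith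
  set z := Z ^ (ε / 2) with hz
  have hz1 : 1 ≤ z := Real.one_le_rpow hZ hε2.le
  have hz2 : z * z = Z ^ ε := by
    rw [hz, ← Real.rpow_add hZ0]
    congr 1
    ring
  obtain ⟨τ, hτ0, hτ, h2'⟩ := h2 K Z E0 hK hZ hKZ hE0Z
  set τ0 : ℝ := cτ * z with hτ0d
  have hτ00 : 0 ≤ τ0 := by rw [hτ0d]; positivity
  -- the pointwise Cauchy
  have k1 := E3M829.cut_le (om := om) (T := T) hw1 hK hB hJ hJ2 E0 E1
  have k2 : Sg w K B R E1 (fun q t k₁ => ‖∑ y ∈ Ys J E0 R, Fy J om T q t k₁ y‖ ^ 2) ≤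
      τ0 * Sg w K B R E1 (fun q t k₁ => Qc Pg J om T E0 R q t k₁) := by
    rw [← Sg_smul]
    refine Sg_mono hw1 hK fun q hq t ht k₁ hk hle => ?_
    refine (same_g hk.ne_zero).trans (mul_le_mul_of_nonneg_right ?_ (Qc_Pg_nonneg k₁))
    have hq1 := (SR_prim hq).1
    have hn : (nm k₁ : ℝ) ≤ (1 + b₁) * Z := by
      have e : k₁ * q ^ 2 * t ^ 3 = k₁ * (q ^ 2 * t ^ 3) := by ring
      rw [e, nm_mul] at hle
      have h4 : (1 : ℝ) ≤ nm (q ^ 2 * t ^ 3) := by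
        exact_mod_cast nm_pos.mpr ((hq1.pow 2).mul (ht.pow 3)).ne_zero
      push_cast at hle
      have h5 : (nm k₁ : ℝ) ≤ nm k₁ * nm (q ^ 2 * t ^ 3) :=
        le_mul_of_one_le_right (Nat.cast_nonneg _) h4
      have h6 : b₁ * K ≤ b₁ * Z := mul_le_mul_of_nonneg_left hKZ hb1
      nlinarith
    have h7 := htau ((1 + b₁) * Z) (by nlinarith) k₁ hn
    rw [Real.mul_rpow (by linarith) hZ0.le, ← hz] at h7
    rw [hτ0d, hcτ]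
    linarith
  have k3 := off_pairs_r (om := om) (T := T) (E0 := E0) (B := B) (E1 := E1) (R := R) sm_Pg hw1 hK hJ
  have k4 := E3M829.diag_trunc (om := om) h hw1 hK hB hJ hE0 hT R E1 hτ0 hτ
  have k5 := h1 K Z R E0 hK hZ hKZ hE0Z hRZ J hJ hJ1 hJ2 om T
  have k6 := h2' B J (by linarith) om T
  have k7 := h3 ι I J om omi T hT hJ hom V hV hJV K R Z B E0 E1 b₁ hK hZ hR0 hRZ hB hE1 hJ1 hJ2
  have t1 := E3M829.TF_nonneg (1 / 2) J om E0 T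
  have t2 := E3M829.TF_nonneg (-1) J om E0 T
  have t3 : 0 ≤ ∑ x ∈ J, EF om T E0 x := sum_nonneg fun x _ => EF_nonneg om T E0 x
  have hB1 : 0 < B⁻¹ := inv_pos.mpr (by linarith)
  have hMP : 0 ≤ ∑ i ∈ I, ∑ j ∈ I, ∑ q ∈ S R, ∑ t ∈ pb E1,
      MPTr Pg A Bw K B (V i) (V j) (Z ^ 5) J (omi i) (omi j) T E0 R b₁ q t :=
    sum_nonneg fun i hi => sum_nonneg fun j hj => sum_nonneg fun q hq => sum_nonneg fun t _ =>
      MPTr_nonneg Pg A Bw _ _ _ hK.le hJ (hV i hi) (hV j hj) (SR_prim hq).1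
  have hRK : 0 ≤ (R / K ^ 2) ^ (1 / 6 : ℝ) := by positivity
  have hK23 : 0 < K ^ (2 / 3 : ℝ) := by positivity
  set MPs := ∑ i ∈ I, ∑ j ∈ I, ∑ q ∈ S R, ∑ t ∈ pb E1,
      MPTr Pg A Bw K B (V i) (V j) (Z ^ 5) J (omi i) (omi j) T E0 R b₁ q t with hMPs
  have e1 : K ^ (-(1 : ℝ) / 3) * E1 ^ 2 * B ^ 2 * R = K ^ (2 / 3 : ℝ) * (E1 ^ 2 * B ^ 2 * R / K) := by
    have e2 : K ^ (2 / 3 : ℝ) = K ^ (-(1 : ℝ) / 3) * K := by
      rw [← Real.rpow_add_one hK.ne']; norm_num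
    rw [e2]
    field_simp
  have hRK2 : 0 ≤ E1 ^ 2 * B ^ 2 * R / K := by positivity
  have m0 : kap0 * K ^ (2 / 3 : ℝ) * Iw w * XT J om E0 T ≤
      cI * z * (K ^ (2 / 3 : ℝ) * |XT J om E0 T|) := by
    have m1 : kap0 * K ^ (2 / 3 : ℝ) * Iw w * XT J om E0 T ≤
        |kap0 * Iw w| * (K ^ (2 / 3 : ℝ) * |XT J om E0 T|) := by
      refine (le_abs_self _).trans (le_of_eq ?_)
      rw [show kap0 * K ^ (2 / 3 : ℝ) * Iw w * XT J om E0 T =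
        (kap0 * Iw w) * (K ^ (2 / 3 : ℝ) * XT J om E0 T) by ring, abs_mul, abs_mul (K ^ (2 / 3 : ℝ)),
        abs_of_pos hK23]
    refine m1.trans ?_
    have m2 : 0 ≤ K ^ (2 / 3 : ℝ) * |XT J om E0 T| := by positivity
    have m3 : cI ≤ cI * z := le_mul_of_one_le_right hcI0 hz1
    exact mul_le_mul_of_nonneg_right m3 m2
  have n1 : E3M829.ET a₀ b₁ D K J om E0 T ≤ C1 * z * (K ^ (2 / 3 : ℝ) *
        ((R / K ^ 2) ^ (1 / 6 : ℝ) * TF (1 / 2) J om E0 T)) := by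
    refine k5.trans (le_of_eq ?_)
    ring
  have n2 : E3M829.MB W b₁ K B τ J om E0 T ≤ C2 * z * (K ^ (2 / 3 : ℝ) *
        (B⁻¹ * TF (-1) J om E0 T)) := by
    refine k6.trans (le_of_eq ?_)
    ring
  have n3 : ∑ q ∈ S R, ∑ t ∈ pb E1, OPr Pg w K B J om T E0 R b₁ q t ≤
        C3 * z * (MPs + K ^ (2 / 3 : ℝ) * ((E1 ^ 2 * B ^ 2 * R / K) * ∑ x ∈ J, EF om T E0 x)) := by
    rw [e1] at k7
    refine k7.trans ?_
    have n4 : C3 * MPs ≤ C3 * z * MPs := by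
      have : C3 ≤ C3 * z := le_mul_of_one_le_right (by linarith) hz1
      exact mul_le_mul_of_nonneg_right this hMP
    have n5 : C3 * z * (K ^ (2 / 3 : ℝ) * (E1 ^ 2 * B ^ 2 * R / K)) * ∑ x ∈ J, EF om T E0 x =
          C3 * z * (K ^ (2 / 3 : ℝ) * ((E1 ^ 2 * B ^ 2 * R / K) * ∑ x ∈ J, EF om T E0 x)) := by
      ring
    rw [n5, mul_add]
    exact add_le_add_left n4 _
  have p1 : 0 ≤ K ^ (2 / 3 : ℝ) * |XT J om E0 T| := mul_nonneg hK23.le (abs_nonneg _)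
  have p2 : 0 ≤ K ^ (2 / 3 : ℝ) * ((R / K ^ 2) ^ (1 / 6 : ℝ) * TF (1 / 2) J om E0 T) :=
    mul_nonneg hK23.le (mul_nonneg hRK t1)
  have p3 : 0 ≤ K ^ (2 / 3 : ℝ) * (B⁻¹ * TF (-1) J om E0 T) :=
    mul_nonneg hK23.le (mul_nonneg hB1.le t2)
  have p4 : 0 ≤ K ^ (2 / 3 : ℝ) * ((E1 ^ 2 * B ^ 2 * R / K) * ∑ x ∈ J, EF om T E0 x) :=
    mul_nonneg hK23.le (mul_nonneg hRK2 t3)
  have m1 := alg_ns (by linarith : 0 ≤ z) hcI0 hC1 hC2 (by linarith : 0 ≤ C3) p1 p2 p3 p4 hMP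
    m0 n1 n2 n3
  rw [← mul_add, ← mul_add, ← mul_add] at m1
  have m2 := k3.trans ((add_le_add_left k4 _).trans m1)
  have k1' : (∑' k : Eis, if IsPrim k ∧ Cut E1 k then
        w ((nm k : ℝ) / K) * ‖SteT J om E0 T k‖ ^ 2 else 0) ≤
      Sg w K B R E1 (fun q t k₁ => ‖∑ y ∈ Ys J E0 R, Fy J om T q t k₁ y‖ ^ 2) := k1
  refine k1'.trans (k2.trans ((mul_le_mul_of_nonneg_left m2 hτ00).trans (le_of_eq ?_)))
  rw [hτ0d, ← hz2]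
  ring

/-- **the non-sharp Gram sum** -/
theorem gram_nsu {w : ℝ → ℝ} (hw : Wgt w) (hw0 : ∀ x, 0 ≤ w x) {ε : ℝ} (hε : 0 < ε) :
    ∃ b₀ : ℝ, 0 ≤ b₀ ∧ ∀ (Rw : ℝ) (A Bw : ℕ), 0 ≤ Rw → 1 < A → 1 < Bw → ∃ C : ℝ, 1 ≤ C ∧
    ∀ (ι : Type) (I : Finset ι)
    (J : Finset (Eis × Eis)) (om : Eis × Eis → ℂ) (omi : ι → Eis × Eis → ℂ)
    (T : Eis → Eis → Eis → ℂ), TC T → OKJ J → (∀ x ∈ J, om x = ∑ i ∈ I, omi i x) →
    ∀ (V : ι → ℝ), (∀ i ∈ I, 0 < V i) →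
    (∀ i ∈ I, ∀ x ∈ J, omi i x ≠ 0 →
      |Real.log (nm (x.2 * x.1 ^ 2)) - Real.log (V i)| ≤ Rw / 2) →
    ∀ (K R Z B E0 E1 : ℝ), 0 < K → 1 ≤ Z → K ≤ Z → 0 ≤ R → R ≤ Z → 1 ≤ B → 0 ≤ E0 → E0 ≤ Z →
    0 ≤ E1 → (∀ x ∈ J, (nm x.1 : ℝ) ≤ Z) → (∀ x ∈ J, (nm x.2 : ℝ) ≤ R) →
    (∑' k : Eis, if IsPrim k ∧ Cut E1 k then
        w ((nm k : ℝ) / K) * ‖SteT J om E0 T k‖ ^ 2 else 0) ≤
      C * Z ^ ε * I.card * ∑ e ∈ S E0, ∑ a ∈ J.image (fun x => Nat.log 2 (nm x.1)), ∑ i ∈ I,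
      (K ^ (2 / 3 : ℝ) * (((nm e : ℝ) ^ (-1 : ℝ) +
        (R / K ^ 2) ^ (1 / 6 : ℝ) * (nm e : ℝ) ^ (1 / 2 : ℝ) + E1 ^ 2 * B ^ 2 * R / K) *
          XE (Jat J a) (omi i) T e) +
      ∑ q ∈ S R, ∑ t ∈ pb E1,
        MPTr Pg A Bw K B (V i) (V i) (Z ^ 5) (Jat J a) (omi i) (omi i) (Tat T e) E0 R b₀ q t) := by
  obtain ⟨a₀, b₁, D, h⟩ := E3M829.exists_Wt hw
  obtain ⟨W, b₂, hb2, hw2⟩ := E3M829.exists_W0 hw hw0
  have hε3 : 0 < ε / 3 := by positivity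
  obtain ⟨b₀, hb0, h00⟩ := gram_ns0u hw hw0 hε3
  refine ⟨b₀, hb0, fun Rw A Bw hRw hA hBw => ?_⟩
  obtain ⟨C0, hC0, h0⟩ := h00 Rw A Bw hRw hA hBw
  obtain ⟨Cτ, hCτ, htau⟩ := E3M829.tau_Z hε3
  set cτ : ℝ := Cτ * (1 + b₂) ^ (ε / 3) with hcτ
  have hcτ1 : 1 ≤ cτ := by
    rw [hcτ]
    exact one_le_mul_of_one_le_of_one_le hCτ (Real.one_le_rpow (by linarith) hε3.le)
  set cl : ℝ := 2 * (1 + 1 / (ε / 3)) with hcl
  have hcl1 : 1 ≤ cl := by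
    have : 0 ≤ 1 / (ε / 3) := by positivity
    rw [hcl]; linarith
  refine ⟨cτ * cl * (2 * C0), ?_, ?_⟩
  · exact one_le_mul_of_one_le_of_one_le (one_le_mul_of_one_le_of_one_le hcτ1 hcl1) (by linarith)
  intro ι I J om omi T hT hJ hom V hV hJV K R Z B E0 E1 hK hZ hKZ hR0 hRZ hB hE0 hE0Z hE1 hJ1 hJ2
  have hZ0 : (0 : ℝ) < Z := by linarith
  set z := Z ^ (ε / 3) with hz
  have hz1 : 1 ≤ z := Real.one_le_rpow hZ hε3.le
  have hz3 : z * z * z = Z ^ ε := by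
    rw [hz, ← Real.rpow_add hZ0, ← Real.rpow_add hZ0]
    congr 1
    ring
  set G : Eis → ℕ → ι → Eis → ℝ := fun e a i k =>
    ‖SteT (Jat J a) (omi i) E0 (Tat T e) k‖ ^ 2 with hG
  set LA := J.image (fun x => Nat.log 2 (nm x.1)) with hLA
  -- pointwise
  have key : ∀ k : Eis, IsPrim k → (nm k : ℝ) ≤ b₂ * K →
      ‖SteT J om E0 T k‖ ^ 2 ≤ (cτ * z) * (cl * z) * I.card *
        ∑ e ∈ S E0, ∑ a ∈ LA, ∑ i ∈ I, G e a i k := by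
    intro k hk hkK
    rw [SteT_split T E0 k hom]
    have c1 : (((S E0).filter fun e => e ∣ k).card : ℝ) ≤ cτ * z := by
      refine (card_dvd_le hk.ne_zero).trans ?_
      have hn : (nm k : ℝ) ≤ (1 + b₂) * Z := by
        have h6 : b₂ * K ≤ b₂ * Z := mul_le_mul_of_nonneg_left hKZ hb2.le
        nlinarith
      have h7 := htau ((1 + b₂) * Z) (by nlinarith) k hn
      rw [Real.mul_rpow (by linarith) hZ0.le, ← hz] at h7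
      rw [hcτ]
      linarith
    have c2 : (LA.card : ℝ) ≤ cl * z := card_log hε3 hZ hJ1
    have c3 : ‖∑ e ∈ (S E0).filter (fun e => e ∣ k), ∑ a ∈ LA, ∑ i ∈ I,
        SteT (Jat J a) (omi i) E0 (Tat T e) k‖ ^ 2 ≤
        (((S E0).filter fun e => e ∣ k).card : ℝ) * ∑ e ∈ (S E0).filter (fun e => e ∣ k),
          ((LA.card : ℝ) * ∑ a ∈ LA, ((I.card : ℝ) * ∑ i ∈ I, G e a i k)) := by
      refine (pow_le_pow_left₀ (norm_nonneg _) (norm_sum_le _ _) 2).trans ?_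
      refine sq_sum_le_card_mul_sum_sq.trans ?_
      refine mul_le_mul_of_nonneg_left (sum_le_sum fun e _ => ?_) (Nat.cast_nonneg _)
      refine (pow_le_pow_left₀ (norm_nonneg _) (norm_sum_le _ _) 2).trans ?_
      refine sq_sum_le_card_mul_sum_sq.trans ?_
      refine mul_le_mul_of_nonneg_left (sum_le_sum fun a _ => ?_) (Nat.cast_nonneg _)
      refine (pow_le_pow_left₀ (norm_nonneg _) (norm_sum_le _ _) 2).trans ?_
      exact sq_sum_le_card_mul_sum_sq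
    refine c3.trans ?_
    have c4 : ∑ e ∈ (S E0).filter (fun e => e ∣ k),
          ((LA.card : ℝ) * ∑ a ∈ LA, ((I.card : ℝ) * ∑ i ∈ I, G e a i k)) ≤
        (LA.card : ℝ) * ((I.card : ℝ) * ∑ e ∈ S E0, ∑ a ∈ LA, ∑ i ∈ I, G e a i k) := by
      simp only [← mul_sum]
      refine mul_le_mul_of_nonneg_left (mul_le_mul_of_nonneg_left ?_ (Nat.cast_nonneg _))
        (Nat.cast_nonneg _)
      exact sum_le_sum_of_subset_of_nonneg (filter_subset _ _) fun _ _ _ =>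
        sum_nonneg fun _ _ => sum_nonneg fun _ _ => by simp only [hG]; positivity
    have hS : 0 ≤ ∑ e ∈ S E0, ∑ a ∈ LA, ∑ i ∈ I, G e a i k :=
      sum_nonneg fun _ _ => sum_nonneg fun _ _ => sum_nonneg fun _ _ => by
        simp only [hG]; positivity
    calc (((S E0).filter fun e => e ∣ k).card : ℝ) * ∑ e ∈ (S E0).filter (fun e => e ∣ k),
          ((LA.card : ℝ) * ∑ a ∈ LA, ((I.card : ℝ) * ∑ i ∈ I, G e a i k))
        ≤ (((S E0).filter fun e => e ∣ k).card : ℝ) *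
          ((LA.card : ℝ) * ((I.card : ℝ) * ∑ e ∈ S E0, ∑ a ∈ LA, ∑ i ∈ I, G e a i k)) :=
          mul_le_mul_of_nonneg_left c4 (Nat.cast_nonneg _)
      _ ≤ (cτ * z) * ((cl * z) * ((I.card : ℝ) * ∑ e ∈ S E0, ∑ a ∈ LA, ∑ i ∈ I, G e a i k)) := by
          gcongr
      _ = _ := by ring
  -- the sum over `k`
  have k1 : (∑' k : Eis, if IsPrim k ∧ Cut E1 k then
        w ((nm k : ℝ) / K) * ‖SteT J om E0 T k‖ ^ 2 else 0) ≤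
      (cτ * z) * (cl * z) * I.card * ∑ e ∈ S E0, ∑ a ∈ LA, ∑ i ∈ I,
        (∑' k : Eis, if IsPrim k ∧ Cut E1 k then
        w ((nm k : ℝ) / K) * G e a i k else 0) := by
    rw [Gc_fin hw2 hK]
    rw [sum_congr rfl fun e _ => sum_congr rfl fun a _ => sum_congr rfl fun i _ =>
      Gc_fin hw2 hK E1 (G e a i)]
    have e1 : ∑ e ∈ S E0, ∑ a ∈ LA, ∑ i ∈ I, ∑ k ∈ pb (b₂ * K),
        (if Cut E1 k then w ((nm k : ℝ) / K) * G e a i k else 0) =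
        ∑ k ∈ pb (b₂ * K), (if Cut E1 k then w ((nm k : ℝ) / K) *
          ∑ e ∈ S E0, ∑ a ∈ LA, ∑ i ∈ I, G e a i k else 0) := by
      have e2 : ∀ e ∈ S E0, ∑ a ∈ LA, ∑ i ∈ I, ∑ k ∈ pb (b₂ * K),
        (if Cut E1 k then w ((nm k : ℝ) / K) * G e a i k else 0) = ∑ k ∈ pb (b₂ * K),
        ∑ a ∈ LA, ∑ i ∈ I, (if Cut E1 k then w ((nm k : ℝ) / K) * G e a i k else 0) := by
        intro e _
        rw [sum_congr rfl fun a _ => sum_comm, sum_comm]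
      rw [sum_congr rfl e2, sum_comm]
      refine sum_congr rfl fun k _ => ?_
      split_ifs
      · rw [mul_sum]
        refine sum_congr rfl fun e _ => ?_
        rw [mul_sum]
        refine sum_congr rfl fun a _ => ?_
        rw [mul_sum]
      · simp
    rw [e1, mul_sum]
    refine sum_le_sum fun k hk => ?_
    rw [mem_pb] at hk
    split_ifs
    · have := mul_le_mul_of_nonneg_left (key k hk.2 hk.1) (hw0 ((nm k : ℝ) / K))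
      refine this.trans (le_of_eq ?_)
      ring
    · rw [mul_zero]
  refine k1.trans ?_
  have k2 : ∀ e ∈ S E0, ∀ a ∈ LA, ∀ i ∈ I, (∑' k : Eis, if IsPrim k ∧ Cut E1 k then
        w ((nm k : ℝ) / K) * G e a i k else 0) ≤ (2 * C0) * z *
      (K ^ (2 / 3 : ℝ) * (((nm e : ℝ) ^ (-1 : ℝ) +
        (R / K ^ 2) ^ (1 / 6 : ℝ) * (nm e : ℝ) ^ (1 / 2 : ℝ) + E1 ^ 2 * B ^ 2 * R / K) *
          XE (Jat J a) (omi i) T e) +
      ∑ q ∈ S R, ∑ t ∈ pb E1,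
        MPTr Pg A Bw K B (V i) (V i) (Z ^ 5) (Jat J a) (omi i) (omi i) (Tat T e) E0 R b₀ q t) := by
    intro e he a ha i hi
    have g := h0 Unit {()} (Jat J a) (omi i) (fun _ => omi i) (Tat T e) (TC_Tat hT e)
      (OKJ_Jat hJ a) (fun x _ => by simp) (fun _ => V i) (fun _ _ => hV i hi)
      (fun _ _ x hx hne => hJV i hi x (mem_filter.mp hx).1 hne) K R Z B E0 E1 hK hZ hKZ hR0 hRZ hB
      hE0 hE0Z hE1 (fun x hx => hJ1 x (mem_filter.mp hx).1) (fun x hx => hJ2 x (mem_filter.mp hx).1)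
    rw [sum_singleton, sum_singleton, TF_Tat _ _ _ _ _ he, TF_Tat _ _ _ _ _ he,
      EF_Tat _ _ _ _ he] at g
    have hX := XT_Tat (Jat J a) (omi i) E0 (OKJ_Jat hJ a) T he
    have hXE := XE_nonneg (Jat J a) (omi i) T e
    refine g.trans ?_
    have hM : 0 ≤ ∑ q ∈ S R, ∑ t ∈ pb E1,
        MPTr Pg A Bw K B (V i) (V i) (Z ^ 5) (Jat J a) (omi i) (omi i) (Tat T e) E0 R b₀ q t :=
      sum_nonneg fun q hq => sum_nonneg fun t _ =>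
        MPTr_nonneg Pg A Bw _ _ _ hK.le (OKJ_Jat hJ a) (hV i hi) (hV i hi) (SR_prim hq).1
    have hne := nmpos (SR_prim he).1.ne_zero
    have hB1 : B⁻¹ ≤ 1 := inv_le_one_of_one_le₀ hB
    have hB0 : 0 < B⁻¹ := inv_pos.mpr (by linarith)
    have p1 : 0 ≤ (R / K ^ 2) ^ (1 / 6 : ℝ) * ((nm e : ℝ) ^ (1 / 2 : ℝ) *
        XE (Jat J a) (omi i) T e) := by positivity
    have p2 : 0 ≤ (nm e : ℝ) ^ (-1 : ℝ) * XE (Jat J a) (omi i) T e := by positivity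
    have p3 : 0 ≤ E1 ^ 2 * B ^ 2 * R / K * XE (Jat J a) (omi i) T e := by positivity
    have p4 : B⁻¹ * ((nm e : ℝ) ^ (-1 : ℝ) * XE (Jat J a) (omi i) T e) ≤
        (nm e : ℝ) ^ (-1 : ℝ) * XE (Jat J a) (omi i) T e := mul_le_of_le_one_left p2 hB1
    have p5 : |XT (Jat J a) (omi i) E0 (Tat T e)| +
        (R / K ^ 2) ^ (1 / 6 : ℝ) * ((nm e : ℝ) ^ (1 / 2 : ℝ) * XE (Jat J a) (omi i) T e) +
        B⁻¹ * ((nm e : ℝ) ^ (-1 : ℝ) * XE (Jat J a) (omi i) T e) +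
        E1 ^ 2 * B ^ 2 * R / K * XE (Jat J a) (omi i) T e ≤
        2 * (((nm e : ℝ) ^ (-1 : ℝ) +
        (R / K ^ 2) ^ (1 / 6 : ℝ) * (nm e : ℝ) ^ (1 / 2 : ℝ) + E1 ^ 2 * B ^ 2 * R / K) *
          XE (Jat J a) (omi i) T e) := by
      have e1 : 2 * (((nm e : ℝ) ^ (-1 : ℝ) +
        (R / K ^ 2) ^ (1 / 6 : ℝ) * (nm e : ℝ) ^ (1 / 2 : ℝ) + E1 ^ 2 * B ^ 2 * R / K) *
          XE (Jat J a) (omi i) T e) = 2 * ((nm e : ℝ) ^ (-1 : ℝ) * XE (Jat J a) (omi i) T e) +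
          2 * ((R / K ^ 2) ^ (1 / 6 : ℝ) * ((nm e : ℝ) ^ (1 / 2 : ℝ) *
        XE (Jat J a) (omi i) T e)) + 2 * (E1 ^ 2 * B ^ 2 * R / K * XE (Jat J a) (omi i) T e) := by
        ring
      rw [e1]
      linarith
    have hK23 : 0 < K ^ (2 / 3 : ℝ) := by positivity
    have hC0z : 0 ≤ C0 * z := by positivity
    refine (mul_le_mul_of_nonneg_left (add_le_add (mul_le_mul_of_nonneg_left p5 hK23.le)
      (le_refl _)) hC0z).trans ?_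
    have e2 : (2 * C0) * z * (K ^ (2 / 3 : ℝ) * (((nm e : ℝ) ^ (-1 : ℝ) +
        (R / K ^ 2) ^ (1 / 6 : ℝ) * (nm e : ℝ) ^ (1 / 2 : ℝ) + E1 ^ 2 * B ^ 2 * R / K) *
          XE (Jat J a) (omi i) T e) +
      ∑ q ∈ S R, ∑ t ∈ pb E1,
        MPTr Pg A Bw K B (V i) (V i) (Z ^ 5) (Jat J a) (omi i) (omi i) (Tat T e) E0 R b₀ q t) =
      C0 * z * (K ^ (2 / 3 : ℝ) * (2 * (((nm e : ℝ) ^ (-1 : ℝ) +
        (R / K ^ 2) ^ (1 / 6 : ℝ) * (nm e : ℝ) ^ (1 / 2 : ℝ) + E1 ^ 2 * B ^ 2 * R / K) *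
          XE (Jat J a) (omi i) T e)) + (∑ q ∈ S R, ∑ t ∈ pb E1,
        MPTr Pg A Bw K B (V i) (V i) (Z ^ 5) (Jat J a) (omi i) (omi i) (Tat T e) E0 R b₀ q t)) +
      C0 * z * (∑ q ∈ S R, ∑ t ∈ pb E1,
        MPTr Pg A Bw K B (V i) (V i) (Z ^ 5) (Jat J a) (omi i) (omi i) (Tat T e) E0 R b₀ q t) := by
      ring
    rw [e2]
    exact le_add_of_nonneg_right (mul_nonneg hC0z hM)
  refine (mul_le_mul_of_nonneg_left (sum_le_sum fun e he => sum_le_sum fun a ha =>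
    sum_le_sum fun i hi => k2 e he a ha i hi) (by positivity)).trans (le_of_eq ?_)
  simp only [← mul_sum]
  rw [← hz3]
  ring

end Crest.Agent.R017.E3F548
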