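import Crest.Agent.R017.E3Kd_548
import Crest.Agent.R017.E3Hd_290

/-!
# Row 17, R8 (E3) (Z2) (helper548): the non-sharp Gram sum in the numbers of one level

* `Z2core` : the Gram sum of a window, from the pair bounds of the levels (one `e`, one class of
  `δ`, one level)
* `Z2` : the first form, from helper290's `PAIR_RHF`
-/

set_option autoImplicit false
set_option linter.unusedVariables false

noncomputable section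

open Finset
open scoped Classical ComplexConjugate ContDiff

namespace Crest.Agent.R017.E3Ke548

open Crest.Agent.R012 Crest.Agent.R012.Eis Crest.Agent.R012.Div277
open Crest.Agent.R012.MC (Wgt)
open Crest.Agent.R012.LS2 (S mem_S)
open Crest.Agent.R012.Mob705 (pb mem_pb pdiv mem_pdiv)
open Crest.Agent.R012.Weight600 (pw)
open Crest.Agent.R017.C70 (JC OKJ JW okJ_JW)
open Crest.Agent.R017.CM106 (CS FS)
open Crest.Agent.R017.HB645 (hh hh_nonneg hh_le_one abs_lt_of_hh contDiff_hh sum_hh_eq_one)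
open Crest.Agent.R017.E3D579 (TE0)
open Crest.Agent.R017.E1551 (nmpos)
open Crest.Agent.R017.E3A164 (Yp Ys SteT)
open Crest.Agent.R017.E3M829 (TC Tal Cut)
open Crest.Agent.R017.E3F548
open Crest.Agent.R017.E3T1579 (T3 WQ)
open Crest.Agent.R017.E3T2579 (wL)
open Crest.Agent.R017.E3T829 (hE hE_nonneg)
open Crest.Agent.R017.E3Z548
open Crest.Agent.R017.E3Kc548
open Crest.Agent.R017.Mode405 (Slp)
open Crest.Agent.R017.E3Sz579 (RHd Ld Md Ld_nonneg Md_nonneg)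
open Crest.Agent.R017.E3Hb290 (LVH)
open Crest.Agent.R017.E3Hd290 (RNF RNF_nonneg PAIR_RHF)

/-! ### the classes of `δ` -/

lemma sum_Jat (J : Finset (Eis × Eis)) (F : Eis × Eis → ℝ) :
    ∑ a ∈ J.image (fun x => Nat.log 2 (nm x.1)), ∑ x ∈ Jat J a, F x = ∑ x ∈ J, F x := by
  unfold Jat
  exact sum_fiberwise_of_maps_to (fun x hx => mem_image_of_mem _ hx) F

lemma Jat_fst (J : Finset (Eis × Eis)) (a : ℕ) :
    (Jat J a).image Prod.fst = (J.image Prod.fst).filter fun d => Nat.log 2 (nm d) = a := by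
  ext d
  simp only [Jat, mem_image, mem_filter]
  constructor
  · rintro ⟨x, ⟨h1, h2⟩, rfl⟩
    exact ⟨⟨x, h1, rfl⟩, h2⟩
  · rintro ⟨⟨x, h1, rfl⟩, h2⟩
    exact ⟨x, ⟨h1, h2⟩, rfl⟩

lemma sum_Jat_fst (J : Finset (Eis × Eis)) (F : Eis → ℝ) :
    ∑ a ∈ J.image (fun x => Nat.log 2 (nm x.1)), ∑ d ∈ (Jat J a).image Prod.fst, F d =
      ∑ d ∈ J.image Prod.fst, F d := by
  rw [sum_congr rfl fun a _ => by rw [Jat_fst J a]]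
  refine sum_fiberwise_of_maps_to (fun d hd => ?_) F
  obtain ⟨x, hx, rfl⟩ := mem_image.mp hd
  exact mem_image_of_mem (fun x : Eis × Eis => Nat.log 2 (nm x.1)) hx

/-! ### the levels -/

lemma sum_hh {D Y₀ Y₁ : ℝ} {x : Eis × Eis} (hx : x ∈ JW D Y₀ Y₁) :
    ∑ k ∈ LI Y₀ Y₁, hh (Real.log (nm (x.2 * x.1 ^ 2)) - k) = 1 := by
  have h := om_sum (om := fun _ => 1) hx
  unfold omk at h
  simp only [mul_one] at h
  rw [← Complex.ofReal_sum] at h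
  exact_mod_cast h.symm

lemma sum_XE {D Y₀ Y₁ : ℝ} (om : Eis × Eis → ℂ) (T : Eis → Eis → Eis → ℂ) (e : Eis) :
    ∑ i ∈ LI Y₀ Y₁, XE (JW D Y₀ Y₁) (omk om i) T e ≤ XE (JW D Y₀ Y₁) om T e := by
  unfold XE
  rw [sum_comm]
  refine sum_le_sum fun x hx => ?_
  rw [← sum_mul]
  refine mul_le_mul_of_nonneg_right ?_ (by positivity)
  have h1 : ∀ k ∈ LI Y₀ Y₁, ‖omk om k x‖ ^ 2 ≤
      hh (Real.log (nm (x.2 * x.1 ^ 2)) - k) * ‖om x‖ ^ 2 := by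
    intro k _
    unfold omk
    have h0 := hh_nonneg (Real.log (nm (x.2 * x.1 ^ 2)) - k)
    have h1 := hh_le_one (Real.log (nm (x.2 * x.1 ^ 2)) - k)
    rw [norm_mul, Complex.norm_real, Real.norm_eq_abs, abs_of_nonneg h0, mul_pow]
    refine mul_le_mul_of_nonneg_right ?_ (by positivity)
    nlinarith
  refine (sum_le_sum h1).trans ?_
  rw [← sum_mul, sum_hh hx, one_mul]

/-! ### congruences -/

lemma SteT_congr {J : Finset (Eis × Eis)} {om : Eis × Eis → ℂ} {T T' : Eis → Eis → Eis → ℂ}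
    {E0 : ℝ} (h : ∀ x ∈ J, ∀ e ∈ S E0, T x.1 e x.2 = T' x.1 e x.2) (k : Eis) :
    SteT J om E0 T k = SteT J om E0 T' k := by
  unfold SteT
  refine sum_congr rfl fun x hx => ?_
  rw [sum_congr rfl fun e he => by rw [h x hx e (mem_filter.mp he).1]]

lemma XE_congr {J : Finset (Eis × Eis)} {om : Eis × Eis → ℂ} {T T' : Eis → Eis → Eis → ℂ}
    {e : Eis} (h : ∀ x ∈ J, T x.1 e x.2 = T' x.1 e x.2) : XE J om T e = XE J om T' e := by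
  unfold XE
  exact sum_congr rfl fun x hx => by rw [h x hx]

/-! ### the core -/

/-- **(Z2), core** -/
theorem Z2core {w : ℝ → ℝ} (hw : Wgt w) (hw0 : ∀ x, 0 ≤ w x) {ε : ℝ} (hε : 0 < ε) :
    ∃ b₀ : ℝ, 0 ≤ b₀ ∧ ∀ (Rw : ℝ) (A Bw : ℕ), 2 ≤ Rw → 1 < A → 1 < Bw → ∃ C : ℝ, 1 ≤ C ∧
    ∀ (D Y₀ Y₁ : ℝ) (om : Eis × Eis → ℂ) (T : Eis → Eis → Eis → ℂ) (af : Eis → Eis → Eis → ℂ)
      (K R Z B E0 E1 P : ℝ) (F : ℕ → Eis → Eis → ℝ), TC (T3 af) →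
    (∀ x ∈ JW D Y₀ Y₁, ∀ e ∈ S E0, T x.1 e x.2 = T3 af x.1 e x.2) →
    0 < K → 1 ≤ Z → K ≤ Z → 0 ≤ R → R ≤ Z → 1 ≤ B → 0 ≤ E0 → E0 ≤ Z → 0 ≤ E1 → 0 ≤ Y₁ → Y₁ ≤ Z →
    (∀ x ∈ JW D Y₀ Y₁, (nm x.1 : ℝ) ≤ Z) → (∀ x ∈ JW D Y₀ Y₁, (nm x.2 : ℝ) ≤ R) →
    (∀ e ∈ S E0, ∀ a : ℕ, ∀ i ∈ LI Y₀ Y₁, ∑ q ∈ S R, ∑ t ∈ pb E1,
        MPTr Pg A Bw K B (Real.exp i) (Real.exp i) (Z ^ 5) (Jat (JW D Y₀ Y₁) a) (omk om i)
          (omk om i) (T3 (afat af e)) E0 R b₀ q t ≤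
      P * ∑ d ∈ (Jat (JW D Y₀ Y₁) a).image Prod.fst, F i e d) →
    (∑' k : Eis, if IsPrim k ∧ Cut E1 k then
        w ((nm k : ℝ) / K) * ‖SteT (JW D Y₀ Y₁) om E0 T k‖ ^ 2 else 0) ≤
      C * Z ^ ε * (K ^ (2 / 3 : ℝ) * ∑ e ∈ S E0, (((nm e : ℝ) ^ (-1 : ℝ) +
        (R / K ^ 2) ^ (1 / 6 : ℝ) * (nm e : ℝ) ^ (1 / 2 : ℝ) + E1 ^ 2 * B ^ 2 * R / K) *
          XE (JW D Y₀ Y₁) om T e) +
      P * ∑ e ∈ S E0, ∑ i ∈ LI Y₀ Y₁, ∑ d ∈ (JW D Y₀ Y₁).image Prod.fst, F i e d) := by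
  have hε2 : 0 < ε / 2 := by positivity
  obtain ⟨b₀, hb0, h⟩ := gram_nsu hw hw0 hε2
  refine ⟨b₀, hb0, fun Rw A Bw hRw hA hBw => ?_⟩
  obtain ⟨C, hC, h1⟩ := h Rw A Bw (by linarith) hA hBw
  have hc0 : 0 ≤ 1 / (ε / 2) := by positivity
  refine ⟨C * (2 + 1 / (ε / 2)), one_le_mul_of_one_le_of_one_le hC (by linarith), ?_⟩
  intro D Y₀ Y₁ om T af K R Z B E0 E1 P F hT hTT hK hZ hKZ hR0 hRZ hB hE0 hE0Z hE1 hY0 hYZ hJ1 hJ2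
    hP
  have hJ := okJ_JW D Y₀ Y₁
  have hZ0 : (0 : ℝ) < Z := by linarith
  obtain ⟨J, hJd⟩ : ∃ J, J = JW D Y₀ Y₁ := ⟨_, rfl⟩
  have k1 := h1 ℕ (LI Y₀ Y₁) (JW D Y₀ Y₁) om (omk om) (T3 af) hT hJ (fun x hx => om_sum hx)
    (fun k => Real.exp k) (fun k _ => Real.exp_pos _) (fun k _ x _ hne => omk_win hRw hne)
    K R Z B E0 E1 hK hZ hKZ hR0 hRZ hB hE0 hE0Z hE1 hJ1 hJ2
  rw [tsum_congr fun k => by rw [SteT_congr hTT k]]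
  refine k1.trans ?_
  simp only [T3_Tat]
  have hcard := card_LI Y₀ hZ hY0 hYZ hε2
  have hze : (Z ^ (ε / 2)) * Z ^ (ε / 2) = Z ^ ε := by
    rw [← Real.rpow_add hZ0]; congr 1; ring
  -- the inner sum
  set wt : Eis → ℝ := fun e => (nm e : ℝ) ^ (-1 : ℝ) +
        (R / K ^ 2) ^ (1 / 6 : ℝ) * (nm e : ℝ) ^ (1 / 2 : ℝ) + E1 ^ 2 * B ^ 2 * R / K with hwt
  have hwt0 : ∀ e, 0 ≤ wt e := fun e => by rw [hwt]; positivity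
  set G : Eis → ℕ → ℕ → ℝ := fun e a i => ∑ q ∈ S R, ∑ t ∈ pb E1,
        MPTr Pg A Bw K B (Real.exp i) (Real.exp i) (Z ^ 5) (Jat (JW D Y₀ Y₁) a) (omk om i)
          (omk om i) (T3 (afat af e)) E0 R b₀ q t with hG
  have hG0 : ∀ e a i, 0 ≤ G e a i := fun e a i => by
    rw [hG]
    exact sum_nonneg fun q hq => sum_nonneg fun t _ =>
      MPTr_nonneg Pg A Bw _ _ _ hK.le (OKJ_Jat hJ a) (Real.exp_pos _) (Real.exp_pos _)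
        (SR_prim hq).1
  set LA := (JW D Y₀ Y₁).image (fun x => Nat.log 2 (nm x.1)) with hLA
  have hin : 0 ≤ ∑ e ∈ S E0, ∑ a ∈ LA, ∑ i ∈ LI Y₀ Y₁, (K ^ (2 / 3 : ℝ) * (wt e *
      XE (Jat (JW D Y₀ Y₁) a) (omk om i) (T3 af) e) + G e a i) :=
    sum_nonneg fun e _ => sum_nonneg fun a _ => sum_nonneg fun i _ =>
      add_nonneg (mul_nonneg (by positivity) (mul_nonneg (hwt0 e) (XE_nonneg _ _ _ _))) (hG0 e a i)
  have k2 : C * Z ^ (ε / 2) * (LI Y₀ Y₁).card * ∑ e ∈ S E0, ∑ a ∈ LA, ∑ i ∈ LI Y₀ Y₁,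
      (K ^ (2 / 3 : ℝ) * (wt e * XE (Jat (JW D Y₀ Y₁) a) (omk om i) (T3 af) e) + G e a i) ≤
      C * (2 + 1 / (ε / 2)) * Z ^ ε * ∑ e ∈ S E0, ∑ a ∈ LA, ∑ i ∈ LI Y₀ Y₁,
      (K ^ (2 / 3 : ℝ) * (wt e * XE (Jat (JW D Y₀ Y₁) a) (omk om i) (T3 af) e) + G e a i) := by
    refine mul_le_mul_of_nonneg_right ?_ hin
    calc C * Z ^ (ε / 2) * (LI Y₀ Y₁).card ≤
        C * Z ^ (ε / 2) * ((2 + 1 / (ε / 2)) * Z ^ (ε / 2)) :=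
          mul_le_mul_of_nonneg_left hcard (by positivity)
      _ = C * (2 + 1 / (ε / 2)) * Z ^ ε := by rw [← hze]; ring
  refine k2.trans (mul_le_mul_of_nonneg_left ?_ (by positivity))
  have e1 : ∑ e ∈ S E0, ∑ a ∈ LA, ∑ i ∈ LI Y₀ Y₁,
      (K ^ (2 / 3 : ℝ) * (wt e * XE (Jat (JW D Y₀ Y₁) a) (omk om i) (T3 af) e) + G e a i) =
      K ^ (2 / 3 : ℝ) * (∑ e ∈ S E0, wt e * ∑ a ∈ LA, ∑ i ∈ LI Y₀ Y₁,
        XE (Jat (JW D Y₀ Y₁) a) (omk om i) (T3 af) e) +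
      ∑ e ∈ S E0, ∑ a ∈ LA, ∑ i ∈ LI Y₀ Y₁, G e a i := by
    simp only [sum_add_distrib, mul_sum]
  rw [e1]
  refine add_le_add (mul_le_mul_of_nonneg_left (sum_le_sum fun e he => ?_) (by positivity)) ?_
  · refine mul_le_mul_of_nonneg_left ?_ (hwt0 e)
    rw [sum_comm]
    have e2 : ∀ i ∈ LI Y₀ Y₁, ∑ a ∈ LA, XE (Jat (JW D Y₀ Y₁) a) (omk om i) (T3 af) e =
        XE (JW D Y₀ Y₁) (omk om i) (T3 af) e := by
      intro i _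
      unfold XE
      exact sum_Jat (JW D Y₀ Y₁) _
    rw [sum_congr rfl e2, XE_congr fun x hx => hTT x hx e he]
    exact sum_XE om (T3 af) e
  · have e3 : P * ∑ e ∈ S E0, ∑ i ∈ LI Y₀ Y₁, ∑ d ∈ (JW D Y₀ Y₁).image Prod.fst, F i e d =
        ∑ e ∈ S E0, ∑ a ∈ LA, ∑ i ∈ LI Y₀ Y₁,
          P * ∑ d ∈ (Jat (JW D Y₀ Y₁) a).image Prod.fst, F i e d := by
      rw [mul_sum]
      refine sum_congr rfl fun e _ => ?_
      conv_rhs => rw [sum_comm]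
      rw [mul_sum]
      refine sum_congr rfl fun i _ => ?_
      rw [← mul_sum, sum_Jat_fst]
    rw [e3]
    exact sum_le_sum fun e he => sum_le_sum fun a _ => sum_le_sum fun i hi => hP e he a i hi

/-! ### the first form -/

lemma LVn_afat (af : Eis → Eis → Eis → ℂ) (d e : Eis) (c Y K H V V' E1 B G1 RN : ℝ) :
    LVn (afat af e) {d} {e} c Y K H V V' E1 B G1 RN = LVn af {d} {e} c Y K H V V' E1 B G1 RN := by
  have h : afat af e d e = af d e := by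
    funext m
    simp [afat]
  unfold LVn TN
  simp only [sum_singleton, h]

lemma LVH_afat (af : Eis → Eis → Eis → ℂ) (Ds : Finset Eis) (e : Eis) (c Y K : ℝ)
    (H : Eis → Eis → ℝ) (V V' E1 B G1 : ℝ) (RN : Eis → Eis → ℝ) :
    LVH (afat af e) Ds {e} c Y K H V V' E1 B G1 RN =
      ∑ d ∈ Ds, LVn af {d} {e} c Y K (H d e) V V' E1 B G1 (RN d e) := by
  unfold LVH
  refine sum_congr rfl fun d _ => ?_
  rw [sum_singleton, LVn_afat]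

/-- **(Z2), the first form** -/
theorem Z2 {w : ℝ → ℝ} (hw : Wgt w) (hw0 : ∀ x, 0 ≤ w x) {R0 : ℝ} (hR0 : 0 ≤ R0) (a A₁ : ℕ)
    (hA₁ : 1 < A₁) {ε : ℝ} (hε : 0 < ε) (hε1 : ε ≤ 1) :
    ∃ (A : ℕ) (c C : ℝ), 1 ≤ c ∧ 1 ≤ C ∧
    ∀ (Om : ℝ → ℂ) (Mb : ℝ), 0 ≤ Mb → ContDiff ℝ ∞ Om →
      (∀ n ≤ A + 2, ∀ x, ‖iteratedDeriv n Om x‖ ≤ Mb) →
    ∀ (τ : ℝ) (κ : ℂ), ‖κ‖ ≤ 1 → ∀ (Z : ℝ), 1 ≤ Z → ∀ (D Y₀ Y₁ : ℝ)
      (om : Eis × Eis → ℂ) (T : Eis → Eis → Eis → ℂ) (af : Eis → Eis → Eis → ℂ)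
      (E0 E1 R B K X : ℝ) (H : ℕ → Eis → Eis → ℝ) (W0 : ℕ → Eis → Eis → ℝ → ℝ),
      TC (T3 af) → (∀ d e, FS (af d e)) →
      (∀ x ∈ JW D Y₀ Y₁, ∀ e ∈ S E0, T x.1 e x.2 = T3 af x.1 e x.2) → 0 ≤ D → 0 ≤ Y₁ →
      (∀ x ∈ JW D Y₀ Y₁, om x = κ * (Om (Real.log (nm (x.2 * x.1 ^ 2))) * pw τ (nm x.2))) →
      (∀ i ∈ LI Y₀ Y₁, ∀ n : ℕ, 0 < n → hh (Real.log n - i) ≠ 0 → Om (Real.log n) ≠ 0 →
        Y₀ < n ∧ (n : ℝ) ≤ Y₁) →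
      0 < K → K ≤ Z → 0 ≤ R → R ≤ Z → 1 ≤ B → B ≤ Z → 0 ≤ E0 → E0 ≤ Z → 0 ≤ E1 → E1 ≤ Z → Y₁ ≤ Z →
      (∀ x ∈ JW D Y₀ Y₁, (nm x.1 : ℝ) ≤ Z) → (∀ x ∈ JW D Y₀ Y₁, (nm x.2 : ℝ) ≤ R) →
      0 < X → X ≤ Z ^ 5 → (∀ i d e, 0 < H i d e) → (∀ i ∈ LI Y₀ Y₁, c * Real.exp i ≤ Z ^ 5) →
      (∀ i ∈ LI Y₀ Y₁, ∀ d ∈ S (Z ^ 5), ∀ e ∈ S E0, c * (H i d e * Real.exp i ^ 2) ≤ K * X) →
      (∀ d ∈ S (Z ^ 5), ∀ e ∈ S E0, ∀ n, af d e n ≠ 0 → Squarefree n) →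
      (∀ d ∈ S (Z ^ 5), ∀ e ∈ S E0, ∀ n, af d e n ≠ 0 →
        |Real.log (nm d * nm n) - Real.log X| ≤ R0) →
      (∀ i d e, Slp a (W0 i d e)) →
      (∀ i ∈ LI Y₀ Y₁, RHd (Z ^ 5) (c * Z ^ 200) A₁ (S E0) af (W0 i)) →
      (∑' k : Eis, if IsPrim k ∧ Cut E1 k then
        w ((nm k : ℝ) / K) * ‖SteT (JW D Y₀ Y₁) om E0 T k‖ ^ 2 else 0) ≤
      C * Z ^ ε * (K ^ (2 / 3 : ℝ) * ∑ e ∈ S E0, (((nm e : ℝ) ^ (-1 : ℝ) +
        (R / K ^ 2) ^ (1 / 6 : ℝ) * (nm e : ℝ) ^ (1 / 2 : ℝ) + E1 ^ 2 * B ^ 2 * R / K) *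
          XE (JW D Y₀ Y₁) om T e) +
      Mb ^ 2 * (1 + |τ|) ^ A * ∑ e ∈ S E0, ∑ i ∈ LI Y₀ Y₁, ∑ d ∈ (JW D Y₀ Y₁).image Prod.fst,
        (nm e : ℝ)⁻¹ * LVn af {d} {e} c (Z ^ 5) K (H i d e) (Real.exp i) (Real.exp i) E1 B 1
          (RNF c K (Real.exp i) X (H i) (W0 i) d e)) := by
  have hε2 : 0 < ε / 2 := by positivity
  obtain ⟨w1, hW1, hw1s, hw1e⟩ := exists_w1
  obtain ⟨b₀, hb0, hcore⟩ := Z2core hw hw0 hε2
  obtain ⟨A₀, c, hc, hpair⟩ := PAIR_RHF (Rw := 3) (by norm_num) contDiff_hh hhc hW1 hw1s hw1e hR0 a A₁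
    hA₁ hb0 hε2 (by linarith)
  obtain ⟨C1, hC1, h1⟩ := hcore 3 (max A₀ 2) 4 (by norm_num) (by omega) (by norm_num)
  obtain ⟨C2, hC2, h2⟩ := hpair (max A₀ 2) (le_max_left _ _) 4 le_rfl
  refine ⟨max A₀ 2, c, C1 * (1 + 2 * C2), hc,
    one_le_mul_of_one_le_of_one_le hC1 (by linarith), ?_⟩
  intro Om Mb hMb hOm hOb τ κ hκ Z hZ D Y₀ Y₁ om T af E0 E1 R B K X H W0 hT haf hTT hD hY0 hom hwn
    hK hKZ hR0' hRZ hB hBZ hE0 hE0Z hE1 hE1Z hYZ hJ1 hJ2 hX hXZ hH hcV hKX hsf hwin hS hRH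
  have hZ0 : (0 : ℝ) < Z := by linarith
  have hB0 : 0 ≤ B := by linarith
  obtain ⟨A, hA⟩ : ∃ A, A = max A₀ 2 := ⟨_, rfl⟩
  rw [← hA] at h1 h2 hOb ⊢
  have hJ := okJ_JW D Y₀ Y₁
  obtain ⟨F, hF⟩ : ∃ F : ℕ → Eis → Eis → ℝ, F = fun i e d =>
      (nm e : ℝ)⁻¹ * LVn af {d} {e} c (Z ^ 5) K (H i d e) (Real.exp i) (Real.exp i) E1 B 1
          (RNF c K (Real.exp i) X (H i) (W0 i) d e) := ⟨_, rfl⟩
  have key := h1 D Y₀ Y₁ om T af K R Z B E0 E1 (2 * C2 * Mb ^ 2 * (1 + |τ|) ^ A * Z ^ (ε / 2)) F hT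
    hTT hK hZ hKZ hR0' hRZ hB hE0 hE0Z hE1 hY0 hYZ hJ1 hJ2 (by
      intro e he b i hi
      have hsub : ∀ x ∈ Jat (JW D Y₀ Y₁) b, x ∈ JW D Y₀ Y₁ := fun x hx => (mem_filter.mp hx).1
      have hWQ := WQ_Jat (omk_WQ (κ := κ) (Om := Om) (τ := τ) (E0 := E0) (R := R) hD hY0 hom i
        (hwn i hi)) hJ b
      have hTa : TC (T3 (afat af e)) := by rw [← T3_Tat]; exact TC_Tat hT e
      have haf' : afat af e = fun d e' m => if e' = e then af d e' m else 0 := rfl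
      have haf2 : ∀ d, afat af e d e = af d e := fun d => by
        funext m
        simp [afat]
      have p := h2 Om Om Mb hMb hOm hOm hOb hOb (Real.exp i) (Real.exp i) τ κ κ (Real.exp_pos _)
        (Real.exp_pos _) hκ hκ Z hZ Pg (Jat (JW D Y₀ Y₁) b) (omk om i) (omk om i) (afat af e) {e}
        E0 E1 R B K X 1 1 (H i) (H i) (W0 i) (W0 i) hTa (FS_afat haf e) (OKJ_Jat hJ b)
        (EE_afat af e) hK hR0' hRZ hB0 hBZ hE1 hE1Z (fun x hx => hJ1 x (hsub x hx))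
        (fun x hx => hJ2 x (hsub x hx)) hWQ hWQ hX (hH i) (hH i) zero_le_one zero_le_one
        (hKZ.trans (le_self_pow₀ hZ (by norm_num))) hXZ (hcV i hi) (hcV i hi)
        (fun d hd e' he' => by rw [mem_singleton.mp he']; exact hKX i hi d hd e he)
        (fun d hd e' he' => by rw [mem_singleton.mp he']; exact hKX i hi d hd e he)
        (Or.inr ⟨ClsP_Jat hJ b E0 R, le_rfl⟩) (Or.inr ⟨ClsP_Jat hJ b E0 R, le_rfl⟩)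
        (fun d hd e' he' n hn => by
          rw [mem_singleton.mp he', haf2] at hn
          exact hsf d hd e he n hn)
        (fun d hd e' he' n hn => by
          rw [mem_singleton.mp he', haf2] at hn
          exact hwin d hd e he n hn)
        (hS i) (hS i)
        (fun d hd e' he' γ π hγ hπ hπm P hP => by
          rw [mem_singleton.mp he', haf2]
          exact hRH i hi d hd e he γ π hγ hπ hπm P hP)
        (fun d hd e' he' γ π hγ hπ hπm P hP => by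
          rw [mem_singleton.mp he', haf2]
          exact hRH i hi d hd e he γ π hγ hπ hπm P hP)
      refine p.trans (le_of_eq ?_)
      have e4 : hE {e} = (nm e : ℝ)⁻¹ := by
        unfold hE
        rw [sum_singleton, one_div]
      rw [LVH_afat, e4, hF, ← mul_sum]
      ring)
  refine key.trans ?_
  have hze : (Z ^ (ε / 2)) * Z ^ (ε / 2) = Z ^ ε := by
    rw [← Real.rpow_add hZ0]; congr 1; ring
  have hz1 : 1 ≤ Z ^ (ε / 2) := Real.one_le_rpow hZ hε2.le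
  have hF0 : ∀ i e d, 0 ≤ F i e d := fun i e d => by
    rw [hF]
    have hh := hH i d e
    have hI : 0 < c * (X * Real.exp i * H i d e / K) := by
      have := Real.exp_pos (i : ℝ)
      positivity
    exact mul_nonneg (by positivity) (LVn_nonneg hK.le hh.le (Real.exp_pos _).le
      (Real.exp_pos _).le hE1 zero_le_one (RNF_nonneg
        (Md_nonneg (by linarith) hK (Real.exp_pos _) hh hX d) ((hS i d e).nonneg _ hI)))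
  rw [show (∑ e ∈ S E0, ∑ i ∈ LI Y₀ Y₁, ∑ d ∈ (JW D Y₀ Y₁).image Prod.fst,
        (nm e : ℝ)⁻¹ * LVn af {d} {e} c (Z ^ 5) K (H i d e) (Real.exp i) (Real.exp i) E1 B 1
          (RNF c K (Real.exp i) X (H i) (W0 i) d e)) =
      ∑ e ∈ S E0, ∑ i ∈ LI Y₀ Y₁, ∑ d ∈ (JW D Y₀ Y₁).image Prod.fst, F i e d by rw [hF]]
  have hS2 : 0 ≤ ∑ e ∈ S E0, ∑ i ∈ LI Y₀ Y₁, ∑ d ∈ (JW D Y₀ Y₁).image Prod.fst, F i e d :=
    sum_nonneg fun e _ => sum_nonneg fun i _ => sum_nonneg fun d _ => hF0 i e d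
  have hS1 : 0 ≤ K ^ (2 / 3 : ℝ) * ∑ e ∈ S E0, (((nm e : ℝ) ^ (-1 : ℝ) +
        (R / K ^ 2) ^ (1 / 6 : ℝ) * (nm e : ℝ) ^ (1 / 2 : ℝ) + E1 ^ 2 * B ^ 2 * R / K) *
          XE (JW D Y₀ Y₁) om T e) :=
    mul_nonneg (by positivity) (sum_nonneg fun e _ => mul_nonneg (by positivity)
      (XE_nonneg _ _ _ _))
  obtain ⟨S1, hS1d⟩ : ∃ S1, S1 = K ^ (2 / 3 : ℝ) * ∑ e ∈ S E0, (((nm e : ℝ) ^ (-1 : ℝ) +
        (R / K ^ 2) ^ (1 / 6 : ℝ) * (nm e : ℝ) ^ (1 / 2 : ℝ) + E1 ^ 2 * B ^ 2 * R / K) *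
          XE (JW D Y₀ Y₁) om T e) := ⟨_, rfl⟩
  obtain ⟨S2, hS2d⟩ : ∃ S2, S2 = ∑ e ∈ S E0, ∑ i ∈ LI Y₀ Y₁,
      ∑ d ∈ (JW D Y₀ Y₁).image Prod.fst, F i e d := ⟨_, rfl⟩
  rw [← hS2d] at hS2 ⊢
  rw [← hS1d] at hS1 ⊢
  obtain ⟨z, hz⟩ : ∃ z, z = Z ^ (ε / 2) := ⟨_, rfl⟩
  rw [← hz] at hze hz1 ⊢
  rw [← hze]
  have hM : 0 ≤ Mb ^ 2 * (1 + |τ|) ^ A := by positivity
  obtain ⟨M, hMd⟩ : ∃ M, M = Mb ^ 2 * (1 + |τ|) ^ A := ⟨_, rfl⟩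
  rw [← hMd] at hM ⊢
  rw [show 2 * C2 * Mb ^ 2 * (1 + |τ|) ^ A * z = 2 * C2 * M * z by rw [hMd]; ring]
  have hz0 : 0 ≤ z := by linarith
  have hMS : 0 ≤ M * S2 := mul_nonneg hM hS2
  have a1 : S1 ≤ (1 + 2 * C2) * z * S1 := by
    have : 1 ≤ (1 + 2 * C2) * z := one_le_mul_of_one_le_of_one_le (by linarith) hz1
    exact le_mul_of_one_le_left hS1 this
  have a2 : 2 * C2 * M * z * S2 ≤ (1 + 2 * C2) * z * (M * S2) := by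
    have : 0 ≤ z * (M * S2) := mul_nonneg hz0 hMS
    nlinarith
  calc C1 * z * (S1 + 2 * C2 * M * z * S2) ≤
      C1 * z * ((1 + 2 * C2) * z * S1 + (1 + 2 * C2) * z * (M * S2)) :=
        mul_le_mul_of_nonneg_left (add_le_add a1 a2) (by positivity)
    _ = C1 * (1 + 2 * C2) * (z * z) * (S1 + M * S2) := by ring

end Crest.Agent.R017.E3Ke548
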