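import Crest.Agent.R017.E3L_548

/-!
# Row 17, R8 (E3), outer assembly (helper548): restricted pairs

For a relation `Pr` on the parameters containing `sm` (e.g. the same `g`):

* `Qc Pr`, `OPr Pr`, `MPTr Pr` : the sums over the pairs with `Pr`
* `off_pairs_r`, `OP_le_r`, `OFF_le_r`
* `same_g` : `‖Σ_y F_y‖² ≤ τ(k₁) Qc (same g)`
* `gram_ns` : the non-sharp Gram sum, pairs with the same `g` only
-/

set_option autoImplicit false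
set_option linter.unusedVariables false
set_option maxHeartbeats 800000

noncomputable section

open Finset
open scoped ComplexConjugate
open scoped Classical

namespace Crest.Agent.R017.E3F548

open Crest.Agent.R012 Crest.Agent.R012.Eis Crest.Agent.R012.Mob705 Crest.Agent.R012.Gauss880
open Crest.Agent.R012.LS2
open Crest.Agent.R017.CM106
open Crest.Agent.R017.PX764 Crest.Agent.R017.C70 Crest.Agent.R017.GrB829 Crest.Agent.R017.GrD829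
open Crest.Agent.R017.E3s164 Crest.Agent.R017.E3A164
open Crest.Agent.R012.Div277 (tau)
open Crest.Agent.R012.MC (Wgt)
open Crest.Agent.R017.DgA829 (lc lc_prim lc_dvd)
open Crest.Agent.R017.E3M829 (PP mem_PP AE W0 Sg TC TF Cut Iw XT)
open Crest.Agent.R017.BD829 (KT Win exists_KT)
open Crest.Agent.R017.E3P842 (MP tws)
open Crest.Agent.R017.StA828 (gp_spec)

section restricted

variable {J : Finset (Eis × Eis)} {om : Eis × Eis → ℂ} {T : Eis → Eis → Eis → ℂ} {q t : Eis}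
  {R E0 K B E1 W b₀ : ℝ} {w : ℝ → ℝ} {Pr : Yp → Yp → Prop}

/-- the form of the pairs with `Pr` -/
def Qc (Pr : Yp → Yp → Prop) (J : Finset (Eis × Eis)) (om : Eis × Eis → ℂ)
    (T : Eis → Eis → Eis → ℂ) (E0 R : ℝ) (q t k₁ : Eis) : ℝ :=
  (∑ y ∈ Ys J E0 R, ∑ y' ∈ Ys J E0 R,
    if Pr y y' then Fy J om T q t k₁ y * conj (Fy J om T q t k₁ y') else 0).re

/-- the off-diagonal term of the pair with `Pr` -/
def Xr (Pr : Yp → Yp → Prop) (J : Finset (Eis × Eis)) (om : Eis × Eis → ℂ)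
    (T : Eis → Eis → Eis → ℂ) (R : ℝ) (q t : Eis) (y y' : Yp) (k₁ : Eis) : ℂ :=
  if Pr y y' then Xk J om T R q t y y' k₁ else 0

lemma Xr_zero {y y' : Yp} {k₁ : Eis} (h : ¬ ((y.2.2.2 ∣ k₁ ∧ y.2.1 ∣ k₁ * q * t) ∧
    (y'.2.2.2 ∣ k₁ ∧ y'.2.1 ∣ k₁ * q * t))) : Xr Pr J om T R q t y y' k₁ = 0 := by
  unfold Xr
  rw [Xk_zero h, ite_self]

lemma Qc_expand (hPr : ∀ y y', sm y y' → Pr y y') (k₁ : Eis) :
    Qc Pr J om T E0 R q t k₁ - Dg J om T E0 R q t k₁ =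
      (∑ y ∈ Ys J E0 R, ∑ y' ∈ Ys J E0 R, Xr Pr J om T R q t y y' k₁).re := by
  have h := sq_expand (J := J) (om := om) (T := T) (q := q) (t := t) (R := R) (E0 := E0) k₁
  have h1 : ((‖∑ y ∈ Ys J E0 R, Fy J om T q t k₁ y‖ ^ 2 : ℝ) : ℂ) =
      ∑ y ∈ Ys J E0 R, ∑ y' ∈ Ys J E0 R, Fy J om T q t k₁ y * conj (Fy J om T q t k₁ y') := by
    rw [Complex.ofReal_pow, ← Complex.mul_conj', map_sum, sum_mul_sum]
  rw [h1] at h
  simp only [sum_sub_distrib] at h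
  have h2 : ((Dg J om T E0 R q t k₁ : ℝ) : ℂ) = ∑ y ∈ Ys J E0 R, ∑ y' ∈ Ys J E0 R,
      if sm y y' then ∑ n ∈ S R, fn J om T q t k₁ y n * conj (fn J om T q t k₁ y' n) else 0 := by
    linear_combination -h
  have h3 : Qc Pr J om T E0 R q t k₁ - Dg J om T E0 R q t k₁ =
      ((∑ y ∈ Ys J E0 R, ∑ y' ∈ Ys J E0 R,
        if Pr y y' then Fy J om T q t k₁ y * conj (Fy J om T q t k₁ y') else 0) -
        ((Dg J om T E0 R q t k₁ : ℝ) : ℂ)).re := by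
    rw [Complex.sub_re, Complex.ofReal_re]; rfl
  rw [h3, h2, ← sum_sub_distrib]
  congr 1
  refine sum_congr rfl fun y _ => ?_
  rw [← sum_sub_distrib]
  refine sum_congr rfl fun y' _ => ?_
  unfold Xr Xk
  by_cases hp : Pr y y'
  · rw [if_pos hp, if_pos hp]
  · rw [if_neg hp, if_neg hp, if_neg (fun hs => hp (hPr y y' hs)), sub_zero]

/-- the summand of the off-diagonal part, pairs with `Pr` -/
def OPr (Pr : Yp → Yp → Prop) (w : ℝ → ℝ) (K B : ℝ) (J : Finset (Eis × Eis))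
    (om : Eis × Eis → ℂ) (T : Eis → Eis → Eis → ℂ) (E0 R b₀ : ℝ) (q t : Eis) : ℝ :=
  ∑ y ∈ Ys J E0 R, ∑ y' ∈ Ys J E0 R, ∑ b ∈ S B, ∑ b' ∈ S B, ∑ s ∈ pdiv q,
    if Pr y y' ∧ Cop (MM q t y y' b b' s) y y' ∧
      (nm (MM q t y y' b b' s * q ^ 2 * t ^ 3) : ℝ) ≤ b₀ * K then
      pf K q t y y' * ‖PD w K J om T R q t (MM q t y y' b b' s) y y'‖ else 0

lemma one_tuple_r (hw : W0 w W b₀) (hK : 0 < K) (hJ : OKJ J) (hq : IsPrim q) (ht : IsPrim t)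
    {y y' : Yp} (hy : y ∈ Ys J E0 R) (hy' : y' ∈ Ys J E0 R) {b b' s : Eis} (hb : IsPrim b)
    (hb' : IsPrim b') (hs : IsPrim s) {N : ℕ} (hN : ∀ k : Eis, N < nm k → w (nm k / K) = 0) :
    ‖∑ k₁ ∈ primBall N, (if MM q t y y' b b' s ∣ k₁ then
      ((w (nm (k₁ * q ^ 2 * t ^ 3) / K) : ℝ) : ℂ) * Xr Pr J om T R q t y y' k₁ else 0)‖ ≤
      if Pr y y' ∧ Cop (MM q t y y' b b' s) y y' ∧
        (nm (MM q t y y' b b' s * q ^ 2 * t ^ 3) : ℝ) ≤ b₀ * K then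
      pf K q t y y' * ‖PD w K J om T R q t (MM q t y y' b b' s) y y'‖ else 0 := by
  by_cases hp : Pr y y'
  · have h1 := one_tuple (om := om) (T := T) hw hK hJ hq ht hy hy' hb hb' hs hN
    unfold Xr
    simp only [hp, true_and]
    exact h1
  · unfold Xr
    simp only [mul_zero, ite_self, sum_const_zero, norm_zero, hp, false_and, if_false]
    exact le_rfl

/-- **one `(q, t)`** -/
theorem one_qt_r {Pr : Yp → Yp → Prop} (hPr : ∀ y y', sm y y' → Pr y y') (hw : W0 w W b₀) (hK : 0 < K) (hJ : OKJ J) (hq : IsPrim q) (ht : IsPrim t) :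
    (∑' k₁ : Eis, if IsPrim k₁ ∧ IsCoprime k₁ q then
      Maj829.mj B k₁ ^ 2 * w ((nm (k₁ * q ^ 2 * t ^ 3) : ℝ) / K) *
        Qc Pr J om T E0 R q t k₁ else 0) ≤
    (∑' k₁ : Eis, if IsPrim k₁ ∧ IsCoprime k₁ q then
      Maj829.mj B k₁ ^ 2 * w ((nm (k₁ * q ^ 2 * t ^ 3) : ℝ) / K) *
        E3M829.Dg J om T E0 R q t k₁ else 0) + OPr Pr w K B J om T E0 R b₀ q t := by
  set N : ℕ := ⌊b₀ * K⌋₊ with hNd
  have hN : ∀ k : Eis, N < nm k → w (nm k / K) = 0 := by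
    intro k hk
    apply hw.supp
    rw [lt_div_iff₀ hK]
    exact Nat.lt_of_floor_lt hk
  have hN' : ∀ k : Eis, N < nm k → w ((nm (k * q ^ 2 * t ^ 3) : ℝ) / K) = 0 := by
    intro k hk
    apply hN
    have e : k * q ^ 2 * t ^ 3 = k * (q ^ 2 * t ^ 3) := by ring
    rw [e, nm_mul]
    have h2 : 1 ≤ nm (q ^ 2 * t ^ 3) := nm_pos.mpr ((hq.pow 2).mul (ht.pow 3)).ne_zero
    nlinarith
  have hfin : ∀ F : Eis → ℝ, (∑' k₁ : Eis, if IsPrim k₁ ∧ IsCoprime k₁ q then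
      Maj829.mj B k₁ ^ 2 * w ((nm (k₁ * q ^ 2 * t ^ 3) : ℝ) / K) * F k₁ else 0) =
      ∑ k₁ ∈ primBall N, (if IsCoprime k₁ q then
      Maj829.mj B k₁ ^ 2 * w ((nm (k₁ * q ^ 2 * t ^ 3) : ℝ) / K) else 0) * F k₁ := by
    intro F
    rw [tsum_eq_sum (s := primBall N)]
    · refine sum_congr rfl fun k hk => ?_
      have hp := (mem_primBall.mp hk).2
      by_cases hc : IsCoprime k q
      · rw [if_pos ⟨hp, hc⟩, if_pos hc]
      · rw [if_neg (fun h => hc h.2), if_neg hc, zero_mul]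
    · intro k hk
      split_ifs with h
      · rw [hN' k]
        · ring
        · by_contra hle
          exact hk (mem_primBall.mpr ⟨not_lt.mp hle, h.1⟩)
      · rfl
  rw [hfin, hfin, ← sub_le_iff_le_add', ← sum_sub_distrib]
  -- pass to complex numbers
  set cf : Eis → ℝ := fun k₁ => if IsCoprime k₁ q then
      Maj829.mj B k₁ ^ 2 * w ((nm (k₁ * q ^ 2 * t ^ 3) : ℝ) / K) else 0 with hcf
  have hre : ∑ k₁ ∈ primBall N, (cf k₁ * Qc Pr J om T E0 R q t k₁ -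
      cf k₁ * E3M829.Dg J om T E0 R q t k₁) ≤
      ‖∑ k₁ ∈ primBall N, (cf k₁ : ℂ) * ∑ y ∈ Ys J E0 R, ∑ y' ∈ Ys J E0 R,
        Xr Pr J om T R q t y y' k₁‖ := by
    have e1 : ∑ k₁ ∈ primBall N, (cf k₁ * Qc Pr J om T E0 R q t k₁ -
      cf k₁ * E3M829.Dg J om T E0 R q t k₁) = (∑ k₁ ∈ primBall N, (cf k₁ : ℂ) *
        ∑ y ∈ Ys J E0 R, ∑ y' ∈ Ys J E0 R, Xr Pr J om T R q t y y' k₁).re := by
      rw [Complex.re_sum]
      refine sum_congr rfl fun k _ => ?_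
      have h := Qc_expand (J := J) (om := om) (T := T) (q := q) (t := t) (R := R) (E0 := E0) hPr k
      rw [Complex.re_ofReal_mul, ← h, Dg_eq]
      ring
    rw [e1]
    exact Complex.re_le_norm _
  refine hre.trans ?_
  -- expansion of the majorant
  have hexp : ∀ k₁ ∈ primBall N, ∀ X : ℂ, (cf k₁ : ℂ) * X = ∑ b ∈ S B, ∑ b' ∈ S B, ∑ s ∈ pdiv q,
      ((mu b : ℂ) * (mu b' : ℂ) * (mu s : ℂ)) * (if b ^ 2 ∣ k₁ ∧ b' ^ 2 ∣ k₁ ∧ s ∣ k₁ then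
        ((w (nm (k₁ * q ^ 2 * t ^ 3) / K) : ℝ) : ℂ) * X else 0) := by
    intro k₁ hk X
    have hkp := (mem_primBall.mp hk).2
    have hco : ((if IsCoprime k₁ q then 1 else 0 : ℤ) : ℂ) =
        ∑ s ∈ pdiv q, if s ∣ k₁ then (mu s : ℂ) else 0 := by
      rw [← sum_mu_coprime hkp hq.ne_zero]
      push_cast
      rfl
    have hmj : ((Maj829.mj B k₁ : ℝ) : ℂ) = ∑ b ∈ S B, if b ^ 2 ∣ k₁ then (mu b : ℂ) else 0 := by
      unfold Maj829.mj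
      rw [Complex.ofReal_sum]
      refine sum_congr rfl fun b _ => ?_
      split_ifs <;> simp
    have hcf1 : ((cf k₁ : ℝ) : ℂ) = ((Maj829.mj B k₁ : ℝ) : ℂ) * ((Maj829.mj B k₁ : ℝ) : ℂ) *
        ((if IsCoprime k₁ q then 1 else 0 : ℤ) : ℂ) *
          ((w (nm (k₁ * q ^ 2 * t ^ 3) / K) : ℝ) : ℂ) := by
      simp only [hcf]
      split_ifs
      · push_cast; ring
      · push_cast; ring
    rw [hcf1, hco, hmj, sum_mul_sum, sum_mul, sum_mul, sum_mul]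
    refine sum_congr rfl fun b _ => ?_
    rw [sum_mul, sum_mul, sum_mul]
    refine sum_congr rfl fun b' _ => ?_
    rw [mul_sum, sum_mul, sum_mul]
    refine sum_congr rfl fun s _ => ?_
    by_cases h1 : b ^ 2 ∣ k₁
    · by_cases h2 : b' ^ 2 ∣ k₁
      · by_cases h3 : s ∣ k₁
        · rw [if_pos h1, if_pos h2, if_pos h3, if_pos ⟨h1, h2, h3⟩]; ring
        · have h4 : ¬ (b ^ 2 ∣ k₁ ∧ b' ^ 2 ∣ k₁ ∧ s ∣ k₁) := fun h => h3 h.2.2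
          rw [if_neg h3, if_neg h4]; ring
      · have h4 : ¬ (b ^ 2 ∣ k₁ ∧ b' ^ 2 ∣ k₁ ∧ s ∣ k₁) := fun h => h2 h.2.1
        rw [if_neg h2, if_neg h4]; ring
    · have h4 : ¬ (b ^ 2 ∣ k₁ ∧ b' ^ 2 ∣ k₁ ∧ s ∣ k₁) := fun h => h1 h.1
      rw [if_neg h1, if_neg h4]; ring
  have hswap : ∑ k₁ ∈ primBall N, (cf k₁ : ℂ) * ∑ y ∈ Ys J E0 R, ∑ y' ∈ Ys J E0 R,
        Xr Pr J om T R q t y y' k₁ = ∑ y ∈ Ys J E0 R, ∑ y' ∈ Ys J E0 R, ∑ b ∈ S B, ∑ b' ∈ S B,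
        ∑ s ∈ pdiv q, ((mu b : ℂ) * (mu b' : ℂ) * (mu s : ℂ)) *
        ∑ k₁ ∈ primBall N, (if MM q t y y' b b' s ∣ k₁ then
        ((w (nm (k₁ * q ^ 2 * t ^ 3) / K) : ℝ) : ℂ) * Xr Pr J om T R q t y y' k₁ else 0) := by
    have e1 : ∀ k₁ ∈ primBall N, (cf k₁ : ℂ) * ∑ y ∈ Ys J E0 R, ∑ y' ∈ Ys J E0 R,
        Xr Pr J om T R q t y y' k₁ = ∑ y ∈ Ys J E0 R, ∑ y' ∈ Ys J E0 R, ∑ b ∈ S B, ∑ b' ∈ S B,
        ∑ s ∈ pdiv q, ((mu b : ℂ) * (mu b' : ℂ) * (mu s : ℂ)) *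
        (if MM q t y y' b b' s ∣ k₁ then
        ((w (nm (k₁ * q ^ 2 * t ^ 3) / K) : ℝ) : ℂ) * Xr Pr J om T R q t y y' k₁ else 0) := by
      intro k₁ hk
      rw [mul_sum]
      refine sum_congr rfl fun y hy => ?_
      rw [mul_sum]
      refine sum_congr rfl fun y' hy' => ?_
      rw [hexp k₁ hk]
      refine sum_congr rfl fun b hb => sum_congr rfl fun b' hb' => sum_congr rfl fun s hs => ?_
      congr 1
      have he := (SR_prim (mem_Ys.mp hy).2.1).1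
      have he' := (SR_prim (mem_Ys.mp hy').2.1).1
      have hg := (SR_prim (mem_Ys.mp hy).2.2.2).1
      have hg' := (SR_prim (mem_Ys.mp hy').2.2.2).1
      have hsp := ((mem_pdiv hq.ne_zero).mp hs).1
      have hdv := MM_dvd (y := y) (y' := y') hq ht he he' hg hg' (SR_prim hb).1 (SR_prim hb').1 hsp k₁
      by_cases h : (y.2.2.2 ∣ k₁ ∧ y.2.1 ∣ k₁ * q * t) ∧ (y'.2.2.2 ∣ k₁ ∧ y'.2.1 ∣ k₁ * q * t)
      · by_cases h2 : b ^ 2 ∣ k₁ ∧ b' ^ 2 ∣ k₁ ∧ s ∣ k₁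
        · rw [if_pos h2, if_pos (hdv.mpr ⟨h.1, h.2, h2⟩)]
        · rw [if_neg h2, if_neg (fun h3 => h2 (hdv.mp h3).2.2)]
      · rw [Xr_zero h]
        simp
    rw [sum_congr rfl e1, sum_comm]
    refine sum_congr rfl fun y _ => ?_
    rw [sum_comm]
    refine sum_congr rfl fun y' _ => ?_
    rw [sum_comm]
    refine sum_congr rfl fun b _ => ?_
    rw [sum_comm]
    refine sum_congr rfl fun b' _ => ?_
    rw [sum_comm]
    refine sum_congr rfl fun s _ => ?_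
    rw [mul_sum]
  rw [hswap]
  unfold OPr
  refine (norm_sum_le _ _).trans (sum_le_sum fun y hy => ?_)
  refine (norm_sum_le _ _).trans (sum_le_sum fun y' hy' => ?_)
  refine (norm_sum_le _ _).trans (sum_le_sum fun b hb => ?_)
  refine (norm_sum_le _ _).trans (sum_le_sum fun b' hb' => ?_)
  refine (norm_sum_le _ _).trans (sum_le_sum fun s hs => ?_)
  rw [norm_mul]
  have hmu : ∀ a : Eis, ‖(mu a : ℂ)‖ ≤ 1 := by
    intro a
    have := abs_mu_le_one a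
    rw [Complex.norm_intCast]
    exact_mod_cast this
  have h1 : ‖(mu b : ℂ) * (mu b' : ℂ) * (mu s : ℂ)‖ ≤ 1 := by
    rw [norm_mul, norm_mul]
    exact mul_le_one₀ (mul_le_one₀ (hmu b) (norm_nonneg _) (hmu b')) (norm_nonneg _) (hmu s)
  refine (mul_le_of_le_one_left (norm_nonneg _) h1).trans ?_
  exact one_tuple_r hw hK hJ hq ht hy hy' (SR_prim hb).1 (SR_prim hb').1
    ((mem_pdiv hq.ne_zero).mp hs).1 hN


/-- **the off-diagonal part**, pairs with `Pr` -/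
theorem off_pairs_r (hPr : ∀ y y', sm y y' → Pr y y') (hw : W0 w W b₀) (hK : 0 < K) (hJ : OKJ J) :
    Sg w K B R E1 (fun q t k₁ => Qc Pr J om T E0 R q t k₁) ≤
      Sg w K B R E1 (fun q t k₁ => E3M829.Dg J om T E0 R q t k₁) +
        ∑ q ∈ S R, ∑ t ∈ pb E1, OPr Pr w K B J om T E0 R b₀ q t := by
  unfold Sg
  rw [← sum_add_distrib]
  refine sum_le_sum fun q hq => ?_
  rw [← sum_add_distrib]
  refine sum_le_sum fun t ht => ?_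
  exact one_qt_r hPr hw hK hJ (SR_prim hq).1 (by
    have := ht
    rw [mem_pb] at this
    exact this.2)

/-! ### the modes -/

section levels

variable {ι : Type*} {I I' : Finset ι} {X Z : ℝ} {M : Eis} {y y' : Yp}

/-- the modes at `(q, t)`, pairs with `Pr` -/
def MPTr (Pr : Yp → Yp → Prop) (A Bw : ℕ) (K B V V' Y : ℝ) (J : Finset (Eis × Eis))
    (om om' : Eis × Eis → ℂ) (T : Eis → Eis → Eis → ℂ) (E0 R b₀ : ℝ) (q t : Eis) : ℝ :=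
  ∑ y ∈ Ys J E0 R, ∑ y' ∈ Ys J E0 R, ∑ b ∈ S B, ∑ b' ∈ S B, ∑ s ∈ pdiv q,
    if Pr y y' ∧ Cop (MM q t y y' b b' s) y y' ∧
      (nm (MM q t y y' b b' s * q ^ 2 * t ^ 3) : ℝ) ≤ b₀ * K then
      pf K q t y y' * MP1 A Bw K V V' Y J om om' T q t (MM q t y y' b b' s) y y' else 0

lemma MPT_eq (A Bw : ℕ) (K B V V' Y : ℝ) (J : Finset (Eis × Eis))
    (om om' : Eis × Eis → ℂ) (T : Eis → Eis → Eis → ℂ) (E0 R b₀ : ℝ) (q t : Eis) :
    MPT A Bw K B V V' Y J om om' T E0 R b₀ q t =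
      MPTr (fun _ _ => True) A Bw K B V V' Y J om om' T E0 R b₀ q t := by
  unfold MPT MPTr
  simp only [true_and]

/-- **one `(q, t)`** -/
theorem OP_le_r (Pr : Yp → Yp → Prop) (hw : Wgt w) {Rw : ℝ} {A Bw : ℕ} {C : ℝ} (hk : KT (w3 w) Rw A Bw C)
    (hA : 1 < A) (hB : 1 < Bw) : ∃ C' : ℝ, 0 ≤ C' ∧ ∀ (ι : Type) (I : Finset ι)
    (J : Finset (Eis × Eis)) (om : Eis × Eis → ℂ) (omi : ι → Eis × Eis → ℂ)
    (T : Eis → Eis → Eis → ℂ), TC T → OKJ J → (∀ x ∈ J, om x = ∑ i ∈ I, omi i x) →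
    ∀ (V : ι → ℝ), (∀ i ∈ I, 0 < V i) →
    (∀ i ∈ I, ∀ x ∈ J, omi i x ≠ 0 →
      |Real.log (nm (x.2 * x.1 ^ 2)) - Real.log (V i)| ≤ Rw / 2) →
    ∀ (K R Z B E0 b₀ : ℝ), 0 < K → 1 ≤ Z → 0 ≤ R → R ≤ Z → (∀ x ∈ J, (nm x.1 : ℝ) ≤ Z) →
    (∀ x ∈ J, (nm x.2 : ℝ) ≤ R) → ∀ q ∈ S R, ∀ t : Eis, IsPrim t →
    OPr Pr w K B J om T E0 R b₀ q t ≤
      2 * C * (∑ i ∈ I, ∑ j ∈ I,
        MPTr Pr A Bw K B (V i) (V j) (Z ^ 5) J (omi i) (omi j) T E0 R b₀ q t) +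
      C' * DEr K B J om T E0 R q t := by
  obtain ⟨C', hC', h⟩ := PD_levels (wgt_w3 hw) hk hA hB
  refine ⟨C', hC', fun ι I J om omi T hT hJ hom V hV hJV K R Z B E0 b₀ hK hZ hR0 hRZ hJ1 hJ2 q hq
    t ht => ?_⟩
  have hqp := (SR_prim hq).1
  have e0 : ∑ i ∈ I, ∑ j ∈ I,
        MPTr Pr A Bw K B (V i) (V j) (Z ^ 5) J (omi i) (omi j) T E0 R b₀ q t =
      ∑ y ∈ Ys J E0 R, ∑ y' ∈ Ys J E0 R, ∑ b ∈ S B, ∑ b' ∈ S B, ∑ s ∈ pdiv q,
        if Pr y y' ∧ Cop (MM q t y y' b b' s) y y' ∧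
          (nm (MM q t y y' b b' s * q ^ 2 * t ^ 3) : ℝ) ≤ b₀ * K
        then pf K q t y y' * ∑ i ∈ I, ∑ j ∈ I, MP1 A Bw K (V i) (V j) (Z ^ 5) J (omi i) (omi j) T
          q t (MM q t y y' b b' s) y y' else 0 := by
    unfold MPTr
    have e1 : ∀ i ∈ I, ∑ j ∈ I, ∑ y ∈ Ys J E0 R, ∑ y' ∈ Ys J E0 R, ∑ b ∈ S B, ∑ b' ∈ S B,
        ∑ s ∈ pdiv q, (if Pr y y' ∧ Cop (MM q t y y' b b' s) y y' ∧
          (nm (MM q t y y' b b' s * q ^ 2 * t ^ 3) : ℝ) ≤ b₀ * K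
        then pf K q t y y' * MP1 A Bw K (V i) (V j) (Z ^ 5) J (omi i) (omi j) T
          q t (MM q t y y' b b' s) y y' else 0) =
        ∑ y ∈ Ys J E0 R, ∑ y' ∈ Ys J E0 R, ∑ b ∈ S B, ∑ b' ∈ S B,
        ∑ s ∈ pdiv q, ∑ j ∈ I, (if Pr y y' ∧ Cop (MM q t y y' b b' s) y y' ∧
          (nm (MM q t y y' b b' s * q ^ 2 * t ^ 3) : ℝ) ≤ b₀ * K
        then pf K q t y y' * MP1 A Bw K (V i) (V j) (Z ^ 5) J (omi i) (omi j) T
          q t (MM q t y y' b b' s) y y' else 0) := by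
      intro i _
      rw [sum_comm]; refine sum_congr rfl fun y _ => ?_
      rw [sum_comm]; refine sum_congr rfl fun y' _ => ?_
      rw [sum_comm]; refine sum_congr rfl fun b _ => ?_
      rw [sum_comm]; refine sum_congr rfl fun b' _ => ?_
      rw [sum_comm]
    rw [sum_congr rfl e1]
    rw [sum_comm]; refine sum_congr rfl fun y _ => ?_
    rw [sum_comm]; refine sum_congr rfl fun y' _ => ?_
    rw [sum_comm]; refine sum_congr rfl fun b _ => ?_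
    rw [sum_comm]; refine sum_congr rfl fun b' _ => ?_
    rw [sum_comm]; refine sum_congr rfl fun s _ => ?_
    split_ifs
    · rw [mul_sum]
      exact sum_congr rfl fun i _ => by rw [mul_sum]
    · simp
  rw [e0]
  unfold OPr DEr
  rw [mul_sum, mul_sum, ← sum_add_distrib]
  refine sum_le_sum fun y hy => ?_
  rw [mul_sum, mul_sum, ← sum_add_distrib]
  refine sum_le_sum fun y' hy' => ?_
  rw [mul_sum, mul_sum, ← sum_add_distrib]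
  refine sum_le_sum fun b hb => ?_
  rw [mul_sum, mul_sum, ← sum_add_distrib]
  refine sum_le_sum fun b' hb' => ?_
  rw [mul_sum, mul_sum, ← sum_add_distrib]
  refine sum_le_sum fun s hs => ?_
  obtain ⟨⟨x, hx, hxy⟩, hy1, hy2, hyc, hyg⟩ := mem_Ys' hJ hy
  obtain ⟨⟨x', hx', hxy'⟩, hy1', hy2', hyc', hyg'⟩ := mem_Ys' hJ hy'
  have hsp := ((mem_pdiv hqp.ne_zero).mp hs).1
  have hbp := (SR_prim hb).1
  have hbp' := (SR_prim hb').1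
  set M := MM q t y y' b b' s with hMdef
  have hpf : 0 ≤ pf K q t y y' := pf_nonneg hK.le y y'
  have hMp : IsPrim M := MM_prim hqp ht hy2 hy2' hy1.2.2.1 hy1'.2.2.1 hbp hbp' hsp
  have hMd := (MM_dvd hqp ht hy2 hy2' hy1.2.2.1 hy1'.2.2.1 hbp hbp' hsp M).mp dvd_rfl
  have hE : 0 ≤ C' * (if sm y y' then
      pf K q t y y' * ∑ n ∈ S R, (tau (y.1 * y.2.2.2 * n) : ℝ) *
        (‖UU J om T q M y n‖ * ‖UU J om T q M y' n‖) else 0) := by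
    refine mul_nonneg hC' ?_
    split_ifs
    · positivity
    · exact le_rfl
  by_cases hcop : Pr y y' ∧ Cop M y y' ∧ (nm (M * q ^ 2 * t ^ 3) : ℝ) ≤ b₀ * K
  · rw [if_pos hcop, if_pos hcop]
    have hn1 : (nm y.1 : ℝ) ≤ Z := hxy ▸ hJ1 x hx
    have hn1' : (nm y'.1 : ℝ) ≤ Z := hxy' ▸ hJ1 x' hx'
    have hn2 : (nm y.2.2.2 : ℝ) ≤ Z := ((mem_S hR0).1 hyg).1.trans hRZ
    have hn2' : (nm y'.2.2.2 : ℝ) ≤ Z := ((mem_S hR0).1 hyg').1.trans hRZ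
    obtain ⟨c1, c2⟩ := nm_cf_le ⟨hy1.1, hy1.2.2.1⟩ ⟨hy1'.1, hy1'.2.2.1⟩
    have hle : (nm (cf₁ y y') : ℝ) * nm (cf₂ y y') * R ≤ Z ^ 5 := by
      have d1 : (nm (cf₁ y y') : ℝ) ≤ Z * Z := c1.trans (by gcongr)
      have d2 : (nm (cf₂ y y') : ℝ) ≤ Z * Z := c2.trans (by gcongr)
      calc (nm (cf₁ y y') : ℝ) * nm (cf₂ y y') * R ≤ (Z * Z) * (Z * Z) * Z := by gcongr
        _ = Z ^ 5 := by ring
    have key := h ι I J om omi T hT hom V hV hJV K R (Z ^ 5) hK hR0 (one_le_pow₀ hZ) hJ2 q t M hqp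
      ht hMp y y' hy1 hy1' hyc hyc' hMd.1.1 hMd.2.1.1 hcop.2.1 hle
    refine (mul_le_mul_of_nonneg_left key hpf).trans (le_of_eq ?_)
    split_ifs <;> ring
  · rw [if_neg hcop, if_neg hcop, mul_zero, zero_add]
    exact hE

lemma MPTr_nonneg (Pr : Yp → Yp → Prop) (A Bw : ℕ) {V V' : ℝ} (Y : ℝ) (om om' : Eis × Eis → ℂ) (hK : 0 ≤ K) (hJ : OKJ J)
    (hV : 0 < V) (hV' : 0 < V') (hq : IsPrim q) :
    0 ≤ MPTr Pr A Bw K B V V' Y J om om' T E0 R b₀ q t := by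
  unfold MPTr
  refine sum_nonneg fun y hy => sum_nonneg fun y' hy' => sum_nonneg fun b _ =>
    sum_nonneg fun b' _ => sum_nonneg fun s _ => ?_
  split_ifs
  · refine mul_nonneg (pf_nonneg hK y y') ?_
    unfold MP1
    obtain ⟨-, hy1, hy2, hyc, hyg⟩ := mem_Ys' hJ hy
    obtain ⟨-, hy1', hy2', hyc', hyg'⟩ := mem_Ys' hJ hy'
    refine sum_nonneg fun s _ => MP_nonneg _ _ _ _ ?_ ?_ _ _ _ _ _
    · unfold Kr; positivity
    · exact mul_nonneg (Nq_pos hV hq hy1.1 hyc hy1.2.2.1).le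
        (Nq_pos hV' hq hy1'.1 hyc' hy1'.2.2.1).le
  · exact le_rfl

/-- **the off-diagonal part** = the modes of all pairs of levels, up to the diagonal error -/
theorem OFF_le_r (Pr : Yp → Yp → Prop) (hw : Wgt w) {Rw : ℝ} {A Bw : ℕ} (hRw : 0 ≤ Rw) (hA : 1 < A) (hB : 1 < Bw)
    {ε : ℝ} (hε : 0 < ε) : ∃ C : ℝ, 1 ≤ C ∧ ∀ (ι : Type) (I : Finset ι)
    (J : Finset (Eis × Eis)) (om : Eis × Eis → ℂ) (omi : ι → Eis × Eis → ℂ)
    (T : Eis → Eis → Eis → ℂ), TC T → OKJ J → (∀ x ∈ J, om x = ∑ i ∈ I, omi i x) →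
    ∀ (V : ι → ℝ), (∀ i ∈ I, 0 < V i) →
    (∀ i ∈ I, ∀ x ∈ J, omi i x ≠ 0 →
      |Real.log (nm (x.2 * x.1 ^ 2)) - Real.log (V i)| ≤ Rw / 2) →
    ∀ (K R Z B E0 E1 b₀ : ℝ), 0 < K → 1 ≤ Z → 0 ≤ R → R ≤ Z → 1 ≤ B → 0 ≤ E1 →
    (∀ x ∈ J, (nm x.1 : ℝ) ≤ Z) → (∀ x ∈ J, (nm x.2 : ℝ) ≤ R) →
    ∑ q ∈ S R, ∑ t ∈ pb E1, OPr Pr w K B J om T E0 R b₀ q t ≤
      C * (∑ i ∈ I, ∑ j ∈ I, ∑ q ∈ S R, ∑ t ∈ pb E1,
        MPTr Pr A Bw K B (V i) (V j) (Z ^ 5) J (omi i) (omi j) T E0 R b₀ q t) +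
      C * Z ^ ε * (K ^ (-(1 : ℝ) / 3) * E1 ^ 2 * B ^ 2 * R) * ∑ x ∈ J, EF om T E0 x := by
  obtain ⟨C0, hk⟩ := exists_KT (wgt_w3 hw) hRw A Bw
  obtain ⟨C1, hC1, h⟩ := OP_le_r Pr hw hk hA hB
  obtain ⟨C2, hC2, htau⟩ := E3M829.tau_Z (ε := ε / 6) (by positivity)
  have hC0 := hk.1
  have hC20 : 0 ≤ C2 := by linarith
  refine ⟨max 1 (max (2 * C0) (C1 * 76800 * C2 ^ 3)), le_max_left _ _,
    fun ι I J om omi T hT hJ hom V hV hJV K R Z B E0 E1 b₀ hK hZ hR0 hRZ hB1 hE1 hJ1 hJ2 => ?_⟩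
  have hZ0 : 0 < Z := by linarith
  have hZ2 : 1 ≤ Z ^ 2 := one_le_pow₀ hZ
  have e0 : ∑ i ∈ I, ∑ j ∈ I, ∑ q ∈ S R, ∑ t ∈ pb E1,
        MPTr Pr A Bw K B (V i) (V j) (Z ^ 5) J (omi i) (omi j) T E0 R b₀ q t =
      ∑ q ∈ S R, ∑ t ∈ pb E1, ∑ i ∈ I, ∑ j ∈ I,
        MPTr Pr A Bw K B (V i) (V j) (Z ^ 5) J (omi i) (omi j) T E0 R b₀ q t := by
    have e1 : ∀ i ∈ I, ∑ j ∈ I, ∑ q ∈ S R, ∑ t ∈ pb E1,
        MPTr Pr A Bw K B (V i) (V j) (Z ^ 5) J (omi i) (omi j) T E0 R b₀ q t =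
        ∑ q ∈ S R, ∑ t ∈ pb E1, ∑ j ∈ I,
        MPTr Pr A Bw K B (V i) (V j) (Z ^ 5) J (omi i) (omi j) T E0 R b₀ q t := by
      intro i _
      rw [sum_comm]
      refine sum_congr rfl fun q _ => ?_
      rw [sum_comm]
    rw [sum_congr rfl e1, sum_comm]
    refine sum_congr rfl fun q _ => ?_
    rw [sum_comm]
  have h1 : ∑ q ∈ S R, ∑ t ∈ pb E1, OPr Pr w K B J om T E0 R b₀ q t ≤
      2 * C0 * (∑ q ∈ S R, ∑ t ∈ pb E1, ∑ i ∈ I, ∑ j ∈ I,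
        MPTr Pr A Bw K B (V i) (V j) (Z ^ 5) J (omi i) (omi j) T E0 R b₀ q t) +
        C1 * ∑ q ∈ S R, ∑ t ∈ pb E1, DEr K B J om T E0 R q t := by
    rw [mul_sum, mul_sum, ← sum_add_distrib]
    refine sum_le_sum fun q hq => ?_
    rw [mul_sum, mul_sum, ← sum_add_distrib]
    refine sum_le_sum fun t ht => ?_
    refine h ι I J om omi T hT hJ hom V hV hJV K R Z B E0 b₀ hK hZ hR0 hRZ hJ1 hJ2 q hq t ?_
    rw [mem_pb] at ht
    exact ht.2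
  have hτ : ∀ m : Eis, (nm m : ℝ) ≤ Z ^ 2 → (tau m : ℝ) ≤ C2 * Z ^ (ε / 3) := by
    intro m hm
    refine (htau (Z ^ 2) hZ2 m hm).trans (le_of_eq ?_)
    rw [← Real.rpow_natCast, ← Real.rpow_mul hZ0.le]
    congr 2
    push_cast
    ring
  have hMP : 0 ≤ ∑ q ∈ S R, ∑ t ∈ pb E1, ∑ i ∈ I, ∑ j ∈ I,
      MPTr Pr A Bw K B (V i) (V j) (Z ^ 5) J (omi i) (omi j) T E0 R b₀ q t :=
    sum_nonneg fun q hq => sum_nonneg fun t _ => sum_nonneg fun i hi => sum_nonneg fun j hj =>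
      MPTr_nonneg Pr A Bw _ _ _ hK.le hJ (hV i hi) (hV j hj) (SR_prim hq).1
  have h2 := DEr_total (om := om) (T := T) (E0 := E0) hK hE1 hB1 hR0 hJ2
    (τ := C2 * Z ^ (ε / 3)) (fun x hx m hm0 hm => hτ m (hm.trans (by
      have a1 := hJ1 x hx
      have a2 := (hJ2 x hx).trans hRZ
      calc (nm x.1 : ℝ) * nm x.2 ≤ Z * Z := by gcongr
        _ = Z ^ 2 := by ring)))
    (fun q hq => hτ q (by
      have a1 := ((mem_S hR0).1 hq).1.trans hRZ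
      calc (nm q : ℝ) ≤ Z := a1
        _ ≤ Z ^ 2 := by nlinarith)) (by positivity) hJ
  have e3 : (C2 * Z ^ (ε / 3)) ^ 3 = C2 ^ 3 * Z ^ ε := by
    rw [mul_pow]
    congr 1
    rw [← Real.rpow_natCast, ← Real.rpow_mul hZ0.le]
    congr 1
    push_cast
    ring
  rw [e3] at h2
  have hEF : 0 ≤ ∑ x ∈ J, EF om T E0 x := sum_nonneg fun x _ => EF_nonneg om T E0 x
  have hR00 : 0 ≤ K ^ (-(1 : ℝ) / 3) * E1 ^ 2 * B ^ 2 * R := by positivity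
  rw [e0]
  refine h1.trans (add_le_add ?_ ?_)
  · exact mul_le_mul_of_nonneg_right ((le_max_left _ _).trans (le_max_right _ _)) hMP
  · refine (mul_le_mul_of_nonneg_left h2 hC1).trans ?_
    have e4 : C1 * (76800 * K ^ (-(1 : ℝ) / 3) * E1 ^ 2 * B ^ 2 * R * (C2 ^ 3 * Z ^ ε) *
        ∑ x ∈ J, EF om T E0 x) = (C1 * 76800 * C2 ^ 3) * (Z ^ ε *
          (K ^ (-(1 : ℝ) / 3) * E1 ^ 2 * B ^ 2 * R) * ∑ x ∈ J, EF om T E0 x) := by ring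
    rw [e4, mul_assoc (max 1 (max (2 * C0) (C1 * 76800 * C2 ^ 3))) (Z ^ ε),
      mul_assoc (max 1 (max (2 * C0) (C1 * 76800 * C2 ^ 3)))]
    exact mul_le_mul_of_nonneg_right ((le_max_right _ _).trans (le_max_right _ _)) (by positivity)

end levels

end restricted

end Crest.Agent.R017.E3F548
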