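import Crest.Agent.R017.BD6_829

/-!
# Row 17, block C70, leaf E3 (helper829): the squarefree majorant

`mj B k = ∑_{b² ∣ k, N(b) ≤ B} μ(b)` : `= 1` for squarefree `k`, `|mj| ≤ τ(k)`, and `mj B k = 0`
unless `k` is squarefree or divisible by `b²`, `b` squarefree, `N(b) > B`.
-/

set_option autoImplicit false

noncomputable section

open scoped Classical

namespace Crest.Agent.R017.Maj829

open Crest.Agent.R012 Crest.Agent.R012.Eis
open Crest.Agent.R012.LS2 (S mem_S)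
open Crest.Agent.R012.Mob705 (mu pdiv mem_pdiv abs_mu_le_one mu_of_not_squarefree mu_one
  sum_muE_sq)
open Div277 (tau dvs)

/-- the truncated squarefree indicator -/
def mj (B : ℝ) (k : Eis) : ℝ := ∑ b ∈ S B, if b ^ 2 ∣ k then (mu b : ℝ) else 0

/-- the same sum over divisors -/
lemma mj_eq {B : ℝ} (hB : 0 ≤ B) {k : Eis} (hk : IsPrim k) :
    mj B k = ∑ b ∈ pdiv k, if b ^ 2 ∣ k ∧ (nm b : ℝ) ≤ B then (mu b : ℝ) else 0 := by
  unfold mj
  rw [← Finset.sum_filter, ← Finset.sum_filter]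
  have hsub : (S B).filter (fun b => b ^ 2 ∣ k) ⊆
      (pdiv k).filter (fun b => b ^ 2 ∣ k ∧ (nm b : ℝ) ≤ B) := by
    intro b hb
    rw [Finset.mem_filter, mem_S hB] at hb
    rw [Finset.mem_filter, mem_pdiv hk.ne_zero]
    exact ⟨⟨hb.1.2.1, (dvd_pow_self b two_ne_zero).trans hb.2⟩, hb.2, hb.1.1⟩
  refine Finset.sum_subset hsub fun b hb hb' => ?_
  rw [Finset.mem_filter, mem_pdiv hk.ne_zero] at hb
  rw [Finset.mem_filter, mem_S hB] at hb'
  have : ¬ Squarefree b := fun h => hb' ⟨⟨hb.2.2, hb.1.1, h⟩, hb.2.1⟩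
  rw [mu_of_not_squarefree this]; simp

lemma sum_mu_sqd {k : Eis} (hk : IsPrim k) :
    ∑ b ∈ pdiv k, (if b ^ 2 ∣ k then (mu b : ℝ) else 0) = if Squarefree k then 1 else 0 := by
  have h := congrArg (fun z : ℤ => (z : ℝ)) (sum_muE_sq hk)
  beta_reduce at h
  push_cast at h
  convert! h using 1

lemma mj_sqf {B : ℝ} (hB : 1 ≤ B) {k : Eis} (hk : IsPrim k) (hs : Squarefree k) : mj B k = 1 := by
  have h1 : ∀ b ∈ S B, (if b ^ 2 ∣ k then (mu b : ℝ) else 0) = if b = 1 then 1 else 0 := by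
    intro b hb
    have hb' := (mem_S (by linarith)).1 hb
    by_cases h : b = 1
    · rw [if_pos h, h, one_pow, if_pos (one_dvd _), mu_one]; norm_num
    · rw [if_neg h, if_neg]
      intro h2
      rw [pow_two] at h2
      have hu : IsUnit b := hs b h2
      exact h (hb'.2.1.eq_of_associated isPrim_one (associated_one_iff_isUnit.mpr hu))
  unfold mj
  rw [Finset.sum_congr rfl h1, Finset.sum_ite_eq' , if_pos]
  exact (mem_S (by linarith)).2 ⟨by rw [nm_one]; exact_mod_cast hB, isPrim_one, squarefree_one⟩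

lemma abs_mj_le {B : ℝ} (hB : 0 ≤ B) {k : Eis} (hk : IsPrim k) : |mj B k| ≤ tau k := by
  rw [mj_eq hB hk]
  refine (Finset.abs_sum_le_sum_abs _ _).trans ?_
  have h1 : ∀ b ∈ pdiv k, |if b ^ 2 ∣ k ∧ (nm b : ℝ) ≤ B then (mu b : ℝ) else 0| ≤ 1 := by
    intro b _
    split_ifs
    · exact_mod_cast abs_mu_le_one b
    · simp
  refine (Finset.sum_le_sum h1).trans ?_
  rw [Finset.sum_const, nsmul_eq_mul, mul_one]
  exact le_of_eq rfl

/-- `mj` vanishes unless `k` is squarefree or has a large square divisor -/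
lemma mj_zero {B : ℝ} (hB : 0 ≤ B) {k : Eis} (hk : IsPrim k) (hs : ¬ Squarefree k)
    (h : ∀ b, IsPrim b → Squarefree b → b ^ 2 ∣ k → (nm b : ℝ) ≤ B) : mj B k = 0 := by
  rw [mj_eq hB hk]
  have h1 : ∑ b ∈ pdiv k, (if b ^ 2 ∣ k ∧ (nm b : ℝ) ≤ B then (mu b : ℝ) else 0) =
      ∑ b ∈ pdiv k, (if b ^ 2 ∣ k then (mu b : ℝ) else 0) := by
    refine Finset.sum_congr rfl fun b hb => ?_
    have hb' := (mem_pdiv hk.ne_zero).mp hb
    by_cases h2 : b ^ 2 ∣ k
    · by_cases h3 : Squarefree b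
      · rw [if_pos ⟨h2, h b hb'.1 h3 h2⟩, if_pos h2]
      · rw [mu_of_not_squarefree h3]; simp
    · rw [if_neg (fun h' => h2 h'.1), if_neg h2]
  rw [h1, sum_mu_sqd hk, if_neg hs]

/-- the square of the majorant -/
theorem mj_sq_le {B : ℝ} (hB : 1 ≤ B) {k : Eis} (hk : IsPrim k) :
    mj B k ^ 2 ≤ (if Squarefree k then 1 else 0) +
      (tau k : ℝ) ^ 2 * ∑ b ∈ pdiv k, if Squarefree b ∧ b ^ 2 ∣ k ∧ B < nm b then (1 : ℝ) else 0 := by
  have hB0 : 0 ≤ B := by linarith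
  have hnn : 0 ≤ (tau k : ℝ) ^ 2 *
      ∑ b ∈ pdiv k, if Squarefree b ∧ b ^ 2 ∣ k ∧ B < nm b then (1 : ℝ) else 0 :=
    mul_nonneg (by positivity) (Finset.sum_nonneg fun b _ => by split_ifs <;> norm_num)
  by_cases hs : Squarefree k
  · rw [mj_sqf hB hk hs, if_pos hs]; linarith
  · rw [if_neg hs, zero_add]
    by_cases h : ∀ b, IsPrim b → Squarefree b → b ^ 2 ∣ k → (nm b : ℝ) ≤ B
    · rw [mj_zero hB0 hk hs h, zero_pow two_ne_zero]; exact hnn
    · push Not at h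
      obtain ⟨b, hb, hbs, hbk, hbB⟩ := h
      have hbd : b ∈ pdiv k := (mem_pdiv hk.ne_zero).mpr ⟨hb, (dvd_pow_self b two_ne_zero).trans hbk⟩
      have h1 : (1 : ℝ) ≤ ∑ b ∈ pdiv k,
          if Squarefree b ∧ b ^ 2 ∣ k ∧ B < nm b then (1 : ℝ) else 0 := by
        have h2 := Finset.single_le_sum (f := fun b => if Squarefree b ∧ b ^ 2 ∣ k ∧ B < nm b then
          (1 : ℝ) else 0) (fun b _ => by
            show (0 : ℝ) ≤ if _ then _ else _
            split_ifs <;> norm_num) hbd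
        beta_reduce at h2
        rwa [if_pos ⟨hbs, hbk, hbB⟩] at h2
      have h3 := abs_mj_le hB0 hk
      have h4 : mj B k ^ 2 ≤ (tau k : ℝ) ^ 2 := by
        rw [← sq_abs]; exact pow_le_pow_left₀ (abs_nonneg _) h3 2
      nlinarith [sq_nonneg (tau k : ℝ)]

/-- the majorant from below -/
theorem sqf_le_mj {B : ℝ} (hB : 1 ≤ B) {k : Eis} (hk : IsPrim k) :
    (if Squarefree k then (1 : ℝ) else 0) ≤ mj B k ^ 2 := by
  split_ifs with hs
  · rw [mj_sqf hB hk hs]; norm_num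
  · positivity

end Crest.Agent.R017.Maj829
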