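import Crest.Agent.R017.E3A_164
import Crest.Agent.R017.Maj_829
import Crest.Agent.R017.DgD_829
import Crest.Agent.R012.Per_277

/-!
# Row 17, block C70, leaf E3 (helper829): the diagonal with the squarefree majorant, part A

Sums over multiples, the divisor splitting of `e ∣ k₁ q t`, `b² ∣ k₁`, `g ∣ k₁`.
-/

set_option autoImplicit false

noncomputable section

open scoped Classical ComplexConjugate
open Finset

namespace Crest.Agent.R017.E3M829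

open Crest.Agent.R012 Crest.Agent.R012.Eis
open Crest.Agent.R012.LS2 (S mem_S)
open Crest.Agent.R012.Mob705 (pdiv mem_pdiv cop mem_cop pb mem_pb cop_filter_dvd sum_inv_nm_le)
open Crest.Agent.R012.Div277 (tau nz mem_nz mulEmb mulEmb_apply)
open Crest.Agent.R017.E1551 (nmpos)

/-- sums over multiples -/
lemma sum_mult {Y : ℝ} {M : Eis} (hM : IsPrim M) (f : Eis → ℝ) :
    ∑ k ∈ pb Y, (if M ∣ k then f k else 0) = ∑ r ∈ pb (Y / nm M), f (M * r) := by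
  have h1 : ∀ Z : ℝ, cop 1 Z = pb Z := fun Z => by
    ext k
    rw [mem_cop, mem_pb]
    exact ⟨fun h => h.1, fun h => ⟨h, isCoprime_one_right⟩⟩
  have h2 := cop_filter_dvd 1 Y hM isCoprime_one_right
  rw [h1, h1] at h2
  rw [← Finset.sum_filter]
  have h3 : (pb Y).filter (fun k => M ∣ k) = (pb (Y / nm M)).map (mulEmb M hM.ne_zero) := by
    rw [← h2]
  rw [h3, Finset.sum_map]
  rfl

/-- the harmonic sum over `pb` -/
def Hp (Y : ℝ) : ℝ := ∑ d ∈ pb Y, (1 : ℝ) / nm d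

lemma Hp_nonneg (Y : ℝ) : 0 ≤ Hp Y := Finset.sum_nonneg fun _ _ => by positivity

lemma Hp_le {Y : ℝ} (hY : 0 ≤ Y) : Hp Y ≤ 100 * (1 + Real.log (1 + Y)) := sum_inv_nm_le hY

lemma pb_mono {Y Z : ℝ} (h : Y ≤ Z) : pb Y ⊆ pb Z := fun d hd => by
  rw [mem_pb] at hd ⊢
  exact ⟨hd.1.trans h, hd.2⟩

lemma Hp_mono {Y Z : ℝ} (h : Y ≤ Z) : Hp Y ≤ Hp Z :=
  Finset.sum_le_sum_of_subset_of_nonneg (pb_mono h) fun _ _ _ => by positivity

lemma one_le {x : Eis} (hx : IsPrim x) : (1 : ℝ) ≤ nm x := by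
  exact_mod_cast nm_pos.mpr hx.ne_zero

lemma sum_inv_mult {Y : ℝ} (hY : 0 ≤ Y) {M : Eis} (hM : IsPrim M) :
    ∑ k ∈ pb Y, (if M ∣ k then (1 : ℝ) / nm k else 0) ≤ 1 / nm M * Hp Y := by
  rw [sum_mult hM]
  have h1 : ∑ r ∈ pb (Y / nm M), (1 : ℝ) / nm (M * r) = 1 / nm M * Hp (Y / nm M) := by
    unfold Hp
    rw [Finset.mul_sum]
    refine Finset.sum_congr rfl fun r _ => ?_
    rw [nm_mul]
    push_cast
    rw [one_div_mul_one_div]
  rw [h1]
  exact mul_le_mul_of_nonneg_left (Hp_mono (div_le_self hY (one_le hM))) (by positivity)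

lemma sum_third_le {Z : ℝ} (hZ : 0 ≤ Z) :
    ∑ r ∈ pb Z, (nm r : ℝ) ^ (-(1 : ℝ) / 3) ≤ 150 * Z ^ (2 / 3 : ℝ) := by
  have h1 : pb Z ⊆ nz ⌊Z⌋₊ := fun r hr => by
    rw [mem_pb] at hr
    rw [mem_nz]
    exact ⟨hr.2.ne_zero, Nat.le_floor hr.1⟩
  have h2 := Per277.sum_nz_rpow_neg_le (s := 1 / 3) (by norm_num) (by norm_num) ⌊Z⌋₊
  calc ∑ r ∈ pb Z, (nm r : ℝ) ^ (-(1 : ℝ) / 3)
      ≤ ∑ r ∈ nz ⌊Z⌋₊, (nm r : ℝ) ^ (-(1 : ℝ) / 3) :=
        Finset.sum_le_sum_of_subset_of_nonneg h1 fun _ _ _ => by positivity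
    _ = ∑ r ∈ nz ⌊Z⌋₊, (nm r : ℝ) ^ (-(1 / 3 : ℝ)) := by
        refine Finset.sum_congr rfl fun r _ => ?_
        congr 1; norm_num
    _ ≤ _ := h2
    _ ≤ 100 * (Z ^ (1 - 1 / 3 : ℝ) / (1 - 1 / 3)) := by
        have := Nat.floor_le hZ
        gcongr
    _ = 150 * Z ^ (2 / 3 : ℝ) := by norm_num; ring

/-- the cube root sum over the multiples of `M` -/
lemma sum_third_mult {Z : ℝ} (hZ : 0 ≤ Z) {M : Eis} (hM : IsPrim M) :
    ∑ k ∈ pb Z, (if M ∣ k then (nm k : ℝ) ^ (-(1 : ℝ) / 3) else 0) ≤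
      150 * (Z ^ (2 / 3 : ℝ) / nm M) := by
  rw [sum_mult hM]
  have hn := nmpos hM.ne_zero
  have h1 : ∀ r : Eis, (nm (M * r) : ℝ) ^ (-(1 : ℝ) / 3) =
      (nm M : ℝ) ^ (-(1 : ℝ) / 3) * (nm r : ℝ) ^ (-(1 : ℝ) / 3) := fun r => by
    rw [nm_mul]
    push_cast
    rw [Real.mul_rpow hn.le (Nat.cast_nonneg _)]
  simp_rw [h1]
  rw [← Finset.mul_sum]
  have h2 := sum_third_le (Z := Z / nm M) (by positivity)
  calc (nm M : ℝ) ^ (-(1 : ℝ) / 3) * ∑ r ∈ pb (Z / nm M), (nm r : ℝ) ^ (-(1 : ℝ) / 3)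
      ≤ (nm M : ℝ) ^ (-(1 : ℝ) / 3) * (150 * (Z / nm M) ^ (2 / 3 : ℝ)) :=
        mul_le_mul_of_nonneg_left h2 (by positivity)
    _ = 150 * (Z ^ (2 / 3 : ℝ) * ((nm M : ℝ) ^ (-(1 : ℝ) / 3) / (nm M : ℝ) ^ (2 / 3 : ℝ))) := by
        rw [Real.div_rpow hZ hn.le]
        ring
    _ = _ := by
        rw [← Real.rpow_sub hn]
        norm_num
        rw [Real.rpow_neg_one]
        ring

/-- the divisor splitting -/
lemma triple {e k q t g b : Eis} (he : IsPrim e) (hes : Squarefree e) (hg : IsPrim g)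
    (hgs : Squarefree g) (hb : IsPrim b) (hbs : Squarefree b) {k' : Eis} (hk : k = g * k')
    (hgk : IsCoprime g k') (heq : IsCoprime e q) (heg : IsCoprime e g) (hd : e ∣ k * q * t)
    (hbk : b ^ 2 ∣ k) :
    ∃ x f y : Eis, x ∈ pdiv e ∧ f ∈ pdiv e ∧ y ∈ pdiv e ∧ x * f * y = e ∧ x ∣ t ∧ f ∣ b ∧
      g * b ^ 2 * y ∣ k := by
  have h1 : e ∣ k * t := by
    have : e ∣ q * (k * t) := by rwa [show q * (k * t) = k * q * t by ring]
    exact heq.dvd_of_dvd_mul_left this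
  obtain ⟨u, x, hu, hx, huk, hxt, rfl⟩ := Div277.exists_prim_factor he h1
  have hus : Squarefree u := hes.of_mul_left
  obtain ⟨f, y, b', hf, hy, hb', h2, h3, hc, hc1, hc2, -, -, -⟩ :=
    Tau671.exists_gcd_split hu hb hus hbs
  have hyb : IsCoprime y b := by
    rw [h3]
    exact hc1.symm.mul_right hc
  have hyk : y ∣ k := (h2 ▸ dvd_mul_left y f).trans huk
  have hgb : IsCoprime g b := by
    by_contra hh
    obtain ⟨p, hp, hpg, hpb⟩ := Mob705.exists_common_pp hg hh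
    have h4 : p ^ 2 ∣ k := (pow_dvd_pow_of_dvd hpb 2).trans hbk
    have h5 : IsCoprime (p ^ 2) k' := (hgk.of_isCoprime_of_dvd_left hpg).pow_left
    have h6 : p ^ 2 ∣ g := by
      rw [hk] at h4
      exact h5.dvd_of_dvd_mul_right h4
    have h7 := hgs p (by rwa [← pow_two])
    exact hp.2.not_isUnit h7
  have hgy : IsCoprime g y :=
    (heg.of_isCoprime_of_dvd_left ((h2 ▸ dvd_mul_left y f).trans (dvd_mul_right u x))).symm
  have h8 : b ^ 2 * y ∣ k := by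
    have : IsCoprime (b ^ 2) y := hyb.symm.pow_left
    exact this.mul_dvd hbk hyk
  have h9 : g * (b ^ 2 * y) ∣ k := by
    have : IsCoprime g (b ^ 2 * y) := (hgb.pow_right).mul_right hgy
    exact this.mul_dvd (hk ▸ dvd_mul_right g k') h8
  refine ⟨x, f, y, ?_, ?_, ?_, ?_, hxt, h3 ▸ dvd_mul_right f b', by rwa [mul_assoc]⟩
  · exact (mem_pdiv he.ne_zero).mpr ⟨hx, dvd_mul_left _ _⟩
  · exact (mem_pdiv he.ne_zero).mpr ⟨hf, (h2 ▸ dvd_mul_right f y).trans (dvd_mul_right u x)⟩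
  · exact (mem_pdiv he.ne_zero).mpr ⟨hy, (h2 ▸ dvd_mul_left y f).trans (dvd_mul_right u x)⟩
  · rw [h2]; ring

/-- the triples with product `e` have weight `τ(e)²/N(e)` -/
lemma sum_triple {e : Eis} (he : IsPrim e) :
    ∑ x ∈ pdiv e, ∑ f ∈ pdiv e, ∑ y ∈ pdiv e, (if x * f * y = e then
      (1 : ℝ) / nm x * (1 / nm f) * (1 / nm y) else 0) ≤ (tau e : ℝ) ^ 2 / nm e := by
  have h1 : ∀ x ∈ pdiv e, ∀ f ∈ pdiv e, ∑ y ∈ pdiv e, (if x * f * y = e then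
      (1 : ℝ) / nm x * (1 / nm f) * (1 / nm y) else 0) ≤ 1 / nm e := by
    intro x hx f hf
    have hx' := ((mem_pdiv he.ne_zero).mp hx).1
    have hf' := ((mem_pdiv he.ne_zero).mp hf).1
    by_cases h : ∃ y ∈ pdiv e, x * f * y = e
    · obtain ⟨y, hy, hxy⟩ := h
      rw [Finset.sum_eq_single_of_mem y hy, if_pos hxy]
      · rw [one_div_mul_one_div, one_div_mul_one_div]
        rw [← hxy, nm_mul, nm_mul]
        push_cast
        exact le_rfl
      · intro z _ hzy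
        rw [if_neg]
        intro hz
        exact hzy (mul_left_cancel₀ (mul_ne_zero hx'.ne_zero hf'.ne_zero) (hz.trans hxy.symm))
    · push Not at h
      rw [Finset.sum_eq_zero fun y hy => if_neg (h y hy)]
      positivity
  refine (Finset.sum_le_sum fun x hx => Finset.sum_le_sum fun f hf => h1 x hx f hf).trans ?_
  rw [Finset.sum_const, Finset.sum_const, nsmul_eq_mul, nsmul_eq_mul]
  have h2 : ((pdiv e).card : ℝ) = tau e := rfl
  rw [h2]
  exact le_of_eq (by ring)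

end Crest.Agent.R017.E3M829
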