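import Crest.Agent.R017.E3Ma_829

/-!
# Row 17, block C70, leaf E3 (helper829): the diagonal with the squarefree majorant, part B

* `PP J R q` : the tuples `z = (δ, c, g, n)` with `(δ, fq q c g n) ∈ J`, `(n, g) = 1`
* `AE` : 164's summand of a tuple;  `sum_Fy` : `Σ_y Fy = Σ_{z ∈ PP} AE z`
* `Dg` : `Σ_z ‖AE z‖²`;  `Dg_sqf` : at squarefree `k₁` it is at most `Σ_{x ∈ J} ‖Tx x‖²`
* `AE_le` : the bound at arbitrary primary `k₁`
-/

set_option autoImplicit false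

noncomputable section

open scoped ComplexConjugate
open Finset

namespace Crest.Agent.R017.E3M829

open Crest.Agent.R012 Crest.Agent.R012.Eis Crest.Agent.R012.Gauss880
open Crest.Agent.R012.LS2 (S mem_S)
open Crest.Agent.R012.Mob705 (pdiv mem_pdiv cop mem_cop pb mem_pb)
open Crest.Agent.R012.Div277 (tau)
open Crest.Agent.R017.E1551 (nmpos)
open Crest.Agent.R017.CM106 (CS)
open Crest.Agent.R017.PX764 Crest.Agent.R017.C70 Crest.Agent.R017.GrB829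
open Crest.Agent.R017.GrD829 Crest.Agent.R017.E3s164 Crest.Agent.R017.E3A164

/-- tuples `z = (δ, c, g, n)` -/
abbrev Zp := Eis × Eis × Eis × Eis

open Classical in
/-- the index set of the tuples -/
def PP (J : Finset (Eis × Eis)) (R : ℝ) (q : Eis) : Finset Zp :=
  ((J.image Prod.fst) ×ˢ (Cs ×ˢ ((S R) ×ˢ (S R)))).filter
      (fun z => IsCoprime z.2.2.2 z.2.2.1 ∧ (z.1, fq q z.2.1 z.2.2.1 z.2.2.2) ∈ J)

/-- the pair of a tuple -/
def xz (q : Eis) (z : Zp) : Eis × Eis := (z.1, fq q z.2.1 z.2.2.1 z.2.2.2)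

lemma mem_PP {J : Finset (Eis × Eis)} {R : ℝ} {q : Eis} {z : Zp} :
    z ∈ PP J R q ↔ (z.1 ∈ J.image Prod.fst ∧ IsC z.2.1 ∧ z.2.2.1 ∈ S R ∧ z.2.2.2 ∈ S R) ∧
      IsCoprime z.2.2.2 z.2.2.1 ∧ xz q z ∈ J := by
  classical
  unfold PP xz
  rw [mem_filter, mem_product, mem_product, mem_product, mem_Cs]

lemma S_pr {R : ℝ} {a : Eis} (ha : a ∈ S R) : IsPrim a ∧ Squarefree a := by
  classical
  unfold LS2.S at ha
  rw [Finset.mem_filter, mem_primBall] at ha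
  exact ⟨ha.1.2, ha.2⟩

open Classical in
/-- the summand of a tuple -/
def AE (J : Finset (Eis × Eis)) (om : Eis × Eis → ℂ) (T : Eis → Eis → Eis → ℂ) (E0 : ℝ)
    (q t k₁ : Eis) (z : Zp) : ℂ :=
  ∑ e ∈ S E0, if z.2.2.1 ∣ k₁ ∧ e ∣ k₁ * q * t then
        kap q t (z.1, e, z.2.1, z.2.2.1) * ((n6 (qu k₁ z.2.2.1) : ℂ) * sy z.2.1 (qu k₁ z.2.2.1) *
          conj (sy (qu k₁ z.2.2.1) (z.1 * z.2.2.1)) *
            (be J om T q (z.1, e, z.2.1, z.2.2.1) z.2.2.2 * sy (qu k₁ z.2.2.1) z.2.2.2)) else 0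

section

variable {J : Finset (Eis × Eis)} {om : Eis × Eis → ℂ} {T : Eis → Eis → Eis → ℂ} {q t k₁ : Eis}

open Classical in
/-- **the tuples** -/
theorem sum_Fy {R : ℝ} (hR : ∀ x ∈ J, (nm x.2 : ℝ) ≤ R) (E0 : ℝ) (hq : IsPrim q) :
    ∑ y ∈ Ys J E0 R, Fy J om T q t k₁ y = ∑ z ∈ PP J R q, AE J om T E0 q t k₁ z := by
  have h1 : ∀ y ∈ Ys J E0 R, Fy J om T q t k₁ y = ∑ n ∈ S R,
      if y.2.2.2 ∣ k₁ ∧ y.2.1 ∣ k₁ * q * t then
      kap q t y * ((n6 (qu k₁ y.2.2.2) : ℂ) * sy y.2.2.1 (qu k₁ y.2.2.2) *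
        conj (sy (qu k₁ y.2.2.2) (y.1 * y.2.2.2)) *
          (be J om T q y n * sy (qu k₁ y.2.2.2) n)) else 0 := by
    intro y hy
    unfold Ys at hy
    rw [mem_product, mem_product, mem_product, mem_Cs] at hy
    unfold Fy
    split_ifs with h
    · rw [CS_be hR hq.ne_zero hy.2.2.1.ne_zero (S_pr hy.2.2.2).1.ne_zero, mul_sum, mul_sum]
    · simp
  rw [sum_congr rfl h1]
  unfold Ys AE PP
  simp only [sum_product, sum_filter]
  refine sum_congr rfl fun d hd => ?_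
  rw [sum_comm]
  refine sum_congr rfl fun c hc => ?_
  rw [sum_comm]
  refine sum_congr rfl fun g hg => ?_
  rw [sum_comm]
  refine sum_congr rfl fun n hn => ?_
  by_cases hz : IsCoprime n g ∧ (d, fq q c g n) ∈ J
  · rw [if_pos hz]
  · rw [if_neg hz]
    refine sum_eq_zero fun e he => ?_
    have h0 : be J om T q (d, e, c, g) n = 0 := by
      by_contra hne
      obtain ⟨b1, b2, b3, b4⟩ := be_ne hne
      exact hz ⟨b3, b4⟩
    rw [h0]
    simp

/-- the diagonal -/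
def Dg (J : Finset (Eis × Eis)) (om : Eis × Eis → ℂ) (T : Eis → Eis → Eis → ℂ) (E0 R : ℝ)
    (q t k₁ : Eis) : ℝ := ∑ z ∈ PP J R q, ‖AE J om T E0 q t k₁ z‖ ^ 2

lemma Dg_nonneg (J : Finset (Eis × Eis)) (om : Eis × Eis → ℂ) (T : Eis → Eis → Eis → ℂ)
    (E0 R : ℝ) (q t k₁ : Eis) : 0 ≤ Dg J om T E0 R q t k₁ := by
  unfold Dg; positivity

lemma xz_inj {R : ℝ} (hq : IsPrim q) : Set.InjOn (xz q) (PP J R q : Set Zp) := by
  intro z hz z' hz' h
  rw [Finset.mem_coe, mem_PP] at hz hz'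
  unfold xz at h
  have h1 := congrArg Prod.fst h
  have h2 := congrArg Prod.snd h
  simp only at h1 h2
  obtain ⟨e1, e2, e3⟩ := fq_inj hq hz.1.2.1 hz'.1.2.1 (S_pr hz.1.2.2.1).1 (S_pr hz.1.2.2.2).1
    (S_pr hz.1.2.2.2).2 (S_pr hz'.1.2.2.1).1 (S_pr hz'.1.2.2.2).1 (S_pr hz'.1.2.2.2).2 h2
  exact Prod.ext h1 (Prod.ext e1 (Prod.ext e2 e3))

/-- a sum over tuples is at most the sum over `J` -/
lemma sum_PP_le {R : ℝ} (hq : IsPrim q) (F : Eis × Eis → ℝ) (hF : ∀ x ∈ J, 0 ≤ F x) :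
    ∑ z ∈ PP J R q, F (xz q z) ≤ ∑ x ∈ J, F x := by
  classical
  rw [← Finset.sum_image (f := F) (g := xz q) (s := PP J R q) (xz_inj hq)]
  refine Finset.sum_le_sum_of_subset_of_nonneg ?_ fun x hx _ => hF x hx
  intro x hx
  obtain ⟨z, hz, rfl⟩ := Finset.mem_image.mp hx
  exact (mem_PP.mp hz).2.2

lemma norm_G {k : Eis} (hk : IsPrim k) (hs : Squarefree k) : ‖G k‖ = 1 := by
  have := G_mul_conj syG hk hs
  have h3 : ‖G k‖ ^ 2 = 1 := by
    rw [← Complex.normSq_eq_norm_sq, ← Complex.ofReal_inj, ← Complex.mul_conj, this]; simp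
  exact (pow_eq_one_iff_of_nonneg (norm_nonneg _) (by norm_num)).mp h3

/-- **the diagonal at squarefree `k₁`** -/
theorem Dg_sqf (hJ : OKJ J) {R : ℝ} (E0 : ℝ) (hk₁ : IsPrim k₁) (hs : Squarefree k₁)
    (hq : IsPrim q) (ht : IsPrim t) :
    Dg J om T E0 R q t k₁ ≤ ∑ x ∈ J, ‖Tx om E0 T (k₁ * q ^ 2 * t ^ 3) x‖ ^ 2 := by
  unfold Dg
  have h1 : ∀ z ∈ PP J R q, ‖AE J om T E0 q t k₁ z‖ ^ 2 =
      ‖Tx om E0 T (k₁ * q ^ 2 * t ^ 3) (xz q z)‖ ^ 2 := by
    intro z hz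
    rw [mem_PP] at hz
    obtain ⟨⟨z1, z2, z3, z4⟩, z5, z6⟩ := hz
    have h2 := Tx_fq (om := om) (T := T) (E0 := E0) (hJ.prim _ z6) z2 (S_pr z3).1 (S_pr z3).2
      (S_pr z4).1 (S_pr z4).2 z5 hk₁ hs hq ht z6
    have h3 : Tx om E0 T (k₁ * q ^ 2 * t ^ 3) (xz q z) = conj (G k₁) * AE J om T E0 q t k₁ z := h2
    rw [h3, norm_mul, RCLike.norm_conj, norm_G hk₁ hs, one_mul]
  rw [Finset.sum_congr rfl h1]
  exact sum_PP_le hq (fun x => ‖Tx om E0 T (k₁ * q ^ 2 * t ^ 3) x‖ ^ 2) fun _ _ => by positivity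

open Classical in
/-- the bound of one tuple at arbitrary `k₁` -/
theorem AE_le (hJ : OKJ J) {R E0 : ℝ} (hE : 0 ≤ E0) (hk₁ : IsPrim k₁) (hq : IsPrim q)
    (ht : IsPrim t) {z : Zp} (hz : z ∈ PP J R q) :
    ‖AE J om T E0 q t k₁ z‖ ^ 2 ≤
      if z.2.2.1 ∣ k₁ ∧ IsCoprime z.2.2.1 (qu k₁ z.2.2.1) then
        ‖om (xz q z)‖ ^ 2 * ((n6 (qu k₁ z.2.2.1)) ^ 2 * n6 z.2.2.2 ^ 2) *
          ((tau (k₁ * q * t) : ℝ) * ∑ e ∈ S E0, if e ∣ k₁ * q * t then
            ‖T (xz q z).1 e (xz q z).2‖ ^ 2 else 0) else 0 := by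
  obtain ⟨⟨z1, z2, z3, z4⟩, z5, z6⟩ := mem_PP.mp hz
  have hd : IsPrim z.1 := hJ.prim _ z6
  have hg := S_pr z3
  have hn := S_pr z4
  have hJm : (z.1, fq q z.2.1 z.2.2.1 z.2.2.2) ∈ J := z6
  by_cases hgk : z.2.2.1 ∣ k₁
  · obtain ⟨k', hk'⟩ := hgk
    have hkp : IsPrim k' := (hk' ▸ hk₁).of_mul_left hg.1
    have hqu : qu k₁ z.2.2.1 = k' := by rw [hk']; exact qu_mul hg.1.ne_zero k'
    by_cases hc : IsCoprime z.2.2.1 k'
    · rw [if_pos ⟨⟨k', hk'⟩, by rw [hqu]; exact hc⟩, hqu]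
      -- the terms
      have hterm : ∀ e ∈ S E0, ‖(if z.2.2.1 ∣ k₁ ∧ e ∣ k₁ * q * t then
        kap q t (z.1, e, z.2.1, z.2.2.1) * ((n6 (qu k₁ z.2.2.1) : ℂ) * sy z.2.1 (qu k₁ z.2.2.1) *
          conj (sy (qu k₁ z.2.2.1) (z.1 * z.2.2.1)) *
            (be J om T q (z.1, e, z.2.1, z.2.2.1) z.2.2.2 * sy (qu k₁ z.2.2.1) z.2.2.2))
              else (0 : ℂ))‖ ≤
          if e ∣ k₁ * q * t then (‖om (xz q z)‖ * (n6 k' * n6 z.2.2.2)) *
            ‖T (xz q z).1 e (xz q z).2‖ else 0 := by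
        intro e he
        by_cases h1 : e ∣ k₁ * q * t
        · rw [if_pos ⟨⟨k', hk'⟩, h1⟩, if_pos h1, hqu]
          have b1 : ‖kap q t (z.1, e, z.2.1, z.2.2.1)‖ ≤ 1 := norm_kap_le z2 hg.1 hg.2 hd
          have b2 : ‖sy z.2.1 k'‖ ≤ 1 := norm_sy_le' hkp
          have b3 : ‖sy k' (z.1 * z.2.2.1)‖ ≤ 1 := norm_sy_le' (hd.mul hg.1)
          have b4 : ‖sy k' z.2.2.2‖ ≤ 1 := norm_sy_le' hn.1
          have b5 : ‖be J om T q (z.1, e, z.2.1, z.2.2.1) z.2.2.2‖ ≤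
              ‖om (xz q z)‖ * n6 z.2.2.2 * ‖T (xz q z).1 e (xz q z).2‖ := by
            unfold be
            simp only
            rw [if_pos ⟨hn.1, hn.2, z5, hJm⟩]
            have b6 : ‖sy z.2.1 z.2.2.2‖ ≤ 1 := norm_sy_le' hn.1
            have b7 := norm_G hn.1 hn.2
            rw [norm_mul, norm_mul, norm_mul, norm_mul, RCLike.norm_conj, RCLike.norm_conj,
              RCLike.norm_conj, b7, one_mul, Complex.norm_real,
              Real.norm_of_nonneg (n6_pos hn.1.ne_zero).le]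
            have := n6_pos hn.1.ne_zero
            calc ‖om (z.1, fq q z.2.1 z.2.2.1 z.2.2.2)‖ * (‖sy z.2.1 z.2.2.2‖ * n6 z.2.2.2) *
                ‖T z.1 e (fq q z.2.1 z.2.2.1 z.2.2.2)‖
                ≤ ‖om (z.1, fq q z.2.1 z.2.2.1 z.2.2.2)‖ * (1 * n6 z.2.2.2) *
                ‖T z.1 e (fq q z.2.1 z.2.2.1 z.2.2.2)‖ := by gcongr
              _ = _ := by unfold xz; ring
          have h6 := n6_pos hkp.ne_zero
          have h7 := n6_pos hn.1.ne_zero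
          rw [norm_mul, norm_mul, norm_mul, norm_mul, norm_mul, RCLike.norm_conj,
            Complex.norm_real, Real.norm_of_nonneg h6.le]
          calc ‖kap q t (z.1, e, z.2.1, z.2.2.1)‖ * (n6 k' * ‖sy z.2.1 k'‖ *
                ‖sy k' (z.1 * z.2.2.1)‖ *
                (‖be J om T q (z.1, e, z.2.1, z.2.2.1) z.2.2.2‖ * ‖sy k' z.2.2.2‖))
              ≤ 1 * (n6 k' * 1 * 1 *
                ((‖om (xz q z)‖ * n6 z.2.2.2 * ‖T (xz q z).1 e (xz q z).2‖) * 1)) := by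
                gcongr
            _ = _ := by ring
        · rw [if_neg (fun h => h1 h.2), if_neg h1, norm_zero]
      have h8 : ‖AE J om T E0 q t k₁ z‖ ≤ (‖om (xz q z)‖ * (n6 k' * n6 z.2.2.2)) *
          ∑ e ∈ (S E0).filter (fun e => e ∣ k₁ * q * t), ‖T (xz q z).1 e (xz q z).2‖ := by
        unfold AE
        refine (norm_sum_le _ _).trans ((Finset.sum_le_sum hterm).trans (le_of_eq ?_))
        rw [Finset.sum_filter, Finset.mul_sum]
        refine Finset.sum_congr rfl fun e _ => ?_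
        split_ifs
        · rfl
        · rw [mul_zero]
      have h9 : (∑ e ∈ (S E0).filter (fun e => e ∣ k₁ * q * t), ‖T (xz q z).1 e (xz q z).2‖) ^ 2 ≤
          (tau (k₁ * q * t) : ℝ) * ∑ e ∈ S E0, if e ∣ k₁ * q * t then
            ‖T (xz q z).1 e (xz q z).2‖ ^ 2 else 0 := by
        have hN : k₁ * q * t ≠ 0 := mul_ne_zero (mul_ne_zero hk₁.ne_zero hq.ne_zero) ht.ne_zero
        have h10 := sq_sum_le_card_mul_sum_sq
          (s := (S E0).filter (fun e => e ∣ k₁ * q * t))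
          (f := fun e => ‖T (xz q z).1 e (xz q z).2‖)
        rw [Finset.sum_filter (s := S E0) (f := fun e => ‖T (xz q z).1 e (xz q z).2‖ ^ 2)] at h10
        refine h10.trans (mul_le_mul_of_nonneg_right ?_ (Finset.sum_nonneg fun e _ => by
          split_ifs <;> positivity))
        have h11 : ((S E0).filter (fun e => e ∣ k₁ * q * t)) ⊆ Div277.dvs (k₁ * q * t) := by
          intro e he
          rw [Finset.mem_filter] at he
          exact (Div277.mem_dvs hN).mpr ⟨(S_pr he.1).1, he.2⟩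
        exact_mod_cast Finset.card_le_card h11
      have h6 := n6_pos hkp.ne_zero
      have h7 := n6_pos hn.1.ne_zero
      calc ‖AE J om T E0 q t k₁ z‖ ^ 2 ≤ ((‖om (xz q z)‖ * (n6 k' * n6 z.2.2.2)) *
          ∑ e ∈ (S E0).filter (fun e => e ∣ k₁ * q * t), ‖T (xz q z).1 e (xz q z).2‖) ^ 2 :=
            pow_le_pow_left₀ (norm_nonneg _) h8 2
        _ = ‖om (xz q z)‖ ^ 2 * (n6 k' ^ 2 * n6 z.2.2.2 ^ 2) *
          (∑ e ∈ (S E0).filter (fun e => e ∣ k₁ * q * t), ‖T (xz q z).1 e (xz q z).2‖) ^ 2 := by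
            ring
        _ ≤ _ := mul_le_mul_of_nonneg_left h9 (by positivity)
    · rw [if_neg (fun h => hc (hqu ▸ h.2))]
      have h0 : AE J om T E0 q t k₁ z = 0 := by
        unfold AE
        refine Finset.sum_eq_zero fun e _ => ?_
        have h1 : sy (qu k₁ z.2.2.1) (z.1 * z.2.2.1) = 0 := by
          rw [hqu, syG.eq_zero k' _ (hd.mul hg.1)]
          exact fun h => hc h.of_mul_right_right.symm
        rw [h1, map_zero, mul_zero, zero_mul, mul_zero]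
        split_ifs <;> rfl
      rw [h0]
      simp
  · rw [if_neg (fun h => hgk h.1)]
    have h0 : AE J om T E0 q t k₁ z = 0 := by
      unfold AE
      exact Finset.sum_eq_zero fun e _ => if_neg (fun h => hgk h.1)
    rw [h0]
    simp

end

end Crest.Agent.R017.E3M829
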