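import Crest.Agent.R017.E3Mb_829

/-!
# Row 17, block C70, leaf E3 (helper829): the diagonal with the squarefree majorant, part C

The mass of the nonsquarefree `k₁`.
-/

set_option autoImplicit false

noncomputable section

open scoped ComplexConjugate
open Finset

namespace Crest.Agent.R017.E3M829

open Crest.Agent.R012 Crest.Agent.R012.Eis Crest.Agent.R012.Gauss880
open Crest.Agent.R012.LS2 (S mem_S)
open Crest.Agent.R012.Mob705 (pdiv mem_pdiv cop mem_cop pb mem_pb)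
open Crest.Agent.R012.Div277 (tau)
open Crest.Agent.R017.E1551 (nmpos)
open Crest.Agent.R017.PX764 Crest.Agent.R017.C70 Crest.Agent.R017.GrB829
open Crest.Agent.R017.GrD829 Crest.Agent.R017.E3s164 Crest.Agent.R017.E3A164
open Crest.Agent.R017.Maj829 (mj mj_sq_le sqf_le_mj mj_sqf)

open Classical in
/-- the triples with product `e` -/
def P3 (e : Eis) : Finset (Eis × Eis × Eis) :=
  ((pdiv e) ×ˢ ((pdiv e) ×ˢ (pdiv e))).filter (fun p => p.1 * p.2.1 * p.2.2 = e)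

lemma mem_P3 {e : Eis} {p : Eis × Eis × Eis} : p ∈ P3 e ↔
    (p.1 ∈ pdiv e ∧ p.2.1 ∈ pdiv e ∧ p.2.2 ∈ pdiv e) ∧ p.1 * p.2.1 * p.2.2 = e := by
  classical
  unfold P3
  rw [mem_filter, mem_product, mem_product]

lemma sum_P3 {e : Eis} (he : IsPrim e) :
    ∑ p ∈ P3 e, (1 : ℝ) / nm p.1 * (1 / nm p.2.1) * (1 / nm p.2.2) ≤ (tau e : ℝ) ^ 2 / nm e := by
  classical
  refine le_trans (le_of_eq ?_) (sum_triple he)
  unfold P3
  rw [sum_filter, sum_product]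
  refine sum_congr rfl fun x _ => ?_
  rw [sum_product]

/-- the condition of the mass -/
def Cd (B Y : ℝ) (q g e t b k : Eis) : Prop :=
  B < nm b ∧ Squarefree b ∧ b ^ 2 ∣ k ∧ (∃ k', k = g * k' ∧ IsCoprime g k') ∧ e ∣ k * q * t ∧
    IsCoprime e q ∧ IsCoprime e g ∧ (nm k : ℝ) * (nm q) ^ 2 * (nm t) ^ 3 ≤ Y

open Classical in
/-- the weight of the mass -/
def hm (B Y : ℝ) (q g e t b k : Eis) : ℝ :=
  if Cd B Y q g e t b k then (nm k : ℝ) ^ (-(1 : ℝ) / 3) else 0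

lemma hm_nonneg (B Y : ℝ) (q g e t b k : Eis) : 0 ≤ hm B Y q g e t b k := by
  classical
  unfold hm; split_ifs <;> positivity

open Classical in
/-- one triple -/
lemma hm_le {B Y : ℝ} {q g e t b k : Eis} (he : e ∈ S e.nm) (hg : IsPrim g) (hgs : Squarefree g)
    (hb : IsPrim b) :
    hm B Y q g e t b k ≤ ∑ p ∈ P3 e, if (p.1 ∣ t ∧ p.2.1 ∣ b ∧ B < nm b) ∧
      (g * b ^ 2 * p.2.2 ∣ k ∧ (nm k : ℝ) * (nm q) ^ 2 * (nm t) ^ 3 ≤ Y) then
        (nm k : ℝ) ^ (-(1 : ℝ) / 3) else 0 := by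
  have hnn : ∀ p ∈ P3 e, (0 : ℝ) ≤ if (p.1 ∣ t ∧ p.2.1 ∣ b ∧ B < nm b) ∧
      (g * b ^ 2 * p.2.2 ∣ k ∧ (nm k : ℝ) * (nm q) ^ 2 * (nm t) ^ 3 ≤ Y) then
        (nm k : ℝ) ^ (-(1 : ℝ) / 3) else 0 := fun p _ => by split_ifs <;> positivity
  unfold hm
  split_ifs with h
  · obtain ⟨h1, h2, h3, ⟨k', h4, h5⟩, h6, h7, h8, h9⟩ := h
    obtain ⟨x, f, y, p1, p2, p3, p4, p5, p6, p7⟩ :=
      triple (S_pr he).1 (S_pr he).2 hg hgs hb h2 h4 h5 h7 h8 h6 h3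
    refine le_trans ?_ (single_le_sum hnn (mem_P3.mpr ⟨⟨p1, p2, p3⟩, p4⟩ : (x, f, y) ∈ P3 e))
    simp only
    rw [if_pos ⟨⟨p5, p6, h1⟩, p7, h9⟩]
  · exact Finset.sum_nonneg hnn

open Classical in
/-- the sum over `k` for one triple -/
lemma sum_k {Y : ℝ} (hY : 0 ≤ Y) {q g t b y : Eis} (hq : IsPrim q) (ht : IsPrim t)
    (hg : IsPrim g) (hb : IsPrim b) (hy : IsPrim y) :
    ∑ k ∈ pb Y, (if g * b ^ 2 * y ∣ k ∧ (nm k : ℝ) * (nm q) ^ 2 * (nm t) ^ 3 ≤ Y then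
        (nm k : ℝ) ^ (-(1 : ℝ) / 3) else 0) ≤
      150 * Y ^ (2 / 3 : ℝ) * (nm q : ℝ) ^ (-(4 : ℝ) / 3) * (1 / nm g) *
        ((1 / (nm t : ℝ) ^ 2) * (1 / (nm b : ℝ) ^ 2) * (1 / nm y)) := by
  have nq := nmpos hq.ne_zero
  have nt := nmpos ht.ne_zero
  have hZ0 : 0 ≤ Y / ((nm q : ℝ) ^ 2 * (nm t) ^ 3) := by positivity
  have h1 := sum_third_mult hZ0 ((hg.mul (hb.pow 2)).mul hy)
  have h2 : ∑ k ∈ pb Y, (if g * b ^ 2 * y ∣ k ∧ (nm k : ℝ) * (nm q) ^ 2 * (nm t) ^ 3 ≤ Y then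
        (nm k : ℝ) ^ (-(1 : ℝ) / 3) else 0) ≤
      ∑ k ∈ pb (Y / ((nm q : ℝ) ^ 2 * (nm t) ^ 3)), (if g * b ^ 2 * y ∣ k then
        (nm k : ℝ) ^ (-(1 : ℝ) / 3) else 0) := by
    rw [← sum_filter, ← sum_filter]
    refine sum_le_sum_of_subset_of_nonneg ?_ fun _ _ _ => by positivity
    intro k hk
    rw [mem_filter, mem_pb] at hk ⊢
    refine ⟨⟨?_, hk.1.2⟩, hk.2.1⟩
    rw [le_div_iff₀ (by positivity), ← mul_assoc]
    exact hk.2.2
  refine h2.trans (h1.trans (le_of_eq ?_))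
  rw [Real.div_rpow hY (by positivity), Real.mul_rpow (by positivity) (by positivity)]
  have e1 : ((nm q : ℝ) ^ 2) ^ (2 / 3 : ℝ) = (nm q : ℝ) ^ (4 / 3 : ℝ) := by
    rw [← Real.rpow_natCast, ← Real.rpow_mul nq.le]; norm_num
  have e2 : ((nm t : ℝ) ^ 3) ^ (2 / 3 : ℝ) = (nm t : ℝ) ^ 2 := by
    rw [← Real.rpow_natCast, ← Real.rpow_mul nt.le, ← Real.rpow_natCast]; norm_num
  have e3 : (nm q : ℝ) ^ (-(4 : ℝ) / 3) = ((nm q : ℝ) ^ (4 / 3 : ℝ))⁻¹ := by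
    rw [← Real.rpow_neg nq.le]; norm_num
  rw [e1, e2, e3, nm_mul, nm_mul, nm_pow]
  push_cast
  have ng := nmpos hg.ne_zero
  have nb := nmpos hb.ne_zero
  have ny := nmpos hy.ne_zero
  have h5 : (0 : ℝ) < (nm q : ℝ) ^ (4 / 3 : ℝ) := by positivity
  field_simp

open Classical in
/-- **the mass of one pair** -/
theorem sum_hm {B Y : ℝ} (hB : 0 < B) (hY : 0 ≤ Y) {q g e : Eis} (hq : IsPrim q)
    (hg : IsPrim g) (hgs : Squarefree g) (he : e ∈ S e.nm) :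
    ∑ t ∈ pb Y, ∑ b ∈ pb Y, ∑ k ∈ pb Y, hm B Y q g e t b k ≤
      150 * Y ^ (2 / 3 : ℝ) * (nm q : ℝ) ^ (-(4 : ℝ) / 3) * (1 / nm g) *
        (B⁻¹ * Hp Y ^ 2 * ((tau e : ℝ) ^ 2 / nm e)) := by
  set c : ℝ := 150 * Y ^ (2 / 3 : ℝ) * (nm q : ℝ) ^ (-(4 : ℝ) / 3) * (1 / nm g) with hc
  have hc0 : 0 ≤ c := by rw [hc]; positivity
  have hep := (S_pr he).1
  -- sum over k
  have h1 : ∀ t ∈ pb Y, ∀ b ∈ pb Y, ∑ k ∈ pb Y, hm B Y q g e t b k ≤
      ∑ p ∈ P3 e, c * (((if p.1 ∣ t then (1 : ℝ) / nm t else 0) *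
        (if p.2.1 ∣ b then B⁻¹ * (1 / nm b) else 0)) * (1 / nm p.2.2)) := by
    intro t ht b hb
    rw [mem_pb] at ht hb
    have nt := one_le ht.2
    have nb := one_le hb.2
    refine (sum_le_sum fun k _ => hm_le (B := B) (Y := Y) (q := q) (t := t) (k := k) he hg hgs
      hb.2).trans ?_
    rw [sum_comm]
    refine sum_le_sum fun p hp => ?_
    have hp' := mem_P3.mp hp
    have hy : IsPrim p.2.2 := ((mem_pdiv hep.ne_zero).mp hp'.1.2.2).1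
    by_cases h2 : p.1 ∣ t
    · by_cases h3 : p.2.1 ∣ b
      · by_cases h4 : B < nm b
        · rw [if_pos h2, if_pos h3]
          have h5 := sum_k (q := q) hY hq ht.2 hg hb.2 hy
          have h6 : ∑ k ∈ pb Y, (if (p.1 ∣ t ∧ p.2.1 ∣ b ∧ B < nm b) ∧
              (g * b ^ 2 * p.2.2 ∣ k ∧ (nm k : ℝ) * (nm q) ^ 2 * (nm t) ^ 3 ≤ Y) then
              (nm k : ℝ) ^ (-(1 : ℝ) / 3) else 0) =
              ∑ k ∈ pb Y, (if g * b ^ 2 * p.2.2 ∣ k ∧ (nm k : ℝ) * (nm q) ^ 2 * (nm t) ^ 3 ≤ Y then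
              (nm k : ℝ) ^ (-(1 : ℝ) / 3) else 0) := by
            refine sum_congr rfl fun k _ => ?_
            by_cases h7 : g * b ^ 2 * p.2.2 ∣ k ∧ (nm k : ℝ) * (nm q) ^ 2 * (nm t) ^ 3 ≤ Y
            · rw [if_pos ⟨⟨h2, h3, h4⟩, h7⟩, if_pos h7]
            · rw [if_neg (fun h => h7 h.2), if_neg h7]
          rw [h6]
          refine h5.trans ?_
          refine mul_le_mul_of_nonneg_left ?_ hc0
          refine mul_le_mul_of_nonneg_right ?_ (by positivity)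
          have h8 : 1 / (nm t : ℝ) ^ 2 ≤ 1 / nm t :=
            one_div_le_one_div_of_le (by linarith) (by nlinarith)
          have h9 : 1 / (nm b : ℝ) ^ 2 ≤ B⁻¹ * (1 / nm b) := by
            rw [← one_div B, one_div_mul_one_div]
            refine one_div_le_one_div_of_le (by positivity) ?_
            nlinarith
          exact mul_le_mul h8 h9 (by positivity) (by positivity)
        · have h6 : ∑ k ∈ pb Y, (if (p.1 ∣ t ∧ p.2.1 ∣ b ∧ B < nm b) ∧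
              (g * b ^ 2 * p.2.2 ∣ k ∧ (nm k : ℝ) * (nm q) ^ 2 * (nm t) ^ 3 ≤ Y) then
              (nm k : ℝ) ^ (-(1 : ℝ) / 3) else 0) = 0 :=
            sum_eq_zero fun k _ => if_neg fun h => h4 h.1.2.2
          rw [h6, if_pos h2, if_pos h3]
          positivity
      · have h6 : ∑ k ∈ pb Y, (if (p.1 ∣ t ∧ p.2.1 ∣ b ∧ B < nm b) ∧
              (g * b ^ 2 * p.2.2 ∣ k ∧ (nm k : ℝ) * (nm q) ^ 2 * (nm t) ^ 3 ≤ Y) then
              (nm k : ℝ) ^ (-(1 : ℝ) / 3) else 0) = 0 :=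
          sum_eq_zero fun k _ => if_neg fun h => h3 h.1.2.1
        rw [h6, if_neg h3]
        simp
    · have h6 : ∑ k ∈ pb Y, (if (p.1 ∣ t ∧ p.2.1 ∣ b ∧ B < nm b) ∧
              (g * b ^ 2 * p.2.2 ∣ k ∧ (nm k : ℝ) * (nm q) ^ 2 * (nm t) ^ 3 ≤ Y) then
              (nm k : ℝ) ^ (-(1 : ℝ) / 3) else 0) = 0 :=
        sum_eq_zero fun k _ => if_neg fun h => h2 h.1.1
      rw [h6, if_neg h2]
      simp
  calc ∑ t ∈ pb Y, ∑ b ∈ pb Y, ∑ k ∈ pb Y, hm B Y q g e t b k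
      ≤ ∑ t ∈ pb Y, ∑ b ∈ pb Y, ∑ p ∈ P3 e, c * (((if p.1 ∣ t then (1 : ℝ) / nm t else 0) *
        (if p.2.1 ∣ b then B⁻¹ * (1 / nm b) else 0)) * (1 / nm p.2.2)) :=
        sum_le_sum fun t ht => sum_le_sum fun b hb => h1 t ht b hb
    _ = ∑ p ∈ P3 e, c * (((∑ t ∈ pb Y, if p.1 ∣ t then (1 : ℝ) / nm t else 0) *
        (∑ b ∈ pb Y, if p.2.1 ∣ b then B⁻¹ * (1 / nm b) else 0)) * (1 / nm p.2.2)) := by
        rw [sum_congr rfl fun t _ => sum_comm, sum_comm]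
        refine sum_congr rfl fun p _ => ?_
        rw [sum_mul_sum, sum_mul, mul_sum]
        refine sum_congr rfl fun t _ => ?_
        rw [sum_mul, mul_sum]
    _ ≤ ∑ p ∈ P3 e, c * (((1 / nm p.1 * Hp Y) * (B⁻¹ * (1 / nm p.2.1 * Hp Y))) *
          (1 / nm p.2.2)) := by
        refine sum_le_sum fun p hp => ?_
        have hp' := mem_P3.mp hp
        have hx := ((mem_pdiv hep.ne_zero).mp hp'.1.1).1
        have hf := ((mem_pdiv hep.ne_zero).mp hp'.1.2.1).1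
        have h2 := sum_inv_mult hY hx
        have h3 := sum_inv_mult hY hf
        have h4 : ∑ b ∈ pb Y, (if p.2.1 ∣ b then B⁻¹ * (1 / (nm b : ℝ)) else 0) ≤
            B⁻¹ * (1 / nm p.2.1 * Hp Y) := by
          calc ∑ b ∈ pb Y, (if p.2.1 ∣ b then B⁻¹ * (1 / (nm b : ℝ)) else 0)
              = B⁻¹ * ∑ b ∈ pb Y, (if p.2.1 ∣ b then (1 : ℝ) / nm b else 0) := by
                rw [mul_sum]
                refine sum_congr rfl fun b _ => ?_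
                split_ifs
                · rfl
                · rw [mul_zero]
            _ ≤ _ := mul_le_mul_of_nonneg_left h3 (by positivity)
        have h5 : 0 ≤ ∑ b ∈ pb Y, (if p.2.1 ∣ b then B⁻¹ * (1 / (nm b : ℝ)) else 0) :=
          sum_nonneg fun b _ => by split_ifs <;> positivity
        have h6 := Hp_nonneg Y
        exact mul_le_mul_of_nonneg_left (mul_le_mul_of_nonneg_right
          (mul_le_mul h2 h4 h5 (by positivity)) (by positivity)) hc0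
    _ = c * (B⁻¹ * Hp Y ^ 2 * ∑ p ∈ P3 e, (1 : ℝ) / nm p.1 * (1 / nm p.2.1) *
          (1 / nm p.2.2)) := by
        rw [mul_sum, mul_sum]
        refine sum_congr rfl fun p _ => ?_
        ring
    _ ≤ _ := by
        have h7 := sum_P3 hep
        have h6 := Hp_nonneg Y
        exact mul_le_mul_of_nonneg_left (mul_le_mul_of_nonneg_left h7 (by positivity)) hc0

end Crest.Agent.R017.E3M829
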