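import Crest.Agent.R017.E3Mc_829

/-!
# Row 17, block C70, leaf E3 (helper829): the diagonal with the squarefree majorant, part D

`ms` : the summand of the diagonal; `ms_le` : its bound; `mass_le` : the mass of the nonsquarefree
`k₁`.
-/

set_option autoImplicit false

noncomputable section

open scoped ComplexConjugate
open Finset

namespace Crest.Agent.R017.E3M829

open Crest.Agent.R012 Crest.Agent.R012.Eis Crest.Agent.R012.Gauss880
open Crest.Agent.R012.LS2 (S mem_S)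
open Crest.Agent.R012.Mob705 (pdiv mem_pdiv cop mem_cop pb mem_pb)
open Crest.Agent.R012.Div277 (tau)
open Crest.Agent.R017.E1551 (nmpos)
open Crest.Agent.R017.PX764 Crest.Agent.R017.C70 Crest.Agent.R017.GrB829
open Crest.Agent.R017.GrD829 Crest.Agent.R017.E3s164 Crest.Agent.R017.E3A164
open Crest.Agent.R017.Maj829 (mj mj_sq_le sqf_le_mj mj_sqf)

/-- nonnegative bounded weights supported in `(-∞, b₀]` -/
structure W0 (w : ℝ → ℝ) (W b₀ : ℝ) : Prop where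
  nn : ∀ x, 0 ≤ w x
  le : ∀ x, w x ≤ W
  supp : ∀ x, b₀ < x → w x = 0

lemma W0.nonneg {w : ℝ → ℝ} {W b₀ : ℝ} (h : W0 w W b₀) : 0 ≤ W := (h.nn 0).trans (h.le 0)

open Classical in
/-- the summand of the diagonal -/
def ms (w : ℝ → ℝ) (K B : ℝ) (J : Finset (Eis × Eis)) (om : Eis × Eis → ℂ)
    (T : Eis → Eis → Eis → ℂ) (E0 R : ℝ) (q t k₁ : Eis) : ℝ :=
  if IsPrim k₁ ∧ IsCoprime k₁ q then
    mj B k₁ ^ 2 * w ((nm (k₁ * q ^ 2 * t ^ 3) : ℝ) / K) * Dg J om T E0 R q t k₁ else 0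

/-- the coefficient of a tuple -/
def az (om : Eis × Eis → ℂ) (q : Eis) (z : Zp) : ℝ :=
  ‖om (xz q z)‖ ^ 2 * n6 z.2.2.2 ^ 2 * (nm z.2.2.1 : ℝ) ^ (1 / 3 : ℝ)

lemma az_nonneg (om : Eis × Eis → ℂ) (q : Eis) (z : Zp) : 0 ≤ az om q z := by
  unfold az; positivity

section

variable {J : Finset (Eis × Eis)} {om : Eis × Eis → ℂ} {T : Eis → Eis → Eis → ℂ} {q t k₁ : Eis}
  {w : ℝ → ℝ} {W b₀ K B E0 R τ : ℝ}

/-- the mass term of `(q, t, k₁)` -/
def mt (B Y : ℝ) (J : Finset (Eis × Eis)) (om : Eis × Eis → ℂ) (T : Eis → Eis → Eis → ℂ)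
    (E0 R : ℝ) (q t k : Eis) : ℝ :=
  ∑ b ∈ pb Y, ∑ z ∈ PP J R q, ∑ e ∈ S E0, az om q z * ‖T (xz q z).1 e (xz q z).2‖ ^ 2 *
    hm B Y q z.2.2.1 e t b k

lemma mt_nonneg (B Y : ℝ) (J : Finset (Eis × Eis)) (om : Eis × Eis → ℂ)
    (T : Eis → Eis → Eis → ℂ) (E0 R : ℝ) (q t k : Eis) : 0 ≤ mt B Y J om T E0 R q t k :=
  sum_nonneg fun _ _ => sum_nonneg fun _ _ => sum_nonneg fun _ _ =>
    mul_nonneg (mul_nonneg (az_nonneg _ _ _) (by positivity)) (hm_nonneg _ _ _ _ _ _ _ _)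

lemma n6_sq {k : Eis} : n6 k ^ 2 = (nm k : ℝ) ^ (-(1 : ℝ) / 3) := by
  unfold n6
  rw [← Real.rpow_natCast, ← Real.rpow_mul (Nat.cast_nonneg _)]
  norm_num

open Classical in
/-- **the pointwise bound** -/
theorem ms_le (hw : W0 w W b₀) (hK : 0 < K) (hB : 1 ≤ B) (hJ : OKJ J) (hE : 0 ≤ E0)
    (hT : ∀ d e j, T d e j ≠ 0 → IsCoprime j e) (hk₁ : IsPrim k₁)
    (hq : IsPrim q) (ht : IsPrim t)
    (hτ : ∀ m : Eis, (nm m : ℝ) ≤ b₀ * K → (tau m : ℝ) ≤ τ) :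
    ms w K B J om T E0 R q t k₁ ≤
      (if Squarefree k₁ ∧ IsCoprime k₁ q then
        w ((nm (k₁ * q ^ 2 * t ^ 3) : ℝ) / K) * Dg J om T E0 R q t k₁ else 0) +
      W * τ ^ 3 * mt B (b₀ * K) J om T E0 R q t k₁ := by
  have hW := hw.nonneg
  have hmt := mt_nonneg B (b₀ * K) J om T E0 R q t k₁
  have hDg := Dg_nonneg J om T E0 R q t k₁
  set Y := b₀ * K with hY
  have hn : (nm (k₁ * q ^ 2 * t ^ 3) : ℝ) = nm k₁ * (nm q) ^ 2 * (nm t) ^ 3 := by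
    rw [nm_mul, nm_mul, nm_pow, nm_pow]; push_cast; ring
  have hτ0 : (nm k₁ : ℝ) ≤ Y → 0 ≤ τ := fun h => (Nat.cast_nonneg _).trans (hτ k₁ h)
  have n1 := one_le hk₁
  have n2 := one_le hq
  have n3 := one_le ht
  -- the weight vanishes outside
  by_cases hout : Y < (nm k₁ : ℝ) * (nm q) ^ 2 * (nm t) ^ 3
  · have hw0 : w ((nm (k₁ * q ^ 2 * t ^ 3) : ℝ) / K) = 0 := by
      apply hw.supp
      rw [lt_div_iff₀ hK, hn]
      exact hout
    have h1 : ms w K B J om T E0 R q t k₁ = 0 := by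
      unfold ms
      rw [hw0]
      simp
    have h2 : (if Squarefree k₁ ∧ IsCoprime k₁ q then
        w ((nm (k₁ * q ^ 2 * t ^ 3) : ℝ) / K) * Dg J om T E0 R q t k₁ else 0) = 0 := by
      rw [hw0]; simp
    have h3 : mt B Y J om T E0 R q t k₁ = 0 := by
      unfold mt
      refine sum_eq_zero fun b _ => sum_eq_zero fun z _ => sum_eq_zero fun e _ => ?_
      have : hm B Y q z.2.2.1 e t b k₁ = 0 := by
        unfold hm
        rw [if_neg]
        rintro ⟨-, -, -, -, -, -, -, h⟩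
        linarith
      rw [this, mul_zero]
    rw [h1, h2, h3]
    simp
  have hin : (nm k₁ : ℝ) * (nm q) ^ 2 * (nm t) ^ 3 ≤ Y := not_lt.mp hout
  have hq2 : (1 : ℝ) ≤ (nm q : ℝ) ^ 2 := one_le_pow₀ n2
  have ht3 : (1 : ℝ) ≤ (nm t : ℝ) ^ 3 := one_le_pow₀ n3
  have hk1Y : (nm k₁ : ℝ) ≤ Y := by
    have h1 : (nm k₁ : ℝ) ≤ nm k₁ * (nm q) ^ 2 * (nm t) ^ 3 := by
      have h2 : (1 : ℝ) ≤ (nm q : ℝ) ^ 2 * (nm t) ^ 3 := by nlinarith
      nlinarith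
    exact h1.trans hin
  have hτn := hτ0 hk1Y
  unfold ms
  by_cases hc : IsCoprime k₁ q
  · rw [if_pos ⟨hk₁, hc⟩]
    by_cases hs : Squarefree k₁
    · rw [if_pos ⟨hs, hc⟩, mj_sqf hB hk₁ hs, one_pow, one_mul]
      have : 0 ≤ W * τ ^ 3 * mt B Y J om T E0 R q t k₁ := by positivity
      linarith
    · rw [if_neg (fun h => hs h.1), zero_add]
      have h1 := mj_sq_le hB hk₁
      rw [if_neg hs, zero_add] at h1
      -- the b-sum
      have h2 : mj B k₁ ^ 2 ≤ τ ^ 2 * ∑ b ∈ pb Y, if Squarefree b ∧ b ^ 2 ∣ k₁ ∧ B < nm b then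
          (1 : ℝ) else 0 := by
        refine h1.trans ?_
        have h3 : (tau k₁ : ℝ) ^ 2 ≤ τ ^ 2 :=
          pow_le_pow_left₀ (Nat.cast_nonneg _) (hτ k₁ hk1Y) 2
        have h4 : ∑ b ∈ pdiv k₁, (if Squarefree b ∧ b ^ 2 ∣ k₁ ∧ B < nm b then (1 : ℝ) else 0) ≤
            ∑ b ∈ pb Y, if Squarefree b ∧ b ^ 2 ∣ k₁ ∧ B < nm b then (1 : ℝ) else 0 := by
          refine sum_le_sum_of_subset_of_nonneg (fun b hb => ?_) fun _ _ _ => by
            split_ifs <;> norm_num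
          have hb' := (mem_pdiv hk₁.ne_zero).mp hb
          rw [mem_pb]
          refine ⟨le_trans ?_ hk1Y, hb'.1⟩
          exact_mod_cast Div277.nm_le_of_dvd hk₁.ne_zero hb'.2
        have h5 : 0 ≤ ∑ b ∈ pdiv k₁,
            (if Squarefree b ∧ b ^ 2 ∣ k₁ ∧ B < nm b then (1 : ℝ) else 0) :=
          sum_nonneg fun _ _ => by split_ifs <;> norm_num
        exact mul_le_mul h3 h4 h5 (by positivity)
      -- the z-sum
      have h6 : Dg J om T E0 R q t k₁ ≤ ∑ z ∈ PP J R q,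
          if z.2.2.1 ∣ k₁ ∧ IsCoprime z.2.2.1 (qu k₁ z.2.2.1) then
            ‖om (xz q z)‖ ^ 2 * ((n6 (qu k₁ z.2.2.1)) ^ 2 * n6 z.2.2.2 ^ 2) *
              (τ * ∑ e ∈ S E0, if e ∣ k₁ * q * t then
                ‖T (xz q z).1 e (xz q z).2‖ ^ 2 else 0) else 0 := by
        unfold Dg
        refine sum_le_sum fun z hz => (AE_le hJ hE hk₁ hq ht hz).trans ?_
        split_ifs with h
        · have h7 : (tau (k₁ * q * t) : ℝ) ≤ τ := by
            apply hτ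
            refine le_trans ?_ hin
            rw [nm_mul, nm_mul]
            push_cast
            have h8 : (nm q : ℝ) ≤ (nm q : ℝ) ^ 2 := by nlinarith
            have h9 : (nm t : ℝ) ≤ (nm t : ℝ) ^ 3 := by nlinarith [sq_nonneg ((nm t : ℝ) - 1)]
            have : (0 : ℝ) ≤ nm k₁ := by linarith
            exact mul_le_mul (mul_le_mul_of_nonneg_left h8 this) h9 (by linarith)
              (by positivity)
          refine mul_le_mul_of_nonneg_left (mul_le_mul_of_nonneg_right h7 ?_) (by positivity)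
          exact sum_nonneg fun _ _ => by split_ifs <;> positivity
        · exact le_rfl
      -- combine
      have h10 : mj B k₁ ^ 2 * w ((nm (k₁ * q ^ 2 * t ^ 3) : ℝ) / K) * Dg J om T E0 R q t k₁ ≤
          (τ ^ 2 * ∑ b ∈ pb Y, if Squarefree b ∧ b ^ 2 ∣ k₁ ∧ B < nm b then (1 : ℝ) else 0) * W *
          ∑ z ∈ PP J R q,
          if z.2.2.1 ∣ k₁ ∧ IsCoprime z.2.2.1 (qu k₁ z.2.2.1) then
            ‖om (xz q z)‖ ^ 2 * ((n6 (qu k₁ z.2.2.1)) ^ 2 * n6 z.2.2.2 ^ 2) *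
              (τ * ∑ e ∈ S E0, if e ∣ k₁ * q * t then
                ‖T (xz q z).1 e (xz q z).2‖ ^ 2 else 0) else 0 := by
        refine mul_le_mul (mul_le_mul h2 (hw.le _) (hw.nn _) ?_) h6 hDg ?_
        · exact mul_nonneg (by positivity) (sum_nonneg fun _ _ => by split_ifs <;> norm_num)
        · exact mul_nonneg (mul_nonneg (by positivity)
            (sum_nonneg fun _ _ => by split_ifs <;> norm_num)) hW
      refine h10.trans ?_
      have h11 : (τ ^ 2 * ∑ b ∈ pb Y, if Squarefree b ∧ b ^ 2 ∣ k₁ ∧ B < nm b then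
          (1 : ℝ) else 0) * W * (∑ z ∈ PP J R q,
          if z.2.2.1 ∣ k₁ ∧ IsCoprime z.2.2.1 (qu k₁ z.2.2.1) then
            ‖om (xz q z)‖ ^ 2 * ((n6 (qu k₁ z.2.2.1)) ^ 2 * n6 z.2.2.2 ^ 2) *
              (τ * ∑ e ∈ S E0, if e ∣ k₁ * q * t then
                ‖T (xz q z).1 e (xz q z).2‖ ^ 2 else 0) else 0) =
          W * τ ^ 2 * ∑ b ∈ pb Y, ∑ z ∈ PP J R q,
            (if Squarefree b ∧ b ^ 2 ∣ k₁ ∧ B < nm b then (1 : ℝ) else 0) *
            (if z.2.2.1 ∣ k₁ ∧ IsCoprime z.2.2.1 (qu k₁ z.2.2.1) then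
            ‖om (xz q z)‖ ^ 2 * ((n6 (qu k₁ z.2.2.1)) ^ 2 * n6 z.2.2.2 ^ 2) *
              (τ * ∑ e ∈ S E0, if e ∣ k₁ * q * t then
                ‖T (xz q z).1 e (xz q z).2‖ ^ 2 else 0) else 0) := by
        rw [← sum_mul_sum]
        ring
      rw [h11]
      unfold mt
      rw [mul_sum, mul_sum]
      refine sum_le_sum fun b hb => ?_
      rw [mul_sum, mul_sum]
      refine sum_le_sum fun z hz => ?_
      obtain ⟨⟨z1, z2, z3, z4⟩, z5, z6⟩ := mem_PP.mp hz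
      have hg := S_pr z3
      by_cases hb1 : Squarefree b ∧ b ^ 2 ∣ k₁ ∧ B < nm b
      · by_cases hz1 : z.2.2.1 ∣ k₁ ∧ IsCoprime z.2.2.1 (qu k₁ z.2.2.1)
        · rw [if_pos hb1, if_pos hz1, one_mul]
          obtain ⟨⟨k', hk'⟩, hcop⟩ := hz1
          have hqu : qu k₁ z.2.2.1 = k' := by rw [hk']; exact qu_mul hg.1.ne_zero k'
          rw [hqu] at hcop ⊢
          have hkp : IsPrim k' := (hk' ▸ hk₁).of_mul_left hg.1
          have e1 : n6 k' ^ 2 = (nm k₁ : ℝ) ^ (-(1 : ℝ) / 3) * (nm z.2.2.1 : ℝ) ^ (1 / 3 : ℝ) := by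
            have ng := nmpos hg.1.ne_zero
            have nk := nmpos hkp.ne_zero
            have e2 : (nm k₁ : ℝ) = nm z.2.2.1 * nm k' := by rw [hk', nm_mul]; push_cast; rfl
            rw [n6_sq, e2, Real.mul_rpow ng.le nk.le]
            have e3 : (nm z.2.2.1 : ℝ) ^ (-(1 : ℝ) / 3) * (nm z.2.2.1 : ℝ) ^ (1 / 3 : ℝ) = 1 := by
              rw [← Real.rpow_add ng]; norm_num
            calc (nm k' : ℝ) ^ (-(1 : ℝ) / 3) = ((nm z.2.2.1 : ℝ) ^ (-(1 : ℝ) / 3) *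
                  (nm z.2.2.1 : ℝ) ^ (1 / 3 : ℝ)) * (nm k' : ℝ) ^ (-(1 : ℝ) / 3) := by
                  rw [e3, one_mul]
              _ = _ := by ring
          have e4 : W * τ ^ 2 * (‖om (xz q z)‖ ^ 2 * (n6 k' ^ 2 * n6 z.2.2.2 ^ 2) *
              (τ * ∑ e ∈ S E0, if e ∣ k₁ * q * t then
                ‖T (xz q z).1 e (xz q z).2‖ ^ 2 else 0)) =
              W * τ ^ 3 * ∑ e ∈ S E0, az om q z * (if e ∣ k₁ * q * t then
                ‖T (xz q z).1 e (xz q z).2‖ ^ 2 * (nm k₁ : ℝ) ^ (-(1 : ℝ) / 3) else 0) := by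
            rw [e1]
            unfold az
            simp_rw [mul_sum]
            refine sum_congr rfl fun e _ => ?_
            split_ifs
            · ring
            · simp
          rw [e4]
          refine mul_le_mul_of_nonneg_left (sum_le_sum fun e he => ?_) (by positivity)
          rw [mul_assoc (az om q z)]
          refine mul_le_mul_of_nonneg_left ?_ (az_nonneg _ _ _)
          by_cases h12 : e ∣ k₁ * q * t
          · rw [if_pos h12]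
            by_cases hTz : T (xz q z).1 e (xz q z).2 = 0
            · rw [hTz]; simp
            · have h13 := hT _ _ _ hTz
              have hqj : q ∣ (xz q z).2 := ⟨z.2.1 * z.2.2.2 * z.2.2.1 ^ 2, by
                simp only [xz, E3A164.fq]; ring⟩
              have hgj : z.2.2.1 ∣ (xz q z).2 := ⟨q * z.2.1 * z.2.2.2 * z.2.2.1, by
                simp only [xz, E3A164.fq]; ring⟩
              have h14 : Cd B Y q z.2.2.1 e t b k₁ :=
                ⟨hb1.2.2, hb1.1, hb1.2.1, ⟨k', hk', hcop⟩, h12,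
                  (h13.of_isCoprime_of_dvd_left hqj).symm,
                  (h13.of_isCoprime_of_dvd_left hgj).symm, hin⟩
              unfold hm
              rw [if_pos h14]
          · rw [if_neg h12]
            exact mul_nonneg (by positivity) (hm_nonneg _ _ _ _ _ _ _ _)
        · rw [if_neg hz1, mul_zero, mul_zero]
          exact mul_nonneg (by positivity) (sum_nonneg fun e _ =>
            mul_nonneg (mul_nonneg (az_nonneg _ _ _) (by positivity))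
              (hm_nonneg _ _ _ _ _ _ _ _))
      · rw [if_neg hb1, zero_mul, mul_zero]
        exact mul_nonneg (by positivity) (sum_nonneg fun e _ =>
            mul_nonneg (mul_nonneg (az_nonneg _ _ _) (by positivity))
              (hm_nonneg _ _ _ _ _ _ _ _))
  · rw [if_neg (fun h => hc h.2), if_neg (fun h => hc h.2), zero_add]
    positivity

/-- the functional of the mass -/
def MF (om : Eis × Eis → ℂ) (T : Eis → Eis → Eis → ℂ) (E0 : ℝ) (x : Eis × Eis) : ℝ :=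
  ‖om x‖ ^ 2 * (nm x.2 : ℝ) ^ (-(1 : ℝ) / 3) *
    ∑ e ∈ S E0, (tau e : ℝ) ^ 2 / nm e * ‖T x.1 e x.2‖ ^ 2

lemma MF_nonneg (om : Eis × Eis → ℂ) (T : Eis → Eis → Eis → ℂ) (E0 : ℝ) (x : Eis × Eis) :
    0 ≤ MF om T E0 x := by
  unfold MF; positivity

lemma nm_C {c : Eis} (hc : IsC c) : (nm c : ℝ) ≤ 27 := by
  have h : nm c ≤ 27 := by
    rcases hc with rfl | rfl | rfl | rfl
    · rw [nm_one]; norm_num
    · decide
    · decide
    · decide
  exact_mod_cast h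

/-- the coefficient in terms of `nm j` -/
lemma az_le (hq : IsPrim q) {z : Zp} (hz : z ∈ PP J R q) :
    az om q z * ((nm q : ℝ) ^ (-(4 : ℝ) / 3) * (1 / nm z.2.2.1)) ≤
      3 * (1 / nm q) * (‖om (xz q z)‖ ^ 2 * (nm (xz q z).2 : ℝ) ^ (-(1 : ℝ) / 3)) := by
  obtain ⟨⟨z1, z2, z3, z4⟩, z5, z6⟩ := mem_PP.mp hz
  have hg := (S_pr z3).1
  have hn := (S_pr z4).1
  have nq := nmpos hq.ne_zero
  have ng := nmpos hg.ne_zero
  have nn := nmpos hn.ne_zero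
  have nc := nmpos z2.ne_zero
  have e0 : (nm (xz q z).2 : ℝ) = nm q * nm z.2.1 * nm z.2.2.2 * (nm z.2.2.1) ^ 2 := by
    simp only [xz, E3A164.fq]
    rw [nm_mul, nm_mul, nm_mul, nm_pow]; push_cast; ring
  have e1 : (nm (xz q z).2 : ℝ) ^ (-(1 : ℝ) / 3) = (nm q : ℝ) ^ (-(1 : ℝ) / 3) *
      (nm z.2.1 : ℝ) ^ (-(1 : ℝ) / 3) * (nm z.2.2.2 : ℝ) ^ (-(1 : ℝ) / 3) *
      (nm z.2.2.1 : ℝ) ^ (-(2 : ℝ) / 3) := by
    rw [e0, Real.mul_rpow (by positivity) (by positivity), Real.mul_rpow (by positivity) nn.le,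
      Real.mul_rpow nq.le nc.le]
    congr 1
    rw [← Real.rpow_natCast, ← Real.rpow_mul ng.le]
    norm_num
  have e2 : (nm z.2.2.1 : ℝ) ^ (1 / 3 : ℝ) * (1 / nm z.2.2.1) =
      (nm z.2.2.1 : ℝ) ^ (-(2 : ℝ) / 3) := by
    rw [one_div (nm z.2.2.1 : ℝ), ← Real.rpow_neg_one, ← Real.rpow_add ng]
    norm_num
  have e3 : (nm q : ℝ) ^ (-(4 : ℝ) / 3) = (1 / nm q) * (nm q : ℝ) ^ (-(1 : ℝ) / 3) := by
    rw [one_div (nm q : ℝ), ← Real.rpow_neg_one, ← Real.rpow_add nq]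
    norm_num
  have h1 : (1 : ℝ) ≤ 3 * (nm z.2.1 : ℝ) ^ (-(1 : ℝ) / 3) := by
    have h2 : (27 : ℝ) ^ (-(1 : ℝ) / 3) ≤ (nm z.2.1 : ℝ) ^ (-(1 : ℝ) / 3) :=
      Real.rpow_le_rpow_of_nonpos nc (nm_C z2) (by norm_num)
    have h3 : (27 : ℝ) ^ (-(1 : ℝ) / 3) = 1 / 3 := by
      rw [show (27 : ℝ) = 3 ^ (3 : ℝ) by norm_num, ← Real.rpow_mul (by norm_num)]
      norm_num
    rw [h3] at h2
    linarith
  unfold az
  rw [n6_sq, e1, e3]
  calc ‖om (xz q z)‖ ^ 2 * (nm z.2.2.2 : ℝ) ^ (-(1 : ℝ) / 3) * (nm z.2.2.1 : ℝ) ^ (1 / 3 : ℝ) *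
        ((1 / nm q) * (nm q : ℝ) ^ (-(1 : ℝ) / 3) * (1 / nm z.2.2.1))
      = 1 * (‖om (xz q z)‖ ^ 2 * (nm z.2.2.2 : ℝ) ^ (-(1 : ℝ) / 3) *
          ((nm z.2.2.1 : ℝ) ^ (1 / 3 : ℝ) * (1 / nm z.2.2.1)) *
          ((1 / nm q) * (nm q : ℝ) ^ (-(1 : ℝ) / 3))) := by ring
    _ ≤ (3 * (nm z.2.1 : ℝ) ^ (-(1 : ℝ) / 3)) *
          (‖om (xz q z)‖ ^ 2 * (nm z.2.2.2 : ℝ) ^ (-(1 : ℝ) / 3) *
          ((nm z.2.2.1 : ℝ) ^ (1 / 3 : ℝ) * (1 / nm z.2.2.1)) *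
          ((1 / nm q) * (nm q : ℝ) ^ (-(1 : ℝ) / 3))) :=
        mul_le_mul_of_nonneg_right h1 (by positivity)
    _ = _ := by rw [e2]; ring

lemma hm_zero {Y : ℝ} {g e b k : Eis} (hk : IsPrim k) (hq : IsPrim q) (ht : IsPrim t)
    (h : Y < nm t ∨ Y < nm q) : hm B Y q g e t b k = 0 := by
  classical
  unfold hm
  rw [if_neg]
  rintro ⟨-, -, -, -, -, -, -, h1⟩
  have n1 := one_le hk
  have n2 := one_le hq
  have n3 := one_le ht
  have h2 : (nm q : ℝ) ≤ (nm q : ℝ) ^ 2 := by nlinarith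
  have h3 : (nm t : ℝ) ≤ (nm t : ℝ) ^ 3 := by nlinarith [sq_nonneg ((nm t : ℝ) - 1)]
  have h4 : (1 : ℝ) ≤ (nm q : ℝ) ^ 2 := one_le_pow₀ n2
  have h5 : (1 : ℝ) ≤ (nm t : ℝ) ^ 3 := one_le_pow₀ n3
  have h6 : (nm q : ℝ) ^ 2 ≤ (nm k : ℝ) * (nm q) ^ 2 := by nlinarith
  rcases h with h | h
  · have h7 : (nm t : ℝ) ^ 3 ≤ (nm k : ℝ) * (nm q) ^ 2 * (nm t) ^ 3 := by
      have h8 : (1 : ℝ) ≤ (nm k : ℝ) * (nm q) ^ 2 := by linarith
      nlinarith
    linarith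
  · have h7 : (nm k : ℝ) * (nm q) ^ 2 ≤ (nm k : ℝ) * (nm q) ^ 2 * (nm t) ^ 3 := by
      have h8 : (0 : ℝ) ≤ (nm k : ℝ) * (nm q) ^ 2 := by positivity
      nlinarith
    linarith

/-- **the mass for fixed `q`** -/
theorem mass_q {Y : ℝ} (hB : 0 < B) (hY : 0 ≤ Y) (hq : IsPrim q) (E1 : ℝ) :
    ∑ t ∈ pb E1, ∑ k ∈ pb Y, mt B Y J om T E0 R q t k ≤
      if (nm q : ℝ) ≤ Y then 450 * Y ^ (2 / 3 : ℝ) * B⁻¹ * Hp Y ^ 2 * (1 / nm q) *
        ∑ x ∈ J, MF om T E0 x else 0 := by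
  classical
  split_ifs with hqY
  · -- only t in pb Y matters
    have h1 : ∑ t ∈ pb E1, ∑ k ∈ pb Y, mt B Y J om T E0 R q t k ≤
        ∑ t ∈ pb Y, ∑ k ∈ pb Y, mt B Y J om T E0 R q t k := by
      have h2 : ∑ t ∈ pb E1, ∑ k ∈ pb Y, mt B Y J om T E0 R q t k =
          ∑ t ∈ (pb E1).filter (fun t => (nm t : ℝ) ≤ Y),
            ∑ k ∈ pb Y, mt B Y J om T E0 R q t k := by
        symm
        refine sum_subset (filter_subset _ _) fun t ht htn => ?_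
        rw [mem_filter, not_and, not_le] at htn
        have h3 := htn ht
        rw [mem_pb] at ht
        refine sum_eq_zero fun k hk => ?_
        rw [mem_pb] at hk
        unfold mt
        refine sum_eq_zero fun b _ => sum_eq_zero fun z _ => sum_eq_zero fun e _ => ?_
        rw [hm_zero hk.2 hq ht.2 (Or.inl h3), mul_zero]
      rw [h2]
      refine sum_le_sum_of_subset_of_nonneg (fun t ht => ?_) fun _ _ _ =>
        sum_nonneg fun _ _ => mt_nonneg _ _ _ _ _ _ _ _ _ _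
      rw [mem_filter, mem_pb] at ht
      rw [mem_pb]
      exact ⟨ht.2, ht.1.2⟩
    refine h1.trans ?_
    -- commute
    have h4 : ∑ t ∈ pb Y, ∑ k ∈ pb Y, mt B Y J om T E0 R q t k =
        ∑ z ∈ PP J R q, ∑ e ∈ S E0, az om q z * ‖T (xz q z).1 e (xz q z).2‖ ^ 2 *
          ∑ t ∈ pb Y, ∑ b ∈ pb Y, ∑ k ∈ pb Y, hm B Y q z.2.2.1 e t b k := by
      unfold mt
      have h5 : ∀ t ∈ pb Y, ∑ k ∈ pb Y, ∑ b ∈ pb Y, ∑ z ∈ PP J R q, ∑ e ∈ S E0,
          az om q z * ‖T (xz q z).1 e (xz q z).2‖ ^ 2 * hm B Y q z.2.2.1 e t b k =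
          ∑ z ∈ PP J R q, ∑ e ∈ S E0, ∑ b ∈ pb Y, ∑ k ∈ pb Y,
          az om q z * ‖T (xz q z).1 e (xz q z).2‖ ^ 2 * hm B Y q z.2.2.1 e t b k := by
        intro t _
        rw [sum_comm]
        rw [sum_congr rfl fun b _ => sum_comm]
        rw [sum_comm]
        refine sum_congr rfl fun z _ => ?_
        rw [sum_congr rfl fun b _ => sum_comm]
        rw [sum_comm]
      rw [sum_congr rfl h5, sum_comm]
      refine sum_congr rfl fun z _ => ?_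
      rw [sum_comm]
      refine sum_congr rfl fun e _ => ?_
      rw [mul_sum]
      refine sum_congr rfl fun t _ => ?_
      rw [mul_sum]
      refine sum_congr rfl fun b _ => ?_
      rw [mul_sum]
    rw [h4]
    have h6 : ∀ z ∈ PP J R q, ∑ e ∈ S E0, az om q z * ‖T (xz q z).1 e (xz q z).2‖ ^ 2 *
          ∑ t ∈ pb Y, ∑ b ∈ pb Y, ∑ k ∈ pb Y, hm B Y q z.2.2.1 e t b k ≤
        450 * Y ^ (2 / 3 : ℝ) * B⁻¹ * Hp Y ^ 2 * (1 / nm q) * MF om T E0 (xz q z) := by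
      intro z hz
      obtain ⟨⟨z1, z2, z3, z4⟩, z5, z6⟩ := mem_PP.mp hz
      have hg := S_pr z3
      have haz := az_nonneg om q z
      have hHp := Hp_nonneg Y
      have h7 : ∀ e ∈ S E0, az om q z * ‖T (xz q z).1 e (xz q z).2‖ ^ 2 *
          ∑ t ∈ pb Y, ∑ b ∈ pb Y, ∑ k ∈ pb Y, hm B Y q z.2.2.1 e t b k ≤
          az om q z * ‖T (xz q z).1 e (xz q z).2‖ ^ 2 *
          (150 * Y ^ (2 / 3 : ℝ) * (nm q : ℝ) ^ (-(4 : ℝ) / 3) * (1 / nm z.2.2.1) *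
        (B⁻¹ * Hp Y ^ 2 * ((tau e : ℝ) ^ 2 / nm e))) := by
        intro e he
        have he' : e ∈ S e.nm := by
          rw [mem_S (Nat.cast_nonneg _)]
          exact ⟨le_rfl, S_pr he⟩
        exact mul_le_mul_of_nonneg_left (sum_hm hB hY hq hg.1 hg.2 he') (by positivity)
      refine (sum_le_sum h7).trans ?_
      have h8 : ∑ e ∈ S E0, az om q z * ‖T (xz q z).1 e (xz q z).2‖ ^ 2 *
          (150 * Y ^ (2 / 3 : ℝ) * (nm q : ℝ) ^ (-(4 : ℝ) / 3) * (1 / nm z.2.2.1) *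
        (B⁻¹ * Hp Y ^ 2 * ((tau e : ℝ) ^ 2 / nm e))) =
          (az om q z * ((nm q : ℝ) ^ (-(4 : ℝ) / 3) * (1 / nm z.2.2.1))) *
          (150 * Y ^ (2 / 3 : ℝ) * B⁻¹ * Hp Y ^ 2 *
          ∑ e ∈ S E0, (tau e : ℝ) ^ 2 / nm e * ‖T (xz q z).1 e (xz q z).2‖ ^ 2) := by
        rw [mul_sum, mul_sum]
        refine sum_congr rfl fun e _ => ?_
        ring
      rw [h8]
      have h9 : 0 ≤ 150 * Y ^ (2 / 3 : ℝ) * B⁻¹ * Hp Y ^ 2 *
          ∑ e ∈ S E0, (tau e : ℝ) ^ 2 / nm e * ‖T (xz q z).1 e (xz q z).2‖ ^ 2 := by positivity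
      refine (mul_le_mul_of_nonneg_right (az_le hq hz) h9).trans (le_of_eq ?_)
      unfold MF
      ring
    refine (sum_le_sum h6).trans ?_
    rw [← mul_sum]
    have hHp := Hp_nonneg Y
    exact mul_le_mul_of_nonneg_left (sum_PP_le hq _ fun x _ => MF_nonneg om T E0 x)
      (by positivity)
  · refine le_of_eq (sum_eq_zero fun t ht => sum_eq_zero fun k hk => ?_)
    rw [mem_pb] at ht hk
    unfold mt
    refine sum_eq_zero fun b _ => sum_eq_zero fun z _ => sum_eq_zero fun e _ => ?_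
    rw [hm_zero hk.2 hq ht.2 (Or.inr (not_le.mp hqY)), mul_zero]

/-- **the mass** -/
theorem mass_le {Y : ℝ} (hB : 0 < B) (hY : 0 ≤ Y) (E1 : ℝ) :
    ∑ q ∈ S R, ∑ t ∈ pb E1, ∑ k ∈ pb Y, mt B Y J om T E0 R q t k ≤
      450 * Y ^ (2 / 3 : ℝ) * B⁻¹ * Hp Y ^ 3 * ∑ x ∈ J, MF om T E0 x := by
  classical
  have hHp := Hp_nonneg Y
  have hMF : 0 ≤ ∑ x ∈ J, MF om T E0 x := sum_nonneg fun x _ => MF_nonneg om T E0 x
  calc _ ≤ ∑ q ∈ S R, (if (nm q : ℝ) ≤ Y then 450 * Y ^ (2 / 3 : ℝ) * B⁻¹ * Hp Y ^ 2 *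
        (1 / nm q) * ∑ x ∈ J, MF om T E0 x else 0) :=
        sum_le_sum fun q hq => mass_q hB hY (S_pr hq).1 E1
    _ = ∑ q ∈ (S R).filter (fun q => (nm q : ℝ) ≤ Y), 450 * Y ^ (2 / 3 : ℝ) * B⁻¹ * Hp Y ^ 2 *
        (1 / nm q) * ∑ x ∈ J, MF om T E0 x := by rw [sum_filter]
    _ ≤ ∑ q ∈ pb Y, 450 * Y ^ (2 / 3 : ℝ) * B⁻¹ * Hp Y ^ 2 *
        (1 / nm q) * ∑ x ∈ J, MF om T E0 x := by
        refine sum_le_sum_of_subset_of_nonneg (fun q hq => ?_) fun _ _ _ => by positivity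
        rw [mem_filter] at hq
        rw [mem_pb]
        exact ⟨hq.2, (S_pr hq.1).1⟩
    _ = _ := by
        unfold Hp
        rw [← sum_mul, ← mul_sum]
        ring

end

end Crest.Agent.R017.E3M829
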