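import Crest.Agent.R017.E3Md_829

/-!
# Row 17, block C70, leaf E3 (helper829): the diagonal with the squarefree majorant, part E

* `tri_inj` : uniqueness of `k = k₁ q² t³`
* **`diag_maj`** : the diagonal with the majorant is at most the natural diagonal plus the mass
* **`cut_le`** : the cut mean square of `SteT` through the majorant
-/

set_option autoImplicit false

noncomputable section

open scoped ComplexConjugate
open Finset

namespace Crest.Agent.R017.E3M829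

open Crest.Agent.R012 Crest.Agent.R012.Eis Crest.Agent.R012.Gauss880
open Crest.Agent.R012.LS2 (S mem_S)
open Crest.Agent.R012.Mob705 (IsPP pdiv mem_pdiv cop mem_cop pb mem_pb)
open Crest.Agent.R012.Div277 (tau)
open Crest.Agent.R017.E1551 (nmpos)
open Crest.Agent.R017.PX764 Crest.Agent.R017.C70 Crest.Agent.R017.GrB829
open Crest.Agent.R017.GrD829 Crest.Agent.R017.E3s164 Crest.Agent.R017.E3A164
open Crest.Agent.R017.Maj829 (mj mj_sq_le sqf_le_mj mj_sqf)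

lemma mult_tri {p k q t : Eis} (hp : IsPP p) (hk : IsPrim k) (hq : IsPrim q) (ht : IsPrim t) :
    multiplicity p (k * q ^ 2 * t ^ 3) =
      multiplicity p k + 2 * multiplicity p q + 3 * multiplicity p t := by
  have e : k * q ^ 2 * t ^ 3 = k * (q * q) * (t * (t * t)) := by ring
  have hq2 := mul_ne_zero hq.ne_zero hq.ne_zero
  have ht2 := mul_ne_zero ht.ne_zero ht.ne_zero
  rw [e, mult_mul hp.2 (mul_ne_zero hk.ne_zero hq2) (mul_ne_zero ht.ne_zero ht2),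
    mult_mul hp.2 hk.ne_zero hq2, mult_mul hp.2 hq.ne_zero hq.ne_zero,
    mult_mul hp.2 ht.ne_zero ht2, mult_mul hp.2 ht.ne_zero ht.ne_zero]
  omega

/-- the admissible triples -/
def Tri (k q t : Eis) : Prop :=
  IsPrim k ∧ Squarefree k ∧ IsPrim q ∧ Squarefree q ∧ IsCoprime k q ∧ IsPrim t

lemma tri_inj {k q t k' q' t' : Eis} (h : Tri k q t) (h' : Tri k' q' t')
    (he : k * q ^ 2 * t ^ 3 = k' * q' ^ 2 * t' ^ 3) : k = k' ∧ q = q' ∧ t = t' := by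
  obtain ⟨a1, a2, a3, a4, a5, a6⟩ := h
  obtain ⟨b1, b2, b3, b4, b5, b6⟩ := h'
  have key : ∀ p, IsPP p → multiplicity p k = multiplicity p k' ∧
      multiplicity p q = multiplicity p q' ∧ multiplicity p t = multiplicity p t' := by
    intro p hp
    have h1 := mult_tri hp a1 a3 a6
    have h2 := mult_tri hp b1 b3 b6
    have m1 := mult_le_one hp a1 a2
    have m2 := mult_le_one hp a3 a4
    have m3 := mult_le_one hp b1 b2
    have m4 := mult_le_one hp b3 b4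
    have c1 : multiplicity p k = 0 ∨ multiplicity p q = 0 := by
      by_contra hh
      push Not at hh
      have d1 : p ∣ k := by by_contra hd; exact hh.1 (mult_zero_iff.mpr hd)
      have d2 : p ∣ q := by by_contra hd; exact hh.2 (mult_zero_iff.mpr hd)
      exact hp.2.not_isUnit (a5.isUnit_of_dvd' d1 d2)
    have c2 : multiplicity p k' = 0 ∨ multiplicity p q' = 0 := by
      by_contra hh
      push Not at hh
      have d1 : p ∣ k' := by by_contra hd; exact hh.1 (mult_zero_iff.mpr hd)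
      have d2 : p ∣ q' := by by_contra hd; exact hh.2 (mult_zero_iff.mpr hd)
      exact hp.2.not_isUnit (b5.isUnit_of_dvd' d1 d2)
    rw [he] at h1
    generalize multiplicity p k = x1 at *
    generalize multiplicity p q = x2 at *
    generalize multiplicity p t = x3 at *
    generalize multiplicity p k' = y1 at *
    generalize multiplicity p q' = y2 at *
    generalize multiplicity p t' = y3 at *
    have f1 : x1 = 0 ∨ x1 = 1 := by omega
    have f2 : x2 = 0 ∨ x2 = 1 := by omega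
    have f3 : y1 = 0 ∨ y1 = 1 := by omega
    have f4 : y2 = 0 ∨ y2 = 1 := by omega
    rcases f1 with rfl | rfl <;> rcases f2 with rfl | rfl <;> rcases f3 with rfl | rfl <;>
      rcases f4 with rfl | rfl <;> omega
  exact ⟨eq_of_mult a1 b1 fun p hp => (key p hp).1, eq_of_mult a3 b3 fun p hp => (key p hp).2.1,
    eq_of_mult a6 b6 fun p hp => (key p hp).2.2⟩

open Classical in
/-- the natural mean square -/
def MSr (w : ℝ → ℝ) (K : ℝ) (j b : Eis) (F : Eis → ℂ) : ℝ :=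
  ∑' k : Eis, if IsPrim k ∧ IsCoprime k b then
    w ((nm k : ℝ) / K) * (‖th (j * k)‖ ^ 2 * ‖F k‖ ^ 2) else 0

open Classical in
/-- the truncated Moebius sum of `T` -/
def DTx (E0 : ℝ) (T : Eis → Eis → Eis → ℂ) (x : Eis × Eis) (k : Eis) : ℂ :=
  ∑ e ∈ (S E0).filter (fun e => e ∣ k), (muE e : ℂ) * T x.1 e x.2

section

variable {J : Finset (Eis × Eis)} {om : Eis × Eis → ℂ} {T : Eis → Eis → Eis → ℂ} {q t k₁ : Eis}
  {w : ℝ → ℝ} {W b₀ K B E0 R τ : ℝ}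

open Classical in
lemma MSr_fin (hw : W0 w W b₀) (hK : 0 < K) (j b : Eis) (F : Eis → ℂ) :
    MSr w K j b F = ∑ k ∈ pb (b₀ * K), if IsCoprime k b then
      w ((nm k : ℝ) / K) * (‖th (j * k)‖ ^ 2 * ‖F k‖ ^ 2) else 0 := by
  unfold MSr
  rw [tsum_eq_sum (s := pb (b₀ * K))]
  · refine Finset.sum_congr rfl fun k hk => ?_
    rw [mem_pb] at hk
    by_cases h : IsCoprime k b
    · rw [if_pos ⟨hk.2, h⟩, if_pos h]
    · rw [if_neg (fun h' => h h'.2), if_neg h]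
  · intro k hk
    split_ifs with hc
    · have h1 : b₀ * K < nm k := by
        by_contra hh
        exact hk (mem_pb.2 ⟨not_lt.1 hh, hc.1⟩)
      rw [hw.supp, zero_mul]
      rwa [lt_div_iff₀ hK]
    · rfl

open Classical in
/-- the tsum over `k₁` is finite -/
lemma tsum_k1 (hw : W0 w W b₀) (hK : 0 < K) (hq : IsPrim q) (ht : IsPrim t) (F : Eis → ℝ) :
    (∑' k₁ : Eis, if IsPrim k₁ ∧ IsCoprime k₁ q then
      mj B k₁ ^ 2 * w ((nm (k₁ * q ^ 2 * t ^ 3) : ℝ) / K) * F k₁ else 0) =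
    ∑ k₁ ∈ pb (b₀ * K), if IsPrim k₁ ∧ IsCoprime k₁ q then
      mj B k₁ ^ 2 * w ((nm (k₁ * q ^ 2 * t ^ 3) : ℝ) / K) * F k₁ else 0 := by
  refine tsum_eq_sum fun k hk => ?_
  split_ifs with hc
  · have h1 : b₀ * K < nm k := by
      by_contra hh
      exact hk (mem_pb.2 ⟨not_lt.1 hh, hc.1⟩)
    rw [hw.supp, mul_zero, zero_mul]
    rw [lt_div_iff₀ hK]
    refine h1.trans_le ?_
    rw [nm_mul, nm_mul, nm_pow, nm_pow]
    push_cast
    have n1 := one_le hc.1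
    have n2 : (1 : ℝ) ≤ (nm q : ℝ) ^ 2 := one_le_pow₀ (one_le hq)
    have n3 : (1 : ℝ) ≤ (nm t : ℝ) ^ 3 := one_le_pow₀ (one_le ht)
    have n4 : (nm k : ℝ) ≤ (nm k : ℝ) * (nm q) ^ 2 := by nlinarith
    have n5 : (nm k : ℝ) * (nm q) ^ 2 ≤ (nm k : ℝ) * (nm q) ^ 2 * (nm t) ^ 3 := by
      have : (0 : ℝ) ≤ (nm k : ℝ) * (nm q) ^ 2 := by positivity
      nlinarith
    linarith
  · rfl

open Classical in
lemma norm_Tx (k : Eis) (x : Eis × Eis) (hxp : IsPrim x.1) :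
    ‖Tx om E0 T k x‖ ^ 2 ≤ ‖om x‖ ^ 2 * (if IsCoprime k x.1 then
      ‖th (x.2 * k)‖ ^ 2 * ‖DTx E0 T x k‖ ^ 2 else 0) := by
  have e1 : ‖∑ e ∈ (S E0).filter (fun e => e ∣ k), (muE e : ℂ) * conj (T x.1 e x.2)‖ =
      ‖DTx E0 T x k‖ := by
    unfold DTx
    rw [← RCLike.norm_conj (∑ e ∈ (S E0).filter (fun e => e ∣ k), (muE e : ℂ) * T x.1 e x.2),
      map_sum]
    congr 1
    refine sum_congr rfl fun e _ => ?_
    rw [map_mul, map_intCast]
  unfold Tx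
  rw [norm_mul, norm_mul, norm_mul, RCLike.norm_conj, RCLike.norm_conj, e1]
  split_ifs with h
  · have h1 : ‖sy k x.1‖ ≤ 1 := norm_sy_le' hxp
    calc (‖om x‖ * (‖sy k x.1‖ * ‖th (x.2 * k)‖ * ‖DTx E0 T x k‖)) ^ 2
        ≤ (‖om x‖ * (1 * ‖th (x.2 * k)‖ * ‖DTx E0 T x k‖)) ^ 2 := by gcongr
      _ = _ := by ring
  · rw [(syG.eq_zero k x.1 hxp).mpr h]
    simp

open Classical in
/-- the squarefree part -/
theorem sqf_part (hw : W0 w W b₀) (hK : 0 < K) (hJ : OKJ J) (E1 : ℝ) :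
    ∑ q ∈ S R, ∑ t ∈ pb E1, ∑ k ∈ pb (b₀ * K), (if Squarefree k ∧ IsCoprime k q then
        w ((nm (k * q ^ 2 * t ^ 3) : ℝ) / K) * Dg J om T E0 R q t k else 0) ≤
      ∑ x ∈ J, ‖om x‖ ^ 2 * MSr w K x.2 x.1 (DTx E0 T x) := by
  set Y := b₀ * K with hY
  set F : Eis → ℝ := fun k => w ((nm k : ℝ) / K) * ∑ x ∈ J, ‖Tx om E0 T k x‖ ^ 2 with hF
  have hF0 : ∀ k, 0 ≤ F k := fun k => mul_nonneg (hw.nn _) (by positivity)
  -- the triples
  set A : Finset (Eis × Eis × Eis) := ((S R) ×ˢ ((pb E1) ×ˢ (pb Y))).filter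
    (fun u => Squarefree u.2.2 ∧ IsCoprime u.2.2 u.1) with hA
  set φ : Eis × Eis × Eis → Eis := fun u => u.2.2 * u.1 ^ 2 * u.2.1 ^ 3 with hφ
  have hmem : ∀ u ∈ A, Tri u.2.2 u.1 u.2.1 := by
    intro u hu
    rw [hA, mem_filter, mem_product, mem_product] at hu
    exact ⟨(mem_pb.mp hu.1.2.2).2, hu.2.1, (S_pr hu.1.1).1, (S_pr hu.1.1).2, hu.2.2,
      (mem_pb.mp hu.1.2.1).2⟩
  have h1 : ∑ q ∈ S R, ∑ t ∈ pb E1, ∑ k ∈ pb Y, (if Squarefree k ∧ IsCoprime k q then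
        w ((nm (k * q ^ 2 * t ^ 3) : ℝ) / K) * Dg J om T E0 R q t k else 0) ≤
      ∑ u ∈ A, F (φ u) := by
    rw [hA, sum_filter, sum_product]
    refine sum_le_sum fun q hq => ?_
    rw [sum_product]
    refine sum_le_sum fun t ht => sum_le_sum fun k hk => ?_
    simp only
    by_cases hc : Squarefree k ∧ IsCoprime k q
    · rw [if_pos hc, if_pos hc]
      exact mul_le_mul_of_nonneg_left (Dg_sqf hJ E0 (mem_pb.mp hk).2 hc.1 (S_pr hq).1
        (mem_pb.mp ht).2) (hw.nn _)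
    · rw [if_neg hc, if_neg hc]
  have hinj : Set.InjOn φ (A : Set (Eis × Eis × Eis)) := by
    intro u hu v hv huv
    obtain ⟨e1, e2, e3⟩ := tri_inj (hmem u hu) (hmem v hv) huv
    exact Prod.ext e2 (Prod.ext e3 e1)
  have h2 : ∑ u ∈ A, F (φ u) ≤ ∑ k ∈ pb Y, F k := by
    rw [← sum_image (f := F) hinj]
    have h3 : ∑ k ∈ A.image φ, F k = ∑ k ∈ (A.image φ).filter (fun k => (nm k : ℝ) ≤ Y), F k := by
      symm
      refine sum_subset (filter_subset _ _) fun k hk hkn => ?_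
      rw [mem_filter, not_and, not_le] at hkn
      have h4 := hkn hk
      simp only [hF]
      rw [hw.supp, zero_mul]
      rw [lt_div_iff₀ hK]
      exact h4
    rw [h3]
    refine sum_le_sum_of_subset_of_nonneg (fun k hk => ?_) fun k _ _ => hF0 k
    rw [mem_filter, mem_image] at hk
    obtain ⟨⟨u, hu, rfl⟩, hk2⟩ := hk
    obtain ⟨a1, a2, a3, a4, a5, a6⟩ := hmem u hu
    exact mem_pb.mpr ⟨hk2, (a1.mul (a3.pow 2)).mul (a6.pow 3)⟩
  refine (h1.trans h2).trans ?_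
  have h5 : ∀ x ∈ J, ‖om x‖ ^ 2 * MSr w K x.2 x.1 (DTx E0 T x) =
      ∑ k ∈ pb Y, ‖om x‖ ^ 2 * (if IsCoprime k x.1 then
      w ((nm k : ℝ) / K) * (‖th (x.2 * k)‖ ^ 2 * ‖DTx E0 T x k‖ ^ 2) else 0) := by
    intro x _
    rw [MSr_fin hw hK, mul_sum]
  rw [sum_congr rfl h5, sum_comm]
  refine sum_le_sum fun k _ => ?_
  simp only [hF]
  rw [mul_sum]
  refine sum_le_sum fun x hx => ?_
  have h6 := norm_Tx (om := om) (T := T) (E0 := E0) k x (hJ.prim x hx)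
  calc w ((nm k : ℝ) / K) * ‖Tx om E0 T k x‖ ^ 2
      ≤ w ((nm k : ℝ) / K) * (‖om x‖ ^ 2 * (if IsCoprime k x.1 then
      ‖th (x.2 * k)‖ ^ 2 * ‖DTx E0 T x k‖ ^ 2 else 0)) := mul_le_mul_of_nonneg_left h6 (hw.nn _)
    _ = _ := by split_ifs <;> ring

open Classical in
/-- **the diagonal with the majorant** -/
theorem diag_maj (hw : W0 w W b₀) (hb : 0 ≤ b₀) (hK : 0 < K) (hB : 1 ≤ B) (hJ : OKJ J)
    (hE : 0 ≤ E0) (hT : ∀ d e j, T d e j ≠ 0 → IsCoprime j e) (E1 : ℝ) (hτ0 : 0 ≤ τ)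
    (hτ : ∀ m : Eis, (nm m : ℝ) ≤ b₀ * K → (tau m : ℝ) ≤ τ) :
    ∑ q ∈ S R, ∑ t ∈ pb E1, (∑' k₁ : Eis, if IsPrim k₁ ∧ IsCoprime k₁ q then
      mj B k₁ ^ 2 * w ((nm (k₁ * q ^ 2 * t ^ 3) : ℝ) / K) * Dg J om T E0 R q t k₁ else 0) ≤
    ∑ x ∈ J, ‖om x‖ ^ 2 * MSr w K x.2 x.1 (DTx E0 T x) +
      450 * W * τ ^ 3 * (b₀ * K) ^ (2 / 3 : ℝ) * B⁻¹ * Hp (b₀ * K) ^ 3 *
        ∑ x ∈ J, MF om T E0 x := by
  have hY : 0 ≤ b₀ * K := by positivity
  have hW := hw.nonneg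
  have h1 : ∀ q ∈ S R, ∀ t ∈ pb E1, (∑' k₁ : Eis, if IsPrim k₁ ∧ IsCoprime k₁ q then
      mj B k₁ ^ 2 * w ((nm (k₁ * q ^ 2 * t ^ 3) : ℝ) / K) * Dg J om T E0 R q t k₁ else 0) ≤
      ∑ k ∈ pb (b₀ * K), ((if Squarefree k ∧ IsCoprime k q then
        w ((nm (k * q ^ 2 * t ^ 3) : ℝ) / K) * Dg J om T E0 R q t k else 0) +
        W * τ ^ 3 * mt B (b₀ * K) J om T E0 R q t k) := by
    intro q hq t ht
    rw [tsum_k1 hw hK (S_pr hq).1 (mem_pb.mp ht).2]
    refine sum_le_sum fun k hk => ?_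
    exact ms_le hw hK hB hJ hE hT (mem_pb.mp hk).2 (S_pr hq).1 (mem_pb.mp ht).2 hτ
  refine (sum_le_sum fun q hq => sum_le_sum fun t ht => h1 q hq t ht).trans ?_
  simp_rw [sum_add_distrib]
  refine add_le_add (sqf_part hw hK hJ E1) ?_
  simp_rw [← mul_sum]
  have h2 := mass_le (J := J) (om := om) (T := T) (E0 := E0) (R := R) (B := B)
    (lt_of_lt_of_le one_pos hB) hY E1
  calc W * τ ^ 3 * ∑ q ∈ S R, ∑ t ∈ pb E1, ∑ k ∈ pb (b₀ * K), mt B (b₀ * K) J om T E0 R q t k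
      ≤ W * τ ^ 3 * (450 * (b₀ * K) ^ (2 / 3 : ℝ) * B⁻¹ * Hp (b₀ * K) ^ 3 *
          ∑ x ∈ J, MF om T E0 x) := mul_le_mul_of_nonneg_left h2 (by positivity)
    _ = _ := by ring

/-- no large cube divisors -/
def Cut (E1 : ℝ) (k : Eis) : Prop := ∀ e, IsPrim e → e ^ 3 ∣ k → (nm e : ℝ) ≤ E1

open Classical in
/-- **the cut mean square** -/
theorem cut_le (hw : W0 w W b₀) (hK : 0 < K) (hB : 1 ≤ B) (hJ : OKJ J)
    (hR : ∀ x ∈ J, (nm x.2 : ℝ) ≤ R) (E0 E1 : ℝ) :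
    (∑' k : Eis, if IsPrim k ∧ Cut E1 k then
      w ((nm k : ℝ) / K) * ‖SteT J om E0 T k‖ ^ 2 else 0) ≤
    ∑ q ∈ S R, ∑ t ∈ pb E1, (∑' k₁ : Eis, if IsPrim k₁ ∧ IsCoprime k₁ q then
      mj B k₁ ^ 2 * w ((nm (k₁ * q ^ 2 * t ^ 3) : ℝ) / K) *
        ‖∑ y ∈ Ys J E0 R, Fy J om T q t k₁ y‖ ^ 2 else 0) := by
  set Y := b₀ * K with hY
  -- the left side
  have h1 : (∑' k : Eis, if IsPrim k ∧ Cut E1 k then
      w ((nm k : ℝ) / K) * ‖SteT J om E0 T k‖ ^ 2 else 0) =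
      ∑ k ∈ (pb Y).filter (fun k => Cut E1 k ∧ SteT J om E0 T k ≠ 0),
        w ((nm k : ℝ) / K) * ‖SteT J om E0 T k‖ ^ 2 := by
    rw [tsum_eq_sum (s := pb Y), sum_filter]
    · refine sum_congr rfl fun k hk => ?_
      rw [mem_pb] at hk
      by_cases h : Cut E1 k
      · by_cases h2 : SteT J om E0 T k = 0
        · rw [if_pos ⟨hk.2, h⟩, if_neg (fun h' => h'.2 h2), h2]; simp
        · rw [if_pos ⟨hk.2, h⟩, if_pos ⟨h, h2⟩]
      · rw [if_neg (fun h' => h h'.2), if_neg (fun h' => h h'.1)]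
    · intro k hk
      split_ifs with hc
      · have h1 : b₀ * K < nm k := by
          by_contra hh
          exact hk (mem_pb.2 ⟨not_lt.1 hh, hc.1⟩)
        rw [hw.supp, zero_mul]
        rwa [lt_div_iff₀ hK]
      · rfl
  rw [h1]
  -- the decomposition
  have hdec : ∀ k : Eis, ∃ u : Eis × Eis × Eis, IsPrim k →
      Tri u.2.2 u.1 u.2.1 ∧ k = u.2.2 * u.1 ^ 2 * u.2.1 ^ 3 := by
    intro k
    by_cases hk : IsPrim k
    · obtain ⟨k1, k2, m, p1, p2, pm, s1, s2, hcop, he⟩ := Char766.exists_prim_cubic_decomp hk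
      exact ⟨(k2, m, k1), fun _ => ⟨⟨p1, s1, p2, s2, hcop, pm⟩, he⟩⟩
    · exact ⟨0, fun h => absurd h hk⟩
  choose i hi using hdec
  set A : Finset (Eis × Eis × Eis) := ((S R) ×ˢ ((pb E1) ×ˢ (pb Y))).filter
    (fun u => Squarefree u.2.2 ∧ IsCoprime u.2.2 u.1) with hA
  set φ : Eis × Eis × Eis → Eis := fun u => u.2.2 * u.1 ^ 2 * u.2.1 ^ 3 with hφ
  set F : Eis → ℝ := fun k => w ((nm k : ℝ) / K) * ‖SteT J om E0 T k‖ ^ 2 with hF
  have hF0 : ∀ k, 0 ≤ F k := fun k => mul_nonneg (hw.nn _) (by positivity)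
  have h2 : ∑ k ∈ (pb Y).filter (fun k => Cut E1 k ∧ SteT J om E0 T k ≠ 0), F k ≤
      ∑ u ∈ A, F (φ u) := by
    have hinj : Set.InjOn i ((pb Y).filter (fun k => Cut E1 k ∧ SteT J om E0 T k ≠ 0) :
        Set Eis) := by
      intro k hk k' hk' h
      rw [Finset.mem_coe, mem_filter, mem_pb] at hk hk'
      rw [(hi k hk.1.2).2, (hi k' hk'.1.2).2, h]
    have h3 : ∑ k ∈ (pb Y).filter (fun k => Cut E1 k ∧ SteT J om E0 T k ≠ 0), F k =
        ∑ u ∈ ((pb Y).filter (fun k => Cut E1 k ∧ SteT J om E0 T k ≠ 0)).image i, F (φ u) := by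
      rw [sum_image hinj]
      refine sum_congr rfl fun k hk => ?_
      rw [mem_filter, mem_pb] at hk
      congr 1
      exact (hi k hk.1.2).2
    rw [h3]
    refine sum_le_sum_of_subset_of_nonneg (fun u hu => ?_) fun u _ _ => hF0 _
    obtain ⟨k, hk, rfl⟩ := mem_image.mp hu
    rw [mem_filter, mem_pb] at hk
    obtain ⟨⟨hkY, hkp⟩, hcut, hne⟩ := hk
    obtain ⟨⟨a1, a2, a3, a4, a5, a6⟩, he⟩ := hi k hkp
    rw [hA, mem_filter, mem_product, mem_product]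
    have hR' : (nm (i k).1 : ℝ) ≤ R := by
      have h4 : ∃ x ∈ J, (i k).1 ∣ x.2 := by
        by_contra hh
        push Not at hh
        apply hne
        unfold SteT
        refine sum_eq_zero fun x hx => ?_
        have h5 := th_zero_of_not_dvd (hJ.jc x hx) a1 a2 a3 a4 a5 a6 (hh x hx)
        rw [← he] at h5
        rw [h5]
        simp
      obtain ⟨x, hx, hd⟩ := h4
      refine le_trans ?_ (hR x hx)
      exact_mod_cast Div277.nm_le_of_dvd (GrE579.JC.ne_zero (hJ.jc x hx)) hd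
    have hR0 : 0 ≤ R := (Nat.cast_nonneg _).trans hR'
    refine ⟨⟨(mem_S hR0).mpr ⟨hR', a3, a4⟩, mem_pb.mpr ⟨hcut _ a6 ?_, a6⟩,
      mem_pb.mpr ⟨le_trans ?_ hkY, a1⟩⟩, a2, a5⟩
    · exact Dvd.intro_left _ he.symm
    · have : (i k).2.2 ∣ k := ⟨(i k).1 ^ 2 * (i k).2.1 ^ 3, he.trans (by ring)⟩
      exact_mod_cast Div277.nm_le_of_dvd hkp.ne_zero this
  refine h2.trans ?_
  rw [hA, sum_filter, sum_product]
  refine sum_le_sum fun q hq => ?_
  rw [sum_product]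
  refine sum_le_sum fun t ht => ?_
  have hqp := (S_pr hq).1
  have htp := (mem_pb.mp ht).2
  rw [tsum_k1 hw hK hqp htp]
  refine sum_le_sum fun k hk => ?_
  have hkp := (mem_pb.mp hk).2
  simp only
  by_cases hc : Squarefree k ∧ IsCoprime k q
  · rw [if_pos hc, if_pos ⟨hkp, hc.2⟩]
    have h6 := conj_SteT_eq (om := om) (T := T) hJ hR E0 hkp hc.1 hqp (S_pr hq).2 hc.2 htp
    have h7 : ‖SteT J om E0 T (k * q ^ 2 * t ^ 3)‖ = ‖∑ y ∈ Ys J E0 R, Fy J om T q t k y‖ := by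
      rw [← RCLike.norm_conj (SteT J om E0 T (k * q ^ 2 * t ^ 3)), h6, norm_mul, RCLike.norm_conj,
        norm_G hkp hc.1, one_mul]
    simp only [hF, hφ]
    rw [mj_sqf hB hkp hc.1, h7, one_pow, one_mul]
  · rw [if_neg hc]
    split_ifs with h8
    · exact mul_nonneg (mul_nonneg (by positivity) (hw.nn _)) (by positivity)
    · exact le_rfl

end

end Crest.Agent.R017.E3M829
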