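import Crest.Agent.R017.OTc_551
import Crest.Agent.R017.I1j_146

/-!
# Row 17, C.REMg, R8 (E3): the T-lines of OFF for lists (helper551; text #27572 of helper146)

* `SBc` : the cells with a level function `Phi`
* `numS` : the joint numbers of a natural list from `SBc`
* **`TNL`** : `TN ≤ C X^ε e^(-n/3) Phi (log W)` for a dominated sequence
-/

set_option autoImplicit false

noncomputable section

open Finset MeasureTheory
open scoped ComplexConjugate Classical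

namespace Crest.Agent.R017.OT551

open Crest.Agent.R012 Crest.Agent.R012.Eis Crest.Agent.R012.MC
open Crest.Agent.R012.LS2 (S mem_S)
open Crest.Agent.R017.CM106 (CS FS TG)
open Crest.Agent.R017.C70
open Crest.Agent.R017.HP842 (Pc pc sqc alL)
open Crest.Agent.R017.B770
open Crest.Agent.R017.FE47 (PU cx)
open Crest.Agent.R017.Prov71
open Crest.Agent.R017.Leg381 (Pf alF SF LF natl alF_natl)
open Crest.Agent.R017.I1146 (ChN LN cN SN numJ Dom cN_nonneg)
open Crest.Agent.R017.E1551 hiding tau Dg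
open Crest.Agent.R017.E3D579 (TE0)
open Crest.Agent.R017.E3T829 (cg)

/-- **the cells with a level function** -/
def SBc (h : ℝ → ℝ) (P : DPar) (q : Eis) (ps : List Pq) (G r M T E : ℝ) (Phi : ℝ → ℝ) : Prop :=
  ∀ g : Eis, IsPrim g → (nm g : ℝ) ≤ G → ∀ (b l : ℝ) (ps' : List Pq), 0 ≤ b → 0 ≤ l →
    List.Forall₂ (ChN r) ps' ps → |LN ps' - (LN ps - Real.log (nm g) - b)| ≤ r →
    l ≤ T - 2 * Real.log (nm g) + b + r →
    SN (q * g) P h l ps' ≤ cN ps' ps ^ M * (Phi (l + 2 * Real.log (nm g) - b) *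
      Real.exp (-2 * Real.log (nm g) - b + 2 * max 0 (b - E)))

/-- the joint numbers from the cells -/
theorem numS {h : ℝ → ℝ} {c : ℝ} (hpu : PU h c) (N : ℕ) {B₀ : ℝ} (hB₀ : 0 ≤ B₀) {ε : ℝ}
    (hε : 0 < ε) {M : ℝ} (hM : 0 ≤ M) : ∃ C r : ℝ, 0 ≤ C ∧ 0 ≤ r ∧ ∀ X : ℝ, 3 ≤ X →
    ∀ (P : DPar), P.OK → ∀ (q : Eis) (ps : List Pq), ps.length ≤ N →
    (∀ p ∈ ps, 0 ≤ p.z ∧ p.z ≤ Real.log X) → ∀ (T E : ℝ) (Phi : ℝ → ℝ), (∀ v, 0 ≤ Phi v) →
    Monotone Phi → (∀ v s, 0 ≤ s → Phi (v + s) ≤ Real.exp s * Phi v) →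
    SBc h P q ps (X ^ B₀) r M T E Phi →
    ∀ g : Eis, IsPrim g → (nm g : ℝ) ≤ X ^ B₀ →
    ∀ (B V Y t : ℝ) (Q : Eis → Prop), 1 ≤ B → B ≤ X ^ B₀ → 1 ≤ V → V ≤ X → 0 ≤ Y →
    Real.log V ≤ T - 2 * Real.log (nm g) →
    JB Y (sqc q (alF 1 1 P h (natl ps))) Q g B V t ≤
      C * X ^ ε * Phi (Real.log V + 2 * Real.log (nm g)) / (nm g : ℝ) ^ 2 *
        (B⁻¹ * (max 1 (B / Real.exp E)) ^ 2) * (1 + |t|) ^ ((N : ℝ) * M) := by
  obtain ⟨C, r, hC, hr, H⟩ := numJ hpu N hB₀ hε hM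
  refine ⟨C * Real.exp (3 * r), 2 * r, by positivity, by positivity, ?_⟩
  intro X hX P hP q ps hN hz T E Phi hPhi hmon hexp hcl g hg hgX B V Y t Q hB1 hBX hV1 hVX hY hVT
  have hgn : (0 : ℝ) < nm g := by exact_mod_cast nm_pos.2 hg.ne_zero
  have hB0 : 0 < B := by linarith
  have hV0 : 0 < V := by linarith
  set γ := Real.log (nm g) with hγ
  set b := Real.log B with hb
  set k := Real.log V with hk
  have hb0 : 0 ≤ b := Real.log_nonneg hB1
  set F : ℝ := Real.exp (3 * r) * (Phi (k + 2 * γ) *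
    Real.exp (-2 * γ - b + 2 * max 0 (b - E))) with hF
  have hF0 : 0 ≤ F := by
    have := hPhi (k + 2 * γ)
    positivity
  have key := H X hX P hP q ps hN hz g hg hgX B V Y t Q hB1 hBX hV1 hVX hY F 0 hF0 ?_
  · refine key.trans (le_of_eq ?_)
    have e1 : Real.exp (-2 * γ - b + 2 * max 0 (b - E)) =
        ((nm g : ℝ) ^ 2)⁻¹ * (B⁻¹ * (max 1 (B / Real.exp E)) ^ 2) := by
      have e2 : Real.exp (-2 * γ) = ((nm g : ℝ) ^ 2)⁻¹ := by
        have : -2 * γ = -(γ + γ) := by ring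
        rw [this, Real.exp_neg, Real.exp_add, hγ, Real.exp_log hgn, sq]
      have e3 : Real.exp (-b) = B⁻¹ := by rw [Real.exp_neg, hb, Real.exp_log hB0]
      have e4 : Real.exp (2 * max 0 (b - E)) = (max 1 (B / Real.exp E)) ^ 2 := by
        have h5 : Real.exp (max 0 (b - E)) = max 1 (B / Real.exp E) := by
          rw [Real.exp_monotone.map_max, Real.exp_zero, Real.exp_sub, hb, Real.exp_log hB0]
        rw [two_mul, Real.exp_add, h5, sq]
      have : -2 * γ - b + 2 * max 0 (b - E) = -2 * γ + (-b + 2 * max 0 (b - E)) := by ring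
      rw [this, Real.exp_add, Real.exp_add, e2, e3, e4]
    rw [hF, e1, Real.exp_zero]
    ring
  · intro l ps' hl hch h1 h2
    have h1' := abs_le.1 h1
    have h2' := abs_le.1 h2
    have h3 := hcl g hg hgX b l ps' hb0 hl
      (hch.imp fun _ _ => I1146.ChN.mono (by linarith)) (h1.trans (by linarith)) (by linarith)
    refine h3.trans ?_
    have h4 : Phi (l + 2 * γ - b) ≤ Real.exp (2 * r) * Phi (k + 2 * γ) :=
      (hmon (by linarith : l + 2 * γ - b ≤ (k + 2 * γ) + 2 * r)).trans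
        (hexp _ _ (by positivity))
    have h5 : 1 ≤ Real.exp (0 + (LN ps' + γ + b - LN ps) + r) :=
      Real.one_le_exp (by linarith)
    have h6 : 0 ≤ cN ps' ps ^ M := Real.rpow_nonneg (cN_nonneg _ _) _
    have h7 := hPhi (k + 2 * γ)
    calc cN ps' ps ^ M * (Phi (l + 2 * γ - b) *
          Real.exp (-2 * γ - b + 2 * max 0 (b - E))) ≤
          cN ps' ps ^ M * ((Real.exp (2 * r) * Phi (k + 2 * γ)) *
          Real.exp (-2 * γ - b + 2 * max 0 (b - E))) := by gcongr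
      _ ≤ cN ps' ps ^ M * ((Real.exp (2 * r) * Phi (k + 2 * γ)) *
          Real.exp (-2 * γ - b + 2 * max 0 (b - E))) *
          Real.exp (0 + (LN ps' + γ + b - LN ps) + r) := by
          refine le_mul_of_one_le_right ?_ h5
          positivity
      _ = _ := by
          have e5 : Real.exp (3 * r) = Real.exp (2 * r) * Real.exp r := by
            rw [← Real.exp_add]; ring_nf
          rw [hF, e5, Real.exp_add (0 + (LN ps' + γ + b - LN ps)) r]
          ring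

/-- **the T-lines of a dominated sequence** : the cube-free lines and all lines -/
theorem TNL {h : ℝ → ℝ} {c : ℝ} (hpu : PU h c) (N : ℕ) {R ε M B₂ : ℝ} (hR : 0 ≤ R)
    (hε : 0 < ε) (hM : 0 ≤ M) (hB₂ : 0 < B₂) {ν Dd : ℝ} (hν : 1 ≤ ν) (hDd : 0 ≤ Dd) :
    ∃ C r : ℝ, 0 ≤ C ∧ 0 ≤ r ∧ ∀ X : ℝ, 3 ≤ X → ∀ (P : DPar), P.OK → ∀ (q : Eis) (ps : List Pq),
      ps.length ≤ N → (∀ p ∈ ps, 0 ≤ p.z ∧ p.z ≤ Real.log X) →
      ∀ (Y W T E0 : ℝ) (Phi : ℝ → ℝ), 1 ≤ Y → Y ≤ X ^ B₂ → W * ν ≤ X →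
      Real.log (W * ν) ≤ T → 0 < E0 → (∀ v, 0 ≤ Phi v) → Monotone Phi →
      (∀ v s, 0 ≤ s → Phi (v + s) ≤ Real.exp s * Phi v) →
      SBc h P q ps (X ^ B₂) r M T (Real.log E0) Phi →
      ∀ al : Eis → ℂ, Dom ν Dd (sqc q (alF 1 1 P h (natl ps))) al →
      Adm Y (Real.exp (LN ps)) R al →
      (∀ (Ds EE : Finset Eis) (om : Eis → ℝ) (As : Eis → Eis → Finset Eis) (dl : Eis → Eis),
        (∀ d ∈ Ds, IsPrim d) → (∀ e ∈ EE, e ∈ S E0) → 0 ≤ om 1 → om 1 ≤ 1 →
        (∀ d ∈ Ds, ∀ j ∈ As d 1, CF j ∧ (nm j : ℝ) * (nm d : ℝ) ^ 2 ≤ W) →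
        E3Z548.TN (fun d _ m => al (d * m)) (fun e => (nm e : ℝ)) Ds EE om {1} As dl ≤
          C * X ^ ε * Real.exp (-(LN ps / 3)) * Phi (Real.log W)) ∧
      ((∀ v g, 0 ≤ g → Phi (v - 3 * g) ≤ Real.exp (-g) * Phi v) →
        ∀ (Ds EE : Finset Eis) (om : Eis → ℝ) (Gs : Finset Eis) (As : Eis → Eis → Finset Eis)
        (dl : Eis → Eis),
        (∀ d ∈ Ds, IsPrim d) → (∀ e ∈ EE, e ∈ S E0) →
        (∀ γ ∈ Gs, IsPrim γ ∧ 0 ≤ om γ ∧ om γ ≤ (nm γ : ℝ) ^ (-(1 / 2) : ℝ)) →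
        (∀ d ∈ Ds, ∀ γ ∈ Gs, ∀ j ∈ As d γ, j ≠ 0 ∧
          (nm j : ℝ) * (nm d : ℝ) ^ 2 * (nm γ : ℝ) ^ 3 ≤ W) →
        E3Z548.TN (fun d _ m => al (d * m)) (fun e => (nm e : ℝ)) Ds EE om Gs As dl ≤
          C * X ^ ε * Real.exp (-(LN ps / 3)) * Phi (Real.log W)) := by
  set a₁ : ℝ := B₂ + 1 with ha₁
  have ha₁0 : 0 < a₁ := by positivity
  set ε' : ℝ := ε / (2 * a₁) with hε'
  have hε'0 : 0 < ε' := by positivity
  have hε2 : 0 < ε / 2 := by positivity
  set A : ℕ := ⌈(N : ℝ) * M⌉₊ + 2 with hA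
  have hA2 : 2 ≤ A := by omega
  have hJA : (N : ℝ) * M + 1 < A := by
    have h1 := Nat.le_ceil ((N : ℝ) * M)
    rw [hA]
    push_cast
    linarith
  obtain ⟨Cb, rb, hCb, hrb, Hb⟩ := numS hpu N hB₂.le hε2 hM
  obtain ⟨C₁, hC₁, H₁⟩ := TN_cf_J R hR A hA2 (J := (N : ℝ) * M) hJA (by positivity) hε'0
  obtain ⟨C₂, hC₂, H₂⟩ := TN_J R hR A hA2 (J := (N : ℝ) * M) hJA (by positivity) hε'0
  refine ⟨(C₁ + C₂) * (Dd * ν * Cb), rb, by positivity, hrb, ?_⟩
  intro X hX P hP q ps hN hz Y W T E0 Phi hY1 hYu hWX hWT hE0 hPhi hmon hexp hcl al hdom hadm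
  have hX1 : (1 : ℝ) ≤ X := by linarith
  have hX0 : 0 < X := by linarith
  have hY0 : 0 < Y := by linarith
  have hν0 : 0 < ν := by linarith
  set n := LN ps with hn
  set Pb : ℝ := X ^ a₁ with hPb
  have hPb1 : 1 ≤ Pb := Real.one_le_rpow hX1 ha₁0.le
  have hYPb : Y ≤ Pb := hYu.trans (Real.rpow_le_rpow_of_exponent_le hX1 (by rw [ha₁]; linarith))
  have hXPb : X ≤ Pb := by
    calc X = X ^ (1 : ℝ) := (Real.rpow_one X).symm
      _ ≤ _ := Real.rpow_le_rpow_of_exponent_le hX1 (by rw [ha₁]; linarith)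
  have hPe : Pb ^ ε' = X ^ (ε / 2) := by
    rw [hPb, ← Real.rpow_mul hX0.le]
    congr 1
    rw [hε']
    field_simp
  have hXe : X ^ (ε / 2) * X ^ (ε / 2) = X ^ ε := by
    rw [← Real.rpow_add hX0]; congr 1; ring
  have hWPb : W ≤ Pb := by
    rcases le_total W 0 with h0 | h0
    · linarith
    · exact (le_mul_of_one_le_right h0 hν).trans (hWX.trans hXPb)
  have hPW := hPhi (Real.log W)
  set Mn : ℝ := Dd * ν * (Cb * X ^ (ε / 2) * Phi (Real.log W)) with hMn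
  have hMn0 : 0 ≤ Mn := by positivity
  have hexn : Real.exp n ^ (-(1 / 3) : ℝ) = Real.exp (-(n / 3)) := by
    rw [← Real.exp_mul]; congr 1; ring
  -- the joint numbers of `al`
  have hjb : ∀ d ∈ S Y, ∀ B V, 1 ≤ B → B ≤ Y → 1 ≤ V → V ≤ W / (nm d : ℝ) ^ 2 → ∀ t : ℝ,
      JB Y al (fun _ => True) d B V t ≤
        Dd * ν * (Cb * X ^ (ε / 2) * Phi (Real.log V + 2 * Real.log (nm d))) / (nm d : ℝ) ^ 2 *
          (B⁻¹ * (max 1 (B / E0)) ^ 2) * (1 + |t|) ^ ((N : ℝ) * M) ∧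
      Real.log V + 2 * Real.log (nm d) ≤ Real.log W ∧ 0 < W := by
    intro d hd B V hB1 hB2 hV1 hV2 t
    obtain ⟨h2, h1, -⟩ := (mem_S hY0.le).1 hd
    have hdn : (0 : ℝ) < nm d := by exact_mod_cast nm_pos.2 h1.ne_zero
    have hd1 : (1 : ℝ) ≤ nm d := by exact_mod_cast nm_pos.2 h1.ne_zero
    have hV0 : 0 < V := by linarith
    have hB0 : 0 < B := by linarith
    have hVν : 1 ≤ V * ν := one_le_mul_of_one_le_of_one_le hV1 hν
    have hVd : V * (nm d : ℝ) ^ 2 ≤ W := (le_div_iff₀ (by positivity)).mp hV2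
    have hW0 : 0 < W := lt_of_lt_of_le (by positivity) hVd
    have hVW : V ≤ W := (le_mul_of_one_le_right hV0.le (one_le_pow₀ hd1)).trans hVd
    have hVX : V * ν ≤ X := (mul_le_mul_of_nonneg_right hVW hν0.le).trans hWX
    have hVT0 : Real.log V + 2 * Real.log (nm d) ≤ Real.log W := by
      have h3 := Real.log_le_log (by positivity) hVd
      rw [Real.log_mul hV0.ne' (by positivity), Real.log_pow] at h3
      push_cast at h3
      exact h3
    have hVT : Real.log (V * ν) ≤ T - 2 * Real.log (nm d) := by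
      rw [Real.log_mul hV0.ne' hν0.ne']
      rw [Real.log_mul hW0.ne' hν0.ne'] at hWT
      linarith
    refine ⟨?_, hVT0, hW0⟩
    have h5 := Hb X hX P hP q ps hN hz T (Real.log E0) Phi hPhi hmon hexp hcl d h1
      (h2.trans hYu) B (V * ν) Y t (fun _ => True) hB1 (hB2.trans hYu) hVν hVX hY0.le hVT
    rw [Real.exp_log hE0] at h5
    have h6 := hdom.jb Y (fun _ => True) d B V t h1 hY0.le hV1
    have h7 : Phi (Real.log (V * ν) + 2 * Real.log (nm d)) ≤
        ν * Phi (Real.log V + 2 * Real.log (nm d)) := by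
      have e1 : Real.log (V * ν) + 2 * Real.log (nm d) =
          (Real.log V + 2 * Real.log (nm d)) + Real.log ν := by
        rw [Real.log_mul hV0.ne' hν0.ne']; ring
      rw [e1]
      have h8 := hexp (Real.log V + 2 * Real.log (nm d)) (Real.log ν) (Real.log_nonneg hν)
      rw [Real.exp_log hν0] at h8
      exact h8
    have h9 := hPhi (Real.log V + 2 * Real.log (nm d))
    calc JB Y al (fun _ => True) d B V t ≤
          Dd * (Cb * X ^ (ε / 2) * Phi (Real.log (V * ν) + 2 * Real.log (nm d)) /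
            (nm d : ℝ) ^ 2 * (B⁻¹ * (max 1 (B / E0)) ^ 2) * (1 + |t|) ^ ((N : ℝ) * M)) :=
          h6.trans (mul_le_mul_of_nonneg_left h5 hDd)
      _ ≤ Dd * (Cb * X ^ (ε / 2) * (ν * Phi (Real.log V + 2 * Real.log (nm d))) /
            (nm d : ℝ) ^ 2 * (B⁻¹ * (max 1 (B / E0)) ^ 2) * (1 + |t|) ^ ((N : ℝ) * M)) := by
          gcongr
      _ = _ := by ring
  refine ⟨?_, ?_⟩
  · intro Ds EE om As dl hDs hEE ho0 ho1 hAs
    have key := H₁ Pb Y (Real.exp n) W E0 Mn hPb1 hY1 hYPb (Real.exp_pos n) hWPb hE0 hMn0 al hadm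
      (fun d hd B V hB1 hB2 hV1 hV2 t => by
        obtain ⟨h1, h2, -⟩ := hjb d hd B V hB1 hB2 hV1 hV2 t
        refine h1.trans ?_
        have hB0 : 0 < B := by linarith
        have h3 := hmon h2
        rw [hMn]
        gcongr) Ds EE om As dl hDs hEE ho0 ho1 hAs
    refine key.trans ?_
    rw [hPe, hexn, hMn]
    calc C₁ * X ^ (ε / 2) * Real.exp (-(n / 3)) *
          (Dd * ν * (Cb * X ^ (ε / 2) * Phi (Real.log W))) =
          C₁ * ((Dd * ν * Cb) * (X ^ (ε / 2) * X ^ (ε / 2)) * Real.exp (-(n / 3)) *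
            Phi (Real.log W)) := by ring
      _ ≤ (C₁ + C₂) * ((Dd * ν * Cb) * (X ^ (ε / 2) * X ^ (ε / 2)) * Real.exp (-(n / 3)) *
            Phi (Real.log W)) :=
          mul_le_mul_of_nonneg_right (by linarith) (by positivity)
      _ = _ := by rw [hXe]; ring
  · intro hdec Ds EE om Gs As dl hDs hEE hG hAs
    have key := H₂ Pb Y (Real.exp n) W E0 Mn hPb1 hY1 hYPb (Real.exp_pos n) hWPb hE0 hMn0 al hadm
      (fun d hd B V hB1 hB2 hV1 hV2 t => by
        obtain ⟨h1, h2, hW0⟩ := hjb d hd B V hB1 hB2 hV1 hV2 t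
        refine h1.trans ?_
        have hB0 : 0 < B := by linarith
        have hV0 : 0 < V := by linarith
        have hdp := ((mem_S hY0.le).1 hd).2.1
        have hdn : (0 : ℝ) < nm d := by exact_mod_cast nm_pos.2 hdp.ne_zero
        have h3 := hdec (Real.log W)
          ((Real.log W - (Real.log V + 2 * Real.log (nm d))) / 3) (by linarith)
        have e1 : Real.log W - 3 * ((Real.log W - (Real.log V + 2 * Real.log (nm d))) / 3) =
            Real.log V + 2 * Real.log (nm d) := by ring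
        have e2 : Real.exp (-((Real.log W - (Real.log V + 2 * Real.log (nm d))) / 3)) =
            (V * (nm d : ℝ) ^ 2 / W) ^ (1 / 3 : ℝ) := by
          rw [Real.rpow_def_of_pos (by positivity), Real.log_div (by positivity) hW0.ne',
            Real.log_mul hV0.ne' (by positivity), Real.log_pow]
          congr 1
          push_cast
          ring
        rw [e1, e2] at h3
        rw [hMn]
        calc Dd * ν * (Cb * X ^ (ε / 2) * Phi (Real.log V + 2 * Real.log (nm d))) /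
              (nm d : ℝ) ^ 2 * (B⁻¹ * (max 1 (B / E0)) ^ 2) * (1 + |t|) ^ ((N : ℝ) * M) ≤
              Dd * ν * (Cb * X ^ (ε / 2) *
                ((V * (nm d : ℝ) ^ 2 / W) ^ (1 / 3 : ℝ) * Phi (Real.log W))) /
              (nm d : ℝ) ^ 2 * (B⁻¹ * (max 1 (B / E0)) ^ 2) * (1 + |t|) ^ ((N : ℝ) * M) := by
              gcongr
          _ = _ := by ring) Ds EE om Gs As dl hDs hEE hG hAs
    refine key.trans ?_
    rw [hPe, hexn, hMn]
    calc C₂ * X ^ (ε / 2) * Real.exp (-(n / 3)) *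
          (Dd * ν * (Cb * X ^ (ε / 2) * Phi (Real.log W))) =
          C₂ * ((Dd * ν * Cb) * (X ^ (ε / 2) * X ^ (ε / 2)) * Real.exp (-(n / 3)) *
            Phi (Real.log W)) := by ring
      _ ≤ (C₁ + C₂) * ((Dd * ν * Cb) * (X ^ (ε / 2) * X ^ (ε / 2)) * Real.exp (-(n / 3)) *
            Phi (Real.log W)) :=
          mul_le_mul_of_nonneg_right (by linarith) (by positivity)
      _ = _ := by rw [hXe]; ring

end Crest.Agent.R017.OT551
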