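import Crest.Agent.R017.OTe_551
import Crest.Agent.R017.OTd_551
import Crest.Agent.R017.I1p_146

/-!
# Row 17, R8 (E3): the T-lines of OFF from T-claims with arbitrary T-numbers (helper146)

* **`TNblk`** : `TN ≤ C X^ε F e^(-n/3) e^m` for a dominated sequence on a family `Ds` (block of `d`),
  from the T-claims `CellS` with T-numbers `Sh γ b v` and the real line
  `Sh γ b v + 2 γ + b - 2 max 0 (b - E) (+ (w - v - 2 γ) / 3) ≤ m`
-/

set_option autoImplicit false

noncomputable section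

open Finset MeasureTheory
open scoped ComplexConjugate Classical

namespace Crest.Agent.R017.E3N146

open Crest.Agent.R012 Crest.Agent.R012.Eis Crest.Agent.R012.MC
open Crest.Agent.R012.LS2 (S mem_S)
open Crest.Agent.R017.CM106 (CS FS TG)
open Crest.Agent.R017.C70
open Crest.Agent.R017.HP842 (Pc pc sqc alL)
open Crest.Agent.R017.B770
open Crest.Agent.R017.FE47 (PU cx)
open Crest.Agent.R017.Prov71
open Crest.Agent.R017.Leg381 (Pf alF SF LF natl alF_natl)
open Crest.Agent.R017.I1146 (ChN LN cN SN Dom cN_nonneg CellS LipS numS)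
open Crest.Agent.R017.E1551 hiding tau Dg
open Crest.Agent.R017.E3D579 (TE0)
open Crest.Agent.R017.E3T829 (cg)
open Crest.Agent.R017.OT551

/-- **the T-lines of a dominated sequence, blocks of `d`** -/
theorem TNblk {h : ℝ → ℝ} {c : ℝ} (hpu : PU h c) (N : ℕ) {R : ℝ} (hR : 0 ≤ R) {ε M B₂ : ℝ}
    (hε : 0 < ε) (hM : 0 ≤ M) (hB₂ : 0 < B₂) {ν Dd : ℝ} (hν : 1 ≤ ν) (hDd : 0 ≤ Dd) {L : ℝ}
    (hL : 0 ≤ L) :
    ∃ C r : ℝ, 0 ≤ C ∧ 0 ≤ r ∧ ∀ X : ℝ, 3 ≤ X → ∀ (P : DPar), P.OK → ∀ (q : Eis) (ps : List Pq),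
      ps.length ≤ N → (∀ p ∈ ps, 0 ≤ p.z ∧ p.z ≤ Real.log X) →
      ∀ (Y W T E0 F : ℝ) (Sh : ℝ → ℝ → ℝ → ℝ), 1 ≤ Y → Y ≤ X ^ B₂ → W * ν ≤ X →
      Real.log (W * ν) ≤ T → 0 < E0 → 0 ≤ F → LipS L Sh →
      CellS h P q ps (X ^ B₂) r M T (B₂ * Real.log X) F Sh →
      ∀ al : Eis → ℂ, Dom ν Dd (sqc q (alF 1 1 P h (natl ps))) al →
      Adm Y (Real.exp (LN ps)) R al → ∀ (Ds EE : Finset Eis) (m : ℝ),
      (∀ d ∈ Ds, IsPrim d) → (∀ e ∈ EE, e ∈ S E0) →
      ((∀ d ∈ Ds, ∀ b v : ℝ, 0 ≤ b → 0 ≤ v → v ≤ Real.log W - 2 * Real.log (nm d) →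
          Sh (Real.log (nm d)) b v + 2 * Real.log (nm d) + b - 2 * max 0 (b - Real.log E0) ≤ m) →
        ∀ (om : Eis → ℝ) (As : Eis → Eis → Finset Eis) (dl : Eis → Eis), 0 ≤ om 1 → om 1 ≤ 1 →
        (∀ d ∈ Ds, ∀ j ∈ As d 1, CF j ∧ (nm j : ℝ) * (nm d : ℝ) ^ 2 ≤ W) →
        E3Z548.TN (fun d _ m => al (d * m)) (fun e => (nm e : ℝ)) Ds EE om {1} As dl ≤
          C * X ^ ε * F * Real.exp (-(LN ps / 3)) * Real.exp m) ∧
      ((∀ d ∈ Ds, ∀ b v : ℝ, 0 ≤ b → 0 ≤ v → v ≤ Real.log W - 2 * Real.log (nm d) →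
          Sh (Real.log (nm d)) b v + 2 * Real.log (nm d) + b - 2 * max 0 (b - Real.log E0) +
            (Real.log W - v - 2 * Real.log (nm d)) / 3 ≤ m) →
        ∀ (om : Eis → ℝ) (Gs : Finset Eis) (As : Eis → Eis → Finset Eis) (dl : Eis → Eis),
        (∀ γ ∈ Gs, IsPrim γ ∧ 0 ≤ om γ ∧ om γ ≤ (nm γ : ℝ) ^ (-(1 / 2) : ℝ)) →
        (∀ d ∈ Ds, ∀ γ ∈ Gs, ∀ j ∈ As d γ, j ≠ 0 ∧
          (nm j : ℝ) * (nm d : ℝ) ^ 2 * (nm γ : ℝ) ^ 3 ≤ W) →
        E3Z548.TN (fun d _ m => al (d * m)) (fun e => (nm e : ℝ)) Ds EE om Gs As dl ≤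
          C * X ^ ε * F * Real.exp (-(LN ps / 3)) * Real.exp m) := by
  set a₁ : ℝ := B₂ + 1 with ha₁
  have ha₁0 : 0 < a₁ := by positivity
  set ε' : ℝ := ε / (2 * a₁) with hε'
  have hε'0 : 0 < ε' := by positivity
  have hε2 : 0 < ε / 2 := by positivity
  set A : ℕ := ⌈(N : ℝ) * M⌉₊ + 2 with hA
  have hA2 : 2 ≤ A := by omega
  have hJA : (N : ℝ) * M + 1 < A := by
    have h1 := Nat.le_ceil ((N : ℝ) * M)
    rw [hA]
    push_cast
    linarith
  obtain ⟨Cb, rb, hCb, hrb, Hb⟩ := numS hpu N hB₂.le hε2 hM hL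
  obtain ⟨C₁, hC₁, H₁⟩ := TN_cf_Jd R hR A hA2 (J := (N : ℝ) * M) hJA (by positivity) hε'0
  obtain ⟨C₂, hC₂, H₂⟩ := TN_Jd R hR A hA2 (J := (N : ℝ) * M) hJA (by positivity) hε'0
  set lν := Real.log ν with hlν
  have hlν0 : 0 ≤ lν := Real.log_nonneg hν
  refine ⟨(C₁ + C₂) * (Dd * Real.exp (L * lν) * Cb), rb + 1, by positivity, by positivity, ?_⟩
  intro X hX P hP q ps hN hz Y W T E0 F Sh hY1 hYu hWX hWT hE0 hF hLip hcl al hdom hadm Ds EE m
    hDs hEE
  have hX1 : (1 : ℝ) ≤ X := by linarith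
  have hX0 : 0 < X := by linarith
  have hY0 : 0 < Y := by linarith
  have hν0 : 0 < ν := by linarith
  set n := LN ps with hn
  set Pb : ℝ := X ^ a₁ with hPb
  have hPb1 : 1 ≤ Pb := Real.one_le_rpow hX1 ha₁0.le
  have hYPb : Y ≤ Pb := hYu.trans (Real.rpow_le_rpow_of_exponent_le hX1 (by rw [ha₁]; linarith))
  have hXPb : X ≤ Pb := by
    calc X = X ^ (1 : ℝ) := (Real.rpow_one X).symm
      _ ≤ _ := Real.rpow_le_rpow_of_exponent_le hX1 (by rw [ha₁]; linarith)
  have hPe : Pb ^ ε' = X ^ (ε / 2) := by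
    rw [hPb, ← Real.rpow_mul hX0.le]
    congr 1
    rw [hε']
    field_simp
  have hXe : X ^ (ε / 2) * X ^ (ε / 2) = X ^ ε := by
    rw [← Real.rpow_add hX0]; congr 1; ring
  have hWPb : W ≤ Pb := by
    rcases le_total W 0 with h0 | h0
    · linarith
    · exact (le_mul_of_one_le_right h0 hν).trans (hWX.trans hXPb)
  set Mn : ℝ := Dd * Real.exp (L * lν) * (Cb * X ^ (ε / 2) * F) * Real.exp m with hMn
  have hMn0 : 0 ≤ Mn := by positivity
  have hexn : Real.exp n ^ (-(1 / 3) : ℝ) = Real.exp (-(n / 3)) := by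
    rw [← Real.exp_mul]; congr 1; ring
  -- the joint numbers of `al`
  have hjb : ∀ d ∈ S Y, ∀ B V, 1 ≤ B → B ≤ Y → 1 ≤ V → V ≤ W / (nm d : ℝ) ^ 2 → ∀ t : ℝ,
      JB Y al (fun _ => True) d B V t ≤
        Dd * Real.exp (L * lν) * (Cb * X ^ (ε / 2) * F) *
          Real.exp (Sh (Real.log (nm d)) (Real.log B) (Real.log V)) *
          (1 + |t|) ^ ((N : ℝ) * M) ∧
      Real.log V ≤ Real.log W - 2 * Real.log (nm d) ∧ 0 < W := by
    intro d hd B V hB1 hB2 hV1 hV2 t
    obtain ⟨h2, h1, -⟩ := (mem_S hY0.le).1 hd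
    have hdn : (0 : ℝ) < nm d := by exact_mod_cast nm_pos.2 h1.ne_zero
    have hd1 : (1 : ℝ) ≤ nm d := by exact_mod_cast nm_pos.2 h1.ne_zero
    have hV0 : 0 < V := by linarith
    have hB0 : 0 < B := by linarith
    have hVν : 1 ≤ V * ν := one_le_mul_of_one_le_of_one_le hV1 hν
    have hVd : V * (nm d : ℝ) ^ 2 ≤ W := (le_div_iff₀ (by positivity)).mp hV2
    have hW0 : 0 < W := lt_of_lt_of_le (by positivity) hVd
    have hVW : V ≤ W := (le_mul_of_one_le_right hV0.le (one_le_pow₀ hd1)).trans hVd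
    have hVX : V * ν ≤ X := (mul_le_mul_of_nonneg_right hVW hν0.le).trans hWX
    have hVT0 : Real.log V + 2 * Real.log (nm d) ≤ Real.log W := by
      have h3 := Real.log_le_log (by positivity) hVd
      rw [Real.log_mul hV0.ne' (by positivity), Real.log_pow] at h3
      push_cast at h3
      exact h3
    have hVT : Real.log (V * ν) ≤ T - 2 * Real.log (nm d) := by
      rw [Real.log_mul hV0.ne' hν0.ne']
      rw [Real.log_mul hW0.ne' hν0.ne'] at hWT
      linarith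
    refine ⟨?_, by linarith, hW0⟩
    have hlB : Real.log B ≤ B₂ * Real.log X + 1 := by
      have h3 := Real.log_le_log hB0 (hB2.trans hYu)
      rw [Real.log_rpow hX0] at h3
      linarith
    have h5 := Hb X hX P hP q ps hN hz T (B₂ * Real.log X) F Sh hF hLip hcl d h1
      (h2.trans hYu) B (V * ν) Y t (fun _ => True) hB1 (hB2.trans hYu) hlB hVν hVX hY0.le hVT
    have h6 := hdom.jb Y (fun _ => True) d B V t h1 hY0.le hV1
    have hlVν : Real.log (V * ν) = Real.log V + lν := by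
      rw [Real.log_mul hV0.ne' hν0.ne']
    have h7 : Real.exp (Sh (Real.log (nm d)) (Real.log B) (Real.log (V * ν))) ≤
        Real.exp (L * lν) * Real.exp (Sh (Real.log (nm d)) (Real.log B) (Real.log V)) := by
      rw [← Real.exp_add]
      refine Real.exp_le_exp.2 ?_
      have h3 := hLip (Real.log (nm d)) (Real.log B) (Real.log (V * ν)) (Real.log B)
        (Real.log V)
      rw [sub_self, abs_zero, zero_add, hlVν, add_sub_cancel_left, abs_of_nonneg hlν0] at h3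
      rw [hlVν]
      linarith
    calc JB Y al (fun _ => True) d B V t ≤
          Dd * (Cb * X ^ (ε / 2) * F * Real.exp (Sh (Real.log (nm d)) (Real.log B)
            (Real.log (V * ν))) * (1 + |t|) ^ ((N : ℝ) * M)) :=
          h6.trans (mul_le_mul_of_nonneg_left h5 hDd)
      _ ≤ Dd * (Cb * X ^ (ε / 2) * F * (Real.exp (L * lν) *
            Real.exp (Sh (Real.log (nm d)) (Real.log B) (Real.log V))) *
            (1 + |t|) ^ ((N : ℝ) * M)) := by
          have h9 : 0 ≤ Cb * X ^ (ε / 2) * F := by positivity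
          exact mul_le_mul_of_nonneg_left (mul_le_mul_of_nonneg_right
            (mul_le_mul_of_nonneg_left h7 h9) (by positivity)) hDd
      _ = _ := by ring
  -- the weights
  have hwt : ∀ d ∈ S Y, ∀ B, 1 ≤ B → Real.exp (-(2 * Real.log (nm d)) -
      Real.log B + 2 * max 0 (Real.log B - Real.log E0)) =
      ((nm d : ℝ) ^ 2)⁻¹ * (B⁻¹ * (max 1 (B / E0)) ^ 2) := by
    intro d hd B hB1
    have hB0 : 0 < B := by linarith
    obtain ⟨-, h1, -⟩ := (mem_S hY0.le).1 hd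
    have hdn : (0 : ℝ) < nm d := by exact_mod_cast nm_pos.2 h1.ne_zero
    have e2 : Real.exp (-(2 * Real.log (nm d))) = ((nm d : ℝ) ^ 2)⁻¹ := by
      rw [Real.exp_neg, two_mul, Real.exp_add, Real.exp_log hdn, sq]
    have e3 : Real.exp (-Real.log B) = B⁻¹ := by rw [Real.exp_neg, Real.exp_log hB0]
    have e4 : Real.exp (2 * max 0 (Real.log B - Real.log E0)) = (max 1 (B / E0)) ^ 2 := by
      have h5 : Real.exp (max 0 (Real.log B - Real.log E0)) = max 1 (B / E0) := by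
        rw [Real.exp_monotone.map_max, Real.exp_zero, Real.exp_sub, Real.exp_log hB0,
          Real.exp_log hE0]
      rw [two_mul, Real.exp_add, h5, sq]
    have e5 : -(2 * Real.log (nm d)) - Real.log B + 2 * max 0 (Real.log B - Real.log E0) =
        -(2 * Real.log (nm d)) + (-Real.log B) + 2 * max 0 (Real.log B - Real.log E0) := by ring
    rw [e5, Real.exp_add, Real.exp_add, e2, e3, e4]
    ring
  refine ⟨?_, ?_⟩
  · intro hm om As dl ho0 ho1 hAs
    have key := H₁ Pb Y (Real.exp n) W E0 Mn hPb1 hY1 hYPb (Real.exp_pos n) hWPb hE0 hMn0 al hadm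
      Ds EE om As dl (fun d hdD hd B V hB1 hB2 hV1 hV2 t => by
        obtain ⟨h1, h2, -⟩ := hjb d hd B V hB1 hB2 hV1 hV2 t
        refine h1.trans ?_
        have h3 := hm d hdD (Real.log B) (Real.log V) (Real.log_nonneg hB1)
          (Real.log_nonneg hV1) h2
        have h4 : Real.exp (Sh (Real.log (nm d)) (Real.log B) (Real.log V)) ≤ Real.exp m *
            (((nm d : ℝ) ^ 2)⁻¹ * (B⁻¹ * (max 1 (B / E0)) ^ 2)) := by
          rw [← hwt d hd B hB1, ← Real.exp_add]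
          exact Real.exp_le_exp.2 (by linarith)
        have h5 : 0 ≤ Dd * Real.exp (L * lν) * (Cb * X ^ (ε / 2) * F) := by positivity
        calc Dd * Real.exp (L * lν) * (Cb * X ^ (ε / 2) * F) *
              Real.exp (Sh (Real.log (nm d)) (Real.log B) (Real.log V)) *
              (1 + |t|) ^ ((N : ℝ) * M) ≤
              Dd * Real.exp (L * lν) * (Cb * X ^ (ε / 2) * F) * (Real.exp m *
                (((nm d : ℝ) ^ 2)⁻¹ * (B⁻¹ * (max 1 (B / E0)) ^ 2))) *
              (1 + |t|) ^ ((N : ℝ) * M) :=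
              mul_le_mul_of_nonneg_right (mul_le_mul_of_nonneg_left h4 h5) (by positivity)
          _ = _ := by rw [hMn]; ring) hDs hEE ho0 ho1 hAs
    refine key.trans ?_
    rw [hPe, hexn, hMn]
    calc C₁ * X ^ (ε / 2) * Real.exp (-(n / 3)) *
          (Dd * Real.exp (L * lν) * (Cb * X ^ (ε / 2) * F) * Real.exp m) =
          C₁ * ((Dd * Real.exp (L * lν) * Cb) * (X ^ (ε / 2) * X ^ (ε / 2)) * F *
            Real.exp (-(n / 3)) * Real.exp m) := by ring
      _ ≤ (C₁ + C₂) * ((Dd * Real.exp (L * lν) * Cb) * (X ^ (ε / 2) * X ^ (ε / 2)) * F *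
            Real.exp (-(n / 3)) * Real.exp m) :=
          mul_le_mul_of_nonneg_right (by linarith) (by positivity)
      _ = _ := by rw [hXe]; ring
  · intro hm om Gs As dl hG hAs
    have key := H₂ Pb Y (Real.exp n) W E0 Mn hPb1 hY1 hYPb (Real.exp_pos n) hWPb hE0 hMn0 al hadm
      Ds EE om Gs As dl (fun d hdD hd B V hB1 hB2 hV1 hV2 t => by
        obtain ⟨h1, h2, hW0⟩ := hjb d hd B V hB1 hB2 hV1 hV2 t
        refine h1.trans ?_
        have hV0 : 0 < V := by linarith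
        obtain ⟨-, hdp, -⟩ := (mem_S hY0.le).1 hd
        have hdn : (0 : ℝ) < nm d := by exact_mod_cast nm_pos.2 hdp.ne_zero
        have h3 := hm d hdD (Real.log B) (Real.log V) (Real.log_nonneg hB1)
          (Real.log_nonneg hV1) h2
        have e2 : Real.exp (-((Real.log W - Real.log V - 2 * Real.log (nm d)) / 3)) =
            (V * (nm d : ℝ) ^ 2 / W) ^ (1 / 3 : ℝ) := by
          rw [Real.rpow_def_of_pos (by positivity), Real.log_div (by positivity) hW0.ne',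
            Real.log_mul hV0.ne' (by positivity), Real.log_pow]
          congr 1
          push_cast
          ring
        have h4 : Real.exp (Sh (Real.log (nm d)) (Real.log B) (Real.log V)) ≤ Real.exp m *
            ((V * (nm d : ℝ) ^ 2 / W) ^ (1 / 3 : ℝ)) *
            (((nm d : ℝ) ^ 2)⁻¹ * (B⁻¹ * (max 1 (B / E0)) ^ 2)) := by
          rw [← hwt d hd B hB1, ← e2, ← Real.exp_add, ← Real.exp_add]
          exact Real.exp_le_exp.2 (by linarith)
        have h5 : 0 ≤ Dd * Real.exp (L * lν) * (Cb * X ^ (ε / 2) * F) := by positivity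
        calc Dd * Real.exp (L * lν) * (Cb * X ^ (ε / 2) * F) *
              Real.exp (Sh (Real.log (nm d)) (Real.log B) (Real.log V)) *
              (1 + |t|) ^ ((N : ℝ) * M) ≤
              Dd * Real.exp (L * lν) * (Cb * X ^ (ε / 2) * F) * (Real.exp m *
                ((V * (nm d : ℝ) ^ 2 / W) ^ (1 / 3 : ℝ)) *
                (((nm d : ℝ) ^ 2)⁻¹ * (B⁻¹ * (max 1 (B / E0)) ^ 2))) *
              (1 + |t|) ^ ((N : ℝ) * M) :=
              mul_le_mul_of_nonneg_right (mul_le_mul_of_nonneg_left h4 h5) (by positivity)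
          _ = _ := by rw [hMn]; ring) hDs hEE hG hAs
    refine key.trans ?_
    rw [hPe, hexn, hMn]
    calc C₂ * X ^ (ε / 2) * Real.exp (-(n / 3)) *
          (Dd * Real.exp (L * lν) * (Cb * X ^ (ε / 2) * F) * Real.exp m) =
          C₂ * ((Dd * Real.exp (L * lν) * Cb) * (X ^ (ε / 2) * X ^ (ε / 2)) * F *
            Real.exp (-(n / 3)) * Real.exp m) := by ring
      _ ≤ (C₁ + C₂) * ((Dd * Real.exp (L * lν) * Cb) * (X ^ (ε / 2) * X ^ (ε / 2)) * F *
            Real.exp (-(n / 3)) * Real.exp m) :=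
          mul_le_mul_of_nonneg_right (by linarith) (by positivity)
      _ = _ := by rw [hXe]; ring

end Crest.Agent.R017.E3N146
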