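import Crest.Agent.R017.E3Na_146

/-!
# Row 17, R8 (E3): the T-part of the numbers of a level, with weights in `d` (helper146)

* **`TNw`** : weights `w d e ≤ exp (φ (log N d))` with `φ` Lipschitz; two kinds of lines
* **`TNw1`** : the same with the weight `(N e)⁻¹` (so the total weight of `e` is `1`)
-/

set_option autoImplicit false

noncomputable section

open Finset MeasureTheory
open scoped ComplexConjugate Classical

namespace Crest.Agent.R017.E3N146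

open Crest.Agent.R012 Crest.Agent.R012.Eis Crest.Agent.R012.MC
open Crest.Agent.R012.LS2 (S mem_S)
open Crest.Agent.R017.CM106 (CS FS TG)
open Crest.Agent.R017.C70
open Crest.Agent.R017.HP842 (Pc pc sqc alL)
open Crest.Agent.R017.B770
open Crest.Agent.R017.FE47 (PU cx)
open Crest.Agent.R017.Prov71
open Crest.Agent.R017.Leg381 (Pf alF SF LF natl alF_natl)
open Crest.Agent.R017.I1146 (ChN LN cN SN Dom cN_nonneg CellS LipS numS)
open Crest.Agent.R017.E1551 hiding tau Dg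
open Crest.Agent.R017.E3D579 (TE0)
open Crest.Agent.R017.E3T829 (cg)
open Crest.Agent.R017.OT551

/-- `d` and `e` of a dyadic block -/
lemma blk_log {n a : ℕ} (hn : n ≠ 0) (h : Nat.log 2 n = a) :
    (a : ℝ) * Real.log 2 ≤ Real.log n ∧ Real.log n ≤ (a : ℝ) * Real.log 2 + Real.log 2 := by
  have hlo : 2 ^ a ≤ n := h ▸ Nat.pow_log_le_self 2 hn
  have hhi : n < 2 ^ (a + 1) := h ▸ Nat.lt_pow_succ_log_self (by norm_num) _
  have hlo' : ((2 : ℝ) ^ a) ≤ n := by exact_mod_cast hlo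
  have hhi' : (n : ℝ) ≤ (2 : ℝ) ^ (a + 1) := by exact_mod_cast hhi.le
  have hn0 : (0 : ℝ) < n := by exact_mod_cast Nat.pos_of_ne_zero hn
  have h1 := Real.log_le_log (by positivity) hlo'
  have h2 := Real.log_le_log hn0 hhi'
  rw [Real.log_pow] at h1 h2
  push_cast at h2
  exact ⟨h1, by linarith⟩

/-- number of dyadic blocks -/
lemma blk_card {B ε : ℝ} (hB : 0 ≤ B) (hε : 0 < ε) : ∃ C : ℝ, 0 ≤ C ∧ ∀ X : ℝ, 3 ≤ X →
    ((⌊2 * (B * Real.log X)⌋₊ + 1 : ℕ) : ℝ) ≤ C * X ^ ε := by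
  refine ⟨2 * B / ε + 1, by positivity, fun X hX => ?_⟩
  have hX0 : 0 < X := by linarith
  have h1 := Real.log_le_rpow_div hX0.le hε
  have h2 : 1 ≤ X ^ ε := Real.one_le_rpow (by linarith) hε.le
  have hl : 0 ≤ Real.log X := Real.log_nonneg (by linarith)
  have h3 := Nat.floor_le (show 0 ≤ 2 * (B * Real.log X) by positivity)
  push_cast
  have h4 : 2 * (B * Real.log X) ≤ 2 * B / ε * X ^ ε := by
    have := mul_le_mul_of_nonneg_left h1 (show 0 ≤ 2 * B by positivity)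
    calc 2 * (B * Real.log X) = 2 * B * Real.log X := by ring
      _ ≤ 2 * B * (X ^ ε / ε) := this
      _ = _ := by ring
  linarith

lemma blk_lt {B X : ℝ} (hX : 3 ≤ X) {n : ℕ} (hn : n ≠ 0) (h : (n : ℝ) ≤ X ^ B) :
    Nat.log 2 n ∈ range (⌊2 * (B * Real.log X)⌋₊ + 1) := by
  have hn0 : (0 : ℝ) < n := by exact_mod_cast Nat.pos_of_ne_zero hn
  obtain ⟨h1, -⟩ := blk_log hn rfl
  have h2 := Real.log_le_log hn0 h
  rw [Real.log_rpow (by linarith)] at h2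
  have h3 : (1 : ℝ) / 2 ≤ Real.log 2 := by have := Real.log_two_gt_d9; linarith
  rw [mem_range]
  refine Nat.lt_succ_of_le (Nat.le_floor ?_)
  have h4 : (0 : ℝ) ≤ (Nat.log 2 n : ℕ) := Nat.cast_nonneg _
  nlinarith

lemma TN_sum (af : Eis → Eis → Eis → ℂ) (we : Eis → ℝ) (Ds EE : Finset Eis) (om : Eis → ℝ)
    (Gs : Finset Eis) (A : Eis → Eis → Finset Eis) (dl : Eis → Eis) :
    E3Z548.TN af we Ds EE om Gs A dl =
      ∑ d ∈ Ds, ∑ e ∈ EE, E3Z548.TN af we {d} {e} om Gs A dl := by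
  unfold E3Z548.TN
  simp

/-- weights of a block -/
lemma wblk {T w : Eis → Eis → ℝ} {Ds EE : Finset Eis} {φ : ℝ → ℝ} {L : ℝ}
    (hφ : ∀ x y, φ x ≤ φ y + L * |x - y|) (hL : 0 ≤ L) (hT : ∀ d ∈ Ds, ∀ e ∈ EE, 0 ≤ T d e)
    (hd : ∀ d ∈ Ds, d ≠ 0) (hw : ∀ d ∈ Ds, ∀ e ∈ EE, w d e ≤ Real.exp (φ (Real.log (nm d)))) (a : ℕ)
    {R : ℝ} (hR : ∑ d ∈ Ds.filter (fun d => Nat.log 2 (nm d) = a), ∑ e ∈ EE, T d e ≤ R) :
    ∑ d ∈ Ds.filter (fun d => Nat.log 2 (nm d) = a), ∑ e ∈ EE, w d e * T d e ≤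
      Real.exp (φ (a * Real.log 2) + L * Real.log 2) * R := by
  refine le_trans ?_ (mul_le_mul_of_nonneg_left hR (Real.exp_pos _).le)
  rw [mul_sum]
  refine sum_le_sum fun d hd' => ?_
  obtain ⟨hdD, hda⟩ := mem_filter.1 hd'
  rw [mul_sum]
  refine sum_le_sum fun e he => mul_le_mul_of_nonneg_right ?_ (hT d hdD e he)
  refine (hw d hdD e he).trans (Real.exp_le_exp.2 ?_)
  obtain ⟨h1, h2⟩ := blk_log (nm_pos.2 (hd d hdD)).ne' hda
  have h3 := hφ (Real.log (nm d)) (a * Real.log 2)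
  have h4 : |Real.log (nm d) - a * Real.log 2| ≤ Real.log 2 := abs_le.2 ⟨by
    have := Real.log_pos (show (1 : ℝ) < 2 by norm_num)
    linarith, by linarith⟩
  have := mul_le_mul_of_nonneg_left h4 hL
  linarith

/-- the sum over the blocks -/
lemma wsum {T w : Eis → Eis → ℝ} {Ds EE : Finset Eis} {φ : ℝ → ℝ} {L : ℝ}
    (hφ : ∀ x y, φ x ≤ φ y + L * |x - y|) (hL : 0 ≤ L) (hT : ∀ d ∈ Ds, ∀ e ∈ EE, 0 ≤ T d e)
    (hd : ∀ d ∈ Ds, d ≠ 0) (hw : ∀ d ∈ Ds, ∀ e ∈ EE, w d e ≤ Real.exp (φ (Real.log (nm d))))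
    {I : ℕ} (hI : ∀ d ∈ Ds, Nat.log 2 (nm d) ∈ range I) {m Q : ℝ}
    (hR : ∀ a ∈ range I, ∀ m' : ℝ,
      (∀ d ∈ Ds.filter (fun d => Nat.log 2 (nm d) = a), m - φ (Real.log (nm d)) ≤ m') →
      ∑ d ∈ Ds.filter (fun d => Nat.log 2 (nm d) = a), ∑ e ∈ EE, T d e ≤ Q * Real.exp m') :
    ∑ d ∈ Ds, ∑ e ∈ EE, w d e * T d e ≤
      (I : ℝ) * (Real.exp (2 * L * Real.log 2) * Q * Real.exp m) := by
  rw [← sum_fiberwise_of_maps_to (s := Ds) (t := range I) (g := fun d => Nat.log 2 (nm d))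
    (fun d hd => hI d hd)]
  refine (sum_le_card_nsmul _ _ (Real.exp (2 * L * Real.log 2) * Q * Real.exp m) ?_).trans
    (le_of_eq ?_)
  · intro a ha
    have h2 : ∀ d ∈ Ds.filter (fun d => Nat.log 2 (nm d) = a),
        m - φ (Real.log (nm d)) ≤ m - φ (a * Real.log 2) + L * Real.log 2 := by
      intro d hd'
      obtain ⟨hdD, hda⟩ := mem_filter.1 hd'
      obtain ⟨h1, h2⟩ := blk_log (nm_pos.2 (hd d hdD)).ne' hda
      have h3 := hφ (a * Real.log 2) (Real.log (nm d))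
      have h4 : |a * Real.log 2 - Real.log (nm d)| ≤ Real.log 2 := abs_le.2 ⟨by linarith, by
        have := Real.log_pos (show (1 : ℝ) < 2 by norm_num)
        linarith⟩
      have := mul_le_mul_of_nonneg_left h4 hL
      linarith
    have h1 := wblk hφ hL hT hd hw a (hR a ha _ h2)
    refine h1.trans (le_of_eq ?_)
    have e1 : Real.exp (2 * L * Real.log 2) * Q * Real.exp m =
        Q * Real.exp (2 * L * Real.log 2 + m) := by
      rw [Real.exp_add]; ring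
    have e2 : Real.exp (φ (a * Real.log 2) + L * Real.log 2) *
        (Q * Real.exp (m - φ (a * Real.log 2) + L * Real.log 2)) =
        Q * Real.exp ((φ (a * Real.log 2) + L * Real.log 2) +
          (m - φ (a * Real.log 2) + L * Real.log 2)) := by
      rw [Real.exp_add (φ (a * Real.log 2) + L * Real.log 2)
        (m - φ (a * Real.log 2) + L * Real.log 2)]
      ring
    rw [e1, e2]
    congr 2
    ring
  · rw [card_range, nsmul_eq_mul]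

/-- **the T-part of a level, weights in `d`** -/
theorem TNw {h : ℝ → ℝ} {c : ℝ} (hpu : PU h c) (N : ℕ) {R : ℝ} (hR : 0 ≤ R) {ε M B₂ : ℝ}
    (hε : 0 < ε) (hM : 0 ≤ M) (hB₂ : 0 < B₂) {ν Dd : ℝ} (hν : 1 ≤ ν) (hDd : 0 ≤ Dd) {L Lφ : ℝ}
    (hL : 0 ≤ L) (hLφ : 0 ≤ Lφ) :
    ∃ C r : ℝ, 0 ≤ C ∧ 0 ≤ r ∧ ∀ X : ℝ, 3 ≤ X → ∀ (P : DPar), P.OK → ∀ (q : Eis) (ps : List Pq),
      ps.length ≤ N → (∀ p ∈ ps, 0 ≤ p.z ∧ p.z ≤ Real.log X) →
      ∀ (Y W T E0 F : ℝ) (Sh : ℝ → ℝ → ℝ → ℝ), 1 ≤ Y → Y ≤ X ^ B₂ → W * ν ≤ X →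
      Real.log (W * ν) ≤ T → 0 < E0 → 0 ≤ F → LipS L Sh →
      CellS h P q ps (X ^ B₂) r M T (B₂ * Real.log X) F Sh →
      ∀ al : Eis → ℂ, Dom ν Dd (sqc q (alF 1 1 P h (natl ps))) al →
      Adm Y (Real.exp (LN ps)) R al → ∀ (Ds EE : Finset Eis) (m : ℝ) (φ : ℝ → ℝ)
        (w : Eis → Eis → ℝ), (∀ x y, φ x ≤ φ y + Lφ * |x - y|) →
      (∀ d ∈ Ds, IsPrim d ∧ (nm d : ℝ) ≤ X ^ B₂) → (∀ e ∈ EE, e ∈ S E0) →
      (∀ d ∈ Ds, ∀ e ∈ EE, w d e ≤ Real.exp (φ (Real.log (nm d)))) →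
      ((∀ d ∈ Ds, ∀ b v : ℝ, 0 ≤ b → 0 ≤ v → v ≤ Real.log W - 2 * Real.log (nm d) →
          φ (Real.log (nm d)) + Sh (Real.log (nm d)) b v + 2 * Real.log (nm d) + b -
            2 * max 0 (b - Real.log E0) ≤ m) →
        ∀ (om : Eis → ℝ) (As : Eis → Eis → Finset Eis) (dl : Eis → Eis), 0 ≤ om 1 → om 1 ≤ 1 →
        (∀ γ, 0 ≤ om γ) →
        (∀ d ∈ Ds, ∀ j ∈ As d 1, CF j ∧ (nm j : ℝ) * (nm d : ℝ) ^ 2 ≤ W) →
        ∑ d ∈ Ds, ∑ e ∈ EE, w d e *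
          E3Z548.TN (fun d _ m => al (d * m)) (fun e => (nm e : ℝ)) {d} {e} om {1} As dl ≤
          C * X ^ ε * F * Real.exp (-(LN ps / 3)) * Real.exp m) ∧
      ((∀ d ∈ Ds, ∀ b v : ℝ, 0 ≤ b → 0 ≤ v → v ≤ Real.log W - 2 * Real.log (nm d) →
          φ (Real.log (nm d)) + Sh (Real.log (nm d)) b v + 2 * Real.log (nm d) + b -
            2 * max 0 (b - Real.log E0) + (Real.log W - v - 2 * Real.log (nm d)) / 3 ≤ m) →
        ∀ (om : Eis → ℝ) (Gs : Finset Eis) (As : Eis → Eis → Finset Eis) (dl : Eis → Eis),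
        (∀ γ, 0 ≤ om γ) →
        (∀ γ ∈ Gs, IsPrim γ ∧ 0 ≤ om γ ∧ om γ ≤ (nm γ : ℝ) ^ (-(1 / 2) : ℝ)) →
        (∀ d ∈ Ds, ∀ γ ∈ Gs, ∀ j ∈ As d γ, j ≠ 0 ∧
          (nm j : ℝ) * (nm d : ℝ) ^ 2 * (nm γ : ℝ) ^ 3 ≤ W) →
        ∑ d ∈ Ds, ∑ e ∈ EE, w d e *
          E3Z548.TN (fun d _ m => al (d * m)) (fun e => (nm e : ℝ)) {d} {e} om Gs As dl ≤
          C * X ^ ε * F * Real.exp (-(LN ps / 3)) * Real.exp m) := by
  have hε2 : 0 < ε / 2 := by positivity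
  obtain ⟨C₁, r, hC₁, hr, H⟩ := TNblk hpu N hR hε2 hM hB₂ hν hDd hL
  obtain ⟨C₂, hC₂, H₂⟩ := blk_card hB₂.le hε2
  refine ⟨C₂ * (Real.exp (2 * Lφ * Real.log 2) * C₁), r, by positivity, hr, ?_⟩
  intro X hX P hP q ps hN hz Y W T E0 F Sh hY1 hYu hWX hWT hE0 hF hLip hcl al hdom hadm Ds EE m φ w
    hφ hDs hEE hw
  have hX0 : 0 < X := by linarith
  have hXe : X ^ (ε / 2) * X ^ (ε / 2) = X ^ ε := by
    rw [← Real.rpow_add hX0]; congr 1; ring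
  have hd0 : ∀ d ∈ Ds, d ≠ 0 := fun d hd => (hDs d hd).1.ne_zero
  have hI : ∀ d ∈ Ds, Nat.log 2 (nm d) ∈ range (⌊2 * (B₂ * Real.log X)⌋₊ + 1) := fun d hd =>
    blk_lt hX (nm_pos.2 (hd0 d hd)).ne' (hDs d hd).2
  set Q : ℝ := C₁ * X ^ (ε / 2) * F * Real.exp (-(LN ps / 3)) with hQ
  have hQ0 : 0 ≤ Q := by positivity
  have hfin : ((⌊2 * (B₂ * Real.log X)⌋₊ + 1 : ℕ) : ℝ) *
      (Real.exp (2 * Lφ * Real.log 2) * Q * Real.exp m) ≤
      C₂ * (Real.exp (2 * Lφ * Real.log 2) * C₁) * X ^ ε * F * Real.exp (-(LN ps / 3)) *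
        Real.exp m := by
    refine (mul_le_mul_of_nonneg_right (H₂ X hX) (by positivity)).trans (le_of_eq ?_)
    rw [hQ, ← hXe]
    ring
  refine ⟨?_, ?_⟩
  · intro hm om As dl ho0 ho1 hom hAs
    refine le_trans (wsum hφ hLφ (T := fun d e => E3Z548.TN (fun d _ m => al (d * m))
      (fun e => (nm e : ℝ)) {d} {e} om {1} As dl) (fun d _ e _ =>
        E3Z548.TN_nonneg _ (fun e => Nat.cast_nonneg _) _ _ hom _ _ _) hd0 hw hI (Q := Q) (m := m)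
        ?_) hfin
    intro a _ m' hm'
    rw [← TN_sum]
    have h1 := (H X hX P hP q ps hN hz Y W T E0 F Sh hY1 hYu hWX hWT hE0 hF hLip hcl al hdom hadm
      (Ds.filter (fun d => Nat.log 2 (nm d) = a)) EE m'
      (fun d hd => (hDs d (mem_filter.1 hd).1).1) hEE).1 (fun d hd b v hb hv hvW => by
        have h2 := hm d (mem_filter.1 hd).1 b v hb hv hvW
        have h3 := hm' d hd
        linarith) om As dl ho0 ho1 (fun d hd => hAs d (mem_filter.1 hd).1)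
    exact h1
  · intro hm om Gs As dl hom hG hAs
    refine le_trans (wsum hφ hLφ (T := fun d e => E3Z548.TN (fun d _ m => al (d * m))
      (fun e => (nm e : ℝ)) {d} {e} om Gs As dl) (fun d _ e _ =>
        E3Z548.TN_nonneg _ (fun e => Nat.cast_nonneg _) _ _ hom _ _ _) hd0 hw hI (Q := Q) (m := m)
        ?_) hfin
    intro a _ m' hm'
    rw [← TN_sum]
    have h1 := (H X hX P hP q ps hN hz Y W T E0 F Sh hY1 hYu hWX hWT hE0 hF hLip hcl al hdom hadm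
      (Ds.filter (fun d => Nat.log 2 (nm d) = a)) EE m'
      (fun d hd => (hDs d (mem_filter.1 hd).1).1) hEE).2 (fun d hd b v hb hv hvW => by
        have h2 := hm d (mem_filter.1 hd).1 b v hb hv hvW
        have h3 := hm' d hd
        linarith) om Gs As dl hG (fun d hd => hAs d (mem_filter.1 hd).1)
    exact h1

/-- real line of a block of `e` -/
lemma e_line {b a l E₀ : ℝ} (hl : 0 ≤ l) (ha : a ≤ E₀) :
    b - 2 * max 0 (b - (a + l)) ≤ a - max 0 (b - E₀) + 2 * l := by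
  rcases le_total b (a + l) with h | h
  · rw [max_eq_left (by linarith : b - (a + l) ≤ 0)]
    have : max 0 (b - E₀) ≤ l := max_le hl (by linarith)
    linarith
  · rw [max_eq_right (by linarith : 0 ≤ b - (a + l))]
    have : max 0 (b - E₀) ≤ b - a := max_le (by linarith) (by linarith)
    linarith

/-- the sum over the blocks of `e` -/
lemma esum {T : Eis → Eis → ℝ} {Ds EE : Finset Eis} (hT : ∀ d ∈ Ds, ∀ e ∈ EE, 0 ≤ T d e)
    (he : ∀ e ∈ EE, e ≠ 0) {I : ℕ} (hI : ∀ e ∈ EE, Nat.log 2 (nm e) ∈ range I) {m Q : ℝ}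
    (hR : ∀ a ∈ range I,
      ∑ d ∈ Ds, ∑ e ∈ EE.filter (fun e => Nat.log 2 (nm e) = a), T d e ≤
        Q * Real.exp (m + a * Real.log 2)) :
    ∑ d ∈ Ds, ∑ e ∈ EE, (nm e : ℝ)⁻¹ * T d e ≤ (I : ℝ) * (Q * Real.exp m) := by
  have e1 : ∀ d ∈ Ds, ∑ e ∈ EE, (nm e : ℝ)⁻¹ * T d e = ∑ a ∈ range I,
      ∑ e ∈ EE.filter (fun e => Nat.log 2 (nm e) = a), (nm e : ℝ)⁻¹ * T d e := fun d _ =>
    (sum_fiberwise_of_maps_to (fun e he => hI e he) _).symm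
  rw [sum_congr rfl e1, sum_comm]
  refine (sum_le_card_nsmul _ _ (Q * Real.exp m) ?_).trans (le_of_eq (by
    rw [card_range, nsmul_eq_mul]))
  intro a ha
  have h1 : ∑ d ∈ Ds, ∑ e ∈ EE.filter (fun e => Nat.log 2 (nm e) = a), (nm e : ℝ)⁻¹ * T d e ≤
      Real.exp (-(a * Real.log 2)) *
        ∑ d ∈ Ds, ∑ e ∈ EE.filter (fun e => Nat.log 2 (nm e) = a), T d e := by
    rw [mul_sum]
    refine sum_le_sum fun d hd => ?_
    rw [mul_sum]
    refine sum_le_sum fun e he' => mul_le_mul_of_nonneg_right ?_ (hT d hd e (mem_filter.1 he').1)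
    obtain ⟨heE, hea⟩ := mem_filter.1 he'
    obtain ⟨h2, -⟩ := blk_log (nm_pos.2 (he e heE)).ne' hea
    have hn0 : (0 : ℝ) < nm e := by exact_mod_cast nm_pos.2 (he e heE)
    rw [Real.exp_neg]
    refine inv_anti₀ (Real.exp_pos _) ?_
    rw [← Real.exp_log hn0]
    exact Real.exp_le_exp.2 h2
  refine h1.trans ((mul_le_mul_of_nonneg_left (hR a ha) (Real.exp_pos _).le).trans (le_of_eq ?_))
  rw [Real.exp_add, Real.exp_neg]
  field_simp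

/-- **the T-part of a level, weights in `d`, total weight `1` in `e`** -/
theorem TNw1 {h : ℝ → ℝ} {c : ℝ} (hpu : PU h c) (N : ℕ) {R : ℝ} (hR : 0 ≤ R) {ε M B₂ : ℝ}
    (hε : 0 < ε) (hM : 0 ≤ M) (hB₂ : 0 < B₂) {ν Dd : ℝ} (hν : 1 ≤ ν) (hDd : 0 ≤ Dd) {L Lφ : ℝ}
    (hL : 0 ≤ L) (hLφ : 0 ≤ Lφ) :
    ∃ C r : ℝ, 0 ≤ C ∧ 0 ≤ r ∧ ∀ X : ℝ, 3 ≤ X → ∀ (P : DPar), P.OK → ∀ (q : Eis) (ps : List Pq),
      ps.length ≤ N → (∀ p ∈ ps, 0 ≤ p.z ∧ p.z ≤ Real.log X) →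
      ∀ (Y W T E0 F : ℝ) (Sh : ℝ → ℝ → ℝ → ℝ), 1 ≤ Y → Y ≤ X ^ B₂ → W * ν ≤ X →
      Real.log (W * ν) ≤ T → 0 < E0 → E0 ≤ X ^ B₂ → 0 ≤ F → LipS L Sh →
      CellS h P q ps (X ^ B₂) r M T (B₂ * Real.log X) F Sh →
      ∀ al : Eis → ℂ, Dom ν Dd (sqc q (alF 1 1 P h (natl ps))) al →
      Adm Y (Real.exp (LN ps)) R al → ∀ (Ds EE : Finset Eis) (m : ℝ) (φ : ℝ → ℝ)
        (w : Eis → Eis → ℝ), (∀ x y, φ x ≤ φ y + Lφ * |x - y|) →
      (∀ d ∈ Ds, IsPrim d ∧ (nm d : ℝ) ≤ X ^ B₂) → (∀ e ∈ EE, e ∈ S E0) →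
      (∀ d ∈ Ds, ∀ e ∈ EE, 0 ≤ w d e) →
      (∀ d ∈ Ds, ∀ e ∈ EE, w d e ≤ Real.exp (φ (Real.log (nm d)))) →
      ((∀ d ∈ Ds, ∀ b v : ℝ, 0 ≤ b → 0 ≤ v → v ≤ Real.log W - 2 * Real.log (nm d) →
          φ (Real.log (nm d)) + Sh (Real.log (nm d)) b v + 2 * Real.log (nm d) -
            max 0 (b - Real.log E0) ≤ m) →
        ∀ (om : Eis → ℝ) (As : Eis → Eis → Finset Eis) (dl : Eis → Eis), 0 ≤ om 1 → om 1 ≤ 1 →
        (∀ γ, 0 ≤ om γ) →
        (∀ d ∈ Ds, ∀ j ∈ As d 1, CF j ∧ (nm j : ℝ) * (nm d : ℝ) ^ 2 ≤ W) →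
        ∑ d ∈ Ds, ∑ e ∈ EE, (nm e : ℝ)⁻¹ * (w d e *
          E3Z548.TN (fun d _ m => al (d * m)) (fun e => (nm e : ℝ)) {d} {e} om {1} As dl) ≤
          C * X ^ ε * F * Real.exp (-(LN ps / 3)) * Real.exp m) ∧
      ((∀ d ∈ Ds, ∀ b v : ℝ, 0 ≤ b → 0 ≤ v → v ≤ Real.log W - 2 * Real.log (nm d) →
          φ (Real.log (nm d)) + Sh (Real.log (nm d)) b v + 2 * Real.log (nm d) -
            max 0 (b - Real.log E0) + (Real.log W - v - 2 * Real.log (nm d)) / 3 ≤ m) →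
        ∀ (om : Eis → ℝ) (Gs : Finset Eis) (As : Eis → Eis → Finset Eis) (dl : Eis → Eis),
        (∀ γ, 0 ≤ om γ) →
        (∀ γ ∈ Gs, IsPrim γ ∧ 0 ≤ om γ ∧ om γ ≤ (nm γ : ℝ) ^ (-(1 / 2) : ℝ)) →
        (∀ d ∈ Ds, ∀ γ ∈ Gs, ∀ j ∈ As d γ, j ≠ 0 ∧
          (nm j : ℝ) * (nm d : ℝ) ^ 2 * (nm γ : ℝ) ^ 3 ≤ W) →
        ∑ d ∈ Ds, ∑ e ∈ EE, (nm e : ℝ)⁻¹ * (w d e *
          E3Z548.TN (fun d _ m => al (d * m)) (fun e => (nm e : ℝ)) {d} {e} om Gs As dl) ≤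
          C * X ^ ε * F * Real.exp (-(LN ps / 3)) * Real.exp m) := by
  have hε2 : 0 < ε / 2 := by positivity
  obtain ⟨C₁, r, hC₁, hr, H⟩ := TNw hpu N hR hε2 hM hB₂ hν hDd hL hLφ
  obtain ⟨C₂, hC₂, H₂⟩ := blk_card hB₂.le hε2
  refine ⟨C₂ * (Real.exp (2 * Real.log 2) * C₁), r, by positivity, hr, ?_⟩
  intro X hX P hP q ps hN hz Y W T E0 F Sh hY1 hYu hWX hWT hE0 hE0X hF hLip hcl al hdom hadm Ds EE
    m φ w hφ hDs hEE hw0 hw
  have hX0 : 0 < X := by linarith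
  have hl2 : 0 ≤ Real.log 2 := Real.log_nonneg (by norm_num)
  have hXe : X ^ (ε / 2) * X ^ (ε / 2) = X ^ ε := by
    rw [← Real.rpow_add hX0]; congr 1; ring
  have he0 : ∀ e ∈ EE, e ≠ 0 := fun e he => ((mem_S hE0.le).1 (hEE e he)).2.1.ne_zero
  have hI : ∀ e ∈ EE, Nat.log 2 (nm e) ∈ range (⌊2 * (B₂ * Real.log X)⌋₊ + 1) := fun e he =>
    blk_lt hX (nm_pos.2 (he0 e he)).ne' ((((mem_S hE0.le).1 (hEE e he)).1).trans hE0X)
  set Q : ℝ := Real.exp (2 * Real.log 2) * (C₁ * X ^ (ε / 2) * F * Real.exp (-(LN ps / 3))) with hQ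
  have hQ0 : 0 ≤ Q := by positivity
  have hfin : ((⌊2 * (B₂ * Real.log X)⌋₊ + 1 : ℕ) : ℝ) * (Q * Real.exp m) ≤
      C₂ * (Real.exp (2 * Real.log 2) * C₁) * X ^ ε * F * Real.exp (-(LN ps / 3)) *
        Real.exp m := by
    refine (mul_le_mul_of_nonneg_right (H₂ X hX) (by positivity)).trans (le_of_eq ?_)
    rw [hQ, ← hXe]
    ring
  -- a block
  have hblk : ∀ a : ℕ, ∀ e ∈ EE.filter (fun e => Nat.log 2 (nm e) = a),
      e ∈ S (Real.exp ((a : ℝ) * Real.log 2 + Real.log 2)) := by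
    intro a e he
    obtain ⟨heE, hea⟩ := mem_filter.1 he
    obtain ⟨-, h3, h4⟩ := (mem_S hE0.le).1 (hEE e heE)
    refine (mem_S (Real.exp_pos _).le).2 ⟨?_, h3, h4⟩
    obtain ⟨-, h2⟩ := blk_log (nm_pos.2 h3.ne_zero).ne' hea
    have hn0 : (0 : ℝ) < nm e := by exact_mod_cast nm_pos.2 h3.ne_zero
    rw [← Real.exp_log hn0]
    exact Real.exp_le_exp.2 h2
  have hexp : ∀ a : ℕ, Q * Real.exp (m + a * Real.log 2) =
      C₁ * X ^ (ε / 2) * F * Real.exp (-(LN ps / 3)) *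
        Real.exp (m + a * Real.log 2 + 2 * Real.log 2) := by
    intro a
    rw [hQ, Real.exp_add (m + a * Real.log 2) (2 * Real.log 2)]
    ring
  -- the blocks which are not empty
  have hne : ∀ a : ℕ, (EE.filter (fun e => Nat.log 2 (nm e) = a)).Nonempty →
      (a : ℝ) * Real.log 2 ≤ Real.log E0 := by
    rintro a ⟨e, he⟩
    obtain ⟨heE, hea⟩ := mem_filter.1 he
    obtain ⟨h2, h3, -⟩ := (mem_S hE0.le).1 (hEE e heE)
    obtain ⟨h4, -⟩ := blk_log (nm_pos.2 h3.ne_zero).ne' hea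
    have hn0 : (0 : ℝ) < nm e := by exact_mod_cast nm_pos.2 h3.ne_zero
    exact h4.trans (Real.log_le_log hn0 h2)
  refine ⟨?_, ?_⟩
  · intro hm om As dl ho0 ho1 hom hAs
    have hTn : ∀ d ∈ Ds, ∀ e ∈ EE, 0 ≤ w d e *
        E3Z548.TN (fun d _ m => al (d * m)) (fun e => (nm e : ℝ)) {d} {e} om {1} As dl :=
      fun d hd e he => mul_nonneg (hw0 d hd e he)
        (E3Z548.TN_nonneg _ (fun e => Nat.cast_nonneg _) _ _ hom _ _ _)
    refine le_trans (esum hTn he0 hI (Q := Q) (m := m) ?_) hfin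
    intro a _
    rcases (EE.filter (fun e => Nat.log 2 (nm e) = a)).eq_empty_or_nonempty with h0 | h0
    · rw [h0]
      simp only [sum_empty, sum_const_zero]
      positivity
    rw [hexp]
    refine (H X hX P hP q ps hN hz Y W T (Real.exp ((a : ℝ) * Real.log 2 + Real.log 2)) F Sh hY1
      hYu hWX hWT (Real.exp_pos _) hF hLip hcl al hdom hadm Ds
      (EE.filter (fun e => Nat.log 2 (nm e) = a)) (m + a * Real.log 2 + 2 * Real.log 2) φ w hφ hDs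
      (hblk a) (fun d hd e he => hw d hd e (mem_filter.1 he).1)).1
      (fun d hd b v hb hv hvW => ?_) om As dl ho0 ho1 hom hAs
    rw [Real.log_exp]
    have h2 := hm d hd b v hb hv hvW
    have h3 := e_line (b := b) hl2 (hne a h0)
    linarith
  · intro hm om Gs As dl hom hG hAs
    have hTn : ∀ d ∈ Ds, ∀ e ∈ EE, 0 ≤ w d e *
        E3Z548.TN (fun d _ m => al (d * m)) (fun e => (nm e : ℝ)) {d} {e} om Gs As dl :=
      fun d hd e he => mul_nonneg (hw0 d hd e he)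
        (E3Z548.TN_nonneg _ (fun e => Nat.cast_nonneg _) _ _ hom _ _ _)
    refine le_trans (esum hTn he0 hI (Q := Q) (m := m) ?_) hfin
    intro a _
    rcases (EE.filter (fun e => Nat.log 2 (nm e) = a)).eq_empty_or_nonempty with h0 | h0
    · rw [h0]
      simp only [sum_empty, sum_const_zero]
      positivity
    rw [hexp]
    refine (H X hX P hP q ps hN hz Y W T (Real.exp ((a : ℝ) * Real.log 2 + Real.log 2)) F Sh hY1
      hYu hWX hWT (Real.exp_pos _) hF hLip hcl al hdom hadm Ds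
      (EE.filter (fun e => Nat.log 2 (nm e) = a)) (m + a * Real.log 2 + 2 * Real.log 2) φ w hφ hDs
      (hblk a) (fun d hd e he => hw d hd e (mem_filter.1 he).1)).2
      (fun d hd b v hb hv hvW => ?_) om Gs As dl hom hG hAs
    rw [Real.log_exp]
    have h2 := hm d hd b v hb hv hvW
    have h3 := e_line (b := b) hl2 (hne a h0)
    linarith

end Crest.Agent.R017.E3N146
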