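import Crest.Agent.R017.E3Nb_146
import Crest.Agent.R017.E3Kc_548
import Crest.Agent.R017.E3Zc_548

/-!
# Row 17, R8 (E3): the T-part of the numbers `LVn` (helper146)

* **`LVTa`** : `Σ_d Σ_e LVn ≤ T-part + Σ_d Σ_e FH * RN` (helper579's `Z1F`)
* **`LVTb`** : `Σ_d Σ_e (N e)⁻¹ LVn ≤ T-part + Σ_d Σ_e (N e)⁻¹ FH * RN` (helper548's `Z2s`, `ET4a`)
-/

set_option autoImplicit false

noncomputable section

open Finset MeasureTheory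
open scoped ComplexConjugate Classical

namespace Crest.Agent.R017.E3N146

open Crest.Agent.R012 Crest.Agent.R012.Eis Crest.Agent.R012.MC
open Crest.Agent.R012.LS2 (S mem_S)
open Crest.Agent.R017.CM106 (CS FS TG)
open Crest.Agent.R017.C70
open Crest.Agent.R017.HP842 (Pc pc sqc alL)
open Crest.Agent.R017.B770
open Crest.Agent.R017.FE47 (PU cx)
open Crest.Agent.R017.Prov71
open Crest.Agent.R017.Leg381 (Pf alF SF LF natl alF_natl)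
open Crest.Agent.R017.I1146 (ChN LN cN SN Dom cN_nonneg CellS LipS numS)
open Crest.Agent.R017.E1551 hiding tau Dg
open Crest.Agent.R017.E3D579 (TE0)
open Crest.Agent.R017.E3T829 (cg)
open Crest.Agent.R017.E3Z548 (TN TN_nonneg JV JVc mem_JV FH FH_nonneg LVn)

/-- the frequencies with a main term are cube-free -/
lemma CF_of_JC {j : Eis} (h : JC j) : CF j := by
  obtain ⟨c, hc, j', hj', hcf, rfl⟩ := h
  have hc3 : c ∣ 3 := by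
    have e3 : (w : Eis) ^ 3 = 1 := by decide
    rcases hc with rfl | rfl | rfl | rfl
    · exact one_dvd _
    · exact dvd_rfl
    · exact ⟨w ^ 2, by linear_combination (-3) * e3⟩
    · exact ⟨w, by linear_combination (-3) * e3⟩
  have h30 : (3 : Eis) ≠ 0 := by decide
  have hc0 : c ≠ 0 := fun h0 => h30 (by rw [h0] at hc3; exact zero_dvd_iff.1 hc3)
  refine ⟨mul_ne_zero hc0 hj'.ne_zero, fun p hp hd => ?_⟩
  by_cases h3 : p ∣ 3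
  · have hcop : IsCoprime (p ^ 3) j' :=
      (IsCoprime.of_isCoprime_of_dvd_right hj'.isCoprime_three h3).symm.pow_left
    have h1 : p ^ 3 ∣ 3 := (hcop.dvd_of_dvd_mul_right hd).trans hc3
    obtain ⟨x, hx⟩ := h1
    have h2 : 9 = nm p ^ 3 * nm x := by
      rw [← nm_pow, ← nm_mul, ← hx, nm_three]
    have hp1 : nm p ≠ 1 := fun h4 => hp.not_isUnit (isUnit_iff.2 h4)
    have hp0 : nm p ≠ 0 := fun h4 => hp.ne_zero (nm_eq_zero.1 h4)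
    have hp2 : 2 ≤ nm p := by omega
    have hx0 : nm x ≠ 0 := fun h4 => by rw [h4] at h2; omega
    have h5 : 8 ≤ nm p ^ 3 := by
      calc 8 = 2 ^ 3 := by norm_num
        _ ≤ _ := Nat.pow_le_pow_left hp2 3
    rcases Nat.lt_or_ge (nm x) 2 with h6 | h6
    · have h7 : nm x = 1 := by omega
      rw [h7, mul_one] at h2
      rcases Nat.lt_or_ge (nm p) 3 with h8 | h8
      · have h9 : nm p = 2 := by omega
        rw [h9] at h2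
        omega
      · have : 27 ≤ nm p ^ 3 := by
          calc 27 = 3 ^ 3 := by norm_num
            _ ≤ _ := Nat.pow_le_pow_left h8 3
        omega
    · nlinarith
  · have hcop : IsCoprime p 3 := hp.irreducible.coprime_iff_not_dvd.2 h3
    have h1 : IsCoprime (p ^ 3) c := IsCoprime.of_isCoprime_of_dvd_right hcop.pow_left hc3
    exact hcf p hp (h1.dvd_of_dvd_mul_left hd)

lemma afT_eq {al : Eis → ℂ} {E0 : ℝ} (hal : ∀ n, al n ≠ 0 → IsPrim n) {d e : Eis} (hd : IsPrim d)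
    (he : e ∈ S E0) : E3Kc548.afT al E0 d e = fun n => al (d * n) := by
  funext n
  unfold E3Kc548.afT
  by_cases hn : IsPrim n
  · rw [if_pos ⟨hn, hd, he⟩]
  · rw [if_neg (fun h => hn h.1)]
    by_contra h0
    exact hn (IsPrim.of_mul_left (hal _ (Ne.symm h0)) hd)

lemma TN_one_congr {af : Eis → Eis → Eis → ℂ} {al : Eis → ℂ} {d e : Eis}
    (h : af d e = fun n => al (d * n)) (we : Eis → ℝ) (om : Eis → ℝ)
    (Gs : Finset Eis) (A : Eis → Eis → Finset Eis) (dl : Eis → Eis) :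
    TN af we {d} {e} om Gs A dl = TN (fun d _ n => al (d * n)) we {d} {e} om Gs A dl := by
  unfold TN
  simp only [sum_singleton, h]

/-- the coefficient of the cube-free lines -/
def cLS (K H V V' E1 B G1 : ℝ) : ℝ :=
  1 + (H * (V / V')) ^ (1 / 3 : ℝ) * (V' / K) * (E1 ^ 2 * B ^ 2 * G1) +
    (H * V ^ 2 * V' * E1 ^ 3 * B ^ 2 / K ^ 2) ^ (1 / 3 : ℝ)

/-- the coefficient of the lines with cubes -/
def cTT (K H V : ℝ) : ℝ :=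
  1 + (H ^ 2 * V ^ 3 / K ^ 2) ^ (1 / 3 : ℝ) + (H ^ 2 * V ^ 3 / K ^ 2) ^ (1 / 2 : ℝ)

/-- one term -/
lemma LVn_le {af : Eis → Eis → Eis → ℂ} {al : Eis → ℂ} {d e : Eis}
    (h : af d e = fun n => al (d * n)) {c Y K H V V' E1 B G1 RN : ℝ} (hK : 0 ≤ K) (hH : 0 ≤ H)
    (hV : 0 ≤ V) :
    LVn af {d} {e} c Y K H V V' E1 B G1 RN ≤
      FH K H V * cLS K H V V' E1 B G1 * TN (fun d _ n => al (d * n)) (fun e => (nm e : ℝ)) {d} {e}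
        (fun _ => 1) {1} (JVc c V) id +
      FH K H V * cTT K H V * TN (fun d _ n => al (d * n)) (fun e => (nm e : ℝ)) {d} {e}
        (fun γ => (nm γ : ℝ)⁻¹) (primBall ⌊Y⌋₊) (JV c V) (fun _ => 1) +
      FH K H V * cTT K H V * TN (fun d _ n => al (d * n)) (fun e => (nm e : ℝ)) {d} {e}
        (fun γ => (nm γ : ℝ) ^ (-(1 / 2) : ℝ)) (primBall ⌊Y⌋₊) (JV c V) (fun _ => 1) +
      FH K H V * RN := by
  have hF := FH_nonneg hK hH hV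
  have hq : 0 ≤ H ^ 2 * V ^ 3 / K ^ 2 := by positivity
  have ht : 0 ≤ (H ^ 2 * V ^ 3 / K ^ 2) ^ (1 / 3 : ℝ) := Real.rpow_nonneg hq _
  have ht' : 0 ≤ (H ^ 2 * V ^ 3 / K ^ 2) ^ (1 / 2 : ℝ) := Real.rpow_nonneg hq _
  have t1 := TN_nonneg (fun d _ n => al (d * n)) (we := fun e => (nm e : ℝ))
    (fun e => Nat.cast_nonneg _) {d} {e} (om := fun γ => (nm γ : ℝ)⁻¹)
    (fun γ => by positivity) (primBall ⌊Y⌋₊) (JV c V) (fun _ => 1)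
  have t2 := TN_nonneg (fun d _ n => al (d * n)) (we := fun e => (nm e : ℝ))
    (fun e => Nat.cast_nonneg _) {d} {e} (om := fun γ => (nm γ : ℝ) ^ (-(1 / 2) : ℝ))
    (fun γ => by positivity) (primBall ⌊Y⌋₊) (JV c V) (fun _ => 1)
  unfold LVn
  rw [TN_one_congr h, TN_one_congr h, TN_one_congr h]
  unfold cLS cTT
  have a1 := mul_nonneg hF (mul_nonneg ht' t1)
  have a2 := mul_nonneg hF (mul_nonneg ht t2)
  have a3 := mul_nonneg hF t2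
  nlinarith

/-- **the T-part of `Σ LVn`** -/
theorem LVTa {h : ℝ → ℝ} {c : ℝ} (hpu : PU h c) (N : ℕ) {R : ℝ} (hR : 0 ≤ R) {ε M B₂ : ℝ}
    (hε : 0 < ε) (hM : 0 ≤ M) (hB₂ : 0 < B₂) {ν Dd : ℝ} (hν : 1 ≤ ν) (hDd : 0 ≤ Dd) {L Lφ : ℝ}
    (hL : 0 ≤ L) (hLφ : 0 ≤ Lφ) :
    ∃ C r : ℝ, 0 ≤ C ∧ 0 ≤ r ∧ ∀ X : ℝ, 3 ≤ X → ∀ (P : DPar), P.OK → ∀ (q : Eis) (ps : List Pq),
      ps.length ≤ N → (∀ p ∈ ps, 0 ≤ p.z ∧ p.z ≤ Real.log X) →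
      ∀ (Y cc V T E0 F : ℝ) (Sh : ℝ → ℝ → ℝ → ℝ), 1 ≤ Y → Y ≤ X ^ B₂ → 0 < V → cc * V * ν ≤ X →
      Real.log (cc * V * ν) ≤ T → 0 < E0 → 0 ≤ F → LipS L Sh →
      CellS h P q ps (X ^ B₂) r M T (B₂ * Real.log X) F Sh →
      ∀ al : Eis → ℂ, Dom ν Dd (sqc q (alF 1 1 P h (natl ps))) al →
      Adm Y (Real.exp (LN ps)) R al → ∀ (Ds EE : Finset Eis) (m : ℝ) (φ₀ φ₁ : ℝ → ℝ)
        (af : Eis → Eis → Eis → ℂ) (H RN : Eis → Eis → ℝ) (Yg K V' E1 B G1 : ℝ),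
      (∀ x y, φ₀ x ≤ φ₀ y + Lφ * |x - y|) → (∀ x y, φ₁ x ≤ φ₁ y + Lφ * |x - y|) →
      (∀ d ∈ Ds, IsPrim d ∧ (nm d : ℝ) ≤ X ^ B₂) → (∀ e ∈ EE, e ∈ S E0) →
      (∀ d ∈ Ds, ∀ e ∈ EE, af d e = fun n => al (d * n)) → 0 < K → (∀ d e, 0 < H d e) →
      (∀ d ∈ Ds, ∀ e ∈ EE, FH K (H d e) V * cLS K (H d e) V V' E1 B G1 ≤
        Real.exp (φ₀ (Real.log (nm d)))) →
      (∀ d ∈ Ds, ∀ e ∈ EE, FH K (H d e) V * cTT K (H d e) V ≤
        Real.exp (φ₁ (Real.log (nm d)))) →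
      (∀ d ∈ Ds, ∀ b v : ℝ, 0 ≤ b → 0 ≤ v → v ≤ Real.log (cc * V) - 2 * Real.log (nm d) →
          φ₀ (Real.log (nm d)) + Sh (Real.log (nm d)) b v + 2 * Real.log (nm d) + b -
            2 * max 0 (b - Real.log E0) ≤ m) →
      (∀ d ∈ Ds, ∀ b v : ℝ, 0 ≤ b → 0 ≤ v → v ≤ Real.log (cc * V) - 2 * Real.log (nm d) →
          φ₁ (Real.log (nm d)) + Sh (Real.log (nm d)) b v + 2 * Real.log (nm d) + b -
            2 * max 0 (b - Real.log E0) + (Real.log (cc * V) - v - 2 * Real.log (nm d)) / 3 ≤ m) →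
      ∑ d ∈ Ds, ∑ e ∈ EE, LVn af {d} {e} cc Yg K (H d e) V V' E1 B G1 (RN d e) ≤
        C * X ^ ε * F * Real.exp (-(LN ps / 3)) * Real.exp m +
          ∑ d ∈ Ds, ∑ e ∈ EE, FH K (H d e) V * RN d e := by
  obtain ⟨C, r, hC, hr, G⟩ := TNw hpu N hR hε hM hB₂ hν hDd hL hLφ
  refine ⟨3 * C, r, by positivity, hr, ?_⟩
  intro X hX P hP q ps hN hz Y cc V T E0 F Sh hY1 hYu hV hWX hWT hE0 hF hLip hcl al hdom hadm Ds EE
    m φ₀ φ₁ af H RN Yg K V' E1 B G1 hφ₀ hφ₁ hDs hEE haf hK hH h₀ h₁ ha hb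
  have hX0 : 0 < X := by linarith
  have k0 := (G X hX P hP q ps hN hz Y (cc * V) T E0 F Sh hY1 hYu hWX hWT hE0 hF hLip hcl al hdom
    hadm Ds EE m φ₀ (fun d e => FH K (H d e) V * cLS K (H d e) V V' E1 B G1) hφ₀ hDs hEE h₀).1 ha
    (fun _ => 1) (JVc cc V) id zero_le_one le_rfl (fun _ => zero_le_one) (fun d hd j hj => by
      obtain ⟨h1, h2⟩ := mem_filter.1 hj
      obtain ⟨h3, h4⟩ := (mem_JV (hDs d hd).1.ne_zero one_ne_zero).1 h1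
      refine ⟨CF_of_JC h2, ?_⟩
      simpa using h4)
  have hG := fun Gs : Finset Eis => fun om : Eis → ℝ => fun h1 : (∀ γ, 0 ≤ om γ) =>
    fun h2 : (∀ γ ∈ Gs, IsPrim γ ∧ 0 ≤ om γ ∧ om γ ≤ (nm γ : ℝ) ^ (-(1 / 2) : ℝ)) =>
    (G X hX P hP q ps hN hz Y (cc * V) T E0 F Sh hY1 hYu hWX hWT hE0 hF hLip hcl al hdom
    hadm Ds EE m φ₁ (fun d e => FH K (H d e) V * cTT K (H d e) V) hφ₁ hDs hEE h₁).2 hb
    om Gs (JV cc V) (fun _ => 1) h1 h2 (fun d hd γ hγ j hj =>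
      (mem_JV (hDs d hd).1.ne_zero (h2 γ hγ).1.ne_zero).1 hj)
  have hγ : ∀ γ ∈ primBall ⌊Yg⌋₊, IsPrim γ ∧ (1 : ℝ) ≤ nm γ := fun γ hγ => by
    obtain ⟨-, h2⟩ := mem_primBall.1 hγ
    exact ⟨h2, by exact_mod_cast nm_pos.2 h2.ne_zero⟩
  have k1 := hG (primBall ⌊Yg⌋₊) (fun γ => (nm γ : ℝ)⁻¹) (fun γ => by positivity) (fun γ h1 =>
    ⟨(hγ γ h1).1, by positivity, by
      rw [← Real.rpow_neg_one]
      exact Real.rpow_le_rpow_of_exponent_le (hγ γ h1).2 (by norm_num)⟩)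
  have k2 := hG (primBall ⌊Yg⌋₊) (fun γ => (nm γ : ℝ) ^ (-(1 / 2) : ℝ)) (fun γ => by positivity)
    (fun γ h1 => ⟨(hγ γ h1).1, by positivity, le_rfl⟩)
  have key : ∑ d ∈ Ds, ∑ e ∈ EE, LVn af {d} {e} cc Yg K (H d e) V V' E1 B G1 (RN d e) ≤
      ∑ d ∈ Ds, ∑ e ∈ EE, FH K (H d e) V * cLS K (H d e) V V' E1 B G1 *
        TN (fun d _ n => al (d * n)) (fun e => (nm e : ℝ)) {d} {e} (fun _ => 1) {1} (JVc cc V) id +
      ∑ d ∈ Ds, ∑ e ∈ EE, FH K (H d e) V * cTT K (H d e) V *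
        TN (fun d _ n => al (d * n)) (fun e => (nm e : ℝ)) {d} {e}
        (fun γ => (nm γ : ℝ)⁻¹) (primBall ⌊Yg⌋₊) (JV cc V) (fun _ => 1) +
      ∑ d ∈ Ds, ∑ e ∈ EE, FH K (H d e) V * cTT K (H d e) V *
        TN (fun d _ n => al (d * n)) (fun e => (nm e : ℝ)) {d} {e}
        (fun γ => (nm γ : ℝ) ^ (-(1 / 2) : ℝ)) (primBall ⌊Yg⌋₊) (JV cc V) (fun _ => 1) +
      ∑ d ∈ Ds, ∑ e ∈ EE, FH K (H d e) V * RN d e := by
    rw [← sum_add_distrib, ← sum_add_distrib, ← sum_add_distrib]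
    refine sum_le_sum fun d hd => ?_
    rw [← sum_add_distrib, ← sum_add_distrib, ← sum_add_distrib]
    refine sum_le_sum fun e he => ?_
    exact LVn_le (haf d hd e he) hK.le (hH d e).le hV.le
  have e1 : 3 * C * X ^ ε * F * Real.exp (-(LN ps / 3)) * Real.exp m =
      C * X ^ ε * F * Real.exp (-(LN ps / 3)) * Real.exp m +
      C * X ^ ε * F * Real.exp (-(LN ps / 3)) * Real.exp m +
      C * X ^ ε * F * Real.exp (-(LN ps / 3)) * Real.exp m := by ring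
  rw [e1]
  refine key.trans ?_
  gcongr

/-- **the T-part of `Σ (N e)⁻¹ LVn`** -/
theorem LVTb {h : ℝ → ℝ} {c : ℝ} (hpu : PU h c) (N : ℕ) {R : ℝ} (hR : 0 ≤ R) {ε M B₂ : ℝ}
    (hε : 0 < ε) (hM : 0 ≤ M) (hB₂ : 0 < B₂) {ν Dd : ℝ} (hν : 1 ≤ ν) (hDd : 0 ≤ Dd) {L Lφ : ℝ}
    (hL : 0 ≤ L) (hLφ : 0 ≤ Lφ) :
    ∃ C r : ℝ, 0 ≤ C ∧ 0 ≤ r ∧ ∀ X : ℝ, 3 ≤ X → ∀ (P : DPar), P.OK → ∀ (q : Eis) (ps : List Pq),
      ps.length ≤ N → (∀ p ∈ ps, 0 ≤ p.z ∧ p.z ≤ Real.log X) →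
      ∀ (Y cc V T E0 F : ℝ) (Sh : ℝ → ℝ → ℝ → ℝ), 1 ≤ Y → Y ≤ X ^ B₂ → 0 < V → cc * V * ν ≤ X →
      Real.log (cc * V * ν) ≤ T → 0 < E0 → E0 ≤ X ^ B₂ → 0 ≤ F → LipS L Sh →
      CellS h P q ps (X ^ B₂) r M T (B₂ * Real.log X) F Sh →
      ∀ al : Eis → ℂ, Dom ν Dd (sqc q (alF 1 1 P h (natl ps))) al →
      Adm Y (Real.exp (LN ps)) R al → ∀ (Ds EE : Finset Eis) (m : ℝ) (φ₀ φ₁ : ℝ → ℝ)
        (af : Eis → Eis → Eis → ℂ) (H RN : Eis → Eis → ℝ) (Yg K V' E1 B G1 : ℝ),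
      (∀ x y, φ₀ x ≤ φ₀ y + Lφ * |x - y|) → (∀ x y, φ₁ x ≤ φ₁ y + Lφ * |x - y|) →
      (∀ d ∈ Ds, IsPrim d ∧ (nm d : ℝ) ≤ X ^ B₂) → (∀ e ∈ EE, e ∈ S E0) →
      (∀ d ∈ Ds, ∀ e ∈ EE, af d e = fun n => al (d * n)) → 0 < K → (∀ d e, 0 < H d e) →
      (∀ d ∈ Ds, ∀ e ∈ EE, 0 ≤ cLS K (H d e) V V' E1 B G1) →
      (∀ d ∈ Ds, ∀ e ∈ EE, FH K (H d e) V * cLS K (H d e) V V' E1 B G1 ≤
        Real.exp (φ₀ (Real.log (nm d)))) →
      (∀ d ∈ Ds, ∀ e ∈ EE, FH K (H d e) V * cTT K (H d e) V ≤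
        Real.exp (φ₁ (Real.log (nm d)))) →
      (∀ d ∈ Ds, ∀ b v : ℝ, 0 ≤ b → 0 ≤ v → v ≤ Real.log (cc * V) - 2 * Real.log (nm d) →
          φ₀ (Real.log (nm d)) + Sh (Real.log (nm d)) b v + 2 * Real.log (nm d) -
            max 0 (b - Real.log E0) ≤ m) →
      (∀ d ∈ Ds, ∀ b v : ℝ, 0 ≤ b → 0 ≤ v → v ≤ Real.log (cc * V) - 2 * Real.log (nm d) →
          φ₁ (Real.log (nm d)) + Sh (Real.log (nm d)) b v + 2 * Real.log (nm d) -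
            max 0 (b - Real.log E0) + (Real.log (cc * V) - v - 2 * Real.log (nm d)) / 3 ≤ m) →
      ∑ d ∈ Ds, ∑ e ∈ EE, (nm e : ℝ)⁻¹ *
          LVn af {d} {e} cc Yg K (H d e) V V' E1 B G1 (RN d e) ≤
        C * X ^ ε * F * Real.exp (-(LN ps / 3)) * Real.exp m +
          ∑ d ∈ Ds, ∑ e ∈ EE, (nm e : ℝ)⁻¹ * (FH K (H d e) V * RN d e) := by
  obtain ⟨C, r, hC, hr, G⟩ := TNw1 hpu N hR hε hM hB₂ hν hDd hL hLφ
  refine ⟨3 * C, r, by positivity, hr, ?_⟩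
  intro X hX P hP q ps hN hz Y cc V T E0 F Sh hY1 hYu hV hWX hWT hE0 hE0X hF hLip hcl al hdom hadm
    Ds EE m φ₀ φ₁ af H RN Yg K V' E1 B G1 hφ₀ hφ₁ hDs hEE haf hK hH hc0 h₀ h₁ ha hb
  have hX0 : 0 < X := by linarith
  have hFH : ∀ d e, 0 ≤ FH K (H d e) V := fun d e => FH_nonneg hK.le (hH d e).le hV.le
  have hcT : ∀ d e, 0 ≤ cTT K (H d e) V := fun d e => by
    have hq : 0 ≤ H d e ^ 2 * V ^ 3 / K ^ 2 := by positivity
    have ht : 0 ≤ (H d e ^ 2 * V ^ 3 / K ^ 2) ^ (1 / 3 : ℝ) := Real.rpow_nonneg hq _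
    have ht' : 0 ≤ (H d e ^ 2 * V ^ 3 / K ^ 2) ^ (1 / 2 : ℝ) := Real.rpow_nonneg hq _
    unfold cTT
    linarith
  have k0 := (G X hX P hP q ps hN hz Y (cc * V) T E0 F Sh hY1 hYu hWX hWT hE0 hE0X hF hLip hcl al
    hdom hadm Ds EE m φ₀ (fun d e => FH K (H d e) V * cLS K (H d e) V V' E1 B G1) hφ₀ hDs hEE
    (fun d hd e he => mul_nonneg (hFH d e) (hc0 d hd e he)) h₀).1 ha
    (fun _ => 1) (JVc cc V) id zero_le_one le_rfl (fun _ => zero_le_one) (fun d hd j hj => by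
      obtain ⟨h1, h2⟩ := mem_filter.1 hj
      obtain ⟨h3, h4⟩ := (mem_JV (hDs d hd).1.ne_zero one_ne_zero).1 h1
      refine ⟨CF_of_JC h2, ?_⟩
      simpa using h4)
  have hG := fun Gs : Finset Eis => fun om : Eis → ℝ => fun h1 : (∀ γ, 0 ≤ om γ) =>
    fun h2 : (∀ γ ∈ Gs, IsPrim γ ∧ 0 ≤ om γ ∧ om γ ≤ (nm γ : ℝ) ^ (-(1 / 2) : ℝ)) =>
    (G X hX P hP q ps hN hz Y (cc * V) T E0 F Sh hY1 hYu hWX hWT hE0 hE0X hF hLip hcl al hdom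
    hadm Ds EE m φ₁ (fun d e => FH K (H d e) V * cTT K (H d e) V) hφ₁ hDs hEE
    (fun d _ e _ => mul_nonneg (hFH d e) (hcT d e)) h₁).2 hb
    om Gs (JV cc V) (fun _ => 1) h1 h2 (fun d hd γ hγ j hj =>
      (mem_JV (hDs d hd).1.ne_zero (h2 γ hγ).1.ne_zero).1 hj)
  have hγ : ∀ γ ∈ primBall ⌊Yg⌋₊, IsPrim γ ∧ (1 : ℝ) ≤ nm γ := fun γ hγ => by
    obtain ⟨-, h2⟩ := mem_primBall.1 hγ
    exact ⟨h2, by exact_mod_cast nm_pos.2 h2.ne_zero⟩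
  have k1 := hG (primBall ⌊Yg⌋₊) (fun γ => (nm γ : ℝ)⁻¹) (fun γ => by positivity) (fun γ h1 =>
    ⟨(hγ γ h1).1, by positivity, by
      rw [← Real.rpow_neg_one]
      exact Real.rpow_le_rpow_of_exponent_le (hγ γ h1).2 (by norm_num)⟩)
  have k2 := hG (primBall ⌊Yg⌋₊) (fun γ => (nm γ : ℝ) ^ (-(1 / 2) : ℝ)) (fun γ => by positivity)
    (fun γ h1 => ⟨(hγ γ h1).1, by positivity, le_rfl⟩)
  have key : ∑ d ∈ Ds, ∑ e ∈ EE, (nm e : ℝ)⁻¹ *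
        LVn af {d} {e} cc Yg K (H d e) V V' E1 B G1 (RN d e) ≤
      ∑ d ∈ Ds, ∑ e ∈ EE, (nm e : ℝ)⁻¹ * (FH K (H d e) V * cLS K (H d e) V V' E1 B G1 *
        TN (fun d _ n => al (d * n)) (fun e => (nm e : ℝ)) {d} {e} (fun _ => 1) {1} (JVc cc V)
          id) +
      ∑ d ∈ Ds, ∑ e ∈ EE, (nm e : ℝ)⁻¹ * (FH K (H d e) V * cTT K (H d e) V *
        TN (fun d _ n => al (d * n)) (fun e => (nm e : ℝ)) {d} {e}
        (fun γ => (nm γ : ℝ)⁻¹) (primBall ⌊Yg⌋₊) (JV cc V) (fun _ => 1)) +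
      ∑ d ∈ Ds, ∑ e ∈ EE, (nm e : ℝ)⁻¹ * (FH K (H d e) V * cTT K (H d e) V *
        TN (fun d _ n => al (d * n)) (fun e => (nm e : ℝ)) {d} {e}
        (fun γ => (nm γ : ℝ) ^ (-(1 / 2) : ℝ)) (primBall ⌊Yg⌋₊) (JV cc V) (fun _ => 1)) +
      ∑ d ∈ Ds, ∑ e ∈ EE, (nm e : ℝ)⁻¹ * (FH K (H d e) V * RN d e) := by
    rw [← sum_add_distrib, ← sum_add_distrib, ← sum_add_distrib]
    refine sum_le_sum fun d hd => ?_
    rw [← sum_add_distrib, ← sum_add_distrib, ← sum_add_distrib]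
    refine sum_le_sum fun e he => ?_
    rw [← mul_add, ← mul_add, ← mul_add]
    exact mul_le_mul_of_nonneg_left (LVn_le (haf d hd e he) hK.le (hH d e).le hV.le)
      (by positivity)
  have e1 : 3 * C * X ^ ε * F * Real.exp (-(LN ps / 3)) * Real.exp m =
      C * X ^ ε * F * Real.exp (-(LN ps / 3)) * Real.exp m +
      C * X ^ ε * F * Real.exp (-(LN ps / 3)) * Real.exp m +
      C * X ^ ε * F * Real.exp (-(LN ps / 3)) * Real.exp m := by ring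
  rw [e1]
  refine key.trans ?_
  gcongr

end Crest.Agent.R017.E3N146
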