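import Mathlib.Tactic.Linarith
import Mathlib.Data.Real.Basic
import Mathlib.Tactic.Positivity

/-!
# Row 17, R8 (E3): the real T-lines of the Gram error of `P1_0` (helper146)

`k` family, `N` length, `x` share, `ex = max 0 (5/4 N - k)`, `v` level, `vt` top level, `p` length
of the child, `δ` divisor, `b` block of `e`, `l` level of the claim, `h` exponent of `H`,
`η` exponent of `E1`.
-/

set_option autoImplicit false
set_option linter.unusedVariables false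

noncomputable section

namespace Crest.Agent.R017.E3N146

/-- the frame of the T-lines -/
structure Tf (k N x ex v p t : ℝ) : Prop where
  k0 : 0 < k
  x0 : 0 ≤ x
  N1 : N ≤ 102 / 125 * k
  adm : (x ≤ k / 320 ∧ (x = 0 ∨ N + x ≤ 4 / 5 * k)) ∨
    (3 / 4 * k ≤ N ∧ x ≤ k / 36 ∧ x + 7 / 10 * N ≤ 199 / 360 * k)
  ex0 : 0 ≤ ex
  ex1 : 5 / 4 * N - k ≤ ex
  v1 : v ≤ 2 * N - k + 9 / 4 * x + t
  v2 : v ≤ 3 / 4 * N + 9 / 4 * x + t
  p0 : k / 2 - 2 * x - t ≤ p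
  p1 : p ≤ N + x + t
  t0 : 0 ≤ t
  t1 : t ≤ k / 20000

/-- the cases of the T-numbers -/
def TC (K5 b l n x T : ℝ) : Prop :=
  T ≤ l + n ∨ ((T ≤ 2 * n ∨ T ≤ 4 / 3 * n + (K5 + b / 2 + l) / 3 ∨
    (T ≤ 4 / 3 * n + 5 / 6 * l ∧ K5 + b / 2 ≤ 3 / 2 * l)) ∧
    (T ≤ l + 4 / 3 * n + 2 / 3 * x ∨ T ≤ 5 / 3 * n + l / 3))

lemma tc_of {K5 b l n x T : ℝ} (h : T ≤ max (min (max (2 * n) (4 / 3 * n +
      (max (K5 + b / 2) (3 / 2 * l) + l) / 3)) (max (l + n + (n / 3 + 2 / 3 * x))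
        (5 / 3 * n + l / 3))) (l + n)) : TC K5 b l n x T := by
  unfold TC
  rcases le_max_iff.1 h with h | h
  · right
    obtain ⟨h1, h2⟩ := le_min_iff.1 h
    constructor
    · rcases le_max_iff.1 h1 with h1 | h1
      · exact Or.inl h1
      · right
        rcases le_total (K5 + b / 2) (3 / 2 * l) with h3 | h3
        · rw [max_eq_right h3] at h1
          exact Or.inr ⟨by linarith, h3⟩
        · rw [max_eq_left h3] at h1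
          exact Or.inl h1
    · rcases le_max_iff.1 h2 with h2 | h2
      · exact Or.inl (by linarith)
      · exact Or.inr h2
  · exact Or.inl h

/-- line 3/4, small `δ` -/
theorem line_b1 {k N x ex v p t δ b l T M h : ℝ} (H : Tf k N x ex v p t) (δ0 : 0 ≤ δ) (b0 : 0 ≤ b)
    (M0 : 0 ≤ M) (M1 : b - k / 64 - t ≤ M) (hl : l ≤ v - 2 * δ + b + t)
    (hT : TC (k + ex) b l (p - δ - b) x T) (h1 : k / 64 - t ≤ h)
    (h2 : 4 / 3 * (p - δ) - k + x - 3 * ex - t ≤ h) :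
    2 / 3 * k - h / 3 + T + 4 / 3 * δ + 4 / 3 * b - 2 * M - l / 3 - p / 3 ≤
      k + p + ex + 10 * t := by
  obtain ⟨k0, x0, N1, adm, ex0, ex1, v1, v2, p0, p1, t0, t1⟩ := H
  rcases hT with hT | ⟨hF, hC⟩
  · rcases adm with ⟨a1, rfl | a2⟩ | ⟨a1, a2, a3⟩ <;> linarith
  · rcases hF with hF | hF | ⟨hF, hF2⟩
    · rcases hC with hC | hC
      · linarith
      · rcases adm with ⟨a1, rfl | a2⟩ | ⟨a1, a2, a3⟩ <;> linarith
    · linarith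
    · rcases adm with ⟨a1, rfl | a2⟩ | ⟨a1, a2, a3⟩ <;> linarith

/-- line 3/4, large `δ` -/
theorem line_b2 {k N x ex v p t δ b l T M h : ℝ} (H : Tf k N x ex v p t) (δ0 : k / 10 - t ≤ δ)
    (b0 : 0 ≤ b) (M0 : 0 ≤ M) (M1 : b - k / 64 - t ≤ M) (hl : l ≤ v - 2 * δ + b + t)
    (hT : TC (k + ex) b l (p - δ - b) x T) (h1 : k + δ - 2 * v - t ≤ h) :
    2 / 3 * k - h / 3 + T + 4 / 3 * δ + 4 / 3 * b - 2 * M - l / 3 - p / 3 ≤
      k + p + ex + 10 * t := by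
  obtain ⟨k0, x0, N1, adm, ex0, ex1, v1, v2, p0, p1, t0, t1⟩ := H
  rcases hT with hT | ⟨hF, hC⟩
  · rcases adm with ⟨a1, rfl | a2⟩ | ⟨a1, a2, a3⟩ <;> linarith
  · rcases hC with hC | hC
    · rcases adm with ⟨a1, rfl | a2⟩ | ⟨a1, a2, a3⟩ <;> linarith
    · rcases adm with ⟨a1, rfl | a2⟩ | ⟨a1, a2, a3⟩ <;> linarith

/-- the L-line -/
theorem line_L {k N x ex v vt p t δ b l T M η : ℝ} (H : Tf k N x ex vt p t) (δ0 : 0 ≤ δ)
    (b0 : 0 ≤ b) (M0 : 0 ≤ M) (M1 : b - k / 64 - t ≤ M) (hv : v ≤ vt)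
    (hl : l ≤ v - 2 * δ + b + t)
    (hT : TC (k + ex) b l (p - δ - b) x T) (hη : η ≤ k / 22 + t) :
    2 / 3 * vt - k / 3 + 2 * η + v / 2 + T + 2 * δ + b - 2 * M - p / 3 ≤
      k + p + ex + 10 * t := by
  obtain ⟨k0, x0, N1, adm, ex0, ex1, v1, v2, p0, p1, t0, t1⟩ := H
  rcases hT with hT | ⟨hF, hC⟩
  · rcases adm with ⟨a1, rfl | a2⟩ | ⟨a1, a2, a3⟩ <;> linarith
  · rcases hF with hF | hF | ⟨hF, hF2⟩
    · rcases adm with ⟨a1, rfl | a2⟩ | ⟨a1, a2, a3⟩ <;> linarith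
    · rcases adm with ⟨a1, rfl | a2⟩ | ⟨a1, a2, a3⟩ <;> linarith
    · rcases adm with ⟨a1, rfl | a2⟩ | ⟨a1, a2, a3⟩ <;> linarith

/-- the LS-line -/
theorem line_S {k N x ex v vt p t δ b l T M η : ℝ} (H : Tf k N x ex vt p t) (δ0 : 0 ≤ δ)
    (b0 : 0 ≤ b) (M0 : 0 ≤ M) (M1 : b - k / 64 - t ≤ M) (hv : v ≤ vt)
    (hl : l ≤ v - 2 * δ + b + t)
    (hT : TC (k + ex) b l (p - δ - b) x T) (hη : η ≤ k / 22 + t) :
    (v + vt) / 3 + η + T + 2 * δ + b - 2 * M - p / 3 ≤ k + p + ex + 10 * t := by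
  obtain ⟨k0, x0, N1, adm, ex0, ex1, v1, v2, p0, p1, t0, t1⟩ := H
  rcases hT with hT | ⟨hF, hC⟩
  · rcases adm with ⟨a1, rfl | a2⟩ | ⟨a1, a2, a3⟩ <;> linarith
  · rcases hF with hF | hF | ⟨hF, hF2⟩
    · rcases adm with ⟨a1, rfl | a2⟩ | ⟨a1, a2, a3⟩ <;> linarith
    · rcases adm with ⟨a1, rfl | a2⟩ | ⟨a1, a2, a3⟩ <;> linarith
    · rcases adm with ⟨a1, rfl | a2⟩ | ⟨a1, a2, a3⟩ <;> linarith

/-- `H² V³ ≤ K²`, small `δ` -/
theorem line_th1 {k N x ex v p t δ h : ℝ} (H : Tf k N x ex v p t) (δ0 : 0 ≤ δ)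
    (hh : h ≤ k / 64 + t ∨ h ≤ 4 / 3 * (p - δ) - k + x - 3 * ex + t) :
    2 * h + 3 * v ≤ 2 * k := by
  obtain ⟨k0, x0, N1, adm, ex0, ex1, v1, v2, p0, p1, t0, t1⟩ := H
  rcases hh with hh | hh <;>
  rcases adm with ⟨a1, rfl | a2⟩ | ⟨a1, a2, a3⟩ <;> linarith

end Crest.Agent.R017.E3N146
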