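import Crest.Agent.R017.E3Nc_146
import Crest.Agent.R017.E3Nd_146
import Crest.Agent.R017.E3Ne_146
import Crest.Agent.R017.RnPf_571

/-!
# Row 17, R8 (E3): the T-half of the Gram error of `P1_0` (helper146)

* `HE` : the exponent of `H` (`hJ` on `nm d ≤ K^(1/10)`, no structured part beyond)
* `FH_cLS`, `FH_cTT` : the coefficients
* `ln_a`, `ln_b` : the real lines
-/

set_option autoImplicit false
set_option linter.unusedVariables false

noncomputable section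

open Finset

namespace Crest.Agent.R017.E3N146

open Crest.Agent.R012 Crest.Agent.R012.Eis
open Crest.Agent.R012.LS2 (S mem_S)
open Crest.Agent.R017.E3Z548 (TN TN_nonneg JV JVc mem_JV FH FH_nonneg LVn)
open Crest.Agent.R017.RnP571 (hJ)

/-- the exponent of `H` -/
def HE (k p x ex κ c' : ℝ) (i : ℕ) (γ : ℝ) : ℝ :=
  if γ ≤ κ / 10 then hJ k p γ x ex else κ - 2 * i - c' + min γ p

lemma FH_exp (κ h v : ℝ) : FH (Real.exp κ) (Real.exp h) (Real.exp v) =
    Real.exp (2 / 3 * κ - (h + v) / 3) := by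
  unfold FH
  rw [← Real.exp_add, ← Real.exp_mul, ← Real.exp_mul, ← Real.exp_add]
  congr 1
  ring

/-- the coefficient of the cube-free lines -/
lemma FH_cLS (κ h v vt η lc : ℝ) :
    FH (Real.exp κ) (Real.exp h) (Real.exp v) * cLS (Real.exp κ) (Real.exp h) (Real.exp v)
      (Real.exp vt) (Real.exp η) 2 (Real.exp ((lc + v) / 2)) ≤
    Real.exp (Real.log 12 + max (2 / 3 * κ - (h + v) / 3)
      (max (2 / 3 * vt - κ / 3 + 2 * η + v / 2 + lc / 2) ((v + vt) / 3 + η))) := by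
  rw [FH_exp]
  unfold cLS
  have e1 : (Real.exp h * (Real.exp v / Real.exp vt)) ^ (1 / 3 : ℝ) *
      (Real.exp vt / Real.exp κ) * (Real.exp η ^ 2 * 2 ^ 2 * Real.exp ((lc + v) / 2)) =
      4 * Real.exp ((h + v - vt) / 3 + (vt - κ) + 2 * η + (lc + v) / 2) := by
    rw [← Real.exp_sub, ← Real.exp_add, ← Real.exp_mul, ← Real.exp_sub]
    have : Real.exp η ^ 2 = Real.exp (2 * η) := by rw [← Real.exp_nat_mul]; norm_num
    rw [this]
    have e2 : Real.exp ((h + (v - vt)) * (1 / 3)) * Real.exp (vt - κ) *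
        (Real.exp (2 * η) * 2 ^ 2 * Real.exp ((lc + v) / 2)) =
        4 * (Real.exp ((h + (v - vt)) * (1 / 3)) * Real.exp (vt - κ) * Real.exp (2 * η) *
          Real.exp ((lc + v) / 2)) := by ring
    rw [e2, ← Real.exp_add, ← Real.exp_add, ← Real.exp_add]
    congr 2
    ring
  have e3 : (Real.exp h * Real.exp v ^ 2 * Real.exp vt * Real.exp η ^ 3 * 2 ^ 2 /
      Real.exp κ ^ 2) ^ (1 / 3 : ℝ) ≤
      4 * Real.exp ((h + 2 * v + vt + 3 * η - 2 * κ) / 3) := by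
    have h1 : Real.exp h * Real.exp v ^ 2 * Real.exp vt * Real.exp η ^ 3 * 2 ^ 2 /
        Real.exp κ ^ 2 = 4 * Real.exp (h + 2 * v + vt + 3 * η - 2 * κ) := by
      have a1 : Real.exp v ^ 2 = Real.exp (2 * v) := by rw [← Real.exp_nat_mul]; norm_num
      have a2 : Real.exp η ^ 3 = Real.exp (3 * η) := by rw [← Real.exp_nat_mul]; norm_num
      have a3 : Real.exp κ ^ 2 = Real.exp (2 * κ) := by rw [← Real.exp_nat_mul]; norm_num
      rw [a1, a2, a3, Real.exp_sub, Real.exp_add, Real.exp_add, Real.exp_add]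
      ring
    rw [h1, Real.mul_rpow (by norm_num) (Real.exp_pos _).le, ← Real.exp_mul]
    have h2 : (4 : ℝ) ^ (1 / 3 : ℝ) ≤ 4 := by
      have : (4 : ℝ) ^ (1 / 3 : ℝ) ≤ (4 : ℝ) ^ (1 : ℝ) :=
        Real.rpow_le_rpow_of_exponent_le (by norm_num) (by norm_num)
      rwa [Real.rpow_one] at this
    have h3 : (h + 2 * v + vt + 3 * η - 2 * κ) * (1 / 3) =
        (h + 2 * v + vt + 3 * η - 2 * κ) / 3 := by ring
    rw [h3]
    exact mul_le_mul_of_nonneg_right h2 (Real.exp_pos _).le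
  rw [e1]
  obtain ⟨m, hm⟩ : ∃ m, m = max (2 / 3 * κ - (h + v) / 3)
      (max (2 / 3 * vt - κ / 3 + 2 * η + v / 2 + lc / 2) ((v + vt) / 3 + η)) := ⟨_, rfl⟩
  rw [← hm, Real.exp_add (Real.log 12) m, Real.exp_log (by norm_num)]
  have m1 : Real.exp (2 / 3 * κ - (h + v) / 3) ≤ Real.exp m := Real.exp_le_exp.2 (by
    rw [hm]; exact le_max_left _ _)
  have m2 : Real.exp (2 / 3 * vt - κ / 3 + 2 * η + v / 2 + lc / 2) ≤ Real.exp m :=
    Real.exp_le_exp.2 (by rw [hm]; exact (le_max_left _ _).trans (le_max_right _ _))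
  have m3 : Real.exp ((v + vt) / 3 + η) ≤ Real.exp m :=
    Real.exp_le_exp.2 (by rw [hm]; exact (le_max_right _ _).trans (le_max_right _ _))
  have f0 : 0 ≤ Real.exp (2 / 3 * κ - (h + v) / 3) := (Real.exp_pos _).le
  have g2 : Real.exp (2 / 3 * κ - (h + v) / 3) *
      (4 * Real.exp ((h + v - vt) / 3 + (vt - κ) + 2 * η + (lc + v) / 2)) =
      4 * Real.exp (2 / 3 * vt - κ / 3 + 2 * η + v / 2 + lc / 2) := by
    have : Real.exp (2 / 3 * vt - κ / 3 + 2 * η + v / 2 + lc / 2) =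
        Real.exp (2 / 3 * κ - (h + v) / 3) *
          Real.exp ((h + v - vt) / 3 + (vt - κ) + 2 * η + (lc + v) / 2) := by
      rw [← Real.exp_add]; congr 1; ring
    rw [this]; ring
  have g3 : Real.exp (2 / 3 * κ - (h + v) / 3) *
      (4 * Real.exp ((h + 2 * v + vt + 3 * η - 2 * κ) / 3)) =
      4 * Real.exp ((v + vt) / 3 + η) := by
    have : Real.exp ((v + vt) / 3 + η) =
        Real.exp (2 / 3 * κ - (h + v) / 3) *
          Real.exp ((h + 2 * v + vt + 3 * η - 2 * κ) / 3) := by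
      rw [← Real.exp_add]; congr 1; ring
    rw [this]; ring
  have g4 := mul_le_mul_of_nonneg_left e3 f0
  have hpos := Real.exp_pos m
  calc _ = Real.exp (2 / 3 * κ - (h + v) / 3) + Real.exp (2 / 3 * κ - (h + v) / 3) *
      (4 * Real.exp ((h + v - vt) / 3 + (vt - κ) + 2 * η + (lc + v) / 2)) +
      Real.exp (2 / 3 * κ - (h + v) / 3) * (Real.exp h * Real.exp v ^ 2 * Real.exp vt *
        Real.exp η ^ 3 * 2 ^ 2 / Real.exp κ ^ 2) ^ (1 / 3 : ℝ) := by ring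
    _ ≤ 12 * Real.exp m := by
      rw [g2]
      rw [g3] at g4
      linarith

/-- the coefficient of the lines with cubes -/
lemma FH_cTT {κ h v : ℝ} (hh : 2 * h + 3 * v ≤ 2 * κ) :
    FH (Real.exp κ) (Real.exp h) (Real.exp v) * cTT (Real.exp κ) (Real.exp h) (Real.exp v) ≤
    Real.exp (Real.log 12 + (2 / 3 * κ - (h + v) / 3)) := by
  rw [FH_exp, Real.exp_add (Real.log 12) _, Real.exp_log (by norm_num)]
  unfold cTT
  have h1 : Real.exp h ^ 2 * Real.exp v ^ 3 / Real.exp κ ^ 2 ≤ 1 := by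
    have a1 : Real.exp h ^ 2 = Real.exp (2 * h) := by rw [← Real.exp_nat_mul]; norm_num
    have a2 : Real.exp v ^ 3 = Real.exp (3 * v) := by rw [← Real.exp_nat_mul]; norm_num
    have a3 : Real.exp κ ^ 2 = Real.exp (2 * κ) := by rw [← Real.exp_nat_mul]; norm_num
    rw [a1, a2, a3, ← Real.exp_add, ← Real.exp_sub]
    exact Real.exp_le_one_iff.2 (by linarith)
  have h0 : 0 ≤ Real.exp h ^ 2 * Real.exp v ^ 3 / Real.exp κ ^ 2 := by positivity
  have h2 : (Real.exp h ^ 2 * Real.exp v ^ 3 / Real.exp κ ^ 2) ^ (1 / 3 : ℝ) ≤ 1 :=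
    Real.rpow_le_one h0 h1 (by norm_num)
  have h3 : (Real.exp h ^ 2 * Real.exp v ^ 3 / Real.exp κ ^ 2) ^ (1 / 2 : ℝ) ≤ 1 :=
    Real.rpow_le_one h0 h1 (by norm_num)
  have hf := Real.exp_pos (2 / 3 * κ - (h + v) / 3)
  nlinarith

/-- Lipschitz weights -/
lemma lip_g {g : ℝ → ℝ} (hg : ∀ x y, g x ≤ g y + 4 / 3 * |x - y|) (A B C D : ℝ) :
    (∀ x y, A + (B - (g x + C) / 3) ≤ A + (B - (g y + C) / 3) + 4 / 3 * |x - y|) ∧
    (∀ x y, A + max (B - (g x + C) / 3) D ≤ A + max (B - (g y + C) / 3) D + 4 / 3 * |x - y|) := by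
  have key : ∀ x y, B - (g x + C) / 3 ≤ B - (g y + C) / 3 + 4 / 3 * |x - y| := by
    intro x y
    have h1 := hg y x
    rw [abs_sub_comm] at h1
    have := abs_nonneg (x - y)
    linarith
  refine ⟨fun x y => by linarith [key x y], fun x y => ?_⟩
  have h0 := abs_nonneg (x - y)
  have h1 : max (B - (g x + C) / 3) D ≤ max (B - (g y + C) / 3) D + 4 / 3 * |x - y| := by
    refine max_le ((key x y).trans ?_) ?_
    · have := le_max_left (B - (g y + C) / 3) D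
      linarith
    · have := le_max_right (B - (g y + C) / 3) D
      linarith
  linarith

lemma lip_hJ (k p x ex : ℝ) : ∀ γ γ', hJ k p γ x ex ≤ hJ k p γ' x ex + 4 / 3 * |γ - γ'| := by
  intro γ γ'
  unfold hJ
  have h0 := abs_nonneg (γ - γ')
  have h1 := neg_abs_le (γ - γ')
  refine max_le ?_ ?_
  · have := le_max_left (k / 64) (4 / 3 * (p - γ') - k + x - 3 * ex)
    linarith
  · have := le_max_right (k / 64) (4 / 3 * (p - γ') - k + x - 3 * ex)
    linarith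

lemma lip_h2 (a p : ℝ) : ∀ γ γ', a + min γ p ≤ a + min γ' p + 4 / 3 * |γ - γ'| := by
  intro γ γ'
  have h0 := abs_nonneg (γ - γ')
  have h1 := le_abs_self (γ - γ')
  have : min γ p ≤ min γ' p + |γ - γ'| := by
    rw [← min_add_add_right]
    refine le_min ((min_le_left _ _).trans (by linarith)) ((min_le_right _ _).trans (by linarith))
  linarith

/-- **the lines with cubes**, small divisors -/
lemma ln_b1 {k N x ex i p t κ lc δ b v T lE : ℝ} (H : Tf k N x ex i p t) (δ0 : 0 ≤ δ)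
    (b0 : 0 ≤ b) (hE : lE ≤ k / 64 + t) (hv : v ≤ lc + i - 2 * δ) (hlc : lc ≤ t)
    (hlc0 : 0 ≤ lc) (h12 : Real.log 12 ≤ t) (hκ : κ ≤ k + t)
    (hT : TC (k + ex) b (v + b) (p - δ - b) x T) :
    Real.log 12 + (2 / 3 * κ - (hJ k p δ x ex + i) / 3) + T + 2 * δ + b -
      2 * max 0 (b - lE) + (lc + i - v - 2 * δ) / 3 ≤ k + 4 / 3 * p + ex + 20 * t := by
  have t0 := H.t0
  have M0 := le_max_left 0 (b - lE)
  have M1 := le_max_right 0 (b - lE)
  have h1 := le_max_left (k / 64) (4 / 3 * (p - δ) - k + x - 3 * ex)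
  have h2 := le_max_right (k / 64) (4 / 3 * (p - δ) - k + x - 3 * ex)
  have key := line_b1 (M := max 0 (b - lE)) (h := hJ k p δ x ex) H δ0 b0 M0 (by linarith)
    (by linarith) hT (by unfold hJ; linarith) (by unfold hJ; linarith)
  linarith

/-- **the lines with cubes**, large divisors -/
lemma ln_b2 {k N x ex i p t κ lc c' δ b v T lE : ℝ} (H : Tf k N x ex i p t) (δ0 : 0 ≤ δ)
    (δ1 : κ / 10 ≤ δ) (hδp : δ ≤ p) (hk : k - t / 2 ≤ κ) (hc' : c' ≤ t / 2)
    (b0 : 0 ≤ b) (hE : lE ≤ k / 64 + t) (hv : v ≤ lc + i - 2 * δ) (hlc : lc ≤ t)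
    (hlc0 : 0 ≤ lc) (h12 : Real.log 12 ≤ t) (hκ : κ ≤ k + t)
    (hT : TC (k + ex) b (v + b) (p - δ - b) x T) :
    Real.log 12 + (2 / 3 * κ - ((κ - 2 * i - c' + min δ p) + i) / 3) + T + 2 * δ + b -
      2 * max 0 (b - lE) + (lc + i - v - 2 * δ) / 3 ≤ k + 4 / 3 * p + ex + 20 * t := by
  have t0 := H.t0
  have M0 := le_max_left 0 (b - lE)
  have M1 := le_max_right 0 (b - lE)
  rw [min_eq_left hδp]
  have key := line_b2 (M := max 0 (b - lE)) (h := κ - 2 * i - c' + δ) H (by linarith) b0 M0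
    (by linarith) (l := v + b) (by linarith) hT (by linarith)
  linarith

/-- **the cube-free lines** -/
lemma ln_a {k N x ex i vt p t κ lc δ b v T lE η g : ℝ} (H : Tf k N x ex vt p t) (δ0 : 0 ≤ δ)
    (hi : i ≤ vt) (b0 : 0 ≤ b) (hE : lE ≤ k / 64 + t) (hv : v ≤ lc + i - 2 * δ) (hlc : lc ≤ t)
    (hlc0 : 0 ≤ lc) (h12 : Real.log 12 ≤ t) (hk : k - t / 2 ≤ κ) (hη : η ≤ k / 22 + t)
    (hT : TC (k + ex) b (v + b) (p - δ - b) x T)
    (hb : Real.log 12 + (2 / 3 * κ - (g + i) / 3) + T + 2 * δ + b -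
      2 * max 0 (b - lE) + (lc + i - v - 2 * δ) / 3 ≤ k + 4 / 3 * p + ex + 20 * t) :
    Real.log 12 + max (2 / 3 * κ - (g + i) / 3) (max (2 / 3 * vt - κ / 3 + 2 * η + i / 2 + lc / 2)
      ((i + vt) / 3 + η)) + T + 2 * δ + b - 2 * max 0 (b - lE) ≤
      k + 4 / 3 * p + ex + 20 * t := by
  have t0 := H.t0
  have M0 := le_max_left 0 (b - lE)
  have M1 := le_max_right 0 (b - lE)
  have key1 := line_L (M := max 0 (b - lE)) (v := i) (l := v + b) H δ0 b0 M0 (by linarith) hi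
    (by linarith) hT hη
  have key2 := line_S (M := max 0 (b - lE)) (v := i) (l := v + b) H δ0 b0 M0 (by linarith) hi
    (by linarith) hT hη
  have h3 : max (2 / 3 * κ - (g + i) / 3) (max (2 / 3 * vt - κ / 3 + 2 * η + i / 2 + lc / 2)
      ((i + vt) / 3 + η)) ≤ k + 4 / 3 * p + ex + 20 * t - (Real.log 12 + T + 2 * δ + b -
        2 * max 0 (b - lE)) := by
    refine max_le (by linarith) (max_le (by linarith) (by linarith))
  linarith

/-- the coefficient of the cube-free lines, form with `V' = V` -/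
lemma FH_cLS' (κ h v η : ℝ) :
    FH (Real.exp κ) (Real.exp h) (Real.exp v) * cLS (Real.exp κ) (Real.exp h) (Real.exp v)
      (Real.exp v) (Real.exp η) 1 1 ≤
    Real.exp (Real.log 12 + max (2 / 3 * κ - (h + v) / 3)
      (max (2 / 3 * v - κ / 3 + 2 * η) (2 / 3 * v + η))) := by
  rw [FH_exp]
  unfold cLS
  have e1 : (Real.exp h * (Real.exp v / Real.exp v)) ^ (1 / 3 : ℝ) *
      (Real.exp v / Real.exp κ) * (Real.exp η ^ 2 * 1 ^ 2 * 1) =
      Real.exp (h / 3 + (v - κ) + 2 * η) := by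
    rw [div_self (Real.exp_pos v).ne', mul_one, ← Real.exp_mul, ← Real.exp_sub]
    have : Real.exp η ^ 2 = Real.exp (2 * η) := by rw [← Real.exp_nat_mul]; norm_num
    rw [this, one_pow, mul_one, mul_one, ← Real.exp_add, ← Real.exp_add]
    congr 1
    ring
  have e3 : (Real.exp h * Real.exp v ^ 2 * Real.exp v * Real.exp η ^ 3 * 1 ^ 2 /
      Real.exp κ ^ 2) ^ (1 / 3 : ℝ) =
      Real.exp ((h + 3 * v + 3 * η - 2 * κ) / 3) := by
    have h1 : Real.exp h * Real.exp v ^ 2 * Real.exp v * Real.exp η ^ 3 * 1 ^ 2 /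
        Real.exp κ ^ 2 = Real.exp (h + 3 * v + 3 * η - 2 * κ) := by
      have a1 : Real.exp v ^ 2 = Real.exp (2 * v) := by rw [← Real.exp_nat_mul]; norm_num
      have a2 : Real.exp η ^ 3 = Real.exp (3 * η) := by rw [← Real.exp_nat_mul]; norm_num
      have a3 : Real.exp κ ^ 2 = Real.exp (2 * κ) := by rw [← Real.exp_nat_mul]; norm_num
      rw [a1, a2, a3, one_pow, mul_one, ← Real.exp_add, ← Real.exp_add, ← Real.exp_add,
        ← Real.exp_sub]
      congr 1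
      ring
    rw [h1, ← Real.exp_mul]
    congr 1
    ring
  rw [e1, e3]
  obtain ⟨m, hm⟩ : ∃ m, m = max (2 / 3 * κ - (h + v) / 3)
      (max (2 / 3 * v - κ / 3 + 2 * η) (2 / 3 * v + η)) := ⟨_, rfl⟩
  rw [← hm, Real.exp_add (Real.log 12) m, Real.exp_log (by norm_num)]
  have m1 : Real.exp (2 / 3 * κ - (h + v) / 3) ≤ Real.exp m := Real.exp_le_exp.2 (by
    rw [hm]; exact le_max_left _ _)
  have m2 : Real.exp (2 / 3 * v - κ / 3 + 2 * η) ≤ Real.exp m :=
    Real.exp_le_exp.2 (by rw [hm]; exact (le_max_left _ _).trans (le_max_right _ _))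
  have m3 : Real.exp (2 / 3 * v + η) ≤ Real.exp m :=
    Real.exp_le_exp.2 (by rw [hm]; exact (le_max_right _ _).trans (le_max_right _ _))
  have g2 : Real.exp (2 / 3 * κ - (h + v) / 3) * Real.exp (h / 3 + (v - κ) + 2 * η) =
      Real.exp (2 / 3 * v - κ / 3 + 2 * η) := by
    rw [← Real.exp_add]; congr 1; ring
  have g3 : Real.exp (2 / 3 * κ - (h + v) / 3) * Real.exp ((h + 3 * v + 3 * η - 2 * κ) / 3) =
      Real.exp (2 / 3 * v + η) := by
    rw [← Real.exp_add]; congr 1; ring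
  have hpos := Real.exp_pos m
  rw [mul_add, mul_add, mul_one, g2, g3]
  linarith

/-- the L-line, form with `V' = V` -/
theorem line_L' {k N x ex v vt p t δ b l T M η : ℝ} (H : Tf k N x ex vt p t) (δ0 : 0 ≤ δ)
    (b0 : 0 ≤ b) (M0 : 0 ≤ M) (M1 : b - k / 64 - t ≤ M) (hv : v ≤ vt)
    (hl : l ≤ v - 2 * δ + b + t)
    (hT : TC (k + ex) b l (p - δ - b) x T) (hη : η ≤ k / 20 + t) :
    2 / 3 * v - k / 3 + 2 * η + T + 2 * δ - M - p / 3 ≤ k + p + ex + 10 * t := by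
  obtain ⟨k0, x0, N1, adm, ex0, ex1, v1, v2, p0, p1, t0, t1⟩ := H
  rcases hT with hT | ⟨hF, hC⟩
  · rcases adm with ⟨a1, rfl | a2⟩ | ⟨a1, a2, a3⟩ <;> linarith
  · rcases hF with hF | hF | ⟨hF, hF2⟩
    · rcases adm with ⟨a1, rfl | a2⟩ | ⟨a1, a2, a3⟩ <;> linarith
    · rcases adm with ⟨a1, rfl | a2⟩ | ⟨a1, a2, a3⟩ <;> linarith
    · rcases adm with ⟨a1, rfl | a2⟩ | ⟨a1, a2, a3⟩ <;> linarith

/-- the LS-line, form with `V' = V` -/
theorem line_S' {k N x ex v vt p t δ b l T M η : ℝ} (H : Tf k N x ex vt p t) (δ0 : 0 ≤ δ)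
    (b0 : 0 ≤ b) (M0 : 0 ≤ M) (M1 : b - k / 64 - t ≤ M) (hv : v ≤ vt)
    (hl : l ≤ v - 2 * δ + b + t)
    (hT : TC (k + ex) b l (p - δ - b) x T) (hη : η ≤ k / 20 + t) :
    2 / 3 * v + η + T + 2 * δ - M - p / 3 ≤ k + p + ex + 10 * t := by
  obtain ⟨k0, x0, N1, adm, ex0, ex1, v1, v2, p0, p1, t0, t1⟩ := H
  rcases hT with hT | ⟨hF, hC⟩
  · rcases adm with ⟨a1, rfl | a2⟩ | ⟨a1, a2, a3⟩ <;> linarith
  · rcases hF with hF | hF | ⟨hF, hF2⟩
    · rcases adm with ⟨a1, rfl | a2⟩ | ⟨a1, a2, a3⟩ <;> linarith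
    · rcases adm with ⟨a1, rfl | a2⟩ | ⟨a1, a2, a3⟩ <;> linarith
    · rcases adm with ⟨a1, rfl | a2⟩ | ⟨a1, a2, a3⟩ <;> linarith

/-- helper271's exponent of `H` -/
def hN (cc l p z E : ℝ) (i : ℕ) (d : Eis) : ℝ :=
  if Real.log (nm d) ≤ l / 10 then hJ l p (Real.log (nm d)) z E
  else l - 2 * i - Real.log cc - 1 + min (Real.log (nm d)) (i / 2)

end Crest.Agent.R017.E3N146
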