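import Crest.Agent.R017.E3Ng_146

/-!
# Row 17, R8 (E3): the T-half of the Gram error of `P1_0`, one datum, one level (helper146)

* **`thA`** : `Σ_d Σ_e LVn .. E1 2 (sqrt (cc V)) 0` (helper579's `Z1F`)
* **`thB`** : `Σ_d Σ_e (nm e)⁻¹ LVn .. V V E1 1 1 0` (helper290's `CutE`)
-/

set_option autoImplicit false
set_option linter.unusedVariables false

noncomputable section

open Finset

namespace Crest.Agent.R017.E3N146

open Crest.Agent.R012 Crest.Agent.R012.Eis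
open Crest.Agent.R012.LS2 (S mem_S)
open Crest.Agent.R017.CM106 (CS FS TG)
open Crest.Agent.R017.C70
open Crest.Agent.R017.HP842 (Pc pc sqc alL)
open Crest.Agent.R017.B770
open Crest.Agent.R017.FE47 (PU cx)
open Crest.Agent.R017.Prov71
open Crest.Agent.R017.Leg381 (Pf alF SF LF natl alF_natl)
open Crest.Agent.R017.I1146 (ChN LN cN SN Dom cN_nonneg CellS LipS numS)
open Crest.Agent.R017.E1551 hiding tau Dg
open Crest.Agent.R017.E3Z548 (TN TN_nonneg JV JVc mem_JV FH FH_nonneg LVn)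
open Crest.Agent.R017.RnP571 (hJ)

/-- the cases of the numbers of a block -/
lemma tc_sh (k ex x um p γ b v : ℝ) :
    TC (k + ex) b (v + b) (p - γ - b) x (ShT (k + ex) x um p γ b v) := by
  have h1 := ShT_le (k5 := k + ex) (x := x) (um := um) (p := p) (γ := γ) (b := b) (l := v + b)
    (m := (p - γ - b) / 3 + 2 / 3 * x) (min_le_right _ _)
  rw [add_sub_cancel_right] at h1
  exact tc_of h1

/-- beyond the level the numbers vanish -/
lemma LVn_zero {af : Eis → Eis → Eis → ℂ} {al : Eis → ℂ} {d e : Eis}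
    (h : af d e = fun n => al (d * n)) {c Y K H V V' E1 B G1 : ℝ} (hK : 0 ≤ K) (hH : 0 ≤ H)
    (hV : 0 ≤ V) (hd : d ≠ 0) (hbig : c * V < (nm d : ℝ) ^ 2) :
    LVn af {d} {e} c Y K H V V' E1 B G1 0 ≤ 0 := by
  have hJ : ∀ γ : Eis, γ ≠ 0 → JV c V d γ = ∅ := by
    intro γ hγ
    rw [Finset.eq_empty_iff_forall_notMem]
    intro j hj
    obtain ⟨hj0, h1⟩ := (mem_JV hd hγ).1 hj
    have a1 : (1 : ℝ) ≤ nm j := by exact_mod_cast nm_pos.2 hj0
    have a2 : (1 : ℝ) ≤ nm γ := by exact_mod_cast nm_pos.2 hγ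
    have a3 : (nm d : ℝ) ^ 2 ≤ nm j * (nm d : ℝ) ^ 2 * (nm γ : ℝ) ^ 3 := by
      have a4 : (1 : ℝ) ≤ (nm γ : ℝ) ^ 3 := one_le_pow₀ a2
      have a5 : (0 : ℝ) ≤ (nm d : ℝ) ^ 2 := by positivity
      calc (nm d : ℝ) ^ 2 = 1 * (nm d : ℝ) ^ 2 * 1 := by ring
        _ ≤ _ := mul_le_mul (mul_le_mul_of_nonneg_right a1 a5) a4 zero_le_one (by positivity)
    linarith
  have hJc : ∀ γ : Eis, γ ≠ 0 → JVc c V d γ = ∅ := by
    intro γ hγ
    unfold JVc
    rw [hJ γ hγ, filter_empty]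
  have t0 : ∀ (om : Eis → ℝ) (Gs : Finset Eis) (A : Eis → Eis → Finset Eis) (dl : Eis → Eis),
      (∀ γ ∈ Gs, A d γ = ∅) → TN (fun d _ n => al (d * n)) (fun e => (nm e : ℝ)) {d} {e}
        om Gs A dl = 0 := by
    intro om Gs A dl hA
    unfold TN
    rw [sum_singleton, sum_singleton, sum_eq_zero, mul_zero]
    intro γ hγ
    rw [hA γ hγ, sum_empty, mul_zero]
  have hpb : ∀ γ ∈ primBall ⌊Y⌋₊, γ ≠ 0 := fun γ hγ => (mem_primBall.1 hγ).2.ne_zero
  refine (LVn_le h hK hH hV).trans ?_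
  rw [t0 _ {1} _ _ (fun γ hγ => by
      rw [mem_singleton.1 hγ]; exact hJc 1 one_ne_zero),
    t0 _ (primBall ⌊Y⌋₊) _ _ (fun γ hγ => hJ γ (hpb γ hγ)),
    t0 _ (primBall ⌊Y⌋₊) _ _ (fun γ hγ => hJ γ (hpb γ hγ))]
  simp

/-- the lines with cubes, large divisors, helper271's `H` -/
lemma ln_b2' {k N x ex p t κ lc δ b v T lE : ℝ} {i : ℕ} (H : Tf k N x ex i p t) (δ0 : 0 ≤ δ)
    (δ1 : κ / 10 ≤ δ) (δ2 : 2 * δ ≤ lc + i) (b0 : 0 ≤ b) (hE : lE ≤ k / 64 + t)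
    (hv : v ≤ lc + i - 2 * δ) (hlc : 4 * lc + 4 ≤ t)
    (hlc0 : 0 ≤ lc) (h12 : Real.log 12 ≤ t) (hκ : |κ - k| ≤ t / 8)
    (hT : TC (k + ex) b (v + b) (p - δ - b) x T) :
    Real.log 12 + (2 / 3 * κ - ((κ - 2 * i - lc - 1 + min δ (i / 2)) + i) / 3) + T + 2 * δ + b -
      2 * max 0 (b - lE) + (lc + i - v - 2 * δ) / 3 ≤ k + 4 / 3 * p + ex + 20 * t := by
  have t0 := H.t0
  obtain ⟨κ1, κ2⟩ := abs_le.1 hκ
  have M0 := le_max_left 0 (b - lE)
  have M1 := le_max_right 0 (b - lE)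
  have hmin : δ - lc / 2 ≤ min δ ((i : ℝ) / 2) := le_min (by linarith) (by linarith)
  have key := line_b2 (M := max 0 (b - lE)) (h := κ - 2 * i - lc - 1 + min δ ((i : ℝ) / 2)) H
    (by linarith) b0 M0 (by linarith) (l := v + b) (by linarith) hT (by linarith)
  linarith

/-- the lines with cubes, small divisors, parameters up to `t` -/
lemma ln_b1' {k N x ex i p t κ x' ex' lc δ b v T lE : ℝ} (H : Tf k N x ex i p t) (δ0 : 0 ≤ δ)
    (b0 : 0 ≤ b) (hE : lE ≤ k / 64 + t) (hv : v ≤ lc + i - 2 * δ) (hlc : lc ≤ t)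
    (hlc0 : 0 ≤ lc) (h12 : Real.log 12 ≤ t) (hκ : |κ - k| ≤ t / 8) (hx' : |x' - x| ≤ t / 8)
    (hex' : |ex' - ex| ≤ t / 8)
    (hT : TC (k + ex) b (v + b) (p - δ - b) x T) :
    Real.log 12 + (2 / 3 * κ - (hJ κ p δ x' ex' + i) / 3) + T + 2 * δ + b -
      2 * max 0 (b - lE) + (lc + i - v - 2 * δ) / 3 ≤ k + 4 / 3 * p + ex + 20 * t := by
  have t0 := H.t0
  obtain ⟨κ1, κ2⟩ := abs_le.1 hκ
  obtain ⟨x1, x2⟩ := abs_le.1 hx'
  obtain ⟨e1, e2⟩ := abs_le.1 hex'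
  have M0 := le_max_left 0 (b - lE)
  have M1 := le_max_right 0 (b - lE)
  have h1 := le_max_left (κ / 64) (4 / 3 * (p - δ) - κ + x' - 3 * ex')
  have h2 := le_max_right (κ / 64) (4 / 3 * (p - δ) - κ + x' - 3 * ex')
  have key := line_b1 (M := max 0 (b - lE)) (h := hJ κ p δ x' ex') H δ0 b0 M0 (by linarith)
    (by linarith) hT (by unfold hJ; linarith) (by unfold hJ; linarith)
  linarith

/-- `H² V³ ≤ K²`, parameters up to `t` -/
lemma th1' {k N x ex p t κ x' ex' δ : ℝ} {i : ℝ} (H : Tf k N x ex i p t) (δ0 : 0 ≤ δ)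
    (hκ : |κ - k| ≤ t / 8) (hx' : |x' - x| ≤ t / 8) (hex' : |ex' - ex| ≤ t / 8) :
    2 * hJ κ p δ x' ex' + 3 * i ≤ 2 * κ := by
  have t0 := H.t0
  obtain ⟨κ1, κ2⟩ := abs_le.1 hκ
  obtain ⟨x1, x2⟩ := abs_le.1 hx'
  obtain ⟨e1, e2⟩ := abs_le.1 hex'
  have hh : hJ κ p δ x' ex' + t / 8 ≤ k / 64 + t ∨
      hJ κ p δ x' ex' + t / 8 ≤ 4 / 3 * (p - δ) - k + x - 3 * ex + t := by
    unfold hJ
    rcases max_choice (κ / 64) (4 / 3 * (p - δ) - κ + x' - 3 * ex') with h0 | h0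
    · left; rw [h0]; linarith
    · right; rw [h0]; linarith
  have := line_th1 H δ0 hh
  linarith

lemma M_le {b lE : ℝ} (hb : 0 ≤ b) (hE : 0 ≤ lE) : max 0 (b - lE) ≤ b := max_le hb (by linarith)

/-- **the cube-free lines**, form with `V' = V` -/
lemma ln_a' {k N x ex i vt p t κ lc δ b v T lE η g : ℝ} (H : Tf k N x ex vt p t) (δ0 : 0 ≤ δ)
    (hi : i ≤ vt) (b0 : 0 ≤ b) (hE0 : 0 ≤ lE) (hE : lE ≤ k / 64 + t) (hv : v ≤ lc + i - 2 * δ)
    (hlc : lc ≤ t) (hlc0 : 0 ≤ lc) (h12 : Real.log 12 ≤ t) (hκ : |κ - k| ≤ t / 8)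
    (hη : η ≤ k / 20 + t)
    (hT : TC (k + ex) b (v + b) (p - δ - b) x T)
    (hb : Real.log 12 + (2 / 3 * κ - (g + i) / 3) + T + 2 * δ + b -
      2 * max 0 (b - lE) + (lc + i - v - 2 * δ) / 3 ≤ k + 4 / 3 * p + ex + 20 * t) :
    Real.log 12 + max (2 / 3 * κ - (g + i) / 3) (max (2 / 3 * i - κ / 3 + 2 * η)
      (2 / 3 * i + η)) + T + 2 * δ - max 0 (b - lE) ≤ k + 4 / 3 * p + ex + 20 * t := by
  have t0 := H.t0
  obtain ⟨κ1, κ2⟩ := abs_le.1 hκ
  have M0 := le_max_left 0 (b - lE)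
  have M1 := le_max_right 0 (b - lE)
  have M2 := M_le b0 hE0
  have key1 := line_L' (M := max 0 (b - lE)) (v := i) (l := v + b) H δ0 b0 M0 (by linarith) hi
    (by linarith) hT hη
  have key2 := line_S' (M := max 0 (b - lE)) (v := i) (l := v + b) H δ0 b0 M0 (by linarith) hi
    (by linarith) hT hη
  have h3 : max (2 / 3 * κ - (g + i) / 3) (max (2 / 3 * i - κ / 3 + 2 * η)
      (2 / 3 * i + η)) ≤ k + 4 / 3 * p + ex + 20 * t - (Real.log 12 + T + 2 * δ -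
        max 0 (b - lE)) := by
    refine max_le (by linarith) (max_le (by linarith) (by linarith))
  linarith

section

variable {h : ℝ → ℝ} {c : ℝ}

set_option maxHeartbeats 2000000 in
/-- **one level, the form of `Z1F`** -/
theorem thA (hpu : PU h c) (N : ℕ) {R : ℝ} (hR : 0 ≤ R) {ε M B₂ : ℝ}
    (hε : 0 < ε) (hM : 0 ≤ M) (hB₂ : 0 < B₂) {ν Dd : ℝ} (hν : 1 ≤ ν) (hDd : 0 ≤ Dd) :
    ∃ C r : ℝ, 0 ≤ C ∧ 0 ≤ r ∧ ∀ X : ℝ, 3 ≤ X → ∀ (P : DPar), P.OK → ∀ (q : Eis) (ps : List Pq),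
      ps.length ≤ N → (∀ p ∈ ps, 0 ≤ p.z ∧ p.z ≤ Real.log X) →
      ∀ (Y cc T F k Nn x ex κ x' ex' t vt um lE η : ℝ) (i : ℕ), 1 ≤ Y → Y ≤ X ^ B₂ → 1 ≤ cc →
      cc * Real.exp i * ν ≤ X → Real.log (cc * Real.exp i * ν) ≤ T → 0 ≤ F →
      Tf k Nn x ex vt (LN ps) t → |κ - k| ≤ t / 8 →
      |x' - x| ≤ t / 8 → |ex' - ex| ≤ t / 8 → (i : ℝ) ≤ vt → 4 * Real.log cc + 4 ≤ t →
      Real.log 12 ≤ t → lE ≤ k / 64 + t →
      CellS h P q ps (X ^ B₂) r M T (B₂ * Real.log X) F (ShT (k + ex) x um (LN ps)) →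
      ∀ al : Eis → ℂ, Dom ν Dd (sqc q (alF 1 1 P h (natl ps))) al →
      Adm Y (Real.exp (LN ps)) R al → ∀ (Ds : Finset Eis) (af : Eis → Eis → Eis → ℂ)
        (Yg V' G1 : ℝ), (∀ d ∈ Ds, IsPrim d ∧ (nm d : ℝ) ≤ X ^ B₂) →
      (∀ d ∈ Ds, ∀ e ∈ S (Real.exp lE), af d e = fun n => al (d * n)) →
      V' = Real.exp vt → G1 = Real.sqrt (cc * Real.exp i) → η ≤ k / 22 + t →
      ∑ d ∈ Ds, ∑ e ∈ S (Real.exp lE), LVn af {d} {e} cc Yg (Real.exp κ)
          (Real.exp (hN cc κ (LN ps) x' ex' i d)) (Real.exp i) V' (Real.exp η) 2 G1 0 ≤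
        C * X ^ ε * F * Real.exp (k + LN ps + ex + 20 * t) := by
  obtain ⟨C, r, hC, hr, G⟩ := LVTa hpu N hR hε hM hB₂ hν hDd (L := 3) (Lφ := 4 / 3)
    (by norm_num) (by norm_num)
  refine ⟨2 * C, r, by positivity, hr, ?_⟩
  intro X hX P hP q ps hNl hz Y cc T F k Nn x ex κ x' ex' t vt um lE η i hY1 hYu hcc hWX hWT hF hTf hκ hx' hex' hiv hct
    h12 hlE hcl al hdom hadm Ds af Yg V' G1 hDs haf hV' hG1 hη
  have hX0 : 0 < X := by linarith
  obtain ⟨p, hp⟩ : ∃ p, p = LN ps := ⟨_, rfl⟩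
  rw [← hp] at hTf hcl hadm ⊢
  have lc0 : 0 ≤ Real.log cc := Real.log_nonneg hcc
  have hcc0 : 0 < cc := by linarith
  have t0 := hTf.t0
  obtain ⟨κ1, κ2⟩ := abs_le.1 hκ
  have hlcV : Real.log (cc * Real.exp i) = Real.log cc + i := by
    rw [Real.log_mul hcc0.ne' (Real.exp_pos _).ne', Real.log_exp]
  have hG1' : G1 = Real.exp ((Real.log cc + i) / 2) := by
    rw [hG1, ← Real.exp_log (mul_pos hcc0 (Real.exp_pos (i : ℝ))), hlcV, Real.sqrt_eq_rpow,
      ← Real.exp_mul]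
    congr 1
    ring
  have hTi : Tf k Nn x ex i p t := by
    obtain ⟨k0, x0, N1, adm, ex0, ex1, v1, v2, p0, p1, t0', t1⟩ := hTf
    exact ⟨k0, x0, N1, adm, ex0, ex1, by linarith, by linarith, p0, p1, t0', t1⟩
  have hlogE : Real.log (Real.exp lE) = lE := Real.log_exp lE
  have hγ0 : ∀ d ∈ Ds, 0 ≤ Real.log (nm d : ℝ) := fun d hd =>
    Real.log_nonneg (by exact_mod_cast nm_pos.2 (hDs d hd).1.ne_zero)
  -- the three parts
  set Ds1 := Ds.filter fun d => Real.log (nm d : ℝ) ≤ κ / 10 with hD1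
  set Ds2 := (Ds.filter fun d => ¬ Real.log (nm d : ℝ) ≤ κ / 10).filter
    fun d => 2 * Real.log (nm d : ℝ) ≤ Real.log cc + i with hD2
  set f : Eis → ℝ := fun d => ∑ e ∈ S (Real.exp lE), LVn af {d} {e} cc Yg (Real.exp κ)
          (Real.exp (hN cc κ p x' ex' i d)) (Real.exp i) V' (Real.exp η) 2 G1 0 with hf
  obtain ⟨m, hm⟩ : ∃ m, m = k + 4 / 3 * p + ex + 20 * t := ⟨_, rfl⟩
  have hd1 : ∀ d ∈ Ds1, d ∈ Ds := fun d hd => (mem_filter.1 hd).1
  have hd2 : ∀ d ∈ Ds2, d ∈ Ds := fun d hd => (mem_filter.1 (mem_filter.1 hd).1).1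
  -- small divisors
  have s1 : ∑ d ∈ Ds1, f d ≤ C * X ^ ε * F * Real.exp (-(p / 3)) * Real.exp m := by
    obtain ⟨l1, l2⟩ := lip_g (lip_hJ κ p x' ex' |> fun hh => fun a b => hh a b) (Real.log 12)
      (2 / 3 * κ) i (max (2 / 3 * vt - κ / 3 + 2 * η + i / 2 + Real.log cc / 2)
        (((i : ℝ) + vt) / 3 + η))
    have key := G X hX P hP q ps hNl hz Y cc (Real.exp i) T (Real.exp lE) F
      (ShT (k + ex) x um (LN ps)) hY1 hYu (Real.exp_pos _) hWX hWT (Real.exp_pos _) hF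
      (lipS_ShT _ _ _ _) (hp ▸ hcl) al hdom (hp ▸ hadm) Ds1 (S (Real.exp lE)) m _ _ af
      (fun d e => Real.exp (hN cc κ p x' ex' i d)) (fun _ _ => 0) Yg (Real.exp κ) V' (Real.exp η) 2
      G1 l2 l1 (fun d hd => hDs d (hd1 d hd)) (fun e he => he)
      (fun d hd e he => haf d (hd1 d hd) e he) (Real.exp_pos _) (fun _ _ => Real.exp_pos _)
      (fun d hd e he => ?_) (fun d hd e he => ?_) (fun d hd b v hb hv hvl => ?_)
      (fun d hd b v hb hv hvl => ?_)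
    · rw [← hp] at key
      simpa using key
    · have e1 : hN cc κ p x' ex' i d = hJ κ p (Real.log (nm d)) x' ex' := by
        unfold hN; rw [if_pos (mem_filter.1 hd).2]
      simp only [e1, hV', hG1']
      exact FH_cLS κ (hJ κ p (Real.log (nm d)) x' ex') i vt η (Real.log cc)
    · have e1 : hN cc κ p x' ex' i d = hJ κ p (Real.log (nm d)) x' ex' := by
        unfold hN; rw [if_pos (mem_filter.1 hd).2]
      simp only [e1]
      exact FH_cTT (th1' hTi (hγ0 d (hd1 d hd)) hκ hx' hex')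
    · rw [hlcV] at hvl
      rw [hlogE, ← hp, hm]
      have hT := tc_sh k ex x um p (Real.log (nm d)) b v
      exact ln_a hTf (hγ0 d (hd1 d hd)) hiv hb hlE hvl (by linarith) lc0 h12 (by linarith) hη hT
        (ln_b1' hTi (hγ0 d (hd1 d hd)) hb hlE hvl (by linarith) lc0 h12 hκ hx' hex' hT)
    · rw [hlcV] at hvl ⊢
      rw [hlogE, ← hp, hm]
      have hT := tc_sh k ex x um p (Real.log (nm d)) b v
      exact ln_b1' hTi (hγ0 d (hd1 d hd)) hb hlE hvl (by linarith) lc0 h12 hκ hx' hex' hT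
  -- large divisors
  have s2 : ∑ d ∈ Ds2, f d ≤ C * X ^ ε * F * Real.exp (-(p / 3)) * Real.exp m := by
    obtain ⟨l1, l2⟩ := lip_g (lip_h2 (κ - 2 * i - Real.log cc - 1) ((i : ℝ) / 2) |>
      fun hh => fun a b => hh a b) (Real.log 12)
      (2 / 3 * κ) i (max (2 / 3 * vt - κ / 3 + 2 * η + i / 2 + Real.log cc / 2)
        (((i : ℝ) + vt) / 3 + η))
    have key := G X hX P hP q ps hNl hz Y cc (Real.exp i) T (Real.exp lE) F
      (ShT (k + ex) x um (LN ps)) hY1 hYu (Real.exp_pos _) hWX hWT (Real.exp_pos _) hF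
      (lipS_ShT _ _ _ _) (hp ▸ hcl) al hdom (hp ▸ hadm) Ds2 (S (Real.exp lE)) m _ _ af
      (fun d e => Real.exp (hN cc κ p x' ex' i d)) (fun _ _ => 0) Yg (Real.exp κ) V' (Real.exp η) 2
      G1 l2 l1 (fun d hd => hDs d (hd2 d hd)) (fun e he => he)
      (fun d hd e he => haf d (hd2 d hd) e he) (Real.exp_pos _) (fun _ _ => Real.exp_pos _)
      (fun d hd e he => ?_) (fun d hd e he => ?_) (fun d hd b v hb hv hvl => ?_)
      (fun d hd b v hb hv hvl => ?_)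
    · rw [← hp] at key
      simpa using key
    · have e1 : hN cc κ p x' ex' i d = κ - 2 * i - Real.log cc - 1 +
          min (Real.log (nm d)) (i / 2) := by
        unfold hN; rw [if_neg (mem_filter.1 (mem_filter.1 hd).1).2]
      simp only [e1, hV', hG1']
      exact FH_cLS κ _ i vt η (Real.log cc)
    · have e1 : hN cc κ p x' ex' i d = κ - 2 * i - Real.log cc - 1 +
          min (Real.log (nm d)) (i / 2) := by
        unfold hN; rw [if_neg (mem_filter.1 (mem_filter.1 hd).1).2]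
      simp only [e1]
      refine FH_cTT ?_
      have := min_le_right (Real.log (nm d)) ((i : ℝ) / 2)
      linarith
    · rw [hlcV] at hvl
      rw [hlogE, ← hp, hm]
      have hT := tc_sh k ex x um p (Real.log (nm d)) b v
      have g1 := (mem_filter.1 (mem_filter.1 hd).1).2
      push Not at g1
      have g2 := (mem_filter.1 hd).2
      have key2 := ln_b2' hTi (hγ0 d (hd2 d hd)) g1.le g2 hb hlE hvl (by linarith) lc0 h12
        hκ hT
      exact ln_a hTf (hγ0 d (hd2 d hd)) hiv hb hlE hvl (by linarith) lc0 h12 (by linarith) hη hT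
        key2
    · rw [hlcV] at hvl ⊢
      rw [hlogE, ← hp, hm]
      have hT := tc_sh k ex x um p (Real.log (nm d)) b v
      have g1 := (mem_filter.1 (mem_filter.1 hd).1).2
      push Not at g1
      have g2 := (mem_filter.1 hd).2
      exact ln_b2' hTi (hγ0 d (hd2 d hd)) g1.le g2 hb hlE hvl (by linarith) lc0 h12
        hκ hT
  have s3 : ∑ d ∈ (Ds.filter fun d => ¬ Real.log (nm d : ℝ) ≤ κ / 10).filter
      (fun d => ¬ 2 * Real.log (nm d : ℝ) ≤ Real.log cc + i), f d ≤ 0 := by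
    refine sum_nonpos fun d hd => sum_nonpos fun e he => ?_
    have hdD : d ∈ Ds := (mem_filter.1 (mem_filter.1 hd).1).1
    have g2 := (mem_filter.1 hd).2
    push Not at g2
    refine LVn_zero (haf d hdD e he) (Real.exp_pos _).le (Real.exp_pos _).le (Real.exp_pos _).le
      (hDs d hdD).1.ne_zero ?_
    have hnd : (0 : ℝ) < nm d := by exact_mod_cast nm_pos.2 (hDs d hdD).1.ne_zero
    rw [← Real.exp_log (mul_pos hcc0 (Real.exp_pos (i : ℝ))), hlcV, ← Real.exp_log hnd,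
      ← Real.exp_nat_mul]
    refine Real.exp_lt_exp.2 ?_
    push_cast
    linarith
  have hsplit : ∑ d ∈ Ds, f d = ∑ d ∈ Ds1, f d + (∑ d ∈ Ds2, f d +
      ∑ d ∈ (Ds.filter fun d => ¬ Real.log (nm d : ℝ) ≤ κ / 10).filter
      (fun d => ¬ 2 * Real.log (nm d : ℝ) ≤ Real.log cc + i), f d) := by
    rw [hD2, sum_filter_add_sum_filter_not, hD1, sum_filter_add_sum_filter_not]
  have hfin : C * X ^ ε * F * Real.exp (-(p / 3)) * Real.exp m =
      C * X ^ ε * F * Real.exp (k + p + ex + 20 * t) := by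
    rw [mul_assoc _ (Real.exp (-(p / 3))), ← Real.exp_add, hm]
    congr 2
    ring
  rw [hfin] at s1 s2
  show ∑ d ∈ Ds, f d ≤ _
  rw [hsplit]
  linarith

set_option maxHeartbeats 2000000 in
/-- **one level, the form of `CutE`** -/
theorem thB (hpu : PU h c) (N : ℕ) {R : ℝ} (hR : 0 ≤ R) {ε M B₂ : ℝ}
    (hε : 0 < ε) (hM : 0 ≤ M) (hB₂ : 0 < B₂) {ν Dd : ℝ} (hν : 1 ≤ ν) (hDd : 0 ≤ Dd) :
    ∃ C r : ℝ, 0 ≤ C ∧ 0 ≤ r ∧ ∀ X : ℝ, 3 ≤ X → ∀ (P : DPar), P.OK → ∀ (q : Eis) (ps : List Pq),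
      ps.length ≤ N → (∀ p ∈ ps, 0 ≤ p.z ∧ p.z ≤ Real.log X) →
      ∀ (Y cc T F k Nn x ex κ x' ex' t vt um lE η : ℝ) (i : ℕ), 1 ≤ Y → Y ≤ X ^ B₂ → 1 ≤ cc →
      cc * Real.exp i * ν ≤ X → Real.log (cc * Real.exp i * ν) ≤ T → 0 ≤ F →
      Tf k Nn x ex vt (LN ps) t → |κ - k| ≤ t / 8 →
      |x' - x| ≤ t / 8 → |ex' - ex| ≤ t / 8 → (i : ℝ) ≤ vt → 4 * Real.log cc + 4 ≤ t →
      Real.log 12 ≤ t → 0 ≤ lE → lE ≤ k / 64 + t → Real.exp lE ≤ X ^ B₂ →
      CellS h P q ps (X ^ B₂) r M T (B₂ * Real.log X) F (ShT (k + ex) x um (LN ps)) →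
      ∀ al : Eis → ℂ, Dom ν Dd (sqc q (alF 1 1 P h (natl ps))) al →
      Adm Y (Real.exp (LN ps)) R al → ∀ (Ds : Finset Eis) (af : Eis → Eis → Eis → ℂ)
        (Yg : ℝ), (∀ d ∈ Ds, IsPrim d ∧ (nm d : ℝ) ≤ X ^ B₂) →
      (∀ d ∈ Ds, ∀ e ∈ S (Real.exp lE), af d e = fun n => al (d * n)) →
      η ≤ k / 20 + t →
      ∑ d ∈ Ds, ∑ e ∈ S (Real.exp lE), (nm e : ℝ)⁻¹ * LVn af {d} {e} cc Yg (Real.exp κ)
          (Real.exp (hN cc κ (LN ps) x' ex' i d)) (Real.exp i) (Real.exp i) (Real.exp η) 1 1 0 ≤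
        C * X ^ ε * F * Real.exp (k + LN ps + ex + 20 * t) := by
  obtain ⟨C, r, hC, hr, G⟩ := LVTb hpu N hR hε hM hB₂ hν hDd (L := 3) (Lφ := 4 / 3)
    (by norm_num) (by norm_num)
  refine ⟨2 * C, r, by positivity, hr, ?_⟩
  intro X hX P hP q ps hNl hz Y cc T F k Nn x ex κ x' ex' t vt um lE η i hY1 hYu hcc hWX hWT hF hTf hκ hx' hex' hiv hct
    h12 hlE0 hlE hlEX hcl al hdom hadm Ds af Yg hDs haf hη
  have hX0 : 0 < X := by linarith
  obtain ⟨p, hp⟩ : ∃ p, p = LN ps := ⟨_, rfl⟩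
  rw [← hp] at hTf hcl hadm ⊢
  have lc0 : 0 ≤ Real.log cc := Real.log_nonneg hcc
  have hcc0 : 0 < cc := by linarith
  have t0 := hTf.t0
  obtain ⟨κ1, κ2⟩ := abs_le.1 hκ
  have hlcV : Real.log (cc * Real.exp i) = Real.log cc + i := by
    rw [Real.log_mul hcc0.ne' (Real.exp_pos _).ne', Real.log_exp]
  have hTi : Tf k Nn x ex i p t := by
    obtain ⟨k0, x0, N1, adm, ex0, ex1, v1, v2, p0, p1, t0', t1⟩ := hTf
    exact ⟨k0, x0, N1, adm, ex0, ex1, by linarith, by linarith, p0, p1, t0', t1⟩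
  have hlogE : Real.log (Real.exp lE) = lE := Real.log_exp lE
  have hγ0 : ∀ d ∈ Ds, 0 ≤ Real.log (nm d : ℝ) := fun d hd =>
    Real.log_nonneg (by exact_mod_cast nm_pos.2 (hDs d hd).1.ne_zero)
  -- the three parts
  set Ds1 := Ds.filter fun d => Real.log (nm d : ℝ) ≤ κ / 10 with hD1
  set Ds2 := (Ds.filter fun d => ¬ Real.log (nm d : ℝ) ≤ κ / 10).filter
    fun d => 2 * Real.log (nm d : ℝ) ≤ Real.log cc + i with hD2
  set f : Eis → ℝ := fun d => ∑ e ∈ S (Real.exp lE), (nm e : ℝ)⁻¹ * LVn af {d} {e} cc Yg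
    (Real.exp κ) (Real.exp (hN cc κ p x' ex' i d)) (Real.exp i) (Real.exp i) (Real.exp η) 1 1 0
    with hf
  obtain ⟨m, hm⟩ : ∃ m, m = k + 4 / 3 * p + ex + 20 * t := ⟨_, rfl⟩
  have hd1 : ∀ d ∈ Ds1, d ∈ Ds := fun d hd => (mem_filter.1 hd).1
  have hd2 : ∀ d ∈ Ds2, d ∈ Ds := fun d hd => (mem_filter.1 (mem_filter.1 hd).1).1
  -- small divisors
  have s1 : ∑ d ∈ Ds1, f d ≤ C * X ^ ε * F * Real.exp (-(p / 3)) * Real.exp m := by
    obtain ⟨l1, l2⟩ := lip_g (lip_hJ κ p x' ex' |> fun hh => fun a b => hh a b) (Real.log 12)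
      (2 / 3 * κ) i (max (2 / 3 * (i : ℝ) - κ / 3 + 2 * η)
        (2 / 3 * (i : ℝ) + η))
    have key := G X hX P hP q ps hNl hz Y cc (Real.exp i) T (Real.exp lE) F
      (ShT (k + ex) x um (LN ps)) hY1 hYu (Real.exp_pos _) hWX hWT (Real.exp_pos _) hlEX hF
      (lipS_ShT _ _ _ _) (hp ▸ hcl) al hdom (hp ▸ hadm) Ds1 (S (Real.exp lE)) m _ _ af
      (fun d e => Real.exp (hN cc κ p x' ex' i d)) (fun _ _ => 0) Yg (Real.exp κ) (Real.exp i)
      (Real.exp η) 1 1 l2 l1 (fun d hd => hDs d (hd1 d hd)) (fun e he => he)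
      (fun d hd e he => haf d (hd1 d hd) e he) (Real.exp_pos _) (fun _ _ => Real.exp_pos _)
      (fun d hd e he => by unfold cLS; positivity) (fun d hd e he => ?_) (fun d hd e he => ?_) (fun d hd b v hb hv hvl => ?_)
      (fun d hd b v hb hv hvl => ?_)
    · rw [← hp] at key
      simpa using key
    · have e1 : hN cc κ p x' ex' i d = hJ κ p (Real.log (nm d)) x' ex' := by
        unfold hN; rw [if_pos (mem_filter.1 hd).2]
      simp only [e1]
      exact FH_cLS' κ (hJ κ p (Real.log (nm d)) x' ex') i η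
    · have e1 : hN cc κ p x' ex' i d = hJ κ p (Real.log (nm d)) x' ex' := by
        unfold hN; rw [if_pos (mem_filter.1 hd).2]
      simp only [e1]
      exact FH_cTT (th1' hTi (hγ0 d (hd1 d hd)) hκ hx' hex')
    · rw [hlcV] at hvl
      rw [hlogE, ← hp, hm]
      have hT := tc_sh k ex x um p (Real.log (nm d)) b v
      exact ln_a' hTf (hγ0 d (hd1 d hd)) hiv hb hlE0 hlE hvl (by linarith) lc0 h12 hκ hη hT
        (ln_b1' hTi (hγ0 d (hd1 d hd)) hb hlE hvl (by linarith) lc0 h12 hκ hx' hex' hT)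
    · rw [hlcV] at hvl ⊢
      rw [hlogE, ← hp, hm]
      have hT := tc_sh k ex x um p (Real.log (nm d)) b v
      have := M_le hb hlE0
      have := ln_b1' hTi (hγ0 d (hd1 d hd)) hb hlE hvl (by linarith) lc0 h12 hκ hx' hex' hT
      linarith
  -- large divisors
  have s2 : ∑ d ∈ Ds2, f d ≤ C * X ^ ε * F * Real.exp (-(p / 3)) * Real.exp m := by
    obtain ⟨l1, l2⟩ := lip_g (lip_h2 (κ - 2 * i - Real.log cc - 1) ((i : ℝ) / 2) |>
      fun hh => fun a b => hh a b) (Real.log 12)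
      (2 / 3 * κ) i (max (2 / 3 * (i : ℝ) - κ / 3 + 2 * η)
        (2 / 3 * (i : ℝ) + η))
    have key := G X hX P hP q ps hNl hz Y cc (Real.exp i) T (Real.exp lE) F
      (ShT (k + ex) x um (LN ps)) hY1 hYu (Real.exp_pos _) hWX hWT (Real.exp_pos _) hlEX hF
      (lipS_ShT _ _ _ _) (hp ▸ hcl) al hdom (hp ▸ hadm) Ds2 (S (Real.exp lE)) m _ _ af
      (fun d e => Real.exp (hN cc κ p x' ex' i d)) (fun _ _ => 0) Yg (Real.exp κ) (Real.exp i)
      (Real.exp η) 1 1 l2 l1 (fun d hd => hDs d (hd2 d hd)) (fun e he => he)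
      (fun d hd e he => haf d (hd2 d hd) e he) (Real.exp_pos _) (fun _ _ => Real.exp_pos _)
      (fun d hd e he => by unfold cLS; positivity) (fun d hd e he => ?_) (fun d hd e he => ?_) (fun d hd b v hb hv hvl => ?_)
      (fun d hd b v hb hv hvl => ?_)
    · rw [← hp] at key
      simpa using key
    · have e1 : hN cc κ p x' ex' i d = κ - 2 * i - Real.log cc - 1 +
          min (Real.log (nm d)) (i / 2) := by
        unfold hN; rw [if_neg (mem_filter.1 (mem_filter.1 hd).1).2]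
      simp only [e1]
      exact FH_cLS' κ _ i η
    · have e1 : hN cc κ p x' ex' i d = κ - 2 * i - Real.log cc - 1 +
          min (Real.log (nm d)) (i / 2) := by
        unfold hN; rw [if_neg (mem_filter.1 (mem_filter.1 hd).1).2]
      simp only [e1]
      refine FH_cTT ?_
      have := min_le_right (Real.log (nm d)) ((i : ℝ) / 2)
      linarith
    · rw [hlcV] at hvl
      rw [hlogE, ← hp, hm]
      have hT := tc_sh k ex x um p (Real.log (nm d)) b v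
      have g1 := (mem_filter.1 (mem_filter.1 hd).1).2
      push Not at g1
      have g2 := (mem_filter.1 hd).2
      have key2 := ln_b2' hTi (hγ0 d (hd2 d hd)) g1.le g2 hb hlE hvl (by linarith) lc0 h12
        hκ hT
      exact ln_a' hTf (hγ0 d (hd2 d hd)) hiv hb hlE0 hlE hvl (by linarith) lc0 h12 hκ hη hT
        key2
    · rw [hlcV] at hvl ⊢
      rw [hlogE, ← hp, hm]
      have hT := tc_sh k ex x um p (Real.log (nm d)) b v
      have g1 := (mem_filter.1 (mem_filter.1 hd).1).2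
      push Not at g1
      have g2 := (mem_filter.1 hd).2
      have := M_le hb hlE0
      have := ln_b2' hTi (hγ0 d (hd2 d hd)) g1.le g2 hb hlE hvl (by linarith) lc0 h12
        hκ hT
      linarith
  have s3 : ∑ d ∈ (Ds.filter fun d => ¬ Real.log (nm d : ℝ) ≤ κ / 10).filter
      (fun d => ¬ 2 * Real.log (nm d : ℝ) ≤ Real.log cc + i), f d ≤ 0 := by
    refine sum_nonpos fun d hd => sum_nonpos fun e he => ?_
    refine mul_nonpos_of_nonneg_of_nonpos (by positivity) ?_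
    have hdD : d ∈ Ds := (mem_filter.1 (mem_filter.1 hd).1).1
    have g2 := (mem_filter.1 hd).2
    push Not at g2
    refine LVn_zero (haf d hdD e he) (Real.exp_pos _).le (Real.exp_pos _).le (Real.exp_pos _).le
      (hDs d hdD).1.ne_zero ?_
    have hnd : (0 : ℝ) < nm d := by exact_mod_cast nm_pos.2 (hDs d hdD).1.ne_zero
    rw [← Real.exp_log (mul_pos hcc0 (Real.exp_pos (i : ℝ))), hlcV, ← Real.exp_log hnd,
      ← Real.exp_nat_mul]
    refine Real.exp_lt_exp.2 ?_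
    push_cast
    linarith
  have hsplit : ∑ d ∈ Ds, f d = ∑ d ∈ Ds1, f d + (∑ d ∈ Ds2, f d +
      ∑ d ∈ (Ds.filter fun d => ¬ Real.log (nm d : ℝ) ≤ κ / 10).filter
      (fun d => ¬ 2 * Real.log (nm d : ℝ) ≤ Real.log cc + i), f d) := by
    rw [hD2, sum_filter_add_sum_filter_not, hD1, sum_filter_add_sum_filter_not]
  have hfin : C * X ^ ε * F * Real.exp (-(p / 3)) * Real.exp m =
      C * X ^ ε * F * Real.exp (k + p + ex + 20 * t) := by
    rw [mul_assoc _ (Real.exp (-(p / 3))), ← Real.exp_add, hm]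
    congr 2
    ring
  rw [hfin] at s1 s2
  show ∑ d ∈ Ds, f d ≤ _
  rw [hsplit]
  linarith

end

end Crest.Agent.R017.E3N146
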