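import Crest.Agent.R017.E3Nh_146

/-!
# Row 17, R8 (E3): the T-half of the Gram error of `P1_0` in helper708's frame `PD` (helper146)

* **`th_pd`** : `Σ_i Σ_d Σ_e LVn ..` in the forms of `Z1F` and `CutE`
-/

set_option autoImplicit false
set_option linter.unusedVariables false

noncomputable section

open Finset
open scoped Classical

namespace Crest.Agent.R017.E3N146

open Crest.Agent.R012 Crest.Agent.R012.Eis
open Crest.Agent.R012.LS2 (S mem_S)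
open Crest.Agent.R017.CM106 (CS FS TG)
open Crest.Agent.R017.C70
open Crest.Agent.R017.HP842 (Pc pc sqc alL)
open Crest.Agent.R017.B770
open Crest.Agent.R017.FE47 (PU cx SM)
open Crest.Agent.R017.Prov71
open Crest.Agent.R017.ER911
open Crest.Agent.R017.Leg381 (Pf alF SF LF natl alF_natl)
open Crest.Agent.R017.I1146 (ChN LN cN SN Dom cN_nonneg CellS LipS numS Adm_list dom_list ds)
open Crest.Agent.R017.E1551 hiding tau Dg
open Crest.Agent.R017.E3Z548 (TN TN_nonneg JV JVc mem_JV FH FH_nonneg LVn)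
open Crest.Agent.R017.E3Kc548 (LI mem_LI card_LI)
open Crest.Agent.R017.RnP571 (hJ Dh)
open Crest.Agent.R017.E5B71 (Pt)
open Crest.Agent.R017.TM708 (T5 K5 FE2L PD R5)

variable {Λ : Type*} {π : Λ → DPar} {h : ℝ → ℝ} {d : ℝ} {rr : EF}

lemma pd_mono {X τ τ' B B' H : ℝ} {N : ℕ} {b : Fin 5 → ℝ} {q : Eis} {us : Fin 3 → Pq}
    {gs : List Pq} {κ : ℝ} (hX : 1 ≤ X) (hτ : τ ≤ τ') (hB : B ≤ B')
    (H₀ : PD X τ B H N b q us gs κ) : PD X τ' B' H N b q us gs κ := by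
  obtain ⟨q0, qB, H1, lump, us0, usB, usH, z1, z2, z3, am, len, x, k⟩ := H₀
  have hL : 0 ≤ Real.log X := Real.log_nonneg hX
  have e := mul_le_mul_of_nonneg_right hτ hL
  have hXB : X ^ B ≤ X ^ B' := Real.rpow_le_rpow_of_exponent_le hX hB
  refine ⟨q0, qB.trans hXB, H1, lump, us0, fun i => (usB i).trans hXB, usH, by linarith,
    by linarith, by linarith, fun p hp => ?_, len, by linarith, by linarith⟩
  obtain ⟨a1, a2, a3, a4, a5⟩ := am p hp
  exact ⟨a1, a2, by linarith, a4.trans hXB, a5⟩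

lemma mem_image_JW {D Y₀ Y₁ : ℝ} {x : Eis} (hx : x ∈ (JW D Y₀ Y₁).image Prod.fst) :
    IsPrim x ∧ (nm x : ℝ) ≤ Y₁ := by
  obtain ⟨y, hy, rfl⟩ := mem_image.1 hx
  unfold JW at hy
  rw [mem_filter, mem_product, mem_primBall] at hy
  obtain ⟨⟨⟨h1, h2⟩, h3⟩, h4, h5, h6, h7⟩ := hy
  refine ⟨h2, ?_⟩
  have hx2 : y.2 ≠ 0 := (E5b54.JC_cf h5).1
  have a1 : (1 : ℝ) ≤ nm y.2 := by exact_mod_cast nm_pos.2 hx2
  have a2 : (1 : ℝ) ≤ nm y.1 := by exact_mod_cast nm_pos.2 h2.ne_zero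
  refine le_trans ?_ h7
  rw [nm_mul, nm_pow]
  push_cast
  nlinarith

lemma K5_eq (b : Fin 5 → ℝ) : K5 b = b 0 + max 0 (5 / 4 * (b 1 + b 2 + b 3) - b 0) := by
  unfold K5
  rw [← max_add_add_left]
  congr 1 <;> ring

set_option maxHeartbeats 4000000 in
/-- **the T-half of the Gram error of `P1_0`** -/
theorem th_pd {c₀ : ℝ} (hpu : PU h c₀) (hP : ∀ lam, (π lam).OK) {Rh : ℝ} (hRh0 : 0 ≤ Rh)
    (hRh : ∀ u, cx h u ≠ 0 → |u| ≤ Rh)
    (R : ExpRules (7 / 8 + d) rr (ex Dq fun lam => Sp (π lam) h)) (hd : 0 ≤ d) (hd1 : d ≤ 1 / 40)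
    {D5 : Set (Fin 5 → ℝ)} (hD : IsCompact D5) (hR : ∀ b ∈ D5, R5 b)
    {ℓ : (Fin 5 → ℝ) → ℝ} (hℓ : Continuous ℓ) (hℓ0 : ∀ b ∈ D5, 0 ≤ ℓ b)
    (hFE : FE2L (ex Dq fun lam => S0p (π lam) h) D5 ℓ) {ε : ℝ} (hε : 0 < ε) :
    ∃ τ : ℝ, 0 < τ ∧ τ ≤ ε ∧ ∀ (lam : Λ) (s : Eis), s ∈ SM (π lam).n → ∀ (N : ℕ) (B cc : ℝ),
      1 ≤ cc → ∃ (M₀ : ℕ) (X₀ : ℝ), 1 < X₀ ∧ ∀ X : ℝ, X₀ ≤ X → ∀ b ∈ D5, ∀ (q : Eis)
      (us : Fin 3 → Pq) (gs : List Pq) (κ H : ℝ), PD X τ B H N b q us gs κ →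
      Dh (b 0) (b 1) (b 2) (b 3) (b 4) (d * b 0) → 1 / 2 ≤ b 0 → b 0 ≤ 9 / 8 →
      (b 4 ≤ 0 ∨ 5 / 2 * (b 1 + b 2 + b 3) + 4 * b 4 ≤ 2 * b 0) →
      (b 0 / 2 - 2 * b 4 - τ) * Real.log X ≤ LN ([us 0, us 1, us 2] ++ gs) →
      ∀ (x' ex' lE Y₁ D : ℝ), |x' - b 4 * Real.log X| ≤ τ * Real.log X →
      |ex' - max 0 (5 / 4 * (b 1 + b 2 + b 3) - b 0) * Real.log X| ≤ τ * Real.log X →
      1 ≤ Y₁ → Real.log Y₁ ≤ (min (2 * (b 1 + b 2 + b 3) - b 0) (3 / 4 * (b 1 + b 2 + b 3)) +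
        9 / 4 * b 4 + τ) * Real.log X → 0 ≤ lE → lE ≤ (b 0 / 64 + τ) * Real.log X →
      ∀ (af : Eis → Eis → Eis → ℂ) (Yg : ℝ),
      (∀ δ ∈ (JW D (1 / 10) Y₁).image Prod.fst, ∀ e ∈ S (Real.exp lE), af δ e = fun n =>
        sqc q (alL h (([us 0, us 1, us 2] ++ gs).map (Pt (π lam) s))) (δ * n)) →
      (∀ E1 : ℝ, 1 ≤ E1 → Real.log E1 ≤ (b 0 / 22 + τ) * Real.log X →
        ∑ i ∈ LI (1 / 10) Y₁, ∑ δ ∈ (JW D (1 / 10) Y₁).image Prod.fst, ∑ e ∈ S (Real.exp lE),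
          LVn af {δ} {e} cc Yg (Real.exp κ)
            (Real.exp (hN cc κ (LN ([us 0, us 1, us 2] ++ gs)) x' ex' i δ)) (Real.exp i)
            (Real.exp 1 * Y₁) E1 2 (Real.sqrt (cc * Real.exp i)) 0 ≤
        H ^ M₀ * X ^ (b 0 + LN ([us 0, us 1, us 2] ++ gs) / Real.log X +
          max 0 (5 / 4 * (b 1 + b 2 + b 3) - b 0) + ℓ b + ε)) ∧
      (∀ E1 : ℝ, 1 ≤ E1 → Real.log E1 ≤ (b 0 / 20 + τ) * Real.log X →
        ∑ i ∈ LI (1 / 10) Y₁, ∑ δ ∈ (JW D (1 / 10) Y₁).image Prod.fst, ∑ e ∈ S (Real.exp lE),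
          (nm e : ℝ)⁻¹ * LVn af {δ} {e} cc Yg (Real.exp κ)
            (Real.exp (hN cc κ (LN ([us 0, us 1, us 2] ++ gs)) x' ex' i δ)) (Real.exp i)
            (Real.exp i) E1 1 1 0 ≤
        H ^ M₀ * X ^ (b 0 + LN ([us 0, us 1, us 2] ++ gs) / Real.log X +
          max 0 (5 / 4 * (b 1 + b 2 + b 3) - b 0) + ℓ b + ε)) := by
  obtain ⟨ε', hε'⟩ : ∃ ε', ε' = min (ε / 100) (1 / 100000) := ⟨_, rfl⟩
  have hε'0 : 0 < ε' := by rw [hε']; exact lt_min (by linarith) (by norm_num)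
  have hε'1 : ε' ≤ ε / 100 := by rw [hε']; exact min_le_left _ _
  have hε'2 : ε' ≤ 1 / 100000 := by rw [hε']; exact min_le_right _ _
  obtain ⟨τ₀, hτ₀, hτ₀ε, G⟩ := cellT_of hpu hP R hd hd1 hD hR hℓ hℓ0 hFE hε'0
  refine ⟨τ₀ / 16, by positivity, by linarith, fun lam s hs N B cc hcc => ?_⟩
  obtain ⟨B₂, hB₂⟩ : ∃ B₂, B₂ = max B 2 := ⟨_, rfl⟩
  have hBB : B ≤ B₂ := by rw [hB₂]; exact le_max_left _ _
  have hB2 : 2 ≤ B₂ := by rw [hB₂]; exact le_max_right _ _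
  obtain ⟨M₀, G⟩ := G lam N B₂
  have hν1 : (1 : ℝ) ≤ (nm s : ℝ) ^ 2 :=
    one_le_pow₀ (by exact_mod_cast nm_pos.2 hs.1)
  obtain ⟨ν, hν⟩ : ∃ ν : ℝ, ν = (nm s : ℝ) ^ 2 := ⟨_, rfl⟩
  rw [← hν] at hν1
  have hRN : 0 ≤ 2 * (((N + 3 : ℕ) : ℝ) * Rh) := by positivity
  obtain ⟨CA, rA, hCA, hrA, GA⟩ := thA hpu (N + 3) hRN hε'0 (M := (M₀ : ℝ)) (Nat.cast_nonneg _)
    (B₂ := B₂) (by linarith) hν1 (Dd := ((ds s).card : ℝ)) (Nat.cast_nonneg _)
  obtain ⟨CB, rB, hCB, hrB, GB⟩ := thB hpu (N + 3) hRN hε'0 (M := (M₀ : ℝ)) (Nat.cast_nonneg _)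
    (B₂ := B₂) (by linarith) hν1 (Dd := ((ds s).card : ℝ)) (Nat.cast_nonneg _)
  obtain ⟨X₁, hX₁, G⟩ := G (max rA rB) (hrA.trans (le_max_left _ _))
  obtain ⟨C, hC⟩ : ∃ C, C = (CA + CB) * (2 + 1 / ε') := ⟨_, rfl⟩
  have hC0 : 0 ≤ C := by rw [hC]; positivity
  obtain ⟨L₀, hL₀⟩ : ∃ L₀ : ℝ, L₀ = (4 * Real.log cc + 8 + Real.log ν + Real.log 12 +
    ((N + 3 : ℕ) : ℝ) * Rh + Real.log (C + 1)) / (τ₀ / 16) := ⟨_, rfl⟩
  refine ⟨M₀, max (max X₁ 3) (Real.exp L₀), ?_, ?_⟩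
  · exact lt_of_lt_of_le (by norm_num : (1 : ℝ) < 3) ((le_max_right X₁ 3).trans (le_max_left _ _))
  intro X hX b hb q us gs κ H hPD hDh hb0 hb0' hx4 hlo x' ex' lE Y₁ D hx' hex' hY1 hYl hlE0 hlE af
    Yg haf
  have hX1 : X₁ ≤ X := ((le_max_left X₁ 3).trans (le_max_left _ _)).trans hX
  have hX3 : 3 ≤ X := ((le_max_right X₁ 3).trans (le_max_left _ _)).trans hX
  have hX0 : 0 < X := by linarith
  have hXL : Real.exp L₀ ≤ X := (le_max_right _ _).trans hX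
  obtain ⟨L, hL⟩ : ∃ L, L = Real.log X := ⟨_, rfl⟩
  have hXe : X = Real.exp L := by rw [hL, Real.exp_log hX0]
  have hLL : L₀ ≤ L := by
    rw [hXe] at hXL
    exact Real.exp_le_exp.1 hXL
  have lc0 : 0 ≤ Real.log cc := Real.log_nonneg hcc
  have lν0 : 0 ≤ Real.log ν := Real.log_nonneg hν1
  have l12 : 0 ≤ Real.log 12 := Real.log_nonneg (by norm_num)
  have lC0 : 0 ≤ Real.log (C + 1) := Real.log_nonneg (by linarith)
  have lR0 : 0 ≤ ((N + 3 : ℕ) : ℝ) * Rh := by positivity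
  have hbig : 4 * Real.log cc + 8 + Real.log ν + Real.log 12 + ((N + 3 : ℕ) : ℝ) * Rh +
      Real.log (C + 1) ≤ τ₀ / 16 * L := by
    rw [hL₀, div_le_iff₀ (by positivity)] at hLL
    linarith
  have hL0 : 0 < L := by
    by_contra h0
    push Not at h0
    have := mul_nonpos_of_nonneg_of_nonpos (by positivity : 0 ≤ τ₀ / 16) h0
    linarith
  have ml : ∀ {a b : ℝ}, a ≤ b → a * L ≤ b * L := fun h => mul_le_mul_of_nonneg_right h hL0.le
  rw [← hL] at hlo hx' hex' hYl hlE ⊢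
  have hRb := hR b hb
  have hPD' := pd_mono (by linarith) (by linarith : τ₀ / 16 ≤ τ₀) hBB hPD
  obtain ⟨ps, hps⟩ : ∃ ps, ps = [us 0, us 1, us 2] ++ gs := ⟨_, rfl⟩
  rw [← hps] at hlo haf ⊢
  obtain ⟨p, hp⟩ : ∃ p, p = LN ps := ⟨_, rfl⟩
  obtain ⟨Nb, hNb⟩ : ∃ Nb, Nb = b 1 + b 2 + b 3 := ⟨_, rfl⟩
  obtain ⟨E, hE⟩ : ∃ E, E = max 0 (5 / 4 * (b 1 + b 2 + b 3) - b 0) := ⟨_, rfl⟩
  rw [← hE] at hex' ⊢
  rw [← hNb] at hYl hx4 hE
  have hE0 : 0 ≤ E := by rw [hE]; exact le_max_left _ _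
  have hE1 : 5 / 4 * Nb - b 0 ≤ E := by rw [hE]; exact le_max_right _ _
  have hK5 : K5 b = b 0 + E := by rw [K5_eq, ← hNb, ← hE]
  -- sizes
  obtain ⟨k1, k2⟩ := abs_le.1 hPD.k
  rw [← hL] at k1 k2
  have hb4 := hRb.x0
  have hx1 := hRb.x1
  have hN1 := hRb.hN
  rw [← hNb] at hN1
  have hN0 : 0 ≤ Nb := by rw [hNb]; have := hRb.y1; have := hRb.y2; have := hRb.y3; linarith
  have z1 := hPD.z1
  have z2 := hPD.z2
  have z3 := hPD.z3
  have zx := hPD.x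
  rw [← hL] at z1 z2 z3 zx
  have hpn : p = (us 0).z + (us 1).z + (us 2).z + LN gs := by
    rw [hp, hps]
    unfold I1146.LN
    simp only [List.cons_append, List.nil_append, List.map_cons, List.sum_cons]
    ring
  have hτL : 0 < τ₀ * L := by positivity
  have hτε : τ₀ * L ≤ ε' * L := mul_le_mul_of_nonneg_right hτ₀ε hL0.le
  have hNL : Nb * L = b 1 * L + b 2 * L + b 3 * L := by rw [hNb]; ring
  have hpu' : p ≤ Nb * L + b 4 * L + τ₀ / 4 * L := by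
    rw [hpn, hNL]
    linarith
  have hNbL : Nb * L ≤ 102 / 125 * (b 0 * L) := by have := ml hN1; linarith
  have hb0L : b 0 * L ≤ 9 / 8 * L := mul_le_mul_of_nonneg_right hb0' hL0.le
  have hb0L' : 1 / 2 * L ≤ b 0 * L := mul_le_mul_of_nonneg_right hb0 hL0.le
  have hx1L : b 4 * L ≤ 1 / 36 * (b 0 * L) := by have := ml hx1; linarith
  have hb4L : 0 ≤ b 4 * L := mul_nonneg hb4 hL0.le
  have hN0L : 0 ≤ Nb * L := mul_nonneg hN0 hL0.le
  have hEL : 0 ≤ E * L := mul_nonneg hE0 hL0.le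
  have ht5 : ε' * L ≤ 1 / 100000 * L := mul_le_mul_of_nonneg_right hε'2 hL0.le
  have hE1L : 5 / 4 * (Nb * L) - b 0 * L ≤ E * L := by have := ml hE1; linarith
  have hlY0 : 0 ≤ Real.log Y₁ := Real.log_nonneg hY1
  have m1 := min_le_left (2 * Nb - b 0) (3 / 4 * Nb)
  have m2 := min_le_right (2 * Nb - b 0) (3 / 4 * Nb)
  have hY2 : Real.log Y₁ ≤ 2 * (Nb * L) - b 0 * L + 9 / 4 * (b 4 * L) + τ₀ / 16 * L := by
    have := ml m1
    linarith
  have hY3 : Real.log Y₁ ≤ 3 / 4 * (Nb * L) + 9 / 4 * (b 4 * L) + τ₀ / 16 * L := by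
    have := ml m2
    linarith
  obtain ⟨vt, hvt⟩ : ∃ vt, vt = 1 + Real.log Y₁ := ⟨_, rfl⟩
  have hY0 : 0 < Y₁ := by linarith
  have hevt : Real.exp 1 * Y₁ = Real.exp vt := by rw [hvt, Real.exp_add, Real.exp_log hY0]
  -- the frame
  have hTf : Tf (b 0 * L) (Nb * L) (b 4 * L) (E * L) vt p (ε' * L) := by
    refine ⟨by linarith, hb4L, hNbL, ?_, hEL, hE1L, by linarith, by linarith, ?_, by linarith,
      by positivity, by linarith⟩
    · obtain ⟨c1, c2, c3, c4, c5, c6, c7, c8, adm, c9, c10⟩ := hDh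
      rcases adm with ⟨a1, a2⟩ | ⟨a1, a2, a3⟩
      · left
        have e1 : b 4 ≤ b 0 / 320 := by linarith
        refine ⟨by have := ml e1; linarith, ?_⟩
        rcases a2 with a2 | a2
        · left; rw [a2, zero_mul]
        · right
          have : Nb + b 4 ≤ 4 / 5 * b 0 := by rw [hNb]; linarith
          have := ml this
          linarith
      · right
        have e1 : 3 / 4 * b 0 ≤ Nb := by rw [hNb]; linarith
        have e2 : b 4 + 7 / 10 * Nb ≤ 199 / 360 * b 0 := by rw [hNb]; linarith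
        have e3 := ml e1
        have e4 := ml e2
        exact ⟨by linarith, by linarith, by linarith⟩
    · rw [← hp] at hlo
      linarith
  obtain ⟨T, hT⟩ : ∃ T, T = Real.log cc + vt + Real.log ν := ⟨_, rfl⟩
  have hT1 : T ≤ (T5 b + τ₀) * Real.log X := by
    rw [← hL]
    unfold T5
    rw [← hNb, hT, hvt]
    linarith
  have hT2 : T ≤ (K5 b - (b 1 + b 2 + b 3) / 2 - b 4 + 3 * 0 + τ₀) * Real.log X := by
    rw [← hL, hK5, ← hNb]
    rcases hx4 with h4 | h4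
    · have h5 : b 4 = 0 := le_antisymm h4 hb4
      rw [h5] at hY3 ⊢
      linarith
    · have h5 : 5 / 2 * (Nb * L) + 4 * (b 4 * L) ≤ 2 * (b 0 * L) := by have := ml h4; linarith
      linarith
  obtain ⟨um, hum⟩ : ∃ um, um = min (us 0).z (min (us 1).z (us 2).z) := ⟨_, rfl⟩
  have hz5 : |b 0 * L + E * L - K5 b * Real.log X| ≤ τ₀ * Real.log X := by
    have e0 : b 0 * L + E * L - K5 b * Real.log X = 0 := by rw [← hL, hK5]; ring
    rw [e0, abs_zero, ← hL]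
    exact hτL.le
  have hcell := G X hX1 b hb q us gs κ H hPD' T 0 le_rfl hT1 hT2 M₀ le_rfl (B₂ * Real.log X)
    (b 0 * L + E * L) (b 4 * L) um hz5 (by rw [← hL, sub_self, abs_zero]; exact hτL.le)
    (by rw [hum]; rw [← hL]; linarith)
  rw [← hps, ← hp] at hcell
  obtain ⟨F, hF⟩ : ∃ F, F = H ^ M₀ * X ^ (0 + ℓ b + ε') := ⟨_, rfl⟩
  rw [← hF] at hcell
  have hH0 : 0 < H := by have := hPD.H1; linarith
  have hF0 : 0 ≤ F := by rw [hF]; positivity
  have hlen : ps.length ≤ N + 3 := by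
    rw [hps]
    simp only [List.length_append, List.length_cons, List.length_nil]
    have := hPD.len
    omega
  have hzz : ∀ p ∈ ps, 0 ≤ p.z ∧ p.z ≤ Real.log X := by
    have c5 := hDh.y3
    have c1 := hDh.u4
    have c2 := hDh.y43
    have d1L : b 1 * L ≤ 61 / 200 * (b 0 * L) := by have := ml c5; linarith
    have d2L : b 2 * L ≤ b 1 * L := mul_le_mul_of_nonneg_right c2 hL0.le
    have d3L : b 3 * L ≤ b 2 * L := mul_le_mul_of_nonneg_right c1 hL0.le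
    intro p' hp'
    rw [hps] at hp'
    simp only [List.cons_append, List.nil_append, List.mem_cons] at hp'
    rw [← hL]
    rcases hp' with rfl | rfl | rfl | hp'
    · exact ⟨hPD.us0 0, by linarith⟩
    · exact ⟨hPD.us0 1, by linarith⟩
    · exact ⟨hPD.us0 2, by linarith⟩
    · obtain ⟨-, a2, a3, -⟩ := hPD.am p' hp'
      rw [← hL] at a3
      exact ⟨a2, by linarith⟩
  -- the sequence
  obtain ⟨Y, hY⟩ : ∃ Y, Y = Real.exp (LN ps + ((N + 3 : ℕ) : ℝ) * Rh) := ⟨_, rfl⟩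
  have hadm₀ : Adm Y (Real.exp (LN ps)) (2 * (((N + 3 : ℕ) : ℝ) * Rh))
      (sqc q (alF 1 1 (π lam) h (natl ps))) := Adm_list hRh0 hRh (π lam) q hlen (by rw [hY])
  have hdom := dom_list (hP lam) h hs q ps
  rw [← hν] at hdom
  obtain ⟨al, hal⟩ : ∃ al, al = sqc q (alL h (ps.map (Pt (π lam) s))) := ⟨_, rfl⟩
  rw [← hal] at hdom haf
  have hne : ∀ m, al m ≠ 0 → sqc q (alF 1 1 (π lam) h (natl ps)) m ≠ 0 := fun m hm h0 =>
    hm (norm_le_zero_iff.1 (by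
      have := hdom.le m
      rw [h0, norm_zero] at this
      exact this))
  have hadm : Adm Y (Real.exp (LN ps)) (2 * (((N + 3 : ℕ) : ℝ) * Rh)) al :=
    ⟨fun m hm => hadm₀.sup m (hne m hm), fun m hm => hadm₀.win m (hne m hm)⟩
  have hp0 : 0 ≤ p := by
    rw [hp]
    unfold I1146.LN
    refine List.sum_nonneg fun x hx => ?_
    obtain ⟨p', hp', rfl⟩ := List.mem_map.1 hx
    exact (hzz p' hp').1
  have hYge : 1 ≤ Y := by rw [hY, ← hp]; exact Real.one_le_exp (by linarith)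
  have hXB : X ^ B₂ = Real.exp (B₂ * L) := by
    rw [hXe, ← Real.exp_mul, mul_comm]
  have hB2L : 2 * L ≤ B₂ * L := mul_le_mul_of_nonneg_right hB2 hL0.le
  have hYle : Y ≤ X ^ B₂ := by
    rw [hY, hXB, ← hp]
    exact Real.exp_le_exp.2 (by linarith)
  have hcc0 : 0 < cc := by linarith
  have hν0 : 0 < ν := by linarith
  have hDs : ∀ δ ∈ (JW D (1 / 10) Y₁).image Prod.fst, IsPrim δ ∧ (nm δ : ℝ) ≤ X ^ B₂ := by
    intro δ hδ
    obtain ⟨a1, a2⟩ := mem_image_JW hδ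
    refine ⟨a1, a2.trans ?_⟩
    rw [hXB, ← Real.exp_log hY0]
    exact Real.exp_le_exp.2 (by linarith)
  have hlogi : ∀ i : ℕ, Real.log (cc * Real.exp i * ν) = Real.log cc + i + Real.log ν := by
    intro i
    rw [Real.log_mul (by positivity) hν0.ne', Real.log_mul hcc0.ne' (Real.exp_pos _).ne',
      Real.log_exp]
  have hiv : ∀ i ∈ LI (1 / 10) Y₁, (i : ℝ) ≤ vt := by
    intro i hi
    have h1 := (mem_LI hi).2.2
    rw [hevt] at h1
    exact Real.exp_le_exp.1 h1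
  have hcard : ((LI (1 / 10) Y₁).card : ℝ) ≤ (2 + 1 / ε') * X ^ ε' := by
    refine card_LI _ (by linarith) hY0.le ?_ hε'0
    rw [hXe, ← Real.exp_log hY0]
    exact Real.exp_le_exp.2 (by linarith)
  have hκ' : |κ - b 0 * L| ≤ ε' * L / 8 := abs_le.2 ⟨by linarith, by linarith⟩
  have hx'' : |x' - b 4 * L| ≤ ε' * L / 8 := hx'.trans (by linarith)
  have hex'' : |ex' - E * L| ≤ ε' * L / 8 := hex'.trans (by linarith)
  have hCX : C ≤ X ^ ε' := by
    have h1 : C + 1 = Real.exp (Real.log (C + 1)) := (Real.exp_log (by linarith)).symm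
    have h2 : X ^ ε' = Real.exp (ε' * L) := by rw [hXe, ← Real.exp_mul, mul_comm]
    have h3 : C + 1 ≤ X ^ ε' := by
      rw [h1, h2]
      exact Real.exp_le_exp.2 (by linarith)
    linarith
  have hfin : ∀ c : ℝ, 0 ≤ c → c ≤ CA + CB → ((LI (1 / 10) Y₁).card : ℝ) * (c * X ^ ε' * F *
      Real.exp (b 0 * L + p + E * L + 20 * (ε' * L))) ≤
      H ^ M₀ * X ^ (b 0 + p / L + E + ℓ b + ε) := by
    intro c hc0 hc1
    have e1 : Real.exp (b 0 * L + p + E * L + 20 * (ε' * L)) =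
        X ^ (b 0 + p / L + E + 20 * ε') := by
      rw [hXe, ← Real.exp_mul]
      congr 1
      field_simp
    have hXp : ∀ y : ℝ, 0 < X ^ y := fun y => Real.rpow_pos_of_pos hX0 y
    calc _ ≤ ((2 + 1 / ε') * X ^ ε') * ((CA + CB) * X ^ ε' * F *
          X ^ (b 0 + p / L + E + 20 * ε')) := by
          rw [e1]
          have b1 : c * X ^ ε' * F ≤ (CA + CB) * X ^ ε' * F :=
            mul_le_mul_of_nonneg_right (mul_le_mul_of_nonneg_right hc1 (hXp _).le) hF0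
          refine mul_le_mul hcard (mul_le_mul_of_nonneg_right b1 (hXp _).le)
            (by positivity) (by positivity)
      _ = C * (X ^ ε' * X ^ ε' * F * X ^ (b 0 + p / L + E + 20 * ε')) := by rw [hC]; ring
      _ ≤ X ^ ε' * (X ^ ε' * X ^ ε' * F * X ^ (b 0 + p / L + E + 20 * ε')) :=
          mul_le_mul_of_nonneg_right hCX (by positivity)
      _ = H ^ M₀ * X ^ (b 0 + p / L + E + ℓ b + 24 * ε') := by
          rw [hF]
          have : X ^ (b 0 + p / L + E + ℓ b + 24 * ε') = X ^ ε' * (X ^ ε' * X ^ ε' *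
              X ^ (0 + ℓ b + ε') * X ^ (b 0 + p / L + E + 20 * ε')) := by
            rw [← Real.rpow_add hX0, ← Real.rpow_add hX0, ← Real.rpow_add hX0,
              ← Real.rpow_add hX0]
            congr 1
            ring
          rw [this]
          ring
      _ ≤ _ := mul_le_mul_of_nonneg_left
          (Real.rpow_le_rpow_of_exponent_le (by linarith) (by linarith)) (by positivity)
  rw [← hp]
  refine ⟨fun E1 hE1 hE1l => ?_, fun E1 hE1 hE1l => ?_⟩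
  · have hE10 : 0 < E1 := by linarith
    refine le_trans (sum_le_card_nsmul _ _ (CA * X ^ ε' * F *
      Real.exp (b 0 * L + p + E * L + 20 * (ε' * L))) fun i hi => ?_) ?_
    · have key := GA X hX3 (π lam) (hP lam) q ps hlen hzz Y cc T F (b 0 * L) (Nb * L) (b 4 * L)
        (E * L) κ x' ex' (ε' * L) vt um lE (Real.log E1) i hYge hYle hcc ?_ ?_ hF0 (hp ▸ hTf) hκ'
        hx'' hex'' (hiv i hi) (by linarith) (by linarith) (by linarith)
        (hp ▸ (hcell.mono (le_max_left _ _))) al hdom hadm _ af Yg (Real.exp 1 * Y₁)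
        (Real.sqrt (cc * Real.exp i)) hDs haf hevt rfl (by linarith)
      · rw [← hp, Real.exp_log hE10] at key
        exact key
      · rw [hXe, ← Real.exp_log (by positivity : 0 < cc * Real.exp i * ν), hlogi]
        have := hiv i hi
        exact Real.exp_le_exp.2 (by linarith)
      · rw [hlogi, hT]
        have := hiv i hi
        linarith
    · rw [nsmul_eq_mul]
      exact hfin CA hCA (by linarith)
  · have hE10 : 0 < E1 := by linarith
    refine le_trans (sum_le_card_nsmul _ _ (CB * X ^ ε' * F *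
      Real.exp (b 0 * L + p + E * L + 20 * (ε' * L))) fun i hi => ?_) ?_
    · have key := GB X hX3 (π lam) (hP lam) q ps hlen hzz Y cc T F (b 0 * L) (Nb * L) (b 4 * L)
        (E * L) κ x' ex' (ε' * L) vt um lE (Real.log E1) i hYge hYle hcc ?_ ?_ hF0 (hp ▸ hTf) hκ'
        hx'' hex'' (hiv i hi) (by linarith) (by linarith) hlE0 (by linarith) ?_
        (hp ▸ (hcell.mono (le_max_right _ _))) al hdom hadm _ af Yg hDs haf (by linarith)
      · rw [← hp, Real.exp_log hE10] at key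
        exact key
      · rw [hXe, ← Real.exp_log (by positivity : 0 < cc * Real.exp i * ν), hlogi]
        have := hiv i hi
        exact Real.exp_le_exp.2 (by linarith)
      · rw [hlogi, hT]
        have := hiv i hi
        linarith
      · rw [hXB]
        exact Real.exp_le_exp.2 (by linarith)
    · rw [nsmul_eq_mul]
      exact hfin CB hCB (by linarith)

end Crest.Agent.R017.E3N146
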