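import Crest.Agent.R017.E3Ni_146
import Crest.Agent.R017.E3Es_579
import Crest.Agent.R017.E3Fr_579
import Crest.Agent.R017.Z1F_579

/-!
# Row 17, R8 (E3): the errors of the Gram sum of `P1_0` in helper708's frame `PD` (helper146)

* **`er_pd`** : `TF (1/2)`, `TF (-1)`, `EF`, `TF 0` (helper579's `Z1F`, helper290's `CutE`)
-/

set_option autoImplicit false
set_option linter.unusedVariables false

noncomputable section

open Finset
open scoped Classical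

namespace Crest.Agent.R017.E3N146

open Crest.Agent.R012 Crest.Agent.R012.Eis
open Crest.Agent.R012.LS2 (S mem_S)
open Crest.Agent.R017.CM106 (CS FS TG)
open Crest.Agent.R017.C70
open Crest.Agent.R017.HP842 (Pc pc sqc alL)
open Crest.Agent.R017.B770
open Crest.Agent.R017.FE47 (PU cx SM)
open Crest.Agent.R017.Prov71
open Crest.Agent.R017.ER911
open Crest.Agent.R017.Leg381 (Pf alF SF LF natl alF_natl)
open Crest.Agent.R017.I1146 (ChN LN cN SN Dom cN_nonneg CellS LipS numS Adm_list dom_list ds)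
open Crest.Agent.R017.E1551 hiding tau Dg
open Crest.Agent.R017.E3Z548 (TN TN_nonneg JV JVc mem_JV FH FH_nonneg LVn)
open Crest.Agent.R017.E3Kc548 (LI mem_LI card_LI)
open Crest.Agent.R017.RnP571 (hJ Dh)
open Crest.Agent.R017.E5B71 (Pt)
open Crest.Agent.R017.TM708 (T5 K5 FE2L PD R5)
open Crest.Agent.R017.E3Er579
open Crest.Agent.R017.E3T829 (hE hE_nonneg)
open Crest.Agent.R017.E3M829 (TF Tal)
open Crest.Agent.R017.E3F548 (EF)
open Crest.Agent.R017.Z1F579 (hE_Z)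

variable {Λ : Type*} {π : Λ → DPar} {h : ℝ → ℝ} {d : ℝ} {rr : EF}

set_option maxHeartbeats 4000000 in
/-- **the errors of the Gram sum of `P1_0`** -/
theorem er_pd {c₀ : ℝ} (hpu : PU h c₀) (hP : ∀ lam, (π lam).OK) {Rh : ℝ} (hRh0 : 0 ≤ Rh)
    (hRh : ∀ u, cx h u ≠ 0 → |u| ≤ Rh)
    (R : ExpRules (7 / 8 + d) rr (ex Dq fun lam => Sp (π lam) h)) (hd : 0 ≤ d) (hd1 : d ≤ 1 / 40)
    {D5 : Set (Fin 5 → ℝ)} (hD : IsCompact D5) (hR : ∀ b ∈ D5, R5 b)
    {ℓ : (Fin 5 → ℝ) → ℝ} (hℓ : Continuous ℓ) (hℓ0 : ∀ b ∈ D5, 0 ≤ ℓ b)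
    (hFE : FE2L (ex Dq fun lam => S0p (π lam) h) D5 ℓ) {ε : ℝ} (hε : 0 < ε) :
    ∃ τ : ℝ, 0 < τ ∧ τ ≤ ε ∧ ∀ (lam : Λ) (s : Eis), s ∈ SM (π lam).n → ∀ (N : ℕ) (B : ℝ),
      ∃ (M₀ : ℕ) (X₀ : ℝ), 1 < X₀ ∧ ∀ X : ℝ, X₀ ≤ X → ∀ b ∈ D5, ∀ (q : Eis)
      (us : Fin 3 → Pq) (gs : List Pq) (κ H : ℝ), PD X τ B H N b q us gs κ →
      Dh (b 0) (b 1) (b 2) (b 3) (b 4) (d * b 0) → 1 / 2 ≤ b 0 → b 0 ≤ 9 / 8 →
      (b 4 ≤ 0 ∨ 5 / 2 * (b 1 + b 2 + b 3) + 4 * b 4 ≤ 2 * b 0) →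
      (b 0 / 2 - 2 * b 4 - τ) * Real.log X ≤ LN ([us 0, us 1, us 2] ++ gs) →
      ∀ (lE Y₁ D : ℝ), 1 ≤ Y₁ →
      Real.log Y₁ ≤ (min (2 * (b 1 + b 2 + b 3) - b 0) (3 / 4 * (b 1 + b 2 + b 3)) +
        9 / 4 * b 4 + τ) * Real.log X → 0 ≤ lE → lE ≤ (b 0 / 64 + τ) * Real.log X →
      ∀ (om : Eis × Eis → ℂ) (al : Eis → ℂ),
      al = sqc q (alL h (([us 0, us 1, us 2] ++ gs).map (Pt (π lam) s))) →
      (∀ x ∈ JW D (1 / 10) Y₁, ‖om x‖ ≤ 1) →
      (Real.exp κ ^ (2 / 3 : ℝ) * ((Y₁ / Real.exp κ ^ 2) ^ (1 / 6 : ℝ) *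
          TF (1 / 2) (JW D (1 / 10) Y₁) om (Real.exp lE) (Tal al)) ≤
        H ^ M₀ * X ^ (b 0 + LN ([us 0, us 1, us 2] ++ gs) / Real.log X +
          max 0 (5 / 4 * (b 1 + b 2 + b 3) - b 0) + ℓ b + ε)) ∧
      (∀ E1 : ℝ, 0 < E1 → (b 0 / 30 - τ) * Real.log X ≤ Real.log E1 →
        Real.exp κ ^ (2 / 3 : ℝ) * (E1⁻¹ *
          TF (-1) (JW D (1 / 10) Y₁) om (Real.exp lE) (Tal al)) ≤
        H ^ M₀ * X ^ (b 0 + LN ([us 0, us 1, us 2] ++ gs) / Real.log X +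
          max 0 (5 / 4 * (b 1 + b 2 + b 3) - b 0) + ℓ b + ε)) ∧
      (∀ E1 : ℝ, 0 < E1 → Real.log E1 ≤ (b 0 / 20 + τ) * Real.log X →
        (Real.exp κ ^ (-(1 : ℝ) / 3) * E1 ^ 2 * Y₁) *
          ∑ x ∈ JW D (1 / 10) Y₁, EF om (Tal al) (Real.exp lE) x ≤
        H ^ M₀ * X ^ (b 0 + LN ([us 0, us 1, us 2] ++ gs) / Real.log X +
          max 0 (5 / 4 * (b 1 + b 2 + b 3) - b 0) + ℓ b + ε)) ∧
      (∀ E1 : ℝ, 0 < E1 → Real.log E1 ≤ (b 0 / 20 + τ) * Real.log X →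
        (Real.exp κ ^ (-(1 : ℝ) / 3) * E1 ^ 2 * Y₁) *
          TF 0 (JW D (1 / 10) Y₁) om (Real.exp lE) (Tal al) ≤
        H ^ M₀ * X ^ (b 0 + LN ([us 0, us 1, us 2] ++ gs) / Real.log X +
          max 0 (5 / 4 * (b 1 + b 2 + b 3) - b 0) + ℓ b + ε)) := by
  obtain ⟨ε', hε'⟩ : ∃ ε', ε' = min (ε / 100) (1 / 100000) := ⟨_, rfl⟩
  have hε'0 : 0 < ε' := by rw [hε']; exact lt_min (by linarith) (by norm_num)
  have hε'1 : ε' ≤ ε / 100 := by rw [hε']; exact min_le_left _ _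
  have hε'2 : ε' ≤ 1 / 100000 := by rw [hε']; exact min_le_right _ _
  obtain ⟨τ₀, hτ₀, hτ₀ε, G⟩ := cellT_of hpu hP R hd hd1 hD hR hℓ hℓ0 hFE hε'0
  refine ⟨τ₀ / 16, by positivity, by linarith, fun lam s hs N B => ?_⟩
  obtain ⟨cc, hcce⟩ : ∃ cc : ℝ, cc = Real.exp 1 := ⟨_, rfl⟩
  have hcc : 1 ≤ cc := by rw [hcce]; exact Real.one_le_exp zero_le_one
  obtain ⟨B₂, hB₂⟩ : ∃ B₂, B₂ = max B 2 := ⟨_, rfl⟩
  have hBB : B ≤ B₂ := by rw [hB₂]; exact le_max_left _ _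
  have hB2 : 2 ≤ B₂ := by rw [hB₂]; exact le_max_right _ _
  obtain ⟨M₀, G⟩ := G lam N B₂
  have hν1 : (1 : ℝ) ≤ (nm s : ℝ) ^ 2 :=
    one_le_pow₀ (by exact_mod_cast nm_pos.2 hs.1)
  obtain ⟨ν, hν⟩ : ∃ ν : ℝ, ν = (nm s : ℝ) ^ 2 := ⟨_, rfl⟩
  rw [← hν] at hν1
  have hRN : 0 ≤ 2 * (((N + 3 : ℕ) : ℝ) * Rh) := by positivity
  obtain ⟨C1, r1, hC1, hr1, G1⟩ := TFl hpu (N + 3) hRN hε'0 (M := (M₀ : ℝ)) (Nat.cast_nonneg _)
    (B₂ := B₂) (by linarith) hν1 (Dd := ((ds s).card : ℝ)) (Nat.cast_nonneg _) (L := 3)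
    (t := 1 / 2) (by norm_num) (by norm_num) (by norm_num)
  obtain ⟨C2, r2, hC2, hr2, G2⟩ := TFl hpu (N + 3) hRN hε'0 (M := (M₀ : ℝ)) (Nat.cast_nonneg _)
    (B₂ := B₂) (by linarith) hν1 (Dd := ((ds s).card : ℝ)) (Nat.cast_nonneg _) (L := 3)
    (t := 2) (by norm_num) (by norm_num) (by norm_num)
  obtain ⟨C3, r3, hC3, hr3, G3⟩ := EFl hpu (N + 3) hRN hε'0 (M := (M₀ : ℝ)) (Nat.cast_nonneg _)
    (B₂ := B₂) (by linarith) hν1 (Dd := ((ds s).card : ℝ)) (Nat.cast_nonneg _) (L := 3)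
    (by norm_num)
  obtain ⟨C4, r4, hC4, hr4, G4⟩ := TFl hpu (N + 3) hRN hε'0 (M := (M₀ : ℝ)) (Nat.cast_nonneg _)
    (B₂ := B₂) (by linarith) hν1 (Dd := ((ds s).card : ℝ)) (Nat.cast_nonneg _) (L := 3)
    (t := 1) (by norm_num) (by norm_num) (by norm_num)
  obtain ⟨r, hr⟩ : ∃ r, r = max (max r1 r2) (max r3 r4) := ⟨_, rfl⟩
  have hrr1 : r1 ≤ r := by rw [hr]; exact (le_max_left _ _).trans (le_max_left _ _)
  have hrr2 : r2 ≤ r := by rw [hr]; exact (le_max_right _ _).trans (le_max_left _ _)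
  have hrr3 : r3 ≤ r := by rw [hr]; exact (le_max_left _ _).trans (le_max_right _ _)
  have hrr4 : r4 ≤ r := by rw [hr]; exact (le_max_right _ _).trans (le_max_right _ _)
  obtain ⟨X₁, hX₁, G⟩ := G r (hr1.trans hrr1)
  obtain ⟨C, hC⟩ : ∃ C, C = (C1 + C2 + C3 + C4) * (200 * (1 + 1 / ε')) := ⟨_, rfl⟩
  have hC0 : 0 ≤ C := by rw [hC]; positivity
  obtain ⟨L₀, hL₀⟩ : ∃ L₀ : ℝ, L₀ = (4 * Real.log cc + 8 + Real.log ν + Real.log 12 +
    ((N + 3 : ℕ) : ℝ) * Rh + Real.log (C + 1)) / (τ₀ / 16) := ⟨_, rfl⟩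
  refine ⟨M₀, max (max X₁ 3) (Real.exp L₀), ?_, ?_⟩
  · exact lt_of_lt_of_le (by norm_num : (1 : ℝ) < 3) ((le_max_right X₁ 3).trans (le_max_left _ _))
  intro X hX b hb q us gs κ H hPD hDh hb0 hb0' hx4 hlo lE Y₁ D hY1 hYl hlE0 hlE om al hal hom
  have hX1 : X₁ ≤ X := ((le_max_left X₁ 3).trans (le_max_left _ _)).trans hX
  have hX3 : 3 ≤ X := ((le_max_right X₁ 3).trans (le_max_left _ _)).trans hX
  have hX0 : 0 < X := by linarith
  have hXL : Real.exp L₀ ≤ X := (le_max_right _ _).trans hX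
  obtain ⟨L, hL⟩ : ∃ L, L = Real.log X := ⟨_, rfl⟩
  have hXe : X = Real.exp L := by rw [hL, Real.exp_log hX0]
  have hLL : L₀ ≤ L := by
    rw [hXe] at hXL
    exact Real.exp_le_exp.1 hXL
  have lc0 : 0 ≤ Real.log cc := Real.log_nonneg hcc
  have lν0 : 0 ≤ Real.log ν := Real.log_nonneg hν1
  have l12 : 0 ≤ Real.log 12 := Real.log_nonneg (by norm_num)
  have lC0 : 0 ≤ Real.log (C + 1) := Real.log_nonneg (by linarith)
  have lR0 : 0 ≤ ((N + 3 : ℕ) : ℝ) * Rh := by positivity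
  have hbig : 4 * Real.log cc + 8 + Real.log ν + Real.log 12 + ((N + 3 : ℕ) : ℝ) * Rh +
      Real.log (C + 1) ≤ τ₀ / 16 * L := by
    rw [hL₀, div_le_iff₀ (by positivity)] at hLL
    linarith
  have hL0 : 0 < L := by
    by_contra h0
    push Not at h0
    have := mul_nonpos_of_nonneg_of_nonpos (by positivity : 0 ≤ τ₀ / 16) h0
    linarith
  have ml : ∀ {a b : ℝ}, a ≤ b → a * L ≤ b * L := fun h => mul_le_mul_of_nonneg_right h hL0.le
  rw [← hL] at hlo hYl hlE ⊢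
  have hRb := hR b hb
  have hPD' := pd_mono (by linarith) (by linarith : τ₀ / 16 ≤ τ₀) hBB hPD
  obtain ⟨ps, hps⟩ : ∃ ps, ps = [us 0, us 1, us 2] ++ gs := ⟨_, rfl⟩
  rw [← hps] at hlo hal ⊢
  obtain ⟨p, hp⟩ : ∃ p, p = LN ps := ⟨_, rfl⟩
  obtain ⟨Nb, hNb⟩ : ∃ Nb, Nb = b 1 + b 2 + b 3 := ⟨_, rfl⟩
  obtain ⟨E, hE⟩ : ∃ E, E = max 0 (5 / 4 * (b 1 + b 2 + b 3) - b 0) := ⟨_, rfl⟩
  rw [← hE]
  rw [← hNb] at hYl hx4 hE
  have hE0 : 0 ≤ E := by rw [hE]; exact le_max_left _ _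
  have hE1 : 5 / 4 * Nb - b 0 ≤ E := by rw [hE]; exact le_max_right _ _
  have hK5 : K5 b = b 0 + E := by rw [K5_eq, ← hNb, ← hE]
  -- sizes
  obtain ⟨k1, k2⟩ := abs_le.1 hPD.k
  rw [← hL] at k1 k2
  have hb4 := hRb.x0
  have hx1 := hRb.x1
  have hN1 := hRb.hN
  rw [← hNb] at hN1
  have hN0 : 0 ≤ Nb := by rw [hNb]; have := hRb.y1; have := hRb.y2; have := hRb.y3; linarith
  have z1 := hPD.z1
  have z2 := hPD.z2
  have z3 := hPD.z3
  have zx := hPD.x
  rw [← hL] at z1 z2 z3 zx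
  have hpn : p = (us 0).z + (us 1).z + (us 2).z + LN gs := by
    rw [hp, hps]
    unfold I1146.LN
    simp only [List.cons_append, List.nil_append, List.map_cons, List.sum_cons]
    ring
  have hτL : 0 < τ₀ * L := by positivity
  have hτε : τ₀ * L ≤ ε' * L := mul_le_mul_of_nonneg_right hτ₀ε hL0.le
  have hNL : Nb * L = b 1 * L + b 2 * L + b 3 * L := by rw [hNb]; ring
  have hpu' : p ≤ Nb * L + b 4 * L + τ₀ / 4 * L := by
    rw [hpn, hNL]
    linarith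
  have hNbL : Nb * L ≤ 102 / 125 * (b 0 * L) := by have := ml hN1; linarith
  have hb0L : b 0 * L ≤ 9 / 8 * L := mul_le_mul_of_nonneg_right hb0' hL0.le
  have hb0L' : 1 / 2 * L ≤ b 0 * L := mul_le_mul_of_nonneg_right hb0 hL0.le
  have hx1L : b 4 * L ≤ 1 / 36 * (b 0 * L) := by have := ml hx1; linarith
  have hb4L : 0 ≤ b 4 * L := mul_nonneg hb4 hL0.le
  have hN0L : 0 ≤ Nb * L := mul_nonneg hN0 hL0.le
  have hEL : 0 ≤ E * L := mul_nonneg hE0 hL0.le
  have ht5 : ε' * L ≤ 1 / 100000 * L := mul_le_mul_of_nonneg_right hε'2 hL0.le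
  have hE1L : 5 / 4 * (Nb * L) - b 0 * L ≤ E * L := by have := ml hE1; linarith
  have hlY0 : 0 ≤ Real.log Y₁ := Real.log_nonneg hY1
  have m1 := min_le_left (2 * Nb - b 0) (3 / 4 * Nb)
  have m2 := min_le_right (2 * Nb - b 0) (3 / 4 * Nb)
  have hY2 : Real.log Y₁ ≤ 2 * (Nb * L) - b 0 * L + 9 / 4 * (b 4 * L) + τ₀ / 16 * L := by
    have := ml m1
    linarith
  have hY3 : Real.log Y₁ ≤ 3 / 4 * (Nb * L) + 9 / 4 * (b 4 * L) + τ₀ / 16 * L := by
    have := ml m2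
    linarith
  obtain ⟨vt, hvt⟩ : ∃ vt, vt = 1 + Real.log Y₁ := ⟨_, rfl⟩
  have hY0 : 0 < Y₁ := by linarith
  have hevt : Real.exp 1 * Y₁ = Real.exp vt := by rw [hvt, Real.exp_add, Real.exp_log hY0]
  -- the frame
  have hTf : Tf (b 0 * L) (Nb * L) (b 4 * L) (E * L) vt p (ε' * L) := by
    refine ⟨by linarith, hb4L, hNbL, ?_, hEL, hE1L, by linarith, by linarith, ?_, by linarith,
      by positivity, by linarith⟩
    · obtain ⟨c1, c2, c3, c4, c5, c6, c7, c8, adm, c9, c10⟩ := hDh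
      rcases adm with ⟨a1, a2⟩ | ⟨a1, a2, a3⟩
      · left
        have e1 : b 4 ≤ b 0 / 320 := by linarith
        refine ⟨by have := ml e1; linarith, ?_⟩
        rcases a2 with a2 | a2
        · left; rw [a2, zero_mul]
        · right
          have : Nb + b 4 ≤ 4 / 5 * b 0 := by rw [hNb]; linarith
          have := ml this
          linarith
      · right
        have e1 : 3 / 4 * b 0 ≤ Nb := by rw [hNb]; linarith
        have e2 : b 4 + 7 / 10 * Nb ≤ 199 / 360 * b 0 := by rw [hNb]; linarith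
        have e3 := ml e1
        have e4 := ml e2
        exact ⟨by linarith, by linarith, by linarith⟩
    · rw [← hp] at hlo
      linarith
  obtain ⟨T, hT⟩ : ∃ T, T = Real.log cc + vt + Real.log ν := ⟨_, rfl⟩
  have hT1 : T ≤ (T5 b + τ₀) * Real.log X := by
    rw [← hL]
    unfold T5
    rw [← hNb, hT, hvt]
    linarith
  have hT2 : T ≤ (K5 b - (b 1 + b 2 + b 3) / 2 - b 4 + 3 * 0 + τ₀) * Real.log X := by
    rw [← hL, hK5, ← hNb]
    rcases hx4 with h4 | h4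
    · have h5 : b 4 = 0 := le_antisymm h4 hb4
      rw [h5] at hY3 ⊢
      linarith
    · have h5 : 5 / 2 * (Nb * L) + 4 * (b 4 * L) ≤ 2 * (b 0 * L) := by have := ml h4; linarith
      linarith
  obtain ⟨um, hum⟩ : ∃ um, um = min (us 0).z (min (us 1).z (us 2).z) := ⟨_, rfl⟩
  have hz5 : |b 0 * L + E * L - K5 b * Real.log X| ≤ τ₀ * Real.log X := by
    have e0 : b 0 * L + E * L - K5 b * Real.log X = 0 := by rw [← hL, hK5]; ring
    rw [e0, abs_zero, ← hL]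
    exact hτL.le
  have hcell := G X hX1 b hb q us gs κ H hPD' T 0 le_rfl hT1 hT2 M₀ le_rfl (B₂ * Real.log X)
    (b 0 * L + E * L) (b 4 * L) um hz5 (by rw [← hL, sub_self, abs_zero]; exact hτL.le)
    (by rw [hum]; rw [← hL]; linarith)
  rw [← hps, ← hp] at hcell
  obtain ⟨F, hF⟩ : ∃ F, F = H ^ M₀ * X ^ (0 + ℓ b + ε') := ⟨_, rfl⟩
  rw [← hF] at hcell
  have hH0 : 0 < H := by have := hPD.H1; linarith
  have hF0 : 0 ≤ F := by rw [hF]; positivity
  have hlen : ps.length ≤ N + 3 := by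
    rw [hps]
    simp only [List.length_append, List.length_cons, List.length_nil]
    have := hPD.len
    omega
  have hzz : ∀ p ∈ ps, 0 ≤ p.z ∧ p.z ≤ Real.log X := by
    have c5 := hDh.y3
    have c1 := hDh.u4
    have c2 := hDh.y43
    have d1L : b 1 * L ≤ 61 / 200 * (b 0 * L) := by have := ml c5; linarith
    have d2L : b 2 * L ≤ b 1 * L := mul_le_mul_of_nonneg_right c2 hL0.le
    have d3L : b 3 * L ≤ b 2 * L := mul_le_mul_of_nonneg_right c1 hL0.le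
    intro p' hp'
    rw [hps] at hp'
    simp only [List.cons_append, List.nil_append, List.mem_cons] at hp'
    rw [← hL]
    rcases hp' with rfl | rfl | rfl | hp'
    · exact ⟨hPD.us0 0, by linarith⟩
    · exact ⟨hPD.us0 1, by linarith⟩
    · exact ⟨hPD.us0 2, by linarith⟩
    · obtain ⟨-, a2, a3, -⟩ := hPD.am p' hp'
      rw [← hL] at a3
      exact ⟨a2, by linarith⟩
  -- the sequence
  obtain ⟨Y, hY⟩ : ∃ Y, Y = Real.exp (LN ps + ((N + 3 : ℕ) : ℝ) * Rh) := ⟨_, rfl⟩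
  have hadm₀ : Adm Y (Real.exp (LN ps)) (2 * (((N + 3 : ℕ) : ℝ) * Rh))
      (sqc q (alF 1 1 (π lam) h (natl ps))) := Adm_list hRh0 hRh (π lam) q hlen (by rw [hY])
  have hdom := dom_list (hP lam) h hs q ps
  rw [← hν] at hdom
  rw [← hal] at hdom
  have hne : ∀ m, al m ≠ 0 → sqc q (alF 1 1 (π lam) h (natl ps)) m ≠ 0 := fun m hm h0 =>
    hm (norm_le_zero_iff.1 (by
      have := hdom.le m
      rw [h0, norm_zero] at this
      exact this))
  have hadm : Adm Y (Real.exp (LN ps)) (2 * (((N + 3 : ℕ) : ℝ) * Rh)) al :=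
    ⟨fun m hm => hadm₀.sup m (hne m hm), fun m hm => hadm₀.win m (hne m hm)⟩
  have hp0 : 0 ≤ p := by
    rw [hp]
    unfold I1146.LN
    refine List.sum_nonneg fun x hx => ?_
    obtain ⟨p', hp', rfl⟩ := List.mem_map.1 hx
    exact (hzz p' hp').1
  have hYge : 1 ≤ Y := by rw [hY, ← hp]; exact Real.one_le_exp (by linarith)
  have hXB : X ^ B₂ = Real.exp (B₂ * L) := by
    rw [hXe, ← Real.exp_mul, mul_comm]
  have hB2L : 2 * L ≤ B₂ * L := mul_le_mul_of_nonneg_right hB2 hL0.le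
  have hYle : Y ≤ X ^ B₂ := by
    rw [hY, hXB, ← hp]
    exact Real.exp_le_exp.2 (by linarith)
  have hcc0 : 0 < cc := by linarith
  have hν0 : 0 < ν := by linarith
  have hDs : ∀ x ∈ JW D (1 / 10) Y₁, (nm x.1 : ℝ) ≤ X ^ B₂ := by
    intro x hx
    obtain ⟨a1, a2⟩ := mem_image_JW (mem_image_of_mem Prod.fst hx)
    refine a2.trans ?_
    rw [hXB, ← Real.exp_log hY0]
    exact Real.exp_le_exp.2 (by linarith)
  have hlcc : Real.log cc = 1 := by rw [hcce, Real.log_exp]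
  have hWl : Real.log (Real.exp 1 * (Real.exp 1 * Y₁) * ν) = 1 + vt + Real.log ν := by
    rw [Real.log_mul (by positivity) hν0.ne', Real.log_mul (Real.exp_pos _).ne' (by positivity),
      hevt, Real.log_exp, Real.log_exp]
  have hWX : Real.exp 1 * (Real.exp 1 * Y₁) * ν ≤ X := by
    rw [hXe, ← Real.exp_log (by positivity : 0 < Real.exp 1 * (Real.exp 1 * Y₁) * ν), hWl]
    exact Real.exp_le_exp.2 (by linarith)
  have hWT : Real.log (Real.exp 1 * (Real.exp 1 * Y₁) * ν) ≤ T := by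
    rw [hWl, hT, hlcc]
  have hiv : ∀ i ∈ LI (1 / 10) Y₁, (i : ℝ) ≤ vt := by
    intro i hi
    have h1 := (mem_LI hi).2.2
    rw [hevt] at h1
    exact Real.exp_le_exp.1 h1
  have hEX : Real.exp lE ≤ X ^ B₂ := by
    rw [hXB]
    exact Real.exp_le_exp.2 (by linarith)
  have hlogE : Real.log (Real.exp lE) = lE := Real.log_exp lE
  have hCX : C ≤ X ^ ε' := by
    have h1 : C + 1 = Real.exp (Real.log (C + 1)) := (Real.exp_log (by linarith)).symm
    have h2 : X ^ ε' = Real.exp (ε' * L) := by rw [hXe, ← Real.exp_mul, mul_comm]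
    have h3 : C + 1 ≤ X ^ ε' := by
      rw [h1, h2]
      exact Real.exp_le_exp.2 (by linarith)
    linarith
  obtain ⟨m, hm⟩ : ∃ m, m = b 0 * L + 4 / 3 * p + E * L + 20 * (ε' * L) := ⟨_, rfl⟩
  have hXp : ∀ y : ℝ, 0 < X ^ y := fun y => Real.rpow_pos_of_pos hX0 y
  have hfin : ∀ c g : ℝ, 0 ≤ c → c ≤ C1 + C2 + C3 + C4 → 0 ≤ g → g ≤ (200 * (1 + 1 / ε')) * X ^ ε' →
      g * (c * 1 ^ 2 * X ^ ε' * F * Real.exp (-(p / 3)) * Real.exp m) ≤
      H ^ M₀ * X ^ (b 0 + p / L + E + ℓ b + ε) := by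
    intro c g hc0 hc1 hg0 hg1
    have e1 : Real.exp (-(p / 3)) * Real.exp m = X ^ (b 0 + p / L + E + 20 * ε') := by
      rw [← Real.exp_add, hm, hXe, ← Real.exp_mul]
      congr 1
      field_simp
      ring
    calc _ = g * (c * X ^ ε' * F * (Real.exp (-(p / 3)) * Real.exp m)) := by ring
      _ ≤ ((200 * (1 + 1 / ε')) * X ^ ε') * ((C1 + C2 + C3 + C4) * X ^ ε' * F *
          X ^ (b 0 + p / L + E + 20 * ε')) := by
          rw [e1]
          have b1 : c * X ^ ε' * F ≤ (C1 + C2 + C3 + C4) * X ^ ε' * F :=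
            mul_le_mul_of_nonneg_right (mul_le_mul_of_nonneg_right hc1 (hXp _).le) hF0
          refine mul_le_mul hg1 (mul_le_mul_of_nonneg_right b1 (hXp _).le)
            (by positivity) (by positivity)
      _ = C * (X ^ ε' * X ^ ε' * F * X ^ (b 0 + p / L + E + 20 * ε')) := by rw [hC]; ring
      _ ≤ X ^ ε' * (X ^ ε' * X ^ ε' * F * X ^ (b 0 + p / L + E + 20 * ε')) :=
          mul_le_mul_of_nonneg_right hCX (by positivity)
      _ = H ^ M₀ * X ^ (b 0 + p / L + E + ℓ b + 24 * ε') := by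
          rw [hF]
          have : X ^ (b 0 + p / L + E + ℓ b + 24 * ε') = X ^ ε' * (X ^ ε' * X ^ ε' *
              X ^ (0 + ℓ b + ε') * X ^ (b 0 + p / L + E + 20 * ε')) := by
            rw [← Real.rpow_add hX0, ← Real.rpow_add hX0, ← Real.rpow_add hX0,
              ← Real.rpow_add hX0]
            congr 1
            ring
          rw [this]
          ring
      _ ≤ _ := mul_le_mul_of_nonneg_left
          (Real.rpow_le_rpow_of_exponent_le (by linarith) (by linarith)) (by positivity)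
  have hg1 : (1 : ℝ) ≤ (200 * (1 + 1 / ε')) * X ^ ε' := by
    have h1 : 1 ≤ X ^ ε' := Real.one_le_rpow (by linarith) hε'0.le
    have h2 : 0 < 1 / ε' := by positivity
    have h3 : (1 : ℝ) ≤ 200 * (1 + 1 / ε') := by linarith
    exact one_le_mul_of_one_le_of_one_le h3 h1
  rw [← hp]
  have hTi : ∀ i ∈ LI (1 / 10) Y₁, Tf (b 0 * L) (Nb * L) (b 4 * L) (E * L) i p (ε' * L) := by
    intro i hi
    have h1 := hiv i hi
    obtain ⟨k0, x0, N1, adm, ex0, ex1, v1, v2, p0, p1, t0', t1⟩ := hTf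
    exact ⟨k0, x0, N1, adm, ex0, ex1, by linarith, by linarith, p0, p1, t0', t1⟩
  have hγ0 : ∀ δ ∈ (JW D (1 / 10) Y₁).image Prod.fst, 0 ≤ Real.log (nm δ : ℝ) := fun δ hδ =>
    Real.log_nonneg (by exact_mod_cast nm_pos.2 (mem_image_JW hδ).1.ne_zero)
  have hKpos := Real.exp_pos κ
  have lA : ∀ g : ℝ, Real.log (Real.exp κ ^ g) = g * κ := fun g => by
    rw [Real.log_rpow hKpos, Real.log_exp]
  refine ⟨?_, fun E1 hE1 hE1l => ?_, fun E1 hE1 hE1l => ?_, fun E1 hE1 hE1l => ?_⟩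
  · have key := G1 X hX3 (π lam) (hP lam) q ps hlen hzz Y T (Real.exp lE) F D (1 / 10) Y₁
      (ShT (b 0 * L + E * L) (b 4 * L) um p) hYge hYle hY0 hWX hWT (Real.exp_pos _) hEX hF0
      (lipS_ShT _ _ _ _) (hcell.mono hrr1) al hdom hadm om 1
      (Real.exp κ ^ (2 / 3 : ℝ) * (Y₁ / Real.exp κ ^ 2) ^ (1 / 6 : ℝ)) m zero_le_one hom hDs
      (by positivity) (fun i hi δ hδ c v hc hv hvl => ?_)
    · rw [← hp] at key
      have e1 : (1 : ℝ) - 1 / 2 = 1 / 2 := by norm_num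
      rw [e1, mul_assoc] at key
      exact key.trans ((le_of_eq (one_mul _).symm).trans
        (hfin C1 1 hC1 (by linarith) zero_le_one hg1))
    · have l1 : Real.log (Real.exp κ ^ (2 / 3 : ℝ) * (Y₁ / Real.exp κ ^ 2) ^ (1 / 6 : ℝ)) =
          κ / 3 + (vt - 1) / 6 := by
        rw [Real.log_mul (by positivity) (by positivity), lA, Real.log_rpow (by positivity),
          Real.log_div hY0.ne' (by positivity), Real.log_pow, Real.log_exp, hvt]
        push_cast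
        ring
      rw [l1, hlogE, hm]
      have M0 := le_max_left 0 (c - lE)
      have M1 := le_max_right 0 (c - lE)
      have key2 := line_Fa (M := max 0 (c - lE)) (i := i) (l := v + c) hTf (hγ0 δ hδ) hc M0
        (by linarith) (hiv i hi) (by linarith)
        (tc_sh (b 0 * L) (E * L) (b 4 * L) um p (Real.log (nm δ)) c v)
      linarith
  · have key := G2 X hX3 (π lam) (hP lam) q ps hlen hzz Y T (Real.exp lE) F D (1 / 10) Y₁
      (ShT (b 0 * L + E * L) (b 4 * L) um p) hYge hYle hY0 hWX hWT (Real.exp_pos _) hEX hF0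
      (lipS_ShT _ _ _ _) (hcell.mono hrr2) al hdom hadm om 1
      (Real.exp κ ^ (2 / 3 : ℝ) * E1⁻¹) m zero_le_one hom hDs
      (by positivity) (fun i hi δ hδ c v hc hv hvl => ?_)
    · rw [← hp] at key
      have e1 : (1 : ℝ) - 2 = -1 := by norm_num
      rw [e1, mul_assoc] at key
      exact key.trans ((le_of_eq (one_mul _).symm).trans
        (hfin C2 1 hC2 (by linarith) zero_le_one hg1))
    · have l1 : Real.log (Real.exp κ ^ (2 / 3 : ℝ) * E1⁻¹) = 2 / 3 * κ - Real.log E1 := by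
        rw [Real.log_mul (by positivity) (by positivity), lA, Real.log_inv]
        ring
      rw [l1, hlogE, hm]
      have key2 := line_Fb (η := Real.log E1) (i := i) (l := v + c) hTf (hγ0 δ hδ) hc
        (hiv i hi) (by linarith)
        (tc_sh (b 0 * L) (E * L) (b 4 * L) um p (Real.log (nm δ)) c v) (by linarith)
      linarith
  · have key := G3 X hX3 (π lam) (hP lam) q ps hlen hzz Y T (Real.exp lE) F D (1 / 10) Y₁
      (ShT (b 0 * L + E * L) (b 4 * L) um p) hYge hYle hY0 hWX hWT (Real.exp_pos _) hEX hF0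
      (lipS_ShT _ _ _ _) (hcell.mono hrr3) al hdom hadm om 1
      (Real.exp κ ^ (-(1 : ℝ) / 3) * E1 ^ 2 * Y₁) m zero_le_one hom hDs
      (by positivity) (fun i hi δ hδ c v hc hv hvl => ?_)
    · rw [← hp] at key
      have hEE := hE_Z hε'0 (E0 := Real.exp lE) (Z := X) (Real.one_le_exp hlE0) (by
        rw [hXe]; exact Real.exp_le_exp.2 (by linarith))
      exact key.trans (hfin C3 _ hC3 (by linarith) (hE_nonneg _) hEE)
    · have l1 : Real.log (Real.exp κ ^ (-(1 : ℝ) / 3) * E1 ^ 2 * Y₁) =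
          -(κ / 3) + 2 * Real.log E1 + (vt - 1) := by
        rw [Real.log_mul (by positivity) hY0.ne', Real.log_mul (by positivity) (by positivity),
          lA, Real.log_pow, hvt]
        push_cast
        ring
      rw [l1, hlogE, hm]
      have M0 := le_max_left 0 (c - lE)
      have M1 := le_max_right 0 (c - lE)
      have key2 := line_Fc (M := max 0 (c - lE)) (η := Real.log E1) (i := i) (l := v + c) hTf
        (hγ0 δ hδ) hc M0 (by linarith) (hiv i hi) (by linarith)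
        (tc_sh (b 0 * L) (E * L) (b 4 * L) um p (Real.log (nm δ)) c v) (by linarith)
      linarith
  · have key := G4 X hX3 (π lam) (hP lam) q ps hlen hzz Y T (Real.exp lE) F D (1 / 10) Y₁
      (ShT (b 0 * L + E * L) (b 4 * L) um p) hYge hYle hY0 hWX hWT (Real.exp_pos _) hEX hF0
      (lipS_ShT _ _ _ _) (hcell.mono hrr4) al hdom hadm om 1
      (Real.exp κ ^ (-(1 : ℝ) / 3) * E1 ^ 2 * Y₁) m zero_le_one hom hDs
      (by positivity) (fun i hi δ hδ c v hc hv hvl => ?_)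
    · rw [← hp] at key
      rw [sub_self] at key
      exact key.trans ((le_of_eq (one_mul _).symm).trans
        (hfin C4 1 hC4 (by linarith) zero_le_one hg1))
    · have l1 : Real.log (Real.exp κ ^ (-(1 : ℝ) / 3) * E1 ^ 2 * Y₁) =
          -(κ / 3) + 2 * Real.log E1 + (vt - 1) := by
        rw [Real.log_mul (by positivity) hY0.ne', Real.log_mul (by positivity) (by positivity),
          lA, Real.log_pow, hvt]
        push_cast
        ring
      rw [l1, hlogE, hm]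
      have M0 := le_max_left 0 (c - lE)
      have M1 := le_max_right 0 (c - lE)
      have key2 := line_Fd (M := max 0 (c - lE)) (η := Real.log E1) (i := i) (l := v + c) hTf
        (hγ0 δ hδ) hc M0 (hiv i hi) (by linarith)
        (tc_sh (b 0 * L) (E * L) (b 4 * L) um p (Real.log (nm δ)) c v) (by linarith)
      linarith

end Crest.Agent.R017.E3N146
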