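import Crest.Agent.R017.P10d_146
import Crest.Agent.R017.RnPf_571
import Crest.Agent.R017.E3Kc_548

/-!
# Row 17, R8 / P1 (helper271): `E3U` in class N, the T-inputs as propositions

* `hN` : the exponent of `H`
* `OuN` : uniform bound on admissible data (frame `S8`)
* `TnN`, `TcN` : T-part of the Gram sum, of the cubes between two cuts
* `EaN`, `EbN`, `EcN`, `EdN` : the errors `TF (1/2)`, `TF (-1)`, `EF`, `TF 0`
-/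

set_option autoImplicit false
set_option linter.unusedVariables false

noncomputable section

open Finset
open scoped Classical ComplexConjugate

namespace Crest.Agent.R017.E3W271

open Crest.Agent.R012 Crest.Agent.R012.Eis
open Crest.Agent.R012.LS2 (S mem_S)
open Crest.Agent.R017.CM106 (CS FS)
open Crest.Agent.R017.C70 (JC OKJ JW okJ_JW)
open Crest.Agent.R017.Prov71
open Crest.Agent.R017.B770
open Crest.Agent.R017.XG702 (Pcs)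
open Crest.Agent.R017.XT71 (Sys Win mx)
open Crest.Agent.R017.I1146 (LN)
open Crest.Agent.R017.E3M829 (TC TF Tal)
open Crest.Agent.R017.E3F548 (EF)
open Crest.Agent.R017.E3Z548
open Crest.Agent.R017.E3Kc548 (LI afT)
open Crest.Agent.R017.RnP571 (hJ)
open Crest.Agent.R017.E5B71 Crest.Agent.R017.E5L770
open Crest.Agent.R017.P1e54 Crest.Agent.R017.P1l54
open Crest.Agent.R017.P10146

/-- **the exponent of `H`** -/
def hN (cc l p z E : ℝ) (i : ℕ) (d : Eis) : ℝ :=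
  if Real.log (nm d) ≤ l / 10 then hJ l p (Real.log (nm d)) z E
  else l - 2 * i - Real.log cc - 1 + min (Real.log (nm d)) (i / 2)

/-- `H` of a datum -/
def HD (cc : ℝ) (a : Bc) (qs : List Pq) (i : ℕ) (d e : Eis) : ℝ :=
  Real.exp (hN cc a.1.l (LN (cl a qs)) a.1.z (max 0 (5 / 4 * a3 a.1 - a.1.l)) i d)

/-- the classes of a datum -/
def JD (a : Bc) : Finset (Eis × Eis) := JW (Real.sqrt (2 ^ nO a.1)) (1 / 10) (2 ^ nO a.1)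

variable {Λ : Type*} (π : Λ → DPar) (h : ℝ → ℝ) (e0 : ℝ)

/-- **uniform bound on admissible data** (frame `S8`), for every constant `cc` and every `Yg` -/
def OuN (Par : Set (Fin 3 ⊕ Fin 5 → ℝ)) (L0 : (Fin 3 ⊕ Fin 5 → ℝ) → ℝ)
    (Ψ : ℝ → ℝ → Λ × Eis → Bc → List Pq → ℝ) : Prop :=
  ∀ ε : ℝ, 0 < ε → ∃ δ : ℝ, 0 < δ ∧ ∀ (lam : Λ × Eis) (N : ℕ) (B cc : ℝ), 1 ≤ cc →
    ∃ δ' : ℝ, 0 < δ' ∧ ∃ X₀ : ℝ, 1 < X₀ ∧ ∀ X : ℝ, X₀ ≤ X → ∀ (a : Bc) (qs : List Pq),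
      qs.length ≤ N → (∀ p ∈ qs, Dq.lump p ∨ Dq.nl X p ≤ δ) → ∀ q ∈ Dom8 Par,
      Win S8 q.1 δ N B δ' X a → (∀ t, |Dq.mass X qs t - q.2 t| ≤ δ) → Dq.Good X δ' B qs →
      (∀ p ∈ qs, Dq.lump p → (S8.ev X a, Dq.nl X p) ∈
        (∅ : Set (((Fin 3 ⊕ Fin 5) ⊕ Fin 3 → ℝ) × ℝ))) →
      okC (π lam.1) lam.2 a qs → ∀ Yg : ℝ, Ψ Yg cc lam a qs ≤ X ^ (E8 L0 q + ε)

/-- T-part of the Gram sum -/
def TnN (Par : Set (Fin 3 ⊕ Fin 5 → ℝ)) (L0 : (Fin 3 ⊕ Fin 5 → ℝ) → ℝ) : Prop :=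
  OuN π Par L0 fun Yg cc lam a qs =>
    ∑ i ∈ LI (1 / 10) (2 ^ nO a.1), ∑ d ∈ (JD a).image Prod.fst,
      ∑ e ∈ S (Real.exp (e0 * a.1.l)),
        LVn (afT (alC π h lam a qs) (Real.exp (e0 * a.1.l))) {d} {e} cc Yg
          (Real.exp a.1.l) (HD cc a qs i d e) (Real.exp i) (Real.exp 1 * 2 ^ nO a.1)
          (Real.exp (a.1.l / 30)) 2 (Real.sqrt (cc * Real.exp i)) 0

/-- T-part of the cubes between the cuts -/
def TcN (Par : Set (Fin 3 ⊕ Fin 5 → ℝ)) (L0 : (Fin 3 ⊕ Fin 5 → ℝ) → ℝ) : Prop :=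
  OuN π Par L0 fun Yg cc lam a qs =>
    ∑ f ∈ S (Real.exp (e0 * a.1.l)), ∑ i ∈ LI (1 / 10) (2 ^ nO a.1),
      ∑ d ∈ (JD a).image Prod.fst,
        (nm f : ℝ)⁻¹ * LVn (fun d _ n => alC π h lam a qs (d * n)) {d} {f} cc Yg
          (Real.exp a.1.l) (HD cc a qs i d f) (Real.exp i) (Real.exp i)
          (Real.exp (a.1.l / 20)) 1 1 0

/-- error `TF (1/2)` -/
def EaN (Par : Set (Fin 3 ⊕ Fin 5 → ℝ)) (L0 : (Fin 3 ⊕ Fin 5 → ℝ) → ℝ) : Prop :=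
  OuN π Par L0 fun _ _ lam a qs => Real.exp a.1.l ^ (2 / 3 : ℝ) *
    ((2 ^ nO a.1 / Real.exp a.1.l ^ 2) ^ (1 / 6 : ℝ) *
      TF (1 / 2) (JD a) (omP (nO a.1)) (Real.exp (e0 * a.1.l)) (Tal (alC π h lam a qs)))

/-- error `TF (-1)` -/
def EbN (Par : Set (Fin 3 ⊕ Fin 5 → ℝ)) (L0 : (Fin 3 ⊕ Fin 5 → ℝ) → ℝ) : Prop :=
  OuN π Par L0 fun _ _ lam a qs => Real.exp a.1.l ^ (2 / 3 : ℝ) *
    ((Real.exp (a.1.l / 30))⁻¹ *
      TF (-1) (JD a) (omP (nO a.1)) (Real.exp (e0 * a.1.l)) (Tal (alC π h lam a qs)))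

/-- error `EF` -/
def EcN (Par : Set (Fin 3 ⊕ Fin 5 → ℝ)) (L0 : (Fin 3 ⊕ Fin 5 → ℝ) → ℝ) : Prop :=
  OuN π Par L0 fun _ _ lam a qs =>
    (Real.exp a.1.l ^ (-(1 : ℝ) / 3) * Real.exp (a.1.l / 30) ^ 2 * 2 ^ nO a.1) *
      ∑ x ∈ JD a, EF (omP (nO a.1)) (Tal (alC π h lam a qs)) (Real.exp (e0 * a.1.l)) x

/-- error `TF 0` -/
def EdN (Par : Set (Fin 3 ⊕ Fin 5 → ℝ)) (L0 : (Fin 3 ⊕ Fin 5 → ℝ) → ℝ) : Prop :=
  OuN π Par L0 fun _ _ lam a qs => Real.exp a.1.l ^ (2 / 3 : ℝ) *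
    ((Real.exp (a.1.l / 20) ^ 2 * 2 ^ nO a.1 / Real.exp a.1.l) *
      TF 0 (JD a) (omP (nO a.1)) (Real.exp (e0 * a.1.l)) (Tal (alC π h lam a qs)))

end Crest.Agent.R017.E3W271
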