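import Crest.Agent.R017.E3Ni_146
import Crest.Agent.R017.S8pd_146
import Crest.Agent.R017.E3W0_271

/-!
# Row 17, R8 (E3): the inputs `TnN`, `TcN` of `E3U` (helper146)

* `FP` : the frame of a child at the parent `p`; **`ou_of`** : `OuN` from a bound in the frame
* **`tnN_of`**, **`tcN_of`**
-/

set_option autoImplicit false
set_option linter.unusedVariables false

noncomputable section

open Finset
open scoped Classical

namespace Crest.Agent.R017.E3N146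

open Crest.Agent.R012 Crest.Agent.R012.Eis
open Crest.Agent.R012.LS2 (S mem_S)
open Crest.Agent.R017.CM106 (CS FS TG)
open Crest.Agent.R017.C70
open Crest.Agent.R017.HP842 (Pc pc sqc alL)
open Crest.Agent.R017.B770
open Crest.Agent.R017.FE47 (PU cx SM)
open Crest.Agent.R017.Prov71
open Crest.Agent.R017.ER911
open Crest.Agent.R017.I1146 (LN)
open Crest.Agent.R017.E3Z548 (LVn)
open Crest.Agent.R017.E3Kc548 (LI mem_LI card_LI afT)
open Crest.Agent.R017.RnP571 (hJ Dh)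
open Crest.Agent.R017.E5B71 Crest.Agent.R017.E5L770
open Crest.Agent.R017.P1l54
open Crest.Agent.R017.XG702 (Pcs)
open Crest.Agent.R017.XT71 (Sys Win mx)
open Crest.Agent.R017.P10146
open Crest.Agent.R017.TM708 (T5 K5 FE2L PD R5)
open Crest.Agent.R017.E3W271 (OuN TnN TcN HD JD)

variable {Λ : Type*} {π : Λ → DPar} {h : ℝ → ℝ} {d : ℝ} {rr : EF}

/-- **the frame of a child** -/
structure FP (X τ B H : ℝ) (N : ℕ) (p : Fin 3 ⊕ Fin 5 → ℝ) (a : Bc) (qs : List Pq) : Prop where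
  pd : PD X τ B H N (bP p) 1 a.2 qs a.1.l
  hx : |a.1.z - cx' p * Real.log X| ≤ τ * Real.log X
  hN : |a3 a.1 - cN p * Real.log X| ≤ τ * Real.log X
  lo : (cκ p / 2 - 2 * cx' p - τ) * Real.log X ≤ LN (cl a qs)
  top : Real.log 2 * nO a.1 ≤ (max 0 (top5 p) + τ) * Real.log X

/-- **`OuN` from a bound in the frame** -/
theorem ou_of {Par : Set (Fin 3 ⊕ Fin 5 → ℝ)} {L0 : (Fin 3 ⊕ Fin 5 → ℝ) → ℝ}
    {Ψ : ℝ → ℝ → Λ × Eis → Bc → List Pq → ℝ}
    (hΨ : ∀ ε : ℝ, 0 < ε → ∃ τ : ℝ, 0 < τ ∧ ∀ lam : Λ × Eis, lam.2 ∈ SM (π lam.1).n →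
      ∀ (N : ℕ) (B cc : ℝ), 1 ≤ cc → ∃ (M₀ : ℕ) (X₀ : ℝ), 1 < X₀ ∧ ∀ X : ℝ, X₀ ≤ X →
      ∀ p ∈ Par, ∀ (a : Bc) (qs : List Pq) (H : ℝ), FP X τ B H N p a qs →
      okC (π lam.1) lam.2 a qs → ∀ Yg : ℝ,
      Ψ Yg cc lam a qs ≤ H ^ M₀ * X ^ (cκ p + LN (cl a qs) / Real.log X + L0 p + ε)) :
    OuN π Par L0 Ψ := by
  intro ε hε
  obtain ⟨τ, hτ, G⟩ := hΨ (ε / 4) (by linarith)
  obtain ⟨δ, hδ⟩ : ∃ δ, δ = min (τ / 100) (ε / 16) := ⟨_, rfl⟩
  have hδ0 : 0 < δ := by rw [hδ]; exact lt_min (by positivity) (by positivity)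
  have hδ1 : δ ≤ τ / 100 := by rw [hδ]; exact min_le_left _ _
  have hδ2 : δ ≤ ε / 16 := by rw [hδ]; exact min_le_right _ _
  refine ⟨δ, hδ0, fun lam N B cc hcc => ?_⟩
  by_cases hs : lam.2 ∈ SM (π lam.1).n
  swap
  · refine ⟨1, one_pos, 2, by norm_num, fun X hX a qs _ _ q _ _ _ _ _ hok => ?_⟩
    exact absurd hok.2.1 hs
  obtain ⟨M₀, X₁, hX₁, G⟩ := G lam hs N (max B 3) cc hcc
  obtain ⟨δ', hδ'⟩ : ∃ δ', δ' = ε / (4 * (M₀ + 1)) := ⟨_, rfl⟩
  have hM0 : (0 : ℝ) < (M₀ : ℝ) + 1 := by positivity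
  have hδ'0 : 0 < δ' := by rw [hδ']; positivity
  have hδM : δ' * M₀ ≤ ε / 4 := by
    have h1 : δ' * (M₀ + 1) = ε / 4 := by rw [hδ']; field_simp
    have : δ' * M₀ ≤ δ' * (M₀ + 1) := mul_le_mul_of_nonneg_left (by linarith) hδ'0.le
    linarith
  refine ⟨δ', hδ'0, max X₁ (Real.exp (200 / τ)), lt_of_lt_of_le hX₁ (le_max_left _ _), ?_⟩
  intro X hX a qs hlen hgl q hq hw hm hg hl hok Yg
  have hX1 : 1 < X := lt_of_lt_of_le hX₁ ((le_max_left _ _).trans hX)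
  have hX0 : 0 < X := by linarith
  have hL0 : 0 < Real.log X := Real.log_pos hX1
  have hLb : 200 / τ ≤ Real.log X := by
    have h1 := (le_max_right X₁ (Real.exp (200 / τ))).trans hX
    rw [← Real.exp_log hX0] at h1
    exact Real.exp_le_exp.1 h1
  have hτL : 200 ≤ τ * Real.log X := by
    rw [div_le_iff₀ hτ] at hLb
    linarith
  obtain ⟨hF8, hPD⟩ := s8_frame hX1 hδ0.le (by linarith : 100 * δ ≤ τ) hδ'0.le hlen hgl hq hw hm
    hg hl hok
  obtain ⟨p, hp⟩ : ∃ p : Fin 3 ⊕ Fin 5 → ℝ, p = fun i => q.1 (.inl i) := ⟨_, rfl⟩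
  obtain ⟨pq, hpq⟩ : ∃ pq, pq = ∑ i : Fin 3, q.1 (.inr i) + q.2 .am := ⟨_, rfl⟩
  rw [← hp, ← hpq] at hF8
  rw [← hp] at hPD
  have hpP : p ∈ Par := by rw [hp]; exact hq.1
  obtain ⟨L, hL⟩ : ∃ L, L = Real.log X := ⟨_, rfl⟩
  rw [← hL] at hL0 hτL hF8
  have hδL : 0 < δ * L := by positivity
  have hδτ : 100 * (δ * L) ≤ τ * L := by
    have := mul_le_mul_of_nonneg_right hδ1 hL0.le
    linarith
  have hFP : FP X τ (max B 3) (X ^ δ') N p a qs := by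
    refine ⟨hPD, ?_, ?_, ?_, ?_⟩
    · rw [← hL]; exact hF8.hx.trans (by linarith)
    · rw [← hL]; exact hF8.hN.trans (by linarith)
    · rw [← hL]
      have := hF8.lo
      linarith
    · rw [← hL]
      have := hF8.top
      have h2 : Real.log 2 ≤ 1 := by
        have := Real.log_two_lt_d9
        linarith
      linarith
  have key := G X ((le_max_left _ _).trans hX) p hpP a qs (X ^ δ') hFP hok Yg
  refine key.trans ?_
  rw [← Real.rpow_natCast, ← Real.rpow_mul hX0.le, ← Real.rpow_add hX0]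
  refine Real.rpow_le_rpow_of_exponent_le hX1.le ?_
  have hn := (abs_le.1 hF8.hn).2
  have hdiv : LN (cl a qs) / L ≤ pq + 4 * δ := by
    rw [div_le_iff₀ hL0]
    linarith
  have hE8 : E8 L0 q = cκ p + pq + L0 p := by
    unfold E8
    rw [hp, hpq]
    ring
  rw [hE8, ← hL]
  linarith

/-- the hypotheses on the parents -/
structure HPar (d : ℝ) (Par : Set (Fin 3 ⊕ Fin 5 → ℝ)) (D5 : Set (Fin 5 → ℝ))
    (ℓ : (Fin 5 → ℝ) → ℝ) (L0 : (Fin 3 ⊕ Fin 5 → ℝ) → ℝ) : Prop where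
  mem : ∀ p ∈ Par, bP p ∈ D5
  dh : ∀ p ∈ Par, Dh (cκ p) (cu p 2) (cu p 3) (cu p 4) (cx' p) (d * cκ p)
  k0 : ∀ p ∈ Par, 1 / 2 ≤ cκ p
  k1 : ∀ p ∈ Par, cκ p ≤ 9 / 8
  hx4 : ∀ p ∈ Par, cx' p ≤ 0 ∨ 5 / 2 * cN p + 4 * cx' p ≤ 2 * cκ p
  L0 : ∀ p ∈ Par, max 0 (5 / 4 * cN p - cκ p) + ℓ (bP p) ≤ L0 p

lemma cl_eq (a : Bc) (qs : List Pq) : cl a qs = [a.2 0, a.2 1, a.2 2] ++ qs := by
  unfold cl
  simp [List.ofFn_succ]

/-- the top of the window in the frame -/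
lemma top_fp {X τ B H : ℝ} {N : ℕ} {p : Fin 3 ⊕ Fin 5 → ℝ} {a : Bc} {qs : List Pq} {D : ℝ}
    (hX : 1 ≤ X) (hF : FP X τ B H N p a qs) (hD : Dh (cκ p) (cu p 2) (cu p 3) (cu p 4) (cx' p) D) :
    Real.log (2 ^ nO a.1) ≤ (min (2 * (cu p 2 + cu p 3 + cu p 4) - cκ p)
      (3 / 4 * (cu p 2 + cu p 3 + cu p 4)) + 9 / 4 * cx' p + τ) * Real.log X := by
  have h1 := hF.top
  have hN : cN p = cu p 2 + cu p 3 + cu p 4 := rfl
  have hx := hD.x0
  have h2 : max 0 (top5 p) ≤ min (2 * (cu p 2 + cu p 3 + cu p 4) - cκ p)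
      (3 / 4 * (cu p 2 + cu p 3 + cu p 4)) + 9 / 4 * cx' p := by
    unfold top5
    rw [hN]
    obtain ⟨k0, u4, y43, u0, y3, N1, near, x0, adm, d0, d1⟩ := hD
    have h3 : 0 ≤ min (2 * (cu p 2 + cu p 3 + cu p 4) - cκ p)
      (3 / 4 * (cu p 2 + cu p 3 + cu p 4)) := le_min (by linarith) (by linarith)
    exact max_le (by linarith) (by linarith)
  rw [Real.log_pow, mul_comm]
  have h4 : (max 0 (top5 p) + τ) * Real.log X ≤ (min (2 * (cu p 2 + cu p 3 + cu p 4) - cκ p)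
      (3 / 4 * (cu p 2 + cu p 3 + cu p 4)) + 9 / 4 * cx' p + τ) * Real.log X :=
    mul_le_mul_of_nonneg_right (by linarith) (Real.log_nonneg hX)
  exact h1.trans h4

/-- the excess in the frame -/
lemma ex_fp {X τ B H : ℝ} {N : ℕ} {p : Fin 3 ⊕ Fin 5 → ℝ} {a : Bc} {qs : List Pq}
    (hX : 1 ≤ X) (hF : FP X τ B H N p a qs) :
    |max 0 (5 / 4 * a3 a.1 - a.1.l) - max 0 (5 / 4 * (cu p 2 + cu p 3 + cu p 4) - cκ p) *
      Real.log X| ≤ 9 / 4 * (τ * Real.log X) := by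
  have hL : 0 ≤ Real.log X := Real.log_nonneg hX
  have hN : cN p = cu p 2 + cu p 3 + cu p 4 := rfl
  have hk := hF.pd.k
  have e1 : bP p 0 = cκ p := rfl
  rw [e1] at hk
  obtain ⟨a1, a2⟩ := abs_le.1 hk
  obtain ⟨b1, b2⟩ := abs_le.1 hF.hN
  rw [hN] at b1 b2
  have e2 : max 0 (5 / 4 * (cu p 2 + cu p 3 + cu p 4) - cκ p) * Real.log X =
      max 0 ((5 / 4 * (cu p 2 + cu p 3 + cu p 4) - cκ p) * Real.log X) := by
    rw [max_mul_of_nonneg _ _ hL, zero_mul]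
  rw [e2]
  set u := (5 / 4 * (cu p 2 + cu p 3 + cu p 4) - cκ p) * Real.log X with hu
  have hτ0 : 0 ≤ τ * Real.log X := (abs_nonneg _).trans hk
  rw [abs_le]
  constructor
  · have : max 0 u ≤ max 0 (5 / 4 * a3 a.1 - a.1.l) + 9 / 4 * (τ * Real.log X) := by
      refine max_le ?_ ?_
      · have := le_max_left 0 (5 / 4 * a3 a.1 - a.1.l)
        linarith
      · have := le_max_right 0 (5 / 4 * a3 a.1 - a.1.l)
        linarith
    linarith
  · have : max 0 (5 / 4 * a3 a.1 - a.1.l) ≤ max 0 u + 9 / 4 * (τ * Real.log X) := by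
      refine max_le ?_ ?_
      · have := le_max_left 0 u
        linarith
      · have := le_max_right 0 u
        linarith
    linarith

lemma alL_prim2 {h : ℝ → ℝ} {L : List Pc} {n : Eis} (hn : alL h L n ≠ 0) : IsPrim n := by
  by_contra h0
  apply hn
  rw [HP842.alL_eq]
  exact HP842.cv_not_prim h0

/-- the common data of the wraps -/
lemma hN_eq (cc : ℝ) (a : Bc) (qs : List Pq) (i : ℕ) (δ e : Eis) :
    HD cc a qs i δ e = Real.exp (hN cc a.1.l (LN (cl a qs)) a.1.z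
      (max 0 (5 / 4 * a3 a.1 - a.1.l)) i δ) := rfl

/-- **the T-part and the cubes between the cuts** -/
theorem tn_tc {c₀ : ℝ} (hpu : PU h c₀) (hP : ∀ lam, (π lam).OK) {Rh : ℝ} (hRh0 : 0 ≤ Rh)
    (hRh : ∀ u, cx h u ≠ 0 → |u| ≤ Rh)
    (R : ExpRules (7 / 8 + d) rr (ex Dq fun lam => Sp (π lam) h)) (hd : 0 ≤ d) (hd1 : d ≤ 1 / 40)
    {D5 : Set (Fin 5 → ℝ)} (hD : IsCompact D5) (hR : ∀ b ∈ D5, R5 b)
    {ℓ : (Fin 5 → ℝ) → ℝ} (hℓ : Continuous ℓ) (hℓ0 : ∀ b ∈ D5, 0 ≤ ℓ b)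
    (hFE : FE2L (ex Dq fun lam => S0p (π lam) h) D5 ℓ)
    {Par : Set (Fin 3 ⊕ Fin 5 → ℝ)} {L0 : (Fin 3 ⊕ Fin 5 → ℝ) → ℝ} (HP : HPar d Par D5 ℓ L0) :
    TnN π h (1 / 64) Par L0 ∧ TcN π h (1 / 64) Par L0 := by
  have key : ∀ ε : ℝ, 0 < ε → ∃ τ : ℝ, 0 < τ ∧ ∀ lam : Λ × Eis, lam.2 ∈ SM (π lam.1).n →
      ∀ (N : ℕ) (B cc : ℝ), 1 ≤ cc → ∃ (M₀ : ℕ) (X₀ : ℝ), 1 < X₀ ∧ ∀ X : ℝ, X₀ ≤ X →
      ∀ p ∈ Par, ∀ (a : Bc) (qs : List Pq) (H : ℝ), FP X τ B H N p a qs →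
      okC (π lam.1) lam.2 a qs → ∀ Yg : ℝ,
      (∑ i ∈ LI (1 / 10) (2 ^ nO a.1), ∑ d ∈ (JD a).image Prod.fst,
        ∑ e ∈ S (Real.exp (1 / 64 * a.1.l)),
          LVn (afT (alC π h lam a qs) (Real.exp (1 / 64 * a.1.l))) {d} {e} cc Yg
            (Real.exp a.1.l) (HD cc a qs i d e) (Real.exp i) (Real.exp 1 * 2 ^ nO a.1)
            (Real.exp (a.1.l / 30)) 2 (Real.sqrt (cc * Real.exp i)) 0 ≤
        H ^ M₀ * X ^ (cκ p + LN (cl a qs) / Real.log X + L0 p + ε)) ∧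
      (∑ i ∈ LI (1 / 10) (2 ^ nO a.1), ∑ d ∈ (JD a).image Prod.fst,
        ∑ f ∈ S (Real.exp (1 / 64 * a.1.l)),
        (nm f : ℝ)⁻¹ * LVn (fun d _ n => alC π h lam a qs (d * n)) {d} {f} cc Yg
          (Real.exp a.1.l) (HD cc a qs i d f) (Real.exp i) (Real.exp i)
          (Real.exp (a.1.l / 20)) 1 1 0 ≤
        H ^ M₀ * X ^ (cκ p + LN (cl a qs) / Real.log X + L0 p + ε)) := by
    intro ε hε
    obtain ⟨τ, hτ, hτ1, G⟩ := th_pd hpu hP hRh0 hRh R hd hd1 hD hR hℓ hℓ0 hFE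
      (lt_min hε one_pos)
    replace hτ1 : τ ≤ 1 := hτ1.trans (min_le_right _ _)
    refine ⟨τ / 3, by positivity, fun lam hs N B cc hcc => ?_⟩
    obtain ⟨M₀, X₀, hX₀, G⟩ := G lam.1 lam.2 hs N B cc hcc
    refine ⟨M₀, X₀, hX₀, ?_⟩
    intro X hX p hp a qs H hF hok Yg
    have hX1 : 1 < X := by linarith
    have hL0 : 0 < Real.log X := Real.log_pos hX1
    have hτL : 0 < τ * Real.log X := by positivity
    have hDh := HP.dh p hp
    have hkp : 0 < cκ p := hDh.k0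
    have hcl := cl_eq a qs
    have hPD := pd_mono hX1.le (by linarith : τ / 3 ≤ τ) (le_refl B) hF.pd
    have hY : (1 : ℝ) ≤ 2 ^ nO a.1 := one_le_pow₀ (by norm_num)
    have hk := hF.pd.k
    have e1 : bP p 0 = cκ p := rfl
    rw [e1] at hk
    obtain ⟨k1, k2⟩ := abs_le.1 hk
    have hLN0 : 0 ≤ LN (cl a qs) := by
      rw [hcl]
      unfold I1146.LN
      refine List.sum_nonneg fun x hx => ?_
      obtain ⟨p', hp', rfl⟩ := List.mem_map.1 hx
      simp only [List.cons_append, List.nil_append, List.mem_cons] at hp'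
      rcases hp' with rfl | rfl | rfl | hp'
      · exact hPD.us0 0
      · exact hPD.us0 1
      · exact hPD.us0 2
      · exact (hPD.am p' hp').2.1
    have hk12 : 1 / 2 * Real.log X ≤ cκ p * Real.log X :=
      mul_le_mul_of_nonneg_right (HP.k0 p hp) hL0.le
    have hτL1 : τ * Real.log X ≤ 1 * Real.log X := mul_le_mul_of_nonneg_right hτ1 hL0.le
    have hl0 : 0 ≤ a.1.l := by linarith
    have hal : ∀ n, alC π h lam a qs n ≠ 0 → IsPrim n := fun n hn =>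
      alL_prim2 (right_ne_zero_of_mul hn)
    have G' := fun af haf => G X hX (bP p) (HP.mem p hp) 1 a.2 qs a.1.l H hPD hDh (HP.k0 p hp)
      (HP.k1 p hp) (HP.hx4 p hp) (by
        rw [← hcl]
        have := hF.lo
        have h2 : (cκ p / 2 - 2 * cx' p - τ) * Real.log X ≤
            (cκ p / 2 - 2 * cx' p - τ / 3) * Real.log X :=
          mul_le_mul_of_nonneg_right (by linarith) hL0.le
        exact h2.trans this) a.1.z (max 0 (5 / 4 * a3 a.1 - a.1.l)) (1 / 64 * a.1.l)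
      (2 ^ nO a.1) (Real.sqrt (2 ^ nO a.1)) (hF.hx.trans (by linarith))
      ((ex_fp hX1.le hF).trans (by linarith)) hY ((top_fp hX1.le hF hDh).trans (by
        refine mul_le_mul_of_nonneg_right ?_ hL0.le
        show min (2 * (cu p 2 + cu p 3 + cu p 4) - cκ p)
            (3 / 4 * (cu p 2 + cu p 3 + cu p 4)) + 9 / 4 * cx' p + τ / 3 ≤
          min (2 * (cu p 2 + cu p 3 + cu p 4) - cκ p)
            (3 / 4 * (cu p 2 + cu p 3 + cu p 4)) + 9 / 4 * cx' p + τ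
        linarith)) (by positivity) (by
        show 1 / 64 * a.1.l ≤ (cκ p / 64 + τ) * Real.log X
        linarith) af Yg haf
    have hfin : H ^ M₀ * X ^ (bP p 0 + LN (cl a qs) / Real.log X +
        max 0 (5 / 4 * (bP p 1 + bP p 2 + bP p 3) - bP p 0) + ℓ (bP p) + min ε 1) ≤
        H ^ M₀ * X ^ (cκ p + LN (cl a qs) / Real.log X + L0 p + ε) := by
      have hH1 := hF.pd.H1
      refine mul_le_mul_of_nonneg_left (Real.rpow_le_rpow_of_exponent_le hX1.le ?_) (by positivity)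
      have h1 := HP.L0 p hp
      have h2 := min_le_left ε 1
      show cκ p + LN (cl a qs) / Real.log X + max 0 (5 / 4 * cN p - cκ p) + ℓ (bP p) +
        min ε 1 ≤ _
      linarith
    have hJ : JD a = JW (Real.sqrt (2 ^ nO a.1)) (1 / 10) (2 ^ nO a.1) := rfl
    have halC : alC π h lam a qs =
        sqc 1 (alL h (([a.2 0, a.2 1, a.2 2] ++ qs).map (Pt (π lam.1) lam.2))) := by
      unfold alC
      rw [hcl]
    constructor
    · have h1 := (G' (afT (alC π h lam a qs) (Real.exp (1 / 64 * a.1.l))) (fun δ hδ e he => by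
        rw [afT_eq hal (mem_image_JW hδ).1 he, halC])).1 (Real.exp (a.1.l / 30))
        (Real.one_le_exp (by positivity)) (by
          rw [Real.log_exp]
          show a.1.l / 30 ≤ (cκ p / 22 + τ) * Real.log X
          have : 0 ≤ cκ p * Real.log X := by positivity
          linarith)
      rw [← hcl] at h1
      exact h1.trans hfin
    · have h1 := (G' (fun d _ n => alC π h lam a qs (d * n)) (fun δ hδ e he => by
        rw [halC])).2 (Real.exp (a.1.l / 20))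
        (Real.one_le_exp (by positivity)) (by
          rw [Real.log_exp]
          show a.1.l / 20 ≤ (cκ p / 20 + τ) * Real.log X
          linarith)
      rw [← hcl] at h1
      exact h1.trans hfin
  constructor
  · refine ou_of fun ε hε => ?_
    obtain ⟨τ, hτ, G⟩ := key ε hε
    refine ⟨τ, hτ, fun lam hs N B cc hcc => ?_⟩
    obtain ⟨M₀, X₀, hX₀, G⟩ := G lam hs N B cc hcc
    exact ⟨M₀, X₀, hX₀, fun X hX p hp a qs H hF hok Yg => (G X hX p hp a qs H hF hok Yg).1⟩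
  · refine ou_of fun ε hε => ?_
    obtain ⟨τ, hτ, G⟩ := key ε hε
    refine ⟨τ, hτ, fun lam hs N B cc hcc => ?_⟩
    obtain ⟨M₀, X₀, hX₀, G⟩ := G lam hs N B cc hcc
    refine ⟨M₀, X₀, hX₀, fun X hX p hp a qs H hF hok Yg => ?_⟩
    have h1 := (G X hX p hp a qs H hF hok Yg).2
    refine le_trans (le_of_eq ?_) h1
    rw [sum_comm]
    refine sum_congr rfl fun i _ => ?_
    rw [sum_comm]

end Crest.Agent.R017.E3N146
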