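import Crest.Agent.R017.E3Nj_146
import Crest.Agent.R017.E3Nk_146

/-!
# Row 17, R8 (E3): the inputs `EaN`, `EbN`, `EcN`, `EdN` of `E3U` (helper146)

* **`er_N`** : `EaN ∧ EbN ∧ EcN ∧ EdN`
-/

set_option autoImplicit false
set_option linter.unusedVariables false

noncomputable section

open Finset
open scoped Classical

namespace Crest.Agent.R017.E3N146

open Crest.Agent.R012 Crest.Agent.R012.Eis
open Crest.Agent.R012.LS2 (S mem_S)
open Crest.Agent.R017.CM106 (CS FS TG)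
open Crest.Agent.R017.C70
open Crest.Agent.R017.HP842 (Pc pc sqc alL)
open Crest.Agent.R017.B770
open Crest.Agent.R017.FE47 (PU cx SM)
open Crest.Agent.R017.Prov71
open Crest.Agent.R017.ER911
open Crest.Agent.R017.I1146 (LN)
open Crest.Agent.R017.RnP571 (hJ Dh)
open Crest.Agent.R017.E5B71 Crest.Agent.R017.E5L770
open Crest.Agent.R017.P1l54
open Crest.Agent.R017.XG702 (Pcs)
open Crest.Agent.R017.XT71 (Sys Win mx)
open Crest.Agent.R017.P10146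
open Crest.Agent.R017.TM708 (T5 K5 FE2L PD R5)
open Crest.Agent.R017.E3M829 (TF Tal)
open Crest.Agent.R017.E3F548 (EF)
open Crest.Agent.R017.P1e54
open Crest.Agent.R017.E3W271 (OuN TnN TcN HD JD EaN EbN EcN EdN)

variable {Λ : Type*} {π : Λ → DPar} {h : ℝ → ℝ} {d : ℝ} {rr : EF}

/-- **the four errors** -/
theorem er_N {c₀ : ℝ} (hpu : PU h c₀) (hP : ∀ lam, (π lam).OK) {Rh : ℝ} (hRh0 : 0 ≤ Rh)
    (hRh : ∀ u, cx h u ≠ 0 → |u| ≤ Rh)
    (R : ExpRules (7 / 8 + d) rr (ex Dq fun lam => Sp (π lam) h)) (hd : 0 ≤ d) (hd1 : d ≤ 1 / 40)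
    {D5 : Set (Fin 5 → ℝ)} (hD : IsCompact D5) (hR : ∀ b ∈ D5, R5 b)
    {ℓ : (Fin 5 → ℝ) → ℝ} (hℓ : Continuous ℓ) (hℓ0 : ∀ b ∈ D5, 0 ≤ ℓ b)
    (hFE : FE2L (ex Dq fun lam => S0p (π lam) h) D5 ℓ)
    {Par : Set (Fin 3 ⊕ Fin 5 → ℝ)} {L0 : (Fin 3 ⊕ Fin 5 → ℝ) → ℝ} (HP : HPar d Par D5 ℓ L0) :
    EaN π h (1 / 64) Par L0 ∧ EbN π h (1 / 64) Par L0 ∧ EcN π h (1 / 64) Par L0 ∧
      EdN π h (1 / 64) Par L0 := by
  have key : ∀ ε : ℝ, 0 < ε → ∃ τ : ℝ, 0 < τ ∧ ∀ lam : Λ × Eis, lam.2 ∈ SM (π lam.1).n →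
      ∀ (N : ℕ) (B cc : ℝ), 1 ≤ cc → ∃ (M₀ : ℕ) (X₀ : ℝ), 1 < X₀ ∧ ∀ X : ℝ, X₀ ≤ X →
      ∀ p ∈ Par, ∀ (a : Bc) (qs : List Pq) (H : ℝ), FP X τ B H N p a qs →
      okC (π lam.1) lam.2 a qs → ∀ Yg : ℝ,
      (Real.exp a.1.l ^ (2 / 3 : ℝ) * ((2 ^ nO a.1 / Real.exp a.1.l ^ 2) ^ (1 / 6 : ℝ) *
        TF (1 / 2) (JD a) (omP (nO a.1)) (Real.exp (1 / 64 * a.1.l)) (Tal (alC π h lam a qs))) ≤
        H ^ M₀ * X ^ (cκ p + LN (cl a qs) / Real.log X + L0 p + ε)) ∧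
      (Real.exp a.1.l ^ (2 / 3 : ℝ) * ((Real.exp (a.1.l / 30))⁻¹ *
        TF (-1) (JD a) (omP (nO a.1)) (Real.exp (1 / 64 * a.1.l)) (Tal (alC π h lam a qs))) ≤
        H ^ M₀ * X ^ (cκ p + LN (cl a qs) / Real.log X + L0 p + ε)) ∧
      ((Real.exp a.1.l ^ (-(1 : ℝ) / 3) * Real.exp (a.1.l / 30) ^ 2 * 2 ^ nO a.1) *
        ∑ x ∈ JD a, EF (omP (nO a.1)) (Tal (alC π h lam a qs)) (Real.exp (1 / 64 * a.1.l)) x ≤
        H ^ M₀ * X ^ (cκ p + LN (cl a qs) / Real.log X + L0 p + ε)) ∧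
      (Real.exp a.1.l ^ (2 / 3 : ℝ) * ((Real.exp (a.1.l / 20) ^ 2 * 2 ^ nO a.1 / Real.exp a.1.l) *
        TF 0 (JD a) (omP (nO a.1)) (Real.exp (1 / 64 * a.1.l)) (Tal (alC π h lam a qs))) ≤
        H ^ M₀ * X ^ (cκ p + LN (cl a qs) / Real.log X + L0 p + ε)) := by
    intro ε hε
    obtain ⟨τ, hτ, hτ1, G⟩ := er_pd hpu hP hRh0 hRh R hd hd1 hD hR hℓ hℓ0 hFE
      (lt_min hε one_pos)
    replace hτ1 : τ ≤ 1 := hτ1.trans (min_le_right _ _)
    refine ⟨τ / 3, by positivity, fun lam hs N B cc hcc => ?_⟩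
    obtain ⟨M₀, X₀, hX₀, G⟩ := G lam.1 lam.2 hs N B
    refine ⟨M₀, X₀, hX₀, ?_⟩
    intro X hX p hp a qs H hF hok Yg
    have hX1 : 1 < X := by linarith
    have hL0 : 0 < Real.log X := Real.log_pos hX1
    have hτL : 0 < τ * Real.log X := by positivity
    have hDh := HP.dh p hp
    have hkp : 0 < cκ p := hDh.k0
    have hcl := cl_eq a qs
    have hPD := pd_mono hX1.le (by linarith : τ / 3 ≤ τ) (le_refl B) hF.pd
    have hY : (1 : ℝ) ≤ 2 ^ nO a.1 := one_le_pow₀ (by norm_num)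
    have hk := hF.pd.k
    have e1 : bP p 0 = cκ p := rfl
    rw [e1] at hk
    obtain ⟨k1, k2⟩ := abs_le.1 hk
    have hk12 : 1 / 2 * Real.log X ≤ cκ p * Real.log X :=
      mul_le_mul_of_nonneg_right (HP.k0 p hp) hL0.le
    have hτL1 : τ * Real.log X ≤ 1 * Real.log X := mul_le_mul_of_nonneg_right hτ1 hL0.le
    have hl0 : 0 ≤ a.1.l := by linarith
    have halC : alC π h lam a qs =
        sqc 1 (alL h (([a.2 0, a.2 1, a.2 2] ++ qs).map (Pt (π lam.1) lam.2))) := by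
      unfold alC
      rw [hcl]
    have G' := G X hX (bP p) (HP.mem p hp) 1 a.2 qs a.1.l H hPD hDh (HP.k0 p hp)
      (HP.k1 p hp) (HP.hx4 p hp) (by
        rw [← hcl]
        have := hF.lo
        have h2 : (cκ p / 2 - 2 * cx' p - τ) * Real.log X ≤
            (cκ p / 2 - 2 * cx' p - τ / 3) * Real.log X :=
          mul_le_mul_of_nonneg_right (by linarith) hL0.le
        exact h2.trans this) (1 / 64 * a.1.l)
      (2 ^ nO a.1) (Real.sqrt (2 ^ nO a.1)) hY ((top_fp hX1.le hF hDh).trans (by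
        refine mul_le_mul_of_nonneg_right ?_ hL0.le
        show min (2 * (cu p 2 + cu p 3 + cu p 4) - cκ p)
            (3 / 4 * (cu p 2 + cu p 3 + cu p 4)) + 9 / 4 * cx' p + τ / 3 ≤
          min (2 * (cu p 2 + cu p 3 + cu p 4) - cκ p)
            (3 / 4 * (cu p 2 + cu p 3 + cu p 4)) + 9 / 4 * cx' p + τ
        linarith)) (by positivity) (by
        show 1 / 64 * a.1.l ≤ (cκ p / 64 + τ) * Real.log X
        linarith) (omP (nO a.1)) (alC π h lam a qs) halC (fun x _ => (omP_bd _ _).1)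
    have hfin : H ^ M₀ * X ^ (bP p 0 + LN (cl a qs) / Real.log X +
        max 0 (5 / 4 * (bP p 1 + bP p 2 + bP p 3) - bP p 0) + ℓ (bP p) + min ε 1) ≤
        H ^ M₀ * X ^ (cκ p + LN (cl a qs) / Real.log X + L0 p + ε) := by
      have hH1 := hF.pd.H1
      refine mul_le_mul_of_nonneg_left (Real.rpow_le_rpow_of_exponent_le hX1.le ?_) (by positivity)
      have h1 := HP.L0 p hp
      have h2 := min_le_left ε 1
      show cκ p + LN (cl a qs) / Real.log X + max 0 (5 / 4 * cN p - cκ p) + ℓ (bP p) +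
        min ε 1 ≤ _
      linarith
    rw [← hcl] at G'
    obtain ⟨g1, g2, g3, g4⟩ := G'
    refine ⟨g1.trans hfin, (g2 (Real.exp (a.1.l / 30)) (Real.exp_pos _) (by
        rw [Real.log_exp]
        show (cκ p / 30 - τ) * Real.log X ≤ a.1.l / 30
        linarith)).trans hfin, (g3 (Real.exp (a.1.l / 30)) (Real.exp_pos _) (by
        rw [Real.log_exp]
        show a.1.l / 30 ≤ (cκ p / 20 + τ) * Real.log X
        linarith)).trans hfin, ?_⟩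
    have h4 := (g4 (Real.exp (a.1.l / 20)) (Real.exp_pos _) (by
        rw [Real.log_exp]
        show a.1.l / 20 ≤ (cκ p / 20 + τ) * Real.log X
        linarith)).trans hfin
    refine le_trans (le_of_eq ?_) h4
    have hK : Real.exp a.1.l ^ (2 / 3 : ℝ) / Real.exp a.1.l = Real.exp a.1.l ^ (-(1 : ℝ) / 3) := by
      have h5 : Real.exp a.1.l ^ (2 / 3 : ℝ) / Real.exp a.1.l ^ (1 : ℝ) =
          Real.exp a.1.l ^ ((2 / 3 : ℝ) - 1) := (Real.rpow_sub (Real.exp_pos _) _ _).symm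
      rw [Real.rpow_one] at h5
      rw [h5]
      congr 1
      norm_num
    rw [← hK]
    show _ = Real.exp a.1.l ^ (2 / 3 : ℝ) / Real.exp a.1.l * Real.exp (a.1.l / 20) ^ 2 *
      2 ^ nO a.1 * TF 0 (JD a) (omP (nO a.1)) (Real.exp (1 / 64 * a.1.l))
        (Tal (alC π h lam a qs))
    ring
  refine ⟨?_, ?_, ?_, ?_⟩ <;> refine ou_of fun ε hε => ?_ <;>
    obtain ⟨τ, hτ, G⟩ := key ε hε <;>
    refine ⟨τ, hτ, fun lam hs N B cc hcc => ?_⟩ <;>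
    obtain ⟨M₀, X₀, hX₀, G⟩ := G lam hs N B cc hcc
  · exact ⟨M₀, X₀, hX₀, fun X hX p hp a qs H hF hok Yg => (G X hX p hp a qs H hF hok Yg).1⟩
  · exact ⟨M₀, X₀, hX₀, fun X hX p hp a qs H hF hok Yg => (G X hX p hp a qs H hF hok Yg).2.1⟩
  · exact ⟨M₀, X₀, hX₀, fun X hX p hp a qs H hF hok Yg => (G X hX p hp a qs H hF hok Yg).2.2.1⟩
  · exact ⟨M₀, X₀, hX₀, fun X hX p hp a qs H hF hok Yg => (G X hX p hp a qs H hF hok Yg).2.2.2⟩

end Crest.Agent.R017.E3N146
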