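import Crest.Agent.R017.R8Cert_918
import Crest.Agent.R017.P1Dm_904

/-!
# Row 17, R8: the domain of `P1` (helper918)

Facts about the boxes of the exact-square region which are not closed absolutely (helper71's
field `na` of `Sq5`, any share); only `na` at the best share `y = min (c, 4/5 - N)` (`0` for
`N ≥ 4/5`) is used.  All constants are the exact suprema.
* `NAbox.facts` : `2/9 ≤ u`, `y₃ ≤ 2/7`, `3/4 ≤ N ≤ 84/103`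
* `NAbox.dle`   : `d ≤ 1/42`
* `NAbox.share` : a share `x ≤ max 0 (a + c - 7/9 (1 - M)) + 2 μ`, `N + x ≤ 4/5`, satisfies
  `x + 2 d ≤ 1/36`, `x + 7/10 N ≤ 199/360`, `N + x ≤ 15/19`, `y₃ + x ≤ 2/7`, or `x ≤ 2 μ`
-/

set_option autoImplicit false

noncomputable section

namespace Crest.Agent.R017.R8C918

open Crest.Agent.R017.P1R904

/-- the best share -/
lemma best_share (N c : ℝ) (hc : 0 ≤ c) : ∃ y, Adm N c y ∧ ((y = 0 ∧ 4 / 5 ≤ N) ∨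
    (y = c ∧ N + c ≤ 4 / 5) ∨ (y = 4 / 5 - N ∧ N ≤ 4 / 5 ∧ 4 / 5 - N ≤ c)) := by
  rcases le_total (4 / 5) N with h | h
  · exact ⟨0, ⟨le_rfl, hc, Or.inl rfl⟩, Or.inl ⟨rfl, h⟩⟩
  rcases le_total (N + c) (4 / 5) with h' | h'
  · exact ⟨c, ⟨hc, le_rfl, Or.inr h'⟩, Or.inr (Or.inl ⟨rfl, h'⟩)⟩
  · exact ⟨4 / 5 - N, ⟨by linarith, by linarith, Or.inr (by linarith)⟩,
      Or.inr (Or.inr ⟨rfl, h, by linarith⟩)⟩

/-- linear consequences of `na` -/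
lemma na_lin {d r N M u a c y s : ℝ} (hd : 0 ≤ d) (hr : 1 ≤ r) (hcr : 3 * c ≤ r)
    (hr2 : 28 * r ≤ 31) (hs : s + 2 * a ≤ 1) (hNM : 6 / 5 ≤ N + M)
    (na : Al d r (N + M + a) c - d ≤ LA N M u (a + c) y + 2 * d * (a + c)) :
    s * d ≤ LA N M u (a + c) y ∧
      s * d + (r / 2 - 1 + (N + M + a - c) / 2) ≤ LA N M u (a + c) y ∧
      3 / 5 * d + (5 / 12 * r - 5 / 3 + 3 / 4 * (N + M + a + c)) ≤ LA N M u (a + c) y := by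
  have k : s + 2 * (a + c) + 1 ≤ 8 / 3 * r := by linarith
  have m := mul_le_mul_of_nonneg_right k hd
  have h1 : 8 / 3 * d * r ≤ Al d r (N + M + a) c := le_max_left _ _
  have h2 : r * (8 / 3 * d + 1 / 2) - 1 + ((N + M + a) - c) / 2 ≤ Al d r (N + M + a) c :=
    (le_max_left _ _).trans (le_max_right _ _)
  have h3 : r * (5 / 12 - 2 / 3 * d) - 5 / 3 + (3 / 4 + 2 * d) * ((N + M + a) + c) ≤
      Al d r (N + M + a) c := (le_max_right _ _).trans (le_max_right _ _)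
  have k3 : (0:ℝ) ≤ 2 * (N + M) - 2 / 3 * r - 1 - 3 / 5 := by linarith
  have m3 := mul_nonneg k3 hd
  exact ⟨by linarith, by linarith, by linarith⟩

/-- the absolute loss at the best share, in cases -/
lemma LA_cases {N M u w c y : ℝ} (hy' : (y = 0 ∧ 4 / 5 ≤ N) ∨
    (y = c ∧ N + c ≤ 4 / 5) ∨ (y = 4 / 5 - N ∧ N ≤ 4 / 5 ∧ 4 / 5 - N ≤ c)) :
    ∃ E P : ℝ, LA N M u w y = 3 / 4 * E + P / 3 ∧
      (E = 0 ∨ (E = w - 7 / 9 * (1 - M) ∧ 4 / 5 ≤ N) ∨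
        (E = w - c - 7 / 9 * (1 - M) ∧ N + c ≤ 4 / 5) ∨
        (E = w - (4 / 5 - N) - 7 / 9 * (1 - M) ∧ N ≤ 4 / 5 ∧ 4 / 5 - N ≤ c)) ∧
      (P = 0 ∨ P = 5 / 4 * N - 1 ∨ P = N + u - 1) ∧
      0 ≤ P ∧ 5 / 4 * N - 1 ≤ P ∧ N + u - 1 ≤ P := by
  refine ⟨max 0 (w - y - 7 / 9 * (1 - M)), max 0 (max (5 / 4 * N - 1) (N + u - 1)), rfl, ?_, ?_,
    le_max_left _ _, (le_max_left _ _).trans (le_max_right _ _),
    (le_max_right _ _).trans (le_max_right _ _)⟩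
  · rcases max_choice (0:ℝ) (w - y - 7 / 9 * (1 - M)) with h | h
    · exact Or.inl h
    · rw [h]
      rcases hy' with ⟨rfl, g⟩ | ⟨rfl, g⟩ | ⟨rfl, g, g'⟩
      · exact Or.inr (Or.inl ⟨by ring, g⟩)
      · exact Or.inr (Or.inr (Or.inl ⟨rfl, g⟩))
      · exact Or.inr (Or.inr (Or.inr ⟨rfl, g, g'⟩))
  · rcases max_choice (0:ℝ) (max (5 / 4 * N - 1) (N + u - 1)) with h | h
    · exact Or.inl h
    · right
      rw [h]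
      exact max_choice _ _

/-- boxes of the exact-square region which are not closed absolutely, base `H` -/
structure NAbox (μ d r y₁ y₂ y₃ y₄ u a c : ℝ) : Prop where
  d0 : 0 ≤ d
  d8 : d ≤ 1 / 8
  μd : 16 * μ ≤ d
  h12 : y₂ ≤ y₁
  h23 : y₃ ≤ y₂
  h34 : y₄ ≤ y₃
  h45 : u ≤ y₄
  a0 : 0 ≤ a
  a1 : 12 * a ≤ 1
  c0 : 0 ≤ c
  r1 : 1 ≤ r
  r2 : 28 * r ≤ 31
  D : ((y₃ + y₄ + u) + (y₁ + y₂) + a) - c ≤ r
  P : ((y₃ + y₄ + u) + (y₁ + y₂) + a) + c ≤ 5 / 3 * r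
  cr : 3 * c ≤ r
  near : 1 - μ ≤ (y₃ + y₄ + u) + u
  na : ∀ y, Adm (y₃ + y₄ + u) c y →
      Al d r ((y₃ + y₄ + u) + (y₁ + y₂) + a) c - d ≤
        LA (y₃ + y₄ + u) (y₁ + y₂) u (a + c) y + 2 * d * (a + c)

variable {μ d r y₁ y₂ y₃ y₄ u a c : ℝ}

set_option maxHeartbeats 1600000 in
/-- **the region facts** -/
theorem NAbox.facts (B : NAbox μ d r y₁ y₂ y₃ y₄ u a c) :
    2 / 9 ≤ u ∧ y₃ ≤ 2 / 7 ∧ y₃ + y₄ + u ≤ 84 / 103 ∧ 3 / 4 ≤ y₃ + y₄ + u := by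
  obtain ⟨hd, hd8, hμ, h12, h23, h34, h45, ha, ha1, hc, hr, hr2, hD, hP, hcr, hn, na⟩ := B
  obtain ⟨y, hy, hy'⟩ := best_share (y₃ + y₄ + u) c hc
  obtain ⟨n1, n2, n3⟩ := na_lin (s := 5 / 6) hd hr hcr hr2 (by linarith) (by linarith) (na y hy)
  obtain ⟨E, P, hLA, hE, hP', p0, p1, p2⟩ := LA_cases (M := y₁ + y₂) (u := u) (w := a + c) hy'
  rw [hLA] at n1 n2 n3
  clear na hy hLA hy'
  rcases hE with rfl | ⟨rfl, g1⟩ | ⟨rfl, g1⟩ | ⟨rfl, g1, g2⟩ <;>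
    rcases hP' with rfl | rfl | rfl <;>
    exact ⟨by linarith, by linarith, by linarith, by linarith⟩

set_option maxHeartbeats 1600000 in
/-- `d` is small -/
theorem NAbox.dle (B : NAbox μ d r y₁ y₂ y₃ y₄ u a c) : d ≤ 1 / 42 := by
  obtain ⟨hd, hd8, hμ, h12, h23, h34, h45, ha, ha1, hc, hr, hr2, hD, hP, hcr, hn, na⟩ := B
  obtain ⟨y, hy, hy'⟩ := best_share (y₃ + y₄ + u) c hc
  obtain ⟨E, P, hLA, hE, hP', p0, p1, p2⟩ := LA_cases (M := y₁ + y₂) (u := u) (w := a + c) hy'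
  rcases le_total a (1 / 30) with ha3 | ha3
  · obtain ⟨n1, n2, n3⟩ := na_lin (s := 14 / 15) hd hr hcr hr2 (by linarith) (by linarith) (na y hy)
    rw [hLA] at n1 n2 n3
    clear na hy hLA hy'
    rcases hE with rfl | ⟨rfl, g1⟩ | ⟨rfl, g1⟩ | ⟨rfl, g1, g2⟩ <;>
      rcases hP' with rfl | rfl | rfl <;> linarith
  · obtain ⟨n1, n2, n3⟩ := na_lin (s := 5 / 6) hd hr hcr hr2 (by linarith) (by linarith) (na y hy)
    rw [hLA] at n1 n2 n3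
    clear na hy hLA hy'
    rcases hE with rfl | ⟨rfl, g1⟩ | ⟨rfl, g1⟩ | ⟨rfl, g1, g2⟩ <;>
      rcases hP' with rfl | rfl | rfl <;> linarith

set_option maxHeartbeats 1600000 in
/-- the share, excess nonnegative -/
theorem NAbox.shareA (B : NAbox μ d r y₁ y₂ y₃ y₄ u a c) {x : ℝ} (x0 : 0 ≤ x)
    (x1 : y₃ + y₄ + u + x ≤ 4 / 5) (x2 : x ≤ c) (x4 : 0 ≤ a + c - 7 / 9 * (1 - (y₁ + y₂)))
    (x3 : x ≤ a + c - 7 / 9 * (1 - (y₁ + y₂)) + 2 * μ) :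
    x + 2 * d ≤ 1 / 36 ∧ x + 7 / 10 * (y₃ + y₄ + u) ≤ 199 / 360 ∧ y₃ + x ≤ 2 / 7 ∧
      y₃ + y₄ + u + x ≤ 15 / 19 := by
  obtain ⟨hd, hd8, hμ, h12, h23, h34, h45, ha, ha1, hc, hr, hr2, hD, hP, hcr, hn, na⟩ := B
  obtain ⟨y, hy, hy'⟩ := best_share (y₃ + y₄ + u) c hc
  obtain ⟨n1, n2, n3⟩ := na_lin (s := 5 / 6) hd hr hcr hr2 (by linarith) (by linarith) (na y hy)
  obtain ⟨E, P, hLA, hE, hP', p0, p1, p2⟩ := LA_cases (M := y₁ + y₂) (u := u) (w := a + c) hy'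
  rw [hLA] at n1 n2 n3
  clear na hy hLA hy'
  rcases hE with rfl | ⟨rfl, g1⟩ | ⟨rfl, g1⟩ | ⟨rfl, g1, g2⟩ <;>
    rcases hP' with rfl | rfl | rfl <;>
    exact ⟨by linarith, by linarith, by linarith, by linarith⟩

/-- **the share** -/
theorem NAbox.share (B : NAbox μ d r y₁ y₂ y₃ y₄ u a c) {x : ℝ} (x0 : 0 ≤ x)
    (x1 : y₃ + y₄ + u + x ≤ 4 / 5) (x2 : x ≤ c)
    (x3 : x ≤ max 0 (a + c - 7 / 9 * (1 - (y₁ + y₂))) + 2 * μ) :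
    (x + 2 * d ≤ 1 / 36 ∧ x + 7 / 10 * (y₃ + y₄ + u) ≤ 199 / 360 ∧ y₃ + x ≤ 2 / 7 ∧
      y₃ + y₄ + u + x ≤ 15 / 19) ∨ x ≤ 2 * μ := by
  rcases max_cases (0:ℝ) (a + c - 7 / 9 * (1 - (y₁ + y₂))) with ⟨e, _⟩ | ⟨e, e'⟩
  · right; rw [e] at x3; linarith
  · left; rw [e] at x3; exact B.shareA x0 x1 x2 e'.le x3

end Crest.Agent.R017.R8C918
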