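import Crest.Agent.R017.P1R2u_176

/-!
# Row 17, R8: the real side of `P1`, final form (helper904; proofs after helper176)

Base `H` (family `K = 1`). `Dp` : domain (three lumps `y₃ ≥ y₄ ≥ u`, `N = y₃ + y₄ + u`, share `x`,
`d = θ - 7/8`); parents of any total length `p`, `1/2 - 2x ≤ p ≤ N + x`; children `ChP` of a parent.

* `R3F` : structured part, removed part `δ ≤ 13/100`, levels `v ≤ vt = min (2N-1) (3/4 N) + 5x`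
* `T3F` : no structured part, `δ ≥ 13/100`, the same levels
* `R2F` : cross term, levels `v ≤ vS = min (2N-1) (3/4 N) + 3x` (helper320's form)
* `TtF` : top of short parents
* `r3F`, `t3F`, `r2F`, `ttF` : proofs
-/

set_option autoImplicit false
set_option linter.unusedVariables false

noncomputable section

namespace Crest.Agent.R017.P1F904

open Crest.Agent.R017.P1R904
open Crest.Agent.R017.P1R2u176 (pmb pmb_le)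

/-- the domain -/
structure Dp (y₃ y₄ u x d : ℝ) : Prop where
  u4 : u ≤ y₄
  y43 : y₄ ≤ y₃
  u0 : 11 / 50 ≤ u
  y3 : y₃ + x ≤ 29 / 100
  N1 : y₃ + y₄ + u ≤ 102 / 125
  near : 99 / 100 ≤ y₃ + y₄ + 2 * u
  x0 : 0 ≤ x
  adm : (8 * x ≤ d ∧ (x = 0 ∨ y₃ + y₄ + u + x ≤ 4 / 5)) ∨
    (3 / 4 ≤ y₃ + y₄ + u ∧ x + 2 * d ≤ 1 / 36 ∧ x + 7 / 10 * (y₃ + y₄ + u) ≤ 199 / 360)
  d0 : 0 ≤ d
  d1 : d ≤ 1 / 40

/-- top of the structured function -/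
def vS (N x : ℝ) : ℝ := min (2 * N - 1) (3 / 4 * N) + 3 * x

/-- children of a parent of total length `p`, at least `δ` removed -/
structure ChP (y₃ y₄ u x p δ z₁ z₂ z₃ x' : ℝ) : Prop where
  z10 : 0 ≤ z₁
  z20 : 0 ≤ z₂
  z30 : 0 ≤ z₃
  x0 : 0 ≤ x'
  z1 : z₁ ≤ y₃
  z2 : z₂ ≤ y₄
  z3 : z₃ ≤ u
  x1 : x' ≤ x
  tot : z₁ + z₂ + z₃ + x' + δ ≤ p

/-- **(R3)** -/
def R3F : Prop := ∀ y₃ y₄ u x d p v δ φ i z₁ z₂ z₃ x' : ℝ, Dp y₃ y₄ u x d →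
  1 / 2 - 2 * x ≤ p → p ≤ y₃ + y₄ + u + x → 0 ≤ v → v ≤ vt (y₃ + y₄ + u) x →
  0 ≤ δ → δ ≤ 13 / 100 → 0 ≤ φ → ChP y₃ y₄ u x p (δ + φ) z₁ z₂ z₃ x' →
  z₁ ≤ i → z₂ ≤ i → z₃ ≤ i → i ≤ v + p - 1 + φ →
  r3 d i z₁ z₂ z₃ x' + (v + p - 1 + φ - i) / 3 + 2 * δ + max 0 (2 * v - 1 - δ) / 2 + 1 / 200 ≤
    (1 + v + 4 * p) / 3 + L0 (y₃ + y₄ + u)

/-- **(T3)** -/
def T3F : Prop := ∀ y₃ y₄ u x d p v δ z₁ z₂ z₃ x' : ℝ, Dp y₃ y₄ u x d →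
  1 / 2 - 2 * x ≤ p → p ≤ y₃ + y₄ + u + x → 0 ≤ v → v ≤ vt (y₃ + y₄ + u) x →
  13 / 100 ≤ δ → 2 * δ ≤ v → ChP y₃ y₄ u x p δ z₁ z₂ z₃ x' →
  2 / 3 - (v - 2 * δ) / 3 - (p - δ) / 3 + δ +
    (v - 2 * δ + (z₁ + z₂ + z₃ + x') + (min z₁ (min z₂ z₃) + x')) +
    max 0 (2 * v - 1 - δ) / 3 + 1 / 200 ≤
    1 + p + L0 (y₃ + y₄ + u)

/-- **(R2)** -/
def R2F : Prop := ∀ y₃ y₄ u x d p v b g i z₁ z₂ z₃ x' : ℝ, Dp y₃ y₄ u x d →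
  1 / 2 - 2 * x ≤ p → p ≤ y₃ + y₄ + u + x → 0 ≤ v → v ≤ vS (y₃ + y₄ + u) x →
  0 ≤ b → 0 ≤ g → 2 * g ≤ i → i ≤ v + p - 1 + b → i ≤ 1 - 2 * b →
  ChP y₃ y₄ u x p (b + g) z₁ z₂ z₃ x' →
  (Wm v i g - i + r3 d (i + 2 * b) (min z₁ (i + 2 * b)) (min z₂ (i + 2 * b))
      (min z₃ (i + 2 * b)) x' + 1 / 500 ≤ E2 v p (L0 (y₃ + y₄ + u))) ∨
    (Wm v i g - i + pmb d b i z₁ z₂ z₃ x' + 1 / 500 ≤ E2 v p (L0 (y₃ + y₄ + u)))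

/-- **(T-top)** -/
def TtF : Prop := ∀ y₃ y₄ u x d p v : ℝ, Dp y₃ y₄ u x d →
  1 / 2 - 2 * x ≤ p → p ≤ y₃ + y₄ + u + x → v ≤ vt (y₃ + y₄ + u) x →
  2 / 3 * (1 + v + p) + 1 / 25 ≤ 1 + p + L0 (y₃ + y₄ + u)

/-! ### proofs -/

section aux

lemma l3_le (i z₁ z₂ z₃ : ℝ) : l3 i z₁ z₂ z₃ ≤ z₁ ∧ l3 i z₁ z₂ z₃ ≤ i - z₁ ∧
    l3 i z₁ z₂ z₃ ≤ z₂ ∧ l3 i z₁ z₂ z₃ ≤ i - z₂ ∧ l3 i z₁ z₂ z₃ ≤ z₃ ∧
    l3 i z₁ z₂ z₃ ≤ i - z₃ := by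
  unfold l3
  refine ⟨?_, ?_, ?_, ?_, ?_, ?_⟩
  · exact (min_le_left _ _).trans (min_le_left _ _)
  · exact (min_le_left _ _).trans (min_le_right _ _)
  · exact (min_le_right _ _).trans ((min_le_left _ _).trans (min_le_left _ _))
  · exact (min_le_right _ _).trans ((min_le_left _ _).trans (min_le_right _ _))
  · exact (min_le_right _ _).trans ((min_le_right _ _).trans (min_le_left _ _))
  · exact (min_le_right _ _).trans ((min_le_right _ _).trans (min_le_right _ _))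

lemma l3_nonneg {i z₁ z₂ z₃ : ℝ} (h1 : 0 ≤ z₁) (h2 : 0 ≤ z₂) (h3 : 0 ≤ z₃) (k1 : z₁ ≤ i)
    (k2 : z₂ ≤ i) (k3 : z₃ ≤ i) : 0 ≤ l3 i z₁ z₂ z₃ := by
  unfold l3
  exact le_min (le_min h1 (by linarith)) (le_min (le_min h2 (by linarith))
    (le_min h3 (by linarith)))

/-- two linear upper bounds for `r3` -/
lemma r3_le {d i z₁ z₂ z₃ x s : ℝ} (d0 : 0 ≤ d) (d1 : d ≤ 1 / 40) (h1 : 0 ≤ z₁) (h2 : 0 ≤ z₂)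
    (h3 : 0 ≤ z₃) (hx : 0 ≤ x) (k1 : z₁ ≤ i) (k2 : z₂ ≤ i) (k3 : z₃ ≤ i)
    (hs : z₁ + x ≤ 3 / 10) :
    r3 d i z₁ z₂ z₃ x ≤ i + (z₁ + z₂ + z₃ + x) + 4 / 5 * (l3 i z₁ z₂ z₃ + x) ∧
    r3 d i z₁ z₂ z₃ x ≤ i + (z₁ + z₂ + z₃ + x) + 3 / 4 * (l3 i z₁ z₂ z₃ + x) + 3 / 5 * d := by
  unfold r3
  have h0 := l3_nonneg h1 h2 h3 k1 k2 k3
  have h4 := (l3_le i z₁ z₂ z₃).1
  constructor <;> nlinarith

/-- the six cases of `Wm` -/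
lemma Wm_le (v i g : ℝ) : (Wm v i g ≤ v + 2 * g ∨ Wm v i g ≤ i ∨ Wm v i g ≤ 2 / 3 * (v + i + g)) ∧
    (Wm v i g ≤ v + g ∨ Wm v i g ≤ 2 * i - g) := by
  unfold Wm
  constructor
  · have h := min_le_left (max (v + 2 * g) (max i (2 / 3 * (v + i + g)))) (max (v + g) (2 * i - g))
    rcases le_total (v + 2 * g) (max i (2 / 3 * (v + i + g))) with h1 | h1
    · rw [max_eq_right h1] at h
      rcases le_total i (2 / 3 * (v + i + g)) with h2 | h2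
      · rw [max_eq_right h2] at h
        exact Or.inr (Or.inr (by rw [max_eq_right h1, max_eq_right h2]; exact h))
      · rw [max_eq_left h2] at h
        exact Or.inr (Or.inl (by rw [max_eq_right h1, max_eq_left h2]; exact h))
    · rw [max_eq_left h1] at h; exact Or.inl (by rw [max_eq_left h1]; exact h)
  · have h := min_le_right (max (v + 2 * g) (max i (2 / 3 * (v + i + g)))) (max (v + g) (2 * i - g))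
    rcases le_total (v + g) (2 * i - g) with h1 | h1
    · rw [max_eq_right h1] at h; exact Or.inr (by rw [max_eq_right h1]; exact h)
    · rw [max_eq_left h1] at h; exact Or.inl (by rw [max_eq_left h1]; exact h)

lemma L0_ge (N : ℝ) : 0 ≤ L0 N ∧ (5 / 4 * N - 1) / 3 ≤ L0 N := by
  unfold L0
  have h1 := le_max_left 0 (5 / 4 * N - 1)
  have h2 := le_max_right 0 (5 / 4 * N - 1)
  exact ⟨by positivity, by linarith⟩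

lemma vt_le {N x v : ℝ} (h : v ≤ vt N x) : v ≤ 2 * N - 1 + 5 * x ∧ v ≤ 3 / 4 * N + 5 * x := by
  unfold vt at h
  have h1 := min_le_left (2 * N - 1) (3 / 4 * N)
  have h2 := min_le_right (2 * N - 1) (3 / 4 * N)
  exact ⟨by linarith, by linarith⟩

lemma vS_le {N x v : ℝ} (h : v ≤ vS N x) : v ≤ 2 * N - 1 + 3 * x ∧ v ≤ 3 / 4 * N + 3 * x := by
  unfold vS at h
  have h1 := min_le_left (2 * N - 1) (3 / 4 * N)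
  have h2 := min_le_right (2 * N - 1) (3 / 4 * N)
  exact ⟨by linarith, by linarith⟩

end aux

set_option maxHeartbeats 2000000 in
theorem r3F : R3F := by
  intro y₃ y₄ u x d p v δ φ i z₁ z₂ z₃ x' hD p0 pn v0 hv hδ hδ1 hφ hc k1 k2 k3 hi
  obtain ⟨u4, y43, u0, hy3, N1, near, hx0, adm, d0, d1⟩ := hD
  obtain ⟨z10, z20, z30, x0', z1, z2, z3, x1', tot⟩ := hc
  obtain ⟨hv1, hv2⟩ := vt_le hv
  obtain ⟨hL1, hL2⟩ := L0_ge (y₃ + y₄ + u)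
  obtain ⟨hr, hr'⟩ := r3_le (s := 0) d0 d1 z10 z20 z30 x0' k1 k2 k3 (by linarith)
  obtain ⟨l1, l2, l3', l4, l5, l6⟩ := l3_le i z₁ z₂ z₃
  generalize L0 (y₃ + y₄ + u) = L at hL1 hL2 ⊢
  generalize r3 d i z₁ z₂ z₃ x' = r at hr hr' ⊢
  generalize l3 i z₁ z₂ z₃ = l at hr hr' l1 l2 l3' l4 l5 l6
  rcases adm with ⟨a0, rfl | a1⟩ | ⟨a1, a2, a3⟩ <;> rcases le_total 0 (2 * v - 1 - δ) with h | h <;>
  first | (rw [max_eq_right h]; linarith) | (rw [max_eq_left h]; linarith)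

set_option maxHeartbeats 2000000 in
theorem t3F : T3F := by
  intro y₃ y₄ u x d p v δ z₁ z₂ z₃ x' hD p0 pn v0 hv hδ hδ1 hc
  obtain ⟨u4, y43, u0, hy3, N1, near, hx0, adm, d0, d1⟩ := hD
  obtain ⟨z10, z20, z30, x0', z1, z2, z3, x1', tot⟩ := hc
  obtain ⟨hv1, hv2⟩ := vt_le hv
  obtain ⟨hL1, hL2⟩ := L0_ge (y₃ + y₄ + u)
  have m1 : min z₁ (min z₂ z₃) ≤ z₁ := min_le_left _ _
  have m2 : min z₁ (min z₂ z₃) ≤ z₂ := (min_le_right _ _).trans (min_le_left _ _)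
  have m3 : min z₁ (min z₂ z₃) ≤ z₃ := (min_le_right _ _).trans (min_le_right _ _)
  generalize L0 (y₃ + y₄ + u) = L at hL1 hL2 ⊢
  generalize min z₁ (min z₂ z₃) = m at m1 m2 m3 ⊢
  rcases adm with ⟨a0, rfl | a1⟩ | ⟨a1, a2, a3⟩ <;> rcases le_total 0 (2 * v - 1 - δ) with h | h <;>
  first | (rw [max_eq_right h]; linarith) | (rw [max_eq_left h]; linarith)

theorem ttF : TtF := by
  intro y₃ y₄ u x d p v hD p0 pn hv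
  obtain ⟨u4, y43, u0, hy3, N1, near, hx0, adm, d0, d1⟩ := hD
  obtain ⟨hv1, hv2⟩ := vt_le hv
  obtain ⟨hL1, hL2⟩ := L0_ge (y₃ + y₄ + u)
  generalize L0 (y₃ + y₄ + u) = L at hL1 hL2 ⊢
  rcases adm with ⟨a0, rfl | a1⟩ | ⟨a1, a2, a3⟩ <;> linarith

set_option maxHeartbeats 8000000 in
/-- the linear core of (R2) : all the cases -/
lemma core {y₃ y₄ u x d p v b g i z₁ z₂ z₃ x' W L E Λ m₁ m₂ m₃ : ℝ} (u4 : u ≤ y₄)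
    (y43 : y₄ ≤ y₃) (u0 : 11 / 50 ≤ u) (hy3 : y₃ + x ≤ 29 / 100) (N1 : y₃ + y₄ + u ≤ 102 / 125)
    (near : 99 / 100 ≤ y₃ + y₄ + 2 * u) (x0 : 0 ≤ x)
    (adm : (8 * x ≤ d ∧ (x = 0 ∨ y₃ + y₄ + u + x ≤ 4 / 5)) ∨
      (3 / 4 ≤ y₃ + y₄ + u ∧ x + 2 * d ≤ 1 / 36 ∧ x + 7 / 10 * (y₃ + y₄ + u) ≤ 199 / 360))
    (d0 : 0 ≤ d) (d1 : d ≤ 1 / 40)
    (p0 : 1 / 2 - 2 * x ≤ p) (pn : p ≤ y₃ + y₄ + u + x)
    (v0 : 0 ≤ v) (hv1 : v ≤ 2 * (y₃ + y₄ + u) - 1 + 3 * x)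
    (hv2 : v ≤ 3 / 4 * (y₃ + y₄ + u) + 3 * x) (b0 : 0 ≤ b)
    (hΛ0 : 0 ≤ Λ) (hΛ1 : (5 / 4 * (y₃ + y₄ + u) - 1) / 3 ≤ Λ)
    (g0 : 0 ≤ g) (gi : 2 * g ≤ i) (i1 : i ≤ v + p - 1 + b) (i2 : i ≤ 1 - 2 * b)
    (z10 : 0 ≤ z₁) (z20 : 0 ≤ z₂) (z30 : 0 ≤ z₃) (x0' : 0 ≤ x') (z1 : z₁ ≤ y₃) (z2 : z₂ ≤ y₄)
    (z3 : z₃ ≤ u) (x1' : x' ≤ x)
    (tot : z₁ + z₂ + z₃ + x' + (b + g) ≤ p)
    (k1 : m₁ ≤ i + 2 * b) (k2 : m₂ ≤ i + 2 * b) (k3 : m₃ ≤ i + 2 * b)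
    (j1 : m₁ ≤ z₁) (j2 : m₂ ≤ z₂) (j3 : m₃ ≤ z₃)
    (l1 : L ≤ m₁) (l2 : L ≤ i + 2 * b - m₁) (l3 : L ≤ m₂) (l4 : L ≤ i + 2 * b - m₂)
    (l5 : L ≤ m₃) (l6 : L ≤ i + 2 * b - m₃)
    (hE : E = 1 + p + Λ ∨ E = (4 + p + v) / 3 + 2 * Λ)
    (hm : E < W - i + (i + 2 * b + (m₁ + m₂ + m₃ + x') + 4 / 5 * (L + x')) + 1 / 500)
    (hW1 : W ≤ v + 2 * g ∨ W ≤ i ∨ W ≤ 2 / 3 * (v + i + g))
    (hW2 : W ≤ v + g ∨ W ≤ 2 * i - g)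
    (hp : E < W - i + (i + b + (z₁ + z₂ + z₃ + x')) + 1 / 500 ∨
      (∃ m, (m ≤ b ∧ m ≤ i) ∧ E < W - i + (2 * (z₁ + z₂ + z₃ + x') + m) + 1 / 500) ∨
      (∃ L', (L' ≤ z₁ ∧ L' ≤ z₂ ∧ L' ≤ z₃) ∧
        E < W - i + (b + (z₁ + z₂ + z₃ + x') + 4 / 5 * L' + x') + 1 / 500) ∨
      (∃ L', (L' ≤ z₁ ∧ L' ≤ z₂ ∧ L' ≤ z₃) ∧
        E < W - i + (i + (z₁ + z₂ + z₃ + x') + 4 / 5 * L' + x') + 1 / 500)) :
    False := by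
  rcases adm with ⟨a0, rfl | a1⟩ | ⟨a1, a2, a3⟩ <;> rcases hE with rfl | rfl <;>
  rcases hp with hp | ⟨m, ⟨n1, n2⟩, hp⟩ | ⟨m, ⟨n1, n2, n3⟩, hp⟩ | ⟨m, ⟨n1, n2, n3⟩, hp⟩ <;>
  rcases hW1 with hW1 | hW1 | hW1 <;> rcases hW2 with hW2 | hW2 <;> linarith

/-- **(R2)**, helper320's form, short parents included -/
theorem r2F : R2F := by
  intro y₃ y₄ u x d p v b g i z₁ z₂ z₃ x' hD p0 pn v0 hv b0 g0 gi i1 i2 hc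
  obtain ⟨u4, y43, u0, hy3, N1, near, hx0, adm, d0, d1⟩ := hD
  obtain ⟨z10, z20, z30, x0', z1, z2, z3, x1', tot⟩ := hc
  obtain ⟨hv1, hv2⟩ := vS_le hv
  obtain ⟨hL1, hL2⟩ := L0_ge (y₃ + y₄ + u)
  generalize L0 (y₃ + y₄ + u) = Λ at hL1 hL2 ⊢
  have hE : E2 v p Λ = 1 + p + Λ ∨ E2 v p Λ = (4 + p + v) / 3 + 2 * Λ := min_choice _ _
  generalize E2 v p Λ = E at hE ⊢
  by_contra hcon
  rw [not_or, not_le, not_le] at hcon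
  obtain ⟨hm, hp⟩ := hcon
  have hI : 0 ≤ i + 2 * b := by linarith
  have k1 := min_le_right z₁ (i + 2 * b)
  have k2 := min_le_right z₂ (i + 2 * b)
  have k3 := min_le_right z₃ (i + 2 * b)
  have j1 := min_le_left z₁ (i + 2 * b)
  have j2 := min_le_left z₂ (i + 2 * b)
  have j3 := min_le_left z₃ (i + 2 * b)
  obtain ⟨l1, l2, l3', l4, l5, l6⟩ := l3_le (i + 2 * b) (min z₁ (i + 2 * b)) (min z₂ (i + 2 * b))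
    (min z₃ (i + 2 * b))
  have hr := (r3_le (s := 0) d0 d1 (le_min z10 hI) (le_min z20 hI) (le_min z30 hI) x0' k1 k2 k3
    (by linarith)).1
  obtain ⟨hW1, hW2⟩ := Wm_le v i g
  refine core u4 y43 u0 hy3 N1 near hx0 adm d0 d1 p0 pn v0 hv1 hv2 b0 hL1 hL2 g0 gi i1 i2 z10 z20
    z30 x0' z1 z2 z3 x1' tot k1 k2 k3 j1 j2 j3 l1 l2 l3' l4 l5 l6 hE (by linarith) hW1 hW2 ?_
  rcases pmb_le d0 d1 z10 z20 z30 (b := b) (i := i) (x' := x') with h | ⟨m, h1, h⟩ | ⟨m, h1, h⟩ |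
    ⟨m, h1, h⟩
  · exact Or.inl (by linarith)
  · exact Or.inr (Or.inl ⟨m, h1, by linarith⟩)
  · exact Or.inr (Or.inr (Or.inl ⟨m, h1, by linarith⟩))
  · exact Or.inr (Or.inr (Or.inr ⟨m, h1, by linarith⟩))

end Crest.Agent.R017.P1F904
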