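import Crest.Agent.R017.P1R2u_176

/-!
# Row 17, R8: the real lines of `P1` on the true region of `Sq5` v5 (helper176)

Domain `Dm5` = helper918's exact facts; parents of any total length `p`.
Windows `vtk k N x = min (2N - 1) (3/4 N) + k x`: `k = 5` in (R3d), (T3d), (T-top), `k = 4` in (R2).
In (R2) the pairs are `(b + g, i - 2g)` (helper106: the squares are merged into `b`).
-/

set_option autoImplicit false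
set_option linter.unusedVariables false

noncomputable section

namespace Crest.Agent.R017.P1V5176

open Crest.Agent.R017.P1R904 Crest.Agent.R017.P1R2b176
open Crest.Agent.R017.P1R2u176 (pmb)

/-- the domain (`y₃, y₄, u` lumps, `x` granular share, `d = θ - 7/8`) -/
structure Dm5 (y₃ y₄ u x d : ℝ) : Prop where
  u4 : u ≤ y₄
  y43 : y₄ ≤ y₃
  u0 : 2 / 9 ≤ u
  y3 : y₃ ≤ 2 / 7
  N1 : y₃ + y₄ + u ≤ 84 / 103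
  near : 99 / 100 ≤ y₃ + y₄ + 2 * u
  x0 : 0 ≤ x
  adm : x = 0 ∨ (x + 2 * d ≤ 1 / 36 ∧ x + 7 / 10 * (y₃ + y₄ + u) ≤ 199 / 360 ∧
    y₃ + y₄ + u + x ≤ 15 / 19 ∧ y₃ + x ≤ 2 / 7) ∨ (8 * x ≤ d ∧ y₃ + y₄ + u + x ≤ 4 / 5)
  d0 : 0 ≤ d
  d1 : d ≤ 1 / 42

/-- level windows -/
def vtk (k N x : ℝ) : ℝ := min (2 * N - 1) (3 / 4 * N) + k * x

/-- **(R3d)** for a parent of total length `p` -/
def R3d5 : Prop := ∀ y₃ y₄ u x d p v δ φ i z₁ z₂ z₃ x' : ℝ, Dm5 y₃ y₄ u x d →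
  1 / 2 - 2 * x ≤ p → p ≤ y₃ + y₄ + u + x → 0 ≤ v →
  v ≤ vtk 5 (y₃ + y₄ + u) x → 0 ≤ δ → δ ≤ 51 / 400 → 0 ≤ φ →
  ChdP y₃ y₄ u x p (δ + φ) z₁ z₂ z₃ x' →
  z₁ ≤ i → z₂ ≤ i → z₃ ≤ i → i ≤ v + p - 1 + φ →
  r3 d i z₁ z₂ z₃ x' + (v + p - 1 + φ - i) / 3 + 2 * δ +
    max 0 (2 * v - 1 - δ) / 2 + 1 / 125 ≤
    (1 + v + 4 * p) / 3 + L0 (y₃ + y₄ + u)

/-- **(T3d)** for a parent of total length `p` -/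
def T3d5 : Prop := ∀ y₃ y₄ u x d p v δ z₁ z₂ z₃ x' : ℝ, Dm5 y₃ y₄ u x d →
  1 / 2 - 2 * x ≤ p → p ≤ y₃ + y₄ + u + x → 0 ≤ v →
  v ≤ vtk 5 (y₃ + y₄ + u) x → 51 / 400 ≤ δ → 2 * δ ≤ v → ChdP y₃ y₄ u x p δ z₁ z₂ z₃ x' →
  2 / 3 - (v - 2 * δ) / 3 - (p - δ) / 3 + δ +
    (v - 2 * δ + (z₁ + z₂ + z₃ + x') + (min z₁ (min z₂ z₃) + x')) +
    max 0 (2 * v - 1 - δ) / 3 + 1 / 125 ≤
    1 + p + L0 (y₃ + y₄ + u)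

/-- **(R2)** for a parent of total length `p`, without side conditions -/
def R2u5 : Prop := ∀ y₃ y₄ u x d p v b g i z₁ z₂ z₃ x' : ℝ, Dm5 y₃ y₄ u x d →
  1 / 2 - 2 * x ≤ p → p ≤ y₃ + y₄ + u + x → 0 ≤ v →
  v ≤ vtk 4 (y₃ + y₄ + u) x → 0 ≤ b → 0 ≤ g → 2 * g ≤ i → i ≤ v + p - 1 + b →
  i ≤ 1 - 2 * b → ChdP y₃ y₄ u x p (b + g) z₁ z₂ z₃ x' →
  (Wm v i g - i + r3 d (i + 2 * b) (min z₁ (i + 2 * b)) (min z₂ (i + 2 * b))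
      (min z₃ (i + 2 * b)) x' + 1 / 500 ≤ E2 v p (L0 (y₃ + y₄ + u))) ∨
    (Wm v i g - i + pmb d (b + g) (i - 2 * g) z₁ z₂ z₃ x' + 1 / 500 ≤
      E2 v p (L0 (y₃ + y₄ + u)))

/-- **(T-top)** -/
def Ttop5 : Prop := ∀ y₃ y₄ u x d p v : ℝ, Dm5 y₃ y₄ u x d → 1 / 2 - 2 * x ≤ p → 0 ≤ v →
  v ≤ vtk 5 (y₃ + y₄ + u) x → 2 / 3 * (1 + v + p) + 1 / 20 ≤ 1 + p + L0 (y₃ + y₄ + u)

lemma vtk_le {k N x v : ℝ} (h : v ≤ vtk k N x) : v ≤ 2 * N - 1 + k * x ∧ v ≤ 3 / 4 * N + k * x := by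
  unfold vtk at h
  have h1 := min_le_left (2 * N - 1) (3 / 4 * N)
  have h2 := min_le_right (2 * N - 1) (3 / 4 * N)
  constructor <;> linarith

lemma L0_le (N : ℝ) : 0 ≤ L0 N ∧ (5 / 4 * N - 1) / 3 ≤ L0 N := by
  unfold L0
  have := le_max_right 0 (5 / 4 * N - 1)
  exact ⟨by positivity, by linarith⟩

/-- upper bound for `r3` with the `d`-part explicit -/
lemma r3_le5 {d i z₁ z₂ z₃ x : ℝ} (d0 : 0 ≤ d) (h1 : 0 ≤ z₁) (h2 : 0 ≤ z₂)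
    (h3 : 0 ≤ z₃) (hx : 0 ≤ x) (k1 : z₁ ≤ i) (k2 : z₂ ≤ i) (k3 : z₃ ≤ i)
    (hb : z₁ + x ≤ 3 / 10) :
    r3 d i z₁ z₂ z₃ x ≤ i + (z₁ + z₂ + z₃ + x) + 3 / 4 * (l3 i z₁ z₂ z₃ + x) + 3 / 5 * d := by
  have h5 : l3 i z₁ z₂ z₃ ≤ z₁ := (l3_le i z₁ z₂ z₃).1
  unfold r3
  nlinarith

/-- the four cases of `pmb`, `d`-part explicit -/
lemma pmb_le5 {d b i z₁ z₂ z₃ x' : ℝ} (d0 : 0 ≤ d) (h1 : 0 ≤ z₁) (h2 : 0 ≤ z₂)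
    (h3 : 0 ≤ z₃) (hb : z₁ ≤ 3 / 10) :
    pmb d b i z₁ z₂ z₃ x' ≤ i + b + (z₁ + z₂ + z₃ + x') ∨
    (∃ m, (m ≤ b ∧ m ≤ i) ∧ pmb d b i z₁ z₂ z₃ x' ≤ 2 * (z₁ + z₂ + z₃ + x') + m) ∨
    (∃ m, (m ≤ z₁ ∧ m ≤ z₂ ∧ m ≤ z₃) ∧
      pmb d b i z₁ z₂ z₃ x' ≤ b + (z₁ + z₂ + z₃ + x') + 3 / 4 * m + x' + 3 / 5 * d) ∨
    (∃ m, (m ≤ z₁ ∧ m ≤ z₂ ∧ m ≤ z₃) ∧
      pmb d b i z₁ z₂ z₃ x' ≤ i + (z₁ + z₂ + z₃ + x') + 3 / 4 * m + x' + 3 / 5 * d) := by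
  have m1 : min z₁ (min z₂ z₃) ≤ z₁ := min_le_left _ _
  have m2 : min z₁ (min z₂ z₃) ≤ z₂ := (min_le_right _ _).trans (min_le_left _ _)
  have m3 : min z₁ (min z₂ z₃) ≤ z₃ := (min_le_right _ _).trans (min_le_right _ _)
  have hm : (3 / 4 + 2 * d) * min z₁ (min z₂ z₃) ≤ 3 / 4 * min z₁ (min z₂ z₃) + 3 / 5 * d := by
    nlinarith
  unfold pmb
  rcases max_choice (max (i + b + (z₁ + z₂ + z₃ + x')) (2 * (z₁ + z₂ + z₃ + x') + min b i))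
    (max b i + (z₁ + z₂ + z₃ + x') + (3 / 4 + 2 * d) * min z₁ (min z₂ z₃) + x') with h | h
  · rw [h]
    rcases max_choice (i + b + (z₁ + z₂ + z₃ + x')) (2 * (z₁ + z₂ + z₃ + x') + min b i)
      with h' | h'
    · rw [h']; exact Or.inl le_rfl
    · rw [h']; exact Or.inr (Or.inl ⟨_, ⟨min_le_left _ _, min_le_right _ _⟩, le_rfl⟩)
  · rw [h]
    rcases max_choice b i with h' | h'
    · rw [h']; exact Or.inr (Or.inr (Or.inl ⟨_, ⟨m1, m2, m3⟩, by linarith⟩))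
    · rw [h']; exact Or.inr (Or.inr (Or.inr ⟨_, ⟨m1, m2, m3⟩, by linarith⟩))

set_option maxHeartbeats 4000000 in
theorem r3d5 : R3d5 := by
  intro y₃ y₄ u x d p v δ φ i z₁ z₂ z₃ x' hD p0 pn v0 hv hδ hδ1 hφ hc k1 k2 k3 hi
  obtain ⟨u4, y43, u0, hy3, N1, near, hx0, adm, d0, d1⟩ := hD
  obtain ⟨z10, z20, z30, x0', z1, z2, z3, x1', tot⟩ := hc
  obtain ⟨hv1, hv2⟩ := vtk_le hv
  obtain ⟨hL1, hL2⟩ := L0_le (y₃ + y₄ + u)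
  have hzx : z₁ + x' ≤ 3 / 10 := by
    rcases adm with rfl | ⟨a1, a2, a3, a4⟩ | ⟨a1, a2⟩ <;> linarith
  have hr := r3_le5 d0 z10 z20 z30 x0' k1 k2 k3 hzx
  obtain ⟨l1, l2, l3', l4, l5, l6⟩ := l3_le i z₁ z₂ z₃
  generalize L0 (y₃ + y₄ + u) = L at hL1 hL2 ⊢
  generalize r3 d i z₁ z₂ z₃ x' = r at hr ⊢
  generalize l3 i z₁ z₂ z₃ = l at hr l1 l2 l3' l4 l5 l6
  rcases adm with rfl | ⟨a1, a2, a3, a4⟩ | ⟨a1, a2⟩ <;> rcases le_total 0 (2 * v - 1 - δ) with h | h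
  · rw [max_eq_right h]; linarith
  · rw [max_eq_left h]; linarith
  · rw [max_eq_right h]; linarith
  · rw [max_eq_left h]; linarith
  · rw [max_eq_right h]; linarith
  · rw [max_eq_left h]; linarith

set_option maxHeartbeats 4000000 in
theorem t3d5 : T3d5 := by
  intro y₃ y₄ u x d p v δ z₁ z₂ z₃ x' hD p0 pn v0 hv hδ hδ1 hc
  obtain ⟨u4, y43, u0, hy3, N1, near, hx0, adm, d0, d1⟩ := hD
  obtain ⟨z10, z20, z30, x0', z1, z2, z3, x1', tot⟩ := hc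
  obtain ⟨hv1, hv2⟩ := vtk_le hv
  obtain ⟨hL1, hL2⟩ := L0_le (y₃ + y₄ + u)
  have m1 : min z₁ (min z₂ z₃) ≤ z₁ := min_le_left _ _
  have m2 : min z₁ (min z₂ z₃) ≤ z₂ := (min_le_right _ _).trans (min_le_left _ _)
  have m3 : min z₁ (min z₂ z₃) ≤ z₃ := (min_le_right _ _).trans (min_le_right _ _)
  generalize L0 (y₃ + y₄ + u) = L at hL1 hL2 ⊢
  generalize min z₁ (min z₂ z₃) = m at m1 m2 m3 ⊢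
  rcases adm with rfl | ⟨a1, a2, a3, a4⟩ | ⟨a1, a2⟩ <;> rcases le_total 0 (2 * v - 1 - δ) with h | h
  · rw [max_eq_right h]; linarith
  · rw [max_eq_left h]; linarith
  · rw [max_eq_right h]; linarith
  · rw [max_eq_left h]; linarith
  · rw [max_eq_right h]; linarith
  · rw [max_eq_left h]; linarith

set_option maxHeartbeats 8000000 in
/-- the linear core : all the cases -/
lemma core {y₃ y₄ u x d p v b g i z₁ z₂ z₃ x' W L E Λ m₁ m₂ m₃ : ℝ} (u4 : u ≤ y₄) (y43 : y₄ ≤ y₃)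
    (u0 : 2 / 9 ≤ u) (hy3 : y₃ ≤ 2 / 7) (N1 : y₃ + y₄ + u ≤ 84 / 103)
    (near : 99 / 100 ≤ y₃ + y₄ + 2 * u) (x0 : 0 ≤ x)
    (adm : x = 0 ∨ (x + 2 * d ≤ 1 / 36 ∧ x + 7 / 10 * (y₃ + y₄ + u) ≤ 199 / 360 ∧
      y₃ + y₄ + u + x ≤ 15 / 19 ∧ y₃ + x ≤ 2 / 7) ∨ (8 * x ≤ d ∧ y₃ + y₄ + u + x ≤ 4 / 5))
    (d0 : 0 ≤ d) (d1 : d ≤ 1 / 42)
    (p0 : 1 / 2 - 2 * x ≤ p) (pn : p ≤ y₃ + y₄ + u + x)
    (v0 : 0 ≤ v) (hv1 : v ≤ 2 * (y₃ + y₄ + u) - 1 + 4 * x)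
    (hv2 : v ≤ 3 / 4 * (y₃ + y₄ + u) + 4 * x) (b0 : 0 ≤ b)
    (hΛ0 : 0 ≤ Λ) (hΛ1 : (5 / 4 * (y₃ + y₄ + u) - 1) / 3 ≤ Λ)
    (g0 : 0 ≤ g) (gi : 2 * g ≤ i) (i1 : i ≤ v + p - 1 + b) (i2 : i ≤ 1 - 2 * b)
    (z10 : 0 ≤ z₁) (z20 : 0 ≤ z₂) (z30 : 0 ≤ z₃) (x0' : 0 ≤ x') (z1 : z₁ ≤ y₃) (z2 : z₂ ≤ y₄)
    (z3 : z₃ ≤ u) (x1' : x' ≤ x)
    (tot : z₁ + z₂ + z₃ + x' + (b + g) ≤ p)
    (k1 : m₁ ≤ i + 2 * b) (k2 : m₂ ≤ i + 2 * b) (k3 : m₃ ≤ i + 2 * b)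
    (j1 : m₁ ≤ z₁) (j2 : m₂ ≤ z₂) (j3 : m₃ ≤ z₃)
    (l1 : L ≤ m₁) (l2 : L ≤ i + 2 * b - m₁) (l3 : L ≤ m₂) (l4 : L ≤ i + 2 * b - m₂)
    (l5 : L ≤ m₃) (l6 : L ≤ i + 2 * b - m₃)
    (hE : E = 1 + p + Λ ∨ E = (4 + p + v) / 3 + 2 * Λ)
    (hm : E < W - i + (i + 2 * b + (m₁ + m₂ + m₃ + x') + 3 / 4 * (L + x') + 3 / 5 * d) + 1 / 500)
    (hW1 : W ≤ v + 2 * g ∨ W ≤ i ∨ W ≤ 2 / 3 * (v + i + g))
    (hW2 : W ≤ v + g ∨ W ≤ 2 * i - g)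
    (hp : E < W - i + (i - 2 * g + (b + g) + (z₁ + z₂ + z₃ + x')) + 1 / 500 ∨
      (∃ m, (m ≤ b + g ∧ m ≤ i - 2 * g) ∧
        E < W - i + (2 * (z₁ + z₂ + z₃ + x') + m) + 1 / 500) ∨
      (∃ L', (L' ≤ z₁ ∧ L' ≤ z₂ ∧ L' ≤ z₃) ∧
        E < W - i + (b + g + (z₁ + z₂ + z₃ + x') + 3 / 4 * L' + x' + 3 / 5 * d) + 1 / 500) ∨
      (∃ L', (L' ≤ z₁ ∧ L' ≤ z₂ ∧ L' ≤ z₃) ∧
        E < W - i + (i - 2 * g + (z₁ + z₂ + z₃ + x') + 3 / 4 * L' + x' + 3 / 5 * d) +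
          1 / 500)) :
    False := by
  rcases adm with rfl | ⟨a1, a2, a3, a4⟩ | ⟨a1, a2⟩ <;> rcases hE with rfl | rfl <;>
  rcases hp with hp | ⟨m, ⟨n1, n2⟩, hp⟩ | ⟨m, ⟨n1, n2, n3⟩, hp⟩ | ⟨m, ⟨n1, n2, n3⟩, hp⟩ <;>
  rcases hW1 with hW1 | hW1 | hW1 <;> rcases hW2 with hW2 | hW2 <;> linarith

/-- **(R2)**, helper320's form, short parents included -/
theorem r2u5 : R2u5 := by
  intro y₃ y₄ u x d p v b g i z₁ z₂ z₃ x' hD p0 pn v0 hv b0 g0 gi i1 i2 hc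
  obtain ⟨u4, y43, u0, hy3, N1, near, hx0, adm, d0, d1⟩ := hD
  obtain ⟨z10, z20, z30, x0', z1, z2, z3, x1', tot⟩ := hc
  obtain ⟨hv1, hv2⟩ := vtk_le hv
  obtain ⟨hL1, hL2⟩ := L0_le (y₃ + y₄ + u)
  have hzx : z₁ + x' ≤ 3 / 10 := by
    rcases adm with rfl | ⟨a1, a2, a3, a4⟩ | ⟨a1, a2⟩ <;> linarith
  generalize L0 (y₃ + y₄ + u) = Λ at hL1 hL2 ⊢
  have hE : E2 v p Λ = 1 + p + Λ ∨ E2 v p Λ = (4 + p + v) / 3 + 2 * Λ := min_choice _ _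
  generalize E2 v p Λ = E at hE ⊢
  by_contra hcon
  rw [not_or, not_le, not_le] at hcon
  obtain ⟨hm, hp⟩ := hcon
  have hI : 0 ≤ i + 2 * b := by linarith
  have k1 := min_le_right z₁ (i + 2 * b)
  have k2 := min_le_right z₂ (i + 2 * b)
  have k3 := min_le_right z₃ (i + 2 * b)
  have j1 := min_le_left z₁ (i + 2 * b)
  obtain ⟨l1, l2, l3', l4, l5, l6⟩ := l3_le (i + 2 * b) (min z₁ (i + 2 * b))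
    (min z₂ (i + 2 * b)) (min z₃ (i + 2 * b))
  obtain ⟨hW1, hW2⟩ := Wm_le v i g
  have hr := r3_le5 d0 (le_min z10 hI) (le_min z20 hI) (le_min z30 hI) x0' k1 k2 k3
    (by linarith)
  refine core u4 y43 u0 hy3 N1 near hx0 adm d0 d1 p0 pn v0 hv1 hv2 b0 hL1 hL2 g0 gi i1 i2 z10 z20
    z30 x0' z1 z2 z3 x1' tot k1 k2 k3 (min_le_left _ _) (min_le_left _ _) (min_le_left _ _)
    l1 l2 l3' l4 l5 l6 hE (by linarith) hW1 hW2 ?_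
  rcases pmb_le5 (b := b + g) (i := i - 2 * g) (x' := x') d0 z10 z20 z30 (by linarith) with
    h | ⟨m, hm1, h⟩ |
    ⟨m, hm1, h⟩ | ⟨m, hm1, h⟩
  · exact Or.inl (by linarith)
  · exact Or.inr (Or.inl ⟨m, hm1, by linarith⟩)
  · exact Or.inr (Or.inr (Or.inl ⟨m, hm1, by linarith⟩))
  · exact Or.inr (Or.inr (Or.inr ⟨m, hm1, by linarith⟩))

theorem ttop5 : Ttop5 := by
  intro y₃ y₄ u x d p v hD p0 v0 hv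
  obtain ⟨u4, y43, u0, hy3, N1, near, hx0, adm, d0, d1⟩ := hD
  obtain ⟨hv1, hv2⟩ := vtk_le hv
  obtain ⟨hL1, hL2⟩ := L0_le (y₃ + y₄ + u)
  rcases adm with rfl | ⟨a1, a2, a3, a4⟩ | ⟨a1, a2⟩ <;> linarith

end Crest.Agent.R017.P1V5176
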