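import Crest.Agent.R017.E5R_71
import Crest.Agent.R017.P1Dom_918
import Crest.Agent.R017.P1V5_176
import Crest.Agent.R017.P1F_904

/-!
# Row 17, R8: the configurations of the exact square are `NAbox`es (helper918)

* `Sq5.nab`   : helper71's `Sq5` in base `H` is an `NAbox` (helper918)
* `Sq5.shr`   : the share `x` of `Sq5`
* `Sq5.shrA`  : the same, `Sq5` v7 (the share is not larger than necessary)
* `Sq5.dm5`   : helper176's domain `Dm5` of the real lines of `P1`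
* `Sq5.dp`    : helper904's domain `Dp`
-/

set_option autoImplicit false

noncomputable section

namespace Crest.Agent.R017.E5B71

open Crest.Agent.R017.Prov71 Crest.Agent.R017.R8C918 Crest.Agent.R017.R8T70

variable {A d : ℝ} {p : Fin 3 ⊕ Fin 5 → ℝ} {w : Kd → ℝ}

lemma cN_div (p : Fin 3 ⊕ Fin 5 → ℝ) :
    cu p 2 / cκ p + cu p 3 / cκ p + cu p 4 / cκ p = cN p / cκ p := by
  unfold cN; ring

lemma cM_div (p : Fin 3 ⊕ Fin 5 → ℝ) : cu p 0 / cκ p + cu p 1 / cκ p = cM p / cκ p := by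
  unfold cM; ring

/-- **`Sq5` in base `H`** -/
theorem Sq5.nab (hd : 0 ≤ d) (hd1 : d ≤ 1 / 8) (hA1 : 16 * (1 - A) ≤ d) (h : Sq5 A d p w) :
    NAbox (1 - A) d (1 / cκ p) (cu p 0 / cκ p) (cu p 1 / cκ p) (cu p 2 / cκ p) (cu p 3 / cκ p)
      (cu p 4 / cκ p) (w .mo / cκ p) (w .am / cκ p) := by
  have hκ := h.κpos
  have B := h.toNr5.box
  refine ⟨hd, hd1, hA1, ?_, ?_, ?_, ?_, B.a0, ?_, B.c0, B.r1, ?_, ?_, ?_, B.cr, ?_, ?_⟩
  · exact div_le_div_of_nonneg_right h.anti.1 hκ.le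
  · exact div_le_div_of_nonneg_right h.anti.2.1 hκ.le
  · exact div_le_div_of_nonneg_right h.anti.2.2.1 hκ.le
  · exact div_le_div_of_nonneg_right h.anti.2.2.2 hκ.le
  · rw [← mul_div_assoc, div_le_one hκ]; exact h.a12
  · rw [← mul_div_assoc, mul_one, div_le_iff₀ hκ]; exact h.κ31
  · rw [cN_div, cM_div]; exact B.D
  · rw [cN_div, cM_div]; exact B.P
  · rw [cN_div]; exact B.sig
  · intro y hy
    rw [cN_div] at hy ⊢
    rw [cM_div]
    exact h.na y hy

/-- **the share** -/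
theorem Sq5.shr (hd : 0 ≤ d) (hd1 : d ≤ 1 / 8) (hA : A ≤ 1) (hA1 : 16 * (1 - A) ≤ d)
    (h : Sq5 A d p w) :
    cx' p = 0 ∨ (cN p / cκ p + cx' p / cκ p ≤ 4 / 5 ∧
      ((cx' p / cκ p + 2 * d ≤ 1 / 36 ∧ cx' p / cκ p + 7 / 10 * (cN p / cκ p) ≤ 199 / 360 ∧
        cu p 2 / cκ p + cx' p / cκ p ≤ 2 / 7 ∧ cN p / cκ p + cx' p / cκ p ≤ 15 / 19) ∨
        cx' p / cκ p ≤ 2 * (1 - A))) := by
  have hκ := h.κpos
  have B := h.nab hd hd1 hA1
  obtain ⟨x0, x1, x2⟩ := h.tl.adm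
  rcases x2 with x2 | x2
  · left
    rcases div_eq_zero_iff.1 x2 with h' | h'
    · exact h'
    · exact absurd h' hκ.ne'
  · right
    refine ⟨x2, ?_⟩
    have := B.share x0 (by rw [cN_div]; exact x2) x1 (by rw [cM_div]; linarith [h.need])
    rw [cN_div] at this
    exact this

/-- **helper176's domain** -/
theorem Sq5.dm5 (hd : 0 ≤ d) (hd1 : d ≤ 1 / 8) (hA : A ≤ 1) (hA1 : 16 * (1 - A) ≤ d)
    (h : Sq5 A d p w) :
    P1V5176.Dm5 (cu p 2 / cκ p) (cu p 3 / cκ p) (cu p 4 / cκ p) (cx' p / cκ p) d := by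
  have B := h.nab hd hd1 hA1
  obtain ⟨f1, f2, f3, f4⟩ := B.facts
  have f5 := B.dle
  have f6 := B.near
  have f7 := B.d8
  refine ⟨B.h45, B.h34, f1, f2, f3, by linarith, h.tl.adm.1, ?_, hd, f5⟩
  rw [cN_div]
  rcases h.shr hd hd1 hA hA1 with h1 | ⟨h1, ⟨a1, a2, a3, a4⟩ | h2⟩
  · left; rw [h1, zero_div]
  · right; left; exact ⟨a1, a2, a4, a3⟩
  · right; right; exact ⟨by linarith, h1⟩

/-- **the share**, `Sq5` v7 -/
theorem Sq5.shrA (hd : 0 ≤ d) (hd1 : d ≤ 1 / 8) (hA1 : 16 * (1 - A) ≤ d) (h : Sq5 A d p w) :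
    cx' p = 0 ∨ (cx' p / cκ p + 2 * d ≤ 1 / 36 ∧
      cx' p / cκ p + 7 / 10 * (cN p / cκ p) ≤ 199 / 360 ∧
      cu p 2 / cκ p + cx' p / cκ p ≤ 2 / 7 ∧ cN p / cκ p + cx' p / cκ p ≤ 15 / 19) := by
  have hκ := h.κpos
  have B := h.nab hd hd1 hA1
  obtain ⟨x0, x1, x2⟩ := h.tl.adm
  have hz : cx' p / cκ p = 0 → cx' p = 0 := fun h0 => by
    rcases div_eq_zero_iff.1 h0 with h' | h'
    · exact h'
    · exact absurd h' hκ.ne'
  rcases x2 with x2 | x2
  · exact Or.inl (hz x2)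
  · have hn := h.need
    have hμ : 0 ≤ 2 * (1 - A) ∨ 2 * (1 - A) ≤ 0 := le_total _ _
    rcases le_total (w .mo / cκ p + w .am / cκ p - 7 / 9 * (1 - cM p / cκ p)) 0 with e | e
    · rw [max_eq_left e] at hn
      exact Or.inl (hz (le_antisymm hn x0))
    · right
      rw [max_eq_right e] at hn
      have hA : 0 ≤ 1 - A ∨ 1 - A ≤ 0 := le_total _ _
      rcases hA with hA | hA
      · have := B.shareA x0 (by rw [cN_div]; exact x2) x1 (by rw [cM_div]; exact e)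
          (by rw [cM_div]; linarith)
        rw [cN_div] at this
        exact this
      · -- `1 ≤ A` : the box is also an `NAbox` with `μ = 0`
        have B0 : NAbox 0 d (1 / cκ p) (cu p 0 / cκ p) (cu p 1 / cκ p) (cu p 2 / cκ p)
            (cu p 3 / cκ p) (cu p 4 / cκ p) (w .mo / cκ p) (w .am / cκ p) :=
          { B with
            μd := by linarith
            near := by have := B.near; linarith }
        have := B0.shareA x0 (by rw [cN_div]; exact x2) x1 (by rw [cM_div]; exact e)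
          (by rw [cM_div]; linarith)
        rw [cN_div] at this
        exact this

/-- **helper904's domain** -/
theorem Sq5.dp (hd : 0 ≤ d) (hd1 : d ≤ 1 / 8) (hA : A ≤ 1) (hA1 : 16 * (1 - A) ≤ d)
    (h : Sq5 A d p w) :
    P1F904.Dp (cu p 2 / cκ p) (cu p 3 / cκ p) (cu p 4 / cκ p) (cx' p / cκ p) d := by
  have B := h.nab hd hd1 hA1
  obtain ⟨f1, f2, f3, f4⟩ := B.facts
  have f5 := B.dle
  have f6 := B.near
  have f7 := B.d8
  rw [cN_div] at f3 f4 f6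
  have hs := h.shr hd hd1 hA hA1
  refine ⟨B.h45, B.h34, by linarith, ?_, by rw [cN_div]; linarith, ?_, h.tl.adm.1, ?_, hd,
    by linarith⟩
  · rcases hs with h1 | ⟨h1, ⟨a1, a2, a3, a4⟩ | h2⟩
    · rw [h1, zero_div]; linarith
    · linarith
    · linarith
  · have e : cu p 2 / cκ p + cu p 3 / cκ p + 2 * (cu p 4 / cκ p) =
        cu p 2 / cκ p + cu p 3 / cκ p + cu p 4 / cκ p + cu p 4 / cκ p := by ring
    rw [e, cN_div]; linarith
  · rw [cN_div]
    rcases hs with h1 | ⟨h1, ⟨a1, a2, a3, a4⟩ | h2⟩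
    · left
      rw [h1, zero_div]
      exact ⟨by linarith, Or.inl rfl⟩
    · right; exact ⟨f4, a1, a2⟩
    · left; exact ⟨by linarith, Or.inr h1⟩

end Crest.Agent.R017.E5B71
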