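import Crest.Agent.R017.P10c_146
import Crest.Agent.R017.P1DomS_918
import Crest.Agent.R017.FNEf_708

/-!
# Row 17, R8 / P1: `P10` over the configurations of the exact square (helper146)

* `D5` : the domain of helper708's flat claims, `D5_compact`
* `bP_mem`, `bQ_mem` : the base points of the parents in `ParS A d`
* `P10_of` : `P10 π h e0 (ParS A d) (LS0 d)` from `FE2L` on `D5` and `EtU`, `RpU`, `E3U`
-/

set_option autoImplicit false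
set_option linter.unusedSectionVars false

noncomputable section

open Set Finset

namespace Crest.Agent.R017.P10146

open Crest.Agent.R012 Crest.Agent.R012.Eis
open Crest.Agent.R017.FE47 (PU cx)
open Crest.Agent.R017.CM106
open Crest.Agent.R017.Prov71
open Crest.Agent.R017.B770
open Crest.Agent.R017.ER911
open Crest.Agent.R017.E5B71
open Crest.Agent.R017.P1l54
open Crest.Agent.R017.P1t54 (ParS LS0 parOK_Sq5)
open Crest.Agent.R017.TM708 (T5 K5 FE2L R5)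
open Crest.Agent.R017.FN708 (R5s)

/-- **the domain of the flat claims** -/
def D5 : Set (Fin 5 → ℝ) :=
  {b | R5 b ∧ R5s b ∧ 2 / 3 ≤ b 0 ∧ b 0 ≤ 11 / 10 ∧ b 3 ≤ b 2 ∧ b 2 ≤ b 1 ∧
    200 * b 1 ≤ 61 * K5 b}

lemma D5_compact : IsCompact D5 := by
  refine Metric.isCompact_of_isClosed_isBounded ?_ ?_
  · have e : D5 = {b : Fin 5 → ℝ | 0 ≤ b 0 ∧ 0 ≤ b 1 ∧ 0 ≤ b 2 ∧ 0 ≤ b 3 ∧ 0 ≤ b 4 ∧
        b 1 + b 2 + b 3 ≤ 102 / 125 * b 0 ∧ b 4 ≤ 1 / 36 * b 0 ∧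
        (b 4 ≤ 0 ∨ (b 1 + b 2 + b 3 + b 4 ≤ 4 / 5 * b 0 ∧
          2 * (b 1 + b 2 + b 3) + 5 * b 4 ≤ 59 / 36 * b 0 ∧
          2 * (b 1 + b 2 + b 3) + 6 * b 4 ≤ 5 / 3 * b 0)) ∧
        (b 4 ≤ 0 ∨ 3 * (b 1 + b 2 + b 3) + 6 * b 4 ≤ 29 / 12 * b 0) ∧
        2 / 3 ≤ b 0 ∧ b 0 ≤ 11 / 10 ∧ b 3 ≤ b 2 ∧ b 2 ≤ b 1 ∧ 200 * b 1 ≤ 61 * K5 b} := by
      ext b
      constructor
      · rintro ⟨⟨k0, y1, y2, y3, x0, hN, x1, adm⟩, hs, h⟩
        exact ⟨k0, y1, y2, y3, x0, hN, x1, adm, hs, h⟩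
      · rintro ⟨k0, y1, y2, y3, x0, hN, x1, adm, hs, h⟩
        exact ⟨⟨k0, y1, y2, y3, x0, hN, x1, adm⟩, hs, h⟩
    rw [e]
    have c : ∀ i : Fin 5, Continuous fun b : Fin 5 → ℝ => b i := fun i => continuous_apply i
    have hle : ∀ {f g : (Fin 5 → ℝ) → ℝ}, Continuous f → Continuous g → IsClosed {b | f b ≤ g b} :=
      fun hf hg => isClosed_le hf hg
    refine (hle (by fun_prop) (by fun_prop)).inter ((hle (by fun_prop) (by fun_prop)).inter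
      ((hle (by fun_prop) (by fun_prop)).inter ((hle (by fun_prop) (by fun_prop)).inter
      ((hle (by fun_prop) (by fun_prop)).inter ((hle (by fun_prop) (by fun_prop)).inter
      ((hle (by fun_prop) (by fun_prop)).inter
      (((hle (by fun_prop) (by fun_prop)).union ((hle (by fun_prop) (by fun_prop)).inter
        ((hle (by fun_prop) (by fun_prop)).inter (hle (by fun_prop) (by fun_prop))))).inter
      (((hle (by fun_prop) (by fun_prop)).union (hle (by fun_prop) (by fun_prop))).inter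
      ((hle (by fun_prop) (by fun_prop)).inter ((hle (by fun_prop) (by fun_prop)).inter
      ((hle (by fun_prop) (by fun_prop)).inter ((hle (by fun_prop) (by fun_prop)).inter
      (hle (by fun_prop) (TM708.K5_cont.const_mul 61 |>.congr fun b => rfl))))))))))))))
  · refine (Metric.isBounded_iff_subset_closedBall (0 : Fin 5 → ℝ)).2 ⟨2, ?_⟩
    rintro b ⟨⟨k0, y1, y2, y3, x0, hN, x1, adm⟩, -, -, hb, -, -, -⟩
    rw [mem_closedBall_zero_iff, pi_norm_le_iff_of_nonneg (by norm_num)]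
    intro i
    rw [Real.norm_eq_abs, abs_le]
    fin_cases i
    · show -2 ≤ b 0 ∧ b 0 ≤ 2
      constructor <;> linarith
    · show -2 ≤ b 1 ∧ b 1 ≤ 2
      constructor <;> linarith
    · show -2 ≤ b 2 ∧ b 2 ≤ 2
      constructor <;> linarith
    · show -2 ≤ b 3 ∧ b 3 ≤ 2
      constructor <;> linarith
    · show -2 ≤ b 4 ∧ b 4 ≤ 2
      constructor <;> linarith

/-- the facts of the exact square, not normalised -/
lemma sq_facts {A d : ℝ} (hd : 0 ≤ d) (hd1 : d ≤ 1 / 8) (hA1 : 16 * (1 - A) ≤ d)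
    {p : Fin 3 ⊕ Fin 5 → ℝ} (hp : p ∈ ParS A d) :
    8 / 9 ≤ cκ p ∧ cκ p ≤ 1 ∧ 0 ≤ cu p 4 ∧ cu p 4 ≤ cu p 3 ∧ cu p 3 ≤ cu p 2 ∧
      cu p 2 ≤ 2 / 7 * cκ p ∧
      3 / 4 * cκ p ≤ cN p ∧ cN p ≤ 84 / 103 * cκ p ∧ 0 ≤ cx' p ∧
      (cx' p = 0 ∨ (cx' p ≤ 1 / 36 * cκ p ∧ cx' p + 7 / 10 * cN p ≤ 199 / 360 * cκ p ∧
        cN p + cx' p ≤ 15 / 19 * cκ p)) := by
  obtain ⟨w, hw⟩ := hp
  have hκ := hw.κpos
  have B := hw.nab hd hd1 hA1
  obtain ⟨f1, f2, f3, f4⟩ := B.facts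
  rw [cN_div] at f3 f4
  obtain ⟨a1, a2, a3, a4⟩ := hw.anti
  rw [div_le_iff₀ hκ] at f3 f2
  rw [le_div_iff₀ hκ] at f4 f1
  have hx0 : 0 ≤ cx' p := by
    have := hw.tl.adm.1
    rwa [le_div_iff₀ hκ, zero_mul] at this
  refine ⟨hw.κ0, hw.κ1, by linarith, a4, a3, f2, f4, f3, hx0, ?_⟩
  rcases hw.shrA hd hd1 hA1 with h | ⟨h1, h2, h3, h4⟩
  · exact Or.inl h
  · right
    have e1 : cx' p / cκ p + 7 / 10 * (cN p / cκ p) = (cx' p + 7 / 10 * cN p) / cκ p := by ring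
    rw [e1, div_le_iff₀ hκ] at h2
    rw [← add_div, div_le_iff₀ hκ] at h4
    have h5 : cx' p / cκ p ≤ 1 / 36 := by linarith
    rw [div_le_iff₀ hκ] at h5
    exact ⟨h5, h2, h4⟩

/-- the first base point -/
theorem bP_mem {A d : ℝ} (hd : 0 ≤ d) (hd1 : d ≤ 1 / 8) (hA1 : 16 * (1 - A) ≤ d)
    {p : Fin 3 ⊕ Fin 5 → ℝ} (hp : p ∈ ParS A d) : bP p ∈ D5 := by
  obtain ⟨k0, k1, u4, u34, u23, y27, n0, n1, x0, hx⟩ := sq_facts hd hd1 hA1 hp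
  have eN : cN p = cu p 2 + cu p 3 + cu p 4 := rfl
  rw [eN] at n0 n1 hx
  refine ⟨⟨?_, ?_, ?_, ?_, ?_, ?_, ?_, ?_⟩, ?_, ?_, ?_, ?_, ?_, ?_⟩
  · show 0 ≤ cκ p; linarith
  · show 0 ≤ cu p 2; linarith
  · show 0 ≤ cu p 3; linarith
  · show 0 ≤ cu p 4; linarith
  · show 0 ≤ cx' p; linarith
  · show cu p 2 + cu p 3 + cu p 4 ≤ 102 / 125 * cκ p; linarith
  · show cx' p ≤ 1 / 36 * cκ p
    rcases hx with h | ⟨h1, h2, h3⟩ <;> linarith
  · show cx' p ≤ 0 ∨ (cu p 2 + cu p 3 + cu p 4 + cx' p ≤ 4 / 5 * cκ p ∧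
      2 * (cu p 2 + cu p 3 + cu p 4) + 5 * cx' p ≤ 59 / 36 * cκ p ∧
      2 * (cu p 2 + cu p 3 + cu p 4) + 6 * cx' p ≤ 5 / 3 * cκ p)
    rcases hx with h | ⟨h1, h2, h3⟩
    · exact Or.inl h.le
    · right
      refine ⟨by linarith, by linarith, by linarith⟩
  · show cx' p ≤ 0 ∨ 3 * (cu p 2 + cu p 3 + cu p 4) + 6 * cx' p ≤ 29 / 12 * cκ p
    rcases hx with h | ⟨h1, h2, h3⟩
    · exact Or.inl h.le
    · right; linarith
  · show 2 / 3 ≤ cκ p; linarith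
  · show cκ p ≤ 11 / 10; linarith
  · exact u34
  · exact u23
  · have h1 : cκ p ≤ K5 (bP p) := le_max_left _ _
    show 200 * cu p 2 ≤ 61 * K5 (bP p)
    linarith

/-- the second base point -/
theorem bQ_mem {A d : ℝ} (hd : 0 ≤ d) (hd1 : d ≤ 1 / 8) (hA1 : 16 * (1 - A) ≤ d)
    {p : Fin 3 ⊕ Fin 5 → ℝ} (hp : p ∈ ParS A d) : bQ p ∈ D5 := by
  rcases le_total (5 / 4 * cN p) (cκ p) with hc | hc
  · have e0 : exN p = 0 := max_eq_left (by linarith)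
    have e : bQ p = bP p := by
      unfold bQ bP
      rw [e0, mul_zero, add_zero, mul_zero, add_zero]
    rw [e]
    exact bP_mem hd hd1 hA1 hp
  obtain ⟨k0, k1, u4, u34, u23, y27, n0, n1, x0, hx⟩ := sq_facts hd hd1 hA1 hp
  have e0 : exN p = 5 / 4 * cN p - cκ p := max_eq_right (by linarith)
  have eN : cN p = cu p 2 + cu p 3 + cu p 4 := rfl
  have hx0 : cx' p = 0 := by
    rcases hx with h | ⟨h1, h2, h3⟩
    · exact h
    · linarith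
  rw [eN] at n0 n1 hc e0
  refine ⟨⟨?_, ?_, ?_, ?_, ?_, ?_, ?_, ?_⟩, ?_, ?_, ?_, ?_, ?_, ?_⟩
  · show 0 ≤ cκ p + 4 / 3 * exN p; linarith
  · show 0 ≤ cu p 2; linarith
  · show 0 ≤ cu p 3; linarith
  · show 0 ≤ cu p 4; linarith
  · show 0 ≤ cx' p + 4 / 15 * exN p; linarith
  · show cu p 2 + cu p 3 + cu p 4 ≤ 102 / 125 * (cκ p + 4 / 3 * exN p); linarith
  · show cx' p + 4 / 15 * exN p ≤ 1 / 36 * (cκ p + 4 / 3 * exN p); linarith
  · show cx' p + 4 / 15 * exN p ≤ 0 ∨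
      (cu p 2 + cu p 3 + cu p 4 + (cx' p + 4 / 15 * exN p) ≤ 4 / 5 * (cκ p + 4 / 3 * exN p) ∧
      2 * (cu p 2 + cu p 3 + cu p 4) + 5 * (cx' p + 4 / 15 * exN p) ≤
        59 / 36 * (cκ p + 4 / 3 * exN p) ∧
      2 * (cu p 2 + cu p 3 + cu p 4) + 6 * (cx' p + 4 / 15 * exN p) ≤
        5 / 3 * (cκ p + 4 / 3 * exN p))
    right
    refine ⟨by linarith, by linarith, by linarith⟩
  · show cx' p + 4 / 15 * exN p ≤ 0 ∨ 3 * (cu p 2 + cu p 3 + cu p 4) +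
      6 * (cx' p + 4 / 15 * exN p) ≤ 29 / 12 * (cκ p + 4 / 3 * exN p)
    right; linarith
  · show 2 / 3 ≤ cκ p + 4 / 3 * exN p; linarith
  · show cκ p + 4 / 3 * exN p ≤ 11 / 10; linarith
  · exact u34
  · exact u23
  · have h1 : cκ p + 4 / 3 * exN p ≤ K5 (bQ p) := le_max_left _ _
    show 200 * cu p 2 ≤ 61 * K5 (bQ p)
    linarith

/-- the frame condition of the free family -/
theorem hx4_of {A d : ℝ} (hd : 0 ≤ d) (hd1 : d ≤ 1 / 8) (hA1 : 16 * (1 - A) ≤ d)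
    {p : Fin 3 ⊕ Fin 5 → ℝ} (hp : p ∈ ParS A d) :
    cx' p ≤ 0 ∨ 5 / 2 * cN p + 4 * cx' p ≤ 2 * cκ p := by
  obtain ⟨k0, k1, u4, u34, u23, y27, n0, n1, x0, hx⟩ := sq_facts hd hd1 hA1 hp
  rcases hx with h | ⟨h1, h2, h3⟩
  · exact Or.inl h.le
  · right; linarith

/-- **P10 for the exact square**, `ℓ b = (3/4) d κ` -/
theorem P10_of {Λ : Type*} {π : Λ → DPar} {h : ℝ → ℝ} {c₀ : ℝ} (hpu : PU h c₀)
    (hP : ∀ lam, (π lam).OK) {d : ℝ} {rr : EF}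
    (R : ExpRules (7 / 8 + d) rr (ex Dq fun lam => Sp (π lam) h)) (hd : 0 ≤ d) (hd1 : d ≤ 1 / 40)
    {Rh : ℝ} (hRh0 : 0 ≤ Rh) (hRh : ∀ u, cx h u ≠ 0 → |u| ≤ Rh) {e0 : ℝ} (he0 : 1 / 64 ≤ e0)
    (he1 : e0 ≤ 1 / 20) {A : ℝ} (hA : 9 / 10 ≤ A) (hA1 : 16 * (1 - A) ≤ d)
    (hFE : FE2L (ex Dq fun lam => S0p (π lam) h) D5 fun b => 3 / 4 * d * b 0)
    (het : EtU π h e0 (ParS A d) (LS0 d)) (hrp : RpU π h e0 (ParS A d) (LS0 d))
    (he3 : E3U π h e0 Rh (ParS A d) (LS0 d)) : P10 π h e0 (ParS A d) (LS0 d) := by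
  have hℓ : Continuous fun b : Fin 5 → ℝ => 3 / 4 * d * b 0 := by fun_prop
  have hℓ0 : ∀ b ∈ D5, (0 : ℝ) ≤ 3 / 4 * d * b 0 := by
    rintro b ⟨h1, -⟩
    have := h1.k0
    positivity
  have hfb := fb_of hpu hP R hd hd1 D5_compact (fun b hb => hb.1) hℓ hℓ0 hFE
  have hcb := cb_of hpu hP R hd hd1 D5_compact (fun b hb => hb.1) hℓ hℓ0 hFE
  refine p10_of hpu hP hRh0 hRh (e1 := 1 / 70) (by norm_num) (by linarith) (by linarith) he1
    (fun p hp => parOK_Sq5 hA hp) (fun p hp => hx4_of hd (by linarith) hA1 hp)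
    (fun p hp => bP_mem hd (by linarith) hA1 hp)
    (fun p hp => bQ_mem hd (by linarith) hA1 hp) (fun b hb => hb.1)
    (fun p hp => hℓ0 _ (bP_mem hd (by linarith) hA1 hp)) (fun p hp => ?_) (fun p hp => ?_)
    hfb hcb het hrp he3
  · show max 0 (5 / 4 * cN p - cκ p) + 3 / 4 * d * cκ p ≤ LS0 d p
    exact le_rfl
  · show 34 / 45 * exN p + 3 / 4 * d * (cκ p + 4 / 3 * exN p) ≤ exN p + 3 / 4 * d * cκ p
    have h1 : 0 ≤ exN p := le_max_left _ _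
    have h2 : d * exN p ≤ 1 / 40 * exN p := mul_le_mul_of_nonneg_right hd1 h1
    linarith

end Crest.Agent.R017.P10146
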