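import Crest.Agent.R017.E3W0_271
import Crest.Agent.R017.P10e_146
import Crest.Agent.R017.E3Nc_146

/-!
# Row 17, R8 / P1 (helper271): `E3U`, the R-half

* `hN_KX`, `Ld_lt` : the size conditions of `hN`
* `dh_of` : helper571's domain for the exact square
* **`rhalf`** : helper571's `rn2_J` at `H = exp hN`
-/

set_option autoImplicit false
set_option linter.unusedVariables false

noncomputable section

open Finset
open scoped Classical ComplexConjugate

namespace Crest.Agent.R017.E3W271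

open Crest.Agent.R012 Crest.Agent.R012.Eis
open Crest.Agent.R012.LS2 (S mem_S bl mem_bl)
open Crest.Agent.R017.FE47 (PU SM)
open Crest.Agent.R017.CM106
open Crest.Agent.R017.XG702 (Pcs BG)
open Crest.Agent.R017.Prov71
open Crest.Agent.R017.B770
open Crest.Agent.R017.HP842 (Pc pc sqc alL)
open Crest.Agent.R017.E5B71
open Crest.Agent.R017.P1t54 (ParS LS0)
open Crest.Agent.R017.R3571 (RMm)
open Crest.Agent.R017.Mode405 (Slp)
open Crest.Agent.R017.PX764 (n6)
open Crest.Agent.R017.E3Z548 (FH)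
open Crest.Agent.R017.E3Sz579 (Ld Md)
open Crest.Agent.R017.E3Hf290 (RN2F)
open Crest.Agent.R017.TM708 (PD)
open Crest.Agent.R017.I1146 (LN)
open Crest.Agent.R017.RnP571 (hJ Dh)

lemma log_nm0 (d : Eis) : 0 ≤ Real.log (nm d) := Real.log_natCast_nonneg _

/-- the size condition -/
lemma hN_KX {cc l p z E : ℝ} {i : ℕ} (hcc : 1 ≤ cc) (hE : 0 ≤ E) (h1 : Real.log cc + l / 64 + 2 * i ≤ l + p)
    (h2 : Real.log cc + p / 3 + z + 2 * i ≤ 2 * l) (h3 : (i : ℝ) / 2 ≤ p + 1) (d : Eis) :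
    cc * (Real.exp (hN cc l p z E i d) * Real.exp i ^ 2) ≤ Real.exp l * Real.exp p := by
  have hd := log_nm0 d
  have hcc0 : 0 < cc := by linarith
  have key : Real.log cc + hN cc l p z E i d + 2 * i ≤ l + p := by
    unfold hN
    split_ifs with h
    · unfold RnP571.hJ
      have : max (l / 64) (4 / 3 * (p - Real.log (nm d)) - l + z - 3 * E) ≤
          l + p - Real.log cc - 2 * i := max_le (by linarith) (by linarith)
      linarith
    · have := min_le_right (Real.log (nm d : ℝ)) ((i : ℝ) / 2)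
      linarith
  calc cc * (Real.exp (hN cc l p z E i d) * Real.exp i ^ 2) =
      Real.exp (Real.log cc + hN cc l p z E i d + 2 * i) := by
        rw [Real.exp_add, Real.exp_add, Real.exp_log hcc0, two_mul, Real.exp_add]; ring
    _ ≤ Real.exp (l + p) := Real.exp_le_exp.2 key
    _ = _ := by rw [Real.exp_add]

/-- beyond `K^(1/10)` there is no R-part -/
lemma Ld_lt {cc l p z E : ℝ} {i : ℕ} (hcc : 1 ≤ cc) {d : Eis} (hd0 : d ≠ 0)
    (hd : l / 10 < Real.log (nm d)) :
    ¬ 1 ≤ Ld (Real.exp l) (Real.exp i) (Real.exp (hN cc l p z E i d)) d := by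
  have hlc : 0 ≤ Real.log cc := Real.log_nonneg hcc
  have hn : (0 : ℝ) < nm d := by exact_mod_cast nm_pos.2 hd0
  have e : Ld (Real.exp l) (Real.exp i) (Real.exp (hN cc l p z E i d)) d =
      Real.exp (hN cc l p z E i d + 2 * i - (l + Real.log (nm d))) := by
    unfold E3Sz579.Ld
    rw [Real.exp_sub, Real.exp_add, Real.exp_add l, Real.exp_log hn, two_mul (i : ℝ), Real.exp_add]
    ring
  rw [e, not_le, Real.exp_lt_one_iff]
  unfold hN
  rw [if_neg (not_le.2 hd)]
  have := min_le_left (Real.log (nm d : ℝ)) ((i : ℝ) / 2)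
  linarith

/-- homogeneity -/
lemma hJ_le {L k k' p δ x x' E E' t : ℝ} (hL : 0 < L) (hk : |k' - k * L| ≤ t)
    (hx : x' ≤ x * L + t) (hE : E * L - 4 * t ≤ E') (ht : 0 ≤ t) :
    hJ k' p δ x' E' ≤ hJ k (p / L) (δ / L) x E * L + 20 * t := by
  obtain ⟨k1, k2⟩ := abs_le.1 hk
  unfold RnP571.hJ
  have e1 : 4 / 3 * (p / L - δ / L) * L = 4 / 3 * (p - δ) := by field_simp
  rw [max_mul_of_nonneg _ _ hL.le, ← max_add_add_right]
  refine max_le_max (by linarith) ?_
  have e2 : (4 / 3 * (p / L - δ / L) - k + x - 3 * E) * L =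
      4 / 3 * (p / L - δ / L) * L - k * L + x * L - 3 * (E * L) := by ring
  rw [e2, e1]
  linarith

/-- **helper571's domain** -/
theorem dh_of {A d : ℝ} (hd : 0 ≤ d) (hd1 : d ≤ 1 / 8) (hA1 : 16 * (1 - A) ≤ d)
    {p : Fin 3 ⊕ Fin 5 → ℝ} (hp : p ∈ ParS A d) :
    Dh (cκ p) (cu p 2) (cu p 3) (cu p 4) (cx' p) (d * cκ p) := by
  obtain ⟨w, hw⟩ := hp
  have hκ := hw.κpos
  have B := hw.nab hd hd1 hA1
  obtain ⟨f1, f2, f3, f4⟩ := B.facts
  have f5 := B.dle
  have f6 := B.near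
  have f7 := B.h45
  have f8 := B.h34
  rw [cN_div] at f3 f4 f6
  rw [div_le_div_iff_of_pos_right hκ] at f7 f8
  rw [div_le_iff₀ hκ] at f3 f2
  rw [le_div_iff₀ hκ] at f4 f1
  have hx0 : 0 ≤ cx' p := by
    have := hw.tl.adm.1
    rwa [le_div_iff₀ hκ, zero_mul] at this
  have eN : cN p = cu p 2 + cu p 3 + cu p 4 := rfl
  have f6' : (1 - (1 - A)) * cκ p ≤ cN p + cu p 4 := by
    have := mul_le_mul_of_nonneg_right f6 hκ.le
    refine this.trans (le_of_eq ?_)
    field_simp
  have hAκ : (1 - A) * cκ p ≤ 1 / 672 * cκ p := mul_le_mul_of_nonneg_right (by linarith) hκ.le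
  have hdκ : d * cκ p ≤ 1 / 42 * cκ p := mul_le_mul_of_nonneg_right f5 hκ.le
  have hdκ0 : 0 ≤ d * cκ p := by positivity
  refine ⟨hκ, f7, f8, by linarith, ?_, by linarith, by linarith, hx0, ?_, hdκ0, by linarith⟩
  · rcases hw.shrA hd hd1 hA1 with h | ⟨h1, h2, h3, h4⟩
    · rw [h]; linarith
    · rw [← add_div, div_le_iff₀ hκ] at h3
      linarith
  · rcases hw.shrA hd hd1 hA1 with h | ⟨h1, h2, h3, h4⟩
    · left
      rw [h]
      exact ⟨by linarith, Or.inl rfl⟩
    · right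
      have e1 : cx' p / cκ p + 7 / 10 * (cN p / cκ p) = (cx' p + 7 / 10 * cN p) / cκ p := by ring
      rw [e1, div_le_iff₀ hκ] at h2
      have h1' := mul_le_mul_of_nonneg_right h1 hκ.le
      have e2 : (cx' p / cκ p + 2 * d) * cκ p = cx' p + 2 * (d * cκ p) := by field_simp
      rw [e2] at h1'
      exact ⟨by linarith, h1', by linarith⟩

end Crest.Agent.R017.E3W271
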