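import Crest.Agent.R017.E3Nl_146
import Crest.Agent.R017.E3W2_271
import Crest.Agent.R017.P10e_146

/-!
# Row 17, R8 (E3): the inputs of `E3U` on the exact square (helper146)

* **`hpar_S`** : `HPar` for `ParS A d`
* **`in_S`** : `TnN`, `TcN`, `EaN`, `EbN`, `EcN`, `EdN` on `ParS A d`
-/

set_option autoImplicit false

noncomputable section

namespace Crest.Agent.R017.E3N146

open Crest.Agent.R017.FE47 (PU cx)
open Crest.Agent.R017.Prov71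
open Crest.Agent.R017.B770
open Crest.Agent.R017.ER911
open Crest.Agent.R017.E5B71
open Crest.Agent.R017.P1t54 (ParS LS0 parOK_Sq5)
open Crest.Agent.R017.P10146 (D5 D5_compact bP bP_mem hx4_of)
open Crest.Agent.R017.TM708 (FE2L R5)
open Crest.Agent.R017.E3W271 (OuN TnN TcN HD JD EaN EbN EcN EdN)

theorem hpar_S {A d : ℝ} (hd : 0 ≤ d) (hd1 : d ≤ 1 / 40) (hA : 9 / 10 ≤ A)
    (hA1 : 16 * (1 - A) ≤ d) :
    HPar d (ParS A d) D5 (fun b => 3 / 4 * d * b 0) (LS0 d) where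
  mem p hp := bP_mem hd (by linarith) hA1 hp
  dh p hp := E3W271.dh_of hd (by linarith) hA1 hp
  k0 p hp := by have := (parOK_Sq5 hA hp).κ0; linarith
  k1 p hp := by have := (parOK_Sq5 hA hp).κ1; linarith
  hx4 p hp := hx4_of hd (by linarith) hA1 hp
  L0 _ _ := le_rfl

theorem in_S {Λ : Type*} {π : Λ → DPar} {h : ℝ → ℝ} {c₀ : ℝ} (hpu : PU h c₀)
    (hP : ∀ lam, (π lam).OK) {d : ℝ} {rr : EF}
    (R : ExpRules (7 / 8 + d) rr (ex Dq fun lam => Sp (π lam) h)) (hd : 0 ≤ d) (hd1 : d ≤ 1 / 40)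
    {Rh : ℝ} (hRh0 : 0 ≤ Rh) (hRh : ∀ u, cx h u ≠ 0 → |u| ≤ Rh) {A : ℝ} (hA : 9 / 10 ≤ A)
    (hA1 : 16 * (1 - A) ≤ d)
    (hFE : FE2L (ex Dq fun lam => S0p (π lam) h) D5 fun b => 3 / 4 * d * b 0) :
    (TnN π h (1 / 64) (ParS A d) (LS0 d) ∧ TcN π h (1 / 64) (ParS A d) (LS0 d)) ∧
      EaN π h (1 / 64) (ParS A d) (LS0 d) ∧ EbN π h (1 / 64) (ParS A d) (LS0 d) ∧
      EcN π h (1 / 64) (ParS A d) (LS0 d) ∧ EdN π h (1 / 64) (ParS A d) (LS0 d) := by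
  have hℓ : Continuous fun b : Fin 5 → ℝ => 3 / 4 * d * b 0 := by fun_prop
  have hℓ0 : ∀ b ∈ D5, (0 : ℝ) ≤ 3 / 4 * d * b 0 := by
    rintro b ⟨h1, -⟩
    have := h1.k0
    positivity
  have HP := hpar_S hd hd1 hA hA1
  exact ⟨tn_tc hpu hP hRh0 hRh R hd hd1 D5_compact (fun b hb => hb.1) hℓ hℓ0 hFE HP,
    er_N hpu hP hRh0 hRh R hd hd1 D5_compact (fun b hb => hb.1) hℓ hℓ0 hFE HP⟩

end Crest.Agent.R017.E3N146
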