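import Crest.Agent.R017.E3Nc_146
import Crest.Agent.R017.TNj_90

/-!
# Row 17, R8 (E3): the T-part of the numbers `LVn` for any sequence with joint-block claims
(helper744)

* **`LVTaJ`**, **`LVTbJ`** : helper146's `LVTa`, `LVTb` for a sequence with helper90's `JBc`
-/

set_option autoImplicit false

noncomputable section

open Finset MeasureTheory
open scoped ComplexConjugate Classical

namespace Crest.Agent.R017.E3Nx744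

open Crest.Agent.R012 Crest.Agent.R012.Eis Crest.Agent.R012.MC
open Crest.Agent.R012.LS2 (S mem_S)
open Crest.Agent.R017.CM106 (CS FS TG)
open Crest.Agent.R017.C70
open Crest.Agent.R017.E1551 hiding tau Dg
open Crest.Agent.R017.E3D579 (TE0)
open Crest.Agent.R017.E3T829 (cg)
open Crest.Agent.R017.OT551
open Crest.Agent.R017.E3Z548 (TN TN_nonneg JV JVc mem_JV FH FH_nonneg LVn)
open Crest.Agent.R017.E3N146 (blk_log blk_card blk_lt TN_sum wsum e_line esum CF_of_JC cLS cTT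
  LVn_le)
open Crest.Agent.R017.TNj90 (JBc TNj TNjw TNj1)

/-- **the T-part of `Σ LVn`** -/
theorem LVTaJ {R : ℝ} (hR : 0 ≤ R) {ε J B₂ : ℝ} (hε : 0 < ε) (hJ : 0 ≤ J) (hB₂ : 0 < B₂)
    {Lφ : ℝ} (hLφ : 0 ≤ Lφ) :
    ∃ C : ℝ, 0 ≤ C ∧ ∀ X : ℝ, 3 ≤ X →
      ∀ (n Y cc V E0 F : ℝ) (Sh : ℝ → ℝ → ℝ → ℝ), 1 ≤ Y → Y ≤ X ^ B₂ → 0 < V → cc * V ≤ X ^ B₂ →
      0 < E0 → 0 ≤ F → ∀ al : Eis → ℂ, JBc Y (cc * V) F J Sh al →
      Adm Y (Real.exp n) R al → ∀ (Ds EE : Finset Eis) (m : ℝ) (φ₀ φ₁ : ℝ → ℝ)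
        (af : Eis → Eis → Eis → ℂ) (H RN : Eis → Eis → ℝ) (Yg K V' E1 B G1 : ℝ),
      (∀ x y, φ₀ x ≤ φ₀ y + Lφ * |x - y|) → (∀ x y, φ₁ x ≤ φ₁ y + Lφ * |x - y|) →
      (∀ d ∈ Ds, IsPrim d ∧ (nm d : ℝ) ≤ X ^ B₂) → (∀ e ∈ EE, e ∈ S E0) →
      (∀ d ∈ Ds, ∀ e ∈ EE, af d e = fun n => al (d * n)) → 0 < K → (∀ d e, 0 < H d e) →
      (∀ d ∈ Ds, ∀ e ∈ EE, FH K (H d e) V * cLS K (H d e) V V' E1 B G1 ≤
        Real.exp (φ₀ (Real.log (nm d)))) →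
      (∀ d ∈ Ds, ∀ e ∈ EE, FH K (H d e) V * cTT K (H d e) V ≤
        Real.exp (φ₁ (Real.log (nm d)))) →
      (∀ d ∈ Ds, ∀ b v : ℝ, 0 ≤ b → 0 ≤ v → v ≤ Real.log (cc * V) - 2 * Real.log (nm d) →
          φ₀ (Real.log (nm d)) + Sh (Real.log (nm d)) b v + 2 * Real.log (nm d) + b -
            2 * max 0 (b - Real.log E0) ≤ m) →
      (∀ d ∈ Ds, ∀ b v : ℝ, 0 ≤ b → 0 ≤ v → v ≤ Real.log (cc * V) - 2 * Real.log (nm d) →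
          φ₁ (Real.log (nm d)) + Sh (Real.log (nm d)) b v + 2 * Real.log (nm d) + b -
            2 * max 0 (b - Real.log E0) + (Real.log (cc * V) - v - 2 * Real.log (nm d)) / 3 ≤ m) →
      ∑ d ∈ Ds, ∑ e ∈ EE, LVn af {d} {e} cc Yg K (H d e) V V' E1 B G1 (RN d e) ≤
        C * X ^ ε * F * Real.exp (-(n / 3)) * Real.exp m +
          ∑ d ∈ Ds, ∑ e ∈ EE, FH K (H d e) V * RN d e := by
  obtain ⟨C, hC, G⟩ := TNjw hR hε hJ hB₂ hLφ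
  refine ⟨3 * C, by positivity, ?_⟩
  intro X hX n Y cc V E0 F Sh hY1 hYu hV hWX hE0 hF al hcl hadm Ds EE
    m φ₀ φ₁ af H RN Yg K V' E1 B G1 hφ₀ hφ₁ hDs hEE haf hK hH h₀ h₁ ha hb
  have hX0 : 0 < X := by linarith
  have k0 := (G X hX n Y (cc * V) E0 F Sh hY1 hYu hWX hE0 hF al hcl
    hadm Ds EE m φ₀ (fun d e => FH K (H d e) V * cLS K (H d e) V V' E1 B G1) hφ₀ hDs hEE h₀).1 ha
    (fun _ => 1) (JVc cc V) id zero_le_one le_rfl (fun _ => zero_le_one) (fun d hd j hj => by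
      obtain ⟨h1, h2⟩ := mem_filter.1 hj
      obtain ⟨h3, h4⟩ := (mem_JV (hDs d hd).1.ne_zero one_ne_zero).1 h1
      refine ⟨CF_of_JC h2, ?_⟩
      simpa using h4)
  have hG := fun Gs : Finset Eis => fun om : Eis → ℝ => fun h1 : (∀ γ, 0 ≤ om γ) =>
    fun h2 : (∀ γ ∈ Gs, IsPrim γ ∧ 0 ≤ om γ ∧ om γ ≤ (nm γ : ℝ) ^ (-(1 / 2) : ℝ)) =>
    (G X hX n Y (cc * V) E0 F Sh hY1 hYu hWX hE0 hF al hcl
    hadm Ds EE m φ₁ (fun d e => FH K (H d e) V * cTT K (H d e) V) hφ₁ hDs hEE h₁).2 hb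
    om Gs (JV cc V) (fun _ => 1) h1 h2 (fun d hd γ hγ j hj =>
      (mem_JV (hDs d hd).1.ne_zero (h2 γ hγ).1.ne_zero).1 hj)
  have hγ : ∀ γ ∈ primBall ⌊Yg⌋₊, IsPrim γ ∧ (1 : ℝ) ≤ nm γ := fun γ hγ => by
    obtain ⟨-, h2⟩ := mem_primBall.1 hγ
    exact ⟨h2, by exact_mod_cast nm_pos.2 h2.ne_zero⟩
  have k1 := hG (primBall ⌊Yg⌋₊) (fun γ => (nm γ : ℝ)⁻¹) (fun γ => by positivity) (fun γ h1 =>
    ⟨(hγ γ h1).1, by positivity, by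
      rw [← Real.rpow_neg_one]
      exact Real.rpow_le_rpow_of_exponent_le (hγ γ h1).2 (by norm_num)⟩)
  have k2 := hG (primBall ⌊Yg⌋₊) (fun γ => (nm γ : ℝ) ^ (-(1 / 2) : ℝ)) (fun γ => by positivity)
    (fun γ h1 => ⟨(hγ γ h1).1, by positivity, le_rfl⟩)
  have key : ∑ d ∈ Ds, ∑ e ∈ EE, LVn af {d} {e} cc Yg K (H d e) V V' E1 B G1 (RN d e) ≤
      ∑ d ∈ Ds, ∑ e ∈ EE, FH K (H d e) V * cLS K (H d e) V V' E1 B G1 *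
        TN (fun d _ n => al (d * n)) (fun e => (nm e : ℝ)) {d} {e} (fun _ => 1) {1} (JVc cc V) id +
      ∑ d ∈ Ds, ∑ e ∈ EE, FH K (H d e) V * cTT K (H d e) V *
        TN (fun d _ n => al (d * n)) (fun e => (nm e : ℝ)) {d} {e}
        (fun γ => (nm γ : ℝ)⁻¹) (primBall ⌊Yg⌋₊) (JV cc V) (fun _ => 1) +
      ∑ d ∈ Ds, ∑ e ∈ EE, FH K (H d e) V * cTT K (H d e) V *
        TN (fun d _ n => al (d * n)) (fun e => (nm e : ℝ)) {d} {e}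
        (fun γ => (nm γ : ℝ) ^ (-(1 / 2) : ℝ)) (primBall ⌊Yg⌋₊) (JV cc V) (fun _ => 1) +
      ∑ d ∈ Ds, ∑ e ∈ EE, FH K (H d e) V * RN d e := by
    rw [← sum_add_distrib, ← sum_add_distrib, ← sum_add_distrib]
    refine sum_le_sum fun d hd => ?_
    rw [← sum_add_distrib, ← sum_add_distrib, ← sum_add_distrib]
    refine sum_le_sum fun e he => ?_
    exact LVn_le (haf d hd e he) hK.le (hH d e).le hV.le
  have e1 : 3 * C * X ^ ε * F * Real.exp (-(n / 3)) * Real.exp m =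
      C * X ^ ε * F * Real.exp (-(n / 3)) * Real.exp m +
      C * X ^ ε * F * Real.exp (-(n / 3)) * Real.exp m +
      C * X ^ ε * F * Real.exp (-(n / 3)) * Real.exp m := by ring
  rw [e1]
  refine key.trans ?_
  gcongr

/-- **the T-part of `Σ (N e)⁻¹ LVn`** -/
theorem LVTbJ {R : ℝ} (hR : 0 ≤ R) {ε J B₂ : ℝ} (hε : 0 < ε) (hJ : 0 ≤ J) (hB₂ : 0 < B₂)
    {Lφ : ℝ} (hLφ : 0 ≤ Lφ) :
    ∃ C : ℝ, 0 ≤ C ∧ ∀ X : ℝ, 3 ≤ X →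
      ∀ (n Y cc V E0 F : ℝ) (Sh : ℝ → ℝ → ℝ → ℝ), 1 ≤ Y → Y ≤ X ^ B₂ → 0 < V → cc * V ≤ X ^ B₂ →
      0 < E0 → E0 ≤ X ^ B₂ → 0 ≤ F → ∀ al : Eis → ℂ, JBc Y (cc * V) F J Sh al →
      Adm Y (Real.exp n) R al → ∀ (Ds EE : Finset Eis) (m : ℝ) (φ₀ φ₁ : ℝ → ℝ)
        (af : Eis → Eis → Eis → ℂ) (H RN : Eis → Eis → ℝ) (Yg K V' E1 B G1 : ℝ),
      (∀ x y, φ₀ x ≤ φ₀ y + Lφ * |x - y|) → (∀ x y, φ₁ x ≤ φ₁ y + Lφ * |x - y|) →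
      (∀ d ∈ Ds, IsPrim d ∧ (nm d : ℝ) ≤ X ^ B₂) → (∀ e ∈ EE, e ∈ S E0) →
      (∀ d ∈ Ds, ∀ e ∈ EE, af d e = fun n => al (d * n)) → 0 < K → (∀ d e, 0 < H d e) →
      (∀ d ∈ Ds, ∀ e ∈ EE, 0 ≤ cLS K (H d e) V V' E1 B G1) →
      (∀ d ∈ Ds, ∀ e ∈ EE, FH K (H d e) V * cLS K (H d e) V V' E1 B G1 ≤
        Real.exp (φ₀ (Real.log (nm d)))) →
      (∀ d ∈ Ds, ∀ e ∈ EE, FH K (H d e) V * cTT K (H d e) V ≤
        Real.exp (φ₁ (Real.log (nm d)))) →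
      (∀ d ∈ Ds, ∀ b v : ℝ, 0 ≤ b → 0 ≤ v → v ≤ Real.log (cc * V) - 2 * Real.log (nm d) →
          φ₀ (Real.log (nm d)) + Sh (Real.log (nm d)) b v + 2 * Real.log (nm d) -
            max 0 (b - Real.log E0) ≤ m) →
      (∀ d ∈ Ds, ∀ b v : ℝ, 0 ≤ b → 0 ≤ v → v ≤ Real.log (cc * V) - 2 * Real.log (nm d) →
          φ₁ (Real.log (nm d)) + Sh (Real.log (nm d)) b v + 2 * Real.log (nm d) -
            max 0 (b - Real.log E0) + (Real.log (cc * V) - v - 2 * Real.log (nm d)) / 3 ≤ m) →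
      ∑ d ∈ Ds, ∑ e ∈ EE, (nm e : ℝ)⁻¹ *
          LVn af {d} {e} cc Yg K (H d e) V V' E1 B G1 (RN d e) ≤
        C * X ^ ε * F * Real.exp (-(n / 3)) * Real.exp m +
          ∑ d ∈ Ds, ∑ e ∈ EE, (nm e : ℝ)⁻¹ * (FH K (H d e) V * RN d e) := by
  obtain ⟨C, hC, G⟩ := TNj1 hR hε hJ hB₂ hLφ
  refine ⟨3 * C, by positivity, ?_⟩
  intro X hX n Y cc V E0 F Sh hY1 hYu hV hWX hE0 hE0X hF al hcl hadm
    Ds EE m φ₀ φ₁ af H RN Yg K V' E1 B G1 hφ₀ hφ₁ hDs hEE haf hK hH hc0 h₀ h₁ ha hb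
  have hX0 : 0 < X := by linarith
  have hFH : ∀ d e, 0 ≤ FH K (H d e) V := fun d e => FH_nonneg hK.le (hH d e).le hV.le
  have hcT : ∀ d e, 0 ≤ cTT K (H d e) V := fun d e => by
    have h0 := hH d e
    have hq : 0 ≤ H d e ^ 2 * V ^ 3 / K ^ 2 := by positivity
    have ht : 0 ≤ (H d e ^ 2 * V ^ 3 / K ^ 2) ^ (1 / 3 : ℝ) := Real.rpow_nonneg hq _
    have ht' : 0 ≤ (H d e ^ 2 * V ^ 3 / K ^ 2) ^ (1 / 2 : ℝ) := Real.rpow_nonneg hq _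
    unfold E3N146.cTT
    linarith
  have k0 := (G X hX n Y (cc * V) E0 F Sh hY1 hYu hWX hE0 hE0X hF al
    hcl hadm Ds EE m φ₀ (fun d e => FH K (H d e) V * cLS K (H d e) V V' E1 B G1) hφ₀ hDs hEE
    (fun d hd e he => mul_nonneg (hFH d e) (hc0 d hd e he)) h₀).1 ha
    (fun _ => 1) (JVc cc V) id zero_le_one le_rfl (fun _ => zero_le_one) (fun d hd j hj => by
      obtain ⟨h1, h2⟩ := mem_filter.1 hj
      obtain ⟨h3, h4⟩ := (mem_JV (hDs d hd).1.ne_zero one_ne_zero).1 h1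
      refine ⟨CF_of_JC h2, ?_⟩
      simpa using h4)
  have hG := fun Gs : Finset Eis => fun om : Eis → ℝ => fun h1 : (∀ γ, 0 ≤ om γ) =>
    fun h2 : (∀ γ ∈ Gs, IsPrim γ ∧ 0 ≤ om γ ∧ om γ ≤ (nm γ : ℝ) ^ (-(1 / 2) : ℝ)) =>
    (G X hX n Y (cc * V) E0 F Sh hY1 hYu hWX hE0 hE0X hF al hcl
    hadm Ds EE m φ₁ (fun d e => FH K (H d e) V * cTT K (H d e) V) hφ₁ hDs hEE
    (fun d _ e _ => mul_nonneg (hFH d e) (hcT d e)) h₁).2 hb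
    om Gs (JV cc V) (fun _ => 1) h1 h2 (fun d hd γ hγ j hj =>
      (mem_JV (hDs d hd).1.ne_zero (h2 γ hγ).1.ne_zero).1 hj)
  have hγ : ∀ γ ∈ primBall ⌊Yg⌋₊, IsPrim γ ∧ (1 : ℝ) ≤ nm γ := fun γ hγ => by
    obtain ⟨-, h2⟩ := mem_primBall.1 hγ
    exact ⟨h2, by exact_mod_cast nm_pos.2 h2.ne_zero⟩
  have k1 := hG (primBall ⌊Yg⌋₊) (fun γ => (nm γ : ℝ)⁻¹) (fun γ => by positivity) (fun γ h1 =>
    ⟨(hγ γ h1).1, by positivity, by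
      rw [← Real.rpow_neg_one]
      exact Real.rpow_le_rpow_of_exponent_le (hγ γ h1).2 (by norm_num)⟩)
  have k2 := hG (primBall ⌊Yg⌋₊) (fun γ => (nm γ : ℝ) ^ (-(1 / 2) : ℝ)) (fun γ => by positivity)
    (fun γ h1 => ⟨(hγ γ h1).1, by positivity, le_rfl⟩)
  have key : ∑ d ∈ Ds, ∑ e ∈ EE, (nm e : ℝ)⁻¹ *
        LVn af {d} {e} cc Yg K (H d e) V V' E1 B G1 (RN d e) ≤
      ∑ d ∈ Ds, ∑ e ∈ EE, (nm e : ℝ)⁻¹ * (FH K (H d e) V * cLS K (H d e) V V' E1 B G1 *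
        TN (fun d _ n => al (d * n)) (fun e => (nm e : ℝ)) {d} {e} (fun _ => 1) {1} (JVc cc V)
          id) +
      ∑ d ∈ Ds, ∑ e ∈ EE, (nm e : ℝ)⁻¹ * (FH K (H d e) V * cTT K (H d e) V *
        TN (fun d _ n => al (d * n)) (fun e => (nm e : ℝ)) {d} {e}
        (fun γ => (nm γ : ℝ)⁻¹) (primBall ⌊Yg⌋₊) (JV cc V) (fun _ => 1)) +
      ∑ d ∈ Ds, ∑ e ∈ EE, (nm e : ℝ)⁻¹ * (FH K (H d e) V * cTT K (H d e) V *
        TN (fun d _ n => al (d * n)) (fun e => (nm e : ℝ)) {d} {e}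
        (fun γ => (nm γ : ℝ) ^ (-(1 / 2) : ℝ)) (primBall ⌊Yg⌋₊) (JV cc V) (fun _ => 1)) +
      ∑ d ∈ Ds, ∑ e ∈ EE, (nm e : ℝ)⁻¹ * (FH K (H d e) V * RN d e) := by
    rw [← sum_add_distrib, ← sum_add_distrib, ← sum_add_distrib]
    refine sum_le_sum fun d hd => ?_
    rw [← sum_add_distrib, ← sum_add_distrib, ← sum_add_distrib]
    refine sum_le_sum fun e he => ?_
    rw [← mul_add, ← mul_add, ← mul_add]
    exact mul_le_mul_of_nonneg_left (LVn_le (haf d hd e he) hK.le (hH d e).le hV.le)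
      (by positivity)
  have e1 : 3 * C * X ^ ε * F * Real.exp (-(n / 3)) * Real.exp m =
      C * X ^ ε * F * Real.exp (-(n / 3)) * Real.exp m +
      C * X ^ ε * F * Real.exp (-(n / 3)) * Real.exp m +
      C * X ^ ε * F * Real.exp (-(n / 3)) * Real.exp m := by ring
  rw [e1]
  refine key.trans ?_
  gcongr

end Crest.Agent.R017.E3Nx744
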