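import Crest.Agent.R017.FNEh_708

/-!
# Row 17, R8 / P1: the inputs `FB`, `CB` of helper146's `p10_of` for every kernel (helper708)

* `FBg`, `CBg`     : helper146's `FB`, `CB` for a family of functionals `S lam q l ps`
* `fb_G`, `cb_G`   : from `FE2G`, any functional `Φ`
* `fb_N`, `cb_N`   : class N, `FB` / `CB` of helper146 unfolded
* `fb_K`, `cb_K`   : kernel `Dk` (class E)
-/

set_option autoImplicit false
set_option linter.unusedSectionVars false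

noncomputable section

open Set

namespace Crest.Agent.R017.TK708

open Crest.Agent.R012 Crest.Agent.R012.Eis
open Crest.Agent.R017.FE47 (PU)
open Crest.Agent.R017.CM106
open Crest.Agent.R017.XG702 (Pcs BG)
open Crest.Agent.R017.Prov71
open Crest.Agent.R017.B770
open Crest.Agent.R017.ER911
open Crest.Agent.R017.TM708
open Crest.Agent.R017.I1146 (ChN LN cN SN FlatO FlatL Tail)
open Crest.Agent.R017.XS0298 (S0K)
open Crest.Agent.R017.PX764 (Dk)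
open Crest.Agent.R017.I1K764 (SNK FlatLK TailK)

variable {Λ : Type*} {π : Λ → DPar} {h : ℝ → ℝ} {d : ℝ} {Φ : Λ → ℝ → List Pq → ℝ}
  {Kf Tf : (Fin 5 → ℝ) → ℝ}

/-- `Sh5` of helper146 (`P10a_146`) -/
def sh5 (k5 x p γ b v : ℝ) : ℝ :=
  min (eF (k5 + b / 2) (v + b) (p - γ - b))
    (max ((v + b) + 4 / 3 * (p - γ - b)) (5 / 3 * (p - γ - b) + (v + b) / 3) + x)

/-- `CellS` for a functional -/
def CellG (S : Eis → ℝ → List Pq → ℝ) (q : Eis) (ps : List Pq) (G r M T E F : ℝ)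
    (Sh : ℝ → ℝ → ℝ → ℝ) : Prop :=
  ∀ g : Eis, IsPrim g → (nm g : ℝ) ≤ G → ∀ (b l : ℝ) (ps' : List Pq), 0 ≤ b → b ≤ E + r → 0 ≤ l →
    List.Forall₂ (ChN r) ps' ps → |LN ps' - (LN ps - Real.log (nm g) - b)| ≤ r →
    l ≤ T - 2 * Real.log (nm g) + b + r →
    S (q * g) l ps' ≤ F * cN ps' ps ^ M * Real.exp (Sh (Real.log (nm g)) b (l - b))

/-- `FB` of helper146 for a family of functionals -/
def FBg (S : Λ → Eis → ℝ → List Pq → ℝ) (Kf Tf : (Fin 5 → ℝ) → ℝ) (e1 : ℝ)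
    (D5 : Set (Fin 5 → ℝ)) (ℓ : (Fin 5 → ℝ) → ℝ) : Prop :=
  ∀ ε : ℝ, 0 < ε → ∃ τ : ℝ, 0 < τ ∧ ∀ (lam : Λ) (N : ℕ) (B : ℝ), ∃ M₀ : ℕ, ∀ r : ℝ, 0 ≤ r →
    ∃ X₀ : ℝ, 1 < X₀ ∧
      ∀ X : ℝ, X₀ ≤ X → ∀ b ∈ D5, ∀ (q : Eis) (us : Fin 3 → Pq) (gs : List Pq) (κ H : ℝ),
      PD X τ B H N b q us gs κ → ∀ T : ℝ, T ≤ (Tf b + τ) * Real.log X → ∀ θ : ℝ, 0 ≤ θ →
      T ≤ (Kf b - (b 1 + b 2 + b 3) / 2 - b 4 + 3 * θ + τ) * Real.log X → ∀ M : ℝ, (M₀ : ℝ) ≤ M →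
      (b 0 / 2 - 2 * b 4 - τ) * Real.log X ≤ LN ([us 0, us 1, us 2] ++ gs) →
      FlatLS (S lam) q ([us 0, us 1, us 2] ++ gs) (X ^ B) r M κ T
        (H ^ M₀ * X ^ (LK Kf b + θ + ℓ b + ε)) ∧
      ∀ T₀ E : ℝ, (e1 * b 0 - τ) * Real.log X ≤ E →
        2 * LN ([us 0, us 1, us 2] ++ gs) - κ ≤ T₀ + (3 * LK Kf b + τ) * Real.log X →
        TailS (S lam) q ([us 0, us 1, us 2] ++ gs) (X ^ B) r M κ T T₀ E
          (H ^ M₀ * X ^ (LK Kf b + θ + ℓ b + ε))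

/-- `CB` of helper146 for a family of functionals -/
def CBg (S : Λ → Eis → ℝ → List Pq → ℝ) (Kf Tf : (Fin 5 → ℝ) → ℝ) (D5 : Set (Fin 5 → ℝ))
    (ℓ : (Fin 5 → ℝ) → ℝ) : Prop :=
  ∀ ε : ℝ, 0 < ε → ∃ τ : ℝ, 0 < τ ∧ ∀ (lam : Λ) (N : ℕ) (B : ℝ), ∃ M₀ : ℕ, ∀ r : ℝ, 0 ≤ r →
    ∃ X₀ : ℝ, 1 < X₀ ∧
      ∀ X : ℝ, X₀ ≤ X → ∀ b ∈ D5, ∀ (q : Eis) (us : Fin 3 → Pq) (gs : List Pq) (κ H : ℝ),
      PD X τ B H N b q us gs κ → ∀ T : ℝ, T ≤ (Tf b + τ) * Real.log X →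
      T ≤ (Kf b - (b 1 + b 2 + b 3) / 2 - b 4 + τ) * Real.log X → ∀ M : ℝ, (M₀ : ℝ) ≤ M →
      (b 0 / 2 - 2 * b 4 - τ) * Real.log X ≤ LN ([us 0, us 1, us 2] ++ gs) →
      ∀ E k5 x : ℝ, E ≤ (1 / 20 * b 0 + τ) * Real.log X →
        |k5 - Kf b * Real.log X| ≤ τ * Real.log X → |x - b 4 * Real.log X| ≤ τ * Real.log X →
        CellG (S lam) q ([us 0, us 1, us 2] ++ gs) (X ^ B) r M T E
          (H ^ M₀ * X ^ (ℓ b + ε)) (sh5 k5 x (LN ([us 0, us 1, us 2] ++ gs)))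

/-! ### the real inequality -/

/-- one lump on the frequency side, the smallest one -/
lemma tCT_le_H {v a b c w : ℝ} (hca : c ≤ a) (hcb : c ≤ b) (hc : 0 ≤ c) (hw : 0 ≤ w) :
    tCT v a b c w ≤ max (v + 4 / 3 * (a + b + c + w)) (5 / 3 * (a + b + c + w) + v / 3) + w := by
  unfold tCT
  rw [gv_eq]
  have h1 := le_max_left (v + 4 / 3 * (a + b + c + w)) (5 / 3 * (a + b + c + w) + v / 3)
  have h2 := le_max_right (v + 4 / 3 * (a + b + c + w)) (5 / 3 * (a + b + c + w) + v / 3)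
  rcases max_cases (v + (c + w) + (a + b)) (a + b + (2 * (a + b) + (v + (c + w))) / 3) with
    ⟨h, -⟩ | ⟨h, -⟩ <;> rw [h] <;> linarith

lemma tAll_le_H {d v z₁ z₂ z₃ w : ℝ} (h1 : 0 ≤ z₁) (h2 : 0 ≤ z₂) (h3 : 0 ≤ z₃) (hw : 0 ≤ w) :
    tAll d v z₁ z₂ z₃ w ≤
      max (v + 4 / 3 * (z₁ + z₂ + z₃ + w)) (5 / 3 * (z₁ + z₂ + z₃ + w) + v / 3) + w := by
  have key := tAll_le_CT3 d v z₁ z₂ z₃ w
  unfold tCT3 at key
  rcases le_total z₃ z₁ with a1 | a1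
  · rcases le_total z₃ z₂ with a2 | a2
    · exact (key.trans (min_le_left _ _)).trans (tCT_le_H a1 a2 h3 hw)
    · refine (key.trans ((min_le_right _ _).trans (min_le_right _ _))).trans ?_
      have := tCT_le_H (v := v) (a := z₃) (b := z₁) (c := z₂) a2 (a2.trans a1) h2 hw
      rw [show z₃ + z₁ + z₂ + w = z₁ + z₂ + z₃ + w by ring] at this
      exact this
  · rcases le_total z₁ z₂ with a2 | a2
    · refine (key.trans ((min_le_right _ _).trans (min_le_left _ _))).trans ?_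
      have := tCT_le_H (v := v) (a := z₂) (b := z₃) (c := z₁) a2 a1 h1 hw
      rw [show z₂ + z₃ + z₁ + w = z₁ + z₂ + z₃ + w by ring] at this
      exact this
    · refine (key.trans ((min_le_right _ _).trans (min_le_right _ _))).trans ?_
      have := tCT_le_H (v := v) (a := z₃) (b := z₁) (c := z₂) (a2.trans a1) a2 h2 hw
      rw [show z₃ + z₁ + z₂ + w = z₁ + z₂ + z₃ + w by ring] at this
      exact this

/-- the cell -/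
lemma sh5_cell {k K K₁ k5 x x₀ p γ β l m n t d z₁ z₂ z₃ w T : ℝ} (ht : 0 ≤ t)
    (hK₁ : K₁ ≤ K + β / 2 + 30 * t) (hβ0 : 0 ≤ β) (hkK : k ≤ K) (hk5 : |k5 - K| ≤ t) (hx : |x - x₀| ≤ t) (hx1 : 36 * x₀ ≤ k) (hγ : 0 ≤ γ)
    (hβ : β ≤ k / 20 + 2 * t) (hT : T ≤ 23 / 36 * k + t)
    (hl : l ≤ T - 2 * γ + β + t) (hp : k / 2 - 2 * x₀ - t ≤ p) (hm : m = p - γ - β)
    (hn2 : n ≤ m + t) (h1 : 0 ≤ z₁) (h2 : 0 ≤ z₂) (h3 : 0 ≤ z₃) (hw : 0 ≤ w)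
    (hwx : w ≤ x₀ + 4 * t) (hs : z₁ + z₂ + z₃ + w = n) :
    min (eH K₁ l n) (tAll d l z₁ z₂ z₃ w) ≤
      min (eF (k5 + β / 2) l m) (max (l + 4 / 3 * m) (5 / 3 * m + l / 3) + x) + 20 * t := by
  obtain ⟨a1, a2⟩ := abs_le.1 hk5
  obtain ⟨a3, a4⟩ := abs_le.1 hx
  rw [min_add]
  refine le_min ((min_le_left _ _).trans ?_) ((min_le_right _ _).trans ?_)
  · unfold eH eF
    have b1 := le_max_left (2 * m) (4 / 3 * m + (max (k5 + β / 2) (3 / 2 * l) + l) / 3)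
    have b2 := le_max_right (2 * m) (4 / 3 * m + (max (k5 + β / 2) (3 / 2 * l) + l) / 3)
    have b3 := le_max_left (k5 + β / 2) (3 / 2 * l)
    have b4 := le_max_right (k5 + β / 2) (3 / 2 * l)
    refine max_le (max_le (by linarith) ?_) ?_
    · rcases max_cases K₁ (3 / 2 * l) with ⟨h, -⟩ | ⟨h, -⟩ <;> rw [h] <;> linarith
    · linarith
  · have h4 := tAll_le_H (d := d) (v := l) h1 h2 h3 hw
    rw [hs] at h4
    refine h4.trans ?_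
    have b1 := le_max_left (l + 4 / 3 * m) (5 / 3 * m + l / 3)
    have b2 := le_max_right (l + 4 / 3 * m) (5 / 3 * m + l / 3)
    rcases max_cases (l + 4 / 3 * n) (5 / 3 * n + l / 3) with ⟨h, -⟩ | ⟨h, -⟩ <;> rw [h] <;>
      linarith

/-! ### the bindings -/

/-- **`FB` for any functional** : `1/64 ≤ e1` -/
theorem fb_G (hW : Wd Φ) (hd : 0 ≤ d) (hd1 : d ≤ 1 / 40) (hA : AllT d (ex Dq Φ))
    (hKf : Continuous Kf) (hTf : Continuous Tf)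
    {D5 : Set (Fin 5 → ℝ)} (hD : IsCompact D5) (hR : ∀ b ∈ D5, RG5 Kf Tf b)
    {ℓ : (Fin 5 → ℝ) → ℝ} (hℓ : Continuous ℓ) (hℓ0 : ∀ b ∈ D5, 0 ≤ ℓ b)
    (hFE : FE2G (ex Dq Φ) D5 Kf Tf ℓ) {e1 : ℝ} (he1 : 1 / 64 ≤ e1) :
    FBg (tq Φ) Kf Tf e1 D5 ℓ := by
  intro ε hε
  obtain ⟨τ, hτ, G⟩ := flat_bundleG hW hd hd1 hA hKf hTf hD hR hℓ hℓ0 hFE hε
  refine ⟨τ, hτ, fun lam N B => ?_⟩
  obtain ⟨M₀, G1⟩ := G lam N B
  refine ⟨M₀, fun r hr => ?_⟩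
  obtain ⟨X₀, hX₀, G2⟩ := G1 r hr
  refine ⟨X₀, hX₀, fun X hX b hb q us gs κ H hPD T hT θ hθ hTθ M hM hmin => ?_⟩
  have hX1 : 1 < X := by linarith
  have hL : 0 < Real.log X := Real.log_pos hX1
  have key := G2 X hX b hb q us gs κ H hPD T hT θ hθ hTθ M hM hmin
  refine ⟨key.flat, fun T₀ E hE hT₀ => key.tail T₀ E ?_ ?_⟩
  · have h1 := mul_le_mul_of_nonneg_right he1 (mul_nonneg (hR b hb).k0 hL.le)
    linarith
  · linarith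

/-- **`CB` for any functional** -/
theorem cb_G (hW : Wd Φ) (hA : AllT d (ex Dq Φ))
    (hKf : Continuous Kf) (hTf : Continuous Tf)
    {D5 : Set (Fin 5 → ℝ)} (hD : IsCompact D5) (hR : ∀ b ∈ D5, RG5 Kf Tf b)
    {ℓ : (Fin 5 → ℝ) → ℝ} (hℓ : Continuous ℓ) (hℓ0 : ∀ b ∈ D5, 0 ≤ ℓ b)
    (hFE : FE2G (ex Dq Φ) D5 Kf Tf ℓ) : CBg (tq Φ) Kf Tf D5 ℓ := by
  intro ε hε
  obtain ⟨τ, hτ, hτε, G⟩ := cell_leG hW hA hKf hTf hD hℓ hℓ0 hFE hε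
  refine ⟨τ, hτ, fun lam N B => ?_⟩
  obtain ⟨M₀, G'⟩ := G lam N B
  refine ⟨M₀, fun r hr => ?_⟩
  obtain ⟨X₀, hX₀, G1⟩ := G' r hr
  refine ⟨X₀, hX₀, ?_⟩
  intro X hX b hb q us gs κ H hPD T hT hTN M hM hmin E k5 x hE hk5 hx g hg hgB β l ps' hβ hβE hl
    hch hn hlev
  obtain ⟨hNrL, G2⟩ := G1 X hX
  replace G2 := G2 b hb q us gs κ H hPD T hT M hM g hg hgB 0 β l ps' le_rfl
  have hX1 : 1 < X := by linarith
  have hX0 : 0 < X := by linarith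
  set L := Real.log X with hLd
  have hL : 0 < L := Real.log_pos hX1
  have hN0 : (0 : ℝ) ≤ N := Nat.cast_nonneg N
  have hrL : r ≤ τ * L := by nlinarith
  have hRb := hR b hb
  have hx0L := mul_nonneg hL.le hRb.x0
  have hk0L := mul_nonneg hL.le hRb.k0
  have hx1L := mul_le_mul_of_nonneg_left hRb.x1 hL.le
  have hkKL := mul_le_mul_of_nonneg_left hRb.kK hL.le
  have hT1L := mul_le_mul_of_nonneg_left hRb.T1 hL.le
  have hγ0 : 0 ≤ Real.log (nm g : ℝ) :=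
    Real.log_nonneg (by exact_mod_cast nm_pos.2 hg.ne_zero)
  set ps := [us 0, us 1, us 2] ++ gs with hps
  set t := τ * L with ht
  have ht0 : 0 ≤ t := by positivity
  obtain ⟨hn1, hn2⟩ := abs_le.1 hn
  have hT' : T ≤ L * Tf b + t := by rw [ht]; linarith
  have hTN' : T + L * (b 1 + b 2 + b 3) / 2 + L * b 4 ≤ L * Kf b + t := by
    have e : (Kf b - (b 1 + b 2 + b 3) / 2 - b 4 + τ) * L =
      L * Kf b - L * (b 1 + b 2 + b 3) / 2 - L * b 4 + t := by rw [ht]; ring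
    rw [e] at hTN
    linarith
  have e5 : Kf b * L = L * Kf b := mul_comm _ _
  have e6 : b 4 * L = L * b 4 := mul_comm _ _
  rw [e5] at hk5
  rw [e6] at hx
  have hE' : E ≤ L * b 0 / 20 + t := by rw [ht]; linarith
  have hmin' : L * b 0 / 2 - 2 * (L * b 4) - t ≤ LN ps := by
    have e : (b 0 / 2 - 2 * b 4 - τ) * L = L * b 0 / 2 - 2 * (L * b 4) - t := by rw [ht]; ring
    linarith
  have key := G2 (by linarith) (by linarith) hβ hl hch hn (by linarith)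
    (sh5 k5 x (LN ps) (Real.log (nm g)) β (l - β) - L * LK Kf b) (by
      intro z₁ z₂ z₃ w h1 h2 h3 hw hwx hsum hnx _ _ _
      have h4 := kW_cell (K' := L * Kf b) (κ := L * Kf b) (L := 0) (T := T)
        (γ := Real.log (nm g)) (b := β) (c := 0) (l := l) (n := LN ps') (w := w) (x := L * b 4)
        (N := L * (b 1 + b 2 + b 3)) (t := 5 * t) (by positivity) (by linarith) hβ (by linarith)
        hγ0 le_rfl (by linarith) (by linarith) (by linarith) (by linarith)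
      unfold eW
      have h5 := sh5_cell (k := L * b 0) (K := L * Kf b) (k5 := k5) (x := x) (x₀ := L * b 4)
        (p := LN ps) (γ := Real.log (nm g)) (β := β) (l := l)
        (m := LN ps - Real.log (nm g) - β) (n := LN ps') (t := t) (d := d) (z₁ := z₁)
        (z₂ := z₂) (z₃ := z₃) (w := w) (T := T) ht0 (h4.trans (by linarith)) hβ hkKL hk5 hx
        (by linarith) hγ0
        (by linarith) (by linarith) (by linarith) hmin' rfl (by linarith) h1 h2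
        h3 hw hwx hsum
      unfold sh5
      have e0 : l - β + β = l := by ring
      rw [e0]
      linarith)
  refine key.trans (le_of_eq ?_)
  have e1 : X ^ (LK Kf b + ℓ b + ε) = X ^ (ℓ b + ε) * Real.exp (L * LK Kf b) := by
    rw [rpow_exp hX1, rpow_exp hX1, ← Real.exp_add]
    congr 1
    ring
  have e2 : Real.exp (sh5 k5 x (LN ps) (Real.log (nm g)) β (l - β) - L * LK Kf b) *
      Real.exp (L * LK Kf b) = Real.exp (sh5 k5 x (LN ps) (Real.log (nm g)) β (l - β)) := by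
    rw [← Real.exp_add]
    congr 1
    ring
  rw [e1, ← e2]
  ring

/-- comparison -/
lemma FBg.mono {S S' : Λ → Eis → ℝ → List Pq → ℝ} {e1 : ℝ} {D5 : Set (Fin 5 → ℝ)}
    {ℓ : (Fin 5 → ℝ) → ℝ} (H : FBg S Kf Tf e1 D5 ℓ)
    (h : ∀ lam q, q ≠ 0 → ∀ l ps, S' lam q l ps ≤ S lam q l ps) : FBg S' Kf Tf e1 D5 ℓ := by
  intro ε hε
  obtain ⟨τ, hτ, G⟩ := H ε hε
  refine ⟨τ, hτ, fun lam N B => ?_⟩
  obtain ⟨M₀, G1⟩ := G lam N B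
  refine ⟨M₀, fun r hr => ?_⟩
  obtain ⟨X₀, hX₀, G2⟩ := G1 r hr
  refine ⟨X₀, hX₀, fun X hX b hb q us gs κ H hPD T hT θ hθ hTθ M hM hmin => ?_⟩
  obtain ⟨g1, g2⟩ := G2 X hX b hb q us gs κ H hPD T hT θ hθ hTθ M hM hmin
  refine ⟨fun g hg h1 b l ps' h2 h3 h4 h5 h6 => (h lam _ (mul_ne_zero hPD.q0 hg.ne_zero) l
    ps').trans (g1 g hg h1 b l ps' h2 h3 h4 h5 h6), fun T₀ E hE hT₀ g hg h1 b l ps' h2 h3 h4 h5
    h6 h7 => (h lam _ (mul_ne_zero hPD.q0 hg.ne_zero) l ps').trans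
      (g2 T₀ E hE hT₀ g hg h1 b l ps' h2 h3 h4 h5 h6 h7)⟩

/-- comparison -/
lemma CBg.mono {S S' : Λ → Eis → ℝ → List Pq → ℝ} {D5 : Set (Fin 5 → ℝ)}
    {ℓ : (Fin 5 → ℝ) → ℝ} (H : CBg S Kf Tf D5 ℓ)
    (h : ∀ lam q, q ≠ 0 → ∀ l ps, S' lam q l ps ≤ S lam q l ps) : CBg S' Kf Tf D5 ℓ := by
  intro ε hε
  obtain ⟨τ, hτ, G⟩ := H ε hε
  refine ⟨τ, hτ, fun lam N B => ?_⟩
  obtain ⟨M₀, G1⟩ := G lam N B
  refine ⟨M₀, fun r hr => ?_⟩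
  obtain ⟨X₀, hX₀, G2⟩ := G1 r hr
  exact ⟨X₀, hX₀, fun X hX b hb q us gs κ H hPD T hT hTN M hM hmin E k5 x hE hk5 hx g hg h1 b' l
    ps' h2 h3 h4 h5 h6 h7 => (h lam _ (mul_ne_zero hPD.q0 hg.ne_zero) l ps').trans
    (G2 X hX b hb q us gs κ H hPD T hT hTN M hM hmin E k5 x hE hk5 hx g hg h1 b' l ps' h2 h3 h4 h5
      h6 h7)⟩

/-- **class N** : `FB` of helper146 -/
theorem fb_N {c₀ : ℝ} (hpu : PU h c₀) (hP : ∀ lam, (π lam).OK) {rr : EF}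
    (R : ExpRules (7 / 8 + d) rr (ex Dq fun lam => Sp (π lam) h)) (hd : 0 ≤ d) (hd1 : d ≤ 1 / 40)
    {D5 : Set (Fin 5 → ℝ)} (hD : IsCompact D5) (hR : ∀ b ∈ D5, R5 b)
    {ℓ : (Fin 5 → ℝ) → ℝ} (hℓ : Continuous ℓ) (hℓ0 : ∀ b ∈ D5, 0 ≤ ℓ b)
    (hFE : FE2L (ex Dq fun lam => S0p (π lam) h) D5 ℓ) {e1 : ℝ} (he1 : 1 / 64 ≤ e1) :
    FBg (fun lam q l ps => SN q (π lam) h l ps) K5 T5 e1 D5 ℓ :=
  (fb_G (wd_N hpu hP) hd hd1 (allT_N hpu hP R hd (by linarith)) K5_cont T5_cont hD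
    (fun b hb => R5.toG (hR b hb)) hℓ hℓ0 hFE he1).mono fun lam q hq l ps => (tq_N hq lam l ps).ge

/-- **class N** : `CB` of helper146 -/
theorem cb_N {c₀ : ℝ} (hpu : PU h c₀) (hP : ∀ lam, (π lam).OK) {rr : EF}
    (R : ExpRules (7 / 8 + d) rr (ex Dq fun lam => Sp (π lam) h)) (hd : 0 ≤ d) (hd1 : d ≤ 1 / 8)
    {D5 : Set (Fin 5 → ℝ)} (hD : IsCompact D5) (hR : ∀ b ∈ D5, R5 b)
    {ℓ : (Fin 5 → ℝ) → ℝ} (hℓ : Continuous ℓ) (hℓ0 : ∀ b ∈ D5, 0 ≤ ℓ b)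
    (hFE : FE2L (ex Dq fun lam => S0p (π lam) h) D5 ℓ) :
    CBg (fun lam q l ps => SN q (π lam) h l ps) K5 T5 D5 ℓ :=
  (cb_G (wd_N hpu hP) (allT_N hpu hP R hd hd1) K5_cont T5_cont hD
    (fun b hb => R5.toG (hR b hb)) hℓ hℓ0 hFE).mono fun lam q hq l ps => (tq_N hq lam l ps).ge

/-- **class E** (kernel `Dk`, `π := red π`) : `FB` -/
theorem fb_K {c₀ : ℝ} (hpu : PU h c₀) (hP : ∀ lam, (π lam).OK) (hd : 0 ≤ d) (hd1 : d ≤ 1 / 40)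
    (hA : AllT d (ex Dq fun lam => S0K Dk (π lam) h)) (hKf : Continuous Kf) (hTf : Continuous Tf)
    {D5 : Set (Fin 5 → ℝ)} (hD : IsCompact D5) (hR : ∀ b ∈ D5, RG5 Kf Tf b)
    {ℓ : (Fin 5 → ℝ) → ℝ} (hℓ : Continuous ℓ) (hℓ0 : ∀ b ∈ D5, 0 ≤ ℓ b)
    (hFE : FE2G (ex Dq fun lam => S0K Dk (π lam) h) D5 Kf Tf ℓ) {e1 : ℝ} (he1 : 1 / 64 ≤ e1) :
    FBg (fun lam q l ps => SNK Dk q (π lam) h l ps) Kf Tf e1 D5 ℓ :=
  (fb_G (wd_E hpu hP) hd hd1 hA hKf hTf hD hR hℓ hℓ0 hFE he1).mono fun lam _ hq l ps =>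
    (tq_K Dk hq lam l ps).ge

/-- **class E** (kernel `Dk`, `π := red π`) : `CB` -/
theorem cb_K {c₀ : ℝ} (hpu : PU h c₀) (hP : ∀ lam, (π lam).OK)
    (hA : AllT d (ex Dq fun lam => S0K Dk (π lam) h)) (hKf : Continuous Kf) (hTf : Continuous Tf)
    {D5 : Set (Fin 5 → ℝ)} (hD : IsCompact D5) (hR : ∀ b ∈ D5, RG5 Kf Tf b)
    {ℓ : (Fin 5 → ℝ) → ℝ} (hℓ : Continuous ℓ) (hℓ0 : ∀ b ∈ D5, 0 ≤ ℓ b)
    (hFE : FE2G (ex Dq fun lam => S0K Dk (π lam) h) D5 Kf Tf ℓ) :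
    CBg (fun lam q l ps => SNK Dk q (π lam) h l ps) Kf Tf D5 ℓ :=
  (cb_G (wd_E hpu hP) hA hKf hTf hD hR hℓ hℓ0 hFE).mono fun lam _ hq l ps =>
    (tq_K Dk hq lam l ps).ge

end Crest.Agent.R017.TK708
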