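import Crest.Agent.R017.E3Nd_146
import Crest.Agent.R017.FNEj_708
import Crest.Agent.R017.E2Xb_764

/-!
# Row 17, exceptional class, E3 (helper744): the T-claims for all blocks of `e`, any kernel

* `thK`  : the loss of the own family;  `ShXT` : the T-numbers of a difference (helper146's `ShT`)
* `CBA`  : the T-claims for a kernel, all blocks (helper146's `cellT`)
* **`cba_G`**, **`cba_K`** : from helper708's `cell_leG`
-/

set_option autoImplicit false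
set_option linter.unusedSectionVars false

noncomputable section

open Set Finset

namespace Crest.Agent.R017.E3Nx744

open Crest.Agent.R012 Crest.Agent.R012.Eis
open Crest.Agent.R017.FE47 (PU cx)
open Crest.Agent.R017.CM106
open Crest.Agent.R017.Prov71
open Crest.Agent.R017.B770
open Crest.Agent.R017.ER911
open Crest.Agent.R017.HP842 (Pc pc)
open Crest.Agent.R017.I1146 (ChN LN cN SN CellS LipS)
open Crest.Agent.R017.TM708 (PD eF eH eW kW tAll R5)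
open Crest.Agent.R017.TK708 (AllT Wd FE2G tq LK CellG cell_leG tq_K wd_E)
open Crest.Agent.R017.XS0298 (S0K)
open Crest.Agent.R017.PX764 (Dk)
open Crest.Agent.R017.I1K764 (SNK CellK)
open Crest.Agent.R017.E3N146 (ShT lipS_ShT min_le_ShT)
open Crest.Agent.R017.P10X764 (shB lipS_shB s0X k5X clN)
open Crest.Agent.R017.P1X960 (BcX)

/-- the loss of the own family at the top level -/
def thK (Kf Tf : (Fin 5 → ℝ) → ℝ) (b : Fin 5 → ℝ) : ℝ :=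
  max 0 ((Tf b + (b 1 + b 2 + b 3) / 2 + b 4 - Kf b) / 3)

lemma thK_nonneg (Kf Tf : (Fin 5 → ℝ) → ℝ) (b : Fin 5 → ℝ) : 0 ≤ thK Kf Tf b := le_max_left _ _

lemma le_thK (Kf Tf : (Fin 5 → ℝ) → ℝ) (b : Fin 5 → ℝ) :
    Tf b ≤ Kf b - (b 1 + b 2 + b 3) / 2 - b 4 + 3 * thK Kf Tf b := by
  have h := le_max_right 0 ((Tf b + (b 1 + b 2 + b 3) / 2 + b 4 - Kf b) / 3)
  unfold thK
  linarith

/-- **the T-numbers of a difference**, all blocks -/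
def ShXT (a : BcX) (qs : List Pq) : ℝ → ℝ → ℝ → ℝ :=
  shB (s0X a) (LN (clN a qs)) (ShT (k5X a) a.1.z (a.2.1 2).z (LN (clN a qs)))

lemma lipS_ShXT (a : BcX) (qs : List Pq) : LipS 3 (ShXT a qs) := lipS_shB (lipS_ShT _ _ _ _)

variable {Λ : Type*}

/-- **the T-claims for a kernel**, all blocks of `e` (helper146's `cellT`) -/
def CBA (π : Λ → DPar) (h : ℝ → ℝ) (Kn : Eis → Eis → ℂ) (Kf Tf : (Fin 5 → ℝ) → ℝ)
    (D5 : Set (Fin 5 → ℝ)) (ℓ : (Fin 5 → ℝ) → ℝ) : Prop :=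
  ∀ ε : ℝ, 0 < ε → ∃ τ : ℝ, 0 < τ ∧ τ ≤ ε ∧ ∀ (lam : Λ) (N : ℕ) (B : ℝ),
    ∃ M₀ : ℕ, ∀ r : ℝ, 0 ≤ r → ∃ X₀ : ℝ, 1 < X₀ ∧ ∀ X : ℝ, X₀ ≤ X → ∀ b ∈ D5, ∀ (q : Eis)
      (us : Fin 3 → Pq) (gs : List Pq) (κ H : ℝ), PD X τ B H N b q us gs κ → ∀ T θ : ℝ, 0 ≤ θ →
      T ≤ (Tf b + τ) * Real.log X →
      T ≤ (Kf b - (b 1 + b 2 + b 3) / 2 - b 4 + 3 * θ + τ) * Real.log X →
      ∀ M : ℝ, (M₀ : ℝ) ≤ M → ∀ E k5 x um : ℝ, |k5 - Kf b * Real.log X| ≤ τ * Real.log X →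
      |x - b 4 * Real.log X| ≤ τ * Real.log X →
      min (us 0).z (min (us 1).z (us 2).z) ≤ um + τ * Real.log X →
      CellK Kn h (π lam) q ([us 0, us 1, us 2] ++ gs) (X ^ B) r M T E
        (H ^ M₀ * X ^ (θ + ℓ b + ε)) (ShT k5 x um (LN ([us 0, us 1, us 2] ++ gs)))

/-- the same for a functional -/
def CBAg (S : Λ → Eis → ℝ → List Pq → ℝ) (Kf Tf : (Fin 5 → ℝ) → ℝ)
    (D5 : Set (Fin 5 → ℝ)) (ℓ : (Fin 5 → ℝ) → ℝ) : Prop :=
  ∀ ε : ℝ, 0 < ε → ∃ τ : ℝ, 0 < τ ∧ τ ≤ ε ∧ ∀ (lam : Λ) (N : ℕ) (B : ℝ),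
    ∃ M₀ : ℕ, ∀ r : ℝ, 0 ≤ r → ∃ X₀ : ℝ, 1 < X₀ ∧ ∀ X : ℝ, X₀ ≤ X → ∀ b ∈ D5, ∀ (q : Eis)
      (us : Fin 3 → Pq) (gs : List Pq) (κ H : ℝ), PD X τ B H N b q us gs κ → ∀ T θ : ℝ, 0 ≤ θ →
      T ≤ (Tf b + τ) * Real.log X →
      T ≤ (Kf b - (b 1 + b 2 + b 3) / 2 - b 4 + 3 * θ + τ) * Real.log X →
      ∀ M : ℝ, (M₀ : ℝ) ≤ M → ∀ E k5 x um : ℝ, |k5 - Kf b * Real.log X| ≤ τ * Real.log X →
      |x - b 4 * Real.log X| ≤ τ * Real.log X →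
      min (us 0).z (min (us 1).z (us 2).z) ≤ um + τ * Real.log X →
      CellG (S lam) q ([us 0, us 1, us 2] ++ gs) (X ^ B) r M T E
        (H ^ M₀ * X ^ (θ + ℓ b + ε)) (ShT k5 x um (LN ([us 0, us 1, us 2] ++ gs)))

/-- **the T-claims for all blocks of `e`**, any functional -/
theorem cba_G {Φ : Λ → ℝ → List Pq → ℝ} {Kf Tf : (Fin 5 → ℝ) → ℝ} {d : ℝ} (hW : Wd Φ)
    (hA : AllT d (ex Dq Φ)) (hKf : Continuous Kf) (hTf : Continuous Tf)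
    {D5 : Set (Fin 5 → ℝ)} (hD : IsCompact D5) (hx0 : ∀ b ∈ D5, 0 ≤ b 4)
    {ℓ : (Fin 5 → ℝ) → ℝ} (hℓ : Continuous ℓ) (hℓ0 : ∀ b ∈ D5, 0 ≤ ℓ b)
    (hFE : FE2G (ex Dq Φ) D5 Kf Tf ℓ) : CBAg (tq Φ) Kf Tf D5 ℓ := by
  intro ε hε
  obtain ⟨τ, hτ, hτε, G⟩ := cell_leG hW hA hKf hTf hD hℓ hℓ0 hFE hε
  refine ⟨τ, hτ, hτε, fun lam N B => ?_⟩
  obtain ⟨M₀, G⟩ := G lam N B
  refine ⟨M₀, fun r hr => ?_⟩
  obtain ⟨X₀, hX₀, G⟩ := G r hr
  refine ⟨X₀, hX₀, ?_⟩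
  intro X hX b hb q us gs κ H hPD T θ hθ hT hT2 M hM E k5 x um hk5 hx hum
  obtain ⟨hNr, G⟩ := G X hX
  replace G := G b hb q us gs κ H hPD T hT M hM
  have hX1 : 1 < X := by linarith
  set L := Real.log X with hLd
  have hL : 0 < L := Real.log_pos hX1
  have hN0 : (0 : ℝ) ≤ N := Nat.cast_nonneg N
  have hrL : r ≤ τ * L := by nlinarith
  have hx0L := mul_nonneg hL.le (hx0 b hb)
  set ps := [us 0, us 1, us 2] ++ gs with hps
  set t := τ * L with ht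
  have ht0 : 0 ≤ t := by positivity
  obtain ⟨hk1, hk2⟩ := abs_le.1 hk5
  obtain ⟨hx1, hx2⟩ := abs_le.1 hx
  have hθL : 0 ≤ θ * L := by positivity
  have hT2' : T ≤ L * Kf b - (L * b 1 + L * b 2 + L * b 3) / 2 - L * b 4 + 3 * (θ * L) + t := by
    rw [ht]; linarith
  intro g hg hgB β l ps' hβ _ hl hch hn hlev
  have hγ : 0 ≤ Real.log (nm g : ℝ) := Real.log_nonneg (by exact_mod_cast nm_pos.2 hg.ne_zero)
  obtain ⟨hn1, hn2⟩ := abs_le.1 hn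
  have key := G g hg hgB 0 β l ps' le_rfl (by linarith) (by linarith) hβ hl hch hn (by linarith)
    (ShT k5 x um (LN ps) (Real.log (nm g)) β (l - β) + θ * L - L * LK Kf b) (by
      intro z₁ z₂ z₃ w h1 h2 h3 hw hwx hsum hnx u1 u2 u3
      have hu : min z₁ (min z₂ z₃) ≤ um + 2 * t := by
        have : min z₁ (min z₂ z₃) ≤ min (us 0).z (min (us 1).z (us 2).z) + r := by
          rw [← min_add_add_right, ← min_add_add_right]
          exact min_le_min u1 (min_le_min u2 u3)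
        linarith
      have h5 := min_le_ShT (K' := L * Kf b) (k5 := k5) (x := x) (um := um) (θ := θ * L) (d := d)
        (γ := Real.log (nm g)) (b := β) (l := l) (n := LN ps') (p := LN ps) (t := 2 * t)
        (z₁ := z₁) (z₂ := z₂) (z₃ := z₃) (w := w) (by linarith) hθL hβ (by linarith)
        (by linarith) (by linarith) h1 h2 h3 hw (by linarith) hsum hu
      unfold eW kW
      linarith)
  refine key.trans (le_of_eq ?_)
  have e1 : Real.exp (ShT k5 x um (LN ps) (Real.log (nm g)) β (l - β) + θ * L - L * LK Kf b) =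
      X ^ (θ - LK Kf b) * Real.exp (ShT k5 x um (LN ps) (Real.log (nm g)) β (l - β)) := by
    rw [Real.rpow_def_of_pos (by linarith), ← Real.exp_add]
    congr 1
    ring
  rw [e1]
  have e2 : X ^ (LK Kf b + ℓ b + ε) * X ^ (θ - LK Kf b) = X ^ (θ + ℓ b + ε) := by
    rw [← Real.rpow_add (by linarith)]
    congr 1
    ring
  rw [← e2]
  ring

/-- **the T-claims for all blocks of `e`**, class E (kernel `Dk`, `π := red π`) -/
theorem cba_K {π : Λ → DPar} {h : ℝ → ℝ} {c₀ : ℝ} (hpu : PU h c₀) (hP : ∀ lam, (π lam).OK)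
    {Kf Tf : (Fin 5 → ℝ) → ℝ} {d : ℝ}
    (hA : AllT d (ex Dq fun lam => S0K Dk (π lam) h)) (hKf : Continuous Kf) (hTf : Continuous Tf)
    {D5 : Set (Fin 5 → ℝ)} (hD : IsCompact D5) (hx0 : ∀ b ∈ D5, 0 ≤ b 4)
    {ℓ : (Fin 5 → ℝ) → ℝ} (hℓ : Continuous ℓ) (hℓ0 : ∀ b ∈ D5, 0 ≤ ℓ b)
    (hFE : FE2G (ex Dq fun lam => S0K Dk (π lam) h) D5 Kf Tf ℓ) : CBA π h Dk Kf Tf D5 ℓ := by
  intro ε hε
  obtain ⟨τ, hτ, hτε, G⟩ := cba_G (wd_E hpu hP) hA hKf hTf hD hx0 hℓ hℓ0 hFE ε hε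
  refine ⟨τ, hτ, hτε, fun lam N B => ?_⟩
  obtain ⟨M₀, G⟩ := G lam N B
  refine ⟨M₀, fun r hr => ?_⟩
  obtain ⟨X₀, hX₀, G⟩ := G r hr
  refine ⟨X₀, hX₀, ?_⟩
  intro X hX b hb q us gs κ H hPD T θ hθ hT hT2 M hM E k5 x um hk5 hx hum
  have key := G X hX b hb q us gs κ H hPD T θ hθ hT hT2 M hM E k5 x um hk5 hx hum
  intro g hg hgB β l ps' hβ hβE hl hch hn hlev
  exact (tq_K Dk (mul_ne_zero hPD.q0 hg.ne_zero) lam l ps').ge.trans
    (key g hg hgB β l ps' hβ hβE hl hch hn hlev)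

end Crest.Agent.R017.E3Nx744
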