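import Crest.Agent.R017.E3P_842

/-!
# Row 17, C70, leaf E3 (C), part 2 (helper842): the bound of the pair sum

* `TT_lf`    : the linear sum of a lifted sequence
* `ModeP`    : the mode sum of the pair `(a, b)`
* `PR1_le`, `PR_le`
-/

set_option autoImplicit false
set_option maxHeartbeats 400000

noncomputable section

open Complex MeasureTheory
open scoped ComplexConjugate Classical

namespace Crest.Agent.R017.E3P842

open Crest.Agent.R012 Crest.Agent.R012.Eis Crest.Agent.R012.MC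
open Crest.Agent.R012.LS2 (S mem_S)
open Crest.Agent.R012.Div277 (dvs mem_dvs isPrim_of_mem_dvs dvd_of_mem_dvs)
open Crest.Agent.R012.Mob705 (mu pdiv mem_pdiv mu_mul abs_mu_le_one PE sum_mu_coprime)
open Crest.Agent.R012.Weight600 (osc norm_osc osc_add_right pw pw_mul norm_pw)
open Crest.Agent.R017.PX764 (Gh Gh_mul)
open Crest.Agent.R017.CM106 (CS TG)
open Crest.Agent.R017.Dual2813 (S_of_dvd)
open Crest.Agent.R017.E1551 (nmpos jb jb_pos summable_wF CS_fin integrable_jb_mul integrable_jb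
  nm_ge_one)
open Crest.Agent.R017.BD829
open Gauss880 (syG)

/-! ### the linear sum of a lifted sequence -/

lemma lf_comp {c A : Eis} (hA : A ≠ 0) (hc : IsCoprime c A) (f : Eis → ℂ) (m : Eis) :
    lf A f (c * m) = lf A (fun m => f (c * m)) m := by
  unfold lf
  by_cases h : A ∣ m
  · obtain ⟨n, rfl⟩ := h
    rw [if_pos (Dvd.dvd.mul_left (dvd_mul_right A n) c), if_pos (dvd_mul_right A n),
      show c * (A * n) = A * (c * n) by ring, mul_div_cancel_left₀ _ hA,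
      mul_div_cancel_left₀ _ hA]
  · rw [if_neg (fun h' => h (IsCoprime.dvd_of_dvd_mul_left hc.symm h')), if_neg h]

theorem TT_lf {A D F H : Eis} (hA : IsPrim A) (hD : IsPrim D) (hF : IsPrim F)
    (hc : IsCoprime (D * F) A) {f ψ : Eis → ℂ} (hf : ∀ n, f n ≠ 0 → IsPrim n)
    (hψ : ∀ a b, IsPrim a → IsPrim b → ψ (a * b) = ψ a * ψ b) (t : ℝ) :
    TT (rs (lf A f) ψ D F) H t =
      ψ A * pw t (nm A) * Gh H A * TT (rs f ψ D F) (H * A) t := by
  unfold TT TG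
  have e1 : ∀ m, rs (lf A f) ψ D F m * pw t (nm m) * (G m * conj (sy H m)) =
      lf A (fun m => f (D * F * m)) m * (ψ m * pw t (nm m) * Gh H m) := by
    intro m
    unfold rs Gh
    rw [lf_comp hA.ne_zero hc]
    ring
  rw [tsum_congr e1, tsum_lf hA.ne_zero, ← tsum_mul_left]
  refine tsum_congr fun m => ?_
  unfold rs
  by_cases h : f (D * F * m) = 0
  · simp [h]
  · have hm : IsPrim m := IsPrim.of_mul_left (hf _ h) (hD.mul hF)
    have n1 := nmpos hA.ne_zero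
    have n2 := nmpos hm.ne_zero
    rw [hψ _ _ hA hm, Gh_mul hA hm, nm_mul]
    push_cast
    rw [pw_mul n1.ne' n2.ne']
    unfold Gh
    ring

lemma norm_TT_lf {A D F H : Eis} (hA : IsPrim A) (hD : IsPrim D) (hF : IsPrim F)
    (hc : IsCoprime (D * F) A) {f ψ : Eis → ℂ} (hf : ∀ n, f n ≠ 0 → IsPrim n)
    (hψ : ∀ a b, IsPrim a → IsPrim b → ψ (a * b) = ψ a * ψ b) (hψ1 : ∀ a, IsPrim a → ‖ψ a‖ = 1)
    (t : ℝ) : ‖TT (rs (lf A f) ψ D F) H t‖ ≤ ‖TT (rs f ψ D F) (H * A) t‖ := by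
  rw [TT_lf hA hD hF hc hf hψ, norm_mul, norm_mul, norm_mul, hψ1 A hA, norm_pw, one_mul, one_mul]
  exact mul_le_of_le_one_left (norm_nonneg _) (norm_Gh_le' hA)

/-! ### the product of two linear sums at two frequencies -/

/-- the mean of the product -/
def EP (A : ℝ) (u v : Eis → ℂ) (H H' : Eis) : ℝ :=
  ∫ t, jb A t * (‖TT u H t‖ * ‖TT v H' (-t)‖)

lemma EP_nonneg (A : ℝ) (u v : Eis → ℂ) (H H' : Eis) : 0 ≤ EP A u v H H' :=
  integral_nonneg fun t => mul_nonneg (jb_pos A t).le (by positivity)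

lemma integrable_EP {A : ℝ} (hA : 1 < A) {Y : ℝ} (hY : 0 ≤ Y) {u v : Eis → ℂ}
    (hu : ∀ n, u n ≠ 0 → n ∈ S Y) (hv : ∀ n, v n ≠ 0 → n ∈ S Y) (H H' : Eis) :
    Integrable fun t => jb A t * (‖TT u H t‖ * ‖TT v H' (-t)‖) := by
  refine integrable_jb_mul hA (((continuous_TT hu H).norm).mul
    (((continuous_TT hv H').comp continuous_neg).norm))
    (B := (∑ k ∈ S Y, ‖u k‖) * ∑ k ∈ S Y, ‖v k‖) fun t => ?_
  rw [abs_of_nonneg (by positivity)]
  exact mul_le_mul (norm_TT_le hY hu H t) (norm_TT_le hY hv H' (-t)) (norm_nonneg _)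
    (Finset.sum_nonneg fun _ _ => norm_nonneg _)

lemma EP_le {A : ℝ} (hA : 1 < A) {Y : ℝ} (hY : 0 ≤ Y) {u v : Eis → ℂ}
    (hu : ∀ n, u n ≠ 0 → n ∈ S Y) (hv : ∀ n, v n ≠ 0 → n ∈ S Y) (H H' : Eis) :
    EP A u v H H' ≤ (∫ t, jb A t) * ((∑ k ∈ S Y, ‖u k‖) * ∑ k ∈ S Y, ‖v k‖) := by
  unfold EP
  rw [← integral_mul_const]
  refine integral_mono (integrable_EP hA hY hu hv H H') ((integrable_jb hA).mul_const _)
    fun t => ?_
  refine mul_le_mul_of_nonneg_left ?_ (jb_pos A t).le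
  exact mul_le_mul (norm_TT_le hY hu H t) (norm_TT_le hY hv H' (-t)) (norm_nonneg _)
    (Finset.sum_nonneg fun _ _ => norm_nonneg _)

/-- Cauchy-Schwarz with a parameter -/
lemma EP_le_EQ {A : ℝ} (hA : 1 < A) {Y : ℝ} (hY : 0 ≤ Y) {u v : Eis → ℂ}
    (hu : ∀ n, u n ≠ 0 → n ∈ S Y) (hv : ∀ n, v n ≠ 0 → n ∈ S Y) (H H' : Eis) {ρ : ℝ} (hρ : 0 < ρ) :
    EP A u v H H' ≤ ρ / 2 * EQ A u H + 1 / (2 * ρ) * EQ A v H' := by
  have i1 : Integrable fun t => jb A t * ‖TT u H t‖ ^ 2 := integrable_EQ hA hY hu H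
  have i2 : Integrable fun t => jb A t * ‖TT v H' t‖ ^ 2 := integrable_EQ hA hY hv H'
  have i2' : Integrable fun t => jb A t * ‖TT v H' (-t)‖ ^ 2 := by
    have := i2.comp_neg
    refine this.congr (Filter.Eventually.of_forall fun t => ?_)
    beta_reduce
    rw [E1551.jb_neg]
  have e2 : EQ A v H' = ∫ t, jb A t * ‖TT v H' (-t)‖ ^ 2 := by
    unfold EQ
    rw [← integral_neg_eq_self (fun t => jb A t * ‖TT v H' t‖ ^ 2)]
    refine integral_congr_ae (Filter.Eventually.of_forall fun t => ?_)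
    beta_reduce
    rw [E1551.jb_neg]
  rw [e2]
  unfold EP EQ
  rw [← integral_const_mul, ← integral_const_mul, ← integral_add (i1.const_mul _)
    (i2'.const_mul _)]
  refine integral_mono (integrable_EP hA hY hu hv H H') ((i1.const_mul _).add (i2'.const_mul _))
    fun t => ?_
  beta_reduce
  have hj := (jb_pos A t).le
  have key : ‖TT u H t‖ * ‖TT v H' (-t)‖ ≤
      ρ / 2 * ‖TT u H t‖ ^ 2 + 1 / (2 * ρ) * ‖TT v H' (-t)‖ ^ 2 := by
    set a := ‖TT u H t‖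
    set b := ‖TT v H' (-t)‖
    have h1 : 0 ≤ (ρ * a - b) ^ 2 / (2 * ρ) := by positivity
    have h2 : (ρ * a - b) ^ 2 / (2 * ρ) = ρ / 2 * a ^ 2 + 1 / (2 * ρ) * b ^ 2 - a * b := by
      field_simp
      ring
    linarith
  calc jb A t * (‖TT u H t‖ * ‖TT v H' (-t)‖)
      ≤ jb A t * (ρ / 2 * ‖TT u H t‖ ^ 2 + 1 / (2 * ρ) * ‖TT v H' (-t)‖ ^ 2) :=
        mul_le_mul_of_nonneg_left key hj
    _ = _ := by ring

/-! ### the two sides of one pair -/

lemma two_side {c A A' n n' m m' e : Eis} (hAA : IsCoprime A A') (h1 : c * m = A * n)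
    (h2 : c * m' = A' * n') (hn : IsCoprime n e) (hn' : IsCoprime n' e) (he : A * A' = e) :
    IsCoprime c e := by
  have hA : IsCoprime A n' := by
    rw [← he] at hn'
    exact (IsCoprime.of_mul_right_left hn').symm
  have hA' : IsCoprime A' n := by
    rw [← he] at hn
    exact (IsCoprime.of_mul_right_right hn).symm
  have c1 : IsCoprime A c := by
    have : IsCoprime A (c * m') := by rw [h2]; exact hAA.mul_right hA
    exact IsCoprime.of_mul_right_left this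
  have c2 : IsCoprime A' c := by
    have : IsCoprime A' (c * m) := by rw [h1]; exact hAA.symm.mul_right hA'
    exact IsCoprime.of_mul_right_left this
  rw [← he]
  exact c1.symm.mul_right c2.symm

/-- data of a pair -/
structure PD (Y₀ Y : ℝ) (g p q : Eis) (U V : Eis → ℂ) : Prop where
  Y0 : 0 ≤ Y₀
  hg : IsPrim g
  hp : IsPrim p
  hq : IsPrim q
  ps : Squarefree p
  qs : Squarefree q
  pq : IsCoprime p q
  hU : ∀ n, U n ≠ 0 → n ∈ S Y₀
  hV : ∀ n, V n ≠ 0 → n ∈ S Y₀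
  hUg : ∀ n, U n ≠ 0 → IsCoprime n g
  hVg : ∀ n, V n ≠ 0 → IsCoprime n g
  hUp : ∀ n, U n ≠ 0 → IsCoprime n p
  hVq : ∀ n, V n ≠ 0 → IsCoprime n q
  le : (nm p : ℝ) * nm q * Y₀ ≤ Y

lemma PD.hY {Y₀ Y : ℝ} {g p q : Eis} {U V : Eis → ℂ} (h : PD Y₀ Y g p q U V) : 0 ≤ Y :=
  le_trans (mul_nonneg (by positivity) h.Y0) h.le

lemma PD.AA {Y₀ Y : ℝ} {g p q : Eis} {U V : Eis → ℂ} (h : PD Y₀ Y g p q U V) {a b : Eis}
    (ha : a ∈ dvs q) (hb : b ∈ dvs p) :
    IsCoprime (q / a * b) (p / b * a) ∧ (q / a * b) * (p / b * a) = p * q := by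
  obtain ⟨h1, h1'⟩ := dvs_quo h.hq ha
  obtain ⟨h2, h2'⟩ := dvs_quo h.hp hb
  have ca := dvs_coprime h.hq h.qs ha
  have cb := dvs_coprime h.hp h.ps hb
  have hpq := h.pq
  rw [h1', h2'] at hpq
  have k1 : IsCoprime b a := IsCoprime.of_mul_left_left (IsCoprime.of_mul_right_left hpq)
  have k2 : IsCoprime (p / b) (q / a) :=
    IsCoprime.of_mul_left_right (IsCoprime.of_mul_right_right hpq)
  refine ⟨(k2.symm.mul_right ca.symm).mul_left (cb.mul_right k1), ?_⟩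
  conv_rhs => rw [h1', h2']
  ring

lemma PD.shape {Y₀ Y : ℝ} {g p q : Eis} {U V : Eis → ℂ} (h : PD Y₀ Y g p q U V) {a b : Eis}
    (ha : a ∈ dvs q) (hb : b ∈ dvs p) {x : Eis} (hx : Lq U q a b x ≠ 0) :
    ∃ n, x = (q / a * b) * n ∧ IsCoprime n (p * q) ∧ IsPrim n := by
  obtain ⟨n, h1, h2, -, -, h3, h4⟩ := Lq_ne h.hU h.Y0 h.hp h.hq ha hb h.hUp hx
  exact ⟨n, h1, h4.mul_right h3, h2⟩

lemma PD.shape' {Y₀ Y : ℝ} {g p q : Eis} {U V : Eis → ℂ} (h : PD Y₀ Y g p q U V) {a b : Eis}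
    (ha : a ∈ dvs q) (hb : b ∈ dvs p) {x : Eis} (hx : Lq V p b a x ≠ 0) :
    ∃ n, x = (p / b * a) * n ∧ IsCoprime n (p * q) ∧ IsPrim n := by
  obtain ⟨n, h1, h2, -, -, h3, h4⟩ := Lq_ne h.hV h.Y0 h.hq h.hp hb ha h.hVq hx
  exact ⟨n, h1, h3.mul_right h4, h2⟩

/-- no diagonal terms unless `p = q = 1` -/
lemma PD.diag {Y₀ Y : ℝ} {g p q : Eis} {U V : Eis → ℂ} (h : PD Y₀ Y g p q U V) {a b : Eis}
    (ha : a ∈ dvs q) (hb : b ∈ dvs p) (hne : ¬ (p = 1 ∧ q = 1)) (d : Eis) :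
    Lq U q a b d * conj (Lq V p b a d) = 0 := by
  by_contra hd
  have hd1 : Lq U q a b d ≠ 0 := left_ne_zero_of_mul hd
  have hd2 : Lq V p b a d ≠ 0 := fun h0 => hd (by rw [h0]; simp)
  obtain ⟨n, h1, h2, -⟩ := h.shape ha hb hd1
  obtain ⟨n', h1', h2', -⟩ := h.shape' ha hb hd2
  obtain ⟨hc, he⟩ := h.AA ha hb
  have k := two_side hc (c := d) (m := 1) (m' := 1) (by rw [mul_one]; exact h1)
    (by rw [mul_one]; exact h1') h2 h2' he
  obtain ⟨q1, q1'⟩ := dvs_quo h.hq ha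
  obtain ⟨p1, p1'⟩ := dvs_quo h.hp hb
  have hap := isPrim_of_mem_dvs ha
  have hbp := isPrim_of_mem_dvs hb
  have u1 : q / a * b = 1 := by
    refine K695.prim_eq_one_of_isUnit (q1.mul hbp) ?_
    have : IsCoprime (q / a * b) (q / a * b) := by
      rw [← he] at k
      have := IsCoprime.of_mul_right_left k
      rw [h1] at this
      exact IsCoprime.of_mul_left_left this
    exact isCoprime_self.mp this
  have u2 : p / b * a = 1 := by
    refine K695.prim_eq_one_of_isUnit (p1.mul hap) ?_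
    have : IsCoprime (p / b * a) (p / b * a) := by
      rw [← he] at k
      have := IsCoprime.of_mul_right_right k
      rw [h1'] at this
      exact IsCoprime.of_mul_left_left this
    exact isCoprime_self.mp this
  apply hne
  have e : p * q = 1 := by rw [← he, u1, u2, one_mul]
  constructor
  · exact K695.prim_eq_one_of_isUnit h.hp (IsUnit.of_mul_eq_one _ e)
  · exact K695.prim_eq_one_of_isUnit h.hq (IsUnit.of_mul_eq_one _ (by rw [mul_comm]; exact e))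

end Crest.Agent.R017.E3P842
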