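import Crest.Agent.R017.E3P2_842

/-!
# Row 17, C70, leaf E3 (C), part 3 (helper842): the bound of the pair sum
-/

set_option autoImplicit false
set_option maxHeartbeats 400000

noncomputable section

open Complex MeasureTheory
open scoped ComplexConjugate Classical

namespace Crest.Agent.R017.E3P842

open Crest.Agent.R012 Crest.Agent.R012.Eis Crest.Agent.R012.MC
open Crest.Agent.R012.LS2 (S mem_S)
open Crest.Agent.R012.Div277 (dvs mem_dvs isPrim_of_mem_dvs dvd_of_mem_dvs)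
open Crest.Agent.R012.Mob705 (mu pdiv mem_pdiv mu_mul abs_mu_le_one PE sum_mu_coprime)
open Crest.Agent.R012.Weight600 (osc norm_osc osc_add_right pw pw_mul norm_pw)
open Crest.Agent.R017.PX764 (Gh Gh_mul)
open Crest.Agent.R017.CM106 (CS TG)
open Crest.Agent.R017.Dual2813 (S_of_dvd)
open Crest.Agent.R017.E1551 (nmpos jb jb_pos summable_wF CS_fin integrable_jb_mul integrable_jb
  nm_ge_one)
open Crest.Agent.R017.BD829
open Gauss880 (syG)

lemma TT_eq_zero {Y : ℝ} {u : Eis → ℂ} (h : ∀ n, u n = 0) (H : Eis) (t : ℝ) : TT u H t = 0 := by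
  unfold TT TG
  simp [h]

variable {Y₀ Y : ℝ} {g p q : Eis} {U V : Eis → ℂ}

/-- the mean over one mode vanishes unless `(D F, p q) = 1`, and is bounded by the mean at the
frequencies `H A₁`, `H A₂` -/
lemma PD.EE_le (h : PD Y₀ Y g p q U V) {a b : Eis} (ha : a ∈ dvs q) (hb : b ∈ dvs p) {A : ℝ}
    (hA : 1 < A) {M : Eis} {ψ : Eis → ℂ} (hψ : LC M ψ) {D F : Eis} (hD : IsPrim D)
    (hF : IsPrim F) (H : Eis) :
    EE A (rs (Lq U q a b) ψ D F) (rs (Lq V p b a) (fun m => conj (ψ m)) D F) H ≤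
      if IsCoprime (D * F) (p * q) then
        EP A (rs (ua U q a) ψ D F) (rs (ua V p b) (fun m => conj (ψ m)) D F)
          (H * (q / a * b)) (H * (p / b * a)) else 0 := by
  obtain ⟨hc, he⟩ := h.AA ha hb
  have hap := isPrim_of_mem_dvs ha
  have hbp := isPrim_of_mem_dvs hb
  have q1 := (dvs_quo h.hq ha).1
  have p1 := (dvs_quo h.hp hb).1
  split_ifs with hcop
  · have c1 : IsCoprime (D * F) (q / a * b) := by
      rw [← he] at hcop; exact IsCoprime.of_mul_right_left hcop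
    have c2 : IsCoprime (D * F) (p / b * a) := by
      rw [← he] at hcop; exact IsCoprime.of_mul_right_right hcop
    have su : ∀ n, rs (ua U q a) ψ D F n ≠ 0 → n ∈ S Y₀ := by
      intro n hn
      unfold rs at hn
      obtain ⟨-, h2⟩ := ua_ne (left_ne_zero_of_mul hn)
      have h3 := h.hU _ h2
      have h4 := (mem_S h.Y0).1 h3
      have h5 : IsPrim (a * (D * F)) := hap.mul (hD.mul hF)
      have e : a * (D * F * n) = a * (D * F) * n := by ring
      rw [e] at h3 h4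
      exact S_of_dvd h.Y0 h3 (IsPrim.of_mul_left h4.2.1 h5) (dvd_mul_left _ _)
    have sv : ∀ n, rs (ua V p b) (fun m => conj (ψ m)) D F n ≠ 0 → n ∈ S Y₀ := by
      intro n hn
      unfold rs at hn
      obtain ⟨-, h2⟩ := ua_ne (left_ne_zero_of_mul hn)
      have h3 := h.hV _ h2
      have h4 := (mem_S h.Y0).1 h3
      have h5 : IsPrim (b * (D * F)) := hbp.mul (hD.mul hF)
      have e : b * (D * F * n) = b * (D * F) * n := by ring
      rw [e] at h3 h4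
      exact S_of_dvd h.Y0 h3 (IsPrim.of_mul_left h4.2.1 h5) (dvd_mul_left _ _)
    have su' : ∀ n, rs (Lq U q a b) ψ D F n ≠ 0 → n ∈ S Y :=
      fun n hn => rs_supp h.hY (fun n hn => Lq_supp h.hU h.Y0 h.hp h.hq h.ps h.qs h.pq ha hb
        h.hUp h.le hn) ψ hD hF n hn
    have sv' : ∀ n, rs (Lq V p b a) (fun m => conj (ψ m)) D F n ≠ 0 → n ∈ S Y :=
      fun n hn => rs_supp h.hY (fun n hn => Lq_supp h.hV h.Y0 h.hq h.hp h.qs h.ps h.pq.symm hb ha
        h.hVq (by rw [mul_comm (nm q : ℝ)]; exact h.le) hn) _ hD hF n hn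
    unfold EE EP
    refine integral_mono (integrable_EE hA h.hY su' sv' H)
      (integrable_EP hA h.Y0 su sv _ _) fun t => ?_
    refine mul_le_mul_of_nonneg_left ?_ (jb_pos A t).le
    refine mul_le_mul ?_ ?_ (norm_nonneg _) (norm_nonneg _)
    · exact norm_TT_lf (q1.mul hbp) hD hF c1 (ua_prim h.hU h.Y0 hap) hψ.mul hψ.norm t
    · exact norm_TT_lf (p1.mul hap) hD hF c2 (ua_prim h.hV h.Y0 hbp) hψ.conj.mul hψ.conj.norm (-t)
  · refine le_of_eq ?_
    have key : (∀ n, rs (Lq U q a b) ψ D F n = 0) ∨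
        ∀ n, rs (Lq V p b a) (fun m => conj (ψ m)) D F n = 0 := by
      by_contra hne
      push_neg at hne
      obtain ⟨⟨m, hm⟩, ⟨m', hm'⟩⟩ := hne
      unfold rs at hm hm'
      obtain ⟨n, h1, h2, -⟩ := h.shape ha hb (left_ne_zero_of_mul hm)
      obtain ⟨n', h1', h2', -⟩ := h.shape' ha hb (left_ne_zero_of_mul hm')
      exact hcop (two_side hc h1 h1' h2 h2' he)
    unfold EE
    rcases key with key | key
    · have : ∀ t, TT (rs (Lq U q a b) ψ D F) H t = 0 := fun t => TT_eq_zero (Y := Y) key H t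
      simp [this]
    · have : ∀ t, TT (rs (Lq V p b a) (fun m => conj (ψ m)) D F) H t = 0 :=
        fun t => TT_eq_zero (Y := Y) key H t
      simp [this]

/-- the modes of the pair `(a, b)` -/
def ModeP (A B : ℕ) (M : Eis) (ψ : Eis → ℂ) (K N₁ N₂ Y : ℝ) (p q : Eis) (U V : Eis → ℂ)
    (a b D E : Eis) : ℝ :=
  ∑' h : Eis, if h = 0 then 0 else WB M K N₁ N₂ B D E h *
    ∑ F ∈ S Y, if IsCoprime (D * F) (p * q) then
      EP A (rs (ua U q a) ψ D F) (rs (ua V p b) (fun m => conj (ψ m)) D F)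
        (Hf M E h F * (q / a * b)) (Hf M E h F * (p / b * a)) else 0

lemma PD.rs_ua_supp (h : PD Y₀ Y g p q U V) {a : Eis} (hap : IsPrim a) (q' : Eis) (ψ : Eis → ℂ)
    {D F : Eis} (hD : IsPrim D) (hF : IsPrim F) (n : Eis) (hn : rs (ua U q' a) ψ D F n ≠ 0) :
    n ∈ S Y₀ := by
  unfold rs at hn
  obtain ⟨-, h2⟩ := ua_ne (left_ne_zero_of_mul hn)
  have h3 := h.hU _ h2
  have h4 := (mem_S h.Y0).1 h3
  have h5 : IsPrim (a * (D * F)) := hap.mul (hD.mul hF)
  have e : a * (D * F * n) = a * (D * F) * n := by ring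
  rw [e] at h3 h4
  exact S_of_dvd h.Y0 h3 (IsPrim.of_mul_left h4.2.1 h5) (dvd_mul_left _ _)

lemma PD.rs_ua_supp' (h : PD Y₀ Y g p q U V) {b : Eis} (hbp : IsPrim b) (q' : Eis) (ψ : Eis → ℂ)
    {D F : Eis} (hD : IsPrim D) (hF : IsPrim F) (n : Eis) (hn : rs (ua V q' b) ψ D F n ≠ 0) :
    n ∈ S Y₀ := by
  unfold rs at hn
  obtain ⟨-, h2⟩ := ua_ne (left_ne_zero_of_mul hn)
  have h3 := h.hV _ h2
  have h4 := (mem_S h.Y0).1 h3
  have h5 : IsPrim (b * (D * F)) := hbp.mul (hD.mul hF)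
  have e : b * (D * F * n) = b * (D * F) * n := by ring
  rw [e] at h3 h4
  exact S_of_dvd h.Y0 h3 (IsPrim.of_mul_left h4.2.1 h5) (dvd_mul_left _ _)

lemma PD.summable_ModeP (h : PD Y₀ Y g p q U V) {a b : Eis} (ha : a ∈ dvs q) (hb : b ∈ dvs p)
    {A B : ℕ} (hA : 1 < A) (hB : 1 < B) {M : Eis} {ψ : Eis → ℂ} (hψ : LC M ψ) {K N₁ N₂ : ℝ}
    (hK : 0 < K) (h₁ : 0 < N₁) (h₂ : 0 < N₂) {D E : Eis} (hD : IsPrim D) (hE : E ≠ 0) :
    Summable fun h : Eis => if h = 0 then 0 else WB M K N₁ N₂ B D E h *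
      ∑ F ∈ S Y, if IsCoprime (D * F) (p * q) then
        EP A (rs (ua U q a) ψ D F) (rs (ua V p b) (fun m => conj (ψ m)) D F)
          (Hf M E h F * (q / a * b)) (Hf M E h F * (p / b * a)) else 0 := by
  have hap := isPrim_of_mem_dvs ha
  have hbp := isPrim_of_mem_dvs hb
  have hA' : (1 : ℝ) < (A : ℝ) := by exact_mod_cast hA
  have hj : 0 ≤ ∫ t, jb (A : ℝ) t := integral_nonneg fun t => (jb_pos _ t).le
  set W : ℝ := ∑ F ∈ S Y, (∫ t, jb (A : ℝ) t) * ((∑ k ∈ S Y₀, ‖rs (ua U q a) ψ D F k‖) *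
    ∑ k ∈ S Y₀, ‖rs (ua V p b) (fun m => conj (ψ m)) D F k‖) with hW
  have hb1 : ∀ h' : Eis, (∑ F ∈ S Y, if IsCoprime (D * F) (p * q) then
        EP A (rs (ua U q a) ψ D F) (rs (ua V p b) (fun m => conj (ψ m)) D F)
          (Hf M E h' F * (q / a * b)) (Hf M E h' F * (p / b * a)) else 0) ≤ W := by
    intro h'
    refine Finset.sum_le_sum fun F hF => ?_
    have hF' := ((mem_S h.hY).1 hF).2.1
    split_ifs
    · exact EP_le hA' h.Y0 (h.rs_ua_supp hap q ψ hD hF') (h.rs_ua_supp' hbp p _ hD hF') _ _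
    · exact mul_nonneg hj (mul_nonneg (Finset.sum_nonneg fun _ _ => norm_nonneg _)
        (Finset.sum_nonneg fun _ _ => norm_nonneg _))
  have hb0 : ∀ h' : Eis, 0 ≤ (∑ F ∈ S Y, if IsCoprime (D * F) (p * q) then
        EP A (rs (ua U q a) ψ D F) (rs (ua V p b) (fun m => conj (ψ m)) D F)
          (Hf M E h' F * (q / a * b)) (Hf M E h' F * (p / b * a)) else 0) := by
    intro h'
    refine Finset.sum_nonneg fun F _ => ?_
    split_ifs
    · exact EP_nonneg _ _ _ _ _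
    · exact le_rfl
  refine Summable.of_nonneg_of_le (fun h' => ?_) (fun h' => ?_)
    ((summable_WB hψ.ne hK h₁ h₂ hB hD.ne_zero hE).mul_right W)
  · split_ifs
    · exact le_rfl
    · exact mul_nonneg (WB_nonneg hK.le h₁.le h₂.le B D E h') (hb0 h')
  · split_ifs
    · rw [zero_mul]
    · exact mul_le_mul_of_nonneg_left (hb1 h') (WB_nonneg hK.le h₁.le h₂.le B D E h')

lemma PD.ModeP_nonneg (h : PD Y₀ Y g p q U V) {a b : Eis} (A B : ℕ) (M : Eis) (ψ : Eis → ℂ)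
    {K N₁ N₂ : ℝ} (hK : 0 ≤ K) (h₁ : 0 ≤ N₁) (h₂ : 0 ≤ N₂) (D E : Eis) :
    0 ≤ ModeP A B M ψ K N₁ N₂ Y p q U V a b D E := by
  unfold ModeP
  refine tsum_nonneg fun h' => ?_
  split_ifs
  · exact le_rfl
  · refine mul_nonneg (WB_nonneg hK h₁ h₂ B D E h') (Finset.sum_nonneg fun F _ => ?_)
    split_ifs
    · exact EP_nonneg _ _ _ _ _
    · exact le_rfl

lemma PD.ModeS_le (h : PD Y₀ Y g p q U V) {a b : Eis} (ha : a ∈ dvs q) (hb : b ∈ dvs p)
    {A B : ℕ} (hA : 1 < A) (hB : 1 < B) {M : Eis} {ψ : Eis → ℂ} (hψ : LC M ψ) {K N₁ N₂ : ℝ}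
    (hK : 0 < K) (h₁ : 0 < N₁) (h₂ : 0 < N₂) {D E : Eis} (hD : IsPrim D) (hE : E ≠ 0) :
    ModeS A B M ψ K N₁ N₂ Y (Lq U q a b) (Lq V p b a) D E ≤
      ModeP A B M ψ K N₁ N₂ Y p q U V a b D E := by
  have hA' : (1 : ℝ) < (A : ℝ) := by exact_mod_cast hA
  unfold ModeS ModeP
  refine Summable.tsum_le_tsum (fun h' => ?_)
    (BD829.summable_ModeS hA hB hψ hK h₁ h₂ h.hY
      (fun n hn => Lq_supp h.hU h.Y0 h.hp h.hq h.ps h.qs h.pq ha hb h.hUp h.le hn)
      (fun n hn => Lq_supp h.hV h.Y0 h.hq h.hp h.qs h.ps h.pq.symm hb ha h.hVq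
        (by rw [mul_comm (nm q : ℝ)]; exact h.le) hn) hD hE)
    (h.summable_ModeP ha hb hA hB hψ hK h₁ h₂ hD hE)
  split_ifs
  · exact le_rfl
  · refine mul_le_mul_of_nonneg_left (Finset.sum_le_sum fun F hF => ?_)
      (WB_nonneg hK.le h₁.le h₂.le B D E h')
    exact h.EE_le ha hb hA' hψ hD ((mem_S h.hY).1 hF).2.1 _

end Crest.Agent.R017.E3P842
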