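import Crest.Agent.R017.E3P4_842

/-!
# Row 17, C70, leaf E3 (C), part 5 (helper842): bound of `ModeP` by mean squares
-/

set_option autoImplicit false
set_option maxHeartbeats 400000

noncomputable section

open Complex MeasureTheory
open scoped ComplexConjugate Classical

namespace Crest.Agent.R017.E3P842

open Crest.Agent.R012 Crest.Agent.R012.Eis Crest.Agent.R012.MC
open Crest.Agent.R012.LS2 (S mem_S bl mem_bl)
open Crest.Agent.R012.Div277 (dvs mem_dvs isPrim_of_mem_dvs dvd_of_mem_dvs)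
open Crest.Agent.R012.Mob705 (mu pdiv mem_pdiv)
open Crest.Agent.R017.E1551 (nmpos jb jb_pos)
open Crest.Agent.R017.BD829

variable {Y₀ Y : ℝ} {g p q : Eis} {U V : Eis → ℂ}

/-- bound of the mode sum of the pair `(a, b)` by the mean squares of the two sides -/
theorem PD.ModeP_le (h : PD Y₀ Y g p q U V) {a b : Eis} (ha : a ∈ dvs q) (hb : b ∈ dvs p)
    {A B e : ℕ} (hA : 1 < A) (hB : e + 1 ≤ B) {M : Eis} {ψ : Eis → ℂ}
    (hψ : LC M ψ) {K N₁ N₂ : ℝ} (hK : 0 < K) (h₁ : 0 < N₁) (h₂ : 0 < N₂) {D E : Eis}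
    (hD : IsPrim D) (hE : E ≠ 0) {Gu Gv : ℝ → ℝ}
    (hGu : ∀ L, 1 ≤ L → ∑ x ∈ bl L, ∑ F ∈ S Y, (if IsCoprime (D * F) (p * q) then
      EQ A (rs (ua U q a) ψ D F) (Hf M E x F * (q / a * b)) else 0) ≤ Gu L)
    (hGv : ∀ L, 1 ≤ L → ∑ x ∈ bl L, ∑ F ∈ S Y, (if IsCoprime (D * F) (p * q) then
      EQ A (rs (ua V p b) (fun m => conj (ψ m)) D F) (Hf M E x F * (p / b * a)) else 0) ≤ Gv L)
    (hGu2 : ∀ L, 1 ≤ L → Gu (2 * L) ≤ 2 ^ e * Gu L)
    (hGv2 : ∀ L, 1 ≤ L → Gv (2 * L) ≤ 2 ^ e * Gv L) {ρ : ℝ} (hρ : 0 < ρ) :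
    ModeP A B M ψ K N₁ N₂ Y p q U V a b D E ≤ (1 + 2 ^ (e + 1)) *
      ((min 1 (lmB M K N₁ N₂ D E)) ^ B * (ρ * Gu (max 1 (lmB M K N₁ N₂ D E)) +
        ρ⁻¹ * Gv (max 1 (lmB M K N₁ N₂ D E)))) := by
  have hA' : (1 : ℝ) < (A : ℝ) := by exact_mod_cast hA
  have nM := nmpos hψ.ne
  have nd := nmpos hD.ne_zero
  have ne := nmpos hE
  have hap := isPrim_of_mem_dvs ha
  have hbp := isPrim_of_mem_dvs hb
  have hl : 0 < lmB M K N₁ N₂ D E := by unfold lmB; positivity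
  have h2 : ∀ x : ℝ, 0 ≤ x → ρ / 2 * x ≤ ρ * x := fun x hx =>
    mul_le_mul_of_nonneg_right (by linarith) hx
  have h3 : ∀ x : ℝ, 0 ≤ x → 1 / (2 * ρ) * x ≤ ρ⁻¹ * x := fun x hx => by
    refine mul_le_mul_of_nonneg_right ?_ hx
    rw [one_div]
    exact inv_anti₀ hρ (by linarith)
  unfold ModeP
  simp_rw [WB_eq_Wl]
  refine tsum_W_le (F := fun x => ∑ F ∈ S Y, if IsCoprime (D * F) (p * q) then
        EP A (rs (ua U q a) ψ D F) (rs (ua V p b) (fun m => conj (ψ m)) D F)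
          (Hf M E x F * (q / a * b)) (Hf M E x F * (p / b * a)) else 0)
    (G := fun L => ρ * Gu L + ρ⁻¹ * Gv L)
    (fun x => Finset.sum_nonneg fun F _ => ?_) hB (fun L hL => ?_)
    (fun L hL => ?_) hl
  · split_ifs
    · exact EP_nonneg _ _ _ _ _
    · exact le_rfl
  · calc ∑ x ∈ bl L, ∑ F ∈ S Y, (if IsCoprime (D * F) (p * q) then
        EP A (rs (ua U q a) ψ D F) (rs (ua V p b) (fun m => conj (ψ m)) D F)
          (Hf M E x F * (q / a * b)) (Hf M E x F * (p / b * a)) else 0)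
        ≤ ∑ x ∈ bl L, ∑ F ∈ S Y, (ρ * (if IsCoprime (D * F) (p * q) then
            EQ A (rs (ua U q a) ψ D F) (Hf M E x F * (q / a * b)) else 0) +
          ρ⁻¹ * (if IsCoprime (D * F) (p * q) then
            EQ A (rs (ua V p b) (fun m => conj (ψ m)) D F) (Hf M E x F * (p / b * a)) else 0)) := by
          refine Finset.sum_le_sum fun x _ => Finset.sum_le_sum fun F hF => ?_
          have hF' := ((mem_S h.hY).1 hF).2.1
          split_ifs
          · refine (EP_le_EQ hA' h.Y0 (h.rs_ua_supp hap q ψ hD hF')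
              (h.rs_ua_supp' hbp p _ hD hF') _ _ hρ).trans ?_
            exact add_le_add (h2 _ (EQ_nonneg _ _ _)) (h3 _ (EQ_nonneg _ _ _))
          · simp
      _ = ρ * (∑ x ∈ bl L, ∑ F ∈ S Y, (if IsCoprime (D * F) (p * q) then
            EQ A (rs (ua U q a) ψ D F) (Hf M E x F * (q / a * b)) else 0)) +
          ρ⁻¹ * ∑ x ∈ bl L, ∑ F ∈ S Y, (if IsCoprime (D * F) (p * q) then
            EQ A (rs (ua V p b) (fun m => conj (ψ m)) D F) (Hf M E x F * (p / b * a)) else 0) := by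
          simp_rw [Finset.sum_add_distrib, Finset.mul_sum]
      _ ≤ ρ * Gu L + ρ⁻¹ * Gv L := add_le_add (mul_le_mul_of_nonneg_left (hGu L hL) hρ.le)
          (mul_le_mul_of_nonneg_left (hGv L hL) (by positivity))
  · have h1 := mul_le_mul_of_nonneg_left (hGu2 L hL) hρ.le
    have h2 := mul_le_mul_of_nonneg_left (hGv2 L hL) (inv_nonneg.mpr hρ.le)
    calc ρ * Gu (2 * L) + ρ⁻¹ * Gv (2 * L) ≤ ρ * (2 ^ e * Gu L) + ρ⁻¹ * (2 ^ e * Gv L) :=
          add_le_add h1 h2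
      _ = _ := by ring

end Crest.Agent.R017.E3P842
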