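import Crest.Agent.R017.BD7_829
import Crest.Agent.R017.StA_828

/-!
# Row 17, C70, leaf E3 (C): the pair sum (helper842)

* `lf A f` : the lift `lf A f (A n) = f n`
* `ua U q a n = [(n, q) = 1] U (a n)`
* `sum_ua`  : `U = ∑_{a ∣ q} lf a (ua U q a)`
* `pair_pt` : the pointwise identity
-/

set_option autoImplicit false
set_option maxHeartbeats 400000

noncomputable section

open Complex MeasureTheory
open scoped ComplexConjugate Classical

namespace Crest.Agent.R017.E3P842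

open Crest.Agent.R012 Crest.Agent.R012.Eis Crest.Agent.R012.MC
open Crest.Agent.R012.LS2 (S mem_S)
open Crest.Agent.R012.Div277 (dvs mem_dvs isPrim_of_mem_dvs dvd_of_mem_dvs)
open Crest.Agent.R012.Mob705 (mu pdiv mem_pdiv mu_mul abs_mu_le_one PE sum_mu_coprime)
open Crest.Agent.R012.Weight600 (osc norm_osc osc_add_right pw)
open Crest.Agent.R017.PX764 (Gh Gh_mul)
open Crest.Agent.R017.CM106 (CS TG)
open Crest.Agent.R017.Dual2813 (S_of_dvd)
open Crest.Agent.R017.E1551 (nmpos jb jb_pos summable_wF CS_fin)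
open Crest.Agent.R017.BD829
open Crest.Agent.R017.StA828 (gp gp_spec gp_eq)
open Gauss880 (syG sy_sq_eq_conj)

/-! ### the lift -/

/-- the lift: `lf A f (A n) = f n`, zero off the multiples of `A` -/
def lf (A : Eis) (f : Eis → ℂ) (x : Eis) : ℂ := if A ∣ x then f (x / A) else 0

lemma lf_mul {A : Eis} (hA : A ≠ 0) (f : Eis → ℂ) (n : Eis) : lf A f (A * n) = f n := by
  unfold lf
  rw [if_pos (dvd_mul_right A n), mul_div_cancel_left₀ _ hA]

lemma lf_ne {A : Eis} (hA : A ≠ 0) {f : Eis → ℂ} {x : Eis} (h : lf A f x ≠ 0) :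
    ∃ n, x = A * n ∧ f n ≠ 0 := by
  unfold lf at h
  split_ifs at h with h1
  · exact ⟨x / A, (EuclideanDomain.mul_div_cancel' hA h1).symm, h⟩
  · exact absurd rfl h

lemma tsum_lf {A : Eis} (hA : A ≠ 0) (f : Eis → ℂ) (g : Eis → ℂ) :
    ∑' x, lf A f x * g x = ∑' n, f n * g (A * n) := by
  have hinj : Function.Injective fun n : Eis => A * n := fun a b h => mul_left_cancel₀ hA h
  rw [← hinj.tsum_eq (f := fun x => lf A f x * g x)]
  · refine tsum_congr fun n => ?_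
    beta_reduce
    rw [lf_mul hA]
  · intro x hx
    obtain ⟨n, hn, -⟩ := lf_ne hA (left_ne_zero_of_mul hx)
    exact ⟨n, hn.symm⟩

lemma CS_lf {A : Eis} (hA : IsPrim A) {f : Eis → ℂ} (hf : ∀ n, f n ≠ 0 → IsPrim n) (r : Eis) :
    CS (lf A f) r = sy r A * CS f r := by
  unfold CS
  rw [tsum_lf hA.ne_zero, ← tsum_mul_left]
  refine tsum_congr fun n => ?_
  by_cases h : f n = 0
  · rw [h]; ring
  · rw [syG.mul_right _ _ _ hA (hf n h)]; ring

/-! ### the parts -/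

/-- the part `n = a n₀`, `(n₀, q) = 1` -/
def ua (U : Eis → ℂ) (q a : Eis) (n : Eis) : ℂ := if IsCoprime n q then U (a * n) else 0

lemma ua_ne {U : Eis → ℂ} {q a n : Eis} (h : ua U q a n ≠ 0) :
    IsCoprime n q ∧ U (a * n) ≠ 0 := by
  unfold ua at h
  split_ifs at h with h1
  · exact ⟨h1, h⟩
  · exact absurd rfl h

/-- every squarefree primary `n` has exactly one factorization `n = a n₀`, `a ∣ q`,
`(n₀, q) = 1` -/
lemma gcd_sum {q n : Eis} (hq : IsPrim q) (hn : IsPrim n) (hs : Squarefree n) :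
    ∑ a ∈ dvs q, (if a ∣ n ∧ IsCoprime (n / a) q then (1 : ℂ) else 0) = 1 := by
  obtain ⟨h1, h2, h3, h4, h5⟩ := gp_spec n hq
  set a := gp n q with ha
  have hcop : IsCoprime (n / a) q := by
    rw [h4]
    refine IsCoprime.mul_right ?_ h5
    rw [h3] at hs
    exact (IsRelPrime.isCoprime ((squarefree_mul_iff.mp hs).1)).symm
  rw [Finset.sum_eq_single_of_mem a ((mem_dvs hq.ne_zero).mpr ⟨h1, h4 ▸ dvd_mul_right _ _⟩)]
  · rw [if_pos ⟨h3 ▸ dvd_mul_right _ _, hcop⟩]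
  · intro b hb hne
    rw [if_neg]
    rintro ⟨⟨c, hc⟩, hbc⟩
    apply hne
    obtain ⟨hbp, ⟨c', hc'⟩⟩ := (mem_dvs hq.ne_zero).mp hb
    have hb0 := hbp.ne_zero
    rw [hc, mul_div_cancel_left₀ _ hb0, hc'] at hbc
    exact (gp_eq hq hbp hc hc' (IsCoprime.of_mul_right_right hbc)).symm

theorem sum_ua {U : Eis → ℂ} (hU : ∀ n, U n ≠ 0 → IsPrim n ∧ Squarefree n) {q : Eis}
    (hq : IsPrim q) (n : Eis) : U n = ∑ a ∈ dvs q, lf a (ua U q a) n := by
  have e : ∀ a ∈ dvs q, lf a (ua U q a) n =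
      U n * (if a ∣ n ∧ IsCoprime (n / a) q then (1 : ℂ) else 0) := by
    intro a ha
    have ha0 := (isPrim_of_mem_dvs ha).ne_zero
    unfold lf ua
    by_cases h1 : a ∣ n
    · rw [if_pos h1, EuclideanDomain.mul_div_cancel' ha0 h1]
      by_cases h2 : IsCoprime (n / a) q
      · rw [if_pos h2, if_pos ⟨h1, h2⟩, mul_one]
      · rw [if_neg h2, if_neg fun h => h2 h.2, mul_zero]
    · rw [if_neg h1, if_neg fun h => h1 h.1, mul_zero]
  rw [Finset.sum_congr rfl e, ← Finset.mul_sum]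
  by_cases h : U n = 0
  · rw [h, zero_mul]
  · rw [gcd_sum hq (hU n h).1 (hU n h).2, mul_one]

/-! ### the pointwise identity -/

lemma CS_sum_ua {Y : ℝ} {U : Eis → ℂ} (hU : ∀ n, U n ≠ 0 → n ∈ S Y) (hY : 0 ≤ Y) {q : Eis}
    (hq : IsPrim q) (r : Eis) : CS U r = ∑ a ∈ dvs q, sy r a * CS (ua U q a) r := by
  have hU' : ∀ n, U n ≠ 0 → IsPrim n ∧ Squarefree n := fun n h => ((mem_S hY).1 (hU n h)).2
  have e1 : CS U r = ∑ a ∈ dvs q, CS (lf a (ua U q a)) r := by
    rw [CS_fin hU]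
    have e2 : ∀ a ∈ dvs q, CS (lf a (ua U q a)) r = ∑ n ∈ S Y, lf a (ua U q a) n * sy r n := by
      intro a ha
      refine CS_fin (fun n hn => ?_) r
      obtain ⟨m, hm, hm'⟩ := lf_ne (isPrim_of_mem_dvs ha).ne_zero hn
      rw [hm]
      exact hU _ (ua_ne hm').2
    rw [Finset.sum_congr rfl e2, Finset.sum_comm]
    refine Finset.sum_congr rfl fun n _ => ?_
    rw [← Finset.sum_mul, ← sum_ua hU' hq n]
  rw [e1]
  refine Finset.sum_congr rfl fun a ha => ?_
  have hap := isPrim_of_mem_dvs ha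
  refine CS_lf hap (fun n hn => ?_) r
  exact IsPrim.of_mul_left (hU' _ (ua_ne hn).2).1 hap

lemma dvs_quo {q a : Eis} (hq : IsPrim q) (ha : a ∈ dvs q) :
    IsPrim (q / a) ∧ q = a * (q / a) := by
  obtain ⟨h1, c, hc⟩ := (mem_dvs hq.ne_zero).mp ha
  have e : q / a = c := by rw [hc, mul_div_cancel_left₀ _ h1.ne_zero]
  rw [e]
  exact ⟨IsPrim.of_mul_left (hc ▸ hq) h1, hc⟩

/-- multiplication by the symbol `(r / q)` -/
lemma sy_mul_CS {Y : ℝ} {U : Eis → ℂ} (hU : ∀ n, U n ≠ 0 → n ∈ S Y) (hY : 0 ≤ Y) {q : Eis}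
    (hq : IsPrim q) (r : Eis) :
    sy r q * CS U r = ∑ a ∈ dvs q, sy r (q / a) * conj (sy r a) * CS (ua U q a) r := by
  rw [CS_sum_ua hU hY hq, Finset.mul_sum]
  refine Finset.sum_congr rfl fun a ha => ?_
  obtain ⟨h1, h2⟩ := dvs_quo hq ha
  have hap := isPrim_of_mem_dvs ha
  have e : sy r q = sy r a * sy r (q / a) := by
    conv_lhs => rw [h2]
    exact syG.mul_right _ _ _ hap h1
  rw [e, ← sy_sq_eq_conj syG hap]
  ring

lemma ua_prim {Y : ℝ} {U : Eis → ℂ} (hU : ∀ n, U n ≠ 0 → n ∈ S Y) (hY : 0 ≤ Y) {q a : Eis}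
    (ha : IsPrim a) (n : Eis) (hn : ua U q a n ≠ 0) : IsPrim n :=
  IsPrim.of_mul_left ((mem_S hY).1 (hU _ (ua_ne hn).2)).2.1 ha

/-- the left sequence of the pair `(a, b)` -/
def Lq (U : Eis → ℂ) (q a b : Eis) : Eis → ℂ := lf (q / a * b) (ua U q a)

/-- **the pointwise identity** -/
theorem pair_pt {Y : ℝ} {U V : Eis → ℂ} (hU : ∀ n, U n ≠ 0 → n ∈ S Y)
    (hV : ∀ n, V n ≠ 0 → n ∈ S Y) (hY : 0 ≤ Y) {p q : Eis} (hp : IsPrim p) (hq : IsPrim q)
    (r : Eis) :
    conj (sy r p) * sy r q * (CS U r * conj (CS V r)) =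
      ∑ a ∈ dvs q, ∑ b ∈ dvs p, CS (Lq U q a b) r * conj (CS (Lq V p b a) r) := by
  have e1 : conj (sy r p) * sy r q * (CS U r * conj (CS V r)) =
      (sy r q * CS U r) * conj (sy r p * CS V r) := by rw [map_mul]; ring
  rw [e1, sy_mul_CS hU hY hq, sy_mul_CS hV hY hp, map_sum, Finset.sum_mul_sum]
  refine Finset.sum_congr rfl fun a ha => Finset.sum_congr rfl fun b hb => ?_
  have hap := isPrim_of_mem_dvs ha
  have hbp := isPrim_of_mem_dvs hb
  have h1 := (dvs_quo hq ha).1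
  have h2 := (dvs_quo hp hb).1
  unfold Lq
  rw [CS_lf (h1.mul hbp) (ua_prim hU hY hap), CS_lf (h2.mul hap) (ua_prim hV hY hbp),
    syG.mul_right _ _ _ h1 hbp, syG.mul_right _ _ _ h2 hap]
  simp only [map_mul, Complex.conj_conj]
  ring

/-! ### support and window -/

lemma dvs_coprime {q a : Eis} (hq : IsPrim q) (hs : Squarefree q) (ha : a ∈ dvs q) :
    IsCoprime a (q / a) := by
  have h := (dvs_quo hq ha).2
  rw [h] at hs
  exact IsRelPrime.isCoprime ((squarefree_mul_iff.mp hs).1)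

lemma dvs_sqf {q a : Eis} (hs : Squarefree q) (ha : a ∈ dvs q) : Squarefree a :=
  hs.squarefree_of_dvd (dvd_of_mem_dvs ha)

lemma dvs_quo_sqf {q a : Eis} (hq : IsPrim q) (hs : Squarefree q) (ha : a ∈ dvs q) :
    Squarefree (q / a) := by
  refine hs.squarefree_of_dvd ⟨a, ?_⟩
  rw [mul_comm]
  exact (dvs_quo hq ha).2

/-- shape of the support of the left sequence -/
lemma Lq_ne {Y : ℝ} {U : Eis → ℂ} (hU : ∀ n, U n ≠ 0 → n ∈ S Y) (hY : 0 ≤ Y) {p q a b : Eis}
    (hp : IsPrim p) (hq : IsPrim q) (ha : a ∈ dvs q) (hb : b ∈ dvs p)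
    (hUp : ∀ n, U n ≠ 0 → IsCoprime n p) {x : Eis} (hx : Lq U q a b x ≠ 0) :
    ∃ n, x = (q / a * b) * n ∧ IsPrim n ∧ Squarefree (a * n) ∧ U (a * n) ≠ 0 ∧
      IsCoprime n q ∧ IsCoprime n p := by
  have hap := isPrim_of_mem_dvs ha
  have hbp := isPrim_of_mem_dvs hb
  have h1 := (dvs_quo hq ha).1
  obtain ⟨n, hn, hn'⟩ := lf_ne (h1.mul hbp).ne_zero hx
  obtain ⟨h3, h4⟩ := ua_ne hn'
  have h5 := (mem_S hY).1 (hU _ h4)
  exact ⟨n, hn, ua_prim hU hY hap n hn', h5.2.2, h4, h3, IsCoprime.of_mul_left_right (hUp _ h4)⟩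

lemma Lq_supp {Y₀ Y : ℝ} {U : Eis → ℂ} (hU : ∀ n, U n ≠ 0 → n ∈ S Y₀) (hY₀ : 0 ≤ Y₀)
    {p q a b : Eis} (hp : IsPrim p) (hq : IsPrim q) (hps : Squarefree p) (hqs : Squarefree q)
    (hc : IsCoprime p q) (ha : a ∈ dvs q) (hb : b ∈ dvs p)
    (hUp : ∀ n, U n ≠ 0 → IsCoprime n p) (hY : (nm p : ℝ) * nm q * Y₀ ≤ Y) {x : Eis}
    (hx : Lq U q a b x ≠ 0) : x ∈ S Y := by
  have hap := isPrim_of_mem_dvs ha
  have hbp := isPrim_of_mem_dvs hb
  obtain ⟨h1, h1'⟩ := dvs_quo hq ha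
  obtain ⟨n, rfl, hn, hs, hUn, hcq, hcp⟩ := Lq_ne hU hY₀ hp hq ha hb hUp hx
  have h5 := (mem_S hY₀).1 (hU _ hUn)
  have hY0 : 0 ≤ Y := le_trans (by positivity) hY
  have hns : Squarefree n := hs.squarefree_of_dvd (dvd_mul_left _ _)
  refine (mem_S hY0).2 ⟨?_, (h1.mul hbp).mul hn, ?_⟩
  · have n1 := nmpos hap.ne_zero
    have n2 := nmpos h1.ne_zero
    have n3 := nmpos hbp.ne_zero
    have n4 := nmpos hn.ne_zero
    have n5 := nmpos hp.ne_zero
    have g1 : (1 : ℝ) ≤ nm a := E1551.nm_ge_one hap.ne_zero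
    have g2 : (nm b : ℝ) ≤ nm p := by
      exact_mod_cast Div277.nm_le_of_dvd hp.ne_zero (dvd_of_mem_dvs hb)
    have g3 : (nm q : ℝ) = nm a * nm (q / a) := by
      have := congrArg nm h1'
      rw [nm_mul] at this
      exact_mod_cast this
    have g4 : (nm a : ℝ) * nm n ≤ Y₀ := by
      have := h5.1
      rw [nm_mul] at this
      push_cast at this
      exact this
    rw [nm_mul, nm_mul]
    push_cast
    calc (nm (q / a) : ℝ) * nm b * nm n ≤ nm (q / a) * nm p * (nm a * (nm a * nm n)) := by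
          have : (nm n : ℝ) ≤ nm a * (nm a * nm n) := by nlinarith [mul_pos n1 n4]
          exact mul_le_mul (mul_le_mul_of_nonneg_left g2 n2.le) this n4.le (by positivity)
      _ ≤ nm (q / a) * nm p * (nm a * Y₀) := by
          refine mul_le_mul_of_nonneg_left ?_ (by positivity)
          exact mul_le_mul_of_nonneg_left g4 n1.le
      _ = nm p * nm q * Y₀ := by rw [g3]; ring
      _ ≤ Y := hY
  · have c1 : IsCoprime (q / a) b := by
      have : IsCoprime q p := hc.symm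
      rw [h1'] at this
      obtain ⟨c, hc'⟩ := dvd_of_mem_dvs hb
      rw [hc'] at this
      exact IsCoprime.of_mul_left_right (IsCoprime.of_mul_right_left this)
    have c2 : IsCoprime (q / a) n := by
      rw [h1'] at hcq
      exact (IsCoprime.of_mul_right_right hcq).symm
    have c3 : IsCoprime b n := by
      obtain ⟨c, hc'⟩ := dvd_of_mem_dvs hb
      rw [hc'] at hcp
      exact (IsCoprime.of_mul_right_left hcp).symm
    have s1 : Squarefree (q / a * b) :=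
      squarefree_mul_iff.mpr ⟨c1.isRelPrime, dvs_quo_sqf hq hqs ha, dvs_sqf hps hb⟩
    exact squarefree_mul_iff.mpr ⟨(c2.mul_left c3).isRelPrime, s1, hns⟩

lemma Lq_win {Y : ℝ} {U : Eis → ℂ} (hU : ∀ n, U n ≠ 0 → n ∈ S Y) (hY : 0 ≤ Y) {p q a b : Eis}
    (hp : IsPrim p) (hq : IsPrim q) (ha : a ∈ dvs q) (hb : b ∈ dvs p)
    (hUp : ∀ n, U n ≠ 0 → IsCoprime n p) {N R : ℝ} (hN : 0 < N) (hw : Win U (Real.log N) R) :
    Win (Lq U q a b) (Real.log (N * nm (q / a * b) / nm a)) R := by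
  intro x hx
  have hap := isPrim_of_mem_dvs ha
  have hbp := isPrim_of_mem_dvs hb
  have h1 := (dvs_quo hq ha).1
  obtain ⟨n, rfl, hn, -, hUn, -, -⟩ := Lq_ne hU hY hp hq ha hb hUp hx
  have h := hw _ hUn
  have n1 := nmpos hap.ne_zero
  have n2 := nmpos (h1.mul hbp).ne_zero
  have n4 := nmpos hn.ne_zero
  rw [nm_mul] at h ⊢
  push_cast at h ⊢
  rw [Real.log_mul n1.ne' n4.ne'] at h
  rw [Real.log_mul n2.ne' n4.ne', Real.log_div (by positivity) n1.ne',
    Real.log_mul hN.ne' n2.ne']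
  have e : Real.log (nm (q / a * b)) + Real.log (nm n) -
      (Real.log N + Real.log (nm (q / a * b)) - Real.log (nm a)) =
      Real.log (nm a) + Real.log (nm n) - Real.log N := by ring
  rw [e]; exact h

/-! ### the sum over `r` -/

/-- the pair sum, coprime form -/
def PR1 (w : ℝ → ℝ) (K : ℝ) (ψ : Eis → ℂ) (p q : Eis) (U V : Eis → ℂ) : ℂ :=
  ∑' r : Eis, (if IsPrim r then ψ r * (conj (sy r p) * sy r q * (CS U r * conj (CS V r))) else 0) *
    ((w (nm r / K) : ℝ) : ℂ)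

/-- the pair sum -/
def PR (w : ℝ → ℝ) (K : ℝ) (ψ : Eis → ℂ) (m m' : Eis) (U V : Eis → ℂ) : ℂ :=
  ∑' r : Eis, (if IsPrim r then ψ r * ((conj (sy r m) * CS U r) * conj (conj (sy r m') * CS V r))
    else 0) * ((w (nm r / K) : ℝ) : ℂ)

theorem PR1_eq {w : ℝ → ℝ} (hw : Wgt w) {K : ℝ} (hK : 0 < K) {Y : ℝ} {ψ U V : Eis → ℂ}
    (hU : ∀ n, U n ≠ 0 → n ∈ S Y) (hV : ∀ n, V n ≠ 0 → n ∈ S Y) (hY : 0 ≤ Y) {p q : Eis}
    (hp : IsPrim p) (hq : IsPrim q) :
    PR1 w K ψ p q U V = ∑ a ∈ dvs q, ∑ b ∈ dvs p, BS w K ψ (Lq U q a b) (Lq V p b a) := by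
  unfold PR1 BS
  have e1 : ∀ r : Eis, (if IsPrim r then ψ r * (conj (sy r p) * sy r q *
      (CS U r * conj (CS V r))) else 0) * ((w (nm r / K) : ℝ) : ℂ) =
      ∑ a ∈ dvs q, ∑ b ∈ dvs p, (if IsPrim r then ψ r *
        (CS (Lq U q a b) r * conj (CS (Lq V p b a) r)) else 0) * ((w (nm r / K) : ℝ) : ℂ) := by
    intro r
    by_cases hr : IsPrim r
    · simp only [if_pos hr]
      rw [pair_pt hU hV hY hp hq, Finset.mul_sum, Finset.sum_mul]
      refine Finset.sum_congr rfl fun a _ => ?_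
      rw [Finset.mul_sum, Finset.sum_mul]
    · simp [hr]
  rw [tsum_congr e1, Summable.tsum_finsetSum (fun a _ => summable_sum fun b _ =>
    summable_wF hw hK _)]
  refine Finset.sum_congr rfl fun a _ => ?_
  rw [Summable.tsum_finsetSum (fun b _ => summable_wF hw hK _)]

lemma CS_smul_sy {f : Eis → ℂ} (hf : ∀ n, f n ≠ 0 → IsPrim n) (s r : Eis) :
    CS f (s * r) = CS (fun n => f n * sy s n) r := by
  unfold CS
  refine tsum_congr fun n => ?_
  by_cases h : f n = 0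
  · simp [h]
  · rw [syG.mul_left _ _ _ (hf n h)]; ring

lemma dvs_eq_pdiv {g : Eis} (hg : g ≠ 0) : dvs g = pdiv g := by
  ext x
  rw [mem_dvs hg]

/-- removal of the common part -/
theorem PR_eq {w : ℝ → ℝ} (hw : Wgt w) {K : ℝ} (hK : 0 < K) {M : Eis} {ψ : Eis → ℂ}
    (hψ : LC M ψ) {U V : Eis → ℂ}
    (hU : ∀ n, U n ≠ 0 → IsPrim n) (hV : ∀ n, V n ≠ 0 → IsPrim n) {g p q : Eis}
    (hg : IsPrim g) (hp : IsPrim p) (hq : IsPrim q) :
    PR w K ψ (g * p) (g * q) U V = ∑ s ∈ pdiv g, (mu s : ℂ) * ψ s * (conj (sy s p) * sy s q) *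
      PR1 w (K / nm s) ψ p q (fun n => U n * sy s n) (fun n => V n * sy s n) := by
  set F : Eis → ℂ := fun r => (if IsPrim r then ψ r * (conj (sy r p) * sy r q *
    (CS U r * conj (CS V r))) else 0) * ((w (nm r / K) : ℝ) : ℂ) with hF
  have e1 : ∀ r : Eis, (if IsPrim r then ψ r * ((conj (sy r (g * p)) * CS U r) *
      conj (conj (sy r (g * q)) * CS V r)) else 0) * ((w (nm r / K) : ℝ) : ℂ) =
      ∑ s ∈ pdiv g, (mu s : ℂ) * (if s ∣ r then F r else 0) := by
    intro r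
    by_cases hr : IsPrim r
    · have e2 : ∑ s ∈ pdiv g, (mu s : ℂ) * (if s ∣ r then F r else 0) =
          (((if IsCoprime r g then (1 : ℤ) else 0 : ℤ)) : ℂ) * F r := by
        rw [← sum_mu_coprime hr hg.ne_zero]
        push_cast
        rw [Finset.sum_mul]
        refine Finset.sum_congr rfl fun s _ => ?_
        split_ifs <;> simp
      rw [e2, hF]
      simp only [if_pos hr]
      rw [syG.mul_right _ _ _ hg hp, syG.mul_right _ _ _ hg hq]
      by_cases hc : IsCoprime r g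
      · rw [if_pos hc]
        have h1 : sy r g * conj (sy r g) = 1 := by
          rw [Complex.mul_conj, Complex.normSq_eq_norm_sq,
            Char766.norm_sy hg hc]
          simp
        simp only [map_mul, Complex.conj_conj]
        push_cast
        linear_combination (ψ r * (conj (sy r p) * sy r q * (CS U r * conj (CS V r))) *
          ((w (nm r / K) : ℝ) : ℂ)) * h1
      · rw [if_neg hc, (syG.eq_zero r g hg).mpr hc]
        simp
    · rw [if_neg hr, zero_mul]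
      symm
      refine Finset.sum_eq_zero fun s _ => ?_
      have : F r = 0 := by rw [hF]; simp [hr]
      rw [this]; simp
  have hFs : Summable F := summable_wF hw hK _
  have hs : ∀ s ∈ pdiv g, Summable fun r : Eis => (mu s : ℂ) * (if s ∣ r then F r else 0) := by
    intro s _
    refine Summable.mul_left _ ?_
    refine summable_of_hasFiniteSupport ((hw.finite_support hK).subset fun r hr h0 => hr ?_)
    have : w (nm r / K) = 0 := h0
    have hF0 : F r = 0 := by rw [hF]; simp [this]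
    show (if s ∣ r then F r else 0) = 0
    rw [hF0]; simp
  unfold PR
  rw [tsum_congr e1, Summable.tsum_finsetSum hs]
  refine Finset.sum_congr rfl fun s hs' => ?_
  obtain ⟨hsp, hsd⟩ := (mem_pdiv hg.ne_zero).mp hs'
  rw [tsum_mul_left, mul_assoc (mu s : ℂ), mul_assoc (mu s : ℂ)]
  congr 1
  have hinj : Function.Injective fun r : Eis => s * r :=
    fun a b h => mul_left_cancel₀ hsp.ne_zero h
  have e3 : ∑' r, (if s ∣ r then F r else 0) = ∑' r, F (s * r) := by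
    rw [← hinj.tsum_eq (f := fun r => if s ∣ r then F r else 0)]
    · refine tsum_congr fun r => ?_
      rw [if_pos (dvd_mul_right s r)]
    · intro r hr
      have : s ∣ r := by
        by_contra h
        exact hr (by simp [h])
      obtain ⟨c, hc⟩ := this
      exact ⟨c, hc.symm⟩
  rw [e3]
  unfold PR1
  rw [← tsum_mul_left]
  refine tsum_congr fun r => ?_
  rw [hF]
  beta_reduce
  have hsr : IsPrim (s * r) ↔ IsPrim r :=
    ⟨fun h => IsPrim.of_mul_left h hsp, fun h => hsp.mul h⟩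
  have e4 : (nm (s * r) : ℝ) / K = nm r / (K / nm s) := by
    have n1 := nmpos hsp.ne_zero
    rw [nm_mul]; push_cast; field_simp
  rw [e4]
  by_cases hr : IsPrim r
  · rw [if_pos (hsr.mpr hr), if_pos hr, hψ.mul _ _ hsp hr, syG.mul_left _ _ _ hp,
      syG.mul_left _ _ _ hq, CS_smul_sy hU, CS_smul_sy hV]
    simp only [map_mul]
    ring
  · rw [if_neg (fun h => hr (hsr.mp h)), if_neg hr]
    ring

end Crest.Agent.R017.E3P842
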