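import Crest.Agent.R017.E3Sg_290
import Crest.Agent.R017.E3D_579

/-!
# Row 17, block C70, leaf E3 (S), families of cells (helper290)

`EQ_uS_smul` : weights go into the coefficients;
`fam` : the decaying sum over the modes for a weighted family.
-/

set_option autoImplicit false

noncomputable section

open Complex MeasureTheory
open scoped ComplexConjugate Classical

namespace Crest.Agent.R017.E3Sb290

open Crest.Agent.R012 Crest.Agent.R012.Eis
open Crest.Agent.R012.LS2 (S mem_S bl mem_bl)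
open Crest.Agent.R017.CM106 (CS TG FS)
open Crest.Agent.R017.BD829
open Crest.Agent.R017.E3D579 (uS EQ_smul)

lemma CS_smul (c : ℂ) (b : Eis → ℂ) (n : Eis) : CS (fun m => c * b m) n = c * CS b n := by
  unfold CS
  rw [← tsum_mul_left]
  exact tsum_congr fun m => by ring

lemma uS_smul (om : ℝ → ℂ) (r : Eis) (c : ℂ) (b : Eis → ℂ) :
    uS om r (fun m => c * b m) = fun n => c * uS om r b n := by
  funext n
  unfold uS
  split_ifs
  · rw [CS_smul]; ring
  · rw [mul_zero]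

/-- weights go into the coefficients -/
theorem EQ_uS_smul (A : ℝ) (om : ℝ → ℂ) (r : Eis) {c : ℝ} (hc : 0 ≤ c) (b : Eis → ℂ) (H : Eis) :
    EQ A (uS om r (fun m => ((Real.sqrt c : ℝ) : ℂ) * b m)) H = c * EQ A (uS om r b) H := by
  rw [uS_smul, EQ_smul, Complex.norm_real, Real.norm_of_nonneg (Real.sqrt_nonneg _),
    Real.sq_sqrt hc]

/-- monotonicity of the decaying weight in the scale -/
lemma Wl_mono (B : ℕ) {l l' : ℝ} (hl : 0 < l) (h : l ≤ l') (x : Eis) : Wl B l x ≤ Wl B l' x := by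
  unfold Wl
  have hx : (0 : ℝ) ≤ nm x := Nat.cast_nonneg _
  have h1 : (nm x : ℝ) / l' ≤ nm x / l := div_le_div_of_nonneg_left hx hl h
  have h2 : 0 < l' := hl.trans_le h
  refine inv_anti₀ (by positivity) (pow_le_pow_left₀ (by positivity) (by linarith) B)

/-- the finite sums over the modes -/
lemma part_W_le {F : Eis → ℝ} (hF : ∀ h, 0 ≤ F h) {G : ℝ → ℝ} {a B : ℕ} (hB : a + 1 ≤ B)
    (hG : ∀ L, 1 ≤ L → ∑ h ∈ bl L, F h ≤ G L) (hG2 : ∀ L, 1 ≤ L → G (2 * L) ≤ 2 ^ a * G L)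
    {lm : ℝ} (hl : 0 < lm) (s : Finset Eis) :
    ∑ h ∈ s, (if h = 0 then 0 else Wl B lm h * F h) ≤
      (1 + 2 ^ (a + 1)) * ((min 1 lm) ^ B * G (max 1 lm)) := by
  have h0 := tsum_W_le (F := fun h => if h ∈ s then F h else 0) (G := G)
    (fun h => by split_ifs; exacts [hF h, le_rfl]) hB
    (fun L hL => le_trans (Finset.sum_le_sum fun h _ => by
      split_ifs; exacts [le_rfl, hF h]) (hG L hL)) hG2 hl
  refine le_trans (le_of_eq ?_) h0
  rw [tsum_eq_sum (s := s)]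
  · refine Finset.sum_congr rfl fun h hh => ?_
    rw [if_pos hh]
  · intro h hh
    rw [if_neg hh]; simp

/-- summability over the modes -/
lemma summable_W {F : Eis → ℝ} (hF : ∀ h, 0 ≤ F h) {G : ℝ → ℝ} {a B : ℕ} (hB : a + 1 ≤ B)
    (hG : ∀ L, 1 ≤ L → ∑ h ∈ bl L, F h ≤ G L) (hG2 : ∀ L, 1 ≤ L → G (2 * L) ≤ 2 ^ a * G L)
    {lm : ℝ} (hl : 0 < lm) : Summable fun h : Eis => if h = 0 then 0 else Wl B lm h * F h := by
  refine summable_of_sum_le (fun h => ?_) (part_W_le hF hB hG hG2 hl)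
  show (0 : ℝ) ≤ if h = 0 then 0 else Wl B lm h * F h
  split_ifs
  · exact le_rfl
  · exact mul_nonneg (Wl_nonneg B hl.le h) (hF h)

/-- **the decaying sum over the modes for a family** -/
theorem fam {ι : Type*} {O : Finset ι} {lam : ι → ℝ} {F : ι → Eis → ℝ} {lm : ℝ} (hlm : 0 < lm)
    (hlam : ∀ o ∈ O, 0 < lam o ∧ lam o ≤ lm) (hF : ∀ o ∈ O, ∀ h, 0 ≤ F o h) {G : ℝ → ℝ} {a B : ℕ}
    (hB : a + 1 ≤ B) (hG : ∀ L, 1 ≤ L → ∑ o ∈ O, ∑ h ∈ bl L, F o h ≤ G L)
    (hG2 : ∀ L, 1 ≤ L → G (2 * L) ≤ 2 ^ a * G L) :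
    ∑ o ∈ O, ∑' h : Eis, (if h = 0 then 0 else Wl B (lam o) h * F o h) ≤
      (1 + 2 ^ (a + 1)) * ((min 1 lm) ^ B * G (max 1 lm)) := by
  have hf : ∀ h, 0 ≤ ∑ o ∈ O, F o h := fun h => Finset.sum_nonneg fun o ho => hF o ho h
  have hG' : ∀ L, 1 ≤ L → ∑ h ∈ bl L, ∑ o ∈ O, F o h ≤ G L := fun L hL => by
    rw [Finset.sum_comm]; exact hG L hL
  have hle : ∀ h : Eis, (∑ o ∈ O, if h = 0 then 0 else Wl B (lam o) h * F o h) ≤
      if h = 0 then 0 else Wl B lm h * ∑ o ∈ O, F o h := by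
    intro h
    by_cases h1 : h = 0
    · simp [h1]
    · simp only [if_neg h1]
      rw [Finset.mul_sum]
      exact Finset.sum_le_sum fun o ho =>
        mul_le_mul_of_nonneg_right (Wl_mono B (hlam o ho).1 (hlam o ho).2 h) (hF o ho h)
  have hsm := summable_W hf hB hG' hG2 hlm
  have hs : ∀ o ∈ O, Summable fun h : Eis => if h = 0 then 0 else Wl B (lam o) h * F o h := by
    intro o ho
    refine Summable.of_nonneg_of_le (fun h => ?_) (fun h => ?_) hsm
    · split_ifs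
      · exact le_rfl
      · exact mul_nonneg (Wl_nonneg B (hlam o ho).1.le h) (hF o ho h)
    · refine le_trans ?_ (hle h)
      refine Finset.single_le_sum (f := fun o => if h = 0 then 0 else Wl B (lam o) h * F o h)
        (fun o' ho' => ?_) ho
      show (0 : ℝ) ≤ if h = 0 then 0 else Wl B (lam o') h * F o' h
      split_ifs
      · exact le_rfl
      · exact mul_nonneg (Wl_nonneg B (hlam o' ho').1.le h) (hF o' ho' h)
  rw [← Summable.tsum_finsetSum hs]
  exact (Summable.tsum_le_tsum hle (summable_sum hs) hsm).trans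
    (tsum_W_le hf hB hG' hG2 hlm)

end Crest.Agent.R017.E3Sb290
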