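import Crest.Agent.R017.E3Db_579
import Crest.Agent.R017.E3P5_842

/-!
# Row 17, block C70, leaf E3 (S-mode), one-side identification (helper579)

* `rs_ua_eq` : 842's `rs (ua U q a) ψ D F` for `U n = sy s n * uS om r b n`
* `EQ_rs_ua` : `EQ A (rs (ua U q a) ψ D F) (Hf M E x F * Z)` is a constant times
  `EQ A (ψ · uS ..) (x * ((E M √-3 s)² Z))` (no `F` in the twist)
* `sum_EQ_rs_ua` : the sum over `x ∈ bl L` and `F ∈ S Y` of `PD.ModeP_le`
-/

set_option autoImplicit false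
set_option linter.unusedVariables false

noncomputable section

open Complex MeasureTheory
open scoped ComplexConjugate Classical

namespace Crest.Agent.R017.E3Sd579

open Crest.Agent.R012 Crest.Agent.R012.Eis Crest.Agent.R012.MC
open Crest.Agent.R012.LS2 (S mem_S bl mem_bl)
open Crest.Agent.R012.Weight600 (pw)
open Crest.Agent.R017.PX764 (Gh n6 n6_mul norm_Gh_one Gh_mul_conj Gh_zero norm_sy_one)
open Crest.Agent.R017.CM106 (CS TG FS)
open Crest.Agent.R017.BD829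
open Crest.Agent.R017.E3P842
open Crest.Agent.R017.E3D579
open Crest.Agent.R017.E1551 (jb jb_pos nmpos)
open Gauss880 (syG)

variable {om : ℝ → ℂ} {r s : Eis} {b : Eis → ℂ} {M : Eis} {ψ : Eis → ℂ}

/-- `U n = sy s n * uS om r b n` -/
def Us (s : Eis) (om : ℝ → ℂ) (r : Eis) (b : Eis → ℂ) (n : Eis) : ℂ := sy s n * uS om r b n

/-- `ψ · uS` -/
def pS (ψ : Eis → ℂ) (om : ℝ → ℂ) (r : Eis) (b : Eis → ℂ) (n : Eis) : ℂ := ψ n * uS om r b n

lemma pS_supp {n : Eis} (h : pS ψ om r b n ≠ 0) :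
    IsPrim n ∧ Squarefree n ∧ IsCoprime n r ∧ om (nm n) ≠ 0 := by
  unfold pS at h
  exact uS_supp (right_ne_zero_of_mul h)

/-- the constant -/
def cU (s r q a D F : Eis) : ℂ :=
  if IsCoprime (D * F) q then sy s (a * D * F) * cK r (a * D * F) else 0

/-- **the sequences of 842's pair** -/
theorem rs_ua_eq (hψ : ∀ a b, IsPrim a → IsPrim b → ψ (a * b) = ψ a * ψ b) (hb : FS b)
    {q a D F : Eis} (ha : IsPrim a) (hD : IsPrim D) (hF : IsPrim F) (μ : Eis) :
    rs (ua (Us s om r b) q a) ψ D F μ =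
      cU s r q a D F * (sy s μ * (sy F μ *
        pS ψ (fun x => om ((nm (a * D * F) : ℝ) * x)) (r * q * (a * D * F)) (bF (a * D) F b) μ)) := by
  have hκ : IsPrim (a * D * F) := (ha.mul hD).mul hF
  have e0 : a * (D * F * μ) = a * D * F * μ := by ring
  unfold rs ua Us cU pS
  rw [e0, uS_mul_F om r hb (ha.mul hD) hF μ]
  have e9 : r * q * (a * D * F) = r * (a * D * F) * q := by ring
  rw [e9, ← uS_cop _ (r * (a * D * F)) q]
  by_cases h1 : uS (fun x => om ((nm (a * D * F) : ℝ) * x)) (r * (a * D * F))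
      (bF (a * D) F b) μ = 0
  · rw [h1]; simp
  · have hμ := (uS_supp h1).1
    rw [sy_mulR hκ hμ]
    by_cases h2 : IsCoprime (D * F) q
    · by_cases h3 : IsCoprime μ q
      · rw [if_pos (h2.mul_left h3), if_pos h2, if_pos h3]; ring
      · rw [if_neg (fun h => h3 h.of_mul_left_right), if_pos h2, if_neg h3]; ring
    · rw [if_neg (fun h => h2 h.of_mul_left_left), if_neg h2]; ring

/-- the linear sums -/
theorem TT_rs_ua (hψ : ∀ a b, IsPrim a → IsPrim b → ψ (a * b) = ψ a * ψ b) (hb : FS b)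
    {q a D F : Eis} (ha : IsPrim a) (hD : IsPrim D) (hF : IsPrim F) (E x Z : Eis) (t : ℝ) :
    TT (rs (ua (Us s om r b) q a) ψ D F) (Hf M E x F * Z) t =
      cU s r q a D F * TT (pS ψ (fun x => om ((nm (a * D * F) : ℝ) * x)) (r * q * (a * D * F))
        (bF (a * D) F b)) (x * ((E * (M * sq3) * s) ^ 2 * Z)) t := by
  set u := pS ψ (fun x => om ((nm (a * D * F) : ℝ) * x)) (r * q * (a * D * F)) (bF (a * D) F b)
    with hu
  have e1 : rs (ua (Us s om r b) q a) ψ D F =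
      fun μ => cU s r q a D F * (sy (s * F) μ * u μ) := by
    funext μ
    rw [rs_ua_eq hψ hb ha hD hF μ]
    by_cases h : u μ = 0
    · rw [← hu, h]; simp
    · rw [sy_mulL (pS_supp h).1]; ring
  rw [e1, TT_smul, TT_sy (fun n hn => (pS_supp hn).1)]
  have e2 : Hf M E x F * Z * (s * F) ^ 2 = (x * ((E * (M * sq3) * s) ^ 2 * Z)) * F ^ 3 := by
    unfold Hf; ring
  rw [e2, TT_cube]
  intro n hn
  obtain ⟨h1, -, h2, -⟩ := pS_supp hn
  exact ⟨h1, h2.of_mul_right_right.of_mul_right_right.symm⟩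

/-- **one side** -/
theorem EQ_rs_ua (A : ℝ) (hψ : ∀ a b, IsPrim a → IsPrim b → ψ (a * b) = ψ a * ψ b) (hb : FS b)
    {q a D F : Eis} (ha : IsPrim a) (hD : IsPrim D) (hF : IsPrim F) (E x Z : Eis) :
    EQ A (rs (ua (Us s om r b) q a) ψ D F) (Hf M E x F * Z) =
      ‖cU s r q a D F‖ ^ 2 * EQ A (pS ψ (fun x => om ((nm (a * D * F) : ℝ) * x))
        (r * q * (a * D * F)) (bF (a * D) F b)) (x * ((E * (M * sq3) * s) ^ 2 * Z)) := by
  unfold EQ
  rw [← integral_const_mul]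
  refine integral_congr_ae (Filter.Eventually.of_forall fun t => ?_)
  beta_reduce
  rw [TT_rs_ua hψ hb ha hD hF, norm_mul, mul_pow]; ring

lemma n6_sq {n : Eis} (hn : n ≠ 0) : n6 n ^ 2 = (nm n : ℝ) ^ (-(1 / 3) : ℝ) := by
  unfold n6
  rw [← Real.rpow_natCast, ← Real.rpow_mul (Nat.cast_nonneg _)]
  norm_num

/-- the size of the constant -/
lemma norm_cU_le (s r : Eis) {q a D F : Eis} (ha : IsPrim a) (hD : IsPrim D) (hF : IsPrim F) :
    ‖cU s r q a D F‖ ^ 2 ≤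
      if Squarefree (a * D * F) ∧ IsCoprime (a * D * F) r ∧ IsCoprime (D * F) q then
        (nm (a * D * F) : ℝ) ^ (-(1 / 3) : ℝ) else 0 := by
  have hκ : IsPrim (a * D * F) := (ha.mul hD).mul hF
  unfold cU
  by_cases h1 : IsCoprime (D * F) q
  · rw [if_pos h1]
    by_cases h2 : Squarefree (a * D * F) ∧ IsCoprime (a * D * F) r
    · rw [if_pos ⟨h2.1, h2.2, h1⟩, ← n6_sq hκ.ne_zero, norm_mul]
      have h3 : ‖sy s (a * D * F)‖ ≤ 1 := Gauss880.norm_sy_le syG hκ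
      have h4 := norm_cK_le r hκ
      have h5 : ‖sy s (a * D * F)‖ * ‖cK r (a * D * F)‖ ≤ 1 * n6 (a * D * F) :=
        mul_le_mul h3 h4 (norm_nonneg _) zero_le_one
      rw [one_mul] at h5
      gcongr
    · rw [if_neg (fun h => h2 ⟨h.1, h.2.1⟩)]
      unfold cK
      rw [if_neg h2]; simp
  · rw [if_neg h1, if_neg (fun h => h1 h.2.2)]; simp

/-- **the one-side sum of `PD.ModeP_le`** -/
theorem sum_EQ_rs_ua {A : ℝ} (hψ : ∀ a b, IsPrim a → IsPrim b → ψ (a * b) = ψ a * ψ b)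
    (hb : FS b) {p q a D : Eis} (ha : IsPrim a) (hD : IsPrim D) (E Z : Eis) {Y : ℝ} (hY : 0 ≤ Y)
    (L : ℝ) :
    ∑ x ∈ bl L, ∑ F ∈ S Y, (if IsCoprime (D * F) (p * q) then
      EQ A (rs (ua (Us s om r b) q a) ψ D F) (Hf M E x F * Z) else 0) ≤
    ∑ F ∈ S Y, (if Squarefree (a * D * F) ∧ IsCoprime (a * D * F) r ∧ IsCoprime (D * F) (p * q) then
      (nm (a * D * F) : ℝ) ^ (-(1 / 3) : ℝ) * ∑ x ∈ bl L,
        EQ A (pS ψ (fun x => om ((nm (a * D * F) : ℝ) * x)) (r * q * (a * D * F)) (bF (a * D) F b))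
          (x * ((E * (M * sq3) * s) ^ 2 * Z)) else 0) := by
  rw [Finset.sum_comm]
  refine Finset.sum_le_sum fun F hF => ?_
  have hFp := ((mem_S hY).1 hF).2.1
  by_cases h1 : IsCoprime (D * F) (p * q)
  · have h1q : IsCoprime (D * F) q := h1.of_mul_right_right
    simp only [if_pos h1]
    have hc := norm_cU_le s r (q := q) ha hD hFp
    by_cases h2 : Squarefree (a * D * F) ∧ IsCoprime (a * D * F) r
    · rw [if_pos ⟨h2.1, h2.2, h1⟩, Finset.mul_sum]
      rw [if_pos ⟨h2.1, h2.2, h1q⟩] at hc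
      refine Finset.sum_le_sum fun x _ => ?_
      rw [EQ_rs_ua A hψ hb ha hD hFp]
      exact mul_le_mul_of_nonneg_right hc (EQ_nonneg _ _ _)
    · rw [if_neg (fun h => h2 ⟨h.1, h.2.1⟩)]
      rw [if_neg (fun h => h2 ⟨h.1, h.2.1⟩)] at hc
      have hc0 : ‖cU s r q a D F‖ ^ 2 = 0 := le_antisymm hc (by positivity)
      refine (Finset.sum_eq_zero fun x _ => ?_).le
      rw [EQ_rs_ua A hψ hb ha hD hFp, hc0, zero_mul]
  · simp only [if_neg h1]
    rw [if_neg (fun h => h1 h.2.2)]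
    simp

end Crest.Agent.R017.E3Sd579
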