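import Crest.Agent.R017.E3Sd_579
import Crest.Agent.R017.E1c_146

/-!
# Row 17, block C70, leaf E3 (T2): smooth factors removed from `EQ` by Fourier (helper579)

* `EQ_kernel` : `v n = u n * ∫ k(ξ) e^{iξ(log N(n) - x₀)}`, `‖k ξ‖ (1+|ξ|)^{A+2} ≤ D` gives
  `EQ A v H ≤ (D ∫ (1+|ξ|)^{-2})² EQ A u H`
* `EQ_phase` : the phase `N(n)^{iτ}` costs `(1+|τ|)^A`
* `EQ_smooth` : a smooth factor with bounded derivatives near the support
-/

set_option autoImplicit false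
set_option linter.unusedVariables false

noncomputable section

open Complex MeasureTheory
open scoped ComplexConjugate Classical

namespace Crest.Agent.R017.E3Se579

open Crest.Agent.R012 Crest.Agent.R012.Eis Crest.Agent.R012.MC
open Crest.Agent.R012.LS2 (S mem_S bl mem_bl)
open Crest.Agent.R012.Weight600 (pw osc norm_osc norm_pw osc_add_left osc_add_right
  continuous_osc_left pw_add_left)
open Crest.Agent.R017.PX764 (Gh)
open Crest.Agent.R017.CM106 (CS TG FS)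
open Crest.Agent.R017.BD829
open Crest.Agent.R017.E1551 (jb jb_pos nmpos continuous_jb integrable_jb integrable_jb_mul)
open Crest.Agent.R017.E3D579 (uS uS_supp TT_smul)
open Crest.Agent.R017.E3Sd579 (pS pS_supp)
open scoped ContDiff

lemma jb_nat (A : ℕ) (x : ℝ) : jb A x = ((1 + |x|) ^ A)⁻¹ := by
  unfold jb
  rw [Real.rpow_neg (by positivity), Real.rpow_natCast]

lemma jb_shift (A : ℕ) (s ξ : ℝ) : jb A (s - ξ) ≤ (1 + |ξ|) ^ A * jb A s := by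
  rw [jb_nat, jb_nat]
  have h1 : 1 + |s| ≤ (1 + |s - ξ|) * (1 + |ξ|) := by
    have h2 : |s| ≤ |s - ξ| + |ξ| := by
      calc |s| = |(s - ξ) + ξ| := by ring_nf
        _ ≤ _ := abs_add_le _ _
    nlinarith [abs_nonneg (s - ξ), abs_nonneg ξ, mul_nonneg (abs_nonneg (s - ξ)) (abs_nonneg ξ)]
  have h3 : (1 + |s|) ^ A ≤ ((1 + |s - ξ|) * (1 + |ξ|)) ^ A := by gcongr
  rw [mul_pow] at h3
  have p1 : 0 < (1 + |s|) ^ A := by positivity
  have p2 : 0 < (1 + |s - ξ|) ^ A := by positivity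
  rw [inv_le_iff_one_le_mul₀ p2, mul_comm ((1 + |ξ|) ^ A), mul_assoc, ← div_eq_inv_mul,
    le_div_iff₀ p1, one_mul, mul_comm]
  exact h3

/-- Cauchy-Schwarz -/
lemma int_sq_le {k : ℝ → ℂ} {f : ℝ → ℝ} (hk : Integrable k) (hf : Continuous f) {B : ℝ}
    (hb : ∀ u, |f u| ≤ B) :
    (∫ u, ‖k u‖ * f u) ^ 2 ≤ (∫ u, ‖k u‖) * ∫ u, ‖k u‖ * f u ^ 2 := by
  have hB : 0 ≤ B := (abs_nonneg _).trans (hb 0)
  have i1 : Integrable (fun u : ℝ => ‖k u‖ * f u) :=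
    hk.norm.mul_bdd (c := B) hf.aestronglyMeasurable
      (Filter.Eventually.of_forall fun u => by rw [Real.norm_eq_abs]; exact hb u)
  have i2 : Integrable (fun u : ℝ => ‖k u‖ * f u ^ 2) :=
    hk.norm.mul_bdd (c := B ^ 2) (hf.pow 2).aestronglyMeasurable
      (Filter.Eventually.of_forall fun u => by
        rw [norm_pow, Real.norm_eq_abs]
        exact pow_le_pow_left₀ (abs_nonneg _) (hb u) 2)
  set I := ∫ u, ‖k u‖ with hI
  set a := ∫ u, ‖k u‖ * f u with ha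
  have hI0 : 0 ≤ I := integral_nonneg fun _ => norm_nonneg _
  rcases hI0.eq_or_lt with h0 | h0
  · have h1 : |a| ≤ I * B := by
      rw [ha, hI, ← integral_mul_const]
      refine (abs_integral_le_integral_abs).trans (integral_mono i1.abs (hk.norm.mul_const _)
        fun u => ?_)
      rw [abs_mul, abs_norm]
      exact mul_le_mul_of_nonneg_left (hb u) (norm_nonneg _)
    rw [← h0, zero_mul] at h1
    have h2 : a = 0 := abs_eq_zero.mp (le_antisymm h1 (abs_nonneg _))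
    rw [h2, ← h0]; simp
  · have h1 : 0 ≤ ∫ u, ‖k u‖ * (I * f u - a) ^ 2 :=
      integral_nonneg fun u => mul_nonneg (norm_nonneg _) (sq_nonneg _)
    have h2 : ∫ u, ‖k u‖ * (I * f u - a) ^ 2 =
        I ^ 2 * (∫ u, ‖k u‖ * f u ^ 2) - 2 * I * a * a + a ^ 2 * I := by
      have e : ∀ u, ‖k u‖ * (I * f u - a) ^ 2 =
          (I ^ 2 * (‖k u‖ * f u ^ 2) - 2 * I * a * (‖k u‖ * f u)) + a ^ 2 * ‖k u‖ :=
        fun u => by ring
      have i3 : Integrable (fun u => I ^ 2 * (‖k u‖ * f u ^ 2) - 2 * I * a * (‖k u‖ * f u)) :=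
        (i2.const_mul _).sub (i1.const_mul _)
      simp_rw [e]
      rw [integral_add i3 (hk.norm.const_mul _),
        integral_sub (i2.const_mul _) (i1.const_mul _), integral_const_mul, integral_const_mul,
        integral_const_mul]
    rw [h2] at h1
    have h3 : 0 ≤ I * (I * (∫ u, ‖k u‖ * f u ^ 2) - a ^ 2) := by linarith
    have h4 := nonneg_of_mul_nonneg_right h3 h0
    linarith

/-- the linear sum with a kernel factor -/
lemma TT_kernel {Y : ℝ} (hY : 0 ≤ Y) {u v : Eis → ℂ} (hu : ∀ n, u n ≠ 0 → n ∈ S Y) {k : ℝ → ℂ}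
    (hk : Integrable k) {x₀ : ℝ}
    (hv : ∀ n, v n = u n * ∫ ξ, k ξ * osc ξ (Real.log (nm n) - x₀)) (H : Eis) (t : ℝ) :
    TT v H t = ∫ ξ, (k ξ * osc ξ (-x₀)) * TT u H (t + ξ) := by
  have hv' : ∀ n, v n ≠ 0 → n ∈ S Y := fun n hn => hu n fun h => hn (by rw [hv, h, zero_mul])
  rw [TT_fin hv']
  have e1 : ∀ ξ, (k ξ * osc ξ (-x₀)) * TT u H (t + ξ) =
      ∑ m ∈ S Y, (u m * Gh H m * pw t (nm m)) * (k ξ * osc ξ (Real.log (nm m) - x₀)) := by
    intro ξ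
    rw [TT_fin hu, Finset.mul_sum]
    refine Finset.sum_congr rfl fun m _ => ?_
    rw [pw_add_left]
    have e2 : osc ξ (Real.log (nm m) - x₀) = osc ξ (-x₀) * pw ξ (nm m) := by
      unfold pw
      rw [← osc_add_right]; congr 1; ring
    rw [e2]; ring
  simp_rw [e1]
  rw [integral_finsetSum]
  · refine Finset.sum_congr rfl fun m _ => ?_
    rw [integral_const_mul, hv]; ring
  · intro m _
    refine Integrable.const_mul ?_ _
    refine hk.mul_bdd (c := 1) (continuous_osc_left _).aestronglyMeasurable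
      (Filter.Eventually.of_forall fun ξ => (norm_osc _ _).le)

lemma int_shift_le {A : ℕ} (hA : 1 < A) {Y : ℝ} (hY : 0 ≤ Y) {u : Eis → ℂ}
    (hu : ∀ n, u n ≠ 0 → n ∈ S Y) (H : Eis) (ξ : ℝ) :
    ∫ s, jb A (s - ξ) * ‖TT u H s‖ ^ 2 ≤ (1 + |ξ|) ^ A * EQ A u H := by
  have hA' : (1 : ℝ) < (A : ℝ) := by exact_mod_cast hA
  have hc : Continuous fun t => ‖TT u H t‖ := (continuous_TT hu H).norm
  unfold EQ
  rw [← integral_const_mul]
  refine integral_mono ?_ ((integrable_EQ hA' hY hu H).const_mul _) fun s => ?_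
  · have h2 : Integrable fun s => jb A (s - ξ) := (integrable_jb hA').comp_sub_right ξ
    refine h2.mul_bdd (c := (∑ n ∈ S Y, ‖u n‖) ^ 2) (hc.pow 2).aestronglyMeasurable
      (Filter.Eventually.of_forall fun s => ?_)
    rw [norm_pow, norm_norm]
    exact pow_le_pow_left₀ (norm_nonneg _) (norm_TT_le hY hu H _) 2
  · calc jb A (s - ξ) * ‖TT u H s‖ ^ 2 ≤ ((1 + |ξ|) ^ A * jb A s) * ‖TT u H s‖ ^ 2 :=
          mul_le_mul_of_nonneg_right (jb_shift A s ξ) (by positivity)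
      _ = _ := by ring

/-- **Fourier removal** -/
theorem EQ_kernel {A : ℕ} (hA : 1 < A) {Y : ℝ} (hY : 0 ≤ Y) {u v : Eis → ℂ}
    (hu : ∀ n, u n ≠ 0 → n ∈ S Y) {k : ℝ → ℂ} (hkc : Continuous k) (hk : Integrable k) {D : ℝ}
    (hkb : ∀ ξ, ‖k ξ‖ * (1 + |ξ|) ^ (A + 2) ≤ D) {x₀ : ℝ}
    (hv : ∀ n, v n = u n * ∫ ξ, k ξ * osc ξ (Real.log (nm n) - x₀)) (H : Eis) :
    EQ A v H ≤ (D * ∫ ξ, jb 2 ξ) ^ 2 * EQ A u H := by
  have hA' : (1 : ℝ) < (A : ℝ) := by exact_mod_cast hA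
  have hD : 0 ≤ D := (by positivity : (0 : ℝ) ≤ ‖k 0‖ * (1 + |(0 : ℝ)|) ^ (A + 2)).trans (hkb 0)
  have hv' : ∀ n, v n ≠ 0 → n ∈ S Y := fun n hn => hu n fun h => hn (by rw [hv, h, zero_mul])
  set B := ∑ n ∈ S Y, ‖u n‖ with hB
  have hBt : ∀ t, ‖TT u H t‖ ≤ B := fun t => norm_TT_le hY hu H t
  have hc : Continuous fun t => ‖TT u H t‖ := (continuous_TT hu H).norm
  have i2 : Integrable (jb 2) := integrable_jb (by norm_num)
  have hk2 : ∀ ξ, ‖k ξ‖ ≤ D * jb 2 ξ * jb A ξ := by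
    intro ξ
    have h1 := hkb ξ
    have h2 : jb 2 ξ = ((1 + |ξ|) ^ 2)⁻¹ := by
      have := jb_nat 2 ξ
      push_cast at this
      exact this
    rw [h2, jb_nat, mul_assoc, ← mul_inv, ← pow_add, ← div_eq_mul_inv,
      le_div_iff₀ (by positivity), add_comm 2 A]
    exact h1
  have hj1 : ∀ ξ, jb A ξ ≤ 1 := by
    intro ξ
    rw [jb_nat]
    exact inv_le_one_of_one_le₀ (one_le_pow₀ (by linarith [abs_nonneg ξ]))
  have hI : ∫ ξ, ‖k ξ‖ ≤ D * ∫ ξ, jb 2 ξ := by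
    rw [← integral_const_mul]
    refine integral_mono hk.norm (i2.const_mul _) fun ξ => (hk2 ξ).trans ?_
    calc D * jb 2 ξ * jb A ξ ≤ D * jb 2 ξ * 1 :=
          mul_le_mul_of_nonneg_left (hj1 ξ) (mul_nonneg hD (jb_pos _ _).le)
      _ = _ := mul_one _
  -- pointwise
  have hpt : ∀ t, ‖TT v H t‖ ^ 2 ≤ (∫ ξ, ‖k ξ‖) * ∫ ξ, ‖k ξ‖ * ‖TT u H (t + ξ)‖ ^ 2 := by
    intro t
    rw [TT_kernel hY hu hk hv H t]
    have h1 : ‖∫ ξ, (k ξ * osc ξ (-x₀)) * TT u H (t + ξ)‖ ≤ ∫ ξ, ‖k ξ‖ * ‖TT u H (t + ξ)‖ := by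
      refine (norm_integral_le_integral_norm _).trans (le_of_eq ?_)
      congr 1; funext ξ
      rw [norm_mul, norm_mul, norm_osc, mul_one]
    refine (pow_le_pow_left₀ (norm_nonneg _) h1 2).trans ?_
    exact int_sq_le hk (hc.comp (continuous_const.add continuous_id)) (B := B)
      (fun ξ => by rw [abs_norm]; exact hBt _)
  -- the double integral
  have hprod : Integrable (fun p : ℝ × ℝ => jb A p.1 * (‖k p.2‖ * ‖TT u H (p.1 + p.2)‖ ^ 2))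
      (volume.prod volume) := by
    have h1 : Integrable (fun p : ℝ × ℝ => jb A p.1 * ‖k p.2‖) (volume.prod volume) :=
      (integrable_jb hA').mul_prod hk.norm
    have h2 := h1.mul_bdd (c := B ^ 2) (g := fun p : ℝ × ℝ => ‖TT u H (p.1 + p.2)‖ ^ 2)
      (((hc.comp (continuous_fst.add continuous_snd)).pow 2).aestronglyMeasurable)
      (Filter.Eventually.of_forall fun p => by
        rw [norm_pow, norm_norm]
        exact pow_le_pow_left₀ (norm_nonneg _) (hBt _) 2)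
    refine h2.congr (Filter.Eventually.of_forall fun p => ?_)
    beta_reduce
    ring
  have hswap : ∫ t, jb A t * ∫ ξ, ‖k ξ‖ * ‖TT u H (t + ξ)‖ ^ 2 ≤
      (D * ∫ ξ, jb 2 ξ) * EQ A u H := by
    have e1 : ∫ t, jb A t * ∫ ξ, ‖k ξ‖ * ‖TT u H (t + ξ)‖ ^ 2 =
        ∫ t, ∫ ξ, jb A t * (‖k ξ‖ * ‖TT u H (t + ξ)‖ ^ 2) := by
      congr 1; funext t
      rw [integral_const_mul]
    rw [e1, integral_integral_swap hprod]
    have e2 : ∀ ξ, ∫ t, jb A t * (‖k ξ‖ * ‖TT u H (t + ξ)‖ ^ 2) =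
        ‖k ξ‖ * ∫ s, jb A (s - ξ) * ‖TT u H s‖ ^ 2 := by
      intro ξ
      rw [← integral_const_mul, ← integral_add_right_eq_self
        (fun s => ‖k ξ‖ * (jb A (s - ξ) * ‖TT u H s‖ ^ 2)) ξ]
      congr 1; funext t
      rw [add_sub_cancel_right]; ring
    have e3 : ∀ ξ, ‖k ξ‖ * ∫ s, jb A (s - ξ) * ‖TT u H s‖ ^ 2 ≤ D * jb 2 ξ * EQ A u H := by
      intro ξ
      have h1 := int_shift_le hA hY hu H ξ
      have hEQ := EQ_nonneg A u H
      calc ‖k ξ‖ * ∫ s, jb A (s - ξ) * ‖TT u H s‖ ^ 2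
          ≤ (D * jb 2 ξ * jb A ξ) * ((1 + |ξ|) ^ A * EQ A u H) := by
            refine mul_le_mul (hk2 ξ) h1 (integral_nonneg fun s => ?_) ?_
            · exact mul_nonneg (jb_pos _ _).le (by positivity)
            · exact mul_nonneg (mul_nonneg hD (jb_pos _ _).le) (jb_pos _ _).le
        _ = D * jb 2 ξ * EQ A u H * (jb A ξ * (1 + |ξ|) ^ A) := by ring
        _ = D * jb 2 ξ * EQ A u H := by
            rw [jb_nat, inv_mul_cancel₀ (by positivity), mul_one]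
    simp_rw [e2]
    calc ∫ ξ, ‖k ξ‖ * ∫ s, jb A (s - ξ) * ‖TT u H s‖ ^ 2 ≤ ∫ ξ, D * jb 2 ξ * EQ A u H := by
          refine integral_mono_of_nonneg (Filter.Eventually.of_forall fun ξ => ?_)
            ((i2.const_mul D).mul_const _) (Filter.Eventually.of_forall e3)
          exact mul_nonneg (norm_nonneg _) (integral_nonneg fun s =>
            mul_nonneg (jb_pos _ _).le (by positivity))
      _ = (D * ∫ ξ, jb 2 ξ) * EQ A u H := by rw [integral_mul_const, integral_const_mul]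
  have hDI : 0 ≤ D * ∫ ξ, jb 2 ξ := mul_nonneg hD (integral_nonneg fun ξ => (jb_pos _ _).le)
  calc EQ A v H ≤ ∫ t, (∫ ξ, ‖k ξ‖) * (jb A t * ∫ ξ, ‖k ξ‖ * ‖TT u H (t + ξ)‖ ^ 2) := by
        unfold EQ
        refine integral_mono (integrable_EQ hA' hY hv' H) (Integrable.const_mul ?_ _) fun t => ?_
        · have h3 := hprod.integral_prod_left
          refine h3.congr (Filter.Eventually.of_forall fun t => ?_)
          exact integral_const_mul (jb A t) (fun y => ‖k y‖ * ‖TT u H (t + y)‖ ^ 2)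
        · calc jb A t * ‖TT v H t‖ ^ 2 ≤ jb A t *
                ((∫ ξ, ‖k ξ‖) * ∫ ξ, ‖k ξ‖ * ‖TT u H (t + ξ)‖ ^ 2) :=
                mul_le_mul_of_nonneg_left (hpt t) (jb_pos _ _).le
            _ = _ := by ring
    _ = (∫ ξ, ‖k ξ‖) * ∫ t, jb A t * ∫ ξ, ‖k ξ‖ * ‖TT u H (t + ξ)‖ ^ 2 := integral_const_mul _ _
    _ ≤ (D * ∫ ξ, jb 2 ξ) * ((D * ∫ ξ, jb 2 ξ) * EQ A u H) := by
        refine mul_le_mul hI hswap (integral_nonneg fun t => ?_) hDI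
        exact mul_nonneg (jb_pos _ _).le (integral_nonneg fun ξ =>
          mul_nonneg (norm_nonneg _) (by positivity))
    _ = _ := by ring

/-- the phase `N(n)^{iτ}` -/
theorem EQ_phase {A : ℕ} (hA : 1 < A) {Y : ℝ} (hY : 0 ≤ Y) {u : Eis → ℂ}
    (hu : ∀ n, u n ≠ 0 → n ∈ S Y) (τ : ℝ) (H : Eis) :
    EQ A (fun n => u n * pw τ (nm n)) H ≤ (1 + |τ|) ^ A * EQ A u H := by
  refine le_trans (le_of_eq ?_) (int_shift_le hA hY hu H τ)
  have e1 : ∀ t, TT (fun n => u n * pw τ (nm n)) H t = TT u H (t + τ) := by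
    intro t
    unfold TT TG
    refine tsum_congr fun m => ?_
    beta_reduce
    rw [pw_add_left]; ring
  unfold EQ
  rw [← integral_add_right_eq_self (fun s => jb A (s - τ) * ‖TT u H s‖ ^ 2) τ]
  congr 1
  funext t
  rw [e1, add_sub_cancel_right]

/-- **smooth factors**: `v n = u n * g₀(log N(n) - x₀)`, the derivatives `g₀, .., g_{A+2}` bounded
by `Mb` on `|x| ≤ R + 1`, the support of `u` in `|log N(n) - x₀| ≤ R` -/
theorem EQ_smooth {A : ℕ} (hA : 1 < A) {R : ℝ} (hR : 0 ≤ R) : ∃ C : ℝ, 0 ≤ C ∧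
    ∀ (g : ℕ → ℝ → ℂ) (Mb : ℝ), 0 ≤ Mb → (∀ n x, HasDerivAt (g n) (g (n + 1) x) x) →
      (∀ n ≤ A + 2, ∀ x, |x| ≤ R + 1 → ‖g n x‖ ≤ Mb) →
    ∀ (Y : ℝ) (u v : Eis → ℂ) (x₀ : ℝ), 0 ≤ Y → (∀ n, u n ≠ 0 → n ∈ S Y) →
      (∀ n, u n ≠ 0 → |Real.log (nm n) - x₀| ≤ R) →
      (∀ n, v n = u n * g 0 (Real.log (nm n) - x₀)) →
    ∀ H : Eis, EQ A v H ≤ C * Mb ^ 2 * EQ A u H := by
  obtain ⟨D, hD0, hD⟩ := E1c146.kernel_of_bounds R hR (A + 2)
  refine ⟨(D * ∫ ξ, jb 2 ξ) ^ 2, by positivity, fun g Mb hMb hg hb Y u v x₀ hY hu hR' hv H => ?_⟩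
  obtain ⟨k, hkc, hki, hkb, hkr⟩ := hD g Mb hMb hg hb
  have h1 := EQ_kernel hA hY hu hkc hki hkb (x₀ := x₀) (v := v) (fun n => ?_) H
  · refine h1.trans (le_of_eq ?_)
    ring
  · by_cases h : u n = 0
    · rw [hv, h, zero_mul, zero_mul]
    · rw [hv, hkr _ (hR' n h)]

/-- the same with `iteratedDeriv` -/
theorem EQ_smooth' {A : ℕ} (hA : 1 < A) {R : ℝ} (hR : 0 ≤ R) : ∃ C : ℝ, 0 ≤ C ∧
    ∀ (φ : ℝ → ℂ) (Mb : ℝ), 0 ≤ Mb → ContDiff ℝ ∞ φ →
      (∀ n ≤ A + 2, ∀ x, ‖iteratedDeriv n φ x‖ ≤ Mb) →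
    ∀ (Y : ℝ) (u v : Eis → ℂ) (x₀ : ℝ), 0 ≤ Y → (∀ n, u n ≠ 0 → n ∈ S Y) →
      (∀ n, u n ≠ 0 → |Real.log (nm n) - x₀| ≤ R) →
      (∀ n, v n = u n * φ (Real.log (nm n) - x₀)) →
    ∀ H : Eis, EQ A v H ≤ C * Mb ^ 2 * EQ A u H := by
  obtain ⟨C, hC0, hC⟩ := EQ_smooth hA hR
  refine ⟨C, hC0, fun φ Mb hMb hφ hb Y u v x₀ hY hu hR' hv H => ?_⟩
  refine hC (fun n => iteratedDeriv n φ) Mb hMb (fun n x => ?_) (fun n hn x _ => hb n hn x)
    Y u v x₀ hY hu hR' (fun n => by rw [hv]; simp) H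
  have h1 : Differentiable ℝ (iteratedDeriv n φ) :=
    hφ.differentiable_iteratedDeriv n (by exact_mod_cast WithTop.coe_lt_top _)
  rw [iteratedDeriv_succ]
  exact (h1 x).hasDerivAt

/-- supports of `pS ψ (w1(·/Y₀)) r b` -/
lemma pS_w_supp {w1 : ℝ → ℝ} {R : ℝ} (hw : ∀ x, w1 x ≠ 0 → 0 < x ∧ |Real.log x| ≤ R)
    {ψ b : Eis → ℂ} {r : Eis} {Y₀ : ℝ} (hY : 0 < Y₀) {n : Eis}
    (hn : pS ψ (fun x => ((w1 (x / Y₀) : ℝ) : ℂ)) r b n ≠ 0) :
    n ∈ S (Real.exp R * Y₀) ∧ |Real.log (nm n) - Real.log Y₀| ≤ R := by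
  obtain ⟨h1, h2, -, h4⟩ := pS_supp hn
  have h5 : w1 ((nm n : ℝ) / Y₀) ≠ 0 := by
    intro h
    rw [h] at h4
    exact h4 (by simp)
  obtain ⟨h6, h7⟩ := hw _ h5
  have hn0 : (0 : ℝ) < nm n := nmpos h1.ne_zero
  rw [Real.log_div hn0.ne' hY.ne'] at h7
  refine ⟨(mem_S (by positivity)).2 ⟨?_, h1, h2⟩, h7⟩
  have h8 := (abs_le.mp h7).2
  have h9 : Real.log (nm n) ≤ Real.log (Real.exp R * Y₀) := by
    rw [Real.log_mul (Real.exp_pos R).ne' hY.ne', Real.log_exp]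
    linarith
  exact (Real.log_le_log_iff hn0 (by positivity)).mp h9

/-- **(T2)** one piece of a smooth partition, a smooth factor with bounded derivatives, a phase -/
theorem EQ_pS_part {A : ℕ} (hA : 1 < A) {R : ℝ} (hR : 0 ≤ R) {h : ℝ → ℝ} (hh : ContDiff ℝ ∞ h)
    (hhc : HasCompactSupport h) {w1 : ℝ → ℝ}
    (hw : ∀ x, w1 x ≠ 0 → 0 < x ∧ |Real.log x| ≤ R)
    (hw1 : ∀ x, 0 < x → h (Real.log x) ≠ 0 → w1 x = 1) : ∃ C : ℝ, 0 ≤ C ∧
    ∀ (Om : ℝ → ℂ) (Mb : ℝ), 0 ≤ Mb → ContDiff ℝ ∞ Om →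
      (∀ n ≤ A + 2, ∀ x, ‖iteratedDeriv n Om x‖ ≤ Mb) →
    ∀ (ψ b : Eis → ℂ) (r : Eis) (Y₀ τ : ℝ) (κ : ℂ), 0 < Y₀ → ‖κ‖ ≤ 1 →
    ∀ om : ℝ → ℂ, (∀ x, 0 < x → om x = κ * (((h (Real.log x - Real.log Y₀) : ℝ) : ℂ) *
      Om (Real.log x) * pw τ x)) →
    ∀ H : Eis, EQ A (pS ψ om r b) H ≤ C * Mb ^ 2 * (1 + |τ|) ^ A *
      EQ A (pS ψ (fun x => ((w1 (x / Y₀) : ℝ) : ℂ)) r b) H := by
  obtain ⟨C, hC0, hC⟩ := EQ_smooth' hA hR
  -- the bound for `h`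
  have hex : ∀ n : ℕ, ∃ c : ℝ, 0 ≤ c ∧ ∀ x, ‖iteratedDeriv n (fun x => ((h x : ℝ) : ℂ)) x‖ ≤ c := by
    intro n
    have h1 : ContDiff ℝ ∞ (fun x => ((h x : ℝ) : ℂ)) := Complex.ofRealCLM.contDiff.comp hh
    have h2 : HasCompactSupport (fun x => ((h x : ℝ) : ℂ)) :=
      hhc.comp_left (g := fun y : ℝ => (y : ℂ)) (by simp)
    obtain ⟨c, hc⟩ := (h2.iteratedFDeriv (𝕜 := ℝ) n).exists_bound_of_continuous
      (h1.continuous_iteratedFDeriv (by exact_mod_cast le_top))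
    refine ⟨c, (norm_nonneg _).trans (hc 0), fun x => ?_⟩
    rw [← norm_iteratedFDeriv_eq_norm_iteratedDeriv]
    exact hc x
  choose c hc0 hc using hex
  set Mh : ℝ := ∑ i ∈ Finset.range (A + 3), c i with hMh
  have hMh0 : 0 ≤ Mh := Finset.sum_nonneg fun i _ => hc0 i
  have hcM : ∀ n ≤ A + 2, ∀ x, ‖iteratedDeriv n (fun x => ((h x : ℝ) : ℂ)) x‖ ≤ Mh := by
    intro n hn x
    refine (hc n x).trans ?_
    exact Finset.single_le_sum (f := c) (fun i _ => hc0 i) (Finset.mem_range.mpr (by omega))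
  refine ⟨C * Mh ^ 2 * C, by positivity, fun Om Mb hMb hOm hOb ψ b r Y₀ τ κ hY hκ om hom H => ?_⟩
  set u0 := pS ψ (fun x => ((w1 (x / Y₀) : ℝ) : ℂ)) r b with hu0
  have hs0 : ∀ n, u0 n ≠ 0 → n ∈ S (Real.exp R * Y₀) := fun n hn => (pS_w_supp hw hY hn).1
  have hs0' : ∀ n, u0 n ≠ 0 → |Real.log (nm n) - Real.log Y₀| ≤ R :=
    fun n hn => (pS_w_supp hw hY hn).2
  set u1 : Eis → ℂ := fun n => u0 n * ((h (Real.log (nm n) - Real.log Y₀) : ℝ) : ℂ) with hu1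
  set u2 : Eis → ℂ := fun n => u1 n * Om (Real.log (nm n) - Real.log Y₀ + Real.log Y₀) with hu2
  set u3 : Eis → ℂ := fun n => u2 n * pw τ (nm n) with hu3
  have hYe : 0 ≤ Real.exp R * Y₀ := by positivity
  have b1 : EQ A u1 H ≤ C * Mh ^ 2 * EQ A u0 H :=
    hC (fun x => ((h x : ℝ) : ℂ)) Mh hMh0 (Complex.ofRealCLM.contDiff.comp hh) hcM
      (Real.exp R * Y₀) u0 u1 (Real.log Y₀) hYe hs0 hs0' (fun n => rfl) H
  have n1 : ∀ n, u1 n ≠ 0 → u0 n ≠ 0 := fun n hn => left_ne_zero_of_mul hn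
  have n2 : ∀ n, u2 n ≠ 0 → u1 n ≠ 0 := fun n hn => left_ne_zero_of_mul hn
  have b2 : EQ A u2 H ≤ C * Mb ^ 2 * EQ A u1 H := by
    refine hC (fun x => Om (x + Real.log Y₀)) Mb hMb
      (hOm.comp (contDiff_id.add contDiff_const)) (fun n hn x => ?_)
      (Real.exp R * Y₀) u1 u2 (Real.log Y₀) hYe (fun n hn => hs0 n (n1 n hn))
      (fun n hn => hs0' n (n1 n hn)) (fun n => rfl) H
    rw [iteratedDeriv_comp_add_const]
    exact hOb n hn _
  have b3 : EQ A u3 H ≤ (1 + |τ|) ^ A * EQ A u2 H :=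
    EQ_phase hA hYe (fun n hn => hs0 n (n1 n (n2 n hn))) τ H
  have e : pS ψ om r b = fun n => κ * u3 n := by
    funext n
    by_cases hn : IsPrim n
    · have hn0 : (0 : ℝ) < nm n := nmpos hn.ne_zero
      have e1 : Real.log (nm n) - Real.log Y₀ = Real.log ((nm n : ℝ) / Y₀) :=
        (Real.log_div hn0.ne' hY.ne').symm
      have e2 : ((w1 ((nm n : ℝ) / Y₀) : ℝ) : ℂ) *
          ((h (Real.log (nm n) - Real.log Y₀) : ℝ) : ℂ) =
          ((h (Real.log (nm n) - Real.log Y₀) : ℝ) : ℂ) := by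
        by_cases h0 : h (Real.log (nm n) - Real.log Y₀) = 0
        · rw [h0]; simp
        · rw [hw1 _ (by positivity) (by rw [← e1]; exact h0)]; simp
      simp only [hu3, hu2, hu1, hu0, sub_add_cancel]
      unfold pS uS
      rw [hom _ hn0]
      split_ifs with hc
      · generalize ((PX764.n6 n : ℝ) : ℂ) * (conj (G n) * CS b n) = z
        calc ψ n * (κ * (((h (Real.log (nm n) - Real.log Y₀) : ℝ) : ℂ) * Om (Real.log (nm n)) *
              pw τ (nm n)) * z) =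
            ψ n * κ * Om (Real.log (nm n)) * pw τ (nm n) * z *
              ((h (Real.log (nm n) - Real.log Y₀) : ℝ) : ℂ) := by ring
          _ = ψ n * κ * Om (Real.log (nm n)) * pw τ (nm n) * z *
              (((w1 ((nm n : ℝ) / Y₀) : ℝ) : ℂ) *
                ((h (Real.log (nm n) - Real.log Y₀) : ℝ) : ℂ)) := by rw [e2]
          _ = _ := by ring
      · simp
    · have z1 : pS ψ om r b n = 0 := by
        by_contra h0
        exact hn (pS_supp h0).1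
      have z2 : u0 n = 0 := by
        by_contra h0
        exact hn (pS_supp h0).1
      rw [z1]
      simp only [hu3, hu2, hu1, z2]
      simp
  have b4 : EQ A (pS ψ om r b) H ≤ EQ A u3 H := by
    rw [e, E3D579.EQ_smul]
    have hk2 : ‖κ‖ ^ 2 ≤ 1 := pow_le_one₀ (norm_nonneg _) hκ
    exact mul_le_of_le_one_left (EQ_nonneg _ _ _) hk2
  have p1 : 0 ≤ (1 + |τ|) ^ A := by positivity
  calc EQ A (pS ψ om r b) H ≤ EQ A u3 H := b4
    _ ≤ (1 + |τ|) ^ A * EQ A u2 H := b3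
    _ ≤ (1 + |τ|) ^ A * (C * Mb ^ 2 * EQ A u1 H) := mul_le_mul_of_nonneg_left b2 p1
    _ ≤ (1 + |τ|) ^ A * (C * Mb ^ 2 * (C * Mh ^ 2 * EQ A u0 H)) :=
        mul_le_mul_of_nonneg_left (mul_le_mul_of_nonneg_left b1 (by positivity)) p1
    _ = _ := by ring

end Crest.Agent.R017.E3Se579
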