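import Crest.Agent.R017.E3Sr_290
import Crest.Agent.R017.DgB_829

/-!
# Row 17, block C70, leaf E3 (S), the sums over the cells (helper290)

`sum_gp` : `∑_{x ∈ S Y} N((x,a)) / N(x) ≤ tau(a) HS(Y)`;
`sum_lc` : pairs with a given least common multiple;
`sum_w` : the sum of the weights of the cells.
-/

set_option autoImplicit false

noncomputable section

open scoped Classical

namespace Crest.Agent.R017.E3Sg290

open Crest.Agent.R012 Crest.Agent.R012.Eis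
open Crest.Agent.R012.LS2 (S mem_S)
open Crest.Agent.R012.Div277 (dvs mem_dvs tau tau_le_rpow tau_mul_le sum_inv_primBall_le one_le_tau)
open Crest.Agent.R017.E1551 (nmpos)
open Crest.Agent.R017.StA828 (gp gp_spec)
open Crest.Agent.R017.DgA829 (lc lc_mul lc_dvd lc_prim)
open Crest.Agent.R017.DgB829 (HS HS_mult HS_nonneg HS_le)
open Crest.Agent.R017.E3Sr290

lemma gp_dvd (l : Eis) {n : Eis} (hn : IsPrim n) : IsPrim (gp l n) ∧ gp l n ∣ l ∧ gp l n ∣ n := by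
  obtain ⟨hg, -, e1, e2, -⟩ := gp_spec l hn
  exact ⟨hg, ⟨_, e1⟩, ⟨_, e2⟩⟩

/-- **the gcd sum** -/
theorem sum_gp {Y : ℝ} (hY : 0 ≤ Y) {a : Eis} (ha : a ≠ 0) :
    ∑ x ∈ S Y, (nm (gp a x) / nm x : ℝ) ≤ tau a * HS Y := by
  have h1 : ∀ x ∈ S Y, (nm (gp a x) / nm x : ℝ) ≤
      ∑ u ∈ dvs a, nm u * (if u ∣ x then (1 : ℝ) / nm x else 0) := by
    intro x hx
    have hx' := (mem_S hY).1 hx
    obtain ⟨g1, g2, g3⟩ := gp_dvd a hx'.2.1
    have hm : gp a x ∈ dvs a := (mem_dvs ha).mpr ⟨g1, g2⟩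
    have h2 := Finset.single_le_sum (f := fun u => (nm u : ℝ) * (if u ∣ x then (1 : ℝ) / nm x else 0))
      (fun u _ => by split_ifs <;> positivity) hm
    refine le_trans (le_of_eq ?_) h2
    simp only [if_pos g3]
    ring
  refine (Finset.sum_le_sum h1).trans ?_
  rw [Finset.sum_comm]
  have h3 : ∀ u ∈ dvs a, ∑ x ∈ S Y, (nm u : ℝ) * (if u ∣ x then (1 : ℝ) / nm x else 0) ≤ HS Y := by
    intro u hu
    have hu' := ((mem_dvs ha).mp hu).1
    have nu := nmpos hu'.ne_zero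
    rw [← Finset.mul_sum]
    calc (nm u : ℝ) * ∑ x ∈ S Y, (if u ∣ x then (1 : ℝ) / nm x else 0)
        ≤ nm u * ((1 / nm u) * HS Y) := mul_le_mul_of_nonneg_left (HS_mult hY hu') nu.le
      _ = HS Y := by field_simp
  refine (Finset.sum_le_sum h3).trans (le_of_eq ?_)
  rw [Finset.sum_const, nsmul_eq_mul]
  rfl

lemma lc_mem {B : ℝ} (hB : 0 ≤ B) {b b' : Eis} (hb : b ∈ S B) (hb' : b' ∈ S B) :
    lc b b' ∈ S (B ^ 2) ∧ b ∣ lc b b' ∧ b' ∣ lc b b' := by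
  have h := (mem_S hB).1 hb
  have h' := (mem_S hB).1 hb'
  have hd := (lc_dvd h.2.1 h'.2.1 (lc b b')).mp dvd_rfl
  refine ⟨?_, hd.1, hd.2⟩
  obtain ⟨u, v, pu, pv, e, du, cv⟩ := split h'.2.1 h'.2.2 b
  have e1 : lc b b' = b * v := by rw [e]; exact lc_mul h.2.1 pu pv du cv.symm
  have sv : Squarefree v := sqf_right (e ▸ h'.2.2)
  rw [e1, mem_S (by positivity)]
  refine ⟨?_, h.2.1.mul pv, squarefree_mul_iff.mpr ⟨cv.symm.isRelPrime, h.2.2, sv⟩⟩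
  rw [nm_mul]
  push_cast
  have h1 : (nm v : ℝ) ≤ nm b' := by
    rw [e, nm_mul]
    push_cast
    have := Crest.Agent.R017.E1551.nm_ge_one pu.ne_zero
    have nv := nmpos pv.ne_zero
    nlinarith
  calc (nm b * nm v : ℝ) ≤ B * B := mul_le_mul h.1 (h1.trans h'.1) (by positivity) hB
    _ = B ^ 2 := by ring

/-- **pairs with a given least common multiple** -/
theorem sum_lc {B : ℝ} (hB : 0 ≤ B) {F : Eis → ℝ} (hF : ∀ x, 0 ≤ F x) :
    ∑ b ∈ S B, ∑ b' ∈ S B, F (lc b b') ≤ ∑ β ∈ S (B ^ 2), (tau β : ℝ) ^ 2 * F β := by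
  have hB2 : 0 ≤ B ^ 2 := by positivity
  have e1 : ∀ b ∈ S B, ∀ b' ∈ S B, F (lc b b') ≤
      ∑ β ∈ S (B ^ 2), if b ∣ β ∧ b' ∣ β then F β else 0 := by
    intro b hb b' hb'
    obtain ⟨h1, h2, h3⟩ := lc_mem hB hb hb'
    have h4 := Finset.single_le_sum (f := fun β => if b ∣ β ∧ b' ∣ β then F β else 0)
      (fun β _ => by split_ifs; exacts [hF β, le_rfl]) h1
    refine le_trans (le_of_eq ?_) h4
    rw [if_pos ⟨h2, h3⟩]
  refine (Finset.sum_le_sum fun b hb => Finset.sum_le_sum fun b' hb' => e1 b hb b' hb').trans ?_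
  have e2 : ∑ b ∈ S B, ∑ b' ∈ S B, ∑ β ∈ S (B ^ 2), (if b ∣ β ∧ b' ∣ β then F β else 0) =
      ∑ β ∈ S (B ^ 2), ∑ b ∈ S B, ∑ b' ∈ S B, (if b ∣ β ∧ b' ∣ β then F β else 0) := by
    calc ∑ b ∈ S B, ∑ b' ∈ S B, ∑ β ∈ S (B ^ 2), (if b ∣ β ∧ b' ∣ β then F β else 0)
        = ∑ b ∈ S B, ∑ β ∈ S (B ^ 2), ∑ b' ∈ S B, (if b ∣ β ∧ b' ∣ β then F β else 0) :=
          Finset.sum_congr rfl fun b _ => Finset.sum_comm
      _ = _ := Finset.sum_comm
  rw [e2]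
  refine Finset.sum_le_sum fun β hβ => ?_
  have hβ' := (mem_S hB2).1 hβ
  have h0 := hβ'.2.1.ne_zero
  have e3 : ∑ b ∈ S B, ∑ b' ∈ S B, (if b ∣ β ∧ b' ∣ β then F β else 0) =
      (∑ b ∈ S B, if b ∣ β then (1 : ℝ) else 0) * (∑ b' ∈ S B, if b' ∣ β then (1 : ℝ) else 0) *
        F β := by
    rw [Finset.sum_mul_sum, Finset.sum_mul]
    refine Finset.sum_congr rfl fun b _ => ?_
    rw [Finset.sum_mul]
    refine Finset.sum_congr rfl fun b' _ => ?_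
    by_cases h1 : b ∣ β <;> by_cases h2 : b' ∣ β <;> simp [h1, h2]
  have e4 : ∑ b ∈ S B, (if b ∣ β then (1 : ℝ) else 0) ≤ tau β := by
    rw [← Finset.sum_filter, Finset.sum_const, nsmul_eq_mul, mul_one]
    have : (S B).filter (fun b => b ∣ β) ⊆ dvs β := by
      intro b hb
      rw [Finset.mem_filter] at hb
      exact (mem_dvs h0).mpr ⟨((mem_S hB).1 hb.1).2.1, hb.2⟩
    exact_mod_cast Finset.card_le_card this
  have e5 : 0 ≤ ∑ b ∈ S B, (if b ∣ β then (1 : ℝ) else 0) :=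
    Finset.sum_nonneg fun b _ => by split_ifs <;> norm_num
  rw [e3, pow_two]
  exact mul_le_mul_of_nonneg_right (mul_le_mul e4 e4 e5 (by positivity)) (hF β)

/-- the weight of a cell -/
def wc (t d' g' b b' g d a : Eis) : ℝ :=
  (nm t : ℝ)⁻¹ * (nm d' : ℝ)⁻¹ * (nm (gp (g * d * a) g') / nm g') *
    (nm (gp (g * g') (lc b b')) / nm (lc b b'))

lemma wc_nonneg (t d' g' b b' g d a : Eis) : 0 ≤ wc t d' g' b b' g d a := by unfold wc; positivity

/-- **the sum of the weights of the cells** -/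
theorem sum_w {ε : ℝ} (hε : 0 < ε) : ∃ C : ℝ, 0 ≤ C ∧ ∀ Y : ℝ, 1 ≤ Y → ∀ g d a : Eis,
    g ≠ 0 → d ≠ 0 → a ≠ 0 → (nm g : ℝ) ≤ Y → (nm d : ℝ) ≤ Y → (nm a : ℝ) ≤ Y →
    ∑ t ∈ primBall ⌊Y⌋₊, ∑ d' ∈ S Y, ∑ g' ∈ S Y, ∑ b ∈ S Y, ∑ b' ∈ S Y,
      wc t d' g' b b' g d a ≤ C * Y ^ ε := by
  set δ := ε / 18 with hδ
  have hδ0 : 0 < δ := by positivity
  obtain ⟨C1, hC1, hτ⟩ := tau_le_rpow hδ0
  set P := (100 * (1 + ((4 : ℕ) : ℝ) / (ε / 2))) ^ 4 with hP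
  refine ⟨16 * C1 ^ 4 * P, by positivity, fun Y hY g d a hg hd ha hgY hdY haY => ?_⟩
  have hY0 : 0 ≤ Y := by linarith
  have hYp : 0 < Y := by linarith
  have hY2 : 0 ≤ Y ^ 2 := by positivity
  set L := 100 * (1 + Real.log Y) with hL
  have hlog : 0 ≤ Real.log Y := Real.log_nonneg hY
  have hL0 : 0 ≤ L := by positivity
  have hL4 : L ^ 4 ≤ P * Y ^ (ε / 2) := Div277.poly_log_le 4 hY (by positivity)
  have hH1 : HS Y ≤ 2 * L := by
    have := HS_le hY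
    rw [hL]; linarith
  have hH2 : HS (Y ^ 2) ≤ 4 * L := by
    have h1 : 1 ≤ Y ^ 2 := one_le_pow₀ hY
    have h2 := HS_le h1
    rw [Real.log_pow] at h2
    push_cast at h2
    rw [hL]; nlinarith
  have nY : ∀ n : Eis, n ≠ 0 → ∀ k : ℕ, (nm n : ℝ) ≤ Y ^ k → (tau n : ℝ) ≤ C1 * Y ^ (k * δ) := by
    intro n hn k hk
    refine (hτ n hn).trans (mul_le_mul_of_nonneg_left ?_ (by linarith))
    calc (nm n : ℝ) ^ δ ≤ (Y ^ k) ^ δ := Real.rpow_le_rpow (by positivity) hk hδ0.le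
      _ = Y ^ (k * δ) := by rw [← Real.rpow_natCast, ← Real.rpow_mul hY0]
  -- the pairs `b, b'`
  have s1 : ∀ g' ∈ S Y, ∑ b ∈ S Y, ∑ b' ∈ S Y,
      (nm (gp (g * g') (lc b b')) / nm (lc b b') : ℝ) ≤
      (C1 * Y ^ (2 * δ)) ^ 2 * ((C1 * Y ^ (2 * δ)) * (4 * L)) := by
    intro g' hg'
    have h' := (mem_S hY0).1 hg'
    refine (sum_lc hY0 (F := fun β => (nm (gp (g * g') β) / nm β : ℝ))
      fun β => by positivity).trans ?_
    have h1 : ∀ β ∈ S (Y ^ 2), (tau β : ℝ) ^ 2 * (nm (gp (g * g') β) / nm β : ℝ) ≤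
        (C1 * Y ^ (2 * δ)) ^ 2 * (nm (gp (g * g') β) / nm β : ℝ) := by
      intro β hβ
      have hβ' := (mem_S hY2).1 hβ
      refine mul_le_mul_of_nonneg_right (pow_le_pow_left₀ (by positivity) ?_ 2) (by positivity)
      have := nY β hβ'.2.1.ne_zero 2 hβ'.1
      push_cast at this
      exact this
    refine (Finset.sum_le_sum h1).trans ?_
    rw [← Finset.mul_sum]
    refine mul_le_mul_of_nonneg_left ?_ (by positivity)
    have hgg : g * g' ≠ 0 := mul_ne_zero hg h'.2.1.ne_zero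
    refine (sum_gp hY2 hgg).trans ?_
    refine mul_le_mul ?_ hH2 (HS_nonneg _) (by positivity)
    have h2 : (nm (g * g') : ℝ) ≤ Y ^ 2 := by
      rw [nm_mul]; push_cast
      calc (nm g * nm g' : ℝ) ≤ Y * Y := mul_le_mul hgY h'.1 (by positivity) hY0
        _ = _ := by ring
    have := nY _ hgg 2 h2
    push_cast at this
    exact this
  have hgda : g * d * a ≠ 0 := mul_ne_zero (mul_ne_zero hg hd) ha
  have s2 : ∑ g' ∈ S Y, (nm (gp (g * d * a) g') / nm g' : ℝ) ≤ (C1 * Y ^ (3 * δ)) * (2 * L) := by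
    refine (sum_gp hY0 hgda).trans (mul_le_mul ?_ hH1 (HS_nonneg _) (by positivity))
    have h2 : (nm (g * d * a) : ℝ) ≤ Y ^ 3 := by
      rw [nm_mul, nm_mul]; push_cast
      calc (nm g * nm d * nm a : ℝ) ≤ Y * Y * Y :=
            mul_le_mul (mul_le_mul hgY hdY (by positivity) hY0) haY (by positivity) (by positivity)
        _ = _ := by ring
    have := nY _ hgda 3 h2
    push_cast at this
    exact this
  have s3 : ∑ d' ∈ S Y, (nm d' : ℝ)⁻¹ ≤ 2 * L := by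
    refine le_trans (le_of_eq ?_) hH1
    unfold HS
    exact Finset.sum_congr rfl fun x _ => by rw [one_div]
  have s4 : ∑ t ∈ primBall ⌊Y⌋₊, (nm t : ℝ)⁻¹ ≤ L := by
    have h1 := sum_inv_primBall_le ⌊Y⌋₊
    have h2 : ∑ t ∈ primBall ⌊Y⌋₊, (nm t : ℝ)⁻¹ = ∑ t ∈ primBall ⌊Y⌋₊, (1 / (nm t : ℝ)) :=
      Finset.sum_congr rfl fun x _ => by rw [one_div]
    rw [h2]
    refine h1.trans ?_
    rw [hL]
    have h3 : Real.log ⌊Y⌋₊ ≤ Real.log Y := by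
      have h4 : (1 : ℝ) ≤ ⌊Y⌋₊ := by exact_mod_cast Nat.one_le_floor_iff Y |>.mpr hY
      exact Real.log_le_log (by linarith) (Nat.floor_le hY0)
    linarith
  set B := (C1 * Y ^ (2 * δ)) ^ 2 * ((C1 * Y ^ (2 * δ)) * (4 * L)) with hB
  have hB0 : 0 ≤ B := by positivity
  calc ∑ t ∈ primBall ⌊Y⌋₊, ∑ d' ∈ S Y, ∑ g' ∈ S Y, ∑ b ∈ S Y, ∑ b' ∈ S Y,
        wc t d' g' b b' g d a
      = ∑ t ∈ primBall ⌊Y⌋₊, (nm t : ℝ)⁻¹ * ∑ d' ∈ S Y, (nm d' : ℝ)⁻¹ *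
          ∑ g' ∈ S Y, (nm (gp (g * d * a) g') / nm g' : ℝ) *
          ∑ b ∈ S Y, ∑ b' ∈ S Y, (nm (gp (g * g') (lc b b')) / nm (lc b b') : ℝ) := by
        refine Finset.sum_congr rfl fun t _ => ?_
        rw [Finset.mul_sum]
        refine Finset.sum_congr rfl fun d' _ => ?_
        rw [Finset.mul_sum, Finset.mul_sum]
        refine Finset.sum_congr rfl fun g' _ => ?_
        rw [Finset.mul_sum, Finset.mul_sum, Finset.mul_sum]
        refine Finset.sum_congr rfl fun b _ => ?_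
        rw [Finset.mul_sum, Finset.mul_sum, Finset.mul_sum]
        refine Finset.sum_congr rfl fun b' _ => ?_
        unfold wc
        ring
    _ ≤ ∑ t ∈ primBall ⌊Y⌋₊, (nm t : ℝ)⁻¹ * ∑ d' ∈ S Y, (nm d' : ℝ)⁻¹ *
          (((C1 * Y ^ (3 * δ)) * (2 * L)) * B) := by
        refine Finset.sum_le_sum fun t _ => mul_le_mul_of_nonneg_left ?_ (by positivity)
        refine Finset.sum_le_sum fun d' _ => mul_le_mul_of_nonneg_left ?_ (by positivity)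
        calc ∑ g' ∈ S Y, (nm (gp (g * d * a) g') / nm g' : ℝ) *
              ∑ b ∈ S Y, ∑ b' ∈ S Y, (nm (gp (g * g') (lc b b')) / nm (lc b b') : ℝ)
            ≤ ∑ g' ∈ S Y, (nm (gp (g * d * a) g') / nm g' : ℝ) * B :=
              Finset.sum_le_sum fun g' hg' => mul_le_mul_of_nonneg_left (s1 g' hg') (by positivity)
          _ = (∑ g' ∈ S Y, (nm (gp (g * d * a) g') / nm g' : ℝ)) * B := by rw [Finset.sum_mul]
          _ ≤ _ := mul_le_mul_of_nonneg_right s2 hB0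
    _ = (∑ t ∈ primBall ⌊Y⌋₊, (nm t : ℝ)⁻¹) * ((∑ d' ∈ S Y, (nm d' : ℝ)⁻¹) *
          (((C1 * Y ^ (3 * δ)) * (2 * L)) * B)) := by
        rw [Finset.sum_mul, Finset.sum_mul]
    _ ≤ L * ((2 * L) * (((C1 * Y ^ (3 * δ)) * (2 * L)) * B)) := by
        refine mul_le_mul s4 (mul_le_mul_of_nonneg_right s3 (by positivity)) ?_ hL0
        exact mul_nonneg (Finset.sum_nonneg fun _ _ => by positivity) (by positivity)
    _ = 16 * C1 ^ 4 * (L ^ 4) * (Y ^ (3 * δ) * (Y ^ (2 * δ)) ^ 3) := by rw [hB]; ring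
    _ ≤ 16 * C1 ^ 4 * (P * Y ^ (ε / 2)) * (Y ^ (3 * δ) * (Y ^ (2 * δ)) ^ 3) := by
        refine mul_le_mul_of_nonneg_right (mul_le_mul_of_nonneg_left hL4 (by positivity))
          (by positivity)
    _ = 16 * C1 ^ 4 * P * Y ^ ε := by
        have h1 : Y ^ (ε / 2) * (Y ^ (3 * δ) * (Y ^ (2 * δ)) ^ 3) = Y ^ ε := by
          rw [← Real.rpow_natCast (Y ^ (2 * δ)), ← Real.rpow_mul hY0, ← Real.rpow_add hYp,
            ← Real.rpow_add hYp]
          congr 1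
          rw [hδ]; push_cast; ring
        rw [← h1]; ring

end Crest.Agent.R017.E3Sg290
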