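import Crest.Agent.R017.E3Sb_290

/-!
# Row 17, block C70, leaf E3 (S), growth in the number of modes (helper290)

* `Gr s G` : `G ≥ 0` and `G (c L) ≤ c ^ s * G L` for `c ≥ 1`; closed under sums and products
* `famG` : `fam` for a bound of growth `s`, evaluated at the scale `lm` itself
-/

set_option autoImplicit false

noncomputable section

open Complex MeasureTheory
open scoped ComplexConjugate Classical

namespace Crest.Agent.R017.E3Sh290

open Crest.Agent.R012 Crest.Agent.R012.Eis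
open Crest.Agent.R012.LS2 (S mem_S bl mem_bl)
open Crest.Agent.R017.BD829
open Crest.Agent.R017.E3Sb290

/-- growth at most `s` -/
structure Gr (s : ℝ) (G : ℝ → ℝ) : Prop where
  nonneg : ∀ L, 0 < L → 0 ≤ G L
  le : ∀ c, 1 ≤ c → ∀ L, 0 < L → G (c * L) ≤ c ^ s * G L

namespace Gr

variable {s t : ℝ} {G H : ℝ → ℝ}

lemma mono (h : Gr s G) (hst : s ≤ t) : Gr t G :=
  ⟨h.nonneg, fun c hc L hL => (h.le c hc L hL).trans
    (mul_le_mul_of_nonneg_right (Real.rpow_le_rpow_of_exponent_le hc hst) (h.nonneg L hL))⟩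

lemma const {a : ℝ} (ha : 0 ≤ a) : Gr 0 (fun _ => a) :=
  ⟨fun _ _ => ha, fun c hc L hL => by rw [Real.rpow_zero, one_mul]⟩

lemma pow (s : ℝ) : Gr s (fun L => L ^ s) :=
  ⟨fun L hL => Real.rpow_nonneg hL.le s, fun c hc L hL => by
    rw [Real.mul_rpow (by linarith) hL.le]⟩

lemma id : Gr 1 (fun L => L) :=
  ⟨fun L hL => hL.le, fun c hc L hL => by rw [Real.rpow_one]⟩

lemma add (h : Gr s G) (h' : Gr s H) : Gr s (fun L => G L + H L) :=
  ⟨fun L hL => add_nonneg (h.nonneg L hL) (h'.nonneg L hL), fun c hc L hL => by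
    rw [mul_add]; exact add_le_add (h.le c hc L hL) (h'.le c hc L hL)⟩

lemma mul (h : Gr s G) (h' : Gr t H) : Gr (s + t) (fun L => G L * H L) :=
  ⟨fun L hL => mul_nonneg (h.nonneg L hL) (h'.nonneg L hL), fun c hc L hL => by
    have hc0 : 0 < c := by linarith
    have hcL : 0 < c * L := by positivity
    rw [Real.rpow_add hc0]
    calc G (c * L) * H (c * L) ≤ (c ^ s * G L) * (c ^ t * H L) :=
          mul_le_mul (h.le c hc L hL) (h'.le c hc L hL) (h'.nonneg _ hcL)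
            (mul_nonneg (Real.rpow_nonneg hc0.le s) (h.nonneg L hL))
      _ = c ^ s * c ^ t * (G L * H L) := by ring⟩

lemma smul (h : Gr s G) {a : ℝ} (ha : 0 ≤ a) : Gr s (fun L => a * G L) :=
  ⟨fun L hL => mul_nonneg ha (h.nonneg L hL), fun c hc L hL => by
    calc a * G (c * L) ≤ a * (c ^ s * G L) := mul_le_mul_of_nonneg_left (h.le c hc L hL) ha
      _ = c ^ s * (a * G L) := by ring⟩

lemma mulr (h : Gr s G) {a : ℝ} (ha : 0 ≤ a) : Gr s (fun L => G L * a) := by
  have := h.smul ha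
  simpa only [mul_comm] using this

/-- the substitution `L ↦ a * L` -/
lemma comp_mul (h : Gr s G) {a : ℝ} (ha : 0 < a) : Gr s (fun L => G (a * L)) :=
  ⟨fun L hL => h.nonneg _ (by positivity), fun c hc L hL => by
    have e : a * (c * L) = c * (a * L) := by ring
    rw [e]
    exact h.le c hc (a * L) (by positivity)⟩

lemma rpow (h : Gr s G) {p : ℝ} (hp : 0 ≤ p) : Gr (s * p) (fun L => G L ^ p) :=
  ⟨fun L hL => Real.rpow_nonneg (h.nonneg L hL) p, fun c hc L hL => by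
    have hc0 : 0 ≤ c := by linarith
    rw [Real.rpow_mul hc0, ← Real.mul_rpow (Real.rpow_nonneg hc0 s) (h.nonneg L hL)]
    exact Real.rpow_le_rpow (h.nonneg _ (by positivity)) (h.le c hc L hL) hp⟩

lemma min_one (h : Gr s G) (hs : 0 ≤ s) : Gr s (fun L => min 1 (G L)) :=
  ⟨fun L hL => le_min zero_le_one (h.nonneg L hL), fun c hc L hL => by
    have hc0 : 0 ≤ c := by linarith
    have h1 : (1 : ℝ) ≤ c ^ s := Real.one_le_rpow hc hs
    rw [mul_min_of_nonneg _ _ (Real.rpow_nonneg hc0 s), mul_one]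
    exact min_le_min h1 (h.le c hc L hL)⟩

lemma max_one (h : Gr s G) (hs : 0 ≤ s) : Gr s (fun L => max 1 (G L)) :=
  ⟨fun L hL => le_max_of_le_left zero_le_one, fun c hc L hL => by
    have hc0 : 0 ≤ c := by linarith
    have h1 : (1 : ℝ) ≤ c ^ s := Real.one_le_rpow hc hs
    rw [mul_max_of_nonneg _ _ (Real.rpow_nonneg hc0 s), mul_one]
    exact max_le_max h1 (h.le c hc L hL)⟩

lemma congr (h : Gr s G) (e : ∀ L, 0 < L → G L = H L) : Gr s H :=
  ⟨fun L hL => by rw [← e L hL]; exact h.nonneg L hL, fun c hc L hL => by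
    rw [← e L hL, ← e (c * L) (by positivity)]; exact h.le c hc L hL⟩

lemma sum {ι : Type*} {O : Finset ι} {F : ι → ℝ → ℝ} (h : ∀ o ∈ O, Gr s (F o)) :
    Gr s (fun L => ∑ o ∈ O, F o L) :=
  ⟨fun L hL => Finset.sum_nonneg fun o ho => (h o ho).nonneg L hL, fun c hc L hL => by
    rw [Finset.mul_sum]
    exact Finset.sum_le_sum fun o ho => (h o ho).le c hc L hL⟩

/-- doubling -/
lemma dbl (h : Gr s G) {a : ℕ} (ha : s ≤ a) {L : ℝ} (hL : 1 ≤ L) : G (2 * L) ≤ 2 ^ a * G L := by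
  have h1 := h.le 2 one_le_two L (by linarith)
  have h2 : (2 : ℝ) ^ s ≤ 2 ^ a := by
    rw [← Real.rpow_natCast]
    exact Real.rpow_le_rpow_of_exponent_le one_le_two ha
  exact h1.trans (mul_le_mul_of_nonneg_right h2 (h.nonneg L (by linarith)))

/-- the value at `max 1 lm` -/
lemma at_max (h : Gr s G) {a B : ℕ} (ha : s ≤ a) (hB : a ≤ B) {lm : ℝ}
    (hl : 0 < lm) : (min 1 lm) ^ B * G (max 1 lm) ≤ (min 1 lm) ^ (B - a) * G lm := by
  have h0 : 0 < min 1 lm := lt_min one_pos hl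
  have h1 : min 1 lm ≤ 1 := min_le_left _ _
  have e1 : B = (B - a) + a := by omega
  have h3 : (min 1 lm) ^ a * G (max 1 lm) ≤ G lm := by
    rcases le_total 1 lm with h4 | h4
    · rw [max_eq_right h4, min_eq_left h4, one_pow, one_mul]
    · rw [max_eq_left h4, min_eq_right h4]
      have h5 := h.le (lm⁻¹) ((one_le_inv₀ hl).2 h4) lm hl
      rw [inv_mul_cancel₀ hl.ne'] at h5
      have h6 : (lm⁻¹) ^ s ≤ (lm ^ a)⁻¹ := by
        rw [← inv_pow, ← Real.rpow_natCast]
        exact Real.rpow_le_rpow_of_exponent_le ((one_le_inv₀ hl).2 h4) ha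
      have h7 : 0 < lm ^ a := by positivity
      calc lm ^ a * G 1 ≤ lm ^ a * ((lm ^ a)⁻¹ * G lm) := by
            refine mul_le_mul_of_nonneg_left (h5.trans ?_) h7.le
            exact mul_le_mul_of_nonneg_right h6 (h.nonneg lm hl)
        _ = G lm := by rw [← mul_assoc, mul_inv_cancel₀ h7.ne', one_mul]
  rw [e1, pow_add, mul_assoc]
  have e2 : B - a + a - a = B - a := by omega
  rw [e2]
  exact mul_le_mul_of_nonneg_left h3 (by positivity)

end Gr

/-- **the decaying sum over the modes for a family, growth form** -/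
theorem famG {ι : Type*} {O : Finset ι} {lam : ι → ℝ} {F : ι → Eis → ℝ} {lm : ℝ} (hlm : 0 < lm)
    (hlam : ∀ o ∈ O, 0 < lam o ∧ lam o ≤ lm) (hF : ∀ o ∈ O, ∀ h, 0 ≤ F o h) {G : ℝ → ℝ} {s : ℝ}
    {a B : ℕ} (hsa : s ≤ a) (hB : a + 1 ≤ B) (hGr : Gr s G)
    (hG : ∀ L, 1 ≤ L → ∑ o ∈ O, ∑ h ∈ bl L, F o h ≤ G L) :
    ∑ o ∈ O, ∑' h : Eis, (if h = 0 then 0 else Wl B (lam o) h * F o h) ≤
      (1 + 2 ^ (a + 1)) * ((min 1 lm) ^ (B - a) * G lm) := by
  refine (fam hlm hlam hF hB hG fun L hL => hGr.dbl hsa hL).trans ?_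
  exact mul_le_mul_of_nonneg_left (hGr.at_max hsa (by omega) hlm) (by positivity)

end Crest.Agent.R017.E3Sh290
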