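import Crest.Agent.R017.E3Sh_290

/-!
# Row 17, block C70, leaf E3 (S), one dyadic class of cells (helper290)

`cls` : the weighted sum of the decaying mode sums of a family from the ball bound for the family
with the weights in the coefficients.
-/

set_option autoImplicit false

noncomputable section

open Complex MeasureTheory
open scoped ComplexConjugate Classical

namespace Crest.Agent.R017.E3Si290

open Crest.Agent.R012 Crest.Agent.R012.Eis
open Crest.Agent.R012.LS2 (S mem_S bl mem_bl)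
open Crest.Agent.R017.CM106 (CS TG FS)
open Crest.Agent.R017.BD829
open Crest.Agent.R017.E3D579 (uS EQ_smul)
open Crest.Agent.R017.E3Sb290 Crest.Agent.R017.E3Sh290

/-- weights go into the coefficients (with a fixed factor `χ`) -/
theorem EQ_chi_smul (A : ℝ) (χ : Eis → ℂ) (om : ℝ → ℂ) (r : Eis) {c : ℝ} (hc : 0 ≤ c)
    (b : Eis → ℂ) (H : Eis) :
    EQ A (fun m => χ m * uS om r (fun m => ((Real.sqrt c : ℝ) : ℂ) * b m) m) H =
      c * EQ A (fun m => χ m * uS om r b m) H := by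
  have e : (fun m => χ m * uS om r (fun m => ((Real.sqrt c : ℝ) : ℂ) * b m) m) =
      fun m => ((Real.sqrt c : ℝ) : ℂ) * (χ m * uS om r b m) := by
    funext m
    rw [uS_smul]; ring
  rw [e, EQ_smul, Complex.norm_real, Real.norm_of_nonneg (Real.sqrt_nonneg _), Real.sq_sqrt hc]

/-- **one class of cells** -/
theorem cls {ι : Type*} {O : Finset ι} {A : ℝ} {χ : Eis → ℂ} {w : ι → ℝ → ℂ} {r X : ι → Eis}
    {b : ι → Eis → ℂ} {om lam : ι → ℝ} {lm : ℝ} (hlm : 0 < lm) (hom : ∀ o ∈ O, 0 ≤ om o)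
    (hlam : ∀ o ∈ O, 0 < lam o ∧ lam o ≤ lm) {G : ℝ → ℝ} {s : ℝ} {a B : ℕ} (hsa : s ≤ a)
    (hB : a + 1 ≤ B) (hGr : Gr s G)
    (hG : ∀ L, 1 ≤ L → ∑ o ∈ O, ∑ h ∈ bl L, EQ A (fun m => χ m *
      uS (w o) (r o) (fun m => ((Real.sqrt (om o) : ℝ) : ℂ) * b o m) m) (h * X o) ≤ G L) :
    ∑ o ∈ O, om o * ∑' h : Eis, (if h = 0 then 0 else
      Wl B (lam o) h * EQ A (fun m => χ m * uS (w o) (r o) (b o) m) (h * X o)) ≤
      (1 + 2 ^ (a + 1)) * ((min 1 lm) ^ (B - a) * G lm) := by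
  have h1 := famG (O := O) (lam := lam) (F := fun o h => om o *
    EQ A (fun m => χ m * uS (w o) (r o) (b o) m) (h * X o)) hlm hlam
    (fun o ho h => mul_nonneg (hom o ho) (EQ_nonneg _ _ _)) hsa hB hGr (fun L hL => by
      refine le_trans (le_of_eq ?_) (hG L hL)
      refine Finset.sum_congr rfl fun o ho => Finset.sum_congr rfl fun h _ => ?_
      rw [EQ_chi_smul A χ (w o) (r o) (hom o ho)])
  refine le_trans (le_of_eq ?_) h1
  refine Finset.sum_congr rfl fun o _ => ?_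
  rw [← tsum_mul_left]
  refine tsum_congr fun h => ?_
  split_ifs
  · rw [mul_zero]
  · ring

/-- `cls` without the factor -/
theorem cls1 {ι : Type*} {O : Finset ι} {A : ℝ} {w : ι → ℝ → ℂ} {r X : ι → Eis}
    {b : ι → Eis → ℂ} {om lam : ι → ℝ} {lm : ℝ} (hlm : 0 < lm) (hom : ∀ o ∈ O, 0 ≤ om o)
    (hlam : ∀ o ∈ O, 0 < lam o ∧ lam o ≤ lm) {G : ℝ → ℝ} {s : ℝ} {a B : ℕ} (hsa : s ≤ a)
    (hB : a + 1 ≤ B) (hGr : Gr s G)
    (hG : ∀ L, 1 ≤ L → ∑ o ∈ O, ∑ h ∈ bl L, EQ A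
      (uS (w o) (r o) (fun m => ((Real.sqrt (om o) : ℝ) : ℂ) * b o m)) (h * X o) ≤ G L) :
    ∑ o ∈ O, om o * ∑' h : Eis, (if h = 0 then 0 else
      Wl B (lam o) h * EQ A (uS (w o) (r o) (b o)) (h * X o)) ≤
      (1 + 2 ^ (a + 1)) * ((min 1 lm) ^ (B - a) * G lm) := by
  have h := cls (χ := fun _ => 1) (A := A) (w := w) (r := r) (X := X) (b := b) hlm hom hlam hsa hB
    hGr (by simpa only [one_mul] using hG)
  simpa only [one_mul] using h

end Crest.Agent.R017.E3Si290
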