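import Crest.Agent.R017.E3Sj_290

/-!
# Row 17, block C70, leaf E3 (S), the extra term of the large sieve with the indicator (helper290)

`Fac_lsY9` : `(nL Y)^{2/3} (L0/Lt)^{1/9} ≤ (L0/Lt)^{1/3} Y · (H^{2/3} V^{5/3} V'^{4/3} t^4 b^2/K^2)^{1/3}`
-/

set_option autoImplicit false

noncomputable section

open scoped Classical

namespace Crest.Agent.R017.E3Sj290

open Crest.Agent.R012 Crest.Agent.R012.Eis
open Crest.Agent.R017.E1551 (nmpos)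
open Crest.Agent.R017.StA828 (gp)
open Crest.Agent.R017.E3Sr290

lemma real_ls9 {K V V' H q t D E F X gam kap ag g3 e1 ad d3 b2 c3 g d a' : ℝ}
    (h1 : 0 < gam) (h2 : 0 < kap) (h3 : 0 < ag) (h4 : 0 < g3) (h5 : 0 < e1) (h6 : 0 < ad)
    (h7 : 0 < d3) (h8 : 0 < b2) (h9 : 0 < c3) (h10 : 0 < g) (h11 : 0 < d) (h12 : 0 < a')
    (hK : 0 < K) (hV : 0 < V) (hV' : 0 < V') (hH : 0 < H) (hq : 0 < q) (ht : 0 < t) (hD : 0 < D)
    (hE : 0 < E) (hF : 0 < F) (hX : 0 < X) :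
    let c : CellD := ⟨K, V, V', H, q, t, g * (kap * (ag * g3) * (b2 ^ 2 * c3)), g,
      gam * kap * (ag * g3), d, e1 * (ad * d3), ad * ag, a', e1 * (gam * kap), D, E, F, X,
      d3 * a' * kap ^ 2 * ag ^ 2 * b2 * c3 ^ 2⟩
    (nL c * c.Y) ^ (2 / 3 : ℝ) * (c.L0 / c.Lt) ^ (1 / 9 : ℝ) = (c.L0 / c.Lt) ^ (1 / 3 : ℝ) * c.Y *
        (H ^ (2 / 3 : ℝ) * V ^ (5 / 3 : ℝ) * V' ^ (4 / 3 : ℝ) * t ^ 4 * b2 ^ 2 / K ^ 2 /
          (q * F * (ad * ag) ^ 2 * a' ^ 2 * D ^ 3 *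
          e1 ^ 4 * ad * d3 ^ 2 * gam ^ 4 * kap ^ 4 * ag)) ^ (1 / 3 : ℝ) := by
  obtain ⟨gam, rfl⟩ := CellD.ex h1
  obtain ⟨kap, rfl⟩ := CellD.ex h2
  obtain ⟨ag, rfl⟩ := CellD.ex h3
  obtain ⟨g3, rfl⟩ := CellD.ex h4
  obtain ⟨e1, rfl⟩ := CellD.ex h5
  obtain ⟨ad, rfl⟩ := CellD.ex h6
  obtain ⟨d3, rfl⟩ := CellD.ex h7
  obtain ⟨b2, rfl⟩ := CellD.ex h8
  obtain ⟨c3, rfl⟩ := CellD.ex h9
  obtain ⟨g, rfl⟩ := CellD.ex h10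
  obtain ⟨d, rfl⟩ := CellD.ex h11
  obtain ⟨a', rfl⟩ := CellD.ex h12
  obtain ⟨K, rfl⟩ := CellD.ex hK
  obtain ⟨V, rfl⟩ := CellD.ex hV
  obtain ⟨V', rfl⟩ := CellD.ex hV'
  obtain ⟨H, rfl⟩ := CellD.ex hH
  obtain ⟨q, rfl⟩ := CellD.ex hq
  obtain ⟨t, rfl⟩ := CellD.ex ht
  obtain ⟨D, rfl⟩ := CellD.ex hD
  obtain ⟨E, rfl⟩ := CellD.ex hE
  obtain ⟨F, rfl⟩ := CellD.ex hF
  obtain ⟨X, rfl⟩ := CellD.ex hX
  simp only [nL, CellD.L0, CellD.Lt, CellD.N1, CellD.N2, CellD.KM, CellD.A, CellD.A', CellD.m,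
    CellD.m', CellD.Z, CellD.Z', CellD.Y, CellD.Nb, CellD.zeta, CellD.Is, ← Real.exp_nat_mul,
    ← Real.exp_add, ← Real.exp_sub, ← Real.exp_mul]
  congr 1
  push_cast
  ring

/-- **the extra term with a gain from the indicator `Lt ≤ L0`** -/
theorem Fac_lsY9 {g g' d d' r m m' a x a' M N b : Eis} (f : Fac g g' d d' r m m' a x a' M N b)
    (pg : IsPrim g) (pd : IsPrim d) (pa' : IsPrim a') (hM : M = g * N)
    {K V V' H q t D E F X : ℝ} (hK : 0 < K) (hV : 0 < V) (hV' : 0 < V') (hH : 0 < H) (hq : 1 ≤ q)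
    (ht : 0 < t) (hD : 1 ≤ D) (hE : 1 ≤ E) (hF : 1 ≤ F) (hX : 0 < X) :
    let c := cellOf K V V' H q t D E F X M g g' d d' a a' r f.xk
    (nL c * c.Y) ^ (2 / 3 : ℝ) * (c.L0 / c.Lt) ^ (1 / 9 : ℝ) ≤ (c.L0 / c.Lt) ^ (1 / 3 : ℝ) * c.Y *
        (H ^ (2 / 3 : ℝ) * V ^ (5 / 3 : ℝ) * V' ^ (4 / 3 : ℝ) * t ^ 4 * (nm b : ℝ) ^ 2 / K ^ 2)
          ^ (1 / 3 : ℝ) := by
  have hq0 : 0 < q := by linarith
  have hD0 : 0 < D := by linarith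
  have hE0 : 0 < E := by linarith
  have hF0 : 0 < F := by linarith
  intro c
  obtain ⟨p1, p2, p3, -⟩ := cell_ratio_nonneg f pg pd pa' hM hK hV hV' hH hq0 ht hD0 hE0 hF0 hX
  have h1 := real_ls9 (nmpos f.pgam.ne_zero) (nmpos f.pkap.ne_zero) (nmpos f.pag.ne_zero)
    (nmpos f.pg3.ne_zero) (nmpos f.pe1.ne_zero) (nmpos f.pad.ne_zero) (nmpos f.pd3.ne_zero)
    (nmpos f.pb2.ne_zero) (nmpos f.pc3.ne_zero) (nmpos pg.ne_zero) (nmpos pd.ne_zero)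
    (nmpos pa'.ne_zero) hK hV hV' hH hq0 ht hD0 hE0 hF0 hX
  have hc : c = _ := Fac_form f hM K V V' H q t D E F X
  rw [← hc] at h1
  refine h1.le.trans ?_
  have n0 : 0 ≤ (c.L0 / c.Lt) ^ (1 / 3 : ℝ) * c.Y :=
    mul_nonneg (Real.rpow_nonneg (div_nonneg p1.le p2.le) _) p3.le
  refine mul_le_mul_of_nonneg_left (Real.rpow_le_rpow (by positivity) ?_ (by norm_num)) n0
  have m1 := one_le_nm' f.pgam
  have m2 := one_le_nm' f.pkap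
  have m3 := one_le_nm' f.pag
  have m5 := one_le_nm' f.pe1
  have m6 := one_le_nm' f.pad
  have m7 := one_le_nm' f.pd3
  have m8 := one_le_nm' f.pb1
  have m12 := one_le_nm' pa'
  have n8 := nmpos f.pb2.ne_zero
  have eb : (nm b : ℝ) = nm f.b1 * nm f.b2 := by
    conv_lhs => rw [f.hb, nm_mul]
    push_cast; ring
  have i1 : (nm f.b2 : ℝ) ≤ nm b := by
    rw [eb]; nlinarith
  have i2 : (1 : ℝ) ≤ q * F * (nm f.ad * nm f.ag) ^ 2 * (nm a' : ℝ) ^ 2 * D ^ 3 *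
          (nm f.e1 : ℝ) ^ 4 * nm f.ad * (nm f.d3 : ℝ) ^ 2 * (nm f.gam : ℝ) ^ 4 *
          (nm f.kap : ℝ) ^ 4 * nm f.ag := by
    have k3 := one_le_pow₀ (n := 2) (one_le_mul_of_one_le_of_one_le m6 m3)
    have k4 := one_le_pow₀ (n := 2) m12
    have k5 := one_le_pow₀ (n := 3) hD
    have k6 := one_le_pow₀ (n := 4) m5
    have k7 := one_le_pow₀ (n := 2) m7
    have k8 := one_le_pow₀ (n := 4) m1
    have k9 := one_le_pow₀ (n := 4) m2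
    have mm : ∀ {x y : ℝ}, 1 ≤ x → 1 ≤ y → 1 ≤ x * y := fun h h' =>
      one_le_mul_of_one_le_of_one_le h h'
    exact mm (mm (mm (mm (mm (mm (mm (mm (mm (mm hq hF) k3) k4) k5) k6) m6) k7) k8) k9) m3
  refine (div_le_self (by positivity) i2).trans ?_
  gcongr

end Crest.Agent.R017.E3Sj290
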