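import Crest.Agent.R017.ModeB_405
import Crest.Agent.R017.DgB_829

/-!
# Row 17, block C70, leaf E3: MODE, part C (helper405): the structured half from `PoHS`

* `EQ_congr`, `EQ_bs_le`, `sum_merge`, `VI_merge` : merging of the frequencies `k d² q`
* `StrP` : the part of the Möbius sums with `nm d nm q ≤ P₁`;  `norm_StrP_le`
* `str_le` : its mean square over the kernels
-/

set_option autoImplicit false

noncomputable section

open Complex MeasureTheory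
open scoped ComplexConjugate

namespace Crest.Agent.R017.Mode405

open Crest.Agent.R012 Crest.Agent.R012.Eis Crest.Agent.R012.MC
open Crest.Agent.R012.LS2 (S mem_S bl mem_bl)
open Crest.Agent.R012.LS448 (one_le_nm')
open Crest.Agent.R012.NonCube52 (Ker kv Good kc kc_spec kc_nm kv_ne_zero one_le_nmkv)
open Crest.Agent.R012.Mob705 (mu pdiv mem_pdiv sum_mu_coprime mu_of_not_squarefree abs_mu_le_one)
open Crest.Agent.R012.Weight600 (pw)
open Crest.Agent.R017.CM106 (CS TG FS)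
open Crest.Agent.R017.BD829 (TT EQ Win EQ_nonneg)
open Crest.Agent.R017.E3D579 (EQ_smul EQ_sy)
open Crest.Agent.R017.E1551 (jb jb_pos nmpos)
open Crest.Agent.R017.DgB829 (HS HS_le HS_nonneg)

/-! ### merging -/

lemma EQ_congr {A : ℝ} {u : Eis → ℂ} {H H' : Eis} (h : ∀ m, u m ≠ 0 → sy H m = sy H' m) :
    EQ A u H = EQ A u H' := by
  unfold EQ
  refine integral_congr_ae (Filter.Eventually.of_forall fun t => ?_)
  beta_reduce
  have : TT u H t = TT u H' t := by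
    unfold TT TG
    refine tsum_congr fun m => ?_
    by_cases hm : u m = 0
    · simp [hm]
    · rw [h m hm]
  rw [this]

lemma sy_sq_merge {k f d q m : Eis} (hm : IsPrim m) :
    sy (k * f * (d * q ^ 2) ^ 2) m = sy (k * (d ^ 2 * q) * f) m := by
  have h1 : sy (q ^ 4) m = sy q m := by
    have e : q ^ 4 = q ^ 3 * q := by ring
    rw [e, Char766.sy_mul_left hm]
    by_cases hc : IsCoprime q m
    · rw [Char766.sy_cube_left hm hc, one_mul]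
    · have h0 : sy q m = 0 := (Sym645.syFacts.eq_zero _ _ hm).mpr hc
      rw [h0, mul_zero]
  have e1 : k * f * (d * q ^ 2) ^ 2 = (k * f * d ^ 2) * q ^ 4 := by ring
  have e2 : k * (d ^ 2 * q) * f = (k * f * d ^ 2) * q := by ring
  rw [e1, e2, Char766.sy_mul_left (x := k * f * d ^ 2) hm, Char766.sy_mul_left (x := k * f * d ^ 2) hm, h1]

open Classical in
lemma EQ_bs_le (A : ℝ) {b : Eis → ℂ} (hb : ∀ n, b n ≠ 0 → IsPrim n) {G π k f d q : Eis}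
    (hG : IsPrim G) :
    EQ A (fun m => if IsCoprime m π then bs b (d * q ^ 2) (G * m) else 0) (k * f) ≤
      EQ A (fun m => if IsCoprime m π then b (G * m) else 0) (k * (d ^ 2 * q) * f) := by
  set s := d * q ^ 2 with hs
  have hu : ∀ n, (if IsCoprime n π then b (G * n) else 0) ≠ 0 → IsPrim n := by
    intro n hn
    have h1 : b (G * n) ≠ 0 := by
      split_ifs at hn with h
      · exact hn
      · exact absurd rfl hn
    exact (Tau671.isPrim_mul_iff hG).mp (hb _ h1)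
  have h1 : (fun m => if IsCoprime m π then bs b s (G * m) else 0) =
      fun m => sy s G * (sy s m * (if IsCoprime m π then b (G * m) else 0)) := by
    funext m
    by_cases hc : IsCoprime m π
    · rw [if_pos hc, if_pos hc]
      unfold bs
      by_cases hm : b (G * m) = 0
      · rw [hm]; ring
      · have hm' : IsPrim m := (Tau671.isPrim_mul_iff hG).mp (hb _ hm)
        rw [Sym645.sy_mul_right _ hG.ne_zero hm'.ne_zero]; ring
    · rw [if_neg hc, if_neg hc]; ring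
  rw [h1, EQ_smul, EQ_sy hu]
  have h2 : EQ A (fun m => if IsCoprime m π then b (G * m) else 0) (k * f * s ^ 2) =
      EQ A (fun m => if IsCoprime m π then b (G * m) else 0) (k * (d ^ 2 * q) * f) :=
    EQ_congr fun m hm => by rw [hs]; exact sy_sq_merge (hu m hm)
  rw [h2]
  have h3 := NonCube52.norm_sy_le Sym645.syFacts s G hG
  have h4 : ‖sy s G‖ ^ 2 ≤ 1 := pow_le_one₀ (norm_nonneg _) h3
  exact mul_le_of_le_one_left (EQ_nonneg _ _ _) h4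

open Classical in
/-- merging the frequencies `k (d² q)` -/
lemma sum_merge {F : Eis → ℝ} (hF : ∀ k, 0 ≤ F k) {Pr : Finset (Eis × Eis)}
    (hPr : ∀ p ∈ Pr, IsPrim p.1 ∧ IsPrim p.2) {P c T : ℝ} (hP : 0 ≤ P) (hc : 0 ≤ c)
    (hn : ∀ p ∈ Pr, (nm (p.1 ^ 2 * p.2) : ℝ) ≤ c) (hT0 : 0 ≤ T)
    (hT : ∀ k ∈ bl (c * P), ((pdiv k).card : ℝ) ≤ T) :
    ∑ p ∈ Pr, ∑ k ∈ bl P, F (k * (p.1 ^ 2 * p.2)) ≤ T ^ 2 * ∑ k ∈ bl (c * P), F k := by
  have h1 : ∀ p ∈ Pr, ∑ k ∈ bl P, F (k * (p.1 ^ 2 * p.2)) ≤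
      ∑ k ∈ bl (c * P), if p.1 ∣ k ∧ p.2 ∣ k then F k else 0 := by
    intro p hp
    obtain ⟨h1, h2⟩ := hPr p hp
    have hne : p.1 ^ 2 * p.2 ≠ 0 := mul_ne_zero (pow_ne_zero 2 h1.ne_zero) h2.ne_zero
    have hinj : Set.InjOn (fun k : Eis => k * (p.1 ^ 2 * p.2)) (bl P : Set Eis) :=
      fun x _ y _ h => mul_right_cancel₀ hne h
    have e1 : ∑ k ∈ bl P, F (k * (p.1 ^ 2 * p.2)) =
        ∑ k ∈ (bl P).image (fun k : Eis => k * (p.1 ^ 2 * p.2)),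
          if p.1 ∣ k ∧ p.2 ∣ k then F k else 0 := by
      rw [Finset.sum_image (fun x hx y hy h => hinj hx hy h)]
      refine Finset.sum_congr rfl fun k _ => ?_
      rw [if_pos]
      exact ⟨⟨k * (p.1 * p.2), by ring⟩, ⟨k * p.1 ^ 2, by ring⟩⟩
    rw [e1]
    refine Finset.sum_le_sum_of_subset_of_nonneg (fun x hx => ?_) fun x _ _ => by
      split_ifs <;> [exact hF _; exact le_rfl]
    rw [Finset.mem_image] at hx
    obtain ⟨k, hk, rfl⟩ := hx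
    have hk' := (mem_bl hP).mp hk
    rw [mem_bl (mul_nonneg hc hP)]
    refine ⟨mul_ne_zero hk'.1 hne, ?_⟩
    rw [nm_mul]; push_cast
    have := hn p hp
    calc (nm k : ℝ) * nm (p.1 ^ 2 * p.2) ≤ P * c :=
          mul_le_mul hk'.2 this (Nat.cast_nonneg _) hP
      _ = c * P := mul_comm _ _
  refine (Finset.sum_le_sum h1).trans ?_
  rw [Finset.sum_comm, Finset.mul_sum]
  refine Finset.sum_le_sum fun k hk => ?_
  have hk0 := ((mem_bl (mul_nonneg hc hP)).mp hk).1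
  rw [← Finset.sum_filter, Finset.sum_const, nsmul_eq_mul]
  refine mul_le_mul_of_nonneg_right ?_ (hF k)
  have hsub : Pr.filter (fun p => p.1 ∣ k ∧ p.2 ∣ k) ⊆ pdiv k ×ˢ pdiv k := by
    intro p hp
    rw [Finset.mem_filter] at hp
    rw [Finset.mem_product, mem_pdiv hk0, mem_pdiv hk0]
    exact ⟨⟨(hPr p hp.1).1, hp.2.1⟩, (hPr p hp.1).2, hp.2.2⟩
  have h2 : ((Pr.filter (fun p => p.1 ∣ k ∧ p.2 ∣ k)).card : ℝ) ≤
      ((pdiv k).card : ℝ) * (pdiv k).card := by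
    have := Finset.card_le_card hsub
    rw [Finset.card_product] at this
    exact_mod_cast this
  have h3 := hT k hk
  have h4 : (0 : ℝ) ≤ (pdiv k).card := Nat.cast_nonneg _
  calc _ ≤ ((pdiv k).card : ℝ) * (pdiv k).card := h2
    _ ≤ T * T := mul_le_mul h3 h3 h4 hT0
    _ = T ^ 2 := by ring

lemma VI_nonneg (A : ℝ) (b : Eis → ℂ) (g f π : Eis) (P : ℝ) : 0 ≤ VI A b g f π P :=
  Finset.sum_nonneg fun _ _ => EQ_nonneg _ _ _

/-- the functional of the twisted coefficients -/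
lemma VI_merge (A : ℝ) {b : Eis → ℂ} (hb : ∀ n, b n ≠ 0 → IsPrim n) {g f π : Eis}
    (hg : IsPrim g) {Pr : Finset (Eis × Eis)}
    (hPr : ∀ p ∈ Pr, IsPrim p.1 ∧ IsPrim p.2) {P c T : ℝ} (hP : 0 ≤ P) (hc : 0 ≤ c)
    (hn : ∀ p ∈ Pr, (nm (p.1 ^ 2 * p.2) : ℝ) ≤ c) (hT0 : 0 ≤ T)
    (hT : ∀ k ∈ bl (c * P), ((pdiv k).card : ℝ) ≤ T) :
    ∑ p ∈ Pr, VI A (bs b (p.1 * p.2 ^ 2)) g f π P ≤ T ^ 2 * VI A b g f π (c * P) := by
  classical
  unfold VI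
  refine le_trans (Finset.sum_le_sum fun p _ => Finset.sum_le_sum fun k _ =>
    EQ_bs_le A hb (G := g) (π := π) (k := k) (f := f) (d := p.1) (q := p.2) hg) ?_
  exact sum_merge (F := fun k => EQ A (fun m => if IsCoprime m π then b (g * m) else 0) (k * f))
    (fun k => EQ_nonneg _ _ _) hPr hP hc hn hT0 hT

/-! ### the structured part -/

open Classical in
/-- the part of the Möbius sums with `nm d nm q ≤ P₁` -/
def StrP (χ : Eis → ℂ) (w : ℝ → ℝ) (Y t : ℝ) (b : Eis → ℂ) (κ : Ker) (ρ : Eis) (N₀ P₁ : ℝ) : ℂ :=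
  ∑ d ∈ pdiv ρ, ∑ q ∈ S N₀, if IsCoprime q ρ ∧ (nm d : ℝ) * nm q ≤ P₁ then
    ((mu d : ℂ) * mu q) * Fx (fx χ w Y t b κ) (d * q ^ 2) else 0

/-- weighted Cauchy–Schwarz -/
lemma wcs {N₀ : ℝ} (hN : 0 ≤ N₀) (v : Eis → ℂ) :
    ‖∑ q ∈ S N₀, v q‖ ^ 2 ≤ HS N₀ * ∑ q ∈ S N₀, (nm q : ℝ) * ‖v q‖ ^ 2 := by
  have h1 : ‖∑ q ∈ S N₀, v q‖ ≤ ∑ q ∈ S N₀, ‖v q‖ := norm_sum_le _ _
  have h2 : (∑ q ∈ S N₀, ‖v q‖) ^ 2 ≤
      (∑ q ∈ S N₀, (1 : ℝ) / nm q) * ∑ q ∈ S N₀, (nm q : ℝ) * ‖v q‖ ^ 2 := by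
    refine Finset.sum_sq_le_sum_mul_sum_of_sq_le_mul _ (fun _ _ => by positivity)
      (fun _ _ => by positivity) fun q hq => le_of_eq ?_
    have := nmpos (((mem_S hN).1 hq).2.1.ne_zero)
    field_simp
  calc _ ≤ (∑ q ∈ S N₀, ‖v q‖) ^ 2 := pow_le_pow_left₀ (norm_nonneg _) h1 2
    _ ≤ _ := h2

open Classical in
lemma norm_StrP_le {χ : Eis → ℂ} (hχ : Mul1 χ) {w : ℝ → ℝ} {Y t : ℝ} (hY : 0 < Y) {b : Eis → ℂ}
    (hb : ∀ n, b n ≠ 0 → IsPrim n) (κ : Ker) {ρ : Eis} (hρ : ρ ≠ 0) {N₀ : ℝ} (hN : 0 ≤ N₀)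
    (P₁ : ℝ) :
    ‖StrP χ w Y t b κ ρ N₀ P₁‖ ^ 2 ≤ ((pdiv ρ).card : ℝ) * HS N₀ *
      ∑ d ∈ pdiv ρ, ∑ q ∈ S N₀, if (nm d : ℝ) * nm q ≤ P₁ then
        (nm q : ℝ) * ‖XS χ w (Y / nm (d * q ^ 2)) t (bs b (d * q ^ 2)) κ‖ ^ 2 else 0 := by
  unfold StrP
  have h1 : ∀ d ∈ pdiv ρ, ‖∑ q ∈ S N₀, (if IsCoprime q ρ ∧ (nm d : ℝ) * nm q ≤ P₁ then
      ((mu d : ℂ) * mu q) * Fx (fx χ w Y t b κ) (d * q ^ 2) else 0)‖ ^ 2 ≤
      HS N₀ * ∑ q ∈ S N₀, if (nm d : ℝ) * nm q ≤ P₁ then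
        (nm q : ℝ) * ‖XS χ w (Y / nm (d * q ^ 2)) t (bs b (d * q ^ 2)) κ‖ ^ 2 else 0 := by
    intro d hd
    have hd' := (mem_pdiv hρ).mp hd
    refine (wcs hN _).trans ?_
    refine mul_le_mul_of_nonneg_left (Finset.sum_le_sum fun q hq => ?_) (HS_nonneg _)
    have hq' := (mem_S hN).1 hq
    by_cases h2 : (nm d : ℝ) * nm q ≤ P₁
    · rw [if_pos h2]
      refine mul_le_mul_of_nonneg_left ?_ (Nat.cast_nonneg _)
      refine pow_le_pow_left₀ (norm_nonneg _) ?_ 2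
      split_ifs with h3
      · rw [norm_mul]
        refine le_trans ?_ (norm_Fx_le hχ hY hb (hd'.1.mul (hq'.2.1.pow 2)))
        refine mul_le_of_le_one_left (norm_nonneg _) ?_
        rw [norm_mul, Complex.norm_intCast, Complex.norm_intCast]
        have a1 : |(mu d : ℝ)| ≤ 1 := by exact_mod_cast abs_mu_le_one d
        have a2 : |(mu q : ℝ)| ≤ 1 := by exact_mod_cast abs_mu_le_one q
        calc _ ≤ (1 : ℝ) * 1 := mul_le_mul a1 a2 (abs_nonneg _) zero_le_one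
          _ = 1 := one_mul 1
      · rw [norm_zero]; exact norm_nonneg _
    · rw [if_neg (fun h => h2 h.2), if_neg h2, norm_zero]; simp
  calc _ ≤ (∑ d ∈ pdiv ρ, ‖∑ q ∈ S N₀, (if IsCoprime q ρ ∧ (nm d : ℝ) * nm q ≤ P₁ then
      ((mu d : ℂ) * mu q) * Fx (fx χ w Y t b κ) (d * q ^ 2) else 0)‖) ^ 2 :=
        pow_le_pow_left₀ (norm_nonneg _) (norm_sum_le _ _) 2
    _ ≤ ((pdiv ρ).card : ℝ) * ∑ d ∈ pdiv ρ,
        ‖∑ q ∈ S N₀, (if IsCoprime q ρ ∧ (nm d : ℝ) * nm q ≤ P₁ then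
      ((mu d : ℂ) * mu q) * Fx (fx χ w Y t b κ) (d * q ^ 2) else 0)‖ ^ 2 :=
        sq_sum_le_card_mul_sum_sq
    _ ≤ ((pdiv ρ).card : ℝ) * ∑ d ∈ pdiv ρ, HS N₀ * ∑ q ∈ S N₀,
        if (nm d : ℝ) * nm q ≤ P₁ then
        (nm q : ℝ) * ‖XS χ w (Y / nm (d * q ^ 2)) t (bs b (d * q ^ 2)) κ‖ ^ 2 else 0 :=
        mul_le_mul_of_nonneg_left (Finset.sum_le_sum h1) (Nat.cast_nonneg _)
    _ = _ := by rw [← Finset.mul_sum]; ring

lemma nf_anti {lam I I' : ℝ} (hl : 0 ≤ lam) (hI : 0 < I) (h : I ≤ I') : nf lam I' ≤ nf lam I := by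
  unfold nf
  have h1 : I' ^ (-(2 / 3) : ℝ) ≤ I ^ (-(2 / 3) : ℝ) :=
    Real.rpow_le_rpow_of_nonpos hI h (by norm_num)
  have h2 : I' ^ (-(1 / 3) : ℝ) ≤ I ^ (-(1 / 3) : ℝ) :=
    Real.rpow_le_rpow_of_nonpos hI h (by norm_num)
  have h3 : 0 ≤ lam ^ (2 / 3 : ℝ) := by positivity
  gcongr

lemma nf_nonneg {lam I : ℝ} (hl : 0 ≤ lam) (hI : 0 ≤ I) : 0 ≤ nf lam I := by
  unfold nf; positivity

end Crest.Agent.R017.Mode405
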