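import Crest.Agent.R017.E3Sg_290
import Crest.Agent.R017.E3Si_290
import Crest.Agent.R017.E3Sd_579
import Crest.Agent.R017.ModeC_405

/-!
# Row 17, block C70, leaf E3 (S-sum), (CELL) part 1 (helper290): removal of the dilation

* `pS_dil` : `pS ψ om r (bF (κ₂ (E u)) F b) = sy (E u) · pS ψ om r (bF κ₂ (F (E u)) b)`
* `EQ_dil` : the frequency `(u x) (E² X)` at the dilation `κ₂ E u` is `x (E X)` at the dilation `κ₂`
* `sum_split` : the sum over `x ∈ bl L` split by the greatest common divisor with `κ`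
-/

set_option autoImplicit false

noncomputable section

open Complex MeasureTheory
open scoped ComplexConjugate

namespace Crest.Agent.R017.E3Sm290

open Crest.Agent.R012 Crest.Agent.R012.Eis Crest.Agent.R012.MC
open Crest.Agent.R012.LS2 (S mem_S bl mem_bl)
open Crest.Agent.R012.Mob705 (mu pdiv mem_pdiv)
open Crest.Agent.R012.Weight600 (pw)
open Crest.Agent.R017.CM106 (CS TG FS)
open Crest.Agent.R017.BD829 (TT EQ EQ_nonneg)
open Crest.Agent.R017.E3D579 (uS uS_supp bF bt CS_bF EQ_sy sy_mulL sy_mulR)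
open Crest.Agent.R017.E3Sd579 (pS pS_supp)
open Crest.Agent.R017.E1551 (nmpos)
open Crest.Agent.R017.StA828 (gp gp_spec)
open Crest.Agent.R017.Mode405 (EQ_congr)
open Gauss880 (syG)

/-- the coefficient sum of the smaller dilation -/
lemma CS_dil {κ E F : Eis} (hκ : IsPrim κ) (hE : IsPrim E) {b : Eis → ℂ} (hb : FS b) {n : Eis}
    (hn : IsPrim n) :
    CS (bF (κ * E) F b) n = sy E n * CS (bF κ (F * E) b) n := by
  rw [CS_bF (hκ.mul hE) hb, CS_bF hκ hb]
  have e1 : F * (κ * E * n) = F * E * (κ * n) := by ring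
  rw [e1, sy_mulR hκ hE, syG.recip n E hn hE]
  ring

lemma pS_dil (ψ : Eis → ℂ) (om : ℝ → ℂ) (r : Eis) {κ E F : Eis} (hκ : IsPrim κ) (hE : IsPrim E)
    {b : Eis → ℂ} (hb : FS b) (n : Eis) :
    pS ψ om r (bF (κ * E) F b) n = sy E n * pS ψ om r (bF κ (F * E) b) n := by
  unfold pS uS
  by_cases h : IsPrim n ∧ Squarefree n ∧ IsCoprime n r
  · rw [if_pos h, if_pos h, CS_dil hκ hE hb h.1]; ring
  · rw [if_neg h, if_neg h]; ring

lemma sy_cube_mul {c y n : Eis} (hn : IsPrim n) (hc : IsCoprime c n) :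
    sy (c ^ 3 * y) n = sy y n := by
  rw [sy_mulL hn, Char766.sy_cube_left hn hc, one_mul]

/-- **the dilation** goes into the frequency -/
theorem EQ_dil (A : ℝ) (ψ : Eis → ℂ) (om : ℝ → ℂ) {r κ E u F : Eis} (hκ : IsPrim κ)
    (hE : IsPrim E) (hu : IsPrim u) (hr : E * u ∣ r) {b : Eis → ℂ} (hb : FS b) (x X : Eis) :
    EQ A (pS ψ om r (bF (κ * (E * u)) F b)) ((u * x) * (E ^ 2 * X)) =
      EQ A (pS ψ om r (bF κ (F * (E * u)) b)) (x * (E * X)) := by
  have e0 : pS ψ om r (bF (κ * (E * u)) F b) =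
      fun n => sy (E * u) n * pS ψ om r (bF κ (F * (E * u)) b) n :=
    funext fun n => pS_dil ψ om r hκ (hE.mul hu) hb n
  rw [e0, EQ_sy (fun n hn => (pS_supp hn).1)]
  refine EQ_congr fun n hn => ?_
  obtain ⟨h1, -, h2, -⟩ := pS_supp hn
  have h3 : IsCoprime (E * u) n := (h2.of_isCoprime_of_dvd_right hr).symm
  have e1 : u * x * (E ^ 2 * X) * (E * u) ^ 2 = (E * u) ^ 3 * (x * (E * X)) := by ring
  rw [e1, sy_cube_mul h1 h3]

/-- the norm of the coefficient sum of the smaller dilation -/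
lemma norm_CS_dil {κ E F : Eis} (hκ : IsPrim κ) (hE : IsPrim E) {b : Eis → ℂ} (hb : FS b) {n : Eis}
    (hn : IsPrim n) (hc : IsCoprime n E) :
    ‖CS (bF κ (F * E) b) n‖ = ‖CS (bF (κ * E) F b) n‖ := by
  rw [CS_dil hκ hE hb hn, norm_mul, PX764.norm_sy_one hn hc.symm, one_mul]

open Classical in
/-- **splitting by the greatest common divisor** -/
theorem sum_split {κ : Eis} (hκ : IsPrim κ) {f : Eis → ℝ} (hf : ∀ x, 0 ≤ f x)
    {L : ℝ} (hL : 0 ≤ L) :
    ∑ x ∈ bl L, f x ≤ ∑ u ∈ pdiv κ, ∑ x ∈ (bl (L / nm u)).filter (fun x => IsCoprime x (κ / u)),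
      f (u * x) := by
  have hm : ∀ x ∈ bl L, gp x κ ∈ pdiv κ := by
    intro x _
    obtain ⟨h1, h2, h3, h4, h5⟩ := gp_spec x hκ
    exact (mem_pdiv hκ.ne_zero).mpr ⟨h1, ⟨_, h4⟩⟩
  rw [← Finset.sum_fiberwise_of_maps_to hm]
  refine Finset.sum_le_sum fun u hu => ?_
  have hu' := (mem_pdiv hκ.ne_zero).mp hu
  have nu := nmpos hu'.1.ne_zero
  have hinj : Set.InjOn (fun x : Eis => u * x)
      ((bl (L / nm u)).filter (fun x => IsCoprime x (κ / u)) : Finset Eis) :=
    fun x _ y _ h => mul_left_cancel₀ hu'.1.ne_zero h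
  rw [← Finset.sum_image (f := f) hinj]
  refine Finset.sum_le_sum_of_subset_of_nonneg (fun x hx => ?_) fun x _ _ => hf x
  rw [Finset.mem_filter, mem_bl hL] at hx
  obtain ⟨⟨hx0, hxL⟩, hxu⟩ := hx
  obtain ⟨h1, h2, h3, h4, h5⟩ := gp_spec x hκ
  rw [hxu] at h3 h4 h5
  rw [Finset.mem_image]
  refine ⟨x / u, ?_, h3.symm⟩
  rw [Finset.mem_filter, mem_bl (by positivity)]
  refine ⟨⟨fun h0 => hx0 (by rw [h3, h0, mul_zero]), ?_⟩, h5⟩
  rw [le_div_iff₀ nu]
  calc (nm (x / u) : ℝ) * nm u = nm x := by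
        conv_rhs => rw [h3, nm_mul]
        push_cast; ring
    _ ≤ L := hxL

open Classical in
/-- **one cell from the ball bounds** -/
theorem cell_abs {A : ℝ} {ψ : Eis → ℂ} {om : ℝ → ℂ} {r κ E F : Eis} (hκ : IsPrim κ) (hE : IsPrim E)
    (hr : κ * E ∣ r) {b : Eis → ℂ} (hb : FS b) (X : Eis) {lam : ℝ} (hlam : 0 < lam) {G : ℝ → ℝ}
    {s : ℝ} {a B : ℕ} (hsa : s ≤ a) (hB : a + 1 ≤ B) (hGr : E3Sh290.Gr s G)
    (hG : ∀ L : ℝ, 1 ≤ L → ∀ u ∈ pdiv κ, 1 ≤ L / nm u →
      ∑ x ∈ (bl (L / nm u)).filter (fun x => IsCoprime x (κ / u)),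
        EQ A (pS ψ om r (bF (κ / u) (F * (E * u)) b)) (x * (E * X)) ≤ G L) :
    ∑' x : Eis, (if x = 0 then 0 else
      BD829.Wl B lam x * EQ A (pS ψ om r (bF (κ * E) F b)) (x * (E ^ 2 * X))) ≤
      ((pdiv κ).card : ℝ) * ((1 + 2 ^ (a + 1)) * ((min 1 lam) ^ (B - a) * G lam)) := by
  have h1 := E3Sh290.famG (O := {()}) (lam := fun _ : Unit => lam)
    (F := fun _ x => EQ A (pS ψ om r (bF (κ * E) F b)) (x * (E ^ 2 * X))) (lm := lam) hlam
    (fun _ _ => ⟨hlam, le_rfl⟩) (fun _ _ x => EQ_nonneg _ _ _)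
    (G := fun L => ((pdiv κ).card : ℝ) * G L) hsa hB (hGr.smul (Nat.cast_nonneg _)) (fun L hL => by
      rw [Finset.sum_singleton]
      have hL0 : 0 ≤ L := by linarith
      refine (sum_split hκ (fun x => EQ_nonneg _ _ _) hL0).trans ?_
      have h2 : ∀ u ∈ pdiv κ, ∑ x ∈ (bl (L / nm u)).filter (fun x => IsCoprime x (κ / u)),
          EQ A (pS ψ om r (bF (κ * E) F b)) (u * x * (E ^ 2 * X)) ≤ G L := by
        intro u hu
        have hu' := (mem_pdiv hκ.ne_zero).mp hu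
        have nu := nmpos hu'.1.ne_zero
        have e1 : κ = κ / u * u := by
          rw [mul_comm]; exact (EuclideanDomain.mul_div_cancel' hu'.1.ne_zero hu'.2).symm
        have hκu : IsPrim (κ / u) := IsPrim.of_mul_left (x := u) (by rw [mul_comm, ← e1]; exact hκ)
          hu'.1
        have e2 : κ * E = κ / u * (E * u) := by
          conv_lhs => rw [e1]
          ring
        have hru : E * u ∣ r := (Dvd.intro_left (κ / u) (by rw [← e2])).trans hr
        have e3 : ∀ x : Eis, EQ A (pS ψ om r (bF (κ * E) F b)) (u * x * (E ^ 2 * X)) =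
            EQ A (pS ψ om r (bF (κ / u) (F * (E * u)) b)) (x * (E * X)) := by
          intro x
          rw [e2]
          exact EQ_dil A ψ om hκu hE hu'.1 hru hb x X
        simp only [e3]
        by_cases hLu : 1 ≤ L / nm u
        · exact hG L hL u hu hLu
        · rw [not_le] at hLu
          have h0 : bl (L / nm u) = ∅ := by
            refine Finset.eq_empty_of_forall_notMem fun x hx => ?_
            rw [mem_bl (by positivity)] at hx
            have := E1551.nm_ge_one hx.1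
            linarith [hx.2]
          rw [h0]
          simp only [Finset.filter_empty, Finset.sum_empty]
          exact hGr.nonneg L (by linarith)
      refine (Finset.sum_le_sum h2).trans (le_of_eq ?_)
      rw [Finset.sum_const, nsmul_eq_mul])
  rw [Finset.sum_singleton] at h1
  refine h1.trans (le_of_eq ?_)
  ring

end Crest.Agent.R017.E3Sm290
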