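import Crest.Agent.R017.E3Sm_290

/-!
# Row 17, block C70, leaf E3 (S-sum), (CELL) part 2 (helper290): the growth of the bound of the modes

* `RH` : the right side of the bound of the modes;  `Gr_RH` : its growth
* `cell_RH` : one cell from the bounds of the modes
-/

set_option autoImplicit false

noncomputable section

open Complex MeasureTheory
open scoped ComplexConjugate

namespace Crest.Agent.R017.E3So290

open Crest.Agent.R012 Crest.Agent.R012.Eis Crest.Agent.R012.MC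
open Crest.Agent.R012.LS2 (S mem_S bl mem_bl)
open Crest.Agent.R012.Mob705 (mu pdiv mem_pdiv)
open Crest.Agent.R017.CM106 (CS TG FS)
open Crest.Agent.R017.BD829 (TT EQ EQ_nonneg Wl)
open Crest.Agent.R017.E3D579 (bF)
open Crest.Agent.R017.E3Sd579 (pS)
open Crest.Agent.R017.E1551 (nmpos)
open Crest.Agent.R017.E3Sh290 (Gr)
open Crest.Agent.R017.E3Sm290

/-- the right side of the bound of the modes -/
def RH (Y Lt X0 T R1 L : ℝ) : ℝ :=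
  Y ^ (-(1 / 3) : ℝ) * (((L * X0 / Lt) ^ (1 / 3 : ℝ) * Y +
    min 1 (L * X0 / Lt) * (L + (L * Y) ^ (2 / 3 : ℝ))) * T + (L * X0 / Lt) ^ (1 / 3 : ℝ) * R1)

lemma Gr_RH {Y Lt X0 T R1 : ℝ} (hY : 0 ≤ Y) (hLt : 0 < Lt) (hX : 0 ≤ X0) (hT : 0 ≤ T)
    (hR : 0 ≤ R1) : Gr 2 (RH Y Lt X0 T R1) := by
  have g1 : Gr 1 (fun L : ℝ => L * X0 / Lt) := by
    have h := (Gr.id).smul (a := X0 / Lt) (by positivity)
    refine h.congr fun L _ => ?_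
    ring
  have g2 : Gr (1 * (1 / 3)) (fun L : ℝ => (L * X0 / Lt) ^ (1 / 3 : ℝ)) := g1.rpow (by norm_num)
  have g3 : Gr 1 (fun L : ℝ => (L * X0 / Lt) ^ (1 / 3 : ℝ) * Y) :=
    (g2.mulr hY).mono (by norm_num)
  have g4 : Gr 1 (fun L : ℝ => min 1 (L * X0 / Lt)) := g1.min_one (by norm_num)
  have g5 : Gr 1 (fun L : ℝ => (L * Y) ^ (2 / 3 : ℝ)) := by
    have h := ((Gr.id).mulr hY).rpow (p := 2 / 3) (by norm_num)
    exact h.mono (by norm_num)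
  have g6 : Gr (1 + 1) (fun L : ℝ => min 1 (L * X0 / Lt) * (L + (L * Y) ^ (2 / 3 : ℝ))) :=
    g4.mul ((Gr.id).add g5)
  have g7 : Gr 2 (fun L : ℝ => ((L * X0 / Lt) ^ (1 / 3 : ℝ) * Y +
      min 1 (L * X0 / Lt) * (L + (L * Y) ^ (2 / 3 : ℝ)))) :=
    (g3.mono (by norm_num)).add (g6.mono (by norm_num))
  have g8 : Gr 2 (fun L : ℝ => (L * X0 / Lt) ^ (1 / 3 : ℝ) * R1) :=
    (g2.mulr hR).mono (by norm_num)
  exact ((g7.mulr hT).add g8).smul (Real.rpow_nonneg hY _)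

lemma RH_nonneg {Y Lt X0 T R1 L : ℝ} (hY : 0 ≤ Y) (hLt : 0 < Lt) (hX : 0 ≤ X0) (hT : 0 ≤ T)
    (hR : 0 ≤ R1) (hL : 0 < L) : 0 ≤ RH Y Lt X0 T R1 L := (Gr_RH hY hLt hX hT hR).nonneg L hL

open Classical in
/-- **one cell from the bounds of the modes** -/
theorem cell_RH {ε : ℝ} (hε : 0 < ε) (hε1 : ε ≤ 1) : ∃ C' : ℝ, 0 ≤ C' ∧
    ∀ {A : ℝ} {ψ : Eis → ℂ} {om : ℝ → ℂ} {r κ E F : Eis}, IsPrim κ → IsPrim E →
      κ * E ∣ r → ∀ {b : Eis → ℂ}, FS b → ∀ (X : Eis) {lam Z C Y Lt X0 T R1 : ℝ}, 0 < lam →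
      lam ≤ Z → 1 ≤ Z → (nm κ : ℝ) ≤ Z → 0 ≤ C → 0 ≤ Y → 0 < Lt → 0 ≤ X0 → 0 ≤ T → 0 ≤ R1 →
      ∀ {B : ℕ}, 4 ≤ B →
      (∀ L : ℝ, 1 ≤ L → ∀ u ∈ pdiv κ, 1 ≤ L / nm u →
        ∑ x ∈ (bl (L / nm u)).filter (fun x => IsCoprime x (κ / u)),
          EQ A (pS ψ om r (bF (κ / u) (F * (E * u)) b)) (x * (E * X)) ≤
            C * (Z * L) ^ ε * RH Y Lt X0 T R1 L) →
      ∑' x : Eis, (if x = 0 then 0 else
        Wl B lam x * EQ A (pS ψ om r (bF (κ * E) F b)) (x * (E ^ 2 * X))) ≤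
      C' * C * Z ^ (3 * ε) * RH Y Lt X0 T R1 lam := by
  obtain ⟨C₁, hC₁, htau⟩ := Div277.tau_le_rpow (ε := ε) hε
  have hC10 : 0 ≤ C₁ := by linarith
  refine ⟨C₁ * (1 + 2 ^ (3 + 1)), by positivity, ?_⟩
  intro A ψ om r κ E F hκ hE hr b hb X lam Z C Y Lt X0 T R1 hlam hlZ hZ hκZ hC hY hLt hX0 hT hR1
    B hB hmode
  have hZ0 : 0 < Z := by linarith
  have g1 : Gr ε (fun L : ℝ => (Z * L) ^ ε) := (Gr.pow ε).comp_mul hZ0
  have g2 : Gr 3 (fun L : ℝ => C * (Z * L) ^ ε * RH Y Lt X0 T R1 L) := by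
    have h := (g1.smul hC).mul (Gr_RH hY hLt hX0 hT hR1)
    exact h.mono (by linarith)
  have key := cell_abs (a := 3) hκ hE hr hb X hlam (by norm_num) (by omega : 3 + 1 ≤ B) g2 hmode
  refine key.trans ?_
  have h1 : ((pdiv κ).card : ℝ) ≤ C₁ * Z ^ ε :=
    (htau _ hκ.ne_zero).trans (mul_le_mul_of_nonneg_left
      (Real.rpow_le_rpow (Nat.cast_nonneg _) hκZ hε.le) hC10)
  have h2 : (min 1 lam) ^ (B - 3) ≤ 1 :=
    pow_le_one₀ (le_min zero_le_one hlam.le) (min_le_left _ _)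
  have h3 : (Z * lam) ^ ε ≤ Z ^ (2 * ε) := by
    have : Z * lam ≤ Z ^ (2 : ℝ) := by
      rw [Real.rpow_two, pow_two]
      exact mul_le_mul_of_nonneg_left hlZ hZ0.le
    calc (Z * lam) ^ ε ≤ (Z ^ (2 : ℝ)) ^ ε := Real.rpow_le_rpow (by positivity) this hε.le
      _ = Z ^ (2 * ε) := by rw [← Real.rpow_mul hZ0.le]
  have h4 : Z ^ (3 * ε) = Z ^ ε * Z ^ (2 * ε) := by
    rw [← Real.rpow_add hZ0]; congr 1; ring
  have hR0 := RH_nonneg (L := lam) hY hLt hX0 hT hR1 hlam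
  have h5 : 0 ≤ (Z * lam) ^ ε := by positivity
  calc ((pdiv κ).card : ℝ) * ((1 + 2 ^ (3 + 1)) * ((min 1 lam) ^ (B - 3) *
        (C * (Z * lam) ^ ε * RH Y Lt X0 T R1 lam)))
      ≤ (C₁ * Z ^ ε) * ((1 + 2 ^ (3 + 1)) * (1 *
        (C * Z ^ (2 * ε) * RH Y Lt X0 T R1 lam))) := by
        gcongr
    _ = C₁ * (1 + 2 ^ (3 + 1)) * C * Z ^ (3 * ε) * RH Y Lt X0 T R1 lam := by rw [h4]; ring

end Crest.Agent.R017.E3So290
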