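import Crest.Agent.R017.E3Sd_579

/-!
# Row 17, block C70, leaf E3 (S-lin): the modes of 842's pair for structured sequences (helper579)

* `tws_Us` : `tws t (Us s om r b) = Us (s t) om r b`
* `ModeP_le_sum` : `ModeP ≤ Σ_F Σ'_h WB h (ρ_F ‖cU‖² EQ(ψ·uS) + ρ_F⁻¹ ‖cU'‖² EQ(ψ̄·uS'))`
* `MP_le_sum` : the same summed over `a, b, D, E`
-/

set_option autoImplicit false
set_option linter.unusedVariables false
set_option maxHeartbeats 400000

noncomputable section

open Complex MeasureTheory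
open scoped ComplexConjugate Classical

namespace Crest.Agent.R017.E3Sp579

open Crest.Agent.R012 Crest.Agent.R012.Eis Crest.Agent.R012.MC
open Crest.Agent.R012.LS2 (S mem_S bl mem_bl)
open Crest.Agent.R012.Div277 (dvs mem_dvs isPrim_of_mem_dvs dvd_of_mem_dvs)
open Crest.Agent.R012.Mob705 (mu pdiv mem_pdiv)
open Crest.Agent.R017.CM106 (CS TG FS)
open Crest.Agent.R017.BD829
open Crest.Agent.R017.E3P842
open Crest.Agent.R017.E3D579
open Crest.Agent.R017.E3Sd579
open Crest.Agent.R017.E1551 (jb jb_pos nmpos)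
open Gauss880 (syG)

lemma tws_Us (s t : Eis) (om : ℝ → ℂ) (r : Eis) (b : Eis → ℂ) :
    tws t (Us s om r b) = Us (s * t) om r b := by
  funext n
  unfold tws Us
  by_cases h : uS om r b n = 0
  · rw [h]; simp
  · rw [sy_mulL (uS_supp h).1]; ring

/-- a bound of `EQ` -/
lemma EQ_le {A : ℝ} (hA : 1 < A) {Y : ℝ} (hY : 0 ≤ Y) {u : Eis → ℂ}
    (hu : ∀ n, u n ≠ 0 → n ∈ S Y) (H : Eis) :
    EQ A u H ≤ (∫ t, jb A t) * (∑ k ∈ S Y, ‖u k‖) ^ 2 := by
  unfold EQ
  rw [← integral_mul_const]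
  refine integral_mono (integrable_EQ hA hY hu H) ((E1551.integrable_jb hA).mul_const _)
    fun t => ?_
  exact mul_le_mul_of_nonneg_left (pow_le_pow_left₀ (norm_nonneg _) (norm_TT_le hY hu H t) 2)
    (jb_pos A t).le

variable {Y₀ Y : ℝ} {g p q : Eis} {U V : Eis → ℂ}

/-- the modes of the pair `(a, b)`, squares, `ρ` depending on `F` -/
theorem PD_ModeP_le_sum (h : PD Y₀ Y g p q U V) {a b : Eis} (ha : a ∈ dvs q) (hb : b ∈ dvs p)
    {A B : ℕ} (hA : 1 < A) (hB : 1 < B) {M : Eis} {ψ : Eis → ℂ} (hψ : LC M ψ) {K N₁ N₂ : ℝ}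
    (hK : 0 < K) (h₁ : 0 < N₁) (h₂ : 0 < N₂) {D E : Eis} (hD : IsPrim D) (hE : E ≠ 0)
    {ρ : Eis → ℝ} (hρ : ∀ F, 0 < ρ F) :
    ModeP A B M ψ K N₁ N₂ Y p q U V a b D E ≤
      ∑ F ∈ S Y, if IsCoprime (D * F) (p * q) then
        (ρ F * ∑' x : Eis, (if x = 0 then 0 else WB M K N₁ N₂ B D E x *
            EQ A (rs (ua U q a) ψ D F) (Hf M E x F * (q / a * b))) +
          (ρ F)⁻¹ * ∑' x : Eis, (if x = 0 then 0 else WB M K N₁ N₂ B D E x *
            EQ A (rs (ua V p b) (fun m => conj (ψ m)) D F) (Hf M E x F * (p / b * a)))) else 0 := by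
  have hap := isPrim_of_mem_dvs ha
  have hbp := isPrim_of_mem_dvs hb
  have hA' : (1 : ℝ) < (A : ℝ) := by exact_mod_cast hA
  have hj : 0 ≤ ∫ t, jb (A : ℝ) t := integral_nonneg fun t => (jb_pos _ t).le
  have hWs := summable_WB hψ.ne hK h₁ h₂ hB hD.ne_zero hE
  have hW0 : ∀ x, 0 ≤ WB M K N₁ N₂ B D E x := fun x => WB_nonneg hK.le h₁.le h₂.le B D E x
  -- summability of the two sides
  have hs1 : ∀ F, IsPrim F → Summable fun x : Eis => if x = 0 then 0 else WB M K N₁ N₂ B D E x *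
      EQ A (rs (ua U q a) ψ D F) (Hf M E x F * (q / a * b)) := by
    intro F hF
    refine Summable.of_nonneg_of_le (fun x => ?_) (fun x => ?_)
      (hWs.mul_right ((∫ t, jb (A : ℝ) t) * (∑ k ∈ S Y₀, ‖rs (ua U q a) ψ D F k‖) ^ 2))
    · split_ifs
      · exact le_rfl
      · exact mul_nonneg (hW0 x) (EQ_nonneg _ _ _)
    · split_ifs
      · rw [zero_mul]
      · exact mul_le_mul_of_nonneg_left (EQ_le hA' h.Y0 (h.rs_ua_supp hap q ψ hD hF) _) (hW0 x)
  have hs2 : ∀ F, IsPrim F → Summable fun x : Eis => if x = 0 then 0 else WB M K N₁ N₂ B D E x *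
      EQ A (rs (ua V p b) (fun m => conj (ψ m)) D F) (Hf M E x F * (p / b * a)) := by
    intro F hF
    refine Summable.of_nonneg_of_le (fun x => ?_) (fun x => ?_)
      (hWs.mul_right ((∫ t, jb (A : ℝ) t) *
        (∑ k ∈ S Y₀, ‖rs (ua V p b) (fun m => conj (ψ m)) D F k‖) ^ 2))
    · split_ifs
      · exact le_rfl
      · exact mul_nonneg (hW0 x) (EQ_nonneg _ _ _)
    · split_ifs
      · rw [zero_mul]
      · exact mul_le_mul_of_nonneg_left (EQ_le hA' h.Y0 (h.rs_ua_supp' hbp p _ hD hF) _) (hW0 x)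
  have hSF : ∀ F ∈ S Y, IsPrim F := fun F hF => ((mem_S h.hY).1 hF).2.1
  have e2 : ∀ F ∈ S Y, (if IsCoprime (D * F) (p * q) then
        (ρ F * ∑' x : Eis, (if x = 0 then 0 else WB M K N₁ N₂ B D E x *
            EQ A (rs (ua U q a) ψ D F) (Hf M E x F * (q / a * b))) +
          (ρ F)⁻¹ * ∑' x : Eis, (if x = 0 then 0 else WB M K N₁ N₂ B D E x *
            EQ A (rs (ua V p b) (fun m => conj (ψ m)) D F) (Hf M E x F * (p / b * a)))) else 0) =
      ∑' x : Eis, (if x = 0 then 0 else WB M K N₁ N₂ B D E x *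
        (if IsCoprime (D * F) (p * q) then
          (ρ F * EQ A (rs (ua U q a) ψ D F) (Hf M E x F * (q / a * b)) +
          (ρ F)⁻¹ * EQ A (rs (ua V p b) (fun m => conj (ψ m)) D F) (Hf M E x F * (p / b * a)))
          else 0)) := by
    intro F hF
    split_ifs with hc
    · rw [← tsum_mul_left, ← tsum_mul_left,
        ← ((hs1 F (hSF F hF)).mul_left (ρ F)).tsum_add ((hs2 F (hSF F hF)).mul_left (ρ F)⁻¹)]
      refine tsum_congr fun x => ?_
      split_ifs
      · simp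
      · ring
    · simp
  have hs3 : ∀ F ∈ S Y, Summable fun x : Eis => (if x = 0 then 0 else WB M K N₁ N₂ B D E x *
        (if IsCoprime (D * F) (p * q) then
          (ρ F * EQ A (rs (ua U q a) ψ D F) (Hf M E x F * (q / a * b)) +
          (ρ F)⁻¹ * EQ A (rs (ua V p b) (fun m => conj (ψ m)) D F) (Hf M E x F * (p / b * a)))
          else 0)) := by
    intro F hF
    by_cases hc : IsCoprime (D * F) (p * q)
    · simp only [if_pos hc]
      refine (((hs1 F (hSF F hF)).mul_left (ρ F)).add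
        ((hs2 F (hSF F hF)).mul_left (ρ F)⁻¹)).congr fun x => ?_
      split_ifs
      · simp
      · ring
    · simp only [if_neg hc, mul_zero, ite_self]
      exact summable_zero
  rw [Finset.sum_congr rfl e2, ← Summable.tsum_finsetSum hs3]
  unfold ModeP
  refine Summable.tsum_le_tsum (fun x => ?_) (h.summable_ModeP ha hb hA hB hψ hK h₁ h₂ hD hE)
    (summable_sum hs3)
  by_cases hx : x = 0
  · simp [hx]
  · simp only [if_neg hx]
    rw [← Finset.mul_sum]
    refine mul_le_mul_of_nonneg_left (Finset.sum_le_sum fun F hF => ?_) (hW0 x)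
    by_cases hc : IsCoprime (D * F) (p * q)
    · rw [if_pos hc, if_pos hc]
      refine (EP_le_EQ hA' h.Y0 (h.rs_ua_supp hap q ψ hD (hSF F hF))
        (h.rs_ua_supp' hbp p _ hD (hSF F hF)) _ _ (hρ F)).trans ?_
      refine add_le_add (mul_le_mul_of_nonneg_right (by linarith [hρ F]) (EQ_nonneg _ _ _))
        (mul_le_mul_of_nonneg_right ?_ (EQ_nonneg _ _ _))
      rw [one_div]
      exact inv_anti₀ (hρ F) (by linarith [hρ F])
    · rw [if_neg hc, if_neg hc]

/-- one side of one cell -/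
def UE (A B : ℕ) (M : Eis) (ψ : Eis → ℂ) (K NN : ℝ) (s : Eis) (om : ℝ → ℂ) (r : Eis)
    (b : Eis → ℂ) (q a c D E F : Eis) : ℝ :=
  if Squarefree (a * D * F) ∧ IsCoprime (a * D * F) r ∧ IsCoprime (D * F) q then
    (nm (a * D * F) : ℝ) ^ (-(1 / 3) : ℝ) * ∑' x : Eis, (if x = 0 then 0 else
      WB M K NN 1 B D E x * EQ A (pS ψ (fun y => om ((nm (a * D * F) : ℝ) * y))
        (r * q * (a * D * F)) (bF (a * D) F b)) (x * ((E * (M * sq3) * s) ^ 2 * (q / a * c))))
  else 0

/-- **the modes of structured sequences** -/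
theorem ModeP_le_UE {s s' r r' : Eis} {om om' : ℝ → ℂ} {bU bV : Eis → ℂ} (hbU : FS bU)
    (hbV : FS bV) (h : PD Y₀ Y g p q (Us s om r bU) (Us s' om' r' bV)) {a b : Eis}
    (ha : a ∈ dvs q) (hb : b ∈ dvs p)
    {A B : ℕ} (hA : 1 < A) (hB : 1 < B) {M : Eis} {ψ : Eis → ℂ} (hψ : LC M ψ) {K NN : ℝ}
    (hK : 0 < K) (hN : 0 < NN) {D E : Eis} (hD : IsPrim D) (hE : E ≠ 0)
    {ρ : Eis → ℝ} (hρ : ∀ F, 0 < ρ F) :
    ModeP A B M ψ K NN 1 Y p q (Us s om r bU) (Us s' om' r' bV) a b D E ≤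
      ∑ F ∈ S Y, if IsCoprime (D * F) (p * q) then
        (ρ F * UE A B M ψ K NN s om r bU q a b D E F +
          (ρ F)⁻¹ * UE A B M (fun m => conj (ψ m)) K NN s' om' r' bV p b a D E F) else 0 := by
  have hap := isPrim_of_mem_dvs ha
  have hbp := isPrim_of_mem_dvs hb
  refine (PD_ModeP_le_sum h ha hb hA hB hψ hK hN one_pos hD hE hρ).trans ?_
  refine Finset.sum_le_sum fun F hF => ?_
  have hFp : IsPrim F := ((mem_S h.hY).1 hF).2.1
  by_cases hc : IsCoprime (D * F) (p * q)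
  · rw [if_pos hc, if_pos hc]
    have hW0 : ∀ x, 0 ≤ WB M K NN 1 B D E x := fun x => WB_nonneg hK.le hN.le zero_le_one B D E x
    have key : ∀ (s : Eis) (om : ℝ → ℂ) (r : Eis) (bU : Eis → ℂ) (ψ : Eis → ℂ) (q a c : Eis),
        FS bU → (∀ a b, IsPrim a → IsPrim b → ψ (a * b) = ψ a * ψ b) → IsPrim a →
        IsCoprime (D * F) q →
        ∑' x : Eis, (if x = 0 then 0 else WB M K NN 1 B D E x *
            EQ A (rs (ua (Us s om r bU) q a) ψ D F) (Hf M E x F * (q / a * c))) ≤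
          UE A B M ψ K NN s om r bU q a c D E F := by
      intro s om r bU ψ q a c hb' hψ' ha' hcq
      have e1 : ∑' x : Eis, (if x = 0 then 0 else WB M K NN 1 B D E x *
            EQ A (rs (ua (Us s om r bU) q a) ψ D F) (Hf M E x F * (q / a * c))) =
          ‖cU s r q a D F‖ ^ 2 * ∑' x : Eis, (if x = 0 then 0 else
            WB M K NN 1 B D E x * EQ A (pS ψ (fun y => om ((nm (a * D * F) : ℝ) * y))
              (r * q * (a * D * F)) (bF (a * D) F bU))
              (x * ((E * (M * sq3) * s) ^ 2 * (q / a * c)))) := by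
        rw [← tsum_mul_left]
        refine tsum_congr fun x => ?_
        split_ifs
        · rw [mul_zero]
        · rw [EQ_rs_ua A hψ' hb' ha' hD hFp]; ring
      rw [e1]
      have hn := norm_cU_le s r (q := q) ha' hD hFp
      have h0 : 0 ≤ ∑' x : Eis, (if x = 0 then 0 else
            WB M K NN 1 B D E x * EQ A (pS ψ (fun y => om ((nm (a * D * F) : ℝ) * y))
              (r * q * (a * D * F)) (bF (a * D) F bU))
              (x * ((E * (M * sq3) * s) ^ 2 * (q / a * c)))) := by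
        refine tsum_nonneg fun x => ?_
        split_ifs
        · exact le_rfl
        · exact mul_nonneg (hW0 x) (EQ_nonneg _ _ _)
      unfold UE
      split_ifs at hn ⊢ with h1
      · exact mul_le_mul_of_nonneg_right hn h0
      · have : ‖cU s r q a D F‖ ^ 2 = 0 := le_antisymm hn (by positivity)
        rw [this, zero_mul]
    have k1 := key s om r bU ψ q a b hbU hψ.mul hap hc.of_mul_right_right
    have k2 := key s' om' r' bV (fun m => conj (ψ m)) p b a hbV
      (fun x y hx hy => by rw [hψ.mul x y hx hy, map_mul]) hbp hc.of_mul_right_left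
    exact add_le_add (mul_le_mul_of_nonneg_left k1 (hρ F).le)
      (mul_le_mul_of_nonneg_left k2 (inv_nonneg.mpr (hρ F).le))
  · rw [if_neg hc, if_neg hc]

/-- **(S-lin)**: the total of the modes of the pair, `ρ` depending on all variables -/
theorem MP_le_UE {s s' r r' : Eis} {om om' : ℝ → ℂ} {bU bV : Eis → ℂ} (hbU : FS bU)
    (hbV : FS bV) (h : PD Y₀ Y g p q (Us s om r bU) (Us s' om' r' bV))
    {A B : ℕ} (hA : 1 < A) (hB : 1 < B) {M : Eis} {ψ : Eis → ℂ} (hψ : LC M ψ) {K NN : ℝ}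
    (hK : 0 < K) (hN : 0 < NN) {ρ : Eis → Eis → Eis → Eis → Eis → ℝ}
    (hρ : ∀ a b D E F, 0 < ρ a b D E F) :
    MP A B M ψ K NN Y p q (Us s om r bU) (Us s' om' r' bV) ≤
      ∑ a ∈ dvs q, ∑ b ∈ dvs p, ∑ D ∈ S Y, ∑ E ∈ pdiv D, ∑ F ∈ S Y,
        (K / Real.sqrt (NN * nm p * nm q / (nm a * nm b))) * (nm D / nm E : ℝ) *
        (if IsCoprime (D * F) (p * q) then
          (ρ a b D E F * UE A B M ψ K (NN * nm p * nm q / (nm a * nm b)) s om r bU q a b D E F +
          (ρ a b D E F)⁻¹ * UE A B M (fun m => conj (ψ m)) K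
            (NN * nm p * nm q / (nm a * nm b)) s' om' r' bV p b a D E F) else 0) := by
  unfold MP
  refine Finset.sum_le_sum fun a ha => Finset.sum_le_sum fun b hb => ?_
  have hap := isPrim_of_mem_dvs ha
  have hbp := isPrim_of_mem_dvs hb
  have na := nmpos hap.ne_zero
  have nb := nmpos hbp.ne_zero
  have np := nmpos h.hp.ne_zero
  have nq := nmpos h.hq.ne_zero
  have hN' : 0 < NN * nm p * nm q / (nm a * nm b) := by positivity
  rw [Finset.mul_sum]
  refine Finset.sum_le_sum fun D hD => ?_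
  have hDp : IsPrim D := ((mem_S h.hY).1 hD).2.1
  rw [Finset.mul_sum]
  refine Finset.sum_le_sum fun E hE => ?_
  have hEp := ((mem_pdiv hDp.ne_zero).mp hE).1
  have ne := nmpos hEp.ne_zero
  have nd := nmpos hDp.ne_zero
  have c1 : 0 ≤ K / Real.sqrt (NN * nm p * nm q / (nm a * nm b)) := by positivity
  have c2 : 0 ≤ (nm D / nm E : ℝ) := by positivity
  have k1 := mul_le_mul_of_nonneg_left (ModeP_le_UE hbU hbV h ha hb hA hB hψ hK hN' hDp
    hEp.ne_zero (fun F => hρ a b D E F)) (mul_nonneg c1 c2)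
  calc K / Real.sqrt (NN * nm p * nm q / (nm a * nm b)) * ((nm D / nm E : ℝ) * _) =
      K / Real.sqrt (NN * nm p * nm q / (nm a * nm b)) * (nm D / nm E : ℝ) * _ :=
        (mul_assoc _ _ _).symm
    _ ≤ _ := k1
    _ = _ := Finset.mul_sum _ _ _

end Crest.Agent.R017.E3Sp579
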