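import Crest.Agent.R017.E3Se_579
import Crest.Agent.R017.E3Sp_579

/-!
# Row 17, block C70, leaf E3 (T2): a piece of the smooth partition against one fixed weight
(helper579)
-/

set_option autoImplicit false
set_option linter.unusedVariables false

noncomputable section

open Complex MeasureTheory
open scoped ComplexConjugate Classical ContDiff

namespace Crest.Agent.R017.E3Sq579

open Crest.Agent.R012 Crest.Agent.R012.Eis Crest.Agent.R012.MC
open Crest.Agent.R012.LS2 (S mem_S bl mem_bl)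
open Crest.Agent.R012.Weight600 (pw osc norm_osc norm_pw pw_mul)
open Crest.Agent.R017.CM106 (CS TG FS)
open Crest.Agent.R017.BD829
open Crest.Agent.R017.E3D579
open Crest.Agent.R017.E3Sd579
open Crest.Agent.R017.E3Se579
open Crest.Agent.R017.E3Sp579
open Crest.Agent.R017.E1551 (jb jb_pos nmpos)

/-- **(T2)** for `UE` -/
theorem UE_part {A : ℕ} (hA : 1 < A) {R : ℝ} (hR : 0 ≤ R) {h : ℝ → ℝ} (hh : ContDiff ℝ ∞ h)
    (hhc : HasCompactSupport h) {w1 : ℝ → ℝ}
    (hw : ∀ x, w1 x ≠ 0 → 0 < x ∧ |Real.log x| ≤ R)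
    (hw1 : ∀ x, 0 < x → h (Real.log x) ≠ 0 → w1 x = 1) : ∃ C : ℝ, 0 ≤ C ∧
    ∀ (Om : ℝ → ℂ) (Mb : ℝ), 0 ≤ Mb → ContDiff ℝ ∞ Om →
      (∀ n ≤ A + 2, ∀ x, ‖iteratedDeriv n Om x‖ ≤ Mb) →
    ∀ (Y₀ τ : ℝ) (κ : ℂ), 0 < Y₀ → ‖κ‖ ≤ 1 →
    ∀ om : ℝ → ℂ, (∀ x, 0 < x → om x = κ * (((h (Real.log x - Real.log Y₀) : ℝ) : ℂ) *
      Om (Real.log x) * pw τ x)) →
    ∀ (B : ℕ) (M : Eis) (ψ : Eis → ℂ) (K NN : ℝ) (s r : Eis) (b : Eis → ℂ) (q a c D E F : Eis),
      1 < B → M ≠ 0 → 0 < K → 0 < NN → IsPrim a → IsPrim D → IsPrim F → E ≠ 0 →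
      UE A B M ψ K NN s om r b q a c D E F ≤ C * Mb ^ 2 * (1 + |τ|) ^ A *
        UE A B M ψ K NN s (fun x => ((w1 (x / Y₀) : ℝ) : ℂ)) r b q a c D E F := by
  obtain ⟨C, hC0, hC⟩ := EQ_pS_part hA hR hh hhc hw hw1
  have hA' : (1 : ℝ) < (A : ℝ) := by exact_mod_cast hA
  refine ⟨C, hC0, fun Om Mb hMb hOm hOb Y₀ τ κ hY hκ om hom B M ψ K NN s r b q a c D E F hB hM
    hK hN ha hD hF hE => ?_⟩
  have hP : IsPrim (a * D * F) := (ha.mul hD).mul hF
  have hn : (0 : ℝ) < nm (a * D * F) := nmpos hP.ne_zero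
  set P : ℝ := ((nm (a * D * F) : ℕ) : ℝ) with hPd
  -- the dilated factor
  have hd : ∀ x, 0 < x → (fun y => om (P * y)) x = (κ * pw τ P) *
      (((h (Real.log x - Real.log (Y₀ / P)) : ℝ) : ℂ) *
      (fun z => Om (z + Real.log P)) (Real.log x) * pw τ x) := by
    intro x hx
    beta_reduce
    rw [hom _ (by positivity), Real.log_mul hn.ne' hx.ne', Real.log_div hY.ne' hn.ne',
      pw_mul hn.ne' hx.ne']
    have e1 : Real.log P + Real.log x - Real.log Y₀ = Real.log x - (Real.log Y₀ - Real.log P) := by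
      ring
    have e2 : Real.log P + Real.log x = Real.log x + Real.log P := add_comm _ _
    rw [e1, e2]; ring
  have hE1 : ∀ H : Eis, EQ A (pS ψ (fun y => om (P * y)) (r * q * (a * D * F)) (bF (a * D) F b)) H ≤
      C * Mb ^ 2 * (1 + |τ|) ^ A * EQ A (pS ψ (fun y => ((w1 (P * y / Y₀) : ℝ) : ℂ))
        (r * q * (a * D * F)) (bF (a * D) F b)) H := by
    intro H
    have h1 := hC (fun z => Om (z + Real.log P)) Mb hMb
      (hOm.comp (contDiff_id.add contDiff_const))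
      (fun n hn' x => by rw [iteratedDeriv_comp_add_const]; exact hOb n hn' _)
      ψ (bF (a * D) F b) (r * q * (a * D * F)) (Y₀ / P) τ (κ * pw τ P) (div_pos hY hn)
      (by rw [norm_mul, norm_pw, mul_one]; exact hκ) (fun y => om (P * y)) hd H
    have e : (fun x => ((w1 (x / (Y₀ / P)) : ℝ) : ℂ)) = fun y => ((w1 (P * y / Y₀) : ℝ) : ℂ) := by
      funext x
      congr 2
      field_simp
    rw [e] at h1
    exact h1
  have hc0 : 0 ≤ C * Mb ^ 2 * (1 + |τ|) ^ A := by positivity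
  unfold UE
  simp only [← hPd]
  split_ifs with hc
  · have hn3 : 0 ≤ P ^ (-(1 / 3) : ℝ) := Real.rpow_nonneg hn.le _
    have hT : ∀ T1 T2 : ℝ, T1 ≤ C * Mb ^ 2 * (1 + |τ|) ^ A * T2 →
        P ^ (-(1 / 3) : ℝ) * T1 ≤ C * Mb ^ 2 * (1 + |τ|) ^ A * (P ^ (-(1 / 3) : ℝ) * T2) := by
      intro T1 T2 h1
      calc P ^ (-(1 / 3) : ℝ) * T1 ≤ P ^ (-(1 / 3) : ℝ) * (C * Mb ^ 2 * (1 + |τ|) ^ A * T2) :=
            mul_le_mul_of_nonneg_left h1 hn3
        _ = _ := by ring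
    refine hT _ _ ?_
    rw [← tsum_mul_left]
    -- summability
    have hWs := summable_WB hM hK hN one_pos hB hD.ne_zero hE
    have hW0 : ∀ x, 0 ≤ WB M K NN 1 B D E x := fun x => WB_nonneg hK.le hN.le zero_le_one B D E x
    have hYe : 0 ≤ Real.exp R * (Y₀ / P) := by positivity
    have hsup : ∀ n, pS ψ (fun y => ((w1 (P * y / Y₀) : ℝ) : ℂ)) (r * q * (a * D * F))
        (bF (a * D) F b) n ≠ 0 → n ∈ S (Real.exp R * (Y₀ / P)) := by
      intro n hn'
      have e : (fun x => ((w1 (x / (Y₀ / P)) : ℝ) : ℂ)) = fun y => ((w1 (P * y / Y₀) : ℝ) : ℂ) := by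
        funext x
        congr 2
        field_simp
      rw [← e] at hn'
      exact (pS_w_supp hw (by positivity) hn').1
    have hsR : Summable fun x : Eis => C * Mb ^ 2 * (1 + |τ|) ^ A * (if x = 0 then 0 else
        WB M K NN 1 B D E x * EQ A (pS ψ (fun y => ((w1 (P * y / Y₀) : ℝ) : ℂ))
          (r * q * (a * D * F)) (bF (a * D) F b)) (x * ((E * (M * sq3) * s) ^ 2 * (q / a * c)))) := by
      refine Summable.mul_left _ ?_
      refine Summable.of_nonneg_of_le (fun x => ?_) (fun x => ?_)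
        (hWs.mul_right ((∫ t, jb (A : ℝ) t) * (∑ k ∈ S (Real.exp R * (Y₀ / P)),
          ‖pS ψ (fun y => ((w1 (P * y / Y₀) : ℝ) : ℂ)) (r * q * (a * D * F))
            (bF (a * D) F b) k‖) ^ 2))
      · split_ifs
        · exact le_rfl
        · exact mul_nonneg (hW0 x) (EQ_nonneg _ _ _)
      · split_ifs
        · rw [zero_mul]
        · exact mul_le_mul_of_nonneg_left (EQ_le hA' hYe hsup _) (hW0 x)
    have hle : ∀ x : Eis, (if x = 0 then 0 else WB M K NN 1 B D E x *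
        EQ A (pS ψ (fun y => om (P * y)) (r * q * (a * D * F)) (bF (a * D) F b))
          (x * ((E * (M * sq3) * s) ^ 2 * (q / a * c)))) ≤
        C * Mb ^ 2 * (1 + |τ|) ^ A * (if x = 0 then 0 else WB M K NN 1 B D E x *
        EQ A (pS ψ (fun y => ((w1 (P * y / Y₀) : ℝ) : ℂ)) (r * q * (a * D * F)) (bF (a * D) F b))
          (x * ((E * (M * sq3) * s) ^ 2 * (q / a * c)))) := by
      intro x
      split_ifs
      · rw [mul_zero]
      · calc _ ≤ WB M K NN 1 B D E x * (C * Mb ^ 2 * (1 + |τ|) ^ A * EQ A (pS ψ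
              (fun y => ((w1 (P * y / Y₀) : ℝ) : ℂ)) (r * q * (a * D * F)) (bF (a * D) F b))
                (x * ((E * (M * sq3) * s) ^ 2 * (q / a * c)))) :=
              mul_le_mul_of_nonneg_left (hE1 _) (hW0 x)
          _ = _ := by ring
    refine Summable.tsum_le_tsum hle (Summable.of_nonneg_of_le (fun x => ?_) hle hsR) hsR
    split_ifs
    · exact le_rfl
    · exact mul_nonneg (hW0 x) (EQ_nonneg _ _ _)
  · simp

end Crest.Agent.R017.E3Sq579
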