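import Crest.Agent.R017.DgA_829
import Crest.Agent.R017.StA_828

/-!
# Row 17, block C70, leaf E3 (S-real) (helper290)

`CellD` : the norms attached to one pair of cells; `CellD.ratio`, `CellD.mono` : the two monomial
identities; `kernel` : the explicit factorization `A (M/g)^2 = X C^3`; `cell` : the bound of one cell.
-/

set_option autoImplicit false

noncomputable section

open scoped Classical

namespace Crest.Agent.R017.E3Sr290

/-! ### the real identities -/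

/-- the norms attached to one pair of cells -/
structure CellD where
  (K V V' H q t M g g' d d' a a' r D E F X xk : ℝ)

namespace CellD

variable (c : CellD)

/-- all the norms are positive -/
structure Pos : Prop where
  K : 0 < c.K
  V : 0 < c.V
  V' : 0 < c.V'
  H : 0 < c.H
  q : 0 < c.q
  t : 0 < c.t
  M : 0 < c.M
  g : 0 < c.g
  g' : 0 < c.g'
  d : 0 < c.d
  d' : 0 < c.d'
  a : 0 < c.a
  a' : 0 < c.a'
  r : 0 < c.r
  D : 0 < c.D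
  E : 0 < c.E
  F : 0 < c.F
  X : 0 < c.X
  xk : 0 < c.xk

/-- length of `n` -/
def Z : ℝ := c.V / (c.q * c.d ^ 2 * c.g ^ 2)
/-- length of `n'` -/
def Z' : ℝ := c.V' / (c.q * c.d' ^ 2 * c.g' ^ 2)
/-- `m₁` -/
def m : ℝ := c.d * c.g / c.r
/-- `m₁'` -/
def m' : ℝ := c.d' * c.g' / c.r
/-- `A = (m₁'/a₀) a₀'` -/
def A : ℝ := c.m' / c.a * c.a'
/-- `A' = (m₁/a₀') a₀` -/
def A' : ℝ := c.m / c.a' * c.a
/-- window of `u` -/
def N1 : ℝ := c.A * c.Z / c.a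
/-- window of `v` -/
def N2 : ℝ := c.A' * c.Z' / c.a'
/-- length of `r = k₁ / M` -/
def KM : ℝ := c.K / (c.q ^ 2 * c.t ^ 3 * c.M)
/-- number of modes times the norm of the kernel of the fixed frequency -/
def L0 : ℝ := c.N1 * c.N2 * c.E / (c.KM * c.D ^ 2) * (c.E ^ 2 * c.xk)
/-- length of `μ` -/
def Y : ℝ := c.Z / (c.a * c.D * c.F)
/-- length of the dilated coefficient -/
def Nb : ℝ := c.a * c.D * c.X / c.d
/-- the merged part of the frequency -/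
def zeta : ℝ := c.q ^ 2 * c.g * c.F ^ 2
/-- length of the merged frequency -/
def Is : ℝ := c.X * c.V / c.K * c.H
/-- the threshold -/
def Lt : ℝ := c.Is * c.Y / (c.Nb * c.zeta)
/-- the weight in front of one mode sum -/
def pref : ℝ := c.KM * (c.K / (c.q ^ 2 * c.t ^ 3)) ^ (-(1 / 3) : ℝ) * (c.g * c.g') ^ (1 / 6 : ℝ) *
  (c.N1 * c.N2) ^ (-(1 / 2) : ℝ) * (c.D / c.E)
/-- the ratio of weights -/
def rho : ℝ := (c.d / c.d') ^ (3 / 2 : ℝ) * (c.g / c.g') ^ (2 / 3 : ℝ) * (c.a / c.a') ^ (1 / 2 : ℝ)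

/-- the other side -/
def swap (xk' : ℝ) : CellD :=
  ⟨c.K, c.V', c.V, c.H, c.q, c.t, c.M, c.g', c.g, c.d', c.d, c.a', c.a, c.r, c.D, c.E, c.F, c.X, xk'⟩

lemma ex {x : ℝ} (h : 0 < x) : ∃ y, x = Real.exp y := ⟨Real.log x, (Real.exp_log h).symm⟩

theorem ratio {c : CellD} (h : c.Pos) : (c.L0 / c.Lt) ^ (1 / 3 : ℝ) =
    (c.V' / c.V) ^ (1 / 3 : ℝ) * c.H ^ (-(1 / 3) : ℝ) * (c.E * c.F * c.q * c.t) *
      (c.xk * c.M * c.a * c.g ^ 2 / (c.a' * c.d' * c.g' * c.r ^ 2)) ^ (1 / 3 : ℝ) := by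
  obtain ⟨K, V, V', H, q, t, M, g, g', d, d', a, a', r, D, E, F, X, xk⟩ := c
  obtain ⟨h1, h2, h3, h4, h5, h6, h7, h8, h9, h10, h11, h12, h13, h14, h15, h16, h17, h18, h19⟩ := h
  dsimp only at *
  obtain ⟨K, rfl⟩ := ex h1
  obtain ⟨V, rfl⟩ := ex h2
  obtain ⟨V', rfl⟩ := ex h3
  obtain ⟨H, rfl⟩ := ex h4
  obtain ⟨q, rfl⟩ := ex h5
  obtain ⟨t, rfl⟩ := ex h6
  obtain ⟨M, rfl⟩ := ex h7
  obtain ⟨g, rfl⟩ := ex h8
  obtain ⟨g', rfl⟩ := ex h9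
  obtain ⟨d, rfl⟩ := ex h10
  obtain ⟨d', rfl⟩ := ex h11
  obtain ⟨a, rfl⟩ := ex h12
  obtain ⟨a', rfl⟩ := ex h13
  obtain ⟨r, rfl⟩ := ex h14
  obtain ⟨D, rfl⟩ := ex h15
  obtain ⟨E, rfl⟩ := ex h16
  obtain ⟨F, rfl⟩ := ex h17
  obtain ⟨X, rfl⟩ := ex h18
  obtain ⟨xk, rfl⟩ := ex h19
  simp only [L0, Lt, N1, N2, KM, A, A', m, m', Z, Z', Y, Nb, zeta, Is, ← Real.exp_nat_mul,
    ← Real.exp_add, ← Real.exp_sub, ← Real.exp_mul]
  congr 1
  push_cast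
  ring

theorem mono {c : CellD} (h : c.Pos) :
    c.pref * (c.L0 / c.Lt) ^ (1 / 3 : ℝ) * c.Y * c.Z ^ (-(1 / 3) : ℝ) =
    c.K ^ (2 / 3 : ℝ) * c.H ^ (-(1 / 3) : ℝ) * (c.V * c.V') ^ (-(1 / 6) : ℝ) * c.t⁻¹ *
      (c.M ^ (-(2 / 3) : ℝ) * c.xk ^ (1 / 3 : ℝ) * (c.a' / c.a) ^ (1 / 6 : ℝ) * c.r ^ (1 / 3 : ℝ) *
        c.g' ^ (1 / 3 : ℝ) * c.d ^ (-(5 / 6) : ℝ) * c.d' ^ (1 / 6 : ℝ)) := by
  obtain ⟨K, V, V', H, q, t, M, g, g', d, d', a, a', r, D, E, F, X, xk⟩ := c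
  obtain ⟨h1, h2, h3, h4, h5, h6, h7, h8, h9, h10, h11, h12, h13, h14, h15, h16, h17, h18, h19⟩ := h
  dsimp only at *
  obtain ⟨K, rfl⟩ := ex h1
  obtain ⟨V, rfl⟩ := ex h2
  obtain ⟨V', rfl⟩ := ex h3
  obtain ⟨H, rfl⟩ := ex h4
  obtain ⟨q, rfl⟩ := ex h5
  obtain ⟨t, rfl⟩ := ex h6
  obtain ⟨M, rfl⟩ := ex h7
  obtain ⟨g, rfl⟩ := ex h8
  obtain ⟨g', rfl⟩ := ex h9
  obtain ⟨d, rfl⟩ := ex h10
  obtain ⟨d', rfl⟩ := ex h11
  obtain ⟨a, rfl⟩ := ex h12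
  obtain ⟨a', rfl⟩ := ex h13
  obtain ⟨r, rfl⟩ := ex h14
  obtain ⟨D, rfl⟩ := ex h15
  obtain ⟨E, rfl⟩ := ex h16
  obtain ⟨F, rfl⟩ := ex h17
  obtain ⟨X, rfl⟩ := ex h18
  obtain ⟨xk, rfl⟩ := ex h19
  simp only [pref, L0, Lt, N1, N2, KM, A, A', m, m', Z, Z', Y, Nb, zeta, Is, ← Real.exp_nat_mul,
    ← Real.exp_add, ← Real.exp_sub, ← Real.exp_mul, ← Real.exp_neg]
  congr 1
  push_cast
  ring

end CellD

/-! ### the factorization -/

open Crest.Agent.R012 Crest.Agent.R012.Eis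
open Crest.Agent.R017.E1551 (nmpos)
open Crest.Agent.R017.StA828 (gp exists_gcd gcd_unique gp_spec)

lemma cop_sqf {a b : Eis} (h : Squarefree (a * b)) : IsCoprime a b :=
  ((squarefree_mul_iff.mp h).1).isCoprime

lemma sqf_left {a b : Eis} (h : Squarefree (a * b)) : Squarefree a := (squarefree_mul_iff.mp h).2.1

lemma sqf_right {a b : Eis} (h : Squarefree (a * b)) : Squarefree b := (squarefree_mul_iff.mp h).2.2

/-- the part of `n` dividing `m` and the part prime to `m` -/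
lemma split {n : Eis} (hn : IsPrim n) (hs : Squarefree n) (m : Eis) :
    ∃ u v, IsPrim u ∧ IsPrim v ∧ n = u * v ∧ u ∣ m ∧ IsCoprime v m := by
  obtain ⟨u, l, v, hu, hv, hm, hnn, hc, -⟩ := exists_gcd m hn
  refine ⟨u, v, hu, hv, hnn, ⟨l, hm⟩, ?_⟩
  rw [hm]
  rw [hnn] at hs
  exact (cop_sqf hs).symm.mul_right hc.symm

lemma quo_prim {a b : Eis} (ha : IsPrim a) (hb : IsPrim b) (h : a ∣ b) : ∃ c, IsPrim c ∧ b = a * c := by
  obtain ⟨c, rfl⟩ := h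
  exact ⟨c, hb.of_mul_left ha, rfl⟩

/-- `N(gcd)` bounds the norm of every common divisor -/
lemma nm_le_gp {u l n : Eis} (hn : IsPrim n) (h1 : u ∣ n) (h2 : u ∣ l) :
    (nm u : ℝ) ≤ nm (gp l n) := by
  obtain ⟨hg, -, e1, e2, hc⟩ := gp_spec l hn
  have hd : u ∣ gp l n := by
    obtain ⟨x, y, hxy⟩ := hc
    have h3 : gp l n = x * l + y * n := by
      calc gp l n = gp l n * (x * (l / gp l n) + y * (n / gp l n)) := by rw [hxy, mul_one]
        _ = x * (gp l n * (l / gp l n)) + y * (gp l n * (n / gp l n)) := by ring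
        _ = _ := by rw [← e1, ← e2]
    rw [h3]
    exact dvd_add (h2.mul_left _) (h1.mul_left _)
  obtain ⟨v, hv⟩ := hd
  have hv0 : v ≠ 0 := by
    rintro rfl
    rw [mul_zero] at hv
    exact hg.ne_zero hv
  rw [hv, nm_mul]
  have h4 : 1 ≤ nm v := nm_pos.mpr hv0
  have h5 : nm u * 1 ≤ nm u * nm v := Nat.mul_le_mul_left _ h4
  rw [mul_one] at h5
  exact_mod_cast h5

/-- the data of the factorization of one pair of cells -/
structure Fac (g g' d d' r m m' a x a' M N b : Eis) where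
  (gam kap ag g3 e1 ad d3 b1 b2 c3 : Eis)
  pgam : IsPrim gam
  pkap : IsPrim kap
  pag : IsPrim ag
  pg3 : IsPrim g3
  pe1 : IsPrim e1
  pad : IsPrim ad
  pd3 : IsPrim d3
  pb1 : IsPrim b1
  pb2 : IsPrim b2
  pc3 : IsPrim c3
  hg' : g' = gam * kap * (ag * g3)
  hd' : d' = e1 * (ad * d3)
  hr : r = e1 * (gam * kap)
  ha : a = ad * ag
  hx : x = g3 * d3
  hN : N = kap * (ag * g3) * (b2 ^ 2 * c3)
  hb : b = b1 * b2
  dg : gam * kap * ag ∣ g * d * a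
  db : b1 ∣ g * g'

theorem exists_fac {g g' d d' r m m' a x a' M N b : Eis} (pg : IsPrim g) (pg' : IsPrim g')
    (pd : IsPrim d) (pd' : IsPrim d') (pr : IsPrim r) (pm : IsPrim m) (pm' : IsPrim m')
    (pa : IsPrim a) (px : IsPrim x) (pM : IsPrim M) (pb : IsPrim b)
    (hdg : Squarefree (d * g)) (hdg' : Squarefree (d' * g')) (hb : Squarefree b)
    (h1 : d * g = r * m) (h2 : d' * g' = r * m') (hc : IsCoprime m m') (hx : m' = a * x)
    (hM : M = g * N) (hg' : g' ∣ M) (hbM : b ^ 2 ∣ M) :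
    Nonempty (Fac g g' d d' r m m' a x a' M N b) := by
  have sg := sqf_right hdg
  have sd := sqf_left hdg
  have sg' := sqf_right hdg'
  have sd' := sqf_left hdg'
  have pN : IsPrim N := (hM ▸ pM).of_mul_left pg
  -- splitting of `g'`
  obtain ⟨gam, g1, pgam, pg1, e1, dgam, cg1⟩ := split pg' sg' g
  obtain ⟨kap, g2, pkap, pg2, e2, dkap, cg2⟩ := split pg1 (sqf_right (e1 ▸ sg')) d
  -- splitting of `d'`
  obtain ⟨f1, d2, pf1, pd2, e3, df1, cd2⟩ := split pd' sd' (d * g)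
  subst e1 e2 e3
  have cg2g : IsCoprime g2 g := cg1.of_mul_left_right
  have ckg : IsCoprime kap g := cg1.of_mul_left_left
  have cg2dg : IsCoprime g2 (d * g) := cg2.mul_right cg2g
  -- `r`
  have cfg : IsCoprime f1 (gam * kap) := by
    have h := cop_sqf hdg'
    have h3 := h.of_mul_left_left
    exact (h3.of_mul_right_left).mul_right h3.of_mul_right_right.of_mul_right_left
  have cgk : IsCoprime gam kap := (ckg.of_isCoprime_of_dvd_right dgam).symm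
  have dgk : gam * kap ∣ d * g := cgk.mul_dvd (dgam.mul_left _) (dkap.mul_right _)
  have dfk : f1 * (gam * kap) ∣ d * g := cfg.mul_dvd df1 dgk
  obtain ⟨m0, hm0⟩ := dfk
  have hr : r = f1 * (gam * kap) := by
    refine gcd_unique pr (pf1.mul (pgam.mul pkap)) (h1.symm.trans hm0)
      (l₁ := m) (u₁ := m') (u₁' := d2 * g2) ?_ hc ?_
    · rw [← h2]; ring
    · have hcc : IsCoprime (d * g) (d2 * g2) := (cd2.symm).mul_right cg2dg.symm
      rw [hm0] at hcc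
      exact hcc.of_mul_left_right
  subst hr
  have hm' : m' = d2 * g2 := by
    have h3 : f1 * (gam * kap) * m' = f1 * (gam * kap) * (d2 * g2) := by rw [← h2]; ring
    exact mul_left_cancel₀ (pf1.mul (pgam.mul pkap)).ne_zero h3
  -- splitting of `a`
  have sm' : Squarefree m' := by
    rw [h2] at hdg'; exact sqf_right hdg'
  have sa : Squarefree a := by rw [hx] at sm'; exact sqf_left sm'
  obtain ⟨ag, ad, pag, pad, e4, dag, cad⟩ := split pa sa g2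
  have dad : ad ∣ d2 := by
    have h3 : ad ∣ d2 * g2 := by
      rw [← hm', hx, e4]; exact (dvd_mul_left _ _).mul_right _
    exact cad.dvd_of_dvd_mul_right h3
  obtain ⟨g3, pg3, hg3⟩ := quo_prim pag pg2 dag
  obtain ⟨d3, pd3, hd3⟩ := quo_prim pad pd2 dad
  subst hg3 hd3 e4
  have hxx : x = g3 * d3 := by
    have h3 : (ag * ad) * x = (ag * ad) * (g3 * d3) := by rw [← hx, hm']; ring
    exact mul_left_cancel₀ (pag.mul pad).ne_zero h3
  -- splitting of `b`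
  obtain ⟨b1, b2, pb1, pb2, e5, db1, cb2⟩ := split pb hb (g * (gam * (kap * (ag * g3))))
  -- `N`
  have d5 : kap * (ag * g3) ∣ N := by
    have h3 : kap * (ag * g3) ∣ g * N := by
      rw [← hM]; exact (dvd_mul_left _ _).trans hg'
    exact cg1.dvd_of_dvd_mul_left h3
  obtain ⟨N1, pN1, hN1⟩ := quo_prim (pkap.mul (pag.mul pg3)) pN d5
  have d6 : b2 ^ 2 ∣ N1 := by
    have h3 : b2 ^ 2 ∣ g * (kap * (ag * g3)) * N1 := by
      have h4 : b2 ^ 2 ∣ M := (pow_dvd_pow_of_dvd (e5 ▸ dvd_mul_left b2 b1) 2).trans hbM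
      rw [hM, hN1] at h4
      rwa [mul_assoc]
    have h5 : IsCoprime (b2 ^ 2) (g * (kap * (ag * g3))) := by
      refine IsCoprime.pow_left ?_
      refine (cb2.of_mul_right_left).mul_right ?_
      exact (cb2.of_mul_right_right).of_mul_right_right
    exact h5.dvd_of_dvd_mul_left h3
  obtain ⟨c3, pc3, hc3⟩ := quo_prim (pb2.pow 2) pN1 d6
  refine ⟨⟨gam, kap, ag, g3, f1, ad, d3, b1, b2, c3, pgam, pkap, pag, pg3, pf1, pad, pd3, pb1, pb2,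
    pc3, by ring, by ring, rfl, by ring, hxx, by rw [hN1, hc3], e5, ?_, ?_⟩⟩
  · have h3 : gam * kap ∣ g * d := by rw [mul_comm g d]; exact dgk
    exact mul_dvd_mul h3 (dvd_mul_right _ _)
  · exact db1

/-- the kernel of the fixed frequency -/
def Fac.xk {g g' d d' r m m' a x a' M N b : Eis} (f : Fac g g' d d' r m m' a x a' M N b) : Eis :=
  f.d3 * a' * f.kap ^ 2 * f.ag ^ 2 * f.b2 * f.c3 ^ 2

/-- **the factorization** `A (M/g)^2 = X C^3` -/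
theorem Fac.fac {g g' d d' r m m' a x a' M N b : Eis} (f : Fac g g' d d' r m m' a x a' M N b) :
    x * a' * N ^ 2 = f.xk * (f.g3 * f.b2) ^ 3 := by
  have h1 := f.hx
  have h2 := f.hN
  have h3 : x * a' * N ^ 2 = (f.g3 * f.d3) * a' * (f.kap * (f.ag * f.g3) * (f.b2 ^ 2 * f.c3)) ^ 2 := by
    rw [← h1, ← h2]
  rw [h3, Fac.xk]
  ring

lemma Fac.xk_prim {g g' d d' r m m' a x a' M N b : Eis} (f : Fac g g' d d' r m m' a x a' M N b)
    (pa' : IsPrim a') : IsPrim f.xk :=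
  ((((f.pd3.mul pa').mul (f.pkap.pow 2)).mul (f.pag.pow 2)).mul f.pb2).mul (f.pc3.pow 2)

/-- the norms of a pair of cells -/
def cellOf (K V V' H q t D E F X : ℝ) (M g g' d d' a a' r xk : Eis) : CellD :=
  ⟨K, V, V', H, q, t, nm M, nm g, nm g', nm d, nm d', nm a, nm a', nm r, D, E, F, X, nm xk⟩

lemma mono_eq {gam kap ag g3 e1 ad d3 b2 c3 g d a' : ℝ} (h1 : 0 < gam) (h2 : 0 < kap)
    (h3 : 0 < ag) (h4 : 0 < g3) (h5 : 0 < e1) (h6 : 0 < ad) (h7 : 0 < d3) (h8 : 0 < b2)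
    (h9 : 0 < c3) (h10 : 0 < g) (h11 : 0 < d) (h12 : 0 < a') :
    (d / (e1 * (ad * d3))) ^ (3 / 2 : ℝ) * (g / (gam * kap * (ag * g3))) ^ (2 / 3 : ℝ) *
      ((ad * ag) / a') ^ (1 / 2 : ℝ) *
    ((g * (kap * (ag * g3) * (b2 ^ 2 * c3))) ^ (-(2 / 3) : ℝ) *
      (d3 * a' * kap ^ 2 * ag ^ 2 * b2 * c3 ^ 2) ^ (1 / 3 : ℝ) *
      (a' / (ad * ag)) ^ (1 / 6 : ℝ) * (e1 * (gam * kap)) ^ (1 / 3 : ℝ) *
        (gam * kap * (ag * g3)) ^ (1 / 3 : ℝ) * d ^ (-(5 / 6) : ℝ) *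
        (e1 * (ad * d3)) ^ (1 / 6 : ℝ)) =
      d ^ (2 / 3 : ℝ) * (e1 * (ad * d3))⁻¹ * g3⁻¹ * b2⁻¹ := by
  obtain ⟨gam, rfl⟩ := CellD.ex h1
  obtain ⟨kap, rfl⟩ := CellD.ex h2
  obtain ⟨ag, rfl⟩ := CellD.ex h3
  obtain ⟨g3, rfl⟩ := CellD.ex h4
  obtain ⟨e1, rfl⟩ := CellD.ex h5
  obtain ⟨ad, rfl⟩ := CellD.ex h6
  obtain ⟨d3, rfl⟩ := CellD.ex h7
  obtain ⟨b2, rfl⟩ := CellD.ex h8
  obtain ⟨c3, rfl⟩ := CellD.ex h9
  obtain ⟨g, rfl⟩ := CellD.ex h10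
  obtain ⟨d, rfl⟩ := CellD.ex h11
  obtain ⟨a', rfl⟩ := CellD.ex h12
  simp only [← Real.exp_nat_mul, ← Real.exp_add, ← Real.exp_sub, ← Real.exp_mul, ← Real.exp_neg]
  congr 1
  push_cast
  ring

/-- **the exact value of one cell** -/
theorem Fac.cell_eq {g g' d d' r m m' a x a' M N b : Eis} (f : Fac g g' d d' r m m' a x a' M N b)
    (pg : IsPrim g) (pd : IsPrim d) (pa' : IsPrim a') (hM : M = g * N)
    {K V V' H q t D E F X : ℝ} (hK : 0 < K) (hV : 0 < V) (hV' : 0 < V') (hH : 0 < H) (hq : 0 < q)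
    (ht : 0 < t) (hD : 0 < D) (hE : 0 < E) (hF : 0 < F) (hX : 0 < X) :
    (cellOf K V V' H q t D E F X M g g' d d' a a' r f.xk).rho *
      ((cellOf K V V' H q t D E F X M g g' d d' a a' r f.xk).pref *
        ((cellOf K V V' H q t D E F X M g g' d d' a a' r f.xk).L0 /
          (cellOf K V V' H q t D E F X M g g' d d' a a' r f.xk).Lt) ^ (1 / 3 : ℝ) *
        (cellOf K V V' H q t D E F X M g g' d d' a a' r f.xk).Y *
        (cellOf K V V' H q t D E F X M g g' d d' a a' r f.xk).Z ^ (-(1 / 3) : ℝ)) =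
    K ^ (2 / 3 : ℝ) * H ^ (-(1 / 3) : ℝ) * (V * V') ^ (-(1 / 6) : ℝ) * t⁻¹ *
      ((nm d : ℝ) ^ (2 / 3 : ℝ) * (nm d' : ℝ)⁻¹ * (nm f.g3 : ℝ)⁻¹ * (nm f.b2 : ℝ)⁻¹) := by
  have n1 := nmpos f.pgam.ne_zero
  have n2 := nmpos f.pkap.ne_zero
  have n3 := nmpos f.pag.ne_zero
  have n4 := nmpos f.pg3.ne_zero
  have n5 := nmpos f.pe1.ne_zero
  have n6 := nmpos f.pad.ne_zero
  have n7 := nmpos f.pd3.ne_zero
  have n8 := nmpos f.pb2.ne_zero
  have n9 := nmpos f.pc3.ne_zero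
  have n10 := nmpos pg.ne_zero
  have n11 := nmpos pd.ne_zero
  have n12 := nmpos pa'.ne_zero
  have eg' : (nm g' : ℝ) = nm f.gam * nm f.kap * (nm f.ag * nm f.g3) := by
    conv_lhs => rw [f.hg', nm_mul, nm_mul, nm_mul]
    push_cast; ring
  have ed' : (nm d' : ℝ) = nm f.e1 * (nm f.ad * nm f.d3) := by
    conv_lhs => rw [f.hd', nm_mul, nm_mul]
    push_cast; ring
  have er : (nm r : ℝ) = nm f.e1 * (nm f.gam * nm f.kap) := by
    conv_lhs => rw [f.hr, nm_mul, nm_mul]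
    push_cast; ring
  have ea : (nm a : ℝ) = nm f.ad * nm f.ag := by
    conv_lhs => rw [f.ha, nm_mul]
    push_cast; ring
  have eM : (nm M : ℝ) = nm g * (nm f.kap * (nm f.ag * nm f.g3) * ((nm f.b2) ^ 2 * nm f.c3)) := by
    conv_lhs => rw [hM, f.hN]
    simp only [nm_mul, pow_two]
    push_cast; ring
  have ex : (nm f.xk : ℝ) = nm f.d3 * nm a' * (nm f.kap) ^ 2 * (nm f.ag) ^ 2 * nm f.b2 *
      (nm f.c3) ^ 2 := by
    rw [Fac.xk]
    simp only [nm_mul, pow_two]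
    push_cast; ring
  have hpos : (cellOf K V V' H q t D E F X M g g' d d' a a' r f.xk).Pos := by
    refine ⟨hK, hV, hV', hH, hq, ht, ?_, n10, ?_, n11, ?_, ?_, n12, ?_, hD, hE, hF, hX, ?_⟩
    · change (0 : ℝ) < nm M
      rw [eM]; positivity
    · change (0 : ℝ) < nm g'
      rw [eg']; positivity
    · change (0 : ℝ) < nm d'
      rw [ed']; positivity
    · change (0 : ℝ) < nm a
      rw [ea]; positivity
    · change (0 : ℝ) < nm r
      rw [er]; positivity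
    · change (0 : ℝ) < nm f.xk
      rw [ex]; positivity
  rw [CellD.mono hpos]
  have key := mono_eq n1 n2 n3 n4 n5 n6 n7 n8 n9 n10 n11 n12
  have e1 : (cellOf K V V' H q t D E F X M g g' d d' a a' r f.xk).rho =
      (nm d / nm d' : ℝ) ^ (3 / 2 : ℝ) * (nm g / nm g' : ℝ) ^ (2 / 3 : ℝ) *
        (nm a / nm a' : ℝ) ^ (1 / 2 : ℝ) := rfl
  rw [e1]
  change _ * (K ^ (2 / 3 : ℝ) * H ^ (-(1 / 3) : ℝ) * (V * V') ^ (-(1 / 6) : ℝ) * t⁻¹ *
      ((nm M : ℝ) ^ (-(2 / 3) : ℝ) * (nm f.xk : ℝ) ^ (1 / 3 : ℝ) * (nm a' / nm a : ℝ) ^ (1 / 6 : ℝ) *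
        (nm r : ℝ) ^ (1 / 3 : ℝ) * (nm g' : ℝ) ^ (1 / 3 : ℝ) * (nm d : ℝ) ^ (-(5 / 6) : ℝ) *
        (nm d' : ℝ) ^ (1 / 6 : ℝ))) = _
  rw [eM, ex, er, ea, eg', ed']
  rw [← key]
  ring

/-- **the bound of one cell**, with greatest common divisors -/
theorem Fac.cell_le {g g' d d' r m m' a x a' M N b : Eis} (f : Fac g g' d d' r m m' a x a' M N b)
    (pg : IsPrim g) (pd : IsPrim d) (pa' : IsPrim a') (pb : IsPrim b) (pg' : IsPrim g')
    (hM : M = g * N)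
    {K V V' H q t D E F X : ℝ} (hK : 0 < K) (hV : 0 < V) (hV' : 0 < V') (hH : 0 < H) (hq : 0 < q)
    (ht : 0 < t) (hD : 0 < D) (hE : 0 < E) (hF : 0 < F) (hX : 0 < X) :
    (cellOf K V V' H q t D E F X M g g' d d' a a' r f.xk).rho *
      ((cellOf K V V' H q t D E F X M g g' d d' a a' r f.xk).pref *
        ((cellOf K V V' H q t D E F X M g g' d d' a a' r f.xk).L0 /
          (cellOf K V V' H q t D E F X M g g' d d' a a' r f.xk).Lt) ^ (1 / 3 : ℝ) *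
        (cellOf K V V' H q t D E F X M g g' d d' a a' r f.xk).Y *
        (cellOf K V V' H q t D E F X M g g' d d' a a' r f.xk).Z ^ (-(1 / 3) : ℝ)) ≤
    K ^ (2 / 3 : ℝ) * H ^ (-(1 / 3) : ℝ) * (V * V') ^ (-(1 / 6) : ℝ) *
      (nm d : ℝ) ^ (2 / 3 : ℝ) *
      (t⁻¹ * (nm d' : ℝ)⁻¹ * (nm (gp (g * d * a) g') / nm g') * (nm (gp (g * g') b) / nm b)) := by
  rw [f.cell_eq pg pd pa' hM hK hV hV' hH hq ht hD hE hF hX]
  have n1 := nmpos f.pgam.ne_zero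
  have n2 := nmpos f.pkap.ne_zero
  have n3 := nmpos f.pag.ne_zero
  have n4 := nmpos f.pg3.ne_zero
  have n8 := nmpos f.pb2.ne_zero
  have n9 := nmpos f.pb1.ne_zero
  have n10 := nmpos pg'.ne_zero
  have n11 := nmpos pb.ne_zero
  have eg' : (nm g' : ℝ) = nm (f.gam * f.kap * f.ag) * nm f.g3 := by
    have : g' = f.gam * f.kap * f.ag * f.g3 := by
      conv_lhs => rw [f.hg']
      ring
    conv_lhs => rw [this, nm_mul]
    push_cast; ring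
  have eb : (nm b : ℝ) = nm f.b1 * nm f.b2 := by
    conv_lhs => rw [f.hb, nm_mul]
    push_cast; ring
  have i1 : (nm f.g3 : ℝ)⁻¹ ≤ nm (gp (g * d * a) g') / nm g' := by
    have h1 : (nm (f.gam * f.kap * f.ag) : ℝ) ≤ nm (gp (g * d * a) g') := by
      refine nm_le_gp pg' ?_ f.dg
      conv_rhs => rw [f.hg']
      exact ⟨f.g3, by ring⟩
    rw [le_div_iff₀ n10, eg']
    have : (nm f.g3 : ℝ)⁻¹ * (nm (f.gam * f.kap * f.ag) * nm f.g3) = nm (f.gam * f.kap * f.ag) := by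
      field_simp
    rw [this]; exact h1
  have i2 : (nm f.b2 : ℝ)⁻¹ ≤ nm (gp (g * g') b) / nm b := by
    have h1 : (nm f.b1 : ℝ) ≤ nm (gp (g * g') b) := by
      refine nm_le_gp pb ?_ f.db
      conv_rhs => rw [f.hb]
      exact dvd_mul_right _ _
    rw [le_div_iff₀ n11, eb]
    have : (nm f.b2 : ℝ)⁻¹ * (nm f.b1 * nm f.b2) = nm f.b1 := by
      field_simp
    rw [this]; exact h1
  have hP : 0 ≤ K ^ (2 / 3 : ℝ) * H ^ (-(1 / 3) : ℝ) * (V * V') ^ (-(1 / 6) : ℝ) *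
      (nm d : ℝ) ^ (2 / 3 : ℝ) := by positivity
  calc K ^ (2 / 3 : ℝ) * H ^ (-(1 / 3) : ℝ) * (V * V') ^ (-(1 / 6) : ℝ) * t⁻¹ *
      ((nm d : ℝ) ^ (2 / 3 : ℝ) * (nm d' : ℝ)⁻¹ * (nm f.g3 : ℝ)⁻¹ * (nm f.b2 : ℝ)⁻¹)
      = K ^ (2 / 3 : ℝ) * H ^ (-(1 / 3) : ℝ) * (V * V') ^ (-(1 / 6) : ℝ) *
      (nm d : ℝ) ^ (2 / 3 : ℝ) *
      (t⁻¹ * (nm d' : ℝ)⁻¹ * (nm f.g3 : ℝ)⁻¹ * (nm f.b2 : ℝ)⁻¹) := by ring
    _ ≤ _ := by
      refine mul_le_mul_of_nonneg_left ?_ hP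
      refine mul_le_mul ?_ i2 (by positivity) (by positivity)
      exact mul_le_mul_of_nonneg_left i1 (by positivity)

/-- **the bound of one cell, thresholds symmetric in the pair** (`H = H₀ V'/V`, weight
`rho (V'/V)^{1/2}`) -/
theorem Fac.cell_sym {g g' d d' r m m' a x a' M N b : Eis}
    (f : Fac g g' d d' r m m' a x a' M N b)
    (pg : IsPrim g) (pd : IsPrim d) (pa' : IsPrim a') (pb : IsPrim b) (pg' : IsPrim g')
    (hM : M = g * N)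
    {K V V' H q t D E F X : ℝ} (hK : 0 < K) (hV : 0 < V) (hV' : 0 < V') (hH : 0 < H) (hq : 0 < q)
    (ht : 0 < t) (hD : 0 < D) (hE : 0 < E) (hF : 0 < F) (hX : 0 < X) :
    (cellOf K V V' (H * (V' / V)) q t D E F X M g g' d d' a a' r f.xk).rho *
      (V' / V) ^ (1 / 2 : ℝ) *
      ((cellOf K V V' (H * (V' / V)) q t D E F X M g g' d d' a a' r f.xk).pref *
        ((cellOf K V V' (H * (V' / V)) q t D E F X M g g' d d' a a' r f.xk).L0 /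
          (cellOf K V V' (H * (V' / V)) q t D E F X M g g' d d' a a' r f.xk).Lt) ^ (1 / 3 : ℝ) *
        (cellOf K V V' (H * (V' / V)) q t D E F X M g g' d d' a a' r f.xk).Y *
        (cellOf K V V' (H * (V' / V)) q t D E F X M g g' d d' a a' r f.xk).Z ^ (-(1 / 3) : ℝ)) ≤
    K ^ (2 / 3 : ℝ) * H ^ (-(1 / 3) : ℝ) * V ^ (-(1 / 3) : ℝ) *
      (nm d : ℝ) ^ (2 / 3 : ℝ) *
      (t⁻¹ * (nm d' : ℝ)⁻¹ * (nm (gp (g * d * a) g') / nm g') * (nm (gp (g * g') b) / nm b)) := by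
  have hH' : 0 < H * (V' / V) := by positivity
  have h1 := f.cell_le pg pd pa' pb pg' hM hK hV hV' hH' hq ht hD hE hF hX
  have h2 : (0 : ℝ) ≤ (V' / V) ^ (1 / 2 : ℝ) := by positivity
  have h3 := mul_le_mul_of_nonneg_left h1 h2
  refine le_trans (le_of_eq (by ring)) (h3.trans (le_of_eq ?_))
  have h4 : (V' / V) ^ (1 / 2 : ℝ) * ((H * (V' / V)) ^ (-(1 / 3) : ℝ) * (V * V') ^ (-(1 / 6) : ℝ)) =
      H ^ (-(1 / 3) : ℝ) * V ^ (-(1 / 3) : ℝ) := by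
    obtain ⟨H, rfl⟩ := CellD.ex hH
    obtain ⟨V, rfl⟩ := CellD.ex hV
    obtain ⟨V', rfl⟩ := CellD.ex hV'
    simp only [← Real.exp_add, ← Real.exp_sub, ← Real.exp_mul]
    congr 1
    ring
  calc (V' / V) ^ (1 / 2 : ℝ) * (K ^ (2 / 3 : ℝ) * (H * (V' / V)) ^ (-(1 / 3) : ℝ) *
        (V * V') ^ (-(1 / 6) : ℝ) * (nm d : ℝ) ^ (2 / 3 : ℝ) *
      (t⁻¹ * (nm d' : ℝ)⁻¹ * (nm (gp (g * d * a) g') / nm g') * (nm (gp (g * g') b) / nm b)))
      = ((V' / V) ^ (1 / 2 : ℝ) * ((H * (V' / V)) ^ (-(1 / 3) : ℝ) *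
        (V * V') ^ (-(1 / 6) : ℝ))) * (K ^ (2 / 3 : ℝ) * (nm d : ℝ) ^ (2 / 3 : ℝ) *
      (t⁻¹ * (nm d' : ℝ)⁻¹ * (nm (gp (g * d * a) g') / nm g') * (nm (gp (g * g') b) / nm b))) := by
        ring
    _ = _ := by rw [h4]; ring

end Crest.Agent.R017.E3Sr290
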