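import Crest.Agent.R017.E3So_290
import Crest.Agent.R017.ModeE_405

/-!
# Row 17, block C70, leaf E3 (S-sum), (CELL) part 4 (helper290): one cell from MODE

* `MB` : the bound of the modes of one coefficient, with the structured number `Bs`
* `modeE_MB` : `MB` from helper405's MODE*
* `cell_mode` : the modes of a dilated coefficient with decaying weights from `MB`
-/

set_option autoImplicit false

noncomputable section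

open Complex MeasureTheory
open scoped ComplexConjugate Classical

namespace Crest.Agent.R017.E3Su290

open Crest.Agent.R012 Crest.Agent.R012.Eis Crest.Agent.R012.MC
open Crest.Agent.R012.LS2 (S mem_S bl mem_bl)
open Crest.Agent.R012.NonCube52 (kv kc kc_spec kc_nm)
open Crest.Agent.R012.Mob705 (mu pdiv mem_pdiv)
open Crest.Agent.R017.CM106 (CS TG FS)
open Crest.Agent.R017.BD829 (TT EQ EQ_nonneg Wl Win)
open Crest.Agent.R017.E3D579 (uS bF)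
open Crest.Agent.R017.E3Sd579 (pS)
open Crest.Agent.R017.E1551 (nmpos)
open Crest.Agent.R017.Mode405
open Crest.Agent.R017.E3Sm290 Crest.Agent.R017.E3So290

/-- the moment of the coefficient, prime to `r` -/
def T1 (N₀ : ℝ) (b : Eis → ℂ) (r : Eis) : ℝ :=
  ∑ n ∈ (S N₀).filter (fun n => IsCoprime n r), ‖CS b n‖ ^ 2

lemma T1_nonneg (N₀ : ℝ) (b : Eis → ℂ) (r : Eis) : 0 ≤ T1 N₀ b r :=
  Finset.sum_nonneg fun _ _ => by positivity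

/-- **the bound of the modes of one coefficient**, structured number `Bs` -/
def MB (χ : Eis → ℂ) (w : ℝ → ℝ) (A' ε C cw : ℝ) (b : Eis → ℂ) (r₁ ka : Eis)
    (Y Lt Bs Z₀ : ℝ) : Prop :=
  ∀ Z L L0 : ℝ, Z₀ ≤ Z → 0 ≤ L → L ≤ Z → 0 ≤ L0 → L0 ≤ Z → ∀ r q : Eis, r ≠ 0 →
    (nm r : ℝ) ≤ Z → r₁ ∣ r → q ≠ 0 → (nm q : ℝ) ≤ Z → L * nk q ≤ L0 →
    ∑ h ∈ (bl L).filter (fun h => IsCoprime (kv (kc (h * q)).1) ka),
        EQ A' (fun n => χ n * uS (fun x => ((w (x / Y) : ℝ) : ℂ)) r b n) (h * q) ≤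
      C * Z ^ ε * Y ^ (-(1 : ℝ) / 3) *
        (((L0 / Lt) ^ (1 / 3 : ℝ) * Y + (if Lt ≤ L0 then L + (L * Y) ^ (2 / 3 : ℝ) else 0)) *
          T1 (cw * Y) b r +
        (if 1 ≤ Lt then (L0 / Lt) ^ (1 / 3 : ℝ) * (Y * Bs +
          ((Y + (Lt * Y) ^ (2 / 3 : ℝ)) * DT 1 (cw * Y) b r₁ +
          Lt * Y ^ (1 / 2 : ℝ) * DT (1 / 2) (cw * Y) b r₁)) else 0))

/-- `MB` from MODE* -/
theorem modeE_MB {OK : ℝ → ℝ → Eis → Set Tst → Prop} (hOK : OKW OK)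
    {nfn : ℝ → ℝ → ℝ} (hnfn : NFok nfn) {χ : Eis → ℂ} (hχ : Mul1 χ)
    {w : ℝ → ℝ} (hwW : Wgt w) (hP : PoHW OK nfn χ (w6 w)) {R : ℝ} (hR : 0 ≤ R) (a A : ℕ)
    (hA : 1 < A) {ε : ℝ} (hε : 0 < ε) :
    ∃ (C c cw : ℝ) (A₀ : ℕ), 0 ≤ C ∧ 1 ≤ c ∧ 1 ≤ cw ∧ ∀ A' : ℝ, (A₀ : ℝ) ≤ A' →
      ∀ Z N Y Lt : ℝ, 1 ≤ Z → 0 < N → N ≤ Z → 1 ≤ Y → Y ≤ Z → 0 < Lt → Lt ≤ Z →
      ∀ (b : Eis → ℂ) (r₁ ka : Eis), (∀ n, b n ≠ 0 → n ∈ S Z) → Win b (Real.log N) R →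
      ∀ (W : ℝ → ℝ) (W1 : ℝ), 0 ≤ W1 →
      (1 ≤ Lt → Lt * Real.exp R < N ∧ Slp a W ∧ W (c * Il N Lt Y) ≤ W1 ∧
        ∀ Z', Z ≤ Z' → ∃ 𝒯 : Set Tst, OK Z' N ka 𝒯 ∧
          ∀ τ ∈ 𝒯, ∀ P : ℝ, 0 < P → ∑ e ∈ pdiv r₁,
            (nm e : ℝ)⁻¹ * TV τ A (bs b e) (nm e * P) ≤ W P) →
      MB χ w A' ε C cw b r₁ ka Y Lt (nfn Lt (Il N Lt Y) * W1) Z := by
  obtain ⟨C, c, cw, A₀, hC, hc, hcw, h⟩ := modeE hOK hnfn hχ hwW hP hR a A hA hε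
  refine ⟨C, c, cw, A₀, hC, hc, hcw, ?_⟩
  intro A' hA' Z N Y Lt hZ hN hNZ hY hYZ hLt hLZ b r₁ ka hbS hbW W W1 hW1 hyp Z' L L0 hZZ hL hLZ'
    hL0 hL0Z r q hr hrZ hr₁ hq hqZ hLq
  have hZ' : 1 ≤ Z' := hZ.trans hZZ
  have hbS' : ∀ n, b n ≠ 0 → n ∈ S Z' := fun n hn => by
    have h1 := (mem_S (by linarith)).1 (hbS n hn)
    exact (mem_S (by linarith)).2 ⟨h1.1.trans hZZ, h1.2⟩
  obtain ⟨𝒯, h𝒯⟩ : ∃ 𝒯 : Set Tst, 1 ≤ Lt → OK Z' N ka 𝒯 ∧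
      ∀ τ ∈ 𝒯, ∀ P : ℝ, 0 < P → ∑ e ∈ pdiv r₁,
        (nm e : ℝ)⁻¹ * TV τ A (bs b e) (nm e * P) ≤ W P := by
    by_cases h1 : 1 ≤ Lt
    · obtain ⟨-, -, -, h2⟩ := hyp h1
      obtain ⟨𝒯, h3⟩ := h2 Z' hZZ
      exact ⟨𝒯, fun _ => h3⟩
    · exact ⟨∅, fun h2 => absurd h2 h1⟩
  have key := h A' hA' Z' N Y L L0 Lt hZ' hN (hNZ.trans hZZ) hY (hYZ.trans hZZ) hL hLZ' hL0 hL0Z
    hLt (hLZ.trans hZZ) ({()} : Finset Unit) (fun _ => b) (fun _ => Y) (fun _ => r) (fun _ => r₁)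
    (fun _ => q) (fun _ _ => ⟨by linarith, le_rfl⟩) (fun _ _ => hbS') (fun _ _ => hbW)
    (fun _ _ => ⟨hr, hrZ⟩) (fun _ _ => hr₁) (fun _ _ => ⟨hq, hqZ, hLq⟩) ka 𝒯 W W1 hW1
    (fun h1 => by
      obtain ⟨a1, a2, a3, -⟩ := hyp h1
      obtain ⟨a4, a5⟩ := h𝒯 h1
      refine ⟨a1, a4, a2, ?_, a3⟩
      simpa only [Finset.sum_singleton] using a5)
  simp only [Finset.sum_singleton] at key
  refine key.trans (le_of_eq ?_)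
  unfold T1
  split_ifs <;> ring

/-- the kernel of `X₁ C³` -/
lemma nk_le_of_eq {q X₁ C₁ : Eis} (hq : q ≠ 0) (h : q = X₁ * C₁ ^ 3) : nk q ≤ nm X₁ := by
  have h1 : X₁ ≠ 0 := fun h0 => hq (by rw [h, h0, zero_mul])
  have h2 : C₁ ≠ 0 := fun h0 => hq (by rw [h, h0]; ring)
  have e : (kc q).1 = (kc X₁).1 := LSq50.kc_of_eq h1 h2 h
  have : nk q = nk X₁ := by unfold nk; rw [e]
  rw [this]
  exact nk_le_nm h1

lemma cop_kv {h q ka : Eis} (hne : h * q ≠ 0) (h1 : IsCoprime h ka) (h2 : IsCoprime ka q) :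
    IsCoprime (kv (kc (h * q)).1) ka := by
  have e := (kc_spec hne).2.2.1
  have h3 : IsCoprime (h * q) ka := h1.mul_left h2.symm
  rw [e] at h3
  exact h3.of_mul_left_left

/-- the moments of the smaller dilation -/
lemma T1_dil {κ E F : Eis} (hκ : IsPrim κ) (hE : IsPrim E) {b : Eis → ℂ} (hb : FS b) {N₀ : ℝ}
    (hN : 0 ≤ N₀) {r : Eis} (hr : E ∣ r) : T1 N₀ (bF κ (F * E) b) r = T1 N₀ (bF (κ * E) F b) r := by
  unfold T1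
  refine Finset.sum_congr rfl fun n hn => ?_
  rw [Finset.mem_filter, mem_S hN] at hn
  rw [norm_CS_dil hκ hE hb hn.1.2.1 (hn.2.of_isCoprime_of_dvd_right hr)]

lemma DT_dil {κ E F : Eis} (hκ : IsPrim κ) (hE : IsPrim E) {b : Eis → ℂ} (hb : FS b) {N₀ s : ℝ}
    {r : Eis} (hr : E ∣ r) : DT s N₀ (bF κ (F * E) b) r = DT s N₀ (bF (κ * E) F b) r := by
  unfold DT
  refine Finset.sum_congr (by ext; simp) fun n hn => ?_
  rw [Finset.mem_filter, mem_primBall] at hn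
  rw [norm_CS_dil hκ hE hb hn.1.2 (hn.2.of_isCoprime_of_dvd_right hr)]

/-- the structured half of a cell -/
def R1c (Y Lt cw : ℝ) (b : Eis → ℂ) (r₁ : Eis) (Bs : ℝ) : ℝ :=
  if 1 ≤ Lt then (Y + (Lt * Y) ^ (2 / 3 : ℝ)) * DT 1 (cw * Y) b r₁ +
    Lt * Y ^ (1 / 2 : ℝ) * DT (1 / 2) (cw * Y) b r₁ + Y * Bs else 0

lemma R1c_nonneg {Y Lt cw : ℝ} (hY : 0 ≤ Y) (hLt : 0 < Lt) {b : Eis → ℂ} {r₁ : Eis} {Bs : ℝ}
    (hBs : 0 ≤ Bs) : 0 ≤ R1c Y Lt cw b r₁ Bs := by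
  unfold R1c
  have h1 := DT_nonneg 1 (cw * Y) b r₁
  have h2 := DT_nonneg (1 / 2) (cw * Y) b r₁
  split_ifs
  · positivity
  · exact le_rfl

/-- **one cell from MODE** -/
theorem cell_mode {ε : ℝ} (hε : 0 < ε) (hε1 : ε ≤ 1) : ∃ C' : ℝ, 0 ≤ C' ∧
    ∀ {A' C cw : ℝ} {ψ : Eis → ℂ} {w : ℝ → ℝ} {r r₁ κ E F : Eis}, IsPrim κ → IsPrim E → r ≠ 0 →
      κ * E ∣ r₁ → r₁ ∣ r → ∀ {b : Eis → ℂ}, FS b → ∀ {X X₁ C₁ : Eis}, E * X = X₁ * C₁ ^ 3 →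
      E * X ≠ 0 → IsCoprime κ (E * X) → ∀ {lam Z Y Lt : ℝ}, 0 < lam →
      lam ≤ Z → 1 ≤ Z → (nm κ : ℝ) ≤ Z → (nm r : ℝ) ≤ Z → (nm (E * X) : ℝ) ≤ Z →
      (nm X₁ : ℝ) ≤ Z → 0 ≤ C → 1 ≤ cw → 0 < Y → 0 < Lt → ∀ {B : ℕ}, 4 ≤ B →
      ∀ Bs : Eis → ℝ, (∀ u ∈ pdiv κ, 0 ≤ Bs u) →
      (∀ u ∈ pdiv κ, MB ψ w A' ε C cw (bF (κ / u) (F * (E * u)) b) r₁ (κ / u) Y
        (Lt / nm (E * u)) (Bs u) Z) →
      ∑' x : Eis, (if x = 0 then 0 else Wl B lam x *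
        EQ A' (pS ψ (fun x => ((w (x / Y) : ℝ) : ℂ)) r (bF (κ * E) F b)) (x * (E ^ 2 * X))) ≤
      C' * C * Z ^ (3 * ε) * RH Y Lt (nm E * nm X₁) (T1 (cw * Y) (bF (κ * E) F b) r)
        (R1c Y Lt cw (bF (κ * E) F b) r₁ (∑ u ∈ pdiv κ, Bs u)) lam := by
  obtain ⟨C', hC', hmain⟩ := cell_RH hε hε1
  refine ⟨C', hC', ?_⟩
  intro A' C cw ψ w r r₁ κ E F hκ hE hr0 hκr hr₁ b hb X X₁ C₁ hX hX0 hcop lam Z Y Lt hlam hlZ hZ
    hκZ hrZ hXZ hX₁Z hC hcw hY hLt B hB Bs hBs hMB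
  have hZ0 : 0 < Z := by linarith
  have nE := nmpos hE.ne_zero
  have hX₁0 : X₁ ≠ 0 := fun h0 => hX0 (by rw [hX, h0, zero_mul])
  have nX := nmpos hX₁0
  have hBs0 : 0 ≤ ∑ u ∈ pdiv κ, Bs u := Finset.sum_nonneg hBs
  refine hmain hκ hE (hκr.trans hr₁) hb X hlam hlZ hZ hκZ hC hY.le hLt (by positivity)
    (T1_nonneg _ _ _) (R1c_nonneg hY.le hLt hBs0) hB ?_
  intro L hL u hu hLu
  have hu' := (mem_pdiv hκ.ne_zero).mp hu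
  have nu := nmpos hu'.1.ne_zero
  have e1 : κ = κ / u * u := by
    rw [mul_comm]; exact (EuclideanDomain.mul_div_cancel' hu'.1.ne_zero hu'.2).symm
  have hκu : IsPrim (κ / u) := IsPrim.of_mul_left (x := u) (by rw [mul_comm, ← e1]; exact hκ) hu'.1
  have e2 : κ * E = κ / u * (E * u) := by
    conv_lhs => rw [e1]
    ring
  have hEu : IsPrim (E * u) := hE.mul hu'.1
  have nEu := nmpos hEu.ne_zero
  have hEu1 : (1 : ℝ) ≤ nm (E * u) := E1551.nm_ge_one hEu.ne_zero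
  have hEur : E * u ∣ r₁ := (Dvd.intro_left (κ / u) (by rw [← e2])).trans hκr
  have hcu : IsCoprime (κ / u) (E * X) := hcop.of_isCoprime_of_dvd_left ⟨u, e1⟩
  have hL0 : 0 < L := by linarith
  have hZL : Z ≤ Z * L := le_mul_of_one_le_right hZ0.le hL
  have hLZL : L ≤ Z * L := le_mul_of_one_le_left hL0.le hZ
  have hLu0 : 0 < L / nm u := by positivity
  have hu1 : (1 : ℝ) ≤ nm u := E1551.nm_ge_one hu'.1.ne_zero
  have hLuL : L / nm u ≤ L := div_le_self hL0.le hu1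
  -- the modes
  have key := hMB u hu (Z * L) (L / nm u) (L / nm u * nm X₁) hZL hLu0.le (hLuL.trans hLZL)
    (by positivity) (by
      calc L / nm u * nm X₁ ≤ L * Z := mul_le_mul hLuL hX₁Z nX.le hL0.le
        _ = Z * L := mul_comm _ _) r (E * X) hr0 (hrZ.trans hZL) hr₁ hX0 (hXZ.trans hZL)
    (mul_le_mul_of_nonneg_left (nk_le_of_eq hX0 hX) hLu0.le)
  have hsub : (bl (L / nm u)).filter (fun x => IsCoprime x (κ / u)) ⊆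
      (bl (L / nm u)).filter (fun h => IsCoprime (kv (kc (h * (E * X))).1) (κ / u)) := by
    intro x hx
    rw [Finset.mem_filter] at hx ⊢
    have hx0 := ((mem_bl hLu0.le).1 hx.1).1
    exact ⟨hx.1, cop_kv (mul_ne_zero hx0 hX0) hx.2 hcu⟩
  refine (Finset.sum_le_sum_of_subset_of_nonneg hsub fun _ _ _ => EQ_nonneg _ _ _).trans
    (key.trans ?_)
  -- comparison
  have t1 : T1 (cw * Y) (bF (κ / u) (F * (E * u)) b) r = T1 (cw * Y) (bF (κ * E) F b) r := by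
    rw [T1_dil hκu hEu hb (by positivity) (hEur.trans hr₁), ← e2]
  have t2 : ∀ s : ℝ, DT s (cw * Y) (bF (κ / u) (F * (E * u)) b) r₁ =
      DT s (cw * Y) (bF (κ * E) F b) r₁ := fun s => by
    rw [DT_dil hκu hEu hb hEur, ← e2]
  rw [t1, t2, t2]
  have hrat : L / nm u * nm X₁ / (Lt / nm (E * u)) = L * (nm E * nm X₁) / Lt := by
    rw [nm_mul]; push_cast; field_simp
  have hexp : Y ^ (-(1 : ℝ) / 3) = Y ^ (-(1 / 3) : ℝ) := by congr 1; norm_num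
  rw [hrat, hexp]
  have hT := T1_nonneg (cw * Y) (bF (κ * E) F b) r
  have hD1 := DT_nonneg 1 (cw * Y) (bF (κ * E) F b) r₁
  have hD2 := DT_nonneg (1 / 2) (cw * Y) (bF (κ * E) F b) r₁
  have hLtu : Lt / nm (E * u) ≤ Lt := div_le_self hLt.le hEu1
  have hLtu0 : 0 < Lt / nm (E * u) := by positivity
  -- the indicator
  have i1 : (if Lt / nm (E * u) ≤ L / nm u * nm X₁ then
      L / nm u + (L / nm u * Y) ^ (2 / 3 : ℝ) else 0) ≤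
      min 1 (L * (nm E * nm X₁) / Lt) * (L + (L * Y) ^ (2 / 3 : ℝ)) := by
    split_ifs with hi
    · have hi' : 1 ≤ L * (nm E * nm X₁) / Lt := by
        rw [← hrat, one_le_div hLtu0]; exact hi
      rw [min_eq_left hi', one_mul]
      gcongr
    · positivity
  have i2 : (if 1 ≤ Lt / nm (E * u) then (L * (nm E * nm X₁) / Lt) ^ (1 / 3 : ℝ) * (Y * Bs u +
      ((Y + (Lt / nm (E * u) * Y) ^ (2 / 3 : ℝ)) * DT 1 (cw * Y) (bF (κ * E) F b) r₁ +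
      Lt / nm (E * u) * Y ^ (1 / 2 : ℝ) * DT (1 / 2) (cw * Y) (bF (κ * E) F b) r₁)) else 0) ≤
      (L * (nm E * nm X₁) / Lt) ^ (1 / 3 : ℝ) *
        R1c Y Lt cw (bF (κ * E) F b) r₁ (∑ u ∈ pdiv κ, Bs u) := by
    split_ifs with hi
    · unfold R1c
      rw [if_pos (hi.trans hLtu)]
      refine mul_le_mul_of_nonneg_left ?_ (by positivity)
      have hBu : Bs u ≤ ∑ u ∈ pdiv κ, Bs u := Finset.single_le_sum hBs hu
      have j1 : (Y + (Lt / nm (E * u) * Y) ^ (2 / 3 : ℝ)) * DT 1 (cw * Y) (bF (κ * E) F b) r₁ ≤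
          (Y + (Lt * Y) ^ (2 / 3 : ℝ)) * DT 1 (cw * Y) (bF (κ * E) F b) r₁ := by gcongr
      have j2 : Lt / nm (E * u) * Y ^ (1 / 2 : ℝ) * DT (1 / 2) (cw * Y) (bF (κ * E) F b) r₁ ≤
          Lt * Y ^ (1 / 2 : ℝ) * DT (1 / 2) (cw * Y) (bF (κ * E) F b) r₁ := by gcongr
      have j3 : Y * Bs u ≤ Y * ∑ u ∈ pdiv κ, Bs u := mul_le_mul_of_nonneg_left hBu hY.le
      linarith
    · exact mul_nonneg (by positivity) (R1c_nonneg hY.le hLt hBs0)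
  unfold RH
  rw [mul_assoc (C * (Z * L) ^ ε)]
  refine mul_le_mul_of_nonneg_left ?_ (by positivity)
  refine mul_le_mul_of_nonneg_left ?_ (by positivity)
  refine add_le_add (mul_le_mul_of_nonneg_right (add_le_add le_rfl i1) hT) i2

end Crest.Agent.R017.E3Su290
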