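import Crest.Agent.R017.E3Sq_579
import Crest.Agent.R017.E3M_548

/-!
# Row 17, block C70, leaf E3 (T1) (helper579): the mode total `MPT` of structured sequences

* `be_eq3`, `UU_eq`, `tws_UU` : 548's sequences are `Us (c * qu M g * sg) om' (g d) (b0 ..)`
* `UF` : `UE` with the condition `IsCoprime (a D F) s`
* `MP_le_UF` : 842's `MP` with the condition
* `SE` : one side of one tuple;  `MP1_le`, `MPT_le` : **T1**
-/

set_option autoImplicit false
set_option linter.unusedVariables false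
set_option maxHeartbeats 800000

noncomputable section

open Complex MeasureTheory
open scoped ComplexConjugate Classical

namespace Crest.Agent.R017.E3T1579

open Crest.Agent.R012 Crest.Agent.R012.Eis Crest.Agent.R012.MC
open Crest.Agent.R012.LS2 (S mem_S bl mem_bl)
open Crest.Agent.R012.Div277 (dvs mem_dvs isPrim_of_mem_dvs dvd_of_mem_dvs)
open Crest.Agent.R012.Mob705 (mu pdiv mem_pdiv)
open Crest.Agent.R012.Weight600 (pw)
open Crest.Agent.R017.CM106 (CS TG FS)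
open Crest.Agent.R017.BD829
open Crest.Agent.R017.E3P842
open Crest.Agent.R017.E3D579
open Crest.Agent.R017.E3Sd579
open Crest.Agent.R017.E3Sp579
open Crest.Agent.R017.C70
open Crest.Agent.R017.GrB829 (IsC)
open Crest.Agent.R017.E3M829 (TC)
open Crest.Agent.R017.E3A164 (be fq Yp Ys qu mem_Cs)
open Crest.Agent.R017.E3F548 (UU MM MM_prim MM_dvd Cop Kr pf qu_spec gg cf₁ cf₂ Mc pc LC_pc SU SU_UU
  SU_PD Nq MP1 MPT MPTr mem_Ys' Nq_pos nm_cf_le be_cop UU_ne pf_nonneg MP_nonneg isC_ne SR_prim)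
open Crest.Agent.R017.E1551 (jb jb_pos nmpos)
open Gauss880 (syG)

/-! ### the sequences -/

/-- the coefficients -/
def T3 (af : Eis → Eis → Eis → ℂ) (d e j : Eis) : ℂ := TE0 (af d e) d j e

lemma TE0_zero {d j e : Eis} : TE0 (fun _ => (0 : ℂ)) d j e = 0 := by
  unfold TE0
  simp

lemma be_eq3 {J : Finset (Eis × Eis)} {om : Eis × Eis → ℂ} {af : Eis → Eis → Eis → ℂ} {q : Eis}
    {y : Yp} (haf : FS (af y.1 y.2.1)) {om' : ℝ → ℂ}
    (hom : ∀ n, IsPrim n → Squarefree n → IsCoprime n y.2.2.2 →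
      (if (y.1, fq q y.2.2.1 y.2.2.2 n) ∈ J then conj (om (y.1, fq q y.2.2.1 y.2.2.2 n)) else 0) =
        om' (nm n)) (n : Eis) :
    be J om (T3 af) q y n = sy y.2.2.1 n * uS om' (y.2.2.2 * y.1)
      (b0 (af y.1 y.2.1) y.1 y.2.1 (q * y.2.2.1 * y.2.2.2 ^ 2)) n := by
  have h := be_eq (J := J) (om := om) (af := fun d => af d y.2.1) (q := q) (y := y) haf hom n
  rw [← h]
  unfold be T3
  rfl

lemma UU_eq {J : Finset (Eis × Eis)} {om : Eis × Eis → ℂ} {af : Eis → Eis → Eis → ℂ} {q : Eis}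
    {y : Yp} (haf : FS (af y.1 y.2.1)) {om' : ℝ → ℂ}
    (hom : ∀ n, IsPrim n → Squarefree n → IsCoprime n y.2.2.2 →
      (if (y.1, fq q y.2.2.1 y.2.2.2 n) ∈ J then conj (om (y.1, fq q y.2.2.1 y.2.2.2 n)) else 0) =
        om' (nm n)) (M : Eis) :
    UU J om (T3 af) q M y = Us (y.2.2.1 * qu M y.2.2.2) om' (y.2.2.2 * y.1)
      (b0 (af y.1 y.2.1) y.1 y.2.1 (q * y.2.2.1 * y.2.2.2 ^ 2)) := by
  funext n
  unfold UU Us
  rw [be_eq3 haf hom n]
  by_cases h : uS om' (y.2.2.2 * y.1)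
      (b0 (af y.1 y.2.1) y.1 y.2.1 (q * y.2.2.1 * y.2.2.2 ^ 2)) n = 0
  · rw [h]; simp
  · rw [sy_mulL (uS_supp h).1]; ring

lemma tws_UU {J : Finset (Eis × Eis)} {om : Eis × Eis → ℂ} {af : Eis → Eis → Eis → ℂ} {q : Eis}
    {y : Yp} (haf : FS (af y.1 y.2.1)) {om' : ℝ → ℂ}
    (hom : ∀ n, IsPrim n → Squarefree n → IsCoprime n y.2.2.2 →
      (if (y.1, fq q y.2.2.1 y.2.2.2 n) ∈ J then conj (om (y.1, fq q y.2.2.1 y.2.2.2 n)) else 0) =
        om' (nm n)) (M sg : Eis) :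
    tws sg (UU J om (T3 af) q M y) = Us (y.2.2.1 * qu M y.2.2.2 * sg) om' (y.2.2.2 * y.1)
      (b0 (af y.1 y.2.1) y.1 y.2.1 (q * y.2.2.1 * y.2.2.2 ^ 2)) := by
  rw [UU_eq haf hom M, tws_Us]

/-! ### one side with the condition on the twist -/

/-- one side of one cell, with the condition on the twist -/
def UF (A B : ℕ) (M : Eis) (ψ : Eis → ℂ) (K NN : ℝ) (s : Eis) (om : ℝ → ℂ) (r : Eis)
    (b : Eis → ℂ) (q a c D E F : Eis) : ℝ :=
  if IsCoprime (a * D * F) s then UE A B M ψ K NN s om r b q a c D E F else 0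

lemma UE_nonneg {A B : ℕ} {M : Eis} {ψ : Eis → ℂ} {K NN : ℝ} (hK : 0 ≤ K) (hN : 0 ≤ NN) (s : Eis)
    (om : ℝ → ℂ) (r : Eis) (b : Eis → ℂ) (q a c D E F : Eis) :
    0 ≤ UE A B M ψ K NN s om r b q a c D E F := by
  unfold UE
  split_ifs
  · refine mul_nonneg (by positivity) (tsum_nonneg fun x => ?_)
    split_ifs
    · exact le_rfl
    · exact mul_nonneg (WB_nonneg hK hN zero_le_one B D E x) (EQ_nonneg _ _ _)
  · exact le_rfl

lemma UF_nonneg {A B : ℕ} {M : Eis} {ψ : Eis → ℂ} {K NN : ℝ} (hK : 0 ≤ K) (hN : 0 ≤ NN) (s : Eis)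
    (om : ℝ → ℂ) (r : Eis) (b : Eis → ℂ) (q a c D E F : Eis) :
    0 ≤ UF A B M ψ K NN s om r b q a c D E F := by
  unfold UF
  split_ifs
  · exact UE_nonneg hK hN s om r b q a c D E F
  · exact le_rfl

lemma sy_eq_zero {s n : Eis} (hn : IsPrim n) (h : ¬ IsCoprime n s) : sy s n = 0 := by
  by_contra h0
  exact h0 (Tau671.sy_eq_zero hn (fun h1 => h h1.symm))

variable {Y₀ Y : ℝ} {g p q : Eis}

/-- the modes of structured sequences -/
theorem ModeP_le_UF {s s' r r' : Eis} {om om' : ℝ → ℂ} {bU bV : Eis → ℂ} (hbU : FS bU)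
    (hbV : FS bV) (h : PD Y₀ Y g p q (Us s om r bU) (Us s' om' r' bV)) {a b : Eis}
    (ha : a ∈ dvs q) (hb : b ∈ dvs p)
    {A B : ℕ} (hA : 1 < A) (hB : 1 < B) {M : Eis} {ψ : Eis → ℂ} (hψ : LC M ψ) {K NN : ℝ}
    (hK : 0 < K) (hN : 0 < NN) {D E : Eis} (hD : IsPrim D) (hE : E ≠ 0)
    {ρ : Eis → ℝ} (hρ : ∀ F, 0 < ρ F) :
    ModeP A B M ψ K NN 1 Y p q (Us s om r bU) (Us s' om' r' bV) a b D E ≤
      ∑ F ∈ S Y, if IsCoprime (D * F) (p * q) then
        (ρ F * UF A B M ψ K NN s om r bU q a b D E F +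
          (ρ F)⁻¹ * UF A B M (fun m => conj (ψ m)) K NN s' om' r' bV p b a D E F) else 0 := by
  have hap := isPrim_of_mem_dvs ha
  have hbp := isPrim_of_mem_dvs hb
  refine (PD_ModeP_le_sum h ha hb hA hB hψ hK hN one_pos hD hE hρ).trans ?_
  refine Finset.sum_le_sum fun F hF => ?_
  have hFp : IsPrim F := ((mem_S h.hY).1 hF).2.1
  by_cases hc : IsCoprime (D * F) (p * q)
  · rw [if_pos hc, if_pos hc]
    have hW0 : ∀ x, 0 ≤ WB M K NN 1 B D E x := fun x => WB_nonneg hK.le hN.le zero_le_one B D E x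
    have key : ∀ (s : Eis) (om : ℝ → ℂ) (r : Eis) (bU : Eis → ℂ) (ψ : Eis → ℂ) (q a c : Eis),
        FS bU → (∀ a b, IsPrim a → IsPrim b → ψ (a * b) = ψ a * ψ b) → IsPrim a →
        IsCoprime (D * F) q →
        ∑' x : Eis, (if x = 0 then 0 else WB M K NN 1 B D E x *
            EQ A (rs (ua (Us s om r bU) q a) ψ D F) (Hf M E x F * (q / a * c))) ≤
          UF A B M ψ K NN s om r bU q a c D E F := by
      intro s om r bU ψ q a c hb' hψ' ha' hcq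
      have hadf : IsPrim (a * D * F) := (ha'.mul hD).mul hFp
      have e1 : ∑' x : Eis, (if x = 0 then 0 else WB M K NN 1 B D E x *
            EQ A (rs (ua (Us s om r bU) q a) ψ D F) (Hf M E x F * (q / a * c))) =
          ‖cU s r q a D F‖ ^ 2 * ∑' x : Eis, (if x = 0 then 0 else
            WB M K NN 1 B D E x * EQ A (pS ψ (fun y => om ((nm (a * D * F) : ℝ) * y))
              (r * q * (a * D * F)) (bF (a * D) F bU))
              (x * ((E * (M * sq3) * s) ^ 2 * (q / a * c)))) := by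
        rw [← tsum_mul_left]
        refine tsum_congr fun x => ?_
        split_ifs
        · rw [mul_zero]
        · rw [EQ_rs_ua A hψ' hb' ha' hD hFp]; ring
      rw [e1]
      unfold UF
      by_cases hs : IsCoprime (a * D * F) s
      · rw [if_pos hs]
        have hn := norm_cU_le s r (q := q) ha' hD hFp
        have h0 : 0 ≤ ∑' x : Eis, (if x = 0 then 0 else
              WB M K NN 1 B D E x * EQ A (pS ψ (fun y => om ((nm (a * D * F) : ℝ) * y))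
                (r * q * (a * D * F)) (bF (a * D) F bU))
                (x * ((E * (M * sq3) * s) ^ 2 * (q / a * c)))) := by
          refine tsum_nonneg fun x => ?_
          split_ifs
          · exact le_rfl
          · exact mul_nonneg (hW0 x) (EQ_nonneg _ _ _)
        unfold UE
        split_ifs at hn ⊢ with h1
        · exact mul_le_mul_of_nonneg_right hn h0
        · have : ‖cU s r q a D F‖ ^ 2 = 0 := le_antisymm hn (by positivity)
          rw [this, zero_mul]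
      · rw [if_neg hs]
        have : cU s r q a D F = 0 := by
          unfold cU
          split_ifs
          rw [sy_eq_zero hadf hs, zero_mul]
        rw [this]
        simp
    have k1 := key s om r bU ψ q a b hbU hψ.mul hap hc.of_mul_right_right
    have k2 := key s' om' r' bV (fun m => conj (ψ m)) p b a hbV
      (fun x y hx hy => by rw [hψ.mul x y hx hy, map_mul]) hbp hc.of_mul_right_left
    exact add_le_add (mul_le_mul_of_nonneg_left k1 (hρ F).le)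
      (mul_le_mul_of_nonneg_left k2 (inv_nonneg.mpr (hρ F).le))
  · rw [if_neg hc, if_neg hc]

/-- **(S-lin)** with the condition on the twist -/
theorem MP_le_UF {s s' r r' : Eis} {om om' : ℝ → ℂ} {bU bV : Eis → ℂ} (hbU : FS bU)
    (hbV : FS bV) (h : PD Y₀ Y g p q (Us s om r bU) (Us s' om' r' bV))
    {A B : ℕ} (hA : 1 < A) (hB : 1 < B) {M : Eis} {ψ : Eis → ℂ} (hψ : LC M ψ) {K NN : ℝ}
    (hK : 0 < K) (hN : 0 < NN) {ρ : Eis → Eis → Eis → Eis → Eis → ℝ}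
    (hρ : ∀ a b D E F, 0 < ρ a b D E F) :
    MP A B M ψ K NN Y p q (Us s om r bU) (Us s' om' r' bV) ≤
      ∑ a ∈ dvs q, ∑ b ∈ dvs p, ∑ D ∈ S Y, ∑ E ∈ pdiv D, ∑ F ∈ S Y,
        (K / Real.sqrt (NN * nm p * nm q / (nm a * nm b))) * (nm D / nm E : ℝ) *
        (if IsCoprime (D * F) (p * q) then
          (ρ a b D E F * UF A B M ψ K (NN * nm p * nm q / (nm a * nm b)) s om r bU q a b D E F +
          (ρ a b D E F)⁻¹ * UF A B M (fun m => conj (ψ m)) K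
            (NN * nm p * nm q / (nm a * nm b)) s' om' r' bV p b a D E F) else 0) := by
  unfold MP
  refine Finset.sum_le_sum fun a ha => Finset.sum_le_sum fun b hb => ?_
  have hap := isPrim_of_mem_dvs ha
  have hbp := isPrim_of_mem_dvs hb
  have na := nmpos hap.ne_zero
  have nb := nmpos hbp.ne_zero
  have np := nmpos h.hp.ne_zero
  have nq := nmpos h.hq.ne_zero
  have hN' : 0 < NN * nm p * nm q / (nm a * nm b) := by positivity
  rw [Finset.mul_sum]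
  refine Finset.sum_le_sum fun D hD => ?_
  have hDp : IsPrim D := ((mem_S h.hY).1 hD).2.1
  rw [Finset.mul_sum]
  refine Finset.sum_le_sum fun E hE => ?_
  have hEp := ((mem_pdiv hDp.ne_zero).mp hE).1
  have ne := nmpos hEp.ne_zero
  have nd := nmpos hDp.ne_zero
  have c1 : 0 ≤ K / Real.sqrt (NN * nm p * nm q / (nm a * nm b)) := by positivity
  have c2 : 0 ≤ (nm D / nm E : ℝ) := by positivity
  have k1 := mul_le_mul_of_nonneg_left (ModeP_le_UF hbU hbV h ha hb hA hB hψ hK hN' hDp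
    hEp.ne_zero (fun F => hρ a b D E F)) (mul_nonneg c1 c2)
  calc K / Real.sqrt (NN * nm p * nm q / (nm a * nm b)) * ((nm D / nm E : ℝ) * _) =
      K / Real.sqrt (NN * nm p * nm q / (nm a * nm b)) * (nm D / nm E : ℝ) * _ :=
        (mul_assoc _ _ _).symm
    _ ≤ _ := k1
    _ = _ := Finset.mul_sum _ _ _

/-! ### vanishing -/

lemma TT_zero {u : Eis → ℂ} (h : ∀ n, u n = 0) (H : Eis) (t : ℝ) : TT u H t = 0 := by
  unfold TT TG
  simp [h]

lemma EP_zero {A : ℝ} {u v : Eis → ℂ} (h : (∀ n, u n = 0) ∨ ∀ n, v n = 0) (H H' : Eis) :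
    EP A u v H H' = 0 := by
  unfold EP
  rcases h with h | h
  · simp [TT_zero h]
  · simp [TT_zero h]

lemma MP_zero {A B : ℕ} {M : Eis} {ψ : Eis → ℂ} {K NN Y : ℝ} {p q : Eis} {U V : Eis → ℂ}
    (h : (∀ n, U n = 0) ∨ ∀ n, V n = 0) : MP A B M ψ K NN Y p q U V = 0 := by
  unfold MP
  refine Finset.sum_eq_zero fun a _ => Finset.sum_eq_zero fun b _ => ?_
  have h1 : ∀ D E, ModeP A B M ψ K (NN * nm p * nm q / (nm a * nm b)) 1 Y p q U V a b D E = 0 := by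
    intro D E
    unfold ModeP
    have h2 : ∀ F x : Eis, EP A (rs (ua U q a) ψ D F) (rs (ua V p b) (fun m => conj (ψ m)) D F)
        (Hf M E x F * (q / a * b)) (Hf M E x F * (p / b * a)) = 0 := by
      intro F x
      refine EP_zero ?_ _ _
      rcases h with h | h
      · left
        intro n
        unfold rs ua
        simp [h]
      · right
        intro n
        unfold rs ua
        simp [h]
    simp [h2]
  simp [h1]

/-! ### one pair -/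

/-- one side of one tuple -/
def SE (A Bw : ℕ) (M₀ : Eis) (ψ : Eis → ℂ) (Kq NN : ℝ) (af : Eis → Eis → Eis → ℂ) (wq : ℝ → ℂ)
    (q M : Eis) (y : Yp) (sg m a a' D E F : Eis) : ℝ :=
  UF A Bw M₀ ψ Kq NN (y.2.2.1 * (qu M y.2.2.2 * sg)) wq (y.2.2.2 * y.1)
    (b0 (af y.1 y.2.1) y.1 y.2.1 (q * y.2.2.1 * y.2.2.2 ^ 2)) m a a' D E F

lemma SE_nonneg {A Bw : ℕ} {M₀ : Eis} {ψ : Eis → ℂ} {Kq NN : ℝ} (hK : 0 ≤ Kq) (hN : 0 ≤ NN)
    (af : Eis → Eis → Eis → ℂ) (wq : ℝ → ℂ) (q M : Eis) (y : Yp) (sg m a a' D E F : Eis) :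
    0 ≤ SE A Bw M₀ ψ Kq NN af wq q M y sg m a a' D E F := UF_nonneg hK hN _ _ _ _ _ _ _ _ _ _

/-- the conditions on the parameters `(q, y, y', D, F)` -/
structure CO (EE : Finset Eis) (q : Eis) (y y' : Yp) (D F : Eis) : Prop where
  sq : Squarefree (y.1 * y.2.2.2)
  sq' : Squarefree (y'.1 * y'.2.2.2)
  e : y.2.1 ∈ EE
  e' : y'.2.1 ∈ EE
  qd : IsCoprime q (y.1 * y.2.2.2)
  qd' : IsCoprime q (y'.1 * y'.2.2.2)
  DF : IsCoprime (D * F) (cf₁ y y' * cf₂ y y')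

/-- the weights of 548's sequences -/
def WQ (J : Finset (Eis × Eis)) (om : Eis × Eis → ℂ) (E0 R : ℝ) (wq : Eis → Yp → ℝ → ℂ) : Prop :=
  ∀ q ∈ S R, ∀ y ∈ Ys J E0 R, Squarefree (y.1 * y.2.2.2) → IsCoprime q (y.1 * y.2.2.2) →
    ∀ n, IsPrim n → Squarefree n → IsCoprime n y.2.2.2 →
      (if (y.1, fq q y.2.2.1 y.2.2.2 n) ∈ J then conj (om (y.1, fq q y.2.2.1 y.2.2.2 n)) else 0) =
        wq q y (nm n)

section

variable {J : Finset (Eis × Eis)} {om om' : Eis × Eis → ℂ} {af : Eis → Eis → Eis → ℂ}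
  {R E0 K B b₀ V V' : ℝ} {EE : Finset Eis} {t M : Eis} {y y' : Yp}
  {wq wq' : Eis → Yp → ℝ → ℂ} {A Bw : ℕ}

/-- `be` lives on the conditions -/
lemma be_co (hT : TC (T3 af)) (hJ : OKJ J) (hEE : ∀ d e, e ∉ EE → ∀ j, T3 af d e j = 0)
    (hq : q ∈ S R) (hy : IsPrim y.1 ∧ Squarefree y.1 ∧ IsPrim y.2.2.2 ∧ Squarefree y.2.2.2)
    (hc : IsC y.2.2.1) {n : Eis} (h : be J om (T3 af) q y n ≠ 0) :
    Squarefree (y.1 * y.2.2.2) ∧ y.2.1 ∈ EE ∧ IsCoprime q (y.1 * y.2.2.2) := by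
  obtain ⟨h1, h2, h3, h4, h5⟩ := be_cop hT h
  obtain ⟨-, -, h6, h7⟩ := E3A164.be_ne h
  have hT0 : T3 af y.1 y.2.1 (fq q y.2.2.1 y.2.2.2 n) ≠ 0 := by
    intro h0
    apply h
    unfold be
    split_ifs
    · rw [h0]; simp
    · rfl
  have hqp := SR_prim hq
  have hcb : CbF (q * n * y.2.2.2 ^ 2) := by
    obtain ⟨c', hc', j', hj', hcf, e⟩ := hJ.jc _ h7
    have e' : fq q y.2.2.1 y.2.2.2 n = c' * j' := e
    have e1 : y.2.2.1 * (q * n * y.2.2.2 ^ 2) = c' * j' := by rw [← e']; unfold fq; ring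
    obtain ⟨-, h8⟩ := E3A164.eq_c hc hc' ((hqp.1.mul h1).mul (hy.2.2.1.pow 2)) hj' e1
    rw [h8]; exact hcf
  have h9 := (cbF_fq hqp.1 hqp.2 h1 h2 hy.2.2.1 h6).mp hcb
  refine ⟨?_, ?_, ?_⟩
  · rw [squarefree_mul_iff]
    exact ⟨h5.symm.isRelPrime, hy.2.1, hy.2.2.2⟩
  · by_contra h0
    exact hT0 (hEE _ _ h0 _)
  · exact h4.mul_right h9.2

/-- **(T1) for one pair** -/
theorem MP1_le (hA : 1 < A) (hB : 1 < Bw) (hT : TC (T3 af)) (haf : ∀ d e, FS (af d e))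
    (hJ : OKJ J) (hEE : ∀ d e, e ∉ EE → ∀ j, T3 af d e j = 0) (hK : 0 < K) (hR0 : 0 ≤ R)
    (hR : ∀ x ∈ J, (nm x.2 : ℝ) ≤ R) (hV : 0 < V) (hV' : 0 < V') {Y : ℝ} (hq : q ∈ S R)
    (ht : IsPrim t) (hM : IsPrim M) (hy : y ∈ Ys J E0 R) (hy' : y' ∈ Ys J E0 R)
    (hle : (nm (cf₁ y y') : ℝ) * nm (cf₂ y y') * R ≤ Y)
    (hw : WQ J om E0 R wq) (hw' : WQ J om' E0 R wq')
    {ρ : Eis → Eis → Eis → Eis → Eis → Eis → ℝ} (hρ : ∀ sg a b D E F, 0 < ρ sg a b D E F) :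
    MP1 A Bw K V V' Y J om om' (T3 af) q t M y y' ≤
      ∑ sg ∈ pdiv (gg y y'), ∑ a ∈ dvs (cf₂ y y'), ∑ a' ∈ dvs (cf₁ y y'), ∑ D ∈ S Y,
        ∑ E ∈ pdiv D, ∑ F ∈ S Y, if CO EE q y y' D F then
          (Kr K q t M / nm sg / Real.sqrt (Nq V q y * Nq V' q y' * nm (cf₁ y y') *
            nm (cf₂ y y') / (nm a * nm a'))) * (nm D / nm E : ℝ) *
          (ρ sg a a' D E F * SE A Bw (Mc y.2.2.1 y'.2.2.1) (pc y.2.2.1 y'.2.2.1)
            (Kr K q t M / nm sg) (Nq V q y * Nq V' q y' * nm (cf₁ y y') * nm (cf₂ y y') /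
              (nm a * nm a')) af (wq q y) q M y sg (cf₂ y y') a a' D E F +
          (ρ sg a a' D E F)⁻¹ * SE A Bw (Mc y.2.2.1 y'.2.2.1)
            (fun m => conj (pc y.2.2.1 y'.2.2.1 m)) (Kr K q t M / nm sg)
            (Nq V q y * Nq V' q y' * nm (cf₁ y y') * nm (cf₂ y y') / (nm a * nm a')) af
              (wq' q y') q M y' sg (cf₁ y y') a' a D E F) else 0 := by
  have hqp := (SR_prim hq).1
  obtain ⟨-, hy1, -, hyc, -⟩ := mem_Ys' hJ hy
  obtain ⟨-, hy1', -, hyc', -⟩ := mem_Ys' hJ hy'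
  have hKr : 0 < Kr K q t M := by
    unfold Kr
    have n1 := nmpos hqp.ne_zero
    have n2 := nmpos ht.ne_zero
    have n3 := nmpos hM.ne_zero
    positivity
  have hN := Nq_pos hV hqp hy1.1 hyc hy1.2.2.1
  have hN' := Nq_pos hV' hqp hy1'.1 hyc' hy1'.2.2.1
  unfold MP1
  refine Finset.sum_le_sum fun sg hsg => ?_
  have hKs : 0 ≤ Kr K q t M / nm sg := by positivity
  -- nonnegativity of the right side
  have hnn : 0 ≤ ∑ a ∈ dvs (cf₂ y y'), ∑ a' ∈ dvs (cf₁ y y'), ∑ D ∈ S Y,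
        ∑ E ∈ pdiv D, ∑ F ∈ S Y, if CO EE q y y' D F then
          (Kr K q t M / nm sg / Real.sqrt (Nq V q y * Nq V' q y' * nm (cf₁ y y') *
            nm (cf₂ y y') / (nm a * nm a'))) * (nm D / nm E : ℝ) *
          (ρ sg a a' D E F * SE A Bw (Mc y.2.2.1 y'.2.2.1) (pc y.2.2.1 y'.2.2.1)
            (Kr K q t M / nm sg) (Nq V q y * Nq V' q y' * nm (cf₁ y y') * nm (cf₂ y y') /
              (nm a * nm a')) af (wq q y) q M y sg (cf₂ y y') a a' D E F +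
          (ρ sg a a' D E F)⁻¹ * SE A Bw (Mc y.2.2.1 y'.2.2.1)
            (fun m => conj (pc y.2.2.1 y'.2.2.1 m)) (Kr K q t M / nm sg)
            (Nq V q y * Nq V' q y' * nm (cf₁ y y') * nm (cf₂ y y') / (nm a * nm a')) af
              (wq' q y') q M y' sg (cf₁ y y') a' a D E F) else 0 := by
    refine Finset.sum_nonneg fun a _ => Finset.sum_nonneg fun a' _ => Finset.sum_nonneg fun D _ =>
      Finset.sum_nonneg fun E _ => Finset.sum_nonneg fun F _ => ?_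
    split_ifs
    · have hNN : 0 ≤ Nq V q y * Nq V' q y' * nm (cf₁ y y') * nm (cf₂ y y') /
          (nm a * nm a' : ℝ) := by positivity
      have h1 := SE_nonneg (A := A) (Bw := Bw) (M₀ := Mc y.2.2.1 y'.2.2.1)
        (ψ := pc y.2.2.1 y'.2.2.1) hKs hNN af (wq q y) q M y sg (cf₂ y y') a a' D E F
      have h2 := SE_nonneg (A := A) (Bw := Bw) (M₀ := Mc y.2.2.1 y'.2.2.1)
        (ψ := fun m => conj (pc y.2.2.1 y'.2.2.1 m)) hKs hNN af (wq' q y') q M y' sg (cf₁ y y')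
          a' a D E F
      have h3 := (hρ sg a a' D E F).le
      have h4 := inv_nonneg.mpr h3
      exact mul_nonneg (mul_nonneg (by positivity) (by positivity))
        (add_nonneg (mul_nonneg h3 h1) (mul_nonneg h4 h2))
    · exact le_rfl
  have hzero : ((∀ n, tws sg (UU J om (T3 af) q M y) n = 0) ∨
      ∀ n, tws sg (UU J om' (T3 af) q M y') n = 0) →
      MP A Bw (Mc y.2.2.1 y'.2.2.1) (pc y.2.2.1 y'.2.2.1)
        (Kr K q t M / nm sg) (Nq V q y * Nq V' q y') Y (cf₁ y y') (cf₂ y y')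
        (tws sg (UU J om (T3 af) q M y)) (tws sg (UU J om' (T3 af) q M y')) ≤ 0 :=
    fun h => (MP_zero h).le
  by_cases h1 : ∃ n, tws sg (UU J om (T3 af) q M y) n ≠ 0
  swap
  · push Not at h1
    exact (hzero (Or.inl h1)).trans hnn
  by_cases h2 : ∃ n, tws sg (UU J om' (T3 af) q M y') n ≠ 0
  swap
  · push Not at h2
    exact (hzero (Or.inr h2)).trans hnn
  -- the structure
  have hsu : SU y R (tws sg (UU J om (T3 af) q M y)) := fun n hn =>
    SU_UU hT hR hR0 hqp hyc hy1.2.2.1 M n (left_ne_zero_of_mul hn)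
  have hsv : SU y' R (tws sg (UU J om' (T3 af) q M y')) := fun n hn =>
    SU_UU hT hR hR0 hqp hyc' hy1'.2.2.1 M n (left_ne_zero_of_mul hn)
  obtain ⟨hPD, -, -⟩ := SU_PD hy1 hy1' hR0 hsu hsv h1 h2 hle
  obtain ⟨n, hn⟩ := h1
  obtain ⟨n', hn'⟩ := h2
  obtain ⟨c1, c2, c3⟩ := be_co hT hJ hEE hq hy1 hyc (UU_ne (left_ne_zero_of_mul hn))
  obtain ⟨c1', c2', c3'⟩ := be_co hT hJ hEE hq hy1' hyc' (UU_ne (left_ne_zero_of_mul hn'))
  have eU := tws_UU (haf y.1 y.2.1) (hw q hq y hy c1 c3) M sg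
  have eV := tws_UU (haf y'.1 y'.2.1) (hw' q hq y' hy' c1' c3') M sg
  rw [eU, eV] at hPD ⊢
  have hsgp := ((mem_pdiv hPD.hg.ne_zero).mp hsg).1
  have nsg := nmpos hsgp.ne_zero
  have hbF : ∀ (y : Yp), FS (b0 (af y.1 y.2.1) y.1 y.2.1 (q * y.2.2.1 * y.2.2.2 ^ 2)) := fun y =>
    FS_b0 (haf y.1 y.2.1) _ _ _
  refine (MP_le_UF (hbF y) (hbF y') hPD hA hB (LC_pc hyc hyc') (div_pos hKr nsg)
    (mul_pos hN hN') (fun a b D E F => hρ sg a b D E F)).trans (le_of_eq ?_)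
  refine Finset.sum_congr rfl fun a _ => Finset.sum_congr rfl fun a' _ =>
    Finset.sum_congr rfl fun D _ => Finset.sum_congr rfl fun E _ => Finset.sum_congr rfl fun F _ =>
    ?_
  by_cases hc : IsCoprime (D * F) (cf₁ y y' * cf₂ y y')
  · rw [if_pos hc, if_pos ⟨c1, c1', c2, c2', c3, c3', hc⟩]
    unfold SE
    rw [mul_assoc y.2.2.1, mul_assoc y'.2.2.1]
  · rw [if_neg hc, if_neg (fun h => hc h.DF), mul_zero]

/-- **(T1)** at `(q, t)` -/
theorem MPTr_le (hA : 1 < A) (hB : 1 < Bw) (hT : TC (T3 af)) (haf : ∀ d e, FS (af d e))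
    (hJ : OKJ J) (hEE : ∀ d e, e ∉ EE → ∀ j, T3 af d e j = 0) (hK : 0 < K) {Z : ℝ} (hZ : 1 ≤ Z)
    (hR0 : 0 ≤ R) (hRZ : R ≤ Z) (hJ1 : ∀ x ∈ J, (nm x.1 : ℝ) ≤ Z)
    (hR : ∀ x ∈ J, (nm x.2 : ℝ) ≤ R) (hV : 0 < V) (hV' : 0 < V') (hq : q ∈ S R)
    (ht : IsPrim t) (hw : WQ J om E0 R wq) (hw' : WQ J om' E0 R wq') (Pr : Yp → Yp → Prop)
    {ρ : Yp → Yp → Eis → Eis → Eis → Eis → Eis → Eis → Eis → Eis → Eis → ℝ}
    (hρ : ∀ y y' b b' s sg a a' D E F, 0 < ρ y y' b b' s sg a a' D E F) :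
    MPTr Pr A Bw K B V V' (Z ^ 5) J om om' (T3 af) E0 R b₀ q t ≤
      ∑ y ∈ Ys J E0 R, ∑ y' ∈ Ys J E0 R, ∑ b ∈ S B, ∑ b' ∈ S B, ∑ s ∈ pdiv q,
      ∑ sg ∈ pdiv (gg y y'), ∑ a ∈ dvs (cf₂ y y'), ∑ a' ∈ dvs (cf₁ y y'), ∑ D ∈ S (Z ^ 5),
        ∑ E ∈ pdiv D, ∑ F ∈ S (Z ^ 5), if (Pr y y' ∧ Cop (MM q t y y' b b' s) y y' ∧
          (nm (MM q t y y' b b' s * q ^ 2 * t ^ 3) : ℝ) ≤ b₀ * K) ∧ CO EE q y y' D F then
          pf K q t y y' * (Kr K q t (MM q t y y' b b' s) / nm sg / Real.sqrt (Nq V q y *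
            Nq V' q y' * nm (cf₁ y y') * nm (cf₂ y y') / (nm a * nm a'))) * (nm D / nm E : ℝ) *
          (ρ y y' b b' s sg a a' D E F * SE A Bw (Mc y.2.2.1 y'.2.2.1) (pc y.2.2.1 y'.2.2.1)
            (Kr K q t (MM q t y y' b b' s) / nm sg) (Nq V q y * Nq V' q y' * nm (cf₁ y y') *
              nm (cf₂ y y') / (nm a * nm a')) af (wq q y) q (MM q t y y' b b' s) y sg
                (cf₂ y y') a a' D E F +
          (ρ y y' b b' s sg a a' D E F)⁻¹ * SE A Bw (Mc y.2.2.1 y'.2.2.1)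
            (fun m => conj (pc y.2.2.1 y'.2.2.1 m)) (Kr K q t (MM q t y y' b b' s) / nm sg)
            (Nq V q y * Nq V' q y' * nm (cf₁ y y') * nm (cf₂ y y') / (nm a * nm a')) af
              (wq' q y') q (MM q t y y' b b' s) y' sg (cf₁ y y') a' a D E F) else 0 := by
  have hqp := (SR_prim hq).1
  unfold MPTr
  refine Finset.sum_le_sum fun y hy => Finset.sum_le_sum fun y' hy' =>
    Finset.sum_le_sum fun b hb => Finset.sum_le_sum fun b' hb' => Finset.sum_le_sum fun s hs => ?_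
  obtain ⟨⟨x, hx, hxy⟩, hy1, hy2, hyc, hyg⟩ := mem_Ys' hJ hy
  obtain ⟨⟨x', hx', hxy'⟩, hy1', hy2', hyc', hyg'⟩ := mem_Ys' hJ hy'
  have hsp := ((mem_pdiv hqp.ne_zero).mp hs).1
  have hMp : IsPrim (MM q t y y' b b' s) := MM_prim hqp ht hy2 hy2' hy1.2.2.1 hy1'.2.2.1
    (SR_prim hb).1 (SR_prim hb').1 hsp
  by_cases hP : Pr y y' ∧ Cop (MM q t y y' b b' s) y y' ∧
          (nm (MM q t y y' b b' s * q ^ 2 * t ^ 3) : ℝ) ≤ b₀ * K
  · rw [if_pos hP]
    have hn1 : (nm y.1 : ℝ) ≤ Z := hxy ▸ hJ1 x hx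
    have hn1' : (nm y'.1 : ℝ) ≤ Z := hxy' ▸ hJ1 x' hx'
    have hn2 : (nm y.2.2.2 : ℝ) ≤ Z := ((mem_S hR0).1 hyg).1.trans hRZ
    have hn2' : (nm y'.2.2.2 : ℝ) ≤ Z := ((mem_S hR0).1 hyg').1.trans hRZ
    obtain ⟨c1, c2⟩ := nm_cf_le ⟨hy1.1, hy1.2.2.1⟩ ⟨hy1'.1, hy1'.2.2.1⟩
    have hle : (nm (cf₁ y y') : ℝ) * nm (cf₂ y y') * R ≤ Z ^ 5 := by
      have d1 : (nm (cf₁ y y') : ℝ) ≤ Z * Z := c1.trans (by gcongr)
      have d2 : (nm (cf₂ y y') : ℝ) ≤ Z * Z := c2.trans (by gcongr)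
      calc (nm (cf₁ y y') : ℝ) * nm (cf₂ y y') * R ≤ (Z * Z) * (Z * Z) * Z := by gcongr
        _ = Z ^ 5 := by ring
    have key := MP1_le (A := A) (Bw := Bw) (V := V) (V' := V') (M := MM q t y y' b b' s) hA hB hT
      haf hJ hEE hK hR0 hR hV hV' hq ht hMp hy hy' hle hw hw'
      (ρ := fun sg a a' D E F => ρ y y' b b' s sg a a' D E F)
      (fun sg a a' D E F => hρ y y' b b' s sg a a' D E F)
    refine (mul_le_mul_of_nonneg_left key (pf_nonneg hK.le y y')).trans (le_of_eq ?_)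
    simp only [Finset.mul_sum]
    refine Finset.sum_congr rfl fun sg _ => Finset.sum_congr rfl fun a _ =>
      Finset.sum_congr rfl fun a' _ => Finset.sum_congr rfl fun D _ => Finset.sum_congr rfl
      fun E _ => Finset.sum_congr rfl fun F _ => ?_
    by_cases hc : CO EE q y y' D F
    · rw [if_pos hc, if_pos ⟨hP, hc⟩]
      ring
    · rw [if_neg hc, if_neg (fun h => hc h.2), mul_zero]
  · rw [if_neg hP]
    refine (Finset.sum_eq_zero fun sg _ => Finset.sum_eq_zero fun a _ => Finset.sum_eq_zero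
      fun a' _ => Finset.sum_eq_zero fun D _ => Finset.sum_eq_zero fun E _ => Finset.sum_eq_zero
      fun F _ => ?_).symm.le
    rw [if_neg (fun h => hP h.1)]

end

end Crest.Agent.R017.E3T1579
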