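import Crest.Agent.R017.E3Ue_829

/-!
# Row 17, R8 (E3), the fibre sums (helper829)

* `fib_wV`, `fib_val` : all pairs, pairs with `e' ∈ EEf e`
* `extL`, `val_extL_le`, `fib_L` : the term `L` of the large sieve
-/

set_option autoImplicit false
set_option linter.unusedVariables false

noncomputable section

open Finset
open scoped Classical ComplexConjugate

namespace Crest.Agent.R017.E3T829

open Crest.Agent.R012 Crest.Agent.R012.Eis Crest.Agent.R012.Div277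
open Crest.Agent.R012.LS2 (S mem_S bl mem_bl)
open Crest.Agent.R012.Mob705 (pdiv mem_pdiv)
open Crest.Agent.R017.DgA829 (lc)
open Crest.Agent.R017.DgB829 (HS HS_nonneg HS_le)
open Crest.Agent.R017.E1551 (nmpos)
open Crest.Agent.R017.E3A164 (Cs mem_Cs fq)
open Crest.Agent.R017.GrB829 (IsC)
open Crest.Agent.R017.E3Sr290 (CellD cellOf Fac exists_fac)
open Crest.Agent.R017.E3Sj290 (nL Fac_ls Fac_lsY cell_ratio_nonneg one_le_nm')

open Cd (Pde)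

lemma VS_change {Z : ℝ} {EE EE' : Finset Eis} {q d g D : Eis} {v : VT}
    (h : v ∈ VS Z EE q d g D) (h' : v.2.1 ∈ EE') : v ∈ VS Z EE' q d g D := by
  unfold VS at h ⊢
  simp only [mem_product] at h ⊢
  exact ⟨h.1, h', h.2.2⟩

/-- **the fibre sums of the weights** -/
theorem fib_wV {ε : ℝ} (hε : 0 < ε) : ∃ C : ℝ, 0 ≤ C ∧ ∀ Z : ℝ, 1 ≤ Z →
    ∀ (EE : Finset Eis) (EEf : Eis → Finset Eis) {ι : Type} (O : Finset ι) (x : ι → Cd),
      (∀ i ∈ O, (x i).OK Z EE) → (∀ i ∈ O, (x i).e' ∈ EEf (x i).e) →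
      (∀ i ∈ O, ∀ j ∈ O, (x i).U = (x j).U → (x i).V = (x j).V → i = j) →
      ∀ u : UT, ∑ i ∈ O.filter (fun i => (x i).U = u), wV (x i).g (x i).d (x i).a (x i).V ≤
        C * Z ^ ε * hE (EEf u.2.1) := by
  obtain ⟨C, hC, h⟩ := sum_V hε
  refine ⟨C, hC, ?_⟩
  intro Z hZ EE EEf ι O x hOK hEE inj u
  have hZ0 : 0 < Z := by linarith
  have h0 : 0 ≤ C * Z ^ ε * hE (EEf u.2.1) := mul_nonneg (by positivity) (hE_nonneg _)
  by_cases hne : (O.filter (fun i => (x i).U = u)).Nonempty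
  swap
  · rw [not_nonempty_iff_eq_empty] at hne
    rw [hne, sum_empty]
    exact h0
  obtain ⟨i₀, hi₀⟩ := hne
  obtain ⟨hi1, hi2⟩ := mem_filter.mp hi₀
  have hk := (hOK i₀ hi1)
  have ho := hk.OU
  rw [hi2] at ho
  have key := h Z hZ (EEf u.2.1) u.2.2.1 u.1 u.2.2.2.2.1 u.2.2.2.2.2.1 u.2.2.2.2.2.2.1
    ho.q.ne_zero ho.d.ne_zero ho.g.ne_zero ho.a.ne_zero ho.D.ne_zero ho.nq ho.nd ho.ng ho.na ho.nD
  refine le_trans ?_ key
  have e1 : ∑ i ∈ O.filter (fun i => (x i).U = u), wV (x i).g (x i).d (x i).a (x i).V =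
      ∑ v ∈ (O.filter (fun i => (x i).U = u)).image (fun i => (x i).V),
        wV u.2.2.2.2.1 u.1 u.2.2.2.2.2.1 v := by
    rw [sum_image]
    · refine sum_congr rfl fun i hi => ?_
      have := (mem_filter.mp hi).2
      rw [← this]
      rfl
    · intro i hi j hj hV
      obtain ⟨a1, a2⟩ := mem_filter.mp hi
      obtain ⟨b1, b2⟩ := mem_filter.mp hj
      exact inj i a1 j b1 (a2.trans b2.symm) hV
  rw [e1]
  refine sum_le_sum_of_subset_of_nonneg ?_ fun v _ _ => wV_nonneg _ _ _ v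
  intro v hv
  obtain ⟨i, hi, rfl⟩ := mem_image.mp hv
  obtain ⟨a1, a2⟩ := mem_filter.mp hi
  have h1 := (hOK i a1).VS
  rw [a2] at h1
  refine VS_change h1 ?_
  have h2 := hEE i a1
  have h3 : (x i).e = u.2.1 := by rw [← a2]; rfl
  rw [h3] at h2
  exact h2

namespace Cd

variable {x : Cd} {Z : ℝ} {EE : Finset Eis}

lemma OK.cell_pos (h : x.OK Z EE) {K V V' H X : ℝ} (hK : 0 < K) (hV : 0 < V) (hV' : 0 < V')
    (hH : 0 < H) (hX : 0 < X) :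
    0 < (x.cell K V V' H X x.xk).L0 ∧ 0 < (x.cell K V V' H X x.xk).Lt ∧
      0 < (x.cell K V V' H X x.xk).Y ∧ 0 < nL (x.cell K V V' H X x.xk) ∧
      0 < (x.cell K V V' H X x.xk).Z := by
  obtain ⟨nq, nt, nd, ne, nc, ng, nd', ne', nc', ng', nD, nE, nF⟩ := h.np
  obtain ⟨f, hf⟩ := h.xk_spec
  have hVc : 0 < V / nm x.c := by positivity
  have hVc' : 0 < V' / nm x.c' := by positivity
  have key := cell_ratio_nonneg f (h.prim h.g) (h.prim h.d) h.a' h.eN hK hVc hVc' hH nq nt nD nE nF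
    hX
  have e1 : x.cell K V V' H X x.xk = cellOf K (V / nm x.c) (V' / nm x.c') H (nm x.q) (nm x.t)
    (nm x.D) (nm x.E) (nm x.F) X x.M x.g x.g' x.d x.d' x.a x.a' x.r f.xk := by
    rw [hf]; rfl
  rw [e1]
  refine ⟨key.1, key.2.1, key.2.2.1, key.2.2.2, ?_⟩
  unfold cellOf CellD.Z
  simp only
  positivity

lemma OK.fac_nonneg (h : x.OK Z EE) {K V V' H X : ℝ} (hK : 0 < K) (hV : 0 < V) (hV' : 0 < V')
    (hH : 0 < H) (hX : 0 < X) : 0 ≤ x.fac K V V' H X := by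
  obtain ⟨h1, h2, h3, -, h5⟩ := h.cell_pos hK hV hV' hH hX
  unfold Cd.fac
  exact mul_nonneg (mul_nonneg (Real.rpow_nonneg h5.le _)
    (Real.rpow_nonneg (div_nonneg h1.le h2.le) _)) h3.le

lemma OK.val_nonneg (h : x.OK Z EE) {K V V' H rv X : ℝ} (hK : 0 < K) (hV : 0 < V) (hV' : 0 < V')
    (hH : 0 < H) (hrv : 0 < rv) (hX : 0 < X) : 0 ≤ x.val K V V' H rv X x.xk := by
  rw [← val_eq]
  exact mul_nonneg (mul_nonneg (om0_nonneg h hK.le hV.le hV'.le) (rho_pos h hrv).le)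
    (h.fac_nonneg hK hV hV' hH hX)

end Cd

/-- **the fibre sums of the values** -/
theorem fib_val {ε : ℝ} (hε : 0 < ε) : ∃ C : ℝ, 0 ≤ C ∧ ∀ Z : ℝ, 1 ≤ Z →
    ∀ (EE : Finset Eis) (EEf : Eis → Finset Eis) {ι : Type} (O : Finset ι) (x : ι → Cd)
      (K V V' rv X : ℝ) (H : Cd → ℝ) (Q : Eis → ℝ) (ext : Cd → ℝ) (Bx : ℝ),
      0 < K → 0 < V → 0 < V' → 0 < rv → 0 < X → (∀ i ∈ O, 0 < H (x i)) → (∀ d, 0 ≤ Q d) →
      (∀ i ∈ O, rv * ((H (x i)) ^ (-(1 / 3) : ℝ) * (V * V') ^ (-(1 / 6) : ℝ)) ≤ Q (x i).d) →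
      0 ≤ Bx → (∀ i ∈ O, ext (x i) ≤ Bx) →
      (∀ i ∈ O, (x i).OK Z EE) → (∀ i ∈ O, (x i).e' ∈ EEf (x i).e) →
      (∀ i ∈ O, ∀ j ∈ O, (x i).U = (x j).U → (x i).V = (x j).V → i = j) →
      ∀ u : UT, ∑ i ∈ O.filter (fun i => (x i).U = u),
        (x i).val K V V' (H (x i)) rv X (x i).xk * ext (x i) ≤
        C * Z ^ ε * hE (EEf u.2.1) * Bx * Pde K Q u.1 u.2.1 := by
  obtain ⟨C, hC, h⟩ := fib_wV hε
  refine ⟨C, hC, ?_⟩
  intro Z hZ EE EEf ι O x K V V' rv X H Q ext Bx hK hV hV' hrv hX hH hQ0 hQ hB hext hOK hEE inj u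
  have key := h Z hZ EE EEf O x hOK hEE inj u
  have hP := Cd.Pde_nonneg hK.le hQ0 u.1 u.2.1
  calc ∑ i ∈ O.filter (fun i => (x i).U = u),
        (x i).val K V V' (H (x i)) rv X (x i).xk * ext (x i)
      ≤ ∑ i ∈ O.filter (fun i => (x i).U = u), (Bx * Pde K Q u.1 u.2.1) *
        wV (x i).g (x i).d (x i).a (x i).V := by
        refine sum_le_sum fun i hi => ?_
        obtain ⟨a1, a2⟩ := mem_filter.mp hi
        obtain ⟨f, hf⟩ := (hOK i a1).xk_spec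
        have h1 := (hOK i a1).val_le Q hK hV hV' (hH i a1) hrv.le hX (hQ i a1) f
        rw [← hf] at h1
        have h2 := (hOK i a1).val_nonneg hK hV hV' (hH i a1) hrv hX
        have h3 : (x i).U.1 = u.1 := by rw [a2]
        have h4 : (x i).U.2.1 = u.2.1 := by rw [a2]
        rw [h3, h4] at h1
        calc (x i).val K V V' (H (x i)) rv X (x i).xk * ext (x i)
            ≤ (x i).val K V V' (H (x i)) rv X (x i).xk * Bx :=
              mul_le_mul_of_nonneg_left (hext i a1) h2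
          _ ≤ (Pde K Q u.1 u.2.1 * wV (x i).U.2.2.2.2.1 (x i).U.1 (x i).U.2.2.2.2.2.1 (x i).V) * Bx :=
              mul_le_mul_of_nonneg_right (by rw [h3]; exact h1) hB
          _ = _ := by
            change (Pde K Q u.1 u.2.1 * wV (x i).g (x i).d (x i).a (x i).V) * Bx = _
            ring
    _ = (Bx * Pde K Q u.1 u.2.1) * ∑ i ∈ O.filter (fun i => (x i).U = u),
        wV (x i).g (x i).d (x i).a (x i).V := by rw [mul_sum]
    _ ≤ (Bx * Pde K Q u.1 u.2.1) * (C * Z ^ ε * hE (EEf u.2.1)) :=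
        mul_le_mul_of_nonneg_left key (mul_nonneg hB hP)
    _ = _ := by ring

/-! ### the term `L` of the large sieve -/

namespace Cd

/-- the relative weight of the term `L` -/
def extL (x : Cd) (K V V' H X : ℝ) : ℝ :=
  nL (x.cell K V V' H X x.xk) / (((x.cell K V V' H X x.xk).L0 /
    (x.cell K V V' H X x.xk).Lt) ^ (1 / 3 : ℝ) * (x.cell K V V' H X x.xk).Y)

/-- the weight of the variables of the other side for the term `L` -/
def wL (x : Cd) : ℝ :=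
  nm x.t * (nm x.d * nm x.g / (nm x.d' ^ 2 * nm x.g')) * (nm x.e' : ℝ)⁻¹

lemma wL_nonneg (x : Cd) : 0 ≤ x.wL := by unfold wL; positivity

variable {x : Cd} {Z : ℝ} {EE : Finset Eis}

lemma real_L {t d g gam kap ag g3 e1 ad d3 b2 a' D : ℝ} (ht : 0 < t) (hd : 0 < d) (hg : 0 < g)
    (h1 : 1 ≤ gam) (h2 : 1 ≤ kap) (h3 : 1 ≤ ag) (h4 : 1 ≤ g3) (h5 : 1 ≤ e1) (h6 : 1 ≤ ad)
    (h7 : 1 ≤ d3) (h8 : 1 ≤ b2) (h9 : 1 ≤ a') (h10 : 1 ≤ D) :
    t⁻¹ * ((e1 * (ad * d3))⁻¹ * g3⁻¹ * b2⁻¹) *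
      (d * g * t ^ 2 * b2 / (a' * D * e1 ^ 2 * ad * d3 * gam ^ 2 * kap ^ 2 * ag)) ≤
    t * (d * g / ((e1 * (ad * d3)) ^ 2 * (gam * kap * (ag * g3)))) := by
  have p1 : 0 < gam := by linarith
  have p2 : 0 < kap := by linarith
  have p3 : 0 < ag := by linarith
  have p4 : 0 < g3 := by linarith
  have p5 : 0 < e1 := by linarith
  have p6 : 0 < ad := by linarith
  have p7 : 0 < d3 := by linarith
  have p8 : 0 < b2 := by linarith
  have p9 : 0 < a' := by linarith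
  have p10 : 0 < D := by linarith
  have e : t⁻¹ * ((e1 * (ad * d3))⁻¹ * g3⁻¹ * b2⁻¹) *
      (d * g * t ^ 2 * b2 / (a' * D * e1 ^ 2 * ad * d3 * gam ^ 2 * kap ^ 2 * ag)) =
      (t * (d * g / ((e1 * (ad * d3)) ^ 2 * (gam * kap * (ag * g3))))) *
        (1 / (a' * D * e1 * gam * kap)) := by
    field_simp
  rw [e]
  have h11 : 1 ≤ a' * D * e1 * gam * kap := by
    have k1 : 1 ≤ a' * D := by nlinarith
    have k2 : 1 ≤ a' * D * e1 := by nlinarith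
    have k3 : 1 ≤ a' * D * e1 * gam := by nlinarith
    nlinarith
  refine mul_le_of_le_one_right (by positivity) ?_
  rw [div_le_one (by positivity)]
  exact h11

/-- **the term `L` of one cell** -/
theorem OK.val_extL_le (h : x.OK Z EE) {K V V' H rv X : ℝ} (Q : Eis → ℝ) (hK : 0 < K)
    (hV : 0 < V) (hV' : 0 < V') (hH : 0 < H) (hrv : 0 < rv) (hX : 0 < X)
    (hQ : rv * (H ^ (-(1 / 3) : ℝ) * (V * V') ^ (-(1 / 6) : ℝ)) ≤ Q x.d) :
    x.val K V V' H rv X x.xk * x.extL K V V' H X ≤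
      Pde K Q x.d x.e * ((H * (V / V')) ^ (1 / 3 : ℝ) * (V' / K)) * x.wL := by
  obtain ⟨nq, nt, nd, ne, nc, ng, nd', ne', nc', ng', nD, nE, nF⟩ := h.np
  obtain ⟨f, hf⟩ := h.xk_spec
  have hVc : 0 < V / nm x.c := by positivity
  have hVc' : 0 < V' / nm x.c' := by positivity
  obtain ⟨c1, c2, c3, c4, c5⟩ := h.cell_pos hK hV hV' hH hX
  have e0 : x.cell K V V' H X x.xk = cellOf K (V / nm x.c) (V' / nm x.c') H (nm x.q) (nm x.t)
    (nm x.D) (nm x.E) (nm x.F) X x.M x.g x.g' x.d x.d' x.a x.a' x.r f.xk := by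
    rw [hf]; rfl
  -- the two exact values
  have v1 := f.cell_eq (h.prim h.g) (h.prim h.d) h.a' h.eN hK hVc hVc' hH nq nt nD nE nF hX
  have v2 := (Fac_ls f (h.prim h.g) (h.prim h.d) h.a' h.eN hK hVc hVc' hH nq nt nD nE nF hX).2
  have e1 : x.val K V V' H rv X x.xk = (nm x.e / nm x.e' : ℝ) * (rv *
      (K ^ (2 / 3 : ℝ) * H ^ (-(1 / 3) : ℝ) * ((V / nm x.c) * (V' / nm x.c')) ^ (-(1 / 6) : ℝ) *
        (nm x.t : ℝ)⁻¹ * ((nm x.d : ℝ) ^ (2 / 3 : ℝ) * (nm x.d' : ℝ)⁻¹ * (nm f.g3 : ℝ)⁻¹ *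
          (nm f.b2 : ℝ)⁻¹))) := by
    rw [← v1]
    unfold val
    rw [e0]
  have e2 : x.extL K V V' H X = (H * ((V / nm x.c) / (V' / nm x.c'))) ^ (1 / 3 : ℝ) *
      ((V' / nm x.c') * nm x.d * nm x.g / K) * (nm x.t : ℝ) ^ 2 * nm f.b2 /
          (nm x.a' * nm x.D * (nm f.e1 : ℝ) ^ 2 * nm f.ad * nm f.d3 * (nm f.gam : ℝ) ^ 2 *
            (nm f.kap : ℝ) ^ 2 * nm f.ag) := by
    unfold extL
    rw [e0] at c1 c2 c3 c4 ⊢
    rw [v2]
    exact mul_div_cancel_left₀ _ (mul_pos (Real.rpow_pos_of_pos (div_pos c1 c2) _) c3).ne'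
  have eg' : (nm x.g' : ℝ) = nm f.gam * nm f.kap * (nm f.ag * nm f.g3) := by
    conv_lhs => rw [f.hg', nm_mul, nm_mul, nm_mul]
    push_cast; ring
  have ed' : (nm x.d' : ℝ) = nm f.e1 * (nm f.ad * nm f.d3) := by
    conv_lhs => rw [f.hd', nm_mul, nm_mul]
    push_cast; ring
  have hr := real_L nt nd ng (one_le_nm' f.pgam) (one_le_nm' f.pkap) (one_le_nm' f.pag)
    (one_le_nm' f.pg3) (one_le_nm' f.pe1) (one_le_nm' f.pad) (one_le_nm' f.pd3)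
    (one_le_nm' f.pb2) (one_le_nm' h.a') (one_le_nm' (h.prim h.D))
  rw [← eg', ← ed'] at hr
  -- the constants
  have hc1 : (1 : ℝ) ≤ nm x.c := by exact_mod_cast (nm_c_le h.c).1
  have hc1' : (1 : ℝ) ≤ nm x.c' := by exact_mod_cast (nm_c_le h.c').1
  have hc3 : (V / nm x.c * (V' / nm x.c')) ^ (-(1 / 6) : ℝ) ≤
      3 * (V * V') ^ (-(1 / 6) : ℝ) := by
    have h9 : (nm x.c : ℝ) ≤ 9 := by exact_mod_cast (nm_c_le h.c).2
    have h9' : (nm x.c' : ℝ) ≤ 9 := by exact_mod_cast (nm_c_le h.c').2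
    have e1 : V / nm x.c * (V' / nm x.c') = (V * V') / (nm x.c * nm x.c') := by
      field_simp
    have hcc : (0 : ℝ) < nm x.c * nm x.c' := by positivity
    have hvv : 0 < V * V' := by positivity
    rw [e1, Real.div_rpow hvv.le hcc.le, div_eq_mul_inv, ← Real.rpow_neg hcc.le, mul_comm]
    refine mul_le_mul_of_nonneg_right ?_ (Real.rpow_nonneg hvv.le _)
    calc (nm x.c * nm x.c' : ℝ) ^ (-(-(1 / 6) : ℝ)) ≤ (9 * 9 : ℝ) ^ (-(-(1 / 6) : ℝ)) :=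
          Real.rpow_le_rpow hcc.le (mul_le_mul h9 h9' nc'.le (by norm_num)) (by norm_num)
      _ ≤ (9 * 9 : ℝ) ^ (1 / 4 : ℝ) := Real.rpow_le_rpow_of_exponent_le (by norm_num) (by norm_num)
      _ = 3 := by
        rw [show (9 * 9 : ℝ) = 3 ^ (4 : ℝ) by norm_num, ← Real.rpow_mul (by norm_num)]
        norm_num
  have hc4 : (H * ((V / nm x.c) / (V' / nm x.c'))) ^ (1 / 3 : ℝ) * (V' / nm x.c') ≤
      (H * (V / V')) ^ (1 / 3 : ℝ) * V' := by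
    have e3 : H * ((V / nm x.c) / (V' / nm x.c')) = (H * (V / V')) * (nm x.c' / nm x.c) := by
      field_simp
    rw [e3, Real.mul_rpow (by positivity) (by positivity)]
    have h5 : (nm x.c' / nm x.c : ℝ) ^ (1 / 3 : ℝ) ≤ nm x.c' := by
      calc (nm x.c' / nm x.c : ℝ) ^ (1 / 3 : ℝ) ≤ (nm x.c' : ℝ) ^ (1 / 3 : ℝ) :=
            Real.rpow_le_rpow (by positivity) (div_le_self nc'.le hc1) (by norm_num)
        _ ≤ (nm x.c' : ℝ) ^ (1 : ℝ) := Real.rpow_le_rpow_of_exponent_le hc1' (by norm_num)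
        _ = _ := Real.rpow_one _
    calc (H * (V / V')) ^ (1 / 3 : ℝ) * (nm x.c' / nm x.c : ℝ) ^ (1 / 3 : ℝ) * (V' / nm x.c')
        ≤ (H * (V / V')) ^ (1 / 3 : ℝ) * (nm x.c' : ℝ) * (V' / nm x.c') := by gcongr
      _ = _ := by field_simp
  rw [e1, e2]
  have hwL : x.wL = nm x.t * (nm x.d * nm x.g / (nm x.d' ^ 2 * nm x.g')) * (nm x.e' : ℝ)⁻¹ := rfl
  rw [hwL]
  set T1 := (nm x.t : ℝ)⁻¹ * ((nm x.d' : ℝ)⁻¹ * (nm f.g3 : ℝ)⁻¹ * (nm f.b2 : ℝ)⁻¹) *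
      (nm x.d * nm x.g * (nm x.t : ℝ) ^ 2 * nm f.b2 / (nm x.a' * nm x.D * (nm f.e1 : ℝ) ^ 2 *
        nm f.ad * nm f.d3 * (nm f.gam : ℝ) ^ 2 * (nm f.kap : ℝ) ^ 2 * nm f.ag)) with hT1
  have hT10 : 0 ≤ T1 := by positivity
  set A6 := (V / nm x.c * (V' / nm x.c')) ^ (-(1 / 6) : ℝ) with hA6
  set B3 := (H * ((V / nm x.c) / (V' / nm x.c'))) ^ (1 / 3 : ℝ) * (V' / nm x.c') with hB3
  have hB30 : 0 ≤ B3 := by positivity
  have hK3 : 0 ≤ K ^ (2 / 3 : ℝ) := by positivity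
  calc (nm x.e / nm x.e' : ℝ) * (rv *
      (K ^ (2 / 3 : ℝ) * H ^ (-(1 / 3) : ℝ) * A6 *
        (nm x.t : ℝ)⁻¹ * ((nm x.d : ℝ) ^ (2 / 3 : ℝ) * (nm x.d' : ℝ)⁻¹ * (nm f.g3 : ℝ)⁻¹ *
          (nm f.b2 : ℝ)⁻¹))) * ((H * ((V / nm x.c) / (V' / nm x.c'))) ^ (1 / 3 : ℝ) *
      ((V' / nm x.c') * nm x.d * nm x.g / K) * (nm x.t : ℝ) ^ 2 * nm f.b2 /
          (nm x.a' * nm x.D * (nm f.e1 : ℝ) ^ 2 * nm f.ad * nm f.d3 * (nm f.gam : ℝ) ^ 2 *
            (nm f.kap : ℝ) ^ 2 * nm f.ag))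
      = ((nm x.e / nm x.e' : ℝ) * K ^ (2 / 3 : ℝ) * (nm x.d : ℝ) ^ (2 / 3 : ℝ) / K) *
          (rv * (H ^ (-(1 / 3) : ℝ) * A6)) * B3 * T1 := by
        rw [hB3, hT1]
        ring
    _ ≤ ((nm x.e / nm x.e' : ℝ) * K ^ (2 / 3 : ℝ) * (nm x.d : ℝ) ^ (2 / 3 : ℝ) / K) *
          (3 * Q x.d) * ((H * (V / V')) ^ (1 / 3 : ℝ) * V') *
          (nm x.t * (nm x.d * nm x.g / (nm x.d' ^ 2 * nm x.g'))) := by
        have k1 : rv * (H ^ (-(1 / 3) : ℝ) * A6) ≤ 3 * Q x.d := by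
          calc rv * (H ^ (-(1 / 3) : ℝ) * A6) ≤
              rv * (H ^ (-(1 / 3) : ℝ) * (3 * (V * V') ^ (-(1 / 6) : ℝ))) := by gcongr
            _ = 3 * (rv * (H ^ (-(1 / 3) : ℝ) * (V * V') ^ (-(1 / 6) : ℝ))) := by ring
            _ ≤ _ := by linarith
        have hQ0 : 0 ≤ Q x.d := le_trans (by positivity) hQ
        gcongr
    _ = _ := by
        unfold Pde
        ring

end Cd

end Crest.Agent.R017.E3T829
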