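import Crest.Agent.R017.E3Su_290
import Crest.Agent.R017.E3Ss_290
import Crest.Agent.R017.E3Uf_829
import Crest.Agent.R017.E3T1_579

/-!
# Row 17, block C70, leaf E3 (S-sum), (CELL) part 5 (helper290): one side of one cell

* `RH_sep` : the bound `RH` against the factor of a cell, terms separated
* `DT_le_TQ` : the sums over all frequencies, split as `μ γ³`
* `cell_UF` : one side of one cell
-/

set_option autoImplicit false

noncomputable section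

open Complex MeasureTheory
open scoped ComplexConjugate Classical

namespace Crest.Agent.R017.E3Sv290

open Crest.Agent.R012 Crest.Agent.R012.Eis Crest.Agent.R012.MC
open Crest.Agent.R012.LS2 (S mem_S bl mem_bl)
open Crest.Agent.R012.Div277 (dvs mem_dvs)
open Crest.Agent.R012.Mob705 (mu pdiv mem_pdiv)
open Crest.Agent.R012.NonCube52 (kv kc kc_spec kc_nm)
open Crest.Agent.R017.CM106 (CS TG FS)
open Crest.Agent.R017.BD829 (TT EQ EQ_nonneg Wl Win WB_eq_Wl lmB)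
open Crest.Agent.R017.E3D579 (uS bF)
open Crest.Agent.R017.E3Sd579 (pS)
open Crest.Agent.R017.E3Sp579 (UE)
open Crest.Agent.R017.E3T1579 (UF)
open Crest.Agent.R017.E3T829 (Cd TQ bu UT)
open Crest.Agent.R017.E1551 (nmpos)
open Crest.Agent.R017.Mode405 (DT DT_nonneg)
open Crest.Agent.R017.E3Sr290 (CellD cellOf Fac)
open Crest.Agent.R017.E3Sj290 (nL)
open Crest.Agent.R017.E3Sm290 Crest.Agent.R017.E3So290 Crest.Agent.R017.E3Su290

/-- the relative weight of the term `L` -/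
def xL (c : CellD) : ℝ := nL c / ((c.L0 / c.Lt) ^ (1 / 3 : ℝ) * c.Y)

/-- the relative weight of the term `(L Y) ^ (2/3)` -/
def xLS (c : CellD) : ℝ := (nL c * c.Y) ^ (2 / 3 : ℝ) / ((c.L0 / c.Lt) ^ (1 / 3 : ℝ) * c.Y)

/-- the factor of a cell -/
def fc (c : CellD) : ℝ := c.Z ^ (-(1 / 3) : ℝ) * (c.L0 / c.Lt) ^ (1 / 3 : ℝ) * c.Y

/-- the bound of the modes, terms separated -/
theorem RH_sep {c : CellD} {P X0 T R1 lam k mc cs : ℝ} (hY : 0 < c.Y) (hLt : 0 < c.Lt)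
    (hL0 : 0 < c.L0) (hnl : 0 < nL c) (hP : 0 < P) (hZ : c.Z = P * c.Y) (hcs : 1 ≤ cs)
    (hmc : 1 ≤ mc) (hk : mc ≤ k) (hT : 0 ≤ T) (hR1 : 0 ≤ R1)
    (hlam : lam = mc * nL c) (hX0 : lam * X0 = k * c.L0) :
    P ^ (-(1 / 3) : ℝ) * RH (cs * c.Y) c.Lt X0 T R1 lam ≤
      cs * k * (fc c * ((1 + xL c + xLS c) * T + R1 / c.Y)) := by
  have hk1 : 1 ≤ k := hmc.trans hk
  have hk0 : 0 ≤ k := by linarith
  have hcs0 : 0 ≤ cs := by linarith
  set ρ : ℝ := (c.L0 / c.Lt) ^ (1 / 3 : ℝ) with hρ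
  have hρ0 : 0 < ρ := Real.rpow_pos_of_pos (div_pos hL0 hLt) _
  have e2 : lam * X0 / c.Lt = k * (c.L0 / c.Lt) := by rw [hX0]; ring
  have e3 : (lam * X0 / c.Lt) ^ (1 / 3 : ℝ) ≤ k * ρ := by
    rw [e2, Real.mul_rpow hk0 (div_nonneg hL0.le hLt.le)]
    refine mul_le_mul_of_nonneg_right ?_ hρ0.le
    calc k ^ (1 / 3 : ℝ) ≤ k ^ (1 : ℝ) := Real.rpow_le_rpow_of_exponent_le hk1 (by norm_num)
      _ = k := Real.rpow_one k
  have hlam0 : 0 ≤ lam := by rw [hlam]; positivity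
  -- the length
  have e1 : (cs * c.Y) ^ (-(1 / 3) : ℝ) ≤ c.Y ^ (-(1 / 3) : ℝ) :=
    Real.rpow_le_rpow_of_nonpos hY (le_mul_of_one_le_left hY.le hcs) (by norm_num)
  have e1' : P ^ (-(1 / 3) : ℝ) * c.Y ^ (-(1 / 3) : ℝ) = c.Z ^ (-(1 / 3) : ℝ) := by
    rw [← Real.mul_rpow hP.le hY.le, hZ]
  have hP3 : 0 ≤ P ^ (-(1 / 3) : ℝ) := by positivity
  have hZ3 : 0 ≤ c.Z ^ (-(1 / 3) : ℝ) := by rw [← e1']; positivity
  have e5 : (lam * (cs * c.Y)) ^ (2 / 3 : ℝ) ≤ cs * (k * (nL c * c.Y) ^ (2 / 3 : ℝ)) := by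
    have h1 : lam * (cs * c.Y) = (cs * mc) * (nL c * c.Y) := by rw [hlam]; ring
    have hcm : 1 ≤ cs * mc := by nlinarith
    rw [h1, Real.mul_rpow (by positivity) (by positivity), ← mul_assoc]
    refine mul_le_mul_of_nonneg_right ?_ (by positivity)
    calc (cs * mc) ^ (2 / 3 : ℝ) ≤ (cs * mc) ^ (1 : ℝ) :=
          Real.rpow_le_rpow_of_exponent_le hcm (by norm_num)
      _ = cs * mc := Real.rpow_one _
      _ ≤ cs * k := mul_le_mul_of_nonneg_left hk hcs0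
  have e6 : lam ≤ cs * (k * nL c) := by
    rw [hlam]
    calc mc * nL c ≤ k * nL c := mul_le_mul_of_nonneg_right hk hnl.le
      _ ≤ cs * (k * nL c) := le_mul_of_one_le_left (by positivity) hcs
  have e7 : min 1 (lam * X0 / c.Lt) * (lam + (lam * (cs * c.Y)) ^ (2 / 3 : ℝ)) ≤
      cs * k * (nL c + (nL c * c.Y) ^ (2 / 3 : ℝ)) := by
    have h0 : 0 ≤ lam + (lam * (cs * c.Y)) ^ (2 / 3 : ℝ) := by positivity
    refine (mul_le_of_le_one_left h0 (min_le_left _ _)).trans ?_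
    calc _ ≤ cs * (k * nL c) + cs * (k * (nL c * c.Y) ^ (2 / 3 : ℝ)) := add_le_add e6 e5
      _ = _ := by ring
  have e4 : (lam * X0 / c.Lt) ^ (1 / 3 : ℝ) * (cs * c.Y) ≤ cs * k * (ρ * c.Y) := by
    calc _ ≤ (k * ρ) * (cs * c.Y) := mul_le_mul_of_nonneg_right e3 (by positivity)
      _ = _ := by ring
  have e8 : (lam * X0 / c.Lt) ^ (1 / 3 : ℝ) * R1 ≤ cs * k * (ρ * R1) := by
    calc _ ≤ (k * ρ) * R1 := mul_le_mul_of_nonneg_right e3 hR1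
      _ ≤ cs * ((k * ρ) * R1) := le_mul_of_one_le_left (by positivity) hcs
      _ = _ := by ring
  unfold RH
  have hin : 0 ≤ ((lam * X0 / c.Lt) ^ (1 / 3 : ℝ) * (cs * c.Y) +
      min 1 (lam * X0 / c.Lt) * (lam + (lam * (cs * c.Y)) ^ (2 / 3 : ℝ))) * T +
      (lam * X0 / c.Lt) ^ (1 / 3 : ℝ) * R1 := by
    have h1 : 0 ≤ lam * X0 / c.Lt := by rw [e2]; positivity
    positivity
  calc P ^ (-(1 / 3) : ℝ) * ((cs * c.Y) ^ (-(1 / 3) : ℝ) *
        (((lam * X0 / c.Lt) ^ (1 / 3 : ℝ) * (cs * c.Y) +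
          min 1 (lam * X0 / c.Lt) * (lam + (lam * (cs * c.Y)) ^ (2 / 3 : ℝ))) * T +
          (lam * X0 / c.Lt) ^ (1 / 3 : ℝ) * R1))
      ≤ P ^ (-(1 / 3) : ℝ) * (c.Y ^ (-(1 / 3) : ℝ) *
        ((cs * k * (ρ * c.Y) + cs * k * (nL c + (nL c * c.Y) ^ (2 / 3 : ℝ))) * T +
          cs * k * (ρ * R1))) := by
        refine mul_le_mul_of_nonneg_left (mul_le_mul e1 ?_ hin (by positivity)) hP3
        exact add_le_add (mul_le_mul_of_nonneg_right (add_le_add e4 e7) hT) e8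
    _ = c.Z ^ (-(1 / 3) : ℝ) * ((cs * k * (ρ * c.Y) + cs * k * (nL c +
          (nL c * c.Y) ^ (2 / 3 : ℝ))) * T + cs * k * (ρ * R1)) := by rw [← mul_assoc, e1']
    _ = _ := by
        unfold fc xL xLS
        rw [← hρ]
        field_simp
        ring

/-! ### the sums over all frequencies -/

/-- a primary element is `μ γ³` with `γ` the primary cube part -/
lemma exists_mg {n : Eis} (hn : IsPrim n) : ∃ z : Eis × Eis, IsPrim z.1 ∧ IsPrim z.2 ∧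
    n = z.1 * z.2 ^ 3 ∧ nm z.2 = nm (kc n).2 := by
  have hn0 := hn.ne_zero
  obtain ⟨-, h2, h3, -⟩ := kc_spec hn0
  obtain ⟨k, u, y, hu, hy, he⟩ := CharSum852.exists_decomp h2
  have hk : k = 0 := by
    by_contra hk
    have h4 : lam ∣ n := by
      rw [h3, he]
      exact ((((dvd_pow_self lam hk).mul_right (u * y)).trans
        (dvd_pow_self _ (by norm_num : (3 : ℕ) ≠ 0)))).mul_left _
    have h5 := Char766.IsPrim.coprime_pow_lam hn 1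
    rw [pow_one] at h5
    have h6 : IsUnit lam := h5.isUnit_of_dvd' h4 dvd_rfl
    rw [isUnit_iff, nm_lam] at h6
    omega
  subst hk
  rw [pow_zero, one_mul] at he
  refine ⟨(kv (kc n).1 * u ^ 3, y), ?_, hy, ?_, ?_⟩
  · refine IsPrim.of_mul_left (x := y ^ 3) ?_ (hy.pow 3)
    have : y ^ 3 * (kv (kc n).1 * u ^ 3) = n := by
      conv_rhs => rw [h3, he]
      ring
    rw [this]; exact hn
  · conv_lhs => rw [h3, he]
    ring
  · rw [he, nm_mul, isUnit_iff.mp hu, one_mul]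

/-- the pairs `(μ, γ)` with `μ γ³` prime to `r₁`, `nm (μ γ³) ≤ N₀` -/
def Nd (N₀ : ℝ) (r₁ : Eis) : Finset (Eis × Eis) :=
  ((primBall ⌊N₀⌋₊) ×ˢ (primBall ⌊N₀⌋₊)).filter
    (fun z => IsCoprime (z.1 * z.2 ^ 3) r₁ ∧ nm (z.1 * z.2 ^ 3) ≤ ⌊N₀⌋₊)

/-- the sum over all frequencies as a sum over `μ γ³` -/
lemma DT_le_TQ (s N₀ : ℝ) (b : Eis → ℂ) (r₁ : Eis) :
    DT s N₀ b r₁ ≤ ∑ z ∈ Nd N₀ r₁, (nm z.2 : ℝ) ^ (-s) * ‖CS b (z.1 * z.2 ^ 3)‖ ^ 2 := by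
  have hex : ∀ n : Eis, ∃ z : Eis × Eis, IsPrim n → IsPrim z.1 ∧ IsPrim z.2 ∧
      n = z.1 * z.2 ^ 3 ∧ nm z.2 = nm (kc n).2 := by
    intro n
    by_cases hn : IsPrim n
    · obtain ⟨z, hz⟩ := exists_mg hn
      exact ⟨z, fun _ => hz⟩
    · exact ⟨(0, 0), fun h => absurd h hn⟩
  choose φ hφ using hex
  have e1 : DT s N₀ b r₁ = ∑ n ∈ (primBall ⌊N₀⌋₊).filter (fun n => IsCoprime n r₁),
      (nm (φ n).2 : ℝ) ^ (-s) * ‖CS b ((φ n).1 * (φ n).2 ^ 3)‖ ^ 2 := by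
    unfold DT
    refine Finset.sum_congr (by ext; simp) fun n hn => ?_
    rw [Finset.mem_filter, mem_primBall] at hn
    obtain ⟨-, -, h3, h4⟩ := hφ n hn.1.2
    rw [h4, ← h3]
  rw [e1, ← Finset.sum_image (f := fun z : Eis × Eis => (nm z.2 : ℝ) ^ (-s) *
    ‖CS b (z.1 * z.2 ^ 3)‖ ^ 2) (g := φ)]
  · refine Finset.sum_le_sum_of_subset_of_nonneg ?_ fun _ _ _ => by positivity
    intro z hz
    obtain ⟨n, hn, rfl⟩ := Finset.mem_image.mp hz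
    rw [Finset.mem_filter, mem_primBall] at hn
    obtain ⟨h1, h2, h3, h4⟩ := hφ n hn.1.2
    have hn0 := hn.1.2.ne_zero
    unfold Nd
    rw [Finset.mem_filter, Finset.mem_product, mem_primBall, mem_primBall, ← h3]
    have k1 : nm n = nm (φ n).1 * nm (φ n).2 ^ 3 := by
      conv_lhs => rw [h3]
      rw [nm_mul, nm_pow]
    have p1 : 1 ≤ nm (φ n).1 := nm_pos.mpr h1.ne_zero
    have p2 : 1 ≤ nm (φ n).2 := nm_pos.mpr h2.ne_zero
    have k2 : nm (φ n).1 ≤ nm n := by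
      rw [k1]; exact Nat.le_mul_of_pos_right _ (by positivity)
    have k3 : nm (φ n).2 ≤ nm n := by
      rw [k1]
      calc nm (φ n).2 ≤ nm (φ n).2 ^ 3 := Nat.le_self_pow (by norm_num) _
        _ ≤ _ := Nat.le_mul_of_pos_left _ (by omega)
    exact ⟨⟨⟨k2.trans hn.1.1, h1⟩, ⟨k3.trans hn.1.1, h2⟩⟩, hn.2, hn.1.1⟩
  · intro n hn n' hn' he
    rw [Finset.mem_coe, Finset.mem_filter, mem_primBall] at hn hn'
    have h3 := (hφ n hn.1.2).2.2.1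
    have h3' := (hφ n' hn'.1.2).2.2.1
    rw [h3, h3', he]

/-! ### one side of one cell -/

/-- the structured part of the bound of a cell -/
def RP (c : CellD) (cw cs : ℝ) (b : Eis → ℂ) (r₁ : Eis) (Bs : ℝ) : ℝ :=
  (c.Y + (c.Lt * c.Y) ^ (2 / 3 : ℝ)) / c.Y * DT 1 (cw * (cs * c.Y)) b r₁ +
    c.Lt * c.Y ^ (-(1 / 2) : ℝ) * DT (1 / 2) (cw * (cs * c.Y)) b r₁ + Bs

lemma RP_nonneg {c : CellD} {cw cs : ℝ} {b : Eis → ℂ} {r₁ : Eis} {Bs : ℝ} (hY : 0 < c.Y)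
    (hLt : 0 < c.Lt) (hBs : 0 ≤ Bs) : 0 ≤ RP c cw cs b r₁ Bs := by
  unfold RP
  have h1 := DT_nonneg 1 (cw * (cs * c.Y)) b r₁
  have h2 := DT_nonneg (1 / 2) (cw * (cs * c.Y)) b r₁
  positivity

lemma R1c_le {c : CellD} {cw cs : ℝ} {b : Eis → ℂ} {r₁ : Eis} {Bs : ℝ} (hY : 0 < c.Y)
    (hLt : 0 < c.Lt) (hcs : 1 ≤ cs) (hBs : 0 ≤ Bs) :
    R1c (cs * c.Y) c.Lt cw b r₁ Bs / c.Y ≤ cs * RP c cw cs b r₁ Bs := by
  have h1 := DT_nonneg 1 (cw * (cs * c.Y)) b r₁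
  have h2 := DT_nonneg (1 / 2) (cw * (cs * c.Y)) b r₁
  have hcs0 : 0 ≤ cs := by linarith
  unfold R1c
  split_ifs with hl
  · unfold RP
    set D1 := DT 1 (cw * (cs * c.Y)) b r₁
    set D2 := DT (1 / 2) (cw * (cs * c.Y)) b r₁
    rw [div_le_iff₀ hY]
    have a1 : (c.Lt * (cs * c.Y)) ^ (2 / 3 : ℝ) ≤ cs * (c.Lt * c.Y) ^ (2 / 3 : ℝ) := by
      have e1 : c.Lt * (cs * c.Y) = cs * (c.Lt * c.Y) := by ring
      rw [e1, Real.mul_rpow hcs0 (by positivity)]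
      refine mul_le_mul_of_nonneg_right ?_ (by positivity)
      calc cs ^ (2 / 3 : ℝ) ≤ cs ^ (1 : ℝ) := Real.rpow_le_rpow_of_exponent_le hcs (by norm_num)
        _ = cs := Real.rpow_one _
    have a2 : (cs * c.Y) ^ (1 / 2 : ℝ) ≤ cs * (c.Y ^ (-(1 / 2) : ℝ) * c.Y) := by
      have e2 : c.Y ^ (1 / 2 : ℝ) = c.Y ^ (-(1 / 2) : ℝ) * c.Y := by
        nth_rewrite 3 [← Real.rpow_one c.Y]
        rw [← Real.rpow_add hY]; norm_num
      rw [Real.mul_rpow hcs0 hY.le, ← e2]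
      refine mul_le_mul_of_nonneg_right ?_ (by positivity)
      calc cs ^ (1 / 2 : ℝ) ≤ cs ^ (1 : ℝ) := Real.rpow_le_rpow_of_exponent_le hcs (by norm_num)
        _ = cs := Real.rpow_one _
    calc (cs * c.Y + (c.Lt * (cs * c.Y)) ^ (2 / 3 : ℝ)) * D1 +
          c.Lt * (cs * c.Y) ^ (1 / 2 : ℝ) * D2 + cs * c.Y * Bs
        ≤ (cs * c.Y + cs * (c.Lt * c.Y) ^ (2 / 3 : ℝ)) * D1 +
          c.Lt * (cs * (c.Y ^ (-(1 / 2) : ℝ) * c.Y)) * D2 + cs * c.Y * Bs := by gcongr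
      _ = _ := by field_simp
  · rw [zero_div]
    exact mul_nonneg hcs0 (RP_nonneg hY hLt hBs)

lemma nm_sq3' : nm sq3 = 3 := by decide

lemma isCoprime_sq3' {p : Eis} (hp : IsPrim p) : IsCoprime sq3 p := by
  have h := Char766.IsPrim.coprime_pow_lam hp 1
  rw [pow_one] at h
  exact (h.of_isCoprime_of_dvd_right associated_lam_sq3.symm.dvd).symm

/-- the constants of a cell -/
def kC (mc : ℝ) : ℝ := 27 * mc ^ 3 * 81

/-- **one side of one cell** -/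
theorem cell_UF {ε : ℝ} (hε : 0 < ε) (hε1 : ε ≤ 1) : ∃ C' : ℝ, 0 ≤ C' ∧
    ∀ {A' B : ℕ}, 4 ≤ B → ∀ {C cw cs mc : ℝ}, 0 ≤ C → 1 ≤ cw → 1 ≤ cs →
    ∀ {w' : ℝ → ℝ} {om : ℝ → ℂ} {ψ : Eis → ℂ} {Mc : Eis}, Mc ≠ 0 → (nm Mc : ℝ) ≤ mc →
      (∀ p, IsPrim p → IsCoprime p Mc) →
    ∀ {x : Cd} {Z : ℝ} {EE : Finset Eis}, x.OK Z EE → IsCoprime (x.D * x.F) (x.m * x.m') →
    ∀ {K V V' H X K₁ NN Zm : ℝ}, 0 < K → 0 < V → 0 < V' → 0 < H → 0 < X →
    ∀ {c : CellD}, c = x.cell K V V' H X x.xk → K₁ = c.KM → NN = c.N1 * c.N2 →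
    ∀ {b : Eis → ℂ}, FS b →
      (∀ y : ℝ, om ((nm (x.a * x.D * x.F) : ℝ) * y) = ((w' (y / (cs * c.Y)) : ℝ) : ℂ)) →
      1 ≤ Zm → 3 * mc * nL c ≤ Zm → (nm (x.a * x.D) : ℝ) ≤ Zm →
      (nm (x.g * x.d * x.m' * (x.a * x.D * x.F)) : ℝ) ≤ Zm →
      (9 * mc ^ 2 * 81 * (nm x.E * nm x.u * nm x.a' * nm x.N ^ 2) : ℝ) ≤ Zm →
    ∀ Bs : Eis → ℝ, (∀ v, 0 ≤ Bs v) →
      (Squarefree (x.a * x.D * x.F) → IsCoprime (x.a * x.D * x.F) (x.g * x.d) →
        ∀ v ∈ pdiv (x.a * x.D / x.E),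
        MB ψ w' A' ε C cw (bF (x.a * x.D / (x.E * v)) (x.F * x.E * v) b)
          (x.g * (x.a * x.D / (x.E * v)) * (x.F * x.E * v)) (x.a * x.D / (x.E * v)) (cs * c.Y)
          (c.Lt / nm (x.E * v)) (Bs v) Zm) →
      UF A' B Mc ψ K₁ NN (x.c * x.N) om (x.g * x.d) b x.m' x.a x.a' x.D x.E x.F ≤
        C' * C * cs ^ 2 * kC mc * Zm ^ (3 * ε) * (fc c * ((1 + xL c + xLS c) *
          T1 (cw * (cs * c.Y)) (bF (x.a * x.D) x.F b) (x.g * x.d * x.m' * (x.a * x.D * x.F)) +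
          RP c cw cs (bF (x.a * x.D) x.F b) (x.g * (x.a * x.D) * x.F)
            (if Squarefree (x.a * x.D * x.F) then
              ∑ v ∈ pdiv (x.a * x.D / x.E), Bs v else 0))) := by
  obtain ⟨C', hC', hmain⟩ := cell_mode hε hε1
  refine ⟨C', hC', ?_⟩
  intro A' B hB C cw cs mc hC hcw hcs w' om ψ Mc hMc hmcn hMp x Z EE hx hcDF K V V' H X K₁ NN Zm
    hK hV hV' hH hX c hc hK₁ hNN b hb hom hZm hz1 hz2 hz3 hz4 Bs hBs hMB
  obtain ⟨pL0, pLt, pY, pnL, pZ⟩ := hx.cell_pos hK hV hV' hH hX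
  rw [← hc] at pL0 pLt pY pnL pZ
  obtain ⟨nq, nt, nd, ne, nc, ng, nd', ne', nc', ng', nD, nE, nF⟩ := hx.np
  have hmc1 : 1 ≤ mc := (E1551.nm_ge_one hMc).trans hmcn
  have hmc0 : 0 ≤ mc := by linarith
  have hcs0 : 0 ≤ cs := by linarith
  have pD := hx.prim hx.D
  have pF := hx.prim hx.F
  have pg := hx.prim hx.g
  have pd := hx.prim hx.d
  obtain ⟨pE, hED⟩ := (mem_dvs pD.ne_zero).mp hx.E
  have na := nmpos hx.a.ne_zero
  have hDs : Squarefree x.D := ((mem_S (by linarith [hx.Z1])).1 hx.D).2.2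
  -- nonnegativity
  have hS0' : 0 ≤ ∑ v ∈ pdiv (x.a * x.D / x.E), Bs v := Finset.sum_nonneg fun _ _ => hBs _
  have hS0 : 0 ≤ (if Squarefree (x.a * x.D * x.F) then
      ∑ v ∈ pdiv (x.a * x.D / x.E), Bs v else 0) := by
    split_ifs
    · exact hS0'
    · exact le_rfl
  have hT := T1_nonneg (cw * (cs * c.Y)) (bF (x.a * x.D) x.F b)
    (x.g * x.d * x.m' * (x.a * x.D * x.F))
  have hfc : 0 ≤ fc c := by unfold fc; positivity
  have hxL : 0 ≤ xL c := by unfold xL; positivity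
  have hxLS : 0 ≤ xLS c := by unfold xLS; positivity
  have hRP := RP_nonneg (cw := cw) (cs := cs) (b := bF (x.a * x.D) x.F b)
    (r₁ := x.g * (x.a * x.D) * x.F) pY pLt hS0
  have hkC : 0 ≤ kC mc := by unfold kC; positivity
  have hR0 : 0 ≤ C' * C * cs ^ 2 * kC mc * Zm ^ (3 * ε) * (fc c * ((1 + xL c + xLS c) *
          T1 (cw * (cs * c.Y)) (bF (x.a * x.D) x.F b) (x.g * x.d * x.m' * (x.a * x.D * x.F)) +
          RP c cw cs (bF (x.a * x.D) x.F b) (x.g * (x.a * x.D) * x.F)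
            (if Squarefree (x.a * x.D * x.F) then
              ∑ v ∈ pdiv (x.a * x.D / x.E), Bs v else 0))) := by positivity
  unfold E3T1579.UF
  by_cases h1 : IsCoprime (x.a * x.D * x.F) (x.c * x.N)
  swap
  · rw [if_neg h1]; exact hR0
  rw [if_pos h1]
  unfold E3Sp579.UE
  by_cases h2 : Squarefree (x.a * x.D * x.F) ∧ IsCoprime (x.a * x.D * x.F) (x.g * x.d) ∧
      IsCoprime (x.D * x.F) x.m'
  swap
  · rw [if_neg h2]; exact hR0
  rw [if_pos h2]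
  obtain ⟨h2a, h2b, h2c⟩ := h2
  -- the dilation
  obtain ⟨D', hD'⟩ := hED
  have pD' : IsPrim D' := IsPrim.of_mul_left (x := x.E) (by rw [← hD']; exact pD) pE
  obtain ⟨κ, hκd⟩ : ∃ κ, κ = x.a * D' := ⟨_, rfl⟩
  have pκ : IsPrim κ := by rw [hκd]; exact hx.a.mul pD'
  have hκE : x.a * x.D = κ * x.E := by rw [hD', hκd]; ring
  have hκq : x.a * x.D / x.E = κ := by
    refine mul_left_cancel₀ pE.ne_zero ?_
    rw [EuclideanDomain.mul_div_cancel' pE.ne_zero ⟨κ, by rw [hκE]; ring⟩, hκE]; ring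
  have paD : IsPrim (x.a * x.D) := hx.a.mul pD
  have hsaD : Squarefree (x.a * x.D) := h2a.of_mul_left
  -- the factorization
  obtain ⟨f, hf⟩ := hx.xk_spec
  have hxu : x.m' / x.a = x.u := by
    refine mul_left_cancel₀ hx.a.ne_zero ?_
    rw [EuclideanDomain.mul_div_cancel' hx.a.ne_zero ⟨x.u, hx.eu⟩, hx.eu]
  obtain ⟨Xf, hXf⟩ : ∃ Xf : Eis, Xf = ((Mc * sq3) * (x.c * x.N)) ^ 2 * (x.u * x.a') := ⟨_, rfl⟩
  obtain ⟨X₁, hX₁⟩ : ∃ X₁ : Eis, X₁ = x.E * (Mc * sq3 * x.c) ^ 2 * x.xk := ⟨_, rfl⟩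
  have hfac : x.E * Xf = X₁ * (f.g3 * f.b2) ^ 3 := by
    have h3 := f.fac
    rw [hXf, hX₁, hf]
    calc x.E * (((Mc * sq3) * (x.c * x.N)) ^ 2 * (x.u * x.a')) =
        x.E * (Mc * sq3 * x.c) ^ 2 * (x.u * x.a' * x.N ^ 2) := by ring
      _ = _ := by rw [h3]; ring
  have hc0 : x.c ≠ 0 := nm_pos.mp (by exact_mod_cast nc)
  have hN0 := hx.N.ne_zero
  have hX0 : x.E * Xf ≠ 0 := by
    rw [hXf]
    exact mul_ne_zero pE.ne_zero (mul_ne_zero (pow_ne_zero _ (mul_ne_zero (mul_ne_zero hMc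
      sq3_ne_zero) (mul_ne_zero hc0 hN0))) (mul_ne_zero hx.u.ne_zero hx.a'.ne_zero))
  -- coprimality
  have hcop : IsCoprime κ (x.E * Xf) := by
    have dκ : κ ∣ x.a * x.D * x.F := ⟨x.E * x.F, by rw [hκE]; ring⟩
    have c1 : IsCoprime κ x.E := E3Sr290.cop_sqf (by rw [← hκE]; exact hsaD)
    have c2 : IsCoprime κ (x.c * x.N) := h1.of_isCoprime_of_dvd_left dκ
    have c3 : IsCoprime κ (Mc * sq3) := (hMp κ pκ).mul_right (isCoprime_sq3' pκ).symm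
    have sm' : Squarefree x.m' := by
      have h5 := hx.sdg'
      rw [hx.e2] at h5
      exact h5.of_mul_right
    have sm : Squarefree x.m := by
      have h5 := hx.sdg
      rw [hx.e1] at h5
      exact h5.of_mul_right
    have dD' : D' ∣ x.D * x.F := ⟨x.E * x.F, by rw [hD']; ring⟩
    have c4 : IsCoprime D' (x.m * x.m') := hcDF.of_isCoprime_of_dvd_left dD'
    have c5 : IsCoprime κ x.u := by
      rw [hκd]
      refine IsCoprime.mul_left ?_ ?_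
      · exact E3Sr290.cop_sqf (by rw [← hx.eu]; exact sm')
      · exact c4.of_mul_right_right.of_isCoprime_of_dvd_right ⟨x.a, by rw [hx.eu]; ring⟩
    have c6 : IsCoprime κ x.a' := by
      rw [hκd]
      refine IsCoprime.mul_left ?_ ?_
      · have h6 : IsCoprime x.m' x.m := hx.cop.symm
        exact (h6.of_isCoprime_of_dvd_left ⟨x.u, hx.eu⟩).of_isCoprime_of_dvd_right
          ⟨x.u', hx.eu'⟩
      · exact c4.of_mul_right_left.of_isCoprime_of_dvd_right ⟨x.u', hx.eu'⟩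
    rw [hXf]
    exact c1.mul_right (((c3.mul_right c2).pow_right).mul_right (c5.mul_right c6))
  -- the norms
  have hmcM : (1 : ℝ) ≤ nm Mc := E1551.nm_ge_one hMc
  have hnmX : (nm (x.E * Xf) : ℝ) ≤ Zm := by
    refine le_trans ?_ hz4
    rw [hXf]
    have e1 : (nm (x.E * (((Mc * sq3) * (x.c * x.N)) ^ 2 * (x.u * x.a'))) : ℝ) =
        9 * (nm Mc : ℝ) ^ 2 * (nm x.c : ℝ) ^ 2 * (nm x.E * nm x.u * nm x.a' * nm x.N ^ 2) := by
      simp only [nm_mul, nm_pow, nm_sq3']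
      push_cast
      ring
    rw [e1]
    have h9 : (nm x.c : ℝ) ^ 2 ≤ 81 := by
      have : (nm x.c : ℝ) ≤ 9 := by exact_mod_cast (E3T829.Cd.nm_c_le hx.c).2
      nlinarith
    gcongr
  have hC₁ : f.g3 * f.b2 ≠ 0 := (f.pg3.mul f.pb2).ne_zero
  have hX₁Z : (nm X₁ : ℝ) ≤ Zm := by
    refine le_trans ?_ hnmX
    rw [hfac, nm_mul, nm_pow]
    have h5 : 1 ≤ nm (f.g3 * f.b2) := nm_pos.mpr hC₁
    push_cast
    have h6 : (1 : ℝ) ≤ (nm (f.g3 * f.b2) : ℝ) ^ 3 := one_le_pow₀ (by exact_mod_cast h5)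
    exact le_mul_of_one_le_right (by positivity) h6
  -- the real cell
  have hcM : c.KM = K₁ := hK₁.symm
  have hnL : nL c = NN * nm x.E / (K₁ * (nm x.D : ℝ) ^ 2) := by
    rw [hNN, hK₁, hc]; rfl
  have hlam : lmB Mc K₁ NN 1 x.D x.E = 3 * nm Mc * nL c := by
    unfold BD829.lmB
    rw [hnL]; ring
  have hK₁0 : 0 < K₁ := by
    have h7 := pnL
    rw [hK₁, hc]
    change 0 < K / (nm x.q ^ 2 * nm x.t ^ 3 * nm x.M)
    have nM := nmpos hx.M.ne_zero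
    positivity
  have hL0eq : c.L0 = nL c * ((nm x.E : ℝ) ^ 2 * nm x.xk) := by
    rw [E3Sj290.L0_eq, hc]; rfl
  have hZP : c.Z = (nm (x.a * x.D * x.F) : ℝ) * c.Y := by
    have e1 : c.Y = c.Z / (nm x.a * nm x.D * nm x.F) := by rw [hc]; rfl
    rw [e1, nm_mul, nm_mul]
    push_cast
    field_simp
  have hPpos : (0 : ℝ) < nm (x.a * x.D * x.F) := nmpos ((paD.mul pF).ne_zero)
  set lm := lmB Mc K₁ NN 1 x.D x.E with hlm
  have hlm0 : 0 < lm := by rw [hlam]; positivity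
  -- rewriting the sum
  have hsum : (∑' y : Eis, (if y = 0 then 0 else
      BD829.WB Mc K₁ NN 1 B x.D x.E y * EQ A' (pS ψ (fun y => om ((nm (x.a * x.D * x.F) : ℝ) * y))
        (x.g * x.d * x.m' * (x.a * x.D * x.F)) (bF (x.a * x.D) x.F b))
          (y * ((x.E * (Mc * sq3) * (x.c * x.N)) ^ 2 * (x.m' / x.a * x.a'))))) =
      ∑' y : Eis, (if y = 0 then 0 else Wl B lm y *
        EQ A' (pS ψ (fun y => ((w' (y / (cs * c.Y)) : ℝ) : ℂ))
          (x.g * x.d * x.m' * (x.a * x.D * x.F)) (bF (κ * x.E) x.F b)) (y * (x.E ^ 2 * Xf))) := by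
    refine tsum_congr fun y => ?_
    rw [WB_eq_Wl, ← hlm]
    have e1 : (fun y => om ((nm (x.a * x.D * x.F) : ℝ) * y)) =
        fun y => ((w' (y / (cs * c.Y)) : ℝ) : ℂ) := funext hom
    have e2 : (x.E * (Mc * sq3) * (x.c * x.N)) ^ 2 * (x.m' / x.a * x.a') = x.E ^ 2 * Xf := by
      rw [hxu, hXf]; ring
    rw [e1, e2, ← hκE]
  rw [hsum]
  -- the mode bound
  have key := hmain (A' := (A' : ℝ)) (C := C) (cw := cw) (ψ := ψ) (w := w')
    (r := x.g * x.d * x.m' * (x.a * x.D * x.F)) (r₁ := x.g * (x.a * x.D) * x.F) (κ := κ)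
    (E := x.E) (F := x.F) pκ pE
    (mul_ne_zero (mul_ne_zero (mul_ne_zero pg.ne_zero pd.ne_zero)
      (by rw [hx.eu]; exact mul_ne_zero hx.a.ne_zero hx.u.ne_zero)) (paD.mul pF).ne_zero)
    ⟨x.g * x.F, by rw [hκE]; ring⟩ ⟨x.d * x.m', by ring⟩ hb hfac hX0 hcop
    (lam := lm) (Z := Zm) (Y := cs * c.Y) (Lt := c.Lt) hlm0
    (by
      rw [hlam]
      refine le_trans ?_ hz1
      gcongr) hZm
    (by
      refine le_trans ?_ hz2
      have h5 : nm κ ≤ nm (x.a * x.D) := by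
        rw [hκE, nm_mul]
        exact Nat.le_mul_of_pos_right _ (nm_pos.mpr pE.ne_zero)
      exact_mod_cast h5) hz3 hnmX hX₁Z hC hcw (by positivity) pLt hB
    Bs (fun u _ => hBs _)
    (fun u hu => by
      have hu' := (mem_pdiv pκ.ne_zero).mp hu
      have e1 : κ = κ / u * u := by
        rw [mul_comm]; exact (EuclideanDomain.mul_div_cancel' hu'.1.ne_zero hu'.2).symm
      have e2 : x.a * x.D = x.E * u * (κ / u) := by
        rw [hκE]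
        conv_lhs => rw [e1]
        ring
      have e3 : x.a * x.D / (x.E * u) = κ / u := by
        rw [e2]
        exact mul_left_cancel₀ (pE.mul hu'.1).ne_zero
          (EuclideanDomain.mul_div_cancel' (pE.mul hu'.1).ne_zero ⟨κ / u, rfl⟩)
      have h5 := hMB h2a h2b u (by rw [hκq]; exact hu)
      have e4 : x.g * (κ / u) * (x.F * x.E * u) = x.g * (x.a * x.D) * x.F := by rw [e2]; ring
      have e5 : x.F * x.E * u = x.F * (x.E * u) := by ring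
      rw [e3, e4, e5] at h5
      exact h5)
  rw [← hκE] at key
  rw [← hκE]
  refine (mul_le_mul_of_nonneg_left key (Real.rpow_nonneg hPpos.le _)).trans ?_
  rw [if_pos h2a, hκq]
  have hR1n : 0 ≤ R1c (cs * c.Y) c.Lt cw (bF (x.a * x.D) x.F b) (x.g * (x.a * x.D) * x.F)
      (∑ u ∈ pdiv κ, Bs u) :=
    R1c_nonneg (by positivity) pLt (Finset.sum_nonneg fun _ _ => hBs _)
  have hkk : 3 * (nm Mc : ℝ) ≤ 27 * (nm Mc : ℝ) ^ 3 * (nm x.c : ℝ) ^ 2 := by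
    have hc1 : (1 : ℝ) ≤ nm x.c := by exact_mod_cast (E3T829.Cd.nm_c_le hx.c).1
    have e1 : (nm Mc : ℝ) ≤ (nm Mc : ℝ) ^ 3 := by
      calc (nm Mc : ℝ) = (nm Mc : ℝ) ^ 1 := (pow_one _).symm
        _ ≤ (nm Mc : ℝ) ^ 3 := pow_le_pow_right₀ hmcM (by norm_num)
    have e2 : (1 : ℝ) ≤ (nm x.c : ℝ) ^ 2 := one_le_pow₀ hc1
    have e3 : (nm Mc : ℝ) ^ 3 ≤ (nm Mc : ℝ) ^ 3 * (nm x.c : ℝ) ^ 2 :=
      le_mul_of_one_le_right (by positivity) e2
    have e4 : (0 : ℝ) ≤ (nm Mc : ℝ) ^ 3 := by positivity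
    nlinarith
  have hsep := RH_sep (c := c) (P := (nm (x.a * x.D * x.F) : ℝ)) (X0 := nm x.E * nm X₁)
    (T := T1 (cw * (cs * c.Y)) (bF (x.a * x.D) x.F b) (x.g * x.d * x.m' * (x.a * x.D * x.F)))
    (R1 := R1c (cs * c.Y) c.Lt cw (bF (x.a * x.D) x.F b) (x.g * (x.a * x.D) * x.F)
      (∑ u ∈ pdiv κ, Bs u)) (lam := lm) (k := 27 * (nm Mc : ℝ) ^ 3 *
      (nm x.c : ℝ) ^ 2) (mc := 3 * nm Mc) (cs := cs) pY pLt pL0 pnL hPpos hZP hcs (by linarith)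
      hkk hT hR1n hlam (by
        rw [hlam, hL0eq, hX₁]
        simp only [nm_mul, nm_pow, nm_sq3']
        push_cast
        ring)
  have hk2 : 27 * (nm Mc : ℝ) ^ 3 * (nm x.c : ℝ) ^ 2 ≤ kC mc := by
    unfold kC
    have h9 : (nm x.c : ℝ) ^ 2 ≤ 81 := by
      have : (nm x.c : ℝ) ≤ 9 := by exact_mod_cast (E3T829.Cd.nm_c_le hx.c).2
      nlinarith
    gcongr
  have hR1le := R1c_le (c := c) (cw := cw) (cs := cs) (b := bF (x.a * x.D) x.F b)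
    (r₁ := x.g * (x.a * x.D) * x.F) (Bs := ∑ u ∈ pdiv κ, Bs u) pY pLt hcs
    (Finset.sum_nonneg fun _ _ => hBs _)
  have hA0 : 0 ≤ C' * C * Zm ^ (3 * ε) := by positivity
  calc (nm (x.a * x.D * x.F) : ℝ) ^ (-(1 / 3) : ℝ) * (C' * C * Zm ^ (3 * ε) *
        RH (cs * c.Y) c.Lt (nm x.E * nm X₁) (T1 (cw * (cs * c.Y)) (bF (x.a * x.D) x.F b)
          (x.g * x.d * x.m' * (x.a * x.D * x.F)))
        (R1c (cs * c.Y) c.Lt cw (bF (x.a * x.D) x.F b) (x.g * (x.a * x.D) * x.F)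
          (∑ u ∈ pdiv κ, Bs u)) lm)
      = C' * C * Zm ^ (3 * ε) * ((nm (x.a * x.D * x.F) : ℝ) ^ (-(1 / 3) : ℝ) *
        RH (cs * c.Y) c.Lt (nm x.E * nm X₁) (T1 (cw * (cs * c.Y)) (bF (x.a * x.D) x.F b)
          (x.g * x.d * x.m' * (x.a * x.D * x.F)))
        (R1c (cs * c.Y) c.Lt cw (bF (x.a * x.D) x.F b) (x.g * (x.a * x.D) * x.F)
          (∑ u ∈ pdiv κ, Bs u)) lm) := by ring
    _ ≤ C' * C * Zm ^ (3 * ε) * (cs * (27 * (nm Mc : ℝ) ^ 3 * (nm x.c : ℝ) ^ 2) *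
        (fc c * ((1 + xL c + xLS c) * T1 (cw * (cs * c.Y)) (bF (x.a * x.D) x.F b)
          (x.g * x.d * x.m' * (x.a * x.D * x.F)) +
          R1c (cs * c.Y) c.Lt cw (bF (x.a * x.D) x.F b) (x.g * (x.a * x.D) * x.F)
            (∑ u ∈ pdiv κ, Bs u) / c.Y))) :=
        mul_le_mul_of_nonneg_left hsep hA0
    _ ≤ C' * C * Zm ^ (3 * ε) * (cs * kC mc *
        (fc c * (cs * ((1 + xL c + xLS c) * T1 (cw * (cs * c.Y)) (bF (x.a * x.D) x.F b)
          (x.g * x.d * x.m' * (x.a * x.D * x.F))) +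
          cs * RP c cw cs (bF (x.a * x.D) x.F b) (x.g * (x.a * x.D) * x.F)
            (∑ u ∈ pdiv κ, Bs u)))) := by
        have h8 : (1 + xL c + xLS c) * T1 (cw * (cs * c.Y)) (bF (x.a * x.D) x.F b)
          (x.g * x.d * x.m' * (x.a * x.D * x.F)) ≤ cs * ((1 + xL c + xLS c) *
            T1 (cw * (cs * c.Y)) (bF (x.a * x.D) x.F b)
              (x.g * x.d * x.m' * (x.a * x.D * x.F))) :=
          le_mul_of_one_le_left (by positivity) hcs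
        have h9 := hR1le
        have h10 : 0 ≤ R1c (cs * c.Y) c.Lt cw (bF (x.a * x.D) x.F b) (x.g * (x.a * x.D) * x.F)
            (∑ u ∈ pdiv κ, Bs u) / c.Y := div_nonneg hR1n pY.le
        gcongr
    _ = _ := by ring

end Crest.Agent.R017.E3Sv290
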