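import Crest.Agent.R017.FrS_829
import Crest.Agent.R017.E3Fw_579

/-!
# Row 17, exceptional class, E3 (helper829): (Fa), (Fb), (Fc) of the frame for the single lists

The text is helper579's (E3Fx_579, E3Fw_579) with the single lists.
* `FrHS` : the hypotheses of the frame `S8X`, single lists
* **`faS`**, **`fbS`**, **`fcS`** : helper61's `FaU`, `FbU`, `FcU` for `Dom8X c β Par (SinL β)`
-/

set_option autoImplicit false
set_option linter.unusedSectionVars false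
set_option linter.unusedVariables false

noncomputable section

open Finset MeasureTheory
open scoped ComplexConjugate Classical

namespace Crest.Agent.R017.E3Sw829

open Crest.Agent.R012 Crest.Agent.R012.Eis Crest.Agent.R012.MC
open Crest.Agent.R012.LS2 (S mem_S)
open Crest.Agent.R017.C70
open Crest.Agent.R017.B770
open Crest.Agent.R017.FE47 (PU cx SM)
open Crest.Agent.R017.Prov71
open Crest.Agent.R017.I1146 hiding cN
open Crest.Agent.R017.I1K764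
open Crest.Agent.R017.XG702 (Pcs)
open Crest.Agent.R017.XT71 (Sys Win mx)
open Crest.Agent.R017.UM71 Crest.Agent.R017.End699
open Crest.Agent.R017.E5B71 Crest.Agent.R017.E5P571 Crest.Agent.R017.E5L770
open Crest.Agent.R017.ExBox960 Crest.Agent.R017.ExP960
open Crest.Agent.R017.Sf770
open Crest.Agent.R017.P1l54 (ParOK)
open Crest.Agent.R017.P1X960
open Crest.Agent.R017.Sup271 (NPm)
open Crest.Agent.R017.PX764 (Dk)
open Crest.Agent.R017.TM708 (PD R5)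
open Crest.Agent.R017.P10X764
open Crest.Agent.R017.P10146 (omP_bd)
open Crest.Agent.R017.E3Nx744 (CBA thK)
open Crest.Agent.R017.TNj90 (JBc)
open Crest.Agent.R017.E3T829 (hE hE_nonneg)
open Crest.Agent.R017.E3M829 (TF TF_nonneg Tal)
open Crest.Agent.R017.E3F548 (EF EF_nonneg)
open Crest.Agent.R017.E3Kc548 (LI mem_LI)
open Crest.Agent.R017.FrX579 Crest.Agent.R017.E3Er579 Crest.Agent.R017.E3Fs579
open Crest.Agent.R017.E3Fx579
open Crest.Agent.R017.E3F61 (OU FaU FbU FcU JS_bd)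
open Crest.Agent.R017.E3N146 (ShT ShT_le TC tc_of)
open Crest.Agent.R017.E1551 (Adm nmpos)
open Crest.Agent.R017.FrS829
open Crest.Agent.R017.E3Fw579 (fin_exp)

variable {Λ : Type*}

/-- the cases of the numbers -/
lemma shSl_cases {lm K5 x s : ℝ} {a : BcX} {qs : List Pq} {γ b v : ℝ} (hs : 0 ≤ s)
    (h1 : |k5X a - K5| ≤ s) (h2 : |a.1.z - x| ≤ s) :
    TC K5 b (v + b) (LN (clN a qs) - γ - b) x (ShSl lm a qs γ b v - lm - s) ∨
    (ShSl lm a qs γ b v ≤ 5 / 3 * LN (clN a qs) + 2 / 3 * (v + b) - 5 / 3 * (γ + b) -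
      max 0 (0 - (γ + b))) := by
  unfold ShSl shB
  rcases le_total (5 / 3 * LN (clN a qs) + bcx 0 γ b v)
    (ShT (k5X a) a.1.z (a.2.1 2).z (LN (clN a qs)) γ b v + lm) with h | h
  · left
    rw [max_eq_left h]
    have e : ShT (k5X a) a.1.z (a.2.1 2).z (LN (clN a qs)) γ b v + lm - lm =
        ShT (k5X a) a.1.z (a.2.1 2).z (LN (clN a qs)) γ b v := by ring
    rw [e]
    refine tc_shift (tc_of ?_) h1 h2
    have h3 := ShT_le (k5 := k5X a) (x := a.1.z) (um := (a.2.1 2).z) (p := LN (clN a qs)) (γ := γ)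
      (b := b) (l := v + b) (m := (LN (clN a qs) - γ - b) / 3 + 2 / 3 * a.1.z) (min_le_right _ _)
    rw [add_sub_cancel_right] at h3
    exact h3
  · right
    rw [max_eq_right h]
    unfold bcx
    linarith

set_option maxHeartbeats 2000000 in
/-- **the lines of a moment in the frame** -/
lemma linesS {π : Λ → DPar} {h : ℝ → ℝ} {Rh e0 c β : ℝ} (he0 : 0 ≤ e0) (he1 : e0 ≤ 1 / 64)
    {Par : Set (Fin 3 ⊕ Fin 5 → ℝ)} {L0 : (Fin 3 ⊕ Fin 5 → ℝ) → ℝ} (hPar : ∀ p ∈ Par, ParOK p)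
    {ℓ Kf Tf Tt : (Fin 5 → ℝ) → ℝ}
    (hR5 : ∀ p : IX5 → ℝ, prX p ∈ Par → ZR β p → R5 (bN p))
    (hL0 : ∀ p : IX5 → ℝ, prX p ∈ Par → ZR β p →
      max 0 (5 / 4 * cN (prX p) - cκ (prX p)) + lmX ℓ Kf Tf p ≤ L0 (prX p))
    (hbt : BTlS c β Par L0 Tt) {c1 c2 t : ℝ} (hc1 : |c1| ≤ 1) (hc2 : 0 ≤ c2) (hc2' : c2 ≤ 1)
    (hlin : LinX c1 c2 t) {cw B₂ J R' t₀ ε X : ℝ} (ht₀ : 0 < t₀) (ht₁ : t₀ ≤ 1 / 100000)
    (hL1 : 1 ≤ t₀ * Real.log X) {lam : Λ × Eis} {a : BcX} {qs : List Pq}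
    {q : (I8X → ℝ) × (Kd → ℝ)} (hq : q ∈ Dom8X c β Par (SinL β))
    (F : FrSD π h Rh e0 c ℓ Kf Tf cw B₂ J R' t₀ ε X lam a qs q) :
    ∀ i ∈ LI (1 / 10) (2 ^ nw c a), ∀ d ∈ (JS (nw c a)).image Prod.fst, ∀ b v : ℝ, 0 ≤ b →
      0 ≤ v → v ≤ 1 + i - 2 * Real.log (nm d) →
      Real.log (Real.exp (c1 * a.1.l + c2 * Real.log (2 ^ nw c a))) - i / 3 +
        ShSl (lmX ℓ Kf Tf (bp q.1) * Real.log X) a qs (Real.log (nm d)) b v +
        2 * Real.log (nm d) +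
        ((1 - t) * b - (2 - t) * max 0 (b - Real.log (Real.exp (e0 * a.1.l)))) ≤
      cκ (prX (bp q.1)) * Real.log X + LN (clN a qs) + LN (clN a qs) / 3 +
        L0 (prX (bp q.1)) * Real.log X + 40 * (t₀ * Real.log X) := by
  intro i hi d hd b v hb hv hvi
  obtain ⟨hq1, hq2, -, -⟩ := hq
  obtain ⟨-, hkl, hzl, hAl, hnl, hn0, hn1, hnp, hyl, -, -, -, -, -, -⟩ := F
  set L := Real.log X with hL
  set p : IX5 → ℝ := bp q.1 with hp
  have hpar : prX p ∈ Par := hq1.par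
  have hzr : ZR β p := hq1.zr
  have hPp := hPar _ hpar
  have hRb := hR5 p hpar hzr
  have hL0p := hL0 p hpar hzr
  have hbtp := hbt.bt p _ _ _ _ _ hq1 hq2
  set κ := cκ (prX p) with hκ
  set NN := cN (prX p) with hNN
  set xx := cx' (prX p) with hxx
  set ex := max 0 (5 / 4 * NN - κ) with hex
  set lm := lmX ℓ Kf Tf p with hlm
  set n := LN (clN a qs) with hn
  set y := Real.log (2 ^ nw c a) with hy
  have hL0' : 0 < L := by
    by_contra h0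
    have := mul_nonpos_of_nonneg_of_nonpos ht₀.le (not_lt.1 h0)
    linarith
  set u := t₀ * L with hu
  have hu0 : 0 ≤ u := by linarith
  have hlm0 : 0 ≤ lm := le_max_left _ _
  have hex0 : 0 ≤ ex := le_max_left _ _
  have hex1 : 5 / 4 * NN - κ ≤ ex := le_max_right _ _
  have rN : NN ≤ 102 / 125 * κ := hRb.hN
  have rx1 : xx ≤ 1 / 36 * κ := hRb.x1
  have radm : xx ≤ 0 ∨ (NN + xx ≤ 4 / 5 * κ ∧ 2 * NN + 5 * xx ≤ 59 / 36 * κ ∧
    2 * NN + 6 * xx ≤ 5 / 3 * κ) := hRb.adm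
  have hκ0 : 8 / 9 * L ≤ κ * L := mul_le_mul_of_nonneg_right hPp.κ0 hL0'.le
  have hx0 : 0 ≤ xx * L := mul_nonneg hPp.x0 hL0'.le
  have hNL := mul_le_mul_of_nonneg_right rN hL0'.le
  have hxL := mul_le_mul_of_nonneg_right rx1 hL0'.le
  have hexL := mul_le_mul_of_nonneg_right hex1 hL0'.le
  have hexL0 : 0 ≤ ex * L := mul_nonneg hex0 hL0'.le
  have hlmL0 : 0 ≤ lm * L := mul_nonneg hlm0 hL0'.le
  have hL0L := mul_le_mul_of_nonneg_right hL0p hL0'.le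
  have hu1 : u ≤ 1 / 100000 * L := mul_le_mul_of_nonneg_right ht₁ hL0'.le
  have htp : tpW c p (q.1 (.inr 3)) ≤ top5 (prX p) := min_le_left _ _
  have htpL := mul_le_mul_of_nonneg_right htp hL0'.le
  have ht5a : top5 (prX p) ≤ 2 * NN - κ + 11 / 5 * xx := by
    have := min_le_left (2 * NN - κ) (3 / 4 * NN)
    unfold E5L770.top5
    linarith
  have ht5b : top5 (prX p) ≤ 3 / 4 * NN + 11 / 5 * xx := by
    have := min_le_right (2 * NN - κ) (3 / 4 * NN)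
    unfold E5L770.top5
    linarith
  have ht5aL := mul_le_mul_of_nonneg_right ht5a hL0'.le
  have ht5bL := mul_le_mul_of_nonneg_right ht5b hL0'.le
  have hFf : Ff (κ * L) (NN * L) (xx * L) (ex * L) (1 + y) n (3 * u) := by
    refine ⟨by linarith, hx0, by linarith, by linarith, ?_, hexL0, by linarith, by linarith,
      by linarith, by linarith, by linarith, by linarith, by linarith⟩
    rcases radm with h1 | ⟨h1, -, -⟩
    · left
      have h2 : xx = 0 := le_antisymm h1 hPp.x0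
      rw [h2, zero_mul]
    · right
      have := mul_le_mul_of_nonneg_right h1 hL0'.le
      linarith
  obtain ⟨x, hx, rfl⟩ := mem_image.1 hd
  have hprim : IsPrim x.1 := (okJ_JW _ _ _).prim x hx
  have hnd : (1 : ℝ) ≤ nm x.1 := by exact_mod_cast nm_pos.2 hprim.ne_zero
  have hδ0 : 0 ≤ Real.log (nm x.1) := Real.log_nonneg hnd
  set δd := Real.log (nm x.1) with hδd
  obtain ⟨hi1, hi2, hi3⟩ := mem_LI hi
  have hY0 : (0 : ℝ) < 2 ^ nw c a := by positivity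
  have hiv : (i : ℝ) ≤ 1 + y := by
    have h1 := Real.log_le_log (Real.exp_pos _) hi3
    rw [Real.log_exp, Real.log_mul (Real.exp_pos _).ne' hY0.ne', Real.log_exp] at h1
    exact h1
  have hi0 : (0 : ℝ) ≤ i := Nat.cast_nonneg _
  have hl : v + b ≤ i - 2 * δd + b + 3 * u := by linarith
  obtain ⟨k1, k2⟩ := abs_le.1 hkl
  rw [Real.log_exp, Real.log_exp]
  set M := max 0 (b - e0 * a.1.l) with hM
  have hM0 : 0 ≤ M := le_max_left _ _
  have hl0 : 0 ≤ a.1.l := by linarith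
  have hM1 : b - κ * L / 64 - 3 * u ≤ M := by
    have h1 : b - e0 * a.1.l ≤ M := le_max_right _ _
    have h2 : e0 * a.1.l ≤ 1 / 64 * a.1.l := mul_le_mul_of_nonneg_right he1 hl0
    linarith
  have hc1l : c1 * a.1.l ≤ c1 * (κ * L) + u := by
    have h1 : c1 * (a.1.l - κ * L) ≤ 1 * u :=
      (le_abs_self _).trans (by
        rw [abs_mul]
        exact mul_le_mul hc1 hkl (abs_nonneg _) zero_le_one)
    linarith
  have hc2y : c2 * y ≤ c2 * (1 + y) := by nlinarith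
  have hk5 : |k5X a - (κ * L + ex * L)| ≤ 2 * u := by
    have e1 : κ * L + ex * L = max (κ * L) (5 / 4 * NN * L) := by
      rw [← add_mul, hex, ← max_mul_of_nonneg _ _ hL0'.le]
      congr 1
      rw [← max_add_add_left]
      congr 1 <;> ring
    rw [e1]
    unfold k5X
    refine (abs_max_sub_max_le_max _ _ _ _).trans (max_le ?_ ?_)
    · linarith
    · have e : 5 / 4 * a3 a.1.toBd - 5 / 4 * NN * L = 5 / 4 * (a3 a.1.toBd - NN * L) := by ring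
      rw [e, abs_mul, abs_of_pos (by norm_num : (0 : ℝ) < 5 / 4)]
      linarith
  have hz2 : |a.1.z - xx * L| ≤ 2 * u := hzl.trans (by linarith)
  obtain ⟨n1, n2⟩ := abs_le.1 hnl
  rcases shSl_cases (lm := lm * L) (qs := qs) (γ := δd) (b := b) (v := v)
      (by linarith : (0 : ℝ) ≤ 2 * u) hk5 hz2 with hT | hT
  · have key := (hlin (κ * L) (NN * L) (xx * L) (ex * L) 0 i (1 + y) n (3 * u) δd b (v + b)
      (ShSl (lm * L) a qs δd b v - lm * L - 2 * u) M 0 0 hFf hδ0 hb hM0 hM1 hi0 hiv hl).1 hT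
    linarith
  · have hsv : (tpW c p (q.1 (.inr 3)) + svX q - κ) / 3 ≤ L0 (prX p) := by
      refine le_trans ?_ hbtp
      have h1 := le_max_left (tpW c p (q.1 (.inr 3)))
        (2 * (q.1 (.inr 0) + q.1 (.inr 1) + q.1 (.inr 2) + q.2 .am) - κ)
      unfold svX
      linarith
    have hsvL := mul_le_mul_of_nonneg_right hsv hL0'.le
    have hbt' : (1 + y + n - κ * L) / 3 ≤ 0 + L0 (prX p) * L + 3 * u := by
      have e1 : (tpW c p (q.1 (.inr 3)) + svX q - κ) / 3 * L =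
        (tpW c p (q.1 (.inr 3)) * L + svX q * L - κ * L) / 3 := by ring
      rw [e1] at hsvL
      linarith
    have key := (hlin (κ * L) (NN * L) (xx * L) (ex * L) (L0 (prX p) * L) i (1 + y) n (3 * u) δd b
      (v + b) (ShSl (lm * L) a qs δd b v) M (max 0 (0 - (δd + b))) 0 hFf hδ0 hb hM0 hM1
      hi0 hiv hl).2 (le_max_left _ _) (le_max_right _ _) hbt' (by linarith) hT
    linarith

/-- **the hypotheses of the frame `S8X`, single lists** -/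
structure FrHS (π : Λ → DPar) (h : ℝ → ℝ) (c₀ Rh e0 c β : ℝ) (Par : Set (Fin 3 ⊕ Fin 5 → ℝ))
    (D5 : Set (Fin 5 → ℝ)) (ℓ Kf Tf Tt : (Fin 5 → ℝ) → ℝ)
    (L0 : (Fin 3 ⊕ Fin 5 → ℝ) → ℝ) : Prop where
  hpu : PU h c₀
  hP : ∀ lam, (π lam).OK
  hRh0 : 0 ≤ Rh
  hRh : ∀ u, cx h u ≠ 0 → |u| ≤ Rh
  he0 : 0 ≤ e0
  he0' : e0 ≤ 1 / 64
  hc0 : 0 ≤ c
  hc1 : c ≤ 1
  hPar : ∀ p ∈ Par, ParOK p
  hDN : ∀ p : IX5 → ℝ, prX p ∈ Par → ZR β p → bN p ∈ D5
  hDR : ∀ p : IX5 → ℝ, prX p ∈ Par → ZR β p → bR p ∈ D5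
  hR5 : ∀ p : IX5 → ℝ, prX p ∈ Par → ZR β p → R5 (bN p)
  hKN : ∀ p : IX5 → ℝ, prX p ∈ Par → ZR β p →
    Kf (bN p) = max (cκ (prX p)) (5 / 4 * cN (prX p))
  hKR : ∀ p : IX5 → ℝ, prX p ∈ Par → ZR β p →
    Kf (bR p) = max (cκ (prX p)) (5 / 4 * cN (prX p))
  hTN : ∀ (p : IX5 → ℝ) (v₀ v₁ v₂ b x' : ℝ), ChC c β Par p v₀ v₁ v₂ b x' →
    SinL β p v₀ v₁ v₂ → tpW c p b ≤ Tf (bN p)
  hTR : ∀ (p : IX5 → ℝ) (v₀ v₁ v₂ b x' : ℝ), ChC c β Par p v₀ v₁ v₂ b x' →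
    SinL β p v₀ v₁ v₂ → tpW c p b ≤ Tf (bR p)
  hcb : CBA π h Dk Kf Tf D5 ℓ
  hL0 : ∀ p : IX5 → ℝ, prX p ∈ Par → ZR β p →
    max 0 (5 / 4 * cN (prX p) - cκ (prX p)) + lmX ℓ Kf Tf p ≤ L0 (prX p)
  hbt : BTlS c β Par L0 Tt

set_option maxHeartbeats 2000000 in
/-- **the moments in the frame `S8X`**, single lists -/
theorem momS {π : Λ → DPar} {h : ℝ → ℝ} {c₀ Rh e0 c β : ℝ} {Par : Set (Fin 3 ⊕ Fin 5 → ℝ)}
    {D5 : Set (Fin 5 → ℝ)} {ℓ Kf Tf Tt : (Fin 5 → ℝ) → ℝ} {L0 : (Fin 3 ⊕ Fin 5 → ℝ) → ℝ}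
    (H : FrHS π h c₀ Rh e0 c β Par D5 ℓ Kf Tf Tt L0) {c1 c2 t : ℝ} (hc1 : |c1| ≤ 1)
    (hc2 : 0 ≤ c2) (hc2' : c2 ≤ 1) (ht0 : 0 ≤ t) (ht2 : t ≤ 2) (hlin : LinX c1 c2 t)
    {ε : ℝ} (hε : 0 < ε) :
    ∃ δ : ℝ, 0 < δ ∧ ∀ (lam : Λ × Eis) (N : ℕ) (B : ℝ), ∃ δ' : ℝ, 0 < δ' ∧
      ∃ X₀ : ℝ, 1 < X₀ ∧ ∀ X : ℝ, X₀ ≤ X → ∀ (a : BcX) (ps : List Pq), ps.length ≤ N →
        (∀ p ∈ ps, Dq.lump p ∨ Dq.nl X p ≤ δ) → ∀ q ∈ Dom8X c β Par (SinL β),
        Win S8X q.1 δ N B δ' X a → (∀ t, |Dq.mass X ps t - q.2 t| ≤ δ) → Dq.Good X δ' B ps →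
        (∀ p ∈ ps, ¬ Dq.lump p) → okCX (π lam.1) lam.2 a ps →
        Real.exp (c1 * a.1.l + c2 * Real.log (2 ^ nw c a)) *
          TF (1 - t) (JS (nw c a)) (omP (nw c a)) (Real.exp (e0 * a.1.l))
            (Tal (alS π h lam a ps)) ≤ X ^ (E8X L0 q + ε) ∧
        (t = 0 → Real.exp (c1 * a.1.l + c2 * Real.log (2 ^ nw c a)) *
          ∑ x ∈ JS (nw c a), EF (omP (nw c a)) (Tal (alS π h lam a ps))
            (Real.exp (e0 * a.1.l)) x ≤ X ^ (E8X L0 q + ε)) := by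
  obtain ⟨t₀, ht₀, ht₁, ht₂⟩ : ∃ t₀ : ℝ, 0 < t₀ ∧ t₀ ≤ 1 / 100000 ∧ t₀ ≤ ε / 400 :=
    ⟨min (1 / 100000) (ε / 400), lt_min (by norm_num) (by positivity), min_le_left _ _,
      min_le_right _ _⟩
  have hε8 : 0 < ε / 8 := by positivity
  obtain ⟨δ, hδ, hfr⟩ := frS H.hpu H.hP H.hRh0 H.hRh H.he0
    (H.he0'.trans (by norm_num)) H.hc0 H.hc1 H.hPar H.hDN H.hDR H.hR5 H.hKN H.hKR H.hTN H.hTR H.hcb
    hε8 ht₀
  refine ⟨δ, hδ, fun lam N B => ?_⟩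
  have hcw : 1 ≤ Real.exp 1 * Real.exp 1 := by
    have := Real.one_le_exp (zero_le_one (α := ℝ))
    nlinarith
  obtain ⟨B₂, J, R', hB₂, hJ, hR', δ', hδ', X₀, hX₀, hfr⟩ := hfr lam N B _ hcw
  have hB0 : 0 < B₂ := by linarith
  obtain ⟨C₁, hC₁, HT⟩ := TFlJ hR' hε8 hJ hB0 ht0 ht2
  obtain ⟨C₂, hC₂, HE⟩ := EFlJ hR' hε8 hJ hB0
  obtain ⟨C, hC⟩ : ∃ C : ℝ, C = max C₁ C₂ + 200 * (1 + 1 / (ε / (8 * B₂))) + 1 := ⟨_, rfl⟩
  have hεB : 0 < ε / (8 * B₂) := by positivity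
  have hC3 : 0 ≤ 200 * (1 + 1 / (ε / (8 * B₂))) := by positivity
  have hC12 := le_max_left C₁ C₂
  have hC22 := le_max_right C₁ C₂
  have hC0 : 1 ≤ C := by linarith
  obtain ⟨Q, hQ⟩ : ∃ Q : ℝ, Q = 1 / t₀ + 8 * Real.log C / ε := ⟨_, rfl⟩
  have hlC : 0 ≤ Real.log C := Real.log_nonneg hC0
  have hQ1 : 0 ≤ 1 / t₀ := by positivity
  have hQ2 : 0 ≤ 8 * Real.log C / ε := by positivity
  refine ⟨δ', hδ', max X₀ (Real.exp Q), hX₀.trans_le (le_max_left _ _), ?_⟩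
  intro X hX a ps k1 k2 q k3 k4 k5 k6 k7 hok
  have hXX : X₀ ≤ X := (le_max_left _ _).trans hX
  have hXQ : Real.exp Q ≤ X := (le_max_right _ _).trans hX
  have hX1 : 1 < X := by linarith
  have hX0 : 0 < X := by linarith
  have hQL : Q ≤ Real.log X := by
    have := Real.log_le_log (Real.exp_pos Q) hXQ
    rwa [Real.log_exp] at this
  have hL1 : 1 ≤ t₀ * Real.log X := by
    have h1 : 1 / t₀ ≤ Real.log X := by linarith
    rw [div_le_iff₀ ht₀] at h1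
    linarith
  have hCX : C ≤ X ^ (ε / 8) := by
    have h1 : 8 * Real.log C / ε ≤ Real.log X := by linarith
    rw [div_le_iff₀ hε] at h1
    rw [Real.rpow_def_of_pos hX0]
    calc C = Real.exp (Real.log C) := (Real.exp_log (by linarith)).symm
      _ ≤ _ := Real.exp_le_exp.2 (by linarith)
  have F := hfr X hXX a ps k1 k2 q k3 k4 k5 k6 k7 hok
  have hl := linesS H.he0 H.he0' H.hPar H.hR5 H.hL0 H.hbt hc1 hc2 hc2' hlin ht₀ ht₁ hL1 k3 F
  obtain ⟨hX3, hkl, hzl, hAl, hnl, hn0, hn1, hnp, hyl, hyX, hY1, hYX, hEX, hjb, hadm⟩ := F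
  have hY0 : (0 : ℝ) < 2 ^ nw c a := by positivity
  have hYle : (2 : ℝ) ^ nw c a ≤ X := by
    refine le_trans ?_ hyX
    exact le_mul_of_one_le_left hY0.le hcw
  have hXB : X ≤ X ^ B₂ := by
    calc X = X ^ (1 : ℝ) := (Real.rpow_one X).symm
      _ ≤ X ^ B₂ := Real.rpow_le_rpow_of_exponent_le hX1.le hB₂
  rw [mul_assoc] at hjb hyX
  have hnmX : ∀ x ∈ JS (nw c a), (nm x.1 : ℝ) ≤ X ^ B₂ := fun x hx =>
    (JS_bd hx).2.1.trans (hYle.trans hXB)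
  have hAp : 0 < Real.exp (c1 * a.1.l + c2 * Real.log (2 ^ nw c a)) := Real.exp_pos _
  have hEE : cκ (prX (bp q.1)) * Real.log X + LN (clN a ps) + L0 (prX (bp q.1)) * Real.log X +
      40 * (t₀ * Real.log X) ≤ (E8X L0 q + ε / 8) * Real.log X := by
    have h1 := (abs_le.1 hnl).2
    have h2 : E8X L0 q = cκ (prX (bp q.1)) + svX q + L0 (prX (bp q.1)) := by
      unfold E8X svX; ring
    have h3 : t₀ * Real.log X ≤ ε / 400 * Real.log X :=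
      mul_le_mul_of_nonneg_right ht₂ (by linarith)
    have h4 : 0 ≤ ε * Real.log X := mul_nonneg hε.le (by linarith)
    rw [h2]
    linarith
  have hX4 : 1 ≤ X ^ (ε / 4) := Real.one_le_rpow hX1.le (by positivity)
  constructor
  · have h1 := HT X hX3 (LN (clN a ps)) (YcX Rh a ps) (Real.exp (e0 * a.1.l)) (X ^ (ε / 8))
      (Real.sqrt (2 ^ nw c a)) (1 / 10) (2 ^ nw c a)
      (ShSl (lmX ℓ Kf Tf (bp q.1) * Real.log X) a ps) hY1 hYX hY0 hYle (hyX.trans hXB)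
      (Real.exp_pos _) hEX (Real.rpow_nonneg hX0.le _) (alS π h lam a ps) hjb hadm
      (omP (nw c a)) 1 _ _ zero_le_one (fun x _ => (omP_bd _ x).1) hnmX hAp hl
    refine h1.trans ?_
    have h2 := fin_exp (g := 1) hX1 hε hC₁ zero_le_one ((show C₁ ≤ C by linarith).trans hCX) hX4
      hEE
    rw [one_mul] at h2
    exact h2
  · rintro rfl
    have h1 := HE X hX3 (LN (clN a ps)) (YcX Rh a ps) (Real.exp (e0 * a.1.l)) (X ^ (ε / 8))
      (Real.sqrt (2 ^ nw c a)) (1 / 10) (2 ^ nw c a)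
      (ShSl (lmX ℓ Kf Tf (bp q.1) * Real.log X) a ps) hY1 hYX hY0 hYle (hyX.trans hXB)
      (Real.exp_pos _) hEX (Real.rpow_nonneg hX0.le _) (alS π h lam a ps) hjb hadm
      (omP (nw c a)) 1 _ _ zero_le_one (fun x _ => (omP_bd _ x).1) hnmX hAp
      (fun i hi d hd b v hb hv hvi => by
        have h3 := hl i hi d hd b v hb hv hvi
        have e1 : (1 - (0 : ℝ)) * b - (2 - 0) * max 0 (b - Real.log (Real.exp (e0 * a.1.l))) =
          b - 2 * max 0 (b - Real.log (Real.exp (e0 * a.1.l))) := by ring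
        rw [e1] at h3
        exact h3)
    refine h1.trans ?_
    have hl0 : 0 ≤ a.1.l := by
      have h4 := (abs_le.1 hkl).1
      have h5 := (H.hPar _ k3.1.par).κ0
      have h6 : 8 / 9 * Real.log X ≤ cκ (prX (bp q.1)) * Real.log X :=
        mul_le_mul_of_nonneg_right h5 (by linarith)
      have h7 : t₀ * Real.log X ≤ 1 / 100000 * Real.log X :=
        mul_le_mul_of_nonneg_right ht₁ (by linarith)
      linarith
    have hE1 : 1 ≤ Real.exp (e0 * a.1.l) := Real.one_le_exp (mul_nonneg H.he0 hl0)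
    have hh := Z1F579.hE_Z hεB hE1 hEX
    have hh2 : hE (S (Real.exp (e0 * a.1.l))) ≤ X ^ (ε / 4) := by
      refine hh.trans ?_
      have e1 : (X ^ B₂) ^ (ε / (8 * B₂)) = X ^ (ε / 8) := by
        rw [← Real.rpow_mul hX0.le]
        congr 1
        field_simp
      have e2 : X ^ (ε / 4) = X ^ (ε / 8) * X ^ (ε / 8) := by
        rw [← Real.rpow_add hX0]; congr 1; ring
      have hCm : 200 * (1 + 1 / (ε / (8 * B₂))) ≤ C := by
        have := hC₁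
        linarith
      rw [e1, e2]
      exact mul_le_mul_of_nonneg_right (hCm.trans hCX) (by positivity)
    exact fin_exp hX1 hε hC₂ (hE_nonneg _) ((show C₂ ≤ C by linarith).trans hCX) hh2 hEE

section

variable {π : Λ → DPar} {h : ℝ → ℝ} {c₀ Rh e0 c β : ℝ} {Par : Set (Fin 3 ⊕ Fin 5 → ℝ)}
  {D5 : Set (Fin 5 → ℝ)} {ℓ Kf Tf Tt : (Fin 5 → ℝ) → ℝ} {L0 : (Fin 3 ⊕ Fin 5 → ℝ) → ℝ}

/-- **(Fa)** for the single lists -/
theorem faS (H : FrHS π h c₀ Rh e0 c β Par D5 ℓ Kf Tf Tt L0) :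
    FaU S8X (Dom8X c β Par (SinL β)) ∅ (E8X L0) (fun a => a.1.l) (nw c) e0 (alS π h)
      (fun (lam : Λ × Eis) a qs => okCX (π lam.1) lam.2 a qs) := by
  intro ε hε
  obtain ⟨δ, hδ, G⟩ := momS H (by norm_num [abs_le] : |(1 / 3 : ℝ)| ≤ 1)
    (by norm_num : (0 : ℝ) ≤ 1 / 6) (by norm_num) (by norm_num : (0 : ℝ) ≤ 1 / 2) (by norm_num)
    linX_Fa hε
  refine ⟨δ, hδ, fun lam N B => ?_⟩
  obtain ⟨δ', hδ', X₀, hX₀, G⟩ := G lam N B
  refine ⟨δ', hδ', X₀, hX₀, fun X hX a ps k1 k2 q k3 k4 k5 k6 k7 hok => ?_⟩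
  have g := (G X hX a ps k1 k2 q k3 k4 k5 k6 (fun p hp hlu => k7 p hp hlu) hok).1
  have e1 : (1 : ℝ) - 1 / 2 = 1 / 2 := by norm_num
  rw [e1] at g
  refine le_trans (le_of_eq ?_) g
  beta_reduce
  have hY0 : (0 : ℝ) < 2 ^ nw c a := by positivity
  have e3 : (Real.exp a.1.l ^ 2) ^ (1 / 6 : ℝ) = Real.exp (1 / 3 * a.1.l) := by
    rw [← Real.exp_nat_mul, ← Real.exp_mul]
    congr 1
    push_cast
    ring
  have e4 : Real.exp a.1.l ^ (2 / 3 : ℝ) = Real.exp (1 / 3 * a.1.l) * Real.exp (1 / 3 * a.1.l) := by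
    rw [← Real.exp_mul, ← Real.exp_add]
    congr 1
    ring
  have e6 : Real.exp (1 / 6 * Real.log (2 ^ nw c a)) = (2 ^ nw c a : ℝ) ^ (1 / 6 : ℝ) := by
    rw [mul_comm, ← Real.rpow_def_of_pos hY0]
  rw [← mul_assoc]
  congr 1
  rw [Real.exp_add, Real.div_rpow hY0.le (by positivity), e3, e4, e6]
  field_simp

/-- **(Fb)** for the single lists -/
theorem fbS (H : FrHS π h c₀ Rh e0 c β Par D5 ℓ Kf Tf Tt L0) {m₁ : ℝ} (hm : 20 ≤ m₁)
    (hm' : m₁ ≤ 30) :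
    FbU S8X (Dom8X c β Par (SinL β)) ∅ (E8X L0) (fun a => a.1.l) (nw c) e0 m₁ (alS π h)
      (fun (lam : Λ × Eis) a qs => okCX (π lam.1) lam.2 a qs) := by
  intro ε hε
  have hm0 : 0 < m₁ := by linarith
  have h1 : 1 / 30 ≤ 1 / m₁ := one_div_le_one_div_of_le hm0 hm'
  have h2 : 1 / m₁ ≤ 1 / 20 := one_div_le_one_div_of_le (by norm_num) hm
  obtain ⟨δ, hδ, G⟩ := momS H (show |2 / 3 - 1 / m₁| ≤ 1 by
      rw [abs_le]; constructor <;> linarith)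
    le_rfl zero_le_one (by norm_num : (0 : ℝ) ≤ 2) le_rfl (linX_Fb h1) hε
  refine ⟨δ, hδ, fun lam N B => ?_⟩
  obtain ⟨δ', hδ', X₀, hX₀, G⟩ := G lam N B
  refine ⟨δ', hδ', X₀, hX₀, fun X hX a ps k1 k2 q k3 k4 k5 k6 k7 hok => ?_⟩
  have g := (G X hX a ps k1 k2 q k3 k4 k5 k6 (fun p hp hlu => k7 p hp hlu) hok).1
  have e1 : (1 : ℝ) - 2 = -1 := by norm_num
  rw [e1] at g
  refine le_trans (le_of_eq ?_) g
  beta_reduce
  rw [← mul_assoc]
  congr 1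
  rw [← Real.exp_mul, ← Real.exp_neg, ← Real.exp_add]
  congr 1
  ring

/-- **(Fc)** for the single lists -/
theorem fcS (H : FrHS π h c₀ Rh e0 c β Par D5 ℓ Kf Tf Tt L0) {m₁ : ℝ} (hm : 20 ≤ m₁) :
    FcU S8X (Dom8X c β Par (SinL β)) ∅ (E8X L0) (fun a => a.1.l) (nw c) e0 m₁ (alS π h)
      (fun (lam : Λ × Eis) a qs => okCX (π lam.1) lam.2 a qs) := by
  intro ε hε
  have hm0 : 0 < m₁ := by linarith
  have h0 : 0 < 1 / m₁ := by positivity
  have h2 : 1 / m₁ ≤ 1 / 20 := one_div_le_one_div_of_le (by norm_num) hm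
  obtain ⟨δ, hδ, G⟩ := momS H (show |-(1 / 3) + 2 * (1 / m₁)| ≤ 1 by
      rw [abs_le]; constructor <;> linarith)
    zero_le_one le_rfl le_rfl (by norm_num : (0 : ℝ) ≤ 2) (linX_Fc h2) hε
  refine ⟨δ, hδ, fun lam N B => ?_⟩
  obtain ⟨δ', hδ', X₀, hX₀, G⟩ := G lam N B
  refine ⟨δ', hδ', X₀, hX₀, fun X hX a ps k1 k2 q k3 k4 k5 k6 k7 hok => ?_⟩
  have g := (G X hX a ps k1 k2 q k3 k4 k5 k6 (fun p hp hlu => k7 p hp hlu) hok).2 rfl
  refine le_trans (le_of_eq ?_) g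
  beta_reduce
  have hY0 : (0 : ℝ) < 2 ^ nw c a := by positivity
  congr 1
  rw [Real.exp_add, one_mul, Real.exp_log hY0, ← Real.exp_mul, ← Real.exp_nat_mul, ← Real.exp_add]
  congr 2
  push_cast
  ring

end

end Crest.Agent.R017.E3Sw829
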