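import Crest.Agent.R017.P10Sb_764
import Crest.Agent.R017.FrX_579

/-!
# Row 17, exceptional class, P1X (helper829): the frame `S8X`, single lists, joint numbers

* `ShSl` : number of a single list, the numbers of the cells with the shift `lm`
* `FrSD` : the facts of a child of `Dom8X`, `SinL` (helper579's `FrXD`)
* **`frS`** : `FrSD` from `UB`'s premises and the T-claims `CBA`
-/

set_option autoImplicit false
set_option linter.unusedSectionVars false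
set_option linter.unusedVariables false

noncomputable section

open Finset MeasureTheory
open scoped ComplexConjugate Classical

namespace Crest.Agent.R017.FrS829

open Crest.Agent.R012 Crest.Agent.R012.Eis Crest.Agent.R012.MC Crest.Agent.R012.Gauss880
open Crest.Agent.R012.LS2 (S mem_S)
open Crest.Agent.R012.Weight600 (osc norm_osc osc_add_right)
open Crest.Agent.R017.CM106 (CS FS TG)
open Crest.Agent.R017.C70
open Crest.Agent.R017.HP842 (Pc pc sqc alL)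
open Crest.Agent.R017.B770
open Crest.Agent.R017.FE47 (PU cx SM)
open Crest.Agent.R017.Prov71
open Crest.Agent.R017.Leg381 (Pf alF SF LF natl alF_natl)
open Crest.Agent.R017.RG64 (Ht)
open Crest.Agent.R017.E2440 (StE TE Fh)
open Crest.Agent.R017.Ex385 (CrQ)
open Crest.Agent.R017.LB48 (CrP GrP)
open Crest.Agent.R017.X6C180 (GF)
open Crest.Agent.R017.WDec180 (WD sc)
open Crest.Agent.R017.I1146 hiding cN
open Crest.Agent.R017.I1K764
open Crest.Agent.R017.StD828 (ln)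
open Crest.Agent.R017.StE828 (wD oD oD_zero oD_one log_nm_nonneg)
open Crest.Agent.R017.XG702 (Pcs)
open Crest.Agent.R017.XT71 (Sys Win mx)
open Crest.Agent.R017.UM71 Crest.Agent.R017.End699
open Crest.Agent.R017.E5B71 Crest.Agent.R017.E5P571 Crest.Agent.R017.E5L770
open Crest.Agent.R017.ExBox960 Crest.Agent.R017.ExP960
open Crest.Agent.R017.Sf770
open Crest.Agent.R017.E5LX770 (nB)
open Crest.Agent.R017.P1e54 Crest.Agent.R017.P1f54 Crest.Agent.R017.P1k54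
open Crest.Agent.R017.P1l54 (ParOK)
open Crest.Agent.R017.P1X960
open Crest.Agent.R017.Sup271 (NPm)
open Crest.Agent.R017.PX764 (Dk)
open Crest.Agent.R017.TM708 (PD R5)
open Crest.Agent.R017.P10X764
open Crest.Agent.R017.E3N146 (ShT lipS_ShT)
open Crest.Agent.R017.E3Nx744 (CBA thK jbc_x)
open Crest.Agent.R017.TNj90 (JBc)
open Crest.Agent.R017.E1551 (Adm)
open Crest.Agent.R017.FrX579 (lmX svX)

/-- the number of a single list, the numbers of the cells with the shift `lm` -/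
def ShSl (lm : ℝ) (a : BcX) (qs : List Pq) : ℝ → ℝ → ℝ → ℝ :=
  shB 0 (LN (clN a qs)) (fun γ b v => ShT (k5X a) a.1.z (a.2.1 2).z (LN (clN a qs)) γ b v + lm)

lemma lipS_ShSl (lm : ℝ) (a : BcX) (qs : List Pq) : LipS 3 (ShSl lm a qs) := by
  refine lipS_shB ?_
  intro γ b v b' v'
  have := lipS_ShT (k5X a) a.1.z (a.2.1 2).z (LN (clN a qs)) γ b v b' v'
  simp only
  linarith

variable {Λ : Type*}

/-- **the facts of a child, single lists**, tolerance `t₀ log X` -/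
structure FrSD (π : Λ → DPar) (h : ℝ → ℝ) (Rh e0 c : ℝ) (ℓ Kf Tf : (Fin 5 → ℝ) → ℝ)
    (cw B₂ J R' t₀ ε X : ℝ) (lam : Λ × Eis) (a : BcX) (qs : List Pq)
    (q : (I8X → ℝ) × (Kd → ℝ)) : Prop where
  X3 : 3 ≤ X
  kl : |a.1.l - cκ (prX (bp q.1)) * Real.log X| ≤ t₀ * Real.log X
  zl : |a.1.z - cx' (prX (bp q.1)) * Real.log X| ≤ t₀ * Real.log X
  Al : |a3 a.1.toBd - cN (prX (bp q.1)) * Real.log X| ≤ t₀ * Real.log X
  nl : |LN (clN a qs) - svX q * Real.log X| ≤ t₀ * Real.log X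
  n0 : (cκ (prX (bp q.1)) / 2 - 2 * cx' (prX (bp q.1))) * Real.log X - t₀ * Real.log X ≤
    LN (clN a qs)
  n1 : LN (clN a qs) ≤ (cN (prX (bp q.1)) + cx' (prX (bp q.1))) * Real.log X + t₀ * Real.log X
  np : 0 ≤ LN (clN a qs)
  yl : Real.log (2 ^ nw c a) ≤ tpW c (bp q.1) (q.1 (.inr 3)) * Real.log X + t₀ * Real.log X
  yX : cw * 2 ^ nw c a ≤ X
  Y1 : 1 ≤ YcX Rh a qs
  YX : YcX Rh a qs ≤ X ^ B₂
  EX : Real.exp (e0 * a.1.l) ≤ X ^ B₂
  jb : JBc (YcX Rh a qs) (cw * 2 ^ nw c a) (X ^ ε) J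
    (ShSl (lmX ℓ Kf Tf (bp q.1) * Real.log X) a qs) (alS π h lam a qs)
  adm : Adm (YcX Rh a qs) (Real.exp (LN (clN a qs))) R' (alS π h lam a qs)

set_option maxHeartbeats 4000000 in
/-- **the frame `S8X`, single lists** -/
theorem frS {π : Λ → DPar} {h : ℝ → ℝ} {c₀ : ℝ} (hpu : PU h c₀) (hP : ∀ lam, (π lam).OK)
    {Rh : ℝ} (hRh0 : 0 ≤ Rh) (hRh : ∀ u, cx h u ≠ 0 → |u| ≤ Rh) {e0 : ℝ}
    (he0 : 0 ≤ e0) (he0' : e0 ≤ 1) {c β : ℝ} (hc0 : 0 ≤ c) (hc1 : c ≤ 1)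
    {Par : Set (Fin 3 ⊕ Fin 5 → ℝ)} (hPar : ∀ p ∈ Par, ParOK p)
    {D5 : Set (Fin 5 → ℝ)} {ℓ Kf Tf : (Fin 5 → ℝ) → ℝ}
    (hDN : ∀ p : IX5 → ℝ, prX p ∈ Par → ZR β p → bN p ∈ D5)
    (hDR : ∀ p : IX5 → ℝ, prX p ∈ Par → ZR β p → bR p ∈ D5)
    (hR5 : ∀ p : IX5 → ℝ, prX p ∈ Par → ZR β p → R5 (bN p))
    (hKN : ∀ p : IX5 → ℝ, prX p ∈ Par → ZR β p →
      Kf (bN p) = max (cκ (prX p)) (5 / 4 * cN (prX p)))
    (hKR : ∀ p : IX5 → ℝ, prX p ∈ Par → ZR β p →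
      Kf (bR p) = max (cκ (prX p)) (5 / 4 * cN (prX p)))
    (hTN : ∀ (p : IX5 → ℝ) (v₀ v₁ v₂ b x' : ℝ), ChC c β Par p v₀ v₁ v₂ b x' →
      SinL β p v₀ v₁ v₂ → tpW c p b ≤ Tf (bN p))
    (hTR : ∀ (p : IX5 → ℝ) (v₀ v₁ v₂ b x' : ℝ), ChC c β Par p v₀ v₁ v₂ b x' →
      SinL β p v₀ v₁ v₂ → tpW c p b ≤ Tf (bR p))
    (hcb : CBA π h Dk Kf Tf D5 ℓ) {ε t₀ : ℝ} (hε : 0 < ε) (ht₀ : 0 < t₀) :
    ∃ δ : ℝ, 0 < δ ∧ ∀ (lam : Λ × Eis) (N : ℕ) (B cw : ℝ), 1 ≤ cw →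
    ∃ B₂ J R' : ℝ, 1 ≤ B₂ ∧ 0 ≤ J ∧ 0 ≤ R' ∧
    ∃ δ' : ℝ, 0 < δ' ∧ ∃ X₀ : ℝ, 1 < X₀ ∧ ∀ X : ℝ, X₀ ≤ X → ∀ (a : BcX) (qs : List Pq),
      qs.length ≤ N → (∀ p ∈ qs, Dq.lump p ∨ Dq.nl X p ≤ δ) → ∀ q ∈ Dom8X c β Par (SinL β),
      Win S8X q.1 δ N B δ' X a → (∀ t, |Dq.mass X qs t - q.2 t| ≤ δ) → Dq.Good X δ' B qs →
      (∀ p ∈ qs, ¬ Dq.lump p) → okCX (π lam.1) lam.2 a qs →
      FrSD π h Rh e0 c ℓ Kf Tf cw B₂ J R' t₀ ε X lam a qs q := by
  obtain ⟨τ₁, hτ₁, hτ₁ε, hcb⟩ := hcb (ε / 16) (by positivity)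
  obtain ⟨τ, hτ, hττ₁, hτ8, hτε, hτt⟩ : ∃ τ : ℝ, 0 < τ ∧ τ ≤ τ₁ ∧ τ ≤ 1 / 8 ∧ τ ≤ ε / 16 ∧ τ ≤ t₀ :=
    ⟨min (min τ₁ t₀) (min (1 / 8) (ε / 16)), lt_min (lt_min hτ₁ ht₀)
      (lt_min (by norm_num) (by positivity)),
      (min_le_left _ _).trans (min_le_left _ _), (min_le_right _ _).trans (min_le_left _ _),
      (min_le_right _ _).trans (min_le_right _ _), (min_le_left _ _).trans (min_le_right _ _)⟩
  obtain ⟨δ, hδ, hδτ, hδε⟩ : ∃ δ : ℝ, 0 < δ ∧ δ ≤ τ / 100 ∧ δ ≤ ε / 100 :=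
    ⟨min (τ / 100) (ε / 100), lt_min (by positivity) (by positivity), min_le_left _ _,
      min_le_right _ _⟩
  refine ⟨δ, hδ, ?_⟩
  rintro ⟨lam, s⟩ N B cw hcw
  -- the constants
  by_cases hs0 : s = 0
  · refine ⟨1, 0, 0, le_rfl, le_rfl, le_rfl, 1, one_pos, 2, by norm_num, ?_⟩
    intro X hX a qs _ _ q _ _ _ _ _ hok
    exact absurd hs0 hok.2.1.1
  set B₂ : ℝ := max B 3 with hB₂
  have hBB : B ≤ B₂ := le_max_left _ _
  have hB3 : 3 ≤ B₂ := le_max_right _ _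
  have hB0 : 0 < B₂ := by linarith
  obtain ⟨M₁, hcb⟩ := hcb lam N B₂
  set M : ℝ := (M₁ : ℝ) with hM
  have hM0 : 0 ≤ M := Nat.cast_nonneg M₁
  have hε16 : 0 < ε / 16 := by positivity
  have hsn : (1 : ℝ) ≤ (nm s : ℝ) ^ 2 := one_le_pow₀ (by exact_mod_cast nm_pos.2 hs0)
  obtain ⟨C, r, hC, hr, HI⟩ := jbc_x hpu (N + 3)
    (ε := ε / 16) (M := M) (B₂ := B₂) hε16 hM0 hB0
    hsn (Dd := ((ds s).card : ℝ)) (Nat.cast_nonneg _) (L := 3) (by norm_num)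
  obtain ⟨C₀, hC₀, HP⟩ := pbh_one hpu (N + 3) (ε := ε / 16) hε16
  have hC₀0 : 0 ≤ C₀ := by linarith
  obtain ⟨X₁, hX₁, hcb⟩ := hcb r hr
  set m₀ : ℝ := (M₁ : ℝ) + 6 * (N + 3) + 1 with hm₀
  have hm₀1 : 0 < m₀ := by positivity
  obtain ⟨δ', hδ', hdM⟩ : ∃ δ' : ℝ, 0 < δ' ∧ δ' ≤ ε / (16 * m₀) :=
    ⟨ε / (16 * m₀), by positivity, le_rfl⟩
  set cs : ℝ := Real.log ((nm s : ℝ) ^ 2) + Real.log cw with hcs
  have hcw0 : 0 < cw := by linarith
  have hcs1 : 0 ≤ Real.log ((nm s : ℝ) ^ 2) := Real.log_nonneg hsn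
  have hcs2 : 0 ≤ Real.log cw := Real.log_nonneg hcw
  have hcs0 : 0 ≤ cs := by linarith
  set CC : ℝ := C * (2 + C₀) + 1 with hCC
  have hCC1 : 1 ≤ CC := by
    have : 0 ≤ C * (2 + C₀) := by positivity
    linarith
  have hlCC : 0 ≤ Real.log CC := Real.log_nonneg hCC1
  have hlog2 : 0 < Real.log 2 := Real.log_pos (by norm_num)
  have hn1 : (1 : ℝ) ≤ nm (π lam).n := by exact_mod_cast nm_pos.2 (hP lam).ψ.q0
  set Q : ℝ := 2 + (((N + 3 : ℕ) : ℝ) * Rh + 1) + 8 * (Real.log 2 + cs) / τ +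
    2 * Real.log CC / ε + Real.log (nm (π lam).n) with hQ
  have hQ1 : 0 ≤ ((N + 3 : ℕ) : ℝ) * Rh + 1 := by positivity
  have hQ2 : 0 ≤ 8 * (Real.log 2 + cs) / τ := by positivity
  have hQ3 : 0 ≤ 2 * Real.log CC / ε := by positivity
  have hQ4 : 0 ≤ Real.log (nm (π lam).n) := Real.log_nonneg hn1
  refine ⟨B₂, max (((N + 3 : ℕ) : ℝ) * M) 12, 2 * (((N + 3 : ℕ) : ℝ) * Rh), by linarith,
    (by norm_num : (0 : ℝ) ≤ 12).trans (le_max_right _ _), by positivity, δ', hδ',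
    max X₁ (Real.exp Q), hX₁.trans_le (le_max_left _ _), ?_⟩
  intro X hX a qs hlen hgl q hq hw hm hg hl hok
  have hX1' : X₁ ≤ X := (le_max_left _ _).trans hX
  have hXQ : Real.exp Q ≤ X := (le_max_right _ _).trans hX
  have hX1 : 1 < X := by linarith
  have hX0 : 0 < X := by linarith
  set L := Real.log X with hL
  have hQL : Q ≤ L := by
    have := Real.log_le_log (Real.exp_pos Q) hXQ
    rwa [Real.log_exp] at this
  have hL2 : 2 ≤ L := by linarith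
  have hL0' : 0 < L := by linarith
  have hX3 : 3 ≤ X := by
    have h1 : Real.exp 2 ≤ X := (Real.exp_le_exp.2 (by linarith)).trans hXQ
    have h2 := Real.add_one_le_exp 2
    linarith
  have hLN' : ((N + 3 : ℕ) : ℝ) * Rh + 1 ≤ L := by linarith
  have hLτ : Real.log 2 + cs ≤ τ / 8 * L := by
    have h1 : 8 * (Real.log 2 + cs) / τ ≤ L := by linarith
    rw [div_le_iff₀ hτ] at h1
    linarith
  have hLC : CC ≤ X ^ (ε / 2) := by
    have h1 : 2 * Real.log CC / ε ≤ L := by linarith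
    rw [div_le_iff₀ hε] at h1
    rw [Real.rpow_def_of_pos hX0, ← hL]
    rw [← Real.exp_log (show 0 < CC by linarith)]
    exact Real.exp_le_exp.2 (by linarith)
  obtain ⟨hbok, hsm, hlmp, hamq, hb0⟩ := hok
  have hok : okCX (π lam) s a qs := ⟨hbok, hsm, hlmp, hamq, hb0⟩
  -- the window
  obtain ⟨hq1, hq2, hq3, hq4⟩ := hq
  set p : IX5 → ℝ := bp q.1 with hp
  have hpar : prX p ∈ Par := hq1.par
  have hzr : ZR β p := hq1.zr
  have hPp := hPar _ hpar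
  have hbN := hDN p hpar hzr
  have hbR := hDR p hpar hzr
  have hRb := hR5 p hpar hzr
  have hKNp := hKN p hpar hzr
  have hKRp := hKR p hpar hzr
  set κ := cκ (prX p) with hκ
  set NN := cN (prX p) with hNN
  set xx := cx' (prX p) with hxx
  set v₀ := q.1 (.inr 0) with hv₀
  set v₁ := q.1 (.inr 1) with hv₁
  set v₂ := q.1 (.inr 2) with hv₂
  set bb := q.1 (.inr 3) with hbb
  set x' := q.2 .am with hx'
  have hev : ∀ i, |S8X.ev X a i - q.1 i| ≤ δ := hw.ev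
  have hdiv : ∀ {z c : ℝ}, |z / L - c| ≤ δ → |z - c * L| ≤ δ * L := by
    intro z c h1
    have h2 : z - c * L = (z / L - c) * L := by field_simp
    rw [h2, abs_mul, abs_of_pos hL0']
    exact mul_le_mul_of_nonneg_right h1 hL0'.le
  have hk : |a.1.l - κ * L| ≤ δ * L := hdiv (hev (.inl (.inl (.inl 0))))
  have hz : |a.1.z - xx * L| ≤ δ * L := hdiv (hev (.inl (.inl (.inl 1))))
  have hu2 : |(a.1.us 2).z - cu (prX p) 2 * L| ≤ δ * L := hdiv (hev (.inl (.inl (.inr 2))))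
  have hu3 : |(a.1.us 3).z - cu (prX p) 3 * L| ≤ δ * L := hdiv (hev (.inl (.inl (.inr 3))))
  have hu4 : |(a.1.us 4).z - cu (prX p) 4 * L| ≤ δ * L := hdiv (hev (.inl (.inl (.inr 4))))
  have hzs : |a.1.zs 2 - p (.inr 1) * L| ≤ δ * L := hdiv (hev (.inl (.inr 1)))
  have hv0 : |(a.2.1 0).z - v₀ * L| ≤ δ * L := hdiv (hev (.inr 0))
  have hv1 : |(a.2.1 1).z - v₁ * L| ≤ δ * L := hdiv (hev (.inr 1))
  have hv2 : |(a.2.1 2).z - v₂ * L| ≤ δ * L := hdiv (hev (.inr 2))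
  have hbw : |a.2.2 - bb * L| ≤ δ * L := hdiv (hev (.inr 3))
  have hma : |LN qs - x' * L| ≤ δ * L := by
    have h1 := hm .am
    rw [mass_am hamq] at h1
    exact hdiv h1
  have hA : |a3 a.1.toBd - NN * L| ≤ 3 * (δ * L) := by
    have e1 : a3 a.1.toBd - NN * L = ((a.1.us 2).z - cu (prX p) 2 * L) +
        ((a.1.us 3).z - cu (prX p) 3 * L) + ((a.1.us 4).z - cu (prX p) 4 * L) := by
      rw [hNN]; unfold E5L770.a3 cN; ring
    rw [e1]
    refine (abs_add_le _ _).trans ?_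
    have := abs_add_le ((a.1.us 2).z - cu (prX p) 2 * L) ((a.1.us 3).z - cu (prX p) 3 * L)
    linarith
  obtain ⟨k1, k2⟩ := abs_le.1 hk
  obtain ⟨z1, z2⟩ := abs_le.1 hz
  obtain ⟨u21, u22⟩ := abs_le.1 hu2
  obtain ⟨zs1, zs2⟩ := abs_le.1 hzs
  obtain ⟨v01, v02⟩ := abs_le.1 hv0
  obtain ⟨v11, v12⟩ := abs_le.1 hv1
  obtain ⟨v21, v22⟩ := abs_le.1 hv2
  obtain ⟨m1, m2⟩ := abs_le.1 hma
  obtain ⟨A1, A2⟩ := abs_le.1 hA
  have htN := hTN p v₀ v₁ v₂ bb x' hq1 hq2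
  have htR := hTR p v₀ v₁ v₂ bb x' hq1 hq2
  set lm : ℝ := lmX ℓ Kf Tf p with hlm
  have hlm0 : 0 ≤ lm := le_max_left _ _
  have hlmN : thK Kf Tf (bN p) + ℓ (bN p) ≤ lm := (le_max_left _ _).trans (le_max_right _ _)
  have hlmR : thK Kf Tf (bR p) + ℓ (bR p) ≤ lm := (le_max_right _ _).trans (le_max_right _ _)
  obtain ⟨bP, hbP, e0b, e4b, w0, w1, w2, hKP, hlP, htP, hNP⟩ : ∃ bP : Fin 5 → ℝ, bP ∈ D5 ∧
      bP 0 = κ ∧ bP 4 = xx ∧ v₀ ≤ bP 1 ∧ v₁ ≤ bP 2 ∧ v₂ ≤ bP 3 ∧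
      Kf bP = max κ (5 / 4 * NN) ∧ thK Kf Tf bP + ℓ bP ≤ lm ∧
      tpW c p bb ≤ Tf bP ∧ bP 1 + bP 2 + bP 3 = NN := by
    rcases hq2.1 with hh | hh
    · exact ⟨bN p, hbN, rfl, rfl, hh.1, hh.2.1, hh.2.2, hKNp, hlmN, htN, rfl⟩
    · refine ⟨bR p, hbR, rfl, rfl, hh.1, hh.2.1, hh.2.2, hKRp, hlmR, htR, ?_⟩
      show p (.inr 1) + (cu (prX p) 2 + cu (prX p) 3 - p (.inr 1)) + cu (prX p) 4 =
        cu (prX p) 2 + cu (prX p) 3 + cu (prX p) 4
      ring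
  have hs1 : bb ≤ NN - (v₀ + v₁ + v₂) := hq1.s1
  have hx1 : x' ≤ xx := hq1.x1
  have hcN : NN = cu (prX p) 2 + cu (prX p) 3 + cu (prX p) 4 := rfl
  set n := LN (clN a qs) with hn
  have hnz : n = (a.2.1 0).z + (a.2.1 1).z + (a.2.1 2).z + LN qs := LN_clN a qs
  have hLqs : 0 ≤ LN qs := by
    unfold LN
    refine List.sum_nonneg fun x hx => ?_
    obtain ⟨p', hp', rfl⟩ := List.mem_map.1 hx
    exact (hg p' hp').2.2
  have g0 := (hlmp 0).2
  have g1 := (hlmp 1).2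
  have g2 := (hlmp 2).2
  have hδL : 0 ≤ δ * L := by positivity
  have w0L := mul_le_mul_of_nonneg_right w0 hL0'.le
  have w1L := mul_le_mul_of_nonneg_right w1 hL0'.le
  have w2L := mul_le_mul_of_nonneg_right w2 hL0'.le
  have hx1L := mul_le_mul_of_nonneg_right hx1 hL0'.le
  have hq4L := mul_le_mul_of_nonneg_right hq4 hL0'.le
  have hκp : 0 ≤ κ := by linarith [hPp.κ0]
  have hκpL : 0 ≤ κ * L := by positivity
  set sv : ℝ := v₀ + v₁ + v₂ + x' with hsv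
  have hnup : n ≤ sv * L + 4 * (δ * L) := by
    rw [hnz, hsv]
    linarith
  have hnlow : sv * L - 4 * (δ * L) ≤ n := by
    rw [hnz, hsv]
    linarith
  have hnlo : (κ / 2 - 2 * xx) * L - 4 * (δ * L) ≤ n := by
    rw [hnz]
    linarith
  -- the region
  have rN := hRb.hN
  have rx1 := hRb.x1
  have radm := hRb.adm
  have rN : NN ≤ 102 / 125 * κ := rN
  have rx1 : xx ≤ 1 / 36 * κ := rx1
  have radm : xx ≤ 0 ∨ (NN + xx ≤ 4 / 5 * κ ∧ 2 * NN + 5 * xx ≤ 59 / 36 * κ ∧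
    2 * NN + 6 * xx ≤ 5 / 3 * κ) := radm
  have hT5 : min (2 * NN - κ) (3 / 4 * NN) + 5 * xx + xx ≤ 2 / 3 * κ := hRb.T5x_le
  set Yt : ℝ := 2 ^ nw c a with hYt
  have hYt0 : 0 < Yt := by positivity
  set y : ℝ := Real.log Yt with hy
  have hyn : y = Real.log 2 * nw c a := by rw [hy, hYt, Real.log_pow, mul_comm]
  have hy1 : y ≤ max 0 (min (tO a.1.toBd) (tO a.1.toBd + 2 * (c * a.1.l) - 2 * a.2.2)) +
      Real.log 2 := by
    rw [hyn]; exact nW_hi c a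
  have hy2 : min (tO a.1.toBd) (tO a.1.toBd + 2 * (c * a.1.l) - 2 * a.2.2) ≤ y := by
    rw [hyn]; exact nW_lo c a
  have htO : |tO a.1.toBd - top5 (prX p) * L| ≤ 10 * (δ * L) := by
    unfold Sf770.tO E5L770.top5
    exact tO_near hL0' hδ.le (by norm_num) (by norm_num) hk hz hA
  have htt2 : min (2 * NN - κ) (3 / 4 * NN) + 2 * xx ≤ top5 (prX p) := by
    have := hPp.x0
    unfold E5L770.top5
    linarith
  have htt3 : top5 (prX p) ≤ min (2 * NN - κ) (3 / 4 * NN) + 3 * xx := by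
    have := hPp.x0
    unfold E5L770.top5
    linarith
  obtain ⟨F1, F2, F3, F4⟩ := frameX (L := L) (δ := δ) (τ := τ) (κ := κ) (N := NN)
    (x := xx) (l := a.1.l) (tO := tO a.1.toBd) (tt := top5 (prX p)) (n := n) (y := y) (cs := cs)
    (e₁ := τ / 4) (c := c) (b := bb) (b' := a.2.2) (sv := sv) hL0' hδ.le hδτ hτ8 rfl hLτ hcs0
    hc0 hc1 hk htO htt2 htt3 hbw hnup (by rw [hsv]; linarith) hq1.b0 hκp hPp.κ1 hPp.x0
    (by linarith [hPp.N0]) rN rx1 (by rcases radm with h | ⟨h, h', -⟩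
                                      · exact Or.inl h
                                      · exact Or.inr ⟨h, h'⟩) hq1.b1 hy1 hy2
  have F5 := frameY (L := L) (δ := δ) (τ := τ) (κ := κ) (N := NN)
    (x := xx) (l := a.1.l) (tO := tO a.1.toBd) (tt := top5 (prX p)) (y := y) (cs := cs)
    (c := c) (b := bb) (b' := a.2.2) hL0' hδ.le hδτ hLτ
    hc0 hc1 hk htO htt2 hbw hPp.x0 hκp (by linarith [hPp.N0]) hq1.b1 hy1
  have htpW : tpW c p bb = min (top5 (prX p)) (top5 (prX p) + 2 * (c * κ) - 2 * bb) := rfl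
  rw [← htpW] at F1 F5
  -- the sets
  set E0 := Real.exp (e0 * a.1.l) with hE0
  have hlT : Real.log (cw * Yt * (nm s : ℝ) ^ 2) = y + cs := by
    rw [Real.log_mul (by positivity) (by positivity), Real.log_mul hcw0.ne' hYt0.ne', hcs]
    ring
  -- parent data
  set H : ℝ := X ^ δ' with hH
  have hH1 : 1 ≤ H := Real.one_le_rpow hX1.le hδ'.le
  have hs1' : ∀ i, Dq.s1 (a.2.1 i) ≤ H := by
    intro i
    have h1 : mx Dq.s1 (List.ofFn a.2.1) ≤ X ^ δ' := (le_max_right _ _).trans hw.s₁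
    exact (XT71.le_mx (List.mem_ofFn.2 ⟨i, rfl⟩)).trans h1
  have hs2' : ∀ i, Dq.s2 (a.2.1 i) ≤ X ^ B₂ := by
    intro i
    have h1 : mx Dq.s2 (List.ofFn a.2.1) ≤ X ^ B := (le_max_right _ _).trans hw.s₂
    exact ((XT71.le_mx (List.mem_ofFn.2 ⟨i, rfl⟩)).trans h1).trans
      (Real.rpow_le_rpow_of_exponent_le hX1.le hBB)
  have hgran : ∀ p' ∈ qs, p'.z ≤ δ * L := by
    intro p' hp'
    rcases hgl p' hp' with h1 | h1
    · exact absurd h1 (hl p' hp')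
    · unfold Pcs.nl at h1
      rw [div_le_iff₀ hL0'] at h1
      exact h1
  have hδτL : δ * L ≤ τ / 100 * L := mul_le_mul_of_nonneg_right hδτ hL0'.le
  have hτL : 0 ≤ τ * L := by positivity
  have hττL : τ * L ≤ τ₁ * L := mul_le_mul_of_nonneg_right hττ₁ hL0'.le
  have ham : ∀ p' ∈ qs, p'.kd = .am ∧ 0 ≤ p'.z ∧ p'.z ≤ τ₁ * Real.log X ∧
      (nm p'.d : ℝ) ≤ X ^ B₂ ∧ 1 + |p'.t| ≤ H := by
    intro p' hp'
    obtain ⟨s1', s2', z0'⟩ := hg p' hp'
    refine ⟨hamq p' hp', z0', ?_, s2'.trans (Real.rpow_le_rpow_of_exponent_le hX1.le hBB), s1'⟩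
    rw [← hL]
    have := hgran p' hp'
    linarith
  have hxqs : LN qs ≤ (xx + τ₁) * L := by linarith
  have hkk : |a.1.l - κ * L| ≤ τ₁ * L := hk.trans (by linarith)
  have hkk' : |a.1.l - bP 0 * L| ≤ τ₁ * L := by rw [e0b]; exact hkk
  have hxqs' : LN qs ≤ (bP 4 + τ₁) * L := by rw [e4b]; exact hxqs
  have hPDP : PD X τ₁ B₂ H N bP 1 a.2.1 qs a.1.l := by
    refine ⟨one_ne_zero, ?_, hH1, fun i => (hlmp i).1, fun i => (hlmp i).2, fun i => hs2' i,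
      fun i => hs1' i, ?_, ?_, ?_, ham, hlen, hxqs', hkk'⟩
    · rw [nm_one, Nat.cast_one]
      exact Real.one_le_rpow hX1.le hB0.le
    · rw [← hL]
      linarith
    · rw [← hL]
      linarith
    · rw [← hL]
      linarith
  have hcl : [a.2.1 0, a.2.1 1, a.2.1 2] ++ qs = clN a qs := (clN_eq a qs).symm
  have hTleP : Real.log (cw * Yt * (nm s : ℝ) ^ 2) ≤ (Tf bP + τ₁) * Real.log X := by
    rw [hlT, ← hL]
    exact F5.trans (mul_le_mul_of_nonneg_right (by linarith) hL0'.le)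
  have hth : Tf bP ≤ Kf bP - (bP 1 + bP 2 + bP 3) / 2 - bP 4 + 3 * thK Kf Tf bP := by
    have := le_max_right 0 ((Tf bP + (bP 1 + bP 2 + bP 3) / 2 + bP 4 - Kf bP) / 3)
    unfold thK
    linarith
  have hth0 : 0 ≤ thK Kf Tf bP := le_max_left _ _
  have hTleQ := hTleP.trans (mul_le_mul_of_nonneg_right (add_le_add_left hth τ₁) hL0'.le)
  set um : ℝ := (a.2.1 2).z with hum
  have hk5 : |k5X a - Kf bP * Real.log X| ≤ τ₁ * Real.log X := by
    rw [← hL, hKP]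
    unfold k5X
    rw [max_mul_of_nonneg _ _ hL0'.le]
    refine (abs_max_sub_max_le_max _ _ _ _).trans (max_le ?_ ?_)
    · linarith
    · have e : 5 / 4 * a3 a.1.toBd - 5 / 4 * NN * L = 5 / 4 * (a3 a.1.toBd - NN * L) := by ring
      rw [e, abs_mul, abs_of_pos (by norm_num : (0 : ℝ) < 5 / 4)]
      linarith
  have hxw : |a.1.z - bP 4 * Real.log X| ≤ τ₁ * Real.log X := by
    rw [← hL, e4b]
    linarith
  have hcell := hcb X hX1' bP hbP 1 a.2.1 qs a.1.l H hPDP _ (thK Kf Tf bP) hth0 hTleP hTleQ M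
    le_rfl (B₂ * Real.log X) (k5X a) a.1.z um hk5 hxw (by
      refine (min_le_right _ _).trans ((min_le_right _ _).trans ?_)
      have : 0 ≤ τ₁ * Real.log X := by rw [← hL]; positivity
      linarith)
  rw [hcl, ← hn] at hcell
  set Sh : ℝ → ℝ → ℝ → ℝ := ShSl (lm * L) a qs with hSh
  have hHM : ∀ m : ℕ, (m : ℝ) ≤ m₀ → H ^ m ≤ X ^ (ε / 16) := by
    intro m hm'
    rw [hH, ← Real.rpow_natCast, ← Real.rpow_mul hX0.le]
    refine Real.rpow_le_rpow_of_exponent_le hX1.le ?_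
    have h1 : δ' * m₀ ≤ ε / 16 := by
      have := mul_le_mul_of_nonneg_right hdM hm₀1.le
      refine this.trans (le_of_eq ?_)
      field_simp
    exact (mul_le_mul_of_nonneg_left hm' hδ'.le).trans h1
  have hM₁m : (M₁ : ℝ) ≤ m₀ := by
    have : (0 : ℝ) ≤ (N : ℝ) := Nat.cast_nonneg _
    linarith
  set F : ℝ := X ^ (ε / 8) with hF
  have hF0 : 0 ≤ F := by positivity
  have hFle : H ^ M₁ * X ^ (thK Kf Tf bP + ℓ bP + ε / 16) ≤ F * Real.exp (lm * L) := by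
    have e1 : Real.exp (lm * L) = X ^ lm := by
      rw [Real.rpow_def_of_pos hX0, ← hL, mul_comm]
    rw [e1, hF]
    calc H ^ M₁ * X ^ (thK Kf Tf bP + ℓ bP + ε / 16) ≤ X ^ (ε / 16) * X ^ (lm + ε / 16) :=
          mul_le_mul (hHM M₁ hM₁m) (Real.rpow_le_rpow_of_exponent_le hX1.le (by linarith))
            (by positivity) (by positivity)
      _ = X ^ (ε / 8) * X ^ lm := by
          rw [← Real.rpow_add hX0, ← Real.rpow_add hX0]
          congr 1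
          ring
  have hCL : CellK Dk h (π lam) 1 (clN a qs) (X ^ B₂) r M
      (Real.log (cw * Yt * (nm s : ℝ) ^ 2)) (B₂ * Real.log X) F Sh := by
    intro g hgp hgX b l ps' hb hbE hl' hch h1 h2
    refine (hcell g hgp hgX b l ps' hb hbE hl' hch h1 h2).trans ?_
    have hc0 : 0 ≤ I1146.cN ps' (clN a qs) ^ M := Real.rpow_nonneg (cN_nonneg _ _) _
    have e1 : ShT (k5X a) a.1.z um n (Real.log (nm g)) b (l - b) + lm * L ≤
        Sh (Real.log (nm g)) b (l - b) := le_max_left _ _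
    calc H ^ M₁ * X ^ (thK Kf Tf bP + ℓ bP + ε / 16) * I1146.cN ps' (clN a qs) ^ M *
          Real.exp (ShT (k5X a) a.1.z um n (Real.log (nm g)) b (l - b)) ≤
        F * Real.exp (lm * L) * I1146.cN ps' (clN a qs) ^ M *
          Real.exp (ShT (k5X a) a.1.z um n (Real.log (nm g)) b (l - b)) := by
          gcongr
      _ = F * I1146.cN ps' (clN a qs) ^ M * Real.exp
          (ShT (k5X a) a.1.z um n (Real.log (nm g)) b (l - b) + lm * L) := by
          rw [Real.exp_add]; ring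
      _ ≤ _ := by gcongr
  -- the sequence
  have hdom := dom_list (hP lam) h hsm 1 (clN a qs)
  have hlen3 : (clN a qs).length ≤ N + 3 := by
    rw [clN_eq, List.length_append]
    simp only [List.length_cons, List.length_nil]
    omega
  have hcz : ∀ p' ∈ clN a qs, 0 ≤ p'.z := by
    intro p' hp'
    rw [clN_eq] at hp'
    rcases List.mem_append.1 hp' with h1 | h1
    · simp only [List.mem_cons, List.not_mem_nil, or_false] at h1
      rcases h1 with rfl | rfl | rfl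
      · exact g0
      · exact g1
      · exact g2
    · exact (hg p' h1).2.2
  have hczL : ∀ p' ∈ clN a qs, 0 ≤ p'.z ∧ p'.z ≤ Real.log X := by
    intro p' hp'
    refine ⟨hcz p' hp', ?_⟩
    have h1 : p'.z ≤ n := by
      rw [hn]
      unfold LN
      refine List.single_le_sum ?_ _ (List.mem_map.2 ⟨p', hp', rfl⟩)
      intro x hx
      obtain ⟨p'', hp'', rfl⟩ := List.mem_map.1 hx
      exact hcz p'' hp''
    exact h1.trans F4
  have hn0 : 0 ≤ n := by rw [hnz]; positivity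
  have hYc1 : 1 ≤ YcX Rh a qs := by
    refine Real.one_le_exp ?_
    have : 0 ≤ ((clN a qs).length : ℝ) * Rh := by positivity
    linarith
  have hYrX : YcX Rh a qs ≤ X ^ B₂ := by
    rw [Real.rpow_def_of_pos hX0, ← hL]
    refine Real.exp_le_exp.2 ?_
    have h1 : ((clN a qs).length : ℝ) * Rh ≤ ((N + 3 : ℕ) : ℝ) * Rh :=
      mul_le_mul_of_nonneg_right (by exact_mod_cast hlen3) hRh0
    have : L * 3 ≤ L * B₂ := mul_le_mul_of_nonneg_left hB3 hL0'.le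
    linarith
  have hadm : Adm (YcX Rh a qs) (Real.exp n) (2 * (((N + 3 : ℕ) : ℝ) * Rh))
      (alS π h (lam, s) a qs) := by
    have hadm1 := Adm_list (h := h) (N := (clN a qs).length) hRh0 hRh (π lam) 1 (ps := clN a qs)
      le_rfl (Y := YcX Rh a qs) (Real.exp_le_exp.2 (by linarith))
    have hne : ∀ m, alS π h (lam, s) a qs m ≠ 0 →
        sqc 1 (alF 1 1 (π lam) h (natl (clN a qs))) m ≠ 0 := by
      intro m hm h0
      apply hm
      have := hdom.le m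
      rw [h0, norm_zero] at this
      exact norm_le_zero_iff.1 this
    have hlR : ((clN a qs).length : ℝ) * Rh ≤ ((N + 3 : ℕ) : ℝ) * Rh :=
      mul_le_mul_of_nonneg_right (by exact_mod_cast hlen3) hRh0
    refine ⟨fun m hm => hadm1.sup m (hne m hm), fun m hm => ?_⟩
    refine (hadm1.win m (hne m hm)).trans ?_
    linarith
  -- the joint numbers
  have hPB := HP X hX3 (π lam) (hP lam) 1 (clN a qs) hlen3 hcz F4 (max (((N + 3 : ℕ) : ℝ) * M) 12)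
    ((by norm_num : (0 : ℝ) ≤ 12).trans (le_max_right _ _)) ((X ^ (B₂ + 1)) ^ 2)
  rw [← hn] at hPB
  have hWX : cw * Yt * (nm s : ℝ) ^ 2 ≤ X := by
    rw [← Real.exp_log (show 0 < cw * Yt * (nm s : ℝ) ^ 2 by positivity), ← Real.exp_log hX0, hlT]
    refine Real.exp_le_exp.2 ?_
    have h1 := le_max_left y (τ / 4 * L + 2 * n - a.1.l)
    linarith
  set Fb : ℝ := C₀ * X ^ (ε / 16) with hFb
  have hFb0 : 0 ≤ Fb := by positivity
  have hJB := HI X hX3 (π lam) (hP lam) 1 (clN a qs) (clN a qs) hlen3 hlen3 hczL hczL 0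
    (by simp) (sqc 1 (alF 1 1 (π lam) h (natl (clN a qs)))) (fun n => by simp) (YcX Rh a qs)
    (cw * Yt) (Real.log (cw * Yt * (nm s : ℝ) ^ 2)) F F (C₀ * X ^ (ε / 16) * Real.exp (5 / 3 * n))
    0 Fb Sh hYc1 hYrX hWX le_rfl hF0 hF0 (by positivity) hFb0 (lipS_ShSl _ _ _) hCL hCL hPB (by
      intro γ b v _ _ _ _ _
      have e1 : C₀ * X ^ (ε / 16) * Real.exp (5 / 3 * n) * Real.exp (bcx 0 γ b v) =
          Fb * Real.exp (5 / 3 * n + bcx 0 γ b v) := by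
        rw [hFb, Real.exp_add]
        ring
      rw [e1]
      exact mul_le_mul_of_nonneg_left (Real.exp_le_exp.2 (le_max_right _ _)) hFb0)
    (alS π h (lam, s) a qs) hdom
  have hFb8 : Fb ≤ C₀ * X ^ (ε / 8) := by
    rw [hFb]
    refine mul_le_mul_of_nonneg_left ?_ hC₀0
    exact Real.rpow_le_rpow_of_exponent_le hX1.le (by linarith)
  have hFac : C * X ^ (ε / 16) * (F + F + Fb) ≤ X ^ ε := by
    calc C * X ^ (ε / 16) * (F + F + Fb) ≤
          C * X ^ (ε / 16) * (X ^ (ε / 8) + X ^ (ε / 8) + C₀ * X ^ (ε / 8)) := by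
          rw [hF]; gcongr
      _ = C * (2 + C₀) * X ^ (3 * ε / 16) := by
          have e1 : X ^ (3 * ε / 16) = X ^ (ε / 16) * X ^ (ε / 8) := by
            rw [← Real.rpow_add hX0]; congr 1; ring
          rw [e1]; ring
      _ ≤ CC * X ^ (3 * ε / 16) := mul_le_mul_of_nonneg_right (by linarith) (by positivity)
      _ ≤ X ^ (ε / 2) * X ^ (3 * ε / 16) := mul_le_mul_of_nonneg_right hLC (by positivity)
      _ = X ^ (ε / 2 + 3 * ε / 16) := by rw [← Real.rpow_add hX0]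
      _ ≤ X ^ ε := Real.rpow_le_rpow_of_exponent_le hX1.le (by linarith)
  have hjb : JBc (YcX Rh a qs) (cw * Yt) (X ^ ε) (max (((N + 3 : ℕ) : ℝ) * M) 12) Sh
      (alS π h (lam, s) a qs) := fun d hd Bb V h1 h2 h3 h4 t =>
    (hJB d hd Bb V h1 h2 h3 h4 t).trans (by gcongr)
  have hδt : ∀ m : ℝ, m ≤ 40 → m * (δ * L) ≤ t₀ * L := by
    intro m hm'
    have h1 : δ * L ≤ τ / 100 * L := mul_le_mul_of_nonneg_right hδτ hL0'.le
    have h2 : τ * L ≤ t₀ * L := mul_le_mul_of_nonneg_right hτt hL0'.le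
    have h3 : m * (δ * L) ≤ 40 * (δ * L) := mul_le_mul_of_nonneg_right hm' hδL
    linarith
  have hδ1 := hδt 1 (by norm_num)
  have hδ3 := hδt 3 (by norm_num)
  have hδ4 := hδt 4 (by norm_num)
  have hδ40 := hδt 40 le_rfl
  refine ⟨hX3, ?_, ?_, ?_, ?_, ?_, ?_, hn0, ?_, ?_, hYc1, hYrX, ?_, hjb, hadm⟩
  · exact hk.trans (by linarith)
  · exact hz.trans (by linarith)
  · exact hA.trans (by linarith)
  · have e1 : svX q = sv := rfl
    rw [e1, abs_le]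
    constructor <;> linarith
  · linarith
  · have h1 : sv * L ≤ (NN + xx) * L := mul_le_mul_of_nonneg_right (by rw [hsv]; linarith) hL0'.le
    show n ≤ (NN + xx) * L + t₀ * L
    linarith
  · have h1 : y + cs ≤ (tpW c p bb + τ) * L := F5
    have h2 : τ * L ≤ t₀ * L := mul_le_mul_of_nonneg_right hτt hL0'.le
    show y ≤ tpW c p bb * L + t₀ * L
    linarith
  · have h1 : cw * Yt ≤ cw * Yt * (nm s : ℝ) ^ 2 := le_mul_of_one_le_right (by positivity) hsn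
    exact h1.trans hWX
  · rw [Real.rpow_def_of_pos hX0, ← hL]
    refine Real.exp_le_exp.2 ?_
    have h0 : 0 ≤ a.1.l := by
      have h3 : 8 / 9 * L ≤ κ * L := mul_le_mul_of_nonneg_right hPp.κ0 hL0'.le
      have h4 : τ * L ≤ 1 / 8 * L := mul_le_mul_of_nonneg_right hτ8 hL0'.le
      linarith
    have h1 : e0 * a.1.l ≤ 1 * a.1.l := mul_le_mul_of_nonneg_right he0' h0
    have h2 : κ * L ≤ 1 * L := mul_le_mul_of_nonneg_right hPp.κ1 hL0'.le
    have h3 : L * 3 ≤ L * B₂ := mul_le_mul_of_nonneg_left hB3 hL0'.le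
    have h4 : τ * L ≤ 1 / 8 * L := mul_le_mul_of_nonneg_right hτ8 hL0'.le
    linarith

end Crest.Agent.R017.FrS829
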