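import Crest.Agent.R017.E3Fb_61
import Crest.Agent.R017.FrS_829

/-!
# Row 17, R8 (E3), exceptional class (helper829): `E3SU` from the frame

The text is helper61's (E3Fc_61, E3Fe_61) with the single lists.
* `okS` : the admissible data of a single list
* **`e3su_of`** : `E3SU` from `TnU`, `RnU`, `FaU`, `FbU`, `FcU`, `CtU`, `SzU`
* **`szS`** : `SzU` of the single lists from `frS`
-/

set_option autoImplicit false
set_option linter.unusedVariables false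

noncomputable section

open Finset
open scoped Classical ComplexConjugate ContDiff

namespace Crest.Agent.R017.E3Sx829

open Crest.Agent.R012 Crest.Agent.R012.Eis
open Crest.Agent.R017.B770
open Crest.Agent.R017.Prov71
open Crest.Agent.R017.XT71 (Sys Win mx)
open Crest.Agent.R017.UM71 Crest.Agent.R017.End699
open Crest.Agent.R017.E5B71 Crest.Agent.R017.E5P571
open Crest.Agent.R017.P1e54 Crest.Agent.R017.P1f54 Crest.Agent.R017.P1k54
open Crest.Agent.R017.P1l54 (ParOK)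
open Crest.Agent.R017.ExBox960 Crest.Agent.R017.ExP960
open Crest.Agent.R017.P1X960
open Crest.Agent.R017.P10X764
open Crest.Agent.R017.I1146 (LN)
open Crest.Agent.R017.E3F61
open Crest.Agent.R017.FrS829 (FrSD)

variable {Λ : Type*}

/-- the admissible data of a single list -/
def okS (π : Λ → DPar) (lam : Λ × Eis) (a : BcX) (qs : List Pq) : Prop :=
  okCX (π lam.1) lam.2 a qs

/-- **the Gram error of the single lists** -/
theorem e3su_of {π : Λ → DPar} {h : ℝ → ℝ} {e0 c Rh β m₁ : ℝ}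
    {Par : Set (Fin 3 ⊕ Fin 5 → ℝ)} {L0 : (Fin 3 ⊕ Fin 5 → ℝ) → ℝ}
    {H : ℝ → BcX → List Pq → ℕ → Eis → Eis → ℝ} (he0 : 0 ≤ e0) (he1 : e0 ≤ 1) (hm₁ : 20 ≤ m₁)
    (hH : ∀ cc a ps i d e, 0 < H cc a ps i d e)
    (hsz : SzU S8X (Dom8X c β Par (SinL β)) ∅ (fun a : BcX => a.1.l) (nw c)
      (fun a qs => LN (clN a qs)) (YcX Rh) e0 (alS π h) (okS π))
    (hT : TnU S8X (Dom8X c β Par (SinL β)) ∅ (E8X L0) (fun a : BcX => a.1.l) (nw c) e0 m₁
      (alS π h) (okS π) H)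
    (hR : RnU S8X (Dom8X c β Par (SinL β)) ∅ (E8X L0) (fun a : BcX => a.1.l) (nw c)
      (fun a qs => LN (clN a qs)) e0 (alS π h) (okS π) H)
    (ha : FaU S8X (Dom8X c β Par (SinL β)) ∅ (E8X L0) (fun a : BcX => a.1.l) (nw c) e0
      (alS π h) (okS π))
    (hb : FbU S8X (Dom8X c β Par (SinL β)) ∅ (E8X L0) (fun a : BcX => a.1.l) (nw c) e0 m₁
      (alS π h) (okS π))
    (hc : FcU S8X (Dom8X c β Par (SinL β)) ∅ (E8X L0) (fun a : BcX => a.1.l) (nw c) e0 m₁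
      (alS π h) (okS π))
    (hct : ∀ R : Λ → ℝ, (∀ lam, 0 ≤ R lam) →
      CtU S8X (Dom8X c β Par (SinL β)) ∅ (E8X L0) (fun a : BcX => a.1.l) (nw c)
        (fun lam : Λ × Eis => R lam.1) e0 m₁ (alS π h) (okS π)) :
    E3SU π h e0 c Rh β Par L0 := by
  intro R hR0
  refine (gram_ub he0 he1 hm₁ hH hsz hT hR ha hb hc (fun lam : Λ × Eis => R lam.1)
    (hct R hR0)).ub (fun lam a ps hok => ?_) (fun lam a ps hok => ?_)
  · have h1 : okCX (π lam.1) lam.2 a ps := hok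
    unfold E3S
    rw [if_pos h1]
    rfl
  · have h1 : ¬ (okCX (π lam.1) lam.2 a ps) := hok
    unfold E3S
    rw [if_neg h1]

/-- **sizes and admissibility of the single lists** -/
theorem szS {π : Λ → DPar} {h : ℝ → ℝ} {Rh e0 c β ε : ℝ} {Par : Set (Fin 3 ⊕ Fin 5 → ℝ)}
    {ℓ Kf Tf : (Fin 5 → ℝ) → ℝ} (hPar : ∀ p ∈ Par, ParOK p)
    (hfr : ∃ δ : ℝ, 0 < δ ∧ ∀ (lam : Λ × Eis) (N : ℕ) (B cw : ℝ), 1 ≤ cw →
      ∃ B₂ J R' : ℝ, 1 ≤ B₂ ∧ 0 ≤ J ∧ 0 ≤ R' ∧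
      ∃ δ' : ℝ, 0 < δ' ∧ ∃ X₀ : ℝ, 1 < X₀ ∧ ∀ X : ℝ, X₀ ≤ X → ∀ (a : BcX) (qs : List Pq),
        qs.length ≤ N → (∀ p ∈ qs, Dq.lump p ∨ Dq.nl X p ≤ δ) → ∀ q ∈ Dom8X c β Par (SinL β),
        Win S8X q.1 δ N B δ' X a → (∀ t, |Dq.mass X qs t - q.2 t| ≤ δ) → Dq.Good X δ' B qs →
        (∀ p ∈ qs, ¬ Dq.lump p) → okCX (π lam.1) lam.2 a qs →
        FrSD π h Rh e0 c ℓ Kf Tf cw B₂ J R' (1 / 100) ε X lam a qs q) :
    SzU S8X (Dom8X c β Par (SinL β)) ∅ (fun a : BcX => a.1.l) (nw c)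
      (fun a qs => LN (clN a qs)) (YcX Rh) e0 (alS π h) (okS π) := by
  obtain ⟨δ, hδ, hfr⟩ := hfr
  refine ⟨δ, hδ, fun lam N B => ?_⟩
  obtain ⟨B₂, J, R', hB₂, -, hR', δ', hδ', X₀, hX₀, hfr⟩ := hfr lam N B 1 le_rfl
  refine ⟨2, R', by norm_num, hR', δ', hδ', X₀, hX₀, ?_⟩
  intro X hX a qs k1 k2 q k3 k4 k5 k6 k7 hok
  have hok' : okCX (π lam.1) lam.2 a qs := hok
  have hF := hfr X hX a qs k1 k2 q k3 k4 k5 k6 (fun p hp hl => k7 p hp hl) hok'
  have hP := hPar _ k3.1.par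
  have hX3 := hF.X3
  have hX0 : 0 < X := by linarith
  have hL : 1 ≤ Real.log X := by
    have h1 : Real.exp 1 ≤ X := by
      have := Real.exp_one_lt_d9
      linarith
    have h2 := Real.log_le_log (Real.exp_pos 1) h1
    rwa [Real.log_exp] at h2
  obtain ⟨l1, l2⟩ := abs_le.1 hF.kl
  have hκ0 := hP.κ0
  have hκ1 := hP.κ1
  have hN1 := hP.N1
  have hx1 := hP.x1
  have a1 : 8 / 9 * Real.log X ≤ cκ (prX (bp q.1)) * Real.log X :=
    mul_le_mul_of_nonneg_right hκ0 (by linarith)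
  have a2 : cκ (prX (bp q.1)) * Real.log X ≤ 1 * Real.log X :=
    mul_le_mul_of_nonneg_right hκ1 (by linarith)
  have a3 : (cN (prX (bp q.1)) + cx' (prX (bp q.1))) * Real.log X ≤ (1 + 1 / 3) * Real.log X :=
    mul_le_mul_of_nonneg_right (by linarith) (by linarith)
  have hex : ∀ t : ℝ, t ≤ 2 * Real.log X → Real.exp t ≤ X ^ (2 : ℝ) := by
    intro t ht
    rw [Real.rpow_def_of_pos hX0]
    exact Real.exp_le_exp.2 (by linarith)
  refine ⟨by linarith, hex _ (by linarith), ?_, hex _ (by linarith [hF.n1]),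
    by linarith [hF.Y1], hF.adm⟩
  have h1 := hF.yX
  rw [one_mul] at h1
  refine h1.trans ?_
  calc X = X ^ (1 : ℝ) := (Real.rpow_one X).symm
    _ ≤ X ^ (2 : ℝ) := Real.rpow_le_rpow_of_exponent_le (by linarith) (by norm_num)

end Crest.Agent.R017.E3Sx829
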