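import Crest.Agent.R017.E3Sw_290
import Crest.Agent.R017.E3Zc_548

/-!
# Row 17, block C70, leaf E3 (S-sum), (CELL) part 7 (helper290): one pair of levels

* `sdC_SDf` : the data of helper548's `pair_Z`
* `cell_1`, `cell_2` : the cells of the literal family
* `PAIR` : `Σ_{q,t} MPTr` at a pair of levels from the Möbius bounds
-/

set_option autoImplicit false
set_option linter.unusedVariables false

noncomputable section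

open Finset
open scoped ComplexConjugate Classical ContDiff

namespace Crest.Agent.R017.E3Sy290

open Crest.Agent.R012 Crest.Agent.R012.Eis
open Crest.Agent.R012.LS2 (S mem_S)
open Crest.Agent.R012.Div277 (dvs mem_dvs)
open Crest.Agent.R012.Mob705 (pb mem_pb)
open Crest.Agent.R017.CM106 (CS FS)
open Crest.Agent.R017.C70 (JC OKJ)
open Crest.Agent.R017.E3A164 (Yp Ys)
open Crest.Agent.R017.GrB829 (IsC)
open Crest.Agent.R017.E3M829 (TC)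
open Crest.Agent.R017.E3T829
open Crest.Agent.R017.E3T1579 (T3 WQ)
open Crest.Agent.R017.E3T2579 (wL w1L)
open Crest.Agent.R017.E3F548 (Mc pc LC_pc Nq MPTr isC_ne)
open Crest.Agent.R017.E1551 (nmpos)
open Crest.Agent.R017.E3Sv290 (kC)
open Crest.Agent.R017.E3Sw290
open Crest.Agent.R017.E3Z548

lemma nm_isC {c : Eis} (hc : IsC c) : (nm c : ℝ) ≤ 9 := by
  have h3 : nm (3 : Eis) = 9 := nm_three
  rcases hc with rfl | rfl | rfl | rfl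
  · rw [nm_one]; norm_num
  · rw [h3]; norm_num
  · rw [nm_mul, h3, nm_w]; norm_num
  · rw [nm_mul, nm_pow, h3, nm_w]; norm_num

lemma nm_Mc {c c' : Eis} (hc : IsC c) (hc' : IsC c') : (nm (Mc c c') : ℝ) ≤ 59049 := by
  have h3 : nm (3 : Eis) = 9 := nm_three
  have h9 : nm (9 : Eis) = 81 := by
    have e : (9 : Eis) = 3 * 3 := by norm_num
    rw [e, nm_mul, h3]
  have n1 := nm_isC hc
  have n2 := nm_isC hc'
  unfold Mc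
  split_ifs with h
  · rw [h3]; norm_num
  · rw [nm_mul, nm_mul, nm_pow, h9]
    push_cast
    have a1 : (0 : ℝ) ≤ nm c := Nat.cast_nonneg _
    have a2 : (0 : ℝ) ≤ nm c' := Nat.cast_nonneg _
    calc (81 : ℝ) * (nm c * (nm c' : ℝ) ^ 2) ≤ 81 * (9 * 9 ^ 2) := by gcongr
      _ = 59049 := by norm_num

/-- the data of `pair_Z` -/
theorem sdC_SDf {z cJ cw cs K V V' H X b₀ : ℝ} {Bs : UT → ℝ} {EE : Finset Eis}
    (hcw : 1 ≤ cw) (hcs : 1 ≤ cs) (hcJ : cw * cs ≤ cJ) (hK : 0 < K) (hV : 0 < V) (hV' : 0 < V')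
    (hH : 0 < H) (hX : 0 < X) (hz : cJ * V ≤ z) (hBs : ∀ t, 0 ≤ Bs t) :
    SDf (fun P PR => sdC P PR z cJ cw cs K V V' H X Bs) cJ z K V V' H X Bs z (PcC z EE b₀ K) where
  std := fun P PR =>
    { hH := fun _ => rfl
      ext := fun l x => by fin_cases l <;> rfl
      om := fun l => by
        fin_cases l
        · rfl
        · rfl
        · rfl
        · funext γ
          exact Real.rpow_neg_one _
        · funext γ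
          change (nm γ : ℝ) ^ (-(1 / 2 : ℝ)) = (nm γ : ℝ) ^ (-(1 / 2) : ℝ)
          rfl
      Gs := fun l => by fin_cases l <;> rfl
      A := fun l d e γ => by fin_cases l <;> rfl
      dl := fun l => by fin_cases l <;> rfl
      Rp := fun _ => rfl }
  P := fun _ _ => rfl
  PR := fun _ _ => rfl
  ok := fun P PR hP hPR => sdC_OK hP hPR hcw hcs hcJ hK hV hV' hH hX hz hBs

lemma CellF_nonneg {P : Fin 5 → Eis → Eis → ℝ} {PR : Eis → Eis → ℝ}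
    {z cJ cw cs K V V' H X b₀ : ℝ} {Bs : UT → ℝ} {EE : Finset Eis} {af : Eis → Eis → Eis → ℂ}
    (hcw : 1 ≤ cw) (hcs : 1 ≤ cs) (hcJ : cw * cs ≤ cJ) (hK : 0 < K) (hV : 0 < V) (hV' : 0 < V')
    (hH : 0 < H) (hX : 0 < X) (hz : cJ * V ≤ z) (hBs : ∀ t, 0 ≤ Bs t) {x : Cd}
    (hx : PcC z EE b₀ K x) :
    0 ≤ CellF (sdC P PR z cJ cw cs K V V' H X Bs) K V V' X af x := by
  have h0 : (sdC (fun _ _ _ => 0) (fun _ _ => 0) z cJ cw cs K V V' H X Bs).OK z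
      (PcC z EE b₀ K) := sdC_OK (fun _ _ _ => le_rfl) (fun _ _ => le_rfl) hcw hcs hcJ hK hV hV' hH
        hX hz hBs
  change 0 ≤ CellF (sdC (fun _ _ _ => 0) (fun _ _ => 0) z cJ cw cs K V V' H X Bs) K V V' X af x
  unfold CellF
  refine mul_nonneg (hx.1.fac_nonneg hK hV hV' hH hX) (add_nonneg (sum_nonneg fun l _ =>
    mul_nonneg (h0.ext l x hx) (TQ_nonneg (h0.om l) _ _)) (h0.Rp _))

/-- the condition on the Möbius sums of one side -/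
def MB1 (w1 : ℝ → ℝ) (A ε C cw cs K V H : ℝ) (af : Eis → Eis → Eis → ℂ) (z : ℝ)
    (EE : Finset Eis) (Bs : UT → ℝ) (Zm : ℝ) : Prop :=
  ∀ c c', IsC c → IsC c' → ∀ t, TU z EE t → 1 ≤ cs * YU V t →
    MBU (pc c c') (fun y => w1 (cs * y)) A ε C cw cs K V H af Bs Zm t

/-- the condition on the Möbius sums of the other side -/
def MB2 (w1 : ℝ → ℝ) (A ε C cw cs K V H : ℝ) (af : Eis → Eis → Eis → ℂ) (z : ℝ)
    (EE : Finset Eis) (Bs : UT → ℝ) (Zm : ℝ) : Prop :=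
  ∀ c c', IsC c → IsC c' → ∀ t, TU z EE t → 1 ≤ cs * YU V t →
    MBU (fun m => conj (pc c c' m)) (fun y => w1 (cs * y)) A ε C cw cs K V H af Bs Zm t

lemma w_le {w1 : ℝ → ℝ} {Rw cs : ℝ} (hw : ∀ x, w1 x ≠ 0 → 0 < x ∧ |Real.log x| ≤ Rw)
    (hcs : Real.exp Rw ≤ cs) {y : ℝ} (hy : w1 (cs * y) ≠ 0) : y ≤ 1 := by
  obtain ⟨h1, h2⟩ := hw _ hy
  have hc0 : 0 < cs := (Real.exp_pos _).trans_le hcs
  have h3 : Real.log (cs * y) ≤ Rw := (le_abs_self _).trans h2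
  have h4 : cs * y ≤ Real.exp Rw := by
    rw [← Real.exp_log h1]
    exact Real.exp_le_exp.mpr h3
  by_contra h
  rw [not_le] at h
  nlinarith

lemma Nq_pos_eq {V : ℝ} (x : Cd) (q : Eis) (y : Yp) (h1 : x.q = q) (h2 : x.d = y.1)
    (h3 : x.c = y.2.2.1) (h4 : x.g = y.2.2.2) : Nq V q y = ZU V x.U := by
  have e : ZU V x.U = V / nm x.c / (nm x.q * (nm x.d : ℝ) ^ 2 * (nm x.g : ℝ) ^ 2) := rfl
  rw [e, h1, h2, h3, h4, div_div]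
  unfold Nq
  congr 1
  ring

section cells

variable {A Bw : ℕ} {Rw : ℝ} {w1 : ℝ → ℝ}

/-- **the cells of the literal family** -/
theorem cells {ε : ℝ} (hε : 0 < ε) (hε1 : ε ≤ 1) : ∃ C' : ℝ, 0 < C' ∧
    ∀ {A Bw : ℕ}, 4 ≤ Bw → ∀ {Rw : ℝ} {w1 : ℝ → ℝ},
      (∀ x, w1 x ≠ 0 → 0 < x ∧ |Real.log x| ≤ Rw) → ∀ {C cw cs b₀ : ℝ}, 0 ≤ C → 1 ≤ cw →
      1 ≤ cs → Real.exp Rw ≤ cs → 0 ≤ b₀ →
    ∀ {Z K V V' H X Zm : ℝ} {EE : Finset Eis} {Pr : Yp → Yp → Prop} {J : Finset (Eis × Eis)}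
      {E0 E1 R B : ℝ},
      1 ≤ Z → OKJ J → 0 ≤ R → R ≤ Z → 0 ≤ B → B ≤ Z → E1 ≤ Z → (∀ x ∈ J, (nm x.1 : ℝ) ≤ Z) →
      0 < K → K ≤ Z ^ 5 → 0 < V → 0 < V' → cw * cs * V ≤ Z ^ 5 → cw * cs * V' ≤ Z ^ 5 →
      0 < H → 0 < X → 1 ≤ Zm → kZ 59049 b₀ * (Z ^ 5) ^ 10 ≤ Zm →
    ∀ {af : Eis → Eis → Eis → ℂ}, (∀ d e, FS (af d e)) → ∀ {Bs Bs' : UT → ℝ},
      (∀ t, 0 ≤ Bs t) → (∀ t, 0 ≤ Bs' t) →
      MB1 w1 A ε C cw cs K V H af (Z ^ 5) EE Bs Zm →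
      MB2 w1 A ε C cw cs K V' H af (Z ^ 5) EE Bs' Zm →
      (∀ P PR, ∀ i ∈ OI Pr J EE E0 E1 R B Z b₀ K,
        sE1 A Bw K V V' af (w1L w1 V) i ≤ C' * C * cs ^ 2 * Zm ^ (3 * ε) *
          CellF (sdC P PR (Z ^ 5) (cw * cs) cw cs K V V' H X Bs) K V V' X af (cdI i)) ∧
      (∀ P PR, ∀ i ∈ OI Pr J EE E0 E1 R B Z b₀ K,
        sE2 A Bw K V V' af (w1L w1 V') i ≤ C' * C * cs ^ 2 * Zm ^ (3 * ε) *
          CellF (sdC P PR (Z ^ 5) (cw * cs) cw cs K V' V H X Bs') K V' V X af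
            (cdI i).swap) := by
  obtain ⟨C', hC', h⟩ := CELL hε hε1
  have hk0 : 0 ≤ kC 59049 := by unfold kC; norm_num
  refine ⟨C' * kC 59049 + 1, by positivity, ?_⟩
  intro A Bw hBw Rw w1 hw C cw cs b₀ hC hcw hcs hRcs hb₀ Z K V V' H X Zm EE Pr J E0 E1 R B hZ hJ
    hR0 hRZ hB0 hBZ hE1 hJ1 hK hKz hV hV' hVz hVz' hH hX hZm hZm2 af haf Bs Bs' hBs hBs' hM1 hM2
  have hcc : 1 ≤ cw * cs := one_le_mul_of_one_le_of_one_le hcw hcs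
  have hV1 : V ≤ Z ^ 5 := (le_mul_of_one_le_left hV.le hcc).trans hVz
  have hV1' : V' ≤ Z ^ 5 := (le_mul_of_one_le_left hV'.le hcc).trans hVz'
  have hcs0 : cs ≠ 0 := by positivity
  have hZm0 : 0 < Zm := by linarith
  have hP : ∀ i ∈ OI Pr J EE E0 E1 R B Z b₀ K, PcC (Z ^ 5) EE b₀ K (cdI i) := fun i hi =>
    ⟨OI_OK hJ hZ hR0 hRZ hB0 hBZ hE1 hJ1 hi, OI_PC hi⟩
  have hP' : ∀ i ∈ OI Pr J EE E0 E1 R B Z b₀ K, PcC (Z ^ 5) EE b₀ K (cdI i).swap := fun i hi =>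
    ⟨(hP i hi).1.swap, (hP i hi).2.swap⟩
  have hwt : ∀ (V : ℝ) (t : UT) (y : ℝ), w1 (y / ZU V t) = w1 (cs * (y / (cs * ZU V t))) := by
    intro V t y
    congr 1
    rw [← mul_div_assoc, mul_div_mul_left _ _ hcs0]
  have hlast : ∀ F : ℝ, 0 ≤ F → C' * C * cs ^ 2 * kC 59049 * Zm ^ (3 * ε) * F ≤
      (C' * kC 59049 + 1) * C * cs ^ 2 * Zm ^ (3 * ε) * F := by
    intro F hF
    have h1 : 0 ≤ C * cs ^ 2 * Zm ^ (3 * ε) * F := by positivity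
    nlinarith
  constructor
  · intro P PR i hi
    have hx := hP i hi
    have hc := hx.1.c
    have hc' := hx.1.c'
    have hLC := LC_pc hc hc'
    have k := h (A := A) hBw hC hcw hcs hb₀ (w' := fun y => w1 (cs * y))
      (fun y hy => w_le hw hRcs hy) (ψ := pc (cdI i).c (cdI i).c') hLC.ne (nm_Mc hc hc')
      (fun p hp => (hLC.cop p hp).symm) hK hKz hV hV1 hV' hV1' hH hX hZm hZm2 haf hBs
      (fun t ht hY => hM1 _ _ hc hc' t ht hY) hx (wz := w1L w1 V i.1 i.2.2.1)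
      (fun y => by
        unfold w1L
        rw [Nq_pos_eq (cdI i) i.1 i.2.2.1 rfl rfl rfl rfl, hwt]) P PR (cw * cs)
    exact k.trans (hlast _ (CellF_nonneg hcw hcs le_rfl hK hV hV' hH hX hVz hBs hx))
  · intro P PR i hi
    have hx := hP' i hi
    have hc := (hP i hi).1.c
    have hc' := (hP i hi).1.c'
    have hLC := LC_pc hc hc'
    have k := h (A := A) hBw hC hcw hcs hb₀ (w' := fun y => w1 (cs * y))
      (fun y hy => w_le hw hRcs hy) (ψ := fun m => conj (pc (cdI i).c (cdI i).c' m)) hLC.ne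
      (nm_Mc hc hc') (fun p hp => (hLC.cop p hp).symm) hK hKz hV' hV1' hV hV1 hH hX hZm hZm2
      haf hBs' (fun t ht hY => hM2 _ _ hc hc' t ht hY) hx (wz := w1L w1 V' i.1 i.2.2.2.1)
      (fun y => by
        unfold w1L
        rw [Nq_pos_eq (cdI i).swap i.1 i.2.2.2.1 rfl rfl rfl rfl, hwt]) P PR (cw * cs)
    exact k.trans (hlast _ (CellF_nonneg hcw hcs le_rfl hK hV' hV hH hX hVz' hBs' hx))

end cells

/-- **one pair of levels from the Möbius bounds** -/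
theorem PAIR {A Bw : ℕ} (hA : 1 < A) (hB : 4 ≤ Bw) {Rw : ℝ} (hRw : 0 ≤ Rw) {h : ℝ → ℝ}
    (hh : ContDiff ℝ ∞ h) (hhc : HasCompactSupport h) {w1 : ℝ → ℝ}
    (hw : ∀ x, w1 x ≠ 0 → 0 < x ∧ |Real.log x| ≤ Rw)
    (hw1 : ∀ x, 0 < x → h (Real.log x) ≠ 0 → w1 x = 1) {cw cs b₀ : ℝ} (hcw : 1 ≤ cw)
    (hcs : 1 ≤ cs) (hRcs : Real.exp Rw ≤ cs) (hb₀ : 0 ≤ b₀) {ε : ℝ} (hε : 0 < ε)
    (hε1 : ε ≤ 1) :
    ∃ C : ℝ, 0 ≤ C ∧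
    ∀ (Om Om' : ℝ → ℂ) (Mb : ℝ), 0 ≤ Mb → ContDiff ℝ ∞ Om → ContDiff ℝ ∞ Om' →
      (∀ n ≤ A + 2, ∀ x, ‖iteratedDeriv n Om x‖ ≤ Mb) →
      (∀ n ≤ A + 2, ∀ x, ‖iteratedDeriv n Om' x‖ ≤ Mb) →
    ∀ (V V' τ : ℝ) (κ κ' : ℂ), 0 < V → 0 < V' → ‖κ‖ ≤ 1 → ‖κ'‖ ≤ 1 →
    ∀ (Z : ℝ), 1 ≤ Z → ∀ (Pr : Yp → Yp → Prop) (J : Finset (Eis × Eis))
      (om om' : Eis × Eis → ℂ) (af : Eis → Eis → Eis → ℂ) (EE : Finset Eis)
      (E0 E1 R B K X H G1 G1' C0 Zm : ℝ) (W1 W1' : Eis → Eis → ℝ) (L M L' M' : Eis → ℝ)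
      (Bs Bs' : UT → ℝ),
      TC (T3 af) → (∀ d e, FS (af d e)) → OKJ J → (∀ d e, e ∉ EE → ∀ j, T3 af d e j = 0) →
      0 < K → 0 ≤ R → R ≤ Z → 0 ≤ B → B ≤ Z → 0 ≤ E1 → E1 ≤ Z →
      (∀ x ∈ J, (nm x.1 : ℝ) ≤ Z) → (∀ x ∈ J, (nm x.2 : ℝ) ≤ R) →
      WQ J om E0 R (wL κ h Om τ V) → WQ J om' E0 R (wL κ' h Om' τ V') →
      0 < X → 0 < H → 0 < C0 → 0 ≤ G1 → 0 ≤ G1' →
      K ≤ Z ^ 5 → cw * cs * V ≤ Z ^ 5 → cw * cs * V' ≤ Z ^ 5 →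
      1 ≤ Zm → kZ 59049 b₀ * (Z ^ 5) ^ 10 ≤ Zm →
      (Real.sqrt (cw * cs * V) ≤ G1 ∨ (ClsP Pr J E0 R ∧ 1 ≤ G1)) →
      (Real.sqrt (cw * cs * V') ≤ G1' ∨ (ClsP Pr J E0 R ∧ 1 ≤ G1')) →
      (∀ t, 0 ≤ Bs t) → (∀ t, 0 ≤ Bs' t) →
      MB1 w1 A ε C0 cw cs K V H af (Z ^ 5) EE Bs Zm →
      MB2 w1 A ε C0 cw cs K V' H af (Z ^ 5) EE Bs' Zm →
      (∀ d e, 0 ≤ W1 d e) → (∀ d, 0 ≤ L d) → (∀ d, 0 ≤ M d) →
      (∀ d e, 0 ≤ W1' d e) → (∀ d, 0 ≤ L' d) → (∀ d, 0 ≤ M' d) →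
      (∀ t, SU ((Z ^ 5) ^ 3) t → (∃ u ∈ RUs J EE (Z ^ 5), t.1 = u.1 ∧ t.2.1 = u.2.1) →
        Bs t ≤ if (nm (t.2.2.2.2.2.1 * t.2.2.2.2.2.2.1) : ℝ) ^ 2 *
          (nm (t.2.2.1 * t.2.2.2.2.1 * t.2.2.2.2.2.2.2) : ℝ) ^ 3 ≤ L t.1 then
          (1 + M t.1 * kU t) * W1 t.1 t.2.1 else 0) →
      (∀ t, SU ((Z ^ 5) ^ 3) t → (∃ u ∈ RUs J EE (Z ^ 5), t.1 = u.1 ∧ t.2.1 = u.2.1) →
        Bs' t ≤ if (nm (t.2.2.2.2.2.1 * t.2.2.2.2.2.2.1) : ℝ) ^ 2 *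
          (nm (t.2.2.1 * t.2.2.2.2.1 * t.2.2.2.2.2.2.2) : ℝ) ^ 3 ≤ L' t.1 then
          (1 + M' t.1 * kU t) * W1' t.1 t.2.1 else 0) →
      ∑ q ∈ S R, ∑ t ∈ pb E1, MPTr Pr A Bw K B V V' (Z ^ 5) J om om' (T3 af) E0 R b₀ q t ≤
        C * (C0 * cs ^ 2 * Zm ^ (3 * ε)) * Mb ^ 2 * (1 + |τ|) ^ A * Z ^ ε * (hE EE *
          (LVn af (J.image Prod.fst) EE (cw * cs) (Z ^ 5) K H V V' E1 B G1
            (RNn L M W1 (J.image Prod.fst) EE) +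
          LVn af (J.image Prod.fst) EE (cw * cs) (Z ^ 5) K H V' V E1 B G1'
            (RNn L' M' W1' (J.image Prod.fst) EE))) := by
  obtain ⟨C1, hC1, h1⟩ := pair_Z hA (by omega : 1 < Bw) hRw hh hhc hw hw1 hε
  obtain ⟨C2, hC2, h2⟩ := cells hε hε1
  refine ⟨C1 * C2, by positivity, ?_⟩
  intro Om Om' Mb hMb hOm hOm' hOb hOb' V V' τ κ κ' hV hV' hκ hκ' Z hZ Pr J om om' af EE E0 E1 R B
    K X H G1 G1' C0 Zm W1 W1' L M L' M' Bs Bs' hT haf hJ hEE hK hR0 hRZ hB0 hBZ hE10 hE1 hJ1 hJ2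
    hwq hwq' hX hH hC0 hG1 hG1' hKz hVz hVz' hZm hZm2 hcl hcl' hBs hBs' hM1 hM2 hW hL hM hW' hL'
    hM' hBb hBb'
  have hcs0 : 0 < cs := by linarith
  have hZm0 : 0 < Zm := by linarith
  obtain ⟨k1, k2⟩ := h2 (A := A) hB hw hC0.le hcw hcs hRcs hb₀ (Pr := Pr) (J := J) (E0 := E0)
    (E1 := E1) (R := R) (B := B) (EE := EE) hZ hJ hR0 hRZ hB0 hBZ hE1 hJ1 hK hKz hV hV' hVz hVz'
    hH hX hZm hZm2 haf hBs hBs' hM1 hM2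
  have key := h1 Om Om' Mb hMb hOm hOm' hOb hOb' V V' τ κ κ' hV hV' hκ hκ' Z hZ Pr J om om' af EE
    E0 E1 R B b₀ K X H (cw * cs) (Z ^ 5) G1 G1' (C2 * C0 * cs ^ 2 * Zm ^ (3 * ε)) W1 W1' L M L' M'
    Bs Bs' (fun P PR => sdC P PR (Z ^ 5) (cw * cs) cw cs K V V' H X Bs)
    (fun P PR => sdC P PR (Z ^ 5) (cw * cs) cw cs K V' V H X Bs') (PcC (Z ^ 5) EE b₀ K) hT haf hJ
    hEE hK hR0 hRZ hB0 hBZ hE10 hE1 hJ1 hJ2 hwq hwq' hX hH (by positivity) hG1 hG1' hcl hcl'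
    (sdC_SDf hcw hcs le_rfl hK hV hV' hH hX hVz hBs)
    (sdC_SDf hcw hcs le_rfl hK hV' hV hH hX hVz' hBs')
    (fun i hi => ⟨⟨OI_OK hJ hZ hR0 hRZ hB0 hBZ hE1 hJ1 hi, OI_PC hi⟩,
      ⟨(OI_OK hJ hZ hR0 hRZ hB0 hBZ hE1 hJ1 hi).swap, (OI_PC hi).swap⟩⟩) k1 k2 hW hL hM hW' hL'
    hM' hBb hBb'
  exact key.trans (le_of_eq (by ring))

end Crest.Agent.R017.E3Sy290
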