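import Crest.Agent.R017.E3Sx_829
import Crest.Agent.R017.E3Ff_61
import Crest.Agent.R017.E3Sw_829

/-!
# Row 17, R8 (E3), exceptional class (helper829): `E3SU` from the frame of the single lists

The text is helper61's (E3Fg_61) with the single lists.
* **`e3su_H`** : `E3SU` from `FrHS`, `TnU`, `TcU`, `RnU`
-/

set_option autoImplicit false
set_option linter.unusedVariables false

noncomputable section

open Finset
open scoped Classical ComplexConjugate ContDiff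

namespace Crest.Agent.R017.E3Sx829

open Crest.Agent.R012 Crest.Agent.R012.Eis
open Crest.Agent.R017.B770
open Crest.Agent.R017.Prov71
open Crest.Agent.R017.UM71 Crest.Agent.R017.End699
open Crest.Agent.R017.E5B71 Crest.Agent.R017.E5P571
open Crest.Agent.R017.P1e54 Crest.Agent.R017.P1f54 Crest.Agent.R017.P1k54
open Crest.Agent.R017.ExBox960 Crest.Agent.R017.ExP960
open Crest.Agent.R017.P1X960
open Crest.Agent.R017.P10X764
open Crest.Agent.R017.I1146 (LN)
open Crest.Agent.R017.FrS829 (FrSD frS)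
open Crest.Agent.R017.E3F61 (SzU TnU TcU RnU FaU FbU FcU CtU ct_ub)
open Crest.Agent.R017.E3Sw829

variable {Λ : Type*}

section

variable {π : Λ → DPar} {h : ℝ → ℝ} {c₀ Rh e0 c β : ℝ} {Par : Set (Fin 3 ⊕ Fin 5 → ℝ)}
  {D5 : Set (Fin 5 → ℝ)} {ℓ Kf Tf Tt : (Fin 5 → ℝ) → ℝ} {L0 : (Fin 3 ⊕ Fin 5 → ℝ) → ℝ}

/-- sizes and admissibility -/
theorem szS_H (H : FrHS π h c₀ Rh e0 c β Par D5 ℓ Kf Tf Tt L0) :
    SzU S8X (Dom8X c β Par (SinL β)) ∅ (fun a : BcX => a.1.l) (nw c)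
      (fun a qs => LN (clN a qs)) (YcX Rh) e0 (alS π h) (okS π) :=
  szS (ε := 1) (ℓ := ℓ) (Kf := Kf) (Tf := Tf) H.hPar
    (frS H.hpu H.hP H.hRh0 H.hRh H.he0 (by linarith [H.he0']) H.hc0 H.hc1 H.hPar H.hDN
      H.hDR H.hR5 H.hKN H.hKR H.hTN H.hTR H.hcb one_pos (by norm_num))

/-- **the Gram error of the single lists** -/
theorem e3su_H (H : FrHS π h c₀ Rh e0 c β Par D5 ℓ Kf Tf Tt L0)
    {Hf : ℝ → BcX → List Pq → ℕ → Eis → Eis → ℝ} (hH : ∀ cc a ps i d e, 0 < Hf cc a ps i d e)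
    (hT : TnU S8X (Dom8X c β Par (SinL β)) ∅ (E8X L0) (fun a : BcX => a.1.l) (nw c) e0 22
      (alS π h) (okS π) Hf)
    (hTc : TcU S8X (Dom8X c β Par (SinL β)) ∅ (E8X L0) (fun a : BcX => a.1.l) (nw c) e0
      (alS π h) (okS π) Hf)
    (hR : RnU S8X (Dom8X c β Par (SinL β)) ∅ (E8X L0) (fun a : BcX => a.1.l) (nw c)
      (fun a qs => LN (clN a qs)) e0 (alS π h) (okS π) Hf) :
    E3SU π h e0 c Rh β Par L0 :=
  e3su_of H.he0 (by linarith [H.he0']) (by norm_num : (20 : ℝ) ≤ 22) hH (szS_H H) hT hR (faS H)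
    (fbS H (by norm_num) (by norm_num)) (fcS H (by norm_num))
    (fun R _ => ct_ub H.he0 (by linarith [H.he0']) hH (szS_H H) hTc hR (faS H)
      (fbS H (by norm_num) (by norm_num)) (fcS H (by norm_num)) _)

end

end Crest.Agent.R017.E3Sx829
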