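import Crest.Agent.R017.E3Sz_579

/-!
# Row 17, block C70, leaf E3 (S-sum): one pair of levels from (RH), final form (helper579)
-/

set_option autoImplicit false
set_option linter.unusedVariables false

noncomputable section

open Finset
open scoped ComplexConjugate Classical ContDiff

namespace Crest.Agent.R017.E3Sz579

open Crest.Agent.R012 Crest.Agent.R012.Eis Crest.Agent.R012.MC
open Crest.Agent.R012.LS2 (S mem_S bl mem_bl)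
open Crest.Agent.R012.Mob705 (pb mem_pb pdiv mem_pdiv)
open Crest.Agent.R017.CM106 (CS FS)
open Crest.Agent.R017.C70 (JC OKJ)
open Crest.Agent.R017.E3A164 (Yp Ys Cs mem_Cs)
open Crest.Agent.R017.GrB829 (IsC)
open Crest.Agent.R017.PX764 (n6)
open Crest.Agent.R017.E3M829 (TC)
open Crest.Agent.R017.E3T829
open Crest.Agent.R017.E3T1579 (T3 WQ)
open Crest.Agent.R017.E3T2579 (wL w1L)
open Crest.Agent.R017.E3F548 (pc MPTr isC_ne)
open Crest.Agent.R017.Mode405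
open Crest.Agent.R017.E3Sw290 (TU MBU kZ)
open Crest.Agent.R017.E3Sx579 (BsT BsT_nonneg)
open Crest.Agent.R017.E3Sy290
open Crest.Agent.R017.E3Z548

/-- (RH) for the sequences of the levels -/
def RHd (z m : ℝ) (A : ℕ) (EE : Finset Eis) (af : Eis → Eis → Eis → ℂ)
    (W0 : Eis → Eis → ℝ → ℝ) : Prop :=
  ∀ d ∈ S z, ∀ e ∈ EE, ∀ γ π, IsPrim γ → IsPrim π → (nm π : ℝ) ≤ m →
    ∀ P : ℝ, 0 < P → (nm γ : ℝ) * n6 γ ^ 2 * ∑ r ∈ bl P, R3571.RMm A (af d e) e γ π r ≤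
      W0 d e P

lemma Z_exp {Z CZ C₂ η ε : ℝ} (hZ : 1 ≤ Z) (hCZ : 1 ≤ CZ) (hC₂ : 0 ≤ C₂) (hη : 0 < η)
    (hη1 : η ≤ 1) (hηε : 201 * η ≤ ε) :
    (CZ * Z ^ 50) ^ (3 * η) * Z ^ η * (1 + C₂ * (CZ * Z ^ 50) ^ η) ≤
      (1 + C₂) * CZ ^ 4 * Z ^ ε := by
  have hZ0 : 0 < Z := by linarith
  have hCZ0 : 0 < CZ := by linarith
  have h50 : 1 ≤ Z ^ 50 := one_le_pow₀ hZ
  have hm : 1 ≤ CZ * Z ^ 50 := one_le_mul_of_one_le_of_one_le hCZ h50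
  have hm0 : 0 < CZ * Z ^ 50 := by linarith
  have h1 : 1 ≤ (CZ * Z ^ 50) ^ η := Real.one_le_rpow hm hη.le
  have h2 : 1 + C₂ * (CZ * Z ^ 50) ^ η ≤ (1 + C₂) * (CZ * Z ^ 50) ^ η := by nlinarith
  have e1 : (CZ * Z ^ 50) ^ (3 * η) * (CZ * Z ^ 50) ^ η = CZ ^ (4 * η) * Z ^ (200 * η) := by
    rw [← Real.rpow_add hm0, show 3 * η + η = 4 * η by ring, Real.mul_rpow hCZ0.le (by positivity),
      ← Real.rpow_natCast Z 50, ← Real.rpow_mul hZ0.le]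
    congr 2
    push_cast
    ring
  have h3 : CZ ^ (4 * η) ≤ CZ ^ 4 := by
    rw [← Real.rpow_natCast CZ 4]
    refine Real.rpow_le_rpow_of_exponent_le hCZ ?_
    push_cast
    linarith
  have h4 : Z ^ (200 * η) * Z ^ η ≤ Z ^ ε := by
    rw [← Real.rpow_add hZ0]
    exact Real.rpow_le_rpow_of_exponent_le hZ (by linarith)
  calc (CZ * Z ^ 50) ^ (3 * η) * Z ^ η * (1 + C₂ * (CZ * Z ^ 50) ^ η)
      ≤ (CZ * Z ^ 50) ^ (3 * η) * Z ^ η * ((1 + C₂) * (CZ * Z ^ 50) ^ η) := by gcongr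
    _ = (1 + C₂) * (((CZ * Z ^ 50) ^ (3 * η) * (CZ * Z ^ 50) ^ η) * Z ^ η) := by ring
    _ = (1 + C₂) * (CZ ^ (4 * η) * (Z ^ (200 * η) * Z ^ η)) := by rw [e1]; ring
    _ ≤ (1 + C₂) * (CZ ^ 4 * Z ^ ε) := by gcongr
    _ = _ := by ring

lemma fin_alg {C C0 cs a b k E F x1 x2 y1 y2 z : ℝ} (hC : 0 ≤ C) (hC0 : 0 ≤ C0) (hE : 0 ≤ E)
    (hF : 0 ≤ F) (hab : 0 ≤ a * b) (h1 : x1 ≤ (1 + k) * y1) (h2 : x2 ≤ (1 + k) * y2)
    (h3 : a * b * (1 + k) ≤ z) (hy1 : 0 ≤ y1) (hy2 : 0 ≤ y2) :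
    C * (C0 * cs ^ 2 * a) * F * b * (E * (x1 + x2)) ≤
      C * (C0 * cs ^ 2) * z * F * (E * (y1 + y2)) := by
  have h4 : 0 ≤ C * (C0 * cs ^ 2) * F * E := by positivity
  calc C * (C0 * cs ^ 2 * a) * F * b * (E * (x1 + x2))
      = (C * (C0 * cs ^ 2) * F * E) * ((a * b) * (x1 + x2)) := by ring
    _ ≤ (C * (C0 * cs ^ 2) * F * E) * ((a * b) * ((1 + k) * (y1 + y2))) := by
        refine mul_le_mul_of_nonneg_left (mul_le_mul_of_nonneg_left ?_ hab) h4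
        linarith
    _ = (C * (C0 * cs ^ 2) * F * E) * ((a * b * (1 + k)) * (y1 + y2)) := by ring
    _ ≤ (C * (C0 * cs ^ 2) * F * E) * (z * (y1 + y2)) := by
        refine mul_le_mul_of_nonneg_left (mul_le_mul_of_nonneg_right h3 (by linarith)) h4
    _ = _ := by ring

set_option maxHeartbeats 4000000 in
/-- **one pair of levels from (RH)** -/
theorem PAIR_RH {Rw : ℝ} (hRw : 0 ≤ Rw) {h : ℝ → ℝ} (hh : ContDiff ℝ ∞ h)
    (hhc : HasCompactSupport h) {w1 : ℝ → ℝ} (hW1 : Wgt w1)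
    (hw : ∀ x, w1 x ≠ 0 → 0 < x ∧ |Real.log x| ≤ Rw)
    (hw1 : ∀ x, 0 < x → h (Real.log x) ≠ 0 → w1 x = 1) {R0 : ℝ} (hR0 : 0 ≤ R0) (a A₁ : ℕ)
    (hA₁ : 1 < A₁) {b₀ : ℝ} (hb₀ : 0 ≤ b₀) {ε : ℝ} (hε : 0 < ε) (hε1 : ε ≤ 1) :
    ∃ (A₀ : ℕ) (c : ℝ), 1 ≤ c ∧ ∀ A : ℕ, A₀ ≤ A → ∀ Bw : ℕ, 4 ≤ Bw → ∃ C : ℝ, 0 ≤ C ∧
    ∀ (Om Om' : ℝ → ℂ) (Mb : ℝ), 0 ≤ Mb → ContDiff ℝ ∞ Om → ContDiff ℝ ∞ Om' →
      (∀ n ≤ A + 2, ∀ x, ‖iteratedDeriv n Om x‖ ≤ Mb) →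
      (∀ n ≤ A + 2, ∀ x, ‖iteratedDeriv n Om' x‖ ≤ Mb) →
    ∀ (V V' τ : ℝ) (κ κ' : ℂ), 0 < V → 0 < V' → ‖κ‖ ≤ 1 → ‖κ'‖ ≤ 1 →
    ∀ (Z : ℝ), 1 ≤ Z → ∀ (Pr : Yp → Yp → Prop) (J : Finset (Eis × Eis))
      (om om' : Eis × Eis → ℂ) (af : Eis → Eis → Eis → ℂ) (EE : Finset Eis)
      (E0 E1 R B K X H G1 G1' : ℝ) (W0 W0' : Eis → Eis → ℝ → ℝ),
      TC (T3 af) → (∀ d e, FS (af d e)) → OKJ J → (∀ d e, e ∉ EE → ∀ j, T3 af d e j = 0) →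
      0 < K → 0 ≤ R → R ≤ Z → 0 ≤ B → B ≤ Z → 0 ≤ E1 → E1 ≤ Z →
      (∀ x ∈ J, (nm x.1 : ℝ) ≤ Z) → (∀ x ∈ J, (nm x.2 : ℝ) ≤ R) →
      WQ J om E0 R (wL κ h Om τ V) → WQ J om' E0 R (wL κ' h Om' τ V') →
      0 < X → 0 < H → 0 ≤ G1 → 0 ≤ G1' →
      K ≤ Z ^ 5 → X ≤ Z ^ 5 → c * V ≤ Z ^ 5 → c * V' ≤ Z ^ 5 →
      c * (H * V ^ 2) ≤ K * X → c * (H * V' ^ 2) ≤ K * X →
      (Real.sqrt (c * V) ≤ G1 ∨ (ClsP Pr J E0 R ∧ 1 ≤ G1)) →
      (Real.sqrt (c * V') ≤ G1' ∨ (ClsP Pr J E0 R ∧ 1 ≤ G1')) →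
      (∀ d ∈ S (Z ^ 5), ∀ e ∈ EE, ∀ n, af d e n ≠ 0 → Squarefree n) →
      (∀ d ∈ S (Z ^ 5), ∀ e ∈ EE, ∀ n, af d e n ≠ 0 →
        |Real.log (nm d * nm n) - Real.log X| ≤ R0) →
      (∀ d e, Slp a (W0 d e)) → (∀ d e, Slp a (W0' d e)) →
      RHd (Z ^ 5) (c * Z ^ 200) A₁ EE af W0 → RHd (Z ^ 5) (c * Z ^ 200) A₁ EE af W0' →
      ∑ q ∈ S R, ∑ t ∈ pb E1, MPTr Pr A Bw K B V V' (Z ^ 5) J om om' (T3 af) E0 R b₀ q t ≤
        C * Mb ^ 2 * (1 + |τ|) ^ A * Z ^ ε * (hE EE *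
          (LVn af (J.image Prod.fst) EE c (Z ^ 5) K H V V' E1 B G1
            (RNn (Ld K V H) (Md c K V H X) (fun d e => W0 d e (c * (X * V * H / K)))
              (J.image Prod.fst) EE) +
          LVn af (J.image Prod.fst) EE c (Z ^ 5) K H V' V E1 B G1'
            (RNn (Ld K V' H) (Md c K V' H X) (fun d e => W0' d e (c * (X * V' * H / K)))
              (J.image Prod.fst) EE))) := by
  -- the constants
  obtain ⟨cs, hcsd⟩ : ∃ cs, cs = Real.exp Rw := ⟨_, rfl⟩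
  have hcs : 1 ≤ cs := by rw [hcsd]; exact Real.one_le_exp hRw
  have hcs0 : 0 < cs := by linarith
  have hwcs : Wgt (fun y => w1 (cs * y)) := by
    have h1 := hW1.scale (A := cs⁻¹) (by positivity)
    have e : (fun x => w1 (x / cs⁻¹)) = fun y => w1 (cs * y) := by
      funext x
      rw [div_inv_eq_mul, mul_comm]
    rwa [e] at h1
  have hw1' : ∀ y, w1 (cs * y) ≠ 0 → y ≤ 1 := fun y hy => w_le hw hcsd.ge hy
  set η : ℝ := ε / 201 with hη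
  have hη0 : 0 < η := by positivity
  have hη1 : η ≤ 1 := by rw [hη]; linarith
  obtain ⟨C0, c₁, cw, C₂, A₀, hC0, hc₁, hcw, hC₂, hMB⟩ :=
    MB12_of hcs hwcs hw1' hR0 a A₁ hA₁ hη0
  obtain ⟨CZ, hCZd⟩ : ∃ CZ, CZ = kZ 59049 b₀ + Real.exp R0 + 1 := ⟨_, rfl⟩
  have hkZ : 0 ≤ kZ 59049 b₀ := by unfold E3Sw290.kZ; positivity
  have hCZ1 : 1 ≤ CZ := by rw [hCZd]; linarith [Real.exp_pos R0]
  have he2 : 1 ≤ Real.exp (2 * R0) + 1 := by linarith [Real.exp_pos (2 * R0)]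
  obtain ⟨cw', hcwd⟩ : ∃ cw', cw' = cw * c₁ * (Real.exp (2 * R0) + 1) * CZ ^ 4 := ⟨_, rfl⟩
  have p1 : 1 ≤ cw * c₁ := one_le_mul_of_one_le_of_one_le hcw hc₁
  have p2 : 1 ≤ cw * c₁ * (Real.exp (2 * R0) + 1) := one_le_mul_of_one_le_of_one_le p1 he2
  have p3 : 1 ≤ CZ ^ 4 := one_le_pow₀ hCZ1
  have hcw' : 1 ≤ cw' := by rw [hcwd]; exact one_le_mul_of_one_le_of_one_le p2 p3
  have q1 : cw ≤ cw' := by
    rw [hcwd, mul_assoc, mul_assoc]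
    refine le_mul_of_one_le_right (by linarith) ?_
    exact one_le_mul_of_one_le_of_one_le hc₁ (one_le_mul_of_one_le_of_one_le he2 p3)
  have q2 : c₁ ≤ cw' := by
    rw [hcwd, mul_assoc, mul_assoc, mul_left_comm]
    refine le_mul_of_one_le_right (by linarith) ?_
    exact one_le_mul_of_one_le_of_one_le hcw (one_le_mul_of_one_le_of_one_le he2 p3)
  have q3 : Real.exp (2 * R0) + 1 ≤ cw' := by
    rw [hcwd]
    calc Real.exp (2 * R0) + 1 ≤ (cw * c₁) * (Real.exp (2 * R0) + 1) :=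
          le_mul_of_one_le_left (by linarith) p1
      _ ≤ _ := le_mul_of_one_le_right (by linarith) p3
  have q4 : CZ ^ 4 ≤ cw' := by
    rw [hcwd]
    exact le_mul_of_one_le_left (by linarith) p2
  obtain ⟨c, hcd⟩ : ∃ c, c = cw' * cs := ⟨_, rfl⟩
  have hcwc : cw' ≤ c := by rw [hcd]; exact le_mul_of_one_le_right (by linarith) hcs
  have hcsc : cs ≤ c := by rw [hcd]; exact le_mul_of_one_le_left (by linarith) hcw'
  have hc1 : 1 ≤ c := hcw'.trans hcwc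
  refine ⟨A₀ + 2, c, hc1, ?_⟩
  intro A hA Bw hBw
  obtain ⟨C, hC, hP⟩ := PAIR (A := A) (Bw := Bw) (by omega) hBw hRw hh hhc hw hw1 (cw := cw')
    (cs := cs) (b₀ := b₀) hcw' hcs hcsd.ge hb₀ hη0 hη1
  refine ⟨C * (C0 * cs ^ 2) * ((1 + C₂) * CZ ^ 4), by positivity, ?_⟩
  intro Om Om' Mb hMb hOm hOm' hOb hOb' V V' τ κ κ' hV hV' hκ hκ' Z hZ Pr J om om' af EE E0 E1 R B
    K X H G1 G1' W0 W0' hT haf hJ hEE hK hR0' hRZ hB0 hBZ hE10 hE1 hJ1 hJ2 hwq hwq' hX hH hG1 hG1'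
    hKz hXz hVz hVz' hKX hKX' hcl hcl' hsf hwin hS hS' hRH hRH'
  have hZ0 : 0 < Z := by linarith
  have hz : 1 ≤ Z ^ 5 := one_le_pow₀ hZ
  obtain ⟨Zm, hZmd⟩ : ∃ Zm, Zm = CZ * Z ^ 50 := ⟨_, rfl⟩
  have h50 : 1 ≤ Z ^ 50 := one_le_pow₀ hZ
  have hZm : 1 ≤ Zm := by rw [hZmd]; exact one_le_mul_of_one_le_of_one_le hCZ1 h50
  have hZm50 : Z ^ 50 ≤ Zm := by
    rw [hZmd]; exact le_mul_of_one_le_left (by positivity) hCZ1
  have hz50 : Z ^ 5 ≤ Z ^ 50 := pow_le_pow_right₀ hZ (by norm_num)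
  have hz5 : (Z ^ 5) ^ 5 ≤ Zm := by
    rw [← pow_mul]
    exact (pow_le_pow_right₀ hZ (by norm_num)).trans hZm50
  have hkZm : kZ 59049 b₀ * (Z ^ 5) ^ 10 ≤ Zm := by
    rw [hZmd, ← pow_mul]
    refine mul_le_mul_of_nonneg_right ?_ (by positivity)
    rw [hCZd]; linarith [Real.exp_pos R0]
  have hXm : (Z ^ 5) ^ 3 * (Real.exp R0 * X) ≤ Zm := by
    have h1 : Real.exp R0 ≤ CZ := by rw [hCZd]; linarith
    calc (Z ^ 5) ^ 3 * (Real.exp R0 * X) ≤ (Z ^ 5) ^ 3 * (CZ * Z ^ 5) := by gcongr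
      _ = CZ * Z ^ 20 := by ring
      _ ≤ CZ * Z ^ 50 := by
          refine mul_le_mul_of_nonneg_left ?_ (by linarith)
          exact pow_le_pow_right₀ hZ (by norm_num)
      _ = Zm := hZmd.symm
  have hπ : Zm ^ 4 ≤ c * Z ^ 200 := by
    rw [hZmd, mul_pow, ← pow_mul]
    exact mul_le_mul_of_nonneg_right (q4.trans hcwc) (by positivity)
  have hcsV : ∀ V : ℝ, 0 < V → c * V ≤ Z ^ 5 → cs * V ≤ Zm := fun V hV h =>
    ((mul_le_mul_of_nonneg_right hcsc hV.le).trans h).trans (hz50.trans hZm50)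
  have hKXs : ∀ V : ℝ, 0 < V → c * (H * V ^ 2) ≤ K * X →
      H * V ^ 2 * Real.exp (2 * R0) < K * X := by
    intro V hV h
    have h1 : 0 < H * V ^ 2 := by positivity
    have h2 : (Real.exp (2 * R0) + 1) * (H * V ^ 2) ≤ c * (H * V ^ 2) :=
      mul_le_mul_of_nonneg_right (q3.trans hcwc) h1.le
    nlinarith
  -- the structured numbers
  set W1 : Eis → Eis → ℝ := fun d e => C₂ * Zm ^ η * W0 d e (c * (X * V * H / K)) with hW1d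
  set W1' : Eis → Eis → ℝ := fun d e => C₂ * Zm ^ η * W0' d e (c * (X * V' * H / K)) with hW1d'
  have hc0 : 0 < c := by linarith
  have hI : 0 < c * (X * V * H / K) := by positivity
  have hI' : 0 < c * (X * V' * H / K) := by positivity
  have hCZm : 0 ≤ C₂ * Zm ^ η := by positivity
  have n0 : ∀ d e, 0 ≤ W0 d e (c * (X * V * H / K)) := fun d e => (hS d e).nonneg _ hI
  have n0' : ∀ d e, 0 ≤ W0' d e (c * (X * V' * H / K)) := fun d e => (hS' d e).nonneg _ hI'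
  have hW10 : ∀ d e, 0 ≤ W1 d e := fun d e => mul_nonneg hCZm (n0 d e)
  have hW10' : ∀ d e, 0 ≤ W1' d e := fun d e => mul_nonneg hCZm (n0' d e)
  have hAA : ((A₀ : ℕ) : ℝ) ≤ (A : ℝ) := by exact_mod_cast (by omega : A₀ ≤ A)
  have hM1 : MB1 w1 A η C0 cw' cs K V H af (Z ^ 5) EE (BsT cs K V H X W1) Zm := by
    intro k k' hk hk' t ht hY
    have h1 := (hMB (k, k') (by rw [mem_product, mem_Cs, mem_Cs]; exact ⟨hk, hk'⟩)).1
    have h2 := MBst_mono hcs hC0.le hc₁ hcw hC₂ le_rfl (q2.trans hcwc) q1 le_rfl le_rfl h1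
    exact h2 A hAA (Z ^ 5) Zm K V H X hz hz5 hK hV hH hX (hKXs V hV hKX) (hcsV V hV hVz) hXm EE
      af haf hsf hwin W0 hS (fun d hd e he γ π hγ hπ' hn P hP =>
        hRH d hd e he γ π hγ hπ' (hn.trans hπ) P hP) t ht
  have hM2 : MB2 w1 A η C0 cw' cs K V' H af (Z ^ 5) EE (BsT cs K V' H X W1') Zm := by
    intro k k' hk hk' t ht hY
    have h1 := (hMB (k, k') (by rw [mem_product, mem_Cs, mem_Cs]; exact ⟨hk, hk'⟩)).2
    have h2 := MBst_mono hcs hC0.le hc₁ hcw hC₂ le_rfl (q2.trans hcwc) q1 le_rfl le_rfl h1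
    exact h2 A hAA (Z ^ 5) Zm K V' H X hz hz5 hK hV' hH hX (hKXs V' hV' hKX') (hcsV V' hV' hVz')
      hXm EE af haf hsf hwin W0' hS' (fun d hd e he γ π hγ hπ' hn P hP =>
        hRH' d hd e he γ π hγ hπ' (hn.trans hπ) P hP) t ht
  have hne : ∀ t : UT, (∃ u ∈ RUs J EE (Z ^ 5), t.1 = u.1 ∧ t.2.1 = u.2.1) → t.1 ≠ 0 := by
    rintro t ⟨u, hu, h1, -⟩
    rw [h1]
    unfold E3T829.RUs at hu
    rw [mem_product, mem_image] at hu
    obtain ⟨⟨y, hy, hy'⟩, -⟩ := hu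
    rw [← hy']
    exact (hJ.prim y hy).ne_zero
  have key := hP Om Om' Mb hMb hOm hOm' hOb hOb' V V' τ κ κ' hV hV' hκ hκ' Z hZ Pr J om om' af EE
    E0 E1 R B K X H G1 G1' C0 Zm W1 W1' (Ld K V H) (Md c K V H X) (Ld K V' H) (Md c K V' H X)
    (BsT cs K V H X W1) (BsT cs K V' H X W1') hT haf hJ hEE hK hR0' hRZ hB0 hBZ hE10 hE1 hJ1 hJ2
    hwq hwq' hX hH hC0 hG1 hG1' hKz (by rw [← hcd]; exact hVz) (by rw [← hcd]; exact hVz') hZm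
    hkZm (by rw [← hcd]; exact hcl) (by rw [← hcd]; exact hcl')
    (BsT_nonneg hcs hK hV hH hX hW10) (BsT_nonneg hcs hK hV' hH hX hW10') hM1 hM2 hW10
    (Ld_nonneg hK hH) (Md_nonneg hc0.le hK hV hH hX) hW10' (Ld_nonneg hK hH)
    (Md_nonneg hc0.le hK hV' hH hX)
    (fun t ht hu => BsT_b hcs hcsc (by positivity) hK hV hH hX hW10 ht (hne t hu))
    (fun t ht hu => BsT_b hcs hcsc (by positivity) hK hV' hH hX hW10' ht (hne t hu))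
  rw [← hcd] at key
  refine key.trans ?_
  -- the numbers
  have r1 := RNn_smul (Ld K V H) (Md c K V H X) (fun d e => W0 d e (c * (X * V * H / K)))
    (C₂ * Zm ^ η) (J.image Prod.fst) EE
  have r2 := RNn_smul (Ld K V' H) (Md c K V' H X) (fun d e => W0' d e (c * (X * V' * H / K)))
    (C₂ * Zm ^ η) (J.image Prod.fst) EE
  have l1 := LVn_smul (af := af) (Ds := J.image Prod.fst) (EE := EE) (c := c) (Y := Z ^ 5)
    (RN := RNn (Ld K V H) (Md c K V H X) (fun d e => W0 d e (c * (X * V * H / K)))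
      (J.image Prod.fst) EE) (k := C₂ * Zm ^ η) hK hH hV hV' hE10 hB0 hG1
    (RNn_nonneg (Md_nonneg hc0.le hK hV hH hX) n0 _ _) hCZm
  have l2 := LVn_smul (af := af) (Ds := J.image Prod.fst) (EE := EE) (c := c) (Y := Z ^ 5)
    (RN := RNn (Ld K V' H) (Md c K V' H X) (fun d e => W0' d e (c * (X * V' * H / K)))
      (J.image Prod.fst) EE) (k := C₂ * Zm ^ η) hK hH hV' hV hE10 hB0 hG1'
    (RNn_nonneg (Md_nonneg hc0.le hK hV' hH hX) n0' _ _) hCZm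
  rw [← r1] at l1
  rw [← r2] at l2
  have ly1 := LVn_nonneg (af := af) (Ds := J.image Prod.fst) (EE := EE) (c := c) (Y := Z ^ 5)
    (E1 := E1) (B := B) hK.le hH.le hV.le hV'.le hE10 hG1
    (RNn_nonneg (L := Ld K V H) (Md_nonneg hc0.le hK hV hH hX) n0 (J.image Prod.fst) EE)
  have ly2 := LVn_nonneg (af := af) (Ds := J.image Prod.fst) (EE := EE) (c := c) (Y := Z ^ 5)
    (E1 := E1) (B := B) hK.le hH.le hV'.le hV.le hE10 hG1'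
    (RNn_nonneg (L := Ld K V' H) (Md_nonneg hc0.le hK hV' hH hX) n0' (J.image Prod.fst) EE)
  have hz1 := Z_exp (Z := Z) (CZ := CZ) (C₂ := C₂) (η := η) (ε := ε) hZ hCZ1 hC₂ hη0 hη1
    (by rw [hη]; linarith)
  rw [← hZmd] at hz1
  generalize LVn af (J.image Prod.fst) EE c (Z ^ 5) K H V V' E1 B G1
    (RNn (Ld K V H) (Md c K V H X) W1 (J.image Prod.fst) EE) = x1 at *
  generalize LVn af (J.image Prod.fst) EE c (Z ^ 5) K H V' V E1 B G1'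
    (RNn (Ld K V' H) (Md c K V' H X) W1' (J.image Prod.fst) EE) = x2 at *
  generalize LVn af (J.image Prod.fst) EE c (Z ^ 5) K H V V' E1 B G1
    (RNn (Ld K V H) (Md c K V H X) (fun d e => W0 d e (c * (X * V * H / K)))
      (J.image Prod.fst) EE) = y1 at *
  generalize LVn af (J.image Prod.fst) EE c (Z ^ 5) K H V' V E1 B G1'
    (RNn (Ld K V' H) (Md c K V' H X) (fun d e => W0' d e (c * (X * V' * H / K)))
      (J.image Prod.fst) EE) = y2 at *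
  have hfin := fin_alg (cs := cs) (F := Mb ^ 2 * (1 + |τ|) ^ A) (a := Zm ^ (3 * η))
    (b := Z ^ η) hC hC0.le (hE_nonneg EE) (by positivity) (by positivity) l1 l2 hz1 ly1 ly2
  refine le_trans (le_of_eq ?_) (hfin.trans (le_of_eq ?_)) <;> ring

end Crest.Agent.R017.E3Sz579
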