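import Crest.Agent.R017.E3Sx4_579
import Crest.Agent.R017.E3Sz2_579
import Crest.Agent.R017.E3Um_829
import Crest.Agent.R017.E3Zx_744
import Crest.Agent.R017.ModeD5_405

/-!
# Row 17, block C70, leaf E3 (S-sum): one pair of levels from (RH), both forms (helper579)

* `chp` : the characters of the pairs
* `BsP` : the structured number of all pairs
* `MB_P`, `S12_P` : its three facts
* `PAIR_RH2'`, `PAIR_RH2` : `Σ_{q,t} MPTr` at a pair of levels from (RH), both forms of the number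
-/

set_option autoImplicit false
set_option linter.unusedVariables false

noncomputable section

open Finset
open scoped ComplexConjugate Classical ContDiff

namespace Crest.Agent.R017.E3Sz579

open Crest.Agent.R012 Crest.Agent.R012.Eis Crest.Agent.R012.MC
open Crest.Agent.R012.LS2 (S mem_S bl mem_bl)
open Crest.Agent.R012.Mob705 (pb mem_pb pdiv mem_pdiv)
open Crest.Agent.R017.CM106 (CS FS)
open Crest.Agent.R017.C70 (JC OKJ)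
open Crest.Agent.R017.E3A164 (Yp Ys Cs mem_Cs)
open Crest.Agent.R017.GrB829 (IsC)
open Crest.Agent.R017.PX764 (n6)
open Crest.Agent.R017.E3M829 (TC)
open Crest.Agent.R017.E3T829
open Crest.Agent.R017.E3T1579 (T3 WQ)
open Crest.Agent.R017.E3T2579 (wL w1L)
open Crest.Agent.R017.E3F548 (pc MPTr isC_ne)
open Crest.Agent.R017.E3D579 (sy_mulR sy_conj_sq)
open Crest.Agent.R017.Mode405
open Crest.Agent.R017.E3Sw290 (TU MBU kZ)
open Crest.Agent.R017.E3Sx579 (BsQt BsQt_nonneg MBU_Q S1h_Q S2h_Q RHR slp_mono)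
open Crest.Agent.R017.E3Sy290
open Crest.Agent.R017.E3Z548
open Crest.Agent.R017.E3Zx744 (RPn PAIRA)

/-! ### the characters -/

/-- the characters of the pairs -/
def chp (i : (Eis × Eis) × Bool) : Eis → ℂ :=
  if i.2 then pc i.1.1 i.1.2 else fun m => conj (pc i.1.1 i.1.2 m)

/-- the indices -/
def PI : Finset ((Eis × Eis) × Bool) := (Cs ×ˢ Cs) ×ˢ univ

lemma mem_PI {i : (Eis × Eis) × Bool} : i ∈ PI ↔ IsC i.1.1 ∧ IsC i.1.2 := by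
  unfold PI
  simp [mem_product, mem_Cs]

theorem pohg_pc {c c' : Eis} (hc : IsC c) (hc' : IsC c') {v : ℝ → ℝ} (hv : Wgt v) :
    PoHG (GD (pc c c') v) := by
  unfold E3F548.pc
  split_ifs with h
  · exact pohg_one hv
  · have hu := SU_ccc hc hc'
    refine pohg_of (u := 1 * (c * c' ^ 2) ^ 2) ?_ ?_ hv
    · rw [one_mul, pow_two]; exact hu.mul hu
    · intro x hx
      have h1 := sy_conj_sq (s := c * c' ^ 2) (H := 1) hx
      rw [Char766.sy_one_left hx, map_one, mul_one] at h1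
      exact h1

theorem pohg_pc' {c c' : Eis} (hc : IsC c) (hc' : IsC c') {v : ℝ → ℝ} (hv : Wgt v) :
    PoHG (GD (fun m => conj (pc c c' m)) v) := by
  unfold E3F548.pc
  split_ifs with h
  · simp only [map_one]
    exact pohg_one hv
  · exact pohg_of (SU_ccc hc hc') (fun x _ => rfl) hv

theorem chp_facts {w : ℝ → ℝ} (hw : Wgt w) {i : (Eis × Eis) × Bool} (hi : i ∈ PI) :
    Mul1 (chp i) ∧ PoHW OK3 nfo (chp i) (w6 w) ∧ PoHG (GD (chp i) (w6 w)) := by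
  obtain ⟨h1, h2⟩ := mem_PI.mp hi
  unfold chp
  split_ifs
  · exact ⟨(poh_pc h1 h2 hw).1, (poh_pc h1 h2 hw).2, pohg_pc h1 h2 (wgt_w6 hw)⟩
  · exact ⟨(poh_pc' h1 h2 hw).1, (poh_pc' h1 h2 hw).2, pohg_pc' h1 h2 (wgt_w6 hw)⟩

/-- the structured number of all pairs -/
def BsP (ε : ℝ) (w : ℝ → ℝ) (A' cs K V H : ℝ) (af : Eis → Eis → Eis → ℂ) (t : UT) : ℝ :=
  ∑ i ∈ PI, BsQt ε (chp i) w A' cs K V H af t

lemma BsP_nonneg (ε : ℝ) (w : ℝ → ℝ) (A' cs K V H : ℝ) (af : Eis → Eis → Eis → ℂ) (t : UT) :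
    0 ≤ BsP ε w A' cs K V H af t :=
  sum_nonneg fun _ _ => BsQt_nonneg _ _ _ _ _ _ _ _ _ _

/-- **the Möbius bounds with the sum of the structured numbers** -/
theorem MB_P {w : ℝ → ℝ} (hw : Wgt w) (hw1 : ∀ x, w x ≠ 0 → x ≤ 1) {ε : ℝ} (hε : 0 < ε) :
    ∃ C : ℝ, 0 ≤ C ∧ ∀ A' : ℝ, 2 ≤ A' → ∀ cs z Zm K V H : ℝ, 1 ≤ cs → 1 ≤ z → 1 ≤ Zm → 0 < K →
      0 < V → 0 < H → cs * V ≤ Zm → H * V ^ 2 / K ≤ Zm →
      ∀ (EE : Finset Eis) (af : Eis → Eis → Eis → ℂ) (t : UT), TU z EE t →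
        1 ≤ cs * E3Sw290.YU V t → ∀ i ∈ PI,
        MBU (chp i) w A' (3 * ε) C 1 cs K V H af (BsP ε w A' cs K V H af) Zm t := by
  have h1 : ∀ i : (Eis × Eis) × Bool, ∃ C : ℝ, 0 ≤ C ∧ (i ∈ PI → ∀ A' : ℝ, 2 ≤ A' →
      ∀ cs z Zm K V H : ℝ, 1 ≤ cs → 1 ≤ z → 1 ≤ Zm → 0 < K →
      0 < V → 0 < H → cs * V ≤ Zm → H * V ^ 2 / K ≤ Zm →
      ∀ (EE : Finset Eis) (af : Eis → Eis → Eis → ℂ) (t : UT), TU z EE t →
        1 ≤ cs * E3Sw290.YU V t →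
        MBU (chp i) w A' (3 * ε) C 1 cs K V H af (BsQt ε (chp i) w A' cs K V H af) Zm t) := by
    intro i
    by_cases hi : i ∈ PI
    · obtain ⟨C, hC, h⟩ := MBU_Q (chp_facts hw hi).1 hw hw1 hε
      exact ⟨C, hC, fun _ => h⟩
    · exact ⟨0, le_rfl, fun h => absurd h hi⟩
  choose C hC h using h1
  refine ⟨∑ i ∈ PI, C i, sum_nonneg fun i _ => hC i, ?_⟩
  intro A' hA' cs z Zm K V H hcs hz hZm hK hV hH hVZ hLZ EE af t ht hY i hi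
  have key := h i hi A' hA' cs z Zm K V H hcs hz hZm hK hV hH hVZ hLZ EE af t ht hY
  refine MB_mono (by linarith) (hC i) (single_le_sum (fun j _ => hC j) hi) zero_le_one le_rfl
    ?_ ?_ (BsQt_nonneg _ _ _ _ _ _ _ _ _ _) ?_ key
  · linarith
  · unfold E3Sw290.LtU E3Sw290.YU E3Sw290.ZU
    positivity
  · exact single_le_sum (f := fun i => BsQt ε (chp i) w A' cs K V H af t)
      (fun j _ => BsQt_nonneg _ _ _ _ _ _ _ _ _ _) hi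

/-! ### the hypotheses of the `R`-sum -/

lemma S1h_mono {z : ℝ} {R : Finset (Eis × Eis)} {L M M' : Eis → ℝ} {W1 W1' : Eis → Eis → ℝ}
    {Bs : UT → ℝ} (hM : ∀ d, 0 ≤ M d) (hMM : ∀ d, M d ≤ M' d) (hW : ∀ d e, 0 ≤ W1 d e)
    (hWW : ∀ d e, W1 d e ≤ W1' d e) (h : S1h z R L M W1 Bs) : S1h z R L M' W1' Bs := by
  intro t ht htR
  refine (h t ht htR).trans ?_
  have hk := kU_nonneg t
  split_ifs
  · exact mul_le_mul (add_le_add le_rfl (mul_le_mul_of_nonneg_right (hMM _) hk)) (hWW _ _)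
      (hW _ _) (add_nonneg zero_le_one (mul_nonneg ((hM _).trans (hMM _)) hk))
  · exact le_rfl

lemma S1h_sum {ι : Type} {s : Finset ι} {z : ℝ} {R : Finset (Eis × Eis)} {L M : Eis → ℝ}
    {k : ι → ℝ} {W : Eis → Eis → ℝ} {Bs : ι → UT → ℝ}
    (h : ∀ i ∈ s, S1h z R L M (fun d e => k i * W d e) (Bs i)) :
    S1h z R L M (fun d e => (∑ i ∈ s, k i) * W d e) (fun t => ∑ i ∈ s, Bs i t) := by
  intro t ht htR
  refine (sum_le_sum fun i hi => h i hi t ht htR).trans (le_of_eq ?_)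
  split_ifs
  · beta_reduce
    rw [sum_mul, mul_sum]
  · exact sum_const_zero

lemma F2_nonneg {Lq Δ Iq : ℝ} (h1 : 0 ≤ Lq) (h2 : 0 ≤ Δ) (h3 : 0 ≤ Iq) : 0 ≤ F2 Lq Δ Iq := by
  unfold E3T829.F2; positivity

lemma S2h_mono {z : ℝ} {R : Finset (Eis × Eis)} {L : Eis → ℝ} {I : ℝ} {W1 W1' : Eis → Eis → ℝ}
    {Bs : UT → ℝ} (hL : ∀ d, 0 ≤ L d) (hI : 0 ≤ I) (hWW : ∀ d e, W1 d e ≤ W1' d e)
    (h : S2h z R L I W1 Bs) : S2h z R L I W1' Bs := by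
  intro ρ hρ q hq c hc g hg F hF Δ hΔ Kp hKp
  refine (h ρ hρ q hq c hc g hg F hF Δ hΔ Kp hKp).trans ?_
  refine mul_le_mul_of_nonneg_left (hWW _ _) (F2_nonneg ?_ (by linarith) ?_)
  · have := hL ρ.1
    positivity
  · positivity

lemma S2h_sum {ι : Type} {s : Finset ι} {z : ℝ} {R : Finset (Eis × Eis)} {L : Eis → ℝ} {I : ℝ}
    {k : ι → ℝ} {W : Eis → Eis → ℝ} {Bs : ι → UT → ℝ}
    (h : ∀ i ∈ s, S2h z R L I (fun d e => k i * W d e) (Bs i)) :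
    S2h z R L I (fun d e => (∑ i ∈ s, k i) * W d e) (fun t => ∑ i ∈ s, Bs i t) := by
  intro ρ hρ q hq c hc g hg F hF Δ hΔ Kp hKp
  rw [sum_comm]
  refine (sum_le_sum fun i hi => h i hi ρ hρ q hq c hc g hg F hF Δ hΔ Kp hKp).trans (le_of_eq ?_)
  beta_reduce
  rw [sum_mul, mul_sum]

/-- the two hypotheses of one number -/
def S12st (w : ℝ → ℝ) (R0 : ℝ) (a A : ℕ) (ε cs C c : ℝ) (A₀ : ℕ)
    (Bf : ℝ → ℝ → ℝ → ℝ → (Eis → Eis → Eis → ℂ) → UT → ℝ) : Prop :=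
  ∀ A' : ℝ, (A₀ : ℝ) ≤ A' →
      ∀ z Zm K V H X : ℝ, 1 ≤ z → z ^ 5 ≤ Zm → 2 * z ^ 3 ≤ Zm → 0 < K → 0 < V → 0 < H → 0 < X →
      4 * (H * V ^ 2) * Real.exp (2 * R0 + 3) < K * X → 2 * (cs * V) ≤ Zm →
      2 * z ^ 2 * (Real.exp R0 * X) ≤ Zm →
      ∀ (R : Finset (Eis × Eis)) (af : Eis → Eis → Eis → ℂ), (∀ ρ ∈ R, FS (af ρ.1 ρ.2)) →
      (∀ ρ ∈ R, ∀ n, af ρ.1 ρ.2 n ≠ 0 → Squarefree n) →
      (∀ ρ ∈ R, ∀ n, af ρ.1 ρ.2 n ≠ 0 → |Real.log (nm ρ.1 * nm n) - Real.log X| ≤ R0) →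
      ∀ W0 : Eis → Eis → ℝ → ℝ, (∀ d e, Slp a (W0 d e)) → RHR (Zm ^ 4) A R af W0 →
      (∀ ρ ∈ R, ρ.1 ≠ 0) →
      S1h z R (fun d => H * V ^ 2 / (K * nm d))
        (fun d => cs * (H * V ^ 2 / (K * nm d)) * (X * V * H / K) ^ (-(1 / 2) : ℝ))
        (fun d e => C * (Zm ^ (2 * ε) * W0 d e (c * (X * V * H / K))))
        (Bf A' K V H af) ∧
      S2h z R (fun d => H * V ^ 2 / (K * nm d)) (X * V * H / K)
        (fun d e => C * (Zm ^ (2 * ε) * W0 d e (c * (X * V * H / K))))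
        (Bf A' K V H af)

theorem S12_one {χ : Eis → ℂ} (hχ : Mul1 χ) {w : ℝ → ℝ} (hP : PoHW OK3 nfo χ (w6 w))
    (hG : PoHG (GD χ (w6 w))) (hw1 : ∀ x, w x ≠ 0 → x ≤ 1) {R0 : ℝ} (hR0 : 0 ≤ R0) (a A : ℕ)
    (hA : 1 < A) {ε : ℝ} (hε : 0 < ε) {cs : ℝ} (hcs : 1 ≤ cs) :
    ∃ (C c : ℝ) (A₀ : ℕ), 0 ≤ C ∧ 1 ≤ c ∧ S12st w R0 a A ε cs C c A₀
      (fun A' K V H af => BsQt ε χ w A' cs K V H af) := by
  obtain ⟨C1, c1, A1, hC1, hc1, h1⟩ := S1h_Q hχ hP hw1 hR0 a A hA hε hcs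
  obtain ⟨C2, c2, A2, hC2, hc2, h2⟩ := S2h_Q hχ hG hw1 hR0 a A hA hε hcs
  refine ⟨C1 + C2, c1 + c2, A1 + A2, by linarith, by linarith, ?_⟩
  intro A' hA' z Zm K V H X hz hz5 hz3 hK hV hH hX hKX hVZ hXZ R af haf hsf hwin W0 hW0 hRH hne
  have hz0 : 0 < z := by linarith
  have hA1 : (A1 : ℝ) ≤ A' := le_trans (by push_cast; linarith [Nat.cast_nonneg (α := ℝ) A2]) hA'
  have hA2 : (A2 : ℝ) ≤ A' := le_trans (by push_cast; linarith [Nat.cast_nonneg (α := ℝ) A1]) hA'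
  have hHV : 0 < H * V ^ 2 := by positivity
  have hcsV : 0 < cs * V := by positivity
  have hE : Real.exp (2 * R0) ≤ Real.exp (2 * R0 + 3) := Real.exp_le_exp.mpr (by linarith)
  have hKX1 : H * V ^ 2 * Real.exp (2 * R0) < K * X := by
    refine lt_of_le_of_lt ?_ hKX
    have h3 : 0 < Real.exp (2 * R0) := Real.exp_pos _
    calc H * V ^ 2 * Real.exp (2 * R0) ≤ (4 * (H * V ^ 2)) * Real.exp (2 * R0) := by
          refine mul_le_mul_of_nonneg_right (by linarith) h3.le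
      _ ≤ _ := mul_le_mul_of_nonneg_left hE (by positivity)
  have hXp : 0 < Real.exp R0 * X := by positivity
  have hZm : 1 ≤ Zm := (one_le_pow₀ hz).trans hz5
  have hI : 0 < X * V * H / K := by positivity
  have hZ2 : 0 ≤ Zm ^ (2 * ε) := by positivity
  have hz12 : z ≤ z ^ 2 := le_self_pow₀ hz (by norm_num)
  have k1 := h1 A' hA1 z Zm K V H X hz hz5 hK hV hH hX hKX1 (by linarith)
    (by
      have : 0 < z ^ 2 * (Real.exp R0 * X) := by positivity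
      linarith) R af haf hsf hwin W0 hW0 hRH hne
  have k2 := h2 A' hA2 z Zm K V H X hz hz3 hK hV hH hX hKX hVZ
    (by
      have : z * (Real.exp R0 * X) ≤ z ^ 2 * (Real.exp R0 * X) :=
        mul_le_mul_of_nonneg_right hz12 hXp.le
      linarith) R af haf hsf hwin W0 hW0 hRH
  have hw : ∀ C' c', 0 ≤ C' → 1 ≤ c' → C' ≤ C1 + C2 → c' ≤ c1 + c2 → ∀ d e,
      C' * Zm ^ (2 * ε) * W0 d e (c' * (X * V * H / K)) ≤
        (C1 + C2) * (Zm ^ (2 * ε) * W0 d e ((c1 + c2) * (X * V * H / K))) := by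
    intro C' c' hC' hc' h3 h4 d e
    have hcI : 0 < c' * (X * V * H / K) := mul_pos (by linarith) hI
    have k3 : W0 d e (c' * (X * V * H / K)) ≤ W0 d e ((c1 + c2) * (X * V * H / K)) :=
      slp_mono (hW0 d e) hcI (mul_le_mul_of_nonneg_right h4 hI.le)
    have k0 := (hW0 d e).nonneg _ hcI
    rw [mul_assoc]
    exact mul_le_mul h3 (mul_le_mul_of_nonneg_left k3 hZ2) (mul_nonneg hZ2 k0) (by linarith)
  have hM : ∀ d : Eis, 0 ≤ cs * (H * V ^ 2 / (K * nm d)) * (X * V * H / K) ^ (-(1 / 2) : ℝ) :=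
    fun d => by positivity
  constructor
  · refine S1h_mono hM (fun _ => le_rfl) ?_ (hw C1 c1 hC1 hc1 (by linarith) (by linarith)) k1
    intro d e
    have := (hW0 d e).nonneg (c1 * (X * V * H / K)) (mul_pos (by linarith) hI)
    positivity
  · exact S2h_mono (fun d => by positivity) hI.le (hw C2 c2 hC2 hc2 (by linarith) (by linarith))
      k2

/-- **the hypotheses of the `R`-sum for the sum of the structured numbers** -/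
theorem S12_P {w : ℝ → ℝ} (hw : Wgt w) (hw1 : ∀ x, w x ≠ 0 → x ≤ 1) {R0 : ℝ} (hR0 : 0 ≤ R0)
    (a A : ℕ) (hA : 1 < A) {ε : ℝ} (hε : 0 < ε) {cs : ℝ} (hcs : 1 ≤ cs) :
    ∃ (C c : ℝ) (A₀ : ℕ), 0 ≤ C ∧ 1 ≤ c ∧ S12st w R0 a A ε cs C c A₀
      (fun A' K V H af => BsP ε w A' cs K V H af) := by
  have h1 : ∀ i : (Eis × Eis) × Bool, ∃ (C c : ℝ) (A₀ : ℕ), 0 ≤ C ∧ 1 ≤ c ∧ (i ∈ PI →
      S12st w R0 a A ε cs C c A₀ (fun A' K V H af => BsQt ε (chp i) w A' cs K V H af)) := by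
    intro i
    by_cases hi : i ∈ PI
    · obtain ⟨h1, h2, h3⟩ := chp_facts hw hi
      obtain ⟨C, c, A₀, hC, hc, h⟩ := S12_one h1 h2 h3 hw1 hR0 a A hA hε hcs
      exact ⟨C, c, A₀, hC, hc, fun _ => h⟩
    · exact ⟨0, 1, 0, le_rfl, le_rfl, fun h => absurd h hi⟩
  choose C c A₀ hC hc h using h1
  have t2 : 0 ≤ ∑ q ∈ PI, c q := sum_nonneg fun q _ => by linarith [hc q]
  refine ⟨∑ i ∈ PI, C i, 1 + ∑ i ∈ PI, c i, ∑ i ∈ PI, A₀ i, sum_nonneg fun i _ => hC i,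
    by linarith, ?_⟩
  intro A' hA' z Zm K V H X hz hz5 hz3 hK hV hH hX hKX hVZ hXZ R af haf hsf hwin W0 hW0 hRH hne
  have hZm : 1 ≤ Zm := (one_le_pow₀ hz).trans hz5
  have hI : 0 < X * V * H / K := by positivity
  have hZ2 : 0 ≤ Zm ^ (2 * ε) := by positivity
  have hA0 : ∀ i ∈ PI, (A₀ i : ℝ) ≤ A' := fun i hi => le_trans (by
    exact_mod_cast single_le_sum (f := A₀) (fun q _ => Nat.zero_le _) hi) hA'
  have hwW : ∀ i ∈ PI, ∀ d e, C i * (Zm ^ (2 * ε) * W0 d e (c i * (X * V * H / K))) ≤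
      C i * (Zm ^ (2 * ε) * W0 d e ((1 + ∑ i ∈ PI, c i) * (X * V * H / K))) := by
    intro i hi d e
    have hci : c i ≤ 1 + ∑ i ∈ PI, c i := by
      have := single_le_sum (f := c) (fun q _ => by linarith [hc q]) hi
      linarith
    refine mul_le_mul_of_nonneg_left (mul_le_mul_of_nonneg_left ?_ hZ2) (hC i)
    exact slp_mono (hW0 d e) (mul_pos (by linarith [hc i]) hI) (mul_le_mul_of_nonneg_right hci hI.le)
  have hM : ∀ d : Eis, 0 ≤ cs * (H * V ^ 2 / (K * nm d)) * (X * V * H / K) ^ (-(1 / 2) : ℝ) :=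
    fun d => by positivity
  have key : ∀ i ∈ PI, _ := fun i hi => h i hi A' (hA0 i hi) z Zm K V H X hz hz5 hz3 hK hV hH hX
    hKX hVZ hXZ R af haf hsf hwin W0 hW0 hRH hne
  constructor
  · refine S1h_sum (s := PI) (k := C)
      (W := fun d e => Zm ^ (2 * ε) * W0 d e ((1 + ∑ i ∈ PI, c i) * (X * V * H / K)))
      (Bs := fun i => BsQt ε (chp i) w A' cs K V H af) fun i hi => ?_
    refine S1h_mono hM (fun _ => le_rfl) ?_ (hwW i hi) (key i hi).1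
    intro d e
    have := (hW0 d e).nonneg (c i * (X * V * H / K)) (mul_pos (by linarith [hc i]) hI)
    have := hC i
    positivity
  · refine S2h_sum (s := PI) (k := C)
      (W := fun d e => Zm ^ (2 * ε) * W0 d e ((1 + ∑ i ∈ PI, c i) * (X * V * H / K)))
      (Bs := fun i => BsQt ε (chp i) w A' cs K V H af) fun i hi => ?_
    exact S2h_mono (fun d => by positivity) hI.le (hwW i hi) (key i hi).2

/-! ### one pair of levels -/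

lemma RN2_smul (L M : Eis → ℝ) (I : ℝ) (W : Eis → Eis → ℝ) (k : ℝ) (Ds EE : Finset Eis) :
    RN2 L M I (fun d e => k * W d e) Ds EE = k * RN2 L M I W Ds EE := by
  unfold E3T829.RN2
  rw [mul_sum]
  refine sum_congr rfl fun d _ => ?_
  rw [mul_sum]
  refine sum_congr rfl fun e _ => ?_
  ring

lemma RN2_nonneg {L M : Eis → ℝ} {I : ℝ} {W1 : Eis → Eis → ℝ} (hL : ∀ d, 0 ≤ L d)
    (hM : ∀ d, 0 ≤ M d) (hI : 0 ≤ I) (hW : ∀ d e, 0 ≤ W1 d e) (Ds EE : Finset Eis) :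
    0 ≤ RN2 L M I W1 Ds EE := by
  unfold E3T829.RN2
  refine sum_nonneg fun d _ => sum_nonneg fun e _ => ?_
  have h1 := G2_nonneg (hL d) (hM d) hI
  have h2 := hW d e
  split_ifs <;> positivity

lemma Z_exp2 {Z CZ CR C₂ η ε : ℝ} (hZ : 1 ≤ Z) (hCZ : 1 ≤ CZ) (hCR : 0 ≤ CR) (hC₂ : 0 ≤ C₂)
    (hη : 0 < η) (hη1 : 11 * η ≤ 1) (hηε : 833 * η ≤ ε) :
    (3 + CR * (Z ^ 5) ^ η) * (CZ * Z ^ 75) ^ (3 * (3 * η)) * Z ^ (3 * η) *
      (1 + C₂ * (CZ * Z ^ 75) ^ (2 * η)) ≤ (3 + CR) * (1 + C₂) * CZ * Z ^ ε := by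
  have hZ0 : 0 < Z := by linarith
  have hCZ0 : 0 < CZ := by linarith
  have h75 : 1 ≤ Z ^ 75 := one_le_pow₀ hZ
  have hm : 1 ≤ CZ * Z ^ 75 := one_le_mul_of_one_le_of_one_le hCZ h75
  have hm0 : 0 < CZ * Z ^ 75 := by linarith
  have h1 : 1 ≤ (CZ * Z ^ 75) ^ (2 * η) := Real.one_le_rpow hm (by linarith)
  have h2 : 1 + C₂ * (CZ * Z ^ 75) ^ (2 * η) ≤ (1 + C₂) * (CZ * Z ^ 75) ^ (2 * η) := by nlinarith
  have e0 : (Z ^ 5) ^ η = Z ^ (5 * η) := by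
    rw [← Real.rpow_natCast Z 5, ← Real.rpow_mul hZ0.le]
    congr 1
  have h0 : 1 ≤ Z ^ (5 * η) := Real.one_le_rpow hZ (by linarith)
  have h3 : 3 + CR * Z ^ (5 * η) ≤ (3 + CR) * Z ^ (5 * η) := by nlinarith
  have e1 : (CZ * Z ^ 75) ^ (3 * (3 * η)) * (CZ * Z ^ 75) ^ (2 * η) =
      CZ ^ (11 * η) * Z ^ (825 * η) := by
    rw [← Real.rpow_add hm0, show 3 * (3 * η) + 2 * η = 11 * η by ring,
      Real.mul_rpow hCZ0.le (by positivity), ← Real.rpow_natCast Z 75, ← Real.rpow_mul hZ0.le]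
    congr 2
    push_cast
    ring
  have h4 : CZ ^ (11 * η) ≤ CZ := by
    conv_rhs => rw [← Real.rpow_one CZ]
    exact Real.rpow_le_rpow_of_exponent_le hCZ hη1
  have h5 : Z ^ (5 * η) * Z ^ (3 * η) * Z ^ (825 * η) ≤ Z ^ ε := by
    rw [← Real.rpow_add hZ0, ← Real.rpow_add hZ0]
    exact Real.rpow_le_rpow_of_exponent_le hZ (by linarith)
  rw [e0]
  calc (3 + CR * Z ^ (5 * η)) * (CZ * Z ^ 75) ^ (3 * (3 * η)) * Z ^ (3 * η) *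
        (1 + C₂ * (CZ * Z ^ 75) ^ (2 * η))
      ≤ ((3 + CR) * Z ^ (5 * η)) * (CZ * Z ^ 75) ^ (3 * (3 * η)) * Z ^ (3 * η) *
        ((1 + C₂) * (CZ * Z ^ 75) ^ (2 * η)) := by gcongr
    _ = (3 + CR) * (1 + C₂) * (((CZ * Z ^ 75) ^ (3 * (3 * η)) * (CZ * Z ^ 75) ^ (2 * η)) *
        (Z ^ (5 * η) * Z ^ (3 * η))) := by ring
    _ = (3 + CR) * (1 + C₂) * (CZ ^ (11 * η) * (Z ^ (5 * η) * Z ^ (3 * η) * Z ^ (825 * η))) := by
        rw [e1]; ring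
    _ ≤ (3 + CR) * (1 + C₂) * (CZ * Z ^ ε) := by gcongr
    _ = _ := by ring

lemma fin_alg2 {C C0 cs a b k r E F x1 x2 y1 y2 z : ℝ} (hC : 0 ≤ C) (hC0 : 0 ≤ C0) (hE : 0 ≤ E)
    (hF : 0 ≤ F) (hab : 0 ≤ r * a * b) (h1 : x1 ≤ (1 + k) * y1) (h2 : x2 ≤ (1 + k) * y2)
    (h3 : r * a * b * (1 + k) ≤ z) (hy1 : 0 ≤ y1) (hy2 : 0 ≤ y2) :
    C * r * (C0 * cs ^ 2 * a) * F * b * (E * (x1 + x2)) ≤
      C * (C0 * cs ^ 2) * z * F * (E * (y1 + y2)) := by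
  have h4 : 0 ≤ C * (C0 * cs ^ 2) * F * E := by positivity
  calc C * r * (C0 * cs ^ 2 * a) * F * b * (E * (x1 + x2))
      = (C * (C0 * cs ^ 2) * F * E) * ((r * a * b) * (x1 + x2)) := by ring
    _ ≤ (C * (C0 * cs ^ 2) * F * E) * ((r * a * b) * ((1 + k) * (y1 + y2))) := by
        refine mul_le_mul_of_nonneg_left (mul_le_mul_of_nonneg_left ?_ hab) h4
        linarith
    _ = (C * (C0 * cs ^ 2) * F * E) * ((r * a * b * (1 + k)) * (y1 + y2)) := by ring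
    _ ≤ (C * (C0 * cs ^ 2) * F * E) * (z * (y1 + y2)) := by
        refine mul_le_mul_of_nonneg_left (mul_le_mul_of_nonneg_right h3 (by linarith)) h4
    _ = _ := by ring

set_option maxHeartbeats 4000000 in
/-- **one pair of levels from (RH), both forms** (the hypotheses at the `d` of the family) -/
theorem PAIR_RH2' {Rw : ℝ} (hRw : 0 ≤ Rw) {h : ℝ → ℝ} (hh : ContDiff ℝ ∞ h)
    (hhc : HasCompactSupport h) {w1 : ℝ → ℝ} (hW1 : Wgt w1)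
    (hw : ∀ x, w1 x ≠ 0 → 0 < x ∧ |Real.log x| ≤ Rw)
    (hw1 : ∀ x, 0 < x → h (Real.log x) ≠ 0 → w1 x = 1) {R0 : ℝ} (hR0 : 0 ≤ R0) (a A₁ : ℕ)
    (hA₁ : 1 < A₁) {b₀ : ℝ} (hb₀ : 0 ≤ b₀) {ε : ℝ} (hε : 0 < ε) (hε1 : ε ≤ 1) :
    ∃ (A₀ : ℕ) (c : ℝ), 1 ≤ c ∧ ∀ A : ℕ, A₀ ≤ A → ∀ Bw : ℕ, 4 ≤ Bw → ∃ C : ℝ, 0 ≤ C ∧
    ∀ (Om Om' : ℝ → ℂ) (Mb : ℝ), 0 ≤ Mb → ContDiff ℝ ∞ Om → ContDiff ℝ ∞ Om' →
      (∀ n ≤ A + 2, ∀ x, ‖iteratedDeriv n Om x‖ ≤ Mb) →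
      (∀ n ≤ A + 2, ∀ x, ‖iteratedDeriv n Om' x‖ ≤ Mb) →
    ∀ (V V' τ : ℝ) (κ κ' : ℂ), 0 < V → 0 < V' → ‖κ‖ ≤ 1 → ‖κ'‖ ≤ 1 →
    ∀ (Z : ℝ), 1 ≤ Z → ∀ (Pr : Yp → Yp → Prop) (J : Finset (Eis × Eis))
      (om om' : Eis × Eis → ℂ) (af : Eis → Eis → Eis → ℂ) (EE : Finset Eis)
      (E0 E1 R B K X H G1 G1' : ℝ) (W0 W0' : Eis → Eis → ℝ → ℝ),
      TC (T3 af) → (∀ d e, FS (af d e)) → OKJ J → (∀ d e, e ∉ EE → ∀ j, T3 af d e j = 0) →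
      0 < K → 0 ≤ R → R ≤ Z → 0 ≤ B → B ≤ Z → 0 ≤ E1 → E1 ≤ Z →
      (∀ x ∈ J, (nm x.1 : ℝ) ≤ Z) → (∀ x ∈ J, (nm x.2 : ℝ) ≤ R) →
      WQ J om E0 R (wL κ h Om τ V) → WQ J om' E0 R (wL κ' h Om' τ V') →
      0 < X → 0 < H → 0 ≤ G1 → 0 ≤ G1' →
      K ≤ Z ^ 5 → X ≤ Z ^ 5 → c * V ≤ Z ^ 5 → c * V' ≤ Z ^ 5 →
      c * (H * V ^ 2) ≤ K * X → c * (H * V' ^ 2) ≤ K * X →
      (Real.sqrt (c * V) ≤ G1 ∨ (ClsP Pr J E0 R ∧ 1 ≤ G1)) →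
      (Real.sqrt (c * V') ≤ G1' ∨ (ClsP Pr J E0 R ∧ 1 ≤ G1')) →
      (∀ ρ ∈ RR J EE, ∀ n, af ρ.1 ρ.2 n ≠ 0 → Squarefree n) →
      (∀ ρ ∈ RR J EE, ∀ n, af ρ.1 ρ.2 n ≠ 0 →
        |Real.log (nm ρ.1 * nm n) - Real.log X| ≤ R0) →
      (∀ d e, Slp a (W0 d e)) → (∀ d e, Slp a (W0' d e)) →
      RHR (c * Z ^ 300) A₁ (RR J EE) af W0 → RHR (c * Z ^ 300) A₁ (RR J EE) af W0' →
      ∑ q ∈ S R, ∑ t ∈ pb E1, MPTr Pr A Bw K B V V' (Z ^ 5) J om om' (T3 af) E0 R b₀ q t ≤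
        C * Mb ^ 2 * (1 + |τ|) ^ A * Z ^ ε * (hE EE *
          (LVn af (J.image Prod.fst) EE c (Z ^ 5) K H V V' E1 B G1
            (RN2 (Ld K V H) (Md c K V H X) (X * V * H / K)
              (fun d e => W0 d e (c * (X * V * H / K))) (J.image Prod.fst) EE) +
          LVn af (J.image Prod.fst) EE c (Z ^ 5) K H V' V E1 B G1'
            (RN2 (Ld K V' H) (Md c K V' H X) (X * V' * H / K)
              (fun d e => W0' d e (c * (X * V' * H / K))) (J.image Prod.fst) EE))) := by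
  -- the constants
  obtain ⟨cs, hcsd⟩ : ∃ cs, cs = Real.exp Rw := ⟨_, rfl⟩
  have hcs : 1 ≤ cs := by rw [hcsd]; exact Real.one_le_exp hRw
  have hcs0 : 0 < cs := by linarith
  have hwcs : Wgt (fun y => w1 (cs * y)) := by
    have h1 := hW1.scale (A := cs⁻¹) (by positivity)
    have e : (fun x => w1 (x / cs⁻¹)) = fun y => w1 (cs * y) := by
      funext x
      rw [div_inv_eq_mul, mul_comm]
    rwa [e] at h1
  have hw1' : ∀ y, w1 (cs * y) ≠ 0 → y ≤ 1 := fun y hy => w_le hw hcsd.ge hy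
  obtain ⟨η, hη⟩ : ∃ η, η = ε / 833 := ⟨_, rfl⟩
  have hη0 : 0 < η := by rw [hη]; positivity
  have hη1 : 11 * η ≤ 1 := by rw [hη]; linarith
  obtain ⟨C0', hC0', hMB⟩ := MB_P hwcs hw1' hη0
  obtain ⟨C0, hC0d⟩ : ∃ C0, C0 = C0' + 1 := ⟨_, rfl⟩
  have hC0 : 0 < C0 := by rw [hC0d]; linarith
  obtain ⟨C₂, c₁, A₀, hC₂, hc₁, hS12⟩ := S12_P hwcs hw1' hR0 a A₁ hA₁ hη0 hcs
  obtain ⟨CR, hCR, hRsum⟩ := R_PZ2 hη0
  obtain ⟨CZ, hCZd⟩ : ∃ CZ, CZ = kZ 59049 b₀ + 2 * Real.exp R0 + 2 := ⟨_, rfl⟩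
  have hkZ : 0 ≤ kZ 59049 b₀ := by unfold E3Sw290.kZ; positivity
  have heR := Real.exp_pos R0
  have hCZ2 : 2 ≤ CZ := by rw [hCZd]; linarith
  have hCZ1 : 1 ≤ CZ := by linarith
  obtain ⟨E4, hE4⟩ : ∃ E4, E4 = 4 * Real.exp (2 * R0 + 3) + 1 := ⟨_, rfl⟩
  have heR3 := Real.exp_pos (2 * R0 + 3)
  have he2 : 1 ≤ E4 := by rw [hE4]; linarith
  obtain ⟨cw', hcwd⟩ : ∃ cw', cw' = c₁ * E4 * CZ ^ 4 := ⟨_, rfl⟩
  have p2 : 1 ≤ c₁ * E4 := one_le_mul_of_one_le_of_one_le hc₁ he2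
  have p3 : 1 ≤ CZ ^ 4 := one_le_pow₀ hCZ1
  have hcw' : 1 ≤ cw' := by rw [hcwd]; exact one_le_mul_of_one_le_of_one_le p2 p3
  have q2 : c₁ ≤ cw' := by
    rw [hcwd, mul_assoc]
    exact le_mul_of_one_le_right (by linarith) (one_le_mul_of_one_le_of_one_le he2 p3)
  have q3 : E4 ≤ cw' := by
    rw [hcwd]
    calc E4 ≤ c₁ * E4 := le_mul_of_one_le_left (by linarith) hc₁
      _ ≤ _ := le_mul_of_one_le_right (by linarith) p3
  have q4 : CZ ^ 4 ≤ cw' := by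
    rw [hcwd]
    exact le_mul_of_one_le_left (by linarith) p2
  obtain ⟨c, hcd⟩ : ∃ c, c = cw' * cs := ⟨_, rfl⟩
  have hcwc : cw' ≤ c := by rw [hcd]; exact le_mul_of_one_le_right (by linarith) hcs
  have hcsc : cs ≤ c := by rw [hcd]; exact le_mul_of_one_le_left (by linarith) hcw'
  have hc1 : 1 ≤ c := hcw'.trans hcwc
  refine ⟨A₀ + 2, c, hc1, ?_⟩
  intro A hA Bw hBw
  obtain ⟨C, hC, hP⟩ := PAIRA (A := A) (Bw := Bw) (by omega) hBw hRw hh hhc hw hw1 (cw := cw')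
    (cs := cs) (b₀ := b₀) hcw' hcs hcsd.ge hb₀ (ε := 3 * η) (by positivity) (by linarith)
  refine ⟨C * (C0 * cs ^ 2) * ((3 + CR) * (1 + C₂) * CZ), by positivity, ?_⟩
  intro Om Om' Mb hMb hOm hOm' hOb hOb' V V' τ κ κ' hV hV' hκ hκ' Z hZ Pr J om om' af EE E0 E1 R B
    K X H G1 G1' W0 W0' hT haf hJ hEE hK hR0' hRZ hB0 hBZ hE10 hE1 hJ1 hJ2 hwq hwq' hX hH hG1 hG1'
    hKz hXz hVz hVz' hKX hKX' hcl hcl' hsf hwin hS hS' hRH hRH'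
  have hZ0 : 0 < Z := by linarith
  have hz : 1 ≤ Z ^ 5 := one_le_pow₀ hZ
  obtain ⟨Zm, hZmd⟩ : ∃ Zm, Zm = CZ * Z ^ 75 := ⟨_, rfl⟩
  have h75 : 1 ≤ Z ^ 75 := one_le_pow₀ hZ
  have hZm : 1 ≤ Zm := by rw [hZmd]; exact one_le_mul_of_one_le_of_one_le hCZ1 h75
  have hZm75 : Z ^ 75 ≤ Zm := by
    rw [hZmd]; exact le_mul_of_one_le_left (by positivity) hCZ1
  have hZm75' : 2 * Z ^ 75 ≤ Zm := by
    rw [hZmd]; exact mul_le_mul_of_nonneg_right hCZ2 (by positivity)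
  have hz75 : Z ^ 5 ≤ Z ^ 75 := pow_le_pow_right₀ hZ (by norm_num)
  have hz5 : ((Z ^ 5) ^ 3) ^ 5 ≤ Zm := by
    rw [← pow_mul, ← pow_mul]
    exact hZm75
  have hz3 : 2 * ((Z ^ 5) ^ 3) ^ 3 ≤ Zm := by
    rw [← pow_mul, ← pow_mul]
    have : Z ^ (5 * 3 * 3) ≤ Z ^ 75 := pow_le_pow_right₀ hZ (by norm_num)
    linarith
  have hkZm : kZ 59049 b₀ * (Z ^ 5) ^ 10 ≤ Zm := by
    rw [hZmd, ← pow_mul]
    have h1 : kZ 59049 b₀ ≤ CZ := by rw [hCZd]; linarith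
    have h2 : Z ^ (5 * 10) ≤ Z ^ 75 := pow_le_pow_right₀ hZ (by norm_num)
    exact mul_le_mul h1 h2 (by positivity) (by linarith)
  have hXm : 2 * ((Z ^ 5) ^ 3) ^ 2 * (Real.exp R0 * X) ≤ Zm := by
    have h1 : 2 * Real.exp R0 ≤ CZ := by rw [hCZd]; linarith
    calc 2 * ((Z ^ 5) ^ 3) ^ 2 * (Real.exp R0 * X)
        = ((Z ^ 5) ^ 3) ^ 2 * ((2 * Real.exp R0) * X) := by ring
      _ ≤ ((Z ^ 5) ^ 3) ^ 2 * (CZ * Z ^ 5) := by gcongr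
      _ = CZ * Z ^ 35 := by ring
      _ ≤ CZ * Z ^ 75 := by
          refine mul_le_mul_of_nonneg_left ?_ (by linarith)
          exact pow_le_pow_right₀ hZ (by norm_num)
      _ = Zm := hZmd.symm
  have hπ : Zm ^ 4 ≤ c * Z ^ 300 := by
    rw [hZmd, mul_pow, ← pow_mul]
    exact mul_le_mul_of_nonneg_right (q4.trans hcwc) (by positivity)
  have hcsV : ∀ V : ℝ, 0 < V → c * V ≤ Z ^ 5 → 2 * (cs * V) ≤ Zm := fun V hV h => by
    have h1 := (mul_le_mul_of_nonneg_right hcsc hV.le).trans h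
    linarith
  have hcsV' : ∀ V : ℝ, 0 < V → c * V ≤ Z ^ 5 → cs * V ≤ Zm := fun V hV h => by
    have h1 : 0 < cs * V := by positivity
    have := hcsV V hV h
    linarith
  have hKXs : ∀ V : ℝ, 0 < V → c * (H * V ^ 2) ≤ K * X →
      4 * (H * V ^ 2) * Real.exp (2 * R0 + 3) < K * X := by
    intro V hV h
    have h1 : 0 < H * V ^ 2 := by positivity
    have h2 : E4 * (H * V ^ 2) ≤ c * (H * V ^ 2) :=
      mul_le_mul_of_nonneg_right (q3.trans hcwc) h1.le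
    rw [hE4] at h2
    nlinarith
  have hLZ : ∀ V : ℝ, 0 < V → c * (H * V ^ 2) ≤ K * X → H * V ^ 2 / K ≤ Zm := by
    intro V hV h
    have h1 : 0 < H * V ^ 2 := by positivity
    have h2 : H * V ^ 2 ≤ c * (H * V ^ 2) := le_mul_of_one_le_left h1.le hc1
    rw [div_le_iff₀ hK]
    calc H * V ^ 2 ≤ K * X := h2.trans h
      _ = X * K := mul_comm _ _
      _ ≤ Zm * K := mul_le_mul_of_nonneg_right (by linarith) hK.le
  -- the structured numbers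
  have hc0 : 0 < c := by linarith
  have hne : ∀ ρ ∈ (RUs J EE (Z ^ 5)).image (fun u => (u.1, u.2.1)), ρ ∈ RR J EE := by
    intro ρ hρ
    obtain ⟨u, hu, rfl⟩ := mem_image.mp hρ
    unfold E3T829.RUs at hu
    rw [mem_product] at hu
    unfold E3T829.RR
    rw [mem_product]
    exact ⟨hu.1, (mem_product.mp hu.2).1⟩
  have hne0 : ∀ ρ ∈ RR J EE, ρ.1 ≠ 0 := by
    intro ρ hρ
    unfold E3T829.RR at hρ
    rw [mem_product, mem_image] at hρ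
    obtain ⟨⟨y, hy, hy'⟩, -⟩ := hρ
    rw [← hy']
    exact (hJ.prim y hy).ne_zero
  have hAA : ((A₀ : ℕ) : ℝ) ≤ (A : ℝ) := by exact_mod_cast (by omega : A₀ ≤ A)
  have hA2 : (2 : ℝ) ≤ (A : ℝ) := by exact_mod_cast (by omega : 2 ≤ A)
  have hC0le : C0' ≤ C0 := by rw [hC0d]; linarith
  have hMBU : ∀ V : ℝ, 0 < V → c * V ≤ Z ^ 5 → c * (H * V ^ 2) ≤ K * X → ∀ i ∈ PI, ∀ t,
      TU (Z ^ 5) EE t → 1 ≤ cs * E3Sw290.YU V t →
      MBU (chp i) (fun y => w1 (cs * y)) A (3 * η) C0 cw' cs K V H af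
        (BsP η (fun y => w1 (cs * y)) A cs K V H af) Zm t := by
    intro V hV h1 h2 i hi t ht hY
    have k := hMB A hA2 cs (Z ^ 5) Zm K V H hcs hz hZm hK hV hH (hcsV' V hV h1) (hLZ V hV h2) EE
      af t ht hY i hi
    refine MB_mono (by linarith) hC0' hC0le zero_le_one hcw' (by linarith) ?_
      (BsP_nonneg _ _ _ _ _ _ _ _ _) le_rfl k
    unfold E3Sw290.LtU E3Sw290.YU E3Sw290.ZU
    positivity
  have hM1 : MB1 w1 A (3 * η) C0 cw' cs K V H af (Z ^ 5) EE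
      (BsP η (fun y => w1 (cs * y)) A cs K V H af) Zm := by
    intro k k' hk hk' t ht hY
    exact hMBU V hV hVz hKX ((k, k'), true) (mem_PI.mpr ⟨hk, hk'⟩) t ht hY
  have hM2 : MB2 w1 A (3 * η) C0 cw' cs K V' H af (Z ^ 5) EE
      (BsP η (fun y => w1 (cs * y)) A cs K V' H af) Zm := by
    intro k k' hk hk' t ht hY
    exact hMBU V' hV' hVz' hKX' ((k, k'), false) (mem_PI.mpr ⟨hk, hk'⟩) t ht hY
  -- the R-numbers
  have hRP : ∀ V : ℝ, 0 < V → c * V ≤ Z ^ 5 → c * (H * V ^ 2) ≤ K * X →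
      ∀ W0 : Eis → Eis → ℝ → ℝ, (∀ d e, Slp a (W0 d e)) → RHR (c * Z ^ 300) A₁ (RR J EE) af W0 →
      RPn J EE (Z ^ 5) K H V (BsP η (fun y => w1 (cs * y)) A cs K V H af) (CR * (Z ^ 5) ^ η)
        ((C₂ * Zm ^ (2 * η)) * RN2 (Ld K V H) (Md c K V H X) (X * V * H / K)
          (fun d e => W0 d e (c * (X * V * H / K))) (J.image Prod.fst) EE) := by
    intro V hV h1 h2 W0 hS hRH b hb
    have hI : 0 < X * V * H / K := by positivity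
    have hcI : 0 < c * (X * V * H / K) := by positivity
    have hc₁I : 0 < c₁ * (X * V * H / K) := mul_pos (by linarith) hI
    have hZ2 : 0 ≤ Zm ^ (2 * η) := by positivity
    have n0 : ∀ d e, 0 ≤ W0 d e (c * (X * V * H / K)) := fun d e => (hS d e).nonneg _ hcI
    have k := hS12 A hAA ((Z ^ 5) ^ 3) Zm K V H X (one_le_pow₀ hz) hz5 hz3 hK hV hH hX
      (hKXs V hV h2) (hcsV V hV h1) hXm ((RUs J EE (Z ^ 5)).image fun u => (u.1, u.2.1)) af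
      (fun ρ _ => haf _ _) (fun ρ hρ => hsf ρ (hne ρ hρ)) (fun ρ hρ => hwin ρ (hne ρ hρ)) W0 hS
      (fun ρ hρ γ π hγ hπ' hn P hP => hRH ρ (hne ρ hρ) γ π hγ hπ' (hn.trans hπ) P hP)
      (fun ρ hρ => hne0 ρ (hne ρ hρ))
    have hww : ∀ d e, C₂ * (Zm ^ (2 * η) * W0 d e (c₁ * (X * V * H / K))) ≤
        (C₂ * Zm ^ (2 * η)) * W0 d e (c * (X * V * H / K)) := by
      intro d e
      rw [← mul_assoc]
      refine mul_le_mul_of_nonneg_left ?_ (mul_nonneg hC₂ hZ2)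
      exact slp_mono (hS d e) hc₁I (mul_le_mul_of_nonneg_right (q2.trans hcwc) hI.le)
    have hw0 : ∀ d e, 0 ≤ C₂ * (Zm ^ (2 * η) * W0 d e (c₁ * (X * V * H / K))) := fun d e =>
      mul_nonneg hC₂ (mul_nonneg hZ2 ((hS d e).nonneg _ hc₁I))
    have hMM : ∀ d : Eis, 0 ≤ cs * (H * V ^ 2 / (K * nm d)) *
        (X * V * H / K) ^ (-(1 / 2) : ℝ) := fun d => by positivity
    have s1 := S1h_mono (M' := Md c K V H X) hMM (fun d => by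
      unfold Md
      refine mul_le_mul_of_nonneg_right ?_ (by positivity)
      exact mul_le_mul_of_nonneg_right hcsc (by positivity)) hw0 hww k.1
    have s2 := S2h_mono (fun d => by positivity) hI.le hww k.2
    have key := hRsum (Z ^ 5) hz J EE b K H V
      (fun d e => (C₂ * Zm ^ (2 * η)) * W0 d e (c * (X * V * H / K))) (Ld K V H) (Md c K V H X)
      (X * V * H / K) (BsP η (fun y => w1 (cs * y)) A cs K V H af) hb hK.le hH.le hV.le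
      (fun d e => mul_nonneg (mul_nonneg hC₂ hZ2) (n0 d e)) (Ld_nonneg hK hH)
      (Md_nonneg hc0.le hK hV hH hX) hI (BsP_nonneg _ _ _ _ _ _ _ _) s1 s2
    rw [RN2_smul] at key
    exact key
  have hI : 0 < c * (X * V * H / K) := by positivity
  have hI' : 0 < c * (X * V' * H / K) := by positivity
  have n0 : ∀ d e, 0 ≤ W0 d e (c * (X * V * H / K)) := fun d e => (hS d e).nonneg _ hI
  have n0' : ∀ d e, 0 ≤ W0' d e (c * (X * V' * H / K)) := fun d e => (hS' d e).nonneg _ hI'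
  have hr := RN2_nonneg (Ld_nonneg (V := V) hK hH) (Md_nonneg hc0.le hK hV hH hX)
    (I := X * V * H / K) (by positivity) n0 (J.image Prod.fst) EE
  have hr' := RN2_nonneg (Ld_nonneg (V := V') hK hH) (Md_nonneg hc0.le hK hV' hH hX)
    (I := X * V' * H / K) (by positivity) n0' (J.image Prod.fst) EE
  have hk0 : 0 ≤ C₂ * Zm ^ (2 * η) := by positivity
  have key := hP Om Om' Mb hMb hOm hOm' hOb hOb' V V' τ κ κ' hV hV' hκ hκ' Z hZ Pr J om om' af EE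
    E0 E1 R B K X H G1 G1' C0 Zm (CR * (Z ^ 5) ^ η) _ _ _ _ hT haf hJ hEE hK hR0' hRZ hB0 hBZ
    hE10 hE1 hJ1 hJ2 hwq hwq' hX hH hC0 hG1 hG1' hKz (by rw [← hcd]; exact hVz)
    (by rw [← hcd]; exact hVz') hZm hkZm (by rw [← hcd]; exact hcl) (by rw [← hcd]; exact hcl')
    (BsP_nonneg _ _ _ _ _ _ _ _) (BsP_nonneg _ _ _ _ _ _ _ _) hM1 hM2 (by positivity)
    (mul_nonneg hk0 hr) (mul_nonneg hk0 hr') (hRP V hV hVz hKX W0 hS hRH)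
    (hRP V' hV' hVz' hKX' W0' hS' hRH')
  rw [← hcd] at key
  refine key.trans ?_
  -- the numbers
  have l1 := LVn_smul (af := af) (Ds := J.image Prod.fst) (EE := EE) (c := c) (Y := Z ^ 5)
    (RN := RN2 (Ld K V H) (Md c K V H X) (X * V * H / K)
      (fun d e => W0 d e (c * (X * V * H / K))) (J.image Prod.fst) EE) (k := C₂ * Zm ^ (2 * η))
    hK hH hV hV' hE10 hB0 hG1 hr hk0
  have l2 := LVn_smul (af := af) (Ds := J.image Prod.fst) (EE := EE) (c := c) (Y := Z ^ 5)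
    (RN := RN2 (Ld K V' H) (Md c K V' H X) (X * V' * H / K)
      (fun d e => W0' d e (c * (X * V' * H / K))) (J.image Prod.fst) EE)
    (k := C₂ * Zm ^ (2 * η)) hK hH hV' hV hE10 hB0 hG1' hr' hk0
  have ly1 := LVn_nonneg (af := af) (Ds := J.image Prod.fst) (EE := EE) (c := c) (Y := Z ^ 5)
    (E1 := E1) (B := B) hK.le hH.le hV.le hV'.le hE10 hG1 hr
  have ly2 := LVn_nonneg (af := af) (Ds := J.image Prod.fst) (EE := EE) (c := c) (Y := Z ^ 5)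
    (E1 := E1) (B := B) hK.le hH.le hV'.le hV.le hE10 hG1' hr'
  have hz1 := Z_exp2 (Z := Z) (CZ := CZ) (CR := CR) (C₂ := C₂) (η := η) (ε := ε) hZ hCZ1 hCR hC₂
    hη0 hη1 (by rw [hη]; linarith)
  rw [← hZmd] at hz1
  generalize LVn af (J.image Prod.fst) EE c (Z ^ 5) K H V V' E1 B G1
    ((C₂ * Zm ^ (2 * η)) * RN2 (Ld K V H) (Md c K V H X) (X * V * H / K)
      (fun d e => W0 d e (c * (X * V * H / K))) (J.image Prod.fst) EE) = x1 at *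
  generalize LVn af (J.image Prod.fst) EE c (Z ^ 5) K H V' V E1 B G1'
    ((C₂ * Zm ^ (2 * η)) * RN2 (Ld K V' H) (Md c K V' H X) (X * V' * H / K)
      (fun d e => W0' d e (c * (X * V' * H / K))) (J.image Prod.fst) EE) = x2 at *
  generalize LVn af (J.image Prod.fst) EE c (Z ^ 5) K H V V' E1 B G1
    (RN2 (Ld K V H) (Md c K V H X) (X * V * H / K)
      (fun d e => W0 d e (c * (X * V * H / K))) (J.image Prod.fst) EE) = y1 at *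
  generalize LVn af (J.image Prod.fst) EE c (Z ^ 5) K H V' V E1 B G1'
    (RN2 (Ld K V' H) (Md c K V' H X) (X * V' * H / K)
      (fun d e => W0' d e (c * (X * V' * H / K))) (J.image Prod.fst) EE) = y2 at *
  have hfin := fin_alg2 (cs := cs) (F := Mb ^ 2 * (1 + |τ|) ^ A) (a := Zm ^ (3 * (3 * η)))
    (b := Z ^ (3 * η)) (r := 3 + CR * (Z ^ 5) ^ η) hC hC0.le (hE_nonneg EE) (by positivity)
    (by positivity) l1 l2 hz1 ly1 ly2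
  refine le_trans (le_of_eq ?_) (hfin.trans (le_of_eq ?_)) <;> ring

/-- **one pair of levels from (RH), both forms** -/
theorem PAIR_RH2 {Rw : ℝ} (hRw : 0 ≤ Rw) {h : ℝ → ℝ} (hh : ContDiff ℝ ∞ h)
    (hhc : HasCompactSupport h) {w1 : ℝ → ℝ} (hW1 : Wgt w1)
    (hw : ∀ x, w1 x ≠ 0 → 0 < x ∧ |Real.log x| ≤ Rw)
    (hw1 : ∀ x, 0 < x → h (Real.log x) ≠ 0 → w1 x = 1) {R0 : ℝ} (hR0 : 0 ≤ R0) (a A₁ : ℕ)
    (hA₁ : 1 < A₁) {b₀ : ℝ} (hb₀ : 0 ≤ b₀) {ε : ℝ} (hε : 0 < ε) (hε1 : ε ≤ 1) :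
    ∃ (A₀ : ℕ) (c : ℝ), 1 ≤ c ∧ ∀ A : ℕ, A₀ ≤ A → ∀ Bw : ℕ, 4 ≤ Bw → ∃ C : ℝ, 0 ≤ C ∧
    ∀ (Om Om' : ℝ → ℂ) (Mb : ℝ), 0 ≤ Mb → ContDiff ℝ ∞ Om → ContDiff ℝ ∞ Om' →
      (∀ n ≤ A + 2, ∀ x, ‖iteratedDeriv n Om x‖ ≤ Mb) →
      (∀ n ≤ A + 2, ∀ x, ‖iteratedDeriv n Om' x‖ ≤ Mb) →
    ∀ (V V' τ : ℝ) (κ κ' : ℂ), 0 < V → 0 < V' → ‖κ‖ ≤ 1 → ‖κ'‖ ≤ 1 →
    ∀ (Z : ℝ), 1 ≤ Z → ∀ (Pr : Yp → Yp → Prop) (J : Finset (Eis × Eis))
      (om om' : Eis × Eis → ℂ) (af : Eis → Eis → Eis → ℂ) (EE : Finset Eis)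
      (E0 E1 R B K X H G1 G1' : ℝ) (W0 W0' : Eis → Eis → ℝ → ℝ),
      TC (T3 af) → (∀ d e, FS (af d e)) → OKJ J → (∀ d e, e ∉ EE → ∀ j, T3 af d e j = 0) →
      0 < K → 0 ≤ R → R ≤ Z → 0 ≤ B → B ≤ Z → 0 ≤ E1 → E1 ≤ Z →
      (∀ x ∈ J, (nm x.1 : ℝ) ≤ Z) → (∀ x ∈ J, (nm x.2 : ℝ) ≤ R) →
      WQ J om E0 R (wL κ h Om τ V) → WQ J om' E0 R (wL κ' h Om' τ V') →
      0 < X → 0 < H → 0 ≤ G1 → 0 ≤ G1' →
      K ≤ Z ^ 5 → X ≤ Z ^ 5 → c * V ≤ Z ^ 5 → c * V' ≤ Z ^ 5 →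
      c * (H * V ^ 2) ≤ K * X → c * (H * V' ^ 2) ≤ K * X →
      (Real.sqrt (c * V) ≤ G1 ∨ (ClsP Pr J E0 R ∧ 1 ≤ G1)) →
      (Real.sqrt (c * V') ≤ G1' ∨ (ClsP Pr J E0 R ∧ 1 ≤ G1')) →
      (∀ d ∈ S (Z ^ 5), ∀ e ∈ EE, ∀ n, af d e n ≠ 0 → Squarefree n) →
      (∀ d ∈ S (Z ^ 5), ∀ e ∈ EE, ∀ n, af d e n ≠ 0 →
        |Real.log (nm d * nm n) - Real.log X| ≤ R0) →
      (∀ d e, Slp a (W0 d e)) → (∀ d e, Slp a (W0' d e)) →
      RHd (Z ^ 5) (c * Z ^ 300) A₁ EE af W0 → RHd (Z ^ 5) (c * Z ^ 300) A₁ EE af W0' →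
      ∑ q ∈ S R, ∑ t ∈ pb E1, MPTr Pr A Bw K B V V' (Z ^ 5) J om om' (T3 af) E0 R b₀ q t ≤
        C * Mb ^ 2 * (1 + |τ|) ^ A * Z ^ ε * (hE EE *
          (LVn af (J.image Prod.fst) EE c (Z ^ 5) K H V V' E1 B G1
            (RN2 (Ld K V H) (Md c K V H X) (X * V * H / K)
              (fun d e => W0 d e (c * (X * V * H / K))) (J.image Prod.fst) EE) +
          LVn af (J.image Prod.fst) EE c (Z ^ 5) K H V' V E1 B G1'
            (RN2 (Ld K V' H) (Md c K V' H X) (X * V' * H / K)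
              (fun d e => W0' d e (c * (X * V' * H / K))) (J.image Prod.fst) EE))) := by
  obtain ⟨A₀, c, hc, h1⟩ := PAIR_RH2' hRw hh hhc hW1 hw hw1 hR0 a A₁ hA₁ hb₀ hε hε1
  refine ⟨A₀, c, hc, fun A hA Bw hBw => ?_⟩
  obtain ⟨C, hC, h2⟩ := h1 A hA Bw hBw
  refine ⟨C, hC, ?_⟩
  intro Om Om' Mb hMb hOm hOm' hOb hOb' V V' τ κ κ' hV hV' hκ hκ' Z hZ Pr J om om' af EE E0 E1 R B
    K X H G1 G1' W0 W0' hT haf hJ hEE hK hR0' hRZ hB0 hBZ hE10 hE1 hJ1 hJ2 hwq hwq' hX hH hG1 hG1'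
    hKz hXz hVz hVz' hKX hKX' hcl hcl' hsf hwin hS hS' hRH hRH'
  have hd : ∀ ρ ∈ RR J EE, ρ.1 ∈ S (Z ^ 5) ∧ ρ.2 ∈ EE := by
    intro ρ hρ
    unfold E3T829.RR at hρ
    rw [mem_product, mem_image] at hρ
    obtain ⟨⟨y, hy, hy'⟩, h2⟩ := hρ
    refine ⟨?_, h2⟩
    rw [← hy', mem_S (by positivity)]
    exact ⟨(hJ1 y hy).trans (le_self_pow₀ hZ (by norm_num)), hJ.prim y hy, hJ.sqf y hy⟩
  exact h2 Om Om' Mb hMb hOm hOm' hOb hOb' V V' τ κ κ' hV hV' hκ hκ' Z hZ Pr J om om' af EE E0 E1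
    R B K X H G1 G1' W0 W0' hT haf hJ hEE hK hR0' hRZ hB0 hBZ hE10 hE1 hJ1 hJ2 hwq hwq' hX hH hG1
    hG1' hKz hXz hVz hVz' hKX hKX' hcl hcl' (fun ρ hρ => hsf _ (hd ρ hρ).1 _ (hd ρ hρ).2)
    (fun ρ hρ => hwin _ (hd ρ hρ).1 _ (hd ρ hρ).2) hS hS'
    (fun ρ hρ => hRH _ (hd ρ hρ).1 _ (hd ρ hρ).2) (fun ρ hρ => hRH' _ (hd ρ hρ).1 _ (hd ρ hρ).2)

end Crest.Agent.R017.E3Sz579
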