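import Crest.Agent.R017.E3Sy_290
import Crest.Agent.R017.E3Sx_579

/-!
# Row 17, block C70, leaf E3 (S-sum), (CELL) part 8 (helper290): one pair of levels, first form

* `Chi` : the characters of the pairs;  `Chi.mul1`, `Chi.pohw`
* `MBD` : helper579's bound with its constants;  `MBD_all` : uniform in `χ`
* `MBU_of` : the condition `MBU`
* `PAIR1` : `Σ_{q,t} MPTr` at a pair of levels from (RH)
-/

set_option autoImplicit false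
set_option linter.unusedVariables false

noncomputable section

open Complex MeasureTheory
open scoped ComplexConjugate Classical ContDiff

namespace Crest.Agent.R017.E3Sz290

open Crest.Agent.R012 Crest.Agent.R012.Eis Crest.Agent.R012.MC
open Crest.Agent.R012.LS2 (S mem_S bl mem_bl)
open Crest.Agent.R012.Div277 (dvs mem_dvs)
open Crest.Agent.R012.Mob705 (pb mem_pb pdiv mem_pdiv)
open Crest.Agent.R017.CM106 (CS FS)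
open Crest.Agent.R017.C70 (JC OKJ)
open Crest.Agent.R017.E3A164 (Yp Ys Cs mem_Cs)
open Crest.Agent.R017.GrB829 (IsC)
open Crest.Agent.R017.E3M829 (TC)
open Crest.Agent.R017.E3T829
open Crest.Agent.R017.E3T1579 (T3 WQ)
open Crest.Agent.R017.E3T2579 (wL w1L)
open Crest.Agent.R017.E3F548 (Mc pc LC_pc Nq MPTr isC_ne)
open Crest.Agent.R017.E3s164 (cop_c)
open Crest.Agent.R017.E1551 (nmpos)
open Crest.Agent.R017.PX764 (n6)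
open Crest.Agent.R017.E3D579 (uS bF b0)
open Crest.Agent.R017.Mode405 (PoHW OK3 nfo w6 Mul1 Slp pohw_of DT DT_nonneg)
open Crest.Agent.R017.E3Su290 (MB T1 T1_nonneg)
open Crest.Agent.R017.E3Sw290
open Crest.Agent.R017.E3Sy290
open Crest.Agent.R017.E3Sx579 (BsT BsT_nonneg BsT_le MB_dil slp_mono)
open Crest.Agent.R017.E3Z548

/-! ### the characters -/

/-- the characters of the pairs -/
def Chi (χ : Eis → ℂ) : Prop :=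
  ∃ c c', IsC c ∧ IsC c' ∧ (χ = pc c c' ∨ χ = fun m => conj (pc c c' m))

lemma Chi.mul1 {χ : Eis → ℂ} (h : Chi χ) : Mul1 χ := by
  obtain ⟨c, c', hc, hc', rfl | rfl⟩ := h
  · have h1 := LC_pc hc hc'
    exact ⟨h1.mul, fun a ha => (h1.norm a ha).le⟩
  · have h1 := LC_pc hc hc'
    exact ⟨fun a b ha hb => by rw [h1.mul a b ha hb, map_mul],
      fun a ha => by rw [RCLike.norm_conj]; exact (h1.norm a ha).le⟩

lemma Chi.pohw {χ : Eis → ℂ} (h : Chi χ) {w₀ : ℝ → ℝ} (hw : Wgt w₀) : PoHW OK3 nfo χ w₀ := by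
  obtain ⟨c, c', hc, hc', h⟩ := h
  have hS : PoH347.SU (c * c' ^ 2) :=
    ⟨mul_ne_zero (isC_ne hc) (pow_ne_zero 2 (isC_ne hc')),
      fun k hk => (cop_c hc hk).mul_left ((cop_c hc' hk).pow_left)⟩
  by_cases hcc : c = c'
  · have e : pc c c' = fun _ => 1 := by unfold pc; rw [if_pos hcc]
    refine pohw_of PoH347.SU_one (fun x hx => ?_) hw
    rcases h with rfl | rfl
    · rw [e, Char766.sy_one_left hx, map_one]
    · rw [e, Char766.sy_one_left hx]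
  · have e : pc c c' = sy (c * c' ^ 2) := by unfold pc; rw [if_neg hcc]
    rcases h with rfl | rfl
    · have hS2 : PoH347.SU ((c * c' ^ 2) ^ 2) := by
        have := hS.mul hS
        rwa [← pow_two] at this
      refine pohw_of hS2 (fun x hx => ?_) hw
      rw [e, Char766.sy_pow_left hx, ← Char766.conj_sy hx, Complex.conj_conj]
    · refine pohw_of hS (fun x hx => ?_) hw
      rw [e]

/-! ### the constants -/

lemma MB_mono {χ : Eis → ℂ} {w : ℝ → ℝ} {A' ε C C' cw cw' : ℝ} {b : Eis → ℂ} {r₁ ka : Eis}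
    {Y Lt Bs Z₀ : ℝ} (hC0 : 0 ≤ C) (hC : C ≤ C') (hcw : cw ≤ cw') (hY : 0 ≤ Y) (hLt : 0 ≤ Lt)
    (hBs : 0 ≤ Bs) (hZ₀ : 0 ≤ Z₀) (h : MB χ w A' ε C cw b r₁ ka Y Lt Bs Z₀) :
    MB χ w A' ε C' cw' b r₁ ka Y Lt Bs Z₀ := by
  intro Z L L0 hZ hL hLZ hL0 hL0Z r q hr hrZ hr₁ hq hqZ hLq
  have hZ0 : 0 ≤ Z := hZ₀.trans hZ
  have hle : cw * Y ≤ cw' * Y := mul_le_mul_of_nonneg_right hcw hY
  have hfl : ⌊cw * Y⌋₊ ≤ ⌊cw' * Y⌋₊ := Nat.floor_le_floor hle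
  have hpb : primBall ⌊cw * Y⌋₊ ⊆ primBall ⌊cw' * Y⌋₊ := by
    intro n hn
    rw [mem_primBall] at hn ⊢
    exact ⟨hn.1.trans hfl, hn.2⟩
  have hT : T1 (cw * Y) b r ≤ T1 (cw' * Y) b r := by
    unfold E3Su290.T1
    refine Finset.sum_le_sum_of_subset_of_nonneg ?_ fun _ _ _ => by positivity
    intro n hn
    rw [Finset.mem_filter] at hn ⊢
    refine ⟨?_, hn.2⟩
    have h1 := hn.1
    unfold S at h1 ⊢
    rw [Finset.mem_filter] at h1 ⊢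
    exact ⟨hpb h1.1, h1.2⟩
  have hD : ∀ s, DT s (cw * Y) b r₁ ≤ DT s (cw' * Y) b r₁ := by
    intro s
    unfold Mode405.DT
    refine Finset.sum_le_sum_of_subset_of_nonneg ?_ fun _ _ _ => by positivity
    intro n hn
    rw [Finset.mem_filter] at hn ⊢
    exact ⟨hpb hn.1, hn.2⟩
  have hD1 := hD 1
  have hD2 := hD (1 / 2)
  have hT0 := T1_nonneg (cw * Y) b r
  have hD10 := DT_nonneg 1 (cw * Y) b r₁
  have hD20 := DT_nonneg (1 / 2) (cw * Y) b r₁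
  refine (h Z L L0 hZ hL hLZ hL0 hL0Z r q hr hrZ hr₁ hq hqZ hLq).trans ?_
  have h1 : 0 ≤ (L0 / Lt) ^ (1 / 3 : ℝ) := by positivity
  have h2 : 0 ≤ (if Lt ≤ L0 then L + (L * Y) ^ (2 / 3 : ℝ) else 0) := by
    split_ifs
    · positivity
    · exact le_rfl
  have h3 : (if 1 ≤ Lt then (L0 / Lt) ^ (1 / 3 : ℝ) * (Y * Bs +
          ((Y + (Lt * Y) ^ (2 / 3 : ℝ)) * DT 1 (cw * Y) b r₁ +
          Lt * Y ^ (1 / 2 : ℝ) * DT (1 / 2) (cw * Y) b r₁)) else 0) ≤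
      (if 1 ≤ Lt then (L0 / Lt) ^ (1 / 3 : ℝ) * (Y * Bs +
          ((Y + (Lt * Y) ^ (2 / 3 : ℝ)) * DT 1 (cw' * Y) b r₁ +
          Lt * Y ^ (1 / 2 : ℝ) * DT (1 / 2) (cw' * Y) b r₁)) else 0) := by
    split_ifs
    · gcongr
    · exact le_rfl
  have h3' : 0 ≤ (if 1 ≤ Lt then (L0 / Lt) ^ (1 / 3 : ℝ) * (Y * Bs +
          ((Y + (Lt * Y) ^ (2 / 3 : ℝ)) * DT 1 (cw * Y) b r₁ +
          Lt * Y ^ (1 / 2 : ℝ) * DT (1 / 2) (cw * Y) b r₁)) else 0) := by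
    split_ifs
    · positivity
    · exact le_rfl
  have h4 : C * Z ^ ε * Y ^ (-(1 : ℝ) / 3) ≤ C' * Z ^ ε * Y ^ (-(1 : ℝ) / 3) := by gcongr
  have h5 : 0 ≤ C * Z ^ ε * Y ^ (-(1 : ℝ) / 3) := by positivity
  have h6 : 0 ≤ (L0 / Lt) ^ (1 / 3 : ℝ) * Y +
      (if Lt ≤ L0 then L + (L * Y) ^ (2 / 3 : ℝ) else 0) := by positivity
  exact mul_le_mul h4 (add_le_add (mul_le_mul_of_nonneg_left hT h6) h3)
    (add_nonneg (mul_nonneg h6 hT0) h3') (h5.trans h4)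

/-- helper579's bound with its constants -/
def MBD (χ : Eis → ℂ) (w : ℝ → ℝ) (R0 : ℝ) (a A : ℕ) (ε cs C c cw C₂ : ℝ) (A₀ : ℕ) : Prop :=
  ∀ A' : ℝ, (A₀ : ℝ) ≤ A' →
      ∀ Z : ℝ, 1 ≤ Z → ∀ af : Eis → ℂ, FS af → (∀ n, af n ≠ 0 → Squarefree n) →
      ∀ d e q g κ F cc : Eis, IsPrim d → IsPrim e → IsPrim q → IsPrim g → IsPrim κ → IsPrim F →
      IsC cc → Squarefree (g * κ * F) → (nm (q * g * κ * F) : ℝ) ≤ Z →
      ∀ K V H X : ℝ, 0 < K → 0 < V → 0 < H → 0 < X → H * V ^ 2 * Real.exp (2 * R0) < K * X →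
      (∀ n, af n ≠ 0 → |Real.log (nm d * nm n) - Real.log X| ≤ R0) →
      (nm κ : ℝ) * (Real.exp R0 * X) ≤ Z → cs * V ≤ Z →
      ∀ W0 : ℝ → ℝ, Slp a W0 → (∀ γ π, IsPrim γ → IsPrim π → (nm π : ℝ) ≤ Z ^ 4 →
        ∀ P : ℝ, 0 < P → (nm γ : ℝ) * n6 γ ^ 2 * ∑ r ∈ bl P, R3571.RMm A af e γ π r ≤ W0 P) →
      ∀ W1 : Eis → Eis → ℝ, 0 ≤ W1 d e → C₂ * Z ^ ε * W0 (c * (X * V * H / K)) ≤ W1 d e →
      MB χ w A' ε C cw (bF κ F (b0 af d e (q * cc * g ^ 2))) (g * κ * F) κ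
        (E3Sx579.YU cs V (d, e, q, cc, g, κ, 1, F)) (E3Sx579.LtU K V H (d, e, q, cc, g, κ, 1, F))
        (BsT cs K V H X W1 (d, e, q, cc, g, κ, 1, F)) Z

lemma BsT_nn {cs K V H X : ℝ} (hcs : 1 ≤ cs) (hK : 0 < K) (hV : 0 < V) (hH : 0 < H)
    (hX : 0 < X) {W1 : Eis → Eis → ℝ} {t : UT} (hW1 : 0 ≤ W1 t.1 t.2.1) :
    0 ≤ BsT cs K V H X W1 t := by
  unfold E3Sx579.BsT
  have h1 := E3Sx579.LtU_nonneg (V := V) hK hH t
  have h2 := E3Sx579.IlU_nonneg hcs hK hV hH hX t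
  split_ifs
  · unfold Mode405.nfo
    positivity
  · exact le_rfl

lemma MBD.mono {χ : Eis → ℂ} {w : ℝ → ℝ} {R0 : ℝ} {a A : ℕ} {ε cs C c cw C₂ C' c' cw' C₂' : ℝ}
    {A₀ A₀' : ℕ} (hcs : 1 ≤ cs) (hC0 : 0 ≤ C) (hc0 : 1 ≤ c) (hC20 : 0 ≤ C₂) (hC : C ≤ C')
    (hc : c ≤ c') (hcw : cw ≤ cw') (hC2 : C₂ ≤ C₂') (hA : A₀ ≤ A₀')
    (h : MBD χ w R0 a A ε cs C c cw C₂ A₀) : MBD χ w R0 a A ε cs C' c' cw' C₂' A₀' := by
  intro A' hA' Z hZ af haf hsf d e q g κ F cc hd he hq hg hκ hF hcc hsq hnm K V H X hK hV hH hX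
    hKX hwin hXZ hVZ W0 hW0 hRH W1 hW10 hW1
  have hA0 : (A₀ : ℝ) ≤ A' := le_trans (by exact_mod_cast hA) hA'
  have hZ0 : 0 < Z := by linarith
  have hcs0 : 0 < cs := by linarith
  have hI : 0 < X * V * H / K := by positivity
  have h1 : C₂ * Z ^ ε * W0 (c * (X * V * H / K)) ≤ W1 d e := by
    refine le_trans ?_ hW1
    have h2 : W0 (c * (X * V * H / K)) ≤ W0 (c' * (X * V * H / K)) :=
      slp_mono hW0 (by positivity) (by gcongr)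
    have h3 : 0 ≤ W0 (c * (X * V * H / K)) := hW0.nonneg _ (by positivity)
    have h4 : 0 ≤ C₂ * Z ^ ε := by positivity
    have h5 : C₂ * Z ^ ε ≤ C₂' * Z ^ ε := by gcongr
    exact mul_le_mul h5 h2 h3 (h4.trans h5)
  refine MB_mono hC0 hC hcw ?_ (E3Sx579.LtU_nonneg hK hH _) (BsT_nn hcs hK hV hH hX hW10) hZ0.le
    (h A' hA0 Z hZ af haf hsf d e q g κ F cc hd he hq hg hκ hF hcc hsq hnm K V H X hK hV hH hX
      hKX hwin hXZ hVZ W0 hW0 hRH W1 hW10 h1)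
  unfold E3Sx579.YU
  positivity

lemma unif {ι : Type*} [DecidableEq ι] (T : Finset ι) (P : ι → ℝ → ℝ → ℝ → ℝ → ℕ → Prop)
    (h : ∀ i ∈ T, ∃ (C c cw C₂ : ℝ) (A₀ : ℕ), 0 ≤ C ∧ 1 ≤ c ∧ 1 ≤ cw ∧ 0 ≤ C₂ ∧
      P i C c cw C₂ A₀)
    (mono : ∀ (i : ι) (C c cw C₂ C' c' cw' C₂' : ℝ) (A₀ A₀' : ℕ), 0 ≤ C → 1 ≤ c → 0 ≤ C₂ →
      C ≤ C' → c ≤ c' → cw ≤ cw' → C₂ ≤ C₂' → A₀ ≤ A₀' → P i C c cw C₂ A₀ →
      P i C' c' cw' C₂' A₀') :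
    ∃ (C c cw C₂ : ℝ) (A₀ : ℕ), 0 ≤ C ∧ 1 ≤ c ∧ 1 ≤ cw ∧ 0 ≤ C₂ ∧ ∀ i ∈ T,
      P i C c cw C₂ A₀ := by
  induction T using Finset.induction_on with
  | empty => exact ⟨0, 1, 1, 0, 0, le_rfl, le_rfl, le_rfl, le_rfl, fun i hi => by simp at hi⟩
  | insert i T hi ih =>
    obtain ⟨C, c, cw, C₂, A₀, h1, h2, h3, h4, h5⟩ :=
      ih fun j hj => h j (Finset.mem_insert_of_mem hj)
    obtain ⟨D, c', cw', D₂, B₀, k1, k2, k3, k4, k5⟩ := h i (Finset.mem_insert_self _ _)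
    refine ⟨max C D, max c c', max cw cw', max C₂ D₂, max A₀ B₀, h1.trans (le_max_left _ _),
      h2.trans (le_max_left _ _), h3.trans (le_max_left _ _), h4.trans (le_max_left _ _), ?_⟩
    intro j hj
    rcases Finset.mem_insert.mp hj with rfl | hj
    · exact mono _ _ _ _ _ _ _ _ _ _ _ k1 k2 k4 (le_max_right _ _) (le_max_right _ _)
        (le_max_right _ _) (le_max_right _ _) (le_max_right _ _) k5
    · exact mono _ _ _ _ _ _ _ _ _ _ _ h1 h2 h4 (le_max_left _ _) (le_max_left _ _)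
        (le_max_left _ _) (le_max_left _ _) (le_max_left _ _) (h5 j hj)

/-- **the constants are uniform** -/
theorem MBD_all {w : ℝ → ℝ} (hw : Wgt w) (hw1 : ∀ x, w x ≠ 0 → x ≤ 1) {R0 : ℝ} (hR0 : 0 ≤ R0)
    (a A : ℕ) (hA : 1 < A) {ε : ℝ} (hε : 0 < ε) {cs : ℝ} (hcs : 1 ≤ cs) :
    ∃ (C c cw C₂ : ℝ) (A₀ : ℕ), 0 ≤ C ∧ 1 ≤ c ∧ 1 ≤ cw ∧ 0 ≤ C₂ ∧ ∀ χ, Chi χ →
      MBD χ w R0 a A ε cs C c cw C₂ A₀ := by
  have key : ∀ χ, Chi χ → ∃ (C c cw C₂ : ℝ) (A₀ : ℕ), 0 ≤ C ∧ 1 ≤ c ∧ 1 ≤ cw ∧ 0 ≤ C₂ ∧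
      MBD χ w R0 a A ε cs C c cw C₂ A₀ := fun χ hχ =>
    MB_dil hχ.mul1 hw (hχ.pohw (Mode405.wgt_w6 hw)) hw1 hR0 a A hA hε hcs
  set T : Finset (Eis × Eis × Bool) := Cs ×ˢ Cs ×ˢ Finset.univ with hT
  let ch : Eis × Eis × Bool → Eis → ℂ := fun i => if i.2.2 then pc i.1 i.2.1 else
    fun m => conj (pc i.1 i.2.1 m)
  have hch : ∀ i ∈ T, Chi (ch i) := by
    intro i hi
    rw [hT, Finset.mem_product, Finset.mem_product] at hi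
    refine ⟨i.1, i.2.1, mem_Cs.mp hi.1, mem_Cs.mp hi.2.1, ?_⟩
    by_cases hb : i.2.2 = true
    · left; simp only [ch, if_pos hb]
    · right; simp only [ch, if_neg hb]
  obtain ⟨C, c, cw, C₂, A₀, h1, h2, h3, h4, h5⟩ := unif T
    (fun i C c cw C₂ A₀ => MBD (ch i) w R0 a A ε cs C c cw C₂ A₀)
    (fun i hi => key _ (hch i hi))
    (fun i C c cw C₂ C' c' cw' C₂' A₀ A₀' k1 k2 k3 k4 k5 k6 k7 k8 k9 =>
      MBD.mono hcs k1 k2 k3 k4 k5 k6 k7 k8 k9)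
  refine ⟨C, c, cw, C₂, A₀, h1, h2, h3, h4, ?_⟩
  intro χ hχ
  obtain ⟨c₁, c₂, hc₁, hc₂, h⟩ := hχ
  rcases h with rfl | rfl
  · have := h5 (c₁, c₂, true) (by
      rw [hT, Finset.mem_product, Finset.mem_product]
      exact ⟨mem_Cs.mpr hc₁, mem_Cs.mpr hc₂, Finset.mem_univ _⟩)
    exact this
  · have := h5 (c₁, c₂, false) (by
      rw [hT, Finset.mem_product, Finset.mem_product]
      exact ⟨mem_Cs.mpr hc₁, mem_Cs.mpr hc₂, Finset.mem_univ _⟩)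
    exact this

/-! ### the condition `MBU` -/

/-- the structured number of a tuple -/
def BsC (cs K V H X : ℝ) (W1 : Eis → Eis → ℝ) (t : UT) : ℝ :=
  if IsC t.2.2.2.1 then BsT cs K V H X W1 t else 0

lemma BsC_nonneg {cs K V H X : ℝ} (hcs : 1 ≤ cs) (hK : 0 < K) (hV : 0 < V) (hH : 0 < H)
    (hX : 0 < X) {W1 : Eis → Eis → ℝ} (hW1 : ∀ d e, 0 ≤ W1 d e) (t : UT) :
    0 ≤ BsC cs K V H X W1 t := by
  unfold BsC
  split_ifs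
  · exact BsT_nonneg hcs hK hV hH hX hW1 t
  · exact le_rfl

theorem MBU_of {χ : Eis → ℂ} {w : ℝ → ℝ} {R0 : ℝ} {a A : ℕ} {ε cs C c cw C₂ : ℝ} {A₀ : ℕ}
    (hcs : 1 ≤ cs) (hD : MBD χ w R0 a A ε cs C c cw C₂ A₀) {A' : ℝ}
    (hA' : (A₀ : ℝ) ≤ A') {z Zm : ℝ} (hz : 1 ≤ z) (hZm : z ^ 10 ≤ Zm)
    {af : Eis → Eis → Eis → ℂ} {K V H X : ℝ} (hK : 0 < K) (hV : 0 < V) (hH : 0 < H)
    (hX : 0 < X) (hKX : H * V ^ 2 * Real.exp (2 * R0) < K * X) (hXz : Real.exp R0 * X ≤ z ^ 7)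
    (hVz : cs * V ≤ z) {EE : Finset Eis} {W0 : Eis → Eis → ℝ → ℝ} {W1 : Eis → Eis → ℝ} {t : UT}
    (ht : TU z EE t) (haf : FS (af t.1 t.2.1)) (hsf : ∀ n, af t.1 t.2.1 n ≠ 0 → Squarefree n)
    (hwin : ∀ n, af t.1 t.2.1 n ≠ 0 → |Real.log (nm t.1 * nm n) - Real.log X| ≤ R0)
    (hW0 : Slp a (W0 t.1 t.2.1))
    (hRH : ∀ γ π, IsPrim γ → IsPrim π → (nm π : ℝ) ≤ Zm ^ 4 → ∀ P : ℝ, 0 < P →
      (nm γ : ℝ) * n6 γ ^ 2 * ∑ r ∈ bl P, R3571.RMm A (af t.1 t.2.1) t.2.1 γ π r ≤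
        W0 t.1 t.2.1 P)
    (hW10 : 0 ≤ W1 t.1 t.2.1)
    (hW1 : C₂ * Zm ^ ε * W0 t.1 t.2.1 (c * (X * V * H / K)) ≤ W1 t.1 t.2.1) :
    MBU χ w A' ε C cw cs K V H af (BsC cs K V H X W1) Zm t := by
  obtain ⟨d, e, q, cc, g, a', D, F⟩ := t
  have hz0 : 0 ≤ z := by linarith
  have hd1 := (mem_S hz0).1 ht.d
  have hq1 := (mem_S hz0).1 ht.q
  have hg1 := (mem_S hz0).1 ht.g
  have hcc : IsC cc := ht.c
  have hpe : IsPrim e := ht.pe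
  have hsu := ht.su
  have hz3 : (0 : ℝ) ≤ z ^ 3 := by positivity
  have ha1 := (mem_S hz3).1 hsu.a
  have hD1 := (mem_S hz3).1 hsu.D
  have hF1 := (mem_S hz3).1 hsu.F
  have hsq : Squarefree (a' * D * F) := ht.sq
  have hcop : IsCoprime (a' * D * F) (g * d) := ht.cop
  have hn : (nm (a' * D * F) : ℝ) ≤ z ^ 3 := ht.n
  simp only at hd1 hq1 hg1 ha1 hD1 hF1 haf hsf hwin hW0 hRH hW10 hW1
  obtain ⟨nd1, pd, sd⟩ := hd1
  obtain ⟨nq1, pq, sq⟩ := hq1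
  obtain ⟨ng1, pg, sg⟩ := hg1
  obtain ⟨-, pa, sa⟩ := ha1
  obtain ⟨-, pD, sD⟩ := hD1
  obtain ⟨-, pF, sF⟩ := hF1
  have pκ : IsPrim (a' * D) := pa.mul pD
  have nd := nmpos pd.ne_zero
  have nq := nmpos pq.ne_zero
  have ng := nmpos pg.ne_zero
  have na := nmpos pa.ne_zero
  have nD := nmpos pD.ne_zero
  have nF := nmpos pF.ne_zero
  have nc : (0 : ℝ) < nm cc := by
    have : (1 : ℝ) ≤ nm cc := by exact_mod_cast (E3T829.Cd.nm_c_le hcc).1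
    linarith
  have hZm1 : z ≤ Zm := le_trans (by
    calc z = z ^ 1 := (pow_one z).symm
      _ ≤ z ^ 10 := pow_le_pow_right₀ hz (by norm_num)) hZm
  have hZ1 : 1 ≤ Zm := hz.trans hZm1
  have hsqg : Squarefree (g * (a' * D) * F) := by
    have e1 : g * (a' * D) * F = g * (a' * D * F) := by ring
    rw [e1]
    exact squarefree_mul_iff.mpr ⟨(hcop.of_mul_right_left).symm.isRelPrime, sg, hsq⟩
  have hnm : (nm (q * g * (a' * D) * F) : ℝ) ≤ Zm := by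
    have e1 : q * g * (a' * D) * F = q * g * (a' * D * F) := by ring
    rw [e1, nm_mul, nm_mul]
    push_cast
    calc (nm q : ℝ) * nm g * nm (a' * D * F) ≤ z * z * z ^ 3 := by gcongr
      _ = z ^ 5 := by ring
      _ ≤ z ^ 10 := pow_le_pow_right₀ hz (by norm_num)
      _ ≤ Zm := hZm
  have hκX : (nm (a' * D) : ℝ) * (Real.exp R0 * X) ≤ Zm := by
    have h1 : (nm (a' * D) : ℝ) ≤ z ^ 3 := by
      refine le_trans ?_ hn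
      rw [nm_mul (a' * D) F]
      push_cast
      exact le_mul_of_one_le_right (Nat.cast_nonneg _) (E1551.nm_ge_one pF.ne_zero)
    calc (nm (a' * D) : ℝ) * (Real.exp R0 * X) ≤ z ^ 3 * z ^ 7 := by gcongr
      _ = z ^ 10 := by ring
      _ ≤ Zm := hZm
  have key := hD A' hA' Zm hZ1 (af d e) haf hsf d e q g (a' * D) F cc pd hpe pq pg pκ pF hcc hsqg
    hnm K V H X hK hV hH hX hKX hwin hκX (hVz.trans hZm1) (W0 d e) hW0 hRH W1 hW10 hW1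
  have e1 : E3Sx579.YU cs V (d, e, q, cc, g, a' * D, 1, F) =
      cs * YU V (d, e, q, cc, g, a', D, F) := by
    unfold E3Sx579.YU E3Sw290.YU E3Sw290.ZU
    simp only [nm_mul, nm_one, Nat.cast_mul, Nat.cast_one, mul_one]
  have e0 : E3Sx579.LtU K V H (d, e, q, cc, g, a' * D, 1, F) =
      E3Sx579.LtU K V H (d, e, q, cc, g, a', D, F) := by
    unfold E3Sx579.LtU
    simp only [mul_one]
  have e2 : E3Sx579.LtU K V H (d, e, q, cc, g, a' * D, 1, F) =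
      LtU K V H (d, e, q, cc, g, a', D, F) := by
    unfold E3Sx579.LtU E3Sw290.LtU E3Sw290.YU E3Sw290.ZU
    simp only [nm_mul, Nat.cast_mul, mul_one]
    field_simp
  have e3 : BsT cs K V H X W1 (d, e, q, cc, g, a' * D, 1, F) =
      BsC cs K V H X W1 (d, e, q, cc, g, a', D, F) := by
    unfold BsC
    rw [if_pos hcc]
    unfold E3Sx579.BsT
    rw [e0]
    rfl
  rw [e1, e2, e3] at key
  exact key

/-- the bound of `Rsum` -/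
theorem BsC_le {cs K V H X : ℝ} (hcs : 1 ≤ cs) (hK : 0 < K) (hV : 0 < V) (hH : 0 < H)
    (hX : 0 < X) {W1 : Eis → Eis → ℝ} (hW1 : ∀ d e, 0 ≤ W1 d e) {z : ℝ} {t : UT} (hz : 0 ≤ z)
    (ht : SU z t) (hd : t.1 ≠ 0) :
    BsC cs K V H X W1 t ≤
      if (nm (t.2.2.2.2.2.1 * t.2.2.2.2.2.2.1) : ℝ) ^ 2 *
          (nm (t.2.2.1 * t.2.2.2.2.1 * t.2.2.2.2.2.2.2) : ℝ) ^ 3 ≤ H * V ^ 2 / (K * nm t.1) then
        (1 + cs * (H * V ^ 2 / (K * nm t.1)) * (X * V * H / K) ^ (-(1 / 2) : ℝ) * kU t) *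
          W1 t.1 t.2.1 else 0 := by
  have hq := ((mem_S hz).1 ht.q).2.1.ne_zero
  have hg := ((mem_S hz).1 ht.g).2.1.ne_zero
  have ha := ((mem_S hz).1 ht.a).2.1.ne_zero
  have hD := ((mem_S hz).1 ht.D).2.1.ne_zero
  have hF := ((mem_S hz).1 ht.F).2.1.ne_zero
  unfold BsC
  by_cases hc : IsC t.2.2.2.1
  · rw [if_pos hc]
    exact BsT_le hcs hK hV hH hX hW1 hd hq hg ha hD hF
  · rw [if_neg hc]
    have h3 := kU_nonneg t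
    have h4 := hW1 t.1 t.2.1
    have h5 : 0 < cs := by linarith
    split_ifs
    · positivity
    · exact le_rfl

/-! ### one pair of levels -/

/-- the length of the frequencies `r` of (RH) -/
def Lx (K V H : ℝ) (d : Eis) : ℝ := H * V ^ 2 / (K * nm d)

/-- the second number of the structured part -/
def Mx (cs K V H X : ℝ) (d : Eis) : ℝ := cs * Lx K V H d * (X * V * H / K) ^ (-(1 / 2) : ℝ)

/-- **one pair of levels, first form** -/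
theorem PAIR1 {Rw : ℝ} (hRw : 0 ≤ Rw) {h : ℝ → ℝ} (hh : ContDiff ℝ ∞ h)
    (hhc : HasCompactSupport h) {w1 : ℝ → ℝ} (hwW : Wgt w1)
    (hw : ∀ x, w1 x ≠ 0 → 0 < x ∧ |Real.log x| ≤ Rw)
    (hw1 : ∀ x, 0 < x → h (Real.log x) ≠ 0 → w1 x = 1) {b₀ : ℝ} (hb₀ : 0 ≤ b₀) {R0 : ℝ}
    (hR0 : 0 ≤ R0) (a A : ℕ) (hA : 1 < A) {ε : ℝ} (hε : 0 < ε) (hε1 : ε ≤ 1) :
    ∃ (c C₂ cc cs : ℝ) (A₀ : ℕ), 1 ≤ c ∧ 0 ≤ C₂ ∧ 1 ≤ cs ∧ cs ≤ cc ∧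
    ∀ Ab Bw : ℕ, 1 < Ab → A₀ ≤ Ab → 4 ≤ Bw → ∃ C : ℝ, 0 ≤ C ∧
    ∀ (Om Om' : ℝ → ℂ) (Mb : ℝ), 0 ≤ Mb → ContDiff ℝ ∞ Om → ContDiff ℝ ∞ Om' →
      (∀ n ≤ Ab + 2, ∀ x, ‖iteratedDeriv n Om x‖ ≤ Mb) →
      (∀ n ≤ Ab + 2, ∀ x, ‖iteratedDeriv n Om' x‖ ≤ Mb) →
    ∀ (V V' τ : ℝ) (κ κ' : ℂ), 0 < V → 0 < V' → ‖κ‖ ≤ 1 → ‖κ'‖ ≤ 1 →
    ∀ (Z : ℝ), 1 ≤ Z → ∀ (Pr : Yp → Yp → Prop) (J : Finset (Eis × Eis))
      (om om' : Eis × Eis → ℂ) (af : Eis → Eis → Eis → ℂ) (EE : Finset Eis)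
      (E0 E1 R B K X H G1 G1' : ℝ) (W0 : Eis → Eis → ℝ → ℝ) (W1 W1' : Eis → Eis → ℝ),
      TC (T3 af) → (∀ d e, FS (af d e)) → OKJ J → (∀ d e, e ∉ EE → ∀ j, T3 af d e j = 0) →
      0 < K → 0 ≤ R → R ≤ Z → 0 ≤ B → B ≤ Z → 0 ≤ E1 → E1 ≤ Z →
      (∀ x ∈ J, (nm x.1 : ℝ) ≤ Z) → (∀ x ∈ J, (nm x.2 : ℝ) ≤ R) →
      WQ J om E0 R (wL κ h Om τ V) → WQ J om' E0 R (wL κ' h Om' τ V') →
      0 < X → 0 < H → 0 ≤ G1 → 0 ≤ G1' →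
      K ≤ Z ^ 5 → cc * V ≤ Z ^ 5 → cc * V' ≤ Z ^ 5 → Real.exp R0 * X ≤ Z ^ 5 →
      H * V ^ 2 * Real.exp (2 * R0) < K * X → H * V' ^ 2 * Real.exp (2 * R0) < K * X →
      (Real.sqrt (cc * V) ≤ G1 ∨ (ClsP Pr J E0 R ∧ 1 ≤ G1)) →
      (Real.sqrt (cc * V') ≤ G1' ∨ (ClsP Pr J E0 R ∧ 1 ≤ G1')) →
      (∀ d ∈ S (Z ^ 5), ∀ e ∈ EE, IsPrim e → ∀ n, af d e n ≠ 0 → Squarefree n ∧
        |Real.log (nm d * nm n) - Real.log X| ≤ R0) →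
      (∀ d ∈ S (Z ^ 5), ∀ e ∈ EE, IsPrim e → Slp a (W0 d e) ∧
        ∀ γ π, IsPrim γ → IsPrim π → (nm π : ℝ) ≤ (kZ 59049 b₀ * Z ^ 50) ^ 4 → ∀ P : ℝ, 0 < P →
          (nm γ : ℝ) * n6 γ ^ 2 * ∑ r ∈ bl P, R3571.RMm A (af d e) e γ π r ≤ W0 d e P) →
      (∀ d e, 0 ≤ W1 d e) → (∀ d e, 0 ≤ W1' d e) →
      (∀ d ∈ S (Z ^ 5), ∀ e ∈ EE, IsPrim e →
        C₂ * Z ^ ε * W0 d e (c * (X * V * H / K)) ≤ W1 d e ∧
        C₂ * Z ^ ε * W0 d e (c * (X * V' * H / K)) ≤ W1' d e) →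
      ∑ q ∈ S R, ∑ t ∈ pb E1, MPTr Pr Ab Bw K B V V' (Z ^ 5) J om om' (T3 af) E0 R b₀ q t ≤
        C * Mb ^ 2 * (1 + |τ|) ^ Ab * Z ^ ε * (hE EE *
          (LVn af (J.image Prod.fst) EE cc (Z ^ 5) K H V V' E1 B G1
            (RNn (Lx K V H) (Mx cs K V H X) W1 (J.image Prod.fst) EE) +
          LVn af (J.image Prod.fst) EE cc (Z ^ 5) K H V' V E1 B G1'
            (RNn (Lx K V' H) (Mx cs K V' H X) W1' (J.image Prod.fst) EE))) := by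
  obtain ⟨e1, he1⟩ : ∃ e1, e1 = ε / 151 := ⟨_, rfl⟩
  have he10 : 0 < e1 := by rw [he1]; positivity
  have he11 : e1 ≤ 1 := by rw [he1]; linarith
  have hcs : 1 ≤ Real.exp Rw := Real.one_le_exp hRw
  obtain ⟨cs, hcse⟩ : ∃ cs, cs = Real.exp Rw := ⟨_, rfl⟩
  rw [← hcse] at hcs
  have hcs0 : 0 < cs := by linarith
  have hwt : Wgt (fun y => w1 (cs * y)) := by
    have h1 := hwW.scale (A := cs⁻¹) (by positivity)
    have e : (fun x => w1 (x / cs⁻¹)) = fun y => w1 (cs * y) := by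
      funext y
      rw [div_inv_eq_mul, mul_comm]
    rwa [e] at h1
  have hwl : ∀ y, w1 (cs * y) ≠ 0 → y ≤ 1 := fun y hy => w_le hw hcse.ge hy
  obtain ⟨C0, c, cw, C₂, A₀, hC0, hc, hcw, hC₂, hall⟩ := MBD_all hwt hwl hR0 a A hA he10 hcs
  have hk1 : 1 ≤ kZ 59049 b₀ := by
    unfold kZ
    have : (1 : ℝ) ≤ (1 + b₀) ^ 2 := one_le_pow₀ (by linarith)
    nlinarith
  obtain ⟨kz, hkz⟩ : ∃ kz, kz = kZ 59049 b₀ := ⟨_, rfl⟩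
  rw [← hkz] at hk1
  have hkz0 : 0 < kz := by linarith
  refine ⟨c, C₂ * kz ^ e1, cw * cs, cs, A₀, hc, by positivity, hcs,
    le_mul_of_one_le_left hcs0.le hcw, ?_⟩
  intro Ab Bw hAb hA₀ hBw
  obtain ⟨C1, hC1, h1⟩ := PAIR hAb hBw hRw hh hhc hw hw1 hcw hcs hcse.ge hb₀ he10 he11
  refine ⟨C1 * (C0 + 1) * cs ^ 2 * kz ^ (3 * e1), by positivity, ?_⟩
  intro Om Om' Mb hMb hOm hOm' hOb hOb' V V' τ κ κ' hV hV' hκ hκ' Z hZ Pr J om om' af EE E0 E1 R B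
    K X H G1 G1' W0 W1 W1' hT haf hJ hEE hK hR0' hRZ hB0 hBZ hE10 hE1 hJ1 hJ2 hwq hwq' hX hH hG1
    hG1' hKz hVz hVz' hXz hKX hKX' hcl hcl' hafn hRH hW1 hW1' hWW
  have hZ0 : 0 < Z := by linarith
  have hZ5 : 1 ≤ Z ^ 5 := one_le_pow₀ hZ
  rw [← hkz] at hRH
  obtain ⟨Zm, hZm⟩ : ∃ Zm, Zm = kz * Z ^ 50 := ⟨_, rfl⟩
  have hZ50 : 1 ≤ Z ^ 50 := one_le_pow₀ hZ
  have hZm1 : 1 ≤ Zm := by rw [hZm]; exact one_le_mul_of_one_le_of_one_le hk1 hZ50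
  have hZm10 : (Z ^ 5) ^ 10 ≤ Zm := by
    rw [hZm, ← pow_mul]
    exact le_mul_of_one_le_left (by positivity) hk1
  rw [← hZm] at hRH
  have hXz7 : Real.exp R0 * X ≤ (Z ^ 5) ^ 7 := hXz.trans (by
    calc Z ^ 5 = (Z ^ 5) ^ 1 := (pow_one _).symm
      _ ≤ (Z ^ 5) ^ 7 := pow_le_pow_right₀ hZ5 (by norm_num))
  have hcsV : ∀ {v : ℝ}, 0 < v → cw * cs * v ≤ Z ^ 5 → cs * v ≤ Z ^ 5 := fun {v} hv hv2 => by
    refine le_trans ?_ hv2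
    have : cs ≤ cw * cs := le_mul_of_one_le_left hcs0.le hcw
    exact mul_le_mul_of_nonneg_right this hv.le
  have hZe : Zm ^ e1 ≤ kz ^ e1 * Z ^ ε := by
    rw [hZm, Real.mul_rpow hkz0.le (by positivity)]
    refine mul_le_mul_of_nonneg_left ?_ (by positivity)
    rw [← Real.rpow_natCast, ← Real.rpow_mul hZ0.le]
    refine Real.rpow_le_rpow_of_exponent_le hZ ?_
    rw [he1]; push_cast; linarith
  have hW : ∀ d ∈ S (Z ^ 5), ∀ e ∈ EE, IsPrim e →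
      C₂ * Zm ^ e1 * W0 d e (c * (X * V * H / K)) ≤ W1 d e ∧
      C₂ * Zm ^ e1 * W0 d e (c * (X * V' * H / K)) ≤ W1' d e := by
    intro d hd e he hpe
    obtain ⟨k1, k2⟩ := hWW d hd e he hpe
    have n1 := ((hRH d hd e he hpe).1).nonneg (c * (X * V * H / K)) (by positivity)
    have n2 := ((hRH d hd e he hpe).1).nonneg (c * (X * V' * H / K)) (by positivity)
    have n3 : C₂ * Zm ^ e1 ≤ C₂ * kz ^ e1 * Z ^ ε := by
      rw [mul_assoc]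
      exact mul_le_mul_of_nonneg_left hZe hC₂
    exact ⟨(mul_le_mul_of_nonneg_right n3 n1).trans k1,
      (mul_le_mul_of_nonneg_right n3 n2).trans k2⟩
  have hA' : (A₀ : ℝ) ≤ (Ab : ℝ) := by exact_mod_cast hA₀
  have hMD : ∀ χ, Chi χ → MBD χ (fun y => w1 (cs * y)) R0 a A e1 cs (C0 + 1) c cw C₂ A₀ :=
    fun χ hχ => (hall χ hχ).mono hcs hC0 hc hC₂ (by linarith) le_rfl le_rfl le_rfl le_rfl
  have hM1 : MB1 w1 Ab e1 (C0 + 1) cw cs K V H af (Z ^ 5) EE (BsC cs K V H X W1) Zm := by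
    intro c₁ c₂ hc₁ hc₂ t ht hY
    have f1 := hafn t.1 ht.d t.2.1 ht.e ht.pe
    have f2 := hRH t.1 ht.d t.2.1 ht.e ht.pe
    exact MBU_of hcs (hMD _ ⟨c₁, c₂, hc₁, hc₂, Or.inl rfl⟩) hA' hZ5 hZm10 hK hV hH hX hKX hXz7
      (hcsV hV hVz) ht (haf _ _) (fun n hn => (f1 n hn).1) (fun n hn => (f1 n hn).2) f2.1 f2.2
      (hW1 _ _) (hW t.1 ht.d t.2.1 ht.e ht.pe).1
  have hM2 : MB2 w1 Ab e1 (C0 + 1) cw cs K V' H af (Z ^ 5) EE (BsC cs K V' H X W1') Zm := by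
    intro c₁ c₂ hc₁ hc₂ t ht hY
    have f1 := hafn t.1 ht.d t.2.1 ht.e ht.pe
    have f2 := hRH t.1 ht.d t.2.1 ht.e ht.pe
    exact MBU_of hcs (hMD _ ⟨c₁, c₂, hc₁, hc₂, Or.inr rfl⟩) hA' hZ5 hZm10 hK hV' hH hX hKX' hXz7
      (hcsV hV' hVz') ht (haf _ _) (fun n hn => (f1 n hn).1) (fun n hn => (f1 n hn).2) f2.1 f2.2
      (hW1' _ _) (hW t.1 ht.d t.2.1 ht.e ht.pe).2
  have hu0 : ∀ t : UT, (∃ u ∈ RUs J EE (Z ^ 5), t.1 = u.1 ∧ t.2.1 = u.2.1) → t.1 ≠ 0 := by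
    rintro t ⟨u, hu, h1, -⟩
    unfold RUs at hu
    rw [Finset.mem_product] at hu
    obtain ⟨x, hx, hx2⟩ := Finset.mem_image.mp hu.1
    rw [h1, ← hx2]
    exact (hJ.prim x hx).ne_zero
  have key := h1 Om Om' Mb hMb hOm hOm' hOb hOb' V V' τ κ κ' hV hV' hκ hκ' Z hZ Pr J om om' af EE
    E0 E1 R B K X H G1 G1' (C0 + 1) Zm W1 W1' (Lx K V H) (Mx cs K V H X) (Lx K V' H)
    (Mx cs K V' H X) (BsC cs K V H X W1) (BsC cs K V' H X W1') hT haf hJ hEE hK hR0' hRZ hB0 hBZ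
    hE10 hE1 hJ1 hJ2 hwq hwq' hX hH (by linarith) hG1 hG1' hKz hVz hVz' hZm1
    (by rw [← hkz, hZm, ← pow_mul]) hcl hcl' (BsC_nonneg hcs hK hV hH hX hW1)
    (BsC_nonneg hcs hK hV' hH hX hW1') hM1 hM2 hW1 (fun d => by unfold Lx; positivity)
    (fun d => by unfold Mx Lx; positivity) hW1' (fun d => by unfold Lx; positivity)
    (fun d => by unfold Mx Lx; positivity)
    (fun t ht hu => BsC_le hcs hK hV hH hX hW1 (by positivity) ht (hu0 t hu))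
    (fun t ht hu => BsC_le hcs hK hV' hH hX hW1' (by positivity) ht (hu0 t hu))
  refine key.trans (le_of_eq ?_)
  have e3 : Zm ^ (3 * e1) * Z ^ e1 = kz ^ (3 * e1) * Z ^ ε := by
    rw [hZm, Real.mul_rpow hkz0.le (by positivity), ← Real.rpow_natCast, ← Real.rpow_mul hZ0.le,
      mul_assoc, ← Real.rpow_add hZ0]
    congr 2
    rw [he1]; push_cast; ring
  rw [show C1 * ((C0 + 1) * cs ^ 2 * Zm ^ (3 * e1)) * Mb ^ 2 * (1 + |τ|) ^ Ab * Z ^ e1 =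
    C1 * (C0 + 1) * cs ^ 2 * (Zm ^ (3 * e1) * Z ^ e1) * Mb ^ 2 * (1 + |τ|) ^ Ab by ring, e3]
  ring

end Crest.Agent.R017.E3Sz290
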