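import Crest.Agent.R017.E3Sx2_579
import Crest.Agent.R017.E3Sy_290

/-!
# Row 17, block C70, leaf E3 (S-sum): one pair of levels from (RH) (helper579)

* `poh_pc`, `poh_pc'` : the characters of the pairs
* `MB_mono`, `MBU_mono`, `BsT_mono` : monotonicity
* `MB12_of` : helper290's `MB1`, `MB2` from (RH)
* `PAIR_RH` : `Σ_{q,t} MPTr` at a pair of levels from (RH)
-/

set_option autoImplicit false
set_option linter.unusedVariables false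

noncomputable section

open Finset
open scoped ComplexConjugate Classical ContDiff

namespace Crest.Agent.R017.E3Sz579

open Crest.Agent.R012 Crest.Agent.R012.Eis Crest.Agent.R012.MC
open Crest.Agent.R012.LS2 (S mem_S bl mem_bl)
open Crest.Agent.R012.Mob705 (pb mem_pb pdiv mem_pdiv)
open Crest.Agent.R012.NonCube52 (kv kc)
open Crest.Agent.R017.CM106 (CS FS)
open Crest.Agent.R017.C70 (JC OKJ)
open Crest.Agent.R017.E3A164 (Yp Ys Cs mem_Cs)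
open Crest.Agent.R017.E3s164 (cop_c)
open Crest.Agent.R017.GrB829 (IsC)
open Crest.Agent.R017.PX764 (n6)
open Crest.Agent.R017.E3M829 (TC)
open Crest.Agent.R017.E3T829
open Crest.Agent.R017.E3T1579 (T3 WQ)
open Crest.Agent.R017.E3T2579 (wL w1L)
open Crest.Agent.R017.E3F548 (pc MPTr isC_ne)
open Crest.Agent.R017.E1551 (nmpos)
open Crest.Agent.R017.E3D579 (sy_mulR sy_conj_sq)
open Crest.Agent.R017.Mode405
open Crest.Agent.R017.E3Su290 (MB T1 T1_nonneg)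
open Crest.Agent.R017.E3Sw290 (TU MBU kZ)
open Crest.Agent.R017.E3Sx579 (BsT BsT_nonneg MBU_of S1h_BsT slp_mono)
open Crest.Agent.R017.E3Sy290
open Crest.Agent.R017.E3Z548

/-! ### the characters -/

lemma SU_ccc {c c' : Eis} (hc : IsC c) (hc' : IsC c') : PoH347.SU (c * c' ^ 2) :=
  ⟨mul_ne_zero (isC_ne hc) (pow_ne_zero 2 (isC_ne hc')),
    fun _ hk => (cop_c hc hk).mul_left ((cop_c hc' hk).pow_left)⟩

/-- the character of the pair -/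
theorem poh_pc {c c' : Eis} (hc : IsC c) (hc' : IsC c') {w : ℝ → ℝ} (hw : Wgt w) :
    Mul1 (pc c c') ∧ PoHW OK3 nfo (pc c c') (w6 w) := by
  unfold E3F548.pc
  split_ifs with h
  · exact ⟨mul1_one, pohw_one (wgt_w6 hw)⟩
  · have hu := SU_ccc hc hc'
    refine ⟨⟨fun a b ha hb => sy_mulR ha hb, fun a _ => CF61.norm_sy_le _ _⟩, ?_⟩
    refine pohw_of (u := 1 * (c * c' ^ 2) ^ 2) ?_ ?_ (wgt_w6 hw)
    · rw [one_mul, pow_two]; exact hu.mul hu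
    · intro x hx
      have h1 := sy_conj_sq (s := c * c' ^ 2) (H := 1) hx
      rw [Char766.sy_one_left hx, map_one, mul_one] at h1
      exact h1

/-- the conjugate character of the pair -/
theorem poh_pc' {c c' : Eis} (hc : IsC c) (hc' : IsC c') {w : ℝ → ℝ} (hw : Wgt w) :
    Mul1 (fun m => conj (pc c c' m)) ∧ PoHW OK3 nfo (fun m => conj (pc c c' m)) (w6 w) := by
  unfold E3F548.pc
  split_ifs with h
  · simp only [map_one]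
    exact ⟨mul1_one, pohw_one (wgt_w6 hw)⟩
  · have hu := SU_ccc hc hc'
    refine ⟨⟨fun a b ha hb => ?_, fun a _ => ?_⟩, pohw_of hu (fun x _ => rfl) (wgt_w6 hw)⟩
    · rw [sy_mulR ha hb, map_mul]
    · rw [RCLike.norm_conj]; exact CF61.norm_sy_le _ _

/-! ### monotonicity -/

lemma T1_mono {N N' : ℝ} (hN : 0 ≤ N) (h : N ≤ N') (b : Eis → ℂ) (r : Eis) :
    T1 N b r ≤ T1 N' b r := by
  unfold E3Su290.T1
  refine sum_le_sum_of_subset_of_nonneg ?_ fun _ _ _ => by positivity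
  intro n hn
  rw [mem_filter, mem_S hN] at hn
  rw [mem_filter, mem_S (hN.trans h)]
  exact ⟨⟨hn.1.1.trans h, hn.1.2⟩, hn.2⟩

lemma DT_mono {s N N' : ℝ} (h : N ≤ N') (b : Eis → ℂ) (r : Eis) : DT s N b r ≤ DT s N' b r := by
  unfold Mode405.DT
  refine sum_le_sum_of_subset_of_nonneg ?_ fun _ _ _ => by positivity
  intro n hn
  rw [mem_filter, mem_primBall] at hn ⊢
  exact ⟨⟨hn.1.1.trans (Nat.floor_le_floor h), hn.1.2⟩, hn.2⟩

/-- `MB` is monotone in the constants and in the structured number -/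
theorem MB_mono {χ : Eis → ℂ} {w : ℝ → ℝ} {A' ε C C' cw cw' : ℝ} {b : Eis → ℂ} {r₁ ka : Eis}
    {Y Lt Bs Bs' Z₀ : ℝ} (hZ : 0 ≤ Z₀) (hC : 0 ≤ C) (hCC : C ≤ C') (hcw : 0 ≤ cw)
    (hcc : cw ≤ cw') (hY : 0 ≤ Y) (hLt : 0 ≤ Lt) (hBs : 0 ≤ Bs) (hBB : Bs ≤ Bs')
    (h : MB χ w A' ε C cw b r₁ ka Y Lt Bs Z₀) : MB χ w A' ε C' cw' b r₁ ka Y Lt Bs' Z₀ := by
  intro Z L L0 hZZ hL hLZ hL0 hL0Z r q hr hrZ hr₁ hq hqZ hLq
  refine (h Z L L0 hZZ hL hLZ hL0 hL0Z r q hr hrZ hr₁ hq hqZ hLq).trans ?_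
  have hZ0 : 0 ≤ Z := hZ.trans hZZ
  have hcY : cw * Y ≤ cw' * Y := mul_le_mul_of_nonneg_right hcc hY
  have hT0 := T1_nonneg (cw * Y) b r
  have hT := T1_mono (mul_nonneg hcw hY) hcY b r
  have hD1 := DT_mono (s := 1) hcY b r₁
  have hD2 := DT_mono (s := 1 / 2) hcY b r₁
  have hD10 := DT_nonneg 1 (cw * Y) b r₁
  have hD20 := DT_nonneg (1 / 2) (cw * Y) b r₁
  have hD10' := DT_nonneg 1 (cw' * Y) b r₁
  have hD20' := DT_nonneg (1 / 2) (cw' * Y) b r₁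
  have hT0' := T1_nonneg (cw' * Y) b r
  have hBs' : 0 ≤ Bs' := hBs.trans hBB
  generalize T1 (cw * Y) b r = t at *
  generalize T1 (cw' * Y) b r = t' at *
  generalize DT 1 (cw * Y) b r₁ = d1 at *
  generalize DT 1 (cw' * Y) b r₁ = d1' at *
  generalize DT (1 / 2) (cw * Y) b r₁ = d2 at *
  generalize DT (1 / 2) (cw' * Y) b r₁ = d2' at *
  clear h
  have e1 : 0 ≤ (L0 / Lt) ^ (1 / 3 : ℝ) * Y +
      (if Lt ≤ L0 then L + (L * Y) ^ (2 / 3 : ℝ) else 0) := by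
    split_ifs <;> positivity
  have k1 : C * Z ^ ε * Y ^ (-(1 : ℝ) / 3) ≤ C' * Z ^ ε * Y ^ (-(1 : ℝ) / 3) := by gcongr
  refine mul_le_mul k1 (add_le_add (mul_le_mul_of_nonneg_left hT e1) ?_) ?_ ?_
  · split_ifs
    · refine mul_le_mul_of_nonneg_left ?_ (by positivity)
      refine add_le_add (mul_le_mul_of_nonneg_left hBB hY) (add_le_add ?_ ?_)
      · exact mul_le_mul_of_nonneg_left hD1 (by positivity)
      · exact mul_le_mul_of_nonneg_left hD2 (by positivity)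
    · exact le_rfl
  · refine add_nonneg (mul_nonneg e1 hT0) ?_
    split_ifs <;> positivity
  · have : 0 ≤ C' := hC.trans hCC
    positivity

/-- `BsT` is monotone -/
lemma BsT_mono {cs K V H X : ℝ} (hcs : 1 ≤ cs) (hK : 0 < K) (hV : 0 < V) (hH : 0 < H)
    (hX : 0 < X) {W1 W1' : Eis → Eis → ℝ} {t : UT} (h : W1 t.1 t.2.1 ≤ W1' t.1 t.2.1) :
    BsT cs K V H X W1 t ≤ BsT cs K V H X W1' t := by
  unfold E3Sx579.BsT
  have h1 := E3Sx579.LtU_nonneg (V := V) hK hH t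
  have h2 := E3Sx579.IlU_nonneg hcs hK hV hH hX t
  split_ifs
  · refine mul_le_mul_of_nonneg_left h ?_
    unfold Mode405.nfo
    positivity
  · exact le_rfl

/-- the statement of `MBU_of` -/
def MBst (χ : Eis → ℂ) (w : ℝ → ℝ) (R0 : ℝ) (a A : ℕ) (ε cs C c cw C₂ : ℝ) (A₀ : ℕ) : Prop :=
  ∀ A' : ℝ, (A₀ : ℝ) ≤ A' →
      ∀ z Zm K V H X : ℝ, 1 ≤ z → z ^ 5 ≤ Zm → 0 < K → 0 < V → 0 < H → 0 < X →
      H * V ^ 2 * Real.exp (2 * R0) < K * X → cs * V ≤ Zm → z ^ 3 * (Real.exp R0 * X) ≤ Zm →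
      ∀ (EE : Finset Eis) (af : Eis → Eis → Eis → ℂ), (∀ d e, FS (af d e)) →
      (∀ d ∈ S z, ∀ e ∈ EE, ∀ n, af d e n ≠ 0 → Squarefree n) →
      (∀ d ∈ S z, ∀ e ∈ EE, ∀ n, af d e n ≠ 0 →
        |Real.log (nm d * nm n) - Real.log X| ≤ R0) →
      ∀ W0 : Eis → Eis → ℝ → ℝ, (∀ d e, Slp a (W0 d e)) →
      (∀ d ∈ S z, ∀ e ∈ EE, ∀ γ π, IsPrim γ → IsPrim π → (nm π : ℝ) ≤ Zm ^ 4 →
        ∀ P : ℝ, 0 < P → (nm γ : ℝ) * n6 γ ^ 2 * ∑ r ∈ bl P, R3571.RMm A (af d e) e γ π r ≤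
          W0 d e P) →
      ∀ t, TU z EE t → MBU χ w A' ε C cw cs K V H af
        (BsT cs K V H X fun d e => C₂ * Zm ^ ε * W0 d e (c * (X * V * H / K))) Zm t

/-- the statement is monotone in the constants -/
theorem MBst_mono {χ : Eis → ℂ} {w : ℝ → ℝ} {R0 : ℝ} {a A : ℕ}
    {ε cs C c cw C₂ C' c' cw' C₂' : ℝ} {A₀ A₀' : ℕ} (hcs : 1 ≤ cs) (hC : 0 ≤ C) (hc : 1 ≤ c)
    (hcw : 1 ≤ cw) (hC₂ : 0 ≤ C₂) (h1 : C ≤ C') (h2 : c ≤ c') (h3 : cw ≤ cw') (h4 : C₂ ≤ C₂')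
    (h5 : A₀ ≤ A₀') (h : MBst χ w R0 a A ε cs C c cw C₂ A₀) :
    MBst χ w R0 a A ε cs C' c' cw' C₂' A₀' := by
  intro A' hA' z Zm K V H X hz hzZ hK hV hH hX hKX hVZ hXZ EE af haf hsf hwin W0 hW0 hRH t ht
  have hA'0 : (A₀ : ℝ) ≤ A' := le_trans (by exact_mod_cast h5) hA'
  have key := h A' hA'0 z Zm K V H X hz hzZ hK hV hH hX hKX hVZ hXZ EE af haf hsf hwin W0 hW0 hRH
    t ht
  have hZm : 1 ≤ Zm := (one_le_pow₀ hz).trans hzZ
  have hI : 0 < X * V * H / K := by positivity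
  have hcI : 0 < c * (X * V * H / K) := mul_pos (by linarith) hI
  have hW : ∀ d e, 0 ≤ C₂ * Zm ^ ε * W0 d e (c * (X * V * H / K)) := fun d e =>
    mul_nonneg (by positivity) ((hW0 d e).nonneg _ hcI)
  refine MB_mono (by linarith) hC h1 (by linarith) h3 ?_ ?_ (BsT_nonneg hcs hK hV hH hX hW t)
    (BsT_mono hcs hK hV hH hX ?_) key
  · have : 0 < cs := by linarith
    unfold E3Sw290.YU E3Sw290.ZU
    positivity
  · unfold E3Sw290.LtU E3Sw290.YU E3Sw290.ZU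
    positivity
  · have k1 : W0 t.1 t.2.1 (c * (X * V * H / K)) ≤ W0 t.1 t.2.1 (c' * (X * V * H / K)) :=
      slp_mono (hW0 _ _) hcI (mul_le_mul_of_nonneg_right h2 hI.le)
    have k0 := (hW0 t.1 t.2.1).nonneg _ hcI
    have k2 : 0 ≤ C₂' := hC₂.trans h4
    exact mul_le_mul (mul_le_mul_of_nonneg_right h4 (by positivity)) k1 k0 (by positivity)

/-- **the two sides, all pairs** -/
theorem MB12_of {cs : ℝ} (hcs : 1 ≤ cs) {w1 : ℝ → ℝ} (hw : Wgt (fun y => w1 (cs * y)))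
    (hw1 : ∀ y, w1 (cs * y) ≠ 0 → y ≤ 1) {R0 : ℝ} (hR0 : 0 ≤ R0) (a A : ℕ) (hA : 1 < A)
    {ε : ℝ} (hε : 0 < ε) :
    ∃ (C c cw C₂ : ℝ) (A₀ : ℕ), 0 < C ∧ 1 ≤ c ∧ 1 ≤ cw ∧ 0 ≤ C₂ ∧ ∀ p ∈ Cs ×ˢ Cs,
      MBst (pc p.1 p.2) (fun y => w1 (cs * y)) R0 a A ε cs C c cw C₂ A₀ ∧
      MBst (fun m => conj (pc p.1 p.2 m)) (fun y => w1 (cs * y)) R0 a A ε cs C c cw C₂ A₀ := by
  have h1 : ∀ p : Eis × Eis, ∃ (C c cw C₂ : ℝ) (A₀ : ℕ), 0 ≤ C ∧ 1 ≤ c ∧ 1 ≤ cw ∧ 0 ≤ C₂ ∧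
      (p ∈ Cs ×ˢ Cs →
        MBst (pc p.1 p.2) (fun y => w1 (cs * y)) R0 a A ε cs C c cw C₂ A₀ ∧
        MBst (fun m => conj (pc p.1 p.2 m)) (fun y => w1 (cs * y)) R0 a A ε cs C c cw C₂ A₀) := by
    intro p
    by_cases hp : p ∈ Cs ×ˢ Cs
    · have hp' := hp
      rw [mem_product, mem_Cs, mem_Cs] at hp'
      obtain ⟨k1, k2⟩ := poh_pc hp'.1 hp'.2 hw
      obtain ⟨k3, k4⟩ := poh_pc' hp'.1 hp'.2 hw
      obtain ⟨C, c, cw, C₂, A₀, a1, a2, a3, a4, a5⟩ := MBU_of k1 hw k2 hw1 hR0 a A hA hε hcs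
      obtain ⟨C', c', cw', C₂', A₀', b1, b2, b3, b4, b5⟩ := MBU_of k3 hw k4 hw1 hR0 a A hA hε hcs
      refine ⟨C + C', c + c', cw + cw', C₂ + C₂', A₀ + A₀', by linarith, by linarith,
        by linarith, by linarith, fun _ => ⟨?_, ?_⟩⟩
      · exact MBst_mono hcs a1 a2 a3 a4 (by linarith) (by linarith) (by linarith) (by linarith)
          (by omega) a5
      · exact MBst_mono hcs b1 b2 b3 b4 (by linarith) (by linarith) (by linarith) (by linarith)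
          (by omega) b5
    · exact ⟨0, 1, 1, 0, 0, le_rfl, le_rfl, le_rfl, le_rfl, fun h => absurd h hp⟩
  choose C c cw C₂ A₀ a1 a2 a3 a4 a5 using h1
  have s0 : ∀ (f : Eis × Eis → ℝ), (∀ p, 0 ≤ f p) → ∀ p ∈ Cs ×ˢ Cs, f p ≤ ∑ q ∈ Cs ×ˢ Cs, f q :=
    fun f hf p hp => single_le_sum (fun q _ => hf q) hp
  have t1 : 0 ≤ ∑ q ∈ Cs ×ˢ Cs, C q := sum_nonneg fun q _ => a1 q
  have t2 : 0 ≤ ∑ q ∈ Cs ×ˢ Cs, c q := sum_nonneg fun q _ => by linarith [a2 q]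
  have t3 : 0 ≤ ∑ q ∈ Cs ×ˢ Cs, cw q := sum_nonneg fun q _ => by linarith [a3 q]
  have t4 : 0 ≤ ∑ q ∈ Cs ×ˢ Cs, C₂ q := sum_nonneg fun q _ => a4 q
  refine ⟨1 + ∑ q ∈ Cs ×ˢ Cs, C q, 1 + ∑ q ∈ Cs ×ˢ Cs, c q, 1 + ∑ q ∈ Cs ×ˢ Cs, cw q,
    ∑ q ∈ Cs ×ˢ Cs, C₂ q, ∑ q ∈ Cs ×ˢ Cs, A₀ q, by linarith, by linarith, by linarith, t4, ?_⟩
  intro p hp
  have u1 := s0 C a1 p hp
  have u2 := s0 c (fun q => by linarith [a2 q]) p hp
  have u3 := s0 cw (fun q => by linarith [a3 q]) p hp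
  have u4 := s0 C₂ a4 p hp
  have u5 : A₀ p ≤ ∑ q ∈ Cs ×ˢ Cs, A₀ q := single_le_sum (fun q _ => Nat.zero_le _) hp
  exact ⟨MBst_mono hcs (a1 p) (a2 p) (a3 p) (a4 p) (by linarith) (by linarith) (by linarith)
      u4 u5 (a5 p hp).1,
    MBst_mono hcs (a1 p) (a2 p) (a3 p) (a4 p) (by linarith) (by linarith) (by linarith)
      u4 u5 (a5 p hp).2⟩

/-! ### one pair of levels -/

/-- the length of the structured part -/
def Ld (K V H : ℝ) (d : Eis) : ℝ := H * V ^ 2 / (K * nm d)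

/-- the second term of the structured part -/
def Md (c K V H X : ℝ) (d : Eis) : ℝ :=
  c * (H * V ^ 2 / (K * nm d)) * (X * V * H / K) ^ (-(1 / 2) : ℝ)

lemma Ld_nonneg {K V H : ℝ} (hK : 0 < K) (hH : 0 < H) (d : Eis) : 0 ≤ Ld K V H d := by
  unfold Ld; positivity

lemma Md_nonneg {c K V H X : ℝ} (hc : 0 ≤ c) (hK : 0 < K) (hV : 0 < V) (hH : 0 < H) (hX : 0 < X)
    (d : Eis) : 0 ≤ Md c K V H X d := by
  unfold Md; positivity

/-- the pointwise bound of the structured number -/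
lemma BsT_b {cs c K V H X z : ℝ} (hcs : 1 ≤ cs) (hc : cs ≤ c) (hz : 0 ≤ z) (hK : 0 < K)
    (hV : 0 < V) (hH : 0 < H) (hX : 0 < X) {W1 : Eis → Eis → ℝ} (hW1 : ∀ d e, 0 ≤ W1 d e)
    {t : UT} (ht : SU z t) (hd : t.1 ≠ 0) :
    BsT cs K V H X W1 t ≤
      if (nm (t.2.2.2.2.2.1 * t.2.2.2.2.2.2.1) : ℝ) ^ 2 *
          (nm (t.2.2.1 * t.2.2.2.2.1 * t.2.2.2.2.2.2.2) : ℝ) ^ 3 ≤ Ld K V H t.1 then
        (1 + Md c K V H X t.1 * kU t) * W1 t.1 t.2.1 else 0 := by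
  have h := S1h_BsT hcs hz hK hV hH hX hW1 (R := {(t.1, t.2.1)}) (fun ρ hρ => by
    rw [mem_singleton] at hρ
    rw [hρ]; exact hd) t ht (mem_singleton_self _)
  refine h.trans ?_
  unfold Ld Md
  split_ifs
  · have h1 := hW1 t.1 t.2.1
    have h2 := kU_nonneg t
    refine mul_le_mul_of_nonneg_right ?_ h1
    refine add_le_add le_rfl (mul_le_mul_of_nonneg_right ?_ h2)
    refine mul_le_mul_of_nonneg_right ?_ (by positivity)
    exact mul_le_mul_of_nonneg_right hc (by positivity)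
  · exact le_rfl

lemma RNn_smul (L M : Eis → ℝ) (W : Eis → Eis → ℝ) (k : ℝ) (Ds EE : Finset Eis) :
    RNn L M (fun d e => k * W d e) Ds EE = k * RNn L M W Ds EE := by
  unfold E3Z548.RNn
  rw [mul_sum]
  refine sum_congr rfl fun d _ => ?_
  rw [mul_sum]
  refine sum_congr rfl fun e _ => ?_
  ring

lemma LVn_smul {af : Eis → Eis → Eis → ℂ} {Ds EE : Finset Eis} {c Y K H V V' E1 B G1 RN k : ℝ}
    (hK : 0 < K) (hH : 0 < H) (hV : 0 < V) (hV' : 0 < V') (hE1 : 0 ≤ E1) (hB : 0 ≤ B)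
    (hG1 : 0 ≤ G1) (hRN : 0 ≤ RN) (hk : 0 ≤ k) :
    LVn af Ds EE c Y K H V V' E1 B G1 (k * RN) ≤
      (1 + k) * LVn af Ds EE c Y K H V V' E1 B G1 RN := by
  have hne : ∀ e : Eis, (0 : ℝ) ≤ nm e := fun e => Nat.cast_nonneg _
  have t0 := TN_nonneg af hne Ds EE (om := fun _ => (1 : ℝ)) (fun _ => zero_le_one) {1}
    (JVc c V) id
  have t1 := TN_nonneg af hne Ds EE (om := fun γ => (nm γ : ℝ)⁻¹) (fun _ => by positivity)
    (primBall ⌊Y⌋₊) (JV c V) (fun _ => 1)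
  have t2 := TN_nonneg af hne Ds EE (om := fun γ => (nm γ : ℝ) ^ (-(1 / 2) : ℝ))
    (fun _ => by positivity) (primBall ⌊Y⌋₊) (JV c V) (fun _ => 1)
  have hF := FH_nonneg hK.le hH.le hV.le
  unfold E3Z548.LVn
  set T0 := TN af (fun e => nm e) Ds EE (fun _ => 1) {1} (JVc c V) id
  set T1' := TN af (fun e => nm e) Ds EE (fun γ => (nm γ : ℝ)⁻¹) (primBall ⌊Y⌋₊) (JV c V)
    (fun _ => 1)
  set T2 := TN af (fun e => nm e) Ds EE (fun γ => (nm γ : ℝ) ^ (-(1 / 2) : ℝ)) (primBall ⌊Y⌋₊)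
          (JV c V) (fun _ => 1)
  obtain ⟨P, hP⟩ : ∃ P, P = ((1 + (H * (V / V')) ^ (1 / 3 : ℝ) * (V' / K) * (E1 ^ 2 * B ^ 2 * G1) +
      (H * V ^ 2 * V' * E1 ^ 3 * B ^ 2 / K ^ 2) ^ (1 / 3 : ℝ)) * T0 +
    (1 + (H ^ 2 * V ^ 3 / K ^ 2) ^ (1 / 3 : ℝ)) * T1' +
    (H ^ 2 * V ^ 3 / K ^ 2) ^ (1 / 2 : ℝ) * T2) := ⟨_, rfl⟩
  have hP0 : 0 ≤ P := by rw [hP]; positivity
  rw [← hP]
  have e1 : (1 + k) * (FH K H V * (P + RN)) - FH K H V * (P + k * RN) =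
      FH K H V * (k * P + RN) := by ring
  have e2 : 0 ≤ FH K H V * (k * P + RN) := by positivity
  linarith

end Crest.Agent.R017.E3Sz579
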