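import Crest.Agent.R017.E3Sr_290
import Crest.Agent.R017.E3Mj_829

/-!
# Row 17, R8 (E3), part (T4): counting tuples of divisors (helper829)

* `DV m G` : the vectors of `m` primary divisors of `G`
* `count` : a finite set injected by free parameters and a vector of divisors
-/

set_option autoImplicit false
set_option linter.unusedVariables false

noncomputable section

open Finset
open scoped Classical

namespace Crest.Agent.R017.E3T829

open Crest.Agent.R012 Crest.Agent.R012.Eis Crest.Agent.R012.Div277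

/-- the vectors of `m` primary divisors of `G` -/
def DV (m : ℕ) (G : Eis) : Finset (Fin m → Eis) := Fintype.piFinset (fun _ => dvs G)

lemma card_DV (m : ℕ) (G : Eis) : (DV m G).card = tau G ^ m := by
  unfold DV
  rw [Fintype.card_piFinset]
  simp [tau]

lemma mem_DV {m : ℕ} {G : Eis} {v : Fin m → Eis} : v ∈ DV m G ↔ ∀ l, v l ∈ dvs G := by
  unfold DV
  rw [Fintype.mem_piFinset]

/-- **counting**: free parameters and a vector of divisors -/
theorem count {ι F : Type*} (P : Finset ι) (fr : ι → F) (m : ℕ) (dv : ι → Fin m → Eis)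
    (Fs : Finset F) (G : F → Eis) {M : ℝ} (h1 : ∀ i ∈ P, fr i ∈ Fs)
    (h2 : ∀ i ∈ P, ∀ l, dv i l ∈ dvs (G (fr i))) (h3 : ∀ f ∈ Fs, (tau (G f) : ℝ) ≤ M)
    (inj : ∀ i ∈ P, ∀ j ∈ P, fr i = fr j → dv i = dv j → i = j) :
    (P.card : ℝ) ≤ Fs.card * M ^ m := by
  have e1 : P.card = ∑ f ∈ Fs, (P.filter (fun i => fr i = f)).card :=
    card_eq_sum_card_fiberwise h1
  have e2 : ∀ f ∈ Fs, ((P.filter (fun i => fr i = f)).card : ℝ) ≤ M ^ m := by
    intro f hf
    have : (P.filter (fun i => fr i = f)).card ≤ (DV m (G f)).card := by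
      refine card_le_card_of_injOn dv ?_ ?_
      · intro i hi
        rw [mem_coe, mem_filter] at hi
        rw [mem_coe, mem_DV]
        intro l
        have := h2 i hi.1 l
        rwa [hi.2] at this
      · intro i hi j hj hij
        rw [mem_coe, mem_filter] at hi hj
        exact inj i hi.1 j hj.1 (hi.2.trans hj.2.symm) hij
    calc ((P.filter (fun i => fr i = f)).card : ℝ) ≤ ((DV m (G f)).card : ℝ) := by
          exact_mod_cast this
      _ = (tau (G f) : ℝ) ^ m := by rw [card_DV]; push_cast; rfl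
      _ ≤ M ^ m := pow_le_pow_left₀ (Nat.cast_nonneg _) (h3 f hf) m
  rw [e1]
  push_cast
  calc ∑ f ∈ Fs, ((P.filter (fun i => fr i = f)).card : ℝ) ≤ ∑ f ∈ Fs, M ^ m := sum_le_sum e2
    _ = Fs.card * M ^ m := by rw [sum_const, nsmul_eq_mul]

/-- the divisor bound for a product of bounded size -/
lemma tau_pow {ε : ℝ} (hε : 0 < ε) : ∃ C : ℝ, 1 ≤ C ∧ ∀ (Z : ℝ), 1 ≤ Z → ∀ (k : ℕ) (n : Eis),
    (nm n : ℝ) ≤ Z ^ k → (tau n : ℝ) ≤ C * (Z ^ ε) ^ k := by
  obtain ⟨C, hC, h⟩ := E3M829.tau_Z hε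
  refine ⟨C, hC, fun Z hZ k n hn => ?_⟩
  have := h (Z ^ k) (one_le_pow₀ hZ) n hn
  have e : (Z ^ k) ^ ε = (Z ^ ε) ^ k := by
    rw [← Real.rpow_natCast, ← Real.rpow_natCast, ← Real.rpow_mul (by linarith),
      ← Real.rpow_mul (by linarith), mul_comm]
  rwa [e] at this

end Crest.Agent.R017.E3T829
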