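import Crest.Agent.R017.E3Ta_829
import Crest.Agent.R017.E3Sg_290

/-!
# Row 17, R8 (E3), part (T4): tau-to-one maps (helper829)

* `sum_fib`, `sum_dvs` : sums over an index set through a tau-to-one map
* `sum_j` : `(q, c, g, a, D, F, μ) ↦ q c (a D F μ) g²`
* `sum_r` : `(q, g, F, k) ↦ k q² g F²`
-/

set_option autoImplicit false
set_option linter.unusedVariables false

noncomputable section

open Finset
open scoped Classical

namespace Crest.Agent.R017.E3T829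

open Crest.Agent.R012 Crest.Agent.R012.Eis Crest.Agent.R012.Div277
open Crest.Agent.R012.LS2 (S mem_S bl mem_bl)
open Crest.Agent.R017.E3A164 (Cs mem_Cs fq)
open Crest.Agent.R017.GrB829 (IsC)

/-- a sum through a map with small fibres -/
theorem sum_fib {ι κ : Type*} (O : Finset ι) (φ : ι → κ) (f : κ → ℝ) (hf : ∀ j, 0 ≤ f j)
    (A : Finset κ) (hA : ∀ o ∈ O, f (φ o) ≠ 0 → φ o ∈ A) {M : ℝ}
    (hM : ∀ j ∈ A, f j ≠ 0 → ((O.filter (fun o => φ o = j)).card : ℝ) ≤ M) :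
    ∑ o ∈ O, f (φ o) ≤ M * ∑ j ∈ A, f j := by
  have e1 : ∑ o ∈ O, f (φ o) = ∑ o ∈ O.filter (fun o => φ o ∈ A), f (φ o) := by
    rw [sum_filter]
    refine sum_congr rfl fun o ho => ?_
    split_ifs with h
    · rfl
    · by_contra h2
      exact h (hA o ho h2)
  rw [e1, mul_sum, ← sum_fiberwise_of_maps_to (s := O.filter (fun o => φ o ∈ A)) (t := A)
    (g := φ) (fun o ho => (mem_filter.mp ho).2)]
  refine sum_le_sum fun j hj => ?_
  have e2 : ∑ o ∈ (O.filter (fun o => φ o ∈ A)).filter (fun o => φ o = j), f (φ o) =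
      ((O.filter (fun o => φ o = j)).card : ℝ) * f j := by
    have e3 : (O.filter (fun o => φ o ∈ A)).filter (fun o => φ o = j) =
        O.filter (fun o => φ o = j) := by
      ext o
      simp only [mem_filter]
      constructor
      · rintro ⟨⟨h1, _⟩, h3⟩; exact ⟨h1, h3⟩
      · rintro ⟨h1, h3⟩; exact ⟨⟨h1, h3 ▸ hj⟩, h3⟩
    rw [e3, sum_congr rfl (fun o ho => by rw [(mem_filter.mp ho).2]), sum_const, nsmul_eq_mul]
  rw [e2]
  by_cases h : f j = 0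
  · rw [h]; simp
  · exact mul_le_mul_of_nonneg_right (hM j hj h) (hf j)

/-- **a sum through a map which is injective together with a vector of divisors and a remainder** -/
theorem sum_dvs {ι F : Type*} (O : Finset ι) (φ : ι → Eis) (m : ℕ) (dv : ι → Fin m → Eis)
    (rm : ι → F) (Fs : Finset F) (f : Eis → ℝ) (hf : ∀ j, 0 ≤ f j) (A : Finset Eis)
    (hA : ∀ o ∈ O, f (φ o) ≠ 0 → φ o ∈ A) {M : ℝ} (hM : ∀ j ∈ A, f j ≠ 0 → (tau j : ℝ) ≤ M)
    (h1 : ∀ o ∈ O, rm o ∈ Fs) (h2 : ∀ o ∈ O, f (φ o) ≠ 0 → ∀ l, dv o l ∈ dvs (φ o))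
    (inj : ∀ o ∈ O, ∀ o' ∈ O, φ o = φ o' → rm o = rm o' → dv o = dv o' → o = o') :
    ∑ o ∈ O, f (φ o) ≤ (Fs.card * M ^ m) * ∑ j ∈ A, f j := by
  refine sum_fib O φ f hf A hA fun j hj hfj => ?_
  have key : (((O.filter (fun o => φ o = j)).card : ℕ) : ℝ) ≤ Fs.card * M ^ m := by
    refine count (M := M) (O.filter (fun o => φ o = j)) rm m dv Fs (fun _ => j) ?_ ?_ ?_ ?_
    · intro o ho; exact h1 o (mem_filter.mp ho).1
    · intro o ho l
      obtain ⟨ho1, ho2⟩ := mem_filter.mp ho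
      have := h2 o ho1 (by rw [ho2]; exact hfj) l
      rwa [ho2] at this
    · intro _ _; exact hM j hj hfj
    · intro o ho o' ho' e1 e2
      obtain ⟨a1, a2⟩ := mem_filter.mp ho
      obtain ⟨b1, b2⟩ := mem_filter.mp ho'
      exact inj o a1 o' b1 (a2.trans b2.symm) e1 e2
  convert key

lemma card_Cs : Cs.card ≤ 4 := by
  unfold Cs
  exact card_le_four

/-- the frequency of a cell -/
def jj (q c g a D F μ : Eis) : Eis := fq q c g (a * D * F * μ)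

lemma jj_ne {q c g a D F μ : Eis} (hq : IsPrim q) (hc : IsC c) (hg : IsPrim g) (ha : IsPrim a)
    (hD : IsPrim D) (hF : IsPrim F) (hμ : IsPrim μ) : jj q c g a D F μ ≠ 0 := by
  unfold jj fq
  exact mul_ne_zero (mul_ne_zero (mul_ne_zero hq.ne_zero hc.lamish.1)
    (((ha.mul hD).mul hF).mul hμ).ne_zero) (hg.pow 2).ne_zero

/-- **`(q, c, g, a, D, F, μ) ↦ j` is tau-to-one**, indexed form -/
theorem sum_jI {ε : ℝ} (hε : 0 < ε) : ∃ C : ℝ, 1 ≤ C ∧ ∀ (Z : ℝ), 1 ≤ Z →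
    ∀ {ι F : Type} (O : Finset ι) (q c g a D Fe μ : ι → Eis) (rm : ι → F) (Fs : Finset F)
      (f : Eis → ℝ) (A : Finset Eis), (∀ j, 0 ≤ f j) → (∀ j, f j ≠ 0 → j ∈ A ∧ (nm j : ℝ) ≤ Z) →
      (∀ o ∈ O, rm o ∈ Fs) →
      (∀ o ∈ O, IsPrim (q o) ∧ IsC (c o) ∧ IsPrim (g o) ∧ IsPrim (a o) ∧ IsPrim (D o) ∧
        IsPrim (Fe o) ∧ IsPrim (μ o)) →
      (∀ o ∈ O, ∀ o' ∈ O, rm o = rm o' → q o = q o' → c o = c o' → g o = g o' → a o = a o' →
        D o = D o' → Fe o = Fe o' → μ o = μ o' → o = o') →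
      ∑ o ∈ O, f (jj (q o) (c o) (g o) (a o) (D o) (Fe o) (μ o)) ≤
        C * Z ^ ε * Fs.card * ∑ j ∈ A, f j := by
  obtain ⟨C₀, hC₀, hτ⟩ := E3M829.tau_Z (ε := ε / 6) (by positivity)
  refine ⟨4 * C₀ ^ 6, by
    have : 1 ≤ C₀ ^ 6 := one_le_pow₀ hC₀
    linarith, ?_⟩
  intro Z hZ ι F O q c g a D Fe μ rm Fs f A hf hA hrm hp inj
  have hZ6 : (Z ^ (ε / 6)) ^ 6 = Z ^ ε := by
    rw [← Real.rpow_natCast, ← Real.rpow_mul (by linarith)]
    congr 1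
    push_cast; ring
  have key := sum_dvs O (fun o => jj (q o) (c o) (g o) (a o) (D o) (Fe o) (μ o)) 6
    (fun o => ![q o, g o, a o, D o, Fe o, μ o]) (fun o => (rm o, c o)) (Fs ×ˢ Cs) f hf A
    (fun o _ h => (hA _ h).1) (M := C₀ * Z ^ (ε / 6)) (fun j _ h => hτ Z hZ j (hA j h).2) ?_ ?_ ?_
  · refine key.trans ?_
    have h0 : 0 ≤ ∑ j ∈ A, f j := sum_nonneg fun j _ => hf j
    refine mul_le_mul_of_nonneg_right ?_ h0
    rw [card_product, mul_pow, hZ6]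
    push_cast
    have h4 : (Cs.card : ℝ) ≤ 4 := by exact_mod_cast card_Cs
    have h5 : (0 : ℝ) ≤ C₀ ^ 6 * Z ^ ε := by positivity
    calc (Fs.card : ℝ) * Cs.card * (C₀ ^ 6 * Z ^ ε) ≤ (Fs.card : ℝ) * 4 * (C₀ ^ 6 * Z ^ ε) := by
          gcongr
      _ = _ := by ring
  · intro o ho
    rw [mem_product, mem_Cs]
    exact ⟨hrm o ho, (hp o ho).2.1⟩
  · intro o ho _ l
    obtain ⟨p1, p2, p3, p4, p5, p6, p7⟩ := hp o ho
    have hne := jj_ne p1 p2 p3 p4 p5 p6 p7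
    rw [mem_dvs hne]
    have d1 : q o ∣ jj (q o) (c o) (g o) (a o) (D o) (Fe o) (μ o) :=
      ⟨c o * (a o * D o * Fe o * μ o) * g o ^ 2, by unfold jj fq; ring⟩
    have d2 : g o ∣ jj (q o) (c o) (g o) (a o) (D o) (Fe o) (μ o) :=
      ⟨q o * c o * (a o * D o * Fe o * μ o) * g o, by unfold jj fq; ring⟩
    have d3 : a o ∣ jj (q o) (c o) (g o) (a o) (D o) (Fe o) (μ o) :=
      ⟨q o * c o * (D o * Fe o * μ o) * g o ^ 2, by unfold jj fq; ring⟩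
    have d4 : D o ∣ jj (q o) (c o) (g o) (a o) (D o) (Fe o) (μ o) :=
      ⟨q o * c o * (a o * Fe o * μ o) * g o ^ 2, by unfold jj fq; ring⟩
    have d5 : Fe o ∣ jj (q o) (c o) (g o) (a o) (D o) (Fe o) (μ o) :=
      ⟨q o * c o * (a o * D o * μ o) * g o ^ 2, by unfold jj fq; ring⟩
    have d6 : μ o ∣ jj (q o) (c o) (g o) (a o) (D o) (Fe o) (μ o) :=
      ⟨q o * c o * (a o * D o * Fe o) * g o ^ 2, by unfold jj fq; ring⟩
    fin_cases l
    · exact ⟨p1, d1⟩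
    · exact ⟨p3, d2⟩
    · exact ⟨p4, d3⟩
    · exact ⟨p5, d4⟩
    · exact ⟨p6, d5⟩
    · exact ⟨p7, d6⟩
  · intro o ho o' ho' _ h1 h2
    obtain ⟨h3, h4⟩ := Prod.mk.inj h1
    have e0 := congr_fun h2 0
    have e1 := congr_fun h2 1
    have e2 := congr_fun h2 2
    have e3 := congr_fun h2 3
    have e4 := congr_fun h2 4
    have e5 := congr_fun h2 5
    exact inj o ho o' ho' h3 e0 h4 e1 e2 e3 e4 e5

/-- the merged frequency -/
def rr (q g F k : Eis) : Eis := k * (q ^ 2 * g * F ^ 2)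

/-- **`(q, g, F, k) ↦ r` is tau-to-one**, indexed form -/
theorem sum_rI {ε : ℝ} (hε : 0 < ε) : ∃ C : ℝ, 1 ≤ C ∧ ∀ (Z : ℝ), 1 ≤ Z →
    ∀ {ι F : Type} (O : Finset ι) (q g Fe k : ι → Eis) (rm : ι → F) (Fs : Finset F)
      (f : Eis → ℝ) (A : Finset Eis), (∀ j, 0 ≤ f j) → (∀ j, f j ≠ 0 → j ∈ A ∧ (nm j : ℝ) ≤ Z) →
      (∀ o ∈ O, rm o ∈ Fs) →
      (∀ o ∈ O, IsPrim (q o) ∧ IsPrim (g o) ∧ IsPrim (Fe o) ∧ k o ≠ 0) →
      (∀ o ∈ O, ∀ o' ∈ O, rm o = rm o' → q o = q o' → g o = g o' → Fe o = Fe o' →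
        k o = k o' → o = o') →
      ∑ o ∈ O, f (rr (q o) (g o) (Fe o) (k o)) ≤ C * Z ^ ε * Fs.card * ∑ j ∈ A, f j := by
  obtain ⟨C₀, hC₀, hτ⟩ := E3M829.tau_Z (ε := ε / 3) (by positivity)
  refine ⟨C₀ ^ 3, one_le_pow₀ hC₀, ?_⟩
  intro Z hZ ι F O q g Fe k rm Fs f A hf hA hrm hp inj
  have hZ6 : (Z ^ (ε / 3)) ^ 3 = Z ^ ε := by
    rw [← Real.rpow_natCast, ← Real.rpow_mul (by linarith)]
    congr 1
    push_cast; ring
  have key := sum_dvs O (fun o => rr (q o) (g o) (Fe o) (k o)) 3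
    (fun o => ![q o, g o, Fe o]) rm Fs f hf A
    (fun o _ h => (hA _ h).1) (M := C₀ * Z ^ (ε / 3)) (fun j _ h => hτ Z hZ j (hA j h).2) hrm ?_ ?_
  · refine key.trans (le_of_eq ?_)
    rw [mul_pow, hZ6]
    ring
  · intro o ho _ l
    obtain ⟨p1, p2, p3, p4⟩ := hp o ho
    have hne : rr (q o) (g o) (Fe o) (k o) ≠ 0 := by
      unfold rr
      exact mul_ne_zero p4 (((p1.pow 2).mul p2).mul (p3.pow 2)).ne_zero
    rw [mem_dvs hne]
    have d1 : q o ∣ rr (q o) (g o) (Fe o) (k o) :=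
      ⟨k o * (q o * g o * Fe o ^ 2), by unfold rr; ring⟩
    have d2 : g o ∣ rr (q o) (g o) (Fe o) (k o) :=
      ⟨k o * (q o ^ 2 * Fe o ^ 2), by unfold rr; ring⟩
    have d3 : Fe o ∣ rr (q o) (g o) (Fe o) (k o) :=
      ⟨k o * (q o ^ 2 * g o * Fe o), by unfold rr; ring⟩
    fin_cases l
    · exact ⟨p1, d1⟩
    · exact ⟨p2, d2⟩
    · exact ⟨p3, d3⟩
  · intro o ho o' ho' e h1 h2
    have e0 := congr_fun h2 0
    have e1 := congr_fun h2 1
    have e2 := congr_fun h2 2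
    have f0 : q o = q o' := e0
    have f1 : g o = g o' := e1
    have f2 : Fe o = Fe o' := e2
    refine inj o ho o' ho' h1 f0 f1 f2 ?_
    have e : k o * (q o ^ 2 * g o * Fe o ^ 2) = k o' * (q o' ^ 2 * g o' * Fe o' ^ 2) := e
    rw [f0, f1, f2] at e
    obtain ⟨p1, p2, p3, -⟩ := hp o' ho'
    exact mul_right_cancel₀ (((p1.pow 2).mul p2).mul (p3.pow 2)).ne_zero e

end Crest.Agent.R017.E3T829
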