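import Crest.Agent.R017.E3Tb_829

/-!
# Row 17, R8 (E3), part (T4): the sum over the variables of the other side (helper829)

* `sum_V` : the weights of the cells over all the variables of the other side
* `sum_VI` : indexed form
* `count_aD` : the number of `(a, D, q, g, F)` of the structured part
-/

set_option autoImplicit false
set_option linter.unusedVariables false

noncomputable section

open Finset
open scoped Classical

namespace Crest.Agent.R017.E3T829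

open Crest.Agent.R012 Crest.Agent.R012.Eis Crest.Agent.R012.Div277
open Crest.Agent.R012.LS2 (S mem_S bl mem_bl)
open Crest.Agent.R017.E3A164 (Cs mem_Cs fq)
open Crest.Agent.R017.GrB829 (IsC)
open Crest.Agent.R017.E3Sg290 (wc wc_nonneg sum_w)
open Crest.Agent.R017.DgB829 (HS HS_nonneg HS_le)

/-- the variables of the other side -/
abbrev VT : Type := (Eis × Eis × Eis × Eis × Eis) × Eis × Eis × Eis × Eis × Eis × Eis

/-- the set of the variables of the other side: `((t, d', g', b, b'), e', c', s, sg, a', E)`,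
`e' ∈ EE` -/
def VS (Y : ℝ) (EE : Finset Eis) (q d g D : Eis) : Finset VT :=
  (primBall ⌊Y⌋₊ ×ˢ S Y ×ˢ S Y ×ˢ S Y ×ˢ S Y) ×ˢ EE ×ˢ Cs ×ˢ dvs q ×ˢ dvs (d * g) ×ˢ
    dvs (d * g) ×ˢ dvs D

/-- the sum of the inverse norms -/
def hE (EE : Finset Eis) : ℝ := ∑ e ∈ EE, (1 : ℝ) / nm e

lemma hE_nonneg (EE : Finset Eis) : 0 ≤ hE EE := sum_nonneg fun _ _ => by positivity

/-- the weight -/
def wV (g d a : Eis) (v : VT) : ℝ :=
  wc v.1.1 v.1.2.1 v.1.2.2.1 v.1.2.2.2.1 v.1.2.2.2.2 g d a * (nm v.2.1 : ℝ)⁻¹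

lemma wV_nonneg (g d a : Eis) (v : VT) : 0 ≤ wV g d a v :=
  mul_nonneg (wc_nonneg _ _ _ _ _ _ _ _) (by positivity)

/-- **the sum over the variables of the other side** -/
theorem sum_V {ε : ℝ} (hε : 0 < ε) : ∃ C : ℝ, 0 ≤ C ∧ ∀ Y : ℝ, 1 ≤ Y →
    ∀ (EE : Finset Eis) (q d g a D : Eis),
    q ≠ 0 → d ≠ 0 → g ≠ 0 → a ≠ 0 → D ≠ 0 → (nm q : ℝ) ≤ Y → (nm d : ℝ) ≤ Y → (nm g : ℝ) ≤ Y →
    (nm a : ℝ) ≤ Y → (nm D : ℝ) ≤ Y →
    ∑ v ∈ VS Y EE q d g D, wV g d a v ≤ C * Y ^ ε * hE EE := by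
  set η := ε / 8 with hη
  have hη0 : 0 < η := by positivity
  obtain ⟨C1, hC1, h1⟩ := sum_w hη0
  obtain ⟨C2, hC2, h2⟩ := E3M829.tau_Z hη0
  refine ⟨C1 * 4 * C2 * (C2 ^ 2) ^ 2 * C2, by positivity, ?_⟩
  intro Y hY EE q d g a D hq hd hg ha hD nq nd ng na nD
  have hY0 : 0 < Y := by linarith
  have e1 : ∑ v ∈ VS Y EE q d g D, wV g d a v =
      (∑ t ∈ primBall ⌊Y⌋₊, ∑ d' ∈ S Y, ∑ g' ∈ S Y, ∑ b ∈ S Y, ∑ b' ∈ S Y,
        wc t d' g' b b' g d a) * (hE EE * (Cs.card * (tau q * (tau (d * g) * (tau (d * g) *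
          tau D))))) := by
    unfold VS wV
    rw [sum_product]
    simp only [sum_product (s := EE) (t := Cs ×ˢ dvs q ×ˢ dvs (d * g) ×ˢ dvs (d * g) ×ˢ dvs D)]
    have e2 : ∀ x : Eis × Eis × Eis × Eis × Eis, ∑ y ∈ EE,
        ∑ z ∈ Cs ×ˢ dvs q ×ˢ dvs (d * g) ×ˢ dvs (d * g) ×ˢ dvs D,
          wc x.1 x.2.1 x.2.2.1 x.2.2.2.1 x.2.2.2.2 g d a * (nm y : ℝ)⁻¹ =
        wc x.1 x.2.1 x.2.2.1 x.2.2.2.1 x.2.2.2.2 g d a * (hE EE * (Cs.card * (tau q *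
          (tau (d * g) * (tau (d * g) * tau D))))) := by
      intro x
      have e3 : ∀ y ∈ EE, ∑ z ∈ Cs ×ˢ dvs q ×ˢ dvs (d * g) ×ˢ dvs (d * g) ×ˢ dvs D,
          wc x.1 x.2.1 x.2.2.1 x.2.2.2.1 x.2.2.2.2 g d a * (nm y : ℝ)⁻¹ =
          wc x.1 x.2.1 x.2.2.1 x.2.2.2.1 x.2.2.2.2 g d a * ((Cs.card * (tau q *
          (tau (d * g) * (tau (d * g) * tau D)))) * ((1 : ℝ) / nm y)) := by
        intro y _
        rw [sum_const, card_product, card_product, card_product, card_product, nsmul_eq_mul]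
        unfold tau
        push_cast
        ring
      rw [sum_congr rfl e3, ← mul_sum, ← mul_sum]
      unfold hE
      ring
    rw [sum_congr rfl fun x _ => e2 x, ← sum_mul]
    simp only [sum_product]
  rw [e1]
  have hdg : d * g ≠ 0 := mul_ne_zero hd hg
  have t1 : (tau q : ℝ) ≤ C2 * Y ^ η := h2 Y hY q nq
  have t2 : (tau D : ℝ) ≤ C2 * Y ^ η := h2 Y hY D nD
  have t3 : (tau (d * g) : ℝ) ≤ C2 ^ 2 * (Y ^ η) ^ 2 := by
    have e5 : (tau (d * g) : ℝ) ≤ tau d * tau g := by exact_mod_cast tau_mul_le d g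
    calc (tau (d * g) : ℝ) ≤ tau d * tau g := e5
      _ ≤ (C2 * Y ^ η) * (C2 * Y ^ η) :=
          mul_le_mul (h2 Y hY d nd) (h2 Y hY g ng) (Nat.cast_nonneg _) (by positivity)
      _ = _ := by ring
  have t5 : (Cs.card : ℝ) ≤ 4 := by exact_mod_cast card_Cs
  have t6 := h1 Y hY g d a hg hd ha ng nd na
  have t7 : 0 ≤ ∑ t ∈ primBall ⌊Y⌋₊, ∑ d' ∈ S Y, ∑ g' ∈ S Y, ∑ b ∈ S Y, ∑ b' ∈ S Y,
      wc t d' g' b b' g d a := by
    refine sum_nonneg fun _ _ => sum_nonneg fun _ _ => sum_nonneg fun _ _ => sum_nonneg fun _ _ =>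
      sum_nonneg fun _ _ => wc_nonneg _ _ _ _ _ _ _ _
  have h8 : (Y ^ η) ^ 7 ≤ Y ^ ε := by
    rw [← Real.rpow_natCast, ← Real.rpow_mul hY0.le]
    refine Real.rpow_le_rpow_of_exponent_le hY ?_
    rw [hη]; push_cast; linarith
  have p1 := hE_nonneg EE
  calc (∑ t ∈ primBall ⌊Y⌋₊, ∑ d' ∈ S Y, ∑ g' ∈ S Y, ∑ b ∈ S Y, ∑ b' ∈ S Y,
        wc t d' g' b b' g d a) * (hE EE * (Cs.card * (tau q * (tau (d * g) * (tau (d * g) *
          tau D))))) ≤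
      (C1 * Y ^ η) * (hE EE * (4 * ((C2 * Y ^ η) *
        ((C2 ^ 2 * (Y ^ η) ^ 2) * ((C2 ^ 2 * (Y ^ η) ^ 2) * (C2 * Y ^ η)))))) := by
        gcongr
    _ = C1 * 4 * C2 * (C2 ^ 2) ^ 2 * C2 * (Y ^ η) ^ 7 * hE EE := by ring
    _ ≤ C1 * 4 * C2 * (C2 ^ 2) ^ 2 * C2 * Y ^ ε * hE EE := by gcongr

/-- **the sum over the variables of the other side, indexed form** -/
theorem sum_VI {ε : ℝ} (hε : 0 < ε) : ∃ C : ℝ, 0 ≤ C ∧ ∀ Y : ℝ, 1 ≤ Y →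
    ∀ (EE : Finset Eis) {ι υ : Type} (O : Finset ι) (U : ι → υ) (q d g a D : υ → Eis)
      (G : υ → ℝ) (V : ι → VT), (∀ u, 0 ≤ G u) →
      (∀ o ∈ O, q (U o) ≠ 0 ∧ d (U o) ≠ 0 ∧ g (U o) ≠ 0 ∧ a (U o) ≠ 0 ∧ D (U o) ≠ 0) →
      (∀ o ∈ O, (nm (q (U o)) : ℝ) ≤ Y ∧ (nm (d (U o)) : ℝ) ≤ Y ∧ (nm (g (U o)) : ℝ) ≤ Y ∧
        (nm (a (U o)) : ℝ) ≤ Y ∧ (nm (D (U o)) : ℝ) ≤ Y) →
      (∀ o ∈ O, V o ∈ VS Y EE (q (U o)) (d (U o)) (g (U o)) (D (U o))) →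
      (∀ o ∈ O, ∀ o' ∈ O, U o = U o' → V o = V o' → o = o') →
      ∑ o ∈ O, wV (g (U o)) (d (U o)) (a (U o)) (V o) * G (U o) ≤
        C * Y ^ ε * hE EE * ∑ u ∈ O.image U, G u := by
  obtain ⟨C, hC, h⟩ := sum_V hε
  refine ⟨C, hC, ?_⟩
  intro Y hY EE ι υ O U q d g a D G V hG hne hnm hV inj
  rw [← sum_fiberwise_of_maps_to (s := O) (t := O.image U) (g := U)
    (fun o ho => mem_image_of_mem U ho), mul_sum]
  refine sum_le_sum fun u hu => ?_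
  obtain ⟨o₀, ho₀, hu₀⟩ := mem_image.mp hu
  have n1 := hne o₀ ho₀
  have n2 := hnm o₀ ho₀
  rw [hu₀] at n1 n2
  have key := h Y hY EE (q u) (d u) (g u) (a u) (D u) n1.1 n1.2.1 n1.2.2.1 n1.2.2.2.1 n1.2.2.2.2
    n2.1 n2.2.1 n2.2.2.1 n2.2.2.2.1 n2.2.2.2.2
  have e1 : ∑ o ∈ O.filter (fun o => U o = u), wV (g (U o)) (d (U o)) (a (U o)) (V o) * G (U o) =
      (∑ o ∈ O.filter (fun o => U o = u), wV (g u) (d u) (a u) (V o)) * G u := by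
    rw [sum_mul]
    refine sum_congr rfl fun o ho => ?_
    rw [(mem_filter.mp ho).2]
  rw [e1]
  refine mul_le_mul_of_nonneg_right (le_trans ?_ key) (hG u)
  have e2 : ∑ o ∈ O.filter (fun o => U o = u), wV (g u) (d u) (a u) (V o) =
      ∑ v ∈ (O.filter (fun o => U o = u)).image V, wV (g u) (d u) (a u) v := by
    rw [sum_image]
    intro o ho o' ho' hVV
    obtain ⟨a1, a2⟩ := mem_filter.mp ho
    obtain ⟨b1, b2⟩ := mem_filter.mp ho'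
    exact inj o a1 o' b1 (a2.trans b2.symm) hVV
  rw [e2]
  refine sum_le_sum_of_subset_of_nonneg ?_ fun v _ _ => wV_nonneg _ _ _ v
  intro v hv
  obtain ⟨o, ho, rfl⟩ := mem_image.mp hv
  obtain ⟨a1, a2⟩ := mem_filter.mp ho
  have := hV o a1
  rwa [a2] at this

end Crest.Agent.R017.E3T829
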