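import Crest.Agent.R017.E3Tb_829

/-!
# Row 17, R8 (E3), part (T4): tau-to-one maps with a weighted remainder (helper829)

`sum_jW`, `sum_rW` : the summand may depend on the remainder.
-/

set_option autoImplicit false
set_option linter.unusedVariables false

noncomputable section

open Finset
open scoped Classical

namespace Crest.Agent.R017.E3T829

open Crest.Agent.R012 Crest.Agent.R012.Eis Crest.Agent.R012.Div277
open Crest.Agent.R012.LS2 (S mem_S bl mem_bl)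
open Crest.Agent.R017.E3A164 (Cs mem_Cs fq)
open Crest.Agent.R017.GrB829 (IsC)

/-- splitting along the remainder -/
lemma sum_rm {ι F : Type} (O : Finset ι) (rm : ι → F) (Fs : Finset F) (g : ι → ℝ)
    (hrm : ∀ o ∈ O, rm o ∈ Fs) :
    ∑ o ∈ O, g o = ∑ ρ ∈ Fs, ∑ o ∈ O.filter (fun o => rm o = ρ), g o :=
  (sum_fiberwise_of_maps_to (g := rm) hrm g).symm

/-- **`(q, c, g, a, D, F, μ) ↦ j`, the summand depends on the remainder** -/
theorem sum_jW {ε : ℝ} (hε : 0 < ε) : ∃ C : ℝ, 1 ≤ C ∧ ∀ (Z : ℝ), 1 ≤ Z →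
    ∀ {ι F : Type} (O : Finset ι) (q c g a D Fe μ : ι → Eis) (rm : ι → F) (Fs : Finset F)
      (f : F → Eis → ℝ) (A : F → Finset Eis), (∀ ρ j, 0 ≤ f ρ j) →
      (∀ ρ j, f ρ j ≠ 0 → j ∈ A ρ ∧ (nm j : ℝ) ≤ Z) → (∀ o ∈ O, rm o ∈ Fs) →
      (∀ o ∈ O, IsPrim (q o) ∧ IsC (c o) ∧ IsPrim (g o) ∧ IsPrim (a o) ∧ IsPrim (D o) ∧
        IsPrim (Fe o) ∧ IsPrim (μ o)) →
      (∀ o ∈ O, ∀ o' ∈ O, rm o = rm o' → q o = q o' → c o = c o' → g o = g o' → a o = a o' →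
        D o = D o' → Fe o = Fe o' → μ o = μ o' → o = o') →
      ∑ o ∈ O, f (rm o) (jj (q o) (c o) (g o) (a o) (D o) (Fe o) (μ o)) ≤
        C * Z ^ ε * ∑ ρ ∈ Fs, ∑ j ∈ A ρ, f ρ j := by
  obtain ⟨C, hC, h⟩ := sum_jI hε
  refine ⟨C, hC, ?_⟩
  intro Z hZ ι F O q c g a D Fe μ rm Fs f A hf hA hrm hp inj
  rw [sum_rm O rm Fs _ hrm, mul_sum]
  refine sum_le_sum fun ρ _ => ?_
  have key := h Z hZ (O.filter (fun o => rm o = ρ)) q c g a D Fe μ (fun _ => ()) {()} (f ρ) (A ρ)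
    (hf ρ) (hA ρ) (fun _ _ => mem_singleton_self _) (fun o ho => hp o (mem_filter.mp ho).1)
    (fun o ho o' ho' _ => inj o (mem_filter.mp ho).1 o' (mem_filter.mp ho').1
      ((mem_filter.mp ho).2.trans (mem_filter.mp ho').2.symm))
  rw [card_singleton, Nat.cast_one, mul_one] at key
  refine le_trans (le_of_eq (sum_congr rfl fun o ho => ?_)) key
  rw [(mem_filter.mp ho).2]

/-- **`(q, g, F, k) ↦ r`, the summand depends on the remainder** -/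
theorem sum_rW {ε : ℝ} (hε : 0 < ε) : ∃ C : ℝ, 1 ≤ C ∧ ∀ (Z : ℝ), 1 ≤ Z →
    ∀ {ι F : Type} (O : Finset ι) (q g Fe k : ι → Eis) (rm : ι → F) (Fs : Finset F)
      (f : F → Eis → ℝ) (A : F → Finset Eis), (∀ ρ j, 0 ≤ f ρ j) →
      (∀ ρ j, f ρ j ≠ 0 → j ∈ A ρ ∧ (nm j : ℝ) ≤ Z) → (∀ o ∈ O, rm o ∈ Fs) →
      (∀ o ∈ O, IsPrim (q o) ∧ IsPrim (g o) ∧ IsPrim (Fe o) ∧ k o ≠ 0) →
      (∀ o ∈ O, ∀ o' ∈ O, rm o = rm o' → q o = q o' → g o = g o' → Fe o = Fe o' →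
        k o = k o' → o = o') →
      ∑ o ∈ O, f (rm o) (rr (q o) (g o) (Fe o) (k o)) ≤
        C * Z ^ ε * ∑ ρ ∈ Fs, ∑ j ∈ A ρ, f ρ j := by
  obtain ⟨C, hC, h⟩ := sum_rI hε
  refine ⟨C, hC, ?_⟩
  intro Z hZ ι F O q g Fe k rm Fs f A hf hA hrm hp inj
  rw [sum_rm O rm Fs _ hrm, mul_sum]
  refine sum_le_sum fun ρ _ => ?_
  have key := h Z hZ (O.filter (fun o => rm o = ρ)) q g Fe k (fun _ => ()) {()} (f ρ) (A ρ)
    (hf ρ) (hA ρ) (fun _ _ => mem_singleton_self _) (fun o ho => hp o (mem_filter.mp ho).1)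
    (fun o ho o' ho' _ => inj o (mem_filter.mp ho).1 o' (mem_filter.mp ho').1
      ((mem_filter.mp ho).2.trans (mem_filter.mp ho').2.symm))
  rw [card_singleton, Nat.cast_one, mul_one] at key
  refine le_trans (le_of_eq (sum_congr rfl fun o ho => ?_)) key
  rw [(mem_filter.mp ho).2]

end Crest.Agent.R017.E3T829
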