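import Crest.Agent.R017.E3Tc_829
import Crest.Agent.R017.E3Te_829
import Crest.Agent.R017.E3Db_579

/-!
# Row 17, R8 (E3), part (T4): the T-half of the sum over the cells (helper829)

* `CS_cub3`, `norm_CS_cub` : the mode sums at `n γ³`

* `T_tail` : the sum over the cells of the moments of the coefficients at `μ γ³`
-/

set_option autoImplicit false
set_option linter.unusedVariables false

noncomputable section

open Finset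
open scoped Classical ComplexConjugate

namespace Crest.Agent.R017.E3T829

open Crest.Agent.R012 Crest.Agent.R012.Eis Crest.Agent.R012.Div277
open Crest.Agent.R012.LS2 (S mem_S bl mem_bl)
open Crest.Agent.R017.CM106 (CS FS)
open Crest.Agent.R017.PX764 (n6 Gh norm_sy_le')
open Crest.Agent.R017.E3A164 (Cs mem_Cs fq)
open Crest.Agent.R017.GrB829 (IsC)
open Crest.Agent.R017.E3D579 (bF bt b0 TE0 norm_CS_bF FS_b0 conj_TE0 CS_bF)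
open Gauss880 (syG)

/-- the part prime to `γ` -/
def cg (γ : Eis) (b : Eis → ℂ) (m : Eis) : ℂ := if IsCoprime m γ then b m else 0

lemma FS_cg (γ : Eis) {b : Eis → ℂ} (hb : FS b) : FS (cg γ b) where
  fin := hb.fin.subset fun m hm h0 => hm (by
    have h0' : b m = 0 := h0
    simp [cg, h0'])
  prim := fun m hm => hb.prim m (fun h => hm (by simp [cg, h]))

lemma cg_one (b : Eis → ℂ) : cg 1 b = b := by
  funext m
  unfold cg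
  rw [if_pos isCoprime_one_right]

lemma CS_cub3 {b : Eis → ℂ} (hb : FS b) {γ : Eis} (n : Eis) :
    CS b (n * γ ^ 3) = CS (cg γ b) n := by
  unfold CS cg
  refine tsum_congr fun m => ?_
  by_cases h : b m = 0
  · simp [h]
  · have hm := hb.prim m h
    split_ifs with hc
    · rw [PX764.sy_cube_left hm n hc.symm]
    · have h0 : sy (n * γ ^ 3) m = 0 := (syG.eq_zero _ m hm).mpr fun h =>
        hc ((IsCoprime.pow_left_iff (by norm_num)).mp h.of_mul_left_right).symm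
      rw [h0]; simp

lemma cg_b0 (γ : Eis) (a : Eis → ℂ) (d e f : Eis) : cg γ (b0 a d e f) = b0 (cg γ a) d e f := by
  funext m
  unfold cg b0
  by_cases h : IsCoprime m γ
  · simp only [if_pos h]
  · simp only [if_neg h]; simp

/-- the mode sum at `n γ³` -/
theorem norm_CS_cub {a : Eis → ℂ} (ha : FS a) {d κ F μ γ : Eis} (hκ : IsPrim κ) (hF : IsPrim F)
    (hμ : IsPrim μ) (hγ : IsPrim γ) (hcd : IsCoprime (F * (κ * μ)) d) (e f : Eis) :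
    ‖CS (bF κ F (b0 a d e f)) (μ * γ ^ 3)‖ ≤ ‖TE0 (cg γ a) d (f * (F * (κ * μ))) e‖ := by
  have h := conj_TE0 (FS_cg γ ha) (hF.mul (hκ.mul hμ)) e f (d := d)
  rw [if_pos hcd] at h
  have e1 : F * (κ * (μ * γ ^ 3)) = (F * (κ * μ)) * γ ^ 3 := by ring
  rw [CS_bF hκ (FS_b0 ha d e f), e1, CS_cub3 (FS_b0 ha d e f), cg_b0, ← h, norm_mul,
    RCLike.norm_conj]
  exact mul_le_of_le_one_left (norm_nonneg _) (norm_sy_le' hκ)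

/-- the variables of one side: `(d, e, q, c, g, a, D, F)` -/
abbrev UT : Type := Eis × Eis × Eis × Eis × Eis × Eis × Eis × Eis

/-- the admissible variables -/
structure OU (Z : ℝ) (u : UT) : Prop where
  d : IsPrim u.1
  q : IsPrim u.2.2.1
  c : IsC u.2.2.2.1
  g : IsPrim u.2.2.2.2.1
  a : IsPrim u.2.2.2.2.2.1
  D : IsPrim u.2.2.2.2.2.2.1
  F : IsPrim u.2.2.2.2.2.2.2
  nd : (nm u.1 : ℝ) ≤ Z
  nq : (nm u.2.2.1 : ℝ) ≤ Z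
  ng : (nm u.2.2.2.2.1 : ℝ) ≤ Z
  na : (nm u.2.2.2.2.2.1 : ℝ) ≤ Z
  nD : (nm u.2.2.2.2.2.2.1 : ℝ) ≤ Z

/-- the frequency -/
def ju (u : UT) (μ : Eis) : Eis :=
  jj u.2.2.1 u.2.2.2.1 u.2.2.2.2.1 u.2.2.2.2.2.1 u.2.2.2.2.2.2.1 u.2.2.2.2.2.2.2 μ

/-- the coefficient of the cell -/
def bu (af : Eis → Eis → Eis → ℂ) (u : UT) : Eis → ℂ :=
  bF (u.2.2.2.2.2.1 * u.2.2.2.2.2.2.1) u.2.2.2.2.2.2.2
    (b0 (af u.1 u.2.1) u.1 u.2.1 (u.2.2.1 * u.2.2.2.1 * u.2.2.2.2.1 ^ 2))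

/-- the condition on the variable `μ` of the cell -/
def Mu (u : UT) (μ : Eis) : Prop :=
  IsPrim μ ∧ IsCoprime (u.2.2.2.2.2.2.2 * (u.2.2.2.2.2.1 * u.2.2.2.2.2.2.1 * μ)) u.1

lemma norm_bu_le {af : Eis → Eis → Eis → ℂ} {Z : ℝ} {u : UT} (hu : OU Z u)
    (haf : FS (af u.1 u.2.1)) {μ γ : Eis} (hγ : IsPrim γ) (hμ : Mu u μ) :
    ‖CS (bu af u) (μ * γ ^ 3)‖ ≤ ‖TE0 (cg γ (af u.1 u.2.1)) u.1 (ju u μ) u.2.1‖ := by
  have h := norm_CS_cub haf (hu.a.mul hu.D) hu.F hμ.1 hγ hμ.2 u.2.1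
    (u.2.2.1 * u.2.2.2.1 * u.2.2.2.2.1 ^ 2)
  refine h.trans (le_of_eq ?_)
  have e : u.2.2.1 * u.2.2.2.1 * u.2.2.2.2.1 ^ 2 *
      (u.2.2.2.2.2.2.2 * (u.2.2.2.2.2.1 * u.2.2.2.2.2.2.1 * μ)) = ju u μ := by
    unfold ju jj fq
    ring
  rw [e]

/-- **the T-half of the sum over the cells** -/
theorem T_tail {ε : ℝ} (hε : 0 < ε) : ∃ C : ℝ, 0 ≤ C ∧ ∀ Z : ℝ, 1 ≤ Z →
    ∀ (EE : Finset Eis) {ι : Type} (O : Finset ι) (U : ι → UT) (V : ι → VT) (val : ι → ℝ) (P : Eis → Eis → ℝ)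
      (af : Eis → Eis → Eis → ℂ) (N : ι → Finset (Eis × Eis)) (om : Eis → ℝ) (Gs : Finset Eis)
      (A : Eis → Eis → Eis → Finset Eis),
      (∀ d e, 0 ≤ P d e) → (∀ γ, 0 ≤ om γ) → (∀ o ∈ O, OU Z (U o)) →
      (∀ o ∈ O, V o ∈ VS Z EE (U o).2.2.1 (U o).1 (U o).2.2.2.2.1 (U o).2.2.2.2.2.2.1) →
      (∀ o ∈ O, ∀ o' ∈ O, U o = U o' → V o = V o' → o = o') →
      (∀ o ∈ O, val o ≤ P (U o).1 (U o).2.1 *
        wV (U o).2.2.2.2.1 (U o).1 (U o).2.2.2.2.2.1 (V o)) →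
      (∀ o ∈ O, FS (af (U o).1 (U o).2.1)) →
      (∀ o ∈ O, ∀ x ∈ N o, Mu (U o) x.1 ∧ IsPrim x.2 ∧ x.2 ∈ Gs ∧
        (nm (ju (U o) x.1) : ℝ) ≤ Z ∧ ju (U o) x.1 ∈ A (U o).1 (U o).2.1 x.2) →
      ∑ o ∈ O, val o * ∑ x ∈ N o, om x.2 * ‖CS (bu af (U o)) (x.1 * x.2 ^ 3)‖ ^ 2 ≤
        C * Z ^ ε * hE EE * ∑ ρ ∈ O.image (fun o => ((U o).1, (U o).2.1)), P ρ.1 ρ.2 *
          ∑ γ ∈ Gs, om γ * ∑ j ∈ A ρ.1 ρ.2 γ, ‖TE0 (cg γ (af ρ.1 ρ.2)) ρ.1 j ρ.2‖ ^ 2 := by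
  obtain ⟨C1, hC1, h1⟩ := sum_VI (ε := ε / 2) (by positivity)
  obtain ⟨C2, hC2, h2⟩ := sum_jW (ε := ε / 2) (by positivity)
  refine ⟨C1 * C2, by positivity, ?_⟩
  intro Z hZ EE ι O U V val P af N om Gs A hP hom hU hV inj hval haf hN
  have hZ0 : 0 < Z := by linarith
  -- the set of the variables `(μ, γ)` of a cell
  set Nn : UT → Finset (Eis × Eis) := fun u => (primBall ⌊Z⌋₊ ×ˢ Gs).filter
    (fun x => Mu u x.1 ∧ IsPrim x.2 ∧ (nm (ju u x.1) : ℝ) ≤ Z ∧ ju u x.1 ∈ A u.1 u.2.1 x.2)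
    with hNn
  set f : Eis → Eis → Eis → Eis → ℝ := fun d e γ j =>
    if j ∈ A d e γ ∧ (nm j : ℝ) ≤ Z then ‖TE0 (cg γ (af d e)) d j e‖ ^ 2 else 0 with hf
  have hf0 : ∀ d e γ j, 0 ≤ f d e γ j := by
    intro d e γ j
    simp only [hf]
    split_ifs <;> positivity
  set G : UT → ℝ := fun u => P u.1 u.2.1 * ∑ x ∈ Nn u, om x.2 * f u.1 u.2.1 x.2 (ju u x.1) with hG
  have hG0 : ∀ u, 0 ≤ G u := fun u => mul_nonneg (hP _ _) (sum_nonneg fun x _ =>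
    mul_nonneg (hom _) (hf0 _ _ _ _))
  have hle : ∀ u : UT, OU Z u → ∀ μ, IsPrim μ → nm μ ≤ nm (ju u μ) := by
    intro u hu μ hμ
    have e : ju u μ = (u.2.2.1 * u.2.2.2.1 * (u.2.2.2.2.2.1 * u.2.2.2.2.2.2.1 * u.2.2.2.2.2.2.2) *
        u.2.2.2.2.1 ^ 2) * μ := by
      unfold ju jj fq; ring
    rw [e, nm_mul]
    refine Nat.le_mul_of_pos_left _ (nm_pos.mpr ?_)
    exact mul_ne_zero (mul_ne_zero (mul_ne_zero hu.q.ne_zero hu.c.lamish.1)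
      ((hu.a.mul hu.D).mul hu.F).ne_zero) (hu.g.pow 2).ne_zero
  -- step 1
  have s1 : ∑ o ∈ O, val o * ∑ x ∈ N o, om x.2 * ‖CS (bu af (U o)) (x.1 * x.2 ^ 3)‖ ^ 2 ≤
      ∑ o ∈ O, wV (U o).2.2.2.2.1 (U o).1 (U o).2.2.2.2.2.1 (V o) * G (U o) := by
    refine sum_le_sum fun o ho => ?_
    have a1 : ∑ x ∈ N o, om x.2 * ‖CS (bu af (U o)) (x.1 * x.2 ^ 3)‖ ^ 2 ≤
        ∑ x ∈ Nn (U o), om x.2 * f (U o).1 (U o).2.1 x.2 (ju (U o) x.1) := by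
      have a2 : N o ⊆ Nn (U o) := by
        intro x hx
        obtain ⟨b1, b2, b3, b4, b5⟩ := hN o ho x hx
        simp only [hNn, mem_filter, mem_product, mem_primBall]
        refine ⟨⟨⟨Nat.le_floor ?_, b1.1⟩, b3⟩, b1, b2, b4, b5⟩
        have := hle (U o) (hU o ho) x.1 b1.1
        calc (nm x.1 : ℝ) ≤ nm (ju (U o) x.1) := by exact_mod_cast this
          _ ≤ Z := b4
      refine le_trans (sum_le_sum fun x hx => ?_) (sum_le_sum_of_subset_of_nonneg a2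
        fun x _ _ => mul_nonneg (hom _) (hf0 _ _ _ _))
      obtain ⟨b1, b2, b3, b4, b5⟩ := hN o ho x hx
      refine mul_le_mul_of_nonneg_left ?_ (hom _)
      simp only [hf]
      rw [if_pos ⟨b5, b4⟩]
      exact pow_le_pow_left₀ (norm_nonneg _) (norm_bu_le (hU o ho) (haf o ho) b2 b1) 2
    have a3 : 0 ≤ ∑ x ∈ N o, om x.2 * ‖CS (bu af (U o)) (x.1 * x.2 ^ 3)‖ ^ 2 :=
      sum_nonneg fun x _ => mul_nonneg (hom _) (by positivity)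
    have a4 : 0 ≤ P (U o).1 (U o).2.1 * wV (U o).2.2.2.2.1 (U o).1 (U o).2.2.2.2.2.1 (V o) :=
      mul_nonneg (hP _ _) (wV_nonneg _ _ _ _)
    calc val o * ∑ x ∈ N o, om x.2 * ‖CS (bu af (U o)) (x.1 * x.2 ^ 3)‖ ^ 2
        ≤ (P (U o).1 (U o).2.1 * wV (U o).2.2.2.2.1 (U o).1 (U o).2.2.2.2.2.1 (V o)) *
          ∑ x ∈ Nn (U o), om x.2 * f (U o).1 (U o).2.1 x.2 (ju (U o) x.1) :=
        mul_le_mul (hval o ho) a1 a3 a4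
      _ = _ := by simp only [hG]; ring
  -- step 2
  have s2 := h1 Z hZ EE O U (fun u => u.2.2.1) (fun u => u.1) (fun u => u.2.2.2.2.1)
    (fun u => u.2.2.2.2.2.1) (fun u => u.2.2.2.2.2.2.1) G V hG0
    (fun o ho => ⟨(hU o ho).q.ne_zero, (hU o ho).d.ne_zero, (hU o ho).g.ne_zero,
      (hU o ho).a.ne_zero, (hU o ho).D.ne_zero⟩)
    (fun o ho => ⟨(hU o ho).nq, (hU o ho).nd, (hU o ho).ng, (hU o ho).na, (hU o ho).nD⟩) hV inj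
  obtain ⟨OI, hOI⟩ : ∃ OI : Finset UT, OI = O.image U := ⟨_, rfl⟩
  have s2' : ∑ o ∈ O, wV (U o).2.2.2.2.1 (U o).1 (U o).2.2.2.2.2.1 (V o) * G (U o) ≤
      C1 * Z ^ (ε / 2) * hE EE * ∑ u ∈ OI, G u := by
    rw [hOI]
    convert s2
  refine s1.trans (s2'.trans ?_)
  -- step 3
  set R := O.image (fun o => ((U o).1, (U o).2.1)) with hR
  set I : Finset (UT × Eis × Eis) := (OI.sigma (fun u => Nn u)).image
    (fun z => (z.1, z.2.1, z.2.2)) with hI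
  have e1 : ∑ u ∈ OI, G u = ∑ z ∈ I, P z.1.1 z.1.2.1 *
      (om z.2.2 * f z.1.1 z.1.2.1 z.2.2 (ju z.1 z.2.1)) := by
    rw [hI, sum_image, sum_sigma]
    · refine sum_congr rfl fun u _ => ?_
      simp only [hG]
      rw [mul_sum]
    · rintro ⟨u, x⟩ _ ⟨u', x'⟩ _ h
      simp only [Prod.mk.injEq] at h
      obtain ⟨h1, h2, h3⟩ := h
      subst h1
      have : x = x' := Prod.ext h2 h3
      rw [this]
  have hmem : ∀ z ∈ I, (∃ o ∈ O, U o = z.1) ∧ z.2 ∈ Nn z.1 := by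
    intro z hz
    rw [hI, mem_image] at hz
    obtain ⟨⟨u, x⟩, hs, rfl⟩ := hz
    rw [mem_sigma] at hs
    rw [hOI, mem_image] at hs
    obtain ⟨o, ho, hu⟩ := hs.1
    exact ⟨⟨o, ho, hu⟩, hs.2⟩
  have s3 := h2 Z hZ I (fun z => z.1.2.2.1) (fun z => z.1.2.2.2.1) (fun z => z.1.2.2.2.2.1)
    (fun z => z.1.2.2.2.2.2.1) (fun z => z.1.2.2.2.2.2.2.1) (fun z => z.1.2.2.2.2.2.2.2)
    (fun z => z.2.1) (fun z => ((z.1.1, z.1.2.1), z.2.2)) (R ×ˢ Gs)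
    (fun ρ j => P ρ.1.1 ρ.1.2 * (om ρ.2 * f ρ.1.1 ρ.1.2 ρ.2 j)) (fun ρ => A ρ.1.1 ρ.1.2 ρ.2)
    (fun ρ j => mul_nonneg (hP _ _) (mul_nonneg (hom _) (hf0 _ _ _ _)))
    (fun ρ j h => by
      have h0 : f ρ.1.1 ρ.1.2 ρ.2 j ≠ 0 := right_ne_zero_of_mul (right_ne_zero_of_mul h)
      simp only [hf] at h0
      by_contra hcon
      exact h0 (if_neg hcon))
    (fun z hz => by
      obtain ⟨⟨o, ho, hu⟩, hx⟩ := hmem z hz
      simp only [hNn, mem_filter, mem_product] at hx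
      rw [mem_product, hR]
      refine ⟨mem_image.mpr ⟨o, ho, by rw [hu]⟩, hx.1.2⟩)
    (fun z hz => by
      obtain ⟨⟨o, ho, hu⟩, hx⟩ := hmem z hz
      have hO := hU o ho
      rw [hu] at hO
      simp only [hNn, mem_filter, mem_product] at hx
      exact ⟨hO.q, hO.c, hO.g, hO.a, hO.D, hO.F, hx.2.1.1⟩)
    (fun z _ z' _ h0 h1 h2 h3 h4 h5 h6 h7 => by
      simp only [Prod.mk.injEq] at h0
      obtain ⟨⟨h8, h9⟩, h10⟩ := h0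
      exact Prod.ext (Prod.ext h8 (Prod.ext h9 (Prod.ext h1 (Prod.ext h2 (Prod.ext h3
        (Prod.ext h4 (Prod.ext h5 h6))))))) (Prod.ext h7 h10))
  have e2 : ∑ z ∈ I, P z.1.1 z.1.2.1 * (om z.2.2 * f z.1.1 z.1.2.1 z.2.2 (ju z.1 z.2.1)) ≤
      C2 * Z ^ (ε / 2) * ∑ ρ ∈ R ×ˢ Gs, ∑ j ∈ A ρ.1.1 ρ.1.2 ρ.2,
        P ρ.1.1 ρ.1.2 * (om ρ.2 * f ρ.1.1 ρ.1.2 ρ.2 j) := s3
  have e3 : ∑ ρ ∈ R ×ˢ Gs, ∑ j ∈ A ρ.1.1 ρ.1.2 ρ.2,
        P ρ.1.1 ρ.1.2 * (om ρ.2 * f ρ.1.1 ρ.1.2 ρ.2 j) ≤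
      ∑ ρ ∈ R, P ρ.1 ρ.2 *
          ∑ γ ∈ Gs, om γ * ∑ j ∈ A ρ.1 ρ.2 γ, ‖TE0 (cg γ (af ρ.1 ρ.2)) ρ.1 j ρ.2‖ ^ 2 := by
    rw [sum_product]
    refine sum_le_sum fun ρ _ => ?_
    rw [mul_sum]
    refine sum_le_sum fun γ _ => ?_
    rw [mul_sum, mul_sum]
    refine sum_le_sum fun j _ => ?_
    refine mul_le_mul_of_nonneg_left (mul_le_mul_of_nonneg_left ?_ (hom _)) (hP _ _)
    simp only [hf]
    split_ifs
    · exact le_rfl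
    · positivity
  rw [e1]
  have hp : 0 ≤ C1 * Z ^ (ε / 2) * hE EE := mul_nonneg (by positivity) (hE_nonneg EE)
  have hE0 := hE_nonneg EE
  have hZZ : Z ^ (ε / 2) * Z ^ (ε / 2) = Z ^ ε := by
    rw [← Real.rpow_add hZ0]; congr 1; ring
  have hp2 : 0 ≤ C2 * Z ^ (ε / 2) := by positivity
  calc C1 * Z ^ (ε / 2) * hE EE * ∑ z ∈ I, P z.1.1 z.1.2.1 *
        (om z.2.2 * f z.1.1 z.1.2.1 z.2.2 (ju z.1 z.2.1))
      ≤ C1 * Z ^ (ε / 2) * hE EE * (C2 * Z ^ (ε / 2) * ∑ ρ ∈ R, P ρ.1 ρ.2 *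
          ∑ γ ∈ Gs, om γ * ∑ j ∈ A ρ.1 ρ.2 γ, ‖TE0 (cg γ (af ρ.1 ρ.2)) ρ.1 j ρ.2‖ ^ 2) :=
        mul_le_mul_of_nonneg_left (e2.trans (mul_le_mul_of_nonneg_left e3 hp2)) hp
    _ = C1 * C2 * (Z ^ (ε / 2) * Z ^ (ε / 2)) * hE EE * ∑ ρ ∈ R, P ρ.1 ρ.2 *
          ∑ γ ∈ Gs, om γ * ∑ j ∈ A ρ.1 ρ.2 γ, ‖TE0 (cg γ (af ρ.1 ρ.2)) ρ.1 j ρ.2‖ ^ 2 := by ring
    _ = _ := by rw [hZZ]

end Crest.Agent.R017.E3T829
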