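import Crest.Agent.R017.E3Tf_829
import Crest.Agent.R017.E3Td_829

/-!
# Row 17, R8 (E3), part (T4): the R-half of the sum over the cells, counted cell by cell (helper829)

`R_count` : `Σ_o val_o W₀(d, e) ≤ C Z^ε Σ_{(d,e)} P W₀ √L(d)` if `N(a D)² N(q g F)³ ≤ L(d)` for all
the cells.
-/

set_option autoImplicit false
set_option linter.unusedVariables false

noncomputable section

open Finset
open scoped Classical ComplexConjugate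

namespace Crest.Agent.R017.E3T829

open Crest.Agent.R012 Crest.Agent.R012.Eis Crest.Agent.R012.Div277
open Crest.Agent.R012.LS2 (S mem_S bl mem_bl)
open Crest.Agent.R017.E3A164 (Cs mem_Cs fq)
open Crest.Agent.R017.GrB829 (IsC)
open Crest.Agent.R017.DgB829 (HS HS_nonneg HS_le)

/-- squarefreeness of the variables of the cell -/
structure SU (Z : ℝ) (u : UT) : Prop where
  q : u.2.2.1 ∈ S Z
  g : u.2.2.2.2.1 ∈ S Z
  a : u.2.2.2.2.2.1 ∈ S Z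
  D : u.2.2.2.2.2.2.1 ∈ S Z
  F : u.2.2.2.2.2.2.2 ∈ S Z

/-- **the number of the cells of the structured part** -/
theorem count_U {Z : ℝ} (hZ : 0 ≤ Z) (Us : Finset UT) (L : Eis → ℝ) (G : Eis → Eis → ℝ)
    (hL : ∀ d, 0 ≤ L d) (hG : ∀ d e, 0 ≤ G d e) (hs : ∀ u ∈ Us, SU Z u)
    (hc : ∀ u ∈ Us, IsC u.2.2.2.1)
    (hLt : ∀ u ∈ Us, (nm (u.2.2.2.2.2.1 * u.2.2.2.2.2.2.1) : ℝ) ^ 2 *
      (nm (u.2.2.1 * u.2.2.2.2.1 * u.2.2.2.2.2.2.2) : ℝ) ^ 3 ≤ L u.1) :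
    ∑ u ∈ Us, G u.1 u.2.1 ≤ 64 * HS Z ^ 4 *
      ∑ ρ ∈ Us.image (fun u => (u.1, u.2.1)), G ρ.1 ρ.2 * Real.sqrt (L ρ.1) := by
  rw [← sum_fiberwise_of_maps_to (s := Us) (t := Us.image (fun u => (u.1, u.2.1)))
    (g := fun u => (u.1, u.2.1)) (fun u hu => mem_image_of_mem _ hu), mul_sum]
  refine sum_le_sum fun ρ _ => ?_
  have e1 : ∑ u ∈ Us.filter (fun u => (u.1, u.2.1) = ρ), G u.1 u.2.1 =
      ((Us.filter (fun u => (u.1, u.2.1) = ρ)).card : ℝ) * G ρ.1 ρ.2 := by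
    rw [sum_congr rfl (fun u hu => ?_), sum_const, nsmul_eq_mul]
    have h := (mem_filter.mp hu).2
    rw [← h]
  rw [e1]
  -- the set of the tuples
  set T : Finset (Eis × Eis × Eis × Eis × Eis × Eis) :=
    Cs ×ˢ ((S Z ×ˢ S Z ×ˢ S Z ×ˢ S Z ×ˢ S Z).filter (fun v =>
      (nm (v.2.2.2.1 * v.2.2.2.2) : ℝ) ^ 2 * (nm (v.1 * v.2.1 * v.2.2.1) : ℝ) ^ 3 ≤ L ρ.1)) with hT
  have h1 : (Us.filter (fun u => (u.1, u.2.1) = ρ)).card ≤ T.card := by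
    refine card_le_card_of_injOn (fun u => (u.2.2.2.1, u.2.2.1, u.2.2.2.2.1, u.2.2.2.2.2.2.2,
      u.2.2.2.2.2.1, u.2.2.2.2.2.2.1)) ?_ ?_
    · intro u hu
      obtain ⟨hu1, hu2⟩ := mem_filter.mp hu
      have hS := hs u hu1
      have hL' := hLt u hu1
      have e : ρ.1 = u.1 := by rw [← hu2]
      simp only [hT, mem_coe, mem_product, mem_filter, mem_Cs, e]
      exact ⟨hc u hu1, ⟨hS.q, hS.g, hS.F, hS.a, hS.D⟩, hL'⟩
    · intro u hu u' hu' h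
      obtain ⟨hu1, hu2⟩ := mem_filter.mp hu
      obtain ⟨hu1', hu2'⟩ := mem_filter.mp hu'
      have h2 := hu2.trans hu2'.symm
      simp only [Prod.mk.injEq] at h h2
      obtain ⟨a1, a2, a3, a4, a5, a6⟩ := h
      exact Prod.ext h2.1 (Prod.ext h2.2 (Prod.ext a2 (Prod.ext a1 (Prod.ext a3
        (Prod.ext a5 (Prod.ext a6 a4))))))
  have h2 : (T.card : ℝ) ≤ 4 * (16 * Real.sqrt (L ρ.1) * HS Z ^ 4) := by
    rw [hT, card_product]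
    push_cast
    have c1 : (Cs.card : ℝ) ≤ 4 := by exact_mod_cast card_Cs
    have c2 := count_cells (Z := Z) hZ (hL ρ.1)
    have c3 : (((S Z ×ˢ S Z ×ˢ S Z ×ˢ S Z ×ˢ S Z).filter (fun v =>
      (nm (v.2.2.2.1 * v.2.2.2.2) : ℝ) ^ 2 * (nm (v.1 * v.2.1 * v.2.2.1) : ℝ) ^ 3 ≤
        L ρ.1)).card : ℝ) = ∑ q ∈ S Z, ∑ g ∈ S Z, ∑ F ∈ S Z, ∑ a ∈ S Z, ∑ D ∈ S Z,
      (if (nm (a * D) : ℝ) ^ 2 * (nm (q * g * F) : ℝ) ^ 3 ≤ L ρ.1 then (1 : ℝ) else 0) := by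
      rw [card_eq_sum_ones, sum_filter]
      push_cast
      simp only [sum_product]
    rw [c3]
    exact mul_le_mul c1 c2 (sum_nonneg fun _ _ => sum_nonneg fun _ _ => sum_nonneg fun _ _ =>
      sum_nonneg fun _ _ => sum_nonneg fun _ _ => by split_ifs <;> norm_num) (by norm_num)
  have h3 : ((Us.filter (fun u => (u.1, u.2.1) = ρ)).card : ℝ) ≤
      4 * (16 * Real.sqrt (L ρ.1) * HS Z ^ 4) := le_trans (by exact_mod_cast h1) h2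
  refine (mul_le_mul_of_nonneg_right h3 (hG _ _)).trans (le_of_eq ?_)
  ring

/-- **the R-half of the sum over the cells, cell by cell** -/
theorem R_count {ε : ℝ} (hε : 0 < ε) : ∃ C : ℝ, 0 ≤ C ∧ ∀ Z : ℝ, 1 ≤ Z →
    ∀ (EE : Finset Eis) {ι : Type} (O : Finset ι) (U : ι → UT) (V : ι → VT) (val : ι → ℝ) (P W0 : Eis → Eis → ℝ)
      (L : Eis → ℝ),
      (∀ d e, 0 ≤ P d e) → (∀ d e, 0 ≤ W0 d e) → (∀ d, 0 ≤ L d) → (∀ o ∈ O, OU Z (U o)) →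
      (∀ o ∈ O, SU Z (U o)) →
      (∀ o ∈ O, V o ∈ VS Z EE (U o).2.2.1 (U o).1 (U o).2.2.2.2.1 (U o).2.2.2.2.2.2.1) →
      (∀ o ∈ O, ∀ o' ∈ O, U o = U o' → V o = V o' → o = o') →
      (∀ o ∈ O, val o ≤ P (U o).1 (U o).2.1 *
        wV (U o).2.2.2.2.1 (U o).1 (U o).2.2.2.2.2.1 (V o)) →
      (∀ o ∈ O, (nm ((U o).2.2.2.2.2.1 * (U o).2.2.2.2.2.2.1) : ℝ) ^ 2 *
        (nm ((U o).2.2.1 * (U o).2.2.2.2.1 * (U o).2.2.2.2.2.2.2) : ℝ) ^ 3 ≤ L (U o).1) →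
      ∑ o ∈ O, val o * W0 (U o).1 (U o).2.1 ≤
        C * Z ^ ε * hE EE * ∑ ρ ∈ O.image (fun o => ((U o).1, (U o).2.1)),
          P ρ.1 ρ.2 * W0 ρ.1 ρ.2 * Real.sqrt (L ρ.1) := by
  obtain ⟨C1, hC1, h1⟩ := sum_VI (ε := ε / 2) (by positivity)
  set η := ε / 8 with hη
  have hη0 : 0 < η := by positivity
  refine ⟨C1 * (64 * (200 * (1 + 1 / η)) ^ 4), by positivity, ?_⟩
  intro Z hZ EE ι O U V val P W0 L hP hW hL hU hS hV inj hval hLt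
  have hZ0 : 0 < Z := by linarith
  set G : UT → ℝ := fun u => P u.1 u.2.1 * W0 u.1 u.2.1 with hG
  have hG0 : ∀ u, 0 ≤ G u := fun u => mul_nonneg (hP _ _) (hW _ _)
  have s1 : ∑ o ∈ O, val o * W0 (U o).1 (U o).2.1 ≤
      ∑ o ∈ O, wV (U o).2.2.2.2.1 (U o).1 (U o).2.2.2.2.2.1 (V o) * G (U o) := by
    refine sum_le_sum fun o ho => ?_
    refine (mul_le_mul_of_nonneg_right (hval o ho) (hW _ _)).trans (le_of_eq ?_)
    simp only [hG]; ring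
  have s2 := h1 Z hZ EE O U (fun u => u.2.2.1) (fun u => u.1) (fun u => u.2.2.2.2.1)
    (fun u => u.2.2.2.2.2.1) (fun u => u.2.2.2.2.2.2.1) G V hG0
    (fun o ho => ⟨(hU o ho).q.ne_zero, (hU o ho).d.ne_zero, (hU o ho).g.ne_zero,
      (hU o ho).a.ne_zero, (hU o ho).D.ne_zero⟩)
    (fun o ho => ⟨(hU o ho).nq, (hU o ho).nd, (hU o ho).ng, (hU o ho).na, (hU o ho).nD⟩) hV inj
  obtain ⟨OI, hOI⟩ : ∃ OI : Finset UT, OI = O.image U := ⟨_, rfl⟩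
  have s2' : ∑ o ∈ O, wV (U o).2.2.2.2.1 (U o).1 (U o).2.2.2.2.2.1 (V o) * G (U o) ≤
      C1 * Z ^ (ε / 2) * hE EE * ∑ u ∈ OI, G u := by
    rw [hOI]
    convert s2
  have hm : ∀ u ∈ OI, ∃ o ∈ O, U o = u := by
    intro u hu
    rw [hOI, mem_image] at hu
    exact hu
  have s3 := count_U (Z := Z) hZ0.le OI L (fun d e => P d e * W0 d e) hL
    (fun d e => mul_nonneg (hP _ _) (hW _ _))
    (fun u hu => by obtain ⟨o, ho, rfl⟩ := hm u hu; exact hS o ho)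
    (fun u hu => by obtain ⟨o, ho, rfl⟩ := hm u hu; exact (hU o ho).c)
    (fun u hu => by obtain ⟨o, ho, rfl⟩ := hm u hu; exact hLt o ho)
  have e1 : OI.image (fun u => (u.1, u.2.1)) = O.image (fun o => ((U o).1, (U o).2.1)) := by
    rw [hOI]
    ext ρ
    simp only [mem_image]
    constructor
    · rintro ⟨u, ⟨o, ho, rfl⟩, rfl⟩; exact ⟨o, ho, rfl⟩
    · rintro ⟨o, ho, rfl⟩; exact ⟨U o, ⟨o, ho, rfl⟩, rfl⟩
  rw [e1] at s3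
  set X := ∑ ρ ∈ O.image (fun o => ((U o).1, (U o).2.1)),
    P ρ.1 ρ.2 * W0 ρ.1 ρ.2 * Real.sqrt (L ρ.1) with hX
  have hX0 : 0 ≤ X := sum_nonneg fun ρ _ =>
    mul_nonneg (mul_nonneg (hP _ _) (hW _ _)) (Real.sqrt_nonneg _)
  have hH : HS Z ^ 4 ≤ (200 * (1 + 1 / η)) ^ 4 * Z ^ (ε / 2) := by
    have h3 := HS_le hZ
    have h4 := E3M829.log_Z hη0 hZ
    have h5 : HS Z ≤ 200 * (1 + 1 / η) * Z ^ η := by nlinarith
    have h6 := pow_le_pow_left₀ (HS_nonneg Z) h5 4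
    refine h6.trans (le_of_eq ?_)
    rw [mul_pow]
    congr 1
    rw [← Real.rpow_natCast, ← Real.rpow_mul hZ0.le]
    congr 1
    rw [hη]; push_cast; ring
  have hZZ : Z ^ (ε / 2) * Z ^ (ε / 2) = Z ^ ε := by
    rw [← Real.rpow_add hZ0]; congr 1; ring
  have hp : 0 ≤ C1 * Z ^ (ε / 2) * hE EE := mul_nonneg (by positivity) (hE_nonneg EE)
  have hE0 := hE_nonneg EE
  calc ∑ o ∈ O, val o * W0 (U o).1 (U o).2.1 ≤ C1 * Z ^ (ε / 2) * hE EE * ∑ u ∈ OI, G u := s1.trans s2'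
    _ ≤ C1 * Z ^ (ε / 2) * hE EE * (64 * HS Z ^ 4 * X) := mul_le_mul_of_nonneg_left s3 hp
    _ ≤ C1 * Z ^ (ε / 2) * hE EE * (64 * ((200 * (1 + 1 / η)) ^ 4 * Z ^ (ε / 2)) * X) := by gcongr
    _ = C1 * (64 * (200 * (1 + 1 / η)) ^ 4) * (Z ^ (ε / 2) * Z ^ (ε / 2)) * hE EE * X := by ring
    _ = _ := by rw [hZZ]

end Crest.Agent.R017.E3T829
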