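import Crest.Agent.R017.E3Tc_744

/-!
# Row 17, exceptional class, E3 (helper744): the frames of the T-lines, single lists

* `TBs` : `Tf`, `Bf` (with `s0 = 0`) of a child of `Dom8X c β Par (SinL β)`
-/

set_option autoImplicit false
set_option linter.unusedVariables false

noncomputable section

open Finset
open scoped Classical

namespace Crest.Agent.R017.E3Nx744

open Crest.Agent.R012 Crest.Agent.R012.Eis Crest.Agent.R012.MC
open Crest.Agent.R012.LS2 (S mem_S)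
open Crest.Agent.R017.C70
open Crest.Agent.R017.OT551
open Crest.Agent.R017.B770
open Crest.Agent.R017.FE47 (PU cx)
open Crest.Agent.R017.Prov71
open Crest.Agent.R017.ER911
open Crest.Agent.R017.I1146 hiding cN
open Crest.Agent.R017.XG702 (Pcs)
open Crest.Agent.R017.XT71 (Sys Win mx)
open Crest.Agent.R017.E5B71 Crest.Agent.R017.E5P571 Crest.Agent.R017.E5L770
open Crest.Agent.R017.ExBox960 Crest.Agent.R017.ExP960
open Crest.Agent.R017.Sf770
open Crest.Agent.R017.P1l54 (ParOK)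
open Crest.Agent.R017.P1X960
open Crest.Agent.R017.Sup271 (NPm)
open Crest.Agent.R017.PX764 (Dk)
open Crest.Agent.R017.TM708 (PD R5)
open Crest.Agent.R017.P10X764
open Crest.Agent.R017.E3Kc548 (LI afT)
open Crest.Agent.R017.E3Z548 (LVn)
open Crest.Agent.R017.E3N146 (ShT Tf Bf)
open Crest.Agent.R017.TNj90 (JBc)
open Crest.Agent.R017.RnP571 (Dh)
open Crest.Agent.R017.FrX579

set_option maxHeartbeats 1600000 in
/-- the frames of the T-lines, single lists -/
lemma TBs {κ N x y₃ y₄ u D v₀ v₁ v₂ x' b c β L t₀ vt n : ℝ} (hL : 0 < L)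
    (hκ0 : 8 / 9 ≤ κ) (hκ1 : κ ≤ 1) (ht₀ : 0 ≤ t₀) (ht₀' : t₀ ≤ 1 / 1000000)
    (hN : N = y₃ + y₄ + u) (hD : Dh κ y₃ y₄ u x D) (hc : 4 * (c * κ) ≤ D) (hc0 : 0 ≤ c)
    (hβ : 17 / 100 ≤ β) (hlost : β * κ ≤ N - (v₀ + v₁ + v₂)) (hx0' : 0 ≤ x') (hx' : x' ≤ x)
    (hs2 : N - (v₀ + v₁ + v₂) ≤ b + (x - x')) (hs1 : b ≤ N - (v₀ + v₁ + v₂)) (hb : 0 ≤ b)
    (htop : vt ≤ min (min (2 * N - κ) (3 / 4 * N) + 11 / 5 * x)
      (min (2 * N - κ) (3 / 4 * N) + 11 / 5 * x + 2 * (c * κ) - 2 * b) * L + 2 * (t₀ * L))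
    (hn : |n - (v₀ + v₁ + v₂ + x') * L| ≤ t₀ * L)
    (hn0 : (κ / 2 - 2 * x) * L - t₀ * L ≤ n) (hn1 : n ≤ (N + x) * L + t₀ * L) :
    Tf (κ * L) (N * L) (x * L) (max 0 (5 / 4 * (N * L) - κ * L)) vt n (40 * (t₀ * L)) ∧
    Bf (κ * L) (N * L) (x * L) (max 0 (5 / 4 * (N * L) - κ * L)) vt n 0 (D * L)
      ((N - (v₀ + v₁ + v₂)) * L) ((x - x') * L) (40 * (t₀ * L)) := by
  obtain ⟨k0, u4, y43, u0, y3, N1, near, x0, adm, d0, d1⟩ := hD
  rw [← hN] at N1 adm
  have htL : 0 ≤ t₀ * L := by positivity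
  obtain ⟨n1, n2⟩ := abs_le.1 hn
  have t1 : 40 * (t₀ * L) ≤ κ * L / 20000 := by
    have h1 := mul_le_mul_of_nonneg_right ht₀' hL.le
    have h2 := mul_le_mul_of_nonneg_right hκ0 hL.le
    linarith
  have hβκ : 17 / 100 * κ ≤ β * κ := mul_le_mul_of_nonneg_right hβ k0.le
  have hm : 0 ≤ N - (v₀ + v₁ + v₂) := by linarith
  have hadm : (x * L ≤ κ * L / 320 ∧ (x * L = 0 ∨ N * L + x * L ≤ 4 / 5 * (κ * L))) ∨
      (3 / 4 * (κ * L) ≤ N * L ∧ x * L ≤ κ * L / 36 ∧
        x * L + 7 / 10 * (N * L) ≤ 199 / 360 * (κ * L)) := by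
    rcases adm with ⟨a0, a1⟩ | ⟨a1, a2, a3⟩
    · left
      have b0 : x ≤ κ / 320 := by linarith
      have b1 := mul_le_mul_of_nonneg_right b0 hL.le
      refine ⟨by linarith, ?_⟩
      rcases a1 with a1 | a1
      · left; rw [a1, zero_mul]
      · right
        have b2 := mul_le_mul_of_nonneg_right a1 hL.le
        linarith
    · right
      have b0 : x ≤ κ / 36 := by linarith
      have b1 := mul_le_mul_of_nonneg_right b0 hL.le
      have b2 := mul_le_mul_of_nonneg_right a1 hL.le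
      have b3 := mul_le_mul_of_nonneg_right a3 hL.le
      exact ⟨by linarith, by linarith, by linarith⟩
  have hex0 := le_max_left 0 (5 / 4 * (N * L) - κ * L)
  have hex1 := le_max_right 0 (5 / 4 * (N * L) - κ * L)
  set mm : ℝ := min (2 * N - κ) (3 / 4 * N) with hmm
  have hm1 : mm ≤ 2 * N - κ := min_le_left _ _
  have hm2 : mm ≤ 3 / 4 * N := min_le_right _ _
  have h1 := mul_le_mul_of_nonneg_right (min_le_left (mm + 11 / 5 * x)
    (mm + 11 / 5 * x + 2 * (c * κ) - 2 * b)) hL.le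
  have h2 := mul_le_mul_of_nonneg_right (min_le_right (mm + 11 / 5 * x)
    (mm + 11 / 5 * x + 2 * (c * κ) - 2 * b)) hL.le
  have h3 := mul_le_mul_of_nonneg_right hm1 hL.le
  have h4 := mul_le_mul_of_nonneg_right hm2 hL.le
  have h5 := mul_le_mul_of_nonneg_right hs2 hL.le
  have h6 := mul_le_mul_of_nonneg_right hc hL.le
  have x0L := mul_nonneg x0 hL.le
  have kL : 0 < κ * L := by positivity
  have NL := mul_le_mul_of_nonneg_right N1 hL.le
  have hmL := mul_nonneg hm hL.le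
  have hyL := mul_nonneg (sub_nonneg.2 hx') hL.le
  have hx0L := mul_nonneg hx0' hL.le
  have hdL := mul_le_mul_of_nonneg_right d1 hL.le
  have hsL := mul_le_mul_of_nonneg_right (hβκ.trans hlost) hL.le
  refine ⟨⟨kL, x0L, by linarith, hadm, hex0, hex1, by linarith, by linarith, by linarith,
    by linarith, by linarith, t1⟩, ⟨kL, x0L, by linarith, hadm, hex0, hex1, hmL, hyL, by linarith,
    by linarith, by linarith, by linarith, by linarith, by linarith, by linarith, by linarith,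
    by linarith, t1⟩⟩

end Crest.Agent.R017.E3Nx744
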