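import Crest.Agent.R017.E3Tc_744
import Crest.Agent.R017.E3Ff_61

/-!
# Row 17, exceptional class, E3 (helper744): helper61's inputs `TnU`, `TcU` at `S8X`
-/

set_option autoImplicit false
set_option linter.unusedVariables false

noncomputable section

open Finset
open scoped Classical

namespace Crest.Agent.R017.E3Nx744

open Crest.Agent.R012 Crest.Agent.R012.Eis
open Crest.Agent.R017.FE47 (PU cx)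
open Crest.Agent.R017.Prov71
open Crest.Agent.R017.B770
open Crest.Agent.R017.ER911
open Crest.Agent.R017.Sf770
open Crest.Agent.R017.I1146 hiding cN
open Crest.Agent.R017.E5B71 Crest.Agent.R017.E5P571 Crest.Agent.R017.E5L770
open Crest.Agent.R017.ExBox960 Crest.Agent.R017.ExP960
open Crest.Agent.R017.P1l54 (ParOK)
open Crest.Agent.R017.P1X960
open Crest.Agent.R017.Sup271 (NPm)
open Crest.Agent.R017.PX764 (Dk)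
open Crest.Agent.R017.TM708 (R5)
open Crest.Agent.R017.P10X764
open Crest.Agent.R017.RnP571 (Dh)
open Crest.Agent.R017.FrX579

variable {Λ : Type*}

/-- **helper61's `TnU`, class E** -/
theorem tnU_X {π : Λ → DPar} {h : ℝ → ℝ} {c₀ : ℝ} (hpu : PU h c₀) (hP : ∀ lam, (π lam).OK)
    (hex : ∀ lam, ¬ NPm (π lam).n (π lam).ψ (π lam).l₂ 1)
    {Rh : ℝ} (hRh0 : 0 ≤ Rh) (hRh : ∀ u, cx h u ≠ 0 → |u| ≤ Rh) {e0 : ℝ}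
    (he0 : 0 ≤ e0) (he0' : e0 ≤ 1 / 64) {c β : ℝ} (hc0 : 0 ≤ c) (hc1 : c ≤ 1)
    {Par : Set (Fin 3 ⊕ Fin 5 → ℝ)} (hPar : ∀ p ∈ Par, ParOK p)
    {D5 : Set (Fin 5 → ℝ)} {ℓ Kf Tf : (Fin 5 → ℝ) → ℝ}
    (hDN : ∀ p : IX5 → ℝ, prX p ∈ Par → ZR β p → bN p ∈ D5)
    (hDR : ∀ p : IX5 → ℝ, prX p ∈ Par → ZR β p → bR p ∈ D5)
    (hR5 : ∀ p : IX5 → ℝ, prX p ∈ Par → ZR β p → R5 (bN p))
    (hKN : ∀ p : IX5 → ℝ, prX p ∈ Par → ZR β p →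
      Kf (bN p) = max (cκ (prX p)) (5 / 4 * cN (prX p)))
    (hKR : ∀ p : IX5 → ℝ, prX p ∈ Par → ZR β p →
      Kf (bR p) = max (cκ (prX p)) (5 / 4 * cN (prX p)))
    (hTN : ∀ (p : IX5 → ℝ) (v₀ v₁ v₂ b x' : ℝ), ChC c β Par p v₀ v₁ v₂ b x' →
      DifL p v₀ v₁ v₂ → tpW c p b ≤ Tf (bN p))
    (hTR : ∀ (p : IX5 → ℝ) (v₀ v₁ v₂ b x' : ℝ), ChC c β Par p v₀ v₁ v₂ b x' →
      DifL p v₀ v₁ v₂ → tpW c p b ≤ Tf (bR p))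
    (hcb : CBA π h Dk Kf Tf D5 ℓ)
    {Dp : (Fin 3 ⊕ Fin 5 → ℝ) → ℝ}
    (hDh : ∀ p ∈ Par, Dh (cκ p) (cu p 2) (cu p 3) (cu p 4) (cx' p) (Dp p))
    (hcD : ∀ p ∈ Par, 4 * (c * cκ p) ≤ Dp p)
    (hβ : 17 / 100 ≤ β) (hβ' : β ≤ 1 / 5) {L0 : (Fin 3 ⊕ Fin 5 → ℝ) → ℝ}
    (hL0 : ∀ p : IX5 → ℝ, prX p ∈ Par → ZR β p →
      max 0 (5 / 4 * cN (prX p) - cκ (prX p)) + lmX ℓ Kf Tf p ≤ L0 (prX p)) :
    E3F61.TnU S8X (Dom8X c β Par DifL) ∅ (E8X L0) (fun a => a.1.l) (nw c) e0 22 (alX π h)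
      (fun lam a qs => okCX (π lam.1) lam.2 a qs ∧ okD a)
      (fun cc a qs i d _ => HX cc a (LN (clN a qs)) i d) := by
  intro ε hε
  obtain ⟨δ, hδ, H⟩ := tnX hpu hP hex hRh0 hRh he0 he0' hc0 hc1 hPar hDN hDR hR5 hKN hKR hTN hTR
    hcb hDh hcD hβ hβ' hL0 ε hε
  refine ⟨δ, hδ, fun lam N B cc hcc => ?_⟩
  obtain ⟨δ', hδ', X₀, hX₀, H⟩ := H lam N B cc hcc
  refine ⟨δ', hδ', X₀, hX₀, fun X hX a ps k1 k2 q k3 k4 k5 k6 k7 hok Yg => ?_⟩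
  exact H X hX a ps k1 k2 q k3 k4 k5 k6 (fun p hp hl => (k7 p hp hl).elim) hok Yg

/-- **helper61's `TcU`, class E** -/
theorem tcU_X {π : Λ → DPar} {h : ℝ → ℝ} {c₀ : ℝ} (hpu : PU h c₀) (hP : ∀ lam, (π lam).OK)
    (hex : ∀ lam, ¬ NPm (π lam).n (π lam).ψ (π lam).l₂ 1)
    {Rh : ℝ} (hRh0 : 0 ≤ Rh) (hRh : ∀ u, cx h u ≠ 0 → |u| ≤ Rh) {e0 : ℝ}
    (he0 : 0 ≤ e0) (he0' : e0 ≤ 1 / 64) {c β : ℝ} (hc0 : 0 ≤ c) (hc1 : c ≤ 1)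
    {Par : Set (Fin 3 ⊕ Fin 5 → ℝ)} (hPar : ∀ p ∈ Par, ParOK p)
    {D5 : Set (Fin 5 → ℝ)} {ℓ Kf Tf : (Fin 5 → ℝ) → ℝ}
    (hDN : ∀ p : IX5 → ℝ, prX p ∈ Par → ZR β p → bN p ∈ D5)
    (hDR : ∀ p : IX5 → ℝ, prX p ∈ Par → ZR β p → bR p ∈ D5)
    (hR5 : ∀ p : IX5 → ℝ, prX p ∈ Par → ZR β p → R5 (bN p))
    (hKN : ∀ p : IX5 → ℝ, prX p ∈ Par → ZR β p →
      Kf (bN p) = max (cκ (prX p)) (5 / 4 * cN (prX p)))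
    (hKR : ∀ p : IX5 → ℝ, prX p ∈ Par → ZR β p →
      Kf (bR p) = max (cκ (prX p)) (5 / 4 * cN (prX p)))
    (hTN : ∀ (p : IX5 → ℝ) (v₀ v₁ v₂ b x' : ℝ), ChC c β Par p v₀ v₁ v₂ b x' →
      DifL p v₀ v₁ v₂ → tpW c p b ≤ Tf (bN p))
    (hTR : ∀ (p : IX5 → ℝ) (v₀ v₁ v₂ b x' : ℝ), ChC c β Par p v₀ v₁ v₂ b x' →
      DifL p v₀ v₁ v₂ → tpW c p b ≤ Tf (bR p))
    (hcb : CBA π h Dk Kf Tf D5 ℓ)
    {Dp : (Fin 3 ⊕ Fin 5 → ℝ) → ℝ}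
    (hDh : ∀ p ∈ Par, Dh (cκ p) (cu p 2) (cu p 3) (cu p 4) (cx' p) (Dp p))
    (hcD : ∀ p ∈ Par, 4 * (c * cκ p) ≤ Dp p)
    (hβ : 17 / 100 ≤ β) (hβ' : β ≤ 1 / 5) {L0 : (Fin 3 ⊕ Fin 5 → ℝ) → ℝ}
    (hL0 : ∀ p : IX5 → ℝ, prX p ∈ Par → ZR β p →
      max 0 (5 / 4 * cN (prX p) - cκ (prX p)) + lmX ℓ Kf Tf p ≤ L0 (prX p)) :
    E3F61.TcU S8X (Dom8X c β Par DifL) ∅ (E8X L0) (fun a => a.1.l) (nw c) e0 (alX π h)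
      (fun lam a qs => okCX (π lam.1) lam.2 a qs ∧ okD a)
      (fun cc a qs i d _ => HX cc a (LN (clN a qs)) i d) := by
  intro ε hε
  obtain ⟨δ, hδ, H⟩ := tbX hpu hP hex hRh0 hRh he0 he0' hc0 hc1 hPar hDN hDR hR5 hKN hKR hTN hTR
    hcb hDh hcD hβ hβ' hL0 ε hε
  refine ⟨δ, hδ, fun lam N B cc hcc => ?_⟩
  obtain ⟨δ', hδ', X₀, hX₀, H⟩ := H lam N B cc hcc
  refine ⟨δ', hδ', X₀, hX₀, fun X hX a ps k1 k2 q k3 k4 k5 k6 k7 hok Yg => ?_⟩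
  exact H X hX a ps k1 k2 q k3 k4 k5 k6 (fun p hp hl => (k7 p hp hl).elim) hok Yg

end Crest.Agent.R017.E3Nx744
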