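import Crest.Agent.R017.E2Xa_764

/-!
# Row 17, T.4 (helper764): `(I1)` and the cross error for a single list, kernel `Dk`

* `pbh_one` : the bias of a single natural list
* `I1LS` : `(I1)` for a sequence dominated by a natural list, claims for `Dk`
* `crossS` : the cross error (two scales) for a sequence dominated by a natural list
-/

set_option autoImplicit false
set_option linter.unusedSectionVars false

noncomputable section

open Finset MeasureTheory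
open scoped ComplexConjugate Classical

namespace Crest.Agent.R017.I1K764

open Crest.Agent.R012 Crest.Agent.R012.Eis Crest.Agent.R012.MC Crest.Agent.R012.Gauss880
open Crest.Agent.R012.LS2 (S mem_S)
open Crest.Agent.R012.Weight600 (pw)
open Crest.Agent.R012.Div277 (tau tau_le_rpow one_le_tau)
open Crest.Agent.R017.CM106 (CS FS TG)
open Crest.Agent.R017.C70
open Crest.Agent.R017.HP842 (Pc pc sqc alL KS Ker)
open Crest.Agent.R017.B770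
open Crest.Agent.R017.FE47 (PU cx)
open Crest.Agent.R017.Prov71
open Crest.Agent.R017.Leg381 (Pf alF SF LF natl alF_natl)
open Crest.Agent.R017.RG64 (FS_alF Ht one_le_Ht)
open Crest.Agent.R017.E1551
open Crest.Agent.R017.E2440 (StE TE Fh)
open Crest.Agent.R017.LB48 (CrP GrP)
open Crest.Agent.R017.Rough381 (VF)
open Crest.Agent.R017.X6C180 (GF)
open Crest.Agent.R017.WDec180 (WD sc sc_pos E2e cross_ex)
open Crest.Agent.R017.Ex385 (CrQ)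
open Crest.Agent.R017.AL813 (al_supp al_mem_S norm_alF_le norm_sqc_le cx_bdd)
open Crest.Agent.R017.PX764 (Dk)
open Crest.Agent.R017.LegK545 (VK SFK JBK)
open Crest.Agent.R017.RX241 (Md Nb Nb_nonneg fs_ts)
open Crest.Agent.R017.ExT764 (PBh ext_num num_L')
open Crest.Agent.R017.End699 (HC)
open Crest.Agent.R017.Sup271 (NPm)
open Crest.Agent.R017.I1146

set_option maxHeartbeats 1000000 in
/-- **the bias of a single natural list** (absolute values) -/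
theorem pbh_one {h : ℝ → ℝ} {c : ℝ} (hpu : PU h c) (N : ℕ) {ε : ℝ} (hε : 0 < ε) :
    ∃ C : ℝ, 1 ≤ C ∧ ∀ X : ℝ, 3 ≤ X → ∀ P : DPar, P.OK → ∀ (q : Eis) (ps : List Pq),
      ps.length ≤ N → (∀ p ∈ ps, 0 ≤ p.z) → LN ps ≤ Real.log X → ∀ J : ℝ, 0 ≤ J → ∀ V : ℝ,
      PBh (sqc q (alF 1 1 P h (natl ps))) (C * X ^ ε * Real.exp (5 / 3 * LN ps))
        (Real.exp (-0)) J V := by
  obtain ⟨A, hA1, hA⟩ := cx_bdd hpu
  obtain ⟨R₀, hR₀⟩ := bump_of_cs hpu.cs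
  set R : ℝ := max R₀ 0 with hRd
  have hR0 : 0 ≤ R := le_max_right _ _
  have hR : ∀ u, cx h u ≠ 0 → |u| ≤ R := fun u hu => (hR₀ u hu).trans (le_max_left _ _)
  have hN0 : (0 : ℝ) ≤ N := Nat.cast_nonneg _
  set a : ℝ := ε / (8 * (N + 1)) with ha
  have ha0 : 0 < a := by positivity
  obtain ⟨Ct, hCt, ht⟩ := tau_le_rpow ha0
  obtain ⟨Cl, hCl, hl⟩ := PInv255.one_add_log_pow_le 2 (ε / 4) (by positivity)
  set G₀ : ℝ := Real.exp (N * R) with hG₀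
  have hG₀1 : 1 ≤ G₀ := Real.one_le_exp (by positivity)
  set W₀ : ℝ := A ^ N * (Ct * G₀ ^ a) ^ (2 * N) with hW₀
  have hG₀a : 1 ≤ G₀ ^ a := Real.one_le_rpow hG₀1 ha0.le
  have hW₀1 : 1 ≤ W₀ := one_le_mul_of_one_le_of_one_le (one_le_pow₀ hA1)
    (one_le_pow₀ (one_le_mul_of_one_le_of_one_le hCt hG₀a))
  set C₁ : ℝ := W₀ ^ 2 * (G₀ ^ (5 / 3 : ℝ) * (100 ^ 2 * ((1 + N * R) ^ 2 * Cl))) with hC₁
  have hC₁1 : 1 ≤ C₁ := by
    have h1 : (1 : ℝ) ≤ G₀ ^ (5 / 3 : ℝ) := Real.one_le_rpow hG₀1 (by norm_num)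
    have h2 : (1 : ℝ) ≤ (1 + N * R) ^ 2 := one_le_pow₀ (by have := mul_nonneg hN0 hR0; linarith)
    have h3 : (1 : ℝ) ≤ W₀ ^ 2 := one_le_pow₀ hW₀1
    exact one_le_mul_of_one_le_of_one_le h3 (one_le_mul_of_one_le_of_one_le h1
      (one_le_mul_of_one_le_of_one_le (by norm_num) (one_le_mul_of_one_le_of_one_le h2 hCl)))
  refine ⟨C₁, hC₁1, ?_⟩
  intro X hX P hP q ps hlen hz hLX J hJ V g hg hgV j hj hjV t
  have hX1 : (1 : ℝ) ≤ X := by linarith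
  have hX0 : 0 < X := by linarith
  have hlX : 0 ≤ Real.log X := Real.log_nonneg hX1
  have hg0 : (0 : ℝ) < nm g := by exact_mod_cast nm_pos.2 hg.ne_zero
  have hg1 : (1 : ℝ) ≤ nm g := by exact_mod_cast nm_pos.2 hg.ne_zero
  have hn0 : 0 ≤ LN ps := LN_nonneg hz
  set n := LN ps with hn
  set G : ℝ := Real.exp n * G₀ with hG
  have hG1 : 1 ≤ G := one_le_mul_of_one_le_of_one_le (Real.one_le_exp hn0) hG₀1
  have hexn : Real.exp n ≤ X := by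
    rw [← Real.exp_log hX0]
    exact Real.exp_le_exp.2 hLX
  have hT : 1 ≤ (1 + |t|) ^ J := Real.one_le_rpow (by linarith [abs_nonneg t]) hJ
  have hRHS : 0 ≤ C₁ * X ^ ε * Real.exp (5 / 3 * n) * (nm g : ℝ) ^ (-(5 / 3) : ℝ) := by positivity
  have hmin : min 1 ((nm g : ℝ) * Real.exp (-0)) = 1 := by
    rw [neg_zero, Real.exp_zero, mul_one]
    exact min_eq_left hg1
  rw [hmin, mul_one]
  set α := sqc q (alF 1 1 P h (natl ps)) with hα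
  set w := tws (sg α g) t with hw
  have hFSα : FS α := HP842.FS.sqc (FS_alF (bump_of_cs hpu.cs) hP 1 1 _) q
  have hFSw : FS w := fs_ts hFSα hg t
  have hwα : ∀ m, w m ≠ 0 → α (g * m) ≠ 0 := fun m hm => left_ne_zero_of_mul hm
  have hsupp : ∀ m, w m ≠ 0 → (nm g : ℝ) * nm m ≤ G := by
    intro m hm
    obtain ⟨h1, h2, -, h3⟩ := al_supp hR 1 1 P q (natl ps) (hwα m hm)
    have hgm : (0 : ℝ) < nm (g * m) := by exact_mod_cast nm_pos.2 h1.ne_zero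
    have h4 : Real.log (nm (g * m)) ≤ n + N * R := by
      have h5 := (abs_le.1 h3).2
      rw [LF_natl, length_natl] at h5
      have h6 : (ps.length : ℝ) * R ≤ N * R :=
        mul_le_mul_of_nonneg_right (by exact_mod_cast hlen) hR0
      linarith
    have h5 : (nm (g * m) : ℝ) ≤ G := by
      rw [← Real.exp_log hgm, hG, hG₀, ← Real.exp_add]
      exact Real.exp_le_exp.2 h4
    rw [nm_mul] at h5
    push_cast at h5
    exact h5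
  by_cases hgG : (nm g : ℝ) ≤ G
  swap
  · have h0 : ∀ m, w m = 0 := by
      intro m
      by_contra hm
      have h1 := hsupp m hm
      have h2 : (1 : ℝ) ≤ nm m := by exact_mod_cast nm_pos.2 (hFSw.prim m hm).ne_zero
      exact hgG ((le_mul_of_one_le_right hg0.le h2).trans h1)
    have h1 : Md w j = 0 := by
      unfold RX241.Md
      simp [h0]
    rw [h1, norm_zero, zero_pow two_ne_zero]
    positivity
  set X' : ℝ := G / nm g with hX'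
  have hX'1 : 1 ≤ X' := by rw [hX', le_div_iff₀ hg0, one_mul]; exact hgG
  have hX'0 : 0 < X' := by linarith
  set W : ℝ := A ^ N * (Ct * G ^ a) ^ (2 * N) with hW
  have hGa : 1 ≤ G ^ a := Real.one_le_rpow hG1 ha0.le
  have hW1 : 1 ≤ W := one_le_mul_of_one_le_of_one_le (one_le_pow₀ hA1)
    (one_le_pow₀ (one_le_mul_of_one_le_of_one_le hCt hGa))
  have hbd : ∀ m, ‖w m‖ ≤ W := by
    intro m
    by_cases hm : w m = 0
    · rw [hm, norm_zero]; linarith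
    have hp := (hFSα.prim _ (hwα m hm)).ne_zero
    have hgm1 : (1 : ℝ) ≤ nm (g * m) := by exact_mod_cast nm_pos.2 hp
    have hgmG : (nm (g * m) : ℝ) ≤ G := by
      rw [nm_mul]; push_cast; exact hsupp m hm
    have h1 : ‖w m‖ ≤ ‖α (g * m)‖ := by
      have h2 : ‖w m‖ = ‖α (g * m)‖ * ‖pw t (nm m)‖ := norm_mul _ _
      rw [h2]
      exact mul_le_of_le_one_right (norm_nonneg _) (Weight600.norm_pw _ _).le
    refine h1.trans ((norm_sqc_le _ _ _).trans ((norm_alF_le hA 1 1 hP (natl ps) _).trans ?_))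
    rw [length_natl]
    have hτ1 : (1 : ℝ) ≤ (tau (g * m) : ℝ) := by exact_mod_cast one_le_tau hp
    calc A ^ ps.length * (tau (g * m) : ℝ) ^ (2 * ps.length) ≤
          A ^ N * (tau (g * m) : ℝ) ^ (2 * N) := by
          refine mul_le_mul (pow_le_pow_right₀ hA1 hlen) (pow_le_pow_right₀ hτ1 (by omega))
            (by positivity) (by positivity)
      _ ≤ A ^ N * (Ct * G ^ a) ^ (2 * N) := by
          have h3 : (tau (g * m) : ℝ) ≤ Ct * G ^ a := (ht _ hp).trans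
            (mul_le_mul_of_nonneg_left (Real.rpow_le_rpow (by linarith) hgmG ha0.le)
              (by linarith))
          gcongr
  have hWle : W ≤ W₀ * X ^ (ε / 4) := by
    have h1 : G ^ a ≤ G₀ ^ a * X ^ a := by
      rw [hG, Real.mul_rpow (Real.exp_pos _).le (by linarith), mul_comm]
      exact mul_le_mul_of_nonneg_left (Real.rpow_le_rpow (Real.exp_pos _).le hexn ha0.le)
        (by positivity)
    have h2 : (X ^ a) ^ (2 * N) ≤ X ^ (ε / 4) := by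
      rw [← Real.rpow_natCast, ← Real.rpow_mul hX0.le]
      refine Real.rpow_le_rpow_of_exponent_le hX1 ?_
      rw [ha]
      push_cast
      rw [div_mul_eq_mul_div, div_le_div_iff₀ (by positivity) (by norm_num)]
      nlinarith
    calc W ≤ A ^ N * (Ct * (G₀ ^ a * X ^ a)) ^ (2 * N) := by rw [hW]; gcongr
      _ = W₀ * (X ^ a) ^ (2 * N) := by rw [hW₀, ← mul_assoc, mul_pow]; ring
      _ ≤ _ := mul_le_mul_of_nonneg_left h2 (by linarith)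
  have hsup' : ∀ m, w m ≠ 0 → (nm m : ℝ) ≤ X' := by
    intro m hm
    rw [hX', le_div_iff₀ hg0, mul_comm]
    exact hsupp m hm
  have h5 := (Dk848.norm_bias_le hFSw j).trans
    (Dk848.asum_le hX'1 (by linarith) hFSw hsup' hbd)
  have hlX' : Real.log X' ≤ Real.log X + N * R := by
    rw [hX', Real.log_div (by positivity) hg0.ne', hG, Real.log_mul (Real.exp_pos _).ne'
      (by positivity), Real.log_exp, hG₀, Real.log_exp]
    have := Real.log_nonneg hg1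
    linarith
  have hlX'0 : 0 ≤ Real.log X' := Real.log_nonneg hX'1
  have h6 : (1 + Real.log X') ^ 2 ≤ (1 + N * R) ^ 2 * (Cl * X ^ (ε / 4)) := by
    have hNR : 0 ≤ N * R := mul_nonneg hN0 hR0
    calc (1 + Real.log X') ^ 2 ≤ ((1 + N * R) * (1 + Real.log X)) ^ 2 := by
          refine pow_le_pow_left₀ (by linarith) ?_ 2
          nlinarith [mul_nonneg hNR hlX]
      _ = (1 + N * R) ^ 2 * (1 + Real.log X) ^ 2 := by ring
      _ ≤ _ := mul_le_mul_of_nonneg_left (hl X hX1) (by positivity)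
  have h7 : X' ^ ((5 : ℝ) / 6) * X' ^ ((5 : ℝ) / 6) = Real.exp (5 / 3 * n) * G₀ ^ (5 / 3 : ℝ) *
      (nm g : ℝ) ^ (-(5 / 3) : ℝ) := by
    rw [← Real.rpow_add hX'0, hX', Real.div_rpow (by positivity) hg0.le, hG,
      Real.mul_rpow (Real.exp_pos _).le (by linarith), ← Real.exp_mul, Real.rpow_neg hg0.le]
    norm_num
    rw [div_eq_mul_inv, mul_comm n (5 / 3)]
  have hX'p : 0 ≤ X' ^ ((5 : ℝ) / 6) := Real.rpow_nonneg hX'0.le _
  have h8 : ‖Md w j‖ ^ 2 ≤ (W * (X' ^ ((5 : ℝ) / 6) * (100 * (1 + Real.log X')))) ^ 2 :=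
    pow_le_pow_left₀ (norm_nonneg _) h5 2
  refine h8.trans ?_
  have e1 : (W * (X' ^ ((5 : ℝ) / 6) * (100 * (1 + Real.log X')))) ^ 2 =
      W ^ 2 * ((X' ^ ((5 : ℝ) / 6) * X' ^ ((5 : ℝ) / 6)) * (100 ^ 2 * (1 + Real.log X') ^ 2)) := by
    ring
  rw [e1, h7]
  have hXe : X ^ (ε / 4) * X ^ (ε / 4) * X ^ (ε / 4) ≤ X ^ ε := by
    rw [← Real.rpow_add hX0, ← Real.rpow_add hX0]
    exact Real.rpow_le_rpow_of_exponent_le hX1 (by linarith)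
  have hgp : 0 ≤ (nm g : ℝ) ^ (-(5 / 3) : ℝ) := Real.rpow_nonneg hg0.le _
  have hG53 : 0 ≤ G₀ ^ (5 / 3 : ℝ) := by positivity
  calc W ^ 2 * (Real.exp (5 / 3 * n) * G₀ ^ (5 / 3 : ℝ) * (nm g : ℝ) ^ (-(5 / 3) : ℝ) *
        (100 ^ 2 * (1 + Real.log X') ^ 2)) ≤
        (W₀ * X ^ (ε / 4)) ^ 2 * (Real.exp (5 / 3 * n) * G₀ ^ (5 / 3 : ℝ) *
          (nm g : ℝ) ^ (-(5 / 3) : ℝ) * (100 ^ 2 * ((1 + N * R) ^ 2 * (Cl * X ^ (ε / 4))))) := by
        have hW0 : 0 ≤ W := by linarith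
        gcongr
    _ = C₁ * (X ^ (ε / 4) * X ^ (ε / 4) * X ^ (ε / 4)) * Real.exp (5 / 3 * n) *
          (nm g : ℝ) ^ (-(5 / 3) : ℝ) * 1 := by rw [hC₁]; ring
    _ ≤ C₁ * X ^ ε * Real.exp (5 / 3 * n) * (nm g : ℝ) ^ (-(5 / 3) : ℝ) * (1 + |t|) ^ J := by
        gcongr

/-- the number of the bias term of a single list -/
def FbS (K n V : ℝ) : ℝ := Real.exp (n / 3) * (V / K) ^ (1 / 3 : ℝ)

lemma FbS_nonneg {K V : ℝ} (hK : 0 ≤ K) (hV : 0 ≤ V) (n : ℝ) : 0 ≤ FbS K n V := by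
  unfold FbS; positivity

set_option maxHeartbeats 1000000 in
/-- **(I1) for a sequence dominated by a natural list, kernel `Dk`** -/
theorem I1LS {w : ℝ → ℝ} (hw : Wgt w) (hw0 : ∀ x, 0 ≤ w x) {h : ℝ → ℝ} {c : ℝ} (hpu : PU h c)
    (N : ℕ) {R₁ : ℝ} (hR₁ : 0 ≤ R₁) (hR : ∀ u, cx h u ≠ 0 → |u| ≤ R₁) {ε e₁ M B₂ : ℝ}
    (hε : 0 < ε) (he₁ : 0 < e₁) (hM : 0 ≤ M) (hB₂ : 0 < B₂) {ν Dd : ℝ} (hν : 1 ≤ ν)
    (hDd : 0 ≤ Dd) :
    ∃ C r : ℝ, 0 ≤ C ∧ 0 ≤ r ∧ ∀ X : ℝ, 3 ≤ X → ∀ (P : DPar), P.OK →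
      ∀ (q : Eis) (ps : List Pq), ps.length ≤ N →
      (∀ p ∈ ps, 0 ≤ p.z ∧ p.z ≤ Real.log X) → LN ps ≤ Real.log X →
      ∀ (K Y D Y₀ Y₁ D' Y₁' T₀ E0 F F₂ : ℝ), 1 ≤ K →
      Real.exp (LN ps + N * R₁ + 1) ≤ Y → Y ≤ X ^ B₂ → 0 ≤ D → 0 < Y₁ → D ≤ D' → Y₁ ≤ Y₁' →
      Y₁' ≤ D' ^ 2 → Y₁' * ν ≤ X → Real.exp (2 * LN ps) * X ^ e₁ ≤ K * Y₁' → Y₀ < 1 → 0 < E0 →
      0 < T₀ → 0 ≤ F → 0 ≤ F₂ →
      FlatLK Dk h P q ps (X ^ B₂) r M (Real.log K) (Real.log (Y₁' * ν)) F →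
      TailK Dk h P q ps (X ^ B₂) r M (Real.log K) (Real.log (Y₁' * ν)) (Real.log T₀)
        (Real.log E0) F₂ →
      ∀ al : Eis → ℂ, Dom ν Dd (sqc q (alF 1 1 P h (natl ps))) al →
      ∀ om : Eis × Eis → ℂ, (∀ x, ‖1 - om x‖ ≤ 1) →
      (∀ x : Eis × Eis, (nm (x.2 * x.1 ^ 2) : ℝ) ≤ T₀ → om x = 1) →
      (∀ x ∈ JW D' Y₀ Y₁', x ∉ JW D Y₀ Y₁ → om x = 0) → ∀ (Q : Eis → Prop) (e₂ e₃ : ℝ),
      ‖CrP w K al (fun k => if Q k then StE E0 (JW D Y₀ Y₁) om al k else 0) -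
        ((pC * c3 w K : ℝ) : ℂ) * X2 Y E0 (JW D Y₀ Y₁) om al‖ ≤ e₂ →
      GrP w K (fun k => if Q k then
          StE E0 (JW D Y₀ Y₁) om al k else 0) ≤
        c3 w K * (X3 Y E0 (JW D Y₀ Y₁) om al).re + e₃ →
      ∑' k : Eis, (if IsPrim k ∧ Q k then w (nm k / K) *
        ‖CS al k -
          (pC : ℂ) * StE E0 (JW D Y₀ Y₁) om al k‖ ^ 2 else 0) ≤
      C * X ^ ε * (K * Real.exp (LN ps)) * (1 + F + F₂ + FbS K (LN ps) (Y₁' * ν)) +
        2 * pC * e₂ + pC ^ 2 * e₃ := by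
  obtain ⟨C₀, hC₀, H₀⟩ := pbh_one hpu N (ε := ε / 2) (by positivity)
  obtain ⟨C₁, r, hC₁, hr, H₁⟩ := I1LE hw hw0 hpu N hR₁ hR (ε := ε / 2) (e₁ := e₁) (M := M)
    (B₂ := B₂) (by positivity) he₁ hM hB₂ hν hDd
  refine ⟨2 * (C₁ * C₀), r, by positivity, hr, ?_⟩
  intro X hX P hP q ps hN hz hLX K Y D Y₀ Y₁ D' Y₁' T₀ E0 F F₂ hK hYl hYu hD hY₁ hDD hYY hYD hYX
    hKX hY₀ hE0 hT₀ hF hF₂ hcl htl al hdom om hom1 hom homJ Q e₂ e₃ ht he
  have hX1 : (1 : ℝ) ≤ X := by linarith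
  have hX0 : 0 < X := by linarith
  have hK0 : 0 < K := by linarith
  have hY₁'0 : 0 < Y₁' := hY₁.trans_le hYY
  have hν0 : 0 < ν := by linarith
  have hpb := H₀ X hX P hP q ps hN (fun p hp => (hz p hp).1) hLX (max (N * M) 12)
    ((by norm_num : (0 : ℝ) ≤ 12).trans (le_max_right _ _)) ((X ^ (B₂ + 1)) ^ 2)
  set n := LN ps with hn
  have hNb : Nb (C₀ * X ^ (ε / 2) * Real.exp (5 / 3 * n)) (Real.exp (-0)) K (Real.exp n)
      (Y₁' * ν) = C₀ * X ^ (ε / 2) * FbS K n (Y₁' * ν) * Real.exp (2 * n) := by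
    have h1 := Nb_FbN (C₀ := C₀ * X ^ (ε / 2)) (K := K) (V := Y₁' * ν) (H := 1) n 0
    have h2 : FbN K n 0 (Y₁' * ν) 1 = FbS K n (Y₁' * ν) := by
      unfold FbN FbS
      rw [sub_zero, one_pow, one_mul]
    rw [h2, one_pow, mul_one] at h1
    exact h1
  have hFb0 : 0 ≤ FbS K n (Y₁' * ν) := FbS_nonneg hK0.le (by positivity) _
  have key := H₁ X hX P hP q ps ps hN hN hz hz hLX rfl 0 (by simp)
    (sqc q (alF 1 1 P h (natl ps))) (fun m => by simp)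
    K Y D Y₀ Y₁ D' Y₁' T₀ E0 F F₂ F F₂ _ _ (C₀ * X ^ (ε / 2) * FbS K n (Y₁' * ν))
    hK hYl hYu hD hY₁ hDD hYY hYD hYX hKX hY₀ hE0 hT₀ hF hF₂ hF hF₂ (by positivity)
    (Real.exp_pos _).le (by positivity) hcl htl hcl htl hpb
    (le_of_eq hNb) al hdom om hom1 hom homJ Q e₂ e₃ ht he
  refine key.trans ?_
  have hXe : X ^ (ε / 2) * X ^ (ε / 2) = X ^ ε := by
    rw [← Real.rpow_add hX0]; congr 1; ring
  set FF := FbS K n (Y₁' * ν) with hFF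
  have hXe1 : 1 ≤ X ^ (ε / 2) := Real.one_le_rpow hX1 (by positivity)
  have hCX : 1 ≤ C₀ * X ^ (ε / 2) := one_le_mul_of_one_le_of_one_le hC₀ hXe1
  have h1 : 1 + F + F₂ + F + F₂ + C₀ * X ^ (ε / 2) * FF ≤
      C₀ * X ^ (ε / 2) * (2 * (1 + F + F₂ + FF)) := by
    have h2 : 1 + F + F₂ + F + F₂ ≤ C₀ * X ^ (ε / 2) * (1 + F + F₂ + F + F₂) :=
      le_mul_of_one_le_left (by positivity) hCX
    have h3 : 0 ≤ C₀ * X ^ (ε / 2) * (1 + FF) := by positivity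
    have e : C₀ * X ^ (ε / 2) * (2 * (1 + F + F₂ + FF)) =
        C₀ * X ^ (ε / 2) * (1 + F + F₂ + F + F₂) + C₀ * X ^ (ε / 2) * FF +
          C₀ * X ^ (ε / 2) * (1 + FF) := by ring
    rw [e]
    linarith
  have h4 : C₁ * X ^ (ε / 2) * (K * Real.exp n) *
      (1 + F + F₂ + F + F₂ + C₀ * X ^ (ε / 2) * FF) ≤
      2 * (C₁ * C₀) * X ^ ε * (K * Real.exp n) * (1 + F + F₂ + FF) := by
    calc _ ≤ C₁ * X ^ (ε / 2) * (K * Real.exp n) *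
          (C₀ * X ^ (ε / 2) * (2 * (1 + F + F₂ + FF))) := by gcongr
      _ = 2 * (C₁ * C₀) * (X ^ (ε / 2) * X ^ (ε / 2)) * (K * Real.exp n) *
          (1 + F + F₂ + FF) := by ring
      _ = _ := by rw [hXe]
  linarith

/-- **the cross error of a sequence dominated by a natural list, two scales, kernel `Dk`** -/
theorem crossS {w : ℝ → ℝ} {Nw : ℕ} {Mw : ℝ} {Fw : ℕ → ℝ → ℂ}
    (hWD : WD w Nw Mw Fw) {h : ℝ → ℝ} {c : ℝ} (hpu : PU h c)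
    (N : ℕ) {R₁ : ℝ} (hR₁ : 0 ≤ R₁) (hR : ∀ u, cx h u ≠ 0 → |u| ≤ R₁) {ε M B₂ : ℝ}
    (hε : 0 < ε) (hM : 0 ≤ M) (hB₂ : 0 < B₂) {ν Dd : ℝ} (hν : 1 ≤ ν)
    (hDd : 0 ≤ Dd) {L : ℝ} (hL : 0 ≤ L) :
    ∃ C r : ℝ, 0 ≤ C ∧ 0 ≤ r ∧ ∀ X : ℝ, 3 ≤ X → ∀ (P : DPar), P.OK →
      ∀ (q : Eis) (ps : List Pq), ps.length ≤ N →
      (∀ p ∈ ps, 0 ≤ p.z ∧ p.z ≤ Real.log X) → LN ps ≤ Real.log X →
      ∀ (K Y D Y₀ Y₁ E0 Tg F Fb η : ℝ) (Sh : ℝ → ℝ → ℝ → ℝ) (I : ℕ), 1 ≤ K →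
      Real.exp (LN ps + N * R₁ + 1) ≤ Y → Y ≤ X ^ B₂ → 0 ≤ D → 0 < Y₁ → Y₁ * ν ≤ X → 0 < E0 →
      Y₁ < 2 ^ I → 0 ≤ η → 0 ≤ F → 0 ≤ Fb → LipS L Sh →
      CellK Dk h P q ps (X ^ B₂) r M (Real.log (Y₁ * ν)) (Real.log E0) F Sh →
      (∀ γ b v : ℝ, 0 ≤ γ → 0 ≤ b → b ≤ Real.log E0 + 1 → 0 ≤ v →
        v ≤ Real.log (Y₁ * ν) - 2 * γ →
        Real.exp (5 / 3 * LN ps + bcx 0 γ b v) ≤ Fb * Real.exp (Sh γ b v)) →
      ∀ al : Eis → ℂ, Dom ν Dd (sqc q (alF 1 1 P h (natl ps))) al →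
      ∀ om : Eis × Eis → ℂ, (∀ x, ‖om x‖ ≤ 1) → ∀ (Q : Eis → Prop),
      ‖CrP w K al (fun k => if Q k then StE E0 (JW D Y₀ Y₁) om al k else 0) -
        ((pC * c3 w K : ℝ) : ℂ) * X2 Y E0 (JW D Y₀ Y₁) om al‖ ≤
      C * X ^ ε * (K / Real.exp (LN ps)) * ((F + Fb) * Real.exp (Tg + 2 / 3 * LN ps)) +
      ∑ i ∈ Finset.range Nw, RPg (rhoS Tg (Real.log K) Sh) al (sc K Mw i) (GF (Fh (Fw i) η))
        (S D) I E0 Y₁ +
      ∑ i ∈ Finset.range Nw, ‖CrQ (GF (Fh (Fw i) η)) (fun k => ¬ Q k) (sc K Mw i) al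
          (StE E0 (JW D Y₀ Y₁) om al)‖ +
      Real.exp (η / 3) * ‖CrP w (K * Real.exp (-η)) al
          (fun k => if Q k then StE E0 (JW D Y₀ Y₁) om al k else 0)‖ +
      Real.exp (-(η / 3)) * ‖((pC * c3 w K : ℝ) : ℂ) * X2 Y E0 (JW D Y₀ Y₁) om al‖ := by
  obtain ⟨C₀, hC₀, H₀⟩ := pbh_one hpu N (ε := ε / 2) (by positivity)
  obtain ⟨C₁, r, hC₁, hr, H₁⟩ := crossX hWD hpu N hR₁ hR (ε := ε / 2) (M := M)
    (B₂ := B₂) (by positivity) hM hB₂ hν hDd hL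
  refine ⟨2 * (C₁ * C₀), r, by positivity, hr, ?_⟩
  intro X hX P hP q ps hN hz hLX K Y D Y₀ Y₁ E0 Tg F Fb η Sh I hK hYl hYu hD hY₁ hYX hE0 hI hη hF
    hFb hLip hcs hbias al hdom om homb Q
  have hX1 : (1 : ℝ) ≤ X := by linarith
  have hX0 : 0 < X := by linarith
  have hK0 : 0 < K := by linarith
  have hpb := H₀ X hX P hP q ps hN (fun p hp => (hz p hp).1) hLX (max (N * M) 12)
    ((by norm_num : (0 : ℝ) ≤ 12).trans (le_max_right _ _)) ((X ^ (B₂ + 1)) ^ 2)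
  set n := LN ps with hn
  have key := H₁ X hX P hP q ps ps hN hN hz hz rfl 0 (by simp)
    (sqc q (alF 1 1 P h (natl ps))) (fun m => by simp)
    K Y D Y₀ Y₁ E0 Tg F F _ 0 (C₀ * X ^ (ε / 2) * Fb) η Sh I
    hK hYl hYu hD hY₁ hYX hE0 hI hη hF hF (by positivity) (by positivity) hLip hcs hcs hpb
    (fun γ b v h1 h2 h3 h4 h5 => by
      have h6 := mul_le_mul_of_nonneg_left (hbias γ b v h1 h2 h3 h4 h5)
        (show 0 ≤ C₀ * X ^ (ε / 2) by positivity)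
      rw [Real.exp_add] at h6
      calc _ = C₀ * X ^ (ε / 2) * (Real.exp (5 / 3 * n) * Real.exp (bcx 0 γ b v)) := by ring
        _ ≤ _ := h6
        _ = _ := by ring) al hdom om homb Q
  refine key.trans ?_
  have hXe : X ^ (ε / 2) * X ^ (ε / 2) = X ^ ε := by
    rw [← Real.rpow_add hX0]; congr 1; ring
  have hXe1 : 1 ≤ X ^ (ε / 2) := Real.one_le_rpow hX1 (by positivity)
  have hCX : 1 ≤ C₀ * X ^ (ε / 2) := one_le_mul_of_one_le_of_one_le hC₀ hXe1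
  have h1 : F + F + C₀ * X ^ (ε / 2) * Fb ≤ C₀ * X ^ (ε / 2) * (2 * (F + Fb)) := by
    have h2 : F + F ≤ C₀ * X ^ (ε / 2) * (F + F) := le_mul_of_one_le_left (by positivity) hCX
    have h3 : 0 ≤ C₀ * X ^ (ε / 2) * Fb := by positivity
    have e : C₀ * X ^ (ε / 2) * (2 * (F + Fb)) = C₀ * X ^ (ε / 2) * (F + F) +
        C₀ * X ^ (ε / 2) * Fb + C₀ * X ^ (ε / 2) * Fb := by ring
    rw [e]
    linarith
  have h4 : C₁ * X ^ (ε / 2) * (K / Real.exp n) *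
      ((F + F + C₀ * X ^ (ε / 2) * Fb) * Real.exp (Tg + 2 / 3 * n)) ≤
      2 * (C₁ * C₀) * X ^ ε * (K / Real.exp n) * ((F + Fb) * Real.exp (Tg + 2 / 3 * n)) := by
    calc _ ≤ C₁ * X ^ (ε / 2) * (K / Real.exp n) *
          ((C₀ * X ^ (ε / 2) * (2 * (F + Fb))) * Real.exp (Tg + 2 / 3 * n)) := by gcongr
      _ = 2 * (C₁ * C₀) * (X ^ (ε / 2) * X ^ (ε / 2)) * (K / Real.exp n) *
          ((F + Fb) * Real.exp (Tg + 2 / 3 * n)) := by ring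
      _ = _ := by rw [hXe]
  exact add_le_add (add_le_add (add_le_add (add_le_add h4 le_rfl) le_rfl) le_rfl) le_rfl

end Crest.Agent.R017.I1K764
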