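import Crest.Agent.R017.P10Xb_764
import Crest.Agent.R017.P10Sa_764

/-!
# Row 17, exceptional class, P1X (helper764): `P10S` (single lists) from the inputs

* `alS`, `stS`, `E2S`, `E3S` : sequence, structured function, cross error, Gram error
* **`p10S_of`** : `P10S` from `FBK`, `BTlS`, `E2SU`, `E3SU`
-/

set_option autoImplicit false
set_option linter.unusedSectionVars false

noncomputable section

open Finset MeasureTheory
open scoped ComplexConjugate Classical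

namespace Crest.Agent.R017.P10X764

open Crest.Agent.R012 Crest.Agent.R012.Eis Crest.Agent.R012.MC Crest.Agent.R012.Gauss880
open Crest.Agent.R012.LS2 (S mem_S)
open Crest.Agent.R012.Weight600 (osc norm_osc osc_add_right)
open Crest.Agent.R017.CM106 (CS FS TG)
open Crest.Agent.R017.C70
open Crest.Agent.R017.HP842 (Pc pc sqc alL)
open Crest.Agent.R017.B770
open Crest.Agent.R017.FE47 (PU cx SM)
open Crest.Agent.R017.Prov71
open Crest.Agent.R017.Leg381 (Pf alF SF LF natl alF_natl)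
open Crest.Agent.R017.RG64 (Ht)
open Crest.Agent.R017.E2440 (StE TE)
open Crest.Agent.R017.LB48 (CrP GrP)
open Crest.Agent.R017.X6C180 (GF)
open Crest.Agent.R017.WDec180 (WD sc)
open Crest.Agent.R017.I1146 hiding cN
open Crest.Agent.R017.I1K764
open Crest.Agent.R017.StD828 (ln)
open Crest.Agent.R017.StE828 (wD oD oD_zero oD_one log_nm_nonneg)
open Crest.Agent.R017.XG702 (Pcs)
open Crest.Agent.R017.XT71 (Sys Win mx)
open Crest.Agent.R017.UM71 Crest.Agent.R017.End699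
open Crest.Agent.R017.E5B71 Crest.Agent.R017.E5P571 Crest.Agent.R017.E5L770
open Crest.Agent.R017.ExBox960 Crest.Agent.R017.ExP960
open Crest.Agent.R017.Sf770
open Crest.Agent.R017.E5LX770 (nB)
open Crest.Agent.R017.P1e54 Crest.Agent.R017.P1f54 Crest.Agent.R017.P1k54
open Crest.Agent.R017.P1l54 (ParOK)
open Crest.Agent.R017.P1X960
open Crest.Agent.R017.Sup271 (NPm)
open Crest.Agent.R017.PX764 (Dk)
open Crest.Agent.R017.TM708 (PD R5)


section
variable {Λ : Type*} (π : Λ → DPar) (h : ℝ → ℝ) (e0 c : ℝ)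

/-- the sequence of a child, single list -/
def alS (lam : Λ × Eis) (a : BcX) (qs : List Pq) : Eis → ℂ :=
  sqc 1 (alL h ((List.ofFn a.2.1 ++ qs).map (Pt (π lam.1) lam.2)))

/-- the structured function of a child, single list, own window -/
def stS (lam : Λ × Eis) (a : BcX) (qs : List Pq) : Eis → ℂ :=
  StE (Real.exp (e0 * a.1.l)) (JS (nw c a)) (omP (nw c a)) (alS π h lam a qs)

/-- **cross error, single list** -/
def E2S (Rh : ℝ) (R : Λ → ℝ) (lam : Λ × Eis) (a : BcX) (qs : List Pq) : ℝ :=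
  if okCX (π lam.1) lam.2 a qs then
    ‖CrP (wM (R lam.1)) (Real.exp a.1.l) (alS π h lam a qs)
        (fun k => if cutE (Real.exp (a.1.l / 20)) k then stS π h e0 c lam a qs k else 0) -
      ((pC * c3 (wM (R lam.1)) (Real.exp a.1.l) : ℝ) : ℂ) * X2 (YcX Rh a qs)
        (Real.exp (e0 * a.1.l)) (JS (nw c a)) (omP (nw c a)) (alS π h lam a qs)‖
  else 0

/-- **Gram error, single list** -/
def E3S (Rh : ℝ) (R : Λ → ℝ) (lam : Λ × Eis) (a : BcX) (qs : List Pq) : ℝ :=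
  if okCX (π lam.1) lam.2 a qs then
    max 0 (GrP (wM (R lam.1)) (Real.exp a.1.l)
        (fun k => if cutE (Real.exp (a.1.l / 20)) k then stS π h e0 c lam a qs k else 0) -
      c3 (wM (R lam.1)) (Real.exp a.1.l) * (X3 (YcX Rh a qs) (Real.exp (e0 * a.1.l))
        (JS (nw c a)) (omP (nw c a)) (alS π h lam a qs)).re)
  else 0

/-- cross error, single lists -/
def E2SU (Rh β : ℝ) (Par : Set (Fin 3 ⊕ Fin 5 → ℝ)) (L0 : (Fin 3 ⊕ Fin 5 → ℝ) → ℝ) : Prop :=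
  ∀ R : Λ → ℝ, (∀ lam, 0 ≤ R lam) →
    UB S8X Dq (E2S π h e0 c Rh R) (Dom8X c β Par (SinL β)) ∅ (E8X L0)

/-- Gram error, single lists -/
def E3SU (Rh β : ℝ) (Par : Set (Fin 3 ⊕ Fin 5 → ℝ)) (L0 : (Fin 3 ⊕ Fin 5 → ℝ) → ℝ) : Prop :=
  ∀ R : Λ → ℝ, (∀ lam, 0 ≤ R lam) →
    UB S8X Dq (E3S π h e0 c Rh R) (Dom8X c β Par (SinL β)) ∅ (E8X L0)

end

/-- **the bias line** and the range of the levels, single lists -/
structure BTlS (c β : ℝ) (Par : Set (Fin 3 ⊕ Fin 5 → ℝ)) (L0 : (Fin 3 ⊕ Fin 5 → ℝ) → ℝ)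
    (Tt : (Fin 5 → ℝ) → ℝ) : Prop where
  bt : ∀ (p : IX5 → ℝ) (v₀ v₁ v₂ b x' : ℝ), ChC c β Par p v₀ v₁ v₂ b x' → SinL β p v₀ v₁ v₂ →
    (max (tpW c p b) (2 * (v₀ + v₁ + v₂ + x') - cκ (prX p)) + (v₀ + v₁ + v₂ + x') -
      cκ (prX p)) / 3 ≤ L0 (prX p)
  tN : ∀ (p : IX5 → ℝ) (v₀ v₁ v₂ b x' : ℝ), ChC c β Par p v₀ v₁ v₂ b x' → SinL β p v₀ v₁ v₂ →
    max (tpW c p b) (2 * (v₀ + v₁ + v₂ + x') - cκ (prX p)) ≤ Tt (bN p)
  tR : ∀ (p : IX5 → ℝ) (v₀ v₁ v₂ b x' : ℝ), ChC c β Par p v₀ v₁ v₂ b x' → SinL β p v₀ v₁ v₂ →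
    max (tpW c p b) (2 * (v₀ + v₁ + v₂ + x') - cκ (prX p)) ≤ Tt (bR p)

variable {Λ : Type*}

set_option maxHeartbeats 4000000 in
/-- **`P10S` from the inputs** -/
theorem p10S_of {π : Λ → DPar} {h : ℝ → ℝ} {c₀ : ℝ} (hpu : PU h c₀) (hP : ∀ lam, (π lam).OK)
    {Rh : ℝ} (hRh0 : 0 ≤ Rh) (hRh : ∀ u, cx h u ≠ 0 → |u| ≤ Rh) {e0 e1 : ℝ} (he1 : e1 ≤ e0)
    (he0 : 0 ≤ e0) {c β : ℝ} (hc0 : 0 ≤ c) (hc1 : c ≤ 1) {Par : Set (Fin 3 ⊕ Fin 5 → ℝ)}
    {L0 : (Fin 3 ⊕ Fin 5 → ℝ) → ℝ} (hPar : ∀ p ∈ Par, ParOK p)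
    (hx4 : ∀ p ∈ Par, cx' p ≤ 0 ∨ 5 / 2 * cN p + 4 * cx' p ≤ 2 * cκ p)
    {D5 : Set (Fin 5 → ℝ)} {ℓ Kf Tf : (Fin 5 → ℝ) → ℝ}
    (hDN : ∀ p : IX5 → ℝ, prX p ∈ Par → ZR β p → bN p ∈ D5)
    (hDR : ∀ p : IX5 → ℝ, prX p ∈ Par → ZR β p → bR p ∈ D5)
    (hR5 : ∀ p : IX5 → ℝ, prX p ∈ Par → ZR β p → R5 (bN p))
    (hKN : ∀ p : IX5 → ℝ, prX p ∈ Par → ZR β p →
      max (cκ (prX p)) (5 / 4 * cN (prX p)) ≤ Kf (bN p))
    (hKR : ∀ p : IX5 → ℝ, prX p ∈ Par → ZR β p →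
      max (cκ (prX p)) (5 / 4 * cN (prX p)) ≤ Kf (bR p))
    (hLN : ∀ p : IX5 → ℝ, prX p ∈ Par → ZR β p →
      LK Kf (bN p) + max 0 (5 / 4 * cN (prX p) - cκ (prX p)) / 3 + ℓ (bN p) ≤ L0 (prX p))
    (hLR : ∀ p : IX5 → ℝ, prX p ∈ Par → ZR β p →
      LK Kf (bR p) + max 0 (5 / 4 * cN (prX p) - cκ (prX p)) / 3 + ℓ (bR p) ≤ L0 (prX p))
    (hL0 : ∀ p ∈ Par, 0 ≤ L0 p)
    (hfb : FBK π h Dk Kf Tf e1 D5 ℓ)
    (hbt : BTlS c β Par L0 Tf)
    (he2 : E2SU π h e0 c Rh β Par L0) (he3 : E3SU π h e0 c Rh β Par L0) :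
    P10S π h e0 c β Par L0 := by
  intro R hR
  intro ε hε
  obtain ⟨τ₁, hτ₁, hfb⟩ := hfb (ε / 16) (by positivity)
  obtain ⟨δ₂, hδ₂, he2⟩ := he2 R hR (ε / 2) (by positivity)
  obtain ⟨δ₃, hδ₃, he3⟩ := he3 R hR (ε / 2) (by positivity)
  obtain ⟨τ, hτ, hττ₁, hτ8, hτε⟩ : ∃ τ : ℝ, 0 < τ ∧ τ ≤ τ₁ ∧ τ ≤ 1 / 8 ∧ τ ≤ ε / 16 :=
    ⟨min τ₁ (min (1 / 8) (ε / 16)), lt_min hτ₁ (lt_min (by norm_num) (by positivity)),
      min_le_left _ _, (min_le_right _ _).trans (min_le_left _ _),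
      (min_le_right _ _).trans (min_le_right _ _)⟩
  have he02 : 0 < 1 + e0 := by linarith
  obtain ⟨δ, hδ, hδ2, hδ3, hδτ, hδε, hδe⟩ : ∃ δ : ℝ, 0 < δ ∧ δ ≤ δ₂ ∧ δ ≤ δ₃ ∧
      δ ≤ τ / 100 ∧ δ ≤ ε / 100 ∧ e0 * δ ≤ τ := by
    refine ⟨min (min δ₂ δ₃) (min (min (τ / 100) (ε / 100)) (τ / (1 + e0))), ?_, ?_, ?_, ?_, ?_, ?_⟩
    · exact lt_min (lt_min hδ₂ hδ₃) (lt_min (lt_min (by positivity) (by positivity))
        (by positivity))
    · exact (min_le_left _ _).trans (min_le_left _ _)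
    · exact (min_le_left _ _).trans (min_le_right _ _)
    · exact (min_le_right _ _).trans ((min_le_left _ _).trans (min_le_left _ _))
    · exact (min_le_right _ _).trans ((min_le_left _ _).trans (min_le_right _ _))
    · have h1 : min (min δ₂ δ₃) (min (min (τ / 100) (ε / 100)) (τ / (1 + e0))) ≤ τ / (1 + e0) :=
        (min_le_right _ _).trans (min_le_right _ _)
      refine (mul_le_mul_of_nonneg_left h1 he0).trans ?_
      rw [mul_div_assoc', div_le_iff₀ he02]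
      nlinarith
  refine ⟨δ, hδ, ?_⟩
  rintro ⟨lam, s⟩ N B
  -- the constants
  by_cases hs0 : s = 0
  · refine ⟨1, one_pos, 2, by norm_num, ?_⟩
    intro X hX a qs _ _ q _ _ _ _ _
    have : ¬ okCX (π lam) s a qs := fun hok => hok.2.1.1 hs0
    unfold ErS
    rw [if_neg this]
    positivity
  set B₂ : ℝ := max B 3 with hB₂
  have hBB : B ≤ B₂ := le_max_left _ _
  have hB3 : 3 ≤ B₂ := le_max_right _ _
  have hB0 : 0 < B₂ := by linarith
  obtain ⟨M₁, hfb⟩ := hfb lam N B₂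
  set M : ℝ := (M₁ : ℝ) with hM
  have hM0 : 0 ≤ M := Nat.cast_nonneg M₁
  have hε16 : 0 < ε / 16 := by positivity
  have hsn : (1 : ℝ) ≤ (nm s : ℝ) ^ 2 := one_le_pow₀ (by exact_mod_cast nm_pos.2 hs0)
  obtain ⟨C, r, hC, hr, HI⟩ := I1LS (wgt_wM (R lam)) (wM_nonneg _) hpu (N + 3) hRh0 hRh
    (ε := ε / 16) (e₁ := τ / 4) (M := M) (B₂ := B₂) hε16 (by positivity) hM0 hB0
    hsn (Dd := ((ds s).card : ℝ)) (Nat.cast_nonneg _)
  obtain ⟨X₁, hX₁, hfb⟩ := hfb r hr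
  obtain ⟨δ₂', hδ₂', X₄, hX₄, he2⟩ := he2 (lam, s) N B
  obtain ⟨δ₃', hδ₃', X₅, hX₅, he3⟩ := he3 (lam, s) N B
  set m₀ : ℝ := (M₁ : ℝ) + 6 * (N + 3) + 1 with hm₀
  have hm₀1 : 0 < m₀ := by positivity
  obtain ⟨δ', hδ', hd2, hd3, hdM⟩ : ∃ δ' : ℝ, 0 < δ' ∧ δ' ≤ δ₂' ∧ δ' ≤ δ₃' ∧
      δ' ≤ ε / (16 * m₀) := by
    refine ⟨min (min δ₂' δ₃') (ε / (16 * m₀)), ?_, ?_, ?_, ?_⟩
    · exact lt_min (lt_min hδ₂' hδ₃') (by positivity)
    · exact (min_le_left _ _).trans (min_le_left _ _)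
    · exact (min_le_left _ _).trans (min_le_right _ _)
    · exact min_le_right _ _
  have hP0 := Cst401.pC_pos
  set cs : ℝ := Real.log ((nm s : ℝ) ^ 2) with hcs
  have hcs0 : 0 ≤ cs := Real.log_nonneg hsn
  set CC : ℝ := 4 * C + 2 * pC + pC ^ 2 + 1 with hCC
  have hCC1 : 1 ≤ CC := by
    have : 0 ≤ 4 * C + 2 * pC + pC ^ 2 := by positivity
    linarith
  have hlCC : 0 ≤ Real.log CC := Real.log_nonneg hCC1
  have hlog2 : 0 < Real.log 2 := Real.log_pos (by norm_num)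
  have hn1 : (1 : ℝ) ≤ nm (π lam).n := by exact_mod_cast nm_pos.2 (hP lam).ψ.q0
  set Q : ℝ := 2 + (((N + 3 : ℕ) : ℝ) * Rh + 1) + 8 * (Real.log 2 + cs) / τ +
    2 * Real.log CC / ε + Real.log (nm (π lam).n) with hQ
  have hQ1 : 0 ≤ ((N + 3 : ℕ) : ℝ) * Rh + 1 := by positivity
  have hQ2 : 0 ≤ 8 * (Real.log 2 + cs) / τ := by positivity
  have hQ3 : 0 ≤ 2 * Real.log CC / ε := by positivity
  have hQ4 : 0 ≤ Real.log (nm (π lam).n) := Real.log_nonneg hn1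
  refine ⟨δ', hδ', max (max X₁ (max X₄ X₅)) (Real.exp Q), ?_, ?_⟩
  · exact lt_of_lt_of_le hX₁ ((le_max_left _ _).trans (le_max_left _ _))
  intro X hX a qs hlen hgl q hq hw hm hg hl
  have hXa : max X₁ (max X₄ X₅) ≤ X := (le_max_left _ _).trans hX
  have hX1' : X₁ ≤ X := (le_max_left _ _).trans hXa
  have hX4' : X₄ ≤ X := (le_max_left _ _).trans ((le_max_right _ _).trans hXa)
  have hX5' : X₅ ≤ X := (le_max_right _ _).trans ((le_max_right _ _).trans hXa)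
  have hXQ : Real.exp Q ≤ X := (le_max_right _ _).trans hX
  have hX1 : 1 < X := by linarith
  have hX0 : 0 < X := by linarith
  set L := Real.log X with hL
  have hQL : Q ≤ L := by
    have := Real.log_le_log (Real.exp_pos Q) hXQ
    rwa [Real.log_exp] at this
  have hL2 : 2 ≤ L := by linarith
  have hL0' : 0 < L := by linarith
  have hX3 : 3 ≤ X := by
    have h1 : Real.exp 2 ≤ X := (Real.exp_le_exp.2 (by linarith)).trans hXQ
    have h2 := Real.add_one_le_exp 2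
    linarith
  have hLN' : ((N + 3 : ℕ) : ℝ) * Rh + 1 ≤ L := by linarith
  have hLτ : Real.log 2 + cs ≤ τ / 8 * L := by
    have h1 : 8 * (Real.log 2 + cs) / τ ≤ L := by linarith
    rw [div_le_iff₀ hτ] at h1
    linarith
  have hLC : CC ≤ X ^ (ε / 2) := by
    have h1 : 2 * Real.log CC / ε ≤ L := by linarith
    rw [div_le_iff₀ hε] at h1
    rw [Real.rpow_def_of_pos hX0, ← hL]
    rw [← Real.exp_log (show 0 < CC by linarith)]
    exact Real.exp_le_exp.2 (by linarith)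
  have hnX : (nm (π lam).n : ℝ) ≤ X ^ B₂ := by
    have h1 : (nm (π lam).n : ℝ) ≤ X := by
      rw [← Real.exp_log (show (0 : ℝ) < nm (π lam).n by linarith), ← Real.exp_log hX0, ← hL]
      exact Real.exp_le_exp.2 (by linarith)
    refine h1.trans ?_
    calc X = X ^ (1 : ℝ) := (Real.rpow_one X).symm
      _ ≤ X ^ B₂ := Real.rpow_le_rpow_of_exponent_le hX1.le (by linarith)
  -- not admissible
  by_cases hok : okCX (π lam) s a qs
  swap
  · unfold ErS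
    rw [if_neg hok]
    positivity
  obtain ⟨hbok, hsm, hlmp, hamq, hb0⟩ := hok
  have hok : okCX (π lam) s a qs := ⟨hbok, hsm, hlmp, hamq, hb0⟩
  -- the window
  obtain ⟨hq1, hq2, hq3, hq4⟩ := hq
  set p : IX5 → ℝ := bp q.1 with hp
  have hpar : prX p ∈ Par := hq1.par
  have hzr : ZR β p := hq1.zr
  have hPp := hPar _ hpar
  have hbN := hDN p hpar hzr
  have hbR := hDR p hpar hzr
  have hRb := hR5 p hpar hzr
  have hLNp := hLN p hpar hzr
  have hLRp := hLR p hpar hzr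
  have hKNp := hKN p hpar hzr
  have hKRp := hKR p hpar hzr
  have hL0p := hL0 _ hpar
  set κ := cκ (prX p) with hκ
  set NN := cN (prX p) with hNN
  set xx := cx' (prX p) with hxx
  set v₀ := q.1 (.inr 0) with hv₀
  set v₁ := q.1 (.inr 1) with hv₁
  set v₂ := q.1 (.inr 2) with hv₂
  set bb := q.1 (.inr 3) with hbb
  set x' := q.2 .am with hx'
  have hev : ∀ i, |S8X.ev X a i - q.1 i| ≤ δ := hw.ev
  have hdiv : ∀ {z c : ℝ}, |z / L - c| ≤ δ → |z - c * L| ≤ δ * L := by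
    intro z c h1
    have h2 : z - c * L = (z / L - c) * L := by field_simp
    rw [h2, abs_mul, abs_of_pos hL0']
    exact mul_le_mul_of_nonneg_right h1 hL0'.le
  have hk : |a.1.l - κ * L| ≤ δ * L := hdiv (hev (.inl (.inl (.inl 0))))
  have hz : |a.1.z - xx * L| ≤ δ * L := hdiv (hev (.inl (.inl (.inl 1))))
  have hu2 : |(a.1.us 2).z - cu (prX p) 2 * L| ≤ δ * L := hdiv (hev (.inl (.inl (.inr 2))))
  have hu3 : |(a.1.us 3).z - cu (prX p) 3 * L| ≤ δ * L := hdiv (hev (.inl (.inl (.inr 3))))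
  have hu4 : |(a.1.us 4).z - cu (prX p) 4 * L| ≤ δ * L := hdiv (hev (.inl (.inl (.inr 4))))
  have hzs : |a.1.zs 2 - p (.inr 1) * L| ≤ δ * L := hdiv (hev (.inl (.inr 1)))
  have hv0 : |(a.2.1 0).z - v₀ * L| ≤ δ * L := hdiv (hev (.inr 0))
  have hv1 : |(a.2.1 1).z - v₁ * L| ≤ δ * L := hdiv (hev (.inr 1))
  have hv2 : |(a.2.1 2).z - v₂ * L| ≤ δ * L := hdiv (hev (.inr 2))
  have hbw : |a.2.2 - bb * L| ≤ δ * L := hdiv (hev (.inr 3))
  have hma : |LN qs - x' * L| ≤ δ * L := by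
    have h1 := hm .am
    rw [mass_am hamq] at h1
    exact hdiv h1
  have hA : |a3 a.1.toBd - NN * L| ≤ 3 * (δ * L) := by
    have e1 : a3 a.1.toBd - NN * L = ((a.1.us 2).z - cu (prX p) 2 * L) +
        ((a.1.us 3).z - cu (prX p) 3 * L) + ((a.1.us 4).z - cu (prX p) 4 * L) := by
      rw [hNN]; unfold E5L770.a3 cN; ring
    rw [e1]
    refine (abs_add_le _ _).trans ?_
    have := abs_add_le ((a.1.us 2).z - cu (prX p) 2 * L) ((a.1.us 3).z - cu (prX p) 3 * L)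
    linarith
  obtain ⟨k1, k2⟩ := abs_le.1 hk
  obtain ⟨z1, z2⟩ := abs_le.1 hz
  obtain ⟨u21, u22⟩ := abs_le.1 hu2
  obtain ⟨zs1, zs2⟩ := abs_le.1 hzs
  obtain ⟨v01, v02⟩ := abs_le.1 hv0
  obtain ⟨v11, v12⟩ := abs_le.1 hv1
  obtain ⟨v21, v22⟩ := abs_le.1 hv2
  obtain ⟨m1, m2⟩ := abs_le.1 hma
  obtain ⟨A1, A2⟩ := abs_le.1 hA
  have htN := hbt.tN p v₀ v₁ v₂ bb x' hq1 hq2
  have htR := hbt.tR p v₀ v₁ v₂ bb x' hq1 hq2
  obtain ⟨bP, hbP, e0b, e4b, w0, w1, w2, hKP, hLP, hbs, htP⟩ : ∃ bP : Fin 5 → ℝ, bP ∈ D5 ∧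
      bP 0 = κ ∧ bP 4 = xx ∧ v₀ ≤ bP 1 ∧ v₁ ≤ bP 2 ∧ v₂ ≤ bP 3 ∧
      max κ (5 / 4 * NN) ≤ Kf bP ∧
      LK Kf bP + max 0 (5 / 4 * NN - κ) / 3 + ℓ bP ≤ L0 (prX p) ∧ bP 1 + bP 2 + bP 3 = NN ∧
      max (tpW c p bb) (2 * (v₀ + v₁ + v₂ + x') - κ) ≤ Tf bP := by
    rcases hq2.1 with hh | hh
    · exact ⟨bN p, hbN, rfl, rfl, hh.1, hh.2.1, hh.2.2, hKNp, hLNp, rfl, htN⟩
    · refine ⟨bR p, hbR, rfl, rfl, hh.1, hh.2.1, hh.2.2, hKRp, hLRp, ?_, htR⟩
      show p (.inr 1) + (cu (prX p) 2 + cu (prX p) 3 - p (.inr 1)) + cu (prX p) 4 =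
        cu (prX p) 2 + cu (prX p) 3 + cu (prX p) 4
      ring
  have hs1 : bb ≤ NN - (v₀ + v₁ + v₂) := hq1.s1
  have hx1 : x' ≤ xx := hq1.x1
  have hcN : NN = cu (prX p) 2 + cu (prX p) 3 + cu (prX p) 4 := rfl
  set n := LN (clN a qs) with hn
  have hnz : n = (a.2.1 0).z + (a.2.1 1).z + (a.2.1 2).z + LN qs := LN_clN a qs
  have hLqs : 0 ≤ LN qs := by
    unfold LN
    refine List.sum_nonneg fun x hx => ?_
    obtain ⟨p', hp', rfl⟩ := List.mem_map.1 hx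
    exact (hg p' hp').2.2
  have g0 := (hlmp 0).2
  have g1 := (hlmp 1).2
  have g2 := (hlmp 2).2
  have hδL : 0 ≤ δ * L := by positivity
  have w0L := mul_le_mul_of_nonneg_right w0 hL0'.le
  have w1L := mul_le_mul_of_nonneg_right w1 hL0'.le
  have w2L := mul_le_mul_of_nonneg_right w2 hL0'.le
  have hx1L := mul_le_mul_of_nonneg_right hx1 hL0'.le
  have hq4L := mul_le_mul_of_nonneg_right hq4 hL0'.le
  have hκp : 0 ≤ κ := by linarith [hPp.κ0]
  have hκpL : 0 ≤ κ * L := by positivity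
  set sv : ℝ := v₀ + v₁ + v₂ + x' with hsv
  have hnup : n ≤ sv * L + 4 * (δ * L) := by
    rw [hnz, hsv]
    linarith
  have hnlow : sv * L - 4 * (δ * L) ≤ n := by
    rw [hnz, hsv]
    linarith
  have hnlo : (κ / 2 - 2 * xx) * L - 4 * (δ * L) ≤ n := by
    rw [hnz]
    linarith
  -- the region
  have rN := hRb.hN
  have rx1 := hRb.x1
  have radm := hRb.adm
  have rN : NN ≤ 102 / 125 * κ := rN
  have rx1 : xx ≤ 1 / 36 * κ := rx1
  have radm : xx ≤ 0 ∨ (NN + xx ≤ 4 / 5 * κ ∧ 2 * NN + 5 * xx ≤ 59 / 36 * κ ∧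
    2 * NN + 6 * xx ≤ 5 / 3 * κ) := radm
  set Yt : ℝ := 2 ^ nw c a with hYt
  have hYt0 : 0 < Yt := by positivity
  set y : ℝ := Real.log Yt with hy
  have hyn : y = Real.log 2 * nw c a := by rw [hy, hYt, Real.log_pow, mul_comm]
  have hy1 : y ≤ max 0 (min (tO a.1.toBd) (tO a.1.toBd + 2 * (c * a.1.l) - 2 * a.2.2)) +
      Real.log 2 := by
    rw [hyn]; exact nW_hi c a
  have hy2 : min (tO a.1.toBd) (tO a.1.toBd + 2 * (c * a.1.l) - 2 * a.2.2) ≤ y := by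
    rw [hyn]; exact nW_lo c a
  have htO : |tO a.1.toBd - top5 (prX p) * L| ≤ 10 * (δ * L) := by
    unfold Sf770.tO E5L770.top5
    exact tO_near hL0' hδ.le (by norm_num) (by norm_num) hk hz hA
  have htt2 : min (2 * NN - κ) (3 / 4 * NN) + 2 * xx ≤ top5 (prX p) := by
    have := hPp.x0
    unfold E5L770.top5
    linarith
  have htt3 : top5 (prX p) ≤ min (2 * NN - κ) (3 / 4 * NN) + 3 * xx := by
    have := hPp.x0
    unfold E5L770.top5
    linarith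
  obtain ⟨F1, F2, F3, F4⟩ := frameX (L := L) (δ := δ) (τ := τ) (κ := κ) (N := NN)
    (x := xx) (l := a.1.l) (tO := tO a.1.toBd) (tt := top5 (prX p)) (n := n) (y := y) (cs := cs)
    (e₁ := τ / 4) (c := c) (b := bb) (b' := a.2.2) (sv := sv) hL0' hδ.le hδτ hτ8 rfl hLτ hcs0
    hc0 hc1 hk htO htt2 htt3 hbw hnup (by rw [hsv]; linarith) hq1.b0 hκp hPp.κ1 hPp.x0
    (by linarith [hPp.N0]) rN rx1 (by rcases radm with h | ⟨h, h', -⟩
                                      · exact Or.inl h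
                                      · exact Or.inr ⟨h, h'⟩) hq1.b1 hy1 hy2
  -- the sets
  set E0 := Real.exp (e0 * a.1.l) with hE0
  set K := Real.exp a.1.l with hK
  set Y' : ℝ := max Yt (X ^ (τ / 4) * Real.exp (2 * n - a.1.l)) with hY'
  have hY'0 : 0 < Y' := hYt0.trans_le (le_max_left _ _)
  have hlX : X ^ (τ / 4) * Real.exp (2 * n - a.1.l) = Real.exp (τ / 4 * L + 2 * n - a.1.l) := by
    rw [Real.rpow_def_of_pos hX0, ← Real.exp_add, ← hL]
    congr 1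
    ring
  have hlY' : Real.log Y' = max y (τ / 4 * L + 2 * n - a.1.l) := by
    rw [hY', hlX]
    have hm : Monotone fun x : ℝ => Real.exp x := Real.exp_monotone
    rw [← Real.exp_log hYt0, ← Real.exp_monotone.map_max, Real.log_exp]
  have hlT : Real.log (Y' * (nm s : ℝ) ^ 2) = max y (τ / 4 * L + 2 * n - a.1.l) + cs := by
    rw [Real.log_mul hY'0.ne' (by positivity), hlY']
  have hL5P : max κ (5 / 4 * NN) - κ ≤ 3 * LK Kf bP := by
    have h1 : 3 * LK Kf bP = Kf bP - κ := by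
      unfold LK
      rw [e0b]
      ring
    linarith
  have F3P : 2 * n - a.1.l ≤ y - Real.log 2 + (3 * LK Kf bP + τ₁) * L := by
    refine F3.trans ?_
    have := mul_le_mul_of_nonneg_right (show max κ (5 / 4 * NN) - κ + τ ≤
      3 * LK Kf bP + τ₁ by linarith) hL0'.le
    linarith
  -- parent data
  set H : ℝ := X ^ δ' with hH
  have hH1 : 1 ≤ H := Real.one_le_rpow hX1.le hδ'.le
  have hs1' : ∀ i, Dq.s1 (a.2.1 i) ≤ H := by
    intro i
    have h1 : mx Dq.s1 (List.ofFn a.2.1) ≤ X ^ δ' := (le_max_right _ _).trans hw.s₁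
    exact (XT71.le_mx (List.mem_ofFn.2 ⟨i, rfl⟩)).trans h1
  have hs2' : ∀ i, Dq.s2 (a.2.1 i) ≤ X ^ B₂ := by
    intro i
    have h1 : mx Dq.s2 (List.ofFn a.2.1) ≤ X ^ B := (le_max_right _ _).trans hw.s₂
    exact ((XT71.le_mx (List.mem_ofFn.2 ⟨i, rfl⟩)).trans h1).trans
      (Real.rpow_le_rpow_of_exponent_le hX1.le hBB)
  have hgran : ∀ p' ∈ qs, p'.z ≤ δ * L := by
    intro p' hp'
    rcases hgl p' hp' with h1 | h1
    · exact absurd (hl p' hp' h1) (Set.notMem_empty _)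
    · unfold Pcs.nl at h1
      rw [div_le_iff₀ hL0'] at h1
      exact h1
  have hδτL : δ * L ≤ τ / 100 * L := mul_le_mul_of_nonneg_right hδτ hL0'.le
  have hτL : 0 ≤ τ * L := by positivity
  have hττL : τ * L ≤ τ₁ * L := mul_le_mul_of_nonneg_right hττ₁ hL0'.le
  have ham : ∀ p' ∈ qs, p'.kd = .am ∧ 0 ≤ p'.z ∧ p'.z ≤ τ₁ * Real.log X ∧
      (nm p'.d : ℝ) ≤ X ^ B₂ ∧ 1 + |p'.t| ≤ H := by
    intro p' hp'
    obtain ⟨s1', s2', z0'⟩ := hg p' hp'
    refine ⟨hamq p' hp', z0', ?_, s2'.trans (Real.rpow_le_rpow_of_exponent_le hX1.le hBB), s1'⟩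
    rw [← hL]
    have := hgran p' hp'
    linarith
  have hxqs : LN qs ≤ (xx + τ₁) * L := by linarith
  have hkk : |a.1.l - κ * L| ≤ τ₁ * L := hk.trans (by linarith)
  have hkk' : |a.1.l - bP 0 * L| ≤ τ₁ * L := by rw [e0b]; exact hkk
  have hxqs' : LN qs ≤ (bP 4 + τ₁) * L := by rw [e4b]; exact hxqs
  have hPDP : PD X τ₁ B₂ H N bP 1 a.2.1 qs a.1.l := by
    refine ⟨one_ne_zero, ?_, hH1, fun i => (hlmp i).1, fun i => (hlmp i).2, fun i => hs2' i,
      fun i => hs1' i, ?_, ?_, ?_, ham, hlen, hxqs', hkk'⟩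
    · rw [nm_one, Nat.cast_one]
      exact Real.one_le_rpow hX1.le hB0.le
    · rw [← hL]
      linarith
    · rw [← hL]
      linarith
    · rw [← hL]
      linarith
  have hcl : [a.2.1 0, a.2.1 1, a.2.1 2] ++ qs = clN a qs := (clN_eq a qs).symm
  have hlo : (bP 0 / 2 - 2 * bP 4 - τ₁) * L ≤ LN (clN a qs) := by
    rw [e0b, e4b, ← hn]
    linarith
  have hbt1 := hbt.bt p v₀ v₁ v₂ bb x' hq1 hq2
  have htpW : tpW c p bb = min (top5 (prX p)) (top5 (prX p) + 2 * (c * κ) - 2 * bb) := rfl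
  rw [← htpW] at F1
  rw [← hκ] at hbt1
  rw [← hsv] at hbt1
  have hTleP : Real.log (Y' * (nm s : ℝ) ^ 2) ≤ (Tf bP + τ₁) * Real.log X := by
    rw [hlT, ← hL]
    refine F1.trans (mul_le_mul_of_nonneg_right (by linarith) hL0'.le)
  set th : ℝ := max 0 (5 / 4 * NN - κ) / 3 with hth
  have hth0 : 0 ≤ th := by
    have := le_max_left 0 (5 / 4 * NN - κ)
    rw [hth]
    linarith
  have htpt : tpW c p bb ≤ top5 (prX p) := by rw [htpW]; exact min_le_left _ _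
  have hsvN : sv ≤ NN + xx := by rw [hsv]; linarith [hq1.b0]
  have hK4 := (tK_ok hPp.x0 (hx4 _ hpar) (htpt.trans htt3) hsvN).2
  have h3th : 3 * th = max 0 (5 / 4 * NN - κ) := by rw [hth]; ring
  have hTKP : Real.log (Y' * (nm s : ℝ) ^ 2) ≤ (Kf bP - (bP 1 + bP 2 + bP 3) / 2 -
      bP 4 + 3 * th + τ₁) * Real.log X := by
    rw [hlT, ← hL, hbs, e4b, h3th]
    refine F1.trans (mul_le_mul_of_nonneg_right ?_ hL0'.le)
    linarith
  obtain ⟨hFL, hTL⟩ := hfb X hX1' bP hbP 1 a.2.1 qs a.1.l H hPDP _ hTleP th hth0 hTKP M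
    le_rfl (by rw [hcl]; exact hlo)
  set F : ℝ := H ^ M₁ * X ^ (LK Kf bP + th + ℓ bP + ε / 16) with hF
  have hF0 : 0 ≤ F := by positivity
  set T₀ : ℝ := Yt / 2 with hT₀
  have hT₀0 : 0 < T₀ := by positivity
  have hlT₀ : Real.log T₀ = y - Real.log 2 := by
    rw [hT₀, Real.log_div hYt0.ne' (by norm_num)]
  have hlE : Real.log E0 = e0 * a.1.l := by rw [hE0, Real.log_exp]
  have hEE : (e1 * κ - τ₁) * L ≤ Real.log E0 := by
    rw [hlE]
    have h1 : e1 * κ ≤ e0 * κ := mul_le_mul_of_nonneg_right he1 hκp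
    have h2 := mul_le_mul_of_nonneg_right h1 hL0'.le
    have h3 : e0 * (κ * L - δ * L) ≤ e0 * a.1.l :=
      mul_le_mul_of_nonneg_left (by linarith) he0
    have h4 : e0 * δ * L ≤ τ * L := mul_le_mul_of_nonneg_right hδe hL0'.le
    linarith
  have hTL' := hTL (Real.log T₀) (Real.log E0) (by rw [e0b, ← hL]; exact hEE) (by
      rw [hcl, ← hn, hlT₀, ← hL]
      exact F3P)
  rw [hcl] at hFL hTL'
  -- the inputs
  have hw' : ∀ {δ₀ δ₀' : ℝ}, δ ≤ δ₀ → δ' ≤ δ₀' → Win S8X q.1 δ₀ N B δ₀' X a :=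
    fun h1 h2 => hw.mono hX1.le h1 le_rfl le_rfl h2
  have hgl' : ∀ {δ₀ : ℝ}, δ ≤ δ₀ → ∀ p' ∈ qs, Dq.lump p' ∨ Dq.nl X p' ≤ δ₀ :=
    fun h1 p' hp' => (hgl p' hp').imp id fun h2 => h2.trans h1
  have hm' : ∀ {δ₀ : ℝ}, δ ≤ δ₀ → ∀ t, |Dq.mass X qs t - q.2 t| ≤ δ₀ :=
    fun h1 t => (hm t).trans h1
  have hg' : ∀ {δ₀' : ℝ}, δ' ≤ δ₀' → Dq.Good X δ₀' B qs :=
    fun h1 p' hp' => ⟨(hg p' hp').1.trans (Real.rpow_le_rpow_of_exponent_le hX1.le h1),
      (hg p' hp').2⟩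
  have hqD : q ∈ Dom8X c β Par (SinL β) := ⟨hq1, hq2, hq3, hq4⟩
  set U : ℝ := X ^ (E8X L0 q + ε / 2) with hU
  have hU0 : 0 < U := by positivity
  have hE2 := he2 X hX4' a qs hlen (hgl' hδ2) q hqD (hw' hδ2 hd2) (hm' hδ2) (hg' hd2) hl
  have hE3 := he3 X hX5' a qs hlen (hgl' hδ3) q hqD (hw' hδ3 hd3) (hm' hδ3) (hg' hd3) hl
  unfold E2S at hE2
  unfold E3S at hE3
  rw [if_pos hok] at hE2 hE3
  -- the sequence
  have hdom := dom_list (hP lam) h hsm 1 (clN a qs)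
  have hlen3 : (clN a qs).length ≤ N + 3 := by
    rw [clN_eq, List.length_append]
    simp only [List.length_cons, List.length_nil]
    omega
  have hcz : ∀ p' ∈ clN a qs, 0 ≤ p'.z := by
    intro p' hp'
    rw [clN_eq] at hp'
    rcases List.mem_append.1 hp' with h1 | h1
    · simp only [List.mem_cons, List.not_mem_nil, or_false] at h1
      rcases h1 with rfl | rfl | rfl
      · exact g0
      · exact g1
      · exact g2
    · exact (hg p' h1).2.2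
  have hczL : ∀ p' ∈ clN a qs, 0 ≤ p'.z ∧ p'.z ≤ Real.log X := by
    intro p' hp'
    refine ⟨hcz p' hp', ?_⟩
    have h1 : p'.z ≤ n := by
      rw [hn]
      unfold LN
      refine List.single_le_sum ?_ _ (List.mem_map.2 ⟨p', hp', rfl⟩)
      intro x hx
      obtain ⟨p'', hp'', rfl⟩ := List.mem_map.1 hx
      exact hcz p'' hp''
    exact h1.trans F4
  have hn0 : 0 ≤ n := by rw [hnz]; positivity
  have hal : alS π h (lam, s) a qs = sqc 1 (alL h ((clN a qs).map (Pt (π lam) s))) := rfl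
  have hYc0 : 0 ≤ YcX Rh a qs := (Real.exp_pos _).le
  have hsup : ∀ m, alS π h (lam, s) a qs m ≠ 0 → m ∈ S (YcX Rh a qs) := by
    intro m hm
    have hadm := Adm_list (h := h) (N := (clN a qs).length) hRh0 hRh (π lam) 1 (ps := clN a qs)
      le_rfl (Y := YcX Rh a qs) (Real.exp_le_exp.2 (by linarith))
    refine hadm.sup m fun h0 => hm ?_
    have := hdom.le m
    rw [h0, norm_zero] at this
    exact norm_le_zero_iff.1 this
  set Yr : ℝ := Real.exp (n + ((N + 3 : ℕ) : ℝ) * Rh + 1) with hYr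
  have hYcYr : YcX Rh a qs ≤ Yr := by
    refine Real.exp_le_exp.2 ?_
    have : ((clN a qs).length : ℝ) * Rh ≤ ((N + 3 : ℕ) : ℝ) * Rh :=
      mul_le_mul_of_nonneg_right (by exact_mod_cast hlen3) hRh0
    linarith
  have hYrX : Yr ≤ X ^ B₂ := by
    rw [Real.rpow_def_of_pos hX0, ← hL]
    refine Real.exp_le_exp.2 ?_
    have : L * 3 ≤ L * B₂ := mul_le_mul_of_nonneg_left hB3 hL0'.le
    linarith
  have hJo : JS (nw c a) = JW (Real.sqrt Yt) (1 / 10) Yt := rfl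
  have hprim : ∀ x ∈ JS (nw c a), IsPrim x.1 := fun x hx => (okJ_JW _ _ _).prim x hx
  have hX3eq := X3_Y (E0 := E0) hYc0 hYcYr hsup hprim (omP (nw c a))
  have hX2eq := X2_Y (E0 := E0) hYc0 hYcYr hsup hprim (omP (nw c a))
  have hom : ∀ x ∈ JS (nw c a), omP (nw c a) x = omW (nw c a) x := fun x hx => (omW_eq hx).symm
  have hX3om := X3_om (Y := Yr) (E0 := E0) hom (alS π h (lam, s) a qs)
  have hX2om := X2_om (Y := Yr) (E0 := E0) hom (alS π h (lam, s) a qs)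
  have hstS : ∀ k, stS π h e0 c (lam, s) a qs k = StE E0 (JS (nw c a)) (omW (nw c a))
      (alS π h (lam, s) a qs) k := fun k => StE_om hom _ k
  set D' : ℝ := Real.sqrt Y' with hD'
  have hYY' : Yt ≤ Y' := le_max_left _ _
  have hDD' : Real.sqrt Yt ≤ D' := Real.sqrt_le_sqrt hYY'
  have hK1 : 1 ≤ K := by
    rw [hK]
    apply Real.one_le_exp
    have h3 : 8 / 9 * L ≤ κ * L := mul_le_mul_of_nonneg_right hPp.κ0 hL0'.le
    have h4 : τ * L ≤ 1 / 8 * L := mul_le_mul_of_nonneg_right hτ8 hL0'.le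
    linarith
  have hlK : Real.log K = a.1.l := by rw [hK, Real.log_exp]
  have hnsX : Y' * (nm s : ℝ) ^ 2 ≤ X := by
    rw [← Real.exp_log (show 0 < Y' * (nm s : ℝ) ^ 2 by positivity), ← Real.exp_log hX0, hlT]
    exact Real.exp_le_exp.2 F2
  have hKY : Real.exp (2 * n) * X ^ (τ / 4) ≤ K * Y' := by
    have h1 : X ^ (τ / 4) * Real.exp (2 * n - a.1.l) ≤ Y' := le_max_right _ _
    have h2 := mul_le_mul_of_nonneg_left h1 (show 0 ≤ K by linarith)
    refine le_trans (le_of_eq ?_) h2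
    rw [hK]
    have e : Real.exp (2 * n) = Real.exp a.1.l * Real.exp (2 * n - a.1.l) := by
      rw [← Real.exp_add]; congr 1; ring
    rw [e]
    ring
  have hB21 : (1 : ℝ) ≤ X ^ B₂ := Real.one_le_rpow hX1.le hB0.le
  have key := HI X hX3 (π lam) (hP lam) 1 (clN a qs) hlen3 hczL F4
    K Yr (Real.sqrt Yt) (1 / 10) Yt D' Y' T₀ E0 F F hK1 le_rfl hYrX
    (Real.sqrt_nonneg _) hYt0 hDD' hYY' (by rw [hD', Real.sq_sqrt hY'0.le]) hnsX
    hKY
    (by norm_num) (Real.exp_pos _) hT₀0 hF0 hF0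
    (by rw [hlK]; exact hFL) (by rw [hlK]; exact hTL') (alS π h (lam, s) a qs) hdom
    (omW (nw c a)) (fun x => (omW_bd _ x).2) (fun x hx => omW_one hx)
    (fun x hx hn' => by rw [omW_eq hx]; exact P10146.omP_out hx hn')
    (fun k => cutE (Real.exp (a.1.l / 20)) k) U U (by
      have h1 : (fun k => if cutE (Real.exp (a.1.l / 20)) k then
          stS π h e0 c (lam, s) a qs k else 0) = fun k => if cutE (Real.exp (a.1.l / 20)) k then
          StE E0 (JS (nw c a)) (omW (nw c a)) (alS π h (lam, s) a qs) k else 0 := by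
        funext k
        rw [hstS k]
      rw [h1, hX2eq, hX2om] at hE2
      exact hE2) (by
      have h1 : (fun k => if cutE (Real.exp (a.1.l / 20)) k then
          stS π h e0 c (lam, s) a qs k else 0) = fun k => if cutE (Real.exp (a.1.l / 20)) k then
          StE E0 (JS (nw c a)) (omW (nw c a)) (alS π h (lam, s) a qs) k else 0 := by
        funext k
        rw [hstS k]
      have h2 := (le_max_right _ _).trans hE3
      rw [h1, hX3eq, hX3om] at h2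
      have h3 := sub_le_iff_le_add.1 h2
      rw [add_comm] at h3
      exact h3)
  have hnle : nw c a ≤ nO a.1.toBd := min_le_left _ _
  have hM2 : ErS π h e0 c R (lam, s) a qs = ∑' k : Eis, (if IsPrim k ∧
      cutE (Real.exp (a.1.l / 20)) k then wM (R lam) (nm k / K) *
        ‖CS (alS π h (lam, s) a qs) k - (pC : ℂ) * StE E0 (JW (Real.sqrt Yt) (1 / 10) Yt)
          (omW (nw c a)) (alS π h (lam, s) a qs) k‖ ^ 2 else 0) := by
    unfold ErS
    rw [if_pos hok]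
    unfold M2
    refine tsum_congr fun k => ?_
    have e1 : StE E0 (JS (nO a.1.toBd)) (omP (nw c a)) (alS π h (lam, s) a qs) k =
        StE E0 (JS (nw c a)) (omW (nw c a)) (alS π h (lam, s) a qs) k :=
      (StE_own hnle E0 _ k).trans (StE_om hom _ k)
    unfold uM P1f54.Er
    split_ifs
    · show _ * ‖CS (alS π h (lam, s) a qs) k - (pC : ℂ) *
        StE E0 (JS (nO a.1.toBd)) (omP (nw c a)) (alS π h (lam, s) a qs) k‖ ^ 2 = _
      rw [e1]
      rfl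
    · rw [zero_mul]
  rw [hM2]
  refine key.trans ?_
  rw [← hn]
  -- the exponents
  have hE8 : E8X L0 q = κ + sv + L0 (prX p) := by
    have h1 : E8X L0 q = κ + (v₀ + v₁ + v₂) + x' + L0 (prX p) := rfl
    rw [h1, hsv]
    ring
  have hδε' : 10 * (δ * L) ≤ ε / 10 * L := by
    have := mul_le_mul_of_nonneg_right hδε hL0'.le
    linarith
  have hεL : 0 ≤ ε * L := by positivity
  have hKn : K * Real.exp n ≤ Real.exp ((κ + sv) * L + 5 * (δ * L)) := by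
    rw [hK, ← Real.exp_add]
    refine Real.exp_le_exp.2 ?_
    linarith
  have hXexp : ∀ z : ℝ, X ^ z = Real.exp (z * L) := fun z => by
    rw [Real.rpow_def_of_pos hX0, ← hL, mul_comm]
  have hHM : ∀ m : ℕ, (m : ℝ) ≤ m₀ → H ^ m ≤ Real.exp (ε / 16 * L) := by
    intro m hm'
    rw [hH, hXexp, ← Real.exp_nat_mul]
    refine Real.exp_le_exp.2 ?_
    have h1 : δ' * m₀ ≤ ε / 16 := by
      have := mul_le_mul_of_nonneg_right hdM hm₀1.le
      refine this.trans (le_of_eq ?_)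
      field_simp
    have h2 : (m : ℝ) * δ' ≤ ε / 16 := by
      refine le_trans ?_ h1
      rw [mul_comm]
      exact mul_le_mul_of_nonneg_left hm' hδ'.le
    calc (m : ℝ) * (δ' * L) = (m : ℝ) * δ' * L := by ring
      _ ≤ _ := mul_le_mul_of_nonneg_right h2 hL0'.le
  have hM₁m : (M₁ : ℝ) ≤ m₀ := by
    have : (0 : ℝ) ≤ (N : ℝ) := Nat.cast_nonneg _
    linarith
  have hFle : ∀ x : ℝ, x ≤ L0 (prX p) → H ^ M₁ * X ^ (x + ε / 16) ≤
      Real.exp (L0 (prX p) * L + ε / 4 * L) := by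
    intro x hx
    rw [hXexp]
    calc H ^ M₁ * Real.exp ((x + ε / 16) * L) ≤
          Real.exp (ε / 16 * L) * Real.exp ((x + ε / 16) * L) :=
          mul_le_mul_of_nonneg_right (hHM M₁ hM₁m) (Real.exp_pos _).le
      _ = Real.exp (x * L + ε / 8 * L) := by
          rw [← Real.exp_add]; congr 1; ring
      _ ≤ _ := by
          refine Real.exp_le_exp.2 ?_
          have : x * L ≤ L0 (prX p) * L := mul_le_mul_of_nonneg_right hx hL0'.le
          linarith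
  have hFN := hFle (LK Kf bP + th + ℓ bP) hLP
  have hFB : FbS K n (Y' * (nm s : ℝ) ^ 2) ≤ Real.exp (L0 (prX p) * L + ε / 4 * L) := by
    unfold FbS
    have h3 : (Y' * (nm s : ℝ) ^ 2 / K) ^ (1 / 3 : ℝ) =
        Real.exp ((Real.log (Y' * (nm s : ℝ) ^ 2) - a.1.l) / 3) := by
      have hpos : 0 < Y' * (nm s : ℝ) ^ 2 / K := by positivity
      rw [Real.rpow_def_of_pos hpos, Real.log_div (by positivity) (by positivity), hlK]
      congr 1
      ring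
    rw [h3, ← Real.exp_add]
    refine Real.exp_le_exp.2 ?_
    have h5 := mul_le_mul_of_nonneg_right hbt1 hL0'.le
    have h6 := F1
    rw [← hlT] at h6
    have h7 : τ * L ≤ ε / 16 * L := mul_le_mul_of_nonneg_right hτε hL0'.le
    set MM := max (tpW c p bb) (2 * sv - κ)
    linarith
  have h1F : 1 + F + F + FbS K n (Y' * (nm s : ℝ) ^ 2) ≤
      4 * Real.exp (L0 (prX p) * L + ε / 4 * L) := by
    have : 1 ≤ Real.exp (L0 (prX p) * L + ε / 4 * L) := Real.one_le_exp (by positivity)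
    linarith
  have hXe16 : X ^ (ε / 16) = Real.exp (ε / 16 * L) := hXexp _
  have hUe : U = Real.exp ((κ + sv + L0 (prX p)) * L + ε / 2 * L) := by
    rw [hU, hE8, hXexp]
    congr 1
    ring
  have hFb0 : 0 ≤ FbS K n (Y' * (nm s : ℝ) ^ 2) := FbS_nonneg (by linarith) (by positivity) _
  have hS0 : 0 ≤ 1 + F + F + FbS K n (Y' * (nm s : ℝ) ^ 2) := by linarith
  have t1 : C * X ^ (ε / 16) * (K * Real.exp n) * (1 + F + F +
      FbS K n (Y' * (nm s : ℝ) ^ 2)) ≤ 4 * C * U := by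
    rw [hXe16]
    calc C * Real.exp (ε / 16 * L) * (K * Real.exp n) * (1 + F + F +
          FbS K n (Y' * (nm s : ℝ) ^ 2)) ≤
          C * Real.exp (ε / 16 * L) * Real.exp ((κ + sv) * L + 5 * (δ * L)) *
            (4 * Real.exp (L0 (prX p) * L + ε / 4 * L)) := by
          gcongr
      _ = 4 * C * (Real.exp (ε / 16 * L) * Real.exp ((κ + sv) * L + 5 * (δ * L)) *
            Real.exp (L0 (prX p) * L + ε / 4 * L)) := by ring
      _ ≤ 4 * C * U := by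
          refine mul_le_mul_of_nonneg_left ?_ (by positivity)
          rw [hUe, ← Real.exp_add, ← Real.exp_add]
          refine Real.exp_le_exp.2 ?_
          linarith
  have hfin : 4 * C * U + 2 * pC * U + pC ^ 2 * U ≤ CC * U := by
    rw [hCC]
    have e1 : (4 * C + 2 * pC + pC ^ 2 + 1) * U = 4 * C * U + 2 * pC * U + pC ^ 2 * U + U := by
      ring
    rw [e1]
    linarith
  calc _ ≤ 4 * C * U + 2 * pC * U + pC ^ 2 * U :=
        add_le_add (add_le_add t1 le_rfl) le_rfl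
    _ ≤ CC * U := hfin
    _ ≤ X ^ (ε / 2) * U := mul_le_mul_of_nonneg_right hLC hU0.le
    _ = X ^ (E8X L0 q + ε) := by
        rw [hU, ← Real.rpow_add hX0]
        congr 1
        ring

end Crest.Agent.R017.P10X764
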