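import Crest.Agent.R017.E3Tr_744
import Crest.Agent.R017.P10Sb_764
import Crest.Agent.R017.FrS_829

/-!
# Row 17, exceptional class, E3 (helper744): the T-half, single lists

* **`tnS`**, **`tbS`** : helper61's inputs (T), (Tb) of E3SU
-/

set_option autoImplicit false
set_option linter.unusedVariables false

noncomputable section

open Finset
open scoped Classical

namespace Crest.Agent.R017.E3Nx744

open Crest.Agent.R012 Crest.Agent.R012.Eis Crest.Agent.R012.MC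
open Crest.Agent.R012.LS2 (S mem_S)
open Crest.Agent.R017.C70
open Crest.Agent.R017.OT551
open Crest.Agent.R017.B770
open Crest.Agent.R017.FE47 (PU cx)
open Crest.Agent.R017.Prov71
open Crest.Agent.R017.ER911
open Crest.Agent.R017.I1146 hiding cN
open Crest.Agent.R017.XG702 (Pcs)
open Crest.Agent.R017.XT71 (Sys Win mx)
open Crest.Agent.R017.E5B71 Crest.Agent.R017.E5P571 Crest.Agent.R017.E5L770
open Crest.Agent.R017.ExBox960 Crest.Agent.R017.ExP960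
open Crest.Agent.R017.Sf770
open Crest.Agent.R017.P1l54 (ParOK)
open Crest.Agent.R017.P1X960
open Crest.Agent.R017.Sup271 (NPm)
open Crest.Agent.R017.PX764 (Dk)
open Crest.Agent.R017.TM708 (PD R5)
open Crest.Agent.R017.P10X764
open Crest.Agent.R017.E3Kc548 (LI afT)
open Crest.Agent.R017.E3Z548 (LVn)
open Crest.Agent.R017.E3N146 (ShT Tf Bf)
open Crest.Agent.R017.TNj90 (JBc)
open Crest.Agent.R017.RnP571 (Dh)
open Crest.Agent.R017.FrX579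

open Crest.Agent.R017.FrS829

/-- the shift of the numbers of the lists as a factor, single list -/
lemma jbc_shiftS {Y W F J lm : ℝ} {a : BcX} {qs : List Pq} {al : Eis → ℂ} (hF : 0 ≤ F)
    (hlm : 0 ≤ lm) (h : JBc Y W F J (ShSl lm a qs) al) :
    JBc Y W (F * Real.exp lm) J
      (shB 0 (LN (clN a qs)) (ShT (k5X a) a.1.z (a.2.1 2).z (LN (clN a qs)))) al := by
  intro d hd B V h1 h2 h3 h4 t
  refine (h d hd B V h1 h2 h3 h4 t).trans ?_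
  refine mul_le_mul_of_nonneg_right ?_ (Real.rpow_nonneg (by positivity) _)
  rw [mul_assoc, ← Real.exp_add]
  refine mul_le_mul_of_nonneg_left (Real.exp_le_exp.2 ?_) hF
  unfold ShSl shB
  refine max_le ?_ ?_
  · have := le_max_left (ShT (k5X a) a.1.z (a.2.1 2).z (LN (clN a qs)) (Real.log (nm d))
      (Real.log B) (Real.log V)) (5 / 3 * LN (clN a qs) +
        I1K764.bcx 0 (Real.log (nm d)) (Real.log B) (Real.log V))
    linarith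
  · have := le_max_right (ShT (k5X a) a.1.z (a.2.1 2).z (LN (clN a qs)) (Real.log (nm d))
      (Real.log B) (Real.log V)) (5 / 3 * LN (clN a qs) +
        I1K764.bcx 0 (Real.log (nm d)) (Real.log B) (Real.log V))
    linarith

variable {Λ : Type*}

set_option maxHeartbeats 4000000 in
/-- **the T-half of E3 of `P1_0` in class E** -/
theorem tnS {π : Λ → DPar} {h : ℝ → ℝ} {c₀ : ℝ} (hpu : PU h c₀) (hP : ∀ lam, (π lam).OK)
    {Rh : ℝ} (hRh0 : 0 ≤ Rh) (hRh : ∀ u, cx h u ≠ 0 → |u| ≤ Rh) {e0 : ℝ}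
    (he0 : 0 ≤ e0) (he0' : e0 ≤ 1 / 64) {c β : ℝ} (hc0 : 0 ≤ c) (hc1 : c ≤ 1)
    {Par : Set (Fin 3 ⊕ Fin 5 → ℝ)} (hPar : ∀ p ∈ Par, ParOK p)
    {D5 : Set (Fin 5 → ℝ)} {ℓ Kf Tf : (Fin 5 → ℝ) → ℝ}
    (hDN : ∀ p : IX5 → ℝ, prX p ∈ Par → ZR β p → bN p ∈ D5)
    (hDR : ∀ p : IX5 → ℝ, prX p ∈ Par → ZR β p → bR p ∈ D5)
    (hR5 : ∀ p : IX5 → ℝ, prX p ∈ Par → ZR β p → R5 (bN p))
    (hKN : ∀ p : IX5 → ℝ, prX p ∈ Par → ZR β p →
      Kf (bN p) = max (cκ (prX p)) (5 / 4 * cN (prX p)))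
    (hKR : ∀ p : IX5 → ℝ, prX p ∈ Par → ZR β p →
      Kf (bR p) = max (cκ (prX p)) (5 / 4 * cN (prX p)))
    (hTN : ∀ (p : IX5 → ℝ) (v₀ v₁ v₂ b x' : ℝ), ChC c β Par p v₀ v₁ v₂ b x' →
      SinL β p v₀ v₁ v₂ → tpW c p b ≤ Tf (bN p))
    (hTR : ∀ (p : IX5 → ℝ) (v₀ v₁ v₂ b x' : ℝ), ChC c β Par p v₀ v₁ v₂ b x' →
      SinL β p v₀ v₁ v₂ → tpW c p b ≤ Tf (bR p))
    (hcb : CBA π h Dk Kf Tf D5 ℓ)
    {Dp : (Fin 3 ⊕ Fin 5 → ℝ) → ℝ}
    (hDh : ∀ p ∈ Par, Dh (cκ p) (cu p 2) (cu p 3) (cu p 4) (cx' p) (Dp p))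
    (hcD : ∀ p ∈ Par, 4 * (c * cκ p) ≤ Dp p)
    (hβ : 17 / 100 ≤ β) {L0 : (Fin 3 ⊕ Fin 5 → ℝ) → ℝ}
    (hL0 : ∀ p : IX5 → ℝ, prX p ∈ Par → ZR β p →
      max 0 (5 / 4 * cN (prX p) - cκ (prX p)) + lmX ℓ Kf Tf p ≤ L0 (prX p)) :
    ∀ ε : ℝ, 0 < ε → ∃ δ : ℝ, 0 < δ ∧ ∀ (lam : Λ × Eis) (N : ℕ) (B cc : ℝ), 1 ≤ cc →
    ∃ δ' : ℝ, 0 < δ' ∧ ∃ X₀ : ℝ, 1 < X₀ ∧ ∀ X : ℝ, X₀ ≤ X → ∀ (a : BcX) (qs : List Pq),
      qs.length ≤ N → (∀ p ∈ qs, Dq.lump p ∨ Dq.nl X p ≤ δ) → ∀ q ∈ Dom8X c β Par (SinL β),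
      Win S8X q.1 δ N B δ' X a → (∀ t, |Dq.mass X qs t - q.2 t| ≤ δ) → Dq.Good X δ' B qs →
      (∀ p ∈ qs, ¬ Dq.lump p) → okCX (π lam.1) lam.2 a qs → ∀ Yg : ℝ,
      ∑ i ∈ LI (1 / 10) (2 ^ nw c a), ∑ d ∈ (JS (nw c a)).image Prod.fst,
        ∑ e ∈ S (Real.exp (e0 * a.1.l)),
        LVn (afT (alS π h lam a qs) (Real.exp (e0 * a.1.l))) {d} {e} cc Yg (Real.exp a.1.l)
          (HX cc a (LN (clN a qs)) i d) (Real.exp i) (Real.exp 1 * 2 ^ nw c a)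
          (Real.exp (a.1.l / 22)) 2 (Real.sqrt (cc * Real.exp i)) 0 ≤ X ^ (E8X L0 q + ε) := by
  intro ε hε
  obtain ⟨t₀, ht₀, ht₀', ht₀ε⟩ : ∃ t₀ : ℝ, 0 < t₀ ∧ t₀ ≤ 1 / 1000000 ∧ t₀ ≤ ε / 2000 :=
    ⟨min (1 / 1000000) (ε / 2000), lt_min (by norm_num) (by positivity), min_le_left _ _,
      min_le_right _ _⟩
  have hε8 : 0 < ε / 8 := by positivity
  obtain ⟨δ, hδ, HF⟩ := frS hpu hP hRh0 hRh he0 (he0'.trans (by norm_num)) hc0 hc1 hPar hDN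
    hDR hR5 hKN hKR hTN hTR hcb hε8 ht₀
  refine ⟨δ, hδ, fun lam N B cc hcc => ?_⟩
  have he1 : (1 : ℝ) ≤ Real.exp 1 := Real.one_le_exp zero_le_one
  obtain ⟨B₂, J, R', hB₂, hJ, hR', δ', hδ', X₁, hX₁, HF⟩ := HF lam N B (cc * Real.exp 1)
    (one_le_mul_of_one_le_of_one_le hcc he1)
  obtain ⟨C, hC, HT⟩ := tnF (R := R') hR' hε8 hJ (B₂ := B₂) (by linarith) hcc
  have hlc : 0 ≤ Real.log cc := Real.log_nonneg hcc
  set Q : ℝ := 2 + (2 * Real.log cc + 4) / t₀ + 8 * Real.log (C + 1) / ε with hQ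
  have hQ1 : 0 ≤ (2 * Real.log cc + 4) / t₀ := by positivity
  have hC1 : 0 ≤ Real.log (C + 1) := Real.log_nonneg (by linarith)
  have hQ2 : 0 ≤ 8 * Real.log (C + 1) / ε := by positivity
  refine ⟨δ', hδ', max X₁ (Real.exp Q), hX₁.trans_le (le_max_left _ _), ?_⟩
  intro X hX a qs hlen hgl q hq hw hm hg hl hok Yg
  have hX1' : X₁ ≤ X := (le_max_left _ _).trans hX
  have hXQ : Real.exp Q ≤ X := (le_max_right _ _).trans hX
  have hX1 : 1 < X := by linarith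
  have hX0 : 0 < X := by linarith
  set L := Real.log X with hL
  have hQL : Q ≤ L := by
    have := Real.log_le_log (Real.exp_pos Q) hXQ
    rwa [Real.log_exp] at this
  have hL0' : 0 < L := by linarith
  have hLt : 2 * Real.log cc + 4 ≤ t₀ * L := by
    have h1 : (2 * Real.log cc + 4) / t₀ ≤ L := by linarith
    rw [div_le_iff₀ ht₀] at h1
    linarith
  have hCX : C ≤ X ^ (ε / 8) := by
    have h1 : 8 * Real.log (C + 1) / ε ≤ L := by linarith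
    rw [div_le_iff₀ hε] at h1
    have h2 : C + 1 ≤ X ^ (ε / 8) := by
      rw [Real.rpow_def_of_pos hX0, ← hL, ← Real.exp_log (show 0 < C + 1 by linarith)]
      exact Real.exp_le_exp.2 (by linarith)
    linarith
  have FR := HF X hX1' a qs hlen hgl q hq hw hm hg hl hok
  obtain ⟨X3, kl, zl, Al, nl, n0, n1, np, yl, yX, Y1, YX, EX, jb, adm⟩ := FR
  obtain ⟨hq1, hq2, hq3, hq4⟩ := hq
  set p : IX5 → ℝ := bp q.1 with hp
  have hpar : prX p ∈ Par := hq1.par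
  have hzr : ZR β p := hq1.zr
  have hPp := hPar _ hpar
  set n := LN (clN a qs) with hn
  have hκp : 0 < cκ (prX p) := by linarith [hPp.κ0]
  have hlm0 : 0 ≤ lmX ℓ Kf Tf p := le_max_left _ _
  have hXB : X ≤ X ^ B₂ := by
    calc X = X ^ (1 : ℝ) := (Real.rpow_one X).symm
      _ ≤ X ^ B₂ := Real.rpow_le_rpow_of_exponent_le hX1.le hB₂
  have hvt : (1 : ℝ) + nw c a * Real.log 2 ≤ tpW c p (q.1 (.inr 3)) * L + 2 * (t₀ * L) := by
    rw [Real.log_pow] at yl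
    linarith
  obtain ⟨hTf, hBf⟩ := TBs (N := cN (prX p)) (x := cx' (prX p)) (y₃ := cu (prX p) 2)
    (y₄ := cu (prX p) 3) (u := cu (prX p) 4) (D := Dp (prX p))
    (v₀ := q.1 (.inr 0)) (v₁ := q.1 (.inr 1)) (v₂ := q.1 (.inr 2)) (x' := q.2 .am)
    (b := q.1 (.inr 3)) (c := c) (β := β) (t₀ := t₀) (vt := 1 + nw c a * Real.log 2) (n := n)
    hL0' hPp.κ0 hPp.κ1 ht₀.le ht₀' rfl (hDh _ hpar)
    (hcD _ hpar) hc0 hβ hq2.2 hq1.x0 hq1.x1 hq1.s2 hq1.s1 hq1.b0 hvt nl n0 n1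
  have hprim : ∀ m, alS π h lam a qs m ≠ 0 → IsPrim m := fun m hm0 =>
    ((mem_S (by linarith)).1 (adm.sup m hm0)).2.1
  have hlmL : 0 ≤ lmX ℓ Kf Tf p * L := by positivity
  have hjb2 := jbc_shiftS (Real.rpow_nonneg hX0.le _) hlmL jb
  have ecw : cc * Real.exp 1 * 2 ^ nw c a = cc * (Real.exp 1 * 2 ^ nw c a) := by ring
  rw [ecw] at hjb2 yX
  have hkA0 : 0 ≤ a.1.l := by
    have h1 := (abs_le.1 kl).1
    have h2 := hBf.t1
    have h3 := hBf.k0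
    have h4 : 0 ≤ t₀ * L := by positivity
    linarith
  have key := HT X X3 (nw c a) (cκ (prX p) * L) (cN (prX p) * L) (cx' (prX p) * L)
    (max 0 (5 / 4 * (cN (prX p) * L) - cκ (prX p) * L)) a.1.l (a3 a.1.toBd) a.1.z
    (max 0 (5 / 4 * a3 a.1.toBd - a.1.l)) n 0 _ _ _ (40 * (t₀ * L)) (t₀ * L)
    (a.2.1 2).z (Real.log cc + 1) e0 (YcX Rh a qs) (X ^ (ε / 8) * Real.exp (lmX ℓ Kf Tf p * L))
    (alS π h lam a qs) hTf hBf rfl rfl (by positivity) (by linarith) kl Al zl hkA0 (by linarith)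
    (by linarith) (by linarith) he0' Y1 YX (yX.trans hXB) (by positivity) hjb2 adm hprim
    (fun i d _ => HX cc a n i d) Yg (fun i d e => HX_pos) (fun i d e hh => HX_small hh)
    (fun i d e hh => HX_large hh)
  refine key.trans ?_
  have hn2 := (abs_le.1 nl).2
  have hL0p := mul_le_mul_of_nonneg_right (hL0 p hpar hzr) hL0'.le
  have hexL : max 0 (5 / 4 * (cN (prX p) * L) - cκ (prX p) * L) =
      max 0 (5 / 4 * cN (prX p) - cκ (prX p)) * L := by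
    rw [max_mul_of_nonneg _ _ hL0'.le, zero_mul]
    congr 1
    ring
  have htL : 0 ≤ t₀ * L := by positivity
  have htε : 1000 * (t₀ * L) ≤ ε / 2 * L := by
    have := mul_le_mul_of_nonneg_right ht₀ε hL0'.le
    linarith
  calc C * X ^ (ε / 8) * (X ^ (ε / 8) * Real.exp (lmX ℓ Kf Tf p * L)) *
        Real.exp (cκ (prX p) * L + n + max 0 (5 / 4 * (cN (prX p) * L) - cκ (prX p) * L) +
          12 * (40 * (t₀ * L)))
      ≤ X ^ (ε / 8) * X ^ (ε / 8) * (X ^ (ε / 8) * Real.exp (lmX ℓ Kf Tf p * L)) *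
        Real.exp (cκ (prX p) * L + n + max 0 (5 / 4 * (cN (prX p) * L) - cκ (prX p) * L) +
          12 * (40 * (t₀ * L))) := by gcongr
    _ = Real.exp (ε / 8 * L * 3 + lmX ℓ Kf Tf p * L + (cκ (prX p) * L + n +
          max 0 (5 / 4 * (cN (prX p) * L) - cκ (prX p) * L) + 12 * (40 * (t₀ * L)))) := by
        rw [Real.rpow_def_of_pos hX0, ← hL]
        simp only [← Real.exp_add]
        congr 1
        ring
    _ ≤ Real.exp (L * (E8X L0 q + ε)) := by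
        refine Real.exp_le_exp.2 ?_
        unfold svX at hn2
        unfold P1X960.E8X
        rw [← hp, hexL]
        nlinarith
    _ = X ^ (E8X L0 q + ε) := by rw [Real.rpow_def_of_pos hX0]

set_option maxHeartbeats 4000000 in
/-- **the T-half with the weight `(N e)⁻¹`, class E** -/
theorem tbS {π : Λ → DPar} {h : ℝ → ℝ} {c₀ : ℝ} (hpu : PU h c₀) (hP : ∀ lam, (π lam).OK)
    {Rh : ℝ} (hRh0 : 0 ≤ Rh) (hRh : ∀ u, cx h u ≠ 0 → |u| ≤ Rh) {e0 : ℝ}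
    (he0 : 0 ≤ e0) (he0' : e0 ≤ 1 / 64) {c β : ℝ} (hc0 : 0 ≤ c) (hc1 : c ≤ 1)
    {Par : Set (Fin 3 ⊕ Fin 5 → ℝ)} (hPar : ∀ p ∈ Par, ParOK p)
    {D5 : Set (Fin 5 → ℝ)} {ℓ Kf Tf : (Fin 5 → ℝ) → ℝ}
    (hDN : ∀ p : IX5 → ℝ, prX p ∈ Par → ZR β p → bN p ∈ D5)
    (hDR : ∀ p : IX5 → ℝ, prX p ∈ Par → ZR β p → bR p ∈ D5)
    (hR5 : ∀ p : IX5 → ℝ, prX p ∈ Par → ZR β p → R5 (bN p))
    (hKN : ∀ p : IX5 → ℝ, prX p ∈ Par → ZR β p →
      Kf (bN p) = max (cκ (prX p)) (5 / 4 * cN (prX p)))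
    (hKR : ∀ p : IX5 → ℝ, prX p ∈ Par → ZR β p →
      Kf (bR p) = max (cκ (prX p)) (5 / 4 * cN (prX p)))
    (hTN : ∀ (p : IX5 → ℝ) (v₀ v₁ v₂ b x' : ℝ), ChC c β Par p v₀ v₁ v₂ b x' →
      SinL β p v₀ v₁ v₂ → tpW c p b ≤ Tf (bN p))
    (hTR : ∀ (p : IX5 → ℝ) (v₀ v₁ v₂ b x' : ℝ), ChC c β Par p v₀ v₁ v₂ b x' →
      SinL β p v₀ v₁ v₂ → tpW c p b ≤ Tf (bR p))
    (hcb : CBA π h Dk Kf Tf D5 ℓ)
    {Dp : (Fin 3 ⊕ Fin 5 → ℝ) → ℝ}
    (hDh : ∀ p ∈ Par, Dh (cκ p) (cu p 2) (cu p 3) (cu p 4) (cx' p) (Dp p))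
    (hcD : ∀ p ∈ Par, 4 * (c * cκ p) ≤ Dp p)
    (hβ : 17 / 100 ≤ β) {L0 : (Fin 3 ⊕ Fin 5 → ℝ) → ℝ}
    (hL0 : ∀ p : IX5 → ℝ, prX p ∈ Par → ZR β p →
      max 0 (5 / 4 * cN (prX p) - cκ (prX p)) + lmX ℓ Kf Tf p ≤ L0 (prX p)) :
    ∀ ε : ℝ, 0 < ε → ∃ δ : ℝ, 0 < δ ∧ ∀ (lam : Λ × Eis) (N : ℕ) (B cc : ℝ), 1 ≤ cc →
    ∃ δ' : ℝ, 0 < δ' ∧ ∃ X₀ : ℝ, 1 < X₀ ∧ ∀ X : ℝ, X₀ ≤ X → ∀ (a : BcX) (qs : List Pq),
      qs.length ≤ N → (∀ p ∈ qs, Dq.lump p ∨ Dq.nl X p ≤ δ) → ∀ q ∈ Dom8X c β Par (SinL β),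
      Win S8X q.1 δ N B δ' X a → (∀ t, |Dq.mass X qs t - q.2 t| ≤ δ) → Dq.Good X δ' B qs →
      (∀ p ∈ qs, ¬ Dq.lump p) → okCX (π lam.1) lam.2 a qs → ∀ Yg : ℝ,
      ∑ f ∈ S (Real.exp (e0 * a.1.l)), ∑ i ∈ LI (1 / 10) (2 ^ nw c a),
        ∑ d ∈ (JS (nw c a)).image Prod.fst, (nm f : ℝ)⁻¹ *
        LVn (fun d _ n => alS π h lam a qs (d * n)) {d} {f} cc Yg (Real.exp a.1.l)
          (HX cc a (LN (clN a qs)) i d) (Real.exp i) (Real.exp i)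
          (Real.exp (a.1.l / 20)) 1 1 0 ≤ X ^ (E8X L0 q + ε) := by
  intro ε hε
  obtain ⟨t₀, ht₀, ht₀', ht₀ε⟩ : ∃ t₀ : ℝ, 0 < t₀ ∧ t₀ ≤ 1 / 1000000 ∧ t₀ ≤ ε / 2000 :=
    ⟨min (1 / 1000000) (ε / 2000), lt_min (by norm_num) (by positivity), min_le_left _ _,
      min_le_right _ _⟩
  have hε8 : 0 < ε / 8 := by positivity
  obtain ⟨δ, hδ, HF⟩ := frS hpu hP hRh0 hRh he0 (he0'.trans (by norm_num)) hc0 hc1 hPar hDN
    hDR hR5 hKN hKR hTN hTR hcb hε8 ht₀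
  refine ⟨δ, hδ, fun lam N B cc hcc => ?_⟩
  have he1 : (1 : ℝ) ≤ Real.exp 1 := Real.one_le_exp zero_le_one
  obtain ⟨B₂, J, R', hB₂, hJ, hR', δ', hδ', X₁, hX₁, HF⟩ := HF lam N B (cc * Real.exp 1)
    (one_le_mul_of_one_le_of_one_le hcc he1)
  obtain ⟨C, hC, HT⟩ := tnG (R := R') hR' hε8 hJ (B₂ := B₂) (by linarith) hcc
  have hlc : 0 ≤ Real.log cc := Real.log_nonneg hcc
  set Q : ℝ := 2 + (2 * Real.log cc + 4) / t₀ + 8 * Real.log (C + 1) / ε with hQ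
  have hQ1 : 0 ≤ (2 * Real.log cc + 4) / t₀ := by positivity
  have hC1 : 0 ≤ Real.log (C + 1) := Real.log_nonneg (by linarith)
  have hQ2 : 0 ≤ 8 * Real.log (C + 1) / ε := by positivity
  refine ⟨δ', hδ', max X₁ (Real.exp Q), hX₁.trans_le (le_max_left _ _), ?_⟩
  intro X hX a qs hlen hgl q hq hw hm hg hl hok Yg
  have hX1' : X₁ ≤ X := (le_max_left _ _).trans hX
  have hXQ : Real.exp Q ≤ X := (le_max_right _ _).trans hX
  have hX1 : 1 < X := by linarith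
  have hX0 : 0 < X := by linarith
  set L := Real.log X with hL
  have hQL : Q ≤ L := by
    have := Real.log_le_log (Real.exp_pos Q) hXQ
    rwa [Real.log_exp] at this
  have hL0' : 0 < L := by linarith
  have hLt : 2 * Real.log cc + 4 ≤ t₀ * L := by
    have h1 : (2 * Real.log cc + 4) / t₀ ≤ L := by linarith
    rw [div_le_iff₀ ht₀] at h1
    linarith
  have hCX : C ≤ X ^ (ε / 8) := by
    have h1 : 8 * Real.log (C + 1) / ε ≤ L := by linarith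
    rw [div_le_iff₀ hε] at h1
    have h2 : C + 1 ≤ X ^ (ε / 8) := by
      rw [Real.rpow_def_of_pos hX0, ← hL, ← Real.exp_log (show 0 < C + 1 by linarith)]
      exact Real.exp_le_exp.2 (by linarith)
    linarith
  have FR := HF X hX1' a qs hlen hgl q hq hw hm hg hl hok
  obtain ⟨X3, kl, zl, Al, nl, n0, n1, np, yl, yX, Y1, YX, EX, jb, adm⟩ := FR
  obtain ⟨hq1, hq2, hq3, hq4⟩ := hq
  set p : IX5 → ℝ := bp q.1 with hp
  have hpar : prX p ∈ Par := hq1.par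
  have hzr : ZR β p := hq1.zr
  have hPp := hPar _ hpar
  set n := LN (clN a qs) with hn
  have hκp : 0 < cκ (prX p) := by linarith [hPp.κ0]
  have hlm0 : 0 ≤ lmX ℓ Kf Tf p := le_max_left _ _
  have hXB : X ≤ X ^ B₂ := by
    calc X = X ^ (1 : ℝ) := (Real.rpow_one X).symm
      _ ≤ X ^ B₂ := Real.rpow_le_rpow_of_exponent_le hX1.le hB₂
  have hvt : (1 : ℝ) + nw c a * Real.log 2 ≤ tpW c p (q.1 (.inr 3)) * L + 2 * (t₀ * L) := by
    rw [Real.log_pow] at yl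
    linarith
  obtain ⟨hTf, hBf⟩ := TBs (N := cN (prX p)) (x := cx' (prX p)) (y₃ := cu (prX p) 2)
    (y₄ := cu (prX p) 3) (u := cu (prX p) 4) (D := Dp (prX p))
    (v₀ := q.1 (.inr 0)) (v₁ := q.1 (.inr 1)) (v₂ := q.1 (.inr 2)) (x' := q.2 .am)
    (b := q.1 (.inr 3)) (c := c) (β := β) (t₀ := t₀) (vt := 1 + nw c a * Real.log 2) (n := n)
    hL0' hPp.κ0 hPp.κ1 ht₀.le ht₀' rfl (hDh _ hpar)
    (hcD _ hpar) hc0 hβ hq2.2 hq1.x0 hq1.x1 hq1.s2 hq1.s1 hq1.b0 hvt nl n0 n1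
  have hprim : ∀ m, alS π h lam a qs m ≠ 0 → IsPrim m := fun m hm0 =>
    ((mem_S (by linarith)).1 (adm.sup m hm0)).2.1
  have hlmL : 0 ≤ lmX ℓ Kf Tf p * L := by positivity
  have hjb2 := jbc_shiftS (Real.rpow_nonneg hX0.le _) hlmL jb
  have ecw : cc * Real.exp 1 * 2 ^ nw c a = cc * (Real.exp 1 * 2 ^ nw c a) := by ring
  rw [ecw] at hjb2 yX
  have hkA0 : 0 ≤ a.1.l := by
    have h1 := (abs_le.1 kl).1
    have h2 := hBf.t1
    have h3 := hBf.k0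
    have h4 : 0 ≤ t₀ * L := by positivity
    linarith
  have key := HT X X3 (nw c a) (cκ (prX p) * L) (cN (prX p) * L) (cx' (prX p) * L)
    (max 0 (5 / 4 * (cN (prX p) * L) - cκ (prX p) * L)) a.1.l (a3 a.1.toBd) a.1.z
    (max 0 (5 / 4 * a3 a.1.toBd - a.1.l)) n 0 _ _ _ (40 * (t₀ * L)) (t₀ * L)
    (a.2.1 2).z (Real.log cc + 1) e0 (YcX Rh a qs) (X ^ (ε / 8) * Real.exp (lmX ℓ Kf Tf p * L))
    (a.1.l / 20)
    (alS π h lam a qs) hTf hBf rfl rfl (by positivity) (by linarith) kl Al zl hkA0 (by linarith)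
    (by linarith) (by linarith) he0 he0' EX le_rfl Y1 YX (yX.trans hXB) (by positivity) hjb2 adm
    hprim
    (fun i d _ => HX cc a n i d) Yg (fun i d e => HX_pos) (fun i d e hh => HX_small hh)
    (fun i d e hh => HX_large hh)
  have esum : ∑ f ∈ S (Real.exp (e0 * a.1.l)), ∑ i ∈ LI (1 / 10) (2 ^ nw c a),
        ∑ d ∈ (JS (nw c a)).image Prod.fst, (nm f : ℝ)⁻¹ *
        LVn (fun d _ n => alS π h lam a qs (d * n)) {d} {f} cc Yg (Real.exp a.1.l)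
          (HX cc a (LN (clN a qs)) i d) (Real.exp i) (Real.exp i)
          (Real.exp (a.1.l / 20)) 1 1 0 =
      ∑ i ∈ LI (1 / 10) (2 ^ nw c a), ∑ d ∈ (JS (nw c a)).image Prod.fst,
        ∑ f ∈ S (Real.exp (e0 * a.1.l)), (nm f : ℝ)⁻¹ *
        LVn (fun d _ n => alS π h lam a qs (d * n)) {d} {f} cc Yg (Real.exp a.1.l)
          (HX cc a (LN (clN a qs)) i d) (Real.exp i) (Real.exp i)
          (Real.exp (a.1.l / 20)) 1 1 0 := by
    rw [sum_comm]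
    exact sum_congr rfl fun i _ => sum_comm
  rw [esum]
  refine key.trans ?_
  have hn2 := (abs_le.1 nl).2
  have hL0p := mul_le_mul_of_nonneg_right (hL0 p hpar hzr) hL0'.le
  have hexL : max 0 (5 / 4 * (cN (prX p) * L) - cκ (prX p) * L) =
      max 0 (5 / 4 * cN (prX p) - cκ (prX p)) * L := by
    rw [max_mul_of_nonneg _ _ hL0'.le, zero_mul]
    congr 1
    ring
  have htL : 0 ≤ t₀ * L := by positivity
  have htε : 1000 * (t₀ * L) ≤ ε / 2 * L := by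
    have := mul_le_mul_of_nonneg_right ht₀ε hL0'.le
    linarith
  calc C * X ^ (ε / 8) * (X ^ (ε / 8) * Real.exp (lmX ℓ Kf Tf p * L)) *
        Real.exp (cκ (prX p) * L + n + max 0 (5 / 4 * (cN (prX p) * L) - cκ (prX p) * L) +
          12 * (40 * (t₀ * L)))
      ≤ X ^ (ε / 8) * X ^ (ε / 8) * (X ^ (ε / 8) * Real.exp (lmX ℓ Kf Tf p * L)) *
        Real.exp (cκ (prX p) * L + n + max 0 (5 / 4 * (cN (prX p) * L) - cκ (prX p) * L) +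
          12 * (40 * (t₀ * L))) := by gcongr
    _ = Real.exp (ε / 8 * L * 3 + lmX ℓ Kf Tf p * L + (cκ (prX p) * L + n +
          max 0 (5 / 4 * (cN (prX p) * L) - cκ (prX p) * L) + 12 * (40 * (t₀ * L)))) := by
        rw [Real.rpow_def_of_pos hX0, ← hL]
        simp only [← Real.exp_add]
        congr 1
        ring
    _ ≤ Real.exp (L * (E8X L0 q + ε)) := by
        refine Real.exp_le_exp.2 ?_
        unfold svX at hn2
        unfold P1X960.E8X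
        rw [← hp, hexL]
        nlinarith
    _ = X ^ (E8X L0 q + ε) := by rw [Real.rpow_def_of_pos hX0]

end Crest.Agent.R017.E3Nx744
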