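import Crest.Agent.R017.E3Br_744
import Crest.Agent.R017.E3Nx_744
import Crest.Agent.R017.E3Nz_744
import Crest.Agent.R017.RnPf_571

/-!
# Row 17, exceptional class, E3 (helper744): the T-half of E3 of `P1_0`, one datum

* `fh_exp`, `fcLS_le`, `fcTT_le` : the coefficients
* `tnE_1` : one level
* **`tnE`** : all levels, `H = exp hJ` for `N d ≤ K^(1/6)`, `H = K N d / (C V^2)` beyond
-/

set_option autoImplicit false
set_option linter.unusedVariables false

noncomputable section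

open Finset
open scoped Classical

namespace Crest.Agent.R017.E3Nx744

open Crest.Agent.R012 Crest.Agent.R012.Eis Crest.Agent.R012.MC
open Crest.Agent.R012.LS2 (S mem_S)
open Crest.Agent.R017.C70
open Crest.Agent.R017.OT551
open Crest.Agent.R017.E1551 hiding tau Dg
open Crest.Agent.R017.B770
open Crest.Agent.R017.Sf770 (JS)
open Crest.Agent.R017.E3Kc548 (LI afT)
open Crest.Agent.R017.E3Z548 (FH FH_nonneg LVn)
open Crest.Agent.R017.E3N146 (cLS cTT afT_eq Tf TC tc_of line_b1 line_b2 line_L line_S line_th1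
  ShT ShT_le Bf BC bias_b1 bias_b2 bias_L bias_S)
open Crest.Agent.R017.RnP571 (hJ)
open Crest.Agent.R017.I1146 (LipS)
open Crest.Agent.R017.TNj90 (JBc)
open Crest.Agent.R017.P10X764 (shB)
open Crest.Agent.R017.I1K764 (bcx)

/-! ### the coefficients -/

lemma fh_exp (k h v : ℝ) :
    FH (Real.exp k) (Real.exp h) (Real.exp v) = Real.exp (2 / 3 * k - (h + v) / 3) := by
  unfold FH
  rw [← Real.exp_add, ← Real.exp_mul, ← Real.exp_mul, ← Real.exp_add]
  congr 1
  ring

lemma fcTT_le {k h v m : ℝ} (h0 : 2 * h + 3 * v ≤ 2 * k) (h1 : 2 / 3 * k - (h + v) / 3 ≤ m) :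
    FH (Real.exp k) (Real.exp h) (Real.exp v) * cTT (Real.exp k) (Real.exp h) (Real.exp v) ≤
      3 * Real.exp m := by
  have hq : (Real.exp h) ^ 2 * (Real.exp v) ^ 3 / (Real.exp k) ^ 2 ≤ 1 := by
    rw [div_le_one (by positivity), ← Real.exp_nat_mul, ← Real.exp_nat_mul, ← Real.exp_nat_mul,
      ← Real.exp_add]
    exact Real.exp_le_exp.2 (by push_cast; linarith)
  have hq0 : 0 ≤ (Real.exp h) ^ 2 * (Real.exp v) ^ 3 / (Real.exp k) ^ 2 := by positivity
  have e1 := Real.rpow_le_one hq0 hq (show (0 : ℝ) ≤ 1 / 3 by norm_num)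
  have e2 := Real.rpow_le_one hq0 hq (show (0 : ℝ) ≤ 1 / 2 by norm_num)
  have hc : cTT (Real.exp k) (Real.exp h) (Real.exp v) ≤ 3 := by
    unfold cTT
    linarith
  rw [fh_exp]
  have := Real.exp_le_exp.2 h1
  have h3 := Real.exp_pos (2 / 3 * k - (h + v) / 3)
  calc _ ≤ Real.exp (2 / 3 * k - (h + v) / 3) * 3 := by gcongr
    _ ≤ Real.exp m * 3 := by gcongr
    _ = _ := by ring

lemma fcLS_le {k h v vt η cc m : ℝ} (hcc : 1 ≤ cc) (h1 : 2 / 3 * k - (h + v) / 3 ≤ m)
    (h2 : -(k / 3) + 2 / 3 * vt + 2 * η + v / 2 ≤ m) (h3 : (v + vt) / 3 + η ≤ m) :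
    FH (Real.exp k) (Real.exp h) (Real.exp v) *
      cLS (Real.exp k) (Real.exp h) (Real.exp v) (Real.exp vt) (Real.exp η) 2
        (Real.sqrt (cc * Real.exp v)) ≤ 9 * Real.sqrt cc * Real.exp m := by
  have hs : 1 ≤ Real.sqrt cc := Real.one_le_sqrt.2 hcc
  have a1 : (Real.exp h * (Real.exp v / Real.exp vt)) ^ (1 / 3 : ℝ) =
      Real.exp ((h + v - vt) / 3) := by
    rw [← Real.exp_sub, ← Real.exp_add, ← Real.exp_mul]
    congr 1
    ring
  have a2 : Real.exp vt / Real.exp k = Real.exp (vt - k) := (Real.exp_sub _ _).symm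
  have a3 : Real.exp η ^ 2 = Real.exp (2 * η) := by
    rw [← Real.exp_nat_mul]; push_cast; rfl
  have a4 : Real.sqrt (cc * Real.exp v) = Real.sqrt cc * Real.exp (v / 2) := by
    rw [Real.sqrt_mul (by linarith), Real.exp_half]
  have a5 : (Real.exp h * Real.exp v ^ 2 * Real.exp vt * Real.exp η ^ 3 * (2 : ℝ) ^ 2 /
      Real.exp k ^ 2) ^ (1 / 3 : ℝ) =
      (4 : ℝ) ^ (1 / 3 : ℝ) * Real.exp ((h + 2 * v + vt + 3 * η - 2 * k) / 3) := by
    have e0 : Real.exp h * Real.exp v ^ 2 * Real.exp vt * Real.exp η ^ 3 * (2 : ℝ) ^ 2 /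
      Real.exp k ^ 2 = 4 * Real.exp (h + 2 * v + vt + 3 * η - 2 * k) := by
      rw [show h + 2 * v + vt + 3 * η - 2 * k = h + ((2 : ℕ) : ℝ) * v + vt + ((3 : ℕ) : ℝ) * η -
        ((2 : ℕ) : ℝ) * k by push_cast; ring, Real.exp_sub, Real.exp_add, Real.exp_add,
        Real.exp_add, Real.exp_nat_mul, Real.exp_nat_mul, Real.exp_nat_mul]
      ring
    rw [e0, Real.mul_rpow (by norm_num) (Real.exp_pos _).le, ← Real.exp_mul]
    congr 2
    ring
  have a6 : (4 : ℝ) ^ (1 / 3 : ℝ) ≤ 4 := by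
    calc (4 : ℝ) ^ (1 / 3 : ℝ) ≤ (4 : ℝ) ^ (1 : ℝ) :=
          Real.rpow_le_rpow_of_exponent_le (by norm_num) (by norm_num)
      _ = 4 := Real.rpow_one _
  unfold cLS
  rw [fh_exp, a1, a2, a3, a4, a5]
  have b1 : Real.exp (2 / 3 * k - (h + v) / 3) ≤ Real.exp m := Real.exp_le_exp.2 h1
  have b2 : Real.exp (2 / 3 * k - (h + v) / 3) * (Real.exp ((h + v - vt) / 3) *
      Real.exp (vt - k) * (Real.exp (2 * η) * 2 ^ 2 * (Real.sqrt cc * Real.exp (v / 2)))) =
      4 * Real.sqrt cc * Real.exp (-(k / 3) + 2 / 3 * vt + 2 * η + v / 2) := by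
    rw [show -(k / 3) + 2 / 3 * vt + 2 * η + v / 2 = (2 / 3 * k - (h + v) / 3) +
      ((h + v - vt) / 3) + (vt - k) + 2 * η + v / 2 by ring, Real.exp_add, Real.exp_add,
      Real.exp_add, Real.exp_add]
    ring
  have b3 : Real.exp (2 / 3 * k - (h + v) / 3) * ((4 : ℝ) ^ (1 / 3 : ℝ) *
      Real.exp ((h + 2 * v + vt + 3 * η - 2 * k) / 3)) =
      (4 : ℝ) ^ (1 / 3 : ℝ) * Real.exp ((v + vt) / 3 + η) := by
    rw [show (v + vt) / 3 + η = (2 / 3 * k - (h + v) / 3) +
      ((h + 2 * v + vt + 3 * η - 2 * k) / 3) by ring, Real.exp_add]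
    ring
  have b2' : Real.exp (-(k / 3) + 2 / 3 * vt + 2 * η + v / 2) ≤ Real.exp m :=
    Real.exp_le_exp.2 h2
  have b3' : Real.exp ((v + vt) / 3 + η) ≤ Real.exp m := Real.exp_le_exp.2 h3
  have hm := Real.exp_pos m
  rw [mul_add, mul_add, mul_one, b2, b3]
  calc _ ≤ Real.exp m + 4 * Real.sqrt cc * Real.exp m + 4 * Real.exp m := by gcongr
    _ ≤ Real.sqrt cc * Real.exp m + 4 * Real.sqrt cc * Real.exp m +
        4 * (Real.sqrt cc * Real.exp m) := by nlinarith
    _ = _ := by ring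

/-! ### one level -/

set_option maxHeartbeats 1600000 in
/-- one level, one range of divisors -/
theorem tnE_1 {R : ℝ} (hR : 0 ≤ R) {ε J B₂ cc : ℝ} (hε : 0 < ε) (hJ' : 0 ≤ J) (hB₂ : 0 < B₂)
    (hcc : 1 ≤ cc) :
    ∃ C : ℝ, 0 ≤ C ∧ ∀ X : ℝ, 3 ≤ X →
      ∀ (n Y v E0 F : ℝ) (Sh : ℝ → ℝ → ℝ → ℝ), 1 ≤ Y → Y ≤ X ^ B₂ →
      cc * Real.exp v ≤ X ^ B₂ → 0 < E0 → 0 ≤ F → ∀ al : Eis → ℂ,
      JBc Y (cc * Real.exp v) F J Sh al → Adm Y (Real.exp n) R al →
      ∀ (Ds EE : Finset Eis) (m k vt η Yg : ℝ) (hf : ℝ → ℝ) (af : Eis → Eis → Eis → ℂ)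
        (H : Eis → Eis → ℝ), (∀ x y, |hf x - hf y| ≤ 4 * |x - y|) →
      (∀ d ∈ Ds, IsPrim d ∧ (nm d : ℝ) ≤ X ^ B₂) → (∀ e ∈ EE, e ∈ S E0) →
      (∀ d ∈ Ds, ∀ e ∈ EE, af d e = fun n => al (d * n)) → (∀ d e, 0 < H d e) →
      (∀ d ∈ Ds, ∀ e ∈ EE, H d e = Real.exp (hf (Real.log (nm d)))) →
      (∀ d ∈ Ds, 2 * hf (Real.log (nm d)) + 3 * v ≤ 2 * k) →
      (∀ d ∈ Ds, ∀ b w : ℝ, 0 ≤ b → 0 ≤ w → w ≤ Real.log cc + v - 2 * Real.log (nm d) →
        2 / 3 * k - hf (Real.log (nm d)) / 3 + Sh (Real.log (nm d)) b w +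
          4 / 3 * Real.log (nm d) + 4 / 3 * b - 2 * max 0 (b - Real.log E0) - (w + b) / 3 ≤ m) →
      (∀ d ∈ Ds, ∀ b w : ℝ, 0 ≤ b → 0 ≤ w → w ≤ Real.log cc + v - 2 * Real.log (nm d) →
        2 / 3 * vt - k / 3 + 2 * η + v / 2 + Sh (Real.log (nm d)) b w +
          2 * Real.log (nm d) + b - 2 * max 0 (b - Real.log E0) ≤ m) →
      (∀ d ∈ Ds, ∀ b w : ℝ, 0 ≤ b → 0 ≤ w → w ≤ Real.log cc + v - 2 * Real.log (nm d) →
        (v + vt) / 3 + η + Sh (Real.log (nm d)) b w +
          2 * Real.log (nm d) + b - 2 * max 0 (b - Real.log E0) ≤ m) →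
      ∑ d ∈ Ds, ∑ e ∈ EE, LVn af {d} {e} cc Yg (Real.exp k) (H d e) (Real.exp v) (Real.exp vt)
          (Real.exp η) 2 (Real.sqrt (cc * Real.exp v)) 0 ≤
        C * X ^ ε * F * Real.exp (-(n / 3)) * Real.exp m := by
  obtain ⟨C, hC, G⟩ := LVTaJ (R := R) hR hε hJ' hB₂ (Lφ := 4 / 3) (by norm_num)
  set c₁ : ℝ := Real.log (9 * Real.sqrt cc) + Real.log cc with hc₁
  refine ⟨C * Real.exp c₁, by positivity, ?_⟩
  intro X hX n Y v E0 F Sh hY1 hYu hWX hE0 hF al hJB hadm Ds EE m k vt η Yg hf af H hlip hDs hEE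
    haf hH hHe h4 l1 l2 l3
  have hs : 1 ≤ Real.sqrt cc := Real.one_le_sqrt.2 hcc
  have hs0 : 0 < 9 * Real.sqrt cc := by positivity
  have hls : Real.log 3 ≤ Real.log (9 * Real.sqrt cc) :=
    Real.log_le_log (by norm_num) (by nlinarith)
  have hlc : 0 ≤ Real.log cc := Real.log_nonneg hcc
  have hlog : Real.log (cc * Real.exp v) = Real.log cc + v := by
    rw [Real.log_mul (by positivity) (Real.exp_pos v).ne', Real.log_exp]
  set a : ℝ := max (2 / 3 * vt - k / 3 + 2 * η + v / 2) ((v + vt) / 3 + η) with ha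
  set φ : ℝ → ℝ := fun y => Real.log (9 * Real.sqrt cc) + max (2 / 3 * k - (hf y + v) / 3) a
    with hφ
  set φ1 : ℝ → ℝ := fun y => Real.log (9 * Real.sqrt cc) + (2 / 3 * k - (hf y + v) / 3) with hφ1
  have hlip' : ∀ x y, (2 / 3 * k - (hf x + v) / 3) ≤
      (2 / 3 * k - (hf y + v) / 3) + 4 / 3 * |x - y| := by
    intro x y
    have := (abs_le.1 (hlip x y)).1
    linarith
  have key := G X hX n Y cc (Real.exp v) E0 F Sh hY1 hYu (Real.exp_pos v) hWX hE0 hF al hJB hadm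
    Ds EE (m + c₁) φ φ1 af H (fun _ _ => 0) Yg (Real.exp k) (Real.exp vt) (Real.exp η) 2
    (Real.sqrt (cc * Real.exp v)) (fun x y => by
      have h1 := hlip' x y
      have h2 := abs_nonneg (x - y)
      rw [hφ]
      dsimp only
      rw [add_assoc]
      refine add_le_add le_rfl (max_le ?_ ?_)
      · exact h1.trans (by
          have := le_max_left (2 / 3 * k - (hf y + v) / 3) a
          linarith)
      · have := le_max_right (2 / 3 * k - (hf y + v) / 3) a
        linarith)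
    (fun x y => by
      have h1 := hlip' x y
      rw [hφ1]
      dsimp only
      linarith) hDs hEE haf (Real.exp_pos k) hH
    (fun d hd e he => by
      rw [hHe d hd e he]
      refine (fcLS_le hcc (m := max (2 / 3 * k - (hf (Real.log (nm d)) + v) / 3) a)
        (le_max_left _ _) ?_ ?_).trans (le_of_eq ?_)
      · refine le_trans ?_ (le_max_right _ _)
        refine le_trans (le_of_eq ?_) (le_max_left _ _)
        ring
      · exact le_trans (le_max_right _ _) (le_max_right _ _)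
      · rw [hφ]
        dsimp only
        rw [Real.exp_add, Real.exp_log hs0])
    (fun d hd e he => by
      rw [hHe d hd e he]
      refine (fcTT_le (h4 d hd) le_rfl).trans ?_
      rw [hφ1]
      dsimp only
      rw [Real.exp_add, Real.exp_log hs0]
      gcongr
      nlinarith)
    (fun d hd b w hb hw hwv => by
      rw [hlog] at hwv
      have h1 := l1 d hd b w hb hw hwv
      have h2 := l2 d hd b w hb hw hwv
      have h3 := l3 d hd b w hb hw hwv
      rw [hφ, hc₁]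
      dsimp only
      have h5 : max (2 / 3 * k - (hf (Real.log (nm d)) + v) / 3) a ≤
          m + Real.log cc - (Sh (Real.log (nm d)) b w + 2 * Real.log (nm d) + b -
            2 * max 0 (b - Real.log E0)) := by
        refine max_le ?_ (max_le ?_ ?_) <;> linarith
      linarith)
    (fun d hd b w hb hw hwv => by
      rw [hlog] at hwv ⊢
      have h1 := l1 d hd b w hb hw hwv
      rw [hφ1, hc₁]
      dsimp only
      linarith)
  refine key.trans (le_of_eq ?_)
  simp only [mul_zero, sum_const_zero, add_zero]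
  rw [Real.exp_add]
  ring

/-- the divisors beyond the level : no numbers -/
theorem tnE_0 {R : ℝ} (hR : 0 ≤ R) {ε J B₂ cc : ℝ} (hε : 0 < ε) (hJ' : 0 ≤ J) (hB₂ : 0 < B₂)
    (hcc : 1 ≤ cc) :
    ∃ C : ℝ, 0 ≤ C ∧ ∀ X : ℝ, 3 ≤ X →
      ∀ (n Y v E0 F : ℝ) (Sh : ℝ → ℝ → ℝ → ℝ), 1 ≤ Y → Y ≤ X ^ B₂ →
      cc * Real.exp v ≤ X ^ B₂ → 0 < E0 → 0 ≤ F → ∀ al : Eis → ℂ,
      JBc Y (cc * Real.exp v) F J Sh al → Adm Y (Real.exp n) R al →
      ∀ (Ds EE : Finset Eis) (m K V' E1 B G1 Yg : ℝ) (af : Eis → Eis → Eis → ℂ)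
        (H : Eis → Eis → ℝ),
      (∀ d ∈ Ds, IsPrim d ∧ (nm d : ℝ) ≤ X ^ B₂) → (∀ e ∈ EE, e ∈ S E0) →
      (∀ d ∈ Ds, ∀ e ∈ EE, af d e = fun n => al (d * n)) → (∀ d e, 0 < H d e) → 0 < K →
      (∀ d ∈ Ds, Real.log cc + v < 2 * Real.log (nm d)) →
      ∑ d ∈ Ds, ∑ e ∈ EE, LVn af {d} {e} cc Yg K (H d e) (Real.exp v) V' E1 B G1 0 ≤
        C * X ^ ε * F * Real.exp (-(n / 3)) * Real.exp m := by
  obtain ⟨C, hC, G⟩ := LVTaJ (R := R) hR hε hJ' hB₂ (Lφ := 0) le_rfl
  refine ⟨C, hC, ?_⟩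
  intro X hX n Y v E0 F Sh hY1 hYu hWX hE0 hF al hJB hadm Ds EE m K V' E1 B G1 Yg af H hDs hEE
    haf hH hK hv
  have hlog : Real.log (cc * Real.exp v) = Real.log cc + v := by
    rw [Real.log_mul (by positivity) (Real.exp_pos v).ne', Real.log_exp]
  obtain ⟨M, hM⟩ := ((Ds ×ˢ EE).image fun x : Eis × Eis =>
    max (FH K (H x.1 x.2) (Real.exp v) * cLS K (H x.1 x.2) (Real.exp v) V' E1 B G1)
      (FH K (H x.1 x.2) (Real.exp v) * cTT K (H x.1 x.2) (Real.exp v))).exists_le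
  have hM' : ∀ d ∈ Ds, ∀ e ∈ EE,
      FH K (H d e) (Real.exp v) * cLS K (H d e) (Real.exp v) V' E1 B G1 ≤ Real.exp M ∧
      FH K (H d e) (Real.exp v) * cTT K (H d e) (Real.exp v) ≤ Real.exp M := by
    intro d hd e he
    have h1 := hM _ (mem_image_of_mem _ (mem_product.2 ⟨hd, he⟩ : (d, e) ∈ Ds ×ˢ EE))
    dsimp only at h1
    have h2 := Real.add_one_le_exp M
    exact ⟨((le_max_left _ _).trans h1).trans (by linarith),
      ((le_max_right _ _).trans h1).trans (by linarith)⟩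
  have key := G X hX n Y cc (Real.exp v) E0 F Sh hY1 hYu (Real.exp_pos v) hWX hE0 hF al hJB hadm
    Ds EE m (fun _ => M) (fun _ => M) af H (fun _ _ => 0) Yg K V' E1 B G1 (fun x y => by simp)
    (fun x y => by simp) hDs hEE haf hK hH (fun d hd e he => (hM' d hd e he).1)
    (fun d hd e he => (hM' d hd e he).2)
    (fun d hd b w hb hw hwv => by
      have := hv d hd
      rw [hlog] at hwv
      linarith)
    (fun d hd b w hb hw hwv => by
      have := hv d hd
      rw [hlog] at hwv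
      linarith)
  refine key.trans (le_of_eq ?_)
  simp only [mul_zero, sum_const_zero, add_zero]

/-- the cases of the number of a difference -/
lemma shT_cases {s0 p k N x um ex δ b w : ℝ} (hex : ex = max 0 (5 / 4 * N - k)) :
    TC (k + ex) b (w + b) (p - δ - b) x (shB s0 p (ShT (max k (5 / 4 * N)) x um p) δ b w) ∨
    BC p s0 δ b (w + b) (shB s0 p (ShT (max k (5 / 4 * N)) x um p) δ b w) := by
  have e1 : max k (5 / 4 * N) = k + ex := by
    rw [hex]
    rcases le_total (5 / 4 * N) k with h | h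
    · rw [max_eq_left h, max_eq_left (by linarith)]; ring
    · rw [max_eq_right h, max_eq_right (by linarith)]; ring
  rw [e1]
  unfold shB
  rcases le_total (5 / 3 * p + bcx s0 δ b w) (ShT (k + ex) x um p δ b w) with h | h
  · left
    rw [max_eq_left h]
    have h1 := ShT_le (k5 := k + ex) (x := x) (um := um) (p := p) (γ := δ) (b := b) (l := w + b)
      (min_le_right _ _)
    rw [show w + b - b = w by ring] at h1
    refine tc_of (h1.trans (le_of_eq ?_))
    rfl
  · right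
    rw [max_eq_right h]
    unfold bcx
    have h1 := le_max_left 0 (s0 - (δ + b))
    have h2 := le_max_right 0 (s0 - (δ + b))
    exact ⟨by linarith, by linarith⟩

lemma tf_mono {k N x ex v v' p t : ℝ} (H : Tf k N x ex v p t) (h : v' ≤ v) :
    Tf k N x ex v' p t :=
  ⟨H.k0, H.x0, H.N1, H.adm, H.ex0, H.ex1, h.trans H.v1, h.trans H.v2, H.p0, H.p1, H.t0, H.t1⟩

lemma hJ_lip (k p x E a b : ℝ) : |hJ k p a x E - hJ k p b x E| ≤ 4 * |a - b| := by
  unfold hJ
  have h1 := abs_max_sub_max_le_abs (4 / 3 * (p - a) - k + x - 3 * E)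
    (4 / 3 * (p - b) - k + x - 3 * E) (k / 64)
  rw [max_comm (k / 64), max_comm (k / 64)]
  refine h1.trans ?_
  rw [show 4 / 3 * (p - a) - k + x - 3 * E - (4 / 3 * (p - b) - k + x - 3 * E) =
    -(4 / 3 * (a - b)) by ring, abs_neg, abs_mul]
  have := abs_nonneg (a - b)
  rw [abs_of_nonneg (by norm_num : (0 : ℝ) ≤ 4 / 3)]
  linarith

lemma mem_LI_le {n i : ℕ} (h : i ∈ LI (1 / 10) (2 ^ n)) : (i : ℝ) ≤ 1 + n * Real.log 2 := by
  have h1 := (mem_filter.1 h).2.2
  have h2 := Real.log_le_log (Real.exp_pos _) h1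
  rwa [Real.log_exp, Real.log_mul (Real.exp_pos 1).ne' (by positivity), Real.log_exp,
    Real.log_pow] at h2

lemma card_LI_le {n : ℕ} : ((LI (1 / 10) (2 ^ n)).card : ℝ) ≤ n * Real.log 2 + 2 := by
  have h1 : (LI (1 / 10) (2 ^ n)).card ≤ ⌈Real.log ((2 : ℝ) ^ n)⌉₊ + 1 :=
    (card_filter_le _ _).trans (by rw [card_range])
  have h2 : ((LI (1 / 10) (2 ^ n)).card : ℝ) ≤ (⌈Real.log ((2 : ℝ) ^ n)⌉₊ : ℝ) + 1 := by
    exact_mod_cast h1
  have h3 : 0 ≤ Real.log ((2 : ℝ) ^ n) := Real.log_nonneg (one_le_pow₀ (by norm_num))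
  have h4 := (Nat.ceil_lt_add_one h3).le
  rw [Real.log_pow] at h4 h2
  linarith

set_option maxHeartbeats 1600000 in
/-- **the T-half of E3 of `P1_0`, class E, one datum** -/
theorem tnE {R : ℝ} (hR : 0 ≤ R) {ε J B₂ cc : ℝ} (hε : 0 < ε) (hJ' : 0 ≤ J) (hB₂ : 0 < B₂)
    (hcc : 1 ≤ cc) :
    ∃ C : ℝ, 0 ≤ C ∧ ∀ X : ℝ, 3 ≤ X →
      ∀ (nf : ℕ) (k N x ex p s0 D m y t um C₀ e0 Y F : ℝ) (al : Eis → ℂ),
      Tf k N x ex (1 + nf * Real.log 2) p t → Bf k N x ex (1 + nf * Real.log 2) p s0 D m y t →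
      ex = max 0 (5 / 4 * N - k) → Real.log cc ≤ t → Real.log cc ≤ 2 * C₀ → C₀ ≤ t →
      e0 ≤ 1 / 64 → 1 ≤ Y → Y ≤ X ^ B₂ → cc * (Real.exp 1 * 2 ^ nf) ≤ X ^ B₂ → 0 ≤ F →
      JBc Y (cc * (Real.exp 1 * 2 ^ nf)) F J
        (shB s0 p (ShT (max k (5 / 4 * N)) x um p)) al →
      Adm Y (Real.exp p) R al → (∀ n, al n ≠ 0 → IsPrim n) →
      ∀ (H : ℕ → Eis → Eis → ℝ) (Yg : ℝ), (∀ i d e, 0 < H i d e) →
      (∀ i d e, Real.log (nm d) ≤ k / 6 →
        H i d e = Real.exp (hJ k p (Real.log (nm d)) x ex)) →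
      (∀ i d e, k / 6 < Real.log (nm d) →
        H i d e = Real.exp (k + Real.log (nm d) - 2 * i - C₀)) →
      ∑ i ∈ LI (1 / 10) (2 ^ nf), ∑ d ∈ (JS nf).image Prod.fst, ∑ e ∈ S (Real.exp (e0 * k)),
        LVn (afT al (Real.exp (e0 * k))) {d} {e} cc Yg (Real.exp k) (H i d e) (Real.exp i)
          (Real.exp 1 * 2 ^ nf) (Real.exp (k / 22)) 2 (Real.sqrt (cc * Real.exp i)) 0 ≤
        C * X ^ ε * F * Real.exp (k + p + ex + 10 * t) := by
  obtain ⟨C1, hC1, G1⟩ := tnE_1 hR (half_pos hε) hJ' hB₂ hcc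
  obtain ⟨C0, hC0, G0⟩ := tnE_0 hR (half_pos hε) hJ' hB₂ hcc
  refine ⟨(B₂ * (2 / ε) + 2) * (C1 + C1 + C0), by positivity, ?_⟩
  intro X hX nf k N x ex p s0 D m y t um C₀ e0 Y F al hT hB hex hct hC₀ hC₀t he0 hY1 hYu hWX hF
    hJB hadm hpr H Yg hH hHs hHl
  have hX1 : 1 ≤ X := by linarith
  have hX0 : 0 < X := by linarith
  have hlX : 0 ≤ Real.log X := Real.log_nonneg hX1
  have hlc : 0 ≤ Real.log cc := Real.log_nonneg hcc
  set vt : ℝ := 1 + nf * Real.log 2 with hvt
  have hVt : Real.exp 1 * 2 ^ nf = Real.exp vt := by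
    rw [hvt, Real.exp_add, mul_comm (nf : ℝ), Real.exp_mul, Real.exp_log (by norm_num),
      Real.rpow_natCast]
  rw [hVt] at hWX hJB ⊢
  set E0 : ℝ := Real.exp (e0 * k) with hE0
  have hlE : Real.log E0 = e0 * k := by rw [hE0, Real.log_exp]
  have hk0 := hB.k0
  have ht0 := hB.t0
  have hE1 : Real.log E0 ≤ k / 64 := by rw [hlE]; nlinarith
  set Ds : Finset Eis := (JS nf).image Prod.fst with hDs
  have hcb : (nf : ℝ) * Real.log 2 ≤ B₂ * Real.log X := by
    have h1 := Real.log_le_log (by positivity) hWX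
    rw [Real.log_mul (by positivity) (Real.exp_pos _).ne', Real.log_exp,
      Real.log_rpow hX0] at h1
    linarith
  have h2n : Real.sqrt (2 ^ nf) ≤ X ^ B₂ := by
    have h1 : (1 : ℝ) ≤ 2 ^ nf := one_le_pow₀ (by norm_num)
    have h2 : Real.sqrt (2 ^ nf) ≤ 2 ^ nf := by
      rw [Real.sqrt_le_left (by positivity)]
      nlinarith
    have h3 : (2 : ℝ) ^ nf ≤ Real.exp 1 * 2 ^ nf := by
      have := Real.add_one_le_exp 1
      nlinarith
    have h4 : Real.exp 1 * 2 ^ nf ≤ cc * (Real.exp 1 * 2 ^ nf) :=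
      le_mul_of_one_le_left (by positivity) hcc
    rw [← hVt] at hWX
    linarith
  have hDs1 : ∀ d ∈ Ds, IsPrim d ∧ (nm d : ℝ) ≤ X ^ B₂ := by
    intro d hd
    obtain ⟨x', hx', rfl⟩ := mem_image.1 hd
    obtain ⟨h1, h2⟩ := mem_filter.1 hx'
    obtain ⟨h3, -⟩ := mem_product.1 h1
    obtain ⟨h4, h5⟩ := mem_primBall.1 h3
    refine ⟨h5, le_trans ?_ h2n⟩
    exact (Nat.cast_le.2 h4).trans (Nat.floor_le (Real.sqrt_nonneg _))
  set Sh := shB s0 p (ShT (max k (5 / 4 * N)) x um p) with hSh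
  have hone : ∀ i ∈ LI (1 / 10) (2 ^ nf), ∑ d ∈ Ds, ∑ e ∈ S E0,
      LVn (afT al E0) {d} {e} cc Yg (Real.exp k) (H i d e) (Real.exp i)
          (Real.exp vt) (Real.exp (k / 22)) 2 (Real.sqrt (cc * Real.exp i)) 0 ≤
        (C1 + C1 + C0) * X ^ (ε / 2) * F * Real.exp (k + p + ex + 10 * t) := by
    intro i hi
    have hiv : (i : ℝ) ≤ vt := mem_LI_le hi
    have hle : Real.exp i ≤ Real.exp vt := Real.exp_le_exp.2 hiv
    have hWi : cc * Real.exp i ≤ X ^ B₂ := (by gcongr : cc * Real.exp i ≤ cc * Real.exp vt).trans hWX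
    have hJBi := hJB.mono (W := cc * Real.exp i) (by gcongr)
    have haf : ∀ d ∈ Ds, ∀ e ∈ S E0, afT al E0 d e = fun n => al (d * n) := fun d hd e he =>
      afT_eq hpr (hDs1 d hd).1 he
    set m' : ℝ := k + p + ex + 10 * t + p / 3 with hm'
    have hme : Real.exp (-(p / 3)) * Real.exp m' = Real.exp (k + p + ex + 10 * t) := by
      rw [← Real.exp_add]; congr 1; rw [hm']; ring
    set Dg := Ds.filter fun d => 2 * Real.log (nm d) ≤ Real.log cc + i with hDg
    have hδ0 : ∀ d ∈ Ds, 0 ≤ Real.log (nm d) := fun d hd =>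
      Real.log_nonneg (by exact_mod_cast nm_pos.2 (hDs1 d hd).1.ne_zero)
    -- the lines of the cube-free numbers
    have hLl : ∀ d ∈ Ds, ∀ b w : ℝ, 0 ≤ b → 0 ≤ w →
        w ≤ Real.log cc + i - 2 * Real.log (nm d) →
        2 / 3 * vt - k / 3 + 2 * (k / 22) + i / 2 + Sh (Real.log (nm d)) b w +
          2 * Real.log (nm d) + b - 2 * max 0 (b - Real.log E0) ≤ m' := by
      intro d hd b w hb hw hwv
      have hM0 := le_max_left 0 (b - Real.log E0)
      have hM1 := le_max_right 0 (b - Real.log E0)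
      rcases shT_cases (s0 := s0) (p := p) (k := k) (N := N) (x := x) (um := um)
        (δ := Real.log (nm d)) (b := b) (w := w) hex with hc | hc
      · have := line_L (η := k / 22) hT (hδ0 d hd) hb hM0 (by linarith) hiv
          (by linarith) hc (by linarith)
        linarith
      · have := bias_L (η := k / 22) hB (hδ0 d hd) hb hM0 (by linarith) hiv
          (by linarith) hc (by linarith)
        linarith
    have hSl : ∀ d ∈ Ds, ∀ b w : ℝ, 0 ≤ b → 0 ≤ w →
        w ≤ Real.log cc + i - 2 * Real.log (nm d) →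
        (i + vt) / 3 + k / 22 + Sh (Real.log (nm d)) b w +
          2 * Real.log (nm d) + b - 2 * max 0 (b - Real.log E0) ≤ m' := by
      intro d hd b w hb hw hwv
      have hM0 := le_max_left 0 (b - Real.log E0)
      have hM1 := le_max_right 0 (b - Real.log E0)
      rcases shT_cases (s0 := s0) (p := p) (k := k) (N := N) (x := x) (um := um)
        (δ := Real.log (nm d)) (b := b) (w := w) hex with hc | hc
      · have := line_S (η := k / 22) hT (hδ0 d hd) hb hM0 (by linarith) hiv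
          (by linarith) hc (by linarith)
        linarith
      · have := bias_S (η := k / 22) hB (hδ0 d hd) hb hM0 (by linarith) hiv
          (by linarith) hc (by linarith)
        linarith
    have k1 := G1 X hX p Y i E0 F Sh hY1 hYu hWi (Real.exp_pos _) hF al hJBi hadm
      (Dg.filter fun d => Real.log (nm d) ≤ k / 6) (S E0) m' k vt (k / 22) Yg
      (fun z => hJ k p z x ex) (afT al E0) (H i) (hJ_lip k p x ex)
      (fun d hd => hDs1 d (mem_filter.1 (mem_filter.1 hd).1).1) (fun e he => he)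
      (fun d hd => haf d (mem_filter.1 (mem_filter.1 hd).1).1) (hH i)
      (fun d hd e he => hHs i d e (mem_filter.1 hd).2)
      (fun d hd => by
        have h1 := (mem_filter.1 (mem_filter.1 hd).1).1
        have h2 : hJ k p (Real.log (nm d)) x ex = k / 64 ∨
            hJ k p (Real.log (nm d)) x ex = 4 / 3 * (p - Real.log (nm d)) - k + x - 3 * ex :=
          max_choice _ _
        have h3 := line_th1 (h := hJ k p (Real.log (nm d)) x ex) hT (hδ0 d h1) (by
          rcases h2 with h2 | h2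
          · left; rw [h2]; linarith
          · right; rw [h2]; linarith)
        linarith)
      (fun d hd b w hb hw hwv => by
        have h1 := (mem_filter.1 (mem_filter.1 hd).1).1
        have hM0 := le_max_left 0 (b - Real.log E0)
        have hM1 := le_max_right 0 (b - Real.log E0)
        have g1 : k / 64 - t ≤ hJ k p (Real.log (nm d)) x ex := by
          have := le_max_left (k / 64) (4 / 3 * (p - Real.log (nm d)) - k + x - 3 * ex)
          unfold RnP571.hJ; linarith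
        have g2 : 4 / 3 * (p - Real.log (nm d)) - k + x - 3 * ex - t ≤
            hJ k p (Real.log (nm d)) x ex := by
          have := le_max_right (k / 64) (4 / 3 * (p - Real.log (nm d)) - k + x - 3 * ex)
          unfold RnP571.hJ; linarith
        rcases shT_cases (s0 := s0) (p := p) (k := k) (N := N) (x := x) (um := um)
          (δ := Real.log (nm d)) (b := b) (w := w) hex with hc | hc
        · have := line_b1 hT (hδ0 d h1) hb hM0 (by linarith) (by linarith) hc g1 g2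
          linarith
        · have := bias_b1 hB (hδ0 d h1) hb hM0 (by linarith) hiv (by linarith) hc g1 g2
          linarith)
      (fun d hd => hLl d (mem_filter.1 (mem_filter.1 hd).1).1)
      (fun d hd => hSl d (mem_filter.1 (mem_filter.1 hd).1).1)
    have k2 := G1 X hX p Y i E0 F Sh hY1 hYu hWi (Real.exp_pos _) hF al hJBi hadm
      (Dg.filter fun d => ¬ Real.log (nm d) ≤ k / 6) (S E0) m' k vt (k / 22) Yg
      (fun z => k + z - 2 * i - C₀) (afT al E0) (H i)
      (fun a b => by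
        rw [show k + a - 2 * (i : ℝ) - C₀ - (k + b - 2 * i - C₀) = a - b by ring]
        have := abs_nonneg (a - b)
        linarith)
      (fun d hd => hDs1 d (mem_filter.1 (mem_filter.1 hd).1).1) (fun e he => he)
      (fun d hd => haf d (mem_filter.1 (mem_filter.1 hd).1).1) (hH i)
      (fun d hd e he => hHl i d e (not_le.1 (mem_filter.1 hd).2))
      (fun d hd => by
        have h1 := (mem_filter.1 (mem_filter.1 hd).1).2
        linarith)
      (fun d hd b w hb hw hwv => by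
        have h1 := (mem_filter.1 (mem_filter.1 hd).1).1
        have h6 := not_le.1 (mem_filter.1 hd).2
        have hM0 := le_max_left 0 (b - Real.log E0)
        have hM1 := le_max_right 0 (b - Real.log E0)
        rcases shT_cases (s0 := s0) (p := p) (k := k) (N := N) (x := x) (um := um)
          (δ := Real.log (nm d)) (b := b) (w := w) hex with hc | hc
        · have := line_b2 (h := k + Real.log (nm d) - 2 * i - C₀) (tf_mono hT hiv)
            (by linarith) hb hM0 (by linarith) (l := w + b) (by linarith) hc (by linarith)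
          linarith
        · have := bias_b2 (h := k + Real.log (nm d) - 2 * i - C₀) (v := i) hB
            (by linarith) hb hM0 (by linarith) hiv (by linarith) hc (by linarith)
          linarith)
      (fun d hd => hLl d (mem_filter.1 (mem_filter.1 hd).1).1)
      (fun d hd => hSl d (mem_filter.1 (mem_filter.1 hd).1).1)
    have k3 := G0 X hX p Y i E0 F Sh hY1 hYu hWi (Real.exp_pos _) hF al hJBi hadm
      (Ds.filter fun d => ¬ 2 * Real.log (nm d) ≤ Real.log cc + i) (S E0) m' (Real.exp k)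
      (Real.exp vt) (Real.exp (k / 22)) 2 (Real.sqrt (cc * Real.exp i)) Yg (afT al E0) (H i)
      (fun d hd => hDs1 d (mem_filter.1 hd).1) (fun e he => he)
      (fun d hd => haf d (mem_filter.1 hd).1) (hH i) (Real.exp_pos _)
      (fun d hd => not_le.1 (mem_filter.1 hd).2)
    rw [← sum_filter_add_sum_filter_not Ds fun d => 2 * Real.log (nm d) ≤ Real.log cc + i,
      ← sum_filter_add_sum_filter_not (Ds.filter fun d => 2 * Real.log (nm d) ≤ Real.log cc + i)
        fun d => Real.log (nm d) ≤ k / 6]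
    refine (add_le_add (add_le_add k1 k2) k3).trans (le_of_eq ?_)
    rw [mul_assoc _ (Real.exp (-(p / 3))), mul_assoc _ (Real.exp (-(p / 3))), hme]
    ring
  refine (sum_le_sum hone).trans ?_
  rw [sum_const, nsmul_eq_mul]
  have hcard : ((LI (1 / 10) (2 ^ nf)).card : ℝ) ≤ (B₂ * (2 / ε) + 2) * X ^ (ε / 2) := by
    have h1 := card_LI_le (n := nf)
    have h2 := Real.log_le_rpow_div hX0.le (half_pos hε)
    have h3 : 1 ≤ X ^ (ε / 2) := Real.one_le_rpow hX1 (by positivity)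
    have h4 : B₂ * Real.log X ≤ B₂ * (X ^ (ε / 2) / (ε / 2)) := by gcongr
    have h5 : B₂ * (X ^ (ε / 2) / (ε / 2)) = B₂ * (2 / ε) * X ^ (ε / 2) := by
      field_simp
    nlinarith
  have hXX : X ^ (ε / 2) * X ^ (ε / 2) = X ^ ε := by
    rw [← Real.rpow_add hX0]; congr 1; ring
  calc _ ≤ ((B₂ * (2 / ε) + 2) * X ^ (ε / 2)) *
        ((C1 + C1 + C0) * X ^ (ε / 2) * F * Real.exp (k + p + ex + 10 * t)) := by
        gcongr
    _ = (B₂ * (2 / ε) + 2) * (C1 + C1 + C0) * (X ^ (ε / 2) * X ^ (ε / 2)) * F *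
        Real.exp (k + p + ex + 10 * t) := by ring
    _ = _ := by rw [hXX]

end Crest.Agent.R017.E3Nx744
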