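import Crest.Agent.R017.E3Hx_744

/-!
# Row 17, exceptional class, E3 (helper744): the T-half of E3 of `P1_0`, one datum near a box point

* `shT_lip2` : the numbers are Lipschitz in the family and the share
* `tnF_1` : `tnE_1` with a tolerance in `H^2 V^3 <= K^2`
* **`tnF`** : `tnE` with the frame at a box point `(k, N, x, ex)` near `(kA, NA, xA, exA)`
-/

set_option autoImplicit false
set_option linter.unusedVariables false

noncomputable section

open Finset
open scoped Classical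

namespace Crest.Agent.R017.E3Nx744

open Crest.Agent.R012 Crest.Agent.R012.Eis Crest.Agent.R012.MC
open Crest.Agent.R012.LS2 (S mem_S)
open Crest.Agent.R017.C70
open Crest.Agent.R017.OT551
open Crest.Agent.R017.E1551 hiding tau Dg
open Crest.Agent.R017.B770
open Crest.Agent.R017.Sf770 (JS)
open Crest.Agent.R017.E3Kc548 (LI afT)
open Crest.Agent.R017.E3Z548 (FH FH_nonneg LVn)
open Crest.Agent.R017.E3N146 (cLS cTT afT_eq Tf TC tc_of line_b1 line_b2 line_L line_S line_th1
  ShT ShT_le Bf BC bias_b1 bias_b2 bias_L bias_S)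
open Crest.Agent.R017.RnP571 (hJ)
open Crest.Agent.R017.I1146 (LipS)
open Crest.Agent.R017.TM708 (eF eH)
open Crest.Agent.R017.TNj90 (JBc)
open Crest.Agent.R017.P10X764 (shB)
open Crest.Agent.R017.I1K764 (bcx)

/-- the numbers are Lipschitz in the family and the share -/
lemma shT_lip2 {k5 k5' x x' um p s : ℝ} (hs : 0 ≤ s) (h1 : k5' ≤ k5 + s) (h2 : x' ≤ x + s)
    (γ b v : ℝ) : ShT k5' x' um p γ b v ≤ ShT k5 x um p γ b v + s := by
  unfold ShT eH eF
  rw [← min_add_add_right]
  refine min_le_min ?_ ?_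
  · have a1 : max (k5' + b / 2) (3 / 2 * (v + b)) ≤ max (k5 + b / 2) (3 / 2 * (v + b)) + s := by
      have e1 := le_max_left (k5 + b / 2) (3 / 2 * (v + b))
      have e2 := le_max_right (k5 + b / 2) (3 / 2 * (v + b))
      exact max_le (by linarith) (by linarith)
    set M := max (k5 + b / 2) (3 / 2 * (v + b))
    set M' := max (k5' + b / 2) (3 / 2 * (v + b))
    refine max_le (max_le ?_ ?_) ?_
    · have e1 := le_max_left (2 * (p - γ - b)) (4 / 3 * (p - γ - b) + (M + (v + b)) / 3)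
      have e2 := le_max_left (max (2 * (p - γ - b)) (4 / 3 * (p - γ - b) + (M + (v + b)) / 3))
        (v + b + (p - γ - b))
      linarith
    · have e1 := le_max_right (2 * (p - γ - b)) (4 / 3 * (p - γ - b) + (M + (v + b)) / 3)
      have e2 := le_max_left (max (2 * (p - γ - b)) (4 / 3 * (p - γ - b) + (M + (v + b)) / 3))
        (v + b + (p - γ - b))
      linarith
    · have e2 := le_max_right (max (2 * (p - γ - b)) (4 / 3 * (p - γ - b) + (M + (v + b)) / 3))
        (v + b + (p - γ - b))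
      linarith
  · rw [← max_add_add_right]
    refine max_le_max ?_ (by linarith)
    have a2 : min (um + x') ((p - γ - b) / 3 + 2 / 3 * x') ≤
        min (um + x) ((p - γ - b) / 3 + 2 / 3 * x) + s := by
      rw [← min_add_add_right]
      exact min_le_min (by linarith) (by linarith)
    linarith

lemma shB_lip2 {k5 k5' x x' um p s s0 : ℝ} (hs : 0 ≤ s) (h1 : k5' ≤ k5 + s) (h2 : x' ≤ x + s)
    (γ b v : ℝ) : shB s0 p (ShT k5' x' um p) γ b v ≤ shB s0 p (ShT k5 x um p) γ b v + s := by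
  unfold shB
  rw [← max_add_add_right]
  exact max_le_max (shT_lip2 hs h1 h2 γ b v) (by linarith)

lemma fcTT_le' {k h v m τ : ℝ} (hτ : 0 ≤ τ) (h0 : 2 * h + 3 * v ≤ 2 * k + 2 * τ)
    (h1 : 2 / 3 * k - (h + v) / 3 ≤ m) :
    FH (Real.exp k) (Real.exp h) (Real.exp v) * cTT (Real.exp k) (Real.exp h) (Real.exp v) ≤
      3 * Real.exp (m + τ) := by
  have he : (Real.exp h) ^ 2 * (Real.exp v) ^ 3 / (Real.exp k) ^ 2 =
      Real.exp (2 * h + 3 * v - 2 * k) := by
    rw [Real.exp_sub, Real.exp_add, ← Real.exp_nat_mul, ← Real.exp_nat_mul, ← Real.exp_nat_mul]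
    push_cast
    rfl
  have hx : 2 * h + 3 * v - 2 * k ≤ 2 * τ := by linarith
  have e1 : (Real.exp (2 * h + 3 * v - 2 * k)) ^ (1 / 3 : ℝ) ≤ Real.exp τ := by
    rw [← Real.exp_mul]
    exact Real.exp_le_exp.2 (by linarith)
  have e2 : (Real.exp (2 * h + 3 * v - 2 * k)) ^ (1 / 2 : ℝ) ≤ Real.exp τ := by
    rw [← Real.exp_mul]
    exact Real.exp_le_exp.2 (by linarith)
  have e0 : 1 ≤ Real.exp τ := Real.one_le_exp hτ
  have hc : cTT (Real.exp k) (Real.exp h) (Real.exp v) ≤ 3 * Real.exp τ := by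
    unfold cTT
    rw [he]
    linarith
  rw [fh_exp]
  have := Real.exp_le_exp.2 h1
  have h3 := Real.exp_pos (2 / 3 * k - (h + v) / 3)
  calc _ ≤ Real.exp (2 / 3 * k - (h + v) / 3) * (3 * Real.exp τ) := by gcongr
    _ ≤ Real.exp m * (3 * Real.exp τ) := by gcongr
    _ = _ := by rw [Real.exp_add]; ring

/-! ### one level -/

set_option maxHeartbeats 1600000 in
/-- one level, one range of divisors -/
theorem tnF_1 {R : ℝ} (hR : 0 ≤ R) {ε J B₂ cc : ℝ} (hε : 0 < ε) (hJ' : 0 ≤ J) (hB₂ : 0 < B₂)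
    (hcc : 1 ≤ cc) :
    ∃ C : ℝ, 0 ≤ C ∧ ∀ X : ℝ, 3 ≤ X →
      ∀ (n Y v E0 F : ℝ) (Sh : ℝ → ℝ → ℝ → ℝ), 1 ≤ Y → Y ≤ X ^ B₂ →
      cc * Real.exp v ≤ X ^ B₂ → 0 < E0 → 0 ≤ F → ∀ al : Eis → ℂ,
      JBc Y (cc * Real.exp v) F J Sh al → Adm Y (Real.exp n) R al →
      ∀ (Ds EE : Finset Eis) (m k vt η Yg τ : ℝ) (hf : ℝ → ℝ) (af : Eis → Eis → Eis → ℂ)
        (H : Eis → Eis → ℝ), 0 ≤ τ → (∀ x y, |hf x - hf y| ≤ 4 * |x - y|) →
      (∀ d ∈ Ds, IsPrim d ∧ (nm d : ℝ) ≤ X ^ B₂) → (∀ e ∈ EE, e ∈ S E0) →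
      (∀ d ∈ Ds, ∀ e ∈ EE, af d e = fun n => al (d * n)) → (∀ d e, 0 < H d e) →
      (∀ d ∈ Ds, ∀ e ∈ EE, H d e = Real.exp (hf (Real.log (nm d)))) →
      (∀ d ∈ Ds, 2 * hf (Real.log (nm d)) + 3 * v ≤ 2 * k + 2 * τ) →
      (∀ d ∈ Ds, ∀ b w : ℝ, 0 ≤ b → 0 ≤ w → w ≤ Real.log cc + v - 2 * Real.log (nm d) →
        2 / 3 * k - hf (Real.log (nm d)) / 3 + Sh (Real.log (nm d)) b w +
          4 / 3 * Real.log (nm d) + 4 / 3 * b - 2 * max 0 (b - Real.log E0) - (w + b) / 3 ≤ m) →
      (∀ d ∈ Ds, ∀ b w : ℝ, 0 ≤ b → 0 ≤ w → w ≤ Real.log cc + v - 2 * Real.log (nm d) →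
        2 / 3 * vt - k / 3 + 2 * η + v / 2 + Sh (Real.log (nm d)) b w +
          2 * Real.log (nm d) + b - 2 * max 0 (b - Real.log E0) ≤ m) →
      (∀ d ∈ Ds, ∀ b w : ℝ, 0 ≤ b → 0 ≤ w → w ≤ Real.log cc + v - 2 * Real.log (nm d) →
        (v + vt) / 3 + η + Sh (Real.log (nm d)) b w +
          2 * Real.log (nm d) + b - 2 * max 0 (b - Real.log E0) ≤ m) →
      ∑ d ∈ Ds, ∑ e ∈ EE, LVn af {d} {e} cc Yg (Real.exp k) (H d e) (Real.exp v) (Real.exp vt)
          (Real.exp η) 2 (Real.sqrt (cc * Real.exp v)) 0 ≤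
        C * X ^ ε * F * Real.exp (-(n / 3)) * Real.exp (m + τ) := by
  obtain ⟨C, hC, G⟩ := LVTaJ (R := R) hR hε hJ' hB₂ (Lφ := 4 / 3) (by norm_num)
  set c₁ : ℝ := Real.log (9 * Real.sqrt cc) + Real.log cc with hc₁
  refine ⟨C * Real.exp c₁, by positivity, ?_⟩
  intro X hX n Y v E0 F Sh hY1 hYu hWX hE0 hF al hJB hadm Ds EE m k vt η Yg τ hf af H hτ hlip hDs
    hEE haf hH hHe h4 l1 l2 l3
  have hs : 1 ≤ Real.sqrt cc := Real.one_le_sqrt.2 hcc
  have hs0 : 0 < 9 * Real.sqrt cc := by positivity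
  have hls : Real.log 3 ≤ Real.log (9 * Real.sqrt cc) :=
    Real.log_le_log (by norm_num) (by nlinarith)
  have hlc : 0 ≤ Real.log cc := Real.log_nonneg hcc
  have hlog : Real.log (cc * Real.exp v) = Real.log cc + v := by
    rw [Real.log_mul (by positivity) (Real.exp_pos v).ne', Real.log_exp]
  set a : ℝ := max (2 / 3 * vt - k / 3 + 2 * η + v / 2) ((v + vt) / 3 + η) with ha
  set φ : ℝ → ℝ := fun y => Real.log (9 * Real.sqrt cc) + max (2 / 3 * k - (hf y + v) / 3) a
    with hφ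
  set φ1 : ℝ → ℝ := fun y => Real.log (9 * Real.sqrt cc) + (2 / 3 * k - (hf y + v) / 3) + τ
    with hφ1
  have hlip' : ∀ x y, (2 / 3 * k - (hf x + v) / 3) ≤
      (2 / 3 * k - (hf y + v) / 3) + 4 / 3 * |x - y| := by
    intro x y
    have := (abs_le.1 (hlip x y)).1
    linarith
  have key := G X hX n Y cc (Real.exp v) E0 F Sh hY1 hYu (Real.exp_pos v) hWX hE0 hF al hJB hadm
    Ds EE (m + τ + c₁) φ φ1 af H (fun _ _ => 0) Yg (Real.exp k) (Real.exp vt) (Real.exp η) 2
    (Real.sqrt (cc * Real.exp v)) (fun x y => by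
      have h1 := hlip' x y
      have h2 := abs_nonneg (x - y)
      rw [hφ]
      dsimp only
      rw [add_assoc]
      refine add_le_add le_rfl (max_le ?_ ?_)
      · exact h1.trans (by
          have := le_max_left (2 / 3 * k - (hf y + v) / 3) a
          linarith)
      · have := le_max_right (2 / 3 * k - (hf y + v) / 3) a
        linarith)
    (fun x y => by
      have h1 := hlip' x y
      rw [hφ1]
      dsimp only
      linarith) hDs hEE haf (Real.exp_pos k) hH
    (fun d hd e he => by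
      rw [hHe d hd e he]
      refine (fcLS_le hcc (m := max (2 / 3 * k - (hf (Real.log (nm d)) + v) / 3) a)
        (le_max_left _ _) ?_ ?_).trans (le_of_eq ?_)
      · refine le_trans ?_ (le_max_right _ _)
        refine le_trans (le_of_eq ?_) (le_max_left _ _)
        ring
      · exact le_trans (le_max_right _ _) (le_max_right _ _)
      · rw [hφ]
        dsimp only
        rw [Real.exp_add, Real.exp_log hs0])
    (fun d hd e he => by
      rw [hHe d hd e he]
      refine (fcTT_le' hτ (h4 d hd) le_rfl).trans ?_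
      rw [hφ1]
      dsimp only
      rw [add_assoc, Real.exp_add (Real.log (9 * Real.sqrt cc)), Real.exp_log hs0]
      gcongr
      nlinarith)
    (fun d hd b w hb hw hwv => by
      rw [hlog] at hwv
      have h1 := l1 d hd b w hb hw hwv
      have h2 := l2 d hd b w hb hw hwv
      have h3 := l3 d hd b w hb hw hwv
      rw [hφ, hc₁]
      dsimp only
      have h5 : max (2 / 3 * k - (hf (Real.log (nm d)) + v) / 3) a ≤
          m + Real.log cc - (Sh (Real.log (nm d)) b w + 2 * Real.log (nm d) + b -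
            2 * max 0 (b - Real.log E0)) := by
        refine max_le ?_ (max_le ?_ ?_) <;> linarith
      linarith)
    (fun d hd b w hb hw hwv => by
      rw [hlog] at hwv ⊢
      have h1 := l1 d hd b w hb hw hwv
      rw [hφ1, hc₁]
      dsimp only
      linarith)
  refine key.trans (le_of_eq ?_)
  simp only [mul_zero, sum_const_zero, add_zero]
  rw [Real.exp_add (m + τ)]
  ring

set_option maxHeartbeats 1600000 in
/-- **the T-half of E3 of `P1_0`, class E, one datum near a box point** -/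
theorem tnF {R : ℝ} (hR : 0 ≤ R) {ε J B₂ cc : ℝ} (hε : 0 < ε) (hJ' : 0 ≤ J) (hB₂ : 0 < B₂)
    (hcc : 1 ≤ cc) :
    ∃ C : ℝ, 0 ≤ C ∧ ∀ X : ℝ, 3 ≤ X →
      ∀ (nf : ℕ) (k N x ex kA NA xA exA p s0 D m y t t₁ um C₀ e0 Y F : ℝ) (al : Eis → ℂ),
      Tf k N x ex (1 + nf * Real.log 2) p t → Bf k N x ex (1 + nf * Real.log 2) p s0 D m y t →
      ex = max 0 (5 / 4 * N - k) → exA = max 0 (5 / 4 * NA - kA) → 0 ≤ t₁ → 20 * t₁ ≤ t →
      |kA - k| ≤ t₁ → |NA - N| ≤ t₁ → |xA - x| ≤ t₁ → 0 ≤ kA →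
      Real.log cc ≤ t → Real.log cc ≤ 2 * C₀ → 2 * C₀ ≤ t →
      e0 ≤ 1 / 64 → 1 ≤ Y → Y ≤ X ^ B₂ → cc * (Real.exp 1 * 2 ^ nf) ≤ X ^ B₂ → 0 ≤ F →
      JBc Y (cc * (Real.exp 1 * 2 ^ nf)) F J
        (shB s0 p (ShT (max kA (5 / 4 * NA)) xA um p)) al →
      Adm Y (Real.exp p) R al → (∀ n, al n ≠ 0 → IsPrim n) →
      ∀ (H : ℕ → Eis → Eis → ℝ) (Yg : ℝ), (∀ i d e, 0 < H i d e) →
      (∀ i d e, Real.log (nm d) ≤ kA / 6 →
        H i d e = Real.exp (hJ kA p (Real.log (nm d)) xA exA)) →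
      (∀ i d e, kA / 6 < Real.log (nm d) →
        H i d e = Real.exp (kA + Real.log (nm d) - 2 * i - C₀)) →
      ∑ i ∈ LI (1 / 10) (2 ^ nf), ∑ d ∈ (JS nf).image Prod.fst, ∑ e ∈ S (Real.exp (e0 * kA)),
        LVn (afT al (Real.exp (e0 * kA))) {d} {e} cc Yg (Real.exp kA) (H i d e) (Real.exp i)
          (Real.exp 1 * 2 ^ nf) (Real.exp (kA / 22)) 2 (Real.sqrt (cc * Real.exp i)) 0 ≤
        C * X ^ ε * F * Real.exp (k + p + ex + 12 * t) := by
  obtain ⟨C1, hC1, G1⟩ := tnF_1 hR (half_pos hε) hJ' hB₂ hcc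
  obtain ⟨C0, hC0, G0⟩ := tnE_0 hR (half_pos hε) hJ' hB₂ hcc
  refine ⟨(B₂ * (2 / ε) + 2) * (C1 + C1 + C0), by positivity, ?_⟩
  intro X hX nf k N x ex kA NA xA exA p s0 D m y t t₁ um C₀ e0 Y F al hT hB hex hexA ht1 ht20 hkA
    hNA hxA hkA0 hct hC₀ hC₀t he0 hY1 hYu hWX hF hJB hadm hpr H Yg hH hHs hHl
  have hX1 : 1 ≤ X := by linarith
  have hX0 : 0 < X := by linarith
  have hlX : 0 ≤ Real.log X := Real.log_nonneg hX1
  have hlc : 0 ≤ Real.log cc := Real.log_nonneg hcc
  set vt : ℝ := 1 + nf * Real.log 2 with hvt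
  have hVt : Real.exp 1 * 2 ^ nf = Real.exp vt := by
    rw [hvt, Real.exp_add, mul_comm (nf : ℝ), Real.exp_mul, Real.exp_log (by norm_num),
      Real.rpow_natCast]
  rw [hVt] at hWX hJB ⊢
  set E0 : ℝ := Real.exp (e0 * kA) with hE0
  have hlE : Real.log E0 = e0 * kA := by rw [hE0, Real.log_exp]
  have hk0 := hB.k0
  have ht0 := hB.t0
  obtain ⟨hkA1, hkA2⟩ := abs_le.1 hkA
  obtain ⟨hNA1, hNA2⟩ := abs_le.1 hNA
  obtain ⟨hxA1, hxA2⟩ := abs_le.1 hxA
  have hE1 : Real.log E0 ≤ k / 64 + t₁ := by rw [hlE]; nlinarith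
  have hexx1 : exA ≤ ex + 9 / 4 * t₁ := by
    rw [hexA, hex]
    have h1 := le_max_left 0 (5 / 4 * N - k)
    have h2 := le_max_right 0 (5 / 4 * N - k)
    exact max_le (by linarith) (by linarith)
  have hexx2 : ex ≤ exA + 9 / 4 * t₁ := by
    rw [hexA, hex]
    have h1 := le_max_left 0 (5 / 4 * NA - kA)
    have h2 := le_max_right 0 (5 / 4 * NA - kA)
    exact max_le (by linarith) (by linarith)
  set Ds : Finset Eis := (JS nf).image Prod.fst with hDs
  have hcb : (nf : ℝ) * Real.log 2 ≤ B₂ * Real.log X := by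
    have h1 := Real.log_le_log (by positivity) hWX
    rw [Real.log_mul (by positivity) (Real.exp_pos _).ne', Real.log_exp,
      Real.log_rpow hX0] at h1
    linarith
  have h2n : Real.sqrt (2 ^ nf) ≤ X ^ B₂ := by
    have h1 : (1 : ℝ) ≤ 2 ^ nf := one_le_pow₀ (by norm_num)
    have h2 : Real.sqrt (2 ^ nf) ≤ 2 ^ nf := by
      rw [Real.sqrt_le_left (by positivity)]
      nlinarith
    have h3 : (2 : ℝ) ^ nf ≤ Real.exp 1 * 2 ^ nf := by
      have := Real.add_one_le_exp 1
      nlinarith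
    have h4 : Real.exp 1 * 2 ^ nf ≤ cc * (Real.exp 1 * 2 ^ nf) :=
      le_mul_of_one_le_left (by positivity) hcc
    rw [← hVt] at hWX
    linarith
  have hDs1 : ∀ d ∈ Ds, IsPrim d ∧ (nm d : ℝ) ≤ X ^ B₂ := by
    intro d hd
    obtain ⟨x', hx', rfl⟩ := mem_image.1 hd
    obtain ⟨h1, h2⟩ := mem_filter.1 hx'
    obtain ⟨h3, -⟩ := mem_product.1 h1
    obtain ⟨h4, h5⟩ := mem_primBall.1 h3
    refine ⟨h5, le_trans ?_ h2n⟩
    exact (Nat.cast_le.2 h4).trans (Nat.floor_le (Real.sqrt_nonneg _))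
  set Sh := shB s0 p (ShT (max kA (5 / 4 * NA)) xA um p) with hSh
  set Sb := shB s0 p (ShT (max k (5 / 4 * N)) x um p) with hSb
  have hSS : ∀ γ b v, Sh γ b v ≤ Sb γ b v + 2 * t₁ := by
    refine shB_lip2 (by linarith) ?_ (by linarith)
    have h1 := le_max_left k (5 / 4 * N)
    have h2 := le_max_right k (5 / 4 * N)
    exact max_le (by linarith) (by linarith)
  have hone : ∀ i ∈ LI (1 / 10) (2 ^ nf), ∑ d ∈ Ds, ∑ e ∈ S E0,
      LVn (afT al E0) {d} {e} cc Yg (Real.exp kA) (H i d e) (Real.exp i)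
          (Real.exp vt) (Real.exp (kA / 22)) 2 (Real.sqrt (cc * Real.exp i)) 0 ≤
        (C1 + C1 + C0) * X ^ (ε / 2) * F * Real.exp (k + p + ex + 12 * t) := by
    intro i hi
    have hiv : (i : ℝ) ≤ vt := mem_LI_le hi
    have hle : Real.exp i ≤ Real.exp vt := Real.exp_le_exp.2 hiv
    have hWi : cc * Real.exp i ≤ X ^ B₂ := (by gcongr : cc * Real.exp i ≤ cc * Real.exp vt).trans hWX
    have hJBi := hJB.mono (W := cc * Real.exp i) (by gcongr)
    have haf : ∀ d ∈ Ds, ∀ e ∈ S E0, afT al E0 d e = fun n => al (d * n) := fun d hd e he =>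
      afT_eq hpr (hDs1 d hd).1 he
    set m' : ℝ := k + p + ex + 12 * t + p / 3 - t₁ with hm'
    have hme : Real.exp (-(p / 3)) * Real.exp (m' + t₁) = Real.exp (k + p + ex + 12 * t) := by
      rw [← Real.exp_add]; congr 1; rw [hm']; ring
    set Dg := Ds.filter fun d => 2 * Real.log (nm d) ≤ Real.log cc + i with hDg
    have hδ0 : ∀ d ∈ Ds, 0 ≤ Real.log (nm d) := fun d hd =>
      Real.log_nonneg (by exact_mod_cast nm_pos.2 (hDs1 d hd).1.ne_zero)
    -- the lines of the cube-free numbers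
    have hLl : ∀ d ∈ Ds, ∀ b w : ℝ, 0 ≤ b → 0 ≤ w →
        w ≤ Real.log cc + i - 2 * Real.log (nm d) →
        2 / 3 * vt - kA / 3 + 2 * (kA / 22) + i / 2 + Sh (Real.log (nm d)) b w +
          2 * Real.log (nm d) + b - 2 * max 0 (b - Real.log E0) ≤ m' := by
      intro d hd b w hb hw hwv
      have hS := hSS (Real.log (nm d)) b w
      have hM0 := le_max_left 0 (b - Real.log E0)
      have hM1 := le_max_right 0 (b - Real.log E0)
      rcases shT_cases (s0 := s0) (p := p) (k := k) (N := N) (x := x) (um := um)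
        (δ := Real.log (nm d)) (b := b) (w := w) hex with hc | hc
      · have := line_L (η := kA / 22) hT (hδ0 d hd) hb hM0 (by linarith) hiv
          (by linarith) hc (by linarith)
        linarith
      · have := bias_L (η := kA / 22) hB (hδ0 d hd) hb hM0 (by linarith) hiv
          (by linarith) hc (by linarith)
        linarith
    have hSl : ∀ d ∈ Ds, ∀ b w : ℝ, 0 ≤ b → 0 ≤ w →
        w ≤ Real.log cc + i - 2 * Real.log (nm d) →
        (i + vt) / 3 + kA / 22 + Sh (Real.log (nm d)) b w +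
          2 * Real.log (nm d) + b - 2 * max 0 (b - Real.log E0) ≤ m' := by
      intro d hd b w hb hw hwv
      have hS := hSS (Real.log (nm d)) b w
      have hM0 := le_max_left 0 (b - Real.log E0)
      have hM1 := le_max_right 0 (b - Real.log E0)
      rcases shT_cases (s0 := s0) (p := p) (k := k) (N := N) (x := x) (um := um)
        (δ := Real.log (nm d)) (b := b) (w := w) hex with hc | hc
      · have := line_S (η := kA / 22) hT (hδ0 d hd) hb hM0 (by linarith) hiv
          (by linarith) hc (by linarith)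
        linarith
      · have := bias_S (η := kA / 22) hB (hδ0 d hd) hb hM0 (by linarith) hiv
          (by linarith) hc (by linarith)
        linarith
    have k1 := G1 X hX p Y i E0 F Sh hY1 hYu hWi (Real.exp_pos _) hF al hJBi hadm
      (Dg.filter fun d => Real.log (nm d) ≤ kA / 6) (S E0) m' kA vt (kA / 22) Yg t₁
      (fun z => hJ kA p z xA exA) (afT al E0) (H i) ht1 (hJ_lip kA p xA exA)
      (fun d hd => hDs1 d (mem_filter.1 (mem_filter.1 hd).1).1) (fun e he => he)
      (fun d hd => haf d (mem_filter.1 (mem_filter.1 hd).1).1) (hH i)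
      (fun d hd e he => hHs i d e (mem_filter.1 hd).2)
      (fun d hd => by
        have h1 := (mem_filter.1 (mem_filter.1 hd).1).1
        have h2 : hJ kA p (Real.log (nm d)) xA exA = kA / 64 ∨
            hJ kA p (Real.log (nm d)) xA exA =
              4 / 3 * (p - Real.log (nm d)) - kA + xA - 3 * exA := max_choice _ _
        have h3 := line_th1 (h := hJ kA p (Real.log (nm d)) xA exA) hT (hδ0 d h1) (by
          rcases h2 with h2 | h2
          · left; rw [h2]; linarith
          · right; rw [h2]; linarith)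
        linarith)
      (fun d hd b w hb hw hwv => by
        have h1 := (mem_filter.1 (mem_filter.1 hd).1).1
        have hM0 := le_max_left 0 (b - Real.log E0)
        have hM1 := le_max_right 0 (b - Real.log E0)
        have g1 : k / 64 - t ≤ hJ kA p (Real.log (nm d)) xA exA := by
          have := le_max_left (kA / 64) (4 / 3 * (p - Real.log (nm d)) - kA + xA - 3 * exA)
          unfold RnP571.hJ; linarith
        have g2 : 4 / 3 * (p - Real.log (nm d)) - k + x - 3 * ex - t ≤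
            hJ kA p (Real.log (nm d)) xA exA := by
          have := le_max_right (kA / 64) (4 / 3 * (p - Real.log (nm d)) - kA + xA - 3 * exA)
          unfold RnP571.hJ; linarith
        have hS := hSS (Real.log (nm d)) b w
        rcases shT_cases (s0 := s0) (p := p) (k := k) (N := N) (x := x) (um := um)
          (δ := Real.log (nm d)) (b := b) (w := w) hex with hc | hc
        · have := line_b1 hT (hδ0 d h1) hb hM0 (by linarith) (by linarith) hc g1 g2
          linarith
        · have := bias_b1 hB (hδ0 d h1) hb hM0 (by linarith) hiv (by linarith) hc g1 g2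
          linarith)
      (fun d hd => hLl d (mem_filter.1 (mem_filter.1 hd).1).1)
      (fun d hd => hSl d (mem_filter.1 (mem_filter.1 hd).1).1)
    have k2 := G1 X hX p Y i E0 F Sh hY1 hYu hWi (Real.exp_pos _) hF al hJBi hadm
      (Dg.filter fun d => ¬ Real.log (nm d) ≤ kA / 6) (S E0) m' kA vt (kA / 22) Yg t₁
      (fun z => kA + z - 2 * i - C₀) (afT al E0) (H i) ht1
      (fun a b => by
        rw [show kA + a - 2 * (i : ℝ) - C₀ - (kA + b - 2 * i - C₀) = a - b by ring]
        have := abs_nonneg (a - b)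
        linarith)
      (fun d hd => hDs1 d (mem_filter.1 (mem_filter.1 hd).1).1) (fun e he => he)
      (fun d hd => haf d (mem_filter.1 (mem_filter.1 hd).1).1) (hH i)
      (fun d hd e he => hHl i d e (not_le.1 (mem_filter.1 hd).2))
      (fun d hd => by
        have h1 := (mem_filter.1 (mem_filter.1 hd).1).2
        linarith)
      (fun d hd b w hb hw hwv => by
        have h1 := (mem_filter.1 (mem_filter.1 hd).1).1
        have h6 := not_le.1 (mem_filter.1 hd).2
        have hS := hSS (Real.log (nm d)) b w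
        have hM0 := le_max_left 0 (b - Real.log E0)
        have hM1 := le_max_right 0 (b - Real.log E0)
        rcases shT_cases (s0 := s0) (p := p) (k := k) (N := N) (x := x) (um := um)
          (δ := Real.log (nm d)) (b := b) (w := w) hex with hc | hc
        · have := line_b2 (h := kA + Real.log (nm d) - 2 * i - C₀) (tf_mono hT hiv)
            (by linarith) hb hM0 (by linarith) (l := w + b) (by linarith) hc (by linarith)
          linarith
        · have := bias_b2 (h := kA + Real.log (nm d) - 2 * i - C₀) (v := i) hB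
            (by linarith) hb hM0 (by linarith) hiv (by linarith) hc (by linarith)
          linarith)
      (fun d hd => hLl d (mem_filter.1 (mem_filter.1 hd).1).1)
      (fun d hd => hSl d (mem_filter.1 (mem_filter.1 hd).1).1)
    have k3 := G0 X hX p Y i E0 F Sh hY1 hYu hWi (Real.exp_pos _) hF al hJBi hadm
      (Ds.filter fun d => ¬ 2 * Real.log (nm d) ≤ Real.log cc + i) (S E0) (m' + t₁) (Real.exp kA)
      (Real.exp vt) (Real.exp (kA / 22)) 2 (Real.sqrt (cc * Real.exp i)) Yg (afT al E0) (H i)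
      (fun d hd => hDs1 d (mem_filter.1 hd).1) (fun e he => he)
      (fun d hd => haf d (mem_filter.1 hd).1) (hH i) (Real.exp_pos _)
      (fun d hd => not_le.1 (mem_filter.1 hd).2)
    rw [← sum_filter_add_sum_filter_not Ds fun d => 2 * Real.log (nm d) ≤ Real.log cc + i,
      ← sum_filter_add_sum_filter_not (Ds.filter fun d => 2 * Real.log (nm d) ≤ Real.log cc + i)
        fun d => Real.log (nm d) ≤ kA / 6]
    refine (add_le_add (add_le_add k1 k2) k3).trans (le_of_eq ?_)
    rw [mul_assoc _ (Real.exp (-(p / 3))), mul_assoc _ (Real.exp (-(p / 3))), hme]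
    ring
  refine (sum_le_sum hone).trans ?_
  rw [sum_const, nsmul_eq_mul]
  have hcard : ((LI (1 / 10) (2 ^ nf)).card : ℝ) ≤ (B₂ * (2 / ε) + 2) * X ^ (ε / 2) := by
    have h1 := card_LI_le (n := nf)
    have h2 := Real.log_le_rpow_div hX0.le (half_pos hε)
    have h3 : 1 ≤ X ^ (ε / 2) := Real.one_le_rpow hX1 (by positivity)
    have h4 : B₂ * Real.log X ≤ B₂ * (X ^ (ε / 2) / (ε / 2)) := by gcongr
    have h5 : B₂ * (X ^ (ε / 2) / (ε / 2)) = B₂ * (2 / ε) * X ^ (ε / 2) := by
      field_simp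
    nlinarith
  have hXX : X ^ (ε / 2) * X ^ (ε / 2) = X ^ ε := by
    rw [← Real.rpow_add hX0]; congr 1; ring
  calc _ ≤ ((B₂ * (2 / ε) + 2) * X ^ (ε / 2)) *
        ((C1 + C1 + C0) * X ^ (ε / 2) * F * Real.exp (k + p + ex + 12 * t)) := by
        gcongr
    _ = (B₂ * (2 / ε) + 2) * (C1 + C1 + C0) * (X ^ (ε / 2) * X ^ (ε / 2)) * F *
        Real.exp (k + p + ex + 12 * t) := by ring
    _ = _ := by rw [hXX]

end Crest.Agent.R017.E3Nx744
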