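import Crest.Agent.R017.E3Th_829
import Crest.Agent.R017.E3Sj_290
import Crest.Agent.R017.E3J_548

/-!
# Row 17, R8 (E3), the cells of the off-diagonal part (helper829)

* `Cd`, `Cd.swap`, `Cd.OK` : the data of one cell
* `Cd.exists_fac` : the factorization of the kernel (helper290)
* `Cd.val_le` : the value of a cell
-/

set_option autoImplicit false
set_option linter.unusedVariables false

noncomputable section

open Finset
open scoped Classical ComplexConjugate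

namespace Crest.Agent.R017.E3T829

open Crest.Agent.R012 Crest.Agent.R012.Eis Crest.Agent.R012.Div277
open Crest.Agent.R012.LS2 (S mem_S bl mem_bl)
open Crest.Agent.R017.E3A164 (Cs mem_Cs fq)
open Crest.Agent.R017.GrB829 (IsC)
open Crest.Agent.R017.DgA829 (lc lc_prim)
open Crest.Agent.R017.E1551 (nmpos)
open Crest.Agent.R017.E3Sr290 (CellD cellOf Fac exists_fac)
open Crest.Agent.R017.E3Sg290 (wc wc_nonneg)

/-- the data of one cell -/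
structure Cd where
  (q t d e c g d' e' c' g' b b' s sg a a' D E F M N N' r m m' u u' : Eis)

namespace Cd

variable (x : Cd)

/-- the other side -/
def swap : Cd :=
  ⟨x.q, x.t, x.d', x.e', x.c', x.g', x.d, x.e, x.c, x.g, x.b', x.b, x.s, x.sg, x.a', x.a, x.D,
    x.E, x.F, x.M, x.N', x.N, x.r, x.m', x.m, x.u', x.u⟩

/-- the admissible data -/
structure OK (Z : ℝ) (EE : Finset Eis) : Prop where
  q : x.q ∈ S Z
  t : x.t ∈ primBall ⌊Z⌋₊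
  d : x.d ∈ S Z
  e : x.e ∈ EE
  pe : IsPrim x.e
  c : IsC x.c
  g : x.g ∈ S Z
  d' : x.d' ∈ S Z
  e' : x.e' ∈ EE
  pe' : IsPrim x.e'
  c' : IsC x.c'
  g' : x.g' ∈ S Z
  b : x.b ∈ S Z
  b' : x.b' ∈ S Z
  s : x.s ∈ dvs x.q
  sg : x.sg ∈ dvs x.r
  a : IsPrim x.a
  a' : IsPrim x.a'
  na : (nm x.a : ℝ) ≤ Z
  na' : (nm x.a' : ℝ) ≤ Z
  D : x.D ∈ S Z
  E : x.E ∈ dvs x.D
  F : x.F ∈ S Z
  M : IsPrim x.M
  r : IsPrim x.r
  m : IsPrim x.m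
  m' : IsPrim x.m'
  u : IsPrim x.u
  u' : IsPrim x.u'
  sdg : Squarefree (x.d * x.g)
  sdg' : Squarefree (x.d' * x.g')
  e1 : x.d * x.g = x.r * x.m
  e2 : x.d' * x.g' = x.r * x.m'
  cop : IsCoprime x.m x.m'
  eu : x.m' = x.a * x.u
  eu' : x.m = x.a' * x.u'
  eN : x.M = x.g * x.N
  eN' : x.M = x.g' * x.N'
  bM : (lc x.b x.b') ^ 2 ∣ x.M

lemma lc_comm {a b : Eis} (ha : IsPrim a) (hb : IsPrim b) : lc a b = lc b a := by
  have h1 := lc_prim ha hb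
  have h2 := lc_prim hb ha
  refine h1.eq_of_associated h2 (associated_of_dvd_dvd ?_ ?_)
  · rw [DgA829.lc_dvd ha hb]
    exact ⟨((DgA829.lc_dvd hb ha _).mp dvd_rfl).2, ((DgA829.lc_dvd hb ha _).mp dvd_rfl).1⟩
  · rw [DgA829.lc_dvd hb ha]
    exact ⟨((DgA829.lc_dvd ha hb _).mp dvd_rfl).2, ((DgA829.lc_dvd ha hb _).mp dvd_rfl).1⟩

variable {x} {Z : ℝ} {EE : Finset Eis}

lemma OK.Z1 (h : x.OK Z EE) : 1 ≤ Z := by
  have h1 := (mem_primBall.mp h.t)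
  have h2 : 1 ≤ nm x.t := nm_pos.mpr h1.2.ne_zero
  have h3 : (1 : ℕ) ≤ ⌊Z⌋₊ := h2.trans h1.1
  have h4 : ((1 : ℕ) : ℝ) ≤ Z := (Nat.le_floor_iff' (by norm_num)).mp h3
  simpa using h4

lemma OK.prim (h : x.OK Z EE) {z : Eis} (hz : z ∈ S Z) : IsPrim z :=
  ((mem_S (by linarith [h.Z1])).1 hz).2.1

lemma OK.size (h : x.OK Z EE) {z : Eis} (hz : z ∈ S Z) : (nm z : ℝ) ≤ Z :=
  ((mem_S (by linarith [h.Z1])).1 hz).1

lemma OK.pt (h : x.OK Z EE) : IsPrim x.t := (mem_primBall.mp h.t).2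

lemma OK.swap (h : x.OK Z EE) : x.swap.OK Z EE where
  q := h.q
  t := h.t
  d := h.d'
  e := h.e'
  pe := h.pe'
  c := h.c'
  g := h.g'
  d' := h.d
  e' := h.e
  pe' := h.pe
  c' := h.c
  g' := h.g
  b := h.b'
  b' := h.b
  s := h.s
  sg := h.sg
  a := h.a'
  a' := h.a
  na := h.na'
  na' := h.na
  D := h.D
  E := h.E
  F := h.F
  M := h.M
  r := h.r
  m := h.m'
  m' := h.m
  u := h.u'
  u' := h.u
  sdg := h.sdg'
  sdg' := h.sdg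
  e1 := h.e2
  e2 := h.e1
  cop := h.cop.symm
  eu := h.eu'
  eu' := h.eu
  eN := h.eN'
  eN' := h.eN
  bM := by
    have h1 := h.bM
    rw [lc_comm (h.prim h.b) (h.prim h.b')] at h1
    exact h1

lemma OK.N (h : x.OK Z EE) : IsPrim x.N := by
  have h1 := h.M
  rw [h.eN] at h1
  exact h1.of_mul_left (h.prim h.g)

lemma OK.pb (h : x.OK Z EE) : IsPrim (lc x.b x.b') := lc_prim (h.prim h.b) (h.prim h.b')

/-- the least common multiple of squarefree elements is squarefree -/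
lemma lc_sqf {Z : ℝ} (hZ : 0 ≤ Z) {b b' : Eis} (hb : b ∈ S Z) (hb' : b' ∈ S Z) :
    Squarefree (lc b b') := by
  have h1 := E3Sg290.lc_mem hZ hb hb'
  exact ((mem_S (by positivity)).1 h1.1).2.2

/-- the factorization of the kernel -/
theorem OK.fac (h : x.OK Z EE) : Nonempty (Fac x.g x.g' x.d x.d' x.r x.m x.m' x.a x.u x.a' x.M x.N
    (lc x.b x.b')) := by
  refine exists_fac (h.prim h.g) (h.prim h.g') (h.prim h.d) (h.prim h.d') h.r h.m h.m' h.a h.u h.M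
    h.pb h.sdg h.sdg' (lc_sqf (by linarith [h.Z1]) h.b h.b') h.e1 h.e2 h.cop h.eu h.eN ?_ h.bM
  exact ⟨x.N', h.eN'⟩

variable (x)

/-- the variables of one side -/
def U : UT := (x.d, x.e, x.q, x.c, x.g, x.a, x.D, x.F)

/-- the variables of the other side -/
def V : VT := ((x.t, x.d', x.g', x.b, x.b'), x.e', x.c', x.s, x.sg, x.a', x.E)

variable {x}

lemma OK.OU (h : x.OK Z EE) : OU Z x.U where
  d := h.prim h.d
  q := h.prim h.q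
  c := h.c
  g := h.prim h.g
  a := h.a
  D := h.prim h.D
  F := h.prim h.F
  nd := h.size h.d
  nq := h.size h.q
  ng := h.size h.g
  na := h.na
  nD := h.size h.D

lemma OK.aS (h : x.OK Z EE) : x.a ∈ S Z := by
  refine (mem_S (by linarith [h.Z1])).2 ⟨h.na, h.a, ?_⟩
  have h1 := h.sdg'
  rw [h.e2, h.eu] at h1
  exact (h1.of_mul_right).of_mul_left

lemma OK.SU (h : x.OK Z EE) : SU Z x.U where
  q := h.q
  g := h.g
  a := h.aS
  D := h.D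
  F := h.F

lemma OK.VS (h : x.OK Z EE) : x.V ∈ VS Z EE x.U.2.2.1 x.U.1 x.U.2.2.2.2.1 x.U.2.2.2.2.2.2.1 := by
  have hdg : x.d * x.g ≠ 0 := mul_ne_zero (h.prim h.d).ne_zero (h.prim h.g).ne_zero
  have k1 := (mem_dvs h.r.ne_zero).mp h.sg
  unfold E3T829.VS V U
  simp only [mem_product, mem_Cs]
  refine ⟨⟨h.t, h.d', h.g', h.b, h.b'⟩, h.e', h.c', h.s, ?_, ?_, h.E⟩
  · rw [mem_dvs hdg, h.e1]
    exact ⟨k1.1, k1.2.mul_right _⟩
  · rw [mem_dvs hdg, h.e1, h.eu']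
    exact ⟨h.a', (dvd_mul_right _ _).mul_left _⟩

variable (x)

/-- the cell -/
def cell (K Vv Vv' H X : ℝ) (xk : Eis) : CellD :=
  cellOf K (Vv / nm x.c) (Vv' / nm x.c') H (nm x.q) (nm x.t)
    (nm x.D) (nm x.E) (nm x.F) X x.M x.g x.g' x.d x.d' x.a x.a' x.r xk

/-- the ratio of the weights (`rv` : the ratio of the levels) -/
def rho (rv : ℝ) : ℝ :=
  (nm x.d / nm x.d' : ℝ) ^ (3 / 2 : ℝ) * (nm x.g / nm x.g' : ℝ) ^ (2 / 3 : ℝ) *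
    (nm x.a / nm x.a' : ℝ) ^ (1 / 2 : ℝ) * rv * (nm x.e / nm x.e' : ℝ)

/-- the weight in front of the modes -/
def om0 (K Vv Vv' : ℝ) : ℝ := (x.cell K Vv Vv' 1 1 1).pref

/-- the value of a cell -/
def val (K Vv Vv' H rv X : ℝ) (xk : Eis) : ℝ :=
  (nm x.e / nm x.e' : ℝ) * (rv * ((x.cell K Vv Vv' H X xk).rho *
    ((x.cell K Vv Vv' H X xk).pref * ((x.cell K Vv Vv' H X xk).L0 /
      (x.cell K Vv Vv' H X xk).Lt) ^ (1 / 3 : ℝ) * (x.cell K Vv Vv' H X xk).Y *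
        (x.cell K Vv Vv' H X xk).Z ^ (-(1 / 3) : ℝ))))

/-- the weight of `(d, e)` -/
def Pde (K : ℝ) (Q : Eis → ℝ) (d e : Eis) : ℝ :=
  3 * K ^ (2 / 3 : ℝ) * Q d * (nm d : ℝ) ^ (2 / 3 : ℝ) * nm e

lemma Pde_nonneg {K : ℝ} (hK : 0 ≤ K) {Q : Eis → ℝ} (hQ : ∀ d, 0 ≤ Q d)
    (d e : Eis) : 0 ≤ Pde K Q d e := by
  unfold Pde
  have := hQ d
  positivity

lemma nm_c_le {c : Eis} (hc : IsC c) : 1 ≤ nm c ∧ nm c ≤ 9 := by
  rcases hc with rfl | rfl | rfl | rfl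
  · rw [nm_one]; omega
  · have : nm (3 : Eis) = 9 := by decide
    omega
  · have : nm (3 : Eis) = 9 := by decide
    rw [nm_mul, nm_w, this]; omega
  · have : nm (3 : Eis) = 9 := by decide
    rw [nm_mul, nm_pow, nm_w, this]; omega

variable {x}

lemma OK.np (h : x.OK Z EE) : (0 : ℝ) < nm x.q ∧ (0 : ℝ) < nm x.t ∧ (0 : ℝ) < nm x.d ∧
    (0 : ℝ) < nm x.e ∧ (0 : ℝ) < nm x.c ∧ (0 : ℝ) < nm x.g ∧ (0 : ℝ) < nm x.d' ∧
    (0 : ℝ) < nm x.e' ∧ (0 : ℝ) < nm x.c' ∧ (0 : ℝ) < nm x.g' ∧ (0 : ℝ) < nm x.D ∧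
    (0 : ℝ) < nm x.E ∧ (0 : ℝ) < nm x.F := by
  have k1 := (mem_dvs (h.prim h.D).ne_zero).mp h.E
  have c1 := (nm_c_le h.c).1
  have c2 := (nm_c_le h.c').1
  refine ⟨nmpos (h.prim h.q).ne_zero, nmpos h.pt.ne_zero, nmpos (h.prim h.d).ne_zero,
    nmpos h.pe.ne_zero, by exact_mod_cast c1, nmpos (h.prim h.g).ne_zero,
    nmpos (h.prim h.d').ne_zero, nmpos h.pe'.ne_zero, by exact_mod_cast c2,
    nmpos (h.prim h.g').ne_zero, nmpos (h.prim h.D).ne_zero, nmpos k1.1.ne_zero,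
    nmpos (h.prim h.F).ne_zero⟩

/-- **the value of a cell** -/
theorem OK.val_le (h : x.OK Z EE) {K Vv Vv' H rv X : ℝ} (Q : Eis → ℝ) (hK : 0 < K) (hV : 0 < Vv)
    (hV' : 0 < Vv') (hH : 0 < H) (hrv : 0 ≤ rv) (hX : 0 < X)
    (hQ : rv * (H ^ (-(1 / 3) : ℝ) * (Vv * Vv') ^ (-(1 / 6) : ℝ)) ≤ Q x.d)
    (f : Fac x.g x.g' x.d x.d' x.r x.m x.m' x.a x.u x.a' x.M x.N (lc x.b x.b')) :
    x.val K Vv Vv' H rv X f.xk ≤ Pde K Q x.U.1 x.U.2.1 *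
      wV x.U.2.2.2.2.1 x.U.1 x.U.2.2.2.2.2.1 x.V := by
  obtain ⟨nq, nt, nd, ne, nc, ng, nd', ne', nc', ng', nD, nE, nF⟩ := h.np
  have hVc : 0 < Vv / nm x.c := by positivity
  have hVc' : 0 < Vv' / nm x.c' := by positivity
  have key := f.cell_le (h.prim h.g) (h.prim h.d) h.a' h.pb (h.prim h.g') h.eN hK hVc hVc' hH nq nt
    nD nE nF hX
  have h0 : (0 : ℝ) ≤ nm x.e / nm x.e' := by positivity
  have k2 := mul_le_mul_of_nonneg_left (mul_le_mul_of_nonneg_left key hrv) h0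
  refine le_trans (le_of_eq rfl) (k2.trans ?_)
  have hc3 : (Vv / nm x.c * (Vv' / nm x.c')) ^ (-(1 / 6) : ℝ) ≤
      3 * (Vv * Vv') ^ (-(1 / 6) : ℝ) := by
    have h9 : (nm x.c : ℝ) ≤ 9 := by exact_mod_cast (nm_c_le h.c).2
    have h9' : (nm x.c' : ℝ) ≤ 9 := by exact_mod_cast (nm_c_le h.c').2
    have e1 : Vv / nm x.c * (Vv' / nm x.c') = (Vv * Vv') / (nm x.c * nm x.c') := by
      field_simp
    have hcc : (0 : ℝ) < nm x.c * nm x.c' := by positivity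
    have hvv : 0 < Vv * Vv' := by positivity
    rw [e1, Real.div_rpow hvv.le hcc.le, div_eq_mul_inv, ← Real.rpow_neg hcc.le, mul_comm]
    refine mul_le_mul_of_nonneg_right ?_ (Real.rpow_nonneg hvv.le _)
    calc (nm x.c * nm x.c' : ℝ) ^ (-(-(1 / 6) : ℝ)) ≤ (9 * 9 : ℝ) ^ (-(-(1 / 6) : ℝ)) :=
          Real.rpow_le_rpow hcc.le (mul_le_mul h9 h9' nc'.le (by norm_num)) (by norm_num)
      _ ≤ (9 * 9 : ℝ) ^ (1 / 4 : ℝ) := Real.rpow_le_rpow_of_exponent_le (by norm_num) (by norm_num)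
      _ = 3 := by
        rw [show (9 * 9 : ℝ) = 3 ^ (4 : ℝ) by norm_num, ← Real.rpow_mul (by norm_num)]
        norm_num
  have hw : (0 : ℝ) ≤ (nm x.t : ℝ)⁻¹ * (nm x.d' : ℝ)⁻¹ *
      (nm (StA828.gp (x.g * x.d * x.a) x.g') / nm x.g') *
      (nm (StA828.gp (x.g * x.g') (lc x.b x.b')) / nm (lc x.b x.b')) := by positivity
  calc (nm x.e / nm x.e' : ℝ) * (rv * (K ^ (2 / 3 : ℝ) * H ^ (-(1 / 3) : ℝ) *
        (Vv / nm x.c * (Vv' / nm x.c')) ^ (-(1 / 6) : ℝ) * (nm x.d : ℝ) ^ (2 / 3 : ℝ) *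
      ((nm x.t : ℝ)⁻¹ * (nm x.d' : ℝ)⁻¹ * (nm (StA828.gp (x.g * x.d * x.a) x.g') / nm x.g') *
      (nm (StA828.gp (x.g * x.g') (lc x.b x.b')) / nm (lc x.b x.b')))))
      ≤ (nm x.e / nm x.e' : ℝ) * (rv * (K ^ (2 / 3 : ℝ) * H ^ (-(1 / 3) : ℝ) *
        (3 * (Vv * Vv') ^ (-(1 / 6) : ℝ)) * (nm x.d : ℝ) ^ (2 / 3 : ℝ) *
      ((nm x.t : ℝ)⁻¹ * (nm x.d' : ℝ)⁻¹ * (nm (StA828.gp (x.g * x.d * x.a) x.g') / nm x.g') *
      (nm (StA828.gp (x.g * x.g') (lc x.b x.b')) / nm (lc x.b x.b'))))) := by gcongr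
    _ = (nm x.e / nm x.e' : ℝ) * (3 * K ^ (2 / 3 : ℝ) * (rv * (H ^ (-(1 / 3) : ℝ) *
        (Vv * Vv') ^ (-(1 / 6) : ℝ))) * (nm x.d : ℝ) ^ (2 / 3 : ℝ) *
      ((nm x.t : ℝ)⁻¹ * (nm x.d' : ℝ)⁻¹ * (nm (StA828.gp (x.g * x.d * x.a) x.g') / nm x.g') *
      (nm (StA828.gp (x.g * x.g') (lc x.b x.b')) / nm (lc x.b x.b')))) := by ring
    _ ≤ (nm x.e / nm x.e' : ℝ) * (3 * K ^ (2 / 3 : ℝ) * Q x.d * (nm x.d : ℝ) ^ (2 / 3 : ℝ) *
      ((nm x.t : ℝ)⁻¹ * (nm x.d' : ℝ)⁻¹ * (nm (StA828.gp (x.g * x.d * x.a) x.g') / nm x.g') *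
      (nm (StA828.gp (x.g * x.g') (lc x.b x.b')) / nm (lc x.b x.b')))) := by gcongr
    _ = _ := by
      unfold Pde wV wc U V
      simp only
      ring

end Cd

end Crest.Agent.R017.E3T829
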