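import Crest.Agent.R017.E3Ua_829

/-!
# Row 17, R8 (E3), the sum over the cells of one side (helper829)

* `pr`, `mem_pr`, `sum_pr` : dependent products of finite sets
* `S_side` : the sum over a family of cells from the bound of one cell
-/

set_option autoImplicit false
set_option linter.unusedVariables false

noncomputable section

open Finset
open scoped Classical ComplexConjugate

namespace Crest.Agent.R017.E3T829

open Crest.Agent.R012 Crest.Agent.R012.Eis Crest.Agent.R012.Div277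
open Crest.Agent.R012.LS2 (S mem_S bl mem_bl)
open Crest.Agent.R017.CM106 (CS FS)
open Crest.Agent.R017.DgA829 (lc lc_prim)
open Crest.Agent.R017.E1551 (nmpos)
open Crest.Agent.R017.E3D579 (TE0)
open Crest.Agent.R017.E3Sr290 (CellD cellOf Fac exists_fac)

open Cd (Pde)

/-- the dependent product of finite sets -/
def pr {A B : Type} (s : Finset A) (t : A → Finset B) : Finset (A × B) :=
  (s.sigma t).map ⟨fun z => (z.1, z.2), fun z z' h => by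
    obtain ⟨a, b⟩ := z
    obtain ⟨a', b'⟩ := z'
    simp only [Prod.mk.injEq] at h
    obtain ⟨h1, h2⟩ := h
    subst h1; subst h2; rfl⟩

lemma mem_pr {A B : Type} {s : Finset A} {t : A → Finset B} {p : A × B} :
    p ∈ pr s t ↔ p.1 ∈ s ∧ p.2 ∈ t p.1 := by
  unfold pr
  rw [mem_map]
  constructor
  · rintro ⟨z, hz, rfl⟩
    rw [mem_sigma] at hz
    exact hz
  · rintro ⟨h1, h2⟩
    exact ⟨⟨p.1, p.2⟩, mem_sigma.mpr ⟨h1, h2⟩, rfl⟩

lemma sum_pr {A B : Type} {M : Type*} [AddCommMonoid M] (s : Finset A) (t : A → Finset B)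
    (f : A × B → M) : ∑ p ∈ pr s t, f p = ∑ a ∈ s, ∑ b ∈ t a, f (a, b) := by
  unfold pr
  rw [sum_map, sum_sigma]
  rfl

/-- the moment sum of a cell -/
def TQ (af : Eis → Eis → Eis → ℂ) (om : Eis → ℝ) (N : Finset (Eis × Eis)) (u : UT) : ℝ :=
  ∑ z ∈ N, om z.2 * ‖CS (bu af u) (z.1 * z.2 ^ 3)‖ ^ 2

lemma TQ_nonneg {af : Eis → Eis → Eis → ℂ} {om : Eis → ℝ} (hom : ∀ γ, 0 ≤ om γ)
    (N : Finset (Eis × Eis)) (u : UT) : 0 ≤ TQ af om N u :=
  sum_nonneg fun z _ => mul_nonneg (hom _) (by positivity)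

/-- the total of the `T`-moments -/
def TM (af : Eis → Eis → Eis → ℂ) (P : Eis → Eis → ℝ) (om : Eis → ℝ) (Gs : Finset Eis)
    (A : Eis → Eis → Eis → Finset Eis) (R : Finset (Eis × Eis)) : ℝ :=
  ∑ ρ ∈ R, P ρ.1 ρ.2 * ∑ γ ∈ Gs, om γ * ∑ j ∈ A ρ.1 ρ.2 γ, ‖TE0 (cg γ (af ρ.1 ρ.2)) ρ.1 j ρ.2‖ ^ 2

/-- **the sum over the cells of one side** -/
theorem S_side {ε : ℝ} (hε : 0 < ε) : ∃ C : ℝ, 0 ≤ C ∧ ∀ Z : ℝ, 1 ≤ Z →
    ∀ (EE : Finset Eis) {ι : Type} (O : Finset ι) (x : ι → Cd) (xk : ι → Eis) (K Vv Vv' rv X : ℝ)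
      (H : ι → ℝ) (Q : Eis → ℝ) (af : Eis → Eis → Eis → ℂ) (L : Eis → ℝ) (W Wc : Eis → Eis → ℝ)
      (n : ℕ) (ext : Fin n → ℝ)
      (om : Fin n → Eis → ℝ) (N : Fin n → ι → Finset (Eis × Eis)) (Gs : Fin n → Finset Eis)
      (A : Fin n → Eis → Eis → Eis → Finset Eis) (Rc : ι → Prop) (ue : ι → ℝ),
      0 < K → 0 < Vv → 0 < Vv' → 0 ≤ rv → 0 < X → (∀ i ∈ O, 0 < H i) →
      (∀ d, 0 ≤ Q d) →
      (∀ i ∈ O, rv * ((H i) ^ (-(1 / 3) : ℝ) * (Vv * Vv') ^ (-(1 / 6) : ℝ)) ≤ Q (x i).d) →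
      (∀ l, 0 ≤ ext l) →
      (∀ l γ, 0 ≤ om l γ) → (∀ d e, 0 ≤ W d e) → (∀ d e, 0 ≤ Wc d e) → (∀ d, 0 ≤ L d) →
      (∀ i ∈ O, (x i).OK Z EE) →
      (∀ i ∈ O, ∀ j ∈ O, (x i).U = (x j).U → (x i).V = (x j).V → i = j) →
      (∀ i ∈ O, ∃ f : Fac (x i).g (x i).g' (x i).d (x i).d' (x i).r (x i).m (x i).m' (x i).a
        (x i).u (x i).a' (x i).M (x i).N (lc (x i).b (x i).b'), xk i = f.xk) →
      (∀ i ∈ O, FS (af (x i).d (x i).e)) →
      (∀ l, ∀ i ∈ O, ∀ z ∈ N l i, Mu (x i).U z.1 ∧ IsPrim z.2 ∧ z.2 ∈ Gs l ∧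
        (nm (ju (x i).U z.1) : ℝ) ≤ Z ∧ ju (x i).U z.1 ∈ A l (x i).d (x i).e z.2) →
      (∀ i ∈ O, Rc i → (nm ((x i).a * (x i).D) : ℝ) ^ 2 *
        (nm ((x i).q * (x i).g * (x i).F) : ℝ) ^ 3 ≤ L (x i).d) →
      (∀ i ∈ O, ue i ≤ (x i).val K Vv Vv' (H i) rv X (xk i) *
        (∑ l : Fin n, ext l * TQ af (om l) (N l i) (x i).U +
          (if Rc i then W (x i).d (x i).e else 0) + kU (x i).U * Wc (x i).d (x i).e)) →
      ∑ i ∈ O, ue i ≤ C * Z ^ ε * hE EE * (∑ l : Fin n, ext l * TM af (Pde K Q) (om l) (Gs l)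
          (A l) (O.image fun i => ((x i).d, (x i).e)) +
        ∑ ρ ∈ O.image (fun i => ((x i).d, (x i).e)),
          Pde K Q ρ.1 ρ.2 * (W ρ.1 ρ.2 * Real.sqrt (L ρ.1) + Wc ρ.1 ρ.2)) := by
  obtain ⟨C1, hC1, h1⟩ := T_tail hε
  obtain ⟨C2, hC2, h2⟩ := R_count hε
  obtain ⟨C3, hC3, h3⟩ := R_conv hε
  refine ⟨C1 + C2 + C3, by positivity, ?_⟩
  intro Z hZ EE ι O x xk K Vv Vv' rv X H Q af L W Wc n ext om N Gs A Rc ue hK hV hV' hrv hX hH hQ0
    hQ hext hom hW hWc hL hOK inj hfac haf hN hRc hue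
  have hZ0 : 0 < Z := by linarith
  have hP : ∀ d e, 0 ≤ Pde K Q d e := Cd.Pde_nonneg hK.le hQ0
  have hval : ∀ i ∈ O, (x i).val K Vv Vv' (H i) rv X (xk i) ≤
      Pde K Q (x i).U.1 (x i).U.2.1 *
        wV (x i).U.2.2.2.2.1 (x i).U.1 (x i).U.2.2.2.2.2.1 (x i).V := by
    intro i hi
    obtain ⟨f, hf⟩ := hfac i hi
    rw [hf]
    exact (hOK i hi).val_le Q hK hV hV' (hH i hi) hrv hX (hQ i hi) f
  obtain ⟨v, hv⟩ : ∃ v : ι → ℝ, v = fun i => (x i).val K Vv Vv' (H i) rv X (xk i) := ⟨_, rfl⟩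
  have hv' : ∀ i, (x i).val K Vv Vv' (H i) rv X (xk i) = v i := fun i => by rw [hv]
  simp only [hv'] at hval hue
  -- the T-part
  have s1 : ∀ l, ∑ i ∈ O, v i *
      TQ af (om l) (N l i) (x i).U ≤ C1 * Z ^ ε * hE EE * TM af (Pde K Q) (om l) (Gs l) (A l)
        (O.image fun i => ((x i).d, (x i).e)) := by
    intro l
    exact h1 Z hZ EE O (fun i => (x i).U) (fun i => (x i).V) v (Pde K Q) af (N l) (om l) (Gs l)
      (A l) hP (hom l) (fun i hi => (hOK i hi).OU) (fun i hi => (hOK i hi).VS) inj hval haf (hN l)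
  -- the R-part
  have s2 : ∑ i ∈ O, v i * (if Rc i then W (x i).d (x i).e else 0) ≤ C2 * Z ^ ε * hE EE *
        ∑ ρ ∈ O.image (fun i => ((x i).d, (x i).e)),
          Pde K Q ρ.1 ρ.2 * W ρ.1 ρ.2 * Real.sqrt (L ρ.1) := by
    have e1 : ∑ i ∈ O, v i * (if Rc i then W (x i).d (x i).e else 0) = ∑ i ∈ O.filter Rc,
          v i * W (x i).U.1 (x i).U.2.1 := by
      rw [sum_filter]
      refine sum_congr rfl fun i _ => ?_
      split_ifs
      · rfl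
      · rw [mul_zero]
    rw [e1]
    have key := h2 Z hZ EE (O.filter Rc) (fun i => (x i).U) (fun i => (x i).V)
      v (Pde K Q) W L hP hW hL
      (fun i hi => (hOK i (mem_filter.mp hi).1).OU) (fun i hi => (hOK i (mem_filter.mp hi).1).SU)
      (fun i hi => (hOK i (mem_filter.mp hi).1).VS)
      (fun i hi j hj => inj i (mem_filter.mp hi).1 j (mem_filter.mp hj).1)
      (fun i hi => hval i (mem_filter.mp hi).1)
      (fun i hi => hRc i (mem_filter.mp hi).1 (mem_filter.mp hi).2)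
    refine key.trans (mul_le_mul_of_nonneg_left ?_ (mul_nonneg (by positivity) (hE_nonneg EE)))
    refine sum_le_sum_of_subset_of_nonneg (image_subset_image (filter_subset _ _)) ?_
    intro ρ _ _
    exact mul_nonneg (mul_nonneg (hP _ _) (hW _ _)) (Real.sqrt_nonneg _)
  -- the convergent R-part
  have s3 : ∑ i ∈ O, v i * (kU (x i).U * Wc (x i).d (x i).e) ≤ C3 * Z ^ ε * hE EE *
        ∑ ρ ∈ O.image (fun i => ((x i).d, (x i).e)), Pde K Q ρ.1 ρ.2 * Wc ρ.1 ρ.2 := by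
    have key := h3 Z hZ EE O (fun i => (x i).U) (fun i => (x i).V)
      (fun i => v i * Wc (x i).d (x i).e) (fun i => kU (x i).U)
      (fun d e => Pde K Q d e * Wc d e) (fun d e => mul_nonneg (hP _ _) (hWc _ _))
      (fun i hi => (hOK i hi).OU) (fun i hi => (hOK i hi).SU) (fun i hi => (hOK i hi).VS) inj
      (fun i hi => by
        have h4 := mul_le_mul_of_nonneg_right (hval i hi) (hWc (x i).d (x i).e)
        refine h4.trans (le_of_eq ?_)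
        change _ * Wc (x i).U.1 (x i).U.2.1 = _
        ring) (fun i hi => ⟨kU_nonneg _, le_rfl⟩)
    refine le_trans (le_of_eq ?_) key
    exact sum_congr rfl fun i _ => by ring
  -- assembly
  obtain ⟨Tm, hTm⟩ : ∃ Tm : Fin n → ℝ, Tm = fun l => TM af (Pde K Q) (om l) (Gs l) (A l)
    (O.image fun i => ((x i).d, (x i).e)) := ⟨_, rfl⟩
  have hTm' : ∀ l, TM af (Pde K Q) (om l) (Gs l) (A l)
    (O.image fun i => ((x i).d, (x i).e)) = Tm l := fun l => by rw [hTm]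
  obtain ⟨Tq, hTq⟩ : ∃ Tq : Fin n → ι → ℝ, Tq = fun l i => TQ af (om l) (N l i) (x i).U :=
    ⟨_, rfl⟩
  have hTq' : ∀ l i, TQ af (om l) (N l i) (x i).U = Tq l i := fun l i => by rw [hTq]
  simp only [hTm'] at s1 ⊢
  simp only [hTq'] at s1 hue
  have hTm0 : ∀ l, 0 ≤ Tm l := by
    intro l
    rw [← hTm' l]
    exact sum_nonneg fun ρ _ => mul_nonneg (hP _ _) (sum_nonneg fun γ _ =>
      mul_nonneg (hom l γ) (sum_nonneg fun j _ => by positivity))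
  set Y2 := ∑ ρ ∈ O.image (fun i => ((x i).d, (x i).e)),
          Pde K Q ρ.1 ρ.2 * W ρ.1 ρ.2 * Real.sqrt (L ρ.1) with hY2
  set Y3 := ∑ ρ ∈ O.image (fun i => ((x i).d, (x i).e)), Pde K Q ρ.1 ρ.2 * Wc ρ.1 ρ.2 with hY3
  have hY20 : 0 ≤ Y2 :=
    sum_nonneg fun ρ _ => mul_nonneg (mul_nonneg (hP _ _) (hW _ _)) (Real.sqrt_nonneg _)
  have hY30 : 0 ≤ Y3 := sum_nonneg fun ρ _ => mul_nonneg (hP _ _) (hWc _ _)
  have e4 : ∑ ρ ∈ O.image (fun i => ((x i).d, (x i).e)),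
          Pde K Q ρ.1 ρ.2 * (W ρ.1 ρ.2 * Real.sqrt (L ρ.1) + Wc ρ.1 ρ.2) = Y2 + Y3 := by
    rw [hY2, hY3, ← sum_add_distrib]
    exact sum_congr rfl fun ρ _ => by ring
  rw [e4]
  have e5 : ∑ i ∈ O, v i * (∑ l : Fin n, ext l * Tq l i +
      (if Rc i then W (x i).d (x i).e else 0) + kU (x i).U * Wc (x i).d (x i).e) =
      ∑ l : Fin n, ext l * (∑ i ∈ O, v i * Tq l i) +
        ∑ i ∈ O, v i * (if Rc i then W (x i).d (x i).e else 0) +
        ∑ i ∈ O, v i * (kU (x i).U * Wc (x i).d (x i).e) := by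
    have e6 : ∑ l : Fin n, ext l * (∑ i ∈ O, v i * Tq l i) =
        ∑ i ∈ O, v i * ∑ l : Fin n, ext l * Tq l i := by
      simp only [mul_sum]
      rw [sum_comm]
      exact sum_congr rfl fun i _ => sum_congr rfl fun l _ => by ring
    rw [e6, ← sum_add_distrib, ← sum_add_distrib]
    exact sum_congr rfl fun i _ => by ring
  have hTs : 0 ≤ ∑ l : Fin n, ext l * Tm l := sum_nonneg fun l _ => mul_nonneg (hext l) (hTm0 l)
  have e7 : ∑ l : Fin n, ext l * (∑ i ∈ O, v i * Tq l i) ≤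
      C1 * Z ^ ε * hE EE * ∑ l : Fin n, ext l * Tm l := by
    rw [mul_sum]
    refine sum_le_sum fun l _ => ?_
    exact (mul_le_mul_of_nonneg_left (s1 l) (hext l)).trans (le_of_eq (by ring))
  have hZe : 0 ≤ Z ^ ε * hE EE := mul_nonneg (by positivity) (hE_nonneg EE)
  have a1 : 0 ≤ (Z ^ ε * hE EE) * (C2 + C3) * ∑ l : Fin n, ext l * Tm l :=
    mul_nonneg (mul_nonneg hZe (by positivity)) hTs
  have a2 : 0 ≤ (Z ^ ε * hE EE) * (C1 + C3) * Y2 := mul_nonneg (mul_nonneg hZe (by positivity)) hY20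
  have a3 : 0 ≤ (Z ^ ε * hE EE) * (C1 + C2) * Y3 := mul_nonneg (mul_nonneg hZe (by positivity)) hY30
  calc ∑ i ∈ O, ue i ≤ ∑ i ∈ O, v i * (∑ l : Fin n, ext l * Tq l i +
      (if Rc i then W (x i).d (x i).e else 0) + kU (x i).U * Wc (x i).d (x i).e) := sum_le_sum hue
    _ ≤ C1 * Z ^ ε * hE EE * ∑ l : Fin n, ext l * Tm l + C2 * Z ^ ε * hE EE * Y2 +
        C3 * Z ^ ε * hE EE * Y3 := by rw [e5]; exact add_le_add (add_le_add e7 s2) s3
    _ ≤ _ := by nlinarith [a1, a2, a3]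

end Crest.Agent.R017.E3T829
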