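import Crest.Agent.R017.E3Ub_829
import Crest.Agent.R017.E3K_548

/-!
# Row 17, R8 (E3), the literal index family of the off-diagonal part (helper829)

* `Cd.mk'` : the cell of the indices `q t y y' b b' s sg a a' D E F`
* `Cd.mk'_OK`, `mk'_om0` : the data are admissible; the weight
* `IX`, `IX0`, `sum_IX0` : the index set and the nested sum
-/

set_option autoImplicit false
set_option linter.unusedVariables false

noncomputable section

open Finset
open scoped Classical ComplexConjugate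

namespace Crest.Agent.R017.E3T829

open Crest.Agent.R012 Crest.Agent.R012.Eis Crest.Agent.R012.Div277
open Crest.Agent.R012.LS2 (S mem_S bl mem_bl)
open Crest.Agent.R012.Mob705 (pdiv mem_pdiv)
open Crest.Agent.R017.C70 (JC OKJ)
open Crest.Agent.R017.GrB829 (IsC)
open Crest.Agent.R017.DgA829 (lc lc_prim lc_dvd)
open Crest.Agent.R017.E1551 (nmpos)
open Crest.Agent.R017.E3A164 (Yp Cs mem_Cs qu Ys)
open Crest.Agent.R017.E3F548 (MM MM_prim MM_dvd Kr pf gg cf₁ cf₂ Nq qu_spec qu_prim nm_cf_le)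
open Crest.Agent.R017.E3Sr290 (CellD cellOf Fac exists_fac)
open Crest.Agent.R017.StA828 (gp gp_spec)

/-- squares of least common multiples -/
lemma lc_sq_dvd {b b' M : Eis} (hb : IsPrim b) (hb' : IsPrim b') (h : b ^ 2 ∣ M)
    (h' : b' ^ 2 ∣ M) : (lc b b') ^ 2 ∣ M := by
  obtain ⟨g1, g2, g3, g4, g5⟩ := gp_spec b hb'
  set h0 := gp b b' with hh0
  set β := b / h0 with hβ
  set β' := b' / h0 with hβ'
  have pβ : IsPrim β := IsPrim.of_mul_left (g3 ▸ hb) g1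
  have hl : lc b b' ∣ h0 * β * β' := by
    rw [lc_dvd hb hb']
    constructor
    · refine ⟨β', ?_⟩
      rw [← g3]
    · refine ⟨β, ?_⟩
      calc h0 * β * β' = (h0 * β') * β := by ring
        _ = b' * β := by rw [← g4]
  refine (pow_dvd_pow_of_dvd hl 2).trans ?_
  obtain ⟨k, hk⟩ := h
  have h2 : h0 ^ 2 * β' ^ 2 ∣ h0 ^ 2 * (β ^ 2 * k) := by
    have e1 : h0 ^ 2 * β' ^ 2 = b' ^ 2 := by rw [← mul_pow, ← g4]
    have e2 : h0 ^ 2 * (β ^ 2 * k) = M := by
      rw [hk, ← mul_assoc, ← mul_pow, ← g3]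
    rw [e1, e2]; exact h'
  have h3 : β' ^ 2 ∣ β ^ 2 * k := (mul_dvd_mul_iff_left (pow_ne_zero 2 g1.ne_zero)).mp h2
  have h4 : β' ^ 2 ∣ k := (g5.symm.pow).dvd_of_dvd_mul_left h3
  obtain ⟨l, hl'⟩ := h4
  refine ⟨l, ?_⟩
  rw [hk, hl']
  conv_lhs => rw [g3]
  ring

namespace Cd

/-- the cell of the indices -/
def mk' (q t : Eis) (y y' : Yp) (b b' s sg a a' D E F : Eis) : Cd :=
  ⟨q, t, y.1, y.2.1, y.2.2.1, y.2.2.2, y'.1, y'.2.1, y'.2.2.1, y'.2.2.2, b, b', s, sg, a, a',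
    D, E, F, MM q t y y' b b' s * sg, qu (MM q t y y' b b' s) y.2.2.2 * sg,
    qu (MM q t y y' b b' s) y'.2.2.2 * sg, gg y y', cf₁ y y', cf₂ y y', cf₂ y y' / a,
    cf₁ y y' / a'⟩

/-- the admissible parameters -/
structure YO (Z : ℝ) (EE : Finset Eis) (y : Yp) : Prop where
  d : y.1 ∈ S Z
  e : y.2.1 ∈ EE
  pe : IsPrim y.2.1
  c : IsC y.2.2.1
  g : y.2.2.2 ∈ S Z
  sq : Squarefree (y.1 * y.2.2.2)

lemma pS {Z : ℝ} {z : Eis} (hz : z ∈ S Z) : IsPrim z := (E3F548.SR_prim hz).1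

/-- **the literal cells are admissible** -/
theorem mk'_OK {Z : ℝ} (hZ : 1 ≤ Z) {EE : Finset Eis} {q t : Eis} {y y' : Yp}
    {b b' s sg a a' D E F : Eis} (hq : q ∈ S Z) (ht : t ∈ primBall ⌊Z⌋₊) (hy : YO Z EE y)
    (hy' : YO Z EE y') (hb : b ∈ S Z) (hb' : b' ∈ S Z) (hs : s ∈ pdiv q)
    (hsg : sg ∈ pdiv (gg y y')) (ha : a ∈ dvs (cf₂ y y')) (ha' : a' ∈ dvs (cf₁ y y'))
    (na : (nm a : ℝ) ≤ Z) (na' : (nm a' : ℝ) ≤ Z) (hD : D ∈ S Z) (hE : E ∈ pdiv D)
    (hF : F ∈ S Z) : (mk' q t y y' b b' s sg a a' D E F).OK Z EE := by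
  have hqp := pS hq
  have htp := (mem_primBall.mp ht).2
  have hyd := pS hy.d
  have hyd' := pS hy'.d
  have hyg := pS hy.g
  have hyg' := pS hy'.g
  have hsp := ((mem_pdiv hqp.ne_zero).mp hs).1
  obtain ⟨g1, g2, g3, g4, g5⟩ := gp_spec (y.1 * y.2.2.2) (hyd'.mul hyg')
  have e1 : y.1 * y.2.2.2 = gg y y' * cf₁ y y' := g3
  have e2 : y'.1 * y'.2.2.2 = gg y y' * cf₂ y y' := g4
  have p2 : IsPrim (cf₂ y y') := g2
  have p1 : IsPrim (cf₁ y y') := IsPrim.of_mul_left (e1 ▸ (hyd.mul hyg)) g1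
  have hsgp := ((mem_pdiv g1.ne_zero).mp hsg).1
  have hM0 : IsPrim (MM q t y y' b b' s) :=
    MM_prim hqp htp hy.pe hy'.pe hyg hyg' (pS hb) (pS hb') hsp
  have hMd := (MM_dvd hqp htp hy.pe hy'.pe hyg hyg' (pS hb) (pS hb') hsp
    (MM q t y y' b b' s)).mp dvd_rfl
  have k1 := (mem_dvs p2.ne_zero).mp ha
  have k2 := (mem_dvs p1.ne_zero).mp ha'
  have eu : cf₂ y y' = a * (cf₂ y y' / a) := by
    obtain ⟨x, hx⟩ := k1.2
    rw [hx, mul_div_cancel_left₀ _ k1.1.ne_zero]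
  have eu' : cf₁ y y' = a' * (cf₁ y y' / a') := by
    obtain ⟨x, hx⟩ := k2.2
    rw [hx, mul_div_cancel_left₀ _ k2.1.ne_zero]
  exact
    { q := hq
      t := ht
      d := hy.d
      e := hy.e
      pe := hy.pe
      c := hy.c
      g := hy.g
      d' := hy'.d
      e' := hy'.e
      pe' := hy'.pe
      c' := hy'.c
      g' := hy'.g
      b := hb
      b' := hb'
      s := hs
      sg := hsg
      a := k1.1
      a' := k2.1
      na := na
      na' := na'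
      D := hD
      E := hE
      F := hF
      M := hM0.mul hsgp
      r := g1
      m := p1
      m' := p2
      u := IsPrim.of_mul_left (eu ▸ p2) k1.1
      u' := IsPrim.of_mul_left (eu' ▸ p1) k2.1
      sdg := hy.sq
      sdg' := hy'.sq
      e1 := e1
      e2 := e2
      cop := g5
      eu := eu
      eu' := eu'
      eN := by
        change MM q t y y' b b' s * sg = y.2.2.2 * (qu (MM q t y y' b b' s) y.2.2.2 * sg)
        rw [← mul_assoc, ← qu_spec hMd.1.1]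
      eN' := by
        change MM q t y y' b b' s * sg = y'.2.2.2 * (qu (MM q t y y' b b' s) y'.2.2.2 * sg)
        rw [← mul_assoc, ← qu_spec hMd.2.1.1]
      bM := (lc_sq_dvd (pS hb) (pS hb') hMd.2.2.1 hMd.2.2.2.1).mul_right _ }

/-- **the weight of the literal cell** -/
theorem mk'_om0 {Z : ℝ} {EE : Finset Eis} {q t : Eis} {y y' : Yp}
    {b b' s sg a a' D E F : Eis} (h : (mk' q t y y' b b' s sg a a' D E F).OK Z EE)
    {K V V' : ℝ} (hK : 0 < K) (hV : 0 < V) (hV' : 0 < V') :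
    pf K q t y y' * (Kr K q t (MM q t y y' b b' s) / nm sg / Real.sqrt (Nq V q y * Nq V' q y' *
      nm (cf₁ y y') * nm (cf₂ y y') / (nm a * nm a'))) * (nm D / nm E) =
      (mk' q t y y' b b' s sg a a' D E F).om0 K V V' := by
  obtain ⟨nq, nt, nd, ne, nc, ng, nd', ne', nc', ng', nD, nE, nF⟩ := h.np
  have nr : (0 : ℝ) < nm (gg y y') := nmpos h.r.ne_zero
  have nM0 : (0 : ℝ) < nm (MM q t y y' b b' s) := by
    have h1 : IsPrim (MM q t y y' b b' s * sg) := h.M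
    exact nmpos (left_ne_zero_of_mul h1.ne_zero)
  have nsg : (0 : ℝ) < nm sg := by
    have h1 : IsPrim (MM q t y y' b b' s * sg) := h.M
    exact nmpos (right_ne_zero_of_mul h1.ne_zero)
  have na := nmpos h.a.ne_zero
  have na' := nmpos h.a'.ne_zero
  have hm1 : (nm (cf₁ y y') : ℝ) = nm y.1 * nm y.2.2.2 / nm (gg y y') := by
    have h1 : y.1 * y.2.2.2 = gg y y' * cf₁ y y' := h.e1
    have h2 := congrArg nm h1
    rw [nm_mul, nm_mul] at h2
    rw [eq_div_iff nr.ne']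
    have h3 : (nm y.1 * nm y.2.2.2 : ℝ) = nm (gg y y') * nm (cf₁ y y') := by exact_mod_cast h2
    linarith
  have hm2 : (nm (cf₂ y y') : ℝ) = nm y'.1 * nm y'.2.2.2 / nm (gg y y') := by
    have h1 : y'.1 * y'.2.2.2 = gg y y' * cf₂ y y' := h.e2
    have h2 := congrArg nm h1
    rw [nm_mul, nm_mul] at h2
    rw [eq_div_iff nr.ne']
    have h3 : (nm y'.1 * nm y'.2.2.2 : ℝ) = nm (gg y y') * nm (cf₂ y y') := by exact_mod_cast h2
    linarith
  unfold om0 cell cellOf CellD.pref CellD.KM CellD.N1 CellD.N2 CellD.A CellD.A' CellD.m CellD.m'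
    CellD.Z CellD.Z' pf Kr Nq mk'
  simp only [nm_mul, Nat.cast_mul]
  rw [hm1, hm2]
  change (0 : ℝ) < nm q at nq
  change (0 : ℝ) < nm t at nt
  change (0 : ℝ) < nm y.1 at nd
  change (0 : ℝ) < nm y.2.2.1 at nc
  change (0 : ℝ) < nm y.2.2.2 at ng
  change (0 : ℝ) < nm y'.1 at nd'
  change (0 : ℝ) < nm y'.2.2.1 at nc'
  change (0 : ℝ) < nm y'.2.2.2 at ng'
  change (0 : ℝ) < nm a at na
  change (0 : ℝ) < nm a' at na'
  change (0 : ℝ) < nm D at nD
  change (0 : ℝ) < nm E at nE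
  generalize (nm (MM q t y y' b b' s) : ℝ) = M0 at *
  generalize (nm (gg y y') : ℝ) = r at *
  generalize (nm q : ℝ) = q at *
  generalize (nm t : ℝ) = t at *
  generalize (nm y.1 : ℝ) = d at *
  generalize (nm y'.1 : ℝ) = d' at *
  generalize (nm y.2.2.1 : ℝ) = c at *
  generalize (nm y'.2.2.1 : ℝ) = c' at *
  generalize (nm y.2.2.2 : ℝ) = g at *
  generalize (nm y'.2.2.2 : ℝ) = g' at *
  generalize (nm a : ℝ) = a at *
  generalize (nm a' : ℝ) = a' at *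
  generalize (nm sg : ℝ) = sg at *
  generalize (nm D : ℝ) = D at *
  generalize (nm E : ℝ) = E at *
  have e1 : V / (d ^ 2 * (q * c * g ^ 2)) * (V' / (d' ^ 2 * (q * c' * g' ^ 2))) * (d * g / r) *
      (d' * g' / r) / (a * a') = d' * g' / r / a * a' * (V / c / (q * d ^ 2 * g ^ 2)) / a *
        (d * g / r / a' * a * (V' / c' / (q * d' ^ 2 * g' ^ 2)) / a') := by
    field_simp
  rw [e1]
  have e2 : (0 : ℝ) ≤ d' * g' / r / a * a' * (V / c / (q * d ^ 2 * g ^ 2)) / a *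
        (d * g / r / a' * a * (V' / c' / (q * d' ^ 2 * g' ^ 2)) / a') := by positivity
  have e3 : ∀ x : ℝ, 0 ≤ x → x ^ (-(1 / 2) : ℝ) = (Real.sqrt x)⁻¹ := by
    intro x hx
    rw [Real.rpow_neg hx, Real.sqrt_eq_rpow]
  rw [e3 _ e2]
  have e4 : (-(1 : ℝ) / 3) = -(1 / 3) := by norm_num
  rw [e4]
  have e5 : K / (q ^ 2 * t ^ 3) / M0 / sg = K / (q ^ 2 * t ^ 3 * (M0 * sg)) := by
    field_simp
  rw [div_eq_mul_inv (K / (q ^ 2 * t ^ 3) / M0 / sg), e5]
  ring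

end Cd

end Crest.Agent.R017.E3T829
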