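import Crest.Agent.R017.E3Uc_829

/-!
# Row 17, R8 (E3), both sides of the sum over the cells (helper829)

* `IX`, `cdI`, `IX0`, `sum_IX0` : the literal index set and the nested sum
* `Cd.xk`, `OK.om0_swap`, `OK.rho_swap`
* `SideD`, `SB`, `CellB`, `S_both` : the sum over a family of cells from the bounds of both sides
-/

set_option autoImplicit false
set_option linter.unusedVariables false

noncomputable section

open Finset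
open scoped Classical ComplexConjugate

namespace Crest.Agent.R017.E3T829

open Crest.Agent.R012 Crest.Agent.R012.Eis Crest.Agent.R012.Div277
open Crest.Agent.R012.LS2 (S mem_S bl mem_bl)
open Crest.Agent.R012.Mob705 (pdiv mem_pdiv)
open Crest.Agent.R017.CM106 (CS FS)
open Crest.Agent.R017.DgA829 (lc)
open Crest.Agent.R017.E1551 (nmpos)
open Crest.Agent.R017.E3A164 (Yp Cs mem_Cs qu Ys)
open Crest.Agent.R017.E3F548 (MM Kr pf gg cf₁ cf₂ Nq Cop)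
open Crest.Agent.R017.E3Sr290 (CellD cellOf Fac exists_fac)

open Cd (Pde)

/-! ### the index set -/

/-- the indices `(q, t, y, y', b, b', s, sg, a, a', D, E, F)` -/
abbrev IX : Type :=
  Eis × Eis × Yp × Yp × Eis × Eis × Eis × Eis × Eis × Eis × Eis × Eis × Eis

/-- the cell of the indices -/
def cdI (i : IX) : Cd :=
  Cd.mk' i.1 i.2.1 i.2.2.1 i.2.2.2.1 i.2.2.2.2.1 i.2.2.2.2.2.1 i.2.2.2.2.2.2.1 i.2.2.2.2.2.2.2.1
    i.2.2.2.2.2.2.2.2.1 i.2.2.2.2.2.2.2.2.2.1 i.2.2.2.2.2.2.2.2.2.2.1 i.2.2.2.2.2.2.2.2.2.2.2.1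
    i.2.2.2.2.2.2.2.2.2.2.2.2

/-- the set of the indices -/
def IX0 (Sq St : Finset Eis) (Sy : Finset Yp) (Sb SD : Finset Eis) : Finset IX :=
  pr Sq fun q => pr St fun t => pr Sy fun y => pr Sy fun y' => pr Sb fun b => pr Sb fun b' =>
    pr (pdiv q) fun s => pr (pdiv (gg y y')) fun sg => pr (dvs (cf₂ y y')) fun a =>
      pr (dvs (cf₁ y y')) fun a' => pr SD fun D => pr (pdiv D) fun E => SD

/-- **the nested sum** -/
theorem sum_IX0 (Sq St : Finset Eis) (Sy : Finset Yp) (Sb SD : Finset Eis) (f : IX → ℝ) :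
    ∑ i ∈ IX0 Sq St Sy Sb SD, f i =
      ∑ q ∈ Sq, ∑ t ∈ St, ∑ y ∈ Sy, ∑ y' ∈ Sy, ∑ b ∈ Sb, ∑ b' ∈ Sb, ∑ s ∈ pdiv q,
        ∑ sg ∈ pdiv (gg y y'), ∑ a ∈ dvs (cf₂ y y'), ∑ a' ∈ dvs (cf₁ y y'), ∑ D ∈ SD,
          ∑ E ∈ pdiv D, ∑ F ∈ SD, f (q, t, y, y', b, b', s, sg, a, a', D, E, F) := by
  unfold IX0
  rw [sum_pr]; refine sum_congr rfl fun q _ => ?_
  rw [sum_pr]; refine sum_congr rfl fun t _ => ?_
  rw [sum_pr]; refine sum_congr rfl fun y _ => ?_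
  rw [sum_pr]; refine sum_congr rfl fun y' _ => ?_
  rw [sum_pr]; refine sum_congr rfl fun b _ => ?_
  rw [sum_pr]; refine sum_congr rfl fun b' _ => ?_
  rw [sum_pr]; refine sum_congr rfl fun s _ => ?_
  rw [sum_pr]; refine sum_congr rfl fun sg _ => ?_
  rw [sum_pr]; refine sum_congr rfl fun a _ => ?_
  rw [sum_pr]; refine sum_congr rfl fun a' _ => ?_
  rw [sum_pr]; refine sum_congr rfl fun D _ => ?_
  rw [sum_pr]

lemma mem_IX0 {Sq St : Finset Eis} {Sy : Finset Yp} {Sb SD : Finset Eis} {i : IX} :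
    i ∈ IX0 Sq St Sy Sb SD ↔ i.1 ∈ Sq ∧ i.2.1 ∈ St ∧ i.2.2.1 ∈ Sy ∧ i.2.2.2.1 ∈ Sy ∧
      i.2.2.2.2.1 ∈ Sb ∧ i.2.2.2.2.2.1 ∈ Sb ∧ i.2.2.2.2.2.2.1 ∈ pdiv i.1 ∧
      i.2.2.2.2.2.2.2.1 ∈ pdiv (gg i.2.2.1 i.2.2.2.1) ∧
      i.2.2.2.2.2.2.2.2.1 ∈ dvs (cf₂ i.2.2.1 i.2.2.2.1) ∧
      i.2.2.2.2.2.2.2.2.2.1 ∈ dvs (cf₁ i.2.2.1 i.2.2.2.1) ∧ i.2.2.2.2.2.2.2.2.2.2.1 ∈ SD ∧
      i.2.2.2.2.2.2.2.2.2.2.2.1 ∈ pdiv i.2.2.2.2.2.2.2.2.2.2.1 ∧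
      i.2.2.2.2.2.2.2.2.2.2.2.2 ∈ SD := by
  unfold IX0
  simp only [mem_pr]

/-- the cells determine the indices -/
lemma cdI_inj {i j : IX} (hU : (cdI i).U = (cdI j).U) (hV : (cdI i).V = (cdI j).V) : i = j := by
  obtain ⟨q, t, ⟨d, e, c, g⟩, ⟨d', e', c', g'⟩, b, b', s, sg, a, a', D, E, F⟩ := i
  obtain ⟨q₁, t₁, ⟨d₁, e₁, c₁, g₁⟩, ⟨d₁', e₁', c₁', g₁'⟩, b₁, b₁', s₁, sg₁, a₁, a₁', D₁, E₁, F₁⟩ := j
  simp only [cdI, Cd.mk', Cd.U, Cd.V, Prod.mk.injEq] at hU hV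
  obtain ⟨h1, h2, h3, h4, h5, h6, h7, h8⟩ := hU
  obtain ⟨⟨k1, k2, k3, k4, k5⟩, k6, k7, k8, k9, k10, k11⟩ := hV
  subst h1 h2 h3 h4 h5 h6 h7 h8 k1 k2 k3 k4 k5 k6 k7 k8 k9 k10 k11
  rfl

lemma cdI_inj' {i j : IX} (hU : (cdI i).swap.U = (cdI j).swap.U)
    (hV : (cdI i).swap.V = (cdI j).swap.V) : i = j := by
  obtain ⟨q, t, ⟨d, e, c, g⟩, ⟨d', e', c', g'⟩, b, b', s, sg, a, a', D, E, F⟩ := i
  obtain ⟨q₁, t₁, ⟨d₁, e₁, c₁, g₁⟩, ⟨d₁', e₁', c₁', g₁'⟩, b₁, b₁', s₁, sg₁, a₁, a₁', D₁, E₁, F₁⟩ := j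
  simp only [cdI, Cd.mk', Cd.U, Cd.V, Cd.swap, Prod.mk.injEq] at hU hV
  obtain ⟨h1, h2, h3, h4, h5, h6, h7, h8⟩ := hU
  obtain ⟨⟨k1, k2, k3, k4, k5⟩, k6, k7, k8, k9, k10, k11⟩ := hV
  subst h1 h2 h3 h4 h5 h6 h7 h8 k1 k2 k3 k4 k5 k6 k7 k8 k9 k10 k11
  rfl

/-! ### the weights -/

namespace Cd

variable {x : Cd} {Z : ℝ} {EE : Finset Eis}

/-- the kernel of the fixed frequency -/
def xk (x : Cd) : Eis :=
  if h : Nonempty (Fac x.g x.g' x.d x.d' x.r x.m x.m' x.a x.u x.a' x.M x.N (lc x.b x.b')) then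
    h.some.xk else 1

lemma OK.xk_spec (h : x.OK Z EE) :
    ∃ f : Fac x.g x.g' x.d x.d' x.r x.m x.m' x.a x.u x.a' x.M x.N (lc x.b x.b'),
      x.xk = f.xk := by
  unfold xk
  rw [dif_pos h.fac]
  exact ⟨_, rfl⟩

lemma om0_swap (K V V' : ℝ) : x.swap.om0 K V' V = x.om0 K V V' := by
  unfold om0 cell cellOf CellD.pref CellD.KM CellD.N1 CellD.N2 CellD.A CellD.A' CellD.m CellD.m'
    CellD.Z CellD.Z' swap
  simp only
  rw [mul_comm (nm x.g' : ℝ) (nm x.g : ℝ)]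
  congr 3
  ring

lemma rho_swap (rv : ℝ) : x.swap.rho rv⁻¹ = (x.rho rv)⁻¹ := by
  unfold rho swap
  simp only
  have h1 : ∀ (u v : ℝ) (p : ℝ), 0 ≤ u → 0 ≤ v → (v / u) ^ p = ((u / v) ^ p)⁻¹ := by
    intro u v p hu hv
    rw [← Real.inv_rpow (div_nonneg hu hv), inv_div]
  rw [h1 (nm x.d) (nm x.d') _ (by positivity) (by positivity),
    h1 (nm x.g) (nm x.g') _ (by positivity) (by positivity),
    h1 (nm x.a) (nm x.a') _ (by positivity) (by positivity)]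
  rw [mul_inv, mul_inv, mul_inv, mul_inv, inv_div]

lemma rho_pos (h : x.OK Z EE) {rv : ℝ} (hrv : 0 < rv) : 0 < x.rho rv := by
  obtain ⟨nq, nt, nd, ne, nc, ng, nd', ne', nc', ng', nD, nE, nF⟩ := h.np
  have na := nmpos h.a.ne_zero
  have na' := nmpos h.a'.ne_zero
  unfold rho
  positivity

lemma om0_nonneg (h : x.OK Z EE) {K V V' : ℝ} (hK : 0 ≤ K) (hV : 0 ≤ V) (hV' : 0 ≤ V') :
    0 ≤ x.om0 K V V' := by
  unfold om0 cell cellOf CellD.pref CellD.KM CellD.N1 CellD.N2 CellD.A CellD.A' CellD.m CellD.m'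
    CellD.Z CellD.Z'
  positivity

/-- the factor of a cell -/
def fac (x : Cd) (K Vv Vv' H X : ℝ) : ℝ :=
  (x.cell K Vv Vv' H X x.xk).Z ^ (-(1 / 3) : ℝ) * ((x.cell K Vv Vv' H X x.xk).L0 /
      (x.cell K Vv Vv' H X x.xk).Lt) ^ (1 / 3 : ℝ) * (x.cell K Vv Vv' H X x.xk).Y

lemma val_eq (K Vv Vv' H rv X : ℝ) :
    x.om0 K Vv Vv' * x.rho rv * x.fac K Vv Vv' H X = x.val K Vv Vv' H rv X x.xk := by
  unfold val fac rho
  have e1 : x.om0 K Vv Vv' = (x.cell K Vv Vv' H X x.xk).pref := rfl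
  have e2 : (x.cell K Vv Vv' H X x.xk).rho = (nm x.d / nm x.d' : ℝ) ^ (3 / 2 : ℝ) *
    (nm x.g / nm x.g' : ℝ) ^ (2 / 3 : ℝ) * (nm x.a / nm x.a' : ℝ) ^ (1 / 2 : ℝ) := rfl
  rw [e1, e2]
  ring

end Cd

/-! ### both sides -/

/-- the data of one side -/
structure SideD (n : ℕ) where
  (H : Cd → ℝ)
  (Q L : Eis → ℝ)
  (W Wc : Eis → Eis → ℝ)
  (ext : Fin n → ℝ)
  (om : Fin n → Eis → ℝ)
  (N : Fin n → Cd → Finset (Eis × Eis))
  (Gs : Fin n → Finset Eis)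
  (A : Fin n → Eis → Eis → Eis → Finset Eis)
  (Rc : Cd → Prop)

/-- admissible data of one side for a set of cells -/
structure SideD.OK {n : ℕ} (sd : SideD n) (Z Vv Vv' rv : ℝ) (af : Eis → Eis → Eis → ℂ)
    (P : Cd → Prop) : Prop where
  H : ∀ x, P x → 0 < sd.H x
  Q : ∀ d, 0 ≤ sd.Q d
  HQ : ∀ x, P x → rv * ((sd.H x) ^ (-(1 / 3) : ℝ) * (Vv * Vv') ^ (-(1 / 6) : ℝ)) ≤ sd.Q x.d
  ext : ∀ l, 0 ≤ sd.ext l
  om : ∀ l γ, 0 ≤ sd.om l γ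
  W : ∀ d e, 0 ≤ sd.W d e
  Wc : ∀ d e, 0 ≤ sd.Wc d e
  L : ∀ d, 0 ≤ sd.L d
  N : ∀ l x, P x → ∀ z ∈ sd.N l x, Mu x.U z.1 ∧ IsPrim z.2 ∧ z.2 ∈ sd.Gs l ∧
        (nm (ju x.U z.1) : ℝ) ≤ Z ∧ ju x.U z.1 ∈ sd.A l x.d x.e z.2
  Rc : ∀ x, P x → sd.Rc x → (nm (x.a * x.D) : ℝ) ^ 2 * (nm (x.q * x.g * x.F) : ℝ) ^ 3 ≤ sd.L x.d

/-- the bound of one side of one cell -/
def CellB {n : ℕ} (sd : SideD n) (K Vv Vv' X : ℝ) (af : Eis → Eis → Eis → ℂ) (x : Cd) : ℝ :=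
  x.fac K Vv Vv' (sd.H x) X * (∑ l : Fin n, sd.ext l * TQ af (sd.om l) (sd.N l x) x.U +
    (if sd.Rc x then sd.W x.d x.e else 0) + kU x.U * sd.Wc x.d x.e)

/-- the total of one side -/
def SB {n : ℕ} (sd : SideD n) (K : ℝ) (af : Eis → Eis → Eis → ℂ) (R : Finset (Eis × Eis)) : ℝ :=
  ∑ l : Fin n, sd.ext l * TM af (Pde K sd.Q) (sd.om l) (sd.Gs l) (sd.A l) R +
    ∑ ρ ∈ R, Pde K sd.Q ρ.1 ρ.2 * (sd.W ρ.1 ρ.2 * Real.sqrt (sd.L ρ.1) + sd.Wc ρ.1 ρ.2)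

lemma SB_mono {n : ℕ} {sd : SideD n} {Z Vv Vv' rv : ℝ} {af : Eis → Eis → Eis → ℂ}
    {P : Cd → Prop} (h : sd.OK Z Vv Vv' rv af P) {K : ℝ} (hK : 0 ≤ K)
    {R R' : Finset (Eis × Eis)} (hR : R ⊆ R') : SB sd K af R ≤ SB sd K af R' := by
  have hP : ∀ d e, 0 ≤ Pde K sd.Q d e := Cd.Pde_nonneg hK h.Q
  unfold SB TM
  refine add_le_add (sum_le_sum fun l _ => mul_le_mul_of_nonneg_left ?_ (h.ext l)) ?_
  · refine sum_le_sum_of_subset_of_nonneg hR fun ρ _ _ => mul_nonneg (hP _ _) (sum_nonneg fun γ _ =>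
      mul_nonneg (h.om l γ) (sum_nonneg fun j _ => by positivity))
  · refine sum_le_sum_of_subset_of_nonneg hR fun ρ _ _ => mul_nonneg (hP _ _)
      (add_nonneg (mul_nonneg (h.W _ _) (Real.sqrt_nonneg _)) (h.Wc _ _))

/-- **the sum over a family of cells, both sides** -/
theorem S_both {ε : ℝ} (hε : 0 < ε) : ∃ C : ℝ, 0 ≤ C ∧ ∀ Z : ℝ, 1 ≤ Z →
    ∀ (EE : Finset Eis) {ι : Type} (O : Finset ι) (x : ι → Cd) (K Vv Vv' rv X : ℝ)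
      (af : Eis → Eis → Eis → ℂ) (n : ℕ) (sd sd' : SideD n) (P : Cd → Prop)
      (R : Finset (Eis × Eis)) (u u' : ι → ℝ),
      0 < K → 0 < Vv → 0 < Vv' → 0 < rv → 0 < X →
      sd.OK Z Vv Vv' rv af P → sd'.OK Z Vv' Vv rv⁻¹ af P →
      (∀ i ∈ O, (x i).OK Z EE ∧ P (x i) ∧ P (x i).swap) →
      (∀ i ∈ O, ∀ j ∈ O, (x i).U = (x j).U → (x i).V = (x j).V → i = j) →
      (∀ i ∈ O, ∀ j ∈ O, (x i).swap.U = (x j).swap.U → (x i).swap.V = (x j).swap.V → i = j) →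
      (∀ d e, FS (af d e)) →
      (∀ i ∈ O, ((x i).d, (x i).e) ∈ R ∧ ((x i).d', (x i).e') ∈ R) →
      (∀ i ∈ O, u i ≤ CellB sd K Vv Vv' X af (x i)) →
      (∀ i ∈ O, u' i ≤ CellB sd' K Vv' Vv X af (x i).swap) →
      ∑ i ∈ O, (x i).om0 K Vv Vv' * ((x i).rho rv * u i + ((x i).rho rv)⁻¹ * u' i) ≤
        C * Z ^ ε * hE EE * (SB sd K af R + SB sd' K af R) := by
  obtain ⟨C, hC, h⟩ := S_side hε
  refine ⟨C, hC, ?_⟩
  intro Z hZ EE ι O x K Vv Vv' rv X af n sd sd' P R u u' hK hV hV' hrv hX hs hs' hO inj inj' haf hR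
    hu hu'
  have hE0 := hE_nonneg EE
  have hCZ : 0 ≤ C * Z ^ ε * hE EE := mul_nonneg (by positivity) hE0
  -- side 1
  have s1 : ∑ i ∈ O, (x i).om0 K Vv Vv' * ((x i).rho rv * u i) ≤
      C * Z ^ ε * hE EE * SB sd K af R := by
    have key := h Z hZ EE O x (fun i => (x i).xk) K Vv Vv' rv X (fun i => sd.H (x i)) sd.Q af sd.L
      sd.W sd.Wc n sd.ext sd.om (fun l i => sd.N l (x i)) sd.Gs sd.A (fun i => sd.Rc (x i))
      (fun i => (x i).om0 K Vv Vv' * ((x i).rho rv * u i)) hK hV hV' hrv.le hX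
      (fun i hi => hs.H _ (hO i hi).2.1) hs.Q (fun i hi => hs.HQ _ (hO i hi).2.1) hs.ext hs.om hs.W
      hs.Wc hs.L (fun i hi => (hO i hi).1) inj (fun i hi => (hO i hi).1.xk_spec)
      (fun i hi => haf _ _) (fun l i hi => hs.N l _ (hO i hi).2.1)
      (fun i hi => hs.Rc _ (hO i hi).2.1)
      (fun i hi => by
        have h1 := hu i hi
        have h2 := Cd.om0_nonneg (hO i hi).1 hK.le hV.le hV'.le
        have h3 := (Cd.rho_pos (hO i hi).1 hrv).le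
        have h4 := mul_le_mul_of_nonneg_left (mul_le_mul_of_nonneg_left h1 h3) h2
        refine h4.trans (le_of_eq ?_)
        unfold CellB
        rw [← Cd.val_eq]
        ring)
    refine key.trans (mul_le_mul_of_nonneg_left ?_ hCZ)
    refine SB_mono hs hK.le ?_
    intro ρ hρ
    obtain ⟨i, hi, rfl⟩ := mem_image.mp hρ
    exact (hR i hi).1
  -- side 2
  have s2 : ∑ i ∈ O, (x i).om0 K Vv Vv' * (((x i).rho rv)⁻¹ * u' i) ≤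
      C * Z ^ ε * hE EE * SB sd' K af R := by
    have hrv' : 0 < rv⁻¹ := inv_pos.mpr hrv
    have key := h Z hZ EE O (fun i => (x i).swap) (fun i => (x i).swap.xk) K Vv' Vv rv⁻¹ X
      (fun i => sd'.H (x i).swap) sd'.Q af sd'.L
      sd'.W sd'.Wc n sd'.ext sd'.om (fun l i => sd'.N l (x i).swap) sd'.Gs sd'.A
      (fun i => sd'.Rc (x i).swap)
      (fun i => (x i).om0 K Vv Vv' * (((x i).rho rv)⁻¹ * u' i)) hK hV' hV hrv'.le hX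
      (fun i hi => hs'.H _ (hO i hi).2.2) hs'.Q (fun i hi => hs'.HQ _ (hO i hi).2.2) hs'.ext hs'.om
      hs'.W hs'.Wc hs'.L (fun i hi => (hO i hi).1.swap) inj'
      (fun i hi => (hO i hi).1.swap.xk_spec)
      (fun i hi => haf _ _) (fun l i hi => hs'.N l _ (hO i hi).2.2)
      (fun i hi => hs'.Rc _ (hO i hi).2.2)
      (fun i hi => by
        have h1 := hu' i hi
        have h2 := Cd.om0_nonneg (hO i hi).1 hK.le hV.le hV'.le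
        have h3 := (inv_pos.mpr (Cd.rho_pos (hO i hi).1 hrv)).le
        have h4 := mul_le_mul_of_nonneg_left (mul_le_mul_of_nonneg_left h1 h3) h2
        refine h4.trans (le_of_eq ?_)
        unfold CellB
        rw [← Cd.val_eq, Cd.rho_swap, Cd.om0_swap]
        ring)
    refine key.trans (mul_le_mul_of_nonneg_left ?_ hCZ)
    refine SB_mono hs' hK.le ?_
    intro ρ hρ
    obtain ⟨i, hi, rfl⟩ := mem_image.mp hρ
    exact (hR i hi).2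
  have e1 : ∑ i ∈ O, (x i).om0 K Vv Vv' * ((x i).rho rv * u i + ((x i).rho rv)⁻¹ * u' i) =
      ∑ i ∈ O, (x i).om0 K Vv Vv' * ((x i).rho rv * u i) +
        ∑ i ∈ O, (x i).om0 K Vv Vv' * (((x i).rho rv)⁻¹ * u' i) := by
    rw [← sum_add_distrib]
    exact sum_congr rfl fun i _ => by ring
  rw [e1, mul_add]
  exact add_le_add s1 s2

end Crest.Agent.R017.E3T829
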