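import Crest.Agent.R017.E3Ud_829

/-!
# Row 17, R8 (E3), the sum over the cells from fibre sums (helper829)

* `T_fib` : the T-half from fibre sums
* `SF`, `SF.OK`, `SFB`, `CellF`, `S_fib` : both sides
-/

set_option autoImplicit false
set_option linter.unusedVariables false

noncomputable section

open Finset
open scoped Classical ComplexConjugate

namespace Crest.Agent.R017.E3T829

open Crest.Agent.R012 Crest.Agent.R012.Eis Crest.Agent.R012.Div277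
open Crest.Agent.R012.LS2 (S mem_S bl mem_bl)
open Crest.Agent.R017.CM106 (CS FS)
open Crest.Agent.R017.E3A164 (Cs mem_Cs fq)
open Crest.Agent.R017.GrB829 (IsC)
open Crest.Agent.R017.E3D579 (TE0 bF bt b0)

/-- the condition on the variable `μ` of the cell, with the module `dl` -/
def Mud (u : UT) (dl μ : Eis) : Prop :=
  IsPrim μ ∧ IsCoprime (u.2.2.2.2.2.2.2 * (u.2.2.2.2.2.1 * u.2.2.2.2.2.2.1 * μ)) dl

lemma bu_dl {a : Eis → ℂ} {d dl : Eis} (hd : dl ∣ d) (κ F e f : Eis) :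
    bF κ F (b0 a d e f) = fun m => (if IsCoprime f d then 1 else 0) * bF κ F (b0 a dl e f) m := by
  have h0 : ∀ m, b0 a d e f m = (if IsCoprime f d then 1 else 0) * b0 a dl e f m := by
    intro m
    unfold b0
    by_cases hf : IsCoprime f d
    · rw [if_pos hf, one_mul]
      have hf' : IsCoprime f dl := hf.of_isCoprime_of_dvd_right hd
      by_cases hm : IsCoprime f m
      · by_cases he : e ∣ m
        · rw [if_pos ⟨he, hf.mul_right hm⟩, if_pos ⟨he, hf'.mul_right hm⟩]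
        · rw [if_neg (fun h => he h.1), if_neg (fun h => he h.1)]
      · rw [if_neg (fun h => hm h.2.of_mul_right_right), if_neg (fun h => hm h.2.of_mul_right_right)]
    · rw [if_neg hf, zero_mul, if_neg (fun h => hf h.2.of_mul_right_left)]
  funext m
  unfold bF bt
  by_cases hk : κ ∣ m
  · rw [if_pos hk, if_pos hk]
    change b0 a d e f (m / κ) * _ * _ = _ * (b0 a dl e f (m / κ) * _ * _)
    rw [h0 (m / κ)]
    ring
  · rw [if_neg hk, if_neg hk, mul_zero]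

lemma norm_bud_le {af : Eis → Eis → Eis → ℂ} {Z : ℝ} {u : UT} (hu : OU Z u)
    (haf : FS (af u.1 u.2.1)) {dl μ γ : Eis} (hd : dl ∣ u.1) (hγ : IsPrim γ) (hμ : Mud u dl μ) :
    ‖CS (bu af u) (μ * γ ^ 3)‖ ≤ ‖TE0 (cg γ (af u.1 u.2.1)) dl (ju u μ) u.2.1‖ := by
  have h := norm_CS_cub haf (hu.a.mul hu.D) hu.F hμ.1 hγ hμ.2 u.2.1
    (u.2.2.1 * u.2.2.2.1 * u.2.2.2.2.1 ^ 2)
  have e : u.2.2.1 * u.2.2.2.1 * u.2.2.2.2.1 ^ 2 *
      (u.2.2.2.2.2.2.2 * (u.2.2.2.2.2.1 * u.2.2.2.2.2.2.1 * μ)) = ju u μ := by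
    unfold ju jj fq
    ring
  rw [e] at h
  refine le_trans ?_ h
  unfold bu
  rw [bu_dl hd]
  have e2 : CS (fun m => (if IsCoprime (u.2.2.1 * u.2.2.2.1 * u.2.2.2.2.1 ^ 2) u.1 then (1 : ℂ)
      else 0) * bF (u.2.2.2.2.2.1 * u.2.2.2.2.2.2.1) u.2.2.2.2.2.2.2
      (b0 (af u.1 u.2.1) dl u.2.1 (u.2.2.1 * u.2.2.2.1 * u.2.2.2.2.1 ^ 2)) m) (μ * γ ^ 3) =
      (if IsCoprime (u.2.2.1 * u.2.2.2.1 * u.2.2.2.2.1 ^ 2) u.1 then (1 : ℂ) else 0) *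
      CS (bF (u.2.2.2.2.2.1 * u.2.2.2.2.2.2.1) u.2.2.2.2.2.2.2
      (b0 (af u.1 u.2.1) dl u.2.1 (u.2.2.1 * u.2.2.2.1 * u.2.2.2.2.1 ^ 2))) (μ * γ ^ 3) := by
    unfold CS
    rw [← tsum_mul_left]
    exact tsum_congr fun m => by ring
  rw [e2, norm_mul]
  refine mul_le_of_le_one_left (norm_nonneg _) ?_
  split_ifs <;> simp

/-- the total of the `T`-moments, with the module `dl` -/
def TMd (af : Eis → Eis → Eis → ℂ) (P : Eis → Eis → ℝ) (om : Eis → ℝ) (Gs : Finset Eis)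
    (A : Eis → Eis → Eis → Finset Eis) (dl : Eis → Eis) (R : Finset (Eis × Eis)) : ℝ :=
  ∑ ρ ∈ R, P ρ.1 ρ.2 * ∑ γ ∈ Gs, om γ * ∑ j ∈ A ρ.1 ρ.2 γ,
    ‖TE0 (cg γ (af ρ.1 ρ.2)) (dl ρ.1) j ρ.2‖ ^ 2

/-- **the T-half of the sum over the cells, from fibre sums** -/
theorem T_fib {ε : ℝ} (hε : 0 < ε) : ∃ C : ℝ, 0 ≤ C ∧ ∀ Z : ℝ, 1 ≤ Z →
    ∀ {ι : Type} (O : Finset ι) (U : ι → UT) (val : ι → ℝ) (P : Eis → Eis → ℝ)
      (af : Eis → Eis → Eis → ℂ) (N : ι → Finset (Eis × Eis)) (om : Eis → ℝ) (Gs : Finset Eis)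
      (A : Eis → Eis → Eis → Finset Eis) (dl : Eis → Eis), (∀ d, dl d ∣ d) →
      (∀ d e, 0 ≤ P d e) → (∀ γ, 0 ≤ om γ) → (∀ o ∈ O, OU Z (U o)) → (∀ o ∈ O, 0 ≤ val o) →
      (∀ u, ∑ o ∈ O.filter (fun o => U o = u), val o ≤ P u.1 u.2.1) →
      (∀ o ∈ O, FS (af (U o).1 (U o).2.1)) →
      (∀ o ∈ O, ∀ x ∈ N o, Mud (U o) (dl (U o).1) x.1 ∧ IsPrim x.2 ∧ x.2 ∈ Gs ∧
        (nm (ju (U o) x.1) : ℝ) ≤ Z ∧ ju (U o) x.1 ∈ A (U o).1 (U o).2.1 x.2) →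
      ∑ o ∈ O, val o * TQ af om (N o) (U o) ≤
        C * Z ^ ε * TMd af P om Gs A dl (O.image (fun o => ((U o).1, (U o).2.1))) := by
  obtain ⟨C2, hC2, h2⟩ := sum_jW hε
  refine ⟨C2, by linarith, ?_⟩
  intro Z hZ ι O U val P af N om Gs A dl hdl hP hom hU hval0 hfib haf hN
  have hZ0 : 0 < Z := by linarith
  -- the set of the variables `(μ, γ)` of a cell
  set Nn : UT → Finset (Eis × Eis) := fun u => (primBall ⌊Z⌋₊ ×ˢ Gs).filter
    (fun x => Mud u (dl u.1) x.1 ∧ IsPrim x.2 ∧ (nm (ju u x.1) : ℝ) ≤ Z ∧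
      ju u x.1 ∈ A u.1 u.2.1 x.2)
    with hNn
  set f : Eis → Eis → Eis → Eis → ℝ := fun d e γ j =>
    if j ∈ A d e γ ∧ (nm j : ℝ) ≤ Z then ‖TE0 (cg γ (af d e)) (dl d) j e‖ ^ 2 else 0 with hf
  have hf0 : ∀ d e γ j, 0 ≤ f d e γ j := by
    intro d e γ j
    simp only [hf]
    split_ifs <;> positivity
  set G : UT → ℝ := fun u => ∑ x ∈ Nn u, om x.2 * f u.1 u.2.1 x.2 (ju u x.1) with hG
  have hG0 : ∀ u, 0 ≤ G u := fun u => sum_nonneg fun x _ => mul_nonneg (hom _) (hf0 _ _ _ _)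
  have hle : ∀ u : UT, OU Z u → ∀ μ, IsPrim μ → nm μ ≤ nm (ju u μ) := by
    intro u hu μ hμ
    have e : ju u μ = (u.2.2.1 * u.2.2.2.1 * (u.2.2.2.2.2.1 * u.2.2.2.2.2.2.1 * u.2.2.2.2.2.2.2) *
        u.2.2.2.2.1 ^ 2) * μ := by
      unfold ju jj fq; ring
    rw [e, nm_mul]
    refine Nat.le_mul_of_pos_left _ (nm_pos.mpr ?_)
    exact mul_ne_zero (mul_ne_zero (mul_ne_zero hu.q.ne_zero hu.c.lamish.1)
      ((hu.a.mul hu.D).mul hu.F).ne_zero) (hu.g.pow 2).ne_zero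
  obtain ⟨OI, hOI⟩ : ∃ OI : Finset UT, OI = O.image U := ⟨_, rfl⟩
  -- step 1
  have s1 : ∑ o ∈ O, val o * TQ af om (N o) (U o) ≤ ∑ u ∈ OI, P u.1 u.2.1 * G u := by
    have a0 : ∀ o ∈ O, val o * TQ af om (N o) (U o) ≤ val o * G (U o) := by
      intro o ho
      refine mul_le_mul_of_nonneg_left ?_ (hval0 o ho)
      have a2 : N o ⊆ Nn (U o) := by
        intro x hx
        obtain ⟨b1, b2, b3, b4, b5⟩ := hN o ho x hx
        simp only [hNn, mem_filter, mem_product, mem_primBall]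
        refine ⟨⟨⟨Nat.le_floor ?_, b1.1⟩, b3⟩, b1, b2, b4, b5⟩
        have := hle (U o) (hU o ho) x.1 b1.1
        calc (nm x.1 : ℝ) ≤ nm (ju (U o) x.1) := by exact_mod_cast this
          _ ≤ Z := b4
      refine le_trans (sum_le_sum fun x hx => ?_) (sum_le_sum_of_subset_of_nonneg a2
        fun x _ _ => mul_nonneg (hom _) (hf0 _ _ _ _))
      obtain ⟨b1, b2, b3, b4, b5⟩ := hN o ho x hx
      refine mul_le_mul_of_nonneg_left ?_ (hom _)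
      simp only [hf]
      rw [if_pos ⟨b5, b4⟩]
      exact pow_le_pow_left₀ (norm_nonneg _) (norm_bud_le (hU o ho) (haf o ho) (hdl _) b2 b1) 2
    refine (sum_le_sum a0).trans ?_
    have hmaps : ∀ o ∈ O, U o ∈ OI := fun o ho => by rw [hOI]; exact mem_image_of_mem U ho
    rw [← sum_fiberwise_of_maps_to hmaps]
    refine sum_le_sum fun u hu => ?_
    have e1 : ∑ o ∈ O.filter (fun o => U o = u), val o * G (U o) =
        (∑ o ∈ O.filter (fun o => U o = u), val o) * G u := by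
      rw [sum_mul]
      refine sum_congr rfl fun o ho => ?_
      rw [(mem_filter.mp ho).2]
    rw [e1]
    exact mul_le_mul_of_nonneg_right (hfib u) (hG0 u)
  refine s1.trans ?_
  -- step 2
  set R := O.image (fun o => ((U o).1, (U o).2.1)) with hR
  set I : Finset (UT × Eis × Eis) := (OI.sigma (fun u => Nn u)).image
    (fun z => (z.1, z.2.1, z.2.2)) with hI
  have e1 : ∑ u ∈ OI, P u.1 u.2.1 * G u = ∑ z ∈ I, P z.1.1 z.1.2.1 *
      (om z.2.2 * f z.1.1 z.1.2.1 z.2.2 (ju z.1 z.2.1)) := by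
    rw [hI, sum_image, sum_sigma]
    · refine sum_congr rfl fun u _ => ?_
      simp only [hG]
      rw [mul_sum]
    · rintro ⟨u, x⟩ _ ⟨u', x'⟩ _ h
      simp only [Prod.mk.injEq] at h
      obtain ⟨h1, h2, h3⟩ := h
      subst h1
      have : x = x' := Prod.ext h2 h3
      rw [this]
  have hmem : ∀ z ∈ I, (∃ o ∈ O, U o = z.1) ∧ z.2 ∈ Nn z.1 := by
    intro z hz
    rw [hI, mem_image] at hz
    obtain ⟨⟨u, x⟩, hs, rfl⟩ := hz
    rw [mem_sigma] at hs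
    rw [hOI, mem_image] at hs
    obtain ⟨o, ho, hu⟩ := hs.1
    exact ⟨⟨o, ho, hu⟩, hs.2⟩
  have s3 := h2 Z hZ I (fun z => z.1.2.2.1) (fun z => z.1.2.2.2.1) (fun z => z.1.2.2.2.2.1)
    (fun z => z.1.2.2.2.2.2.1) (fun z => z.1.2.2.2.2.2.2.1) (fun z => z.1.2.2.2.2.2.2.2)
    (fun z => z.2.1) (fun z => ((z.1.1, z.1.2.1), z.2.2)) (R ×ˢ Gs)
    (fun ρ j => P ρ.1.1 ρ.1.2 * (om ρ.2 * f ρ.1.1 ρ.1.2 ρ.2 j)) (fun ρ => A ρ.1.1 ρ.1.2 ρ.2)
    (fun ρ j => mul_nonneg (hP _ _) (mul_nonneg (hom _) (hf0 _ _ _ _)))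
    (fun ρ j h => by
      have h0 : f ρ.1.1 ρ.1.2 ρ.2 j ≠ 0 := right_ne_zero_of_mul (right_ne_zero_of_mul h)
      simp only [hf] at h0
      by_contra hcon
      exact h0 (if_neg hcon))
    (fun z hz => by
      obtain ⟨⟨o, ho, hu⟩, hx⟩ := hmem z hz
      simp only [hNn, mem_filter, mem_product] at hx
      rw [mem_product, hR]
      refine ⟨mem_image.mpr ⟨o, ho, by rw [hu]⟩, hx.1.2⟩)
    (fun z hz => by
      obtain ⟨⟨o, ho, hu⟩, hx⟩ := hmem z hz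
      have hO := hU o ho
      rw [hu] at hO
      simp only [hNn, mem_filter, mem_product] at hx
      exact ⟨hO.q, hO.c, hO.g, hO.a, hO.D, hO.F, hx.2.1.1⟩)
    (fun z _ z' _ h0 h1 h2 h3 h4 h5 h6 h7 => by
      simp only [Prod.mk.injEq] at h0
      obtain ⟨⟨h8, h9⟩, h10⟩ := h0
      exact Prod.ext (Prod.ext h8 (Prod.ext h9 (Prod.ext h1 (Prod.ext h2 (Prod.ext h3
        (Prod.ext h4 (Prod.ext h5 h6))))))) (Prod.ext h7 h10))
  have e2 : ∑ z ∈ I, P z.1.1 z.1.2.1 * (om z.2.2 * f z.1.1 z.1.2.1 z.2.2 (ju z.1 z.2.1)) ≤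
      C2 * Z ^ ε * ∑ ρ ∈ R ×ˢ Gs, ∑ j ∈ A ρ.1.1 ρ.1.2 ρ.2,
        P ρ.1.1 ρ.1.2 * (om ρ.2 * f ρ.1.1 ρ.1.2 ρ.2 j) := s3
  have e3 : ∑ ρ ∈ R ×ˢ Gs, ∑ j ∈ A ρ.1.1 ρ.1.2 ρ.2,
        P ρ.1.1 ρ.1.2 * (om ρ.2 * f ρ.1.1 ρ.1.2 ρ.2 j) ≤ TMd af P om Gs A dl R := by
    unfold TMd
    rw [sum_product]
    refine sum_le_sum fun ρ _ => ?_
    rw [mul_sum]
    refine sum_le_sum fun γ _ => ?_
    rw [mul_sum, mul_sum]
    refine sum_le_sum fun j _ => ?_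
    refine mul_le_mul_of_nonneg_left (mul_le_mul_of_nonneg_left ?_ (hom _)) (hP _ _)
    simp only [hf]
    split_ifs
    · exact le_rfl
    · positivity
  rw [e1]
  exact e2.trans (mul_le_mul_of_nonneg_left e3 (by positivity))

lemma TMd_mono {af : Eis → Eis → Eis → ℂ} {P : Eis → Eis → ℝ} {om : Eis → ℝ} {Gs : Finset Eis}
    {A : Eis → Eis → Eis → Finset Eis} {dl : Eis → Eis} (hP : ∀ d e, 0 ≤ P d e)
    (hom : ∀ γ, 0 ≤ om γ) {R R' : Finset (Eis × Eis)} (hR : R ⊆ R') :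
    TMd af P om Gs A dl R ≤ TMd af P om Gs A dl R' :=
  sum_le_sum_of_subset_of_nonneg hR fun ρ _ _ => mul_nonneg (hP _ _) (sum_nonneg fun γ _ =>
      mul_nonneg (hom γ) (sum_nonneg fun j _ => by positivity))

/-- the data of one side (`P` : the weights of the T-parts, `PR` : the weight of the R-part) -/
structure SF (n : ℕ) where
  (H : Cd → ℝ)
  (ext : Fin n → Cd → ℝ)
  (P : Fin n → Eis → Eis → ℝ)
  (PR : Eis → Eis → ℝ)
  (om : Fin n → Eis → ℝ)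
  (N : Fin n → Cd → Finset (Eis × Eis))
  (Gs : Fin n → Finset Eis)
  (A : Fin n → Eis → Eis → Eis → Finset Eis)
  (dl : Fin n → Eis → Eis)
  (Rp : UT → ℝ)

/-- admissible data of one side -/
structure SF.OK {n : ℕ} (sd : SF n) (Z : ℝ) (Pc : Cd → Prop) : Prop where
  ext : ∀ l x, Pc x → 0 ≤ sd.ext l x
  P : ∀ l d e, 0 ≤ sd.P l d e
  PR : ∀ d e, 0 ≤ sd.PR d e
  om : ∀ l γ, 0 ≤ sd.om l γ
  Rp : ∀ u, 0 ≤ sd.Rp u
  dl : ∀ l d, sd.dl l d ∣ d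
  N : ∀ l x, Pc x → ∀ z ∈ sd.N l x, Mud x.U (sd.dl l x.d) z.1 ∧ IsPrim z.2 ∧ z.2 ∈ sd.Gs l ∧
        (nm (ju x.U z.1) : ℝ) ≤ Z ∧ ju x.U z.1 ∈ sd.A l x.d x.e z.2

/-- the fibre sums of a family -/
structure SF.Fib {n : ℕ} (sd : SF n) (K Vv Vv' rv X : ℝ) {ι : Type} (O : Finset ι)
    (x : ι → Cd) : Prop where
  T : ∀ l u, ∑ i ∈ O.filter (fun i => (x i).U = u),
    (x i).val K Vv Vv' (sd.H (x i)) rv X (x i).xk * sd.ext l (x i) ≤ sd.P l u.1 u.2.1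
  R : ∀ u, ∑ i ∈ O.filter (fun i => (x i).U = u),
    (x i).val K Vv Vv' (sd.H (x i)) rv X (x i).xk ≤ sd.PR u.1 u.2.1

/-- the bound of one side of one cell -/
def CellF {n : ℕ} (sd : SF n) (K Vv Vv' X : ℝ) (af : Eis → Eis → Eis → ℂ) (x : Cd) : ℝ :=
  x.fac K Vv Vv' (sd.H x) X * (∑ l : Fin n, sd.ext l x * TQ af (sd.om l) (sd.N l x) x.U +
    sd.Rp x.U)

/-- the total of one side -/
def SFB {n : ℕ} (sd : SF n) (af : Eis → Eis → Eis → ℂ) (R : Finset (Eis × Eis))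
    (RU : Finset UT) : ℝ :=
  ∑ l : Fin n, TMd af (sd.P l) (sd.om l) (sd.Gs l) (sd.A l) (sd.dl l) R +
    ∑ u ∈ RU, sd.PR u.1 u.2.1 * sd.Rp u

lemma SFB_nonneg {n : ℕ} {sd : SF n} {Z : ℝ} {Pc : Cd → Prop} (h : sd.OK Z Pc)
    (af : Eis → Eis → Eis → ℂ) (R : Finset (Eis × Eis)) (RU : Finset UT) : 0 ≤ SFB sd af R RU :=
  add_nonneg (sum_nonneg fun l _ => sum_nonneg fun ρ _ => mul_nonneg (h.P l _ _)
    (sum_nonneg fun γ _ => mul_nonneg (h.om l γ) (sum_nonneg fun j _ => by positivity)))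
    (sum_nonneg fun u _ => mul_nonneg (h.PR _ _) (h.Rp u))

/-- **one side** -/
theorem S_fib1 {ε : ℝ} (hε : 0 < ε) : ∃ C : ℝ, 1 ≤ C ∧ ∀ Z : ℝ, 1 ≤ Z →
    ∀ (EE : Finset Eis) {ι : Type} (O : Finset ι) (x : ι → Cd) (K Vv Vv' rv X : ℝ)
      (af : Eis → Eis → Eis → ℂ) (n : ℕ) (sd : SF n) (Pc : Cd → Prop)
      (R : Finset (Eis × Eis)) (RU : Finset UT) (u : ι → ℝ),
      sd.OK Z Pc → sd.Fib K Vv Vv' rv X O x →
      (∀ i ∈ O, 0 ≤ (x i).val K Vv Vv' (sd.H (x i)) rv X (x i).xk) →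
      (∀ i ∈ O, (x i).OK Z EE ∧ Pc (x i)) →
      (∀ i ∈ O, FS (af (x i).d (x i).e)) →
      (∀ i ∈ O, ((x i).d, (x i).e) ∈ R ∧ (x i).U ∈ RU) →
      (∀ i ∈ O, u i ≤ (x i).val K Vv Vv' (sd.H (x i)) rv X (x i).xk *
        (∑ l : Fin n, sd.ext l (x i) * TQ af (sd.om l) (sd.N l (x i)) (x i).U +
          sd.Rp (x i).U)) →
      ∑ i ∈ O, u i ≤ C * Z ^ ε * SFB sd af R RU := by
  obtain ⟨C0, hC0, h⟩ := T_fib hε
  refine ⟨1 + C0, by linarith, ?_⟩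
  intro Z hZ EE ι O x K Vv Vv' rv X af n sd Pc R RU u hs hF hval0 hO haf hR hu
  have hZe : 1 ≤ Z ^ ε := Real.one_le_rpow hZ hε.le
  obtain ⟨v, hv⟩ : ∃ v : ι → ℝ, v = fun i => (x i).val K Vv Vv' (sd.H (x i)) rv X (x i).xk :=
    ⟨_, rfl⟩
  have hv' : ∀ i, (x i).val K Vv Vv' (sd.H (x i)) rv X (x i).xk = v i := fun i => by rw [hv]
  have hFT := hF.T
  have hFR := hF.R
  simp only [hv'] at hval0 hu hFT hFR
  -- the T-part
  have s1 : ∀ l, ∑ i ∈ O, (v i * sd.ext l (x i)) * TQ af (sd.om l) (sd.N l (x i)) (x i).U ≤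
      C0 * Z ^ ε * TMd af (sd.P l) (sd.om l) (sd.Gs l) (sd.A l) (sd.dl l) R := by
    intro l
    have key := h Z hZ O (fun i => (x i).U) (fun i => v i * sd.ext l (x i)) (sd.P l) af
      (fun i => sd.N l (x i)) (sd.om l) (sd.Gs l) (sd.A l) (sd.dl l) (hs.dl l) (hs.P l) (hs.om l)
      (fun i hi => (hO i hi).1.OU)
      (fun i hi => mul_nonneg (hval0 i hi) (hs.ext l _ (hO i hi).2)) (hFT l) haf
      (fun i hi => hs.N l _ (hO i hi).2)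
    refine key.trans (mul_le_mul_of_nonneg_left (TMd_mono (hs.P l) (hs.om l) ?_) (by positivity))
    intro ρ hρ
    obtain ⟨i, hi, rfl⟩ := mem_image.mp hρ
    exact (hR i hi).1
  -- the R-part
  have s2 : ∑ i ∈ O, v i * sd.Rp (x i).U ≤ ∑ w ∈ RU, sd.PR w.1 w.2.1 * sd.Rp w := by
    rw [← sum_fiberwise_of_maps_to (s := O) (t := RU) (g := fun i => (x i).U)
      (fun i hi => (hR i hi).2)]
    refine sum_le_sum fun w _ => ?_
    have e1 : ∑ i ∈ O.filter (fun i => (x i).U = w), v i * sd.Rp (x i).U =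
        (∑ i ∈ O.filter (fun i => (x i).U = w), v i) * sd.Rp w := by
      rw [sum_mul]
      refine sum_congr rfl fun o ho => ?_
      rw [(mem_filter.mp ho).2]
    rw [e1]
    exact mul_le_mul_of_nonneg_right (hFR w) (hs.Rp w)
  have hY : 0 ≤ ∑ w ∈ RU, sd.PR w.1 w.2.1 * sd.Rp w :=
    sum_nonneg fun w _ => mul_nonneg (hs.PR _ _) (hs.Rp w)
  have hTM0 : 0 ≤ ∑ l : Fin n, TMd af (sd.P l) (sd.om l) (sd.Gs l) (sd.A l) (sd.dl l) R :=
    sum_nonneg fun l _ => sum_nonneg fun ρ _ => mul_nonneg (hs.P l _ _)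
      (sum_nonneg fun γ _ => mul_nonneg (hs.om l γ) (sum_nonneg fun j _ => by positivity))
  have e5 : ∑ i ∈ O, v i * (∑ l : Fin n, sd.ext l (x i) * TQ af (sd.om l) (sd.N l (x i)) (x i).U +
      sd.Rp (x i).U) = ∑ l : Fin n, (∑ i ∈ O, (v i * sd.ext l (x i)) *
        TQ af (sd.om l) (sd.N l (x i)) (x i).U) + ∑ i ∈ O, v i * sd.Rp (x i).U := by
    rw [sum_comm, ← sum_add_distrib]
    refine sum_congr rfl fun i _ => ?_
    rw [mul_add, mul_sum]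
    congr 1
    exact sum_congr rfl fun l _ => by ring
  have e7 : ∑ l : Fin n, (∑ i ∈ O, (v i * sd.ext l (x i)) *
        TQ af (sd.om l) (sd.N l (x i)) (x i).U) ≤
      C0 * Z ^ ε * ∑ l : Fin n, TMd af (sd.P l) (sd.om l) (sd.Gs l) (sd.A l) (sd.dl l) R := by
    rw [mul_sum]
    exact sum_le_sum fun l _ => s1 l
  refine (sum_le_sum hu).trans ?_
  rw [e5]
  unfold SFB
  have a1 : 0 ≤ C0 * Z ^ ε * ∑ w ∈ RU, sd.PR w.1 w.2.1 * sd.Rp w := by positivity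
  have a2 : 0 ≤ Z ^ ε * ∑ l : Fin n, TMd af (sd.P l) (sd.om l) (sd.Gs l) (sd.A l) (sd.dl l) R := by positivity
  have a3 : 0 ≤ (Z ^ ε - 1) * ∑ w ∈ RU, sd.PR w.1 w.2.1 * sd.Rp w :=
    mul_nonneg (by linarith) hY
  nlinarith [a1, a2, a3, e7, s2]

/-- **the sum over a family of cells, both sides, from fibre sums** -/
theorem S_fib {ε : ℝ} (hε : 0 < ε) : ∃ C : ℝ, 1 ≤ C ∧ ∀ Z : ℝ, 1 ≤ Z →
    ∀ (EE : Finset Eis) {ι : Type} (O : Finset ι) (x : ι → Cd) (K Vv Vv' rv X : ℝ)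
      (af : Eis → Eis → Eis → ℂ) (n : ℕ) (sd sd' : SF n) (Pc : Cd → Prop)
      (R : Finset (Eis × Eis)) (RU : Finset UT) (u u' : ι → ℝ),
      0 < K → 0 < Vv → 0 < Vv' → 0 < rv →
      sd.OK Z Pc → sd'.OK Z Pc → sd.Fib K Vv Vv' rv X O x →
      sd'.Fib K Vv' Vv rv⁻¹ X O (fun i => (x i).swap) →
      (∀ i ∈ O, (x i).OK Z EE ∧ Pc (x i) ∧ Pc (x i).swap) →
      (∀ i ∈ O, 0 ≤ (x i).fac K Vv Vv' (sd.H (x i)) X ∧
        0 ≤ (x i).swap.fac K Vv' Vv (sd'.H (x i).swap) X) →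
      (∀ i ∈ O, FS (af (x i).d (x i).e) ∧ FS (af (x i).d' (x i).e')) →
      (∀ i ∈ O, (((x i).d, (x i).e) ∈ R ∧ (x i).U ∈ RU) ∧
        (((x i).d', (x i).e') ∈ R ∧ (x i).swap.U ∈ RU)) →
      (∀ i ∈ O, u i ≤ CellF sd K Vv Vv' X af (x i)) →
      (∀ i ∈ O, u' i ≤ CellF sd' K Vv' Vv X af (x i).swap) →
      ∑ i ∈ O, (x i).om0 K Vv Vv' * ((x i).rho rv * u i + ((x i).rho rv)⁻¹ * u' i) ≤
        C * Z ^ ε * (SFB sd af R RU + SFB sd' af R RU) := by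
  obtain ⟨C, hC, h⟩ := S_fib1 hε
  refine ⟨C, hC, ?_⟩
  intro Z hZ EE ι O x K Vv Vv' rv X af n sd sd' Pc R RU u u' hK hV hV' hrv hs hs' hF hF' hO hfac
    haf hR hu hu'
  have n1 : ∀ i ∈ O, 0 ≤ (x i).om0 K Vv Vv' * (x i).rho rv := fun i hi =>
    mul_nonneg (Cd.om0_nonneg (hO i hi).1 hK.le hV.le hV'.le) (Cd.rho_pos (hO i hi).1 hrv).le
  have n2 : ∀ i ∈ O, 0 ≤ (x i).swap.om0 K Vv' Vv * (x i).swap.rho rv⁻¹ := fun i hi =>
    mul_nonneg (Cd.om0_nonneg (hO i hi).1.swap hK.le hV'.le hV.le)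
      (Cd.rho_pos (hO i hi).1.swap (inv_pos.mpr hrv)).le
  -- side 1
  have s1 := h Z hZ EE O x K Vv Vv' rv X af n sd Pc R RU
    (fun i => (x i).om0 K Vv Vv' * ((x i).rho rv * u i)) hs hF
    (fun i hi => by rw [← Cd.val_eq]; exact mul_nonneg (n1 i hi) (hfac i hi).1)
    (fun i hi => ⟨(hO i hi).1, (hO i hi).2.1⟩) (fun i hi => (haf i hi).1)
    (fun i hi => (hR i hi).1) (fun i hi => by
      have h4 := mul_le_mul_of_nonneg_left (hu i hi) (n1 i hi)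
      rw [← Cd.val_eq]
      unfold CellF at h4
      refine le_trans (le_of_eq (by ring)) (h4.trans (le_of_eq (by ring))))
  -- side 2
  have s2 := h Z hZ EE O (fun i => (x i).swap) K Vv' Vv rv⁻¹ X af n sd' Pc R RU
    (fun i => (x i).om0 K Vv Vv' * (((x i).rho rv)⁻¹ * u' i)) hs' hF'
    (fun i hi => by rw [← Cd.val_eq]; exact mul_nonneg (n2 i hi) (hfac i hi).2)
    (fun i hi => ⟨(hO i hi).1.swap, (hO i hi).2.2⟩) (fun i hi => (haf i hi).2)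
    (fun i hi => (hR i hi).2) (fun i hi => by
      have h4 := mul_le_mul_of_nonneg_left (hu' i hi) (n2 i hi)
      rw [← Cd.val_eq]
      unfold CellF at h4
      rw [Cd.rho_swap, Cd.om0_swap] at h4 ⊢
      refine le_trans (le_of_eq (by ring)) (h4.trans (le_of_eq (by ring))))
  have e1 : ∑ i ∈ O, (x i).om0 K Vv Vv' * ((x i).rho rv * u i + ((x i).rho rv)⁻¹ * u' i) =
      ∑ i ∈ O, (x i).om0 K Vv Vv' * ((x i).rho rv * u i) +
        ∑ i ∈ O, (x i).om0 K Vv Vv' * (((x i).rho rv)⁻¹ * u' i) := by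
    rw [← sum_add_distrib]
    exact sum_congr rfl fun i _ => by ring
  rw [e1, mul_add]
  exact add_le_add s1 s2

end Crest.Agent.R017.E3T829
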