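import Crest.Agent.R017.E3Uf_829

/-!
# Row 17, R8 (E3), the fibre sums of the term `L` (helper829)

* `fib_wL`, `fib_L`
* `DG_all`, `DG_cls` : the sums over `(d', g')`
-/

set_option autoImplicit false
set_option linter.unusedVariables false

noncomputable section

open Finset
open scoped Classical ComplexConjugate

namespace Crest.Agent.R017.E3T829

open Crest.Agent.R012 Crest.Agent.R012.Eis Crest.Agent.R012.Div277
open Crest.Agent.R012.LS2 (S mem_S bl mem_bl)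
open Crest.Agent.R017.DgB829 (HS HS_nonneg HS_le)
open Crest.Agent.R017.E1551 (nmpos)
open Crest.Agent.R017.E3A164 (Cs mem_Cs fq)

open Cd (Pde)

lemma one_le_nmS {Z : ℝ} {z : Eis} (hz : z ∈ S Z) : (1 : ℝ) ≤ nm z := by
  have := nm_pos.mpr (Cd.pS hz).ne_zero
  exact_mod_cast this

lemma sum_primBall_Z {η Z : ℝ} (hη : 0 < η) (hZ : 1 ≤ Z) :
    ∑ t ∈ primBall ⌊Z⌋₊, (1 : ℝ) / nm t ≤ 100 * (1 + 1 / η) * Z ^ η := by
  have h1 := sum_inv_primBall_le ⌊Z⌋₊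
  have hf : (1 : ℝ) ≤ ⌊Z⌋₊ := by
    have := Nat.le_floor (n := 1) (by simpa using hZ)
    exact_mod_cast this
  have h2 : Real.log ⌊Z⌋₊ ≤ Real.log Z :=
    Real.log_le_log (by linarith) (Nat.floor_le (by linarith))
  have h3 := E3M829.log_Z hη hZ
  nlinarith

/-- **the fibre sums of the weights of the term `L`** -/
theorem fib_wL {ε : ℝ} (hε : 0 < ε) : ∃ C : ℝ, 0 ≤ C ∧ ∀ Z : ℝ, 1 ≤ Z →
    ∀ (EE : Finset Eis) (EEf : Eis → Finset Eis) (DG : Eis → Eis → Finset (Eis × Eis))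
      (hL : Eis → ℝ) (E1 B : ℝ) {ι : Type} (O : Finset ι) (x : ι → Cd),
      0 ≤ E1 → 0 ≤ B → (∀ d, 0 ≤ hL d) →
      (∀ i ∈ O, (x i).OK Z EE) → (∀ i ∈ O, (x i).e' ∈ EEf (x i).e) →
      (∀ i ∈ O, (nm (x i).t : ℝ) ≤ E1 ∧ (nm (x i).b : ℝ) ≤ B ∧ (nm (x i).b' : ℝ) ≤ B) →
      (∀ i ∈ O, ((x i).d', (x i).g') ∈ DG (x i).d (x i).g) →
      (∀ i ∈ O, ∑ z ∈ DG (x i).d (x i).g, (nm (x i).d * nm (x i).g / (nm z.1 ^ 2 * nm z.2) : ℝ) ≤
        hL (x i).d) →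
      (∀ i ∈ O, ∀ j ∈ O, (x i).U = (x j).U → (x i).V = (x j).V → i = j) →
      ∀ u : UT, ∑ i ∈ O.filter (fun i => (x i).U = u), (x i).wL ≤
        C * Z ^ ε * (E1 ^ 2 * B ^ 2 * hL u.1 * hE (EEf u.2.1)) := by
  set η := ε / 9 with hη
  have hη0 : 0 < η := by positivity
  obtain ⟨C2, hC2, h2⟩ := E3M829.tau_Z hη0
  set Ca := 100 * (1 + 1 / η) with hCa
  set Cb := 200 * (1 + 1 / η) with hCb
  have hCa0 : 0 ≤ Ca := by positivity
  have hCb0 : 0 ≤ Cb := by positivity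
  refine ⟨Ca * Cb ^ 2 * 4 * C2 * (C2 ^ 2) ^ 2 * C2, by positivity, ?_⟩
  intro Z hZ EE EEf DG hL E1 B ι O x hE1 hB hL0 hOK hEE htb hDG hDG2 inj u
  have hZ0 : 0 < Z := by linarith
  have hEf := hE_nonneg (EEf u.2.1)
  have h0 : 0 ≤ Ca * Cb ^ 2 * 4 * C2 * (C2 ^ 2) ^ 2 * C2 * Z ^ ε *
      (E1 ^ 2 * B ^ 2 * hL u.1 * hE (EEf u.2.1)) :=
    mul_nonneg (by positivity) (mul_nonneg (mul_nonneg (by positivity) (hL0 _)) hEf)
  by_cases hne : (O.filter (fun i => (x i).U = u)).Nonempty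
  swap
  · rw [not_nonempty_iff_eq_empty] at hne
    rw [hne, sum_empty]
    exact h0
  obtain ⟨i₀, hi₀⟩ := hne
  obtain ⟨hi1, hi2⟩ := mem_filter.mp hi₀
  have ho := (hOK i₀ hi1).OU
  rw [hi2] at ho
  have hDu := hDG2 i₀ hi1
  have ed : (x i₀).d = u.1 := by rw [← hi2]; rfl
  have eg : (x i₀).g = u.2.2.2.2.1 := by rw [← hi2]; rfl
  rw [ed, eg] at hDu
  set q := u.2.2.1 with hq
  set d := u.1 with hd
  set g := u.2.2.2.2.1 with hg
  set D := u.2.2.2.2.2.2.1 with hD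
  -- the product set
  set P : Finset ((Eis × (Eis × Eis) × Eis × Eis) × Eis × (Eis × Eis × Eis × Eis × Eis)) :=
    (primBall ⌊Z⌋₊ ×ˢ DG d g ×ˢ S Z ×ˢ S Z) ×ˢ EEf u.2.1 ×ˢ (Cs ×ˢ dvs q ×ˢ dvs (d * g) ×ˢ
      dvs (d * g) ×ˢ dvs D) with hP
  set ψ : (Eis × (Eis × Eis) × Eis × Eis) × Eis × (Eis × Eis × Eis × Eis × Eis) → ℝ := fun v =>
    ((1 / nm v.1.1) * ((nm d * nm g / (nm v.1.2.1.1 ^ 2 * nm v.1.2.1.2)) * ((1 / nm v.1.2.2.1) *
      (1 / nm v.1.2.2.2)))) * (1 / nm v.2.1) with hψ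
  have hψ0 : ∀ v, 0 ≤ ψ v := fun v => by simp only [hψ]; positivity
  set φ : ι → (Eis × (Eis × Eis) × Eis × Eis) × Eis × (Eis × Eis × Eis × Eis × Eis) := fun i =>
    (((x i).t, ((x i).d', (x i).g'), (x i).b, (x i).b'), (x i).e', ((x i).c', (x i).s, (x i).sg,
      (x i).a', (x i).E)) with hφ
  have s1 : ∑ i ∈ O.filter (fun i => (x i).U = u), (x i).wL ≤
      (E1 ^ 2 * B ^ 2) * ∑ v ∈ P, ψ v := by
    have e1 : ∑ i ∈ O.filter (fun i => (x i).U = u), (x i).wL ≤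
        ∑ i ∈ O.filter (fun i => (x i).U = u), (E1 ^ 2 * B ^ 2) * ψ (φ i) := by
      refine sum_le_sum fun i hi => ?_
      obtain ⟨a1, a2⟩ := mem_filter.mp hi
      obtain ⟨b1, b2, b3⟩ := htb i a1
      have k := hOK i a1
      obtain ⟨nq, nt, nd, ne, nc, ng, nd', ne', nc', ng', nD, nE, nF⟩ := k.np
      have nb := nmpos (k.prim k.b).ne_zero
      have nb' := nmpos (k.prim k.b').ne_zero
      have ed' : (x i).d = d := by rw [hd, ← a2]; rfl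
      have eg' : (x i).g = g := by rw [hg, ← a2]; rfl
      have hh : ψ (φ i) = ((1 / nm (x i).t) * ((nm d * nm g / (nm (x i).d' ^ 2 * nm (x i).g')) *
        ((1 / nm (x i).b) * (1 / nm (x i).b')))) * (1 / nm (x i).e') := rfl
      rw [hh]
      unfold Cd.wL
      rw [ed', eg']
      have hX : 0 ≤ (nm d * nm g / (nm (x i).d' ^ 2 * nm (x i).g') : ℝ) * (nm (x i).e' : ℝ)⁻¹ := by
        positivity
      have k1 : (nm (x i).t : ℝ) ≤ E1 ^ 2 * (1 / nm (x i).t) := by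
        rw [mul_one_div, le_div_iff₀ nt]
        nlinarith
      have k2 : (1 : ℝ) ≤ B * (1 / nm (x i).b) := by
        rw [mul_one_div, le_div_iff₀ nb]; linarith
      have k3 : (1 : ℝ) ≤ B * (1 / nm (x i).b') := by
        rw [mul_one_div, le_div_iff₀ nb']; linarith
      have k4 : (nm (x i).t : ℝ) ≤ (E1 ^ 2 * (1 / nm (x i).t)) * ((B * (1 / nm (x i).b)) *
          (B * (1 / nm (x i).b'))) := by
        have k5 : (1 : ℝ) ≤ (B * (1 / nm (x i).b)) * (B * (1 / nm (x i).b')) := by nlinarith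
        have k6 : 0 ≤ E1 ^ 2 * (1 / nm (x i).t : ℝ) := by positivity
        nlinarith
      calc nm (x i).t * (nm d * nm g / (nm (x i).d' ^ 2 * nm (x i).g')) * (nm (x i).e' : ℝ)⁻¹
          = nm (x i).t * ((nm d * nm g / (nm (x i).d' ^ 2 * nm (x i).g')) *
            (nm (x i).e' : ℝ)⁻¹) := by ring
        _ ≤ ((E1 ^ 2 * (1 / nm (x i).t)) * ((B * (1 / nm (x i).b)) *
          (B * (1 / nm (x i).b')))) * ((nm d * nm g / (nm (x i).d' ^ 2 * nm (x i).g')) *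
            (nm (x i).e' : ℝ)⁻¹) := mul_le_mul_of_nonneg_right k4 hX
        _ = _ := by rw [one_div (nm (x i).e' : ℝ)]; ring
    refine e1.trans ?_
    rw [← mul_sum]
    refine mul_le_mul_of_nonneg_left ?_ (by positivity)
    have e2 : ∑ i ∈ O.filter (fun i => (x i).U = u), ψ (φ i) =
        ∑ v ∈ (O.filter (fun i => (x i).U = u)).image φ, ψ v := by
      rw [sum_image]
      intro i hi j hj hV
      obtain ⟨a1, a2⟩ := mem_filter.mp hi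
      obtain ⟨b1, b2⟩ := mem_filter.mp hj
      refine inj i a1 j b1 (a2.trans b2.symm) ?_
      simp only [hφ, Prod.mk.injEq] at hV
      obtain ⟨⟨r1, ⟨r2, r3⟩, r4, r5⟩, r6, r7, r8, r9, r10, r11⟩ := hV
      unfold Cd.V
      rw [r1, r2, r3, r4, r5, r6, r7, r8, r9, r10, r11]
    rw [e2]
    refine sum_le_sum_of_subset_of_nonneg ?_ fun v _ _ => hψ0 v
    intro v hv
    obtain ⟨i, hi, rfl⟩ := mem_image.mp hv
    obtain ⟨a1, a2⟩ := mem_filter.mp hi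
    have k := hOK i a1
    have hv := k.VS
    have ed' : (x i).d = d := by rw [hd, ← a2]; rfl
    have eg' : (x i).g = g := by rw [hg, ← a2]; rfl
    have ee' : (x i).e = u.2.1 := by rw [← a2]; rfl
    rw [a2] at hv
    unfold VS Cd.V at hv
    simp only [mem_product] at hv
    obtain ⟨⟨m1, m2, m3, m4, m5⟩, m6, m7, m8, m9, m10, m11⟩ := hv
    have h3 := hDG i a1
    have h4 := hEE i a1
    rw [ed', eg'] at h3
    rw [ee'] at h4
    simp only [hP, hφ, mem_product]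
    exact ⟨⟨m1, h3, m4, m5⟩, h4, m7, m8, m9, m10, m11⟩
  -- the value of the product
  have e3 : ∑ v ∈ P, ψ v = ((∑ t ∈ primBall ⌊Z⌋₊, (1 : ℝ) / nm t) *
      ((∑ z ∈ DG d g, (nm d * nm g / (nm z.1 ^ 2 * nm z.2) : ℝ)) * (HS Z * HS Z))) *
      (hE (EEf u.2.1) * (Cs.card * (tau q * (tau (d * g) * (tau (d * g) * tau D))))) := by
    rw [hP, sum_product]
    have e4 : ∀ y : Eis × (Eis × Eis) × Eis × Eis,
        ∑ z ∈ EEf u.2.1 ×ˢ (Cs ×ˢ dvs q ×ˢ dvs (d * g) ×ˢ dvs (d * g) ×ˢ dvs D), ψ (y, z) =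
        ((1 / nm y.1) * ((nm d * nm g / (nm y.2.1.1 ^ 2 * nm y.2.1.2)) * ((1 / nm y.2.2.1) *
          (1 / nm y.2.2.2)))) * (hE (EEf u.2.1) * (Cs.card * (tau q * (tau (d * g) *
            (tau (d * g) * tau D))))) := by
      intro y
      rw [sum_product]
      simp only [hψ]
      simp only [sum_const, nsmul_eq_mul, card_product]
      rw [← mul_sum]
      have e5 : ∑ i ∈ EEf u.2.1, (1 / nm y.1 * (nm d * nm g / (nm y.2.1.1 ^ 2 * nm y.2.1.2) *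
          (1 / nm y.2.2.1 * (1 / nm y.2.2.2))) * (1 / nm i) : ℝ) =
          (1 / nm y.1 * (nm d * nm g / (nm y.2.1.1 ^ 2 * nm y.2.1.2) *
          (1 / nm y.2.2.1 * (1 / nm y.2.2.2)))) * hE (EEf u.2.1) := by
        unfold hE
        rw [mul_sum]
      rw [e5]
      unfold tau
      push_cast
      ring
    rw [sum_congr rfl fun y _ => e4 y, ← sum_mul]
    congr 1
    have e7 : ∀ A : ℝ, ∑ y ∈ S Z ×ˢ S Z, (A * ((1 / nm y.1) * (1 / nm y.2))) =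
        A * (HS Z * HS Z) := by
      intro A
      rw [← mul_sum]
      congr 1
      unfold HS
      rw [sum_mul_sum, sum_product]
    have e6 : ∀ A : ℝ, ∑ y ∈ DG d g ×ˢ S Z ×ˢ S Z,
        (A * ((nm d * nm g / (nm y.1.1 ^ 2 * nm y.1.2)) * ((1 / nm y.2.1) * (1 / nm y.2.2)))) =
        A * ((∑ z ∈ DG d g, (nm d * nm g / (nm z.1 ^ 2 * nm z.2) : ℝ)) * (HS Z * HS Z)) := by
      intro A
      rw [← mul_sum]
      congr 1
      rw [sum_product, sum_mul]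
      exact sum_congr rfl fun z _ => e7 (nm d * nm g / (nm z.1 ^ 2 * nm z.2) : ℝ)
    rw [sum_product, sum_mul]
    exact sum_congr rfl fun t _ => e6 (1 / nm t : ℝ)
  have t0 := sum_primBall_Z hη0 hZ
  have t1 : (tau q : ℝ) ≤ C2 * Z ^ η := h2 Z hZ q ho.nq
  have t2 : (tau D : ℝ) ≤ C2 * Z ^ η := h2 Z hZ D ho.nD
  have t3 : (tau (d * g) : ℝ) ≤ C2 ^ 2 * (Z ^ η) ^ 2 := by
    have e5 : (tau (d * g) : ℝ) ≤ tau d * tau g := by exact_mod_cast tau_mul_le d g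
    calc (tau (d * g) : ℝ) ≤ tau d * tau g := e5
      _ ≤ (C2 * Z ^ η) * (C2 * Z ^ η) :=
          mul_le_mul (h2 Z hZ d ho.nd) (h2 Z hZ g ho.ng) (Nat.cast_nonneg _) (by positivity)
      _ = _ := by ring
  have t5 : (Cs.card : ℝ) ≤ 4 := by exact_mod_cast card_Cs
  have t6 : HS Z ≤ Cb * Z ^ η := by
    have h3 := HS_le hZ
    have h4 := E3M829.log_Z hη0 hZ
    rw [hCb]
    nlinarith
  have t7 := HS_nonneg Z
  have t8 : (0 : ℝ) ≤ ∑ t ∈ primBall ⌊Z⌋₊, (1 : ℝ) / nm t := sum_nonneg fun _ _ => by positivity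
  have t9 : (0 : ℝ) ≤ ∑ z ∈ DG d g, (nm d * nm g / (nm z.1 ^ 2 * nm z.2) : ℝ) :=
    sum_nonneg fun _ _ => by positivity
  have hLd : 0 ≤ hL d := hL0 d
  have h9 : (Z ^ η) ^ 9 = Z ^ ε := by
    rw [← Real.rpow_natCast, ← Real.rpow_mul hZ0.le]
    congr 1
    rw [hη]; push_cast; ring
  have hX0 : 0 ≤ Z ^ η := by positivity
  have hPb : ∑ v ∈ P, ψ v ≤ Ca * Cb ^ 2 * 4 * C2 * (C2 ^ 2) ^ 2 * C2 * Z ^ ε *
      (hL d * hE (EEf u.2.1)) := by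
    rw [e3, ← h9]
    calc ((∑ t ∈ primBall ⌊Z⌋₊, (1 : ℝ) / nm t) *
      ((∑ z ∈ DG d g, (nm d * nm g / (nm z.1 ^ 2 * nm z.2) : ℝ)) * (HS Z * HS Z))) *
      (hE (EEf u.2.1) * (Cs.card * (tau q * (tau (d * g) * (tau (d * g) * tau D)))))
        ≤ ((Ca * Z ^ η) * (hL d * ((Cb * Z ^ η) * (Cb * Z ^ η)))) *
      (hE (EEf u.2.1) * (4 * ((C2 * Z ^ η) * ((C2 ^ 2 * (Z ^ η) ^ 2) * ((C2 ^ 2 * (Z ^ η) ^ 2) *
        (C2 * Z ^ η)))))) := by gcongr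
      _ = _ := by ring
  refine s1.trans ((mul_le_mul_of_nonneg_left hPb (by positivity)).trans (le_of_eq ?_))
  ring

/-- **the fibre sums of the term `L`** -/
theorem fib_L {ε : ℝ} (hε : 0 < ε) : ∃ C : ℝ, 0 ≤ C ∧ ∀ Z : ℝ, 1 ≤ Z →
    ∀ (EE : Finset Eis) (EEf : Eis → Finset Eis) (DG : Eis → Eis → Finset (Eis × Eis))
      (hL : Eis → ℝ) (E1 B : ℝ) {ι : Type} (O : Finset ι) (x : ι → Cd)
      (K V V' rv X : ℝ) (H : Cd → ℝ) (Q : Eis → ℝ) (Hm : ℝ),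
      0 < K → 0 < V → 0 < V' → 0 < rv → 0 < X → 0 ≤ Hm →
      (∀ i ∈ O, 0 < H (x i) ∧ H (x i) ≤ Hm) →
      (∀ d, 0 ≤ Q d) →
      (∀ i ∈ O, rv * ((H (x i)) ^ (-(1 / 3) : ℝ) * (V * V') ^ (-(1 / 6) : ℝ)) ≤ Q (x i).d) →
      0 ≤ E1 → 0 ≤ B → (∀ d, 0 ≤ hL d) →
      (∀ i ∈ O, (x i).OK Z EE) → (∀ i ∈ O, (x i).e' ∈ EEf (x i).e) →
      (∀ i ∈ O, (nm (x i).t : ℝ) ≤ E1 ∧ (nm (x i).b : ℝ) ≤ B ∧ (nm (x i).b' : ℝ) ≤ B) →
      (∀ i ∈ O, ((x i).d', (x i).g') ∈ DG (x i).d (x i).g) →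
      (∀ i ∈ O, ∑ z ∈ DG (x i).d (x i).g, (nm (x i).d * nm (x i).g / (nm z.1 ^ 2 * nm z.2) : ℝ) ≤
        hL (x i).d) →
      (∀ i ∈ O, ∀ j ∈ O, (x i).U = (x j).U → (x i).V = (x j).V → i = j) →
      ∀ u : UT, ∑ i ∈ O.filter (fun i => (x i).U = u),
        (x i).val K V V' (H (x i)) rv X (x i).xk * (x i).extL K V V' (H (x i)) X ≤
        C * Z ^ ε * ((Hm * (V / V')) ^ (1 / 3 : ℝ) * (V' / K) *
          (E1 ^ 2 * B ^ 2 * hL u.1 * hE (EEf u.2.1))) * Pde K Q u.1 u.2.1 := by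
  obtain ⟨C, hC, h⟩ := fib_wL hε
  refine ⟨C, hC, ?_⟩
  intro Z hZ EE EEf DG hL E1 B ι O x K V V' rv X H Q Hm hK hV hV' hrv hX hHm hH hQ0 hQ hE1 hB hL0
    hOK hEE htb hDG hDG2 inj u
  have key := h Z hZ EE EEf DG hL E1 B O x hE1 hB hL0 hOK hEE htb hDG hDG2 inj u
  have hP := Cd.Pde_nonneg hK.le hQ0 u.1 u.2.1
  set c0 := (Hm * (V / V')) ^ (1 / 3 : ℝ) * (V' / K) with hc0
  have hc00 : 0 ≤ c0 := by positivity
  calc ∑ i ∈ O.filter (fun i => (x i).U = u),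
        (x i).val K V V' (H (x i)) rv X (x i).xk * (x i).extL K V V' (H (x i)) X
      ≤ ∑ i ∈ O.filter (fun i => (x i).U = u), (Pde K Q u.1 u.2.1 * c0) * (x i).wL := by
        refine sum_le_sum fun i hi => ?_
        obtain ⟨a1, a2⟩ := mem_filter.mp hi
        have h1 := (hOK i a1).val_extL_le Q hK hV hV' (hH i a1).1 hrv hX (hQ i a1)
        have h3 : (x i).d = u.1 := by rw [← a2]; rfl
        have h4 : (x i).e = u.2.1 := by rw [← a2]; rfl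
        rw [h3, h4] at h1
        refine h1.trans (mul_le_mul_of_nonneg_right (mul_le_mul_of_nonneg_left ?_ hP)
          (x i).wL_nonneg)
        rw [hc0]
        have hh := (hH i a1).1
        have hh2 := (hH i a1).2
        gcongr
    _ = (Pde K Q u.1 u.2.1 * c0) * ∑ i ∈ O.filter (fun i => (x i).U = u), (x i).wL := by
        rw [mul_sum]
    _ ≤ (Pde K Q u.1 u.2.1 * c0) * (C * Z ^ ε * (E1 ^ 2 * B ^ 2 * hL u.1 * hE (EEf u.2.1))) :=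
        mul_le_mul_of_nonneg_left key (mul_nonneg hP hc00)
    _ = _ := by ring

/-- all pairs `(d', g')` -/
lemma DG_all {η : ℝ} (hη : 0 < η) {Z : ℝ} (hZ : 1 ≤ Z) {d g : Eis} {G0 : ℝ}
    (hG : (nm d * nm g : ℝ) ≤ G0) :
    ∑ z ∈ S Z ×ˢ S Z, (nm d * nm g / (nm z.1 ^ 2 * nm z.2) : ℝ) ≤
      (200 * (1 + 1 / η)) ^ 2 * (Z ^ η) ^ 2 * G0 := by
  have t6 : HS Z ≤ (200 * (1 + 1 / η)) * Z ^ η := by
    have h3 := HS_le hZ
    have h4 := E3M829.log_Z hη hZ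
    nlinarith
  have t7 := HS_nonneg Z
  have hG0 : (0 : ℝ) ≤ nm d * nm g := by positivity
  have e1 : ∑ z ∈ S Z ×ˢ S Z, (nm d * nm g / (nm z.1 ^ 2 * nm z.2) : ℝ) ≤
      (nm d * nm g) * (HS Z * HS Z) := by
    unfold HS
    rw [sum_mul_sum, ← sum_product', mul_sum]
    refine sum_le_sum fun z hz => ?_
    obtain ⟨h1, h2⟩ := mem_product.mp hz
    have n1 := nmpos (Cd.pS h1).ne_zero
    have n2 := nmpos (Cd.pS h2).ne_zero
    have n3 : (1 : ℝ) ≤ nm z.1 := one_le_nmS h1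
    rw [div_eq_mul_one_div]
    refine mul_le_mul_of_nonneg_left ?_ hG0
    rw [div_mul_div_comm, one_mul]
    refine div_le_div_of_nonneg_left (by norm_num) (by positivity) ?_
    have h5 : (nm z.1 : ℝ) ≤ nm z.1 ^ 2 := by nlinarith
    exact mul_le_mul_of_nonneg_right h5 n2.le
  have hG00 : 0 ≤ G0 := hG0.trans hG
  calc _ ≤ (nm d * nm g) * (HS Z * HS Z) := e1
    _ ≤ G0 * (((200 * (1 + 1 / η)) * Z ^ η) * ((200 * (1 + 1 / η)) * Z ^ η)) := by gcongr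
    _ = _ := by ring

/-- pairs with `g' = g`, `N d ≤ 2 N d'` -/
lemma DG_cls {η : ℝ} (hη : 0 < η) {Z : ℝ} (hZ : 1 ≤ Z) {d g : Eis} (hg : g ≠ 0) :
    ∑ z ∈ ((S Z).filter (fun d' => (nm d : ℝ) ≤ 2 * nm d')) ×ˢ {g},
      (nm d * nm g / (nm z.1 ^ 2 * nm z.2) : ℝ) ≤ 2 * ((200 * (1 + 1 / η)) * Z ^ η) := by
  have t6 : HS Z ≤ (200 * (1 + 1 / η)) * Z ^ η := by
    have h3 := HS_le hZ
    have h4 := E3M829.log_Z hη hZ
    nlinarith
  refine le_trans ?_ (mul_le_mul_of_nonneg_left t6 (by norm_num))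
  rw [sum_product]
  simp only [sum_singleton]
  unfold HS
  rw [mul_sum]
  refine le_trans (sum_le_sum fun z hz => ?_) (sum_le_sum_of_subset_of_nonneg (filter_subset
    (fun d' => (nm d : ℝ) ≤ 2 * nm d') (S Z)) fun _ _ _ => by positivity)
  obtain ⟨h1, h2⟩ := mem_filter.mp hz
  have n1 := nmpos (Cd.pS h1).ne_zero
  have n2 := nmpos hg
  rw [div_le_iff₀ (by positivity)]
  have e1 : 2 * (1 / nm z : ℝ) * (nm z ^ 2 * nm g) = (2 * nm z) * nm g := by field_simp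
  rw [e1]
  exact mul_le_mul_of_nonneg_right h2 n2.le

end Crest.Agent.R017.E3T829
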