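import Crest.Agent.R017.E3Ug_829
import Crest.Agent.R017.E3T1_579

/-!
# Row 17, R8 (E3), the mode total through the cells (helper829)

* `SEc` : one side of one cell;  `SE_eq`, `SE_eq'`
* `Cd.PC` : the conditions of a cell
* `CI`, `OI` : the literal family;  `OI_OK`, `OI_PC`
* `MPT_cells` : `Σ_{q,t} MPTr ≤ C Z^ε (SFB + SFB')` from the bound of one cell and the fibre sums
-/

set_option autoImplicit false
set_option linter.unusedVariables false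

noncomputable section

open Finset
open scoped Classical ComplexConjugate

namespace Crest.Agent.R017.E3T829

open Crest.Agent.R012 Crest.Agent.R012.Eis Crest.Agent.R012.Div277
open Crest.Agent.R012.LS2 (S mem_S bl mem_bl)
open Crest.Agent.R012.Mob705 (pdiv mem_pdiv)
open Crest.Agent.R017.CM106 (CS FS)
open Crest.Agent.R017.C70 (JC OKJ)
open Crest.Agent.R017.GrB829 (IsC)
open Crest.Agent.R017.DgA829 (lc)
open Crest.Agent.R017.E1551 (nmpos)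
open Crest.Agent.R017.E3A164 (Yp Cs mem_Cs qu Ys)
open Crest.Agent.R017.E3M829 (TC)
open Crest.Agent.R012.Mob705 (pb mem_pb)
open Crest.Agent.R017.E3D579 (b0)
open Crest.Agent.R017.E3F548 (MM Kr pf gg cf₁ cf₂ Nq Cop MPTr Mc pc SR_prim mem_Ys' nm_cf_le)
open Crest.Agent.R017.E3T1579 (T3 SE UF CO WQ MPTr_le)
open Crest.Agent.R017.E3Sr290 (CellD cellOf Fac exists_fac)

open Cd (Pde)

/-- one side of one cell -/
def SEc (A Bw : ℕ) (M₀ : Eis) (ψ : Eis → ℂ) (K V V' : ℝ) (af : Eis → Eis → Eis → ℂ)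
    (wz : ℝ → ℂ) (x : Cd) : ℝ :=
  UF A Bw M₀ ψ (x.cell K V V' 1 1 1).KM ((x.cell K V V' 1 1 1).N1 * (x.cell K V V' 1 1 1).N2)
    (x.c * x.N) wz (x.g * x.d) (b0 (af x.d x.e) x.d x.e (x.q * x.c * x.g ^ 2)) x.m' x.a x.a'
    x.D x.E x.F

namespace Cd

/-- the conditions of a cell -/
structure PC (x : Cd) (b₀ K : ℝ) : Prop where
  size : (nm (x.M * x.q ^ 2 * x.t ^ 3) : ℝ) ≤ b₀ * K * nm x.sg
  qd : IsCoprime x.q (x.d * x.g)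
  qd' : IsCoprime x.q (x.d' * x.g')
  DF : IsCoprime (x.D * x.F) (x.m * x.m')
  cN : ∃ n, x.N = n * x.sg ∧ IsCoprime n (x.d * x.g)
  cN' : ∃ n, x.N' = n * x.sg ∧ IsCoprime n (x.d' * x.g')

lemma PC.swap {x : Cd} {b₀ K : ℝ} (h : x.PC b₀ K) : x.swap.PC b₀ K where
  size := h.size
  qd := h.qd'
  qd' := h.qd
  DF := by
    have := h.DF
    rw [mul_comm x.m x.m'] at this
    exact this
  cN := h.cN'
  cN' := h.cN

end Cd

section eqs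

variable {Z : ℝ} {EE : Finset Eis} {q t : Eis} {y y' : Yp} {b b' s sg a a' D E F : Eis}
  {K V V' : ℝ}

/-- the norms of the cell -/
lemma mk'_norms (h : (Cd.mk' q t y y' b b' s sg a a' D E F).OK Z EE) (hK : 0 < K) (hV : 0 < V)
    (hV' : 0 < V') :
    Kr K q t (MM q t y y' b b' s) / nm sg =
      ((Cd.mk' q t y y' b b' s sg a a' D E F).cell K V V' 1 1 1).KM ∧
    Nq V q y * Nq V' q y' * nm (cf₁ y y') * nm (cf₂ y y') / (nm a * nm a') =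
      ((Cd.mk' q t y y' b b' s sg a a' D E F).cell K V V' 1 1 1).N1 *
      ((Cd.mk' q t y y' b b' s sg a a' D E F).cell K V V' 1 1 1).N2 := by
  obtain ⟨nq, nt, nd, ne, nc, ng, nd', ne', nc', ng', nD, nE, nF⟩ := h.np
  have nr : (0 : ℝ) < nm (gg y y') := nmpos h.r.ne_zero
  have nM0 : (0 : ℝ) < nm (MM q t y y' b b' s) := by
    have h1 : IsPrim (MM q t y y' b b' s * sg) := h.M
    exact nmpos (left_ne_zero_of_mul h1.ne_zero)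
  have nsg : (0 : ℝ) < nm sg := by
    have h1 : IsPrim (MM q t y y' b b' s * sg) := h.M
    exact nmpos (right_ne_zero_of_mul h1.ne_zero)
  have na := nmpos h.a.ne_zero
  have na' := nmpos h.a'.ne_zero
  have hm1 : (nm (cf₁ y y') : ℝ) = nm y.1 * nm y.2.2.2 / nm (gg y y') := by
    have h1 : y.1 * y.2.2.2 = gg y y' * cf₁ y y' := h.e1
    have h2 := congrArg nm h1
    rw [nm_mul, nm_mul] at h2
    rw [eq_div_iff nr.ne']
    have h3 : (nm y.1 * nm y.2.2.2 : ℝ) = nm (gg y y') * nm (cf₁ y y') := by exact_mod_cast h2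
    linarith
  have hm2 : (nm (cf₂ y y') : ℝ) = nm y'.1 * nm y'.2.2.2 / nm (gg y y') := by
    have h1 : y'.1 * y'.2.2.2 = gg y y' * cf₂ y y' := h.e2
    have h2 := congrArg nm h1
    rw [nm_mul, nm_mul] at h2
    rw [eq_div_iff nr.ne']
    have h3 : (nm y'.1 * nm y'.2.2.2 : ℝ) = nm (gg y y') * nm (cf₂ y y') := by exact_mod_cast h2
    linarith
  unfold Cd.cell cellOf CellD.KM CellD.N1 CellD.N2 CellD.A CellD.A' CellD.m CellD.m'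
    CellD.Z CellD.Z' Kr Nq Cd.mk'
  simp only [nm_mul, Nat.cast_mul]
  rw [hm1, hm2]
  change (0 : ℝ) < nm q at nq
  change (0 : ℝ) < nm t at nt
  change (0 : ℝ) < nm y.1 at nd
  change (0 : ℝ) < nm y.2.2.1 at nc
  change (0 : ℝ) < nm y.2.2.2 at ng
  change (0 : ℝ) < nm y'.1 at nd'
  change (0 : ℝ) < nm y'.2.2.1 at nc'
  change (0 : ℝ) < nm y'.2.2.2 at ng'
  change (0 : ℝ) < nm a at na
  change (0 : ℝ) < nm a' at na'
  constructor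
  · field_simp
  · field_simp

lemma SE_eq (h : (Cd.mk' q t y y' b b' s sg a a' D E F).OK Z EE) (hK : 0 < K) (hV : 0 < V)
    (hV' : 0 < V') (A Bw : ℕ) (M₀ : Eis) (ψ : Eis → ℂ) (af : Eis → Eis → Eis → ℂ) (wz : ℝ → ℂ) :
    SE A Bw M₀ ψ (Kr K q t (MM q t y y' b b' s) / nm sg)
      (Nq V q y * Nq V' q y' * nm (cf₁ y y') * nm (cf₂ y y') / (nm a * nm a')) af wz q
      (MM q t y y' b b' s) y sg (cf₂ y y') a a' D E F =
    SEc A Bw M₀ ψ K V V' af wz (Cd.mk' q t y y' b b' s sg a a' D E F) := by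
  obtain ⟨h1, h2⟩ := mk'_norms h hK hV hV'
  unfold SE SEc
  rw [h1, h2]
  rfl

lemma SE_eq' (h : (Cd.mk' q t y y' b b' s sg a a' D E F).OK Z EE) (hK : 0 < K) (hV : 0 < V)
    (hV' : 0 < V') (A Bw : ℕ) (M₀ : Eis) (ψ : Eis → ℂ) (af : Eis → Eis → Eis → ℂ) (wz : ℝ → ℂ) :
    SE A Bw M₀ ψ (Kr K q t (MM q t y y' b b' s) / nm sg)
      (Nq V q y * Nq V' q y' * nm (cf₁ y y') * nm (cf₂ y y') / (nm a * nm a')) af wz q
      (MM q t y y' b b' s) y' sg (cf₁ y y') a' a D E F =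
    SEc A Bw M₀ ψ K V' V af wz (Cd.mk' q t y y' b b' s sg a a' D E F).swap := by
  obtain ⟨h1, h2⟩ := mk'_norms h hK hV hV'
  have e1 : ((Cd.mk' q t y y' b b' s sg a a' D E F).swap.cell K V' V 1 1 1).KM =
      ((Cd.mk' q t y y' b b' s sg a a' D E F).cell K V V' 1 1 1).KM := rfl
  have e2 : ((Cd.mk' q t y y' b b' s sg a a' D E F).swap.cell K V' V 1 1 1).N1 *
      ((Cd.mk' q t y y' b b' s sg a a' D E F).swap.cell K V' V 1 1 1).N2 =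
      ((Cd.mk' q t y y' b b' s sg a a' D E F).cell K V V' 1 1 1).N1 *
      ((Cd.mk' q t y y' b b' s sg a a' D E F).cell K V V' 1 1 1).N2 := by
    rw [mul_comm]
    rfl
  unfold SE SEc
  rw [h1, h2, e1, e2]
  rfl

end eqs

/-- the conditions of the indices -/
def CI (Pr : Yp → Yp → Prop) (EE : Finset Eis) (b₀ K : ℝ) (i : IX) : Prop :=
  (Pr i.2.2.1 i.2.2.2.1 ∧
    Cop (MM i.1 i.2.1 i.2.2.1 i.2.2.2.1 i.2.2.2.2.1 i.2.2.2.2.2.1 i.2.2.2.2.2.2.1) i.2.2.1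
      i.2.2.2.1 ∧
    (nm (MM i.1 i.2.1 i.2.2.1 i.2.2.2.1 i.2.2.2.2.1 i.2.2.2.2.2.1 i.2.2.2.2.2.2.1 * i.1 ^ 2 *
      i.2.1 ^ 3) : ℝ) ≤ b₀ * K) ∧
  CO EE i.1 i.2.2.1 i.2.2.2.1 i.2.2.2.2.2.2.2.2.2.2.1 i.2.2.2.2.2.2.2.2.2.2.2.2

/-- the literal family -/
def OI (Pr : Yp → Yp → Prop) (J : Finset (Eis × Eis)) (EE : Finset Eis) (E0 E1 R B Z b₀ K : ℝ) :
    Finset IX :=
  (IX0 (S R) (pb E1) (Ys J E0 R) (S B) (S (Z ^ 5))).filter (CI Pr EE b₀ K)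

section fam

variable {Pr : Yp → Yp → Prop} {J : Finset (Eis × Eis)} {EE : Finset Eis}
  {E0 E1 R B Z b₀ K : ℝ}

lemma S_sub {R Z : ℝ} (hR : 0 ≤ R) (hRZ : R ≤ Z) {z : Eis} (hz : z ∈ S R) : z ∈ S Z := by
  have h := (mem_S hR).1 hz
  exact (mem_S (hR.trans hRZ)).2 ⟨h.1.trans hRZ, h.2⟩

lemma Z_le5 (hZ : 1 ≤ Z) : Z ≤ Z ^ 5 := by
  calc Z = Z ^ 1 := (pow_one Z).symm
    _ ≤ Z ^ 5 := pow_le_pow_right₀ hZ (by norm_num)

/-- **the cells of the literal family are admissible** -/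
theorem OI_OK (hJ : OKJ J) (hZ : 1 ≤ Z) (hR0 : 0 ≤ R) (hRZ : R ≤ Z) (hB0 : 0 ≤ B) (hBZ : B ≤ Z)
    (hE1 : E1 ≤ Z) (hJ1 : ∀ x ∈ J, (nm x.1 : ℝ) ≤ Z) {i : IX}
    (hi : i ∈ OI Pr J EE E0 E1 R B Z b₀ K) : (cdI i).OK (Z ^ 5) EE := by
  obtain ⟨h0, hc⟩ := mem_filter.mp hi
  rw [mem_IX0] at h0
  obtain ⟨q, t, y, y', b, b', s, sg, a, a', D, E, F⟩ := i
  obtain ⟨k1, k2, k3, k4, k5, k6, k7, k8, k9, k10, k11, k12, k13⟩ := h0
  obtain ⟨-, hco⟩ := hc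
  simp only at k1 k2 k3 k4 k5 k6 k7 k8 k9 k10 k11 k12 k13 hco
  have hZ5 := Z_le5 hZ
  have hZ51 : 1 ≤ Z ^ 5 := hZ.trans hZ5
  have hZ0 : 0 ≤ Z := by linarith
  obtain ⟨⟨x, hx, hxy⟩, hy1, hy2, hyc, hyg⟩ := mem_Ys' hJ k3
  obtain ⟨⟨x', hx', hxy'⟩, hy1', hy2', hyc', hyg'⟩ := mem_Ys' hJ k4
  have hn1 : (nm y.1 : ℝ) ≤ Z := hxy ▸ hJ1 x hx
  have hn1' : (nm y'.1 : ℝ) ≤ Z := hxy' ▸ hJ1 x' hx'
  have hn2 : (nm y.2.2.2 : ℝ) ≤ Z := ((mem_S hR0).1 hyg).1.trans hRZ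
  have hn2' : (nm y'.2.2.2 : ℝ) ≤ Z := ((mem_S hR0).1 hyg').1.trans hRZ
  obtain ⟨c1, c2⟩ := nm_cf_le ⟨hy1.1, hy1.2.2.1⟩ ⟨hy1'.1, hy1'.2.2.1⟩
  have hZ2 : Z * Z ≤ Z ^ 5 := by
    calc Z * Z = Z ^ 2 := by ring
      _ ≤ Z ^ 5 := pow_le_pow_right₀ hZ (by norm_num)
  have d1 : (nm (cf₁ y y') : ℝ) ≤ Z ^ 5 := (c1.trans (by gcongr)).trans hZ2
  have d2 : (nm (cf₂ y y') : ℝ) ≤ Z ^ 5 := (c2.trans (by gcongr)).trans hZ2
  have yo : Cd.YO (Z ^ 5) EE y := ⟨(mem_S (by positivity)).2 ⟨hn1.trans hZ5, hy1.1, hy1.2.1⟩,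
    hco.e, hy2, hyc, S_sub hR0 (hRZ.trans hZ5) hyg, hco.sq⟩
  have yo' : Cd.YO (Z ^ 5) EE y' := ⟨(mem_S (by positivity)).2 ⟨hn1'.trans hZ5, hy1'.1, hy1'.2.1⟩,
    hco.e', hy2', hyc', S_sub hR0 (hRZ.trans hZ5) hyg', hco.sq'⟩
  have ht : t ∈ primBall ⌊Z ^ 5⌋₊ := by
    rw [mem_pb] at k2
    refine mem_primBall.mpr ⟨Nat.le_floor ?_, k2.2⟩
    exact (k2.1.trans hE1).trans hZ5
  obtain ⟨g1, g2, g3, g4, g5⟩ := StA828.gp_spec (y.1 * y.2.2.2) (hy1'.1.mul hy1'.2.2.1)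
  have p2 : cf₂ y y' ≠ 0 := IsPrim.ne_zero g2
  have p1 : cf₁ y y' ≠ 0 := by
    have e1 : y.1 * y.2.2.2 = gg y y' * cf₁ y y' := g3
    intro h0
    rw [h0, mul_zero] at e1
    exact (hy1.1.mul hy1.2.2.1).ne_zero e1
  have na : (nm a : ℝ) ≤ Z ^ 5 := by
    have h1 := ((mem_dvs p2).mp k9).2
    have h2 : nm a ≤ nm (cf₂ y y') := Div277.nm_le_of_dvd p2 h1
    have h3 : (nm a : ℝ) ≤ nm (cf₂ y y') := by exact_mod_cast h2
    exact h3.trans d2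
  have na' : (nm a' : ℝ) ≤ Z ^ 5 := by
    have h1 := ((mem_dvs p1).mp k10).2
    have h2 : nm a' ≤ nm (cf₁ y y') := Div277.nm_le_of_dvd p1 h1
    have h3 : (nm a' : ℝ) ≤ nm (cf₁ y y') := by exact_mod_cast h2
    exact h3.trans d1
  exact Cd.mk'_OK hZ51 (S_sub hR0 (hRZ.trans hZ5) k1) ht yo yo'
    (S_sub hB0 (hBZ.trans hZ5) k5) (S_sub hB0 (hBZ.trans hZ5) k6) k7 k8 k9 k10 na na' k11 k12 k13

lemma OI_PC {i : IX} (hi : i ∈ OI Pr J EE E0 E1 R B Z b₀ K) : (cdI i).PC b₀ K := by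
  obtain ⟨-, hc⟩ := mem_filter.mp hi
  obtain ⟨q, t, y, y', b, b', s, sg, a, a', D, E, F⟩ := i
  obtain ⟨⟨-, hcop, hsz⟩, hco⟩ := hc
  simp only at hcop hsz hco
  exact
    { size := by
        change (nm (MM q t y y' b b' s * sg * q ^ 2 * t ^ 3) : ℝ) ≤ b₀ * K * nm sg
        have e : MM q t y y' b b' s * sg * q ^ 2 * t ^ 3 =
            (MM q t y y' b b' s * q ^ 2 * t ^ 3) * sg := by ring
        rw [e, nm_mul]
        push_cast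
        exact mul_le_mul_of_nonneg_right hsz (Nat.cast_nonneg _)
      qd := hco.qd
      qd' := hco.qd'
      DF := hco.DF
      cN := ⟨_, rfl, hcop.1⟩
      cN' := ⟨_, rfl, hcop.2⟩ }

/-- the set of `(d, e)` -/
def RR (J : Finset (Eis × Eis)) (EE : Finset Eis) : Finset (Eis × Eis) := (J.image Prod.fst) ×ˢ EE

/-- the set of the variables of one side -/
def RUs (J : Finset (Eis × Eis)) (EE : Finset Eis) (Y : ℝ) : Finset UT :=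
  (J.image Prod.fst) ×ˢ EE ×ˢ S Y ×ˢ Cs ×ˢ S Y ×ˢ S Y ×ˢ S Y ×ˢ S Y

lemma OI_mem (hJ : OKJ J) (hZ : 1 ≤ Z) (hR0 : 0 ≤ R) (hRZ : R ≤ Z) (hB0 : 0 ≤ B) (hBZ : B ≤ Z)
    (hE1 : E1 ≤ Z) (hJ1 : ∀ x ∈ J, (nm x.1 : ℝ) ≤ Z) {i : IX}
    (hi : i ∈ OI Pr J EE E0 E1 R B Z b₀ K) :
    (((cdI i).d, (cdI i).e) ∈ RR J EE ∧ (cdI i).U ∈ RUs J EE (Z ^ 5)) ∧
      (((cdI i).d', (cdI i).e') ∈ RR J EE ∧ (cdI i).swap.U ∈ RUs J EE (Z ^ 5)) := by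
  have hk := OI_OK hJ hZ hR0 hRZ hB0 hBZ hE1 hJ1 hi
  obtain ⟨h0, hc⟩ := mem_filter.mp hi
  rw [mem_IX0] at h0
  obtain ⟨q, t, y, y', b, b', s, sg, a, a', D, E, F⟩ := i
  obtain ⟨k1, k2, k3, k4, k5, k6, k7, k8, k9, k10, k11, k12, k13⟩ := h0
  simp only at k3 k4
  obtain ⟨⟨x, hx, hxy⟩, -⟩ := mem_Ys' hJ k3
  obtain ⟨⟨x', hx', hxy'⟩, -⟩ := mem_Ys' hJ k4
  have m1 : y.1 ∈ J.image Prod.fst := mem_image.mpr ⟨x, hx, hxy⟩
  have m1' : y'.1 ∈ J.image Prod.fst := mem_image.mpr ⟨x', hx', hxy'⟩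
  have hks := hk.swap
  unfold RR RUs
  simp only [mem_product]
  exact ⟨⟨⟨m1, hk.e⟩, m1, hk.e, hk.q, mem_Cs.mpr hk.c, hk.g, hk.aS, hk.D, hk.F⟩,
    ⟨m1', hk.e'⟩, m1', hk.e', hk.q, mem_Cs.mpr hk.c', hk.g', hks.aS, hk.D, hk.F⟩

end fam

/-- the indices and the side functions -/
def sE1 (A Bw : ℕ) (K V V' : ℝ) (af : Eis → Eis → Eis → ℂ) (wq : Eis → Yp → ℝ → ℂ) (i : IX) : ℝ :=
  SEc A Bw (Mc (cdI i).c (cdI i).c') (pc (cdI i).c (cdI i).c') K V V' af (wq i.1 i.2.2.1) (cdI i)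

def sE2 (A Bw : ℕ) (K V V' : ℝ) (af : Eis → Eis → Eis → ℂ) (wq' : Eis → Yp → ℝ → ℂ) (i : IX) : ℝ :=
  SEc A Bw (Mc (cdI i).c (cdI i).c') (fun m => conj (pc (cdI i).c (cdI i).c' m)) K V' V af
    (wq' i.1 i.2.2.2.1) (cdI i).swap

/-- **the mode total through the cells** -/
theorem MPT_cells {ε : ℝ} (hε : 0 < ε) : ∃ C : ℝ, 1 ≤ C ∧ ∀ Z : ℝ, 1 ≤ Z →
    ∀ (Pr : Yp → Yp → Prop) (A Bw : ℕ) (J : Finset (Eis × Eis)) (om om' : Eis × Eis → ℂ)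
      (af : Eis → Eis → Eis → ℂ) (EE : Finset Eis) (E0 E1 R B b₀ K V V' rv X : ℝ)
      (wq wq' : Eis → Yp → ℝ → ℂ) (n : ℕ) (sd sd' : SF n) (Pc : Cd → Prop),
      1 < A → 1 < Bw → TC (T3 af) → (∀ d e, FS (af d e)) → OKJ J →
      (∀ d e, e ∉ EE → ∀ j, T3 af d e j = 0) → 0 < K → 0 ≤ R → R ≤ Z → 0 ≤ B → B ≤ Z → E1 ≤ Z →
      (∀ x ∈ J, (nm x.1 : ℝ) ≤ Z) → (∀ x ∈ J, (nm x.2 : ℝ) ≤ R) → 0 < V → 0 < V' → 0 < rv →
      0 < X → WQ J om E0 R wq → WQ J om' E0 R wq' →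
      sd.OK (Z ^ 5) Pc → sd'.OK (Z ^ 5) Pc →
      (∀ i ∈ OI Pr J EE E0 E1 R B Z b₀ K, 0 < sd.H (cdI i) ∧ 0 < sd'.H (cdI i).swap) →
      sd.Fib K V V' rv X (OI Pr J EE E0 E1 R B Z b₀ K) cdI →
      sd'.Fib K V' V rv⁻¹ X (OI Pr J EE E0 E1 R B Z b₀ K) (fun i => (cdI i).swap) →
      (∀ i ∈ OI Pr J EE E0 E1 R B Z b₀ K, Pc (cdI i) ∧ Pc (cdI i).swap) →
      (∀ i ∈ OI Pr J EE E0 E1 R B Z b₀ K,
        sE1 A Bw K V V' af wq i ≤ CellF sd K V V' X af (cdI i)) →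
      (∀ i ∈ OI Pr J EE E0 E1 R B Z b₀ K,
        sE2 A Bw K V V' af wq' i ≤ CellF sd' K V' V X af (cdI i).swap) →
      ∑ q ∈ S R, ∑ t ∈ pb E1, MPTr Pr A Bw K B V V' (Z ^ 5) J om om' (T3 af) E0 R b₀ q t ≤
        C * (Z ^ 5) ^ ε * (SFB sd af (RR J EE) (RUs J EE (Z ^ 5)) +
          SFB sd' af (RR J EE) (RUs J EE (Z ^ 5))) := by
  obtain ⟨C, hC, h⟩ := S_fib hε
  refine ⟨C, hC, ?_⟩
  intro Z hZ Pr A Bw J om om' af EE E0 E1 R B b₀ K V V' rv X wq wq' n sd sd' Pc hA hB hT haf hJ hEE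
    hK hR0 hRZ hB0 hBZ hE1 hJ1 hJ2 hV hV' hrv hX hw hw' hs hs' hH hF hF' hPc hu hu'
  have hZ5 : 1 ≤ Z ^ 5 := hZ.trans (Z_le5 hZ)
  set O := OI Pr J EE E0 E1 R B Z b₀ K with hO
  have hOK : ∀ i ∈ O, (cdI i).OK (Z ^ 5) EE := fun i hi =>
    OI_OK hJ hZ hR0 hRZ hB0 hBZ hE1 hJ1 hi
  have key := h (Z ^ 5) hZ5 EE O cdI K V V' rv X af n sd sd' Pc (RR J EE) (RUs J EE (Z ^ 5))
    (sE1 A Bw K V V' af wq) (sE2 A Bw K V V' af wq') hK hV hV' hrv hs hs' hF hF'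
    (fun i hi => ⟨hOK i hi, hPc i hi⟩)
    (fun i hi => ⟨(hOK i hi).fac_nonneg hK hV hV' (hH i hi).1 hX,
      (hOK i hi).swap.fac_nonneg hK hV' hV (hH i hi).2 hX⟩)
    (fun i hi => ⟨haf _ _, haf _ _⟩)
    (fun i hi => OI_mem hJ hZ hR0 hRZ hB0 hBZ hE1 hJ1 hi) hu hu'
  refine le_trans ?_ key
  -- the nested sum
  set ρ' : IX → ℝ := fun i => if 0 < (cdI i).rho rv then (cdI i).rho rv else 1 with hρ'
  have hρ'0 : ∀ i, 0 < ρ' i := by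
    intro i
    simp only [hρ']
    split_ifs with h0
    · exact h0
    · norm_num
  have s1 : ∑ q ∈ S R, ∑ t ∈ pb E1,
      MPTr Pr A Bw K B V V' (Z ^ 5) J om om' (T3 af) E0 R b₀ q t ≤
      ∑ i ∈ IX0 (S R) (pb E1) (Ys J E0 R) (S B) (S (Z ^ 5)), if CI Pr EE b₀ K i then
        (cdI i).om0 K V V' * ((cdI i).rho rv * sE1 A Bw K V V' af wq i +
          ((cdI i).rho rv)⁻¹ * sE2 A Bw K V V' af wq' i) else 0 := by
    rw [sum_IX0]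
    refine sum_le_sum fun q hq => sum_le_sum fun t ht => ?_
    have htp : IsPrim t := by
      rw [mem_pb] at ht
      exact ht.2
    refine (MPTr_le (A := A) (Bw := Bw) (B := B) (b₀ := b₀) hA hB hT haf hJ hEE hK hZ hR0 hRZ hJ1
      hJ2 hV hV' hq htp hw hw' Pr
      (ρ := fun y y' b b' s sg a a' D E F => ρ' (q, t, y, y', b, b', s, sg, a, a', D, E, F))
      (fun y y' b b' s sg a a' D E F => hρ'0 _)).trans (le_of_eq ?_)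
    refine sum_congr rfl fun y hy => sum_congr rfl fun y' hy' => sum_congr rfl fun b hb =>
      sum_congr rfl fun b' hb' => sum_congr rfl fun s hs => sum_congr rfl fun sg hsg =>
      sum_congr rfl fun a ha => sum_congr rfl fun a' ha' => sum_congr rfl fun D hD =>
      sum_congr rfl fun E hE => sum_congr rfl fun F hF => ?_
    by_cases hc : CI Pr EE b₀ K (q, t, y, y', b, b', s, sg, a, a', D, E, F)
    · have hmem : (q, t, y, y', b, b', s, sg, a, a', D, E, F) ∈ O := by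
        rw [hO]
        unfold OI
        rw [mem_filter, mem_IX0]
        exact ⟨⟨hq, ht, hy, hy', hb, hb', hs, hsg, ha, ha', hD, hE, hF⟩, hc⟩
      have hok := hOK _ hmem
      have hρ1 : ρ' (q, t, y, y', b, b', s, sg, a, a', D, E, F) =
          (cdI (q, t, y, y', b, b', s, sg, a, a', D, E, F)).rho rv := by
        simp only [hρ']
        rw [if_pos (Cd.rho_pos hok hrv)]
      rw [if_pos hc]
      unfold CI at hc
      rw [if_pos hc, hρ1]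
      have e1 := Cd.mk'_om0 hok hK hV hV'
      have e2 := SE_eq hok hK hV hV' A Bw (Mc y.2.2.1 y'.2.2.1) (pc y.2.2.1 y'.2.2.1) af (wq q y)
      have e3 := SE_eq' hok hK hV hV' A Bw (Mc y.2.2.1 y'.2.2.1)
        (fun m => conj (pc y.2.2.1 y'.2.2.1 m)) af (wq' q y')
      rw [e2, e3, e1]
      rfl
    · rw [if_neg hc]
      unfold CI at hc
      rw [if_neg hc]
  refine s1.trans (le_of_eq ?_)
  rw [hO]
  unfold OI
  rw [sum_filter]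

end Crest.Agent.R017.E3T829
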