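import Crest.Agent.R017.ExRed_848
import Crest.Agent.R017.ExpC_702
import Crest.Agent.R017.ProvE_71
import Crest.Agent.R012.Spec_T_411
import Crest.Agent.R012.CharInst_766

/-!
# Row 17, exceptional class: reduction to principal Möbius character (helper848), part 2

* `BG_shift` : a constant shift of the length does not change the exponent
* `NPm_red_iff` : the reduced Möbius character at `k` is principal iff `k` is a cube
* `Rc_red_BG`, `prov_red` : the bundle for `π` from the bundle for `red ∘ π`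
-/

set_option autoImplicit false

noncomputable section

open Complex
open scoped ComplexConjugate

namespace Crest.Agent.R017.Red848

open Crest.Agent.R012 Crest.Agent.R012.Eis Crest.Agent.R012.LS2 Crest.Agent.R012.Gauss880
open Crest.Agent.R017.CM106 Crest.Agent.R017.FE47 Crest.Agent.R017.End699
open Crest.Agent.R017.Sup271
open Crest.Agent.R017.XG702 (Pcs BG Near_mono Gran_mono)
open Crest.Agent.R017.ER911
open Crest.Agent.R017.B770
open Crest.Agent.R017.Prov71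
open Crest.Agent.R017.XHB411
open Crest.Agent.R017.HP842 (UT Pc pc)

section shift

variable {Lam Pc τ : Type*} [DecidableEq τ] {D : Pcs Pc τ}

/-- **a constant shift of the length** -/
theorem BG_shift {Ψ Φ : Lam → ℝ → List Pc → ℝ} (c : Lam → ℝ)
    (H : ∀ lam l ps, Ψ lam l ps ≤ Φ lam (l + c lam) ps) {κ : ℝ} {u : List ℝ} {w : τ → ℝ} {e : ℝ}
    (h : BG D Φ κ u w e) : BG D Ψ κ u w e := by
  intro ε hε
  obtain ⟨δ, hδ, H'⟩ := h ε hε
  refine ⟨δ / 2, by positivity, fun lam N B => ?_⟩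
  obtain ⟨δ', hδ', X₀, hX₀, H1⟩ := H' lam N B
  refine ⟨δ', hδ', max X₀ (Real.exp (2 * |c lam| / δ)), lt_of_lt_of_le hX₀ (le_max_left _ _), ?_⟩
  intro X hX k us gs hk hn hg hgood
  have hX1 : X₀ ≤ X := (le_max_left _ _).trans hX
  have hX2 : Real.exp (2 * |c lam| / δ) ≤ X := (le_max_right _ _).trans hX
  have hX3 : 1 < X := lt_of_lt_of_le hX₀ hX1
  have hX0 : 0 < X := by linarith
  have hlog : 0 < Real.log X := Real.log_pos hX3
  have h1 : 2 * |c lam| / δ ≤ Real.log X := (Real.le_log_iff_exp_le hX0).2 hX2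
  have h2 : |c lam / Real.log X| ≤ δ / 2 := by
    rw [abs_div, abs_of_pos hlog, div_le_iff₀ hlog]
    rw [div_le_iff₀ hδ] at h1
    linarith
  have h3 : k * Real.log X + c lam = (k + c lam / Real.log X) * Real.log X := by
    field_simp
  refine (H lam _ _).trans ?_
  rw [h3]
  refine H1 X hX1 _ us gs ?_ (Near_mono hn (by linarith)) (Gran_mono hg (by linarith) le_rfl) hgood
  calc |k + c lam / Real.log X - κ| = |(k - κ) + c lam / Real.log X| := by congr 1; ring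
    _ ≤ |k - κ| + |c lam / Real.log X| := abs_add_le _ _
    _ ≤ δ := by linarith

end shift

/-- comparison of exponents -/
lemma ex_le_ex {Lam Pc : Type*} {D : Pcs Pc Kd} {Ψ Φ : Lam → ℝ → List Pc → ℝ} (hΦ : Pinv Φ)
    (ht : Triv D Φ) {κ : ℝ} {Y : Multiset ℝ} {m a : ℝ} (hκ : 0 ≤ κ) (hY : Ok Y m a)
    (H : ∀ e, BG D Φ κ Y.toList (wt m a) e → BG D Ψ κ Y.toList (wt m a) e) :
    ex D Ψ κ Y m a ≤ ex D Φ κ Y m a := by
  have h1 := ex_spec hΦ ht hκ (okl_of hY)
  rw [Multiset.coe_toList] at h1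
  exact ex_le' (ex_nonneg _ _ _ _) (H _ h1)

/-! ### cubes -/

/-- **the reduced Möbius character** -/
theorem NPm_prin_iff {n : Eis} (hn : n ≠ 0) {k : Eis} (hk : k ≠ 0) :
    NPm n (prin0 n) 0 k ↔ T411.NCube k := by
  constructor
  · rintro (h | ⟨a, ha, hc, hne⟩)
    · exact absurd rfl h
    · refine ⟨hk, fun m hm => hne ?_⟩
      have h1 : IsCoprime a n := hc.of_mul_right_left
      have h2 : IsCoprime a k := hc.of_mul_right_right.of_mul_right_right
      have h3 : IsCoprime m a := by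
        have : IsCoprime a (m ^ 3) := by rw [← hm]; exact h2
        exact ((IsCoprime.pow_right_iff (by norm_num)).1 this).symm
      show prin0 n a * sy k a = 1
      unfold End699.prin0
      rw [if_pos h1, hm, Char766.sy_cube_left ha h3, mul_one]
  · rintro ⟨-, hcube⟩
    have h9 : (9 : Eis) ≠ 0 := by norm_num
    obtain ⟨b, hb, hb1, hb2, hb3⟩ := Char766.exists_sy_ne_one Char766.suppl hk
      (fun ⟨t, ht⟩ => hcube t ht) (mul_ne_zero hn (mul_ne_zero h9 hk))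
    refine Or.inr ⟨b, hb, hb1, ?_⟩
    show prin0 n b * sy k b ≠ 1
    unfold End699.prin0
    rw [if_pos hb1.of_mul_right_left, one_mul]
    exact hb3

theorem NPm_red_iff {P : DPar} (hn : P.n ≠ 0) {k : Eis} (hk : k ≠ 0) :
    NPm (red P).n (red P).ψ (red P).l₂ k ↔ T411.NCube k := NPm_prin_iff hn hk

/-! ### the bundle -/

variable {Lam : Type*} {π : Lam → DPar} {h : ℝ → ℝ}

/-- `R` of `P` from `R` of `red P`, any sets of frequencies -/
theorem RQ_BG (hP : ∀ lam, (π lam).OK) (hE : ∀ lam, Exc (π lam)) {Q Q' : Lam → Eis → Prop}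
    (hQ : ∀ lam k₀, Sh (π lam) k₀ → ∀ k, k ≠ 0 → Q lam k → Q' lam (k * k₀ ^ 2)) {κ : ℝ}
    {u : List ℝ} {w : Kd → ℝ} {e : ℝ}
    (H : BG Dq (fun lam l ps => RQ (Q' lam) h l (ps.map (Pq.pc (red (π lam))))) κ u w e) :
    BG Dq (fun lam l ps => RQ (Q lam) h l (ps.map (Pq.pc (π lam)))) κ u w e := by
  choose k₀ hk₀ using fun lam => exists_sh (hP lam).ψ (hE lam)
  exact BG_shift (fun lam => Real.log (nm (k₀ lam ^ 2)))
    (fun lam l ps => RQ_red' (hk₀ lam) (hP lam).φ (hP lam).ψ (hQ lam _ (hk₀ lam)) h l ps) H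

/-- `R` of `red P` from `R` of `P`, any sets of frequencies -/
theorem RQ_BG' (hP : ∀ lam, (π lam).OK) (hE : ∀ lam, Exc (π lam)) {Q Q' : Lam → Eis → Prop}
    (hQ : ∀ lam k₀, Sh (π lam) k₀ → ∀ k, k ≠ 0 → Q lam k → Q' lam (k * k₀)) {κ : ℝ}
    {u : List ℝ} {w : Kd → ℝ} {e : ℝ}
    (H : BG Dq (fun lam l ps => RQ (Q' lam) h l (ps.map (Pq.pc (π lam)))) κ u w e) :
    BG Dq (fun lam l ps => RQ (Q lam) h l (ps.map (Pq.pc (red (π lam))))) κ u w e := by
  choose k₀ hk₀ using fun lam => exists_sh (hP lam).ψ (hE lam)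
  exact BG_shift (fun lam => Real.log (nm (k₀ lam)))
    (fun lam l ps => RQ_red (hk₀ lam) (hP lam).φ (hP lam).ψ (hQ lam _ (hk₀ lam)) h l ps) H

/-- box functionals -/
theorem BQ_BG (hP : ∀ lam, (π lam).OK) (hE : ∀ lam, Exc (π lam)) {Q Q' : Lam → Eis → Prop}
    (hQ : ∀ lam k₀, Sh (π lam) k₀ → ∀ k, k ≠ 0 → Q lam k → Q' lam (k * k₀ ^ 2)) {κ : ℝ}
    {u : List ℝ} {w : Kd → ℝ} {e : ℝ}
    (H : BG Dq (fun lam l ps => BQ (Q' lam) h l (ps.map (Pq.pc (red (π lam))))) κ u w e) :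
    BG Dq (fun lam l ps => BQ (Q lam) h l (ps.map (Pq.pc (π lam)))) κ u w e := by
  choose k₀ hk₀ using fun lam => exists_sh (hP lam).ψ (hE lam)
  exact BG_shift (fun lam => Real.log (nm (k₀ lam ^ 2)))
    (fun lam l ps => BQ_red' (hk₀ lam) (hP lam).φ (hP lam).ψ (hQ lam _ (hk₀ lam)) h l ps) H

/-- **complete second moments** -/
theorem Rc_BG (hP : ∀ lam, (π lam).OK) (hE : ∀ lam, Exc (π lam)) {κ : ℝ}
    {u : List ℝ} {w : Kd → ℝ} {e : ℝ}
    (H : BG Dq (fun lam => Rc (red (π lam)) h) κ u w e) : BG Dq (fun lam => Rc (π lam) h) κ u w e :=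
  RQ_BG hP hE (Q := fun lam => (π lam).NP2) (Q' := fun lam => (red (π lam)).NP2)
    (fun _ _ hs _ _ hk => NP2_red' hs hk) H

theorem Rc_BG' (hP : ∀ lam, (π lam).OK) (hE : ∀ lam, Exc (π lam)) {κ : ℝ}
    {u : List ℝ} {w : Kd → ℝ} {e : ℝ}
    (H : BG Dq (fun lam => Rc (π lam) h) κ u w e) : BG Dq (fun lam => Rc (red (π lam)) h) κ u w e :=
  RQ_BG' hP hE (Q := fun lam => (red (π lam)).NP2) (Q' := fun lam => (π lam).NP2)
    (fun _ _ hs _ _ hk => NP2_red hs hk) H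

/-- **complete box functionals** -/
theorem Bc_BG (hP : ∀ lam, (π lam).OK) (hE : ∀ lam, Exc (π lam)) {κ : ℝ}
    {u : List ℝ} {w : Kd → ℝ} {e : ℝ}
    (H : BG Dq (fun lam => Bc (red (π lam)) h) κ u w e) : BG Dq (fun lam => Bc (π lam) h) κ u w e :=
  BQ_BG hP hE (Q := fun lam => (π lam).NP2) (Q' := fun lam => (red (π lam)).NP2)
    (fun _ _ hs _ _ hk => NP2_red' hs hk) H

/-- **exponents of the complete second moments** -/
theorem ex_Rc_le (hP : ∀ lam, (π lam).OK) (hE : ∀ lam, Exc (π lam)) {c : ℝ} (hpu : PU h c)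
    {κ : ℝ} {Y : Multiset ℝ} {m a : ℝ} (hκ : 0 ≤ κ) (hY : Ok Y m a) :
    ex Dq (fun lam => Rc (π lam) h) κ Y m a ≤ ex Dq (fun lam => Rc (red (π lam)) h) κ Y m a := by
  refine ex_le_ex (pinv_Rc (fun lam => red (π lam)) h) (fun κ u m a h1 h2 => ?_) hκ hY
    fun e he => Rc_BG hP hE he
  obtain ⟨e, he⟩ := triv_Rc hP hpu κ u m a h1 h2
  exact ⟨e, Rc_BG' hP hE he⟩

/-- **the bundle for exceptional `π`** from the bundle for `red ∘ π` -/
theorem prov_red {θ : ℝ} (hθ : 1 / 2 < θ) (hθ1 : θ ≤ 1) (hPF : PF Set.univ θ) {c : ℝ}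
    (hpu : PU h c) (hP : ∀ lam, (π lam).OK) (hE : ∀ lam, Exc (π lam)) {r s s₀ bc : EF}
    (H : ProvE θ r s s₀ (ex Dq (fun lam => Rc (red (π lam)) h)) bc) :
    ProvE θ r s s₀ (ex Dq (fun lam => Rc (π lam) h)) (ex Dq (fun lam => Bc (π lam) h)) where
  rules := H.rules
  lb := H.lb
  lv := H.lv
  rem := H.rem
  cpl :=
    { le := fun κ Y m a E hκ hY h1 =>
        (ex_Rc_le hP hE hpu hκ hY).trans (H.cpl.le κ Y m a E hκ hY h1) }
  box := ExpC702.expBoxC_702 hθ hθ1 hPF hpu hP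

end Crest.Agent.R017.Red848
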