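import Crest.Agent.R017.LfP_986
import Crest.Agent.R017.E3Fw_579

/-!
# Row 17, class E: the frame `FrH` of the Gram error at the reduced data (helper986)

* `T9` : the top of the exact square, `T9 ≤ T5`, no loss of the own family at `T9`
* `cba_9` : the T-claims `CBA` at `(K5, T9)`, `D5X`, loss `3/4 d b₀`
* **`frH_E`** : helper579's `FrH` at `red ∘ π` on `ParS A d`, `LS0 d`
-/

set_option autoImplicit false

noncomputable section

open Set

namespace Crest.Agent.R017.LfX986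

open Crest.Agent.R012 Crest.Agent.R012.Eis
open Crest.Agent.R017.FE47 (PU cx)
open Crest.Agent.R017.Prov71 Crest.Agent.R017.ER911 Crest.Agent.R017.SC777
open Crest.Agent.R017.B770 Crest.Agent.R017.E5B71 Crest.Agent.R017.E5L770
open Crest.Agent.R017.ExP960 (IX5 prX ZR)
open Crest.Agent.R017.P1t54 (ParS LS0 parOK_Sq5)
open Crest.Agent.R017.P1X960
open Crest.Agent.R017.P10X764
open Crest.Agent.R017.TM708 (T5 K5 R5)
open Crest.Agent.R017.TK708 (FE2G AllT)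
open Crest.Agent.R017.D5X939 (D5X D5X_compact)
open Crest.Agent.R017.NrX986 (bN_mem bR_mem Tf1)
open Crest.Agent.R017.Red848 (red Exc red_ok)
open Crest.Agent.R017.PX764 (Dk)
open Crest.Agent.R017.XS0298 (S0K)
open Crest.Agent.R017.LfP986 (npm_one sum_bR T5_bR r5_bN top5_le btl_of)
open Crest.Agent.R017.E3Nx744 (CBA thK cba_K)
open Crest.Agent.R017.P10146 (hx4_of)

/-- the top of the exact square -/
def T9 (b : Fin 5 → ℝ) : ℝ :=
  min (2 * (b 1 + b 2 + b 3) - b 0) (3 / 4 * (b 1 + b 2 + b 3)) + 11 / 5 * b 4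

lemma T9_cont : Continuous T9 := by unfold T9; fun_prop

lemma T9_le {b : Fin 5 → ℝ} (h : 0 ≤ b 4) : T9 b ≤ T5 b := by
  unfold T9 TM708.T5
  linarith

lemma K5_cont : Continuous K5 := by unfold TM708.K5; fun_prop

lemma K5_bR (p : IX5 → ℝ) : K5 (bR p) = K5 (bN p) := by
  unfold TM708.K5
  rw [sum_bR]
  rfl

lemma T9_bR (p : IX5 → ℝ) : T9 (bR p) = T9 (bN p) := by
  unfold T9
  rw [sum_bR]
  rfl

lemma T9_bN (p : IX5 → ℝ) : T9 (bN p) = top5 (prX p) := rfl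

lemma K5_bN (p : IX5 → ℝ) : K5 (bN p) = max (cκ (prX p)) (5 / 4 * cN (prX p)) := rfl

variable {A d : ℝ}

/-- no loss of the own family at the top -/
lemma thK_bN (hd : 0 ≤ d) (hd1 : d ≤ 1 / 8) (hA1 : 16 * (1 - A) ≤ d) {p : IX5 → ℝ}
    (hp : prX p ∈ ParS A d) : thK K5 T9 (bN p) = 0 := by
  refine max_eq_left ?_
  have h := hx4_of hd hd1 hA1 hp
  have e1 := K5_bN p
  have e2 := T9_bN p
  have h1 : cκ (prX p) ≤ K5 (bN p) := by rw [e1]; exact le_max_left _ _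
  have h2 : 5 / 4 * cN (prX p) ≤ K5 (bN p) := by rw [e1]; exact le_max_right _ _
  have h3 : top5 (prX p) ≤ 2 * cN (prX p) - cκ (prX p) + 11 / 5 * cx' (prX p) := by
    unfold E5L770.top5
    linarith [min_le_left (2 * cN (prX p) - cκ (prX p)) (3 / 4 * cN (prX p))]
  have h4 : top5 (prX p) ≤ 3 / 4 * cN (prX p) + 11 / 5 * cx' (prX p) := by
    unfold E5L770.top5
    linarith [min_le_right (2 * cN (prX p) - cκ (prX p)) (3 / 4 * cN (prX p))]
  have e3 : bN p 1 + bN p 2 + bN p 3 = cN (prX p) := rfl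
  have e4 : bN p 4 = cx' (prX p) := rfl
  rw [e2, e3, e4]
  rcases h with h | h <;> linarith

lemma thK_bR (p : IX5 → ℝ) : thK K5 T9 (bR p) = thK K5 T9 (bN p) := by
  unfold E3Nx744.thK
  rw [sum_bR, T9_bR, K5_bR]
  rfl

variable {Λ : Type*} {π : Λ → DPar} {h : ℝ → ℝ} {c₀ : ℝ}

/-- **the T-claims at `(K5, T9)`** -/
theorem cba_9 (hpu : PU h c₀) (hP : ∀ lam, (π lam).OK) (hE : ∀ lam, Exc (π lam)) (hd : 0 ≤ d)
    (hAll : AllT d (ex Dq fun lam => S0K Dk (red (π lam)) h))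
    (hFE : FE2G (ex Dq fun lam => S0K Dk (red (π lam)) h) D5X K5 T5 fun b => 3 / 4 * d * b 0) :
    CBA (fun lam => red (π lam)) h Dk K5 T9 D5X fun b => 3 / 4 * d * b 0 :=
  cba_K (π := fun lam => red (π lam)) hpu (fun lam => red_ok (hP lam) (hE lam)) hAll K5_cont
    T9_cont D5X_compact (fun b hb => hb.1.x0) (ℓ := fun b => 3 / 4 * d * b 0) (by fun_prop)
    (fun b hb => mul_nonneg (by linarith) hb.1.k0)
    fun b hb v z₁ z₂ z₃ w h0 h1 h2 h3 h4 h5 h6 h7 h8 h9 =>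
      hFE b hb v z₁ z₂ z₃ w h0 h1 h2 h3 h4 h5 h6 h7 h8 (by linarith [T9_le hb.1.x0])

/-- **helper579's `FrH` at the reduced data** -/
theorem frH_E (hpu : PU h c₀) (hP : ∀ lam, (π lam).OK) (hE : ∀ lam, Exc (π lam))
    (hd : 0 ≤ d) (hd1 : d ≤ 1 / 42) (hA : 9 / 10 ≤ A) (hA0 : A ≤ 1) (hA1 : 16 * (1 - A) ≤ d)
    (hAll : AllT d (ex Dq fun lam => S0K Dk (red (π lam)) h))
    (hFE : FE2G (ex Dq fun lam => S0K Dk (red (π lam)) h) D5X K5 T5 fun b => 3 / 4 * d * b 0)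
    {Rh : ℝ} (hRh0 : 0 ≤ Rh) (hRh : ∀ u, cx h u ≠ 0 → |u| ≤ Rh) :
    E3Fw579.FrH (fun lam => red (π lam)) h c₀ Rh (1 / 64) (d / 4) (17 / 100) (ParS A d) D5X
      (fun b => 3 / 4 * d * b 0) K5 T9 Tf1 (LS0 d) where
  hpu := hpu
  hP := fun lam => red_ok (hP lam) (hE lam)
  hex := fun lam => npm_one (π lam)
  hRh0 := hRh0
  hRh := hRh
  he0 := by norm_num
  he0' := le_rfl
  hc0 := by linarith
  hc1 := by linarith
  hPar := fun p hp => parOK_Sq5 hA hp
  hDN := fun p hp _ => bN_mem hd (by linarith) hA1 hp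
  hDR := fun p hp hz => bR_mem hd (by linarith) hA1 hp hz
  hR5 := fun p hp _ => r5_bN hd hd1 hA1 hp
  hKN := fun p _ _ => K5_bN p
  hKR := fun p _ _ => (K5_bR p).trans (K5_bN p)
  hTN := fun p _ _ _ _ _ _ _ => (min_le_left _ _).trans (T9_bN p).ge
  hTR := fun p _ _ _ _ _ _ _ => (min_le_left _ _).trans ((T9_bR p).trans (T9_bN p)).ge
  hcb := cba_9 hpu hP hE hd hAll hFE
  hL0 := fun p hp _ => by
    have h1 := thK_bN hd (by linarith) hA1 hp
    have h2 : (0 : ℝ) ≤ 3 / 4 * d * cκ (prX p) := by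
      have := LfP986.κ_nonneg hp
      positivity
    have e : FrX579.lmX (fun b => 3 / 4 * d * b 0) K5 T9 p = 3 / 4 * d * cκ (prX p) := by
      unfold FrX579.lmX
      rw [thK_bR, h1]
      show max 0 (max (0 + 3 / 4 * d * cκ (prX p)) (0 + 3 / 4 * d * cκ (prX p))) = _
      rw [max_self, zero_add, max_eq_right h2]
    rw [e]
    exact le_rfl
  hbt := btl_of hd hd1 hA hA0 hA1

end Crest.Agent.R017.LfX986
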