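import Crest.Agent.R017.XCol_298

/-!
# Row 17, provider: principal amplifier, cube-free `k`, restricted form (helper298)

* `colPx` : as `Col298.colP`, for a set `Q` of cube-free `k` where the smooth pieces are not
  principal and the amplifier is principal
-/

set_option autoImplicit false

noncomputable section

open Complex
open scoped ComplexConjugate ContDiff

namespace Crest.Agent.R017.Colx298

open Crest.Agent.R012 Crest.Agent.R012.Eis Crest.Agent.R012.LS2 Crest.Agent.R012.Gauss880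
open Crest.Agent.R012.Div277 Crest.Agent.R012.PSer47
open Crest.Agent.R012.Weight600 (osc norm_osc)
open Crest.Agent.R017.CM106 Crest.Agent.R017.FE47 Crest.Agent.R017.End699
open Crest.Agent.R017.XG702 (Pcs BG Near_length)
open Crest.Agent.R017.B770 Crest.Agent.R017.Prov71
open Crest.Agent.R017.HP842 (UT Pc pc uv)
open Crest.Agent.R017.Sup271 (NPm)
open Crest.Agent.R017.Lbc298 (const_le_rpow near_sum prod_map_mono prod_map_nonneg)
open Crest.Agent.R017.Col298 (isChar_XK1 vk sum_vk sum_nl near_lump prod_bd RQ_le)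

/-- **lumps at a bounded `k`** -/
theorem lump_bd {h : ℝ → ℝ} {c₀ : ℝ} (hh : PU h c₀) {P : DPar} (hP : P.OK)
    {ε : ℝ} (hε : 0 < ε) (K : ℝ) :
    ∃ C : ℝ, 0 ≤ C ∧ ∀ k : Eis, k ≠ 0 → NPm P.n P.ψ P.l₂ k → (nm k : ℝ) ≤ K → ∀ p : Pq, p.kd = .mo → p.u = .one →
      ‖CS (pc h (p.pc P)) k‖ ≤ C * (nm p.d : ℝ) ^ ε * (1 + |p.t|) ^ 4 := by
  classical
  obtain ⟨C1, hC1, h1⟩ := Two939.PSfix (cd_cx hh.cd) (cs_cx hh.cs) P.l₂
  obtain ⟨C2, hC2, h2⟩ := tau_le_rpow hε
  refine ⟨C2 * (C1 * ((nm P.n : ℝ) * (81 * max K 0)) ^ 2), by positivity, ?_⟩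
  intro k hk hNk hkK p hkd hu
  have hχ : HC (P.n * (9 * k)) (fun b => P.ψ b * sy k b) := Sup271.HC.mul_sy hP.ψ hk
  have hX := isChar_XK1 hχ P.l₂
  have e1 : CS (pc h (p.pc P)) k = PS (cx h) (fun b => if IsCoprime b p.d then
      XK (fun b => P.ψ b * sy k b) (fun _ => 1) P.l₂ b else 0) p.z p.t := by
    rw [SupPc271.CS_pc, Pq.pc_Y, Real.log_exp, Pq.pc_t]
    refine PS_congr (fun b _ => ?_) _ _
    rw [Pq.pc_u, Pq.pc_ψ, hu, hkd]
    simp only [chK, uv, prin0, XK]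
    split_ifs
    · ring
    · ring
  rw [e1]
  refine (norm_PS_cop_le (cs_cx hh.cs) hX p.d0 p.z p.t).trans ?_
  have hcard : (((dvs p.d).filter Squarefree).card : ℝ) ≤ C2 * (nm p.d : ℝ) ^ ε := by
    refine le_trans ?_ (h2 _ p.d0)
    unfold tau
    exact_mod_cast Finset.card_filter_le _ _
  have hnm : (nm (P.n * (9 * k)) : ℝ) ≤ (nm P.n : ℝ) * (81 * max K 0) := by
    have h9 : nm (9 : Eis) = 81 := by decide
    rw [nm_mul, nm_mul, h9]
    push_cast
    have : (nm k : ℝ) ≤ max K 0 := hkK.trans (le_max_left _ _)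
    gcongr
  have ht : 0 ≤ (1 + |p.t|) ^ 4 := by positivity
  calc ∑ d ∈ (dvs p.d).filter Squarefree,
        ‖PS (cx h) (XK (fun b => P.ψ b * sy k b) (fun _ => 1) P.l₂) (p.z - Real.log (nm d)) p.t‖
      ≤ ∑ d ∈ (dvs p.d).filter Squarefree, C1 * (1 + |p.t|) ^ 4 * ((nm P.n : ℝ) *
          (81 * max K 0)) ^ 2 := by
        refine Finset.sum_le_sum fun d _ => (h1 _ _ hχ hNk _ _).trans ?_
        have h0 : (0 : ℝ) ≤ nm (P.n * (9 * k)) := Nat.cast_nonneg _
        gcongr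
    _ = (((dvs p.d).filter Squarefree).card : ℝ) * (C1 * (1 + |p.t|) ^ 4 * ((nm P.n : ℝ) *
          (81 * max K 0)) ^ 2) := by rw [Finset.sum_const, nsmul_eq_mul]
    _ ≤ (C2 * (nm p.d : ℝ) ^ ε) * (C1 * (1 + |p.t|) ^ 4 * ((nm P.n : ℝ) *
          (81 * max K 0)) ^ 2) := by
        refine mul_le_mul_of_nonneg_right hcard ?_
        have : 0 ≤ max K 0 := le_max_right _ _
        positivity
    _ = _ := by ring

/-- **all pieces at a bounded `k`** : lumps are bounded, Möbius pieces by the sup bound, amplifier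
pieces trivially -/
theorem piece_bd {θ : ℝ} (hθ : 1 / 2 < θ) (hθ1 : θ ≤ 1) (hPF : PF Set.univ θ)
    {h : ℝ → ℝ} {c₀ : ℝ} (hh : PU h c₀) {P : DPar} (hP : P.OK)
    {ε : ℝ} (hε : 0 < ε) (hε1 : ε ≤ 1) (K : ℝ) :
    ∃ C : ℝ, 1 ≤ C ∧ ∀ k : Eis, k ≠ 0 → NPm P.n P.ψ P.l₂ k → (nm k : ℝ) ≤ K → ∀ p : Pq, 0 ≤ p.z →
      (Dq.lump p → ‖CS (pc h (p.pc P)) k‖ ≤ C * ((nm p.d : ℝ) ^ ε * (1 + |p.t|) ^ 4)) ∧
      ‖CS (pc h (p.pc P)) k‖ ≤ C * ((nm p.d : ℝ) ^ ε * (1 + |p.t|) ^ 4) *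
        Real.exp ((vk θ p.kd + ε) * p.z) := by
  obtain ⟨C1, hC1, h1⟩ := lump_bd hh hP hε K
  obtain ⟨C2, hC2, h2⟩ := SupPc271.sup_pcS hθ hθ1 hPF hε hε1 P.l₂ hh.cd hh.cs
  obtain ⟨C3, hC3, h3⟩ := norm_PS_le (cd_cx hh.cd).continuous (cs_cx hh.cs)
  have hK0 : 0 ≤ max K 0 := le_max_right _ _
  set C4 := C2 * ((nm P.n : ℝ) ^ 2 * max K 0) ^ ε with hC4
  have hC40 : 0 ≤ C4 := by positivity
  refine ⟨1 + C1 + C4 + C3, by linarith, fun k hk hNk hkK p hz => ⟨?_, ?_⟩⟩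
  · rintro ⟨hkd, hu⟩
    refine (h1 k hk hNk hkK p hkd hu).trans ?_
    rw [mul_assoc]
    refine mul_le_mul_of_nonneg_right (by linarith) (by positivity)
  · have hd1 : (1 : ℝ) ≤ nm p.d := by exact_mod_cast nm_pos.mpr p.d0
    have ht1 : 1 ≤ 1 + |p.t| := by linarith [abs_nonneg p.t]
    have hde : (1 : ℝ) ≤ (nm p.d : ℝ) ^ ε := Real.one_le_rpow hd1 hε.le
    have ht4 : (1 : ℝ) ≤ (1 + |p.t|) ^ 4 := one_le_pow₀ ht1
    cases hkd : p.kd with
    | mo =>
      have h5 := h2 P.n P.ψ hP.ψ p.d k p.d0 hk hNk (p.pc P) (Real.exp_pos _) (fun b _ => by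
        simp only [Pq.pc_ψ, hkd, chK]; rfl)
      rw [Pq.pc_Y, Pq.pc_t, ← Real.exp_mul] at h5
      refine h5.trans ?_
      have e1 : Real.exp (p.z * (θ + ε)) = Real.exp ((vk θ .mo + ε) * p.z) := by
        have hv : vk θ .mo = θ := rfl
        rw [hv, mul_comm]
      rw [e1, ← mul_assoc]
      refine mul_le_mul_of_nonneg_right ?_ (Real.exp_pos _).le
      have e2 : ((nm P.n : ℝ) ^ 2 * nm p.d * nm k * (1 + |p.t|)) ^ ε ≤
          ((nm P.n : ℝ) ^ 2 * max K 0) ^ ε * ((nm p.d : ℝ) ^ ε * (1 + |p.t|) ^ 4) := by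
        have e3 : (1 + |p.t|) ^ ε ≤ (1 + |p.t|) ^ 4 := by
          calc (1 + |p.t|) ^ ε ≤ (1 + |p.t|) ^ (1 : ℝ) :=
                Real.rpow_le_rpow_of_exponent_le ht1 hε1
            _ = (1 + |p.t|) ^ 1 := by rw [Real.rpow_one, pow_one]
            _ ≤ (1 + |p.t|) ^ 4 := pow_le_pow_right₀ ht1 (by norm_num)
        have e4 : (nm P.n : ℝ) ^ 2 * nm p.d * nm k * (1 + |p.t|) ≤
            ((nm P.n : ℝ) ^ 2 * max K 0) * (nm p.d * (1 + |p.t|)) := by
          have : (nm k : ℝ) ≤ max K 0 := hkK.trans (le_max_left _ _)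
          calc (nm P.n : ℝ) ^ 2 * nm p.d * nm k * (1 + |p.t|)
              ≤ (nm P.n : ℝ) ^ 2 * nm p.d * max K 0 * (1 + |p.t|) := by gcongr
            _ = _ := by ring
        calc ((nm P.n : ℝ) ^ 2 * nm p.d * nm k * (1 + |p.t|)) ^ ε
            ≤ (((nm P.n : ℝ) ^ 2 * max K 0) * (nm p.d * (1 + |p.t|))) ^ ε :=
              Real.rpow_le_rpow (by positivity) e4 hε.le
          _ = ((nm P.n : ℝ) ^ 2 * max K 0) ^ ε * ((nm p.d : ℝ) ^ ε * (1 + |p.t|) ^ ε) := by
              rw [Real.mul_rpow (by positivity) (by positivity),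
                Real.mul_rpow (x := (nm p.d : ℝ)) (by positivity) (by positivity)]
          _ ≤ _ := by gcongr
      calc C2 * ((nm P.n : ℝ) ^ 2 * nm p.d * nm k * (1 + |p.t|)) ^ ε
          ≤ C2 * (((nm P.n : ℝ) ^ 2 * max K 0) ^ ε * ((nm p.d : ℝ) ^ ε * (1 + |p.t|) ^ 4)) := by
            gcongr
        _ = C4 * ((nm p.d : ℝ) ^ ε * (1 + |p.t|) ^ 4) := by rw [hC4]; ring
        _ ≤ _ := mul_le_mul_of_nonneg_right (by linarith) (by positivity)
    | am =>
      have h5 : ‖CS (pc h (p.pc P)) k‖ ≤ C3 * Real.exp p.z := by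
        rw [SupPc271.CS_pc, Pq.pc_Y, Real.log_exp, Pq.pc_t]
        refine h3 _ (fun b hb => ?_) _ _
        rw [norm_mul, norm_mul]
        have h6 := HP842.norm_uv_le (p.pc P).u b
        have h7 := (p.ok hP).ch.norm_le hb
        have h8 : ‖sy k b‖ ≤ 1 := Char766.norm_sy_le hb
        calc ‖uv (p.pc P).u b‖ * (‖(p.pc P).ψ b‖ * ‖sy k b‖) ≤ 1 * (1 * 1) := by gcongr
          _ = 1 := by ring
      refine h5.trans ?_
      have e1 : Real.exp p.z ≤ Real.exp ((vk θ .am + ε) * p.z) := by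
        refine Real.exp_le_exp.2 ?_
        have hv : vk θ .am = 1 := rfl
        rw [hv]
        nlinarith
      have e2 : 1 ≤ (nm p.d : ℝ) ^ ε * (1 + |p.t|) ^ 4 := one_le_mul_of_one_le_of_one_le hde ht4
      calc C3 * Real.exp p.z = C3 * 1 * Real.exp p.z := by ring
        _ ≤ (1 + C1 + C4 + C3) * ((nm p.d : ℝ) ^ ε * (1 + |p.t|) ^ 4) *
            Real.exp ((vk θ .am + ε) * p.z) := by
          gcongr
          linarith

/-- principal cube-free `k` are bounded -/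
lemma bounded_principal {P : DPar} (hP : P.OK) :
    ∃ K : ℝ, 1 ≤ K ∧ ∀ k : Eis, CubeFree k → ¬ NPk P.n P.φ P.l₁ k → (nm k : ℝ) ≤ K := by
  obtain ⟨n₀, hn0, h⟩ := BoxP271.principal_form hP.φ P.l₁
  refine ⟨nm n₀, by exact_mod_cast nm_pos.mpr hn0, fun k hk h1 => ?_⟩
  obtain ⟨z, hz, rfl⟩ := h k hk.1 h1
  have hu : IsUnit z := by
    by_contra hu
    obtain ⟨p, hp, hpz⟩ := WfDvdMonoid.exists_irreducible_factor hu hz
    exact hk.2 p hp.prime ((pow_dvd_pow_of_dvd hpz 3).trans (dvd_mul_left _ _))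
  have h2 : nm z = 1 := by
    obtain ⟨w, hw⟩ := hu.exists_right_inv
    have h3 := congrArg nm hw
    rw [nm_mul, nm_one] at h3
    exact Nat.eq_one_of_mul_eq_one_right h3
  rw [nm_mul, nm_pow, h2]
  simp

/-- **the principal amplifier** -/
theorem colPx {θ : ℝ} (hθ : 1 / 2 < θ) (hθ1 : θ ≤ 1) (hPF : PF Set.univ θ)
    {h : ℝ → ℝ} {c₀ : ℝ} (hh : PU h c₀) {Lam : Type*} (π : Lam → DPar) (hP : ∀ lam, (π lam).OK)
    (QF : Lam → Eis → Prop) (hQF : ∀ lam k, QF lam k → CubeFree k ∧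
      NPm (π lam).n (π lam).ψ (π lam).l₂ k ∧ ¬ NPk (π lam).n (π lam).φ (π lam).l₁ k) :
    ∀ (i : ℝ) (u : List ℝ) (m a : ℝ), 0 ≤ i → Okl u m a →
      BG Dq (fun lam l ps => RQ (QF lam) h l
        (ps.map (Pq.pc (π lam)))) i u (wt m a) (2 * a + 2 * θ * m) := by
  classical
  intro i u m a hi hok ε hε
  have hU : 0 ≤ u.sum := List.sum_nonneg hok.1
  obtain ⟨-, hm, ha⟩ := hok
  refine ⟨min 1 (ε / 16), by positivity, fun lam N B => ?_⟩
  set δ : ℝ := min 1 (ε / 16) with hδ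
  have hδ0 : 0 < δ := by positivity
  have hδ1 : δ ≤ 1 := min_le_left _ _
  have hδ2 : δ ≤ ε / 16 := min_le_right _ _
  set n : ℝ := (u.length : ℝ) + N with hn
  have hn0 : 0 ≤ n := by positivity
  set B1 : ℝ := max B 0 with hB1
  have hB10 : 0 ≤ B1 := le_max_right _ _
  set Q : ℝ := 2 * n * B1 + 2 * (u.sum + u.length + m + a + 2) + 1 with hQ
  have hul : (0 : ℝ) ≤ u.length := Nat.cast_nonneg _
  have hQ1 : 1 ≤ Q := by
    have : 0 ≤ 2 * n * B1 + 2 * (u.sum + u.length + m + a + 2) := by positivity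
    linarith
  set s : ℝ := min 1 (ε / (8 * Q)) with hs
  have hs0 : 0 < s := by positivity
  have hs1 : s ≤ 1 := min_le_left _ _
  have hsQ : s * Q ≤ ε / 8 := by
    calc s * Q ≤ ε / (8 * Q) * Q := by gcongr; exact min_le_right _ _
      _ = ε / 8 := by field_simp
  obtain ⟨K, hK1, hK⟩ := bounded_principal (hP lam)
  obtain ⟨C, hC1, hC⟩ := piece_bd hθ hθ1 hPF hh (hP lam) hs0 hs1 K
  set δ' : ℝ := ε / (64 * (n + 1)) with hδ'
  have hδ'0 : 0 < δ' := by positivity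
  have hδ'n : 8 * n * δ' ≤ ε / 8 := by
    rw [hδ', mul_div_assoc', div_le_iff₀ (by positivity)]
    nlinarith
  obtain ⟨X₁, hX₁, hc⟩ := const_le_rpow (((bl K).card : ℝ) * C ^ (2 * (u.length + N)))
    (a := ε / 8) (by linarith)
  refine ⟨δ', hδ'0, X₁, hX₁, ?_⟩
  intro X hX k us gs hk hnear hgran hgood
  have hX1 : 1 < X := lt_of_lt_of_le hX₁ hX
  have hX0 : 0 < X := by linarith
  have hmono : ∀ {a a' : ℝ}, a ≤ a' → X ^ a ≤ X ^ a' := fun h =>
    Real.rpow_le_rpow_of_exponent_le hX1.le h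
  set Y : ℝ := X ^ (s * B1 + 4 * δ') with hY
  have hY1 : 1 ≤ Y := Real.one_le_rpow hX1.le (by positivity)
  have hlen : us.length + gs.length ≤ u.length + N := by
    rw [Near_length hnear]; exact Nat.add_le_add_left hgran.1 _
  -- bounds of the pieces
  have hYp : ∀ p ∈ us ++ gs, (nm p.d : ℝ) ^ s * (1 + |p.t|) ^ 4 ≤ Y := by
    intro p hp
    obtain ⟨g1, g2, -⟩ := hgood p hp
    simp only [Dq_s1, Dq_s2] at g1 g2
    have hd0 : (0 : ℝ) ≤ nm p.d := Nat.cast_nonneg _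
    calc (nm p.d : ℝ) ^ s * (1 + |p.t|) ^ 4 ≤ (X ^ B1) ^ s * (X ^ δ') ^ 4 := by
          have : (nm p.d : ℝ) ≤ X ^ B1 := g2.trans (hmono (le_max_left _ _))
          gcongr
      _ = Y := by
          rw [← Real.rpow_natCast (X ^ δ') 4, ← Real.rpow_mul hX0.le, ← Real.rpow_mul hX0.le,
            ← Real.rpow_add hX0, hY]
          congr 1
          push_cast
          ring
  set T := 2 * (s * (us.map fun p => Dq.nl X p).sum) +
    2 * ((gs.map fun p => vk θ p.kd * Dq.nl X p).sum + s * (gs.map fun p => Dq.nl X p).sum) with hT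
  have hC0 : 0 ≤ C := by linarith
  have hY0 : 0 ≤ Y := by linarith
  have hpt : ∀ x, QF lam x → x ∈ bl K ∧
      ((((us ++ gs).map (Pq.pc (π lam))).map fun p => ‖CS (pc h p) x‖ ^ 2).prod ≤
        (C * Y) ^ (2 * (u.length + N)) * X ^ T) := by
    intro x hx
    obtain ⟨hx1, hxm, hx2⟩ := hQF lam x hx
    have hxK := hK x hx1 hx2
    refine ⟨(mem_bl (by linarith)).2 ⟨hx1.1, hxK⟩, ?_⟩
    have hCx := hC x hx1.1 hxm hxK
    have hus0 : ∀ p ∈ us, 0 ≤ p.z := fun p hp => (hgood p (List.mem_append_left _ hp)).2.2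
    have hgs0 : ∀ p ∈ gs, 0 ≤ p.z := fun p hp => (hgood p (List.mem_append_right _ hp)).2.2
    have hul' := near_lump hnear
    have h1 := prod_bd (ε := s) hX1 hC1 hY1 (fun _ => 0)
      (fun p => ‖CS (pc h (p.pc (π lam))) x‖) us (fun _ _ => norm_nonneg _) (fun p hp => by
        refine ((hCx p (hus0 p hp)).1 (hul' p hp)).trans ?_
        have h3 := hYp p (List.mem_append_left _ hp)
        have h4 : 1 ≤ Real.exp ((0 + s) * p.z) := Real.one_le_exp (by
          rw [zero_add]; exact mul_nonneg hs0.le (hus0 p hp))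
        calc C * ((nm p.d : ℝ) ^ s * (1 + |p.t|) ^ 4) ≤ C * Y := by gcongr
          _ ≤ _ := le_mul_of_one_le_right (by positivity) h4)
    have h2 := prod_bd (ε := s) hX1 hC1 hY1 (fun p => vk θ p.kd)
      (fun p => ‖CS (pc h (p.pc (π lam))) x‖) gs (fun _ _ => norm_nonneg _) (fun p hp => by
        refine ((hCx p (hgs0 p hp)).2).trans ?_
        have h3 := hYp p (List.mem_append_right _ hp)
        gcongr)
    rw [List.map_append, List.map_append, List.prod_append, List.map_map, List.map_map]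
    have hCY : 1 ≤ C * Y := one_le_mul_of_one_le_of_one_le hC1 hY1
    calc _ ≤ ((C * Y) ^ (2 * us.length) * X ^ (2 * ((us.map fun p => (0 : ℝ) * Dq.nl X p).sum +
            s * (us.map fun p => Dq.nl X p).sum))) * ((C * Y) ^ (2 * gs.length) *
            X ^ (2 * ((gs.map fun p => vk θ p.kd * Dq.nl X p).sum +
              s * (gs.map fun p => Dq.nl X p).sum))) := by
          refine mul_le_mul h1 h2 (prod_map_nonneg _ _ fun _ _ => sq_nonneg _) (by positivity)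
      _ = (C * Y) ^ (2 * (us.length + gs.length)) * X ^ T := by
          have e0 : (us.map fun p => (0 : ℝ) * Dq.nl X p).sum = 0 := by
            simp
          rw [e0, zero_add, hT, Real.rpow_add hX0]
          ring
      _ ≤ (C * Y) ^ (2 * (u.length + N)) * X ^ T := by
          refine mul_le_mul_of_nonneg_right (pow_le_pow_right₀ hCY (by omega)) (by positivity)
  -- the exponents
  have hsum_us := abs_le.1 (near_sum hnear)
  obtain ⟨hgN, hgδ, hgm⟩ := hgran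
  have hmo := abs_le.1 (hgm .mo)
  have ham := abs_le.1 (hgm .am)
  simp only [wt] at hmo ham
  have hus : (us.map fun p => Dq.nl X p).sum ≤ u.sum + u.length := by
    have h5 : (us.map (Dq.nl X)).sum - u.sum ≤ δ * u.length := hsum_us.2
    have h6 : δ * u.length ≤ 1 * u.length := mul_le_mul_of_nonneg_right hδ1 hul
    have h7 : (us.map fun p => Dq.nl X p).sum = (us.map (Dq.nl X)).sum := rfl
    linarith
  have hT1 : T ≤ 2 * a + 2 * θ * m + (ε / 4 + 2 * s * (u.sum + u.length + m + a + 2)) := by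
    rw [hT, sum_vk, sum_nl gs]
    have h5 : s * (us.map fun p => Dq.nl X p).sum ≤ s * (u.sum + u.length) :=
      mul_le_mul_of_nonneg_left hus hs0.le
    have h6 : s * (Dq.mass X gs .mo + Dq.mass X gs .am) ≤ s * (m + a + 2) :=
      mul_le_mul_of_nonneg_left (by linarith) hs0.le
    have h7 : θ * Dq.mass X gs .mo ≤ θ * m + δ := by
      have : θ * (Dq.mass X gs .mo) ≤ θ * (m + δ) :=
        mul_le_mul_of_nonneg_left (by linarith) (by linarith)
      have : θ * δ ≤ 1 * δ := mul_le_mul_of_nonneg_right hθ1 hδ0.le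
      linarith
    linarith
  have hYpow : Y ^ (2 * (u.length + N)) = X ^ (2 * n * (s * B1 + 4 * δ')) := by
    rw [hY, ← Real.rpow_natCast, ← Real.rpow_mul hX0.le]
    congr 1
    rw [hn]; push_cast; ring
  have hfin : 2 * n * (s * B1 + 4 * δ') + T ≤ 2 * a + 2 * θ * m + (ε - ε / 8) := by
    have : s * Q = 2 * n * B1 * s + 2 * s * (u.sum + u.length + m + a + 2) + s := by
      rw [hQ]; ring
    have : 2 * n * (s * B1 + 4 * δ') = 2 * n * B1 * s + 8 * n * δ' := by ring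
    linarith
  show RQ (QF lam) h (k * Real.log X)
    ((us ++ gs).map (Pq.pc (π lam))) ≤ _
  refine (RQ_le _ h _ _ (T := bl K) (b := (C * Y) ^ (2 * (u.length + N)) * X ^ T) (by positivity)
    fun x hx => hpt x hx).trans ?_
  calc ((bl K).card : ℝ) * ((C * Y) ^ (2 * (u.length + N)) * X ^ T)
      = (((bl K).card : ℝ) * C ^ (2 * (u.length + N))) * (Y ^ (2 * (u.length + N)) * X ^ T) := by
        rw [mul_pow]; ring
    _ ≤ X ^ (ε / 8) * X ^ (2 * a + 2 * θ * m + (ε - ε / 8)) := by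
        rw [hYpow, ← Real.rpow_add hX0]
        have := hc X hX
        have h9 := hmono hfin
        gcongr
    _ = X ^ (2 * a + 2 * θ * m + ε) := by
        rw [← Real.rpow_add hX0]; congr 1; ring

end Crest.Agent.R017.Colx298
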