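import Crest.Agent.R017.Mono3_858

/-!
# Row 17: helper858's monotonicity with weights depending on the datum (helper298)

* `BG_monoL` : as `Mono858.BG_mono`, weights `w lam`
-/

set_option autoImplicit false
set_option linter.unusedSectionVars false
set_option maxHeartbeats 1000000

noncomputable section

open Complex Filter Topology
open scoped ComplexConjugate

namespace Crest.Agent.R017.XMw298

open Crest.Agent.R017.Mono858

open Crest.Agent.R012 Crest.Agent.R012.Eis Crest.Agent.R012.LS2 Crest.Agent.R012.Gauss880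
open Crest.Agent.R012.Div277 (tau dvs mem_dvs tau_le_rpow)
open Crest.Agent.R017.CM106 Crest.Agent.R017.FE47 Crest.Agent.R017.End699
open Crest.Agent.R017.HP842 (Ker ker_Kg KS sqc Kg pc dl alL alL_cons uv sc' cop Th)
open Crest.Agent.R017.XG702 (Pcs BG Loc Near_mono Gran_mono Good_mono Good_sub Good_perm)
open Crest.Agent.R017.B770
open Crest.Agent.R017.Prov71
open Crest.Agent.R017.PLow271 (shortP mem_shortP card_shortP)

variable {Lm : Type*} {π : Lm → DPar} {h : ℝ → ℝ} {w : Lm → Eis → Eis → ℂ} {e : ℕ}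

/-- **monotonicity** -/
theorem BG_monoL {c₀ : ℝ} (hw : ∀ lam, Wt3 (w lam) e) (hh : PU h c₀) (hPo : ∀ lam, (π lam).OK)
    {Q Q' : Lm → Eis → Prop} (hQ : ∀ lam x p, Q lam x → Prime p → Q' lam (x * p ^ e))
    {κ κ' E : ℝ} {u : List ℝ} {wm : Kd → ℝ} (hκ : κ' ≤ κ)
    (h1 : BG Dq (fun lam => FQ (w lam) (fun _ => True) (π lam) h) κ u wm E)
    (h2 : ∀ u₁ y u₂, u = u₁ ++ y :: u₂ → (κ - κ') / 3 ≤ y →
      BG Dq (fun lam => FQ (w lam) (Q' lam) (π lam) h) (κ' + e * ((κ - κ') / 3))
        (u₁ ++ (y - (κ - κ') / 3) :: u₂) wm (E - (κ - κ') / 3)) :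
    BG Dq (fun lam => FQ (w lam) (Q lam) (π lam) h) κ' u wm (E - (κ - κ') / 3) := by
  classical
  set ζ := (κ - κ') / 3 with hζ
  have hζ0 : 0 ≤ ζ := by rw [hζ]; linarith
  rcases hζ0.eq_or_lt with hz | hζp
  · -- equal families
    have e1 : κ' = κ := by rw [hζ] at hz; linarith
    rw [← hz, sub_zero, e1]
    exact h1.comp fun lam l ps => FQ_mono_set (fun _ _ => trivial) l ps
  obtain ⟨R, H, hR0, hH0, hR, hH⟩ := XC858.bump_data hh
  have hB : Bump h := ⟨R, hR⟩
  intro ε hε
  obtain ⟨δh, hδh, Lh⟩ := h1 (ε / 4) (by linarith)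
  -- the shortened configurations
  have hj : ∀ j : ℕ, ∃ δj : ℝ, 0 < δj ∧
      (j < u.length → ζ ≤ u.getD j 0 →
        Loc Dq (fun lam => FQ (w lam) (Q' lam) (π lam) h) (κ' + e * ζ) (shc ζ u j) wm δj
          (E - ζ + ε / 4)) ∧
      (j < u.length → u.getD j 0 < ζ → 8 * δj ≤ ζ - u.getD j 0) := by
    intro j
    by_cases hlt : j < u.length
    · by_cases hle : ζ ≤ u.getD j 0
      · obtain ⟨δj, hδj, Lj⟩ := h2 (u.take j) (u.getD j 0) (u.drop (j + 1)) (by
          rw [List.getD_eq_getElem _ _ hlt]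
          simp) hle (ε / 4) (by linarith)
        exact ⟨δj, hδj, fun _ _ => Lj, fun _ h => absurd h (not_lt.2 hle)⟩
      · push Not at hle
        exact ⟨(ζ - u.getD j 0) / 8, by linarith, fun _ h => absurd h (not_le.2 hle),
          fun _ _ => by linarith⟩
    · exact ⟨1, one_pos, fun h => absurd h hlt, fun h => absurd h hlt⟩
  choose δs hδs Ls Lz using hj
  set n := u.length with hn
  have hrne : (Finset.range (n + 1)).Nonempty := ⟨0, by simp⟩
  set δ₀ := (Finset.range (n + 1)).inf' hrne δs with hδ₀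
  have hδ₀p : 0 < δ₀ := by
    rw [hδ₀, Finset.lt_inf'_iff]; intro j _; exact hδs j
  have hδ₀j : ∀ j, j < n → δ₀ ≤ δs j := fun j hj =>
    Finset.inf'_le _ (by rw [Finset.mem_range]; omega)
  set e' : ℝ := 1 + (e : ℝ) with he'
  have he'1 : 1 ≤ e' := by
    rw [he']
    have : (0 : ℝ) ≤ e := Nat.cast_nonneg _
    linarith
  set δ := min (δ₀ / (8 * e')) (min (δh / 8) (min (ζ / 16) (min (ε / 64) 1))) with hδdef
  have hδ : 0 < δ := by
    rw [hδdef]
    refine lt_min (by positivity) (lt_min (by linarith) (lt_min (by linarith)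
      (lt_min (by linarith) one_pos)))
  have hd1 : 8 * (e' * δ) ≤ δ₀ := by
    have h3 : δ ≤ δ₀ / (8 * e') := min_le_left _ _
    have he0 : 0 < e' := by linarith
    calc 8 * (e' * δ) ≤ 8 * (e' * (δ₀ / (8 * e'))) :=
          mul_le_mul_of_nonneg_left (mul_le_mul_of_nonneg_left h3 he0.le) (by norm_num)
      _ = δ₀ := by field_simp
  have hd2 : 8 * δ ≤ δh := by
    have h3 : δ ≤ δh / 8 := (min_le_right _ _).trans (min_le_left _ _)
    linarith
  have hd3 : 16 * δ ≤ ζ := by
    have h3 : δ ≤ ζ / 16 := (min_le_right _ _).trans ((min_le_right _ _).trans (min_le_left _ _))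
    linarith
  have hd4 : 64 * δ ≤ ε := by
    have h3 : δ ≤ ε / 64 := (min_le_right _ _).trans ((min_le_right _ _).trans
      ((min_le_right _ _).trans (min_le_left _ _)))
    linarith
  have hd5 : δ ≤ 1 := (min_le_right _ _).trans ((min_le_right _ _).trans
      ((min_le_right _ _).trans (min_le_right _ _)))
  have hed : δ ≤ e' * δ := by
    have := mul_le_mul_of_nonneg_right he'1 hδ.le
    linarith
  -- divisor exponent
  set ε₁ := ε / (16 * (|κ| + 2)) with hε₁
  have hκ2 : 0 < |κ| + 2 := by positivity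
  have hε₁p : 0 < ε₁ := by rw [hε₁]; positivity
  obtain ⟨Cτ, hCτ, Hτ⟩ := sum_tau_le hε₁p
  obtain ⟨cp, hcp, s₀, hs₀, Hp⟩ := card_shortP (a := -1) (b := 0) (by norm_num)
  refine ⟨δ, hδ, fun lam N B => ?_⟩
  have hP := hPo lam
  set P := π lam with hPdef
  obtain ⟨ηh, hηh, Xh, hXh, Kh⟩ := Lh lam N B
  have hLs : ∀ j : ℕ, ∃ ηj : ℝ, 0 < ηj ∧ ∃ Xj : ℝ, 1 < Xj ∧ (j < u.length → ζ ≤ u.getD j 0 →
      ∀ X : ℝ, Xj ≤ X → ∀ (k : ℝ) (us gs : List Pq), |k - (κ' + e * ζ)| ≤ δs j →
        Dq.Near X (δs j) us (shc ζ u j) → Dq.Gran X (δs j) N gs wm →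
          Dq.Good X ηj (B + ζ) (us ++ gs) →
            FQ (w lam) (Q' lam) P h (k * Real.log X) (us ++ gs) ≤ X ^ (E - ζ + ε / 4)) := by
    intro j
    by_cases hc : j < u.length ∧ ζ ≤ u.getD j 0
    · obtain ⟨ηj, h3, Xj, h4, h5⟩ := Ls j hc.1 hc.2 lam N (B + ζ)
      exact ⟨ηj, h3, Xj, h4, fun _ _ => h5⟩
    · exact ⟨1, one_pos, 2, by norm_num, fun h3 h4 => absurd ⟨h3, h4⟩ hc⟩
  choose ηs hηs Xs hXs Ks using hLs
  set η := min ηh ((Finset.range (n + 1)).inf' hrne ηs) with hη
  have hηp : 0 < η := by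
    rw [hη]
    refine lt_min hηh ?_
    rw [Finset.lt_inf'_iff]; intro j _; exact hηs j
  have hηj : ∀ j, j < n → η ≤ ηs j := fun j hj =>
    (min_le_right _ _).trans (Finset.inf'_le _ (by rw [Finset.mem_range]; omega))
  -- large parameter
  set C₁ : ℝ := (n + 1) * (Cτ + n) with hC₁
  have hev : ∀ᶠ X : ℝ in atTop, (Xh ≤ X ∧ (Finset.range (n + 1)).sup' hrne Xs ≤ X) ∧
      ((R + 1) / δ ≤ Real.log X ∧ s₀ / (ζ - 2 * δ) ≤ Real.log X) ∧
      ((ζ - 2 * δ) / cp * Real.log X ≤ X ^ δ ∧ C₁ ≤ X ^ (ε / 2)) := by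
    have hl := Real.tendsto_log_atTop
    refine (((eventually_ge_atTop Xh).and (eventually_ge_atTop _)).and
      (((hl.eventually_ge_atTop _).and (hl.eventually_ge_atTop _)).and
        (Eventually.and ?_ ?_)))
    · have ho := isLittleO_log_rpow_atTop hδ
      have hpos : 0 < |(ζ - 2 * δ) / cp| + 1 := by positivity
      have h3 := ho.bound (c := (|(ζ - 2 * δ) / cp| + 1)⁻¹) (inv_pos.2 hpos)
      filter_upwards [h3, eventually_ge_atTop (1 : ℝ)] with X hX hX1
      have hl0 : 0 ≤ Real.log X := Real.log_nonneg hX1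
      have hr0 : 0 ≤ X ^ δ := Real.rpow_nonneg (by linarith) _
      rw [Real.norm_of_nonneg hl0, Real.norm_of_nonneg hr0] at hX
      have h4 : (|(ζ - 2 * δ) / cp| + 1) * Real.log X ≤ X ^ δ := by
        calc (|(ζ - 2 * δ) / cp| + 1) * Real.log X
            ≤ (|(ζ - 2 * δ) / cp| + 1) * ((|(ζ - 2 * δ) / cp| + 1)⁻¹ * X ^ δ) :=
              mul_le_mul_of_nonneg_left hX hpos.le
          _ = X ^ δ := by field_simp
      refine le_trans ?_ h4
      refine mul_le_mul_of_nonneg_right ?_ hl0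
      linarith [le_abs_self ((ζ - 2 * δ) / cp)]
    · exact (tendsto_rpow_atTop (by linarith : 0 < ε / 2)).eventually_ge_atTop _
  obtain ⟨X₁, hX₁⟩ := eventually_atTop.1 hev
  refine ⟨η, hηp, max X₁ 2, lt_of_lt_of_le (by norm_num) (le_max_right _ _), ?_⟩
  intro X hX k us gs hk hnear hgran hgood
  obtain ⟨⟨hXXh, hXXs⟩, ⟨hlR, hls⟩, ⟨hcard, hCX⟩⟩ := hX₁ X ((le_max_left _ _).trans hX)
  have hX2 : 2 ≤ X := (le_max_right _ _).trans hX
  have hX1 : 1 < X := by linarith
  have hXp : (0 : ℝ) < X := by linarith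
  have hlog : 0 < Real.log X := Real.log_pos hX1
  have hζδ : 0 < ζ - 2 * δ := by linarith
  rw [div_le_iff₀ hδ] at hlR
  rw [div_le_iff₀ hζδ] at hls
  set s := (ζ - 2 * δ) * Real.log X with hs
  have hss : s₀ ≤ s := by rw [hs]; linarith
  have hs0 : 0 < s := by rw [hs]; positivity
  have h1l : (1 : ℝ) ≤ δ * Real.log X := by linarith
  have hRl : R + 1 ≤ δ * Real.log X := by linarith
  have hsbig : 14 * (δ * Real.log X) ≤ s := by
    have h3 : 14 * δ ≤ ζ - 2 * δ := by linarith
    have h4 := mul_le_mul_of_nonneg_right h3 hlog.le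
    rw [hs]; linarith
  set A := shortP (-1) 0 s with hA
  have hcardA := Hp s hss
  rw [← hA] at hcardA
  have hexps : Real.exp s = X ^ (ζ - 2 * δ) := by
    rw [Real.rpow_def_of_pos hXp, hs]; congr 1; ring
  have hcardA2 : X ^ (ζ - 3 * δ) ≤ A.card := by
    refine le_trans ?_ hcardA
    rw [hexps]
    have h3 : X ^ (ζ - 2 * δ) = X ^ (ζ - 3 * δ) * X ^ δ := by
      rw [← Real.rpow_add hXp]; congr 1; ring
    rw [h3]
    have h4 : s / cp ≤ X ^ δ := by
      rw [hs]
      calc (ζ - 2 * δ) * Real.log X / cp = (ζ - 2 * δ) / cp * Real.log X := by ring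
        _ ≤ _ := hcard
    have h5 : 1 ≤ cp * (X ^ δ / s) := by
      rw [div_le_iff₀ hcp] at h4
      rw [← mul_div_assoc, le_div_iff₀ hs0]
      linarith
    calc X ^ (ζ - 3 * δ) = X ^ (ζ - 3 * δ) * 1 := (mul_one _).symm
      _ ≤ X ^ (ζ - 3 * δ) * (cp * (X ^ δ / s)) :=
          mul_le_mul_of_nonneg_left h5 (Real.rpow_nonneg hXp.le _)
      _ = _ := by ring
  have hXA : 0 < X ^ (ζ - 3 * δ) := Real.rpow_pos_of_pos hXp _
  have hAne : A.Nonempty := by
    rw [← Finset.card_pos]
    have : (0 : ℝ) < A.card := lt_of_lt_of_le hXA hcardA2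
    exact_mod_cast this
  have hAp : ∀ p ∈ A, Prime p ∧ IsPrim p ∧ (nm p : ℝ) ≤ Real.exp s := by
    intro p hp
    obtain ⟨h3, h4, h5⟩ := mem_shortP.1 hp
    rw [add_zero] at h5
    exact ⟨h3.1, h3.2, h5⟩
  have hAlog : ∀ p ∈ A, s - 1 ≤ Real.log (nm p) ∧ Real.log (nm p) ≤ s := by
    intro p hp
    obtain ⟨h3, h4, h5⟩ := mem_shortP.1 hp
    rw [add_zero] at h5
    have h6 : (0 : ℝ) < nm p := by exact_mod_cast nm_pos.2 h3.1.ne_zero
    constructor
    · rw [Real.le_log_iff_exp_le h6]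
      have : s + -1 = s - 1 := by ring
      rw [this] at h4
      exact h4.le
    · rw [Real.log_le_iff_le_exp h6]; exact h5
  have hus : ∀ q ∈ us, Dq.lump q := by
    intro q hq
    unfold Pcs.Near at hnear
    obtain ⟨i, hi, rfl⟩ := List.mem_iff_getElem.1 hq
    have h3 := List.forall₂_iff_get.1 hnear
    exact (h3.2 i hi (by rw [← h3.1]; exact hi)).1
  have hus1 : ∀ q ∈ us, q.u = .one := fun q hq => ((Dq_lump q).1 (hus q hq)).2
  have hgs : ∀ p ∈ A, ∀ g ∈ gs, sub (pc h (g.pc P)) p = fun _ => 0 := by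
    intro p hp g hg
    refine sub_pc_zero hR hP (hAp p hp).2.1 ?_
    have h3 := hgran.2.1 g hg
    unfold Pcs.nl at h3
    rw [div_le_iff₀ hlog] at h3
    have h4 := (hAlog p hp).1
    rw [Dq_len] at h3
    linarith
  have hlen : us.length = n := XG702.Near_length hnear
  obtain ⟨p, hpA, hp0, hstep⟩ := FQ_step (hw lam) hB hP (hQ lam) hAne (Real.exp_pos s).le hAp hus1 hgs
    (k * Real.log X)
  obtain ⟨hp, hpp, hpn⟩ := hAp p hpA
  obtain ⟨hlp1, hlp2⟩ := hAlog p hpA
  refine hstep.trans ?_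
  rw [hlen]
  -- part 1
  have hb2 := abs_le.1 hk
  have hpart1 : (A.card : ℝ)⁻¹ * ∑ r ∈ bl (Real.exp (k * Real.log X) * Real.exp s ^ 3),
      (tau r : ℝ) * ‖Lam (w lam r) (alL h ((us ++ gs).map (Pq.pc P)))‖ ^ 2 ≤
      Cτ * X ^ (E - ζ + ε / 2) := by
    have h3 := Hτ (Real.exp (k * Real.log X) * Real.exp s ^ 3) (by positivity)
      (fun r => ‖Lam (w lam r) (alL h ((us ++ gs).map (Pq.pc P)))‖ ^ 2) fun r => by positivity
    set k₁ := k + 3 * (ζ - 2 * δ) with hk₁
    have h4 : Real.exp (k * Real.log X) * Real.exp s ^ 3 = Real.exp (k₁ * Real.log X) := by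
      rw [← Real.exp_nat_mul, ← Real.exp_add]
      congr 1
      rw [hk₁, hs]; push_cast; ring
    rw [h4] at h3 ⊢
    have h5 : FQ (w lam) (fun _ => True) P h (k₁ * Real.log X) (us ++ gs) ≤ X ^ (E + ε / 4) :=
      Kh X hXXh k₁ us gs (by
      rw [hk₁, abs_le]
      have h6 : κ = κ' + 3 * ζ := by rw [hζ]; ring
      constructor <;> linarith [hb2.1, hb2.2]) (Near_mono hnear (by linarith))
      (Gran_mono hgran (by linarith) le_rfl) (Good_mono hX1.le hgood (min_le_left _ _))
    rw [FQ_true] at h5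
    have h6 : Real.exp (k₁ * Real.log X) ^ ε₁ ≤ X ^ (ε / 16) := by
      rw [← Real.exp_mul]
      have h7 : X ^ (ε / 16) = Real.exp (Real.log X * (ε / 16)) := Real.rpow_def_of_pos hXp _
      rw [h7]
      refine Real.exp_le_exp.2 ?_
      have h8 : k₁ * ε₁ ≤ ε / 16 := by
        have h9 : k₁ ≤ |κ| + 2 := by
          rw [hk₁]
          have h6 : κ = κ' + 3 * ζ := by rw [hζ]; ring
          have := le_abs_self κ
          linarith [hb2.2]
        calc k₁ * ε₁ ≤ (|κ| + 2) * ε₁ := mul_le_mul_of_nonneg_right h9 hε₁p.le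
          _ = ε / 16 := by rw [hε₁]; field_simp
      calc k₁ * Real.log X * ε₁ = Real.log X * (k₁ * ε₁) := by ring
        _ ≤ _ := mul_le_mul_of_nonneg_left h8 hlog.le
    have h7 : (A.card : ℝ)⁻¹ ≤ X ^ (-(ζ - 3 * δ)) := by
      rw [Real.rpow_neg hXp.le]
      exact inv_anti₀ hXA hcardA2
    have h8 : 0 ≤ ∑ r ∈ bl (Real.exp (k₁ * Real.log X)),
        ‖Lam (w lam r) (alL h ((us ++ gs).map (Pq.pc P)))‖ ^ 2 :=
      Finset.sum_nonneg fun _ _ => by positivity
    calc (A.card : ℝ)⁻¹ * ∑ r ∈ bl (Real.exp (k₁ * Real.log X)),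
          (tau r : ℝ) * ‖Lam (w lam r) (alL h ((us ++ gs).map (Pq.pc P)))‖ ^ 2
        ≤ X ^ (-(ζ - 3 * δ)) * (Cτ * X ^ (ε / 16) * X ^ (E + ε / 4)) := by
          refine mul_le_mul h7 (h3.trans ?_) (Finset.sum_nonneg fun _ _ => by positivity)
            (Real.rpow_nonneg hXp.le _)
          exact mul_le_mul (mul_le_mul_of_nonneg_left h6 (by linarith)) h5 h8
            (mul_nonneg (by linarith) (Real.rpow_nonneg hXp.le _))
      _ = Cτ * X ^ (-(ζ - 3 * δ) + ε / 16 + (E + ε / 4)) := by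
          rw [Real.rpow_add hXp (-(ζ - 3 * δ) + ε / 16) (E + ε / 4),
            Real.rpow_add hXp (-(ζ - 3 * δ)) (ε / 16)]
          ring
      _ ≤ Cτ * X ^ (E - ζ + ε / 2) := by
          refine mul_le_mul_of_nonneg_left ?_ (by linarith)
          exact Real.rpow_le_rpow_of_exponent_le hX1.le (by linarith)
  -- part 2
  have hpart2 : ∀ y ∈ mkp P p hp0 us,
      FQ (w lam) (Q' lam) P h (k * Real.log X + e * Real.log (nm p)) (y.2 ++ gs) ≤ X ^ (E - ζ + ε / 2) := by
    intro y hy
    obtain ⟨us₁, q, us₂, hus12, hy2⟩ := mem_mkp hy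
    rw [hus12] at hnear
    obtain ⟨hlt, hn1, ⟨hq1, hq2⟩, hn2⟩ := near_split hnear
    set j := us₁.length with hjdef
    have hq3 := abs_le.1 hq2
    have hnl : Dq.nl X q * Real.log X = q.z := by
      unfold Pcs.nl
      rw [Dq_len]
      field_simp
    rcases lt_or_ge (u.getD j 0) ζ with hsm | hbig
    · -- the shortened piece vanishes
      have h3 := Lz j hlt hsm
      have h4 := hδ₀j j hlt
      have h5 : 8 * δ ≤ ζ - u.getD j 0 := by
        have : δ ≤ δs j := by linarith
        linarith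
      have h6 : (sbq p q).z + R < 0 := by
        show q.z - Real.log (nm p) + R < 0
        rw [← hnl]
        have h7 : Dq.nl X q ≤ ζ - 7 * δ := by linarith [hq3.2]
        have h8 : Dq.nl X q * Real.log X ≤ (ζ - 7 * δ) * Real.log X :=
          mul_le_mul_of_nonneg_right h7 hlog.le
        have h9 : (ζ - 7 * δ) * Real.log X = s - 5 * (δ * Real.log X) := by rw [hs]; ring
        linarith
      have h7 : alL h ((y.2 ++ gs).map (Pq.pc P)) = fun _ => 0 := by
        refine alL_zero (q := sbq p q) ?_ (pc_zero hR h6)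
        rw [hy2]
        simp
      rw [FQ_zero h7]
      exact Real.rpow_nonneg hXp.le _
    · -- the rule for the shortened side
      have hδj := hδ₀j j hlt
      set k₂ := k + e * (Real.log (nm p) / Real.log X) with hk₂
      have e3 : k * Real.log X + e * Real.log (nm p) = k₂ * Real.log X := by
        rw [hk₂]; field_simp
      have hr1 : ζ - 3 * δ ≤ Real.log (nm p) / Real.log X := by
        rw [le_div_iff₀ hlog]
        have : (ζ - 3 * δ) * Real.log X = s - δ * Real.log X := by rw [hs]; ring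
        linarith
      have hr2 : Real.log (nm p) / Real.log X ≤ ζ - 2 * δ := by
        rw [div_le_iff₀ hlog]
        exact hlp2
      set ρ := Real.log (nm p) / Real.log X with hρ
      have he0 : (0 : ℝ) ≤ e := Nat.cast_nonneg _
      have hk₂' : |k₂ - (κ' + e * ζ)| ≤ δs j := by
        have e4 : k₂ - (κ' + e * ζ) = (k - κ') + e * (ρ - ζ) := by rw [hk₂]; ring
        rw [e4]
        have h5 : |(e : ℝ) * (ρ - ζ)| ≤ e * (3 * δ) := by
          rw [abs_mul, abs_of_nonneg he0]
          refine mul_le_mul_of_nonneg_left ?_ he0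
          rw [abs_le]; constructor <;> linarith
        refine (abs_add_le _ _).trans ((add_le_add hk h5).trans ?_)
        have h6 : δ + e * (3 * δ) ≤ 8 * (e' * δ) := by
          have h7 := mul_nonneg he0 hδ.le
          have h8 : 8 * (e' * δ) = 8 * δ + 8 * (e * δ) := by rw [he']; ring
          have h9 : (e : ℝ) * (3 * δ) = 3 * (e * δ) := by ring
          rw [h8, h9]; linarith
        linarith
      have h4δ : 4 * δ ≤ δs j := by linarith
      rw [e3]
      refine (Ks j hlt hbig X ((Finset.le_sup' Xs (by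
        rw [Finset.mem_range]; omega)).trans hXXs) k₂ y.2 gs hk₂' ?_ ?_ ?_).trans
        (Real.rpow_le_rpow_of_exponent_le hX1.le (by linarith))
      · -- Near
        rw [hy2]
        unfold shc Pcs.Near
        refine List.rel_append ?_ (List.Forall₂.cons ?_ ?_)
        · rw [List.forall₂_map_left_iff]
          unfold Pcs.Near at hn1
          exact List.Forall₂.imp (fun a b hab => ⟨hab.1, hab.2.trans (by linarith)⟩) hn1
        · refine ⟨hq1, ?_⟩
          have e5 : Dq.nl X (sbq p q) = Dq.nl X q - ρ := by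
            unfold Pcs.nl
            rw [Dq_len, Dq_len, hρ]
            show (q.z - Real.log (nm p)) / Real.log X = _
            ring
          rw [e5]
          rw [abs_le]
          constructor <;> linarith [hq3.1, hq3.2]
        · unfold Pcs.Near at hn2
          exact List.Forall₂.imp (fun a b hab => ⟨hab.1, hab.2.trans (by linarith)⟩) hn2
      · exact Gran_mono hgran (by linarith) le_rfl
      · -- Good
        have hgood' : ∀ a ∈ us ++ gs, Dq.s1 a ≤ X ^ (ηs j) ∧ Dq.s2 a ≤ X ^ B ∧ 0 ≤ Dq.len a :=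
          fun a ha => ⟨(hgood a ha).1.trans
            (Real.rpow_le_rpow_of_exponent_le hX1.le (hηj j hlt)), (hgood a ha).2⟩
        have hBζ : X ^ B ≤ X ^ (B + ζ) :=
          Real.rpow_le_rpow_of_exponent_le hX1.le (by linarith)
        have hnmX : (nm p : ℝ) ≤ X ^ ζ := by
          refine hpn.trans ?_
          rw [hexps]
          exact Real.rpow_le_rpow_of_exponent_le hX1.le (by linarith)
        intro a ha
        rw [hy2, List.mem_append, List.mem_append, List.mem_cons] at ha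
        rcases ha with (ha | ha | ha) | ha
        · obtain ⟨b, hb, rfl⟩ := List.mem_map.1 ha
          have h5 := hgood' b (by rw [hus12]; simp [hb])
          refine ⟨h5.1, ?_, h5.2.2⟩
          show (nm (b.d * p) : ℝ) ≤ _
          rw [nm_mul, Real.rpow_add hXp]
          push_cast
          exact mul_le_mul h5.2.1 hnmX (Nat.cast_nonneg _) (Real.rpow_nonneg hXp.le _)
        · rw [ha]
          have h5 := hgood' q (by rw [hus12]; simp)
          refine ⟨h5.1, h5.2.1.trans hBζ, ?_⟩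
          show 0 ≤ q.z - Real.log (nm p)
          rw [← hnl]
          have h7 : ζ - δ ≤ Dq.nl X q := by linarith [hq3.1]
          have h8 : (ζ - δ) * Real.log X ≤ Dq.nl X q * Real.log X :=
            mul_le_mul_of_nonneg_right h7 hlog.le
          have h9 : (ζ - δ) * Real.log X = s + δ * Real.log X := by rw [hs]; ring
          linarith
        · have h5 := hgood' a (by rw [hus12]; simp [ha])
          exact ⟨h5.1, h5.2.1.trans hBζ, h5.2.2⟩
        · have h5 := hgood' a (by simp [ha])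
          exact ⟨h5.1, h5.2.1.trans hBζ, h5.2.2⟩
  have hsum2 : ((mkp P p hp0 us).map fun y =>
      FQ (w lam) (Q' lam) P h (k * Real.log X + e * Real.log (nm p)) (y.2 ++ gs)).sum ≤
      n * X ^ (E - ζ + ε / 2) := by
    have key : ∀ xs : List (ℂ × List Pq), (∀ y ∈ xs,
        FQ (w lam) (Q' lam) P h (k * Real.log X + e * Real.log (nm p)) (y.2 ++ gs) ≤ X ^ (E - ζ + ε / 2)) →
        (xs.map fun y => FQ (w lam) (Q' lam) P h (k * Real.log X + e * Real.log (nm p)) (y.2 ++ gs)).sum ≤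
          xs.length * X ^ (E - ζ + ε / 2) := by
      intro xs hxs
      induction xs with
      | nil => simp
      | cons y ys ih =>
        simp only [List.map_cons, List.sum_cons, List.length_cons]
        have h3 := hxs y List.mem_cons_self
        have h4 := ih fun z hz => hxs z (List.mem_cons_of_mem _ hz)
        push_cast
        linarith
    have h3 := key _ hpart2
    rw [mkp_length, hlen] at h3
    exact h3
  calc ((n : ℝ) + 1) * ((A.card : ℝ)⁻¹ * ∑ r ∈ bl (Real.exp (k * Real.log X) * Real.exp s ^ 3),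
        (tau r : ℝ) * ‖Lam (w lam r) (alL h ((us ++ gs).map (Pq.pc P)))‖ ^ 2 +
        ((mkp P p hp0 us).map fun y =>
          FQ (w lam) (Q' lam) P h (k * Real.log X + e * Real.log (nm p)) (y.2 ++ gs)).sum)
      ≤ (n + 1) * (Cτ * X ^ (E - ζ + ε / 2) + n * X ^ (E - ζ + ε / 2)) :=
        mul_le_mul_of_nonneg_left (add_le_add hpart1 hsum2) (by positivity)
    _ = C₁ * X ^ (E - ζ + ε / 2) := by rw [hC₁]; ring
    _ ≤ X ^ (ε / 2) * X ^ (E - ζ + ε / 2) :=
        mul_le_mul_of_nonneg_right hCX (Real.rpow_nonneg hXp.le _)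
    _ = X ^ (E - ζ + ε) := by rw [← Real.rpow_add hXp]; congr 1; ring

end Crest.Agent.R017.XMw298
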