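import Crest.Agent.R017.XPB_699

/-!
# Row 17: the clean Poisson rules, (P) only for `2 n ≤ E` (helper298, after helper699)
-/

set_option autoImplicit false

noncomputable section

open Set Filter Topology

namespace Crest.Agent.R017.XPX298

open Crest.Agent.R017.XG702 (Pcs BG)
open Crest.Agent.R017.Prov71
open Crest.Agent.R017.XP699

variable {Lam Pc : Type*}

/-- raw rules; as helper699's `Raw`, (P) only for `2 n ≤ E` -/
structure RawX (θ : ℝ) (D : Pcs Pc Kd) (R RF RN Rp S : Lam → ℝ → List Pc → ℝ) : Prop where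
  /-- all `k` = admissible + principal -/
  split : ∀ lam l ps, R lam l ps ≤ RN lam l ps + Rp lam l ps
  RN_le : ∀ lam l ps, RN lam l ps ≤ R lam l ps
  R_le : ∀ lam l ps, R lam l ps ≤ RF lam l ps
  monoRF : ∀ lam l l' ps, l ≤ l' → RF lam l ps ≤ RF lam l' ps
  monoSS : ∀ lam l l' ps, l ≤ l' → S lam l ps ≤ S lam l' ps
  rawP : ∀ (κ : ℝ) (u : List ℝ) (m a E : ℝ), 0 ≤ κ → Okl u m a → κ + (u.sum + m + a) ≤ E →
    2 * (u.sum + m + a) ≤ E →
    (∀ (u' : List ℝ) (m' a' l : ℝ), Shl u' u → 0 ≤ m' → m' ≤ m → 0 ≤ a' → a' ≤ a → 0 ≤ l →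
      2 * (u'.sum + m' + a') - κ ≤ l → l + (u'.sum + m' + a') ≤ 3 * (u.sum + m + a) - κ →
      BG D S l u' (wt m' a') (E - (u.sum + m + a) - κ / 3 + 2 / 3 * (l + (u'.sum + m' + a')))) →
    BG D RF κ u (wt m a) E
  rawG : ∀ (κ : ℝ) (u : List ℝ) (m a E : ℝ), 0 ≤ κ → Okl u m a → κ + (u.sum + m + a) ≤ E →
    (∀ (u' : List ℝ) (m' a' : ℝ), Shl u' u → 0 ≤ m' → m' ≤ m → 0 ≤ a' → a' ≤ a →
      κ ≤ 2 * (u.sum + m + a) →
      BG D RF (2 * (u.sum + m + a) - κ) u' (wt m' a') (E - κ + (u'.sum + m' + a'))) →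
    BG D S κ u (wt m a) E
  cubes : ∀ (κ : ℝ) (u : List ℝ) (m a E : ℝ), 0 ≤ κ → Okl u m a →
    (∀ i : ℝ, 0 ≤ i → i ≤ κ → BG D R i u (wt m a) (E - (κ - i) / 3)) → BG D RF κ u (wt m a) E
  mono : ∀ (κ κ' : ℝ) (u : List ℝ) (m a E : ℝ), 0 ≤ κ' → κ' ≤ κ → Okl u m a →
    BG D RF κ u (wt m a) E →
    (∀ (u₁ : List ℝ) (y : ℝ) (u₂ : List ℝ), u = u₁ ++ y :: u₂ → (κ - κ') / 3 ≤ y →
      BG D R κ' (u₁ ++ (y - (κ - κ') / 3) :: u₂) (wt m a) (E - (κ - κ') / 3)) →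
    BG D R κ' u (wt m a) (E - (κ - κ') / 3)
  monoS : ∀ (κ κ' : ℝ) (u : List ℝ) (m a E : ℝ), 0 ≤ κ' → κ' ≤ κ → Okl u m a →
    BG D S κ u (wt m a) E →
    (∀ (u₁ : List ℝ) (y : ℝ) (u₂ : List ℝ), u = u₁ ++ y :: u₂ → (κ - κ') / 3 ≤ y →
      BG D S (κ' + (κ - κ') / 3) (u₁ ++ (y - (κ - κ') / 3) :: u₂) (wt m a)
        (E - (κ - κ') / 3)) →
    BG D S κ' u (wt m a) (E - (κ - κ') / 3)
  colP : ∀ (i : ℝ) (u : List ℝ) (m a : ℝ), 0 ≤ i → Okl u m a →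
    BG D Rp i u (wt m a) (2 * a + 2 * θ * m)
  /-- smooth pieces longer than the family reduce to shorter ones -/
  cut : ∀ (i : ℝ) (u : List ℝ) (m a e : ℝ), 0 ≤ i → Okl u m a →
    (∀ u' : List ℝ, Shl u' u → (∀ y ∈ u', y ≤ i) → BG D RN i u' (wt m a) e) →
    BG D RN i u (wt m a) e
  hbG : ∀ (κ : ℝ) (u : List ℝ) (m a : ℝ), 0 ≤ κ → Okl u m a →
    BG D S κ u (wt m a) (max (κ + (u.sum + m + a)) (max (2 * (u.sum + m + a) + κ / 3)
      ((u.sum + m + a) + 2 / 3 * (κ + (u.sum + m + a)))))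

variable {θ : ℝ} {D : Pcs Pc Kd} {R RF RN Rp S : Lam → ℝ → List Pc → ℝ}

/-- the first form of `mono` -/
lemma RawX.mono' (H : RawX θ D R RF RN Rp S) (κ κ' : ℝ) (u : List ℝ) (m a E : ℝ) (h0 : 0 ≤ κ')
    (hκ : κ' ≤ κ) (hu : Okl u m a) (h : BG D RF κ u (wt m a) E)
    (h2 : ∀ (u' : List ℝ) (m' a' : ℝ), Shl u' u → 0 ≤ m' → m' ≤ m → 0 ≤ a' → a' ≤ a →
      (κ - κ') / 3 ≤ (u.sum + m + a) - (u'.sum + m' + a') →
      BG D R κ' u' (wt m' a') (E - (κ - κ') / 3)) :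
    BG D R κ' u (wt m a) (E - (κ - κ') / 3) := by
  refine H.mono κ κ' u m a E h0 hκ hu h fun u₁ y u₂ he hy => ?_
  refine h2 _ m a (shl_one he hu.1 (by linarith) hy) hu.2.1 le_rfl hu.2.2 le_rfl ?_
  rw [sum_one he]
  linarith

/-- **(P), clean form**, for all `k` -/
theorem RawX.poisC' (H : RawX θ D R RF RN Rp S) {κ : ℝ} {u : List ℝ} {m a E : ℝ} (hκ : 0 ≤ κ)
    (hu : Okl u m a) (hE1 : κ + (u.sum + m + a) ≤ E) (hE2 : 2 * (u.sum + m + a) ≤ E)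
    (hch : ∀ (u' : List ℝ) (m' a' i : ℝ), Shl u' u → 0 ≤ m' → m' ≤ m → 0 ≤ a' → a' ≤ a → 0 ≤ i →
      i ≤ 2 * (u'.sum + m' + a') - κ →
      BG D S i u' (wt m' a') (E - (κ + (u.sum + m + a) - 2 * (u'.sum + m' + a') +
        (2 * (u'.sum + m' + a') - κ - i) / 3))) {κ' : ℝ} (hκ'0 : 0 ≤ κ') (hκ' : κ' ≤ κ) :
    BG D R κ' u (wt m a) (E - (κ - κ') / 3) := by
  set n : ℝ := u.sum + m + a with hn
  refine XG702.BG.of_forall fun e' he' => ?_
  set ν : ℝ := (e' - (E - (κ - κ') / 3)) / 2 with hνdef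
  have hν : 0 < ν := by rw [hνdef]; linarith
  -- step 0
  obtain ⟨η₀, hη₀, hU⟩ := usc_unif (D := D) (Ψ := S) (compact_sh u m a κ)
    (f := fun p => 2 * ((∑ i, p.1 i) + p.2.1 + p.2.2) - κ)
    (T := fun p => E - (κ + n - 2 * ((∑ i, p.1 i) + p.2.1 + p.2.2))) (by fun_prop) (by fun_prop)
    (by
      rintro p ⟨⟨h1, h2⟩, ⟨h3, h4⟩, ⟨h5, h6⟩, h7⟩
      have hs : (List.ofFn p.1).sum = ∑ i, p.1 i := List.sum_ofFn
      have := hch (List.ofFn p.1) p.2.1 p.2.2 (2 * ((∑ i, p.1 i) + p.2.1 + p.2.2) - κ)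
        (shl_ofFn h1 h2) h3 h4 h5 h6 (by linarith) (by rw [hs])
      rw [hs] at this
      refine this.mono (le_of_eq ?_)
      ring) hν
  set η : ℝ := min (η₀ / 3) ν with hηdef
  have hη : 0 < η := lt_min (by linarith) hν
  have hη0 : 3 * η ≤ η₀ := by have := min_le_left (η₀ / 3) ν; linarith
  have hην : η ≤ ν := min_le_right _ _
  have step0 : ∀ (u' : List ℝ) (m' a' l : ℝ), Shl u' u → 0 ≤ m' → m' ≤ m → 0 ≤ a' → a' ≤ a →
      0 ≤ l → 2 * (u'.sum + m' + a') - κ ≤ l → l ≤ 2 * (u'.sum + m' + a') - κ + 3 * η →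
      BG D S l u' (wt m' a') (E - n - κ / 3 + 2 / 3 * (l + (u'.sum + m' + a')) + ν) := by
    intro u' m' a' l hsh hm0 hm1 ha0 ha1 hl0 hl1 hl2
    have hn' : 0 ≤ u'.sum := (shl_sum_nonneg hsh)
    rcases le_or_gt κ (2 * (u'.sum + m' + a')) with hc | hc
    · obtain ⟨x, hx0, hx1, rfl⟩ := exists_ofFn hsh
      have hs : (List.ofFn x).sum = ∑ i, x i := List.sum_ofFn
      rw [hs] at hc hl1 hl2 ⊢
      have := hU (x, m', a') ⟨⟨hx0, hx1⟩, ⟨hm0, hm1⟩, ⟨ha0, ha1⟩, hc⟩ l (by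
        rw [abs_le]; constructor <;> dsimp only <;> linarith)
      refine this.mono ?_
      dsimp only
      linarith
    · have := H.hbG l u' m' a' hl0 ⟨hsh.nonneg, hm0, ha0⟩
      refine this.mono ?_
      have h3 : l ≤ 3 * η := by linarith
      refine max_le ?_ (max_le ?_ ?_)
      · linarith
      · linarith
      · linarith
  -- the induction
  have claim : ∀ N : ℕ, ∀ (u' : List ℝ) (m' a' : ℝ), Shl u' u → 0 ≤ m' → m' ≤ m → 0 ≤ a' →
      a' ≤ a → u'.sum + m' + a' ≤ N * η →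
      BG D RF κ u' (wt m' a') (E - (n - (u'.sum + m' + a')) + ν) ∧
      ∀ i : ℝ, 0 ≤ i → i ≤ κ - 3 * η →
        BG D R i u' (wt m' a') (E - (n - (u'.sum + m' + a')) - (κ - i) / 3 + ν) := by
    intro N
    induction N with
    | zero =>
      intro u' m' a' hsh hm0 hm1 ha0 ha1 hN
      have hn' : 0 ≤ u'.sum := (shl_sum_nonneg hsh)
      have hz : u'.sum + m' + a' = 0 := by
        have : u'.sum + m' + a' ≤ 0 := by simpa using hN
        linarith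
      have hA : BG D RF κ u' (wt m' a') (E - (n - (u'.sum + m' + a')) + ν) := by
        refine H.rawP κ u' m' a' _ hκ ⟨hsh.nonneg, hm0, ha0⟩ (by linarith) (by linarith) ?_
        intro u₂ m₂ a₂ l hsh₂ hm₂ hm₂' ha₂ ha₂' hl hl1 hl2
        have := (shl_sum_nonneg hsh₂)
        have hn₂ : u₂.sum + m₂ + a₂ ≤ u'.sum + m' + a' := by
          linarith [(shl_sum_le hsh₂)]
        have := step0 u₂ m₂ a₂ l (shl_trans hsh₂ hsh) hm₂ (hm₂'.trans hm1) ha₂ (ha₂'.trans ha1) hl hl1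
          (by linarith)
        refine this.mono ?_
        linarith
      refine ⟨hA, fun i hi0 hi1 => ?_⟩
      have := H.mono' κ i u' m' a' _ hi0 (by linarith) ⟨hsh.nonneg, hm0, ha0⟩ hA (by
        intro u₂ m₂ a₂ hsh₂ hm₂ hm₂' ha₂ ha₂' hle
        have := (shl_sum_nonneg hsh₂)
        exfalso
        linarith)
      exact this.mono (by linarith)
    | succ N ih =>
      intro u' m' a' hsh hm0 hm1 ha0 ha1 hN
      push_cast at hN
      have hA : BG D RF κ u' (wt m' a') (E - (n - (u'.sum + m' + a')) + ν) := by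
        refine H.rawP κ u' m' a' _ hκ ⟨hsh.nonneg, hm0, ha0⟩ ?_ ?_ ?_
        · linarith
        · linarith [(shl_sum_le hsh)]
        intro u₂ m₂ a₂ l hsh₂ hm₂ hm₂' ha₂ ha₂' hl hl1 hl2
        have hsum₂ := (shl_sum_nonneg hsh₂)
        have hsle₂ := (shl_sum_le hsh₂)
        rcases le_or_gt l (2 * (u₂.sum + m₂ + a₂) - κ + 3 * η) with hc | hc
        · have := step0 u₂ m₂ a₂ l (shl_trans hsh₂ hsh) hm₂ (hm₂'.trans hm1) ha₂ (ha₂'.trans ha1) hl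
            hl1 hc
          refine this.mono ?_
          linarith
        · -- `φ ≥ η` : use (P')
          have hlen : u₂.sum + m₂ + a₂ ≤ N * η := by linarith
          have hu'n : u'.sum + m' + a' ≤ n := by linarith [(shl_sum_le hsh)]
          refine H.rawG l u₂ m₂ a₂ _ hl ⟨hsh₂.nonneg, hm₂, ha₂⟩ ?_ ?_
          · linarith
          intro u₃ m₃ a₃ hsh₃ hm₃ hm₃' ha₃ ha₃' hl3
          have hsle₃ := (shl_sum_le hsh₃)
          refine H.cubes (2 * (u₂.sum + m₂ + a₂) - l) u₃ m₃ a₃ _ (by linarith)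
            ⟨hsh₃.nonneg, hm₃, ha₃⟩ ?_
          intro i hi0 hi1
          have := (ih u₃ m₃ a₃ (shl_trans hsh₃ (shl_trans hsh₂ hsh)) hm₃ (hm₃'.trans (hm₂'.trans hm1)) ha₃
            (ha₃'.trans (ha₂'.trans ha1)) (by linarith)).2 i hi0 (by linarith)
          refine this.mono (le_of_eq ?_)
          ring
      refine ⟨hA, fun i hi0 hi1 => ?_⟩
      have := H.mono' κ i u' m' a' _ hi0 (by linarith) ⟨hsh.nonneg, hm0, ha0⟩ hA (by
        intro u₂ m₂ a₂ hsh₂ hm₂ hm₂' ha₂ ha₂' hle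
        have := (ih u₂ m₂ a₂ (shl_trans hsh₂ hsh) hm₂ (hm₂'.trans hm1) ha₂ (ha₂'.trans ha1)
          (by linarith)).2 i hi0 hi1
        refine this.mono ?_
        linarith)
      exact this.mono (by linarith)
  have hN : u.sum + m + a ≤ (⌈n / η⌉₊ : ℕ) * η := by
    have := Nat.le_ceil (n / η)
    rw [div_le_iff₀ hη] at this
    exact this
  have hfin := claim ⌈n / η⌉₊ u m a (shl_refl hu.1) hu.2.1 le_rfl hu.2.2 le_rfl hN
  rcases le_or_gt κ' (κ - 3 * η) with hc | hc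
  · refine (hfin.2 κ' hκ'0 hc).mono ?_
    rw [← hn, sub_self, sub_zero]
    linarith
  · have h1 : BG D R κ u (wt m a) (E - (n - (u.sum + m + a)) + ν) := hfin.1.comp H.R_le
    have h2 : BG D RF κ' u (wt m a) (E - (n - (u.sum + m + a)) + ν) :=
      BG_mono_l H.monoRF hfin.1 hκ'
    refine (h2.comp H.R_le).mono ?_
    rw [← hn, sub_self, sub_zero]
    linarith

/-- **(P), clean form** (literally `BRules.poisC`) -/
theorem RawX.poisC (H : RawX θ D R RF RN Rp S) : ∀ (κ : ℝ) (u : List ℝ) (m a E : ℝ), 0 ≤ κ →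
    Okl u m a → κ + (u.sum + m + a) ≤ E → 2 * (u.sum + m + a) ≤ E →
    (∀ (u' : List ℝ) (m' a' i : ℝ), Shl u' u → 0 ≤ m' → m' ≤ m → 0 ≤ a' → a' ≤ a → 0 ≤ i →
      i ≤ 2 * (u'.sum + m' + a') - κ →
      BG D S i u' (wt m' a') (E - (κ + (u.sum + m + a) - 2 * (u'.sum + m' + a') +
        (2 * (u'.sum + m' + a') - κ - i) / 3))) →
    ∀ κ' : ℝ, 0 ≤ κ' → κ' ≤ κ → BG D RN κ' u (wt m a) (E - (κ - κ') / 3) :=
  fun _ _ _ _ _ hκ hu hE1 hE2 hch _ h0 h1 => (H.poisC' hκ hu hE1 hE2 hch h0 h1).comp H.RN_le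

/-- **(P'), clean form** (literally `BRules.poisG`; merged form of helper911) -/
theorem RawX.poisG (H : RawX θ D R RF RN Rp S) :
    ∀ (κ : ℝ) (u : List ℝ) (m a E : ℝ), 0 ≤ κ → Okl u m a →
    κ + (u.sum + m + a) ≤ E →
    (∀ (u' : List ℝ) (m' a' i : ℝ), Shl u' u → 0 ≤ m' → m' ≤ m → 0 ≤ a' → a' ≤ a → 0 ≤ i →
      (∀ y ∈ u', y ≤ i) → i ≤ 2 * (u.sum + m + a) - κ →
      BG D RN i u' (wt m' a') (E - (κ - (u'.sum + m' + a') +
        (2 * (u.sum + m + a) - κ - i) / 3))) →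
    (∀ (u' : List ℝ) (m' a' : ℝ), Shl u' u → 0 ≤ m' → m' ≤ m → 0 ≤ a' → a' ≤ a →
      κ ≤ 2 * (u.sum + m + a) →
      κ - (u'.sum + m' + a') + (2 * (u.sum + m + a) - κ) / 3 + 2 * a' + 2 * θ * m' ≤ E) →
    ∀ κ' : ℝ, 0 ≤ κ' → κ' ≤ κ → BG D S κ' u (wt m a) (E - (κ - κ') / 3) := by
  intro κ u m a E hκ hu hE1 hch hcube κ' hκ'0 hκ'
  set n : ℝ := u.sum + m + a with hn
  refine XG702.BG.of_forall fun e' he' => ?_
  set η : ℝ := e' - (E - (κ - κ') / 3) with hηdef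
  have hη : 0 < η := by rw [hηdef]; linarith
  -- all shortenings at `κ`
  have hA : ∀ (u₁ : List ℝ) (m₁ a₁ : ℝ), Shl u₁ u → 0 ≤ m₁ → m₁ ≤ m → 0 ≤ a₁ → a₁ ≤ a →
      BG D S κ u₁ (wt m₁ a₁) (E - 2 / 3 * (n - (u₁.sum + m₁ + a₁))) := by
    intro u₁ m₁ a₁ hsh₁ hm₁ hm₁' ha₁ ha₁'
    have hs₁ := (shl_sum_nonneg hsh₁)
    have hs₁' := (shl_sum_le hsh₁)
    refine H.rawG κ u₁ m₁ a₁ _ hκ ⟨hsh₁.nonneg, hm₁, ha₁⟩ (by linarith) ?_
    intro u' m' a' hsh hm0 hm1 ha0 ha1 hκn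
    have hs := (shl_sum_nonneg hsh)
    have hs' := (shl_sum_le hsh)
    refine H.cubes _ u' m' a' _ (by linarith) ⟨hsh.nonneg, hm0, ha0⟩ ?_
    intro i hi0 hi1
    refine BG_of_add H.split ?_ ?_
    · refine H.cut i u' m' a' _ hi0 ⟨hsh.nonneg, hm0, ha0⟩ fun u₂ hsh₂ hy => ?_
      have hs₂ := shl_sum_le hsh₂
      refine (hch u₂ m' a' i (shl_trans hsh₂ (shl_trans hsh hsh₁)) hm0 (hm1.trans hm₁') ha0
        (ha1.trans ha₁') hi0 hy (by linarith)).mono ?_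
      linarith
    · refine (H.colP i u' m' a' hi0 ⟨hsh.nonneg, hm0, ha0⟩).mono ?_
      have := hcube u' m' a' (shl_trans hsh hsh₁) hm0 (hm1.trans hm₁') ha0 (ha1.trans ha₁')
        (by linarith)
      linarith
  -- induction on the length
  have claim : ∀ N : ℕ, ∀ (u₁ : List ℝ), Shl u₁ u → u₁.sum + m + a ≤ N * η →
      ∀ κ'' : ℝ, 0 ≤ κ'' → κ'' ≤ κ →
        BG D S κ'' u₁ (wt m a) (E - 2 / 3 * (n - (u₁.sum + m + a)) + η - (κ - κ'') / 3) := by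
    intro N
    induction N with
    | zero =>
      intro u₁ hsh hN κ'' hk0 hk
      have hs := (shl_sum_nonneg hsh)
      have hN' : u₁.sum + m + a ≤ 0 := by simpa using hN
      have h1 := (hA u₁ m a hsh hu.2.1 le_rfl hu.2.2 le_rfl).mono
        (show E - 2 / 3 * (n - (u₁.sum + m + a)) ≤ E - 2 / 3 * (n - (u₁.sum + m + a)) + η by
          linarith)
      rcases le_or_gt ((κ - κ'') / 3) η with hc | hc
      · refine (BG_mono_l H.monoSS (hA u₁ m a hsh hu.2.1 le_rfl hu.2.2 le_rfl) hk).mono ?_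
        linarith
      · refine H.monoS κ κ'' u₁ m a _ hk0 hk ⟨hsh.nonneg, hu.2.1, hu.2.2⟩ h1 ?_
        intro v₁ y v₂ he hy
        exfalso
        have h2 : y ≤ u₁.sum := by
          rw [he]
          have h3 : ∀ x ∈ v₁ ++ y :: v₂, 0 ≤ x := by rw [← he]; exact hsh.nonneg
          exact List.single_le_sum h3 y (by simp)
        linarith [hu.2.1, hu.2.2]
    | succ N ih =>
      intro u₁ hsh hN κ'' hk0 hk
      push_cast at hN
      have h1 := (hA u₁ m a hsh hu.2.1 le_rfl hu.2.2 le_rfl).mono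
        (show E - 2 / 3 * (n - (u₁.sum + m + a)) ≤ E - 2 / 3 * (n - (u₁.sum + m + a)) + η by
          linarith)
      rcases le_or_gt ((κ - κ'') / 3) η with hc | hc
      · refine (BG_mono_l H.monoSS (hA u₁ m a hsh hu.2.1 le_rfl hu.2.2 le_rfl) hk).mono ?_
        linarith
      · refine H.monoS κ κ'' u₁ m a _ hk0 hk ⟨hsh.nonneg, hu.2.1, hu.2.2⟩ h1 ?_
        intro v₁ y v₂ he hy
        have hsh2 := shl_one (ζ := (κ - κ'') / 3) he hsh.nonneg (by linarith) hy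
        have hsum := sum_one (ζ := (κ - κ'') / 3) he
        refine (ih _ (shl_trans hsh2 hsh) (by rw [hsum]; linarith) (κ'' + (κ - κ'') / 3)
          (by linarith) (by linarith)).mono ?_
        rw [hsum]
        linarith
  have hN : u.sum + m + a ≤ (⌈n / η⌉₊ : ℕ) * η := by
    have := Nat.le_ceil (n / η)
    rw [div_le_iff₀ hη] at this
    exact this
  refine (claim ⌈n / η⌉₊ u (shl_refl hu.1) hN κ' hκ'0 hκ').mono ?_
  rw [← hn, sub_self, mul_zero, sub_zero, hηdef]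
  linarith

end Crest.Agent.R017.XPX298
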