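import Crest.Agent.R017.XEx_298
import Crest.Agent.R017.XColx_298
import Crest.Agent.R017.XPBx_298
import Crest.Agent.R017.XMw_298
import Crest.Agent.R017.XPD_571
import Crest.Agent.R017.DkB_848

/-!
# Row 17, exceptional class: the raw rules (helper298)

`cc : Lam → Eis` : the smooth pieces are principal at `k` iff `k * cc lam` is a cube
* `NC c`, `RF1`, `R1`, `RP1` : the sets of `k` and the functionals of the exceptional class
* `GaussX π S` : the rules for the Gauss side; `gaussX_848` : `S = SKq Dk`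
* `RawPX`, `RawGX` : the two open rules (P), (P')
* `raw_ex` : the raw rules from them
* `openX_of`, `provX` : `OpenX` and the bundle
-/

set_option autoImplicit false

noncomputable section

open scoped ComplexConjugate

namespace Crest.Agent.R017.XEr298

open Crest.Agent.R012 Crest.Agent.R012.Eis Crest.Agent.R012.LS2
open Crest.Agent.R012.T411 (NCube)
open Crest.Agent.R017.XG702 (Pcs BG Loc)
open Crest.Agent.R017.ER911
open Crest.Agent.R017.B770 Crest.Agent.R017.FE47 Crest.Agent.R017.End699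
open Crest.Agent.R017.Prov71
open Crest.Agent.R017.XHB411 (idt idt_nonneg)
open Crest.Agent.R017.Lbc298 (bg_idt)
open Crest.Agent.R017.XEx298
open Crest.Agent.R017.PX764 (Dk)

variable {Lam : Type*}

/-- the extra term is monotone -/
lemma idt_mono_l {l l' : ℝ} (h : l ≤ l') (ps : List Pq) : idt Zl l ps ≤ idt Zl l' ps := by
  unfold XHB411.idt
  by_cases hz : 0 ≤ l ∧ Zl l ps
  · rw [if_pos hz, if_pos ⟨hz.1.trans h, fun p hp hl => (hz.2 p hp hl).trans h⟩]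
    exact Real.exp_le_exp.2 (by linarith)
  · rw [if_neg hz]
    exact idt_nonneg Zl l' ps

/-- the `k` with `k c` not a cube -/
def NC (c : Eis) (k : Eis) : Prop := NCube (k * c)

lemma NC_one : NC 1 = NCube := by
  funext k; unfold NC; rw [mul_one]

/-- `Rt` over an arbitrary set of `k` -/
def RtQ (Q : Eis → Prop) (P : DPar) (h : ℝ → ℝ) (l : ℝ) (ps : List Pq) : ℝ :=
  RQ Q h l (ps.map (Pq.pc P)) + idt Zl l ps

lemma RtQ_Qp (P : DPar) (h : ℝ → ℝ) : RtQ (Qp P) P h = Rt P h := rfl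

/-- all noncubes -/
abbrev RF1 (cc : Lam → Eis) (π : Lam → DPar) (h : ℝ → ℝ) : Lam → ℝ → List Pq → ℝ :=
  fun lam => RtQ (NC (cc lam)) (π lam) h

/-- cube-free noncubes -/
abbrev R1 (cc : Lam → Eis) (π : Lam → DPar) (h : ℝ → ℝ) : Lam → ℝ → List Pq → ℝ :=
  fun lam => RtQ (fun k => NC (cc lam) k ∧ CubeFree k) (π lam) h

/-- cube-free noncubes with principal amplifier -/
abbrev RP1 (cc : Lam → Eis) (π : Lam → DPar) (h : ℝ → ℝ) : Lam → ℝ → List Pq → ℝ :=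
  fun lam l ps => RQ (fun k => (NC (cc lam) k ∧ CubeFree k) ∧ ¬ (π lam).NP2 k) h l
    (ps.map (Pq.pc (π lam)))

/-- the raw rule (P) of the exceptional class -/
def RawPX (cc : Lam → Eis) (π : Lam → DPar) (h : ℝ → ℝ) (S : Lam → ℝ → List Pq → ℝ) : Prop :=
  ∀ (κ : ℝ) (u : List ℝ) (m a E : ℝ), 0 ≤ κ → Okl u m a → κ + (u.sum + m + a) ≤ E →
    2 * (u.sum + m + a) ≤ E →
    (∀ (u' : List ℝ) (m' a' l : ℝ), Shl u' u → 0 ≤ m' → m' ≤ m → 0 ≤ a' → a' ≤ a → 0 ≤ l →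
      2 * (u'.sum + m' + a') - κ ≤ l → l + (u'.sum + m' + a') ≤ 3 * (u.sum + m + a) - κ →
      BG Dq S l u' (wt m' a')
        (E - (u.sum + m + a) - κ / 3 + 2 / 3 * (l + (u'.sum + m' + a')))) →
    BG Dq (fun lam l ps => RQ (NC (cc lam)) h l (ps.map (Pq.pc (π lam))) + idt Zl l ps) κ u
      (wt m a) E

/-- the raw rule (P') of the exceptional class -/
def RawGX (cc : Lam → Eis) (π : Lam → DPar) (h : ℝ → ℝ) (S : Lam → ℝ → List Pq → ℝ) : Prop :=
  ∀ (κ : ℝ) (u : List ℝ) (m a E : ℝ), 0 ≤ κ → Okl u m a → κ + (u.sum + m + a) ≤ E →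
    (∀ (u' : List ℝ) (m' a' : ℝ), Shl u' u → 0 ≤ m' → m' ≤ m → 0 ≤ a' → a' ≤ a →
      κ ≤ 2 * (u.sum + m + a) →
      BG Dq (fun lam l ps => RQ (NC (cc lam)) h l (ps.map (Pq.pc (π lam))) + idt Zl l ps)
        (2 * (u.sum + m + a) - κ) u' (wt m' a') (E - κ + (u'.sum + m' + a'))) →
    BG Dq S κ u (wt m a) E

/-- **the rules for the Gauss side** -/
structure GaussX (S : Lam → ℝ → List Pq → ℝ) : Prop where
  permS : Pinv S
  trivS : Triv Dq S
  monoSS : ∀ lam l l' ps, l ≤ l' → S lam l ps ≤ S lam l' ps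
  monoS : ∀ (κ κ' : ℝ) (u : List ℝ) (m a E : ℝ), 0 ≤ κ' → κ' ≤ κ → Okl u m a →
    BG Dq S κ u (wt m a) E →
    (∀ (u₁ : List ℝ) (y : ℝ) (u₂ : List ℝ), u = u₁ ++ y :: u₂ → (κ - κ') / 3 ≤ y →
      BG Dq S (κ' + (κ - κ') / 3) (u₁ ++ (y - (κ - κ') / 3) :: u₂) (wt m a)
        (E - (κ - κ') / 3)) →
    BG Dq S κ' u (wt m a) (E - (κ - κ') / 3)
  hbG : ∀ (κ : ℝ) (u : List ℝ) (m a : ℝ), 0 ≤ κ → Okl u m a →
    BG Dq S κ u (wt m a) (max (κ + (u.sum + m + a)) (max (2 * (u.sum + m + a) + κ / 3)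
      ((u.sum + m + a) + 2 / 3 * (κ + (u.sum + m + a)))))
  cau : ∀ (κ : ℝ) (u : List ℝ) (m a b c e : ℝ), 0 ≤ κ → Okl u m a → 0 ≤ b → b ≤ m → 0 ≤ c →
    c ≤ a → BG Dq S (κ + (b + c)) u (wt (m - b) (a - c)) e → BG Dq S κ u (wt m a) ((b + c) + e)
  cauS : ∀ (κ y : ℝ) (u : List ℝ) (m a e : ℝ), 0 ≤ κ → 0 ≤ y → Okl u m a →
    BG Dq S (κ + y) u (wt m a) e → BG Dq S κ (y :: u) (wt m a) (y + e)

/-- the kernel `Dk` (helper848, helper858) -/
theorem gaussX_848 {π : Lam → DPar} (hP : ∀ lam, (π lam).OK) {h : ℝ → ℝ} {c : ℝ} (hh : PU h c) :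
    GaussX (fun lam => XC858.SKq Dk (π lam) h) where
  permS := Dk848.pinv_SD π h
  trivS := Dk848.triv_SD hP hh
  monoSS lam l l' ps hl := Dk848.mono_SD _ _ ps hl
  monoS κ κ' u m a E _ hκ _ h1 h2 := Dk848.monoD hP hh hκ h1 h2
  hbG κ u m a _ _ := Dk848.bg_SKq hP hh κ u m a
  cau := Dk848.cauD hP hh
  cauS := Dk848.cauSD hP hh

section

variable {π : Lam → DPar} {h : ℝ → ℝ} {cc : Lam → Eis} {S : Lam → ℝ → List Pq → ℝ}

lemma RtQ_R {Q : Lam → Eis → Prop} {κ : ℝ} {u : List ℝ} {w : Kd → ℝ} {e : ℝ}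
    (H : BG Dq (fun lam => RtQ (Q lam) (π lam) h) κ u w e) :
    BG Dq (fun lam l ps => RQ (Q lam) h l (ps.map (Pq.pc (π lam)))) κ u w e :=
  H.comp fun lam l ps => by
    show RQ (Q lam) h l (ps.map (Pq.pc (π lam))) ≤
      RQ (Q lam) h l (ps.map (Pq.pc (π lam))) + idt Zl l ps
    have := idt_nonneg Zl l ps
    linarith

lemma RQ_nonneg' (Q : Eis → Prop) (h : ℝ → ℝ) (l : ℝ) (ps : List HP842.Pc) : 0 ≤ RQ Q h l ps := by
  classical
  unfold RQ
  refine Finset.sum_nonneg fun k _ => List.prod_nonneg ?_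
  intro a ha
  obtain ⟨p, _, rfl⟩ := List.mem_map.1 ha
  positivity

lemma RtQ_idt {Q : Lam → Eis → Prop} {κ : ℝ} {u : List ℝ} {w : Kd → ℝ} {e : ℝ}
    (H : BG Dq (fun lam => RtQ (Q lam) (π lam) h) κ u w e) :
    BG Dq (fun _ : Lam => idt Zl) κ u w e :=
  H.comp fun lam l ps => by
    show idt Zl l ps ≤ RQ (Q lam) h l (ps.map (Pq.pc (π lam))) + idt Zl l ps
    have := RQ_nonneg' (Q lam) h l (ps.map (Pq.pc (π lam)))
    linarith

lemma RtQ_of {Q : Lam → Eis → Prop} {κ : ℝ} {u : List ℝ} {w : Kd → ℝ} {e : ℝ}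
    (h1 : BG Dq (fun lam l ps => RQ (Q lam) h l (ps.map (Pq.pc (π lam)))) κ u w e)
    (h2 : BG Dq (fun _ : Lam => idt Zl) κ u w e) :
    BG Dq (fun lam => RtQ (Q lam) (π lam) h) κ u w e :=
  BG_add h1 h2 (fun _ _ _ => le_rfl)

/-- the extra term at `κ'` -/
lemma idt_at {κ : ℝ} {u : List ℝ} {m a e : ℝ}
    (h2 : (∀ y ∈ u, y ≤ κ) → κ + (u.sum + m + a) ≤ e) :
    BG Dq (fun _ : Lam => idt Zl) κ u (wt m a) e := by
  by_cases hc : ∀ y ∈ u, y ≤ κ
  · exact (bg_idt Zl κ u m a).mono (h2 hc)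
  · push Not at hc
    exact idt_void hc e

/-! ### monotonicity over the noncubes -/

lemma ncube_cube {x p : Eis} (hp : Prime p) : NCube (x * p ^ 3) ↔ NCube x := by
  constructor
  · rintro ⟨h0, h1⟩
    refine ⟨left_ne_zero_of_mul h0, fun m hm => h1 (m * p) ?_⟩
    rw [hm]; ring
  · rintro ⟨h0, h1⟩
    refine ⟨mul_ne_zero h0 (pow_ne_zero 3 hp.ne_zero), fun m hm => ?_⟩
    have h2 : p ∣ m := hp.dvd_of_dvd_pow (n := 3) ⟨x * p ^ 2, by rw [← hm]; ring⟩
    obtain ⟨c, rfl⟩ := h2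
    refine h1 c ?_
    have h3 : p ^ 3 ≠ 0 := pow_ne_zero 3 hp.ne_zero
    refine mul_right_cancel₀ h3 ?_
    rw [hm]; ring

lemma nc_cube {c x p : Eis} (hp : Prime p) : NC c (x * p ^ 3) ↔ NC c x := by
  unfold NC
  rw [show x * p ^ 3 * c = x * c * p ^ 3 by ring]
  exact ncube_cube hp

lemma NC.ne_zero {c k : Eis} (h : NC c k) : k ≠ 0 := left_ne_zero_of_mul h.1

lemma nc_red {c k : Eis} (hk : k ≠ 0) (h : NC c k) : NC c (Lbc298.red k) := by
  refine ⟨mul_ne_zero (Lbc298.red_ne_zero hk) (right_ne_zero_of_mul h.1), fun m hm =>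
    h.2 (m * (Lbc298.dc k).m) ?_⟩
  conv_lhs => rw [Lbc298.red_mul hk]
  calc Lbc298.red k * (Lbc298.dc k).m ^ 3 * c = (Lbc298.red k * c) * (Lbc298.dc k).m ^ 3 := by
        ring
    _ = _ := by rw [hm]; ring

open Classical in
/-- the weight of the noncubes -/
def wN (c x m : Eis) : ℂ := if NC c x then sy x m else 0

lemma wt3_wN (c : Eis) : Mono858.Wt3 (wN c) 0 where
  c1 x p m hp hpp hm hc := by
    unfold wN
    by_cases hx : NC c x
    · rw [if_pos hx, if_pos ((nc_cube hp).2 hx)]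
      exact Mono858.wt3_sy.c1 x p m hp hpp hm hc
    · rw [if_neg hx, if_neg fun H => hx ((nc_cube hp).1 H)]
  c2 x p m hp hpp hm hc := by
    unfold wN
    by_cases hx : NC c (x * p ^ 3)
    · rw [if_pos hx]
      exact Mono858.wt3_sy.c2 x p m hp hpp hm hc
    · rw [if_neg hx]
  c3 x p hp hpp := by
    obtain ⟨z, hz, h1⟩ := Mono858.wt3_sy.c3 x p hp hpp
    refine ⟨z, hz, fun m hm => ?_⟩
    have h2 := h1 m hm
    simp only [pow_zero, mul_one] at h2 ⊢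
    unfold wN
    by_cases hx : NC c x
    · rw [if_pos hx, if_pos hx]; exact h2
    · rw [if_neg hx, if_neg hx, mul_zero]

lemma FQ_wN (c : Eis) (P : DPar) (h : ℝ → ℝ) (Q : Eis → Prop) :
    Mono858.FQ (wN c) Q P h = Mono858.FQ (fun x m => sy x m) (fun k => NC c k ∧ Q k) P h := by
  classical
  funext l ps
  unfold Mono858.FQ
  have e1 : ∀ x : Eis, ‖Mono858.Lam (wN c x) (HP842.alL h (ps.map (Pq.pc P)))‖ ^ 2 =
      if NC c x then ‖Mono858.Lam (fun m => sy x m) (HP842.alL h (ps.map (Pq.pc P)))‖ ^ 2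
        else 0 := by
    intro x
    by_cases hx : NC c x
    · rw [if_pos hx]
      have : wN c x = fun m => sy x m := by funext m; unfold wN; rw [if_pos hx]
      rw [this]
    · rw [if_neg hx]
      have : wN c x = fun _ => 0 := by funext m; unfold wN; rw [if_neg hx]
      rw [this]
      unfold Mono858.Lam
      simp
  rw [Finset.sum_congr rfl fun x _ => e1 x, ← Finset.sum_filter, Finset.filter_filter]
  refine Finset.sum_congr ?_ fun _ _ => rfl
  ext x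
  simp only [Finset.mem_filter]
  tauto

/-- **monotonicity over the noncubes** -/
theorem mono_nc {c₀ : ℝ} (hP : ∀ lam, (π lam).OK) (hh : PU h c₀)
    {κ κ' E : ℝ} {u : List ℝ} {wm : Kd → ℝ} (hκ : κ' ≤ κ)
    (h1 : BG Dq (fun lam l ps => RQ (NC (cc lam)) h l (ps.map (Pq.pc (π lam)))) κ u wm E)
    (h2 : ∀ u₁ y u₂, u = u₁ ++ y :: u₂ → (κ - κ') / 3 ≤ y →
      BG Dq (fun lam l ps => RQ (fun k => NC (cc lam) k ∧ CubeFree k) h l
        (ps.map (Pq.pc (π lam)))) κ'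
        (u₁ ++ (y - (κ - κ') / 3) :: u₂) wm (E - (κ - κ') / 3)) :
    BG Dq (fun lam l ps => RQ (fun k => NC (cc lam) k ∧ CubeFree k) h l
      (ps.map (Pq.pc (π lam)))) κ' u wm (E - (κ - κ') / 3) := by
  have hB := bump_of_cs hh.cs
  have e1 : (fun (lam : Lam) l ps => RQ (fun k => NC (cc lam) k ∧ CubeFree k) h l
      (ps.map (Pq.pc (π lam)))) = fun lam => Mono858.FQ (wN (cc lam)) CubeFree (π lam) h := by
    funext lam
    rw [FQ_wN, Mono858.FQ_sy (hP lam) hB]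
    rfl
  have e2 : (fun (lam : Lam) l ps => RQ (NC (cc lam)) h l (ps.map (Pq.pc (π lam)))) =
      fun lam => Mono858.FQ (wN (cc lam)) (fun _ => True) (π lam) h := by
    funext lam
    rw [FQ_wN, Mono858.FQ_sy (hP lam) hB]
    have : (fun k => NC (cc lam) k ∧ True) = NC (cc lam) := by funext k; simp
    rw [this]
    rfl
  rw [e1] at h2 ⊢
  rw [e2] at h1
  refine XMw298.BG_monoL (e := 0) (w := fun lam => wN (cc lam)) (Q' := fun _ => CubeFree)
    (Q := fun _ => CubeFree) (fun lam => wt3_wN (cc lam)) hh hP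
    (fun lam x p hx _ => by rw [pow_zero, mul_one]; exact hx) hκ h1 ?_
  intro u₁ y u₂ hu hy
  rw [Nat.cast_zero, zero_mul, add_zero]
  exact h2 u₁ y u₂ hu hy

/-- **all noncubes from the cube-free ones** -/
theorem cubes_nc (hP : ∀ lam, (π lam).OK) (hh : Bump h) {κ E : ℝ} {u : List ℝ} {w : Kd → ℝ}
    (hκ : 0 ≤ κ)
    (H : ∀ i, 0 ≤ i → i ≤ κ → BG Dq (fun (lam : Lam) l ps =>
      RQ (fun k => NC (cc lam) k ∧ CubeFree k) h l (ps.map (Pq.pc (π lam)))) i u w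
        (E - (κ - i) / 3)) :
    BG Dq (fun (lam : Lam) l ps => RQ (NC (cc lam)) h l (ps.map (Pq.pc (π lam)))) κ u w E :=
  BG_cubes tws_tw (fun lam l ps _ => PQ_cubes' 2 (hP lam) hh (NC (cc lam))
    (fun _ hk hQ => nc_red hk hQ) l ps) (fun _ _ _ hl => PQ_neg 2 _ h hl _) hκ H

/-- **the raw rules of the exceptional class** -/
theorem raw_ex {θ : ℝ} (hθ : 1 / 2 < θ) (hθ1 : θ ≤ 1) (hPF : PF Set.univ θ) {c : ℝ}
    (hh : PU h c) (hP : ∀ lam, (π lam).OK)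
    (hE : ∀ lam, ∀ k : Eis, k ≠ 0 →
      (Sup271.NPm (π lam).n (π lam).ψ (π lam).l₂ k ↔ NC (cc lam) k))
    (hS : GaussX S) (hrawP : RawPX cc π h S) (hrawG : RawGX cc π h S) :
    XPX298.RawX θ Dq (R1 cc π h) (RF1 cc π h) (fun lam => Rt (π lam) h) (RP1 cc π h) S where
  split lam l ps := by
    show RQ _ h l _ + idt Zl l ps ≤ (RQ (Qp (π lam)) h l _ + idt Zl l ps) + RQ _ h l _
    have h1 := XPD571.RQ_split (fun k => NC (cc lam) k ∧ CubeFree k) (Qp (π lam))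
      (fun k => (NC (cc lam) k ∧ CubeFree k) ∧ ¬ (π lam).NP2 k) (fun k hk => by
        by_cases h1 : (π lam).NP2 k
        · exact Or.inl ⟨h1, hk.2⟩
        · exact Or.inr ⟨hk, h1⟩) h l (ps.map (Pq.pc (π lam)))
    linarith
  RN_le lam l ps := by
    show RQ (Qp (π lam)) h l _ + idt Zl l ps ≤ RQ _ h l _ + idt Zl l ps
    have h1 := RQ_mono_set (Q := Qp (π lam)) (Q' := fun k => NC (cc lam) k ∧ CubeFree k)
      (fun k hk => ⟨(hE lam k hk.2.1).1 hk.1.2, hk.2⟩) h l (ps.map (Pq.pc (π lam)))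
    linarith
  R_le lam l ps := by
    show RQ _ h l _ + idt Zl l ps ≤ RQ _ h l _ + idt Zl l ps
    have h1 := RQ_mono_set (Q := fun k => NC (cc lam) k ∧ CubeFree k) (Q' := NC (cc lam))
      (fun k hk => hk.1) h l (ps.map (Pq.pc (π lam)))
    linarith
  monoRF lam l l' ps hl := by
    show RQ _ h l _ + idt Zl l ps ≤ RQ _ h l' _ + idt Zl l' ps
    have h1 := XPD571.RQ_mono_l (NC (cc lam)) h hl (ps.map (Pq.pc (π lam)))
    have h2 := idt_mono_l hl ps
    linarith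
  monoSS := hS.monoSS
  rawP := hrawP
  rawG := hrawG
  cubes κ u m a E hκ _ H := by
    refine RtQ_of (Q := fun lam => NC (cc lam)) (cubes_nc hP (bump_of_cs hh.cs) hκ
      fun i h0 h1 => RtQ_R (Q := fun lam k => NC (cc lam) k ∧ CubeFree k) (H i h0 h1)) ?_
    have h1 := RtQ_idt (Q := fun lam k => NC (cc lam) k ∧ CubeFree k) (H κ hκ le_rfl)
    rwa [sub_self, zero_div, sub_zero] at h1
  mono κ κ' u m a E h0 hκ hu h1 h2 := by
    rcases isEmpty_or_nonempty Lam with hL | hL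
    · exact bg_empty
    refine RtQ_of (Q := fun lam k => NC (cc lam) k ∧ CubeFree k) (mono_nc hP hh hκ
      (RtQ_R (Q := fun lam => NC (cc lam)) h1) fun u₁ y u₂ he hy =>
        RtQ_R (Q := fun lam k => NC (cc lam) k ∧ CubeFree k) (h2 u₁ y u₂ he hy))
      (idt_at fun hy => ?_)
    have h3 := idt_lower (h0.trans hκ) hu (fun y hy' => (hy y hy').trans hκ)
      (RtQ_idt (Q := fun lam => NC (cc lam)) h1)
    linarith
  monoS := hS.monoS
  colP i u m a hi hu := by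
    refine Colx298.colPx hθ hθ1 hPF hh π hP
      (fun lam k => (NC (cc lam) k ∧ CubeFree k) ∧ ¬ (π lam).NP2 k) (fun lam k hk => ?_)
      i u m a hi hu
    have h1 := (hE lam k hk.1.2.1).2 hk.1.1
    exact ⟨hk.1.2, h1, fun h' => hk.2 ⟨h', h1⟩⟩
  cut i u m a e hi hu H := by
    rcases isEmpty_or_nonempty Lam with hL | hL
    · exact bg_empty
    refine RtQ_of (Q := fun lam => Qp (π lam)) ?_ (idt_at fun hy => ?_)
    · have h1 := XPD571.cut_list (D := Dq) (pinv_Rp π h) (i := i) (w := wt m a) (e := e)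
        (fun y u' _ _ hc => XFl571.cut_RQ (Q := fun lam => Qp (π lam)) hP hh
          (fun _ _ hk => ⟨hk.2, hk.1.2⟩) hc) u [] hu.1 (by simp)
        (fun u' hs hi' => by
          rw [List.append_nil]
          exact Rt_R (H u' hs hi'))
      rw [List.append_nil] at h1
      exact h1
    · exact Rt_lower (H u (XP699.shl_refl hu.1) hy) hi hu hy
  hbG := hS.hbG

/-- **`OpenX` from the two raw rules and `rem`** -/
theorem openX_of {θ : ℝ} (hθ : 1 / 2 < θ) (hθ1 : θ ≤ 1) (hPF : PF Set.univ θ) {c : ℝ}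
    (hh : PU h c) (hP : ∀ lam, (π lam).OK)
    (hE : ∀ lam, ∀ k : Eis, k ≠ 0 →
      (Sup271.NPm (π lam).n (π lam).ψ (π lam).l₂ k ↔ NC (cc lam) k))
    (hS : GaussX S) (hrawP : RawPX cc π h S) (hrawG : RawGX cc π h S)
    {S₀ : Lam → ℝ → List Pq → ℝ} (hrem : T3F986.T3Fld θ (ex Dq (fun lam => Rt (π lam) h))) :
    OpenX θ π h S S₀ where
  permS := hS.permS
  trivS := hS.trivS
  hbG := hS.hbG
  poisC := (raw_ex hθ hθ1 hPF hh hP hE hS hrawP hrawG).poisC
  poisG := (raw_ex hθ hθ1 hPF hh hP hE hS hrawP hrawG).poisG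
  cau := hS.cau
  cauS := hS.cauS
  rem := hrem

/-- **the provider of the exceptional class** -/
theorem provX {θ : ℝ} (hθ : 7 / 8 ≤ θ) (hθ1 : θ ≤ 1) (hPF : PF Set.univ θ) {c : ℝ}
    (hh : PU h c) (hP : ∀ lam, (π lam).OK)
    (hE : ∀ lam, ∀ k : Eis, k ≠ 0 →
      (Sup271.NPm (π lam).n (π lam).ψ (π lam).l₂ k ↔ NC (cc lam) k))
    (hS : GaussX S) (hrawP : RawPX cc π h S) (hrawG : RawGX cc π h S)
    {S₀ : Lam → ℝ → List Pq → ℝ} (hrem : T3F986.T3Fld θ (ex Dq (fun lam => Rt (π lam) h))) :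
    ProvE θ (ex Dq (fun lam => Rt (π lam) h)) (ex Dq S) (ex Dq S₀)
      (ex Dq (fun lam => Rc (π lam) h)) (ex Dq (fun lam => Bc (π lam) h)) :=
  prov_ex hθ hθ1 hPF hh hP
    (openX_of (by linarith) hθ1 hPF hh hP hE hS hrawP hrawG hrem)

end

end Crest.Agent.R017.XEr298
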