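import Crest.Agent.R017.RM3c_986
import Crest.Agent.R017.XEr_298

/-!
# Row 17, class E of `P1` (helper571): the red family over the noncubes, plain form

* `bgx` : `BG` over all noncubes, exponent `max r3 (κ/3 + 2 a + 2 θ m)`
* **`rmx_NC`** : plain form (class E twin of helper986's `rm_RF`)
-/

set_option autoImplicit false
set_option linter.unusedVariables false

noncomputable section

open Set
open scoped Classical

namespace Crest.Agent.R017.RnX571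

open Crest.Agent.R012 Crest.Agent.R012.Eis
open Crest.Agent.R012.LS2 (bl mem_bl)
open Crest.Agent.R012.T411 (NCube)
open Crest.Agent.R017.FE47 (PU cx)
open Crest.Agent.R017.End699 (PF)
open Crest.Agent.R017.CM106
open Crest.Agent.R017.XG702 (Pcs BG)
open Crest.Agent.R017.XT71 (Sys Win mx)
open Crest.Agent.R017.E5B71 (UB)
open Crest.Agent.R017.Prov71
open Crest.Agent.R017.B770
open Crest.Agent.R017.ER911 Crest.Agent.R017.SC777 Crest.Agent.R017.ExpC702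
open Crest.Agent.R017.HP842 (Pc pc)
open Crest.Agent.R017.UBR61
open Crest.Agent.R017.XPD571 (RX R0 RF0 RN0 RP0 SP0)
open Crest.Agent.R017.UBT973 (UBs Wn Triv ubs_of_ub)
open Crest.Agent.R017.RM986
open Crest.Agent.R017.XEx298 (Rt pinv_Rt triv_Rt Rt_R)
open Crest.Agent.R017.XEr298 (NC NC_one cubes_nc)

variable {Λ : Type*} {π : Λ → DPar} {h : ℝ → ℝ} {d : ℝ} {s : EF}

/-- **all noncubes** (with the cube column of the amplifiers) -/
theorem bgx {c₀ : ℝ} (hpu : PU h c₀) (hP : ∀ lam, (π lam).OK)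
    (hNC : ∀ lam, ∀ k : Eis, k ≠ 0 →
      (Sup271.NPm (π lam).n (π lam).ψ (π lam).l₂ k ↔ NCube k))
    (R : ExpRules (7 / 8 + d) (ex Dq (fun lam => Rt (π lam) h)) s)
    (hPF : PF Set.univ (7 / 8 + d)) (hd : 0 ≤ d)
    (hd8 : d ≤ 1 / 8) {κ y₁ y₂ y₃ m a : ℝ} (hκ : 0 ≤ κ) (h1 : 0 ≤ y₁) (h2 : 0 ≤ y₂)
    (h3 : 0 ≤ y₃) (hm : 0 ≤ m) (ha : 0 ≤ a) :
    BG Dq (fun lam l ps => RQ NCube h l (ps.map (Pq.pc (π lam)))) κ [y₁, y₂, y₃] (wt m a)
      (max (r3 d κ y₁ y₂ y₃ m a) (κ / 3 + 2 * a + 2 * (7 / 8 + d) * m)) := by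
  have hok : Okl [y₁, y₂, y₃] m a := by
    refine ⟨?_, hm, ha⟩
    intro y hy
    simp only [List.mem_cons, List.not_mem_nil, or_false] at hy
    rcases hy with rfl | rfl | rfl
    · exact h1
    · exact h2
    · exact h3
  have key := cubes_nc (cc := fun _ => 1) (π := π) (h := h) hP (bump_of_cs hpu.cs) hκ
    (u := [y₁, y₂, y₃]) (w := wt m a)
    (E := max (r3 d κ y₁ y₂ y₃ m a) (κ / 3 + 2 * a + 2 * (7 / 8 + d) * m)) ?_
  · simp only [NC_one] at key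
    exact key
  intro i hi0 hi
  simp only [NC_one]
  refine BG_add (Φ₁ := RN0 π h)
    (Φ₂ := fun lam l ps => RQ (fun k => (NCube k ∧ CubeFree k) ∧ ¬ (π lam).NP2 k) h l
      (ps.map (Pq.pc (π lam)))) ?_ ?_ fun lam l ps => XPD571.RQ_split _ _ _
    (fun k hk => by
      by_cases h1 : (π lam).NP2 k
      · exact Or.inl ⟨h1, hk.2⟩
      · exact Or.inr ⟨hk, h1⟩) _ _ _
  · have h5 : BG Dq (fun lam => Rt (π lam) h) i [y₁, y₂, y₃] (wt m a) (r3 d i y₁ y₂ y₃ m a) := by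
      refine BG_of_ex (pinv_Rt π h) (triv_Rt hP hpu) hi0 hok ?_
      exact r_three R hd hd8 hi0 h1 h2 h3 hm ha
    refine (Rt_R h5).mono ?_
    have e1 := r3_slope (y₁ := y₁) (y₂ := y₂) (y₃ := y₃) (m := m) (a := a) hd hi
    have e2 := le_max_left (r3 d κ y₁ y₂ y₃ m a) (κ / 3 + 2 * a + 2 * (7 / 8 + d) * m)
    linarith
  · have h6 := Colx298.colPx (θ := 7 / 8 + d) (by linarith) (by linarith) hPF hpu π hP
      (fun lam k => (NCube k ∧ CubeFree k) ∧ ¬ (π lam).NP2 k) (fun lam k hk => by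
        have h7 := (hNC lam k hk.1.2.1).2 hk.1.1
        exact ⟨hk.1.2, h7, fun h' => hk.2 ⟨h', h7⟩⟩) i _ m a hi0 hok
    refine h6.mono ?_
    have e2 := le_max_right (r3 d κ y₁ y₂ y₃ m a) (κ / 3 + 2 * a + 2 * (7 / 8 + d) * m)
    linarith

/-- **plain form, class E**, all noncubes -/
theorem rmx_NC {c₀ : ℝ} (hpu : PU h c₀) (hP : ∀ lam, (π lam).OK)
    (hNC : ∀ lam, ∀ k : Eis, k ≠ 0 →
      (Sup271.NPm (π lam).n (π lam).ψ (π lam).l₂ k ↔ NCube k))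
    (R : ExpRules (7 / 8 + d) (ex Dq (fun lam => Rt (π lam) h)) s)
    (hPF : PF Set.univ (7 / 8 + d)) (hd : 0 ≤ d) (hd8 : d ≤ 1 / 8) (K : ℝ) :
    Plain (fun _ => NCube) π h K
      (fun κ y₁ y₂ y₃ m a => max (r3 d κ y₁ y₂ y₃ m a) (κ / 3 + 2 * a + 2 * (7 / 8 + d) * m)) := by
  have hub : UB S3 Dq (M3 (fun _ => NCube) π h fun _ => 0) (Bx K) ∅ (E3c d) := by
    refine um_of hpu hP _ _ (bx_compact K) (fun q hq => ⟨fun i => (hq.1 i).1,
      fun t => (hq.2 t).1⟩) bx_down (cont_E3c d) (fun q _ b hb _ => E3c_down hd q hb) ?_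
    intro p m a hm ha hD
    have h0 := fun i => (hD.1 i).1
    exact bgx hpu hP hNC R hPF hd hd8 (h0 0) (h0 1) (h0 2) (h0 3) hm ha
  have hubs : UBs S3 Dq (M3 (fun _ => NCube) π h fun _ => 0) (fB K) ∅ (E3c d) :=
    ubs_of_ub (fB_cont K) (fB_compact K 1) (cont_E3c d) (triv3 hpu hP _ _ K ∅)
      (by rw [fB_zero]; exact hub)
  exact plain_of (E := fun κ y₁ y₂ y₃ m a =>
    max (r3 d κ y₁ y₂ y₃ m a) (κ / 3 + 2 * a + 2 * (7 / 8 + d) * m)) hubs

end Crest.Agent.R017.RnX571
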