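import Crest.Agent.R017.RnXh_571
import Crest.Agent.R017.RnXb_571

/-!
# Row 17, class E of `P1` (helper571): the `R`-half of E3 for the differences

* `frR` : the frame of one datum
* **`rnU_X`** : helper61's `RnU`
-/

set_option autoImplicit false
set_option maxHeartbeats 400000

noncomputable section

open Finset
open scoped ComplexConjugate

namespace Crest.Agent.R017.RnX571

open Crest.Agent.R012 Crest.Agent.R012.Eis Crest.Agent.R012.MC
open Crest.Agent.R012.LS2 (S mem_S bl mem_bl)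
open Crest.Agent.R012.T411 (NCube)
open Crest.Agent.R017.FE47 (PU SM)
open Crest.Agent.R017.CM106
open Crest.Agent.R017.XG702 (Pcs)
open Crest.Agent.R017.XT71 (Sys Win mx)
open Crest.Agent.R017.Prov71
open Crest.Agent.R017.B770
open Crest.Agent.R017.ER911 Crest.Agent.R017.ExpC702
open Crest.Agent.R017.HP842 (Pc pc sqc al alL)
open Crest.Agent.R017.RM986 (Plain)
open Crest.Agent.R017.R3571 (RMm RMm_nonneg)
open Crest.Agent.R017.Mode405 (Slp)
open Crest.Agent.R017.PX764 (n6)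
open Crest.Agent.R017.E3Z548 (FH)
open Crest.Agent.R017.E3Sz579 (Ld)
open Crest.Agent.R017.E3Hi290 (RN2XF)
open Crest.Agent.R017.E3Kc548 (LI mem_LI afT)
open Crest.Agent.R017.E3T829 (RR)
open Crest.Agent.R017.E3Xa72 (RHRx)
open Crest.Agent.R017.TM708 (PD)
open Crest.Agent.R017.I1146 (LN SM_cop alL_cop)
open Crest.Agent.R017.Sup271 (NPm)
open Crest.Agent.R017.End699 (PF)
open Crest.Agent.R017.XEx298 (Rt)
open Crest.Agent.R017.RnP571
open Crest.Agent.R017.PoHx72 (Cls)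
open Crest.Agent.R017.ROX744 (PrU)
open Crest.Agent.R017.E5B71 Crest.Agent.R017.E5L770
open Crest.Agent.R017.Sf770 (JS okJ_JS tO)
open Crest.Agent.R017.P1l54 (ParOK)
open Crest.Agent.R017.ExBox960 Crest.Agent.R017.ExP960
open Crest.Agent.R017.P1X960
open Crest.Agent.R017.P10X764
open Crest.Agent.R017.E3N146 (Bf Tf)
open Crest.Agent.R017.S8X50 (F8X s8x_frame)
open Crest.Agent.R017.E3F61 (RnU)
open Crest.Agent.R017.E3Nx744 (HX HX_pos HX_small HX_large Ld_HX TB)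

lemma PD_mono {X τ B B' H : ℝ} {N : ℕ} {b : Fin 5 → ℝ} {q : Eis} {us : Fin 3 → Pq}
    {gs : List Pq} {κ : ℝ} (hX : 1 ≤ X) (hB : B ≤ B') (h : PD X τ B H N b q us gs κ) :
    PD X τ B' H N b q us gs κ := by
  have h1 : X ^ B ≤ X ^ B' := Real.rpow_le_rpow_of_exponent_le hX hB
  exact ⟨h.q0, h.qB.trans h1, h.H1, h.lump, h.us0, fun i => (h.usB i).trans h1, h.usH, h.z1, h.z2,
    h.z3, fun p hp => ⟨(h.am p hp).1, (h.am p hp).2.1, (h.am p hp).2.2.1,
      (h.am p hp).2.2.2.1.trans h1, (h.am p hp).2.2.2.2⟩, h.len, h.x, h.k⟩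

lemma Pt_cop {P : DPar} (hP : P.OK) {h : ℝ → ℝ} {t : Eis} (ht : t ∈ SM P.n) {ps : List Pq}
    {n : Eis} (hn : alL h (ps.map (Pt P t)) n ≠ 0) : IsPrim n ∧ IsCoprime (t * t) n := by
  rw [I1146.alL_tw] at hn
  have h1 : alL h (ps.map (Pq.pc P)) n ≠ 0 := by
    intro h0
    apply hn
    unfold I1146.tw3
    rw [h0, mul_zero]
  have h2 := SM_cop ht (alL_cop hP h1).2
  exact ⟨(alL_cop hP h1).1, IsCoprime.mul_left h2 h2⟩

lemma xD_cop {P : DPar} (hP : P.OK) {h : ℝ → ℝ} {t : Eis} (ht : t ∈ SM P.n) {vs : Fin 3 → Pq}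
    {D : ℝ} {qs : List Pq} {n : Eis} (hn : xD h P t vs D qs n ≠ 0) :
    IsPrim n ∧ IsCoprime (t * t) n := by
  by_contra h0
  apply hn
  have key : ∀ ps : List Pq, sqc 1 (alL h (ps.map (Pt P t))) n = 0 := by
    intro ps
    by_contra h1
    exact h0 (Pt_cop hP ht (right_ne_zero_of_mul h1))
  unfold xD P1X960.cmb
  simp only [Pi.add_apply, Pi.smul_apply, smul_eq_mul, key, mul_zero, add_zero]

lemma JS_fst {n : ℕ} {d : Eis} (hd : d ∈ (JS n).image Prod.fst) :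
    d ∈ S (Real.exp (n * Real.log 2 / 2)) := by
  classical
  obtain ⟨x, hx, rfl⟩ := mem_image.1 hd
  have e1 : Real.sqrt (2 ^ n) = Real.exp (n * Real.log 2 / 2) := by
    rw [Real.sqrt_eq_iff_mul_self_eq (by positivity) (Real.exp_pos _).le, ← Real.exp_add]
    rw [show (n : ℝ) * Real.log 2 / 2 + n * Real.log 2 / 2 = n * Real.log 2 by ring,
      Real.exp_nat_mul, Real.exp_log (by norm_num)]
  rw [← e1, mem_S (Real.sqrt_nonneg _)]
  unfold Sf770.JS C70.JW at hx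
  rw [mem_filter, mem_product, mem_primBall] at hx
  obtain ⟨⟨⟨h1, h2⟩, h3⟩, h4, h5, h6, h7⟩ := hx
  refine ⟨?_, h2, h4⟩
  exact (Nat.le_floor_iff (Real.sqrt_nonneg _)).1 h1

lemma sz_small {k N x ex vt n t l z ex' δ lc i : ℝ} (H : Tf k N x ex vt n t) (kl : |l - k| ≤ t)
    (zl : |z - x| ≤ t) (hex : ex ≤ ex' + t) (hlc : lc ≤ t) (δ0 : 0 ≤ δ) (hi : i ≤ vt) :
    lc + (hJ l n δ z ex' + 2 * i) ≤ l + n := by
  obtain ⟨k0, x0, N1, adm, ex0, ex1, v1, v2, p0, p1, t0, t1⟩ := H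
  obtain ⟨k1, k2⟩ := abs_le.1 kl
  obtain ⟨z1, z2⟩ := abs_le.1 zl
  unfold RnP571.hJ
  rcases max_choice (l / 64) (4 / 3 * (n - δ) - l + z - 3 * ex') with h0 | h0 <;> rw [h0] <;>
    rcases adm with ⟨a1, rfl | a2⟩ | ⟨a1, a2, a3⟩ <;> linarith

lemma sz_large {k N x ex vt n t l δ lc i : ℝ} (H : Tf k N x ex vt n t) (hδ : δ ≤ vt / 2) :
    lc + ((l + δ - 2 * i - (lc + 1)) + 2 * i) ≤ l + n := by
  obtain ⟨k0, x0, N1, adm, ex0, ex1, v1, v2, p0, p1, t0, t1⟩ := H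
  rcases adm with ⟨a1, rfl | a2⟩ | ⟨a1, a2, a3⟩ <;> linarith

lemma sz2_small {k N x ex vt n t l z ex' δ i : ℝ} (H : Tf k N x ex vt n t) (kl : |l - k| ≤ t)
    (zl : |z - x| ≤ t) (hex : 0 ≤ ex') (δ0 : 0 ≤ δ) (hi : i ≤ vt) :
    n + i + hJ l n δ z ex' - l ≤ 8 * k := by
  obtain ⟨k0, x0, N1, adm, ex0, ex1, v1, v2, p0, p1, t0, t1⟩ := H
  obtain ⟨k1, k2⟩ := abs_le.1 kl
  obtain ⟨z1, z2⟩ := abs_le.1 zl
  unfold RnP571.hJ
  rcases max_choice (l / 64) (4 / 3 * (n - δ) - l + z - 3 * ex') with h0 | h0 <;> rw [h0] <;>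
    rcases adm with ⟨a1, rfl | a2⟩ | ⟨a1, a2, a3⟩ <;> linarith

lemma sz2_large {k N x ex vt n t l δ lc i : ℝ} (H : Tf k N x ex vt n t) (hδ : δ ≤ vt / 2)
    (hi : 0 ≤ i) (hlc : 0 ≤ lc) :
    n + i + (l + δ - 2 * i - (lc + 1)) - l ≤ 8 * k := by
  obtain ⟨k0, x0, N1, adm, ex0, ex1, v1, v2, p0, p1, t0, t1⟩ := H
  rcases adm with ⟨a1, rfl | a2⟩ | ⟨a1, a2, a3⟩ <;> linarith

lemma vt_le {k N x ex vt n t : ℝ} (H : Tf k N x ex vt n t) : vt ≤ k := by
  obtain ⟨k0, x0, N1, adm, ex0, ex1, v1, v2, p0, p1, t0, t1⟩ := H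
  rcases adm with ⟨a1, rfl | a2⟩ | ⟨a1, a2, a3⟩ <;> linarith

set_option maxHeartbeats 1600000 in
/-- **the frame of one datum** -/
lemma frR {c β : ℝ} {Par : Set (Fin 3 ⊕ Fin 5 → ℝ)} {X δ t₀ dd : ℝ} {a : BcX} {qs : List Pq}
    {q : (I8X → ℝ) × (Kd → ℝ)} (hX1 : 1 < X) (hδ : 0 ≤ δ) (ht₀ : 0 < t₀)
    (ht₀' : t₀ ≤ 1 / 1000000) (hδt : 100 * δ ≤ t₀) (hLt : 4 ≤ t₀ * Real.log X) (hc0 : 0 ≤ c)
    (hc1 : c ≤ 1) (hPp : ParOK (prX (bp q.1)))
    (hDp : Dh (cκ (prX (bp q.1))) (cu (prX (bp q.1)) 2) (cu (prX (bp q.1)) 3)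
      (cu (prX (bp q.1)) 4) (cx' (prX (bp q.1))) (dd * cκ (prX (bp q.1))))
    (hcD : 4 * (c * cκ (prX (bp q.1))) ≤ dd * cκ (prX (bp q.1))) (hβ : 17 / 100 ≤ β)
    (hβ' : β ≤ 1 / 5) (hq : q ∈ Dom8X c β Par DifL)
    (hv0 : |(a.2.1 0).z - q.1 (.inr 0) * Real.log X| ≤ δ * Real.log X)
    (hv1 : |(a.2.1 1).z - q.1 (.inr 1) * Real.log X| ≤ δ * Real.log X)
    (F : F8X X δ (Real.log X) (bp q.1)
      (q.1 (.inr 0) + q.1 (.inr 1) + q.1 (.inr 2) + q.2 .am) (q.1 (.inr 3)) a qs) :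
    Tf (cκ (prX (bp q.1)) * Real.log X) (cN (prX (bp q.1)) * Real.log X)
      (cx' (prX (bp q.1)) * Real.log X)
      (max 0 (5 / 4 * (cN (prX (bp q.1)) * Real.log X) - cκ (prX (bp q.1)) * Real.log X))
      (1 + nw c a * Real.log 2) (LN (clN a qs)) (40 * (t₀ * Real.log X)) ∧
    Bf (cκ (prX (bp q.1)) * Real.log X) (cN (prX (bp q.1)) * Real.log X)
      (cx' (prX (bp q.1)) * Real.log X)
      (max 0 (5 / 4 * (cN (prX (bp q.1)) * Real.log X) - cκ (prX (bp q.1)) * Real.log X))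
      (1 + nw c a * Real.log 2) (LN (clN a qs)) (s0X a)
      (dd * cκ (prX (bp q.1)) * Real.log X)
      ((cN (prX (bp q.1)) - (q.1 (.inr 0) + q.1 (.inr 1) + q.1 (.inr 2))) * Real.log X)
      ((cx' (prX (bp q.1)) - q.2 .am) * Real.log X) (40 * (t₀ * Real.log X)) := by
  obtain ⟨hq1, hq2, hq3, hq4⟩ := hq
  obtain ⟨hκ, hx, hN, hn, lo, hi, us0, us1, us2, zs, hd, hb, top⟩ := F
  set p : IX5 → ℝ := bp q.1 with hp
  set L := Real.log X with hL
  have hL0 : 0 < L := Real.log_pos hX1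
  have hδL : 0 ≤ δ * L := by positivity
  have hδt' : 100 * (δ * L) ≤ t₀ * L := by
    have := mul_le_mul_of_nonneg_right hδt hL0.le
    linarith
  have hlog2 : Real.log 2 ≤ 1 := by
    have := Real.log_two_lt_d9
    linarith
  have ht := tO_near (k3 := 11 / 5) hL0 hδ (by norm_num) (by norm_num) hκ hx hN
  have hnw := nW_hi c a
  have etO : tO a.1.toBd = min (2 * a3 a.1.toBd - a.1.l) (3 / 4 * a3 a.1.toBd) + 11 / 5 * a.1.z :=
    rfl
  rw [← etO] at ht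
  have hb1 := hq1.b1
  have et5 : top5 (prX p) = min (2 * cN (prX p) - cκ (prX p)) (3 / 4 * cN (prX p)) +
      11 / 5 * cx' (prX p) := rfl
  rw [et5] at hb1
  have hmm : 0 ≤ min (2 * cN (prX p) - cκ (prX p)) (3 / 4 * cN (prX p)) := by
    have h1 := hPp.N0
    have h2 := hPp.κ0
    exact le_min (by linarith) (by linarith)
  have hx0 := hPp.x0
  generalize htt : min (2 * cN (prX p) - cκ (prX p)) (3 / 4 * cN (prX p)) +
      11 / 5 * cx' (prX p) = tt at ht hb1 et5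
  have htt0 : 0 ≤ tt := by rw [← htt]; linarith
  obtain ⟨t1, t2⟩ := abs_le.1 ht
  obtain ⟨b1, b2⟩ := abs_le.1 hb
  obtain ⟨k1, k2⟩ := abs_le.1 hκ
  have hcl : c * a.1.l ≤ c * cκ (prX p) * L + δ * L := by
    have h1 : c * (a.1.l - cκ (prX p) * L) ≤ c * (δ * L) := mul_le_mul_of_nonneg_left k2 hc0
    have h2 : c * (δ * L) ≤ 1 * (δ * L) := mul_le_mul_of_nonneg_right hc1 hδL
    linarith
  have hmin : max 0 (min (tO a.1.toBd) (tO a.1.toBd + 2 * (c * a.1.l) - 2 * a.2.2)) ≤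
      min tt (tt + 2 * (c * cκ (prX p)) - 2 * q.1 (.inr 3)) * L + 14 * (δ * L) := by
    have hM0 : 0 ≤ min tt (tt + 2 * (c * cκ (prX p)) - 2 * q.1 (.inr 3)) :=
      le_min htt0 (by linarith)
    refine max_le (by positivity) ?_
    rw [min_mul_of_nonneg _ _ hL0.le, ← min_add_add_right]
    refine min_le_min ?_ ?_
    · linarith
    · have e1 : (tt + 2 * (c * cκ (prX p)) - 2 * q.1 (.inr 3)) * L =
        tt * L + 2 * (c * cκ (prX p) * L) - 2 * (q.1 (.inr 3) * L) := by ring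
      rw [e1]
      linarith
  have hvt : (1 : ℝ) + nw c a * Real.log 2 ≤
      min tt (tt + 2 * (c * cκ (prX p)) - 2 * q.1 (.inr 3)) * L + 2 * (t₀ * L) := by
    linarith
  have hZ2 : p (.inr 1) ≤ 6 / 25 * cκ (prX p) := by
    have h1 := (hq1.zr 1).2
    have h2 := hPp.κ0
    linarith
  have hn' : |LN (clN a qs) - (q.1 (.inr 0) + q.1 (.inr 1) + q.1 (.inr 2) + q.2 .am) * L| ≤
      t₀ * L := hn.trans (by linarith)
  have hs : |s0X a - min (min (q.1 (.inr 0)) (q.1 (.inr 1)))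
      (min (q.1 (.inr 0) - (cu (prX p) 2 - p (.inr 1)))
        (q.1 (.inr 1) + (cu (prX p) 2 - p (.inr 1)))) * L| ≤ t₀ * L := by
    have e1 : min (min (q.1 (.inr 0)) (q.1 (.inr 1)))
        (min (q.1 (.inr 0) - (cu (prX p) 2 - p (.inr 1)))
          (q.1 (.inr 1) + (cu (prX p) 2 - p (.inr 1)))) * L =
        min (min (q.1 (.inr 0) * L) (q.1 (.inr 1) * L))
        (min (q.1 (.inr 0) * L - (cu (prX p) 2 - p (.inr 1)) * L)
          (q.1 (.inr 1) * L + (cu (prX p) 2 - p (.inr 1)) * L)) := by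
      rw [min_mul_of_nonneg _ _ hL0.le, min_mul_of_nonneg _ _ hL0.le,
        min_mul_of_nonneg _ _ hL0.le, sub_mul, add_mul]
    obtain ⟨dz1, dz2⟩ := abs_le.1 hd
    obtain ⟨v01, v02⟩ := abs_le.1 hv0
    obtain ⟨v11, v12⟩ := abs_le.1 hv1
    rw [e1]
    unfold s0X
    refine (abs_min_sub_min_le_max _ _ _ _).trans (max_le ?_ ?_)
    · refine (abs_min_sub_min_le_max _ _ _ _).trans (max_le ?_ ?_)
      · exact hv0.trans (by linarith)
      · exact hv1.trans (by linarith)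
    · refine (abs_min_sub_min_le_max _ _ _ _).trans (max_le ?_ ?_)
      · rw [abs_le]
        constructor <;> linarith
      · rw [abs_le]
        constructor <;> linarith
  exact TB (N := cN (prX p)) (x := cx' (prX p)) (y₃ := cu (prX p) 2)
    (y₄ := cu (prX p) 3) (u := cu (prX p) 4) (D := dd * cκ (prX p)) (Z := p (.inr 1))
    (v₀ := q.1 (.inr 0)) (v₁ := q.1 (.inr 1)) (v₂ := q.1 (.inr 2)) (x' := q.2 .am)
    (b := q.1 (.inr 3)) (c := c) (β := β) (t₀ := t₀) (vt := 1 + nw c a * Real.log 2)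
    (n := LN (clN a qs)) (s0A := s0X a) (w := 0) (B := 0) hL0 hPp.κ0 hPp.κ1 ht₀.le ht₀' rfl hDp
    hcD hc0 hβ (hq1.zr 1).1 hZ2 hq2.1.1 hq2.1.2.1 hq2.1.2.2 hq1.x0 hq1.x1 hq1.s2 hq1.s1 hq1.b0
    (by rw [htt]; exact hvt) hn' (by linarith) (by linarith) hs

variable {Λ : Type*} {π : Λ → DPar} {h : ℝ → ℝ}

set_option maxHeartbeats 6400000 in
open Classical in
/-- **(R) of class E** : helper61's `RnU`, the family `HX` of helper744 / helper571 -/
theorem rnU_X {c₀ : ℝ} (hpu : PU h c₀) (hP : ∀ lam, (π lam).OK)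
    (hNC : ∀ lam, ∀ k : Eis, k ≠ 0 → (NPm (π lam).n (π lam).ψ (π lam).l₂ k ↔ NCube k))
    {dd : ℝ} {s : ER911.EF} (R : ExpRules (7 / 8 + dd) (ex Dq (fun lam => Rt (π lam) h)) s)
    (hPF : PF Set.univ (7 / 8 + dd)) (hd : 0 ≤ dd) (hd8 : dd ≤ 1 / 8)
    {e0 : ℝ} (he0 : 0 ≤ e0) (he0' : e0 ≤ 1 / 64) {c β : ℝ} (hc0 : 0 ≤ c) (hc1 : c ≤ 1)
    {Par : Set (Fin 3 ⊕ Fin 5 → ℝ)} (hPar : ∀ p ∈ Par, ParOK p)
    (hDh : ∀ p ∈ Par, Dh (cκ p) (cu p 2) (cu p 3) (cu p 4) (cx' p) (dd * cκ p))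
    (hcD : ∀ p ∈ Par, 4 * (c * cκ p) ≤ dd * cκ p) (hβ : 17 / 100 ≤ β) (hβ' : β ≤ 1 / 5)
    {L0 : (Fin 3 ⊕ Fin 5 → ℝ) → ℝ}
    (hL0 : ∀ p : IX5 → ℝ, prX p ∈ Par → ZR β p →
      max 0 (5 / 4 * cN (prX p) - cκ (prX p)) + 3 / 4 * (dd * cκ (prX p)) ≤ L0 (prX p)) :
    RnU S8X (Dom8X c β Par DifL) ∅ (E8X L0) (fun a : BcX => a.1.l) (nw c)
      (fun a qs => LN (clN a qs)) e0 (alX π h) (E3F61.okX π)
      (fun cc a qs i d _ => HX cc a (LN (clN a qs)) i d) := by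
  intro ε hε
  obtain ⟨ε₁, hε₁, hε₁1, hε₁ε⟩ : ∃ ε₁ : ℝ, 0 < ε₁ ∧ ε₁ ≤ 1 / 160000 ∧ ε₁ ≤ ε / 8 :=
    ⟨min (1 / 160000) (ε / 8), lt_min (by norm_num) (by positivity), min_le_left _ _,
      min_le_right _ _⟩
  have hnp : ∀ lam, ¬ NPm (π lam).n (π lam).ψ (π lam).l₂ 1 := fun lam h1 =>
    ((hNC lam 1 one_ne_zero).1 h1).2 1 (by ring)
  obtain ⟨τ, hτ0, hτε, HR⟩ := rnx_lev (E := EN dd) hpu hP hnp (Kc := 8) (by norm_num)
    (rmx_NC hpu hP hNC R hPF hd hd8 (8 + 2)) (RM986.cont_E3c dd) hε₁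
    (hε₁1.trans (by norm_num))
  set t₀ : ℝ := ε₁ / 40 with ht₀'
  have ht₀ : 0 < t₀ := by positivity
  have e40 : ε₁ = 40 * t₀ := by rw [ht₀']; ring
  obtain ⟨δ, hδ, hδτ, hδt⟩ : ∃ δ : ℝ, 0 < δ ∧ 100 * δ ≤ τ ∧ 100 * δ ≤ t₀ := by
    refine ⟨min (τ / 100) (t₀ / 100), lt_min (by positivity) (by positivity), ?_, ?_⟩
    · have := min_le_left (τ / 100) (t₀ / 100)
      linarith
    · have := min_le_right (τ / 100) (t₀ / 100)
      linarith
  refine ⟨δ, hδ, fun lam N B B' hB' => ?_⟩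
  by_cases ht : lam.2 = 0
  · exact ⟨0, 0, fun A₁ _ cc _ => ⟨1, one_pos, 2, one_lt_two,
      fun X _ a qs _ _ q _ _ _ _ _ hok => absurd ht hok.1.2.1.1⟩⟩
  set B₂ : ℝ := max (max B 3) (300 * B' + 1) with hB₂
  obtain ⟨M, a₁, A₀, ha₁, HR⟩ := HR lam.1 lam.2 ht N B₂
  refine ⟨a₁, A₀, fun A₁ hA₁ cc hcc => ?_⟩
  obtain ⟨X₁, hX₁, HR⟩ := HR cc hcc
  have hlc : 0 ≤ Real.log cc := Real.log_nonneg hcc
  set Q : ℝ := (2 * Real.log cc + 4) / t₀ with hQ
  refine ⟨ε / (8 * (M + 1)), by positivity, max X₁ (Real.exp Q), hX₁.trans_le (le_max_left _ _), ?_⟩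
  intro X hX a qs hlen hgl q hq hw hm hg hl hok
  have hX1' : X₁ ≤ X := (le_max_left _ _).trans hX
  have hXQ : Real.exp Q ≤ X := (le_max_right _ _).trans hX
  have hX1 : 1 < X := by linarith
  have hX0 : 0 < X := by linarith
  obtain ⟨F, PN, PR⟩ := s8x_frame hX1 hδ.le hδτ (by positivity) hlen hgl hq hw hm hg hl hok.1
    hok.2
  have hQL : Q ≤ Real.log X := by
    have := Real.log_le_log (Real.exp_pos Q) hXQ
    rwa [Real.log_exp] at this
  have hLt : 2 * Real.log cc + 4 ≤ t₀ * Real.log X := by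
    rw [hQ, div_le_iff₀ ht₀] at hQL
    linarith
  have ht₁ : t₀ ≤ 1 / 1000000 := by rw [ht₀']; linarith
  have hL0' : 0 < Real.log X := Real.log_pos hX1
  have hdiv : ∀ {z c : ℝ}, |z / Real.log X - c| ≤ δ → |z - c * Real.log X| ≤
      δ * Real.log X := by
    intro z c h1
    have h2 : z - c * Real.log X = (z / Real.log X - c) * Real.log X := by field_simp
    rw [h2, abs_mul, abs_of_pos hL0']
    exact mul_le_mul_of_nonneg_right h1 hL0'.le
  have hv0 : |(a.2.1 0).z - q.1 (.inr 0) * Real.log X| ≤ δ * Real.log X := hdiv (hw.ev (.inr 0))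
  have hv1 : |(a.2.1 1).z - q.1 (.inr 1) * Real.log X| ≤ δ * Real.log X := hdiv (hw.ev (.inr 1))
  have hpar : prX (bp q.1) ∈ Par := hq.1.par
  have hzr : ZR β (bp q.1) := hq.1.zr
  have hPp := hPar _ hpar
  have hDp := hDh _ hpar
  obtain ⟨hTf, hBf⟩ := frR hX1 hδ.le ht₀ ht₁ hδt (by linarith) hc0 hc1 hPp hDp (hcD _ hpar) hβ hβ'
    hq hv0 hv1 F
  obtain ⟨hκ, hx, hN, hn, lo, hi, us0, us1, us2, zs, hdz, hbb, top⟩ := F
  set p : IX5 → ℝ := bp q.1 with hp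
  set L := Real.log X with hL
  set n : ℝ := LN (clN a qs) with hnn
  have htL : 0 ≤ t₀ * L := by positivity
  have hδL : 100 * (δ * L) ≤ t₀ * L := by
    have := mul_le_mul_of_nonneg_right hδt hL0'.le
    linarith
  have hδL0 : 0 ≤ δ * L := by positivity
  have hκ' : |a.1.l - cκ (prX p) * L| ≤ t₀ * L := hκ.trans (by linarith)
  have hx' : |a.1.z - cx' (prX p) * L| ≤ t₀ * L := hx.trans (by linarith)
  have hN' : |a3 a.1.toBd - cN (prX p) * L| ≤ 3 * (t₀ * L) := hN.trans (by linarith)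
  have ht40 : t₀ * L ≤ 40 * (t₀ * L) := by linarith
  have hvk := vt_le hTf
  have hkL : cκ (prX p) * L ≤ 1 * L := mul_le_mul_of_nonneg_right hPp.κ1 hL0'.le
  have hkL0 : 8 / 9 * L ≤ cκ (prX p) * L := mul_le_mul_of_nonneg_right hPp.κ0 hL0'.le
  have ht1' := hTf.t1
  obtain ⟨κ1, κ2⟩ := abs_le.1 hκ'
  have hl0 : 0 ≤ a.1.l := by linarith
  set ex' : ℝ := max 0 (5 / 4 * a3 a.1.toBd - a.1.l) with hex'
  have hex0 : 0 ≤ ex' := le_max_left _ _
  have hexx : max 0 (5 / 4 * (cN (prX p) * L) - cκ (prX p) * L) ≤ ex' + 40 * (t₀ * L) := by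
    obtain ⟨A1, A2⟩ := abs_le.1 hN'
    refine max_le (by linarith) ?_
    have := le_max_right 0 (5 / 4 * a3 a.1.toBd - a.1.l)
    linarith
  -- one level, one divisor
  have hiv : ∀ i ∈ LI (1 / 10) (2 ^ nw c a), (i : ℝ) ≤ 1 + nw c a * Real.log 2 := by
    intro i hi
    have h1 := (mem_LI hi).2.2
    have h2 := Real.log_le_log (Real.exp_pos _) h1
    rwa [Real.log_exp, Real.log_mul (Real.exp_pos _).ne' (by positivity), Real.log_exp,
      Real.log_pow] at h2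
  have hdv : ∀ d ∈ (JS (nw c a)).image Prod.fst, IsPrim d ∧
      Real.log (nm d) ≤ (1 + nw c a * Real.log 2) / 2 ∧ 0 ≤ Real.log (nm d) := by
    intro d hd
    obtain ⟨h1, h2, h3⟩ := (mem_S (Real.exp_pos _).le).1 (JS_fst hd)
    have h4 : (1 : ℝ) ≤ nm d := by exact_mod_cast nm_pos.2 h2.ne_zero
    refine ⟨h2, ?_, Real.log_nonneg h4⟩
    have h5 := Real.log_le_log (by linarith) h1
    rw [Real.log_exp] at h5
    linarith
  have hev : ∀ e ∈ S (Real.exp (e0 * a.1.l)), IsPrim e ∧ Real.log (nm e) ≤ a.1.l / 64 ∧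
      0 ≤ Real.log (nm e) := by
    intro e he
    obtain ⟨h1, h2, h3⟩ := (mem_S (Real.exp_pos _).le).1 he
    have h4 : (1 : ℝ) ≤ nm e := by exact_mod_cast nm_pos.2 h2.ne_zero
    refine ⟨h2, ?_, Real.log_nonneg h4⟩
    have h5 := Real.log_le_log (by linarith) h1
    rw [Real.log_exp] at h5
    have h6 := mul_le_mul_of_nonneg_right he0' hl0
    linarith
  have hlist : [a.2.1 0, a.2.1 1, a.2.1 2] ++ qs = clN a qs := by
    unfold clN
    rw [ofFn3]
  have hsz1 : ∀ i ∈ LI (1 / 10) (2 ^ nw c a), ∀ d ∈ (JS (nw c a)).image Prod.fst,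
      cc * (HX cc a n i d * Real.exp i ^ 2) ≤ Real.exp a.1.l * Real.exp n := by
    intro i hi d hd
    obtain ⟨pd, hd1, hd2⟩ := hdv d hd
    have hi1 := hiv i hi
    have e1 : cc * (HX cc a n i d * Real.exp i ^ 2) =
        Real.exp (Real.log cc + (Real.log (HX cc a n i d) + 2 * i)) := by
      rw [Real.exp_add, Real.exp_add, Real.exp_log (by linarith), Real.exp_log HX_pos,
        show (2 : ℝ) * i = ((2 : ℕ) : ℝ) * i by norm_num, Real.exp_nat_mul]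
    rw [e1, ← Real.exp_add]
    refine Real.exp_le_exp.2 ?_
    rcases le_or_gt (Real.log (nm d)) (a.1.l / 6) with h6 | h6
    · rw [HX_small h6, Real.log_exp]
      exact sz_small hTf (hκ'.trans ht40) (hx'.trans ht40) hexx (by linarith) hd2 hi1
    · rw [HX_large h6, Real.log_exp]
      exact sz_large hTf hd1
  refine ⟨fun i hi d hd e _ => hsz1 i hi d hd, lam.2 * lam.2, ?_⟩
  have hB3 : 3 ≤ B₂ := (le_max_right B 3).trans (le_max_left _ _)
  have hB300 : 300 * B' + 1 ≤ B₂ := le_max_right _ _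
  have hccX : Real.log cc ≤ L := by
    have : t₀ * L ≤ 1 * L := mul_le_mul_of_nonneg_right (by linarith) hL0'.le
    linarith
  have hXd : (1 : ℝ) ≤ X ^ (ε / (8 * ((M : ℝ) + 1))) := Real.one_le_rpow hX1.le (by positivity)
  have hS1 : (JS (nw c a)).image Prod.fst ⊆ S (X ^ B₂) := by
    intro d hd
    obtain ⟨h1, h2, h3⟩ := (mem_S (Real.exp_pos _).le).1 (JS_fst hd)
    refine (mem_S (by positivity)).2 ⟨h1.trans ?_, h2, h3⟩
    rw [Real.rpow_def_of_pos hX0, ← hL]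
    refine Real.exp_le_exp.2 ?_
    have h4 : L * 3 ≤ L * B₂ := mul_le_mul_of_nonneg_left hB3 hL0'.le
    linarith
  have hS2 : S (Real.exp (e0 * a.1.l)) ⊆ S (X ^ B₂) := by
    intro e he
    obtain ⟨h1, h2, h3⟩ := (mem_S (Real.exp_pos _).le).1 he
    refine (mem_S (by positivity)).2 ⟨h1.trans ?_, h2, h3⟩
    rw [Real.rpow_def_of_pos hX0, ← hL]
    refine Real.exp_le_exp.2 ?_
    have h4 : L * 3 ≤ L * B₂ := mul_le_mul_of_nonneg_left hB3 hL0'.le
    have h6 := mul_le_mul_of_nonneg_right he0' hl0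
    linarith
  have hbN : ∀ i, bN p i + τ ≤ 8 := by
    have k1 := hPp.κ1
    have k0 := hPp.κ0
    have x1 := hPp.x1
    have y3 := hDp.y3
    have y43 := hDp.y43
    have u4 := hDp.u4
    have x0 := hDp.x0
    intro i
    fin_cases i <;> simp [bN] <;> linarith
  have hbR : ∀ i, bR p i + τ ≤ 8 := by
    have k1 := hPp.κ1
    have k0 := hPp.κ0
    have x1 := hPp.x1
    have y3 := hDp.y3
    have y43 := hDp.y43
    have u4 := hDp.u4
    have x0 := hDp.x0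
    have z1 := (hzr 1).1
    have z2 := (hzr 1).2
    have z3 : 0 ≤ β * cκ (prX p) := by positivity
    intro i
    fin_cases i <;> simp [bR] <;> linarith
  obtain ⟨W0, hW1, hW2, hW3⟩ := HR X hX1' (bN p) (bR p) a.2.1 qs (dz a.1) a.1.l (s0X a)
    (X ^ (ε / (8 * ((M : ℝ) + 1)))) (PD_mono hX1.le (le_max_left _ _) PN)
    (PD_mono hX1.le (le_max_left _ _) PR) hbN hbR ((min_le_left _ _).trans (min_le_left _ _))
    ((min_le_left _ _).trans (min_le_right _ _)) ((min_le_right _ _).trans (min_le_left _ _))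
    ((min_le_right _ _).trans (min_le_right _ _)) (Real.exp a.1.l)
    (cκ (prX p) + n / L + P1Q904.LQ (cN (prX p)) (cκ (prX p)) (dd * cκ (prX p)))
    (fun i d _ => HX cc a n i d) (Real.exp_pos _) (fun _ _ _ => HX_pos)
    (LI (1 / 10) (2 ^ nw c a)) ((JS (nw c a)).image Prod.fst) (S (Real.exp (e0 * a.1.l)))
    (fun i hi => by
      have h4 : 3 * L ≤ B₂ * L := mul_le_mul_of_nonneg_right hB3 hL0'.le
      have := hiv i hi
      linarith) hS1 hS2
    (fun i hi d hd e he => by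
      obtain ⟨pd, hd1, hd2⟩ := hdv d hd
      have hi1 := hiv i hi
      have hi0 : (0 : ℝ) ≤ i := Nat.cast_nonneg _
      rw [hlist]
      have e1 : Real.exp n * Real.exp i * HX cc a n i d / Real.exp a.1.l =
          Real.exp (n + i + Real.log (HX cc a n i d) - a.1.l) := by
        rw [Real.exp_sub, Real.exp_add, Real.exp_add, Real.exp_log HX_pos]
      show Real.exp n * Real.exp i * HX cc a n i d / Real.exp a.1.l ≤ X ^ (8 : ℝ)
      rw [e1, Real.rpow_def_of_pos hX0, ← hL]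
      refine Real.exp_le_exp.2 ?_
      rcases le_or_gt (Real.log (nm d)) (a.1.l / 6) with h6 | h6
      · rw [HX_small h6, Real.log_exp]
        have := sz2_small hTf (hκ'.trans ht40) (hx'.trans ht40) hex0 hd2 hi1
        linarith
      · rw [HX_large h6, Real.log_exp]
        have := sz2_large (lc := Real.log cc) (l := a.1.l) hTf hd1 hi0 hlc
        linarith)
    (fun i hi d hd e he hLd1 => by
      obtain ⟨pd, hd1, hd2⟩ := hdv d hd
      obtain ⟨pe, he1, he2⟩ := hev e he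
      have hi1 := hiv i hi
      have h6 : Real.log (nm d) ≤ a.1.l / 6 := by
        by_contra h7
        have := Ld_HX (n := n) (i := i) hcc (not_le.1 h7) pd.ne_zero
        linarith
      have hll : 0 ≤ hJ a.1.l n (Real.log (nm d)) a.1.z ex' + 2 * (i : ℝ) - a.1.l -
          Real.log (nm d) := by
        have h7 := Real.log_nonneg hLd1
        rw [log_Ld (Real.exp_pos _) (Real.exp_pos _) HX_pos pd.ne_zero] at h7
        unfold RnP571.lL at h7
        rw [HX_small h6, Real.log_exp, Real.log_exp, Real.log_exp] at h7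
        linarith
      rw [hlist, Real.log_exp, HX_small h6, Real.log_exp]
      refine lines_X (κ := cκ (prX p)) (y₃ := cu (prX p) 2) (y₄ := cu (prX p) 3)
        (u := cu (prX p) 4) (x := cx' (prX p)) (dd := dd) (N := cN (prX p))
        (A := a3 a.1.toBd) (t₀ := t₀) hL0' rfl hDp ht₀ e40 ?_ hBf hκ' hx' hN' ?_ ?_ hi1 hd2 h6
        he2 he1 hll ?_ ?_
      · have := hPp.κ0
        linarith
      · linarith
      · linarith
      · have h8 : (a.2.1 2).z ≤ (cu (prX p) 4 + τ) * L := PN.z3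
        have h9 : (cu (prX p) 4 + τ) * L ≤ (cu (prX p) 4 + ε₁) * L :=
          mul_le_mul_of_nonneg_right (by linarith) hL0'.le
        exact h8.trans h9
      · have h8 : LN qs ≤ (cx' (prX p) + τ) * L := PN.x
        have h9 : (cx' (prX p) + τ) * L ≤ (cx' (prX p) + ε₁) * L :=
          mul_le_mul_of_nonneg_right (by linarith) hL0'.le
        exact h8.trans h9)
  have hP1 := hP lam.1
  have hsm : lam.2 ∈ SM (π lam.1).n := hok.1.2.1
  refine ⟨W0, mul_ne_zero ht ht, fun m hm0 => (xD_cop hP1 hsm hm0).2, hW1, ?_, ?_⟩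
  · -- the classes
    intro i hi jj ρ hρ γ φ hγ hφ hφm P hPp
    unfold E3T829.RR at hρ
    rw [mem_product] at hρ
    have hφX : (nm φ : ℝ) ≤ X ^ B₂ := by
      refine hφm.trans ?_
      rw [← Real.exp_log (show 0 < cc by linarith), ← Real.rpow_natCast,
        ← Real.rpow_mul hX0.le, Real.rpow_def_of_pos hX0, Real.rpow_def_of_pos hX0, ← hL,
        ← Real.exp_add]
      refine Real.exp_le_exp.2 ?_
      have h4 : L * (300 * B' + 1) ≤ L * B₂ := mul_le_mul_of_nonneg_left hB300 hL0'.le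
      push_cast
      linarith
    refine le_trans ?_ (hW2 A₁ hA₁ i hi jj ρ.1 hρ.1 ρ.2 hρ.2 γ φ hγ hφ hφX P hPp)
    refine mul_le_mul_of_nonneg_left (sum_le_sum fun r _ => ?_)
      (mul_nonneg (Nat.cast_nonneg _) (sq_nonneg _))
    refine RMm_cmp (z := 1) (by rw [norm_one]) (fun m _ _ => ?_) (fun m h1 h2 => absurd h1 h2)
      (fun m h1 h2 => absurd h1 h2) γ φ r
    rw [one_mul]
    obtain ⟨pd, -, -⟩ := hdv ρ.1 hρ.1
    unfold E3Kc548.afT
    by_cases hm : IsPrim m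
    · rw [if_pos ⟨hm, pd, hρ.2⟩]
      rfl
    · rw [if_neg fun h1 => hm h1.1]
      symm
      by_contra h1
      exact hm ((xD_cop hP1 hsm h1).1.of_mul_left pd)
  · -- the number
    rw [hlist] at hW3
    refine hW3.trans ?_
    have h1 : (X ^ (ε / (8 * ((M : ℝ) + 1)))) ^ M ≤ X ^ (ε / 8) := by
      rw [← Real.rpow_natCast, ← Real.rpow_mul hX0.le]
      refine Real.rpow_le_rpow_of_exponent_le hX1.le ?_
      rw [div_mul_eq_mul_div, div_le_div_iff₀ (by positivity) (by norm_num)]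
      nlinarith
    have hn2 := (abs_le.1 hn).2
    have hnL : n / L ≤ q.1 (.inr 0) + q.1 (.inr 1) + q.1 (.inr 2) + q.2 .am + t₀ := by
      rw [div_le_iff₀ hL0', add_mul]
      linarith
    have hLL := hL0 p hpar hzr
    have hT : cκ (prX p) + n / L + P1Q904.LQ (cN (prX p)) (cκ (prX p)) (dd * cκ (prX p)) +
        3 * ε₁ + ε / 8 ≤ E8X L0 q + ε := by
      unfold P1X960.E8X P1Q904.LQ
      rw [← hp]
      linarith
    calc (X ^ (ε / (8 * ((M : ℝ) + 1)))) ^ M * X ^ (cκ (prX p) + n / L +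
          P1Q904.LQ (cN (prX p)) (cκ (prX p)) (dd * cκ (prX p)) + 3 * ε₁)
        ≤ X ^ (ε / 8) * X ^ (cκ (prX p) + n / L +
          P1Q904.LQ (cN (prX p)) (cκ (prX p)) (dd * cκ (prX p)) + 3 * ε₁) :=
          mul_le_mul_of_nonneg_right h1 (by positivity)
      _ = X ^ (cκ (prX p) + n / L +
          P1Q904.LQ (cN (prX p)) (cκ (prX p)) (dd * cκ (prX p)) + 3 * ε₁ + ε / 8) := by
          rw [← Real.rpow_add hX0]
          congr 1
          ring
      _ ≤ X ^ (E8X L0 q + ε) := Real.rpow_le_rpow_of_exponent_le hX1.le hT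

end Crest.Agent.R017.RnX571
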