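import Crest.Agent.R017.E3Fg_61
import Crest.Agent.R017.E3Tu_744
import Crest.Agent.R017.RnXi_571
import Crest.Agent.R017.DhS_744
import Crest.Agent.R017.ExRed2_848
import Crest.Agent.R017.LfX_986

/-!
# Row 17, exceptional class (helper744): the Gram error of the differences at the reduced data

* **`e3xu_E`** : helper764's `E3XU` at `red ∘ π`
-/

set_option autoImplicit false
set_option linter.unusedVariables false

noncomputable section

open Set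

namespace Crest.Agent.R017.E3Ux744

open Crest.Agent.R012 Crest.Agent.R012.Eis
open Crest.Agent.R017.FE47 (PU cx)
open Crest.Agent.R017.Prov71 Crest.Agent.R017.ER911 Crest.Agent.R017.SC777
open Crest.Agent.R017.End699 (PF)
open Crest.Agent.R017.B770 Crest.Agent.R017.E5B71 Crest.Agent.R017.E5L770
open Crest.Agent.R017.ExP960 (IX5 prX ZR)
open Crest.Agent.R017.P1t54 (ParS LS0 parOK_Sq5)
open Crest.Agent.R017.P1X960
open Crest.Agent.R017.P10X764
open Crest.Agent.R017.TM708 (T5 K5 R5)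
open Crest.Agent.R017.TK708 (FE2G AllT)
open Crest.Agent.R017.D5X939 (D5X)
open Crest.Agent.R017.Red848 (red Exc red_ok)
open Crest.Agent.R017.PX764 (Dk)
open Crest.Agent.R017.XS0298 (S0K)
open Crest.Agent.R017.XEx298 (Rt)
open Crest.Agent.R017.RnP571 (Dh)

variable {Λ : Type*} {π : Λ → DPar} {h : ℝ → ℝ} {c₀ : ℝ} {A d : ℝ}

/-- the family of frames of the square -/
lemma dhD (hd : 0 ≤ d) (hd1 : d ≤ 1 / 8) (hA0 : A ≤ 1) (hA1 : 16 * (1 - A) ≤ d) :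
    ∀ p ∈ ParS A d, Dh (cκ p) (cu p 2) (cu p 3) (cu p 4) (cx' p) (d * cκ p) :=
  fun _ hp => E3Nx744.dh_sq5 hd hd1 hA0 hA1 hp

/-- **the Gram error of the differences**, class E -/
theorem e3xu_E (hpu : PU h c₀) (hP : ∀ lam, (π lam).OK) (hE : ∀ lam, Exc (π lam))
    (hd : 0 ≤ d) (hd1 : d ≤ 1 / 42) (hA : 9 / 10 ≤ A) (hA0 : A ≤ 1) (hA1 : 16 * (1 - A) ≤ d)
    (hPF : PF Set.univ (7 / 8 + d)) {s : EF}
    (R : ExpRules (7 / 8 + d) (ex Dq (fun lam => Rt (red (π lam)) h)) s)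
    (hAll : AllT d (ex Dq fun lam => S0K Dk (red (π lam)) h))
    (hFE : FE2G (ex Dq fun lam => S0K Dk (red (π lam)) h) D5X K5 T5 fun b => 3 / 4 * d * b 0)
    {Rh : ℝ} (hRh0 : 0 ≤ Rh) (hRh : ∀ u, cx h u ≠ 0 → |u| ≤ Rh) :
    E3XU (fun lam => red (π lam)) h (1 / 64) (d / 4) Rh (17 / 100) (ParS A d) (LS0 d) := by
  have H := LfX986.frH_E hpu hP hE hd hd1 hA hA0 hA1 hAll hFE hRh0 hRh
  have hDh := dhD hd (by linarith : d ≤ 1 / 8) hA0 hA1
  have hcD : ∀ p ∈ ParS A d, 4 * (d / 4 * cκ p) ≤ d * cκ p := fun p _ => by linarith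
  have hNC : ∀ lam, ∀ k : Eis, k ≠ 0 →
      (Sup271.NPm (red (π lam)).n (red (π lam)).ψ (red (π lam)).l₂ k ↔ T411.NCube k) :=
    fun lam k hk => Red848.NPm_red_iff (hP lam).ψ.q0 hk
  refine E3F61.e3xu_H H (Hf := fun cc a qs i d _ => E3Nx744.HX cc a (I1146.LN (clN a qs)) i d)
    (fun cc a ps i d e => E3Nx744.HX_pos) ?_ ?_ ?_
  · exact E3Nx744.tnU_X hpu H.hP H.hex hRh0 hRh H.he0 H.he0' H.hc0 H.hc1 H.hPar H.hDN H.hDR H.hR5
      H.hKN H.hKR H.hTN H.hTR H.hcb hDh hcD (le_refl _) (by norm_num) H.hL0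
  · exact E3Nx744.tcU_X hpu H.hP H.hex hRh0 hRh H.he0 H.he0' H.hc0 H.hc1 H.hPar H.hDN H.hDR H.hR5
      H.hKN H.hKR H.hTN H.hTR H.hcb hDh hcD (le_refl _) (by norm_num) H.hL0
  · exact RnX571.rnU_X hpu H.hP hNC R hPF hd (by linarith) H.he0 H.he0' H.hc0 H.hc1 H.hPar hDh hcD
      (le_refl _) (by norm_num) (fun p hp _ => le_of_eq (by unfold P1t54.LS0; ring))

end Crest.Agent.R017.E3Ux744
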