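import Crest.Agent.R017.E3Ts_744
import Crest.Agent.R017.E3Sy_829
import Crest.Agent.R017.DhS_744
import Crest.Agent.R017.LfX_986

/-!
# Row 17, exceptional class (helper744): the frame `FrHS` at the reduced data, the T-halves there

* **`frHS_E`** : helper829's `FrHS` at `red ∘ π` on `ParS A d`, `LS0 d`
* `tnS_E`, `tcS_E` : `TnU`, `TcU` of the single lists there
-/

set_option autoImplicit false
set_option linter.unusedVariables false

noncomputable section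

open Set

namespace Crest.Agent.R017.E3Ux744

open Crest.Agent.R012 Crest.Agent.R012.Eis
open Crest.Agent.R017.FE47 (PU cx)
open Crest.Agent.R017.Prov71 Crest.Agent.R017.ER911 Crest.Agent.R017.SC777
open Crest.Agent.R017.End699 (PF)
open Crest.Agent.R017.B770 Crest.Agent.R017.E5B71 Crest.Agent.R017.E5P571
open Crest.Agent.R017.E5L770
open Crest.Agent.R017.ExBox960
open Crest.Agent.R017.ExP960
open Crest.Agent.R017.P1t54 (ParS LS0 parOK_Sq5)
open Crest.Agent.R017.P1X960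
open Crest.Agent.R017.P10X764
open Crest.Agent.R017.TM708 (T5 K5 R5)
open Crest.Agent.R017.TK708 (FE2G AllT)
open Crest.Agent.R017.D5X939 (D5X)
open Crest.Agent.R017.Red848 (red Exc red_ok)
open Crest.Agent.R017.PX764 (Dk)
open Crest.Agent.R017.XS0298 (S0K)
open Crest.Agent.R017.XEx298 (Rt)
open Crest.Agent.R017.NrX986 (bN_mem bR_mem Tf1)
open Crest.Agent.R017.LfP986 (r5_bN bts_of')
open Crest.Agent.R017.LfX986 (T9 K5_bN K5_bR T9_bN T9_bR cba_9 thK_bN thK_bR)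
open Crest.Agent.R017.RnP571 (Dh)
open Crest.Agent.R017.I1146 (LN)

variable {Λ : Type*} {π : Λ → DPar} {h : ℝ → ℝ} {c₀ : ℝ} {A d : ℝ}

/-- **helper829's `FrHS` at the reduced data** -/
theorem frHS_E (hpu : PU h c₀) (hP : ∀ lam, (π lam).OK) (hE : ∀ lam, Exc (π lam))
    (hd : 0 ≤ d) (hd1 : d ≤ 1 / 42) (hA : 9 / 10 ≤ A) (hA1 : 16 * (1 - A) ≤ d)
    (hAll : AllT d (ex Dq fun lam => S0K Dk (red (π lam)) h))
    (hFE : FE2G (ex Dq fun lam => S0K Dk (red (π lam)) h) D5X K5 T5 fun b => 3 / 4 * d * b 0)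
    {Rh : ℝ} (hRh0 : 0 ≤ Rh) (hRh : ∀ u, cx h u ≠ 0 → |u| ≤ Rh) :
    E3Sw829.FrHS (fun lam => red (π lam)) h c₀ Rh (1 / 64) (d / 4) (17 / 100) (ParS A d) D5X
      (fun b => 3 / 4 * d * b 0) K5 T9 Tf1 (LS0 d) where
  hpu := hpu
  hP := fun lam => red_ok (hP lam) (hE lam)
  hRh0 := hRh0
  hRh := hRh
  he0 := by norm_num
  he0' := le_rfl
  hc0 := by linarith
  hc1 := by linarith
  hPar := fun p hp => parOK_Sq5 hA hp
  hDN := fun p hp _ => bN_mem hd (by linarith) hA1 hp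
  hDR := fun p hp hz => bR_mem hd (by linarith) hA1 hp hz
  hR5 := fun p hp _ => r5_bN hd hd1 hA1 hp
  hKN := fun p _ _ => K5_bN p
  hKR := fun p _ _ => (K5_bR p).trans (K5_bN p)
  hTN := fun p _ _ _ _ _ _ _ => (min_le_left _ _).trans (T9_bN p).ge
  hTR := fun p _ _ _ _ _ _ _ => (min_le_left _ _).trans ((T9_bR p).trans (T9_bN p)).ge
  hcb := cba_9 hpu hP hE hd hAll hFE
  hL0 := fun p hp _ => by
    have h1 := thK_bN hd (by linarith) hA1 hp
    have h2 : (0 : ℝ) ≤ 3 / 4 * d * cκ (prX p) := by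
      have := LfP986.κ_nonneg hp
      positivity
    have e : FrX579.lmX (fun b => 3 / 4 * d * b 0) K5 T9 p = 3 / 4 * d * cκ (prX p) := by
      unfold FrX579.lmX
      rw [thK_bR, h1]
      show max 0 (max (0 + 3 / 4 * d * cκ (prX p)) (0 + 3 / 4 * d * cκ (prX p))) = _
      rw [max_self, zero_add, max_eq_right h2]
    rw [e]
    exact le_rfl
  hbt := bts_of' hd hd1 hA hA1

/-- **the T-half of the Gram error at the reduced data, single lists** -/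
theorem tnS_E (hpu : PU h c₀) (hP : ∀ lam, (π lam).OK) (hE : ∀ lam, Exc (π lam))
    (hd : 0 ≤ d) (hd1 : d ≤ 1 / 42) (hA : 9 / 10 ≤ A) (hA0 : A ≤ 1) (hA1 : 16 * (1 - A) ≤ d)
    (hAll : AllT d (ex Dq fun lam => S0K Dk (red (π lam)) h))
    (hFE : FE2G (ex Dq fun lam => S0K Dk (red (π lam)) h) D5X K5 T5 fun b => 3 / 4 * d * b 0)
    {Rh : ℝ} (hRh0 : 0 ≤ Rh) (hRh : ∀ u, cx h u ≠ 0 → |u| ≤ Rh) :
    E3F61.TnU S8X (Dom8X (d / 4) (17 / 100) (ParS A d) (SinL (17 / 100))) ∅ (E8X (LS0 d))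
      (fun a => a.1.l) (nw (d / 4)) (1 / 64) 22 (alS (fun lam => red (π lam)) h)
      (fun lam a qs => okCX (red (π lam.1)) lam.2 a qs)
      (fun cc a qs i d _ => E3Nx744.HX cc a (LN (clN a qs)) i d) := by
  have H := frHS_E hpu hP hE hd hd1 hA hA1 hAll hFE hRh0 hRh
  exact E3Nx744.tnU_S hpu H.hP hRh0 hRh H.he0 H.he0' H.hc0 H.hc1 H.hPar H.hDN H.hDR H.hR5
    H.hKN H.hKR H.hTN H.hTR H.hcb (Dp := fun p => d * cκ p)
    (fun p hp => E3Nx744.dh_sq5 hd (by linarith) hA0 hA1 hp) (fun p _ => by linarith) (le_refl _)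
    H.hL0

/-- **the T-half with the weight `(N e)⁻¹`** -/
theorem tcS_E (hpu : PU h c₀) (hP : ∀ lam, (π lam).OK) (hE : ∀ lam, Exc (π lam))
    (hd : 0 ≤ d) (hd1 : d ≤ 1 / 42) (hA : 9 / 10 ≤ A) (hA0 : A ≤ 1) (hA1 : 16 * (1 - A) ≤ d)
    (hAll : AllT d (ex Dq fun lam => S0K Dk (red (π lam)) h))
    (hFE : FE2G (ex Dq fun lam => S0K Dk (red (π lam)) h) D5X K5 T5 fun b => 3 / 4 * d * b 0)
    {Rh : ℝ} (hRh0 : 0 ≤ Rh) (hRh : ∀ u, cx h u ≠ 0 → |u| ≤ Rh) :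
    E3F61.TcU S8X (Dom8X (d / 4) (17 / 100) (ParS A d) (SinL (17 / 100))) ∅ (E8X (LS0 d))
      (fun a => a.1.l) (nw (d / 4)) (1 / 64) (alS (fun lam => red (π lam)) h)
      (fun lam a qs => okCX (red (π lam.1)) lam.2 a qs)
      (fun cc a qs i d _ => E3Nx744.HX cc a (LN (clN a qs)) i d) := by
  have H := frHS_E hpu hP hE hd hd1 hA hA1 hAll hFE hRh0 hRh
  exact E3Nx744.tcU_S hpu H.hP hRh0 hRh H.he0 H.he0' H.hc0 H.hc1 H.hPar H.hDN H.hDR H.hR5
    H.hKN H.hKR H.hTN H.hTR H.hcb (Dp := fun p => d * cκ p)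
    (fun p hp => E3Nx744.dh_sq5 hd (by linarith) hA0 hA1 hp) (fun p _ => by linarith) (le_refl _)
    H.hL0

end Crest.Agent.R017.E3Ux744
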