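import Crest.Agent.R017.RnXf_571

/-!
# Row 17, class E of `P1` (helper571): the numbers of a difference, all levels

* `rnx_lev` : all levels, (RH) and the sum of the numbers
-/

set_option autoImplicit false
set_option maxHeartbeats 400000

noncomputable section

open Finset
open scoped ComplexConjugate

namespace Crest.Agent.R017.RnX571

open Crest.Agent.R012 Crest.Agent.R012.Eis Crest.Agent.R012.MC
open Crest.Agent.R012.LS2 (S mem_S bl mem_bl)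
open Crest.Agent.R012.T411 (NCube)
open Crest.Agent.R017.FE47 (PU SM)
open Crest.Agent.R017.CM106
open Crest.Agent.R017.Prov71
open Crest.Agent.R017.B770
open Crest.Agent.R017.RM986 (Plain)
open Crest.Agent.R017.R3571 (RMm RMm_nonneg slp_two W2)
open Crest.Agent.R017.Mode405 (Slp)
open Crest.Agent.R017.PX764 (n6)
open Crest.Agent.R017.E3Z548 (FH)
open Crest.Agent.R017.E3Sz579 (Ld)
open Crest.Agent.R017.E3Hi290 (RN2XF)
open Crest.Agent.R017.TM708 (PD)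
open Crest.Agent.R017.I1146 (LN)
open Crest.Agent.R017.Sup271 (NPm)
open Crest.Agent.R017.RnP571
open Crest.Agent.R017.PoHx72 (Cls)
open Crest.Agent.R017.ROX744 (PrU)
open Crest.Agent.R017.P1X960 (xD rzD)

section

variable {Λ : Type*} {π : Λ → DPar} {h : ℝ → ℝ}

set_option maxHeartbeats 3200000 in
open Classical in
/-- **the numbers of a difference, all levels** (target `T`, levels `V = exp i`) -/
theorem rnx_lev {c₀ : ℝ} (hpu : PU h c₀) (hP : ∀ lam, (π lam).OK)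
    (hnp : ∀ lam, ¬ NPm (π lam).n (π lam).ψ (π lam).l₂ 1) {Kc : ℝ} (hKc : 0 ≤ Kc)
    {E : ℝ → ℝ → ℝ → ℝ → ℝ → ℝ → ℝ} (PL : Plain (fun _ k => NCube k) π h (Kc + 2) E)
    (hE : Continuous (fun q : (Fin 4 → ℝ) × (Kd → ℝ) =>
      E (q.1 0) (q.1 1) (q.1 2) (q.1 3) (q.2 .mo) (q.2 .am)))
    {ε : ℝ} (hε : 0 < ε) (hε1 : ε ≤ 1) :
    ∃ τ : ℝ, 0 < τ ∧ τ ≤ ε ∧ ∀ (lam : Λ) (t : Eis), t ≠ 0 → ∀ (N : ℕ) (B : ℝ),
      ∃ (M a A₀ : ℕ), 1 ≤ a ∧ ∀ c : ℝ, 1 ≤ c → ∃ X₀ : ℝ, 1 < X₀ ∧ ∀ X : ℝ, X₀ ≤ X →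
      ∀ (b b' : Fin 5 → ℝ) (us : Fin 3 → Pq) (gs : List Pq) (D κ s₀ H : ℝ),
      PD X τ B H N b 1 us gs κ → PD X τ B H N b' 1 (rzD us D) gs κ → (∀ i, b i + τ ≤ Kc) →
      (∀ i, b' i + τ ≤ Kc) → s₀ ≤ (us 0).z → s₀ ≤ (us 1).z → s₀ ≤ (us 0).z - D →
      s₀ ≤ (us 1).z + D →
      ∀ (K T : ℝ) (Hf : ℕ → Eis → Eis → ℝ), 0 < K → (∀ i d e, 0 < Hf i d e) →
      ∀ (I : Finset ℕ) (Ds EE : Finset Eis), (∀ i ∈ I, (i : ℝ) ≤ B * Real.log X) →
      Ds ⊆ S (X ^ B) → EE ⊆ S (X ^ B) →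
      (∀ i ∈ I, ∀ d ∈ Ds, ∀ e ∈ EE,
        Real.exp (LN ([us 0, us 1, us 2] ++ gs)) * Real.exp i * Hf i d e / K ≤ X ^ Kc) →
      (∀ i ∈ I, ∀ d ∈ Ds, ∀ e ∈ EE, 1 ≤ Ld K (Real.exp i) (Hf i d e) d →
        Nx (i / Real.log X) (Real.log (Hf i d e) / Real.log X)
          (LN ([us 0, us 1, us 2] ++ gs) / Real.log X) (Real.log (nm d) / Real.log X)
          (Real.log (nm e) / Real.log X) (s₀ / Real.log X) ≤ T ∧
        ∀ w₁ w₂ : ℝ, LnR E g2 T (Real.log K / Real.log X) (i / Real.log X)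
          (Real.log (Hf i d e) / Real.log X) (LN ([us 0, us 1, us 2] ++ gs) / Real.log X)
          (Real.log (nm d) / Real.log X) (Real.log (nm e) / Real.log X) w₁ w₂
          ((us 2).z / Real.log X) (LN gs / Real.log X) ε) →
      ∃ W0 : ℕ → Bool → Eis → Eis → ℝ → ℝ, (∀ i jj d e, Slp a (W0 i jj d e)) ∧
      (∀ A : ℕ, A₀ ≤ A → ∀ i ∈ I, ∀ jj, ∀ d ∈ Ds, ∀ e ∈ EE, ∀ γ φ, IsPrim γ → IsPrim φ →
        (nm φ : ℝ) ≤ X ^ B →
        ∀ P : ℝ, 0 < P → (nm γ : ℝ) * n6 γ ^ 2 * ∑ k ∈ (bl P).filter (Cls (PrU (t * t)) jj),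
          RMm A (fun j => xD h (π lam) t us D gs (d * j)) e γ φ k ≤ W0 i jj d e P) ∧
      ∑ i ∈ I, ∑ d ∈ Ds, ∑ e ∈ EE,
        FH K (Hf i d e) (Real.exp i) * RN2XF c K (Real.exp i)
          (Real.exp (LN ([us 0, us 1, us 2] ++ gs))) (Hf i) (W0 i) d e ≤
        H ^ M * X ^ (T + 3 * ε) := by
  obtain ⟨τ, hτ0, hτε, HR⟩ := rnx_pd hpu hP hnp hKc PL hE hε hε1
  refine ⟨τ, hτ0, hτε, fun lam t ht N B => ?_⟩
  obtain ⟨M, a, A₀, ha, HR⟩ := HR lam t ht N B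
  refine ⟨M, a, A₀, ha, fun c hc => ?_⟩
  obtain ⟨X₁, hX₁, HR⟩ := HR c hc
  obtain ⟨X₂, hX₂, HX₂⟩ := sum_inv2 hε B
  obtain ⟨X₃, hX₃, HX₃⟩ := XSup271.exists_X (C := (|B| + 1) * (2 / ε) + 1) (by
    have : 0 ≤ (|B| + 1) * (2 / ε) := by positivity
    linarith) (show 0 < ε / 2 by positivity)
  refine ⟨max X₁ (max X₂ (max X₃ (Real.exp 1))), lt_of_lt_of_le hX₁ (le_max_left _ _), ?_⟩
  intro X hX b b' us gs D κ s₀ H hPD hPD' hb hb' hs1 hs2 hs3 hs4 K T Hf hK hHf I Ds EE hI hDs hEE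
    hsz hline
  have hXX₁ : X₁ ≤ X := (le_max_left _ _).trans hX
  have hXX₂ : X₂ ≤ X := ((le_max_left _ _).trans (le_max_right _ _)).trans hX
  have hXX₃ : X₃ ≤ X :=
    (((le_max_left _ _).trans (le_max_right _ _)).trans (le_max_right _ _)).trans hX
  have hXe : Real.exp 1 ≤ X :=
    (((le_max_right _ _).trans (le_max_right _ _)).trans (le_max_right _ _)).trans hX
  have hX1 : 1 < X := by linarith
  have hX0 : 0 < X := by linarith
  have hL1 : 1 ≤ Real.log X := by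
    have := Real.log_le_log (Real.exp_pos 1) hXe
    rwa [Real.log_exp] at this
  have hB0 : 0 ≤ X ^ B := by positivity
  have hmem : ∀ D' : Finset Eis, D' ⊆ S (X ^ B) → ∀ d ∈ D', IsPrim d ∧ (nm d : ℝ) ≤ X ^ B := by
    intro D' hD' d hd
    obtain ⟨h1, h2, h3⟩ := (mem_S hB0).1 (hD' hd)
    exact ⟨h2, h1⟩
  have key : ∀ i : ℕ, ∃ W0 : Bool → Eis → Eis → ℝ → ℝ, (∀ jj d e, Slp a (W0 jj d e)) ∧
      (i ∈ I → (∀ A : ℕ, A₀ ≤ A → ∀ jj, ∀ d ∈ Ds, ∀ e ∈ EE, ∀ γ φ, IsPrim γ → IsPrim φ →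
        (nm φ : ℝ) ≤ X ^ B →
        ∀ P : ℝ, 0 < P → (nm γ : ℝ) * n6 γ ^ 2 * ∑ k ∈ (bl P).filter (Cls (PrU (t * t)) jj),
          RMm A (fun j => xD h (π lam) t us D gs (d * j)) e γ φ k ≤ W0 jj d e P) ∧
        ∀ d ∈ Ds, ∀ e ∈ EE, FH K (Hf i d e) (Real.exp i) * RN2XF c K (Real.exp i)
          (Real.exp (LN ([us 0, us 1, us 2] ++ gs))) (Hf i) W0 d e ≤
          H ^ M * X ^ (T + ε) / (nm d * nm e)) := by
    intro i
    by_cases hi : i ∈ I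
    swap
    · exact ⟨fun _ _ _ => W2 a 1 0, fun _ _ _ => slp_two ha one_pos le_rfl, fun h1 => absurd h1 hi⟩
    obtain ⟨W0, k1, k2, k3⟩ := HR X hXX₁ b b' us gs D κ s₀ H hPD hPD' hb hb' hs1 hs2 hs3 hs4 K
      (Real.exp i) (Hf i) (fun _ _ => T) hK (Real.exp_pos _) (hHf i) (fun d e => d ∈ Ds ∧ e ∈ EE)
      (fun d e hde => ⟨(hmem Ds hDs d hde.1).1, (hmem EE hEE e hde.2).1, (hmem Ds hDs d hde.1).2,
        (hmem EE hEE e hde.2).2⟩) (fun d e hde => hsz i hi d hde.1 e hde.2)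
      (fun d e hde h1 => by
        rw [Real.log_exp]
        exact hline i hi d hde.1 e hde.2 h1)
    exact ⟨W0, k1, fun _ => ⟨fun A hA jj d hd e he => k2 A hA jj d e ⟨hd, he⟩,
      fun d hd e he => k3 d e ⟨hd, he⟩⟩⟩
  choose W0 k1 k2 using key
  refine ⟨W0, fun i jj d e => k1 i jj d e, fun A hA i hi jj d hd e he => (k2 i hi).1 A hA jj d hd
    e he, ?_⟩
  have hHM : 0 ≤ H ^ M := by
    have := hPD.H1
    positivity
  have hP0 : 0 ≤ H ^ M * X ^ (T + ε) := by positivity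
  have hcard : (I.card : ℝ) ≤ X ^ ε := by
    have h1 : I ⊆ range (⌊|B| * Real.log X⌋₊ + 1) := by
      intro i hi
      rw [mem_range, Nat.lt_succ_iff]
      refine Nat.le_floor ((hI i hi).trans ?_)
      exact mul_le_mul_of_nonneg_right (le_abs_self B) (by linarith)
    have h2 : (I.card : ℝ) ≤ |B| * Real.log X + 1 := by
      have h3 := card_le_card h1
      rw [card_range] at h3
      have h4 : (I.card : ℝ) ≤ ⌊|B| * Real.log X⌋₊ + 1 := by exact_mod_cast h3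
      have h5 := Nat.floor_le (show 0 ≤ |B| * Real.log X by positivity)
      linarith
    have h3 : Real.log X ≤ X ^ (ε / 2) * (2 / ε) := by
      have h4 := Real.log_le_rpow_div hX0.le (show 0 < ε / 2 by positivity)
      rwa [div_eq_mul_inv, inv_div] at h4
    have h5 : 1 ≤ X ^ (ε / 2) := Real.one_le_rpow hX1.le (by positivity)
    calc (I.card : ℝ) ≤ |B| * Real.log X + 1 := h2
      _ ≤ (|B| + 1) * Real.log X := by nlinarith
      _ ≤ (|B| + 1) * (X ^ (ε / 2) * (2 / ε)) := mul_le_mul_of_nonneg_left h3 (by positivity)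
      _ = (|B| + 1) * (2 / ε) * X ^ (ε / 2) := by ring
      _ ≤ X ^ (ε / 2) * X ^ (ε / 2) := by
          refine mul_le_mul_of_nonneg_right ?_ (by positivity)
          have := HX₃ X hXX₃
          linarith
      _ = X ^ ε := by rw [← Real.rpow_add hX0]; congr 1; ring
  calc ∑ i ∈ I, ∑ d ∈ Ds, ∑ e ∈ EE,
        FH K (Hf i d e) (Real.exp i) * RN2XF c K (Real.exp i)
          (Real.exp (LN ([us 0, us 1, us 2] ++ gs))) (Hf i) (W0 i) d e
      ≤ ∑ i ∈ I, ∑ d ∈ Ds, ∑ e ∈ EE, H ^ M * X ^ (T + ε) * (1 / ((nm d : ℝ) * nm e)) := by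
        refine sum_le_sum fun i hi => sum_le_sum fun d hd => sum_le_sum fun e he => ?_
        have := (k2 i hi).2 d hd e he
        rwa [div_eq_mul_one_div] at this
    _ = I.card * (H ^ M * X ^ (T + ε) * ∑ d ∈ Ds, ∑ e ∈ EE, 1 / ((nm d : ℝ) * nm e)) := by
        have e0 : ∑ d ∈ Ds, ∑ e ∈ EE, H ^ M * X ^ (T + ε) * (1 / ((nm d : ℝ) * nm e)) =
            H ^ M * X ^ (T + ε) * ∑ d ∈ Ds, ∑ e ∈ EE, 1 / ((nm d : ℝ) * nm e) := by
          rw [mul_sum]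
          exact sum_congr rfl fun d _ => by rw [mul_sum]
        rw [e0, sum_const, nsmul_eq_mul]
    _ ≤ X ^ ε * (H ^ M * X ^ (T + ε) * X ^ ε) := by
        refine mul_le_mul hcard (mul_le_mul_of_nonneg_left (HX₂ X hXX₂ Ds EE hDs hEE) hP0)
          (mul_nonneg hP0 (sum_nonneg fun d _ => sum_nonneg fun e _ => by positivity))
          (by positivity)
    _ = H ^ M * X ^ (T + 3 * ε) := by
        have e1 : X ^ (T + 3 * ε) = X ^ ε * X ^ (T + ε) * X ^ ε := by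
          rw [← Real.rpow_add hX0, ← Real.rpow_add hX0]
          congr 1
          ring
        rw [e1]
        ring

end

end Crest.Agent.R017.RnX571
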