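import Crest.Agent.R017.RnSe_629
import Crest.Agent.R017.RnXg_571

/-!
# Row 17, class E of `P1` (helper629, after helper571's `RnXf`, `RnXg`): the numbers of one list

* `rns_pd`, `rns_lev` : the numbers of one list, one level / all levels
-/

set_option autoImplicit false
set_option maxHeartbeats 400000

noncomputable section

open Finset
open scoped ComplexConjugate

namespace Crest.Agent.R017.RnS629

open Crest.Agent.R012 Crest.Agent.R012.Eis Crest.Agent.R012.MC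
open Crest.Agent.R012.LS2 (S mem_S bl mem_bl)
open Crest.Agent.R012.T411 (NCube)
open Crest.Agent.R017.FE47 (PU SM)
open Crest.Agent.R017.CM106
open Crest.Agent.R017.XG702 (Pcs BG)
open Crest.Agent.R017.Prov71
open Crest.Agent.R017.B770
open Crest.Agent.R017.HP842 (Pc pc sqc al alL)
open Crest.Agent.R017.E5B71 (Pt)
open Crest.Agent.R017.RM986 (Plain)
open Crest.Agent.R017.R3571 (RMm RMm_nonneg slp_two W2)
open Crest.Agent.R017.Mode405 (Slp)
open Crest.Agent.R017.PX764 (n6)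
open Crest.Agent.R017.E3D579 (n6_nonneg)
open Crest.Agent.R017.E3Z548 (FH)
open Crest.Agent.R017.E3Sz579 (Ld Md)
open Crest.Agent.R017.E3Sx744 (Mxd)
open Crest.Agent.R017.E3T829 (G2)
open Crest.Agent.R017.E3Hi290 (RN2XF)
open Crest.Agent.R017.TM708 (PD)
open Crest.Agent.R017.I1146 (LN)
open Crest.Agent.R017.RnP571
open Crest.Agent.R017.PoHx72 (Cls)
open Crest.Agent.R017.ROX744 (PrU)
open Crest.Agent.R017.RnX571 (Nx)

section

variable {Λ : Type*} {π : Λ → DPar} {h : ℝ → ℝ}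

set_option maxHeartbeats 3200000 in
open Classical in
/-- **the numbers of one list, one level** -/
theorem rns_pd {c₀ : ℝ} (hpu : PU h c₀) (hP : ∀ lam, (π lam).OK) {Kc : ℝ} (hKc : 0 ≤ Kc)
    {E : ℝ → ℝ → ℝ → ℝ → ℝ → ℝ → ℝ} (PL : Plain (fun _ k => NCube k) π h (Kc + 2) E)
    (hE : Continuous (fun q : (Fin 4 → ℝ) × (Kd → ℝ) =>
      E (q.1 0) (q.1 1) (q.1 2) (q.1 3) (q.2 .mo) (q.2 .am)))
    {ε : ℝ} (hε : 0 < ε) (hε1 : ε ≤ 1) :
    ∃ τ : ℝ, 0 < τ ∧ τ ≤ ε ∧ ∀ (lam : Λ) (t : Eis), t ≠ 0 → ∀ (N : ℕ) (B : ℝ),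
      ∃ (M a A₀ : ℕ), 1 ≤ a ∧ ∀ c : ℝ, 1 ≤ c → ∃ X₀ : ℝ, 1 < X₀ ∧ ∀ X : ℝ, X₀ ≤ X →
      ∀ (b : Fin 5 → ℝ) (us : Fin 3 → Pq) (gs : List Pq) (κ H : ℝ),
      PD X τ B H N b 1 us gs κ → (∀ i, b i + τ ≤ Kc) →
      ∀ (K V : ℝ) (Hf T : Eis → Eis → ℝ), 0 < K → 0 < V → (∀ d e, 0 < Hf d e) →
      ∀ Pr : Eis → Eis → Prop,
      (∀ d e, Pr d e → IsPrim d ∧ IsPrim e ∧ (nm d : ℝ) ≤ X ^ B ∧ (nm e : ℝ) ≤ X ^ B) →
      (∀ d e, Pr d e → Real.exp (LN ([us 0, us 1, us 2] ++ gs)) * V * Hf d e / K ≤ X ^ Kc) →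
      (∀ d e, Pr d e → 1 ≤ Ld K V (Hf d e) d →
        Nx (Real.log V / Real.log X) (Real.log (Hf d e) / Real.log X)
          (LN ([us 0, us 1, us 2] ++ gs) / Real.log X) (Real.log (nm d) / Real.log X)
          (Real.log (nm e) / Real.log X) 0 ≤ T d e ∧
        ∀ w₁ w₂ : ℝ, LnR E g2 (T d e) (Real.log K / Real.log X) (Real.log V / Real.log X)
          (Real.log (Hf d e) / Real.log X) (LN ([us 0, us 1, us 2] ++ gs) / Real.log X)
          (Real.log (nm d) / Real.log X) (Real.log (nm e) / Real.log X) w₁ w₂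
          ((us 2).z / Real.log X) (LN gs / Real.log X) ε) →
      ∃ W0 : Bool → Eis → Eis → ℝ → ℝ, (∀ jj d e, Slp a (W0 jj d e)) ∧
      (∀ A : ℕ, A₀ ≤ A → ∀ jj d e, Pr d e → ∀ γ φ, IsPrim γ → IsPrim φ → (nm φ : ℝ) ≤ X ^ B →
        ∀ P : ℝ, 0 < P → (nm γ : ℝ) * n6 γ ^ 2 * ∑ k ∈ (bl P).filter (Cls (PrU (t * t)) jj),
          RMm A (fun j => sqc 1 (alL h ((List.ofFn us ++ gs).map (Pt (π lam) t))) (d * j))
            e γ φ k ≤ W0 jj d e P) ∧
      ∀ d e, Pr d e →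
        FH K (Hf d e) V * RN2XF c K V (Real.exp (LN ([us 0, us 1, us 2] ++ gs))) Hf W0 d e ≤
        H ^ M * X ^ (T d e + ε) / (nm d * nm e) := by
  obtain ⟨Gb, hGb, hEb⟩ := bdd_of_cont hE (Kc + 2)
  obtain ⟨σ, hσ0, hσε, HR⟩ := rns_raw hpu hP hKc PL (gg := g2)
    (fun c hc l I => g2_hom hc l I) hGb (fun i y₁ y₂ y₃ x => hEb i y₁ y₂ y₃ x) hε hε1
  refine ⟨σ, hσ0, hσε, fun lam t ht N B => ?_⟩
  obtain ⟨M, a, A₀, ha, HR⟩ := HR lam t ht N B
  refine ⟨M, a, A₀, ha, fun c hc => ?_⟩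
  obtain ⟨X₁, hX₁, HR⟩ := HR c hc
  refine ⟨X₁, hX₁, ?_⟩
  intro X hX b us gs κ H hPD hb K V Hf T hK hV hHf Pr hPr hsz hline
  have hX1 : 1 < X := by linarith
  have hL : 0 < Real.log X := Real.log_pos hX1
  have hn : LN ([us 0, us 1, us 2] ++ gs) =
      (us 0).z + (us 1).z + (us 2).z + (gs.map Pq.z).sum := by
    unfold I1146.LN
    simp only [List.cons_append, List.nil_append, List.map_cons, List.sum_cons]
    ring
  have hLg : LN gs = (gs.map Pq.z).sum := rfl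
  have hz : ∀ i, (us i).z ≤ Kc * Real.log X := by
    intro i
    have h0 : ∀ j : Fin 5, (b j + σ) * Real.log X ≤ Kc * Real.log X := fun j =>
      mul_le_mul_of_nonneg_right (hb j) hL.le
    fin_cases i
    · exact hPD.z1.trans (h0 1)
    · exact hPD.z2.trans (h0 2)
    · exact hPD.z3.trans (h0 3)
  obtain ⟨W0, hW1, hW2, hW3⟩ := HR X hX (us 0) (us 1) (us 2) gs H (fun p hp => by
      simp only [List.mem_cons, List.not_mem_nil, or_false] at hp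
      rcases hp with rfl | rfl | rfl
      · exact ⟨(Dq_lump _).2 (hPD.lump 0), hPD.us0 0, hz 0, hPD.usB 0⟩
      · exact ⟨(Dq_lump _).2 (hPD.lump 1), hPD.us0 1, hz 1, hPD.usB 1⟩
      · exact ⟨(Dq_lump _).2 (hPD.lump 2), hPD.us0 2, hz 2, hPD.usB 2⟩) hPD.len
    (fun p hp => by
      obtain ⟨a1, a2, a3, a4, a5⟩ := hPD.am p hp
      exact ⟨a1, a2, a3, a4⟩)
    (hPD.x.trans (mul_le_mul_of_nonneg_right (hb 4) hL.le)) hPD.H1
    (fun p hp => by
      simp only [List.mem_cons] at hp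
      rcases hp with rfl | rfl | rfl | hp
      · exact hPD.usH 0
      · exact hPD.usH 1
      · exact hPD.usH 2
      · exact (hPD.am p hp).2.2.2.2)
    (LN ([us 0, us 1, us 2] ++ gs)) hn K V Hf (fun d e => G2 (Ld K V (Hf d e) d)
    (Md c K V (Hf d e) (Real.exp (LN ([us 0, us 1, us 2] ++ gs))) d)
    (Real.exp (LN ([us 0, us 1, us 2] ++ gs)) * V * Hf d e / K)) T hK hV hHf Pr hPr
    (fun d e hde => ⟨hsz d e hde, by
      have h1 := hHf d e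
      have pd := (hPr d e hde).1
      refine E3T829.G2_nonneg (Ld_pos hK hV h1 pd.ne_zero).le ?_ (by positivity)
      exact E3Sz579.Md_nonneg (by linarith) hK hV h1 (Real.exp_pos _) d,
      w2_le hc hK hV (hHf d e) (hPr d e hde).1.ne_zero⟩) (fun d e hde h1 => by
      obtain ⟨h0, h2⟩ := hline d e hde h1
      have e1 : (LN ([us 0, us 1, us 2] ++ gs) + Real.log V + Real.log (Hf d e) - Real.log K) /
          Real.log X = LN ([us 0, us 1, us 2] ++ gs) / Real.log X + Real.log V / Real.log X +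
            Real.log (Hf d e) / Real.log X - Real.log K / Real.log X := by
        rw [sub_div, add_div, add_div]
      have e2 : (LN ([us 0, us 1, us 2] ++ gs) - Real.log (nm d) - Real.log (nm e)) /
          Real.log X = LN ([us 0, us 1, us 2] ++ gs) / Real.log X -
            Real.log (nm d) / Real.log X - Real.log (nm e) / Real.log X := by
        rw [sub_div, sub_div]
      rw [e1, e2]
      exact ⟨h0, (h2 0 0).n, (h2 ((us 0).z / Real.log X) ((us 1).z / Real.log X)).l⟩)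
  refine ⟨W0, hW1, fun A hA jj d e hde γ φ hγ hφ hφB P hPp => ?_, fun d e hde => hW3 d e hde⟩
  rw [P10X764.ofFn3]
  exact hW2 A hA jj d e hde γ φ hγ hφ hφB P hPp

set_option maxHeartbeats 3200000 in
open Classical in
/-- **the numbers of one list, all levels** (target `T`, levels `V = exp i`) -/
theorem rns_lev {c₀ : ℝ} (hpu : PU h c₀) (hP : ∀ lam, (π lam).OK) {Kc : ℝ} (hKc : 0 ≤ Kc)
    {E : ℝ → ℝ → ℝ → ℝ → ℝ → ℝ → ℝ} (PL : Plain (fun _ k => NCube k) π h (Kc + 2) E)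
    (hE : Continuous (fun q : (Fin 4 → ℝ) × (Kd → ℝ) =>
      E (q.1 0) (q.1 1) (q.1 2) (q.1 3) (q.2 .mo) (q.2 .am)))
    {ε : ℝ} (hε : 0 < ε) (hε1 : ε ≤ 1) :
    ∃ τ : ℝ, 0 < τ ∧ τ ≤ ε ∧ ∀ (lam : Λ) (t : Eis), t ≠ 0 → ∀ (N : ℕ) (B : ℝ),
      ∃ (M a A₀ : ℕ), 1 ≤ a ∧ ∀ c : ℝ, 1 ≤ c → ∃ X₀ : ℝ, 1 < X₀ ∧ ∀ X : ℝ, X₀ ≤ X →
      ∀ (b : Fin 5 → ℝ) (us : Fin 3 → Pq) (gs : List Pq) (κ H : ℝ),
      PD X τ B H N b 1 us gs κ → (∀ i, b i + τ ≤ Kc) →
      ∀ (K T : ℝ) (Hf : ℕ → Eis → Eis → ℝ), 0 < K → (∀ i d e, 0 < Hf i d e) →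
      ∀ (I : Finset ℕ) (Ds EE : Finset Eis), (∀ i ∈ I, (i : ℝ) ≤ B * Real.log X) →
      Ds ⊆ S (X ^ B) → EE ⊆ S (X ^ B) →
      (∀ i ∈ I, ∀ d ∈ Ds, ∀ e ∈ EE,
        Real.exp (LN ([us 0, us 1, us 2] ++ gs)) * Real.exp i * Hf i d e / K ≤ X ^ Kc) →
      (∀ i ∈ I, ∀ d ∈ Ds, ∀ e ∈ EE, 1 ≤ Ld K (Real.exp i) (Hf i d e) d →
        Nx (i / Real.log X) (Real.log (Hf i d e) / Real.log X)
          (LN ([us 0, us 1, us 2] ++ gs) / Real.log X) (Real.log (nm d) / Real.log X)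
          (Real.log (nm e) / Real.log X) 0 ≤ T ∧
        ∀ w₁ w₂ : ℝ, LnR E g2 T (Real.log K / Real.log X) (i / Real.log X)
          (Real.log (Hf i d e) / Real.log X) (LN ([us 0, us 1, us 2] ++ gs) / Real.log X)
          (Real.log (nm d) / Real.log X) (Real.log (nm e) / Real.log X) w₁ w₂
          ((us 2).z / Real.log X) (LN gs / Real.log X) ε) →
      ∃ W0 : ℕ → Bool → Eis → Eis → ℝ → ℝ, (∀ i jj d e, Slp a (W0 i jj d e)) ∧
      (∀ A : ℕ, A₀ ≤ A → ∀ i ∈ I, ∀ jj, ∀ d ∈ Ds, ∀ e ∈ EE, ∀ γ φ, IsPrim γ → IsPrim φ →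
        (nm φ : ℝ) ≤ X ^ B →
        ∀ P : ℝ, 0 < P → (nm γ : ℝ) * n6 γ ^ 2 * ∑ k ∈ (bl P).filter (Cls (PrU (t * t)) jj),
          RMm A (fun j => sqc 1 (alL h ((List.ofFn us ++ gs).map (Pt (π lam) t))) (d * j))
            e γ φ k ≤ W0 i jj d e P) ∧
      ∑ i ∈ I, ∑ d ∈ Ds, ∑ e ∈ EE,
        FH K (Hf i d e) (Real.exp i) * RN2XF c K (Real.exp i)
          (Real.exp (LN ([us 0, us 1, us 2] ++ gs))) (Hf i) (W0 i) d e ≤
        H ^ M * X ^ (T + 3 * ε) := by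
  obtain ⟨τ, hτ0, hτε, HR⟩ := rns_pd hpu hP hKc PL hE hε hε1
  refine ⟨τ, hτ0, hτε, fun lam t ht N B => ?_⟩
  obtain ⟨M, a, A₀, ha, HR⟩ := HR lam t ht N B
  refine ⟨M, a, A₀, ha, fun c hc => ?_⟩
  obtain ⟨X₁, hX₁, HR⟩ := HR c hc
  obtain ⟨X₂, hX₂, HX₂⟩ := sum_inv2 hε B
  obtain ⟨X₃, hX₃, HX₃⟩ := XSup271.exists_X (C := (|B| + 1) * (2 / ε) + 1) (by
    have : 0 ≤ (|B| + 1) * (2 / ε) := by positivity
    linarith) (show 0 < ε / 2 by positivity)
  refine ⟨max X₁ (max X₂ (max X₃ (Real.exp 1))), lt_of_lt_of_le hX₁ (le_max_left _ _), ?_⟩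
  intro X hX b us gs κ H hPD hb K T Hf hK hHf I Ds EE hI hDs hEE hsz hline
  have hXX₁ : X₁ ≤ X := (le_max_left _ _).trans hX
  have hXX₂ : X₂ ≤ X := ((le_max_left _ _).trans (le_max_right _ _)).trans hX
  have hXX₃ : X₃ ≤ X :=
    (((le_max_left _ _).trans (le_max_right _ _)).trans (le_max_right _ _)).trans hX
  have hXe : Real.exp 1 ≤ X :=
    (((le_max_right _ _).trans (le_max_right _ _)).trans (le_max_right _ _)).trans hX
  have hX1 : 1 < X := by linarith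
  have hX0 : 0 < X := by linarith
  have hL1 : 1 ≤ Real.log X := by
    have := Real.log_le_log (Real.exp_pos 1) hXe
    rwa [Real.log_exp] at this
  have hB0 : 0 ≤ X ^ B := by positivity
  have hmem : ∀ D' : Finset Eis, D' ⊆ S (X ^ B) → ∀ d ∈ D', IsPrim d ∧ (nm d : ℝ) ≤ X ^ B := by
    intro D' hD' d hd
    obtain ⟨h1, h2, h3⟩ := (mem_S hB0).1 (hD' hd)
    exact ⟨h2, h1⟩
  have key : ∀ i : ℕ, ∃ W0 : Bool → Eis → Eis → ℝ → ℝ, (∀ jj d e, Slp a (W0 jj d e)) ∧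
      (i ∈ I → (∀ A : ℕ, A₀ ≤ A → ∀ jj, ∀ d ∈ Ds, ∀ e ∈ EE, ∀ γ φ, IsPrim γ → IsPrim φ →
        (nm φ : ℝ) ≤ X ^ B →
        ∀ P : ℝ, 0 < P → (nm γ : ℝ) * n6 γ ^ 2 * ∑ k ∈ (bl P).filter (Cls (PrU (t * t)) jj),
          RMm A (fun j => sqc 1 (alL h ((List.ofFn us ++ gs).map (Pt (π lam) t))) (d * j))
            e γ φ k ≤ W0 jj d e P) ∧
        ∀ d ∈ Ds, ∀ e ∈ EE, FH K (Hf i d e) (Real.exp i) * RN2XF c K (Real.exp i)
          (Real.exp (LN ([us 0, us 1, us 2] ++ gs))) (Hf i) W0 d e ≤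
          H ^ M * X ^ (T + ε) / (nm d * nm e)) := by
    intro i
    by_cases hi : i ∈ I
    swap
    · exact ⟨fun _ _ _ => W2 a 1 0, fun _ _ _ => slp_two ha one_pos le_rfl, fun h1 => absurd h1 hi⟩
    obtain ⟨W0, k1, k2, k3⟩ := HR X hXX₁ b us gs κ H hPD hb K
      (Real.exp i) (Hf i) (fun _ _ => T) hK (Real.exp_pos _) (hHf i) (fun d e => d ∈ Ds ∧ e ∈ EE)
      (fun d e hde => ⟨(hmem Ds hDs d hde.1).1, (hmem EE hEE e hde.2).1, (hmem Ds hDs d hde.1).2,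
        (hmem EE hEE e hde.2).2⟩) (fun d e hde => hsz i hi d hde.1 e hde.2)
      (fun d e hde h1 => by
        rw [Real.log_exp]
        exact hline i hi d hde.1 e hde.2 h1)
    exact ⟨W0, k1, fun _ => ⟨fun A hA jj d hd e he => k2 A hA jj d e ⟨hd, he⟩,
      fun d hd e he => k3 d e ⟨hd, he⟩⟩⟩
  choose W0 k1 k2 using key
  refine ⟨W0, fun i jj d e => k1 i jj d e, fun A hA i hi jj d hd e he => (k2 i hi).1 A hA jj d hd
    e he, ?_⟩
  have hHM : 0 ≤ H ^ M := by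
    have := hPD.H1
    positivity
  have hP0 : 0 ≤ H ^ M * X ^ (T + ε) := by positivity
  have hcard : (I.card : ℝ) ≤ X ^ ε := by
    have h1 : I ⊆ range (⌊|B| * Real.log X⌋₊ + 1) := by
      intro i hi
      rw [mem_range, Nat.lt_succ_iff]
      refine Nat.le_floor ((hI i hi).trans ?_)
      exact mul_le_mul_of_nonneg_right (le_abs_self B) (by linarith)
    have h2 : (I.card : ℝ) ≤ |B| * Real.log X + 1 := by
      have h3 := card_le_card h1
      rw [card_range] at h3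
      have h4 : (I.card : ℝ) ≤ ⌊|B| * Real.log X⌋₊ + 1 := by exact_mod_cast h3
      have h5 := Nat.floor_le (show 0 ≤ |B| * Real.log X by positivity)
      linarith
    have h3 : Real.log X ≤ X ^ (ε / 2) * (2 / ε) := by
      have h4 := Real.log_le_rpow_div hX0.le (show 0 < ε / 2 by positivity)
      rwa [div_eq_mul_inv, inv_div] at h4
    have h5 : 1 ≤ X ^ (ε / 2) := Real.one_le_rpow hX1.le (by positivity)
    calc (I.card : ℝ) ≤ |B| * Real.log X + 1 := h2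
      _ ≤ (|B| + 1) * Real.log X := by nlinarith
      _ ≤ (|B| + 1) * (X ^ (ε / 2) * (2 / ε)) := mul_le_mul_of_nonneg_left h3 (by positivity)
      _ = (|B| + 1) * (2 / ε) * X ^ (ε / 2) := by ring
      _ ≤ X ^ (ε / 2) * X ^ (ε / 2) := by
          refine mul_le_mul_of_nonneg_right ?_ (by positivity)
          have := HX₃ X hXX₃
          linarith
      _ = X ^ ε := by rw [← Real.rpow_add hX0]; congr 1; ring
  calc ∑ i ∈ I, ∑ d ∈ Ds, ∑ e ∈ EE,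
        FH K (Hf i d e) (Real.exp i) * RN2XF c K (Real.exp i)
          (Real.exp (LN ([us 0, us 1, us 2] ++ gs))) (Hf i) (W0 i) d e
      ≤ ∑ i ∈ I, ∑ d ∈ Ds, ∑ e ∈ EE, H ^ M * X ^ (T + ε) * (1 / ((nm d : ℝ) * nm e)) := by
        refine sum_le_sum fun i hi => sum_le_sum fun d hd => sum_le_sum fun e he => ?_
        have := (k2 i hi).2 d hd e he
        rwa [div_eq_mul_one_div] at this
    _ = I.card * (H ^ M * X ^ (T + ε) * ∑ d ∈ Ds, ∑ e ∈ EE, 1 / ((nm d : ℝ) * nm e)) := by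
        have e0 : ∑ d ∈ Ds, ∑ e ∈ EE, H ^ M * X ^ (T + ε) * (1 / ((nm d : ℝ) * nm e)) =
            H ^ M * X ^ (T + ε) * ∑ d ∈ Ds, ∑ e ∈ EE, 1 / ((nm d : ℝ) * nm e) := by
          rw [mul_sum]
          exact sum_congr rfl fun d _ => by rw [mul_sum]
        rw [e0, sum_const, nsmul_eq_mul]
    _ ≤ X ^ ε * (H ^ M * X ^ (T + ε) * X ^ ε) := by
        refine mul_le_mul hcard (mul_le_mul_of_nonneg_left (HX₂ X hXX₂ Ds EE hDs hEE) hP0)
          (mul_nonneg hP0 (sum_nonneg fun d _ => sum_nonneg fun e _ => by positivity))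
          (by positivity)
    _ = H ^ M * X ^ (T + 3 * ε) := by
        have e1 : X ^ (T + 3 * ε) = X ^ ε * X ^ (T + ε) * X ^ ε := by
          rw [← Real.rpow_add hX0, ← Real.rpow_add hX0]
          congr 1
          ring
        rw [e1]
        ring

end

end Crest.Agent.R017.RnS629
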