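import Crest.Agent.R017.RnXi_571
import Crest.Agent.R017.RnSf_629
import Crest.Agent.R017.P10Sb_764

/-!
# Row 17, class E of `P1` (helper629, after helper571's `RnXi`): the `R`-half of E3 for the single
lists

* `s8s_frame` : the frame of a child of a single list
* `TBs`, `frRS` : the frames of the real lines
* **`rnU_S`** : helper61's `RnU`
-/

set_option autoImplicit false
set_option maxHeartbeats 400000
set_option linter.unusedVariables false

noncomputable section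

open Finset
open scoped ComplexConjugate

namespace Crest.Agent.R017.RnS629

open Crest.Agent.R012 Crest.Agent.R012.Eis Crest.Agent.R012.MC
open Crest.Agent.R012.LS2 (S mem_S bl mem_bl)
open Crest.Agent.R012.T411 (NCube)
open Crest.Agent.R017.FE47 (PU SM)
open Crest.Agent.R017.CM106
open Crest.Agent.R017.XG702 (Pcs)
open Crest.Agent.R017.XT71 (Sys Win mx)
open Crest.Agent.R017.Prov71
open Crest.Agent.R017.B770
open Crest.Agent.R017.ER911 Crest.Agent.R017.ExpC702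
open Crest.Agent.R017.HP842 (Pc pc sqc al alL)
open Crest.Agent.R017.RM986 (Plain)
open Crest.Agent.R017.R3571 (RMm RMm_nonneg)
open Crest.Agent.R017.Mode405 (Slp)
open Crest.Agent.R017.PX764 (n6)
open Crest.Agent.R017.E3Z548 (FH)
open Crest.Agent.R017.E3Sz579 (Ld)
open Crest.Agent.R017.E3Hi290 (RN2XF)
open Crest.Agent.R017.E3Kc548 (LI mem_LI afT)
open Crest.Agent.R017.E3T829 (RR)
open Crest.Agent.R017.E3Xa72 (RHRx)
open Crest.Agent.R017.TM708 (PD)
open Crest.Agent.R017.I1146 (LN SM_cop alL_cop)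
open Crest.Agent.R017.Sup271 (NPm)
open Crest.Agent.R017.End699 (PF)
open Crest.Agent.R017.XEx298 (Rt)
open Crest.Agent.R017.RnP571
open Crest.Agent.R017.PoHx72 (Cls)
open Crest.Agent.R017.ROX744 (PrU)
open Crest.Agent.R017.E5B71 Crest.Agent.R017.E5L770
open Crest.Agent.R017.Sf770 (nO JS okJ_JS tO)
open Crest.Agent.R017.P1l54 (ParOK)
open Crest.Agent.R017.ExBox960 Crest.Agent.R017.ExP960
open Crest.Agent.R017.P1X960
open Crest.Agent.R017.P10X764
open Crest.Agent.R017.P10146 (mass_am')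
open Crest.Agent.R017.E3N146 (Bf Tf)
open Crest.Agent.R017.S8X50 (F8X)
open Crest.Agent.R017.E3F61 (RnU)
open Crest.Agent.R017.E3Nx744 (HX HX_pos HX_small HX_large Ld_HX)
open Crest.Agent.R017.RnX571 (PD_mono Pt_cop JS_fst sz_small sz_large sz2_small sz2_large vt_le
  lines_X rmx_NC)

/-- the bounds of a single list -/
def bS (p : IX5 → ℝ) (v₀ v₁ v₂ : ℝ) : Fin 5 → ℝ := ![cκ (prX p), v₀, v₁, v₂, cx' (prX p)]

open scoped Classical in
/-- **the frame of a child** of a single list -/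
theorem s8s_frame {c β : ℝ} {Par : Set (Fin 3 ⊕ Fin 5 → ℝ)} {P : DPar} {s : Eis}
    {X δ δ' B τ : ℝ} {N : ℕ} {a : BcX} {qs : List Pq} (hX1 : 1 < X) (hδ : 0 ≤ δ)
    (hτ : 100 * δ ≤ τ) (hδ' : 0 ≤ δ') (hlen : qs.length ≤ N)
    (hgl : ∀ p ∈ qs, Dq.lump p ∨ Dq.nl X p ≤ δ)
    {q : (I8X → ℝ) × (Kd → ℝ)} (hq : q ∈ Dom8X c β Par (SinL β))
    (hw : Win S8X q.1 δ N B δ' X a) (hm : ∀ t, |Dq.mass X qs t - q.2 t| ≤ δ)
    (hg : Dq.Good X δ' B qs) (hl : ∀ p ∈ qs, Dq.lump p → (S8X.ev X a, Dq.nl X p) ∈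
      (∅ : Set ((I8X → ℝ) × ℝ))) (hok : okCX P s a qs) :
    F8X X δ (Real.log X) (bp q.1)
      (q.1 (.inr 0) + q.1 (.inr 1) + q.1 (.inr 2) + q.2 .am) (q.1 (.inr 3)) a qs ∧
      PD X τ (max B 3) (X ^ δ') N (bS (bp q.1) (q.1 (.inr 0)) (q.1 (.inr 1)) (q.1 (.inr 2))) 1
        a.2.1 qs a.1.l := by
  obtain ⟨hbok, hsm, hlmp, hamq, hb0⟩ := hok
  obtain ⟨hq1, hq2, hq3, hq4⟩ := hq
  set p : IX5 → ℝ := bp q.1 with hp
  set L := Real.log X with hL
  have hL0' : 0 < L := Real.log_pos hX1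
  have hev : ∀ i, |S8X.ev X a i - q.1 i| ≤ δ := hw.ev
  have hdiv : ∀ {z c : ℝ}, |z / L - c| ≤ δ → |z - c * L| ≤ δ * L := by
    intro z c h1
    have h2 : z - c * L = (z / L - c) * L := by field_simp
    rw [h2, abs_mul, abs_of_pos hL0']
    exact mul_le_mul_of_nonneg_right h1 hL0'.le
  have hk : |a.1.l - cκ (prX p) * L| ≤ δ * L := hdiv (hev (.inl (.inl (.inl 0))))
  have hz : |a.1.z - cx' (prX p) * L| ≤ δ * L := hdiv (hev (.inl (.inl (.inl 1))))
  have hu2 : |(a.1.us 2).z - cu (prX p) 2 * L| ≤ δ * L := hdiv (hev (.inl (.inl (.inr 2))))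
  have hu3 : |(a.1.us 3).z - cu (prX p) 3 * L| ≤ δ * L := hdiv (hev (.inl (.inl (.inr 3))))
  have hu4 : |(a.1.us 4).z - cu (prX p) 4 * L| ≤ δ * L := hdiv (hev (.inl (.inl (.inr 4))))
  have hzs : |a.1.zs 2 - p (.inr 1) * L| ≤ δ * L := hdiv (hev (.inl (.inr 1)))
  have hv0 : |(a.2.1 0).z - q.1 (.inr 0) * L| ≤ δ * L := hdiv (hev (.inr 0))
  have hv1 : |(a.2.1 1).z - q.1 (.inr 1) * L| ≤ δ * L := hdiv (hev (.inr 1))
  have hv2 : |(a.2.1 2).z - q.1 (.inr 2) * L| ≤ δ * L := hdiv (hev (.inr 2))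
  have hbw : |a.2.2 - q.1 (.inr 3) * L| ≤ δ * L := hdiv (hev (.inr 3))
  have hma : |LN qs - q.2 .am * L| ≤ δ * L := by
    have h1 := hm .am
    rw [mass_am' hamq] at h1
    exact hdiv h1
  have hA : |a3 a.1.toBd - cN (prX p) * L| ≤ 3 * (δ * L) := by
    have e1 : a3 a.1.toBd - cN (prX p) * L = ((a.1.us 2).z - cu (prX p) 2 * L) +
        ((a.1.us 3).z - cu (prX p) 3 * L) + ((a.1.us 4).z - cu (prX p) 4 * L) := by
      unfold E5L770.a3 cN; ring
    rw [e1]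
    refine (abs_add_le _ _).trans ?_
    have := abs_add_le ((a.1.us 2).z - cu (prX p) 2 * L) ((a.1.us 3).z - cu (prX p) 3 * L)
    linarith
  obtain ⟨k1, k2⟩ := abs_le.1 hk
  obtain ⟨z1, z2⟩ := abs_le.1 hz
  obtain ⟨u21, u22⟩ := abs_le.1 hu2
  obtain ⟨zs1, zs2⟩ := abs_le.1 hzs
  obtain ⟨v01, v02⟩ := abs_le.1 hv0
  obtain ⟨v11, v12⟩ := abs_le.1 hv1
  obtain ⟨v21, v22⟩ := abs_le.1 hv2
  obtain ⟨m1, m2⟩ := abs_le.1 hma
  have hsum : q.1 (.inr 0) + q.1 (.inr 1) + q.1 (.inr 2) ≤ cN (prX p) := by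
    have h1 := hq1.s1
    have h2 := hq1.b0
    linarith
  have hx1 : q.2 .am ≤ cx' (prX p) := hq1.x1
  have hnz : LN (clN a qs) = (a.2.1 0).z + (a.2.1 1).z + (a.2.1 2).z + LN qs := LN_clN a qs
  have hδL : 0 ≤ δ * L := by positivity
  have hsumL := mul_le_mul_of_nonneg_right hsum hL0'.le
  have hx1L := mul_le_mul_of_nonneg_right hx1 hL0'.le
  have hq4L := mul_le_mul_of_nonneg_right hq4 hL0'.le
  have hBB : B ≤ max B 3 := le_max_left _ _
  have hB0 : (0 : ℝ) ≤ max B 3 := (by norm_num : (0 : ℝ) ≤ 3).trans (le_max_right _ _)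
  have hs1 : ∀ i, Dq.s1 (a.2.1 i) ≤ X ^ δ' := by
    intro i
    have h1 : mx Dq.s1 (List.ofFn a.2.1) ≤ X ^ δ' := (le_max_right _ _).trans hw.s₁
    exact (XT71.le_mx (List.mem_ofFn.2 ⟨i, rfl⟩)).trans h1
  have hs2 : ∀ i, Dq.s2 (a.2.1 i) ≤ X ^ (max B 3) := by
    intro i
    have h1 : mx Dq.s2 (List.ofFn a.2.1) ≤ X ^ B := (le_max_right _ _).trans hw.s₂
    exact ((XT71.le_mx (List.mem_ofFn.2 ⟨i, rfl⟩)).trans h1).trans
      (Real.rpow_le_rpow_of_exponent_le hX1.le hBB)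
  have hgran : ∀ p' ∈ qs, p'.z ≤ δ * L := by
    intro p' hp'
    rcases hgl p' hp' with h1 | h1
    · exact absurd (hl p' hp' h1) (Set.notMem_empty _)
    · unfold Pcs.nl at h1
      rw [div_le_iff₀ hL0'] at h1
      exact h1
  have hτL : 100 * (δ * L) ≤ τ * L := by
    have := mul_le_mul_of_nonneg_right hτ hL0'.le
    linarith
  have hd : |dz a.1 - (cu (prX p) 2 - p (.inr 1)) * L| ≤ 2 * (δ * L) := by
    have e1 : dz a.1 = (a.1.us 2).z - a.1.zs 2 := rfl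
    rw [e1, abs_le]
    constructor <;> linarith
  have hqs : ∀ p' ∈ qs, p'.kd = .am ∧ 0 ≤ p'.z ∧ p'.z ≤ τ * L ∧
      Dq.s2 p' ≤ X ^ (max B 3) ∧ Dq.s1 p' ≤ X ^ δ' := by
    intro p' hp'
    obtain ⟨s1', s2', z0'⟩ := hg p' hp'
    refine ⟨hamq p' hp', z0', ?_, s2'.trans (Real.rpow_le_rpow_of_exponent_le hX1.le hBB), s1'⟩
    have := hgran p' hp'
    linarith
  have hn1 : ((nm (1 : Eis) : ℕ) : ℝ) ≤ X ^ (max B 3) := by
    rw [nm_one, Nat.cast_one]
    exact Real.one_le_rpow hX1.le hB0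
  refine ⟨⟨hk, hz, hA, ?_, ?_, ?_, hu2, hu3, hu4, hzs, hd, hbw, ?_⟩, ?_⟩
  · rw [hnz, abs_le]
    constructor <;> linarith
  · rw [hnz]
    linarith
  · rw [hnz]
    linarith
  · have hz0 : 0 ≤ a.1.z := hbok.base.2.1
    have h1 : nO a.1.toBd = nL a.1.l (a3 a.1.toBd) a.1.z := rfl
    rw [h1]
    refine (nL_le hX1 a.1.toBd).trans ?_
    have h2 : top5 (S5.ev X a.1.toBd) ≤ top5 (prX p) + 10 * δ :=
      top5_lip _ _ δ hδ fun i => hev (.inl (.inl i))
    have h3 : max 0 (top5 (S5.ev X a.1.toBd)) ≤ max 0 (top5 (prX p)) + 10 * δ := by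
      refine max_le ?_ ?_
      · have := le_max_left 0 (top5 (prX p))
        linarith
      · have := le_max_right 0 (top5 (prX p))
        linarith
    have h4 := mul_le_mul_of_nonneg_right h3 hL0'.le
    linarith
  · refine ⟨one_ne_zero, hn1, Real.one_le_rpow hX1.le hδ', fun i => (hlmp i).1,
      fun i => (hlmp i).2, fun i => hs2 i, fun i => hs1 i, ?_, ?_, ?_, ?_, hlen, ?_, ?_⟩
    · show _ ≤ (q.1 (.inr 0) + τ) * L
      linarith
    · show _ ≤ (q.1 (.inr 1) + τ) * L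
      linarith
    · show _ ≤ (q.1 (.inr 2) + τ) * L
      linarith
    · exact hqs
    · show _ ≤ (cx' (prX p) + τ) * L
      linarith
    · show |_ - cκ (prX p) * L| ≤ τ * L
      refine hk.trans ?_
      linarith

set_option maxHeartbeats 1600000 in
/-- the frames of the lines of a single list -/
lemma TBs {κ N x y₃ y₄ u D v x' b c L t₀ vt n : ℝ} (hL : 0 < L)
    (hκ0 : 8 / 9 ≤ κ) (hκ1 : κ ≤ 1) (ht₀ : 0 ≤ t₀) (ht₀' : t₀ ≤ 1 / 1000000)
    (hN : N = y₃ + y₄ + u) (hD : Dh κ y₃ y₄ u x D) (hc : 4 * (c * κ) ≤ D)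
    (hm17 : 17 / 100 * κ ≤ N - v) (hx0' : 0 ≤ x') (hx' : x' ≤ x)
    (hs2 : N - v ≤ b + (x - x'))
    (htop : vt ≤ min (min (2 * N - κ) (3 / 4 * N) + 11 / 5 * x)
      (min (2 * N - κ) (3 / 4 * N) + 11 / 5 * x + 2 * (c * κ) - 2 * b) * L + 2 * (t₀ * L))
    (hn : |n - (v + x') * L| ≤ t₀ * L)
    (hn0 : (κ / 2 - 2 * x) * L - t₀ * L ≤ n) (hn1 : n ≤ (N + x) * L + t₀ * L) :
    Tf (κ * L) (N * L) (x * L) (max 0 (5 / 4 * (N * L) - κ * L)) vt n (40 * (t₀ * L)) ∧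
    Bf (κ * L) (N * L) (x * L) (max 0 (5 / 4 * (N * L) - κ * L)) vt n 0 (D * L)
      ((N - v) * L) ((x - x') * L) (40 * (t₀ * L)) := by
  obtain ⟨k0, u4, y43, u0, y3, N1, near, x0, adm, d0, d1⟩ := hD
  rw [← hN] at N1 adm
  have htL : 0 ≤ t₀ * L := by positivity
  obtain ⟨n1, n2⟩ := abs_le.1 hn
  have t1 : 40 * (t₀ * L) ≤ κ * L / 20000 := by
    have h1 := mul_le_mul_of_nonneg_right ht₀' hL.le
    have h2 := mul_le_mul_of_nonneg_right hκ0 hL.le
    linarith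
  have hm : 0 ≤ N - v := by linarith
  have hadm : (x * L ≤ κ * L / 320 ∧ (x * L = 0 ∨ N * L + x * L ≤ 4 / 5 * (κ * L))) ∨
      (3 / 4 * (κ * L) ≤ N * L ∧ x * L ≤ κ * L / 36 ∧
        x * L + 7 / 10 * (N * L) ≤ 199 / 360 * (κ * L)) := by
    rcases adm with ⟨a0, a1⟩ | ⟨a1, a2, a3⟩
    · left
      have b0 : x ≤ κ / 320 := by linarith
      have b1 := mul_le_mul_of_nonneg_right b0 hL.le
      refine ⟨by linarith, ?_⟩
      rcases a1 with a1 | a1
      · left; rw [a1, zero_mul]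
      · right
        have b2 := mul_le_mul_of_nonneg_right a1 hL.le
        linarith
    · right
      have b0 : x ≤ κ / 36 := by linarith
      have b1 := mul_le_mul_of_nonneg_right b0 hL.le
      have b2 := mul_le_mul_of_nonneg_right a1 hL.le
      have b3 := mul_le_mul_of_nonneg_right a3 hL.le
      exact ⟨by linarith, by linarith, by linarith⟩
  have hex0 := le_max_left 0 (5 / 4 * (N * L) - κ * L)
  have hex1 := le_max_right 0 (5 / 4 * (N * L) - κ * L)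
  set mm : ℝ := min (2 * N - κ) (3 / 4 * N) with hmm
  have hm1 : mm ≤ 2 * N - κ := min_le_left _ _
  have hm2 : mm ≤ 3 / 4 * N := min_le_right _ _
  have h1 := mul_le_mul_of_nonneg_right (min_le_left (mm + 11 / 5 * x)
    (mm + 11 / 5 * x + 2 * (c * κ) - 2 * b)) hL.le
  have h2 := mul_le_mul_of_nonneg_right (min_le_right (mm + 11 / 5 * x)
    (mm + 11 / 5 * x + 2 * (c * κ) - 2 * b)) hL.le
  have h3 := mul_le_mul_of_nonneg_right hm1 hL.le
  have h4 := mul_le_mul_of_nonneg_right hm2 hL.le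
  have h5 := mul_le_mul_of_nonneg_right hs2 hL.le
  have h6 := mul_le_mul_of_nonneg_right hc hL.le
  have x0L := mul_nonneg x0 hL.le
  have kL : 0 < κ * L := by positivity
  have NL := mul_le_mul_of_nonneg_right N1 hL.le
  have hmL := mul_nonneg hm hL.le
  have hyL := mul_nonneg (sub_nonneg.2 hx') hL.le
  have hx0L := mul_nonneg hx0' hL.le
  have hdL := mul_le_mul_of_nonneg_right d1 hL.le
  have hsL := mul_le_mul_of_nonneg_right hm17 hL.le
  refine ⟨⟨kL, x0L, by linarith, hadm, hex0, hex1, by linarith, by linarith, by linarith,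
    by linarith, by linarith, t1⟩, ⟨kL, x0L, by linarith, hadm, hex0, hex1, hmL, hyL, by linarith,
    by linarith, by linarith, by linarith, by linarith, by linarith, by linarith, by linarith,
    by linarith, t1⟩⟩

set_option maxHeartbeats 1600000 in
/-- **the frame of one datum** -/
lemma frRS {c β : ℝ} {Par : Set (Fin 3 ⊕ Fin 5 → ℝ)} {X δ t₀ dd : ℝ} {a : BcX} {qs : List Pq}
    {q : (I8X → ℝ) × (Kd → ℝ)} (hX1 : 1 < X) (hδ : 0 ≤ δ) (ht₀ : 0 < t₀)
    (ht₀' : t₀ ≤ 1 / 1000000) (hδt : 100 * δ ≤ t₀) (hLt : 4 ≤ t₀ * Real.log X) (hc0 : 0 ≤ c)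
    (hc1 : c ≤ 1) (hPp : ParOK (prX (bp q.1)))
    (hDp : Dh (cκ (prX (bp q.1))) (cu (prX (bp q.1)) 2) (cu (prX (bp q.1)) 3)
      (cu (prX (bp q.1)) 4) (cx' (prX (bp q.1))) (dd * cκ (prX (bp q.1))))
    (hcD : 4 * (c * cκ (prX (bp q.1))) ≤ dd * cκ (prX (bp q.1))) (hβ : 17 / 100 ≤ β)
    (hq : q ∈ Dom8X c β Par (SinL β))
    (F : F8X X δ (Real.log X) (bp q.1)
      (q.1 (.inr 0) + q.1 (.inr 1) + q.1 (.inr 2) + q.2 .am) (q.1 (.inr 3)) a qs) :
    Tf (cκ (prX (bp q.1)) * Real.log X) (cN (prX (bp q.1)) * Real.log X)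
      (cx' (prX (bp q.1)) * Real.log X)
      (max 0 (5 / 4 * (cN (prX (bp q.1)) * Real.log X) - cκ (prX (bp q.1)) * Real.log X))
      (1 + nw c a * Real.log 2) (LN (clN a qs)) (40 * (t₀ * Real.log X)) ∧
    Bf (cκ (prX (bp q.1)) * Real.log X) (cN (prX (bp q.1)) * Real.log X)
      (cx' (prX (bp q.1)) * Real.log X)
      (max 0 (5 / 4 * (cN (prX (bp q.1)) * Real.log X) - cκ (prX (bp q.1)) * Real.log X))
      (1 + nw c a * Real.log 2) (LN (clN a qs)) 0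
      (dd * cκ (prX (bp q.1)) * Real.log X)
      ((cN (prX (bp q.1)) - (q.1 (.inr 0) + q.1 (.inr 1) + q.1 (.inr 2))) * Real.log X)
      ((cx' (prX (bp q.1)) - q.2 .am) * Real.log X) (40 * (t₀ * Real.log X)) := by
  obtain ⟨hq1, hq2, hq3, hq4⟩ := hq
  obtain ⟨hκ, hx, hN, hn, lo, hi, us0, us1, us2, zs, hd, hb, top⟩ := F
  set p : IX5 → ℝ := bp q.1 with hp
  set L := Real.log X with hL
  have hL0 : 0 < L := Real.log_pos hX1
  have hδL : 0 ≤ δ * L := by positivity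
  have hδt' : 100 * (δ * L) ≤ t₀ * L := by
    have := mul_le_mul_of_nonneg_right hδt hL0.le
    linarith
  have hlog2 : Real.log 2 ≤ 1 := by
    have := Real.log_two_lt_d9
    linarith
  have ht := tO_near (k3 := 11 / 5) hL0 hδ (by norm_num) (by norm_num) hκ hx hN
  have hnw := nW_hi c a
  have etO : tO a.1.toBd = min (2 * a3 a.1.toBd - a.1.l) (3 / 4 * a3 a.1.toBd) + 11 / 5 * a.1.z :=
    rfl
  rw [← etO] at ht
  have hb1 := hq1.b1
  have et5 : top5 (prX p) = min (2 * cN (prX p) - cκ (prX p)) (3 / 4 * cN (prX p)) +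
      11 / 5 * cx' (prX p) := rfl
  rw [et5] at hb1
  have hmm : 0 ≤ min (2 * cN (prX p) - cκ (prX p)) (3 / 4 * cN (prX p)) := by
    have h1 := hPp.N0
    have h2 := hPp.κ0
    exact le_min (by linarith) (by linarith)
  have hx0 := hPp.x0
  generalize htt : min (2 * cN (prX p) - cκ (prX p)) (3 / 4 * cN (prX p)) +
      11 / 5 * cx' (prX p) = tt at ht hb1 et5
  have htt0 : 0 ≤ tt := by rw [← htt]; linarith
  obtain ⟨t1, t2⟩ := abs_le.1 ht
  obtain ⟨b1, b2⟩ := abs_le.1 hb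
  obtain ⟨k1, k2⟩ := abs_le.1 hκ
  have hcl : c * a.1.l ≤ c * cκ (prX p) * L + δ * L := by
    have h1 : c * (a.1.l - cκ (prX p) * L) ≤ c * (δ * L) := mul_le_mul_of_nonneg_left k2 hc0
    have h2 : c * (δ * L) ≤ 1 * (δ * L) := mul_le_mul_of_nonneg_right hc1 hδL
    linarith
  have hmin : max 0 (min (tO a.1.toBd) (tO a.1.toBd + 2 * (c * a.1.l) - 2 * a.2.2)) ≤
      min tt (tt + 2 * (c * cκ (prX p)) - 2 * q.1 (.inr 3)) * L + 14 * (δ * L) := by
    have hM0 : 0 ≤ min tt (tt + 2 * (c * cκ (prX p)) - 2 * q.1 (.inr 3)) :=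
      le_min htt0 (by linarith)
    refine max_le (by positivity) ?_
    rw [min_mul_of_nonneg _ _ hL0.le, ← min_add_add_right]
    refine min_le_min ?_ ?_
    · linarith
    · have e1 : (tt + 2 * (c * cκ (prX p)) - 2 * q.1 (.inr 3)) * L =
        tt * L + 2 * (c * cκ (prX p) * L) - 2 * (q.1 (.inr 3) * L) := by ring
      rw [e1]
      linarith
  have hvt : (1 : ℝ) + nw c a * Real.log 2 ≤
      min tt (tt + 2 * (c * cκ (prX p)) - 2 * q.1 (.inr 3)) * L + 2 * (t₀ * L) := by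
    linarith
  have hn' : |LN (clN a qs) - (q.1 (.inr 0) + q.1 (.inr 1) + q.1 (.inr 2) + q.2 .am) * L| ≤
      t₀ * L := hn.trans (by linarith)
  have hm17 : 17 / 100 * cκ (prX p) ≤
      cN (prX p) - (q.1 (.inr 0) + q.1 (.inr 1) + q.1 (.inr 2)) := by
    have h1 : 17 / 100 * cκ (prX p) ≤ β * cκ (prX p) :=
      mul_le_mul_of_nonneg_right hβ (by have := hPp.κ0; linarith)
    exact h1.trans hq2.2
  exact TBs (N := cN (prX p)) (x := cx' (prX p)) (y₃ := cu (prX p) 2)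
    (y₄ := cu (prX p) 3) (u := cu (prX p) 4) (D := dd * cκ (prX p))
    (v := q.1 (.inr 0) + q.1 (.inr 1) + q.1 (.inr 2)) (x' := q.2 .am)
    (b := q.1 (.inr 3)) (c := c) (t₀ := t₀) (vt := 1 + nw c a * Real.log 2)
    (n := LN (clN a qs)) hL0 hPp.κ0 hPp.κ1 ht₀.le ht₀' rfl hDp
    hcD hm17 hq1.x0 hq1.x1 hq1.s2 (by rw [htt]; exact hvt) hn' (by linarith) (by linarith)

variable {Λ : Type*} {π : Λ → DPar} {h : ℝ → ℝ}

set_option maxHeartbeats 6400000 in
open Classical in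
/-- **(R) of class E, single lists** : helper61's `RnU`, the family `HX` of helper744 / helper571 -/
theorem rnU_S {c₀ : ℝ} (hpu : PU h c₀) (hP : ∀ lam, (π lam).OK)
    (hNC : ∀ lam, ∀ k : Eis, k ≠ 0 → (NPm (π lam).n (π lam).ψ (π lam).l₂ k ↔ NCube k))
    {dd : ℝ} {s : ER911.EF} (R : ExpRules (7 / 8 + dd) (ex Dq (fun lam => Rt (π lam) h)) s)
    (hPF : PF Set.univ (7 / 8 + dd)) (hd : 0 ≤ dd) (hd8 : dd ≤ 1 / 8)
    {e0 : ℝ} (he0 : 0 ≤ e0) (he0' : e0 ≤ 1 / 64) {c β : ℝ} (hc0 : 0 ≤ c) (hc1 : c ≤ 1)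
    {Par : Set (Fin 3 ⊕ Fin 5 → ℝ)} (hPar : ∀ p ∈ Par, ParOK p)
    (hDh : ∀ p ∈ Par, Dh (cκ p) (cu p 2) (cu p 3) (cu p 4) (cx' p) (dd * cκ p))
    (hcD : ∀ p ∈ Par, 4 * (c * cκ p) ≤ dd * cκ p) (hβ : 17 / 100 ≤ β) (hβ' : β ≤ 1 / 5)
    {L0 : (Fin 3 ⊕ Fin 5 → ℝ) → ℝ}
    (hL0 : ∀ p : IX5 → ℝ, prX p ∈ Par → ZR β p →
      max 0 (5 / 4 * cN (prX p) - cκ (prX p)) + 3 / 4 * (dd * cκ (prX p)) ≤ L0 (prX p)) :
    RnU S8X (Dom8X c β Par (SinL β)) ∅ (E8X L0) (fun a : BcX => a.1.l) (nw c)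
      (fun a qs => LN (clN a qs)) e0 (alS π h)
      (fun lam a qs => okCX (π lam.1) lam.2 a qs)
      (fun cc a qs i d _ => HX cc a (LN (clN a qs)) i d) := by
  intro ε hε
  obtain ⟨ε₁, hε₁, hε₁1, hε₁ε⟩ : ∃ ε₁ : ℝ, 0 < ε₁ ∧ ε₁ ≤ 1 / 160000 ∧ ε₁ ≤ ε / 8 :=
    ⟨min (1 / 160000) (ε / 8), lt_min (by norm_num) (by positivity), min_le_left _ _,
      min_le_right _ _⟩
  obtain ⟨τ, hτ0, hτε, HR⟩ := rns_lev (E := EN dd) hpu hP (Kc := 8) (by norm_num)
    (rmx_NC hpu hP hNC R hPF hd hd8 (8 + 2)) (RM986.cont_E3c dd) hε₁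
    (hε₁1.trans (by norm_num))
  set t₀ : ℝ := ε₁ / 40 with ht₀'
  have ht₀ : 0 < t₀ := by positivity
  have e40 : ε₁ = 40 * t₀ := by rw [ht₀']; ring
  obtain ⟨δ, hδ, hδτ, hδt⟩ : ∃ δ : ℝ, 0 < δ ∧ 100 * δ ≤ τ ∧ 100 * δ ≤ t₀ := by
    refine ⟨min (τ / 100) (t₀ / 100), lt_min (by positivity) (by positivity), ?_, ?_⟩
    · have := min_le_left (τ / 100) (t₀ / 100)
      linarith
    · have := min_le_right (τ / 100) (t₀ / 100)
      linarith
  refine ⟨δ, hδ, fun lam N B B' hB' => ?_⟩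
  by_cases ht : lam.2 = 0
  · exact ⟨0, 0, fun A₁ _ cc _ => ⟨1, one_pos, 2, one_lt_two,
      fun X _ a qs _ _ q _ _ _ _ _ hok => absurd ht hok.2.1.1⟩⟩
  set B₂ : ℝ := max (max B 3) (300 * B' + 1) with hB₂
  obtain ⟨M, a₁, A₀, ha₁, HR⟩ := HR lam.1 lam.2 ht N B₂
  refine ⟨a₁, A₀, fun A₁ hA₁ cc hcc => ?_⟩
  obtain ⟨X₁, hX₁, HR⟩ := HR cc hcc
  have hlc : 0 ≤ Real.log cc := Real.log_nonneg hcc
  set Q : ℝ := (2 * Real.log cc + 4) / t₀ with hQ
  refine ⟨ε / (8 * (M + 1)), by positivity, max X₁ (Real.exp Q), hX₁.trans_le (le_max_left _ _), ?_⟩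
  intro X hX a qs hlen hgl q hq hw hm hg hl hok
  have hX1' : X₁ ≤ X := (le_max_left _ _).trans hX
  have hXQ : Real.exp Q ≤ X := (le_max_right _ _).trans hX
  have hX1 : 1 < X := by linarith
  have hX0 : 0 < X := by linarith
  obtain ⟨F, PN⟩ := s8s_frame hX1 hδ.le hδτ (by positivity) hlen hgl hq hw hm hg hl hok
  have hQL : Q ≤ Real.log X := by
    have := Real.log_le_log (Real.exp_pos Q) hXQ
    rwa [Real.log_exp] at this
  have hLt : 2 * Real.log cc + 4 ≤ t₀ * Real.log X := by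
    rw [hQ, div_le_iff₀ ht₀] at hQL
    linarith
  have ht₁ : t₀ ≤ 1 / 1000000 := by rw [ht₀']; linarith
  have hL0' : 0 < Real.log X := Real.log_pos hX1
  have hpar : prX (bp q.1) ∈ Par := hq.1.par
  have hzr : ZR β (bp q.1) := hq.1.zr
  have hPp := hPar _ hpar
  have hDp := hDh _ hpar
  obtain ⟨hTf, hBf⟩ := frRS hX1 hδ.le ht₀ ht₁ hδt (by linarith) hc0 hc1 hPp hDp (hcD _ hpar) hβ
    hq F
  have hC := hq.1
  have hS := hq.2.1
  obtain ⟨hκ, hx, hN, hn, lo, hi, us0, us1, us2, zs, hdz, hbb, top⟩ := F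
  set p : IX5 → ℝ := bp q.1 with hp
  set L := Real.log X with hL
  set n : ℝ := LN (clN a qs) with hnn
  have htL : 0 ≤ t₀ * L := by positivity
  have hδL : 100 * (δ * L) ≤ t₀ * L := by
    have := mul_le_mul_of_nonneg_right hδt hL0'.le
    linarith
  have hδL0 : 0 ≤ δ * L := by positivity
  have hκ' : |a.1.l - cκ (prX p) * L| ≤ t₀ * L := hκ.trans (by linarith)
  have hx' : |a.1.z - cx' (prX p) * L| ≤ t₀ * L := hx.trans (by linarith)
  have hN' : |a3 a.1.toBd - cN (prX p) * L| ≤ 3 * (t₀ * L) := hN.trans (by linarith)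
  have ht40 : t₀ * L ≤ 40 * (t₀ * L) := by linarith
  have hvk := vt_le hTf
  have hkL : cκ (prX p) * L ≤ 1 * L := mul_le_mul_of_nonneg_right hPp.κ1 hL0'.le
  have hkL0 : 8 / 9 * L ≤ cκ (prX p) * L := mul_le_mul_of_nonneg_right hPp.κ0 hL0'.le
  have ht1' := hTf.t1
  obtain ⟨κ1, κ2⟩ := abs_le.1 hκ'
  have hl0 : 0 ≤ a.1.l := by linarith
  set ex' : ℝ := max 0 (5 / 4 * a3 a.1.toBd - a.1.l) with hex'
  have hex0 : 0 ≤ ex' := le_max_left _ _
  have hexx : max 0 (5 / 4 * (cN (prX p) * L) - cκ (prX p) * L) ≤ ex' + 40 * (t₀ * L) := by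
    obtain ⟨A1, A2⟩ := abs_le.1 hN'
    refine max_le (by linarith) ?_
    have := le_max_right 0 (5 / 4 * a3 a.1.toBd - a.1.l)
    linarith
  -- one level, one divisor
  have hiv : ∀ i ∈ LI (1 / 10) (2 ^ nw c a), (i : ℝ) ≤ 1 + nw c a * Real.log 2 := by
    intro i hi
    have h1 := (mem_LI hi).2.2
    have h2 := Real.log_le_log (Real.exp_pos _) h1
    rwa [Real.log_exp, Real.log_mul (Real.exp_pos _).ne' (by positivity), Real.log_exp,
      Real.log_pow] at h2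
  have hdv : ∀ d ∈ (JS (nw c a)).image Prod.fst, IsPrim d ∧
      Real.log (nm d) ≤ (1 + nw c a * Real.log 2) / 2 ∧ 0 ≤ Real.log (nm d) := by
    intro d hd
    obtain ⟨h1, h2, h3⟩ := (mem_S (Real.exp_pos _).le).1 (JS_fst hd)
    have h4 : (1 : ℝ) ≤ nm d := by exact_mod_cast nm_pos.2 h2.ne_zero
    refine ⟨h2, ?_, Real.log_nonneg h4⟩
    have h5 := Real.log_le_log (by linarith) h1
    rw [Real.log_exp] at h5
    linarith
  have hev : ∀ e ∈ S (Real.exp (e0 * a.1.l)), IsPrim e ∧ Real.log (nm e) ≤ a.1.l / 64 ∧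
      0 ≤ Real.log (nm e) := by
    intro e he
    obtain ⟨h1, h2, h3⟩ := (mem_S (Real.exp_pos _).le).1 he
    have h4 : (1 : ℝ) ≤ nm e := by exact_mod_cast nm_pos.2 h2.ne_zero
    refine ⟨h2, ?_, Real.log_nonneg h4⟩
    have h5 := Real.log_le_log (by linarith) h1
    rw [Real.log_exp] at h5
    have h6 := mul_le_mul_of_nonneg_right he0' hl0
    linarith
  have hlist : [a.2.1 0, a.2.1 1, a.2.1 2] ++ qs = clN a qs := by
    unfold clN
    rw [ofFn3]
  have hsz1 : ∀ i ∈ LI (1 / 10) (2 ^ nw c a), ∀ d ∈ (JS (nw c a)).image Prod.fst,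
      cc * (HX cc a n i d * Real.exp i ^ 2) ≤ Real.exp a.1.l * Real.exp n := by
    intro i hi d hd
    obtain ⟨pd, hd1, hd2⟩ := hdv d hd
    have hi1 := hiv i hi
    have e1 : cc * (HX cc a n i d * Real.exp i ^ 2) =
        Real.exp (Real.log cc + (Real.log (HX cc a n i d) + 2 * i)) := by
      rw [Real.exp_add, Real.exp_add, Real.exp_log (by linarith), Real.exp_log HX_pos,
        show (2 : ℝ) * i = ((2 : ℕ) : ℝ) * i by norm_num, Real.exp_nat_mul]
    rw [e1, ← Real.exp_add]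
    refine Real.exp_le_exp.2 ?_
    rcases le_or_gt (Real.log (nm d)) (a.1.l / 6) with h6 | h6
    · rw [HX_small h6, Real.log_exp]
      exact sz_small hTf (hκ'.trans ht40) (hx'.trans ht40) hexx (by linarith) hd2 hi1
    · rw [HX_large h6, Real.log_exp]
      exact sz_large hTf hd1
  refine ⟨fun i hi d hd e _ => hsz1 i hi d hd, lam.2 * lam.2, ?_⟩
  have hB3 : 3 ≤ B₂ := (le_max_right B 3).trans (le_max_left _ _)
  have hB300 : 300 * B' + 1 ≤ B₂ := le_max_right _ _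
  have hccX : Real.log cc ≤ L := by
    have : t₀ * L ≤ 1 * L := mul_le_mul_of_nonneg_right (by linarith) hL0'.le
    linarith
  have hXd : (1 : ℝ) ≤ X ^ (ε / (8 * ((M : ℝ) + 1))) := Real.one_le_rpow hX1.le (by positivity)
  have hS1 : (JS (nw c a)).image Prod.fst ⊆ S (X ^ B₂) := by
    intro d hd
    obtain ⟨h1, h2, h3⟩ := (mem_S (Real.exp_pos _).le).1 (JS_fst hd)
    refine (mem_S (by positivity)).2 ⟨h1.trans ?_, h2, h3⟩
    rw [Real.rpow_def_of_pos hX0, ← hL]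
    refine Real.exp_le_exp.2 ?_
    have h4 : L * 3 ≤ L * B₂ := mul_le_mul_of_nonneg_left hB3 hL0'.le
    linarith
  have hS2 : S (Real.exp (e0 * a.1.l)) ⊆ S (X ^ B₂) := by
    intro e he
    obtain ⟨h1, h2, h3⟩ := (mem_S (Real.exp_pos _).le).1 he
    refine (mem_S (by positivity)).2 ⟨h1.trans ?_, h2, h3⟩
    rw [Real.rpow_def_of_pos hX0, ← hL]
    refine Real.exp_le_exp.2 ?_
    have h4 : L * 3 ≤ L * B₂ := mul_le_mul_of_nonneg_left hB3 hL0'.le
    have h6 := mul_le_mul_of_nonneg_right he0' hl0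
    linarith
  have hv2 : q.1 (.inr 2) ≤ cu (prX p) 4 := by
    rcases hS.1 with h1 | h1
    · exact h1.2.2
    · exact h1.2.2
  have hbS : ∀ i, bS p (q.1 (.inr 0)) (q.1 (.inr 1)) (q.1 (.inr 2)) i + τ ≤ 8 := by
    have k1 := hPp.κ1
    have k0 := hPp.κ0
    have x1 := hPp.x1
    have N1 := hPp.N1
    have v0 := hC.v0
    have v1 := hC.v1
    have v2 := hC.v2
    have b0 := hC.b0
    have s1 := hC.s1
    intro i
    fin_cases i <;> simp [bS] <;> linarith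
  obtain ⟨W0, hW1, hW2, hW3⟩ := HR X hX1'
    (bS p (q.1 (.inr 0)) (q.1 (.inr 1)) (q.1 (.inr 2))) a.2.1 qs a.1.l
    (X ^ (ε / (8 * ((M : ℝ) + 1)))) (PD_mono hX1.le (le_max_left _ _) PN) hbS (Real.exp a.1.l)
    (cκ (prX p) + n / L + P1Q904.LQ (cN (prX p)) (cκ (prX p)) (dd * cκ (prX p)))
    (fun i d _ => HX cc a n i d) (Real.exp_pos _) (fun _ _ _ => HX_pos)
    (LI (1 / 10) (2 ^ nw c a)) ((JS (nw c a)).image Prod.fst) (S (Real.exp (e0 * a.1.l)))
    (fun i hi => by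
      have h4 : 3 * L ≤ B₂ * L := mul_le_mul_of_nonneg_right hB3 hL0'.le
      have := hiv i hi
      linarith) hS1 hS2
    (fun i hi d hd e he => by
      obtain ⟨pd, hd1, hd2⟩ := hdv d hd
      have hi1 := hiv i hi
      have hi0 : (0 : ℝ) ≤ i := Nat.cast_nonneg _
      rw [hlist]
      have e1 : Real.exp n * Real.exp i * HX cc a n i d / Real.exp a.1.l =
          Real.exp (n + i + Real.log (HX cc a n i d) - a.1.l) := by
        rw [Real.exp_sub, Real.exp_add, Real.exp_add, Real.exp_log HX_pos]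
      show Real.exp n * Real.exp i * HX cc a n i d / Real.exp a.1.l ≤ X ^ (8 : ℝ)
      rw [e1, Real.rpow_def_of_pos hX0, ← hL]
      refine Real.exp_le_exp.2 ?_
      rcases le_or_gt (Real.log (nm d)) (a.1.l / 6) with h6 | h6
      · rw [HX_small h6, Real.log_exp]
        have := sz2_small hTf (hκ'.trans ht40) (hx'.trans ht40) hex0 hd2 hi1
        linarith
      · rw [HX_large h6, Real.log_exp]
        have := sz2_large (lc := Real.log cc) (l := a.1.l) hTf hd1 hi0 hlc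
        linarith)
    (fun i hi d hd e he hLd1 => by
      obtain ⟨pd, hd1, hd2⟩ := hdv d hd
      obtain ⟨pe, he1, he2⟩ := hev e he
      have hi1 := hiv i hi
      have h6 : Real.log (nm d) ≤ a.1.l / 6 := by
        by_contra h7
        have := Ld_HX (n := n) (i := i) hcc (not_le.1 h7) pd.ne_zero
        linarith
      have hll : 0 ≤ hJ a.1.l n (Real.log (nm d)) a.1.z ex' + 2 * (i : ℝ) - a.1.l -
          Real.log (nm d) := by
        have h7 := Real.log_nonneg hLd1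
        rw [log_Ld (Real.exp_pos _) (Real.exp_pos _) HX_pos pd.ne_zero] at h7
        unfold RnP571.lL at h7
        rw [HX_small h6, Real.log_exp, Real.log_exp, Real.log_exp] at h7
        linarith
      rw [hlist, Real.log_exp, HX_small h6, Real.log_exp]
      have g1 : ε₁ ≤ cκ (prX p) / 80000 := by
        have := hPp.κ0
        linarith
      have g2 : (a.2.1 2).z ≤ (cu (prX p) 4 + ε₁) * L := by
        have h8 : (a.2.1 2).z ≤ (q.1 (.inr 2) + τ) * L := PN.z3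
        have h9 : (q.1 (.inr 2) + τ) * L ≤ (cu (prX p) 4 + ε₁) * L :=
          mul_le_mul_of_nonneg_right (by linarith) hL0'.le
        exact h8.trans h9
      have g3 : LN qs ≤ (cx' (prX p) + ε₁) * L := by
        have h8 : LN qs ≤ (cx' (prX p) + τ) * L := PN.x
        have h9 : (cx' (prX p) + τ) * L ≤ (cx' (prX p) + ε₁) * L :=
          mul_le_mul_of_nonneg_right (by linarith) hL0'.le
        exact h8.trans h9
      have key := lines_X (κ := cκ (prX p)) (y₃ := cu (prX p) 2) (y₄ := cu (prX p) 3)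
        (u := cu (prX p) 4) (x := cx' (prX p)) (dd := dd) (N := cN (prX p)) (s0 := 0)
        (A := a3 a.1.toBd) (t₀ := t₀) hL0' rfl hDp ht₀ e40 g1 hBf hκ' hx' hN' (by linarith)
        (by linarith) hi1 hd2 h6 he2 he1 hll g2 g3
      rw [zero_div] at key
      exact key)
  have hP1 := hP lam.1
  have hsm : lam.2 ∈ SM (π lam.1).n := hok.2.1
  refine ⟨W0, mul_ne_zero ht ht, fun m hm0 => (Pt_cop hP1 hsm (right_ne_zero_of_mul hm0)).2, hW1, ?_, ?_⟩
  · -- the classes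
    intro i hi jj ρ hρ γ φ hγ hφ hφm P hPp
    unfold E3T829.RR at hρ
    rw [mem_product] at hρ
    have hφX : (nm φ : ℝ) ≤ X ^ B₂ := by
      refine hφm.trans ?_
      rw [← Real.exp_log (show 0 < cc by linarith), ← Real.rpow_natCast,
        ← Real.rpow_mul hX0.le, Real.rpow_def_of_pos hX0, Real.rpow_def_of_pos hX0, ← hL,
        ← Real.exp_add]
      refine Real.exp_le_exp.2 ?_
      have h4 : L * (300 * B' + 1) ≤ L * B₂ := mul_le_mul_of_nonneg_left hB300 hL0'.le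
      push_cast
      linarith
    refine le_trans ?_ (hW2 A₁ hA₁ i hi jj ρ.1 hρ.1 ρ.2 hρ.2 γ φ hγ hφ hφX P hPp)
    refine mul_le_mul_of_nonneg_left (sum_le_sum fun r _ => ?_)
      (mul_nonneg (Nat.cast_nonneg _) (sq_nonneg _))
    refine RMm_cmp (z := 1) (by rw [norm_one]) (fun m _ _ => ?_) (fun m h1 h2 => absurd h1 h2)
      (fun m h1 h2 => absurd h1 h2) γ φ r
    rw [one_mul]
    obtain ⟨pd, -, -⟩ := hdv ρ.1 hρ.1
    unfold E3Kc548.afT
    by_cases hm : IsPrim m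
    · rw [if_pos ⟨hm, pd, hρ.2⟩]
      rfl
    · rw [if_neg fun h1 => hm h1.1]
      symm
      by_contra h1
      exact hm ((Pt_cop hP1 hsm (right_ne_zero_of_mul h1)).1.of_mul_left pd)
  · -- the number
    rw [hlist] at hW3
    refine hW3.trans ?_
    have h1 : (X ^ (ε / (8 * ((M : ℝ) + 1)))) ^ M ≤ X ^ (ε / 8) := by
      rw [← Real.rpow_natCast, ← Real.rpow_mul hX0.le]
      refine Real.rpow_le_rpow_of_exponent_le hX1.le ?_
      rw [div_mul_eq_mul_div, div_le_div_iff₀ (by positivity) (by norm_num)]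
      nlinarith
    have hn2 := (abs_le.1 hn).2
    have hnL : n / L ≤ q.1 (.inr 0) + q.1 (.inr 1) + q.1 (.inr 2) + q.2 .am + t₀ := by
      rw [div_le_iff₀ hL0', add_mul]
      linarith
    have hLL := hL0 p hpar hzr
    have hT : cκ (prX p) + n / L + P1Q904.LQ (cN (prX p)) (cκ (prX p)) (dd * cκ (prX p)) +
        3 * ε₁ + ε / 8 ≤ E8X L0 q + ε := by
      unfold P1X960.E8X P1Q904.LQ
      rw [← hp]
      linarith
    calc (X ^ (ε / (8 * ((M : ℝ) + 1)))) ^ M * X ^ (cκ (prX p) + n / L +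
          P1Q904.LQ (cN (prX p)) (cκ (prX p)) (dd * cκ (prX p)) + 3 * ε₁)
        ≤ X ^ (ε / 8) * X ^ (cκ (prX p) + n / L +
          P1Q904.LQ (cN (prX p)) (cκ (prX p)) (dd * cκ (prX p)) + 3 * ε₁) :=
          mul_le_mul_of_nonneg_right h1 (by positivity)
      _ = X ^ (cκ (prX p) + n / L +
          P1Q904.LQ (cN (prX p)) (cκ (prX p)) (dd * cκ (prX p)) + 3 * ε₁ + ε / 8) := by
          rw [← Real.rpow_add hX0]
          congr 1
          ring
      _ ≤ X ^ (E8X L0 q + ε) := Real.rpow_le_rpow_of_exponent_le hX1.le hT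

end Crest.Agent.R017.RnS629
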