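import Crest.Agent.R017.E3Uy_744
import Crest.Agent.R017.E3Sy_829
import Crest.Agent.R017.RnSh_629
import Crest.Agent.R017.ExRed2_848

/-!
# Row 17, exceptional class (helper744): the Gram error of the single lists at the reduced data

* **`e3su_E`** : helper764's `E3SU` at `red ∘ π`
-/

set_option autoImplicit false
set_option linter.unusedVariables false

noncomputable section

open Set

namespace Crest.Agent.R017.E3Ux744

open Crest.Agent.R012 Crest.Agent.R012.Eis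
open Crest.Agent.R017.FE47 (PU cx)
open Crest.Agent.R017.Prov71 Crest.Agent.R017.ER911 Crest.Agent.R017.SC777
open Crest.Agent.R017.End699 (PF)
open Crest.Agent.R017.B770 Crest.Agent.R017.E5B71 Crest.Agent.R017.E5P571
open Crest.Agent.R017.E5L770
open Crest.Agent.R017.ExBox960
open Crest.Agent.R017.ExP960
open Crest.Agent.R017.P1t54 (ParS LS0 parOK_Sq5)
open Crest.Agent.R017.P1X960
open Crest.Agent.R017.P10X764
open Crest.Agent.R017.TM708 (T5 K5 R5)
open Crest.Agent.R017.TK708 (FE2G AllT)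
open Crest.Agent.R017.D5X939 (D5X)
open Crest.Agent.R017.Red848 (red Exc red_ok)
open Crest.Agent.R017.PX764 (Dk)
open Crest.Agent.R017.XS0298 (S0K)
open Crest.Agent.R017.XEx298 (Rt)
open Crest.Agent.R017.NrX986 (bN_mem bR_mem Tf1)
open Crest.Agent.R017.LfP986 (r5_bN bts_of')
open Crest.Agent.R017.LfX986 (T9 K5_bN K5_bR T9_bN T9_bR cba_9 thK_bN thK_bR)
open Crest.Agent.R017.RnP571 (Dh)
open Crest.Agent.R017.I1146 (LN)

variable {Λ : Type*} {π : Λ → DPar} {h : ℝ → ℝ} {c₀ : ℝ} {A d : ℝ}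

/-- **the Gram error of the single lists**, class E -/
theorem e3su_E (hpu : PU h c₀) (hP : ∀ lam, (π lam).OK) (hE : ∀ lam, Exc (π lam))
    (hd : 0 ≤ d) (hd1 : d ≤ 1 / 42) (hA : 9 / 10 ≤ A) (hA0 : A ≤ 1) (hA1 : 16 * (1 - A) ≤ d)
    (hPF : PF Set.univ (7 / 8 + d)) {s : EF}
    (R : ExpRules (7 / 8 + d) (ex Dq (fun lam => Rt (red (π lam)) h)) s)
    (hAll : AllT d (ex Dq fun lam => S0K Dk (red (π lam)) h))
    (hFE : FE2G (ex Dq fun lam => S0K Dk (red (π lam)) h) D5X K5 T5 fun b => 3 / 4 * d * b 0)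
    {Rh : ℝ} (hRh0 : 0 ≤ Rh) (hRh : ∀ u, cx h u ≠ 0 → |u| ≤ Rh) :
    E3SU (fun lam => red (π lam)) h (1 / 64) (d / 4) Rh (17 / 100) (ParS A d) (LS0 d) := by
  have H := frHS_E hpu hP hE hd hd1 hA hA1 hAll hFE hRh0 hRh
  have hNC : ∀ lam, ∀ k : Eis, k ≠ 0 →
      (Sup271.NPm (red (π lam)).n (red (π lam)).ψ (red (π lam)).l₂ k ↔
        Crest.Agent.R012.T411.NCube k) :=
    fun lam k hk => Red848.NPm_red_iff (hP lam).ψ.q0 hk
  exact E3Sx829.e3su_H H
    (Hf := fun cc a qs i d _ => E3Nx744.HX cc a (I1146.LN (clN a qs)) i d)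
    (fun cc a ps i d e => E3Nx744.HX_pos)
    (tnS_E hpu hP hE hd hd1 hA hA0 hA1 hAll hFE hRh0 hRh)
    (tcS_E hpu hP hE hd hd1 hA hA0 hA1 hAll hFE hRh0 hRh)
    (RnS629.rnU_S hpu H.hP hNC R hPF hd (by linarith) H.he0 H.he0' H.hc0 H.hc1 H.hPar
      (fun p hp => E3Nx744.dh_sq5 hd (by linarith) hA0 hA1 hp) (fun p _ => by linarith)
      (le_refl _) (by norm_num) (fun p hp _ => le_of_eq (by unfold P1t54.LS0; ring)))

end Crest.Agent.R017.E3Ux744
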