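import Crest.Agent.R017.CutN_290
import Crest.Agent.R017.E3Kh_548
import Crest.Agent.R017.E3Mi_829
import Crest.Agent.R017.Sf_770

/-!
# Row 17, R8 / P1 (helper271): the front of `E3U` in class N

* `omP_form` : the plateau as the smooth function `OmP`
* **`front`** : `GrP w K (cut StE) - c3 w K Re X3` at `E1` through `Z1F` at `E1'` and the cubes
  between `E1'` and `E1`
-/

set_option autoImplicit false
set_option linter.unusedVariables false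

noncomputable section

open Finset
open scoped Classical ComplexConjugate ContDiff

namespace Crest.Agent.R017.E3W271

open Crest.Agent.R012 Crest.Agent.R012.Eis
open Crest.Agent.R012.MC (Wgt)
open Crest.Agent.R012.LS2 (S mem_S bl)
open Crest.Agent.R012.Weight600 (pw)
open Crest.Agent.R012.Mob705 (kap0)
open Crest.Agent.R017.C70 (JC OKJ JW okJ_JW)
open Crest.Agent.R017.CM106 (CS FS)
open Crest.Agent.R017.HB645 (hh)
open Crest.Agent.R017.E1551 (nmpos)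
open Crest.Agent.R017.E3A164 (SteT)
open Crest.Agent.R017.E3M829 (TC TF Cut Iw XT Tal TC_Tal XT_eq c3_eq)
open Crest.Agent.R017.E3F548
open Crest.Agent.R017.E3T1579 (T3)
open Crest.Agent.R017.E3T829 (hE hE_nonneg RR)
open Crest.Agent.R017.E3Z548
open Crest.Agent.R017.E3Kc548
open Crest.Agent.R017.Mode405 (Slp)
open Crest.Agent.R017.E3Sx579 (RHR)
open Crest.Agent.R017.E2440 (TE StE)
open Crest.Agent.R017.PX764 (n6)
open Crest.Agent.R017.R3571 (RMm)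
open Crest.Agent.R017.LB48 (GrP)
open Crest.Agent.R017.I1146 (X3 c3)
open Crest.Agent.R017.E3Hf290 (RN2F RN2F_nonneg)
open Crest.Agent.R017.E3Kh548 (OmP contDiff_OmP OmP_bd OmP_win OmP_form)
open Crest.Agent.R017.E5L770 (omP)

lemma omP_form (n : ℕ) (x : Eis × Eis) :
    omP n x = 1 * (OmP n (Real.log (nm (x.2 * x.1 ^ 2))) * pw 0 (nm x.2)) := by
  rw [← OmP_form]
  rfl

/-- the Gram sum over the primary elements with cube part at most `E1` -/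
lemma GrP_cut {w : ℝ → ℝ} {K : ℝ} (E0 E1 : ℝ) (J : Finset (Eis × Eis)) (om : Eis × Eis → ℂ)
    (α : Eis → ℂ) : GrP w K (fun k => if Cut E1 k then StE E0 J om α k else 0) =
      ∑' k : Eis, if IsPrim k ∧ Cut E1 k then
        w ((nm k : ℝ) / K) * ‖SteT J om E0 (Tal α) k‖ ^ 2 else 0 := by
  unfold LB48.GrP
  refine tsum_congr fun k => ?_
  rw [E3M829.SteT_Tal]
  beta_reduce
  by_cases h2 : IsPrim k
  · by_cases h3 : Cut E1 k
    · rw [if_pos h2, if_pos h3, if_pos ⟨h2, h3⟩]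
    · rw [if_pos h2, if_neg h3, if_neg (fun h => h3 h.2)]
      simp
  · rw [if_neg h2, if_neg (fun h => h2 h.1)]

/-- two cuts -/
lemma cut_split {w : ℝ → ℝ} (hw : Wgt w) {K : ℝ} (hK : 0 < K) {E1 E1' : ℝ} (hE : E1' ≤ E1)
    (F : Eis → ℝ) :
    (∑' k : Eis, if IsPrim k ∧ Cut E1 k then w ((nm k : ℝ) / K) * F k else 0) =
      (∑' k : Eis, if IsPrim k ∧ Cut E1' k then w ((nm k : ℝ) / K) * F k else 0) +
      ∑' k : Eis, if IsPrim k ∧ Cut E1 k ∧ ¬ Cut E1' k then w ((nm k : ℝ) / K) * F k else 0 := by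
  have fin : ∀ g : Eis → ℝ, (∀ k, w ((nm k : ℝ) / K) = 0 → g k = 0) → Summable g := fun g hg =>
    summable_of_hasFiniteSupport ((hw.finite_support hK).subset fun k hk h0 => hk (hg k h0))
  have s1 : Summable fun k : Eis =>
      if IsPrim k ∧ Cut E1' k then w ((nm k : ℝ) / K) * F k else 0 :=
    fin _ fun k hk => by simp [hk]
  have s2 : Summable fun k : Eis =>
      if IsPrim k ∧ Cut E1 k ∧ ¬ Cut E1' k then w ((nm k : ℝ) / K) * F k else 0 :=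
    fin _ fun k hk => by simp [hk]
  rw [← s1.tsum_add s2]
  refine tsum_congr fun k => ?_
  have hmono : Cut E1' k → Cut E1 k := fun h c hc hd => (h c hc hd).trans hE
  by_cases h1 : IsPrim k
  · by_cases h2 : Cut E1' k
    · rw [if_pos ⟨h1, hmono h2⟩, if_pos ⟨h1, h2⟩, if_neg (fun h => h.2.2 h2), add_zero]
    · by_cases h3 : Cut E1 k
      · rw [if_pos ⟨h1, h3⟩, if_neg (fun h => h2 h.2), if_pos ⟨h1, h3, h2⟩, zero_add]
      · rw [if_neg (fun h => h3 h.2), if_neg (fun h => h2 h.2), if_neg (fun h => h3 h.2.1),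
          add_zero]
  · rw [if_neg (fun h => h1 h.1), if_neg (fun h => h1 h.1), if_neg (fun h => h1 h.1), add_zero]

/-- the constants of the front -/
lemma front_alg {C C' M Zε F1 F2 g1 G2 : ℝ} (hC : 0 ≤ C) (hC' : 0 ≤ C') (hZ : 0 ≤ Zε)
    (hF1 : 0 ≤ F1) (hF2 : 0 ≤ F2) (hg1 : 0 ≤ g1) (hG2 : 0 ≤ G2) :
    C * Zε * (F1 + M ^ 2 * g1) + C' * Zε * (F2 + M ^ 2 * G2) ≤
      (C + C') * (1 + M ^ 2) * Zε * ((F1 + g1) + (F2 + G2)) := by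
  have hM : 0 ≤ M ^ 2 := sq_nonneg M
  have t1 : 0 ≤ C * Zε := mul_nonneg hC hZ
  have t2 : 0 ≤ C' * Zε := mul_nonneg hC' hZ
  have u1 : 0 ≤ C * Zε * F2 := mul_nonneg t1 hF2
  have u2 : 0 ≤ C * Zε * G2 := mul_nonneg t1 hG2
  have u3 : 0 ≤ C * Zε * g1 := mul_nonneg t1 hg1
  have u4 : 0 ≤ C * Zε * F1 := mul_nonneg t1 hF1
  have v1 : 0 ≤ C' * Zε * F1 := mul_nonneg t2 hF1
  have v2 : 0 ≤ C' * Zε * g1 := mul_nonneg t2 hg1
  have v3 : 0 ≤ C' * Zε * F2 := mul_nonneg t2 hF2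
  have v4 : 0 ≤ C' * Zε * G2 := mul_nonneg t2 hG2
  have w1 := mul_nonneg hM u1
  have w2 := mul_nonneg hM u2
  have w4 := mul_nonneg hM u4
  have x1 := mul_nonneg hM v1
  have x2 := mul_nonneg hM v2
  have x3 := mul_nonneg hM v3
  linarith only [u1, u2, u3, v1, v2, v4, w1, w2, w4, x1, x2, x3]

set_option maxHeartbeats 1000000 in
/-- **the front of `E3U`** -/
theorem front {w : ℝ → ℝ} (hw : Wgt w) (hw0 : ∀ x, 0 ≤ w x) {R0 : ℝ} (hR0 : 0 ≤ R0) (a A₁ : ℕ)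
    (hA₁ : 1 < A₁) {ε : ℝ} (hε : 0 < ε) (hε1 : ε ≤ 1) :
    ∃ (c c' C c2 : ℝ), 1 ≤ c ∧ 1 ≤ c' ∧ 1 ≤ C ∧ 1 ≤ c2 ∧
    ∀ (Z : ℝ), 1 ≤ Z → ∀ (n : ℕ) (α : Eis → ℂ) (Y E0 E1 E1' K X : ℝ)
      (H H' : ℕ → Eis → Eis → ℝ) (W0 W0' : ℕ → Eis → Eis → ℝ → ℝ),
      FS α → (∀ m, α m ≠ 0 → Squarefree m) →
      (∀ m, α m ≠ 0 → |Real.log (nm m) - Real.log X| ≤ R0) →
      1 ≤ E1' → E1' ≤ E1 → 2 * E1 ≤ Z → (2 : ℝ) ^ n ≤ Z → Real.sqrt (2 ^ n) ≤ Z →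
      0 < K → c2 * K ≤ Z → K ≤ Z →
      0 ≤ E0 → E0 ≤ Z → E0 ≤ Y → 0 < X → X ≤ Z ^ 5 →
      (∀ i ∈ LI (1 / 10) (2 ^ n), c * Real.exp i ≤ Z ^ 5) →
      (∀ i ∈ LI (1 / 10) (2 ^ n), c' * Real.exp i ≤ Z ^ 5) →
      (∀ i d e, 0 < H i d e) → (∀ i d e, 0 < H' i d e) →
      (∀ i ∈ LI (1 / 10) (2 ^ n), ∀ d ∈ S (Z ^ 5), ∀ e ∈ S E0,
        c * (H i d e * Real.exp i ^ 2) ≤ K * X) →
      (∀ i ∈ LI (1 / 10) (2 ^ n), ∀ d ∈ S (Z ^ 5), ∀ e ∈ S E0,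
        c' * (H' i d e * Real.exp i ^ 2) ≤ K * X) →
      (∀ i d e, Slp a (W0 i d e)) → (∀ i d e, Slp a (W0' i d e)) →
      (∀ i ∈ LI (1 / 10) (2 ^ n), RHR (c * Z ^ 300) A₁
        (RR (JW (Real.sqrt (2 ^ n)) (1 / 10) (2 ^ n)) (S E0)) (afT α E0) (W0 i)) →
      (∀ i ∈ LI (1 / 10) (2 ^ n), ∀ d ∈ (JW (Real.sqrt (2 ^ n)) (1 / 10) (2 ^ n)).image Prod.fst,
        ∀ f ∈ S E0, ∀ γ π, IsPrim γ → IsPrim π → (nm π : ℝ) ≤ c' * Z ^ 300 → ∀ P : ℝ, 0 < P →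
        (nm γ : ℝ) * n6 γ ^ 2 * ∑ r ∈ bl P, RMm A₁ (fun n => α (d * n)) f γ π r ≤ W0' i d f P) →
      GrP w K (fun k => if Cut E1 k then
          StE E0 (JW (Real.sqrt (2 ^ n)) (1 / 10) (2 ^ n)) (omP n) α k else 0) -
        c3 w K * (X3 Y E0 (JW (Real.sqrt (2 ^ n)) (1 / 10) (2 ^ n)) (omP n) α).re ≤
      C * Z ^ ε * (
        (K ^ (2 / 3 : ℝ) * ((2 ^ n / K ^ 2) ^ (1 / 6 : ℝ) *
          TF (1 / 2) (JW (Real.sqrt (2 ^ n)) (1 / 10) (2 ^ n)) (omP n) E0 (Tal α) +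
          E1'⁻¹ * TF (-1) (JW (Real.sqrt (2 ^ n)) (1 / 10) (2 ^ n)) (omP n) E0 (Tal α)) +
        (K ^ (-(1 : ℝ) / 3) * E1' ^ 2 * 2 ^ n) *
          ∑ x ∈ JW (Real.sqrt (2 ^ n)) (1 / 10) (2 ^ n), EF (omP n) (Tal α) E0 x +
        hE (S E0) * ∑ i ∈ LI (1 / 10) (2 ^ n),
          ∑ d ∈ (JW (Real.sqrt (2 ^ n)) (1 / 10) (2 ^ n)).image Prod.fst, ∑ e ∈ S E0,
            LVn (afT α E0) {d} {e} c (Z ^ 5) K (H i d e) (Real.exp i) (Real.exp 1 * 2 ^ n) E1' 2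
              (Real.sqrt (c * Real.exp i)) (RN2F c K (Real.exp i) X (H i) (W0 i) d e)) +
        (K ^ (2 / 3 : ℝ) * ∑ f ∈ S E0, ((E1'⁻¹ * (nm f : ℝ)⁻¹ +
          (2 ^ n / K ^ 2) ^ (1 / 6 : ℝ) * (nm f : ℝ) ^ (1 / 2 : ℝ) + E1 ^ 2 * 2 ^ n / K) *
            XE (JW (Real.sqrt (2 ^ n)) (1 / 10) (2 ^ n)) (omP n) (Tal α) f) +
        ∑ f ∈ S E0, ∑ i ∈ LI (1 / 10) (2 ^ n),
          ∑ d ∈ (JW (Real.sqrt (2 ^ n)) (1 / 10) (2 ^ n)).image Prod.fst,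
          (nm f : ℝ)⁻¹ * LVn (fun d _ n => α (d * n)) {d} {f} c' (Z ^ 5) K (H' i d f)
            (Real.exp i) (Real.exp i) E1 1 1
            (RN2F c' K (Real.exp i) X (H' i) (W0' i) d f))) := by
  obtain ⟨A, c, C, hc, hC, h1⟩ := Z1F579.Z1F hw hw0 hR0 a A₁ hA₁ hε hε1
  obtain ⟨A', c', C', c2, hc', hC', hc2, h2⟩ := CutN290.CutE hw hw0 hR0 a A₁ hA₁ hε hε1
  obtain ⟨M, hM0, hM⟩ := OmP_bd (max A A' + 2)
  refine ⟨c, c', (C + C') * (1 + M ^ 2), c2, hc, hc', ?_, hc2, ?_⟩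
  · nlinarith [sq_nonneg M]
  intro Z hZ n α Y E0 E1 E1' K X H H' W0 W0' hα hsq hwin hE1' hEE h2E hnZ hsqZ hK hcK hKZ hE0
    hE0Z hE0Y hX hXZ hci hci' hH hH' hHX hHX' hW0 hW0' hRH hRH'
  have hZ0 : (0 : ℝ) < Z := by linarith
  set Y₁ : ℝ := (2 : ℝ) ^ n with hY₁
  have hY1 : 1 ≤ Y₁ := one_le_pow₀ (by norm_num)
  have hY10 : 0 < Y₁ := by linarith
  set D := Real.sqrt Y₁ with hD
  have hD0 : 0 ≤ D := Real.sqrt_nonneg _
  set J := JW D (1 / 10) Y₁ with hJ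
  have hJok : OKJ J := okJ_JW D (1 / 10) Y₁
  have hE10 : 0 < E1' := by linarith
  have hE1 : 1 ≤ E1 := hE1'.trans hEE
  have hprim : ∀ m, α m ≠ 0 → IsPrim m := fun m hm => hα.prim m hm
  have hJ1 : ∀ x ∈ J, (nm x.1 : ℝ) ≤ Z := by
    intro x hx
    have := (mem_filter.1 hx).1
    rw [mem_product, mem_primBall] at this
    exact ((Nat.cast_le.2 this.1.1).trans (Nat.floor_le hD0)).trans hsqZ
  have hJ2 : ∀ x ∈ J, (nm x.2 : ℝ) ≤ Y₁ := by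
    intro x hx
    have := (mem_filter.1 hx).1
    rw [mem_product, mem_ball] at this
    exact (Nat.cast_le.2 this.2).trans (Nat.floor_le hY10.le)
  have hom : ∀ x ∈ J, omP n x = 1 * (OmP n (Real.log (nm (x.2 * x.1 ^ 2))) * pw 0 (nm x.2)) :=
    fun x _ => omP_form n x
  have hwn : ∀ i ∈ LI (1 / 10) Y₁, ∀ m : ℕ, 0 < m → hh (Real.log m - i) ≠ 0 →
      OmP n (Real.log m) ≠ 0 → (1 / 10 : ℝ) < m ∧ (m : ℝ) ≤ Y₁ :=
    fun i _ m hm _ h => OmP_win hm h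
  have k1 := h1 (OmP n) M hM0 (contDiff_OmP n)
    (fun m hm x => hM n m (hm.trans (by have := le_max_left A A'; omega)) x) 0 1 (by simp) Z hZ
    D (1 / 10) Y₁ (omP n) (Tal α) (afT α E0) E0 E1' Y₁ K X H W0 (TC_afT hsq)
    (fun d e => FS_afT hα d e) (fun d e he j => T3_afT_zero he d j)
    (fun x hx e he => (T3_afT hprim (hJok.prim x hx) he x.2).symm) hD0 hY10 hom hwn hK hKZ
    hY10.le hnZ hE0 hE0Z hE1' (by linarith) hnZ hJ1 hJ2 hX hXZ hH hci hHX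
    (fun d _ e _ m hm => afT_sqf hsq hm) (fun d _ e _ m hm => afT_win hwin hm) hW0 hRH
  have k2 := h2 (OmP n) M hM0 (contDiff_OmP n)
    (fun m hm x => hM n m (hm.trans (by have := le_max_right A A'; omega)) x) 0 1 (by simp) Z hZ
    D (1 / 10) Y₁ (omP n) α E0 Y₁ E1 E1' K X H' W0' hα hsq hwin hE10 hE1 (by linarith) hD0
    hY10.le hom hwn hK hcK hY10.le hnZ hE0 hE0Z hnZ hJ1 hJ2 hX hXZ hH' hci' hHX' hW0' hRH'
  rw [GrP_cut, cut_split hw hK hEE]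
  rw [XT_eq hE0 hE0Y] at k1
  have e3 : (∑' k : Eis, if IsPrim k ∧ Cut E1 k ∧ ¬ Cut E1' k then w ((nm k : ℝ) / K) *
      ‖SteT J (omP n) E0 (Tal α) k‖ ^ 2 else 0) =
      ∑' k : Eis, if IsPrim k ∧ Cut E1 k ∧ ¬ Cut E1' k then w ((nm k : ℝ) / K) *
        ‖StE E0 J (omP n) α k‖ ^ 2 else 0 := by
    refine tsum_congr fun k => ?_
    rw [E3M829.SteT_Tal]
  rw [e3]
  have e4 : kap0 * K ^ (2 / 3 : ℝ) * Iw w = c3 w K := by rw [c3_eq]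
  rw [e4] at k1
  rw [abs_zero, add_zero, one_pow, mul_one] at k1 k2
  have hZε : 0 < Z ^ ε := by positivity
  have hhE : 0 ≤ hE (S E0) := hE_nonneg _
  set G1 := ∑ i ∈ LI (1 / 10) Y₁, ∑ d ∈ J.image Prod.fst, ∑ e ∈ S E0,
            LVn (afT α E0) {d} {e} c (Z ^ 5) K (H i d e) (Real.exp i) (Real.exp 1 * Y₁) E1' 2
              (Real.sqrt (c * Real.exp i)) (RN2F c K (Real.exp i) X (H i) (W0 i) d e) with hG1
  set G2 := ∑ f ∈ S E0, ∑ i ∈ LI (1 / 10) Y₁, ∑ d ∈ J.image Prod.fst,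
          (nm f : ℝ)⁻¹ * LVn (fun d _ n => α (d * n)) {d} {f} c' (Z ^ 5) K (H' i d f)
            (Real.exp i) (Real.exp i) E1 1 1
            (RN2F c' K (Real.exp i) X (H' i) (W0' i) d f) with hG2
  have hRN : ∀ (c : ℝ) (H : ℕ → Eis → Eis → ℝ) (W0 : ℕ → Eis → Eis → ℝ → ℝ), 1 ≤ c →
      (∀ i d e, 0 < H i d e) → (∀ i d e, Slp a (W0 i d e)) → ∀ (i : ℕ) (d e : Eis),
      0 ≤ RN2F c K (Real.exp i) X (H i) (W0 i) d e := by
    intro c H W0 hc hH hW i d e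
    refine RN2F_nonneg (E3Sz579.Ld_nonneg hK (hH i d e) d)
      (E3Sz579.Md_nonneg (by linarith) hK (Real.exp_pos _) (hH i d e) hX d) ?_ ?_
    · have := hH i d e
      positivity
    · have := hH i d e
      exact (hW i d e).nonneg _ (by positivity)
  have n1 : 0 ≤ G1 := by
    refine sum_nonneg fun i _ => sum_nonneg fun d _ => sum_nonneg fun e _ => ?_
    exact LVn_nonneg hK.le (hH i d e).le (Real.exp_pos _).le (by positivity)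
      (by positivity) (Real.sqrt_nonneg _) (hRN c H W0 hc hH hW0 i d e)
  have n2 : 0 ≤ G2 := by
    refine sum_nonneg fun f _ => sum_nonneg fun i _ => sum_nonneg fun d _ => ?_
    refine mul_nonneg (by positivity) ?_
    exact LVn_nonneg hK.le (hH' i d f).le (Real.exp_pos _).le (Real.exp_pos _).le
      (by positivity) (by norm_num) (hRN c' H' W0' hc' hH' hW0' i d f)
  set F1 := K ^ (2 / 3 : ℝ) * ((Y₁ / K ^ 2) ^ (1 / 6 : ℝ) *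
          TF (1 / 2) J (omP n) E0 (Tal α) + E1'⁻¹ * TF (-1) J (omP n) E0 (Tal α)) +
        (K ^ (-(1 : ℝ) / 3) * E1' ^ 2 * Y₁) * ∑ x ∈ J, EF (omP n) (Tal α) E0 x with hF1
  set F2 := K ^ (2 / 3 : ℝ) * ∑ f ∈ S E0, ((E1'⁻¹ * (nm f : ℝ)⁻¹ +
          (Y₁ / K ^ 2) ^ (1 / 6 : ℝ) * (nm f : ℝ) ^ (1 / 2 : ℝ) + E1 ^ 2 * Y₁ / K) *
            XE J (omP n) (Tal α) f) with hF2
  have n3 : 0 ≤ F1 := by
    have t1 := E3M829.TF_nonneg (1 / 2) J (omP n) E0 (Tal α)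
    have t2 := E3M829.TF_nonneg (-1) J (omP n) E0 (Tal α)
    have t3 : 0 ≤ ∑ x ∈ J, EF (omP n) (Tal α) E0 x := sum_nonneg fun x _ => EF_nonneg _ _ _ x
    positivity
  have n4 : 0 ≤ F2 := by
    refine mul_nonneg (by positivity) (sum_nonneg fun f _ => mul_nonneg (by positivity) ?_)
    unfold XE
    positivity
  have g1 : 0 ≤ hE (S E0) * G1 := mul_nonneg hhE n1
  clear_value F1 F2 G1 G2
  have alg := front_alg (C := C) (C' := C') (M := M) (Zε := Z ^ ε) (by linarith only [hC])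
    (by linarith only [hC']) hZε.le n3 n4 g1 n2
  refine le_trans ?_ alg
  linarith only [k1, k2]

end Crest.Agent.R017.E3W271
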