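import Crest.Agent.R017.E3W2_271
import Crest.Agent.R017.ET4a_548

/-!
# Row 17, R8 / P1 (helper271): `E3U`, the R-half at list level

* **`rhalf`** : helper571's `rn2_J` at `H = exp hN`, all levels, summed over `(d, e)`
-/

set_option autoImplicit false
set_option linter.unusedVariables false

noncomputable section

open Finset
open scoped Classical ComplexConjugate

namespace Crest.Agent.R017.E3W271

open Crest.Agent.R012 Crest.Agent.R012.Eis
open Crest.Agent.R012.LS2 (S mem_S bl mem_bl)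
open Crest.Agent.R017.FE47 (PU SM)
open Crest.Agent.R017.CM106
open Crest.Agent.R017.XG702 (Pcs BG)
open Crest.Agent.R017.Prov71
open Crest.Agent.R017.B770
open Crest.Agent.R017.HP842 (Pc pc sqc alL)
open Crest.Agent.R017.E5B71
open Crest.Agent.R017.R3571 (RMm)
open Crest.Agent.R017.Mode405 (Slp)
open Crest.Agent.R017.PX764 (n6)
open Crest.Agent.R017.E3Z548 (FH)
open Crest.Agent.R017.E3Sz579 (Ld Md)
open Crest.Agent.R017.E3Hf290 (RN2F)
open Crest.Agent.R017.TM708 (PD)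
open Crest.Agent.R017.I1146 (LN)
open Crest.Agent.R017.RnP571 (hJ Dh)
open Crest.Agent.R017.ER911
open Crest.Agent.R017.XPD571 (RP0)

variable {Λ : Type*} {π : Λ → DPar} {h : ℝ → ℝ}

set_option maxHeartbeats 1000000 in
/-- **the R-half** -/
theorem rhalf {c₀ : ℝ} (hpu : PU h c₀) (hP : ∀ lam, (π lam).OK) {s : EF} {dd : ℝ}
    (R : ExpRules (7 / 8 + dd) (ex Dq (fun lam => Rp (π lam) h)) s)
    (hcolP : ∀ (i : ℝ) (u : List ℝ) (m a : ℝ), 0 ≤ i → Okl u m a →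
      BG Dq (RP0 π h) i u (wt m a) (2 * a + 2 * (7 / 8 + dd) * m)) (hd : 0 ≤ dd)
    (hd8 : dd ≤ 1 / 8) {ε : ℝ} (hε : 0 < ε) (hε1 : ε ≤ 1 / 160000) :
    ∃ τ : ℝ, 0 < τ ∧ τ ≤ ε ∧ ∀ (lam : Λ) (t : Eis), t ≠ 0 → ∀ (N : ℕ) (B : ℝ),
      ∃ (M a A₀ : ℕ), 1 ≤ a ∧ ∀ cc : ℝ, 1 ≤ cc → ∃ X₀ : ℝ, 1 < X₀ ∧ ∀ X : ℝ, X₀ ≤ X →
      ∀ (b : Fin 5 → ℝ) (us : Fin 3 → Pq) (gs : List Pq) (κ H : ℝ),
      PD X τ B H N b 1 us gs κ → Dh (b 0) (b 1) (b 2) (b 3) (b 4) (dd * b 0) → 1 / 2 ≤ b 0 →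
      b 0 ≤ 2 → (b 0 / 2 - 2 * b 4 - ε) * Real.log X ≤ LN ([us 0, us 1, us 2] ++ gs) →
      ∀ (z E5 : ℝ) (LIs : Finset ℕ) (Ds EE : Finset Eis),
      0 ≤ E5 → z ≤ (b 4 + τ) * Real.log X →
      max 0 (5 / 4 * (b 1 + b 2 + b 3) - b 0) * Real.log X - 4 * (τ * Real.log X) ≤ E5 →
      (∀ i ∈ LIs, (i : ℝ) ≤ (min (2 * (b 1 + b 2 + b 3) - b 0) (3 / 4 * (b 1 + b 2 + b 3)) +
        3 * b 4 + ε) * Real.log X) →
      Ds ⊆ S (X ^ B) → EE ⊆ S (X ^ B) →
      (∀ e ∈ EE, Real.log (nm e) ≤ (b 0 / 64 + ε) * Real.log X) →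
      ∃ W0 : ℕ → Eis → Eis → ℝ → ℝ, (∀ i d e, Slp a (W0 i d e)) ∧
      (∀ i ∈ LIs, ∀ A : ℕ, A₀ ≤ A → ∀ d ∈ Ds, ∀ e ∈ EE, ∀ γ φ, IsPrim γ → IsPrim φ →
        (nm φ : ℝ) ≤ X ^ B → ∀ P : ℝ, 0 < P →
        (nm γ : ℝ) * n6 γ ^ 2 * ∑ k ∈ bl P, RMm A (fun j =>
            sqc 1 (alL h (([us 0, us 1, us 2] ++ gs).map (Pt (π lam) t))) (d * j)) e γ φ k ≤
          W0 i d e P) ∧
      ∑ i ∈ LIs, ∑ d ∈ Ds, ∑ e ∈ EE,
        FH (Real.exp κ) (Real.exp (hN cc κ (LN ([us 0, us 1, us 2] ++ gs)) z E5 i d))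
          (Real.exp i) *
        RN2F cc (Real.exp κ) (Real.exp i) (Real.exp (LN ([us 0, us 1, us 2] ++ gs)))
          (fun d _ => Real.exp (hN cc κ (LN ([us 0, us 1, us 2] ++ gs)) z E5 i d)) (W0 i) d e ≤
        (LIs.card : ℝ) * (H ^ M * X ^ (b 0 + LN ([us 0, us 1, us 2] ++ gs) / Real.log X +
          P1Q904.LQ (b 1 + b 2 + b 3) (b 0) (dd * b 0) + 2 * ε)) := by
  obtain ⟨τ₀, hτ₀, hτ₀ε, G⟩ := RnP571.rn2_J hpu hP R hcolP hd hd8 hε hε1
  refine ⟨min τ₀ (ε / 40), lt_min hτ₀ (by positivity), (min_le_left _ _).trans hτ₀ε, ?_⟩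
  intro lam t ht N B
  obtain ⟨M, a, A₀, ha, G⟩ := G lam t ht N B
  refine ⟨M, a, A₀, ha, fun cc hcc => ?_⟩
  obtain ⟨X₁, hX₁, G⟩ := G cc hcc
  obtain ⟨X₂, hX₂, G2⟩ := RnP571.sum_inv2 hε B
  refine ⟨max (max X₁ X₂) (Real.exp 1), ?_, ?_⟩
  · exact lt_of_lt_of_le hX₁ ((le_max_left _ _).trans (le_max_left _ _))
  intro X hX b us gs κ H hPD hD hb1 hb2 hlo z E5 LIs Ds EE hE50 hz hE5 hi hDs hEE hEe
  have hX1' : X₁ ≤ X := (le_max_left _ _).trans ((le_max_left _ _).trans hX)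
  have hX2' : X₂ ≤ X := (le_max_right _ _).trans ((le_max_left _ _).trans hX)
  have hXe : Real.exp 1 ≤ X := (le_max_right _ _).trans hX
  have hX1 : 1 < X := hX₁.trans_le hX1'
  have hX0 : 0 < X := by linarith
  set L := Real.log X with hL
  have hL1 : 1 ≤ L := by
    rw [hL, Real.le_log_iff_exp_le hX0]
    exact hXe
  have hL0 : 0 < L := by linarith
  set τ := min τ₀ (ε / 40) with hτd
  have hτ0 : 0 < τ := lt_min hτ₀ (by positivity)
  have hττ : τ ≤ τ₀ := min_le_left _ _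
  have hτε : τ ≤ ε / 40 := min_le_right _ _
  have hτL : τ * L ≤ ε / 40 * L := mul_le_mul_of_nonneg_right hτε hL0.le
  have hτL0 : 0 ≤ τ * L := by positivity
  have hεL : 0 ≤ ε * L := by positivity
  have hεL1 : ε * L ≤ 1 / 160000 * L := mul_le_mul_of_nonneg_right hε1 hL0.le
  have hPD' : PD X τ₀ B H N b 1 us gs κ := by
    have hm := mul_le_mul_of_nonneg_right hττ hL0.le
    have hm' : ∀ y : ℝ, (y + τ) * L ≤ (y + τ₀) * L := fun y =>
      mul_le_mul_of_nonneg_right (by linarith) hL0.le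
    exact ⟨hPD.q0, hPD.qB, hPD.H1, hPD.lump, hPD.us0, hPD.usB, hPD.usH,
      hPD.z1.trans (hm' _), hPD.z2.trans (hm' _), hPD.z3.trans (hm' _),
      fun p hp => ⟨(hPD.am p hp).1, (hPD.am p hp).2.1, (hPD.am p hp).2.2.1.trans hm,
        (hPD.am p hp).2.2.2⟩, hPD.len, hPD.x.trans (hm' _), hPD.k.trans hm⟩
  set ls := [us 0, us 1, us 2] ++ gs with hls
  set p := LN ls with hp
  have hpz : p = (us 0).z + (us 1).z + (us 2).z + LN gs := by
    rw [hp, hls]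
    unfold LN
    simp only [List.cons_append, List.nil_append, List.map_cons, List.sum_cons]
    ring
  obtain ⟨k1, k2⟩ := abs_le.1 hPD.k
  have q1 := hPD.z1
  have q2 := hPD.z2
  have q3 := hPD.z3
  have q4 := hPD.x
  rw [← hL] at k1 k2 q1 q2 q3 q4
  have d1 := mul_le_mul_of_nonneg_right hD.N1 hL0.le
  have d2 := mul_nonneg hD.x0 hL0.le
  have d3 : b 4 * L ≤ 1 / 20 * (b 0 * L) := by
    have : b 4 ≤ 1 / 20 * b 0 := by
      rcases hD.adm with ⟨a1, -⟩ | ⟨-, a2, -⟩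
      · have := hD.d1; have := hD.d0; have := hD.k0; linarith
      · have := hD.d1; have := hD.d0; have := hD.k0; linarith
    have := mul_le_mul_of_nonneg_right this hL0.le
    linarith
  have hb0L : b 0 * L ≤ 2 * L := mul_le_mul_of_nonneg_right hb2 hL0.le
  have hb0L' : 1 / 2 * L ≤ b 0 * L := mul_le_mul_of_nonneg_right hb1 hL0.le
  have hpL : p ≤ 2 * L := by linarith
  have hz1 : ∀ i : Fin 3, 0 ≤ (us i).z := hPD.us0
  have hgs0 : 0 ≤ LN gs := by
    unfold LN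
    refine List.sum_nonneg fun x hx => ?_
    obtain ⟨p', hp', rfl⟩ := List.mem_map.1 hx
    exact (hPD.am p' hp').2.1
  have hp0 : 0 ≤ p := by
    have := hz1 0; have := hz1 1; have := hz1 2
    linarith
  have hiL : ∀ i ∈ LIs, (i : ℝ) ≤ 2 * L := by
    intro i hiI
    refine (hi i hiI).trans ?_
    have h1 : min (2 * (b 1 + b 2 + b 3) - b 0) (3 / 4 * (b 1 + b 2 + b 3)) ≤
        3 / 4 * (b 1 + b 2 + b 3) := min_le_right _ _
    have h2 := mul_le_mul_of_nonneg_right h1 hL0.le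
    have h3 : (min (2 * (b 1 + b 2 + b 3) - b 0) (3 / 4 * (b 1 + b 2 + b 3)) + 3 * b 4 + ε) * L =
      min (2 * (b 1 + b 2 + b 3) - b 0) (3 / 4 * (b 1 + b 2 + b 3)) * L + 3 * (b 4 * L) +
        ε * L := by ring
    rw [h3]
    linarith
  have hcc0 : 0 ≤ Real.log cc := Real.log_nonneg hcc
  have hhN : ∀ (i : ℕ) (d : Eis), hN cc κ p z E5 i d ≤ 3 * L := by
    intro i d
    have hd := log_nm0 d
    unfold hN
    split_ifs with h
    · unfold RnP571.hJ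
      refine max_le (by linarith) (by linarith)
    · have h5 := min_le_right (Real.log (nm d : ℝ)) ((i : ℝ) / 2)
      have h6 : (0 : ℝ) ≤ i := Nat.cast_nonneg _
      linarith
  -- one level
  have key : ∀ i : ℕ, ∃ W0 : Eis → Eis → ℝ → ℝ, (∀ d e, Slp a (W0 d e)) ∧ (i ∈ LIs →
      (∀ A : ℕ, A₀ ≤ A → ∀ d ∈ Ds, ∀ e ∈ EE, ∀ γ φ, IsPrim γ → IsPrim φ →
        (nm φ : ℝ) ≤ X ^ B → ∀ P : ℝ, 0 < P →
        (nm γ : ℝ) * n6 γ ^ 2 * ∑ k ∈ bl P, RMm A (fun j =>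
            sqc 1 (alL h (ls.map (Pt (π lam) t))) (d * j)) e γ φ k ≤ W0 d e P) ∧
      ∀ d ∈ Ds, ∀ e ∈ EE,
        FH (Real.exp κ) (Real.exp (hN cc κ p z E5 i d)) (Real.exp i) *
        RN2F cc (Real.exp κ) (Real.exp i) (Real.exp p)
          (fun d _ => Real.exp (hN cc κ p z E5 i d)) W0 d e ≤
        H ^ M * X ^ (b 0 + p / L + P1Q904.LQ (b 1 + b 2 + b 3) (b 0) (dd * b 0) + ε) /
          (nm d * nm e)) := by
    intro i
    by_cases hiI : i ∈ LIs
    swap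
    · exact ⟨fun _ _ _ => 0, fun _ _ => ET4a548.Slp_zero a, fun h => absurd h hiI⟩
    have hiv := hi i hiI
    have hi0 : (0 : ℝ) ≤ i := Nat.cast_nonneg _
    obtain ⟨W0, w1, w2, w3⟩ := G X hX1' b 1 us gs κ H hPD' hD hb1 hb2 hlo (Real.exp κ)
      (Real.exp i) (fun d _ => Real.exp (hN cc κ p z E5 i d)) (Real.exp_pos _) (Real.exp_pos _)
      (fun _ _ => Real.exp_pos _) (by
        rw [Real.log_exp]
        refine hPD.k.trans ?_
        exact mul_le_mul_of_nonneg_right ((min_le_left _ _).trans hτ₀ε) hL0.le)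
      (by rw [Real.log_exp]; exact hiv) (fun d e => d ∈ Ds ∧ e ∈ EE)
      (fun d e hde => by
        have hXB : (0 : ℝ) ≤ X ^ B := by positivity
        have h1 := (mem_S hXB).1 (hDs hde.1)
        have h2 := (mem_S hXB).1 (hEE hde.2)
        exact ⟨h1.2.1, h2.2.1, h1.1, h2.1⟩)
      (fun d e hde => hEe e hde.2)
      (fun d e hde => by
        have e1 : Real.exp p * Real.exp i * Real.exp (hN cc κ p z E5 i d) / Real.exp κ =
            Real.exp (p + i + hN cc κ p z E5 i d - κ) := by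
          rw [Real.exp_sub, Real.exp_add, Real.exp_add]
        have e2 : X ^ (8 : ℝ) = Real.exp (8 * L) := by
          rw [Real.rpow_def_of_pos hX0, ← hL, mul_comm]
        show Real.exp p * Real.exp i * Real.exp (hN cc κ p z E5 i d) / Real.exp κ ≤ X ^ (8 : ℝ)
        rw [e1, e2]
        refine Real.exp_le_exp.2 ?_
        have h1 := hhN i d
        have h2 := hiL i hiI
        linarith)
      (fun d e hde hLd => by
        have hXB : (0 : ℝ) ≤ X ^ B := by positivity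
        have hd0 : d ≠ 0 := ((mem_S hXB).1 (hDs hde.1)).2.1.ne_zero
        have h1 : Real.log (nm d) ≤ κ / 10 := by
          by_contra hcon
          exact Ld_lt hcc hd0 (not_le.1 hcon) hLd
        constructor
        · refine h1.trans ?_
          have : (b 0 / 10 + ε) * L = b 0 * L / 10 + ε * L := by ring
          rw [this]
          linarith
        · show Real.log (Real.exp (hN cc κ p z E5 i d)) ≤ _
          rw [Real.log_exp]
          unfold hN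
          rw [if_pos h1]
          have h2 := hJ_le (L := L) (k := b 0) (k' := κ) (p := p) (δ := Real.log (nm d))
            (x := b 4) (x' := z) (E := max 0 (5 / 4 * (b 1 + b 2 + b 3) - b 0)) (E' := E5)
            (t := τ * L) hL0 hPD.k (by linarith) (by linarith) hτL0
          refine h2.trans ?_
          rw [add_mul]
          linarith)
    refine ⟨W0, w1, fun _ => ⟨fun A hA d hd e he γ φ hγ hφ hφB P hPp =>
      w2 A hA d e ⟨hd, he⟩ γ φ hγ hφ hφB P hPp, fun d hd e he => w3 d e ⟨hd, he⟩⟩⟩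
  choose W0 hW1 hW2 using key
  refine ⟨W0, hW1, fun i hiI => (hW2 i hiI).1, ?_⟩
  have hsum := G2 X hX2' Ds EE hDs hEE
  set U := H ^ M * X ^ (b 0 + p / L + P1Q904.LQ (b 1 + b 2 + b 3) (b 0) (dd * b 0) + ε) with hU
  have hU0 : 0 ≤ U := by
    have := hPD.H1
    positivity
  have hlev : ∀ i ∈ LIs, ∑ d ∈ Ds, ∑ e ∈ EE,
        FH (Real.exp κ) (Real.exp (hN cc κ p z E5 i d)) (Real.exp i) *
        RN2F cc (Real.exp κ) (Real.exp i) (Real.exp p)
          (fun d _ => Real.exp (hN cc κ p z E5 i d)) (W0 i) d e ≤ U * X ^ ε := by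
    intro i hiI
    refine le_trans (sum_le_sum fun d hd => sum_le_sum fun e he => (hW2 i hiI).2 d hd e he) ?_
    have e1 : ∑ d ∈ Ds, ∑ e ∈ EE, U / ((nm d : ℝ) * nm e) =
        U * ∑ d ∈ Ds, ∑ e ∈ EE, 1 / ((nm d : ℝ) * nm e) := by
      rw [mul_sum]
      refine sum_congr rfl fun d _ => ?_
      rw [mul_sum]
      refine sum_congr rfl fun e _ => ?_
      ring
    rw [e1]
    exact mul_le_mul_of_nonneg_left hsum hU0
  refine (sum_le_sum hlev).trans (le_of_eq ?_)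
  rw [sum_const, nsmul_eq_mul]
  congr 1
  rw [hU, mul_assoc, ← Real.rpow_add hX0]
  congr 2
  ring

end Crest.Agent.R017.E3W271
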