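import Crest.Agent.R017.E3W1_271
import Crest.Agent.R017.E3W3_271
import Crest.Agent.R017.S8pd_146
import Crest.Agent.R017.E3Er_579
import Crest.Agent.R017.I1n_146

/-!
# Row 17, R8 / P1 (helper271): `E3U` in class N from the T-inputs

* **`e3u_of`** : `TnN`, `TcN`, `EaN`, `EbN`, `EcN`, `EdN` ⟹ `E3U π h (1/64) Rh (ParS A d) (LS0 d)`
-/

set_option autoImplicit false
set_option linter.unusedVariables false

noncomputable section

open Finset
open scoped Classical ComplexConjugate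

namespace Crest.Agent.R017.E3W271

open Crest.Agent.R012 Crest.Agent.R012.Eis Crest.Agent.R012.MC
open Crest.Agent.R012.LS2 (S mem_S bl mem_bl)
open Crest.Agent.R017.FE47 (PU SM cx)
open Crest.Agent.R017.CM106
open Crest.Agent.R017.C70 (JC OKJ JW okJ_JW)
open Crest.Agent.R017.XG702 (Pcs BG)
open Crest.Agent.R017.XT71 (Sys Win mx)
open Crest.Agent.R017.Prov71
open Crest.Agent.R017.B770
open Crest.Agent.R017.HP842 (Pc pc sqc alL)
open Crest.Agent.R017.Leg381 (alF natl)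
open Crest.Agent.R017.E1551 (Adm)
open Crest.Agent.R017.E2440 (TE StE)
open Crest.Agent.R017.LB48 (GrP)
open Crest.Agent.R017.E5B71 Crest.Agent.R017.E5L770
open Crest.Agent.R017.R3571 (RMm)
open Crest.Agent.R017.Mode405 (Slp)
open Crest.Agent.R017.PX764 (n6)
open Crest.Agent.R017.E3M829 (TF Cut Tal)
open Crest.Agent.R017.E3F548 (XE)
open Crest.Agent.R017.E3T829 (hE hE_nonneg RR)
open Crest.Agent.R017.E3Z548
open Crest.Agent.R017.E3Kc548 (LI afT mem_LI card_LI)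
open Crest.Agent.R017.E3Sz579 (Ld Md)
open Crest.Agent.R017.E3Sx579 (RHR)
open Crest.Agent.R017.E3Hf290 (RN2F)
open Crest.Agent.R017.TM708 (PD)
open Crest.Agent.R017.I1146 (LN X3 c3 dom_list Adm_list)
open Crest.Agent.R017.RnP571 (hJ Dh)
open Crest.Agent.R017.ER911 Crest.Agent.R017.SC777 Crest.Agent.R017.ExpC702
open Crest.Agent.R017.XPD571 (RP0)
open Crest.Agent.R017.P1e54 Crest.Agent.R017.P1k54 Crest.Agent.R017.P1l54
open Crest.Agent.R017.P1t54 (ParS LS0 parOK_Sq5)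
open Crest.Agent.R017.P10146

/-- `LVn` is affine in the last argument -/
lemma LVn_add (af : Eis → Eis → Eis → ℂ) (Ds EE : Finset Eis) (c Y K H V V' E1 B G1 RN : ℝ) :
    LVn af Ds EE c Y K H V V' E1 B G1 RN =
      LVn af Ds EE c Y K H V V' E1 B G1 0 + FH K H V * RN := by
  unfold LVn
  ring

lemma exp3 (a b c : ℝ) : Real.exp (a + b + c) = Real.exp a * (Real.exp b * Real.exp c) := by
  rw [Real.exp_add, Real.exp_add, mul_assoc]

/-- the sums with the weights `XE` -/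
lemma XE_sum (J : Finset (Eis × Eis)) (om : Eis × Eis → ℂ) (E0 : ℝ) (T : Eis → Eis → Eis → ℂ)
    (K a b c : ℝ) (hE0 : 0 ≤ E0) : K * ∑ f ∈ S E0, ((a * (nm f : ℝ)⁻¹ + b * (nm f : ℝ) ^ (1 / 2 : ℝ) + c) *
      XE J om T f) = K * (a * TF (-1) J om E0 T) + K * (b * TF (1 / 2) J om E0 T) +
        K * (c * TF 0 J om E0 T) := by
  rw [E3Er579.TF_XE, E3Er579.TF_XE, E3Er579.TF_XE, ← mul_add, ← mul_add]
  congr 1
  rw [mul_sum, mul_sum, mul_sum, ← sum_add_distrib, ← sum_add_distrib]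
  refine sum_congr rfl fun f hf => ?_
  rw [Real.rpow_neg_one, Real.rpow_zero]
  ring

set_option maxHeartbeats 4000000 in
/-- **`E3U` in class N from the T-inputs** -/
theorem e3u_of {Λ : Type*} {π : Λ → DPar} {h : ℝ → ℝ} {c₀ : ℝ} (hpu : PU h c₀)
    (hP : ∀ lam, (π lam).OK) {s₀ : EF} {d : ℝ}
    (R : ExpRules (7 / 8 + d) (ex Dq (fun lam => Rp (π lam) h)) s₀)
    (hcolP : ∀ (i : ℝ) (u : List ℝ) (m a : ℝ), 0 ≤ i → Okl u m a →
      BG Dq (RP0 π h) i u (wt m a) (2 * a + 2 * (7 / 8 + d) * m)) (hd : 0 ≤ d)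
    (hd1 : d ≤ 1 / 8) {Rh : ℝ} (hRh0 : 0 ≤ Rh) (hRh : ∀ u, cx h u ≠ 0 → |u| ≤ Rh) {A : ℝ}
    (hA : 9 / 10 ≤ A) (hA1 : 16 * (1 - A) ≤ d) (hTn : TnN π h (1 / 64) (ParS A d) (LS0 d))
    (hTc : TcN π h (1 / 64) (ParS A d) (LS0 d)) (hEa : EaN π h (1 / 64) (ParS A d) (LS0 d))
    (hEb : EbN π h (1 / 64) (ParS A d) (LS0 d)) (hEc : EcN π h (1 / 64) (ParS A d) (LS0 d))
    (hEd : EdN π h (1 / 64) (ParS A d) (LS0 d)) :
    E3U π h (1 / 64) Rh (ParS A d) (LS0 d) := by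
  intro Rw hRw ε hε
  obtain ⟨ε₁, hε₁, hε₁1, hε₁ε⟩ : ∃ ε₁ : ℝ, 0 < ε₁ ∧ ε₁ ≤ 1 / 160000 ∧ ε₁ ≤ ε / 16 :=
    ⟨min (ε / 16) (1 / 160000), lt_min (by positivity) (by norm_num), min_le_right _ _,
      min_le_left _ _⟩
  obtain ⟨ε₂, hε₂, hε₂1, hε₂ε⟩ : ∃ ε₂ : ℝ, 0 < ε₂ ∧ ε₂ ≤ 1 ∧ ε₂ ≤ ε / 32 :=
    ⟨min (ε / 32) 1, lt_min (by positivity) (by norm_num), min_le_right _ _, min_le_left _ _⟩
  obtain ⟨τ, hτ, hτε, hRR⟩ := rhalf hpu hP R hcolP hd hd1 hε₁ hε₁1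
  have hε4 : 0 < ε / 4 := by positivity
  obtain ⟨δ₁, hδ₁, hTn⟩ := hTn (ε / 4) hε4
  obtain ⟨δ₂, hδ₂, hTc⟩ := hTc (ε / 4) hε4
  obtain ⟨δ₃, hδ₃, hEa⟩ := hEa (ε / 4) hε4
  obtain ⟨δ₄, hδ₄, hEb⟩ := hEb (ε / 4) hε4
  obtain ⟨δ₅, hδ₅, hEc⟩ := hEc (ε / 4) hε4
  obtain ⟨δ₆, hδ₆, hEd⟩ := hEd (ε / 4) hε4
  obtain ⟨δ, hδ, g1, g2, g3, g4, g5, g6, g7⟩ : ∃ δ : ℝ, 0 < δ ∧ δ ≤ δ₁ ∧ δ ≤ δ₂ ∧ δ ≤ δ₃ ∧
      δ ≤ δ₄ ∧ δ ≤ δ₅ ∧ δ ≤ δ₆ ∧ δ ≤ τ / 100 := by
    refine ⟨min (min (min δ₁ δ₂) (min δ₃ δ₄)) (min (min δ₅ δ₆) (τ / 100)),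
      lt_min (lt_min (lt_min hδ₁ hδ₂) (lt_min hδ₃ hδ₄)) (lt_min (lt_min hδ₅ hδ₆) (by positivity)),
      ?_, ?_, ?_, ?_, ?_, ?_, ?_⟩
    · exact (min_le_left _ _).trans ((min_le_left _ _).trans (min_le_left _ _))
    · exact (min_le_left _ _).trans ((min_le_left _ _).trans (min_le_right _ _))
    · exact (min_le_left _ _).trans ((min_le_right _ _).trans (min_le_left _ _))
    · exact (min_le_left _ _).trans ((min_le_right _ _).trans (min_le_right _ _))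
    · exact (min_le_right _ _).trans ((min_le_left _ _).trans (min_le_left _ _))
    · exact (min_le_right _ _).trans ((min_le_left _ _).trans (min_le_right _ _))
    · exact (min_le_right _ _).trans (min_le_right _ _)
  have hτ1 : τ ≤ 1 / 160000 := hτε.trans hε₁1
  refine ⟨δ, hδ, ?_⟩
  rintro ⟨lam, s⟩ N B
  by_cases hs0 : s = 0
  · refine ⟨1, one_pos, 2, by norm_num, ?_⟩
    intro X hX a qs _ _ q _ _ _ _ _
    have : ¬ okC (π lam) s a qs := fun hok => hok.2.1.1 hs0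
    unfold E3C
    rw [if_neg this]
    positivity
  -- the constants
  set B₂ : ℝ := max B 1000 with hB₂
  have hBB : B ≤ B₂ := le_max_left _ _
  have hB3 : 1000 ≤ B₂ := le_max_right _ _
  have hB23 : max B₂ 3 = B₂ := max_eq_left (by linarith)
  obtain ⟨M, a₀, A₀, ha₀, hRR⟩ := hRR lam s hs0 N B₂
  set A₁ : ℕ := max A₀ 2 with hA₁
  have hA₁1 : 1 < A₁ := lt_of_lt_of_le (by norm_num) (le_max_right _ _)
  have hA₀1 : A₀ ≤ A₁ := le_max_left _ _
  have hR00 : 0 ≤ ((N + 3 : ℕ) : ℝ) * Rh := by positivity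
  obtain ⟨c, c', C, c2, hc, hc', hC, hc2, HF⟩ := front (wgt_wM (Rw lam)) (wM_nonneg _) hR00 a₀ A₁
    hA₁1 hε₂ hε₂1
  obtain ⟨Xa, hXa, hRa⟩ := hRR c hc
  obtain ⟨Xb, hXb, hRb⟩ := hRR c' hc'
  obtain ⟨δ₁', hδ₁', X₁, hX₁, hTn⟩ := hTn (lam, s) N B c hc
  obtain ⟨δ₂', hδ₂', X₂, hX₂, hTc⟩ := hTc (lam, s) N B c' hc'
  obtain ⟨δ₃', hδ₃', X₃, hX₃, hEa⟩ := hEa (lam, s) N B 1 le_rfl
  obtain ⟨δ₄', hδ₄', X₄, hX₄, hEb⟩ := hEb (lam, s) N B 1 le_rfl
  obtain ⟨δ₅', hδ₅', X₅, hX₅, hEc⟩ := hEc (lam, s) N B 1 le_rfl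
  obtain ⟨δ₆', hδ₆', X₆, hX₆, hEd⟩ := hEd (lam, s) N B 1 le_rfl
  have hM1 : (0 : ℝ) < M + 1 := by positivity
  obtain ⟨δ', hδ', f1, f2, f3, f4, f5, f6, f7⟩ : ∃ δ' : ℝ, 0 < δ' ∧ δ' ≤ δ₁' ∧ δ' ≤ δ₂' ∧
      δ' ≤ δ₃' ∧ δ' ≤ δ₄' ∧ δ' ≤ δ₅' ∧ δ' ≤ δ₆' ∧ δ' ≤ ε / (16 * (M + 1)) := by
    refine ⟨min (min (min δ₁' δ₂') (min δ₃' δ₄')) (min (min δ₅' δ₆') (ε / (16 * (M + 1)))),
      lt_min (lt_min (lt_min hδ₁' hδ₂') (lt_min hδ₃' hδ₄'))
        (lt_min (lt_min hδ₅' hδ₆') (by positivity)), ?_, ?_, ?_, ?_, ?_, ?_, ?_⟩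
    · exact (min_le_left _ _).trans ((min_le_left _ _).trans (min_le_left _ _))
    · exact (min_le_left _ _).trans ((min_le_left _ _).trans (min_le_right _ _))
    · exact (min_le_left _ _).trans ((min_le_right _ _).trans (min_le_left _ _))
    · exact (min_le_left _ _).trans ((min_le_right _ _).trans (min_le_right _ _))
    · exact (min_le_right _ _).trans ((min_le_left _ _).trans (min_le_left _ _))
    · exact (min_le_right _ _).trans ((min_le_left _ _).trans (min_le_right _ _))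
    · exact (min_le_right _ _).trans (min_le_right _ _)
  set Ch : ℝ := 200 * (1 + 1 / ε₂) with hCh
  set Cr : ℝ := 2 + 1 / ε₂ with hCr
  have hCh1 : 1 ≤ Ch := by
    have : 0 ≤ 1 / ε₂ := by positivity
    linarith
  have hCr0 : 0 ≤ Cr := by positivity
  set CC : ℝ := C * Ch * (8 + 2 * Cr) with hCC
  have hCC1 : 1 ≤ CC := by
    have h1 : 1 ≤ C * Ch := one_le_mul_of_one_le_of_one_le hC hCh1
    exact one_le_mul_of_one_le_of_one_le h1 (by linarith)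
  have hlCC : 0 ≤ Real.log CC := Real.log_nonneg hCC1
  have hlc : 0 ≤ Real.log c := Real.log_nonneg hc
  have hlc' : 0 ≤ Real.log c' := Real.log_nonneg hc'
  have hlc2 : 0 ≤ Real.log c2 := Real.log_nonneg hc2
  have hlog2 : 0 < Real.log 2 := Real.log_pos (by norm_num)
  have hlog21 : Real.log 2 < 1 := by linarith [Real.log_two_lt_d9]
  set Q : ℝ := 100 * (1 + Real.log c + Real.log c' + Real.log c2) + 3 / ε₁ +
    4 * Real.log CC / ε with hQ
  have hQ1 : 0 ≤ 3 / ε₁ := by positivity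
  have hQ2 : 0 ≤ 4 * Real.log CC / ε := by positivity
  refine ⟨δ', hδ', max (max (max Xa Xb) (max (max X₁ X₂) (max X₃ X₄))) (max (max X₅ X₆)
    (Real.exp Q)), ?_, ?_⟩
  · exact lt_of_lt_of_le hXa ((le_max_left _ _).trans ((le_max_left _ _).trans (le_max_left _ _)))
  intro X hX a qs hlen hgl q hq hw hm hg hl
  have hXu := (le_max_left _ _).trans hX
  have hXv := (le_max_right _ _).trans hX
  have hXa' : Xa ≤ X := ((le_max_left _ _).trans (le_max_left _ _)).trans hXu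
  have hXb' : Xb ≤ X := ((le_max_right _ _).trans (le_max_left _ _)).trans hXu
  have hX1' : X₁ ≤ X := ((le_max_left _ _).trans ((le_max_left _ _).trans
    (le_max_right _ _))).trans hXu
  have hX2' : X₂ ≤ X := ((le_max_right _ _).trans ((le_max_left _ _).trans
    (le_max_right _ _))).trans hXu
  have hX3' : X₃ ≤ X := ((le_max_left _ _).trans ((le_max_right _ _).trans
    (le_max_right _ _))).trans hXu
  have hX4' : X₄ ≤ X := ((le_max_right _ _).trans ((le_max_right _ _).trans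
    (le_max_right _ _))).trans hXu
  have hX5' : X₅ ≤ X := ((le_max_left _ _).trans (le_max_left _ _)).trans hXv
  have hX6' : X₆ ≤ X := ((le_max_right _ _).trans (le_max_left _ _)).trans hXv
  have hXQ : Real.exp Q ≤ X := (le_max_right _ _).trans hXv
  have hX1 : 1 < X := hXa.trans_le hXa'
  have hX0 : 0 < X := by linarith
  set L := Real.log X with hL
  have hQL : Q ≤ L := by
    have := Real.log_le_log (Real.exp_pos Q) hXQ
    rwa [Real.log_exp] at this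
  have hL100 : 100 * (1 + Real.log c + Real.log c' + Real.log c2) ≤ L := by linarith
  have hL0 : 0 < L := by linarith
  have hLε₁ : 3 ≤ ε₁ * L := by
    have h1 : 3 / ε₁ ≤ L := by linarith
    rw [div_le_iff₀ hε₁] at h1
    linarith
  have hXexp : ∀ z : ℝ, X ^ z = Real.exp (z * L) := fun z => by
    rw [Real.rpow_def_of_pos hX0, ← hL, mul_comm]
  have hLC : CC ≤ X ^ (ε / 4) := by
    have h1 : 4 * Real.log CC / ε ≤ L := by linarith
    rw [div_le_iff₀ hε] at h1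
    rw [hXexp, ← Real.exp_log (show 0 < CC by linarith)]
    exact Real.exp_le_exp.2 (by linarith)
  -- not admissible
  by_cases hok : okC (π lam) s a qs
  swap
  · unfold E3C
    rw [if_neg hok]
    positivity
  -- monotonicity of the premises
  have hw' : ∀ {δ₀ δ₀' : ℝ}, δ ≤ δ₀ → δ' ≤ δ₀' → Win S8 q.1 δ₀ N B δ₀' X a :=
    fun h1 h2 => hw.mono hX1.le h1 le_rfl le_rfl h2
  have hgl' : ∀ {δ₀ : ℝ}, δ ≤ δ₀ → ∀ p' ∈ qs, Dq.lump p' ∨ Dq.nl X p' ≤ δ₀ :=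
    fun h1 p' hp' => (hgl p' hp').imp id fun h2 => h2.trans h1
  have hm' : ∀ {δ₀ : ℝ}, δ ≤ δ₀ → ∀ t, |Dq.mass X qs t - q.2 t| ≤ δ₀ :=
    fun h1 t => (hm t).trans h1
  have hg' : ∀ {δ₀' : ℝ}, δ' ≤ δ₀' → Dq.Good X δ₀' B qs :=
    fun h1 p' hp' => ⟨(hg p' hp').1.trans (Real.rpow_le_rpow_of_exponent_le hX1.le h1),
      (hg p' hp').2⟩
  have hgB : Dq.Good X δ' B₂ qs :=
    fun p' hp' => ⟨(hg p' hp').1,
      (hg p' hp').2.1.trans (Real.rpow_le_rpow_of_exponent_le hX1.le hBB), (hg p' hp').2.2⟩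
  have hwB : Win S8 q.1 δ N B₂ δ' X a := hw.mono hX1.le le_rfl le_rfl hBB le_rfl
  -- the frame
  obtain ⟨F, hPD⟩ := s8_frame (P := π lam) (s := s) (τ := τ) hX1 hδ.le (by linarith) hδ'.le hlen
    hgl hq hwB hm hgB hl hok
  rw [hB23] at hPD
  set p : Fin 3 ⊕ Fin 5 → ℝ := fun i => q.1 (.inl i) with hp
  have hpP : p ∈ ParS A d := hq.1
  have hD := dh_of hd hd1 hA1 hpP
  have hPp := parOK_Sq5 hA hpP
  have hDN1 : cN p ≤ 102 / 125 * cκ p := hD.N1
  have hDx : cx' p ≤ 1 / 36 * cκ p := by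
    rcases hD.adm with ⟨a1, -⟩ | ⟨-, a2, -⟩
    · have := hD.d1; have := hD.d0; have := hD.k0; linarith
    · have := hD.d0; linarith
  have hκ0 := hPp.κ0
  have hκ1 := hPp.κ1
  have hx0 := hPp.x0
  have hN0 := hPp.N0
  set pq : ℝ := ∑ i : Fin 3, q.1 (.inr i) + q.2 .am with hpq
  obtain ⟨k1, k2⟩ := abs_le.1 F.hκ
  obtain ⟨z1, z2⟩ := abs_le.1 F.hx
  obtain ⟨A1, A2⟩ := abs_le.1 F.hN
  obtain ⟨n1, n2⟩ := abs_le.1 F.hn
  have hlo := F.lo
  have hhi := F.hi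
  have htop := F.top
  rw [← hL] at k1 k2 z1 z2 A1 A2 n1 n2 hlo hhi htop
  set l := a.1.l with hl'
  set pl := LN (cl a qs) with hpl
  have hδτ : δ ≤ ε₁ / 100 := g7.trans (by linarith)
  have hδL : 0 ≤ δ * L := by positivity
  have hδL1 : δ * L ≤ ε₁ / 100 * L := mul_le_mul_of_nonneg_right hδτ hL0.le
  have hδL2 : δ * L ≤ τ / 100 * L := mul_le_mul_of_nonneg_right g7 hL0.le
  have hε₁L : ε₁ * L ≤ 1 / 160000 * L := mul_le_mul_of_nonneg_right hε₁1 hL0.le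
  have hκL : 8 / 9 * L ≤ cκ p * L := mul_le_mul_of_nonneg_right hκ0 hL0.le
  have hκL1 : cκ p * L ≤ 1 * L := mul_le_mul_of_nonneg_right hκ1 hL0.le
  have hxL0 : 0 ≤ cx' p * L := by positivity
  have hxL : cx' p * L ≤ 1 / 36 * (cκ p * L) := by
    have := mul_le_mul_of_nonneg_right hDx hL0.le
    linarith
  have hNL : cN p * L ≤ 102 / 125 * (cκ p * L) := by
    have := mul_le_mul_of_nonneg_right hDN1 hL0.le
    linarith
  have hNL0 : 3 / 5 * (cκ p * L) ≤ cN p * L := by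
    have := mul_le_mul_of_nonneg_right hN0 hL0.le
    linarith
  have hl0 : 0 ≤ l := by linarith
  have hpl0 : 2 / 5 * (cκ p * L) ≤ pl := by linarith
  have hpl1 : pl ≤ 17 / 20 * (cκ p * L) := by linarith
  -- the levels
  set n := nO a.1 with hn
  have htop5 : max 0 (top5 p) ≤ min (2 * cN p - cκ p) (3 / 4 * cN p) + 11 / 5 * cx' p := by
    refine max_le ?_ le_rfl
    have : 0 ≤ min (2 * cN p - cκ p) (3 / 4 * cN p) := le_min (by linarith) (by linarith)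
    linarith
  have htop' : Real.log 2 * n ≤ min (2 * cN p - cκ p) (3 / 4 * cN p) * L +
      11 / 5 * (cx' p * L) + 20 * (δ * L) + 1 := by
    have h1 := mul_le_mul_of_nonneg_right htop5 hL0.le
    have e : (min (2 * cN p - cκ p) (3 / 4 * cN p) + 11 / 5 * cx' p) * L =
      min (2 * cN p - cκ p) (3 / 4 * cN p) * L + 11 / 5 * (cx' p * L) := by ring
    rw [e] at h1
    linarith
  have hmin : min (2 * cN p - cκ p) (3 / 4 * cN p) * L ≤ 3 / 4 * (cN p * L) := by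
    have := mul_le_mul_of_nonneg_right (min_le_right (2 * cN p - cκ p) (3 / 4 * cN p)) hL0.le
    linarith
  have hlnn : Real.log 2 * n ≤ 3 / 4 * L := by linarith
  set Y₁ : ℝ := (2 : ℝ) ^ n with hY₁
  have hY10 : 0 < Y₁ := by positivity
  have hY11 : 1 ≤ Y₁ := one_le_pow₀ (by norm_num)
  have hlY : Real.log Y₁ = Real.log 2 * n := by
    rw [hY₁, Real.log_pow, mul_comm]
  have hY1e : Y₁ = Real.exp (Real.log 2 * n) := by rw [← hlY, Real.exp_log hY10]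
  have hLI : ∀ i ∈ LI (1 / 10) Y₁, (i : ℝ) ≤ 1 + Real.log 2 * n := by
    intro i hi
    unfold E3Kc548.LI at hi
    have h1 := (mem_filter.1 hi).2.2
    have h2 : Real.exp i ≤ Real.exp (1 + Real.log 2 * n) := by
      rw [Real.exp_add, ← hY1e]; exact h1
    exact Real.exp_le_exp.1 h2
  have hLI3 : ∀ i ∈ LI (1 / 10) Y₁, (i : ℝ) ≤ (min (2 * cN p - cκ p) (3 / 4 * cN p) +
      3 * cx' p + ε₁) * L := by
    intro i hi
    have h1 := hLI i hi
    have e : (min (2 * cN p - cκ p) (3 / 4 * cN p) + 3 * cx' p + ε₁) * L =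
      min (2 * cN p - cκ p) (3 / 4 * cN p) * L + 3 * (cx' p * L) + ε₁ * L := by ring
    rw [e]
    linarith
  have hLI2 : ∀ i ∈ LI (1 / 10) Y₁, 2 * (i : ℝ) ≤ 7 / 5 * (cκ p * L) := by
    intro i hi
    have h1 := hLI i hi
    linarith
  -- the sizes
  set Z : ℝ := X ^ (2 : ℝ) with hZ
  have hZe : Z = Real.exp (2 * L) := hXexp 2
  have hZ1 : 1 ≤ Z := by rw [hZe]; exact Real.one_le_exp (by positivity)
  have hZ0 : 0 < Z := by linarith
  have hZ5 : Z ^ 5 = Real.exp (10 * L) := by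
    rw [hZe, ← Real.exp_nat_mul]; congr 1; push_cast; ring
  have hZ300 : Z ^ 300 = Real.exp (600 * L) := by
    rw [hZe, ← Real.exp_nat_mul]; congr 1; push_cast; ring
  have hXB : X ^ B₂ = Real.exp (B₂ * L) := hXexp B₂
  have hB₂L : 1000 * L ≤ B₂ * L := mul_le_mul_of_nonneg_right hB3 hL0.le
  set E0 : ℝ := Real.exp (1 / 64 * l) with hE0
  have hlE0 : Real.log E0 = 1 / 64 * l := by rw [hE0, Real.log_exp]
  have hE00 : 0 < E0 := Real.exp_pos _
  have hE01 : 1 ≤ E0 := by rw [hE0]; exact Real.one_le_exp (by positivity)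
  have hE0Z : E0 ≤ Z := by rw [hZe, hE0]; exact Real.exp_le_exp.2 (by linarith)
  set K : ℝ := Real.exp l with hK
  -- the sequence
  set α := alC π h (lam, s) a qs with hα
  have hdom := dom_list (hP lam) h hok.2.1 1 (cl a qs)
  have hlen3 : (cl a qs).length ≤ N + 3 := by
    unfold cl
    rw [List.length_append, List.length_ofFn]
    omega
  have hadm := Adm_list (h := h) (N := N + 3) hRh0 hRh (π lam) 1 (ps := cl a qs) hlen3
    (Y := Real.exp (pl + ((N + 3 : ℕ) : ℝ) * Rh)) le_rfl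
  have hbe : ∀ m, α m ≠ 0 → sqc 1 (alF 1 1 (π lam) h (natl (cl a qs))) m ≠ 0 := by
    intro m hm h0
    have := hdom.le m
    rw [h0, norm_zero] at this
    exact hm (norm_le_zero_iff.1 this)
  have hYs : (0 : ℝ) ≤ Real.exp (pl + ((N + 3 : ℕ) : ℝ) * Rh) := (Real.exp_pos _).le
  have hsup : ∀ m, α m ≠ 0 → m ∈ S (Real.exp (pl + ((N + 3 : ℕ) : ℝ) * Rh)) :=
    fun m hm => hadm.sup m (hbe m hm)
  have hprim : ∀ m, α m ≠ 0 → IsPrim m := fun m hm => ((mem_S hYs).1 (hsup m hm)).2.1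
  have hsq : ∀ m, α m ≠ 0 → Squarefree m := fun m hm => ((mem_S hYs).1 (hsup m hm)).2.2
  have hFS : FS α := by
    refine ⟨(Finset.finite_toSet (S (Real.exp (pl + ((N + 3 : ℕ) : ℝ) * Rh)))).subset
      fun m hm => ?_, hprim⟩
    exact Finset.mem_coe.2 (hsup m hm)
  have hwin : ∀ m, α m ≠ 0 → |Real.log (nm m) - Real.log (Real.exp pl)| ≤
      ((N + 3 : ℕ) : ℝ) * Rh := by
    intro m hm
    refine (hadm.win m (hbe m hm)).trans (le_of_eq ?_)
    ring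
  -- the sets
  set J := JW (Real.sqrt Y₁) (1 / 10) Y₁ with hJ
  have hJok : OKJ J := okJ_JW _ _ _
  have hYX : Y₁ ≤ Z := by
    rw [hY1e, hZe]; exact Real.exp_le_exp.2 (by linarith)
  have hsY : Real.sqrt Y₁ ≤ Y₁ := Real.sqrt_le_self_iff.2 (Or.inr hY11)
  have hZB : Z ≤ X ^ B₂ := by
    rw [hXB, hZe]; exact Real.exp_le_exp.2 (by linarith)
  have hXB0 : (0 : ℝ) ≤ X ^ B₂ := by positivity
  have hDsS : J.image Prod.fst ⊆ S (X ^ B₂) := by
    intro d' hd'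
    obtain ⟨x, hx, rfl⟩ := mem_image.1 hd'
    have h1 := (mem_filter.1 hx).1
    rw [mem_product, mem_primBall] at h1
    rw [mem_S hXB0]
    refine ⟨?_, hJok.prim x hx, hJok.sqf x hx⟩
    exact (((Nat.cast_le.2 h1.1.1).trans (Nat.floor_le (Real.sqrt_nonneg _))).trans hsY).trans
      (hYX.trans hZB)
  have hEES : S E0 ⊆ S (X ^ B₂) := by
    intro e he
    obtain ⟨h1, h2, h3⟩ := (mem_S hE00.le).1 he
    exact (mem_S hXB0).2 ⟨h1.trans (hE0Z.trans hZB), h2, h3⟩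
  have hEEe : ∀ e ∈ S E0, Real.log (nm e) ≤ (cκ p / 64 + ε₁) * L := by
    intro e he
    obtain ⟨h1, h2, h3⟩ := (mem_S hE00.le).1 he
    have h4 : (0 : ℝ) < nm e := by exact_mod_cast nm_pos.2 h2.ne_zero
    have h5 := Real.log_le_log h4 h1
    rw [hlE0] at h5
    have e1 : (cκ p / 64 + ε₁) * L = cκ p * L / 64 + ε₁ * L := by ring
    rw [e1]
    linarith
  -- the R-half
  set E5 : ℝ := max 0 (5 / 4 * a3 a.1 - l) with hE5
  have hE50 : 0 ≤ E5 := le_max_left _ _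
  have hcl : [a.2 0, a.2 1, a.2 2] ++ qs = cl a qs := (cl_eq a qs).symm
  have hE5le : max 0 (5 / 4 * (cu p 2 + cu p 3 + cu p 4) - cκ p) * L - 4 * (τ * L) ≤ E5 := by
    have e1 : cu p 2 + cu p 3 + cu p 4 = cN p := rfl
    rw [e1, max_mul_of_nonneg _ _ hL0.le, zero_mul, sub_le_iff_le_add]
    have hτL : 0 ≤ τ * L := by positivity
    refine max_le (by linarith) ?_
    have h1 : 5 / 4 * a3 a.1 - l ≤ E5 := le_max_right _ _
    linarith
  have hlo' : (cκ p / 2 - 2 * cx' p - ε₁) * L ≤ LN ([a.2 0, a.2 1, a.2 2] ++ qs) := by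
    rw [hcl]
    have e1 : (cκ p / 2 - 2 * cx' p - ε₁) * L = (cκ p / 2 - 2 * cx' p) * L - ε₁ * L := by ring
    rw [e1]
    linarith
  have hzz : a.1.z ≤ (cx' p + τ) * L := by
    have : (cx' p + τ) * L = cx' p * L + τ * L := by ring
    rw [this]
    have : 0 ≤ τ * L := by positivity
    linarith
  obtain ⟨W0, hW0, hRH, hRS⟩ := hRa X hXa' (bP p) a.2 qs l (X ^ δ') hPD hD
    (by show 1 / 2 ≤ cκ p; linarith) (by show cκ p ≤ 2; linarith) hlo' a.1.z E5 (LI (1 / 10) Y₁)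
    (J.image Prod.fst) (S E0) hE50 hzz hE5le hLI3 hDsS hEES hEEe
  obtain ⟨W0', hW0', hRH', hRS'⟩ := hRb X hXb' (bP p) a.2 qs l (X ^ δ') hPD hD
    (by show 1 / 2 ≤ cκ p; linarith) (by show cκ p ≤ 2; linarith) hlo' a.1.z E5 (LI (1 / 10) Y₁)
    (J.image Prod.fst) (S E0) hE50 hzz hE5le hLI3 hDsS hEES hEEe
  rw [hcl] at hRH hRS hRH' hRS'
  -- the front
  have hKX : ∀ cc : ℝ, 1 ≤ cc → Real.log cc ≤ 1 / 100 * L → ∀ i ∈ LI (1 / 10) Y₁, ∀ d' : Eis,
      cc * (Real.exp (hN cc l pl a.1.z E5 i d') * Real.exp i ^ 2) ≤ K * Real.exp pl := by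
    intro cc hcc hlcc i hi d'
    have h1 := hLI2 i hi
    exact hN_KX hcc hE50 (by linarith) (by linarith) (by linarith) d'
  have hc1 : Real.log c ≤ 1 / 100 * L := by linarith
  have hc1' : Real.log c' ≤ 1 / 100 * L := by linarith
  have hcZ : ∀ cc : ℝ, 1 ≤ cc → Real.log cc ≤ 1 / 100 * L → ∀ i ∈ LI (1 / 10) Y₁,
      cc * Real.exp i ≤ Z ^ 5 := by
    intro cc hcc hlcc i hi
    have h1 := hLI2 i hi
    have h2 : cc * Real.exp i = Real.exp (Real.log cc + i) := by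
      rw [Real.exp_add, Real.exp_log (by linarith)]
    rw [h2, hZ5]
    exact Real.exp_le_exp.2 (by linarith)
  have hcB : ∀ cc : ℝ, 1 ≤ cc → Real.log cc ≤ 1 / 100 * L → cc * Z ^ 300 ≤ X ^ B₂ := by
    intro cc hcc hlcc
    rw [hZ300, hXB]
    have h2 : cc * Real.exp (600 * L) = Real.exp (Real.log cc + 600 * L) := by
      rw [Real.exp_add, Real.exp_log (by linarith)]
    rw [h2]
    exact Real.exp_le_exp.2 (by linarith)
  have key := HF Z hZ1 n α (Yc Rh a qs) E0 (Real.exp (l / 20)) (Real.exp (l / 30)) K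
    (Real.exp pl) (HD c a qs) (HD c' a qs) W0 W0' hFS hsq hwin
    (Real.one_le_exp (by positivity)) (Real.exp_le_exp.2 (by linarith))
    (by
      have h2 : (2 : ℝ) * Real.exp (l / 20) = Real.exp (Real.log 2 + l / 20) := by
        rw [Real.exp_add, Real.exp_log (by norm_num)]
      rw [h2, hZe]
      exact Real.exp_le_exp.2 (by linarith))
    hYX (hsY.trans hYX) (Real.exp_pos _)
    (by
      have h2 : c2 * K = Real.exp (Real.log c2 + l) := by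
        rw [Real.exp_add, Real.exp_log (by linarith)]
      rw [h2, hZe]
      exact Real.exp_le_exp.2 (by linarith))
    (by rw [hK, hZe]; exact Real.exp_le_exp.2 (by linarith))
    hE00.le hE0Z
    (by
      have hYc : Yc Rh a qs = Real.exp (pl + ((cl a qs).length : ℝ) * Rh + 1) := rfl
      rw [hYc, hE0]
      refine Real.exp_le_exp.2 ?_
      have : 0 ≤ ((cl a qs).length : ℝ) * Rh := by positivity
      linarith)
    (Real.exp_pos _) (by rw [hZ5]; exact Real.exp_le_exp.2 (by linarith))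
    (hcZ c hc hc1) (hcZ c' hc' hc1') (fun _ _ _ => Real.exp_pos _) (fun _ _ _ => Real.exp_pos _)
    (fun i hi d' _ e _ => hKX c hc hc1 i hi d') (fun i hi d' _ e _ => hKX c' hc' hc1' i hi d')
    hW0 hW0'
    (fun i hi ρ hρ γ φ hγ hφ hφm P hPp => by
      obtain ⟨h1, h2⟩ := mem_product.1 hρ
      have hd'p : IsPrim ρ.1 := ((mem_S hXB0).1 (hDsS h1)).2.1
      rw [E3N146.afT_eq hprim hd'p h2]
      exact hRH i hi A₁ hA₀1 ρ.1 h1 ρ.2 h2 γ φ hγ hφ (hφm.trans (hcB c hc hc1)) P hPp)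
    (fun i hi d' hd' f hf γ φ hγ hφ hφm P hPp =>
      hRH' i hi A₁ hA₀1 d' hd' f hf γ φ hγ hφ (hφm.trans (hcB c' hc' hc1')) P hPp)
  -- the numbers
  have hqD : q ∈ Dom8 (ParS A d) := hq
  set U : ℝ := X ^ (E8 (LS0 d) q + ε / 4) with hU
  have hU0 : 0 < U := by positivity
  have t1 := hTn X hX1' a qs hlen (hgl' g1) q hqD (hw' g1 f1) (hm' g1) (hg' f1) hl hok (Z ^ 5)
  have t2 := hTc X hX2' a qs hlen (hgl' g2) q hqD (hw' g2 f2) (hm' g2) (hg' f2) hl hok (Z ^ 5)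
  have t3 := hEa X hX3' a qs hlen (hgl' g3) q hqD (hw' g3 f3) (hm' g3) (hg' f3) hl hok 0
  have t4 := hEb X hX4' a qs hlen (hgl' g4) q hqD (hw' g4 f4) (hm' g4) (hg' f4) hl hok 0
  have t5 := hEc X hX5' a qs hlen (hgl' g5) q hqD (hw' g5 f5) (hm' g5) (hg' f5) hl hok 0
  have t6 := hEd X hX6' a qs hlen (hgl' g6) q hqD (hw' g6 f6) (hm' g6) (hg' f6) hl hok 0
  beta_reduce at t1 t2 t3 t4 t5 t6
  change _ ≤ U at t1 t2 t3 t4 t5 t6
  set V : ℝ := X ^ (E8 (LS0 d) q + ε / 2) with hV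
  have hV0 : 0 < V := by positivity
  have hUV : U ≤ V := Real.rpow_le_rpow_of_exponent_le hX1.le (by linarith)
  -- the R-part
  have hE8 : E8 (LS0 d) q = cκ p + pq + LS0 d p := by
    unfold E8
    rw [hpq]
    ring
  have hcard : ((LI (1 / 10) Y₁).card : ℝ) ≤ Cr * Z ^ ε₂ := card_LI _ hZ1 hY10.le hYX hε₂
  have hZε : Z ^ ε₂ = Real.exp (2 * ε₂ * L) := by
    rw [hZe, ← Real.exp_mul]; congr 1; ring
  have hZε1 : 1 ≤ Z ^ ε₂ := Real.one_le_rpow hZ1 hε₂.le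
  have h2ε₂ : 2 * ε₂ * L ≤ ε / 16 * L := mul_le_mul_of_nonneg_right (by linarith) hL0.le
  have hHM : (X ^ δ') ^ M ≤ Real.exp (ε / 16 * L) := by
    rw [hXexp, ← Real.exp_nat_mul]
    refine Real.exp_le_exp.2 ?_
    have h1 : δ' * (M + 1) ≤ ε / 16 := by
      have := mul_le_mul_of_nonneg_right f7 hM1.le
      refine this.trans (le_of_eq ?_)
      field_simp
    have h2 : (M : ℝ) * δ' ≤ ε / 16 := by
      have h3 : δ' * (M + 1) = (M : ℝ) * δ' + δ' := by ring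
      linarith only [h3, h1, hδ']
    calc (M : ℝ) * (δ' * L) = (M : ℝ) * δ' * L := by ring
      _ ≤ _ := mul_le_mul_of_nonneg_right h2 hL0.le
  have hRp : ((LI (1 / 10) Y₁).card : ℝ) * ((X ^ δ') ^ M * X ^ (cκ p + pl / L +
      P1Q904.LQ (cu p 2 + cu p 3 + cu p 4) (cκ p) (d * cκ p) + 2 * ε₁)) ≤ Cr * V := by
    have e1 : P1Q904.LQ (cu p 2 + cu p 3 + cu p 4) (cκ p) (d * cκ p) = LS0 d p := by
      unfold P1Q904.LQ P1t54.LS0
      have : cu p 2 + cu p 3 + cu p 4 = cN p := rfl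
      rw [this]
      ring
    have e2 : X ^ (cκ p + pl / L + LS0 d p + 2 * ε₁) =
        Real.exp (cκ p * L + pl + LS0 d p * L + 2 * ε₁ * L) := by
      rw [hXexp]
      congr 1
      have h9 := div_mul_cancel₀ pl hL0.ne'
      linear_combination h9
    rw [e1, e2]
    have hεL0 : 0 < ε * L := by positivity
    have h2ε₁ : 2 * ε₁ * L ≤ ε / 8 * L := mul_le_mul_of_nonneg_right (by linarith) hL0.le
    have hδε : 4 * (δ * L) ≤ ε / 100 * L := by
      have h1 : 4 * δ ≤ ε / 100 := by linarith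
      have := mul_le_mul_of_nonneg_right h1 hL0.le
      linarith
    calc ((LI (1 / 10) Y₁).card : ℝ) * ((X ^ δ') ^ M *
          Real.exp (cκ p * L + pl + LS0 d p * L + 2 * ε₁ * L)) ≤
        (Cr * Real.exp (2 * ε₂ * L)) * (Real.exp (ε / 16 * L) *
          Real.exp (cκ p * L + pl + LS0 d p * L + 2 * ε₁ * L)) := by
          rw [← hZε]
          gcongr
      _ = Cr * Real.exp (2 * ε₂ * L + ε / 16 * L +
          (cκ p * L + pl + LS0 d p * L + 2 * ε₁ * L)) := by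
          rw [exp3 (2 * ε₂ * L) (ε / 16 * L)]; ring
      _ ≤ Cr * V := by
          refine mul_le_mul_of_nonneg_left ?_ hCr0
          rw [hV, hXexp, hE8]
          refine Real.exp_le_exp.2 ?_
          have e3 : (cκ p + pq + LS0 d p + ε / 2) * L = cκ p * L + pq * L + LS0 d p * L +
            ε / 2 * L := by ring
          rw [e3]
          linarith
  have hRSV := hRS.trans hRp
  have hRSV' := hRS'.trans hRp
  -- the four sums
  have G1 : ∑ i ∈ LI (1 / 10) Y₁, ∑ d' ∈ J.image Prod.fst, ∑ e ∈ S E0,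
      LVn (afT α E0) {d'} {e} c (Z ^ 5) K (HD c a qs i d' e) (Real.exp i) (Real.exp 1 * Y₁)
        (Real.exp (l / 30)) 2 (Real.sqrt (c * Real.exp i))
        (RN2F c K (Real.exp i) (Real.exp pl) (HD c a qs i) (W0 i) d' e) ≤ V + Cr * V := by
    have e1 : ∑ i ∈ LI (1 / 10) Y₁, ∑ d' ∈ J.image Prod.fst, ∑ e ∈ S E0,
      LVn (afT α E0) {d'} {e} c (Z ^ 5) K (HD c a qs i d' e) (Real.exp i) (Real.exp 1 * Y₁)
        (Real.exp (l / 30)) 2 (Real.sqrt (c * Real.exp i))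
        (RN2F c K (Real.exp i) (Real.exp pl) (HD c a qs i) (W0 i) d' e) =
      ∑ i ∈ LI (1 / 10) Y₁, ∑ d' ∈ J.image Prod.fst, ∑ e ∈ S E0,
      LVn (afT α E0) {d'} {e} c (Z ^ 5) K (HD c a qs i d' e) (Real.exp i) (Real.exp 1 * Y₁)
        (Real.exp (l / 30)) 2 (Real.sqrt (c * Real.exp i)) 0 +
      ∑ i ∈ LI (1 / 10) Y₁, ∑ d' ∈ J.image Prod.fst, ∑ e ∈ S E0,
        FH K (HD c a qs i d' e) (Real.exp i) *
        RN2F c K (Real.exp i) (Real.exp pl) (HD c a qs i) (W0 i) d' e := by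
      rw [← sum_add_distrib]
      refine sum_congr rfl fun i _ => ?_
      rw [← sum_add_distrib]
      refine sum_congr rfl fun d' _ => ?_
      rw [← sum_add_distrib]
      refine sum_congr rfl fun e _ => LVn_add _ _ _ _ _ _ _ _ _ _ _ _ _
    rw [e1]
    exact add_le_add (t1.trans hUV) hRSV
  have hRNn : ∀ i d' f, 0 ≤ FH K (HD c' a qs i d' f) (Real.exp i) *
      RN2F c' K (Real.exp i) (Real.exp pl) (HD c' a qs i) (W0' i) d' f := by
    intro i d' f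
    have hH : 0 < HD c' a qs i d' f := Real.exp_pos _
    refine mul_nonneg (FH_nonneg (Real.exp_pos _).le hH.le (Real.exp_pos _).le) ?_
    refine E3Hf290.RN2F_nonneg (E3Sz579.Ld_nonneg (Real.exp_pos _) hH _)
      (E3Sz579.Md_nonneg (by linarith) (Real.exp_pos _) (Real.exp_pos _) hH (Real.exp_pos _) _)
      (by positivity) ((hW0' i d' f).nonneg _ (by positivity))
  have G2 : ∑ f ∈ S E0, ∑ i ∈ LI (1 / 10) Y₁, ∑ d' ∈ J.image Prod.fst,
      (nm f : ℝ)⁻¹ * LVn (fun d _ n => α (d * n)) {d'} {f} c' (Z ^ 5) K (HD c' a qs i d' f)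
        (Real.exp i) (Real.exp i) (Real.exp (l / 20)) 1 1
        (RN2F c' K (Real.exp i) (Real.exp pl) (HD c' a qs i) (W0' i) d' f) ≤ V + Cr * V := by
    have e1 : ∑ f ∈ S E0, ∑ i ∈ LI (1 / 10) Y₁, ∑ d' ∈ J.image Prod.fst,
      (nm f : ℝ)⁻¹ * LVn (fun d _ n => α (d * n)) {d'} {f} c' (Z ^ 5) K (HD c' a qs i d' f)
        (Real.exp i) (Real.exp i) (Real.exp (l / 20)) 1 1
        (RN2F c' K (Real.exp i) (Real.exp pl) (HD c' a qs i) (W0' i) d' f) ≤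
      ∑ f ∈ S E0, ∑ i ∈ LI (1 / 10) Y₁, ∑ d' ∈ J.image Prod.fst,
      (nm f : ℝ)⁻¹ * LVn (fun d _ n => α (d * n)) {d'} {f} c' (Z ^ 5) K (HD c' a qs i d' f)
        (Real.exp i) (Real.exp i) (Real.exp (l / 20)) 1 1 0 +
      ∑ f ∈ S E0, ∑ i ∈ LI (1 / 10) Y₁, ∑ d' ∈ J.image Prod.fst,
        FH K (HD c' a qs i d' f) (Real.exp i) *
        RN2F c' K (Real.exp i) (Real.exp pl) (HD c' a qs i) (W0' i) d' f := by
      rw [← sum_add_distrib]
      refine sum_le_sum fun f hf => ?_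
      rw [← sum_add_distrib]
      refine sum_le_sum fun i _ => ?_
      rw [← sum_add_distrib]
      refine sum_le_sum fun d' _ => ?_
      rw [LVn_add (fun d _ n => α (d * n)) {d'} {f} c' (Z ^ 5) K (HD c' a qs i d' f)
        (Real.exp i) (Real.exp i) (Real.exp (l / 20)) 1 1
        (RN2F c' K (Real.exp i) (Real.exp pl) (HD c' a qs i) (W0' i) d' f), mul_add]
      have h1 : (1 : ℝ) ≤ nm f := by
        exact_mod_cast nm_pos.2 ((mem_S hE00.le).1 hf).2.1.ne_zero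
      have h2 : (nm f : ℝ)⁻¹ ≤ 1 := inv_le_one_of_one_le₀ h1
      have h3 := mul_le_mul_of_nonneg_right h2 (hRNn i d' f)
      rw [one_mul] at h3
      linarith
    refine e1.trans (add_le_add (t2.trans hUV) ?_)
    refine le_trans (le_of_eq ?_) hRSV'
    rw [sum_comm]
    refine sum_congr rfl fun i _ => ?_
    exact sum_comm
  have hEZ := Z1F579.hE_Z hε₂ hE01 hE0Z
  rw [← hCh] at hEZ
  have hV1 : 0 ≤ V + Cr * V := by positivity
  have hGn1 : hE (S E0) * ∑ i ∈ LI (1 / 10) Y₁, ∑ d' ∈ J.image Prod.fst, ∑ e ∈ S E0,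
      LVn (afT α E0) {d'} {e} c (Z ^ 5) K (HD c a qs i d' e) (Real.exp i) (Real.exp 1 * Y₁)
        (Real.exp (l / 30)) 2 (Real.sqrt (c * Real.exp i))
        (RN2F c K (Real.exp i) (Real.exp pl) (HD c a qs i) (W0 i) d' e) ≤
      Ch * Z ^ ε₂ * (V + Cr * V) :=
    (mul_le_mul_of_nonneg_left G1 (hE_nonneg _)).trans (mul_le_mul_of_nonneg_right hEZ hV1)
  rw [XE_sum _ _ _ _ _ _ _ _ hE00.le] at key
  -- the end
  have hres : GrP (wM (Rw lam)) K (fun k => if Cut (Real.exp (l / 20)) k then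
        StE E0 J (omP n) α k else 0) -
      c3 (wM (Rw lam)) K * (X3 (Yc Rh a qs) E0 J (omP n) α).re ≤ X ^ (E8 (LS0 d) q + ε) := by
    refine key.trans ?_
    have hCZ : 0 ≤ C * Z ^ ε₂ := by positivity
    have b1 : K ^ (2 / 3 : ℝ) * ((Y₁ / K ^ 2) ^ (1 / 6 : ℝ) * TF (1 / 2) J (omP n) E0 (Tal α) +
        (Real.exp (l / 30))⁻¹ * TF (-1) J (omP n) E0 (Tal α)) ≤ V + V := by
      rw [mul_add]
      exact add_le_add (t3.trans hUV) (t4.trans hUV)
    have b2 := t5.trans hUV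
    have b3 := t4.trans hUV
    have b4 := t3.trans hUV
    have b5 := t6.trans hUV
    have hCh0 : 0 ≤ Ch * Z ^ ε₂ := by positivity
    have hChZ : 1 ≤ Ch * Z ^ ε₂ := one_le_mul_of_one_le_of_one_le hCh1 hZε1
    have b6 : C * Z ^ ε₂ * (V + V + V + Ch * Z ^ ε₂ * (V + Cr * V) + (V + V + V +
        (V + Cr * V))) ≤ C * Z ^ ε₂ * (Ch * Z ^ ε₂ * ((8 + 2 * Cr) * V)) := by
      refine mul_le_mul_of_nonneg_left ?_ hCZ
      have h7 : 7 * V + Cr * V ≤ Ch * Z ^ ε₂ * (7 * V + Cr * V) :=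
        le_mul_of_one_le_left (by positivity) hChZ
      have e7 : Ch * Z ^ ε₂ * ((8 + 2 * Cr) * V) = Ch * Z ^ ε₂ * (V + Cr * V) +
        Ch * Z ^ ε₂ * (7 * V + Cr * V) := by ring
      rw [e7]
      linarith
    have b7 : C * Z ^ ε₂ * (Ch * Z ^ ε₂ * ((8 + 2 * Cr) * V)) ≤ X ^ (E8 (LS0 d) q + ε) := by
      have e8 : C * Z ^ ε₂ * (Ch * Z ^ ε₂ * ((8 + 2 * Cr) * V)) = CC * (Z ^ ε₂ * Z ^ ε₂) * V := by
        rw [hCC]; ring
      rw [e8]
      have h8 : Z ^ ε₂ * Z ^ ε₂ ≤ X ^ (ε / 4) := by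
        rw [hZε, ← Real.exp_add, hXexp]
        refine Real.exp_le_exp.2 ?_
        have : 0 < ε * L := by positivity
        linarith
      calc CC * (Z ^ ε₂ * Z ^ ε₂) * V ≤ X ^ (ε / 4) * X ^ (ε / 4) * V := by gcongr
        _ = X ^ (E8 (LS0 d) q + ε) := by
            rw [hV, ← Real.rpow_add hX0, ← Real.rpow_add hX0]
            congr 1
            ring
    refine le_trans (mul_le_mul_of_nonneg_left ?_ hCZ) (b6.trans b7)
    exact add_le_add (add_le_add (add_le_add b1 b2) hGn1)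
      (add_le_add (add_le_add (add_le_add b3 b4) b5) G2)
  have hX10 : (0 : ℝ) ≤ X ^ (E8 (LS0 d) q + ε) := by positivity
  unfold E3C
  rw [if_pos hok]
  exact max_le hX10 hres

end Crest.Agent.R017.E3W271
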