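import Crest.Agent.R017.E3Sz3_579
import Crest.Agent.R017.E3Szx_744
import Crest.Agent.R017.RsxC_72

/-!
# Row 17, T.7 (class E), E3: both forms of the structured number of a tuple, in classes (helper72,
after helper579's `E3Sx4`)

* `Cel1`, `Cel2` : the statements of the two forms at the cells
* `RHRx` : (RH) in classes, over a set of pairs
* `S1hx_Q`, `S2hx_Q` : the two forms for the number of a tuple
-/

set_option autoImplicit false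
set_option linter.unusedVariables false

noncomputable section

open Complex MeasureTheory
open scoped ComplexConjugate Classical

namespace Crest.Agent.R017.E3Xa72

open Crest.Agent.R012 Crest.Agent.R012.Eis Crest.Agent.R012.MC
open Crest.Agent.R012.LS2 (S mem_S bl mem_bl)
open Crest.Agent.R017.CM106 (CS TG FS)
open Crest.Agent.R017.GrB829 (IsC)
open Crest.Agent.R017.PX764 (n6)
open Crest.Agent.R017.E1551 (nmpos)
open Crest.Agent.R017.E3D579 (uS bF b0 bt)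
open Crest.Agent.R017.E3T829 (Cd UT SU kU kU_nonneg F2 bu)
open Crest.Agent.R017.Mode405
open Crest.Agent.R017.E3Sx579
open Crest.Agent.R017.E3Sx744 (BsX_le real_nx)
open Crest.Agent.R017.MX744
open Crest.Agent.R017.ROX744
open Crest.Agent.R017.PoHx72
open Crest.Agent.R017.Rsx72 (Cnd prT prT_nonneg S1hx S2hx)

/-- the statement of the first form at a cell -/
def Cel1 (χ : Eis → ℂ) (v : ℝ → ℝ) (cw R0 : ℝ) (a A : ℕ) (ε C c : ℝ) (A₀ : ℕ) : Prop :=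
  ∀ A' : ℝ, (A₀ : ℝ) ≤ A' →
      ∀ Z : ℝ, 1 ≤ Z → ∀ af : Eis → ℂ, FS af → (∀ n, af n ≠ 0 → Squarefree n) →
      ∀ d e q g κ F cc : Eis, IsPrim d → IsPrim e → IsPrim q → IsPrim g → IsPrim κ → IsPrim F →
      IsC cc → Squarefree (g * κ * F) → (nm (q * g * κ * F) : ℝ) ≤ Z →
      ∀ X : ℝ, 0 < X → (∀ n, af n ≠ 0 → |Real.log (nm d * nm n) - Real.log X| ≤ R0) →
      (nm κ : ℝ) * (Real.exp R0 * X) ≤ Z →
      ∀ u : Eis, u ≠ 0 → (∀ p, IsPrim p → IsCoprime u p) →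
      ∀ W0 : Bool → ℝ → ℝ, (∀ jj, Slp a (W0 jj)) →
      (∀ jj γ π, IsPrim γ → IsPrim π → (nm π : ℝ) ≤ Z ^ 4 →
        ∀ P : ℝ, 0 < P → (nm γ : ℝ) * n6 γ ^ 2 * ∑ r ∈ (bl P).filter (Cls (PrU u) jj),
          R3571.RMm A af e γ π r ≤ W0 jj P) →
      ∀ (Y Lt : ℝ) (W1 : Bool → ℝ), 1 ≤ Y → Y ≤ Z → Lt ≤ Z → (∀ jj, 0 ≤ W1 jj) →
      (1 ≤ Lt → Lt * Real.exp (2 * R0) < nm κ * X / nm d ∧
        ∀ jj, W0 jj (c * (Il (nm κ * X / nm d) Lt Y *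
          ((nm F : ℝ) ^ 2 * (nm q : ℝ) ^ 2 * nm g))) ≤ W1 jj) →
      BsQ ε χ v cw A' Lt Y (bF κ F (b0 af d e (q * cc * g ^ 2))) (g * κ * F) κ ≤
        C * Z ^ (2 * ε) * (if 1 ≤ Lt then
          ∑ jj : Bool, nfx jj Lt (Il (nm κ * X / nm d) Lt Y) * W1 jj else 0)

/-- the statement of the second form at a family of cells -/
def Cel2 (χ : Eis → ℂ) (v : ℝ → ℝ) (cw R0 : ℝ) (a A : ℕ) (ε C c : ℝ) (A₀ : ℕ) : Prop :=
  ∀ A' : ℝ, (A₀ : ℝ) ≤ A' →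
      ∀ Z : ℝ, 1 ≤ Z → ∀ af : Eis → ℂ, FS af → (∀ n, af n ≠ 0 → Squarefree n) →
      ∀ d e q g F cc : Eis, IsPrim d → IsPrim e → IsPrim q → IsPrim g → IsPrim F →
      IsC cc → Squarefree (g * F) → (nm (q * g * F) : ℝ) ≤ Z →
      ∀ X : ℝ, 0 < X → (∀ n, af n ≠ 0 → |Real.log (nm d * nm n) - Real.log X| ≤ R0) →
      ∀ Δ : ℝ, 1 ≤ Δ → Δ ≤ Z → Δ * (Real.exp R0 * X) ≤ Z →
      ∀ u : Eis, u ≠ 0 → (∀ p, IsPrim p → IsCoprime u p) →
      ∀ W0 : Bool → ℝ → ℝ, (∀ jj, Slp a (W0 jj)) →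
      (∀ jj γ π, IsPrim γ → IsPrim π → (nm π : ℝ) ≤ Z ^ 4 →
        ∀ P : ℝ, 0 < P → (nm γ : ℝ) * n6 γ ^ 2 * ∑ r ∈ (bl P).filter (Cls (PrU u) jj),
          R3571.RMm A af e γ π r ≤ W0 jj P) →
      ∀ (Y Lt : ℝ) (W1 : Bool → ℝ), 1 ≤ Y → Y ≤ Z → Lt ≤ Z → (∀ jj, 0 ≤ W1 jj) →
      (1 ≤ Lt → Lt * Real.exp (2 * R0 + 3) < X / nm d * Δ ∧
        ∀ jj, W0 jj (c * (Il (X / nm d * Δ) Lt Y *
          ((nm F : ℝ) ^ 2 * (nm q : ℝ) ^ 2 * nm g))) ≤ W1 jj) →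
      ∀ (𝒟 : Finset Eis) (Yd Ltd : Eis → ℝ),
      (∀ D ∈ 𝒟, IsPrim D ∧ Squarefree D ∧ Δ / 4 < nm D ∧ (nm D : ℝ) ≤ Δ ∧ Y / 4 ≤ Yd D ∧
        Yd D ≤ Y ∧ Ltd D ≤ Lt) →
      ∑ D ∈ 𝒟, BsQ ε χ v cw A' (Ltd D) (Yd D) (bF D F (b0 af d e (q * cc * g ^ 2)))
          (g * D * F) D ≤
        C * Z ^ (2 * ε) * (if 1 ≤ Lt then nfD Δ Lt (Il (X / nm d * Δ) Lt Y) * W1 false +
          (𝒟.card : ℝ) * (Lt * (Il (X / nm d * Δ) Lt Y) ^ (-(2 / 3) : ℝ)) * W1 true else 0)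

/-- (RH) for the sequences of the levels, in classes, over a set of pairs -/
def RHRx (m : ℝ) (A : ℕ) (R : Finset (Eis × Eis)) (af : Eis → Eis → Eis → ℂ) (u : Eis)
    (W0 : Bool → Eis → Eis → ℝ → ℝ) : Prop :=
  ∀ jj, ∀ ρ ∈ R, ∀ γ π, IsPrim γ → IsPrim π → (nm π : ℝ) ≤ m →
    ∀ P : ℝ, 0 < P → (nm γ : ℝ) * n6 γ ^ 2 * ∑ r ∈ (bl P).filter (Cls (PrU u) jj),
      R3571.RMm A (af ρ.1 ρ.2) ρ.2 γ π r ≤ W0 jj ρ.1 ρ.2 P

set_option maxHeartbeats 400000 in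
/-- **first form for the canonical number, in classes** -/
theorem S1hx_Q {χ : Eis → ℂ} {w : ℝ → ℝ} {R0 : ℝ} (hR0 : 0 ≤ R0) {a A : ℕ} {ε C c : ℝ} {A₀ : ℕ}
    (hC : 0 ≤ C) (hc : 1 ≤ c) (h : Cel1 χ (w6 w) 1 R0 a A ε C c A₀) {cs : ℝ} (hcs : 1 ≤ cs) :
    ∀ A' : ℝ, (A₀ : ℝ) ≤ A' →
      ∀ z Zm K V H X : ℝ, 1 ≤ z → z ^ 5 ≤ Zm → 0 < K → 0 < V → 0 < H → 0 < X →
      H * V ^ 2 * Real.exp (2 * R0) < K * X → cs * V ≤ Zm → z ^ 2 * (Real.exp R0 * X) ≤ Zm →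
      ∀ (R : Finset (Eis × Eis)) (af : Eis → Eis → Eis → ℂ), (∀ ρ ∈ R, FS (af ρ.1 ρ.2)) →
      (∀ ρ ∈ R, ∀ n, af ρ.1 ρ.2 n ≠ 0 → Squarefree n) →
      (∀ ρ ∈ R, ∀ n, af ρ.1 ρ.2 n ≠ 0 → |Real.log (nm ρ.1 * nm n) - Real.log X| ≤ R0) →
      ∀ u : Eis, u ≠ 0 → (∀ p, IsPrim p → IsCoprime u p) →
      ∀ W0 : Bool → Eis → Eis → ℝ → ℝ, (∀ jj d e, Slp a (W0 jj d e)) →
      RHRx (Zm ^ 4) A R af u W0 → (∀ ρ ∈ R, ρ.1 ≠ 0) →
      S1hx z R (fun d => H * V ^ 2 / (K * nm d))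
        (fun d => cs * (H * V ^ 2 / (K * nm d)) * (X * V * H / K) ^ (-(1 / 2) : ℝ))
        (fun d => cs * (H * V ^ 2 / (K * nm d)) * (X * V * H / K) ^ (-(2 / 3) : ℝ))
        (fun d e => C * Zm ^ (2 * ε) * W0 false d e (c * (X * V * H / K)))
        (fun d e => C * Zm ^ (2 * ε) * W0 true d e (c * (X * V * H / K)))
        (BsQt ε χ w A' cs K V H af) := by
  intro A' hA' z Zm K V H X hz hzZ hK hV hH hX hKX hVZ hXZ R af haf hsf hwin u hu huc W0 hW0 hRH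
    hR0' t ht htR
  have hz0 : 0 ≤ z := by linarith
  have hZm : 1 ≤ Zm := (one_le_pow₀ hz).trans hzZ
  have hI0 : 0 < X * V * H / K := by positivity
  have hcI0 : 0 < c * (X * V * H / K) := mul_pos (by linarith) hI0
  have hW10 : ∀ jj d e, 0 ≤ C * Zm ^ (2 * ε) * W0 jj d e (c * (X * V * H / K)) := fun jj d e =>
    mul_nonneg (by positivity) ((hW0 jj d e).nonneg _ hcI0)
  refine le_trans ?_ (BsX_le hcs hK hV hH hX (hW10 false) (hW10 true) (hR0' _ htR)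
    ((mem_S hz0).1 ht.q).2.1.ne_zero ((mem_S hz0).1 ht.g).2.1.ne_zero
    ((mem_S hz0).1 ht.a).2.1.ne_zero ((mem_S hz0).1 ht.D).2.1.ne_zero
    ((mem_S hz0).1 ht.F).2.1.ne_zero)
  have hT0 := BsX_nonneg hcs hK hV hH hX (hW10 false) (hW10 true) t
  unfold BsQt
  split_ifs with hTQ
  swap
  · exact hT0
  obtain ⟨d, e, q, cc, g, a₁, D, F⟩ := t
  obtain ⟨pd, pe, hcc, hsq, hY1⟩ := hTQ
  change IsPrim d at pd
  change IsPrim e at pe
  change IsC cc at hcc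
  change Squarefree (g * (a₁ * D) * F) at hsq
  change (d, e) ∈ R at htR
  have hq : q ∈ S z := ht.q
  have hg : g ∈ S z := ht.g
  have ha₁ : a₁ ∈ S z := ht.a
  have hD : D ∈ S z := ht.D
  have hF : F ∈ S z := ht.F
  obtain ⟨nzq, pq, -⟩ := (mem_S hz0).1 hq
  obtain ⟨nzg, pg, -⟩ := (mem_S hz0).1 hg
  obtain ⟨nza, pa, -⟩ := (mem_S hz0).1 ha₁
  obtain ⟨nzD, pD, -⟩ := (mem_S hz0).1 hD
  obtain ⟨nzF, pF, -⟩ := (mem_S hz0).1 hF
  have hcne := isC_ne0 hcc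
  have nc := nmpos hcne
  have c1 : (1 : ℝ) ≤ nm cc := E1551.nm_ge_one hcne
  have nd := nmpos pd.ne_zero
  have nq := nmpos pq.ne_zero
  have ng := nmpos pg.ne_zero
  have na := nmpos pa.ne_zero
  have nD := nmpos pD.ne_zero
  have nF := nmpos pF.ne_zero
  have nd1 : (1 : ℝ) ≤ nm d := E1551.nm_ge_one pd.ne_zero
  have hcs0 : 0 < cs := by linarith
  have hnm : (nm (q * g * (a₁ * D) * F) : ℝ) ≤ Zm := by
    refine le_trans ?_ hzZ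
    simp only [nm_mul, Nat.cast_mul]
    calc (nm q : ℝ) * nm g * (nm a₁ * nm D) * nm F ≤ z * z * (z * z) * z := by gcongr
      _ = z ^ 5 := by ring
  have hκ : (nm (a₁ * D) : ℝ) * (Real.exp R0 * X) ≤ Zm := by
    refine le_trans ?_ hXZ
    refine mul_le_mul_of_nonneg_right ?_ (by positivity)
    rw [nm_mul]
    push_cast
    calc (nm a₁ : ℝ) * nm D ≤ z * z := by gcongr
      _ = z ^ 2 := by ring
  have hYZ : cs * E3Sw290.YU V (d, e, q, cc, g, a₁, D, F) ≤ Zm :=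
    (mul_le_mul_of_nonneg_left (YU_le hV pd.ne_zero pq.ne_zero hcne pg.ne_zero pa.ne_zero
      pD.ne_zero pF.ne_zero) hcs0.le).trans hVZ
  have hLe := LtU_eq (t := (d, e, q, cc, g, a₁, D, F)) hK hV hH pd.ne_zero pq.ne_zero hcne
    pg.ne_zero pa.ne_zero pD.ne_zero pF.ne_zero
  have hLle := LtU_le (t := (d, e, q, cc, g, a₁, D, F)) hK hV hH pd.ne_zero pq.ne_zero hcne
    pg.ne_zero pa.ne_zero pD.ne_zero pF.ne_zero
  change LtU K V H (d, e, q, cc, g, a₁, D, F) ≤ H * V ^ 2 / (K * nm d) at hLle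
  have hLn := LtU_nonneg (V := V) hK hH (d, e, q, cc, g, a₁, D, F)
  have hexp : 1 ≤ Real.exp (2 * R0) := Real.one_le_exp (by positivity)
  have hLX : LtU K V H (d, e, q, cc, g, a₁, D, F) * Real.exp (2 * R0) < X / nm d := by
    calc _ ≤ H * V ^ 2 / (K * nm d) * Real.exp (2 * R0) :=
          mul_le_mul_of_nonneg_right hLle (Real.exp_pos _).le
      _ = (H * V ^ 2 * Real.exp (2 * R0)) / (K * nm d) := by ring
      _ < (K * X) / (K * nm d) := div_lt_div_of_pos_right hKX (by positivity)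
      _ = X / nm d := by field_simp
  have hκ1 : (1 : ℝ) ≤ nm (a₁ * D) := E1551.nm_ge_one (pa.mul pD).ne_zero
  have hLZ : LtU K V H (d, e, q, cc, g, a₁, D, F) ≤ Zm := by
    have h1 := le_mul_of_one_le_right hLn hexp
    have h2 : X / nm d ≤ X := div_le_self hX.le nd1
    have h3 : X ≤ Zm := by
      refine le_trans ?_ hXZ
      have h4 : 1 ≤ z ^ 2 * Real.exp R0 :=
        one_le_mul_of_one_le_of_one_le (one_le_pow₀ hz) (Real.one_le_exp hR0)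
      calc X ≤ (z ^ 2 * Real.exp R0) * X := le_mul_of_one_le_left hX.le h4
        _ = _ := by ring
    linarith
  have hIl : Il (nm (a₁ * D) * X / nm d) (LtU K V H (d, e, q, cc, g, a₁, D, F))
      (cs * E3Sw290.YU V (d, e, q, cc, g, a₁, D, F)) =
      IlU cs K V H X (d, e, q, cc, g, a₁, D, F) := by
    have h1 := Il_eq (K := K) (V := V) (H := H) (X := X) (cs := cs) (d := nm d) (q := nm q)
      (g := nm g) (κ := nm a₁ * nm D) (F := nm F) (c := nm cc) hK hV hH hX hcs0 nd nq ng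
      (by positivity) nF nc
    unfold LtU IlU E3Sw290.YU E3Sw290.ZU
    simp only [nm_mul, Nat.cast_mul]
    rw [← h1]
    simp only [mul_one]
  have hIU : IlU cs K V H X (d, e, q, cc, g, a₁, D, F) =
      X * (V / nm cc) * H / K / (cs * ((nm F : ℝ) ^ 2 * (nm q : ℝ) ^ 2 * nm g)) := rfl
  have k1 : FS (af d e) := haf _ htR
  have k2 : ∀ n, af d e n ≠ 0 → Squarefree n := hsf _ htR
  have k3 : ∀ n, af d e n ≠ 0 → |Real.log (nm d * nm n) - Real.log X| ≤ R0 := hwin _ htR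
  have k4 : ∀ jj γ π, IsPrim γ → IsPrim π → (nm π : ℝ) ≤ Zm ^ 4 →
    ∀ P : ℝ, 0 < P → (nm γ : ℝ) * n6 γ ^ 2 * ∑ r ∈ (bl P).filter (Cls (PrU u) jj),
      R3571.RMm A (af d e) e γ π r ≤ W0 jj d e P := by
    intro jj γ π hγ hπ hn P hP
    exact hRH jj (d, e) htR γ π hγ hπ hn P hP
  have k5 : 1 ≤ LtU K V H (d, e, q, cc, g, a₁, D, F) →
      LtU K V H (d, e, q, cc, g, a₁, D, F) * Real.exp (2 * R0) < nm (a₁ * D) * X / nm d ∧
      ∀ jj, W0 jj d e (c * (Il (nm (a₁ * D) * X / nm d) (LtU K V H (d, e, q, cc, g, a₁, D, F))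
        (cs * E3Sw290.YU V (d, e, q, cc, g, a₁, D, F)) *
          ((nm F : ℝ) ^ 2 * (nm q : ℝ) ^ 2 * nm g))) ≤ W0 jj d e (c * (X * V * H / K)) := by
    intro h1
    refine ⟨hLX.trans_le ?_, fun jj => ?_⟩
    · rw [mul_div_assoc]
      exact le_mul_of_one_le_left (by positivity) hκ1
    · rw [hIl, hIU]
      have hc0 : 0 < c := by linarith
      exact slp_Il (hW0 jj d e) hc0 hX hV hH hK hcs c1 nF nq ng
  have key := h A' hA' Zm hZm (af d e) k1 k2 d e q g (a₁ * D) F cc pd pe pq pg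
    (pa.mul pD) pF hcc hsq hnm X hX k3 hκ u hu huc (fun jj => W0 jj d e) (fun jj => hW0 jj d e) k4
    (cs * E3Sw290.YU V (d, e, q, cc, g, a₁, D, F)) (LtU K V H (d, e, q, cc, g, a₁, D, F))
    (fun jj => W0 jj d e (c * (X * V * H / K))) hY1 hYZ hLZ
    (fun jj => (hW0 jj d e).nonneg _ hcI0) k5
  rw [hLe]
  refine key.trans (le_of_eq ?_)
  rw [hIl]
  unfold BsX
  split_ifs
  · rw [Fintype.sum_bool]
    have e1 : ∀ L I : ℝ, nfx true L I = L * I ^ (-(2 / 3) : ℝ) := fun L I => by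
      unfold nfx; simp
    have e2 : ∀ L I : ℝ, nfx false L I = nfo L I := fun L I => by
      unfold nfx Mode405.nfo; simp
    rw [e1, e2]
    ring
  · ring

/-- the comparison of the principal factor -/
lemma nfp_le {H V K d Δ q g F cc cs X x : ℝ} (hH : 0 < H) (hV : 0 < V) (hK : 0 < K) (hd : 0 < d)
    (hΔ : 1 ≤ Δ) (q1 : 1 ≤ q) (g1 : 1 ≤ g) (F1 : 1 ≤ F) (c1 : 1 ≤ cc) (hcs : 1 ≤ cs) (hX : 0 < X)
    (hx : 0 < x) (hxΔ : x ≤ Δ) :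
    4 * (H * (V / cc) ^ 2 / (K * d) / (Δ ^ 2 * (q * g * F) ^ 3)) *
      (2 * (X * (V / cc) * H / K / (cs * (F ^ 2 * q ^ 2 * g)))) ^ (-(2 / 3) : ℝ) ≤
      4 * cs * (H * V ^ 2 / (K * d)) * (X * V * H / K) ^ (-(2 / 3) : ℝ) *
        (1 / q * (1 / g) * (1 / F) * (1 / x) * (1 / 1)) := by
  have hΔ0 : 0 < Δ := by linarith
  have hq : 0 < q := by linarith
  have hg : 0 < g := by linarith
  have hF : 0 < F := by linarith
  have hcc : 0 < cc := by linarith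
  have hcs0 : 0 < cs := by linarith
  have h1 := real_nx (q := q) (g := g) (a := Δ) (D := 1) (F := F) (cc := cc) (d := d) (K := K)
    (V := V) (H := H) (X := X) (cs := cs) q1 g1 hΔ le_rfl F1 c1 hd hK hV hH hX hcs
  have hI : 0 < X * (V / cc) * H / K / (cs * (F ^ 2 * q ^ 2 * g)) := by positivity
  have h2 : (2 * (X * (V / cc) * H / K / (cs * (F ^ 2 * q ^ 2 * g)))) ^ (-(2 / 3) : ℝ) ≤
      (X * (V / cc) * H / K / (cs * (F ^ 2 * q ^ 2 * g))) ^ (-(2 / 3) : ℝ) :=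
    Real.rpow_le_rpow_of_nonpos hI (by linarith) (by norm_num)
  have h3 : 1 / Δ ≤ 1 / x := one_div_le_one_div_of_le hx hxΔ
  have h0 : 0 ≤ H * (V / cc) ^ 2 / (K * d) / (Δ ^ 2 * (q * g * F) ^ 3) := by positivity
  have hI2 : 0 ≤ (X * V * H / K) ^ (-(2 / 3) : ℝ) := by positivity
  rw [mul_one Δ] at h1
  calc _ ≤ 4 * (H * (V / cc) ^ 2 / (K * d) / (Δ ^ 2 * (q * g * F) ^ 3)) *
        (X * (V / cc) * H / K / (cs * (F ^ 2 * q ^ 2 * g))) ^ (-(2 / 3) : ℝ) :=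
        mul_le_mul_of_nonneg_left h2 (by positivity)
    _ = 4 * (H * (V / cc) ^ 2 / (K * d) / (Δ ^ 2 * (q * g * F) ^ 3) *
        (X * (V / cc) * H / K / (cs * (F ^ 2 * q ^ 2 * g))) ^ (-(2 / 3) : ℝ)) := by ring
    _ ≤ 4 * (cs * (H * V ^ 2 / (K * d)) * (X * V * H / K) ^ (-(2 / 3) : ℝ) *
        (1 / q * (1 / g) * (1 / F) * (1 / Δ) * (1 / 1))) :=
        mul_le_mul_of_nonneg_left h1 (by norm_num)
    _ = 4 * cs * (H * V ^ 2 / (K * d)) * (X * V * H / K) ^ (-(2 / 3) : ℝ) *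
        (1 / q * (1 / g) * (1 / F) * (1 / Δ) * (1 / 1)) := by ring
    _ ≤ _ := by gcongr

end Crest.Agent.R017.E3Xa72
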