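import Crest.Agent.R017.E3Xa_72

/-!
# Row 17, T.7 (class E), E3: second form of the structured number of a tuple, in classes (helper72,
after helper579's `E3Sx4`)

* `S2hx_Q` : the second form for the number of a tuple
-/

set_option autoImplicit false
set_option linter.unusedVariables false

noncomputable section

open Complex MeasureTheory
open scoped ComplexConjugate Classical

namespace Crest.Agent.R017.E3Xa72

open Crest.Agent.R012 Crest.Agent.R012.Eis Crest.Agent.R012.MC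
open Crest.Agent.R012.LS2 (S mem_S bl mem_bl)
open Crest.Agent.R017.CM106 (CS TG FS)
open Crest.Agent.R017.GrB829 (IsC)
open Crest.Agent.R017.PX764 (n6)
open Crest.Agent.R017.E1551 (nmpos)
open Crest.Agent.R017.E3D579 (uS bF b0 bt)
open Crest.Agent.R017.E3T829 (Cd UT SU kU kU_nonneg F2 bu)
open Crest.Agent.R017.Mode405
open Crest.Agent.R017.E3Sx579
open Crest.Agent.R017.MX744
open Crest.Agent.R017.ROX744
open Crest.Agent.R017.PoHx72
open Crest.Agent.R017.Rsx72 (Cnd prT prT_nonneg S1hx S2hx)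

set_option maxHeartbeats 1000000 in
/-- **second form for the canonical number, in classes** -/
theorem S2hx_Q {χ : Eis → ℂ} {w : ℝ → ℝ} {R0 : ℝ} (hR0 : 0 ≤ R0) {a A : ℕ} {ε C c : ℝ} {A₀ : ℕ}
    (hC : 0 ≤ C) (hc : 1 ≤ c) (h : Cel2 χ (w6 w) 1 R0 a A ε C c A₀) {cs : ℝ} (hcs : 1 ≤ cs) :
    ∀ A' : ℝ, (A₀ : ℝ) ≤ A' →
      ∀ z Zm K V H X : ℝ, 1 ≤ z → 2 * z ^ 3 ≤ Zm → 0 < K → 0 < V → 0 < H → 0 < X →
      4 * (H * V ^ 2) * Real.exp (2 * R0 + 3) < K * X → 2 * (cs * V) ≤ Zm →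
      2 * z * (Real.exp R0 * X) ≤ Zm →
      ∀ (R : Finset (Eis × Eis)) (af : Eis → Eis → Eis → ℂ), (∀ ρ ∈ R, FS (af ρ.1 ρ.2)) →
      (∀ ρ ∈ R, ∀ n, af ρ.1 ρ.2 n ≠ 0 → Squarefree n) →
      (∀ ρ ∈ R, ∀ n, af ρ.1 ρ.2 n ≠ 0 → |Real.log (nm ρ.1 * nm n) - Real.log X| ≤ R0) →
      ∀ u : Eis, u ≠ 0 → (∀ p, IsPrim p → IsCoprime u p) →
      ∀ W0 : Bool → Eis → Eis → ℝ → ℝ, (∀ jj d e, Slp a (W0 jj d e)) →
      RHRx (Zm ^ 4) A R af u W0 →
      S2hx z R (fun d => H * V ^ 2 / (K * nm d))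
        (fun d => 4 * cs * (H * V ^ 2 / (K * nm d)) * (X * V * H / K) ^ (-(2 / 3) : ℝ))
        (X * V * H / K)
        (fun d e => 144 * cs * C * Zm ^ (2 * ε) * W0 false d e (2 * c * (X * V * H / K)))
        (fun d e => 144 * cs * C * Zm ^ (2 * ε) * W0 true d e (2 * c * (X * V * H / K)))
        (BsQt ε χ w A' cs K V H af) := by
  intro A' hA' z Zm K V H X hz hzZ hK hV hH hX hKX hVZ hXZ R af haf hsf hwin u hu huc W0 hW0 hRH ρ
    hρ q hq k hk g hg F hF Δ hΔ Kp hKp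
  obtain ⟨d, e⟩ := ρ
  have hz0 : 0 ≤ z := by linarith
  have hcs0 : 0 < cs := by linarith
  have hΔ0 : 0 < Δ := by linarith
  have hc0 : 0 < c := by linarith
  have hz3 : z ≤ z ^ 3 := by
    calc z = z ^ 1 := (pow_one z).symm
      _ ≤ z ^ 3 := pow_le_pow_right₀ hz (by norm_num)
  have hZm : 1 ≤ Zm := by linarith
  have hI0 : 0 < X * V * H / K := by positivity
  have hcI0 : 0 < 2 * c * (X * V * H / K) := by positivity
  have hW : ∀ jj, 0 ≤ W0 jj d e (2 * c * (X * V * H / K)) := fun jj =>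
    (hW0 jj d e).nonneg _ hcI0
  obtain ⟨nzq, pq, -⟩ := (mem_S hz0).1 hq
  obtain ⟨nzg, pg, -⟩ := (mem_S hz0).1 hg
  obtain ⟨nzF, pF, -⟩ := (mem_S hz0).1 hF
  have hkne := isC_ne0 hk
  have nk := nmpos hkne
  have k1' : (1 : ℝ) ≤ nm k := E1551.nm_ge_one hkne
  have k9 : (nm k : ℝ) ≤ 9 := by exact_mod_cast (E3T829.Cd.nm_c_le hk).2
  have nq := nmpos pq.ne_zero
  have ng := nmpos pg.ne_zero
  have nF := nmpos pF.ne_zero
  have q1 : (1 : ℝ) ≤ nm q := E1551.nm_ge_one pq.ne_zero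
  have g1 : (1 : ℝ) ≤ nm g := E1551.nm_ge_one pg.ne_zero
  have F1 : (1 : ℝ) ≤ nm F := E1551.nm_ge_one pF.ne_zero
  -- the reduction to the admissible members
  set Kp' : Finset Eis := Kp.filter (fun κ => TQc cs V (d, e, q, k, g, κ, 1, F) ∧
    1 ≤ E3Sw290.LtU K V H (d, e, q, k, g, κ, 1, F)) with hKp'
  have hsum : ∑ κ ∈ Kp, BsQt ε χ w A' cs K V H af (d, e, q, k, g, κ, 1, F) =
      ∑ κ ∈ Kp', BsQ ε χ (w6 w) 1 A' (E3Sw290.LtU K V H (d, e, q, k, g, κ, 1, F))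
        (cs * E3Sw290.YU V (d, e, q, k, g, κ, 1, F))
        (bF κ F (b0 (af d e) d e (q * k * g ^ 2))) (g * κ * F) κ := by
    rw [hKp', Finset.sum_filter]
    refine Finset.sum_congr rfl fun κ _ => ?_
    unfold BsQt
    by_cases h1 : TQc cs V (d, e, q, k, g, κ, 1, F)
    · rw [if_pos h1]
      by_cases h2 : 1 ≤ E3Sw290.LtU K V H (d, e, q, k, g, κ, 1, F)
      · rw [if_pos ⟨h1, h2⟩]
        change BsQ ε χ (w6 w) 1 A' _ _ (bF (κ * 1) F (b0 (af d e) d e (q * k * g ^ 2)))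
          (g * (κ * 1) * F) (κ * 1) = _
        rw [mul_one]
      · rw [if_neg fun h3 => h2 h3.2]
        unfold BsQ
        rw [if_neg h2]
    · rw [if_neg h1, if_neg fun h3 => h1 h3.1]
  have hF20 : ∀ d' : ℝ, 0 ≤ d' → 0 ≤ F2 (H * V ^ 2 / (K * d') / (Δ ^ 2 * (nm (q * g * F) : ℝ) ^ 3)) Δ
      (X * V * H / K / nm (q ^ 2 * g * F ^ 2)) := by
    intro d' hd'
    unfold E3T829.F2
    positivity
  obtain ⟨Lf, hLf⟩ : ∃ Lf : Eis → ℝ, Lf = fun d : Eis => H * V ^ 2 / (K * nm d) := ⟨_, rfl⟩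
  obtain ⟨Mxf, hMxf⟩ : ∃ Mxf : Eis → ℝ, Mxf = fun d : Eis =>
      4 * cs * (H * V ^ 2 / (K * nm d)) * (X * V * H / K) ^ (-(2 / 3) : ℝ) := ⟨_, rfl⟩
  obtain ⟨Wxf, hWxf⟩ : ∃ Wxf : Eis → Eis → ℝ, Wxf = fun d e =>
      144 * cs * C * Zm ^ (2 * ε) * W0 true d e (2 * c * (X * V * H / K)) := ⟨_, rfl⟩
  have hMx0 : ∀ d, 0 ≤ Mxf d := fun d => by rw [hMxf]; positivity
  have hWx0 : ∀ d e, 0 ≤ Wxf d e := fun d e => by
    rw [hWxf]
    exact mul_nonneg (by positivity) ((hW0 true d e).nonneg _ hcI0)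
  have hprT0 : 0 ≤ ∑ κ ∈ Kp, prT Lf Mxf Wxf (d, e, q, k, g, κ, 1, F) :=
    Finset.sum_nonneg fun κ _ => prT_nonneg hMx0 hWx0 _
  rw [← hLf, ← hMxf, ← hWxf]
  change ∑ κ ∈ Kp, BsQt ε χ w A' cs K V H af (d, e, q, k, g, κ, 1, F) ≤
    F2 (Lf d / (Δ ^ 2 * (nm (q * g * F) : ℝ) ^ 3)) Δ
      (X * V * H / K / nm (q ^ 2 * g * F ^ 2)) *
      (144 * cs * C * Zm ^ (2 * ε) * W0 false d e (2 * c * (X * V * H / K))) +
      ∑ κ ∈ Kp, prT Lf Mxf Wxf (d, e, q, k, g, κ, 1, F)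
  have eLf : Lf d = H * V ^ 2 / (K * nm d) := by rw [hLf]
  rw [hsum, eLf]
  by_cases hemp : Kp' = ∅
  · rw [hemp, Finset.sum_empty]
    exact add_nonneg (mul_nonneg (hF20 _ (Nat.cast_nonneg _)) (mul_nonneg (by positivity)
      (hW false))) hprT0
  obtain ⟨κ₀, hκ₀⟩ := Finset.nonempty_iff_ne_empty.mpr hemp
  have hκ₀' := hκ₀
  rw [hKp', Finset.mem_filter] at hκ₀'
  obtain ⟨hκ₀K, ⟨pd, pe, -, hsq0, hY0⟩, -⟩ := hκ₀'
  change IsPrim d at pd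
  change IsPrim e at pe
  change Squarefree (g * (κ₀ * 1) * F) at hsq0
  have nd := nmpos pd.ne_zero
  have d1 : (1 : ℝ) ≤ nm d := E1551.nm_ge_one pd.ne_zero
  obtain ⟨hκS, hκ1, hκ2⟩ := hKp κ₀ hκ₀K
  have hκz : (nm κ₀ : ℝ) ≤ z := ((mem_S hz0).1 hκS).1
  have hΔz : Δ ≤ 2 * z := by linarith
  have hsq : Squarefree (g * F) := hsq0.squarefree_of_dvd ⟨κ₀, by ring⟩
  -- the lengths of the family
  set B : ℝ := V / nm k / (nm q * (nm d : ℝ) ^ 2 * (nm g : ℝ) ^ 2) with hB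
  have hB0 : 0 < B := by rw [hB]; positivity
  have hBV : B ≤ V := by
    have h1 : (1 : ℝ) ≤ nm q * (nm d : ℝ) ^ 2 * (nm g : ℝ) ^ 2 :=
      one_le_mul_of_one_le_of_one_le (one_le_mul_of_one_le_of_one_le q1 (one_le_pow₀ d1))
        (one_le_pow₀ g1)
    exact (div_le_self (by positivity) h1).trans (div_le_self hV.le k1')
  set Y : ℝ := 2 * (cs * (B / (Δ * nm F))) with hY
  set A₂ : ℝ := H * (V / nm k) ^ 2 / (K * nm d) with hA₂
  have hA₂0 : 0 < A₂ := by rw [hA₂]; positivity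
  have hA₂le : A₂ ≤ H * V ^ 2 / (K * nm d) := by
    rw [hA₂]
    have h2 : V / nm k ≤ V := div_le_self hV.le k1'
    have h3 : 0 ≤ V / nm k := by positivity
    gcongr
  set G : ℝ := (nm q * nm g * nm F : ℝ) ^ 3 with hG
  have hG0 : 0 < G := by rw [hG]; positivity
  have hG1 : 1 ≤ G := by
    rw [hG]
    exact one_le_pow₀ (one_le_mul_of_one_le_of_one_le (one_le_mul_of_one_le_of_one_le q1 g1) F1)
  set Lt : ℝ := 4 * (A₂ / (Δ ^ 2 * G)) with hLt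
  have hLt0 : 0 < Lt := by rw [hLt]; positivity
  have hLtA : Lt ≤ 4 * (H * V ^ 2 / (K * nm d)) := by
    rw [hLt]
    have h1 : (1 : ℝ) ≤ Δ ^ 2 * G := one_le_mul_of_one_le_of_one_le (one_le_pow₀ hΔ) hG1
    have h2 : A₂ / (Δ ^ 2 * G) ≤ A₂ := div_le_self hA₂0.le h1
    linarith
  have hexp : 1 ≤ Real.exp (2 * R0 + 3) := Real.one_le_exp (by positivity)
  have hLX : Lt * Real.exp (2 * R0 + 3) < X / nm d := by
    calc Lt * Real.exp (2 * R0 + 3) ≤ 4 * (H * V ^ 2 / (K * nm d)) * Real.exp (2 * R0 + 3) :=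
          mul_le_mul_of_nonneg_right hLtA (Real.exp_pos _).le
      _ = (4 * (H * V ^ 2) * Real.exp (2 * R0 + 3)) / (K * nm d) := by ring
      _ < (K * X) / (K * nm d) := div_lt_div_of_pos_right hKX (by positivity)
      _ = X / nm d := by field_simp
  have hXm : X ≤ Zm := by
    refine le_trans ?_ hXZ
    have h1 : 1 ≤ 2 * z * Real.exp R0 :=
      one_le_mul_of_one_le_of_one_le (by linarith) (Real.one_le_exp hR0)
    calc X ≤ (2 * z * Real.exp R0) * X := le_mul_of_one_le_left hX.le h1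
      _ = _ := by ring
  have hLZ : Lt ≤ Zm := by
    have h1 := le_mul_of_one_le_right hLt0.le hexp
    have h2 : X / nm d ≤ X := div_le_self hX.le d1
    linarith
  have hYZ : Y ≤ Zm := by
    refine le_trans ?_ hVZ
    rw [hY]
    have h1 : (1 : ℝ) ≤ Δ * nm F := one_le_mul_of_one_le_of_one_le hΔ F1
    have h2 : B / (Δ * nm F) ≤ V := (div_le_self hB0.le h1).trans hBV
    have h3 := mul_le_mul_of_nonneg_left h2 hcs0.le
    linarith
  have hYd : ∀ κ ∈ Kp', Y / 4 ≤ cs * E3Sw290.YU V (d, e, q, k, g, κ, 1, F) ∧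
      cs * E3Sw290.YU V (d, e, q, k, g, κ, 1, F) ≤ Y := by
    intro κ hκ
    rw [hKp', Finset.mem_filter] at hκ
    obtain ⟨-, h1, h2⟩ := hKp κ hκ.1
    have h3 := fam_Y (cs := cs) hB0.le hΔ0 nF hcs0 h1 h2
    have e1 : E3Sw290.YU V (d, e, q, k, g, κ, 1, F) = B / (nm κ * 1 * nm F) := by
      unfold E3Sw290.YU E3Sw290.ZU
      simp only [nm_one, Nat.cast_one]
      rw [hB]
    rw [e1]
    exact h3
  have hY1 : 1 ≤ Y := hY0.trans (hYd κ₀ hκ₀).2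
  have hLe : ∀ κ ∈ Kp', E3Sw290.LtU K V H (d, e, q, k, g, κ, 1, F) = A₂ / ((nm κ * 1) ^ 2 * G) := by
    intro κ hκ
    rw [hKp', Finset.mem_filter] at hκ
    obtain ⟨h0, h1, h2⟩ := hKp κ hκ.1
    have pκ := ((mem_S hz0).1 h0).2.1
    rw [LtU_eq (t := (d, e, q, k, g, κ, 1, F)) hK hV hH pd.ne_zero pq.ne_zero hkne pg.ne_zero
      pκ.ne_zero isPrim_one.ne_zero pF.ne_zero]
    unfold LtU
    simp only [nm_mul, nm_one, Nat.cast_one, Nat.cast_mul]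
    rw [hA₂, hG]
  have hLd : ∀ κ ∈ Kp', E3Sw290.LtU K V H (d, e, q, k, g, κ, 1, F) ≤ Lt := by
    intro κ hκ
    rw [hLe κ hκ]
    rw [hKp', Finset.mem_filter] at hκ
    obtain ⟨h0, h1, h2⟩ := hKp κ hκ.1
    exact fam_Lt (G := G) hA₂0.le hΔ0 hG0 h1
  have hfam : ∀ κ ∈ Kp', IsPrim κ ∧ Squarefree κ ∧ Δ / 4 < nm κ ∧ (nm κ : ℝ) ≤ Δ ∧
      Y / 4 ≤ cs * E3Sw290.YU V (d, e, q, k, g, κ, 1, F) ∧
      cs * E3Sw290.YU V (d, e, q, k, g, κ, 1, F) ≤ Y ∧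
      E3Sw290.LtU K V H (d, e, q, k, g, κ, 1, F) ≤ Lt := by
    intro κ hκ
    have hκ' := hκ
    rw [hKp', Finset.mem_filter] at hκ'
    obtain ⟨h0, h1, h2⟩ := hKp κ hκ'.1
    obtain ⟨-, pκ, sκ⟩ := (mem_S hz0).1 h0
    exact ⟨pκ, sκ, by linarith, h2, (hYd κ hκ).1, (hYd κ hκ).2, hLd κ hκ⟩
  -- the hypotheses
  have j1 : FS (af d e) := haf (d, e) hρ
  have j2 : ∀ n, af d e n ≠ 0 → Squarefree n := fun n hn => hsf (d, e) hρ n hn
  have j3 : ∀ n, af d e n ≠ 0 → |Real.log (nm d * nm n) - Real.log X| ≤ R0 :=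
    fun n hn => hwin (d, e) hρ n hn
  have j4 : ∀ jj γ π, IsPrim γ → IsPrim π → (nm π : ℝ) ≤ Zm ^ 4 →
    ∀ P : ℝ, 0 < P → (nm γ : ℝ) * n6 γ ^ 2 * ∑ r ∈ (bl P).filter (Cls (PrU u) jj),
      R3571.RMm A (af d e) e γ π r ≤ W0 jj d e P := by
    intro jj γ π hγ hπ hn P hP
    exact hRH jj (d, e) hρ γ π hγ hπ hn P hP
  have hIl : Il (X / nm d * Δ) Lt Y =
      2 * (X * (V / nm k) * H / K / (cs * ((nm F : ℝ) ^ 2 * (nm q : ℝ) ^ 2 * nm g))) :=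
    fam_Il hX nd hΔ0 hH hV nk hK nq ng nF hcs0
  have j5 : 1 ≤ Lt → Lt * Real.exp (2 * R0 + 3) < X / nm d * Δ ∧
      ∀ jj, W0 jj d e (c * (Il (X / nm d * Δ) Lt Y *
        ((nm F : ℝ) ^ 2 * (nm q : ℝ) ^ 2 * nm g))) ≤ W0 jj d e (2 * c * (X * V * H / K)) := by
    intro _
    refine ⟨hLX.trans_le (le_mul_of_one_le_right (by positivity) hΔ), fun jj => ?_⟩
    have e1 : c * (Il (X / nm d * Δ) Lt Y * ((nm F : ℝ) ^ 2 * (nm q : ℝ) ^ 2 * nm g)) =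
        2 * c * (X * (V / nm k) * H / K / (cs * ((nm F : ℝ) ^ 2 * (nm q : ℝ) ^ 2 * nm g)) *
          ((nm F : ℝ) ^ 2 * (nm q : ℝ) ^ 2 * nm g)) := by
      rw [hIl]; ring
    rw [e1]
    exact slp_Il (hW0 jj d e) (by positivity) hX hV hH hK hcs k1' nF nq ng
  have hnm : (nm (q * g * F) : ℝ) ≤ Zm := by
    simp only [nm_mul, Nat.cast_mul]
    calc (nm q : ℝ) * nm g * nm F ≤ z * z * z := by gcongr
      _ = z ^ 3 := by ring
      _ ≤ Zm := by linarith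
  have hΔm : Δ ≤ Zm := by linarith
  have hΔX : Δ * (Real.exp R0 * X) ≤ Zm :=
    (mul_le_mul_of_nonneg_right hΔz (by positivity)).trans hXZ
  have key := h A' hA' Zm hZm (af d e) j1 j2 d e q g F k pd pe pq pg pF hk hsq hnm X hX j3 Δ hΔ
    hΔm hΔX u hu huc (fun jj => W0 jj d e) (fun jj => hW0 jj d e) j4 Y Lt
    (fun jj => W0 jj d e (2 * c * (X * V * H / K))) hY1 hYZ hLZ hW j5 Kp'
    (fun κ => cs * E3Sw290.YU V (d, e, q, k, g, κ, 1, F))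
    (fun κ => E3Sw290.LtU K V H (d, e, q, k, g, κ, 1, F)) hfam
  refine key.trans ?_
  -- the number
  set L : ℝ := H * V ^ 2 / (K * nm d) / (Δ ^ 2 * G) with hLdef
  set I : ℝ := X * V * H / K / ((nm q : ℝ) ^ 2 * nm g * (nm F : ℝ) ^ 2) with hIdef
  have hL0 : 0 ≤ L := by rw [hLdef]; positivity
  have hI0' : 0 < I := by rw [hIdef]; positivity
  have eL : Lt = 4 * (L / (nm k : ℝ) ^ 2) := by
    rw [hLt, hA₂, hLdef, hG]
    exact fam_L nk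
  have eI : Il (X / nm d * Δ) Lt Y = 2 * I / (nm k * cs) := by
    rw [hIl, hIdef]
    exact fam_I nk
  have hF2 := nfD_F2 (Δ := Δ) (L := L) (I := I) (cs := cs) (cc := nm k) hΔ0.le hL0 hI0' hcs k1' k9
  have e3 : F2 (H * V ^ 2 / (K * nm d) / (Δ ^ 2 * (nm (q * g * F) : ℝ) ^ 3)) Δ
      (X * V * H / K / nm (q ^ 2 * g * F ^ 2)) = F2 L Δ I := by
    simp only [nm_mul, nm_pow, Nat.cast_mul, Nat.cast_pow]
    rfl
  rw [e3]
  have hF0 : 0 ≤ F2 L Δ I := by unfold E3T829.F2; positivity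
  have hCm : 0 ≤ C * Zm ^ (2 * ε) := by positivity
  -- the principal part
  have hpr : ∀ κ ∈ Kp', C * Zm ^ (2 * ε) * (Lt * (Il (X / nm d * Δ) Lt Y) ^ (-(2 / 3) : ℝ) *
      W0 true d e (2 * c * (X * V * H / K))) ≤ prT Lf Mxf Wxf (d, e, q, k, g, κ, 1, F) := by
    intro κ hκ
    have hLκ := hLe κ hκ
    have hκ' := hκ
    rw [hKp', Finset.mem_filter] at hκ'
    obtain ⟨h0, h1, h2⟩ := hKp κ hκ'.1
    have h3 := hκ'.2.2
    have pκ := ((mem_S hz0).1 h0).2.1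
    have nκ := nmpos pκ.ne_zero
    have hcnd : Cnd Lf (d, e, q, k, g, κ, 1, F) := by
      unfold Rsx72.Cnd
      change (nm (κ * 1) : ℝ) ^ 2 * (nm (q * g * F) : ℝ) ^ 3 ≤ Lf d
      rw [hLκ, one_le_div (by positivity)] at h3
      rw [eLf]
      simp only [nm_mul, nm_one, Nat.cast_one, Nat.cast_mul]
      exact h3.trans hA₂le
    unfold Rsx72.prT
    rw [if_pos hcnd]
    have h4 := nfp_le (H := H) (V := V) (K := K) (d := nm d) (Δ := Δ) (q := nm q) (g := nm g)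
      (F := nm F) (cc := nm k) (cs := cs) (X := X) (x := nm κ) hH hV hK nd hΔ q1 g1 F1 k1' hcs hX
      nκ h2
    have e5 : Lt * (Il (X / nm d * Δ) Lt Y) ^ (-(2 / 3) : ℝ) =
        4 * (H * (V / nm k) ^ 2 / (K * nm d) / (Δ ^ 2 * (nm q * nm g * nm F : ℝ) ^ 3)) *
      (2 * (X * (V / nm k) * H / K / (cs * ((nm F : ℝ) ^ 2 * (nm q : ℝ) ^ 2 * nm g)))) ^
        (-(2 / 3) : ℝ) := by
      rw [hIl, hLt, hA₂, hG]
    have e6 : Mxf d * kU (d, e, q, k, g, κ, 1, F) =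
        4 * cs * (H * V ^ 2 / (K * nm d)) * (X * V * H / K) ^ (-(2 / 3) : ℝ) *
        (1 / (nm q : ℝ) * (1 / nm g) * (1 / nm F) * (1 / nm κ) * (1 / 1)) := by
      rw [hMxf]
      unfold E3T829.kU
      simp only [nm_one, Nat.cast_one]
    change _ ≤ Mxf d * kU (d, e, q, k, g, κ, 1, F) * Wxf d e
    rw [e5, e6, hWxf]
    have hWt := hW true
    have hkp : 0 ≤ 4 * cs * (H * V ^ 2 / (K * nm d)) * (X * V * H / K) ^ (-(2 / 3) : ℝ) *
        (1 / (nm q : ℝ) * (1 / nm g) * (1 / nm F) * (1 / nm κ) * (1 / 1)) := by positivity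
    have h5 : C * Zm ^ (2 * ε) ≤ 144 * cs * C * Zm ^ (2 * ε) := by
      have : C * Zm ^ (2 * ε) ≤ 144 * cs * (C * Zm ^ (2 * ε)) :=
        le_mul_of_one_le_left hCm (by linarith)
      linarith
    calc C * Zm ^ (2 * ε) * (4 * (H * (V / nm k) ^ 2 / (K * nm d) /
          (Δ ^ 2 * (nm q * nm g * nm F : ℝ) ^ 3)) *
        (2 * (X * (V / nm k) * H / K / (cs * ((nm F : ℝ) ^ 2 * (nm q : ℝ) ^ 2 * nm g)))) ^
          (-(2 / 3) : ℝ) * W0 true d e (2 * c * (X * V * H / K)))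
        ≤ C * Zm ^ (2 * ε) * (4 * cs * (H * V ^ 2 / (K * nm d)) *
          (X * V * H / K) ^ (-(2 / 3) : ℝ) *
          (1 / (nm q : ℝ) * (1 / nm g) * (1 / nm F) * (1 / nm κ) * (1 / 1)) *
          W0 true d e (2 * c * (X * V * H / K))) :=
          mul_le_mul_of_nonneg_left (mul_le_mul_of_nonneg_right h4 hWt) hCm
      _ ≤ (144 * cs * C * Zm ^ (2 * ε)) * (4 * cs * (H * V ^ 2 / (K * nm d)) *
          (X * V * H / K) ^ (-(2 / 3) : ℝ) *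
          (1 / (nm q : ℝ) * (1 / nm g) * (1 / nm F) * (1 / nm κ) * (1 / 1)) *
          W0 true d e (2 * c * (X * V * H / K))) :=
          mul_le_mul_of_nonneg_right h5 (mul_nonneg hkp hWt)
      _ = _ := by ring
  have hsumP : C * Zm ^ (2 * ε) * ((Kp'.card : ℝ) * (Lt * (Il (X / nm d * Δ) Lt Y) ^
      (-(2 / 3) : ℝ)) * W0 true d e (2 * c * (X * V * H / K))) ≤
      ∑ κ ∈ Kp, prT Lf Mxf Wxf (d, e, q, k, g, κ, 1, F) := by
    calc _ = ∑ κ ∈ Kp', C * Zm ^ (2 * ε) * (Lt * (Il (X / nm d * Δ) Lt Y) ^ (-(2 / 3) : ℝ) *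
          W0 true d e (2 * c * (X * V * H / K))) := by
          rw [Finset.sum_const, nsmul_eq_mul]; ring
      _ ≤ ∑ κ ∈ Kp', prT Lf Mxf Wxf (d, e, q, k, g, κ, 1, F) := Finset.sum_le_sum hpr
      _ ≤ _ := Finset.sum_le_sum_of_subset_of_nonneg (Finset.filter_subset _ _) fun κ _ _ =>
          prT_nonneg hMx0 hWx0 _
  by_cases hL1 : 1 ≤ Lt
  · rw [if_pos hL1]
    have hIe : nfD Δ Lt (Il (X / nm d * Δ) Lt Y) ≤ 144 * cs * F2 L Δ I := by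
      rw [eI, eL]
      exact hF2
    have h6 : C * Zm ^ (2 * ε) * (nfD Δ Lt (Il (X / nm d * Δ) Lt Y) *
        W0 false d e (2 * c * (X * V * H / K))) ≤
        F2 L Δ I * (144 * cs * C * Zm ^ (2 * ε) * W0 false d e (2 * c * (X * V * H / K))) := by
      calc _ ≤ C * Zm ^ (2 * ε) * ((144 * cs * F2 L Δ I) *
            W0 false d e (2 * c * (X * V * H / K))) :=
            mul_le_mul_of_nonneg_left (mul_le_mul_of_nonneg_right hIe (hW false)) hCm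
        _ = _ := by ring
    rw [mul_add]
    exact add_le_add h6 hsumP
  · rw [if_neg hL1, mul_zero]
    exact add_nonneg (mul_nonneg hF0 (mul_nonneg (by positivity) (hW false))) hprT0

end Crest.Agent.R017.E3Xa72
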