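import Crest.Agent.R017.E3Y_548
import Crest.Agent.R017.E3N_548

/-!
# Row 17, R8 (E3), the final form (helper548): the fibre sums

* `BZ`, `PZ`, `PRZ` : the weights of the lines
* `fib_Z` : the fibre sums for an abstract family
* `fib_OI`, `fib_OI'` : the fibre sums for helper829's literal family, both sides
-/

set_option autoImplicit false
set_option linter.unusedVariables false

noncomputable section

open Finset
open scoped Classical ComplexConjugate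

namespace Crest.Agent.R017.E3Z548

open Crest.Agent.R012 Crest.Agent.R012.Eis Crest.Agent.R012.Div277
open Crest.Agent.R012.LS2 (S mem_S)
open Crest.Agent.R012.Mob705 (pb mem_pb)
open Crest.Agent.R017.C70 (JC OKJ)
open Crest.Agent.R017.E3D579 (TE0)
open Crest.Agent.R017.E1551 (nmpos)
open Crest.Agent.R017.E3A164 (Yp Ys)
open Crest.Agent.R017.E3F548 (SR_prim mem_Ys' Pg Jat)
open Crest.Agent.R017.E3T829
open Cd (Pde)

/-- the scale of the level in `Pde` -/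
def QH (H V : ℝ) : Eis → ℝ := fun _ => (H * V) ^ (-(1 / 3) : ℝ)

/-- the factors of the lines -/
def BZ (K H V V' E1 B hL B2 B3 B4 : ℝ) : Fin 5 → ℝ :=
  ![1, (H * (V / V')) ^ (1 / 3 : ℝ) * (V' / K) * (E1 ^ 2 * B ^ 2 * hL), B2, B3, B4]

/-- the weights of the `T`-lines (`c` : the constant) -/
def PZ (c K H V V' E1 B hL B2 B3 B4 : ℝ) (EE : Finset Eis) (l : Fin 5) (d e : Eis) : ℝ :=
  c * hE EE * BZ K H V V' E1 B hL B2 B3 B4 l * Pde K (QH H V) d e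

/-- the weight of the `R`-part -/
def PRZ (c K H V : ℝ) (EE : Finset Eis) (d e : Eis) : ℝ :=
  c * hE EE * Pde K (QH H V) d e

lemma QH_nonneg {H V : ℝ} (hH : 0 ≤ H) (hV : 0 ≤ V) (d : Eis) : 0 ≤ QH H V d := by
  unfold QH; positivity

lemma rv_QH {H V V' : ℝ} (hH : 0 < H) (hV : 0 < V) (hV' : 0 < V') (d : Eis) :
    (V' / V) ^ (1 / 6 : ℝ) * (H ^ (-(1 / 3) : ℝ) * (V * V') ^ (-(1 / 6) : ℝ)) = QH H V d := by
  unfold QH
  rw [Real.div_rpow hV'.le hV.le, Real.mul_rpow hV.le hV'.le, Real.mul_rpow hH.le hV.le]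
  have e1 : V' ^ (1 / 6 : ℝ) * V' ^ (-(1 / 6) : ℝ) = 1 := by
    rw [← Real.rpow_add hV']; norm_num
  have e2 : V ^ (-(1 / 6) : ℝ) / V ^ (1 / 6 : ℝ) = V ^ (-(1 / 3) : ℝ) := by
    rw [← Real.rpow_sub hV]; norm_num
  calc V' ^ (1 / 6 : ℝ) / V ^ (1 / 6 : ℝ) * (H ^ (-(1 / 3) : ℝ) *
        (V ^ (-(1 / 6) : ℝ) * V' ^ (-(1 / 6) : ℝ)))
      = (V' ^ (1 / 6 : ℝ) * V' ^ (-(1 / 6) : ℝ)) * H ^ (-(1 / 3) : ℝ) *
        (V ^ (-(1 / 6) : ℝ) / V ^ (1 / 6 : ℝ)) := by ring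
    _ = _ := by rw [e1, e2, one_mul]

/-- the data of one side without the weights -/
structure Lin (sd : SF 5) (K V V' H X G0 hL E1 B c B2 B3 B4 : ℝ) (EE : Finset Eis) : Prop where
  hH : ∀ x, sd.H x = H
  e0 : ∀ x, sd.ext 0 x = 1
  e1 : ∀ x, sd.ext 1 x = if (nm x.d * nm x.g : ℝ) ≤ G0 then x.extL K V V' H X else 0
  P : sd.P = PZ c K H V V' E1 B hL B2 B3 B4 EE
  PR : sd.PR = PRZ c K H V EE

/-- **the fibre sums** -/
theorem fib_Z {ε : ℝ} (hε : 0 < ε) : ∃ C : ℝ, 1 ≤ C ∧ ∀ Z : ℝ, 1 ≤ Z →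
    ∀ (EE : Finset Eis) (DG : Eis → Eis → Finset (Eis × Eis)) (hL E1 B : ℝ)
      {ι : Type} (O : Finset ι) (x : ι → Cd) (K V V' X H G0 B2 B3 B4 c : ℝ) (sd : SF 5),
      0 < K → 0 < V → 0 < V' → 0 < X → 0 < H → 0 ≤ E1 → 0 ≤ B → 0 ≤ hL → 0 ≤ B2 → 0 ≤ B3 →
      0 ≤ B4 → C * Z ^ ε ≤ c → Lin sd K V V' H X G0 hL E1 B c B2 B3 B4 EE →
      (∀ i ∈ O, sd.ext 2 (x i) ≤ B2) → (∀ i ∈ O, sd.ext 3 (x i) ≤ B3) →
      (∀ i ∈ O, sd.ext 4 (x i) ≤ B4) →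
      (∀ i ∈ O, (x i).OK Z EE) → (∀ i ∈ O, (x i).e' ∈ EE) →
      (∀ i ∈ O, (nm (x i).t : ℝ) ≤ E1 ∧ (nm (x i).b : ℝ) ≤ B ∧ (nm (x i).b' : ℝ) ≤ B) →
      (∀ i ∈ O, ((x i).d', (x i).g') ∈ DG (x i).d (x i).g) →
      (∀ i ∈ O, (nm (x i).d * nm (x i).g : ℝ) ≤ G0 →
        ∑ z ∈ DG (x i).d (x i).g, (nm (x i).d * nm (x i).g / (nm z.1 ^ 2 * nm z.2) : ℝ) ≤ hL) →
      (∀ i ∈ O, ∀ j ∈ O, (x i).U = (x j).U → (x i).V = (x j).V → i = j) →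
      sd.Fib K V V' ((V' / V) ^ (1 / 6 : ℝ)) X O x := by
  obtain ⟨C1, hC1, h1⟩ := fib_val hε
  obtain ⟨C2, hC2, h2⟩ := fib_L hε
  refine ⟨1 + C1 + C2, by linarith, ?_⟩
  intro Z hZ EE DG hL E1 B ι O x K V V' X H G0 B2 B3 B4 c sd hK hV hV' hX hH hE1 hB hhL hB2 hB3 hB4
    hc hsd x2 x3 x4 hOK he' htb hDG hDG2 inj
  have hZ0 : 0 < Z := by linarith
  have hZe : 0 ≤ Z ^ ε := by positivity
  have hrv : 0 < (V' / V) ^ (1 / 6 : ℝ) := by positivity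
  have hhE := hE_nonneg EE
  have hQ0 : ∀ d, 0 ≤ QH H V d := QH_nonneg hH.le hV.le
  have hP : ∀ d e, 0 ≤ Pde K (QH H V) d e := Cd.Pde_nonneg hK.le hQ0
  have c1 : C1 * Z ^ ε ≤ c := by nlinarith
  have c2 : C2 * Z ^ ε ≤ c := by nlinarith
  have hval : ∀ (ext : Cd → ℝ) (Bx : ℝ), 0 ≤ Bx → (∀ i ∈ O, ext (x i) ≤ Bx) → ∀ u : UT,
      ∑ i ∈ O.filter (fun i => (x i).U = u),
        (x i).val K V V' H ((V' / V) ^ (1 / 6 : ℝ)) X (x i).xk * ext (x i) ≤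
        c * hE EE * Bx * Pde K (QH H V) u.1 u.2.1 := by
    intro ext Bx hBx hext u
    have k := h1 Z hZ EE (fun _ => EE) O x K V V' ((V' / V) ^ (1 / 6 : ℝ)) X (fun _ => H) (QH H V)
      ext Bx hK hV hV' hrv hX (fun _ _ => hH) hQ0 (fun i _ => (rv_QH hH hV hV' _).le) hBx hext hOK
      he' inj u
    refine k.trans ?_
    have := hP u.1 u.2.1
    gcongr
  refine ⟨fun l u => ?_, fun u => ?_⟩
  · rw [hsd.P]
    simp only [hsd.hH]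
    fin_cases l
    · have k := hval (fun _ => 1) 1 zero_le_one (fun _ _ => le_rfl) u
      change ∑ i ∈ O.filter (fun i => (x i).U = u), (x i).val K V V' H ((V' / V) ^ (1 / 6 : ℝ)) X
        (x i).xk * sd.ext 0 (x i) ≤ c * hE EE * 1 * Pde K (QH H V) u.1 u.2.1
      simp only [hsd.e0]
      exact k
    · change ∑ i ∈ O.filter (fun i => (x i).U = u), (x i).val K V V' H ((V' / V) ^ (1 / 6 : ℝ)) X
        (x i).xk * sd.ext 1 (x i) ≤ c * hE EE *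
          ((H * (V / V')) ^ (1 / 3 : ℝ) * (V' / K) * (E1 ^ 2 * B ^ 2 * hL)) *
            Pde K (QH H V) u.1 u.2.1
      simp only [hsd.e1]
      set O' := O.filter fun i => (nm (x i).d * nm (x i).g : ℝ) ≤ G0 with hO'
      have hs : ∀ i ∈ O', i ∈ O := fun i hi => (mem_filter.mp hi).1
      have k := h2 Z hZ EE (fun _ => EE) DG (fun _ => hL) E1 B O' x K V V'
        ((V' / V) ^ (1 / 6 : ℝ)) X (fun _ => H) (QH H V) H hK hV hV' hrv hX hH.le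
        (fun _ _ => ⟨hH, le_rfl⟩) hQ0 (fun i _ => (rv_QH hH hV hV' _).le) hE1 hB (fun _ => hhL)
        (fun i hi => hOK i (hs i hi)) (fun i hi => he' i (hs i hi)) (fun i hi => htb i (hs i hi))
        (fun i hi => hDG i (hs i hi))
        (fun i hi => hDG2 i (hs i hi) (mem_filter.mp hi).2)
        (fun i hi j hj => inj i (hs i hi) j (hs j hj)) u
      have e1 : ∑ i ∈ O.filter (fun i => (x i).U = u),
          (x i).val K V V' H ((V' / V) ^ (1 / 6 : ℝ)) X (x i).xk *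
            (if (nm (x i).d * nm (x i).g : ℝ) ≤ G0 then (x i).extL K V V' H X else 0) =
          ∑ i ∈ O'.filter (fun i => (x i).U = u),
          (x i).val K V V' H ((V' / V) ^ (1 / 6 : ℝ)) X (x i).xk * (x i).extL K V V' H X := by
        rw [hO', filter_filter, sum_filter, sum_filter]
        refine sum_congr rfl fun i _ => ?_
        by_cases h5 : (nm (x i).d * nm (x i).g : ℝ) ≤ G0
        · simp [h5]
        · simp [h5]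
      rw [e1]
      refine k.trans ?_
      have := hP u.1 u.2.1
      have hp : 0 ≤ (H * (V / V')) ^ (1 / 3 : ℝ) * (V' / K) * (E1 ^ 2 * B ^ 2 * hL) := by positivity
      calc C2 * Z ^ ε * ((H * (V / V')) ^ (1 / 3 : ℝ) * (V' / K) *
            (E1 ^ 2 * B ^ 2 * hL * hE EE)) * Pde K (QH H V) u.1 u.2.1
          = (C2 * Z ^ ε) * (hE EE * ((H * (V / V')) ^ (1 / 3 : ℝ) * (V' / K) *
            (E1 ^ 2 * B ^ 2 * hL)) * Pde K (QH H V) u.1 u.2.1) := by ring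
        _ ≤ c * (hE EE * ((H * (V / V')) ^ (1 / 3 : ℝ) * (V' / K) *
            (E1 ^ 2 * B ^ 2 * hL)) * Pde K (QH H V) u.1 u.2.1) :=
            mul_le_mul_of_nonneg_right c2 (mul_nonneg (mul_nonneg hhE hp) this)
        _ = _ := by ring
    · exact hval (sd.ext 2) B2 hB2 x2 u
    · exact hval (sd.ext 3) B3 hB3 x3 u
    · exact hval (sd.ext 4) B4 hB4 x4 u
  · rw [hsd.PR]
    simp only [hsd.hH]
    have k := hval (fun _ => 1) 1 zero_le_one (fun _ _ => le_rfl) u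
    simp only [mul_one] at k
    exact k

/-! ### the literal family -/

section lit

variable {Pr : Yp → Yp → Prop} {J : Finset (Eis × Eis)} {EE : Finset Eis}
  {E0 E1 R B Z b₀ K : ℝ}

/-- the pairs are in one class -/
def ClsP (Pr : Yp → Yp → Prop) (J : Finset (Eis × Eis)) (E0 R : ℝ) : Prop :=
  ∀ y ∈ Ys J E0 R, ∀ y' ∈ Ys J E0 R, Pr y y' → y.2.2.2 = y'.2.2.2 ∧
    (nm y.1 : ℝ) ≤ 2 * nm y'.1 ∧ (nm y'.1 : ℝ) ≤ 2 * nm y.1

lemma OI_Pr {i : IX} (hi : i ∈ OI Pr J EE E0 E1 R B Z b₀ K) :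
    Pr i.2.2.1 i.2.2.2.1 ∧ i.2.2.1 ∈ Ys J E0 R ∧ i.2.2.2.1 ∈ Ys J E0 R := by
  obtain ⟨h0, hc⟩ := mem_filter.mp hi
  rw [mem_IX0] at h0
  exact ⟨hc.1.1, h0.2.2.1, h0.2.2.2.1⟩

lemma OI_tb {i : IX} (hB : 0 ≤ B) (hi : i ∈ OI Pr J EE E0 E1 R B Z b₀ K) :
    (nm (cdI i).t : ℝ) ≤ E1 ∧ (nm (cdI i).b : ℝ) ≤ B ∧ (nm (cdI i).b' : ℝ) ≤ B := by
  obtain ⟨h0, hc⟩ := mem_filter.mp hi
  rw [mem_IX0] at h0
  obtain ⟨-, h2, -, -, h5, h6, -⟩ := h0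
  rw [mem_pb] at h2
  exact ⟨h2.1, ((mem_S hB).1 h5).1, ((mem_S hB).1 h6).1⟩

/-- **the fibre sums of the literal family** -/
theorem fib_OI {ε : ℝ} (hε : 0 < ε) : ∃ C : ℝ, 1 ≤ C ∧ ∀ Z : ℝ, 1 ≤ Z →
    ∀ (Pr : Yp → Yp → Prop) (J : Finset (Eis × Eis)) (EE : Finset Eis) (E0 E1 R B b₀ K V V' X H
      G0 G1 B2 B3 B4 c c' : ℝ) (sd : SF 5),
      OKJ J → 0 ≤ R → R ≤ Z → 0 ≤ B → B ≤ Z → 0 ≤ E1 → E1 ≤ Z → (∀ x ∈ J, (nm x.1 : ℝ) ≤ Z) →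
      0 < K → 0 < V → 0 < V' → 0 < X → 0 < H → 0 ≤ B2 → 0 ≤ B3 → 0 ≤ B4 →
      (G0 ≤ G1 ∨ (ClsP Pr J E0 R ∧ 1 ≤ G1)) → 0 ≤ G1 → C * Z ^ ε ≤ c → C * Z ^ ε ≤ c' →
      Lin sd K V V' H X G0 (c' * G1) E1 B c B2 B3 B4 EE →
      (∀ i ∈ OI Pr J EE E0 E1 R B Z b₀ K, sd.ext 2 (cdI i) ≤ B2) →
      (∀ i ∈ OI Pr J EE E0 E1 R B Z b₀ K, sd.ext 3 (cdI i) ≤ B3) →
      (∀ i ∈ OI Pr J EE E0 E1 R B Z b₀ K, sd.ext 4 (cdI i) ≤ B4) →
      sd.Fib K V V' ((V' / V) ^ (1 / 6 : ℝ)) X (OI Pr J EE E0 E1 R B Z b₀ K) cdI := by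
  obtain ⟨C1, hC1, h1⟩ := fib_Z (ε := ε / 5) (by positivity)
  set η := ε / 20 with hη
  have hη0 : 0 < η := by positivity
  set C2 := (200 * (1 + 1 / η)) ^ 2 with hC2
  set C3 := 2 * (200 * (1 + 1 / η)) with hC3
  have hC20 : 0 ≤ C2 := by positivity
  have hC30 : 0 ≤ C3 := by positivity
  refine ⟨C1 + C2 + C3, by linarith, ?_⟩
  intro Z hZ Pr J EE E0 E1 R B b₀ K V V' X H G0 G1 B2 B3 B4 c c' sd hJ hR0 hRZ hB0 hBZ hE1 hE1Z hJ1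
    hK hV hV' hX hH hB2 hB3 hB4 hcl hG1 hc hc' hsd x2 x3 x4
  have hZ0 : 0 < Z := by linarith
  have hZ5 : 1 ≤ Z ^ 5 := one_le_pow₀ hZ
  have e5 : (Z ^ 5) ^ (ε / 5) = Z ^ ε := by
    rw [← Real.rpow_natCast, ← Real.rpow_mul hZ0.le]
    congr 1; push_cast; ring
  have e22 : (Z ^ 5) ^ η = Z ^ (5 * η) := by
    rw [← Real.rpow_natCast, ← Real.rpow_mul hZ0.le]; norm_num
  have e20 : ((Z ^ 5) ^ η) ^ 2 ≤ Z ^ ε := by
    rw [e22, ← Real.rpow_natCast, ← Real.rpow_mul hZ0.le]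
    refine Real.rpow_le_rpow_of_exponent_le hZ ?_
    rw [hη]; push_cast; linarith
  have e21 : (Z ^ 5) ^ η ≤ Z ^ ε := by
    rw [e22]
    refine Real.rpow_le_rpow_of_exponent_le hZ ?_
    rw [hη]; linarith
  have hZe : 0 ≤ Z ^ ε := by positivity
  have hOK : ∀ i ∈ OI Pr J EE E0 E1 R B Z b₀ K, (cdI i).OK (Z ^ 5) EE := fun i hi =>
    OI_OK hJ hZ hR0 hRZ hB0 hBZ hE1Z hJ1 hi
  have hc0 : 0 ≤ c' := le_trans (by positivity) hc'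
  have hc1 : C1 * (Z ^ 5) ^ (ε / 5) ≤ c := by
    rw [e5]
    refine le_trans ?_ hc
    have : C1 ≤ C1 + C2 + C3 := by linarith
    gcongr
  rcases hcl with hG | ⟨hP, hG⟩
  · -- all pairs
    refine h1 (Z ^ 5) hZ5 EE (fun _ _ => S (Z ^ 5) ×ˢ S (Z ^ 5)) (c' * G1) E1 B _ cdI K V V' X H G0
      B2 B3 B4 c sd hK hV hV' hX hH hE1 hB0 (by positivity) hB2 hB3 hB4 hc1 hsd x2 x3 x4 hOK
      (fun i hi => (hOK i hi).e') (fun i hi => OI_tb hB0 hi)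
      (fun i hi => mem_product.mpr ⟨(hOK i hi).d', (hOK i hi).g'⟩) ?_
      (fun i _ j _ hU hV => cdI_inj hU hV)
    intro i hi hi2
    refine (DG_all hη0 hZ5 (hi2.trans hG)).trans ?_
    rw [← hC2]
    calc C2 * ((Z ^ 5) ^ η) ^ 2 * G1 ≤ C2 * Z ^ ε * G1 := by gcongr
      _ ≤ c' * G1 := by
        refine mul_le_mul_of_nonneg_right (le_trans ?_ hc') hG1
        have : C2 ≤ C1 + C2 + C3 := by linarith
        gcongr
  · -- one class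
    refine h1 (Z ^ 5) hZ5 EE (fun d g => ((S (Z ^ 5)).filter
      (fun d' => (nm d : ℝ) ≤ 2 * nm d')) ×ˢ {g}) (c' * G1) E1 B _ cdI K V V' X H G0
      B2 B3 B4 c sd hK hV hV' hX hH hE1 hB0 (by positivity) hB2 hB3 hB4 hc1 hsd x2 x3 x4 hOK
      (fun i hi => (hOK i hi).e') (fun i hi => OI_tb hB0 hi) ?_ ?_
      (fun i _ j _ hU hV => cdI_inj hU hV)
    · intro i hi
      obtain ⟨k1, k2, k3⟩ := OI_Pr hi
      obtain ⟨m1, m2, m3⟩ := hP _ k2 _ k3 k1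
      rw [mem_product, mem_filter, mem_singleton]
      exact ⟨⟨(hOK i hi).d', m2⟩, m1.symm⟩
    · intro i hi hi2
      have hg : (cdI i).g ≠ 0 := ((hOK i hi).prim (hOK i hi).g).ne_zero
      refine (DG_cls hη0 hZ5 hg).trans ?_
      calc 2 * ((200 * (1 + 1 / η)) * (Z ^ 5) ^ η) = C3 * (Z ^ 5) ^ η := by rw [hC3]; ring
        _ ≤ C3 * Z ^ ε := by gcongr
        _ ≤ c' := by
          refine le_trans ?_ hc'
          have : C3 ≤ C1 + C2 + C3 := by linarith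
          gcongr
        _ ≤ c' * G1 := le_mul_of_one_le_right hc0 hG

/-- **the fibre sums of the literal family, the other side** -/
theorem fib_OI' {ε : ℝ} (hε : 0 < ε) : ∃ C : ℝ, 1 ≤ C ∧ ∀ Z : ℝ, 1 ≤ Z →
    ∀ (Pr : Yp → Yp → Prop) (J : Finset (Eis × Eis)) (EE : Finset Eis) (E0 E1 R B b₀ K V V' X H
      G0 G1 B2 B3 B4 c c' : ℝ) (sd : SF 5),
      OKJ J → 0 ≤ R → R ≤ Z → 0 ≤ B → B ≤ Z → 0 ≤ E1 → E1 ≤ Z → (∀ x ∈ J, (nm x.1 : ℝ) ≤ Z) →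
      0 < K → 0 < V → 0 < V' → 0 < X → 0 < H → 0 ≤ B2 → 0 ≤ B3 → 0 ≤ B4 →
      (G0 ≤ G1 ∨ (ClsP Pr J E0 R ∧ 1 ≤ G1)) → 0 ≤ G1 → C * Z ^ ε ≤ c → C * Z ^ ε ≤ c' →
      Lin sd K V' V H X G0 (c' * G1) E1 B c B2 B3 B4 EE →
      (∀ i ∈ OI Pr J EE E0 E1 R B Z b₀ K, sd.ext 2 (cdI i).swap ≤ B2) →
      (∀ i ∈ OI Pr J EE E0 E1 R B Z b₀ K, sd.ext 3 (cdI i).swap ≤ B3) →
      (∀ i ∈ OI Pr J EE E0 E1 R B Z b₀ K, sd.ext 4 (cdI i).swap ≤ B4) →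
      sd.Fib K V' V ((V' / V) ^ (1 / 6 : ℝ))⁻¹ X (OI Pr J EE E0 E1 R B Z b₀ K)
        (fun i => (cdI i).swap) := by
  obtain ⟨C1, hC1, h1⟩ := fib_Z (ε := ε / 5) (by positivity)
  set η := ε / 20 with hη
  have hη0 : 0 < η := by positivity
  set C2 := (200 * (1 + 1 / η)) ^ 2 with hC2
  set C3 := 2 * (200 * (1 + 1 / η)) with hC3
  have hC20 : 0 ≤ C2 := by positivity
  have hC30 : 0 ≤ C3 := by positivity
  refine ⟨C1 + C2 + C3, by linarith, ?_⟩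
  intro Z hZ Pr J EE E0 E1 R B b₀ K V V' X H G0 G1 B2 B3 B4 c c' sd hJ hR0 hRZ hB0 hBZ hE1 hE1Z hJ1
    hK hV hV' hX hH hB2 hB3 hB4 hcl hG1 hc hc' hsd x2 x3 x4
  have hZ0 : 0 < Z := by linarith
  have hZ5 : 1 ≤ Z ^ 5 := one_le_pow₀ hZ
  have e5 : (Z ^ 5) ^ (ε / 5) = Z ^ ε := by
    rw [← Real.rpow_natCast, ← Real.rpow_mul hZ0.le]
    congr 1; push_cast; ring
  have e22 : (Z ^ 5) ^ η = Z ^ (5 * η) := by
    rw [← Real.rpow_natCast, ← Real.rpow_mul hZ0.le]; norm_num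
  have e20 : ((Z ^ 5) ^ η) ^ 2 ≤ Z ^ ε := by
    rw [e22, ← Real.rpow_natCast, ← Real.rpow_mul hZ0.le]
    refine Real.rpow_le_rpow_of_exponent_le hZ ?_
    rw [hη]; push_cast; linarith
  have e21 : (Z ^ 5) ^ η ≤ Z ^ ε := by
    rw [e22]
    refine Real.rpow_le_rpow_of_exponent_le hZ ?_
    rw [hη]; linarith
  have hZe : 0 ≤ Z ^ ε := by positivity
  have hOK : ∀ i ∈ OI Pr J EE E0 E1 R B Z b₀ K, (cdI i).OK (Z ^ 5) EE := fun i hi =>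
    OI_OK hJ hZ hR0 hRZ hB0 hBZ hE1Z hJ1 hi
  have hc0 : 0 ≤ c' := le_trans (by positivity) hc'
  have hc1 : C1 * (Z ^ 5) ^ (ε / 5) ≤ c := by
    rw [e5]
    refine le_trans ?_ hc
    have : C1 ≤ C1 + C2 + C3 := by linarith
    gcongr
  have hrv : ((V' / V) ^ (1 / 6 : ℝ))⁻¹ = (V / V') ^ (1 / 6 : ℝ) := by
    rw [← Real.inv_rpow (by positivity), inv_div]
  rw [hrv]
  rcases hcl with hG | ⟨hP, hG⟩
  · refine h1 (Z ^ 5) hZ5 EE (fun _ _ => S (Z ^ 5) ×ˢ S (Z ^ 5)) (c' * G1) E1 B _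
      (fun i => (cdI i).swap) K V' V X H G0
      B2 B3 B4 c sd hK hV' hV hX hH hE1 hB0 (by positivity) hB2 hB3 hB4 hc1 hsd x2 x3 x4
      (fun i hi => (hOK i hi).swap)
      (fun i hi => (hOK i hi).e) (fun i hi => ?_)
      (fun i hi => mem_product.mpr ⟨(hOK i hi).d, (hOK i hi).g⟩) ?_
      (fun i _ j _ hU hV => cdI_inj' hU hV)
    · obtain ⟨t1, t2, t3⟩ := OI_tb hB0 hi
      exact ⟨t1, t3, t2⟩
    intro i hi hi2
    refine (DG_all hη0 hZ5 (hi2.trans hG)).trans ?_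
    rw [← hC2]
    calc C2 * ((Z ^ 5) ^ η) ^ 2 * G1 ≤ C2 * Z ^ ε * G1 := by gcongr
      _ ≤ c' * G1 := by
        refine mul_le_mul_of_nonneg_right (le_trans ?_ hc') hG1
        have : C2 ≤ C1 + C2 + C3 := by linarith
        gcongr
  · refine h1 (Z ^ 5) hZ5 EE (fun d g => ((S (Z ^ 5)).filter
      (fun d' => (nm d : ℝ) ≤ 2 * nm d')) ×ˢ {g}) (c' * G1) E1 B _ (fun i => (cdI i).swap)
      K V' V X H G0
      B2 B3 B4 c sd hK hV' hV hX hH hE1 hB0 (by positivity) hB2 hB3 hB4 hc1 hsd x2 x3 x4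
      (fun i hi => (hOK i hi).swap)
      (fun i hi => (hOK i hi).e) (fun i hi => ?_) ?_ ?_
      (fun i _ j _ hU hV => cdI_inj' hU hV)
    · obtain ⟨t1, t2, t3⟩ := OI_tb hB0 hi
      exact ⟨t1, t3, t2⟩
    · intro i hi
      obtain ⟨k1, k2, k3⟩ := OI_Pr hi
      obtain ⟨m1, m2, m3⟩ := hP _ k2 _ k3 k1
      rw [mem_product, mem_filter, mem_singleton]
      exact ⟨⟨(hOK i hi).d, m3⟩, m1⟩
    · intro i hi hi2
      have hg : (cdI i).swap.g ≠ 0 := ((hOK i hi).prim (hOK i hi).g').ne_zero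
      refine (DG_cls hη0 hZ5 hg).trans ?_
      calc 2 * ((200 * (1 + 1 / η)) * (Z ^ 5) ^ η) = C3 * (Z ^ 5) ^ η := by rw [hC3]; ring
        _ ≤ C3 * Z ^ ε := by gcongr
        _ ≤ c' := by
          refine le_trans ?_ hc'
          have : C3 ≤ C1 + C2 + C3 := by linarith
          gcongr
        _ ≤ c' * G1 := le_mul_of_one_le_right hc0 hG

end lit

end Crest.Agent.R017.E3Z548
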