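import Crest.Agent.R017.E3Zx_744

/-!
# Row 17, block C70, leaf E3 (S-sum) (helper290, after helper548 and helper744): one pair of levels,
the two sides with their own `H`, `H'`

* `cellsH`, `pair_ZH`, `PAIRH` : helper290's `cells`, helper744's `pair_ZA`, `PAIRA` with `H` on the
  side of `V` and `H'` on the side of `V'`
-/

set_option autoImplicit false
set_option linter.unusedVariables false

noncomputable section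

open Finset
open scoped Classical ComplexConjugate ContDiff

namespace Crest.Agent.R017.E3Zh290

open Crest.Agent.R012 Crest.Agent.R012.Eis Crest.Agent.R012.Div277
open Crest.Agent.R012.LS2 (S mem_S)
open Crest.Agent.R012.Mob705 (pb mem_pb pdiv mem_pdiv)
open Crest.Agent.R017.C70 (JC OKJ)
open Crest.Agent.R017.CM106 (CS FS)
open Crest.Agent.R017.E3D579 (TE0)
open Crest.Agent.R017.E1551 (nmpos)
open Crest.Agent.R017.GrB829 (IsC)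
open Crest.Agent.R017.E3A164 (Yp Ys fq Cs mem_Cs)
open Crest.Agent.R017.E3M829 (TC)
open Crest.Agent.R017.E3F548 (SR_prim mem_Ys' Pg Jat Tat MPTr Mc pc LC_pc Nq isC_ne)
open Crest.Agent.R017.E3T1579 (T3 WQ)
open Crest.Agent.R017.E3T2579 (wL w1L)
open Crest.Agent.R017.E3T829
open Crest.Agent.R017.E3Z548
open Crest.Agent.R017.E3Sv290 (kC)
open Crest.Agent.R017.E3Sy290 (MB1 MB2 sdC_SDf w_le nm_Mc Nq_pos_eq CellF_nonneg)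
open Crest.Agent.R017.E3Sw290
open Crest.Agent.R017.E3Zx744 (RPn SFB_leA side_ZA side_Z'A)

/-- **the cells of the literal family** -/
theorem cellsH {ε : ℝ} (hε : 0 < ε) (hε1 : ε ≤ 1) : ∃ C' : ℝ, 0 < C' ∧
    ∀ {A Bw : ℕ}, 4 ≤ Bw → ∀ {Rw : ℝ} {w1 : ℝ → ℝ},
      (∀ x, w1 x ≠ 0 → 0 < x ∧ |Real.log x| ≤ Rw) → ∀ {C cw cs b₀ : ℝ}, 0 ≤ C → 1 ≤ cw →
      1 ≤ cs → Real.exp Rw ≤ cs → 0 ≤ b₀ →
    ∀ {Z K V V' H H' X Zm : ℝ} {EE : Finset Eis} {Pr : Yp → Yp → Prop} {J : Finset (Eis × Eis)}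
      {E0 E1 R B : ℝ},
      1 ≤ Z → OKJ J → 0 ≤ R → R ≤ Z → 0 ≤ B → B ≤ Z → E1 ≤ Z → (∀ x ∈ J, (nm x.1 : ℝ) ≤ Z) →
      0 < K → K ≤ Z ^ 5 → 0 < V → 0 < V' → cw * cs * V ≤ Z ^ 5 → cw * cs * V' ≤ Z ^ 5 →
      0 < H → 0 < H' → 0 < X → 1 ≤ Zm → kZ 59049 b₀ * (Z ^ 5) ^ 10 ≤ Zm →
    ∀ {af : Eis → Eis → Eis → ℂ}, (∀ d e, FS (af d e)) → ∀ {Bs Bs' : UT → ℝ},
      (∀ t, 0 ≤ Bs t) → (∀ t, 0 ≤ Bs' t) →
      MB1 w1 A ε C cw cs K V H af (Z ^ 5) EE Bs Zm →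
      MB2 w1 A ε C cw cs K V' H' af (Z ^ 5) EE Bs' Zm →
      (∀ P PR, ∀ i ∈ OI Pr J EE E0 E1 R B Z b₀ K,
        sE1 A Bw K V V' af (w1L w1 V) i ≤ C' * C * cs ^ 2 * Zm ^ (3 * ε) *
          CellF (sdC P PR (Z ^ 5) (cw * cs) cw cs K V V' H X Bs) K V V' X af (cdI i)) ∧
      (∀ P PR, ∀ i ∈ OI Pr J EE E0 E1 R B Z b₀ K,
        sE2 A Bw K V V' af (w1L w1 V') i ≤ C' * C * cs ^ 2 * Zm ^ (3 * ε) *
          CellF (sdC P PR (Z ^ 5) (cw * cs) cw cs K V' V H' X Bs') K V' V X af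
            (cdI i).swap) := by
  obtain ⟨C', hC', h⟩ := CELL hε hε1
  have hk0 : 0 ≤ kC 59049 := by unfold kC; norm_num
  refine ⟨C' * kC 59049 + 1, by positivity, ?_⟩
  intro A Bw hBw Rw w1 hw C cw cs b₀ hC hcw hcs hRcs hb₀ Z K V V' H H' X Zm EE Pr J E0 E1 R B hZ hJ
    hR0 hRZ hB0 hBZ hE1 hJ1 hK hKz hV hV' hVz hVz' hH hH' hX hZm hZm2 af haf Bs Bs' hBs hBs' hM1
    hM2
  have hcc : 1 ≤ cw * cs := one_le_mul_of_one_le_of_one_le hcw hcs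
  have hV1 : V ≤ Z ^ 5 := (le_mul_of_one_le_left hV.le hcc).trans hVz
  have hV1' : V' ≤ Z ^ 5 := (le_mul_of_one_le_left hV'.le hcc).trans hVz'
  have hcs0 : cs ≠ 0 := by positivity
  have hZm0 : 0 < Zm := by linarith
  have hP : ∀ i ∈ OI Pr J EE E0 E1 R B Z b₀ K, PcC (Z ^ 5) EE b₀ K (cdI i) := fun i hi =>
    ⟨OI_OK hJ hZ hR0 hRZ hB0 hBZ hE1 hJ1 hi, OI_PC hi⟩
  have hP' : ∀ i ∈ OI Pr J EE E0 E1 R B Z b₀ K, PcC (Z ^ 5) EE b₀ K (cdI i).swap := fun i hi =>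
    ⟨(hP i hi).1.swap, (hP i hi).2.swap⟩
  have hwt : ∀ (V : ℝ) (t : UT) (y : ℝ), w1 (y / ZU V t) = w1 (cs * (y / (cs * ZU V t))) := by
    intro V t y
    congr 1
    rw [← mul_div_assoc, mul_div_mul_left _ _ hcs0]
  have hlast : ∀ F : ℝ, 0 ≤ F → C' * C * cs ^ 2 * kC 59049 * Zm ^ (3 * ε) * F ≤
      (C' * kC 59049 + 1) * C * cs ^ 2 * Zm ^ (3 * ε) * F := by
    intro F hF
    have h1 : 0 ≤ C * cs ^ 2 * Zm ^ (3 * ε) * F := by positivity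
    nlinarith
  constructor
  · intro P PR i hi
    have hx := hP i hi
    have hc := hx.1.c
    have hc' := hx.1.c'
    have hLC := LC_pc hc hc'
    have k := h (A := A) hBw hC hcw hcs hb₀ (w' := fun y => w1 (cs * y))
      (fun y hy => w_le hw hRcs hy) (ψ := pc (cdI i).c (cdI i).c') hLC.ne (nm_Mc hc hc')
      (fun p hp => (hLC.cop p hp).symm) hK hKz hV hV1 hV' hV1' hH hX hZm hZm2 haf hBs
      (fun t ht hY => hM1 _ _ hc hc' t ht hY) hx (wz := w1L w1 V i.1 i.2.2.1)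
      (fun y => by
        unfold w1L
        rw [Nq_pos_eq (cdI i) i.1 i.2.2.1 rfl rfl rfl rfl, hwt]) P PR (cw * cs)
    exact k.trans (hlast _ (CellF_nonneg hcw hcs le_rfl hK hV hV' hH hX hVz hBs hx))
  · intro P PR i hi
    have hx := hP' i hi
    have hc := (hP i hi).1.c
    have hc' := (hP i hi).1.c'
    have hLC := LC_pc hc hc'
    have k := h (A := A) hBw hC hcw hcs hb₀ (w' := fun y => w1 (cs * y))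
      (fun y hy => w_le hw hRcs hy) (ψ := fun m => conj (pc (cdI i).c (cdI i).c' m)) hLC.ne
      (nm_Mc hc hc') (fun p hp => (hLC.cop p hp).symm) hK hKz hV' hV1' hV hV1 hH' hX hZm hZm2
      haf hBs' (fun t ht hY => hM2 _ _ hc hc' t ht hY) hx (wz := w1L w1 V' i.1 i.2.2.2.1)
      (fun y => by
        unfold w1L
        rw [Nq_pos_eq (cdI i).swap i.1 i.2.2.2.1 rfl rfl rfl rfl, hwt]) P PR (cw * cs)
    exact k.trans (hlast _ (CellF_nonneg hcw hcs le_rfl hK hV' hV hH' hX hVz' hBs' hx))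

/-- **one pair of levels** -/
theorem pair_ZH {A Bw : ℕ} (hA : 1 < A) (hB : 1 < Bw) {Rw : ℝ} (hRw : 0 ≤ Rw) {h : ℝ → ℝ}
    (hh : ContDiff ℝ ∞ h) (hhc : HasCompactSupport h) {w1 : ℝ → ℝ}
    (hw : ∀ x, w1 x ≠ 0 → 0 < x ∧ |Real.log x| ≤ Rw)
    (hw1 : ∀ x, 0 < x → h (Real.log x) ≠ 0 → w1 x = 1) {ε : ℝ} (hε : 0 < ε) :
    ∃ C : ℝ, 0 ≤ C ∧
    ∀ (Om Om' : ℝ → ℂ) (Mb : ℝ), 0 ≤ Mb → ContDiff ℝ ∞ Om → ContDiff ℝ ∞ Om' →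
      (∀ n ≤ A + 2, ∀ x, ‖iteratedDeriv n Om x‖ ≤ Mb) →
      (∀ n ≤ A + 2, ∀ x, ‖iteratedDeriv n Om' x‖ ≤ Mb) →
    ∀ (V V' τ : ℝ) (κ κ' : ℂ), 0 < V → 0 < V' → ‖κ‖ ≤ 1 → ‖κ'‖ ≤ 1 →
    ∀ (Z : ℝ), 1 ≤ Z → ∀ (Pr : Yp → Yp → Prop) (J : Finset (Eis × Eis))
      (om om' : Eis × Eis → ℂ) (af : Eis → Eis → Eis → ℂ) (EE : Finset Eis)
      (E0 E1 R B b₀ K X H H' c Y G1 G1' cc ρ RN RN' : ℝ)
      (Bs Bs' : UT → ℝ) (sdf sdf' : (Fin 5 → Eis → Eis → ℝ) → (Eis → Eis → ℝ) → SF 5)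
      (Pc : Cd → Prop),
      TC (T3 af) → (∀ d e, FS (af d e)) → OKJ J → (∀ d e, e ∉ EE → ∀ j, T3 af d e j = 0) →
      0 < K → 0 ≤ R → R ≤ Z → 0 ≤ B → B ≤ Z → 0 ≤ E1 → E1 ≤ Z →
      (∀ x ∈ J, (nm x.1 : ℝ) ≤ Z) → (∀ x ∈ J, (nm x.2 : ℝ) ≤ R) →
      WQ J om E0 R (wL κ h Om τ V) → WQ J om' E0 R (wL κ' h Om' τ V') →
      0 < X → 0 < H → 0 < H' → 0 < cc → 0 ≤ G1 → 0 ≤ G1' →
      (Real.sqrt (c * V) ≤ G1 ∨ (ClsP Pr J E0 R ∧ 1 ≤ G1)) →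
      (Real.sqrt (c * V') ≤ G1' ∨ (ClsP Pr J E0 R ∧ 1 ≤ G1')) →
      SDf sdf c Y K V V' H X Bs (Z ^ 5) Pc → SDf sdf' c Y K V' V H' X Bs' (Z ^ 5) Pc →
      (∀ i ∈ OI Pr J EE E0 E1 R B Z b₀ K, Pc (cdI i) ∧ Pc (cdI i).swap) →
      (∀ P PR, ∀ i ∈ OI Pr J EE E0 E1 R B Z b₀ K,
        sE1 A Bw K V V' af (w1L w1 V) i ≤ cc * CellF (sdf P PR) K V V' X af (cdI i)) →
      (∀ P PR, ∀ i ∈ OI Pr J EE E0 E1 R B Z b₀ K,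
        sE2 A Bw K V V' af (w1L w1 V') i ≤ cc * CellF (sdf' P PR) K V' V X af (cdI i).swap) →
      0 ≤ ρ → 0 ≤ RN → 0 ≤ RN' → RPn J EE (Z ^ 5) K H V Bs ρ RN →
      RPn J EE (Z ^ 5) K H' V' Bs' ρ RN' →
      ∑ q ∈ S R, ∑ t ∈ pb E1, MPTr Pr A Bw K B V V' (Z ^ 5) J om om' (T3 af) E0 R b₀ q t ≤
        C * (3 + ρ) * cc * Mb ^ 2 * (1 + |τ|) ^ A * Z ^ ε * (hE EE *
          (LVn af (J.image Prod.fst) EE c Y K H V V' E1 B G1 RN +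
          LVn af (J.image Prod.fst) EE c Y K H' V' V E1 B G1' RN')) := by
  have hε6 : 0 < ε / 6 := by positivity
  obtain ⟨C1, hC1, h1⟩ := MPT_level hA hB hRw hh hhc hw hw1 hε6
  obtain ⟨C2, hC2, h2⟩ := side_ZA hε6
  obtain ⟨C3, hC3, h3⟩ := side_Z'A hε6
  refine ⟨C1 * (C2 + C3), by positivity, ?_⟩
  intro Om Om' Mb hMb hOm hOm' hOb hOb' V V' τ κ κ' hV hV' hκ hκ' Z hZ Pr J om om' af EE E0 E1 R B
    b₀ K X H H' c Y G1 G1' cc ρ RN RN' Bs Bs' sdf sdf' Pc hT haf hJ hEE hK hR0 hRZ hB0 hBZ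
    hE10 hE1 hJ1 hJ2 hwq hwq' hX hH hH' hcc hG1 hG1' hcl hcl' hs hs' hPc hu hu' hρ hRN hRN' hR hR'
  have hZ0 : 0 < Z := by linarith
  obtain ⟨sd, a1, a2, a3, a4, a5⟩ := h2 Z hZ Pr J EE af E0 E1 R B b₀ K V V' X H c Y G1 ρ RN Bs
    sdf Pc hJ hR0 hRZ hB0 hBZ hE10 hE1 hJ1 hK hV hV' hX hH hG1 hcl hs (fun i hi => (hPc i hi).1)
    hρ hRN hR
  obtain ⟨sd', a1', a2', a3', a4', a5'⟩ := h3 Z hZ Pr J EE af E0 E1 R B b₀ K V V' X H' c Y G1' ρ RN'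
    Bs' sdf' Pc hJ hR0 hRZ hB0 hBZ hE10 hE1 hJ1 hK hV hV' hX hH' hG1' hcl' hs'
    (fun i hi => (hPc i hi).2) hρ hRN' hR'
  have key := h1 Om Om' Mb hMb hOm hOm' hOb hOb' V V' τ κ κ' hV hV' hκ hκ' Z hZ Pr J om om' af EE
    E0 E1 R B b₀ K ((V' / V) ^ (1 / 6 : ℝ)) X cc 5 sd sd' Pc hT haf hJ hEE hK hR0 hRZ hB0 hBZ hE1
    hJ1 hJ2 hwq hwq' (by positivity) hX hcc a1 a1'
    (fun i _ => ⟨by rw [a2]; exact hH, by rw [a2']; exact hH'⟩) a3 a3' hPc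
    (fun i hi => a4 cc _ i hi (fun P PR => hu P PR i hi))
    (fun i hi => a4' cc _ i hi (fun P PR => hu' P PR i hi))
  have n1 := LVn_nonneg (af := af) (Ds := J.image Prod.fst) (EE := EE) (c := c) (Y := Y) (E1 := E1)
    (B := B) hK.le hH.le hV.le hV'.le hE10 hG1 hRN
  have n2 := LVn_nonneg (af := af) (Ds := J.image Prod.fst) (EE := EE) (c := c) (Y := Y) (E1 := E1)
    (B := B) hK.le hH'.le hV'.le hV.le hE10 hG1' hRN'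
  obtain ⟨N1, hN1⟩ : ∃ N1, N1 = LVn af (J.image Prod.fst) EE c Y K H V V' E1 B G1 RN := ⟨_, rfl⟩
  obtain ⟨N2, hN2⟩ : ∃ N2, N2 = LVn af (J.image Prod.fst) EE c Y K H' V' V E1 B G1' RN' :=
    ⟨_, rfl⟩
  rw [← hN1] at a5 n1 ⊢
  rw [← hN2] at a5' n2 ⊢
  have e5 : (Z ^ 5) ^ (ε / 6) = (Z ^ (ε / 6)) ^ 5 := by
    rw [← Real.rpow_natCast, ← Real.rpow_natCast, ← Real.rpow_mul hZ0.le, ← Real.rpow_mul hZ0.le]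
    congr 1; ring
  have e6 : Z ^ ε = (Z ^ (ε / 6)) ^ 6 := by
    rw [← Real.rpow_natCast, ← Real.rpow_mul hZ0.le]
    congr 1; push_cast; ring
  rw [e6]
  rw [e5] at key
  obtain ⟨z, hz⟩ : ∃ z, z = Z ^ (ε / 6) := ⟨_, rfl⟩
  have hz0 : 0 ≤ z := by rw [hz]; positivity
  rw [← hz] at a5 a5' key ⊢
  have hhE := hE_nonneg EE
  have hc0 : 0 ≤ C1 * cc * Mb ^ 2 * (1 + |τ|) ^ A * z ^ 5 := by positivity
  have k3 : SFB sd af (RR J EE) (RUs J EE (Z ^ 5)) + SFB sd' af (RR J EE) (RUs J EE (Z ^ 5)) ≤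
      (C2 + C3) * z * (3 + ρ) * (hE EE * (N1 + N2)) := by
    refine (add_le_add a5 a5').trans ?_
    have m1 : 0 ≤ C3 * z * (3 + ρ) * (hE EE * N1) := by positivity
    have m2 : 0 ≤ C2 * z * (3 + ρ) * (hE EE * N2) := by positivity
    linarith
  refine key.trans ((mul_le_mul_of_nonneg_left k3 hc0).trans (le_of_eq ?_))
  ring

/-- **one pair of levels from the Möbius bounds** -/
theorem PAIRH {A Bw : ℕ} (hA : 1 < A) (hB : 4 ≤ Bw) {Rw : ℝ} (hRw : 0 ≤ Rw) {h : ℝ → ℝ}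
    (hh : ContDiff ℝ ∞ h) (hhc : HasCompactSupport h) {w1 : ℝ → ℝ}
    (hw : ∀ x, w1 x ≠ 0 → 0 < x ∧ |Real.log x| ≤ Rw)
    (hw1 : ∀ x, 0 < x → h (Real.log x) ≠ 0 → w1 x = 1) {cw cs b₀ : ℝ} (hcw : 1 ≤ cw)
    (hcs : 1 ≤ cs) (hRcs : Real.exp Rw ≤ cs) (hb₀ : 0 ≤ b₀) {ε : ℝ} (hε : 0 < ε)
    (hε1 : ε ≤ 1) :
    ∃ C : ℝ, 0 ≤ C ∧
    ∀ (Om Om' : ℝ → ℂ) (Mb : ℝ), 0 ≤ Mb → ContDiff ℝ ∞ Om → ContDiff ℝ ∞ Om' →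
      (∀ n ≤ A + 2, ∀ x, ‖iteratedDeriv n Om x‖ ≤ Mb) →
      (∀ n ≤ A + 2, ∀ x, ‖iteratedDeriv n Om' x‖ ≤ Mb) →
    ∀ (V V' τ : ℝ) (κ κ' : ℂ), 0 < V → 0 < V' → ‖κ‖ ≤ 1 → ‖κ'‖ ≤ 1 →
    ∀ (Z : ℝ), 1 ≤ Z → ∀ (Pr : Yp → Yp → Prop) (J : Finset (Eis × Eis))
      (om om' : Eis × Eis → ℂ) (af : Eis → Eis → Eis → ℂ) (EE : Finset Eis)
      (E0 E1 R B K X H H' G1 G1' C0 Zm ρ RN RN' : ℝ)
      (Bs Bs' : UT → ℝ),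
      TC (T3 af) → (∀ d e, FS (af d e)) → OKJ J → (∀ d e, e ∉ EE → ∀ j, T3 af d e j = 0) →
      0 < K → 0 ≤ R → R ≤ Z → 0 ≤ B → B ≤ Z → 0 ≤ E1 → E1 ≤ Z →
      (∀ x ∈ J, (nm x.1 : ℝ) ≤ Z) → (∀ x ∈ J, (nm x.2 : ℝ) ≤ R) →
      WQ J om E0 R (wL κ h Om τ V) → WQ J om' E0 R (wL κ' h Om' τ V') →
      0 < X → 0 < H → 0 < H' → 0 < C0 → 0 ≤ G1 → 0 ≤ G1' →
      K ≤ Z ^ 5 → cw * cs * V ≤ Z ^ 5 → cw * cs * V' ≤ Z ^ 5 →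
      1 ≤ Zm → kZ 59049 b₀ * (Z ^ 5) ^ 10 ≤ Zm →
      (Real.sqrt (cw * cs * V) ≤ G1 ∨ (ClsP Pr J E0 R ∧ 1 ≤ G1)) →
      (Real.sqrt (cw * cs * V') ≤ G1' ∨ (ClsP Pr J E0 R ∧ 1 ≤ G1')) →
      (∀ t, 0 ≤ Bs t) → (∀ t, 0 ≤ Bs' t) →
      MB1 w1 A ε C0 cw cs K V H af (Z ^ 5) EE Bs Zm →
      MB2 w1 A ε C0 cw cs K V' H' af (Z ^ 5) EE Bs' Zm →
      0 ≤ ρ → 0 ≤ RN → 0 ≤ RN' → RPn J EE (Z ^ 5) K H V Bs ρ RN →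
      RPn J EE (Z ^ 5) K H' V' Bs' ρ RN' →
      ∑ q ∈ S R, ∑ t ∈ pb E1, MPTr Pr A Bw K B V V' (Z ^ 5) J om om' (T3 af) E0 R b₀ q t ≤
        C * (3 + ρ) * (C0 * cs ^ 2 * Zm ^ (3 * ε)) * Mb ^ 2 * (1 + |τ|) ^ A * Z ^ ε * (hE EE *
          (LVn af (J.image Prod.fst) EE (cw * cs) (Z ^ 5) K H V V' E1 B G1 RN +
          LVn af (J.image Prod.fst) EE (cw * cs) (Z ^ 5) K H' V' V E1 B G1' RN')) := by
  obtain ⟨C1, hC1, h1⟩ := pair_ZH hA (by omega : 1 < Bw) hRw hh hhc hw hw1 hε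
  obtain ⟨C2, hC2, h2⟩ := cellsH hε hε1
  refine ⟨C1 * C2, by positivity, ?_⟩
  intro Om Om' Mb hMb hOm hOm' hOb hOb' V V' τ κ κ' hV hV' hκ hκ' Z hZ Pr J om om' af EE E0 E1 R B
    K X H H' G1 G1' C0 Zm ρ RN RN' Bs Bs' hT haf hJ hEE hK hR0 hRZ hB0 hBZ hE10 hE1 hJ1 hJ2
    hwq hwq' hX hH hH' hC0 hG1 hG1' hKz hVz hVz' hZm hZm2 hcl hcl' hBs hBs' hM1 hM2 hρ hRN hRN' hR hR'
  have hcs0 : 0 < cs := by linarith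
  have hZm0 : 0 < Zm := by linarith
  obtain ⟨k1, k2⟩ := h2 (A := A) hB hw hC0.le hcw hcs hRcs hb₀ (Pr := Pr) (J := J) (E0 := E0)
    (E1 := E1) (R := R) (B := B) (EE := EE) hZ hJ hR0 hRZ hB0 hBZ hE1 hJ1 hK hKz hV hV' hVz hVz'
    hH hH' hX hZm hZm2 haf hBs hBs' hM1 hM2
  have key := h1 Om Om' Mb hMb hOm hOm' hOb hOb' V V' τ κ κ' hV hV' hκ hκ' Z hZ Pr J om om' af EE
    E0 E1 R B b₀ K X H H' (cw * cs) (Z ^ 5) G1 G1' (C2 * C0 * cs ^ 2 * Zm ^ (3 * ε)) ρ RN RN'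
    Bs Bs' (fun P PR => sdC P PR (Z ^ 5) (cw * cs) cw cs K V V' H X Bs)
    (fun P PR => sdC P PR (Z ^ 5) (cw * cs) cw cs K V' V H' X Bs') (PcC (Z ^ 5) EE b₀ K) hT haf hJ
    hEE hK hR0 hRZ hB0 hBZ hE10 hE1 hJ1 hJ2 hwq hwq' hX hH hH' (by positivity) hG1 hG1' hcl hcl'
    (sdC_SDf hcw hcs le_rfl hK hV hV' hH hX hVz hBs)
    (sdC_SDf hcw hcs le_rfl hK hV' hV hH' hX hVz' hBs')
    (fun i hi => ⟨⟨OI_OK hJ hZ hR0 hRZ hB0 hBZ hE1 hJ1 hi, OI_PC hi⟩,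
      ⟨(OI_OK hJ hZ hR0 hRZ hB0 hBZ hE1 hJ1 hi).swap, (OI_PC hi).swap⟩⟩) k1 k2 hρ hRN hRN' hR hR'
  exact key.trans (le_of_eq (by ring))

end Crest.Agent.R017.E3Zh290
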