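import Crest.Agent.R017.E3q9_681

/-!
# Row 17, block C70, leaf E4 (x-side), the block bound, part 1 (helper681)

* `mode_small` : the modes of one cell, `N / nm (a D F) < 1`
* `r1_sum` : the sums over the cells
-/

set_option autoImplicit false
set_option linter.unusedVariables false
set_option maxHeartbeats 400000

noncomputable section

open Complex MeasureTheory
open scoped ComplexConjugate Classical ContDiff

namespace Crest.Agent.R017.E3q681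

open Crest.Agent.R012 Crest.Agent.R012.Eis Crest.Agent.R012.MC
open Crest.Agent.R012.LS2 (S mem_S bl mem_bl)
open Crest.Agent.R012.Div277 (dvs mem_dvs isPrim_of_mem_dvs dvd_of_mem_dvs tau tau_le_rpow)
open Crest.Agent.R012.Mob705 (mu pdiv mem_pdiv)
open Crest.Agent.R012.NonCube52 (Ker kv Good kc kc_spec kc_nm kv_ne_zero one_le_nmkv)
open Crest.Agent.R012.Weight600 (pw)
open Crest.Agent.R017.PX764 (n6)
open Crest.Agent.R017.CM106 (CS TG FS)
open Crest.Agent.R017.E1551 (nmpos jb jb_pos nm_ge_one summable_wF)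
open Crest.Agent.R017.BD829
open Crest.Agent.R017.E3P842
open Crest.Agent.R017.E3D579
open Crest.Agent.R017.E3Sd579
open Crest.Agent.R017.Mode405
open Crest.Agent.R017.DgB829 (HS HS_nonneg HS_le)
open Gauss880 (syG)

lemma TC_mono {e X X' : ℝ} (hX : X ≤ X') (b : Eis → ℂ) {x : Eis} (hx : IsPrim x) :
    TC e X b x ≤ TC e X' b x := by
  unfold TC
  refine Finset.sum_le_sum_of_subset_of_nonneg (fun n hn => ?_) fun _ _ _ => by positivity
  rw [Finset.mem_filter, mem_primBall] at hn ⊢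
  refine ⟨⟨hn.1.1.trans ?_, hn.1.2⟩, hn.2⟩
  refine Nat.floor_le_floor (div_le_div_of_nonneg_right hX (Nat.cast_nonneg _))

lemma n6_le_one {n : Eis} (hn : n ≠ 0) : n6 n ≤ 1 := by
  unfold n6
  have h1 := nm_ge_one hn
  exact Real.rpow_le_one_of_one_le_of_nonpos h1 (by norm_num)

lemma norm_uS_le {om : ℝ → ℂ} {r n : Eis} {b : Eis → ℂ} :
    ‖uS om r b n‖ ≤ if IsPrim n ∧ Squarefree n ∧ IsCoprime n r then
      ‖om (nm n)‖ * (n6 n * ‖CS b n‖) else 0 := by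
  unfold uS
  split_ifs with h
  · rw [norm_mul, norm_mul, norm_mul, RCLike.norm_conj, Complex.norm_real, Real.norm_eq_abs,
      abs_of_nonneg (n6_nonneg n), Gauss880.norm_G syG h.1 h.2.1, one_mul]
  · simp

lemma card_S_le {Y : ℝ} (hY : 0 ≤ Y) : ((S Y).card : ℝ) ≤ 16 * Y := by
  refine le_trans ?_ (CR2.card_bl_le hY)
  have h : S Y ⊆ bl Y := by
    intro n hn
    rw [mem_S hY] at hn
    rw [mem_bl hY]
    exact ⟨hn.2.1.ne_zero, hn.1⟩
  exact_mod_cast Finset.card_le_card h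

/-- **the modes of one cell**, `N / nm (a D F) < 1` -/
theorem mode_small {A' : ℝ} (hA' : 1 < A') {χ : Eis → ℂ} (hχ : Mul1 χ) {w1 : ℝ → ℝ} {R₀ Cw : ℝ}
    (hw : ∀ x, w1 x ≠ 0 → 0 < x ∧ |Real.log x| ≤ R₀) (hCw : ∀ x, |w1 x| ≤ Cw) {b : Eis → ℂ}
    (hb : FS b) {N : ℝ} (hN : 0 < N) {κ F R a : Eis} (hκ : IsPrim κ) (hF : IsPrim F)
    (hY : N / nm (κ * F) < 1) {L : ℝ} (hL : 0 ≤ L) (q : Eis → Eis) :
    ∑ w ∈ bl L, EQ A' (pS χ (fun x => ((w1 (x / (N / nm (κ * F))) : ℝ) : ℂ)) (R * a * (κ * F))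
      (bF κ F b)) (q w) ≤
      (256 * Real.exp R₀ * (∫ t, jb A' t) * Cw ^ 2) * L * TC 1 (Real.exp R₀ * N) b (κ * F) := by
  have hx0 : IsPrim (κ * F) := hκ.mul hF
  set x0 := κ * F with hx0d
  have nx0 := nmpos hx0.ne_zero
  set Yc := N / nm x0 with hYc
  have hYc0 : 0 < Yc := by positivity
  set u := pS χ (fun x => ((w1 (x / Yc) : ℝ) : ℂ)) (R * a * x0) (bF κ F b) with hu
  set T1 := TC 1 (Real.exp R₀ * N) b x0 with hT1
  have hT10 : 0 ≤ T1 := TC_nonneg _ _ _ _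
  have hCw0 : 0 ≤ Cw := (abs_nonneg _).trans (hCw 0)
  have hj : 0 ≤ ∫ t, jb A' t := integral_nonneg fun t => (jb_pos _ t).le
  have he0 := Real.exp_pos R₀
  have hYe : 0 ≤ Real.exp R₀ * Yc := by positivity
  have hus : ∀ n, u n ≠ 0 → n ∈ S (Real.exp R₀ * Yc) :=
    fun n hn => (E3Se579.pS_w_supp hw hYc0 hn).1
  have hun : ∀ n, ‖u n‖ ≤ if IsCoprime n (R * a * x0) then Cw * ‖CS (bF κ F b) n‖ else 0 := by
    intro n
    by_cases h0 : u n = 0
    · rw [h0, norm_zero]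
      split_ifs <;> positivity
    · obtain ⟨h1, h2, h3, -⟩ := pS_supp h0
      rw [if_pos h3, hu]
      unfold pS
      rw [norm_mul]
      have h4 := norm_uS_le (om := fun x => ((w1 (x / Yc) : ℝ) : ℂ)) (r := R * a * x0) (n := n)
        (b := bF κ F b)
      rw [if_pos ⟨h1, h2, h3⟩] at h4
      have h5 : ‖((w1 ((nm n : ℝ) / Yc) : ℝ) : ℂ)‖ ≤ Cw := by
        rw [Complex.norm_real, Real.norm_eq_abs]; exact hCw _
      have h6 := hχ.le n h1
      have h7 := n6_le_one h1.ne_zero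
      have h8 := n6_nonneg n
      calc ‖χ n‖ * ‖uS (fun x => ((w1 (x / Yc) : ℝ) : ℂ)) (R * a * x0) (bF κ F b) n‖
          ≤ 1 * (Cw * (1 * ‖CS (bF κ F b) n‖)) := by
            refine mul_le_mul h6 (h4.trans ?_) (norm_nonneg _) zero_le_one
            gcongr
        _ = _ := by ring
  have hsq : (∑ k ∈ S (Real.exp R₀ * Yc), ‖u k‖) ^ 2 ≤ (16 * Real.exp R₀) * (Cw ^ 2 * T1) := by
    have h1 : (∑ k ∈ S (Real.exp R₀ * Yc), ‖u k‖) ^ 2 ≤
        ((S (Real.exp R₀ * Yc)).card : ℝ) * ∑ k ∈ S (Real.exp R₀ * Yc), ‖u k‖ ^ 2 :=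
      sq_sum_le_card_mul_sum_sq
    have h2 : ((S (Real.exp R₀ * Yc)).card : ℝ) ≤ 16 * Real.exp R₀ := by
      refine (card_S_le hYe).trans ?_
      have : Real.exp R₀ * Yc ≤ Real.exp R₀ * 1 := mul_le_mul_of_nonneg_left hY.le he0.le
      linarith
    have h3 : ∑ k ∈ S (Real.exp R₀ * Yc), ‖u k‖ ^ 2 ≤ Cw ^ 2 * T1 := by
      calc ∑ k ∈ S (Real.exp R₀ * Yc), ‖u k‖ ^ 2
          ≤ ∑ k ∈ (S (Real.exp R₀ * Yc)).filter (fun k => IsCoprime k (R * a * x0)),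
            Cw ^ 2 * ‖CS (bF κ F b) k‖ ^ 2 := by
            rw [Finset.sum_filter]
            refine Finset.sum_le_sum fun k _ => ?_
            have h4 := hun k
            split_ifs at h4 ⊢ with h5
            · calc ‖u k‖ ^ 2 ≤ (Cw * ‖CS (bF κ F b) k‖) ^ 2 :=
                    pow_le_pow_left₀ (norm_nonneg _) h4 2
                _ = _ := by ring
            · have h6 : ‖u k‖ = 0 := le_antisymm h4 (norm_nonneg _)
              rw [h6]; simp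
        _ = Cw ^ 2 * ∑ k ∈ (S (Real.exp R₀ * Yc)).filter (fun k => IsCoprime k (R * a * x0)),
            ‖CS (bF κ F b) k‖ ^ 2 := by rw [Finset.mul_sum]
        _ ≤ Cw ^ 2 * DT 1 (Real.exp R₀ * Yc) (bF κ F b) (1 * (κ * F)) := by
            refine mul_le_mul_of_nonneg_left (S_le_DT hYe _ ?_) (by positivity)
            rw [one_mul]; exact dvd_mul_left _ _
        _ ≤ Cw ^ 2 * T1 := by
            refine mul_le_mul_of_nonneg_left ?_ (by positivity)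
            have e1 : Real.exp R₀ * Yc = Real.exp R₀ * N / nm x0 := by rw [hYc]; ring
            rw [e1]
            exact DT_le hκ hF hb 1 rfl 1 (Real.exp R₀ * N)
    calc _ ≤ ((S (Real.exp R₀ * Yc)).card : ℝ) * ∑ k ∈ S (Real.exp R₀ * Yc), ‖u k‖ ^ 2 := h1
      _ ≤ _ := mul_le_mul h2 h3 (Finset.sum_nonneg fun _ _ => by positivity) (by positivity)
  calc ∑ w ∈ bl L, EQ A' u (q w)
      ≤ ∑ w ∈ bl L, (∫ t, jb A' t) * ((16 * Real.exp R₀) * (Cw ^ 2 * T1)) :=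
        Finset.sum_le_sum fun w _ => (E3Sp579.EQ_le hA' hYe hus (q w)).trans
          (mul_le_mul_of_nonneg_left hsq hj)
    _ = ((bl L).card : ℝ) * ((∫ t, jb A' t) * ((16 * Real.exp R₀) * (Cw ^ 2 * T1))) := by
        rw [Finset.sum_const, nsmul_eq_mul]
    _ ≤ (16 * L) * ((∫ t, jb A' t) * ((16 * Real.exp R₀) * (Cw ^ 2 * T1))) :=
        mul_le_mul_of_nonneg_right (CR2.card_bl_le hL) (by positivity)
    _ = _ := by ring

/-! ### the real comparison -/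

lemma GB_smul (K H Λ m₀ N mi q TQ R1 s b a D E F L x : ℝ) :
    GB K H Λ m₀ N mi q (x * TQ) (x * R1) s b a D E F L =
      x * GB K H Λ m₀ N mi q TQ R1 s b a D E F L := by
  unfold GB
  ring

lemma GB_nonneg {K H Λ m₀ N mi q TQ R1 s b a D E F L : ℝ} (hK : 0 < K) (hH : 0 < H) (hΛ : 0 < Λ)
    (hm : 0 < m₀) (hN : 0 < N) (hmi : 0 < mi) (hq : 0 < q) (hT : 0 ≤ TQ) (hR : 0 ≤ R1)
    (hs : 0 < s) (hb : 0 < b) (ha : 0 < a) (hD : 0 < D) (hE : 0 < E) (hF : 0 < F) (hL : 0 ≤ L) :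
    0 ≤ GB K H Λ m₀ N mi q TQ R1 s b a D E F L := by
  have hLt := LtC_pos hK hD hN ha hm hΛ hF hH hmi
  unfold GB
  positivity

/-- the large cells -/
lemma GB_ge {K H Λ m₀ N mi q T1 T2 W s b a D E F L : ℝ} (hK : 0 < K) (hH : 0 < H) (hΛ : 0 < Λ)
    (hm : 0 < m₀) (hN : 0 < N) (hmi : 0 < mi) (hq : 0 < q) (hT1 : 0 ≤ T1) (hT2 : 0 ≤ T2)
    (hW : 0 ≤ W) (hs : 0 < s) (hb : 0 < b) (ha : 0 < a) (hD : 0 < D) (hE : 0 < E) (hF : 0 < F)
    (hL : 0 ≤ L) :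
    (a * D * F) ^ (-(1 / 3) : ℝ) * ((N / (a * D * F)) ^ (-(1 : ℝ) / 3) *
      CBx L (L * (27 * E ^ 2 * s ^ 2 * b) * q / LtC K H Λ m₀ N mi a D F) (N / (a * D * F))
        (LtC K H Λ m₀ N mi a D F) T1 T2 W) ≤
    GB K H Λ m₀ N mi q (2 * T1) (if 1 ≤ LtC K H Λ m₀ N mi a D F then
      W + LtC K H Λ m₀ N mi a D F * (N / (a * D * F)) ^ (-(1 / 2) : ℝ) * T2 else 0)
      s b a D E F L := by
  have hLt := LtC_pos hK hD hN ha hm hΛ hF hH hmi
  set Lt := LtC K H Λ m₀ N mi a D F with hLtd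
  set Yc := N / (a * D * F) with hYc
  have hY0 : 0 < Yc := by positivity
  have e1 : (a * D * F) ^ (-(1 / 3) : ℝ) * Yc ^ (-(1 : ℝ) / 3) = N ^ (-(1 / 3) : ℝ) := by
    have h1 : (-(1 : ℝ) / 3) = (-(1 / 3) : ℝ) := by norm_num
    rw [h1, ← Real.mul_rpow (by positivity) (by positivity)]
    congr 1
    rw [hYc]; field_simp
  have e2 : Yc * Yc ^ (-(1 / 2) : ℝ) = Yc ^ (1 / 2 : ℝ) := by
    conv_lhs => rw [← Real.rpow_one Yc, ← Real.rpow_mul hY0.le, ← Real.rpow_add hY0]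
    norm_num
  rw [← mul_assoc, e1]
  unfold GB CBx
  rw [← hLtd, ← hYc]
  refine mul_le_mul_of_nonneg_left ?_ (by positivity)
  set c := (L * (27 * E ^ 2 * s ^ 2 * b) * q / Lt) ^ (1 / 3 : ℝ) with hc
  have hc0 : 0 ≤ c := by positivity
  have h2 : Yc * T1 + (if 1 ≤ Lt then Yc * W + ((Yc + (Lt * Yc) ^ (2 / 3 : ℝ)) * T1 +
      Lt * Yc ^ (1 / 2 : ℝ) * T2) else 0) ≤
      Yc * (2 * T1 + (if 1 ≤ Lt then W + Lt * Yc ^ (-(1 / 2) : ℝ) * T2 else 0)) +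
        ((Lt * Yc) ^ (2 / 3 : ℝ) + Lt * Yc ^ (1 / 2 : ℝ)) * (2 * T1) := by
    have h3 : 0 ≤ (Lt * Yc) ^ (2 / 3 : ℝ) * T1 := by positivity
    have h4 : 0 ≤ Lt * Yc ^ (1 / 2 : ℝ) * T1 := by positivity
    have h5 : 0 ≤ Yc * T1 := by positivity
    split_ifs
    · have h6 : Yc * (Lt * Yc ^ (-(1 / 2) : ℝ) * T2) = Lt * Yc ^ (1 / 2 : ℝ) * T2 := by
        rw [← e2]; ring
      nlinarith
    · nlinarith
  have h7 : 0 ≤ (L + (L * Yc) ^ (2 / 3 : ℝ)) * T1 := by positivity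
  have h8 := mul_le_mul_of_nonneg_left h2 hc0
  nlinarith

/-- the small cells -/
lemma GB_ge_small {K H Λ m₀ N mi q T1 R1 s b a D E F L : ℝ} (hK : 0 < K) (hH : 0 < H) (hΛ : 0 < Λ)
    (hm : 0 < m₀) (hN : 0 < N) (hmi : 0 < mi) (hq : 0 < q) (hT1 : 0 ≤ T1) (hR1 : 0 ≤ R1)
    (hs : 0 < s) (hb : 0 < b) (ha : 0 < a) (hD : 0 < D) (hE : 0 < E) (hF : 0 < F)
    (hL : 0 ≤ L) (hY : N / (a * D * F) < 1) :
    (a * D * F) ^ (-(1 / 3) : ℝ) * (L * T1) ≤ GB K H Λ m₀ N mi q (2 * T1) R1 s b a D E F L := by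
  have hLt := LtC_pos hK hD hN ha hm hΛ hF hH hmi
  have h0 : 0 < a * D * F := by positivity
  have h1 : (a * D * F) ^ (-(1 / 3) : ℝ) ≤ N ^ (-(1 / 3) : ℝ) := by
    refine Real.rpow_le_rpow_of_nonpos hN ?_ (by norm_num)
    rw [div_lt_one h0] at hY
    exact hY.le
  unfold GB
  have h2 : 0 ≤ (L * (27 * E ^ 2 * s ^ 2 * b) * q / LtC K H Λ m₀ N mi a D F) ^
      (1 / 3 : ℝ) * ((N / (a * D * F)) * (2 * T1 + R1) +
        ((LtC K H Λ m₀ N mi a D F * (N / (a * D * F))) ^ (2 / 3 : ℝ) +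
          LtC K H Λ m₀ N mi a D F * (N / (a * D * F)) ^ (1 / 2 : ℝ)) * (2 * T1)) := by positivity
  have h3 : 0 ≤ (L * (N / (a * D * F))) ^ (2 / 3 : ℝ) := by positivity
  calc (a * D * F) ^ (-(1 / 3) : ℝ) * (L * T1) ≤ N ^ (-(1 / 3) : ℝ) * (L * T1) :=
        mul_le_mul_of_nonneg_right h1 (by positivity)
    _ ≤ _ := by
        refine mul_le_mul_of_nonneg_left ?_ (by positivity)
        have h4 : 0 ≤ L * T1 := by positivity
        have h5 : 0 ≤ (L * (N / (a * D * F))) ^ (2 / 3 : ℝ) * (2 * T1) := by positivity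
        nlinarith

/-! ### the sums over the cells -/

lemma sum3_inv {Z M₀ Y : ℝ} (hM : 0 ≤ M₀) (hMZ : M₀ ≤ Z) (hY : 0 ≤ Y) (hYZ : Y ≤ Z) :
    ∑ a ∈ S M₀, ∑ D ∈ S Y, ∑ F ∈ S Y, (1 : ℝ) / ((nm a * nm D : ℝ) ^ 2 * (nm F : ℝ) ^ 2) ≤
      HS Z ^ 3 := by
  have hZ : 0 ≤ Z := hM.trans hMZ
  have hsub : ∀ {X : ℝ}, 0 ≤ X → X ≤ Z → ∑ n ∈ S X, (1 : ℝ) / nm n ≤ HS Z := by
    intro X hX hXZ
    unfold HS
    refine Finset.sum_le_sum_of_subset_of_nonneg (fun n hn => ?_) fun _ _ _ => by positivity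
    rw [mem_S hX] at hn
    rw [mem_S hZ]
    exact ⟨hn.1.trans hXZ, hn.2⟩
  have h1 := hsub hM hMZ
  have h2 := hsub hY hYZ
  have h0 : ∀ X : ℝ, 0 ≤ ∑ n ∈ S X, (1 : ℝ) / nm n := fun X =>
    Finset.sum_nonneg fun _ _ => by positivity
  calc _ ≤ ∑ a ∈ S M₀, ∑ D ∈ S Y, ∑ F ∈ S Y, (1 : ℝ) / nm a * (1 / nm D * (1 / nm F)) := by
        refine Finset.sum_le_sum fun a ha => Finset.sum_le_sum fun D hD =>
          Finset.sum_le_sum fun F hF => ?_
        have na := nm_ge_one ((mem_S hM).1 ha).2.1.ne_zero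
        have nD := nm_ge_one ((mem_S hY).1 hD).2.1.ne_zero
        have nF := nm_ge_one ((mem_S hY).1 hF).2.1.ne_zero
        have e : (1 : ℝ) / nm a * (1 / nm D * (1 / nm F)) = 1 / (nm a * nm D * nm F) := by
          field_simp
        rw [e]
        refine one_div_le_one_div_of_le (by positivity) ?_
        have h3 : 1 ≤ (nm a : ℝ) * nm D := one_le_mul_of_one_le_of_one_le na nD
        have h4 : (nm a * nm D : ℝ) ≤ (nm a * nm D : ℝ) ^ 2 := by nlinarith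
        have h5 : (nm F : ℝ) ≤ (nm F : ℝ) ^ 2 := by nlinarith
        exact mul_le_mul h4 h5 (by positivity) (by positivity)
    _ = (∑ a ∈ S M₀, (1 : ℝ) / nm a) * ((∑ D ∈ S Y, (1 : ℝ) / nm D) *
        (∑ F ∈ S Y, (1 : ℝ) / nm F)) := by
        rw [Finset.sum_mul]
        refine Finset.sum_congr rfl fun a _ => ?_
        rw [Finset.sum_mul_sum, Finset.mul_sum]
        refine Finset.sum_congr rfl fun D _ => ?_
        rw [Finset.mul_sum]
    _ ≤ HS Z * (HS Z * HS Z) := by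
        have := h0 M₀
        have := h0 Y
        have := HS_nonneg Z
        gcongr
    _ = _ := by ring

lemma HS_le_rpow {ε : ℝ} (hε : 0 < ε) {Z : ℝ} (hZ : 1 ≤ Z) :
    HS Z ≤ (200 * (1 + 1 / ε)) * Z ^ ε := by
  have hZ0 : 0 < Z := by linarith
  have h1 := HS_le hZ
  have h2 : Real.log Z ≤ Z ^ ε / ε := Real.log_le_rpow_div hZ0.le hε
  have h3 : 1 ≤ Z ^ ε := Real.one_le_rpow hZ hε.le
  have h4 : Z ^ ε / ε = (1 / ε) * Z ^ ε := by field_simp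
  calc HS Z ≤ 200 * (1 + Real.log Z) := h1
    _ ≤ 200 * (Z ^ ε + (1 / ε) * Z ^ ε) := by
        rw [← h4]
        exact mul_le_mul_of_nonneg_left (add_le_add h3 h2) (by norm_num)
    _ = _ := by ring

end Crest.Agent.R017.E3q681
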