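import Crest.Agent.R017.E3q11_681

/-!
# Row 17, block C70, leaf E4 (x-side), the block bound (helper681)

* `XB` : **the block bound** `∑_{a ∈ P} ‖AQ I m V a‖² ≤ C T Z^ε K ∑_i |c_i|² N_i^{-1/3} XBi`
-/

set_option autoImplicit false
set_option linter.unusedVariables false
set_option maxHeartbeats 400000

noncomputable section

open Complex MeasureTheory
open scoped ComplexConjugate Classical ContDiff

namespace Crest.Agent.R017.E3q681

open Crest.Agent.R012 Crest.Agent.R012.Eis Crest.Agent.R012.MC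
open Crest.Agent.R012.LS2 (S mem_S bl mem_bl)
open Crest.Agent.R012.Div277 (dvs mem_dvs isPrim_of_mem_dvs dvd_of_mem_dvs tau tau_le_rpow)
open Crest.Agent.R012.Mob705 (mu pdiv mem_pdiv)
open Crest.Agent.R012.NonCube52 (Ker kv Good kc kc_spec kc_nm kv_ne_zero one_le_nmkv)
open Crest.Agent.R012.Weight600 (pw)
open Crest.Agent.R017.PX764 (n6)
open Crest.Agent.R017.CM106 (CS TG FS)
open Crest.Agent.R017.E1551 (nmpos jb jb_pos nm_ge_one summable_wF)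
open Crest.Agent.R017.BD829
open Crest.Agent.R017.E3P842
open Crest.Agent.R017.E3D579
open Crest.Agent.R017.E3Sd579
open Crest.Agent.R017.Mode405
open Crest.Agent.R017.DgB829 (HS HS_nonneg HS_le)
open Gauss880 (syG)

variable {OK : ℝ → ℝ → Eis → Set Tst → Prop} {χ : Eis → ℂ} {w1 : ℝ → ℝ} {h : ℝ → ℝ}

/-- the sum of the `T`-parts -/
lemma sum_TQf {C δ : ℝ} (hC : ∀ (Z X M₀ Y e : ℝ) (b : Eis → ℂ),
    1 ≤ Z → 0 ≤ X → X ≤ Z → 0 ≤ M₀ → 0 ≤ Y →
    ∑ a ∈ S M₀, ∑ D ∈ S Y, ∑ F ∈ S Y,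
      (if Squarefree (a * D * F) then TC e X b (a * D * F) else 0) ≤ C * Z ^ δ * TW e X b)
    {cf X Z M₀ Y : ℝ} (hcf : 0 ≤ cf) (hZ : 1 ≤ Z) (hX : 0 ≤ X) (hXZ : X ≤ Z) (hM : 0 ≤ M₀)
    (hY : 0 ≤ Y) (b : Eis → ℂ) :
    ∑ a ∈ S M₀, ∑ D ∈ S Y, ∑ F ∈ S Y, TQf cf X b a D F ≤ cf * (2 * (C * Z ^ δ * TW 1 X b)) := by
  have h1 := hC Z X M₀ Y 1 b hZ hX hXZ hM hY
  have e1 : ∀ a D F : Eis, TQf cf X b a D F =
      (cf * 2) * (if Squarefree (a * D * F) then TC 1 X b (a * D * F) else 0) := by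
    intro a D F
    unfold TQf
    split_ifs
    · ring
    · ring
  simp only [e1, ← Finset.mul_sum]
  calc (cf * 2) * _ ≤ (cf * 2) * (C * Z ^ δ * TW 1 X b) :=
        mul_le_mul_of_nonneg_left h1 (by positivity)
    _ = _ := by ring

/-- the sum of the structured parts -/
lemma sum_R1f {C δ : ℝ} (hC : ∀ (Z X M₀ Y e : ℝ) (b : Eis → ℂ),
    1 ≤ Z → 0 ≤ X → X ≤ Z → 0 ≤ M₀ → 0 ≤ Y →
    ∑ a ∈ S M₀, ∑ D ∈ S Y, ∑ F ∈ S Y,
      (if Squarefree (a * D * F) then TC e X b (a * D * F) else 0) ≤ C * Z ^ δ * TW e X b)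
    {K H Λ m₀ mi cf X Z M₀ Y N Nb W1 Z' : ℝ} (hcf : 0 ≤ cf) (hZ : 1 ≤ Z) (hX : 0 ≤ X) (hXZ : X ≤ Z)
    (hM : 0 ≤ M₀) (hY : 0 ≤ Y) (hN : 0 < N) (hNb : 0 < Nb) (hW1 : 0 ≤ W1) (hMZ : M₀ ≤ Z')
    (hYZ : Y ≤ Z') (hL : 0 ≤ Lst K H Λ m₀ N mi) (b : Eis → ℂ) :
    ∑ a ∈ S M₀, ∑ D ∈ S Y, ∑ F ∈ S Y, R1f cf X (Lst K H Λ m₀ N mi) N Nb W1 b a D F ≤
      cf * ((16 * Real.sqrt (Lst K H Λ m₀ N mi) * HS Z' ^ 2 +
        Real.sqrt (Lst K H Λ m₀ N mi * N / Nb) * HS Z' ^ 3) * W1 +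
        Lst K H Λ m₀ N mi * N ^ (-(1 / 2) : ℝ) * (C * Z ^ δ * TW (1 / 2) X b)) := by
  have hZ' : 0 ≤ Z' := hM.trans hMZ
  set Ls := Lst K H Λ m₀ N mi with hLs
  set sq := Real.sqrt (Ls * N / Nb) with hsq
  have hsq0 : 0 ≤ sq := Real.sqrt_nonneg _
  have s1 := count_cells (K := K) (H := H) (Λ := Λ) (m₀ := m₀) (N := N) (mi := mi) hZ' hM hMZ hY hYZ
    (by rw [← hLs]; exact hL) hW1
  have s2 := sum3_inv hM hMZ hY hYZ
  have s3 := hC Z X M₀ Y (1 / 2) b hZ hX hXZ hM hY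
  rw [← hLs] at s1
  have hN2 : 0 ≤ N ^ (-(1 / 2) : ℝ) := by positivity
  have key : ∀ a ∈ S M₀, ∀ D ∈ S Y, ∀ F ∈ S Y, R1f cf X Ls N Nb W1 b a D F ≤
      cf * ((if 1 ≤ LtC K H Λ m₀ N mi (nm a) (nm D) (nm F) then W1 else 0) +
        sq * W1 * ((1 : ℝ) / ((nm a * nm D : ℝ) ^ 2 * (nm F : ℝ) ^ 2)) +
        Ls * N ^ (-(1 / 2) : ℝ) * (if Squarefree (a * D * F) then TC (1 / 2) X b (a * D * F)
          else 0)) := by
    intro a ha D hD F hF
    have hap := ((mem_S hM).1 ha).2.1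
    have hDp := ((mem_S hY).1 hD).2.1
    have hFp := ((mem_S hY).1 hF).2.1
    have na := nm_ge_one hap.ne_zero
    have nD := nm_ge_one hDp.ne_zero
    have nF := nm_ge_one hFp.ne_zero
    have hTC := TC_nonneg (1 / 2) X b (a * D * F)
    rw [LtC_eq, ← hLs]
    unfold R1f
    by_cases h1 : Squarefree (a * D * F) ∧
      1 ≤ Ls / ((nm a * nm D : ℝ) ^ 2 * (nm F : ℝ) ^ 3)
    · rw [if_pos h1, if_pos h1.2, if_pos h1.1]
      refine mul_le_mul_of_nonneg_left ?_ hcf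
      have e1 : (1 + sq / ((nm a * nm D : ℝ) ^ 2 * (nm F : ℝ) ^ 2)) * W1 =
          W1 + sq * W1 * ((1 : ℝ) / ((nm a * nm D : ℝ) ^ 2 * (nm F : ℝ) ^ 2)) := by ring
      rw [e1]
      refine add_le_add le_rfl (mul_le_mul_of_nonneg_right ?_ hTC)
      have enx : (nm (a * D * F) : ℝ) = nm a * nm D * nm F := by
        rw [nm_mul, nm_mul]; push_cast; ring
      rw [enx]
      have hx : 0 < (nm a : ℝ) * nm D * nm F := by positivity
      have e2 : (N / ((nm a : ℝ) * nm D * nm F)) ^ (-(1 / 2) : ℝ) =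
          N ^ (-(1 / 2) : ℝ) * ((nm a : ℝ) * nm D * nm F) ^ (1 / 2 : ℝ) := by
        rw [Real.div_rpow hN.le hx.le, Real.rpow_neg hx.le, div_inv_eq_mul]
      rw [e2]
      have h2 : 1 ≤ (nm a : ℝ) * nm D := one_le_mul_of_one_le_of_one_le na nD
      have h3 : ((nm a : ℝ) * nm D * nm F) ^ (1 / 2 : ℝ) ≤
          (nm a * nm D : ℝ) ^ 2 * (nm F : ℝ) ^ 3 := by
        have h4 : 1 ≤ (nm a : ℝ) * nm D * nm F := one_le_mul_of_one_le_of_one_le h2 nF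
        calc ((nm a : ℝ) * nm D * nm F) ^ (1 / 2 : ℝ) ≤ ((nm a : ℝ) * nm D * nm F) ^ (1 : ℝ) :=
              Real.rpow_le_rpow_of_exponent_le h4 (by norm_num)
          _ = (nm a * nm D : ℝ) ^ 1 * (nm F : ℝ) ^ 1 := by rw [Real.rpow_one]; ring
          _ ≤ _ := mul_le_mul (pow_le_pow_right₀ h2 (by norm_num))
              (pow_le_pow_right₀ nF (by norm_num)) (by positivity) (by positivity)
      set den := (nm a * nm D : ℝ) ^ 2 * (nm F : ℝ) ^ 3 with hden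
      have hden0 : 0 < den := by positivity
      calc Ls / den * (N ^ (-(1 / 2) : ℝ) * ((nm a : ℝ) * nm D * nm F) ^ (1 / 2 : ℝ))
          ≤ Ls / den * (N ^ (-(1 / 2) : ℝ) * den) := by
            gcongr
        _ = _ := by field_simp
    · rw [if_neg h1]
      refine mul_nonneg hcf ?_
      have h2 : 0 ≤ (if 1 ≤ Ls / ((nm a * nm D : ℝ) ^ 2 * (nm F : ℝ) ^ 3) then W1 else 0) := by
        split_ifs
        · exact hW1
        · exact le_rfl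
      have h3 : 0 ≤ (if Squarefree (a * D * F) then TC (1 / 2) X b (a * D * F) else 0) := by
        split_ifs
        · exact hTC
        · exact le_rfl
      positivity
  refine (Finset.sum_le_sum fun a ha => Finset.sum_le_sum fun D hD =>
    Finset.sum_le_sum fun F hF => key a ha D hD F hF).trans ?_
  simp only [← Finset.mul_sum, Finset.sum_add_distrib]
  refine mul_le_mul_of_nonneg_left ?_ hcf
  calc _ ≤ 16 * Real.sqrt Ls * HS Z' ^ 2 * W1 + sq * W1 * HS Z' ^ 3 +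
      Ls * N ^ (-(1 / 2) : ℝ) * (C * Z ^ δ * TW (1 / 2) X b) := by
        refine add_le_add (add_le_add s1 ?_) ?_
        · exact mul_le_mul_of_nonneg_left s2 (by positivity)
        · exact mul_le_mul_of_nonneg_left s3 (by positivity)
    _ = _ := by ring

end Crest.Agent.R017.E3q681
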