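import Crest.Agent.R017.E3q11_681
import Crest.Agent.R017.E3q13_681

/-!
# Row 17, block C70, leaf E4 (x-side), one cell of the family, with a twist on the tests (helper681)

* `XDp` : the hypotheses on a family of structured arrays
* `cell_GBp` : one cell
-/

set_option autoImplicit false
set_option linter.unusedVariables false
set_option maxHeartbeats 400000

noncomputable section

open Complex MeasureTheory
open scoped ComplexConjugate Classical ContDiff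

namespace Crest.Agent.R017.E3q681

open Crest.Agent.R012 Crest.Agent.R012.Eis Crest.Agent.R012.MC
open Crest.Agent.R012.LS2 (S mem_S bl mem_bl)
open Crest.Agent.R012.Div277 (dvs mem_dvs isPrim_of_mem_dvs dvd_of_mem_dvs tau tau_le_rpow)
open Crest.Agent.R012.Mob705 (mu pdiv mem_pdiv)
open Crest.Agent.R012.NonCube52 (Ker kv Good kc kc_spec kc_nm kv_ne_zero one_le_nmkv)
open Crest.Agent.R012.Weight600 (pw)
open Crest.Agent.R017.PX764 (n6)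
open Crest.Agent.R017.CM106 (CS TG FS)
open Crest.Agent.R017.E1551 (nmpos jb jb_pos nm_ge_one summable_wF)
open Crest.Agent.R017.BD829
open Crest.Agent.R017.E3P842
open Crest.Agent.R017.E3D579
open Crest.Agent.R017.E3Sd579
open Crest.Agent.R017.Mode405
open Crest.Agent.R017.Mps347 (PoHWp)
open Crest.Agent.R017.DgB829 (HS HS_nonneg HS_le)
open Gauss880 (syG)

/-- **the hypotheses on a family of structured arrays**, tests with a twist -/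
structure XDp (OK : ℝ → ℝ → Eis → Set Tst → Prop) (G : Eis → Prop) (ψ : Eis → ℂ) (aS A A' : ℕ) (c Rw : ℝ) (h : ℝ → ℝ)
    (χ : Eis → ℂ) {ι : Type*} (I : Finset ι) (T : ℕ) (N Nb W1 q : ι → ℝ) (m Q R ρ : ι → Eis)
    (V b : ι → Eis → ℂ) (cc κ : ι → ℂ) (om Om : ι → ℝ → ℂ) (K H Λ m₀ Z Mb τ : ℝ) : Prop where
  pi : PI I m V Z
  Z1 : 1 ≤ Z
  K0 : 0 < K
  KZ : K⁻¹ ≤ Z
  H0 : 0 < H
  m0 : 0 < m₀
  ΛZ : Λ ≤ Z ^ 3
  Mb0 : 0 ≤ Mb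
  N0 : ∀ i ∈ I, 0 < N i
  NZ : ∀ i ∈ I, N i ≤ Z
  mZ : ∀ i ∈ I, (nm (m i) : ℝ) ≤ Z
  mm : ∀ i ∈ I, m₀ ≤ nm (m i)
  NΛ : ∀ i ∈ I, N i * (nm (m i) : ℝ) ^ 2 ≤ Λ
  hT : ∀ i ∈ I, (I.filter (fun j => m j = m i)).card ≤ T
  VE : ∀ i ∈ I, V i = SA χ (cc i) (Q i) (om i) (R i) (b i)
  FSb : ∀ i ∈ I, FS (b i)
  bS : ∀ i ∈ I, ∀ n, b i n ≠ 0 → n ∈ S Z
  Nb0 : ∀ i ∈ I, 0 < Nb i
  NbZ : ∀ i ∈ I, Nb i ≤ Z
  bW : ∀ i ∈ I, Win (b i) (Real.log (Nb i)) Rw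
  Q0 : ∀ i ∈ I, Q i ≠ 0
  QZ : ∀ i ∈ I, (nm (Q i) : ℝ) ≤ Z
  R0 : ∀ i ∈ I, R i ≠ 0
  RZ : ∀ i ∈ I, (nm (R i) : ℝ) ≤ Z
  ρR : ∀ i ∈ I, ρ i ∣ R i
  mR : ∀ i ∈ I, m i ∣ R i
  LstZ : ∀ i ∈ I, Lst K H Λ m₀ (N i) (nm (m i)) ≤ Z
  q0 : ∀ i ∈ I, nk (Q i ^ 2) ≤ q i
  qZ : ∀ i ∈ I, q i ≤ Z ^ 2
  W0 : ∀ i ∈ I, 0 ≤ W1 i
  LN : ∀ i ∈ I, 1 ≤ Lst K H Λ m₀ (N i) (nm (m i)) →
    Lst K H Λ m₀ (N i) (nm (m i)) * Real.exp Rw < Nb i
  RX : ∀ i ∈ I, RXp OK ψ aS A c (Z ^ 3) (Nb i) (Nb i / N i * Lst K H Λ m₀ (N i) (nm (m i))) (R i) (ρ i)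
    (b i) (W1 i)
  GX : ∀ i ∈ I, GX G (R i) (b i)
  κ1 : ∀ i ∈ I, ‖κ i‖ ≤ 1
  OmC : ∀ i ∈ I, ContDiff ℝ ∞ (Om i)
  OmB : ∀ i ∈ I, ∀ n ≤ A' + 2, ∀ x, ‖iteratedDeriv n (Om i) x‖ ≤ Mb
  omE : ∀ i ∈ I, ∀ x, 0 < x → om i x = κ i * (((h (Real.log x - Real.log (N i)) : ℝ) : ℂ) *
    Om i (Real.log x) * pw τ x)


/-- without a twist -/
lemma XD.toXDp {OK : ℝ → ℝ → Eis → Set Tst → Prop} {aS A A' : ℕ} {c Rw : ℝ} {h : ℝ → ℝ}
    {χ : Eis → ℂ} {ι : Type*} {I : Finset ι} {T : ℕ} {N Nb W1 q : ι → ℝ} {m Q R ρ : ι → Eis}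
    {V b : ι → Eis → ℂ} {cc κ : ι → ℂ} {om Om : ι → ℝ → ℂ} {K H Λ m₀ Z Mb τ : ℝ}
    (X : XD OK aS A A' c Rw h χ I T N Nb W1 q m Q R ρ V b cc κ om Om K H Λ m₀ Z Mb τ) :
    XDp OK (fun _ => True) (fun _ => 1) aS A A' c Rw h χ I T N Nb W1 q m Q R ρ V b cc κ om Om
      K H Λ m₀ Z Mb τ where
  pi := X.pi
  Z1 := X.Z1
  K0 := X.K0
  KZ := X.KZ
  H0 := X.H0
  m0 := X.m0
  ΛZ := X.ΛZ
  Mb0 := X.Mb0
  N0 := X.N0
  NZ := X.NZ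
  mZ := X.mZ
  mm := X.mm
  NΛ := X.NΛ
  hT := X.hT
  VE := X.VE
  FSb := X.FSb
  bS := X.bS
  Nb0 := X.Nb0
  NbZ := X.NbZ
  bW := X.bW
  Q0 := X.Q0
  QZ := X.QZ
  R0 := X.R0
  RZ := X.RZ
  ρR := X.ρR
  mR := X.mR
  LstZ := X.LstZ
  q0 := X.q0
  qZ := X.qZ
  W0 := X.W0
  LN := X.LN
  RX := fun i hi => (X.RX i hi).toRXp
  GX := fun i hi => GX_true _ _
  κ1 := X.κ1
  OmC := X.OmC
  OmB := X.OmB
  omE := X.omE

variable {OK : ℝ → ℝ → Eis → Set Tst → Prop} {G : Eis → Prop} {ψ χ : Eis → ℂ} {w1 : ℝ → ℝ} {h : ℝ → ℝ}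

set_option maxHeartbeats 1000000 in
/-- **one cell of the family** -/
theorem cell_GBp (hOK : OKW OK) (hχ : Mul1 χ) (hw1W : Wgt w1)
    (hP : PoHWp OK nfo G ψ χ (w6 w1)) {Rw : ℝ} (hRw : 0 ≤ Rw) (aS A : ℕ) (hA : 1 < A) {R₀ : ℝ}
    (hR₀ : 0 ≤ R₀) (hh : ContDiff ℝ ∞ h) (hhc : HasCompactSupport h)
    (hw : ∀ x, w1 x ≠ 0 → 0 < x ∧ |Real.log x| ≤ R₀)
    (hw1 : ∀ x, 0 < x → h (Real.log x) ≠ 0 → w1 x = 1) {ε1 : ℝ} (hε1 : 0 < ε1) :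
    ∃ (C c cw : ℝ) (A' : ℕ), 0 ≤ C ∧ 1 ≤ c ∧ 1 ≤ cw ∧ Real.exp R₀ ≤ cw ∧ 1 < A' ∧
      ∀ {ι : Type*} {I : Finset ι} {T : ℕ}
      {N Nb W1 q : ι → ℝ} {m Q R ρ : ι → Eis} {V b : ι → Eis → ℂ} {cc κ : ι → ℂ}
      {om Om : ι → ℝ → ℂ} {K H Λ m₀ Z Mb τ : ℝ},
      XDp OK G ψ aS A A' c Rw h χ I T N Nb W1 q m Q R ρ V b cc κ om Om K H Λ m₀ Z Mb τ →
      ∀ i ∈ I, ∀ s, IsPrim s → s ∣ m i → ∀ b', IsPrim b' → b' ∣ m i → ∀ a ∈ S Z, ∀ D ∈ S (Z ^ 3),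
      ∀ E ∈ pdiv D, ∀ F ∈ S (Z ^ 3), ∀ L, 1 ≤ L →
      ∑ w ∈ bl L, EQ A' (uc V i s a D F) (Hf 3 E w F * b') ≤
        L ^ ε1 * GB K H Λ m₀ (N i) (nm (m i)) (q i)
          (TQf (C * (Z ^ 3) ^ ε1 * (‖cc i‖ ^ 2 * (Mb ^ 2 * (1 + |τ|) ^ A'))) (cw * N i) (b i) a D F)
          (R1f (C * (Z ^ 3) ^ ε1 * (‖cc i‖ ^ 2 * (Mb ^ 2 * (1 + |τ|) ^ A'))) (cw * N i)
            (Lst K H Λ m₀ (N i) (nm (m i))) (N i) (Nb i) (W1 i) (b i) a D F)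
          (nm s) (nm b') (nm a) (nm D) (nm E) (nm F) L := by
  obtain ⟨C₁, c, cw0, A₀, hC₁, hc, hcw0, hmode⟩ := mode_ballp hOK hχ hw1W hP hRw aS A hA hε1
  set A' : ℕ := max A₀ 2 with hA'
  have hA'1 : 1 < A' := lt_of_lt_of_le (by norm_num) (le_max_right _ _)
  have hA'r : (1 : ℝ) < (A' : ℝ) := by exact_mod_cast hA'1
  obtain ⟨Cp, hCp, hpart⟩ := EQ_uc_part hA'1 hR₀ hh hhc hw hw1
  obtain ⟨Cw, hCw⟩ : ∃ Cw : ℝ, ∀ x, |w1 x| ≤ Cw := by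
    obtain ⟨C, hC⟩ := hw1W.cpt.exists_bound_of_continuous hw1W.smooth.continuous
    exact ⟨C, fun x => by simpa using hC x⟩
  have hCw0 : 0 ≤ Cw := (abs_nonneg _).trans (hCw 0)
  set Cs : ℝ := 256 * Real.exp R₀ * (∫ t, jb A' t) * Cw ^ 2 with hCs
  have hj : 0 ≤ ∫ t, jb A' t := integral_nonneg fun t => (jb_pos _ t).le
  have hCs0 : 0 ≤ Cs := by positivity
  set cw : ℝ := max cw0 (Real.exp R₀) with hcw
  have hcw1 : 1 ≤ cw := hcw0.trans (le_max_left _ _)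
  refine ⟨Cp * (C₁ + Cs), c, cw, A', by positivity, hc, hcw1, le_max_right _ _, hA'1, ?_⟩
  intro ι I T N Nb W1 q m Q R ρ V b cc κ om Om K H Λ m₀ Z Mb τ hX i hi s hs hsm b' hb' hbm a ha D hD
    E hE F hF L hL
  have hZ1 := hX.Z1
  have hZ0 : 0 < Z := by linarith
  have hZ3 : 1 ≤ Z ^ 3 := one_le_pow₀ hZ1
  have hZZ3 : Z ≤ Z ^ 3 := le_self_pow₀ hZ1 (by norm_num)
  have hZ30 : 0 ≤ Z ^ 3 := by positivity
  obtain ⟨haZ, hap, has⟩ := (mem_S hZ0.le).1 ha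
  obtain ⟨hDZ, hDp, hDs⟩ := (mem_S hZ30).1 hD
  obtain ⟨hFZ, hFp, hFs⟩ := (mem_S hZ30).1 hF
  obtain ⟨hEp, hED⟩ := (mem_pdiv hDp.ne_zero).mp hE
  have hK := hX.K0
  have hH := hX.H0
  have hm₀ := hX.m0
  have hN := hX.N0 i hi
  have hmi := hX.pi.hm i hi
  have nmi := nmpos hmi.ne_zero
  have hΛ : 0 < Λ := lt_of_lt_of_le (by positivity) (hX.NΛ i hi)
  have hq1 : 1 ≤ q i := (nk_ge_one (pow_ne_zero 2 (hX.Q0 i hi))).trans (hX.q0 i hi)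
  have na := nmpos hap.ne_zero
  have nD := nmpos hDp.ne_zero
  have nE := nmpos hEp.ne_zero
  have nF := nmpos hFp.ne_zero
  have ns := nmpos hs.ne_zero
  have nb := nmpos hb'.ne_zero
  set Ls := Lst K H Λ m₀ (N i) (nm (m i)) with hLs
  have hLs0 : 0 < Ls := by rw [hLs]; unfold Lst; positivity
  have hLtC : LtC K H Λ m₀ (N i) (nm (m i)) (nm a) (nm D) (nm F) =
      Ls / ((nm a * nm D : ℝ) ^ 2 * (nm F : ℝ) ^ 3) := by rw [LtC_eq]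
  set x0 := a * D * F with hx0
  have hx0p : IsPrim x0 := (hap.mul hDp).mul hFp
  have nx0 := nmpos hx0p.ne_zero
  have enx : (nm x0 : ℝ) = nm a * nm D * nm F := by rw [hx0, nm_mul, nm_mul]; push_cast; ring
  set T1 := TC 1 (cw * N i) (b i) x0 with hT1
  set T2 := TC (1 / 2) (cw * N i) (b i) x0 with hT2
  have hT10 : 0 ≤ T1 := TC_nonneg _ _ _ _
  have hT20 : 0 ≤ T2 := TC_nonneg _ _ _ _
  set W := (1 + Real.sqrt (Ls * N i / Nb i) / ((nm a * nm D : ℝ) ^ 2 * (nm F : ℝ) ^ 2)) * W1 i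
    with hW
  have hW10 := hX.W0 i hi
  have hW0 : 0 ≤ W := by positivity
  have hMb := hX.Mb0
  set cM : ℝ := ‖cc i‖ ^ 2 * (Mb ^ 2 * (1 + |τ|) ^ A') with hcM
  have hcM0 : 0 ≤ cM := by positivity
  have hZe : 1 ≤ (Z ^ 3) ^ ε1 := Real.one_le_rpow hZ3 hε1.le
  have hLe : 1 ≤ L ^ ε1 := Real.one_le_rpow hL hε1.le
  have hL0 : 0 < L := by linarith
  have h1 := hpart (Om i) Mb hX.Mb0 (hX.OmC i hi) (hX.OmB i hi) χ hχ (cc i) (Q i) (R i) (b i)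
    (hX.FSb i hi) (N i) τ (κ i) hN (hX.κ1 i hi) (om i) (hX.omE i hi) V i (hX.VE i hi) s a D F E b'
    hap hDp hFp (bl L)
  refine h1.trans ?_
  by_cases hc1 : Squarefree x0 ∧ IsCoprime x0 (R i) ∧ IsCoprime x0 (Q i * s)
  swap
  · rw [if_neg hc1, mul_zero]
    refine mul_nonneg (by linarith) (GB_nonneg hK hH hΛ hm₀ hN nmi (by linarith) ?_ ?_ ns nb na nD
      nE nF hL0.le)
    · unfold TQf
      split_ifs
      · have := TC_nonneg 1 (cw * N i) (b i) (a * D * F)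
        positivity
      · exact le_rfl
    · unfold R1f
      split_ifs
      · have := TC_nonneg (1 / 2) (cw * N i) (b i) (a * D * F)
        positivity
      · exact le_rfl
  rw [if_pos hc1]
  obtain ⟨hsq, hcR, hcQ⟩ := hc1
  have hTQ : TQf (Cp * (C₁ + Cs) * (Z ^ 3) ^ ε1 * cM) (cw * N i) (b i) a D F =
      (Cp * (C₁ + Cs) * (Z ^ 3) ^ ε1 * cM) * (2 * T1) := by
    unfold TQf; rw [if_pos hsq]
  have hR1 : R1f (Cp * (C₁ + Cs) * (Z ^ 3) ^ ε1 * cM) (cw * N i) Ls (N i) (Nb i) (W1 i) (b i) a D F =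
      (Cp * (C₁ + Cs) * (Z ^ 3) ^ ε1 * cM) * (if 1 ≤ LtC K H Λ m₀ (N i) (nm (m i)) (nm a) (nm D)
        (nm F) then W + LtC K H Λ m₀ (N i) (nm (m i)) (nm a) (nm D) (nm F) *
          (N i / (nm a * nm D * nm F)) ^ (-(1 / 2) : ℝ) * T2 else 0) := by
    unfold R1f
    rw [hLtC]
    by_cases h2 : 1 ≤ Ls / ((nm a * nm D : ℝ) ^ 2 * (nm F : ℝ) ^ 3)
    · rw [if_pos ⟨hsq, h2⟩, if_pos h2, enx]
    · rw [if_neg (fun h3 => h2 h3.2), if_neg h2, mul_zero]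
  rw [hTQ, hR1, GB_smul]
  set G0 := GB K H Λ m₀ (N i) (nm (m i)) (q i) (2 * T1) (if 1 ≤ LtC K H Λ m₀ (N i) (nm (m i)) (nm a)
    (nm D) (nm F) then W + LtC K H Λ m₀ (N i) (nm (m i)) (nm a) (nm D) (nm F) *
      (N i / (nm a * nm D * nm F)) ^ (-(1 / 2) : ℝ) * T2 else 0) (nm s) (nm b') (nm a) (nm D) (nm E)
      (nm F) L with hG0
  have hR1'0 : 0 ≤ (if 1 ≤ LtC K H Λ m₀ (N i) (nm (m i)) (nm a) (nm D) (nm F) then
      W + LtC K H Λ m₀ (N i) (nm (m i)) (nm a) (nm D) (nm F) *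
      (N i / (nm a * nm D * nm F)) ^ (-(1 / 2) : ℝ) * T2 else 0) := by
    rw [hLtC]
    split_ifs
    · positivity
    · exact le_rfl
  have hG00 : 0 ≤ G0 := GB_nonneg hK hH hΛ hm₀ hN nmi (by linarith) (by positivity) hR1'0 ns nb na
    nD nE nF hL0.le
  -- the main estimate
  have key : (nm x0 : ℝ) ^ (-(1 / 3) : ℝ) * ∑ w ∈ bl L,
      EQ A' (pS χ (fun x => ((w1 (x / (N i / nm x0)) : ℝ) : ℂ)) (R i * a * x0)
        (bF (a * D) F (b i))) (w * ((E * (3 * sq3) * (Q i * s)) ^ 2 * b')) ≤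
      (C₁ + Cs) * (Z ^ 3) ^ ε1 * L ^ ε1 * G0 := by
    by_cases hY : 1 ≤ N i / nm x0
    · have h2 := hmode (A' : ℝ) (by exact_mod_cast le_max_left _ _) (Z ^ 3) (b i) (Nb i) (Q i) (R i)
        (ρ i) (m i) (N i) Ls (q i) (W1 i) hZ3 (hX.FSb i hi) (fun n hn => by
          have h3 := (mem_S hZ0.le).1 (hX.bS i hi n hn)
          exact (mem_S hZ30).2 ⟨h3.1.trans hZZ3, h3.2⟩) (hX.Nb0 i hi) ((hX.NbZ i hi).trans hZZ3)
        (hX.bW i hi) (hX.Q0 i hi) (hX.R0 i hi) (hX.ρR i hi) hmi (hX.mR i hi)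
        ((hX.QZ i hi).trans hZZ3) ((hX.RZ i hi).trans hZZ3) ((hX.mZ i hi).trans hZZ3) hN
        ((hX.NZ i hi).trans hZZ3) hLs0 ((hX.LstZ i hi).trans hZZ3) (hX.q0 i hi)
        ((hX.qZ i hi).trans (pow_le_pow_left₀ hZ0.le hZZ3 2)) hW10 (hX.LN i hi)
        (hX.RX i hi)
        (hX.GX i hi)
        s b' a D E F hs hsm hb' hbm hap hDp hE hFp (haZ.trans hZZ3) hDZ hFZ hsq hcR hcQ hY L hL
      have hCB := CBx_mono (L := L) (ϱ := L * (27 * (nm E : ℝ) ^ 2 * (nm s : ℝ) ^ 2 * nm b') * q i /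
          (Ls / ((nm a * nm D : ℝ) ^ 2 * (nm F : ℝ) ^ 3))) (Yc := N i / nm x0)
        (Lt₀ := Ls / ((nm a * nm D : ℝ) ^ 2 * (nm F : ℝ) ^ 3)) (W := W) hL0.le (by positivity)
        (by positivity) (by positivity)
        (TC_mono (e := 1) (mul_le_mul_of_nonneg_right (le_max_left cw0 (Real.exp R₀)) hN.le) (b i)
          hx0p)
        (TC_mono (e := 1 / 2) (mul_le_mul_of_nonneg_right (le_max_left cw0 (Real.exp R₀)) hN.le)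
          (b i) hx0p)
      have hGe := GB_ge (K := K) (H := H) (Λ := Λ) (m₀ := m₀) (N := N i) (mi := nm (m i)) (q := q i)
        (T1 := T1) (T2 := T2) (W := W) (s := nm s) (b := nm b') (a := nm a) (D := nm D) (E := nm E)
        (F := nm F) (L := L) hK hH hΛ hm₀ hN nmi (by linarith) hT10 hT20 hW0 ns nb na nD nE nF hL0.le
      rw [← hG0, hLtC, ← enx] at hGe
      have hY3 : 0 ≤ (N i / nm x0) ^ (-(1 : ℝ) / 3) := by positivity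
      have hx3 : 0 ≤ (nm x0 : ℝ) ^ (-(1 / 3) : ℝ) := by positivity
      calc _ ≤ (nm x0 : ℝ) ^ (-(1 / 3) : ℝ) * (C₁ * (Z ^ 3) ^ ε1 * L ^ ε1 *
            ((N i / nm x0) ^ (-(1 : ℝ) / 3) *
              CBx L (L * (27 * (nm E : ℝ) ^ 2 * (nm s : ℝ) ^ 2 * nm b') * q i /
                (Ls / ((nm a * nm D : ℝ) ^ 2 * (nm F : ℝ) ^ 3))) (N i / nm x0)
                (Ls / ((nm a * nm D : ℝ) ^ 2 * (nm F : ℝ) ^ 3)) T1 T2 W)) := by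
            refine mul_le_mul_of_nonneg_left (h2.trans ?_) hx3
            refine mul_le_mul_of_nonneg_left ?_ (by positivity)
            exact mul_le_mul_of_nonneg_left hCB hY3
        _ = C₁ * (Z ^ 3) ^ ε1 * L ^ ε1 * ((nm x0 : ℝ) ^ (-(1 / 3) : ℝ) *
            ((N i / nm x0) ^ (-(1 : ℝ) / 3) *
              CBx L (L * (27 * (nm E : ℝ) ^ 2 * (nm s : ℝ) ^ 2 * nm b') * q i /
                (Ls / ((nm a * nm D : ℝ) ^ 2 * (nm F : ℝ) ^ 3))) (N i / nm x0)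
                (Ls / ((nm a * nm D : ℝ) ^ 2 * (nm F : ℝ) ^ 3)) T1 T2 W)) := by ring
        _ ≤ C₁ * (Z ^ 3) ^ ε1 * L ^ ε1 * G0 := mul_le_mul_of_nonneg_left hGe (by positivity)
        _ ≤ _ := by
            refine mul_le_mul_of_nonneg_right ?_ hG00
            refine mul_le_mul_of_nonneg_right ?_ (by positivity)
            refine mul_le_mul_of_nonneg_right ?_ (by positivity)
            linarith
    · rw [not_le] at hY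
      have h2 := mode_small (A' := (A' : ℝ)) hA'r hχ hw hCw (hX.FSb i hi) hN (κ := a * D) (F := F)
        (R := R i) (a := a) (hap.mul hDp) hFp hY hL0.le
        (fun w => w * ((E * (3 * sq3) * (Q i * s)) ^ 2 * b'))
      have hTm : TC 1 (Real.exp R₀ * N i) (b i) x0 ≤ T1 :=
        TC_mono (mul_le_mul_of_nonneg_right (le_max_right cw0 (Real.exp R₀)) hN.le) (b i) hx0p
      have hGe := GB_ge_small (K := K) (H := H) (Λ := Λ) (m₀ := m₀) (N := N i) (mi := nm (m i))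
        (q := q i) (T1 := T1) (s := nm s) (b := nm b') (a := nm a) (D := nm D) (E := nm E)
        (F := nm F) (L := L) hK hH hΛ hm₀ hN nmi (by linarith) hT10 hR1'0 ns nb na nD nE nF hL0.le
        (by rw [← enx]; exact hY)
      rw [← hG0, ← enx] at hGe
      have hx3 : 0 ≤ (nm x0 : ℝ) ^ (-(1 / 3) : ℝ) := by positivity
      calc _ ≤ (nm x0 : ℝ) ^ (-(1 / 3) : ℝ) * (Cs * L * T1) := by
            refine mul_le_mul_of_nonneg_left (h2.trans ?_) hx3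
            exact mul_le_mul_of_nonneg_left hTm (by positivity)
        _ = Cs * ((nm x0 : ℝ) ^ (-(1 / 3) : ℝ) * (L * T1)) := by ring
        _ ≤ Cs * G0 := mul_le_mul_of_nonneg_left hGe hCs0
        _ ≤ (C₁ + Cs) * (Z ^ 3) ^ ε1 * L ^ ε1 * G0 := by
            refine mul_le_mul_of_nonneg_right ?_ hG00
            calc Cs = Cs * 1 * 1 := by ring
              _ ≤ (C₁ + Cs) * (Z ^ 3) ^ ε1 * L ^ ε1 := by
                  gcongr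
                  linarith
  calc _ = (Cp * cM) * ((nm x0 : ℝ) ^ (-(1 / 3) : ℝ) * ∑ w ∈ bl L,
      EQ A' (pS χ (fun x => ((w1 (x / (N i / nm x0)) : ℝ) : ℂ)) (R i * a * x0)
        (bF (a * D) F (b i))) (w * ((E * (3 * sq3) * (Q i * s)) ^ 2 * b'))) := by
        rw [hcM]; ring
    _ ≤ (Cp * cM) * ((C₁ + Cs) * (Z ^ 3) ^ ε1 * L ^ ε1 * G0) :=
        mul_le_mul_of_nonneg_left key (by positivity)
    _ = _ := by ring

end Crest.Agent.R017.E3q681
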