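import Crest.Agent.R017.E3q12_681
import Crest.Agent.R017.E3q14_681

/-!
# Row 17, block C70, leaf E4 (x-side), the block bound (helper681)

* `XBp` : **the block bound** `∑_{a ∈ P} ‖AQ I m V a‖² ≤ C T Z^ε K ∑_i |c_i|² N_i^{-1/3} XBi`,
  tests with a twist
* `XB` : the same without a twist
-/

set_option autoImplicit false
set_option linter.unusedVariables false
set_option maxHeartbeats 400000

noncomputable section

open Complex MeasureTheory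
open scoped ComplexConjugate Classical ContDiff

namespace Crest.Agent.R017.E3q681

open Crest.Agent.R012 Crest.Agent.R012.Eis Crest.Agent.R012.MC
open Crest.Agent.R012.LS2 (S mem_S bl mem_bl)
open Crest.Agent.R012.Div277 (dvs mem_dvs isPrim_of_mem_dvs dvd_of_mem_dvs tau tau_le_rpow)
open Crest.Agent.R012.Mob705 (mu pdiv mem_pdiv)
open Crest.Agent.R012.NonCube52 (Ker kv Good kc kc_spec kc_nm kv_ne_zero one_le_nmkv)
open Crest.Agent.R012.Weight600 (pw)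
open Crest.Agent.R017.PX764 (n6)
open Crest.Agent.R017.CM106 (CS TG FS)
open Crest.Agent.R017.E1551 (nmpos jb jb_pos nm_ge_one summable_wF)
open Crest.Agent.R017.BD829
open Crest.Agent.R017.E3P842
open Crest.Agent.R017.E3D579
open Crest.Agent.R017.E3Sd579
open Crest.Agent.R017.Mode405
open Crest.Agent.R017.Mps347 (PoHWp)
open Crest.Agent.R017.DgB829 (HS HS_nonneg HS_le)
open Gauss880 (syG)

variable {OK : ℝ → ℝ → Eis → Set Tst → Prop} {G : Eis → Prop} {ψ χ : Eis → ℂ} {w1 : ℝ → ℝ}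
  {h : ℝ → ℝ}

lemma n6_sq {n : Eis} (hn : n ≠ 0) : n6 n ^ 2 = (nm n : ℝ) ^ (-(1 / 3) : ℝ) := by
  unfold n6
  have h1 := nmpos hn
  rw [← Real.rpow_natCast, ← Real.rpow_mul h1.le]
  congr 1
  push_cast
  ring

/-- **the diagonal** of one index -/
lemma diag_le (hχ : Mul1 χ) {Ch R₀ : ℝ} (hCh : ∀ x, |h x| ≤ Ch)
    (hhs : ∀ x, 0 < x → h (Real.log x) ≠ 0 → |Real.log x| ≤ R₀) {cc κ : ℂ} {Q R : Eis}
    {b : Eis → ℂ} {N Mb τ : ℝ} {om Om : ℝ → ℂ} (hN : 0 < N) (hMb : 0 ≤ Mb) (hκ : ‖κ‖ ≤ 1)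
    (hOm : ∀ x, ‖Om x‖ ≤ Mb) (hom : ∀ x, 0 < x → om x = κ * (((h (Real.log x - Real.log N) : ℝ) : ℂ) *
    Om (Real.log x) * pw τ x)) {cw : ℝ} (hcw : Real.exp R₀ ≤ cw) {Y : ℝ} (hY : 0 ≤ Y) :
    ∑ n ∈ S Y, ‖SA χ cc Q om R b n‖ ^ 2 ≤
      ‖cc‖ ^ 2 * (Ch * Mb) ^ 2 * Real.exp (R₀ / 3) * N ^ (-(1 / 3) : ℝ) * TW 1 (cw * N) b := by
  have hCh0 : 0 ≤ Ch := (abs_nonneg _).trans (hCh 0)
  set B : ℝ := ‖cc‖ ^ 2 * (Ch * Mb) ^ 2 * Real.exp (R₀ / 3) * N ^ (-(1 / 3) : ℝ) with hB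
  have hB0 : 0 ≤ B := by positivity
  have key : ∀ n, SA χ cc Q om R b n ≠ 0 → IsPrim n ∧ (nm n : ℝ) ≤ cw * N ∧
      ‖SA χ cc Q om R b n‖ ^ 2 ≤ B * ((nm (kc n).2 : ℝ) ^ (-(1 : ℝ)) * ‖CS b n‖ ^ 2) := by
    intro n hn
    obtain ⟨hp, hs, hc, ho⟩ := SA_supp hn
    have nn := nmpos hp.ne_zero
    have e1 := hom (nm n) nn
    have hhn : h (Real.log (nm n) - Real.log N) ≠ 0 := by
      intro h0
      rw [e1, h0] at ho
      exact ho (by simp)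
    have e2 : Real.log (nm n) - Real.log N = Real.log (nm n / N) :=
      (Real.log_div nn.ne' hN.ne').symm
    have h1 : |Real.log (nm n / N)| ≤ R₀ := by
      refine hhs _ (by positivity) ?_
      rw [← e2]; exact hhn
    obtain ⟨h2, h3⟩ := abs_le.mp h1
    have h4 : (nm n : ℝ) / N ≤ Real.exp R₀ := by
      rw [← Real.log_le_iff_le_exp (by positivity)]; exact h3
    have h5 : Real.exp (-R₀) ≤ (nm n : ℝ) / N := by
      rw [← Real.le_log_iff_exp_le (by positivity)]; exact h2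
    have h6 : (nm n : ℝ) ≤ cw * N := by
      rw [div_le_iff₀ hN] at h4
      exact h4.trans (mul_le_mul_of_nonneg_right hcw hN.le)
    have h7 : Real.exp (-R₀) * N ≤ nm n := by rwa [le_div_iff₀ hN] at h5
    refine ⟨hp, h6, ?_⟩
    rw [nm_kc_sqf hp hs, Real.one_rpow, one_mul]
    have hsy : ‖sy Q n‖ ≤ 1 := Gauss880.norm_sy_le syG hp
    have hus := norm_uS_le (om := om) (r := R) (n := n) (b := b)
    rw [if_pos ⟨hp, hs, hc⟩] at hus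
    have hom' : ‖om (nm n)‖ ≤ Ch * Mb := by
      rw [e1, norm_mul, norm_mul, norm_mul]
      have h8 : ‖pw τ (nm n : ℝ)‖ = 1 := Crest.Agent.R012.Weight600.norm_osc _ _
      rw [h8, mul_one, Complex.norm_real, Real.norm_eq_abs]
      calc ‖κ‖ * (|h (Real.log (nm n) - Real.log N)| * ‖Om (Real.log (nm n))‖) ≤
          1 * (Ch * Mb) := by
            refine mul_le_mul hκ ?_ (by positivity) (by norm_num)
            exact mul_le_mul (hCh _) (hOm _) (norm_nonneg _) hCh0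
        _ = _ := one_mul _
    have h9 : ‖SA χ cc Q om R b n‖ ≤ ‖cc‖ * ((Ch * Mb) * (n6 n * ‖CS b n‖)) := by
      unfold SA Us
      rw [norm_mul, norm_mul, norm_mul]
      refine mul_le_mul_of_nonneg_left ?_ (norm_nonneg _)
      have h10 := n6_nonneg n
      calc ‖χ n‖ * (‖sy Q n‖ * ‖uS om R b n‖) ≤ 1 * (1 * (‖om (nm n)‖ * (n6 n * ‖CS b n‖))) := by
            refine mul_le_mul (hχ.le n hp) ?_ (by positivity) (by norm_num)
            exact mul_le_mul hsy hus (norm_nonneg _) (by norm_num)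
        _ ≤ (Ch * Mb) * (n6 n * ‖CS b n‖) := by
            rw [one_mul, one_mul]
            exact mul_le_mul_of_nonneg_right hom' (by positivity)
    have h11 : (nm n : ℝ) ^ (-(1 / 3) : ℝ) ≤ Real.exp (R₀ / 3) * N ^ (-(1 / 3) : ℝ) := by
      calc (nm n : ℝ) ^ (-(1 / 3) : ℝ) ≤ (Real.exp (-R₀) * N) ^ (-(1 / 3) : ℝ) :=
            Real.rpow_le_rpow_of_nonpos (by positivity) h7 (by norm_num)
        _ = _ := by
            rw [Real.mul_rpow (Real.exp_pos _).le hN.le, ← Real.exp_mul]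
            congr 2
            ring
    calc ‖SA χ cc Q om R b n‖ ^ 2 ≤ (‖cc‖ * ((Ch * Mb) * (n6 n * ‖CS b n‖))) ^ 2 :=
          pow_le_pow_left₀ (norm_nonneg _) h9 2
      _ = ‖cc‖ ^ 2 * (Ch * Mb) ^ 2 * (nm n : ℝ) ^ (-(1 / 3) : ℝ) * ‖CS b n‖ ^ 2 := by
          rw [← n6_sq hp.ne_zero]; ring
      _ ≤ ‖cc‖ ^ 2 * (Ch * Mb) ^ 2 * (Real.exp (R₀ / 3) * N ^ (-(1 / 3) : ℝ)) * ‖CS b n‖ ^ 2 := by
          gcongr
      _ = _ := by rw [hB]; ring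
  have e1 : ∑ n ∈ S Y, ‖SA χ cc Q om R b n‖ ^ 2 =
      ∑ n ∈ (S Y).filter (fun n => SA χ cc Q om R b n ≠ 0), ‖SA χ cc Q om R b n‖ ^ 2 := by
    rw [Finset.sum_filter_of_ne]
    intro n _ h1 h2
    rw [h2] at h1
    simp at h1
  rw [e1]
  unfold TW
  rw [Finset.mul_sum]
  calc _ ≤ ∑ n ∈ (S Y).filter (fun n => SA χ cc Q om R b n ≠ 0),
        B * ((nm (kc n).2 : ℝ) ^ (-(1 : ℝ)) * ‖CS b n‖ ^ 2) := by
        refine Finset.sum_le_sum fun n hn => ?_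
        rw [Finset.mem_filter] at hn
        exact (key n hn.2).2.2
    _ ≤ _ := by
        refine Finset.sum_le_sum_of_subset_of_nonneg (fun n hn => ?_) fun _ _ _ => by positivity
        rw [Finset.mem_filter] at hn
        obtain ⟨k1, k2, _⟩ := key n hn.2
        rw [mem_primBall]
        exact ⟨Nat.le_floor k2, k1⟩

lemma real3 {z z1 E0 Cc M ch cq a b W1 L2 T2 Hs : ℝ} (hz : 1 ≤ z) (hz1 : 1 ≤ z1)
    (hE : z ^ 4 * z1 ≤ E0) (hCc : 0 ≤ Cc) (hM : 0 ≤ M) (hch : 0 ≤ ch) (hcq : 0 ≤ cq) (ha : 0 ≤ a)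
    (hb : 0 ≤ b) (hW : 0 ≤ W1) (hL : 0 ≤ L2) (hT : 0 ≤ T2) (hH0 : 0 ≤ Hs) (hH : Hs ≤ ch * z) :
    z * (Cc * z1 * M * ((16 * a * Hs ^ 2 + b * Hs ^ 3) * W1 + L2 * (cq * z * T2))) ≤
      (Cc * (16 * ch ^ 2 + ch ^ 3 + cq)) * (E0 * M * ((a + b) * W1 + L2 * T2)) := by
  have hz0 : 0 ≤ z := by linarith
  have hz10 : 0 ≤ z1 := by linarith
  have i3 : z ^ 3 * z1 ≤ E0 := by
    refine le_trans (mul_le_mul_of_nonneg_right ?_ hz10) hE
    exact pow_le_pow_right₀ hz (by norm_num)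
  have i2 : z ^ 2 * z1 ≤ E0 := by
    refine le_trans (mul_le_mul_of_nonneg_right ?_ hz10) hE
    exact pow_le_pow_right₀ hz (by norm_num)
  have hE0 : 0 ≤ E0 := le_trans (by positivity) hE
  calc z * (Cc * z1 * M * ((16 * a * Hs ^ 2 + b * Hs ^ 3) * W1 + L2 * (cq * z * T2)))
      ≤ z * (Cc * z1 * M * ((16 * a * (ch * z) ^ 2 + b * (ch * z) ^ 3) * W1 +
          L2 * (cq * z * T2))) := by gcongr
    _ = Cc * M * (16 * ch ^ 2 * (a * W1) * (z ^ 3 * z1) + ch ^ 3 * (b * W1) * (z ^ 4 * z1) +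
          cq * (L2 * T2) * (z ^ 2 * z1)) := by ring
    _ ≤ Cc * M * (16 * ch ^ 2 * (a * W1) * E0 + ch ^ 3 * (b * W1) * E0 +
          cq * (L2 * T2) * E0) := by gcongr
    _ ≤ _ := by
        have : 0 ≤ Cc * M * E0 * (16 * ch ^ 2 * (b * W1 + L2 * T2) + ch ^ 3 * (a * W1 + L2 * T2) +
          cq * ((a + b) * W1)) := by positivity
        nlinarith [this]

lemma real2 {z z1 E0 Cc M cq T1 : ℝ} (hz : 1 ≤ z) (hz1 : 1 ≤ z1)
    (hE : z ^ 4 * z1 ≤ E0) (hCc : 0 ≤ Cc) (hM : 0 ≤ M) (hcq : 0 ≤ cq) (hT : 0 ≤ T1) :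
    z * (Cc * z1 * M * (2 * (cq * z * T1))) ≤ (Cc * (2 * cq)) * (E0 * M * T1) := by
  have hz10 : 0 ≤ z1 := by linarith
  have i2 : z ^ 2 * z1 ≤ E0 := by
    refine le_trans (mul_le_mul_of_nonneg_right ?_ hz10) hE
    exact pow_le_pow_right₀ hz (by norm_num)
  calc z * (Cc * z1 * M * (2 * (cq * z * T1))) = (Cc * (2 * cq)) * ((z ^ 2 * z1) * M * T1) := by
        ring
    _ ≤ _ := by gcongr

set_option maxHeartbeats 4000000 in
/-- **the block bound**, tests with a twist -/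
theorem XBp (hOK : OKW OK) (hχ : Mul1 χ) (hw1W : Wgt w1)
    (hP : PoHWp OK nfo G ψ χ (w6 w1)) {Rw : ℝ} (hRw : 0 ≤ Rw) (aS A : ℕ) (hA : 1 < A) {R₀ : ℝ}
    (hR₀ : 0 ≤ R₀) (hh : ContDiff ℝ ∞ h) (hhc : HasCompactSupport h)
    (hw : ∀ x, w1 x ≠ 0 → 0 < x ∧ |Real.log x| ≤ R₀)
    (hw1 : ∀ x, 0 < x → h (Real.log x) ≠ 0 → w1 x = 1) {ε : ℝ} (hε : 0 < ε) :
    ∃ (C c cw : ℝ) (A' : ℕ), 0 ≤ C ∧ 1 ≤ c ∧ 1 ≤ cw ∧ 1 < A' ∧
      ∀ {ι : Type*} {I : Finset ι} {T : ℕ}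
      {N Nb W1 q : ι → ℝ} {m Q R ρ : ι → Eis} {V b : ι → Eis → ℂ} {cc κ : ι → ℂ}
      {om Om : ι → ℝ → ℂ} {K H Λ m₀ Z Mb τ : ℝ},
      XDp OK G ψ aS A A' c Rw h χ I T N Nb W1 q m Q R ρ V b cc κ om Om K H Λ m₀ Z Mb τ →
      ∀ P : Finset Eis, (∀ a ∈ P, IsPrim a ∧ K ≤ nm a ∧ (nm a : ℝ) ≤ 2 * K) →
      ∑ a ∈ P, ‖AQ I m V a‖ ^ 2 ≤
        C * T * Z ^ ε * ((1 + |τ|) ^ A' * Mb ^ 2) * (K * ∑ i ∈ I, ‖cc i‖ ^ 2 *
          N i ^ (-(1 / 3) : ℝ) * XBi K H Λ m₀ (N i) (nm (m i)) (q i) (Nb i) (W1 i) cw (b i)) := by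
  set ε1 : ℝ := min (1 / 2) (ε / 1024) with hε1
  have hε10 : 0 < ε1 := lt_min (by norm_num) (by positivity)
  set δ : ℝ := ε / 16 with hδ
  have hδ0 : 0 < δ := by positivity
  have hε12 : ε1 ≤ δ / 64 := by
    refine (min_le_right _ _).trans (le_of_eq ?_)
    rw [hδ]; ring
  obtain ⟨Cc, c, cw, A', hCc, hc, hcw, hcwR, hA', hcell⟩ := cell_GBp hOK hχ hw1W hP hRw aS A hA hR₀
    hh hhc hw hw1 hε10
  obtain ⟨Cb, hCb, hblock⟩ := AQ_blockE (R := 2 * R₀) (by positivity) (A := A') (B := 3) hA' le_rfl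
    hδ0 hε10 (min_le_left _ _) hε12
  obtain ⟨Cq, hCq, htq⟩ := tq_sum hδ0
  obtain ⟨Ch, hCh⟩ : ∃ Ch : ℝ, ∀ x, |h x| ≤ Ch := by
    obtain ⟨C, hC⟩ := hhc.exists_bound_of_continuous hh.continuous
    exact ⟨C, fun x => by simpa using hC x⟩
  have hCh0 : 0 ≤ Ch := (abs_nonneg _).trans (hCh 0)
  set ch : ℝ := 200 * (1 + 1 / δ) with hch
  have hch0 : 0 ≤ ch := by positivity
  have hcw0 : 0 < cw := by linarith
  set cq : ℝ := Cq * cw ^ δ with hcq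
  have hcq0 : 0 ≤ cq := by positivity
  set D1 : ℝ := Ch ^ 2 * Real.exp (R₀ / 3) with hD1
  set D2 : ℝ := Cc * (2 * cq) with hD2
  set D3 : ℝ := Cc * (16 * ch ^ 2 + ch ^ 3 + cq) with hD3
  have hD10 : 0 ≤ D1 := by positivity
  have hD20 : 0 ≤ D2 := by positivity
  have hD30 : 0 ≤ D3 := by positivity
  refine ⟨Cb * (D1 + D2 + D3), c, cw, A', by positivity, hc, hcw, hA', ?_⟩
  intro ι I T N Nb W1 q m Q R ρ V b cc κ om Om K H Λ m₀ Z Mb τ hX P hPP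
  have hZ1 := hX.Z1
  have hZ0 : 0 < Z := by linarith
  have hZ3 : 1 ≤ Z ^ 3 := one_le_pow₀ hZ1
  have hZZ3 : Z ≤ Z ^ 3 := le_self_pow₀ hZ1 (by norm_num)
  have hZ30 : 0 ≤ Z ^ 3 := by positivity
  have hZ3p : 0 < Z ^ 3 := by positivity
  have hcZ3 : 1 ≤ cw * Z ^ 3 := one_le_mul_of_one_le_of_one_le hcw hZ3
  have hK := hX.K0
  have hH := hX.H0
  have hm₀ := hX.m0
  have hMb := hX.Mb0
  have hN : ∀ i ∈ I, 0 < N i := hX.N0
  have nmi : ∀ i ∈ I, (0 : ℝ) < nm (m i) := fun i hi => nmpos (hX.pi.hm i hi).ne_zero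
  have hq1 : ∀ i ∈ I, 1 ≤ q i := fun i hi =>
    (nk_ge_one (pow_ne_zero 2 (hX.Q0 i hi))).trans (hX.q0 i hi)
  set Mi : ι → ℝ := fun i => ‖cc i‖ ^ 2 * (Mb ^ 2 * (1 + |τ|) ^ A') with hMi
  have hMi0 : ∀ i, 0 ≤ Mi i := fun i => by rw [hMi]; positivity
  set cf : ι → ℝ := fun i => Cc * (Z ^ 3) ^ ε1 * Mi i with hcf
  have hcf0 : ∀ i, 0 ≤ cf i := fun i => mul_nonneg (by positivity) (hMi0 i)
  set Ls : ι → ℝ := fun i => Lst K H Λ m₀ (N i) (nm (m i)) with hLs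
  set T1 : ι → ℝ := fun i => TW 1 (cw * N i) (b i) with hT1
  set T2 : ι → ℝ := fun i => TW (1 / 2) (cw * N i) (b i) with hT2
  have hT10 : ∀ i, 0 ≤ T1 i := fun i => TW_nonneg _ _ _
  have hT20 : ∀ i, 0 ≤ T2 i := fun i => TW_nonneg _ _ _
  have hLs0 : ∀ i ∈ I, 0 ≤ Ls i := by
    intro i hi
    have h1 := hN i hi
    have h2 := nmi i hi
    have h3 : 0 < Λ := lt_of_lt_of_le (by positivity) (hX.NΛ i hi)
    rw [hLs]; beta_reduce
    unfold Lst; positivity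
  set TQt : ι → ℝ := fun i => cf i * (2 * (Cq * (cw * Z ^ 3) ^ δ * T1 i)) with hTQt
  set Rt : ι → ℝ := fun i => cf i * ((16 * Real.sqrt (Ls i) * HS (Z ^ 3) ^ 2 +
        Real.sqrt (Ls i * N i / Nb i) * HS (Z ^ 3) ^ 3) * W1 i +
        Ls i * N i ^ (-(1 / 2) : ℝ) * (Cq * (cw * Z ^ 3) ^ δ * T2 i)) with hRt
  have hhs : ∀ x, 0 < x → h (Real.log x) ≠ 0 → |Real.log x| ≤ R₀ := fun x hx h1 =>
    (hw x (by rw [hw1 x hx h1]; norm_num)).2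
  have hPHE : PHE ε1 I A' T N m V K H Λ m₀ Z (Z ^ 3) Z (Z ^ 3) (2 * R₀) q
      (fun i a D F => TQf (cf i) (cw * N i) (b i) a D F)
      (fun i a D F => R1f (cf i) (cw * N i) (Lst K H Λ m₀ (N i) (nm (m i))) (N i) (Nb i) (W1 i)
        (b i) a D F) TQt Rt := by
    refine ⟨hX.pi, hZ3, hK, hX.KZ.trans hZZ3, hH, hm₀, ?_, hZ3, le_rfl, hZ0.le, hZZ3, ?_, ?_, hN,
      fun i hi => (hX.NZ i hi).trans hZZ3, fun i hi => (hX.mZ i hi).trans hZZ3, hX.mZ, hX.mm,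
      hX.NΛ, ?_, hX.hT, ?_, ?_, ?_, ?_, ?_⟩
    · exact hX.ΛZ.trans (le_self_pow₀ hZ3 (by norm_num))
    · intro i hi j hj
      have h1 := hX.mZ i hi
      have h2 := hX.mZ j hj
      have h3 := (nmi i hi).le
      have h4 := (nmi j hj).le
      calc (nm (m i) : ℝ) * nm (m j) * Z ≤ Z * Z * Z := by gcongr
        _ = Z ^ 3 := by ring
    · intro i hi; linarith [hq1 i hi]
    · intro i hi n hn
      rw [hX.VE i hi] at hn
      obtain ⟨hp, hs, hcop, ho⟩ := SA_supp hn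
      have nn := nmpos hp.ne_zero
      have e1 := hX.omE i hi (nm n) nn
      have hhn : h (Real.log (nm n) - Real.log (N i)) ≠ 0 := by
        intro h0
        rw [e1, h0] at ho
        exact ho (by simp)
      have hNi := hN i hi
      have e2 : Real.log (nm n) - Real.log (N i) = Real.log (nm n / N i) :=
        (Real.log_div nn.ne' hNi.ne').symm
      have h1 : |Real.log (nm n / N i)| ≤ R₀ := by
        refine hhs _ (by positivity) ?_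
        rw [← e2]; exact hhn
      rw [e2]
      linarith
    · intro i hi a D F
      unfold TQf
      split_ifs
      · have := TC_nonneg 1 (cw * N i) (b i) (a * D * F)
        have := hcf0 i
        positivity
      · exact le_rfl
    · intro i hi a D F
      unfold R1f
      split_ifs
      · have := TC_nonneg (1 / 2) (cw * N i) (b i) (a * D * F)
        have := hcf0 i
        have := hX.W0 i hi
        have := hLs0 i hi
        have := hN i hi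
        positivity
      · exact le_rfl
    · intro i hi s hs hsm b' hb' hbm a ha D hD E hE F hF L hL
      exact hcell hX i hi s hs hsm b' hb' hbm a ha D hD E hE F hF L hL
    · intro i hi
      have hNi := hN i hi
      exact sum_TQf htq (hcf0 i) hcZ3 (by positivity)
        (mul_le_mul_of_nonneg_left ((hX.NZ i hi).trans hZZ3) hcw0.le) hZ0.le hZ30 (b i)
    · intro i hi
      have hNi := hN i hi
      exact sum_R1f htq (hcf0 i) hcZ3 (by positivity)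
        (mul_le_mul_of_nonneg_left ((hX.NZ i hi).trans hZZ3) hcw0.le) hZ0.le hZ30 hNi
        (hX.Nb0 i hi) (hX.W0 i hi) hZZ3 le_rfl (hLs0 i hi) (b i)
  have hmain := hblock I T N m V K H Λ m₀ Z (Z ^ 3) Z (Z ^ 3) q _ _ TQt Rt hPHE P hPP
  refine hmain.trans ?_
  -- the exponents
  set z : ℝ := (Z ^ 3) ^ δ with hz
  set z1 : ℝ := (Z ^ 3) ^ ε1 with hz1
  have hzge : 1 ≤ z := Real.one_le_rpow hZ3 hδ0.le
  have hz1ge : 1 ≤ z1 := Real.one_le_rpow hZ3 hε10.le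
  have hz0 : 0 ≤ z := by linarith
  have hE : z ^ 4 * z1 ≤ Z ^ ε := by
    rw [hz, hz1, ← Real.rpow_natCast, ← Real.rpow_mul hZ30, ← Real.rpow_add hZ3p,
      ← Real.rpow_natCast, ← Real.rpow_mul hZ0.le]
    refine Real.rpow_le_rpow_of_exponent_le hZ1 ?_
    have h1 : ε1 ≤ ε / 1024 := min_le_right _ _
    rw [hδ]
    push_cast
    linarith
  have hcz : (cw * Z ^ 3) ^ δ = cw ^ δ * z := Real.mul_rpow hcw0.le hZ30
  have hHS : HS (Z ^ 3) ≤ ch * z := HS_le_rpow hδ0 hZ3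
  have hHS0 : 0 ≤ HS (Z ^ 3) := HS_nonneg _
  set E0 : ℝ := Z ^ ε with hE0
  have hE1 : 1 ≤ E0 := Real.one_le_rpow hZ1 hε.le
  have hτ1 : 1 ≤ (1 + |τ|) ^ A' := one_le_pow₀ (by linarith [abs_nonneg τ])
  -- one index
  have hone : ∀ i ∈ I, ∑ n ∈ S (Z ^ 3), ‖V i n‖ ^ 2 + z * (N i ^ (-(1 / 3) : ℝ) *
      (kap1 K H Λ m₀ (nm (m i)) (q i) * TQt i + H ^ (-(1 / 3) : ℝ) * q i ^ (1 / 3 : ℝ) * Rt i)) ≤
      (D1 + D2 + D3) * (E0 * ((1 + |τ|) ^ A' * Mb ^ 2)) * (‖cc i‖ ^ 2 * N i ^ (-(1 / 3) : ℝ) *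
        XBi K H Λ m₀ (N i) (nm (m i)) (q i) (Nb i) (W1 i) cw (b i)) := by
    intro i hi
    have hNi := hN i hi
    have hNp : 0 ≤ N i ^ (-(1 / 3) : ℝ) := by positivity
    have hq := hq1 i hi
    have hLi := hLs0 i hi
    have hWi := hX.W0 i hi
    have hmi := nmi i hi
    have hΛ : 0 < Λ := lt_of_lt_of_le (by positivity) (hX.NΛ i hi)
    have hkap : 0 ≤ kap1 K H Λ m₀ (nm (m i)) (q i) := by
      unfold kap1 thR; positivity
    have hNbi := hX.Nb0 i hi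
    have a1 : ∑ n ∈ S (Z ^ 3), ‖V i n‖ ^ 2 ≤ ‖cc i‖ ^ 2 * (Ch * Mb) ^ 2 * Real.exp (R₀ / 3) *
        N i ^ (-(1 / 3) : ℝ) * T1 i := by
      rw [hX.VE i hi]
      exact diag_le hχ hCh hhs hNi hMb (hX.κ1 i hi)
        (fun x => by simpa using hX.OmB i hi 0 (by omega) x) (hX.omE i hi) hcwR hZ30
    have a2 : z * TQt i ≤ D2 * (E0 * Mi i * T1 i) := by
      rw [hTQt, hD2]
      have h1 := real2 (T1 := T1 i) hzge hz1ge hE hCc (hMi0 i) hcq0 (hT10 i)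
      calc _ = z * (Cc * z1 * Mi i * (2 * (cq * z * T1 i))) := by
            simp only [hcf, hcz, hcq, ← hz1]; ring
        _ ≤ _ := h1
    have a3 : z * Rt i ≤ D3 * (E0 * Mi i * ((Real.sqrt (Ls i) + Real.sqrt (Ls i * N i / Nb i)) *
        W1 i + Ls i * N i ^ (-(1 / 2) : ℝ) * T2 i)) := by
      rw [hRt, hD3]
      have h1 := real3 (z := z) (z1 := z1) (E0 := E0) (Cc := Cc) (M := Mi i) (ch := ch) (cq := cq)
        (a := Real.sqrt (Ls i)) (b := Real.sqrt (Ls i * N i / Nb i)) (W1 := W1 i)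
        (L2 := Ls i * N i ^ (-(1 / 2) : ℝ)) (T2 := T2 i) (Hs := HS (Z ^ 3)) hzge hz1ge hE hCc
        (hMi0 i) hch0 hcq0 (Real.sqrt_nonneg _) (Real.sqrt_nonneg _) hWi (by positivity) (hT20 i)
        hHS0 hHS
      calc _ = z * (Cc * z1 * Mi i * ((16 * Real.sqrt (Ls i) * HS (Z ^ 3) ^ 2 +
            Real.sqrt (Ls i * N i / Nb i) * HS (Z ^ 3) ^ 3) * W1 i +
            Ls i * N i ^ (-(1 / 2) : ℝ) * (cq * z * T2 i))) := by
            simp only [hcf, hcz, hcq, ← hz1]; ring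
        _ ≤ _ := h1
    set U : ℝ := (Real.sqrt (Ls i) + Real.sqrt (Ls i * N i / Nb i)) *
        W1 i + Ls i * N i ^ (-(1 / 2) : ℝ) * T2 i with hU
    have hU0 : 0 ≤ U := by
      have := hT20 i
      positivity
    have hXBi : XBi K H Λ m₀ (N i) (nm (m i)) (q i) (Nb i) (W1 i) cw (b i) =
        (1 + kap1 K H Λ m₀ (nm (m i)) (q i)) * T1 i +
          H ^ (-(1 / 3) : ℝ) * q i ^ (1 / 3 : ℝ) * U := rfl
    rw [hXBi]
    set kp := kap1 K H Λ m₀ (nm (m i)) (q i) with hkp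
    set Hq := H ^ (-(1 / 3) : ℝ) * q i ^ (1 / 3 : ℝ) with hHq
    have hHq0 : 0 ≤ Hq := by positivity
    set Np := N i ^ (-(1 / 3) : ℝ) with hNp'
    set t1 := T1 i with ht1
    have ht10 : 0 ≤ t1 := hT10 i
    set B := (1 + |τ|) ^ A' * Mb ^ 2 with hB
    have hB0 : 0 ≤ B := by positivity
    have hMB : Mi i = ‖cc i‖ ^ 2 * B := by rw [hMi, hB]; ring
    have hMbB : Mb ^ 2 ≤ E0 * B := by
      have h1 : Mb ^ 2 ≤ B := by
        rw [hB]; exact le_mul_of_one_le_left (by positivity) hτ1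
      exact h1.trans (le_mul_of_one_le_left hB0 hE1)
    have c1 : ∑ n ∈ S (Z ^ 3), ‖V i n‖ ^ 2 ≤ D1 * (E0 * B) * (‖cc i‖ ^ 2 * Np * t1) := by
      refine a1.trans ?_
      calc ‖cc i‖ ^ 2 * (Ch * Mb) ^ 2 * Real.exp (R₀ / 3) * Np * t1 =
          D1 * Mb ^ 2 * (‖cc i‖ ^ 2 * Np * t1) := by rw [hD1]; ring
        _ ≤ _ := by gcongr
    have c2 : z * (Np * (kp * TQt i + Hq * Rt i)) ≤
        D2 * (E0 * B) * (‖cc i‖ ^ 2 * Np * (kp * t1)) +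
          D3 * (E0 * B) * (‖cc i‖ ^ 2 * Np * (Hq * U)) := by
      calc z * (Np * (kp * TQt i + Hq * Rt i)) = Np * kp * (z * TQt i) + Np * Hq * (z * Rt i) := by
            ring
        _ ≤ Np * kp * (D2 * (E0 * Mi i * t1)) + Np * Hq * (D3 * (E0 * Mi i * U)) := by
            gcongr
        _ = _ := by rw [hMB]; ring
    have c3 : 0 ≤ (D2 + D3) * (E0 * B) * (‖cc i‖ ^ 2 * Np * t1) := by positivity
    have c4 : 0 ≤ (D1 + D3) * (E0 * B) * (‖cc i‖ ^ 2 * Np * (kp * t1)) := by positivity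
    have c5 : 0 ≤ (D1 + D2) * (E0 * B) * (‖cc i‖ ^ 2 * Np * (Hq * U)) := by positivity
    nlinarith [c1, c2, c3, c4, c5]
  have hsum := Finset.sum_le_sum hone
  rw [Finset.sum_add_distrib, ← Finset.mul_sum, ← Finset.mul_sum] at hsum
  unfold OBR
  have hCT : 0 ≤ Cb * T * K := by positivity
  calc Cb * T * (K * ∑ i ∈ I, ∑ n ∈ S (Z ^ 3), ‖V i n‖ ^ 2) + Cb * T * z *
        (K * ∑ i ∈ I, N i ^ (-(1 / 3) : ℝ) * (kap1 K H Λ m₀ (nm (m i)) (q i) * TQt i +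
          H ^ (-(1 / 3) : ℝ) * q i ^ (1 / 3 : ℝ) * Rt i))
      = Cb * T * K * (∑ i ∈ I, ∑ n ∈ S (Z ^ 3), ‖V i n‖ ^ 2 +
        z * ∑ i ∈ I, N i ^ (-(1 / 3) : ℝ) * (kap1 K H Λ m₀ (nm (m i)) (q i) * TQt i +
          H ^ (-(1 / 3) : ℝ) * q i ^ (1 / 3 : ℝ) * Rt i)) := by ring
    _ ≤ Cb * T * K * ((D1 + D2 + D3) * (E0 * ((1 + |τ|) ^ A' * Mb ^ 2)) *
        ∑ i ∈ I, ‖cc i‖ ^ 2 * N i ^ (-(1 / 3) : ℝ) *
          XBi K H Λ m₀ (N i) (nm (m i)) (q i) (Nb i) (W1 i) cw (b i)) :=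
        mul_le_mul_of_nonneg_left hsum hCT
    _ = _ := by ring

/-- **the block bound** -/
theorem XB (hOK : OKW OK) (hχ : Mul1 χ) (hw1W : Wgt w1)
    (hP : PoHW OK nfo χ (w6 w1)) {Rw : ℝ} (hRw : 0 ≤ Rw) (aS A : ℕ) (hA : 1 < A) {R₀ : ℝ}
    (hR₀ : 0 ≤ R₀) (hh : ContDiff ℝ ∞ h) (hhc : HasCompactSupport h)
    (hw : ∀ x, w1 x ≠ 0 → 0 < x ∧ |Real.log x| ≤ R₀)
    (hw1 : ∀ x, 0 < x → h (Real.log x) ≠ 0 → w1 x = 1) {ε : ℝ} (hε : 0 < ε) :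
    ∃ (C c cw : ℝ) (A' : ℕ), 0 ≤ C ∧ 1 ≤ c ∧ 1 ≤ cw ∧ 1 < A' ∧
      ∀ {ι : Type*} {I : Finset ι} {T : ℕ}
      {N Nb W1 q : ι → ℝ} {m Q R ρ : ι → Eis} {V b : ι → Eis → ℂ} {cc κ : ι → ℂ}
      {om Om : ι → ℝ → ℂ} {K H Λ m₀ Z Mb τ : ℝ},
      XD OK aS A A' c Rw h χ I T N Nb W1 q m Q R ρ V b cc κ om Om K H Λ m₀ Z Mb τ →
      ∀ P : Finset Eis, (∀ a ∈ P, IsPrim a ∧ K ≤ nm a ∧ (nm a : ℝ) ≤ 2 * K) →
      ∑ a ∈ P, ‖AQ I m V a‖ ^ 2 ≤
        C * T * Z ^ ε * ((1 + |τ|) ^ A' * Mb ^ 2) * (K * ∑ i ∈ I, ‖cc i‖ ^ 2 *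
          N i ^ (-(1 / 3) : ℝ) * XBi K H Λ m₀ (N i) (nm (m i)) (q i) (Nb i) (W1 i) cw (b i)) := by
  obtain ⟨C, c, cw, A', h1, h2, h3, h4, h5⟩ := XBp hOK hχ hw1W (PoHWp.of hP) hRw aS A hA hR₀ hh hhc
    hw hw1 hε
  exact ⟨C, c, cw, A', h1, h2, h3, h4, fun {ι I T N Nb W1 q m Q R ρ V b cc κ om Om K H Λ m₀ Z Mb τ}
    hX => h5 hX.toXDp⟩

end Crest.Agent.R017.E3q681
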