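import Crest.Agent.R017.LSn_50
import Crest.Agent.R017.ModeC_405

/-!
# Row 17, E3 (helper50): MODE*, the rest of the Möbius sums by the large sieve

* `RestP` : the terms `Q < nm d nm q` of `Mode405.Lx_eq`;  `Lx_split`
* `lsn_rho` : its mean square over the kernels of norm at most `W`
* `lsn_rest` : the same over `h ≤ L` with the kernel of `h q` in `(W/2, W]`
-/

set_option autoImplicit false
set_option linter.unusedVariables false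

noncomputable section

namespace Crest.Agent.R017.LSq50

open Complex
open scoped ComplexConjugate
open Crest.Agent.R012 Crest.Agent.R012.Eis
open Crest.Agent.R012.LS2 (S mem_S bl mem_bl)
open Crest.Agent.R012.LS448 (one_le_nm')
open Crest.Agent.R012.NonCube52 (Ker kv Good kc kc_spec kc_nm kv_ne_zero one_le_nmkv)
open Crest.Agent.R012.Mob705 (mu pdiv mem_pdiv mu_of_not_squarefree abs_mu_le_one)
open Crest.Agent.R012.Weight600 (pw)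
open Crest.Agent.R012.Div277 (tau dvs mem_dvs nm_le_of_dvd tau_le_rpow)
open Crest.Agent.R012.GLS106 (dec dec_spec)
open Crest.Agent.R017.CM106 (CS)
open Crest.Agent.R017.Mode405 (StrP Lx Lx_eq Fx fx sum_dvd nk KS mem_KS norm_pw sum_small_le
  nk_ge_one)

/-- the part of the Möbius sums with `nm d nm q > Q` -/
def RestP (χ : Eis → ℂ) (w : ℝ → ℝ) (Y t : ℝ) (b : Eis → ℂ) (κ : Ker) (ρ : Eis) (N₀ Q : ℝ) : ℂ :=
  open Classical in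
  ∑ d ∈ pdiv ρ, ∑ q ∈ S N₀, if IsCoprime q ρ ∧ Q < (nm d : ℝ) * nm q then
    ((mu d : ℂ) * mu q) * Fx (fx χ w Y t b κ) (d * q ^ 2) else 0

theorem Lx_split {χ : Eis → ℂ} {w : ℝ → ℝ} {Y t : ℝ} {b : Eis → ℂ} {κ : Ker} {ρ : Eis}
    (hρ : ρ ≠ 0) {N₀ : ℝ} (hN : 0 ≤ N₀) (hw : ∀ x, w (x / Y) ≠ 0 → x ≤ N₀) (Q : ℝ) :
    Lx χ w Y t b κ ρ = StrP χ w Y t b κ ρ N₀ Q + RestP χ w Y t b κ ρ N₀ Q := by
  classical
  rw [Lx_eq hρ hN hw]
  unfold StrP RestP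
  rw [← Finset.sum_add_distrib]
  refine Finset.sum_congr rfl fun d _ => ?_
  rw [← Finset.sum_add_distrib]
  refine Finset.sum_congr rfl fun q _ => ?_
  by_cases hc : IsCoprime q ρ
  · by_cases hQ : (nm d : ℝ) * nm q ≤ Q
    · rw [if_pos hc, if_pos ⟨hc, hQ⟩, if_neg (fun h => absurd h.2 (not_lt.mpr hQ)), add_zero]
    · rw [if_pos hc, if_neg (fun h => hQ h.2), if_pos ⟨hc, not_le.mp hQ⟩, zero_add]
  · rw [if_neg hc, if_neg (fun h => hc h.1), if_neg (fun h => hc h.1), add_zero]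

/-! ### arithmetic -/

/-- `q² ∣ a m`, `a` squarefree, gives `q ∣ m` -/
lemma sq_dvd_aux {a q m : Eis} (ha : Squarefree a) (ha0 : IsPrim a) (hq : q ^ 2 ∣ a * m) :
    q ∣ m := by
  obtain ⟨g, q₁, a₁, hg, ha₁, hqg, hag, hcop, -⟩ := StA828.exists_gcd q ha0
  have h0 : g ≠ 0 := hg.ne_zero
  have h1 : g * q₁ ^ 2 ∣ a₁ * m := by
    have e1 : q ^ 2 = g * (g * q₁ ^ 2) := by rw [hqg]; ring
    have e2 : a * m = g * (a₁ * m) := by rw [hag]; ring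
    rw [e1, e2] at hq
    exact (mul_dvd_mul_iff_left h0).mp hq
  have h2 : IsCoprime g a₁ := by
    have h3 := hag ▸ ha
    exact isRelPrime_iff_isCoprime.mp (squarefree_mul_iff.mp h3).1
  have h4 : IsCoprime (g * q₁ ^ 2) a₁ := h2.mul_left (hcop.pow_left)
  have h5 : g * q₁ ^ 2 ∣ m := h4.dvd_of_dvd_mul_left h1
  rw [hqg]
  refine dvd_trans ?_ h5
  rw [sq, ← mul_assoc]
  exact dvd_mul_right _ _

lemma tv_dec {n : Eis} (hn : IsPrim n) : tv (dec n) = n := by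
  have h := (dec_spec hn).2.2.2.2.2.2
  unfold tv
  conv_rhs => rw [h]
  ring

lemma dec_inj {n m : Eis} (hn : IsPrim n) (hm : IsPrim m) (h : dec n = dec m) : n = m := by
  rw [← tv_dec hn, ← tv_dec hm, h]

lemma nm_kc_dec {n : Eis} (hn : IsPrim n) : (nm (kc n).2 : ℝ) = nm (dec n).2.2 := by
  obtain ⟨p1, p2, p3, s1, s2, hc, he⟩ := dec_spec hn
  have d1 := dec_kc hn.ne_zero
  have d2 : Char766.IsCubDec n 0 0 (dec n).1 (dec n).2.1 (dec n).2.2 := by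
    refine ⟨by norm_num, by norm_num, p1, p2, s1, s2, hc, p3.ne_zero, ?_⟩
    rw [pow_zero, pow_zero, one_mul, one_mul]
    exact he
  obtain ⟨u1, u2, u3, u4, -⟩ := d1.unique d2
  have h1 := kc_nm hn.ne_zero
  have hk : kv (kc n).1 = (dec n).1 * (dec n).2.1 ^ 2 := by
    unfold kv
    rw [u1, u2, u3, u4]; ring
  have h2 : (nm (kv (kc n).1) : ℝ) * (nm (dec n).2.2 : ℝ) ^ 3 = nm n := by
    rw [hk]
    conv_rhs => rw [he]
    simp only [nm_mul, nm_pow]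
    push_cast
    ring
  have h3 : (0 : ℝ) < nm (kv (kc n).1) := by
    have := one_le_nmkv (kc_spec hn.ne_zero).1
    linarith
  have h4 : (nm (kc n).2 : ℝ) ^ 3 = (nm (dec n).2.2 : ℝ) ^ 3 :=
    mul_left_cancel₀ h3.ne' (h1.trans h2.symm)
  exact (pow_left_inj₀ (Nat.cast_nonneg _) (Nat.cast_nonneg _) (by norm_num)).mp h4

/-! ### the coefficients -/

/-- the divisor sum -/
def lamQ (ρ : Eis) (N₀ Q : ℝ) (d n : Eis) : ℂ :=
  open Classical in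
  ∑ q ∈ S N₀, if (IsCoprime q ρ ∧ Q < (nm d : ℝ) * nm q) ∧ d * q ^ 2 ∣ n then
    ((mu d : ℂ) * mu q) else 0

lemma norm_mm (d q : Eis) : ‖((mu d : ℂ) * mu q)‖ ≤ 1 := by
  rw [norm_mul, Complex.norm_intCast, Complex.norm_intCast]
  have a1 : |(mu d : ℝ)| ≤ 1 := by exact_mod_cast abs_mu_le_one d
  have a2 : |(mu q : ℝ)| ≤ 1 := by exact_mod_cast abs_mu_le_one q
  calc _ ≤ (1 : ℝ) * 1 := mul_le_mul a1 a2 (abs_nonneg _) zero_le_one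
    _ = 1 := one_mul 1

lemma norm_lamQ {ρ : Eis} {N₀ : ℝ} (hN : 0 ≤ N₀) (Q : ℝ) {d n : Eis} (hn : n ≠ 0) :
    ‖lamQ ρ N₀ Q d n‖ ≤ tau n := by
  classical
  unfold lamQ
  rw [← Finset.sum_filter]
  refine (norm_sum_le _ _).trans ?_
  refine (Finset.sum_le_sum fun q _ => norm_mm d q).trans ?_
  rw [Finset.sum_const, nsmul_eq_mul, mul_one]
  unfold Div277.tau
  refine Nat.cast_le.mpr (Finset.card_le_card fun q hq => ?_)
  rw [Finset.mem_filter, mem_S hN] at hq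
  rw [mem_dvs hn]
  exact ⟨hq.1.2.1, (dvd_pow_self q two_ne_zero).trans ((dvd_mul_left _ _).trans hq.2.2)⟩

lemma lamQ_supp {ρ : Eis} {N₀ : ℝ} (hN : 0 ≤ N₀) {Q : ℝ} {d n : Eis}
    (h : lamQ ρ N₀ Q d n ≠ 0) : Squarefree d ∧ ∃ q : Eis, IsPrim q ∧ Squarefree q ∧
      IsCoprime q ρ ∧ Q < (nm d : ℝ) * nm q ∧ d * q ^ 2 ∣ n := by
  classical
  unfold lamQ at h
  obtain ⟨q, hq, hq2⟩ := Finset.exists_ne_zero_of_sum_ne_zero h
  rw [mem_S hN] at hq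
  by_cases hc : (IsCoprime q ρ ∧ Q < (nm d : ℝ) * nm q) ∧ d * q ^ 2 ∣ n
  · rw [if_pos hc] at hq2
    refine ⟨?_, q, hq.2.1, hq.2.2, hc.1.1, hc.1.2, hc.2⟩
    by_contra hs
    exact hq2 (by rw [mu_of_not_squarefree hs]; simp)
  · rw [if_neg hc] at hq2
    exact absurd rfl hq2

lemma trOK_of {ρ : Eis} {N₀ : ℝ} (hN : 0 ≤ N₀) {Q : ℝ} {d n : Eis} (hd : d ∣ ρ)
    (hn : n ∈ primBall ⌊N₀⌋₊) (h : lamQ ρ N₀ Q d n ≠ 0) : TrOK N₀ Q d (dec n) := by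
  have hn' := mem_primBall.mp hn
  have hP := hn'.2
  obtain ⟨p1, p2, p3, s1, s2, hc, he⟩ := dec_spec hP
  obtain ⟨hds, q, hqp, hqs, hqρ, hqQ, hqn⟩ := lamQ_supp hN h
  have hm0 : (dec n).1 * ((dec n).2.1 * (dec n).2.2) ≠ 0 :=
    mul_ne_zero p1.ne_zero (mul_ne_zero p2.ne_zero p3.ne_zero)
  have hm1 : (dec n).2.1 * (dec n).2.2 ≠ 0 := mul_ne_zero p2.ne_zero p3.ne_zero
  refine ⟨p1, s1, p2, p3, ?_, ?_, q, hqp.ne_zero, hqρ.of_isCoprime_of_dvd_right hd, ?_, hqQ.le⟩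
  · rw [tv_dec hP]
    exact (Nat.le_floor_iff hN).mp hn'.1
  · have h1 : d ∣ ((dec n).1 * ((dec n).2.1 * (dec n).2.2)) ^ 3 := by
      refine ((dvd_mul_right d (q ^ 2)).trans hqn).trans ?_
      nth_rewrite 1 [he]
      refine ⟨(dec n).1 ^ 2 * (dec n).2.1, ?_⟩
      ring
    exact (hds.dvd_pow_iff_dvd (by norm_num)).mp h1
  · have h1 : q ^ 2 ∣ (dec n).1 * ((dec n).2.1 ^ 2 * (dec n).2.2 ^ 3) := by
      refine ((dvd_mul_left (q ^ 2) d).trans hqn).trans ?_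
      nth_rewrite 1 [he]
      refine ⟨1, ?_⟩
      ring
    have h2 := sq_dvd_aux s1 p1 h1
    have h3 : q ∣ ((dec n).2.1 * (dec n).2.2) ^ 3 := by
      refine h2.trans ⟨(dec n).2.1, ?_⟩
      ring
    exact (hqs.dvd_pow_iff_dvd (by norm_num)).mp h3

/-- the coefficient of one `n` -/
def cn (χ : Eis → ℂ) (w : ℝ → ℝ) (Y t : ℝ) (b : Eis → ℂ) (n : Eis) : ℂ :=
  χ n * CS b n * pw t (nm n) * ((w (nm n / Y) : ℝ) : ℂ)

lemma norm_cn (χ : Eis → ℂ) (w : ℝ → ℝ) (Y t : ℝ) (b : Eis → ℂ) (n : Eis) :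
    ‖cn χ w Y t b n‖ ^ 2 = ‖χ n‖ ^ 2 * |w (nm n / Y)| ^ 2 * ‖CS b n‖ ^ 2 := by
  unfold cn
  rw [norm_mul, norm_mul, norm_mul, norm_pw, Complex.norm_real, Real.norm_eq_abs]
  ring

lemma RestP_eq {χ : Eis → ℂ} {w : ℝ → ℝ} {Y t : ℝ} {b : Eis → ℂ} (κ : Ker) {ρ : Eis}
    (hρ : ρ ≠ 0) {N₀ : ℝ} (hN : 0 ≤ N₀) (hw : ∀ x, w (x / Y) ≠ 0 → x ≤ N₀) (Q : ℝ) :
    RestP χ w Y t b κ ρ N₀ Q = ∑ d ∈ pdiv ρ, ∑ n ∈ primBall ⌊N₀⌋₊,
      (lamQ ρ N₀ Q d n * cn χ w Y t b n) * conj (sy (kv κ) n) := by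
  classical
  have hf : ∀ n, fx χ w Y t b κ n ≠ 0 → (nm n : ℝ) ≤ N₀ := by
    intro n hn
    unfold fx at hn
    refine hw _ fun h => hn ?_
    rw [h]; simp
  unfold RestP
  refine Finset.sum_congr rfl fun d hd => ?_
  have hd' := (mem_pdiv hρ).mp hd
  have e1 : ∀ q ∈ S N₀, (if IsCoprime q ρ ∧ Q < (nm d : ℝ) * nm q then
      ((mu d : ℂ) * mu q) * Fx (fx χ w Y t b κ) (d * q ^ 2) else 0) =
      ∑ n ∈ primBall ⌊N₀⌋₊, (if (IsCoprime q ρ ∧ Q < (nm d : ℝ) * nm q) ∧ d * q ^ 2 ∣ n then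
        ((mu d : ℂ) * mu q) else 0) * fx χ w Y t b κ n := by
    intro q hq
    have hq' := (mem_S hN).1 hq
    by_cases hc : IsCoprime q ρ ∧ Q < (nm d : ℝ) * nm q
    · rw [if_pos hc, ← sum_dvd hN hf (hd'.1.mul (hq'.2.1.pow 2)), Finset.mul_sum]
      refine Finset.sum_congr rfl fun n _ => ?_
      by_cases h2 : d * q ^ 2 ∣ n
      · rw [if_pos h2, if_pos ⟨hc, h2⟩]
      · rw [if_neg h2, if_neg (fun h => h2 h.2)]; ring
    · rw [if_neg hc]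
      symm
      refine Finset.sum_eq_zero fun n _ => ?_
      rw [if_neg (fun h => hc h.1), zero_mul]
  rw [Finset.sum_congr rfl e1, Finset.sum_comm]
  refine Finset.sum_congr rfl fun n _ => ?_
  rw [← Finset.sum_mul]
  unfold lamQ cn fx
  ring

/-! ### one divisor -/

theorem lsn_d {ε : ℝ} (hε : 0 < ε) :
    ∃ C : ℝ, 0 < C ∧ ∀ W N₀ Q : ℝ, 1 ≤ W → 1 ≤ N₀ → 0 < Q → ∀ (A : Eis → ℂ) (ρ d : Eis),
      IsPrim d → d ∣ ρ → ∀ 𝒦 : Finset Ker, (∀ κ ∈ 𝒦, Good κ ∧ (nm (kv κ) : ℝ) ≤ W) →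
      ∑ κ ∈ 𝒦, ‖∑ n ∈ primBall ⌊N₀⌋₊, (lamQ ρ N₀ Q d n * A n) * conj (sy (kv κ) n)‖ ^ 2 ≤
        C * (W * N₀) ^ ε * ∑ n ∈ primBall ⌊N₀⌋₊, om50 W N₀ Q (nm (kc n).2) *
          ((tau n : ℝ) ^ 2 * ‖A n‖ ^ 2) := by
  classical
  obtain ⟨C, hC, h⟩ := lsn_ker hε
  refine ⟨C, hC, ?_⟩
  intro W N₀ Q hW hN hQ A ρ d hd hdρ 𝒦 h𝒦
  have hN0 : 0 ≤ N₀ := by linarith
  have hW0 : 0 ≤ W := by linarith
  set PB := primBall ⌊N₀⌋₊ with hPB
  have hprim : ∀ n ∈ PB, IsPrim n := fun n hn => (mem_primBall.mp hn).2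
  have hterm0 : ∀ n ∈ PB, 0 ≤ om50 W N₀ Q (nm (kc n).2) * ((tau n : ℝ) ^ 2 * ‖A n‖ ^ 2) :=
    fun n _ => mul_nonneg (om50_nonneg hW0 hN0 hQ (Nat.cast_nonneg _)) (by positivity)
  set F := PB.filter (fun n => lamQ ρ N₀ Q d n ≠ 0) with hF
  have hFe : ∀ κ, ∑ n ∈ PB, (lamQ ρ N₀ Q d n * A n) * conj (sy (kv κ) n) =
      ∑ n ∈ F, (lamQ ρ N₀ Q d n * A n) * conj (sy (kv κ) n) := by
    intro κ
    rw [hF, Finset.sum_filter]
    refine Finset.sum_congr rfl fun n _ => ?_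
    by_cases h0 : lamQ ρ N₀ Q d n = 0
    · rw [if_neg (not_not.mpr h0), h0]; ring
    · rw [if_pos h0]
  by_cases hds : Squarefree d
  · set T := F.image dec with hT
    set c : Eis × Eis × Eis → ℂ := fun t => conj (lamQ ρ N₀ Q d (tv t) * A (tv t)) with hc
    have hFP : ∀ n ∈ F, IsPrim n := fun n hn => hprim n (Finset.mem_filter.mp hn).1
    have hinj : ∀ n ∈ F, ∀ m ∈ F, dec n = dec m → n = m := fun n hn m hm h =>
      dec_inj (hFP n hn) (hFP m hm) h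
    have hTok : ∀ t ∈ T, TrOK N₀ Q d t := by
      intro t ht
      rw [hT, Finset.mem_image] at ht
      obtain ⟨n, hn, rfl⟩ := ht
      rw [hF, Finset.mem_filter] at hn
      exact trOK_of hN0 hdρ hn.1 hn.2
    have key := h W N₀ Q hW hN hQ d hd hds 𝒦 h𝒦 T hTok c
    have e1 : ∀ κ ∈ 𝒦, ‖∑ n ∈ PB, (lamQ ρ N₀ Q d n * A n) * conj (sy (kv κ) n)‖ =
        ‖∑ t ∈ T, c t * sy (kv κ) (tv t)‖ := by
      intro κ _
      rw [hFe κ, ← RCLike.norm_conj, map_sum, hT, Finset.sum_image hinj]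
      congr 1
      refine Finset.sum_congr rfl fun n hn => ?_
      rw [hc]
      beta_reduce
      rw [tv_dec (hFP n hn), map_mul, Complex.conj_conj]
    have e2 : ∑ t ∈ T, om50 W N₀ Q (nm t.2.2) * ‖c t‖ ^ 2 ≤
        ∑ n ∈ PB, om50 W N₀ Q (nm (kc n).2) * ((tau n : ℝ) ^ 2 * ‖A n‖ ^ 2) := by
      rw [hT, Finset.sum_image hinj]
      refine le_trans (Finset.sum_le_sum (g := fun n => om50 W N₀ Q (nm (kc n).2) *
        ((tau n : ℝ) ^ 2 * ‖A n‖ ^ 2)) fun n hn => ?_)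
        (Finset.sum_le_sum_of_subset_of_nonneg (Finset.filter_subset _ _)
          fun n hn _ => hterm0 n hn)
      have hP := hFP n hn
      rw [hc]
      beta_reduce
      rw [tv_dec hP, nm_kc_dec hP, RCLike.norm_conj, norm_mul, mul_pow]
      refine mul_le_mul_of_nonneg_left ?_ (om50_nonneg hW0 hN0 hQ (Nat.cast_nonneg _))
      refine mul_le_mul_of_nonneg_right ?_ (by positivity)
      exact pow_le_pow_left₀ (norm_nonneg _) (norm_lamQ hN0 Q hP.ne_zero) 2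
    rw [Finset.sum_congr rfl fun κ hκ => by rw [e1 κ hκ]]
    exact key.trans (mul_le_mul_of_nonneg_left e2 (by positivity))
  · have h0 : ∀ n, lamQ ρ N₀ Q d n = 0 := by
      intro n
      by_contra h1
      exact hds (lamQ_supp hN0 h1).1
    have h1 : ∑ κ ∈ 𝒦, ‖∑ n ∈ PB, (lamQ ρ N₀ Q d n * A n) * conj (sy (kv κ) n)‖ ^ 2 = 0 := by
      refine Finset.sum_eq_zero fun κ _ => ?_
      have h2 : ∑ n ∈ PB, (lamQ ρ N₀ Q d n * A n) * conj (sy (kv κ) n) = 0 :=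
        Finset.sum_eq_zero fun n _ => by rw [h0 n]; ring
      rw [h2, norm_zero]; norm_num
    rw [h1]
    have := Finset.sum_nonneg hterm0
    positivity

/-- **the rest of the Möbius sums over the kernels of norm at most `W`** -/
theorem lsn_rho {ε : ℝ} (hε : 0 < ε) :
    ∃ C : ℝ, 0 < C ∧ ∀ W N₀ Q Y Z t : ℝ, 1 ≤ W → 1 ≤ N₀ → 0 < Q → W ≤ Z → N₀ ≤ Z →
      ∀ (χ : Eis → ℂ) (w : ℝ → ℝ) (b : Eis → ℂ), (∀ x, w (x / Y) ≠ 0 → x ≤ N₀) →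
      ∀ ρ : Eis, ρ ≠ 0 → (nm ρ : ℝ) ≤ Z ^ 3 →
      ∀ 𝒦 : Finset Ker, (∀ κ ∈ 𝒦, Good κ ∧ (nm (kv κ) : ℝ) ≤ W) →
      ∑ κ ∈ 𝒦, ‖RestP χ w Y t b κ ρ N₀ Q‖ ^ 2 ≤
        C * Z ^ ε * ∑ n ∈ primBall ⌊N₀⌋₊, om50 W N₀ Q (nm (kc n).2) *
          (‖χ n‖ ^ 2 * |w (nm n / Y)| ^ 2 * ‖CS b n‖ ^ 2) := by
  classical
  obtain ⟨C, hC, h⟩ := lsn_d (ε := ε / 4) (by positivity)
  obtain ⟨Ct, hCt, htau⟩ := tau_le_rpow (ε := ε / 16) (by positivity)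
  refine ⟨Ct ^ 2 * (Ct ^ 2 * C), by positivity, ?_⟩
  intro W N₀ Q Y Z t hW hN hQ hWZ hNZ χ w b hw ρ hρ hρZ 𝒦 h𝒦
  have hN0 : 0 ≤ N₀ := by linarith
  have hW0 : 0 ≤ W := by linarith
  have hZ1 : 1 ≤ Z := hW.trans hWZ
  have hZ0 : 0 < Z := by linarith
  set A : Eis → ℂ := cn χ w Y t b with hA
  set PB := primBall ⌊N₀⌋₊ with hPB
  set M : ℝ := ∑ n ∈ PB, om50 W N₀ Q (nm (kc n).2) * ‖A n‖ ^ 2 with hM
  have hM0 : 0 ≤ M := Finset.sum_nonneg fun n _ =>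
    mul_nonneg (om50_nonneg hW0 hN0 hQ (Nat.cast_nonneg _)) (by positivity)
  have hcard : ((pdiv ρ).card : ℝ) ≤ Ct * Z ^ (3 * ε / 16) := by
    refine (htau ρ hρ).trans ?_
    refine mul_le_mul_of_nonneg_left ?_ (by linarith)
    calc (nm ρ : ℝ) ^ (ε / 16) ≤ (Z ^ 3) ^ (ε / 16) :=
          Real.rpow_le_rpow (Nat.cast_nonneg _) hρZ (by positivity)
      _ = Z ^ (3 * ε / 16) := by
          rw [← Real.rpow_natCast Z 3, ← Real.rpow_mul hZ0.le]; congr 1; push_cast; ring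
  have htn : ∀ n ∈ PB, (tau n : ℝ) ^ 2 ≤ Ct ^ 2 * Z ^ (ε / 8) := by
    intro n hn
    have hn' := mem_primBall.mp hn
    have h1 := htau n hn'.2.ne_zero
    have h2 : (nm n : ℝ) ^ (ε / 16) ≤ Z ^ (ε / 16) :=
      Real.rpow_le_rpow (Nat.cast_nonneg _) (((Nat.le_floor_iff hN0).mp hn'.1).trans hNZ)
        (by positivity)
    have h3 : (tau n : ℝ) ≤ Ct * Z ^ (ε / 16) :=
      h1.trans (mul_le_mul_of_nonneg_left h2 (by linarith))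
    calc (tau n : ℝ) ^ 2 ≤ (Ct * Z ^ (ε / 16)) ^ 2 := pow_le_pow_left₀ (Nat.cast_nonneg _) h3 2
      _ = Ct ^ 2 * Z ^ (ε / 8) := by
          rw [mul_pow, ← Real.rpow_natCast (Z ^ (ε / 16)), ← Real.rpow_mul hZ0.le]
          congr 2
          push_cast; ring
  have hWN : (W * N₀) ^ (ε / 4) ≤ Z ^ (ε / 2) := by
    calc (W * N₀) ^ (ε / 4) ≤ (Z ^ 2) ^ (ε / 4) := by
          refine Real.rpow_le_rpow (by positivity) ?_ (by positivity)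
          nlinarith
      _ = Z ^ (ε / 2) := by
          rw [← Real.rpow_natCast Z 2, ← Real.rpow_mul hZ0.le]; congr 1; push_cast; ring
  -- one divisor
  have hd1 : ∀ d ∈ pdiv ρ, ∑ κ ∈ 𝒦, ‖∑ n ∈ PB, (lamQ ρ N₀ Q d n * A n) *
      conj (sy (kv κ) n)‖ ^ 2 ≤ (C * Z ^ (ε / 2)) * ((Ct ^ 2 * Z ^ (ε / 8)) * M) := by
    intro d hd
    have hd' := (mem_pdiv hρ).mp hd
    refine (h W N₀ Q hW hN hQ A ρ d hd'.1 hd'.2 𝒦 h𝒦).trans ?_
    have h1 : ∑ n ∈ primBall ⌊N₀⌋₊, om50 W N₀ Q (nm (kc n).2) * ((tau n : ℝ) ^ 2 * ‖A n‖ ^ 2) ≤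
        (Ct ^ 2 * Z ^ (ε / 8)) * M := by
      rw [hM, Finset.mul_sum]
      refine Finset.sum_le_sum fun n hn => ?_
      have h2 := htn n hn
      have h3 := om50_nonneg (g := (nm (kc n).2 : ℝ)) hW0 hN0 hQ (Nat.cast_nonneg _)
      calc om50 W N₀ Q (nm (kc n).2) * ((tau n : ℝ) ^ 2 * ‖A n‖ ^ 2) ≤
            om50 W N₀ Q (nm (kc n).2) * ((Ct ^ 2 * Z ^ (ε / 8)) * ‖A n‖ ^ 2) := by gcongr
        _ = _ := by ring
    have h0 : 0 ≤ ∑ n ∈ primBall ⌊N₀⌋₊, om50 W N₀ Q (nm (kc n).2) *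
        ((tau n : ℝ) ^ 2 * ‖A n‖ ^ 2) := Finset.sum_nonneg fun n _ =>
      mul_nonneg (om50_nonneg hW0 hN0 hQ (Nat.cast_nonneg _)) (by positivity)
    gcongr
  calc ∑ κ ∈ 𝒦, ‖RestP χ w Y t b κ ρ N₀ Q‖ ^ 2
      ≤ ∑ κ ∈ 𝒦, ((pdiv ρ).card : ℝ) * ∑ d ∈ pdiv ρ,
          ‖∑ n ∈ PB, (lamQ ρ N₀ Q d n * A n) * conj (sy (kv κ) n)‖ ^ 2 := by
        refine Finset.sum_le_sum fun κ _ => ?_
        rw [RestP_eq κ hρ hN0 hw Q]
        calc _ ≤ (∑ d ∈ pdiv ρ, ‖∑ n ∈ PB, (lamQ ρ N₀ Q d n * A n) *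
              conj (sy (kv κ) n)‖) ^ 2 :=
              pow_le_pow_left₀ (norm_nonneg _) (norm_sum_le _ _) 2
          _ ≤ _ := sq_sum_le_card_mul_sum_sq
    _ = ((pdiv ρ).card : ℝ) * ∑ d ∈ pdiv ρ, ∑ κ ∈ 𝒦,
          ‖∑ n ∈ PB, (lamQ ρ N₀ Q d n * A n) * conj (sy (kv κ) n)‖ ^ 2 := by
        rw [← Finset.mul_sum, Finset.sum_comm]
    _ ≤ ((pdiv ρ).card : ℝ) * ∑ d ∈ pdiv ρ,
          (C * Z ^ (ε / 2)) * ((Ct ^ 2 * Z ^ (ε / 8)) * M) :=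
        mul_le_mul_of_nonneg_left (Finset.sum_le_sum hd1) (Nat.cast_nonneg _)
    _ = ((pdiv ρ).card : ℝ) ^ 2 * ((C * Z ^ (ε / 2)) * ((Ct ^ 2 * Z ^ (ε / 8)) * M)) := by
        rw [Finset.sum_const, nsmul_eq_mul]; ring
    _ ≤ (Ct * Z ^ (3 * ε / 16)) ^ 2 * ((C * Z ^ (ε / 2)) * ((Ct ^ 2 * Z ^ (ε / 8)) * M)) := by
        gcongr
    _ = Ct ^ 2 * (Ct ^ 2 * C) * ((Z ^ (3 * ε / 16)) ^ 2 * Z ^ (ε / 2) * Z ^ (ε / 8)) * M := by
        ring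
    _ = Ct ^ 2 * (Ct ^ 2 * C) * Z ^ ε * M := by
        congr 2
        rw [← Real.rpow_natCast (Z ^ (3 * ε / 16)), ← Real.rpow_mul hZ0.le,
          ← Real.rpow_add hZ0, ← Real.rpow_add hZ0]
        congr 1
        push_cast; ring
    _ = _ := by
        rw [hM]
        congr 1
        refine Finset.sum_congr rfl fun n _ => ?_
        rw [hA, norm_cn]

set_option maxHeartbeats 2000000 in
/-- **the same over `h ≤ L` with the kernel of `h q` in `(W/2, W]`** -/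
theorem lsn_rest {ε : ℝ} (hε : 0 < ε) :
    ∃ C : ℝ, 0 < C ∧ ∀ W N₀ Q Y Z t L L0 : ℝ, 1 ≤ W → 1 ≤ N₀ → 0 < Q → W ≤ Z → N₀ ≤ Z →
      0 ≤ L → L ≤ Z →
      ∀ (χ : Eis → ℂ) (w : ℝ → ℝ) (b : Eis → ℂ), (∀ x, w (x / Y) ≠ 0 → x ≤ N₀) →
      ∀ r q : Eis, r ≠ 0 → (nm r : ℝ) ≤ Z → q ≠ 0 → (nm q : ℝ) ≤ Z → L * nk q ≤ L0 →
      ∑ h ∈ (bl L).filter (fun h => W / 2 < nk (h * q) ∧ nk (h * q) ≤ W),
        ‖RestP χ w Y t b (kc (h * q)).1 (r * (kc (h * q)).2) N₀ Q‖ ^ 2 ≤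
        C * Z ^ ε * (L0 / W) ^ ((1 : ℝ) / 3) *
          ∑ n ∈ primBall ⌊N₀⌋₊, om50 W N₀ Q (nm (kc n).2) *
          (‖χ n‖ ^ 2 * |w (nm n / Y)| ^ 2 * ‖CS b n‖ ^ 2) := by
  classical
  obtain ⟨C, hC, h⟩ := lsn_rho hε
  refine ⟨32 * C, by positivity, ?_⟩
  intro W N₀ Q Y Z t L L0 hW hN hQ hWZ hNZ hL hLZ χ w b hw r q hr hrZ hq hqZ hL0
  have hN0 : 0 ≤ N₀ := by linarith
  have hW0 : 0 < W := by linarith
  have hZ1 : 1 ≤ Z := hW.trans hWZ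
  have hZ0 : 0 < Z := by linarith
  have hk1 := nk_ge_one hq
  have hLk0 : 0 ≤ L * nk q := mul_nonneg hL (by linarith)
  have hL00 : 0 ≤ L0 := hLk0.trans hL0
  set D : ℝ := ∑ n ∈ primBall ⌊N₀⌋₊, om50 W N₀ Q (nm (kc n).2) *
          (‖χ n‖ ^ 2 * |w (nm n / Y)| ^ 2 * ‖CS b n‖ ^ 2) with hD
  have hD0 : 0 ≤ D := Finset.sum_nonneg fun n _ =>
    mul_nonneg (om50_nonneg hW0.le hN0 hQ (Nat.cast_nonneg _)) (by positivity)
  set g : Ker → Eis → ℝ := fun κ m => if W / 2 < (nm (kv κ) : ℝ) then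
    ‖RestP χ w Y t b κ (r * m) N₀ Q‖ ^ 2 else 0 with hg
  have hg0 : ∀ κ m, 0 ≤ g κ m := by
    intro κ m
    rw [hg]
    beta_reduce
    split_ifs <;> positivity
  have e1 : ∑ h ∈ (bl L).filter (fun h => W / 2 < nk (h * q) ∧ nk (h * q) ≤ W),
        ‖RestP χ w Y t b (kc (h * q)).1 (r * (kc (h * q)).2) N₀ Q‖ ^ 2 =
      ∑ h ∈ (bl L).filter (fun h => (nm (kv (kc (h * q)).1) : ℝ) ≤ W),
        g (kc (h * q)).1 (kc (h * q)).2 := by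
    rw [Finset.sum_filter, Finset.sum_filter]
    refine Finset.sum_congr rfl fun x _ => ?_
    rw [hg]
    unfold nk
    beta_reduce
    by_cases h1 : W / 2 < (nm (kv (kc (x * q)).1) : ℝ)
    · by_cases h2 : (nm (kv (kc (x * q)).1) : ℝ) ≤ W
      · rw [if_pos ⟨h1, h2⟩, if_pos h2, if_pos h1]
      · rw [if_neg (fun h' => h2 h'.2), if_neg h2]
    · rw [if_neg (fun h' => h1 h'.1), if_neg h1]
      simp
  rw [e1]
  refine (sum_small_le hL hq hg0).trans ?_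
  set e := (kc q).2 with he
  have hs := kc_spec hq
  have heq : (nm e : ℝ) ^ 3 ≤ Z := by
    have h1 := kc_nm hq
    have h2 : (1 : ℝ) ≤ nm (kv (kc q).1) := one_le_nmkv hs.1
    have h3 : (0 : ℝ) ≤ (nm e : ℝ) ^ 3 := by positivity
    rw [← he] at h1
    nlinarith
  set V : ℝ := (2 * L0 / W) ^ ((1 : ℝ) / 3) with hV
  have hV0 : 0 ≤ V := by positivity
  set BL := bl ((L * nk q) ^ (1 / 3 : ℝ)) with hBL
  have hBLr : 0 ≤ (L * nk q) ^ (1 / 3 : ℝ) := by positivity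
  have hcube : ∀ {x y : ℝ}, 0 ≤ x → 0 ≤ y → x ^ 3 ≤ y → x ≤ y ^ ((1 : ℝ) / 3) := by
    intro x y hx hy hxy
    have h1 : x = (x ^ 3) ^ ((1 : ℝ) / 3) := by
      rw [← Real.rpow_natCast, ← Real.rpow_mul hx]; norm_num
    rw [h1]
    exact Real.rpow_le_rpow (by positivity) hxy (by norm_num)
  have hcube' : ∀ {x y : ℝ}, 0 ≤ x → 0 ≤ y → x ≤ y ^ ((1 : ℝ) / 3) → x ^ 3 ≤ y := by
    intro x y hx hy hxy
    calc x ^ 3 ≤ (y ^ ((1 : ℝ) / 3)) ^ 3 := pow_le_pow_left₀ hx hxy 3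
      _ = y := by rw [← Real.rpow_natCast, ← Real.rpow_mul hy]; norm_num
  -- one cofactor
  have hin : ∀ m ∈ BL, ∑ κ ∈ KS (min W (L * nk q / (nm m : ℝ) ^ 3)), g κ (e * m) ≤
      if m ∈ bl V then C * Z ^ ε * D else 0 := by
    intro m hm
    rw [hBL, mem_bl hBLr] at hm
    have hm1 : (1 : ℝ) ≤ nm m := one_le_nm' hm.1
    set K1 := KS (min W (L * nk q / (nm m : ℝ) ^ 3)) with hK1
    by_cases hmV : m ∈ bl V
    · rw [if_pos hmV]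
      have h1 : ∑ κ ∈ K1, g κ (e * m) ≤ ∑ κ ∈ K1, ‖RestP χ w Y t b κ (r * (e * m)) N₀ Q‖ ^ 2 := by
        refine Finset.sum_le_sum fun κ _ => ?_
        rw [hg]
        beta_reduce
        split_ifs
        · exact le_refl _
        · positivity
      refine h1.trans (h W N₀ Q Y Z t hW hN hQ hWZ hNZ χ w b hw (r * (e * m))
        (mul_ne_zero hr (mul_ne_zero hs.2.1 hm.1)) ?_ K1 (fun κ hκ => ?_))
      · have h2 : (nm m : ℝ) ^ 3 ≤ Z ^ 2 := by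
          refine (hcube' (Nat.cast_nonneg _) hLk0 hm.2).trans ?_
          have h3 : nk q ≤ Z := by
            have h4 := kc_nm hq
            have h5 : (1 : ℝ) ≤ (nm (kc q).2 : ℝ) ^ 3 := one_le_pow₀ (one_le_nm' hs.2.1)
            have h6 : (0 : ℝ) ≤ nk q := by linarith
            unfold nk at h6 ⊢
            nlinarith
          nlinarith
        have h7 : (nm e : ℝ) * nm m ≤ Z := by
          have h8 : ((nm e : ℝ) * nm m) ^ 3 ≤ Z ^ 3 := by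
            rw [mul_pow]
            calc (nm e : ℝ) ^ 3 * (nm m : ℝ) ^ 3 ≤ Z * Z ^ 2 := by gcongr
              _ = Z ^ 3 := by ring
          exact le_of_pow_le_pow_left₀ (by norm_num) hZ0.le h8
        rw [nm_mul, nm_mul]
        push_cast
        calc (nm r : ℝ) * ((nm e : ℝ) * nm m) ≤ Z * Z := by gcongr
          _ ≤ Z ^ 3 := by nlinarith [mul_nonneg hZ0.le hZ0.le]
      · rw [hK1, mem_KS] at hκ
        exact ⟨hκ.1, hκ.2.trans (min_le_left _ _)⟩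
    · rw [if_neg hmV]
      refine le_of_eq (Finset.sum_eq_zero fun κ hκ => ?_)
      rw [hg]
      beta_reduce
      refine if_neg fun hlt => hmV ?_
      rw [mem_bl hV0]
      refine ⟨hm.1, hcube (Nat.cast_nonneg _) (by positivity) ?_⟩
      rw [hK1, mem_KS] at hκ
      have h2 := hκ.2.trans (min_le_right _ _)
      have h3 : W / 2 < L * nk q / (nm m : ℝ) ^ 3 := lt_of_lt_of_le hlt h2
      have h4 : (0 : ℝ) < (nm m : ℝ) ^ 3 := by positivity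
      rw [lt_div_iff₀ h4] at h3
      rw [le_div_iff₀ hW0]
      nlinarith
  have hcnt : (((BL.filter (fun m => m ∈ bl V)).card : ℕ) : ℝ) ≤ 16 * V :=
    le_trans (Nat.cast_le.mpr (Finset.card_le_card fun m hm =>
      LS448.mem_nz.mpr ((mem_bl hV0).mp (Finset.mem_filter.mp hm).2)))
      (NonCube52.card_nz_le16 hV0)
  have hV2 : V ≤ 2 * (L0 / W) ^ ((1 : ℝ) / 3) := by
    rw [hV, mul_div_assoc, Real.mul_rpow (by norm_num) (by positivity)]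
    refine mul_le_mul_of_nonneg_right ?_ (by positivity)
    calc (2 : ℝ) ^ ((1 : ℝ) / 3) ≤ (2 : ℝ) ^ (1 : ℝ) :=
          Real.rpow_le_rpow_of_exponent_le (by norm_num) (by norm_num)
      _ = 2 := Real.rpow_one 2
  calc ∑ m ∈ BL, ∑ κ ∈ KS (min W (L * nk q / (nm m : ℝ) ^ 3)), g κ (e * m)
      ≤ ∑ m ∈ BL, if m ∈ bl V then C * Z ^ ε * D else 0 := Finset.sum_le_sum hin
    _ = (BL.filter (fun m => m ∈ bl V)).card * (C * Z ^ ε * D) := by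
        rw [← Finset.sum_filter, Finset.sum_const, nsmul_eq_mul]
    _ ≤ (16 * V) * (C * Z ^ ε * D) := mul_le_mul_of_nonneg_right hcnt (by positivity)
    _ ≤ (16 * (2 * (L0 / W) ^ ((1 : ℝ) / 3))) * (C * Z ^ ε * D) := by gcongr
    _ = _ := by ring

end Crest.Agent.R017.LSq50
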