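import Crest.Agent.R012.NonCubeW_52
import Crest.Agent.R012.Glue1_372
import Crest.Agent.R012.Sym6_645
import Crest.Agent.R012.LS2Main_448

/-!
# Row 17, E3: the large sieve half of MODE (helper50)

* `ls_L1` : nonzero `h`, `nm h ≤ Y`, cube-free kernel of norm `≥ L1`, squarefree primary `b`,
  `nm b ≤ B`: `∑_h |∑_b β b sy h b|² ≤ C (Y B)^ε ((Y/L1)^(1/3) B + Y + (Y B)^(2/3)) ∑ |β b|²`;
* `kn_mul_le` : norm of the cube-free kernel is submultiplicative;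
* `ls_q` : the same for `conj sy (h q) b`, threshold on the kernel of `h q`, `q` arbitrary: the twist
  only enters the multiplicity.
-/

set_option autoImplicit false
set_option linter.unusedVariables false

noncomputable section

namespace Crest.Agent.R017.LSq50

open Finset Crest.Agent.R012 Crest.Agent.R012.Eis Crest.Agent.R012.NonCube52
open Crest.Agent.R012.LS448 Crest.Agent.R012.CharSum852 Crest.Agent.R012.Char766
open scoped ComplexConjugate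

/-- norm of the cube-free kernel -/
def kn (h : Eis) : ℝ := nm (kv (kc h).1)

lemma kn_nonneg (h : Eis) : 0 ≤ kn h := Nat.cast_nonneg _

lemma one_le_kn {h : Eis} (hh : h ≠ 0) : 1 ≤ kn h := one_le_nmkv (kc_spec hh).1

/-- the dyadic form with threshold -/
theorem ls_L1 {ε : ℝ} (hε : 0 < ε) :
    ∃ C : ℝ, 0 < C ∧ ∀ B Y L₁ : ℝ, 1 ≤ B → 1 ≤ Y → 0 < L₁ →
      ∀ T : Finset Eis, (∀ b ∈ T, IsPrim b ∧ Squarefree b ∧ (nm b : ℝ) ≤ B) → ∀ β : Eis → ℂ,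
      ∀ S : Finset Eis, (∀ h ∈ S, h ≠ 0 ∧ (nm h : ℝ) ≤ Y ∧ L₁ ≤ kn h) →
      ∑ h ∈ S, ‖∑ b ∈ T, β b * sy h b‖ ^ 2
        ≤ C * (Y * B) ^ ε * ((Y / L₁) ^ ((1 : ℝ) / 3) * B + Y + (Y * B) ^ ((2 : ℝ) / 3))
          * ∑ b ∈ T, ‖β b‖ ^ 2 := by
  classical
  have H := Sym645.syFacts
  obtain ⟨C1, hC1, hL⟩ := ls_kernel_eps H Glue372.L1Prop_holds
    (Glue372.HBProp_of_final LS448.hb_final) hε
  obtain ⟨C3, hC3, hsum⟩ := sum_nz_43
  refine ⟨C1 * (16 + C3), by positivity, ?_⟩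
  intro B Y L₁ hB hY hL₁ T hT β S hS
  set E : ℝ := ∑ b ∈ T, ‖β b‖ ^ 2 with hE
  have hE0 : 0 ≤ E := sum_nonneg fun _ _ => by positivity
  have hB0 : (0 : ℝ) < B := by linarith
  have hY0 : (0 : ℝ) < Y := by linarith
  set γ : Eis → Eis → ℂ := fun m b => if IsCoprime m b then 1 else 0 with hγ
  have hγ1 : ∀ m b, ‖γ m b‖ ≤ 1 := by
    intro m b
    rw [hγ]; dsimp only
    split_ifs <;> simp
  have hrew : ∀ h ∈ S, ∑ b ∈ T, β b * sy h b
      = ∑ b ∈ T, β b * γ (kc h).2 b * sy (kv (kc h).1) b := by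
    intro h hhS
    refine sum_congr rfl fun b hb => ?_
    rw [sy_kc H (hS h hhS).1 (hT b hb).1, hγ, ← mul_assoc]
  set V : ℝ := (Y / L₁) ^ ((1 : ℝ) / 3) with hV
  have hmaps : ∀ h ∈ S, (kc h).2 ∈ nz V := by
    intro h hh
    obtain ⟨h0, h1, h2⟩ := hS h hh
    obtain ⟨s1, s2, s3, s4⟩ := kc_spec h0
    rw [mem_nz]
    refine ⟨s2, ?_⟩
    have e1 := kc_nm h0
    have e5 : (nm (kc h).2 : ℝ) ^ 3 ≤ Y / L₁ := by
      rw [le_div_iff₀ hL₁]
      have h3 : (0 : ℝ) ≤ (nm (kc h).2 : ℝ) ^ 3 := by positivity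
      have h4 : L₁ ≤ (nm (kv (kc h).1) : ℝ) := h2
      nlinarith
    have h6 : (nm (kc h).2 : ℝ) = ((nm (kc h).2 : ℝ) ^ 3) ^ ((1 : ℝ) / 3) := by
      rw [← Real.rpow_natCast, ← Real.rpow_mul (by positivity)]; norm_num
    rw [h6, hV]
    exact Real.rpow_le_rpow (by positivity) e5 (by norm_num)
  rw [← sum_fiberwise_of_maps_to hmaps]
  have hinner : ∀ m ∈ nz V, ∑ h ∈ S with (kc h).2 = m, ‖∑ b ∈ T, β b * sy h b‖ ^ 2
      ≤ C1 * (Y * B) ^ ε *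
        (B + (Y + (Y * B) ^ ((2 : ℝ) / 3)) * (nm m : ℝ) ^ (-(4 : ℝ) / 3)) * E := by
    intro m hm
    set Sm := S.filter (fun h => (kc h).2 = m) with hSm
    rw [mem_nz] at hm
    have hm1 : (1 : ℝ) ≤ nm m := one_le_nm' hm.1
    rcases Sm.eq_empty_or_nonempty with hem | ⟨h1, h1m⟩
    · rw [hem, sum_empty]; positivity
    set K : ℝ := Y / (nm m : ℝ) ^ 3 with hKd
    have hKle : ∀ h ∈ Sm, (nm (kv (kc h).1) : ℝ) ≤ K := by
      intro h hh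
      rw [hSm, mem_filter] at hh
      have e1 := kc_nm (hS h hh.1).1
      rw [hh.2] at e1
      rw [hKd, le_div_iff₀ (by positivity), e1]
      exact (hS h hh.1).2.1
    have hK1 : 1 ≤ K := by
      have hh := h1m
      rw [hSm, mem_filter] at hh
      exact (one_le_nmkv (kc_spec (hS h1 hh.1).1).1).trans (hKle h1 h1m)
    have hKY : K ≤ Y := by
      rw [hKd]
      exact div_le_self hY0.le (one_le_pow₀ hm1)
    have hinj : Set.InjOn (fun h => (kc h).1) (Sm : Set Eis) := by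
      intro a ha b hb hab
      have ha' := mem_filter.mp (by simpa [hSm] using ha : a ∈ Sm)
      have hb' := mem_filter.mp (by simpa [hSm] using hb : b ∈ Sm)
      have h1 := (kc_spec (hS a ha'.1).1).2.2.1
      have h2 := (kc_spec (hS b hb'.1).1).2.2.1
      simp only at hab
      rw [h1, h2, hab, ha'.2, hb'.2]
    have key := hL B K hB hK1 (Sm.image (fun h => (kc h).1)) (fun κ hκ => by
      rw [mem_image] at hκ
      obtain ⟨h, hh, rfl⟩ := hκ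
      have hh' := hh
      rw [hSm, mem_filter] at hh'
      exact ⟨(kc_spec (hS h hh'.1).1).1, hKle h hh⟩) T hT (fun b => β b * γ m b)
    rw [sum_image (fun a ha b hb hab => hinj ha hb hab)] at key
    have hL' : ∑ h ∈ Sm, ‖∑ b ∈ T, β b * sy h b‖ ^ 2
        = ∑ h ∈ Sm, ‖∑ b ∈ T, β b * γ m b * sy (kv (kc h).1) b‖ ^ 2 := by
      refine sum_congr rfl fun h hh => ?_
      rw [hSm, mem_filter] at hh
      rw [hrew h hh.1, hh.2]
    rw [hL']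
    refine key.trans ?_
    have h2 : ∑ b ∈ T, ‖β b * γ m b‖ ^ 2 ≤ E := by
      rw [hE]
      refine sum_le_sum fun b _ => ?_
      rw [norm_mul, mul_pow]
      have h3 : ‖γ m b‖ ^ 2 ≤ 1 := pow_le_one₀ (norm_nonneg _) (hγ1 m b)
      have h4 : 0 ≤ ‖β b‖ ^ 2 := by positivity
      nlinarith
    have h3 : K ≤ Y * (nm m : ℝ) ^ (-(4 : ℝ) / 3) := by
      rw [hKd, div_eq_mul_inv]
      gcongr
      rw [← Real.rpow_natCast, ← Real.rpow_neg (by positivity)]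
      exact Real.rpow_le_rpow_of_exponent_le hm1 (by norm_num)
    have h4 : (K * B) ^ ((2 : ℝ) / 3) ≤ (Y * B) ^ ((2 : ℝ) / 3) * (nm m : ℝ) ^ (-(4 : ℝ) / 3) := by
      have e1 : (K * B) ^ ((2 : ℝ) / 3)
          = (Y * B) ^ ((2 : ℝ) / 3) * (nm m : ℝ) ^ (-(2 : ℝ)) := by
        have : K * B = (Y * B) * ((nm m : ℝ) ^ (-(3 : ℝ))) := by
          rw [hKd, Real.rpow_neg (by positivity)]
          norm_num
          ring
        rw [this, Real.mul_rpow (by positivity) (by positivity), ← Real.rpow_mul (by positivity)]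
        norm_num
      rw [e1]
      gcongr ?_ * ?_
      exact Real.rpow_le_rpow_of_exponent_le hm1 (by norm_num)
    have h5 : (K * B) ^ ε ≤ (Y * B) ^ ε :=
      Real.rpow_le_rpow (by positivity) (by gcongr) hε.le
    calc C1 * (K * B) ^ ε * (K + B + (K * B) ^ ((2 : ℝ) / 3)) * ∑ b ∈ T, ‖β b * γ m b‖ ^ 2
        ≤ C1 * (Y * B) ^ ε * (Y * (nm m : ℝ) ^ (-(4 : ℝ) / 3) + B
          + (Y * B) ^ ((2 : ℝ) / 3) * (nm m : ℝ) ^ (-(4 : ℝ) / 3)) * E := by gcongr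
      _ = _ := by ring
  have hV0 : 0 ≤ V := by positivity
  have hc := card_nz_le16 hV0
  calc ∑ m ∈ nz V, ∑ h ∈ S with (kc h).2 = m, ‖∑ b ∈ T, β b * sy h b‖ ^ 2
      ≤ ∑ m ∈ nz V, C1 * (Y * B) ^ ε *
        (B + (Y + (Y * B) ^ ((2 : ℝ) / 3)) * (nm m : ℝ) ^ (-(4 : ℝ) / 3)) * E :=
        sum_le_sum hinner
    _ = C1 * (Y * B) ^ ε * (#(nz V) * B + (Y + (Y * B) ^ ((2 : ℝ) / 3)) *
        ∑ m ∈ nz V, (nm m : ℝ) ^ (-(4 : ℝ) / 3)) * E := by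
        rw [← sum_mul, ← mul_sum, sum_add_distrib, sum_const, nsmul_eq_mul, ← mul_sum]
    _ ≤ C1 * (Y * B) ^ ε * ((16 * V) * B + (Y + (Y * B) ^ ((2 : ℝ) / 3)) * C3) * E := by
        have := hsum V
        gcongr
    _ ≤ C1 * (Y * B) ^ ε * ((16 + C3) * (V * B + Y + (Y * B) ^ ((2 : ℝ) / 3))) * E := by
        have h0 : 0 ≤ (Y * B) ^ ((2 : ℝ) / 3) := by positivity
        have h1 : 0 ≤ V * B := by positivity
        gcongr ?_ * ?_ * E
        nlinarith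
    _ = _ := by ring

lemma dec_kc {h : Eis} (hh : h ≠ 0) : Char766.IsCubDec h (kc h).1.1.1 (kc h).1.1.2 (kc h).1.2.1
    (kc h).1.2.2 (kc h).2 := by
  obtain ⟨g, h1, h2, -⟩ := kc_spec hh
  exact ⟨g.hi, g.hj, g.prim1, g.prim2, g.sqf1, g.sqf2, g.cop, h1, h2⟩

/-- the kernel depends only on the class modulo cubes -/
lemma kc_of_eq {x y m : Eis} (hy : y ≠ 0) (hm : m ≠ 0) (hx : x = y * m ^ 3) :
    (kc x).1 = (kc y).1 := by
  have hx0 : x ≠ 0 := by rw [hx]; exact mul_ne_zero hy (pow_ne_zero _ hm)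
  obtain ⟨g, h1, h2, -⟩ := kc_spec hy
  have d1 := dec_kc hx0
  have d2 : Char766.IsCubDec x (kc y).1.1.1 (kc y).1.1.2 (kc y).1.2.1 (kc y).1.2.2
      ((kc y).2 * m) := by
    refine ⟨g.hi, g.hj, g.prim1, g.prim2, g.sqf1, g.sqf2, g.cop, mul_ne_zero h1 hm, ?_⟩
    have e : kv (kc y).1 = w ^ (kc y).1.1.1 * lam ^ (kc y).1.1.2 * (kc y).1.2.1 *
      (kc y).1.2.2 ^ 2 := rfl
    rw [← e, mul_pow, ← mul_assoc, ← h2, hx]
  have hu := d1.unique d2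
  obtain ⟨u1, u2, u3, u4, -⟩ := hu
  exact Prod.ext (Prod.ext u1 u2) (Prod.ext u3 u4)

lemma kn_mul_le {h q : Eis} (hh : h ≠ 0) (hq : q ≠ 0) : kn (h * q) ≤ kn h * kn q := by
  obtain ⟨g1, a1, b1, -⟩ := kc_spec hh
  obtain ⟨g2, a2, b2, -⟩ := kc_spec hq
  have hy : kv (kc h).1 * kv (kc q).1 ≠ 0 := mul_ne_zero (kv_ne_zero g1) (kv_ne_zero g2)
  have e : (kc (h * q)).1 = (kc (kv (kc h).1 * kv (kc q).1)).1 := by
    refine kc_of_eq hy (mul_ne_zero a1 a2) ?_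
    calc h * q = (kv (kc h).1 * (kc h).2 ^ 3) * (kv (kc q).1 * (kc q).2 ^ 3) := by
          rw [← b1, ← b2]
      _ = _ := by ring
  unfold kn
  rw [e]
  have h1 := kc_nm hy
  rw [nm_mul] at h1
  push_cast at h1
  have h2 : (1 : ℝ) ≤ (nm (kc (kv (kc h).1 * kv (kc q).1)).2 : ℝ) ^ 3 :=
    one_le_pow₀ (one_le_nm' (kc_spec hy).2.1)
  have h3 : (0 : ℝ) ≤ nm (kv (kc (kv (kc h).1 * kv (kc q).1)).1) := Nat.cast_nonneg _
  rw [← h1]
  nlinarith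

/-- **the large sieve half of MODE**: twist `q` arbitrary, threshold on the kernel of `h q`. -/
theorem ls_q {ε : ℝ} (hε : 0 < ε) :
    ∃ C : ℝ, 0 < C ∧ ∀ B Y Lt : ℝ, 1 ≤ B → 1 ≤ Y → 0 < Lt → ∀ q : Eis, q ≠ 0 →
      ∀ T : Finset Eis, (∀ b ∈ T, IsPrim b ∧ Squarefree b ∧ (nm b : ℝ) ≤ B) → ∀ β : Eis → ℂ,
      ∀ S : Finset Eis, (∀ h ∈ S, h ≠ 0 ∧ (nm h : ℝ) ≤ Y ∧ Lt ≤ kn (h * q)) →
      ∑ h ∈ S, ‖∑ b ∈ T, β b * conj (sy (h * q) b)‖ ^ 2
        ≤ C * (Y * B) ^ ε * ((Y * kn q / Lt) ^ ((1 : ℝ) / 3) * B + Y + (Y * B) ^ ((2 : ℝ) / 3))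
          * ∑ b ∈ T, ‖β b‖ ^ 2 := by
  have H := Sym645.syFacts
  obtain ⟨C, hC, h⟩ := ls_L1 hε
  refine ⟨C, hC, ?_⟩
  intro B Y Lt hB hY hLt q hq T hT β S hS
  have hk := one_le_kn hq
  have hL₁ : 0 < Lt / kn q := by positivity
  have h1 := h B Y (Lt / kn q) hB hY hL₁ T hT (fun b => conj (β b) * sy q b) S (fun x hx => by
    obtain ⟨h0, h2, h3⟩ := hS x hx
    refine ⟨h0, h2, ?_⟩
    rw [div_le_iff₀ (by linarith)]
    exact h3.trans (kn_mul_le h0 hq))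
  have e1 : ∀ x ∈ S, ‖∑ b ∈ T, β b * conj (sy (x * q) b)‖ =
      ‖∑ b ∈ T, (conj (β b) * sy q b) * sy x b‖ := by
    intro x hx
    rw [← RCLike.norm_conj, map_sum]
    congr 1
    refine sum_congr rfl fun b hb => ?_
    rw [map_mul, Complex.conj_conj, H.mul_left _ _ _ (hT b hb).1]
    ring
  rw [sum_congr rfl fun x hx => by rw [e1 x hx]]
  have e2 : Y / (Lt / kn q) = Y * kn q / Lt := by
    field_simp
  rw [e2] at h1
  refine h1.trans ?_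
  have h2 : ∑ b ∈ T, ‖conj (β b) * sy q b‖ ^ 2 ≤ ∑ b ∈ T, ‖β b‖ ^ 2 := by
    refine sum_le_sum fun b hb => ?_
    rw [norm_mul, mul_pow, RCLike.norm_conj]
    have h3 := norm_sy_le H q b (hT b hb).1
    have h4 : ‖sy q b‖ ^ 2 ≤ 1 := pow_le_one₀ (norm_nonneg _) h3
    have h5 : 0 ≤ ‖β b‖ ^ 2 := by positivity
    nlinarith
  have hB0 : 0 ≤ B := by linarith
  have hY0 : 0 ≤ Y := by linarith
  gcongr

end Crest.Agent.R017.LSq50
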