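import Crest.Agent.R017.ModeG3_405
import Crest.Agent.R017.LSq_50
import Crest.Agent.R012.CR2b_180

/-!
# Row 17, block C70, leaf E3: MODE*, part H (helper405): the large kernels, the blocks

* `Lx_fin` : `Lx` as a finite sum;  `big_le` : the large kernels by the large sieve `ls_q`
* `blk_sum` : the frequencies whose kernel lies in a block
-/

set_option autoImplicit false

noncomputable section

open Complex MeasureTheory
open scoped ComplexConjugate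

namespace Crest.Agent.R017.Mode405

open Crest.Agent.R012 Crest.Agent.R012.Eis Crest.Agent.R012.MC
open Crest.Agent.R012.LS2 (S mem_S bl mem_bl)
open Crest.Agent.R012.LS448 (one_le_nm')
open Crest.Agent.R012.NonCube52 (Ker kv Good kc kc_spec kc_nm kv_ne_zero one_le_nmkv)
open Crest.Agent.R012.Mob705 (mu pdiv mem_pdiv sum_mu_coprime abs_mu_le_one)
open Crest.Agent.R012.Weight600 (pw)
open Crest.Agent.R017.CM106 (CS TG FS)
open Crest.Agent.R017.BD829 (TT EQ Win EQ_nonneg)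
open Crest.Agent.R017.E1551 (jb jb_pos nmpos)

lemma nk_eq_kn (h : Eis) : nk h = LSq50.kn h := rfl

lemma nk_mul_le {h q : Eis} (hh : h ≠ 0) (hq : q ≠ 0) : nk (h * q) ≤ nk h * nk q :=
  LSq50.kn_mul_le hh hq

lemma nk_le_nm {h : Eis} (hh : h ≠ 0) : nk h ≤ nm h := by
  have h1 := kc_nm hh
  have h2 : (1 : ℝ) ≤ (nm (kc h).2 : ℝ) ^ 3 := one_le_pow₀ (one_le_nm' (kc_spec hh).2.1)
  unfold nk
  have h3 : (0 : ℝ) ≤ nm (kv (kc h).1) := Nat.cast_nonneg _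
  nlinarith

/-- `Lx` as a finite sum -/
lemma Lx_fin {χ : Eis → ℂ} {w : ℝ → ℝ} {Y t N₀ : ℝ} (hN : 0 ≤ N₀)
    (hw : ∀ x, w (x / Y) ≠ 0 → x ≤ N₀) {b : Eis → ℂ} {r H : Eis} (hH : H ≠ 0) :
    Lx χ w Y t b (kc H).1 (r * (kc H).2) =
      ∑ n ∈ (by classical exact (S N₀).filter (fun n => IsCoprime n r)),
        (χ n * CS b n * pw t (nm n) * ((w (nm n / Y) : ℝ) : ℂ)) * conj (sy H n) := by
  classical
  unfold Lx
  rw [tsum_eq_sum (s := (S N₀).filter (fun n => IsCoprime n r))]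
  · refine Finset.sum_congr (by ext; simp) fun n hn => ?_
    rw [Finset.mem_filter, mem_S hN] at hn
    obtain ⟨⟨h1, h2, h3⟩, h4⟩ := hn
    have hs := NonCube52.sy_kc Sym645.syFacts hH h2
    rw [hs]
    by_cases hc : IsCoprime (kc H).2 n
    · rw [if_pos hc, one_mul, if_pos ⟨h2, h3, h4.mul_right hc.symm⟩]; ring
    · rw [if_neg hc, if_neg (fun h' => hc (h'.2.2.of_mul_right_right.symm))]
      simp
  · intro n hn
    by_contra h2
    have h3 : w ((nm n : ℝ) / Y) ≠ 0 := fun h => h2 (by rw [h]; simp)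
    by_cases h4 : IsPrim n ∧ Squarefree n ∧ IsCoprime n (r * (kc H).2)
    · apply hn
      rw [Finset.mem_filter, mem_S hN]
      exact ⟨⟨hw _ h3, h4.1, h4.2.1⟩, h4.2.2.of_mul_right_left⟩
    · exact h2 (by rw [if_neg h4, zero_mul])

open Classical in
/-- **the large kernels** -/
theorem big_le {ε : ℝ} (hε : 0 < ε) :
    ∃ C : ℝ, 0 < C ∧ ∀ (χ : Eis → ℂ), Mul1 χ → ∀ (w : ℝ → ℝ) (Cw : ℝ), (∀ x, |w x| ≤ Cw) →
      ∀ Y N₀ L L0 Lt t : ℝ, 1 ≤ N₀ → (∀ x, w (x / Y) ≠ 0 → x ≤ N₀) → 1 ≤ L → 0 < Lt →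
      ∀ (b : Eis → ℂ) (r q : Eis), q ≠ 0 → L * nk q ≤ L0 →
      ∑ h ∈ (bl L).filter (fun h => Lt ≤ nk (h * q)),
        ‖Lx χ w Y t b (kc (h * q)).1 (r * (kc (h * q)).2)‖ ^ 2 ≤
      C * (L * N₀) ^ ε * ((L0 / Lt) ^ (1 / 3 : ℝ) * N₀ + L + (L * N₀) ^ (2 / 3 : ℝ)) *
        (Cw ^ 2 * ∑ n ∈ (S N₀).filter (fun n => IsCoprime n r), ‖CS b n‖ ^ 2) := by
  obtain ⟨C, hC, hls⟩ := LSq50.ls_q hε
  refine ⟨C, hC, ?_⟩
  intro χ hχ w Cw hCw Y N₀ L L0 Lt t hN hw hL hLt b r q hq hLq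
  have hN0 : 0 ≤ N₀ := by linarith
  have hL0' : 0 ≤ L := by linarith
  have hL0 : 0 ≤ L0 := le_trans (mul_nonneg hL0' ((zero_le_one).trans (nk_ge_one hq))) hLq
  set β : Eis → ℂ := fun n => χ n * CS b n * pw t (nm n) * ((w (nm n / Y) : ℝ) : ℂ) with hβ
  have h1 := hls N₀ L Lt hN hL hLt q hq ((S N₀).filter (fun n => IsCoprime n r)) (fun n hn => by
      rw [Finset.mem_filter, mem_S hN0] at hn
      exact ⟨hn.1.2.1, hn.1.2.2, hn.1.1⟩) β ((bl L).filter (fun h => Lt ≤ nk (h * q)))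
      (fun h hh => by
        rw [Finset.mem_filter, mem_bl hL0'] at hh
        exact ⟨hh.1.1, hh.1.2, hh.2⟩)
  have h2 : ∀ h ∈ (bl L).filter (fun h => Lt ≤ nk (h * q)),
      ‖Lx χ w Y t b (kc (h * q)).1 (r * (kc (h * q)).2)‖ ^ 2 =
      ‖∑ n ∈ (S N₀).filter (fun n => IsCoprime n r), β n * conj (sy (h * q) n)‖ ^ 2 := by
    intro h hh
    rw [Finset.mem_filter, mem_bl hL0'] at hh
    rw [Lx_fin hN0 hw (mul_ne_zero hh.1.1 hq)]
  rw [Finset.sum_congr rfl h2]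
  refine h1.trans ?_
  have h3 : ∑ n ∈ (S N₀).filter (fun n => IsCoprime n r), ‖β n‖ ^ 2 ≤
      Cw ^ 2 * ∑ n ∈ (S N₀).filter (fun n => IsCoprime n r), ‖CS b n‖ ^ 2 := by
    rw [Finset.mul_sum]
    refine Finset.sum_le_sum fun n hn => ?_
    rw [Finset.mem_filter, mem_S hN0] at hn
    rw [hβ]
    beta_reduce
    rw [norm_mul, norm_mul, norm_mul, norm_pw, mul_one, Complex.norm_real, Real.norm_eq_abs]
    have a1 := hχ.le n hn.1.2.1
    have a2 := hCw (nm n / Y)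
    have a3 : 0 ≤ Cw := (abs_nonneg _).trans a2
    calc (‖χ n‖ * ‖CS b n‖ * |w (nm n / Y)|) ^ 2 ≤ (1 * ‖CS b n‖ * Cw) ^ 2 := by gcongr
      _ = Cw ^ 2 * ‖CS b n‖ ^ 2 := by ring
  have h4 : (L * LSq50.kn q / Lt) ^ ((1 : ℝ) / 3) ≤ (L0 / Lt) ^ (1 / 3 : ℝ) := by
    refine Real.rpow_le_rpow ?_ ?_ (by norm_num)
    · have := LSq50.kn_nonneg q; positivity
    · exact div_le_div_of_nonneg_right hLq hLt.le
  have h5 : 0 ≤ ∑ n ∈ (S N₀).filter (fun n => IsCoprime n r), ‖β n‖ ^ 2 :=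
    Finset.sum_nonneg fun _ _ => by positivity
  gcongr

open Classical in
/-- **the blocks**: the frequencies whose kernel lies in `(lam/2, lam]` -/
theorem blk_sum {L L0 lam : ℝ} (hL : 0 ≤ L) (hlam : 0 < lam) {q : Eis} (hq : q ≠ 0)
    (hLq : L * nk q ≤ L0) {g : Ker → Eis → ℝ} (hg : ∀ κ m, 0 ≤ g κ m) :
    ∑ h ∈ (bl L).filter (fun h => lam / 2 < nk (h * q) ∧ nk (h * q) ≤ lam),
        g (kc (h * q)).1 (kc (h * q)).2 ≤
      ∑ m ∈ bl ((2 * L0 / lam) ^ (1 / 3 : ℝ)), ∑ κ ∈ KS lam, g κ ((kc q).2 * m) := by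
  have hL0 : 0 ≤ L0 := le_trans (mul_nonneg hL ((zero_le_one).trans (nk_ge_one hq))) hLq
  set g' : Ker → Eis → ℝ := fun κ m => if lam / 2 < (nm (kv κ) : ℝ) then g κ m else 0 with hg'
  have hg0 : ∀ κ m, 0 ≤ g' κ m := fun κ m => by
    rw [hg']; beta_reduce; split_ifs
    · exact hg κ m
    · exact le_rfl
  have h1 := sum_small_le (Lt := lam) hL hq hg0
  have h2 : ∑ h ∈ (bl L).filter (fun h => lam / 2 < nk (h * q) ∧ nk (h * q) ≤ lam),
      g (kc (h * q)).1 (kc (h * q)).2 =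
      ∑ h ∈ (bl L).filter (fun h => (nm (kv (kc (h * q)).1) : ℝ) ≤ lam),
        g' (kc (h * q)).1 (kc (h * q)).2 := by
    rw [Finset.sum_filter, Finset.sum_filter]
    refine Finset.sum_congr rfl fun h _ => ?_
    rw [hg']
    unfold nk
    beta_reduce
    by_cases a1 : lam / 2 < (nm (kv (kc (h * q)).1) : ℝ)
    · by_cases a2 : (nm (kv (kc (h * q)).1) : ℝ) ≤ lam
      · rw [if_pos ⟨a1, a2⟩, if_pos a2, if_pos a1]
      · rw [if_neg (fun h' => a2 h'.2), if_neg a2]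
    · rw [if_neg (fun h' => a1 h'.1), if_neg a1, ite_self]
  rw [h2]
  refine h1.trans ?_
  -- restriction of `m`
  have h3 : ∀ m ∈ bl ((L * nk q) ^ (1 / 3 : ℝ)), m ∉ bl ((2 * L0 / lam) ^ (1 / 3 : ℝ)) →
      ∑ κ ∈ KS (min lam (L * nk q / (nm m : ℝ) ^ 3)), g' κ ((kc q).2 * m) = 0 := by
    intro m hm hm'
    have hLk : 0 ≤ L * nk q := mul_nonneg hL ((zero_le_one).trans (nk_ge_one hq))
    rw [mem_bl (by positivity)] at hm hm'
    have hm0 : (0 : ℝ) < nm m := nmpos hm.1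
    have h4 : (2 * L0 / lam) ^ (1 / 3 : ℝ) < nm m := by
      by_contra h5
      exact hm' ⟨hm.1, not_lt.mp h5⟩
    have h5 : 2 * L0 / lam < (nm m : ℝ) ^ 3 := by
      have h6 : 2 * L0 / lam = ((2 * L0 / lam) ^ (1 / 3 : ℝ)) ^ 3 := by
        rw [← Real.rpow_natCast, ← Real.rpow_mul (by positivity)]; norm_num
      rw [h6]
      exact pow_lt_pow_left₀ h4 (by positivity) (by norm_num)
    refine Finset.sum_eq_zero fun κ hκ => ?_
    rw [mem_KS] at hκ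
    rw [hg']
    beta_reduce
    rw [if_neg]
    intro h6
    have h7 : (nm (kv κ) : ℝ) ≤ L * nk q / (nm m : ℝ) ^ 3 := hκ.2.trans (min_le_right _ _)
    rw [le_div_iff₀ (by positivity)] at h7
    rw [div_lt_iff₀ hlam] at h5
    have h8 : 0 < (nm m : ℝ) ^ 3 := by positivity
    nlinarith
  have h4 : ∑ m ∈ bl ((L * nk q) ^ (1 / 3 : ℝ)),
      ∑ κ ∈ KS (min lam (L * nk q / (nm m : ℝ) ^ 3)), g' κ ((kc q).2 * m) ≤
      ∑ m ∈ (bl ((L * nk q) ^ (1 / 3 : ℝ))).filter (fun m => m ∈ bl ((2 * L0 / lam) ^ (1 / 3 : ℝ))),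
        ∑ κ ∈ KS lam, g κ ((kc q).2 * m) := by
    rw [Finset.sum_filter]
    refine Finset.sum_le_sum fun m hm => ?_
    split_ifs with h5
    · refine le_trans (Finset.sum_le_sum_of_subset_of_nonneg (fun κ hκ => ?_)
        fun κ _ _ => hg0 κ _) (Finset.sum_le_sum (s := KS lam) fun κ _ => ?_)
      · rw [mem_KS] at hκ ⊢
        exact ⟨hκ.1, hκ.2.trans (min_le_left _ _)⟩
      · rw [hg']
        beta_reduce
        split_ifs
        · exact le_rfl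
        · exact hg _ _
    · exact (h3 m hm h5).le
  refine h4.trans ?_
  refine Finset.sum_le_sum_of_subset_of_nonneg (fun m hm => (Finset.mem_filter.mp hm).2)
    fun m _ _ => Finset.sum_nonneg fun κ _ => hg _ _

end Crest.Agent.R017.Mode405
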