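import Crest.Agent.R017.E3q6_681
import Crest.Agent.R017.ModeH_405
import Crest.Agent.R017.LSn2_50
import Crest.Agent.R017.E3Sm_290

/-!
# Row 17, block C70, leaf E4 (x-side), the moments of the coefficients (helper681)

* `TW e X b = ∑_{j ≤ X} nm(γ(j))^{-e} ‖CS b j‖²`, `γ(j)` the cube part of `j`
* `tq_sum` : the sum of the moments of the cells
* `nm_kc_mul` : the cube part does not see a squarefree coprime factor
-/

set_option autoImplicit false
set_option linter.unusedVariables false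
set_option maxHeartbeats 400000

noncomputable section

open Complex MeasureTheory
open scoped ComplexConjugate Classical

namespace Crest.Agent.R017.E3q681

open Crest.Agent.R012 Crest.Agent.R012.Eis Crest.Agent.R012.MC
open Crest.Agent.R012.LS2 (S mem_S bl mem_bl)
open Crest.Agent.R012.Div277 (dvs mem_dvs isPrim_of_mem_dvs dvd_of_mem_dvs tau tau_le_rpow)
open Crest.Agent.R012.NonCube52 (Ker kv Good kc kc_spec kc_nm kv_ne_zero one_le_nmkv)
open Crest.Agent.R017.CM106 (CS TG FS)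
open Crest.Agent.R017.E1551 (nmpos jb jb_pos nm_ge_one)
open Crest.Agent.R017.LSq50 (dec_kc)

/-- the cofactor from a decomposition -/
lemma nm_kc_of_dec {n a b c : Eis} (hn : n ≠ 0) (h : Char766.IsCubDec n 0 0 a b c) :
    (nm (kc n).2 : ℝ) = nm c := by
  have d1 := dec_kc hn
  obtain ⟨u1, u2, u3, u4, -⟩ := d1.unique h
  have h1 := kc_nm hn
  have hk : kv (kc n).1 = a * b ^ 2 := by
    unfold kv
    rw [u1, u2, u3, u4]; ring
  have h2 : (nm (kv (kc n).1) : ℝ) * (nm c : ℝ) ^ 3 = nm n := by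
    rw [hk]
    conv_rhs => rw [h.eq]
    rw [pow_zero, pow_zero, one_mul, one_mul]
    simp only [nm_mul, nm_pow]
    push_cast
    ring
  have h3 : (0 : ℝ) < nm (kv (kc n).1) := by
    have := one_le_nmkv (kc_spec hn).1
    linarith
  have h4 : (nm (kc n).2 : ℝ) ^ 3 = (nm c : ℝ) ^ 3 :=
    mul_left_cancel₀ h3.ne' (h1.trans h2.symm)
  exact (pow_left_inj₀ (Nat.cast_nonneg _) (Nat.cast_nonneg _) (by norm_num)).mp h4

/-- the cube part does not see a squarefree coprime factor -/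
lemma nm_kc_mul {x n : Eis} (hx : IsPrim x) (hxs : Squarefree x) (hn : IsPrim n)
    (hc : IsCoprime n x) : (nm (kc (x * n)).2 : ℝ) = nm (kc n).2 := by
  obtain ⟨p1, p2, p3, s1, s2, hcc, he⟩ := GLS106.dec_spec hn
  set d1 := (GLS106.dec n).1
  set d2 := (GLS106.dec n).2.1
  set d3 := (GLS106.dec n).2.2
  have hn' : Char766.IsCubDec n 0 0 d1 d2 d3 := by
    refine ⟨by norm_num, by norm_num, p1, p2, s1, s2, hcc, p3.ne_zero, ?_⟩
    rw [pow_zero, pow_zero, one_mul, one_mul]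
    exact he
  have hx1 : IsCoprime x d1 := by
    refine (IsCoprime.of_isCoprime_of_dvd_left hc (x := d1) ?_).symm
    rw [he]; exact ⟨d2 ^ 2 * d3 ^ 3, by ring⟩
  have hx2 : IsCoprime x d2 := by
    refine (IsCoprime.of_isCoprime_of_dvd_left hc (x := d2) ?_).symm
    rw [he]; exact ⟨d1 * d2 * d3 ^ 3, by ring⟩
  have hxn : Char766.IsCubDec (x * n) 0 0 (x * d1) d2 d3 := by
    refine ⟨by norm_num, by norm_num, hx.mul p1, p2, ?_, s2, hx2.mul_left hcc, p3.ne_zero, ?_⟩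
    · exact squarefree_mul_iff.mpr ⟨hx1.isRelPrime, hxs, s1⟩
    · rw [pow_zero, pow_zero, one_mul, one_mul]
      conv_lhs => rw [he]
      ring
  rw [nm_kc_of_dec (mul_ne_zero hx.ne_zero hn.ne_zero) hxn, nm_kc_of_dec hn.ne_zero hn']

/-- the moment of the coefficients with the weight of the cube part -/
def TW (e X : ℝ) (b : Eis → ℂ) : ℝ :=
  ∑ j ∈ primBall ⌊X⌋₊, (nm (kc j).2 : ℝ) ^ (-e) * ‖CS b j‖ ^ 2

lemma TW_nonneg (e X : ℝ) (b : Eis → ℂ) : 0 ≤ TW e X b :=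
  Finset.sum_nonneg fun _ _ => by positivity

/-- the moment of a cell -/
def TC (e X : ℝ) (b : Eis → ℂ) (x : Eis) : ℝ :=
  ∑ n ∈ (primBall ⌊X / nm x⌋₊).filter (fun n => IsCoprime n x),
    (nm (kc n).2 : ℝ) ^ (-e) * ‖CS b (x * n)‖ ^ 2

lemma TC_nonneg (e X : ℝ) (b : Eis → ℂ) (x : Eis) : 0 ≤ TC e X b x :=
  Finset.sum_nonneg fun _ _ => by positivity

lemma TC_le {e X : ℝ} (b : Eis → ℂ) {x : Eis} (hx : IsPrim x) (hxs : Squarefree x)
    (hX : 0 ≤ X) : TC e X b x ≤ ∑ j ∈ (primBall ⌊X⌋₊).filter (fun j => x ∣ j),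
      (nm (kc j).2 : ℝ) ^ (-e) * ‖CS b j‖ ^ 2 := by
  unfold TC
  have nx := nmpos hx.ne_zero
  have hinj : Set.InjOn (fun n : Eis => x * n)
      (((primBall ⌊X / nm x⌋₊).filter (fun n => IsCoprime n x) : Finset Eis) : Set Eis) :=
    fun y _ z _ h => mul_left_cancel₀ hx.ne_zero h
  have e1 : ∑ n ∈ (primBall ⌊X / nm x⌋₊).filter (fun n => IsCoprime n x),
      (nm (kc n).2 : ℝ) ^ (-e) * ‖CS b (x * n)‖ ^ 2 =
      ∑ j ∈ ((primBall ⌊X / nm x⌋₊).filter (fun n => IsCoprime n x)).image (fun n => x * n),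
        (nm (kc j).2 : ℝ) ^ (-e) * ‖CS b j‖ ^ 2 := by
    rw [Finset.sum_image hinj]
    refine Finset.sum_congr rfl fun n hn => ?_
    rw [Finset.mem_filter] at hn
    rw [nm_kc_mul hx hxs (mem_primBall.mp hn.1).2 hn.2]
  rw [e1]
  refine Finset.sum_le_sum_of_subset_of_nonneg (fun j hj => ?_) fun _ _ _ => by positivity
  rw [Finset.mem_image] at hj
  obtain ⟨n, hn, rfl⟩ := hj
  rw [Finset.mem_filter] at hn
  obtain ⟨h1, h2⟩ := mem_primBall.mp hn.1
  rw [Finset.mem_filter, mem_primBall]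
  refine ⟨⟨?_, hx.mul h2⟩, dvd_mul_right _ _⟩
  rw [Nat.le_floor_iff hX]
  rw [Nat.le_floor_iff (by positivity), le_div_iff₀ nx] at h1
  rw [nm_mul]; push_cast
  linarith

/-- **the sum of the moments of the cells** -/
theorem tq_sum {ε : ℝ} (hε : 0 < ε) : ∃ C : ℝ, 0 ≤ C ∧ ∀ (Z X M₀ Y e : ℝ) (b : Eis → ℂ),
    1 ≤ Z → 0 ≤ X → X ≤ Z → 0 ≤ M₀ → 0 ≤ Y →
    ∑ a ∈ S M₀, ∑ D ∈ S Y, ∑ F ∈ S Y,
      (if Squarefree (a * D * F) then TC e X b (a * D * F) else 0) ≤ C * Z ^ ε * TW e X b := by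
  obtain ⟨Ct, hCt, hτ⟩ := tau_le_rpow (ε := ε / 3) (by positivity)
  refine ⟨Ct ^ 3, by positivity, ?_⟩
  intro Z X M₀ Y e b hZ hX hXZ hM hY
  have hZ0 : 0 < Z := by linarith
  set f : Eis → ℝ := fun j => (nm (kc j).2 : ℝ) ^ (-e) * ‖CS b j‖ ^ 2 with hf
  have hf0 : ∀ j, 0 ≤ f j := fun j => by rw [hf]; positivity
  set P := primBall ⌊X⌋₊ with hP
  have h1 : ∀ a ∈ S M₀, ∀ D ∈ S Y, ∀ F ∈ S Y,
      (if Squarefree (a * D * F) then TC e X b (a * D * F) else 0) ≤
      ∑ j ∈ P, (if a ∣ j then 1 else 0) * ((if D ∣ j then 1 else 0) *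
        ((if F ∣ j then 1 else 0) * f j)) := by
    intro a ha D hD F hF
    have hap := ((mem_S hM).1 ha).2.1
    have hDp := ((mem_S hY).1 hD).2.1
    have hFp := ((mem_S hY).1 hF).2.1
    split_ifs with hs
    · refine (TC_le b ((hap.mul hDp).mul hFp) hs hX).trans ?_
      rw [Finset.sum_filter]
      refine Finset.sum_le_sum fun j _ => ?_
      by_cases hj : a * D * F ∣ j
      · rw [if_pos hj, if_pos (Dvd.dvd.trans ⟨D * F, by ring⟩ hj),
          if_pos (Dvd.dvd.trans ⟨a * F, by ring⟩ hj), if_pos (Dvd.dvd.trans ⟨a * D, by ring⟩ hj)]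
        simp only [one_mul]
        exact le_rfl
      · rw [if_neg hj]
        have := hf0 j
        split_ifs <;> simp [this]
    · refine Finset.sum_nonneg fun j _ => ?_
      have := hf0 j
      split_ifs <;> simp [this]
  have h2 : ∑ a ∈ S M₀, ∑ D ∈ S Y, ∑ F ∈ S Y,
      (if Squarefree (a * D * F) then TC e X b (a * D * F) else 0) ≤
      ∑ j ∈ P, (∑ a ∈ S M₀, (if a ∣ j then (1 : ℝ) else 0)) *
        ((∑ D ∈ S Y, (if D ∣ j then (1 : ℝ) else 0)) *
          ((∑ F ∈ S Y, (if F ∣ j then (1 : ℝ) else 0)) * f j)) := by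
    refine (Finset.sum_le_sum fun a ha => Finset.sum_le_sum fun D hD =>
      Finset.sum_le_sum fun F hF => h1 a ha D hD F hF).trans (le_of_eq ?_)
    calc _ = ∑ a ∈ S M₀, ∑ D ∈ S Y, ∑ j ∈ P, ∑ F ∈ S Y, (if a ∣ j then (1 : ℝ) else 0) *
          ((if D ∣ j then 1 else 0) * ((if F ∣ j then 1 else 0) * f j)) :=
          Finset.sum_congr rfl fun a _ => Finset.sum_congr rfl fun D _ => Finset.sum_comm
      _ = ∑ a ∈ S M₀, ∑ j ∈ P, ∑ D ∈ S Y, ∑ F ∈ S Y, (if a ∣ j then (1 : ℝ) else 0) *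
          ((if D ∣ j then 1 else 0) * ((if F ∣ j then 1 else 0) * f j)) :=
          Finset.sum_congr rfl fun a _ => Finset.sum_comm
      _ = ∑ j ∈ P, ∑ a ∈ S M₀, ∑ D ∈ S Y, ∑ F ∈ S Y, (if a ∣ j then (1 : ℝ) else 0) *
          ((if D ∣ j then 1 else 0) * ((if F ∣ j then 1 else 0) * f j)) := Finset.sum_comm
      _ = _ := by
          refine Finset.sum_congr rfl fun j _ => ?_
          rw [Finset.sum_mul]
          refine Finset.sum_congr rfl fun a _ => ?_
          rw [Finset.sum_mul, Finset.mul_sum]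
          refine Finset.sum_congr rfl fun D _ => ?_
          rw [Finset.sum_mul, Finset.mul_sum, Finset.mul_sum]
  refine h2.trans ?_
  unfold TW
  rw [Finset.mul_sum]
  refine Finset.sum_le_sum fun j hj => ?_
  obtain ⟨hj1, hj2⟩ := mem_primBall.mp hj
  have hjZ : (nm j : ℝ) ≤ Z := by
    rw [Nat.le_floor_iff hX] at hj1
    linarith
  have ht : ((dvs j).card : ℝ) ≤ Ct * Z ^ (ε / 3) := by
    refine (hτ j hj2.ne_zero).trans (mul_le_mul_of_nonneg_left ?_ (by linarith))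
    exact Real.rpow_le_rpow (Nat.cast_nonneg _) hjZ (by positivity)
  have hcnt : ∀ U : ℝ, 0 ≤ U → ∑ a ∈ S U, (if a ∣ j then (1 : ℝ) else 0) ≤ Ct * Z ^ (ε / 3) := by
    intro U hU
    refine le_trans ?_ ht
    rw [← Finset.sum_filter, Finset.sum_const, nsmul_eq_mul, mul_one]
    have : ((S U).filter (fun a => a ∣ j)).card ≤ (dvs j).card := by
      refine Finset.card_le_card fun a ha => ?_
      rw [Finset.mem_filter] at ha
      exact (mem_dvs hj2.ne_zero).mpr ⟨((mem_S hU).1 ha.1).2.1, ha.2⟩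
    exact_mod_cast this
  have hA := hcnt M₀ hM
  have hB := hcnt Y hY
  have h0 : ∀ U : ℝ, 0 ≤ ∑ a ∈ S U, (if a ∣ j then (1 : ℝ) else 0) := fun U =>
    Finset.sum_nonneg fun _ _ => by split_ifs <;> norm_num
  have hfj := hf0 j
  calc _ ≤ (Ct * Z ^ (ε / 3)) * ((Ct * Z ^ (ε / 3)) * ((Ct * Z ^ (ε / 3)) * f j)) := by
        have := h0 M₀
        have := h0 Y
        gcongr
    _ = Ct ^ 3 * (Z ^ (ε / 3)) ^ 3 * f j := by ring
    _ = Ct ^ 3 * Z ^ ε * f j := by
        have e3 : (Z ^ (ε / 3)) ^ 3 = Z ^ ε := by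
          rw [← Real.rpow_natCast (Z ^ (ε / 3)) 3, ← Real.rpow_mul hZ0.le]
          congr 1
          push_cast; ring
        rw [e3]

end Crest.Agent.R017.E3q681
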