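import Crest.Agent.R017.E4z_92
import Crest.Agent.R017.E3q7_681

/-!
# Row 17, block C70, leaf E4 (x-side): the count of the T-frequencies of a cell (helper92)

* `tcount`  : everything (the outer modulus `q`, `ν`, `s`, `τ`, `g`, `h`, `δ`) is `X^ε`-to-one over the
  pair `(e', J')` = (divisor, frequency), except the `S`-part of `ν` and the cube part `c`
* `norm_CS_cell` : `‖CS b_i j‖ = ‖TE0 (α (e' ·)) 1 (c₀ PP h u j) e₀‖`
* `tw_sum`  : the sum of the T-parts of the cells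
-/

set_option autoImplicit false
set_option linter.unusedVariables false
set_option maxHeartbeats 400000

noncomputable section

open Complex
open scoped ComplexConjugate

namespace Crest.Agent.R017.E4zz92

open Crest.Agent.R012 Crest.Agent.R012.Eis Crest.Agent.R012.MC
open Crest.Agent.R012.LS2 (S mem_S)
open Crest.Agent.R012.Div277 (dvs mem_dvs isPrim_of_mem_dvs dvd_of_mem_dvs tau tau_le_rpow)
open Crest.Agent.R012.NonCube52 (Ker kv Good kc kc_spec kc_nm kv_ne_zero one_le_nmkv)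
open Crest.Agent.R017.CM106 (CS FS)
open Crest.Agent.R017.C70 (CbF)
open Crest.Agent.R017.E3D579 (b0 bt bF TE0 CS_bF CS_bF_zero norm_CS_bF FS_b0)
open Crest.Agent.R017.E4579 (SupB bpt bco bpt_prim bco_prim bpt_mul_bco bpt_sup bco_cop bpt_dvd)
open Crest.Agent.R017.E4v92 (AA AA_spec FF FF_form)
open Crest.Agent.R017.E4z92 (OKs)
open Crest.Agent.R017.E3q681 (TW)
open Finset

/-! ### fibres -/

theorem sum_le_fiber {α β : Type*} [DecidableEq β] (T : Finset α) (f : α → β) (B : Finset β) (N : ℝ)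
    (hf : ∀ a ∈ T, f a ∈ B) (hN : ∀ b ∈ B, ((T.filter (fun a => f a = b)).card : ℝ) ≤ N)
    (G : β → ℝ) (hG : ∀ b ∈ B, 0 ≤ G b) : ∑ a ∈ T, G (f a) ≤ N * ∑ b ∈ B, G b := by
  rw [← sum_fiberwise_of_maps_to hf, mul_sum]
  refine sum_le_sum fun b hb => ?_
  have h1 : ∑ a ∈ T.filter (fun a => f a = b), G (f a) = ((T.filter (fun a => f a = b)).card : ℝ) * G b := by
    rw [sum_congr rfl (g := fun _ => G b) (fun a ha => by rw [(mem_filter.mp ha).2]), sum_const,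
      nsmul_eq_mul]
  rw [h1]
  exact mul_le_mul_of_nonneg_right (hN b hb) (hG b hb)

/-! ### the frequencies -/

/-- `FF = c₀ PP` -/
def PP (S₀ g₁ ν σ : Eis) : Eis :=
  AA S₀ (bpt S₀ g₁ * σ * bpt S₀ ν ^ 2) * (bco S₀ g₁ * bco S₀ ν ^ 2)

lemma FF_eq (S₀ c₀ g₁ ν σ : Eis) : FF S₀ c₀ g₁ ν σ = c₀ * PP S₀ g₁ ν σ := by
  unfold FF PP; ring

lemma PP_prim {S₀ g₁ ν σ : Eis} (hS : IsPrim S₀) (hg₁ : IsPrim g₁) (hν : IsPrim ν) (hσ : IsPrim σ)
    (h0 : PP S₀ g₁ ν σ ≠ 0) : IsPrim (PP S₀ g₁ ν σ) := by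
  have hA : AA S₀ (bpt S₀ g₁ * σ * bpt S₀ ν ^ 2) ≠ 0 := fun h => h0 (by unfold PP; rw [h, zero_mul])
  obtain ⟨hJA, e, he, h⟩ := AA_spec hA
  have hρ₀ : IsPrim (bpt S₀ g₁ * σ * bpt S₀ ν ^ 2) :=
    ((bpt_prim hS hg₁).mul hσ).mul ((bpt_prim hS hν).pow 2)
  have hAp : IsPrim (AA S₀ (bpt S₀ g₁ * σ * bpt S₀ ν ^ 2)) := by
    have h1 : IsPrim (AA S₀ (bpt S₀ g₁ * σ * bpt S₀ ν ^ 2) * S₀) := by
      rw [h]; exact hρ₀.mul (he.pow 3)
    exact h1.of_mul_right hS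
  exact hAp.mul ((bco_prim hS hg₁).mul ((bco_prim hS hν).pow 2))

/-- a squarefree element divides `n` if its primes do -/
lemma dvd_of_primes {n q : Eis} : Squarefree q → (∀ p : Eis, Prime p → p ∣ q → p ∣ n) → q ∣ n := by
  refine UniqueFactorizationMonoid.induction_on_prime
    (P := fun m => Squarefree m → (∀ p : Eis, Prime p → p ∣ m → p ∣ n) → m ∣ n) q ?_ ?_ ?_
  · intro h
    exact absurd h not_squarefree_zero
  · intro u hu _ _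
    exact hu.dvd
  · intro a p ha hp ih hsf hdv
    have h1 : Squarefree a := hsf.squarefree_of_dvd (dvd_mul_left _ _)
    have h2 : ¬ p ∣ a := by
      rintro ⟨b, rfl⟩
      exact hp.not_isUnit (hsf p ⟨b, by ring⟩)
    have h3 : IsCoprime p a := hp.irreducible.coprime_iff_not_dvd.mpr h2
    exact h3.mul_dvd (hdv p hp (dvd_mul_right _ _))
      (ih h1 fun q hq hqa => hdv q hq (hqa.mul_left _))

/-- **the primes of `q` are seen by the frequency or by the `S`-part of `ν`** -/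
theorem q_dvd {q S₀ F0 g₁ ν σ : Eis} (hq : IsPrim q) (hqq : Squarefree q) (hS : IsPrim S₀)
    (h1 : q ^ 2 ∣ S₀) (h2 : S₀ ∣ q ^ 2 * F0) (hg₁ : IsPrim g₁) (hν : IsPrim ν) (hσ : IsPrim σ)
    (hσq : Squarefree σ) (hF0 : F0 ≠ 0)
    (h0 : PP S₀ g₁ ν σ ≠ 0) : q ∣ bpt S₀ ν * (PP S₀ g₁ ν σ * (F0 * g₁)) := by
  have hA : AA S₀ (bpt S₀ g₁ * σ * bpt S₀ ν ^ 2) ≠ 0 := fun h => h0 (by unfold PP; rw [h, zero_mul])
  obtain ⟨hJA, e, he, h⟩ := AA_spec hA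
  refine dvd_of_primes hqq fun p hp hpq => ?_
  by_contra hn
  have n1 : ¬ p ∣ bpt S₀ ν := fun h' => hn (h'.mul_right _)
  have n2 : ¬ p ∣ PP S₀ g₁ ν σ := fun h' => hn ((h'.mul_right _).mul_left _)
  have n3 : ¬ p ∣ F0 := fun h' => hn (((h'.mul_right _).mul_left _).mul_left _)
  have n4 : ¬ p ∣ g₁ := fun h' => hn (((h'.mul_left _).mul_left _).mul_left _)
  have n5 : ¬ p ∣ AA S₀ (bpt S₀ g₁ * σ * bpt S₀ ν ^ 2) := fun h' => n2 (by
    unfold PP; exact h'.mul_right _)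
  have n6 : ¬ p ∣ bpt S₀ g₁ := fun h' => n4 (h'.trans (bpt_dvd hS hg₁))
  have d1 : p ^ 2 ∣ bpt S₀ g₁ * σ * bpt S₀ ν ^ 2 * e ^ 3 := by
    rw [← h]
    exact ((pow_dvd_pow_of_dvd hpq 2).trans h1).mul_left _
  have n7 : ¬ p ∣ bpt S₀ ν ^ 2 := fun h' => n1 (hp.dvd_of_dvd_pow h')
  -- `p² ∣ σ e³`
  have d2 : p ^ 2 ∣ σ * e ^ 3 := by
    have e1 : bpt S₀ g₁ * σ * bpt S₀ ν ^ 2 * e ^ 3 = (bpt S₀ g₁ * bpt S₀ ν ^ 2) * (σ * e ^ 3) := by
      ring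
    rw [e1] at d1
    have n8 : ¬ p ∣ bpt S₀ g₁ * bpt S₀ ν ^ 2 := fun h' => (hp.dvd_or_dvd h').elim n6 n7
    exact (Prime.pow_dvd_of_dvd_mul_left hp 2 n8 d1)
  have d3 : p ∣ e := by
    by_contra hpe
    have n9 : ¬ p ∣ e ^ 3 := fun h' => hpe (hp.dvd_of_dvd_pow h')
    have := Prime.pow_dvd_of_dvd_mul_right hp 2 n9 d2
    rw [pow_two] at this
    exact hp.not_isUnit (hσq p this)
  have d4 : p ^ 3 ∣ AA S₀ (bpt S₀ g₁ * σ * bpt S₀ ν ^ 2) * S₀ := by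
    rw [h]
    exact (pow_dvd_pow_of_dvd d3 3).mul_left _
  have d5 : p ^ 3 ∣ S₀ := Prime.pow_dvd_of_dvd_mul_left hp 3 n5 d4
  have d6 : p ^ 3 ∣ q ^ 2 := Prime.pow_dvd_of_dvd_mul_right hp 3 n3 (d5.trans h2)
  obtain ⟨x, hx⟩ := hpq
  have hpx : ¬ p ∣ x := by
    rintro ⟨y, hy⟩
    exact hp.not_isUnit (hqq p ⟨y, by rw [hx, hy]; ring⟩)
  rw [hx, mul_pow] at d6
  have d7 : p ^ 2 * p ∣ p ^ 2 * x ^ 2 := by
    have : p ^ 2 * p = p ^ 3 := by ring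
    rw [this]; exact d6
  have d8 : p ∣ x ^ 2 := (mul_dvd_mul_iff_left (pow_ne_zero 2 hp.ne_zero)).mp d7
  exact hpx (hp.dvd_of_dvd_pow d8)

/-! ### the count -/

/-- a tuple: outer modulus, frequency part, `s`, `s`-parts, `τ`, `g`, `h`, `δ`, frequency, cube part -/
structure Tu where
  (q ν s us u w τ g h δ j c : Eis)

/-- the outer modulus, the family, the prefix -/
structure Fr where
  (F0 g₁ g₂ : Eis)
  Sf : Eis → Eis
  Rf : Eis → Eis → Eis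

/-- the frequency of a tuple -/
def Tu.J (a : Tu) (f : Fr) : Eis := PP (f.Sf a.q) f.g₁ a.ν (a.us * a.τ) * (a.h * (a.u * a.j))

/-- the divisor of a tuple -/
def Tu.e (a : Tu) (f : Fr) : Eis := f.g₂ * (a.w * (a.g * a.δ))

/-- admissible tuples -/
structure Tu.OK (a : Tu) (f : Fr) (Y : ℝ) : Prop where
  hq : IsPrim a.q
  hqq : Squarefree a.q
  hS : IsPrim (f.Sf a.q)
  h1 : a.q ^ 2 ∣ f.Sf a.q
  h2 : f.Sf a.q ∣ a.q ^ 2 * f.F0
  hν : IsPrim a.ν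
  hs : OKs (f.Rf a.q a.ν) a.s (f.Sf a.q) a.us a.u a.w
  hR : IsPrim (f.Rf a.q a.ν)
  hτ : IsPrim a.τ
  hτq : Squarefree a.τ
  hτS : SupB a.τ (f.Sf a.q)
  husτ : IsCoprime a.us a.τ
  hg : IsPrim a.g
  hh : IsPrim a.h
  hδ : IsPrim a.δ
  hj : IsPrim a.j
  hP : PP (f.Sf a.q) f.g₁ a.ν (a.us * a.τ) ≠ 0
  hJY : (nm (a.J f) : ℝ) ≤ Y
  heY : (nm (a.e f) : ℝ) ≤ Y
  hbY : (nm (bpt (f.Sf a.q) a.ν) : ℝ) ≤ Y

/-- the data are bounded -/
structure Fr.OK (f : Fr) (Y : ℝ) : Prop where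
  hF : f.F0 ≠ 0
  hg₁ : IsPrim f.g₁
  hg₂ : IsPrim f.g₂
  hFY : (nm f.F0 : ℝ) ≤ Y
  hgY : (nm f.g₁ : ℝ) ≤ Y

variable {f : Fr} {Y : ℝ} {a : Tu}

lemma Tu.OK.Jprim (h : a.OK f Y) (hf : f.OK Y) : IsPrim (a.J f) :=
  (PP_prim h.hS hf.hg₁ h.hν (h.hs.hus.mul h.hτ) h.hP).mul (h.hh.mul (h.hs.hu.mul h.hj))

lemma Tu.OK.eprim (h : a.OK f Y) (hf : f.OK Y) : IsPrim (a.e f) :=
  hf.hg₂.mul (h.hs.hw.mul (h.hg.mul h.hδ))

/-- `J`-multiple which sees `q` -/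
def WJ (f : Fr) (b J : Eis) : Eis := b * (J * (f.F0 * f.g₁))

lemma Tu.OK.q_dvd (h : a.OK f Y) (hf : f.OK Y) : a.q ∣ WJ f (bpt (f.Sf a.q) a.ν) (a.J f) := by
  have hσq : Squarefree (a.us * a.τ) :=
    squarefree_mul_iff.mpr ⟨h.husτ.isRelPrime, h.hs.huq.of_mul_left, h.hτq⟩
  have h1 := E4zz92.q_dvd h.hq h.hqq h.hS h.h1 h.h2 hf.hg₁ h.hν (h.hs.hus.mul h.hτ) hσq hf.hF h.hP
  refine h1.trans ?_
  unfold WJ Tu.J
  exact ⟨a.h * (a.u * a.j), by ring⟩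

lemma sup_dvd {x : Eis} (h : a.OK f Y) (hf : f.OK Y) (hxq : Squarefree x)
    (hx : SupB x (f.Sf a.q)) : x ∣ WJ f (bpt (f.Sf a.q) a.ν) (a.J f) * f.F0 := by
  refine dvd_of_primes hxq fun p hp hpx => ?_
  have h1 : p ∣ a.q ^ 2 * f.F0 := (hx p hp hpx).trans h.h2
  rcases hp.dvd_or_dvd h1 with h2 | h2
  · exact ((hp.dvd_of_dvd_pow h2).trans (h.q_dvd hf)).mul_right _
  · exact h2.mul_left _

/-- the target of a tuple -/
def tgt (f : Fr) (a : Tu) : Eis × Eis × Eis × Eis :=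
  (bpt (f.Sf a.q) a.ν, a.c, a.e f, a.J f)

/-- the divisors of a tuple -/
def ky (f : Fr) (a : Tu) : Eis × Eis × Eis × Eis × Eis × Eis × Eis × Eis × Eis :=
  (a.q, bco (f.Sf a.q) a.ν, a.us, a.u, a.w, a.τ, a.g, a.h, a.δ)

/-- the set of the divisors -/
def KD (f : Fr) (x : Eis × Eis × Eis × Eis) :
    Finset (Eis × Eis × Eis × Eis × Eis × Eis × Eis × Eis × Eis) :=
  dvs (WJ f x.1 x.2.2.2 * f.F0) ×ˢ dvs x.2.2.2 ×ˢ dvs (WJ f x.1 x.2.2.2 * f.F0) ×ˢ dvs x.2.2.2 ×ˢ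
    dvs x.2.2.1 ×ˢ dvs (WJ f x.1 x.2.2.2 * f.F0) ×ˢ dvs x.2.2.1 ×ˢ dvs x.2.2.2 ×ˢ dvs x.2.2.1

lemma Tu.OK.W_ne (h : a.OK f Y) (hf : f.OK Y) :
    WJ f (bpt (f.Sf a.q) a.ν) (a.J f) * f.F0 ≠ 0 :=
  mul_ne_zero (mul_ne_zero (bpt_prim h.hS h.hν).ne_zero
    (mul_ne_zero (h.Jprim hf).ne_zero (mul_ne_zero hf.hF hf.hg₁.ne_zero))) hf.hF

lemma ky_mem (h : a.OK f Y) (hf : f.OK Y) : ky f a ∈ KD f (tgt f a) := by
  have hW := h.W_ne hf
  have hJ := (h.Jprim hf).ne_zero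
  have he := (h.eprim hf).ne_zero
  have hco : bco (f.Sf a.q) a.ν ∣ a.J f := by
    unfold Tu.J PP
    exact ⟨AA (f.Sf a.q) (bpt (f.Sf a.q) f.g₁ * (a.us * a.τ) * bpt (f.Sf a.q) a.ν ^ 2) *
      (bco (f.Sf a.q) f.g₁ * bco (f.Sf a.q) a.ν) * (a.h * (a.u * a.j)), by ring⟩
  have hu : a.u ∣ a.J f := by
    unfold Tu.J
    exact ⟨PP (f.Sf a.q) f.g₁ a.ν (a.us * a.τ) * (a.h * a.j), by ring⟩
  have hh : a.h ∣ a.J f := by
    unfold Tu.J
    exact ⟨PP (f.Sf a.q) f.g₁ a.ν (a.us * a.τ) * (a.u * a.j), by ring⟩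
  have hw : a.w ∣ a.e f := by
    unfold Tu.e
    exact ⟨f.g₂ * (a.g * a.δ), by ring⟩
  have hg : a.g ∣ a.e f := by
    unfold Tu.e
    exact ⟨f.g₂ * (a.w * a.δ), by ring⟩
  have hδ : a.δ ∣ a.e f := by
    unfold Tu.e
    exact ⟨f.g₂ * (a.w * a.g), by ring⟩
  unfold ky KD tgt
  simp only [mem_product]
  refine ⟨?_, ?_, ?_, ?_, ?_, ?_, ?_, ?_, ?_⟩
  · exact (mem_dvs hW).mpr ⟨h.hq, (h.q_dvd hf).mul_right _⟩
  · exact (mem_dvs hJ).mpr ⟨bco_prim h.hS h.hν, hco⟩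
  · exact (mem_dvs hW).mpr ⟨h.hs.hus, sup_dvd h hf h.hs.huq.of_mul_left h.hs.husS⟩
  · exact (mem_dvs hJ).mpr ⟨h.hs.hu, hu⟩
  · exact (mem_dvs he).mpr ⟨h.hs.hw, hw⟩
  · exact (mem_dvs hW).mpr ⟨h.hτ, sup_dvd h hf h.hτq h.hτS⟩
  · exact (mem_dvs he).mpr ⟨h.hg, hg⟩
  · exact (mem_dvs hJ).mpr ⟨h.hh, hh⟩
  · exact (mem_dvs he).mpr ⟨h.hδ, hδ⟩

lemma ky_inj {a' : Tu} (h : a.OK f Y) (h' : a'.OK f Y) (ht : tgt f a = tgt f a')
    (hk : ky f a = ky f a') : a = a' := by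
  unfold tgt at ht
  unfold ky at hk
  simp only [Prod.mk.injEq] at ht hk
  obtain ⟨t1, t2, t3, t4⟩ := ht
  obtain ⟨k1, k2, k3, k4, k5, k6, k7, k8, k9⟩ := hk
  have e1 : a.ν = a'.ν := by
    rw [← bpt_mul_bco h.hS h.hν, ← bpt_mul_bco h'.hS h'.hν, t1, k2]
  have e2 : a.s = a'.s := by
    have h1 := h.hs.hRs
    have h2 := h'.hs.hRs
    rw [← k1, ← e1, ← k3, ← k4, ← k5, ← h1] at h2
    exact (mul_left_cancel₀ h.hR.ne_zero h2).symm
  have e3 : a.j = a'.j := by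
    unfold Tu.J at t4
    rw [← k1, ← e1, ← k3, ← k4, ← k6, ← k8] at t4
    have := mul_left_cancel₀ h.hP t4
    exact mul_left_cancel₀ h.hs.hu.ne_zero (mul_left_cancel₀ h.hh.ne_zero this)
  cases a
  cases a'
  simp only [Tu.mk.injEq]
  exact ⟨k1, e1, e2, k3, k4, k5, k6, k7, k8, k9, e3, t2⟩

open Classical in
/-- **the count** -/
theorem tcount {ε : ℝ} (hε : 0 < ε) : ∃ C : ℝ, 0 ≤ C ∧ ∀ (Y : ℝ) (f : Fr) (T : Finset Tu)
    (B : Finset (Eis × Eis × Eis × Eis)) (F : Eis × Eis × Eis × Eis → ℝ),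
    1 ≤ Y → f.OK Y → (∀ a ∈ T, a.OK f Y) → (∀ a ∈ T, tgt f a ∈ B) → (∀ x ∈ B, 0 ≤ F x) →
    ∑ a ∈ T, F (tgt f a) ≤ C * Y ^ ε * ∑ x ∈ B, F x := by
  obtain ⟨Ct, hCt, hτ⟩ := tau_le_rpow (ε := ε / 45) (by positivity)
  have hCt0 : 0 ≤ Ct := by linarith
  refine ⟨Ct ^ 9, by positivity, ?_⟩
  intro Y f T B F hY hf hT hB hF
  have hY0 : 0 < Y := by linarith
  refine sum_le_fiber T (tgt f) B _ hB (fun x hx => ?_) F hF
  rcases (T.filter (fun a => tgt f a = x)).eq_empty_or_nonempty with h0 | ⟨a₀, ha₀⟩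
  · rw [h0, card_empty]
    push_cast
    positivity
  obtain ⟨ha₀T, ha₀x⟩ := mem_filter.mp ha₀
  have ho := hT a₀ ha₀T
  have hcard : (T.filter (fun a => tgt f a = x)).card ≤ (KD f x).card := by
    refine card_le_card_of_injOn (ky f) (fun a ha => ?_) (fun a ha a' ha' hk => ?_)
    · obtain ⟨h1, h2⟩ := mem_filter.mp (mem_coe.mp ha)
      have := ky_mem (hT a h1) hf
      rw [h2] at this
      exact mem_coe.mpr this
    · obtain ⟨h1, h2⟩ := mem_filter.mp (mem_coe.mp ha)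
      obtain ⟨h1', h2'⟩ := mem_filter.mp (mem_coe.mp ha')
      exact ky_inj (hT a h1) (hT a' h1') (h2.trans h2'.symm) hk
  -- the number of divisors
  have hY5 : Y ≤ Y ^ 5 := le_self_pow₀ hY (by norm_num)
  have key : ∀ n : Eis, n ≠ 0 → (nm n : ℝ) ≤ Y ^ 5 → ((dvs n).card : ℝ) ≤ Ct * (Y ^ 5) ^ (ε / 45) := by
    intro n hn hnY
    refine (hτ n hn).trans (mul_le_mul_of_nonneg_left ?_ hCt0)
    exact Real.rpow_le_rpow (Nat.cast_nonneg _) hnY (by positivity)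
  have hx : x = tgt f a₀ := ha₀x.symm
  have k1 : ((dvs (WJ f x.1 x.2.2.2 * f.F0)).card : ℝ) ≤ Ct * (Y ^ 5) ^ (ε / 45) := by
    rw [hx]
    refine key _ (ho.W_ne hf) ?_
    unfold WJ tgt
    simp only [nm_mul]
    push_cast
    have b1 := ho.hbY
    have b2 := ho.hJY
    have b3 := hf.hFY
    have b4 := hf.hgY
    calc (nm (bpt (f.Sf a₀.q) a₀.ν) : ℝ) * (nm (a₀.J f) * (nm f.F0 * nm f.g₁)) * nm f.F0
        ≤ Y * (Y * (Y * Y)) * Y := by gcongr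
      _ = Y ^ 5 := by ring
  have k2 : ((dvs x.2.2.2).card : ℝ) ≤ Ct * (Y ^ 5) ^ (ε / 45) := by
    rw [hx]
    exact key _ (ho.Jprim hf).ne_zero (ho.hJY.trans hY5)
  have k3 : ((dvs x.2.2.1).card : ℝ) ≤ Ct * (Y ^ 5) ^ (ε / 45) := by
    rw [hx]
    exact key _ (ho.eprim hf).ne_zero (ho.heY.trans hY5)
  have hN : (Ct * (Y ^ 5) ^ (ε / 45)) ^ 9 = Ct ^ 9 * Y ^ ε := by
    have e5 : (Y ^ 5 : ℝ) = Y ^ (5 : ℝ) := by rw [← Real.rpow_natCast]; norm_num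
    have e6 : ((Y ^ 5) ^ (ε / 45) : ℝ) ^ 9 = Y ^ ε := by
      rw [e5, ← Real.rpow_mul hY0.le, ← Real.rpow_natCast, ← Real.rpow_mul hY0.le]
      congr 1
      push_cast
      ring
    rw [mul_pow, e6]
  calc ((T.filter (fun a => tgt f a = x)).card : ℝ) ≤ ((KD f x).card : ℝ) := by exact_mod_cast hcard
    _ ≤ (Ct * (Y ^ 5) ^ (ε / 45)) ^ 9 := by
        unfold KD
        simp only [card_product]
        push_cast
        have hc : 0 ≤ Ct * (Y ^ 5) ^ (ε / 45) := by positivity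
        set N := Ct * (Y ^ 5) ^ (ε / 45) with hNdef
        calc _ ≤ N * (N * (N * (N * (N * (N * (N * (N * N))))))) := by gcongr
          _ = N ^ 9 := by ring
    _ = Ct ^ 9 * Y ^ ε := hN

/-! ### the moments of a cell -/

/-- the coefficients of a cell -/
def cb (f : Fr) (α : Eis → ℂ) (e₀ c₀ : Eis) (a : Tu) : Eis → ℂ :=
  bF (a.h * a.u) 1 (b0 (fun m => α (a.e f * m)) (a.e f) e₀
    (c₀ * PP (f.Sf a.q) f.g₁ a.ν (a.us * a.τ)))

/-- the `T`-sum at the divisor `e` and the frequency `J` -/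
def TT (α : Eis → ℂ) (e₀ c₀ e J : Eis) : ℝ := ‖TE0 (fun m => α (e * m)) 1 (c₀ * J) e₀‖ ^ 2

lemma TT_nonneg (α : Eis → ℂ) (e₀ c₀ e J : Eis) : 0 ≤ TT α e₀ c₀ e J := by
  unfold TT; positivity

lemma b0_one (a : Eis → ℂ) (d e f : Eis) :
    b0 a d e f = b0 a 1 e f ∨ b0 a d e f = fun _ => 0 := by
  classical
  by_cases h : IsCoprime f d
  · left
    funext m
    unfold b0
    have : IsCoprime f (d * m) ↔ IsCoprime f (1 * m) := by
      rw [one_mul]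
      exact ⟨fun h' => h'.of_mul_right_right, fun h' => h.mul_right h'⟩
    simp only [this]
  · right
    funext m
    unfold b0
    rw [if_neg]
    rintro ⟨-, h'⟩
    exact h h'.of_mul_right_left

lemma CS_zero' (μ : Eis) : CS (fun _ => 0) μ = 0 := by
  unfold CM106.CS; simp

lemma bF_zero (κ F : Eis) : bF κ F (fun _ => 0) = fun _ => 0 := by
  classical
  funext m
  unfold E3D579.bF E3D579.bt
  simp

/-- **the sums of the coefficients are `T`-sums** -/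
theorem CS_cell {α : Eis → ℂ} (hα : FS α) {e κ j : Eis} (he : IsPrim e) (hκ : IsPrim κ)
    (hj : IsPrim j) (e₀ f₀ : Eis) :
    ‖CS (bF κ 1 (b0 (fun m => α (e * m)) e e₀ f₀)) j‖ ^ 2 ≤
      ‖TE0 (fun m => α (e * m)) 1 (f₀ * (κ * j)) e₀‖ ^ 2 := by
  have ha : FS (fun m => α (e * m)) := E4v92.FS_sub hα he
  rcases b0_one (fun m => α (e * m)) e e₀ f₀ with h | h
  · rw [h]
    by_cases hc : IsCoprime j κ
    · rw [norm_CS_bF ha hκ isPrim_one hj hc isCoprime_one_right e₀ f₀, one_mul]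
    · rw [CS_bF_zero hκ (FS_b0 ha 1 e₀ f₀) hc, norm_zero, zero_pow two_ne_zero]
      positivity
  · rw [h, bF_zero, CS_zero', norm_zero, zero_pow two_ne_zero]
    positivity

/-- the decomposition of the frequency -/
lemma exists_dec {j : Eis} (hj : IsPrim j) : ∃ z : Eis × Eis, IsPrim z.1 ∧ IsPrim z.2 ∧
    j = z.1 * z.2 ^ 3 ∧ (nm (kc j).2 : ℝ) = nm z.2 := by
  obtain ⟨p1, p2, p3, s1, s2, hcc, he⟩ := GLS106.dec_spec hj
  refine ⟨((GLS106.dec j).1 * (GLS106.dec j).2.1 ^ 2, (GLS106.dec j).2.2), p1.mul (p2.pow 2), p3,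
    he, ?_⟩
  refine E3q681.nm_kc_of_dec hj.ne_zero (a := (GLS106.dec j).1) (b := (GLS106.dec j).2.1) ?_
  refine ⟨by norm_num, by norm_num, p1, p2, s1, s2, hcc, p3.ne_zero, ?_⟩
  rw [pow_zero, pow_zero, one_mul, one_mul]
  exact he

/-- **the `T`-functional of the structured `x`-side** -/
def TSS (α : Eis → ℂ) (e₀ c₀ : Eis) (ex E L : ℝ) : ℝ :=
  ∑ c ∈ primBall ⌊L⌋₊, (nm c : ℝ) ^ (-ex) * ∑ e ∈ primBall ⌊E⌋₊,
    ∑ J ∈ primBall ⌊L / nm c ^ 3⌋₊, TT α e₀ c₀ e (J * c ^ 3)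

lemma TSS_nonneg (α : Eis → ℂ) (e₀ c₀ : Eis) (ex E L : ℝ) : 0 ≤ TSS α e₀ c₀ ex E L := by
  unfold TSS
  refine sum_nonneg fun c _ => mul_nonneg (by positivity) (sum_nonneg fun e _ => sum_nonneg
    fun J _ => TT_nonneg _ _ _ _ _)

lemma TSS_mono {α : Eis → ℂ} {e₀ c₀ : Eis} {ex E E' L L' : ℝ} (hE : E ≤ E') (hL : L ≤ L') :
    TSS α e₀ c₀ ex E L ≤ TSS α e₀ c₀ ex E' L' := by
  have hb : ∀ {x y : ℝ}, x ≤ y → primBall ⌊x⌋₊ ⊆ primBall ⌊y⌋₊ := fun {x y} h c hc => by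
    obtain ⟨h1, h2⟩ := mem_primBall.mp hc
    exact mem_primBall.mpr ⟨h1.trans (Nat.floor_mono h), h2⟩
  unfold TSS
  refine (sum_le_sum_of_subset_of_nonneg (hb hL) fun c _ _ => mul_nonneg (by positivity)
    (sum_nonneg fun e _ => sum_nonneg fun J _ => TT_nonneg _ _ _ _ _)).trans ?_
  refine sum_le_sum fun c hc => mul_le_mul_of_nonneg_left ?_ (by positivity)
  refine (sum_le_sum_of_subset_of_nonneg (hb hE) fun e _ _ =>
    (sum_nonneg fun J _ => TT_nonneg _ _ _ _ _)).trans ?_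
  refine sum_le_sum fun e he => ?_
  exact sum_le_sum_of_subset_of_nonneg (hb (by gcongr)) fun J _ _ => TT_nonneg _ _ _ _ _

open Classical in
/-- **the sum of the moments of the cells** -/
theorem tw_sum {ε : ℝ} (hε : 0 < ε) : ∃ C : ℝ, 0 ≤ C ∧ ∀ (Y : ℝ) (f : Fr) (T : Finset Tu)
    (α : Eis → ℂ) (e₀ c₀ : Eis) (ex X E L : ℝ) (Bs : Finset Eis),
    1 ≤ Y → f.OK Y → FS α → 0 ≤ X → 0 ≤ E → 0 ≤ L → L ≤ Y →
    (∀ a ∈ T, a.OK f Y ∧ a.j = 1 ∧ a.c = 1 ∧ bpt (f.Sf a.q) a.ν ∈ Bs ∧ (nm (a.e f) : ℝ) ≤ E ∧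
      nm (a.J f) * X ≤ L) →
    ∑ a ∈ T, TW ex X (cb f α e₀ c₀ a) ≤ C * Y ^ ε * (Bs.card * TSS α e₀ c₀ ex E L) := by
  obtain ⟨C, hC, h⟩ := tcount hε
  refine ⟨C, hC, ?_⟩
  intro Y f T α e₀ c₀ ex X E L Bs hY hf hα hX hE hL hLY hT
  have hdec : ∀ j : Eis, ∃ z : Eis × Eis, IsPrim j → IsPrim z.1 ∧ IsPrim z.2 ∧
      j = z.1 * z.2 ^ 3 ∧ (nm (kc j).2 : ℝ) = nm z.2 := by
    intro j
    by_cases hj : IsPrim j
    · obtain ⟨z, hz⟩ := exists_dec hj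
      exact ⟨z, fun _ => hz⟩
    · exact ⟨(1, 1), fun h' => absurd h' hj⟩
  choose z hz using hdec
  -- the tuples
  set P := primBall ⌊X⌋₊ with hP
  set mk : Tu × Eis → Tu := fun y => { y.1 with j := (z y.2).1, c := (z y.2).2 } with hmk
  set T' := T ×ˢ P with hT'
  have hpr : ∀ y ∈ T', IsPrim y.2 ∧ (nm y.2 : ℝ) ≤ X := by
    intro y hy
    obtain ⟨h1, h2⟩ := mem_primBall.mp (mem_product.mp hy).2
    exact ⟨h2, (Nat.le_floor_iff hX).mp h1⟩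
  have hinj : Set.InjOn mk (T' : Set (Tu × Eis)) := by
    intro y hy y' hy' he
    have hy := mem_coe.mp hy
    have hy' := mem_coe.mp hy'
    obtain ⟨-, k1, k2, -⟩ := hT y.1 (mem_product.mp hy).1
    obtain ⟨-, k1', k2', -⟩ := hT y'.1 (mem_product.mp hy').1
    obtain ⟨a, j⟩ := y
    obtain ⟨a', j'⟩ := y'
    cases a
    cases a'
    simp only [hmk, Tu.mk.injEq] at he
    simp only at k1 k2 k1' k2'
    obtain ⟨m1, m2, m3, m4, m5, m6, m7, m8, m9, m10, m11, m12⟩ := he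
    have e1 := (hz j (hpr _ hy).1).2.2.1
    have e2 := (hz j' (hpr _ hy').1).2.2.1
    have e3 : j = j' := by rw [e1, e2, m11, m12]
    simp only [Prod.mk.injEq, Tu.mk.injEq]
    exact ⟨⟨m1, m2, m3, m4, m5, m6, m7, m8, m9, m10, k1.trans k1'.symm, k2.trans k2'.symm⟩, e3⟩
  set F : Eis × Eis × Eis × Eis → ℝ := fun x =>
    (nm x.2.1 : ℝ) ^ (-ex) * TT α e₀ c₀ x.2.2.1 (x.2.2.2 * x.2.1 ^ 3) with hF
  set B : Finset (Eis × Eis × Eis × Eis) := (Bs ×ˢ primBall ⌊L⌋₊ ×ˢ primBall ⌊E⌋₊ ×ˢ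
    primBall ⌊L⌋₊).filter (fun x => (nm x.2.2.2 : ℝ) ≤ L / nm x.2.1 ^ 3) with hB
  have hJe : ∀ y ∈ T', (mk y).J f * (mk y).c ^ 3 = y.1.J f * y.2 := by
    intro y hy
    obtain ⟨-, k1, k2, -⟩ := hT y.1 (mem_product.mp hy).1
    have e1 := (hz y.2 (hpr _ hy).1).2.2.1
    simp only [hmk, Tu.J]
    rw [k1]
    conv_rhs => rw [e1]
    ring
  have hJn : ∀ y ∈ T', (nm ((mk y).J f) : ℝ) * nm (mk y).c ^ 3 ≤ L := by
    intro y hy
    obtain ⟨-, -, -, -, -, k6⟩ := hT y.1 (mem_product.mp hy).1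
    have e1 := hJe y hy
    have e2 : (nm ((mk y).J f) : ℝ) * nm (mk y).c ^ 3 = nm (y.1.J f) * nm y.2 := by
      have := congrArg nm e1
      rw [nm_mul, nm_pow, nm_mul] at this
      exact_mod_cast this
    rw [e2]
    refine le_trans ?_ k6
    exact mul_le_mul_of_nonneg_left (hpr y hy).2 (Nat.cast_nonneg _)
  have hOK : ∀ y ∈ T', (mk y).OK f Y := by
    intro y hy
    obtain ⟨k, k1, k2, k3, k4, k5⟩ := hT y.1 (mem_product.mp hy).1
    obtain ⟨z1, z2, z3, z4⟩ := hz y.2 (hpr _ hy).1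
    have n1 : (1 : ℝ) ≤ nm (mk y).c ^ 3 := by
      have : (1 : ℝ) ≤ nm (mk y).c := by
        exact_mod_cast nm_pos.mpr z2.ne_zero
      exact one_le_pow₀ this
    exact {
      hq := k.hq, hqq := k.hqq, hS := k.hS, h1 := k.h1, h2 := k.h2, hν := k.hν, hs := k.hs,
      hR := k.hR, hτ := k.hτ, hτq := k.hτq, hτS := k.hτS, husτ := k.husτ, hg := k.hg, hh := k.hh,
      hδ := k.hδ, hj := z1, hP := k.hP
      hJY := by
        refine le_trans ?_ hLY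
        refine le_trans ?_ (hJn y hy)
        exact le_mul_of_one_le_right (Nat.cast_nonneg _) n1
      heY := k.heY
      hbY := k.hbY }
  have hBm : ∀ a ∈ T'.image mk, tgt f a ∈ B := by
    intro a ha
    obtain ⟨y, hy, rfl⟩ := mem_image.mp ha
    obtain ⟨k, k1, k2, k3, k4, k5⟩ := hT y.1 (mem_product.mp hy).1
    obtain ⟨z1, z2, z3, z4⟩ := hz y.2 (hpr _ hy).1
    have hc1 : (1 : ℝ) ≤ nm (mk y).c := by exact_mod_cast nm_pos.mpr z2.ne_zero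
    have hc3 : (nm (mk y).c : ℝ) ≤ nm (mk y).c ^ 3 := le_self_pow₀ hc1 (by norm_num)
    have hJ1 : (1 : ℝ) ≤ nm ((mk y).J f) := by
      exact_mod_cast nm_pos.mpr ((hOK y hy).Jprim hf).ne_zero
    have n3 := hJn y hy
    have n4 : (nm (mk y).c : ℝ) ≤ L := by
      refine hc3.trans (le_trans ?_ n3)
      exact le_mul_of_one_le_left (by positivity) hJ1
    have n5 : (nm ((mk y).J f) : ℝ) ≤ L := by
      refine le_trans ?_ n3
      exact le_mul_of_one_le_right (Nat.cast_nonneg _) (one_le_pow₀ hc1)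
    rw [hB, mem_filter]
    refine ⟨?_, ?_⟩
    · unfold tgt
      simp only [mem_product, mem_primBall]
      refine ⟨k3, ⟨Nat.le_floor n4, z2⟩, ⟨Nat.le_floor k4, ?_⟩, Nat.le_floor n5,
        (hOK y hy).Jprim hf⟩
      exact k.eprim hf
    · unfold tgt
      simp only
      rw [le_div_iff₀ (by positivity)]
      exact n3
  have h1 := h Y f (T'.image mk) B F hY hf (fun a ha => by
    obtain ⟨y, hy, rfl⟩ := mem_image.mp ha
    exact hOK y hy) hBm (fun x _ => mul_nonneg (by positivity) (TT_nonneg _ _ _ _ _))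
  rw [sum_image hinj] at h1
  have h2 : ∑ a ∈ T, TW ex X (cb f α e₀ c₀ a) ≤ ∑ y ∈ T', F (tgt f (mk y)) := by
    rw [hT', sum_product]
    refine sum_le_sum fun a ha => ?_
    unfold E3q681.TW
    refine sum_le_sum fun j hj => ?_
    obtain ⟨k, k1, k2, k3, k4, k5⟩ := hT a ha
    have hjp : IsPrim j := (mem_primBall.mp hj).2
    obtain ⟨z1, z2, z3, z4⟩ := hz j hjp
    have hmem : (a, j) ∈ T' := mem_product.mpr ⟨ha, hj⟩
    rw [z4]
    refine mul_le_mul_of_nonneg_left ?_ (by positivity)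
    unfold cb
    refine (CS_cell hα (k.eprim hf) (k.hh.mul k.hs.hu) hjp e₀ _).trans (le_of_eq ?_)
    unfold TT
    congr 2
    have e1 := hJe (a, j) hmem
    have e2 : (tgt f (mk (a, j))).2.2.2 * (tgt f (mk (a, j))).2.1 ^ 3 = a.J f * j := e1
    rw [e2]
    unfold Tu.J
    rw [k1]
    have e3 : (tgt f (mk (a, j))).2.2.1 = a.e f := rfl
    rw [e3]
    congr 1
    ring
  refine h2.trans (h1.trans (mul_le_mul_of_nonneg_left ?_ (by positivity)))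
  -- the sum over the target
  unfold TSS
  rw [hB, sum_filter, sum_product]
  calc _ = ∑ b ∈ Bs, ∑ x ∈ primBall ⌊L⌋₊ ×ˢ primBall ⌊E⌋₊ ×ˢ primBall ⌊L⌋₊,
        (if (nm x.2.2 : ℝ) ≤ L / nm x.1 ^ 3 then
          (nm x.1 : ℝ) ^ (-ex) * TT α e₀ c₀ x.2.1 (x.2.2 * x.1 ^ 3) else 0) := rfl
    _ = Bs.card * ∑ x ∈ primBall ⌊L⌋₊ ×ˢ primBall ⌊E⌋₊ ×ˢ primBall ⌊L⌋₊,
        (if (nm x.2.2 : ℝ) ≤ L / nm x.1 ^ 3 then
          (nm x.1 : ℝ) ^ (-ex) * TT α e₀ c₀ x.2.1 (x.2.2 * x.1 ^ 3) else 0) := by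
        rw [sum_const, nsmul_eq_mul]
    _ ≤ _ := by
        refine mul_le_mul_of_nonneg_left ?_ (Nat.cast_nonneg _)
        rw [sum_product]
        refine sum_le_sum fun c hc => ?_
        rw [sum_product, mul_sum]
        refine sum_le_sum fun e he => ?_
        rw [← sum_filter, mul_sum]
        refine sum_le_sum_of_subset_of_nonneg (fun J hJ => ?_) fun J _ _ =>
          mul_nonneg (by positivity) (TT_nonneg _ _ _ _ _)
        obtain ⟨h3, h4⟩ := mem_filter.mp hJ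
        exact mem_primBall.mpr ⟨Nat.le_floor h4, (mem_primBall.mp h3).2⟩

open Classical in
/-- **the sum of the moments of the cells**, the frequencies divisible by `A₀` -/
theorem tw_sumA {ε : ℝ} (hε : 0 < ε) : ∃ C : ℝ, 0 ≤ C ∧ ∀ (Y : ℝ) (f : Fr) (T : Finset Tu)
    (α : Eis → ℂ) (e₀ c₀ A₀ : Eis) (ex X E L : ℝ) (Bs : Finset Eis),
    1 ≤ Y → f.OK Y → FS α → IsPrim A₀ → 0 ≤ X → 0 ≤ E → 0 ≤ L → L ≤ Y →
    (∀ a ∈ T, a.OK f Y ∧ a.j = 1 ∧ a.c = 1 ∧ bpt (f.Sf a.q) a.ν ∈ Bs ∧ (nm (a.e f) : ℝ) ≤ E ∧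
      nm (a.J f) * X ≤ L ∧ A₀ ∣ a.J f) →
    ∑ a ∈ T, TW ex X (cb f α e₀ c₀ a) ≤
      C * Y ^ ε * (Bs.card * TSS α e₀ (c₀ * A₀) ex E (L / nm A₀)) := by
  obtain ⟨C, hC, h⟩ := tcount hε
  refine ⟨C, hC, ?_⟩
  intro Y f T α e₀ c₀ A₀ ex X E L Bs hY hf hα hA₀ hX hE hL hLY hT
  have hA0 : (0 : ℝ) < nm A₀ := by exact_mod_cast nm_pos.mpr hA₀.ne_zero
  have hdec : ∀ j : Eis, ∃ z : Eis × Eis, IsPrim j → IsPrim z.1 ∧ IsPrim z.2 ∧
      j = z.1 * z.2 ^ 3 ∧ (nm (kc j).2 : ℝ) = nm z.2 := by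
    intro j
    by_cases hj : IsPrim j
    · obtain ⟨z, hz⟩ := exists_dec hj
      exact ⟨z, fun _ => hz⟩
    · exact ⟨(1, 1), fun h' => absurd h' hj⟩
  choose z hz using hdec
  -- the tuples
  set P := primBall ⌊X⌋₊ with hP
  set mk : Tu × Eis → Tu := fun y => { y.1 with j := (z y.2).1, c := (z y.2).2 } with hmk
  set T' := T ×ˢ P with hT'
  have hpr : ∀ y ∈ T', IsPrim y.2 ∧ (nm y.2 : ℝ) ≤ X := by
    intro y hy
    obtain ⟨h1, h2⟩ := mem_primBall.mp (mem_product.mp hy).2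
    exact ⟨h2, (Nat.le_floor_iff hX).mp h1⟩
  have hinj : Set.InjOn mk (T' : Set (Tu × Eis)) := by
    intro y hy y' hy' he
    have hy := mem_coe.mp hy
    have hy' := mem_coe.mp hy'
    obtain ⟨-, k1, k2, -⟩ := hT y.1 (mem_product.mp hy).1
    obtain ⟨-, k1', k2', -⟩ := hT y'.1 (mem_product.mp hy').1
    obtain ⟨a, j⟩ := y
    obtain ⟨a', j'⟩ := y'
    cases a
    cases a'
    simp only [hmk, Tu.mk.injEq] at he
    simp only at k1 k2 k1' k2'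
    obtain ⟨m1, m2, m3, m4, m5, m6, m7, m8, m9, m10, m11, m12⟩ := he
    have e1 := (hz j (hpr _ hy).1).2.2.1
    have e2 := (hz j' (hpr _ hy').1).2.2.1
    have e3 : j = j' := by rw [e1, e2, m11, m12]
    simp only [Prod.mk.injEq, Tu.mk.injEq]
    exact ⟨⟨m1, m2, m3, m4, m5, m6, m7, m8, m9, m10, k1.trans k1'.symm, k2.trans k2'.symm⟩, e3⟩
  set F : Eis × Eis × Eis × Eis → ℝ := fun x =>
    (nm x.2.1 : ℝ) ^ (-ex) * TT α e₀ c₀ x.2.2.1 (x.2.2.2 * x.2.1 ^ 3) with hF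
  set B : Finset (Eis × Eis × Eis × Eis) := (Bs ×ˢ primBall ⌊L / nm A₀⌋₊ ×ˢ
    primBall ⌊E⌋₊ ×ˢ primBall ⌊L⌋₊).filter
      (fun x => (nm x.2.2.2 : ℝ) ≤ L / nm x.2.1 ^ 3 ∧ A₀ ∣ x.2.2.2) with hB
  have hJe : ∀ y ∈ T', (mk y).J f * (mk y).c ^ 3 = y.1.J f * y.2 := by
    intro y hy
    obtain ⟨-, k1, k2, -⟩ := hT y.1 (mem_product.mp hy).1
    have e1 := (hz y.2 (hpr _ hy).1).2.2.1
    simp only [hmk, Tu.J]
    rw [k1]
    conv_rhs => rw [e1]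
    ring
  have hJn : ∀ y ∈ T', (nm ((mk y).J f) : ℝ) * nm (mk y).c ^ 3 ≤ L := by
    intro y hy
    obtain ⟨-, -, -, -, -, k6, -⟩ := hT y.1 (mem_product.mp hy).1
    have e1 := hJe y hy
    have e2 : (nm ((mk y).J f) : ℝ) * nm (mk y).c ^ 3 = nm (y.1.J f) * nm y.2 := by
      have := congrArg nm e1
      rw [nm_mul, nm_pow, nm_mul] at this
      exact_mod_cast this
    rw [e2]
    refine le_trans ?_ k6
    exact mul_le_mul_of_nonneg_left (hpr y hy).2 (Nat.cast_nonneg _)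
  have hOK : ∀ y ∈ T', (mk y).OK f Y := by
    intro y hy
    obtain ⟨k, k1, k2, k3, k4, k5, k7⟩ := hT y.1 (mem_product.mp hy).1
    obtain ⟨z1, z2, z3, z4⟩ := hz y.2 (hpr _ hy).1
    have n1 : (1 : ℝ) ≤ nm (mk y).c ^ 3 := by
      have : (1 : ℝ) ≤ nm (mk y).c := by
        exact_mod_cast nm_pos.mpr z2.ne_zero
      exact one_le_pow₀ this
    exact {
      hq := k.hq, hqq := k.hqq, hS := k.hS, h1 := k.h1, h2 := k.h2, hν := k.hν, hs := k.hs,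
      hR := k.hR, hτ := k.hτ, hτq := k.hτq, hτS := k.hτS, husτ := k.husτ, hg := k.hg, hh := k.hh,
      hδ := k.hδ, hj := z1, hP := k.hP
      hJY := by
        refine le_trans ?_ hLY
        refine le_trans ?_ (hJn y hy)
        exact le_mul_of_one_le_right (Nat.cast_nonneg _) n1
      heY := k.heY
      hbY := k.hbY }
  have hBm : ∀ a ∈ T'.image mk, tgt f a ∈ B := by
    intro a ha
    obtain ⟨y, hy, rfl⟩ := mem_image.mp ha
    obtain ⟨k, k1, k2, k3, k4, k5, k7⟩ := hT y.1 (mem_product.mp hy).1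
    obtain ⟨z1, z2, z3, z4⟩ := hz y.2 (hpr _ hy).1
    have hc1 : (1 : ℝ) ≤ nm (mk y).c := by exact_mod_cast nm_pos.mpr z2.ne_zero
    have hc3 : (nm (mk y).c : ℝ) ≤ nm (mk y).c ^ 3 := le_self_pow₀ hc1 (by norm_num)
    have hJ1 : (1 : ℝ) ≤ nm ((mk y).J f) := by
      exact_mod_cast nm_pos.mpr ((hOK y hy).Jprim hf).ne_zero
    have n3 := hJn y hy
    have hJA : A₀ ∣ (mk y).J f := by
      have e1 : (mk y).J f = y.1.J f * (z y.2).1 := by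
        simp only [hmk, Tu.J]
        rw [k1]
        ring
      rw [e1]
      exact k7.mul_right _
    have hJA' : (nm A₀ : ℝ) ≤ nm ((mk y).J f) := by
      exact_mod_cast Crest.Agent.R012.Div277.nm_le_of_dvd ((hOK y hy).Jprim hf).ne_zero hJA
    have n4 : (nm (mk y).c : ℝ) ≤ L / nm A₀ := by
      rw [le_div_iff₀ hA0]
      calc (nm (mk y).c : ℝ) * nm A₀ ≤ nm (mk y).c ^ 3 * nm ((mk y).J f) := by gcongr
        _ = nm ((mk y).J f) * nm (mk y).c ^ 3 := by ring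
        _ ≤ L := n3
    have n5 : (nm ((mk y).J f) : ℝ) ≤ L := by
      refine le_trans ?_ n3
      exact le_mul_of_one_le_right (Nat.cast_nonneg _) (one_le_pow₀ hc1)
    rw [hB, mem_filter]
    refine ⟨?_, ?_⟩
    · unfold tgt
      simp only [mem_product, mem_primBall]
      refine ⟨k3, ⟨Nat.le_floor n4, z2⟩, ⟨Nat.le_floor k4, ?_⟩, Nat.le_floor n5,
        (hOK y hy).Jprim hf⟩
      exact k.eprim hf
    · unfold tgt
      simp only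
      rw [le_div_iff₀ (by positivity)]
      exact ⟨n3, hJA⟩
  have h1 := h Y f (T'.image mk) B F hY hf (fun a ha => by
    obtain ⟨y, hy, rfl⟩ := mem_image.mp ha
    exact hOK y hy) hBm (fun x _ => mul_nonneg (by positivity) (TT_nonneg _ _ _ _ _))
  rw [sum_image hinj] at h1
  have h2 : ∑ a ∈ T, TW ex X (cb f α e₀ c₀ a) ≤ ∑ y ∈ T', F (tgt f (mk y)) := by
    rw [hT', sum_product]
    refine sum_le_sum fun a ha => ?_
    unfold E3q681.TW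
    refine sum_le_sum fun j hj => ?_
    obtain ⟨k, k1, k2, k3, k4, k5, k7⟩ := hT a ha
    have hjp : IsPrim j := (mem_primBall.mp hj).2
    obtain ⟨z1, z2, z3, z4⟩ := hz j hjp
    have hmem : (a, j) ∈ T' := mem_product.mpr ⟨ha, hj⟩
    rw [z4]
    refine mul_le_mul_of_nonneg_left ?_ (by positivity)
    unfold cb
    refine (CS_cell hα (k.eprim hf) (k.hh.mul k.hs.hu) hjp e₀ _).trans (le_of_eq ?_)
    unfold TT
    congr 2
    have e1 := hJe (a, j) hmem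
    have e2 : (tgt f (mk (a, j))).2.2.2 * (tgt f (mk (a, j))).2.1 ^ 3 = a.J f * j := e1
    rw [e2]
    unfold Tu.J
    rw [k1]
    have e3 : (tgt f (mk (a, j))).2.2.1 = a.e f := rfl
    rw [e3]
    congr 1
    ring
  refine h2.trans (h1.trans (mul_le_mul_of_nonneg_left ?_ (by positivity)))
  -- the sum over the target
  unfold TSS
  rw [hB, sum_filter, sum_product]
  calc _ = ∑ b ∈ Bs, ∑ x ∈ primBall ⌊L / nm A₀⌋₊ ×ˢ primBall ⌊E⌋₊ ×ˢ primBall ⌊L⌋₊,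
        (if (nm x.2.2 : ℝ) ≤ L / nm x.1 ^ 3 ∧ A₀ ∣ x.2.2 then
          (nm x.1 : ℝ) ^ (-ex) * TT α e₀ c₀ x.2.1 (x.2.2 * x.1 ^ 3) else 0) := rfl
    _ = Bs.card * ∑ x ∈ primBall ⌊L / nm A₀⌋₊ ×ˢ primBall ⌊E⌋₊ ×ˢ primBall ⌊L⌋₊,
        (if (nm x.2.2 : ℝ) ≤ L / nm x.1 ^ 3 ∧ A₀ ∣ x.2.2 then
          (nm x.1 : ℝ) ^ (-ex) * TT α e₀ c₀ x.2.1 (x.2.2 * x.1 ^ 3) else 0) := by
        rw [sum_const, nsmul_eq_mul]
    _ ≤ _ := by
        refine mul_le_mul_of_nonneg_left ?_ (Nat.cast_nonneg _)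
        rw [sum_product]
        refine sum_le_sum fun c hc => ?_
        rw [sum_product, mul_sum]
        refine sum_le_sum fun e he => ?_
        rw [← sum_filter, mul_sum]
        have hinj2 : Set.InjOn (fun J : Eis => A₀ * J)
            ((primBall ⌊L / nm A₀ / nm c ^ 3⌋₊ : Finset Eis) : Set Eis) :=
          fun y _ y' _ h => mul_left_cancel₀ hA₀.ne_zero h
        have hc0 : (0 : ℝ) < nm c := by
          exact_mod_cast nm_pos.mpr (mem_primBall.mp hc).2.ne_zero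
        have hsub : (primBall ⌊L⌋₊).filter (fun J => (nm J : ℝ) ≤ L / nm c ^ 3 ∧ A₀ ∣ J) ⊆
            (primBall ⌊L / nm A₀ / nm c ^ 3⌋₊).image (fun J => A₀ * J) := by
          intro J hJ
          obtain ⟨h3, h4, J', rfl⟩ := mem_filter.mp hJ
          have hJp : IsPrim J' := (mem_primBall.mp h3).2.of_mul_left hA₀
          refine mem_image.mpr ⟨J', mem_primBall.mpr ⟨Nat.le_floor ?_, hJp⟩, rfl⟩
          rw [nm_mul] at h4
          push_cast at h4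
          rw [le_div_iff₀ (by positivity)] at h4
          rw [div_div, le_div_iff₀ (by positivity)]
          linarith
        refine (sum_le_sum_of_subset_of_nonneg hsub fun J _ _ =>
          mul_nonneg (by positivity) (TT_nonneg _ _ _ _ _)).trans ?_
        rw [sum_image hinj2]
        refine sum_le_sum fun J hJ => le_of_eq ?_
        congr 1
        unfold TT
        have e1 : c₀ * (A₀ * J * c ^ 3) = c₀ * A₀ * (J * c ^ 3) := by ring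
        rw [e1]

end Crest.Agent.R017.E4zz92
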