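import Crest.Agent.R017.E3q13_681
import Crest.Agent.R017.E4zz_92

/-!
# Row 17, block C70, leaf E4 (x-side), one cell from MODE*, inner dilation `κ₁` (helper681)

* `RXk` : the hypothesis on the structured part, all the dilations `κ F = κ₁ y`
* `dil_dec` : the part of the dilation in the kernel of the frequency
* `mode_ballk` : the modes of one cell
-/

set_option autoImplicit false
set_option linter.unusedVariables false
set_option maxHeartbeats 400000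

noncomputable section

open Complex MeasureTheory
open scoped ComplexConjugate Classical ContDiff

namespace Crest.Agent.R017.E3q681

open Crest.Agent.R012 Crest.Agent.R012.Eis Crest.Agent.R012.MC
open Crest.Agent.R012.LS2 (S mem_S bl mem_bl)
open Crest.Agent.R012.Div277 (dvs mem_dvs isPrim_of_mem_dvs dvd_of_mem_dvs tau tau_le_rpow)
open Crest.Agent.R012.Mob705 (mu pdiv mem_pdiv)
open Crest.Agent.R012.NonCube52 (Ker kv Good kc kc_spec kc_nm kv_ne_zero one_le_nmkv)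
open Crest.Agent.R017.CM106 (CS TG FS)
open Crest.Agent.R017.E1551 (nmpos jb jb_pos nm_ge_one summable_wF)
open Crest.Agent.R017.BD829
open Crest.Agent.R017.E3P842
open Crest.Agent.R017.E3D579
open Crest.Agent.R017.E3Sd579
open Crest.Agent.R017.Mode405
open Crest.Agent.R017.Mps347 (PoHWp modeEp)
open Crest.Agent.R017.E3Sm290 (EQ_dil sum_split)
open Crest.Agent.R017.E4579 (bpt bco bpt_mul_bco bpt_prim bco_prim bpt_sup bco_cop)
open Gauss880 (syG)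

/-- the hypothesis on the structured part: all the dilations of `b₀` by `κ₁ y`, tests with a twist -/
def RXk (κ₁ : Eis) (OK : ℝ → ℝ → Eis → Set Tst → Prop) (ψ : Eis → ℂ) (aS A : ℕ)
    (c Z Nb₀ ν : ℝ) (R ρ : Eis) (b₀ : Eis → ℂ) (W1 : ℝ) : Prop :=
  ∀ κ F y : Eis, IsPrim κ → IsPrim F → Squarefree (κ * F) → κ * F = κ₁ * y → IsCoprime y R →
    (nm κ : ℝ) ≤ Z ^ 3 → (nm F : ℝ) ≤ Z ^ 5 → ∀ Z' Lt Y : ℝ, Z ≤ Z' → Nb₀ * nm κ ≤ Z' →
      (nm κ : ℝ) ≤ Z' → 1 ≤ Lt → 1 ≤ Y → Nb₀ * nm κ * Lt / Y * (nm F : ℝ) ^ 2 ≤ ν →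
      ∃ (𝒯 : Set Tst) (W : ℝ → ℝ), OK Z' (Nb₀ * nm κ) κ 𝒯 ∧ Slp aS W ∧
        (∀ τ ∈ 𝒯, ∀ P : ℝ, 0 < P → ∑ e ∈ pdiv (ρ * (κ * F)),
          (nm e : ℝ)⁻¹ * TV τ A (fun m => bs (bF κ F b₀) e m * ψ m) (nm e * P) ≤ W P) ∧
        W (c * (Nb₀ * nm κ * Lt / Y)) ≤ W1

lemma RXk.mono {κ₁ : Eis} {OK : ℝ → ℝ → Eis → Set Tst → Prop} {ψ : Eis → ℂ} {aS A : ℕ}
    {c Z Nb₀ ν ν' : ℝ} {R ρ : Eis} {b₀ : Eis → ℂ} {W1 : ℝ}
    (h : RXk κ₁ OK ψ aS A c Z Nb₀ ν' R ρ b₀ W1) (hν : ν ≤ ν') :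
    RXk κ₁ OK ψ aS A c Z Nb₀ ν R ρ b₀ W1 := by
  intro κ F y h1 h2 h3 h4 h5 k1 k2 Z' Lt Y g1 g2 g3 g4 g5 g6
  exact h κ F y h1 h2 h3 h4 h5 k1 k2 Z' Lt Y g1 g2 g3 g4 g5 (g6.trans hν)

/-- the support condition for all the dilations -/
def GXk (κ₁ : Eis) (G : Eis → Prop) (R : Eis) (b₀ : Eis → ℂ) : Prop :=
  ∀ κ F y : Eis, IsPrim κ → IsPrim F → Squarefree (κ * F) → κ * F = κ₁ * y → IsCoprime y R →
    ∀ n, bF κ F b₀ n ≠ 0 → G n

lemma GXk_true (κ₁ R : Eis) (b₀ : Eis → ℂ) : GXk κ₁ (fun _ => True) R b₀ :=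
  fun _ _ _ _ _ _ _ _ _ _ => trivial

/-! ### the dilation -/

lemma nk_mul_cube {x n : Eis} (hx : x ≠ 0) (hn : n ≠ 0) : nk (x * n ^ 3) = nk x := by
  unfold nk
  rw [LSq50.kc_of_eq hx hn rfl]

/-- **the part of the dilation in the kernel of the frequency** -/
lemma dil_dec {κ₁ X : Eis} (hκ : IsPrim κ₁) (hs : Squarefree κ₁) (hX : X ≠ 0) :
    ∃ k1 k2 V₁ n : Eis, IsPrim k1 ∧ IsPrim k2 ∧ κ₁ = k1 * k2 ∧ V₁ ≠ 0 ∧ n ≠ 0 ∧
      X = k2 * (V₁ * n ^ 3) ∧ IsCoprime V₁ k1 ∧ (nm V₁ : ℝ) * nm k2 = nk X := by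
  obtain ⟨g, hn, hXe, -⟩ := kc_spec hX
  set K := (kc X).1 with hK
  set n := (kc X).2 with hnd
  set S₁ := K.2.1 * K.2.2 with hS₁
  have hS : IsPrim S₁ := g.prim1.mul g.prim2
  have h1 := bpt_mul_bco hS hκ
  set k2 := bpt S₁ κ₁ with hk2
  set k1 := bco S₁ κ₁ with hk1
  have p1 : IsPrim k1 := bco_prim hS hκ
  have p2 : IsPrim k2 := bpt_prim hS hκ
  have hk2s : Squarefree k2 := hs.squarefree_of_dvd ⟨k1, h1.symm⟩
  have hd : k2 ∣ S₁ := E4zz92.dvd_of_primes hk2s (bpt_sup hS hκ)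
  have hSV : S₁ ∣ kv K := by
    refine ⟨w ^ K.1.1 * lam ^ K.1.2 * K.2.2, ?_⟩
    unfold kv
    rw [hS₁]; ring
  obtain ⟨V₁, hV₁⟩ := hd.trans hSV
  have hV0 : V₁ ≠ 0 := by
    intro h0
    rw [h0, mul_zero] at hV₁
    exact kv_ne_zero g hV₁
  refine ⟨k1, k2, V₁, n, p1, p2, by rw [← h1, mul_comm], hV0, hn, ?_, ?_, ?_⟩
  · rw [hXe, hV₁]; ring
  · have c0 : IsCoprime S₁ k1 := (bco_cop hS hκ).symm
    have cK : IsCoprime (kv K) k1 := by
      unfold kv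
      have cw : IsCoprime (w ^ K.1.1 : Eis) k1 := by
        have hu : IsUnit (w ^ K.1.1 : Eis) := isUnit_w.pow _
        exact (isCoprime_one_left (x := k1)).of_isCoprime_of_dvd_left hu.dvd
      have cl : IsCoprime (lam ^ K.1.2 : Eis) k1 := p1.isCoprime_lam.symm.pow_left
      exact ((cw.mul_left cl).mul_left c0.of_mul_left_left).mul_left c0.of_mul_left_right.pow_left
    exact cK.of_isCoprime_of_dvd_left ⟨k2, by rw [hV₁]; ring⟩
  · unfold nk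
    rw [← hK, hV₁, nm_mul]
    push_cast; ring

/-- the moments of the dilated sequence -/
lemma DT_lek {κ F x κ₁ : Eis} (hκ : IsPrim κ) (hF : IsPrim F) (hκ₁ : IsPrim κ₁) (hxp : IsPrim x)
    (hxκ : IsCoprime x κ₁) {b : Eis → ℂ} (hb : FS b) (ρ : Eis) (hx : κ * F = κ₁ * x) (e X : ℝ) :
    DT e (X / nm x) (bF κ F b) (ρ * (κ * F)) ≤ TC e X (bF κ₁ 1 b) x := by
  unfold DT TC
  have key : ∀ n ∈ (primBall ⌊X / nm x⌋₊).filter (fun n => IsCoprime n (ρ * (κ * F))),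
      (nm (kc n).2 : ℝ) ^ (-e) * ‖CS (bF κ F b) n‖ ^ 2 ≤
        (nm (kc n).2 : ℝ) ^ (-e) * ‖CS (bF κ₁ 1 b) (x * n)‖ ^ 2 := by
    intro n hn
    rw [Finset.mem_filter] at hn
    refine mul_le_mul_of_nonneg_left (pow_le_pow_left₀ (norm_nonneg _) ?_ 2) (by positivity)
    have c1 : IsCoprime n (κ₁ * x) := by rw [← hx]; exact hn.2.of_mul_right_right
    have c2 : IsCoprime (x * n) κ₁ := hxκ.mul_left c1.of_mul_right_left
    have e1 : CS (bF κ₁ 1 b) (x * n) = sy (x * n) κ₁ * CS b (1 * (κ₁ * (x * n))) := CS_bF hκ₁ hb _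
    have e2 : F * (κ * n) = 1 * (κ₁ * (x * n)) := by
      calc F * (κ * n) = (κ * F) * n := by ring
        _ = _ := by rw [hx]; ring
    rw [e1, norm_mul, PX764.norm_sy_one hκ₁ c2, one_mul, ← e2]
    exact norm_CS_bF_le hκ hb n
  refine (Finset.sum_le_sum key).trans ?_
  refine Finset.sum_le_sum_of_subset_of_nonneg (fun n hn => ?_) fun _ _ _ => by positivity
  rw [Finset.mem_filter] at hn ⊢
  refine ⟨hn.1, ?_⟩
  have c1 : IsCoprime n (κ₁ * x) := by rw [← hx]; exact hn.2.of_mul_right_right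
  exact c1.of_mul_right_right

lemma pS_smul (χ : Eis → ℂ) (om : ℝ → ℂ) (r : Eis) (c : ℂ) (b : Eis → ℂ) :
    pS χ om r (fun m => c * b m) = fun n => c * pS χ om r b n := by
  funext n
  unfold pS uS
  rw [E4z92.CS_smul]
  split_ifs
  · ring
  · ring

/-- the inner dilation goes out -/
lemma EQ_inner (A : ℝ) (χ : Eis → ℂ) (om : ℝ → ℂ) (r : Eis) {κ F κ₁ : Eis} (hκ : IsPrim κ)
    (hκ₁ : IsPrim κ₁) {b : Eis → ℂ} (hb : FS b) (y : Eis) :
    EQ A (pS χ om r (bF κ F (bF κ₁ 1 b))) y ≤ EQ A (pS χ om r (bF (κ * κ₁) F b)) y := by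
  rw [bF_bF hκ hκ₁ hb, mul_one, pS_smul, EQ_smul]
  have h1 : ‖sy F κ₁ * sy κ κ₁‖ ≤ 1 := by
    rw [norm_mul]
    exact mul_le_one₀ (Gauss880.norm_sy_le syG hκ₁) (norm_nonneg _) (Gauss880.norm_sy_le syG hκ₁)
  have h2 : ‖sy F κ₁ * sy κ κ₁‖ ^ 2 ≤ 1 := pow_le_one₀ (norm_nonneg _) h1
  exact mul_le_of_le_one_left (EQ_nonneg _ _ _) h2

set_option maxHeartbeats 16000000 in
/-- **the modes of one cell**, `N / nm (a D F) ≥ 1` -/
theorem mode_ballk {OK : ℝ → ℝ → Eis → Set Tst → Prop} (hOK : OKW OK) {G : Eis → Prop}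
    {ψ χ : Eis → ℂ} (hχ : Mul1 χ) {w1 : ℝ → ℝ} (hw1W : Wgt w1)
    (hP : PoHWp OK nfo G ψ χ (w6 w1)) {Rw : ℝ}
    (hRw : 0 ≤ Rw) (aS A : ℕ) (hA : 1 < A) {ε : ℝ} (hε : 0 < ε) :
    ∃ (C c cw : ℝ) (A₀ : ℕ), 0 ≤ C ∧ 1 ≤ c ∧ 1 ≤ cw ∧ ∀ A' : ℝ, (A₀ : ℝ) ≤ A' →
    ∀ (Z : ℝ) (b : Eis → ℂ) (Nb₀ : ℝ) (κ₁ Q R ρ mm : Eis) (N Lst q0 W1 : ℝ),
      1 ≤ Z → FS b → (∀ n, b n ≠ 0 → n ∈ S Z) → 0 < Nb₀ → Nb₀ ≤ Z → Win b (Real.log Nb₀) Rw →
      IsPrim κ₁ → Squarefree κ₁ → (nm κ₁ : ℝ) ≤ Z →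
      Q ≠ 0 → R ≠ 0 → ρ * κ₁ ∣ R → IsPrim mm → mm ∣ R → (nm Q : ℝ) ≤ Z → (nm R : ℝ) ≤ Z →
      (nm mm : ℝ) ≤ Z → 0 < N → N ≤ Z → 0 < Lst → Lst ≤ Z → nk (Q ^ 2) ≤ q0 → q0 ≤ Z ^ 2 → 0 ≤ W1 →
      (1 ≤ Lst → Lst * Real.exp Rw < Nb₀ * nm κ₁) →
      (1 ≤ Lst → RXk κ₁ OK ψ aS A c Z Nb₀ (Nb₀ * nm κ₁ / N * Lst) R ρ b W1) →
      GXk κ₁ G R b →
    ∀ s b' a D E F : Eis, IsPrim s → s ∣ mm → IsPrim b' → b' ∣ mm → IsPrim a → IsPrim D →
      E ∈ pdiv D → IsPrim F → (nm a : ℝ) ≤ Z → (nm D : ℝ) ≤ Z → (nm F : ℝ) ≤ Z →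
      Squarefree (a * D * F) → IsCoprime (a * D * F) R → IsCoprime (a * D * F) (Q * s) →
      1 ≤ N / nm (a * D * F) → ∀ L : ℝ, 1 ≤ L →
      ∑ w ∈ bl L, EQ A' (pS χ (fun x => ((w1 (x / (N / nm (a * D * F))) : ℝ) : ℂ))
          (R * a * (a * D * F)) (bF (a * D) F (bF κ₁ 1 b)))
          (w * ((E * (3 * sq3) * (Q * s)) ^ 2 * b')) ≤
        C * Z ^ ε * L ^ ε * ((N / nm (a * D * F)) ^ (-(1 : ℝ) / 3) *
          CBx L (L * (27 * (nm E : ℝ) ^ 2 * (nm s : ℝ) ^ 2 * nm b') * q0 /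
              (Lst / ((nm a * nm D : ℝ) ^ 2 * (nm F : ℝ) ^ 3))) (N / nm (a * D * F))
            (Lst / ((nm a * nm D : ℝ) ^ 2 * (nm F : ℝ) ^ 3))
            (TC 1 (cw * N) (bF κ₁ 1 b) (a * D * F))
            (TC (1 / 2) (cw * N) (bF κ₁ 1 b) (a * D * F))
            ((1 + Real.sqrt (Lst * N / (Nb₀ * nm κ₁)) / ((nm a * nm D : ℝ) ^ 2 * (nm F : ℝ) ^ 2)) * W1)) := by
  obtain ⟨C₁, c, cw, A₀, hC₁, hc, hcw, key⟩ := modeEp hOK nfok_nfo hχ hw1W hP hRw aS A hA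
    (ε := ε / 20) (by positivity)
  obtain ⟨Ct, hCt, hτ⟩ := tau_le_rpow (ε := ε / 6) (by positivity)
  refine ⟨Ct * (C₁ * 729 ^ (ε / 20)), c, cw, A₀, by positivity, hc, hcw, ?_⟩
  intro A' hA' Z b Nb₀ κ₁ Q R ρ mm N Lst q0 W1 hZ hb hbS hNb₀ hNb₀Z hbW hκ₁ hκ₁s hκ₁Z hQ hR hρ hmm hmmR hQZ hRZ hmmZ hN
    hNZ hLst hLstZ hq0 hq0Z hW1 hLN hRX hGX s b' a D E F hs hsm hb' hbm ha hD hE hF haZ hDZ hFZ hsq hcR
    hcQ hY L hL
  have hZ0 : 0 < Z := by linarith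
  have hL0 : 0 < L := by linarith
  obtain ⟨hEp, hED⟩ := (mem_pdiv hD.ne_zero).mp hE
  obtain ⟨D1, hD1⟩ := hED
  have hD1p : IsPrim D1 := by rw [hD1] at hD; exact hD.of_mul_left hEp
  set κ := a * D1 with hκd
  have hκ : IsPrim κ := ha.mul hD1p
  have hκE : κ * E = a * D := by rw [hκd, hD1]; ring
  set x0 := a * D * F with hx0
  have hx0p : IsPrim x0 := (ha.mul hD).mul hF
  have nx0 := nmpos hx0p.ne_zero
  have nκ₁ := nm_ge_one hκ₁.ne_zero
  have nκ₁0 := nmpos hκ₁.ne_zero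
  set Nb : ℝ := Nb₀ * nm κ₁ with hNbd
  have hNb : 0 < Nb := by positivity
  have hκ₁R : κ₁ ∣ R := (dvd_mul_left κ₁ ρ).trans hρ
  have cxκ : IsCoprime x0 κ₁ := IsCoprime.of_isCoprime_of_dvd_right hcR hκ₁R
  set r := R * a * x0 with hr
  set X := (3 * sq3 * (Q * s)) ^ 2 * b' with hX
  set Yc : ℝ := N / nm x0 with hYc
  have na := nm_ge_one ha.ne_zero
  have nD := nm_ge_one hD.ne_zero
  have nF := nm_ge_one hF.ne_zero
  have nE := nm_ge_one hEp.ne_zero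
  have nb := nm_ge_one hb'.ne_zero
  have ns := nm_ge_one hs.ne_zero
  have nQ := nm_ge_one hQ
  have nR := nm_ge_one hR
  have nx01 := nm_ge_one hx0p.ne_zero
  have hEZ : (nm E : ℝ) ≤ Z := by
    refine le_trans ?_ hDZ
    exact_mod_cast Div277.nm_le_of_dvd hD.ne_zero ⟨D1, hD1⟩
  have hsZ : (nm s : ℝ) ≤ Z := by
    refine le_trans ?_ hmmZ
    exact_mod_cast Div277.nm_le_of_dvd hmm.ne_zero hsm
  have hbZ : (nm b' : ℝ) ≤ Z := by
    refine le_trans ?_ hmmZ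
    exact_mod_cast Div277.nm_le_of_dvd hmm.ne_zero hbm
  set Lt₀ : ℝ := Lst / ((nm a * nm D : ℝ) ^ 2 * (nm F : ℝ) ^ 3) with hLt0
  have hden : 1 ≤ (nm a * nm D : ℝ) ^ 2 * (nm F : ℝ) ^ 3 :=
    one_le_mul_of_one_le_of_one_le (one_le_pow₀ (one_le_mul_of_one_le_of_one_le na nD))
      (one_le_pow₀ nF)
  have hLt0p : 0 < Lt₀ := by positivity
  have hLt0L : Lt₀ ≤ Lst := div_le_self hLst.le hden
  have hq00 : 0 ≤ q0 := (Nat.cast_nonneg _).trans hq0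
  set ϱ : ℝ := L * (27 * (nm E : ℝ) ^ 2 * (nm s : ℝ) ^ 2 * nm b') * q0 / Lt₀ with hϱ
  have hϱ0 : 0 ≤ ϱ := by positivity
  set T1 := TC 1 (cw * N) (bF κ₁ 1 b) x0 with hT1
  set T2 := TC (1 / 2) (cw * N) (bF κ₁ 1 b) x0 with hT2
  have hT10 : 0 ≤ T1 := TC_nonneg _ _ _ _
  have hT20 : 0 ≤ T2 := TC_nonneg _ _ _ _
  set W := (1 + Real.sqrt (Lst * N / Nb) / ((nm a * nm D : ℝ) ^ 2 * (nm F : ℝ) ^ 2)) * W1 with hW
  have hW0 : 0 ≤ W := by positivity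
  have hYc0 : 0 < Yc := by linarith
  have hCB0 : 0 ≤ CBx L ϱ Yc Lt₀ T1 T2 W := CBx_nonneg hL0.le hϱ0 hYc0.le hLt0p.le hT10 hT20 hW0
  set om : ℝ → ℂ := fun x => ((w1 (x / Yc) : ℝ) : ℂ) with hom
  have h30 : (3 * sq3 : Eis) ≠ 0 := by
    intro h
    have h5 := three_sq3
    rw [h] at h5
    have h6 := congrArg nm h5
    revert h6
    decide
  have hXne : X ≠ 0 := by
    rw [hX]
    exact mul_ne_zero (pow_ne_zero _ (mul_ne_zero h30 (mul_ne_zero hQ hs.ne_zero))) hb'.ne_zero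
  obtain ⟨k1, k2, V₁, n₁, pk1, pk2, hk12, hV₁0, hn₁0, hXdec, cV₁, hnkX⟩ := dil_dec hκ₁ hκ₁s hXne
  have nk2 := nm_ge_one pk2.ne_zero
  have nk1 := nm_ge_one pk1.ne_zero
  have nk20 := nmpos pk2.ne_zero
  set κt := κ * k1 with hκt
  have hκtp : IsPrim κt := hκ.mul pk1
  set f : Eis → ℝ := fun x => EQ A' (pS χ om r (bF (κt * (E * k2)) F b)) (x * (E ^ 2 * X)) with hf
  have h1 : ∑ w ∈ bl L, EQ A' (pS χ om r (bF (a * D) F (bF κ₁ 1 b)))
      (w * ((E * (3 * sq3) * (Q * s)) ^ 2 * b')) ≤ ∑ x ∈ bl L, f x := by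
    refine Finset.sum_le_sum fun x _ => ?_
    have e1 : x * ((E * (3 * sq3) * (Q * s)) ^ 2 * b') = x * (E ^ 2 * X) := by rw [hX]; ring
    rw [e1]
    refine (EQ_inner A' χ om r (ha.mul hD) hκ₁ hb _).trans (le_of_eq ?_)
    have e2 : a * D * κ₁ = κt * (E * k2) := by rw [← hκE, hk12, hκt]; ring
    rw [e2]
  refine h1.trans ?_
  have h2 := sum_split hκtp (f := f) (fun x => EQ_nonneg _ _ _) hL0.le
  refine h2.trans ?_
  -- one divisor
  have hu : ∀ u ∈ pdiv κt, ∑ x ∈ (bl (L / nm u)).filter (fun x => IsCoprime x (κt / u)), f (u * x) ≤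
      C₁ * (729 ^ (ε / 20) * Z ^ (ε / 2) * L ^ ε) * Yc ^ (-(1 : ℝ) / 3) * CBx L ϱ Yc Lt₀ T1 T2 W := by
    intro u hu
    obtain ⟨hup, huκ⟩ := (mem_pdiv hκtp.ne_zero).mp hu
    have nu := nm_ge_one hup.ne_zero
    have nu0 := nmpos hup.ne_zero
    set κu := κt / u with hκu
    have e1 : κt = κu * u := by
      rw [mul_comm]; exact (EuclideanDomain.mul_div_cancel' hup.ne_zero huκ).symm
    have hκup : IsPrim κu := by
      refine IsPrim.of_mul_left (x := u) ?_ hup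
      rw [mul_comm, ← e1]; exact hκtp
    have nκu := nm_ge_one hκup.ne_zero
    set U := u * k2 with hUd
    have hUp : IsPrim U := hup.mul pk2
    have nU := nm_ge_one hUp.ne_zero
    have nU0 := nmpos hUp.ne_zero
    have nUe : (nm U : ℝ) = nm u * nm k2 := by rw [hUd, nm_mul]; push_cast; ring
    set F' := F * (E * U) with hF'
    have hF'p : IsPrim F' := hF.mul (hEp.mul hUp)
    have nF' := nm_ge_one hF'p.ne_zero
    have e2 : κt * (E * k2) = κu * (E * U) := by rw [e1, hUd]; ring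
    have e2' : a * D * κ₁ = κu * (E * U) := by rw [← e2, ← hκE, hk12, hκt]; ring
    have e3 : κu * F' = κ₁ * x0 := by
      have h9 : κ₁ * x0 = (a * D * κ₁) * F := by rw [hx0]; ring
      rw [h9, e2', hF']; ring
    have hsq' : Squarefree (κu * F') := by
      rw [e3]; exact squarefree_mul_iff.mpr ⟨cxκ.symm.isRelPrime, hκ₁s, hsq⟩
    have hr' : E * U ∣ r := by
      have h9 : E * U ∣ κ₁ * x0 := by rw [← e3, hF']; exact ⟨κu * F, by ring⟩
      refine h9.trans ?_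
      rw [hr]
      obtain ⟨R', hR'⟩ := hκ₁R
      exact ⟨R' * a, by rw [hR']; ring⟩
    set X₁ := V₁ * n₁ ^ 3 with hX₁
    have hfe : ∀ x : Eis, f (u * x) = EQ A' (pS χ om r (bF κu F' b)) (x * (E * X₁)) := by
      intro x
      rw [hf]
      beta_reduce
      rw [e2]
      have e9 : u * x * (E ^ 2 * X) = (U * x) * (E ^ 2 * X₁) := by
        rw [hXdec, hUd]; ring
      rw [e9]
      exact EQ_dil A' χ om hκup hEp hUp hr' hb x X₁
    simp only [hfe]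
    by_cases hLu : 1 ≤ L / nm u
    swap
    · have h0 : bl (L / nm u) = ∅ := by
        refine Finset.eq_empty_of_forall_notMem fun x hx => ?_
        rw [mem_bl (by positivity)] at hx
        have := nm_ge_one hx.1
        linarith [hx.2]
      rw [h0, Finset.filter_empty, Finset.sum_empty]
      positivity
    -- coprimality
    have hcs := squarefree_mul_iff.mp hsq'
    have c1 : IsCoprime κu F' := isRelPrime_iff_isCoprime.mp hcs.1
    have cE : IsCoprime E κu := (c1.of_mul_right_right.of_mul_right_left).symm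
    have cκ : ∀ {y : Eis}, IsCoprime x0 y → IsCoprime y κ := fun {y} h =>
      ((IsCoprime.of_isCoprime_of_dvd_left h (⟨E * F, by rw [hx0, ← hκE]; ring⟩ : κ ∣ x0))).symm
    have cQs : IsCoprime (Q * s) κ := cκ hcQ
    have cb : IsCoprime b' κ := by
      refine cκ (IsCoprime.of_isCoprime_of_dvd_right hcR (hbm.trans hmmR))
    have c3 : IsCoprime (3 * sq3 : Eis) κ := by
      have h3 := isCoprime_sq3 hκ
      have h4 : (3 : Eis) = -(sq3 ^ 2) := by rw [sq3_sq]; ring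
      rw [h4]
      exact (h3.pow_left.neg_left).mul_left h3
    have cX : IsCoprime X κ := by
      rw [hX]
      exact ((c3.mul_left cQs).pow_left).mul_left cb
    have cV : IsCoprime V₁ κu := by
      have h9 : IsCoprime V₁ κt :=
        (cX.of_isCoprime_of_dvd_left ⟨k2 * n₁ ^ 3, by rw [hXdec]; ring⟩).mul_right cV₁
      exact h9.of_isCoprime_of_dvd_right ⟨u, e1⟩
    have hX₁0 : X₁ ≠ 0 := mul_ne_zero hV₁0 (pow_ne_zero _ hn₁0)
    have hX0 : E * X₁ ≠ 0 := mul_ne_zero hEp.ne_zero hX₁0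
    -- the sizes
    set Z' : ℝ := 729 * Z ^ 10 * L with hZ'
    have hZp : ∀ k : ℕ, k ≤ 10 → Z ^ k ≤ Z ^ 10 := fun k hk => pow_le_pow_right₀ hZ hk
    have hZ'k : ∀ k : ℕ, k ≤ 10 → Z ^ k ≤ Z' := by
      intro k hk
      have h3 := hZp k hk
      have h4 : 0 ≤ Z ^ 10 := by positivity
      rw [hZ']; nlinarith
    have hZ'1 : 1 ≤ Z' := by simpa using hZ'k 0 (by norm_num)
    have hZZ' : Z ≤ Z' := by simpa using hZ'k 1 (by norm_num)
    have hadk : (nm (a * D * κ₁) : ℝ) ≤ Z ^ 3 := by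
      rw [nm_mul, nm_mul]; push_cast
      calc (nm a : ℝ) * nm D * nm κ₁ ≤ Z * Z * Z := by gcongr
        _ = Z ^ 3 := by ring
    have hadk0 : a * D * κ₁ ≠ 0 := mul_ne_zero (mul_ne_zero ha.ne_zero hD.ne_zero) hκ₁.ne_zero
    have hκuZ : (nm κu : ℝ) ≤ Z ^ 3 := by
      refine le_trans ?_ hadk
      exact_mod_cast Div277.nm_le_of_dvd hadk0 (by rw [e2']; exact dvd_mul_right _ _)
    have hUZ : (nm U : ℝ) ≤ Z ^ 3 := by
      refine le_trans ?_ hadk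
      exact_mod_cast Div277.nm_le_of_dvd hadk0 (by rw [e2']; exact ⟨κu * E, by ring⟩)
    have hF'Z : (nm F' : ℝ) ≤ Z ^ 5 := by
      rw [hF', nm_mul, nm_mul]; push_cast
      calc (nm F : ℝ) * (nm E * nm U) ≤ Z * (Z * Z ^ 3) := by gcongr
        _ = Z ^ 5 := by ring
    have hx0Z : (nm x0 : ℝ) ≤ Z ^ 3 := by
      rw [hx0, nm_mul, nm_mul]; push_cast
      calc (nm a : ℝ) * nm D * nm F ≤ Z * Z * Z := by gcongr
        _ = Z ^ 3 := by ring
    have hr0 : r ≠ 0 := mul_ne_zero (mul_ne_zero hR ha.ne_zero) hx0p.ne_zero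
    have hrZ : (nm r : ℝ) ≤ Z' := by
      rw [hr, nm_mul, nm_mul]; push_cast
      calc (nm R : ℝ) * nm a * nm x0 ≤ Z * Z * Z ^ 3 := by gcongr
        _ = Z ^ 5 := by ring
        _ ≤ Z' := hZ'k 5 (by norm_num)
    have hqZ : (nm (E * X₁) : ℝ) ≤ Z' := by
      have h2' : (nm (E * X₁) : ℝ) ≤ nm (E * X) := by
        exact_mod_cast Div277.nm_le_of_dvd (mul_ne_zero hEp.ne_zero hXne)
          (mul_dvd_mul_left E ⟨k2, by rw [hXdec]; ring⟩)
      refine h2'.trans ?_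
      have h3 : (nm (E * X) : ℝ) = nm E * (729 * (nm Q : ℝ) ^ 2 * (nm s : ℝ) ^ 2) * nm b' := by
        have h4 : nm (3 * sq3 : Eis) ^ 2 = 729 := by
          have h5 := congrArg nm three_sq3
          rw [nm_pow, nm_pow] at h5
          rw [h5]
          have : nm (-3 : Eis) = 9 := by decide
          rw [this]; norm_num
        rw [hX, nm_mul, nm_mul, mul_pow, nm_mul, nm_pow, h4, nm_pow, nm_mul]
        push_cast; ring
      rw [h3]
      calc (nm E : ℝ) * (729 * (nm Q : ℝ) ^ 2 * (nm s : ℝ) ^ 2) * nm b'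
          ≤ Z * (729 * Z ^ 2 * Z ^ 2) * Z := by gcongr
        _ = 729 * Z ^ 6 * 1 := by ring
        _ ≤ Z' := by
            rw [hZ']
            have := hZp 6 (by norm_num)
            gcongr
    set L' : ℝ := L / nm u with hL'
    have hL'0 : 0 < L' := by positivity
    have hL'L : L' ≤ L := div_le_self hL0.le nu
    set L0' : ℝ := L' * (nm E * q0 * (nm s : ℝ) ^ 2 * nm b' / nm k2) with hL0'
    have hq01 : 1 ≤ q0 := (nk_ge_one (pow_ne_zero 2 hQ)).trans hq0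
    have hL0'0 : 0 < L0' := by positivity
    have hL0'Z : L0' ≤ Z' := by
      have h9 : nm E * q0 * (nm s : ℝ) ^ 2 * nm b' / nm k2 ≤ nm E * q0 * (nm s : ℝ) ^ 2 * nm b' :=
        div_le_self (by positivity) nk2
      calc L0' ≤ L' * (nm E * q0 * (nm s : ℝ) ^ 2 * nm b') := by
            rw [hL0']; exact mul_le_mul_of_nonneg_left h9 hL'0.le
        _ ≤ L * (Z * Z ^ 2 * Z ^ 2 * Z) := by gcongr
        _ = 1 * Z ^ 6 * L := by ring
        _ ≤ Z' := by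
            rw [hZ']
            have := hZp 6 (by norm_num)
            gcongr
            norm_num
    set Lt' : ℝ := Lt₀ / (27 * nm E * nm U) with hLt'
    have hLt'0 : 0 < Lt' := by positivity
    have hLt'L : Lt' ≤ Lt₀ := by
      refine div_le_self hLt0p.le ?_
      have : 1 ≤ (nm E : ℝ) * nm U := one_le_mul_of_one_le_of_one_le nE nU
      nlinarith
    have hLt'Z : Lt' ≤ Z' := by linarith
    have hratio : L0' / Lt' = ϱ := by
      rw [hL0', hLt', hL', hϱ, nUe]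
      field_simp
    have hYcZ : Yc ≤ Z' := by
      have : Yc ≤ N := div_le_self hN.le nx01
      linarith
    have hLZ' : L' ≤ Z' := by
      have h3 : 1 * L ≤ 729 * Z ^ 10 * L := by
        have h4 : 1 ≤ Z ^ 10 := one_le_pow₀ hZ
        gcongr
        linarith
      rw [hZ']; linarith
    have hNκ : Nb₀ * nm κu ≤ Z' := by
      calc Nb₀ * nm κu ≤ Z * Z ^ 3 := by gcongr
        _ = Z ^ 4 := by ring
        _ ≤ Z' := hZ'k 4 (by norm_num)
    have hκuZ' : (nm κu : ℝ) ≤ Z' := hκuZ.trans (hZ'k 3 (by norm_num))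
    have hκs : Squarefree κu := hcs.2.1
    have hbF := FS.bF (F := F') hκup hb
    have hkk0 : (nm κu : ℝ) * nm E * nm U = nm a * nm D * nm κ₁ := by
      have h3 := congrArg nm e2'
      rw [nm_mul, nm_mul, nm_mul κu, nm_mul E] at h3
      have h4 : ((nm a * nm D * nm κ₁ : ℕ) : ℝ) = ((nm κu * (nm E * nm U) : ℕ) : ℝ) := by
        exact_mod_cast h3
      push_cast at h4
      rw [h4]; ring
    have hkk : (nm κu / nm κ₁ : ℝ) * nm E * nm U = nm a * nm D := by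
      have : (nm κu / nm κ₁ : ℝ) * nm E * nm U = ((nm κu : ℝ) * nm E * nm U) / nm κ₁ := by ring
      rw [this, hkk0]
      field_simp
    have hNbk : Nb * (nm κu / nm κ₁ : ℝ) = Nb₀ * nm κu := by
      rw [hNbd]; field_simp
    -- the structured part
    have hstr : 1 ≤ Lt' → ∃ (𝒯 : Set Tst) (Wf : ℝ → ℝ), Lt' * Real.exp Rw < Nb₀ * nm κu ∧
        OK Z' (Nb₀ * nm κu) κu 𝒯 ∧ Slp aS Wf ∧
        (∀ τ ∈ 𝒯, ∀ P : ℝ, 0 < P → ∑ e ∈ pdiv (ρ * (κu * F')),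
          (nm e : ℝ)⁻¹ * TV τ A (fun m => bs (bF κu F' b) e m * ψ m) (nm e * P) ≤ Wf P) ∧
        Wf (c * Il (Nb₀ * nm κu) Lt' Yc) ≤ W1 := by
      intro h3
      have h4 : Nb₀ * nm κu * Lt' / Yc * (nm F' : ℝ) ^ 2 ≤ Nb / N * Lst := by
        have h5 := nu_id hNb hN hLst (by linarith : (0 : ℝ) < nm a) (by linarith : (0 : ℝ) < nm D)
          (by linarith : (0 : ℝ) < nm F) (by linarith : (0 : ℝ) < nm E) nU0 hkk
        rw [hNbk] at h5
        have e8 : (nm F' : ℝ) = nm F * (nm E * nm U) := by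
          rw [hF', nm_mul, nm_mul]; push_cast; ring
        have e9 : (nm x0 : ℝ) = nm a * nm D * nm F := by
          rw [hx0, nm_mul, nm_mul]; push_cast; ring
        rw [e8, hYc, hLt', hLt0, e9]
        exact h5
      have h5 : 1 ≤ Lst := by linarith
      obtain ⟨𝒯, Wf, w1', w2', w3', w4'⟩ := hRX h5 κu F' x0 hκup hF'p hsq' e3 hcR
        hκuZ hF'Z Z' Lt' Yc hZZ' hNκ hκuZ' h3 hY h4
      refine ⟨𝒯, Wf, ?_, w1', w2', w3', w4'⟩
      have h6 := hLN h5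
      have h7 : Lt' * nm U ≤ Lst := by
        have e9 : Lt' * nm U = Lt₀ / (27 * nm E) := by rw [hLt']; field_simp
        rw [e9]
        refine (div_le_self hLt0p.le ?_).trans hLt0L
        nlinarith
      have h8 : Nb ≤ Nb₀ * nm κu * nm U := by
        have e9 : (nm κ₁ : ℝ) ≤ nm κu * nm U := by
          have e10 : κ₁ ∣ κu * U := by
            refine ⟨κ, ?_⟩
            rw [hUd, hk12]
            calc κu * (u * k2) = (κu * u) * k2 := by ring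
              _ = κt * k2 := by rw [← e1]
              _ = _ := by rw [hκt]; ring
          have e11 : (nm κ₁ : ℝ) ≤ nm (κu * U) := by
            exact_mod_cast Div277.nm_le_of_dvd (mul_ne_zero hκup.ne_zero hUp.ne_zero) e10
          rw [nm_mul] at e11; push_cast at e11; exact e11
        calc Nb = Nb₀ * nm κ₁ := hNbd
          _ ≤ Nb₀ * (nm κu * nm U) := mul_le_mul_of_nonneg_left e9 hNb₀.le
          _ = _ := by ring
      have h9 : Lt' * Real.exp Rw * nm U < Nb₀ * nm κu * nm U := by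
        calc Lt' * Real.exp Rw * nm U = (Lt' * nm U) * Real.exp Rw := by ring
          _ ≤ Lst * Real.exp Rw := mul_le_mul_of_nonneg_right h7 (Real.exp_pos _).le
          _ < Nb := h6
          _ ≤ _ := h8
      exact lt_of_mul_lt_mul_right h9 nU0.le
    have hstr2 : ∃ (𝒯 : Set Tst) (Wf : ℝ → ℝ), 1 ≤ Lt' → Lt' * Real.exp Rw < Nb₀ * nm κu ∧
        OK Z' (Nb₀ * nm κu) κu 𝒯 ∧ Slp aS Wf ∧
        (∀ τ ∈ 𝒯, ∀ P : ℝ, 0 < P → ∑ e ∈ pdiv (ρ * (κu * F')),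
          (nm e : ℝ)⁻¹ * TV τ A (fun m => bs (bF κu F' b) e m * ψ m) (nm e * P) ≤ Wf P) ∧
        Wf (c * Il (Nb₀ * nm κu) Lt' Yc) ≤ W1 := by
      by_cases h3 : 1 ≤ Lt'
      · obtain ⟨𝒯, Wf, h4⟩ := hstr h3
        exact ⟨𝒯, Wf, fun _ => h4⟩
      · exact ⟨∅, fun _ => 0, fun h4 => absurd h4 h3⟩
    obtain ⟨𝒯, Wf, h𝒯⟩ := hstr2
    have hr₁ : ρ * (κu * F') ∣ r := by
      rw [hr, e3]
      have h9 : ρ * (κ₁ * x0) = (ρ * κ₁) * x0 := by ring
      rw [h9]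
      exact mul_dvd_mul (hρ.trans (dvd_mul_right R a)) dvd_rfl
    have hmode := key A' hA' Z' (Nb₀ * nm κu) Yc L' L0' Lt' hZ'1 (by positivity) hNκ hY hYcZ hL'0.le
      hLZ' hL0'0.le hL0'Z hLt'0 hLt'Z ({()} : Finset Unit) (fun _ => bF κu F' b) (fun _ => Yc)
      (fun _ => r) (fun _ => ρ * (κu * F')) (fun _ => E * X₁)
      (fun _ _ => ⟨by linarith, le_rfl⟩)
      (fun _ _ n hn => bF_S hκup hκs hb hZ0.le hbS (by
        calc (nm κu : ℝ) * Z ≤ Z ^ 3 * Z := by gcongr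
          _ = Z ^ 4 := by ring
          _ ≤ Z' := hZ'k 4 (by norm_num)) hn)
      (fun _ _ => hGX κu F' x0 hκup hF'p hsq' e3 hcR)
      (fun _ _ => bF_Win hκup hb hNb₀ hbW) (fun _ _ => ⟨hr0, hrZ⟩) (fun _ _ => hr₁)
      (fun _ _ => ⟨hX0, hqZ, by
        have h3 := nk_freq one_ne_zero hQ hs.ne_zero hb'.ne_zero
        rw [← hX, one_mul, nm_one, Nat.cast_one, one_mul] at h3
        have h4 : nk (E * X₁) ≤ nm E * nm V₁ := by
          refine (nk_mul_le hEp.ne_zero hX₁0).trans ?_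
          rw [hX₁, nk_mul_cube hV₁0 hn₁0]
          exact mul_le_mul (nk_le_nm hEp.ne_zero) (nk_le_nm hV₁0) (Nat.cast_nonneg _)
            (Nat.cast_nonneg _)
        have h5 : (nm V₁ : ℝ) ≤ q0 * (nm s : ℝ) ^ 2 * nm b' / nm k2 := by
          rw [le_div_iff₀ nk20, hnkX]
          refine h3.trans ?_
          gcongr
        rw [hL0']
        refine mul_le_mul_of_nonneg_left (h4.trans ?_) hL'0.le
        calc (nm E : ℝ) * nm V₁ ≤ nm E * (q0 * (nm s : ℝ) ^ 2 * nm b' / nm k2) :=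
              mul_le_mul_of_nonneg_left h5 (Nat.cast_nonneg _)
          _ = _ := by ring⟩)
      κu 𝒯 Wf W1 hW1 (fun h3 => by
        obtain ⟨g1, g2, g3, g4, g5⟩ := h𝒯 h3
        refine ⟨g1, g2, g3, fun τ hτ P hP => ?_, g5⟩
        rw [Finset.sum_singleton]
        exact g4 τ hτ P hP)
    simp only [Finset.sum_singleton] at hmode
    -- the left side
    have hleft : ∑ x ∈ (bl L').filter (fun x => IsCoprime x κu),
        EQ A' (pS χ om r (bF κu F' b)) (x * (E * X₁)) ≤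
        ∑ h ∈ (bl L').filter (fun h => IsCoprime (kv (kc (h * (E * X₁))).1) κu),
          EQ A' (fun n => χ n * uS (fun x => ((w1 (x / Yc) : ℝ) : ℂ)) r (bF κu F' b) n)
            (h * (E * X₁)) := by
      have e4 : ∀ x : Eis, EQ A' (fun n => χ n * uS (fun x => ((w1 (x / Yc) : ℝ) : ℂ)) r
          (bF κu F' b) n) (x * (E * X₁)) = EQ A' (pS χ om r (bF κu F' b)) (x * (E * X₁)) :=
        fun x => rfl
      simp only [e4]
      refine Finset.sum_le_sum_of_subset_of_nonneg (fun x hx => ?_) fun _ _ _ => EQ_nonneg _ _ _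
      rw [Finset.mem_filter, mem_bl hL'0.le] at hx
      rw [Finset.mem_filter, mem_bl hL'0.le]
      refine ⟨hx.1, ?_⟩
      have e5 : (kc (x * (E * X₁))).1 = (kc (x * (E * V₁))).1 :=
        LSq50.kc_of_eq (mul_ne_zero hx.1.1 (mul_ne_zero hEp.ne_zero hV₁0)) hn₁0
          (by rw [hX₁]; ring)
      rw [e5]
      exact ker_cop (mul_ne_zero hx.1.1 (mul_ne_zero hEp.ne_zero hV₁0))
        (hx.2.mul_left (cE.mul_left cV))
    refine hleft.trans (hmode.trans ?_)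
    -- the right side
    have hZ'e : Z' ^ (ε / 20) ≤ 729 ^ (ε / 20) * Z ^ (ε / 2) * L ^ ε := by
      rw [hZ', Real.mul_rpow (by positivity) hL0.le, Real.mul_rpow (by norm_num) (by positivity)]
      have h3 : (Z ^ 10) ^ (ε / 20) = Z ^ (ε / 2) := by
        rw [← Real.rpow_natCast, ← Real.rpow_mul hZ0.le]
        congr 1; push_cast; ring
      have h4 : L ^ (ε / 20) ≤ L ^ ε := Real.rpow_le_rpow_of_exponent_le hL (by linarith)
      rw [h3]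
      gcongr
    have hDT : ∀ e : ℝ, DT e (cw * Yc) (bF κu F' b) (ρ * (κu * F')) ≤
        TC e (cw * N) (bF κ₁ 1 b) x0 := by
      intro e
      have h3 : cw * Yc = cw * N / nm x0 := by rw [hYc]; ring
      rw [h3]
      exact DT_lek hκup hF'p hκ₁ hx0p cxκ hb ρ e3 e (cw * N)
    have hW' : 1 ≤ Lt' → nfo Lt' (Il (Nb₀ * nm κu) Lt' Yc) * W1 ≤ W := by
      intro _
      rw [hW]
      refine mul_le_mul_of_nonneg_right ?_ hW1
      have h5 := nfo_le hNb hN hLst (by linarith : (0 : ℝ) < nm a) (by linarith : (0 : ℝ) < nm D)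
          (by linarith : (0 : ℝ) < nm F) (by linarith : (0 : ℝ) < nm E) nU0
          (by positivity : (0 : ℝ) < nm κu / nm κ₁) hkk
      rw [hNbk] at h5
      unfold Il
      have e9 : (nm x0 : ℝ) = nm a * nm D * nm F := by
        rw [hx0, nm_mul, nm_mul]; push_cast; ring
      rw [hYc, hLt', hLt0, e9]
      exact h5
    have hnf0 : 0 ≤ nfo Lt' (Il (Nb₀ * nm κu) Lt' Yc) := by
      unfold nfo Il; positivity
    have hcomp := CBx_ge (L := L) (L' := L') (ϱ := ϱ) (Yc := Yc) (Lt₀ := Lt₀) (Lt' := Lt')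
      (L0' := L0') (T1 := T1) (T1' := DT 1 (cw * Yc) (bF κu F' b) (ρ * (κu * F'))) (T2 := T2)
      (T2' := DT (1 / 2) (cw * Yc) (bF κu F' b) (ρ * (κu * F'))) (W := W)
      (W' := nfo Lt' (Il (Nb₀ * nm κu) Lt' Yc) * W1)
      (S1 := ∑ n ∈ (S (cw * Yc)).filter (fun n => IsCoprime n r), ‖CS (bF κu F' b) n‖ ^ 2)
      hL'0.le hL'L hϱ0 hYc0.le hLt'0 hLt'L hratio (DT_nonneg _ _ _ _) (hDT 1)
      (Finset.sum_nonneg fun _ _ => by positivity)
      ((S_le_DT (by positivity) _ hr₁).trans (hDT 1)) (DT_nonneg _ _ _ _) (hDT (1 / 2))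
      (by positivity) hW' hW0
    have hY3 : 0 ≤ Yc ^ (-(1 : ℝ) / 3) := by positivity
    calc _ ≤ C₁ * (729 ^ (ε / 20) * Z ^ (ε / 2) * L ^ ε) * Yc ^ (-(1 : ℝ) / 3) *
        (((L0' / Lt') ^ (1 / 3 : ℝ) * Yc + (if Lt' ≤ L0' then L' + (L' * Yc) ^ (2 / 3 : ℝ) else 0)) *
        (∑ n ∈ (S (cw * Yc)).filter (fun n => IsCoprime n r), ‖CS (bF κu F' b) n‖ ^ 2) +
        (if 1 ≤ Lt' then (L0' / Lt') ^ (1 / 3 : ℝ) *
          (Yc * (nfo Lt' (Il (Nb₀ * nm κu) Lt' Yc) * W1) +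
          ((Yc + (Lt' * Yc) ^ (2 / 3 : ℝ)) * DT 1 (cw * Yc) (bF κu F' b) (ρ * (κu * F')) +
          Lt' * Yc ^ (1 / 2 : ℝ) * DT (1 / 2) (cw * Yc) (bF κu F' b) (ρ * (κu * F')))) else 0)) := by
          rw [mul_assoc Yc (nfo Lt' (Il (Nb₀ * nm κu) Lt' Yc)) W1]
          refine mul_le_mul_of_nonneg_right ?_ ?_
          · exact mul_le_mul_of_nonneg_right (mul_le_mul_of_nonneg_left hZ'e hC₁) hY3
          · have i1 : 0 ≤ DT 1 (cw * Yc) (bF κu F' b) (ρ * (κu * F')) := DT_nonneg _ _ _ _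
            have i2 : 0 ≤ DT (1 / 2) (cw * Yc) (bF κu F' b) (ρ * (κu * F')) := DT_nonneg _ _ _ _
            have i3 : 0 ≤ ∑ n ∈ (S (cw * Yc)).filter (fun n => IsCoprime n r),
              ‖CS (bF κu F' b) n‖ ^ 2 := Finset.sum_nonneg fun _ _ => by positivity
            split_ifs <;> positivity
      _ ≤ _ := mul_le_mul_of_nonneg_left hcomp (by positivity)
  -- the sum over the divisors
  have hcard : ((pdiv κt).card : ℝ) ≤ Ct * Z ^ (ε / 2) := by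
    rw [← dvs_eq_pdiv hκtp.ne_zero]
    refine (hτ κt hκtp.ne_zero).trans (mul_le_mul_of_nonneg_left ?_ (by linarith))
    have h3 : (nm κt : ℝ) ≤ Z ^ 3 := by
      have h3' : κt ∣ a * D * κ₁ := ⟨E * k2, by rw [← hκE, hk12, hκt]; ring⟩
      have h4 : (nm κt : ℝ) ≤ nm (a * D * κ₁) := by
        exact_mod_cast Div277.nm_le_of_dvd
          (mul_ne_zero (mul_ne_zero ha.ne_zero hD.ne_zero) hκ₁.ne_zero) h3'
      have h5 : (nm (a * D * κ₁) : ℝ) = nm a * nm D * nm κ₁ := by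
        rw [nm_mul (a * D) κ₁, nm_mul a D]; push_cast; ring
      calc (nm κt : ℝ) ≤ nm a * nm D * nm κ₁ := h4.trans h5.le
        _ ≤ Z * Z * Z := by gcongr
        _ = Z ^ 3 := by ring
    calc (nm κt : ℝ) ^ (ε / 6) ≤ (Z ^ 3) ^ (ε / 6) :=
          Real.rpow_le_rpow (Nat.cast_nonneg _) h3 (by positivity)
      _ = Z ^ (ε / 2) := by
          rw [← Real.rpow_natCast, ← Real.rpow_mul hZ0.le]
          congr 1; push_cast; ring
  have hterm0 : 0 ≤ C₁ * (729 ^ (ε / 20) * Z ^ (ε / 2) * L ^ ε) * Yc ^ (-(1 : ℝ) / 3) *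
      CBx L ϱ Yc Lt₀ T1 T2 W := by positivity
  calc _ ≤ ∑ u ∈ pdiv κt, C₁ * (729 ^ (ε / 20) * Z ^ (ε / 2) * L ^ ε) * Yc ^ (-(1 : ℝ) / 3) *
      CBx L ϱ Yc Lt₀ T1 T2 W := Finset.sum_le_sum hu
    _ = ((pdiv κt).card : ℝ) * (C₁ * (729 ^ (ε / 20) * Z ^ (ε / 2) * L ^ ε) *
      Yc ^ (-(1 : ℝ) / 3) * CBx L ϱ Yc Lt₀ T1 T2 W) := by
        rw [Finset.sum_const, nsmul_eq_mul]
    _ ≤ (Ct * Z ^ (ε / 2)) * (C₁ * (729 ^ (ε / 20) * Z ^ (ε / 2) * L ^ ε) *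
      Yc ^ (-(1 : ℝ) / 3) * CBx L ϱ Yc Lt₀ T1 T2 W) :=
        mul_le_mul_of_nonneg_right hcard hterm0
    _ = _ := by
        have h3 : Z ^ ε = Z ^ (ε / 2) * Z ^ (ε / 2) := by
          rw [← Real.rpow_add hZ0]; congr 1; ring
        rw [h3]; ring

end Crest.Agent.R017.E3q681
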