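import Crest.Agent.R017.E3P5_842

/-!
# Row 17, block C70, leaf E4 (x-side), the pair expansion (helper681)

* `AQ I m V a = ∑_{i ∈ I} conj (a / m i) CS (V i) a`
* `PI` : the hypotheses on the family
* `AQ_sq` : the mean square over primary `a` as a sum of pair sums
* `AQ_le` : the mean square is at most the diagonal plus the modes of all pairs
-/

set_option autoImplicit false
set_option maxHeartbeats 400000

noncomputable section

open Complex MeasureTheory
open scoped ComplexConjugate Classical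

namespace Crest.Agent.R017.E3q681

open Crest.Agent.R012 Crest.Agent.R012.Eis Crest.Agent.R012.MC
open Crest.Agent.R012.LS2 (S mem_S bl mem_bl)
open Crest.Agent.R012.Div277 (dvs mem_dvs isPrim_of_mem_dvs dvd_of_mem_dvs)
open Crest.Agent.R012.Mob705 (mu pdiv mem_pdiv PE PE_pos PE_le_one)
open Crest.Agent.R017.CM106 (CS TG)
open Crest.Agent.R017.E1551 (nmpos jb jb_pos summable_wF CS_fin nm_ge_one)
open Crest.Agent.R017.BD829
open Crest.Agent.R017.E3P842
open Crest.Agent.R017.StA828 (gp gp_spec)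
open Gauss880 (syG)

variable {ι : Type*} {I : Finset ι} {m : ι → Eis} {V : ι → Eis → ℂ} {Y₀ : ℝ}

/-- the amplitude -/
def AQ (I : Finset ι) (m : ι → Eis) (V : ι → Eis → ℂ) (a : Eis) : ℂ :=
  ∑ i ∈ I, conj (sy a (m i)) * CS (V i) a

/-- the hypotheses on the family -/
structure PI (I : Finset ι) (m : ι → Eis) (V : ι → Eis → ℂ) (Y₀ : ℝ) : Prop where
  Y0 : 0 ≤ Y₀
  hm : ∀ i ∈ I, IsPrim (m i)
  hs : ∀ i ∈ I, Squarefree (m i)
  hV : ∀ i ∈ I, ∀ n, V i n ≠ 0 → n ∈ S Y₀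
  hc : ∀ i ∈ I, ∀ n, V i n ≠ 0 → IsCoprime n (m i)

/-- **the mean square is a sum of pair sums** -/
theorem AQ_sq {w : ℝ → ℝ} (hw : Wgt w) {K : ℝ} (hK : 0 < K) (I : Finset ι) (m : ι → Eis)
    (V : ι → Eis → ℂ) :
    (((∑' a : Eis, (if IsPrim a then ‖AQ I m V a‖ ^ 2 else 0) * w (nm a / K) : ℝ)) : ℂ) =
      ∑ i ∈ I, ∑ j ∈ I, PR w K (fun _ => 1) (m i) (m j) (V i) (V j) := by
  rw [Complex.ofReal_tsum]
  unfold PR
  rw [show (∑ i ∈ I, ∑ j ∈ I, ∑' r : Eis, (if IsPrim r then (fun _ : Eis => (1 : ℂ)) r *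
      ((conj (sy r (m i)) * CS (V i) r) * conj (conj (sy r (m j)) * CS (V j) r)) else 0) *
      ((w (nm r / K) : ℝ) : ℂ)) = ∑' r : Eis, ∑ i ∈ I, ∑ j ∈ I,
      (if IsPrim r then (fun _ : Eis => (1 : ℂ)) r *
      ((conj (sy r (m i)) * CS (V i) r) * conj (conj (sy r (m j)) * CS (V j) r)) else 0) *
      ((w (nm r / K) : ℝ) : ℂ) from ?_]
  · refine tsum_congr fun a => ?_
    by_cases ha : IsPrim a
    · simp only [if_pos ha]
      push_cast
      have e1 : ((‖AQ I m V a‖ : ℝ) : ℂ) ^ 2 = AQ I m V a * conj (AQ I m V a) := by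
        rw [Complex.mul_conj, Complex.normSq_eq_norm_sq]; push_cast; rfl
      rw [e1]
      unfold AQ
      rw [map_sum, Finset.sum_mul_sum, Finset.sum_mul]
      refine Finset.sum_congr rfl fun i _ => ?_
      rw [Finset.sum_mul]
      refine Finset.sum_congr rfl fun j _ => ?_
      ring
    · simp [ha]
  · rw [Summable.tsum_finsetSum (fun i _ => summable_sum fun j _ => summable_wF hw hK _)]
    refine Finset.sum_congr rfl fun i _ => ?_
    rw [Summable.tsum_finsetSum (fun j _ => summable_wF hw hK _)]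

/-- the primary common divisor of the pair -/
def gq (m : ι → Eis) (i j : ι) : Eis := gp (m i) (m j)

/-- the cofactor of the pair -/
def pq (m : ι → Eis) (i j : ι) : Eis := m i / gp (m i) (m j)

lemma gp_comm' {a b : Eis} (ha : IsPrim a) (hb : IsPrim b) : gp a b = gp b a := by
  obtain ⟨h1, h2, h3, h4, h5⟩ := gp_spec a hb
  obtain ⟨h1', h2', h3', h4', h5'⟩ := gp_spec b ha
  have hd : ∀ {x y z : Eis}, x ∣ y → x ∣ z → ∀ {g : Eis}, y = g * (y / g) → z = g * (z / g) →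
      IsCoprime (y / g) (z / g) → x ∣ g := by
    intro x y z hy hz g e1 e2 hc
    obtain ⟨u, v, huv⟩ := hc
    have : g = u * y + v * z := by
      calc g = g * (u * (y / g) + v * (z / g)) := by rw [huv, mul_one]
        _ = u * (g * (y / g)) + v * (g * (z / g)) := by ring
        _ = _ := by rw [← e1, ← e2]
    rw [this]
    exact dvd_add (hy.mul_left _) (hz.mul_left _)
  have d1 : gp a b ∣ gp b a :=
    hd (y := b) (z := a) ⟨_, h4⟩ ⟨_, h3⟩ h3' h4' h5'
  have d2 : gp b a ∣ gp a b :=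
    hd (y := a) (z := b) ⟨_, h4'⟩ ⟨_, h3'⟩ h3 h4 h5
  obtain ⟨c, hc⟩ := d1
  have hcp : IsPrim c := by
    rw [hc] at h1'; exact h1'.of_mul_left h1
  obtain ⟨e, he⟩ := d2
  have hcu : IsUnit c := by
    have : gp a b * 1 = gp a b * (c * e) := by
      rw [mul_one, ← mul_assoc, ← hc, ← he]
    have := mul_left_cancel₀ h1.ne_zero this
    exact IsUnit.of_mul_eq_one _ this.symm
  rw [hc, K695.prim_eq_one_of_isUnit hcp hcu, mul_one]

/-- **the data of a pair** -/
theorem PI.pd (h : PI I m V Y₀) {i j : ι} (hi : i ∈ I) (hj : j ∈ I) {Y : ℝ}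
    (hY : (nm (m i) : ℝ) * nm (m j) * Y₀ ≤ Y) :
    PD Y₀ Y (gq m i j) (pq m i j) (pq m j i) (V i) (V j) ∧
      m i = gq m i j * pq m i j ∧ m j = gq m i j * pq m j i := by
  obtain ⟨h1, h2, h3, h4, h5⟩ := gp_spec (m i) (h.hm j hj)
  have hcm := gp_comm' (h.hm i hi) (h.hm j hj)
  have e1 : m i = gq m i j * pq m i j := h3
  have e2 : m j = gq m i j * pq m j i := by
    unfold gq pq; rw [← hcm]; exact h4
  have hp : IsPrim (pq m i j) := by
    have := h.hm i hi
    rw [e1] at this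
    exact this.of_mul_left h1
  have hq : IsPrim (pq m j i) := by
    have := h.hm j hj
    rw [e2] at this
    exact this.of_mul_left h1
  have hc : IsCoprime (pq m i j) (pq m j i) := by
    unfold pq; rw [← hcm]; exact h5
  have k1 : ∀ n, V i n ≠ 0 → IsCoprime n (gq m i j) ∧ IsCoprime n (pq m i j) := by
    intro n hn
    have := h.hc i hi n hn
    rw [e1] at this
    exact ⟨this.of_mul_right_left, this.of_mul_right_right⟩
  have k2 : ∀ n, V j n ≠ 0 → IsCoprime n (gq m i j) ∧ IsCoprime n (pq m j i) := by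
    intro n hn
    have := h.hc j hj n hn
    rw [e2] at this
    exact ⟨this.of_mul_right_left, this.of_mul_right_right⟩
  refine ⟨⟨h.Y0, h1, hp, hq, ?_, ?_, hc, h.hV i hi, h.hV j hj, fun n hn => (k1 n hn).1,
    fun n hn => (k2 n hn).1, fun n hn => (k1 n hn).2, fun n hn => (k2 n hn).2, ?_⟩, e1, e2⟩
  · exact (h.hs i hi).squarefree_of_dvd ⟨_, e1.trans (mul_comm _ _)⟩
  · exact (h.hs j hj).squarefree_of_dvd ⟨_, e2.trans (mul_comm _ _)⟩
  · refine le_trans ?_ hY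
    have n1 : (nm (pq m i j) : ℝ) ≤ nm (m i) := by
      exact_mod_cast Div277.nm_le_of_dvd (h.hm i hi).ne_zero ⟨_, e1.trans (mul_comm _ _)⟩
    have n2 : (nm (pq m j i) : ℝ) ≤ nm (m j) := by
      exact_mod_cast Div277.nm_le_of_dvd (h.hm j hj).ne_zero ⟨_, e2.trans (mul_comm _ _)⟩
    exact mul_le_mul_of_nonneg_right (mul_le_mul n1 n2 (by positivity) (by positivity)) h.Y0

lemma PI.eq_of_one (h : PI I m V Y₀) {i j : ι} (hi : i ∈ I) (hj : j ∈ I)
    (h1 : pq m i j = 1 ∧ pq m j i = 1) : m i = m j := by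
  obtain ⟨-, e1, e2⟩ := h.pd hi hj le_rfl
  rw [e1, e2, h1.1, h1.2]

/-- the main term of a pair -/
lemma main_le {w : ℝ → ℝ} {K : ℝ} (hK : 0 < K) {Y₀ Y : ℝ} {g p q : Eis} {U V : Eis → ℂ}
    (h : PD Y₀ Y g p q U V) :
    ‖((2 * K / (9 * Real.sqrt 3) * Wt w 0 : ℝ) : ℂ) *
        ((PE g : ℂ) * ∑ d ∈ S Y, (PE d : ℂ) * (U d * conj (V d)))‖ ≤
      (2 * K / (9 * Real.sqrt 3)) * |Wt w 0| *
        ((1 / 2) * ∑ d ∈ S Y, ‖U d‖ ^ 2 + (1 / 2) * ∑ d ∈ S Y, ‖V d‖ ^ 2) := by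
  have h3 : 0 < Real.sqrt 3 := Real.sqrt_pos.mpr (by norm_num)
  have e0 : ‖((2 * K / (9 * Real.sqrt 3) * Wt w 0 : ℝ) : ℂ)‖ =
      2 * K / (9 * Real.sqrt 3) * |Wt w 0| := by
    rw [Complex.norm_real, Real.norm_eq_abs, abs_mul,
      abs_of_nonneg (by positivity : 0 ≤ 2 * K / (9 * Real.sqrt 3))]
  have e00 : ‖(PE g : ℂ)‖ = PE g := by
    rw [Complex.norm_real, Real.norm_eq_abs, abs_of_pos (PE_pos g)]
  rw [norm_mul, e0, norm_mul, e00]
  refine mul_le_mul_of_nonneg_left ?_ (by positivity)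
  refine (mul_le_of_le_one_left (norm_nonneg _) (PE_le_one g)).trans ?_
  refine (norm_sum_le _ _).trans ?_
  rw [Finset.mul_sum, Finset.mul_sum, ← Finset.sum_add_distrib]
  refine Finset.sum_le_sum fun d _ => ?_
  rw [norm_mul, norm_mul, RCLike.norm_conj, Complex.norm_real, Real.norm_eq_abs,
    abs_of_pos (PE_pos d)]
  refine (mul_le_of_le_one_left (by positivity) (PE_le_one d)).trans ?_
  nlinarith [sq_nonneg (‖U d‖ - ‖V d‖)]

/-- **the mean square: diagonal plus the modes of the pairs** -/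
theorem PI.AQ_le (h : PI I m V Y₀) {Y : ℝ} (hY1 : 1 ≤ Y)
    (hY : ∀ i ∈ I, ∀ j ∈ I, (nm (m i) : ℝ) * nm (m j) * Y₀ ≤ Y)
    {w : ℝ → ℝ} (hw : Wgt w) {R : ℝ} {A B : ℕ} {C : ℝ} (hk : KT w R A B C) (hA : 1 < A)
    (hB : 1 < B) {K : ℝ} (hK : 0 < K) {N : ι → ℝ} (hN : ∀ i ∈ I, 0 < N i)
    (hwin : ∀ i ∈ I, Win (V i) (Real.log (N i)) R) {T : ℕ}
    (hT : ∀ i ∈ I, (I.filter (fun j => m j = m i)).card ≤ T) :
    ∑' a : Eis, (if IsPrim a then ‖AQ I m V a‖ ^ 2 else 0) * w (nm a / K) ≤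
      (2 * K / (9 * Real.sqrt 3)) * |Wt w 0| * (T * ∑ i ∈ I, ∑ n ∈ S Y, ‖V i n‖ ^ 2) +
      2 * C * ∑ i ∈ I, ∑ j ∈ I, ∑ s ∈ pdiv (gq m i j),
        MP A B 3 (fun _ => 1) (K / nm s) (N i * N j) Y (pq m i j) (pq m j i)
          (tws s (V i)) (tws s (V j)) := by
  set c0 : ℝ := (2 * K / (9 * Real.sqrt 3)) * |Wt w 0| with hc0
  have h3 : 0 < Real.sqrt 3 := Real.sqrt_pos.mpr (by norm_num)
  have hc0' : 0 ≤ c0 := by positivity
  set n2 : ι → ℝ := fun i => ∑ n ∈ S Y, ‖V i n‖ ^ 2 with hn2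
  have hn2' : ∀ i, 0 ≤ n2 i := fun i => Finset.sum_nonneg fun _ _ => by positivity
  have key : ∀ i ∈ I, ∀ j ∈ I, ‖PR w K (fun _ => 1) (m i) (m j) (V i) (V j)‖ ≤
      c0 * (if m j = m i then (1 / 2) * n2 i + (1 / 2) * n2 j else 0) +
      2 * C * ∑ s ∈ pdiv (gq m i j),
        MP A B 3 (fun _ => 1) (K / nm s) (N i * N j) Y (pq m i j) (pq m j i)
          (tws s (V i)) (tws s (V j)) := by
    intro i hi j hj
    obtain ⟨hpd, e1, e2⟩ := h.pd hi hj (hY i hi j hj)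
    have hb := hpd.PR_one hY1 hw hk hA hB hK (hN i hi) (hN j hj) (hwin i hi) (hwin j hj)
    rw [← e1, ← e2] at hb
    set X := PR w K (fun _ => 1) (m i) (m j) (V i) (V j) with hX
    set Z : ℂ := (if pq m i j = 1 ∧ pq m j i = 1 then
      ((2 * K / (9 * Real.sqrt 3) * Wt w 0 : ℝ) : ℂ) *
        ((PE (gq m i j) : ℂ) * ∑ d ∈ S Y, (PE d : ℂ) * (V i d * conj (V j d))) else 0) with hZ
    have h4 : ‖X‖ ≤ ‖Z‖ + ‖X - Z‖ := by
      calc ‖X‖ = ‖Z + (X - Z)‖ := by congr 1; ring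
        _ ≤ _ := norm_add_le _ _
    refine h4.trans (add_le_add ?_ hb)
    rw [hZ]
    by_cases h5 : pq m i j = 1 ∧ pq m j i = 1
    · rw [if_pos h5, if_pos (h.eq_of_one hi hj h5).symm]
      exact main_le hK hpd
    · rw [if_neg h5, norm_zero]
      refine mul_nonneg hc0' ?_
      split_ifs
      · have := hn2' i; have := hn2' j; positivity
      · exact le_rfl
  have hsum : ∑' a : Eis, (if IsPrim a then ‖AQ I m V a‖ ^ 2 else 0) * w (nm a / K) ≤
      ∑ i ∈ I, ∑ j ∈ I, ‖PR w K (fun _ => 1) (m i) (m j) (V i) (V j)‖ := by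
    have h4 := congrArg (fun z : ℂ => ‖z‖) (AQ_sq hw hK I m V)
    beta_reduce at h4
    rw [Complex.norm_real, Real.norm_eq_abs] at h4
    refine (le_abs_self _).trans ?_
    rw [h4]
    refine (norm_sum_le _ _).trans (Finset.sum_le_sum fun i _ => norm_sum_le _ _)
  refine hsum.trans ?_
  refine (Finset.sum_le_sum fun i hi => Finset.sum_le_sum fun j hj => key i hi j hj).trans ?_
  simp only [Finset.sum_add_distrib, ← Finset.mul_sum]
  refine add_le_add (mul_le_mul_of_nonneg_left ?_ hc0') le_rfl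
  -- the diagonal
  have e1 : ∑ i ∈ I, ∑ j ∈ I, (if m j = m i then (1 / 2) * n2 i + (1 / 2) * n2 j else 0) =
      ∑ i ∈ I, ∑ j ∈ I, (if m j = m i then n2 i else 0) := by
    have e2 : ∑ i ∈ I, ∑ j ∈ I, (if m j = m i then (1 / 2) * n2 j else 0) =
        ∑ i ∈ I, ∑ j ∈ I, (if m j = m i then (1 / 2) * n2 i else 0) := by
      rw [Finset.sum_comm]
      refine Finset.sum_congr rfl fun i _ => Finset.sum_congr rfl fun j _ => ?_
      by_cases h4 : m i = m j
      · rw [if_pos h4, if_pos h4.symm]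
      · rw [if_neg h4, if_neg (Ne.symm h4)]
    calc ∑ i ∈ I, ∑ j ∈ I, (if m j = m i then (1 / 2) * n2 i + (1 / 2) * n2 j else 0)
        = ∑ i ∈ I, ∑ j ∈ I, (if m j = m i then (1 / 2) * n2 i else 0) +
          ∑ i ∈ I, ∑ j ∈ I, (if m j = m i then (1 / 2) * n2 j else 0) := by
          rw [← Finset.sum_add_distrib]
          refine Finset.sum_congr rfl fun i _ => ?_
          rw [← Finset.sum_add_distrib]
          refine Finset.sum_congr rfl fun j _ => ?_
          split_ifs <;> simp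
      _ = ∑ i ∈ I, ∑ j ∈ I, (if m j = m i then (1 / 2) * n2 i else 0) +
          ∑ i ∈ I, ∑ j ∈ I, (if m j = m i then (1 / 2) * n2 i else 0) := by rw [e2]
      _ = _ := by
          rw [← Finset.sum_add_distrib]
          refine Finset.sum_congr rfl fun i _ => ?_
          rw [← Finset.sum_add_distrib]
          refine Finset.sum_congr rfl fun j _ => ?_
          split_ifs
          · ring
          · simp
  rw [e1]
  rw [Finset.mul_sum]
  refine Finset.sum_le_sum fun i hi => ?_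
  rw [← Finset.sum_filter, Finset.sum_const, nsmul_eq_mul]
  exact mul_le_mul_of_nonneg_right (by exact_mod_cast hT i hi) (hn2' i)

end Crest.Agent.R017.E3q681
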