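import Crest.Agent.R017.E3q1_681
import Crest.Agent.R017.E3Sp_579
import Crest.Agent.R017.E3Sh_290
import Crest.Agent.R012.CR2b_180

/-!
# Row 17, block C70, leaf E4 (x-side), the modes of all pairs, merged (helper681)

* `SD` : one side of one cell
* `MP_le_SD` : the modes of a pair by the two sides
* `EQ_merge` : the twist by `q / a` goes into the mode
* `merge` : the partners `j` of `i` together: `w = h q₂`
* `OFF_le` : the total of the modes of all pairs
-/

set_option autoImplicit false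
set_option linter.unusedVariables false
set_option maxHeartbeats 400000

noncomputable section

open Complex MeasureTheory
open scoped ComplexConjugate Classical

namespace Crest.Agent.R017.E3q681

open Crest.Agent.R012 Crest.Agent.R012.Eis Crest.Agent.R012.MC
open Crest.Agent.R012.LS2 (S mem_S bl mem_bl)
open Crest.Agent.R012.Div277 (dvs mem_dvs isPrim_of_mem_dvs dvd_of_mem_dvs tau tau_le_rpow)
open Crest.Agent.R012.Mob705 (mu pdiv mem_pdiv PE PE_pos PE_le_one)
open Crest.Agent.R017.PX764 (Gh)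
open Crest.Agent.R017.CM106 (CS TG)
open Crest.Agent.R017.E1551 (nmpos jb jb_pos summable_wF CS_fin nm_ge_one)
open Crest.Agent.R017.BD829
open Crest.Agent.R017.E3P842
open Crest.Agent.R017.E3Sp579 (PD_ModeP_le_sum EQ_le)
open Crest.Agent.R017.E3Sb290 (summable_W)
open Crest.Agent.R017.StA828 (gp gp_spec)
open Gauss880 (syG)

/-! ### one pair -/

/-- one side of one cell -/
def SD (A B : ℕ) (K NN : ℝ) (U : Eis → ℂ) (q a c D E F : Eis) : ℝ :=
  if IsCoprime (D * F) q then ∑' x : Eis, (if x = 0 then 0 else WB 3 K NN 1 B D E x *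
    EQ A (rs (ua U q a) (fun _ => 1) D F) (Hf 3 E x F * (q / a * c))) else 0

lemma SD_nonneg {A B : ℕ} {K NN : ℝ} (hK : 0 ≤ K) (hN : 0 ≤ NN) (U : Eis → ℂ)
    (q a c D E F : Eis) : 0 ≤ SD A B K NN U q a c D E F := by
  unfold SD
  split_ifs
  · refine tsum_nonneg fun x => ?_
    split_ifs
    · exact le_rfl
    · exact mul_nonneg (WB_nonneg hK hN zero_le_one B D E x) (EQ_nonneg _ _ _)
  · exact le_rfl

/-- **the modes of a pair by its two sides** -/
theorem MP_le_SD {Y₀ Y : ℝ} {g p q : Eis} {U V : Eis → ℂ} (h : PD Y₀ Y g p q U V)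
    {A B : ℕ} (hA : 1 < A) (hB : 1 < B) {K NN : ℝ}
    (hK : 0 < K) (hN : 0 < NN) {ρ : Eis → Eis → ℝ} (hρ : ∀ a ∈ dvs q, ∀ b ∈ dvs p, 0 < ρ a b) :
    MP A B 3 (fun _ => 1) K NN Y p q U V ≤
      ∑ a ∈ dvs q, ∑ b ∈ dvs p, ∑ D ∈ S Y, ∑ E ∈ pdiv D, ∑ F ∈ S Y,
        (K / Real.sqrt (NN * nm p * nm q / (nm a * nm b))) * (nm D / nm E : ℝ) *
          (ρ a b * SD A B K (NN * nm p * nm q / (nm a * nm b)) U q a b D E F +
          (ρ a b)⁻¹ * SD A B K (NN * nm p * nm q / (nm a * nm b)) V p b a D E F) := by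
  unfold MP
  refine Finset.sum_le_sum fun a ha => Finset.sum_le_sum fun b hb => ?_
  have hap := isPrim_of_mem_dvs ha
  have hbp := isPrim_of_mem_dvs hb
  have na := nmpos hap.ne_zero
  have nb := nmpos hbp.ne_zero
  have np := nmpos h.hp.ne_zero
  have nq := nmpos h.hq.ne_zero
  have hN' : 0 < NN * nm p * nm q / (nm a * nm b) := by positivity
  rw [Finset.mul_sum]
  refine Finset.sum_le_sum fun D hD => ?_
  have hDp : IsPrim D := ((mem_S h.hY).1 hD).2.1
  rw [Finset.mul_sum]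
  refine Finset.sum_le_sum fun E hE => ?_
  have hEp := ((mem_pdiv hDp.ne_zero).mp hE).1
  have ne := nmpos hEp.ne_zero
  have nd := nmpos hDp.ne_zero
  have c1 : 0 ≤ K / Real.sqrt (NN * nm p * nm q / (nm a * nm b)) := by positivity
  have c2 : 0 ≤ (nm D / nm E : ℝ) := by positivity
  have k0 := PD_ModeP_le_sum h ha hb hA hB (LC_one) hK hN' one_pos hDp hEp.ne_zero
    (ρ := fun _ => ρ a b) (fun _ => hρ a ha b hb)
  have k1 := mul_le_mul_of_nonneg_left k0 (mul_nonneg c1 c2)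
  rw [← mul_assoc]
  refine k1.trans ?_
  rw [Finset.mul_sum]
  refine Finset.sum_le_sum fun F hF => mul_le_mul_of_nonneg_left ?_ (mul_nonneg c1 c2)
  have e1 : (fun m : Eis => conj ((fun _ : Eis => (1 : ℂ)) m)) = fun _ => 1 := by
    funext m; simp
  rw [e1]
  have s1 := SD_nonneg (A := A) (B := B) hK.le hN'.le U q a b D E F
  have s2 := SD_nonneg (A := A) (B := B) hK.le hN'.le V p b a D E F
  by_cases hc : IsCoprime (D * F) (p * q)
  · rw [if_pos hc]
    unfold SD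
    rw [if_pos hc.of_mul_right_right, if_pos hc.of_mul_right_left]
  · rw [if_neg hc]
    have := hρ a ha b hb
    positivity

/-! ### the twist goes into the mode -/

lemma TT_congr {u v : Eis → ℂ} {H : Eis} (h : ∀ m, u m = v m ∨ sy H m = 0) (t : ℝ) :
    TT u H t = TT v H t := by
  unfold TT TG
  refine tsum_congr fun m => ?_
  beta_reduce
  rcases h m with h1 | h1
  · rw [h1]
  · rw [h1]; simp

lemma EQ_congr' {A : ℝ} {u v : Eis → ℂ} {H : Eis} (h : ∀ m, u m = v m ∨ sy H m = 0) :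
    EQ A u H = EQ A v H := by
  unfold EQ
  simp only [TT_congr h]

/-- **the twist by `q / a` goes into the mode** -/
theorem EQ_merge {Y₀ : ℝ} (hY : 0 ≤ Y₀) {U : Eis → ℂ} (hU : ∀ n, U n ≠ 0 → n ∈ S Y₀) (A : ℝ)
    {q a c D E F x : Eis} (hq : IsPrim q) (ha : a ∈ dvs q) (hD : IsPrim D) (hF : IsPrim F)
    (hc : IsCoprime (D * F) q) :
    EQ A (rs (ua U q a) (fun _ => 1) D F) (Hf 3 E x F * (q / a * c)) =
      EQ A (rs (ua U a a) (fun _ => 1) D F) (Hf 3 E (x * (q / a)) F * c) := by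
  obtain ⟨h1, h1'⟩ := dvs_quo hq ha
  have hap := isPrim_of_mem_dvs ha
  have e1 : Hf 3 E x F * (q / a * c) = Hf 3 E (x * (q / a)) F * c := by unfold Hf; ring
  rw [e1]
  refine EQ_congr' fun μ => ?_
  unfold rs ua
  by_cases h2 : IsCoprime (D * F * μ) q
  · left
    have h3 : IsCoprime (D * F * μ) a := by
      rw [h1'] at h2
      exact h2.of_mul_right_left
    rw [if_pos h2, if_pos h3]
  · by_cases h3 : IsCoprime (D * F * μ) a
    · by_cases h4 : U (a * (D * F * μ)) = 0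
      · left; rw [if_neg h2, if_pos h3, h4]
      · right
        have h5 : IsPrim (a * (D * F * μ)) := ((mem_S hY).1 (hU _ h4)).2.1
        have hμ : IsPrim μ := (h5.of_mul_left hap).of_mul_left (hD.mul hF)
        have h6 : ¬ IsCoprime (Hf 3 E (x * (q / a)) F * c) μ := by
          intro h7
          apply h2
          have h8 : IsCoprime (q / a) μ := by
            have e2 : Hf 3 E (x * (q / a)) F * c = (q / a) * (x * (E * (3 * sq3)) ^ 2 * F * c) := by
              unfold Hf; ring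
            rw [e2] at h7
            exact h7.of_mul_left_left
          have h9 : IsCoprime (D * F * μ) (q / a) := by
            refine IsCoprime.mul_left ?_ h8.symm
            rw [h1'] at hc
            exact hc.of_mul_right_right
          rw [h1']
          exact h3.mul_right h9
        exact (syG.eq_zero _ _ hμ).mpr h6
    · left; rw [if_neg h2, if_neg h3]

/-! ### the partners together -/

lemma Wl_le_merge {B : ℕ} {lam lm : ℝ} {h q : Eis} (hl : 0 < lam) (hlm : 0 < lm)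
    (h1 : lam * nm q ≤ lm) : Wl B lam h ≤ Wl B lm (h * q) := by
  unfold Wl
  have hh : (0 : ℝ) ≤ nm h := Nat.cast_nonneg _
  have h2 : (nm (h * q) : ℝ) / lm ≤ nm h / lam := by
    rw [nm_mul]
    push_cast
    rw [div_le_div_iff₀ hlm hl]
    nlinarith
  have h3 : (0 : ℝ) ≤ (nm (h * q) : ℝ) / lm := by positivity
  refine inv_anti₀ (by positivity) (pow_le_pow_left₀ (by positivity) (by linarith) B)

theorem merge {κ : Type*} {J : Finset κ} {qj : κ → Eis} {lam cj : κ → ℝ} {lm T : ℝ} {F : Eis → ℝ}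
    {B : ℕ} (hF : ∀ w, 0 ≤ F w) (hq : ∀ j ∈ J, qj j ≠ 0) (hc : ∀ j ∈ J, 0 ≤ cj j)
    (hlam : ∀ j ∈ J, 0 < lam j ∧ lam j * nm (qj j) ≤ lm) (hlm : 0 < lm)
    (hT : ∀ w : Eis, w ≠ 0 → ∑ j ∈ J, (if qj j ∣ w then cj j else 0) ≤ T * tau w)
    (hs : Summable fun w : Eis => if w = 0 then 0 else Wl B lm w * (tau w * F w)) :
    ∑ j ∈ J, cj j * ∑' h : Eis, (if h = 0 then 0 else Wl B (lam j) h * F (h * qj j)) ≤
      T * ∑' w : Eis, (if w = 0 then 0 else Wl B lm w * (tau w * F w)) := by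
  set g : κ → Eis → ℝ := fun j w => if w = 0 then 0 else
    (if qj j ∣ w then Wl B lm w * F w else 0) with hg
  have hg0 : ∀ j w, 0 ≤ g j w := by
    intro j w
    rw [hg]; beta_reduce
    split_ifs
    · exact le_rfl
    · exact mul_nonneg (Wl_nonneg B hlm.le w) (hF w)
    · exact le_rfl
  have hgs : ∀ j, Summable (g j) := by
    intro j
    refine Summable.of_nonneg_of_le (hg0 j) (fun w => ?_) hs
    rw [hg]; beta_reduce
    by_cases hw : w = 0
    · simp [hw]
    · rw [if_neg hw, if_neg hw]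
      have h1 : (1 : ℝ) ≤ tau w := by exact_mod_cast Div277.one_le_tau hw
      have h2 := Wl_nonneg B hlm.le w
      have h3 := hF w
      split_ifs
      · calc Wl B lm w * F w = Wl B lm w * (1 * F w) := by rw [one_mul]
          _ ≤ _ := mul_le_mul_of_nonneg_left (mul_le_mul_of_nonneg_right h1 h3) h2
      · positivity
  have step : ∀ j ∈ J, ∑' h : Eis, (if h = 0 then 0 else Wl B (lam j) h * F (h * qj j)) ≤
      ∑' w : Eis, g j w := by
    intro j hj
    have hq0 := hq j hj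
    have hinj : Function.Injective fun h : Eis => h * qj j :=
      fun a b h => mul_right_cancel₀ hq0 h
    have e1 : ∑' w : Eis, g j w = ∑' h : Eis, g j (h * qj j) := by
      rw [← hinj.tsum_eq (f := g j)]
      intro w hw
      have : qj j ∣ w := by
        by_contra h
        apply hw
        rw [hg]; beta_reduce
        split_ifs <;> rfl
      obtain ⟨c, hc'⟩ := this
      exact ⟨c, by rw [hc', mul_comm]⟩
    rw [e1]
    have hsum2 : Summable fun h : Eis => g j (h * qj j) := (hgs j).comp_injective hinj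
    have hle : ∀ h : Eis, (if h = 0 then 0 else Wl B (lam j) h * F (h * qj j)) ≤
        g j (h * qj j) := by
      intro h
      by_cases hh : h = 0
      · rw [if_pos hh]; exact hg0 _ _
      · rw [if_neg hh, hg]
        beta_reduce
        rw [if_neg (mul_ne_zero hh hq0), if_pos (dvd_mul_left _ _)]
        exact mul_le_mul_of_nonneg_right (Wl_le_merge (hlam j hj).1 hlm (hlam j hj).2) (hF _)
    refine Summable.tsum_le_tsum hle (Summable.of_nonneg_of_le (fun h => ?_) hle hsum2) hsum2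
    split_ifs
    · exact le_rfl
    · exact mul_nonneg (Wl_nonneg B (hlam j hj).1.le h) (hF _)
  calc ∑ j ∈ J, cj j * ∑' h : Eis, (if h = 0 then 0 else Wl B (lam j) h * F (h * qj j))
      ≤ ∑ j ∈ J, cj j * ∑' w : Eis, g j w :=
        Finset.sum_le_sum fun j hj => mul_le_mul_of_nonneg_left (step j hj) (hc j hj)
    _ = ∑' w : Eis, ∑ j ∈ J, cj j * g j w := by
        rw [Summable.tsum_finsetSum (fun j _ => (hgs j).mul_left _)]
        exact Finset.sum_congr rfl fun j _ => tsum_mul_left.symm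
    _ ≤ ∑' w : Eis, T * (if w = 0 then 0 else Wl B lm w * (tau w * F w)) := by
        refine Summable.tsum_le_tsum (fun w => ?_) (summable_sum fun j _ => (hgs j).mul_left _)
          (hs.mul_left T)
        rw [hg]; beta_reduce
        by_cases hw : w = 0
        · simp [hw]
        · simp only [if_neg hw]
          have h1 : ∑ j ∈ J, cj j * (if qj j ∣ w then Wl B lm w * F w else 0) =
              (Wl B lm w * F w) * ∑ j ∈ J, (if qj j ∣ w then cj j else 0) := by
            rw [Finset.mul_sum]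
            refine Finset.sum_congr rfl fun j _ => ?_
            split_ifs <;> ring
          rw [h1]
          have h2 : 0 ≤ Wl B lm w * F w := mul_nonneg (Wl_nonneg B hlm.le w) (hF w)
          calc _ ≤ (Wl B lm w * F w) * (T * tau w) := mul_le_mul_of_nonneg_left (hT w hw) h2
            _ = _ := by ring
    _ = _ := tsum_mul_left

/-! ### all pairs -/

variable {ι : Type*} {I : Finset ι} {m : ι → Eis} {V : ι → Eis → ℂ} {Y₀ : ℝ}

/-- the product of the lengths -/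
def NNp (N : ι → ℝ) (m : ι → Eis) (i j : ι) (a b : Eis) : ℝ :=
  N i * N j * nm (pq m i j) * nm (pq m j i) / (nm a * nm b)

/-- the weight of Cauchy-Schwarz -/
def rhp (N : ι → ℝ) (m : ι → Eis) (i j : ι) (a b : Eis) : ℝ :=
  Real.sqrt ((N j * nm (pq m i j / b)) / (N i * nm (pq m j i / a)))

/-- one term -/
def TU (A B : ℕ) (K : ℝ) (N : ι → ℝ) (m : ι → Eis) (V : ι → Eis → ℂ) (i j : ι)
    (s a b D E F : Eis) : ℝ :=
  (K / nm s) / Real.sqrt (NNp N m i j a b) * (nm D / nm E : ℝ) * (rhp N m i j a b *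
    SD A B (K / nm s) (NNp N m i j a b) (tws s (V i)) (pq m j i) a b D E F)

lemma NNp_comm (N : ι → ℝ) (m : ι → Eis) (i j : ι) (a b : Eis) :
    NNp N m i j a b = NNp N m j i b a := by
  unfold NNp
  rw [mul_comm (N i) (N j), mul_assoc (N j * N i), mul_comm (nm (pq m i j) : ℝ), ← mul_assoc,
    mul_comm (nm a : ℝ)]

lemma rhp_inv (N : ι → ℝ) (m : ι → Eis) (i j : ι) (a b : Eis) :
    (rhp N m i j a b)⁻¹ = rhp N m j i b a := by
  unfold rhp
  rw [← Real.sqrt_inv, inv_div]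

lemma PI.gq_comm (h : PI I m V Y₀) {i j : ι} (hi : i ∈ I) (hj : j ∈ I) : gq m i j = gq m j i :=
  gp_comm' (h.hm i hi) (h.hm j hj)

/-- the total of the modes of all pairs, one side -/
theorem PI.OFF_le_TU (h : PI I m V Y₀) {Y : ℝ}
    (hY : ∀ i ∈ I, ∀ j ∈ I, (nm (m i) : ℝ) * nm (m j) * Y₀ ≤ Y) {A B : ℕ} (hA : 1 < A)
    (hB : 1 < B) {K : ℝ} (hK : 0 < K) {N : ι → ℝ} (hN : ∀ i ∈ I, 0 < N i) :
    ∑ i ∈ I, ∑ j ∈ I, ∑ s ∈ pdiv (gq m i j),
        MP A B 3 (fun _ => 1) (K / nm s) (N i * N j) Y (pq m i j) (pq m j i)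
          (tws s (V i)) (tws s (V j)) ≤
      2 * ∑ i ∈ I, ∑ j ∈ I, ∑ s ∈ pdiv (gq m i j), ∑ a ∈ dvs (pq m j i), ∑ b ∈ dvs (pq m i j),
        ∑ D ∈ S Y, ∑ E ∈ pdiv D, ∑ F ∈ S Y, TU A B K N m V i j s a b D E F := by
  have key : ∀ i ∈ I, ∀ j ∈ I, ∀ s ∈ pdiv (gq m i j),
      MP A B 3 (fun _ => 1) (K / nm s) (N i * N j) Y (pq m i j) (pq m j i)
          (tws s (V i)) (tws s (V j)) ≤
      ∑ a ∈ dvs (pq m j i), ∑ b ∈ dvs (pq m i j), ∑ D ∈ S Y, ∑ E ∈ pdiv D, ∑ F ∈ S Y,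
        (TU A B K N m V i j s a b D E F + TU A B K N m V j i s b a D E F) := by
    intro i hi j hj s hs
    obtain ⟨hpd, -, -⟩ := h.pd hi hj (hY i hi j hj)
    obtain ⟨hsp, -⟩ := (mem_pdiv hpd.hg.ne_zero).mp hs
    have ns := nmpos hsp.ne_zero
    have hNi := hN i hi
    have hNj := hN j hj
    have hρ : ∀ a ∈ dvs (pq m j i), ∀ b ∈ dvs (pq m i j), 0 < rhp N m i j a b := by
      intro a ha b hb
      have h1 := nmpos (dvs_quo hpd.hq ha).1.ne_zero
      have h2 := nmpos (dvs_quo hpd.hp hb).1.ne_zero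
      unfold rhp
      exact Real.sqrt_pos.mpr (by positivity)
    have h1 := MP_le_SD (hpd.twist s) hA hB (K := K / nm s) (by positivity)
      (NN := N i * N j) (by positivity) hρ
    refine h1.trans (le_of_eq ?_)
    refine Finset.sum_congr rfl fun a ha => Finset.sum_congr rfl fun b hb =>
      Finset.sum_congr rfl fun D hD => Finset.sum_congr rfl fun E hE =>
      Finset.sum_congr rfl fun F hF => ?_
    have e1 : TU A B K N m V j i s b a D E F = (K / nm s) / Real.sqrt (NNp N m i j a b) *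
        (nm D / nm E : ℝ) * ((rhp N m i j a b)⁻¹ *
        SD A B (K / nm s) (NNp N m i j a b) (tws s (V j)) (pq m i j) b a D E F) := by
      unfold TU
      rw [← NNp_comm N m i j a b, rhp_inv]
    rw [e1]
    unfold TU
    have e2 : N i * N j * nm (pq m i j) * nm (pq m j i) / (nm a * nm b) = NNp N m i j a b := rfl
    rw [e2]
    ring
  refine (Finset.sum_le_sum fun i hi => Finset.sum_le_sum fun j hj =>
    Finset.sum_le_sum fun s hs => key i hi j hj s hs).trans (le_of_eq ?_)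
  simp only [Finset.sum_add_distrib]
  have e3 : ∑ i ∈ I, ∑ j ∈ I, ∑ s ∈ pdiv (gq m i j), ∑ a ∈ dvs (pq m j i),
      ∑ b ∈ dvs (pq m i j), ∑ D ∈ S Y, ∑ E ∈ pdiv D, ∑ F ∈ S Y, TU A B K N m V j i s b a D E F =
      ∑ i ∈ I, ∑ j ∈ I, ∑ s ∈ pdiv (gq m i j), ∑ a ∈ dvs (pq m j i),
      ∑ b ∈ dvs (pq m i j), ∑ D ∈ S Y, ∑ E ∈ pdiv D, ∑ F ∈ S Y, TU A B K N m V i j s a b D E F := by
    rw [Finset.sum_comm]
    refine Finset.sum_congr rfl fun i hi => Finset.sum_congr rfl fun j hj => ?_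
    rw [h.gq_comm hj hi]
    refine Finset.sum_congr rfl fun s _ => ?_
    rw [Finset.sum_comm]
  rw [e3]
  ring

/-- one term, closed form -/
lemma TU_eq {A B : ℕ} {K : ℝ} (hK : 0 < K) {N : ι → ℝ} {i j : ι} (hNi : 0 < N i) (hNj : 0 < N j)
    {s a b D E F : Eis} (hp : IsPrim (pq m i j)) (hq : IsPrim (pq m j i))
    (ha : a ∈ dvs (pq m j i)) (hb : b ∈ dvs (pq m i j)) :
    TU A B K N m V i j s a b D E F = ((K / nm s) * (nm D / nm E) / N i) *
      ((nm (pq m j i / a) : ℝ)⁻¹ *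
        SD A B (K / nm s) (NNp N m i j a b) (tws s (V i)) (pq m j i) a b D E F) := by
  obtain ⟨h1, h1'⟩ := dvs_quo hq ha
  obtain ⟨h2, h2'⟩ := dvs_quo hp hb
  have n1 := nmpos h1.ne_zero
  have n2 := nmpos h2.ne_zero
  have n3 := nmpos (isPrim_of_mem_dvs ha).ne_zero
  have n4 := nmpos (isPrim_of_mem_dvs hb).ne_zero
  have e1 : (nm (pq m j i) : ℝ) = nm a * nm (pq m j i / a) := by
    have := congrArg nm h1'
    rw [nm_mul] at this
    exact_mod_cast this
  have e2 : (nm (pq m i j) : ℝ) = nm b * nm (pq m i j / b) := by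
    have := congrArg nm h2'
    rw [nm_mul] at this
    exact_mod_cast this
  have e3 : NNp N m i j a b = (N i * nm (pq m j i / a)) * (N j * nm (pq m i j / b)) := by
    unfold NNp
    rw [e1, e2]
    field_simp
  have e4 : rhp N m i j a b / Real.sqrt (NNp N m i j a b) = (N i * nm (pq m j i / a))⁻¹ := by
    unfold rhp
    rw [e3]
    set x : ℝ := N i * nm (pq m j i / a) with hx
    set y : ℝ := N j * nm (pq m i j / b) with hy
    have hx0 : 0 < x := by positivity
    have hy0 : 0 < y := by positivity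
    rw [← Real.sqrt_div (by positivity)]
    have : y / x / (x * y) = (x⁻¹) ^ 2 := by field_simp
    rw [this, Real.sqrt_sq (by positivity)]
  unfold TU
  calc _ = (K / nm s) * (nm D / nm E) * (rhp N m i j a b / Real.sqrt (NNp N m i j a b)) *
        SD A B (K / nm s) (NNp N m i j a b) (tws s (V i)) (pq m j i) a b D E F := by ring
    _ = _ := by rw [e4, mul_inv]; ring

/-! ### the merged sum -/

/-- the multiplicity of the partners -/
lemma mult_le {κ : Type*} {J : Finset κ} {qj : κ → Eis} (hq : ∀ j ∈ J, IsPrim (qj j)) {cm : ℝ}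
    (hcm : 0 ≤ cm) {T : ℕ} (h1 : ∀ j ∈ J, (nm (qj j) : ℝ)⁻¹ ≤ cm)
    (hT : ∀ q, (J.filter (fun j => qj j = q)).card ≤ T) {w : Eis} (hw : w ≠ 0) :
    ∑ j ∈ J, (if qj j ∣ w then (nm (qj j) : ℝ)⁻¹ else 0) ≤ (cm * T) * tau w := by
  rw [← Finset.sum_filter]
  have hcard : (J.filter (fun j => qj j ∣ w)).card ≤ tau w * T := by
    have hmaps : ∀ j ∈ J.filter (fun j => qj j ∣ w), qj j ∈ dvs w := by
      intro j hj
      rw [Finset.mem_filter] at hj
      exact (mem_dvs hw).mpr ⟨hq j hj.1, hj.2⟩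
    rw [Finset.card_eq_sum_card_fiberwise hmaps]
    have h2 : ∀ q ∈ dvs w, ((J.filter (fun j => qj j ∣ w)).filter (fun j => qj j = q)).card ≤ T := by
      intro q _
      refine (Finset.card_le_card ?_).trans (hT q)
      exact Finset.filter_subset_filter _ (Finset.filter_subset _ _)
    refine (Finset.sum_le_sum h2).trans (le_of_eq ?_)
    rw [Finset.sum_const, smul_eq_mul]
    rfl
  calc ∑ j ∈ J.filter (fun j => qj j ∣ w), (nm (qj j) : ℝ)⁻¹
      ≤ ∑ j ∈ J.filter (fun j => qj j ∣ w), cm :=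
        Finset.sum_le_sum fun j hj => h1 j (Finset.mem_filter.mp hj).1
    _ = (J.filter (fun j => qj j ∣ w)).card * cm := by rw [Finset.sum_const, nsmul_eq_mul]
    _ ≤ ((tau w * T : ℕ) : ℝ) * cm := by
        refine mul_le_mul_of_nonneg_right ?_ hcm
        exact_mod_cast hcard
    _ = _ := by push_cast; ring

/-- the scale of the merged modes -/
def lmM (K : ℝ) (N : ι → ℝ) (m : ι → Eis) (Λ : ℝ) (i : ι) (g s b a D E : Eis) : ℝ :=
  27 * nm E * nm s * N i * Λ * nm (m i / g / b) / ((nm g : ℝ) ^ 2 * (nm a : ℝ) ^ 2 * K *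
    (nm D : ℝ) ^ 2)

/-- the cell sequence -/
def uc (V : ι → Eis → ℂ) (i : ι) (s a D F : Eis) : Eis → ℂ :=
  rs (ua (tws s (V i)) a a) (fun _ => 1) D F

/-- the merged modes of one cell -/
def MG (A B : ℕ) (K : ℝ) (T : ℕ) (N : ι → ℝ) (m : ι → Eis) (V : ι → Eis → ℂ) (Λ m₀ : ℝ) (i : ι)
    (g s b a D E F : Eis) : ℝ :=
  ((K / nm s) * (nm D / nm E) / N i) * ((min 1 (nm g * nm a / m₀) * T) *
    ∑' w : Eis, (if w = 0 then 0 else Wl B (lmM K N m Λ i g s b a D E) w *
      (tau w * EQ A (uc V i s a D F) (Hf 3 E w F * b))))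

lemma summable_MG {A B : ℕ} (hA : 1 < A) (hB : 3 ≤ B) {Y₀ : ℝ} (hY : 0 ≤ Y₀) {u : Eis → ℂ}
    (hu : ∀ n, u n ≠ 0 → n ∈ S Y₀) (E F b : Eis) {lm : ℝ} (hlm : 0 < lm) :
    Summable fun w : Eis => if w = 0 then 0 else Wl B lm w *
      (tau w * EQ A u (Hf 3 E w F * b)) := by
  have hA' : (1 : ℝ) < (A : ℝ) := by exact_mod_cast hA
  obtain ⟨C, hC, hτ⟩ := tau_le_rpow (ε := 1) one_pos
  set c : ℝ := (∫ t, jb (A : ℝ) t) * (∑ k ∈ S Y₀, ‖u k‖) ^ 2 with hc
  have hj : 0 ≤ ∫ t, jb (A : ℝ) t := integral_nonneg fun t => (jb_pos _ t).le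
  have hc0 : 0 ≤ c := by positivity
  refine summable_W (F := fun w => tau w * EQ A u (Hf 3 E w F * b))
    (fun w => mul_nonneg (Nat.cast_nonneg _) (EQ_nonneg _ _ _)) (a := 2) (B := B) (by omega)
    (G := fun L => 16 * C * c * L ^ 2) (fun L hL => ?_) (fun L hL => le_of_eq (by ring)) hlm
  have hL0 : 0 ≤ L := by linarith
  calc ∑ w ∈ bl L, (tau w : ℝ) * EQ A u (Hf 3 E w F * b) ≤ ∑ w ∈ bl L, (C * L) * c := by
        refine Finset.sum_le_sum fun w hw => ?_
        obtain ⟨hw0, hwL⟩ := (mem_bl hL0).1 hw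
        refine mul_le_mul ?_ (EQ_le hA' hY hu _) (EQ_nonneg _ _ _) (by positivity)
        refine (hτ w hw0).trans ?_
        rw [Real.rpow_one]
        exact mul_le_mul_of_nonneg_left hwL (by linarith)
    _ = (bl L).card * ((C * L) * c) := by rw [Finset.sum_const, nsmul_eq_mul]
    _ ≤ (16 * L) * ((C * L) * c) :=
        mul_le_mul_of_nonneg_right (CR2.card_bl_le hL0) (by positivity)
    _ = _ := by ring

/-- **the partners of `i` in one cell** -/
theorem PI.cell_le (h : PI I m V Y₀) {Y : ℝ}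
    (hY : ∀ i ∈ I, ∀ j ∈ I, (nm (m i) : ℝ) * nm (m j) * Y₀ ≤ Y) {A B : ℕ} (hA : 1 < A)
    (hB : 3 ≤ B) {K : ℝ} (hK : 0 < K) {N : ι → ℝ} (hN : ∀ i ∈ I, 0 < N i) {Λ m₀ : ℝ}
    (hΛ : ∀ j ∈ I, N j * (nm (m j) : ℝ) ^ 2 ≤ Λ) (hm₀ : 0 < m₀) (hm : ∀ j ∈ I, m₀ ≤ nm (m j))
    {T : ℕ} (hT : ∀ i ∈ I, (I.filter (fun j => m j = m i)).card ≤ T) {i : ι} (hi : i ∈ I)
    {g s b a D E F : Eis} (hg : g ∈ dvs (m i)) (hs : s ∈ pdiv g) (hb : b ∈ dvs (m i / g))
    (ha : IsPrim a) (hD : IsPrim D) (hE : IsPrim E) (hF : IsPrim F) :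
    ∑ j ∈ I.filter (fun j => gq m i j = g ∧ a ∣ pq m j i), TU A B K N m V i j s a b D E F ≤
      MG A B K T N m V Λ m₀ i g s b a D E F := by
  set J := I.filter (fun j => gq m i j = g ∧ a ∣ pq m j i) with hJ
  have hgp := isPrim_of_mem_dvs hg
  obtain ⟨hsp, -⟩ := (mem_pdiv hgp.ne_zero).mp hs
  obtain ⟨hp1, hp1'⟩ := dvs_quo (h.hm i hi) hg
  obtain ⟨hp2, hp2'⟩ := dvs_quo hp1 hb
  have hbp := isPrim_of_mem_dvs hb
  have hNi := hN i hi
  have ns := nmpos hsp.ne_zero
  have nD := nmpos hD.ne_zero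
  have nE := nmpos hE.ne_zero
  have ng := nmpos hgp.ne_zero
  have na := nmpos ha.ne_zero
  have nb := nmpos hbp.ne_zero
  have np2 := nmpos hp2.ne_zero
  have nmi := nmpos (h.hm i hi).ne_zero
  have hΛ0 : 0 < Λ := lt_of_lt_of_le (by positivity) (hΛ i hi)
  set lm := lmM K N m Λ i g s b a D E with hlm
  have hlm0 : 0 < lm := by rw [hlm]; unfold lmM; positivity
  -- the data of `j`
  have hdat : ∀ j ∈ J, j ∈ I ∧ pq m i j = m i / g ∧ IsPrim (pq m j i) ∧ a ∈ dvs (pq m j i) ∧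
      b ∈ dvs (pq m i j) ∧ IsPrim (pq m i j) ∧ m j = g * a * (pq m j i / a) ∧
      IsPrim (pq m j i / a) := by
    intro j hj
    rw [hJ, Finset.mem_filter] at hj
    obtain ⟨hjI, hjg, hja⟩ := hj
    obtain ⟨hpd, e1, e2⟩ := h.pd hi hjI (hY i hi j hjI)
    have e3 : pq m i j = m i / g := by rw [← hjg]; rfl
    have e4 : a ∈ dvs (pq m j i) := (mem_dvs hpd.hq.ne_zero).mpr ⟨ha, hja⟩
    obtain ⟨h5, h5'⟩ := dvs_quo hpd.hq e4
    refine ⟨hjI, e3, hpd.hq, e4, e3 ▸ hb, hpd.hp, ?_, h5⟩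
    conv_lhs => rw [e2, hjg, h5']
    ring
  -- one term
  set Fm : Eis → ℝ := fun w => EQ A (uc V i s a D F) (Hf 3 E w F * b) with hFm
  have hF0 : ∀ w, 0 ≤ Fm w := fun w => EQ_nonneg _ _ _
  set lam : ι → ℝ := fun j => lmB 3 (K / nm s) (NNp N m i j a b) 1 D E with hlam
  have hU : ∀ n, tws s (V i) n ≠ 0 → n ∈ S Y₀ :=
    fun n hn => h.hV i hi n (left_ne_zero_of_mul hn)
  have hterm : ∀ j ∈ J, TU A B K N m V i j s a b D E F ≤ ((K / nm s) * (nm D / nm E) / N i) *
      ((nm (pq m j i / a) : ℝ)⁻¹ * ∑' x : Eis, (if x = 0 then 0 else Wl B (lam j) x *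
        Fm (x * (pq m j i / a)))) := by
    intro j hj
    obtain ⟨hjI, e1, e2, e3, e4, e5, e6, e7⟩ := hdat j hj
    have hNj := hN j hjI
    rw [TU_eq hK hNi hNj e5 e2 e3 e4]
    refine mul_le_mul_of_nonneg_left ?_ (by positivity)
    refine mul_le_mul_of_nonneg_left ?_ (by positivity)
    have n7 := nmpos e7.ne_zero
    have n5 := nmpos e5.ne_zero
    have n2 := nmpos e2.ne_zero
    have hNN : 0 < NNp N m i j a b := by unfold NNp; positivity
    have hl0 : 0 < lam j := by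
      rw [hlam]; unfold lmB
      have : (0 : ℝ) < nm (3 : Eis) := nmpos (by norm_num)
      positivity
    unfold SD
    split_ifs with hc
    · refine le_of_eq (tsum_congr fun x => ?_)
      rw [WB_eq_Wl, EQ_merge h.Y0 hU _ e2 e3 hD hF hc]
      rfl
    · refine tsum_nonneg fun x => ?_
      split_ifs
      · exact le_rfl
      · exact mul_nonneg (Wl_nonneg B hl0.le x) (hF0 _)
  refine (Finset.sum_le_sum hterm).trans ?_
  rw [← Finset.mul_sum]
  unfold MG
  refine mul_le_mul_of_nonneg_left ?_ (by positivity)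
  refine merge (F := Fm) hF0 (fun j hj => (hdat j hj).2.2.2.2.2.2.2.ne_zero)
    (fun j _ => by positivity) (fun j hj => ?_) hlm0 (fun w hw => ?_) ?_
  · obtain ⟨hjI, e1, e2, e3, e4, e5, e6, e7⟩ := hdat j hj
    have hNj := hN j hjI
    have n7 := nmpos e7.ne_zero
    have n5 := nmpos e5.ne_zero
    have n2 := nmpos e2.ne_zero
    have hNN : 0 < NNp N m i j a b := by unfold NNp; positivity
    have n3 : (nm (3 : Eis) : ℝ) = 9 := by rw [nm_three]; norm_num
    have a1 : (nm (pq m j i) : ℝ) = nm a * nm (pq m j i / a) := by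
      have := congrArg nm (dvs_quo e2 e3).2
      rw [nm_mul] at this
      exact_mod_cast this
    have a2 : (nm (pq m i j) : ℝ) = nm b * nm (m i / g / b) := by
      rw [e1]
      have := congrArg nm hp2'
      rw [nm_mul] at this
      exact_mod_cast this
    have a3 : (nm (m j) : ℝ) = nm g * nm a * nm (pq m j i / a) := by
      have := congrArg nm e6
      rw [nm_mul, nm_mul] at this
      exact_mod_cast this
    have a4 := hΛ j hjI
    rw [a3] at a4
    refine ⟨?_, ?_⟩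
    · rw [hlam]; beta_reduce; unfold lmB
      rw [n3]; positivity
    · show lmB 3 (K / nm s) (NNp N m i j a b) 1 D E * nm (pq m j i / a) ≤
        lmM K N m Λ i g s b a D E
      unfold lmB lmM NNp
      rw [n3, a1, a2]
      set q₂ : ℝ := ((nm (pq m j i / a) : ℕ) : ℝ) with hq2
      set p₂ : ℝ := ((nm (m i / g / b) : ℕ) : ℝ) with hp2d
      have lhs : 3 * 9 * (nm E : ℝ) * (N i * N j * (nm b * p₂) * (nm a * q₂) / (nm a * nm b) * 1) /
          (K / nm s * (nm D : ℝ) ^ 2) * q₂ =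
          27 * nm E * nm s * N i * (N j * (nm g * nm a * q₂) ^ 2) * p₂ /
            ((nm g : ℝ) ^ 2 * (nm a : ℝ) ^ 2 * K * (nm D : ℝ) ^ 2) := by
        field_simp
        ring
      rw [lhs]
      refine div_le_div_of_nonneg_right ?_ (by positivity)
      refine mul_le_mul_of_nonneg_right ?_ np2.le
      exact mul_le_mul_of_nonneg_left a4 (by positivity)
  · refine mult_le (fun j hj => (hdat j hj).2.2.2.2.2.2.2) (by positivity) (fun j hj => ?_)
      (fun q => ?_) hw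
    · obtain ⟨hjI, e1, e2, e3, e4, e5, e6, e7⟩ := hdat j hj
      have n7 := nm_ge_one e7.ne_zero
      have a3 : (nm (m j) : ℝ) = nm g * nm a * nm (pq m j i / a) := by
        have := congrArg nm e6
        rw [nm_mul, nm_mul] at this
        exact_mod_cast this
      have a4 := hm j hjI
      rw [a3] at a4
      refine le_min (inv_le_one_of_one_le₀ n7) ?_
      rw [inv_eq_one_div, div_le_div_iff₀ (by linarith) hm₀, one_mul]
      exact a4
    · by_cases hne : (J.filter (fun j => pq m j i / a = q)).Nonempty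
      · obtain ⟨j0, hj0⟩ := hne
        rw [Finset.mem_filter] at hj0
        have hj0I := (hdat j0 hj0.1).1
        refine (Finset.card_le_card ?_).trans (hT j0 hj0I)
        intro j hj
        rw [Finset.mem_filter] at hj ⊢
        refine ⟨(hdat j hj.1).1, ?_⟩
        rw [(hdat j hj.1).2.2.2.2.2.2.1, (hdat j0 hj0.1).2.2.2.2.2.2.1, hj.2, hj0.2]
      · rw [Finset.not_nonempty_iff_eq_empty.mp hne]
        simp
  · refine summable_MG hA hB h.Y0 (u := uc V i s a D F) (fun n hn => ?_) E F b hlm0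
    unfold uc rs at hn
    obtain ⟨-, h2⟩ := ua_ne (left_ne_zero_of_mul hn)
    have h3 := hU _ h2
    have h4 := (mem_S h.Y0).1 h3
    have h5 : IsPrim (a * (D * F)) := ha.mul (hD.mul hF)
    have e : a * (D * F * n) = a * (D * F) * n := by ring
    rw [e] at h3 h4
    exact Dual2813.S_of_dvd h.Y0 h3 (IsPrim.of_mul_left h4.2.1 h5) (dvd_mul_left _ _)

/-- the total of the merged modes -/
def OFFM (A B : ℕ) (K : ℝ) (T : ℕ) (N : ι → ℝ) (m : ι → Eis) (V : ι → Eis → ℂ) (Λ m₀ Y M₀ : ℝ)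
    (I : Finset ι) : ℝ :=
  ∑ i ∈ I, ∑ g ∈ dvs (m i), ∑ s ∈ pdiv g, ∑ b ∈ dvs (m i / g), ∑ a ∈ S M₀,
    ∑ D ∈ S Y, ∑ E ∈ pdiv D, ∑ F ∈ S Y, MG A B K T N m V Λ m₀ i g s b a D E F

/-- **the total of the modes of all pairs, merged** -/
theorem PI.OFF_le (h : PI I m V Y₀) {Y : ℝ}
    (hY : ∀ i ∈ I, ∀ j ∈ I, (nm (m i) : ℝ) * nm (m j) * Y₀ ≤ Y) {A B : ℕ} (hA : 1 < A)
    (hB : 3 ≤ B) {K : ℝ} (hK : 0 < K) {N : ι → ℝ} (hN : ∀ i ∈ I, 0 < N i) {Λ m₀ M₀ : ℝ}
    (hΛ : ∀ j ∈ I, N j * (nm (m j) : ℝ) ^ 2 ≤ Λ) (hm₀ : 0 < m₀) (hm : ∀ j ∈ I, m₀ ≤ nm (m j))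
    (hM₀ : ∀ j ∈ I, (nm (m j) : ℝ) ≤ M₀)
    {T : ℕ} (hT : ∀ i ∈ I, (I.filter (fun j => m j = m i)).card ≤ T) :
    ∑ i ∈ I, ∑ j ∈ I, ∑ s ∈ pdiv (gq m i j),
        MP A B 3 (fun _ => 1) (K / nm s) (N i * N j) Y (pq m i j) (pq m j i)
          (tws s (V i)) (tws s (V j)) ≤
      2 * OFFM A B K T N m V Λ m₀ Y M₀ I := by
  rcases I.eq_empty_or_nonempty with hI | ⟨i0, hi0⟩
  · subst hI; simp [OFFM]
  have hM00 : 0 ≤ M₀ := (Nat.cast_nonneg _).trans (hM₀ i0 hi0)
  have hY0 : 0 ≤ Y := le_trans (mul_nonneg (by positivity) h.Y0) (hY i0 hi0 i0 hi0)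
  refine (h.OFF_le_TU hY hA (by omega) hK hN).trans ?_
  refine mul_le_mul_of_nonneg_left ?_ (by norm_num)
  unfold OFFM
  refine Finset.sum_le_sum fun i hi => ?_
  have hmaps : ∀ j ∈ I, gq m i j ∈ dvs (m i) := by
    intro j hj
    obtain ⟨hpd, e1, -⟩ := h.pd hi hj (hY i hi j hj)
    exact (mem_dvs (h.hm i hi).ne_zero).mpr ⟨hpd.hg, ⟨_, e1⟩⟩
  rw [← Finset.sum_fiberwise_of_maps_to hmaps]
  refine Finset.sum_le_sum fun g hg => ?_
  have hgp := isPrim_of_mem_dvs hg
  -- reorganize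
  have e1 : ∑ j ∈ I.filter (fun j => gq m i j = g), ∑ s ∈ pdiv (gq m i j),
      ∑ a ∈ dvs (pq m j i), ∑ b ∈ dvs (pq m i j), ∑ D ∈ S Y, ∑ E ∈ pdiv D, ∑ F ∈ S Y,
        TU A B K N m V i j s a b D E F =
      ∑ j ∈ I.filter (fun j => gq m i j = g), ∑ s ∈ pdiv g, ∑ b ∈ dvs (m i / g),
      ∑ a ∈ S M₀, ∑ D ∈ S Y, ∑ E ∈ pdiv D, ∑ F ∈ S Y,
        (if a ∣ pq m j i then TU A B K N m V i j s a b D E F else 0) := by
    refine Finset.sum_congr rfl fun j hj => ?_
    rw [Finset.mem_filter] at hj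
    obtain ⟨hjI, hjg⟩ := hj
    obtain ⟨hpd, e1, e2⟩ := h.pd hi hjI (hY i hi j hjI)
    have e3 : pq m i j = m i / g := by rw [← hjg]; rfl
    rw [hjg, e3]
    refine Finset.sum_congr rfl fun s _ => ?_
    rw [Finset.sum_comm]
    refine Finset.sum_congr rfl fun b _ => ?_
    have e4 : dvs (pq m j i) = (S M₀).filter (fun a => a ∣ pq m j i) := by
      ext a
      rw [mem_dvs hpd.hq.ne_zero, Finset.mem_filter, mem_S hM00]
      constructor
      · rintro ⟨h1, h2⟩
        refine ⟨⟨?_, h1, hpd.qs.squarefree_of_dvd h2⟩, h2⟩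
        have h3 : (nm a : ℝ) ≤ nm (m j) := by
          exact_mod_cast Div277.nm_le_of_dvd (h.hm j hjI).ne_zero
            (h2.trans ⟨_, e2.trans (mul_comm _ _)⟩)
        exact h3.trans (hM₀ j hjI)
      · rintro ⟨⟨-, h1, -⟩, h2⟩; exact ⟨h1, h2⟩
    rw [e4, Finset.sum_filter]
    refine Finset.sum_congr rfl fun a _ => ?_
    split_ifs
    · rfl
    · simp
  rw [e1, Finset.sum_comm]
  refine Finset.sum_le_sum fun s hs => ?_
  rw [Finset.sum_comm]
  refine Finset.sum_le_sum fun b hb => ?_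
  rw [Finset.sum_comm]
  refine Finset.sum_le_sum fun a ha => ?_
  rw [Finset.sum_comm]
  refine Finset.sum_le_sum fun D hD => ?_
  rw [Finset.sum_comm]
  refine Finset.sum_le_sum fun E hE => ?_
  rw [Finset.sum_comm]
  refine Finset.sum_le_sum fun F hF => ?_
  have hap := ((mem_S hM00).1 ha).2.1
  have hDp := ((mem_S hY0).1 hD).2.1
  have hFp := ((mem_S hY0).1 hF).2.1
  have hEp := ((mem_pdiv hDp.ne_zero).mp hE).1
  refine le_trans (le_of_eq ?_) (h.cell_le hY hA hB hK hN hΛ hm₀ hm hT hi hg hs hb hap hDp hEp hFp)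
  rw [← Finset.sum_filter, Finset.filter_filter]

end Crest.Agent.R017.E3q681
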