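import Crest.Agent.R017.E3q2_681
import Crest.Agent.R012.CR2e_286
import Crest.Agent.R017.DgB_829

/-!
# Row 17, block C70, leaf E4 (x-side), the numbers (helper681)

* `LtC` : the threshold; `id1`-`id4` : the monomial identities of one cell
* `tsum_bd` : the decaying sum over the modes
* `cell_bd` : the bound of one cell
* `OFFM_le` : the total of the merged modes from the bound of the modes of every cell
-/

set_option autoImplicit false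
set_option linter.unusedVariables false
set_option maxHeartbeats 400000

noncomputable section

open Complex MeasureTheory
open scoped ComplexConjugate Classical

namespace Crest.Agent.R017.E3q681

open Crest.Agent.R012 Crest.Agent.R012.Eis Crest.Agent.R012.MC
open Crest.Agent.R012.LS2 (S mem_S bl mem_bl)
open Crest.Agent.R012.Div277 (dvs mem_dvs isPrim_of_mem_dvs dvd_of_mem_dvs tau tau_le_rpow)
open Crest.Agent.R012.Mob705 (mu pdiv mem_pdiv)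
open Crest.Agent.R017.E1551 (nmpos jb jb_pos nm_ge_one)
open Crest.Agent.R017.BD829
open Crest.Agent.R017.E3P842
open Crest.Agent.R017.E3Sh290 (Gr)
open Crest.Agent.R017.DgB829 (HS HS_nonneg HS_le)

/-! ### the real identities -/

/-- the threshold of a cell -/
def LtC (K H Λ m₀ N mi a D F : ℝ) : ℝ :=
  729 * N * mi * Λ * H / (K * m₀ ^ 3 * a ^ 2 * D ^ 2 * F ^ 3)

/-- the scale of the merged modes, real form -/
def lmR (K Λ N g s p a D E : ℝ) : ℝ := 27 * E * s * N * Λ * p / (g ^ 2 * a ^ 2 * K * D ^ 2)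

/-- the quality -/
def thR (K H Λ m₀ : ℝ) : ℝ := Λ ^ (3 / 2 : ℝ) * H / (K * m₀ ^ 3)

variable {K s D E N g a m₀ b p Λ F H mi : ℝ}

lemma id1 (hK : 0 < K) (hs : 0 < s) (hD : 0 < D) (hE : 0 < E) (hN : 0 < N) (hg : 0 < g)
    (ha : 0 < a) (hm : 0 < m₀) (hb : 0 < b) (hp : 0 < p) (hΛ : 0 < Λ) (hF : 0 < F) (hH : 0 < H)
    (hmi : mi = g * b * p) :
    (K / s) * (D / E) / N * (g * a / m₀) * (lmR K Λ N g s p a D E * (27 * E ^ 2 * s ^ 2 * b) /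
      LtC K H Λ m₀ N mi a D F) ^ (1 / 3 : ℝ) * (N / (a * D * F)) = K * H ^ (-(1 / 3) : ℝ) := by
  subst hmi
  have e1 : lmR K Λ N g s p a D E * (27 * E ^ 2 * s ^ 2 * b) /
      LtC K H Λ m₀ N (g * b * p) a D F = (E * s * m₀ * F / g) ^ 3 * H⁻¹ := by
    unfold lmR LtC
    field_simp
    ring
  have h0 : 0 ≤ E * s * m₀ * F / g := by positivity
  rw [e1, Real.mul_rpow (by positivity) (by positivity), ← Real.rpow_natCast,
    ← Real.rpow_mul h0, Real.inv_rpow hH.le, Real.rpow_neg hH.le]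
  norm_num
  have hH3 : 0 < H ^ (1 / 3 : ℝ) := Real.rpow_pos_of_pos hH _
  field_simp

lemma LtC_pos (hK : 0 < K) (hD : 0 < D) (hN : 0 < N)
    (ha : 0 < a) (hm : 0 < m₀) (hΛ : 0 < Λ) (hF : 0 < F) (hH : 0 < H)
    (hmi : 0 < mi) : 0 < LtC K H Λ m₀ N mi a D F := by unfold LtC; positivity

lemma id2 (hK : 0 < K) (hD : 1 ≤ D) (hN : 0 < N) (ha : 1 ≤ a) (hm : 0 < m₀) (hΛ : 0 < Λ)
    (hF : 1 ≤ F) (hH : 0 < H) (hmi : 0 < mi) (hNm : N * mi ^ 2 ≤ Λ) :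
    (LtC K H Λ m₀ N mi a D F * (N / (a * D * F))) ^ (2 / 3 : ℝ) +
      LtC K H Λ m₀ N mi a D F * (N / (a * D * F)) ^ (1 / 2 : ℝ) ≤
    (N / (a * D * F)) * (81 * thR K H Λ m₀ ^ (2 / 3 : ℝ) + 729 * thR K H Λ m₀) := by
  have hD0 : 0 < D := by linarith
  have ha0 : 0 < a := by linarith
  have hF0 : 0 < F := by linarith
  set Lt := LtC K H Λ m₀ N mi a D F with hLt
  set Yc := N / (a * D * F) with hYc
  set θ := thR K H Λ m₀ with hθ
  have hLt0 : 0 < Lt := LtC_pos hK hD0 hN ha0 hm hΛ hF0 hH hmi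
  have hY0 : 0 < Yc := by positivity
  have hθ0 : 0 < θ := by rw [hθ]; unfold thR; positivity
  -- the main inequality
  have hΛ32 : (Λ ^ (3 / 2 : ℝ)) ^ 2 = Λ ^ 3 := by
    rw [← Real.rpow_natCast, ← Real.rpow_mul hΛ.le, ← Real.rpow_natCast]
    norm_num
  have main : Lt ^ 2 ≤ Yc * (729 * θ) ^ 2 := by
    have e1 : Yc * (729 * θ) ^ 2 = 729 ^ 2 * N * Λ ^ 3 * H ^ 2 /
        (a * D * F * (K ^ 2 * m₀ ^ 6)) := by
      rw [hYc, hθ]
      unfold thR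
      rw [mul_pow, div_pow, mul_pow, mul_pow, hΛ32]
      field_simp
    have e2 : Lt ^ 2 = 729 ^ 2 * N * (N * mi ^ 2) * Λ ^ 2 * H ^ 2 /
        ((a * D * F * (K ^ 2 * m₀ ^ 6)) * (a ^ 3 * D ^ 3 * F ^ 5)) := by
      rw [hLt]
      unfold LtC
      rw [div_pow]
      field_simp
    rw [e1, e2]
    have h1 : (1 : ℝ) ≤ a ^ 3 * D ^ 3 * F ^ 5 := by
      have h2 := one_le_pow₀ (n := 3) ha
      have h3 := one_le_pow₀ (n := 3) hD
      have h4 := one_le_pow₀ (n := 5) hF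
      exact one_le_mul_of_one_le_of_one_le (one_le_mul_of_one_le_of_one_le h2 h3) h4
    have hden : 0 < a * D * F * (K ^ 2 * m₀ ^ 6) := by positivity
    rw [div_le_div_iff₀ (by positivity) hden]
    have h5 : 729 ^ 2 * N * (N * mi ^ 2) * Λ ^ 2 * H ^ 2 ≤ 729 ^ 2 * N * Λ ^ 3 * H ^ 2 := by
      have : 729 ^ 2 * N * Λ ^ 3 * H ^ 2 = 729 ^ 2 * N * Λ * Λ ^ 2 * H ^ 2 := by ring
      rw [this]
      gcongr
    calc _ ≤ (729 ^ 2 * N * Λ ^ 3 * H ^ 2) * (a * D * F * (K ^ 2 * m₀ ^ 6)) :=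
          mul_le_mul_of_nonneg_right h5 hden.le
      _ ≤ (729 ^ 2 * N * Λ ^ 3 * H ^ 2) * ((a * D * F * (K ^ 2 * m₀ ^ 6)) *
          (a ^ 3 * D ^ 3 * F ^ 5)) := by
          refine mul_le_mul_of_nonneg_left ?_ (by positivity)
          exact le_mul_of_one_le_right hden.le h1
  rw [mul_add]
  refine add_le_add ?_ ?_
  · -- the first term
    have e1 : (Lt * Yc) ^ (2 / 3 : ℝ) = (Lt ^ 2 * Yc ^ 2) ^ (1 / 3 : ℝ) := by
      rw [← mul_pow, ← Real.rpow_natCast, ← Real.rpow_mul (by positivity)]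
      norm_num
    have e2 : Yc * (81 * θ ^ (2 / 3 : ℝ)) = (Yc * (729 * θ) ^ 2 * Yc ^ 2) ^ (1 / 3 : ℝ) := by
      have e3 : Yc * (729 * θ) ^ 2 * Yc ^ 2 = (81 * Yc) ^ 3 * θ ^ 2 := by ring
      rw [e3, Real.mul_rpow (by positivity) (by positivity), ← Real.rpow_natCast,
        ← Real.rpow_mul (by positivity), ← Real.rpow_natCast θ 2, ← Real.rpow_mul hθ0.le]
      norm_num
      ring
    rw [e1, e2]
    refine Real.rpow_le_rpow (by positivity) ?_ (by norm_num)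
    exact mul_le_mul_of_nonneg_right main (by positivity)
  · -- the second term
    have e1 : Lt ≤ Yc ^ (1 / 2 : ℝ) * (729 * θ) := by
      have h1 : Lt ^ 2 ≤ (Yc ^ (1 / 2 : ℝ) * (729 * θ)) ^ 2 := by
        rw [mul_pow, ← Real.rpow_natCast (Yc ^ (1 / 2 : ℝ)), ← Real.rpow_mul hY0.le]
        norm_num
        linarith [main]
      exact le_of_sq_le_sq h1 (by positivity)
    calc Lt * Yc ^ (1 / 2 : ℝ) ≤ (Yc ^ (1 / 2 : ℝ) * (729 * θ)) * Yc ^ (1 / 2 : ℝ) :=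
          mul_le_mul_of_nonneg_right e1 (by positivity)
      _ = (Yc ^ (1 / 2 : ℝ) * Yc ^ (1 / 2 : ℝ)) * (729 * θ) := by ring
      _ = Yc * (729 * θ) := by
          rw [← Real.rpow_add hY0]; norm_num

lemma id3 (hK : 0 < K) (hs : 0 < s) (hD : 1 ≤ D) (hE : 0 < E) (hN : 0 < N) (hg : 1 ≤ g)
    (ha : 1 ≤ a) (hm : 0 < m₀) (hb : 1 ≤ b) (hp : 0 < p) (hΛ : 0 < Λ)
    (hmi : mi = g * b * p) :
    (K / s) * (D / E) / N * (g * a / m₀) * lmR K Λ N g s p a D E ≤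
      K * (27 * Λ * mi / (m₀ * K)) := by
  have hD0 : 0 < D := by linarith
  have ha0 : 0 < a := by linarith
  have hg0 : 0 < g := by linarith
  have e1 : (K / s) * (D / E) / N * (g * a / m₀) * lmR K Λ N g s p a D E =
      27 * Λ * p / m₀ / (g * a * D) := by
    unfold lmR
    field_simp
  have e2 : K * (27 * Λ * mi / (m₀ * K)) = 27 * Λ * mi / m₀ := by
    field_simp
  rw [e1, e2]
  have h1 : 1 ≤ g * a * D :=
    one_le_mul_of_one_le_of_one_le (one_le_mul_of_one_le_of_one_le hg ha) hD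
  have h2 : p ≤ mi := by
    rw [hmi]
    have : 1 ≤ g * b := one_le_mul_of_one_le_of_one_le hg hb
    nlinarith
  refine (div_le_self (by positivity) h1).trans ?_
  gcongr

lemma mul_r23 {x y : ℝ} (hx : 0 ≤ x) (hy : 0 ≤ y) :
    x * y ^ (2 / 3 : ℝ) = (x ^ 3 * y ^ 2) ^ (1 / 3 : ℝ) := by
  rw [Real.mul_rpow (by positivity) (by positivity), ← Real.rpow_natCast, ← Real.rpow_natCast,
    ← Real.rpow_mul hx, ← Real.rpow_mul hy]
  norm_num

lemma id4 (hK : 0 < K) (hs : 1 ≤ s) (hD : 1 ≤ D) (hE : 1 ≤ E) (hN : 0 < N) (hg : 1 ≤ g)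
    (ha : 1 ≤ a) (hm : 0 < m₀) (hb : 1 ≤ b) (hp : 0 < p) (hΛ : 0 < Λ) (hF : 1 ≤ F)
    (hmi : mi = g * b * p) (hNm : N * mi ^ 2 ≤ Λ) :
    (K / s) * (D / E) / N * (g * a / m₀) * (lmR K Λ N g s p a D E * (N / (a * D * F))) ^
      (2 / 3 : ℝ) ≤ K * (9 * Λ / (K ^ (2 / 3 : ℝ) * m₀)) := by
  have hs0 : 0 < s := by linarith
  have hE0 : 0 < E := by linarith
  have hD0 : 0 < D := by linarith
  have ha0 : 0 < a := by linarith
  have hg0 : 0 < g := by linarith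
  have hF0 : 0 < F := by linarith
  have hb0 : 0 < b := by linarith
  have hp_mi : p ≤ mi := by
    rw [hmi]
    have : 1 ≤ g * b := one_le_mul_of_one_le_of_one_le hg hb
    nlinarith
  set x := (K / s) * (D / E) / N * (g * a / m₀) with hx
  set y := lmR K Λ N g s p a D E * (N / (a * D * F)) with hy
  have hx0 : 0 < x := by positivity
  have hl0 : 0 < lmR K Λ N g s p a D E := by unfold lmR; positivity
  have hy0 : 0 < y := by positivity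
  have e0 : x * y ^ (2 / 3 : ℝ) = (x ^ 3 * y ^ 2) ^ (1 / 3 : ℝ) := mul_r23 hx0.le hy0.le
  have e1 : x ^ 3 * y ^ 2 = 729 * K * (N * p ^ 2) * Λ ^ 2 / m₀ ^ 3 /
      (s * E * g * a ^ 3 * D ^ 3 * F ^ 2) := by
    rw [hx, hy]
    unfold lmR
    field_simp
    ring
  have e2 : K * (9 * Λ / (K ^ (2 / 3 : ℝ) * m₀)) = (729 * K * Λ ^ 3 / m₀ ^ 3) ^ (1 / 3 : ℝ) := by
    have e3 : 729 * K * Λ ^ 3 / m₀ ^ 3 = (9 * Λ / m₀) ^ 3 * K := by
      field_simp; ring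
    rw [e3, Real.mul_rpow (by positivity) hK.le, ← Real.rpow_natCast,
      ← Real.rpow_mul (by positivity)]
    have e4 : K = K ^ (2 / 3 : ℝ) * K ^ (1 / 3 : ℝ) := by
      rw [← Real.rpow_add hK]; norm_num
    have hK23 : 0 < K ^ (2 / 3 : ℝ) := Real.rpow_pos_of_pos hK _
    norm_num
    calc K * (9 * Λ / (K ^ (2 / 3 : ℝ) * m₀)) =
        (K ^ (2 / 3 : ℝ) * K ^ (1 / 3 : ℝ)) * (9 * Λ / (K ^ (2 / 3 : ℝ) * m₀)) := by rw [← e4]
      _ = _ := by field_simp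
  rw [e0, e1, e2]
  refine Real.rpow_le_rpow (by positivity) ?_ (by norm_num)
  have h1 : 1 ≤ s * E * g * a ^ 3 * D ^ 3 * F ^ 2 := by
    have h2 := one_le_pow₀ (n := 3) ha
    have h3 := one_le_pow₀ (n := 3) hD
    have h4 := one_le_pow₀ (n := 2) hF
    exact one_le_mul_of_one_le_of_one_le (one_le_mul_of_one_le_of_one_le
      (one_le_mul_of_one_le_of_one_le (one_le_mul_of_one_le_of_one_le
        (one_le_mul_of_one_le_of_one_le hs hE) hg) h2) h3) h4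
  refine (div_le_self (by positivity) h1).trans ?_
  have h5 : N * p ^ 2 ≤ Λ := by
    refine le_trans ?_ hNm
    exact mul_le_mul_of_nonneg_left (pow_le_pow_left₀ hp.le hp_mi 2) hN.le
  have h6 : 729 * K * Λ ^ 3 / m₀ ^ 3 = 729 * K * Λ * Λ ^ 2 / m₀ ^ 3 := by ring
  rw [h6]
  gcongr

/-! ### the modes -/

/-- **the decaying sum over the modes, with the divisor function** -/
theorem tsum_bd {B : ℕ} (hB : 3 ≤ B) {ε : ℝ} (hε : 0 < ε) (hε1 : ε ≤ 1) : ∃ C : ℝ, 0 ≤ C ∧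
    ∀ (F0 : Eis → ℝ), (∀ w, 0 ≤ F0 w) → ∀ x y z : ℝ, 0 ≤ x → 0 ≤ y → 0 ≤ z →
      (∀ L, 1 ≤ L → ∑ w ∈ bl L, F0 w ≤ x * L ^ (1 / 3 : ℝ) + y * L ^ (2 / 3 : ℝ) + z * L) →
    ∀ lm : ℝ, 0 < lm → ∑' w : Eis, (if w = 0 then 0 else Wl B lm w * (tau w * F0 w)) ≤
      C * (max 1 lm) ^ ε * (x * lm ^ (1 / 3 : ℝ) + y * lm ^ (2 / 3 : ℝ) + z * lm) := by
  obtain ⟨Cτ, hCτ, hτ⟩ := tau_le_rpow hε
  refine ⟨9 * Cτ, by linarith, fun F0 hF0 x y z hx hy hz hG lm hlm => ?_⟩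
  have hCτ0 : 0 ≤ Cτ := by linarith
  set G : ℝ → ℝ := fun L => x * L ^ (1 / 3 : ℝ) + y * L ^ (2 / 3 : ℝ) + z * L with hGd
  have hgr : Gr 1 G :=
    ((((Gr.pow (1 / 3)).smul hx).mono (by norm_num)).add
      (((Gr.pow (2 / 3)).smul hy).mono (by norm_num))).add (Gr.id.smul hz)
  have hgr2 : Gr (ε + 1) (fun L => Cτ * L ^ ε * G L) :=
    ((Gr.pow ε).smul hCτ0).mul hgr
  have h1 := tsum_W_le (F := fun w => (tau w : ℝ) * F0 w)
    (fun w => mul_nonneg (Nat.cast_nonneg _) (hF0 w)) (a := 2) (B := B) (by omega)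
    (G := fun L => Cτ * L ^ ε * G L) (fun L hL => ?_)
    (fun L hL => hgr2.dbl (a := 2) (by push_cast; linarith) hL) hlm
  · refine h1.trans ?_
    beta_reduce
    have h2 := hgr.at_max (a := 1) (B := B) (by norm_num) (by omega) hlm
    have h3 : (min 1 lm) ^ (B - 1) ≤ 1 := pow_le_one₀ (by positivity) (min_le_left _ _)
    have h4 : 0 ≤ G lm := hgr.nonneg lm hlm
    have h5 : (min 1 lm) ^ B * G (max 1 lm) ≤ G lm :=
      h2.trans (mul_le_of_le_one_left h4 h3)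
    have h6 : 0 ≤ (max 1 lm) ^ ε := by positivity
    calc (1 + 2 ^ (2 + 1) : ℝ) * ((min 1 lm) ^ B * (Cτ * (max 1 lm) ^ ε * G (max 1 lm)))
        = 9 * Cτ * (max 1 lm) ^ ε * ((min 1 lm) ^ B * G (max 1 lm)) := by ring
      _ ≤ 9 * Cτ * (max 1 lm) ^ ε * G lm := mul_le_mul_of_nonneg_left h5 (by positivity)
      _ = _ := rfl
  · beta_reduce
    have hL0 : 0 ≤ L := by linarith
    calc ∑ w ∈ bl L, (tau w : ℝ) * F0 w ≤ ∑ w ∈ bl L, (Cτ * L ^ ε) * F0 w := by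
          refine Finset.sum_le_sum fun w hw => mul_le_mul_of_nonneg_right ?_ (hF0 w)
          obtain ⟨hw0, hwL⟩ := (mem_bl hL0).1 hw
          refine (hτ w hw0).trans (mul_le_mul_of_nonneg_left ?_ hCτ0)
          exact Real.rpow_le_rpow (Nat.cast_nonneg _) hwL hε.le
      _ = (Cτ * L ^ ε) * ∑ w ∈ bl L, F0 w := by rw [Finset.mul_sum]
      _ ≤ (Cτ * L ^ ε) * G L := mul_le_mul_of_nonneg_left (hG L hL) (by positivity)

/-! ### one cell -/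

variable {ι : Type*} {I : Finset ι} {m : ι → Eis} {V : ι → Eis → ℂ} {Y₀ : ℝ}

/-- the bound of the modes of one cell -/
def GB (K H Λ m₀ N mi q TQ R1 : ℝ) (s b a D E F : ℝ) (L : ℝ) : ℝ :=
  N ^ (-(1 / 3) : ℝ) * ((L * (27 * E ^ 2 * s ^ 2 * b) * q / LtC K H Λ m₀ N mi a D F) ^
      (1 / 3 : ℝ) * ((N / (a * D * F)) * (TQ + R1) +
        ((LtC K H Λ m₀ N mi a D F * (N / (a * D * F))) ^ (2 / 3 : ℝ) +
          LtC K H Λ m₀ N mi a D F * (N / (a * D * F)) ^ (1 / 2 : ℝ)) * TQ) +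
    (L + (L * (N / (a * D * F))) ^ (2 / 3 : ℝ)) * TQ)

/-- the factor of the linear part -/
def kap1 (K H Λ m₀ mi q : ℝ) : ℝ :=
  H ^ (-(1 / 3) : ℝ) * q ^ (1 / 3 : ℝ) *
      (1 + 81 * thR K H Λ m₀ ^ (2 / 3 : ℝ) + 729 * thR K H Λ m₀) +
    27 * Λ * mi / (m₀ * K) + 9 * Λ / (K ^ (2 / 3 : ℝ) * m₀)

lemma real_cell {K s D E N g a m₀ b p Λ F H mi q TQ R1 : ℝ} (hK : 0 < K) (hs : 1 ≤ s)
    (hD : 1 ≤ D) (hE : 1 ≤ E) (hN : 0 < N) (hg : 1 ≤ g) (ha : 1 ≤ a) (hm : 0 < m₀) (hb : 1 ≤ b)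
    (hp : 1 ≤ p) (hΛ : 0 < Λ) (hF : 1 ≤ F) (hH : 0 < H) (hmi : mi = g * b * p)
    (hNm : N * mi ^ 2 ≤ Λ) (hq : 0 < q) (hT : 0 ≤ TQ) (hR : 0 ≤ R1) :
    (K / s) * (D / E) / N * (g * a / m₀) *
      GB K H Λ m₀ N mi q TQ R1 s b a D E F (lmR K Λ N g s p a D E) ≤
    K * N ^ (-(1 / 3) : ℝ) * (kap1 K H Λ m₀ mi q * TQ +
      H ^ (-(1 / 3) : ℝ) * q ^ (1 / 3 : ℝ) * R1) := by
  have hs0 : 0 < s := by linarith
  have hE0 : 0 < E := by linarith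
  have hD0 : 0 < D := by linarith
  have ha0 : 0 < a := by linarith
  have hg0 : 0 < g := by linarith
  have hF0 : 0 < F := by linarith
  have hb0 : 0 < b := by linarith
  have hp0 : 0 < p := by linarith
  have hmi0 : 0 < mi := by rw [hmi]; positivity
  have i1 := id1 hK hs0 hD0 hE0 hN hg0 ha0 hm hb0 hp0 hΛ hF0 hH hmi
  have i2 := id2 hK hD hN ha hm hΛ hF hH hmi0 hNm
  have i3 := id3 (E := E) hK hs0 hD hE0 hN hg ha hm hb hp0 hΛ hmi
  have i4 := id4 hK hs hD hE hN hg ha hm hb hp0 hΛ hF hmi hNm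
  have hLt : 0 < LtC K H Λ m₀ N mi a D F := LtC_pos hK hD0 hN ha0 hm hΛ hF0 hH hmi0
  have hlm : 0 < lmR K Λ N g s p a D E := by unfold lmR; positivity
  have hθ0 : 0 < thR K H Λ m₀ := by unfold thR; positivity
  unfold GB kap1
  set W := (K / s) * (D / E) / N * (g * a / m₀) with hW
  set lm := lmR K Λ N g s p a D E with hlmd
  set Lt := LtC K H Λ m₀ N mi a D F with hLtd
  set Yc := N / (a * D * F) with hYc
  set θ := thR K H Λ m₀ with hθ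
  have hW0 : 0 < W := by positivity
  have hY0 : 0 < Yc := by positivity
  set c := (lm * (27 * E ^ 2 * s ^ 2 * b) / Lt) ^ (1 / 3 : ℝ) with hc
  have hc0 : 0 ≤ c := by positivity
  have e1 : (lm * (27 * E ^ 2 * s ^ 2 * b) * q / Lt) ^ (1 / 3 : ℝ) = c * q ^ (1 / 3 : ℝ) := by
    rw [hc, ← Real.mul_rpow (by positivity) hq.le]
    congr 1
    ring
  rw [e1]
  have hq3 : 0 ≤ q ^ (1 / 3 : ℝ) := by positivity
  have hN3 : 0 ≤ N ^ (-(1 / 3) : ℝ) := by positivity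
  -- the four pieces
  have k1 : W * (c * q ^ (1 / 3 : ℝ) * (Yc * (TQ + R1) +
      ((Lt * Yc) ^ (2 / 3 : ℝ) + Lt * Yc ^ (1 / 2 : ℝ)) * TQ)) ≤
      K * (H ^ (-(1 / 3) : ℝ) * q ^ (1 / 3 : ℝ)) *
        ((1 + 81 * θ ^ (2 / 3 : ℝ) + 729 * θ) * TQ + R1) := by
    have h1 : Yc * (TQ + R1) + ((Lt * Yc) ^ (2 / 3 : ℝ) + Lt * Yc ^ (1 / 2 : ℝ)) * TQ ≤
        Yc * ((1 + 81 * θ ^ (2 / 3 : ℝ) + 729 * θ) * TQ + R1) := by
      have := mul_le_mul_of_nonneg_right i2 hT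
      linarith
    calc _ = (W * c) * q ^ (1 / 3 : ℝ) * (Yc * (TQ + R1) +
          ((Lt * Yc) ^ (2 / 3 : ℝ) + Lt * Yc ^ (1 / 2 : ℝ)) * TQ) := by ring
      _ ≤ (W * c) * q ^ (1 / 3 : ℝ) *
          (Yc * ((1 + 81 * θ ^ (2 / 3 : ℝ) + 729 * θ) * TQ + R1)) :=
          mul_le_mul_of_nonneg_left h1 (by positivity)
      _ = (W * c * Yc) * (q ^ (1 / 3 : ℝ) * ((1 + 81 * θ ^ (2 / 3 : ℝ) + 729 * θ) * TQ + R1)) := by
          ring
      _ = _ := by rw [i1]; ring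
  have k2 : W * ((lm + (lm * Yc) ^ (2 / 3 : ℝ)) * TQ) ≤
      K * (27 * Λ * mi / (m₀ * K) + 9 * Λ / (K ^ (2 / 3 : ℝ) * m₀)) * TQ := by
    have h1 : W * (lm + (lm * Yc) ^ (2 / 3 : ℝ)) ≤
        K * (27 * Λ * mi / (m₀ * K)) + K * (9 * Λ / (K ^ (2 / 3 : ℝ) * m₀)) := by
      rw [mul_add]; exact add_le_add i3 i4
    have := mul_le_mul_of_nonneg_right h1 hT
    calc _ = W * (lm + (lm * Yc) ^ (2 / 3 : ℝ)) * TQ := by ring
      _ ≤ _ := this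
      _ = _ := by ring
  calc _ = N ^ (-(1 / 3) : ℝ) * (W * (c * q ^ (1 / 3 : ℝ) * (Yc * (TQ + R1) +
      ((Lt * Yc) ^ (2 / 3 : ℝ) + Lt * Yc ^ (1 / 2 : ℝ)) * TQ)) +
      W * ((lm + (lm * Yc) ^ (2 / 3 : ℝ)) * TQ)) := by ring
    _ ≤ N ^ (-(1 / 3) : ℝ) * (K * (H ^ (-(1 / 3) : ℝ) * q ^ (1 / 3 : ℝ)) *
        ((1 + 81 * θ ^ (2 / 3 : ℝ) + 729 * θ) * TQ + R1) +
        K * (27 * Λ * mi / (m₀ * K) + 9 * Λ / (K ^ (2 / 3 : ℝ) * m₀)) * TQ) :=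
        mul_le_mul_of_nonneg_left (add_le_add k1 k2) hN3
    _ = _ := by ring

/-- **the bound of one cell** -/
theorem cell_bd {B : ℕ} (hB : 3 ≤ B) {ε : ℝ} (hε : 0 < ε) (hε1 : ε ≤ 1) : ∃ C : ℝ, 0 ≤ C ∧
    ∀ {ι : Type*} (A : ℕ) (T : ℕ) (N : ι → ℝ) (m : ι → Eis) (V : ι → Eis → ℂ)
      (K H Λ m₀ q TQ R1 : ℝ) (i : ι) (g s b a D E F : Eis),
      0 < K → 0 < H → 0 < m₀ → 0 < q → 0 ≤ TQ → 0 ≤ R1 → 0 < N i → IsPrim (m i) →
      N i * (nm (m i) : ℝ) ^ 2 ≤ Λ → g ∈ dvs (m i) → IsPrim s → b ∈ dvs (m i / g) →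
      IsPrim a → IsPrim D → IsPrim E → IsPrim F →
      (∀ L, 1 ≤ L → ∑ w ∈ bl L, EQ A (uc V i s a D F) (Hf 3 E w F * b) ≤
        GB K H Λ m₀ (N i) (nm (m i)) q TQ R1 (nm s) (nm b) (nm a) (nm D) (nm E) (nm F) L) →
      MG A B K T N m V Λ m₀ i g s b a D E F ≤
        C * T * (max 1 (lmM K N m Λ i g s b a D E)) ^ ε * (K * N i ^ (-(1 / 3) : ℝ) *
          (kap1 K H Λ m₀ (nm (m i)) q * TQ + H ^ (-(1 / 3) : ℝ) * q ^ (1 / 3 : ℝ) * R1)) := by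
  obtain ⟨C, hC0, hC⟩ := tsum_bd hB hε hε1
  refine ⟨C, hC0, ?_⟩
  intro ι A T N m V K H Λ m₀ q TQ R1 i g s b a D E F hK hH hm₀ hq hT hR hN hmi hNm hg hs hb ha hD
    hE hF hG
  obtain ⟨hp1, hp1'⟩ := dvs_quo hmi hg
  obtain ⟨hp2, hp2'⟩ := dvs_quo hp1 hb
  have hgp := isPrim_of_mem_dvs hg
  have hbp := isPrim_of_mem_dvs hb
  have ns := nm_ge_one hs.ne_zero
  have nD := nm_ge_one hD.ne_zero
  have nE := nm_ge_one hE.ne_zero
  have ng := nm_ge_one hgp.ne_zero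
  have na := nm_ge_one ha.ne_zero
  have nb := nm_ge_one hbp.ne_zero
  have nF := nm_ge_one hF.ne_zero
  have np2 := nm_ge_one hp2.ne_zero
  have nmi := nmpos hmi.ne_zero
  have hΛ : 0 < Λ := lt_of_lt_of_le (by positivity) hNm
  have hmi' : (nm (m i) : ℝ) = nm g * nm b * nm (m i / g / b) := by
    have h1 := congrArg nm hp1'
    have h2 := congrArg nm hp2'
    rw [nm_mul] at h1 h2
    rw [h2] at h1
    have : ((nm (m i) : ℕ) : ℝ) = ((nm g * (nm b * nm (m i / g / b)) : ℕ) : ℝ) := by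
      exact_mod_cast h1
    rw [this]; push_cast; ring
  have hlmeq : lmM K N m Λ i g s b a D E = lmR K Λ (N i) (nm g) (nm s) (nm (m i / g / b)) (nm a)
      (nm D) (nm E) := rfl
  set lm := lmM K N m Λ i g s b a D E with hlm
  have hlm0 : 0 < lm := by
    rw [hlmeq]; unfold lmR; positivity
  -- the polynomial form
  set Lt := LtC K H Λ m₀ (N i) (nm (m i)) (nm a) (nm D) (nm F) with hLt
  have hLt0 : 0 < Lt := LtC_pos hK (by linarith) hN (by linarith) hm₀ hΛ (by linarith) hH nmi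
  set Yc : ℝ := N i / (nm a * nm D * nm F) with hYc
  have hY0 : 0 < Yc := by positivity
  set X1 : ℝ := Yc * (TQ + R1) + ((Lt * Yc) ^ (2 / 3 : ℝ) + Lt * Yc ^ (1 / 2 : ℝ)) * TQ with hX1
  have hX10 : 0 ≤ X1 := by positivity
  set c1 : ℝ := (27 * (nm E : ℝ) ^ 2 * (nm s : ℝ) ^ 2 * nm b) * q / Lt with hc1
  have hc10 : 0 ≤ c1 := by positivity
  have hN3 : 0 ≤ N i ^ (-(1 / 3) : ℝ) := by positivity
  have hGBeq : ∀ L : ℝ, 0 ≤ L → GB K H Λ m₀ (N i) (nm (m i)) q TQ R1 (nm s) (nm b) (nm a) (nm D)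
      (nm E) (nm F) L = (N i ^ (-(1 / 3) : ℝ) * (c1 ^ (1 / 3 : ℝ) * X1)) * L ^ (1 / 3 : ℝ) +
        (N i ^ (-(1 / 3) : ℝ) * (Yc ^ (2 / 3 : ℝ) * TQ)) * L ^ (2 / 3 : ℝ) +
        (N i ^ (-(1 / 3) : ℝ) * TQ) * L := by
    intro L hL
    have e1 : (L * (27 * (nm E : ℝ) ^ 2 * (nm s : ℝ) ^ 2 * nm b) * q / Lt) ^ (1 / 3 : ℝ) =
        L ^ (1 / 3 : ℝ) * c1 ^ (1 / 3 : ℝ) := by
      rw [← Real.mul_rpow hL hc10]
      congr 1
      rw [hc1]; ring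
    have e2 : (L * Yc) ^ (2 / 3 : ℝ) = L ^ (2 / 3 : ℝ) * Yc ^ (2 / 3 : ℝ) :=
      Real.mul_rpow hL hY0.le
    show N i ^ (-(1 / 3) : ℝ) * ((L * (27 * (nm E : ℝ) ^ 2 * (nm s : ℝ) ^ 2 * nm b) * q / Lt) ^
      (1 / 3 : ℝ) * X1 + (L + (L * Yc) ^ (2 / 3 : ℝ)) * TQ) = _
    rw [e1, e2]
    ring
  have hS := hC (fun w => EQ A (uc V i s a D F) (Hf 3 E w F * b)) (fun w => EQ_nonneg _ _ _)
    (N i ^ (-(1 / 3) : ℝ) * (c1 ^ (1 / 3 : ℝ) * X1)) (N i ^ (-(1 / 3) : ℝ) * (Yc ^ (2 / 3 : ℝ) * TQ))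
    (N i ^ (-(1 / 3) : ℝ) * TQ) (by positivity) (by positivity) (by positivity)
    (fun L hL => (hG L hL).trans (le_of_eq (hGBeq L (by linarith)))) lm hlm0
  rw [← hGBeq lm hlm0.le] at hS
  have hGB0 : 0 ≤ GB K H Λ m₀ (N i) (nm (m i)) q TQ R1 (nm s) (nm b) (nm a) (nm D) (nm E) (nm F)
      lm := by
    rw [hGBeq lm hlm0.le]; positivity
  have hreal := real_cell (K := K) (s := nm s) (D := nm D) (E := nm E) (N := N i) (g := nm g)
    (a := nm a) (m₀ := m₀) (b := nm b) (p := nm (m i / g / b)) (Λ := Λ) (F := nm F) (H := H)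
    (mi := nm (m i)) (q := q) (TQ := TQ) (R1 := R1) hK ns nD nE hN ng na hm₀ nb np2 hΛ nF hH
    hmi' hNm hq hT hR
  rw [← hlmeq] at hreal
  unfold MG
  have hmax : 0 ≤ (max 1 lm) ^ ε := by positivity
  have hwt : 0 ≤ (K / nm s) * (nm D / nm E) / N i := by positivity
  have hcm : min 1 ((nm g : ℝ) * nm a / m₀) ≤ nm g * nm a / m₀ := min_le_right _ _
  calc (K / nm s) * (nm D / nm E) / N i * ((min 1 (nm g * nm a / m₀) * T) *
        ∑' w : Eis, (if w = 0 then 0 else Wl B lm w *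
          (tau w * EQ A (uc V i s a D F) (Hf 3 E w F * b))))
      ≤ (K / nm s) * (nm D / nm E) / N i * ((nm g * nm a / m₀ * T) *
        (C * (max 1 lm) ^ ε * GB K H Λ m₀ (N i) (nm (m i)) q TQ R1 (nm s) (nm b) (nm a) (nm D)
          (nm E) (nm F) lm)) := by
        refine mul_le_mul_of_nonneg_left ?_ hwt
        refine mul_le_mul (mul_le_mul_of_nonneg_right hcm (Nat.cast_nonneg _)) hS ?_
          (by positivity)
        refine tsum_nonneg fun w => ?_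
        split_ifs
        · exact le_rfl
        · exact mul_nonneg (Wl_nonneg B hlm0.le w)
            (mul_nonneg (Nat.cast_nonneg _) (EQ_nonneg _ _ _))
    _ = C * T * (max 1 lm) ^ ε * ((K / nm s) * (nm D / nm E) / N i * (nm g * nm a / m₀) *
        GB K H Λ m₀ (N i) (nm (m i)) q TQ R1 (nm s) (nm b) (nm a) (nm D) (nm E) (nm F) lm) := by
        ring
    _ ≤ _ := mul_le_mul_of_nonneg_left hreal (by positivity)

/-! ### the number of cells of the structured part -/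

/-- the number of `(a, D)` with `N(a D) ≤ X` -/
theorem count_X {Z X : ℝ} (hZ : 0 ≤ Z) (hX : 0 ≤ X) :
    ∑ a ∈ S Z, ∑ D ∈ S Z, (if (nm (a * D) : ℝ) ≤ X then (1 : ℝ) else 0) ≤ 16 * X * HS Z := by
  unfold HS
  rw [Finset.mul_sum]
  refine Finset.sum_le_sum fun a ha => ?_
  have hap := ((mem_S hZ).1 ha).2.1
  have na := nmpos hap.ne_zero
  rw [← Finset.sum_filter, Finset.sum_const, nsmul_eq_mul, mul_one]
  have hsub : (S Z).filter (fun D => (nm (a * D) : ℝ) ≤ X) ⊆ S (X / nm a) := by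
    intro D hD
    obtain ⟨h1, h2⟩ := Finset.mem_filter.mp hD
    have h3 := (mem_S hZ).1 h1
    rw [mem_S (by positivity)]
    refine ⟨?_, h3.2⟩
    rw [le_div_iff₀ na]
    rw [nm_mul] at h2
    push_cast at h2
    linarith
  have h1 : (((S Z).filter (fun D => (nm (a * D) : ℝ) ≤ X)).card : ℝ) ≤ (S (X / nm a)).card := by
    exact_mod_cast Finset.card_le_card hsub
  refine h1.trans ((CR2.card_S_le (by positivity)).trans (le_of_eq ?_))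
  ring

/-- the number of `(a, D, F)` with `N(a D)² N(F)³ ≤ L` -/
theorem count_F {Z L : ℝ} (hZ : 0 ≤ Z) (hL : 0 ≤ L) :
    ∑ F ∈ S Z, ∑ a ∈ S Z, ∑ D ∈ S Z,
      (if (nm (a * D) : ℝ) ^ 2 * (nm F : ℝ) ^ 3 ≤ L then (1 : ℝ) else 0) ≤
      16 * Real.sqrt L * HS Z ^ 2 := by
  have key : ∀ F ∈ S Z, ∑ a ∈ S Z, ∑ D ∈ S Z,
      (if (nm (a * D) : ℝ) ^ 2 * (nm F : ℝ) ^ 3 ≤ L then (1 : ℝ) else 0) ≤
      16 * Real.sqrt L * HS Z * (1 / nm F) := by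
    intro F hF
    have pF := ((mem_S hZ).1 hF).2.1
    have n1 : (1 : ℝ) ≤ nm F := nm_ge_one pF.ne_zero
    have n0 : (0 : ℝ) < nm F := by linarith
    have h1 : ∑ a ∈ S Z, ∑ D ∈ S Z,
        (if (nm (a * D) : ℝ) ^ 2 * (nm F : ℝ) ^ 3 ≤ L then (1 : ℝ) else 0) ≤
        ∑ a ∈ S Z, ∑ D ∈ S Z,
          (if (nm (a * D) : ℝ) ≤ Real.sqrt L / nm F then (1 : ℝ) else 0) := by
      refine Finset.sum_le_sum fun a _ => Finset.sum_le_sum fun D _ => ?_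
      split_ifs with h1 h2 h2
      · exact le_rfl
      · refine absurd ?_ h2
        rw [le_div_iff₀ n0]
        refine Real.le_sqrt_of_sq_le ?_
        rw [mul_pow]
        refine le_trans (mul_le_mul_of_nonneg_left ?_ (by positivity)) h1
        exact pow_le_pow_right₀ n1 (by norm_num)
      · exact zero_le_one
      · exact le_rfl
    refine h1.trans ((count_X hZ (by positivity)).trans (le_of_eq ?_))
    field_simp
  refine (Finset.sum_le_sum fun F hF => key F hF).trans (le_of_eq ?_)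
  unfold HS
  simp only [← Finset.mul_sum]
  ring

/-- the number of modes at `a = D = F = 1` -/
def Lst (K H Λ m₀ N mi : ℝ) : ℝ := 729 * N * mi * Λ * H / (K * m₀ ^ 3)

lemma LtC_eq (K H Λ m₀ N mi a D F : ℝ) :
    LtC K H Λ m₀ N mi a D F = Lst K H Λ m₀ N mi / ((a * D) ^ 2 * F ^ 3) := by
  unfold LtC Lst
  rw [div_div]
  congr 1
  ring

lemma sum3_le {Z M₀ Y : ℝ} (hZ : 0 ≤ Z) (hM : 0 ≤ M₀) (hMZ : M₀ ≤ Z) (hY : 0 ≤ Y) (hYZ : Y ≤ Z)
    {f : Eis → Eis → Eis → ℝ} (hf0 : ∀ a D F, 0 ≤ f a D F) :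
    ∑ a ∈ S M₀, ∑ D ∈ S Y, ∑ F ∈ S Y, f a D F ≤ ∑ F ∈ S Z, ∑ a ∈ S Z, ∑ D ∈ S Z, f a D F := by
  have hsub : ∀ {X : ℝ}, 0 ≤ X → X ≤ Z → S X ⊆ S Z := by
    intro X hX hXZ n hn
    rw [mem_S hX] at hn
    rw [mem_S hZ]
    exact ⟨hn.1.trans hXZ, hn.2⟩
  have h2 : ∑ a ∈ S M₀, ∑ D ∈ S Y, ∑ F ∈ S Y, f a D F ≤
      ∑ a ∈ S Z, ∑ D ∈ S Z, ∑ F ∈ S Z, f a D F := by
    refine (Finset.sum_le_sum_of_subset_of_nonneg (hsub hM hMZ) fun a _ _ =>
      Finset.sum_nonneg fun D _ => Finset.sum_nonneg fun F _ => hf0 _ _ _).trans ?_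
    refine Finset.sum_le_sum fun a _ => ?_
    refine (Finset.sum_le_sum_of_subset_of_nonneg (hsub hY hYZ) fun D _ _ =>
      Finset.sum_nonneg fun F _ => hf0 _ _ _).trans ?_
    refine Finset.sum_le_sum fun D _ => ?_
    exact Finset.sum_le_sum_of_subset_of_nonneg (hsub hY hYZ) fun F _ _ => hf0 _ _ _
  refine h2.trans (le_of_eq ?_)
  calc ∑ a ∈ S Z, ∑ D ∈ S Z, ∑ F ∈ S Z, f a D F = ∑ a ∈ S Z, ∑ F ∈ S Z, ∑ D ∈ S Z, f a D F :=
        Finset.sum_congr rfl fun a _ => Finset.sum_comm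
    _ = _ := Finset.sum_comm

lemma ite_cell {K H Λ m₀ N mi c : ℝ} (hc : 0 ≤ c) {a D F : Eis} (na : (0 : ℝ) < nm a)
    (nD : (0 : ℝ) < nm D) (nF : (0 : ℝ) < nm F) :
    (if 1 ≤ LtC K H Λ m₀ N mi (nm a) (nm D) (nm F) then c else 0) ≤
      (if (nm (a * D) : ℝ) ^ 2 * (nm F : ℝ) ^ 3 ≤ Lst K H Λ m₀ N mi then (1 : ℝ) else 0) * c := by
  by_cases h2 : 1 ≤ LtC K H Λ m₀ N mi (nm a) (nm D) (nm F)
  · have h3 : (nm (a * D) : ℝ) ^ 2 * (nm F : ℝ) ^ 3 ≤ Lst K H Λ m₀ N mi := by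
      have h4 := h2
      rw [LtC_eq, le_div_iff₀ (by positivity), one_mul] at h4
      rw [nm_mul]; push_cast
      exact h4
    rw [if_pos h2, if_pos h3, one_mul]
  · rw [if_neg h2]
    refine mul_nonneg ?_ hc
    split_ifs <;> norm_num

theorem count_cells {Z K H Λ m₀ N mi M₀ Y : ℝ} (hZ : 0 ≤ Z) (hM : 0 ≤ M₀) (hMZ : M₀ ≤ Z)
    (hY : 0 ≤ Y) (hYZ : Y ≤ Z) (hL : 0 ≤ Lst K H Λ m₀ N mi) {c : ℝ} (hc : 0 ≤ c) :
    ∑ a ∈ S M₀, ∑ D ∈ S Y, ∑ F ∈ S Y,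
      (if 1 ≤ LtC K H Λ m₀ N mi (nm a) (nm D) (nm F) then c else 0) ≤
      16 * Real.sqrt (Lst K H Λ m₀ N mi) * HS Z ^ 2 * c := by
  have h1 : ∑ a ∈ S M₀, ∑ D ∈ S Y, ∑ F ∈ S Y,
      (if 1 ≤ LtC K H Λ m₀ N mi (nm a) (nm D) (nm F) then c else 0) ≤
      (∑ a ∈ S M₀, ∑ D ∈ S Y, ∑ F ∈ S Y,
        (if (nm (a * D) : ℝ) ^ 2 * (nm F : ℝ) ^ 3 ≤ Lst K H Λ m₀ N mi then (1 : ℝ) else 0)) *
        c := by
    simp only [Finset.sum_mul]
    refine Finset.sum_le_sum fun a ha => Finset.sum_le_sum fun D hD =>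
      Finset.sum_le_sum fun F hF => ?_
    exact ite_cell hc (nmpos ((mem_S hM).1 ha).2.1.ne_zero) (nmpos ((mem_S hY).1 hD).2.1.ne_zero)
      (nmpos ((mem_S hY).1 hF).2.1.ne_zero)
  refine h1.trans (mul_le_mul_of_nonneg_right ?_ hc)
  refine (sum3_le hZ hM hMZ hY hYZ (f := fun a D F =>
    if (nm (a * D) : ℝ) ^ 2 * (nm F : ℝ) ^ 3 ≤ Lst K H Λ m₀ N mi then (1 : ℝ) else 0)
    (fun a D F => ?_)).trans (count_F hZ hL)
  split_ifs <;> norm_num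

/-! ### the total -/

set_option maxHeartbeats 1000000 in
/-- **the total of the merged modes** -/
theorem OFFM_le {B : ℕ} (hB : 3 ≤ B) {ε : ℝ} (hε : 0 < ε) : ∃ C : ℝ, 0 ≤ C ∧
    ∀ {ι : Type*} (I : Finset ι) (A : ℕ) (T : ℕ) (N : ι → ℝ) (m : ι → Eis) (V : ι → Eis → ℂ)
      (K H Λ m₀ Y M₀ Z : ℝ) (q : ι → ℝ) (TQ : ι → Eis → Eis → Eis → ℝ) (RW TQt : ι → ℝ),
      1 ≤ Z → 0 < K → K⁻¹ ≤ Z → 0 < H → 0 < m₀ → Λ ≤ Z ^ 3 → 0 ≤ Y → Y ≤ Z → 0 ≤ M₀ → M₀ ≤ Z →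
      (∀ i ∈ I, 0 < q i) → (∀ i ∈ I, 0 < N i) → (∀ i ∈ I, N i ≤ Z) → (∀ i ∈ I, IsPrim (m i)) →
      (∀ i ∈ I, (nm (m i) : ℝ) ≤ Z) → (∀ i ∈ I, N i * (nm (m i) : ℝ) ^ 2 ≤ Λ) →
      (∀ i ∈ I, ∀ a D F, 0 ≤ TQ i a D F) → (∀ i ∈ I, 0 ≤ RW i) →
      (∀ i ∈ I, ∀ s, IsPrim s → s ∣ m i → ∀ b, IsPrim b → b ∣ m i → ∀ a ∈ S M₀, ∀ D ∈ S Y,
        ∀ E ∈ pdiv D, ∀ F ∈ S Y, ∀ L, 1 ≤ L →
        ∑ w ∈ bl L, EQ A (uc V i s a D F) (Hf 3 E w F * b) ≤
          GB K H Λ m₀ (N i) (nm (m i)) (q i) (TQ i a D F)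
            (if 1 ≤ LtC K H Λ m₀ (N i) (nm (m i)) (nm a) (nm D) (nm F) then RW i else 0)
            (nm s) (nm b) (nm a) (nm D) (nm E) (nm F) L) →
      (∀ i ∈ I, ∑ a ∈ S M₀, ∑ D ∈ S Y, ∑ F ∈ S Y, TQ i a D F ≤ TQt i) →
      OFFM A B K T N m V Λ m₀ Y M₀ I ≤ C * T * Z ^ ε * (K * ∑ i ∈ I, N i ^ (-(1 / 3) : ℝ) *
        (kap1 K H Λ m₀ (nm (m i)) (q i) * TQt i + H ^ (-(1 / 3) : ℝ) * q i ^ (1 / 3 : ℝ) *
          (Real.sqrt (Lst K H Λ m₀ (N i) (nm (m i))) * RW i))) := by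
  set ε1 : ℝ := min 1 (ε / 16) with hε1
  have hε10 : 0 < ε1 := lt_min one_pos (by positivity)
  have hε11 : ε1 ≤ 1 := min_le_left _ _
  have hε12 : ε1 ≤ ε / 16 := min_le_right _ _
  obtain ⟨C0, hC0, hcell⟩ := cell_bd hB hε10 hε11
  obtain ⟨Ct, hCt, hτ⟩ := tau_le_rpow (ε := ε / 16) (by positivity)
  set ch : ℝ := 200 * (1 + 16 / ε) with hch
  have hch0 : 0 ≤ ch := by positivity
  refine ⟨C0 * 27 * Ct ^ 4 * (1 + 16 * ch ^ 2), by positivity, ?_⟩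
  intro ι I A T N m V K H Λ m₀ Y M₀ Z q TQ RW TQt hZ hK hKZ hH hm₀ hΛ hY hYZ hM hMZ hq hN hNZ hm hmZ
    hNm hTQ hRW hG hTQt
  have hZ0 : 0 < Z := by linarith
  unfold OFFM
  rw [Finset.mul_sum, Finset.mul_sum]
  refine Finset.sum_le_sum fun i hi => ?_
  have hmi := hm i hi
  have nmi := nm_ge_one hmi.ne_zero
  have hNi := hN i hi
  have hqi := hq i hi
  have hΛ0 : 0 < Λ := lt_of_lt_of_le (by have := nmpos hmi.ne_zero; positivity) (hNm i hi)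
  set Hq : ℝ := H ^ (-(1 / 3) : ℝ) * q i ^ (1 / 3 : ℝ) with hHq
  have hHq0 : 0 ≤ Hq := by positivity
  have hθ0 : 0 < thR K H Λ m₀ := by unfold thR; positivity
  set k1 := kap1 K H Λ m₀ (nm (m i)) (q i) with hk1
  have hk10 : 0 ≤ k1 := by rw [hk1]; unfold kap1; positivity
  have hL0 : 0 ≤ Lst K H Λ m₀ (N i) (nm (m i)) := by unfold Lst; positivity
  have hTau : ∀ x : Eis, x ≠ 0 → (nm x : ℝ) ≤ Z → ((dvs x).card : ℝ) ≤ Ct * Z ^ (ε / 16) := by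
    intro x hx hxZ
    refine (hτ x hx).trans (mul_le_mul_of_nonneg_left ?_ (by linarith))
    exact Real.rpow_le_rpow (Nat.cast_nonneg _) hxZ (by positivity)
  set tZ : ℝ := Ct * Z ^ (ε / 16) with htZ
  have htZ0 : 0 ≤ tZ := by positivity
  set R1 : Eis → Eis → Eis → ℝ := fun a D F =>
    if 1 ≤ LtC K H Λ m₀ (N i) (nm (m i)) (nm a) (nm D) (nm F) then RW i else 0 with hR1
  have hR10 : ∀ a D F, 0 ≤ R1 a D F := fun a D F => by
    rw [hR1]; beta_reduce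
    split_ifs
    · exact hRW i hi
    · exact le_rfl
  set cc : ℝ := C0 * T * (27 * Z ^ (ε / 2)) * (K * N i ^ (-(1 / 3) : ℝ)) with hcc
  have hcc0 : 0 ≤ cc := by positivity
  -- one cell
  have hone : ∀ g ∈ dvs (m i), ∀ s ∈ pdiv g, ∀ b ∈ dvs (m i / g), ∀ a ∈ S M₀, ∀ D ∈ S Y,
      ∀ E ∈ pdiv D, ∀ F ∈ S Y, MG A B K T N m V Λ m₀ i g s b a D E F ≤
        cc * (k1 * TQ i a D F + Hq * R1 a D F) := by
    intro g hg s hs b hb a ha D hD E hE F hF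
    have hgp := isPrim_of_mem_dvs hg
    obtain ⟨hsp, hsg⟩ := (mem_pdiv hgp.ne_zero).mp hs
    obtain ⟨hp1, hp1'⟩ := dvs_quo hmi hg
    obtain ⟨hp2, hp2'⟩ := dvs_quo hp1 hb
    have hbp := isPrim_of_mem_dvs hb
    have hap := ((mem_S hM).1 ha).2.1
    have hDp := ((mem_S hY).1 hD).2.1
    have hFp := ((mem_S hY).1 hF).2.1
    obtain ⟨hEp, hED⟩ := (mem_pdiv hDp.ne_zero).mp hE
    have hgm := dvd_of_mem_dvs hg
    have hsm : s ∣ m i := hsg.trans hgm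
    have hbm : b ∣ m i := (dvd_of_mem_dvs hb).trans ⟨g, by rw [mul_comm]; exact hp1'⟩
    have hpm : m i / g / b ∣ m i := by
      refine Dvd.dvd.trans ⟨b, ?_⟩ (⟨g, ?_⟩ : m i / g ∣ m i)
      · rw [mul_comm]; exact hp2'
      · rw [mul_comm]; exact hp1'
    have hle : ∀ x : Eis, x ∣ m i → (nm x : ℝ) ≤ Z := fun x hx =>
      le_trans (by exact_mod_cast Div277.nm_le_of_dvd hmi.ne_zero hx) (hmZ i hi)
    have hDZ : (nm D : ℝ) ≤ Z := ((mem_S hY).1 hD).1.trans hYZ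
    have hEZ : (nm E : ℝ) ≤ Z :=
      le_trans (by exact_mod_cast Div277.nm_le_of_dvd hDp.ne_zero hED) hDZ
    have h1 := hcell A T N m V K H Λ m₀ (q i) (TQ i a D F) (R1 a D F) i g s b a D E F hK hH hm₀ hqi
      (hTQ i hi a D F) (hR10 a D F) hNi hmi (hNm i hi) hg hsp hb hap hDp hEp hFp
      (fun L hL => hG i hi s hsp hsm b hbp hbm a ha D hD E hE F hF L hL)
    refine h1.trans ?_
    have hlm : max 1 (lmM K N m Λ i g s b a D E) ≤ 27 * Z ^ 8 := by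
      refine max_le ?_ ?_
      · have := one_le_pow₀ (n := 8) hZ
        linarith
      · unfold lmM
        have ng := nm_ge_one hgp.ne_zero
        have na := nm_ge_one hap.ne_zero
        have nD := nm_ge_one hDp.ne_zero
        have d1 : 27 * (nm E : ℝ) * nm s * N i * Λ * nm (m i / g / b) /
            ((nm g : ℝ) ^ 2 * (nm a : ℝ) ^ 2 * K * (nm D : ℝ) ^ 2) =
            27 * (nm E : ℝ) * nm s * N i * Λ * nm (m i / g / b) * K⁻¹ /
            ((nm g : ℝ) ^ 2 * (nm a : ℝ) ^ 2 * (nm D : ℝ) ^ 2) := by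
          field_simp
        rw [d1]
        have d2 : 1 ≤ (nm g : ℝ) ^ 2 * (nm a : ℝ) ^ 2 * (nm D : ℝ) ^ 2 :=
          one_le_mul_of_one_le_of_one_le (one_le_mul_of_one_le_of_one_le
            (one_le_pow₀ ng) (one_le_pow₀ na)) (one_le_pow₀ nD)
        refine (div_le_self (by positivity) d2).trans ?_
        calc 27 * (nm E : ℝ) * nm s * N i * Λ * nm (m i / g / b) * K⁻¹
            ≤ 27 * Z * Z * Z * Z ^ 3 * Z * Z := by
              have := hle s hsm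
              have := hle _ hpm
              have := hNZ i hi
              gcongr
          _ = 27 * Z ^ 8 := by ring
    have hpow : (max 1 (lmM K N m Λ i g s b a D E)) ^ ε1 ≤ 27 * Z ^ (ε / 2) := by
      calc (max 1 (lmM K N m Λ i g s b a D E)) ^ ε1 ≤ (27 * Z ^ 8) ^ ε1 :=
            Real.rpow_le_rpow (by positivity) hlm hε10.le
        _ = 27 ^ ε1 * (Z ^ 8) ^ ε1 := Real.mul_rpow (by norm_num) (by positivity)
        _ ≤ 27 ^ (1 : ℝ) * Z ^ (ε / 2) := by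
            refine mul_le_mul (Real.rpow_le_rpow_of_exponent_le (by norm_num) hε11) ?_
              (by positivity) (by positivity)
            rw [← Real.rpow_natCast, ← Real.rpow_mul hZ0.le]
            refine Real.rpow_le_rpow_of_exponent_le hZ ?_
            push_cast; linarith
        _ = _ := by rw [Real.rpow_one]
    have hb0 : 0 ≤ K * N i ^ (-(1 / 3) : ℝ) * (k1 * TQ i a D F + Hq * R1 a D F) := by
      have := hTQ i hi a D F
      have := hR10 a D F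
      positivity
    calc C0 * T * (max 1 (lmM K N m Λ i g s b a D E)) ^ ε1 *
          (K * N i ^ (-(1 / 3) : ℝ) * (k1 * TQ i a D F + Hq * R1 a D F))
        ≤ C0 * T * (27 * Z ^ (ε / 2)) *
          (K * N i ^ (-(1 / 3) : ℝ) * (k1 * TQ i a D F + Hq * R1 a D F)) :=
          mul_le_mul_of_nonneg_right (mul_le_mul_of_nonneg_left hpow (by positivity)) hb0
      _ = _ := by rw [hcc]; ring
  -- the sum over `E`, `F`, `a`, `D`
  have hin : ∀ g ∈ dvs (m i), ∀ s ∈ pdiv g, ∀ b ∈ dvs (m i / g),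
      ∑ a ∈ S M₀, ∑ D ∈ S Y, ∑ E ∈ pdiv D, ∑ F ∈ S Y, MG A B K T N m V Λ m₀ i g s b a D E F ≤
        cc * tZ * (k1 * TQt i + Hq * (16 * Real.sqrt (Lst K H Λ m₀ (N i) (nm (m i))) * HS Z ^ 2 *
          RW i)) := by
    intro g hg s hs b hb
    calc ∑ a ∈ S M₀, ∑ D ∈ S Y, ∑ E ∈ pdiv D, ∑ F ∈ S Y, MG A B K T N m V Λ m₀ i g s b a D E F
        ≤ ∑ a ∈ S M₀, ∑ D ∈ S Y, ∑ E ∈ pdiv D, ∑ F ∈ S Y,
          cc * (k1 * TQ i a D F + Hq * R1 a D F) :=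
          Finset.sum_le_sum fun a ha => Finset.sum_le_sum fun D hD =>
          Finset.sum_le_sum fun E hE => Finset.sum_le_sum fun F hF =>
            hone g hg s hs b hb a ha D hD E hE F hF
      _ ≤ ∑ a ∈ S M₀, ∑ D ∈ S Y, tZ * ∑ F ∈ S Y, cc * (k1 * TQ i a D F + Hq * R1 a D F) := by
          refine Finset.sum_le_sum fun a ha => Finset.sum_le_sum fun D hD => ?_
          rw [Finset.sum_const, nsmul_eq_mul]
          have hDp := ((mem_S hY).1 hD).2.1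
          have hDZ : (nm D : ℝ) ≤ Z := ((mem_S hY).1 hD).1.trans hYZ
          refine mul_le_mul_of_nonneg_right ?_ (Finset.sum_nonneg fun F _ => ?_)
          · rw [← dvs_eq_pdiv hDp.ne_zero]
            exact hTau D hDp.ne_zero hDZ
          · have := hTQ i hi a D F
            have := hR10 a D F
            positivity
      _ = cc * tZ * (k1 * (∑ a ∈ S M₀, ∑ D ∈ S Y, ∑ F ∈ S Y, TQ i a D F) +
          Hq * ∑ a ∈ S M₀, ∑ D ∈ S Y, ∑ F ∈ S Y, R1 a D F) := by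
          simp only [Finset.mul_sum, ← Finset.sum_add_distrib]
          refine Finset.sum_congr rfl fun a _ => Finset.sum_congr rfl fun D _ =>
            Finset.sum_congr rfl fun F _ => ?_
          ring
      _ ≤ _ := by
          refine mul_le_mul_of_nonneg_left ?_ (by positivity)
          refine add_le_add (mul_le_mul_of_nonneg_left (hTQt i hi) hk10)
            (mul_le_mul_of_nonneg_left ?_ hHq0)
          exact count_cells hZ0.le hM hMZ hY hYZ hL0 (hRW i hi)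
  set RR : ℝ := Real.sqrt (Lst K H Λ m₀ (N i) (nm (m i))) * RW i with hRR
  have hRR0 : 0 ≤ RR := mul_nonneg (Real.sqrt_nonneg _) (hRW i hi)
  have hTQt0 : 0 ≤ TQt i := le_trans (Finset.sum_nonneg fun a _ => Finset.sum_nonneg fun D _ =>
    Finset.sum_nonneg fun F _ => hTQ i hi a D F) (hTQt i hi)
  have hHS : HS Z ≤ ch * Z ^ (ε / 16) := by
    have h1 := HS_le hZ
    have h2 : Real.log Z ≤ Z ^ (ε / 16) / (ε / 16) := Real.log_le_rpow_div hZ0.le (by positivity)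
    have h3 : 1 ≤ Z ^ (ε / 16) := Real.one_le_rpow hZ (by positivity)
    have h4 : Z ^ (ε / 16) / (ε / 16) = (16 / ε) * Z ^ (ε / 16) := by field_simp
    calc HS Z ≤ 200 * (1 + Real.log Z) := h1
      _ ≤ 200 * (Z ^ (ε / 16) + (16 / ε) * Z ^ (ε / 16)) := by
          rw [← h4]
          exact mul_le_mul_of_nonneg_left (add_le_add h3 h2) (by norm_num)
      _ = _ := by rw [hch]; ring
  have hHS2 : HS Z ^ 2 ≤ ch ^ 2 * Z ^ (ε / 8) := by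
    calc HS Z ^ 2 ≤ (ch * Z ^ (ε / 16)) ^ 2 := pow_le_pow_left₀ (HS_nonneg _) hHS 2
      _ = ch ^ 2 * (Z ^ (ε / 16) * Z ^ (ε / 16)) := by ring
      _ = ch ^ 2 * Z ^ (ε / 8) := by
          rw [← Real.rpow_add hZ0]; congr 2; ring
  -- the bracket
  have hbr : k1 * TQt i + Hq * (16 * Real.sqrt (Lst K H Λ m₀ (N i) (nm (m i))) * HS Z ^ 2 *
          RW i) ≤ (1 + 16 * ch ^ 2) * Z ^ (ε / 8) * (k1 * TQt i + Hq * RR) := by
    have h3 : 1 ≤ Z ^ (ε / 8) := Real.one_le_rpow hZ (by positivity)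
    have h5 : 1 ≤ (1 + 16 * ch ^ 2) * Z ^ (ε / 8) :=
      one_le_mul_of_one_le_of_one_le (by nlinarith [sq_nonneg ch]) h3
    have h6 : 0 ≤ k1 * TQt i := mul_nonneg hk10 hTQt0
    have h7 : k1 * TQt i ≤ (1 + 16 * ch ^ 2) * Z ^ (ε / 8) * (k1 * TQt i) :=
      le_mul_of_one_le_left h6 h5
    have h8 : Hq * (16 * Real.sqrt (Lst K H Λ m₀ (N i) (nm (m i))) * HS Z ^ 2 * RW i) ≤
        (1 + 16 * ch ^ 2) * Z ^ (ε / 8) * (Hq * RR) := by
      calc Hq * (16 * Real.sqrt (Lst K H Λ m₀ (N i) (nm (m i))) * HS Z ^ 2 * RW i) =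
          16 * (Hq * RR) * HS Z ^ 2 := by rw [hRR]; ring
        _ ≤ 16 * (Hq * RR) * (ch ^ 2 * Z ^ (ε / 8)) :=
            mul_le_mul_of_nonneg_left hHS2 (by positivity)
        _ = (16 * ch ^ 2) * Z ^ (ε / 8) * (Hq * RR) := by ring
        _ ≤ _ := by
            refine mul_le_mul_of_nonneg_right ?_ (by positivity)
            refine mul_le_mul_of_nonneg_right (by linarith) (by positivity)
    calc _ ≤ (1 + 16 * ch ^ 2) * Z ^ (ε / 8) * (k1 * TQt i) +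
          (1 + 16 * ch ^ 2) * Z ^ (ε / 8) * (Hq * RR) := add_le_add h7 h8
      _ = _ := by ring
  have hBR0 : 0 ≤ k1 * TQt i + Hq * RR := by positivity
  -- the sums over the divisors
  have hst : ∀ g ∈ dvs (m i), ∑ s ∈ pdiv g, ∑ b ∈ dvs (m i / g), ∑ a ∈ S M₀, ∑ D ∈ S Y,
      ∑ E ∈ pdiv D, ∑ F ∈ S Y, MG A B K T N m V Λ m₀ i g s b a D E F ≤
      tZ * (tZ * (cc * tZ * ((1 + 16 * ch ^ 2) * Z ^ (ε / 8) * (k1 * TQt i + Hq * RR)))) := by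
    intro g hg
    have hgp := isPrim_of_mem_dvs hg
    obtain ⟨hp1, hp1'⟩ := dvs_quo hmi hg
    have hgZ : (nm g : ℝ) ≤ Z :=
      le_trans (by exact_mod_cast Div277.nm_le_of_dvd hmi.ne_zero (dvd_of_mem_dvs hg)) (hmZ i hi)
    have hdv : m i / g ∣ m i := ⟨g, by rw [mul_comm]; exact hp1'⟩
    have hpZ : (nm (m i / g) : ℝ) ≤ Z :=
      le_trans (by exact_mod_cast Div277.nm_le_of_dvd hmi.ne_zero hdv) (hmZ i hi)
    have hU : 0 ≤ cc * tZ * ((1 + 16 * ch ^ 2) * Z ^ (ε / 8) * (k1 * TQt i + Hq * RR)) := by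
      positivity
    calc _ ≤ ∑ s ∈ pdiv g, ∑ b ∈ dvs (m i / g),
          cc * tZ * ((1 + 16 * ch ^ 2) * Z ^ (ε / 8) * (k1 * TQt i + Hq * RR)) :=
          Finset.sum_le_sum fun s hs => Finset.sum_le_sum fun b hb =>
            (hin g hg s hs b hb).trans (mul_le_mul_of_nonneg_left hbr (by positivity))
      _ = ((pdiv g).card : ℝ) * (((dvs (m i / g)).card : ℝ) *
          (cc * tZ * ((1 + 16 * ch ^ 2) * Z ^ (ε / 8) * (k1 * TQt i + Hq * RR)))) := by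
          rw [Finset.sum_const, Finset.sum_const, nsmul_eq_mul, nsmul_eq_mul]
      _ ≤ _ := by
          refine mul_le_mul ?_ ?_ (mul_nonneg (Nat.cast_nonneg _) hU) htZ0
          · rw [← dvs_eq_pdiv hgp.ne_zero]; exact hTau g hgp.ne_zero hgZ
          · exact mul_le_mul_of_nonneg_right (hTau _ hp1.ne_zero hpZ) hU
  calc _ ≤ ∑ g ∈ dvs (m i),
        tZ * (tZ * (cc * tZ * ((1 + 16 * ch ^ 2) * Z ^ (ε / 8) * (k1 * TQt i + Hq * RR)))) :=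
        Finset.sum_le_sum hst
    _ = ((dvs (m i)).card : ℝ) *
        (tZ * (tZ * (cc * tZ * ((1 + 16 * ch ^ 2) * Z ^ (ε / 8) * (k1 * TQt i + Hq * RR))))) := by
        rw [Finset.sum_const, nsmul_eq_mul]
    _ ≤ tZ * (tZ * (tZ * (cc * tZ * ((1 + 16 * ch ^ 2) * Z ^ (ε / 8) *
        (k1 * TQt i + Hq * RR))))) :=
        mul_le_mul_of_nonneg_right (hTau _ hmi.ne_zero (hmZ i hi)) (by positivity)
    _ = C0 * 27 * Ct ^ 4 * (1 + 16 * ch ^ 2) * T * (Z ^ (ε / 16) * Z ^ (ε / 16) * Z ^ (ε / 16) *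
        Z ^ (ε / 16) * Z ^ (ε / 2) * Z ^ (ε / 8)) * (K * (N i ^ (-(1 / 3) : ℝ) *
        (k1 * TQt i + Hq * RR))) := by
        rw [hcc, htZ]; ring
    _ ≤ C0 * 27 * Ct ^ 4 * (1 + 16 * ch ^ 2) * T * Z ^ ε * (K * (N i ^ (-(1 / 3) : ℝ) *
        (k1 * TQt i + Hq * RR))) := by
        refine mul_le_mul_of_nonneg_right ?_ (by positivity)
        refine mul_le_mul_of_nonneg_left ?_ (by positivity)
        rw [← Real.rpow_add hZ0, ← Real.rpow_add hZ0, ← Real.rpow_add hZ0, ← Real.rpow_add hZ0,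
          ← Real.rpow_add hZ0]
        refine Real.rpow_le_rpow_of_exponent_le hZ ?_
        linarith

end Crest.Agent.R017.E3q681
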