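import Crest.Agent.R017.E3q3_681

/-!
# Row 17, block C70, leaf E4 (x-side), the mean square of the amplitude (helper681)

* `AQ_mean` : the smooth mean square of `AQ` from the bound of the modes of every cell
* `AQ_block` : the sum over a dyadic block of `a`
-/

set_option autoImplicit false
set_option linter.unusedVariables false
set_option maxHeartbeats 400000

noncomputable section

open Complex MeasureTheory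
open scoped ComplexConjugate Classical ContDiff

namespace Crest.Agent.R017.E3q681

open Crest.Agent.R012 Crest.Agent.R012.Eis Crest.Agent.R012.MC
open Crest.Agent.R012.LS2 (S mem_S bl mem_bl)
open Crest.Agent.R012.Div277 (dvs mem_dvs isPrim_of_mem_dvs dvd_of_mem_dvs tau tau_le_rpow)
open Crest.Agent.R012.Mob705 (mu pdiv mem_pdiv)
open Crest.Agent.R017.CM106 (CS TG)
open Crest.Agent.R017.E1551 (nmpos jb jb_pos nm_ge_one summable_wF)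
open Crest.Agent.R017.BD829
open Crest.Agent.R017.E3P842

/-- the hypotheses on the parameters and the bound of the modes of every cell -/
structure PH {ι : Type*} (I : Finset ι) (A : ℕ) (T : ℕ) (N : ι → ℝ) (m : ι → Eis)
    (V : ι → Eis → ℂ) (K H Λ m₀ Y₀ Y M₀ Z R : ℝ) (q : ι → ℝ) (TQ : ι → Eis → Eis → Eis → ℝ)
    (RW TQt : ι → ℝ) : Prop where
  pi : PI I m V Y₀
  Z1 : 1 ≤ Z
  K0 : 0 < K
  KZ : K⁻¹ ≤ Z
  H0 : 0 < H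
  m0 : 0 < m₀
  ΛZ : Λ ≤ Z ^ 3
  Y1 : 1 ≤ Y
  YZ : Y ≤ Z
  M0 : 0 ≤ M₀
  MZ : M₀ ≤ Z
  hY : ∀ i ∈ I, ∀ j ∈ I, (nm (m i) : ℝ) * nm (m j) * Y₀ ≤ Y
  q0 : ∀ i ∈ I, 0 < q i
  N0 : ∀ i ∈ I, 0 < N i
  NZ : ∀ i ∈ I, N i ≤ Z
  mZ : ∀ i ∈ I, (nm (m i) : ℝ) ≤ Z
  mM : ∀ i ∈ I, (nm (m i) : ℝ) ≤ M₀
  mm : ∀ i ∈ I, m₀ ≤ nm (m i)
  NΛ : ∀ i ∈ I, N i * (nm (m i) : ℝ) ^ 2 ≤ Λ
  win : ∀ i ∈ I, Win (V i) (Real.log (N i)) R
  hT : ∀ i ∈ I, (I.filter (fun j => m j = m i)).card ≤ T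
  TQ0 : ∀ i ∈ I, ∀ a D F, 0 ≤ TQ i a D F
  RW0 : ∀ i ∈ I, 0 ≤ RW i
  hG : ∀ i ∈ I, ∀ s, IsPrim s → s ∣ m i → ∀ b, IsPrim b → b ∣ m i → ∀ a ∈ S M₀, ∀ D ∈ S Y,
    ∀ E ∈ pdiv D, ∀ F ∈ S Y, ∀ L, 1 ≤ L →
    ∑ w ∈ bl L, EQ A (uc V i s a D F) (Hf 3 E w F * b) ≤
      GB K H Λ m₀ (N i) (nm (m i)) (q i) (TQ i a D F)
        (if 1 ≤ LtC K H Λ m₀ (N i) (nm (m i)) (nm a) (nm D) (nm F) then RW i else 0)
        (nm s) (nm b) (nm a) (nm D) (nm E) (nm F) L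
  hTQ : ∀ i ∈ I, ∑ a ∈ S M₀, ∑ D ∈ S Y, ∑ F ∈ S Y, TQ i a D F ≤ TQt i

/-- the off-diagonal bound -/
def OB {ι : Type*} (I : Finset ι) (N : ι → ℝ) (m : ι → Eis) (K H Λ m₀ : ℝ) (q : ι → ℝ)
    (RW TQt : ι → ℝ) : ℝ :=
  K * ∑ i ∈ I, N i ^ (-(1 / 3) : ℝ) *
    (kap1 K H Λ m₀ (nm (m i)) (q i) * TQt i + H ^ (-(1 / 3) : ℝ) * q i ^ (1 / 3 : ℝ) *
      (Real.sqrt (Lst K H Λ m₀ (N i) (nm (m i))) * RW i))

/-- **the smooth mean square** -/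
theorem AQ_mean {w : ℝ → ℝ} (hw : Wgt w) {R : ℝ} (hR : 0 ≤ R) {A B : ℕ} (hA : 1 < A)
    (hB : 3 ≤ B) {ε : ℝ} (hε : 0 < ε) : ∃ C : ℝ, 0 ≤ C ∧
    ∀ {ι : Type*} (I : Finset ι) (T : ℕ) (N : ι → ℝ) (m : ι → Eis) (V : ι → Eis → ℂ)
      (K H Λ m₀ Y₀ Y M₀ Z : ℝ) (q : ι → ℝ) (TQ : ι → Eis → Eis → Eis → ℝ) (RW TQt : ι → ℝ),
      PH I A T N m V K H Λ m₀ Y₀ Y M₀ Z R q TQ RW TQt →
      ∑' a : Eis, (if IsPrim a then ‖AQ I m V a‖ ^ 2 else 0) * w (nm a / K) ≤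
        C * T * (K * ∑ i ∈ I, ∑ n ∈ S Y, ‖V i n‖ ^ 2) +
          C * T * Z ^ ε * OB I N m K H Λ m₀ q RW TQt := by
  obtain ⟨C1, hk⟩ := exists_KT hw hR A B
  obtain ⟨C2, hC2, hO⟩ := OFFM_le hB hε
  have hC1 : 0 ≤ C1 := hk.1
  have h3 : 0 < Real.sqrt 3 := Real.sqrt_pos.mpr (by norm_num)
  refine ⟨2 / (9 * Real.sqrt 3) * |Wt w 0| + 4 * C1 * C2, by positivity, ?_⟩
  intro ι I T N m V K H Λ m₀ Y₀ Y M₀ Z q TQ RW TQt h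
  have hY0 : 0 ≤ Y := by linarith [h.Y1]
  have h1 := h.pi.AQ_le h.Y1 h.hY hw hk hA (by omega) h.K0 h.N0 h.win h.hT
  have h2 := h.pi.OFF_le h.hY hA hB h.K0 h.N0 h.NΛ h.m0 h.mm h.mM h.hT
  have h4 := hO I A T N m V K H Λ m₀ Y M₀ Z q TQ RW TQt h.Z1 h.K0 h.KZ h.H0 h.m0 h.ΛZ hY0 h.YZ
    h.M0 h.MZ h.q0 h.N0 h.NZ (fun i hi => h.pi.hm i hi) h.mZ h.NΛ h.TQ0 h.RW0 h.hG h.hTQ
  have hK := h.K0
  have hd : 0 ≤ ∑ i ∈ I, ∑ n ∈ S Y, ‖V i n‖ ^ 2 :=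
    Finset.sum_nonneg fun i _ => Finset.sum_nonneg fun n _ => by positivity
  have hOB : 0 ≤ OB I N m K H Λ m₀ q RW TQt := by
    unfold OB
    refine mul_nonneg hK.le (Finset.sum_nonneg fun i hi => ?_)
    have hNi := h.N0 i hi
    have hqi := h.q0 i hi
    have hH := h.H0
    have hm0 := h.m0
    have hmi := nmpos (h.pi.hm i hi).ne_zero
    have hΛ0 : 0 < Λ := lt_of_lt_of_le (by positivity) (h.NΛ i hi)
    have hTQt : 0 ≤ TQt i := le_trans (Finset.sum_nonneg fun a _ => Finset.sum_nonneg fun D _ =>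
      Finset.sum_nonneg fun F _ => h.TQ0 i hi a D F) (h.hTQ i hi)
    have hRW := h.RW0 i hi
    have hθ0 : 0 < thR K H Λ m₀ := by unfold thR; positivity
    have hk1 : 0 ≤ kap1 K H Λ m₀ (nm (m i)) (q i) := by unfold kap1; positivity
    positivity
  have hZe : 0 ≤ Z ^ ε := by have := h.Z1; positivity
  have hWt : 0 ≤ |Wt w 0| := abs_nonneg _
  refine h1.trans ?_
  have e1 : (2 * K / (9 * Real.sqrt 3)) * |Wt w 0| * (T * ∑ i ∈ I, ∑ n ∈ S Y, ‖V i n‖ ^ 2) ≤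
      (2 / (9 * Real.sqrt 3) * |Wt w 0| + 4 * C1 * C2) * T *
        (K * ∑ i ∈ I, ∑ n ∈ S Y, ‖V i n‖ ^ 2) := by
    have e2 : (2 * K / (9 * Real.sqrt 3)) * |Wt w 0| * (T * ∑ i ∈ I, ∑ n ∈ S Y, ‖V i n‖ ^ 2) =
        (2 / (9 * Real.sqrt 3) * |Wt w 0|) * T * (K * ∑ i ∈ I, ∑ n ∈ S Y, ‖V i n‖ ^ 2) := by
      ring
    rw [e2]
    have h5 : 0 ≤ 4 * C1 * C2 := by positivity
    gcongr
    linarith
  refine add_le_add e1 ?_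
  have h6 : 2 * C1 * ∑ i ∈ I, ∑ j ∈ I, ∑ s ∈ pdiv (gq m i j),
        MP A B 3 (fun _ => 1) (K / nm s) (N i * N j) Y (pq m i j) (pq m j i)
          (tws s (V i)) (tws s (V j)) ≤
      2 * C1 * (2 * (C2 * T * Z ^ ε * OB I N m K H Λ m₀ q RW TQt)) := by
    refine mul_le_mul_of_nonneg_left ?_ (by positivity)
    exact h2.trans (mul_le_mul_of_nonneg_left h4 (by norm_num))
  refine h6.trans ?_
  have h7 : 2 * C1 * (2 * (C2 * T * Z ^ ε * OB I N m K H Λ m₀ q RW TQt)) =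
      (4 * C1 * C2) * T * Z ^ ε * OB I N m K H Λ m₀ q RW TQt := by ring
  rw [h7]
  have h8 : 0 ≤ 2 / (9 * Real.sqrt 3) * |Wt w 0| := by positivity
  gcongr
  linarith

/-- a weight for dyadic blocks -/
lemma exists_wb : ∃ w : ℝ → ℝ, Wgt w ∧ (∀ x, 0 ≤ w x) ∧ ∀ x, 1 ≤ x → x ≤ 2 → 1 ≤ w x := by
  let f : ContDiffBump (3 / 2 : ℝ) := ⟨1 / 2, 1, by norm_num, by norm_num⟩
  refine ⟨f, ⟨f.contDiff, f.hasCompactSupport, ?_⟩, fun x => f.nonneg, fun x h1 h2 => ?_⟩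
  · rw [f.tsupport_eq]
    intro x hx
    rw [Metric.mem_closedBall, Real.dist_eq] at hx
    have h3 : |x - 3 / 2| ≤ 1 := hx
    have := (abs_le.mp h3).1
    exact Set.mem_Ioi.mpr (by linarith)
  · have h3 : f x = 1 := by
      refine f.one_of_mem_closedBall ?_
      rw [Metric.mem_closedBall, Real.dist_eq]
      show |x - 3 / 2| ≤ 1 / 2
      rw [abs_le]
      constructor <;> linarith
    rw [h3]

/-- **the sum over a dyadic block** -/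
theorem AQ_block {R : ℝ} (hR : 0 ≤ R) {A B : ℕ} (hA : 1 < A)
    (hB : 3 ≤ B) {ε : ℝ} (hε : 0 < ε) : ∃ C : ℝ, 0 ≤ C ∧
    ∀ {ι : Type*} (I : Finset ι) (T : ℕ) (N : ι → ℝ) (m : ι → Eis) (V : ι → Eis → ℂ)
      (K H Λ m₀ Y₀ Y M₀ Z : ℝ) (q : ι → ℝ) (TQ : ι → Eis → Eis → Eis → ℝ) (RW TQt : ι → ℝ),
      PH I A T N m V K H Λ m₀ Y₀ Y M₀ Z R q TQ RW TQt →
      ∀ P : Finset Eis, (∀ a ∈ P, IsPrim a ∧ K ≤ nm a ∧ (nm a : ℝ) ≤ 2 * K) →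
      ∑ a ∈ P, ‖AQ I m V a‖ ^ 2 ≤
        C * T * (K * ∑ i ∈ I, ∑ n ∈ S Y, ‖V i n‖ ^ 2) +
          C * T * Z ^ ε * OB I N m K H Λ m₀ q RW TQt := by
  obtain ⟨w, hw, hw0, hw1⟩ := exists_wb
  obtain ⟨C, hC, h⟩ := AQ_mean hw hR hA hB hε
  refine ⟨C, hC, ?_⟩
  intro ι I T N m V K H Λ m₀ Y₀ Y M₀ Z q TQ RW TQt hp P hP
  refine le_trans ?_ (h I T N m V K H Λ m₀ Y₀ Y M₀ Z q TQ RW TQt hp)
  have hK := hp.K0
  have hs : Summable fun a : Eis => (if IsPrim a then ‖AQ I m V a‖ ^ 2 else 0) * w (nm a / K) := by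
    have h1 := summable_wF hw hK (fun a => (((if IsPrim a then ‖AQ I m V a‖ ^ 2 else 0 : ℝ)) : ℂ))
    rw [← Complex.summable_ofReal]
    refine h1.congr fun a => ?_
    push_cast
    split_ifs <;> simp
  refine le_trans ?_ (hs.sum_le_tsum P fun a _ => mul_nonneg (by split_ifs <;> positivity) (hw0 _))
  refine Finset.sum_le_sum fun a ha => ?_
  obtain ⟨h1, h2, h3⟩ := hP a ha
  rw [if_pos h1]
  have h4 : 1 ≤ w (nm a / K) := by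
    refine hw1 _ ?_ ?_
    · rw [le_div_iff₀ hK]; linarith
    · rw [div_le_iff₀ hK]; exact h3
  exact le_mul_of_one_le_right (by positivity) h4

end Crest.Agent.R017.E3q681
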