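import Crest.Agent.R017.FE3_47

/-!
# Row 17: functional equation of the smooth family sums (4): radial functions

`rad f u = fC f (e^{u/2})`.  Separation of variables of `u ↦ χ(u) rad (tws a τ) (u + s)`, with a
kernel rapidly decreasing in `e^s` and `t`, polynomially bounded in `τ`.
-/

set_option autoImplicit false

noncomputable section

open Complex MeasureTheory Filter Topology
open scoped SchwartzMap ContDiff

namespace Crest.Agent.R017.FE47

open Crest.Agent.R012 Crest.Agent.R012.Eis Crest.Agent.R012.Po581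
open Crest.Agent.R012.Weight600 (osc norm_osc ker ker_deriv inversion_smooth norm_ker_le)

/-- multiplication by `-2πi (z + z̄)`, the derivative of `e(-r z)` in `r` -/
def mz (f : ℂ → ℂ) (z : ℂ) : ℂ := f z * (-((4 * Real.pi * z.re : ℝ) : ℂ) * I)

lemma Ad.mz {f : ℂ → ℂ} (hf : Ad f) : Ad (FE47.mz f) := by
  refine hf.mul fun z _ => ?_
  have h : ContDiff ℝ ∞ (fun z : ℂ => ((4 * Real.pi * z.re : ℝ) : ℂ)) :=
    Complex.ofRealCLM.contDiff.comp (contDiff_const.mul Complex.reCLM.contDiff)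
  exact (h.neg.mul contDiff_const).contDiffAt

lemma mz_tws (a : ℂ → ℂ) (τ : ℝ) (z : ℂ) : mz (tws a τ) z = tws (mz a) τ z := by
  unfold mz tws; ring

/-- derivative of the Fourier transform along the real axis -/
lemma hasDerivAt_fC {f : ℂ → ℂ} (hf : Ad f) (r : ℝ) :
    HasDerivAt (fun r : ℝ => fC f (r : ℂ)) (fC (mz f) (r : ℂ)) r := by
  have key : ∀ (z : ℂ) (x : ℝ), HasDerivAt (fun x : ℝ => f z * eC (-((x : ℂ) * z)))
      (mz f z * eC (-((x : ℂ) * z))) x := by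
    intro z x
    have e : (fun x : ℝ => f z * eC (-((x : ℂ) * z))) =
        fun x : ℝ => f z * cexp (((-(4 * Real.pi * z.re)) * x : ℝ) * I) := by
      funext x
      rw [eC_eq]
      congr 2
      rw [neg_re, Complex.re_ofReal_mul]
      push_cast
      ring
    have e2 : eC (-((x : ℂ) * z)) = cexp (((-(4 * Real.pi * z.re)) * x : ℝ) * I) := by
      rw [eC_eq, neg_re, Complex.re_ofReal_mul]
      congr 1
      push_cast
      ring
    rw [e, e2]
    have h1 : HasDerivAt (fun x : ℝ => ((((-(4 * Real.pi * z.re)) * x : ℝ)) : ℂ))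
        (((-(4 * Real.pi * z.re) : ℝ)) : ℂ) x := by
      have := ((hasDerivAt_id x).const_mul (-(4 * Real.pi * z.re))).ofReal_comp
      simpa using this
    have h2 := ((h1.mul_const I).cexp).const_mul (f z)
    refine h2.congr_deriv ?_
    unfold mz
    push_cast
    ring
  have hm := hf.mz
  have h := hasDerivAt_integral_of_dominated_loc_of_deriv_le (μ := (volume : Measure ℂ))
    (F := fun (x : ℝ) z => f z * eC (-((x : ℂ) * z)))
    (F' := fun (x : ℝ) z => mz f z * eC (-((x : ℂ) * z))) (x₀ := r) (s := Set.univ)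
    (bound := fun z => ‖mz f z‖) (Filter.univ_mem)
    (Eventually.of_forall fun x => (hf.integrable_mul_eC x).aestronglyMeasurable)
    (hf.integrable_mul_eC r) (hm.integrable_mul_eC r).aestronglyMeasurable
    (Eventually.of_forall fun z x _ => by rw [norm_mul, eC_norm, mul_one])
    hm.integrable.norm (Eventually.of_forall fun z x _ => key z x)
  exact h.2

/-- the radial function in the logarithmic variable -/
def rad (f : ℂ → ℂ) (u : ℝ) : ℂ := fC f ((Real.exp (u / 2) : ℝ) : ℂ)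

lemma hasDerivAt_rad {f : ℂ → ℂ} (hf : Ad f) (u : ℝ) :
    HasDerivAt (rad f) ((Real.exp (u / 2) / 2 : ℝ) * rad (mz f) u) u := by
  have h1 : HasDerivAt (fun u : ℝ => Real.exp (u / 2)) (Real.exp (u / 2) / 2) u := by
    have := ((hasDerivAt_id u).div_const 2).exp
    simpa [div_eq_mul_inv] using this
  have h2 := (hasDerivAt_fC hf (Real.exp (u / 2))).scomp u h1
  have e : (fun r : ℝ => fC f (r : ℂ)) ∘ (fun u : ℝ => Real.exp (u / 2)) = rad f := rfl
  rw [e] at h2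
  have e2 : (Real.exp (u / 2) / 2) • fC (mz f) ((Real.exp (u / 2) : ℝ) : ℂ) =
      (Real.exp (u / 2) / 2 : ℝ) * rad (mz f) u := by
    rw [Complex.real_smul]; rfl
  rw [e2] at h2
  exact h2

/-- weighted radial function `e^{j u / 2} rad f u` -/
def rj (f : ℂ → ℂ) (j : ℕ) (u : ℝ) : ℂ := ((Real.exp (j * u / 2) : ℝ) : ℂ) * rad f u

lemma rj_zero (f : ℂ → ℂ) (u : ℝ) : rj f 0 u = rad f u := by simp [rj]

lemma hasDerivAt_rj {f : ℂ → ℂ} (hf : Ad f) (j : ℕ) (u : ℝ) :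
    HasDerivAt (rj f j) ((j / 2 : ℝ) * rj f j u + (1 / 2 : ℝ) * rj (mz f) (j + 1) u) u := by
  have h1 : HasDerivAt (fun u : ℝ => ((Real.exp (j * u / 2) : ℝ) : ℂ))
      ((Real.exp (j * u / 2) * (j / 2) : ℝ)) u := by
    have : HasDerivAt (fun u : ℝ => Real.exp (j * u / 2)) (Real.exp (j * u / 2) * (j / 2)) u := by
      have := (((hasDerivAt_id u).const_mul (j : ℝ)).div_const 2).exp
      simpa using this
    exact this.ofReal_comp
  have h2 := h1.mul (hasDerivAt_rad hf u)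
  refine h2.congr_deriv ?_
  unfold rj
  have e : Real.exp (((j + 1 : ℕ) : ℝ) * u / 2) = Real.exp (j * u / 2) * Real.exp (u / 2) := by
    rw [← Real.exp_add]; congr 1; push_cast; ring
  rw [e]
  push_cast
  ring

lemma contDiff_rj_nat (n : ℕ) : ∀ (f : ℂ → ℂ), Ad f → ∀ j, ContDiff ℝ n (rj f j) := by
  induction n with
  | zero =>
    intro f hf j
    rw [Nat.cast_zero, contDiff_zero]
    exact continuous_iff_continuousAt.mpr fun u => (hasDerivAt_rj hf j u).continuousAt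
  | succ n ih =>
    intro f hf j
    have : ((n + 1 : ℕ) : WithTop ℕ∞) = (n : WithTop ℕ∞) + 1 := by push_cast; rfl
    rw [this, contDiff_succ_iff_deriv]
    refine ⟨fun u => (hasDerivAt_rj hf j u).differentiableAt, ?_, ?_⟩
    · intro h; simp at h
    · have e : deriv (rj f j) = fun u => ((j / 2 : ℝ) : ℂ) * rj f j u +
          ((1 / 2 : ℝ) : ℂ) * rj (mz f) (j + 1) u := funext fun u => (hasDerivAt_rj hf j u).deriv
      rw [e]
      exact (contDiff_const.mul (ih f hf j)).add (contDiff_const.mul (ih _ hf.mz (j + 1)))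

lemma contDiff_rj {f : ℂ → ℂ} (hf : Ad f) (j : ℕ) : ContDiff ℝ ∞ (rj f j) :=
  contDiff_infty.mpr fun n => contDiff_rj_nat n f hf j

/-- pointwise decay -/
lemma rj_decay (a : ℂ → ℂ) (ha : Ad a) (j A : ℕ) : ∃ C : ℝ, 0 ≤ C ∧ ∀ (τ u : ℝ),
    ‖rj (tws a τ) j u‖ * (1 + Real.exp u) ^ A ≤ C * (1 + |τ|) ^ (j + 2 * A) := by
  obtain ⟨C1, hC1, h1⟩ := fC_tws_decay j a ha
  obtain ⟨C2, hC2, h2⟩ := fC_tws_decay (j + 2 * A) a ha
  refine ⟨2 ^ A * (C1 + C2), by positivity, fun τ u => ?_⟩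
  set x := Real.exp (u / 2) with hx
  have hx0 : 0 < x := Real.exp_pos _
  have e1 : Real.exp (j * u / 2) = x ^ j := by
    rw [hx, ← Real.exp_nat_mul]; congr 1; ring
  have e2 : Real.exp u = x ^ 2 := by
    rw [hx, ← Real.exp_nat_mul]; congr 1; push_cast; ring
  have hn : ‖((x : ℝ) : ℂ)‖ = x := by rw [Complex.norm_real, Real.norm_of_nonneg hx0.le]
  have h1' := h1 τ ((x : ℝ) : ℂ)
  have h2' := h2 τ ((x : ℝ) : ℂ)
  rw [hn] at h1' h2'
  have e3 : ‖rj (tws a τ) j u‖ = x ^ j * ‖fC (tws a τ) (x : ℂ)‖ := by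
    unfold rj
    rw [norm_mul, e1, Complex.norm_real, Real.norm_of_nonneg (by positivity)]
    rfl
  have e4 : (1 + Real.exp u) ^ A ≤ 2 ^ A * (1 + x ^ (2 * A)) := by
    rw [e2, pow_mul]
    rcases le_total (x ^ 2) 1 with h | h
    · calc (1 + x ^ 2) ^ A ≤ (1 + 1) ^ A := by gcongr
        _ = 2 ^ A * 1 := by norm_num
        _ ≤ 2 ^ A * (1 + (x ^ 2) ^ A) := by
          gcongr; linarith [pow_nonneg (sq_nonneg x) A]
    · calc (1 + x ^ 2) ^ A ≤ (x ^ 2 + x ^ 2) ^ A := by gcongr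
        _ = 2 ^ A * (x ^ 2) ^ A := by rw [← mul_pow]; congr 1; ring
        _ ≤ 2 ^ A * (1 + (x ^ 2) ^ A) := by gcongr; linarith
  have hτ : (1 : ℝ) ≤ 1 + |τ| := by linarith [abs_nonneg τ]
  calc ‖rj (tws a τ) j u‖ * (1 + Real.exp u) ^ A
      ≤ (x ^ j * ‖fC (tws a τ) (x : ℂ)‖) * (2 ^ A * (1 + x ^ (2 * A))) := by
        rw [e3]; gcongr
    _ = 2 ^ A * (x ^ j * ‖fC (tws a τ) (x : ℂ)‖ + x ^ (j + 2 * A) * ‖fC (tws a τ) (x : ℂ)‖) := by
        rw [pow_add]; ring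
    _ ≤ 2 ^ A * (C1 * (1 + |τ|) ^ j + C2 * (1 + |τ|) ^ (j + 2 * A)) := by gcongr
    _ ≤ 2 ^ A * (C1 * (1 + |τ|) ^ (j + 2 * A) + C2 * (1 + |τ|) ^ (j + 2 * A)) := by
        gcongr 2 ^ A * (C1 * ?_ + C2 * (1 + |τ|) ^ (j + 2 * A))
        exact pow_le_pow_right₀ hτ (by omega)
    _ = 2 ^ A * (C1 + C2) * (1 + |τ|) ^ (j + 2 * A) := by ring

/-! ### separation of variables -/

/-- `χ(v) e^{j(v+s)/2} rad f (v + s)` -/
def Wv (χ : ℝ → ℂ) (f : ℂ → ℂ) (j : ℕ) (s v : ℝ) : ℂ := χ v * rj f j (v + s)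

lemma contDiff_Wv {χ : ℝ → ℂ} (h1 : ContDiff ℝ ∞ χ) {f : ℂ → ℂ} (hf : Ad f) (j : ℕ) (s : ℝ) :
    ContDiff ℝ ∞ (Wv χ f j s) :=
  h1.mul ((contDiff_rj hf j).comp (contDiff_id.add contDiff_const))

lemma hasCompactSupport_Wv {χ : ℝ → ℂ} (h2 : HasCompactSupport χ) (f : ℂ → ℂ) (j : ℕ) (s : ℝ) :
    HasCompactSupport (Wv χ f j s) := h2.mul_right

lemma integrable_Wv {χ : ℝ → ℂ} (h1 : ContDiff ℝ ∞ χ) (h2 : HasCompactSupport χ) {f : ℂ → ℂ}
    (hf : Ad f) (j : ℕ) (s : ℝ) : Integrable (Wv χ f j s) :=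
  (contDiff_Wv h1 hf j s).continuous.integrable_of_hasCompactSupport (hasCompactSupport_Wv h2 f j s)

lemma deriv_Wv {χ : ℝ → ℂ} (h1 : ContDiff ℝ ∞ χ) {f : ℂ → ℂ} (hf : Ad f) (j : ℕ) (s v : ℝ) :
    deriv (Wv χ f j s) v = Wv (fun v => deriv χ v + ((j / 2 : ℝ) : ℂ) * χ v) f j s v +
      Wv (fun v => ((1 / 2 : ℝ) : ℂ) * χ v) (mz f) (j + 1) s v := by
  have hχ : HasDerivAt χ (deriv χ v) v := (h1.differentiable (by simp) v).hasDerivAt
  have h2 : HasDerivAt (fun v => rj f j (v + s)) ((j / 2 : ℝ) * rj f j (v + s) +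
      (1 / 2 : ℝ) * rj (mz f) (j + 1) (v + s)) v := (hasDerivAt_rj hf j (v + s)).comp_add_const v s
  have h3 := (hχ.mul h2).deriv
  have e : Wv χ f j s = χ * fun v => rj f j (v + s) := rfl
  rw [e, h3]
  unfold Wv
  ring

lemma ker_congr {w v : ℝ → ℂ} (h : ∀ u, w u = v u) (t : ℝ) : ker w t = ker v t := by
  have : w = v := funext h
  rw [this]

lemma ker_add {w v : ℝ → ℂ} (hw : Integrable w) (hv : Integrable v) (t : ℝ) :
    ker (fun u => w u + v u) t = ker w t + ker v t := by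
  unfold Weight600.ker
  rw [← mul_add, ← integral_add]
  · congr 2; ext u; ring
  · refine hw.mul_bdd (c := 1) ?_ ?_
    · exact ((Weight600.continuous_osc_right t).comp continuous_neg).aestronglyMeasurable
    · exact Eventually.of_forall fun u => (norm_osc _ _).le
  · refine hv.mul_bdd (c := 1) ?_ ?_
    · exact ((Weight600.continuous_osc_right t).comp continuous_neg).aestronglyMeasurable
    · exact Eventually.of_forall fun u => (norm_osc _ _).le

lemma contDiff_deriv' {χ : ℝ → ℂ} (h1 : ContDiff ℝ ∞ χ) : ContDiff ℝ ∞ (deriv χ) := by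
  have := h1.iterate_deriv 1
  simpa using this

lemma ker_Wv_bound (A k : ℕ) : ∀ χ : ℝ → ℂ, ContDiff ℝ ∞ χ → HasCompactSupport χ →
    ∀ a : ℂ → ℂ, Ad a → ∀ j : ℕ, ∃ C : ℝ, 0 ≤ C ∧ ∀ τ s t : ℝ,
      |t| ^ k * ‖ker (Wv χ (tws a τ) j s) t‖ * (1 + Real.exp s) ^ A ≤
        C * (1 + |τ|) ^ (j + k + 2 * A) := by
  induction k with
  | zero =>
    intro χ h1 h2 a ha j
    obtain ⟨C, hC, hd⟩ := rj_decay a ha j A
    obtain ⟨R, hR0, hR⟩ : ∃ R : ℝ, 0 ≤ R ∧ ∀ u, χ u ≠ 0 → |u| ≤ R := by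
      obtain ⟨R, hR⟩ := h2.isCompact.isBounded.exists_norm_le
      exact ⟨max R 0, le_max_right _ _, fun u hu =>
        (hR u (subset_tsupport _ hu)).trans (le_max_left _ _)⟩
    refine ⟨(∫ u, ‖χ u‖) * (C * Real.exp (R * A)), by positivity, fun τ s t => ?_⟩
    have hχi : Integrable χ := h1.continuous.integrable_of_hasCompactSupport h2
    have hb : ∀ v, ‖Wv χ (tws a τ) j s v‖ * (1 + Real.exp s) ^ A ≤
        ‖χ v‖ * (C * Real.exp (R * A) * (1 + |τ|) ^ (j + 2 * A)) := by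
      intro v
      by_cases hv : χ v = 0
      · simp [Wv, hv]
      · have hvR := hR v hv
        have h3 := hd τ (v + s)
        have h4 : 1 + Real.exp s ≤ Real.exp R * (1 + Real.exp (v + s)) := by
          have h5 : Real.exp s ≤ Real.exp R * Real.exp (v + s) := by
            rw [← Real.exp_add]
            apply Real.exp_le_exp.mpr
            linarith [neg_abs_le v]
          have h6 : (1 : ℝ) ≤ Real.exp R := Real.one_le_exp hR0
          rw [mul_add, mul_one]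
          linarith
        have h7 : (1 + Real.exp s) ^ A ≤ Real.exp (R * A) * (1 + Real.exp (v + s)) ^ A := by
          calc (1 + Real.exp s) ^ A ≤ (Real.exp R * (1 + Real.exp (v + s))) ^ A := by gcongr
            _ = _ := by rw [mul_pow, ← Real.exp_nat_mul]; ring_nf
        unfold Wv
        rw [norm_mul]
        calc ‖χ v‖ * ‖rj (tws a τ) j (v + s)‖ * (1 + Real.exp s) ^ A
            ≤ ‖χ v‖ * ‖rj (tws a τ) j (v + s)‖ * (Real.exp (R * A) * (1 + Real.exp (v + s)) ^ A) := by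
              gcongr
          _ = ‖χ v‖ * (Real.exp (R * A) * (‖rj (tws a τ) j (v + s)‖ * (1 + Real.exp (v + s)) ^ A)) := by
              ring
          _ ≤ ‖χ v‖ * (Real.exp (R * A) * (C * (1 + |τ|) ^ (j + 2 * A))) := by gcongr
          _ = _ := by ring
    have hk : ‖ker (Wv χ (tws a τ) j s) t‖ ≤ ∫ v, ‖Wv χ (tws a τ) j s v‖ := by
      refine (norm_ker_le _ t).trans ?_
      have h6 : 1 / (2 * Real.pi) ≤ 1 := by
        rw [div_le_one (by positivity)]
        nlinarith [Real.pi_gt_three]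
      exact mul_le_of_le_one_left (by positivity) h6
    have hp : 0 < (1 + Real.exp s) ^ A := by positivity
    calc |t| ^ 0 * ‖ker (Wv χ (tws a τ) j s) t‖ * (1 + Real.exp s) ^ A
        ≤ (∫ v, ‖Wv χ (tws a τ) j s v‖) * (1 + Real.exp s) ^ A := by
          rw [pow_zero, one_mul]; gcongr
      _ = ∫ v, ‖Wv χ (tws a τ) j s v‖ * (1 + Real.exp s) ^ A := by rw [integral_mul_const]
      _ ≤ ∫ v, ‖χ v‖ * (C * Real.exp (R * A) * (1 + |τ|) ^ (j + 2 * A)) := by
          apply integral_mono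
          · exact (integrable_Wv h1 h2 (ha.tws τ) j s).norm.mul_const _
          · exact hχi.norm.mul_const _
          · exact hb
      _ = (∫ u, ‖χ u‖) * (C * Real.exp (R * A)) * (1 + |τ|) ^ (j + 0 + 2 * A) := by
          rw [integral_mul_const]; ring_nf
  | succ k ih =>
    intro χ h1 h2 a ha j
    have h1' : ContDiff ℝ ∞ (fun v => deriv χ v + ((j / 2 : ℝ) : ℂ) * χ v) :=
      (contDiff_deriv' h1).add (contDiff_const.mul h1)
    have h2' : HasCompactSupport (fun v => deriv χ v + ((j / 2 : ℝ) : ℂ) * χ v) :=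
      h2.deriv.add h2.mul_left
    have h1'' : ContDiff ℝ ∞ (fun v => ((1 / 2 : ℝ) : ℂ) * χ v) := contDiff_const.mul h1
    have h2'' : HasCompactSupport (fun v => ((1 / 2 : ℝ) : ℂ) * χ v) := h2.mul_left
    obtain ⟨C1, hC1, b1⟩ := ih _ h1' h2' a ha j
    obtain ⟨C2, hC2, b2⟩ := ih _ h1'' h2'' _ ha.mz (j + 1)
    refine ⟨C1 + C2, by positivity, fun τ s t => ?_⟩
    have hf := ha.tws τ
    have hw := contDiff_Wv h1 hf j s
    have h3 : ker (deriv (Wv χ (tws a τ) j s)) t = (I * t) * ker (Wv χ (tws a τ) j s) t := by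
      refine ker_deriv (integrable_Wv h1 h2 hf j s) (hw.differentiable (by simp)) ?_ t
      exact (contDiff_deriv' hw).continuous.integrable_of_hasCompactSupport
        (hasCompactSupport_Wv h2 _ j s).deriv
    have h4 : ker (deriv (Wv χ (tws a τ) j s)) t =
        ker (Wv (fun v => deriv χ v + ((j / 2 : ℝ) : ℂ) * χ v) (tws a τ) j s) t +
        ker (Wv (fun v => ((1 / 2 : ℝ) : ℂ) * χ v) (tws (mz a) τ) (j + 1) s) t := by
      rw [← ker_add (integrable_Wv h1' h2' hf j s) (integrable_Wv h1'' h2'' (ha.mz.tws τ) (j + 1) s)]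
      refine ker_congr (fun v => ?_) t
      rw [deriv_Wv h1 hf]
      have e : mz (tws a τ) = tws (mz a) τ := funext fun z => mz_tws a τ z
      rw [e]
    have h5 : |t| * ‖ker (Wv χ (tws a τ) j s) t‖ ≤
        ‖ker (Wv (fun v => deriv χ v + ((j / 2 : ℝ) : ℂ) * χ v) (tws a τ) j s) t‖ +
        ‖ker (Wv (fun v => ((1 / 2 : ℝ) : ℂ) * χ v) (tws (mz a) τ) (j + 1) s) t‖ := by
      have h6 : ‖(I * t) * ker (Wv χ (tws a τ) j s) t‖ = |t| * ‖ker (Wv χ (tws a τ) j s) t‖ := by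
        rw [norm_mul, norm_mul, norm_I, one_mul, Complex.norm_real, Real.norm_eq_abs]
      rw [← h6, ← h3, h4]
      exact norm_add_le _ _
    have b1' := b1 τ s t
    have b2' := b2 τ s t
    have hτ : (1 : ℝ) ≤ 1 + |τ| := by linarith [abs_nonneg τ]
    set K1 := ‖ker (Wv (fun v => deriv χ v + ((j / 2 : ℝ) : ℂ) * χ v) (tws a τ) j s) t‖
    set K2 := ‖ker (Wv (fun v => ((1 / 2 : ℝ) : ℂ) * χ v) (tws (mz a) τ) (j + 1) s) t‖
    calc |t| ^ (k + 1) * ‖ker (Wv χ (tws a τ) j s) t‖ * (1 + Real.exp s) ^ A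
        = |t| ^ k * (|t| * ‖ker (Wv χ (tws a τ) j s) t‖) * (1 + Real.exp s) ^ A := by ring
      _ ≤ |t| ^ k * (K1 + K2) * (1 + Real.exp s) ^ A := by gcongr
      _ = |t| ^ k * K1 * (1 + Real.exp s) ^ A + |t| ^ k * K2 * (1 + Real.exp s) ^ A := by ring
      _ ≤ C1 * (1 + |τ|) ^ (j + k + 2 * A) + C2 * (1 + |τ|) ^ (j + 1 + k + 2 * A) := by
          exact add_le_add b1' b2'
      _ ≤ C1 * (1 + |τ|) ^ (j + (k + 1) + 2 * A) + C2 * (1 + |τ|) ^ (j + (k + 1) + 2 * A) := by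
          gcongr C1 * ?_ + C2 * ?_
          · exact pow_le_pow_right₀ hτ (by omega)
          · exact pow_le_pow_right₀ hτ (by omega)
      _ = (C1 + C2) * (1 + |τ|) ^ (j + (k + 1) + 2 * A) := by ring

/-- **Separation of variables** for the radial function. -/
theorem rad_sep {a : ℂ → ℂ} (ha : Ad a) {χ : ℝ → ℂ} (h1 : ContDiff ℝ ∞ χ)
    (h2 : HasCompactSupport χ) (A K : ℕ) : ∃ (C : ℝ) (J : ℕ), 0 ≤ C ∧ ∀ τ s : ℝ, ∃ κ : ℝ → ℂ,
      Continuous κ ∧ Integrable κ ∧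
      (∀ t, ‖κ t‖ ≤ C * (1 + |τ|) ^ J * ((1 + Real.exp s) ^ A)⁻¹ * ((1 + |t|) ^ K)⁻¹) ∧
      ∀ v, ∫ t, κ t * osc t v = χ v * rad (tws a τ) (v + s) := by
  obtain ⟨C0, hC0, b0⟩ := ker_Wv_bound A 0 χ h1 h2 a ha 0
  obtain ⟨C1, hC1, b1⟩ := ker_Wv_bound A K χ h1 h2 a ha 0
  refine ⟨2 ^ K * (C0 + C1), K + 2 * A, by positivity, fun τ s => ?_⟩
  have hf := ha.tws τ
  refine ⟨ker (Wv χ (tws a τ) 0 s), Weight600.continuous_ker (integrable_Wv h1 h2 hf 0 s),
    Weight600.ker_integrable (contDiff_Wv h1 hf 0 s) (hasCompactSupport_Wv h2 _ 0 s),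
    fun t => ?_, fun v => ?_⟩
  · have hb0 := b0 τ s t
    have hb1 := b1 τ s t
    rw [pow_zero, one_mul] at hb0
    have hτ : (1 : ℝ) ≤ 1 + |τ| := by linarith [abs_nonneg τ]
    have e4 : (1 + |t|) ^ K ≤ 2 ^ K * (1 + |t| ^ K) := by
      rcases le_total (|t|) 1 with h | h
      · calc (1 + |t|) ^ K ≤ (1 + 1) ^ K := by gcongr
          _ = 2 ^ K * 1 := by norm_num
          _ ≤ 2 ^ K * (1 + |t| ^ K) := by
            gcongr; linarith [pow_nonneg (abs_nonneg t) K]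
      · calc (1 + |t|) ^ K ≤ (|t| + |t|) ^ K := by gcongr
          _ = 2 ^ K * |t| ^ K := by rw [← mul_pow]; congr 1; ring
          _ ≤ 2 ^ K * (1 + |t| ^ K) := by gcongr; linarith
    have hE : 0 < (1 + Real.exp s) ^ A := by positivity
    have hT : 0 < (1 + |t|) ^ K := by positivity
    rw [mul_assoc, mul_assoc, ← mul_inv, ← div_eq_mul_inv, ← mul_div_assoc,
      le_div_iff₀ (mul_pos hE hT)]
    set N := ‖ker (Wv χ (tws a τ) 0 s) t‖
    calc N * ((1 + Real.exp s) ^ A * (1 + |t|) ^ K)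
        ≤ N * ((1 + Real.exp s) ^ A * (2 ^ K * (1 + |t| ^ K))) := by gcongr
      _ = 2 ^ K * (N * (1 + Real.exp s) ^ A + |t| ^ K * N * (1 + Real.exp s) ^ A) := by ring
      _ ≤ 2 ^ K * (C0 * (1 + |τ|) ^ (0 + 0 + 2 * A) + C1 * (1 + |τ|) ^ (0 + K + 2 * A)) := by
          gcongr
      _ ≤ 2 ^ K * (C0 * (1 + |τ|) ^ (K + 2 * A) + C1 * (1 + |τ|) ^ (K + 2 * A)) := by
          gcongr 2 ^ K * (C0 * ?_ + C1 * ?_)
          · exact pow_le_pow_right₀ hτ (by omega)
          · exact pow_le_pow_right₀ hτ (by omega)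
      _ = 2 ^ K * (C0 + C1) * (1 + |τ|) ^ (K + 2 * A) := by ring
  · rw [inversion_smooth (contDiff_Wv h1 hf 0 s) (hasCompactSupport_Wv h2 _ 0 s)]
    unfold Wv
    rw [rj_zero]

end Crest.Agent.R017.FE47
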