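import Crest.Agent.R017.FE2_47
import Crest.Agent.R017.FE4_47

/-!
# Row 17: functional equation of the smooth family sums (5): the smooth sums

`PS h Ξ κ t = ∑_{b primary} Ξ(b) nm(b)^{it} h(log nm b - κ)` and the exact functional equation
`PS_eq_dual` with the dual radial weight.
-/

set_option autoImplicit false

noncomputable section

open Complex MeasureTheory Filter Topology
open scoped SchwartzMap ContDiff

namespace Crest.Agent.R017.FE47

open Crest.Agent.R012 Crest.Agent.R012.Eis Crest.Agent.R012.Po581 Crest.Agent.R012.Gauss880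
open Crest.Agent.R012.Weight600 (osc norm_osc)
open Crest.Agent.R017.End699

/-- the smooth sum at the logarithmic scale `κ` and the height `t` -/
def PS (h : ℝ → ℂ) (Ξ : Eis → ℂ) (κ t : ℝ) : ℂ :=
  ∑' b : Eis, End699.ext Ξ b * (osc t (Real.log (nm b)) * h (Real.log (nm b) - κ))

/-- the test function `(z/|z|)^l w(log |z|²)` -/
def gf (w : ℝ → ℂ) (l : ℤ) (z : ℂ) : ℂ :=
  if z = 0 then 0 else w (Real.log (‖z‖ ^ 2)) * (z / (‖z‖ : ℂ)) ^ l

lemma gf_zero (w : ℝ → ℂ) (l : ℤ) : gf w l 0 = 0 := by simp [gf]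

lemma gf_of_ne (w : ℝ → ℂ) (l : ℤ) {z : ℂ} (hz : z ≠ 0) :
    gf w l z = w (Real.log (‖z‖ ^ 2)) * (z / (‖z‖ : ℂ)) ^ l := by simp [gf, hz]

theorem ad_gf {w : ℝ → ℂ} (h1 : ContDiff ℝ ∞ w) (h2 : HasCompactSupport w) (l : ℤ) :
    Ad (gf w l) := by
  obtain ⟨R, hR0, hR⟩ : ∃ R : ℝ, 0 ≤ R ∧ ∀ u, w u ≠ 0 → |u| ≤ R := by
    obtain ⟨R, hR⟩ := h2.isCompact.isBounded.exists_norm_le
    exact ⟨max R 0, le_max_right _ _, fun u hu =>
      (hR u (subset_tsupport _ hu)).trans (le_max_left _ _)⟩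
  have hz0 : gf w l =ᶠ[𝓝 0] 0 := by
    have h3 : ∀ᶠ z : ℂ in 𝓝 0, ‖z‖ < Real.exp (-(R + 1) / 2) := by
      have : Metric.ball (0 : ℂ) (Real.exp (-(R + 1) / 2)) ∈ 𝓝 (0 : ℂ) :=
        Metric.ball_mem_nhds _ (Real.exp_pos _)
      filter_upwards [this] with z hz
      simpa using hz
    filter_upwards [h3] with z hz
    by_cases h0 : z = 0
    · rw [h0, gf_zero]; rfl
    · rw [gf_of_ne w l h0]
      have hn : 0 < ‖z‖ := norm_pos_iff.mpr h0
      have h4 : Real.log (‖z‖ ^ 2) < -(R + 1) := by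
        rw [Real.log_pow]
        have := (Real.log_lt_iff_lt_exp hn).mpr hz
        push_cast
        linarith
      have h5 : w (Real.log (‖z‖ ^ 2)) = 0 := by
        by_contra hh
        have := hR _ hh
        rw [abs_le] at this
        linarith
      rw [h5, zero_mul]; rfl
  refine ⟨?_, ?_, hz0⟩
  · rw [contDiff_iff_contDiffAt]
    intro z
    by_cases h0 : z = 0
    · subst h0
      exact contDiffAt_const.congr_of_eventuallyEq hz0
    · have h3 : gf w l =ᶠ[𝓝 z] fun z => w (Real.log (‖z‖ ^ 2)) * (z / (‖z‖ : ℂ)) ^ l := by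
        filter_upwards [isOpen_ne.mem_nhds h0] with y hy
        exact gf_of_ne w l hy
      refine ContDiffAt.congr_of_eventuallyEq ?_ h3
      have h4 : ContDiffAt ℝ ∞ (fun z : ℂ => w (Real.log (‖z‖ ^ 2))) z :=
        h1.contDiffAt.comp z (contDiffAt_log_norm h0)
      have h5 : ContDiffAt ℝ ∞ (fun z : ℂ => ((‖z‖ : ℝ) : ℂ)) z :=
        Complex.ofRealCLM.contDiff.contDiffAt.comp z (contDiffAt_norm ℝ h0)
      have hn : ((‖z‖ : ℝ) : ℂ) ≠ 0 := by exact_mod_cast (norm_pos_iff.mpr h0).ne'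
      have h6 : ContDiffAt ℝ ∞ (fun z : ℂ => z / (‖z‖ : ℂ)) z := by
        have : ContDiffAt ℝ ∞ (fun z : ℂ => z * (‖z‖ : ℂ)⁻¹) z :=
          contDiffAt_id.mul (h5.inv hn)
        simpa [div_eq_mul_inv] using this
      have hd : z / (‖z‖ : ℂ) ≠ 0 := div_ne_zero h0 hn
      have h7 : ContDiffAt ℝ ∞ (fun z : ℂ => (z / (‖z‖ : ℂ)) ^ l) z := by
        cases l with
        | ofNat n =>
          simp only [Int.ofNat_eq_natCast, zpow_natCast]
          exact h6.pow n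
        | negSucc n =>
          simp only [zpow_negSucc]
          exact (h6.pow (n + 1)).inv (pow_ne_zero _ hd)
      exact h4.mul h7
  · refine HasCompactSupport.intro (isCompact_closedBall (0 : ℂ) (Real.exp ((R + 1) / 2))) ?_
    intro z hz
    have hz' : Real.exp ((R + 1) / 2) < ‖z‖ := by simpa using hz
    have hn : 0 < ‖z‖ := (Real.exp_pos _).trans hz'
    have h0 : z ≠ 0 := norm_pos_iff.mp hn
    rw [gf_of_ne w l h0]
    have h4 : R + 1 < Real.log (‖z‖ ^ 2) := by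
      rw [Real.log_pow]
      have := (Real.lt_log_iff_exp_lt hn).mpr hz'
      push_cast
      linarith
    have h5 : w (Real.log (‖z‖ ^ 2)) = 0 := by
      by_contra hh
      have := hR _ hh
      rw [abs_le] at this
      linarith
    rw [h5, zero_mul]

/-- the full test function -/
def gt (w : ℝ → ℂ) (l : ℤ) (τ : ℝ) : ℂ → ℂ := tws (gf w l) τ

lemma gt_rot (w : ℝ → ℂ) (l : ℤ) (τ : ℝ) {ζ : ℂ} (hζ : ‖ζ‖ = 1) (z : ℂ) :
    gt w l τ (ζ * z) = ζ ^ l * gt w l τ z := by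
  unfold gt tws oz
  have hn : ‖ζ * z‖ = ‖z‖ := by rw [norm_mul, hζ, one_mul]
  have hζ0 : ζ ≠ 0 := by
    intro h; rw [h] at hζ; simp at hζ
  by_cases hz : z = 0
  · subst hz
    simp [gf_zero]
  · rw [gf_of_ne w l (mul_ne_zero hζ0 hz), gf_of_ne w l hz, hn, mul_div_assoc, mul_zpow]
    ring

lemma fC_rot {f : ℂ → ℂ} {l : ℤ} (hf : ∀ ζ : ℂ, ‖ζ‖ = 1 → ∀ z, f (ζ * z) = ζ ^ l * f z)
    {ζ : ℂ} (hζ : ‖ζ‖ = 1) (r : ℂ) : fC f (ζ * r) = ζ ^ (-l) * fC f r := by
  have hζ0 : ζ ≠ 0 := by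
    intro h; rw [h] at hζ; simp at hζ
  have h := fC_affine f hζ0 0 (ζ * r)
  have e1 : fC (fun z => f (ζ * z + 0)) (ζ * r) = ζ ^ l * fC f (ζ * r) := by
    unfold fC
    rw [← integral_const_mul]
    congr 1
    funext z
    simp only [add_zero]
    rw [hf ζ hζ]
    ring
  have e2 : ζ * r / ζ = r := by field_simp
  rw [e1, hζ, e2, mul_zero, eC_zero'] at h
  have e3 : ζ ^ (-l) * ζ ^ l = 1 := by
    rw [← zpow_add₀ hζ0]; simp
  calc fC f (ζ * r) = (ζ ^ (-l) * ζ ^ l) * fC f (ζ * r) := by rw [e3, one_mul]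
    _ = ζ ^ (-l) * (ζ ^ l * fC f (ζ * r)) := by ring
    _ = _ := by rw [h]; simp

lemma fC_polar {f : ℂ → ℂ} {l : ℤ} (hf : ∀ ζ : ℂ, ‖ζ‖ = 1 → ∀ z, f (ζ * z) = ζ ^ l * f z)
    {ξ : ℂ} (hξ : ξ ≠ 0) : fC f ξ = (ξ / (‖ξ‖ : ℂ)) ^ (-l) * rad f (Real.log (‖ξ‖ ^ 2)) := by
  have hn : 0 < ‖ξ‖ := norm_pos_iff.mpr hξ
  have hn' : (‖ξ‖ : ℂ) ≠ 0 := by exact_mod_cast hn.ne'
  have h1 : ‖ξ / (‖ξ‖ : ℂ)‖ = 1 := by
    rw [norm_div, Complex.norm_real, Real.norm_of_nonneg hn.le, div_self hn.ne']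
  have h2 : ξ = (ξ / (‖ξ‖ : ℂ)) * (‖ξ‖ : ℂ) := by field_simp
  have h3 : Real.exp (Real.log (‖ξ‖ ^ 2) / 2) = ‖ξ‖ := by
    rw [Real.log_pow]
    push_cast
    rw [mul_div_cancel_left₀ _ (by norm_num : (2 : ℝ) ≠ 0), Real.exp_log hn]
  unfold rad
  rw [h3, ← fC_rot hf h1, ← h2]

/-- the scaled test function, as a Schwartz function -/
def fX (f : ℂ → ℂ) (X : ℝ) (z : ℂ) : ℂ := f (((Real.sqrt X)⁻¹ : ℝ) * z)

lemma Ad.scale {f : ℂ → ℂ} (hf : Ad f) {X : ℝ} (hX : 0 < X) : Ad (fX f X) := by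
  have hq : (((Real.sqrt X)⁻¹ : ℝ) : ℂ) ≠ 0 := by
    have := Real.sqrt_pos.mpr hX
    exact_mod_cast (inv_pos.mpr this).ne'
  refine ⟨?_, ?_, ?_⟩
  · exact hf.smooth.comp (contDiff_const.mul contDiff_id)
  · exact hf.cpt.comp_homeomorph (Homeomorph.mulLeft₀ _ hq)
  · have h : Tendsto (fun z : ℂ => ((((Real.sqrt X)⁻¹ : ℝ) : ℂ)) * z) (𝓝 0) (𝓝 0) := by
      have : Continuous (fun z : ℂ => ((((Real.sqrt X)⁻¹ : ℝ) : ℂ)) * z) := by fun_prop
      simpa using this.tendsto 0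
    filter_upwards [h.eventually hf.zero] with z hz
    exact hz

lemma fC_fX (f : ℂ → ℂ) {X : ℝ} (hX : 0 < X) (ξ : ℂ) :
    fC (fX f X) ξ = (X : ℂ) * fC f ((Real.sqrt X : ℝ) * ξ) := by
  have hs := Real.sqrt_pos.mpr hX
  have hq : (((Real.sqrt X)⁻¹ : ℝ) : ℂ) ≠ 0 := by
    exact_mod_cast (inv_pos.mpr hs).ne'
  have h := fC_affine f hq 0 ξ
  have e0 : (fun z => f ((((Real.sqrt X)⁻¹ : ℝ) : ℂ) * z + 0)) = fX f X := by
    funext z; rw [add_zero]; rfl
  have e1 : ξ / (((Real.sqrt X)⁻¹ : ℝ) : ℂ) = (Real.sqrt X : ℝ) * ξ := by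
    push_cast; field_simp
  have e2 : (‖(((Real.sqrt X)⁻¹ : ℝ) : ℂ)‖ ^ 2)⁻¹ = X := by
    rw [Complex.norm_real, Real.norm_of_nonneg (by positivity), inv_pow, inv_inv, Real.sq_sqrt hX.le]
  rw [e0, e1, e2, mul_zero, eC_zero', one_mul] at h
  exact h

/-- the full character -/
def XK (χ κ : Eis → ℂ) (l : ℤ) (b : Eis) : ℂ := χ b * κ b * ang l b

/-- the dual radial sum -/
def DR (Ξ : Eis → ℂ) (f : ℂ → ℂ) (y : ℝ) : ℂ :=
  ∑' b : Eis, End699.ext (fun b => (starRingEnd ℂ) (Ξ b)) b * rad f (Real.log (nm b) - y)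

lemma norm_toC_div (b : Eis) (hb : b ≠ 0) : ‖toC b / (‖toC b‖ : ℂ)‖ = 1 := by
  have h : 0 < ‖toC b‖ := norm_pos_iff.mpr (Po581.toC_ne_zero hb)
  rw [norm_div, Complex.norm_real, Real.norm_of_nonneg h.le, div_self h.ne']

lemma conj_ang (l : ℤ) (b : Eis) (hb : b ≠ 0) :
    (starRingEnd ℂ) (ang l b) = (toC b / (‖toC b‖ : ℂ)) ^ (-l) := by
  have h := norm_toC_div b hb
  unfold ang
  rw [map_zpow₀, zpow_neg, ← inv_zpow]
  congr 1
  rw [Complex.inv_def, Complex.normSq_eq_norm_sq, h]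
  simp

lemma PS_eq_tsum {w : ℝ → ℂ} {χ κ : Eis → ℂ} (l : ℤ) (k t : ℝ) :
    PS w (XK χ κ l) k t = osc t k * ∑' x : Eis, End699.ext χ x * κ x *
      fX (gt w l t) (Real.exp k) (toC x) := by
  unfold PS
  rw [← tsum_mul_left]
  refine tsum_congr fun b => ?_
  by_cases hb0 : b = 0
  · subst hb0
    have : ¬ IsPrim (0 : Eis) := fun h => h.ne_zero rfl
    simp [End699.ext, this]
  by_cases hb : IsPrim b
  · simp only [End699.ext, if_pos hb, XK, fX, gt, tws, oz]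
    have hz : toC b ≠ 0 := Po581.toC_ne_zero hb0
    have hX : 0 < Real.exp k := Real.exp_pos k
    have hs := Real.sqrt_pos.mpr hX
    have hz' : (((Real.sqrt (Real.exp k))⁻¹ : ℝ) : ℂ) * toC b ≠ 0 := by
      refine mul_ne_zero ?_ hz
      exact_mod_cast (inv_pos.mpr hs).ne'
    have hnb : (0 : ℝ) < nm b := by
      have := nm_pos.mpr hb0
      exact_mod_cast this
    have e1 : ‖(((Real.sqrt (Real.exp k))⁻¹ : ℝ) : ℂ) * toC b‖ = (Real.sqrt (Real.exp k))⁻¹ * ‖toC b‖ := by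
      rw [norm_mul, Complex.norm_real, Real.norm_of_nonneg (inv_pos.mpr hs).le]
    have e2 : Real.log (‖(((Real.sqrt (Real.exp k))⁻¹ : ℝ) : ℂ) * toC b‖ ^ 2) = Real.log (nm b) - k := by
      rw [e1, mul_pow, norm_toC_sq, inv_pow, Real.sq_sqrt hX.le, Real.log_mul (by positivity) hnb.ne',
        Real.log_inv, Real.log_exp]
      ring
    have e3 : ((((Real.sqrt (Real.exp k))⁻¹ : ℝ) : ℂ) * toC b) /
        (‖(((Real.sqrt (Real.exp k))⁻¹ : ℝ) : ℂ) * toC b‖ : ℂ) = toC b / (‖toC b‖ : ℂ) := by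
      rw [e1]
      have h1 : (((Real.sqrt (Real.exp k))⁻¹ : ℝ) : ℂ) ≠ 0 := by
        exact_mod_cast (inv_pos.mpr hs).ne'
      have h2 : (‖toC b‖ : ℂ) ≠ 0 := by
        exact_mod_cast (norm_pos_iff.mpr hz).ne'
      push_cast at h1 ⊢
      field_simp
    rw [gf_of_ne w l hz', e2, e3]
    have e4 : osc t (Real.log (nm b)) = osc t k * osc t (Real.log (nm b) - k) := by
      rw [← Weight600.osc_add_right]; congr 1; ring
    rw [e4]
    unfold ang
    ring
  · simp [End699.ext, hb]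

lemma XK_conj_eq {χ κ : Eis → ℂ} {l : ℤ} {b : Eis} (hb0 : b ≠ 0) :
    (starRingEnd ℂ) (XK χ κ l b) = (starRingEnd ℂ) (χ b * κ b) * (toC b / (‖toC b‖ : ℂ)) ^ (-l) := by
  unfold XK
  rw [map_mul (starRingEnd ℂ) (χ b * κ b), conj_ang l b hb0]

/-- **Exact functional equation** with radial dual weight: `y_e = log(3 N(M) N(c) / (X N(e)))`. -/
theorem PS_eq_dual {w : ℝ → ℂ} (hw1 : ContDiff ℝ ∞ w) (hw2 : HasCompactSupport w) {M c : Eis}
    {χ κ : Eis → ℂ} (h : HC M χ) (hc : IsPrim c) (hcop : IsCoprime c M) (hκ : IsCh c κ)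
    (hp : Primitive c κ) (hc1 : κ 0 = 0) (l : ℤ) (k t : ℝ) :
    ∃ (ε : ℂ) (η : SM M → ℂ), ‖ε‖ ≤ 1 ∧ (∀ e, ‖η e‖ ≤ 1) ∧
      PS w (XK χ κ l) k t = ((2 * Real.exp k / (Real.sqrt 3 * Real.sqrt (nm c)) : ℝ) : ℂ) * ε *
        ∑' e : SM M, η e * DR (XK χ κ l) (gt w l t)
          (Real.log (3 * nm M * nm c) - k - Real.log (nm (e : Eis))) := by
  have had : Ad (gt w l t) := (ad_gf hw1 hw2 l).tws t
  have hX : 0 < Real.exp k := Real.exp_pos k
  have hS := had.scale hX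
  have hP := poisson_hc hS.toS h hc hcop hκ hp hc1
  rw [Ad.coe_toS] at hP
  have hM0 : (0 : ℝ) < nm M := by
    have := nm_pos.mpr h.q0
    exact_mod_cast this
  have hc0 : (0 : ℝ) < nm c := by
    have := nm_pos.mpr hc.ne_zero
    exact_mod_cast this
  have hMc : toC (M * c) ≠ 0 := Po581.toC_ne_zero (mul_ne_zero h.q0 hc.ne_zero)
  have h3 : (0 : ℝ) < Real.sqrt 3 := Real.sqrt_pos.mpr (by norm_num)
  have hsc : (0 : ℝ) < Real.sqrt (nm c) := Real.sqrt_pos.mpr hc0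
  -- the phase of `e`
  set ph : Eis → ℂ := fun e => ((dl e / toC (M * c)) / (‖dl e / toC (M * c)‖ : ℂ)) ^ (-l) with hph
  have hphn : ∀ e : Eis, e ≠ 0 → ‖ph e‖ = 1 := by
    intro e he
    have h1 : dl e / toC (M * c) ≠ 0 := div_ne_zero (div_ne_zero (Po581.toC_ne_zero he) iS3_ne_zero) hMc
    have h2 : 0 < ‖dl e / toC (M * c)‖ := norm_pos_iff.mpr h1
    rw [hph]
    simp only
    rw [norm_zpow, norm_div, Complex.norm_real, Real.norm_of_nonneg h2.le, div_self h2.ne', one_zpow]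
  have inner : ∀ e : SM M, ∑' b : BM M, (starRingEnd ℂ) (χ b.1 * κ b.1) *
      fC (fX (gt w l t) (Real.exp k)) (dl (e.1 * b.1) / toC (M * c)) =
      (Real.exp k : ℂ) * ph e.1 * DR (XK χ κ l) (gt w l t)
          (Real.log (3 * nm M * nm c) - k - Real.log (nm (e : Eis))) := by
    intro e
    have he0 := e.2.1
    have hne : (0 : ℝ) < nm (e : Eis) := by
      have := nm_pos.mpr he0
      exact_mod_cast this
    have step : ∀ b : BM M, (starRingEnd ℂ) (χ b.1 * κ b.1) *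
        fC (fX (gt w l t) (Real.exp k)) (dl (e.1 * b.1) / toC (M * c)) =
        ((Real.exp k : ℂ) * ph e.1) * (End699.ext (fun b => (starRingEnd ℂ) (XK χ κ l b)) b.1 *
          rad (gt w l t) (Real.log (nm b.1) -
            (Real.log (3 * nm M * nm c) - k - Real.log (nm (e : Eis))))) := by
      intro b
      have hb := b.2.1
      have hb0 := hb.ne_zero
      have hnb : (0 : ℝ) < nm b.1 := by
        have := nm_pos.mpr hb0
        exact_mod_cast this
      have hξ : ((Real.sqrt (Real.exp k) : ℝ) : ℂ) * (dl (e.1 * b.1) / toC (M * c)) ≠ 0 := by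
        refine mul_ne_zero ?_ (div_ne_zero (div_ne_zero
          (Po581.toC_ne_zero (mul_ne_zero he0 hb0)) iS3_ne_zero) hMc)
        exact_mod_cast (Real.sqrt_pos.mpr hX).ne'
      rw [fC_fX _ hX, fC_polar (fun ζ hζ z => gt_rot w l t hζ z) hξ]
      have hsX := Real.sqrt_pos.mpr hX
      have e5 : dl (e.1 * b.1) = dl e.1 * toC b.1 := by
        unfold dl; rw [map_mul]; ring
      have e1 : ‖((Real.sqrt (Real.exp k) : ℝ) : ℂ) * (dl (e.1 * b.1) / toC (M * c))‖ =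
          Real.sqrt (Real.exp k) * (‖dl e.1 / toC (M * c)‖ * ‖toC b.1‖) := by
        rw [norm_mul, Complex.norm_real, Real.norm_of_nonneg hsX.le, e5, mul_div_right_comm, norm_mul]
      have e2 : ‖((Real.sqrt (Real.exp k) : ℝ) : ℂ) * (dl (e.1 * b.1) / toC (M * c))‖ ^ 2 =
          Real.exp k * (nm e.1 / (3 * (nm M * nm c)) * nm b.1) := by
        rw [e1, mul_pow, mul_pow, Real.sq_sqrt hX.le, norm_toC_sq, norm_div, div_pow, norm_toC_sq,
          nm_mul]
        unfold dl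
        rw [norm_div, div_pow, norm_toC_sq, norm_iS3, Real.sq_sqrt (by norm_num)]
        push_cast
        field_simp
      have e3 : Real.log (‖((Real.sqrt (Real.exp k) : ℝ) : ℂ) * (dl (e.1 * b.1) / toC (M * c))‖ ^ 2) =
          Real.log (nm b.1) - (Real.log (3 * nm M * nm c) - k - Real.log (nm (e : Eis))) := by
        rw [e2, Real.log_mul hX.ne' (by positivity), Real.log_mul (by positivity) hnb.ne',
          Real.log_div hne.ne' (by positivity), Real.log_exp, ← mul_assoc]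
        ring
      have e4 : (((Real.sqrt (Real.exp k) : ℝ) : ℂ) * (dl (e.1 * b.1) / toC (M * c)) /
          (‖((Real.sqrt (Real.exp k) : ℝ) : ℂ) * (dl (e.1 * b.1) / toC (M * c))‖ : ℂ)) ^ (-l) =
          ph e.1 * (toC b.1 / (‖toC b.1‖ : ℂ)) ^ (-l) := by
        rw [hph]
        simp only
        rw [← mul_zpow, e1]
        congr 1
        have h6 : ((Real.sqrt (Real.exp k) : ℝ) : ℂ) ≠ 0 := by exact_mod_cast hsX.ne'
        have h7 : (‖toC b.1‖ : ℂ) ≠ 0 := by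
          exact_mod_cast (norm_pos_iff.mpr (Po581.toC_ne_zero hb0)).ne'
        have h8 : (‖dl e.1 / toC (M * c)‖ : ℂ) ≠ 0 := by
          exact_mod_cast (norm_pos_iff.mpr (div_ne_zero (div_ne_zero (Po581.toC_ne_zero he0)
            iS3_ne_zero) hMc)).ne'
        rw [e5, Complex.ofReal_mul, Complex.ofReal_mul]
        field_simp
      rw [e3, e4]
      simp only [End699.ext, if_pos hb]
      rw [XK_conj_eq hb0]
      ring
    rw [tsum_congr step, tsum_mul_left]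
    congr 1
    unfold DR
    refine tsum_subtype_eq_of_support_subset (s := BM M) (f := fun b : Eis =>
      End699.ext (fun b => (starRingEnd ℂ) (XK χ κ l b)) b *
          rad (gt w l t) (Real.log (nm b) -
            (Real.log (3 * nm M * nm c) - k - Real.log (nm (e : Eis))))) ?_
    intro b hb
    by_cases hbp : IsPrim b
    · refine ⟨hbp, ?_⟩
      by_contra hcb
      apply hb
      simp only [End699.ext, if_pos hbp, XK, h.van b hbp hcb]
      simp
    · exfalso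
      apply hb
      simp [End699.ext, hbp]
  have hg : ‖gsum κ 1 c‖ = Real.sqrt (nm c) := by
    have := norm_gsum_sq hc.not_lam_dvd hκ hp (isCoprime_one_left (x := c))
    rw [← this, Real.sqrt_sq (norm_nonneg _)]
  refine ⟨osc t k * (χ c * κ M * κ Po581.sq3 * gsum κ 1 c) / (Real.sqrt (nm c) : ℂ),
    fun e => (DM M χ e.1 / (nm M : ℂ)) * (starRingEnd ℂ) (κ e.1) * ph e.1, ?_, ?_, ?_⟩
  · rw [norm_div, norm_mul, norm_mul, norm_mul, norm_mul, norm_osc, hg, Complex.norm_real,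
      Real.norm_of_nonneg hsc.le, one_mul, div_le_one hsc]
    have a1 := h.char.norm_le hc
    have a2 := hκ.norm_le_one hc.ne_zero M
    have a3 := hκ.norm_le_one hc.ne_zero Po581.sq3
    calc ‖χ c‖ * ‖κ M‖ * ‖κ Po581.sq3‖ * Real.sqrt (nm c) ≤ 1 * 1 * 1 * Real.sqrt (nm c) := by gcongr
      _ = Real.sqrt (nm c) := by ring
  · intro e
    rw [norm_mul, norm_mul, hphn e.1 e.2.1, mul_one, RCLike.norm_conj, norm_div]
    have a1 := norm_DM_le h e.1
    have a2 := hκ.norm_le_one hc.ne_zero e.1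
    have a3 : ‖(nm M : ℂ)‖ = nm M := by simp
    rw [a3]
    have a4 : ‖DM M χ e.1‖ / nm M ≤ 1 := by rw [div_le_one hM0]; exact a1
    calc ‖DM M χ e.1‖ / nm M * ‖κ e.1‖ ≤ 1 * 1 := by gcongr
      _ = 1 := one_mul 1
  · rw [PS_eq_tsum l k t, hP]
    have e6 : ∀ e : SM M, DM M χ e.1 * (starRingEnd ℂ) (κ e.1) *
        ∑' b : BM M, (starRingEnd ℂ) (χ b.1 * κ b.1) *
          fC (fX (gt w l t) (Real.exp k)) (dl (e.1 * b.1) / toC (M * c)) =
        ((Real.exp k : ℂ) * nm M) * ((DM M χ e.1 / (nm M : ℂ)) * (starRingEnd ℂ) (κ e.1) * ph e.1 *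
          DR (XK χ κ l) (gt w l t)
          (Real.log (3 * nm M * nm c) - k - Real.log (nm (e : Eis)))) := by
      intro e
      rw [inner e]
      have : (nm M : ℂ) ≠ 0 := by exact_mod_cast hM0.ne'
      field_simp
    rw [tsum_congr e6, tsum_mul_left, nm_mul]
    have h9 : (nm M : ℂ) ≠ 0 := by exact_mod_cast hM0.ne'
    have h10 : (Real.sqrt (nm c) : ℂ) ≠ 0 := by exact_mod_cast hsc.ne'
    have h11 : (Real.sqrt 3 : ℂ) ≠ 0 := by exact_mod_cast h3.ne'
    have h12 : (nm c : ℂ) = (Real.sqrt (nm c) : ℂ) * (Real.sqrt (nm c) : ℂ) := by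
      rw [← Complex.ofReal_mul, Real.mul_self_sqrt hc0.le]; simp
    push_cast
    rw [h12]
    field_simp

end Crest.Agent.R017.FE47
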