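import Crest.Agent.R017.BD2_829
import Crest.Agent.R017.FE5_47

/-!
# Row 17, block C70 (E3): the separated kernel, uniform in a twist `x^{it}` (helper405)

`KT w R A B C` : the conclusion of `BD829.TW_kernel` with an explicit constant;
`wc w t x = w x cos (t log x)`, `wsn w t x = w x sin (t log x)`;
`KT_tw` : `KT (wc w t) R A B (C (1+|t|)^J)`, the same for `wsn`.
-/

set_option autoImplicit false

noncomputable section

open Complex MeasureTheory Filter Topology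
open scoped SchwartzMap ContDiff ComplexConjugate

namespace Crest.Agent.R017.TWt405

open Crest.Agent.R012 Crest.Agent.R012.Eis Crest.Agent.R012.MC Crest.Agent.R012.Po581
open Crest.Agent.R012.Weight600 (osc norm_osc osc_add_right osc_neg_left continuous_osc_left)
open Crest.Agent.R017.FE47 Crest.Agent.R017.BD829
open Crest.Agent.R017.E1551 (jb jb_pos)

/-- the separated kernel of `TW w` with constant `C` -/
def KT (w : ℝ → ℝ) (R : ℝ) (A B : ℕ) (C : ℝ) : Prop :=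
  0 ≤ C ∧ ∀ x0 : ℝ, ∃ k : ℝ → ℂ, Continuous k ∧ Integrable k ∧
    (∀ t, ‖k t‖ ≤ C * bB B x0 * jb A t) ∧
    ∀ u, |u| ≤ R → ((TW w (x0 - u) * Real.exp (-u / 2) : ℝ) : ℂ) = ∫ t, k t * osc t u

lemma KT_of_Wgt {w : ℝ → ℝ} (hw : Wgt w) {R : ℝ} (hR : 0 ≤ R) (A B : ℕ) :
    ∃ C, KT w R A B C := TW_kernel hw hR A B

/-- `w x cos (t log x)` -/
def wc (w : ℝ → ℝ) (t x : ℝ) : ℝ := w x * Real.cos (t * Real.log x)

/-- `w x sin (t log x)` -/
def wsn (w : ℝ → ℝ) (t x : ℝ) : ℝ := w x * Real.sin (t * Real.log x)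

lemma wgt_mul {w g : ℝ → ℝ} (hw : Wgt w) (hg : ∀ x : ℝ, 0 < x → ContDiffAt ℝ ∞ g x) :
    Wgt (fun x => w x * g x) := by
  have hts : tsupport (fun x => w x * g x) ⊆ tsupport w := by
    refine closure_mono fun x hx => ?_
    rw [Function.mem_support] at hx ⊢
    exact left_ne_zero_of_mul hx
  refine ⟨?_, hw.cpt.mul_right, hts.trans hw.pos⟩
  rw [contDiff_iff_contDiffAt]
  intro x
  by_cases hx : x ∈ tsupport w
  · exact hw.smooth.contDiffAt.mul (hg x (hw.pos hx))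
  · have h1 : (fun x => w x * g x) =ᶠ[𝓝 x] fun _ => 0 := by
      have h2 : (tsupport w)ᶜ ∈ 𝓝 x := (isClosed_tsupport w).isOpen_compl.mem_nhds hx
      filter_upwards [h2] with y hy
      rw [image_eq_zero_of_notMem_tsupport hy, zero_mul]
    exact contDiffAt_const.congr_of_eventuallyEq h1

lemma wgt_wc {w : ℝ → ℝ} (hw : Wgt w) (t : ℝ) : Wgt (wc w t) :=
  wgt_mul hw fun _ hx => (Real.contDiff_cos.contDiffAt).comp _
    (contDiffAt_const.mul (Real.contDiffAt_log.mpr hx.ne'))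

lemma wgt_wsn {w : ℝ → ℝ} (hw : Wgt w) (t : ℝ) : Wgt (wsn w t) :=
  wgt_mul hw fun _ hx => (Real.contDiff_sin.contDiffAt).comp _
    (contDiffAt_const.mul (Real.contDiffAt_log.mpr hx.ne'))

lemma osc_eq_cs (t u : ℝ) : osc t u = (Real.cos (t * u) : ℂ) + (Real.sin (t * u) : ℂ) * I := by
  unfold Weight600.osc
  rw [Complex.exp_mul_I, Complex.ofReal_cos, Complex.ofReal_sin]

/-- `w x x^{it}` -/
lemma wc_add_wsn (w : ℝ → ℝ) (t x : ℝ) :
    (w x : ℂ) * osc t (Real.log x) = (wc w t x : ℂ) + (wsn w t x : ℂ) * I := by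
  rw [osc_eq_cs]
  unfold wc wsn
  push_cast
  ring

lemma Wgt.zero {w : ℝ → ℝ} (hw : Wgt w) {x : ℝ} (hx : x ≤ 0) : w x = 0 := by
  by_contra h
  have h1 : x ∈ tsupport w := subset_tsupport _ h
  have h2 := hw.pos h1
  simp only [Set.mem_Ioi] at h2
  linarith

/-- the weight on the logarithmic scale -/
def wl (w : ℝ → ℝ) (u : ℝ) : ℂ := (w (Real.exp u) : ℂ)

lemma wl_smooth {w : ℝ → ℝ} (hw : Wgt w) : ContDiff ℝ ∞ (wl w) :=
  Complex.ofRealCLM.contDiff.comp (hw.smooth.comp Real.contDiff_exp)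

lemma wl_cpt {w : ℝ → ℝ} (hw : Wgt w) : HasCompactSupport (wl w) := by
  obtain ⟨c1, c2, hc1, hc12, hc⟩ := hw.exists_bounds
  refine HasCompactSupport.of_support_subset_isCompact
    (isCompact_Icc (a := Real.log c1) (b := Real.log c2)) ?_
  intro u hu
  rw [Function.mem_support] at hu
  unfold wl at hu
  have h1 : w (Real.exp u) ≠ 0 := by exact_mod_cast hu
  have h2 := hc _ h1
  exact ⟨(Real.log_le_iff_le_exp hc1).mpr h2.1, (Real.le_log_iff_exp_le (hc1.trans hc12)).mpr h2.2⟩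

lemma tws_gf {w : ℝ → ℝ} (hw : Wgt w) (τ : ℝ) (z : ℂ) :
    tws (gf (wl w) 0) τ z = fw (wc w τ) z + I * fw (wsn w τ) z := by
  unfold tws
  by_cases hz : z = 0
  · subst hz
    rw [gf_zero, zero_mul]
    unfold fw wc wsn
    rw [Wgt.zero hw (by simp : ‖(0 : ℂ)‖ ^ 2 ≤ 0)]
    simp
  · rw [gf_of_ne _ _ hz, zpow_zero, mul_one]
    have hn : 0 < ‖z‖ ^ 2 := by positivity
    unfold wl oz fw
    rw [Real.exp_log hn, wc_add_wsn]
    ring

lemma ad_fw {w : ℝ → ℝ} (hw : Wgt w) : Integrable (fw w) := by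
  have h1 : Ad (gf (wl w) 0) := ad_gf (wl_smooth hw) (wl_cpt hw) 0
  have h2 := h1.integrable
  refine h2.congr (Eventually.of_forall fun z => ?_)
  by_cases hz : z = 0
  · subst hz
    rw [gf_zero]
    unfold fw
    rw [Wgt.zero hw (by simp : ‖(0 : ℂ)‖ ^ 2 ≤ 0)]
    simp
  · rw [gf_of_ne _ _ hz, zpow_zero, mul_one]
    have hn : 0 < ‖z‖ ^ 2 := by positivity
    unfold wl fw
    rw [Real.exp_log hn]

lemma rad_tws {w : ℝ → ℝ} (hw : Wgt w) (τ x : ℝ) :
    rad (tws (gf (wl w) 0) τ) x = (TW (wc w τ) x : ℂ) + I * (TW (wsn w τ) x : ℂ) := by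
  unfold rad
  have h1 : ∀ ξ : ℂ, fC (tws (gf (wl w) 0) τ) ξ = fC (fw (wc w τ)) ξ + I * fC (fw (wsn w τ)) ξ := by
    intro ξ
    unfold fC
    rw [← integral_const_mul, ← integral_add]
    · congr 1
      funext z
      rw [tws_gf hw]
      ring
    · exact (ad_fw (wgt_wc hw τ)).mul_bdd (c := 1)
        ((by unfold eC; fun_prop : Continuous fun z : ℂ => eC (-(ξ * z))).aestronglyMeasurable)
        (Eventually.of_forall fun z => by rw [norm_eC])
    · exact ((ad_fw (wgt_wsn hw τ)).mul_bdd (c := 1)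
        ((by unfold eC; fun_prop : Continuous fun z : ℂ => eC (-(ξ * z))).aestronglyMeasurable)
        (Eventually.of_forall fun z => by rw [norm_eC])).const_mul _
  rw [h1, fC_fw, fC_fw, Complex.norm_real, Real.norm_of_nonneg (Real.exp_pos _).le]
  rfl

lemma wc_neg (w : ℝ → ℝ) (t : ℝ) : wc w (-t) = wc w t := by
  funext x; unfold wc; rw [neg_mul, Real.cos_neg]

lemma wsn_neg (w : ℝ → ℝ) (t : ℝ) : wsn w (-t) = fun x => -wsn w t x := by
  funext x; unfold wsn; rw [neg_mul, Real.sin_neg]; ring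

lemma TW_neg (v : ℝ → ℝ) (x : ℝ) : TW (fun y => -v y) x = -TW v x := by
  unfold TW Wt
  rw [← Complex.neg_re, ← integral_neg]
  congr 2
  funext z
  push_cast
  ring

lemma TW_wc {w : ℝ → ℝ} (hw : Wgt w) (τ x : ℝ) : (TW (wc w τ) x : ℂ) =
    (1 / 2 : ℂ) * rad (tws (gf (wl w) 0) τ) x + (1 / 2 : ℂ) * rad (tws (gf (wl w) 0) (-τ)) x := by
  rw [rad_tws hw, rad_tws hw, wc_neg, wsn_neg, TW_neg]
  push_cast
  ring

lemma TW_wsn {w : ℝ → ℝ} (hw : Wgt w) (τ x : ℝ) : (TW (wsn w τ) x : ℂ) =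
    (-I / 2 : ℂ) * rad (tws (gf (wl w) 0) τ) x + (I / 2 : ℂ) * rad (tws (gf (wl w) 0) (-τ)) x := by
  rw [rad_tws hw, rad_tws hw, wc_neg, wsn_neg, TW_neg]
  push_cast
  linear_combination (TW (wsn w τ) x : ℂ) * I_sq

lemma int_osc {κ : ℝ → ℂ} (hκ : Integrable κ) (u : ℝ) : Integrable fun t => κ t * osc t u :=
  hκ.mul_bdd (c := 1) (continuous_osc_left u).aestronglyMeasurable
    (Eventually.of_forall fun t => by rw [norm_osc])

/-- combination of two kernels -/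
lemma comb {a : ℂ → ℂ} {χ : ℝ → ℂ} {R : ℝ} (hχ : ∀ v, |v| ≤ R → χ v = ((Real.exp (v / 2) : ℝ) : ℂ))
    {C : ℝ} {J A B : ℕ} (hC : 0 ≤ C)
    (hsep : ∀ τ s : ℝ, ∃ κ : ℝ → ℂ, Continuous κ ∧ Integrable κ ∧
      (∀ t, ‖κ t‖ ≤ C * (1 + |τ|) ^ J * ((1 + Real.exp s) ^ B)⁻¹ * ((1 + |t|) ^ A)⁻¹) ∧
      ∀ v, ∫ t, κ t * osc t v = χ v * rad (tws a τ) (v + s))
    {p q : ℂ} (hp : ‖p‖ ≤ 1 / 2) (hq : ‖q‖ ≤ 1 / 2) {τ : ℝ} {v : ℝ → ℝ}
    (hv : ∀ x, (TW v x : ℂ) = p * rad (tws a τ) x + q * rad (tws a (-τ)) x) :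
    KT v R A B (C * (1 + |τ|) ^ J) := by
  refine ⟨by positivity, fun x0 => ?_⟩
  obtain ⟨k1, a1, a2, a3, a4⟩ := hsep τ x0
  obtain ⟨k2, b1, b2, b3, b4⟩ := hsep (-τ) x0
  have c1 : Continuous fun t => p * k1 (-t) + q * k2 (-t) := by fun_prop
  refine ⟨fun t => p * k1 (-t) + q * k2 (-t), c1,
    (a2.comp_neg.const_mul p).add (b2.comp_neg.const_mul q), fun t => ?_, fun u hu => ?_⟩
  · have h1 := a3 (-t)
    have h2 := b3 (-t)
    rw [abs_neg] at h1
    rw [abs_neg, abs_neg] at h2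
    have h7 : jb A t = ((1 + |t|) ^ A)⁻¹ := by
      unfold jb
      rw [Real.rpow_neg (by positivity), Real.rpow_natCast]
    rw [h7]
    unfold bB
    calc ‖p * k1 (-t) + q * k2 (-t)‖ ≤ ‖p‖ * ‖k1 (-t)‖ + ‖q‖ * ‖k2 (-t)‖ := by
          refine (norm_add_le _ _).trans ?_
          rw [norm_mul, norm_mul]
      _ ≤ 1 / 2 * (C * (1 + |τ|) ^ J * ((1 + Real.exp x0) ^ B)⁻¹ * ((1 + |t|) ^ A)⁻¹) +
          1 / 2 * (C * (1 + |τ|) ^ J * ((1 + Real.exp x0) ^ B)⁻¹ * ((1 + |t|) ^ A)⁻¹) := by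
          gcongr
      _ = _ := by ring
  · have hu' : |(-u)| ≤ R := by rwa [abs_neg]
    have e1 : (fun t => (p * k1 (-t) + q * k2 (-t)) * osc t u) =
        fun t => p * (k1 (-t) * osc (-t) (-u)) + q * (k2 (-t) * osc (-t) (-u)) := by
      funext t
      have : osc (-t) (-u) = osc t u := by
        unfold Weight600.osc
        congr 2
        push_cast
        ring
      rw [this]; ring
    have i1 : Integrable fun t => k1 t * osc t (-u) := int_osc a2 _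
    have i2 : Integrable fun t => k2 t * osc t (-u) := int_osc b2 _
    rw [e1, integral_add (i1.comp_neg.const_mul p) (i2.comp_neg.const_mul q),
      integral_const_mul, integral_const_mul,
      integral_neg_eq_self (fun t => k1 t * osc t (-u)) (volume : Measure ℝ),
      integral_neg_eq_self (fun t => k2 t * osc t (-u)) (volume : Measure ℝ), a4, b4, hχ _ hu']
    push_cast
    rw [hv]
    have e2 : -u + x0 = x0 - u := by ring
    rw [e2]
    ring

/-- **the kernel, uniform in the twist** -/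
theorem KT_tw {w : ℝ → ℝ} (hw : Wgt w) {R : ℝ} (hR : 0 ≤ R) (A B : ℕ) :
    ∃ (C : ℝ) (J : ℕ), 0 ≤ C ∧ ∀ t : ℝ, KT (wc w t) R A B (C * (1 + |t|) ^ J) ∧
      KT (wsn w t) R A B (C * (1 + |t|) ^ J) := by
  have hab : (-R - 1 : ℝ) ≤ R + 1 := by linarith
  set χ : ℝ → ℂ := fun v => Weight600.cutC (-R - 1) (R + 1) 1 v * ((Real.exp (v / 2) : ℝ) : ℂ) with hχd
  have hχ1 : ContDiff ℝ ∞ χ := Weight600.contDiff_cutC.mul
    (Complex.ofRealCLM.contDiff.comp (Real.contDiff_exp.comp (contDiff_id.div_const 2)))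
  have hχ2 : HasCompactSupport χ :=
    (Weight600.hasCompactSupport_cutC (by norm_num) hab).mul_right
  have hχ3 : ∀ u, |u| ≤ R → χ u = ((Real.exp (u / 2) : ℝ) : ℂ) := by
    intro u hu
    have h1 := abs_le.mp hu
    rw [hχd]
    simp only
    unfold Weight600.cutC
    rw [Weight600.cutL_eq_one (by norm_num) (by linarith) (by linarith)]
    simp
  obtain ⟨C, J, hC, hsep⟩ := rad_sep (ad_gf (wl_smooth hw) (wl_cpt hw) 0) hχ1 hχ2 B A
  refine ⟨C, J, hC, fun t => ⟨?_, ?_⟩⟩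
  · exact comb hχ3 hC hsep (p := 1 / 2) (q := 1 / 2) (by norm_num) (by norm_num)
      (fun x => TW_wc hw t x)
  · refine comb hχ3 hC hsep (p := -I / 2) (q := I / 2) ?_ ?_ (fun x => TW_wsn hw t x)
    · rw [norm_div, norm_neg, Complex.norm_I]; norm_num
    · rw [norm_div, Complex.norm_I]; norm_num

end Crest.Agent.R017.TWt405
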