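import Crest.Agent.R017.ModeA_405
import Crest.Agent.R017.TWt_405
import Crest.Agent.R017.Maj_829

/-!
# Row 17, block C70, leaf E3: MODE, part B (helper405)

* `Mul1 χ` : multiplicative, bounded by one on the primary elements
* `Lx` : the sum over squarefree `n` prime to `ρ`;  `EQ_uS` : `EQ` of the structured sequence
* `mob` : the two Möbius sums;  `Lx_eq` : `Lx` as a sum over `(d, q)` of complete sums
-/

set_option autoImplicit false

noncomputable section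

open Complex MeasureTheory
open scoped ComplexConjugate

namespace Crest.Agent.R017.Mode405

open Crest.Agent.R012 Crest.Agent.R012.Eis Crest.Agent.R012.MC
open Crest.Agent.R012.LS2 (S mem_S bl mem_bl)
open Crest.Agent.R012.LS448 (one_le_nm')
open Crest.Agent.R012.NonCube52 (Ker kv Good kc kc_spec kc_nm kv_ne_zero one_le_nmkv)
open Crest.Agent.R012.Mob705 (mu pdiv mem_pdiv sum_mu_coprime mu_of_not_squarefree abs_mu_le_one)
open Crest.Agent.R012.Weight600 (pw)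
open Crest.Agent.R017.CM106 (CS TG FS)
open Crest.Agent.R017.BD829 (TT EQ Win)
open Crest.Agent.R017.PX764 (Gh n6 n6_mul norm_Gh_one)
open Crest.Agent.R017.E3D579 (uS)
open Crest.Agent.R017.E1551 (jb jb_pos nmpos)
open Crest.Agent.R017.TWt405 (wgt_mul)

/-- multiplicative and bounded by one on the primary elements -/
structure Mul1 (χ : Eis → ℂ) : Prop where
  mul : ∀ a b, IsPrim a → IsPrim b → χ (a * b) = χ a * χ b
  le : ∀ a, IsPrim a → ‖χ a‖ ≤ 1

lemma mul1_one : Mul1 (fun _ => 1) := ⟨fun _ _ _ _ => by ring, fun _ _ => by simp⟩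

/-- the weight with `x^{-1/6}` -/
def w6 (w : ℝ → ℝ) (x : ℝ) : ℝ := w x * x ^ (-(1 : ℝ) / 6)

lemma wgt_w6 {w : ℝ → ℝ} (hw : Wgt w) : Wgt (w6 w) :=
  wgt_mul hw fun _ hx => Real.contDiffAt_rpow_const_of_ne hx.ne'

open Classical in
/-- the sum over the squarefree `n` prime to `ρ` -/
def Lx (χ : Eis → ℂ) (w : ℝ → ℝ) (Y t : ℝ) (b : Eis → ℂ) (κ : Ker) (ρ : Eis) : ℂ :=
  ∑' n : Eis, (if IsPrim n ∧ Squarefree n ∧ IsCoprime n ρ then
    χ n * (CS b n * conj (sy (kv κ) n)) * pw t (nm n) else 0) * ((w (nm n / Y) : ℝ) : ℂ)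

lemma norm_G_one {m : Eis} (hm : IsPrim m) (hs : Squarefree m) : ‖G m‖ = 1 := by
  have h := norm_Gh_one hm hs (isCoprime_one_left (x := m))
  unfold Gh at h
  rw [norm_mul] at h
  have h1 : ‖conj (sy 1 m)‖ = 1 := by
    rw [RCLike.norm_conj, PX764.norm_sy_one hm isCoprime_one_left]
  rw [h1, mul_one] at h
  exact h

open Classical in
lemma TT_uS {χ : Eis → ℂ} {w : ℝ → ℝ} {Y : ℝ} (hY : 0 < Y) (r : Eis) (b : Eis → ℂ) {H : Eis}
    (hH : H ≠ 0) (t : ℝ) :
    TT (fun n => χ n * uS (fun x => ((w (x / Y) : ℝ) : ℂ)) r b n) H t =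
      ((Y ^ (-(1 : ℝ) / 6) : ℝ) : ℂ) * Lx χ (w6 w) Y t b (kc H).1 (r * (kc H).2) := by
  unfold TT TG Lx
  rw [← tsum_mul_left]
  refine tsum_congr fun n => ?_
  unfold uS
  beta_reduce
  by_cases hn : IsPrim n ∧ Squarefree n ∧ IsCoprime n r
  · rw [if_pos hn]
    have hG : G n * conj (G n) = 1 := by
      rw [Complex.mul_conj, Complex.normSq_eq_norm_sq, norm_G_one hn.1 hn.2.1]; norm_num
    have hs := NonCube52.sy_kc Sym645.syFacts hH hn.1
    have h6 : (n6 n : ℝ) * w ((nm n : ℝ) / Y) = Y ^ (-(1 : ℝ) / 6) * w6 w ((nm n : ℝ) / Y) := by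
      unfold n6 w6
      have hn0 : (0 : ℝ) ≤ (nm n : ℝ) / Y := by positivity
      have e : (nm n : ℝ) = Y * ((nm n : ℝ) / Y) := by field_simp
      conv_lhs => rw [e, Real.mul_rpow hY.le hn0]
      rw [← e]
      ring
    have h6' : ((n6 n : ℝ) : ℂ) * ((w ((nm n : ℝ) / Y) : ℝ) : ℂ) =
        ((Y ^ (-(1 : ℝ) / 6) : ℝ) : ℂ) * ((w6 w ((nm n : ℝ) / Y) : ℝ) : ℂ) := by
      exact_mod_cast congrArg (fun z : ℝ => (z : ℂ)) h6
    rw [hs]
    by_cases hc : IsCoprime (kc H).2 n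
    · rw [if_pos hc, one_mul, if_pos ⟨hn.1, hn.2.1, hn.2.2.mul_right hc.symm⟩]
      linear_combination (χ n * CS b n * pw t (nm n) * conj (sy (kv (kc H).1) n) *
        (((n6 n : ℝ) : ℂ) * ((w ((nm n : ℝ) / Y) : ℝ) : ℂ))) * hG +
        (χ n * CS b n * pw t (nm n) * conj (sy (kv (kc H).1) n)) * h6'
    · rw [if_neg hc, zero_mul, map_zero, if_neg (fun h' => hc (h'.2.2.of_mul_right_right.symm))]
      ring
  · rw [if_neg hn, if_neg (fun h' => hn ⟨h'.1, h'.2.1, h'.2.2.of_mul_right_left⟩)]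
    ring

/-- `EQ` of the structured sequence -/
lemma EQ_uS {χ : Eis → ℂ} {w : ℝ → ℝ} {Y : ℝ} (hY : 0 < Y) (A : ℝ) (r : Eis) (b : Eis → ℂ)
    {H : Eis} (hH : H ≠ 0) :
    EQ A (fun n => χ n * uS (fun x => ((w (x / Y) : ℝ) : ℂ)) r b n) H =
      Y ^ (-(1 : ℝ) / 3) * ∫ t, jb A t * ‖Lx χ (w6 w) Y t b (kc H).1 (r * (kc H).2)‖ ^ 2 := by
  unfold EQ
  rw [← integral_const_mul]
  refine integral_congr_ae (Filter.Eventually.of_forall fun t => ?_)
  beta_reduce
  rw [TT_uS hY r b hH t, norm_mul, Complex.norm_real, Real.norm_of_nonneg (by positivity), mul_pow]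
  have e : (Y ^ (-(1 : ℝ) / 6)) ^ 2 = Y ^ (-(1 : ℝ) / 3) := by
    rw [← Real.rpow_natCast, ← Real.rpow_mul hY.le]; norm_num
  rw [e]; ring

/-! ### the Möbius sums -/

open Classical in
/-- squarefree and prime to `ρ` -/
theorem mob {ρ n : Eis} (hρ : ρ ≠ 0) (hn : IsPrim n) {N₀ : ℝ} (hN : (nm n : ℝ) ≤ N₀) :
    (if Squarefree n ∧ IsCoprime n ρ then (1 : ℝ) else 0) =
      ∑ d ∈ pdiv ρ, ∑ q ∈ S N₀, if IsCoprime q ρ ∧ d * q ^ 2 ∣ n then (mu d : ℝ) * mu q else 0 := by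
  have hN0 : 0 ≤ N₀ := (Nat.cast_nonneg _).trans hN
  rw [Finset.sum_comm]
  have h1 : ∀ q ∈ S N₀, (∑ d ∈ pdiv ρ, if IsCoprime q ρ ∧ d * q ^ 2 ∣ n then
      (mu d : ℝ) * mu q else 0) =
      if IsCoprime q ρ ∧ q ^ 2 ∣ n then (mu q : ℝ) * (if IsCoprime n ρ then 1 else 0) else 0 := by
    intro q hq
    by_cases hc : IsCoprime q ρ ∧ q ^ 2 ∣ n
    · rw [if_pos hc]
      have h2 := congrArg (fun z : ℤ => (z : ℝ)) (sum_mu_coprime hn hρ)
      beta_reduce at h2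
      push_cast at h2
      rw [← h2, Finset.mul_sum]
      refine Finset.sum_congr rfl fun d hd => ?_
      have hd' := (mem_pdiv hρ).mp hd
      have hdq : IsCoprime d (q ^ 2) :=
        (hc.1.symm.of_isCoprime_of_dvd_left hd'.2).pow_right
      by_cases h3 : d ∣ n
      · rw [if_pos ⟨hc.1, hdq.mul_dvd h3 hc.2⟩, if_pos h3]; ring
      · rw [if_neg (fun h' => h3 ((dvd_mul_right _ _).trans h'.2)), if_neg h3]; ring
    · rw [if_neg hc]
      refine Finset.sum_eq_zero fun d _ => if_neg fun h' => hc ⟨h'.1, ?_⟩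
      exact (dvd_mul_left _ _).trans h'.2
  rw [Finset.sum_congr rfl h1]
  by_cases hc : IsCoprime n ρ
  · -- the squares
    have h2 : ∀ q ∈ S N₀, (if IsCoprime q ρ ∧ q ^ 2 ∣ n then
        (mu q : ℝ) * (if IsCoprime n ρ then 1 else 0) else 0) =
        if q ^ 2 ∣ n then (mu q : ℝ) else 0 := by
      intro q _
      rw [if_pos hc, mul_one]
      by_cases h3 : q ^ 2 ∣ n
      · have h4 : IsCoprime q ρ := hc.of_isCoprime_of_dvd_left ((dvd_pow_self q two_ne_zero).trans h3)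
        rw [if_pos ⟨h4, h3⟩, if_pos h3]
      · rw [if_neg (fun h' => h3 h'.2), if_neg h3]
    rw [Finset.sum_congr rfl h2]
    have h3 := Maj829.sum_mu_sqd hn
    have h4 : (if Squarefree n ∧ IsCoprime n ρ then (1 : ℝ) else 0) =
        if Squarefree n then 1 else 0 := by
      by_cases h5 : Squarefree n
      · rw [if_pos ⟨h5, hc⟩, if_pos h5]
      · rw [if_neg (fun h' => h5 h'.1), if_neg h5]
    rw [h4, ← h3, ← Finset.sum_filter, ← Finset.sum_filter]
    symm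
    refine Finset.sum_subset (fun q hq => ?_) fun q hq hq' => ?_
    · rw [Finset.mem_filter, mem_S hN0] at hq
      rw [Finset.mem_filter, mem_pdiv hn.ne_zero]
      exact ⟨⟨hq.1.2.1, (dvd_pow_self q two_ne_zero).trans hq.2⟩, hq.2⟩
    · rw [Finset.mem_filter, mem_pdiv hn.ne_zero] at hq
      rw [Finset.mem_filter, mem_S hN0] at hq'
      have h5 : (nm q : ℝ) ≤ nm n := by
        exact_mod_cast Div277.nm_le_of_dvd hn.ne_zero hq.1.2
      have h6 : ¬ Squarefree q := fun h => hq' ⟨⟨h5.trans hN, hq.1.1, h⟩, hq.2⟩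
      rw [mu_of_not_squarefree h6]; simp
  · rw [if_neg (fun h' => hc h'.2)]
    symm
    refine Finset.sum_eq_zero fun q _ => ?_
    rw [if_neg hc, mul_zero, ite_self]

/-! ### the complete sums -/

/-- the summand -/
def fx (χ : Eis → ℂ) (w : ℝ → ℝ) (Y t : ℝ) (b : Eis → ℂ) (κ : Ker) (n : Eis) : ℂ :=
  (χ n * (CS b n * conj (sy (kv κ) n)) * pw t (nm n)) * ((w (nm n / Y) : ℝ) : ℂ)

open Classical in
/-- the complete sum over the multiples of `s` -/
def Fx (f : Eis → ℂ) (s : Eis) : ℂ := ∑' x : Eis, if IsPrim x then f (s * x) else 0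

open Classical in
lemma sum_dvd {f : Eis → ℂ} {N₀ : ℝ} (hN : 0 ≤ N₀) (hf : ∀ n, f n ≠ 0 → (nm n : ℝ) ≤ N₀) {s : Eis}
    (hs : IsPrim s) :
    ∑ n ∈ primBall ⌊N₀⌋₊, (if s ∣ n then f n else 0) = Fx f s := by
  unfold Fx
  have h1 : ∑ n ∈ primBall ⌊N₀⌋₊, (if s ∣ n then f n else 0) =
      ∑' n : Eis, if IsPrim n ∧ s ∣ n then f n else 0 := by
    rw [tsum_eq_sum (s := primBall ⌊N₀⌋₊)]
    · refine Finset.sum_congr rfl fun n hn => ?_
      have hn' := mem_primBall.mp hn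
      by_cases h : s ∣ n
      · rw [if_pos h, if_pos ⟨hn'.2, h⟩]
      · rw [if_neg h, if_neg (fun h' => h h'.2)]
    · intro n hn
      by_cases h : IsPrim n ∧ s ∣ n
      · rw [if_pos h]
        by_contra h2
        exact hn (mem_primBall.mpr ⟨(Nat.le_floor_iff hN).mpr (hf n h2), h.1⟩)
      · rw [if_neg h]
  rw [h1]
  have hinj : Function.Injective (fun x : Eis => s * x) := fun x y h => mul_left_cancel₀ hs.ne_zero h
  rw [← hinj.tsum_eq (f := fun n : Eis => if IsPrim n ∧ s ∣ n then f n else 0)]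
  · refine tsum_congr fun x => ?_
    by_cases hx : IsPrim x
    · rw [if_pos hx, if_pos ⟨hs.mul hx, dvd_mul_right _ _⟩]
    · rw [if_neg hx, if_neg (fun h => hx ((Tau671.isPrim_mul_iff hs).mp h.1))]
  · intro n hn
    rw [Function.mem_support] at hn
    by_cases h : IsPrim n ∧ s ∣ n
    · obtain ⟨x, hx⟩ := h.2
      exact ⟨x, hx.symm⟩
    · rw [if_neg h] at hn
      exact absurd rfl hn

open Classical in
/-- **the decomposition** -/
theorem Lx_eq {χ : Eis → ℂ} {w : ℝ → ℝ} {Y t : ℝ} {b : Eis → ℂ} {κ : Ker} {ρ : Eis} (hρ : ρ ≠ 0)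
    {N₀ : ℝ} (hN : 0 ≤ N₀) (hw : ∀ x, w (x / Y) ≠ 0 → x ≤ N₀) :
    Lx χ w Y t b κ ρ = ∑ d ∈ pdiv ρ, ∑ q ∈ S N₀,
      if IsCoprime q ρ then ((mu d : ℂ) * mu q) * Fx (fx χ w Y t b κ) (d * q ^ 2) else 0 := by
  have hf : ∀ n, fx χ w Y t b κ n ≠ 0 → (nm n : ℝ) ≤ N₀ := by
    intro n hn
    unfold fx at hn
    refine hw _ fun h => hn ?_
    rw [h]; simp
  have h1 : Lx χ w Y t b κ ρ = ∑ n ∈ primBall ⌊N₀⌋₊,
      ((if Squarefree n ∧ IsCoprime n ρ then (1 : ℝ) else 0 : ℝ) : ℂ) * fx χ w Y t b κ n := by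
    unfold Lx
    rw [tsum_eq_sum (s := primBall ⌊N₀⌋₊)]
    · refine Finset.sum_congr rfl fun n hn => ?_
      have hn' := mem_primBall.mp hn
      unfold fx
      by_cases h : Squarefree n ∧ IsCoprime n ρ
      · rw [if_pos ⟨hn'.2, h⟩, if_pos h]; push_cast; ring
      · rw [if_neg (fun h' => h h'.2), if_neg h]; simp
    · intro n hn
      by_contra h2
      have h3 : w ((nm n : ℝ) / Y) ≠ 0 := fun h => h2 (by rw [h]; simp)
      have h4 : IsPrim n := by
        by_contra h5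
        exact h2 (by rw [if_neg (fun h' => h5 h'.1), zero_mul])
      exact hn (mem_primBall.mpr ⟨(Nat.le_floor_iff hN).mpr (hw _ h3), h4⟩)
  rw [h1]
  have h2 : ∀ n ∈ primBall ⌊N₀⌋₊,
      ((if Squarefree n ∧ IsCoprime n ρ then (1 : ℝ) else 0 : ℝ) : ℂ) * fx χ w Y t b κ n =
      ∑ d ∈ pdiv ρ, ∑ q ∈ S N₀, if IsCoprime q ρ then ((mu d : ℂ) * mu q) *
        (if d * q ^ 2 ∣ n then fx χ w Y t b κ n else 0) else 0 := by
    intro n hn
    have hn' := mem_primBall.mp hn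
    have h3 : (nm n : ℝ) ≤ N₀ := (Nat.le_floor_iff hN).mp hn'.1
    rw [mob hρ hn'.2 h3]
    push_cast
    rw [Finset.sum_mul]
    refine Finset.sum_congr rfl fun d _ => ?_
    rw [Finset.sum_mul]
    refine Finset.sum_congr rfl fun q _ => ?_
    by_cases hc : IsCoprime q ρ
    · by_cases hd : d * q ^ 2 ∣ n
      · simp only [hc, hd, and_self, if_true]
        push_cast
        ring
      · simp only [hc, hd, and_false, if_false, if_true, mul_zero]
        push_cast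
        ring
    · simp only [hc, false_and, if_false]
      push_cast
      ring
  rw [Finset.sum_congr rfl h2, Finset.sum_comm]
  refine Finset.sum_congr rfl fun d hd => ?_
  rw [Finset.sum_comm]
  refine Finset.sum_congr rfl fun q hq => ?_
  by_cases hc : IsCoprime q ρ
  · simp only [hc, if_true]
    rw [← Finset.mul_sum]
    have hd' := (mem_pdiv hρ).mp hd
    have hq' := (mem_S hN).1 hq
    rw [sum_dvd hN hf (hd'.1.mul (hq'.2.1.pow 2))]
  · simp only [hc, if_false, Finset.sum_const_zero]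

/-- twisted coefficient -/
def bs (b : Eis → ℂ) (s : Eis) : Eis → ℂ := fun m => b m * sy s m

lemma CS_bs {b : Eis → ℂ} (hb : ∀ n, b n ≠ 0 → IsPrim n) (s x : Eis) :
    CS b (s * x) = CS (bs b s) x := by
  unfold CS bs
  refine tsum_congr fun m => ?_
  by_cases hm : b m = 0
  · rw [hm]; ring
  · rw [Char766.sy_mul_left (hb m hm)]; ring

lemma pw_mul (t : ℝ) {x y : ℝ} (hx : 0 < x) (hy : 0 < y) : pw t (x * y) = pw t x * pw t y := by
  unfold Weight600.pw Weight600.osc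
  rw [Real.log_mul hx.ne' hy.ne', ← Complex.exp_add]
  congr 1
  push_cast
  ring

lemma norm_pw (t x : ℝ) : ‖pw t x‖ = 1 := by
  unfold Weight600.pw; exact Weight600.norm_osc _ _

open Classical in
/-- the complete sums are twisted sums `XS` -/
theorem Fx_eq {χ : Eis → ℂ} (hχ : Mul1 χ) {w : ℝ → ℝ} {Y t : ℝ} (hY : 0 < Y) {b : Eis → ℂ}
    (hb : ∀ n, b n ≠ 0 → IsPrim n) {κ : Ker} {s : Eis} (hs : IsPrim s) :
    Fx (fx χ w Y t b κ) s = (χ s * conj (sy (kv κ) s) * pw t (nm s)) *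
      XS χ w (Y / nm s) t (bs b s) κ := by
  unfold Fx XS fx
  rw [← tsum_mul_left]
  refine tsum_congr fun x => ?_
  by_cases hx : IsPrim x
  · rw [if_pos hx, if_pos hx, hχ.mul s x hs hx, CS_bs hb, Sym645.sy_mul_right _ hs.ne_zero hx.ne_zero,
      map_mul]
    have n1 := nmpos hs.ne_zero
    have n2 := nmpos hx.ne_zero
    have e1 : pw t ((nm (s * x) : ℕ) : ℝ) = pw t (nm s) * pw t (nm x) := by
      rw [nm_mul]; push_cast; exact pw_mul t n1 n2
    have e2 : ((nm (s * x) : ℕ) : ℝ) / Y = (nm x : ℝ) / (Y / nm s) := by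
      rw [nm_mul]; push_cast; field_simp
    rw [e1, e2]
    ring
  · rw [if_neg hx, if_neg hx]; ring

lemma norm_Fx_le {χ : Eis → ℂ} (hχ : Mul1 χ) {w : ℝ → ℝ} {Y t : ℝ} (hY : 0 < Y) {b : Eis → ℂ}
    (hb : ∀ n, b n ≠ 0 → IsPrim n) {κ : Ker} {s : Eis} (hs : IsPrim s) :
    ‖Fx (fx χ w Y t b κ) s‖ ≤ ‖XS χ w (Y / nm s) t (bs b s) κ‖ := by
  rw [Fx_eq hχ hY hb hs, norm_mul]
  refine mul_le_of_le_one_left (norm_nonneg _) ?_
  rw [norm_mul, norm_mul, norm_pw, mul_one, RCLike.norm_conj]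
  have h1 := hχ.le s hs
  have h2 := NonCube52.norm_sy_le Sym645.syFacts (kv κ) s hs
  calc ‖χ s‖ * ‖sy (kv κ) s‖ ≤ 1 * 1 := mul_le_mul h1 h2 (norm_nonneg _) zero_le_one
    _ = 1 := one_mul 1

end Crest.Agent.R017.Mode405
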