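import Crest.Agent.R017.E3q4_681
import Crest.Agent.R017.E3Sq_579
import Crest.Agent.R017.ModeB_405

/-!
# Row 17, block C70, leaf E4 (x-side), the structured arrays (helper681)

* `SA χ c Q om R b n = c χ(n) (Q/n) uS om R b n`
* `SA_tws`, `SA_ua` : the class is closed under the operations of the pair expansion
* `EQ_uc_SA` : the modes of one cell
* `EQ_uc_part` : one piece of a smooth partition
* `bF_bF` : composition of dilations
-/

set_option autoImplicit false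
set_option linter.unusedVariables false
set_option maxHeartbeats 400000

noncomputable section

open Complex MeasureTheory
open scoped ComplexConjugate Classical ContDiff

namespace Crest.Agent.R017.E3q681

open Crest.Agent.R012 Crest.Agent.R012.Eis Crest.Agent.R012.MC
open Crest.Agent.R012.LS2 (S mem_S bl mem_bl)
open Crest.Agent.R012.Weight600 (pw)
open Crest.Agent.R017.PX764 (n6)
open Crest.Agent.R017.CM106 (CS TG FS)
open Crest.Agent.R017.BD829
open Crest.Agent.R017.E3P842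
open Crest.Agent.R017.E3D579
open Crest.Agent.R017.E3Sd579
open Crest.Agent.R017.E3Se579 (EQ_pS_part)
open Crest.Agent.R017.Mode405 (Mul1)
open Crest.Agent.R017.E1551 (jb jb_pos nmpos)
open Gauss880 (syG)

variable {χ : Eis → ℂ} {c : ℂ} {Q R : Eis} {om : ℝ → ℂ} {b : Eis → ℂ}

/-- the structured array -/
def SA (χ : Eis → ℂ) (c : ℂ) (Q : Eis) (om : ℝ → ℂ) (R : Eis) (b : Eis → ℂ) (n : Eis) : ℂ :=
  c * (χ n * Us Q om R b n)

lemma SA_supp {n : Eis} (h : SA χ c Q om R b n ≠ 0) :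
    IsPrim n ∧ Squarefree n ∧ IsCoprime n R ∧ om (nm n) ≠ 0 := by
  unfold SA Us at h
  exact uS_supp (right_ne_zero_of_mul (right_ne_zero_of_mul (right_ne_zero_of_mul h)))

lemma SA_tws (s : Eis) : tws s (SA χ c Q om R b) = SA χ c (Q * s) om R b := by
  funext n
  unfold tws SA Us
  by_cases h : uS om R b n = 0
  · rw [h]; simp
  · rw [sy_mulL (uS_supp h).1]; ring

/-- the constant of the restriction to the multiples of `h` -/
def cA (χ : Eis → ℂ) (Q R q h : Eis) : ℂ := χ h * cU Q R q h 1 1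

lemma norm_cA_le (hχ : Mul1 χ) {q h : Eis} (hh : IsPrim h) :
    ‖cA χ Q R q h‖ ^ 2 ≤ (nm h : ℝ) ^ (-(1 / 3) : ℝ) := by
  unfold cA
  rw [norm_mul, mul_pow]
  have h1 := norm_cU_le Q R (q := q) hh isPrim_one isPrim_one
  have h2 : ‖cU Q R q h 1 1‖ ^ 2 ≤ (nm h : ℝ) ^ (-(1 / 3) : ℝ) := by
    refine h1.trans ?_
    have h4 : h * 1 * 1 = h := by ring
    rw [h4]
    split_ifs
    · exact le_rfl
    · positivity
  have h3 : ‖χ h‖ ^ 2 ≤ 1 := pow_le_one₀ (norm_nonneg _) (hχ.le h hh)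
  calc ‖χ h‖ ^ 2 * ‖cU Q R q h 1 1‖ ^ 2 ≤ 1 * ‖cU Q R q h 1 1‖ ^ 2 := by gcongr
    _ ≤ _ := by rw [one_mul]; exact h2

/-- the restriction to the multiples of `h` -/
lemma SA_ua (hχ : Mul1 χ) (hb : FS b) (q : Eis) {h : Eis} (hh : IsPrim h) :
    ua (SA χ c Q om R b) q h = SA χ (c * cA χ Q R q h) Q (fun x => om ((nm h : ℝ) * x))
      (R * q * h) (bF h 1 b) := by
  funext n
  have key := rs_ua_eq (s := Q) (om := om) (r := R) (q := q) (ψ := fun _ => (1 : ℂ))
    (fun _ _ _ _ => by ring) hb hh isPrim_one isPrim_one n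
  have e1 : h * 1 * 1 = h := by ring
  have e2 : h * 1 = h := by ring
  have e3 : (1 : Eis) * 1 * n = n := by ring
  rw [e1, e2] at key
  unfold rs at key
  rw [e3, mul_one] at key
  have key2 : ua (Us Q om R b) q h n = cU Q R q h 1 1 * (sy Q n * (sy 1 n *
      pS (fun _ => (1 : ℂ)) (fun x => om ((nm h : ℝ) * x)) (R * q * h) (bF h 1 b) n)) := key
  unfold SA ua
  unfold ua at key2
  by_cases h1 : IsCoprime n q
  · rw [if_pos h1] at key2
    rw [if_pos h1]
    beta_reduce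
    rw [key2]
    unfold pS Us cA
    by_cases h2 : uS (fun x => om ((nm h : ℝ) * x)) (R * q * h) (bF h 1 b) n = 0
    · rw [h2]; simp
    · have hn := (uS_supp h2).1
      have h3 : sy 1 n = 1 := Gauss880.sy_one_left syG hn
      rw [h3, hχ.mul h n hh hn]; ring
  · rw [if_neg h1]
    unfold Us
    have h2 : uS (fun x => om ((nm h : ℝ) * x)) (R * q * h) (bF h 1 b) n = 0 := by
      by_contra h4
      exact h1 (uS_supp h4).2.2.1.of_mul_right_left.of_mul_right_right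
    rw [h2]; simp

/-- the constant of the cell -/
lemma norm_cU_le' (s r : Eis) {q a D F : Eis} (ha : IsPrim a) (hD : IsPrim D) (hF : IsPrim F) :
    ‖cU s r q a D F‖ ^ 2 ≤
      if Squarefree (a * D * F) ∧ IsCoprime (a * D * F) r ∧ IsCoprime (a * D * F) s then
        (nm (a * D * F) : ℝ) ^ (-(1 / 3) : ℝ) else 0 := by
  have hκ : IsPrim (a * D * F) := (ha.mul hD).mul hF
  by_cases h1 : IsCoprime (a * D * F) s
  · refine (norm_cU_le s r ha hD hF).trans ?_
    by_cases h2 : Squarefree (a * D * F) ∧ IsCoprime (a * D * F) r ∧ IsCoprime (D * F) q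
    · rw [if_pos h2, if_pos ⟨h2.1, h2.2.1, h1⟩]
    · rw [if_neg h2]
      split_ifs
      · positivity
      · exact le_rfl
  · rw [if_neg (fun h => h1 h.2.2)]
    have h3 : sy s (a * D * F) = 0 := (syG.eq_zero s _ hκ).mpr fun h => h1 h.symm
    unfold cU
    rw [h3, zero_mul]
    simp

/-- the cell sequence -/
lemma uc_SA (hχ : Mul1 χ) (hb : FS b) {ι : Type*} {V : ι → Eis → ℂ} {i : ι}
    (hV : V i = SA χ c Q om R b) (s : Eis) {a D F : Eis} (ha : IsPrim a) (hD : IsPrim D)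
    (hF : IsPrim F) : uc V i s a D F =
      fun n => (c * χ (a * (D * F))) * rs (ua (Us (Q * s) om R b) a a) χ D F n := by
  funext n
  unfold uc
  rw [hV, SA_tws]
  unfold rs ua SA
  rw [mul_one]
  by_cases h1 : IsCoprime (D * F * n) a
  · rw [if_pos h1, if_pos h1]
    unfold Us
    by_cases h2 : uS om R b (a * (D * F * n)) = 0
    · rw [h2]; simp
    · have h3 := (uS_supp h2).1
      have h4 : IsPrim (a * (D * F)) := ha.mul (hD.mul hF)
      have e : a * (D * F * n) = a * (D * F) * n := by ring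
      have hn : IsPrim n := by rw [e] at h3; exact h3.of_mul_left h4
      have h5 : χ (a * (D * F * n)) = χ (a * (D * F)) * χ n := by
        rw [e, hχ.mul _ _ h4 hn]
      rw [h5]; ring
  · rw [if_neg h1, if_neg h1]; simp

/-- **the modes of one cell** -/
theorem EQ_uc_SA (A : ℝ) (hχ : Mul1 χ) (hb : FS b) {ι : Type*} {V : ι → Eis → ℂ} {i : ι}
    (hV : V i = SA χ c Q om R b) (s : Eis) {a D F : Eis} (ha : IsPrim a) (hD : IsPrim D)
    (hF : IsPrim F) (E w Z : Eis) :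
    EQ A (uc V i s a D F) (Hf 3 E w F * Z) ≤ ‖c‖ ^ 2 *
      (if Squarefree (a * D * F) ∧ IsCoprime (a * D * F) R ∧ IsCoprime (a * D * F) (Q * s) then
        (nm (a * D * F) : ℝ) ^ (-(1 / 3) : ℝ) *
          EQ A (pS χ (fun x => om ((nm (a * D * F) : ℝ) * x)) (R * a * (a * D * F))
            (bF (a * D) F b)) (w * ((E * (3 * sq3) * (Q * s)) ^ 2 * Z)) else 0) := by
  rw [uc_SA hχ hb hV s ha hD hF, EQ_smul, EQ_rs_ua A hχ.mul hb ha hD hF]
  have h1 := norm_cU_le' (Q * s) R (q := a) ha hD hF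
  have h2 : ‖χ (a * (D * F))‖ ≤ 1 := hχ.le _ (ha.mul (hD.mul hF))
  rw [norm_mul, mul_pow]
  set e := EQ A (pS χ (fun x => om ((nm (a * D * F) : ℝ) * x)) (R * a * (a * D * F))
            (bF (a * D) F b)) (w * ((E * (3 * sq3) * (Q * s)) ^ 2 * Z)) with he
  have he0 : 0 ≤ e := EQ_nonneg _ _ _
  have h3 : ‖χ (a * (D * F))‖ ^ 2 ≤ 1 := pow_le_one₀ (norm_nonneg _) h2
  have h4 : ‖cU (Q * s) R a a D F‖ ^ 2 * e ≤
      (if Squarefree (a * D * F) ∧ IsCoprime (a * D * F) R ∧ IsCoprime (a * D * F) (Q * s) then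
        (nm (a * D * F) : ℝ) ^ (-(1 / 3) : ℝ) * e else 0) := by
    refine (mul_le_mul_of_nonneg_right h1 he0).trans (le_of_eq ?_)
    split_ifs
    · rfl
    · rw [zero_mul]
  calc ‖c‖ ^ 2 * ‖χ (a * (D * F))‖ ^ 2 * (‖cU (Q * s) R a a D F‖ ^ 2 * e)
      ≤ ‖c‖ ^ 2 * 1 * (‖cU (Q * s) R a a D F‖ ^ 2 * e) := by gcongr
    _ = ‖c‖ ^ 2 * (‖cU (Q * s) R a a D F‖ ^ 2 * e) := by ring
    _ ≤ _ := mul_le_mul_of_nonneg_left h4 (by positivity)

/-- composition of dilations -/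
lemma bF_bF {κ h F F' : Eis} (hκ : IsPrim κ) (hh : IsPrim h) (hb : FS b) :
    bF κ F (bF h F' b) = fun m => (sy F h * sy κ h) * bF (κ * h) (F * F') b m := by
  have hκ0 := hκ.ne_zero
  have hh0 := hh.ne_zero
  funext m
  unfold bF bt
  by_cases h1 : κ * h ∣ m
  · obtain ⟨n, rfl⟩ := h1
    have e1 : κ * h * n / κ = h * n := by rw [mul_assoc, mul_div_cancel_left₀ _ hκ0]
    have e2 : h * n / h = n := mul_div_cancel_left₀ _ hh0
    have e3 : κ * h * n / (κ * h) = n := mul_div_cancel_left₀ _ (mul_ne_zero hκ0 hh0)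
    rw [if_pos (Dvd.dvd.trans (dvd_mul_right κ h) (dvd_mul_right _ n)), e1]
    beta_reduce
    rw [e2, if_pos (dvd_mul_right h n), if_pos (dvd_mul_right _ n), e3]
    by_cases h2 : b n = 0
    · simp [h2]
    · have hn := hb.prim n h2
      rw [sy_mulR hh hn, sy_mulR hh hn, sy_mulL hn, sy_mulL hn]; ring
  · rw [if_neg h1, mul_zero]
    by_cases h2 : κ ∣ m
    · obtain ⟨n, rfl⟩ := h2
      have e1 : κ * n / κ = n := mul_div_cancel_left₀ _ hκ0
      rw [if_pos (dvd_mul_right κ n), e1]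
      beta_reduce
      rw [if_neg, zero_mul, zero_mul]
      intro h3
      exact h1 (mul_dvd_mul_left κ h3)
    · rw [if_neg h2]

/-- **one piece of a smooth partition** -/
theorem EQ_uc_part {A : ℕ} (hA : 1 < A) {R₀ : ℝ} (hR : 0 ≤ R₀) {h : ℝ → ℝ} (hh : ContDiff ℝ ∞ h)
    (hhc : HasCompactSupport h) {w1 : ℝ → ℝ}
    (hw : ∀ x, w1 x ≠ 0 → 0 < x ∧ |Real.log x| ≤ R₀)
    (hw1 : ∀ x, 0 < x → h (Real.log x) ≠ 0 → w1 x = 1) : ∃ C : ℝ, 0 ≤ C ∧
    ∀ (Om : ℝ → ℂ) (Mb : ℝ), 0 ≤ Mb → ContDiff ℝ ∞ Om →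
      (∀ n ≤ A + 2, ∀ x, ‖iteratedDeriv n Om x‖ ≤ Mb) →
    ∀ (χ : Eis → ℂ), Mul1 χ → ∀ (c : ℂ) (Q R : Eis) (b : Eis → ℂ), FS b →
    ∀ (N τ : ℝ) (κ : ℂ), 0 < N → ‖κ‖ ≤ 1 →
    ∀ om : ℝ → ℂ, (∀ x, 0 < x → om x = κ * (((h (Real.log x - Real.log N) : ℝ) : ℂ) *
      Om (Real.log x) * pw τ x)) →
    ∀ {ι : Type*} (V : ι → Eis → ℂ) (i : ι), V i = SA χ c Q om R b →
    ∀ (s a D F E Z : Eis), IsPrim a → IsPrim D → IsPrim F → ∀ P : Finset Eis,
      ∑ w ∈ P, EQ A (uc V i s a D F) (Hf 3 E w F * Z) ≤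
        C * Mb ^ 2 * (1 + |τ|) ^ A * ‖c‖ ^ 2 *
        (if Squarefree (a * D * F) ∧ IsCoprime (a * D * F) R ∧ IsCoprime (a * D * F) (Q * s) then
          (nm (a * D * F) : ℝ) ^ (-(1 / 3) : ℝ) * ∑ w ∈ P,
            EQ A (pS χ (fun x => ((w1 (x / (N / nm (a * D * F))) : ℝ) : ℂ)) (R * a * (a * D * F))
              (bF (a * D) F b)) (w * ((E * (3 * sq3) * (Q * s)) ^ 2 * Z)) else 0) := by
  obtain ⟨C, hC0, hC⟩ := EQ_pS_part hA hR hh hhc hw hw1
  refine ⟨C, hC0, ?_⟩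
  intro Om Mb hMb hOm hOb χ hχ c Q R b hb N τ κ hN hκ om hom ι V i hV s a D F E Z ha hD hF P
  have hκ' : IsPrim (a * D * F) := (ha.mul hD).mul hF
  have nκ := nmpos hκ'.ne_zero
  have h1 : ∀ w ∈ P, EQ A (uc V i s a D F) (Hf 3 E w F * Z) ≤ ‖c‖ ^ 2 *
      (if Squarefree (a * D * F) ∧ IsCoprime (a * D * F) R ∧ IsCoprime (a * D * F) (Q * s) then
        (nm (a * D * F) : ℝ) ^ (-(1 / 3) : ℝ) * (C * Mb ^ 2 * (1 + |τ|) ^ A *
          EQ A (pS χ (fun x => ((w1 (x / (N / nm (a * D * F))) : ℝ) : ℂ)) (R * a * (a * D * F))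
            (bF (a * D) F b)) (w * ((E * (3 * sq3) * (Q * s)) ^ 2 * Z))) else 0) := by
    intro w _
    refine (EQ_uc_SA A hχ hb hV s ha hD hF E w Z).trans ?_
    refine mul_le_mul_of_nonneg_left ?_ (by positivity)
    split_ifs with h2
    · refine mul_le_mul_of_nonneg_left ?_ (by positivity)
      refine hC (fun x => Om (x + Real.log (nm (a * D * F)))) Mb hMb
        (hOm.comp (contDiff_id.add contDiff_const)) (fun n hn x => ?_) χ _ _ (N / nm (a * D * F)) τ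
        (κ * pw τ (nm (a * D * F))) (by positivity) ?_ _ (fun x hx => ?_) _
      · rw [iteratedDeriv_comp_add_const]
        exact hOb n hn _
      · rw [norm_mul, Weight600.norm_pw, mul_one]; exact hκ
      · rw [hom _ (by positivity), Real.log_mul nκ.ne' hx.ne', Real.log_div hN.ne' nκ.ne']
        have e1 : Real.log (nm (a * D * F)) + Real.log x - Real.log N =
            Real.log x - (Real.log N - Real.log (nm (a * D * F))) := by ring
        have e2 : pw τ ((nm (a * D * F) : ℝ) * x) = pw τ (nm (a * D * F)) * pw τ x :=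
          Weight600.pw_mul nκ.ne' hx.ne' τ
        rw [e1, e2, add_comm (Real.log ((nm (a * D * F) : ℕ) : ℝ)) (Real.log x)]; ring
    · exact le_rfl
  refine (Finset.sum_le_sum h1).trans (le_of_eq ?_)
  rw [← Finset.mul_sum]
  split_ifs with h2
  · rw [← Finset.mul_sum, ← Finset.mul_sum]; ring
  · simp

end Crest.Agent.R017.E3q681
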