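import Crest.Agent.R017.E3q7_681

/-!
# Row 17, block C70, leaf E4 (x-side), the mean square, all lengths of modes (helper681)

* `tsum_bdE`, `cell_bdE`, `OFFM_leE` : versions with the factor `L ^ ε1`
* `PHE`, `AQ_meanE`, `AQ_blockE`
-/

set_option autoImplicit false
set_option linter.unusedVariables false
set_option maxHeartbeats 400000

noncomputable section

open Complex MeasureTheory
open scoped ComplexConjugate Classical ContDiff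

namespace Crest.Agent.R017.E3q681

open Crest.Agent.R012 Crest.Agent.R012.Eis Crest.Agent.R012.MC
open Crest.Agent.R012.LS2 (S mem_S bl mem_bl)
open Crest.Agent.R012.Div277 (dvs mem_dvs isPrim_of_mem_dvs dvd_of_mem_dvs tau tau_le_rpow)
open Crest.Agent.R012.Mob705 (mu pdiv mem_pdiv)
open Crest.Agent.R017.CM106 (CS TG)
open Crest.Agent.R017.E1551 (nmpos jb jb_pos nm_ge_one summable_wF)
open Crest.Agent.R017.BD829
open Crest.Agent.R017.E3P842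
open Crest.Agent.R017.E3Sh290 (Gr)

/-- **the decaying sum over the modes, with the divisor function** -/
theorem tsum_bdE {B : ℕ} (hB : 3 ≤ B) {ε : ℝ} (hε : 0 < ε) (hε1 : ε ≤ 1 / 2) : ∃ C : ℝ, 0 ≤ C ∧
    ∀ (F0 : Eis → ℝ), (∀ w, 0 ≤ F0 w) → ∀ x y z : ℝ, 0 ≤ x → 0 ≤ y → 0 ≤ z →
      (∀ L, 1 ≤ L → ∑ w ∈ bl L, F0 w ≤ L ^ ε * (x * L ^ (1 / 3 : ℝ) + y * L ^ (2 / 3 : ℝ) + z * L)) →
    ∀ lm : ℝ, 0 < lm → ∑' w : Eis, (if w = 0 then 0 else Wl B lm w * (tau w * F0 w)) ≤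
      C * (max 1 lm) ^ (2 * ε) * (x * lm ^ (1 / 3 : ℝ) + y * lm ^ (2 / 3 : ℝ) + z * lm) := by
  obtain ⟨Cτ, hCτ, hτ⟩ := tau_le_rpow hε
  refine ⟨9 * Cτ, by linarith, fun F0 hF0 x y z hx hy hz hG lm hlm => ?_⟩
  have hCτ0 : 0 ≤ Cτ := by linarith
  set G : ℝ → ℝ := fun L => x * L ^ (1 / 3 : ℝ) + y * L ^ (2 / 3 : ℝ) + z * L with hGd
  have hgr : Gr 1 G :=
    ((((Gr.pow (1 / 3)).smul hx).mono (by norm_num)).add
      (((Gr.pow (2 / 3)).smul hy).mono (by norm_num))).add (Gr.id.smul hz)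
  have hgr2 : Gr (2 * ε + 1) (fun L => Cτ * L ^ (2 * ε) * G L) :=
    ((Gr.pow (2 * ε)).smul hCτ0).mul hgr
  have h1 := tsum_W_le (F := fun w => (tau w : ℝ) * F0 w)
    (fun w => mul_nonneg (Nat.cast_nonneg _) (hF0 w)) (a := 2) (B := B) (by omega)
    (G := fun L => Cτ * L ^ (2 * ε) * G L) (fun L hL => ?_)
    (fun L hL => hgr2.dbl (a := 2) (by push_cast; linarith) hL) hlm
  · refine h1.trans ?_
    beta_reduce
    have h2 := hgr.at_max (a := 1) (B := B) (by norm_num) (by omega) hlm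
    have h3 : (min 1 lm) ^ (B - 1) ≤ 1 := pow_le_one₀ (by positivity) (min_le_left _ _)
    have h4 : 0 ≤ G lm := hgr.nonneg lm hlm
    have h5 : (min 1 lm) ^ B * G (max 1 lm) ≤ G lm :=
      h2.trans (mul_le_of_le_one_left h4 h3)
    have h6 : 0 ≤ (max 1 lm) ^ (2 * ε) := by positivity
    calc (1 + 2 ^ (2 + 1) : ℝ) * ((min 1 lm) ^ B * (Cτ * (max 1 lm) ^ (2 * ε) * G (max 1 lm)))
        = 9 * Cτ * (max 1 lm) ^ (2 * ε) * ((min 1 lm) ^ B * G (max 1 lm)) := by ring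
      _ ≤ 9 * Cτ * (max 1 lm) ^ (2 * ε) * G lm := mul_le_mul_of_nonneg_left h5 (by positivity)
      _ = _ := rfl
  · beta_reduce
    have hL0 : 0 ≤ L := by linarith
    calc ∑ w ∈ bl L, (tau w : ℝ) * F0 w ≤ ∑ w ∈ bl L, (Cτ * L ^ ε) * F0 w := by
          refine Finset.sum_le_sum fun w hw => mul_le_mul_of_nonneg_right ?_ (hF0 w)
          obtain ⟨hw0, hwL⟩ := (mem_bl hL0).1 hw
          refine (hτ w hw0).trans (mul_le_mul_of_nonneg_left ?_ hCτ0)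
          exact Real.rpow_le_rpow (Nat.cast_nonneg _) hwL hε.le
      _ = (Cτ * L ^ ε) * ∑ w ∈ bl L, F0 w := by rw [Finset.mul_sum]
      _ ≤ (Cτ * L ^ ε) * (L ^ ε * G L) := mul_le_mul_of_nonneg_left (hG L hL) (by positivity)
      _ = Cτ * L ^ (2 * ε) * G L := by
          have hLp : 0 < L := by linarith
          rw [two_mul, Real.rpow_add hLp]; ring

/-- **the bound of one cell** -/
theorem cell_bdE {B : ℕ} (hB : 3 ≤ B) {ε : ℝ} (hε : 0 < ε) (hε1 : ε ≤ 1 / 2) : ∃ C : ℝ, 0 ≤ C ∧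
    ∀ {ι : Type*} (A : ℕ) (T : ℕ) (N : ι → ℝ) (m : ι → Eis) (V : ι → Eis → ℂ)
      (K H Λ m₀ q TQ R1 : ℝ) (i : ι) (g s b a D E F : Eis),
      0 < K → 0 < H → 0 < m₀ → 0 < q → 0 ≤ TQ → 0 ≤ R1 → 0 < N i → IsPrim (m i) →
      N i * (nm (m i) : ℝ) ^ 2 ≤ Λ → g ∈ dvs (m i) → IsPrim s → b ∈ dvs (m i / g) →
      IsPrim a → IsPrim D → IsPrim E → IsPrim F →
      (∀ L, 1 ≤ L → ∑ w ∈ bl L, EQ A (uc V i s a D F) (Hf 3 E w F * b) ≤
        L ^ ε * GB K H Λ m₀ (N i) (nm (m i)) q TQ R1 (nm s) (nm b) (nm a) (nm D) (nm E) (nm F) L) →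
      MG A B K T N m V Λ m₀ i g s b a D E F ≤
        C * T * (max 1 (lmM K N m Λ i g s b a D E)) ^ (2 * ε) * (K * N i ^ (-(1 / 3) : ℝ) *
          (kap1 K H Λ m₀ (nm (m i)) q * TQ + H ^ (-(1 / 3) : ℝ) * q ^ (1 / 3 : ℝ) * R1)) := by
  obtain ⟨C, hC0, hC⟩ := tsum_bdE hB hε hε1
  refine ⟨C, hC0, ?_⟩
  intro ι A T N m V K H Λ m₀ q TQ R1 i g s b a D E F hK hH hm₀ hq hT hR hN hmi hNm hg hs hb ha hD
    hE hF hG
  obtain ⟨hp1, hp1'⟩ := dvs_quo hmi hg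
  obtain ⟨hp2, hp2'⟩ := dvs_quo hp1 hb
  have hgp := isPrim_of_mem_dvs hg
  have hbp := isPrim_of_mem_dvs hb
  have ns := nm_ge_one hs.ne_zero
  have nD := nm_ge_one hD.ne_zero
  have nE := nm_ge_one hE.ne_zero
  have ng := nm_ge_one hgp.ne_zero
  have na := nm_ge_one ha.ne_zero
  have nb := nm_ge_one hbp.ne_zero
  have nF := nm_ge_one hF.ne_zero
  have np2 := nm_ge_one hp2.ne_zero
  have nmi := nmpos hmi.ne_zero
  have hΛ : 0 < Λ := lt_of_lt_of_le (by positivity) hNm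
  have hmi' : (nm (m i) : ℝ) = nm g * nm b * nm (m i / g / b) := by
    have h1 := congrArg nm hp1'
    have h2 := congrArg nm hp2'
    rw [nm_mul] at h1 h2
    rw [h2] at h1
    have : ((nm (m i) : ℕ) : ℝ) = ((nm g * (nm b * nm (m i / g / b)) : ℕ) : ℝ) := by
      exact_mod_cast h1
    rw [this]; push_cast; ring
  have hlmeq : lmM K N m Λ i g s b a D E = lmR K Λ (N i) (nm g) (nm s) (nm (m i / g / b)) (nm a)
      (nm D) (nm E) := rfl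
  set lm := lmM K N m Λ i g s b a D E with hlm
  have hlm0 : 0 < lm := by
    rw [hlmeq]; unfold lmR; positivity
  -- the polynomial form
  set Lt := LtC K H Λ m₀ (N i) (nm (m i)) (nm a) (nm D) (nm F) with hLt
  have hLt0 : 0 < Lt := LtC_pos hK (by linarith) hN (by linarith) hm₀ hΛ (by linarith) hH nmi
  set Yc : ℝ := N i / (nm a * nm D * nm F) with hYc
  have hY0 : 0 < Yc := by positivity
  set X1 : ℝ := Yc * (TQ + R1) + ((Lt * Yc) ^ (2 / 3 : ℝ) + Lt * Yc ^ (1 / 2 : ℝ)) * TQ with hX1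
  have hX10 : 0 ≤ X1 := by positivity
  set c1 : ℝ := (27 * (nm E : ℝ) ^ 2 * (nm s : ℝ) ^ 2 * nm b) * q / Lt with hc1
  have hc10 : 0 ≤ c1 := by positivity
  have hN3 : 0 ≤ N i ^ (-(1 / 3) : ℝ) := by positivity
  have hGBeq : ∀ L : ℝ, 0 ≤ L → GB K H Λ m₀ (N i) (nm (m i)) q TQ R1 (nm s) (nm b) (nm a) (nm D)
      (nm E) (nm F) L = (N i ^ (-(1 / 3) : ℝ) * (c1 ^ (1 / 3 : ℝ) * X1)) * L ^ (1 / 3 : ℝ) +
        (N i ^ (-(1 / 3) : ℝ) * (Yc ^ (2 / 3 : ℝ) * TQ)) * L ^ (2 / 3 : ℝ) +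
        (N i ^ (-(1 / 3) : ℝ) * TQ) * L := by
    intro L hL
    have e1 : (L * (27 * (nm E : ℝ) ^ 2 * (nm s : ℝ) ^ 2 * nm b) * q / Lt) ^ (1 / 3 : ℝ) =
        L ^ (1 / 3 : ℝ) * c1 ^ (1 / 3 : ℝ) := by
      rw [← Real.mul_rpow hL hc10]
      congr 1
      rw [hc1]; ring
    have e2 : (L * Yc) ^ (2 / 3 : ℝ) = L ^ (2 / 3 : ℝ) * Yc ^ (2 / 3 : ℝ) :=
      Real.mul_rpow hL hY0.le
    show N i ^ (-(1 / 3) : ℝ) * ((L * (27 * (nm E : ℝ) ^ 2 * (nm s : ℝ) ^ 2 * nm b) * q / Lt) ^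
      (1 / 3 : ℝ) * X1 + (L + (L * Yc) ^ (2 / 3 : ℝ)) * TQ) = _
    rw [e1, e2]
    ring
  have hS := hC (fun w => EQ A (uc V i s a D F) (Hf 3 E w F * b)) (fun w => EQ_nonneg _ _ _)
    (N i ^ (-(1 / 3) : ℝ) * (c1 ^ (1 / 3 : ℝ) * X1)) (N i ^ (-(1 / 3) : ℝ) * (Yc ^ (2 / 3 : ℝ) * TQ))
    (N i ^ (-(1 / 3) : ℝ) * TQ) (by positivity) (by positivity) (by positivity)
    (fun L hL => (hG L hL).trans (le_of_eq (by rw [hGBeq L (by linarith)]))) lm hlm0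
  rw [← hGBeq lm hlm0.le] at hS
  have hGB0 : 0 ≤ GB K H Λ m₀ (N i) (nm (m i)) q TQ R1 (nm s) (nm b) (nm a) (nm D) (nm E) (nm F)
      lm := by
    rw [hGBeq lm hlm0.le]; positivity
  have hreal := real_cell (K := K) (s := nm s) (D := nm D) (E := nm E) (N := N i) (g := nm g)
    (a := nm a) (m₀ := m₀) (b := nm b) (p := nm (m i / g / b)) (Λ := Λ) (F := nm F) (H := H)
    (mi := nm (m i)) (q := q) (TQ := TQ) (R1 := R1) hK ns nD nE hN ng na hm₀ nb np2 hΛ nF hH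
    hmi' hNm hq hT hR
  rw [← hlmeq] at hreal
  unfold MG
  have hmax : 0 ≤ (max 1 lm) ^ (2 * ε) := by positivity
  have hwt : 0 ≤ (K / nm s) * (nm D / nm E) / N i := by positivity
  have hcm : min 1 ((nm g : ℝ) * nm a / m₀) ≤ nm g * nm a / m₀ := min_le_right _ _
  calc (K / nm s) * (nm D / nm E) / N i * ((min 1 (nm g * nm a / m₀) * T) *
        ∑' w : Eis, (if w = 0 then 0 else Wl B lm w *
          (tau w * EQ A (uc V i s a D F) (Hf 3 E w F * b))))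
      ≤ (K / nm s) * (nm D / nm E) / N i * ((nm g * nm a / m₀ * T) *
        (C * (max 1 lm) ^ (2 * ε) * GB K H Λ m₀ (N i) (nm (m i)) q TQ R1 (nm s) (nm b) (nm a) (nm D)
          (nm E) (nm F) lm)) := by
        refine mul_le_mul_of_nonneg_left ?_ hwt
        refine mul_le_mul (mul_le_mul_of_nonneg_right hcm (Nat.cast_nonneg _)) hS ?_
          (by positivity)
        refine tsum_nonneg fun w => ?_
        split_ifs
        · exact le_rfl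
        · exact mul_nonneg (Wl_nonneg B hlm0.le w)
            (mul_nonneg (Nat.cast_nonneg _) (EQ_nonneg _ _ _))
    _ = C * T * (max 1 lm) ^ (2 * ε) * ((K / nm s) * (nm D / nm E) / N i * (nm g * nm a / m₀) *
        GB K H Λ m₀ (N i) (nm (m i)) q TQ R1 (nm s) (nm b) (nm a) (nm D) (nm E) (nm F) lm) := by
        ring
    _ ≤ _ := mul_le_mul_of_nonneg_left hreal (by positivity)

set_option maxHeartbeats 1000000 in
/-- **the total of the merged modes**, the structured part free -/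
theorem OFFM_leE {B : ℕ} (hB : 3 ≤ B) {ε ε1 : ℝ} (hε : 0 < ε) (hε10 : 0 < ε1)
    (hε11 : ε1 ≤ 1 / 2) (hε12 : ε1 ≤ ε / 64) : ∃ C : ℝ, 0 ≤ C ∧
    ∀ {ι : Type*} (I : Finset ι) (A : ℕ) (T : ℕ) (N : ι → ℝ) (m : ι → Eis) (V : ι → Eis → ℂ)
      (K H Λ m₀ Y M₀ Z : ℝ) (q : ι → ℝ) (TQ R1 : ι → Eis → Eis → Eis → ℝ) (TQt Rt : ι → ℝ),
      1 ≤ Z → 0 < K → K⁻¹ ≤ Z → 0 < H → 0 < m₀ → Λ ≤ Z ^ 3 → 0 ≤ Y → Y ≤ Z → 0 ≤ M₀ → M₀ ≤ Z →
      (∀ i ∈ I, 0 < q i) → (∀ i ∈ I, 0 < N i) → (∀ i ∈ I, N i ≤ Z) → (∀ i ∈ I, IsPrim (m i)) →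
      (∀ i ∈ I, (nm (m i) : ℝ) ≤ Z) → (∀ i ∈ I, N i * (nm (m i) : ℝ) ^ 2 ≤ Λ) →
      (∀ i ∈ I, ∀ a D F, 0 ≤ TQ i a D F) → (∀ i ∈ I, ∀ a D F, 0 ≤ R1 i a D F) →
      (∀ i ∈ I, ∀ s, IsPrim s → s ∣ m i → ∀ b, IsPrim b → b ∣ m i → ∀ a ∈ S M₀, ∀ D ∈ S Y,
        ∀ E ∈ pdiv D, ∀ F ∈ S Y, ∀ L, 1 ≤ L →
        ∑ w ∈ bl L, EQ A (uc V i s a D F) (Hf 3 E w F * b) ≤
          L ^ ε1 * GB K H Λ m₀ (N i) (nm (m i)) (q i) (TQ i a D F) (R1 i a D F)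
            (nm s) (nm b) (nm a) (nm D) (nm E) (nm F) L) →
      (∀ i ∈ I, ∑ a ∈ S M₀, ∑ D ∈ S Y, ∑ F ∈ S Y, TQ i a D F ≤ TQt i) →
      (∀ i ∈ I, ∑ a ∈ S M₀, ∑ D ∈ S Y, ∑ F ∈ S Y, R1 i a D F ≤ Rt i) →
      OFFM A B K T N m V Λ m₀ Y M₀ I ≤ C * T * Z ^ ε * (K * ∑ i ∈ I, N i ^ (-(1 / 3) : ℝ) *
        (kap1 K H Λ m₀ (nm (m i)) (q i) * TQt i + H ^ (-(1 / 3) : ℝ) * q i ^ (1 / 3 : ℝ) *
          Rt i)) := by
  obtain ⟨C0, hC0, hcell⟩ := cell_bdE hB hε10 hε11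
  obtain ⟨Ct, hCt, hτ⟩ := tau_le_rpow (ε := ε / 16) (by positivity)
  refine ⟨C0 * 27 * Ct ^ 4, by positivity, ?_⟩
  intro ι I A T N m V K H Λ m₀ Y M₀ Z q TQ R1' TQt Rt hZ hK hKZ hH hm₀ hΛ hY hYZ hM hMZ hq hN hNZ hm
    hmZ hNm hTQ hR1 hG hTQt hRt
  have hZ0 : 0 < Z := by linarith
  unfold OFFM
  rw [Finset.mul_sum, Finset.mul_sum]
  refine Finset.sum_le_sum fun i hi => ?_
  have hmi := hm i hi
  have nmi := nm_ge_one hmi.ne_zero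
  have hNi := hN i hi
  have hqi := hq i hi
  have hΛ0 : 0 < Λ := lt_of_lt_of_le (by have := nmpos hmi.ne_zero; positivity) (hNm i hi)
  set Hq : ℝ := H ^ (-(1 / 3) : ℝ) * q i ^ (1 / 3 : ℝ) with hHq
  have hHq0 : 0 ≤ Hq := by positivity
  have hθ0 : 0 < thR K H Λ m₀ := by unfold thR; positivity
  set k1 := kap1 K H Λ m₀ (nm (m i)) (q i) with hk1
  have hk10 : 0 ≤ k1 := by rw [hk1]; unfold kap1; positivity
  have hL0 : 0 ≤ Lst K H Λ m₀ (N i) (nm (m i)) := by unfold Lst; positivity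
  have hTau : ∀ x : Eis, x ≠ 0 → (nm x : ℝ) ≤ Z → ((dvs x).card : ℝ) ≤ Ct * Z ^ (ε / 16) := by
    intro x hx hxZ
    refine (hτ x hx).trans (mul_le_mul_of_nonneg_left ?_ (by linarith))
    exact Real.rpow_le_rpow (Nat.cast_nonneg _) hxZ (by positivity)
  set tZ : ℝ := Ct * Z ^ (ε / 16) with htZ
  have htZ0 : 0 ≤ tZ := by positivity
  set R1 : Eis → Eis → Eis → ℝ := R1' i with hR1d
  have hR10 : ∀ a D F, 0 ≤ R1 a D F := hR1 i hi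
  set cc : ℝ := C0 * T * (27 * Z ^ (ε / 2)) * (K * N i ^ (-(1 / 3) : ℝ)) with hcc
  have hcc0 : 0 ≤ cc := by positivity
  -- one cell
  have hone : ∀ g ∈ dvs (m i), ∀ s ∈ pdiv g, ∀ b ∈ dvs (m i / g), ∀ a ∈ S M₀, ∀ D ∈ S Y,
      ∀ E ∈ pdiv D, ∀ F ∈ S Y, MG A B K T N m V Λ m₀ i g s b a D E F ≤
        cc * (k1 * TQ i a D F + Hq * R1 a D F) := by
    intro g hg s hs b hb a ha D hD E hE F hF
    have hgp := isPrim_of_mem_dvs hg
    obtain ⟨hsp, hsg⟩ := (mem_pdiv hgp.ne_zero).mp hs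
    obtain ⟨hp1, hp1'⟩ := dvs_quo hmi hg
    obtain ⟨hp2, hp2'⟩ := dvs_quo hp1 hb
    have hbp := isPrim_of_mem_dvs hb
    have hap := ((mem_S hM).1 ha).2.1
    have hDp := ((mem_S hY).1 hD).2.1
    have hFp := ((mem_S hY).1 hF).2.1
    obtain ⟨hEp, hED⟩ := (mem_pdiv hDp.ne_zero).mp hE
    have hgm := dvd_of_mem_dvs hg
    have hsm : s ∣ m i := hsg.trans hgm
    have hbm : b ∣ m i := (dvd_of_mem_dvs hb).trans ⟨g, by rw [mul_comm]; exact hp1'⟩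
    have hpm : m i / g / b ∣ m i := by
      refine Dvd.dvd.trans ⟨b, ?_⟩ (⟨g, ?_⟩ : m i / g ∣ m i)
      · rw [mul_comm]; exact hp2'
      · rw [mul_comm]; exact hp1'
    have hle : ∀ x : Eis, x ∣ m i → (nm x : ℝ) ≤ Z := fun x hx =>
      le_trans (by exact_mod_cast Div277.nm_le_of_dvd hmi.ne_zero hx) (hmZ i hi)
    have hDZ : (nm D : ℝ) ≤ Z := ((mem_S hY).1 hD).1.trans hYZ
    have hEZ : (nm E : ℝ) ≤ Z :=
      le_trans (by exact_mod_cast Div277.nm_le_of_dvd hDp.ne_zero hED) hDZ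
    have h1 := hcell A T N m V K H Λ m₀ (q i) (TQ i a D F) (R1 a D F) i g s b a D E F hK hH hm₀ hqi
      (hTQ i hi a D F) (hR10 a D F) hNi hmi (hNm i hi) hg hsp hb hap hDp hEp hFp
      (fun L hL => hG i hi s hsp hsm b hbp hbm a ha D hD E hE F hF L hL)
    refine h1.trans ?_
    have hlm : max 1 (lmM K N m Λ i g s b a D E) ≤ 27 * Z ^ 8 := by
      refine max_le ?_ ?_
      · have := one_le_pow₀ (n := 8) hZ
        linarith
      · unfold lmM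
        have ng := nm_ge_one hgp.ne_zero
        have na := nm_ge_one hap.ne_zero
        have nD := nm_ge_one hDp.ne_zero
        have d1 : 27 * (nm E : ℝ) * nm s * N i * Λ * nm (m i / g / b) /
            ((nm g : ℝ) ^ 2 * (nm a : ℝ) ^ 2 * K * (nm D : ℝ) ^ 2) =
            27 * (nm E : ℝ) * nm s * N i * Λ * nm (m i / g / b) * K⁻¹ /
            ((nm g : ℝ) ^ 2 * (nm a : ℝ) ^ 2 * (nm D : ℝ) ^ 2) := by
          field_simp
        rw [d1]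
        have d2 : 1 ≤ (nm g : ℝ) ^ 2 * (nm a : ℝ) ^ 2 * (nm D : ℝ) ^ 2 :=
          one_le_mul_of_one_le_of_one_le (one_le_mul_of_one_le_of_one_le
            (one_le_pow₀ ng) (one_le_pow₀ na)) (one_le_pow₀ nD)
        refine (div_le_self (by positivity) d2).trans ?_
        calc 27 * (nm E : ℝ) * nm s * N i * Λ * nm (m i / g / b) * K⁻¹
            ≤ 27 * Z * Z * Z * Z ^ 3 * Z * Z := by
              have := hle s hsm
              have := hle _ hpm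
              have := hNZ i hi
              gcongr
          _ = 27 * Z ^ 8 := by ring
    have hpow : (max 1 (lmM K N m Λ i g s b a D E)) ^ (2 * ε1) ≤ 27 * Z ^ (ε / 2) := by
      calc (max 1 (lmM K N m Λ i g s b a D E)) ^ (2 * ε1) ≤ (27 * Z ^ 8) ^ (2 * ε1) :=
            Real.rpow_le_rpow (by positivity) hlm (by positivity)
        _ = 27 ^ (2 * ε1) * (Z ^ 8) ^ (2 * ε1) := Real.mul_rpow (by norm_num) (by positivity)
        _ ≤ 27 ^ (1 : ℝ) * Z ^ (ε / 2) := by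
            refine mul_le_mul (Real.rpow_le_rpow_of_exponent_le (by norm_num) (by linarith)) ?_
              (by positivity) (by positivity)
            rw [← Real.rpow_natCast, ← Real.rpow_mul hZ0.le]
            refine Real.rpow_le_rpow_of_exponent_le hZ ?_
            push_cast; linarith
        _ = _ := by rw [Real.rpow_one]
    have hb0 : 0 ≤ K * N i ^ (-(1 / 3) : ℝ) * (k1 * TQ i a D F + Hq * R1 a D F) := by
      have := hTQ i hi a D F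
      have := hR10 a D F
      positivity
    calc C0 * T * (max 1 (lmM K N m Λ i g s b a D E)) ^ (2 * ε1) *
          (K * N i ^ (-(1 / 3) : ℝ) * (k1 * TQ i a D F + Hq * R1 a D F))
        ≤ C0 * T * (27 * Z ^ (ε / 2)) *
          (K * N i ^ (-(1 / 3) : ℝ) * (k1 * TQ i a D F + Hq * R1 a D F)) :=
          mul_le_mul_of_nonneg_right (mul_le_mul_of_nonneg_left hpow (by positivity)) hb0
      _ = _ := by rw [hcc]; ring
  -- the sum over `E`, `F`, `a`, `D`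
  have hin : ∀ g ∈ dvs (m i), ∀ s ∈ pdiv g, ∀ b ∈ dvs (m i / g),
      ∑ a ∈ S M₀, ∑ D ∈ S Y, ∑ E ∈ pdiv D, ∑ F ∈ S Y, MG A B K T N m V Λ m₀ i g s b a D E F ≤
        cc * tZ * (k1 * TQt i + Hq * Rt i) := by
    intro g hg s hs b hb
    calc ∑ a ∈ S M₀, ∑ D ∈ S Y, ∑ E ∈ pdiv D, ∑ F ∈ S Y, MG A B K T N m V Λ m₀ i g s b a D E F
        ≤ ∑ a ∈ S M₀, ∑ D ∈ S Y, ∑ E ∈ pdiv D, ∑ F ∈ S Y,
          cc * (k1 * TQ i a D F + Hq * R1 a D F) :=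
          Finset.sum_le_sum fun a ha => Finset.sum_le_sum fun D hD =>
          Finset.sum_le_sum fun E hE => Finset.sum_le_sum fun F hF =>
            hone g hg s hs b hb a ha D hD E hE F hF
      _ ≤ ∑ a ∈ S M₀, ∑ D ∈ S Y, tZ * ∑ F ∈ S Y, cc * (k1 * TQ i a D F + Hq * R1 a D F) := by
          refine Finset.sum_le_sum fun a ha => Finset.sum_le_sum fun D hD => ?_
          rw [Finset.sum_const, nsmul_eq_mul]
          have hDp := ((mem_S hY).1 hD).2.1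
          have hDZ : (nm D : ℝ) ≤ Z := ((mem_S hY).1 hD).1.trans hYZ
          refine mul_le_mul_of_nonneg_right ?_ (Finset.sum_nonneg fun F _ => ?_)
          · rw [← dvs_eq_pdiv hDp.ne_zero]
            exact hTau D hDp.ne_zero hDZ
          · have := hTQ i hi a D F
            have := hR10 a D F
            positivity
      _ = cc * tZ * (k1 * (∑ a ∈ S M₀, ∑ D ∈ S Y, ∑ F ∈ S Y, TQ i a D F) +
          Hq * ∑ a ∈ S M₀, ∑ D ∈ S Y, ∑ F ∈ S Y, R1 a D F) := by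
          simp only [Finset.mul_sum, ← Finset.sum_add_distrib]
          refine Finset.sum_congr rfl fun a _ => Finset.sum_congr rfl fun D _ =>
            Finset.sum_congr rfl fun F _ => ?_
          ring
      _ ≤ _ := by
          refine mul_le_mul_of_nonneg_left ?_ (by positivity)
          refine add_le_add (mul_le_mul_of_nonneg_left (hTQt i hi) hk10)
            (mul_le_mul_of_nonneg_left ?_ hHq0)
          exact hRt i hi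
  set RR : ℝ := Rt i with hRR
  have hRR0 : 0 ≤ RR := le_trans (Finset.sum_nonneg fun a _ => Finset.sum_nonneg fun D _ =>
    Finset.sum_nonneg fun F _ => hR10 a D F) (hRt i hi)
  have hTQt0 : 0 ≤ TQt i := le_trans (Finset.sum_nonneg fun a _ => Finset.sum_nonneg fun D _ =>
    Finset.sum_nonneg fun F _ => hTQ i hi a D F) (hTQt i hi)
  have hbr : k1 * TQt i + Hq * RR ≤ Z ^ (ε / 8) * (k1 * TQt i + Hq * RR) :=
    le_mul_of_one_le_left (by positivity) (Real.one_le_rpow hZ (by positivity))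
  have hBR0 : 0 ≤ k1 * TQt i + Hq * RR := by positivity
  -- the sums over the divisors
  have hst : ∀ g ∈ dvs (m i), ∑ s ∈ pdiv g, ∑ b ∈ dvs (m i / g), ∑ a ∈ S M₀, ∑ D ∈ S Y,
      ∑ E ∈ pdiv D, ∑ F ∈ S Y, MG A B K T N m V Λ m₀ i g s b a D E F ≤
      tZ * (tZ * (cc * tZ * (Z ^ (ε / 8) * (k1 * TQt i + Hq * RR)))) := by
    intro g hg
    have hgp := isPrim_of_mem_dvs hg
    obtain ⟨hp1, hp1'⟩ := dvs_quo hmi hg
    have hgZ : (nm g : ℝ) ≤ Z :=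
      le_trans (by exact_mod_cast Div277.nm_le_of_dvd hmi.ne_zero (dvd_of_mem_dvs hg)) (hmZ i hi)
    have hdv : m i / g ∣ m i := ⟨g, by rw [mul_comm]; exact hp1'⟩
    have hpZ : (nm (m i / g) : ℝ) ≤ Z :=
      le_trans (by exact_mod_cast Div277.nm_le_of_dvd hmi.ne_zero hdv) (hmZ i hi)
    have hU : 0 ≤ cc * tZ * (Z ^ (ε / 8) * (k1 * TQt i + Hq * RR)) := by
      positivity
    calc _ ≤ ∑ s ∈ pdiv g, ∑ b ∈ dvs (m i / g),
          cc * tZ * (Z ^ (ε / 8) * (k1 * TQt i + Hq * RR)) :=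
          Finset.sum_le_sum fun s hs => Finset.sum_le_sum fun b hb =>
            (hin g hg s hs b hb).trans (mul_le_mul_of_nonneg_left hbr (by positivity))
      _ = ((pdiv g).card : ℝ) * (((dvs (m i / g)).card : ℝ) *
          (cc * tZ * (Z ^ (ε / 8) * (k1 * TQt i + Hq * RR)))) := by
          rw [Finset.sum_const, Finset.sum_const, nsmul_eq_mul, nsmul_eq_mul]
      _ ≤ _ := by
          refine mul_le_mul ?_ ?_ (mul_nonneg (Nat.cast_nonneg _) hU) htZ0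
          · rw [← dvs_eq_pdiv hgp.ne_zero]; exact hTau g hgp.ne_zero hgZ
          · exact mul_le_mul_of_nonneg_right (hTau _ hp1.ne_zero hpZ) hU
  calc _ ≤ ∑ g ∈ dvs (m i),
        tZ * (tZ * (cc * tZ * (Z ^ (ε / 8) * (k1 * TQt i + Hq * RR)))) :=
        Finset.sum_le_sum hst
    _ = ((dvs (m i)).card : ℝ) *
        (tZ * (tZ * (cc * tZ * (Z ^ (ε / 8) * (k1 * TQt i + Hq * RR))))) := by
        rw [Finset.sum_const, nsmul_eq_mul]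
    _ ≤ tZ * (tZ * (tZ * (cc * tZ * (Z ^ (ε / 8) *
        (k1 * TQt i + Hq * RR))))) :=
        mul_le_mul_of_nonneg_right (hTau _ hmi.ne_zero (hmZ i hi)) (by positivity)
    _ = C0 * 27 * Ct ^ 4 * T * (Z ^ (ε / 16) * Z ^ (ε / 16) * Z ^ (ε / 16) *
        Z ^ (ε / 16) * Z ^ (ε / 2) * Z ^ (ε / 8)) * (K * (N i ^ (-(1 / 3) : ℝ) *
        (k1 * TQt i + Hq * RR))) := by
        rw [hcc, htZ]; ring
    _ ≤ C0 * 27 * Ct ^ 4 * T * Z ^ ε * (K * (N i ^ (-(1 / 3) : ℝ) *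
        (k1 * TQt i + Hq * RR))) := by
        refine mul_le_mul_of_nonneg_right ?_ (by positivity)
        refine mul_le_mul_of_nonneg_left ?_ (by positivity)
        rw [← Real.rpow_add hZ0, ← Real.rpow_add hZ0, ← Real.rpow_add hZ0, ← Real.rpow_add hZ0,
          ← Real.rpow_add hZ0]
        refine Real.rpow_le_rpow_of_exponent_le hZ ?_
        linarith

/-- the hypotheses on the parameters and the bound of the modes of every cell -/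
structure PHE (ε1 : ℝ) {ι : Type*} (I : Finset ι) (A : ℕ) (T : ℕ) (N : ι → ℝ) (m : ι → Eis)
    (V : ι → Eis → ℂ) (K H Λ m₀ Y₀ Y M₀ Z R : ℝ) (q : ι → ℝ) (TQ R1 : ι → Eis → Eis → Eis → ℝ)
    (TQt Rt : ι → ℝ) : Prop where
  pi : PI I m V Y₀
  Z1 : 1 ≤ Z
  K0 : 0 < K
  KZ : K⁻¹ ≤ Z
  H0 : 0 < H
  m0 : 0 < m₀
  ΛZ : Λ ≤ Z ^ 3
  Y1 : 1 ≤ Y
  YZ : Y ≤ Z
  M0 : 0 ≤ M₀
  MZ : M₀ ≤ Z
  hY : ∀ i ∈ I, ∀ j ∈ I, (nm (m i) : ℝ) * nm (m j) * Y₀ ≤ Y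
  q0 : ∀ i ∈ I, 0 < q i
  N0 : ∀ i ∈ I, 0 < N i
  NZ : ∀ i ∈ I, N i ≤ Z
  mZ : ∀ i ∈ I, (nm (m i) : ℝ) ≤ Z
  mM : ∀ i ∈ I, (nm (m i) : ℝ) ≤ M₀
  mm : ∀ i ∈ I, m₀ ≤ nm (m i)
  NΛ : ∀ i ∈ I, N i * (nm (m i) : ℝ) ^ 2 ≤ Λ
  win : ∀ i ∈ I, Win (V i) (Real.log (N i)) R
  hT : ∀ i ∈ I, (I.filter (fun j => m j = m i)).card ≤ T
  TQ0 : ∀ i ∈ I, ∀ a D F, 0 ≤ TQ i a D F
  R10 : ∀ i ∈ I, ∀ a D F, 0 ≤ R1 i a D F
  hG : ∀ i ∈ I, ∀ s, IsPrim s → s ∣ m i → ∀ b, IsPrim b → b ∣ m i → ∀ a ∈ S M₀, ∀ D ∈ S Y,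
    ∀ E ∈ pdiv D, ∀ F ∈ S Y, ∀ L, 1 ≤ L →
    ∑ w ∈ bl L, EQ A (uc V i s a D F) (Hf 3 E w F * b) ≤
      L ^ ε1 * GB K H Λ m₀ (N i) (nm (m i)) (q i) (TQ i a D F) (R1 i a D F) (nm s) (nm b) (nm a) (nm D) (nm E) (nm F) L
  hTQ : ∀ i ∈ I, ∑ a ∈ S M₀, ∑ D ∈ S Y, ∑ F ∈ S Y, TQ i a D F ≤ TQt i
  hR1 : ∀ i ∈ I, ∑ a ∈ S M₀, ∑ D ∈ S Y, ∑ F ∈ S Y, R1 i a D F ≤ Rt i

/-- **the smooth mean square** -/
theorem AQ_meanE {w : ℝ → ℝ} (hw : Wgt w) {R : ℝ} (hR : 0 ≤ R) {A B : ℕ} (hA : 1 < A)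
    (hB : 3 ≤ B) {ε ε1 : ℝ} (hε : 0 < ε) (hε10 : 0 < ε1)
    (hε11 : ε1 ≤ 1 / 2) (hε12 : ε1 ≤ ε / 64) : ∃ C : ℝ, 0 ≤ C ∧
    ∀ {ι : Type*} (I : Finset ι) (T : ℕ) (N : ι → ℝ) (m : ι → Eis) (V : ι → Eis → ℂ)
      (K H Λ m₀ Y₀ Y M₀ Z : ℝ) (q : ι → ℝ) (TQ R1 : ι → Eis → Eis → Eis → ℝ) (TQt Rt : ι → ℝ),
      PHE ε1 I A T N m V K H Λ m₀ Y₀ Y M₀ Z R q TQ R1 TQt Rt →
      ∑' a : Eis, (if IsPrim a then ‖AQ I m V a‖ ^ 2 else 0) * w (nm a / K) ≤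
        C * T * (K * ∑ i ∈ I, ∑ n ∈ S Y, ‖V i n‖ ^ 2) +
          C * T * Z ^ ε * OBR I N m K H Λ m₀ q TQt Rt := by
  obtain ⟨C1, hk⟩ := exists_KT hw hR A B
  obtain ⟨C2, hC2, hO⟩ := OFFM_leE hB hε hε10 hε11 hε12
  have hC1 : 0 ≤ C1 := hk.1
  have h3 : 0 < Real.sqrt 3 := Real.sqrt_pos.mpr (by norm_num)
  refine ⟨2 / (9 * Real.sqrt 3) * |Wt w 0| + 4 * C1 * C2, by positivity, ?_⟩
  intro ι I T N m V K H Λ m₀ Y₀ Y M₀ Z q TQ R1 TQt Rt h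
  have hY0 : 0 ≤ Y := by linarith [h.Y1]
  have h1 := h.pi.AQ_le h.Y1 h.hY hw hk hA (by omega) h.K0 h.N0 h.win h.hT
  have h2 := h.pi.OFF_le h.hY hA hB h.K0 h.N0 h.NΛ h.m0 h.mm h.mM h.hT
  have h4 := hO I A T N m V K H Λ m₀ Y M₀ Z q TQ R1 TQt Rt h.Z1 h.K0 h.KZ h.H0 h.m0 h.ΛZ hY0 h.YZ
    h.M0 h.MZ h.q0 h.N0 h.NZ (fun i hi => h.pi.hm i hi) h.mZ h.NΛ h.TQ0 h.R10 h.hG h.hTQ h.hR1
  have hK := h.K0
  have hd : 0 ≤ ∑ i ∈ I, ∑ n ∈ S Y, ‖V i n‖ ^ 2 :=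
    Finset.sum_nonneg fun i _ => Finset.sum_nonneg fun n _ => by positivity
  have hOB : 0 ≤ OBR I N m K H Λ m₀ q TQt Rt := by
    unfold OBR
    refine mul_nonneg hK.le (Finset.sum_nonneg fun i hi => ?_)
    have hNi := h.N0 i hi
    have hqi := h.q0 i hi
    have hH := h.H0
    have hm0 := h.m0
    have hmi := nmpos (h.pi.hm i hi).ne_zero
    have hΛ0 : 0 < Λ := lt_of_lt_of_le (by positivity) (h.NΛ i hi)
    have hTQt : 0 ≤ TQt i := le_trans (Finset.sum_nonneg fun a _ => Finset.sum_nonneg fun D _ =>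
      Finset.sum_nonneg fun F _ => h.TQ0 i hi a D F) (h.hTQ i hi)
    have hRW : 0 ≤ Rt i := le_trans (Finset.sum_nonneg fun a _ => Finset.sum_nonneg fun D _ =>
      Finset.sum_nonneg fun F _ => h.R10 i hi a D F) (h.hR1 i hi)
    have hθ0 : 0 < thR K H Λ m₀ := by unfold thR; positivity
    have hk1 : 0 ≤ kap1 K H Λ m₀ (nm (m i)) (q i) := by unfold kap1; positivity
    positivity
  have hZe : 0 ≤ Z ^ ε := by have := h.Z1; positivity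
  have hWt : 0 ≤ |Wt w 0| := abs_nonneg _
  refine h1.trans ?_
  have e1 : (2 * K / (9 * Real.sqrt 3)) * |Wt w 0| * (T * ∑ i ∈ I, ∑ n ∈ S Y, ‖V i n‖ ^ 2) ≤
      (2 / (9 * Real.sqrt 3) * |Wt w 0| + 4 * C1 * C2) * T *
        (K * ∑ i ∈ I, ∑ n ∈ S Y, ‖V i n‖ ^ 2) := by
    have e2 : (2 * K / (9 * Real.sqrt 3)) * |Wt w 0| * (T * ∑ i ∈ I, ∑ n ∈ S Y, ‖V i n‖ ^ 2) =
        (2 / (9 * Real.sqrt 3) * |Wt w 0|) * T * (K * ∑ i ∈ I, ∑ n ∈ S Y, ‖V i n‖ ^ 2) := by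
      ring
    rw [e2]
    have h5 : 0 ≤ 4 * C1 * C2 := by positivity
    gcongr
    linarith
  refine add_le_add e1 ?_
  have h6 : 2 * C1 * ∑ i ∈ I, ∑ j ∈ I, ∑ s ∈ pdiv (gq m i j),
        MP A B 3 (fun _ => 1) (K / nm s) (N i * N j) Y (pq m i j) (pq m j i)
          (tws s (V i)) (tws s (V j)) ≤
      2 * C1 * (2 * (C2 * T * Z ^ ε * OBR I N m K H Λ m₀ q TQt Rt)) := by
    refine mul_le_mul_of_nonneg_left ?_ (by positivity)
    exact h2.trans (mul_le_mul_of_nonneg_left h4 (by norm_num))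
  refine h6.trans ?_
  have h7 : 2 * C1 * (2 * (C2 * T * Z ^ ε * OBR I N m K H Λ m₀ q TQt Rt)) =
      (4 * C1 * C2) * T * Z ^ ε * OBR I N m K H Λ m₀ q TQt Rt := by ring
  rw [h7]
  have h8 : 0 ≤ 2 / (9 * Real.sqrt 3) * |Wt w 0| := by positivity
  gcongr
  linarith

/-- **the sum over a dyadic block** -/
theorem AQ_blockE {R : ℝ} (hR : 0 ≤ R) {A B : ℕ} (hA : 1 < A)
    (hB : 3 ≤ B) {ε ε1 : ℝ} (hε : 0 < ε) (hε10 : 0 < ε1)
    (hε11 : ε1 ≤ 1 / 2) (hε12 : ε1 ≤ ε / 64) : ∃ C : ℝ, 0 ≤ C ∧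
    ∀ {ι : Type*} (I : Finset ι) (T : ℕ) (N : ι → ℝ) (m : ι → Eis) (V : ι → Eis → ℂ)
      (K H Λ m₀ Y₀ Y M₀ Z : ℝ) (q : ι → ℝ) (TQ R1 : ι → Eis → Eis → Eis → ℝ) (TQt Rt : ι → ℝ),
      PHE ε1 I A T N m V K H Λ m₀ Y₀ Y M₀ Z R q TQ R1 TQt Rt →
      ∀ P : Finset Eis, (∀ a ∈ P, IsPrim a ∧ K ≤ nm a ∧ (nm a : ℝ) ≤ 2 * K) →
      ∑ a ∈ P, ‖AQ I m V a‖ ^ 2 ≤
        C * T * (K * ∑ i ∈ I, ∑ n ∈ S Y, ‖V i n‖ ^ 2) +
          C * T * Z ^ ε * OBR I N m K H Λ m₀ q TQt Rt := by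
  obtain ⟨w, hw, hw0, hw1⟩ := exists_wb
  obtain ⟨C, hC, h⟩ := AQ_meanE hw hR hA hB hε hε10 hε11 hε12
  refine ⟨C, hC, ?_⟩
  intro ι I T N m V K H Λ m₀ Y₀ Y M₀ Z q TQ R1 TQt Rt hp P hP
  refine le_trans ?_ (h I T N m V K H Λ m₀ Y₀ Y M₀ Z q TQ R1 TQt Rt hp)
  have hK := hp.K0
  have hs : Summable fun a : Eis => (if IsPrim a then ‖AQ I m V a‖ ^ 2 else 0) * w (nm a / K) := by
    have h1 := summable_wF hw hK (fun a => (((if IsPrim a then ‖AQ I m V a‖ ^ 2 else 0 : ℝ)) : ℂ))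
    rw [← Complex.summable_ofReal]
    refine h1.congr fun a => ?_
    push_cast
    split_ifs <;> simp
  refine le_trans ?_ (hs.sum_le_tsum P fun a _ => mul_nonneg (by split_ifs <;> positivity) (hw0 _))
  refine Finset.sum_le_sum fun a ha => ?_
  obtain ⟨h1, h2, h3⟩ := hP a ha
  rw [if_pos h1]
  have h4 : 1 ≤ w (nm a / K) := by
    refine hw1 _ ?_ ?_
    · rw [le_div_iff₀ hK]; linarith
    · rw [div_le_iff₀ hK]; exact h3
  exact le_mul_of_one_le_right (by positivity) h4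

end Crest.Agent.R017.E3q681
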