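import Crest.Agent.R017.E3q8_681
import Crest.Agent.R017.ModeE_405

/-!
# Row 17, block C70, leaf E4 (x-side), one cell from MODE* (helper681)

* `RX` : the hypothesis on the structured part (all the dilations of `b`)
* `DT_le` : the moments of the dilated sequence
* `mode_u` : the modes of one cell, one divisor of the dilation
-/

set_option autoImplicit false
set_option linter.unusedVariables false
set_option maxHeartbeats 400000

noncomputable section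

open Complex MeasureTheory
open scoped ComplexConjugate Classical ContDiff

namespace Crest.Agent.R017.E3q681

open Crest.Agent.R012 Crest.Agent.R012.Eis Crest.Agent.R012.MC
open Crest.Agent.R012.LS2 (S mem_S bl mem_bl)
open Crest.Agent.R012.Div277 (dvs mem_dvs isPrim_of_mem_dvs dvd_of_mem_dvs tau tau_le_rpow)
open Crest.Agent.R012.Mob705 (mu pdiv mem_pdiv)
open Crest.Agent.R012.NonCube52 (Ker kv Good kc kc_spec kc_nm kv_ne_zero one_le_nmkv)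
open Crest.Agent.R017.CM106 (CS TG FS)
open Crest.Agent.R017.E1551 (nmpos jb jb_pos nm_ge_one summable_wF)
open Crest.Agent.R017.BD829
open Crest.Agent.R017.E3P842
open Crest.Agent.R017.E3D579
open Crest.Agent.R017.E3Sd579
open Crest.Agent.R017.Mode405
open Crest.Agent.R017.E3Sm290 (EQ_dil sum_split)
open Gauss880 (syG)

/-! ### kernels -/

lemma ker_cop {y κ : Eis} (hy : y ≠ 0) (h : IsCoprime y κ) : IsCoprime (kv (kc y).1) κ := by
  refine IsCoprime.of_isCoprime_of_dvd_left h ?_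
  have h1 := (kc_spec hy).2.2.1
  exact ⟨(kc y).2 ^ 3, h1⟩

lemma three_sq3 : (3 * sq3 : Eis) ^ 2 = (-3) ^ 3 := by
  have h := sq3_sq
  calc (3 * sq3 : Eis) ^ 2 = 9 * sq3 ^ 2 := by ring
    _ = _ := by rw [h]; ring

lemma nk_freq {E Q s b : Eis} (hE : E ≠ 0) (hQ : Q ≠ 0) (hs : s ≠ 0) (hb : b ≠ 0) :
    nk (E * ((3 * sq3 * (Q * s)) ^ 2 * b)) ≤ nm E * nk (Q ^ 2) * (nm s : ℝ) ^ 2 * nm b := by
  have h30 : (-3 : Eis) ≠ 0 := by
    intro h
    have h2 := congrArg nm h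
    revert h2
    decide
  have e1 : E * ((3 * sq3 * (Q * s)) ^ 2 * b) = (E * (Q ^ 2 * (s ^ 2 * b))) * (-3) ^ 3 := by
    rw [← three_sq3]; ring
  have hy : E * (Q ^ 2 * (s ^ 2 * b)) ≠ 0 :=
    mul_ne_zero hE (mul_ne_zero (pow_ne_zero _ hQ) (mul_ne_zero (pow_ne_zero _ hs) hb))
  have e2 : nk (E * ((3 * sq3 * (Q * s)) ^ 2 * b)) = nk (E * (Q ^ 2 * (s ^ 2 * b))) := by
    unfold nk
    rw [LSq50.kc_of_eq hy h30 e1]
  rw [e2]
  have h1 := nk_mul_le hE (mul_ne_zero (pow_ne_zero 2 hQ) (mul_ne_zero (pow_ne_zero 2 hs) hb))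
  have h2 := nk_mul_le (pow_ne_zero 2 hQ) (mul_ne_zero (pow_ne_zero 2 hs) hb)
  have h3 := nk_le_nm hE
  have h4 := nk_le_nm (mul_ne_zero (pow_ne_zero 2 hs) hb)
  rw [nm_mul, nm_pow] at h4
  push_cast at h4
  have n0 : ∀ x : Eis, 0 ≤ nk x := fun x => Nat.cast_nonneg _
  calc nk (E * (Q ^ 2 * (s ^ 2 * b))) ≤ nk E * nk (Q ^ 2 * (s ^ 2 * b)) := h1
    _ ≤ nk E * (nk (Q ^ 2) * nk (s ^ 2 * b)) := mul_le_mul_of_nonneg_left h2 (n0 _)
    _ ≤ nm E * (nk (Q ^ 2) * ((nm s : ℝ) ^ 2 * nm b)) := by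
        have := n0 (Q ^ 2)
        have := n0 (s ^ 2 * b)
        gcongr
    _ = _ := by ring

/-! ### the moments of the dilated sequence -/

lemma norm_CS_bF_le {κ F : Eis} (hκ : IsPrim κ) {b : Eis → ℂ} (hb : FS b) (n : Eis) :
    ‖CS (bF κ F b) n‖ ≤ ‖CS b (F * (κ * n))‖ := by
  rw [CS_bF hκ hb, norm_mul]
  exact mul_le_of_le_one_left (norm_nonneg _) (Gauss880.norm_sy_le syG hκ)

/-- the moments of the dilated sequence -/
lemma DT_le {κ F x : Eis} (hκ : IsPrim κ) (hF : IsPrim F) {b : Eis → ℂ} (hb : FS b) (ρ : Eis)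
    (hx : κ * F = x) (e X : ℝ) :
    DT e (X / nm x) (bF κ F b) (ρ * (κ * F)) ≤ TC e X b x := by
  unfold DT TC
  refine (Finset.sum_le_sum fun n hn => mul_le_mul_of_nonneg_left
    (pow_le_pow_left₀ (norm_nonneg _) (norm_CS_bF_le hκ hb n) 2) (by positivity)).trans ?_
  have e1 : ∀ n : Eis, F * (κ * n) = x * n := fun n => by rw [← hx]; ring
  simp only [e1]
  refine Finset.sum_le_sum_of_subset_of_nonneg (fun n hn => ?_) fun _ _ _ => by positivity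
  rw [Finset.mem_filter] at hn ⊢
  refine ⟨hn.1, ?_⟩
  rw [← hx]
  exact hn.2.of_mul_right_right

lemma nm_kc_sqf {n : Eis} (hn : IsPrim n) (hs : Squarefree n) : (nm (kc n).2 : ℝ) = 1 := by
  have h : Char766.IsCubDec n 0 0 n 1 1 := by
    refine ⟨by norm_num, by norm_num, hn, isPrim_one, hs, squarefree_one, isCoprime_one_right,
      one_ne_zero, ?_⟩
    ring
  rw [nm_kc_of_dec hn.ne_zero h, nm_one]; norm_num

/-- the plain moment -/
lemma S_le_DT {X : ℝ} (hX : 0 ≤ X) (b : Eis → ℂ) {r r₁ : Eis} (h : r₁ ∣ r) :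
    ∑ n ∈ (S X).filter (fun n => IsCoprime n r), ‖CS b n‖ ^ 2 ≤ DT 1 X b r₁ := by
  unfold DT
  have e1 : ∑ n ∈ (S X).filter (fun n => IsCoprime n r), ‖CS b n‖ ^ 2 =
      ∑ n ∈ (S X).filter (fun n => IsCoprime n r),
        (nm (kc n).2 : ℝ) ^ (-(1 : ℝ)) * ‖CS b n‖ ^ 2 := by
    refine Finset.sum_congr rfl fun n hn => ?_
    rw [Finset.mem_filter, mem_S hX] at hn
    rw [nm_kc_sqf hn.1.2.1 hn.1.2.2, Real.one_rpow, one_mul]
  rw [e1]
  refine Finset.sum_le_sum_of_subset_of_nonneg (fun n hn => ?_) fun _ _ _ => by positivity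
  rw [Finset.mem_filter, mem_S hX] at hn
  rw [Finset.mem_filter, mem_primBall, Nat.le_floor_iff hX]
  exact ⟨⟨hn.1.1, hn.1.2.1⟩, hn.2.of_isCoprime_of_dvd_right h⟩

/-! ### the dilated sequence -/

lemma bF_ne {κ F : Eis} (hκ : IsPrim κ) {b : Eis → ℂ} (hb : FS b) {n : Eis}
    (h : bF κ F b n ≠ 0) : ∃ m, n = κ * m ∧ b m ≠ 0 ∧ IsCoprime m κ := by
  unfold bF bt at h
  split_ifs at h with h1
  · obtain ⟨m, rfl⟩ := h1
    have e1 : κ * m / κ = m := mul_div_cancel_left₀ _ hκ.ne_zero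
    rw [e1] at h
    have h2 : b m ≠ 0 := left_ne_zero_of_mul (left_ne_zero_of_mul h)
    refine ⟨m, rfl, h2, ?_⟩
    have h3 : sy κ m ≠ 0 := right_ne_zero_of_mul h
    by_contra h4
    exact h3 ((syG.eq_zero κ m (hb.prim m h2)).mpr fun h5 => h4 h5.symm)
  · exact absurd rfl h

lemma bF_S {κ F : Eis} (hκ : IsPrim κ) (hκs : Squarefree κ) {b : Eis → ℂ} (hb : FS b) {Z Z' : ℝ}
    (hZ : 0 ≤ Z) (hbS : ∀ n, b n ≠ 0 → n ∈ S Z) (hZ' : (nm κ : ℝ) * Z ≤ Z') {n : Eis}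
    (h : bF κ F b n ≠ 0) : n ∈ S Z' := by
  obtain ⟨m, rfl, h2, h3⟩ := bF_ne hκ hb h
  obtain ⟨h4, h5, h6⟩ := (mem_S hZ).1 (hbS m h2)
  have hZ'0 : 0 ≤ Z' := le_trans (by positivity) hZ'
  refine (mem_S hZ'0).2 ⟨?_, hκ.mul h5, ?_⟩
  · rw [nm_mul]; push_cast
    exact (mul_le_mul_of_nonneg_left h4 (Nat.cast_nonneg _)).trans hZ'
  · exact squarefree_mul_iff.mpr ⟨h3.symm.isRelPrime, hκs, h6⟩

lemma bF_Win {κ F : Eis} (hκ : IsPrim κ) {b : Eis → ℂ} (hb : FS b) {Nb R : ℝ} (hN : 0 < Nb)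
    (hw : Win b (Real.log Nb) R) : Win (bF κ F b) (Real.log (Nb * nm κ)) R := by
  intro n hn
  obtain ⟨m, rfl, h2, h3⟩ := bF_ne hκ hb hn
  have h4 := hw m h2
  have nκ := nmpos hκ.ne_zero
  have nm' := nmpos (hb.prim m h2).ne_zero
  rw [nm_mul]; push_cast
  rw [Real.log_mul nκ.ne' nm'.ne', Real.log_mul hN.ne' nκ.ne']
  have e : Real.log (nm κ) + Real.log (nm m) - (Real.log Nb + Real.log (nm κ)) =
      Real.log (nm m) - Real.log Nb := by ring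
  rw [e]
  exact h4

/-! ### the structured part -/

/-- the hypothesis on the structured part: all the dilations of `b` -/
def RX (OK : ℝ → ℝ → Eis → Set Tst → Prop) (aS A : ℕ) (c Z Nb ν : ℝ) (R ρ : Eis)
    (b : Eis → ℂ) (W1 : ℝ) : Prop :=
  ∀ κ F : Eis, IsPrim κ → IsPrim F → Squarefree (κ * F) → IsCoprime (κ * F) R →
    (nm κ : ℝ) ≤ Z ^ 2 → (nm F : ℝ) ≤ Z ^ 4 → ∀ Z' Lt Y : ℝ, Z ≤ Z' → Nb * nm κ ≤ Z' → (nm κ : ℝ) ≤ Z' → 1 ≤ Lt → 1 ≤ Y →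
      Nb * nm κ * Lt / Y * (nm F : ℝ) ^ 2 ≤ ν →
      ∃ (𝒯 : Set Tst) (W : ℝ → ℝ), OK Z' (Nb * nm κ) κ 𝒯 ∧ Slp aS W ∧
        (∀ τ ∈ 𝒯, ∀ P : ℝ, 0 < P → ∑ e ∈ pdiv (ρ * (κ * F)),
          (nm e : ℝ)⁻¹ * TV τ A (bs (bF κ F b) e) (nm e * P) ≤ W P) ∧
        W (c * (Nb * nm κ * Lt / Y)) ≤ W1

/-- the bound of the modes of one cell -/
def CBx (L ϱ Yc Lt₀ T1 T2 W1 : ℝ) : ℝ :=
  ϱ ^ (1 / 3 : ℝ) * (Yc * T1 + (if 1 ≤ Lt₀ then Yc * W1 +
    ((Yc + (Lt₀ * Yc) ^ (2 / 3 : ℝ)) * T1 + Lt₀ * Yc ^ (1 / 2 : ℝ) * T2) else 0)) +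
    (L + (L * Yc) ^ (2 / 3 : ℝ)) * T1

lemma CBx_nonneg {L ϱ Yc Lt₀ T1 T2 W1 : ℝ} (hL : 0 ≤ L) (hϱ : 0 ≤ ϱ) (hY : 0 ≤ Yc) (hLt : 0 ≤ Lt₀)
    (hT1 : 0 ≤ T1) (hT2 : 0 ≤ T2) (hW : 0 ≤ W1) : 0 ≤ CBx L ϱ Yc Lt₀ T1 T2 W1 := by
  unfold CBx
  have h1 : 0 ≤ (if 1 ≤ Lt₀ then Yc * W1 +
    ((Yc + (Lt₀ * Yc) ^ (2 / 3 : ℝ)) * T1 + Lt₀ * Yc ^ (1 / 2 : ℝ) * T2) else 0) := by
    split_ifs
    · positivity
    · exact le_rfl
  positivity

/-- the real comparison -/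
lemma CBx_ge {L L' ϱ Yc Lt₀ Lt' L0' T1 T1' T2 T2' W W' S1 : ℝ} (hL' : 0 ≤ L') (hLL : L' ≤ L)
    (hϱ : 0 ≤ ϱ) (hY : 0 ≤ Yc) (hLt' : 0 < Lt') (hLL' : Lt' ≤ Lt₀) (e0 : L0' / Lt' = ϱ)
    (hT1 : 0 ≤ T1') (hT11 : T1' ≤ T1) (hS0 : 0 ≤ S1) (hS : S1 ≤ T1) (hT2 : 0 ≤ T2')
    (hT22 : T2' ≤ T2) (hW : 0 ≤ W') (hWW : 1 ≤ Lt' → W' ≤ W) (hW0 : 0 ≤ W) :
    ((L0' / Lt') ^ (1 / 3 : ℝ) * Yc + (if Lt' ≤ L0' then L' + (L' * Yc) ^ (2 / 3 : ℝ) else 0)) *
        S1 + (if 1 ≤ Lt' then (L0' / Lt') ^ (1 / 3 : ℝ) * (Yc * W' +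
          ((Yc + (Lt' * Yc) ^ (2 / 3 : ℝ)) * T1' + Lt' * Yc ^ (1 / 2 : ℝ) * T2')) else 0) ≤
      CBx L ϱ Yc Lt₀ T1 T2 W := by
  rw [e0]
  unfold CBx
  have hLt0 : 0 ≤ Lt₀ := by linarith
  have hL : 0 ≤ L := by linarith
  have hT10 : 0 ≤ T1 := by linarith
  have hT20 : 0 ≤ T2 := by linarith
  have a1 : (if Lt' ≤ L0' then L' + (L' * Yc) ^ (2 / 3 : ℝ) else 0) ≤
      L + (L * Yc) ^ (2 / 3 : ℝ) := by
    split_ifs
    · gcongr
    · positivity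
  have a2 : (if 1 ≤ Lt' then ϱ ^ (1 / 3 : ℝ) * (Yc * W' +
          ((Yc + (Lt' * Yc) ^ (2 / 3 : ℝ)) * T1' + Lt' * Yc ^ (1 / 2 : ℝ) * T2')) else 0) ≤
      ϱ ^ (1 / 3 : ℝ) * (if 1 ≤ Lt₀ then Yc * W +
        ((Yc + (Lt₀ * Yc) ^ (2 / 3 : ℝ)) * T1 + Lt₀ * Yc ^ (1 / 2 : ℝ) * T2) else 0) := by
    by_cases h1 : 1 ≤ Lt'
    · rw [if_pos h1, if_pos (h1.trans hLL')]
      have := hWW h1
      gcongr
    · rw [if_neg h1]
      split_ifs
      · positivity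
      · rw [mul_zero]
  have a3 : 0 ≤ ϱ ^ (1 / 3 : ℝ) * Yc := by positivity
  have a4 : 0 ≤ L + (L * Yc) ^ (2 / 3 : ℝ) := by positivity
  calc _ ≤ (ϱ ^ (1 / 3 : ℝ) * Yc + (L + (L * Yc) ^ (2 / 3 : ℝ))) * T1 +
        ϱ ^ (1 / 3 : ℝ) * (if 1 ≤ Lt₀ then Yc * W +
        ((Yc + (Lt₀ * Yc) ^ (2 / 3 : ℝ)) * T1 + Lt₀ * Yc ^ (1 / 2 : ℝ) * T2) else 0) := by
        refine add_le_add ?_ a2
        refine mul_le_mul (add_le_add le_rfl a1) hS hS0 (by positivity)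
    _ = _ := by ring

/-- the length of the structured part -/
lemma nu_id {Nb N Lst A D F E u k : ℝ} (hNb : 0 < Nb) (hN : 0 < N) (hLst : 0 < Lst) (hA : 0 < A)
    (hD : 0 < D) (hF : 0 < F) (hE : 0 < E) (hu : 0 < u) (hk : k * E * u = A * D) :
    Nb * k * (Lst / ((A * D) ^ 2 * F ^ 3) / (27 * E * u)) / (N / (A * D * F)) *
      (F * (E * u)) ^ 2 ≤ Nb / N * Lst := by
  have e1 : Nb * k * (Lst / ((A * D) ^ 2 * F ^ 3) / (27 * E * u)) / (N / (A * D * F)) *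
      (F * (E * u)) ^ 2 = (Nb / N * Lst / 27) * ((k * E * u) / (A * D)) := by
    field_simp
  rw [e1, hk, div_self (by positivity), mul_one]
  have : 0 < Nb / N * Lst := by positivity
  linarith

/-- the factor of the structured part -/
lemma nfo_le {Nb N Lst A D F E u k : ℝ} (hNb : 0 < Nb) (hN : 0 < N) (hLst : 0 < Lst) (hA : 0 < A)
    (hD : 0 < D) (hF : 0 < F) (hE : 0 < E) (hu : 0 < u) (hk0 : 0 < k) (hk : k * E * u = A * D) :
    nfo (Lst / ((A * D) ^ 2 * F ^ 3) / (27 * E * u))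
      (Nb * k * (Lst / ((A * D) ^ 2 * F ^ 3) / (27 * E * u)) / (N / (A * D * F))) ≤
      1 + Real.sqrt (Lst * N / Nb) / ((A * D) ^ 2 * F ^ 2) := by
  unfold nfo
  refine add_le_add le_rfl ?_
  set lam := Lst / ((A * D) ^ 2 * F ^ 3) / (27 * E * u) with hlam
  set I := Nb * k * lam / (N / (A * D * F)) with hI
  have hlam0 : 0 < lam := by positivity
  have hI0 : 0 < I := by positivity
  have e1 : lam * I ^ (-(1 / 2) : ℝ) = Real.sqrt (lam ^ 2 / I) := by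
    rw [Real.sqrt_div (by positivity), Real.sqrt_sq hlam0.le, Real.rpow_neg hI0.le,
      Real.sqrt_eq_rpow]
    rfl
  have e2 : lam ^ 2 / I = (Lst * N / Nb) / (27 * ((k * E * u) * ((A * D) ^ 3 * F ^ 4))) := by
    rw [hI, hlam]
    field_simp
  rw [e1, e2, hk]
  have e3 : (27 : ℝ) * ((A * D) * ((A * D) ^ 3 * F ^ 4)) = 27 * ((A * D) ^ 2 * F ^ 2) ^ 2 := by
    ring
  rw [e3]
  have h0 : 0 ≤ Lst * N / Nb := by positivity
  calc Real.sqrt (Lst * N / Nb / (27 * ((A * D) ^ 2 * F ^ 2) ^ 2))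
      ≤ Real.sqrt (Lst * N / Nb / (((A * D) ^ 2 * F ^ 2) ^ 2)) := by
        refine Real.sqrt_le_sqrt (div_le_div_of_nonneg_left h0 (by positivity) ?_)
        have : 0 ≤ ((A * D) ^ 2 * F ^ 2) ^ 2 := by positivity
        linarith
    _ = _ := by
        rw [Real.sqrt_div h0, Real.sqrt_sq (by positivity)]

set_option maxHeartbeats 16000000 in
/-- **the modes of one cell**, `N / nm (a D F) ≥ 1` -/
theorem mode_ball {OK : ℝ → ℝ → Eis → Set Tst → Prop} (hOK : OKW OK) {χ : Eis → ℂ}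
    (hχ : Mul1 χ) {w1 : ℝ → ℝ} (hw1W : Wgt w1) (hP : PoHW OK nfo χ (w6 w1)) {Rw : ℝ}
    (hRw : 0 ≤ Rw) (aS A : ℕ) (hA : 1 < A) {ε : ℝ} (hε : 0 < ε) :
    ∃ (C c cw : ℝ) (A₀ : ℕ), 0 ≤ C ∧ 1 ≤ c ∧ 1 ≤ cw ∧ ∀ A' : ℝ, (A₀ : ℝ) ≤ A' →
    ∀ (Z : ℝ) (b : Eis → ℂ) (Nb : ℝ) (Q R ρ mm : Eis) (N Lst q0 W1 : ℝ),
      1 ≤ Z → FS b → (∀ n, b n ≠ 0 → n ∈ S Z) → 0 < Nb → Nb ≤ Z → Win b (Real.log Nb) Rw →
      Q ≠ 0 → R ≠ 0 → ρ ∣ R → IsPrim mm → mm ∣ R → (nm Q : ℝ) ≤ Z → (nm R : ℝ) ≤ Z →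
      (nm mm : ℝ) ≤ Z → 0 < N → N ≤ Z → 0 < Lst → Lst ≤ Z → nk (Q ^ 2) ≤ q0 → q0 ≤ Z ^ 2 → 0 ≤ W1 →
      (1 ≤ Lst → Lst * Real.exp Rw < Nb) → RX OK aS A c Z Nb (Nb / N * Lst) R ρ b W1 →
    ∀ s b' a D E F : Eis, IsPrim s → s ∣ mm → IsPrim b' → b' ∣ mm → IsPrim a → IsPrim D →
      E ∈ pdiv D → IsPrim F → (nm a : ℝ) ≤ Z → (nm D : ℝ) ≤ Z → (nm F : ℝ) ≤ Z →
      Squarefree (a * D * F) → IsCoprime (a * D * F) R → IsCoprime (a * D * F) (Q * s) →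
      1 ≤ N / nm (a * D * F) → ∀ L : ℝ, 1 ≤ L →
      ∑ w ∈ bl L, EQ A' (pS χ (fun x => ((w1 (x / (N / nm (a * D * F))) : ℝ) : ℂ))
          (R * a * (a * D * F)) (bF (a * D) F b)) (w * ((E * (3 * sq3) * (Q * s)) ^ 2 * b')) ≤
        C * Z ^ ε * L ^ ε * ((N / nm (a * D * F)) ^ (-(1 : ℝ) / 3) *
          CBx L (L * (27 * (nm E : ℝ) ^ 2 * (nm s : ℝ) ^ 2 * nm b') * q0 /
              (Lst / ((nm a * nm D : ℝ) ^ 2 * (nm F : ℝ) ^ 3))) (N / nm (a * D * F))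
            (Lst / ((nm a * nm D : ℝ) ^ 2 * (nm F : ℝ) ^ 3)) (TC 1 (cw * N) b (a * D * F))
            (TC (1 / 2) (cw * N) b (a * D * F))
            ((1 + Real.sqrt (Lst * N / Nb) / ((nm a * nm D : ℝ) ^ 2 * (nm F : ℝ) ^ 2)) * W1)) := by
  obtain ⟨C₁, c, cw, A₀, hC₁, hc, hcw, key⟩ := modeE hOK nfok_nfo hχ hw1W hP hRw aS A hA
    (ε := ε / 20) (by positivity)
  obtain ⟨Ct, hCt, hτ⟩ := tau_le_rpow (ε := ε / 4) (by positivity)
  refine ⟨Ct * (C₁ * 729 ^ (ε / 20)), c, cw, A₀, by positivity, hc, hcw, ?_⟩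
  intro A' hA' Z b Nb Q R ρ mm N Lst q0 W1 hZ hb hbS hNb hNbZ hbW hQ hR hρ hmm hmmR hQZ hRZ hmmZ hN
    hNZ hLst hLstZ hq0 hq0Z hW1 hLN hRX s b' a D E F hs hsm hb' hbm ha hD hE hF haZ hDZ hFZ hsq hcR
    hcQ hY L hL
  have hZ0 : 0 < Z := by linarith
  have hL0 : 0 < L := by linarith
  obtain ⟨hEp, hED⟩ := (mem_pdiv hD.ne_zero).mp hE
  obtain ⟨D1, hD1⟩ := hED
  have hD1p : IsPrim D1 := by rw [hD1] at hD; exact hD.of_mul_left hEp
  set κ := a * D1 with hκd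
  have hκ : IsPrim κ := ha.mul hD1p
  have hκE : κ * E = a * D := by rw [hκd, hD1]; ring
  set x0 := a * D * F with hx0
  have hx0p : IsPrim x0 := (ha.mul hD).mul hF
  have nx0 := nmpos hx0p.ne_zero
  set r := R * a * x0 with hr
  set X := (3 * sq3 * (Q * s)) ^ 2 * b' with hX
  set Yc : ℝ := N / nm x0 with hYc
  have na := nm_ge_one ha.ne_zero
  have nD := nm_ge_one hD.ne_zero
  have nF := nm_ge_one hF.ne_zero
  have nE := nm_ge_one hEp.ne_zero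
  have nb := nm_ge_one hb'.ne_zero
  have ns := nm_ge_one hs.ne_zero
  have nQ := nm_ge_one hQ
  have nR := nm_ge_one hR
  have nx01 := nm_ge_one hx0p.ne_zero
  have hEZ : (nm E : ℝ) ≤ Z := by
    refine le_trans ?_ hDZ
    exact_mod_cast Div277.nm_le_of_dvd hD.ne_zero ⟨D1, hD1⟩
  have hsZ : (nm s : ℝ) ≤ Z := by
    refine le_trans ?_ hmmZ
    exact_mod_cast Div277.nm_le_of_dvd hmm.ne_zero hsm
  have hbZ : (nm b' : ℝ) ≤ Z := by
    refine le_trans ?_ hmmZ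
    exact_mod_cast Div277.nm_le_of_dvd hmm.ne_zero hbm
  set Lt₀ : ℝ := Lst / ((nm a * nm D : ℝ) ^ 2 * (nm F : ℝ) ^ 3) with hLt0
  have hden : 1 ≤ (nm a * nm D : ℝ) ^ 2 * (nm F : ℝ) ^ 3 :=
    one_le_mul_of_one_le_of_one_le (one_le_pow₀ (one_le_mul_of_one_le_of_one_le na nD))
      (one_le_pow₀ nF)
  have hLt0p : 0 < Lt₀ := by positivity
  have hLt0L : Lt₀ ≤ Lst := div_le_self hLst.le hden
  have hq00 : 0 ≤ q0 := (Nat.cast_nonneg _).trans hq0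
  set ϱ : ℝ := L * (27 * (nm E : ℝ) ^ 2 * (nm s : ℝ) ^ 2 * nm b') * q0 / Lt₀ with hϱ
  have hϱ0 : 0 ≤ ϱ := by positivity
  set T1 := TC 1 (cw * N) b x0 with hT1
  set T2 := TC (1 / 2) (cw * N) b x0 with hT2
  have hT10 : 0 ≤ T1 := TC_nonneg _ _ _ _
  have hT20 : 0 ≤ T2 := TC_nonneg _ _ _ _
  set W := (1 + Real.sqrt (Lst * N / Nb) / ((nm a * nm D : ℝ) ^ 2 * (nm F : ℝ) ^ 2)) * W1 with hW
  have hW0 : 0 ≤ W := by positivity
  have hYc0 : 0 < Yc := by linarith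
  have hCB0 : 0 ≤ CBx L ϱ Yc Lt₀ T1 T2 W := CBx_nonneg hL0.le hϱ0 hYc0.le hLt0p.le hT10 hT20 hW0
  set om : ℝ → ℂ := fun x => ((w1 (x / Yc) : ℝ) : ℂ) with hom
  set f : Eis → ℝ := fun x => EQ A' (pS χ om r (bF (κ * E) F b)) (x * (E ^ 2 * X)) with hf
  have h1 : ∑ w ∈ bl L, EQ A' (pS χ om r (bF (a * D) F b))
      (w * ((E * (3 * sq3) * (Q * s)) ^ 2 * b')) = ∑ x ∈ bl L, f x := by
    refine Finset.sum_congr rfl fun x _ => ?_
    have e1 : x * ((E * (3 * sq3) * (Q * s)) ^ 2 * b') = x * (E ^ 2 * X) := by rw [hX]; ring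
    rw [e1, ← hκE]
  rw [h1]
  have h2 := sum_split hκ (f := f) (fun x => EQ_nonneg _ _ _) hL0.le
  refine h2.trans ?_
  -- one divisor
  have hu : ∀ u ∈ pdiv κ, ∑ x ∈ (bl (L / nm u)).filter (fun x => IsCoprime x (κ / u)), f (u * x) ≤
      C₁ * (729 ^ (ε / 20) * Z ^ (ε / 2) * L ^ ε) * Yc ^ (-(1 : ℝ) / 3) * CBx L ϱ Yc Lt₀ T1 T2 W := by
    intro u hu
    obtain ⟨hup, huκ⟩ := (mem_pdiv hκ.ne_zero).mp hu
    have nu := nm_ge_one hup.ne_zero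
    have nu0 := nmpos hup.ne_zero
    set κu := κ / u with hκu
    have e1 : κ = κu * u := by
      rw [mul_comm]; exact (EuclideanDomain.mul_div_cancel' hup.ne_zero huκ).symm
    have hκup : IsPrim κu := by
      refine IsPrim.of_mul_left (x := u) ?_ hup
      rw [mul_comm, ← e1]; exact hκ
    have nκu := nm_ge_one hκup.ne_zero
    set F' := F * (E * u) with hF'
    have hF'p : IsPrim F' := hF.mul (hEp.mul hup)
    have nF' := nm_ge_one hF'p.ne_zero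
    have e2 : κ * E = κu * (E * u) := by rw [e1]; ring
    have e3 : κu * F' = x0 := by
      rw [hF', hx0, ← hκE, e2]; ring
    have hsq' : Squarefree (κu * F') := by rw [e3]; exact hsq
    have hr' : E * u ∣ r := by
      rw [hr]
      refine Dvd.dvd.trans ?_ (dvd_mul_left x0 (R * a))
      rw [← e3, hF']; exact ⟨κu * F, by ring⟩
    have hfe : ∀ x : Eis, f (u * x) = EQ A' (pS χ om r (bF κu F' b)) (x * (E * X)) := by
      intro x
      rw [hf]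
      beta_reduce
      rw [e2]
      exact EQ_dil A' χ om hκup hEp hup hr' hb x X
    simp only [hfe]
    by_cases hLu : 1 ≤ L / nm u
    swap
    · have h0 : bl (L / nm u) = ∅ := by
        refine Finset.eq_empty_of_forall_notMem fun x hx => ?_
        rw [mem_bl (by positivity)] at hx
        have := nm_ge_one hx.1
        linarith [hx.2]
      rw [h0, Finset.filter_empty, Finset.sum_empty]
      positivity
    -- coprimality
    have hcs := squarefree_mul_iff.mp hsq'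
    have c1 : IsCoprime κu F' := isRelPrime_iff_isCoprime.mp hcs.1
    have cE : IsCoprime E κu := (c1.of_mul_right_right.of_mul_right_left).symm
    have cx0 : ∀ {y : Eis}, IsCoprime x0 y → IsCoprime y κu := fun {y} h =>
      ((IsCoprime.of_isCoprime_of_dvd_left h (⟨F', e3.symm⟩ : κu ∣ x0))).symm
    have cQs : IsCoprime (Q * s) κu := cx0 hcQ
    have cb : IsCoprime b' κu := by
      refine cx0 (IsCoprime.of_isCoprime_of_dvd_right hcR (hbm.trans hmmR))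
    have c3 : IsCoprime (3 * sq3 : Eis) κu := by
      have h3 := isCoprime_sq3 hκup
      have h4 : (3 : Eis) = -(sq3 ^ 2) := by rw [sq3_sq]; ring
      rw [h4]
      exact (h3.pow_left.neg_left).mul_left h3
    have cX : IsCoprime (E * X) κu := by
      rw [hX]
      exact cE.mul_left (((c3.mul_left cQs).pow_left).mul_left cb)
    have hX0 : E * X ≠ 0 := by
      have h30 : (3 * sq3 : Eis) ≠ 0 := by
        intro h
        rw [h] at c3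
        have h5 := three_sq3
        rw [h] at h5
        have h6 := congrArg nm h5
        revert h6
        decide
      rw [hX]
      exact mul_ne_zero hEp.ne_zero (mul_ne_zero (pow_ne_zero _ (mul_ne_zero h30
        (mul_ne_zero hQ hs.ne_zero))) hb'.ne_zero)
    -- the sizes
    set Z' : ℝ := 729 * Z ^ 10 * L with hZ'
    have hZp : ∀ k : ℕ, k ≤ 10 → Z ^ k ≤ Z ^ 10 := fun k hk => pow_le_pow_right₀ hZ hk
    have hZ'k : ∀ k : ℕ, k ≤ 10 → Z ^ k ≤ Z' := by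
      intro k hk
      have h3 := hZp k hk
      have h4 : 0 ≤ Z ^ 10 := by positivity
      rw [hZ']; nlinarith
    have hZ'1 : 1 ≤ Z' := by simpa using hZ'k 0 (by norm_num)
    have hZZ' : Z ≤ Z' := by simpa using hZ'k 1 (by norm_num)
    have hκuZ : (nm κu : ℝ) ≤ Z ^ 2 := by
      have h3' : κu ∣ a * D := by rw [← hκE, e2]; exact dvd_mul_right _ _
      have h3 : (nm κu : ℝ) ≤ nm (a * D) := by
        exact_mod_cast Div277.nm_le_of_dvd (mul_ne_zero ha.ne_zero hD.ne_zero) h3'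
      rw [nm_mul] at h3; push_cast at h3
      calc (nm κu : ℝ) ≤ nm a * nm D := h3
        _ ≤ Z * Z := by gcongr
        _ = Z ^ 2 := by ring
    have huZ : (nm u : ℝ) ≤ Z ^ 2 := by
      have h3' : u ∣ a * D := by rw [← hκE, e2]; exact ⟨κu * E, by ring⟩
      have h3 : (nm u : ℝ) ≤ nm (a * D) := by
        exact_mod_cast Div277.nm_le_of_dvd (mul_ne_zero ha.ne_zero hD.ne_zero) h3'
      rw [nm_mul] at h3; push_cast at h3
      calc (nm u : ℝ) ≤ nm a * nm D := h3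
        _ ≤ Z * Z := by gcongr
        _ = Z ^ 2 := by ring
    have hF'Z : (nm F' : ℝ) ≤ Z ^ 4 := by
      rw [hF', nm_mul, nm_mul]; push_cast
      calc (nm F : ℝ) * (nm E * nm u) ≤ Z * (Z * Z ^ 2) := by gcongr
        _ = Z ^ 4 := by ring
    have hx0Z : (nm x0 : ℝ) ≤ Z ^ 3 := by
      rw [hx0, nm_mul, nm_mul]; push_cast
      calc (nm a : ℝ) * nm D * nm F ≤ Z * Z * Z := by gcongr
        _ = Z ^ 3 := by ring
    have hr0 : r ≠ 0 := mul_ne_zero (mul_ne_zero hR ha.ne_zero) hx0p.ne_zero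
    have hrZ : (nm r : ℝ) ≤ Z' := by
      rw [hr, nm_mul, nm_mul]; push_cast
      calc (nm R : ℝ) * nm a * nm x0 ≤ Z * Z * Z ^ 3 := by gcongr
        _ = Z ^ 5 := by ring
        _ ≤ Z' := hZ'k 5 (by norm_num)
    have hqZ : (nm (E * X) : ℝ) ≤ Z' := by
      have h3 : (nm (E * X) : ℝ) = nm E * (729 * (nm Q : ℝ) ^ 2 * (nm s : ℝ) ^ 2) * nm b' := by
        have h4 : nm (3 * sq3 : Eis) ^ 2 = 729 := by
          have h5 := congrArg nm three_sq3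
          rw [nm_pow, nm_pow] at h5
          rw [h5]
          have : nm (-3 : Eis) = 9 := by decide
          rw [this]; norm_num
        rw [hX, nm_mul, nm_mul, mul_pow, nm_mul, nm_pow, h4, nm_pow, nm_mul]
        push_cast; ring
      rw [h3]
      calc (nm E : ℝ) * (729 * (nm Q : ℝ) ^ 2 * (nm s : ℝ) ^ 2) * nm b'
          ≤ Z * (729 * Z ^ 2 * Z ^ 2) * Z := by gcongr
        _ = 729 * Z ^ 6 * 1 := by ring
        _ ≤ Z' := by
            rw [hZ']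
            have := hZp 6 (by norm_num)
            gcongr
    set L' : ℝ := L / nm u with hL'
    have hL'0 : 0 < L' := by positivity
    have hL'L : L' ≤ L := div_le_self hL0.le nu
    set L0' : ℝ := L' * (nm E * q0 * (nm s : ℝ) ^ 2 * nm b') with hL0'
    have hq01 : 1 ≤ q0 := (nk_ge_one (pow_ne_zero 2 hQ)).trans hq0
    have hL0'0 : 0 < L0' := by positivity
    have hL0'Z : L0' ≤ Z' := by
      calc L0' ≤ L * (Z * Z ^ 2 * Z ^ 2 * Z) := by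
            rw [hL0']; gcongr
        _ = 1 * Z ^ 6 * L := by ring
        _ ≤ Z' := by
            rw [hZ']
            have := hZp 6 (by norm_num)
            gcongr
            norm_num
    set Lt' : ℝ := Lt₀ / (27 * nm E * nm u) with hLt'
    have hLt'0 : 0 < Lt' := by positivity
    have hLt'L : Lt' ≤ Lt₀ := by
      refine div_le_self hLt0p.le ?_
      have : 1 ≤ (nm E : ℝ) * nm u := one_le_mul_of_one_le_of_one_le nE nu
      nlinarith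
    have hLt'Z : Lt' ≤ Z' := by linarith
    have hratio : L0' / Lt' = ϱ := by
      rw [hL0', hLt', hL', hϱ]
      field_simp
    have hYcZ : Yc ≤ Z' := by
      have : Yc ≤ N := div_le_self hN.le nx01
      linarith
    have hLZ' : L' ≤ Z' := by
      have h3 : 1 * L ≤ 729 * Z ^ 10 * L := by
        have h4 : 1 ≤ Z ^ 10 := one_le_pow₀ hZ
        gcongr
        linarith
      rw [hZ']; linarith
    have hNκ : Nb * nm κu ≤ Z' := by
      calc Nb * nm κu ≤ Z * Z ^ 2 := by gcongr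
        _ = Z ^ 3 := by ring
        _ ≤ Z' := hZ'k 3 (by norm_num)
    have hκuZ' : (nm κu : ℝ) ≤ Z' := hκuZ.trans (hZ'k 2 (by norm_num))
    have hκs : Squarefree κu := hcs.2.1
    have hbF := FS.bF (F := F') hκup hb
    have hkk : (nm κu : ℝ) * nm E * nm u = nm a * nm D := by
      have h3 := congrArg nm hκE
      rw [e2, nm_mul, nm_mul, nm_mul] at h3
      have h4 : ((nm κu * (nm E * nm u) : ℕ) : ℝ) = ((nm a * nm D : ℕ) : ℝ) := by exact_mod_cast h3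
      push_cast at h4
      rw [← h4]; ring
    -- the structured part
    have hstr : 1 ≤ Lt' → ∃ (𝒯 : Set Tst) (Wf : ℝ → ℝ), Lt' * Real.exp Rw < Nb * nm κu ∧
        OK Z' (Nb * nm κu) κu 𝒯 ∧ Slp aS Wf ∧
        (∀ τ ∈ 𝒯, ∀ P : ℝ, 0 < P → ∑ e ∈ pdiv (ρ * (κu * F')),
          (nm e : ℝ)⁻¹ * TV τ A (bs (bF κu F' b) e) (nm e * P) ≤ Wf P) ∧
        Wf (c * Il (Nb * nm κu) Lt' Yc) ≤ W1 := by
      intro h3
      have h4 : Nb * nm κu * Lt' / Yc * (nm F' : ℝ) ^ 2 ≤ Nb / N * Lst := by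
        have h5 := nu_id hNb hN hLst (by linarith : (0 : ℝ) < nm a) (by linarith : (0 : ℝ) < nm D)
          (by linarith : (0 : ℝ) < nm F) (by linarith : (0 : ℝ) < nm E) nu0 hkk
        rw [hYc, hLt', hLt0, hF', hx0]
        simp only [nm_mul, Nat.cast_mul]
        exact h5
      obtain ⟨𝒯, Wf, w1', w2', w3', w4'⟩ := hRX κu F' hκup hF'p hsq' (by rw [e3]; exact hcR)
        hκuZ hF'Z Z' Lt' Yc hZZ' hNκ hκuZ' h3 hY h4
      refine ⟨𝒯, Wf, ?_, w1', w2', w3', w4'⟩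
      have h5 : 1 ≤ Lst := by linarith
      have h6 := hLN h5
      calc Lt' * Real.exp Rw ≤ Lst * Real.exp Rw :=
            mul_le_mul_of_nonneg_right (by linarith) (Real.exp_pos _).le
        _ < Nb := h6
        _ ≤ Nb * nm κu := le_mul_of_one_le_right hNb.le nκu
    have hstr2 : ∃ (𝒯 : Set Tst) (Wf : ℝ → ℝ), 1 ≤ Lt' → Lt' * Real.exp Rw < Nb * nm κu ∧
        OK Z' (Nb * nm κu) κu 𝒯 ∧ Slp aS Wf ∧
        (∀ τ ∈ 𝒯, ∀ P : ℝ, 0 < P → ∑ e ∈ pdiv (ρ * (κu * F')),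
          (nm e : ℝ)⁻¹ * TV τ A (bs (bF κu F' b) e) (nm e * P) ≤ Wf P) ∧
        Wf (c * Il (Nb * nm κu) Lt' Yc) ≤ W1 := by
      by_cases h3 : 1 ≤ Lt'
      · obtain ⟨𝒯, Wf, h4⟩ := hstr h3
        exact ⟨𝒯, Wf, fun _ => h4⟩
      · exact ⟨∅, fun _ => 0, fun h4 => absurd h4 h3⟩
    obtain ⟨𝒯, Wf, h𝒯⟩ := hstr2
    have hr₁ : ρ * (κu * F') ∣ r := by
      rw [hr, e3]
      exact mul_dvd_mul (hρ.trans (dvd_mul_right R a)) dvd_rfl
    have hmode := key A' hA' Z' (Nb * nm κu) Yc L' L0' Lt' hZ'1 (by positivity) hNκ hY hYcZ hL'0.le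
      hLZ' hL0'0.le hL0'Z hLt'0 hLt'Z ({()} : Finset Unit) (fun _ => bF κu F' b) (fun _ => Yc)
      (fun _ => r) (fun _ => ρ * (κu * F')) (fun _ => E * X)
      (fun _ _ => ⟨by linarith, le_rfl⟩)
      (fun _ _ n hn => bF_S hκup hκs hb hZ0.le hbS (by
        calc (nm κu : ℝ) * Z ≤ Z ^ 2 * Z := by gcongr
          _ = Z ^ 3 := by ring
          _ ≤ Z' := hZ'k 3 (by norm_num)) hn)
      (fun _ _ => bF_Win hκup hb hNb hbW) (fun _ _ => ⟨hr0, hrZ⟩) (fun _ _ => hr₁)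
      (fun _ _ => ⟨hX0, hqZ, by
        have h3 := nk_freq hEp.ne_zero hQ hs.ne_zero hb'.ne_zero
        rw [← hX] at h3
        rw [hL0']
        refine mul_le_mul_of_nonneg_left (h3.trans ?_) hL'0.le
        gcongr⟩)
      κu 𝒯 Wf W1 hW1 (fun h3 => by
        obtain ⟨g1, g2, g3, g4, g5⟩ := h𝒯 h3
        refine ⟨g1, g2, g3, fun τ hτ P hP => ?_, g5⟩
        rw [Finset.sum_singleton]
        exact g4 τ hτ P hP)
    simp only [Finset.sum_singleton] at hmode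
    -- the left side
    have hleft : ∑ x ∈ (bl L').filter (fun x => IsCoprime x κu),
        EQ A' (pS χ om r (bF κu F' b)) (x * (E * X)) ≤
        ∑ h ∈ (bl L').filter (fun h => IsCoprime (kv (kc (h * (E * X))).1) κu),
          EQ A' (fun n => χ n * uS (fun x => ((w1 (x / Yc) : ℝ) : ℂ)) r (bF κu F' b) n)
            (h * (E * X)) := by
      have e4 : ∀ x : Eis, EQ A' (fun n => χ n * uS (fun x => ((w1 (x / Yc) : ℝ) : ℂ)) r
          (bF κu F' b) n) (x * (E * X)) = EQ A' (pS χ om r (bF κu F' b)) (x * (E * X)) :=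
        fun x => rfl
      simp only [e4]
      refine Finset.sum_le_sum_of_subset_of_nonneg (fun x hx => ?_) fun _ _ _ => EQ_nonneg _ _ _
      rw [Finset.mem_filter, mem_bl hL'0.le] at hx
      rw [Finset.mem_filter, mem_bl hL'0.le]
      exact ⟨hx.1, ker_cop (mul_ne_zero hx.1.1 hX0) (hx.2.mul_left cX)⟩
    refine hleft.trans (hmode.trans ?_)
    -- the right side
    have hZ'e : Z' ^ (ε / 20) ≤ 729 ^ (ε / 20) * Z ^ (ε / 2) * L ^ ε := by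
      rw [hZ', Real.mul_rpow (by positivity) hL0.le, Real.mul_rpow (by norm_num) (by positivity)]
      have h3 : (Z ^ 10) ^ (ε / 20) = Z ^ (ε / 2) := by
        rw [← Real.rpow_natCast, ← Real.rpow_mul hZ0.le]
        congr 1; push_cast; ring
      have h4 : L ^ (ε / 20) ≤ L ^ ε := Real.rpow_le_rpow_of_exponent_le hL (by linarith)
      rw [h3]
      gcongr
    have hDT : ∀ e : ℝ, DT e (cw * Yc) (bF κu F' b) (ρ * (κu * F')) ≤ TC e (cw * N) b x0 := by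
      intro e
      have h3 : cw * Yc = cw * N / nm x0 := by rw [hYc]; ring
      rw [h3]
      exact DT_le hκup hF'p hb ρ e3 e (cw * N)
    have hW' : 1 ≤ Lt' → nfo Lt' (Il (Nb * nm κu) Lt' Yc) * W1 ≤ W := by
      intro _
      rw [hW]
      refine mul_le_mul_of_nonneg_right ?_ hW1
      have h5 := nfo_le hNb hN hLst (by linarith : (0 : ℝ) < nm a) (by linarith : (0 : ℝ) < nm D)
          (by linarith : (0 : ℝ) < nm F) (by linarith : (0 : ℝ) < nm E) nu0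
          (by linarith : (0 : ℝ) < nm κu) hkk
      unfold Il
      rw [hYc, hLt', hLt0, hx0]
      simp only [nm_mul, Nat.cast_mul]
      exact h5
    have hnf0 : 0 ≤ nfo Lt' (Il (Nb * nm κu) Lt' Yc) := by
      unfold nfo Il; positivity
    have hcomp := CBx_ge (L := L) (L' := L') (ϱ := ϱ) (Yc := Yc) (Lt₀ := Lt₀) (Lt' := Lt')
      (L0' := L0') (T1 := T1) (T1' := DT 1 (cw * Yc) (bF κu F' b) (ρ * (κu * F'))) (T2 := T2)
      (T2' := DT (1 / 2) (cw * Yc) (bF κu F' b) (ρ * (κu * F'))) (W := W)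
      (W' := nfo Lt' (Il (Nb * nm κu) Lt' Yc) * W1)
      (S1 := ∑ n ∈ (S (cw * Yc)).filter (fun n => IsCoprime n r), ‖CS (bF κu F' b) n‖ ^ 2)
      hL'0.le hL'L hϱ0 hYc0.le hLt'0 hLt'L hratio (DT_nonneg _ _ _ _) (hDT 1)
      (Finset.sum_nonneg fun _ _ => by positivity)
      ((S_le_DT (by positivity) _ hr₁).trans (hDT 1)) (DT_nonneg _ _ _ _) (hDT (1 / 2))
      (by positivity) hW' hW0
    have hY3 : 0 ≤ Yc ^ (-(1 : ℝ) / 3) := by positivity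
    calc _ ≤ C₁ * (729 ^ (ε / 20) * Z ^ (ε / 2) * L ^ ε) * Yc ^ (-(1 : ℝ) / 3) *
        (((L0' / Lt') ^ (1 / 3 : ℝ) * Yc + (if Lt' ≤ L0' then L' + (L' * Yc) ^ (2 / 3 : ℝ) else 0)) *
        (∑ n ∈ (S (cw * Yc)).filter (fun n => IsCoprime n r), ‖CS (bF κu F' b) n‖ ^ 2) +
        (if 1 ≤ Lt' then (L0' / Lt') ^ (1 / 3 : ℝ) *
          (Yc * (nfo Lt' (Il (Nb * nm κu) Lt' Yc) * W1) +
          ((Yc + (Lt' * Yc) ^ (2 / 3 : ℝ)) * DT 1 (cw * Yc) (bF κu F' b) (ρ * (κu * F')) +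
          Lt' * Yc ^ (1 / 2 : ℝ) * DT (1 / 2) (cw * Yc) (bF κu F' b) (ρ * (κu * F')))) else 0)) := by
          rw [mul_assoc Yc (nfo Lt' (Il (Nb * nm κu) Lt' Yc)) W1]
          refine mul_le_mul_of_nonneg_right ?_ ?_
          · exact mul_le_mul_of_nonneg_right (mul_le_mul_of_nonneg_left hZ'e hC₁) hY3
          · have i1 : 0 ≤ DT 1 (cw * Yc) (bF κu F' b) (ρ * (κu * F')) := DT_nonneg _ _ _ _
            have i2 : 0 ≤ DT (1 / 2) (cw * Yc) (bF κu F' b) (ρ * (κu * F')) := DT_nonneg _ _ _ _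
            have i3 : 0 ≤ ∑ n ∈ (S (cw * Yc)).filter (fun n => IsCoprime n r),
              ‖CS (bF κu F' b) n‖ ^ 2 := Finset.sum_nonneg fun _ _ => by positivity
            split_ifs <;> positivity
      _ ≤ _ := mul_le_mul_of_nonneg_left hcomp (by positivity)
  -- the sum over the divisors
  have hcard : ((pdiv κ).card : ℝ) ≤ Ct * Z ^ (ε / 2) := by
    rw [← dvs_eq_pdiv hκ.ne_zero]
    refine (hτ κ hκ.ne_zero).trans (mul_le_mul_of_nonneg_left ?_ (by linarith))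
    have h3 : (nm κ : ℝ) ≤ Z ^ 2 := by
      have h3' : κ ∣ a * D := ⟨E, hκE.symm⟩
      have h4 : (nm κ : ℝ) ≤ nm (a * D) := by
        exact_mod_cast Div277.nm_le_of_dvd (mul_ne_zero ha.ne_zero hD.ne_zero) h3'
      have h5 : (nm (a * D) : ℝ) = nm a * nm D := by rw [nm_mul a D]; push_cast; ring
      calc (nm κ : ℝ) ≤ nm a * nm D := h4.trans h5.le
        _ ≤ Z * Z := by gcongr
        _ = Z ^ 2 := by ring
    calc (nm κ : ℝ) ^ (ε / 4) ≤ (Z ^ 2) ^ (ε / 4) :=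
          Real.rpow_le_rpow (Nat.cast_nonneg _) h3 (by positivity)
      _ = Z ^ (ε / 2) := by
          rw [← Real.rpow_natCast, ← Real.rpow_mul hZ0.le]
          congr 1; push_cast; ring
  have hterm0 : 0 ≤ C₁ * (729 ^ (ε / 20) * Z ^ (ε / 2) * L ^ ε) * Yc ^ (-(1 : ℝ) / 3) *
      CBx L ϱ Yc Lt₀ T1 T2 W := by positivity
  calc _ ≤ ∑ u ∈ pdiv κ, C₁ * (729 ^ (ε / 20) * Z ^ (ε / 2) * L ^ ε) * Yc ^ (-(1 : ℝ) / 3) *
      CBx L ϱ Yc Lt₀ T1 T2 W := Finset.sum_le_sum hu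
    _ = ((pdiv κ).card : ℝ) * (C₁ * (729 ^ (ε / 20) * Z ^ (ε / 2) * L ^ ε) *
      Yc ^ (-(1 : ℝ) / 3) * CBx L ϱ Yc Lt₀ T1 T2 W) := by
        rw [Finset.sum_const, nsmul_eq_mul]
    _ ≤ (Ct * Z ^ (ε / 2)) * (C₁ * (729 ^ (ε / 20) * Z ^ (ε / 2) * L ^ ε) *
      Yc ^ (-(1 : ℝ) / 3) * CBx L ϱ Yc Lt₀ T1 T2 W) :=
        mul_le_mul_of_nonneg_right hcard hterm0
    _ = _ := by
        have h3 : Z ^ ε = Z ^ (ε / 2) * Z ^ (ε / 2) := by
          rw [← Real.rpow_add hZ0]; congr 1; ring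
        rw [h3]; ring

end Crest.Agent.R017.E3q681
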