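import Crest.Agent.R017.PoH9_347

/-!
# Row 17, block C70, leaf E3 (HB form of the MODE lemma), part 10 (helper347)

`RG_fam` : the regularised mean squares of a family, merged; `fam_block` : one block of the family.
-/

set_option autoImplicit false

noncomputable section

open Complex MeasureTheory
open scoped ComplexConjugate Classical

namespace Crest.Agent.R017.PoH347

open Crest.Agent.R012 Crest.Agent.R012.Eis Crest.Agent.R012.MC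
open Crest.Agent.R012.LS2 (S mem_S bl mem_bl)
open Crest.Agent.R012.Mob705 (mu pdiv mem_pdiv)
open Crest.Agent.R012.NonCube52 (Ker kv Good)
open Crest.Agent.R017.E1551 (nmpos jb jb_pos nm_ge_one)
open Crest.Agent.R017.BD829
open Crest.Agent.R017.Mode405 (Slp nf Il VI)

/-- the `l` of one block -/
def T3 (lam₀ : ℝ) (g : Eis) (j : ℕ) : Finset Eis :=
  (S lam₀).filter fun l => Squarefree (g * l) ∧ Nat.log 2 (nm l) = j

lemma nm_F0_le {κ : Ker} (hκ : κ.1.2 < 3) (e : Eis) :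
    2 * (nm (su κ * (e * ((9 * su κ) * sq3)) ^ 2) : ℝ) ≤ 86093442 * (nm e : ℝ) ^ 2 := by
  have h1 := nm_su_le hκ
  have h2 := nm_M_le hκ
  have e1 : (nm (su κ * (e * ((9 * su κ) * sq3)) ^ 2) : ℝ) =
      nm (su κ) * (nm e : ℝ) ^ 2 * (nm (9 * su κ) : ℝ) ^ 2 * 9 := by
    have h3 : nm sq3 = 3 := by decide
    rw [nm_mul, nm_pow, nm_mul, nm_mul (9 * su κ), h3]
    push_cast
    ring
  rw [e1]
  have h3 : (nm (9 * su κ) : ℝ) ^ 2 ≤ 729 ^ 2 := pow_le_pow_left₀ (Nat.cast_nonneg _) h2 2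
  calc 2 * (nm (su κ) * (nm e : ℝ) ^ 2 * (nm (9 * su κ) : ℝ) ^ 2 * 9)
      ≤ 2 * (9 * (nm e : ℝ) ^ 2 * 729 ^ 2 * 9) := by gcongr
    _ = _ := by ring

set_option maxHeartbeats 2000000 in
/-- the family of mean squares, merged -/
theorem RG_fam {A a : ℕ} (hA : 1 < A) {ε : ℝ} (hε0 : 0 < ε) (hε : ε ≤ 1) :
    ∃ C : ℝ, 0 < C ∧ ∀ Z : ℝ, 1 ≤ Z → ∀ (Q : Finset Eis) (b : Eis → Eis → ℂ),
      (∀ q ∈ Q, ∀ n, b q n ≠ 0 → n ∈ S Z) → ∀ W : ℝ → ℝ, Slp a W →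
      (∀ g f π : Eis, IsPrim g → IsPrim f → IsPrim π → ∀ P : ℝ, 1 ≤ P →
        (nm g : ℝ) * nm f * ∑ q ∈ Q, VI A (b q) (g * f) f π P ≤ W P) →
      ∀ (κ : Ker), κ.1.2 < 3 → ∀ lam₀ : ℝ, 0 ≤ lam₀ → lam₀ ≤ Z →
      ∀ (g : Eis), IsPrim g → ∀ (j3 : ℕ), ∀ d ∈ S lam₀, ∀ e ∈ pdiv d, ∀ f ∈ S lam₀,
      ∀ Λ : ℝ, 1 ≤ Λ →
      ∑ i ∈ (Q ×ˢ T3 lam₀ g j3).filter (fun i => IsCoprime (d * f) i.2),
        RG A (a + 3) (rs (bg (b i.1) g i.2) (ps κ) d f) ((e * ((9 * su κ) * sq3)) ^ 2 * f) Λ ≤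
      C * (Λ * (2 * 2 ^ j3)) ^ ε * (W (86093442 * Λ * 2 ^ j3 * (nm e : ℝ) ^ 2) /
        (nm g * nm d * nm f)) := by
  have hA' : (1 : ℝ) < (A : ℝ) := by exact_mod_cast hA
  obtain ⟨C, hC1, hC⟩ := Div277.tau_le_rpow hε0
  have hC0 : 0 < C := by linarith
  refine ⟨2 * C, by positivity, ?_⟩
  intro Z hZ Q b hb W hW hVI κ hκ lam₀ hlam0 hlamZ g hg j3 d hd e he f hf Λ hΛ
  have hZ0 : 0 ≤ Z := by linarith
  have hd' := (mem_S hlam0).1 hd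
  have hf' := (mem_S hlam0).1 hf
  have he' := (mem_pdiv hd'.2.1.ne_zero).mp he
  have ng := nmpos hg.ne_zero
  have nd := nmpos hd'.2.1.ne_zero
  have nf' := nmpos hf'.2.1.ne_zero
  have ne := nmpos he'.1.ne_zero
  have hΛ0 : 0 < Λ := by linarith
  set F0 : Eis := (e * ((9 * su κ) * sq3)) ^ 2 with hF0
  have hF0n : F0 ≠ 0 := by
    rw [hF0]
    exact pow_ne_zero _ (mul_ne_zero he'.1.ne_zero (mul_ne_zero (LC_ps κ).ne sq3_ne_zero))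
  set Wc : ℝ := W (86093442 * Λ * 2 ^ j3 * (nm e : ℝ) ^ 2) with hWc
  have hWc0 : 0 ≤ Wc := hW.nonneg _ (by positivity)
  set V : ℝ := (Λ * (2 * 2 ^ j3)) ^ ε with hV
  have hV0 : 0 ≤ V := by positivity
  have hY1 : (1 : ℝ) ≤ Z ^ 2 := one_le_pow₀ hZ
  -- the supports
  have hsup : ∀ i ∈ (Q ×ˢ T3 lam₀ g j3).filter (fun i => IsCoprime (d * f) i.2),
      ∀ n, rs (bg (b i.1) g i.2) (ps κ) d f n ≠ 0 → n ∈ S (Z ^ 2) := by
    rintro ⟨q, l⟩ hi n hn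
    obtain ⟨hi1, -⟩ := Finset.mem_filter.mp hi
    obtain ⟨hq, hl⟩ := Finset.mem_product.mp hi1
    obtain ⟨hl1, hl2, -⟩ := Finset.mem_filter.mp hl
    have hl' := (mem_S hlam0).1 hl1
    refine rs_supp (by positivity) (u := bg (b q) g l) (fun m hm => ?_) (ps κ) hd'.2.1 hf'.2.1 n hn
    obtain ⟨k, rfl, hc, hk⟩ := exists_of_bg hl'.2.1.ne_zero hm
    have h1 := (mem_S hZ0).1 (hb q hq _ hk)
    have hkp : IsPrim k := h1.2.1.of_mul_left hg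
    rw [mem_S (by positivity)]
    refine ⟨?_, hl'.2.1.mul hkp, squarefree_mul_iff.mpr
      ⟨(hc.of_mul_right_right).symm.isRelPrime, hl'.2.2, h1.2.2.of_mul_right⟩⟩
    rw [nm_mul]
    push_cast
    have h2 : (nm k : ℝ) ≤ Z := by
      refine le_trans ?_ h1.1
      rw [nm_mul]
      push_cast
      exact le_mul_of_one_le_left (Nat.cast_nonneg _) (nm_ge_one hg.ne_zero)
    calc (nm l : ℝ) * nm k ≤ Z * Z := mul_le_mul (hl'.1.trans hlamZ) h2 (Nat.cast_nonneg _) hZ0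
      _ = Z ^ 2 := by ring
  have hbound : ∀ j : ℕ, ∑ i ∈ (Q ×ˢ T3 lam₀ g j3).filter (fun i => IsCoprime (d * f) i.2),
      EB A (rs (bg (b i.1) g i.2) (ps κ) d f) (F0 * f) (2 ^ j * Λ) ≤
      (C * V * (Wc / (nm g * nm d * nm f))) * (2 ^ (a + 1)) ^ j := by
    intro j
    have h2j : (1 : ℝ) ≤ 2 ^ j := one_le_pow₀ (by norm_num)
    set τ : ℝ := C * (2 ^ j * V) with hτ
    have hτ0 : 0 ≤ τ := by positivity
    -- reorganise
    have e1 : ∑ i ∈ (Q ×ˢ T3 lam₀ g j3).filter (fun i => IsCoprime (d * f) i.2),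
        EB A (rs (bg (b i.1) g i.2) (ps κ) d f) (F0 * f) (2 ^ j * Λ) =
        ∑ q ∈ Q, ∑ l ∈ (T3 lam₀ g j3).filter (fun l => IsCoprime (d * f) l),
          EB A (rs (bg (b q) g l) (ps κ) d f) (F0 * f) (2 ^ j * Λ) := by
      rw [Finset.sum_filter, Finset.sum_product]
      refine Finset.sum_congr rfl fun q _ => ?_
      rw [Finset.sum_filter]
    rw [e1]
    have h1 : ∀ q ∈ Q, ∑ l ∈ (T3 lam₀ g j3).filter (fun l => IsCoprime (d * f) l),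
        EB A (rs (bg (b q) g l) (ps κ) d f) (F0 * f) (2 ^ j * Λ) ≤
        τ * VI A (b q) (g * d * f) f 1 (2 ^ j * (86093442 * Λ * 2 ^ j3 * (nm e : ℝ) ^ 2)) := by
      intro q hq
      refine sum_EB_bg hA' hZ0 (hb q hq) hg hd'.2.1 hf'.2.1 κ hF0n
        (Z := 2 ^ j * Λ) (L := 2 * 2 ^ j3) (by positivity) (by positivity) hτ0 (fun l hl => ?_)
        (fun x hx => ?_) ?_
      · obtain ⟨hl1, hl2⟩ := Finset.mem_filter.mp hl
        obtain ⟨hl3, -, hl4⟩ := Finset.mem_filter.mp hl1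
        have hl' := (mem_S hlam0).1 hl3
        exact ⟨hl'.2.1, (pow_log_le (nm_pos.mpr hl'.2.1.ne_zero).ne' hl4).2, hl2⟩
      · have hx' := (mem_bl (by positivity)).1 hx
        refine (hC x hx'.1).trans ?_
        rw [hτ]
        refine mul_le_mul_of_nonneg_left ?_ hC0.le
        calc (nm x : ℝ) ^ ε ≤ (2 ^ j * Λ * (2 * 2 ^ j3)) ^ ε :=
              Real.rpow_le_rpow (Nat.cast_nonneg _) hx'.2 hε0.le
          _ = (2 ^ j : ℝ) ^ ε * V := by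
              rw [mul_assoc, Real.mul_rpow (by positivity) (by positivity)]
          _ ≤ 2 ^ j * V := by
              refine mul_le_mul_of_nonneg_right ?_ hV0
              calc (2 ^ j : ℝ) ^ ε ≤ (2 ^ j : ℝ) ^ (1 : ℝ) :=
                    Real.rpow_le_rpow_of_exponent_le h2j hε
                _ = 2 ^ j := Real.rpow_one _
      · have h2 := nm_F0_le hκ e
        calc 2 ^ j * Λ * (2 * 2 ^ j3) * (nm (su κ * F0) : ℝ)
            = 2 ^ j * Λ * 2 ^ j3 * (2 * (nm (su κ * F0) : ℝ)) := by ring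
          _ ≤ 2 ^ j * Λ * 2 ^ j3 * (86093442 * (nm e : ℝ) ^ 2) :=
              mul_le_mul_of_nonneg_left h2 (by positivity)
          _ = _ := by ring
    refine (Finset.sum_le_sum h1).trans ?_
    rw [← Finset.mul_sum]
    have hP1 : (1 : ℝ) ≤ 2 ^ j * (86093442 * Λ * 2 ^ j3 * (nm e : ℝ) ^ 2) := by
      have h3 : (1 : ℝ) ≤ 2 ^ j3 := one_le_pow₀ (by norm_num)
      have h4 : (1 : ℝ) ≤ (nm e : ℝ) ^ 2 := one_le_pow₀ (nm_ge_one he'.1.ne_zero)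
      have h5 : (1 : ℝ) ≤ 86093442 * Λ := by linarith
      exact one_le_mul_of_one_le_of_one_le h2j (one_le_mul_of_one_le_of_one_le
        (one_le_mul_of_one_le_of_one_le h5 h3) h4)
    have h2 := hVI (g * d) f 1 (hg.mul hd'.2.1) hf'.2.1 isPrim_one _ hP1
    have h3 := slp_dbl_pow hW (P := 86093442 * Λ * 2 ^ j3 * (nm e : ℝ) ^ 2) (by positivity) j
    have h4 : ∑ q ∈ Q, VI A (b q) (g * d * f) f 1
        (2 ^ j * (86093442 * Λ * 2 ^ j3 * (nm e : ℝ) ^ 2)) ≤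
        (2 ^ a) ^ j * (Wc / (nm g * nm d * nm f)) := by
      rw [← mul_div_assoc, le_div_iff₀ (by positivity), mul_comm]
      rw [nm_mul] at h2
      push_cast at h2
      exact h2.trans h3
    calc τ * ∑ q ∈ Q, VI A (b q) (g * d * f) f 1
          (2 ^ j * (86093442 * Λ * 2 ^ j3 * (nm e : ℝ) ^ 2))
        ≤ τ * ((2 ^ a) ^ j * (Wc / (nm g * nm d * nm f))) := mul_le_mul_of_nonneg_left h4 hτ0
      _ = (C * V * (Wc / (nm g * nm d * nm f))) * (2 ^ (a + 1)) ^ j := by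
          rw [hτ, pow_succ, mul_pow]; ring
  have hfin := RG_sum_le hA' hY1 ((Q ×ˢ T3 lam₀ g j3).filter (fun i => IsCoprime (d * f) i.2))
    (u := fun i => rs (bg (b i.1) g i.2) (ps κ) d f) hsup (F0 * f) hΛ hbound
  refine hfin.trans (le_of_eq ?_)
  ring

/-- harmonic sums -/
lemma harm {ε : ℝ} (hε : 0 < ε) : ∃ C : ℝ, 0 < C ∧ ∀ Y Z : ℝ, 1 ≤ Y → Y ≤ Z →
    ∑ n ∈ S Y, (1 / (nm n : ℝ)) ≤ C * Z ^ ε := by
  refine ⟨100 * (1 + 1 / ε), by positivity, fun Y Z hY hYZ => ?_⟩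
  have hZ1 : 1 ≤ Z := hY.trans hYZ
  have h1 := E1551.sum_inv_S551 hY
  have h2 : Real.log Y ≤ Real.log Z := Real.log_le_log (by linarith) hYZ
  have h3 := Real.log_le_rpow_div (x := Z) (by linarith) hε
  have h4 : 1 ≤ Z ^ ε := Real.one_le_rpow hZ1 hε.le
  calc ∑ n ∈ S Y, (1 / (nm n : ℝ)) ≤ 100 * (1 + Real.log Y) := h1
    _ ≤ 100 * (Z ^ ε + Z ^ ε / ε) := by linarith
    _ = _ := by ring

/-- the arithmetic of one term -/
lemma term_arith {pre Sg Cr V Wc g d f P0 nr mn T c : ℝ} (hpre0 : 0 ≤ pre)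
    (h1 : Sg ≤ Cr * V * (Wc / (g * d * f))) (hpre : pre = P0 * nr * mn)
    (hg : 0 < g) (hd : 0 < d) (hf : 0 < f) (hCr : 0 ≤ Cr) {V' : ℝ} (hV : V ≤ V')
    (hblock : P0 * nr * (mn * Wc) ≤ c * T)
    (hb0 : 0 ≤ P0 * nr * (mn * Wc)) (hV0 : 0 ≤ V') :
    pre * Sg ≤ Cr * V' * c * (1 / g * T) * (1 / d * (1 / f)) := by
  have e1 : pre * (Cr * V * (Wc / (g * d * f))) =
      Cr * V * (1 / g * (1 / d * (1 / f))) * (P0 * nr * (mn * Wc)) := by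
    rw [hpre]
    field_simp
  have h2 : Cr * V * (1 / g * (1 / d * (1 / f))) ≤ Cr * V' * (1 / g * (1 / d * (1 / f))) :=
    mul_le_mul_of_nonneg_right (mul_le_mul_of_nonneg_left hV hCr) (by positivity)
  calc pre * Sg ≤ pre * (Cr * V * (Wc / (g * d * f))) := mul_le_mul_of_nonneg_left h1 hpre0
    _ = Cr * V * (1 / g * (1 / d * (1 / f))) * (P0 * nr * (mn * Wc)) := e1
    _ ≤ Cr * V' * (1 / g * (1 / d * (1 / f))) * (P0 * nr * (mn * Wc)) :=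
        mul_le_mul_of_nonneg_right h2 hb0
    _ ≤ Cr * V' * (1 / g * (1 / d * (1 / f))) * (c * T) :=
        mul_le_mul_of_nonneg_left hblock (by positivity)
    _ = _ := by ring

/-- the size of the scale -/
lemma V_le {N X Z : ℝ} (hN : 0 < N) (hNZ : N ≤ Z) (hX : 0 < X) (hXZ : 1 ≤ X * Z) (hZ : 1 ≤ Z)
    {j1 j3 : ℕ} (hprod : (2 : ℝ) ^ j3 * 2 ^ j1 ≤ Z) {d e : Eis} (hd : 1 ≤ (nm d : ℝ))
    (he : 1 ≤ (nm e : ℝ)) (hed : (nm e : ℝ) ≤ nm d) {ε : ℝ} (hε0 : 0 < ε) (hε : ε ≤ 1) :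
    (max 1 (lmp N X j1 j3 d e) * (2 * 2 ^ j3)) ^ ε ≤ 34992 * Z ^ (4 * ε) := by
  have hZ0 : 0 < Z := by linarith
  have hj3Z : (2 : ℝ) ^ j3 ≤ Z :=
    (le_mul_of_one_le_right (by positivity) (one_le_pow₀ (by norm_num))).trans hprod
  have h2 : lmp N X j1 j3 d e ≤ 17496 * Z ^ 3 := by
    unfold lmp
    rw [div_le_iff₀ (by positivity)]
    have h3 : (nm e : ℝ) ≤ (nm d : ℝ) ^ 2 := by nlinarith
    have h4 : N * 2 ^ j3 * 2 ^ j1 ≤ Z * Z := by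
      rw [mul_assoc]
      exact mul_le_mul hNZ hprod (by positivity) hZ0.le
    calc 17496 * (nm e : ℝ) * (N * 2 ^ j3 * 2 ^ j1)
        ≤ 17496 * (nm d : ℝ) ^ 2 * (Z * Z) := by gcongr
      _ ≤ 17496 * (nm d : ℝ) ^ 2 * (Z * Z) * (X * Z) :=
          le_mul_of_one_le_right (by positivity) hXZ
      _ = 17496 * Z ^ 3 * (X * (nm d : ℝ) ^ 2) := by ring
  have h5 : max 1 (lmp N X j1 j3 d e) ≤ 17496 * Z ^ 3 := by
    refine max_le ?_ h2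
    have : (1 : ℝ) ≤ Z ^ 3 := one_le_pow₀ hZ
    linarith
  have h6 : max 1 (lmp N X j1 j3 d e) * (2 * 2 ^ j3) ≤ 34992 * Z ^ 4 := by
    calc max 1 (lmp N X j1 j3 d e) * (2 * 2 ^ j3) ≤ (17496 * Z ^ 3) * (2 * Z) := by gcongr
      _ = _ := by ring
  calc (max 1 (lmp N X j1 j3 d e) * (2 * 2 ^ j3)) ^ ε ≤ (34992 * Z ^ 4) ^ ε :=
        Real.rpow_le_rpow (by positivity) h6 hε0.le
    _ = 34992 ^ ε * Z ^ (4 * ε) := by
        rw [Real.mul_rpow (by norm_num) (by positivity), ← Real.rpow_natCast Z 4,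
          ← Real.rpow_mul hZ0.le]
        norm_num
    _ ≤ 34992 * Z ^ (4 * ε) := by
        refine mul_le_mul_of_nonneg_right ?_ (by positivity)
        calc (34992 : ℝ) ^ ε ≤ 34992 ^ (1 : ℝ) :=
              Real.rpow_le_rpow_of_exponent_le (by norm_num) hε
          _ = 34992 := Real.rpow_one _

/-- **one term of the family** -/
theorem fam_one {A a : ℕ} (hA : 1 < A) {ε : ℝ} (hε0 : 0 < ε) (hε : ε ≤ 1) :
    ∃ C : ℝ, 0 < C ∧ ∀ Z N X lam₀ : ℝ, 1 ≤ Z → 0 < N → N ≤ Z → 0 < X → 1 ≤ X * Z →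
      1 ≤ lam₀ → lam₀ ≤ Z →
      ∀ (Q : Finset Eis) (b : Eis → Eis → ℂ),
      (∀ q ∈ Q, ∀ n, b q n ≠ 0 → n ∈ S Z) →
      ∀ W : ℝ → ℝ, Slp a W →
      (∀ g f π : Eis, IsPrim g → IsPrim f → IsPrim π → ∀ P : ℝ, 1 ≤ P →
        (nm g : ℝ) * nm f * ∑ q ∈ Q, VI A (b q) (g * f) f π P ≤ W P) →
      ∀ W1 : ℝ, 0 ≤ W1 → (∀ E : ℝ, 1 ≤ E → E ≤ lam₀ →
        W (8 * 86093442 * 17496 * Il N lam₀ X * E) ≤ E * W1) →
      ∀ (κ : Ker), κ.1.2 < 3 → ∀ g : Eis, IsPrim g → ∀ j1 j3 : ℕ,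
      (2 : ℝ) ^ j1 * (nm g * 2 ^ j3) ^ 2 ≤ lam₀ → (2 : ℝ) ^ j3 * 2 ^ j1 ≤ Z →
      ∀ d ∈ S lam₀, ∀ e ∈ pdiv d, ∀ f ∈ S lam₀,
      ∑ q ∈ Q, ∑ l ∈ T3 lam₀ g j3, (if IsCoprime (d * f) l then
        Tm A (a + 4) (a + 3) N X j1 j3 κ (b q) g l d e f else 0) ≤
      C * Z ^ (4 * ε) * (1 / nm g * (X * nf lam₀ (Il N lam₀ X) * W1)) *
        (1 / nm d * (1 / nm f)) := by
  obtain ⟨Cr, hCr, hRG⟩ := RG_fam (A := A) (a := a) hA hε0 hε
  refine ⟨Cr * 34992 * (2 ^ (a + 1) * 17496), by positivity, ?_⟩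
  intro Z N X lam₀ hZ hN hNZ hX hXZ hlam1 hlamZ Q b hb W hW hVI W1
    hW1 hWW κ hp g hg j1 j3 hl hprod d hd e he f hf
  have hZ0 : 0 < Z := by linarith
  have hlam0 : 0 ≤ lam₀ := by linarith
  have ng := nmpos hg.ne_zero
  have ng1 := nm_ge_one hg.ne_zero
  have h2j1 : (1 : ℝ) ≤ 2 ^ j1 := one_le_pow₀ (by norm_num)
  have h2j3 : (1 : ℝ) ≤ 2 ^ j3 := one_le_pow₀ (by norm_num)
  have hd' := (mem_S hlam0).1 hd
  have hf' := (mem_S hlam0).1 hf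
  have he' := (mem_pdiv hd'.2.1.ne_zero).mp he
  have nd := nmpos hd'.2.1.ne_zero
  have nf' := nmpos hf'.2.1.ne_zero
  have ne := nmpos he'.1.ne_zero
  have nd1 := nm_ge_one hd'.2.1.ne_zero
  have nf1 := nm_ge_one hf'.2.1.ne_zero
  have ne1 := nm_ge_one he'.1.ne_zero
  have hed : (nm e : ℝ) ≤ nm d := by
    exact_mod_cast Div277.nm_le_of_dvd hd'.2.1.ne_zero he'.2
  have hlp := lmp_pos hN hX j1 j3 hd'.2.1.ne_zero he'.1.ne_zero
  have hΛ1 : 1 ≤ max 1 (lmp N X j1 j3 d e) := le_max_left _ _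
  have hΛ0 : 0 < max 1 (lmp N X j1 j3 d e) := by linarith
  have hnr0 : 0 ≤ nrm (nm g * 2 ^ j1 / (nm d * nm f)) (max 1 (lmp N X j1 j3 d e)) :=
    nrm_nonneg (by positivity) hΛ0.le
  have hmin0 : 0 < min 1 (lmp N X j1 j3 d e) := lt_min one_pos hlp
  have e1 : ∑ q ∈ Q, ∑ l ∈ T3 lam₀ g j3, (if IsCoprime (d * f) l then
      Tm A (a + 4) (a + 3) N X j1 j3 κ (b q) g l d e f else 0) =
      (X ^ 2 / (N * 2 ^ j3 * 2 ^ j1) * (nm d / nm e : ℝ) ^ 2 *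
      nrm (nm g * 2 ^ j1 / (nm d * nm f)) (max 1 (lmp N X j1 j3 d e)) *
      (min 1 (lmp N X j1 j3 d e)) ^ (a + 4)) *
        ∑ i ∈ (Q ×ˢ T3 lam₀ g j3).filter (fun i => IsCoprime (d * f) i.2),
        RG A (a + 3) (rs (bg (b i.1) g i.2) (ps κ) d f) ((e * ((9 * su κ) * sq3)) ^ 2 * f)
          (max 1 (lmp N X j1 j3 d e)) := by
    rw [Finset.sum_filter, Finset.sum_product, Finset.mul_sum]
    refine Finset.sum_congr rfl fun q _ => ?_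
    rw [Finset.mul_sum]
    refine Finset.sum_congr rfl fun l _ => ?_
    split_ifs
    · unfold Tm
      ring
    · rw [mul_zero]
  rw [e1]
  have h1 := hRG Z hZ Q b hb W hW hVI κ hp lam₀ hlam0 hlamZ g hg j3 d hd e he f hf _ hΛ1
  have hblock := block_bound (B := a + 4) (by omega) hW (c1 := 86093442) (c2 := 17496)
    (X := X) (N := N) (lam := lam₀) (L1 := 2 ^ j1) (L3 := 2 ^ j3) (G := nm g) (D := nm d)
    (E := nm e) (F := nm f) (lm := lmp N X j1 j3 d e) (by norm_num) (by norm_num) hX hN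
    (by linarith) h2j1 h2j3 ng1 ne1 hed nf1 (hed.trans hd'.1) hl hW1 hWW rfl
  have hV := V_le hN hNZ hX hXZ hZ hprod nd1 ne1 hed hε0 hε
  have hWc : 0 ≤ W (86093442 * max 1 (lmp N X j1 j3 d e) * 2 ^ j3 * (nm e : ℝ) ^ 2) :=
    hW.nonneg _ (by positivity)
  have hfin := term_arith (by positivity) h1 rfl ng nd nf' hCr.le hV hblock (by positivity)
    (by positivity)
  refine hfin.trans (le_of_eq ?_)
  ring

end Crest.Agent.R017.PoH347
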