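import Crest.Agent.R017.PoHu_72
import Crest.Agent.R017.PoH10_347

/-!
# Row 17, E3 with principal frequencies, part 5 (helper72)

`TstX j` : the hypothesis (hW°) for the class `j`; `block_boundx` : the real arithmetic of one block;
`RG_famx`, `fam_onex` : the family.
-/

set_option autoImplicit false

noncomputable section

open Complex MeasureTheory
open scoped ComplexConjugate Classical

namespace Crest.Agent.R017.PoHx72

open Crest.Agent.R012 Crest.Agent.R012.Eis Crest.Agent.R012.MC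
open Crest.Agent.R012.LS2 (S mem_S bl mem_bl)
open Crest.Agent.R012.Mob705 (mu pdiv mem_pdiv)
open Crest.Agent.R012.NonCube52 (Ker kv Good)
open Crest.Agent.R017.E1551 (nmpos jb jb_pos nm_ge_one)
open Crest.Agent.R017.BD829
open Crest.Agent.R017.PoH347
open Crest.Agent.R017.Mode405 (Slp nf Il VI)

/-- the hypothesis (hW°), class `j` of the frequencies -/
def TstX (j : Bool) (A : ℝ) {ι : Type} (Q : Finset ι) (b : ι → Eis → ℂ) (ka : Eis)
    (Pr : ι → Eis → Eis → Prop) (W : ℝ → ℝ) : Prop :=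
  ∀ gam phi x D : Eis, IsPrim gam → IsCoprime gam ka → phi ≠ 0 → x ≠ 0 → D ≠ 0 →
    phi * gam ^ 2 = x * D ^ 3 → ∀ P : ℝ, 1 ≤ P →
    (nm gam : ℝ) * ∑ q ∈ Q, VIc A (b q) gam phi 1 P (Cls (Pr q gam) j) ≤ W (P * nm x)

/-- the norm factor of the class `j` (`true` = principal) -/
def nfx (j : Bool) (lam I : ℝ) : ℝ :=
  if j = true then lam * I ^ (-(2 / 3) : ℝ) else 1 + lam * I ^ (-(1 / 2) : ℝ)

lemma nfx_nonneg (j : Bool) {lam I : ℝ} (hl : 0 ≤ lam) (hI : 0 ≤ I) : 0 ≤ nfx j lam I := by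
  unfold nfx
  split_ifs <;> positivity

/-- **the merged mean squares** over the frequencies with `Q`, no dilation -/
theorem sum_EBq_bgx {A : ℝ} (hA : 1 < A) {Y : ℝ} (hY : 0 ≤ Y) {b : Eis → ℂ}
    (hb : ∀ n, b n ≠ 0 → n ∈ S Y) {g d f : Eis} (hg : IsPrim g) (hd : IsPrim d) (hf : IsPrim f)
    (κ : Ker) {F0 : Eis} {Z L τ : ℝ} (hZ : 0 ≤ Z) (hL : 0 ≤ L) (hτ : 0 ≤ τ)
    {T : Finset Eis} (hT : ∀ l ∈ T, IsPrim l ∧ (nm l : ℝ) ≤ L ∧ IsCoprime (d * f) l)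
    (ht : ∀ x ∈ bl (Z * L), (Div277.tau x : ℝ) ≤ τ) (Q : Eis → Prop) :
    ∑ l ∈ T, EBq A (rs (bg b g l) (ps κ) d f) (F0 * f) (fun H => Q (su κ * l * H)) Z ≤
      τ * VIc A b (g * (d * f)) (su κ * (F0 * f)) 1 (Z * L) Q := by
  set F : Eis → ℝ := fun y => if Q (y * (su κ * (F0 * f))) then
    EQ A (fun n => b (g * (d * f) * n)) (y * (su κ * (F0 * f))) else 0 with hFd
  have hF : ∀ x, 0 ≤ F x := fun x => by
    rw [hFd]; beta_reduce
    split_ifs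
    · exact EQ_nonneg _ _ _
    · exact le_rfl
  have h1 : ∀ l ∈ T, EBq A (rs (bg b g l) (ps κ) d f) (F0 * f) (fun H => Q (su κ * l * H)) Z ≤
      ∑ k ∈ bl Z, F (k * l) := by
    intro l hl
    obtain ⟨hl1, -, hl3⟩ := hT l hl
    unfold EBq
    rw [Finset.sum_filter]
    refine Finset.sum_le_sum fun k _ => ?_
    have e0 : su κ * l * (k * (F0 * f)) = k * l * (su κ * (F0 * f)) := by ring
    have h2 := EQ_bg hA hY hb hg hl1 (hd.mul hf) hl3 κ (k * (F0 * f))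
    unfold rs
    rw [hFd]
    beta_reduce
    rw [e0] at h2 ⊢
    split_ifs
    · exact h2
    · exact le_rfl
  refine (Finset.sum_le_sum h1).trans ?_
  refine (merge hF hZ hL (fun l hl => ⟨(hT l hl).1, (hT l hl).2.1⟩) ht).trans ?_
  refine mul_le_mul_of_nonneg_left (le_of_eq ?_) hτ
  unfold VIc
  rw [Finset.sum_filter]
  refine Finset.sum_congr rfl fun k _ => ?_
  rw [hFd]
  beta_reduce
  congr 2
  funext n
  rw [if_pos isCoprime_one_right]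

/-! ### one block -/

/-- the norm of a class against the scale -/
lemma nj_le_x (j : Bool) {c2 X N lam L1 L3 G D E F lm : ℝ}
    (hc2 : 1 ≤ c2) (hX : 0 < X) (hN : 0 < N) (hlam : 0 < lam) (hL1 : 1 ≤ L1)
    (hL3 : 1 ≤ L3) (hG : 1 ≤ G) (hE : 1 ≤ E) (hED : E ≤ D) (hF : 1 ≤ F)
    (hl : L1 * (G * L3) ^ 2 ≤ lam)
    (hlm : lm = c2 * E * (N * L3 * L1) / (X * D ^ 2)) :
    nj (18 * (max 1 (G * D / E)) ^ (-(1 / 3) : ℝ)) j (G * L1 / (D * F)) (max 1 lm) ≤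
      18 * (max 1 lm) * E * nfx j lam (Il N lam X) := by
  have hD : 1 ≤ D := hE.trans hED
  have hI : 0 < Il N lam X := by unfold Il; positivity
  set I := Il N lam X with hIdef
  have hI' : I = N * lam / X := rfl
  have hlm0 : 0 < lm := by rw [hlm]; positivity
  set Λ : ℝ := max 1 lm with hΛ
  have hΛ1 : 1 ≤ Λ := le_max_left _ _
  have hΛl : lm ≤ Λ := le_max_right _ _
  have hΛ0 : 0 < Λ := by linarith
  set N1 : ℝ := G * L1 / (D * F) with hN1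
  have hN10 : 0 < N1 := by positivity
  have hG2 : 1 ≤ G ^ 2 := one_le_pow₀ hG
  have hL32 : 1 ≤ L3 ^ 2 := one_le_pow₀ hL3
  have hGL : G ^ 2 * L1 ≤ lam := by
    refine le_trans ?_ hl
    rw [mul_pow]
    calc G ^ 2 * L1 = L1 * (G ^ 2 * 1) := by ring
      _ ≤ L1 * (G ^ 2 * L3 ^ 2) := by gcongr
  unfold nj nfx
  cases j
  · simp only [Bool.false_eq_true, if_false]
    set r : ℝ := lam * I ^ (-(1 / 2) : ℝ) with hr
    have hr0 : 0 ≤ r := by positivity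
    have hr2 : r ^ 2 = lam ^ 2 / I := by
      rw [hr, mul_pow, ← Real.rpow_natCast (I ^ (-(1 / 2) : ℝ)) 2, ← Real.rpow_mul hI.le]
      norm_num
      rw [Real.rpow_neg_one]
      rfl
    have hN2 : N1 ^ 2 ≤ Λ * r ^ 2 := by
      have h1 : N1 ^ 2 ≤ lm * r ^ 2 := by
        rw [hr2, hlm, hN1, hI']
        have e1 : c2 * E * (N * L3 * L1) / (X * D ^ 2) * (lam ^ 2 / (N * lam / X)) =
            (c2 * E * L3) * L1 * lam / D ^ 2 := by
          field_simp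
        rw [e1, div_pow, mul_pow, mul_pow, div_le_div_iff₀ (by positivity) (by positivity)]
        have h2 : (1 : ℝ) ≤ c2 * E * L3 := one_le_mul_of_one_le_of_one_le
          (one_le_mul_of_one_le_of_one_le hc2 hE) hL3
        have h3 : (1 : ℝ) ≤ F ^ 2 := one_le_pow₀ hF
        calc G ^ 2 * L1 ^ 2 * D ^ 2 = (G ^ 2 * L1) * L1 * D ^ 2 := by ring
          _ ≤ lam * L1 * D ^ 2 := by gcongr
          _ ≤ (lam * L1 * D ^ 2) * ((c2 * E * L3) * F ^ 2) :=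
              le_mul_of_one_le_right (by positivity) (one_le_mul_of_one_le_of_one_le h2 h3)
          _ = _ := by ring
      exact h1.trans (mul_le_mul_of_nonneg_right hΛl (by positivity))
    have t2 : N1 * Λ ^ (1 / 3 : ℝ) ≤ Λ * r := by
      refine le_of_pow_le_pow_left₀ (n := 6) (by norm_num) (by positivity) ?_
      have e1 : (N1 * Λ ^ (1 / 3 : ℝ)) ^ 6 = (N1 ^ 2) ^ 3 * Λ ^ 2 := by
        rw [mul_pow]
        have : (Λ ^ (1 / 3 : ℝ)) ^ 6 = Λ ^ 2 := by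
          rw [← Real.rpow_natCast, ← Real.rpow_mul hΛ0.le, ← Real.rpow_natCast]
          norm_num
        rw [this]; ring
      rw [e1]
      calc (N1 ^ 2) ^ 3 * Λ ^ 2 ≤ (Λ * r ^ 2) ^ 3 * Λ ^ 2 := by gcongr
        _ = Λ ^ 5 * r ^ 6 * 1 := by ring
        _ ≤ Λ ^ 5 * r ^ 6 * Λ := mul_le_mul_of_nonneg_left hΛ1 (by positivity)
        _ = (Λ * r) ^ 6 := by ring
    have t3 : (Λ * N1) ^ (2 / 3 : ℝ) ≤ Λ * (1 + r) := by
      refine le_of_pow_le_pow_left₀ (n := 3) (by norm_num) (by positivity) ?_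
      rw [r23 (by positivity)]
      calc (Λ * N1) ^ 2 = Λ ^ 2 * N1 ^ 2 := by ring
        _ ≤ Λ ^ 2 * (Λ * r ^ 2) := mul_le_mul_of_nonneg_left hN2 (by positivity)
        _ = Λ ^ 3 * r ^ 2 := by ring
        _ ≤ Λ ^ 3 * (1 + r) ^ 3 := by
            refine mul_le_mul_of_nonneg_left ?_ (by positivity)
            nlinarith [mul_nonneg hr0 (sq_nonneg r), sq_nonneg r]
        _ = _ := by ring
    unfold nrm
    have h4 : 0 ≤ Λ * (1 + r) := by positivity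
    have h5 : Λ * (1 + r) ≤ Λ * E * (1 + r) := by
      calc Λ * (1 + r) = Λ * 1 * (1 + r) := by ring
        _ ≤ Λ * E * (1 + r) := by gcongr
    have h6 : 0 ≤ Λ * E * (1 + r) := by positivity
    nlinarith
  · simp only [if_true]
    have hu : 0 < G * D / E := by positivity
    have hu1 : 0 < max 1 (G * D / E) := by positivity
    set u : ℝ := max 1 (G * D / E) with hud
    have huu : G * D / E ≤ u := le_max_right _ _
    have key : u ^ (-(1 / 3) : ℝ) * (N1 * Λ ^ (1 / 3 : ℝ)) ≤ Λ * E * (lam * I ^ (-(2 / 3) : ℝ)) := by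
      refine le_of_pow_le_pow_left₀ (n := 3) (by norm_num) (by positivity) ?_
      have e1 : (u ^ (-(1 / 3) : ℝ) * (N1 * Λ ^ (1 / 3 : ℝ))) ^ 3 = u⁻¹ * (N1 ^ 3 * Λ) := by
        rw [mul_pow, mul_pow, rm13 hu1.le, r13 hΛ0.le]
      have e2 : (Λ * E * (lam * I ^ (-(2 / 3) : ℝ))) ^ 3 = Λ ^ 3 * E ^ 3 * lam ^ 3 * (I ^ 2)⁻¹ := by
        rw [mul_pow, mul_pow, mul_pow, rm23 hI.le]; ring
      rw [e1, e2, ← div_eq_mul_inv, le_div_iff₀ (by positivity), inv_mul_eq_div,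
        div_mul_eq_mul_div, div_le_iff₀ hu1]
      have h1 : N1 ^ 3 * I ^ 2 ≤ lm ^ 2 * E ^ 3 * lam ^ 3 * (G * D / E) := by
        rw [hlm, hN1, hI']
        have e3 : (G * L1 / (D * F)) ^ 3 * (N * lam / X) ^ 2 =
            (G * L1 ^ 2 * N ^ 2 * lam ^ 2 / (D ^ 3 * X ^ 2)) * ((G ^ 2 * L1) / F ^ 3) := by
          field_simp
        have e4 : (c2 * E * (N * L3 * L1) / (X * D ^ 2)) ^ 2 * E ^ 3 * lam ^ 3 * (G * D / E) =
            (G * L1 ^ 2 * N ^ 2 * lam ^ 2 / (D ^ 3 * X ^ 2)) * (lam * (c2 ^ 2 * E ^ 4 * L3 ^ 2)) := by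
          field_simp
        rw [e3, e4]
        refine mul_le_mul_of_nonneg_left ?_ (by positivity)
        have h2 : (1 : ℝ) ≤ c2 ^ 2 * E ^ 4 * L3 ^ 2 := one_le_mul_of_one_le_of_one_le
          (one_le_mul_of_one_le_of_one_le (one_le_pow₀ hc2) (one_le_pow₀ hE)) hL32
        have h3 : (1 : ℝ) ≤ F ^ 3 := one_le_pow₀ hF
        calc (G ^ 2 * L1) / F ^ 3 ≤ G ^ 2 * L1 := div_le_self (by positivity) h3
          _ ≤ lam := hGL
          _ ≤ _ := le_mul_of_one_le_right hlam.le h2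
      calc N1 ^ 3 * Λ * I ^ 2 = Λ * (N1 ^ 3 * I ^ 2) := by ring
        _ ≤ Λ * (lm ^ 2 * E ^ 3 * lam ^ 3 * (G * D / E)) :=
            mul_le_mul_of_nonneg_left h1 hΛ0.le
        _ ≤ Λ * (Λ ^ 2 * E ^ 3 * lam ^ 3 * u) := by gcongr
        _ = _ := by ring
    calc 18 * u ^ (-(1 / 3) : ℝ) * (N1 * Λ ^ (1 / 3 : ℝ))
        = 18 * (u ^ (-(1 / 3) : ℝ) * (N1 * Λ ^ (1 / 3 : ℝ))) := by ring
      _ ≤ 18 * (Λ * E * (lam * I ^ (-(2 / 3) : ℝ))) := mul_le_mul_of_nonneg_left key (by norm_num)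
      _ = _ := by ring

/-- **one block**, class `j` -/
theorem block_boundx (j : Bool) {a B : ℕ} (hB : a + 1 ≤ B) {W : ℝ → ℝ} (hW : Slp a W)
    {c1 c2 X N lam L1 L3 G D E F W1 lm : ℝ}
    (hc1 : 1 ≤ c1) (hc2 : 1 ≤ c2) (hX : 0 < X) (hN : 0 < N) (hlam : 0 < lam) (hL1 : 1 ≤ L1)
    (hL3 : 1 ≤ L3) (hG : 1 ≤ G) (hE : 1 ≤ E) (hED : E ≤ D) (hF : 1 ≤ F)
    (hl : L1 * (G * L3) ^ 2 ≤ lam) (hW1 : 0 ≤ W1)
    (hWW : W (c1 * c2 * Il N lam X) ≤ W1)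
    (hlm : lm = c2 * E * (N * L3 * L1) / (X * D ^ 2)) :
    X ^ 2 / (N * L3 * L1) * (D / E) ^ 2 *
      nj (18 * (max 1 (G * D / E)) ^ (-(1 / 3) : ℝ)) j (G * L1 / (D * F)) (max 1 lm) *
      ((min 1 lm) ^ B * W (c1 * max 1 lm * L3 * (D ^ 2 * G ^ 2 / E))) ≤
      18 * (2 ^ a * c2) * (X * nfx j lam (Il N lam X) * W1) := by
  have hD : 1 ≤ D := hE.trans hED
  have hI : 0 < Il N lam X := by unfold Il; positivity
  have hlm0 : 0 < lm := by rw [hlm]; positivity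
  have hn := nj_le_x j hc2 hX hN hlam hL1 hL3 hG hE hED hF hl hlm
  set nn := nj (18 * (max 1 (G * D / E)) ^ (-(1 / 3) : ℝ)) j (G * L1 / (D * F)) (max 1 lm)
    with hnn
  have hnn0 : 0 ≤ nn := by
    rw [hnn]
    exact nj_nonneg (by positivity) j (by positivity) (by positivity)
  have hnf := nfx_nonneg j hlam.le hI.le
  set nf0 := nfx j lam (Il N lam X) with hnf0
  set m : ℝ := min 1 lm with hm
  have hm0 : 0 < m := lt_min one_pos hlm0
  have hm1 : m ≤ 1 := min_le_left _ _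
  set Λ : ℝ := max 1 lm with hΛ
  have hΛ1 : 1 ≤ Λ := le_max_left _ _
  have hΛ0 : 0 < Λ := by linarith
  have hmΛ : m * Λ = lm := by
    rw [hm, hΛ]
    rcases le_total 1 lm with h | h
    · rw [min_eq_left h, max_eq_right h, one_mul]
    · rw [min_eq_right h, max_eq_left h, mul_one]
  -- the value of `W`
  have hP0 : 0 < c1 * lm * L3 * (D ^ 2 * G ^ 2 / E) := by positivity
  have hinv : 1 ≤ m⁻¹ := (one_le_inv₀ hm0).mpr hm1
  have hWP : W (c1 * Λ * L3 * (D ^ 2 * G ^ 2 / E)) ≤ (2 * m⁻¹) ^ a * W1 := by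
    have h1 := slp_up hW hP0 hinv
    have e1 : m⁻¹ * (c1 * lm * L3 * (D ^ 2 * G ^ 2 / E)) = c1 * Λ * L3 * (D ^ 2 * G ^ 2 / E) := by
      rw [← hmΛ]; field_simp
    rw [e1] at h1
    refine h1.trans (mul_le_mul_of_nonneg_left ?_ (by positivity))
    refine le_trans (slp_mono hW hP0 ?_) hWW
    have e2 : c1 * lm * L3 * (D ^ 2 * G ^ 2 / E) = c1 * c2 * (N * (L1 * (G * L3) ^ 2) / X) := by
      rw [hlm]; field_simp
    rw [e2]
    unfold Il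
    gcongr
  have hpre : X ^ 2 / (N * L3 * L1) * (D / E) ^ 2 = c2 * X / (E * lm) := by
    rw [hlm]; field_simp
  rw [hpre]
  have hmB : m ^ B ≤ m ^ (a + 1) := pow_le_pow_of_le_one hm0.le hm1 hB
  have e3 : m ^ (a + 1) * (2 * m⁻¹) ^ a = 2 ^ a * m := by
    rw [mul_pow, inv_pow, pow_succ]
    field_simp
  have hW0 : 0 ≤ W (c1 * Λ * L3 * (D ^ 2 * G ^ 2 / E)) := hW.nonneg _ (by positivity)
  calc c2 * X / (E * lm) * nn * (m ^ B * W (c1 * Λ * L3 * (D ^ 2 * G ^ 2 / E)))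
      ≤ c2 * X / (E * lm) * (18 * Λ * E * nf0) * (m ^ (a + 1) * ((2 * m⁻¹) ^ a * W1)) := by
        gcongr
    _ = c2 * X / (E * lm) * (18 * Λ * E * nf0) * ((m ^ (a + 1) * (2 * m⁻¹) ^ a) * W1) := by ring
    _ = c2 * X / (E * lm) * (18 * Λ * E * nf0) * ((2 ^ a * m) * W1) := by rw [e3]
    _ = 18 * (2 ^ a * c2) * (X * nf0 * W1) * ((m * Λ) / lm) := by field_simp
    _ = _ := by rw [hmΛ, div_self hlm0.ne', mul_one]

/-! ### sums of regularised mean squares -/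

lemma RGq_sum_lex {A : ℝ} (hA : 1 < A) {a : ℕ} {N : ℝ} (hN : 1 ≤ N) {ι : Type*} (T : Finset ι)
    {u : ι → Eis → ℂ} (hu : ∀ i ∈ T, ∀ n, u i n ≠ 0 → n ∈ S N) (F : Eis) (Q : ι → Eis → Prop) {Z : ℝ} (hZ : 1 ≤ Z)
    {K : ℝ} (h : ∀ j : ℕ, ∑ i ∈ T, EBq A (u i) F (Q i) (2 ^ j * Z) ≤ K * (2 ^ (a + 1)) ^ j) :
    ∑ i ∈ T, RGq A (a + 3) (u i) F (Q i) Z ≤ 2 * K := by
  have hK : 0 ≤ K := by
    have h1 := h 0
    rw [pow_zero, pow_zero, mul_one] at h1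
    exact (Finset.sum_nonneg fun _ _ => EBq_nonneg _ _ _ _ _).trans h1
  have hs : ∀ i ∈ T, Summable fun j : ℕ => (((2 : ℝ) ^ (a + 3))⁻¹) ^ j *
      EBq A (u i) F (Q i) (2 ^ j * Z) := fun i hi => RGq_summable hA (by omega) hN (hu i hi) F (Q i) hZ
  unfold RGq
  rw [← Summable.tsum_finsetSum hs]
  have hg : Summable fun j : ℕ => K * ((1 : ℝ) / 4) ^ j :=
    (summable_geometric_of_lt_one (by norm_num) (by norm_num)).mul_left K
  have h2 : ∀ j : ℕ, ∑ i ∈ T, (((2 : ℝ) ^ (a + 3))⁻¹) ^ j * EBq A (u i) F (Q i) (2 ^ j * Z) ≤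
      K * ((1 : ℝ) / 4) ^ j := by
    intro j
    rw [← Finset.mul_sum]
    calc (((2 : ℝ) ^ (a + 3))⁻¹) ^ j * ∑ i ∈ T, EBq A (u i) F (Q i) (2 ^ j * Z)
        ≤ (((2 : ℝ) ^ (a + 3))⁻¹) ^ j * (K * (2 ^ (a + 1)) ^ j) :=
          mul_le_mul_of_nonneg_left (h j) (by positivity)
      _ = K * ((((2 : ℝ) ^ (a + 3))⁻¹) * 2 ^ (a + 1)) ^ j := by rw [mul_pow]; ring
      _ = K * ((1 : ℝ) / 4) ^ j := by
          congr 2
          rw [show a + 3 = (a + 1) + 2 by ring, pow_add _ (a + 1) 2]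
          field_simp
          norm_num
  refine (Summable.tsum_le_tsum h2 ?_ hg).trans ?_
  · exact summable_sum hs
  · rw [tsum_mul_left, tsum_geometric_of_lt_one (by norm_num) (by norm_num)]
    linarith

set_option maxHeartbeats 2000000 in
/-- the family of mean squares of one class, merged -/
theorem RG_famx (j : Bool) {A a : ℕ} (hA : 1 < A) {ε : ℝ} (hε0 : 0 < ε) (hε : ε ≤ 1) :
    ∃ C : ℝ, 0 < C ∧ ∀ Z : ℝ, 1 ≤ Z → ∀ {ι : Type} (Q : Finset ι) (b : ι → Eis → ℂ),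
      (∀ q ∈ Q, ∀ n, b q n ≠ 0 → n ∈ S Z) → ∀ (ka : Eis) (Pr : ι → Eis → Eis → Prop),
      ∀ W : ℝ → ℝ, Slp a W → TstX j A Q b ka Pr W →
      ∀ (κ : Ker), κ.1.2 < 3 → ∀ lam₀ : ℝ, 0 ≤ lam₀ → lam₀ ≤ Z →
      ∀ (g : Eis), IsPrim g → IsCoprime g ka → ∀ (j3 : ℕ), ∀ d ∈ S lam₀, ∀ e ∈ pdiv d, ∀ f ∈ S lam₀,
      ∀ Λ : ℝ, 1 ≤ Λ →
      ∑ i ∈ (Q ×ˢ T3 lam₀ g j3).filter (fun i => IsCoprime (d * f) (i.2 * ka)),
        RGq A (a + 3) (rs (bg (b i.1) g i.2) (ps κ) d f) ((e * ((9 * su κ) * sq3)) ^ 2 * f)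
          (fun H => Cls (Pr i.1 (g * (d * f))) j (su κ * i.2 * H)) Λ ≤
      C * (Λ * (2 * 2 ^ j3)) ^ ε * (W (86093442 * Λ * 2 ^ j3 *
        ((nm d : ℝ) ^ 2 * (nm g : ℝ) ^ 2 / nm e)) / (nm g * nm d * nm f)) := by
  have hA' : (1 : ℝ) < (A : ℝ) := by exact_mod_cast hA
  obtain ⟨C, hC1, hC⟩ := Div277.tau_le_rpow hε0
  have hC0 : 0 < C := by linarith
  refine ⟨2 * C, by positivity, ?_⟩
  intro Z hZ ι Q b hb ka Pr W hW hVI κ hκ lam₀ hlam0 hlamZ g hg hgka j3 d hd e he f hf Λ hΛ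
  have hZ0 : 0 ≤ Z := by linarith
  have hd' := (mem_S hlam0).1 hd
  have hf' := (mem_S hlam0).1 hf
  have he' := (mem_pdiv hd'.2.1.ne_zero).mp he
  have ng := nmpos hg.ne_zero
  have nd := nmpos hd'.2.1.ne_zero
  have nf' := nmpos hf'.2.1.ne_zero
  have ne := nmpos he'.1.ne_zero
  have hΛ0 : 0 < Λ := by linarith
  set F0 : Eis := (e * ((9 * su κ) * sq3)) ^ 2 with hF0
  have hF0n : F0 ≠ 0 := by
    rw [hF0]
    exact pow_ne_zero _ (mul_ne_zero he'.1.ne_zero (mul_ne_zero (LC_ps κ).ne sq3_ne_zero))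
  set sc : ℝ := (nm d : ℝ) ^ 2 * (nm g : ℝ) ^ 2 / nm e with hsc
  have hsc0 : 0 < sc := by positivity
  set Wc : ℝ := W (86093442 * Λ * 2 ^ j3 * sc) with hWc
  have hWc0 : 0 ≤ Wc := hW.nonneg _ (by positivity)
  set V : ℝ := (Λ * (2 * 2 ^ j3)) ^ ε with hV
  have hV0 : 0 ≤ V := by positivity
  have hY1 : (1 : ℝ) ≤ Z ^ 2 := one_le_pow₀ hZ
  by_cases hka : IsCoprime (d * f) ka
  swap
  · rw [Finset.filter_false_of_mem (fun i _ hi => hka hi.of_mul_right_right), Finset.sum_empty]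
    positivity
  set Qc : ι × Eis → Eis → Prop := fun i H => Cls (Pr i.1 (g * (d * f))) j (su κ * i.2 * H) with hQc
  -- the supports
  have hsup : ∀ i ∈ (Q ×ˢ T3 lam₀ g j3).filter (fun i => IsCoprime (d * f) (i.2 * ka)),
      ∀ n, rs (bg (b i.1) g i.2) (ps κ) d f n ≠ 0 → n ∈ S (Z ^ 2) := by
    rintro ⟨q, l⟩ hi n hn
    obtain ⟨hi1, -⟩ := Finset.mem_filter.mp hi
    obtain ⟨hq, hl⟩ := Finset.mem_product.mp hi1
    obtain ⟨hl1, hl2, -⟩ := Finset.mem_filter.mp hl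
    have hl' := (mem_S hlam0).1 hl1
    refine rs_supp (by positivity) (u := bg (b q) g l) (fun m hm => ?_) (ps κ) hd'.2.1 hf'.2.1 n hn
    obtain ⟨k, rfl, hc, hk⟩ := exists_of_bg hl'.2.1.ne_zero hm
    have h1 := (mem_S hZ0).1 (hb q hq _ hk)
    have hkp : IsPrim k := h1.2.1.of_mul_left hg
    rw [mem_S (by positivity)]
    refine ⟨?_, hl'.2.1.mul hkp, squarefree_mul_iff.mpr
      ⟨(hc.of_mul_right_right).symm.isRelPrime, hl'.2.2, h1.2.2.of_mul_right⟩⟩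
    rw [nm_mul]
    push_cast
    have h2 : (nm k : ℝ) ≤ Z := by
      refine le_trans ?_ h1.1
      rw [nm_mul]
      push_cast
      exact le_mul_of_one_le_left (Nat.cast_nonneg _) (nm_ge_one hg.ne_zero)
    calc (nm l : ℝ) * nm k ≤ Z * Z := mul_le_mul (hl'.1.trans hlamZ) h2 (Nat.cast_nonneg _) hZ0
      _ = Z ^ 2 := by ring
  have hbound : ∀ jj : ℕ, ∑ i ∈ (Q ×ˢ T3 lam₀ g j3).filter (fun i => IsCoprime (d * f) (i.2 * ka)),
      EBq A (rs (bg (b i.1) g i.2) (ps κ) d f) (F0 * f) (Qc i) (2 ^ jj * Λ) ≤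
      (C * V * (Wc / (nm g * nm d * nm f))) * (2 ^ (a + 1)) ^ jj := by
    intro jj
    have h2j : (1 : ℝ) ≤ 2 ^ jj := one_le_pow₀ (by norm_num)
    set τ : ℝ := C * (2 ^ jj * V) with hτ
    have hτ0 : 0 ≤ τ := by positivity
    -- reorganise
    have e1 : ∑ i ∈ (Q ×ˢ T3 lam₀ g j3).filter (fun i => IsCoprime (d * f) (i.2 * ka)),
        EBq A (rs (bg (b i.1) g i.2) (ps κ) d f) (F0 * f) (Qc i) (2 ^ jj * Λ) =
        ∑ q ∈ Q, ∑ l ∈ (T3 lam₀ g j3).filter (fun l => IsCoprime (d * f) (l * ka)),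
          EBq A (rs (bg (b q) g l) (ps κ) d f) (F0 * f) (Qc (q, l)) (2 ^ jj * Λ) := by
      rw [Finset.sum_filter, Finset.sum_product]
      refine Finset.sum_congr rfl fun q _ => ?_
      rw [Finset.sum_filter]
    rw [e1]
    have h1 : ∀ q ∈ Q, ∑ l ∈ (T3 lam₀ g j3).filter (fun l => IsCoprime (d * f) (l * ka)),
        EBq A (rs (bg (b q) g l) (ps κ) d f) (F0 * f) (Qc (q, l)) (2 ^ jj * Λ) ≤
        τ * VIc A (b q) (g * (d * f)) (su κ * (F0 * f)) 1 (2 ^ jj * Λ * (2 * 2 ^ j3))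
          (Cls (Pr q (g * (d * f))) j) := by
      intro q hq
      refine sum_EBq_bgx hA' hZ0 (hb q hq) hg hd'.2.1 hf'.2.1 κ (F0 := F0)
        (Z := 2 ^ jj * Λ) (L := 2 * 2 ^ j3) (by positivity) (by positivity) hτ0 (fun l hl => ?_)
        (fun x hx => ?_) (Cls (Pr q (g * (d * f))) j)
      · obtain ⟨hl1, hl2⟩ := Finset.mem_filter.mp hl
        obtain ⟨hl3, -, hl4⟩ := Finset.mem_filter.mp hl1
        have hl' := (mem_S hlam0).1 hl3
        exact ⟨hl'.2.1, (pow_log_le (nm_pos.mpr hl'.2.1.ne_zero).ne' hl4).2,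
          hl2.of_mul_right_left⟩
      · have hx' := (mem_bl (by positivity)).1 hx
        refine (hC x hx'.1).trans ?_
        rw [hτ]
        refine mul_le_mul_of_nonneg_left ?_ hC0.le
        calc (nm x : ℝ) ^ ε ≤ (2 ^ jj * Λ * (2 * 2 ^ j3)) ^ ε :=
              Real.rpow_le_rpow (Nat.cast_nonneg _) hx'.2 hε0.le
          _ = (2 ^ jj : ℝ) ^ ε * V := by
              rw [mul_assoc, Real.mul_rpow (by positivity) (by positivity)]
          _ ≤ 2 ^ jj * V := by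
              refine mul_le_mul_of_nonneg_right ?_ hV0
              calc (2 ^ jj : ℝ) ^ ε ≤ (2 ^ jj : ℝ) ^ (1 : ℝ) :=
                    Real.rpow_le_rpow_of_exponent_le h2j hε
                _ = 2 ^ jj := Real.rpow_one _
    refine (Finset.sum_le_sum h1).trans ?_
    rw [← Finset.mul_sum]
    have h3j : (1 : ℝ) ≤ 2 ^ j3 := one_le_pow₀ (by norm_num)
    have hP1 : (1 : ℝ) ≤ 2 ^ jj * Λ * (2 * 2 ^ j3) := by
      have h4 : (1 : ℝ) ≤ 2 * 2 ^ j3 := by linarith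
      exact one_le_mul_of_one_le_of_one_le (one_le_mul_of_one_le_of_one_le h2j hΛ) h4
    obtain ⟨d', hd''⟩ := he'.2
    have hd'0 : d' ≠ 0 := by
      rintro rfl
      rw [mul_zero] at hd''
      exact hd'.2.1.ne_zero hd''
    set M' : Eis := 9 * su κ * sq3 with hM'
    have hM'0 : M' ≠ 0 := mul_ne_zero (LC_ps κ).ne sq3_ne_zero
    have hgamp : IsPrim (g * (d * f)) := hg.mul (hd'.2.1.mul hf'.2.1)
    set xx : Eis := su κ * M' ^ 2 * d' ^ 2 * e * g ^ 2 with hxx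
    have hxx0 : xx ≠ 0 := by
      rw [hxx]
      exact mul_ne_zero (mul_ne_zero (mul_ne_zero (mul_ne_zero su_ne (pow_ne_zero 2 hM'0))
        (pow_ne_zero 2 hd'0)) he'.1.ne_zero) (pow_ne_zero 2 hg.ne_zero)
    have h2 := hVI (g * (d * f)) (su κ * (F0 * f)) xx (e * f) hgamp (hgka.mul_left hka)
      (mul_ne_zero su_ne (mul_ne_zero hF0n hf'.2.1.ne_zero)) hxx0
      (mul_ne_zero he'.1.ne_zero hf'.2.1.ne_zero) (by rw [hxx, hF0, hd'']; ring) _ hP1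
    have hnx : (nm xx : ℝ) ≤ 43046721 * sc := by
      have e1 : (nm xx : ℝ) = nm (su κ) * (nm M' : ℝ) ^ 2 * ((nm d' : ℝ) ^ 2 * nm e *
          (nm g : ℝ) ^ 2) := by
        rw [hxx]
        simp only [nm_mul, nm_pow]
        push_cast
        ring
      have e2 : sc = (nm d' : ℝ) ^ 2 * nm e * (nm g : ℝ) ^ 2 := by
        rw [hsc, hd'', nm_mul]
        push_cast
        field_simp
      have h3 : (nm M' : ℝ) ≤ 2187 := by
        have h4 := nm_M_le hκ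
        have h5 : nm sq3 = 3 := by decide
        rw [hM', nm_mul (9 * su κ), h5]
        push_cast
        linarith
      have h6 := nm_su_le hκ
      rw [e1, e2]
      have h7 : (nm M' : ℝ) ^ 2 ≤ 2187 ^ 2 := pow_le_pow_left₀ (Nat.cast_nonneg _) h3 2
      calc nm (su κ) * (nm M' : ℝ) ^ 2 * ((nm d' : ℝ) ^ 2 * nm e * (nm g : ℝ) ^ 2)
          ≤ 9 * 2187 ^ 2 * ((nm d' : ℝ) ^ 2 * nm e * (nm g : ℝ) ^ 2) := by gcongr
        _ = _ := by ring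
    have nxx := nmpos hxx0
    have h3a : W (2 ^ jj * Λ * (2 * 2 ^ j3) * nm xx) ≤
        W (2 ^ jj * (86093442 * Λ * 2 ^ j3 * sc)) := by
      refine slp_mono hW (by positivity) ?_
      calc 2 ^ jj * Λ * (2 * 2 ^ j3) * nm xx ≤ 2 ^ jj * Λ * (2 * 2 ^ j3) * (43046721 * sc) :=
            mul_le_mul_of_nonneg_left hnx (by positivity)
        _ = _ := by ring
    have h3 := slp_dbl_pow hW (P := 86093442 * Λ * 2 ^ j3 * sc) (by positivity) jj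
    have h4 : ∑ q ∈ Q, VIc A (b q) (g * (d * f)) (su κ * (F0 * f)) 1 (2 ^ jj * Λ * (2 * 2 ^ j3))
          (Cls (Pr q (g * (d * f))) j) ≤
        (2 ^ a) ^ jj * (Wc / (nm g * nm d * nm f)) := by
      rw [← mul_div_assoc, le_div_iff₀ (by positivity), mul_comm]
      have e3 : (nm (g * (d * f)) : ℝ) = nm g * nm d * nm f := by
        rw [nm_mul, nm_mul]; push_cast; ring
      rw [e3] at h2
      exact h2.trans (h3a.trans h3)
    calc τ * ∑ q ∈ Q, VIc A (b q) (g * (d * f)) (su κ * (F0 * f)) 1 (2 ^ jj * Λ * (2 * 2 ^ j3))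
          (Cls (Pr q (g * (d * f))) j)
        ≤ τ * ((2 ^ a) ^ jj * (Wc / (nm g * nm d * nm f))) := mul_le_mul_of_nonneg_left h4 hτ0
      _ = (C * V * (Wc / (nm g * nm d * nm f))) * (2 ^ (a + 1)) ^ jj := by
          rw [hτ, pow_succ, mul_pow]; ring
  have hfin := RGq_sum_lex (A := (A : ℝ)) (a := a) (N := Z ^ 2) hA' hY1
    ((Q ×ˢ T3 lam₀ g j3).filter (fun i => IsCoprime (d * f) (i.2 * ka)))
    (u := fun i => rs (bg (b i.1) g i.2) (ps κ) d f) (fun i hi n hn => by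
      exact hsup i hi n hn) (F0 * f) Qc (Z := Λ) hΛ
    (K := C * V * (Wc / (nm g * nm d * nm f))) (fun jj => by exact hbound jj)
  refine hfin.trans (le_of_eq ?_)
  ring

/-- the size of the scale -/
lemma V_lex {N X Z : ℝ} (hN : 0 < N) (hNZ : N ≤ Z) (hX : 0 < X) (hXZ : 1 ≤ X * Z) (hZ : 1 ≤ Z)
    {j1 j3 : ℕ} (hprod : (2 : ℝ) ^ j3 * 2 ^ j1 ≤ Z) {d e : Eis} (hd : 1 ≤ (nm d : ℝ))
    (he : 1 ≤ (nm e : ℝ)) (hed : (nm e : ℝ) ≤ nm d) {ε : ℝ} (hε0 : 0 < ε) (hε : ε ≤ 1) :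
    (max 1 (lmpx N X j1 j3 d e) * (2 * 2 ^ j3)) ^ ε ≤ 559872 * Z ^ (4 * ε) := by
  have hZ0 : 0 < Z := by linarith
  have hj3Z : (2 : ℝ) ^ j3 ≤ Z :=
    (le_mul_of_one_le_right (by positivity) (one_le_pow₀ (by norm_num))).trans hprod
  have h2 : lmpx N X j1 j3 d e ≤ 279936 * Z ^ 3 := by
    unfold lmpx
    rw [div_le_iff₀ (by positivity)]
    have h3 : (nm e : ℝ) ≤ (nm d : ℝ) ^ 2 := by nlinarith
    have h4 : N * 2 ^ j3 * 2 ^ j1 ≤ Z * Z := by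
      rw [mul_assoc]
      exact mul_le_mul hNZ hprod (by positivity) hZ0.le
    calc 279936 * (nm e : ℝ) * (N * 2 ^ j3 * 2 ^ j1)
        ≤ 279936 * (nm d : ℝ) ^ 2 * (Z * Z) := by gcongr
      _ ≤ 279936 * (nm d : ℝ) ^ 2 * (Z * Z) * (X * Z) :=
          le_mul_of_one_le_right (by positivity) hXZ
      _ = 279936 * Z ^ 3 * (X * (nm d : ℝ) ^ 2) := by ring
  have h5 : max 1 (lmpx N X j1 j3 d e) ≤ 279936 * Z ^ 3 := by
    refine max_le ?_ h2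
    have : (1 : ℝ) ≤ Z ^ 3 := one_le_pow₀ hZ
    linarith
  have h6 : max 1 (lmpx N X j1 j3 d e) * (2 * 2 ^ j3) ≤ 559872 * Z ^ 4 := by
    calc max 1 (lmpx N X j1 j3 d e) * (2 * 2 ^ j3) ≤ (279936 * Z ^ 3) * (2 * Z) := by gcongr
      _ = _ := by ring
  calc (max 1 (lmpx N X j1 j3 d e) * (2 * 2 ^ j3)) ^ ε ≤ (559872 * Z ^ 4) ^ ε :=
        Real.rpow_le_rpow (by positivity) h6 hε0.le
    _ = 559872 ^ ε * Z ^ (4 * ε) := by
        rw [Real.mul_rpow (by norm_num) (by positivity), ← Real.rpow_natCast Z 4,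
          ← Real.rpow_mul hZ0.le]
        norm_num
    _ ≤ 559872 * Z ^ (4 * ε) := by
        refine mul_le_mul_of_nonneg_right ?_ (by positivity)
        calc (559872 : ℝ) ^ ε ≤ 559872 ^ (1 : ℝ) :=
              Real.rpow_le_rpow_of_exponent_le (by norm_num) hε
          _ = 559872 := Real.rpow_one _

/-- **one term of the family**, class `j` -/
theorem fam_onex (j : Bool) {A a : ℕ} (hA : 1 < A) {ε : ℝ} (hε0 : 0 < ε) (hε : ε ≤ 1) :
    ∃ C : ℝ, 0 < C ∧ ∀ Z N X lam₀ : ℝ, 1 ≤ Z → 0 < N → N ≤ Z → 0 < X → 1 ≤ X * Z →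
      1 ≤ lam₀ → lam₀ ≤ Z →
      ∀ {ι : Type} (Q : Finset ι) (b : ι → Eis → ℂ),
      (∀ q ∈ Q, ∀ n, b q n ≠ 0 → n ∈ S Z) → ∀ (ka : Eis) (Pr : ι → Eis → Eis → Prop),
      ∀ W : ℝ → ℝ, Slp a W → TstX j A Q b ka Pr W →
      ∀ W1 : ℝ, 0 ≤ W1 → W (86093442 * 279936 * Il N lam₀ X) ≤ W1 →
      ∀ (κ : Ker), κ.1.2 < 3 → ∀ g : Eis, IsPrim g → IsCoprime g ka → ∀ j1 j3 : ℕ,
      (2 : ℝ) ^ j1 * (nm g * 2 ^ j3) ^ 2 ≤ lam₀ → (2 : ℝ) ^ j3 * 2 ^ j1 ≤ Z →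
      ∀ d ∈ S lam₀, ∀ e ∈ pdiv d, ∀ f ∈ S lam₀,
      ∑ q ∈ Q, ∑ l ∈ T3 lam₀ g j3, (if IsCoprime (d * f) (l * ka) then
        Tmc j (Pr q) A (a + 4) (a + 3) N X j1 j3 κ (b q) g l d e f else 0) ≤
      C * Z ^ (4 * ε) * (1 / nm g * (X * nfx j lam₀ (Il N lam₀ X) * W1)) *
        (1 / nm d * (1 / nm f)) := by
  obtain ⟨Cr, hCr, hRG⟩ := RG_famx j (A := A) (a := a) hA hε0 hε
  refine ⟨Cr * 559872 * (18 * (2 ^ a * 279936)), by positivity, ?_⟩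
  intro Z N X lam₀ hZ hN hNZ hX hXZ hlam1 hlamZ ι Q b hb ka Pr W hW hVI W1
    hW1 hWW κ hp g hg hgka j1 j3 hl hprod d hd e he f hf
  have hZ0 : 0 < Z := by linarith
  have hlam0 : 0 ≤ lam₀ := by linarith
  have ng := nmpos hg.ne_zero
  have ng1 := nm_ge_one hg.ne_zero
  have h2j1 : (1 : ℝ) ≤ 2 ^ j1 := one_le_pow₀ (by norm_num)
  have h2j3 : (1 : ℝ) ≤ 2 ^ j3 := one_le_pow₀ (by norm_num)
  have hd' := (mem_S hlam0).1 hd
  have hf' := (mem_S hlam0).1 hf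
  have he' := (mem_pdiv hd'.2.1.ne_zero).mp he
  have nd := nmpos hd'.2.1.ne_zero
  have nf' := nmpos hf'.2.1.ne_zero
  have ne := nmpos he'.1.ne_zero
  have nd1 := nm_ge_one hd'.2.1.ne_zero
  have nf1 := nm_ge_one hf'.2.1.ne_zero
  have ne1 := nm_ge_one he'.1.ne_zero
  have hed : (nm e : ℝ) ≤ nm d := by
    exact_mod_cast Div277.nm_le_of_dvd hd'.2.1.ne_zero he'.2
  have hlp := lmpx_pos hN hX j1 j3 hd'.2.1.ne_zero he'.1.ne_zero
  have hΛ1 : 1 ≤ max 1 (lmpx N X j1 j3 d e) := le_max_left _ _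
  have hΛ0 : 0 < max 1 (lmpx N X j1 j3 d e) := by linarith
  have hnr0 : 0 ≤ nj (cpx g d e) j (nm g * 2 ^ j1 / (nm d * nm f))
      (max 1 (lmpx N X j1 j3 d e)) := nj_nonneg (cpx_pos g d e).le j (by positivity) hΛ0.le
  have hmin0 : 0 < min 1 (lmpx N X j1 j3 d e) := lt_min one_pos hlp
  have e1 : ∑ q ∈ Q, ∑ l ∈ T3 lam₀ g j3, (if IsCoprime (d * f) (l * ka) then
      Tmc j (Pr q) A (a + 4) (a + 3) N X j1 j3 κ (b q) g l d e f else 0) =
      (X ^ 2 / (N * 2 ^ j3 * 2 ^ j1) * (nm d / nm e : ℝ) ^ 2 *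
      nj (cpx g d e) j (nm g * 2 ^ j1 / (nm d * nm f)) (max 1 (lmpx N X j1 j3 d e)) *
      (min 1 (lmpx N X j1 j3 d e)) ^ (a + 4)) *
        ∑ i ∈ (Q ×ˢ T3 lam₀ g j3).filter (fun i => IsCoprime (d * f) (i.2 * ka)),
        RGq A (a + 3) (rs (bg (b i.1) g i.2) (ps κ) d f) ((e * ((9 * su κ) * sq3)) ^ 2 * f)
          (fun H => Cls (Pr i.1 (g * (d * f))) j (su κ * i.2 * H)) (max 1 (lmpx N X j1 j3 d e)) := by
    rw [Finset.sum_filter, Finset.sum_product, Finset.mul_sum]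
    refine Finset.sum_congr rfl fun q _ => ?_
    rw [Finset.mul_sum]
    refine Finset.sum_congr rfl fun l _ => ?_
    split_ifs
    · unfold Tmc
      ring
    · rw [mul_zero]
  rw [e1]
  have h1 := hRG Z hZ Q b hb ka Pr W hW hVI κ hp lam₀ hlam0 hlamZ g hg hgka j3 d hd e he f hf _ hΛ1
  have hblock := block_boundx j (B := a + 4) (by omega) hW (c1 := 86093442) (c2 := 279936)
    (X := X) (N := N) (lam := lam₀) (L1 := 2 ^ j1) (L3 := 2 ^ j3) (G := nm g) (D := nm d)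
    (E := nm e) (F := nm f) (lm := lmpx N X j1 j3 d e) (by norm_num) (by norm_num) hX hN
    (by linarith) h2j1 h2j3 ng1 ne1 hed nf1 hl hW1 hWW rfl
  have hV := V_lex hN hNZ hX hXZ hZ hprod nd1 ne1 hed hε0 hε
  have hWc : 0 ≤ W (86093442 * max 1 (lmpx N X j1 j3 d e) * 2 ^ j3 *
      ((nm d : ℝ) ^ 2 * (nm g : ℝ) ^ 2 / nm e)) :=
    hW.nonneg _ (by positivity)
  have hfin := term_arith (by positivity) h1 rfl ng nd nf' hCr.le hV hblock (by positivity)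
    (by positivity)
  refine hfin.trans (le_of_eq ?_)
  ring

end Crest.Agent.R017.PoHx72
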