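import Crest.Agent.R017.E3q16_681
import Crest.Agent.R017.E3Su_290
import Crest.Agent.R017.PoHv_72

/-!
# Row 17, block C70, leaf E4 (x-side), class E: one cell from MODE*, two classes of frequencies
(helper842, from helper681's E3q16)

* `RMk` : the modes of all the dilations `κ F = κ₁ y`
* `Wx` : the number of a cell
* `mode_ballkx` : the modes of one cell
-/

set_option autoImplicit false
set_option linter.unusedVariables false
set_option maxHeartbeats 400000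

noncomputable section

open Complex MeasureTheory
open scoped ComplexConjugate Classical ContDiff

namespace Crest.Agent.R017.E3qx842

open Crest.Agent.R012 Crest.Agent.R012.Eis Crest.Agent.R012.MC
open Crest.Agent.R012.LS2 (S mem_S bl mem_bl)
open Crest.Agent.R012.Div277 (dvs mem_dvs isPrim_of_mem_dvs dvd_of_mem_dvs tau tau_le_rpow)
open Crest.Agent.R012.Mob705 (mu pdiv mem_pdiv)
open Crest.Agent.R012.NonCube52 (Ker kv Good kc kc_spec kc_nm kv_ne_zero one_le_nmkv)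
open Crest.Agent.R017.CM106 (CS TG FS)
open Crest.Agent.R017.E1551 (nmpos jb jb_pos nm_ge_one summable_wF)
open Crest.Agent.R017.BD829
open Crest.Agent.R017.E3P842
open Crest.Agent.R017.E3D579
open Crest.Agent.R017.E3Sd579
open Crest.Agent.R017.Mode405
open Crest.Agent.R017.Mps347 (PoHWp modeEp)
open Crest.Agent.R017.E3Sm290 (EQ_dil sum_split)
open Crest.Agent.R017.E4579 (bpt bco bpt_mul_bco bpt_prim bco_prim bpt_sup bco_cop)
open Gauss880 (syG)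
open Crest.Agent.R017.E3q681
open Crest.Agent.R017.E3Su290 (MB T1)
open Crest.Agent.R017.PoHx72 (nfx nfx_nonneg)

/-- the weight of the dilation in the principal class -/
def wF (jj : Bool) (F : ℝ) : ℝ := if jj = true then F ^ (-(1 / 3) : ℝ) else 1

lemma wF_nonneg (jj : Bool) {F : ℝ} (hF : 0 ≤ F) : 0 ≤ wF jj F := by
  unfold wF
  split_ifs <;> positivity

/-- the modes of all the dilations `κ F = κ₁ y` -/
def RMk (χ : Eis → ℂ) (w1 : ℝ → ℝ) (A' ε C₁ cw Rw : ℝ) (κ₁ : Eis) (Z Nb₀ ν Lst : ℝ) (R ρ : Eis)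
    (b₀ : Eis → ℂ) (W1 : Bool → ℝ) : Prop :=
  ∀ κ F y : Eis, IsPrim κ → IsPrim F → Squarefree (κ * F) → κ * F = κ₁ * y → IsCoprime y R →
    (nm κ : ℝ) ≤ Z ^ 3 → (nm F : ℝ) ≤ Z ^ 5 → ∀ Z' Lt Y : ℝ, Z ≤ Z' → Nb₀ * nm κ ≤ Z' →
      (nm κ : ℝ) ≤ Z' → Z ^ 4 ≤ Z' → 1 ≤ Y → Y ≤ Z' → 0 < Lt → Lt ≤ Z' → Lt ≤ Lst →
      (1 ≤ Lt → Lt * Real.exp Rw < Nb₀ * nm κ) →
      (1 ≤ Lt → Nb₀ * nm κ * Lt / Y * (nm F : ℝ) ^ 2 ≤ ν) →
      MB χ w1 A' ε C₁ cw (bF κ F b₀) (ρ * (κ * F)) κ Y Lt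
        (∑ jj : Bool, nfx jj Lt (Il (Nb₀ * nm κ) Lt Y) * (W1 jj * wF jj (nm F))) Z'

/-- the number of a cell, two classes -/
def Wx (Ls N Nb a D F : ℝ) (W1 : Bool → ℝ) : ℝ :=
  (1 + Real.sqrt (Ls * N / Nb) / ((a * D) ^ 2 * F ^ 2)) * W1 false +
    (Ls ^ (1 / 3 : ℝ) * (N / Nb) ^ (2 / 3 : ℝ) / ((a * D) ^ 2 * F ^ 2)) * W1 true

lemma Wx_nonneg {Ls N Nb a D F : ℝ} {W1 : Bool → ℝ} (hL : 0 ≤ Ls) (hN : 0 ≤ N) (hNb : 0 ≤ Nb)
    (ha : 0 ≤ a) (hD : 0 ≤ D) (hF : 0 ≤ F) (hW : ∀ jj, 0 ≤ W1 jj) : 0 ≤ Wx Ls N Nb a D F W1 := by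
  have h1 := hW true
  have h2 := hW false
  unfold Wx
  positivity

/-- the factor of the principal class -/
lemma nfx_le {Nb N Lst A D F E u k : ℝ} (hNb : 0 < Nb) (hN : 0 < N) (hLst : 0 < Lst) (hA : 0 < A)
    (hD : 0 < D) (hF : 0 < F) (hE : 0 < E) (hu : 0 < u) (hk0 : 0 < k) (hk : k * E * u = A * D) :
    (Lst / ((A * D) ^ 2 * F ^ 3) / (27 * E * u)) *
      (Nb * k * (Lst / ((A * D) ^ 2 * F ^ 3) / (27 * E * u)) / (N / (A * D * F))) ^ (-(2 / 3) : ℝ) *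
      (F * (E * u)) ^ (-(1 / 3) : ℝ) ≤
      Lst ^ (1 / 3 : ℝ) * (N / Nb) ^ (2 / 3 : ℝ) / ((A * D) ^ 2 * F ^ 2) := by
  set lam := Lst / ((A * D) ^ 2 * F ^ 3) / (27 * E * u) with hlam
  set I := Nb * k * lam / (N / (A * D * F)) with hI
  have hlam0 : 0 < lam := by positivity
  have hI0 : 0 < I := by positivity
  have hG0 : 0 < F * (E * u) := by positivity
  have hy0 : 0 ≤ Lst ^ (1 / 3 : ℝ) * (N / Nb) ^ (2 / 3 : ℝ) / ((A * D) ^ 2 * F ^ 2) := by positivity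
  refine le_of_pow_le_pow_left₀ (n := 3) (by norm_num) hy0 ?_
  have e1 : (I ^ (-(2 / 3) : ℝ)) ^ 3 = (I ^ 2)⁻¹ := by
    rw [← Real.rpow_natCast, ← Real.rpow_mul hI0.le]
    norm_num
  have e2 : ((F * (E * u)) ^ (-(1 / 3) : ℝ)) ^ 3 = (F * (E * u))⁻¹ := by
    rw [← Real.rpow_natCast, ← Real.rpow_mul hG0.le]
    norm_num
    rw [Real.rpow_neg_one]
    rw [mul_inv, mul_inv]
    ring
  have e3 : (Lst ^ (1 / 3 : ℝ)) ^ 3 = Lst := by
    rw [← Real.rpow_natCast, ← Real.rpow_mul hLst.le]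
    norm_num
  have e4 : ((N / Nb) ^ (2 / 3 : ℝ)) ^ 3 = (N / Nb) ^ 2 := by
    rw [← Real.rpow_natCast, ← Real.rpow_mul (by positivity)]
    norm_num
  have hI2 : I ^ 2 = (Nb * k * (Lst / ((A * D) ^ 2 * F ^ 3) / (27 * E * u)) /
      (N / (A * D * F))) ^ 2 := by rw [hI, hlam]
  have e5 : lam ^ 3 * (I ^ 2)⁻¹ * (F * (E * u))⁻¹ =
      (1 / 27) * (Lst * (N / Nb) ^ 2 / ((A * D) ^ 2 * F ^ 2) ^ 3) *
        ((A * D) ^ 2 / (k * E * u) ^ 2) := by
    rw [hI2, hlam]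
    field_simp
  have h7 : 0 ≤ Lst * (N / Nb) ^ 2 / ((A * D) ^ 2 * F ^ 2) ^ 3 := by positivity
  calc (lam * I ^ (-(2 / 3) : ℝ) * (F * (E * u)) ^ (-(1 / 3) : ℝ)) ^ 3
      = lam ^ 3 * (I ^ (-(2 / 3) : ℝ)) ^ 3 * ((F * (E * u)) ^ (-(1 / 3) : ℝ)) ^ 3 := by ring
    _ = lam ^ 3 * (I ^ 2)⁻¹ * (F * (E * u))⁻¹ := by rw [e1, e2]
    _ = (1 / 27) * (Lst * (N / Nb) ^ 2 / ((A * D) ^ 2 * F ^ 2) ^ 3) *
        ((A * D) ^ 2 / (k * E * u) ^ 2) := e5
    _ ≤ Lst * (N / Nb) ^ 2 / ((A * D) ^ 2 * F ^ 2) ^ 3 := by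
        rw [hk, div_self (by positivity), mul_one]
        linarith
    _ = (Lst ^ (1 / 3 : ℝ)) ^ 3 * ((N / Nb) ^ (2 / 3 : ℝ)) ^ 3 / ((A * D) ^ 2 * F ^ 2) ^ 3 := by
        rw [e3, e4]
    _ = _ := by ring

lemma wx_le {Nb N Lst A D F E u k : ℝ} {W1 : Bool → ℝ} (hNb : 0 < Nb) (hN : 0 < N)
    (hLst : 0 < Lst) (hA : 0 < A) (hD : 0 < D) (hF : 0 < F) (hE : 0 < E) (hu : 0 < u)
    (hk0 : 0 < k) (hk : k * E * u = A * D) (hW : ∀ jj, 0 ≤ W1 jj) :
    ∑ jj : Bool, nfx jj (Lst / ((A * D) ^ 2 * F ^ 3) / (27 * E * u))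
      (Nb * k * (Lst / ((A * D) ^ 2 * F ^ 3) / (27 * E * u)) / (N / (A * D * F))) *
        (W1 jj * wF jj (F * (E * u))) ≤ Wx Lst N Nb A D F W1 := by
  have h1 := nfo_le hNb hN hLst hA hD hF hE hu hk0 hk
  have h2 := nfx_le hNb hN hLst hA hD hF hE hu hk0 hk
  rw [Fintype.sum_bool]
  unfold Wx nfx wF
  simp only [if_true, Bool.false_eq_true, if_false, mul_one]
  unfold nfo at h1
  have i1 := mul_le_mul_of_nonneg_right h1 (hW false)
  have i2 := mul_le_mul_of_nonneg_right h2 (hW true)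
  have e : ∀ x y z W : ℝ, x * y * (W * z) = x * y * z * W := fun x y z W => by ring
  rw [e, add_comm]
  exact add_le_add i1 i2

set_option maxHeartbeats 16000000 in
/-- **the modes of one cell**, `N / nm (a D F) ≥ 1`, two classes of frequencies -/
theorem mode_ballkx {χ : Eis → ℂ} {w1 : ℝ → ℝ} {Rw : ℝ} {ε : ℝ} (hε : 0 < ε) {C₁ cw : ℝ}
    (hC₁ : 0 ≤ C₁) (hcw : 1 ≤ cw) :
    ∃ C : ℝ, 0 ≤ C ∧ ∀ A' : ℝ,
    ∀ (Z : ℝ) (b : Eis → ℂ) (Nb₀ : ℝ) (κ₁ Q R ρ mm : Eis) (N Lst q0 : ℝ) (W1 : Bool → ℝ),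
      1 ≤ Z → FS b → (∀ n, b n ≠ 0 → n ∈ S Z) → 0 < Nb₀ → Nb₀ ≤ Z →
      IsPrim κ₁ → Squarefree κ₁ → (nm κ₁ : ℝ) ≤ Z →
      Q ≠ 0 → R ≠ 0 → ρ * κ₁ ∣ R → IsPrim mm → mm ∣ R → (nm Q : ℝ) ≤ Z → (nm R : ℝ) ≤ Z →
      (nm mm : ℝ) ≤ Z → 0 < N → N ≤ Z → 0 < Lst → Lst ≤ Z → nk (Q ^ 2) ≤ q0 → q0 ≤ Z ^ 2 →
      (∀ jj, 0 ≤ W1 jj) →
      (1 ≤ Lst → Lst * Real.exp Rw < Nb₀ * nm κ₁) →
      RMk χ w1 A' (ε / 20) C₁ cw Rw κ₁ Z Nb₀ (Nb₀ * nm κ₁ / N * Lst) Lst R ρ b W1 →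
    ∀ s b' a D E F : Eis, IsPrim s → s ∣ mm → IsPrim b' → b' ∣ mm → IsPrim a → IsPrim D →
      E ∈ pdiv D → IsPrim F → (nm a : ℝ) ≤ Z → (nm D : ℝ) ≤ Z → (nm F : ℝ) ≤ Z →
      Squarefree (a * D * F) → IsCoprime (a * D * F) R → IsCoprime (a * D * F) (Q * s) →
      1 ≤ N / nm (a * D * F) → ∀ L : ℝ, 1 ≤ L →
      ∑ w ∈ bl L, EQ A' (pS χ (fun x => ((w1 (x / (N / nm (a * D * F))) : ℝ) : ℂ))
          (R * a * (a * D * F)) (bF (a * D) F (bF κ₁ 1 b)))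
          (w * ((E * (3 * sq3) * (Q * s)) ^ 2 * b')) ≤
        C * Z ^ ε * L ^ ε * ((N / nm (a * D * F)) ^ (-(1 : ℝ) / 3) *
          CBx L (L * (27 * (nm E : ℝ) ^ 2 * (nm s : ℝ) ^ 2 * nm b') * q0 /
              (Lst / ((nm a * nm D : ℝ) ^ 2 * (nm F : ℝ) ^ 3))) (N / nm (a * D * F))
            (Lst / ((nm a * nm D : ℝ) ^ 2 * (nm F : ℝ) ^ 3))
            (TC 1 (cw * N) (bF κ₁ 1 b) (a * D * F))
            (TC (1 / 2) (cw * N) (bF κ₁ 1 b) (a * D * F))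
            (Wx Lst N (Nb₀ * nm κ₁) (nm a) (nm D) (nm F) W1)) := by
  obtain ⟨Ct, hCt, hτ⟩ := tau_le_rpow (ε := ε / 6) (by positivity)
  refine ⟨Ct * (C₁ * 729 ^ (ε / 20)), by positivity, ?_⟩
  intro A' Z b Nb₀ κ₁ Q R ρ mm N Lst q0 W1 hZ hb hbS hNb₀ hNb₀Z hκ₁ hκ₁s hκ₁Z hQ hR hρ hmm hmmR hQZ hRZ hmmZ hN
    hNZ hLst hLstZ hq0 hq0Z hW1 hLN hRX s b' a D E F hs hsm hb' hbm ha hD hE hF haZ hDZ hFZ hsq hcR
    hcQ hY L hL
  have hZ0 : 0 < Z := by linarith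
  have hL0 : 0 < L := by linarith
  obtain ⟨hEp, hED⟩ := (mem_pdiv hD.ne_zero).mp hE
  obtain ⟨D1, hD1⟩ := hED
  have hD1p : IsPrim D1 := by rw [hD1] at hD; exact hD.of_mul_left hEp
  set κ := a * D1 with hκd
  have hκ : IsPrim κ := ha.mul hD1p
  have hκE : κ * E = a * D := by rw [hκd, hD1]; ring
  set x0 := a * D * F with hx0
  have hx0p : IsPrim x0 := (ha.mul hD).mul hF
  have nx0 := nmpos hx0p.ne_zero
  have nκ₁ := nm_ge_one hκ₁.ne_zero
  have nκ₁0 := nmpos hκ₁.ne_zero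
  set Nb : ℝ := Nb₀ * nm κ₁ with hNbd
  have hNb : 0 < Nb := by positivity
  have hκ₁R : κ₁ ∣ R := (dvd_mul_left κ₁ ρ).trans hρ
  have cxκ : IsCoprime x0 κ₁ := IsCoprime.of_isCoprime_of_dvd_right hcR hκ₁R
  set r := R * a * x0 with hr
  set X := (3 * sq3 * (Q * s)) ^ 2 * b' with hX
  set Yc : ℝ := N / nm x0 with hYc
  have na := nm_ge_one ha.ne_zero
  have nD := nm_ge_one hD.ne_zero
  have nF := nm_ge_one hF.ne_zero
  have nE := nm_ge_one hEp.ne_zero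
  have nb := nm_ge_one hb'.ne_zero
  have ns := nm_ge_one hs.ne_zero
  have nQ := nm_ge_one hQ
  have nR := nm_ge_one hR
  have nx01 := nm_ge_one hx0p.ne_zero
  have hEZ : (nm E : ℝ) ≤ Z := by
    refine le_trans ?_ hDZ
    exact_mod_cast Div277.nm_le_of_dvd hD.ne_zero ⟨D1, hD1⟩
  have hsZ : (nm s : ℝ) ≤ Z := by
    refine le_trans ?_ hmmZ
    exact_mod_cast Div277.nm_le_of_dvd hmm.ne_zero hsm
  have hbZ : (nm b' : ℝ) ≤ Z := by
    refine le_trans ?_ hmmZ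
    exact_mod_cast Div277.nm_le_of_dvd hmm.ne_zero hbm
  set Lt₀ : ℝ := Lst / ((nm a * nm D : ℝ) ^ 2 * (nm F : ℝ) ^ 3) with hLt0
  have hden : 1 ≤ (nm a * nm D : ℝ) ^ 2 * (nm F : ℝ) ^ 3 :=
    one_le_mul_of_one_le_of_one_le (one_le_pow₀ (one_le_mul_of_one_le_of_one_le na nD))
      (one_le_pow₀ nF)
  have hLt0p : 0 < Lt₀ := by positivity
  have hLt0L : Lt₀ ≤ Lst := div_le_self hLst.le hden
  have hq00 : 0 ≤ q0 := (Nat.cast_nonneg _).trans hq0
  set ϱ : ℝ := L * (27 * (nm E : ℝ) ^ 2 * (nm s : ℝ) ^ 2 * nm b') * q0 / Lt₀ with hϱ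
  have hϱ0 : 0 ≤ ϱ := by positivity
  set T1 := TC 1 (cw * N) (bF κ₁ 1 b) x0 with hT1
  set T2 := TC (1 / 2) (cw * N) (bF κ₁ 1 b) x0 with hT2
  have hT10 : 0 ≤ T1 := TC_nonneg _ _ _ _
  have hT20 : 0 ≤ T2 := TC_nonneg _ _ _ _
  set W := Wx Lst N Nb (nm a) (nm D) (nm F) W1 with hW
  have hW0 : 0 ≤ W := Wx_nonneg hLst.le hN.le hNb.le (Nat.cast_nonneg _) (Nat.cast_nonneg _)
    (Nat.cast_nonneg _) hW1
  have hYc0 : 0 < Yc := by linarith
  have hCB0 : 0 ≤ CBx L ϱ Yc Lt₀ T1 T2 W := CBx_nonneg hL0.le hϱ0 hYc0.le hLt0p.le hT10 hT20 hW0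
  set om : ℝ → ℂ := fun x => ((w1 (x / Yc) : ℝ) : ℂ) with hom
  have h30 : (3 * sq3 : Eis) ≠ 0 := by
    intro h
    have h5 := three_sq3
    rw [h] at h5
    have h6 := congrArg nm h5
    revert h6
    decide
  have hXne : X ≠ 0 := by
    rw [hX]
    exact mul_ne_zero (pow_ne_zero _ (mul_ne_zero h30 (mul_ne_zero hQ hs.ne_zero))) hb'.ne_zero
  obtain ⟨k1, k2, V₁, n₁, pk1, pk2, hk12, hV₁0, hn₁0, hXdec, cV₁, hnkX⟩ := dil_dec hκ₁ hκ₁s hXne
  have nk2 := nm_ge_one pk2.ne_zero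
  have nk1 := nm_ge_one pk1.ne_zero
  have nk20 := nmpos pk2.ne_zero
  set κt := κ * k1 with hκt
  have hκtp : IsPrim κt := hκ.mul pk1
  set f : Eis → ℝ := fun x => EQ A' (pS χ om r (bF (κt * (E * k2)) F b)) (x * (E ^ 2 * X)) with hf
  have h1 : ∑ w ∈ bl L, EQ A' (pS χ om r (bF (a * D) F (bF κ₁ 1 b)))
      (w * ((E * (3 * sq3) * (Q * s)) ^ 2 * b')) ≤ ∑ x ∈ bl L, f x := by
    refine Finset.sum_le_sum fun x _ => ?_
    have e1 : x * ((E * (3 * sq3) * (Q * s)) ^ 2 * b') = x * (E ^ 2 * X) := by rw [hX]; ring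
    rw [e1]
    refine (EQ_inner A' χ om r (ha.mul hD) hκ₁ hb _).trans (le_of_eq ?_)
    have e2 : a * D * κ₁ = κt * (E * k2) := by rw [← hκE, hk12, hκt]; ring
    rw [e2]
  refine h1.trans ?_
  have h2 := sum_split hκtp (f := f) (fun x => EQ_nonneg _ _ _) hL0.le
  refine h2.trans ?_
  -- one divisor
  have hu : ∀ u ∈ pdiv κt, ∑ x ∈ (bl (L / nm u)).filter (fun x => IsCoprime x (κt / u)), f (u * x) ≤
      C₁ * (729 ^ (ε / 20) * Z ^ (ε / 2) * L ^ ε) * Yc ^ (-(1 : ℝ) / 3) * CBx L ϱ Yc Lt₀ T1 T2 W := by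
    intro u hu
    obtain ⟨hup, huκ⟩ := (mem_pdiv hκtp.ne_zero).mp hu
    have nu := nm_ge_one hup.ne_zero
    have nu0 := nmpos hup.ne_zero
    set κu := κt / u with hκu
    have e1 : κt = κu * u := by
      rw [mul_comm]; exact (EuclideanDomain.mul_div_cancel' hup.ne_zero huκ).symm
    have hκup : IsPrim κu := by
      refine IsPrim.of_mul_left (x := u) ?_ hup
      rw [mul_comm, ← e1]; exact hκtp
    have nκu := nm_ge_one hκup.ne_zero
    set U := u * k2 with hUd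
    have hUp : IsPrim U := hup.mul pk2
    have nU := nm_ge_one hUp.ne_zero
    have nU0 := nmpos hUp.ne_zero
    have nUe : (nm U : ℝ) = nm u * nm k2 := by rw [hUd, nm_mul]; push_cast; ring
    set F' := F * (E * U) with hF'
    have hF'p : IsPrim F' := hF.mul (hEp.mul hUp)
    have nF' := nm_ge_one hF'p.ne_zero
    have e2 : κt * (E * k2) = κu * (E * U) := by rw [e1, hUd]; ring
    have e2' : a * D * κ₁ = κu * (E * U) := by rw [← e2, ← hκE, hk12, hκt]; ring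
    have e3 : κu * F' = κ₁ * x0 := by
      have h9 : κ₁ * x0 = (a * D * κ₁) * F := by rw [hx0]; ring
      rw [h9, e2', hF']; ring
    have hsq' : Squarefree (κu * F') := by
      rw [e3]; exact squarefree_mul_iff.mpr ⟨cxκ.symm.isRelPrime, hκ₁s, hsq⟩
    have hr' : E * U ∣ r := by
      have h9 : E * U ∣ κ₁ * x0 := by rw [← e3, hF']; exact ⟨κu * F, by ring⟩
      refine h9.trans ?_
      rw [hr]
      obtain ⟨R', hR'⟩ := hκ₁R
      exact ⟨R' * a, by rw [hR']; ring⟩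
    set X₁ := V₁ * n₁ ^ 3 with hX₁
    have hfe : ∀ x : Eis, f (u * x) = EQ A' (pS χ om r (bF κu F' b)) (x * (E * X₁)) := by
      intro x
      rw [hf]
      beta_reduce
      rw [e2]
      have e9 : u * x * (E ^ 2 * X) = (U * x) * (E ^ 2 * X₁) := by
        rw [hXdec, hUd]; ring
      rw [e9]
      exact EQ_dil A' χ om hκup hEp hUp hr' hb x X₁
    simp only [hfe]
    by_cases hLu : 1 ≤ L / nm u
    swap
    · have h0 : bl (L / nm u) = ∅ := by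
        refine Finset.eq_empty_of_forall_notMem fun x hx => ?_
        rw [mem_bl (by positivity)] at hx
        have := nm_ge_one hx.1
        linarith [hx.2]
      rw [h0, Finset.filter_empty, Finset.sum_empty]
      positivity
    -- coprimality
    have hcs := squarefree_mul_iff.mp hsq'
    have c1 : IsCoprime κu F' := isRelPrime_iff_isCoprime.mp hcs.1
    have cE : IsCoprime E κu := (c1.of_mul_right_right.of_mul_right_left).symm
    have cκ : ∀ {y : Eis}, IsCoprime x0 y → IsCoprime y κ := fun {y} h =>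
      ((IsCoprime.of_isCoprime_of_dvd_left h (⟨E * F, by rw [hx0, ← hκE]; ring⟩ : κ ∣ x0))).symm
    have cQs : IsCoprime (Q * s) κ := cκ hcQ
    have cb : IsCoprime b' κ := by
      refine cκ (IsCoprime.of_isCoprime_of_dvd_right hcR (hbm.trans hmmR))
    have c3 : IsCoprime (3 * sq3 : Eis) κ := by
      have h3 := isCoprime_sq3 hκ
      have h4 : (3 : Eis) = -(sq3 ^ 2) := by rw [sq3_sq]; ring
      rw [h4]
      exact (h3.pow_left.neg_left).mul_left h3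
    have cX : IsCoprime X κ := by
      rw [hX]
      exact ((c3.mul_left cQs).pow_left).mul_left cb
    have cV : IsCoprime V₁ κu := by
      have h9 : IsCoprime V₁ κt :=
        (cX.of_isCoprime_of_dvd_left ⟨k2 * n₁ ^ 3, by rw [hXdec]; ring⟩).mul_right cV₁
      exact h9.of_isCoprime_of_dvd_right ⟨u, e1⟩
    have hX₁0 : X₁ ≠ 0 := mul_ne_zero hV₁0 (pow_ne_zero _ hn₁0)
    have hX0 : E * X₁ ≠ 0 := mul_ne_zero hEp.ne_zero hX₁0
    -- the sizes
    set Z' : ℝ := 729 * Z ^ 10 * L with hZ'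
    have hZp : ∀ k : ℕ, k ≤ 10 → Z ^ k ≤ Z ^ 10 := fun k hk => pow_le_pow_right₀ hZ hk
    have hZ'k : ∀ k : ℕ, k ≤ 10 → Z ^ k ≤ Z' := by
      intro k hk
      have h3 := hZp k hk
      have h4 : 0 ≤ Z ^ 10 := by positivity
      rw [hZ']; nlinarith
    have hZ'1 : 1 ≤ Z' := by simpa using hZ'k 0 (by norm_num)
    have hZZ' : Z ≤ Z' := by simpa using hZ'k 1 (by norm_num)
    have hadk : (nm (a * D * κ₁) : ℝ) ≤ Z ^ 3 := by
      rw [nm_mul, nm_mul]; push_cast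
      calc (nm a : ℝ) * nm D * nm κ₁ ≤ Z * Z * Z := by gcongr
        _ = Z ^ 3 := by ring
    have hadk0 : a * D * κ₁ ≠ 0 := mul_ne_zero (mul_ne_zero ha.ne_zero hD.ne_zero) hκ₁.ne_zero
    have hκuZ : (nm κu : ℝ) ≤ Z ^ 3 := by
      refine le_trans ?_ hadk
      exact_mod_cast Div277.nm_le_of_dvd hadk0 (by rw [e2']; exact dvd_mul_right _ _)
    have hUZ : (nm U : ℝ) ≤ Z ^ 3 := by
      refine le_trans ?_ hadk
      exact_mod_cast Div277.nm_le_of_dvd hadk0 (by rw [e2']; exact ⟨κu * E, by ring⟩)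
    have hF'Z : (nm F' : ℝ) ≤ Z ^ 5 := by
      rw [hF', nm_mul, nm_mul]; push_cast
      calc (nm F : ℝ) * (nm E * nm U) ≤ Z * (Z * Z ^ 3) := by gcongr
        _ = Z ^ 5 := by ring
    have hx0Z : (nm x0 : ℝ) ≤ Z ^ 3 := by
      rw [hx0, nm_mul, nm_mul]; push_cast
      calc (nm a : ℝ) * nm D * nm F ≤ Z * Z * Z := by gcongr
        _ = Z ^ 3 := by ring
    have hr0 : r ≠ 0 := mul_ne_zero (mul_ne_zero hR ha.ne_zero) hx0p.ne_zero
    have hrZ : (nm r : ℝ) ≤ Z' := by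
      rw [hr, nm_mul, nm_mul]; push_cast
      calc (nm R : ℝ) * nm a * nm x0 ≤ Z * Z * Z ^ 3 := by gcongr
        _ = Z ^ 5 := by ring
        _ ≤ Z' := hZ'k 5 (by norm_num)
    have hqZ : (nm (E * X₁) : ℝ) ≤ Z' := by
      have h2' : (nm (E * X₁) : ℝ) ≤ nm (E * X) := by
        exact_mod_cast Div277.nm_le_of_dvd (mul_ne_zero hEp.ne_zero hXne)
          (mul_dvd_mul_left E ⟨k2, by rw [hXdec]; ring⟩)
      refine h2'.trans ?_
      have h3 : (nm (E * X) : ℝ) = nm E * (729 * (nm Q : ℝ) ^ 2 * (nm s : ℝ) ^ 2) * nm b' := by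
        have h4 : nm (3 * sq3 : Eis) ^ 2 = 729 := by
          have h5 := congrArg nm three_sq3
          rw [nm_pow, nm_pow] at h5
          rw [h5]
          have : nm (-3 : Eis) = 9 := by decide
          rw [this]; norm_num
        rw [hX, nm_mul, nm_mul, mul_pow, nm_mul, nm_pow, h4, nm_pow, nm_mul]
        push_cast; ring
      rw [h3]
      calc (nm E : ℝ) * (729 * (nm Q : ℝ) ^ 2 * (nm s : ℝ) ^ 2) * nm b'
          ≤ Z * (729 * Z ^ 2 * Z ^ 2) * Z := by gcongr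
        _ = 729 * Z ^ 6 * 1 := by ring
        _ ≤ Z' := by
            rw [hZ']
            have := hZp 6 (by norm_num)
            gcongr
    set L' : ℝ := L / nm u with hL'
    have hL'0 : 0 < L' := by positivity
    have hL'L : L' ≤ L := div_le_self hL0.le nu
    set L0' : ℝ := L' * (nm E * q0 * (nm s : ℝ) ^ 2 * nm b' / nm k2) with hL0'
    have hq01 : 1 ≤ q0 := (nk_ge_one (pow_ne_zero 2 hQ)).trans hq0
    have hL0'0 : 0 < L0' := by positivity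
    have hL0'Z : L0' ≤ Z' := by
      have h9 : nm E * q0 * (nm s : ℝ) ^ 2 * nm b' / nm k2 ≤ nm E * q0 * (nm s : ℝ) ^ 2 * nm b' :=
        div_le_self (by positivity) nk2
      calc L0' ≤ L' * (nm E * q0 * (nm s : ℝ) ^ 2 * nm b') := by
            rw [hL0']; exact mul_le_mul_of_nonneg_left h9 hL'0.le
        _ ≤ L * (Z * Z ^ 2 * Z ^ 2 * Z) := by gcongr
        _ = 1 * Z ^ 6 * L := by ring
        _ ≤ Z' := by
            rw [hZ']
            have := hZp 6 (by norm_num)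
            gcongr
            norm_num
    set Lt' : ℝ := Lt₀ / (27 * nm E * nm U) with hLt'
    have hLt'0 : 0 < Lt' := by positivity
    have hLt'L : Lt' ≤ Lt₀ := by
      refine div_le_self hLt0p.le ?_
      have : 1 ≤ (nm E : ℝ) * nm U := one_le_mul_of_one_le_of_one_le nE nU
      nlinarith
    have hLt'Z : Lt' ≤ Z' := by linarith
    have hratio : L0' / Lt' = ϱ := by
      rw [hL0', hLt', hL', hϱ, nUe]
      field_simp
    have hYcZ : Yc ≤ Z' := by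
      have : Yc ≤ N := div_le_self hN.le nx01
      linarith
    have hLZ' : L' ≤ Z' := by
      have h3 : 1 * L ≤ 729 * Z ^ 10 * L := by
        have h4 : 1 ≤ Z ^ 10 := one_le_pow₀ hZ
        gcongr
        linarith
      rw [hZ']; linarith
    have hNκ : Nb₀ * nm κu ≤ Z' := by
      calc Nb₀ * nm κu ≤ Z * Z ^ 3 := by gcongr
        _ = Z ^ 4 := by ring
        _ ≤ Z' := hZ'k 4 (by norm_num)
    have hκuZ' : (nm κu : ℝ) ≤ Z' := hκuZ.trans (hZ'k 3 (by norm_num))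
    have hκs : Squarefree κu := hcs.2.1
    have hbF := FS.bF (F := F') hκup hb
    have hkk0 : (nm κu : ℝ) * nm E * nm U = nm a * nm D * nm κ₁ := by
      have h3 := congrArg nm e2'
      rw [nm_mul, nm_mul, nm_mul κu, nm_mul E] at h3
      have h4 : ((nm a * nm D * nm κ₁ : ℕ) : ℝ) = ((nm κu * (nm E * nm U) : ℕ) : ℝ) := by
        exact_mod_cast h3
      push_cast at h4
      rw [h4]; ring
    have hkk : (nm κu / nm κ₁ : ℝ) * nm E * nm U = nm a * nm D := by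
      have : (nm κu / nm κ₁ : ℝ) * nm E * nm U = ((nm κu : ℝ) * nm E * nm U) / nm κ₁ := by ring
      rw [this, hkk0]
      field_simp
    have hNbk : Nb * (nm κu / nm κ₁ : ℝ) = Nb₀ * nm κu := by
      rw [hNbd]; field_simp
    -- the structured part
    have hstr1 : 1 ≤ Lt' → Nb₀ * nm κu * Lt' / Yc * (nm F' : ℝ) ^ 2 ≤ Nb / N * Lst := by
      intro h3
      have h5 := nu_id hNb hN hLst (by linarith : (0 : ℝ) < nm a) (by linarith : (0 : ℝ) < nm D)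
          (by linarith : (0 : ℝ) < nm F) (by linarith : (0 : ℝ) < nm E) nU0 hkk
      rw [hNbk] at h5
      have e8 : (nm F' : ℝ) = nm F * (nm E * nm U) := by
        rw [hF', nm_mul, nm_mul]; push_cast; ring
      have e9 : (nm x0 : ℝ) = nm a * nm D * nm F := by
        rw [hx0, nm_mul, nm_mul]; push_cast; ring
      rw [e8, hYc, hLt', hLt0, e9]
      exact h5
    have hstr2 : 1 ≤ Lt' → Lt' * Real.exp Rw < Nb₀ * nm κu := by
      intro h3
      have h5 : 1 ≤ Lst := by linarith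
      have h6 := hLN h5
      have h7 : Lt' * nm U ≤ Lst := by
        have e9 : Lt' * nm U = Lt₀ / (27 * nm E) := by rw [hLt']; field_simp
        rw [e9]
        refine (div_le_self hLt0p.le ?_).trans hLt0L
        nlinarith
      have h8 : Nb ≤ Nb₀ * nm κu * nm U := by
        have e9 : (nm κ₁ : ℝ) ≤ nm κu * nm U := by
          have e10 : κ₁ ∣ κu * U := by
            refine ⟨κ, ?_⟩
            rw [hUd, hk12]
            calc κu * (u * k2) = (κu * u) * k2 := by ring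
              _ = κt * k2 := by rw [← e1]
              _ = _ := by rw [hκt]; ring
          have e11 : (nm κ₁ : ℝ) ≤ nm (κu * U) := by
            exact_mod_cast Div277.nm_le_of_dvd (mul_ne_zero hκup.ne_zero hUp.ne_zero) e10
          rw [nm_mul] at e11; push_cast at e11; exact e11
        calc Nb = Nb₀ * nm κ₁ := hNbd
          _ ≤ Nb₀ * (nm κu * nm U) := mul_le_mul_of_nonneg_left e9 hNb₀.le
          _ = _ := by ring
      have h9 : Lt' * Real.exp Rw * nm U < Nb₀ * nm κu * nm U := by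
        calc Lt' * Real.exp Rw * nm U = (Lt' * nm U) * Real.exp Rw := by ring
          _ ≤ Lst * Real.exp Rw := mul_le_mul_of_nonneg_right h7 (Real.exp_pos _).le
          _ < Nb := h6
          _ ≤ _ := h8
      exact lt_of_mul_lt_mul_right h9 nU0.le
    have hr₁ : ρ * (κu * F') ∣ r := by
      rw [hr, e3]
      have h9 : ρ * (κ₁ * x0) = (ρ * κ₁) * x0 := by ring
      rw [h9]
      exact mul_dvd_mul (hρ.trans (dvd_mul_right R a)) dvd_rfl
    have hmode := hRX κu F' x0 hκup hF'p hsq' e3 hcR hκuZ hF'Z Z' Lt' Yc hZZ' hNκ hκuZ'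
      (hZ'k 4 (by norm_num)) hY hYcZ hLt'0 hLt'Z (hLt'L.trans hLt0L) hstr2 hstr1 Z' L' L0' le_rfl
      hL'0.le hLZ' hL0'0.le hL0'Z r (E * X₁) hr0 hrZ hr₁ hX0 hqZ (by
        have h3 := nk_freq one_ne_zero hQ hs.ne_zero hb'.ne_zero
        rw [← hX, one_mul, nm_one, Nat.cast_one, one_mul] at h3
        have h4 : nk (E * X₁) ≤ nm E * nm V₁ := by
          refine (nk_mul_le hEp.ne_zero hX₁0).trans ?_
          rw [hX₁, nk_mul_cube hV₁0 hn₁0]
          exact mul_le_mul (nk_le_nm hEp.ne_zero) (nk_le_nm hV₁0) (Nat.cast_nonneg _)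
            (Nat.cast_nonneg _)
        have h5 : (nm V₁ : ℝ) ≤ q0 * (nm s : ℝ) ^ 2 * nm b' / nm k2 := by
          rw [le_div_iff₀ nk20, hnkX]
          refine h3.trans ?_
          gcongr
        rw [hL0']
        refine mul_le_mul_of_nonneg_left (h4.trans ?_) hL'0.le
        calc (nm E : ℝ) * nm V₁ ≤ nm E * (q0 * (nm s : ℝ) ^ 2 * nm b' / nm k2) :=
              mul_le_mul_of_nonneg_left h5 (Nat.cast_nonneg _)
          _ = _ := by ring)
    -- the left side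
    have hleft : ∑ x ∈ (bl L').filter (fun x => IsCoprime x κu),
        EQ A' (pS χ om r (bF κu F' b)) (x * (E * X₁)) ≤
        ∑ h ∈ (bl L').filter (fun h => IsCoprime (kv (kc (h * (E * X₁))).1) κu),
          EQ A' (fun n => χ n * uS (fun x => ((w1 (x / Yc) : ℝ) : ℂ)) r (bF κu F' b) n)
            (h * (E * X₁)) := by
      have e4 : ∀ x : Eis, EQ A' (fun n => χ n * uS (fun x => ((w1 (x / Yc) : ℝ) : ℂ)) r
          (bF κu F' b) n) (x * (E * X₁)) = EQ A' (pS χ om r (bF κu F' b)) (x * (E * X₁)) :=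
        fun x => rfl
      simp only [e4]
      refine Finset.sum_le_sum_of_subset_of_nonneg (fun x hx => ?_) fun _ _ _ => EQ_nonneg _ _ _
      rw [Finset.mem_filter, mem_bl hL'0.le] at hx
      rw [Finset.mem_filter, mem_bl hL'0.le]
      refine ⟨hx.1, ?_⟩
      have e5 : (kc (x * (E * X₁))).1 = (kc (x * (E * V₁))).1 :=
        LSq50.kc_of_eq (mul_ne_zero hx.1.1 (mul_ne_zero hEp.ne_zero hV₁0)) hn₁0
          (by rw [hX₁]; ring)
      rw [e5]
      exact ker_cop (mul_ne_zero hx.1.1 (mul_ne_zero hEp.ne_zero hV₁0))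
        (hx.2.mul_left (cE.mul_left cV))
    refine hleft.trans (hmode.trans ?_)
    -- the right side
    have hZ'e : Z' ^ (ε / 20) ≤ 729 ^ (ε / 20) * Z ^ (ε / 2) * L ^ ε := by
      rw [hZ', Real.mul_rpow (by positivity) hL0.le, Real.mul_rpow (by norm_num) (by positivity)]
      have h3 : (Z ^ 10) ^ (ε / 20) = Z ^ (ε / 2) := by
        rw [← Real.rpow_natCast, ← Real.rpow_mul hZ0.le]
        congr 1; push_cast; ring
      have h4 : L ^ (ε / 20) ≤ L ^ ε := Real.rpow_le_rpow_of_exponent_le hL (by linarith)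
      rw [h3]
      gcongr
    have hDT : ∀ e : ℝ, DT e (cw * Yc) (bF κu F' b) (ρ * (κu * F')) ≤
        TC e (cw * N) (bF κ₁ 1 b) x0 := by
      intro e
      have h3 : cw * Yc = cw * N / nm x0 := by rw [hYc]; ring
      rw [h3]
      exact DT_lek hκup hF'p hκ₁ hx0p cxκ hb ρ e3 e (cw * N)
    set Bs : ℝ := ∑ jj : Bool, nfx jj Lt' (Il (Nb₀ * nm κu) Lt' Yc) *
      (W1 jj * wF jj (nm F')) with hBs
    have hIl0 : 0 < Il (Nb₀ * nm κu) Lt' Yc := by unfold Il; positivity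
    have hBs0 : 0 ≤ Bs := Finset.sum_nonneg fun jj _ =>
      mul_nonneg (nfx_nonneg jj hLt'0.le hIl0.le) (mul_nonneg (hW1 jj) (wF_nonneg jj (by linarith)))
    have hW' : 1 ≤ Lt' → Bs ≤ W := by
      intro _
      have h5 := wx_le hNb hN hLst (by linarith : (0 : ℝ) < nm a) (by linarith : (0 : ℝ) < nm D)
          (by linarith : (0 : ℝ) < nm F) (by linarith : (0 : ℝ) < nm E) nU0
          (by positivity : (0 : ℝ) < nm κu / nm κ₁) hkk hW1
      rw [hNbk] at h5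
      have e8 : (nm F' : ℝ) = nm F * (nm E * nm U) := by
        rw [hF', nm_mul, nm_mul]; push_cast; ring
      rw [hW, hBs, e8]
      unfold Il
      have e9 : (nm x0 : ℝ) = nm a * nm D * nm F := by
        rw [hx0, nm_mul, nm_mul]; push_cast; ring
      rw [hYc, hLt', hLt0, e9]
      exact h5
    have hcomp := CBx_ge (L := L) (L' := L') (ϱ := ϱ) (Yc := Yc) (Lt₀ := Lt₀) (Lt' := Lt')
      (L0' := L0') (T1 := T1) (T1' := DT 1 (cw * Yc) (bF κu F' b) (ρ * (κu * F'))) (T2 := T2)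
      (T2' := DT (1 / 2) (cw * Yc) (bF κu F' b) (ρ * (κu * F'))) (W := W)
      (W' := Bs)
      (S1 := ∑ n ∈ (S (cw * Yc)).filter (fun n => IsCoprime n r), ‖CS (bF κu F' b) n‖ ^ 2)
      hL'0.le hL'L hϱ0 hYc0.le hLt'0 hLt'L hratio (DT_nonneg _ _ _ _) (hDT 1)
      (Finset.sum_nonneg fun _ _ => by positivity)
      ((S_le_DT (by positivity) _ hr₁).trans (hDT 1)) (DT_nonneg _ _ _ _) (hDT (1 / 2))
      hBs0 hW' hW0
    have hY3 : 0 ≤ Yc ^ (-(1 : ℝ) / 3) := by positivity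
    calc _ ≤ C₁ * (729 ^ (ε / 20) * Z ^ (ε / 2) * L ^ ε) * Yc ^ (-(1 : ℝ) / 3) *
        (((L0' / Lt') ^ (1 / 3 : ℝ) * Yc + (if Lt' ≤ L0' then L' + (L' * Yc) ^ (2 / 3 : ℝ) else 0)) *
        (∑ n ∈ (S (cw * Yc)).filter (fun n => IsCoprime n r), ‖CS (bF κu F' b) n‖ ^ 2) +
        (if 1 ≤ Lt' then (L0' / Lt') ^ (1 / 3 : ℝ) *
          (Yc * Bs +
          ((Yc + (Lt' * Yc) ^ (2 / 3 : ℝ)) * DT 1 (cw * Yc) (bF κu F' b) (ρ * (κu * F')) +
          Lt' * Yc ^ (1 / 2 : ℝ) * DT (1 / 2) (cw * Yc) (bF κu F' b) (ρ * (κu * F')))) else 0)) := by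
          refine mul_le_mul_of_nonneg_right ?_ ?_
          · exact mul_le_mul_of_nonneg_right (mul_le_mul_of_nonneg_left hZ'e hC₁) hY3
          · have i1 : 0 ≤ DT 1 (cw * Yc) (bF κu F' b) (ρ * (κu * F')) := DT_nonneg _ _ _ _
            have i2 : 0 ≤ DT (1 / 2) (cw * Yc) (bF κu F' b) (ρ * (κu * F')) := DT_nonneg _ _ _ _
            have i3 : 0 ≤ ∑ n ∈ (S (cw * Yc)).filter (fun n => IsCoprime n r),
              ‖CS (bF κu F' b) n‖ ^ 2 := Finset.sum_nonneg fun _ _ => by positivity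
            split_ifs <;> positivity
      _ ≤ _ := mul_le_mul_of_nonneg_left hcomp (by positivity)
  -- the sum over the divisors
  have hcard : ((pdiv κt).card : ℝ) ≤ Ct * Z ^ (ε / 2) := by
    rw [← dvs_eq_pdiv hκtp.ne_zero]
    refine (hτ κt hκtp.ne_zero).trans (mul_le_mul_of_nonneg_left ?_ (by linarith))
    have h3 : (nm κt : ℝ) ≤ Z ^ 3 := by
      have h3' : κt ∣ a * D * κ₁ := ⟨E * k2, by rw [← hκE, hk12, hκt]; ring⟩
      have h4 : (nm κt : ℝ) ≤ nm (a * D * κ₁) := by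
        exact_mod_cast Div277.nm_le_of_dvd
          (mul_ne_zero (mul_ne_zero ha.ne_zero hD.ne_zero) hκ₁.ne_zero) h3'
      have h5 : (nm (a * D * κ₁) : ℝ) = nm a * nm D * nm κ₁ := by
        rw [nm_mul (a * D) κ₁, nm_mul a D]; push_cast; ring
      calc (nm κt : ℝ) ≤ nm a * nm D * nm κ₁ := h4.trans h5.le
        _ ≤ Z * Z * Z := by gcongr
        _ = Z ^ 3 := by ring
    calc (nm κt : ℝ) ^ (ε / 6) ≤ (Z ^ 3) ^ (ε / 6) :=
          Real.rpow_le_rpow (Nat.cast_nonneg _) h3 (by positivity)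
      _ = Z ^ (ε / 2) := by
          rw [← Real.rpow_natCast, ← Real.rpow_mul hZ0.le]
          congr 1; push_cast; ring
  have hterm0 : 0 ≤ C₁ * (729 ^ (ε / 20) * Z ^ (ε / 2) * L ^ ε) * Yc ^ (-(1 : ℝ) / 3) *
      CBx L ϱ Yc Lt₀ T1 T2 W := by positivity
  calc _ ≤ ∑ u ∈ pdiv κt, C₁ * (729 ^ (ε / 20) * Z ^ (ε / 2) * L ^ ε) * Yc ^ (-(1 : ℝ) / 3) *
      CBx L ϱ Yc Lt₀ T1 T2 W := Finset.sum_le_sum hu
    _ = ((pdiv κt).card : ℝ) * (C₁ * (729 ^ (ε / 20) * Z ^ (ε / 2) * L ^ ε) *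
      Yc ^ (-(1 : ℝ) / 3) * CBx L ϱ Yc Lt₀ T1 T2 W) := by
        rw [Finset.sum_const, nsmul_eq_mul]
    _ ≤ (Ct * Z ^ (ε / 2)) * (C₁ * (729 ^ (ε / 20) * Z ^ (ε / 2) * L ^ ε) *
      Yc ^ (-(1 : ℝ) / 3) * CBx L ϱ Yc Lt₀ T1 T2 W) :=
        mul_le_mul_of_nonneg_right hcard hterm0
    _ = _ := by
        have h3 : Z ^ ε = Z ^ (ε / 2) * Z ^ (ε / 2) := by
          rw [← Real.rpow_add hZ0]; congr 1; ring
        rw [h3]; ring

end Crest.Agent.R017.E3qx842
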