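import Crest.Agent.R017.E3qx17_842
import Crest.Agent.R017.E3q18_681

/-!
# Row 17, class E, x-side: the block bound, inner dilations, two classes of frequencies
(helper512, from helper681's E3q18)

* `XBjx` : the bound of one index;  `sum_R1fx` : the sum over the cells
* **`XBm`** : the block bound from helper842's `XDm`
-/

set_option autoImplicit false
set_option linter.unusedVariables false
set_option maxHeartbeats 400000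

noncomputable section

open Complex MeasureTheory
open scoped ComplexConjugate Classical ContDiff

namespace Crest.Agent.R017.E3qx842

open Crest.Agent.R012 Crest.Agent.R012.Eis Crest.Agent.R012.MC
open Crest.Agent.R012.LS2 (S mem_S bl mem_bl)
open Crest.Agent.R012.Div277 (dvs mem_dvs isPrim_of_mem_dvs dvd_of_mem_dvs tau tau_le_rpow)
open Crest.Agent.R012.Mob705 (mu pdiv mem_pdiv)
open Crest.Agent.R012.NonCube52 (Ker kv Good kc kc_spec kc_nm kv_ne_zero one_le_nmkv)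
open Crest.Agent.R012.Weight600 (pw)
open Crest.Agent.R017.PX764 (n6)
open Crest.Agent.R017.CM106 (CS TG FS)
open Crest.Agent.R017.E1551 (nmpos jb jb_pos nm_ge_one summable_wF)
open Crest.Agent.R017.BD829
open Crest.Agent.R017.E3P842
open Crest.Agent.R017.E3D579
open Crest.Agent.R017.E3Sd579
open Crest.Agent.R017.Mode405
open Crest.Agent.R017.E3q681
open Crest.Agent.R017.E3Su290 (MB T1)
open Crest.Agent.R017.PoHx72 (nfx nfx_nonneg)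
open Crest.Agent.R017.DgB829 (HS HS_nonneg HS_le)
open Gauss880 (syG)

/-- the bound of one index, two classes: the diagonal, `TW 1`, `W1`, `TW (1/2)` -/
def XBjx (K H Λ m₀ N mi q Nb : ℝ) (W1 : Bool → ℝ) (cw : ℝ) (R : Eis) (b : Eis → ℂ) : ℝ :=
  TD (cw * N) R b + kap1 K H Λ m₀ mi q * TW 1 (cw * N) b +
    H ^ (-(1 / 3) : ℝ) * q ^ (1 / 3 : ℝ) * ((Real.sqrt (Lst K H Λ m₀ N mi) +
      Real.sqrt (Lst K H Λ m₀ N mi * N / Nb)) * W1 false +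
      Lst K H Λ m₀ N mi ^ (1 / 3 : ℝ) * (N / Nb) ^ (2 / 3 : ℝ) * W1 true +
      Lst K H Λ m₀ N mi * N ^ (-(1 / 2) : ℝ) * TW (1 / 2) (cw * N) b)

/-- the sum of the structured parts, two classes -/
lemma sum_R1fx {C δ : ℝ} (hC : ∀ (Z X M₀ Y e : ℝ) (b : Eis → ℂ),
    1 ≤ Z → 0 ≤ X → X ≤ Z → 0 ≤ M₀ → 0 ≤ Y →
    ∑ a ∈ S M₀, ∑ D ∈ S Y, ∑ F ∈ S Y,
      (if Squarefree (a * D * F) then TC e X b (a * D * F) else 0) ≤ C * Z ^ δ * TW e X b)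
    {K H Λ m₀ mi cf X Z M₀ Y N Nb Z' : ℝ} {W1 : Bool → ℝ} (hcf : 0 ≤ cf) (hZ : 1 ≤ Z)
    (hX : 0 ≤ X) (hXZ : X ≤ Z) (hM : 0 ≤ M₀) (hY : 0 ≤ Y) (hN : 0 < N) (hNb : 0 < Nb)
    (hW1 : ∀ jj, 0 ≤ W1 jj) (hMZ : M₀ ≤ Z')
    (hYZ : Y ≤ Z') (hL : 0 ≤ Lst K H Λ m₀ N mi) (b : Eis → ℂ) :
    ∑ a ∈ S M₀, ∑ D ∈ S Y, ∑ F ∈ S Y, R1fx cf X (Lst K H Λ m₀ N mi) N Nb W1 b a D F ≤
      cf * ((16 * Real.sqrt (Lst K H Λ m₀ N mi) * HS Z' ^ 2 +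
        Real.sqrt (Lst K H Λ m₀ N mi * N / Nb) * HS Z' ^ 3) * W1 false +
        Lst K H Λ m₀ N mi ^ (1 / 3 : ℝ) * (N / Nb) ^ (2 / 3 : ℝ) * HS Z' ^ 3 * W1 true +
        Lst K H Λ m₀ N mi * N ^ (-(1 / 2) : ℝ) * (C * Z ^ δ * TW (1 / 2) X b)) := by
  have h1 := sum_R1f hC hcf hZ hX hXZ hM hY hN hNb (hW1 false) hMZ hYZ hL b
  have s2 := sum3_inv hM hMZ hY hYZ
  set Ls := Lst K H Λ m₀ N mi with hLs
  set cb : ℝ := Ls ^ (1 / 3 : ℝ) * (N / Nb) ^ (2 / 3 : ℝ) with hcb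
  have hcb0 : 0 ≤ cb := by positivity
  have hWt := hW1 true
  have hkey : ∀ a D F : Eis, R1fx cf X Ls N Nb W1 b a D F ≤ R1f cf X Ls N Nb (W1 false) b a D F +
      cf * (cb * W1 true) * ((1 : ℝ) / ((nm a * nm D : ℝ) ^ 2 * (nm F : ℝ) ^ 2)) := by
    intro a D F
    unfold R1fx R1f
    split_ifs
    · refine le_of_eq ?_
      unfold Wx
      rw [← hcb]
      ring
    · have : 0 ≤ cf * (cb * W1 true) * ((1 : ℝ) / ((nm a * nm D : ℝ) ^ 2 * (nm F : ℝ) ^ 2)) := by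
        positivity
      linarith
  refine (Finset.sum_le_sum fun a _ => Finset.sum_le_sum fun D _ =>
    Finset.sum_le_sum fun F _ => hkey a D F).trans ?_
  simp only [Finset.sum_add_distrib, ← Finset.mul_sum]
  have h2 := mul_le_mul_of_nonneg_left s2 (show 0 ≤ cf * (cb * W1 true) by positivity)
  calc _ ≤ cf * ((16 * Real.sqrt Ls * HS Z' ^ 2 +
        Real.sqrt (Ls * N / Nb) * HS Z' ^ 3) * W1 false +
        Ls * N ^ (-(1 / 2) : ℝ) * (C * Z ^ δ * TW (1 / 2) X b)) +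
        cf * (cb * W1 true) * HS Z' ^ 3 := add_le_add h1 h2
    _ = _ := by ring

set_option maxHeartbeats 4000000 in
/-- **the block bound**, two classes of frequencies, inner dilations `κ₁ i` -/
theorem XBm {χ : Eis → ℂ} {w1 h : ℝ → ℝ} (hχ : Mul1 χ) (hw1W : Wgt w1) {Rw : ℝ} (hRw : 0 ≤ Rw)
    {R₀ : ℝ} (hR₀ : 0 ≤ R₀) (hh : ContDiff ℝ ∞ h) (hhc : HasCompactSupport h)
    (hw : ∀ x, w1 x ≠ 0 → 0 < x ∧ |Real.log x| ≤ R₀)
    (hw1 : ∀ x, 0 < x → h (Real.log x) ≠ 0 → w1 x = 1) {ε : ℝ} (hε : 0 < ε) {C₁ cw0 : ℝ}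
    (hC₁ : 0 ≤ C₁) (hcw0 : 1 ≤ cw0) {A' : ℕ} (hA' : 1 < A') :
    ∃ (C cw : ℝ), 0 ≤ C ∧ 1 ≤ cw ∧
      ∀ {ι : Type*} {I : Finset ι} {T : ℕ}
      {N Nb₀ : ι → ℝ} {W1 : ι → Bool → ℝ} {q : ι → ℝ} {m Q R ρ κ₁ : ι → Eis}
      {V b₀ : ι → Eis → ℂ} {cc κ : ι → ℂ}
      {om Om : ι → ℝ → ℂ} {K H Λ m₀ Z Mb τ : ℝ},
      XDm h χ w1 A' (min (1 / 2) (ε / 1024)) C₁ cw0 Rw I T N Nb₀ W1 q m Q R ρ κ₁ V b₀ cc κ om Om
        K H Λ m₀ Z Mb τ →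
      ∀ P : Finset Eis, (∀ a ∈ P, IsPrim a ∧ K ≤ nm a ∧ (nm a : ℝ) ≤ 2 * K) →
      ∑ a ∈ P, ‖AQ I m V a‖ ^ 2 ≤
        C * T * Z ^ ε * ((1 + |τ|) ^ A' * Mb ^ 2) * (K * ∑ i ∈ I, ‖cc i‖ ^ 2 *
          N i ^ (-(1 / 3) : ℝ) * XBjx K H Λ m₀ (N i) (nm (m i)) (q i) (Nb₀ i * nm (κ₁ i)) (W1 i) cw (R i)
            (bF (κ₁ i) 1 (b₀ i))) := by
  set ε1 : ℝ := min (1 / 2) (ε / 1024) with hε1
  have hε10 : 0 < ε1 := lt_min (by norm_num) (by positivity)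
  set δ : ℝ := ε / 16 with hδ
  have hδ0 : 0 < δ := by positivity
  have hε12 : ε1 ≤ δ / 64 := by
    refine (min_le_right _ _).trans (le_of_eq ?_)
    rw [hδ]; ring
  obtain ⟨Cc, cw, hCc, hcw, hcwR, hcell⟩ := cell_GBkx (Rw := Rw) hχ hw1W hR₀
    hh hhc hw hw1 hε10 hC₁ hcw0 hA'
  obtain ⟨Cb, hCb, hblock⟩ := AQ_blockE (R := 2 * R₀) (by positivity) (A := A') (B := 3) hA' le_rfl
    hδ0 hε10 (min_le_left _ _) hε12
  obtain ⟨Cq, hCq, htq⟩ := tq_sum hδ0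
  obtain ⟨Ch, hCh⟩ : ∃ Ch : ℝ, ∀ x, |h x| ≤ Ch := by
    obtain ⟨C, hC⟩ := hhc.exists_bound_of_continuous hh.continuous
    exact ⟨C, fun x => by simpa using hC x⟩
  have hCh0 : 0 ≤ Ch := (abs_nonneg _).trans (hCh 0)
  set ch : ℝ := 200 * (1 + 1 / δ) with hch
  have hch0 : 0 ≤ ch := by positivity
  have hcw0' : 0 < cw := by linarith
  set cq : ℝ := Cq * cw ^ δ with hcq
  have hcq0 : 0 ≤ cq := by positivity
  set D1 : ℝ := Ch ^ 2 * Real.exp (R₀ / 3) with hD1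
  set D2 : ℝ := Cc * (2 * cq) with hD2
  set D3 : ℝ := Cc * (16 * ch ^ 2 + ch ^ 3 + cq) with hD3
  have hD10 : 0 ≤ D1 := by positivity
  have hD20 : 0 ≤ D2 := by positivity
  have hD30 : 0 ≤ D3 := by positivity
  refine ⟨Cb * (D1 + D2 + D3), cw, by positivity, hcw, ?_⟩
  intro ι I T N Nb₀ W1 q m Q R ρ κ₁ V b₀ cc κ om Om K H Λ m₀ Z Mb τ hX P hPP
  have hZ1 := hX.Z1
  have hZ0 : 0 < Z := by linarith
  have hZ3 : 1 ≤ Z ^ 3 := one_le_pow₀ hZ1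
  have hZZ3 : Z ≤ Z ^ 3 := le_self_pow₀ hZ1 (by norm_num)
  have hZ30 : 0 ≤ Z ^ 3 := by positivity
  have hZ3p : 0 < Z ^ 3 := by positivity
  have hcZ3 : 1 ≤ cw * Z ^ 3 := one_le_mul_of_one_le_of_one_le hcw hZ3
  have hK := hX.K0
  have hH := hX.H0
  have hm₀ := hX.m0
  have hMb := hX.Mb0
  have hN : ∀ i ∈ I, 0 < N i := hX.N0
  have nmi : ∀ i ∈ I, (0 : ℝ) < nm (m i) := fun i hi => nmpos (hX.pi.hm i hi).ne_zero
  have hq1 : ∀ i ∈ I, 1 ≤ q i := fun i hi =>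
    (nk_ge_one (pow_ne_zero 2 (hX.Q0 i hi))).trans (hX.q0 i hi)
  set Mi : ι → ℝ := fun i => ‖cc i‖ ^ 2 * (Mb ^ 2 * (1 + |τ|) ^ A') with hMi
  have hMi0 : ∀ i, 0 ≤ Mi i := fun i => by rw [hMi]; positivity
  set cf : ι → ℝ := fun i => Cc * (Z ^ 3) ^ ε1 * Mi i with hcf
  have hcf0 : ∀ i, 0 ≤ cf i := fun i => mul_nonneg (by positivity) (hMi0 i)
  set Ls : ι → ℝ := fun i => Lst K H Λ m₀ (N i) (nm (m i)) with hLs
  set T1 : ι → ℝ := fun i => TW 1 (cw * N i) (bF (κ₁ i) 1 (b₀ i)) with hT1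
  set T2 : ι → ℝ := fun i => TW (1 / 2) (cw * N i) (bF (κ₁ i) 1 (b₀ i)) with hT2
  have hT10 : ∀ i, 0 ≤ T1 i := fun i => TW_nonneg _ _ _
  have hT20 : ∀ i, 0 ≤ T2 i := fun i => TW_nonneg _ _ _
  have hLs0 : ∀ i ∈ I, 0 ≤ Ls i := by
    intro i hi
    have h1 := hN i hi
    have h2 := nmi i hi
    have h3 : 0 < Λ := lt_of_lt_of_le (by positivity) (hX.NΛ i hi)
    rw [hLs]; beta_reduce
    unfold Lst; positivity
  set TQt : ι → ℝ := fun i => cf i * (2 * (Cq * (cw * Z ^ 3) ^ δ * T1 i)) with hTQt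
  set Rt : ι → ℝ := fun i => cf i * ((16 * Real.sqrt (Ls i) * HS (Z ^ 3) ^ 2 +
        Real.sqrt (Ls i * N i / (Nb₀ i * nm (κ₁ i))) * HS (Z ^ 3) ^ 3) * W1 i false +
        Ls i ^ (1 / 3 : ℝ) * (N i / (Nb₀ i * nm (κ₁ i))) ^ (2 / 3 : ℝ) * HS (Z ^ 3) ^ 3 *
          W1 i true +
        Ls i * N i ^ (-(1 / 2) : ℝ) * (Cq * (cw * Z ^ 3) ^ δ * T2 i)) with hRt
  have hhs : ∀ x, 0 < x → h (Real.log x) ≠ 0 → |Real.log x| ≤ R₀ := fun x hx h1 =>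
    (hw x (by rw [hw1 x hx h1]; norm_num)).2
  have hPHE : PHE ε1 I A' T N m V K H Λ m₀ Z (Z ^ 3) Z (Z ^ 3) (2 * R₀) q
      (fun i a D F => TQf (cf i) (cw * N i) (bF (κ₁ i) 1 (b₀ i)) a D F)
      (fun i a D F => R1fx (cf i) (cw * N i) (Lst K H Λ m₀ (N i) (nm (m i))) (N i) (Nb₀ i * nm (κ₁ i)) (W1 i)
        (bF (κ₁ i) 1 (b₀ i)) a D F) TQt Rt := by
    refine ⟨hX.pi, hZ3, hK, hX.KZ.trans hZZ3, hH, hm₀, ?_, hZ3, le_rfl, hZ0.le, hZZ3, ?_, ?_, hN,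
      fun i hi => (hX.NZ i hi).trans hZZ3, fun i hi => (hX.mZ i hi).trans hZZ3, hX.mZ, hX.mm,
      hX.NΛ, ?_, hX.hT, ?_, ?_, ?_, ?_, ?_⟩
    · exact hX.ΛZ.trans (le_self_pow₀ hZ3 (by norm_num))
    · intro i hi j hj
      have h1 := hX.mZ i hi
      have h2 := hX.mZ j hj
      have h3 := (nmi i hi).le
      have h4 := (nmi j hj).le
      calc (nm (m i) : ℝ) * nm (m j) * Z ≤ Z * Z * Z := by gcongr
        _ = Z ^ 3 := by ring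
    · intro i hi; linarith [hq1 i hi]
    · intro i hi n hn
      rw [hX.VE i hi] at hn
      obtain ⟨hp, hs, hcop, ho⟩ := SA_supp hn
      have nn := nmpos hp.ne_zero
      have e1 := hX.omE i hi (nm n) nn
      have hhn : h (Real.log (nm n) - Real.log (N i)) ≠ 0 := by
        intro h0
        rw [e1, h0] at ho
        exact ho (by simp)
      have hNi := hN i hi
      have e2 : Real.log (nm n) - Real.log (N i) = Real.log (nm n / N i) :=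
        (Real.log_div nn.ne' hNi.ne').symm
      have h1 : |Real.log (nm n / N i)| ≤ R₀ := by
        refine hhs _ (by positivity) ?_
        rw [← e2]; exact hhn
      rw [e2]
      linarith
    · intro i hi a D F
      unfold TQf
      split_ifs
      · have := TC_nonneg 1 (cw * N i) (bF (κ₁ i) 1 (b₀ i)) (a * D * F)
        have := hcf0 i
        positivity
      · exact le_rfl
    · intro i hi a D F
      unfold R1fx
      split_ifs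
      · have h1 := TC_nonneg (1 / 2) (cw * N i) (bF (κ₁ i) 1 (b₀ i)) (a * D * F)
        have h2 := hcf0 i
        have h3 : 0 ≤ Lst K H Λ m₀ (N i) (nm (m i)) := hLs0 i hi
        have h4 := hN i hi
        have h5 : 0 ≤ Nb₀ i * nm (κ₁ i) := mul_nonneg (hX.Nb0 i hi).le (Nat.cast_nonneg _)
        have h6 := Wx_nonneg (N := N i) (a := nm a) (D := nm D) (F := nm F) h3 h4.le h5
          (Nat.cast_nonneg _) (Nat.cast_nonneg _) (Nat.cast_nonneg _) (hX.W0 i hi)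
        positivity
      · exact le_rfl
    · intro i hi s hs hsm b' hb' hbm a ha D hD E hE F hF L hL
      exact hcell hX i hi s hs hsm b' hb' hbm a ha D hD E hE F hF L hL
    · intro i hi
      have hNi := hN i hi
      exact sum_TQf htq (hcf0 i) hcZ3 (by positivity)
        (mul_le_mul_of_nonneg_left ((hX.NZ i hi).trans hZZ3) hcw0'.le) hZ0.le hZ30 (bF (κ₁ i) 1 (b₀ i))
    · intro i hi
      have hNi := hN i hi
      exact sum_R1fx htq (hcf0 i) hcZ3 (by positivity)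
        (mul_le_mul_of_nonneg_left ((hX.NZ i hi).trans hZZ3) hcw0'.le) hZ0.le hZ30 hNi
        (mul_pos (hX.Nb0 i hi) (nmpos (hX.κp i hi).ne_zero)) (hX.W0 i hi) hZZ3 le_rfl (hLs0 i hi) (bF (κ₁ i) 1 (b₀ i))
  have hmain := hblock I T N m V K H Λ m₀ Z (Z ^ 3) Z (Z ^ 3) q _ _ TQt Rt hPHE P hPP
  refine hmain.trans ?_
  -- the exponents
  set z : ℝ := (Z ^ 3) ^ δ with hz
  set z1 : ℝ := (Z ^ 3) ^ ε1 with hz1
  have hzge : 1 ≤ z := Real.one_le_rpow hZ3 hδ0.le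
  have hz1ge : 1 ≤ z1 := Real.one_le_rpow hZ3 hε10.le
  have hz0 : 0 ≤ z := by linarith
  have hE : z ^ 4 * z1 ≤ Z ^ ε := by
    rw [hz, hz1, ← Real.rpow_natCast, ← Real.rpow_mul hZ30, ← Real.rpow_add hZ3p,
      ← Real.rpow_natCast, ← Real.rpow_mul hZ0.le]
    refine Real.rpow_le_rpow_of_exponent_le hZ1 ?_
    have h1 : ε1 ≤ ε / 1024 := min_le_right _ _
    rw [hδ]
    push_cast
    linarith
  have hcz : (cw * Z ^ 3) ^ δ = cw ^ δ * z := Real.mul_rpow hcw0'.le hZ30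
  have hHS : HS (Z ^ 3) ≤ ch * z := HS_le_rpow hδ0 hZ3
  have hHS0 : 0 ≤ HS (Z ^ 3) := HS_nonneg _
  set E0 : ℝ := Z ^ ε with hE0
  have hE1 : 1 ≤ E0 := Real.one_le_rpow hZ1 hε.le
  have hτ1 : 1 ≤ (1 + |τ|) ^ A' := one_le_pow₀ (by linarith [abs_nonneg τ])
  -- one index
  have hone : ∀ i ∈ I, ∑ n ∈ S (Z ^ 3), ‖V i n‖ ^ 2 + z * (N i ^ (-(1 / 3) : ℝ) *
      (kap1 K H Λ m₀ (nm (m i)) (q i) * TQt i + H ^ (-(1 / 3) : ℝ) * q i ^ (1 / 3 : ℝ) * Rt i)) ≤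
      (D1 + D2 + D3) * (E0 * ((1 + |τ|) ^ A' * Mb ^ 2)) * (‖cc i‖ ^ 2 * N i ^ (-(1 / 3) : ℝ) *
        XBjx K H Λ m₀ (N i) (nm (m i)) (q i) (Nb₀ i * nm (κ₁ i)) (W1 i) cw (R i)
            (bF (κ₁ i) 1 (b₀ i))) := by
    intro i hi
    have hNi := hN i hi
    have hNp : 0 ≤ N i ^ (-(1 / 3) : ℝ) := by positivity
    have hq := hq1 i hi
    have hLi := hLs0 i hi
    have hWi := hX.W0 i hi
    have hmi := nmi i hi
    have hΛ : 0 < Λ := lt_of_lt_of_le (by positivity) (hX.NΛ i hi)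
    have hkap : 0 ≤ kap1 K H Λ m₀ (nm (m i)) (q i) := by
      unfold kap1 thR; positivity
    have hNbi := hX.Nb0 i hi
    have hκi := nmpos (hX.κp i hi).ne_zero
    have a1 : ∑ n ∈ S (Z ^ 3), ‖V i n‖ ^ 2 ≤ ‖cc i‖ ^ 2 * (Ch * Mb) ^ 2 * Real.exp (R₀ / 3) *
        N i ^ (-(1 / 3) : ℝ) * TD (cw * N i) (R i) (bF (κ₁ i) 1 (b₀ i)) := by
      rw [hX.VE i hi]
      exact diag_leD hχ hCh hhs hNi hMb (hX.κ1 i hi)
        (fun x => by simpa using hX.OmB i hi 0 (by omega) x) (hX.omE i hi) hcwR hZ30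
    have a2 : z * TQt i ≤ D2 * (E0 * Mi i * T1 i) := by
      rw [hTQt, hD2]
      have h1 := real2 (T1 := T1 i) hzge hz1ge hE hCc (hMi0 i) hcq0 (hT10 i)
      calc _ = z * (Cc * z1 * Mi i * (2 * (cq * z * T1 i))) := by
            simp only [hcf, hcz, hcq, ← hz1]; ring
        _ ≤ _ := h1
    set cb : ℝ := Ls i ^ (1 / 3 : ℝ) * (N i / (Nb₀ i * nm (κ₁ i))) ^ (2 / 3 : ℝ) with hcb
    have hcb0 : 0 ≤ cb := by positivity
    have a3 : z * Rt i ≤ D3 * (E0 * Mi i * ((Real.sqrt (Ls i) + Real.sqrt (Ls i * N i / (Nb₀ i * nm (κ₁ i)))) *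
        W1 i false + cb * W1 i true + Ls i * N i ^ (-(1 / 2) : ℝ) * T2 i)) := by
      rw [hRt, hD3]
      have h1 := real3 (z := z) (z1 := z1) (E0 := E0) (Cc := Cc) (M := Mi i) (ch := ch) (cq := cq)
        (a := Real.sqrt (Ls i)) (b := Real.sqrt (Ls i * N i / (Nb₀ i * nm (κ₁ i)))) (W1 := W1 i false)
        (L2 := Ls i * N i ^ (-(1 / 2) : ℝ)) (T2 := T2 i) (Hs := HS (Z ^ 3)) hzge hz1ge hE hCc
        (hMi0 i) hch0 hcq0 (Real.sqrt_nonneg _) (Real.sqrt_nonneg _) (hWi false) (by positivity)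
        (hT20 i) hHS0 hHS
      have h2 := real3 (z := z) (z1 := z1) (E0 := E0) (Cc := Cc) (M := Mi i) (ch := ch) (cq := cq)
        (a := 0) (b := cb) (W1 := W1 i true)
        (L2 := 0) (T2 := 0) (Hs := HS (Z ^ 3)) hzge hz1ge hE hCc
        (hMi0 i) hch0 hcq0 le_rfl hcb0 (hWi true) le_rfl le_rfl hHS0 hHS
      calc _ = z * (Cc * z1 * Mi i * ((16 * Real.sqrt (Ls i) * HS (Z ^ 3) ^ 2 +
            Real.sqrt (Ls i * N i / (Nb₀ i * nm (κ₁ i))) * HS (Z ^ 3) ^ 3) * W1 i false +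
            Ls i * N i ^ (-(1 / 2) : ℝ) * (cq * z * T2 i))) +
            z * (Cc * z1 * Mi i * ((16 * 0 * HS (Z ^ 3) ^ 2 + cb * HS (Z ^ 3) ^ 3) * W1 i true +
              0 * (cq * z * 0))) := by
            simp only [hcf, hcz, hcq, ← hz1, ← hcb]; ring
        _ ≤ _ := add_le_add h1 h2
        _ = _ := by ring
    set U : ℝ := (Real.sqrt (Ls i) + Real.sqrt (Ls i * N i / (Nb₀ i * nm (κ₁ i)))) *
        W1 i false + cb * W1 i true + Ls i * N i ^ (-(1 / 2) : ℝ) * T2 i with hU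
    have hU0 : 0 ≤ U := by
      have := hT20 i
      have := hWi false
      have := hWi true
      positivity
    have hXBi : XBjx K H Λ m₀ (N i) (nm (m i)) (q i) (Nb₀ i * nm (κ₁ i)) (W1 i) cw (R i)
        (bF (κ₁ i) 1 (b₀ i)) = TD (cw * N i) (R i) (bF (κ₁ i) 1 (b₀ i)) +
          kap1 K H Λ m₀ (nm (m i)) (q i) * T1 i +
          H ^ (-(1 / 3) : ℝ) * q i ^ (1 / 3 : ℝ) * U := rfl
    rw [hXBi]
    set kp := kap1 K H Λ m₀ (nm (m i)) (q i) with hkp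
    set Hq := H ^ (-(1 / 3) : ℝ) * q i ^ (1 / 3 : ℝ) with hHq
    have hHq0 : 0 ≤ Hq := by positivity
    set Np := N i ^ (-(1 / 3) : ℝ) with hNp'
    set t1 := T1 i with ht1
    have ht10 : 0 ≤ t1 := hT10 i
    set B := (1 + |τ|) ^ A' * Mb ^ 2 with hB
    have hB0 : 0 ≤ B := by positivity
    have hMB : Mi i = ‖cc i‖ ^ 2 * B := by rw [hMi, hB]; ring
    have hMbB : Mb ^ 2 ≤ E0 * B := by
      have h1 : Mb ^ 2 ≤ B := by
        rw [hB]; exact le_mul_of_one_le_left (by positivity) hτ1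
      exact h1.trans (le_mul_of_one_le_left hB0 hE1)
    set td := TD (cw * N i) (R i) (bF (κ₁ i) 1 (b₀ i)) with htd
    have htd0 : 0 ≤ td := TD_nonneg _ _ _
    have c1 : ∑ n ∈ S (Z ^ 3), ‖V i n‖ ^ 2 ≤ D1 * (E0 * B) * (‖cc i‖ ^ 2 * Np * td) := by
      refine a1.trans ?_
      calc ‖cc i‖ ^ 2 * (Ch * Mb) ^ 2 * Real.exp (R₀ / 3) * Np * td =
          D1 * Mb ^ 2 * (‖cc i‖ ^ 2 * Np * td) := by rw [hD1]; ring
        _ ≤ _ := by gcongr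
    have c2 : z * (Np * (kp * TQt i + Hq * Rt i)) ≤
        D2 * (E0 * B) * (‖cc i‖ ^ 2 * Np * (kp * t1)) +
          D3 * (E0 * B) * (‖cc i‖ ^ 2 * Np * (Hq * U)) := by
      calc z * (Np * (kp * TQt i + Hq * Rt i)) = Np * kp * (z * TQt i) + Np * Hq * (z * Rt i) := by
            ring
        _ ≤ Np * kp * (D2 * (E0 * Mi i * t1)) + Np * Hq * (D3 * (E0 * Mi i * U)) := by
            gcongr
        _ = _ := by rw [hMB]; ring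
    have c3 : 0 ≤ (D2 + D3) * (E0 * B) * (‖cc i‖ ^ 2 * Np * td) := by positivity
    have c4 : 0 ≤ (D1 + D3) * (E0 * B) * (‖cc i‖ ^ 2 * Np * (kp * t1)) := by positivity
    have c5 : 0 ≤ (D1 + D2) * (E0 * B) * (‖cc i‖ ^ 2 * Np * (Hq * U)) := by positivity
    nlinarith [c1, c2, c3, c4, c5]
  have hsum := Finset.sum_le_sum hone
  rw [Finset.sum_add_distrib, ← Finset.mul_sum, ← Finset.mul_sum] at hsum
  unfold OBR
  have hCT : 0 ≤ Cb * T * K := by positivity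
  calc Cb * T * (K * ∑ i ∈ I, ∑ n ∈ S (Z ^ 3), ‖V i n‖ ^ 2) + Cb * T * z *
        (K * ∑ i ∈ I, N i ^ (-(1 / 3) : ℝ) * (kap1 K H Λ m₀ (nm (m i)) (q i) * TQt i +
          H ^ (-(1 / 3) : ℝ) * q i ^ (1 / 3 : ℝ) * Rt i))
      = Cb * T * K * (∑ i ∈ I, ∑ n ∈ S (Z ^ 3), ‖V i n‖ ^ 2 +
        z * ∑ i ∈ I, N i ^ (-(1 / 3) : ℝ) * (kap1 K H Λ m₀ (nm (m i)) (q i) * TQt i +
          H ^ (-(1 / 3) : ℝ) * q i ^ (1 / 3 : ℝ) * Rt i)) := by ring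
    _ ≤ Cb * T * K * ((D1 + D2 + D3) * (E0 * ((1 + |τ|) ^ A' * Mb ^ 2)) *
        ∑ i ∈ I, ‖cc i‖ ^ 2 * N i ^ (-(1 / 3) : ℝ) *
          XBjx K H Λ m₀ (N i) (nm (m i)) (q i) (Nb₀ i * nm (κ₁ i)) (W1 i) cw (R i)
            (bF (κ₁ i) 1 (b₀ i))) :=
        mul_le_mul_of_nonneg_left hsum hCT
    _ = _ := by ring

/-- **the block bound**, constants in helper939's order -/
theorem XBm' {χ : Eis → ℂ} {w1 h : ℝ → ℝ} (hχ : Mul1 χ) (hw1W : Wgt w1) {Rw : ℝ} (hRw : 0 ≤ Rw)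
    {R₀ : ℝ} (hR₀ : 0 ≤ R₀) (hh : ContDiff ℝ ∞ h) (hhc : HasCompactSupport h)
    (hw : ∀ x, w1 x ≠ 0 → 0 < x ∧ |Real.log x| ≤ R₀)
    (hw1 : ∀ x, 0 < x → h (Real.log x) ≠ 0 → w1 x = 1) {ε : ℝ} (hε : 0 < ε) :
    ∃ ε1 : ℝ, 0 < ε1 ∧ ∀ {C₁ cw0 : ℝ}, 0 ≤ C₁ → 1 ≤ cw0 → ∀ {A' : ℕ}, 1 < A' →
    ∃ (C cw : ℝ), 0 ≤ C ∧ 1 ≤ cw ∧
      ∀ {ι : Type*} {I : Finset ι} {T : ℕ}
      {N Nb₀ : ι → ℝ} {W1 : ι → Bool → ℝ} {q : ι → ℝ} {m Q R ρ κ₁ : ι → Eis}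
      {V b₀ : ι → Eis → ℂ} {cc κ : ι → ℂ}
      {om Om : ι → ℝ → ℂ} {K H Λ m₀ Z Mb τ : ℝ},
      XDm h χ w1 A' ε1 C₁ cw0 Rw I T N Nb₀ W1 q m Q R ρ κ₁ V b₀ cc κ om Om
        K H Λ m₀ Z Mb τ →
      ∀ P : Finset Eis, (∀ a ∈ P, IsPrim a ∧ K ≤ nm a ∧ (nm a : ℝ) ≤ 2 * K) →
      ∑ a ∈ P, ‖AQ I m V a‖ ^ 2 ≤
        C * T * Z ^ ε * ((1 + |τ|) ^ A' * Mb ^ 2) * (K * ∑ i ∈ I, ‖cc i‖ ^ 2 *
          N i ^ (-(1 / 3) : ℝ) * XBjx K H Λ m₀ (N i) (nm (m i)) (q i) (Nb₀ i * nm (κ₁ i)) (W1 i) cw (R i)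
            (bF (κ₁ i) 1 (b₀ i))) :=
  ⟨min (1 / 2) (ε / 1024), lt_min (by norm_num) (by positivity), fun {_ _} hC₁ hcw0 {_} hA' =>
    XBm hχ hw1W hRw hR₀ hh hhc hw hw1 hε hC₁ hcw0 hA'⟩

end Crest.Agent.R017.E3qx842
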