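import Crest.Agent.R017.E4BWa_858

/-!
# Row 17, C70/E4 (helper858): the common bilinear bound `BW` of `LBp` and `LBd`
-/

set_option autoImplicit false

noncomputable section

open Complex
open scoped ComplexConjugate

namespace Crest.Agent.R017.E4BW858

open Crest.Agent.R012 Crest.Agent.R012.Eis Crest.Agent.R012.Mob705 Crest.Agent.R012.Gauss880
open Crest.Agent.R012.Div277
open Crest.Agent.R017.Sx545 Crest.Agent.R017.CM106 Crest.Agent.R017.C70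
open Crest.Agent.R017.E4352

open Classical in
/-- **the common bilinear bound** -/
def BW : Prop := ∀ ε : ℝ, 0 < ε → ∃ C : ℝ, 0 ≤ C ∧
  ∀ (M f : Eis) (O : Type) (_ : Fintype O) (lam : O → ℝ) (v w : O → Eis → ℂ) (X K : ℝ)
    (g : Eis → Eis → ℂ) (Bd : ℝ → ℝ → ℝ) (S : ℝ), 1 ≤ X → (∀ o, 1 ≤ lam o) → Sm M f →
    (nm f : ℝ) ≤ X → 0 < K → K ≤ X → 0 ≤ S → BdC Bd →
    (∀ b R Z κ, Sm M b → PrI b R → PrI b Z → (∀ p : Eis, Prime p → p ∣ b → p ∣ f * R * Z) →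
      0 < κ → PBo M lam b R Z (g b) v w κ ≤ Bd κ (nm (rd Z))) →
    (∀ b₁ b₃ κ : ℝ, 1 ≤ b₁ → 1 ≤ b₃ → 1 / 4 ≤ κ → κ * b₁ ^ 2 * b₃ ^ 3 ≤ K →
      b₁ ^ (1 / 2 : ℝ) * b₃ * κ ^ (-(1 / 2) : ℝ) * Bd κ (b₁ * b₃) ≤ S) →
    ∑ o, (lam o)⁻¹ * ∑ d ∈ (primBall ⌊K / lam o⌋₊).filter (fun d => Sm M d), ((nm d : ℝ))⁻¹ *
      ∑ i ∈ IxS f d X, ‖gs (f * i.2.1 * i.2.2) i.1.1‖ *
        (‖Sd (tws i.2.1 i.1.1 (g i.1.1) (v o)) i.1.2‖ *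
          ‖CS (tws i.2.2 i.1.1 (g i.1.1) (w o)) i.1.2‖) ≤ C * X ^ ε * S

end Crest.Agent.R017.E4BW858
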