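import Crest.Agent.R017.E4defs_352

/-!
# Row 17, C70/E4, the bilinear bound (helper858), part a: size of `gs (f R Z) b`

* `gs_le_om` : `‖gs u b‖ ≤ nm b ∏_{p ∣ b} om u b p`
* `gs_struct` : the size in terms of `b₁`, `b₃`
-/

set_option autoImplicit false

noncomputable section

open Complex
open scoped ComplexConjugate

namespace Crest.Agent.R017.E4BW858

open Crest.Agent.R012 Crest.Agent.R012.Eis Crest.Agent.R012.Mob705
open Crest.Agent.R012.GaussLoc283 (syAx gs_mul norm_gs_le gs_prime_of_dvd gs_table_succ gs_table_le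
  gs_table_ge norm_gs_prime_sq gs_one_right)
open Crest.Agent.R012.Div277 (nm_le_of_dvd)
open Crest.Agent.R017.E4352

open Classical in
/-- local size -/
def om (u b p : Eis) : ℝ :=
  if p ∣ u then if p ^ 2 ∣ b then if p ^ 3 ∣ b then
    if p ^ 4 ∣ b ∨ p ^ 3 ∣ u then 1 else ((nm p : ℝ))⁻¹
      else (nm p : ℝ) ^ (-(1 / 2) : ℝ) else 0 else 1

lemma om_nonneg (u b p : Eis) : 0 ≤ om u b p := by
  unfold om
  split_ifs <;> positivity

lemma om_le_one {u b p : Eis} (hp : IsPP p) : om u b p ≤ 1 := by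
  have h1 : (1 : ℝ) ≤ nm p := by exact_mod_cast hp.one_lt_nm.le
  unfold om
  split_ifs
  · exact le_rfl
  · exact inv_le_one_of_one_le₀ h1
  · exact Real.rpow_le_one_of_one_le_of_nonpos h1 (by norm_num)
  · exact zero_le_one
  · exact le_rfl

lemma exists_val {u p : Eis} (hu : u ≠ 0) (hp : Prime p) : ∃ (a : ℕ) (r : Eis),
    u = r * p ^ a ∧ ¬ p ∣ r := by
  obtain ⟨a, r, h1, h2⟩ := WfDvdMonoid.max_power_factor hu hp.irreducible
  exact ⟨a, r, by rw [h2, mul_comm], h1⟩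

lemma norm_gs_prime {r p : Eis} (hp : IsPP p) (h : ¬ p ∣ r) :
    ‖gs r p‖ = (nm p : ℝ) ^ (1 / 2 : ℝ) := by
  have h1 := norm_gs_prime_sq syAx hp.isPrim hp.prime h
  rw [← Real.sqrt_eq_rpow, ← h1, Real.sqrt_sq (norm_nonneg _)]

lemma pow_dvd_pow_iff' {p : Eis} (hp : Prime p) {j k : ℕ} : p ^ j ∣ p ^ k ↔ j ≤ k :=
  pow_dvd_pow_iff hp.ne_zero hp.not_isUnit

lemma om_local {u p : Eis} (hu : u ≠ 0) (hp : IsPP p) {k : ℕ} (hk : 1 ≤ k) :
    ‖gs u (p ^ k)‖ ≤ (nm p : ℝ) ^ k * om u (p ^ k) p := by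
  have hN : (1 : ℝ) ≤ nm p := by exact_mod_cast hp.one_lt_nm.le
  have hN0 : (0 : ℝ) < nm p := by linarith
  have htriv : ‖gs u (p ^ k)‖ ≤ (nm p : ℝ) ^ k := by
    have := norm_gs_le syAx u (hp.isPrim.pow k)
    rwa [nm_pow, Nat.cast_pow] at this
  obtain ⟨a, r, rfl, hr⟩ := exists_val hu hp.prime
  have hdv : p ∣ r * p ^ a ↔ 1 ≤ a := by
    constructor
    · intro h
      by_contra h0
      have : a = 0 := by omega
      subst this
      rw [pow_zero, mul_one] at h
      exact hr h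
    · intro h
      exact (dvd_pow_self p (by omega)).mul_left r
  have hdv3 : a ≤ 2 ∨ p ^ 3 ∣ r * p ^ a := by
    by_cases h : a ≤ 2
    · exact Or.inl h
    · exact Or.inr ((pow_dvd_pow p (by omega)).mul_left r)
  unfold om
  rw [pow_dvd_pow_iff' hp.prime, pow_dvd_pow_iff' hp.prime, pow_dvd_pow_iff' hp.prime]
  split_ifs with h1 h2 h3 h4
  · rw [mul_one]; exact htriv
  · rw [hdv] at h1
    rw [not_or] at h4
    have hk3 : k = 3 := by omega
    have ha : a ≤ 2 := by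
      rcases hdv3 with h | h
      · exact h
      · exact absurd h h4.2
    subst hk3
    by_cases ha2 : a = 2
    · subst ha2
      have h5 := gs_table_succ syAx hp.isPrim hp.prime hr 2
      rw [show (2 : ℕ) + 1 = 3 from rfl] at h5
      rw [h5, if_neg (by norm_num), if_neg (by norm_num), norm_mul, norm_neg, norm_one,
        norm_pow, Complex.norm_natCast, mul_one]
      apply le_of_eq
      field_simp
    · rw [gs_table_ge syAx hp.isPrim hp.prime hr (by omega), norm_zero]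
      positivity
  · rw [hdv] at h1
    have hk2 : k = 2 := by omega
    subst hk2
    by_cases ha : a = 1
    · subst ha
      have h5 := gs_table_succ syAx hp.isPrim hp.prime hr 1
      rw [show (1 : ℕ) + 1 = 2 from rfl] at h5
      rw [h5, if_neg (by norm_num), if_pos (by norm_num), norm_mul, RCLike.norm_conj,
        norm_gs_prime hp hr, norm_pow, Complex.norm_natCast, pow_one, ← Real.rpow_natCast,
        ← Real.rpow_add hN0, ← Real.rpow_one_add' hN0.le (by norm_num)]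
      norm_num
    · have h5 := gs_table_le syAx (r := r) hp.isPrim hp.prime (a := a) (k := 1) (by omega)
      rw [show (1 : ℕ) + 1 = 2 from rfl] at h5
      rw [h5, if_neg (by norm_num), norm_zero]
      positivity
  · have hk1 : k = 1 := by omega
    subst hk1
    rw [pow_one, gs_prime_of_dvd syAx hp.isPrim hp.prime h1]
    simp
  · rw [mul_one]; exact htriv

lemma norm_gs_mul_le {u c d : Eis} (hc : IsPrim c) (hd : IsPrim d) (hcd : IsCoprime c d) :
    ‖gs u (c * d)‖ ≤ ‖gs u c‖ * ‖gs u d‖ := by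
  rw [gs_mul syAx u hc hd hcd]
  have h1 := syAx.norm_le_one c hd
  have h2 := syAx.norm_le_one d hc
  simp only [norm_mul]
  exact mul_le_of_le_one_left (by positivity)
    (mul_le_one₀ h2 (norm_nonneg _) h1)

/-- the primary primes of `p ^ k * b` -/
lemma pp_pow_mul {p b : Eis} (hp : IsPP p) {k : ℕ} (hk : 1 ≤ k) (hb : b ≠ 0) :
    pp (p ^ k * b) = insert p (pp b) := by
  have h0 : p ^ k * b ≠ 0 := mul_ne_zero (pow_ne_zero _ hp.ne_zero) hb
  ext q
  rw [mem_pp h0, Finset.mem_insert, mem_pp hb]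
  constructor
  · rintro ⟨h1, h2⟩
    rcases h1.prime.dvd_or_dvd h2 with h | h
    · exact Or.inl (h1.eq_of_dvd hp (h1.prime.dvd_of_dvd_pow h))
    · exact Or.inr ⟨h1, h⟩
  · rintro (h | ⟨h1, h2⟩)
    · subst h
      exact ⟨hp, (dvd_pow_self q (by omega)).mul_right b⟩
    · exact ⟨h1, h2.mul_left _⟩

lemma pow_dvd_mul_iff_r {p q b : Eis} (hp : IsPP p) (hq : IsPP q) (h : q ≠ p) (j k : ℕ) :
    q ^ j ∣ p ^ k * b ↔ q ^ j ∣ b :=
  ⟨fun h1 => (hq.isCoprime hp h).pow.dvd_of_dvd_mul_left h1, fun h1 => h1.mul_left _⟩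

lemma pow_dvd_mul_iff_l {p b : Eis} (hp : IsPP p) (h : ¬ p ∣ b) (j k : ℕ) :
    p ^ j ∣ p ^ k * b ↔ p ^ j ∣ p ^ k :=
  ⟨fun h1 => ((hp.isCoprime_iff.mpr h).pow_left).dvd_of_dvd_mul_right h1,
    fun h1 => h1.mul_right _⟩

lemma om_mul_r {u p q b : Eis} (hp : IsPP p) (hq : IsPP q) (h : q ≠ p) (k : ℕ) :
    om u (p ^ k * b) q = om u b q := by
  unfold om
  rw [pow_dvd_mul_iff_r hp hq h, pow_dvd_mul_iff_r hp hq h, pow_dvd_mul_iff_r hp hq h]

lemma om_mul_l {u p b : Eis} (hp : IsPP p) (h : ¬ p ∣ b) (k : ℕ) :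
    om u (p ^ k * b) p = om u (p ^ k) p := by
  unfold om
  rw [pow_dvd_mul_iff_l hp h, pow_dvd_mul_iff_l hp h, pow_dvd_mul_iff_l hp h]

/-- **size of the Gauss sum** -/
theorem gs_le_om {u : Eis} (hu : u ≠ 0) : ∀ (N : ℕ) (b : Eis), nm b ≤ N → IsPrim b →
    ‖gs u b‖ ≤ nm b * ∏ p ∈ pp b, om u b p := by
  intro N
  induction N with
  | zero =>
    intro b hb hbp
    exact absurd (nm_eq_zero.mp (Nat.le_zero.mp hb)) hbp.ne_zero
  | succ N ih =>
    intro b hb hbp
    by_cases h1 : b = 1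
    · subst h1
      rw [gs_one_right syAx]
      have : pp (1 : Eis) = ∅ := by
        rw [Finset.eq_empty_iff_forall_notMem]
        intro p hp
        exact (isPP_of_mem_pp hp).prime.not_isUnit (isUnit_of_dvd_one (dvd_of_mem_pp hp))
      rw [this]
      simp
    · obtain ⟨p, hp, hpb⟩ := exists_pp_dvd_of_isPrim hbp h1
      obtain ⟨k, b', rfl, hb'⟩ := exists_val hbp.ne_zero hp.prime
      rw [mul_comm] at hb hbp hpb ⊢
      have hb'p : IsPrim b' := hbp.of_mul_left (hp.isPrim.pow k)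
      have hk : 1 ≤ k := by
        by_contra h
        have : k = 0 := by omega
        subst this
        rw [pow_zero, one_mul] at hpb
        exact hb' hpb
      have hnp : p ∉ pp b' := fun h => hb' (dvd_of_mem_pp h)
      have hlt : nm b' ≤ N := by
        rw [nm_mul, nm_pow] at hb
        have h2 : 1 ≤ nm b' := nm_pos.mpr hb'p.ne_zero
        have h3 : 2 ≤ nm p ^ k := by
          calc 2 ≤ nm p := hp.one_lt_nm
            _ = nm p ^ 1 := (pow_one _).symm
            _ ≤ nm p ^ k := Nat.pow_le_pow_right (by have := hp.one_lt_nm; omega) hk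
        nlinarith
      have hcop : IsCoprime (p ^ k) b' := (hp.isCoprime_iff.mpr hb').pow_left
      rw [pp_pow_mul hp hk hb'p.ne_zero, Finset.prod_insert hnp, om_mul_l hp hb', nm_mul, nm_pow]
      have h2 : ∏ q ∈ pp b', om u (p ^ k * b') q = ∏ q ∈ pp b', om u b' q := by
        refine Finset.prod_congr rfl fun q hq => ?_
        exact om_mul_r hp (isPP_of_mem_pp hq) (fun h => hnp (h ▸ hq)) k
      rw [h2]
      calc ‖gs u (p ^ k * b')‖ ≤ ‖gs u (p ^ k)‖ * ‖gs u b'‖ :=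
            norm_gs_mul_le (hp.isPrim.pow k) hb'p hcop
        _ ≤ ((nm p : ℝ) ^ k * om u (p ^ k) p) * (nm b' * ∏ q ∈ pp b', om u b' q) :=
            mul_le_mul (om_local hu hp hk) (ih b' hlt hb'p) (norm_nonneg _)
              (mul_nonneg (by positivity) (om_nonneg _ _ _))
        _ = _ := by push_cast; ring

open Classical in
/-- the primes of `b` prime to `f` -/
def rf (f b : Eis) : Eis := ∏ p ∈ (pp b).filter (fun p => ¬ p ∣ f), p

lemma nm_prod {ι : Type*} (s : Finset ι) (F : ι → Eis) : nm (∏ i ∈ s, F i) = ∏ i ∈ s, nm (F i) := by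
  classical
  induction s using Finset.induction_on with
  | empty => simp
  | insert a s ha ih => rw [Finset.prod_insert ha, Finset.prod_insert ha, nm_mul, ih]

lemma isPrim_prod' {ι : Type*} {s : Finset ι} {F : ι → Eis} (h : ∀ i ∈ s, IsPrim (F i)) :
    IsPrim (∏ i ∈ s, F i) := by
  classical
  induction s using Finset.induction_on with
  | empty => simpa using isPrim_one
  | insert a s ha ih =>
    rw [Finset.prod_insert ha]
    exact (h a (Finset.mem_insert_self _ _)).mul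
      (ih fun i hi => h i (Finset.mem_insert_of_mem hi))

lemma one_le_prodR {s : Finset Eis} {F : Eis → ℝ} (h : ∀ i ∈ s, 1 ≤ F i) :
    1 ≤ ∏ i ∈ s, F i := by
  classical
  induction s using Finset.induction_on with
  | empty => simp
  | insert a s ha ih =>
    rw [Finset.prod_insert ha]
    exact one_le_mul_of_one_le_of_one_le (h a (Finset.mem_insert_self _ _))
      (ih fun i hi => h i (Finset.mem_insert_of_mem hi))

lemma prod_subR {s t : Finset Eis} {F : Eis → ℝ} (hst : s ⊆ t) (h : ∀ i ∈ t, 1 ≤ F i) :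
    ∏ i ∈ s, F i ≤ ∏ i ∈ t, F i := by
  classical
  rw [← Finset.prod_sdiff hst]
  have h1 : 1 ≤ ∏ i ∈ t \ s, F i := one_le_prodR fun i hi => h i (Finset.mem_sdiff.mp hi).1
  have h2 : 0 ≤ ∏ i ∈ s, F i :=
    Finset.prod_nonneg fun i hi => zero_le_one.trans (h i (hst hi))
  exact le_mul_of_one_le_left h2 h1

/-- **structure** -/
theorem gs_struct {f R Z b : Eis} (hf : IsPrim f) (hR : IsPrim R) (hZ : IsPrim Z) (hb : IsPrim b)
    (hc : ∀ p : Eis, Prime p → p ∣ b → p ∣ Z ∨ p ∣ f ∨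
      (p ^ 2 ∣ R ∧ ¬ p ^ 3 ∣ R ∧ p ^ 3 ∣ b ∧ ¬ p ^ 4 ∣ b)) :
    gs (f * R * Z) b = 0 ∨ ∃ b₁ b₃ : ℝ, 1 ≤ b₁ ∧ 1 ≤ b₃ ∧ b₁ ^ 2 * b₃ ^ 3 ≤ nm b ∧
      b₁ * b₃ ≤ nm (rd Z) ∧
      ‖gs (f * R * Z) b‖ * nm (rf f b) ≤ nm b * (b₁ ^ (1 / 2 : ℝ) * b₃) := by
  classical
  set u : Eis := f * R * Z with hu
  have hu0 : u ≠ 0 := ((hf.mul hR).mul hZ).ne_zero
  have hmain := gs_le_om hu0 (nm b) b le_rfl hb
  set A : Finset Eis := (pp b).filter (fun p => ¬ p ∣ f ∧ p ∣ Z) with hA
  have hAm : ∀ p ∈ A, IsPP p ∧ p ∣ b ∧ ¬ p ∣ f ∧ p ∣ Z := by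
    intro p hp
    rw [hA, Finset.mem_filter] at hp
    exact ⟨isPP_of_mem_pp hp.1, dvd_of_mem_pp hp.1, hp.2.1, hp.2.2⟩
  by_cases h2 : ∃ p ∈ A, ¬ p ^ 2 ∣ b
  · left
    obtain ⟨p, hpA, hp2⟩ := h2
    obtain ⟨hp, hpb, hpf, hpZ⟩ := hAm p hpA
    have h3 : om u b p = 0 := by
      unfold om
      rw [if_pos (hpZ.mul_left _), if_neg hp2]
    rw [Finset.prod_eq_zero ((mem_pp hb.ne_zero).mpr ⟨hp, hpb⟩) h3, mul_zero] at hmain
    exact norm_le_zero_iff.mp hmain
  have h2 : ∀ p ∈ A, p ^ 2 ∣ b := fun p hp => by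
    by_contra h
    exact h2 ⟨p, hp, h⟩
  right
  have hge : ∀ p ∈ A, (1 : ℝ) ≤ nm p := fun p hp => by exact_mod_cast (hAm p hp).1.one_lt_nm.le
  refine ⟨∏ p ∈ A, (if p ^ 3 ∣ b then 1 else (nm p : ℝ)),
    ∏ p ∈ A, (if p ^ 3 ∣ b then (nm p : ℝ) else 1), ?_, ?_, ?_, ?_, ?_⟩
  · refine one_le_prodR fun p hp => ?_
    split_ifs
    · exact le_rfl
    · exact hge p hp
  · refine one_le_prodR fun p hp => ?_
    split_ifs
    · exact hge p hp
    · exact le_rfl
  · rw [← Finset.prod_pow, ← Finset.prod_pow, ← Finset.prod_mul_distrib]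
    have h3 : ∏ p ∈ A, p ^ (if p ^ 3 ∣ b then 3 else 2) ∣ b := by
      apply Finset.prod_dvd_of_coprime
      · intro p hp q hq hpq
        exact ((hAm p hp).1.isCoprime (hAm q hq).1 hpq).pow
      · intro p hp
        split_ifs with h
        · exact h
        · exact h2 p hp
    have h4 := nm_le_of_dvd hb.ne_zero h3
    rw [nm_prod] at h4
    have h5 : (∏ p ∈ A, (nm (p ^ (if p ^ 3 ∣ b then 3 else 2)) : ℝ)) ≤ nm b := by
      exact_mod_cast h4
    refine le_trans (le_of_eq ?_) h5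
    refine Finset.prod_congr rfl fun p _ => ?_
    rw [nm_pow, Nat.cast_pow]
    split_ifs <;> simp
  · rw [← Finset.prod_mul_distrib]
    unfold rd
    rw [nm_prod, Nat.cast_prod]
    have h3 : ∏ p ∈ A, ((if p ^ 3 ∣ b then 1 else (nm p : ℝ)) * (if p ^ 3 ∣ b then (nm p : ℝ)
        else 1)) = ∏ p ∈ A, (nm p : ℝ) := Finset.prod_congr rfl fun p _ => by split_ifs <;> simp
    rw [h3]
    refine prod_subR (fun p hp => ?_) fun p hp => ?_
    · exact (mem_pp hZ.ne_zero).mpr ⟨(hAm p hp).1, (hAm p hp).2.2.2⟩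
    · exact_mod_cast (isPP_of_mem_pp hp).one_lt_nm.le
  · set Bs : Finset Eis := (pp b).filter (fun p => ¬ p ∣ f) with hBs
    have hBm : ∀ p ∈ Bs, IsPP p ∧ p ∣ b ∧ ¬ p ∣ f := by
      intro p hp
      rw [hBs, Finset.mem_filter] at hp
      exact ⟨isPP_of_mem_pp hp.1, dvd_of_mem_pp hp.1, hp.2⟩
    have hAB : A ⊆ Bs := by
      intro p hp
      rw [hA, Finset.mem_filter] at hp
      rw [hBs, Finset.mem_filter]
      exact ⟨hp.1, hp.2.1⟩
    have h3 : ∏ p ∈ pp b, om u b p ≤ ∏ p ∈ Bs, om u b p := by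
      rw [← Finset.prod_sdiff (Finset.filter_subset (fun p => ¬ p ∣ f) (pp b))]
      refine mul_le_of_le_one_left (Finset.prod_nonneg fun p _ => om_nonneg _ _ _) ?_
      exact Finset.prod_le_one (fun p _ => om_nonneg _ _ _) fun p hp =>
        om_le_one (isPP_of_mem_pp (Finset.mem_sdiff.mp hp).1)
    have h4 : ∏ p ∈ Bs, om u b p * nm p ≤ ∏ p ∈ A, (if p ^ 3 ∣ b then (nm p : ℝ) else
        (nm p : ℝ) ^ (1 / 2 : ℝ)) := by
      rw [← Finset.prod_sdiff hAB]
      have h5 : ∏ p ∈ Bs \ A, om u b p * nm p ≤ 1 := by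
        refine Finset.prod_le_one (fun p _ => mul_nonneg (om_nonneg _ _ _) (Nat.cast_nonneg _))
          fun p hp => ?_
        rw [Finset.mem_sdiff] at hp
        obtain ⟨h6, h7, h8⟩ := hBm p hp.1
        have h9 : ¬ p ∣ Z := fun h => hp.2 (by
          rw [hA, Finset.mem_filter]
          exact ⟨(mem_pp hb.ne_zero).mpr ⟨h6, h7⟩, h8, h⟩)
        obtain ⟨h10, h11, h12, h13⟩ := ((hc p h6.prime h7).resolve_left h9).resolve_left h8
        have h14 : ¬ p ^ 3 ∣ u := by
          intro h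
          have h15 : IsCoprime (p ^ 3) Z := (h6.isCoprime_iff.mpr h9).pow_left
          have h16 : IsCoprime (p ^ 3) f := (h6.isCoprime_iff.mpr h8).pow_left
          exact h11 (h16.dvd_of_dvd_mul_left (h15.dvd_of_dvd_mul_right h))
        have h17 : om u b p = (nm p : ℝ)⁻¹ := by
          unfold om
          rw [if_pos, if_pos ((pow_dvd_pow p (by norm_num)).trans h12), if_pos h12, if_neg]
          · rintro (h | h)
            · exact h13 h
            · exact h14 h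
          · exact ((((dvd_pow_self p two_ne_zero).trans h10).mul_left f).mul_right Z)
        rw [h17, inv_mul_cancel₀]
        exact_mod_cast (nm_pos.mpr h6.ne_zero).ne'
      refine (mul_le_of_le_one_left (Finset.prod_nonneg fun p _ =>
        mul_nonneg (om_nonneg _ _ _) (Nat.cast_nonneg _)) h5).trans ?_
      refine Finset.prod_le_prod (fun p _ => mul_nonneg (om_nonneg _ _ _) (Nat.cast_nonneg _))
        fun p hp => ?_
      have h6 := hge p hp
      have h0 : (0 : ℝ) < nm p := by linarith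
      split_ifs with h7
      · exact mul_le_of_le_one_left h0.le (om_le_one (hAm p hp).1)
      · have h8 : om u b p = (nm p : ℝ) ^ (-(1 / 2) : ℝ) := by
          unfold om
          rw [if_pos ((hAm p hp).2.2.2.mul_left _), if_pos (h2 p hp), if_neg h7]
        rw [h8, ← Real.rpow_add_one h0.ne']
        norm_num
    have h5 : (∏ p ∈ A, (if p ^ 3 ∣ b then 1 else (nm p : ℝ))) ^ (1 / 2 : ℝ) *
        ∏ p ∈ A, (if p ^ 3 ∣ b then (nm p : ℝ) else 1) = ∏ p ∈ A, (if p ^ 3 ∣ b then (nm p : ℝ)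
        else (nm p : ℝ) ^ (1 / 2 : ℝ)) := by
      rw [← Real.finsetProd_rpow _ _ (fun p _ => by split_ifs <;> positivity),
        ← Finset.prod_mul_distrib]
      refine Finset.prod_congr rfl fun p _ => ?_
      split_ifs <;> simp
    rw [h5]
    have h6 : (nm (rf f b) : ℝ) = ∏ p ∈ Bs, (nm p : ℝ) := by
      unfold rf
      rw [nm_prod, Nat.cast_prod]
    rw [h6]
    calc ‖gs u b‖ * ∏ p ∈ Bs, (nm p : ℝ) ≤ (nm b * ∏ p ∈ Bs, om u b p) * ∏ p ∈ Bs, (nm p : ℝ) := by
          refine mul_le_mul_of_nonneg_right (hmain.trans ?_)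
            (Finset.prod_nonneg fun p _ => Nat.cast_nonneg _)
          exact mul_le_mul_of_nonneg_left h3 (Nat.cast_nonneg _)
      _ = nm b * ∏ p ∈ Bs, om u b p * nm p := by rw [mul_assoc, ← Finset.prod_mul_distrib]
      _ ≤ _ := mul_le_mul_of_nonneg_left h4 (Nat.cast_nonneg _)

end Crest.Agent.R017.E4BW858
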