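import Crest.Agent.R017.E4BW_858
import Crest.Agent.R017.E4C_401

/-!
# Row 17, C70/E4 (helper858): proof of the common bilinear bound `BW`
-/

set_option autoImplicit false

noncomputable section

open Complex
open scoped ComplexConjugate

namespace Crest.Agent.R017.E4BW858

open Crest.Agent.R012 Crest.Agent.R012.Eis Crest.Agent.R012.Mob705 Crest.Agent.R012.Gauss880
open Crest.Agent.R012.Div277
open Crest.Agent.R017.Sx545 Crest.Agent.R017.CM106 Crest.Agent.R017.C70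
open Crest.Agent.R017.E4352

/-! ### the sum over `b` -/

lemma isPrim_rf (f b : Eis) : IsPrim (rf f b) := by
  classical
  unfold rf
  exact isPrim_prod' fun p hp => (isPP_of_mem_pp (Finset.mem_filter.mp hp).1).isPrim

lemma rf_dvd {f b : Eis} : rf f b ∣ b := by
  classical
  unfold rf
  apply Finset.prod_dvd_of_coprime
  · intro p hp q hq hpq
    exact (isPP_of_mem_pp (Finset.mem_filter.mp hp).1).isCoprime
      (isPP_of_mem_pp (Finset.mem_filter.mp hq).1) hpq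
  · intro p hp
    exact dvd_of_mem_pp (Finset.mem_filter.mp hp).1

lemma priI_rf {f b : Eis} (hb : IsPrim b) : PrI (f * rf f b) b := by
  classical
  refine ⟨hb, fun p hp hpb => ?_⟩
  have hlp : ¬ lam ∣ p := fun h => hb.not_lam_dvd (h.trans hpb)
  have h1 : IsPP (prim p) := ⟨prim_isPrim hlp, (prim_associated p).prime_iff.mp hp⟩
  have h2 : prim p ∣ b := ((prim_associated p).dvd_iff_dvd_left).mp hpb
  have h3 : prim p ∣ f * rf f b := by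
    by_cases h4 : prim p ∣ f
    · exact h4.mul_right _
    · refine Dvd.dvd.mul_left ?_ _
      unfold rf
      apply Finset.dvd_prod_of_mem (fun p : Eis => p)
      rw [Finset.mem_filter]
      exact ⟨(mem_pp hb.ne_zero).mpr ⟨h1, h2⟩, h4⟩
  exact ((prim_associated p).dvd_iff_dvd_left).mpr h3

lemma sum_inv_le {ε : ℝ} (hε : 0 < ε) : ∃ C : ℝ, 0 ≤ C ∧ ∀ X : ℝ, 1 ≤ X →
    ∑ r ∈ primBall ⌊X⌋₊, ((nm r : ℝ))⁻¹ ≤ C * X ^ ε := by
  refine ⟨(100 * (1 + (1 : ℕ) / ε)) ^ 1, by positivity, fun X hX => ?_⟩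
  have h1 := sum_inv_primBall_le ⌊X⌋₊
  simp only [one_div] at h1
  have h2 : (1 : ℝ) ≤ ⌊X⌋₊ := by
    exact_mod_cast Nat.le_floor (by simpa using hX)
  have h3 := poly_log_le 1 h2 hε
  rw [pow_one] at h3
  refine h1.trans (h3.trans ?_)
  have h4 : ((⌊X⌋₊ : ℕ) : ℝ) ^ ε ≤ X ^ ε :=
    Real.rpow_le_rpow (Nat.cast_nonneg _) (Nat.floor_le (by linarith)) hε.le
  exact mul_le_mul_of_nonneg_left h4 (by positivity)

lemma sum_rf (hC : LCnt) {ε : ℝ} (hε : 0 < ε) : ∃ C : ℝ, 0 ≤ C ∧ ∀ (f : Eis) (X : ℝ), 1 ≤ X →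
    IsPrim f → (nm f : ℝ) ≤ X →
    ∑ b ∈ primBall ⌊X⌋₊, ((nm (rf f b) : ℝ))⁻¹ ≤ C * X ^ ε := by
  classical
  obtain ⟨C₁, hC₁, h1⟩ := hC (ε / 4) (by positivity)
  obtain ⟨C₂, hC₂, h2⟩ := sum_inv_le (ε := ε / 2) (by positivity)
  refine ⟨C₁ * C₂, by positivity, fun f X hX hf hfX => ?_⟩
  have hX0 : (0 : ℝ) ≤ X := by linarith
  have hmaps : ∀ b ∈ primBall ⌊X⌋₊, rf f b ∈ primBall ⌊X⌋₊ := by
    intro b hb
    rw [mem_primBall] at hb ⊢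
    exact ⟨(nm_le_of_dvd hb.2.ne_zero rf_dvd).trans hb.1, isPrim_rf f b⟩
  rw [← Finset.sum_fiberwise_of_maps_to hmaps]
  have hX2 : 1 ≤ X ^ 2 := one_le_pow₀ hX
  have h3 : ∀ r ∈ primBall ⌊X⌋₊, ∑ b ∈ (primBall ⌊X⌋₊).filter (fun b => rf f b = r),
      ((nm (rf f b) : ℝ))⁻¹ ≤ C₁ * X ^ (ε / 2) * ((nm r : ℝ))⁻¹ := by
    intro r hr
    rw [mem_primBall] at hr
    rw [Finset.sum_congr rfl (g := fun _ => ((nm r : ℝ))⁻¹) (fun b hb => by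
      rw [(Finset.mem_filter.mp hb).2]), Finset.sum_const, nsmul_eq_mul]
    refine mul_le_mul_of_nonneg_right ?_ (by positivity)
    have h4 := h1 (f * r) (X ^ 2) hX2 (mul_ne_zero hf.ne_zero hr.2.ne_zero) (by
      rw [nm_mul]
      push_cast
      rw [sq]
      refine mul_le_mul hfX ?_ (Nat.cast_nonneg _) hX0
      exact (Nat.cast_le.mpr hr.1).trans (Nat.floor_le hX0))
    refine le_trans ?_ (h4.trans (le_of_eq ?_))
    · norm_cast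
      refine Finset.card_le_card fun b hb => ?_
      rw [Finset.mem_filter, mem_primBall] at hb
      rw [Finset.mem_filter, mem_primBall]
      refine ⟨⟨hb.1.1.trans (Nat.floor_le_floor (by nlinarith)), hb.1.2⟩, ?_⟩
      rw [← hb.2]
      exact priI_rf hb.1.2
    · rw [← Real.rpow_natCast X 2, ← Real.rpow_mul hX0]
      congr 2
      push_cast
      ring
  refine (Finset.sum_le_sum h3).trans ?_
  rw [← Finset.mul_sum]
  have h5 : C₁ * X ^ (ε / 2) * ∑ r ∈ primBall ⌊X⌋₊, ((nm r : ℝ))⁻¹ ≤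
      C₁ * X ^ (ε / 2) * (C₂ * X ^ (ε / 2)) :=
    mul_le_mul_of_nonneg_left (h2 X hX) (by positivity)
  refine h5.trans (le_of_eq ?_)
  have h6 : X ^ ε = X ^ (ε / 2) * X ^ (ε / 2) := by
    rw [← Real.rpow_add (by linarith)]; congr 1; ring
  rw [h6]; ring

/-! ### the dyadic sum over `k` -/

open Classical in
/-- the `k`-range -/
def Ks (M : Eis) (Y : ℝ) : Finset Eis := (primBall ⌊Y⌋₊).filter (fun k => Sm M k ∧ CbF k)

open Classical in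
/-- the dyadic range -/
def Js (J : ℕ) (K : ℝ) : Finset ℕ := (Finset.range J).filter (fun j => (2 : ℝ) ^ j ≤ K)

lemma dyad_one {M b R Z : Eis} {g v w : Eis → ℂ} {K lam : ℝ} (hK0 : 0 < K)
    (hlam : 1 ≤ lam) {J : ℕ}
    (hJ : K < 2 ^ J) :
    lam⁻¹ * ∑ k ∈ Ks M (K / lam), ((nm k : ℝ))⁻¹ * (‖Sd (tws R b g v) k‖ *
      ‖CS (tws Z b g w) k‖) ≤
    ∑ j ∈ Js J K, (K / 2 ^ (j + 1)) ^ (-(1 / 2) : ℝ) * (lam ^ (-(1 / 2) : ℝ) *
      PB M b R Z g v w (K / 2 ^ (j + 1) / lam)) := by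
  classical
  have hl0 : 0 < lam := by linarith
  set T : ℕ → Finset Eis := fun j => (primBall ⌊2 * (K / 2 ^ (j + 1) / lam)⌋₊).filter
    (fun d => Sm M d ∧ CbF d ∧ K / 2 ^ (j + 1) / lam < nm d) with hT
  set F : ℕ → Eis → ℝ := fun j k => (K / 2 ^ (j + 1)) ^ (-(1 / 2) : ℝ) * (lam ^ (-(1 / 2) : ℝ) *
    ((nm k : ℝ) ^ (-(1 / 2) : ℝ) * ‖Sd (tws R b g v) k‖ * ‖CS (tws Z b g w) k‖)) with hF
  have hkey : ∀ k ∈ Ks M (K / lam), lam⁻¹ * (((nm k : ℝ))⁻¹ * (‖Sd (tws R b g v) k‖ *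
      ‖CS (tws Z b g w) k‖)) ≤ ∑ j ∈ Js J K, if k ∈ T j then F j k else 0 := by
    intro k hk
    unfold Ks at hk
    rw [Finset.mem_filter, mem_primBall] at hk
    obtain ⟨⟨hk1, hk2⟩, hk3, hk4⟩ := hk
    have hn1 : (1 : ℝ) ≤ nm k := by exact_mod_cast nm_pos.mpr hk2.ne_zero
    have hn0 : (0 : ℝ) < nm k := by linarith
    have hkK : (nm k : ℝ) ≤ K / lam := (Nat.cast_le.mpr hk1).trans (Nat.floor_le (by positivity))
    have hx : (nm k : ℝ) * lam ≤ K := (le_div_iff₀ hl0).mp hkK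
    set x : ℝ := (nm k : ℝ) * lam with hxdef
    have hx1 : 1 ≤ x := one_le_mul_of_one_le_of_one_le hn1 hlam
    have hx0 : 0 < x := by linarith
    have hq : 1 ≤ K / x := (one_le_div hx0).mpr hx
    set j : ℕ := Nat.log 2 ⌊K / x⌋₊ with hj
    have hfl : ⌊K / x⌋₊ ≠ 0 := by
      have := (Nat.one_le_floor_iff _).mpr hq
      omega
    have h1 : (2 : ℝ) ^ j ≤ K / x := by
      have h2 := Nat.pow_log_le_self 2 hfl
      calc (2 : ℝ) ^ j ≤ (⌊K / x⌋₊ : ℝ) := by exact_mod_cast h2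
        _ ≤ K / x := Nat.floor_le (by linarith)
    have h2 : K / x < 2 ^ (j + 1) := by
      have h3 := Nat.lt_pow_succ_log_self (b := 2) (by norm_num) ⌊K / x⌋₊
      have h4 : (⌊K / x⌋₊ : ℝ) + 1 ≤ 2 ^ (j + 1) := by exact_mod_cast h3
      have h5 := Nat.lt_floor_add_one (K / x)
      linarith
    have hjK : (2 : ℝ) ^ j ≤ K := h1.trans (div_le_self hK0.le hx1)
    have hjJ : j ∈ Js J K := by
      unfold Js
      rw [Finset.mem_filter, Finset.mem_range]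
      refine ⟨?_, hjK⟩
      exact (pow_lt_pow_iff_right₀ (by norm_num : (1 : ℝ) < 2)).mp (hjK.trans_lt hJ)
    have h2p : (0 : ℝ) < 2 ^ (j + 1) := by positivity
    have hlow : K / 2 ^ (j + 1) < x := by
      rw [div_lt_iff₀ h2p]
      rw [div_lt_iff₀ hx0] at h2
      linarith
    have hup : x ≤ 2 * (K / 2 ^ (j + 1)) := by
      rw [le_div_iff₀ hx0] at h1
      rw [pow_succ, mul_div_assoc', le_div_iff₀ (by positivity)]
      nlinarith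
    have hmem : k ∈ T j := by
      rw [hT, Finset.mem_filter, mem_primBall]
      refine ⟨⟨Nat.le_floor ?_, hk2⟩, hk3, hk4, ?_⟩
      · rw [mul_div_assoc', le_div_iff₀ hl0]
        exact hup
      · rw [div_lt_iff₀ hl0]
        exact hlow
    have hle : lam⁻¹ * (((nm k : ℝ))⁻¹ * (‖Sd (tws R b g v) k‖ * ‖CS (tws Z b g w) k‖)) ≤
        F j k := by
      rw [hF]
      have h6 : lam⁻¹ * ((nm k : ℝ))⁻¹ ≤ (K / 2 ^ (j + 1)) ^ (-(1 / 2) : ℝ) *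
          (lam ^ (-(1 / 2) : ℝ) * (nm k : ℝ) ^ (-(1 / 2) : ℝ)) := by
        have h7 : lam⁻¹ * ((nm k : ℝ))⁻¹ = x⁻¹ := by rw [hxdef, mul_inv, mul_comm]
        have h8 : lam ^ (-(1 / 2) : ℝ) * (nm k : ℝ) ^ (-(1 / 2) : ℝ) = x ^ (-(1 / 2) : ℝ) := by
          rw [hxdef, Real.mul_rpow hn0.le hl0.le, mul_comm]
        have h9 : x⁻¹ = x ^ (-(1 / 2) : ℝ) * x ^ (-(1 / 2) : ℝ) := by
          rw [← Real.rpow_add hx0, ← Real.rpow_neg_one]
          norm_num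
        rw [h7, h8, h9]
        refine mul_le_mul_of_nonneg_right ?_ (by positivity)
        exact Real.rpow_le_rpow_of_nonpos (by positivity) hlow.le (by norm_num)
      calc lam⁻¹ * (((nm k : ℝ))⁻¹ * (‖Sd (tws R b g v) k‖ * ‖CS (tws Z b g w) k‖))
          = (lam⁻¹ * ((nm k : ℝ))⁻¹) * (‖Sd (tws R b g v) k‖ * ‖CS (tws Z b g w) k‖) := by ring
        _ ≤ _ := mul_le_mul_of_nonneg_right h6 (by positivity)
        _ = _ := by ring
    have hnn : ∀ i ∈ Js J K, 0 ≤ (if k ∈ T i then F i k else 0) := by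
      intro i _
      split_ifs
      · rw [hF]; positivity
      · exact le_rfl
    refine le_trans ?_ (Finset.single_le_sum hnn hjJ)
    rw [if_pos hmem]
    exact hle
  rw [Finset.mul_sum]
  refine (Finset.sum_le_sum hkey).trans ?_
  rw [Finset.sum_comm]
  refine Finset.sum_le_sum fun j _ => ?_
  have hPB : (K / 2 ^ (j + 1)) ^ (-(1 / 2) : ℝ) * (lam ^ (-(1 / 2) : ℝ) *
      PB M b R Z g v w (K / 2 ^ (j + 1) / lam)) = ∑ k ∈ T j, F j k := by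
    rw [hF]
    simp only
    unfold PB
    rw [Finset.mul_sum, Finset.mul_sum]
  rw [hPB, ← Finset.sum_filter]
  refine Finset.sum_le_sum_of_subset_of_nonneg ?_ fun k _ _ => ?_
  · intro k hk
    exact (Finset.mem_filter.mp hk).2
  · rw [hF]; positivity

lemma dyad {M b R Z : Eis} {g : Eis → ℂ} {O : Type} [Fintype O] {lam : O → ℝ}
    {v w : O → Eis → ℂ} {K : ℝ} (hK0 : 0 < K) (hlam : ∀ o, 1 ≤ lam o) {J : ℕ} (hJ : K < 2 ^ J) :
    ∑ o, (lam o)⁻¹ * ∑ k ∈ Ks M (K / lam o), ((nm k : ℝ))⁻¹ * (‖Sd (tws R b g (v o)) k‖ *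
      ‖CS (tws Z b g (w o)) k‖) ≤
    ∑ j ∈ Js J K, (K / 2 ^ (j + 1)) ^ (-(1 / 2) : ℝ) *
      PBo M lam b R Z g v w (K / 2 ^ (j + 1)) := by
  refine (Finset.sum_le_sum fun o _ => dyad_one hK0 (hlam o) hJ).trans (le_of_eq ?_)
  rw [Finset.sum_comm]
  refine Finset.sum_congr rfl fun j _ => ?_
  unfold PBo
  rw [Finset.mul_sum]

/-! ### the index sets -/

open Classical in
/-- the range of `(R, Z)` -/
def RZs (f b : Eis) (X : ℝ) : Finset (Eis × Eis) :=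
  (primBall ⌊X⌋₊ ×ˢ primBall ⌊X⌋₊).filter fun ρ => PrI b ρ.1 ∧ PrI b ρ.2 ∧
    ∀ p : Eis, Prime p → p ∣ b → p ∣ ρ.2 ∨ p ∣ f ∨
      (p ^ 2 ∣ ρ.1 ∧ ¬ p ^ 3 ∣ ρ.1 ∧ p ^ 3 ∣ b ∧ ¬ p ^ 4 ∣ b)

open Classical in
lemma reindex {M f : Eis} {X Y : ℝ} (hY0 : 0 ≤ Y) (hY : Y ≤ X)
    (H : Eis → Eis × Eis → Eis → ℝ) (hH : ∀ b ρ k, 0 ≤ H b ρ k) :
    ∑ d ∈ (primBall ⌊Y⌋₊).filter (fun d => Sm M d), ∑ i ∈ IxS f d X, H i.1.1 i.2 i.1.2 ≤
      ∑ b ∈ (primBall ⌊X⌋₊).filter (fun b => Sm M b), ∑ ρ ∈ RZs f b X,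
        ∑ k ∈ Ks M (Y / nm b), H b ρ k := by
  set B : Finset Eis := (primBall ⌊X⌋₊).filter (fun b => Sm M b) with hB
  set D : Finset Eis := (primBall ⌊Y⌋₊).filter (fun d => Sm M d) with hD
  set SIG : Finset (Σ _ : Eis, (Eis × Eis) × Eis) :=
    B.sigma (fun b => RZs f b X ×ˢ Ks M (Y / nm b)) with hSIG
  have hR : ∑ b ∈ B, ∑ ρ ∈ RZs f b X, ∑ k ∈ Ks M (Y / nm b), H b ρ k =
      ∑ x ∈ SIG, H x.1 x.2.1 x.2.2 := by
    rw [hSIG, Finset.sum_sigma]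
    refine Finset.sum_congr rfl fun b _ => ?_
    rw [Finset.sum_product]
  have hmaps : ∀ x ∈ SIG, x.1 * x.2.2 ∈ D := by
    intro x hx
    rw [hSIG, Finset.mem_sigma, Finset.mem_product] at hx
    obtain ⟨h1, h2, h3⟩ := hx
    rw [hB, Finset.mem_filter, mem_primBall] at h1
    unfold Ks at h3
    rw [Finset.mem_filter, mem_primBall] at h3
    rw [hD, Finset.mem_filter, mem_primBall]
    have hb0 : (0 : ℝ) < nm x.1 := by exact_mod_cast nm_pos.mpr h1.1.2.ne_zero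
    refine ⟨⟨Nat.le_floor ?_, h1.1.2.mul h3.1.2⟩, h1.2.mul h3.2.1⟩
    have h4 : (nm x.2.2 : ℝ) ≤ Y / nm x.1 :=
      (Nat.cast_le.mpr h3.1.1).trans (Nat.floor_le (by positivity))
    rw [le_div_iff₀ hb0] at h4
    rw [nm_mul]
    push_cast
    linarith
  rw [hR, ← Finset.sum_fiberwise_of_maps_to hmaps]
  refine Finset.sum_le_sum fun d hd => ?_
  rw [hD, Finset.mem_filter, mem_primBall] at hd
  have hd0 : d ≠ 0 := hd.1.2.ne_zero
  have hdY : (nm d : ℝ) ≤ Y := (Nat.cast_le.mpr hd.1.1).trans (Nat.floor_le hY0)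
  set e : (Eis × Eis) × (Eis × Eis) → (Σ _ : Eis, (Eis × Eis) × Eis) :=
    fun i => ⟨i.1.1, (i.2, i.1.2)⟩ with he
  have hinj : Set.InjOn e (IxS f d X : Set ((Eis × Eis) × (Eis × Eis))) := by
    rintro ⟨⟨a, b⟩, c⟩ _ ⟨⟨a', b'⟩, c'⟩ _ h
    simp only [he, Sigma.mk.injEq, heq_eq_eq, Prod.mk.injEq] at h
    obtain ⟨h1, h2, h3⟩ := h
    subst h1; subst h2; subst h3; rfl
  have hL : ∑ i ∈ IxS f d X, H i.1.1 i.2 i.1.2 =
      ∑ x ∈ (IxS f d X).image e, H x.1 x.2.1 x.2.2 := by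
    rw [Finset.sum_image hinj]
  rw [hL]
  refine Finset.sum_le_sum_of_subset_of_nonneg ?_ fun _ _ _ => hH _ _ _
  intro x hx
  rw [Finset.mem_image] at hx
  obtain ⟨i, hi, rfl⟩ := hx
  unfold IxS at hi
  rw [Finset.mem_filter, Finset.mem_product, Finset.mem_product, mem_dvs hd0, mem_dvs hd0] at hi
  obtain ⟨⟨⟨⟨hb, hbd⟩, hk, hkd⟩, hRZ⟩, hbk, -, hcb, -, hR1, hZ1, hc⟩ := hi
  have hb0 : (0 : ℝ) < nm i.1.1 := by exact_mod_cast nm_pos.mpr hb.ne_zero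
  rw [Finset.mem_filter, hSIG, Finset.mem_sigma, Finset.mem_product, hB, Finset.mem_filter,
    mem_primBall]
  simp only [he]
  refine ⟨⟨⟨⟨Nat.le_floor ?_, hb⟩, hd.2.of_dvd hb hbd⟩, ?_, ?_⟩, hbk⟩
  · exact ((Nat.cast_le.mpr (nm_le_of_dvd hd0 hbd)).trans hdY).trans hY
  · unfold RZs
    rw [Finset.mem_filter]
    exact ⟨hRZ, hR1, hZ1, hc⟩
  · unfold Ks
    rw [Finset.mem_filter, mem_primBall]
    refine ⟨⟨Nat.le_floor ?_, hk⟩, hd.2.of_dvd hk hkd, hcb⟩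
    rw [le_div_iff₀ hb0]
    have h5 : (nm i.1.1 : ℝ) * nm i.1.2 = nm d := by
      rw [← hbk, nm_mul]; push_cast; ring
    linarith

/-! ### the main bound -/

lemma nlog_le {ε : ℝ} (hε : 0 < ε) : ∃ C : ℝ, 0 ≤ C ∧ ∀ X : ℝ, 1 ≤ X →
    ((Nat.log 2 ⌊X⌋₊ + 1 : ℕ) : ℝ) ≤ C * X ^ ε := by
  refine ⟨1 / (ε * Real.log 2) + 1, by positivity, fun X hX => ?_⟩
  have h0 : 0 < Real.log 2 := Real.log_pos (by norm_num)
  have hfl : ⌊X⌋₊ ≠ 0 := by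
    have := (Nat.one_le_floor_iff _).mpr hX
    omega
  have h1 : ((Nat.log 2 ⌊X⌋₊ : ℕ) : ℝ) * Real.log 2 ≤ Real.log X := by
    rw [← Real.log_pow]
    refine Real.log_le_log (by positivity) ?_
    calc (2 : ℝ) ^ (Nat.log 2 ⌊X⌋₊) ≤ (⌊X⌋₊ : ℝ) := by
          exact_mod_cast Nat.pow_log_le_self 2 hfl
      _ ≤ X := Nat.floor_le (by linarith)
  have h2 := Real.log_le_rpow_div (by linarith : 0 ≤ X) hε
  have h3 : 1 ≤ X ^ ε := Real.one_le_rpow hX hε.le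
  have h4 : ((Nat.log 2 ⌊X⌋₊ : ℕ) : ℝ) ≤ X ^ ε / ε / Real.log 2 := by
    rw [le_div_iff₀ h0]
    exact h1.trans h2
  push_cast
  calc ((Nat.log 2 ⌊X⌋₊ : ℕ) : ℝ) + 1 ≤ X ^ ε / ε / Real.log 2 + X ^ ε := by linarith
    _ = _ := by field_simp

lemma lt_two_pow {X K : ℝ} (hK : K ≤ X) : K < 2 ^ (Nat.log 2 ⌊X⌋₊ + 1) := by
  have h3 := Nat.lt_pow_succ_log_self (b := 2) (by norm_num) ⌊X⌋₊
  have h4 : (⌊X⌋₊ : ℝ) + 1 ≤ 2 ^ (Nat.log 2 ⌊X⌋₊ + 1) := by exact_mod_cast h3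
  have h5 := Nat.lt_floor_add_one X
  linarith

/-- one `(b, R, Z)` -/
lemma one_bRZ {f b : Eis} {ρ : Eis × Eis} {X K S : ℝ} {Bd : ℝ → ℝ → ℝ} {P : ℝ → ℝ} {J : ℕ}
    (hf : IsPrim f) (hb : IsPrim b) (hρ : ρ ∈ RZs f b X) (hK : 0 < K) (hS : 0 ≤ S)
    (hBd : BdC Bd) (hP : ∀ κ, 0 < κ → P κ ≤ Bd κ (nm (rd ρ.2)))
    (hN : ∀ b₁ b₃ κ : ℝ, 1 ≤ b₁ → 1 ≤ b₃ → 1 / 4 ≤ κ → κ * b₁ ^ 2 * b₃ ^ 3 ≤ K →
      b₁ ^ (1 / 2 : ℝ) * b₃ * κ ^ (-(1 / 2) : ℝ) * Bd κ (b₁ * b₃) ≤ S) :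
    ((nm b : ℝ))⁻¹ * ‖gs (f * ρ.1 * ρ.2) b‖ *
      ∑ j ∈ Js J (K / nm b), (K / nm b / 2 ^ (j + 1)) ^ (-(1 / 2) : ℝ) *
        P (K / nm b / 2 ^ (j + 1)) ≤ ((nm (rf f b) : ℝ))⁻¹ * (J * S) := by
  classical
  unfold RZs at hρ
  rw [Finset.mem_filter] at hρ
  obtain ⟨-, hR, hZ, hc⟩ := hρ
  have hb0 : (0 : ℝ) < nm b := by exact_mod_cast nm_pos.mpr hb.ne_zero
  have hr0 : (0 : ℝ) < nm (rf f b) := by exact_mod_cast nm_pos.mpr (isPrim_rf f b).ne_zero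
  rcases gs_struct hf hR.1 hZ.1 hb hc with h0 | ⟨b₁, b₃, h1, h3, h4, h5, h6⟩
  · rw [h0, norm_zero, mul_zero, zero_mul]
    positivity
  have hb10 : 0 < b₁ := by linarith
  have hb30 : 0 < b₃ := by linarith
  have hw : ((nm b : ℝ))⁻¹ * ‖gs (f * ρ.1 * ρ.2) b‖ ≤
      ((nm (rf f b) : ℝ))⁻¹ * (b₁ ^ (1 / 2 : ℝ) * b₃) := by
    rw [inv_mul_le_iff₀ hb0]
    have h7 : ‖gs (f * ρ.1 * ρ.2) b‖ = ((nm (rf f b) : ℝ))⁻¹ *
        (‖gs (f * ρ.1 * ρ.2) b‖ * nm (rf f b)) := by field_simp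
    rw [h7]
    calc _ ≤ ((nm (rf f b) : ℝ))⁻¹ * (nm b * (b₁ ^ (1 / 2 : ℝ) * b₃)) :=
          mul_le_mul_of_nonneg_left h6 (by positivity)
      _ = _ := by ring
  have hj : ∀ j ∈ Js J (K / nm b), (b₁ ^ (1 / 2 : ℝ) * b₃) *
      ((K / nm b / 2 ^ (j + 1)) ^ (-(1 / 2) : ℝ) * P (K / nm b / 2 ^ (j + 1))) ≤ S := by
    intro j hj
    unfold Js at hj
    rw [Finset.mem_filter] at hj
    set κ : ℝ := K / nm b / 2 ^ (j + 1) with hκ
    have h2j : (0 : ℝ) < 2 ^ j := by positivity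
    have hκ4 : 1 / 4 ≤ κ := by
      rw [hκ, le_div_iff₀ (by positivity), pow_succ]
      have := hj.2
      nlinarith
    have hκ0 : 0 < κ := by linarith
    have hκK : κ * b₁ ^ 2 * b₃ ^ 3 ≤ K := by
      have h7 : κ * (b₁ ^ 2 * b₃ ^ 3) ≤ κ * nm b := mul_le_mul_of_nonneg_left h4 hκ0.le
      have h8 : κ * nm b = K / 2 ^ (j + 1) := by
        rw [hκ]; field_simp
      have h9 : K / 2 ^ (j + 1) ≤ K := div_le_self hK.le (one_le_pow₀ (by norm_num))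
      rw [mul_assoc]
      linarith
    refine le_trans ?_ (hN b₁ b₃ κ h1 h3 hκ4 hκK)
    have h10 : P κ ≤ Bd κ (b₁ * b₃) :=
      (hP κ hκ0).trans (hBd.anti κ _ _ (one_le_mul_of_one_le_of_one_le h1 h3) h5)
    calc (b₁ ^ (1 / 2 : ℝ) * b₃) * (κ ^ (-(1 / 2) : ℝ) * P κ) ≤
        (b₁ ^ (1 / 2 : ℝ) * b₃) * (κ ^ (-(1 / 2) : ℝ) * Bd κ (b₁ * b₃)) := by gcongr
      _ = _ := by ring
  have hcard : ((Js J (K / nm b)).card : ℝ) ≤ J := by
    have h7 : (Js J (K / nm b)).card ≤ (Finset.range J).card :=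
      Finset.card_le_card (by unfold Js; exact Finset.filter_subset _ _)
    rw [Finset.card_range] at h7
    exact_mod_cast h7
  have hsum : (b₁ ^ (1 / 2 : ℝ) * b₃) * ∑ j ∈ Js J (K / nm b),
      (K / nm b / 2 ^ (j + 1)) ^ (-(1 / 2) : ℝ) * P (K / nm b / 2 ^ (j + 1)) ≤ J * S := by
    rw [Finset.mul_sum]
    refine (Finset.sum_le_sum hj).trans ?_
    rw [Finset.sum_const, nsmul_eq_mul]
    exact mul_le_mul_of_nonneg_right hcard hS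
  by_cases hs : 0 ≤ ∑ j ∈ Js J (K / nm b),
      (K / nm b / 2 ^ (j + 1)) ^ (-(1 / 2) : ℝ) * P (K / nm b / 2 ^ (j + 1))
  · refine (mul_le_mul_of_nonneg_right hw hs).trans ?_
    rw [mul_assoc]
    exact mul_le_mul_of_nonneg_left hsum (by positivity)
  · refine (mul_nonpos_of_nonneg_of_nonpos (by positivity) (not_le.mp hs).le).trans ?_
    positivity

open Classical in
/-- **the common bilinear bound** -/
theorem bW : BW := by
  intro ε hε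
  obtain ⟨C₁, hC₁, h1⟩ := nlog_le (ε := ε / 4) (by positivity)
  obtain ⟨C₂, hC₂, h2⟩ := E4401.lCnt (ε / 4) (by positivity)
  obtain ⟨C₃, hC₃, h3⟩ := sum_rf E4401.lCnt (ε := ε / 4) (by positivity)
  refine ⟨C₁ * C₂ ^ 2 * C₃, by positivity, ?_⟩
  intro M f O _ lam v w X K g Bd S hX hlam hf hfX hK hKX hS hBd hPB hN
  have hX0 : (0 : ℝ) < X := by linarith
  set J : ℕ := Nat.log 2 ⌊X⌋₊ + 1 with hJ
  set B : Finset Eis := (primBall ⌊X⌋₊).filter (fun b => Sm M b) with hB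
  set H : O → Eis → Eis × Eis → Eis → ℝ := fun o b ρ k =>
    (((nm b : ℝ))⁻¹ * ‖gs (f * ρ.1 * ρ.2) b‖) * (((nm k : ℝ))⁻¹ *
      (‖Sd (tws ρ.1 b (g b) (v o)) k‖ * ‖CS (tws ρ.2 b (g b) (w o)) k‖)) with hH
  have hH0 : ∀ o b ρ k, 0 ≤ H o b ρ k := fun o b ρ k => by rw [hH]; positivity
  have e1 : ∀ o, (lam o)⁻¹ * ∑ d ∈ (primBall ⌊K / lam o⌋₊).filter (fun d => Sm M d),
      ((nm d : ℝ))⁻¹ * ∑ i ∈ IxS f d X, ‖gs (f * i.2.1 * i.2.2) i.1.1‖ *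
        (‖Sd (tws i.2.1 i.1.1 (g i.1.1) (v o)) i.1.2‖ *
          ‖CS (tws i.2.2 i.1.1 (g i.1.1) (w o)) i.1.2‖) ≤
      ∑ b ∈ B, ∑ ρ ∈ RZs f b X, (((nm b : ℝ))⁻¹ * ‖gs (f * ρ.1 * ρ.2) b‖) *
        ((lam o)⁻¹ * ∑ k ∈ Ks M (K / nm b / lam o), ((nm k : ℝ))⁻¹ *
          (‖Sd (tws ρ.1 b (g b) (v o)) k‖ * ‖CS (tws ρ.2 b (g b) (w o)) k‖)) := by
    intro o
    have hl0 : 0 < lam o := by linarith [hlam o]
    have e2 : ∑ d ∈ (primBall ⌊K / lam o⌋₊).filter (fun d => Sm M d),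
      ((nm d : ℝ))⁻¹ * ∑ i ∈ IxS f d X, ‖gs (f * i.2.1 * i.2.2) i.1.1‖ *
        (‖Sd (tws i.2.1 i.1.1 (g i.1.1) (v o)) i.1.2‖ *
          ‖CS (tws i.2.2 i.1.1 (g i.1.1) (w o)) i.1.2‖) =
        ∑ d ∈ (primBall ⌊K / lam o⌋₊).filter (fun d => Sm M d), ∑ i ∈ IxS f d X,
          H o i.1.1 i.2 i.1.2 := by
      refine Finset.sum_congr rfl fun d _ => ?_
      rw [Finset.mul_sum]
      refine Finset.sum_congr rfl fun i hi => ?_
      unfold IxS at hi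
      rw [Finset.mem_filter] at hi
      rw [hH, ← hi.2.1, nm_mul]
      push_cast
      rw [mul_inv]
      ring
    rw [e2]
    have e3 := reindex (M := M) (f := f) (X := X) (Y := K / lam o) (by positivity)
      ((div_le_self hK.le (hlam o)).trans hKX) (H o) (hH0 o)
    refine (mul_le_mul_of_nonneg_left e3 (by positivity)).trans (le_of_eq ?_)
    rw [Finset.mul_sum]
    refine Finset.sum_congr rfl fun b _ => ?_
    rw [Finset.mul_sum]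
    refine Finset.sum_congr rfl fun ρ _ => ?_
    rw [div_right_comm, hH]
    simp only
    rw [← Finset.mul_sum]
    ring
  refine (Finset.sum_le_sum fun o _ => e1 o).trans ?_
  rw [Finset.sum_comm]
  have e4 : ∀ b ∈ B, ∑ o, ∑ ρ ∈ RZs f b X, (((nm b : ℝ))⁻¹ * ‖gs (f * ρ.1 * ρ.2) b‖) *
        ((lam o)⁻¹ * ∑ k ∈ Ks M (K / nm b / lam o), ((nm k : ℝ))⁻¹ *
          (‖Sd (tws ρ.1 b (g b) (v o)) k‖ * ‖CS (tws ρ.2 b (g b) (w o)) k‖)) ≤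
      (C₂ * X ^ (ε / 4)) ^ 2 * (((nm (rf f b) : ℝ))⁻¹ * (J * S)) := by
    intro b hb
    rw [hB, Finset.mem_filter, mem_primBall] at hb
    obtain ⟨⟨hb1, hb2⟩, hb3⟩ := hb
    have hbX : (nm b : ℝ) ≤ X := (Nat.cast_le.mpr hb1).trans (Nat.floor_le hX0.le)
    have hb0 : (0 : ℝ) < nm b := by exact_mod_cast nm_pos.mpr hb2.ne_zero
    have hb01 : (1 : ℝ) ≤ nm b := by exact_mod_cast nm_pos.mpr hb2.ne_zero
    rw [Finset.sum_comm]
    have e5 : ∀ ρ ∈ RZs f b X, ∑ o, (((nm b : ℝ))⁻¹ * ‖gs (f * ρ.1 * ρ.2) b‖) *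
        ((lam o)⁻¹ * ∑ k ∈ Ks M (K / nm b / lam o), ((nm k : ℝ))⁻¹ *
          (‖Sd (tws ρ.1 b (g b) (v o)) k‖ * ‖CS (tws ρ.2 b (g b) (w o)) k‖)) ≤
        ((nm (rf f b) : ℝ))⁻¹ * (J * S) := by
      intro ρ hρ
      have hρ' := hρ
      unfold RZs at hρ'
      rw [Finset.mem_filter] at hρ'
      obtain ⟨-, hR, hZ, hc⟩ := hρ'
      rw [← Finset.mul_sum]
      have hKb : 0 < K / nm b := by positivity
      have e6 := dyad (M := M) (b := b) (R := ρ.1) (Z := ρ.2) (g := g b) (v := v) (w := w)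
        hKb hlam (J := J) (lt_two_pow ((div_le_self hK.le hb01).trans hKX))
      refine (mul_le_mul_of_nonneg_left e6 (by positivity)).trans ?_
      refine one_bRZ (P := fun κ => PBo M lam b ρ.1 ρ.2 (g b) v w κ) hf.prim hb2 hρ hK hS hBd
        (fun κ hκ => ?_) hN
      refine hPB b ρ.1 ρ.2 κ hb3 hR hZ (fun p hp hpb => ?_) hκ
      rcases hc p hp hpb with h | h | h
      · exact h.mul_left _
      · exact (h.mul_right _).mul_right _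
      · exact (((dvd_pow_self p two_ne_zero).trans h.1).mul_left _).mul_right _
    refine (Finset.sum_le_sum e5).trans ?_
    rw [Finset.sum_const, nsmul_eq_mul]
    have hr0 : (0 : ℝ) ≤ ((nm (rf f b) : ℝ))⁻¹ * (J * S) := by positivity
    refine mul_le_mul_of_nonneg_right ?_ hr0
    have e7 : RZs f b X ⊆ ((primBall ⌊X⌋₊).filter fun R => PrI b R) ×ˢ
        ((primBall ⌊X⌋₊).filter fun R => PrI b R) := by
      intro ρ hρ
      unfold RZs at hρ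
      rw [Finset.mem_filter, Finset.mem_product] at hρ
      rw [Finset.mem_product, Finset.mem_filter, Finset.mem_filter]
      exact ⟨⟨hρ.1.1, hρ.2.1⟩, hρ.1.2, hρ.2.2.1⟩
    have e8 := Finset.card_le_card e7
    rw [Finset.card_product] at e8
    have e9 := h2 b X hX hb2.ne_zero hbX
    calc ((RZs f b X).card : ℝ) ≤ (((primBall ⌊X⌋₊).filter fun R => PrI b R).card : ℝ) *
          (((primBall ⌊X⌋₊).filter fun R => PrI b R).card : ℝ) := by exact_mod_cast e8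
      _ ≤ (C₂ * X ^ (ε / 4)) * (C₂ * X ^ (ε / 4)) :=
          mul_le_mul e9 e9 (Nat.cast_nonneg _) (by positivity)
      _ = _ := by ring
  refine (Finset.sum_le_sum e4).trans ?_
  rw [← Finset.mul_sum, ← Finset.sum_mul]
  have e10 : ∑ b ∈ B, ((nm (rf f b) : ℝ))⁻¹ ≤ C₃ * X ^ (ε / 4) := by
    refine le_trans ?_ (h3 f X hX hf.prim hfX)
    exact Finset.sum_le_sum_of_subset_of_nonneg (Finset.filter_subset _ _)
      fun _ _ _ => by positivity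
  have e11 : (J : ℝ) ≤ C₁ * X ^ (ε / 4) := h1 X hX
  calc (C₂ * X ^ (ε / 4)) ^ 2 * ((∑ b ∈ B, ((nm (rf f b) : ℝ))⁻¹) * (J * S)) ≤
      (C₂ * X ^ (ε / 4)) ^ 2 * ((C₃ * X ^ (ε / 4)) * ((C₁ * X ^ (ε / 4)) * S)) := by gcongr
    _ = (C₁ * C₂ ^ 2 * C₃) * (X ^ (ε / 4) * X ^ (ε / 4) * X ^ (ε / 4) * X ^ (ε / 4)) * S := by
        ring
    _ = _ := by
        rw [← Real.rpow_add hX0, ← Real.rpow_add hX0, ← Real.rpow_add hX0]
        congr 3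
        ring

end Crest.Agent.R017.E4BW858
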