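import Crest.Agent.R017.E4defs_352
import Crest.Agent.R017.E4d2_401

/-!
# Row 17, C70/E4, leaf `LStr` (helper401): separation at one `d`
-/

set_option autoImplicit false

noncomputable section

open Complex
open scoped ComplexConjugate

namespace Crest.Agent.R017.E4401

open Crest.Agent.R012 Crest.Agent.R012.Eis Crest.Agent.R012.GaussLoc283 Crest.Agent.R012.Mob705
open Crest.Agent.R012.Div277
open Crest.Agent.R017.Sx545 (Sm)
open Crest.Agent.R017.CM106 (CS)
open Crest.Agent.R017.C70 (CbF)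
open Crest.Agent.R017.E4352

/-! ### splitting by a predicate on primes -/

lemma exists_split {S : Eis → Prop} (hS : ∀ p q : Eis, Associated p q → S p → S q) :
    ∀ (n : ℕ) {d : Eis}, nm d ≤ n → IsPrim d → ∃ b k, IsPrim b ∧ IsPrim k ∧ b * k = d ∧
      (∀ p : Eis, Prime p → p ∣ b → S p) ∧ (∀ p : Eis, Prime p → p ∣ k → ¬ S p) := by
  intro n
  induction n with
  | zero =>
    intro b hb hp
    exact absurd (nm_eq_zero.mp (Nat.le_zero.mp hb)) hp.ne_zero
  | succ n ih =>
    intro d hd hp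
    by_cases h1 : d = 1
    · refine ⟨1, 1, isPrim_one, isPrim_one, by rw [h1, one_mul], ?_, ?_⟩ <;>
        exact fun p hpp h => absurd (isUnit_of_dvd_one h) hpp.not_isUnit
    · obtain ⟨p, hpp, hpb⟩ := exists_pp_dvd_of_isPrim hp h1
      obtain ⟨j, c, hbc, hpc, hc⟩ := NatP401.exists_pow_mul hpp hp
      have hj : 1 ≤ j := by
        by_contra hcon
        have : j = 0 := by omega
        rw [this, pow_zero, one_mul] at hbc
        exact hpc (hbc ▸ hpb)
      have hcn : nm c ≤ n := by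
        rw [hbc, nm_mul, nm_pow] at hd
        have h2 := hpp.one_lt_nm
        have h3 : 0 < nm c := nm_pos.mpr hc.ne_zero
        have h4 : 2 ≤ nm p ^ j := by
          calc 2 ≤ nm p := h2
            _ = nm p ^ 1 := (pow_one _).symm
            _ ≤ nm p ^ j := Nat.pow_le_pow_right (by omega) hj
        nlinarith
      obtain ⟨b, k, hb, hk, rfl, h2, h3⟩ := ih hcn hc
      have hass : ∀ q : Eis, Prime q → q ∣ p ^ j → Associated p q := fun q hq hqp =>
        ((hq.associated_of_dvd hpp.prime (hq.dvd_of_dvd_pow hqp))).symm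
      by_cases hSp : S p
      · refine ⟨p ^ j * b, k, (hpp.isPrim.pow j).mul hb, hk, by rw [hbc]; ring, ?_, h3⟩
        intro q hq hqd
        rcases hq.dvd_or_dvd hqd with h | h
        · exact hS p q (hass q hq h) hSp
        · exact h2 q hq h
      · refine ⟨b, p ^ j * k, hb, (hpp.isPrim.pow j).mul hk, by rw [hbc]; ring, h2, ?_⟩
        intro q hq hqd
        rcases hq.dvd_or_dvd hqd with h | h
        · exact fun hSq => hSp (hS q p (hass q hq h).symm hSq)
        · exact h3 q hq h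

/-- the splitting predicate -/
def Spl (S : Eis → Prop) (b k : Eis) : Prop :=
  (∀ p : Eis, Prime p → p ∣ b → S p) ∧ (∀ p : Eis, Prime p → p ∣ k → ¬ S p)

lemma Spl.cop {S : Eis → Prop} {b k b' k' : Eis} (hb : IsPrim b) (h : Spl S b k)
    (h' : Spl S b' k') : IsCoprime b k' := by
  rw [isCoprime_iff_pp hb]
  exact fun p hp h1 h2 => h'.2 p hp.prime h2 (h.1 p hp.prime h1)

lemma spl_unique {S : Eis → Prop} {b k b' k' : Eis} (hb : IsPrim b) (hb' : IsPrim b')
    (h : Spl S b k) (h' : Spl S b' k') (he : b * k = b' * k') : b = b' ∧ k = k' := by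
  have h1 : b ∣ b' := (h.cop hb h').dvd_of_dvd_mul_right (he ▸ dvd_mul_right b k)
  have h2 : b' ∣ b := (h'.cop hb' h).dvd_of_dvd_mul_right (he ▸ dvd_mul_right b' k')
  have h3 : b = b' := hb.eq_of_associated hb' (associated_of_dvd_dvd h1 h2)
  subst h3
  exact ⟨rfl, mul_left_cancel₀ hb.ne_zero he⟩

open Classical in
/-- exactly one splitting -/
lemma sum_spl {S : Eis → Prop} (hS : ∀ p q : Eis, Associated p q → S p → S q) {d : Eis}
    (hd : IsPrim d) :
    ∑ i ∈ dvs d ×ˢ dvs d, (if i.1 * i.2 = d ∧ Spl S i.1 i.2 then (1 : ℂ) else 0) = 1 := by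
  obtain ⟨b, k, hb, hk, hbk, h1, h2⟩ := exists_split hS _ le_rfl hd
  rw [Finset.sum_eq_single (b, k)]
  · rw [if_pos ⟨hbk, h1, h2⟩]
  · rintro ⟨b', k'⟩ hm hne
    rw [if_neg]
    rintro ⟨h3, h4⟩
    apply hne
    rw [Finset.mem_product, mem_dvs hd.ne_zero, mem_dvs hd.ne_zero] at hm
    obtain ⟨e1, e2⟩ := spl_unique hm.1.1 hb h4 ⟨h1, h2⟩ (h3.trans hbk.symm)
    simp only at e1 e2
    rw [e1, e2]
  · intro h
    exfalso
    apply h
    rw [Finset.mem_product, mem_dvs hd.ne_zero, mem_dvs hd.ne_zero]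
    exact ⟨⟨hb, ⟨k, hbk.symm⟩⟩, ⟨hk, ⟨b, by rw [← hbk]; ring⟩⟩⟩

/-- the predicate at `y` -/
def Sy (f d y : Eis) (p : Eis) : Prop := p ∣ f * y ∨ p ^ 3 ∣ d

lemma Sy_assoc (f d y : Eis) (p q : Eis) (h : Associated p q) (hp : Sy f d y p) :
    Sy f d y q := by
  rcases hp with h1 | h1
  · exact Or.inl (h.symm.dvd.trans h1)
  · exact Or.inr ((pow_dvd_pow_of_dvd h.symm.dvd 3).trans h1)

/-- the condition without `y` -/
def DZ (f d b k Z : Eis) : Prop :=
  b * k = d ∧ IsCoprime b k ∧ CbF k ∧ IsCoprime k f ∧ IsCoprime k Z ∧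
    ∀ p : Eis, Prime p → p ∣ b → p ∣ Z ∨ p ∣ f ∨ p ^ 3 ∣ b

lemma cop_of_primes {a c : Eis} (ha : IsPrim a) (h : ∀ p : Eis, Prime p → p ∣ a → ¬ p ∣ c) :
    IsCoprime a c := by
  rw [isCoprime_iff_pp ha]
  exact fun p hp h1 => h p hp.prime h1

/-- `C(b, k, Z y') ⟺ D(b, k, Z) ∧ (k, y') = 1` -/
lemma spl_iff {f d b k Z y : Eis} (hb : IsPrim b) (hk : IsPrim k) (hyb : IsCoprime y b) :
    (b * k = d ∧ Spl (Sy f d (Z * y)) b k) ↔ (DZ f d b k Z ∧ IsCoprime k y) := by
  constructor
  · rintro ⟨hd, h⟩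
    have hbk : IsCoprime b k := h.cop hb h
    have hkf : IsCoprime k f := cop_of_primes hk fun p hp hpk hpf =>
      h.2 p hp hpk (Or.inl (hpf.mul_right _))
    have hkZ : IsCoprime k Z := cop_of_primes hk fun p hp hpk hpf =>
      h.2 p hp hpk (Or.inl ((hpf.mul_right y).mul_left f))
    have hky : IsCoprime k y := cop_of_primes hk fun p hp hpk hpf =>
      h.2 p hp hpk (Or.inl ((hpf.mul_left Z).mul_left f))
    refine ⟨⟨hd, hbk, ?_, hkf, hkZ, ?_⟩, hky⟩
    · intro p hp hpk
      have hpk1 : p ∣ k := (dvd_pow_self p (by norm_num)).trans hpk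
      exact h.2 p hp hpk1 (Or.inr (hd ▸ hpk.mul_left b))
    · intro p hp hpb
      rcases h.1 p hp hpb with h1 | h1
      · rcases hp.dvd_or_dvd h1 with h2 | h2
        · exact Or.inr (Or.inl h2)
        · rcases hp.dvd_or_dvd h2 with h3 | h3
          · exact Or.inl h3
          · exact absurd (hyb.isUnit_of_dvd' h3 hpb) hp.not_isUnit
      · right; right
        rw [← hd] at h1
        have hpk : IsCoprime (p ^ 3) k := by
          apply IsCoprime.pow_left
          have : ¬ p ∣ k := fun h4 => hp.not_isUnit (hbk.isUnit_of_dvd' hpb h4)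
          exact (hp.irreducible.coprime_iff_not_dvd).mpr this
        exact hpk.dvd_of_dvd_mul_right h1
  · rintro ⟨⟨hd, hbk, hcb, hkf, hkZ, hp1⟩, hky⟩
    refine ⟨hd, ?_, ?_⟩
    · intro p hp hpb
      rcases hp1 p hp hpb with h1 | h1 | h1
      · exact Or.inl ((h1.mul_right y).mul_left f)
      · exact Or.inl (h1.mul_right _)
      · exact Or.inr (hd ▸ h1.mul_right k)
    · intro p hp hpk h
      rcases h with h1 | h1
      · rcases hp.dvd_or_dvd h1 with h2 | h2
        · exact hp.not_isUnit (hkf.isUnit_of_dvd' hpk h2)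
        · rcases hp.dvd_or_dvd h2 with h3 | h3
          · exact hp.not_isUnit (hkZ.isUnit_of_dvd' hpk h3)
          · exact hp.not_isUnit (hky.isUnit_of_dvd' hpk h3)
      · rw [← hd] at h1
        have hpb : IsCoprime (p ^ 3) b := by
          apply IsCoprime.pow_left
          have : ¬ p ∣ b := fun h4 => hp.not_isUnit (hbk.isUnit_of_dvd' h4 hpk)
          exact (hp.irreducible.coprime_iff_not_dvd).mpr this
        exact hcb p hp (hpb.dvd_of_dvd_mul_left h1)

/-- the Gauss sum at `b k` -/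
lemma gs_bk {f R Z x y b k : Eis} (hb : IsPrim b) (hk : IsPrim k) (hbk : IsCoprime b k)
    (hkf : IsCoprime k f) (hR : IsCoprime k R) (hZ : IsCoprime k Z) (hx : IsCoprime x b)
    (hy : IsCoprime y b) (hky : IsCoprime k y) :
    conj (gs (f * (R * x) * (Z * y)) (b * k)) =
      (conj (gs (f * R * Z) b) * sy (f * R * Z * b) k) *
        ((sy x b * conj (gs x k)) * (sy y b * sy y k)) := by
  have e1 : f * (R * x) * (Z * y) = (f * R * Z) * x * y := by ring
  rw [e1, gs_mul' syAx _ hb hk hbk, gs_mul_left syAx _ hb hy, gs_mul_left syAx _ hb hx]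
  have e2 : f * R * Z * x * y * b = x * (f * R * Z * b * y) := by ring
  have hc : IsCoprime (f * R * Z * b * y) k :=
    (((((hkf.mul_right hR).mul_right hZ).mul_right hbk.symm).mul_right hky)).symm
  rw [e2, gs_mul_left syAx _ hk hc]
  have e3 : sy (f * R * Z * b * y) k = sy (f * R * Z * b) k * sy y k := syAx.mul_left _ _ _ hk
  simp only [map_mul, Complex.conj_conj]
  rw [e3]
  ring

/-- the linear sums as finite sums -/
lemma Sd_tws {v : Eis → ℂ} {N : ℕ} (hv : ∀ x, v x ≠ 0 → x ∈ primBall N) {R : Eis} (hR : IsPrim R)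
    (b k : Eis) (g : Eis → ℂ) : open Classical in Sd (tws R b g v) k = ∑ x ∈ primBall N,
      (if IsCoprime x b then v (R * x) else 0) * (g x * conj (gs x k)) := by
  classical
  unfold Sd tws
  rw [tsum_eq_sum (s := primBall N)]
  · refine Finset.sum_congr rfl fun x _ => ?_
    split_ifs
    · ring
    · ring
  · intro x hx
    have h1 : v (R * x) = 0 := by
      by_contra h
      apply hx
      have h2 := mem_primBall.mp (hv _ h)
      rw [mem_primBall]
      refine ⟨le_trans ?_ h2.1, h2.2.of_mul_left hR⟩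
      rw [nm_mul]
      exact Nat.le_mul_of_pos_left _ (nm_pos.mpr hR.ne_zero)
    rw [h1]
    simp

lemma CS_tws {w : Eis → ℂ} {N : ℕ} (hw : ∀ x, w x ≠ 0 → x ∈ primBall N) {Z : Eis} (hZ : IsPrim Z)
    (b k : Eis) (g : Eis → ℂ) : open Classical in CS (tws Z b g w) k = ∑ y ∈ primBall N,
      (if IsCoprime y b then w (Z * y) else 0) * (g y * sy k y) := by
  classical
  unfold CS tws
  rw [tsum_eq_sum (s := primBall N)]
  · refine Finset.sum_congr rfl fun x _ => ?_
    split_ifs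
    · ring
    · ring
  · intro x hx
    have h1 : w (Z * x) = 0 := by
      by_contra h
      apply hx
      have h2 := mem_primBall.mp (hw _ h)
      rw [mem_primBall]
      refine ⟨le_trans ?_ h2.1, h2.2.of_mul_left hZ⟩
      rw [nm_mul]
      exact Nat.le_mul_of_pos_left _ (nm_pos.mpr hZ.ne_zero)
    rw [h1]
    simp

/-- the term of the exact identity -/
def TU (f : Eis) (v w : Eis → ℂ) (b k R Z : Eis) : ℂ :=
  (conj (gs (f * R * Z) b) * sy (f * R * Z * b) k) *
    (Sd (tws R b (fun y => sy y b) v) k * CS (tws Z b (fun y => sy y b) w) k)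

open Classical in
/-- **the exact separation** -/
theorem lstr_eq {f d : Eis} {v w : Eis → ℂ} {N : ℕ} (hd : IsPrim d)
    (hv : ∀ x, v x ≠ 0 → x ∈ primBall N) (hw : ∀ x, w x ≠ 0 → x ∈ primBall N) :
    ∑ x ∈ primBall N, v x * ∑ y ∈ primBall N, w y * conj (gs (f * x * y) d) =
      ∑ i ∈ dvs d ×ˢ dvs d, ∑ Z ∈ bs i.1 N, ∑ R ∈ bs i.1 N,
        if DZ f d i.1 i.2 Z then TU f v w i.1 i.2 R Z else 0 := by
  have e1 : ∑ x ∈ primBall N, v x * ∑ y ∈ primBall N, w y * conj (gs (f * x * y) d) =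
      ∑ y ∈ primBall N, w y * ∑ x ∈ primBall N, v x * conj (gs (f * x * y) d) := by
    simp only [Finset.mul_sum]
    rw [Finset.sum_comm]
    exact Finset.sum_congr rfl fun y _ => Finset.sum_congr rfl fun x _ => by ring
  rw [e1]
  set H : Eis → ℂ := fun y => ∑ x ∈ primBall N, v x * conj (gs (f * x * y) d) with hH
  have e2 : ∑ y ∈ primBall N, w y * H y = ∑ i ∈ dvs d ×ˢ dvs d, ∑ y ∈ primBall N,
      w y * ((if i.1 * i.2 = d ∧ Spl (Sy f d y) i.1 i.2 then (1 : ℂ) else 0) * H y) := by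
    rw [Finset.sum_comm]
    refine Finset.sum_congr rfl fun y _ => ?_
    rw [← Finset.mul_sum, ← Finset.sum_mul, sum_spl (Sy_assoc f d y) hd, one_mul]
  rw [e2]
  refine Finset.sum_congr rfl fun i hi => ?_
  obtain ⟨b, k⟩ := i
  rw [Finset.mem_product, mem_dvs hd.ne_zero, mem_dvs hd.ne_zero] at hi
  obtain ⟨⟨hb, -⟩, ⟨hk, -⟩⟩ := hi
  simp only at hb hk ⊢
  rw [sum_bs b hw]
  refine Finset.sum_congr rfl fun Z hZ => ?_
  obtain ⟨⟨-, hZp⟩, hZb⟩ := mem_bs.mp hZ
  by_cases hD : DZ f d b k Z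
  · simp only [if_pos hD]
    obtain ⟨hbkd, hbk, hcb, hkf, hkZ, hpr⟩ := hD
    have e3 : ∀ y ∈ primBall N, (if IsCoprime y b then w (Z * y) else 0) *
        ((if b * k = d ∧ Spl (Sy f d (Z * y)) b k then (1 : ℂ) else 0) * H (Z * y)) =
        ∑ R ∈ bs b N, (conj (gs (f * R * Z) b) * sy (f * R * Z * b) k) *
          Sd (tws R b (fun y => sy y b) v) k *
          ((if IsCoprime y b then w (Z * y) else 0) * (sy y b * sy k y)) := by
      intro y hy
      have hyp : IsPrim y := (mem_primBall.mp hy).2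
      by_cases hyb : IsCoprime y b
      · rw [if_pos hyb]
        by_cases hky : IsCoprime k y
        · rw [if_pos ((spl_iff hb hk hyb).mpr ⟨⟨hbkd, hbk, hcb, hkf, hkZ, hpr⟩, hky⟩), one_mul]
          simp only [hH]
          rw [sum_bs b hv, Finset.mul_sum]
          refine Finset.sum_congr rfl fun R hR => ?_
          obtain ⟨⟨-, hRp⟩, hRb⟩ := mem_bs.mp hR
          have hkR : IsCoprime k R := cop_of_primes hk fun p hp hpk hpR =>
            hp.not_isUnit (hbk.isUnit_of_dvd' (hRb p hp hpR) hpk)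
          rw [Sd_tws hv hRp, Finset.mul_sum, Finset.mul_sum, Finset.sum_mul]
          refine Finset.sum_congr rfl fun x hx => ?_
          by_cases hxb : IsCoprime x b
          · rw [if_pos hxb, ← hbkd, gs_bk hb hk hbk hkf hkR hkZ hxb hyb hky,
              syAx.recip y k hyp hk]
            ring
          · rw [if_neg hxb]; ring
        · rw [if_neg (fun h => hky ((spl_iff hb hk hyb).mp h).2), zero_mul, mul_zero]
          symm
          refine Finset.sum_eq_zero fun R _ => ?_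
          have h0 : sy k y = 0 := (syAx.eq_zero k y hyp).mpr hky
          rw [h0]; ring
      · rw [if_neg hyb, zero_mul]
        symm
        refine Finset.sum_eq_zero fun R _ => ?_
        ring
    rw [Finset.sum_congr rfl e3, Finset.sum_comm]
    refine Finset.sum_congr rfl fun R hR => ?_
    unfold TU
    rw [← Finset.mul_sum, CS_tws hw hZp]
    ring
  · simp only [if_neg hD, Finset.sum_const_zero]
    refine Finset.sum_eq_zero fun y hy => ?_
    by_cases hyb : IsCoprime y b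
    · rw [if_neg (fun h => hD ((spl_iff hb hk hyb).mp h).1), zero_mul, mul_zero]
    · rw [if_neg hyb, zero_mul]

/-- no cube divides a frequency of the `v`-side -/
lemma XF_not_cube {x : Eis} (h : XF x) {p : Eis} (hp : Prime p) : ¬ p ^ 3 ∣ x := h p hp

/-- the exponents at `p` -/
lemma exp_of_ne {f R Z b x : Eis} (hb : IsPrim b) (hg : gs (f * R * Z) b ≠ 0) (hx : XF (R * x))
    {p : Eis} (hp : IsPP p) (h3 : p ^ 3 ∣ b) (hZ : ¬ p ∣ Z) (hf : ¬ p ∣ f) :
    p ^ 2 ∣ R ∧ ¬ p ^ 3 ∣ R ∧ p ^ 3 ∣ b ∧ ¬ p ^ 4 ∣ b := by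
  have hR3 : ¬ p ^ 3 ∣ R := fun h => XF_not_cube hx hp.prime (h.mul_right x)
  obtain ⟨j, c, hbc, hpc, hc⟩ := NatP401.exists_pow_mul hp hb
  have hcp : IsCoprime p c := hp.isCoprime_iff.mpr hpc
  have hj3 : 3 ≤ j := by
    by_contra hcon
    push Not at hcon
    have h4 : p ^ (j + 1) ∣ p ^ j * c := hbc ▸ (pow_dvd_pow p (by omega)).trans h3
    rw [pow_succ, mul_dvd_mul_iff_left (pow_ne_zero _ hp.ne_zero)] at h4
    exact hpc h4
  rw [hbc, gs_mul' syAx _ (hp.isPrim.pow j) hc hcp.pow_left] at hg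
  have hg1 := left_ne_zero_of_mul hg
  obtain ⟨i, rfl⟩ : ∃ i, j = i + 1 := ⟨j - 1, by omega⟩
  have h5 : p ^ i ∣ f * R * Z := by
    by_contra h
    exact hg1 (gs_pow_of_not_dvd syAx hp.isPrim h)
  have h6 : p ^ i ∣ R := by
    have c1 : IsCoprime (p ^ i) Z := (hp.isCoprime_iff.mpr hZ).pow_left
    have c2 : IsCoprime (p ^ i) f := (hp.isCoprime_iff.mpr hf).pow_left
    exact c2.dvd_of_dvd_mul_left (c1.dvd_of_dvd_mul_right h5)
  have hi2 : i = 2 := by
    have : ¬ 3 ≤ i := fun h => hR3 ((pow_dvd_pow p h).trans h6)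
    omega
  subst hi2
  refine ⟨h6, hR3, h3, fun h => ?_⟩
  rw [hbc, show p ^ 4 = p ^ (2 + 1) * p by ring,
    mul_dvd_mul_iff_left (pow_ne_zero _ hp.ne_zero)] at h
  exact hpc h

open Classical in
/-- **`LStr`** -/
theorem lStr : LStr := by
  intro M f d v w X hfM hdM hv hw hvX hwX
  have hd : IsPrim d := hdM.1
  set N := ⌊X⌋₊ with hN
  have hv' : ∀ x, v x ≠ 0 → x ∈ primBall N := fun x hx =>
    mem_primBall.mpr ⟨Nat.le_floor (hvX x hx).2, (hv.sm x hx).1⟩
  have hw' : ∀ x, w x ≠ 0 → x ∈ primBall N := fun x hx =>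
    mem_primBall.mpr ⟨Nat.le_floor (hwX x hx), (hw.sm x hx).1⟩
  have e1 : ∑' x : Eis, v x * ∑' y : Eis, w y * conj (gs (f * x * y) d) =
      ∑ x ∈ primBall N, v x * ∑ y ∈ primBall N, w y * conj (gs (f * x * y) d) := by
    rw [tsum_eq_sum (s := primBall N)]
    · refine Finset.sum_congr rfl fun x _ => ?_
      rw [tsum_eq_sum (s := primBall N)]
      intro y hy
      have : w y = 0 := by
        by_contra h; exact hy (hw' y h)
      rw [this, zero_mul]
    · intro x hx
      have : v x = 0 := by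
        by_contra h; exact hx (hv' x h)
      rw [this, zero_mul]
  rw [e1, lstr_eq hd hv' hw']
  set U : (Eis × Eis) × (Eis × Eis) → ℝ := fun i => ‖gs (f * i.2.1 * i.2.2) i.1.1‖ *
        (‖Sd (tws i.2.1 i.1.1 (fun y => sy y i.1.1) v) i.1.2‖ *
          ‖CS (tws i.2.2 i.1.1 (fun y => sy y i.1.1) w) i.1.2‖) with hU
  have hU0 : ∀ i, 0 ≤ U i := fun i => by simp only [hU]; positivity
  refine (norm_sum_le _ _).trans ?_
  have e2 : ∑ j ∈ IxS f d X, U j = ∑ i ∈ dvs d ×ˢ dvs d, ∑ Z ∈ primBall N, ∑ R ∈ primBall N,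
      (if i.1 * i.2 = d ∧ IsCoprime i.1 i.2 ∧ CbF i.2 ∧ IsCoprime i.2 f ∧
      PrI i.1 R ∧ PrI i.1 Z ∧ (∀ p : Eis, Prime p → p ∣ i.1 → p ∣ Z ∨ p ∣ f ∨
        (p ^ 2 ∣ R ∧ ¬ p ^ 3 ∣ R ∧ p ^ 3 ∣ i.1 ∧ ¬ p ^ 4 ∣ i.1)) then U (i, (R, Z)) else 0) := by
    unfold IxS
    rw [Finset.sum_filter, Finset.sum_product]
    refine Finset.sum_congr rfl fun i _ => ?_
    rw [Finset.sum_product, Finset.sum_comm]
  change _ ≤ ∑ j ∈ IxS f d X, U j
  rw [e2]
  refine Finset.sum_le_sum fun i hi => ?_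
  obtain ⟨b, k⟩ := i
  rw [Finset.mem_product, mem_dvs hd.ne_zero, mem_dvs hd.ne_zero] at hi
  obtain ⟨⟨hb, -⟩, ⟨hk, -⟩⟩ := hi
  simp only at hb hk ⊢
  refine (norm_sum_le _ _).trans ?_
  unfold bs
  rw [Finset.sum_filter]
  refine Finset.sum_le_sum fun Z hZm => ?_
  have hZp : IsPrim Z := (mem_primBall.mp hZm).2
  have hnn : ∀ R, 0 ≤ (if b * k = d ∧ IsCoprime b k ∧ CbF k ∧ IsCoprime k f ∧
      PrI b R ∧ PrI b Z ∧ ∀ p : Eis, Prime p → p ∣ b → p ∣ Z ∨ p ∣ f ∨
        (p ^ 2 ∣ R ∧ ¬ p ^ 3 ∣ R ∧ p ^ 3 ∣ b ∧ ¬ p ^ 4 ∣ b) then U ((b, k), (R, Z)) else 0) := by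
    intro R
    split_ifs
    · exact hU0 _
    · exact le_rfl
  by_cases hZ : ∀ p : Eis, Prime p → p ∣ Z → p ∣ b
  · rw [if_pos hZ]
    refine (norm_sum_le _ _).trans ?_
    rw [Finset.sum_filter]
    refine Finset.sum_le_sum fun R hRm => ?_
    have hRp : IsPrim R := (mem_primBall.mp hRm).2
    by_cases hR : ∀ p : Eis, Prime p → p ∣ R → p ∣ b
    · rw [if_pos hR]
      by_cases hD : DZ f d b k Z
      · rw [if_pos hD]
        have hTU : ‖TU f v w b k R Z‖ ≤ U ((b, k), (R, Z)) := by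
          simp only [hU]
          unfold TU
          rw [norm_mul, norm_mul, norm_mul, RCLike.norm_conj]
          have h1 : ‖sy (f * R * Z * b) k‖ ≤ 1 := CM106.norm_sy_le' hk
          calc _ ≤ ‖gs (f * R * Z) b‖ * 1 * (‖Sd (tws R b (fun y => sy y b) v) k‖ *
              ‖CS (tws Z b (fun y => sy y b) w) k‖) := by gcongr
            _ = _ := by ring
        refine hTU.trans ?_
        by_cases h0 : U ((b, k), (R, Z)) = 0
        · exact h0.le.trans (hnn R)
        · rw [if_pos]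
          obtain ⟨hbkd, hbk, hcb, hkf, hkZ, hpr⟩ := hD
          refine ⟨hbkd, hbk, hcb, hkf, ⟨hRp, hR⟩, ⟨hZp, hZ⟩, fun p hp hpb => ?_⟩
          rcases hpr p hp hpb with h1 | h1 | h1
          · exact Or.inl h1
          · exact Or.inr (Or.inl h1)
          · by_cases h2 : p ∣ Z
            · exact Or.inl h2
            by_cases h3 : p ∣ f
            · exact Or.inr (Or.inl h3)
            right; right
            simp only [hU] at h0
            have hg : gs (f * R * Z) b ≠ 0 := fun h => h0 (by rw [h]; simp)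
            have hS : Sd (tws R b (fun y => sy y b) v) k ≠ 0 := fun h => h0 (by rw [h]; simp)
            rw [Sd_tws hv' hRp] at hS
            obtain ⟨x, -, hx⟩ := Finset.exists_ne_zero_of_sum_ne_zero hS
            have hx1 : v (R * x) ≠ 0 := by
              intro h
              apply hx
              rw [h]; simp
            have hXF := (hvX _ hx1).1
            have hlam : ¬ lam ∣ p := fun hl => hb.not_lam_dvd (hl.trans hpb)
            obtain ⟨u, hu⟩ := exists_unit_mul_isPrim hlam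
            have hass : Associated p ((u : Eis) * p) := ⟨u, mul_comm _ _⟩
            have hpp : IsPP ((u : Eis) * p) := ⟨hu, hass.prime hp⟩
            have hd1 : ∀ (n : ℕ) (c : Eis), ((u : Eis) * p) ^ n ∣ c ↔ p ^ n ∣ c := fun n c =>
              (hass.pow_pow (n := n)).dvd_iff_dvd_left.symm
            have h4 := exp_of_ne hb hg hXF hpp ((hd1 3 b).mpr h1)
              (fun h => h2 (by have := (hd1 1 Z); rw [pow_one, pow_one] at this; exact this.mp h))
              (fun h => h3 (by have := (hd1 1 f); rw [pow_one, pow_one] at this; exact this.mp h))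
            rwa [hd1, hd1, hd1, hd1] at h4
      · rw [if_neg hD, norm_zero]
        exact hnn R
    · rw [if_neg hR]
      exact hnn R
  · rw [if_neg hZ]
    exact Finset.sum_nonneg fun R _ => hnn R

end Crest.Agent.R017.E4401
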