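import Crest.Agent.R017.E4defs_352
import Crest.Agent.R012.Weight_600

/-!
# Row 17, E4: separation of the dual weight (`E4352.LSep`)
-/

set_option autoImplicit false

noncomputable section

open MeasureTheory Complex Set Filter Topology
open scoped ContDiff FourierTransform

namespace Crest.Agent.R017.E4Sep92

open Crest.Agent.R012 Crest.Agent.R012.Weight600

/-! ### the step -/

/-- smooth step: `0` for `s ≤ -1`, `1` for `s ≥ 0` -/
def th (s : ℝ) : ℝ := Real.smoothTransition (s + 1)

lemma th_smooth : ContDiff ℝ ∞ th :=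
  Real.smoothTransition.contDiff.comp (contDiff_id.add contDiff_const)

lemma th_one {s : ℝ} (h : 0 ≤ s) : th s = 1 := Real.smoothTransition.one_of_one_le (by linarith)
lemma th_zero {s : ℝ} (h : s ≤ -1) : th s = 0 := Real.smoothTransition.zero_of_nonpos (by linarith)

lemma deriv_th_supp : HasCompactSupport (deriv th) := by
  refine HasCompactSupport.of_support_subset_isCompact (isCompact_Icc (a := (-1 : ℝ)) (b := 0)) ?_
  intro s hs
  by_contra hc
  apply hs
  rw [mem_Icc, not_and_or, not_le, not_le] at hc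
  rcases hc with hc | hc
  · have : th =ᶠ[𝓝 s] fun _ => (0 : ℝ) := by
      filter_upwards [Iio_mem_nhds hc] with t ht
      exact th_zero (le_of_lt ht)
    rw [this.deriv_eq]; simp
  · have : th =ᶠ[𝓝 s] fun _ => (1 : ℝ) := by
      filter_upwards [Ioi_mem_nhds hc] with t ht
      exact th_one (le_of_lt ht)
    rw [this.deriv_eq]; simp

lemma th_bound (n : ℕ) : ∃ C : ℝ, 0 ≤ C ∧ ∀ s, ‖iteratedDeriv n th s‖ ≤ C := by
  rcases n with _ | n
  · refine ⟨1, zero_le_one, fun s => ?_⟩
    have h : 0 ≤ th s := Real.smoothTransition.nonneg _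
    rw [iteratedDeriv_zero, Real.norm_eq_abs, abs_of_nonneg h]
    exact Real.smoothTransition.le_one _
  · have hd : ContDiff ℝ ∞ (deriv th) := (contDiff_infty_iff_deriv.mp th_smooth).2
    obtain ⟨C, hC⟩ := (deriv_th_supp.iteratedFDeriv (𝕜 := ℝ) n).exists_bound_of_continuous
      (hd.continuous_iteratedFDeriv (by exact_mod_cast le_top))
    refine ⟨|C|, abs_nonneg _, fun s => ?_⟩
    rw [iteratedDeriv_succ', ← norm_iteratedFDeriv_eq_norm_iteratedDeriv]
    exact (hC s).trans (le_abs_self C)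

lemma th_bounds (A : ℕ) : ∃ Φ : ℝ, 0 ≤ Φ ∧ ∀ n ≤ A, ∀ s, ‖iteratedDeriv n th s‖ ≤ Φ := by
  choose C hC0 hC using th_bound
  refine ⟨∑ i ∈ Finset.range (A + 1), C i, Finset.sum_nonneg fun _ _ => hC0 _, fun n hn s => ?_⟩
  exact (hC n s).trans (Finset.single_le_sum (f := C) (fun _ _ => hC0 _)
    (Finset.mem_range.mpr (by omega)))

/-! ### the majorant -/

/-- `1` on `[-(L+1), 0]`, `e^{-s}` on `(0, ∞)` -/
def bd (L s : ℝ) : ℝ := (Icc (-(L + 1)) 0).indicator (fun _ => (1 : ℝ)) s +
  (Ioi (0 : ℝ)).indicator (fun s => Real.exp (-s)) s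

lemma bd_nonneg (L s : ℝ) : 0 ≤ bd L s :=
  add_nonneg (indicator_nonneg (fun _ _ => zero_le_one) _)
    (indicator_nonneg (fun _ _ => (Real.exp_pos _).le) _)

lemma le_bd {L s : ℝ} (hs : -(L + 1) ≤ s) : min 1 (Real.exp (-s)) ≤ bd L s := by
  unfold bd
  rcases le_or_gt s 0 with h | h
  · rw [indicator_of_mem (by exact ⟨hs, h⟩), indicator_of_notMem (by exact not_lt.mpr h), add_zero]
    exact min_le_left _ _
  · rw [indicator_of_notMem (by rintro ⟨-, h2⟩; linarith), indicator_of_mem (by exact h), zero_add]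
    exact min_le_right _ _

lemma bd_int {L : ℝ} (hL : 1 ≤ L) : Integrable (bd L) ∧ ∫ s, bd L s = L + 2 := by
  have i1 : Integrable ((Icc (-(L + 1)) 0).indicator (fun _ : ℝ => (1 : ℝ))) :=
    (integrable_indicator_iff measurableSet_Icc).mpr
      (integrableOn_const isCompact_Icc.measure_lt_top.ne)
  have i2 : Integrable ((Ioi (0 : ℝ)).indicator (fun s : ℝ => Real.exp (-s))) := by
    rw [integrable_indicator_iff measurableSet_Ioi]
    exact integrableOn_exp_neg_Ioi 0
  refine ⟨i1.add i2, ?_⟩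
  have e : ∫ s, bd L s = (∫ s, (Icc (-(L + 1)) 0).indicator (fun _ : ℝ => (1 : ℝ)) s) +
      ∫ s, (Ioi (0 : ℝ)).indicator (fun s : ℝ => Real.exp (-s)) s := integral_add i1 i2
  rw [e, integral_indicator_const _ measurableSet_Icc, integral_indicator measurableSet_Ioi,
    integral_exp_neg_Ioi, Real.volume_real_Icc_of_le (by linarith)]
  simp
  ring

/-! ### the theorem -/

theorem lSep : E4352.LSep := by
  intro J hJ
  obtain ⟨Φ, hΦ0, hΦ⟩ := th_bounds J
  refine ⟨2 ^ J * (3 * (2 ^ J * Φ)), by positivity, fun B W hW L hL => ?_⟩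
  set F : ℝ → ℂ := fun x => W (Real.exp x) with hF
  have hFs : ContDiff ℝ ∞ F := hW.smooth.comp_contDiff Real.contDiff_exp (fun x => Real.exp_pos x)
  have hFb : ∀ m ≤ J, ∀ s, ‖iteratedDeriv m F s‖ ≤ B * min 1 (Real.exp (-s)) := by
    intro m hm s
    have h := hW.dec m (by omega) (Real.exp s) (Real.exp_pos s)
    rw [Real.log_exp, pow_one, ← Real.exp_neg] at h
    exact h
  have hB : 0 ≤ B := by
    have h := hFb 0 (Nat.zero_le _) 0
    simp only [neg_zero, Real.exp_zero, min_self, mul_one] at h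
    exact (norm_nonneg _).trans h
  set G : ℝ → ℂ := fun s => th (s + L) • F s with hG
  have hθs : ContDiff ℝ ∞ (fun s => th (s + L)) := th_smooth.comp (contDiff_id.add contDiff_const)
  have hGs : ContDiff ℝ ∞ G := hθs.smul hFs
  have hθb : ∀ n ≤ J, ∀ s, ‖iteratedFDeriv ℝ n (fun s => th (s + L)) s‖ ≤ Φ := by
    intro n hn s
    rw [norm_iteratedFDeriv_eq_norm_iteratedDeriv, iteratedDeriv_comp_add_const]
    exact hΦ n hn _
  have hbound : ∀ n ≤ J, ∀ s, ‖iteratedDeriv n G s‖ ≤ 2 ^ J * Φ * B * bd L s := by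
    intro n hn s
    rw [← norm_iteratedFDeriv_eq_norm_iteratedDeriv]
    by_cases hs : -(L + 1) ≤ s
    · refine (norm_iteratedFDeriv_smul_le (N := ∞) hθs hFs s (by exact_mod_cast le_top)).trans ?_
      have h1 : ∀ i ∈ Finset.range (n + 1), (n.choose i : ℝ) *
          ‖iteratedFDeriv ℝ i (fun s => th (s + L)) s‖ *
          ‖iteratedFDeriv ℝ (n - i) F s‖ ≤ (n.choose i : ℝ) * (Φ * (B * bd L s)) := by
        intro i hi
        have hi' : i ≤ J := by
          have := Finset.mem_range.mp hi; omega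
        rw [norm_iteratedFDeriv_eq_norm_iteratedDeriv (n := n - i), mul_assoc]
        refine mul_le_mul_of_nonneg_left ?_ (Nat.cast_nonneg _)
        refine mul_le_mul (hθb i hi' s) ((hFb _ (by omega) s).trans ?_) (norm_nonneg _) hΦ0
        exact mul_le_mul_of_nonneg_left (le_bd hs) hB
      refine (Finset.sum_le_sum h1).trans ?_
      rw [← Finset.sum_mul]
      have h2 : ∑ i ∈ Finset.range (n + 1), (n.choose i : ℝ) = 2 ^ n := by
        exact_mod_cast Nat.sum_range_choose n
      rw [h2]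
      have h3 : (2 : ℝ) ^ n ≤ 2 ^ J := pow_le_pow_right₀ (by norm_num) hn
      have h4 : 0 ≤ Φ * (B * bd L s) := mul_nonneg hΦ0 (mul_nonneg hB (bd_nonneg L s))
      calc (2 : ℝ) ^ n * (Φ * (B * bd L s)) ≤ 2 ^ J * (Φ * (B * bd L s)) :=
            mul_le_mul_of_nonneg_right h3 h4
        _ = _ := by ring
    · have hloc : G =ᶠ[𝓝 s] fun _ => (0 : ℂ) := by
        filter_upwards [Iio_mem_nhds (not_le.mp hs)] with t ht
        have ht' : t < -(L + 1) := ht
        simp only [hG]
        rw [th_zero (by linarith), zero_smul]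
      have h0 : iteratedFDeriv ℝ n G s = 0 := by
        rw [(hloc.iteratedFDeriv ℝ n).eq_of_nhds]
        simp
      rw [h0, norm_zero]
      exact mul_nonneg (mul_nonneg (mul_nonneg (by positivity) hΦ0) hB) (bd_nonneg L s)
  have hI : ∀ n ≤ J, Integrable (iteratedDeriv n G) ∧
      ∫ s, ‖iteratedDeriv n G s‖ ≤ 2 ^ J * Φ * B * (3 * L) := by
    intro n hn
    have hc : Continuous (iteratedDeriv n G) :=
      hGs.continuous_iteratedDeriv n (by exact_mod_cast le_top)
    have hi : Integrable (fun s => 2 ^ J * Φ * B * bd L s) := (bd_int hL).1.const_mul _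
    have hint : Integrable (iteratedDeriv n G) :=
      hi.mono' hc.aestronglyMeasurable (Eventually.of_forall fun s => hbound n hn s)
    refine ⟨hint, (integral_mono hint.norm hi fun s => hbound n hn s).trans ?_⟩
    rw [integral_const_mul, (bd_int hL).2]
    have : 0 ≤ 2 ^ J * Φ * B := by positivity
    nlinarith
  have hkn : ∀ n ≤ J, ∀ t, |t| ^ n * ‖ker G t‖ ≤ 1 / 2 * (2 ^ J * Φ * B * (3 * L)) := by
    intro n hn t
    have hFo := Real.fourier_iteratedDeriv (f := G) (N := (n : ℕ∞)) (n := n)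
      (hGs.of_le (by exact_mod_cast le_top))
      (fun m hm => (hI m ((by exact_mod_cast hm : m ≤ n).trans hn)).1) le_rfl
    have h1 : ker (iteratedDeriv n G) t = (I * t) ^ n * ker G t := by
      rw [Weight600.ker_eq_fourier, Weight600.ker_eq_fourier, hFo]
      have : (Real.pi : ℂ) ≠ 0 := by exact_mod_cast Real.pi_ne_zero
      simp only [smul_eq_mul]
      have h2 : (2 * (Real.pi : ℂ) * I * ((t / (2 * Real.pi) : ℝ) : ℂ)) = I * t := by
        push_cast; field_simp
      rw [h2]; ring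
    have h2 : |t| ^ n * ‖ker G t‖ = ‖ker (iteratedDeriv n G) t‖ := by
      rw [h1, norm_mul, norm_pow, norm_mul, Complex.norm_I, one_mul, Complex.norm_real,
        Real.norm_eq_abs]
    rw [h2]
    refine (Weight600.norm_ker_le _ t).trans ?_
    have h3 : (1 / (2 * Real.pi)) ≤ 1 / 2 := by
      have := Real.pi_gt_three
      apply one_div_le_one_div_of_le (by norm_num)
      linarith
    exact mul_le_mul h3 (hI n hn).2 (integral_nonneg fun _ => norm_nonneg _) (by norm_num)
  have hkb : ∀ t, ‖ker G t‖ * (1 + |t|) ^ J ≤ 2 ^ J * (3 * (2 ^ J * Φ)) * B * L := by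
    intro t
    have h0 := hkn 0 (Nat.zero_le _) t
    rw [pow_zero, one_mul] at h0
    have hA := hkn J le_rfl t
    have h1 : (1 + |t|) ^ J ≤ 2 ^ J * (1 + |t| ^ J) := by
      rcases le_total |t| 1 with ht | ht
      · calc (1 + |t|) ^ J ≤ 2 ^ J := by gcongr; linarith
          _ ≤ 2 ^ J * (1 + |t| ^ J) := by
            have : 0 ≤ |t| ^ J := by positivity
            have h2 : (0 : ℝ) < 2 ^ J := by positivity
            nlinarith
      · calc (1 + |t|) ^ J ≤ (2 * |t|) ^ J := by gcongr; linarith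
          _ = 2 ^ J * |t| ^ J := mul_pow _ _ _
          _ ≤ 2 ^ J * (1 + |t| ^ J) := by
            have h2 : (0 : ℝ) < 2 ^ J := by positivity
            nlinarith
    calc ‖ker G t‖ * (1 + |t|) ^ J ≤ ‖ker G t‖ * (2 ^ J * (1 + |t| ^ J)) :=
          mul_le_mul_of_nonneg_left h1 (norm_nonneg _)
      _ = 2 ^ J * (‖ker G t‖ + |t| ^ J * ‖ker G t‖) := by ring
      _ ≤ 2 ^ J * (1 / 2 * (2 ^ J * Φ * B * (3 * L)) + 1 / 2 * (2 ^ J * Φ * B * (3 * L))) := by
          gcongr
      _ = _ := by ring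
  have hGi : Integrable G := by
    have := (hI 0 (Nat.zero_le _)).1
    rwa [iteratedDeriv_zero] at this
  have hkc : Continuous (ker G) := Weight600.continuous_ker hGi
  have hkb2 : ∀ t, ‖ker G t‖ ≤ 2 ^ J * (3 * (2 ^ J * Φ)) * B * L * (1 + |t|) ^ (-(J : ℝ)) := by
    intro t
    rw [Real.rpow_neg (by positivity), Real.rpow_natCast, ← div_eq_mul_inv,
      le_div_iff₀ (by positivity)]
    exact hkb t
  have hki : Integrable (ker G) := by
    have h1 : Integrable (fun t : ℝ => (1 + ‖t‖) ^ (-(J : ℝ))) := by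
      apply integrable_one_add_norm
      rw [Module.finrank_self]
      have : (2 : ℝ) ≤ J := by exact_mod_cast hJ
      push_cast; linarith
    refine (h1.const_mul (2 ^ J * (3 * (2 ^ J * Φ)) * B * L)).mono' hkc.aestronglyMeasurable
      (Eventually.of_forall fun t => ?_)
    rw [Real.norm_eq_abs]
    exact hkb2 t
  refine ⟨ker G, hkc, hkb2, fun s hs => ?_⟩
  have h := Weight600.inversion hGs.continuous hGi hki s
  have e1 : G s = W (Real.exp s) := by
    simp only [hG, hF]
    rw [th_one (by linarith), one_smul]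
  rw [← e1, ← h]
  congr 1
  funext t
  unfold osc
  congr 2
  push_cast; ring

end Crest.Agent.R017.E4Sep92
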