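import Crest.Agent.R017.LBpC_47

/-!
# Row 17, E4, leaf LBp (helper47): `lBp_of : LStr → LCnt → LBp`
-/

set_option autoImplicit false
set_option linter.unusedVariables false
set_option linter.unusedSectionVars false

noncomputable section

open Complex
open scoped ComplexConjugate

namespace Crest.Agent.R017.LBp47

open Crest.Agent.R012 Crest.Agent.R012.Eis Crest.Agent.R012.GaussLoc283
open Crest.Agent.R012.Mob705 Crest.Agent.R012.Div277
open Crest.Agent.R017.Sx545 (Sm)
open Crest.Agent.R017.E4352 Crest.Agent.R017.C70 Crest.Agent.R017.CM106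
open Crest.Agent.R017.E2440

lemma tsum_fin {c : Eis → ℂ} (h : (Function.support c).Finite) (F : Eis → ℂ) :
    ∑' x, c x * F x = ∑ x ∈ h.toFinset, c x * F x := by
  refine tsum_eq_sum fun x hx => ?_
  have : c x = 0 := by
    by_contra hc
    exact hx (h.mem_toFinset.mpr hc)
  rw [this, zero_mul]

lemma nm_le_pim {e d : Eis} (he : e ≠ 0) (hd : d ≠ 0) : nm e ≤ nm (d * e ^ 3) ∧
    nm d ≤ nm (d * e ^ 3) := by
  have h0 : d * e ^ 3 ≠ 0 := mul_ne_zero hd (pow_ne_zero 3 he)
  exact ⟨nm_le_of_dvd h0 (dvd_mul_of_dvd_right (dvd_pow_self e (by norm_num)) d),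
    nm_le_of_dvd h0 (dvd_mul_right _ _)⟩

open Classical in
/-- `NT` of a function of bounded support -/
lemma NT_fin {M u : Eis} {φ : Eis → ℂ} {N : ℕ} (hφ : ∀ k, IsPrim k → N < nm k → φ k = 0) :
    NT M u φ = ∑ e ∈ primBall N, ∑ d ∈ primBall N, if Sm M e ∧ Sm M d then
      (nm e : ℂ) ^ 2 * (conj (gs u d) * φ (d * e ^ 3)) else 0 := by
  unfold NT
  have hz : ∀ e d : Eis, Sm M e → Sm M d → (N < nm e ∨ N < nm d) → φ (d * e ^ 3) = 0 := by
    intro e d he hd h
    have h1 := nm_le_pim he.ne_zero hd.ne_zero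
    refine hφ _ (hd.prim.mul (he.prim.pow 3)) ?_
    rcases h with h | h
    · exact lt_of_lt_of_le h h1.1
    · exact lt_of_lt_of_le h h1.2
  rw [tsum_eq_sum (s := primBall N)]
  · refine Finset.sum_congr rfl fun e _ => ?_
    by_cases he : Sm M e
    · rw [if_pos he]
      unfold DS
      rw [tsum_eq_sum (s := primBall N), Finset.mul_sum]
      · refine Finset.sum_congr rfl fun d _ => ?_
        by_cases hd : Sm M d
        · rw [if_pos hd, if_pos ⟨he, hd⟩]
        · rw [if_neg hd, if_neg (fun h => hd h.2), mul_zero]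
      · intro d hdN
        by_cases hd : Sm M d
        · rw [if_pos hd]
          simp only
          rw [hz e d he hd (Or.inr ?_), mul_zero]
          by_contra hc
          push Not at hc
          exact hdN (mem_primBall.mpr ⟨hc, hd.prim⟩)
        · rw [if_neg hd]
    · rw [if_neg he]
      symm
      exact Finset.sum_eq_zero fun d _ => by rw [if_neg (fun h => he h.1)]
  · intro e heN
    by_cases he : Sm M e
    · rw [if_pos he]
      have hn : N < nm e := by
        by_contra hc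
        push Not at hc
        exact heN (mem_primBall.mpr ⟨hc, he.prim⟩)
      unfold DS
      have : ∀ d : Eis, (if Sm M d then conj (gs u d) * (fun d => φ (d * e ^ 3)) d else 0) = 0 := by
        intro d
        split_ifs with hd
        · simp only
          rw [hz e d he hd (Or.inl hn), mul_zero]
        · rfl
      rw [tsum_congr this, tsum_zero, mul_zero]
    · rw [if_neg he]

section

variable {M f : Eis} {v w : Eis → ℂ}

open Classical in
/-- exchange of the sums -/
lemma xy_NT (hv : SSm M v) (hw : SSm M w) {φ : Eis → ℂ} {N : ℕ}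
    (hφ : ∀ k, IsPrim k → N < nm k → φ k = 0) :
    ∑' x : Eis, v x * ∑' y : Eis, w y * NT M (f * x * y) φ =
      ∑ e ∈ primBall N, ∑ d ∈ primBall N, if Sm M e ∧ Sm M d then
        ((nm e : ℂ) ^ 2 * φ (d * e ^ 3)) *
          (∑' x : Eis, v x * ∑' y : Eis, w y * conj (gs (f * x * y) d)) else 0 := by
  rw [tsum_fin hv.fin]
  simp only [NT_fin hφ]
  have h1 : ∀ x, ∑' y : Eis, w y * (∑ e ∈ primBall N, ∑ d ∈ primBall N, if Sm M e ∧ Sm M d then
      (nm e : ℂ) ^ 2 * (conj (gs (f * x * y) d) * φ (d * e ^ 3)) else 0) =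
      ∑ e ∈ primBall N, ∑ d ∈ primBall N, if Sm M e ∧ Sm M d then
        ((nm e : ℂ) ^ 2 * φ (d * e ^ 3)) * (∑' y : Eis, w y * conj (gs (f * x * y) d)) else 0 := by
    intro x
    rw [tsum_fin hw.fin]
    simp only [Finset.mul_sum]
    rw [Finset.sum_comm]
    refine Finset.sum_congr rfl fun e _ => ?_
    rw [Finset.sum_comm]
    refine Finset.sum_congr rfl fun d _ => ?_
    by_cases h : Sm M e ∧ Sm M d
    · simp only [if_pos h]
      rw [tsum_fin hw.fin, Finset.mul_sum]
      refine Finset.sum_congr rfl fun y _ => ?_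
      ring
    · simp only [if_neg h, mul_zero, Finset.sum_const_zero]
  simp only [h1]
  simp only [Finset.mul_sum]
  rw [Finset.sum_comm]
  refine Finset.sum_congr rfl fun e _ => ?_
  rw [Finset.sum_comm]
  refine Finset.sum_congr rfl fun d _ => ?_
  by_cases h : Sm M e ∧ Sm M d
  · simp only [if_pos h]
    rw [tsum_fin hv.fin, Finset.mul_sum]
    refine Finset.sum_congr rfl fun x _ => ?_
    ring
  · simp only [if_neg h, mul_zero, Finset.sum_const_zero]

end

open Classical in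
/-- **LBp** -/
theorem lBp_of (hL : LStr) (hC : LCnt) : LBp := by
  intro ε hε
  obtain ⟨C1, hC10, hC1⟩ := BW hC (ε / 2) (by positivity)
  obtain ⟨C3, hC30, hC3⟩ : ∃ C3 : ℝ, 0 ≤ C3 ∧ ∀ X : ℝ, 1 ≤ X →
      100 * (1 + Real.log X) ≤ C3 * X ^ (ε / 2) := by
    refine ⟨(100 * (1 + (1 : ℕ) / (ε / 2))) ^ 1, by positivity, fun X hX => ?_⟩
    have := poly_log_le 1 hX (δ := ε / 2) (by positivity)
    rwa [pow_one] at this
  refine ⟨C1 * C3, by positivity, ?_⟩
  intro M f O _ lam v w X K B φ Bd S hdat hK hKX hB0 hS hBd hφB hφ0 hB hnum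
  have hX1 := hdat.X1
  have hX0 : 0 < X := by linarith
  have hlam : ∀ o, 1 ≤ lam o := fun o => (hdat.lam1 o).1
  have hlam0 : ∀ o, 0 < lam o := fun o => lt_of_lt_of_le one_pos (hlam o)
  set N : ℕ := ⌊K⌋₊ with hN
  set g : Eis → Eis → ℂ := fun b y => sy y b with hg
  have hφN : ∀ o k, IsPrim k → N < nm k → φ o k = 0 := by
    intro o k _ hk
    refine hφ0 o k ?_
    have h1 : K < nm k := (Nat.floor_lt hK.le).mp hk
    exact lt_of_le_of_lt (div_le_self hK.le (hlam o)) h1
  have hT0 : ∀ o d, Sm M d → ‖∑' x : Eis, v o x * ∑' y : Eis, w o y * conj (gs (f * x * y) d)‖ ≤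
      aT f X g (v o) (w o) d := fun o d hd =>
    hL M f d (v o) (w o) X hdat.hf.1 hd (hdat.hv o) (hdat.hw o) (hdat.vx o) (hdat.wy o)
  -- one `o`
  have h1 : ∀ o, ‖∑' x : Eis, v o x * ∑' y : Eis, w o y * NT M (f * x * y) (φ o)‖ ≤
      ∑ e ∈ primBall N, (nm e : ℝ) ^ 2 * B * ((K / (nm e : ℝ) ^ 3) *
        ∑ d ∈ (primBall ⌊K / (nm e : ℝ) ^ 3⌋₊).filter
          (fun d => Sm M d ∧ (nm d : ℝ) * lam o ≤ K / (nm e : ℝ) ^ 3),
          ((nm d : ℝ) * lam o)⁻¹ * aT f X g (v o) (w o) d) := by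
    intro o
    rw [xy_NT (hdat.hv o) (hdat.hw o) (hφN o)]
    refine (norm_sum_le _ _).trans (Finset.sum_le_sum fun e he => ?_)
    rw [mem_primBall] at he
    have he1 : (1 : ℝ) ≤ nm e := by exact_mod_cast nm_pos.mpr he.2.ne_zero
    have he0 : (0 : ℝ) < nm e := by linarith
    refine (norm_sum_le _ _).trans ?_
    have haT0 : ∀ d, 0 ≤ aT f X g (v o) (w o) d := fun d => by
      unfold aT
      exact Finset.sum_nonneg fun i _ => by positivity
    have h2 : ∀ d ∈ primBall N, ‖(if Sm M e ∧ Sm M d then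
        ((nm e : ℂ) ^ 2 * φ o (d * e ^ 3)) *
          (∑' x : Eis, v o x * ∑' y : Eis, w o y * conj (gs (f * x * y) d)) else 0)‖ ≤
        if Sm M d ∧ (nm d : ℝ) * lam o ≤ K / (nm e : ℝ) ^ 3 then
          (nm e : ℝ) ^ 2 * B * ((K / (nm e : ℝ) ^ 3) * (((nm d : ℝ) * lam o)⁻¹ *
            aT f X g (v o) (w o) d)) else 0 := by
      intro d hd
      rw [mem_primBall] at hd
      have hd1 : (1 : ℝ) ≤ nm d := by exact_mod_cast nm_pos.mpr hd.2.ne_zero
      have hl := hlam0 o
      have hrhs : (0 : ℝ) ≤ if Sm M d ∧ (nm d : ℝ) * lam o ≤ K / (nm e : ℝ) ^ 3 then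
          (nm e : ℝ) ^ 2 * B * ((K / (nm e : ℝ) ^ 3) * (((nm d : ℝ) * lam o)⁻¹ *
            aT f X g (v o) (w o) d)) else 0 := by
        split_ifs
        · have := haT0 d
          positivity
        · exact le_rfl
      by_cases hS1 : Sm M e ∧ Sm M d
      swap
      · rw [if_neg hS1, norm_zero]; exact hrhs
      rw [if_pos hS1]
      by_cases hlt : (nm d : ℝ) * lam o ≤ K / (nm e : ℝ) ^ 3
      swap
      · have h3 : φ o (d * e ^ 3) = 0 := by
          refine hφ0 o _ ?_
          push Not at hlt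
          rw [div_lt_iff₀ (by positivity)] at hlt
          rw [div_lt_iff₀ hl, nm_mul, nm_pow]
          push_cast
          nlinarith
        rw [h3]
        simp only [mul_zero, zero_mul, norm_zero]
        exact hrhs
      rw [if_pos ⟨hS1.2, hlt⟩, norm_mul, norm_mul, norm_pow, Complex.norm_natCast]
      have hSm : Sm M (d * e ^ 3) := hS1.2.mul (hS1.1.pow 3)
      have h4 := hφB o (d * e ^ 3) hSm
      have h5 := hT0 o d hS1.2
      have h6 : 1 ≤ (K / (nm e : ℝ) ^ 3) * ((nm d : ℝ) * lam o)⁻¹ := by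
        rw [← div_eq_mul_inv, one_le_div (by positivity)]
        exact hlt
      calc (nm e : ℝ) ^ 2 * ‖φ o (d * e ^ 3)‖ *
            ‖∑' x : Eis, v o x * ∑' y : Eis, w o y * conj (gs (f * x * y) d)‖
          ≤ (nm e : ℝ) ^ 2 * B * aT f X g (v o) (w o) d := by
            have := haT0 d
            gcongr
        _ = (nm e : ℝ) ^ 2 * B * (1 * aT f X g (v o) (w o) d) := by ring
        _ ≤ (nm e : ℝ) ^ 2 * B * (((K / (nm e : ℝ) ^ 3) * ((nm d : ℝ) * lam o)⁻¹) *
            aT f X g (v o) (w o) d) := by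
            have := haT0 d
            gcongr
        _ = _ := by ring
    refine (Finset.sum_le_sum h2).trans ?_
    rw [← Finset.sum_filter, Finset.mul_sum, Finset.mul_sum]
    refine Finset.sum_le_sum_of_subset_of_nonneg ?_ ?_
    · intro d hd
      rw [Finset.mem_filter, mem_primBall] at hd ⊢
      refine ⟨⟨?_, hd.1.2⟩, hd.2⟩
      apply Nat.le_floor
      have : (0 : ℝ) ≤ nm d := Nat.cast_nonneg _
      have := hlam o
      nlinarith [hd.2.2]
    · intro d _ _
      have := haT0 d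
      have := hlam0 o
      positivity
  -- sum over `o`
  calc ‖∑ o, ∑' x : Eis, v o x * ∑' y : Eis, w o y * NT M (f * x * y) (φ o)‖
      ≤ ∑ o, ∑ e ∈ primBall N, (nm e : ℝ) ^ 2 * B * ((K / (nm e : ℝ) ^ 3) *
        ∑ d ∈ (primBall ⌊K / (nm e : ℝ) ^ 3⌋₊).filter
          (fun d => Sm M d ∧ (nm d : ℝ) * lam o ≤ K / (nm e : ℝ) ^ 3),
          ((nm d : ℝ) * lam o)⁻¹ * aT f X g (v o) (w o) d) :=
        (norm_sum_le _ _).trans (Finset.sum_le_sum fun o _ => h1 o)
    _ = ∑ e ∈ primBall N, (nm e : ℝ) ^ 2 * B * ((K / (nm e : ℝ) ^ 3) *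
        ∑ o, ∑ d ∈ (primBall ⌊K / (nm e : ℝ) ^ 3⌋₊).filter
          (fun d => Sm M d ∧ (nm d : ℝ) * lam o ≤ K / (nm e : ℝ) ^ 3),
          ((nm d : ℝ) * lam o)⁻¹ * aT f X g (v o) (w o) d) := by
        rw [Finset.sum_comm]
        refine Finset.sum_congr rfl fun e _ => ?_
        simp only [Finset.mul_sum]
    _ ≤ ∑ e ∈ primBall N, (B * K * (C1 * X ^ (ε / 2) * S)) * (1 / (nm e : ℝ)) := by
        refine Finset.sum_le_sum fun e he => ?_
        rw [mem_primBall] at he
        have he1 : (1 : ℝ) ≤ nm e := by exact_mod_cast nm_pos.mpr he.2.ne_zero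
        have he0 : (0 : ℝ) < nm e := by linarith
        have hKe : 0 < K / (nm e : ℝ) ^ 3 := by positivity
        have hKeK : K / (nm e : ℝ) ^ 3 ≤ K := div_le_self hK.le (one_le_pow₀ he1)
        have hKe2 : K / (nm e : ℝ) ^ 3 ≤ X ^ 2 := by nlinarith
        have hbw := hC1 M f O _ lam v w X (K / (nm e : ℝ) ^ 3) Bd S g hdat hKe hKe2 hS hBd hB
          (fun b₁ b₃ κ h1 h3 h4 h5 => hnum b₁ b₃ κ h1 h3 h4 (h5.trans hKeK))
        calc (nm e : ℝ) ^ 2 * B * ((K / (nm e : ℝ) ^ 3) * _)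
            ≤ (nm e : ℝ) ^ 2 * B * ((K / (nm e : ℝ) ^ 3) * (C1 * X ^ (ε / 2) * S)) := by
              gcongr
          _ = _ := by field_simp
    _ = (B * K * (C1 * X ^ (ε / 2) * S)) * ∑ e ∈ primBall N, (1 / (nm e : ℝ)) := by
        rw [Finset.mul_sum]
    _ ≤ (B * K * (C1 * X ^ (ε / 2) * S)) * (C3 * X ^ (ε / 2)) := by
        refine mul_le_mul_of_nonneg_left ?_ (by positivity)
        refine (sum_inv_primBall_le N).trans (le_trans ?_ (hC3 X hX1))
        have hNX : (N : ℝ) ≤ X := (Nat.floor_le hK.le).trans hKX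
        have : Real.log N ≤ Real.log X := by
          rcases Nat.eq_zero_or_pos N with h | h
          · rw [h]
            simp only [Nat.cast_zero, Real.log_zero]
            exact Real.log_nonneg hX1
          · exact Real.log_le_log (by exact_mod_cast h) hNX
        linarith
    _ = C1 * C3 * X ^ ε * B * K * S := by
        have e3 : X ^ ε = X ^ (ε / 2) * X ^ (ε / 2) := by
          rw [← Real.rpow_add hX0]
          congr 1; ring
        rw [e3]; ring

end Crest.Agent.R017.LBp47
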