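import Crest.Agent.R017.E4Bd_783
import Crest.Agent.R017.E4Sep_92
import Crest.Agent.R017.E4S_401
import Crest.Agent.R017.E4C_401
import Crest.Agent.R017.LBpD_47

/-!
# Row 17, E4: `LBd` and `LBp` (helper783)
-/

set_option autoImplicit false

noncomputable section

namespace Crest.Agent.R017.E4Bf783

open Crest.Agent.R012 Crest.Agent.R012.Eis
open Crest.Agent.R017.Sx545 Crest.Agent.R017.E4352 Crest.Agent.R017.E4Bd783

/-- the common lemma, from 47's `BW` -/
theorem bWx : BWx := by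
  intro ε hε
  obtain ⟨C, hC0, hC⟩ := LBp47.BW E4401.lCnt ε hε
  refine ⟨C, hC0, fun M f O _ lam v w X K Bd S g hD hK hKX hS hBd hP hnum => ?_⟩
  refine le_trans (le_of_eq ?_) (hC M f O _ lam v w X K Bd S g hD hK hKX hS hBd hP hnum)
  refine Finset.sum_congr rfl fun o _ => ?_
  unfold DK LBp47.aT
  congr!

/-- **L7d** -/
theorem lBd' : LBd := lBd bWx E4Sep92.lSep E4401.lStr

/-- **L7p** -/
theorem lBp' : LBp := LBp47.lBp_of E4401.lStr E4401.lCnt

end Crest.Agent.R017.E4Bf783
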