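import Crest.Agent.R017.E4Dic_352

/-!
# Row 17, C70/E4 version 7: terms of one class (helper352)

* `in_*` : two terms of one class with one prefix have the same logarithms up to `log 2`
-/

set_option autoImplicit false
set_option linter.unusedSectionVars false

noncomputable section

open Complex
open scoped ComplexConjugate

namespace Crest.Agent.R017.E4Dic352

open Crest.Agent.R012 Crest.Agent.R012.Eis Crest.Agent.R012.Mob705
open Crest.Agent.R017.Sx545 Crest.Agent.R017.CM106 Crest.Agent.R017.C70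
open Crest.Agent.R017.E4352 Crest.Agent.R017.E4J352
open Crest.Agent.R017.E4RH858

lemma inW_log {n : ℕ} {x y : ℝ} (hx : inW n x) (hy : inW n y) :
    |Real.log x - Real.log y| ≤ Real.log 2 := by
  have h2 : (0 : ℝ) < 2 ^ n := by positivity
  have px : 0 < x := h2.trans_le hx.1
  have py : 0 < y := h2.trans_le hy.1
  have key : ∀ {a b : ℝ}, inW n a → inW n b → 0 < a → 0 < b →
      Real.log a - Real.log b ≤ Real.log 2 := by
    intro a b ha hb pa pb
    rw [← Real.log_div pa.ne' pb.ne']
    refine Real.log_le_log (by positivity) ?_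
    rw [div_le_iff₀ pb]
    have h3 := ha.2
    have h4 := hb.1
    rw [pow_succ] at h3
    linarith
  exact abs_sub_le_iff.mpr ⟨key hx hy px py, key hy hx py px⟩

variable {O : Type} {lam : O → ℝ} {c : Win} {t t' : Tm O} {M : Eis}

section
variable (h : t.In lam c) (h' : t'.In lam c)
include h h'

lemma in_D1 : |lg t.D1 - lg t'.D1| ≤ Real.log 2 := inW_log h.h1 h'.h1
lemma in_b : |lg t.b - lg t'.b| ≤ Real.log 2 := inW_log h.hb h'.hb
lemma in_k : |lg t.k - lg t'.k| ≤ Real.log 2 := inW_log h.hkk h'.hkk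
lemma in_lam : |Real.log (lam t.o) - Real.log (lam t'.o)| ≤ Real.log 2 := inW_log h.hlam h'.hlam
lemma in_kap : |kap lam t - kap lam t'| ≤ Real.log 2 := inW_log h.hk h'.hk
lemma in_l : |Real.log (lam t.o * nm ((t.D0 * t.D1) ^ 2 * (t.b * t.k))) -
    Real.log (lam t'.o * nm ((t'.D0 * t'.D1) ^ 2 * (t'.b * t'.k)))| ≤ Real.log 2 :=
  inW_log h.hl h'.hl

/-- `b₁` at a fixed prefix -/
lemma in_b1 (f : Facts M t) (f' : Facts M t') (hp : pf t = pf t') :
    |lg (b1 t) - lg (b1 t')| ≤ Real.log 2 := by
  have h1 := in_b h h'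
  rw [lgb f, lgb f', hp] at h1
  have h2 : (0 : ℝ) ≤ Real.log 2 := Real.log_nonneg (by norm_num)
  rw [abs_le] at h1 ⊢
  constructor <;> linarith

end

end Crest.Agent.R017.E4Dic352
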