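import Crest.Agent.R017.E4v5_47
import Crest.Agent.R017.E4LawX_266

/-!
# Row 17, C70/E4: `Law5` for both classes (helper266)

* `law5_R` : case R, no main term
* `law5_L` : case L, `mt u Q = mc τ conj (ρ (m₀ u)) Q^(4/3)`, `mc` rapidly decreasing
-/

set_option autoImplicit false

noncomputable section

open Complex Set
open scoped ComplexConjugate ContDiff

namespace Crest.Agent.R017.E4L266

open Crest.Agent.R012 Crest.Agent.R012.Eis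
open Crest.Agent.R017.End699 (HC)
open Crest.Agent.R017.B770 (SW Rad0)
open Crest.Agent.R017.C590
open Crest.Agent.R017.Sx545 (Sm)
open Crest.Agent.R017.E4352 (WT)
open Crest.Agent.R017.E4v5 (Law5)

/-- **case R** -/
theorem law5_R {M : Eis} (h9 : (9 : Eis) ∣ M) {ψ : Eis → ℂ} (hψ : HC M ψ) {l : ℤ}
    (hl : NoPole M ψ l) :
    ∃ (ι : Type) (_ : Fintype ι) (D : Dt3 ι), D.OK M ∧ ∀ V : ℝ → ℂ, SW V →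
      ∃ W : ι → ℝ → ℝ → ℂ,
        (∀ τ : ℝ, Law5 M ψ l D (fun y => (y : ℂ) ^ (I * τ) * V y) (fun i => W i τ)
          (fun _ _ => 0)) ∧
        ∀ m₀ N₀ : ℕ, ∃ C A : ℝ, 0 ≤ C ∧ ∀ τ i, WT m₀ N₀ (C * (1 + |τ|) ^ A) (W i τ) := by
  obtain ⟨ι, iι, D, hD, hFE⟩ := Tw3.f1tw h9 hψ hl
  refine ⟨ι, iι, D, hD, fun V hV => ?_⟩
  obtain ⟨W, hW, h5⟩ := hFE V hV
  refine ⟨W, fun τ u hu Q hQ => ?_, fun m₀ N₀ => wt_uniform (fun i => wtf_of_rd (hW i)) m₀ N₀⟩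
  rw [h5 u hu Q hQ τ, zero_add]

/-- **case L** -/
theorem law5_L {M m₀ : Eis} (hM0 : M ≠ 0) (hr : Rad0 M m₀) {ψ : Eis → ℂ}
    (hψ : ∀ b, Sm M b → ψ b = sy m₀ b) :
    ∃ (ι : Type) (_ : Fintype ι) (D : Dt3 ι), D.OK M ∧ ∀ V : ℝ → ℂ, SW V →
      ∃ mc : ℝ → ℂ, (∀ A : ℕ, ∃ C : ℝ, 0 ≤ C ∧ ∀ τ, ‖mc τ‖ ≤ C * ((1 + |τ|) ^ A)⁻¹) ∧
        ∃ W : ι → ℝ → ℝ → ℂ,
          (∀ τ : ℝ, Law5 M ψ 0 D (fun y => (y : ℂ) ^ (I * τ) * V y) (fun i => W i τ)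
            (fun u Q => mc τ * conj (PX764.rho (m₀ * u)) * ((Q ^ (4 / 3 : ℝ) : ℝ) : ℂ))) ∧
          ∀ m₁ N₀ : ℕ, ∃ C A : ℝ, 0 ≤ C ∧ ∀ τ i, WT m₁ N₀ (C * (1 + |τ|) ^ A) (W i τ) := by
  obtain ⟨ι, iι, D, hD, h⟩ := law_Lx hM0 hr hψ
  refine ⟨ι, iι, D, hD, fun V hV => ?_⟩
  obtain ⟨mc, hmc, W, hW, h5⟩ := h V hV
  exact ⟨mc, hmc, W, fun τ u hu Q hQ => h5 u hu Q hQ τ, fun m₁ N₀ => wt_uniform hW m₁ N₀⟩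

end Crest.Agent.R017.E4L266
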