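import Crest.Agent.R017.E4LxB_266
import Crest.Agent.R017.E4Law5_266

/-!
# Row 17, C70/E4 exceptional class: the compensated weight (helper266)

* `cmp V h` : `V y - e^h V (y e^h)`
* `WTx` : dual weights with decay `y^{1/3}` at `0`
* `law5h` : `Law5` for `cmp V_τ h`, `WTx` uniformly in `h ≥ 0`
-/

set_option autoImplicit false

noncomputable section

open Complex MeasureTheory Set Filter Topology
open scoped ComplexConjugate ContDiff

namespace Crest.Agent.R017.E4X266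

open Crest.Agent.R012 Crest.Agent.R012.Eis Crest.Agent.R012.GaussLoc283
open Crest.Agent.R017.X6C180 (IX dl' om')
open Crest.Agent.R017.Sx545 (Sm sm_one_iff)
open Crest.Agent.R017.End699 (HC)
open Crest.Agent.R017.A590
open Crest.Agent.R017.E2440 (NT DS Dcy summable_DS summable_NT)
open Crest.Agent.R017.B770 (SW Rad0)
open Crest.Agent.R017.C590
open Crest.Agent.R017.E4352 (WT)
open Crest.Agent.R017.E4v5 (Law5)
open Crest.Agent.R017.E4L266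

variable {M u : Eis}

lemma DS_sub' {φ φ' : Eis → ℂ} (h : Dcy φ) (h' : Dcy φ') :
    DS M u (fun k => φ k - φ' k) = DS M u φ - DS M u φ' := by
  classical
  unfold DS
  rw [← (summable_DS h).tsum_sub (summable_DS h')]
  refine tsum_congr fun d => ?_
  split_ifs
  · ring
  · ring

lemma NT_sub' {φ φ' : Eis → ℂ} (h : Dcy φ) (h' : Dcy φ') :
    NT M u (fun k => φ k - φ' k) = NT M u φ - NT M u φ' := by
  classical
  unfold NT
  rw [← (summable_NT h).tsum_sub (summable_NT h')]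
  refine tsum_congr fun e => ?_
  by_cases he : Sm M e
  · rw [if_pos he, if_pos he, if_pos he, DS_sub' (h.cube he.ne_zero) (h'.cube he.ne_zero)]
    ring
  · rw [if_neg he, if_neg he, if_neg he, sub_zero]

/-- the compensated weight -/
def cmp (V : ℝ → ℂ) (h y : ℝ) : ℂ := V y - ((Real.exp h : ℝ) : ℂ) * V (y * Real.exp h)

lemma N3_cmp {χ : Eis → ℂ} (hb : ∀ k, Sm M k → ‖χ k‖ ≤ 1) {V : ℝ → ℂ} (hV : VB V) {Q h : ℝ}
    (hQ : 0 < Q) :
    N3 M χ u (cmp V h) Q = N3 M χ u V Q -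
      ((Real.exp h : ℝ) : ℂ) * N3 M χ u V (Q * Real.exp (-h)) := by
  have hQ' : 0 < Q * Real.exp (-h) := by positivity
  have d1 := dcy_N (M₁ := M) hb hV hQ
  have d2 := dcy_N (M₁ := M) hb hV hQ'
  have d3 : Dcy (fun k => ((Real.exp h : ℝ) : ℂ) *
      fr M (fun k => χ k * V (nm k / (Q * Real.exp (-h)))) k) := by
    obtain ⟨C, hC⟩ := d2
    refine ⟨‖((Real.exp h : ℝ) : ℂ)‖ * C, fun k hk => ?_⟩
    rw [norm_mul, mul_assoc]
    exact mul_le_mul_of_nonneg_left (hC k hk) (norm_nonneg _)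
  have h1 := NT_sub' (M := M) (u := u) d1 d3
  rw [C590.NT_smul, NT_fr, NT_fr] at h1
  unfold N3
  rw [← h1]
  refine C590.NT_congr (fun k hk => ?_) u
  rw [fr_of hk, fr_of hk]
  unfold cmp
  have e : (nm k : ℝ) / (Q * Real.exp (-h)) = nm k / Q * Real.exp h := by
    rw [Real.exp_neg]
    field_simp
  rw [e]
  ring

lemma D3_dif {χ : Eis → ℂ} (hb : ∀ k, Sm M k → ‖χ k‖ ≤ 1) {W : ℝ → ℂ} (hW : WB W) {Y h : ℝ}
    (hY : 0 < Y) :
    D3 M χ u (dif W h) Y = D3 M χ u W Y - D3 M χ u W (Y * Real.exp h) := by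
  have hY' : 0 < Y * Real.exp h := by positivity
  have d1 := dcy_D (M₁ := M) hb hW hY
  have d2 := dcy_D (M₁ := M) hb hW hY'
  have h1 := DS_sub' (M := M) (u := u) d1 d2
  rw [DS_fr, DS_fr] at h1
  unfold D3
  rw [← h1]
  refine C590.DS_congr (fun k hk => ?_) u
  rw [fr_of hk, fr_of hk]
  unfold dif
  have e : (nm k : ℝ) / (Y * Real.exp h) = nm k / Y * Real.exp (-h) := by
    rw [Real.exp_neg]
    field_simp
  rw [e]
  ring

/-- dual weights with decay `y^{1/3}` at `0`, rapid decay beyond `e^h` -/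
structure WTx (m₀ N₀ : ℕ) (B h : ℝ) (W : ℝ → ℂ) : Prop where
  smooth : ContDiffOn ℝ (⊤ : ℕ∞) W (Set.Ioi 0)
  dec : ∀ m ≤ m₀, ∀ y : ℝ, 0 < y →
    ‖iteratedDeriv m (fun x => W (Real.exp x)) (Real.log y)‖ ≤ B * bdx N₀ h y

lemma dif_smooth {W : ℝ → ℂ} (hW : ContDiffOn ℝ (⊤ : ℕ∞) W (Set.Ioi 0)) (h : ℝ) :
    ContDiffOn ℝ (⊤ : ℕ∞) (dif W h) (Set.Ioi 0) := by
  unfold dif
  refine hW.sub (hW.comp (contDiffOn_id.mul contDiffOn_const) fun y hy => ?_)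
  exact mul_pos hy (Real.exp_pos _)

/-- uniform constants for the differences -/
lemma wtx_uniform {ι : Type} [Fintype ι] {W : ι → ℝ → ℝ → ℂ} (hW : ∀ i, WTf (W i))
    (hd : ∀ i, WTd (W i)) (m₀ N₀ : ℕ) :
    ∃ C A : ℝ, 0 ≤ C ∧ ∀ τ h i, 0 ≤ h → WTx m₀ N₀ (C * (1 + |τ|) ^ A) h (dif (W i τ) h) := by
  classical
  choose C A hC h using fun i m => hd i m N₀
  set CC : ℝ := ∑ i, ∑ m ∈ Finset.range (m₀ + 1), C i m with hCC
  set AA : ℝ := ∑ i, ∑ m ∈ Finset.range (m₀ + 1), |A i m| with hAA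
  have c1 : ∀ i m, m ≤ m₀ → C i m ≤ CC := by
    intro i m hm
    have e1 : C i m ≤ ∑ m ∈ Finset.range (m₀ + 1), C i m :=
      Finset.single_le_sum (f := fun m => C i m) (fun m _ => hC i m)
        (Finset.mem_range.mpr (by omega))
    refine e1.trans ?_
    exact Finset.single_le_sum (f := fun i => ∑ m ∈ Finset.range (m₀ + 1), C i m)
      (fun i _ => Finset.sum_nonneg fun m _ => hC i m) (Finset.mem_univ i)
  have c2 : ∀ i m, m ≤ m₀ → A i m ≤ AA := by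
    intro i m hm
    have e1 : |A i m| ≤ ∑ m ∈ Finset.range (m₀ + 1), |A i m| :=
      Finset.single_le_sum (f := fun m => |A i m|) (fun m _ => abs_nonneg _)
        (Finset.mem_range.mpr (by omega))
    refine (le_abs_self _).trans (e1.trans ?_)
    exact Finset.single_le_sum (f := fun i => ∑ m ∈ Finset.range (m₀ + 1), |A i m|)
      (fun i _ => Finset.sum_nonneg fun m _ => abs_nonneg _) (Finset.mem_univ i)
  have hCC0 : 0 ≤ CC := Finset.sum_nonneg fun i _ => Finset.sum_nonneg fun m _ => hC i m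
  refine ⟨CC, AA, hCC0, fun τ hh i hh0 => ⟨dif_smooth ((hW i).smooth τ) hh, fun m hm y hy => ?_⟩⟩
  have h1 : (1 : ℝ) ≤ 1 + |τ| := by have := abs_nonneg τ; linarith
  refine (h i m τ hh y hh0 hy).trans ?_
  have hb0 : 0 ≤ bdx N₀ hh y := by unfold bdx; positivity
  refine mul_le_mul_of_nonneg_right ?_ hb0
  exact mul_le_mul (c1 i m hm) (Real.rpow_le_rpow_of_exponent_le h1 (c2 i m hm)) (by positivity) hCC0

/-- the constant of the main term of the compensated weight -/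
lemma mt_cmp (c s : ℂ) {Q h : ℝ} (hQ : 0 < Q) :
    c * s * ((Q ^ (4 / 3 : ℝ) : ℝ) : ℂ) -
      ((Real.exp h : ℝ) : ℂ) * (c * s * (((Q * Real.exp (-h)) ^ (4 / 3 : ℝ) : ℝ) : ℂ)) =
      ((1 - Real.exp (-(h / 3)) : ℝ) : ℂ) * c * s * ((Q ^ (4 / 3 : ℝ) : ℝ) : ℂ) := by
  have e : (Q * Real.exp (-h)) ^ (4 / 3 : ℝ) = Q ^ (4 / 3 : ℝ) * Real.exp (-(4 * h / 3)) := by
    rw [Real.mul_rpow hQ.le (Real.exp_pos _).le, ← Real.exp_mul]
    congr 2; ring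
  have e2 : ((Real.exp h : ℝ) : ℂ) * ((Real.exp (-(4 * h / 3)) : ℝ) : ℂ) =
      ((Real.exp (-(h / 3)) : ℝ) : ℂ) := by
    rw [← Complex.ofReal_mul, ← Real.exp_add]
    congr 2; ring
  rw [e]
  push_cast at e2 ⊢
  linear_combination (-(c * s * ((Q ^ (4 / 3 : ℝ) : ℝ) : ℂ))) * e2

/-- **case L, compensated weights** -/
theorem law5h {M m₀ : Eis} (hM0 : M ≠ 0) (hr : Rad0 M m₀) {ψ : Eis → ℂ} (hψH : HC M ψ)
    (hψ : ∀ b, Sm M b → ψ b = sy m₀ b) :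
    ∃ (ι : Type) (_ : Fintype ι) (D : Dt3 ι), D.OK M ∧ ∀ V : ℝ → ℂ, SW V →
      ∃ mc : ℝ → ℂ, (∀ A : ℕ, ∃ C : ℝ, 0 ≤ C ∧ ∀ τ, ‖mc τ‖ ≤ C * ((1 + |τ|) ^ A)⁻¹) ∧
        ∃ W : ι → ℝ → ℝ → ℂ,
          (∀ τ : ℝ, Law5 M ψ 0 D (fun y => (y : ℂ) ^ (I * τ) * V y) (fun i => W i τ)
            (fun u Q => mc τ * conj (PX764.rho (m₀ * u)) * ((Q ^ (4 / 3 : ℝ) : ℝ) : ℂ))) ∧
          (∀ τ h : ℝ, 0 ≤ h → Law5 M ψ 0 D (cmp (fun y => (y : ℂ) ^ (I * τ) * V y) h)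
            (fun i => dif (W i τ) h)
            (fun u Q => ((1 - Real.exp (-(h / 3)) : ℝ) : ℂ) * mc τ *
              conj (PX764.rho (m₀ * u)) * ((Q ^ (4 / 3 : ℝ) : ℝ) : ℂ))) ∧
          (∀ m₁ N₀ : ℕ, ∃ C A : ℝ, 0 ≤ C ∧ ∀ τ i, WT m₁ N₀ (C * (1 + |τ|) ^ A) (W i τ)) ∧
          ∀ m₁ N₀ : ℕ, ∃ C A : ℝ, 0 ≤ C ∧ ∀ τ h i, 0 ≤ h →
            WTx m₁ N₀ (C * (1 + |τ|) ^ A) h (dif (W i τ) h) := by
  obtain ⟨ι, iι, D, hD, hL⟩ := law_Lp (P := fun W => WTf W ∧ WTd W)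
    (fun W hW τ => wb_of_wtf hW.1 τ)
    (fun V hV i => ⟨om_fam one_ne_zero i (sc_FV hV), omd_fam one_ne_zero i (sc_FV hV)⟩)
    hM0 hr hψ
  refine ⟨ι, iι, D, hD, fun V hV => ?_⟩
  obtain ⟨mc, hmc, W, hW, h5⟩ := hL V hV
  refine ⟨mc, hmc, W, fun τ u hu Q hQ => h5 u hu Q hQ τ, fun τ h hh u hu Q hQ => ?_,
    fun m₁ N₀ => wt_uniform (fun i => (hW i).1) m₁ N₀,
    fun m₁ N₀ => wtx_uniform (fun i => (hW i).1) (fun i => (hW i).2) m₁ N₀⟩
  have hb : ∀ k, Sm M k → ‖End699.tw ψ 0 k‖ ≤ 1 := fun k hk => norm_tw_le' hψH 0 hk.1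
  have hQ' : 0 < Q * Real.exp (-h) := by positivity
  have hu0 : (0 : ℝ) < nm u := by exact_mod_cast nm_pos.2 hu.1.ne_zero
  rw [N3_cmp hb (vb_of_sw hV τ) hQ, h5 u hu Q hQ τ, h5 u hu _ hQ' τ]
  beta_reduce
  rw [← mt_cmp _ _ hQ]
  have e1 : ∀ i, D3 M (End699.tw (D.ψ' i) D.l') u (dif (W i τ) h) (D.ρ i * nm u / Q) =
      D3 M (End699.tw (D.ψ' i) D.l') u (W i τ) (D.ρ i * nm u / Q) -
      D3 M (End699.tw (D.ψ' i) D.l') u (W i τ) (D.ρ i * nm u / (Q * Real.exp (-h))) := by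
    intro i
    have hb' : ∀ k, Sm M k → ‖End699.tw (D.ψ' i) D.l' k‖ ≤ 1 :=
      fun k hk => norm_tw_le' (hD.ψ' i) _ hk.1
    have hY : 0 < D.ρ i * nm u / Q := by have := hD.ρ i; positivity
    rw [D3_dif hb' (wb_of_wtf (hW i).1 τ) hY]
    congr 2
    rw [Real.exp_neg]
    field_simp
  have e3 : ∑ i, D.κ i * End699.tw (D.η i) D.j u *
      D3 M (End699.tw (D.ψ' i) D.l') u (dif (W i τ) h) (D.ρ i * nm u / Q) =
      ∑ i, D.κ i * End699.tw (D.η i) D.j u *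
        D3 M (End699.tw (D.ψ' i) D.l') u (W i τ) (D.ρ i * nm u / Q) -
      ∑ i, D.κ i * End699.tw (D.η i) D.j u *
        D3 M (End699.tw (D.ψ' i) D.l') u (W i τ) (D.ρ i * nm u / (Q * Real.exp (-h))) := by
    rw [← Finset.sum_sub_distrib]
    exact Finset.sum_congr rfl fun i _ => by rw [e1 i, mul_sub]
  rw [e3]
  have e2 : ((Real.exp h : ℝ) : ℂ) * (((Q * Real.exp (-h) : ℝ)) : ℂ) = (Q : ℂ) := by
    rw [← Complex.ofReal_mul]
    congr 1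
    rw [Real.exp_neg]
    field_simp
  linear_combination (-(∑ i, D.κ i * End699.tw (D.η i) D.j u *
    D3 M (End699.tw (D.ψ' i) D.l') u (W i τ) (D.ρ i * nm u / (Q * Real.exp (-h))))) * e2

end Crest.Agent.R017.E4X266
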