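import Crest.Agent.R017.E4fe1_502
import Crest.Agent.R017.E4BWa_858

/-!
# Row 17, E4, exceptional class (helper266): the principal part of the dual sums

* `cr u = ∑_{t ∣ u, t³ ∣ u} N t`
* `gs_cube_le` : `‖gs u (e³)‖ N(e) ≤ N(e)³ N(t)` with `t³ ∣ u`, `e ∣ u` (if `gs u (e³) ≠ 0`)
* `D3c N M χ u W Y` : `D3` with the `d` restricted by a predicate `N`
* `d3p_le` : the part `d = D e³` of `D3`, for a weight with `‖W y‖ ≤ B y^(1/3)`
-/

set_option autoImplicit false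
set_option linter.unusedVariables false
set_option maxHeartbeats 400000

noncomputable section

open Complex
open scoped ComplexConjugate Classical

namespace Crest.Agent.R017.E4Pr266

open Crest.Agent.R012 Crest.Agent.R012.Eis Crest.Agent.R012.Mob705
open Crest.Agent.R012.Div277
open Crest.Agent.R012.GaussLoc283 (syAx norm_gs_le gs_table_succ gs_table_ge gs_one_right
  norm_gs_prime_sq)
open Crest.Agent.R017.Sx545 (Sm)
open Crest.Agent.R017.C590 (D3)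
open Crest.Agent.R017.E4BW858 (exists_val norm_gs_mul_le)

/-! ### the size of `gs u (e³)` -/

lemma gs_cube_local {u p : Eis} (hu : u ≠ 0) (hp : IsPP p) {k : ℕ} (hk : 1 ≤ k)
    (h0 : gs u (p ^ (3 * k)) ≠ 0) :
    ∃ j : ℕ, j ≤ k ∧ p ^ (3 * j) ∣ u ∧ p ^ k ∣ u ∧
      ‖gs u (p ^ (3 * k))‖ * (nm p : ℝ) ^ k ≤ (nm p : ℝ) ^ (3 * k) * (nm p : ℝ) ^ j := by
  have hN0 : (0 : ℝ) < nm p := by exact_mod_cast nm_pos.mpr hp.ne_zero
  obtain ⟨a, r, rfl, hr⟩ := exists_val hu hp.prime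
  have ha : 3 * k ≤ a + 1 := by
    by_contra h
    exact h0 (gs_table_ge syAx hp.isPrim hp.prime hr (by omega))
  rcases Nat.lt_or_ge a (3 * k) with h1 | h1
  · have ha2 : 3 * k = a + 1 := by omega
    refine ⟨k - 1, by omega, (pow_dvd_pow p (by omega)).mul_left r,
      (pow_dvd_pow p (by omega)).mul_left r, ?_⟩
    have h5 := gs_table_succ syAx hp.isPrim hp.prime hr a
    rw [ha2, h5, if_neg (by omega), if_neg (by omega), norm_mul, norm_neg, norm_one, norm_pow,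
      Complex.norm_natCast, mul_one, ← pow_add, ← pow_add]
    apply le_of_eq
    congr 1
    omega
  · refine ⟨k, le_rfl, (pow_dvd_pow p h1).mul_left r, (pow_dvd_pow p (by omega)).mul_left r, ?_⟩
    have := norm_gs_le syAx (r * p ^ a) (hp.isPrim.pow (3 * k))
    rw [nm_pow, Nat.cast_pow] at this
    exact mul_le_mul_of_nonneg_right this (by positivity)

theorem gs_cube_le {u : Eis} (hu : u ≠ 0) : ∀ (N : ℕ) (e : Eis), nm e ≤ N → IsPrim e →
    gs u (e ^ 3) ≠ 0 → ∃ t : Eis, IsPrim t ∧ t ∣ e ∧ t ^ 3 ∣ u ∧ e ∣ u ∧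
      ‖gs u (e ^ 3)‖ * nm e ≤ (nm e : ℝ) ^ 3 * nm t := by
  intro N
  induction N with
  | zero =>
    intro b hb hbp
    exact absurd (nm_eq_zero.mp (Nat.le_zero.mp hb)) hbp.ne_zero
  | succ N ih =>
    intro b hb hbp h0
    by_cases h1 : b = 1
    · subst h1
      refine ⟨1, isPrim_one, one_dvd _, by simp, one_dvd _, ?_⟩
      rw [one_pow, gs_one_right syAx]
      simp
    · obtain ⟨p, hp, hpb⟩ := exists_pp_dvd_of_isPrim hbp h1
      obtain ⟨k, b', rfl, hb'⟩ := exists_val hbp.ne_zero hp.prime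
      rw [mul_comm] at hb hbp hpb h0 ⊢
      have hb'p : IsPrim b' := hbp.of_mul_left (hp.isPrim.pow k)
      have hk : 1 ≤ k := by
        by_contra h
        have : k = 0 := by omega
        subst this
        rw [pow_zero, one_mul] at hpb
        exact hb' hpb
      have hlt : nm b' ≤ N := by
        rw [nm_mul, nm_pow] at hb
        have h2 : 1 ≤ nm b' := nm_pos.mpr hb'p.ne_zero
        have h3 : 2 ≤ nm p ^ k := by
          calc 2 ≤ nm p := hp.one_lt_nm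
            _ = nm p ^ 1 := (pow_one _).symm
            _ ≤ nm p ^ k := Nat.pow_le_pow_right (by have := hp.one_lt_nm; omega) hk
        nlinarith
      have hcop : IsCoprime (p ^ (3 * k)) (b' ^ 3) :=
        ((hp.isCoprime_iff.mpr hb').pow_left).pow_right
      have e1 : (p ^ k * b') ^ 3 = p ^ (3 * k) * b' ^ 3 := by rw [mul_pow, ← pow_mul]; ring
      rw [e1] at h0 ⊢
      have hle := norm_gs_mul_le (u := u) (hp.isPrim.pow (3 * k)) (hb'p.pow 3) hcop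
      have hne : ‖gs u (p ^ (3 * k))‖ * ‖gs u (b' ^ 3)‖ ≠ 0 := fun h =>
        h0 (norm_eq_zero.mp (le_antisymm (h ▸ hle) (norm_nonneg _)))
      have hn1 : gs u (p ^ (3 * k)) ≠ 0 := norm_ne_zero_iff.mp (left_ne_zero_of_mul hne)
      have hn2 : gs u (b' ^ 3) ≠ 0 := norm_ne_zero_iff.mp (right_ne_zero_of_mul hne)
      obtain ⟨j, hjk, hj, hku, hjn⟩ := gs_cube_local hu hp hk hn1
      obtain ⟨t, ht, htb, htu, hbu, htn⟩ := ih b' hlt hb'p hn2
      have hpt : IsCoprime (p ^ j) t := by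
        refine IsCoprime.pow_left ?_
        rw [hp.isCoprime_iff]
        exact fun h => hb' (h.trans htb)
      refine ⟨p ^ j * t, (hp.isPrim.pow j).mul ht, mul_dvd_mul (pow_dvd_pow p hjk) htb, ?_, ?_, ?_⟩
      · have e2 : (p ^ j * t) ^ 3 = p ^ (3 * j) * t ^ 3 := by rw [mul_pow, ← pow_mul]; ring
        rw [e2]
        refine IsCoprime.mul_dvd ?_ hj htu
        have := hpt.pow (m := 3) (n := 3)
        rwa [← pow_mul, mul_comm j 3] at this
      · exact IsCoprime.mul_dvd ((hp.isCoprime_iff.mpr hb').pow_left) hku hbu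
      · have a1 : (nm (p ^ k * b') : ℝ) = (nm p : ℝ) ^ k * nm b' := by
          rw [nm_mul, nm_pow]; push_cast; ring
        have a2 : (nm (p ^ j * t) : ℝ) = (nm p : ℝ) ^ j * nm t := by
          rw [nm_mul, nm_pow]; push_cast; ring
        rw [a1, a2]
        calc ‖gs u (p ^ (3 * k) * b' ^ 3)‖ * ((nm p : ℝ) ^ k * nm b')
            ≤ (‖gs u (p ^ (3 * k))‖ * ‖gs u (b' ^ 3)‖) * ((nm p : ℝ) ^ k * nm b') := by gcongr
          _ = (‖gs u (p ^ (3 * k))‖ * (nm p : ℝ) ^ k) * (‖gs u (b' ^ 3)‖ * nm b') := by ring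
          _ ≤ ((nm p : ℝ) ^ (3 * k) * (nm p : ℝ) ^ j) * ((nm b' : ℝ) ^ 3 * nm t) :=
              mul_le_mul hjn htn (by positivity) (by positivity)
          _ = _ := by rw [mul_pow, ← pow_mul]; ring

/-- sizes of the cube divisors -/
def cr (u : Eis) : ℝ := ∑ t ∈ (dvs u).filter (fun t => t ^ 3 ∣ u), (nm t : ℝ)

lemma cr_nonneg (u : Eis) : 0 ≤ cr u := Finset.sum_nonneg fun _ _ => Nat.cast_nonneg _

lemma le_cr {u t : Eis} (hu : u ≠ 0) (ht : IsPrim t) (h : t ^ 3 ∣ u) : (nm t : ℝ) ≤ cr u := by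
  unfold cr
  refine Finset.single_le_sum (f := fun t : Eis => (nm t : ℝ)) (fun _ _ => Nat.cast_nonneg _) ?_
  rw [Finset.mem_filter, mem_dvs hu]
  exact ⟨⟨ht, (dvd_pow_self t (by norm_num)).trans h⟩, h⟩

/-- `N(B) cr(u) ≤ cr(c B³ u)` -/
lemma cr_mul {u c B : Eis} (hB : IsPrim B) (h0 : c * B ^ 3 * u ≠ 0) :
    (nm B : ℝ) * cr u ≤ cr (c * B ^ 3 * u) := by
  have hu : u ≠ 0 := right_ne_zero_of_mul h0
  unfold cr
  rw [Finset.mul_sum]
  have hinj : Set.InjOn (fun t : Eis => B * t) ((dvs u).filter (fun t => t ^ 3 ∣ u)) :=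
    fun x _ y _ h => mul_left_cancel₀ hB.ne_zero h
  have e1 : ∑ t ∈ (dvs u).filter (fun t => t ^ 3 ∣ u), (nm B : ℝ) * (nm t : ℝ) =
      ∑ s ∈ ((dvs u).filter (fun t => t ^ 3 ∣ u)).image (fun t => B * t), (nm s : ℝ) := by
    rw [Finset.sum_image hinj]
    refine Finset.sum_congr rfl fun t _ => ?_
    rw [nm_mul]; push_cast; ring
  rw [e1]
  refine Finset.sum_le_sum_of_subset_of_nonneg ?_ fun _ _ _ => Nat.cast_nonneg _
  intro s hs
  rw [Finset.mem_image] at hs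
  obtain ⟨t, ht, rfl⟩ := hs
  rw [Finset.mem_filter, mem_dvs hu] at ht
  have h3 : (B * t) ^ 3 ∣ c * B ^ 3 * u := by
    obtain ⟨r, hr⟩ := ht.2
    exact ⟨c * r, by rw [hr]; ring⟩
  rw [Finset.mem_filter, mem_dvs h0]
  exact ⟨⟨hB.mul ht.1.1, (dvd_pow_self (B * t) (by norm_num)).trans h3⟩, h3⟩

/-! ### the restricted dual series -/

/-- `D3` restricted to the `d` with `N d` -/
def D3c (N : Eis → Prop) (M : Eis) (χ : Eis → ℂ) (u : Eis) (W : ℝ → ℂ) (Y : ℝ) : ℂ :=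
  ∑' d : Eis, if Sm M d ∧ N d then conj (gs u d) * (χ d * (nm d : ℂ)⁻¹ * W (nm d / Y)) else 0

/-- principal `d` for the twist `conj sy(·, D)` -/
def PrD (D d : Eis) : Prop := ∃ z : Eis, d * D ^ 2 = z ^ 3

lemma eq_of_cube {x y : Eis} (hx : IsPrim x) (hy : IsPrim (y ^ 3)) (h : Associated x y) :
    x ^ 3 = y ^ 3 := (hx.pow 3).eq_of_associated hy (h.pow_pow)

lemma prD_iff {D d : Eis} (hD : IsPrim D) (hs : Squarefree D) (hd : IsPrim d) :
    PrD D d ↔ ∃ e : Eis, IsPrim e ∧ d = D * e ^ 3 := by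
  constructor
  · rintro ⟨z, hz⟩
    have h1 : D ∣ z := by
      refine (hs.dvd_pow_iff_dvd (n := 3) (by norm_num)).mp ?_
      exact ⟨d * D, by rw [← hz]; ring⟩
    obtain ⟨z', rfl⟩ := h1
    have h2 : d = D * z' ^ 3 := by
      have : D ^ 2 * d = D ^ 2 * (D * z' ^ 3) := by
        rw [mul_comm, hz]; ring
      exact mul_left_cancel₀ (pow_ne_zero 2 hD.ne_zero) this
    have h3 : IsPrim (z' ^ 3) := (h2 ▸ hd : IsPrim (D * z' ^ 3)).of_mul_left hD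
    have h4 : ¬ lam ∣ z' := fun h => h3.not_lam_dvd (h.trans (dvd_pow_self z' (by norm_num)))
    refine ⟨prim z', prim_isPrim h4, ?_⟩
    rw [h2, eq_of_cube (prim_isPrim h4) h3 (prim_associated z').symm]
  · rintro ⟨e, he, rfl⟩
    exact ⟨D * e, by ring⟩

lemma gs_De {u D e : Eis} (hD : IsPrim D) (hc : IsCoprime u D) (he : IsPrim e)
    (h0 : gs u (D * e ^ 3) ≠ 0) : IsCoprime D e := by
  by_contra hcon
  obtain ⟨p, hp, hpD, hpe⟩ := exists_common_pp hD hcon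
  apply h0
  have hpu : ¬ p ∣ u := fun h => hp.prime.not_isUnit (hc.isUnit_of_dvd' h hpD)
  obtain ⟨D', rfl⟩ := hpD
  obtain ⟨e', rfl⟩ := hpe
  have hD' : IsPrim D' := hD.of_mul_left hp.isPrim
  have he' : IsPrim e' := he.of_mul_left hp.isPrim
  have e1 : p * D' * (p * e') ^ 3 = p ^ 2 * (D' * (p ^ 2 * e' ^ 3)) := by ring
  rw [e1]
  exact E2440.gs_eq_zero_of_pow_dvd hp.isPrim hp.prime
    (hD'.mul ((hp.isPrim.pow 2).mul (he'.pow 3)))
    (fun i hi => GaussLoc283.gs_pow_ge_two syAx hp.isPrim hp.prime hpu hi)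

/-- **the principal part of the dual series** -/
theorem d3p_le {M D u : Eis} (hD : Sm M D) (hDs : Squarefree D) (hu : IsPrim u)
    (hc : IsCoprime u D) {χ : Eis → ℂ} (hχ : ∀ d, IsPrim d → ‖χ d‖ ≤ 1) {W : ℝ → ℂ} {B : ℝ}
    (hB : 0 ≤ B) (hW : ∀ y : ℝ, 0 < y → ‖W y‖ ≤ B * y ^ (1 / 3 : ℝ)) {Y : ℝ} (hY : 0 < Y) :
    ‖D3c (PrD D) M χ u W Y‖ ≤ tau u * (B * cr u * ((nm D : ℝ) ^ (-(1 / 2) : ℝ) *
      (nm D / Y) ^ (1 / 3 : ℝ))) := by
  have hD0 : (0 : ℝ) < nm D := by exact_mod_cast nm_pos.mpr hD.ne_zero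
  set F : Eis → ℂ := fun d => if Sm M d ∧ PrD D d then
    conj (gs u d) * (χ d * (nm d : ℂ)⁻¹ * W (nm d / Y)) else 0 with hF
  set T : Finset Eis := (dvs u).image (fun e => D * e ^ 3) with hT
  set c : ℝ := B * cr u * ((nm D : ℝ) ^ (-(1 / 2) : ℝ) * (nm D / Y) ^ (1 / 3 : ℝ)) with hcc
  have hcr := cr_nonneg u
  have hc0 : 0 ≤ c := by rw [hcc]; positivity
  have key : ∀ e : Eis, IsPrim e → gs u (D * e ^ 3) ≠ 0 →
      e ∈ dvs u ∧ ‖gs u (D * e ^ 3)‖ * nm e ≤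
        (nm D : ℝ) ^ (1 / 2 : ℝ) * ((nm e : ℝ) ^ 3 * cr u) := by
    intro e he h0
    have h1 := gs_De hD.prim hc he h0
    have h2 := norm_gs_mul_le (u := u) hD.prim (he.pow 3) (h1.pow_right (n := 3))
    have h3 : gs u (e ^ 3) ≠ 0 := by
      intro h
      rw [h, norm_zero, mul_zero] at h2
      exact h0 (norm_eq_zero.mp (le_antisymm h2 (norm_nonneg _)))
    obtain ⟨t, ht, -, htu, heu, hn⟩ := gs_cube_le hu.ne_zero (nm e) e le_rfl he h3
    refine ⟨(mem_dvs hu.ne_zero).mpr ⟨he, heu⟩, ?_⟩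
    have h4 : ‖gs u D‖ = (nm D : ℝ) ^ (1 / 2 : ℝ) := by
      have h5 : ‖gs u D‖ ^ 2 = nm D := Gauss880.norm_gs_sq Gauss880.syG hD.prim hDs hc
      rw [← Real.sqrt_eq_rpow, ← h5, Real.sqrt_sq (norm_nonneg _)]
    have h5 := le_cr hu.ne_zero ht htu
    have h6 : (0 : ℝ) ≤ nm e := Nat.cast_nonneg _
    calc ‖gs u (D * e ^ 3)‖ * nm e ≤ (‖gs u D‖ * ‖gs u (e ^ 3)‖) * nm e := by gcongr
      _ = (nm D : ℝ) ^ (1 / 2 : ℝ) * (‖gs u (e ^ 3)‖ * nm e) := by rw [h4]; ring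
      _ ≤ (nm D : ℝ) ^ (1 / 2 : ℝ) * ((nm e : ℝ) ^ 3 * nm t) := by gcongr
      _ ≤ _ := by gcongr
  have hsupp : ∀ d, d ∉ T → F d = 0 := by
    intro d hd
    simp only [hF]
    split_ifs with h
    · obtain ⟨e, he, rfl⟩ := (prD_iff hD.prim hDs h.1.prim).mp h.2
      by_cases h0 : gs u (D * e ^ 3) = 0
      · rw [h0]; simp
      · exact absurd (Finset.mem_image.mpr ⟨e, (key e he h0).1, rfl⟩) hd
    · rfl
  have e1 : D3c (PrD D) M χ u W Y = ∑ d ∈ T, F d := by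
    unfold D3c
    exact tsum_eq_sum (f := F) fun d hd => hsupp d hd
  rw [e1]
  have hterm : ∀ d ∈ T, ‖F d‖ ≤ c := by
    intro d hd
    obtain ⟨e, he, rfl⟩ := Finset.mem_image.mp hd
    have hep := isPrim_of_mem_dvs he
    simp only [hF]
    split_ifs with h
    · by_cases h0 : gs u (D * e ^ 3) = 0
      · rw [h0]; simpa using hc0
      · have h1 := (key e hep h0).2
        have hn : (nm (D * e ^ 3) : ℝ) = nm D * (nm e : ℝ) ^ 3 := by
          rw [nm_mul, nm_pow]; push_cast; ring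
        have he0 : (0 : ℝ) < nm e := by exact_mod_cast nm_pos.mpr hep.ne_zero
        have hpos : 0 < (nm (D * e ^ 3) : ℝ) / Y := by rw [hn]; positivity
        have h2 := hW _ hpos
        have h3 := hχ _ h.1.prim
        have e3 : ((nm (D * e ^ 3) : ℝ) / Y) ^ (1 / 3 : ℝ) = (nm D / Y) ^ (1 / 3 : ℝ) * nm e := by
          rw [hn, mul_div_right_comm, Real.mul_rpow (by positivity) (by positivity),
            ← Real.rpow_natCast (nm e : ℝ) 3, ← Real.rpow_mul he0.le]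
          norm_num
        have e4 : (nm D : ℝ) ^ (-(1 / 2) : ℝ) = (nm D : ℝ) ^ (1 / 2 : ℝ) * (nm D : ℝ)⁻¹ := by
          rw [← Real.rpow_neg_one, ← Real.rpow_add hD0]
          norm_num
        rw [norm_mul, norm_mul, norm_mul, RCLike.norm_conj, norm_inv, Complex.norm_natCast]
        rw [e3] at h2
        have hy0 : 0 ≤ ((nm D : ℝ) / Y) ^ (1 / 3 : ℝ) := by positivity
        calc ‖gs u (D * e ^ 3)‖ * (‖χ (D * e ^ 3)‖ * (nm (D * e ^ 3) : ℝ)⁻¹ *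
              ‖W (nm (D * e ^ 3) / Y)‖)
            ≤ ‖gs u (D * e ^ 3)‖ * (1 * (nm (D * e ^ 3) : ℝ)⁻¹ *
              (B * ((nm D / Y) ^ (1 / 3 : ℝ) * nm e))) := by gcongr
          _ = (‖gs u (D * e ^ 3)‖ * nm e) * ((nm (D * e ^ 3) : ℝ)⁻¹ *
              (B * (nm D / Y) ^ (1 / 3 : ℝ))) := by ring
          _ ≤ ((nm D : ℝ) ^ (1 / 2 : ℝ) * ((nm e : ℝ) ^ 3 * cr u)) *
              ((nm (D * e ^ 3) : ℝ)⁻¹ * (B * (nm D / Y) ^ (1 / 3 : ℝ))) := by gcongr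
          _ = c := by
            rw [hcc, hn, e4]
            field_simp
    · rw [norm_zero]; exact hc0
  refine (norm_sum_le _ _).trans ((Finset.sum_le_card_nsmul T _ c hterm).trans ?_)
  rw [nsmul_eq_mul]
  refine mul_le_mul_of_nonneg_right ?_ hc0
  unfold tau
  exact_mod_cast Finset.card_image_le

/-! ### the fixed data -/

open Crest.Agent.R017.CM106 (CS)
open Crest.Agent.R017.E4352
open Crest.Agent.R017.E4v5 (DJ)
open Crest.Agent.R017.E4o502 (vD wD GoodD ssm_tws)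
open Crest.Agent.R017.E4fe502

/-- the mass of the principal part -/
def Mp1 (f : Eis) (v w : Eis → ℂ) : ℝ :=
  ∑' x : Eis, ‖v x‖ * ∑' y : Eis, ‖w y‖ * (cr (f * x * y) * (nm (f * x * y) : ℝ) ^ (-(1 / 3) : ℝ))

lemma tau_mono {a b : Eis} (hb : b ≠ 0) (h : a ∣ b) : tau a ≤ tau b := by
  unfold tau
  refine Finset.card_le_card fun d hd => ?_
  have ha : a ≠ 0 := fun h0 => hb (by rw [h0] at h; exact zero_dvd_iff.mp h)
  rw [mem_dvs ha] at hd
  rw [mem_dvs hb]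
  exact ⟨hd.1, hd.2.trans h⟩

lemma sum_inj_le {S T : Finset Eis} {c : Eis} (hc : c ≠ 0) (hST : ∀ x ∈ S, c * x ∈ T)
    {h : Eis → ℝ} (h0 : ∀ x, 0 ≤ h x) : ∑ x ∈ S, h (c * x) ≤ ∑ x ∈ T, h x := by
  have hinj : Set.InjOn (fun x : Eis => c * x) S := fun x _ y _ h => mul_left_cancel₀ hc h
  have e1 : ∑ x ∈ S, h (c * x) = ∑ s ∈ S.image (fun x => c * x), h s := by
    rw [Finset.sum_image hinj]
  rw [e1]
  refine Finset.sum_le_sum_of_subset_of_nonneg ?_ fun _ _ _ => h0 _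
  intro s hs
  obtain ⟨x, hx, rfl⟩ := Finset.mem_image.mp hs
  exact hST x hx

lemma Mp1_fin {M f : Eis} {v w : Eis → ℂ} (hv : SSm M v) (hw : SSm M w) :
    Mp1 f v w = ∑ x ∈ hv.fin.toFinset, ‖v x‖ * ∑ y ∈ hw.fin.toFinset, ‖w y‖ *
      (cr (f * x * y) * (nm (f * x * y) : ℝ) ^ (-(1 / 3) : ℝ)) := by
  unfold Mp1
  rw [tsum_eq_sum (s := hv.fin.toFinset)]
  · refine Finset.sum_congr rfl fun x _ => ?_
    congr 1
    refine tsum_eq_sum fun y hy => ?_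
    have : w y = 0 := by
      by_contra h
      exact hy (hw.fin.mem_toFinset.mpr h)
    rw [this, norm_zero, zero_mul]
  · intro x hx
    have : v x = 0 := by
      by_contra h
      exact hx (hv.fin.mem_toFinset.mpr h)
    rw [this, norm_zero, zero_mul]

lemma Mp1_nonneg (f : Eis) (v w : Eis → ℂ) : 0 ≤ Mp1 f v w :=
  tsum_nonneg fun _ => mul_nonneg (norm_nonneg _) (tsum_nonneg fun _ =>
    mul_nonneg (norm_nonneg _) (mul_nonneg (cr_nonneg _) (by positivity)))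

/-- real powers at one term -/
lemma pow_id' {n b L m : ℝ} (hn : 0 < n) (hb : 0 < b) (hL : 0 < L) (hm : 0 < m) :
    n ^ (3 / 2 : ℝ) * (b ^ 3 * (L / (n ^ 2 * b ^ 3) * (n ^ (-(1 / 2) : ℝ) *
      (n / (m / (L / (n ^ 2 * b ^ 3)))) ^ (1 / 3 : ℝ)))) =
    (L ^ (4 / 3 : ℝ) * (b * (n * b ^ 3 * m) ^ (-(1 / 3) : ℝ))) / (n * b) := by
  have e1 : n / (m / (L / (n ^ 2 * b ^ 3))) = L * (n * b ^ 3 * m)⁻¹ := by
    field_simp
  rw [e1, Real.mul_rpow hL.le (by positivity), Real.inv_rpow (by positivity),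
    ← Real.rpow_neg (by positivity)]
  have e2 : L ^ (4 / 3 : ℝ) = L * L ^ (1 / 3 : ℝ) := by
    rw [← Real.rpow_one_add' hL.le (by norm_num)]
    norm_num
  have e3 : n ^ (3 / 2 : ℝ) = n ^ 2 * n ^ (-(1 / 2) : ℝ) := by
    rw [← Real.rpow_natCast, ← Real.rpow_add hn]
    norm_num
  have e4 : n ^ (-(1 / 2) : ℝ) * n ^ (-(1 / 2) : ℝ) = n⁻¹ := by
    rw [← Real.rpow_add hn, ← Real.rpow_neg_one]
    norm_num
  rw [e2, e3]
  set q := (n * b ^ 3 * m) ^ (-(1 / 3) : ℝ)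
  calc n ^ 2 * n ^ (-(1 / 2) : ℝ) * (b ^ 3 * (L / (n ^ 2 * b ^ 3) * (n ^ (-(1 / 2) : ℝ) *
      (L ^ (1 / 3 : ℝ) * q)))) = (n ^ (-(1 / 2) : ℝ) * n ^ (-(1 / 2) : ℝ)) * (L * L ^ (1 / 3 : ℝ) *
        q) := by field_simp
    _ = _ := by rw [e4]; field_simp

/-- **the principal part** at fixed data and one `(o, D1)` -/
theorem pr_le {M f D0 B R Z D1 : Eis} (h : Dta M f D0 B R Z) {v w : Eis → ℂ} (hv : SSm M v)
    (hw : SSm M w) (hg : GoodD M f D0 D1) (hD1 : IsPrim D1) (hc : IsCoprime B (D0 * D1))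
    {χ₁ χ₂ : Eis → ℂ} (h1 : ∀ d, IsPrim d → ‖χ₁ d‖ ≤ 1) (h2 : ∀ d, IsPrim d → ‖χ₂ d‖ ≤ 1)
    {W : ℝ → ℂ} {B' : ℝ} (hB' : 0 ≤ B') (hW : ∀ y : ℝ, 0 < y → ‖W y‖ ≤ B' * y ^ (1 / 3 : ℝ))
    {ρ K lam τ₀ : ℝ} (hρ : 0 < ρ) (hK : 0 < K) (hlam : 0 < lam)
    (hτ : ∀ x y, v x ≠ 0 → w y ≠ 0 → (tau (f * x * y) : ℝ) ≤ τ₀) (hτ0 : 0 ≤ τ₀) :
    (nm (D0 * D1) : ℝ) ^ (3 / 2 : ℝ) * ((nm B : ℝ) ^ 3 *
      ‖Bi (tws R B (fun _ => 1) (vD (D0 * D1) v)) (tws Z B (fun _ => 1) (wD (D0 * D1) D1 w))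
        (fun x y => ((K / (lam * nm ((D0 * D1) ^ 2 * B ^ 3)) : ℝ) : ℂ) *
          (χ₁ (FF f D0 B R Z * x * y) * D3c (PrD (D0 * D1)) M χ₂ (FF f D0 B R Z * x * y) W
            (ρ * nm (FF f D0 B R Z * x * y) / (K / (lam * nm ((D0 * D1) ^ 2 * B ^ 3))))))‖) ≤
      τ₀ * B' * ρ ^ (-(1 / 3) : ℝ) * ((K / lam) ^ (4 / 3 : ℝ) * Mp1 f v w) /
        (nm (D0 * D1) * nm B) := by
  obtain ⟨c1, c2, c3, c4⟩ := h.copFF hg hc
  have hD : Sm M (D0 * D1) := hg.2.2.1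
  have sv : SSm M (tws R B (fun _ => 1) (vD (D0 * D1) v)) := ssm_tws (ssm_tws hv isPrim_one) h.hR
  have sw : SSm M (tws Z B (fun _ => 1) (wD (D0 * D1) D1 w)) := ssm_tws (ssm_tws hw hD1) h.hZ
  set D := D0 * D1 with hDdef
  set F := FF f D0 B R Z with hF
  set n : ℝ := (nm D : ℝ) with hn
  set b : ℝ := (nm B : ℝ) with hb
  have hn0 : 0 < n := by rw [hn]; exact_mod_cast nm_pos.mpr hD.ne_zero
  have hb0 : 0 < b := by rw [hb]; exact_mod_cast nm_pos.mpr h.hB.ne_zero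
  have hnB : ((nm (D ^ 2 * B ^ 3) : ℕ) : ℝ) = n ^ 2 * b ^ 3 := by
    rw [nm_mul, nm_pow, nm_pow]; push_cast; rfl
  set L : ℝ := K / lam with hL
  have hL0 : 0 < L := by positivity
  have hQ : K / (lam * nm (D ^ 2 * B ^ 3)) = L / (n ^ 2 * b ^ 3) := by
    rw [hnB, hL]; field_simp
  rw [hQ, bi_fin sv sw]
  set Q : ℝ := L / (n ^ 2 * b ^ 3) with hQdef
  have hQ0 : 0 < Q := by positivity
  -- one term
  set H : Eis → Eis → ℝ := fun x y =>
    cr (f * x * y) * (nm (f * x * y) : ℝ) ^ (-(1 / 3) : ℝ) with hH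
  set E : ℝ := τ₀ * B' * ρ ^ (-(1 / 3) : ℝ) * L ^ (4 / 3 : ℝ) / (n * b) with hE
  have hE0 : 0 ≤ E := by positivity
  have hterm : ∀ x y, tws R B (fun _ => 1) (vD D v) x ≠ 0 → tws Z B (fun _ => 1) (wD D D1 w) y ≠ 0 →
      n ^ (3 / 2 : ℝ) * (b ^ 3 * ‖tws R B (fun _ => 1) (vD D v) x *
        (tws Z B (fun _ => 1) (wD D D1 w) y * ((Q : ℂ) * (χ₁ (F * x * y) *
          D3c (PrD D) M χ₂ (F * x * y) W (ρ * nm (F * x * y) / Q))))‖) ≤
      E * (‖v (R * x)‖ * (‖w (D1 * (Z * y))‖ * H (R * x) (D1 * (Z * y)))) := by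
    intro x y hx hy
    have a1 : IsCoprime x B ∧ vD D v (R * x) ≠ 0 := by
      unfold E4352.tws at hx
      split_ifs at hx with h'
      · exact ⟨h', right_ne_zero_of_mul hx⟩
      · exact absurd rfl hx
    have a2 : IsCoprime (R * x) D ∧ v (R * x) ≠ 0 := by
      have h0 := a1.2
      unfold vD E4352.tws at h0
      split_ifs at h0 with h'
      · have := right_ne_zero_of_mul h0
        rw [one_mul] at this
        exact ⟨h', this⟩
      · exact absurd rfl h0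
    have b1 : IsCoprime y B ∧ wD D D1 w (Z * y) ≠ 0 := by
      unfold E4352.tws at hy
      split_ifs at hy with h'
      · exact ⟨h', right_ne_zero_of_mul hy⟩
      · exact absurd rfl hy
    have b2 : IsCoprime (Z * y) D ∧ w (D1 * (Z * y)) ≠ 0 := by
      have h0 := b1.2
      unfold wD E4352.tws at h0
      split_ifs at h0 with h'
      · exact ⟨h', right_ne_zero_of_mul h0⟩
      · exact absurd rfl h0
    have na : ‖tws R B (fun _ => 1) (vD D v) x‖ ≤ ‖v (R * x)‖ := by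
      unfold vD E4352.tws
      rw [if_pos a1.1, if_pos a2.1, one_mul, one_mul, norm_mul, RCLike.norm_conj]
      exact mul_le_of_le_one_left (norm_nonneg _) (CF61.norm_sy_le _ _)
    have nb : ‖tws Z B (fun _ => 1) (wD D D1 w) y‖ ≤ ‖w (D1 * (Z * y))‖ := by
      unfold wD E4352.tws
      rw [if_pos b1.1, if_pos b2.1, one_mul, norm_mul, RCLike.norm_conj]
      exact mul_le_of_le_one_left (norm_nonneg _) (CF61.norm_sy_le _ _)
    have hRx : IsPrim (R * x) := (hv.sm _ a2.2).prim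
    have hxp : IsPrim x := hRx.of_mul_left h.hR
    have hDZy : IsPrim (D1 * (Z * y)) := (hw.sm _ b2.2).prim
    have hyp : IsPrim y := (hDZy.of_mul_left hD1).of_mul_left h.hZ
    set u : Eis := F * x * y with hu
    have hup : IsPrim u := (h.sFF.prim.mul hxp).mul hyp
    have huc : IsCoprime u D :=
      (c4.mul_left a2.1.of_mul_left_right).mul_left b2.1.of_mul_left_right
    have e1 : f * (R * x) * (D1 * (Z * y)) = D * B ^ 3 * u := by
      have g1 := h.hFF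
      have g2 := h.f'
      calc f * (R * x) * (D1 * (Z * y)) = (D0 * (f / D0)) * (R * x) * (D1 * (Z * y)) := by rw [g2]
        _ = D0 * D1 * (f / D0 * R * Z) * x * y := by ring
        _ = _ := by rw [g1, hu, hDdef]; ring
    have hu0 : D * B ^ 3 * u ≠ 0 :=
      mul_ne_zero (mul_ne_zero hD.ne_zero (pow_ne_zero 3 h.hB.ne_zero)) hup.ne_zero
    set m : ℝ := (nm u : ℝ) with hm
    have hm0 : 0 < m := by rw [hm]; exact_mod_cast nm_pos.mpr hup.ne_zero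
    have hY : 0 < ρ * m / Q := by positivity
    have key := d3p_le hD hg.2.1 hup huc h2 hB' hW hY
    have t1 : (tau u : ℝ) ≤ τ₀ := by
      refine le_trans ?_ (hτ _ _ a2.2 b2.2)
      rw [e1]
      exact_mod_cast tau_mono hu0 (dvd_mul_left _ _)
    have t2 : b * cr u ≤ cr (f * (R * x) * (D1 * (Z * y))) := by
      rw [e1]
      exact cr_mul h.hB.prim hu0
    have t3 : (nm (f * (R * x) * (D1 * (Z * y))) : ℝ) = n * b ^ 3 * m := by
      rw [e1, nm_mul, nm_mul, nm_pow]; push_cast; rfl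
    have t4 : (n / (ρ * m / Q)) ^ (1 / 3 : ℝ) = ρ ^ (-(1 / 3) : ℝ) * (n / (m / Q)) ^ (1 / 3 : ℝ) := by
      have : n / (ρ * m / Q) = ρ⁻¹ * (n / (m / Q)) := by field_simp
      rw [this, Real.mul_rpow (by positivity) (by positivity), Real.inv_rpow hρ.le,
        ← Real.rpow_neg hρ.le]
    rw [t4] at key
    have hcr := cr_nonneg u
    have hχ := h1 u hup
    have nD : ‖D3c (PrD D) M χ₂ u W (ρ * m / Q)‖ ≤ τ₀ * (B' * cr u * (n ^ (-(1 / 2) : ℝ) *
        (ρ ^ (-(1 / 3) : ℝ) * (n / (m / Q)) ^ (1 / 3 : ℝ)))) :=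
      key.trans (mul_le_mul_of_nonneg_right t1 (by positivity))
    rw [norm_mul, norm_mul, norm_mul, norm_mul, Complex.norm_real, Real.norm_of_nonneg hQ0.le]
    have hv0 := norm_nonneg (v (R * x))
    have hw0 := norm_nonneg (w (D1 * (Z * y)))
    calc n ^ (3 / 2 : ℝ) * (b ^ 3 * (‖tws R B (fun _ => 1) (vD D v) x‖ *
          (‖tws Z B (fun _ => 1) (wD D D1 w) y‖ * (Q * (‖χ₁ u‖ *
            ‖D3c (PrD D) M χ₂ u W (ρ * m / Q)‖)))))
        ≤ n ^ (3 / 2 : ℝ) * (b ^ 3 * (‖v (R * x)‖ * (‖w (D1 * (Z * y))‖ * (Q * (1 *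
            (τ₀ * (B' * cr u * (n ^ (-(1 / 2) : ℝ) *
        (ρ ^ (-(1 / 3) : ℝ) * (n / (m / Q)) ^ (1 / 3 : ℝ)))))))))) := by gcongr
      _ = (‖v (R * x)‖ * ‖w (D1 * (Z * y))‖ * (τ₀ * B' * ρ ^ (-(1 / 3) : ℝ)) * cr u) *
          (n ^ (3 / 2 : ℝ) * (b ^ 3 * (Q * (n ^ (-(1 / 2) : ℝ) *
            (n / (m / Q)) ^ (1 / 3 : ℝ))))) := by ring
      _ = (‖v (R * x)‖ * ‖w (D1 * (Z * y))‖ * (τ₀ * B' * ρ ^ (-(1 / 3) : ℝ)) * cr u) *
          ((L ^ (4 / 3 : ℝ) * (b * (n * b ^ 3 * m) ^ (-(1 / 3) : ℝ))) / (n * b)) := by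
          rw [hQdef, pow_id' hn0 hb0 hL0 hm0]
      _ = (‖v (R * x)‖ * ‖w (D1 * (Z * y))‖ * (τ₀ * B' * ρ ^ (-(1 / 3) : ℝ)) * L ^ (4 / 3 : ℝ) /
          (n * b) * (n * b ^ 3 * m) ^ (-(1 / 3) : ℝ)) * (b * cr u) := by ring
      _ ≤ (‖v (R * x)‖ * ‖w (D1 * (Z * y))‖ * (τ₀ * B' * ρ ^ (-(1 / 3) : ℝ)) * L ^ (4 / 3 : ℝ) /
          (n * b) * (n * b ^ 3 * m) ^ (-(1 / 3) : ℝ)) * cr (f * (R * x) * (D1 * (Z * y))) :=
          mul_le_mul_of_nonneg_left t2 (by positivity)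
      _ = E * (‖v (R * x)‖ * (‖w (D1 * (Z * y))‖ * H (R * x) (D1 * (Z * y)))) := by
          rw [hE, hH]
          simp only
          rw [t3]
          ring
  have hsum : n ^ (3 / 2 : ℝ) * (b ^ 3 * ‖∑ x ∈ sv.fin.toFinset, ∑ y ∈ sw.fin.toFinset,
      tws R B (fun _ => 1) (vD D v) x * (tws Z B (fun _ => 1) (wD D D1 w) y * ((Q : ℂ) *
        (χ₁ (F * x * y) * D3c (PrD D) M χ₂ (F * x * y) W (ρ * nm (F * x * y) / Q))))‖) ≤
      ∑ x ∈ sv.fin.toFinset, ∑ y ∈ sw.fin.toFinset,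
        E * (‖v (R * x)‖ * (‖w (D1 * (Z * y))‖ * H (R * x) (D1 * (Z * y)))) := by
    have g1 : ‖∑ x ∈ sv.fin.toFinset, ∑ y ∈ sw.fin.toFinset,
      tws R B (fun _ => 1) (vD D v) x * (tws Z B (fun _ => 1) (wD D D1 w) y * ((Q : ℂ) *
        (χ₁ (F * x * y) * D3c (PrD D) M χ₂ (F * x * y) W (ρ * nm (F * x * y) / Q))))‖ ≤
        ∑ x ∈ sv.fin.toFinset, ∑ y ∈ sw.fin.toFinset,
      ‖tws R B (fun _ => 1) (vD D v) x * (tws Z B (fun _ => 1) (wD D D1 w) y * ((Q : ℂ) *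
        (χ₁ (F * x * y) * D3c (PrD D) M χ₂ (F * x * y) W (ρ * nm (F * x * y) / Q))))‖ :=
      (norm_sum_le _ _).trans (Finset.sum_le_sum fun x _ => norm_sum_le _ _)
    refine (mul_le_mul_of_nonneg_left (mul_le_mul_of_nonneg_left g1 (by positivity))
      (by positivity)).trans ?_
    rw [Finset.mul_sum, Finset.mul_sum]
    refine Finset.sum_le_sum fun x hx => ?_
    rw [Finset.mul_sum, Finset.mul_sum]
    refine Finset.sum_le_sum fun y hy => ?_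
    exact hterm x y (sv.fin.mem_toFinset.mp hx) (sw.fin.mem_toFinset.mp hy)
  refine hsum.trans ?_
  have hH0 : ∀ x y, 0 ≤ H x y := fun x y => by
    simp only [hH]
    exact mul_nonneg (cr_nonneg _) (by positivity)
  have e2 : ∀ x ∈ sv.fin.toFinset, ∑ y ∈ sw.fin.toFinset,
      E * (‖v (R * x)‖ * (‖w (D1 * (Z * y))‖ * H (R * x) (D1 * (Z * y)))) ≤
      E * (‖v (R * x)‖ * ∑ y ∈ hw.fin.toFinset, ‖w y‖ * H (R * x) y) := by
    intro x hx
    rw [← Finset.mul_sum, ← Finset.mul_sum]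
    refine mul_le_mul_of_nonneg_left (mul_le_mul_of_nonneg_left ?_ (norm_nonneg _)) hE0
    have g := sum_inj_le (S := sw.fin.toFinset) (T := hw.fin.toFinset) (c := D1 * Z)
      (mul_ne_zero hD1.ne_zero h.hZ.ne_zero) (fun y hy => ?_) (h := fun y => ‖w y‖ * H (R * x) y)
      (fun y => mul_nonneg (norm_nonneg _) (hH0 _ _))
    · refine le_trans (le_of_eq ?_) g
      refine Finset.sum_congr rfl fun y _ => ?_
      rw [mul_assoc D1 Z y]
    · rw [hw.fin.mem_toFinset, Function.mem_support]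
      have hy' : tws Z B (fun _ => 1) (wD D D1 w) y ≠ 0 := sw.fin.mem_toFinset.mp hy
      intro h0
      apply hy'
      unfold wD E4352.tws
      rw [← mul_assoc, h0]
      simp
  refine (Finset.sum_le_sum e2).trans ?_
  rw [← Finset.mul_sum]
  have e3 : ∑ x ∈ sv.fin.toFinset, ‖v (R * x)‖ * ∑ y ∈ hw.fin.toFinset, ‖w y‖ * H (R * x) y ≤
      Mp1 f v w := by
    rw [Mp1_fin hv hw]
    refine sum_inj_le (S := sv.fin.toFinset) (T := hv.fin.toFinset) (c := R) h.hR.ne_zero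
      (fun x hx => ?_) (h := fun x => ‖v x‖ * ∑ y ∈ hw.fin.toFinset, ‖w y‖ * H x y)
      (fun x => mul_nonneg (norm_nonneg _) (Finset.sum_nonneg fun y _ =>
        mul_nonneg (norm_nonneg _) (hH0 _ _)))
    rw [hv.fin.mem_toFinset, Function.mem_support]
    have hx' : tws R B (fun _ => 1) (vD D v) x ≠ 0 := sv.fin.mem_toFinset.mp hx
    intro h0
    apply hx'
    unfold vD E4352.tws
    rw [one_mul (R * x), h0]
    simp
  refine (mul_le_mul_of_nonneg_left e3 hE0).trans (le_of_eq ?_)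
  rw [hE]
  ring

end Crest.Agent.R017.E4Pr266
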