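import Crest.Agent.R017.Sx3b_545
import Crest.Agent.R012.GaussInst_880

/-!
# Row 17: instances of `Res`

* `res_sy : Res 3 1 sy`, `Res.mono` (smaller set of moduli)
* `Res.six` : quadratic × conj cubic = a symbol of order `6`.
* `Res.sq`: the square of a symbol of order `6` ...
-/

set_option autoImplicit false

noncomputable section

namespace Crest.Agent.R017.Sx545

open Crest.Agent.R012 Crest.Agent.R012.Eis Crest.Agent.R012.Gauss880

variable {m m' : Eis} {n : ℕ} {σ σ' : Eis → Eis → ℂ}

lemma Sm.mono {c : Eis} (h : Sm m' c) (hm : m ∣ m') : Sm m c :=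
  ⟨h.1, h.2.of_isCoprime_of_dvd_right hm⟩

lemma Res.mono (H : Res n m σ) (hm : m ∣ m') : Res n m' σ where
  npos := H.npos
  mul_left x y c hc := H.mul_left x y c (hc.mono hm)
  mul_right x c d hc hd := H.mul_right x c d (hc.mono hm) (hd.mono hm)
  congr x y c hc h := H.congr x y c (hc.mono hm) h
  eq_zero x c hc := H.eq_zero x c (hc.mono hm)
  pow_eq x c hc hx := H.pow_eq x c (hc.mono hm) hx
  order p hp hpp j h := H.order p (hp.mono hm) hpp j h

/-- the cubic residue symbol. -/
theorem res_sy : Res 3 1 sy where
  npos := by norm_num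
  mul_left x y c hc := syG.mul_left x y c hc.prim
  mul_right x c d hc hd := syG.mul_right x c d hc.prim hd.prim
  congr x y c hc h := syG.congr x y c hc.prim h
  eq_zero x c hc := syG.eq_zero x c hc.prim
  pow_eq x c hc hx := syG.cube x c hc.prim hx
  order p hp hpp j h := by
    obtain ⟨x, hx, hx1⟩ := syG.nontriv p hp.prim hpp
    have h3 := syG.cube x p hp.prim hx
    have hj := h x hx
    by_contra hcon
    apply hx1
    have h4 : j % 3 = 1 ∨ j % 3 = 2 := by omega
    rw [← Nat.div_add_mod j 3, pow_add, pow_mul, h3, one_pow, one_mul] at hj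
    rcases h4 with h4 | h4
    · rw [h4, pow_one] at hj; exact hj
    · rw [h4] at hj
      calc sy x p = sy x p ^ 3 := by rw [pow_succ, hj, one_mul]
        _ = 1 := h3

/-- conjugate symbol. -/
lemma Res.conj (H : Res n m σ) : Res n m (fun x c => (starRingEnd ℂ) (σ x c)) where
  npos := H.npos
  mul_left x y c hc := by rw [H.mul_left x y c hc, map_mul]
  mul_right x c d hc hd := by rw [H.mul_right x c d hc hd, map_mul]
  congr x y c hc h := by rw [H.congr x y c hc h]
  eq_zero x c hc := by rw [map_eq_zero]; exact H.eq_zero x c hc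
  pow_eq x c hc hx := by rw [← map_pow, H.pow_eq x c hc hx, map_one]
  order p hp hpp j h := by
    refine H.order p hp hpp j fun x hx => ?_
    have h1 := h x hx
    rw [← map_pow] at h1
    have h2 := congrArg (starRingEnd ℂ) h1
    rwa [Complex.conj_conj, map_one] at h2

/-- the product of a symbol of order `a` and one of order `b`, `(a,b) = 1`, has order `a b`. -/
lemma Res.mul_coprime {a b : ℕ} (hab : Nat.Coprime a b) (H : Res a m σ) (H' : Res b m σ') :
    Res (a * b) m (fun x c => σ x c * σ' x c) where
  npos := Nat.mul_pos H.npos H'.npos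
  mul_left x y c hc := by rw [H.mul_left x y c hc, H'.mul_left x y c hc]; ring
  mul_right x c d hc hd := by rw [H.mul_right x c d hc hd, H'.mul_right x c d hc hd]; ring
  congr x y c hc h := by rw [H.congr x y c hc h, H'.congr x y c hc h]
  eq_zero x c hc := by
    rw [mul_eq_zero, H.eq_zero x c hc, H'.eq_zero x c hc, or_self]
  pow_eq x c hc hx := by
    rw [mul_pow, pow_mul, H.pow_eq x c hc hx, one_pow, mul_comm a b, pow_mul,
      H'.pow_eq x c hc hx, one_pow, one_mul]
  order p hp hpp j h := by
    have h1 : a ∣ j := by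
      have h2 : a ∣ b * j := H.order p hp hpp (b * j) fun x hx => by
        have h3 := h x hx
        have h4 : (σ x p * σ' x p) ^ (b * j) = 1 := by
          rw [mul_comm b j, pow_mul, h3, one_pow]
        rw [mul_pow, pow_mul (σ' x p), H'.pow_eq x p hp hx, one_pow, mul_one] at h4
        exact h4
      exact hab.dvd_of_dvd_mul_left h2
    have h1' : b ∣ j := by
      have h2 : b ∣ a * j := H'.order p hp hpp (a * j) fun x hx => by
        have h3 := h x hx
        have h4 : (σ x p * σ' x p) ^ (a * j) = 1 := by
          rw [mul_comm a j, pow_mul, h3, one_pow]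
        rw [mul_pow, pow_mul (σ x p), H.pow_eq x p hp hx, one_pow, one_mul] at h4
        exact h4
      exact hab.symm.dvd_of_dvd_mul_left h2
    exact hab.mul_dvd_of_dvd_of_dvd h1 h1'

/-- quadratic × conj cubic = sextic. -/
lemma Res.six (H : Res 2 m σ) (H' : Res 3 m σ') :
    Res 6 m (fun x c => σ x c * (starRingEnd ℂ) (σ' x c)) :=
  Res.mul_coprime (a := 2) (b := 3) (by norm_num) H H'.conj

end Crest.Agent.R017.Sx545
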