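import Crest.Agent.R017.E2a_440
import Crest.Agent.R017.NSxA_545
import Crest.Agent.R017.Sx3i_545

/-!
# Row 17, block C70, leaf E4 (dual side): separation and Cauchy (helper579)

* `gs_split` : `gs u (b d₀) = gs u b * (conj (sy (u b) d₀) * gs 1 d₀)`, `d₀` squarefree
* `gs_str1` : `gs u c ≠ 0 → c = g r`, `r` squarefree, `g ∣ u`, `‖gs u c‖² ≤ N c * N g`
* `bpt b x`, `bco b x` : `x = bpt * bco`, primes of `bpt` divide `b`, `bco` prime to `b`
* `XP I a x b P d₀ = Σ_{i ∈ I, bpt b (x i) = P} a i * (sy (bco b (x i)) b * sy (x i) d₀)`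
* `BS_eq` : exact separation of `Σ_{i,j} a_i c_j conj gs (f x_i y_j) (b d₀)`
* `dual_le` : Cauchy on the dual side
-/

set_option autoImplicit false
set_option linter.unusedVariables false
set_option linter.unusedSectionVars false

noncomputable section

open Finset
open scoped ComplexConjugate

namespace Crest.Agent.R017.E4579

open Crest.Agent.R012 Crest.Agent.R012.Eis Crest.Agent.R012.GaussLoc283
open Crest.Agent.R012.Mob705
open Crest.Agent.R017.Sx545 (Sm)
open Crest.Agent.R017.Asm986 (Pf)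
open Crest.Agent.R017.NSx545 (exists_pfsf pfsf_unique sum_pfsf)

/-! ### splitting the modulus -/

/-- squarefree moduli: every frequency -/
lemma gs_sqf {d u : Eis} (hd : IsPrim d) (hs : Squarefree d) :
    gs u d = conj (sy u d) * gs 1 d := by
  rw [Gauss880.gs_eq_G Gauss880.syG hd hs, Gauss880.gs_one_eq hd]

theorem gs_split {b d u : Eis} (hb : IsPrim b) (hd : IsPrim d) (hs : Squarefree d)
    (hbd : IsCoprime b d) : gs u (b * d) = gs u b * (conj (sy (u * b) d) * gs 1 d) := by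
  rw [gs_mul' syAx u hb hd hbd, gs_sqf hd hs]

/-! ### the size of `gs u c` -/

lemma gs_pow_str {u p : Eis} (hp : IsPrim p) (hpp : Prime p) {k : ℕ} (hk : 1 ≤ k)
    (h0 : gs u (p ^ k) ≠ 0) : ∃ g r : Eis, IsPrim g ∧ IsPrim r ∧ Squarefree r ∧ p ^ k = g * r ∧
      g ∣ u ∧ ‖gs u (p ^ k)‖ ^ 2 ≤ (nm (p ^ k) : ℝ) * nm g := by
  by_cases hu : p ^ k ∣ u
  · refine ⟨p ^ k, 1, hp.pow k, isPrim_one, squarefree_one, by ring, hu, ?_⟩
    have h := norm_gs_le syAx u (hp.pow k)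
    nlinarith [norm_nonneg (gs u (p ^ k))]
  · obtain ⟨j, rfl⟩ : ∃ j, k = j + 1 := ⟨k - 1, by omega⟩
    have h1 : p ^ j ∣ u := by
      by_contra hc
      exact h0 (gs_pow_of_not_dvd syAx hp hc)
    obtain ⟨s, rfl⟩ := h1
    have hs : ¬ p ∣ s := by
      rintro ⟨t, rfl⟩
      exact hu ⟨t, by ring⟩
    refine ⟨p ^ j, p, hp.pow j, hp, hpp.squarefree, by ring, dvd_mul_right _ _, ?_⟩
    rw [mul_comm (p ^ j) s, gs_table_succ syAx hp hpp hs j, norm_mul, mul_pow, nm_pow, nm_pow,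
      norm_pow, Complex.norm_natCast]
    have h3 : ‖(if j % 3 = 0 then gs s p else if j % 3 = 1 then conj (gs s p) else -1 : ℂ)‖ ^ 2
        ≤ nm p := by
      have h4 := norm_gs_prime_sq syAx hp hpp hs
      split_ifs
      · exact h4.le
      · rw [RCLike.norm_conj]; exact h4.le
      · have : (1 : ℝ) ≤ nm p := by exact_mod_cast nm_pos.mpr hp.ne_zero
        simpa using this
    push_cast
    calc ((nm p : ℝ) ^ j) ^ 2 * _ ≤ ((nm p : ℝ) ^ j) ^ 2 * nm p :=
          mul_le_mul_of_nonneg_left h3 (by positivity)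
      _ = (nm p : ℝ) ^ (j + 1) * (nm p : ℝ) ^ j := by ring

/-- **structure of the modulus**: `c = g r`, `r` squarefree, `g ∣ u`. -/
theorem gs_str1 {c : Eis} (hc : IsPrim c) (u : Eis) (h0 : gs u c ≠ 0) :
    ∃ g r : Eis, IsPrim g ∧ IsPrim r ∧ Squarefree r ∧ c = g * r ∧ g ∣ u ∧
      ‖gs u c‖ ^ 2 ≤ (nm c : ℝ) * nm g := by
  have key : ∀ c, Sm 1 c → ∀ u, gs u c ≠ 0 → ∃ g r : Eis, IsPrim g ∧ IsPrim r ∧ Squarefree r ∧
      c = g * r ∧ g ∣ u ∧ ‖gs u c‖ ^ 2 ≤ (nm c : ℝ) * nm g := by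
    refine Sx545.Sm.induction_coprime (m := 1) ?_ ?_
    · intro u _
      refine ⟨1, 1, isPrim_one, isPrim_one, squarefree_one, by ring, one_dvd _, ?_⟩
      rw [gs_one_right syAx]
      simp [nm_one]
    · intro p k b hpS hpp hk hbS hpb ih u h0
      have hp := hpS.prim
      have hb := hbS.prim
      have hcop : IsCoprime p b := ((isCoprime_iff_not_dvd hpp b).mpr hpb).symm
      have hmul : gs u (p ^ k * b) = gs u (p ^ k) * gs (u * p ^ k) b :=
        gs_mul' syAx _ (hp.pow k) hb hcop.pow_left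
      have e2 : gs (u * p ^ k) b = conj (sy (p ^ k) b) * gs u b :=
        gs_mul_left syAx u hb hcop.pow_left
      have hn : ‖gs (u * p ^ k) b‖ = ‖gs u b‖ := by
        rw [e2, norm_mul, RCLike.norm_conj]
        have : ‖sy (p ^ k) b‖ = 1 := Sx545.Res.norm_eq_one Sx545.res_sy hbS hcop.pow_left
        rw [this, one_mul]
      rw [hmul] at h0
      have h01 := left_ne_zero_of_mul h0
      have h02 : gs u b ≠ 0 := by
        intro h
        exact right_ne_zero_of_mul h0 (by rw [e2, h, mul_zero])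
      obtain ⟨g, r, hg, hr, hrs, e, hgu, hgn⟩ := gs_pow_str hp hpp hk h01
      obtain ⟨g', r', hg', hr', hrs', e', hgu', hgn'⟩ := ih u h02
      have hgg : IsCoprime g g' := (hcop.pow_left.of_isCoprime_of_dvd_left
        (show g ∣ p ^ k from e ▸ dvd_mul_right g r)).of_isCoprime_of_dvd_right
        (show g' ∣ b from e' ▸ dvd_mul_right g' r')
      have hrr : IsCoprime r r' := (hcop.pow_left.of_isCoprime_of_dvd_left
        (show r ∣ p ^ k from e ▸ dvd_mul_left r g)).of_isCoprime_of_dvd_right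
        (show r' ∣ b from e' ▸ dvd_mul_left r' g')
      refine ⟨g * g', r * r', hg.mul hg', hr.mul hr', ?_, ?_, hgg.mul_dvd hgu hgu', ?_⟩
      · exact squarefree_mul_iff.mpr ⟨hrr.isRelPrime, hrs, hrs'⟩
      · rw [e, e']; ring
      · rw [hmul, norm_mul, mul_pow, hn, nm_mul, nm_mul]
        push_cast
        calc ‖gs u (p ^ k)‖ ^ 2 * ‖gs u b‖ ^ 2
            ≤ ((nm (p ^ k) : ℝ) * nm g) * ((nm b : ℝ) * nm g') :=
              mul_le_mul hgn hgn' (by positivity) (by positivity)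
          _ = _ := by ring
  exact key c ⟨hc, isCoprime_one_right⟩ u h0

/-! ### the `b`-part -/

/-- all primes of `P` divide `b` -/
def SupB (P b : Eis) : Prop := ∀ p : Eis, Prime p → p ∣ P → p ∣ b

lemma SupB.one (b : Eis) : SupB 1 b := fun p hp h => absurd (isUnit_of_dvd_one h) hp.not_isUnit

lemma SupB.mul {P P' b : Eis} (h : SupB P b) (h' : SupB P' b) : SupB (P * P') b :=
  fun p hp hd => (hp.dvd_or_dvd hd).elim (h p hp) (h' p hp)

lemma SupB.pow {P b : Eis} (h : SupB P b) (n : ℕ) : SupB (P ^ n) b :=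
  fun p hp hd => h p hp (hp.dvd_of_dvd_pow hd)

lemma SupB.of_dvd {P P' b : Eis} (h : SupB P b) (hd : P' ∣ P) : SupB P' b :=
  fun p hp h' => h p hp (h'.trans hd)

lemma SupB.cop {P b y : Eis} (hP : IsPrim P) (h : SupB P b) (hy : IsCoprime y b) :
    IsCoprime P y := by
  rw [isCoprime_iff_pp hP]
  intro p hp h1 h2
  exact hp.prime.not_isUnit (hy.isUnit_of_dvd' h2 (h p hp.prime h1))

lemma exists_bp {b : Eis} (hb : IsPrim b) : ∀ (n : ℕ) {x : Eis}, nm x ≤ n → IsPrim x →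
    ∃ P y, IsPrim P ∧ IsPrim y ∧ x = P * y ∧ SupB P b ∧ IsCoprime y b := by
  intro n
  induction n with
  | zero =>
    intro x hx hp
    exact absurd (nm_eq_zero.mp (Nat.le_zero.mp hx)) hp.ne_zero
  | succ n ih =>
    intro x hx hp
    by_cases h : ∃ p, IsPP p ∧ p ∣ x ∧ p ∣ b
    · obtain ⟨p, hpp, ⟨c, rfl⟩, hpb⟩ := h
      have hc : IsPrim c := hp.of_mul_left hpp.isPrim
      have hcn : nm c ≤ n := by
        rw [nm_mul] at hx
        have h2 := hpp.one_lt_nm
        have h3 : 0 < nm c := nm_pos.mpr hc.ne_zero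
        nlinarith
      obtain ⟨P, y, hP, hy, rfl, hs, hco⟩ := ih hcn hc
      refine ⟨p * P, y, hpp.isPrim.mul hP, hy, by ring, ?_, hco⟩
      refine SupB.mul ?_ hs
      intro q hq hqp
      have : Associated q p := hq.associated_of_dvd hpp.prime hqp
      exact this.dvd.trans hpb
    · push Not at h
      exact ⟨1, x, isPrim_one, hp, by ring, SupB.one b, (isCoprime_iff_pp hp).mpr h⟩

lemma bp_unique {b P y P' y' : Eis} (hP : IsPrim P) (hP' : IsPrim P') (hs : SupB P b)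
    (hs' : SupB P' b) (hy : IsCoprime y b) (hy' : IsCoprime y' b) (h : P * y = P' * y') :
    P = P' ∧ y = y' := by
  have h1 : P ∣ P' := (SupB.cop hP hs hy').dvd_of_dvd_mul_right (h ▸ dvd_mul_right P y)
  have h2 : P' ∣ P := (SupB.cop hP' hs' hy).dvd_of_dvd_mul_right (h ▸ dvd_mul_right P' y')
  have h3 : P = P' := hP.eq_of_associated hP' (associated_of_dvd_dvd h1 h2)
  subst h3
  exact ⟨rfl, mul_left_cancel₀ hP.ne_zero h⟩

/-- the predicate of the `b`-part decomposition -/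
def BpP (b x : Eis) (z : Eis × Eis) : Prop :=
  IsPrim z.1 ∧ IsPrim z.2 ∧ x = z.1 * z.2 ∧ SupB z.1 b ∧ IsCoprime z.2 b

open Classical in
/-- `(b-part, cofactor)` -/
def bp2 (b x : Eis) : Eis × Eis := if h : ∃ z, BpP b x z then h.choose else (1, x)

/-- the `b`-part of `x` -/
def bpt (b x : Eis) : Eis := (bp2 b x).1

/-- the cofactor of the `b`-part -/
def bco (b x : Eis) : Eis := (bp2 b x).2

lemma bp2_spec {b x : Eis} (hb : IsPrim b) (hx : IsPrim x) : BpP b x (bp2 b x) := by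
  classical
  have h : ∃ z, BpP b x z := by
    obtain ⟨P, y, h⟩ := exists_bp hb _ le_rfl hx
    exact ⟨(P, y), h⟩
  unfold bp2
  rw [dif_pos h]
  exact h.choose_spec

lemma bpt_prim {b x : Eis} (hb : IsPrim b) (hx : IsPrim x) : IsPrim (bpt b x) :=
  (bp2_spec hb hx).1

lemma bco_prim {b x : Eis} (hb : IsPrim b) (hx : IsPrim x) : IsPrim (bco b x) :=
  (bp2_spec hb hx).2.1

lemma bpt_mul_bco {b x : Eis} (hb : IsPrim b) (hx : IsPrim x) : bpt b x * bco b x = x :=
  (bp2_spec hb hx).2.2.1.symm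

lemma bpt_sup {b x : Eis} (hb : IsPrim b) (hx : IsPrim x) : SupB (bpt b x) b :=
  (bp2_spec hb hx).2.2.2.1

lemma bco_cop {b x : Eis} (hb : IsPrim b) (hx : IsPrim x) : IsCoprime (bco b x) b :=
  (bp2_spec hb hx).2.2.2.2

lemma bpt_dvd {b x : Eis} (hb : IsPrim b) (hx : IsPrim x) : bpt b x ∣ x :=
  ⟨bco b x, (bpt_mul_bco hb hx).symm⟩

/-- characterisation -/
lemma bpt_eq {b P y : Eis} (hb : IsPrim b) (hP : IsPrim P) (hy : IsPrim y) (hs : SupB P b)
    (hc : IsCoprime y b) : bpt b (P * y) = P ∧ bco b (P * y) = y := by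
  have hx := hP.mul hy
  exact bp_unique (bpt_prim hb hx) hP (bpt_sup hb hx) hs (bco_cop hb hx) hc (bpt_mul_bco hb hx)

lemma bpt_mul {b x y : Eis} (hb : IsPrim b) (hx : IsPrim x) (hy : IsPrim y) :
    bpt b (x * y) = bpt b x * bpt b y ∧ bco b (x * y) = bco b x * bco b y := by
  have h := bpt_eq hb ((bpt_prim hb hx).mul (bpt_prim hb hy))
    ((bco_prim hb hx).mul (bco_prim hb hy)) ((bpt_sup hb hx).mul (bpt_sup hb hy))
    ((bco_cop hb hx).mul_left (bco_cop hb hy))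
  have e : bpt b x * bpt b y * (bco b x * bco b y) = x * y := by
    conv_rhs => rw [← bpt_mul_bco hb hx, ← bpt_mul_bco hb hy]
    ring
  rwa [e] at h

/-- the `b`-part is `P` iff `P ∣ x` with cofactor prime to `b` (`P` supported on `b`) -/
lemma bpt_eq_iff {b x P : Eis} (hb : IsPrim b) (hx : IsPrim x) (hP : IsPrim P) (hs : SupB P b) :
    bpt b x = P ↔ ∃ y, x = P * y ∧ IsCoprime y b := by
  constructor
  · rintro rfl
    exact ⟨_, (bpt_mul_bco hb hx).symm, bco_cop hb hx⟩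
  · rintro ⟨y, rfl, hy⟩
    exact (bpt_eq hb hP (hx.of_mul_left hP) hs hy).1

/-! ### exact separation -/

lemma sy_mulL {x y c : Eis} (hc : IsPrim c) : sy (x * y) c = sy x c * sy y c :=
  syAx.mul_left x y c hc

lemma gs_bp {b f P x Q y : Eis} (hb : IsPrim b) (hx : IsCoprime x b) (hy : IsCoprime y b) :
    gs (f * (P * x) * (Q * y)) b = conj (sy x b * sy y b) * gs (f * P * Q) b := by
  have e : f * (P * x) * (Q * y) = (f * P * Q) * (x * y) := by ring
  rw [e, gs_mul_left syAx _ hb (hx.mul_left hy), sy_mulL hb]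

variable {ι κ : Type*}

open Classical in
/-- the one-sided sums on the dual side -/
def XP (I : Finset ι) (a : ι → ℂ) (x : ι → Eis) (b P d : Eis) : ℂ :=
  ∑ i ∈ I.filter (fun i => bpt b (x i) = P), a i * (sy (bco b (x i)) b * sy (x i) d)

open Classical in
/-- **exact separation** of the dual side -/
theorem BS_eq (I : Finset ι) (J : Finset κ) (a : ι → ℂ) (x : ι → Eis) (c : κ → ℂ) (y : κ → Eis)
    (hx : ∀ i ∈ I, IsPrim (x i)) (hy : ∀ j ∈ J, IsPrim (y j)) (f : Eis) {b d : Eis}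
    (hb : IsPrim b) (hd : IsPrim d) (hs : Squarefree d) (hbd : IsCoprime b d) :
    ∑ i ∈ I, ∑ j ∈ J, a i * c j * conj (gs (f * x i * y j) (b * d)) =
      conj (gs 1 d) * sy (f * b) d *
        ∑ P ∈ I.image (fun i => bpt b (x i)), ∑ Q ∈ J.image (fun j => bpt b (y j)),
          conj (gs (f * P * Q) b) * (XP I a x b P d * XP J c y b Q d) := by
  have h1 : ∀ i ∈ I, ∀ j ∈ J, a i * c j * conj (gs (f * x i * y j) (b * d)) =
      conj (gs 1 d) * sy (f * b) d * (conj (gs (f * bpt b (x i) * bpt b (y j)) b) *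
        ((a i * (sy (bco b (x i)) b * sy (x i) d)) *
          (c j * (sy (bco b (y j)) b * sy (y j) d)))) := by
    intro i hi j hj
    have e1 : gs (f * x i * y j) b = conj (sy (bco b (x i)) b * sy (bco b (y j)) b) *
        gs (f * bpt b (x i) * bpt b (y j)) b := by
      conv_lhs => rw [← bpt_mul_bco hb (hx i hi), ← bpt_mul_bco hb (hy j hj)]
      exact gs_bp hb (bco_cop hb (hx i hi)) (bco_cop hb (hy j hj))
    have e2 : sy (f * x i * y j * b) d = sy (f * b) d * (sy (x i) d * sy (y j) d) := by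
      have : f * x i * y j * b = (f * b) * (x i * y j) := by ring
      rw [this, sy_mulL hd, sy_mulL (x := x i) hd]
    rw [gs_split hb hd hs hbd, e1, e2]
    simp only [map_mul, Complex.conj_conj]
    ring
  rw [Finset.sum_congr rfl fun i hi => Finset.sum_congr rfl fun j hj => h1 i hi j hj]
  simp_rw [← Finset.mul_sum]
  congr 1
  symm
  have h2 : ∀ P ∈ I.image (fun i => bpt b (x i)), ∀ Q ∈ J.image (fun j => bpt b (y j)),
      conj (gs (f * P * Q) b) * (XP I a x b P d * XP J c y b Q d) =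
      ∑ i ∈ I.filter (fun i => bpt b (x i) = P), ∑ j ∈ J.filter (fun j => bpt b (y j) = Q),
        conj (gs (f * bpt b (x i) * bpt b (y j)) b) *
        ((a i * (sy (bco b (x i)) b * sy (x i) d)) *
          (c j * (sy (bco b (y j)) b * sy (y j) d))) := by
    intro P _ Q _
    unfold XP
    rw [Finset.sum_mul_sum, Finset.mul_sum]
    refine Finset.sum_congr rfl fun i hi => ?_
    rw [Finset.mul_sum]
    refine Finset.sum_congr rfl fun j hj => ?_
    rw [(Finset.mem_filter.mp hi).2, (Finset.mem_filter.mp hj).2]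
  rw [Finset.sum_congr rfl fun P hP => Finset.sum_congr rfl fun Q hQ => h2 P hP Q hQ]
  have h3 : ∀ P ∈ I.image (fun i => bpt b (x i)),
      (∑ Q ∈ J.image (fun j => bpt b (y j)), ∑ i ∈ I.filter (fun i => bpt b (x i) = P),
        ∑ j ∈ J.filter (fun j => bpt b (y j) = Q),
        conj (gs (f * bpt b (x i) * bpt b (y j)) b) *
        ((a i * (sy (bco b (x i)) b * sy (x i) d)) *
          (c j * (sy (bco b (y j)) b * sy (y j) d)))) =
      ∑ i ∈ I.filter (fun i => bpt b (x i) = P), ∑ j ∈ J,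
        conj (gs (f * bpt b (x i) * bpt b (y j)) b) *
        ((a i * (sy (bco b (x i)) b * sy (x i) d)) *
          (c j * (sy (bco b (y j)) b * sy (y j) d))) := by
    intro P _
    rw [Finset.sum_comm]
    refine Finset.sum_congr rfl fun i _ => ?_
    exact Finset.sum_fiberwise_of_maps_to (fun j hj => Finset.mem_image_of_mem _ hj) _
  rw [Finset.sum_congr rfl h3]
  exact Finset.sum_fiberwise_of_maps_to (fun i hi => Finset.mem_image_of_mem _ hi) _

/-! ### norms and Cauchy -/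

lemma norm_sy_le' (x : Eis) {c : Eis} (hc : IsPrim c) : ‖sy x c‖ ≤ 1 :=
  Sx545.Res.norm_le_one Sx545.res_sy x ⟨hc, isCoprime_one_right⟩

lemma norm_gs_one_le {d : Eis} (hd : IsPrim d) : ‖gs 1 d‖ ≤ Real.sqrt (nm d) := by
  rw [Gauss880.gs_one_eq hd, norm_mul, Complex.norm_real, Real.norm_eq_abs,
    abs_of_nonneg (Real.sqrt_nonneg _)]
  exact mul_le_of_le_one_right (Real.sqrt_nonneg _) (Gauss880.norm_G_le Gauss880.syG hd)

open Classical in
/-- pointwise bound on the dual side -/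
theorem BS_le (I : Finset ι) (J : Finset κ) (a : ι → ℂ) (x : ι → Eis) (c : κ → ℂ) (y : κ → Eis)
    (hx : ∀ i ∈ I, IsPrim (x i)) (hy : ∀ j ∈ J, IsPrim (y j)) (f : Eis) {b d : Eis}
    (hb : IsPrim b) (hd : IsPrim d) (hs : Squarefree d) (hbd : IsCoprime b d) :
    ‖∑ i ∈ I, ∑ j ∈ J, a i * c j * conj (gs (f * x i * y j) (b * d))‖ ≤
      Real.sqrt (nm d) *
        ∑ P ∈ I.image (fun i => bpt b (x i)), ∑ Q ∈ J.image (fun j => bpt b (y j)),
          ‖gs (f * P * Q) b‖ * (‖XP I a x b P d‖ * ‖XP J c y b Q d‖) := by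
  rw [BS_eq I J a x c y hx hy f hb hd hs hbd, norm_mul, norm_mul, RCLike.norm_conj]
  refine mul_le_mul ?_ ?_ (norm_nonneg _) (Real.sqrt_nonneg _)
  · calc ‖gs 1 d‖ * ‖sy (f * b) d‖ ≤ Real.sqrt (nm d) * 1 :=
        mul_le_mul (norm_gs_one_le hd) (norm_sy_le' _ hd) (norm_nonneg _) (Real.sqrt_nonneg _)
      _ = Real.sqrt (nm d) := mul_one _
  · refine (norm_sum_le _ _).trans (Finset.sum_le_sum fun P _ => ?_)
    refine (norm_sum_le _ _).trans (Finset.sum_le_sum fun Q _ => ?_)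
    rw [norm_mul, norm_mul, RCLike.norm_conj]

open Classical in
/-- squarefree cofactors of `b` -/
def D0 (M : Eis) (Z : ℕ) (b : Eis) : Finset Eis :=
  (primBall Z).filter (fun d => Squarefree d ∧ IsCoprime b d ∧ nm (b * d) ≤ Z ∧ IsCoprime d M)

open Classical in
lemma mem_D0 {M b d : Eis} {Z : ℕ} : d ∈ D0 M Z b ↔ IsPrim d ∧ Squarefree d ∧ IsCoprime b d ∧
    nm (b * d) ≤ Z ∧ IsCoprime d M ∧ nm d ≤ Z := by
  unfold D0
  rw [Finset.mem_filter, mem_primBall]
  tauto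

open Classical in
/-- powerful moduli -/
def B0 (M : Eis) (Z : ℕ) : Finset Eis := (primBall Z).filter (fun b => Pf b ∧ IsCoprime b M)

open Classical in
lemma sum_dual {A : Type*} [AddCommMonoid A] (M : Eis) (Z : ℕ) (F : Eis → A) :
    ∑ d ∈ (primBall Z).filter (Sm M), F d = ∑ b ∈ B0 M Z, ∑ d ∈ D0 M Z b, F (b * d) := by
  rw [Finset.sum_sigma']
  symm
  refine Finset.sum_bij (fun z _ => z.1 * z.2) ?_ ?_ ?_ ?_
  · rintro ⟨u, v⟩ h
    simp only [Finset.mem_sigma, B0, Finset.mem_filter, mem_primBall, mem_D0] at h ⊢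
    obtain ⟨⟨⟨h1, h2⟩, h3, h4⟩, h5, h6, h7, h8, h9, h10⟩ := h
    exact ⟨⟨h8, h2.mul h5⟩, h2.mul h5, h4.mul_left h9⟩
  · rintro ⟨u, v⟩ h ⟨u', v'⟩ h' e
    simp only [Finset.mem_sigma, B0, Finset.mem_filter, mem_primBall, mem_D0] at h h'
    obtain ⟨⟨⟨h1, h2⟩, h3, h4⟩, h5, h6, h7, h8, h9, h10⟩ := h
    obtain ⟨⟨⟨k1, k2⟩, k3, k4⟩, k5, k6, k7, k8, k9, k10⟩ := h'
    obtain ⟨e1, e2⟩ := pfsf_unique h2 k2 h3 k3 h6 k6 h7 k7 e
    subst e1; subst e2; rfl
  · intro d hd
    rw [Finset.mem_filter, mem_primBall] at hd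
    obtain ⟨⟨hdZ, -⟩, hS⟩ := hd
    obtain ⟨u, v, hu, hv, rfl, hk, hsf, hc⟩ := exists_pfsf _ le_rfl hS.prim
    have h1 : nm u ≤ Z := (Div277.nm_le_of_dvd (hu.mul hv).ne_zero (dvd_mul_right _ _)).trans hdZ
    have h2 : nm v ≤ Z := (Div277.nm_le_of_dvd (hu.mul hv).ne_zero (dvd_mul_left _ _)).trans hdZ
    refine ⟨⟨u, v⟩, ?_, rfl⟩
    simp only [Finset.mem_sigma, B0, Finset.mem_filter, mem_primBall, mem_D0]
    exact ⟨⟨⟨h1, hu⟩, hk, hS.cop.of_mul_left_left⟩, hv, hsf, hc, hdZ, hS.cop.of_mul_left_right, h2⟩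
  · intros; rfl

lemma cauchy_w {α : Type*} (s : Finset α) {o u v : α → ℝ} (ho : ∀ d ∈ s, 0 ≤ o d) :
    ∑ d ∈ s, o d * (u d * v d) ≤
      Real.sqrt (∑ d ∈ s, o d * u d ^ 2) * Real.sqrt (∑ d ∈ s, o d * v d ^ 2) := by
  have h := Real.sum_mul_le_sqrt_mul_sqrt s (fun d => Real.sqrt (o d) * u d)
    (fun d => Real.sqrt (o d) * v d)
  have e1 : ∑ d ∈ s, Real.sqrt (o d) * u d * (Real.sqrt (o d) * v d) =
      ∑ d ∈ s, o d * (u d * v d) := Finset.sum_congr rfl fun d hd => by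
    have := Real.mul_self_sqrt (ho d hd)
    linear_combination (u d * v d) * this
  have e2 : ∀ w : α → ℝ, ∑ d ∈ s, (Real.sqrt (o d) * w d) ^ 2 = ∑ d ∈ s, o d * w d ^ 2 :=
    fun w => Finset.sum_congr rfl fun d hd => by rw [mul_pow, Real.sq_sqrt (ho d hd)]
  rw [e1, e2, e2] at h
  exact h

open Classical in
/-- **Cauchy on the dual side.** -/
theorem dual_le (M : Eis) (Z : ℕ) (om : Eis → ℂ) (I : Finset ι) (J : Finset κ) (a : ι → ℂ)
    (x : ι → Eis) (c : κ → ℂ) (y : κ → Eis) (hx : ∀ i ∈ I, IsPrim (x i))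
    (hy : ∀ j ∈ J, IsPrim (y j)) (f : Eis) :
    ‖∑ d ∈ (primBall Z).filter (Sm M),
        om d * ∑ i ∈ I, ∑ j ∈ J, a i * c j * conj (gs (f * x i * y j) d)‖ ≤
      ∑ b ∈ B0 M Z, ∑ P ∈ I.image (fun i => bpt b (x i)), ∑ Q ∈ J.image (fun j => bpt b (y j)),
        ‖gs (f * P * Q) b‖ *
          (Real.sqrt (∑ d ∈ D0 M Z b,
            (‖om (b * d)‖ * Real.sqrt (nm d)) * ‖XP I a x b P d‖ ^ 2) *
           Real.sqrt (∑ d ∈ D0 M Z b,
            (‖om (b * d)‖ * Real.sqrt (nm d)) * ‖XP J c y b Q d‖ ^ 2)) := by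
  rw [sum_dual M Z]
  refine (norm_sum_le _ _).trans (Finset.sum_le_sum fun b hb => ?_)
  have hbp : IsPrim b := by
    unfold B0 at hb
    rw [Finset.mem_filter, mem_primBall] at hb
    exact hb.1.2
  calc ‖∑ d ∈ D0 M Z b, om (b * d) * ∑ i ∈ I, ∑ j ∈ J,
        a i * c j * conj (gs (f * x i * y j) (b * d))‖
      ≤ ∑ d ∈ D0 M Z b, ‖om (b * d)‖ * (Real.sqrt (nm d) *
        ∑ P ∈ I.image (fun i => bpt b (x i)), ∑ Q ∈ J.image (fun j => bpt b (y j)),
          ‖gs (f * P * Q) b‖ * (‖XP I a x b P d‖ * ‖XP J c y b Q d‖)) := by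
        refine (norm_sum_le _ _).trans (Finset.sum_le_sum fun d hd => ?_)
        rw [mem_D0] at hd
        rw [norm_mul]
        exact mul_le_mul_of_nonneg_left (BS_le I J a x c y hx hy f hbp hd.1 hd.2.1 hd.2.2.1)
          (norm_nonneg _)
    _ = ∑ P ∈ I.image (fun i => bpt b (x i)), ∑ Q ∈ J.image (fun j => bpt b (y j)),
        ‖gs (f * P * Q) b‖ * ∑ d ∈ D0 M Z b, (‖om (b * d)‖ * Real.sqrt (nm d)) *
          (‖XP I a x b P d‖ * ‖XP J c y b Q d‖) := by
        simp_rw [Finset.mul_sum]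
        rw [Finset.sum_comm]
        refine Finset.sum_congr rfl fun P _ => ?_
        rw [Finset.sum_comm]
        refine Finset.sum_congr rfl fun Q _ => ?_
        refine Finset.sum_congr rfl fun d _ => ?_
        ring
    _ ≤ _ := by
        refine Finset.sum_le_sum fun P _ => Finset.sum_le_sum fun Q _ => ?_
        exact mul_le_mul_of_nonneg_left (cauchy_w _ fun d _ => by positivity) (norm_nonneg _)

end Crest.Agent.R017.E4579
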