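import Crest.Agent.R017.E4defs_352
import Crest.Agent.R017.E4d_579

/-!
# Row 17, C70/E4 : law-free sums (helper92)

* `s1` : `Σ_{D ≤ N} 1/N(D) ≤ C X^ε` for `N ≤ X⁴`
* `s2` : `Σ_{B ≤ N} 1/N(bco f B) ≤ C X^ε` for `N ≤ X⁴`, from `LCnt`
-/

set_option autoImplicit false

noncomputable section

open Finset

namespace Crest.Agent.R017.E4cnt92

open Crest.Agent.R012 Crest.Agent.R012.Eis Crest.Agent.R012.Mob705
open Crest.Agent.R017.E4352 Crest.Agent.R017.E4579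

theorem s1 (ε : ℝ) (hε : 0 < ε) : ∃ C : ℝ, 0 ≤ C ∧ ∀ X : ℝ, 1 ≤ X → ∀ N : ℕ, (N : ℝ) ≤ X ^ 4 →
    ∑ D ∈ primBall N, ((nm D : ℝ))⁻¹ ≤ C * X ^ ε := by
  refine ⟨100 * (1 + 4 / ε), by positivity, fun X hX N hN => ?_⟩
  have h := Div277.sum_inv_primBall_le N
  simp only [one_div] at h
  refine h.trans ?_
  have hX0 : (0 : ℝ) < X := by linarith
  have h1 : Real.log N ≤ 4 / ε * X ^ ε := by
    have h2 : Real.log N ≤ 4 * Real.log X := by
      rcases Nat.eq_zero_or_pos N with rfl | h0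
      · simp [Real.log_nonneg hX]
      · have := Real.log_le_log (by exact_mod_cast h0) hN
        rwa [Real.log_pow, Nat.cast_ofNat] at this
    have h3 : Real.log X ≤ X ^ ε / ε := Real.log_le_rpow_div hX0.le hε
    calc Real.log N ≤ 4 * (X ^ ε / ε) := h2.trans (by linarith)
      _ = _ := by ring
  have h4 : (1 : ℝ) ≤ X ^ ε := Real.one_le_rpow hX hε.le
  nlinarith

theorem s2 (hC : LCnt) (ε : ℝ) (hε : 0 < ε) : ∃ C : ℝ, 0 ≤ C ∧ ∀ (X : ℝ) (f : Eis), 1 ≤ X →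
    IsPrim f → (nm f : ℝ) ≤ X → ∀ N : ℕ, (N : ℝ) ≤ X ^ 4 →
    ∑ B ∈ primBall N, ((nm (bco f B) : ℝ))⁻¹ ≤ C * X ^ ε := by
  classical
  obtain ⟨C₁, h10, h1⟩ := s1 (ε / 2) (by linarith)
  obtain ⟨C₂, h20, h2⟩ := hC (ε / 8) (by linarith)
  refine ⟨C₂ * C₁, by positivity, fun X f hX hf hfX N hN => ?_⟩
  have hX0 : (0 : ℝ) < X := by linarith
  have hX4 : X ≤ X ^ 4 := le_self_pow₀ hX (by norm_num)
  have hcard := h2 f (X ^ 4) (one_le_pow₀ hX) hf.ne_zero (hfX.trans hX4)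
  have hNf : N ≤ ⌊X ^ 4⌋₊ := Nat.le_floor hN
  -- the sum over pairs
  have hmap : ∀ B ∈ primBall N, (bpt f B, bco f B) ∈
      ((primBall ⌊X ^ 4⌋₊).filter fun R => PrI f R) ×ˢ primBall N := by
    intro B hB
    obtain ⟨hBn, hBp⟩ := mem_primBall.mp hB
    have e := bpt_mul_bco hf hBp
    have hp := bpt_prim hf hBp
    have hc := bco_prim hf hBp
    have n1 : nm (bpt f B) ≤ nm B := by
      conv_rhs => rw [← e, nm_mul]
      exact Nat.le_mul_of_pos_right _ (nm_pos.mpr hc.ne_zero)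
    have n2 : nm (bco f B) ≤ nm B := by
      conv_rhs => rw [← e, nm_mul]
      exact Nat.le_mul_of_pos_left _ (nm_pos.mpr hp.ne_zero)
    rw [mem_product]
    refine ⟨mem_filter.mpr ⟨mem_primBall.mpr ⟨?_, hp⟩, hp, bpt_sup hf hBp⟩,
      mem_primBall.mpr ⟨n2.trans hBn, hc⟩⟩
    exact (n1.trans hBn).trans hNf
  have hinj : Set.InjOn (fun B => (bpt f B, bco f B)) (primBall N : Set Eis) := by
    intro B hB B' hB' h
    have hBp := (mem_primBall.mp hB).2
    have hBp' := (mem_primBall.mp hB').2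
    simp only [Prod.mk.injEq] at h
    rw [← bpt_mul_bco hf hBp, ← bpt_mul_bco hf hBp', h.1, h.2]
  calc ∑ B ∈ primBall N, ((nm (bco f B) : ℝ))⁻¹
      = ∑ x ∈ (primBall N).image (fun B => (bpt f B, bco f B)), ((nm x.2 : ℝ))⁻¹ := by
        rw [sum_image hinj]
    _ ≤ ∑ x ∈ ((primBall ⌊X ^ 4⌋₊).filter fun R => PrI f R) ×ˢ primBall N,
          ((nm x.2 : ℝ))⁻¹ := by
        refine sum_le_sum_of_subset_of_nonneg ?_ fun _ _ _ => by positivity
        intro x hx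
        obtain ⟨B, hB, rfl⟩ := mem_image.mp hx
        exact hmap B hB
    _ = (((primBall ⌊X ^ 4⌋₊).filter fun R => PrI f R).card : ℝ) *
          ∑ D ∈ primBall N, ((nm D : ℝ))⁻¹ := by
        rw [sum_product]
        simp only [sum_const, nsmul_eq_mul]
    _ ≤ (C₂ * (X ^ 4) ^ (ε / 8)) * (C₁ * X ^ (ε / 2)) := by
        refine mul_le_mul hcard (h1 X hX N hN) (sum_nonneg fun _ _ => by positivity) (by positivity)
    _ = C₂ * C₁ * X ^ ε := by
        rw [← Real.rpow_natCast X 4, ← Real.rpow_mul hX0.le]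
        have e : X ^ ε = X ^ (((4 : ℕ) : ℝ) * (ε / 8)) * X ^ (ε / 2) := by
          rw [← Real.rpow_add hX0]
          congr 1
          push_cast
          ring
        rw [e]
        ring

end Crest.Agent.R017.E4cnt92
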