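import Crest.Agent.R017.E4v6_47
import Crest.Agent.R017.E4cnt_92
import Crest.Agent.R017.E4C_401

/-!
# Row 17, C70/E4: the final summation over `D0`, `D1 ~ a`, `B`, `R`, `Z` (helper176)

`E4sum176.sumAll : E4v5.SumAll`
-/

set_option autoImplicit false

noncomputable section

open Complex Finset
open scoped ComplexConjugate

namespace Crest.Agent.R017.E4sum176

open Crest.Agent.R012 Crest.Agent.R012.Eis Crest.Agent.R012.Mob705 Crest.Agent.R012.Gauss880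
open Crest.Agent.R012.Div277
open Crest.Agent.R017.Sx545 Crest.Agent.R017.CM106 Crest.Agent.R017.C70 Crest.Agent.R017.C590
open Crest.Agent.R017.B770 Crest.Agent.R017.E2440
open Crest.Agent.R017.E4352 Crest.Agent.R017.NT47 Crest.Agent.R017.E4o502 Crest.Agent.R017.E4v5
open Crest.Agent.R017.E4579 (bpt bco bco_prim)

/-- the number of dyadic classes -/
lemma log_cnt (ε : ℝ) (hε : 0 < ε) : ∃ C : ℝ, 0 ≤ C ∧ ∀ (X : ℝ) (N : ℕ), 1 ≤ X → (N : ℝ) ≤ X →
    ((Nat.log 2 N + 1 : ℕ) : ℝ) ≤ C * X ^ ε := by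
  refine ⟨2 / ε + 1, by positivity, fun X N hX hN => ?_⟩
  have hX0 : (0 : ℝ) < X := by linarith
  have h1 : (1 : ℝ) ≤ X ^ ε := Real.one_le_rpow hX hε.le
  have h2 : Real.log X ≤ X ^ ε / ε := Real.log_le_rpow_div hX0.le hε
  have h3 : (Nat.log 2 N : ℝ) * Real.log 2 ≤ Real.log X := by
    rcases Nat.eq_zero_or_pos N with rfl | h0
    · simp [Real.log_nonneg hX]
    · have h4 : ((2 : ℝ)) ^ (Nat.log 2 N) ≤ X := by
        refine le_trans ?_ hN
        exact_mod_cast Nat.pow_log_le_self 2 h0.ne'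
      have h5 := Real.log_le_log (by positivity) h4
      rwa [Real.log_pow] at h5
  have h6 : (1 / 2 : ℝ) ≤ Real.log 2 := by
    have := Real.log_two_gt_d9
    linarith
  have h7 : (Nat.log 2 N : ℝ) * (1 / 2) ≤ X ^ ε / ε :=
    (mul_le_mul_of_nonneg_left h6 (Nat.cast_nonneg _)).trans (h3.trans h2)
  push_cast
  have e : (2 / ε + 1) * X ^ ε = 2 * (X ^ ε / ε) + X ^ ε := by ring
  rw [e]
  linarith

/-- the weighted count of the data -/
lemma cnt (ε : ℝ) (hε : 0 < ε) : ∃ C : ℝ, 0 ≤ C ∧ ∀ (X Y : ℝ) (f : Eis) (N : ℕ), 1 ≤ X → 0 ≤ Y →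
    IsPrim f → (nm f : ℝ) ≤ X → (N : ℝ) ≤ X →
    (open Classical in ∑ _D0 ∈ (primBall N).filter (fun D0 => D0 ∣ f),
      ∑ B ∈ primBall (N ^ 2), ∑ _R ∈ (primBall N).filter (fun R => PrI B R),
        ∑ _Z ∈ (primBall N).filter (fun Z => PrI B Z), ∑ _j ∈ range (Nat.log 2 N + 1),
          Y / nm (bco f B)) ≤ C * X ^ ε * Y := by
  classical
  obtain ⟨C1, h10, h1⟩ := log_cnt (ε / 5) (by linarith)
  obtain ⟨C2, h20, h2⟩ := E4401.lCnt (ε / 10) (by linarith)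
  obtain ⟨C3, h30, h3⟩ := E4cnt92.s2 E4401.lCnt (ε / 5) (by linarith)
  obtain ⟨C4, h40, h4⟩ := tau_le_rpow (ε := ε / 5) (by linarith)
  refine ⟨C1 * C2 * C2 * C3 * C4, by positivity, fun X Y f N hX hY hf hfX hN => ?_⟩
  have hX0 : (0 : ℝ) < X := by linarith
  have hX2 : (1 : ℝ) ≤ X ^ 2 := one_le_pow₀ hX
  have hXX : X ≤ X ^ 2 := by nlinarith
  have hN2 : ((N ^ 2 : ℕ) : ℝ) ≤ X ^ 2 := by push_cast; gcongr
  have hN4 : ((N ^ 2 : ℕ) : ℝ) ≤ X ^ 4 := hN2.trans (pow_le_pow_right₀ hX (by norm_num))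
  have e2 : (X ^ 2) ^ (ε / 10) = X ^ (ε / 5) := by
    rw [← Real.rpow_natCast X 2, ← Real.rpow_mul hX0.le]
    congr 1; push_cast; ring
  -- cardinalities
  have hcard : ∀ B ∈ primBall (N ^ 2),
      (((primBall N).filter fun R => PrI B R).card : ℝ) ≤ C2 * X ^ (ε / 5) := by
    intro B hB
    rw [mem_primBall] at hB
    have hBX : (nm B : ℝ) ≤ X ^ 2 := le_trans (by exact_mod_cast hB.1) hN2
    have := h2 B (X ^ 2) hX2 hB.2.ne_zero hBX
    rw [e2] at this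
    refine le_trans ?_ this
    norm_cast
    refine card_le_card fun R hR => ?_
    rw [mem_filter, mem_primBall] at hR ⊢
    refine ⟨⟨?_, hR.1.2⟩, hR.2⟩
    apply Nat.le_floor
    exact (le_trans (by exact_mod_cast hR.1.1) hN).trans hXX
  have hdiv : (((primBall N).filter fun D0 => D0 ∣ f).card : ℝ) ≤ C4 * X ^ (ε / 5) := by
    have e : (tau f : ℝ) ≤ C4 * X ^ (ε / 5) := by
      refine (h4 f hf.ne_zero).trans ?_
      gcongr
    refine le_trans ?_ e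
    norm_cast
    unfold tau
    refine card_le_card fun D hD => ?_
    rw [mem_filter, mem_primBall] at hD
    exact (mem_dvs hf.ne_zero).mpr ⟨hD.1.2, hD.2⟩
  have hlog := h1 X N hX hN
  have hA : (0 : ℝ) ≤ X ^ (ε / 5) := by positivity
  have key : ∀ B ∈ primBall (N ^ 2), (∑ _R ∈ (primBall N).filter (fun R => PrI B R),
        ∑ _Z ∈ (primBall N).filter (fun Z => PrI B Z), ∑ _j ∈ range (Nat.log 2 N + 1),
          Y / (nm (bco f B) : ℝ)) ≤
      (C2 * X ^ (ε / 5)) * ((C2 * X ^ (ε / 5)) * ((C1 * X ^ (ε / 5)) *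
        (Y * (nm (bco f B) : ℝ)⁻¹))) := by
    intro B hB
    simp only [sum_const, nsmul_eq_mul, card_range]
    rw [div_eq_mul_inv Y (nm (bco f B) : ℝ)]
    have hpos : (0 : ℝ) ≤ Y * (nm (bco f B) : ℝ)⁻¹ := by positivity
    have h5 := hcard B hB
    gcongr
  rw [sum_const, nsmul_eq_mul]
  have hsum := sum_le_sum key
  have h3' := h3 X f hX hf hfX (N ^ 2) hN4
  have hfin : (∑ B ∈ primBall (N ^ 2), (C2 * X ^ (ε / 5)) * ((C2 * X ^ (ε / 5)) *
      ((C1 * X ^ (ε / 5)) * (Y * (nm (bco f B) : ℝ)⁻¹)))) ≤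
      (C2 * X ^ (ε / 5)) * ((C2 * X ^ (ε / 5)) * ((C1 * X ^ (ε / 5)) *
        (Y * (C3 * X ^ (ε / 5))))) := by
    rw [← mul_sum, ← mul_sum, ← mul_sum, ← mul_sum]
    gcongr
  calc _ ≤ (C4 * X ^ (ε / 5)) * ((C2 * X ^ (ε / 5)) * ((C2 * X ^ (ε / 5)) *
        ((C1 * X ^ (ε / 5)) * (Y * (C3 * X ^ (ε / 5)))))) := by
        refine mul_le_mul hdiv (hsum.trans hfin) ?_ (by positivity)
        exact sum_nonneg fun _ _ => sum_nonneg fun _ _ => sum_nonneg fun _ _ =>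
          sum_nonneg fun _ _ => by positivity
    _ = C1 * C2 * C2 * C3 * C4 * (X ^ (ε / 5)) ^ 5 * Y := by ring
    _ = C1 * C2 * C2 * C3 * C4 * X ^ ε * Y := by
        rw [← Real.rpow_natCast (X ^ (ε / 5)) 5, ← Real.rpow_mul hX0.le]
        congr 3; push_cast; ring

open Classical in
/-- abstract form of the final summation -/
theorem sum5 (ε : ℝ) (hε : 0 < ε) : ∃ C : ℝ, 0 ≤ C ∧ ∀ (M f : Eis) (X Y : ℝ) (N : ℕ)
    (c : Eis → Eis → ℂ) (e : Eis → Eis → Eis → Eis → Eis → ℂ), 1 ≤ X → 0 ≤ Y →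
    IsPrim f → (nm f : ℝ) ≤ X → (N : ℝ) ≤ X →
    (∀ (D0 B R Z : Eis) (j : ℕ), IsPrim D0 → D0 ∣ f → Squarefree D0 → nm B ≤ N ^ 2 →
      nm R ≤ N → nm Z ≤ N → (2 : ℝ) ^ j ≤ X → GB' M (f / D0) D0 B R Z →
      ‖∑ D1 ∈ DJ M f D0 B N j, c D0 D1 * e D0 D1 B R Z‖ ≤ Y / nm (bco f B)) →
    ‖∑ D0 ∈ primBall N, ∑ D1 ∈ primBall N,
        if GoodD M f D0 D1 then c D0 D1 *
          ∑ B ∈ primBall (N ^ 2), ∑ R ∈ (primBall N).filter (fun R => PrI B R),
            ∑ Z ∈ (primBall N).filter (fun Z => PrI B Z),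
              if GB M (f / D0) (D0 * D1) B R Z then e D0 D1 B R Z else 0
        else 0‖ ≤ C * X ^ ε * Y := by
  obtain ⟨C, hC0, hC⟩ := cnt ε hε
  refine ⟨C, hC0, fun M f X Y N c e hX hY hf hfX hN h => ?_⟩
  refine le_trans ?_ (hC X Y f N hX hY hf hfX hN)
  -- move the sum over `D1` inside
  have e1 : ∀ D0 ∈ primBall N, (∑ D1 ∈ primBall N,
        if GoodD M f D0 D1 then c D0 D1 *
          ∑ B ∈ primBall (N ^ 2), ∑ R ∈ (primBall N).filter (fun R => PrI B R),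
            ∑ Z ∈ (primBall N).filter (fun Z => PrI B Z),
              if GB M (f / D0) (D0 * D1) B R Z then e D0 D1 B R Z else 0
        else 0) = ∑ B ∈ primBall (N ^ 2), ∑ R ∈ (primBall N).filter (fun R => PrI B R),
            ∑ Z ∈ (primBall N).filter (fun Z => PrI B Z), ∑ D1 ∈ primBall N,
              if GoodD M f D0 D1 ∧ GB M (f / D0) (D0 * D1) B R Z then c D0 D1 * e D0 D1 B R Z
              else 0 := by
    intro D0 _
    have e2 : ∀ D1 ∈ primBall N, (if GoodD M f D0 D1 then c D0 D1 *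
          ∑ B ∈ primBall (N ^ 2), ∑ R ∈ (primBall N).filter (fun R => PrI B R),
            ∑ Z ∈ (primBall N).filter (fun Z => PrI B Z),
              if GB M (f / D0) (D0 * D1) B R Z then e D0 D1 B R Z else 0
        else 0) = ∑ B ∈ primBall (N ^ 2), ∑ R ∈ (primBall N).filter (fun R => PrI B R),
            ∑ Z ∈ (primBall N).filter (fun Z => PrI B Z),
              if GoodD M f D0 D1 ∧ GB M (f / D0) (D0 * D1) B R Z then c D0 D1 * e D0 D1 B R Z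
              else 0 := by
      intro D1 _
      by_cases hG : GoodD M f D0 D1
      · simp only [hG, if_true, true_and, mul_sum, mul_ite, mul_zero]
      · simp only [hG, if_false, false_and, sum_const_zero]
    rw [sum_congr rfl e2, sum_comm]
    refine sum_congr rfl fun B _ => ?_
    rw [sum_comm]
    refine sum_congr rfl fun R _ => ?_
    rw [sum_comm]
  rw [sum_congr rfl e1]
  -- `D0 ∣ f`
  rw [← sum_filter_add_sum_filter_not (primBall N) (fun D0 => D0 ∣ f)]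
  have e3 : (∑ D0 ∈ (primBall N).filter (fun D0 => ¬ D0 ∣ f), ∑ B ∈ primBall (N ^ 2),
      ∑ R ∈ (primBall N).filter (fun R => PrI B R),
            ∑ Z ∈ (primBall N).filter (fun Z => PrI B Z), ∑ D1 ∈ primBall N,
              if GoodD M f D0 D1 ∧ GB M (f / D0) (D0 * D1) B R Z then c D0 D1 * e D0 D1 B R Z
              else 0) = 0 := by
    refine sum_eq_zero fun D0 hD0 => sum_eq_zero fun B _ => sum_eq_zero fun R _ =>
      sum_eq_zero fun Z _ => sum_eq_zero fun D1 _ => ?_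
    rw [if_neg]
    rintro ⟨⟨h1, -⟩, -⟩
    exact (mem_filter.mp hD0).2 h1
  rw [e3, add_zero]
  refine (norm_sum_le _ _).trans (sum_le_sum fun D0 hD0 => ?_)
  refine (norm_sum_le _ _).trans (sum_le_sum fun B hB => ?_)
  refine (norm_sum_le _ _).trans (sum_le_sum fun R hR => ?_)
  refine (norm_sum_le _ _).trans (sum_le_sum fun Z hZ => ?_)
  -- dyadic classes of `D1`
  have hmap : ∀ D1 ∈ primBall N, Nat.log 2 (nm D1) ∈ range (Nat.log 2 N + 1) := by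
    intro D1 hD1
    rw [mem_range, Nat.lt_succ_iff]
    exact Nat.log_mono_right (mem_primBall.mp hD1).1
  rw [← sum_fiberwise_of_maps_to hmap]
  refine (norm_sum_le _ _).trans (sum_le_sum fun j _ => ?_)
  rw [← sum_filter, filter_filter]
  rw [mem_filter, mem_primBall] at hD0 hR hZ
  rw [mem_primBall] at hB
  set 𝒟 := (primBall N).filter (fun D1 => Nat.log 2 (nm D1) = j ∧
    (GoodD M f D0 D1 ∧ GB M (f / D0) (D0 * D1) B R Z)) with h𝒟
  rcases 𝒟.eq_empty_or_nonempty with h0 | ⟨D', hD'⟩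
  · rw [h0]
    simp only [sum_empty, norm_zero]
    positivity
  have hmem : ∀ D ∈ 𝒟, IsPrim D ∧ nm D ≤ N ∧ Nat.log 2 (nm D) = j ∧ GoodD M f D0 D ∧
      GB M (f / D0) (D0 * D) B R Z := by
    intro D hD
    rw [h𝒟, mem_filter, mem_primBall] at hD
    exact ⟨hD.1.2, hD.1.1, hD.2.1, hD.2.2.1, hD.2.2.2⟩
  obtain ⟨hp', hN', hl', ⟨g1, g2, g3, g4, g5⟩, ⟨b1, b2, b3, b4, b5⟩⟩ := hmem D' hD'
  have hGB' : GB' M (f / D0) D0 B R Z :=
    ⟨b1, b2, b3.of_mul_right_left, hR.2, hZ.2, b4, b5⟩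
  have hlog : ∀ D : Eis, IsPrim D → (Nat.log 2 (nm D) = j ↔
      ((2 : ℝ) ^ j ≤ nm D ∧ (nm D : ℝ) < 2 ^ (j + 1))) := by
    intro D hp
    have h0 : nm D ≠ 0 := (nm_pos.mpr hp.ne_zero).ne'
    rw [Nat.log_eq_iff (Or.inr ⟨by norm_num, h0⟩)]
    norm_cast
  have hset : 𝒟 = DJ M f D0 B N j := by
    ext D
    rw [h𝒟, DJ, mem_filter, mem_filter]
    constructor
    · rintro ⟨hD, h1, h2, h3⟩
      exact ⟨hD, ⟨h2, h3.2.2.1⟩, (hlog D (mem_primBall.mp hD).2).mp h1⟩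
    · rintro ⟨hD, ⟨h2, h3⟩, h1⟩
      exact ⟨hD, (hlog D (mem_primBall.mp hD).2).mpr h1, h2, b1, b2, h3, b4, b5⟩
  rw [hset]
  refine h D0 B R Z j hD0.1.2 hD0.2 (g2.squarefree_of_dvd (dvd_mul_right _ _)) hB.1 hR.1.1 hZ.1.1
    ?_ hGB'
  exact (((hlog D' hp').mp hl').1.trans (by exact_mod_cast hN' : (nm D' : ℝ) ≤ N)).trans hN

lemma bco_dvd {M f D0 B R Z : Eis} (hf : IsPrim f) (hD0 : IsPrim D0) (hD : D0 ∣ f)
    (h : GB' M (f / D0) D0 B R Z) : bco f B ∣ E4352.rd Z := by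
  obtain ⟨h1, h2, h3, h4, h5, h6, h7⟩ := h
  have hBp : IsPrim B := h2.prim
  have hZp : IsPrim Z := h5.1
  have hc := E4579.bco_cop hf hBp
  have hd : bco f B ∣ B := ⟨bpt f B, by rw [mul_comm]; exact (E4579.bpt_mul_bco hf hBp).symm⟩
  rw [E4352.dvd_rd hZp.ne_zero (bco_prim hf hBp)]
  refine ⟨h1.squarefree_of_dvd hd, fun p hp hpb => ?_⟩
  rcases hp.dvd_or_dvd (h7 p hp (hpb.trans hd)) with h8 | h8
  · exfalso
    obtain ⟨f', hf'⟩ := hD
    have h9 : f / D0 = f' := div_eq' hD0.ne_zero hf'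
    have h3 : p ∣ f := by
      rw [h9] at h8
      rw [hf']
      exact h8.mul_left _
    exact hp.not_isUnit (hc.isUnit_of_dvd' hpb h3)
  · exact h8

lemma bco_le {M f D0 B R Z : Eis} (hf : IsPrim f) (hD0 : IsPrim D0) (hD : D0 ∣ f)
    (h : GB' M (f / D0) D0 B R Z) :
    nm (bco f B) ≤ nm (E4352.rd Z) ∧ nm (bco f B) ≤ nm B := by
  have hBp : IsPrim B := h.2.1.prim
  refine ⟨nm_le_of_dvd (E4352.rd_prim Z).ne_zero (bco_dvd hf hD0 hD h),
    nm_le_of_dvd hBp.ne_zero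
      ⟨bpt f B, by rw [mul_comm]; exact (E4579.bpt_mul_bco hf hBp).symm⟩⟩

/-- **(iv)** the final summation -/
theorem sumAll : SumAll := by
  classical
  intro ε hε
  obtain ⟨C, hC0, hC⟩ := sum5 (ε / 2) (by linarith)
  obtain ⟨C1, h10, h1⟩ := E4cnt92.s1 (ε / 2) (by linarith)
  refine ⟨C * (1 + C1), by positivity, fun M f O _ lam v w φ X Y Mn hD hφ hY hMn h => ?_⟩
  have hX1 : 1 ≤ X := hD.X1
  have hX0 : (0 : ℝ) < X := by linarith [hD.X1]
  have hE : (1 : ℝ) ≤ X ^ (ε / 2) := Real.one_le_rpow hX1 (by linarith)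
  have hN : ((⌊X⌋₊ : ℕ) : ℝ) ≤ X := Nat.floor_le hX0.le
  have hN4 : ((⌊X⌋₊ : ℕ) : ℝ) ≤ X ^ 4 := hN.trans (le_self_pow₀ hX1 (by norm_num))
  have hfp : IsPrim f := hD.hf.1.prim
  set Y' := Y + Mn * (C1 * X ^ (ε / 2)) with hY'
  have hY'0 : 0 ≤ Y' := by positivity
  have e1 : ∀ o ∈ (univ : Finset O), ∑' x : Eis, v o x * ∑' y : Eis, w o y *
      NT (M * (f * y)) (f * x * y) (φ o) = _ := fun o _ =>
    open2 (N := ⌊X⌋₊) hD.hf.1 (hD.hv o) (hD.hw o) (fun x hx => Nat.le_floor (hD.vx o x hx).2)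
      (fun y hy => Nat.le_floor (hD.wy o y hy)) (Nat.le_floor hD.hf.2) (hφ o)
  rw [sum_congr rfl e1]
  have h2 := hC M f X Y' ⌊X⌋₊ (fun D0 D1 => cB (D0 * D1) * conj (sy (f / D0) (D0 * D1)))
    (fun D0 D1 B R Z => ((muE B : ℂ) * (nm B : ℂ) ^ 3) * ∑ o,
      ∑' x : Eis, tws R B (fun _ => 1) (vD (D0 * D1) (v o)) x *
        ∑' y : Eis, tws Z B (fun _ => 1) (wD (D0 * D1) D1 (w o)) y *
          NT M (f / D0 * R * Z / B ^ 3 * x * y)
            (fun k => φ o ((D0 * D1) ^ 2 * B ^ 3 * k))) hX1 hY'0 hfp hD.hf.2 hN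
    (by
      intro D0 B R Z j k1 k2 k3 k4 k5 k6 k7 k8
      have hTT : ∑ D1 ∈ DJ M f D0 B ⌊X⌋₊ j, (cB (D0 * D1) * conj (sy (f / D0) (D0 * D1))) *
          (((muE B : ℂ) * (nm B : ℂ) ^ 3) * ∑ o,
            ∑' x : Eis, tws R B (fun _ => 1) (vD (D0 * D1) (v o)) x *
              ∑' y : Eis, tws Z B (fun _ => 1) (wD (D0 * D1) D1 (w o)) y *
                NT M (f / D0 * R * Z / B ^ 3 * x * y)
                  (fun k => φ o ((D0 * D1) ^ 2 * B ^ 3 * k))) =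
          ((muE B : ℂ) * (nm B : ℂ) ^ 3) * TT M f v w φ ⌊X⌋₊ D0 B R Z j := by
        unfold TT
        rw [mul_sum]
        refine sum_congr rfl fun D1 _ => ?_
        ring
      rw [hTT, norm_mul]
      have hmu : ‖((muE B : ℂ) * (nm B : ℂ) ^ 3)‖ ≤ (nm B : ℝ) ^ 3 := by
        rw [norm_mul, norm_pow, Complex.norm_natCast]
        have : ‖(muE B : ℂ)‖ ≤ 1 := norm_muE_le B
        calc ‖(muE B : ℂ)‖ * (nm B : ℝ) ^ 3 ≤ 1 * (nm B : ℝ) ^ 3 := by gcongr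
          _ = _ := one_mul _
      refine (mul_le_mul_of_nonneg_right hmu (norm_nonneg _)).trans ?_
      refine (h D0 B R Z j k1 k2 k3 k4 k5 k6 k7 k8).trans ?_
      obtain ⟨b1, b2⟩ := bco_le hfp k1 k2 k8
      have p1 : (0 : ℝ) < nm (bco f B) := by
        exact_mod_cast nm_pos.mpr (bco_prim hfp k8.2.1.prim).ne_zero
      have q1 : (nm (E4352.rd Z) : ℝ)⁻¹ ≤ (nm (bco f B) : ℝ)⁻¹ :=
        inv_anti₀ p1 (by exact_mod_cast b1)
      have q2 : (nm B : ℝ)⁻¹ ≤ (nm (bco f B) : ℝ)⁻¹ := inv_anti₀ p1 (by exact_mod_cast b2)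
      have q4 : ∑ D1 ∈ DJ M f D0 B ⌊X⌋₊ j, ((nm (D0 * D1) : ℕ) : ℝ)⁻¹ ≤ C1 * X ^ (ε / 2) := by
        refine le_trans ?_ (h1 X hX1 ⌊X⌋₊ hN4)
        have hsub : DJ M f D0 B ⌊X⌋₊ j ⊆ primBall ⌊X⌋₊ := filter_subset _ _
        calc ∑ D1 ∈ DJ M f D0 B ⌊X⌋₊ j, ((nm (D0 * D1) : ℕ) : ℝ)⁻¹
            ≤ ∑ D1 ∈ DJ M f D0 B ⌊X⌋₊ j, ((nm D1 : ℝ))⁻¹ := by
              refine sum_le_sum fun D1 hD1 => ?_
              have hD10 := (mem_primBall.mp (hsub hD1)).2.ne_zero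
              apply inv_anti₀ (by exact_mod_cast nm_pos.mpr hD10)
              rw [nm_mul]
              have : 1 ≤ nm D0 := nm_pos.mpr k1.ne_zero
              exact_mod_cast Nat.le_mul_of_pos_left _ this
          _ ≤ ∑ D1 ∈ primBall ⌊X⌋₊, ((nm D1 : ℝ))⁻¹ :=
              sum_le_sum_of_subset_of_nonneg hsub fun _ _ _ => by positivity
      have hS0 : (0 : ℝ) ≤ ∑ D1 ∈ DJ M f D0 B ⌊X⌋₊ j, ((nm (D0 * D1) : ℕ) : ℝ)⁻¹ :=
        sum_nonneg fun _ _ => by positivity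
      have hsum : ∑ D1 ∈ DJ M f D0 B ⌊X⌋₊ j, Mn / (nm (D0 * D1) * nm B) =
          Mn * ((nm B : ℝ)⁻¹ * ∑ D1 ∈ DJ M f D0 B ⌊X⌋₊ j, ((nm (D0 * D1) : ℕ) : ℝ)⁻¹) := by
        rw [mul_sum, mul_sum]
        refine sum_congr rfl fun D1 _ => ?_
        rw [div_eq_mul_inv, mul_inv]
        ring
      rw [hsum, hY', add_div, div_eq_mul_inv, div_eq_mul_inv]
      refine add_le_add (mul_le_mul_of_nonneg_left q1 hY) ?_
      rw [mul_div_assoc]
      refine mul_le_mul_of_nonneg_left ?_ hMn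
      rw [div_eq_mul_inv, mul_comm (C1 * X ^ (ε / 2))]
      exact mul_le_mul q2 q4 hS0 (by positivity))
  have e : X ^ ε = X ^ (ε / 2) * X ^ (ε / 2) := by rw [← Real.rpow_add hX0]; congr 1; ring
  have hYle : Y' ≤ (1 + C1) * X ^ (ε / 2) * (Y + Mn) := by
    rw [hY']
    have g1 : Y ≤ (1 + C1) * X ^ (ε / 2) * Y := by
      have : 1 ≤ (1 + C1) * X ^ (ε / 2) := by nlinarith
      nlinarith
    have g2 : Mn * (C1 * X ^ (ε / 2)) ≤ (1 + C1) * X ^ (ε / 2) * Mn := by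
      have : 0 ≤ X ^ (ε / 2) * Mn := by positivity
      nlinarith
    nlinarith
  have h3 : C * X ^ (ε / 2) * Y' ≤ C * (1 + C1) * X ^ ε * (Y + Mn) := by
    calc C * X ^ (ε / 2) * Y' ≤ C * X ^ (ε / 2) * ((1 + C1) * X ^ (ε / 2) * (Y + Mn)) := by
          gcongr
      _ = _ := by rw [e]; ring
  refine le_trans (le_trans (le_of_eq ?_) h2) h3
  congr 1
  rw [sum_comm]
  refine sum_congr rfl fun D0 _ => ?_
  rw [sum_comm]
  refine sum_congr rfl fun D1 _ => ?_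
  by_cases hG : GoodD M f D0 D1
  · simp only [hG, if_true]
    rw [← mul_sum]
    congr 1
    rw [sum_comm]
    refine sum_congr rfl fun B _ => ?_
    rw [sum_comm]
    refine sum_congr rfl fun R _ => ?_
    rw [sum_comm]
    refine sum_congr rfl fun Z _ => ?_
    by_cases hB : GB M (f / D0) (D0 * D1) B R Z
    · simp only [hB, if_true, mul_sum]
    · simp only [hB, if_false, sum_const_zero]
  · simp only [hG, if_false, sum_const_zero]

end Crest.Agent.R017.E4sum176
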