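import Crest.Agent.R017.E4v7_352
import Crest.Agent.R017.E4sum_176

/-!
# Row 17, C70/E4, version 7: the dyadic classes (helper176)

`classes : E4J352.Classes`
-/

set_option autoImplicit false

noncomputable section

namespace Crest.Agent.R017.E4cls176

open Crest.Agent.R012 Crest.Agent.R012.Eis
open Crest.Agent.R017.Sx545 Crest.Agent.R017.CM106 Crest.Agent.R017.C70 Crest.Agent.R017.C590
open Crest.Agent.R017.E4352 Crest.Agent.R017.E4J352 Crest.Agent.R017.E2440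
open Crest.Agent.R017.E4o502 (vD wD GoodD GB)
open Crest.Agent.R017.E4fe502 (FF)

/-- the dyadic index of `x ≥ 1` -/
def dy (x : ℝ) : ℕ := Nat.log 2 ⌊x⌋₊

lemma inW_dy {x : ℝ} (hx : 1 ≤ x) : inW (dy x) x := by
  have h0 : ⌊x⌋₊ ≠ 0 := by
    have := Nat.le_floor (n := 1) (by simpa using hx)
    omega
  constructor
  · have h1 : 2 ^ (dy x) ≤ ⌊x⌋₊ := Nat.pow_log_le_self 2 h0
    have h2 : ((2 ^ (dy x) : ℕ) : ℝ) ≤ (⌊x⌋₊ : ℝ) := by exact_mod_cast h1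
    have h3 : (⌊x⌋₊ : ℝ) ≤ x := Nat.floor_le (by linarith)
    push_cast at h2
    linarith
  · have h1 : ⌊x⌋₊ < 2 ^ (dy x + 1) := Nat.lt_pow_succ_log_self (by norm_num) _
    have h2 : ((⌊x⌋₊ + 1 : ℕ) : ℝ) ≤ ((2 ^ (dy x + 1) : ℕ) : ℝ) := by exact_mod_cast h1
    have h3 : x < (⌊x⌋₊ : ℝ) + 1 := Nat.lt_floor_add_one x
    push_cast at h2
    linarith

variable {O : Type}

/-- the thirteen sizes -/
def szs (lam : O → ℝ) (t : Tm O) : Fin 13 → ℝ :=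
  ![(nm t.D0 : ℝ), (nm t.D1 : ℝ), (nm t.B : ℝ), (nm t.R : ℝ), (nm t.Z : ℝ), (nm t.b : ℝ),
    (nm t.R' : ℝ), (nm t.Z' : ℝ), lam t.o, (nm t.k : ℝ), lam t.o * nm t.k,
    (nm ((t.D0 * t.D1) ^ 2 * (t.b * t.k)) : ℝ), lam t.o * nm ((t.D0 * t.D1) ^ 2 * (t.b * t.k))]

/-- the class of a term -/
def key (lam : O → ℝ) (t : Tm O) : Fin 13 → ℕ := fun j => dy (szs lam t j)

/-- the window of a class -/
def ofKey (κ : Fin 13 → ℕ) : Win :=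
  ⟨κ 0, κ 1, κ 2, κ 3, κ 4, κ 5, κ 6, κ 7, κ 8, κ 9, κ 10, κ 11, κ 12⟩

lemma in_key {lam : O → ℝ} {t : Tm O} (h : ∀ j, 1 ≤ szs lam t j) :
    t.In lam (ofKey (key lam t)) where
  h0 := inW_dy (h 0)
  h1 := inW_dy (h 1)
  hB := inW_dy (h 2)
  hR := inW_dy (h 3)
  hZ := inW_dy (h 4)
  hb := inW_dy (h 5)
  hR' := inW_dy (h 6)
  hZ' := inW_dy (h 7)
  hlam := inW_dy (h 8)
  hkk := inW_dy (h 9)
  hk := inW_dy (h 10)
  hkp := inW_dy (h 11)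
  hl := inW_dy (h 12)

lemma val_nonneg {f : Eis} {lam : O → ℝ} (hl : ∀ o, 0 ≤ lam o) (v w : O → Eis → ℂ) (G : Eis → ℂ)
    (t : Tm O) : 0 ≤ t.val f lam v w G := by
  unfold Tm.val Tm.wt
  have := hl t.o
  positivity

lemma szs_bd {lam : O → ℝ} {t : Tm O} {M f : Eis} {Y : ℝ} (hY : 1 ≤ Y) (ht : t.OK M f)
    (hl : 1 ≤ lam t.o) (hl' : lam t.o ≤ Y)
    (h0 : (nm t.D0 : ℝ) ≤ Y) (h1 : (nm t.D1 : ℝ) ≤ Y) (hB : (nm t.B : ℝ) ≤ Y)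
    (hR : (nm t.R : ℝ) ≤ Y) (hZ : (nm t.Z : ℝ) ≤ Y) (hb : (nm t.b : ℝ) ≤ Y)
    (hR' : (nm t.R' : ℝ) ≤ Y) (hZ' : (nm t.Z' : ℝ) ≤ Y) (hk : (nm t.k : ℝ) ≤ Y) (j : Fin 13) :
    1 ≤ szs lam t j ∧ szs lam t j ≤ Y ^ 7 := by
  have hY0 : (0 : ℝ) ≤ Y := by linarith
  have hY7 : Y ≤ Y ^ 7 := le_self_pow₀ hY (by norm_num)
  have n0 : (1 : ℝ) ≤ nm t.D0 := one_le_nm ht.pD0.ne_zero
  have n1 : (1 : ℝ) ≤ nm t.D1 := one_le_nm ht.pD1.ne_zero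
  have nB : (1 : ℝ) ≤ nm t.B := one_le_nm ht.gb.2.1.1.ne_zero
  have nR : (1 : ℝ) ≤ nm t.R := one_le_nm ht.pR.1.ne_zero
  have nZ : (1 : ℝ) ≤ nm t.Z := one_le_nm ht.pZ.1.ne_zero
  have nb : (1 : ℝ) ≤ nm t.b := one_le_nm ht.sb.1.ne_zero
  have nR' : (1 : ℝ) ≤ nm t.R' := one_le_nm ht.pR'.1.ne_zero
  have nZ' : (1 : ℝ) ≤ nm t.Z' := one_le_nm ht.pZ'.1.ne_zero
  have nk : (1 : ℝ) ≤ nm t.k := one_le_nm ht.sk.1.ne_zero
  have eq : (nm ((t.D0 * t.D1) ^ 2 * (t.b * t.k)) : ℝ) =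
      (nm t.D0 * nm t.D1) ^ 2 * (nm t.b * nm t.k) := by
    rw [nm_mul, nm_mul, nm_pow, nm_mul]; push_cast; ring
  have a1 : (1 : ℝ) ≤ nm ((t.D0 * t.D1) ^ 2 * (t.b * t.k)) := by
    rw [eq]
    exact one_le_mul_of_one_le_of_one_le (one_le_pow₀ (one_le_mul_of_one_le_of_one_le n0 n1))
      (one_le_mul_of_one_le_of_one_le nb nk)
  have a2 : (nm ((t.D0 * t.D1) ^ 2 * (t.b * t.k)) : ℝ) ≤ Y ^ 6 := by
    rw [eq]
    have e : Y ^ 6 = (Y * Y) ^ 2 * (Y * Y) := by ring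
    rw [e]
    gcongr
  have a3 : (1 : ℝ) ≤ lam t.o * nm t.k := one_le_mul_of_one_le_of_one_le hl nk
  have a4 : lam t.o * nm t.k ≤ Y ^ 7 := by
    have e : lam t.o * nm t.k ≤ Y * Y := by gcongr
    have e2 : Y * Y ≤ Y ^ 7 := by
      calc Y * Y = Y ^ 2 := by ring
        _ ≤ Y ^ 7 := pow_le_pow_right₀ hY (by norm_num)
    linarith
  have a5 : (1 : ℝ) ≤ lam t.o * nm ((t.D0 * t.D1) ^ 2 * (t.b * t.k)) :=
    one_le_mul_of_one_le_of_one_le hl a1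
  have a6 : lam t.o * nm ((t.D0 * t.D1) ^ 2 * (t.b * t.k)) ≤ Y ^ 7 := by
    calc lam t.o * nm ((t.D0 * t.D1) ^ 2 * (t.b * t.k)) ≤ Y * Y ^ 6 := by gcongr
      _ = Y ^ 7 := by ring
  have a7 : (nm ((t.D0 * t.D1) ^ 2 * (t.b * t.k)) : ℝ) ≤ Y ^ 7 :=
    a2.trans (pow_le_pow_right₀ hY (by norm_num))
  fin_cases j
  · exact ⟨n0, h0.trans hY7⟩
  · exact ⟨n1, h1.trans hY7⟩
  · exact ⟨nB, hB.trans hY7⟩
  · exact ⟨nR, hR.trans hY7⟩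
  · exact ⟨nZ, hZ.trans hY7⟩
  · exact ⟨nb, hb.trans hY7⟩
  · exact ⟨nR', hR'.trans hY7⟩
  · exact ⟨nZ', hZ'.trans hY7⟩
  · exact ⟨hl, hl'.trans hY7⟩
  · exact ⟨nk, hk.trans hY7⟩
  · exact ⟨a3, a4⟩
  · exact ⟨a1, a7⟩
  · exact ⟨a5, a6⟩

/-- **the dyadic classes** -/
theorem classes : Classes := by
  classical
  intro ε hε
  obtain ⟨C, hC0, hC⟩ := E4sum176.log_cnt (ε / 91) (by positivity)
  refine ⟨C ^ 13, by positivity, ?_⟩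
  intro M f O lam v w G rng Y S hY hS hlam hJB 𝒥 h𝒥
  have hY0 : (0 : ℝ) < Y := by linarith
  have hlam0 : ∀ o, 0 ≤ lam o := fun o => by linarith [(hlam o).1]
  set L : ℕ := Nat.log 2 ⌊Y ^ 7⌋₊ with hL
  have hcnt : ((L + 1 : ℕ) : ℝ) ≤ C * (Y ^ 7) ^ (ε / 91) :=
    hC (Y ^ 7) _ (one_le_pow₀ hY) (Nat.floor_le (by positivity))
  set T : Finset (Fin 13 → ℕ) := Fintype.piFinset (fun _ => Finset.range (L + 1)) with hT
  have hcard : (T.card : ℝ) = ((L + 1 : ℕ) : ℝ) ^ 13 := by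
    rw [hT, Fintype.card_piFinset]
    simp
  set 𝒥' := 𝒥.filter (fun t => t.val f lam v w G ≠ 0) with h𝒥'
  have e1 : ∑ t ∈ 𝒥, t.val f lam v w G = ∑ t ∈ 𝒥', t.val f lam v w G := by
    rw [h𝒥', Finset.sum_filter_ne_zero]
  have hsz : ∀ t ∈ 𝒥', ∀ j, 1 ≤ szs lam t j ∧ szs lam t j ≤ Y ^ 7 := by
    intro t ht j
    obtain ⟨hok, _, k0, k1, kB, kR, kZ, kb, kR', kZ', kk⟩ := h𝒥 t (Finset.mem_filter.mp ht).1
    exact szs_bd hY hok (hlam t.o).1 (hlam t.o).2 k0 k1 kB kR kZ kb kR' kZ' kk j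
  have hmap : ∀ t ∈ 𝒥', key lam t ∈ T := by
    intro t ht
    rw [hT, Fintype.mem_piFinset]
    intro j
    rw [Finset.mem_range, Nat.lt_succ_iff]
    have h5 : ⌊szs lam t j⌋₊ ≤ ⌊Y ^ 7⌋₊ := Nat.floor_le_floor (hsz t ht j).2
    exact Nat.log_mono_right (b := 2) h5
  rw [e1, ← Finset.sum_fiberwise_of_maps_to hmap]
  calc ∑ κ ∈ T, ∑ t ∈ 𝒥' with key lam t = κ, t.val f lam v w G
      ≤ ∑ _κ ∈ T, S := by
        refine Finset.sum_le_sum fun κ _ => ?_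
        refine hJB (ofKey κ) _ ?_
        intro t ht
        rw [Finset.mem_filter] at ht
        obtain ⟨ht1, ht2⟩ := ht
        obtain ⟨ht3, ht4⟩ := Finset.mem_filter.mp ht1
        obtain ⟨hok, hr, _⟩ := h𝒥 t ht3
        refine ⟨hok, ht4, ?_, hr⟩
        rw [← ht2]
        exact in_key fun j => (hsz t ht1 j).1
    _ = (T.card : ℝ) * S := by rw [Finset.sum_const, nsmul_eq_mul]
    _ ≤ (C * (Y ^ 7) ^ (ε / 91)) ^ 13 * S := by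
        rw [hcard]
        gcongr
    _ = C ^ 13 * Y ^ ε * S := by
        rw [mul_pow]
        congr 2
        rw [← Real.rpow_natCast Y 7, ← Real.rpow_mul hY0.le, ← Real.rpow_natCast (Y ^ _) 13,
          ← Real.rpow_mul hY0.le]
        congr 1
        push_cast
        ring

end Crest.Agent.R017.E4cls176
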