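import Crest.Agent.R017.E4Zo_266
import Crest.Agent.R017.E4cls_176
import Crest.Agent.R017.E4Pr_266
import Crest.Agent.R017.E4LxC_266

/-!
# Row 17, C70/E4, version 7: the dual half over `z`, with a filter and a shifted weight (helper266)

* `wt_shift`, `wtx_third`, `D3F_shift`, `D3_split` : weights and the dual series
* `rngG` : the range of the dual half, with filter
* `dual_le` : the dual half over `z`
-/

set_option autoImplicit false

noncomputable section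

open Complex
open scoped ComplexConjugate

namespace Crest.Agent.R017.E4R266

open Crest.Agent.R012 Crest.Agent.R012.Eis Crest.Agent.R012.Mob705 Crest.Agent.R012.Gauss880
open Crest.Agent.R012.Div277
open Crest.Agent.R012.GaussLoc283 (syAx)
open Crest.Agent.R017.Sx545 Crest.Agent.R017.CM106 Crest.Agent.R017.C70 Crest.Agent.R017.C590
open Crest.Agent.R017.End699 Crest.Agent.R017.B770 Crest.Agent.R017.Sx440
open Crest.Agent.R017.E2440 Crest.Agent.R017.E4352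
open Crest.Agent.R017.E4o502 (vD wD GoodD GB ssm_tws bd_tws)
open Crest.Agent.R017.E4fe502 (FF Bi Dta)
open Crest.Agent.R017.E4J352 (Tm JBt JB gx rngD rngF)
open Crest.Agent.R017.E4S783 (DatS BSf aS DN mem_DN D3F lBdSf)
open Crest.Agent.R017.E4v5 (GB')
open Crest.Agent.R017.E4X266 (WTx bdx)
open Crest.Agent.R017.E4Pr266 (D3c PrD)

/-! ### weights -/

lemma bdx_shift {N : ℕ} {h y : ℝ} (hy : 0 < y) : bdx N h (y * Real.exp h) ≤ min 1 ((y ^ N)⁻¹) := by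
  unfold bdx
  have e : y * Real.exp h * Real.exp (-h) = y := by
    rw [mul_assoc, ← Real.exp_add]; simp
  rw [e]
  exact min_le_right _ _

lemma wt_shift {m₀ N₀ : ℕ} {B h : ℝ} {W : ℝ → ℂ} (hB : 0 ≤ B) (hW : WTx m₀ N₀ B h W) :
    WT m₀ N₀ B (fun y => W (y * Real.exp h)) where
  smooth := by
    refine hW.smooth.comp (contDiffOn_id.mul contDiffOn_const) fun y hy => ?_
    exact mul_pos hy (Real.exp_pos _)
  dec := by
    intro m hm y hy
    have e1 : (fun x => W (Real.exp x * Real.exp h)) = fun x => W (Real.exp (x + h)) := by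
      funext x
      rw [Real.exp_add]
    have e2 : iteratedDeriv m (fun x => W (Real.exp x * Real.exp h)) (Real.log y) =
        iteratedDeriv m (fun x => W (Real.exp x)) (Real.log (y * Real.exp h)) := by
      rw [e1, Real.log_mul hy.ne' (Real.exp_pos _).ne', Real.log_exp]
      exact congrFun (iteratedDeriv_comp_add_const m (fun x => W (Real.exp x)) h) (Real.log y)
    rw [e2]
    refine (hW.dec m hm (y * Real.exp h) (by positivity)).trans ?_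
    exact mul_le_mul_of_nonneg_left (bdx_shift hy) hB

lemma wtx_third {m₀ N₀ : ℕ} {B h : ℝ} {W : ℝ → ℂ} (hB : 0 ≤ B) (hW : WTx m₀ N₀ B h W) {y : ℝ}
    (hy : 0 < y) : ‖W y‖ ≤ B * y ^ (1 / 3 : ℝ) := by
  have h1 := hW.dec 0 (Nat.zero_le _) y hy
  rw [iteratedDeriv_zero, Real.exp_log hy] at h1
  refine h1.trans (mul_le_mul_of_nonneg_left ?_ hB)
  exact min_le_left _ _

lemma wt_bd {m₀ N₀ : ℕ} {B : ℝ} {W : ℝ → ℂ} (hW : WT m₀ N₀ B W) {y : ℝ}
    (hy : 0 < y) : ‖W y‖ ≤ B * min 1 ((y ^ N₀)⁻¹) := by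
  have h1 := hW.dec 0 (Nat.zero_le _) y hy
  rwa [iteratedDeriv_zero, Real.exp_log hy] at h1

lemma D3F_shift (M : Eis) (χ : Eis → ℂ) (u : Eis) (W : ℝ → ℂ) (Y h : ℝ) (N : Eis → Prop) :
    D3F M χ u W Y N = D3F M χ u (fun y => W (y * Real.exp h)) (Y * Real.exp h) N := by
  unfold D3F
  refine tsum_congr fun d => ?_
  have e : (nm d : ℝ) / (Y * Real.exp h) * Real.exp h = nm d / Y := by
    rw [div_mul_eq_mul_div]
    exact mul_div_mul_right _ _ (Real.exp_pos h).ne'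
  simp only [e]

open Classical in
lemma D3_split {M : Eis} {χ : Eis → ℂ} (hχ : ∀ d, IsPrim d → ‖χ d‖ ≤ 1) {W : ℝ → ℂ} {C : ℝ}
    (hC : 0 ≤ C) (hW : ∀ y : ℝ, 0 < y → ‖W y‖ ≤ C * (y ^ 2)⁻¹) {u : Eis} {Y : ℝ} (hY : 0 < Y)
    (N : Eis → Prop) :
    D3 M χ u W Y = D3F M χ u W Y (fun d => ¬ N d) + D3c N M χ u W Y := by
  set F : Eis → ℂ := fun d => conj (gs u d) * (χ d * (nm d : ℂ)⁻¹ * W (nm d / Y)) with hF
  have hbd : ∀ d, Sm M d → ‖F d‖ ≤ (C * Y ^ 2) * ((nm d : ℝ) ^ 2)⁻¹ := by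
    intro d hd
    have hn := one_le_nm hd.ne_zero
    have hn0 : (0 : ℝ) < nm d := by linarith
    have hW1 := hW (nm d / Y) (by positivity)
    have h6 : ‖gs u d‖ ≤ nm d := GaussLoc283.norm_gs_le GaussLoc283.syAx u hd.prim
    simp only [hF]
    rw [norm_mul, norm_mul, norm_mul, RCLike.norm_conj, norm_inv, Complex.norm_natCast]
    calc ‖gs u d‖ * (‖χ d‖ * (nm d : ℝ)⁻¹ * ‖W (nm d / Y)‖)
        ≤ nm d * (1 * (nm d : ℝ)⁻¹ * (C * ((nm d / Y) ^ 2)⁻¹)) := by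
          have := hχ d hd.prim
          gcongr
      _ = _ := by field_simp
  have hs1 : Summable (fun d => if Sm M d ∧ ¬ N d then F d else 0) := by
    refine Summable.of_norm_bounded (g := fun d => (C * Y ^ 2) * ((nm d : ℝ) ^ 2)⁻¹)
      (summable_nm2.mul_left _) fun d => ?_
    split_ifs with h
    · exact hbd d h.1
    · rw [norm_zero]; positivity
  have hs2 : Summable (fun d => if Sm M d ∧ N d then F d else 0) := by
    refine Summable.of_norm_bounded (g := fun d => (C * Y ^ 2) * ((nm d : ℝ) ^ 2)⁻¹)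
      (summable_nm2.mul_left _) fun d => ?_
    split_ifs with h
    · exact hbd d h.1
    · rw [norm_zero]; positivity
  have e1 : D3F M χ u W Y (fun d => ¬ N d) = ∑' d, if Sm M d ∧ ¬ N d then F d else 0 := by
    unfold D3F
    refine tsum_congr fun d => ?_
    by_cases h : Sm M d ∧ ¬ N d
    · rw [if_pos h, if_pos h]
    · rw [if_neg h, if_neg h]
  have e2 : D3c N M χ u W Y = ∑' d, if Sm M d ∧ N d then F d else 0 := rfl
  rw [e1, e2, ← hs1.tsum_add hs2]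
  unfold D3 E2440.DS
  refine tsum_congr fun d => ?_
  by_cases h : Sm M d
  · by_cases h' : N d
    · rw [if_pos h, if_neg (fun hc : Sm M d ∧ ¬ N d => hc.2 h'), if_pos ⟨h, h'⟩, zero_add]
    · rw [if_pos h, if_pos ⟨h, h'⟩, if_neg (fun hc : Sm M d ∧ N d => h' hc.2), add_zero]
  · rw [if_neg h, if_neg (fun hc => h hc.1), if_neg (fun hc => h hc.1), add_zero]

/-! ### the dual half -/

/-- the range of the dual half, with a filter `Np o D d` -/
def rngG {O : Type} (sw : Eis → Eis → Eis → Eis → Eis → Prop) (Np : O → Eis → Eis → Prop)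
    (lam : O → ℝ) (L : ℝ) (t : Tm O) : Prop :=
  rngF sw lam L t ∧ Np t.o (t.D0 * t.D1) (t.b * t.k)

open Classical in
/-- the quintuples with switch `sw` -/
def QS (M f : Eis) (N : ℕ) (sw : Eis → Eis → Eis → Eis → Eis → Prop) : Finset Q5 :=
  (QA M f N).filter fun q => sw q.D0 q.D1 q.B q.R q.Z

lemma QS_sub (M f : Eis) (N : ℕ) (sw : Eis → Eis → Eis → Eis → Eis → Prop) :
    QS M f N sw ⊆ QA M f N := by
  classical
  exact Finset.filter_subset _ _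

lemma QS_sw {M f : Eis} {N : ℕ} {sw : Eis → Eis → Eis → Eis → Eis → Prop} {q : Q5}
    (h : q ∈ QS M f N sw) : sw q.D0 q.D1 q.B q.R q.Z := by
  classical
  exact (Finset.mem_filter.mp h).2

section

variable {M f : Eis} {O : Type} [Fintype O] {lam : O → ℝ} {v w : O → Eis → ℂ} {X : ℝ}

omit [Fintype O] in
/-- the length at `z` -/
lemma len_z (hlam : ∀ o, 0 < lam o) {U K : ℝ} (hK : 0 < K)
    (H : ∀ o x y, v o x ≠ 0 → w o y ≠ 0 → (nm (f * x * y) : ℝ) * lam o ^ 2 ≤ U)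
    {𝒬 : Finset Q5} (z : O × {q : Q5 // q ∈ 𝒬}) (hf : Sm M f) (hq : QOK M f z.2.1) (x y : Eis)
    (hx : vz v z x ≠ 0) (hy : wz w z y ≠ 0) (h : ℝ) :
    (nm (fz f z * x * y) : ℝ) ≤
      (Real.exp h * (U / K) * nm (z.2.1.D0 * z.2.1.D1) / lam z.1) *
        Qz lam (K * Real.exp (-h)) z := by
  have hd := dta_of hf hq
  obtain ⟨o, ⟨q, hq𝒬⟩⟩ := z
  have hx' : v o (1 * (q.R * x)) ≠ 0 := E4v5.tws_ne (E4v5.tws_ne hx)
  have hy' : w o (q.D1 * (q.Z * y)) ≠ 0 := E4v5.tws_ne (E4v5.tws_ne hy)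
  rw [one_mul] at hx'
  have key := H o _ _ hx' hy'
  have e1 : f * (q.R * x) * (q.D1 * (q.Z * y)) =
      q.D0 * q.D1 * q.B ^ 3 * (FF f q.D0 q.B q.R q.Z * x * y) := by
    have a1 := hd.hFF
    have a2 := hd.f'
    calc f * (q.R * x) * (q.D1 * (q.Z * y)) = (q.D0 * (f / q.D0)) * (q.R * x) *
          (q.D1 * (q.Z * y)) := by rw [a2]
      _ = q.D0 * q.D1 * (f / q.D0 * q.R * q.Z) * x * y := by ring
      _ = _ := by rw [a1]; ring
  rw [e1] at key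
  have hD : (0 : ℝ) < nm (q.D0 * q.D1) := by
    exact_mod_cast nm_pos.mpr (hq.pD0.mul hq.pD1).ne_zero
  have hB : (0 : ℝ) < nm q.B := by exact_mod_cast nm_pos.mpr hd.hB.ne_zero
  have hl := hlam o
  have e2 : (nm (q.D0 * q.D1 * q.B ^ 3 * (FF f q.D0 q.B q.R q.Z * x * y)) : ℝ) =
      nm (q.D0 * q.D1) * (nm q.B : ℝ) ^ 3 * nm (FF f q.D0 q.B q.R q.Z * x * y) := by
    rw [nm_mul (q.D0 * q.D1 * q.B ^ 3), nm_mul (q.D0 * q.D1), nm_pow]
    push_cast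
    ring
  rw [e2] at key
  unfold Qz fz
  simp only
  have e4 : (nm ((q.D0 * q.D1) ^ 2 * q.B ^ 3) : ℝ) =
      (nm (q.D0 * q.D1) : ℝ) ^ 2 * (nm q.B : ℝ) ^ 3 := by
    rw [nm_mul, nm_pow, nm_pow]; push_cast; ring
  rw [e4]
  set n : ℝ := (nm (FF f q.D0 q.B q.R q.Z * x * y) : ℝ) with hn
  set d : ℝ := (nm (q.D0 * q.D1) : ℝ) with hd'
  set β : ℝ := (nm q.B : ℝ) with hβ
  have e5 : Real.exp h * (U / K) * d / lam o * (K * Real.exp (-h) / (lam o * (d ^ 2 * β ^ 3))) =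
      U / (lam o ^ 2 * (d * β ^ 3)) := by
    rw [Real.exp_neg]
    field_simp
  rw [e5, le_div_iff₀ (by positivity)]
  calc n * (lam o ^ 2 * (d * β ^ 3)) = d * β ^ 3 * n * lam o ^ 2 := by ring
    _ ≤ U := key

end

/-! ### the bound -/

lemma pow_rpow {X : ℝ} (hX : 0 < X) (n : ℕ) (a : ℝ) : (X ^ n : ℝ) ^ a = X ^ ((n : ℝ) * a) := by
  rw [← Real.rpow_natCast X n, ← Real.rpow_mul hX.le]

lemma JB_mono {M f : Eis} {O : Type} {lam : O → ℝ} {v w : O → Eis → ℂ} {G : Eis → ℂ}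
    {rng rng' : Tm O → Prop} {S : ℝ} (h : ∀ t, rng' t → rng t) (H : JB M f lam v w G rng S) :
    JB M f lam v w G rng' S := fun c 𝒥 h𝒥 =>
  H c 𝒥 fun t ht => ⟨(h𝒥 t ht).1, (h𝒥 t ht).2.1, (h𝒥 t ht).2.2.1, h t (h𝒥 t ht).2.2.2⟩

section

variable {M : Eis} {ι : Type} [Fintype ι] {D : Dt3 ι}

/-- the size of the lengths -/
lemma Qz_bd {f : Eis} {O : Type} {lam : O → ℝ} {X K : ℝ} {𝒬 : Finset Q5} (hX1 : 1 ≤ X)
    (hlam : ∀ o, 1 ≤ lam o ∧ lam o ≤ X) (hK : X⁻¹ ≤ K) (hKX : K ≤ X)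
    (h𝒬 : 𝒬 ⊆ QA M f ⌊X⌋₊) (z : O × {q : Q5 // q ∈ 𝒬}) :
    (X ^ 60)⁻¹ ≤ Qz lam K z ∧ Qz lam K z ≤ X ^ 60 := by
  have hX0 : 0 < X := by linarith
  obtain ⟨⟨h1, h2, h3, -, -⟩, hq⟩ := mem_QA.mp (h𝒬 z.2.2)
  have hfl : (⌊X⌋₊ : ℝ) ≤ X := Nat.floor_le (by linarith)
  have hD : IsPrim (z.2.1.D0 * z.2.1.D1) := hq.pD0.mul hq.pD1
  have hD1 : (1 : ℝ) ≤ nm (z.2.1.D0 * z.2.1.D1) := one_le_nm hD.ne_zero
  have hB1 : (1 : ℝ) ≤ nm z.2.1.B := one_le_nm hq.gb.2.1.ne_zero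
  have a1 : (nm (z.2.1.D0 * z.2.1.D1) : ℝ) ≤ X ^ 2 := by
    rw [nm_mul]
    push_cast
    calc (nm z.2.1.D0 : ℝ) * nm z.2.1.D1 ≤ ⌊X⌋₊ * ⌊X⌋₊ := by gcongr
      _ ≤ X * X := by gcongr
      _ = X ^ 2 := by ring
  have a2 : (nm z.2.1.B : ℝ) ≤ X ^ 2 := by
    calc (nm z.2.1.B : ℝ) ≤ ((⌊X⌋₊ ^ 2 : ℕ) : ℝ) := by exact_mod_cast h3
      _ = (⌊X⌋₊ : ℝ) ^ 2 := by push_cast; ring
      _ ≤ X ^ 2 := by gcongr
  have e4 : (nm ((z.2.1.D0 * z.2.1.D1) ^ 2 * z.2.1.B ^ 3) : ℝ) =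
      (nm (z.2.1.D0 * z.2.1.D1) : ℝ) ^ 2 * (nm z.2.1.B : ℝ) ^ 3 := by
    rw [nm_mul, nm_pow, nm_pow]; push_cast; ring
  have hl := hlam z.1
  unfold Qz
  rw [e4]
  set d : ℝ := (nm (z.2.1.D0 * z.2.1.D1) : ℝ)
  set β : ℝ := (nm z.2.1.B : ℝ)
  have hden : 1 ≤ lam z.1 * (d ^ 2 * β ^ 3) :=
    one_le_mul_of_one_le_of_one_le hl.1 (one_le_mul_of_one_le_of_one_le (one_le_pow₀ hD1)
      (one_le_pow₀ hB1))
  have hden2 : lam z.1 * (d ^ 2 * β ^ 3) ≤ X ^ 11 := by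
    have := hl.2
    have hl0 : 0 ≤ lam z.1 := by linarith [hl.1]
    calc lam z.1 * (d ^ 2 * β ^ 3) ≤ X * ((X ^ 2) ^ 2 * (X ^ 2) ^ 3) := by gcongr
      _ = X ^ 11 := by ring
  have hK0 : 0 < K := lt_of_lt_of_le (by positivity) hK
  constructor
  · rw [le_div_iff₀ (by linarith)]
    calc (X ^ 60)⁻¹ * (lam z.1 * (d ^ 2 * β ^ 3)) ≤ (X ^ 60)⁻¹ * X ^ 11 := by gcongr
      _ ≤ (X ^ 60)⁻¹ * X ^ 59 := by
        have : X ^ 11 ≤ X ^ 59 := pow_le_pow_right₀ hX1 (by norm_num)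
        gcongr
      _ = X⁻¹ := by field_simp
      _ ≤ K := hK
  · calc K / (lam z.1 * (d ^ 2 * β ^ 3)) ≤ K := div_le_self hK0.le hden
      _ ≤ X := hKX
      _ = X ^ 1 := (pow_one X).symm
      _ ≤ X ^ 60 := pow_le_pow_right₀ hX1 (by norm_num)

set_option maxHeartbeats 1000000 in
/-- **the dual half** over `z`, with a filter and a shifted weight -/
theorem dual_le (hOK : D.OK M) (i : ι) {ε A : ℝ} (hε : 0 < ε) (hA : 0 ≤ A) :
    ∃ (C : ℝ) (m₀ N₀ : ℕ), 0 ≤ C ∧ ∀ (W : ℝ → ℂ) (B h : ℝ), 0 ≤ B → 0 ≤ h →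
      WT m₀ N₀ B (fun y => W (y * Real.exp h)) →
    ∀ (f : Eis) (O : Type) (_ : Fintype O) (Np : O → Eis → Eis → Prop) (lam : O → ℝ)
      (v w : O → Eis → ℂ) (X K U S : ℝ) (sw : Eis → Eis → Eis → Eis → Eis → Prop),
      Dat4 M f lam v w X → 1 ≤ K → K ≤ X → 0 < U → U ≤ X → Real.exp h ≤ X → 0 ≤ S →
      (∀ o x y, v o x ≠ 0 → w o y ≠ 0 → (nm (f * x * y) : ℝ) * lam o ^ 2 ≤ U) →
      (∀ ξ, JB M f lam v w (gx (D.η i) D.j ξ)
        (rngG sw Np lam (Real.exp h * (U / K) * X ^ ε)) ((1 + |ξ|) ^ A * S)) →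
    ∀ (𝒬 : Finset Q5), 𝒬 ⊆ QA M f ⌊X⌋₊ → (∀ q ∈ 𝒬, sw q.D0 q.D1 q.B q.R q.Z) →
    ∀ (c : O × {q : Q5 // q ∈ 𝒬} → ℂ),
      (∀ z, ‖c z‖ ≤ (nm (z.2.1.D0 * z.2.1.D1) : ℝ) ^ (3 / 2 : ℝ) * (nm z.2.1.B : ℝ) ^ 3) →
      ‖∑ z : O × {q : Q5 // q ∈ 𝒬}, Bi (vz v z) (fun y => c z * wz w z y)
        (fun x y => (Qz lam K z : ℂ) * (End699.tw (D.η i) D.j (fz f z * x * y) *
          D3F M (End699.tw (D.ψ' i) D.l') (fz f z * x * y) W
            (D.ρ i * nm (fz f z * x * y) / Qz lam K z)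
            (fun d => Np z.1 (z.2.1.D0 * z.2.1.D1) d)))‖ ≤
        C * X ^ ε * (B * (K * S + X ^ (-A))) := by
  classical
  set P : ℕ := 70 + ⌈ε⌉₊ with hP
  have hP0 : (0 : ℝ) < P := by
    rw [hP]; positivity
  obtain ⟨Cl, hCl0, hcl⟩ := E4cls176.classes (ε / (4 * P)) (by positivity)
  obtain ⟨Cb, m₀, N₀, hCb0, hb⟩ := lBdSf M D.M' D.j (D.η i) (D.ψ' i) D.l' (D.ρ i) (hOK.η i)
    (hOK.ψ' i) hOK.dvd hOK.ne hOK.rad (hOK.ρ i) (ε / 120) (A + 1) (by positivity) (by linarith)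
  refine ⟨Cb * (Cl + 1), m₀, N₀, by positivity, ?_⟩
  intro W B h hB hh hW f O _ Np lam v w X K U S sw hdat hK1 hKX hU hUX hhX hS hlen hJ 𝒬 hsub
    hsw c hc
  have hX1 := hdat.X1
  have hX0 : 0 < X := by linarith
  have hK0 : 0 < K := by linarith
  have hlam : ∀ o, 0 < lam o := fun o => lt_of_lt_of_le one_pos (hdat.lam1 o).1
  have hX60 : (1 : ℝ) ≤ X ^ 60 := one_le_pow₀ hX1
  have he0 : 0 < Real.exp h := Real.exp_pos h
  set K' : ℝ := K * Real.exp (-h) with hK'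
  have hK'0 : 0 < K' := by positivity
  have hK'X : K' ≤ X := by
    have : Real.exp (-h) ≤ 1 := Real.exp_le_one_iff.mpr (by linarith)
    calc K' ≤ K * 1 := by rw [hK']; gcongr
      _ ≤ X := by linarith
  have hK'l : X⁻¹ ≤ K' := by
    have h1 : X⁻¹ ≤ Real.exp (-h) := by
      rw [Real.exp_neg]
      exact inv_anti₀ he0 hhX
    calc X⁻¹ ≤ Real.exp (-h) := h1
      _ ≤ K * Real.exp (-h) := le_mul_of_one_le_left (Real.exp_pos _).le hK1
  set Kd : O × {q : Q5 // q ∈ 𝒬} → ℝ := fun z =>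
    Real.exp h * (U / K) * nm (z.2.1.D0 * z.2.1.D1) / lam z.1 with hKd
  have hq : ∀ z : O × {q : Q5 // q ∈ 𝒬}, QOK M f z.2.1 := fun z => (mem_QA.mp (hsub z.2.2)).2
  have hDn : ∀ z : O × {q : Q5 // q ∈ 𝒬}, (1 : ℝ) ≤ nm (z.2.1.D0 * z.2.1.D1) ∧
      (nm (z.2.1.D0 * z.2.1.D1) : ℝ) ≤ X ^ 2 := by
    intro z
    obtain ⟨⟨h1, h2, -, -, -⟩, hq⟩ := mem_QA.mp (hsub z.2.2)
    have hfl : (⌊X⌋₊ : ℝ) ≤ X := Nat.floor_le (by linarith)
    refine ⟨one_le_nm (hq.pD0.mul hq.pD1).ne_zero, ?_⟩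
    rw [nm_mul]
    push_cast
    calc (nm z.2.1.D0 : ℝ) * nm z.2.1.D1 ≤ ⌊X⌋₊ * ⌊X⌋₊ := by gcongr
      _ ≤ X * X := by gcongr
      _ = X ^ 2 := by ring
  have hKd0 : ∀ z, 0 < Kd z := fun z => by
    have h1 := (hDn z).1
    have h2 := hlam z.1
    simp only [hKd]
    positivity
  have hKd4 : ∀ z, Kd z ≤ X ^ 4 := fun z => by
    have h1 := (hDn z)
    have h2 := (hdat.lam1 z.1).1
    have h3 : U / K ≤ X := (div_le_self hU.le hK1).trans hUX
    have h4 : 0 ≤ U / K := by positivity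
    simp only [hKd]
    refine (div_le_self (by positivity) h2).trans ?_
    calc Real.exp h * (U / K) * nm (z.2.1.D0 * z.2.1.D1) ≤ X * X * X ^ 2 := by
          have := h1.2
          gcongr
      _ = X ^ 4 := by ring
  have hKd60 : ∀ z, 0 < Kd z ∧ Kd z ≤ X ^ 60 := fun z =>
    ⟨hKd0 z, (hKd4 z).trans (pow_le_pow_right₀ hX1 (by norm_num))⟩
  have e60 : (X ^ 60 : ℝ) ^ (ε / 120) = X ^ (ε / 2) := by
    rw [pow_rpow hX0]; congr 1; push_cast; ring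
  set Y : ℝ := X ^ P with hY
  have hP60 : 60 ≤ P := by omega
  have h60Y : X ^ 60 ≤ Y := pow_le_pow_right₀ hX1 hP60
  have hY1 : 1 ≤ Y := one_le_pow₀ hX1
  set Kz : O × {q : Q5 // q ∈ 𝒬} → ℝ := fun z => Kd z * (X ^ 60 : ℝ) ^ (ε / 120) with hKz
  have hKzY : ∀ z, Kz z ≤ Y := fun z => by
    simp only [hKz]
    rw [e60]
    calc Kd z * X ^ (ε / 2) ≤ X ^ 4 * X ^ ((⌈ε⌉₊ : ℕ) : ℝ) := by
          have h1 := hKd4 z
          have h2 : X ^ (ε / 2) ≤ X ^ ((⌈ε⌉₊ : ℕ) : ℝ) :=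
            Real.rpow_le_rpow_of_exponent_le hX1 (by linarith [Nat.le_ceil ε])
          have h3 := (hKd0 z).le
          gcongr
      _ = X ^ (4 + ⌈ε⌉₊) := by rw [Real.rpow_natCast, pow_add]
      _ ≤ Y := pow_le_pow_right₀ hX1 (by omega)
  -- the positive sum
  have hXP : (Y : ℝ) ^ (ε / (4 * P)) = X ^ (ε / 4) := by
    rw [hY, pow_rpow hX0]
    congr 1
    field_simp
  set S₁ : ℝ := K' * (Cl * X ^ (ε / 4) * S) with hS₁
  have hS₁0 : 0 ≤ S₁ := by positivity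
  have hpos : ∀ ξ : ℝ, BSf M (fz f) (vz v) (fun z y => c z * wz w z y)
      (fun b y => sy y b * gx (D.η i) D.j ξ y) (X ^ 60) (Qz lam K') Kz
      (fun z d => Np z.1 (z.2.1.D0 * z.2.1.D1) d) ≤ (1 + |ξ|) ^ (A + 1) * S₁ := by
    intro ξ
    have hξ : (1 : ℝ) ≤ 1 + |ξ| := by linarith [abs_nonneg ξ]
    have hA1 : 0 ≤ (1 + |ξ|) ^ A := by positivity
    have hJt := hcl M f O lam v w (gx (D.η i) D.j ξ)
      (rngG sw Np lam (Real.exp h * (U / K) * X ^ ε)) Y ((1 + |ξ|) ^ A * S) hY1 (by positivity)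
      (fun o => ⟨(hdat.lam1 o).1, (hdat.lam1 o).2.trans (by
        calc X = X ^ 1 := (pow_one X).symm
          _ ≤ Y := pow_le_pow_right₀ hX1 (by omega))⟩) (hJ ξ)
    have h1 := bsf_le (𝒬 := 𝒬) hJt hlam hK'0 (fun q hq' => ⟨(mem_QA.mp (hsub hq')).2, by
        have h2 := QA_sz hX1 (hsub hq')
        have h3 : X ^ 2 ≤ Y := pow_le_pow_right₀ hX1 (by omega)
        exact ⟨h2.D0.trans h3, h2.D1.trans h3, h2.B.trans h3, h2.R.trans h3, h2.Z.trans h3⟩⟩)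
      c hc (X := X ^ 60) (by positivity) h60Y Kz hKzY
      (fun z d => Np z.1 (z.2.1.D0 * z.2.1.D1) d) (fun z i' hn _ hNp => by
        refine ⟨⟨hsw _ z.2.2, ?_⟩, hNp⟩
        have hl := hlam z.1
        have h2 : (nm (i'.1.1 * i'.1.2) : ℝ) ≤ Kd z * X ^ (ε / 2) := by
          rw [← e60]; exact hn
        have h3 : X ^ (ε / 2) ≤ X ^ ε :=
          Real.rpow_le_rpow_of_exponent_le hX1 (by linarith)
        show lam z.1 * (nm (i'.1.1 * i'.1.2) : ℝ) ≤ Real.exp h * (U / K) * X ^ ε *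
          nm (z.2.1.D0 * z.2.1.D1)
        calc lam z.1 * (nm (i'.1.1 * i'.1.2) : ℝ) ≤ lam z.1 * (Kd z * X ^ ε) := by
              have := (hKd0 z).le
              have h4 : (nm (i'.1.1 * i'.1.2) : ℝ) ≤ Kd z * X ^ ε :=
                h2.trans (mul_le_mul_of_nonneg_left h3 this)
              exact mul_le_mul_of_nonneg_left h4 hl.le
          _ = _ := by
              simp only [hKd]
              field_simp)
    refine h1.trans ?_
    have h2 : (1 + |ξ|) ^ A ≤ (1 + |ξ|) ^ (A + 1) :=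
      Real.rpow_le_rpow_of_exponent_le hξ (by linarith)
    rw [hXP, hS₁]
    calc K' * (Cl * X ^ (ε / 4) * ((1 + |ξ|) ^ A * S))
        = (1 + |ξ|) ^ A * (K' * (Cl * X ^ (ε / 4) * S)) := by ring
      _ ≤ _ := mul_le_mul_of_nonneg_right h2 hS₁0
  -- the call
  have key := hb (O × {q : Q5 // q ∈ 𝒬}) inferInstance (fz f) (vz v) (fun z y => c z * wz w z y)
    (X ^ 60) (Qz lam K') Kd B (fun y => W (y * Real.exp h)) S₁
    (fun z d => Np z.1 (z.2.1.D0 * z.2.1.D1) d) (datz hdat hsub c hc)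
    (fun z => Qz_bd hX1 hdat.lam1 hK'l hK'X hsub z) hKd60 hB hS₁0 hW
    (fun z x y hx hy => len_z hlam hK0 hlen z hdat.hf.1 (hq z) x y hx (right_ne_zero_of_mul hy) h)
    hpos
  have hQQ : ∀ z : O × {q : Q5 // q ∈ 𝒬}, Qz lam K z = Real.exp h * Qz lam K' z := by
    intro z
    unfold Qz
    rw [hK', Real.exp_neg]
    field_simp
  have e1 : ∀ z : O × {q : Q5 // q ∈ 𝒬}, Bi (vz v z) (fun y => c z * wz w z y)
        (fun x y => (Qz lam K z : ℂ) * (End699.tw (D.η i) D.j (fz f z * x * y) *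
          D3F M (End699.tw (D.ψ' i) D.l') (fz f z * x * y) W
            (D.ρ i * nm (fz f z * x * y) / Qz lam K z)
            (fun d => Np z.1 (z.2.1.D0 * z.2.1.D1) d))) =
      ((Real.exp h : ℝ) : ℂ) * ∑' x : Eis, vz v z x * ∑' y : Eis, (c z * wz w z y) *
        ((Qz lam K' z : ℂ) * (End699.tw (D.η i) D.j (fz f z * x * y) *
          D3F M (End699.tw (D.ψ' i) D.l') (fz f z * x * y) (fun y => W (y * Real.exp h))
            (D.ρ i * nm (fz f z * x * y) / Qz lam K' z)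
            (fun d => Np z.1 (z.2.1.D0 * z.2.1.D1) d))) := by
    intro z
    have h2 := E4fe502.bi_smul (vz v z) (fun y => c z * wz w z y) ((Real.exp h : ℝ) : ℂ)
      (fun x y => (Qz lam K' z : ℂ) * (End699.tw (D.η i) D.j (fz f z * x * y) *
          D3F M (End699.tw (D.ψ' i) D.l') (fz f z * x * y) (fun y => W (y * Real.exp h))
            (D.ρ i * nm (fz f z * x * y) / Qz lam K' z)
            (fun d => Np z.1 (z.2.1.D0 * z.2.1.D1) d)))
    have h3 : ∀ x y : Eis, (Qz lam K z : ℂ) * (End699.tw (D.η i) D.j (fz f z * x * y) *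
          D3F M (End699.tw (D.ψ' i) D.l') (fz f z * x * y) W
            (D.ρ i * nm (fz f z * x * y) / Qz lam K z)
            (fun d => Np z.1 (z.2.1.D0 * z.2.1.D1) d)) =
        ((Real.exp h : ℝ) : ℂ) * ((Qz lam K' z : ℂ) * (End699.tw (D.η i) D.j (fz f z * x * y) *
          D3F M (End699.tw (D.ψ' i) D.l') (fz f z * x * y) (fun y => W (y * Real.exp h))
            (D.ρ i * nm (fz f z * x * y) / Qz lam K' z)
            (fun d => Np z.1 (z.2.1.D0 * z.2.1.D1) d))) := by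
      intro x y
      have h4 : D.ρ i * nm (fz f z * x * y) / Qz lam K z * Real.exp h =
          D.ρ i * nm (fz f z * x * y) / Qz lam K' z := by
        rw [hQQ z]
        have := (hKd60 z).1
        by_cases h0 : Qz lam K' z = 0
        · rw [h0]; simp
        · field_simp
      rw [D3F_shift M _ _ W _ h, h4, hQQ z]
      push_cast
      ring
    have h5 : (fun x y => (Qz lam K z : ℂ) * (End699.tw (D.η i) D.j (fz f z * x * y) *
          D3F M (End699.tw (D.ψ' i) D.l') (fz f z * x * y) W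
            (D.ρ i * nm (fz f z * x * y) / Qz lam K z)
            (fun d => Np z.1 (z.2.1.D0 * z.2.1.D1) d))) = fun x y =>
        ((Real.exp h : ℝ) : ℂ) * ((Qz lam K' z : ℂ) * (End699.tw (D.η i) D.j (fz f z * x * y) *
          D3F M (End699.tw (D.ψ' i) D.l') (fz f z * x * y) (fun y => W (y * Real.exp h))
            (D.ρ i * nm (fz f z * x * y) / Qz lam K' z)
            (fun d => Np z.1 (z.2.1.D0 * z.2.1.D1) d))) := funext fun x => funext fun y => h3 x y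
    rw [h5, h2]
    rfl
  rw [Finset.sum_congr rfl fun z _ => e1 z, ← Finset.mul_sum, norm_mul, Complex.norm_real,
    Real.norm_of_nonneg he0.le]
  refine (mul_le_mul_of_nonneg_left key he0.le).trans ?_
  rw [e60]
  have e7 : Real.exp h * S₁ = K * (Cl * X ^ (ε / 4) * S) := by
    rw [hS₁, hK', Real.exp_neg]
    field_simp
  have e8 : Real.exp h * (X ^ 60 : ℝ) ^ (-(A + 1)) ≤ X ^ (-A) := by
    rw [pow_rpow hX0]
    calc Real.exp h * X ^ (((60 : ℕ) : ℝ) * -(A + 1)) ≤ X ^ (1 : ℝ) *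
          X ^ (((60 : ℕ) : ℝ) * -(A + 1)) := by
          rw [Real.rpow_one]
          gcongr
      _ = X ^ (1 + ((60 : ℕ) : ℝ) * -(A + 1)) := (Real.rpow_add hX0 _ _).symm
      _ ≤ X ^ (-A) := Real.rpow_le_rpow_of_exponent_le hX1 (by push_cast; linarith)
  have hX4 : (1 : ℝ) ≤ X ^ (ε / 4) := Real.one_le_rpow hX1 (by positivity)
  have hXA : 0 < X ^ (-A) := Real.rpow_pos_of_pos hX0 _
  have hX2 : (0 : ℝ) < X ^ (ε / 2) := Real.rpow_pos_of_pos hX0 _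
  have hXe : X ^ (ε / 2) * X ^ (ε / 4) ≤ X ^ ε := by
    rw [← Real.rpow_add hX0]
    exact Real.rpow_le_rpow_of_exponent_le hX1 (by linarith)
  calc Real.exp h * (Cb * X ^ (ε / 2) * (B * (S₁ + (X ^ 60 : ℝ) ^ (-(A + 1)))))
      = Cb * X ^ (ε / 2) * (B * (Real.exp h * S₁ + Real.exp h * (X ^ 60 : ℝ) ^ (-(A + 1)))) := by
        ring
    _ ≤ Cb * X ^ (ε / 2) * (B * (K * (Cl * X ^ (ε / 4) * S) + X ^ (-A))) := by
        rw [e7]
        gcongr
    _ ≤ Cb * X ^ (ε / 2) * (B * ((Cl + 1) * X ^ (ε / 4) * (K * S + X ^ (-A)))) := by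
        have h1 : K * (Cl * X ^ (ε / 4) * S) ≤ (Cl + 1) * X ^ (ε / 4) * (K * S) := by
          have : 0 ≤ X ^ (ε / 4) * (K * S) := by positivity
          nlinarith
        have h2 : X ^ (-A) ≤ (Cl + 1) * X ^ (ε / 4) * X ^ (-A) := by
          have : 1 ≤ (Cl + 1) * X ^ (ε / 4) := by nlinarith
          exact le_mul_of_one_le_left hXA.le this
        gcongr
        nlinarith
    _ = Cb * (Cl + 1) * (X ^ (ε / 2) * X ^ (ε / 4)) * (B * (K * S + X ^ (-A))) := by ring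
    _ ≤ _ := by gcongr

end

end Crest.Agent.R017.E4R266
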