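import Crest.Agent.R017.E4v7_352
import Crest.Agent.R017.E4Pr_266
import Crest.Agent.R017.E4LxC_266

/-!
# Row 17, C70/E4, version 7, exceptional class: `E4core7x` as a `Prop` (helper266)

The weight is compensated, `cmp V₀ h`; the dual weights are of class `WTx` (decay `y^{1/3}` at `0`,
rapid decay beyond `e^h`). The dual block hypothesis is only over the terms with non-principal
frequency `¬ PrD (D0 D1) (b k)`; the principal frequencies are bounded by `Mp1`.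
-/

set_option autoImplicit false

noncomputable section

open Complex
open scoped ComplexConjugate

namespace Crest.Agent.R017.E4X266

open Crest.Agent.R012 Crest.Agent.R012.Eis Crest.Agent.R012.Mob705 Crest.Agent.R012.Gauss880
open Crest.Agent.R017.Sx545 Crest.Agent.R017.CM106 Crest.Agent.R017.C70 Crest.Agent.R017.C590
open Crest.Agent.R017.End699 Crest.Agent.R017.B770 Crest.Agent.R017.Sx440
open Crest.Agent.R017.E2440 Crest.Agent.R017.E4352
open Crest.Agent.R017.E4v5 (Law5 HM5)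
open Crest.Agent.R017.E4J352 (Tm JB gx rngD rngF)
open Crest.Agent.R017.E4Pr266 (PrD Mp1)

/-- range of the dual half, non-principal frequencies -/
def rngX {O : Type} (sw : Eis → Eis → Eis → Eis → Eis → Prop) (lam : O → ℝ) (L : ℝ)
    (t : Tm O) : Prop :=
  rngF sw lam L t ∧ ¬ PrD (t.D0 * t.D1) (t.b * t.k)

/-- **E4core**, fully joint form, exceptional class -/
def E4core7x : Prop :=
  ∀ (M : Eis) (ψ : Eis → ℂ) (l : ℤ) (ι : Type) (_ : Fintype ι) (D : Dt3 ι), HC M ψ → D.OK M →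
  ∀ ε A : ℝ, 0 < ε → 0 ≤ A → ∃ (C : ℝ) (m₀ N₀ : ℕ), 0 ≤ C ∧
    ∀ (V : ℝ → ℂ) (W : ι → ℝ → ℂ) (mt : Eis → ℝ → ℂ) (B h : ℝ), 0 ≤ B → 0 ≤ h →
      Law5 M ψ l D (cmp V h) W mt →
      (∀ i, WTx m₀ N₀ B h (W i)) → (∀ y, ‖V y‖ ≤ B) → (∀ y, 1 < y → V y = 0) →
    ∀ (f : Eis) (O : Type) (_ : Fintype O) (lam : O → ℝ) (v w : O → Eis → ℂ)
      (X K U T₀ : ℝ) (S Mn : ℝ) (sw : Eis → Eis → Eis → Eis → Eis → Prop),
      Dat4 M f lam v w X →
      1 ≤ K → K ≤ X → 0 < U → U ≤ X → Real.exp h ≤ X → 0 ≤ S → 0 ≤ Mn →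
      (∀ o x y, v o x ≠ 0 → w o y ≠ 0 → (nm (f * x * y) : ℝ) * lam o ^ 2 ≤ U) →
      (∀ D0 D1 B R Z : Eis, sw D0 D1 B R Z → (nm D1 : ℝ) * nm (rd Z) ≤ 2 * T₀) →
      JB M f lam v w (fun _ => 1) (rngD sw lam K) S →
      (∀ i ξ, JB M f lam v w (gx (D.η i) D.j ξ) (rngX sw lam (Real.exp h * (U / K) * X ^ ε))
        ((1 + |ξ|) ^ A * S)) →
      HM5 M f lam v w K T₀ mt Mn →
      ‖∑ o, ∑' x : Eis, v o x * ∑' y : Eis, w o y *
        NT (M * (f * y)) (f * x * y)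
          (fun k => End699.tw ψ l k * cmp V h (nm k * lam o / K))‖ ≤
        C * X ^ ε * (B * (K * S + X ^ (-A)) + Mn +
          B * ∑ o, (K / lam o) ^ (4 / 3 : ℝ) * Mp1 f (v o) (w o))

end Crest.Agent.R017.E4X266
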