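import Crest.Agent.R017.E4v7d_352
import Crest.Agent.R017.E4Fx_266
import Crest.Agent.R017.E4v7x_266

/-!
# Row 17, C70/E4, version 7, exceptional class: `e4core7x : E4core7x` (helper266)

* `cntQ` : the weighted count over quintuples
* `prinZ` : the principal part over `z`
* `feQx` : the part with the functional equation
* `dirQx` : the direct part
-/

set_option autoImplicit false

noncomputable section

open Complex
open scoped ComplexConjugate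

namespace Crest.Agent.R017.E4X266

open Crest.Agent.R012 Crest.Agent.R012.Eis Crest.Agent.R012.Mob705 Crest.Agent.R012.Gauss880
open Crest.Agent.R012.Div277
open Crest.Agent.R017.Sx545 Crest.Agent.R017.CM106 Crest.Agent.R017.C70 Crest.Agent.R017.C590
open Crest.Agent.R017.End699 Crest.Agent.R017.B770 Crest.Agent.R017.Sx440
open Crest.Agent.R017.E2440 Crest.Agent.R017.E4352
open Crest.Agent.R017.E4o502 (vD wD GoodD GB ssm_tws bd_tws)
open Crest.Agent.R017.E4v5 (Law5 HM5 GB')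
open Crest.Agent.R017.E4fe502 (FF Dta Bi bi_right bi_add bi_smul bi_congr dG)
open Crest.Agent.R017.E4R266
open Crest.Agent.R017.E4S783 (D3F D3F_true)
open Crest.Agent.R017.E4J352 (Tm JB gx rngD rngF QB dta ez ez_sm ez_one ssm_vz ssm_wz fe_id polZ
  dcyFin wtMono qa_ok sum_Tq open_sw dirQ)
open Crest.Agent.R017.E4Pr266 (PrD Mp1 D3c Mp1_nonneg pr_le)

/-- the weighted count over quintuples -/
theorem cntQ {ε : ℝ} (hε : 0 < ε) : ∃ C : ℝ, 0 ≤ C ∧ ∀ (M f : Eis) (X : ℝ) (𝒬 : Finset Q5),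
    1 ≤ X → (∀ q ∈ 𝒬, QOK M f q ∧ QB ⌊X⌋₊ q) →
    ∑ q ∈ 𝒬, ((nm (q.D0 * q.D1) : ℝ) * nm q.B)⁻¹ ≤ C * X ^ ε := by
  classical
  obtain ⟨C, hC, H⟩ := E4sum176.cnt2 ε hε
  refine ⟨C, hC, ?_⟩
  intro M f X 𝒬 hX h𝒬
  have hX0 : 0 < X := by linarith
  refine le_trans ?_ (H X ⌊X⌋₊ hX (Nat.floor_le hX0.le))
  set N := ⌊X⌋₊ with hN
  have e2 : ∑ D0 ∈ primBall N, ∑ D1 ∈ primBall N, ∑ B ∈ primBall (N ^ 2),
      ∑ _R ∈ (primBall N).filter (fun R => PrI B R),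
        ∑ _Z ∈ (primBall N).filter (fun Z => PrI B Z), ((nm (D0 * D1) : ℝ) * nm B)⁻¹ =
      ∑ q ∈ (primBall N ×ˢ (primBall N ×ˢ (primBall (N ^ 2) ×ˢ
        (primBall N ×ˢ primBall N)))).filter
          (fun q : Q5 => PrI q.2.2.1 q.2.2.2.1 ∧ PrI q.2.2.1 q.2.2.2.2),
        ((nm (q.1 * q.2.1) : ℝ) * nm q.2.2.1)⁻¹ := by
    rw [Finset.sum_filter, Finset.sum_product]
    refine Finset.sum_congr rfl fun D0 _ => ?_
    rw [Finset.sum_product]
    refine Finset.sum_congr rfl fun D1 _ => ?_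
    rw [Finset.sum_product]
    refine Finset.sum_congr rfl fun B _ => ?_
    rw [Finset.sum_product, Finset.sum_filter]
    refine Finset.sum_congr rfl fun R _ => ?_
    by_cases hR : PrI B R
    · rw [if_pos hR, Finset.sum_filter]
      refine Finset.sum_congr rfl fun Z _ => ?_
      by_cases hZ : PrI B Z
      · rw [if_pos hZ, if_pos ⟨hR, hZ⟩]
      · rw [if_neg hZ, if_neg (fun h => hZ h.2)]
    · rw [if_neg hR]
      symm
      exact Finset.sum_eq_zero fun Z _ => if_neg fun h => hR h.1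
  rw [e2]
  refine Finset.sum_le_sum_of_subset_of_nonneg ?_ fun _ _ _ => by positivity
  intro q hq
  obtain ⟨g1, g2⟩ := h𝒬 q hq
  rw [Finset.mem_filter]
  simp only [Finset.mem_product, mem_primBall]
  exact ⟨⟨⟨g2.D0, g1.pD0⟩, ⟨g2.D1, g1.pD1⟩, ⟨g2.B, g1.gb.2.1.prim⟩, ⟨g2.R, g1.pR.1⟩,
    ⟨g2.Z, g1.pZ.1⟩⟩, g1.pR, g1.pZ⟩

/-- **the principal part** over `z` -/
theorem prinZ {ρ : ℝ} (hρ : 0 < ρ) {ε : ℝ} (hε : 0 < ε) : ∃ C : ℝ, 0 ≤ C ∧
    ∀ (M f : Eis) (O : Type) (_ : Fintype O) (lam : O → ℝ) (v w : O → Eis → ℂ) (X K B : ℝ)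
      (χ₁ χ₂ : Eis → ℂ) (W : ℝ → ℂ) (𝒬 : Finset Q5) (c : O × {q : Q5 // q ∈ 𝒬} → ℂ),
      Dat4 M f lam v w X → 0 < K → 0 ≤ B → (∀ d, IsPrim d → ‖χ₁ d‖ ≤ 1) →
      (∀ d, IsPrim d → ‖χ₂ d‖ ≤ 1) → (∀ y : ℝ, 0 < y → ‖W y‖ ≤ B * y ^ (1 / 3 : ℝ)) →
      (∀ q ∈ 𝒬, QOK M f q ∧ QB ⌊X⌋₊ q) →
      (∀ z, ‖c z‖ ≤ (nm (z.2.1.D0 * z.2.1.D1) : ℝ) ^ (3 / 2 : ℝ) * (nm z.2.1.B : ℝ) ^ 3) →
      ‖∑ z : O × {q : Q5 // q ∈ 𝒬}, Bi (vz v z) (fun y => c z * wz w z y)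
        (fun x y => (Qz lam K z : ℂ) * (χ₁ (fz f z * x * y) *
          D3c (PrD (z.2.1.D0 * z.2.1.D1)) M χ₂ (fz f z * x * y) W
            (ρ * nm (fz f z * x * y) / Qz lam K z)))‖ ≤
        C * X ^ ε * (B * ∑ o, (K / lam o) ^ (4 / 3 : ℝ) * Mp1 f (v o) (w o)) := by
  obtain ⟨C1, h10, H1⟩ := cntQ (ε := ε / 2) (by positivity)
  obtain ⟨C2, hC2, H2⟩ := tau_le_rpow (ε := ε / 6) (by positivity)
  refine ⟨C1 * (C2 * ρ ^ (-(1 / 3) : ℝ)), by positivity, ?_⟩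
  intro M f O _ lam v w X K B χ₁ χ₂ W 𝒬 c hdat hK hB hχ₁ hχ₂ hW h𝒬 hc
  have hX1 := hdat.X1
  have hX0 : 0 < X := by linarith
  have hlam0 : ∀ o, 0 < lam o := fun o => by linarith [(hdat.lam1 o).1]
  set τ₀ : ℝ := C2 * X ^ (ε / 2) with hτ₀
  have hτ0 : 0 ≤ τ₀ := by positivity
  have hτ : ∀ o x y, v o x ≠ 0 → w o y ≠ 0 → (tau (f * x * y) : ℝ) ≤ τ₀ := by
    intro o x y hx hy
    have s1 := (hdat.hv o).sm x hx
    have s2 := (hdat.hw o).sm y hy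
    have h0 : f * x * y ≠ 0 :=
      mul_ne_zero (mul_ne_zero hdat.hf.1.ne_zero s1.ne_zero) s2.ne_zero
    have h1 : (nm (f * x * y) : ℝ) ≤ X ^ 3 := by
      have a1 := hdat.hf.2
      have a2 := (hdat.vx o x hx).2
      have a3 := hdat.wy o y hy
      rw [nm_mul, nm_mul]
      push_cast
      calc (nm f : ℝ) * nm x * nm y ≤ X * X * X := by gcongr
        _ = X ^ 3 := by ring
    refine (H2 _ h0).trans ?_
    rw [hτ₀]
    refine mul_le_mul_of_nonneg_left ?_ (by linarith)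
    calc (nm (f * x * y) : ℝ) ^ (ε / 6) ≤ (X ^ 3) ^ (ε / 6) :=
          Real.rpow_le_rpow (Nat.cast_nonneg _) h1 (by positivity)
      _ = X ^ (ε / 2) := by
          rw [pow_rpow hX0]; congr 1; push_cast; ring
  have hterm : ∀ z : O × {q : Q5 // q ∈ 𝒬}, ‖Bi (vz v z) (fun y => c z * wz w z y)
        (fun x y => (Qz lam K z : ℂ) * (χ₁ (fz f z * x * y) *
          D3c (PrD (z.2.1.D0 * z.2.1.D1)) M χ₂ (fz f z * x * y) W
            (ρ * nm (fz f z * x * y) / Qz lam K z)))‖ ≤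
      (τ₀ * B * ρ ^ (-(1 / 3) : ℝ)) * (((K / lam z.1) ^ (4 / 3 : ℝ) * Mp1 f (v z.1) (w z.1)) *
        ((nm (z.2.1.D0 * z.2.1.D1) : ℝ) * nm z.2.1.B)⁻¹) := by
    intro z
    have hq := (h𝒬 _ z.2.2).1
    rw [bi_right, norm_mul]
    have key := pr_le (dta hdat.hf.1 hq) (hdat.hv z.1) (hdat.hw z.1) hq.good hq.pD1
      hq.gb.2.2.1 hχ₁ hχ₂ hB hW hρ hK (hlam0 z.1) (hτ z.1) hτ0
    set G := ‖Bi (vz v z) (wz w z)
        (fun x y => (Qz lam K z : ℂ) * (χ₁ (fz f z * x * y) *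
          D3c (PrD (z.2.1.D0 * z.2.1.D1)) M χ₂ (fz f z * x * y) W
            (ρ * nm (fz f z * x * y) / Qz lam K z)))‖ with hG
    have hG0 : 0 ≤ G := norm_nonneg _
    calc ‖c z‖ * G ≤ ((nm (z.2.1.D0 * z.2.1.D1) : ℝ) ^ (3 / 2 : ℝ) * (nm z.2.1.B : ℝ) ^ 3) * G :=
          mul_le_mul_of_nonneg_right (hc z) hG0
      _ = (nm (z.2.1.D0 * z.2.1.D1) : ℝ) ^ (3 / 2 : ℝ) * ((nm z.2.1.B : ℝ) ^ 3 * G) := by ring
      _ ≤ _ := key
      _ = _ := by rw [div_eq_mul_inv]; ring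
  refine (norm_sum_le _ _).trans ((Finset.sum_le_sum fun z _ => hterm z).trans ?_)
  rw [← Finset.mul_sum, Fintype.sum_prod_type]
  have e1 : ∀ o : O, ∑ q : {q : Q5 // q ∈ 𝒬}, ((K / lam (o, q).1) ^ (4 / 3 : ℝ) *
      Mp1 f (v (o, q).1) (w (o, q).1)) *
        ((nm ((o, q).2.1.D0 * (o, q).2.1.D1) : ℝ) * nm (o, q).2.1.B)⁻¹ =
      ((K / lam o) ^ (4 / 3 : ℝ) * Mp1 f (v o) (w o)) *
        ∑ q ∈ 𝒬, ((nm (q.D0 * q.D1) : ℝ) * nm q.B)⁻¹ := by
    intro o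
    simp only
    rw [← Finset.mul_sum, Finset.sum_coe_sort 𝒬 (fun q => ((nm (q.D0 * q.D1) : ℝ) * nm q.B)⁻¹)]
  rw [Finset.sum_congr rfl fun o _ => e1 o, ← Finset.sum_mul]
  have hSn : 0 ≤ ∑ o, (K / lam o) ^ (4 / 3 : ℝ) * Mp1 f (v o) (w o) :=
    Finset.sum_nonneg fun o _ => by
      have := Mp1_nonneg f (v o) (w o)
      have := hlam0 o
      positivity
  have hcnt := H1 M f X 𝒬 hX1 h𝒬
  set Sg := ∑ o, (K / lam o) ^ (4 / 3 : ℝ) * Mp1 f (v o) (w o) with hSg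
  calc τ₀ * B * ρ ^ (-(1 / 3) : ℝ) * (Sg * ∑ q ∈ 𝒬, ((nm (q.D0 * q.D1) : ℝ) * nm q.B)⁻¹)
      ≤ τ₀ * B * ρ ^ (-(1 / 3) : ℝ) * (Sg * (C1 * X ^ (ε / 2))) := by gcongr
    _ = C1 * (C2 * ρ ^ (-(1 / 3) : ℝ)) * (X ^ (ε / 2) * X ^ (ε / 2)) * (B * Sg) := by
        rw [hτ₀]; ring
    _ = _ := by
        rw [← Real.rpow_add hX0, show ε / 2 + ε / 2 = ε by ring]

/-- the direct part, compensated weight -/
theorem dirQx {ε : ℝ} (hε : 0 < ε) : ∃ C : ℝ, 0 ≤ C ∧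
    ∀ (M f : Eis) (ψ : Eis → ℂ) (l : ℤ) (V : ℝ → ℂ) (h : ℝ) (O : Type) (_ : Fintype O)
      (lam : O → ℝ) (v w : O → Eis → ℂ) (X K B : ℝ) (S : ℝ)
      (sw : Eis → Eis → Eis → Eis → Eis → Prop) (𝒬 : Finset Q5),
      HC M ψ → 0 ≤ h → (∀ y, ‖V y‖ ≤ B) → (∀ y, 1 < y → V y = 0) →
      Dat4 M f lam v w X → 1 ≤ K → K ≤ X → 0 ≤ B → 0 ≤ S →
      JB M f lam v w (fun _ => 1) (rngD sw lam K) S →
      (∀ q ∈ 𝒬, QOK M f q ∧ QB ⌊X⌋₊ q) → (∀ q ∈ 𝒬, ¬ sw q.D0 q.D1 q.B q.R q.Z) →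
      ‖∑ z : O × {q : Q5 // q ∈ 𝒬}, cq f z.2.1 * Bi (vz v z) (wz w z)
        (fun x y => NT M (fz f z * x * y) (fun k => End699.tw ψ l (ez z.2.1 * k) *
          cmp V h (nm (ez z.2.1 * k) * lam z.1 / K)))‖ ≤
        C * X ^ ε * (B * (K * S)) := by
  obtain ⟨C, hC, H⟩ := dirQ hε
  refine ⟨2 * C, by positivity, ?_⟩
  intro M f ψ l V h O _ lam v w X K B S sw 𝒬 hψ hh hVB hV1 hdat hK1 hKX hB hS hJ h𝒬 hsw
  have hX1 := hdat.X1
  have hX0 : 0 < X := by linarith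
  have hK : 0 < K := by linarith
  have he0 : 0 < Real.exp h := Real.exp_pos h
  have hlam0 : ∀ o, 0 < lam o := fun o => by linarith [(hdat.lam1 o).1]
  have hq : ∀ q ∈ 𝒬, QOK M f q := fun q hq => (h𝒬 q hq).1
  set φ1 : O → Eis → ℂ := fun o k => End699.tw ψ l k * V (nm k * lam o / K) with hφ1
  set φ2 : O → Eis → ℂ := fun o k => ((Real.exp h : ℝ) : ℂ) * (End699.tw ψ l k *
    V (nm k * lam o / K * Real.exp h)) with hφ2
  set K' : ℝ := K * Real.exp (-h) with hK'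
  have hK'0 : 0 < K' := by positivity
  have hexp : Real.exp (-h) ≤ 1 := Real.exp_le_one_iff.mpr (by linarith)
  have hK'K : K' ≤ K := by
    rw [hK']; exact mul_le_of_le_one_right hK.le hexp
  have tw1 : ∀ k, Sm M k → ‖End699.tw ψ l k‖ ≤ 1 := fun k hk => (hψ.isChar_tw l).norm_le hk.prim
  have b1 : ∀ o k, Sm M k → ‖φ1 o k‖ ≤ B := by
    intro o k hk
    simp only [hφ1]
    rw [norm_mul]
    calc ‖End699.tw ψ l k‖ * ‖V (nm k * lam o / K)‖ ≤ 1 * B :=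
          mul_le_mul (tw1 k hk) (hVB _) (norm_nonneg _) zero_le_one
      _ = B := one_mul B
  have b2 : ∀ o k, Sm M k → ‖φ2 o k‖ ≤ Real.exp h * B := by
    intro o k hk
    simp only [hφ2]
    rw [norm_mul, norm_mul, Complex.norm_real, Real.norm_of_nonneg he0.le]
    calc Real.exp h * (‖End699.tw ψ l k‖ * ‖V (nm k * lam o / K * Real.exp h)‖) ≤
          Real.exp h * (1 * B) := by
          refine mul_le_mul_of_nonneg_left ?_ he0.le
          exact mul_le_mul (tw1 k hk) (hVB _) (norm_nonneg _) zero_le_one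
      _ = _ := by rw [one_mul]
  have z1 : ∀ o k, K / lam o < nm k → φ1 o k = 0 := by
    intro o k hk
    simp only [hφ1]
    rw [hV1, mul_zero]
    rw [lt_div_iff₀ hK, one_mul]
    exact (div_lt_iff₀ (hlam0 o)).mp hk
  have z2 : ∀ o k, K' / lam o < nm k → φ2 o k = 0 := by
    intro o k hk
    simp only [hφ2]
    rw [hV1, mul_zero, mul_zero]
    have h1 := (div_lt_iff₀ (hlam0 o)).mp hk
    rw [div_mul_eq_mul_div, lt_div_iff₀ hK, one_mul]
    calc K = K' * Real.exp h := by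
          rw [hK', mul_assoc, ← Real.exp_add]; simp
      _ < _ := mul_lt_mul_of_pos_right h1 he0
  have d1 : ∀ o, Dcy (φ1 o) := fun o => dcyFin (z1 o)
  have d2 : ∀ o, Dcy (φ2 o) := fun o => dcyFin (z2 o)
  have dez : ∀ {φ : Eis → ℂ} {q : Q5} {N : ℝ}, QOK M f q → (∀ k, N < nm k → φ k = 0) →
      Dcy (fun k => φ (ez q * k)) := by
    intro φ q N hq' hφ
    refine dcyFin (N := N) fun k hk => hφ _ ?_
    rw [nm_mul]
    push_cast
    have h1 := ez_one hq'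
    have h2 : (0 : ℝ) ≤ nm k := Nat.cast_nonneg _
    nlinarith
  have e1 : ∑ z : O × {q : Q5 // q ∈ 𝒬}, cq f z.2.1 * Bi (vz v z) (wz w z)
        (fun x y => NT M (fz f z * x * y) (fun k => End699.tw ψ l (ez z.2.1 * k) *
          cmp V h (nm (ez z.2.1 * k) * lam z.1 / K))) =
      (∑ z : O × {q : Q5 // q ∈ 𝒬}, cq f z.2.1 * Bi (vz v z) (wz w z)
        (fun x y => NT M (fz f z * x * y) (fun k => φ1 z.1 (ez z.2.1 * k)))) -
      ∑ z : O × {q : Q5 // q ∈ 𝒬}, cq f z.2.1 * Bi (vz v z) (wz w z)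
        (fun x y => NT M (fz f z * x * y) (fun k => φ2 z.1 (ez z.2.1 * k))) := by
    rw [← Finset.sum_sub_distrib]
    refine Finset.sum_congr rfl fun z _ => ?_
    have hqz := hq _ z.2.2
    have e2 : Bi (vz v z) (wz w z) (fun x y => NT M (fz f z * x * y) (fun k =>
        End699.tw ψ l (ez z.2.1 * k) * cmp V h (nm (ez z.2.1 * k) * lam z.1 / K))) =
      Bi (vz v z) (wz w z) (fun x y => NT M (fz f z * x * y) (fun k => φ1 z.1 (ez z.2.1 * k)) +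
        (-1 : ℂ) * NT M (fz f z * x * y) (fun k => φ2 z.1 (ez z.2.1 * k))) := by
      refine bi_congr (ssm_vz hdat.hv hq z) (ssm_wz hdat.hw hq z) fun x y _ _ => ?_
      have e3 : (fun k => End699.tw ψ l (ez z.2.1 * k) *
          cmp V h (nm (ez z.2.1 * k) * lam z.1 / K)) =
        fun k => φ1 z.1 (ez z.2.1 * k) - φ2 z.1 (ez z.2.1 * k) := by
        funext k
        simp only [hφ1, hφ2]
        unfold cmp
        ring
      rw [e3, NT_sub' (dez hqz (z1 z.1)) (dez hqz (z2 z.1))]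
      ring
    rw [e2, bi_add (ssm_vz hdat.hv hq z) (ssm_wz hdat.hw hq z), bi_smul]
    ring
  rw [e1]
  refine (norm_sub_le _ _).trans ?_
  have k1 := H M f O _ lam v w X K B φ1 S sw 𝒬 hdat hK hKX hB hS b1 z1 hJ h𝒬 hsw
  have k2 := H M f O _ lam v w X K' (Real.exp h * B) φ2 S sw 𝒬 hdat hK'0 (hK'K.trans hKX)
    (by positivity) hS b2 z2 (JB_mono (fun t ht => ⟨ht.1, ht.2.trans hK'K⟩) hJ) h𝒬 hsw
  have e4 : Real.exp h * B * (K' * S) = B * (K * S) := by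
    rw [hK', Real.exp_neg]
    field_simp
  rw [e4] at k2
  calc _ ≤ C * X ^ ε * (B * (K * S)) + C * X ^ ε * (B * (K * S)) := add_le_add k1 k2
    _ = _ := by ring

/-- the part with the functional equation -/
theorem feQx (M : Eis) (ψ : Eis → ℂ) (l : ℤ) (ι : Type) [Fintype ι] (D : Dt3 ι) (hψ : HC M ψ)
    (hOK : D.OK M) {ε A : ℝ} (hε : 0 < ε) (hA : 0 ≤ A) : ∃ (C : ℝ) (m₀ N₀ : ℕ), 0 ≤ C ∧
    ∀ (V : ℝ → ℂ) (W : ι → ℝ → ℂ) (mt : Eis → ℝ → ℂ) (B h : ℝ), 0 ≤ B → 0 ≤ h →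
      Law5 M ψ l D V W mt → (∀ i, WTx m₀ N₀ B h (W i)) →
    ∀ (f : Eis) (O : Type) (_ : Fintype O) (lam : O → ℝ) (v w : O → Eis → ℂ)
      (X K U T₀ : ℝ) (S Mn : ℝ) (sw : Eis → Eis → Eis → Eis → Eis → Prop) (𝒬 : Finset Q5),
      Dat4 M f lam v w X →
      1 ≤ K → K ≤ X → 0 < U → U ≤ X → Real.exp h ≤ X → 0 ≤ S → 0 ≤ Mn →
      (∀ o x y, v o x ≠ 0 → w o y ≠ 0 → (nm (f * x * y) : ℝ) * lam o ^ 2 ≤ U) →
      (∀ i ξ, JB M f lam v w (gx (D.η i) D.j ξ) (rngX sw lam (Real.exp h * (U / K) * X ^ ε))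
        ((1 + |ξ|) ^ A * S)) →
      HM5 M f lam v w K T₀ mt Mn → 𝒬 ⊆ QA M f ⌊X⌋₊ →
      (∀ q ∈ 𝒬, sw q.D0 q.D1 q.B q.R q.Z) →
      (∀ q ∈ 𝒬, (nm q.D1 : ℝ) * nm (rd q.Z) ≤ 2 * T₀) →
      ‖∑ z : O × {q : Q5 // q ∈ 𝒬}, cq f z.2.1 * Bi (vz v z) (wz w z)
        (fun x y => NT M (fz f z * x * y) (fun k => End699.tw ψ l (ez z.2.1 * k) *
          V (nm (ez z.2.1 * k) * lam z.1 / K)))‖ ≤
        C * X ^ ε * (B * (K * S + X ^ (-A)) + Mn +
          B * ∑ o, (K / lam o) ^ (4 / 3 : ℝ) * Mp1 f (v o) (w o)) := by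
  classical
  have hex : ∀ i : ι, _ := fun i => dual_le hOK i hε hA
  choose Cb mb Nb hCb0 hCb using hex
  have hex2 : ∀ i : ι, _ := fun i => prinZ (hOK.ρ i) hε
  choose Cr hCr0 hCr using hex2
  obtain ⟨Cp, hCp0, hCp⟩ := polZ hε
  have hCn : 0 ≤ ∑ i, ‖D.κ i‖ * Cb i :=
    Finset.sum_nonneg fun i _ => mul_nonneg (norm_nonneg _) (hCb0 i)
  have hCn2 : 0 ≤ ∑ i, ‖D.κ i‖ * Cr i :=
    Finset.sum_nonneg fun i _ => mul_nonneg (norm_nonneg _) (hCr0 i)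
  refine ⟨∑ i, ‖D.κ i‖ * Cb i + ∑ i, ‖D.κ i‖ * Cr i + Cp, Finset.univ.sup mb,
    Finset.univ.sup Nb + 2, by positivity, ?_⟩
  intro V W mt B h hB hh hL hWT f O _ lam v w X K U T₀ S Mn sw 𝒬 hdat hK1 hKX hU hUX hhX hS hMn
    hlen hJ hHM hsub hsw hT
  have hX1 := hdat.X1
  have hX0 : 0 < X := by linarith
  have hK : 0 < K := by linarith
  have hlam0 : ∀ o, 0 < lam o := fun o => by linarith [(hdat.lam1 o).1]
  have h𝒬 : ∀ q ∈ 𝒬, QOK M f q ∧ QB ⌊X⌋₊ q := fun q hq => qa_ok (hsub hq)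
  have hq : ∀ q ∈ 𝒬, QOK M f q := fun q hq => (h𝒬 q hq).1
  have htw : ∀ q ∈ 𝒬, ‖cq f q * End699.tw ψ l (ez q)‖ ≤
      (nm (q.D0 * q.D1) : ℝ) ^ (3 / 2 : ℝ) * (nm q.B : ℝ) ^ 3 := by
    intro q hq'
    rw [norm_mul]
    have a1 := norm_cq (hq q hq')
    have a2 := A590.norm_tw_le' hψ l (ez_sm (hq q hq')).prim
    have a3 := norm_nonneg (cq f q)
    calc ‖cq f q‖ * ‖End699.tw ψ l (ez q)‖ ≤ ‖cq f q‖ * 1 := by gcongr
      _ ≤ _ := by rw [mul_one]; exact a1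
  rw [fe_id hψ hL hdat.hf.1 hdat.hv hdat.hw hlam0 hK hq (cq f)]
  refine (norm_add_le _ _).trans ?_
  have hXε : 0 < X ^ ε := Real.rpow_pos_of_pos hX0 _
  -- polar part
  have e1 := hCp M f O _ lam v w X K T₀ Mn mt 𝒬 (fun q => cq f q * End699.tw ψ l (ez q)) hX1 hMn
    hdat.hf.1 hdat.hv hdat.hw hHM h𝒬 hT htw
  -- dual parts
  set T := B * (K * S + X ^ (-A)) with hTd
  have hT0 : 0 ≤ T := by positivity
  set Pn := B * ∑ o, (K / lam o) ^ (4 / 3 : ℝ) * Mp1 f (v o) (w o) with hPn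
  have hPn0 : 0 ≤ Pn := mul_nonneg hB (Finset.sum_nonneg fun o _ => by
    have := Mp1_nonneg f (v o) (w o)
    have := hlam0 o
    positivity)
  have hone : ∀ i, ‖∑ z : O × {q : Q5 // q ∈ 𝒬}, Bi (vz v z)
          (fun y => (cq f z.2.1 * End699.tw ψ l (ez z.2.1)) * wz w z y)
          (dG M D W i (fz f z) (Qz lam K z))‖ ≤ Cb i * (X ^ ε * T) + Cr i * (X ^ ε * Pn) := by
    intro i
    have hχ1 : ∀ d, IsPrim d → ‖End699.tw (D.η i) D.j d‖ ≤ 1 := fun d hd =>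
      ((hOK.η i).isChar_tw D.j).norm_le hd
    have hχ2 : ∀ d, IsPrim d → ‖End699.tw (D.ψ' i) D.l' d‖ ≤ 1 := fun d hd =>
      ((hOK.ψ' i).isChar_tw D.l').norm_le hd
    have hWs : WT (mb i) (Nb i) B (fun y => W i (y * Real.exp h)) :=
      wtMono hB (wt_shift hB (hWT i)) (Finset.le_sup (Finset.mem_univ i))
        ((Finset.le_sup (Finset.mem_univ i)).trans (Nat.le_add_right _ _))
    have k1 := hCb i (W i) B h hB hh hWs f O _ (fun _ Dd d => ¬ PrD Dd d) lam v w X K U S sw hdat hK1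
      hKX hU hUX hhX hS hlen (hJ i) 𝒬 hsub hsw
      (fun z => cq f z.2.1 * End699.tw ψ l (ez z.2.1)) (fun z => htw _ z.2.2)
    have k2 := hCr i M f O _ lam v w X K B (End699.tw (D.η i) D.j) (End699.tw (D.ψ' i) D.l') (W i)
      𝒬 (fun z => cq f z.2.1 * End699.tw ψ l (ez z.2.1)) hdat hK hB hχ1 hχ2
      (fun y hy => wtx_third hB (hWT i) hy) h𝒬 (fun z => htw _ z.2.2)
    -- the splitting
    have hW2 : ∀ y : ℝ, 0 < y → ‖W i y‖ ≤ (B * Real.exp h ^ 2) * (y ^ 2)⁻¹ := by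
      intro y hy
      have h1 := (hWT i).dec 0 (Nat.zero_le _) y hy
      rw [iteratedDeriv_zero, Real.exp_log hy] at h1
      refine h1.trans ?_
      rw [mul_assoc]
      refine mul_le_mul_of_nonneg_left ?_ hB
      unfold bdx
      set t := y * Real.exp (-h) with ht
      have ht0 : 0 < t := by positivity
      have e5 : Real.exp h ^ 2 * (y ^ 2)⁻¹ = (t ^ 2)⁻¹ := by
        rw [ht, Real.exp_neg, mul_pow, inv_pow]
        field_simp
      rw [e5]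
      refine (min_le_right _ _).trans ?_
      rcases le_or_gt 1 t with h2 | h2
      · refine (min_le_right _ _).trans ?_
        have h3 : t ^ 2 ≤ t ^ (Finset.univ.sup Nb + 2) :=
          pow_le_pow_right₀ h2 (Nat.le_add_left _ _)
        exact inv_anti₀ (by positivity) h3
      · refine (min_le_left _ _).trans ?_
        rw [one_le_inv₀ (by positivity)]
        exact pow_le_one₀ ht0.le h2.le
    have e2 : ∀ z : O × {q : Q5 // q ∈ 𝒬}, Bi (vz v z)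
          (fun y => (cq f z.2.1 * End699.tw ψ l (ez z.2.1)) * wz w z y)
          (dG M D W i (fz f z) (Qz lam K z)) =
        Bi (vz v z) (fun y => (cq f z.2.1 * End699.tw ψ l (ez z.2.1)) * wz w z y)
          (fun x y => (Qz lam K z : ℂ) * (End699.tw (D.η i) D.j (fz f z * x * y) *
            D3F M (End699.tw (D.ψ' i) D.l') (fz f z * x * y) (W i)
              (D.ρ i * nm (fz f z * x * y) / Qz lam K z)
              (fun d => ¬ PrD (z.2.1.D0 * z.2.1.D1) d))) +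
        Bi (vz v z) (fun y => (cq f z.2.1 * End699.tw ψ l (ez z.2.1)) * wz w z y)
          (fun x y => (Qz lam K z : ℂ) * (End699.tw (D.η i) D.j (fz f z * x * y) *
            D3c (PrD (z.2.1.D0 * z.2.1.D1)) M (End699.tw (D.ψ' i) D.l') (fz f z * x * y) (W i)
              (D.ρ i * nm (fz f z * x * y) / Qz lam K z))) := by
      intro z
      have hqz := hq _ z.2.2
      have hd := dta hdat.hf.1 hqz
      have s2 : SSm M (fun y => (cq f z.2.1 * End699.tw ψ l (ez z.2.1)) * wz w z y) := by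
        have h1 := ssm_wz hdat.hw hq z
        exact ⟨h1.fin.subset fun y hy h0 => hy (by simp [show wz w z y = 0 from h0]),
          fun y hy => h1.sm y (right_ne_zero_of_mul hy)⟩
      rw [← bi_add (ssm_vz hdat.hv hq z) s2]
      refine bi_congr (ssm_vz hdat.hv hq z) s2 fun x y hx hy => ?_
      have hFx : fz f z * x * y ≠ 0 := mul_ne_zero (mul_ne_zero hd.sFF.ne_zero
        ((ssm_vz hdat.hv hq z).sm x hx).ne_zero) (s2.sm y hy).ne_zero
      have hQ : 0 < Qz lam K z := by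
        have h1 := hlam0 z.1
        have h2 : (0 : ℝ) < nm ((z.2.1.D0 * z.2.1.D1) ^ 2 * z.2.1.B ^ 3) := by
          have := ez_one hqz
          exact lt_of_lt_of_le one_pos this
        unfold Qz
        positivity
      have hY : 0 < D.ρ i * nm (fz f z * x * y) / Qz lam K z := by
        have h1 := hOK.ρ i
        have h2 : (0 : ℝ) < nm (fz f z * x * y) := by exact_mod_cast nm_pos.mpr hFx
        positivity
      unfold E4fe502.dG
      rw [D3_split hχ2 (by positivity) hW2 hY (PrD (z.2.1.D0 * z.2.1.D1))]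
      ring
    rw [Finset.sum_congr rfl fun z _ => e2 z, Finset.sum_add_distrib]
    refine (norm_add_le _ _).trans (add_le_add (k1.trans (le_of_eq ?_)) (k2.trans (le_of_eq ?_)))
    · rw [mul_assoc]
    · rw [mul_assoc]
  have e2 : ‖∑ i, D.κ i * ∑ z : O × {q : Q5 // q ∈ 𝒬}, Bi (vz v z)
          (fun y => (cq f z.2.1 * End699.tw ψ l (ez z.2.1)) * wz w z y)
          (dG M D W i (fz f z) (Qz lam K z))‖ ≤ (∑ i, ‖D.κ i‖ * Cb i) * (X ^ ε * T) +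
            (∑ i, ‖D.κ i‖ * Cr i) * (X ^ ε * Pn) := by
    refine (norm_sum_le _ _).trans ?_
    rw [Finset.sum_mul, Finset.sum_mul, ← Finset.sum_add_distrib]
    refine Finset.sum_le_sum fun i _ => ?_
    rw [norm_mul]
    calc ‖D.κ i‖ * _ ≤ ‖D.κ i‖ * (Cb i * (X ^ ε * T) + Cr i * (X ^ ε * Pn)) :=
          mul_le_mul_of_nonneg_left (hone i) (norm_nonneg _)
      _ = _ := by ring
  refine (add_le_add e1 e2).trans ?_
  set a := ∑ i, ‖D.κ i‖ * Cb i with ha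
  set b := ∑ i, ‖D.κ i‖ * Cr i with hb
  have p1 : 0 ≤ X ^ ε * T := by positivity
  have p2 : 0 ≤ X ^ ε * Pn := by positivity
  have p3 : 0 ≤ X ^ ε * Mn := by positivity
  have q1 : 0 ≤ (b + Cp) * (X ^ ε * T) := by positivity
  have q2 : 0 ≤ (a + Cp) * (X ^ ε * Pn) := by positivity
  have q3 : 0 ≤ (a + b) * (X ^ ε * Mn) := by positivity
  nlinarith

/-- **`E4core7x`** -/
theorem e4core7x : E4core7x := by
  classical
  intro M ψ l ι _ D hψ hOK ε A hε hA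
  obtain ⟨C1, h10, H1⟩ := dirQx hε
  obtain ⟨C2, m₀, N₀, h20, H2⟩ := feQx M ψ l ι D hψ hOK hε hA
  refine ⟨C1 + C2, m₀, N₀, by positivity, ?_⟩
  intro V W mt B h hB hh hL hW hVB hV1 f O _ lam v w X K U T₀ S Mn sw hdat hK1 hKX hU hUX hhX hS
    hMn hlen hswT hJD hJF hHM
  have hX1 := hdat.X1
  have hX0 : 0 < X := by linarith
  have hK : 0 < K := by linarith
  have he0 : 0 < Real.exp h := Real.exp_pos h
  have he1 : 1 ≤ Real.exp h := Real.one_le_exp hh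
  have hlam0 : ∀ o, 0 < lam o := fun o => by linarith [(hdat.lam1 o).1]
  set φ : O → Eis → ℂ := fun o k => End699.tw ψ l k * cmp V h (nm k * lam o / K) with hφ
  have hφ0 : ∀ o k, K / lam o < nm k → φ o k = 0 := by
    intro o k hk
    have h1 : 1 < (nm k : ℝ) * lam o / K := by
      rw [lt_div_iff₀ hK, one_mul]
      exact (div_lt_iff₀ (hlam0 o)).mp hk
    have h2 : 1 < (nm k : ℝ) * lam o / K * Real.exp h := by
      calc (1 : ℝ) < (nm k : ℝ) * lam o / K := h1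
        _ ≤ (nm k : ℝ) * lam o / K * Real.exp h :=
          le_mul_of_one_le_right (by linarith) he1
    simp only [hφ]
    unfold cmp
    rw [hV1 _ h1, hV1 _ h2]
    simp
  have hdc : ∀ o, Dcy (φ o) := fun o => dcyFin (hφ0 o)
  have hop := open_sw hdat φ hdc (fun q : Q5 => sw q.D0 q.D1 q.B q.R q.Z)
  have e0 : ∑ o, ∑' x : Eis, v o x * ∑' y : Eis, w o y *
        NT (M * (f * y)) (f * x * y)
          (fun k => End699.tw ψ l k * cmp V h (nm k * lam o / K)) =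
      ∑ o, ∑' x : Eis, v o x * ∑' y : Eis, w o y * NT (M * (f * y)) (f * x * y) (φ o) := rfl
  rw [e0, hop]
  refine (norm_add_le _ _).trans ?_
  have k1 := H2 (cmp V h) W mt B h hB hh hL hW f O _ lam v w X K U T₀ S Mn sw
    ((QA M f ⌊X⌋₊).filter fun q : Q5 => sw q.D0 q.D1 q.B q.R q.Z) hdat hK1 hKX hU hUX hhX hS hMn
    hlen hJF hHM (Finset.filter_subset _ _) (fun q hq => (Finset.mem_filter.mp hq).2)
    (fun q hq => hswT _ _ _ _ _ (Finset.mem_filter.mp hq).2)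
  have k2 := H1 M f ψ l V h O _ lam v w X K B S sw
    ((QA M f ⌊X⌋₊).filter fun q : Q5 => ¬ sw q.D0 q.D1 q.B q.R q.Z) hψ hh hVB hV1 hdat hK1 hKX hB
    hS hJD (fun q hq => qa_ok (Finset.mem_filter.mp hq).1)
    (fun q hq => (Finset.mem_filter.mp hq).2)
  refine (add_le_add k1 k2).trans ?_
  have hXε : 0 < X ^ ε := Real.rpow_pos_of_pos hX0 _
  have hXA : 0 < X ^ (-A) := Real.rpow_pos_of_pos hX0 _
  set Pn := B * ∑ o, (K / lam o) ^ (4 / 3 : ℝ) * Mp1 f (v o) (w o) with hPn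
  have hPn0 : 0 ≤ Pn := mul_nonneg hB (Finset.sum_nonneg fun o _ => by
    have := Mp1_nonneg f (v o) (w o)
    have := hlam0 o
    positivity)
  have hBKS : B * (K * S) ≤ B * (K * S + X ^ (-A)) + Mn + Pn := by
    have : 0 ≤ B * X ^ (-A) := by positivity
    nlinarith
  calc C2 * X ^ ε * (B * (K * S + X ^ (-A)) + Mn + Pn) + C1 * X ^ ε * (B * (K * S))
      ≤ C2 * X ^ ε * (B * (K * S + X ^ (-A)) + Mn + Pn) +
        C1 * X ^ ε * (B * (K * S + X ^ (-A)) + Mn + Pn) := by gcongr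
    _ = _ := by ring

end Crest.Agent.R017.E4X266
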