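import Crest.Agent.R017.E4fam_47
import Crest.Agent.R012.PSer_47

/-!
# Row 17, C70/E4, joint form (helper47): `fam_dat`, `Dat4` for the family
-/

set_option autoImplicit false
set_option linter.unusedVariables false
set_option linter.unusedSectionVars false

noncomputable section

open Complex
open scoped ComplexConjugate

namespace Crest.Agent.R017.E4v5

open Crest.Agent.R012 Crest.Agent.R012.Eis Crest.Agent.R012.Mob705 Crest.Agent.R012.Gauss880
open Crest.Agent.R012.GaussLoc283 (syAx)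
open Crest.Agent.R012.Div277
open Crest.Agent.R017.Sx545 Crest.Agent.R017.CM106 Crest.Agent.R017.C70 Crest.Agent.R017.C590
open Crest.Agent.R017.B770 Crest.Agent.R017.Sx440
open Crest.Agent.R017.E2440 Crest.Agent.R017.E4352
open Crest.Agent.R017.E4o502 (vD wD GoodD GB ssm_tws bd_tws)

lemma card_pb {X : ℝ} (hX : 1 ≤ X) : ((primBall ⌊X⌋₊).card : ℝ) ≤ X ^ 6 := by
  classical
  rcases lt_or_ge X 2 with h | h
  · have h1 : ⌊X⌋₊ = 1 := by
      rw [Nat.floor_eq_iff (by linarith)]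
      exact ⟨by exact_mod_cast hX, by push_cast; linarith⟩
    have h2 : primBall ⌊X⌋₊ ⊆ {1} := by
      intro x hx
      rw [h1, mem_primBall] at hx
      rw [Finset.mem_singleton]
      have h3 : nm x = 1 := le_antisymm hx.1 (nm_pos.mpr hx.2.ne_zero)
      exact isPrim_eq_one_of_isUnit hx.2 (isUnit_iff.mpr h3)
    have h3 : (primBall ⌊X⌋₊).card ≤ 1 := (Finset.card_le_card h2).trans (by simp)
    calc ((primBall ⌊X⌋₊).card : ℝ) ≤ 1 := by exact_mod_cast h3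
      _ ≤ X ^ 6 := one_le_pow₀ hX
  · have h1 := PSer47.card_primBall_le' ⌊X⌋₊
    have h2 : (⌊X⌋₊ : ℝ) ≤ X := Nat.floor_le (by linarith)
    calc ((primBall ⌊X⌋₊).card : ℝ) ≤ ((18 * ⌊X⌋₊ : ℕ) : ℝ) := by exact_mod_cast h1
      _ = 18 * (⌊X⌋₊ : ℝ) := by push_cast; ring
      _ ≤ 18 * X := by linarith
      _ ≤ X ^ 5 * X := by
        have h3 : (2 : ℝ) ^ 5 ≤ X ^ 5 := pow_le_pow_left₀ (by norm_num) h 5
        have h4 : (18 : ℝ) ≤ X ^ 5 := by linarith [show (2 : ℝ) ^ 5 = 32 by norm_num]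
        exact mul_le_mul_of_nonneg_right h4 (by linarith)
      _ = X ^ 6 := by ring

lemma tws_ne {R q : Eis} {g c : Eis → ℂ} {x : Eis} (h : tws R q g c x ≠ 0) : c (R * x) ≠ 0 := by
  classical
  intro h0
  apply h
  unfold E4352.tws
  rw [h0]
  simp

lemma norm_tws_le {R q : Eis} {g c : Eis → ℂ} {Y : ℝ} (hg : ∀ x, ‖g x‖ ≤ 1) (hY : 0 ≤ Y)
    (hc : ∀ x, ‖c x‖ ≤ Y) (x : Eis) : ‖tws R q g c x‖ ≤ Y := by
  classical
  unfold E4352.tws
  split_ifs
  · rw [norm_mul]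
    calc ‖g x‖ * ‖c (R * x)‖ ≤ 1 * Y := mul_le_mul (hg x) (hc _) (norm_nonneg _) zero_le_one
      _ = Y := one_mul Y
  · rw [norm_zero]; exact hY

section

variable {M f : Eis} {O : Type} [Fintype O] {lam : O → ℝ} {v w : O → Eis → ℂ}
variable {D0 B R Z : Eis} {a X : ℝ} {𝒟 : Finset Eis}

lemma nm_ff_le (hdat : Dat4 M f lam v w X) (hD0 : IsPrim D0) (hD0f : D0 ∣ f)
    (G : GB' M (f / D0) D0 B R Z) (hR : nm R ≤ ⌊X⌋₊) (hZ : nm Z ≤ ⌊X⌋₊) :
    (nm (f / D0 * R * Z / B ^ 3) : ℝ) * (nm B : ℝ) ^ 3 ≤ X ^ 3 := by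
  have hX1 := hdat.X1
  have e := ff_spec G.2.1.prim G
  have hf0 : f ≠ 0 := hdat.hf.1.ne_zero
  have e1 : (nm (f / D0 * R * Z / B ^ 3) : ℝ) * (nm B : ℝ) ^ 3 = nm (f / D0) * nm R * nm Z := by
    have := congrArg (fun z => (nm z : ℝ)) e
    simp only [nm_mul, nm_pow] at this
    push_cast at this
    exact this
  have h1 : (nm (f / D0) : ℝ) ≤ X := by
    have hdvd : f / D0 ∣ f := ⟨D0, by rw [mul_comm]; exact (div_spec hD0 hD0f).symm⟩
    have := nm_le_of_dvd hf0 hdvd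
    exact le_trans (by exact_mod_cast this) hdat.hf.2
  have h2 : (⌊X⌋₊ : ℝ) ≤ X := Nat.floor_le (by linarith)
  have h3 : (nm R : ℝ) ≤ X := le_trans (by exact_mod_cast hR) h2
  have h4 : (nm Z : ℝ) ≤ X := le_trans (by exact_mod_cast hZ) h2
  rw [e1]
  calc (nm (f / D0) : ℝ) * nm R * nm Z ≤ X * X * X := by gcongr
    _ = X ^ 3 := by ring

/-- **`Dat4` for the family** -/
theorem fam_dat (hdat : Dat4 M f lam v w X) (hD0 : IsPrim D0) (hD0f : D0 ∣ f)
    (G : GB' M (f / D0) D0 B R Z) (hD : DOk M f D0 B a X 𝒟) (ha : 1 ≤ a)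
    (hR : nm R ≤ ⌊X⌋₊) (hZ : nm Z ≤ ⌊X⌋₊) :
    Dat4 M (f / D0 * R * Z / B ^ 3) (lamD (𝒟 := 𝒟) a lam) (vG D0 B R v) (wG D0 B Z w)
      (X ^ 12) := by
  classical
  have hX1 := hdat.X1
  have hX0 : 0 < X := by linarith
  have hX12 : X ≤ X ^ 12 := by
    calc X = X ^ 1 := (pow_one X).symm
      _ ≤ X ^ 12 := pow_le_pow_right₀ hX1 (by norm_num)
  have hX312 : X ^ 3 ≤ X ^ 12 := pow_le_pow_right₀ hX1 (by norm_num)
  have hRp := G.2.2.2.1.1
  have hZp := G.2.2.2.2.1.1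
  have hfl : (⌊X⌋₊ : ℝ) ≤ X := Nat.floor_le (by linarith)
  refine ⟨one_le_pow₀ hX1, ?_, ?_, ?_, ?_, ?_, ?_, ?_, ?_, ?_⟩
  · -- card
    have h1 : (𝒟.card : ℝ) ≤ X ^ 6 := by
      refine le_trans ?_ (card_pb hX1)
      norm_cast
      refine Finset.card_le_card fun d hd => ?_
      rw [mem_primBall]
      exact ⟨hD.le d hd, (hD.sm d hd).prim⟩
    rw [Fintype.card_prod, Fintype.card_coe]
    push_cast
    calc (Fintype.card O : ℝ) * 𝒟.card ≤ X * X ^ 6 := by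
          have := hdat.card
          gcongr
      _ = X ^ 7 := by ring
      _ ≤ X ^ 12 := pow_le_pow_right₀ hX1 (by norm_num)
  · -- lam
    rintro ⟨o, d, hd⟩
    have h1 := hdat.lam1 o
    have h2 := hD.lo d hd
    have h3 : (nm d : ℝ) ≤ X := le_trans (by exact_mod_cast hD.le d hd) hfl
    have ha0 : 0 < a := by linarith
    have h4 : 1 ≤ (nm d : ℝ) / a := by rw [one_le_div ha0]; exact h2
    have h5 : (nm d : ℝ) / a ≤ X := (div_le_self (Nat.cast_nonneg _) ha).trans h3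
    unfold lamD
    simp only
    constructor
    · calc (1 : ℝ) = 1 * 1 := by ring
        _ ≤ lam o * (nm d / a) ^ 2 := by
          have := one_le_pow₀ h4 (n := 2)
          have h6 := h1.1
          gcongr
    · calc lam o * (nm d / a) ^ 2 ≤ X * X ^ 2 := by
            have h6 := h1.2
            have h7 : (0 : ℝ) ≤ nm d / a := by linarith
            gcongr
        _ = X ^ 3 := by ring
        _ ≤ X ^ 12 := hX312
  · -- f''
    refine ⟨sm_ff hdat.hf.1 hD0 hD0f G, ?_⟩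
    have h1 := nm_ff_le hdat hD0 hD0f G hR hZ
    have h2 : (1 : ℝ) ≤ (nm B : ℝ) ^ 3 := one_le_pow₀ (one_le_nm G.2.1.ne_zero)
    have h3 : (0 : ℝ) ≤ nm (f / D0 * R * Z / B ^ 3) := Nat.cast_nonneg _
    nlinarith
  · rintro ⟨o, d, hd⟩
    exact ssm_tws (ssm_tws (hdat.hv o) isPrim_one) hRp
  · rintro ⟨o, d, hd⟩
    exact ssm_tws (ssm_tws (hdat.hw o) (hD.sm d hd).prim) hZp
  · rintro ⟨o, d, hd⟩ x hx
    have h1 : v o (1 * (R * x)) ≠ 0 := tws_ne (tws_ne hx)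
    rw [one_mul] at h1
    have h2 := hdat.vx o _ h1
    have h3 : R * x ≠ 0 := ((hdat.hv o).sm _ h1).ne_zero
    refine ⟨fun p hp hpd => h2.1 p hp (hpd.trans (dvd_mul_left _ _)), ?_⟩
    have h4 := nm_le_of_dvd h3 (dvd_mul_left x R)
    have h5 : (nm x : ℝ) ≤ nm (R * x) := by exact_mod_cast h4
    linarith [h2.2]
  · rintro ⟨o, d, hd⟩ y hy
    have h1 : w o (d * (Z * y)) ≠ 0 := tws_ne (tws_ne hy)
    have h2 := hdat.wy o _ h1
    have h3 : d * (Z * y) ≠ 0 := ((hdat.hw o).sm _ h1).ne_zero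
    have h4 := nm_le_of_dvd h3 ((dvd_mul_left y Z).trans (dvd_mul_left _ d))
    have h5 : (nm y : ℝ) ≤ nm (d * (Z * y)) := by exact_mod_cast h4
    linarith
  · rintro ⟨o, d, hd⟩ x
    refine le_trans (norm_tws_le (fun _ => by simp) hX0.le (norm_tws_le ?_ hX0.le (hdat.vb o)) x)
      hX12
    intro x
    rw [RCLike.norm_conj]
    exact Gauss880.norm_sy_le Gauss880.syG (hD0.mul (hD.sm d hd).prim)
  · rintro ⟨o, d, hd⟩ x
    refine le_trans (norm_tws_le (fun _ => by simp) hX0.le (norm_tws_le ?_ hX0.le (hdat.wb o)) x)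
      hX12
    intro x
    rw [RCLike.norm_conj]
    exact Gauss880.norm_sy_le Gauss880.syG (hD0.mul (hD.sm d hd).prim)

end

end Crest.Agent.R017.E4v5
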