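import Crest.Agent.R017.E4Rg_266
import Crest.Agent.R017.E4fan_47

/-!
# Row 17, C70/E4, version 7: the opening as one sum over `z` (helper266)

* `QA M f N` : the finite set of admissible quintuples
* `cz` : the coefficient,  `open_z` : the opening as one sum over `z`
* `datz` : `DatS` for the family
-/

set_option autoImplicit false

noncomputable section

open Complex
open scoped ComplexConjugate

namespace Crest.Agent.R017.E4R266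

open Crest.Agent.R012 Crest.Agent.R012.Eis Crest.Agent.R012.Mob705 Crest.Agent.R012.Gauss880
open Crest.Agent.R012.Div277
open Crest.Agent.R017.Sx545 Crest.Agent.R017.CM106 Crest.Agent.R017.C70 Crest.Agent.R017.C590
open Crest.Agent.R017.End699 Crest.Agent.R017.B770 Crest.Agent.R017.Sx440
open Crest.Agent.R017.E2440 Crest.Agent.R017.E4352
open Crest.Agent.R017.E4o502 (vD wD GoodD GB ssm_tws bd_tws open2)
open Crest.Agent.R017.E4fe502 (FF Bi Dta)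
open Crest.Agent.R017.E4J352 (Tm JBt)
open Crest.Agent.R017.E4S783 (DatS BSf aS DN mem_DN)
open Crest.Agent.R017.E4v5 (GB')

open Classical in
/-- admissible quintuples with sizes -/
def QA (M f : Eis) (N : ℕ) : Finset Q5 :=
  (primBall N ×ˢ primBall N ×ˢ primBall (N ^ 2) ×ˢ primBall N ×ˢ primBall N).filter (QOK M f)

lemma mem_QA {M f : Eis} {N : ℕ} {q : Q5} : q ∈ QA M f N ↔
    (nm q.D0 ≤ N ∧ nm q.D1 ≤ N ∧ nm q.B ≤ N ^ 2 ∧ nm q.R ≤ N ∧ nm q.Z ≤ N) ∧ QOK M f q := by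
  classical
  unfold QA
  simp only [Finset.mem_filter, Finset.mem_product, mem_primBall]
  constructor
  · rintro ⟨⟨⟨h1, -⟩, ⟨h2, -⟩, ⟨h3, -⟩, ⟨h4, -⟩, ⟨h5, -⟩⟩, h6⟩
    exact ⟨⟨h1, h2, h3, h4, h5⟩, h6⟩
  · rintro ⟨⟨h1, h2, h3, h4, h5⟩, h6⟩
    exact ⟨⟨⟨h1, h6.pD0⟩, ⟨h2, h6.pD1⟩, ⟨h3, h6.gb.2.1.prim⟩, ⟨h4, h6.pR.1⟩, ⟨h5, h6.pZ.1⟩⟩, h6⟩

lemma QA_sz {M f : Eis} {X : ℝ} (hX : 1 ≤ X) {q : Q5} (hq : q ∈ QA M f ⌊X⌋₊) : QSz (X ^ 2) q := by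
  obtain ⟨⟨h1, h2, h3, h4, h5⟩, -⟩ := mem_QA.mp hq
  have hfl : (⌊X⌋₊ : ℝ) ≤ X := Nat.floor_le (by linarith)
  have hX2 : X ≤ X ^ 2 := by nlinarith
  refine ⟨?_, ?_, ?_, ?_, ?_⟩
  · exact (le_trans (by exact_mod_cast h1) hfl).trans hX2
  · exact (le_trans (by exact_mod_cast h2) hfl).trans hX2
  · calc (nm q.B : ℝ) ≤ ((⌊X⌋₊ ^ 2 : ℕ) : ℝ) := by exact_mod_cast h3
      _ = (⌊X⌋₊ : ℝ) ^ 2 := by push_cast; ring
      _ ≤ X ^ 2 := by gcongr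
  · exact (le_trans (by exact_mod_cast h4) hfl).trans hX2
  · exact (le_trans (by exact_mod_cast h5) hfl).trans hX2

/-- the coefficient of the opening -/
def cq (f : Eis) (q : Q5) : ℂ :=
  (cB (q.D0 * q.D1) * conj (sy (f / q.D0) (q.D0 * q.D1))) * ((muE q.B : ℂ) * (nm q.B : ℂ) ^ 3)

lemma norm_cq {M f : Eis} {q : Q5} (hq : QOK M f q) :
    ‖cq f q‖ ≤ (nm (q.D0 * q.D1) : ℝ) ^ (3 / 2 : ℝ) * (nm q.B : ℝ) ^ 3 := by
  have hD : IsPrim (q.D0 * q.D1) := hq.pD0.mul hq.pD1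
  unfold cq
  rw [norm_mul, norm_mul, norm_mul, RCLike.norm_conj, norm_pow, Complex.norm_natCast]
  have a1 := E4fe502.norm_cB hD hq.good.2.1
  have a2 := CF61.norm_sy_le (f / q.D0) (q.D0 * q.D1)
  have a3 : ‖(muE q.B : ℂ)‖ ≤ 1 := by
    have h2 := abs_muE_of_squarefree hq.gb.1
    have h3 : ‖(muE q.B : ℂ)‖ = ((|muE q.B| : ℤ) : ℝ) := by
      rw [Complex.norm_intCast, Int.cast_abs]
    rw [h3, h2]; simp
  calc ‖cB (q.D0 * q.D1)‖ * ‖sy (f / q.D0) (q.D0 * q.D1)‖ * (‖(muE q.B : ℂ)‖ * (nm q.B : ℝ) ^ 3)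
      ≤ (nm (q.D0 * q.D1) : ℝ) ^ (3 / 2 : ℝ) * 1 * (1 * (nm q.B : ℝ) ^ 3) := by gcongr
    _ = _ := by ring

/-- one term of the opening -/
def Tq (M f : Eis) (v w φ : Eis → ℂ) (q : Q5) : ℂ :=
  cq f q * Bi (E4352.tws q.R q.B (fun _ => 1) (vD (q.D0 * q.D1) v))
    (E4352.tws q.Z q.B (fun _ => 1) (wD (q.D0 * q.D1) q.D1 w))
    (fun x y => NT M (FF f q.D0 q.B q.R q.Z * x * y)
      (fun k => φ ((q.D0 * q.D1) ^ 2 * q.B ^ 3 * k)))

open Classical in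
/-- **the opening over quintuples** -/
theorem open_q {M f : Eis} {v w φ : Eis → ℂ} {N : ℕ} (hf : Sm M f) (hv : SSm M v) (hw : SSm M w)
    (hvN : ∀ x, v x ≠ 0 → nm x ≤ N) (hwN : ∀ y, w y ≠ 0 → nm y ≤ N) (hfN : nm f ≤ N)
    (hφ : Dcy φ) :
    ∑' x : Eis, v x * ∑' y : Eis, w y * NT (M * (f * y)) (f * x * y) φ =
      ∑ q ∈ QA M f N, Tq M f v w φ q := by
  rw [open2 hf hv hw hvN hwN hfN hφ]
  unfold QA
  rw [Finset.sum_filter, Finset.sum_product]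
  refine Finset.sum_congr rfl fun D0 hD0 => ?_
  rw [Finset.sum_product]
  refine Finset.sum_congr rfl fun D1 hD1 => ?_
  rw [mem_primBall] at hD0 hD1
  by_cases hG : GoodD M f D0 D1
  swap
  · rw [if_neg hG]
    symm
    refine Finset.sum_eq_zero fun x _ => if_neg fun h => hG h.good
  rw [if_pos hG, Finset.mul_sum, Finset.sum_product]
  refine Finset.sum_congr rfl fun B hB => ?_
  rw [mem_primBall] at hB
  rw [Finset.sum_product, Finset.sum_filter, Finset.mul_sum]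
  refine Finset.sum_congr rfl fun R hR => ?_
  rw [mem_primBall] at hR
  by_cases hPR : PrI B R
  swap
  · rw [if_neg hPR, mul_zero]
    symm
    exact Finset.sum_eq_zero fun x _ => if_neg fun h => hPR h.pR
  rw [if_pos hPR, Finset.sum_filter, Finset.mul_sum]
  refine Finset.sum_congr rfl fun Z hZ => ?_
  by_cases hPZ : PrI B Z
  swap
  · rw [if_neg hPZ, mul_zero]
    symm
    exact if_neg fun h => hPZ h.pZ
  rw [if_pos hPZ]
  by_cases hGB : GB M (f / D0) (D0 * D1) B R Z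
  swap
  · rw [if_neg hGB, mul_zero]
    symm
    exact if_neg fun h => hGB h.gb
  have hq : QOK M f (D0, D1, B, R, Z) := ⟨hD0.2, hD1.2, hG, hGB, hPR, hPZ⟩
  rw [if_pos hGB, if_pos hq]
  unfold Tq cq Bi FF Q5.D0 Q5.D1 Q5.B Q5.R Q5.Z
  ring

section

variable {M f : Eis} {O : Type} [Fintype O] {lam : O → ℝ} {v w : O → Eis → ℂ} {X : ℝ}

/-- **the opening over quintuples**, with the outer index -/
theorem open_z (hdat : Dat4 M f lam v w X) (φ : O → Eis → ℂ) (hφ : ∀ o, Dcy (φ o)) :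
    ∑ o, ∑' x : Eis, v o x * ∑' y : Eis, w o y * NT (M * (f * y)) (f * x * y) (φ o) =
      ∑ o, ∑ q ∈ QA M f ⌊X⌋₊, Tq M f (v o) (w o) (φ o) q := by
  refine Finset.sum_congr rfl fun o _ => ?_
  have hN : ∀ {n : Eis}, (nm n : ℝ) ≤ X → nm n ≤ ⌊X⌋₊ := fun h => Nat.le_floor h
  exact open_q hdat.hf.1 (hdat.hv o) (hdat.hw o) (fun x hx => hN (hdat.vx o x hx).2)
    (fun y hy => hN (hdat.wy o y hy)) (hN hdat.hf.2) (hφ o)

/-- sums over `z` -/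
lemma sum_zz (𝒬 : Finset Q5) (F : O → Q5 → ℂ) :
    ∑ z : O × {q : Q5 // q ∈ 𝒬}, F z.1 z.2.1 = ∑ o, ∑ q ∈ 𝒬, F o q := by
  rw [Fintype.sum_prod_type]
  refine Finset.sum_congr rfl fun o _ => ?_
  exact Finset.sum_coe_sort 𝒬 (fun q => F o q)

lemma dta_of {q : Q5} (hf : Sm M f) (hq : QOK M f q) : Dta M f q.D0 q.B q.R q.Z where
  sf := hf
  pD := hq.pD0
  dvd := hq.good.1
  sq := hq.good.2.1.squarefree_of_dvd (dvd_mul_right _ _)
  gb := by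
    obtain ⟨h1, h2, h3, h4, h5⟩ := hq.gb
    exact ⟨h1, h2, h3.of_mul_right_left, hq.pR, hq.pZ, h4, h5⟩

/-- **the standing conditions for the family** -/
theorem datz (hdat : Dat4 M f lam v w X) {𝒬 : Finset Q5} (h𝒬 : 𝒬 ⊆ QA M f ⌊X⌋₊)
    (c : O × {q : Q5 // q ∈ 𝒬} → ℂ)
    (hc : ∀ z, ‖c z‖ ≤ (nm (z.2.1.D0 * z.2.1.D1) : ℝ) ^ (3 / 2 : ℝ) * (nm z.2.1.B : ℝ) ^ 3) :
    DatS M (fz f) (vz v) (fun z y => c z * wz w z y) (X ^ 60) := by
  classical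
  have hX1 := hdat.X1
  have hX0 : 0 < X := by linarith
  have hX60 : X ≤ X ^ 60 := by
    calc X = X ^ 1 := (pow_one X).symm
      _ ≤ X ^ 60 := pow_le_pow_right₀ hX1 (by norm_num)
  have hfl : (⌊X⌋₊ : ℝ) ≤ X := Nat.floor_le (by linarith)
  have hmem : ∀ z : O × {q : Q5 // q ∈ 𝒬}, QOK M f z.2.1 ∧
      (nm z.2.1.D0 ≤ ⌊X⌋₊ ∧ nm z.2.1.D1 ≤ ⌊X⌋₊ ∧ nm z.2.1.B ≤ ⌊X⌋₊ ^ 2 ∧ nm z.2.1.R ≤ ⌊X⌋₊ ∧
        nm z.2.1.Z ≤ ⌊X⌋₊) := fun z => by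
    have h := mem_QA.mp (h𝒬 z.2.2)
    exact ⟨h.2, h.1⟩
  refine ⟨one_le_pow₀ hX1, ?_, fun z => ?_, fun z => ?_, fun z => ?_, fun z x hx => ?_,
    fun z y hy => ?_, fun z x => ?_, fun z y => ?_⟩
  · -- card
    have h1 : (𝒬.card : ℝ) ≤ X ^ 36 := by
      have a1 := E4v5.card_pb hX1
      have a2 : ((primBall (⌊X⌋₊ ^ 2)).card : ℝ) ≤ X ^ 12 := by
        have b1 : (1 : ℝ) ≤ X ^ 2 := one_le_pow₀ hX1
        have b2 := E4v5.card_pb b1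
        have b3 : primBall (⌊X⌋₊ ^ 2) ⊆ primBall ⌊X ^ 2⌋₊ := by
          intro x hx
          rw [mem_primBall] at hx ⊢
          refine ⟨hx.1.trans (Nat.le_floor ?_), hx.2⟩
          push_cast
          gcongr
        calc ((primBall (⌊X⌋₊ ^ 2)).card : ℝ) ≤ ((primBall ⌊X ^ 2⌋₊).card : ℝ) := by
              exact_mod_cast Finset.card_le_card b3
          _ ≤ (X ^ 2) ^ 6 := b2
          _ = X ^ 12 := by ring
      have a3 : 𝒬.card ≤ (primBall ⌊X⌋₊ ×ˢ primBall ⌊X⌋₊ ×ˢ primBall (⌊X⌋₊ ^ 2) ×ˢ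
          primBall ⌊X⌋₊ ×ˢ primBall ⌊X⌋₊).card := by
        refine (Finset.card_le_card h𝒬).trans ?_
        unfold QA
        exact Finset.card_filter_le _ _
      rw [Finset.card_product, Finset.card_product, Finset.card_product, Finset.card_product] at a3
      calc (𝒬.card : ℝ) ≤ (primBall ⌊X⌋₊).card * ((primBall ⌊X⌋₊).card *
            ((primBall (⌊X⌋₊ ^ 2)).card * ((primBall ⌊X⌋₊).card * (primBall ⌊X⌋₊).card))) := by
              exact_mod_cast a3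
        _ ≤ X ^ 6 * (X ^ 6 * (X ^ 12 * (X ^ 6 * X ^ 6))) := by gcongr
        _ = X ^ 36 := by ring
    rw [Fintype.card_prod, Fintype.card_coe]
    push_cast
    calc (Fintype.card O : ℝ) * 𝒬.card ≤ X * X ^ 36 := by
          have := hdat.card
          gcongr
      _ = X ^ 37 := by ring
      _ ≤ X ^ 60 := pow_le_pow_right₀ hX1 (by norm_num)
  · -- `f`
    obtain ⟨hq, h1, h2, h3, h4, h5⟩ := hmem z
    have hd := dta_of hdat.hf.1 hq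
    refine ⟨hd.sFF, ?_⟩
    have h1 := E4v5.nm_ff_le hdat hq.pD0 hq.good.1 hd.gb h4 h5
    have h2 : (1 : ℝ) ≤ (nm z.2.1.B : ℝ) ^ 3 := one_le_pow₀ (one_le_nm hq.gb.2.1.ne_zero)
    have h3 : (0 : ℝ) ≤ nm (f / z.2.1.D0 * z.2.1.R * z.2.1.Z / z.2.1.B ^ 3) := Nat.cast_nonneg _
    have h6 : (nm (f / z.2.1.D0 * z.2.1.R * z.2.1.Z / z.2.1.B ^ 3) : ℝ) ≤ X ^ 3 := by nlinarith
    exact h6.trans (pow_le_pow_right₀ hX1 (by norm_num))
  · obtain ⟨hq, -⟩ := hmem z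
    exact ssm_tws (ssm_tws (hdat.hv z.1) isPrim_one) hq.pR.1
  · obtain ⟨hq, -⟩ := hmem z
    have h1 : SSm M (wz w z) := ssm_tws (ssm_tws (hdat.hw z.1) hq.pD1) hq.pZ.1
    exact ⟨h1.fin.subset fun y hy h0 => hy (by simp [show wz w z y = 0 from h0]),
      fun y hy => h1.sm y (right_ne_zero_of_mul hy)⟩
  · obtain ⟨hq, -⟩ := hmem z
    have h1 : v z.1 (1 * (z.2.1.R * x)) ≠ 0 := E4v5.tws_ne (E4v5.tws_ne hx)
    rw [one_mul] at h1
    have h2 := hdat.vx z.1 _ h1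
    have h3 : z.2.1.R * x ≠ 0 := ((hdat.hv z.1).sm _ h1).ne_zero
    refine ⟨fun p hp hpd => h2.1 p hp (hpd.trans (dvd_mul_left _ _)), ?_⟩
    have h4 := nm_le_of_dvd h3 (dvd_mul_left x z.2.1.R)
    have h5 : (nm x : ℝ) ≤ nm (z.2.1.R * x) := by exact_mod_cast h4
    linarith [h2.2]
  · have h0 : wz w z y ≠ 0 := right_ne_zero_of_mul hy
    have h1 : w z.1 (z.2.1.D1 * (z.2.1.Z * y)) ≠ 0 := E4v5.tws_ne (E4v5.tws_ne h0)
    have h2 := hdat.wy z.1 _ h1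
    have h3 : z.2.1.D1 * (z.2.1.Z * y) ≠ 0 := ((hdat.hw z.1).sm _ h1).ne_zero
    have h4 := nm_le_of_dvd h3 ((dvd_mul_left y z.2.1.Z).trans (dvd_mul_left _ z.2.1.D1))
    have h5 : (nm y : ℝ) ≤ nm (z.2.1.D1 * (z.2.1.Z * y)) := by exact_mod_cast h4
    linarith
  · obtain ⟨hq, -⟩ := hmem z
    refine le_trans (E4v5.norm_tws_le (fun _ => by simp) hX0.le
      (E4v5.norm_tws_le ?_ hX0.le (hdat.vb z.1)) x) hX60
    intro x
    rw [RCLike.norm_conj]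
    exact Gauss880.norm_sy_le Gauss880.syG (hq.pD0.mul hq.pD1)
  · obtain ⟨hq, h1, h2, h3, -, -⟩ := hmem z
    have e1 : ‖wz w z y‖ ≤ X := by
      refine E4v5.norm_tws_le (fun _ => by simp) hX0.le
        (E4v5.norm_tws_le ?_ hX0.le (hdat.wb z.1)) y
      intro x
      rw [RCLike.norm_conj]
      exact Gauss880.norm_sy_le Gauss880.syG (hq.pD0.mul hq.pD1)
    have e2 : ‖c z‖ ≤ X ^ 9 := by
      refine (hc z).trans ?_
      have a1 : (nm (z.2.1.D0 * z.2.1.D1) : ℝ) ≤ X ^ 2 := by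
        rw [nm_mul]
        push_cast
        calc (nm z.2.1.D0 : ℝ) * nm z.2.1.D1 ≤ ⌊X⌋₊ * ⌊X⌋₊ := by
              gcongr
          _ ≤ X * X := by gcongr
          _ = X ^ 2 := by ring
      have a2 : (nm z.2.1.B : ℝ) ≤ X ^ 2 := by
        calc (nm z.2.1.B : ℝ) ≤ ((⌊X⌋₊ ^ 2 : ℕ) : ℝ) := by exact_mod_cast h3
          _ = (⌊X⌋₊ : ℝ) ^ 2 := by push_cast; ring
          _ ≤ X ^ 2 := by gcongr
      have a3 : (nm (z.2.1.D0 * z.2.1.D1) : ℝ) ^ (3 / 2 : ℝ) ≤ X ^ 3 := by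
        calc (nm (z.2.1.D0 * z.2.1.D1) : ℝ) ^ (3 / 2 : ℝ) ≤ (X ^ 2) ^ (3 / 2 : ℝ) :=
              Real.rpow_le_rpow (Nat.cast_nonneg _) a1 (by norm_num)
          _ = X ^ 3 := by
              rw [← Real.rpow_natCast X 2, ← Real.rpow_mul hX0.le, ← Real.rpow_natCast X 3]
              norm_num
      calc (nm (z.2.1.D0 * z.2.1.D1) : ℝ) ^ (3 / 2 : ℝ) * (nm z.2.1.B : ℝ) ^ 3
          ≤ X ^ 3 * (X ^ 2) ^ 3 := by gcongr
        _ = X ^ 9 := by ring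
    rw [norm_mul]
    calc ‖c z‖ * ‖wz w z y‖ ≤ X ^ 9 * X := by gcongr
      _ = X ^ 10 := by ring
      _ ≤ X ^ 60 := pow_le_pow_right₀ hX1 (by norm_num)

end

end Crest.Agent.R017.E4R266
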