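import Crest.Agent.R017.E4v7c_352
import Crest.Agent.R017.E4Zo_266

/-!
# Row 17, C70/E4, version 7: `E4core7` and `E4dir7` (helper352)

* `e4core7 : E4core7`
* `e4dir7 : E4dir7`
-/

set_option autoImplicit false
set_option linter.unusedVariables false
set_option linter.unusedSectionVars false

noncomputable section

open Complex
open scoped ComplexConjugate

namespace Crest.Agent.R017.E4J352

open Crest.Agent.R012 Crest.Agent.R012.Eis Crest.Agent.R012.Mob705 Crest.Agent.R012.Gauss880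
open Crest.Agent.R012.Div277
open Crest.Agent.R017.Sx545 Crest.Agent.R017.CM106 Crest.Agent.R017.C70 Crest.Agent.R017.C590
open Crest.Agent.R017.End699 Crest.Agent.R017.B770 Crest.Agent.R017.Sx440
open Crest.Agent.R017.E2440 Crest.Agent.R017.E4352
open Crest.Agent.R017.E4o502 (vD wD GoodD GB ssm_tws bd_tws)
open Crest.Agent.R017.E4v5 (Law5 HM5)
open Crest.Agent.R017.E4fe502 (FF Dta Bi bi_right dG)
open Crest.Agent.R017.E4R266
open Crest.Agent.R017.E4S783 (D3F D3F_true)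

lemma dcyFin {φ : Eis → ℂ} {N : ℝ} (h : ∀ k, N < nm k → φ k = 0) : Dcy φ := by
  obtain ⟨S, hS⟩ : ∃ S : Finset Eis, S = nz ⌊N⌋₊ := ⟨_, rfl⟩
  have hnn : (0 : ℝ) ≤ ∑ k ∈ S, ‖φ k‖ * (nm k : ℝ) ^ 3 :=
    Finset.sum_nonneg fun k _ => mul_nonneg (norm_nonneg _) (pow_nonneg (Nat.cast_nonneg _) 3)
  refine ⟨∑ k ∈ S, ‖φ k‖ * (nm k : ℝ) ^ 3, fun k hk => ?_⟩
  have hk1 : (1 : ℝ) ≤ nm k := one_le_nm hk
  have h3 : (0 : ℝ) < (nm k : ℝ) ^ 3 := pow_pos (by linarith) 3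
  by_cases hN : N < nm k
  · rw [h k hN, norm_zero]
    exact mul_nonneg hnn (inv_nonneg.mpr h3.le)
  · have hmem : k ∈ S := by
      rw [hS]
      exact mem_nz.mpr ⟨hk, Nat.le_floor (not_lt.mp hN)⟩
    have h1 : ‖φ k‖ * (nm k : ℝ) ^ 3 ≤ ∑ k ∈ S, ‖φ k‖ * (nm k : ℝ) ^ 3 :=
      Finset.single_le_sum (f := fun k : Eis => ‖φ k‖ * (nm k : ℝ) ^ 3)
        (fun k _ => mul_nonneg (norm_nonneg _) (pow_nonneg (Nat.cast_nonneg _) 3)) hmem
    calc ‖φ k‖ = (‖φ k‖ * (nm k : ℝ) ^ 3) * ((nm k : ℝ) ^ 3)⁻¹ := by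
          rw [mul_assoc, mul_inv_cancel₀ h3.ne', mul_one]
      _ ≤ _ := mul_le_mul_of_nonneg_right h1 (inv_nonneg.mpr h3.le)

lemma wtMono {m₀ N₀ m₁ N₁ : ℕ} {B : ℝ} {W : ℝ → ℂ} (hB : 0 ≤ B) (h : WT m₀ N₀ B W)
    (hm : m₁ ≤ m₀) (hN : N₁ ≤ N₀) : WT m₁ N₁ B W := by
  refine ⟨h.smooth, fun m hm' y hy => (h.dec m (hm'.trans hm) y hy).trans ?_⟩
  refine mul_le_mul_of_nonneg_left ?_ hB
  rcases le_or_gt 1 y with h1 | h1
  · refine min_le_min le_rfl ?_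
    have h2 : y ^ N₁ ≤ y ^ N₀ := pow_le_pow_right₀ h1 hN
    gcongr
  · have h2 : 1 ≤ (y ^ N₁)⁻¹ := by
      rw [one_le_inv₀ (by positivity)]
      exact pow_le_one₀ hy.le h1.le
    rw [min_eq_left h2]
    exact min_le_left _ _

section

variable {M f : Eis} {O : Type} [Fintype O] {lam : O → ℝ} {v w : O → Eis → ℂ} {X : ℝ}

/-- members of `QA` -/
lemma qa_ok {q : Q5} (h : q ∈ QA M f ⌊X⌋₊) : QOK M f q ∧ QB ⌊X⌋₊ q := by
  obtain ⟨⟨h1, h2, h3, h4, h5⟩, h6⟩ := mem_QA.mp h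
  exact ⟨h6, ⟨h1, h2, h3, h4, h5⟩⟩

/-- the sum over `z` of the terms of the opening -/
lemma sum_Tq (𝒬 : Finset Q5) (φ : O → Eis → ℂ) :
    ∑ o, ∑ q ∈ 𝒬, Tq M f (v o) (w o) (φ o) q =
      ∑ z : O × {q : Q5 // q ∈ 𝒬}, cq f z.2.1 * Bi (vz v z) (wz w z)
        (fun x y => NT M (fz f z * x * y) (fun k => φ z.1 (ez z.2.1 * k))) := by
  rw [← sum_zz 𝒬 (fun o q => Tq M f (v o) (w o) (φ o) q)]
  rfl

open Classical in
/-- the opening, with the switch -/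
theorem open_sw (hdat : Dat4 M f lam v w X) (φ : O → Eis → ℂ) (hφ : ∀ o, Dcy (φ o))
    (P : Q5 → Prop) :
    ∑ o, ∑' x : Eis, v o x * ∑' y : Eis, w o y * NT (M * (f * y)) (f * x * y) (φ o) =
      (∑ z : O × {q : Q5 // q ∈ (QA M f ⌊X⌋₊).filter P}, cq f z.2.1 * Bi (vz v z) (wz w z)
        (fun x y => NT M (fz f z * x * y) (fun k => φ z.1 (ez z.2.1 * k)))) +
      ∑ z : O × {q : Q5 // q ∈ (QA M f ⌊X⌋₊).filter (fun q => ¬ P q)},
        cq f z.2.1 * Bi (vz v z) (wz w z)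
          (fun x y => NT M (fz f z * x * y) (fun k => φ z.1 (ez z.2.1 * k))) := by
  rw [open_z hdat φ hφ, ← sum_Tq, ← sum_Tq, ← Finset.sum_add_distrib]
  refine Finset.sum_congr rfl fun o _ => ?_
  exact (Finset.sum_filter_add_sum_filter_not _ _ _).symm

end

/-- the direct part, with the coefficients of the opening -/
theorem dirQ {ε : ℝ} (hε : 0 < ε) : ∃ C : ℝ, 0 ≤ C ∧
    ∀ (M f : Eis) (O : Type) (_ : Fintype O) (lam : O → ℝ) (v w : O → Eis → ℂ) (X K B' : ℝ)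
      (φ : O → Eis → ℂ) (S : ℝ) (sw : Eis → Eis → Eis → Eis → Eis → Prop) (𝒬 : Finset Q5),
      Dat4 M f lam v w X → 0 < K → K ≤ X → 0 ≤ B' → 0 ≤ S →
      (∀ o k, Sm M k → ‖φ o k‖ ≤ B') → (∀ o k, K / lam o < nm k → φ o k = 0) →
      JB M f lam v w (fun _ => 1) (rngD sw lam K) S →
      (∀ q ∈ 𝒬, QOK M f q ∧ QB ⌊X⌋₊ q) → (∀ q ∈ 𝒬, ¬ sw q.D0 q.D1 q.B q.R q.Z) →
      ‖∑ z : O × {q : Q5 // q ∈ 𝒬}, cq f z.2.1 * Bi (vz v z) (wz w z)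
        (fun x y => NT M (fz f z * x * y) (fun k => φ z.1 (ez z.2.1 * k)))‖ ≤
        C * X ^ ε * (B' * (K * S)) := by
  obtain ⟨C, hC, H⟩ := dirZ hε
  refine ⟨C, hC, ?_⟩
  intro M f O _ lam v w X K B' φ S sw 𝒬 hdat hK hKX hB' hS hφ1 hφ0 hJ h𝒬 hsw
  have key := H M f O _ lam v w X K B' φ S sw 𝒬 (fun z => cq f z.2.1) hdat hK hKX hB' hS hφ1 hφ0
    hJ h𝒬 hsw (fun z => norm_cq (h𝒬 _ z.2.2).1)
  refine le_trans (le_of_eq ?_) key
  congr 1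
  refine Finset.sum_congr rfl fun z _ => ?_
  rw [bi_right]
  rfl

theorem e4dir7 : E4dir7 := by
  classical
  intro ε hε
  obtain ⟨C, hC, H⟩ := dirQ hε
  refine ⟨C, hC, ?_⟩
  intro M f O _ lam v w X K B φ S hdat hK1 hKX hB hS hφ1 hφ0 hJ
  have hK : 0 < K := by linarith
  have hdc : ∀ o, Dcy (φ o) := fun o => dcyFin (hφ0 o)
  rw [open_z hdat φ hdc, sum_Tq]
  exact H M f O _ lam v w X K B φ S (fun _ _ _ _ _ => False) (QA M f ⌊X⌋₊) hdat hK hKX hB hS hφ1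
    hφ0 hJ (fun q hq => qa_ok hq) (fun _ _ h => h)

/-- the part with the functional equation, with the coefficients of the opening -/
theorem feQ (M : Eis) (ψ : Eis → ℂ) (l : ℤ) (ι : Type) [Fintype ι] (D : Dt3 ι) (hψ : HC M ψ)
    (hOK : D.OK M) {ε A : ℝ} (hε : 0 < ε) (hA : 0 ≤ A) : ∃ (C : ℝ) (m₀ N₀ : ℕ), 0 ≤ C ∧
    ∀ (V : ℝ → ℂ) (W : ι → ℝ → ℂ) (mt : Eis → ℝ → ℂ) (B : ℝ), 0 ≤ B → Law5 M ψ l D V W mt →
      (∀ i, WT m₀ N₀ B (W i)) →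
    ∀ (f : Eis) (O : Type) (_ : Fintype O) (lam : O → ℝ) (v w : O → Eis → ℂ)
      (X K U T₀ : ℝ) (S Mn : ℝ) (sw : Eis → Eis → Eis → Eis → Eis → Prop) (𝒬 : Finset Q5),
      Dat4 M f lam v w X →
      1 ≤ K → K ≤ X → 0 < U → U ≤ X → 0 ≤ S → 0 ≤ Mn →
      (∀ o x y, v o x ≠ 0 → w o y ≠ 0 → (nm (f * x * y) : ℝ) * lam o ^ 2 ≤ U) →
      (∀ i ξ, JB M f lam v w (gx (D.η i) D.j ξ) (rngF sw lam (U / K * X ^ ε))
        ((1 + |ξ|) ^ A * S)) →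
      HM5 M f lam v w K T₀ mt Mn →
      (∀ q ∈ 𝒬, QOK M f q ∧ QB ⌊X⌋₊ q) → (∀ q ∈ 𝒬, sw q.D0 q.D1 q.B q.R q.Z) →
      (∀ q ∈ 𝒬, (nm q.D1 : ℝ) * nm (rd q.Z) ≤ 2 * T₀) →
      ‖∑ z : O × {q : Q5 // q ∈ 𝒬}, cq f z.2.1 * Bi (vz v z) (wz w z)
        (fun x y => NT M (fz f z * x * y) (fun k => End699.tw ψ l (ez z.2.1 * k) *
          V (nm (ez z.2.1 * k) * lam z.1 / K)))‖ ≤
        C * X ^ ε * (B * (K * S + X ^ (-A)) + Mn) := by
  classical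
  have hex : ∀ i : ι, _ := fun i => dualZ M D.M' D.j (D.η i) (D.ψ' i) D.l' (D.ρ i)
    (hOK.η i) (hOK.ψ' i) hOK.dvd hOK.ne hOK.rad (hOK.ρ i) hε hA
  choose Cb mb Nb hCb0 hCb using hex
  obtain ⟨Cp, hCp0, hCp⟩ := polZ hε
  have hCn : 0 ≤ ∑ i, ‖D.κ i‖ * Cb i :=
    Finset.sum_nonneg fun i _ => mul_nonneg (norm_nonneg _) (hCb0 i)
  refine ⟨∑ i, ‖D.κ i‖ * Cb i + Cp, Finset.univ.sup mb, Finset.univ.sup Nb, by positivity, ?_⟩
  intro V W mt B hB hL hWT f O _ lam v w X K U T₀ S Mn sw 𝒬 hdat hK1 hKX hU hUX hS hMn hlen hJ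
    hHM h𝒬 hsw hT
  have hX1 := hdat.X1
  have hX0 : 0 < X := by linarith
  have hK : 0 < K := by linarith
  have hlam0 : ∀ o, 0 < lam o := fun o => by linarith [(hdat.lam1 o).1]
  have hq : ∀ q ∈ 𝒬, QOK M f q := fun q hq => (h𝒬 q hq).1
  have htw : ∀ q ∈ 𝒬, ‖cq f q * End699.tw ψ l (ez q)‖ ≤
      (nm (q.D0 * q.D1) : ℝ) ^ (3 / 2 : ℝ) * (nm q.B : ℝ) ^ 3 := by
    intro q hq'
    rw [norm_mul]
    have a1 := norm_cq (hq q hq')
    have a2 := A590.norm_tw_le' hψ l (ez_sm (hq q hq')).prim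
    have a3 := norm_nonneg (cq f q)
    calc ‖cq f q‖ * ‖End699.tw ψ l (ez q)‖ ≤ ‖cq f q‖ * 1 := by gcongr
      _ ≤ _ := by rw [mul_one]; exact a1
  rw [fe_id hψ hL hdat.hf.1 hdat.hv hdat.hw hlam0 hK hq (cq f)]
  refine (norm_add_le _ _).trans ?_
  have hXε : 0 < X ^ ε := Real.rpow_pos_of_pos hX0 _
  -- polar part
  have e1 := hCp M f O _ lam v w X K T₀ Mn mt 𝒬 (fun q => cq f q * End699.tw ψ l (ez q)) hX1 hMn
    hdat.hf.1 hdat.hv hdat.hw hHM h𝒬 hT htw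
  -- dual parts
  set T := B * (K * S + X ^ (-A)) with hTd
  have hT0 : 0 ≤ T := by positivity
  have e2 : ‖∑ i, D.κ i * ∑ z : O × {q : Q5 // q ∈ 𝒬}, Bi (vz v z)
          (fun y => (cq f z.2.1 * End699.tw ψ l (ez z.2.1)) * wz w z y)
          (dG M D W i (fz f z) (Qz lam K z))‖ ≤ (∑ i, ‖D.κ i‖ * Cb i) * (X ^ ε * T) := by
    refine (norm_sum_le _ _).trans ?_
    rw [Finset.sum_mul]
    refine Finset.sum_le_sum fun i _ => ?_
    rw [norm_mul, mul_assoc]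
    refine mul_le_mul_of_nonneg_left ?_ (norm_nonneg _)
    have key := hCb i f O _ lam v w X K U B (W i) S (rngF sw lam (U / K * X ^ ε)) 𝒬
      (fun z => cq f z.2.1 * End699.tw ψ l (ez z.2.1)) (fun _ _ => True) hdat hK1 hKX hU hUX hB hS
      (wtMono hB (hWT i) (Finset.le_sup (Finset.mem_univ i))
        (Finset.le_sup (Finset.mem_univ i))) hlen (hJ i) h𝒬 (fun z => htw _ z.2.2)
      (fun z i' hi _ _ => by
        refine ⟨hsw _ z.2.2, ?_⟩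
        have hl := hlam0 z.1
        have h3 := mul_le_mul_of_nonneg_left hi hl.le
        refine h3.trans (le_of_eq ?_)
        show lam z.1 * (Kdz lam U K z * X ^ ε) =
          U / K * X ^ ε * (nm (z.2.1.D0 * z.2.1.D1) : ℝ)
        unfold Kdz
        field_simp)
    simp only [D3F_true] at key
    refine le_trans (le_of_eq ?_) (key.trans (le_of_eq ?_))
    · rfl
    · ring
  refine (add_le_add e1 e2).trans ?_
  have g1 : Cp * X ^ ε * Mn + (∑ i, ‖D.κ i‖ * Cb i) * (X ^ ε * T) ≤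
      (∑ i, ‖D.κ i‖ * Cb i + Cp) * X ^ ε * (T + Mn) := by
    have p1 : 0 ≤ Cp * X ^ ε * T := by positivity
    have p2 : 0 ≤ (∑ i, ‖D.κ i‖ * Cb i) * X ^ ε * Mn := by positivity
    nlinarith
  exact g1

theorem e4core7 : E4core7 := by
  classical
  intro M ψ l ι _ D hψ hOK ε A hε hA
  obtain ⟨C1, h10, H1⟩ := dirQ hε
  obtain ⟨C2, m₀, N₀, h20, H2⟩ := feQ M ψ l ι D hψ hOK hε hA
  refine ⟨C1 + C2, m₀, N₀, by positivity, ?_⟩
  intro V W mt B hB hL hW hVB hV1 f O _ lam v w X K U T₀ S Mn sw hdat hK1 hKX hU hUX hS hMn hlen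
    hswT hJD hJF hHM
  have hX1 := hdat.X1
  have hX0 : 0 < X := by linarith
  have hK : 0 < K := by linarith
  have hlam0 : ∀ o, 0 < lam o := fun o => by linarith [(hdat.lam1 o).1]
  set φ : O → Eis → ℂ := fun o k => End699.tw ψ l k * V (nm k * lam o / K) with hφ
  have hφ0 : ∀ o k, K / lam o < nm k → φ o k = 0 := by
    intro o k hk
    rw [hφ]
    simp only
    rw [hV1, mul_zero]
    rw [lt_div_iff₀ hK, one_mul]
    exact (div_lt_iff₀ (hlam0 o)).mp hk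
  have hφ1 : ∀ o k, Sm M k → ‖φ o k‖ ≤ B := by
    intro o k hk
    rw [hφ]
    simp only
    rw [norm_mul]
    calc ‖End699.tw ψ l k‖ * ‖V (nm k * lam o / K)‖ ≤ 1 * B :=
          mul_le_mul ((hψ.isChar_tw l).norm_le hk.prim) (hVB _) (norm_nonneg _) zero_le_one
      _ = B := one_mul B
  have hdc : ∀ o, Dcy (φ o) := fun o => dcyFin (hφ0 o)
  have hop := open_sw hdat φ hdc (fun q : Q5 => sw q.D0 q.D1 q.B q.R q.Z)
  have e0 : ∑ o, ∑' x : Eis, v o x * ∑' y : Eis, w o y *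
        NT (M * (f * y)) (f * x * y)
          (fun k => End699.tw ψ l k * V (nm k * lam o / K)) =
      ∑ o, ∑' x : Eis, v o x * ∑' y : Eis, w o y * NT (M * (f * y)) (f * x * y) (φ o) := rfl
  rw [e0, hop]
  refine (norm_add_le _ _).trans ?_
  have k1 := H2 V W mt B hB hL hW f O _ lam v w X K U T₀ S Mn sw
    ((QA M f ⌊X⌋₊).filter fun q : Q5 => sw q.D0 q.D1 q.B q.R q.Z) hdat hK1 hKX hU hUX hS hMn hlen
    hJF hHM (fun q hq => qa_ok (Finset.mem_filter.mp hq).1) (fun q hq => (Finset.mem_filter.mp hq).2)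
    (fun q hq => hswT _ _ _ _ _ (Finset.mem_filter.mp hq).2)
  have k2 := H1 M f O _ lam v w X K B φ S sw
    ((QA M f ⌊X⌋₊).filter fun q : Q5 => ¬ sw q.D0 q.D1 q.B q.R q.Z) hdat hK hKX hB hS hφ1 hφ0 hJD
    (fun q hq => qa_ok (Finset.mem_filter.mp hq).1) (fun q hq => (Finset.mem_filter.mp hq).2)
  refine (add_le_add k1 k2).trans ?_
  have hXε : 0 < X ^ ε := Real.rpow_pos_of_pos hX0 _
  have hXA : 0 < X ^ (-A) := Real.rpow_pos_of_pos hX0 _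
  have hBKS : B * (K * S) ≤ B * (K * S + X ^ (-A)) + Mn := by
    have : 0 ≤ B * X ^ (-A) := by positivity
    nlinarith
  calc C2 * X ^ ε * (B * (K * S + X ^ (-A)) + Mn) + C1 * X ^ ε * (B * (K * S))
      ≤ C2 * X ^ ε * (B * (K * S + X ^ (-A)) + Mn) +
        C1 * X ^ ε * (B * (K * S + X ^ (-A)) + Mn) := by gcongr
    _ = _ := by ring

end Crest.Agent.R017.E4J352
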