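import Crest.Agent.R017.E4v7b_352

/-!
# Row 17, C70/E4, version 7: the direct part with a filter on the frequencies (helper352)

* `lBpSf` : 783's `lBpS` with a filter
* `dirZf` : `dirZ` with a filter on the terms; `dirZ` is the case `Np = True`
-/

set_option autoImplicit false
set_option linter.unusedVariables false
set_option linter.unusedSectionVars false

noncomputable section

open Complex
open scoped ComplexConjugate

namespace Crest.Agent.R017.E4J352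

section bp

open Crest.Agent.R012 Crest.Agent.R012.Eis Crest.Agent.R012.Mob705 Crest.Agent.R012.Gauss880
open Crest.Agent.R012.Div277 Crest.Agent.R012.PSer47
open Crest.Agent.R017.Sx545 Crest.Agent.R017.CM106 Crest.Agent.R017.C70 Crest.Agent.R017.C590
open Crest.Agent.R017.End699 Crest.Agent.R017.B770 Crest.Agent.R017.Sx440
open Crest.Agent.R017.E4352 Crest.Agent.R017.E2440
open Crest.Agent.R017.E4Bd783 hiding DK mem_DK
open Crest.Agent.R017.E4S783
open Crest.Agent.R017.LBp47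

/-- **L7p**, S-form, with filter -/
def LBpSf : Prop :=
  ∀ ε : ℝ, 0 < ε → ∃ C : ℝ, 0 ≤ C ∧
    ∀ (M : Eis) (O : Type) (_ : Fintype O) (f : O → Eis) (v w : O → Eis → ℂ) (X : ℝ) (K : O → ℝ)
      (B : ℝ) (φ : O → Eis → ℂ) (Nf : O → Eis → Prop), DatS M f v w X →
      (∀ o, 0 < K o ∧ K o ≤ X) → 0 ≤ B →
      (∀ o k, Sm M k → ‖φ o k‖ ≤ B) → (∀ o k, K o < nm k → φ o k = 0) →
      (∀ o d e, Sm M d → Sm M e → ¬ Nf o d → φ o (d * e ^ 3) = 0) →
      ‖∑ o, ∑' x : Eis, v o x * ∑' y : Eis, w o y * NT M (f o * x * y) (φ o)‖ ≤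
        C * X ^ ε * B * BSf M f v w (fun b y => sy y b) X K K Nf

open Classical in
/-- **L7p**, S-form, with filter -/
theorem lBpSf : LBpSf := by
  have hL : LStr := E4401.lStr
  intro ε hε
  obtain ⟨C3, hC30, hC3⟩ : ∃ C3 : ℝ, 0 ≤ C3 ∧ ∀ X : ℝ, 1 ≤ X →
      100 * (1 + Real.log X) ≤ C3 * X ^ ε := by
    refine ⟨(100 * (1 + (1 : ℕ) / ε)) ^ 1, by positivity, fun X hX => ?_⟩
    have := poly_log_le 1 hX (δ := ε) (by positivity)
    rwa [pow_one] at this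
  refine ⟨C3, by positivity, ?_⟩
  intro M O _ f v w X K B φ Nf hdat hKb hB0 hφB hφ0 hNf
  have hX1 := hdat.X1
  have hX0 : 0 < X := by linarith
  unfold BSf
  rw [Finset.mul_sum]
  refine (norm_sum_le _ _).trans (Finset.sum_le_sum fun o _ => ?_)
  obtain ⟨hK, hKX⟩ := hKb o
  set N : ℕ := ⌊K o⌋₊ with hN
  set g : Eis → Eis → ℂ := fun b y => sy y b with hg
  have haS0 : ∀ d, 0 ≤ aS (f o) X g (v o) (w o) d := fun d => aS_nonneg _ _ _ _ _ _
  set S : ℝ := ∑ d ∈ DN M (K o) (Nf o), (nm d : ℝ)⁻¹ * aS (f o) X g (v o) (w o) d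
    with hSdef
  have hS : 0 ≤ S := Finset.sum_nonneg fun d _ => by
    have := haS0 d
    positivity
  have hφN : ∀ k, IsPrim k → N < nm k → φ o k = 0 := fun k _ hk =>
    hφ0 o k ((Nat.floor_lt hK.le).mp hk)
  clear_value S
  rw [xy_NT (hdat.hv o) (hdat.hw o) hφN]
  have h2 : ∀ e ∈ primBall N, ‖∑ d ∈ primBall N, (if Sm M e ∧ Sm M d then
        ((nm e : ℂ) ^ 2 * φ o (d * e ^ 3)) *
          (∑' x : Eis, v o x * ∑' y : Eis, w o y * conj (gs (f o * x * y) d)) else 0)‖ ≤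
        (B * K o * S) * (1 / (nm e : ℝ)) := by
    intro e he
    rw [mem_primBall] at he
    have he1 : (1 : ℝ) ≤ nm e := by exact_mod_cast nm_pos.mpr he.2.ne_zero
    have he0 : (0 : ℝ) < nm e := by linarith
    have h3 : ∀ d ∈ primBall N, ‖(if Sm M e ∧ Sm M d then
        ((nm e : ℂ) ^ 2 * φ o (d * e ^ 3)) *
          (∑' x : Eis, v o x * ∑' y : Eis, w o y * conj (gs (f o * x * y) d)) else 0)‖ ≤
        if Sm M d ∧ Nf o d then
          (B * K o * (1 / (nm e : ℝ))) * ((nm d : ℝ)⁻¹ * aS (f o) X g (v o) (w o) d) else 0 := by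
      intro d hd
      rw [mem_primBall] at hd
      have hd1 : (1 : ℝ) ≤ nm d := by exact_mod_cast nm_pos.mpr hd.2.ne_zero
      have hd0 : (0 : ℝ) < nm d := by linarith
      have haSd := haS0 d
      have hrhs : (0 : ℝ) ≤ if Sm M d ∧ Nf o d then
          (B * K o * (1 / (nm e : ℝ))) * ((nm d : ℝ)⁻¹ * aS (f o) X g (v o) (w o) d) else 0 := by
        split_ifs
        · positivity
        · exact le_rfl
      by_cases hS1 : Sm M e ∧ Sm M d
      swap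
      · rw [if_neg hS1, norm_zero]; exact hrhs
      rw [if_pos hS1]
      by_cases hlt : (nm d : ℝ) * (nm e : ℝ) ^ 3 ≤ K o
      swap
      · have h3 : φ o (d * e ^ 3) = 0 := by
          refine hφ0 o _ ?_
          push Not at hlt
          rw [nm_mul, nm_pow]
          push_cast
          exact hlt
        rw [h3]
        simp only [mul_zero, zero_mul, norm_zero]
        exact hrhs
      by_cases hN1 : Nf o d
      swap
      · rw [hNf o d e hS1.2 hS1.1 hN1]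
        simp only [mul_zero, zero_mul, norm_zero]
        exact hrhs
      rw [if_pos ⟨hS1.2, hN1⟩, norm_mul, norm_mul, norm_pow, Complex.norm_natCast]
      have hSm : Sm M (d * e ^ 3) := hS1.2.mul (hS1.1.pow 3)
      have h4 := hφB o (d * e ^ 3) hSm
      have h5 : ‖∑' x : Eis, v o x * ∑' y : Eis, w o y * conj (gs (f o * x * y) d)‖ ≤
          aS (f o) X g (v o) (w o) d :=
        hL M (f o) d (v o) (w o) X (hdat.hf o).1 hS1.2 (hdat.hv o) (hdat.hw o) (hdat.vx o)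
          (hdat.wy o)
      calc (nm e : ℝ) ^ 2 * ‖φ o (d * e ^ 3)‖ *
            ‖∑' x : Eis, v o x * ∑' y : Eis, w o y * conj (gs (f o * x * y) d)‖
          ≤ (nm e : ℝ) ^ 2 * B * aS (f o) X g (v o) (w o) d := by
            gcongr
        _ = (B * (1 / (nm e : ℝ)) * ((nm d : ℝ)⁻¹ * aS (f o) X g (v o) (w o) d)) *
            ((nm d : ℝ) * (nm e : ℝ) ^ 3) := by
            field_simp
        _ ≤ (B * (1 / (nm e : ℝ)) * ((nm d : ℝ)⁻¹ * aS (f o) X g (v o) (w o) d)) * K o := by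
            gcongr
        _ = _ := by ring
    refine (norm_sum_le _ _).trans ((Finset.sum_le_sum h3).trans ?_)
    rw [← Finset.sum_filter, ← Finset.mul_sum]
    apply le_of_eq
    rw [hSdef, hN]
    unfold DN
    ring_nf
  refine (norm_sum_le _ _).trans ((Finset.sum_le_sum h2).trans ?_)
  rw [← Finset.mul_sum]
  calc (B * K o * S) * ∑ e ∈ primBall N, (1 / (nm e : ℝ)) ≤ (B * K o * S) * (C3 * X ^ ε) := by
        refine mul_le_mul_of_nonneg_left ?_ (mul_nonneg (mul_nonneg hB0 hK.le) hS)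
        refine (sum_inv_primBall_le N).trans (le_trans ?_ (hC3 X hX1))
        have hNX : (N : ℝ) ≤ X := (Nat.floor_le hK.le).trans hKX
        have : Real.log N ≤ Real.log X := by
          rcases Nat.eq_zero_or_pos N with h | h
          · rw [h]
            simp only [Nat.cast_zero, Real.log_zero]
            exact Real.log_nonneg hX1
          · exact Real.log_le_log (by exact_mod_cast h) hNX
        linarith
    _ = C3 * X ^ ε * B * (K o * S) := by ring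


end bp

open Crest.Agent.R012 Crest.Agent.R012.Eis Crest.Agent.R012.Mob705 Crest.Agent.R012.Gauss880
open Crest.Agent.R012.Div277
open Crest.Agent.R017.Sx545 Crest.Agent.R017.CM106 Crest.Agent.R017.C70 Crest.Agent.R017.C590
open Crest.Agent.R017.End699 Crest.Agent.R017.B770 Crest.Agent.R017.Sx440
open Crest.Agent.R017.E2440 Crest.Agent.R017.E4352
open Crest.Agent.R017.E4o502 (vD wD GoodD GB ssm_tws bd_tws)
open Crest.Agent.R017.E4v5 (Law5 HM5 card_pb tws_ne norm_tws_le)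
open Crest.Agent.R017.E4fe502 (FF Dta Bi)
open Crest.Agent.R017.E4R266
open Crest.Agent.R017.E4S783 (BSf BS BSf_true DatS lBpS lBdSf D3F)

/-- **the direct part**, with a filter -/
theorem dirZf {ε : ℝ} (hε : 0 < ε) : ∃ C : ℝ, 0 ≤ C ∧
    ∀ (M f : Eis) (O : Type) (_ : Fintype O) (lam : O → ℝ) (v w : O → Eis → ℂ) (X K B' : ℝ)
      (φ : O → Eis → ℂ) (S : ℝ) (sw : Eis → Eis → Eis → Eis → Eis → Prop) (𝒬 : Finset Q5)
      (c : O × {q : Q5 // q ∈ 𝒬} → ℂ) (Np : O → Eis → Eis → Prop),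
      Dat4 M f lam v w X → 0 < K → K ≤ X → 0 ≤ B' → 0 ≤ S →
      (∀ o k, Sm M k → ‖φ o k‖ ≤ B') → (∀ o k, K / lam o < nm k → φ o k = 0) →
      (∀ z : O × {q : Q5 // q ∈ 𝒬}, ∀ d e, Sm M d → Sm M e →
        ¬ Np z.1 (z.2.1.D0 * z.2.1.D1) d →
        φ z.1 ((z.2.1.D0 * z.2.1.D1) ^ 2 * z.2.1.B ^ 3 * (d * e ^ 3)) = 0) →
      JB M f lam v w (fun _ => 1)
        (fun t => rngD sw lam K t ∧ Np t.o (t.D0 * t.D1) (t.b * t.k)) S →
      (∀ q ∈ 𝒬, QOK M f q ∧ QB ⌊X⌋₊ q) → (∀ q ∈ 𝒬, ¬ sw q.D0 q.D1 q.B q.R q.Z) →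
      (∀ z, ‖c z‖ ≤ (nm (z.2.1.D0 * z.2.1.D1) : ℝ) ^ (3 / 2 : ℝ) * (nm z.2.1.B : ℝ) ^ 3) →
      ‖∑ z : O × {q : Q5 // q ∈ 𝒬}, Bi (vz v z) (fun y => c z * wz w z y)
        (fun x y => NT M (fz f z * x * y)
          (fun k => φ z.1 ((z.2.1.D0 * z.2.1.D1) ^ 2 * z.2.1.B ^ 3 * k)))‖ ≤
        C * X ^ ε * (B' * (K * S)) := by
  obtain ⟨C1, h10, h1⟩ := lBpSf (ε / 80) (by positivity)
  obtain ⟨C2, h20, h2⟩ := jbt_of (ε := ε / 2) (by positivity)
  refine ⟨C1 * C2, by positivity, ?_⟩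
  intro M f O _ lam v w X K B' φ S sw 𝒬 c Np hdat hK hKX hB' hS hφ1 hφ0 hNp hJ h𝒬 hsw hc
  have hX1 := hdat.X1
  have hX0 : 0 < X := by linarith
  have hlam0 : ∀ o, 0 < lam o := fun o => by linarith [(hdat.lam1 o).1]
  have hD := datZ hdat h𝒬 hc
  have hXp : ∀ n : ℕ, 1 ≤ n → X ≤ X ^ n := fun n hn => by
    calc X = X ^ 1 := (pow_one X).symm
      _ ≤ X ^ n := pow_le_pow_right₀ hX1 hn
  -- the scaled variable
  have hnE : ∀ z : O × {q : Q5 // q ∈ 𝒬},
      IsPrim ((z.2.1.D0 * z.2.1.D1) ^ 2 * z.2.1.B ^ 3) ∧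
      Sm M ((z.2.1.D0 * z.2.1.D1) ^ 2 * z.2.1.B ^ 3) := by
    intro z
    obtain ⟨h3, -⟩ := h𝒬 _ z.2.2
    have hs : Sm M ((z.2.1.D0 * z.2.1.D1) ^ 2 * z.2.1.B ^ 3) := by
      have a1 := h3.good.2.2.1
      have a2 := h3.gb.2.1
      have a3 : Sm M ((z.2.1.D0 * z.2.1.D1) ^ 2) := by rw [sq]; exact a1.mul a1
      have a4 : Sm M (z.2.1.B ^ 3) := by
        rw [pow_succ, sq]; exact (a2.mul a2).mul a2
      exact a3.mul a4
    exact ⟨hs.prim, hs⟩
  have hE1 : ∀ z : O × {q : Q5 // q ∈ 𝒬},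
      (1 : ℝ) ≤ nm ((z.2.1.D0 * z.2.1.D1) ^ 2 * z.2.1.B ^ 3) := fun z =>
    one_le_nm (hnE z).1.ne_zero
  have hQpos : ∀ z : O × {q : Q5 // q ∈ 𝒬}, 0 < Qz lam K z := fun z => by
    have := hlam0 z.1
    have := hE1 z
    unfold Qz
    positivity
  have hQX : ∀ z : O × {q : Q5 // q ∈ 𝒬}, Qz lam K z ≤ X := fun z => by
    unfold Qz
    refine (div_le_self hK.le ?_).trans hKX
    exact one_le_mul_of_one_le_of_one_le (hdat.lam1 z.1).1 (hE1 z)
  have key := h1 M (O × {q : Q5 // q ∈ 𝒬}) _ (fz f) (vz v) (fun z y => c z * wz w z y) (X ^ 40)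
    (Qz lam K) B' (fun z k => φ z.1 ((z.2.1.D0 * z.2.1.D1) ^ 2 * z.2.1.B ^ 3 * k))
    (fun z d => Np z.1 (z.2.1.D0 * z.2.1.D1) d) hD
    (fun z => ⟨hQpos z, (hQX z).trans (hXp 40 (by norm_num))⟩) hB'
    (fun z k hk => hφ1 _ _ ((hnE z).2.mul hk))
    (fun z k hk => by
      refine hφ0 _ _ ?_
      have h3 := hlam0 z.1
      have h4 : (0 : ℝ) < nm ((z.2.1.D0 * z.2.1.D1) ^ 2 * z.2.1.B ^ 3) := by
        linarith [hE1 z]
      rw [nm_mul, Nat.cast_mul, div_lt_iff₀ h3]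
      unfold Qz at hk
      rw [div_lt_iff₀ (by positivity)] at hk
      calc K < nm k * (lam z.1 * nm ((z.2.1.D0 * z.2.1.D1) ^ 2 * z.2.1.B ^ 3)) := hk
        _ = _ := by ring)
    (fun z d e hd he hn => hNp z d e hd he hn)
  have hbs := bsf_le (M := M) (f := f) (lam := lam) (v := v) (w := w) (𝒬 := 𝒬)
    (G := fun _ => 1) (rng := fun t => rngD sw lam K t ∧ Np t.o (t.D0 * t.D1) (t.b * t.k))
    (Y := X ^ 80) (S := C2 * X ^ (ε / 2) * S)
    (h2 M f O lam v w (fun _ => 1) _ X S hX1 hS hdat.lam1 hJ) hlam0 hK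
    (fun q hq => ⟨(h𝒬 q hq).1, qsz_mono (pow_le_pow_right₀ hX1 (by norm_num))
      ((h𝒬 q hq).2.sz hX1 (Nat.floor_le hX0.le))⟩) c hc (X := X ^ 40) (by positivity)
    (pow_le_pow_right₀ hX1 (by norm_num)) (Qz lam K)
    (fun z => (hQX z).trans (hXp 80 (by norm_num)))
    (fun z d => Np z.1 (z.2.1.D0 * z.2.1.D1) d) (by
      intro z i hi _ hn
      refine ⟨⟨hsw _ z.2.2, ?_⟩, hn⟩
      have h3 := hlam0 z.1
      have h4 : (0 : ℝ) < nm ((z.2.1.D0 * z.2.1.D1) ^ 2 * z.2.1.B ^ 3) := by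
        linarith [hE1 z]
      unfold Qz at hi
      rw [le_div_iff₀ (by positivity)] at hi
      have e1 : (nm ((z.2.1.D0 * z.2.1.D1) ^ 2 * z.2.1.B ^ 3 * (i.1.1 * i.1.2)) : ℝ) =
          nm ((z.2.1.D0 * z.2.1.D1) ^ 2 * z.2.1.B ^ 3) * nm (i.1.1 * i.1.2) := by
        rw [nm_mul ((z.2.1.D0 * z.2.1.D1) ^ 2 * z.2.1.B ^ 3)]; push_cast; ring
      show lam z.1 * (nm ((z.2.1.D0 * z.2.1.D1) ^ 2 * z.2.1.B ^ 3 * (i.1.1 * i.1.2)) : ℝ) ≤ K
      rw [e1]
      linarith)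
  have e0 : (fun (b y : Eis) => sy y b * (fun _ : Eis => (1 : ℂ)) y) = fun b y => sy y b := by
    funext b y
    simp
  rw [e0] at hbs
  have e2 : (X ^ 40 : ℝ) ^ (ε / 80) = X ^ (ε / 2) := by
    rw [← Real.rpow_natCast X 40, ← Real.rpow_mul hX0.le]
    congr 1; push_cast; ring
  rw [e2] at key
  have e3 : X ^ ε = X ^ (ε / 2) * X ^ (ε / 2) := by rw [← Real.rpow_add hX0]; congr 1; ring
  refine key.trans ?_
  have hp : 0 ≤ C1 * X ^ (ε / 2) * B' := by positivity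
  calc C1 * X ^ (ε / 2) * B' * BSf M (fz f) (vz v) (fun z y => c z * wz w z y)
        (fun b y => sy y b) (X ^ 40) (Qz lam K) (Qz lam K)
        (fun z d => Np z.1 (z.2.1.D0 * z.2.1.D1) d)
      ≤ C1 * X ^ (ε / 2) * B' * (K * (C2 * X ^ (ε / 2) * S)) := mul_le_mul_of_nonneg_left hbs hp
    _ = _ := by rw [e3]; ring

end Crest.Agent.R017.E4J352
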