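import Crest.Agent.R017.E4ax_783
import Crest.Agent.R017.E4v7d_352
import Crest.Agent.R017.E4v7e_352

/-!
# Row 17, C70/E4, exceptional class over the outer non-cubes: the direct half, and the application
for the original weight (helper783)

* `dirQy` : the direct part, non-principal frequencies
* `e4dir7y : E4dir7y`
* `Apyf`, `apyf_dict` : compensated part + second scale
-/

set_option autoImplicit false
set_option linter.unusedVariables false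

noncomputable section

open Complex
open scoped ComplexConjugate

namespace Crest.Agent.R017.E4ap783

open Crest.Agent.R012 Crest.Agent.R012.Eis Crest.Agent.R012.GaussLoc283
open Crest.Agent.R012.Mob705 hiding pb mem_pb
open Crest.Agent.R012.Div277
open Crest.Agent.R017.Sx545 (Sm)
open Crest.Agent.R017.C70 Crest.Agent.R017.GrB829
open Crest.Agent.R017.E2440
open Crest.Agent.R017.A590
open Crest.Agent.R017.B770 (SW)
open Crest.Agent.R017.C590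
open Crest.Agent.R017.End699 (HC)
open Crest.Agent.R017.E4352 (PrI SSm XF Dat4 WT tws TwC rd)
open Crest.Agent.R017.E4D164
open Crest.Agent.R017.E4v5
open Crest.Agent.R017.E4LC858
open Crest.Agent.R017.E4X266 (cmp NT_sub' E4core7y E4dir7y PrC Mq1 Mq0 rngDC rngFC)
open Crest.Agent.R017.E4R266
open Crest.Agent.R017.E4fe502 (Bi bi_right)
open Crest.Agent.R017.E4J352 (Tm JB rngD rngF gx ez dirZf qa_ok sum_Tq QB dcyFin)

/-- **the direct part**, non-principal frequencies -/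
theorem dirQy {ε : ℝ} (hε : 0 < ε) : ∃ C : ℝ, 0 ≤ C ∧
    ∀ (M f : Eis) (O : Type) (_ : Fintype O) (c : O → Eis) (lam : O → ℝ) (v w : O → Eis → ℂ)
      (X K B' : ℝ) (φ : O → Eis → ℂ) (S : ℝ) (sw : Eis → Eis → Eis → Eis → Eis → Prop)
      (𝒬 : Finset Q5),
      Dat4 M f lam v w X → 0 < K → K ≤ X → 0 ≤ B' → 0 ≤ S →
      (∀ o k, Sm M k → ‖φ o k‖ ≤ B') → (∀ o k, K / lam o < nm k → φ o k = 0) →
      (∀ o k, (∃ z : Eis, c o * k = z ^ 3) → φ o k = 0) →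
      JB M f lam v w (fun _ => 1) (rngDC c sw lam K) S →
      (∀ q ∈ 𝒬, QOK M f q ∧ QB ⌊X⌋₊ q) → (∀ q ∈ 𝒬, ¬ sw q.D0 q.D1 q.B q.R q.Z) →
      ‖∑ z : O × {q : Q5 // q ∈ 𝒬}, cq f z.2.1 * Bi (vz v z) (wz w z)
        (fun x y => NT M (fz f z * x * y) (fun k => φ z.1 (ez z.2.1 * k)))‖ ≤
        C * X ^ ε * (B' * (K * S)) := by
  obtain ⟨C, hC, H⟩ := dirZf hε
  refine ⟨C, hC, ?_⟩
  intro M f O _ c lam v w X K B' φ S sw 𝒬 hdat hK hKX hB' hS hφ1 hφ0 hφc hJ h𝒬 hsw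
  have key := H M f O _ lam v w X K B' φ S sw 𝒬 (fun z => cq f z.2.1)
    (fun o D d => ¬ PrC (c o) D d) hdat hK hKX hB' hS hφ1 hφ0 ?_
    hJ h𝒬 hsw (fun z => norm_cq (h𝒬 _ z.2.2).1)
  · refine le_trans (le_of_eq ?_) key
    congr 1
    refine Finset.sum_congr rfl fun z _ => ?_
    rw [bi_right]
    rfl
  · intro z d e _ _ hn
    rw [not_not] at hn
    obtain ⟨t, ht⟩ := hn
    refine hφc _ _ ⟨t * z.2.1.B * e, ?_⟩
    calc c z.1 * ((z.2.1.D0 * z.2.1.D1) ^ 2 * z.2.1.B ^ 3 * (d * e ^ 3)) =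
        (c z.1 * (d * (z.2.1.D0 * z.2.1.D1) ^ 2)) * (z.2.1.B * e) ^ 3 := by ring
      _ = _ := by rw [ht]; ring

/-- **the direct half alone**, outer non-cubes -/
theorem e4dir7y : E4dir7y := by
  classical
  intro ε hε
  obtain ⟨C, hC, H⟩ := dirQy hε
  refine ⟨C, hC, ?_⟩
  intro M f O _ c lam v w X K B φ S hdat hK1 hKX hB hS hφ1 hφ0 hφc hJ
  have hK : 0 < K := by linarith
  have hdc : ∀ o, Dcy (φ o) := fun o => dcyFin (hφ0 o)
  rw [open_z hdat φ hdc, sum_Tq]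
  exact H M f O _ c lam v w X K B φ S (fun _ _ _ _ _ => False) (QA M f ⌊X⌋₊) hdat hK hKX hB hS hφ1
    hφ0 hφc hJ (fun q hq => qa_ok hq) (fun _ _ h => h)

/-! ### the original weight -/

section

variable {M f : Eis} {O : Type} [Fintype O] {c : O → Eis} {lam : O → ℝ} {v w : O → Eis → ℂ}
  {X : ℝ}

lemma tsum_mul_sub {a : Eis → ℂ} (ha : (Function.support a).Finite) (A B : Eis → ℂ) :
    ∑' x, a x * (A x - B x) = ∑' x, a x * A x - ∑' x, a x * B x := by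
  have h : ∀ A : Eis → ℂ, Summable fun x => a x * A x := fun A =>
    summable_of_hasFiniteSupport (ha.subset fun x hx h0 => hx (by simp [h0]))
  rw [← (h A).tsum_sub (h B)]
  refine tsum_congr fun x => ?_
  ring

open Classical in
/-- the cut weight -/
def cutc (c : O → Eis) (χ : Eis → ℂ) (l : ℤ) (W : ℝ → ℂ) (K : ℝ) (lam : O → ℝ) (o : O)
    (k : Eis) : ℂ :=
  if ∃ z : Eis, c o * k = z ^ 3 then 0 else End699.tw χ l k * W (nm k * lam o / K)

lemma cutc_zero (hD : Dat4 M f lam v w X) {χ : Eis → ℂ} {l : ℤ} {W : ℝ → ℂ} {K H : ℝ}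
    (hK : 0 < K) (hH : 0 < H)
    (hW : ∀ y, 1 < y * H → W y = 0) (o : O) (k : Eis) (hk : K * H⁻¹ / lam o < nm k) :
    cutc c χ l W K lam o k = 0 := by
  have hl : 0 < lam o := by linarith [(hD.lam1 o).1]
  unfold cutc
  rw [hW _ ?_, mul_zero, ite_self]
  rw [div_lt_iff₀ hl] at hk
  rw [div_mul_eq_mul_div, lt_div_iff₀ hK, one_mul]
  calc K = (K * H⁻¹) * H := by field_simp
    _ < (nm k * lam o) * H := mul_lt_mul_of_pos_right hk hH

lemma E4Ly_cutc (χ : Eis → ℂ) (l : ℤ) (W : ℝ → ℂ) (K : ℝ) :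
    E4Ly M f χ l W K c lam v w = ∑ o, ∑' x : Eis, v o x * ∑' y : Eis, w o y *
      NT (M * (f * y)) (f * x * y) (cutc c χ l W K lam o) := rfl

/-- compensated part and second scale -/
lemma E4Ly_split (hD : Dat4 M f lam v w X) (χ : Eis → ℂ) (l : ℤ) {V : ℝ → ℂ}
    (hV : ∀ y, 1 < y → V y = 0) {K : ℝ} (hK : 0 < K) {h : ℝ} (hh : 0 ≤ h) :
    E4Ly M f χ l V K c lam v w = E4Ly M f χ l (cmp V h) K c lam v w +
      E4Ly M f χ l (fun y => ((Real.exp h : ℝ) : ℂ) * V (y * Real.exp h)) K c lam v w := by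
  have hE := Real.exp_pos h
  have hE1 : 1 ≤ Real.exp h := Real.one_le_exp hh
  have hV' : ∀ y, 1 < y * 1 → V y = 0 := fun y hy => hV y (by simpa using hy)
  have hC' : ∀ y, 1 < y * 1 → cmp V h y = 0 := fun y hy => by
    rw [mul_one] at hy
    unfold E4X266.cmp
    rw [hV y hy, hV (y * Real.exp h) (by nlinarith), mul_zero, sub_zero]
  have d1 : ∀ o, Dcy (cutc c χ l V K lam o) := fun o =>
    dcyFin (fun k hk => cutc_zero hD hK one_pos hV' o k hk)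
  have d2 : ∀ o, Dcy (cutc c χ l (cmp V h) K lam o) := fun o =>
    dcyFin (fun k hk => cutc_zero hD hK one_pos hC' o k hk)
  have e1 : ∀ o, cutc c χ l (fun y => ((Real.exp h : ℝ) : ℂ) * V (y * Real.exp h)) K lam o =
      fun k => cutc c χ l V K lam o k - cutc c χ l (cmp V h) K lam o k := by
    intro o
    funext k
    unfold cutc
    by_cases hc : ∃ z : Eis, c o * k = z ^ 3
    · rw [if_pos hc, if_pos hc, if_pos hc, sub_zero]
    · rw [if_neg hc, if_neg hc, if_neg hc]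
      unfold E4X266.cmp
      ring
  have e2 : E4Ly M f χ l (fun y => ((Real.exp h : ℝ) : ℂ) * V (y * Real.exp h)) K c lam v w =
      E4Ly M f χ l V K c lam v w - E4Ly M f χ l (cmp V h) K c lam v w := by
    rw [E4Ly_cutc, E4Ly_cutc, E4Ly_cutc, ← Finset.sum_sub_distrib]
    refine Finset.sum_congr rfl fun o _ => ?_
    rw [← tsum_mul_sub (hD.hv o).fin]
    refine tsum_congr fun x => ?_
    rw [← tsum_mul_sub (hD.hw o).fin]
    congr 1
    refine tsum_congr fun y => ?_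
    rw [e1 o, NT_sub' (d1 o) (d2 o)]
  rw [e2]
  ring

end

/-- the second scale: the direct half -/
theorem second {ε : ℝ} (hε : 0 < ε) : ∃ C : ℝ, 0 ≤ C ∧
    ∀ (M f : Eis) (χ : Eis → ℂ) (l : ℤ) (V : ℝ → ℂ) (O : Type) (_ : Fintype O) (c : O → Eis)
      (lam : O → ℝ) (v w : O → Eis → ℂ) (X K B h S : ℝ), Dat4 M f lam v w X →
      1 ≤ K → K ≤ X → 0 ≤ B → 0 ≤ h → 0 ≤ S → (∀ k, Sm M k → ‖End699.tw χ l k‖ ≤ 1) →
      (∀ y, ‖V y‖ ≤ B) → (∀ y, 1 < y → V y = 0) →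
      (1 ≤ K * Real.exp (-h) → JB M f lam v w (fun _ => 1)
        (rngDC c (fun _ _ _ _ _ => False) lam (K * Real.exp (-h))) S) →
      ‖E4Ly M f χ l (fun y => ((Real.exp h : ℝ) : ℂ) * V (y * Real.exp h)) K c lam v w‖ ≤
        C * X ^ ε * (B * (K * S)) := by
  classical
  obtain ⟨C, hC, H⟩ := e4dir7y ε hε
  refine ⟨C, hC, ?_⟩
  intro M f χ l V O _ c lam v w X K B h S hD hK1 hKX hB hh hS hχ hVB hV1 hJ
  have hX1 := hD.X1
  have hX0 : 0 < X := by linarith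
  have hK : 0 < K := by linarith
  have hE := Real.exp_pos h
  have hE1 : 1 ≤ Real.exp h := Real.one_le_exp hh
  have hz : ∀ o k, K * Real.exp (-h) / lam o < nm k →
      cutc c χ l (fun y => ((Real.exp h : ℝ) : ℂ) * V (y * Real.exp h)) K lam o k = 0 := by
    intro o k hk
    rw [Real.exp_neg] at hk
    exact cutc_zero hD hK hE (fun y hy => by rw [hV1 _ hy, mul_zero]) o k hk
  rw [E4Ly_cutc]
  rcases le_or_gt 1 (K * Real.exp (-h)) with h1 | h1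
  · have hKh : K * Real.exp (-h) ≤ K := by
      refine mul_le_of_le_one_right hK.le ?_
      rw [Real.exp_neg]
      exact inv_le_one_of_one_le₀ hE1
    have key := H M f O _ c lam v w X (K * Real.exp (-h)) (Real.exp h * B)
      (fun o => cutc c χ l (fun y => ((Real.exp h : ℝ) : ℂ) * V (y * Real.exp h)) K lam o) S hD
      h1 (hKh.trans hKX) (by positivity) hS (fun o k hk => ?_) hz (fun o k hk => ?_) (hJ h1)
    · refine key.trans (le_of_eq ?_)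
      rw [Real.exp_neg]
      field_simp
    · unfold cutc
      split_ifs
      · rw [norm_zero]; positivity
      · rw [norm_mul, norm_mul, Complex.norm_real, Real.norm_of_nonneg hE.le]
        calc ‖End699.tw χ l k‖ * (Real.exp h * ‖V (nm k * lam o / K * Real.exp h)‖)
            ≤ 1 * (Real.exp h * B) := by
              have := hVB (nm k * lam o / K * Real.exp h)
              have := hχ k hk
              gcongr
          _ = _ := one_mul _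
    · unfold cutc
      rw [if_pos hk]
  · have e : ∀ o (u M' : Eis), NT M' u
        (cutc c χ l (fun y => ((Real.exp h : ℝ) : ℂ) * V (y * Real.exp h)) K lam o) = 0 := by
      intro o u M'
      have e1 : NT M' u (cutc c χ l (fun y => ((Real.exp h : ℝ) : ℂ) * V (y * Real.exp h))
          K lam o) = NT M' u (fun _ => 0) := by
        refine C590.NT_congr (fun k hk => ?_) _
        refine hz o k ?_
        have h2 : (1 : ℝ) ≤ nm k := one_le_nm hk.1.ne_zero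
        have h3 : 0 < lam o := by linarith [(hD.lam1 o).1]
        have h4 : K * Real.exp (-h) / lam o ≤ K * Real.exp (-h) :=
          div_le_self (by positivity) (hD.lam1 o).1
        linarith
      rw [e1]
      unfold NT DS
      simp
    have e3 : ∑ o, ∑' x : Eis, v o x * ∑' y : Eis, w o y * NT (M * (f * y)) (f * x * y)
        (cutc c χ l (fun y => ((Real.exp h : ℝ) : ℂ) * V (y * Real.exp h)) K lam o) = 0 := by
      refine Finset.sum_eq_zero fun o _ => ?_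
      simp only [e o, mul_zero, tsum_zero]
    rw [e3, norm_zero]
    positivity

/-- the conclusion for one character and the original weight -/
def Apyf (M : Eis) (χ : Eis → ℂ) (T : Finset ((Eis → ℂ) × ℤ)) (P : Finset Eis) (V : ℝ → ℂ)
    (ε A C J : ℝ) : Prop :=
  ∀ (τ h : ℝ) (f : Eis) (O : Type) (_ : Fintype O) (c : O → Eis) (lam : O → ℝ)
    (v w : O → Eis → ℂ) (X K U T₀ : ℝ) (S S₂ Mn : ℝ) (sw : Eis → Eis → Eis → Eis → Eis → Prop),
    Dat4 M f lam v w X → (∀ o, IsPrim (c o)) → (∀ o y, w o y ≠ 0 → IsCoprime (c o) (f * y)) →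
    0 ≤ h → Real.exp h ≤ X → 1 ≤ K → K ≤ X → 0 < U → U ≤ X → 0 ≤ S → 0 ≤ S₂ → 0 ≤ Mn →
    (∀ o x y, v o x ≠ 0 → w o y ≠ 0 → (nm (f * x * y) : ℝ) * lam o ^ 2 ≤ U) →
    (∀ D0 D1 B R Z : Eis, sw D0 D1 B R Z → (nm D1 : ℝ) * nm (rd Z) ≤ 2 * T₀) →
    JB M f lam v w (fun _ => 1) (rngDC c sw lam K) S →
    (1 ≤ K * Real.exp (-h) → JB M f lam v w (fun _ => 1)
      (rngDC c (fun _ _ _ _ _ => False) lam (K * Real.exp (-h))) S₂) →
    (∀ t ∈ T, ∀ ξ, JB M f lam v w (gx t.1 t.2 ξ)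
      (rngFC c sw lam (Real.exp h * (U / K) * X ^ ε)) ((1 + |ξ|) ^ A * S)) →
    (∀ m ∈ P, HM5 M f lam v w K T₀ (mtr (some m)) Mn) →
    ‖E4Ly M f χ 0 (fun y => (y : ℂ) ^ (I * τ) * V y) K c lam v w‖ ≤
      C * X ^ ε * (1 + |τ|) ^ J * (K * (S + S₂) + X ^ (-A) + Mn + MpY f c lam v w K h)

lemma apyf_of {M : Eis} {χ : Eis → ℂ} (hχ : ∀ k, Sm M k → ‖End699.tw χ 0 k‖ ≤ 1)
    {T : Finset ((Eis → ℂ) × ℤ)} {P : Finset Eis} {V : ℝ → ℂ} (hV : SW V)
    (hV1 : ∀ y, 1 < y → V y = 0) {B : ℝ} (hB0 : 0 ≤ B) (hB : ∀ y, ‖V y‖ ≤ B)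
    {ε A C J : ℝ} (hC : 0 ≤ C) (hJ : 0 ≤ J) {C2 : ℝ} (hC2 : 0 ≤ C2)
    (H2 : ∀ (M f : Eis) (χ : Eis → ℂ) (l : ℤ) (V : ℝ → ℂ) (O : Type) (_ : Fintype O) (c : O → Eis)
      (lam : O → ℝ) (v w : O → Eis → ℂ) (X K B h S : ℝ), Dat4 M f lam v w X →
      1 ≤ K → K ≤ X → 0 ≤ B → 0 ≤ h → 0 ≤ S → (∀ k, Sm M k → ‖End699.tw χ l k‖ ≤ 1) →
      (∀ y, ‖V y‖ ≤ B) → (∀ y, 1 < y → V y = 0) →
      (1 ≤ K * Real.exp (-h) → JB M f lam v w (fun _ => 1)
        (rngDC c (fun _ _ _ _ _ => False) lam (K * Real.exp (-h))) S) →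
      ‖E4Ly M f χ l (fun y => ((Real.exp h : ℝ) : ℂ) * V (y * Real.exp h)) K c lam v w‖ ≤
        C2 * X ^ ε * (B * (K * S))) (H : Apy M χ T P V ε A C J) :
    Apyf M χ T P V ε A (C + C2 * B) J := by
  intro τ h f O _ c lam v w X K U T₀ S S₂ Mn sw hD c1 c2 g1 g2 h1 h2 h3 h4 h5 h5' h6 h7 h8 h9 h9'
    h10 h11
  have hX1 := hD.X1
  have hMp := mpY_nonneg (c := c) (h := h) hD h1
  have k1 := H τ h f O _ c lam v w X K U T₀ S Mn sw hD c1 c2 g1 g2 h1 h2 h3 h4 h5 h6 h7 h8 h9 h10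
    h11
  have hW1 : ∀ y : ℝ, 1 < y → (y : ℂ) ^ (I * τ) * V y = 0 := fun y hy => by rw [hV1 y hy, mul_zero]
  have k2 := H2 M f χ 0 (fun y => (y : ℂ) ^ (I * τ) * V y) O _ c lam v w X K B h S₂ hD h1 h2
    hB0 g1 h5' hχ (fun y => norm_tau hV hB τ y) hW1 h9'
  rw [E4Ly_split hD χ 0 hW1 (by linarith) g1]
  refine (norm_add_le _ _).trans ((add_le_add k1 k2).trans ?_)
  have h15 : 1 ≤ (1 + |τ|) ^ J := Real.one_le_rpow (by linarith [abs_nonneg τ]) hJ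
  have h16 : (0 : ℝ) ≤ X ^ ε := by positivity
  have h17 : 0 ≤ K * S₂ := by positivity
  have h18 : 0 ≤ K * S + X ^ (-A) + Mn + MpY f c lam v w K h := by positivity
  have e1 : C2 * X ^ ε * (B * (K * S₂)) ≤ (C2 * B * X ^ ε * (1 + |τ|) ^ J) * (K * S₂) := by
    calc C2 * X ^ ε * (B * (K * S₂)) = (C2 * B * X ^ ε * 1) * (K * S₂) := by ring
      _ ≤ _ := by gcongr
  have e2 : 0 ≤ (C * X ^ ε * (1 + |τ|) ^ J) * (K * S₂) := by positivity
  have e3 : 0 ≤ (C2 * B * X ^ ε * (1 + |τ|) ^ J) *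
      (K * S + X ^ (-A) + Mn + MpY f c lam v w K h) := by positivity
  linarith

/-- **the application, original weight** : all characters `χ = conj ψ (c h / ·)` -/
theorem apyf_all (H7 : E4core7y) {M : Eis} {ψ : Eis → ℂ} (hψ : HC M ψ)
    (hcs : ∃ m₀, PrI M m₀ ∧ ∀ b, Sm M b → conj (ψ b) = sy m₀ b) :
    ∃ (T : Finset ((Eis → ℂ) × ℤ)) (P : Finset Eis), (∀ t ∈ T, TG7 M 0 t) ∧
      (∀ m ∈ P, PG M 0 m) ∧
      ∀ V : ℝ → ℂ, SW V → (∀ y, 1 < y → V y = 0) → ∀ ε A : ℝ, 0 < ε → 0 ≤ A →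
        ∃ C J : ℝ, 0 ≤ C ∧ 0 ≤ J ∧ ∀ (χ : Eis → ℂ) (c h : Eis), IsC c → PrI M h →
          (∀ b, Sm M b → χ b = conj (ψ b) * (sy c b * sy h b)) → Apyf M χ T P V ε A C J := by
  obtain ⟨T, P, h1, h2, H⟩ := apy_all H7 hψ hcs
  refine ⟨T, P, h1, h2, fun V hV hV1 ε A hε hA => ?_⟩
  obtain ⟨C, J, hC0, hJ0, H1⟩ := H V hV hV1 ε A hε hA
  obtain ⟨C2, hC2, H2⟩ := second hε
  obtain ⟨B, hB0, hB⟩ := bdd_sw hV
  refine ⟨C + C2 * B, J, by positivity, hJ0, fun χ c h hc hh hχ => ?_⟩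
  refine apyf_of (fun k hk => ?_) hV hV1 hB0 hB hC0 hJ0 hC2 H2 (H1 χ c h hc hh hχ)
  have a1 : ‖End699.tw ψ 0 k‖ ≤ 1 := A590.norm_tw_le' hψ 0 hk.1
  have a2 : ‖sy c k‖ ≤ 1 := E2440.norm_sy_le1 hk.1
  have a3 : ‖sy h k‖ ≤ 1 := E2440.norm_sy_le1 hk.1
  unfold End699.tw at a1 ⊢
  rw [norm_mul] at a1
  rw [hχ k hk, norm_mul, norm_mul, norm_mul, RCLike.norm_conj]
  calc ‖ψ k‖ * (‖sy c k‖ * ‖sy h k‖) * ‖ang 0 k‖ = (‖ψ k‖ * ‖ang 0 k‖) * (‖sy c k‖ * ‖sy h k‖) := by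
        ring
    _ ≤ 1 * (1 * 1) := by gcongr
    _ = 1 := by norm_num

/-- **the application, original weight, in the form of the dictionary** -/
theorem apyf_dict (H7 : E4core7y) {M : Eis} {ψ : Eis → ℂ} (hψ : HC M ψ)
    (hcs : ∃ m₀, PrI M m₀ ∧ ∀ b, Sm M b → conj (ψ b) = sy m₀ b) :
    ∃ (T : Finset ((Eis → ℂ) × ℤ)) (P : Finset Eis), (∀ t ∈ T, TG7 M 0 t) ∧
      (∀ m ∈ P, PG M 0 m) ∧
      ∀ V : ℝ → ℂ, SW V → (∀ y, 1 < y → V y = 0) → ∀ ε A : ℝ, 0 < ε → 0 ≤ A →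
        ∃ C J : ℝ, 0 ≤ C ∧ 0 ≤ J ∧ ∀ E c₀ g z : Eis, IsPrim E → IsC c₀ → PrI M g → PrI M z →
          Apyf M (psd (psE M ψ E) (c₀ * g * z)) T P V ε A C J := by
  obtain ⟨T, P, h1, h2, H⟩ := apyf_all H7 hψ hcs
  refine ⟨T, P, h1, h2, fun V hV hV1 ε A hε hA => ?_⟩
  obtain ⟨C, J, hC0, hJ0, H1⟩ := H V hV hV1 ε A hε hA
  refine ⟨C, J, hC0, hJ0, fun E c₀ g z hE hc hg hz => ?_⟩
  obtain ⟨h3, h4⟩ := psd_eq (c := c₀) (ψ := ψ) hψ.q0 hE hg hz
  exact H1 _ c₀ _ hc h3 h4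

end Crest.Agent.R017.E4ap783
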