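import Crest.Agent.R017.E4Po_266
import Crest.Agent.R017.E4Cx_266
import Crest.Agent.R017.E4ay_783

/-!
# Row 17, C70/E4, version 7, exceptional class over the outer non-cubes: `e4core7y` (helper266)

* `feQy` : the part with the functional equation
* `e4core7y : E4core7y`
-/

set_option autoImplicit false

noncomputable section

open Complex
open scoped ComplexConjugate

namespace Crest.Agent.R017.E4X266

open Crest.Agent.R012 Crest.Agent.R012.Eis Crest.Agent.R012.Mob705 Crest.Agent.R012.Gauss880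
open Crest.Agent.R012.Div277
open Crest.Agent.R017.Sx545 Crest.Agent.R017.CM106 Crest.Agent.R017.C70 Crest.Agent.R017.C590
open Crest.Agent.R017.End699 Crest.Agent.R017.B770 Crest.Agent.R017.Sx440
open Crest.Agent.R017.E2440 Crest.Agent.R017.E4352
open Crest.Agent.R017.E4o502 (vD wD GoodD GB ssm_tws bd_tws)
open Crest.Agent.R017.E4v5 (Law5 HM5 GB')
open Crest.Agent.R017.E4fe502 (FF Dta Bi bi_right bi_add bi_smul bi_congr dG)
open Crest.Agent.R017.E4R266
open Crest.Agent.R017.E4S783 (D3F D3F_true)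
open Crest.Agent.R017.E4J352 (Tm JB gx rngD rngF QB dta ez ez_sm ez_one ssm_vz ssm_wz fe_id polZ
  dcyFin wtMono qa_ok sum_Tq open_sw dirQ)
open Crest.Agent.R017.E4Pr266 (D3c cr_nonneg)

lemma Mq1_nonneg (c f : Eis) (v w : Eis → ℂ) : 0 ≤ Mq1 c f v w :=
  tsum_nonneg fun x => mul_nonneg (mul_nonneg (norm_nonneg _) (g6_nonneg _ _))
    (tsum_nonneg fun _ => mul_nonneg (norm_nonneg _) (mul_nonneg (cr_nonneg _) (by positivity)))

lemma Mq0_nonneg (c f : Eis) (v w : Eis → ℂ) : 0 ≤ Mq0 c f v w :=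
  tsum_nonneg fun x => mul_nonneg (mul_nonneg (norm_nonneg _) (g6_nonneg _ _))
    (tsum_nonneg fun _ => mul_nonneg (norm_nonneg _) (cr_nonneg _))

/-- the part with the functional equation -/
theorem feQy (M : Eis) (ψ : Eis → ℂ) (l : ℤ) (ι : Type) [Fintype ι] (D : Dt3 ι) (hψ : HC M ψ)
    (hOK : D.OK M) {ε A : ℝ} (hε : 0 < ε) (hA : 0 ≤ A) : ∃ (C : ℝ) (m₀ N₀ : ℕ), 0 ≤ C ∧
    ∀ (V : ℝ → ℂ) (W : ι → ℝ → ℂ) (mt : Eis → ℝ → ℂ) (B h : ℝ), 0 ≤ B → 0 ≤ h →
      Law5 M ψ l D V W mt → (∀ i, WTx m₀ N₀ B h (W i)) →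
    ∀ (f : Eis) (O : Type) (_ : Fintype O) (c : O → Eis) (lam : O → ℝ) (v w : O → Eis → ℂ)
      (X K U T₀ : ℝ) (S Mn : ℝ) (sw : Eis → Eis → Eis → Eis → Eis → Prop) (𝒬 : Finset Q5),
      Dat4 M f lam v w X → (∀ o, IsPrim (c o)) → (∀ o y, w o y ≠ 0 → IsCoprime (c o) (f * y)) →
      1 ≤ K → K ≤ X → 0 < U → U ≤ X → Real.exp h ≤ X → 0 ≤ S → 0 ≤ Mn →
      (∀ o x y, v o x ≠ 0 → w o y ≠ 0 → (nm (f * x * y) : ℝ) * lam o ^ 2 ≤ U) →
      (∀ i ξ, JB M f lam v w (gx (D.η i) D.j ξ) (rngFC c sw lam (Real.exp h * (U / K) * X ^ ε))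
        ((1 + |ξ|) ^ A * S)) →
      HM5 M f lam v w K T₀ mt Mn → 𝒬 ⊆ QA M f ⌊X⌋₊ →
      (∀ q ∈ 𝒬, sw q.D0 q.D1 q.B q.R q.Z) →
      (∀ q ∈ 𝒬, (nm q.D1 : ℝ) * nm (rd q.Z) ≤ 2 * T₀) →
      ‖∑ z : O × {q : Q5 // q ∈ 𝒬}, cq f z.2.1 * Bi (vz v z) (wz w z)
        (fun x y => NT M (fz f z * x * y) (fun k => End699.tw ψ l (ez z.2.1 * k) *
          V (nm (ez z.2.1 * k) * lam z.1 / K)))‖ ≤
        C * X ^ ε * (B * (K * S + X ^ (-A)) + Mn +
          B * ∑ o, (K / lam o) ^ (4 / 3 : ℝ) * Mq1 (c o) f (v o) (w o)) := by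
  classical
  have hex : ∀ i : ι, _ := fun i => dual_le hOK i hε hA
  choose Cb mb Nb hCb0 hCb using hex
  have hex2 : ∀ i : ι, _ := fun i => prinF (hOK.ρ i) hε
  choose Cr hCr0 hCr using hex2
  obtain ⟨Cp, hCp0, hCp⟩ := polZ hε
  have hCn : 0 ≤ ∑ i, ‖D.κ i‖ * Cb i :=
    Finset.sum_nonneg fun i _ => mul_nonneg (norm_nonneg _) (hCb0 i)
  have hCn2 : 0 ≤ ∑ i, ‖D.κ i‖ * Cr i :=
    Finset.sum_nonneg fun i _ => mul_nonneg (norm_nonneg _) (hCr0 i)
  refine ⟨∑ i, ‖D.κ i‖ * Cb i + ∑ i, ‖D.κ i‖ * Cr i + Cp, Finset.univ.sup mb,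
    Finset.univ.sup Nb + 2, by positivity, ?_⟩
  intro V W mt B h hB hh hL hWT f O _ c lam v w X K U T₀ S Mn sw 𝒬 hdat hcp hcw hK1 hKX hU hUX hhX hS hMn
    hlen hJ hHM hsub hsw hT
  have hX1 := hdat.X1
  have hX0 : 0 < X := by linarith
  have hK : 0 < K := by linarith
  have hlam0 : ∀ o, 0 < lam o := fun o => by linarith [(hdat.lam1 o).1]
  have h𝒬 : ∀ q ∈ 𝒬, QOK M f q ∧ QB ⌊X⌋₊ q := fun q hq => qa_ok (hsub hq)
  have hq : ∀ q ∈ 𝒬, QOK M f q := fun q hq => (h𝒬 q hq).1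
  have htw : ∀ q ∈ 𝒬, ‖cq f q * End699.tw ψ l (ez q)‖ ≤
      (nm (q.D0 * q.D1) : ℝ) ^ (3 / 2 : ℝ) * (nm q.B : ℝ) ^ 3 := by
    intro q hq'
    rw [norm_mul]
    have a1 := norm_cq (hq q hq')
    have a2 := A590.norm_tw_le' hψ l (ez_sm (hq q hq')).prim
    have a3 := norm_nonneg (cq f q)
    calc ‖cq f q‖ * ‖End699.tw ψ l (ez q)‖ ≤ ‖cq f q‖ * 1 := by gcongr
      _ ≤ _ := by rw [mul_one]; exact a1
  rw [fe_id hψ hL hdat.hf.1 hdat.hv hdat.hw hlam0 hK hq (cq f)]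
  refine (norm_add_le _ _).trans ?_
  have hXε : 0 < X ^ ε := Real.rpow_pos_of_pos hX0 _
  -- polar part
  have e1 := hCp M f O _ lam v w X K T₀ Mn mt 𝒬 (fun q => cq f q * End699.tw ψ l (ez q)) hX1 hMn
    hdat.hf.1 hdat.hv hdat.hw hHM h𝒬 hT htw
  -- dual parts
  set T := B * (K * S + X ^ (-A)) with hTd
  have hT0 : 0 ≤ T := by positivity
  set Pn := B * ∑ o, (K / lam o) ^ (4 / 3 : ℝ) * Mq1 (c o) f (v o) (w o) with hPn
  have hPn0 : 0 ≤ Pn := mul_nonneg hB (Finset.sum_nonneg fun o _ => by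
    have := Mq1_nonneg (c o) f (v o) (w o)
    have := hlam0 o
    positivity)
  have hone : ∀ i, ‖∑ z : O × {q : Q5 // q ∈ 𝒬}, Bi (vz v z)
          (fun y => (cq f z.2.1 * End699.tw ψ l (ez z.2.1)) * wz w z y)
          (dG M D W i (fz f z) (Qz lam K z))‖ ≤ Cb i * (X ^ ε * T) + Cr i * (X ^ ε * Pn) := by
    intro i
    have hχ1 : ∀ d, IsPrim d → ‖End699.tw (D.η i) D.j d‖ ≤ 1 := fun d hd =>
      ((hOK.η i).isChar_tw D.j).norm_le hd
    have hχ2 : ∀ d, IsPrim d → ‖End699.tw (D.ψ' i) D.l' d‖ ≤ 1 := fun d hd =>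
      ((hOK.ψ' i).isChar_tw D.l').norm_le hd
    have hWs : WT (mb i) (Nb i) B (fun y => W i (y * Real.exp h)) :=
      wtMono hB (wt_shift hB (hWT i)) (Finset.le_sup (Finset.mem_univ i))
        ((Finset.le_sup (Finset.mem_univ i)).trans (Nat.le_add_right _ _))
    have k1 := hCb i (W i) B h hB hh hWs f O _ (fun o Dd d => ¬ PrC (c o) Dd d) lam v w X K U S sw hdat hK1
      hKX hU hUX hhX hS hlen (hJ i) 𝒬 hsub hsw
      (fun z => cq f z.2.1 * End699.tw ψ l (ez z.2.1)) (fun z => htw _ z.2.2)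
    have k2 := hCr i M f O _ c lam v w X K B (End699.tw (D.η i) D.j) (End699.tw (D.ψ' i) D.l') (W i)
      𝒬 (fun z => cq f z.2.1 * End699.tw ψ l (ez z.2.1)) hdat hcp hcw hK hB hχ1 hχ2
      (fun y hy => wtx_third hB (hWT i) hy) hq (fun z => htw _ z.2.2)
    -- the splitting
    have hW2 : ∀ y : ℝ, 0 < y → ‖W i y‖ ≤ (B * Real.exp h ^ 2) * (y ^ 2)⁻¹ := by
      intro y hy
      have h1 := (hWT i).dec 0 (Nat.zero_le _) y hy
      rw [iteratedDeriv_zero, Real.exp_log hy] at h1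
      refine h1.trans ?_
      rw [mul_assoc]
      refine mul_le_mul_of_nonneg_left ?_ hB
      unfold bdx
      set t := y * Real.exp (-h) with ht
      have ht0 : 0 < t := by positivity
      have e5 : Real.exp h ^ 2 * (y ^ 2)⁻¹ = (t ^ 2)⁻¹ := by
        rw [ht, Real.exp_neg, mul_pow, inv_pow]
        field_simp
      rw [e5]
      refine (min_le_right _ _).trans ?_
      rcases le_or_gt 1 t with h2 | h2
      · refine (min_le_right _ _).trans ?_
        have h3 : t ^ 2 ≤ t ^ (Finset.univ.sup Nb + 2) :=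
          pow_le_pow_right₀ h2 (Nat.le_add_left _ _)
        exact inv_anti₀ (by positivity) h3
      · refine (min_le_left _ _).trans ?_
        rw [one_le_inv₀ (by positivity)]
        exact pow_le_one₀ ht0.le h2.le
    have e2 : ∀ z : O × {q : Q5 // q ∈ 𝒬}, Bi (vz v z)
          (fun y => (cq f z.2.1 * End699.tw ψ l (ez z.2.1)) * wz w z y)
          (dG M D W i (fz f z) (Qz lam K z)) =
        Bi (vz v z) (fun y => (cq f z.2.1 * End699.tw ψ l (ez z.2.1)) * wz w z y)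
          (fun x y => (Qz lam K z : ℂ) * (End699.tw (D.η i) D.j (fz f z * x * y) *
            D3F M (End699.tw (D.ψ' i) D.l') (fz f z * x * y) (W i)
              (D.ρ i * nm (fz f z * x * y) / Qz lam K z)
              (fun d => ¬ PrC (c z.1) (z.2.1.D0 * z.2.1.D1) d))) +
        Bi (vz v z) (fun y => (cq f z.2.1 * End699.tw ψ l (ez z.2.1)) * wz w z y)
          (fun x y => (Qz lam K z : ℂ) * (End699.tw (D.η i) D.j (fz f z * x * y) *
            D3c (PrC (c z.1) (z.2.1.D0 * z.2.1.D1)) M (End699.tw (D.ψ' i) D.l') (fz f z * x * y) (W i)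
              (D.ρ i * nm (fz f z * x * y) / Qz lam K z))) := by
      intro z
      have hqz := hq _ z.2.2
      have hd := dta hdat.hf.1 hqz
      have s2 : SSm M (fun y => (cq f z.2.1 * End699.tw ψ l (ez z.2.1)) * wz w z y) := by
        have h1 := ssm_wz hdat.hw hq z
        exact ⟨h1.fin.subset fun y hy h0 => hy (by simp [show wz w z y = 0 from h0]),
          fun y hy => h1.sm y (right_ne_zero_of_mul hy)⟩
      rw [← bi_add (ssm_vz hdat.hv hq z) s2]
      refine bi_congr (ssm_vz hdat.hv hq z) s2 fun x y hx hy => ?_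
      have hFx : fz f z * x * y ≠ 0 := mul_ne_zero (mul_ne_zero hd.sFF.ne_zero
        ((ssm_vz hdat.hv hq z).sm x hx).ne_zero) (s2.sm y hy).ne_zero
      have hQ : 0 < Qz lam K z := by
        have h1 := hlam0 z.1
        have h2 : (0 : ℝ) < nm ((z.2.1.D0 * z.2.1.D1) ^ 2 * z.2.1.B ^ 3) := by
          have := ez_one hqz
          exact lt_of_lt_of_le one_pos this
        unfold Qz
        positivity
      have hY : 0 < D.ρ i * nm (fz f z * x * y) / Qz lam K z := by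
        have h1 := hOK.ρ i
        have h2 : (0 : ℝ) < nm (fz f z * x * y) := by exact_mod_cast nm_pos.mpr hFx
        positivity
      unfold E4fe502.dG
      rw [D3_split hχ2 (by positivity) hW2 hY (PrC (c z.1) (z.2.1.D0 * z.2.1.D1))]
      ring
    rw [Finset.sum_congr rfl fun z _ => e2 z, Finset.sum_add_distrib]
    refine (norm_add_le _ _).trans (add_le_add (k1.trans (le_of_eq ?_)) (k2.trans (le_of_eq ?_)))
    · rw [mul_assoc]
    · rw [mul_assoc]
  have e2 : ‖∑ i, D.κ i * ∑ z : O × {q : Q5 // q ∈ 𝒬}, Bi (vz v z)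
          (fun y => (cq f z.2.1 * End699.tw ψ l (ez z.2.1)) * wz w z y)
          (dG M D W i (fz f z) (Qz lam K z))‖ ≤ (∑ i, ‖D.κ i‖ * Cb i) * (X ^ ε * T) +
            (∑ i, ‖D.κ i‖ * Cr i) * (X ^ ε * Pn) := by
    refine (norm_sum_le _ _).trans ?_
    rw [Finset.sum_mul, Finset.sum_mul, ← Finset.sum_add_distrib]
    refine Finset.sum_le_sum fun i _ => ?_
    rw [norm_mul]
    calc ‖D.κ i‖ * _ ≤ ‖D.κ i‖ * (Cb i * (X ^ ε * T) + Cr i * (X ^ ε * Pn)) :=
          mul_le_mul_of_nonneg_left (hone i) (norm_nonneg _)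
      _ = _ := by ring
  refine (add_le_add e1 e2).trans ?_
  set a := ∑ i, ‖D.κ i‖ * Cb i with ha
  set b := ∑ i, ‖D.κ i‖ * Cr i with hb
  have p1 : 0 ≤ X ^ ε * T := by positivity
  have p2 : 0 ≤ X ^ ε * Pn := by positivity
  have p3 : 0 ≤ X ^ ε * Mn := by positivity
  have q1 : 0 ≤ (b + Cp) * (X ^ ε * T) := by positivity
  have q2 : 0 ≤ (a + Cp) * (X ^ ε * Pn) := by positivity
  have q3 : 0 ≤ (a + b) * (X ^ ε * Mn) := by positivity
  nlinarith


open Classical in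
/-- removing the outer cubes -/
lemma cut_eq {c : Eis} {E : Eis} (φ : Eis → ℂ) :
    (fun k : Eis => if ∃ t : Eis, c * (E * k) = t ^ 3 then (0 : ℂ) else φ k) =
      fun k => φ k - (if ∃ t : Eis, c * (E * k) = t ^ 3 then φ k else 0) := by
  funext k
  by_cases h : ∃ t : Eis, c * (E * k) = t ^ 3
  · rw [if_pos h, if_pos h, sub_self]
  · rw [if_neg h, if_neg h, sub_zero]

/-- **`E4core7y`** -/
theorem e4core7y : E4core7y := by
  classical
  intro M ψ l ι _ D hψ hOK ε A hε hA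
  obtain ⟨C1, h10, H1⟩ := E4ap783.dirQy hε
  obtain ⟨C2, m₀, N₀, h20, H2⟩ := feQy M ψ l ι D hψ hOK hε hA
  obtain ⟨C3, h30, H3⟩ := prinD hε
  refine ⟨2 * C1 + C2 + C3, m₀, N₀, by positivity, ?_⟩
  intro V W mt B h hB hh hL hW hVB hV1 hES f O _ c lam v w X K U T₀ S Mn sw hdat hcp hcw hK1 hKX
    hU hUX hhX hS hMn hlen hswT hJD hJF hHM
  have hX1 := hdat.X1
  have hX0 : 0 < X := by linarith
  have hK : 0 < K := by linarith
  have he0 : 0 < Real.exp h := Real.exp_pos h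
  have he1 : 1 ≤ Real.exp h := Real.one_le_exp hh
  have hlam0 : ∀ o, 0 < lam o := fun o => by linarith [(hdat.lam1 o).1]
  set cb : O → Eis → Prop := fun o k => ∃ z : Eis, c o * k = z ^ 3 with hcb
  set K' : ℝ := K * Real.exp (-h) with hK'
  have hK'0 : 0 < K' := by positivity
  have hexp : Real.exp (-h) ≤ 1 := Real.exp_le_one_iff.mpr (by linarith)
  have hK'K : K' ≤ K := by
    rw [hK']; exact mul_le_of_le_one_right hK.le hexp
  set φ1 : O → Eis → ℂ := fun o k => if cb o k then 0 else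
    End699.tw ψ l k * V (nm k * lam o / K) with hφ1
  set φ2 : O → Eis → ℂ := fun o k => if cb o k then 0 else ((Real.exp h : ℝ) : ℂ) *
    (End699.tw ψ l k * V (nm k * lam o / K * Real.exp h)) with hφ2
  set φc : O → Eis → ℂ := fun o k => End699.tw ψ l k * cmp V h (nm k * lam o / K) with hφc
  set φ : O → Eis → ℂ := fun o k => if cb o k then 0 else
    End699.tw ψ l k * cmp V h (nm k * lam o / K) with hφ
  have tw1 : ∀ k, Sm M k → ‖End699.tw ψ l k‖ ≤ 1 := fun k hk => (hψ.isChar_tw l).norm_le hk.prim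
  have b1 : ∀ o k, Sm M k → ‖φ1 o k‖ ≤ B := by
    intro o k hk
    simp only [hφ1]
    split_ifs
    · rw [norm_zero]; exact hB
    · rw [norm_mul]
      calc ‖End699.tw ψ l k‖ * ‖V (nm k * lam o / K)‖ ≤ 1 * B :=
            mul_le_mul (tw1 k hk) (hVB _) (norm_nonneg _) zero_le_one
        _ = B := one_mul B
  have b2 : ∀ o k, Sm M k → ‖φ2 o k‖ ≤ Real.exp h * B := by
    intro o k hk
    simp only [hφ2]
    split_ifs
    · rw [norm_zero]; positivity
    · rw [norm_mul, norm_mul, Complex.norm_real, Real.norm_of_nonneg he0.le]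
      calc Real.exp h * (‖End699.tw ψ l k‖ * ‖V (nm k * lam o / K * Real.exp h)‖) ≤
            Real.exp h * (1 * B) := by
            refine mul_le_mul_of_nonneg_left ?_ he0.le
            exact mul_le_mul (tw1 k hk) (hVB _) (norm_nonneg _) zero_le_one
        _ = _ := by rw [one_mul]
  have v1 : ∀ o k, K / lam o < nm k → V (nm k * lam o / K) = 0 := by
    intro o k hk
    apply hV1
    rw [lt_div_iff₀ hK, one_mul]
    exact (div_lt_iff₀ (hlam0 o)).mp hk
  have v2 : ∀ o k, K' / lam o < nm k → V (nm k * lam o / K * Real.exp h) = 0 := by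
    intro o k hk
    apply hV1
    have h1 := (div_lt_iff₀ (hlam0 o)).mp hk
    rw [div_mul_eq_mul_div, lt_div_iff₀ hK, one_mul]
    calc K = K' * Real.exp h := by
          rw [hK', mul_assoc, ← Real.exp_add]; simp
      _ < _ := mul_lt_mul_of_pos_right h1 he0
  have z1 : ∀ o k, K / lam o < nm k → φ1 o k = 0 := by
    intro o k hk
    simp only [hφ1]
    rw [v1 o k hk, mul_zero, ite_self]
  have z2 : ∀ o k, K' / lam o < nm k → φ2 o k = 0 := by
    intro o k hk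
    simp only [hφ2]
    rw [v2 o k hk, mul_zero, mul_zero, ite_self]
  have zc : ∀ o k, K / lam o < nm k → cmp V h (nm k * lam o / K) = 0 := by
    intro o k hk
    unfold cmp
    rw [v1 o k hk, v2 o k (lt_of_le_of_lt ?_ hk), mul_zero, sub_zero]
    exact div_le_div_of_nonneg_right hK'K (hlam0 o).le
  have hφc0 : ∀ o k, K / lam o < nm k → φc o k = 0 := by
    intro o k hk
    simp only [hφc]
    rw [zc o k hk, mul_zero]
  have hφ0 : ∀ o k, K / lam o < nm k → φ o k = 0 := by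
    intro o k hk
    simp only [hφ]
    rw [zc o k hk, mul_zero, ite_self]
  have hdc : ∀ o, Dcy (φ o) := fun o => dcyFin (hφ0 o)
  have dez : ∀ {φ : Eis → ℂ} {q : Q5} {N : ℝ}, QOK M f q → (∀ k, N < nm k → φ k = 0) →
      Dcy (fun k => φ (ez q * k)) := by
    intro φ q N hq' hφ
    refine dcyFin (N := N) fun k hk => hφ _ ?_
    rw [nm_mul]
    push_cast
    have h1 := ez_one hq'
    have h2 : (0 : ℝ) ≤ nm k := Nat.cast_nonneg _
    nlinarith
  have hop := open_sw hdat φ hdc (fun q : Q5 => sw q.D0 q.D1 q.B q.R q.Z)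
  have e0 : ∑ o, ∑' x : Eis, v o x * ∑' y : Eis, w o y *
        NT (M * (f * y)) (f * x * y)
          (fun k => if ∃ z : Eis, c o * k = z ^ 3 then 0 else
            End699.tw ψ l k * cmp V h (nm k * lam o / K)) =
      ∑ o, ∑' x : Eis, v o x * ∑' y : Eis, w o y * NT (M * (f * y)) (f * x * y) (φ o) := rfl
  rw [e0, hop]
  refine (norm_add_le _ _).trans ?_
  set 𝒬1 := (QA M f ⌊X⌋₊).filter fun q : Q5 => sw q.D0 q.D1 q.B q.R q.Z with h𝒬1
  set 𝒬2 := (QA M f ⌊X⌋₊).filter fun q : Q5 => ¬ sw q.D0 q.D1 q.B q.R q.Z with h𝒬2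
  have hq1 : ∀ q ∈ 𝒬1, QOK M f q := fun q hq => (qa_ok (Finset.mem_filter.mp hq).1).1
  have hq2 : ∀ q ∈ 𝒬2, QOK M f q := fun q hq => (qa_ok (Finset.mem_filter.mp hq).1).1
  -- the switched part
  have s1 : ∑ z : O × {q : Q5 // q ∈ 𝒬1}, cq f z.2.1 * Bi (vz v z) (wz w z)
        (fun x y => NT M (fz f z * x * y) (fun k => φ z.1 (ez z.2.1 * k))) =
      (∑ z : O × {q : Q5 // q ∈ 𝒬1}, cq f z.2.1 * Bi (vz v z) (wz w z)
        (fun x y => NT M (fz f z * x * y) (fun k => End699.tw ψ l (ez z.2.1 * k) *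
          cmp V h (nm (ez z.2.1 * k) * lam z.1 / K)))) -
      ∑ z : O × {q : Q5 // q ∈ 𝒬1}, cq f z.2.1 * Bi (vz v z) (wz w z)
        (fun x y => NT M (fz f z * x * y) (fun k =>
          if ∃ t : Eis, c z.1 * (ez z.2.1 * k) = t ^ 3 then End699.tw ψ l (ez z.2.1 * k) *
            cmp V h (nm (ez z.2.1 * k) * lam z.1 / K) else 0)) := by
    rw [← Finset.sum_sub_distrib]
    refine Finset.sum_congr rfl fun z _ => ?_
    have hqz := hq1 _ z.2.2
    rw [← mul_sub]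
    congr 1
    rw [sub_eq_add_neg, ← neg_one_mul (Bi _ _ _), ← bi_smul,
      ← bi_add (ssm_vz hdat.hv hq1 z) (ssm_wz hdat.hw hq1 z)]
    refine bi_congr (ssm_vz hdat.hv hq1 z) (ssm_wz hdat.hw hq1 z) fun x y _ _ => ?_
    have e3 : (fun k => φ z.1 (ez z.2.1 * k)) = fun k => φc z.1 (ez z.2.1 * k) -
        (if ∃ t : Eis, c z.1 * (ez z.2.1 * k) = t ^ 3 then φc z.1 (ez z.2.1 * k) else 0) :=
      cut_eq (c := c z.1) (E := ez z.2.1) (fun k => φc z.1 (ez z.2.1 * k))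
    have d2 : Dcy (fun k => if ∃ t : Eis, c z.1 * (ez z.2.1 * k) = t ^ 3 then
        φc z.1 (ez z.2.1 * k) else 0) := by
      refine dcyFin (N := K / lam z.1) fun k hk => ?_
      have h5 : φc z.1 (ez z.2.1 * k) = 0 := by
        apply hφc0
        rw [nm_mul]
        push_cast
        have h1 := ez_one hqz
        have h2 : (0 : ℝ) ≤ nm k := Nat.cast_nonneg _
        nlinarith
      rw [h5, ite_self]
    rw [e3, NT_sub' (dez hqz (hφc0 z.1)) d2]
    ring
  -- the direct part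
  have s2 : ∑ z : O × {q : Q5 // q ∈ 𝒬2}, cq f z.2.1 * Bi (vz v z) (wz w z)
        (fun x y => NT M (fz f z * x * y) (fun k => φ z.1 (ez z.2.1 * k))) =
      (∑ z : O × {q : Q5 // q ∈ 𝒬2}, cq f z.2.1 * Bi (vz v z) (wz w z)
        (fun x y => NT M (fz f z * x * y) (fun k => φ1 z.1 (ez z.2.1 * k)))) -
      ∑ z : O × {q : Q5 // q ∈ 𝒬2}, cq f z.2.1 * Bi (vz v z) (wz w z)
        (fun x y => NT M (fz f z * x * y) (fun k => φ2 z.1 (ez z.2.1 * k))) := by
    rw [← Finset.sum_sub_distrib]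
    refine Finset.sum_congr rfl fun z _ => ?_
    have hqz := hq2 _ z.2.2
    rw [← mul_sub]
    congr 1
    rw [sub_eq_add_neg, ← neg_one_mul (Bi _ _ _), ← bi_smul,
      ← bi_add (ssm_vz hdat.hv hq2 z) (ssm_wz hdat.hw hq2 z)]
    refine bi_congr (ssm_vz hdat.hv hq2 z) (ssm_wz hdat.hw hq2 z) fun x y _ _ => ?_
    have e3 : (fun k => φ z.1 (ez z.2.1 * k)) = fun k => φ1 z.1 (ez z.2.1 * k) -
        φ2 z.1 (ez z.2.1 * k) := by
      funext k
      simp only [hφ, hφ1, hφ2]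
      by_cases hc : cb z.1 (ez z.2.1 * k)
      · rw [if_pos hc, if_pos hc, if_pos hc, sub_zero]
      · rw [if_neg hc, if_neg hc, if_neg hc]
        unfold cmp
        ring
    rw [e3, NT_sub' (dez hqz (z1 z.1)) (dez hqz (z2 z.1))]
    ring
  rw [s1, s2]
  refine (add_le_add (norm_sub_le _ _) (norm_sub_le _ _)).trans ?_
  have k1 := H2 (cmp V h) W mt B h hB hh hL hW f O _ c lam v w X K U T₀ S Mn sw 𝒬1 hdat hcp hcw
    hK1 hKX hU hUX hhX hS hMn hlen hJF hHM (Finset.filter_subset _ _)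
    (fun q hq => (Finset.mem_filter.mp hq).2)
    (fun q hq => hswT _ _ _ _ _ (Finset.mem_filter.mp hq).2)
  have k2 := H3 M f ψ l V h O _ c lam v w X K B 𝒬1 hψ hh hV1 hES hdat hcp hcw hK hB hq1
  have k3 := H1 M f O _ c lam v w X K B φ1 S sw 𝒬2 hdat hK hKX hB hS b1 z1
    (fun o k hk => by simp only [hφ1]; exact if_pos hk) hJD
    (fun q hq => qa_ok (Finset.mem_filter.mp hq).1) (fun q hq => (Finset.mem_filter.mp hq).2)
  have k4 := H1 M f O _ c lam v w X K' (Real.exp h * B) φ2 S sw 𝒬2 hdat hK'0 (hK'K.trans hKX)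
    (by positivity) hS b2 z2 (fun o k hk => by simp only [hφ2]; exact if_pos hk)
    (JB_mono (fun t ht => ⟨⟨ht.1.1, ht.1.2.trans hK'K⟩, ht.2⟩) hJD)
    (fun q hq => qa_ok (Finset.mem_filter.mp hq).1) (fun q hq => (Finset.mem_filter.mp hq).2)
  have e4 : Real.exp h * B * (K' * S) = B * (K * S) := by
    rw [hK', Real.exp_neg]
    field_simp
  rw [e4] at k4
  refine (add_le_add (add_le_add k1 k2) (add_le_add k3 k4)).trans ?_
  have hXε : 0 < X ^ ε := Real.rpow_pos_of_pos hX0 _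
  have hXA : 0 < X ^ (-A) := Real.rpow_pos_of_pos hX0 _
  set P1 := B * ∑ o, (K / lam o) ^ (4 / 3 : ℝ) * Mq1 (c o) f (v o) (w o) with hP1
  set P0 := B * (Real.exp (h / 3) *
    ∑ o, (K / lam o) ^ (2 / 3 : ℝ) * Mq0 (c o) f (v o) (w o)) with hP0
  have hP1n : 0 ≤ P1 := mul_nonneg hB (Finset.sum_nonneg fun o _ => by
    have := Mq1_nonneg (c o) f (v o) (w o)
    have := hlam0 o
    positivity)
  have hP0n : 0 ≤ P0 := mul_nonneg hB (mul_nonneg (Real.exp_pos _).le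
    (Finset.sum_nonneg fun o _ => by
      have := Mq0_nonneg (c o) f (v o) (w o)
      have := hlam0 o
      positivity))
  have hBX : 0 ≤ B * X ^ (-A) := by positivity
  have hBKS : 0 ≤ B * (K * S) := by positivity
  have t1 : B * (K * S + X ^ (-A)) + Mn + P1 ≤ B * (K * S + X ^ (-A)) + Mn + P1 + P0 := by
    linarith
  have t2 : P0 ≤ B * (K * S + X ^ (-A)) + Mn + P1 + P0 := by nlinarith
  have t3 : B * (K * S) ≤ B * (K * S + X ^ (-A)) + Mn + P1 + P0 := by nlinarith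
  calc _ ≤ (C2 * X ^ ε * (B * (K * S + X ^ (-A)) + Mn + P1 + P0) +
        C3 * X ^ ε * (B * (K * S + X ^ (-A)) + Mn + P1 + P0)) +
        (C1 * X ^ ε * (B * (K * S + X ^ (-A)) + Mn + P1 + P0) +
        C1 * X ^ ε * (B * (K * S + X ^ (-A)) + Mn + P1 + P0)) := by
        refine add_le_add (add_le_add ?_ ?_) (add_le_add ?_ ?_)
        · exact mul_le_mul_of_nonneg_left t1 (by positivity)
        · exact mul_le_mul_of_nonneg_left t2 (by positivity)
        · exact mul_le_mul_of_nonneg_left t3 (by positivity)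
        · exact mul_le_mul_of_nonneg_left t3 (by positivity)
    _ = _ := by ring

end Crest.Agent.R017.E4X266
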