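import Crest.Agent.R017.E4LawW_266

/-!
# Row 17, C70/E4: the functional equation with main term at level 9 (helper266)
-/

set_option autoImplicit false

noncomputable section

open Complex MeasureTheory Set Filter Topology
open scoped ComplexConjugate ContDiff

namespace Crest.Agent.R017.E4L266

open Crest.Agent.R012 Crest.Agent.R012.Eis Crest.Agent.R012.GaussLoc283
open Crest.Agent.R012.Parseval499 (frq s3 toC_s3_ne)
open Crest.Agent.R017.FE47 (SM)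
open Crest.Agent.R017.F1
open Crest.Agent.R017.X6545 (TF Bd)
open Crest.Agent.R017.X6B848 (fyw ev_fyw)
open Crest.Agent.R017.X6C180 Crest.Agent.R017.X6W180
open Crest.Agent.R017.Sx545 (Sm sm_one_iff)
open Crest.Agent.R017.E2440 (TP' Cg_piece NT DS NT_eq_Cg)
open Crest.Agent.R017.B770 (SW)
open Crest.Agent.R017.C590 (N3 D3)

theorem Du_eqc {σ v : Eis} (hσ : Sg σ) (hv : IsPrim v) (F : ℝ → ℂ) {A : ℝ}
    (hA : 0 < A) : Du (σ * v) (Wf (fA (GF F) A)) =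
      ((A ^ (1 / 3 : ℝ) : ℝ) : ℂ) * ∑ i : IX σ, TP' σ v F A i := by
  classical
  set W : ℂ → ℂ := Wf (X6B848.fyw (-(4 / 3)) F) with hW
  have hWF : WF (GF F) = W := by
    unfold WF
    rw [rV_V1_GF']
  have hradW : Rad W := by rw [← hWF]; exact X6C180.rad_WF _
  have hradG : Rad (gg W) := hradW.gg
  set q : ℂ := ((Real.sqrt A : ℝ) : ℂ) with hq
  have e0 : Wf (fA (GF F) A) = fun y => ((A ^ (1 / 3 : ℝ) : ℝ) : ℂ) * W (y / q) := by
    funext y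
    rw [X6C180.Wf_fA hA y, hWF]
  rw [e0, Du_const_mul]
  congr 1
  have hgg : gg (fun y => W (y / q)) = fun y => gg W (y / q) := by
    have := X6C180.gg_dil' W 1 q
    simpa using this
  unfold Du
  rw [hgg, (X6C180.eC_frq_mul hv σ).1, (X6C180.eC_frq_mul hv σ).2, X6C180.Dl_mul hσ hv,
    Fintype.sum_option, Fintype.sum_option, ← add_assoc]
  congr 1
  · congr 1
    · have h := Cg_piece hradW 1 σ v hA (one_ne_zero) (2 / 3 : ℂ)
      rw [one_mul, map_one toC, div_one, nm_one, Nat.cast_one, div_one] at h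
      unfold TP'
      show _ = sy 1 v * ∑' d : Eis, (if IsPrim d then conj (gs (1 * σ * v) d) *
        ((((nm d : ℝ)⁻¹ : ℝ) : ℂ) * ((2 / 3 : ℂ) * X6C180.pr W ((nm σ : ℝ) *
          ((nm v : ℝ) / (A * nm d))))) else 0)
      rw [syAx.one_left hv, one_mul, one_mul, ← h]
    · have h := Cg_piece hradG 1 σ v hA (one_ne_zero) (eC (frq 3 σ) + eC (-frq 3 σ))
      rw [one_mul, map_one toC, div_one, nm_one, Nat.cast_one, div_one] at h
      unfold TP'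
      show _ = sy 1 v * ∑' d : Eis, (if IsPrim d then conj (gs (1 * σ * v) d) *
        ((((nm d : ℝ)⁻¹ : ℝ) : ℂ) * ((eC (frq 3 σ) + eC (-frq 3 σ)) * X6C180.pr (gg W)
          ((nm σ : ℝ) * ((nm v : ℝ) / (A * nm d))))) else 0)
      rw [syAx.one_left hv, one_mul, one_mul, ← h]
  · rw [← Finset.sum_coe_sort (Dl σ)]
    refine Finset.sum_congr rfl fun δ _ => ?_
    have hd := (mem_Dl hσ.ne_zero).mp δ.2
    rw [X6C180.Lam_mul_prim hd.2.1 hd.1 hv σ]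
    have h := Cg_piece hradG δ.1 σ v hA (hd.1.1) (Lam δ.1 σ * (((nm δ.1 : ℝ)⁻¹ : ℝ) : ℂ))
    unfold TP'
    show _ = sy δ.1 v * ∑' d : Eis, (if IsPrim d then conj (gs (δ.1 * σ * v) d) *
        ((((nm d : ℝ)⁻¹ : ℝ) : ℂ) * (Lam δ.1 σ * (((nm δ.1 : ℝ)⁻¹ : ℝ) : ℂ) *
          X6C180.pr (gg W) ((nm σ : ℝ) / nm δ.1 * ((nm v : ℝ) / (A * nm d))))) else 0)
    rw [← h, ← mul_assoc δ.1 σ v]
    ring

/-! ### the test function -/

/-- `e^{2x/3} V(e^x)` -/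
def FV (V : ℝ → ℂ) (x : ℝ) : ℂ := ((Real.exp (2 * x / 3) : ℝ) : ℂ) * V (Real.exp x)

lemma sc_exp_mul {F : ℝ → ℂ} (hF : Sc F) (a : ℝ) :
    Sc (fun x => ((Real.exp (a * x / 3) : ℝ) : ℂ) * F x) where
  smooth := (Complex.ofRealCLM.contDiff.comp
    (Real.contDiff_exp.comp ((contDiff_const.mul contDiff_id).div_const 3))).mul hF.smooth
  supp := by
    obtain ⟨R, hR, h2⟩ := hF.supp
    exact ⟨R, hR, fun y hy => by rw [h2 y hy, mul_zero]⟩

lemma sc_sw {V : ℝ → ℂ} (hV : SW V) : Sc (fun x => V (Real.exp x)) where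
  smooth := hV.smooth.comp Real.contDiff_exp
  supp := by
    have h1 : IsCompact (Real.log '' tsupport V) :=
      hV.cpt.isCompact.image_of_continuousOn (Real.continuousOn_log.mono fun x hx => by
        have := hV.supp hx
        exact (Set.mem_Ioi.mp this).ne')
    obtain ⟨R, hR⟩ := h1.isBounded.exists_norm_le
    refine ⟨max R 1, lt_max_of_lt_right one_pos, fun y hy => ?_⟩
    apply image_eq_zero_of_notMem_tsupport
    intro hm
    have h2 := hR _ ⟨_, hm, rfl⟩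
    rw [Real.log_exp, Real.norm_eq_abs] at h2
    exact absurd (h2.trans (le_max_left R 1)) (not_le.mpr hy)

lemma sc_FV {V : ℝ → ℂ} (hV : SW V) : Sc (FV V) := sc_exp_mul (sc_sw hV) 2

lemma GF_FV (V : ℝ → ℂ) (τ : ℝ) {y : ℝ} (hy : 0 < y) :
    GF (Tw τ (FV V)) y = ((y ^ (2 / 3 : ℝ) : ℝ) : ℂ) * ((y : ℂ) ^ (I * τ) * V y) := by
  unfold GF Tw FV
  rw [if_pos hy, Real.exp_log hy]
  have e1 : Real.exp (2 * Real.log y / 3) = y ^ (2 / 3 : ℝ) := by
    rw [Real.rpow_def_of_pos hy]; congr 1; ring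
  have e2 : cexp (I * τ * (Real.log y : ℝ)) = (y : ℂ) ^ (I * τ) := by
    rw [Complex.cpow_def_of_ne_zero (by exact_mod_cast hy.ne'), ← Complex.ofReal_log hy.le]
    congr 1; ring
  rw [e1, e2]
  ring

lemma coprime_nine {b : Eis} (hb : IsPrim b) : IsCoprime b 9 := by
  rw [show (9 : Eis) = 3 ^ 2 by norm_num]
  exact hb.isCoprime_three.pow_right

lemma sm_nine : Sm (9 : Eis) = Sm 1 := by
  funext b
  exact propext ⟨fun h => sm_one_iff.mpr h.1, fun h => ⟨h.1, coprime_nine h.1⟩⟩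

/-- the main identity -/
theorem base_id {V : ℝ → ℂ} (hV : SW V) {χ : Eis → ℂ} (hχ : ∀ b, IsPrim b → χ b = 1) {u : Eis}
    (hu : IsPrim u) {Q : ℝ} (hQ : 0 < Q) (τ : ℝ) :
    N3 9 χ u (fun y => (y : ℂ) ^ (I * τ) * V y) Q =
      (Q : ℂ) * ∑ i : IX 1, TP' 1 u (Tw τ (FV V)) Q i +
      (kP : ℂ) * ((Xn960.gamN 3 * (Real.pi / 3) : ℝ) : ℂ) * conj (PX764.rho u) *
        ((Q ^ (4 / 3 : ℝ) : ℝ) : ℂ) *
        ∫ y : ℝ, Tw τ (fun x => ((Real.exp (2 * x / 3) : ℝ) : ℂ) * FV V x) y := by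
  classical
  set F := Tw τ (FV V) with hF
  have hSc : Sc F := (sc_FV hV).tw τ
  have hwt := wt_GFc hSc
  have hev := ev_fA hwt hQ
  have h1 : N3 9 χ u (fun y => (y : ℂ) ^ (I * τ) * V y) Q =
      ((Q ^ (2 / 3 : ℝ) : ℝ) : ℂ) * NT 1 u (fun k => fA (GF F) Q (toC k)) := by
    have e0 : NT 1 u (fun k => fA (GF F) Q (toC k)) = NT 9 u (fun k => fA (GF F) Q (toC k)) := by
      unfold NT DS
      rw [sm_nine]
    rw [e0, ← C590.NT_smul]
    unfold N3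
    refine C590.NT_congr (fun k hk => ?_) u
    have hk0 : (0 : ℝ) < nm k := by exact_mod_cast nm_pos.2 hk.1.ne_zero
    have hkne : toC k ≠ 0 := by rw [Ne, toC_eq_zero]; exact hk.1.ne_zero
    rw [hχ k hk.1, one_mul, fA_eq hQ hkne, norm_toC_sq, hF, GF_FV V τ (div_pos hk0 hQ)]
    have e1 : ((Q ^ (2 / 3 : ℝ) : ℝ) : ℂ) * ((((nm k : ℝ) ^ (-(2 / 3) : ℝ) : ℝ) : ℂ) *
        ((((nm k : ℝ) / Q) ^ (2 / 3 : ℝ) : ℝ) : ℂ)) = 1 := by
      rw [← Complex.ofReal_mul, ← Complex.ofReal_mul, Real.div_rpow hk0.le hQ.le,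
        Real.rpow_neg hk0.le]
      have h1 : (nm k : ℝ) ^ (2 / 3 : ℝ) ≠ 0 := (Real.rpow_pos_of_pos hk0 _).ne'
      have h2 : Q ^ (2 / 3 : ℝ) ≠ 0 := (Real.rpow_pos_of_pos hQ _).ne'
      field_simp
      norm_num
    linear_combination (-(((nm k / Q : ℝ) : ℂ) ^ (I * τ) * V ((nm k : ℝ) / Q))) * e1
  rw [h1, NT_eq_Cg hev u, starR PX764.rho_MS hev hu.ne_zero, mB_fA hwt hQ, mB_rV1 hwt]
  have h2 := Du_eqc (σ := 1) (v := u) (Or.inl rfl) hu F hQ
  rw [one_mul] at h2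
  rw [h2, mellin_GF]
  have h3 : ∫ y : ℝ, F y * ((Real.exp (2 * y / 3) : ℝ) : ℂ) =
      ∫ y : ℝ, Tw τ (fun x => ((Real.exp (2 * x / 3) : ℝ) : ℂ) * FV V x) y := by
    refine integral_congr_ae (Eventually.of_forall fun y => ?_)
    simp only [hF, Tw]
    ring
  rw [h3]
  have e2 : ((Q ^ (2 / 3 : ℝ) : ℝ) : ℂ) * ((Q ^ (1 / 3 : ℝ) : ℝ) : ℂ) = (Q : ℂ) := by
    rw [← Complex.ofReal_mul, ← Real.rpow_add hQ]
    norm_num
  have e3 : ((Q ^ (2 / 3 : ℝ) : ℝ) : ℂ) * ((Q ^ (2 / 3 : ℝ) : ℝ) : ℂ) =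
      ((Q ^ (4 / 3 : ℝ) : ℝ) : ℂ) := by
    rw [← Complex.ofReal_mul, ← Real.rpow_add hQ]
    norm_num
  rw [← e3]
  linear_combination (∑ i : IX 1, TP' 1 u F Q i) * e2

/-- one dual piece -/
lemma piece_eq {u : Eis} (hu : IsPrim u) (F : ℝ → ℂ) {Q : ℝ} (hQ : 0 < Q) (i : IX 1)
    {χ : Eis → ℂ} (hχ : ∀ b, IsPrim b → χ b = sy (dl' 1 i) b) :
    TP' 1 u F Q i = sy (dl' 1 i) u *
      D3 9 χ u (fun y => om' 1 F i (Real.exp (-Real.log y))) (1 * nm u / Q) := by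
  classical
  unfold TP' D3 DS
  congr 1
  refine tsum_congr fun d => ?_
  have hSM : dl' 1 i ∈ SM 3 := SU.SM (dl_SU one_ne_zero i)
  have hu0 : (0 : ℝ) < nm u := by exact_mod_cast nm_pos.2 hu.ne_zero
  by_cases hd : IsPrim d
  · have hd9 : Sm (9 : Eis) d := ⟨hd, coprime_nine hd⟩
    rw [if_pos hd, if_pos hd9]
    beta_reduce
    rw [hχ d hd]
    have hd0 : (0 : ℝ) < nm d := by exact_mod_cast nm_pos.2 hd.ne_zero
    have hcop : IsCoprime (dl' 1 i) d := SM3_coprime hSM hd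
    have hg : conj (gs (dl' 1 i * 1 * u) d) = sy (dl' 1 i) d * conj (gs u d) := by
      rw [mul_one, mul_comm (dl' 1 i), gs_mul_left syAx u hd hcop, map_mul, Complex.conj_conj]
    rw [hg]
    have e1 : Real.exp (-Real.log ((nm d : ℝ) / (1 * nm u / Q))) = (nm u : ℝ) / (Q * nm d) := by
      rw [Real.exp_neg, Real.exp_log (by positivity)]
      field_simp
    rw [e1]
    push_cast
    ring
  · rw [if_neg hd, if_neg (fun h => hd h.1)]

end Crest.Agent.R017.E4L266
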