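import Crest.Agent.R017.E4v7x_266

/-!
# Row 17, C70/E4, version 7, exceptional class over the outer non-cubes: `E4core7y` (helper266)

The outer frequency is `c o * k`; the sum is restricted to the `k` for which `c o * k` is not a cube
(helper974 #25790, helper372 #26157). The weight is compensated, `cmp V h`.

* `PrC c D d` : `c * (d D²)` is a cube
* `g6 c x` : `∏ nm p ^ (1/6)` over the primes `p ∣ c`, `p ∣ x`
* `Mq1`, `Mq0` : the masses of the principal parts (dual, direct)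
* `ESum` : the complete cube sum of the compensated weight
* `E4core7y`
-/

set_option autoImplicit false

noncomputable section

open Complex
open scoped ComplexConjugate

namespace Crest.Agent.R017.E4X266

open Crest.Agent.R012 Crest.Agent.R012.Eis Crest.Agent.R012.Mob705 Crest.Agent.R012.Gauss880
open Crest.Agent.R017.Sx545 Crest.Agent.R017.CM106 Crest.Agent.R017.C70 Crest.Agent.R017.C590
open Crest.Agent.R017.End699 Crest.Agent.R017.B770 Crest.Agent.R017.Sx440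
open Crest.Agent.R017.E2440 Crest.Agent.R017.E4352
open Crest.Agent.R017.E4v5 (Law5 HM5)
open Crest.Agent.R017.E4J352 (Tm JB gx rngD rngF)
open Crest.Agent.R017.E4Pr266 (cr)

/-- principal frequencies: `c * (d D²)` is a cube -/
def PrC (c D d : Eis) : Prop := ∃ z : Eis, c * (d * D ^ 2) = z ^ 3

open Classical in
/-- the common primes of `c` and `x` -/
def g6 (c x : Eis) : ℝ := ∏ p ∈ (pp c).filter (fun p => p ∣ x), (nm p : ℝ) ^ (1 / 6 : ℝ)

/-- the mass of the dual principal part -/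
def Mq1 (c f : Eis) (v w : Eis → ℂ) : ℝ :=
  ∑' x : Eis, (‖v x‖ * g6 c x) * ∑' y : Eis, ‖w y‖ *
    (cr (f * x * y) * (nm (f * x * y) : ℝ) ^ (-(1 / 3) : ℝ))

/-- the mass of the direct principal part -/
def Mq0 (c f : Eis) (v w : Eis → ℂ) : ℝ :=
  ∑' x : Eis, (‖v x‖ * g6 c x) * ∑' y : Eis, ‖w y‖ * cr (f * x * y)

open Classical in
/-- the complete cube sum of the compensated weight -/
def ESum (M : Eis) (ψ : Eis → ℂ) (l : ℤ) (V : ℝ → ℂ) (h B : ℝ) : Prop :=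
  ∀ Q : ℝ, 0 < Q → ‖∑' e : Eis, if Sm M e then
    (nm e : ℂ) ^ 2 * (End699.tw ψ l (e ^ 3) * cmp V h ((nm e : ℝ) ^ 3 / Q)) else 0‖ ≤
      B * (Real.exp (h / 3) * Q ^ (2 / 3 : ℝ))

/-- range of the direct half, non-principal frequencies -/
def rngDC {O : Type} (c : O → Eis) (sw : Eis → Eis → Eis → Eis → Eis → Prop) (lam : O → ℝ)
    (K : ℝ) (t : Tm O) : Prop :=
  rngD sw lam K t ∧ ¬ PrC (c t.o) (t.D0 * t.D1) (t.b * t.k)

/-- range of the dual half, non-principal frequencies -/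
def rngFC {O : Type} (c : O → Eis) (sw : Eis → Eis → Eis → Eis → Eis → Prop) (lam : O → ℝ)
    (L : ℝ) (t : Tm O) : Prop :=
  rngF sw lam L t ∧ ¬ PrC (c t.o) (t.D0 * t.D1) (t.b * t.k)

open Classical in
/-- **E4core**, fully joint form, exceptional class, outer non-cubes -/
def E4core7y : Prop :=
  ∀ (M : Eis) (ψ : Eis → ℂ) (l : ℤ) (ι : Type) (_ : Fintype ι) (D : Dt3 ι), HC M ψ → D.OK M →
  ∀ ε A : ℝ, 0 < ε → 0 ≤ A → ∃ (C : ℝ) (m₀ N₀ : ℕ), 0 ≤ C ∧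
    ∀ (V : ℝ → ℂ) (W : ι → ℝ → ℂ) (mt : Eis → ℝ → ℂ) (B h : ℝ), 0 ≤ B → 0 ≤ h →
      Law5 M ψ l D (cmp V h) W mt →
      (∀ i, WTx m₀ N₀ B h (W i)) → (∀ y, ‖V y‖ ≤ B) → (∀ y, 1 < y → V y = 0) →
      ESum M ψ l V h B →
    ∀ (f : Eis) (O : Type) (_ : Fintype O) (c : O → Eis) (lam : O → ℝ) (v w : O → Eis → ℂ)
      (X K U T₀ : ℝ) (S Mn : ℝ) (sw : Eis → Eis → Eis → Eis → Eis → Prop),
      Dat4 M f lam v w X → (∀ o, IsPrim (c o)) → (∀ o y, w o y ≠ 0 → IsCoprime (c o) (f * y)) →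
      1 ≤ K → K ≤ X → 0 < U → U ≤ X → Real.exp h ≤ X → 0 ≤ S → 0 ≤ Mn →
      (∀ o x y, v o x ≠ 0 → w o y ≠ 0 → (nm (f * x * y) : ℝ) * lam o ^ 2 ≤ U) →
      (∀ D0 D1 B R Z : Eis, sw D0 D1 B R Z → (nm D1 : ℝ) * nm (rd Z) ≤ 2 * T₀) →
      JB M f lam v w (fun _ => 1) (rngDC c sw lam K) S →
      (∀ i ξ, JB M f lam v w (gx (D.η i) D.j ξ) (rngFC c sw lam (Real.exp h * (U / K) * X ^ ε))
        ((1 + |ξ|) ^ A * S)) →
      HM5 M f lam v w K T₀ mt Mn →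
      ‖∑ o, ∑' x : Eis, v o x * ∑' y : Eis, w o y *
        NT (M * (f * y)) (f * x * y) (fun k => if ∃ z : Eis, c o * k = z ^ 3 then 0 else
          End699.tw ψ l k * cmp V h (nm k * lam o / K))‖ ≤
        C * X ^ ε * (B * (K * S + X ^ (-A)) + Mn +
          B * ∑ o, (K / lam o) ^ (4 / 3 : ℝ) * Mq1 (c o) f (v o) (w o) +
          B * (Real.exp (h / 3) * ∑ o, (K / lam o) ^ (2 / 3 : ℝ) * Mq0 (c o) f (v o) (w o)))

/-- the direct half alone (second scale), outer non-cubes, absolute values -/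
def E4dir7y : Prop :=
  ∀ ε : ℝ, 0 < ε → ∃ C : ℝ, 0 ≤ C ∧
    ∀ (M f : Eis) (O : Type) (_ : Fintype O) (c : O → Eis) (lam : O → ℝ) (v w : O → Eis → ℂ)
      (X K B : ℝ) (φ : O → Eis → ℂ) (S : ℝ), Dat4 M f lam v w X → 1 ≤ K → K ≤ X →
      0 ≤ B → 0 ≤ S → (∀ o k, Sm M k → ‖φ o k‖ ≤ B) →
      (∀ o k, K / lam o < nm k → φ o k = 0) →
      (∀ o k, (∃ z : Eis, c o * k = z ^ 3) → φ o k = 0) →
      JB M f lam v w (fun _ => 1) (rngDC c (fun _ _ _ _ _ => False) lam K) S →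
      ‖∑ o, ∑' x : Eis, v o x * ∑' y : Eis, w o y * NT (M * (f * y)) (f * x * y) (φ o)‖ ≤
        C * X ^ ε * (B * (K * S))

end Crest.Agent.R017.E4X266
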