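import Crest.Agent.R017.PrW_502
import Crest.Agent.R017.E4LawB_266
import Crest.Agent.R017.E4v7y_266

/-!
# Row 17, C70/E4, exceptional class: the complete cube sum of the compensated weight (helper783)

* `cn3_sc` : `Cn3 (F1 (Tw τ F) h) m X` is `O((1+|τ|)^J e^{h/3} tau m)` for smooth `F` with compact
  support
* `esum` : `ESum` for `y ↦ y^{iτ} V y`, cubic characters, `l = 0`
-/

set_option autoImplicit false

noncomputable section

open Complex
open scoped ComplexConjugate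

namespace Crest.Agent.R017.E4Es783

open Crest.Agent.R012 Crest.Agent.R012.Eis
open Crest.Agent.R012.Div277 (tau)
open Crest.Agent.R017.Sx545 (Sm)
open Crest.Agent.R017.B770 (SW)
open Crest.Agent.R017.X6545 (TF Bd)
open Crest.Agent.R017.X6W180 (TF1 tf1_tf exists_Bd)
open Crest.Agent.R017.X6C180 (GF)
open Crest.Agent.R017.PrW502
open Crest.Agent.R017.E4L266 (Sc Tw FV sc_FV GF_FV norm_osc bd_Tw tf1_Tw)
open Crest.Agent.R017.E4X266 (cmp ESum)

open Classical in
lemma sum_F1 {F : ℝ → ℂ} (hF : TF F) (m : Eis) {X : ℝ} (hX : 0 < X) (h : ℝ) :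
    Summable fun c : Eis => if IsPrim c ∧ IsCoprime c m then
      F1 F h (Real.log ((nm c : ℝ) ^ 3 / X)) else 0 := by
  have h1 := (supp3 hF m hX).sub ((supp3 hF m (X := X * Real.exp (-h)) (by positivity)).mul_left
    ((Real.exp (h / 3) : ℝ) : ℂ))
  refine h1.congr fun c => ?_
  by_cases hc : IsPrim c ∧ IsCoprime c m
  · rw [if_pos hc, if_pos hc, if_pos hc]
    have hn : (0 : ℝ) < nm c := by exact_mod_cast nm_pos.2 hc.1.ne_zero
    have hE := Real.exp_pos (-h)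
    unfold F1
    congr 3
    rw [← div_div, Real.log_div (by positivity) hE.ne', Real.log_exp]
    ring
  · rw [if_neg hc, if_neg hc, if_neg hc, mul_zero, sub_zero]

open Classical in
/-- smooth functions with compact support, twisted -/
theorem cn3_sc {F : ℝ → ℂ} (hF : Sc F) : ∃ (C : ℝ) (J : ℕ), 0 ≤ C ∧ ∀ (τ h : ℝ) (m : Eis) (X : ℝ),
    0 ≤ h → m ≠ 0 → 0 < X →
      ‖Cn3 (F1 (Tw τ F) h) m X‖ ≤ C * (1 + |τ|) ^ J * Real.exp (h / 3) * tau m := by
  obtain ⟨N, Φ, hΦ, hp⟩ := hF.part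
  obtain ⟨k, C, hC, hb⟩ := prW_tau
  have hS := fun j => exists_Bd (hΦ j) k
  choose S hS0 hS using hS
  refine ⟨∑ j ∈ Finset.range (2 * N + 1), C * S j * 2, k,
    Finset.sum_nonneg fun j _ => by have := hS0 j; positivity, fun τ h m X hh hm hX => ?_⟩
  have e1 : Cn3 (F1 (Tw τ F) h) m X = ∑ j ∈ Finset.range (2 * N + 1),
      cexp (I * τ * ((j : ℝ) - N : ℝ)) *
        Cn3 (F1 (Tw τ (Φ j)) h) m (X * Real.exp ((j : ℝ) - N)) := by
    unfold Cn3
    simp_rw [← tsum_mul_left]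
    rw [← Summable.tsum_finsetSum fun j _ =>
      (sum_F1 (tf1_tf (tf1_Tw τ (hΦ j))) m (X := X * Real.exp ((j : ℝ) - N))
        (by positivity) h).mul_left _]
    refine tsum_congr fun c => ?_
    by_cases hc : IsPrim c ∧ IsCoprime c m
    · have hn : (0 : ℝ) < nm c := by exact_mod_cast nm_pos.2 hc.1.ne_zero
      simp only [if_pos hc]
      have e2 : ∀ j : ℕ, Real.log ((nm c : ℝ) ^ 3 / (X * Real.exp ((j : ℝ) - N))) =
          Real.log ((nm c : ℝ) ^ 3 / X) - ((j : ℝ) - N) := by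
        intro j
        rw [← div_div, Real.log_div (by positivity) (Real.exp_pos _).ne', Real.log_exp]
      simp only [e2]
      set x := Real.log ((nm c : ℝ) ^ 3 / X)
      unfold F1
      rw [hp τ]
      beta_reduce
      rw [Finset.mul_sum, ← Finset.sum_sub_distrib]
      refine Finset.sum_congr rfl fun j _ => ?_
      rw [show x - ((j : ℝ) - N) + h = x + h - ((j : ℝ) - N) by ring]
      ring
    · simp only [if_neg hc, mul_zero, Finset.sum_const_zero]
  rw [e1]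
  refine (norm_sum_le _ _).trans ?_
  rw [Finset.sum_mul, Finset.sum_mul, Finset.sum_mul]
  refine Finset.sum_le_sum fun j _ => ?_
  rw [norm_mul, norm_osc, one_mul]
  have h1 := hb (Tw τ (Φ j)) ((1 + |τ|) ^ k * S j) (tf1_tf (tf1_Tw τ (hΦ j)))
    (bd_Tw τ (hΦ j) (hS j)) m (X * Real.exp ((j : ℝ) - N)) h hm (by positivity)
  refine h1.trans ?_
  have h2 : (1 : ℝ) ≤ Real.exp (h / 3) := Real.one_le_exp (by positivity)
  have h3 := hS0 j
  have h4 : (0 : ℝ) ≤ (1 + |τ|) ^ k := by positivity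
  calc C * ((1 + |τ|) ^ k * S j) * (1 + Real.exp (h / 3)) * tau m
      ≤ C * ((1 + |τ|) ^ k * S j) * (2 * Real.exp (h / 3)) * tau m := by
        gcongr
        linarith
    _ = _ := by ring

lemma f1_fv (V : ℝ → ℂ) (τ h : ℝ) {y : ℝ} (hy : 0 < y) :
    F1 (Tw τ (FV V)) h (Real.log y) =
      ((y ^ (2 / 3 : ℝ) : ℝ) : ℂ) * cmp (fun y => (y : ℂ) ^ (I * τ) * V y) h y := by
  have hE := Real.exp_pos h
  have h1 := GF_FV V τ hy
  have h2 := GF_FV V τ (mul_pos hy hE)
  unfold GF at h1 h2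
  rw [if_pos hy] at h1
  rw [if_pos (mul_pos hy hE), Real.log_mul hy.ne' hE.ne', Real.log_exp] at h2
  unfold F1 E4X266.cmp
  rw [h1, h2]
  have e : (y * Real.exp h) ^ (2 / 3 : ℝ) = y ^ (2 / 3 : ℝ) * Real.exp (2 * h / 3) := by
    rw [Real.mul_rpow hy.le hE.le, ← Real.exp_mul]
    congr 2
    ring
  have e2 : Real.exp (h / 3) * Real.exp (2 * h / 3) = Real.exp h := by
    rw [← Real.exp_add]
    congr 1
    ring
  rw [e, ← e2]
  push_cast
  ring

open Classical in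
/-- **the complete cube sum of the compensated weight** -/
theorem esum {M : Eis} (hM : M ≠ 0) {ψ : Eis → ℂ} (hψ : ∀ e, Sm M e → ψ (e ^ 3) = 1)
    {V : ℝ → ℂ} (hV : SW V) : ∃ C J : ℝ, 0 ≤ C ∧ 0 ≤ J ∧ ∀ τ h : ℝ, 0 ≤ h →
      ESum M ψ 0 (fun y => (y : ℂ) ^ (I * τ) * V y) h (C * (1 + |τ|) ^ J) := by
  obtain ⟨C, J, hC, hb⟩ := cn3_sc (sc_FV hV)
  refine ⟨C * tau M, J, by positivity, by positivity, fun τ h hh Q hQ => ?_⟩
  have e1 : (∑' e : Eis, if Sm M e then
      (nm e : ℂ) ^ 2 * (End699.tw ψ 0 (e ^ 3) * cmp (fun y => (y : ℂ) ^ (I * τ) * V y) h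
        ((nm e : ℝ) ^ 3 / Q)) else 0) =
      ((Q ^ (2 / 3 : ℝ) : ℝ) : ℂ) * Cn3 (F1 (Tw τ (FV V)) h) M Q := by
    unfold Cn3
    rw [← tsum_mul_left]
    refine tsum_congr fun e => ?_
    by_cases he : Sm M e
    · have he' : IsPrim e ∧ IsCoprime e M := he
      rw [if_pos he, if_pos he']
      have hn : (0 : ℝ) < nm e := by exact_mod_cast nm_pos.2 he'.1.ne_zero
      rw [f1_fv V τ h (by positivity : (0 : ℝ) < (nm e : ℝ) ^ 3 / Q)]
      have e2 : End699.tw ψ 0 (e ^ 3) = 1 := by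
        unfold End699.tw
        rw [hψ e he, one_mul]
        simp [ang]
      rw [e2, one_mul]
      have e3 : Q ^ (2 / 3 : ℝ) * ((nm e : ℝ) ^ 3 / Q) ^ (2 / 3 : ℝ) = (nm e : ℝ) ^ 2 := by
        rw [← Real.mul_rpow hQ.le (by positivity), mul_div_cancel₀ _ hQ.ne', ← Real.rpow_natCast,
          ← Real.rpow_mul hn.le, ← Real.rpow_natCast]
        norm_num
      rw [← mul_assoc, ← Complex.ofReal_mul, e3]
      push_cast
      ring
    · have he' : ¬ (IsPrim e ∧ IsCoprime e M) := he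
      rw [if_neg he, if_neg he', mul_zero]
  rw [e1, norm_mul, Complex.norm_real, Real.norm_of_nonneg (by positivity)]
  have h1 := hb τ h M Q hh hM hQ
  calc _ ≤ Q ^ (2 / 3 : ℝ) * (C * (1 + |τ|) ^ J * Real.exp (h / 3) * tau M) := by gcongr
    _ = _ := by rw [Real.rpow_natCast]; ring

end Crest.Agent.R017.E4Es783
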