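import Crest.Agent.R017.E4defs_352
import Crest.Agent.R017.E3P_842
import Crest.Agent.R012.DualGcd_671

/-!
# Row 17, E4 (helper266): the conjugated factor `CS b` as part of the structured family

* `gs_sq_mul` : `sy d m * gs x d = gs (x m²) d` for `d` cube-free (no coprimality needed)
* `Fa S Del e V a = ∑_{δ ∈ Del} e δ conj (sy a δ) CS (V δ) a`
* `fam_b` : `Fa .. a * conj (CS b a) = ∑_{g, h} [(g h, a) = 1] sy a g * FP g h a`, where
  `FP g h a = ∑_{(δ, m) ∈ IP g h} e (g δ) conj (b (g h m)) conj (sy a (δ m)) CS (VP g h δ m) a`,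
  `VP g h δ m n = [(n, h m) = 1] V (g δ) (h n)`; the frequency `δ m` is squarefree and prime to
  the support of `VP g h δ m`
* `fam_b_sq` : Cauchy with weights
-/

set_option autoImplicit false
set_option maxHeartbeats 400000

noncomputable section

open Complex
open scoped ComplexConjugate Classical

namespace Crest.Agent.R017.E4F266

open Crest.Agent.R012 Crest.Agent.R012.Eis Crest.Agent.R012.Mob705 Crest.Agent.R012.Gauss880
open Crest.Agent.R012.LS2 (S mem_S)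
open Crest.Agent.R012.GaussLoc283 (syAx gs_mul_left gs_cube_left gs_sq_p gs_sq_sq)
open Crest.Agent.R017.Dual2813 (S_of_dvd)
open Crest.Agent.R017.E1551 (CS_fin)
open Crest.Agent.R012.Div277 (dvs mem_dvs isPrim_of_mem_dvs dvd_of_mem_dvs)
open Crest.Agent.R017.CM106 (CS)
open Crest.Agent.R017.C70 (CbF)
open Crest.Agent.R017.E3P842

/-! ### symbols -/

lemma sy_cop0 {x c : Eis} (hc : IsPrim c) (h : ¬ IsCoprime x c) : sy x c = 0 :=
  (syG.eq_zero x c hc).mpr h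

lemma conj_sq_conj {x c : Eis} (hc : IsPrim c) : conj (sy x c) * conj (sy x c) = sy x c := by
  have h : sy x c ^ 2 = conj (sy x c) := sy_sq_eq_conj syG hc
  have h2 : conj (sy x c) ^ 2 = sy x c := by
    rw [← map_pow, h, Complex.conj_conj]
  rw [← sq, h2]

/-- `conj (a/δ) = (δ²/a)` -/
lemma conj_sy_eq {a δ : Eis} (ha : IsPrim a) (hδ : IsPrim δ) : conj (sy a δ) = sy (δ ^ 2) a := by
  rw [syG.recip a δ ha hδ, ← sy_sq_eq_conj syG ha, syAx.pow_left _ ha]

/-- `sy d m * gs x d = gs (x m²) d` for cube-free `d` -/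
lemma gs_sq_mul {x m d : Eis} (hm : IsPrim m) (hd : IsPrim d) (hc : CbF d) :
    sy d m * gs x d = gs (x * m ^ 2) d := by
  by_cases hmd : IsCoprime m d
  · rw [gs_mul_left syAx x hd hmd.pow_left, syAx.pow_left _ hd, map_pow, syG.recip d m hd hm, sq,
      conj_sq_conj hd]
  · rw [sy_cop0 hm fun h => hmd h.symm, zero_mul]
    obtain ⟨p, hp, hpm, hpd⟩ := exists_common_pp hm hmd
    obtain ⟨hpi, hpr⟩ := hp
    obtain ⟨m', rfl⟩ := hpm
    obtain ⟨d₁, rfl⟩ := hpd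
    by_cases h2 : p ∣ d₁
    · obtain ⟨d₂, rfl⟩ := h2
      have h3 : ¬ p ∣ d₂ := by
        rintro ⟨d₃, rfl⟩
        exact hc p hpr ⟨d₃, by ring⟩
      have e : p * (p * d₂) = p ^ 2 * d₂ := by ring
      rw [e] at hd ⊢
      have hd2 : IsPrim d₂ := hd.of_mul_left (hpi.pow 2)
      have hcop : IsCoprime (p ^ 2) d₂ := ((E2440.cop_iff hpr d₂).mpr h3).symm.pow_left
      rw [GaussLoc283.gs_mul' syAx _ (hpi.pow 2) hd2 hcop]
      have e2 : x * (p * m') ^ 2 = (x * m' ^ 2) * p ^ 2 := by ring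
      rw [e2, gs_sq_sq syAx hpi hpr, zero_mul]
    · have hd2 : IsPrim d₁ := hd.of_mul_left hpi
      have hcop : IsCoprime p d₁ := ((E2440.cop_iff hpr d₁).mpr h2).symm
      rw [GaussLoc283.gs_mul' syAx _ hpi hd2 hcop]
      have e2 : x * (p * m') ^ 2 = (x * m' ^ 2) * p ^ 2 := by ring
      rw [e2, gs_sq_p syAx hpi hpr, zero_mul]

lemma mem_S_prim {Y : ℝ} (hY : 0 ≤ Y) {x : Eis} (h : x ∈ S Y) : IsPrim x := ((mem_S hY).1 h).2.1

/-- divisors of the elements of `S Y` -/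
lemma sum_dvs_S {Y : ℝ} (hY : 0 ≤ Y) (T : Eis → Eis → ℂ) :
    ∑ m ∈ S Y, ∑ h ∈ dvs m, T h (m / h) =
      ∑ h ∈ S Y, ∑ k ∈ S Y, if h * k ∈ S Y then T h k else 0 := by
  have e1 : ∀ m ∈ S Y, ∑ h ∈ dvs m, T h (m / h) =
      ∑ h ∈ S Y, if h ∣ m then T h (m / h) else 0 := by
    intro m hm
    have hmp := mem_S_prim hY hm
    rw [← Finset.sum_filter]
    refine Finset.sum_congr ?_ fun _ _ => rfl
    ext h
    rw [mem_dvs hmp.ne_zero, Finset.mem_filter]
    constructor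
    · rintro ⟨h1, h2⟩
      exact ⟨S_of_dvd hY hm h1 h2, h2⟩
    · rintro ⟨h1, h2⟩
      exact ⟨mem_S_prim hY h1, h2⟩
  rw [Finset.sum_congr rfl e1, Finset.sum_comm]
  refine Finset.sum_congr rfl fun h hh => ?_
  have hhp := mem_S_prim hY hh
  rw [← Finset.sum_filter, ← Finset.sum_filter]
  symm
  refine Finset.sum_nbij (fun k => h * k) ?_ ?_ ?_ ?_
  · intro k hk
    rw [Finset.mem_filter] at hk ⊢
    exact ⟨hk.2, dvd_mul_right _ _⟩
  · intro k _ k' _ he
    exact mul_left_cancel₀ hhp.ne_zero he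
  · intro m hm
    rw [Finset.mem_coe, Finset.mem_filter] at hm
    obtain ⟨hm, k, rfl⟩ := hm
    refine ⟨k, ?_, rfl⟩
    rw [Finset.mem_coe, Finset.mem_filter]
    exact ⟨S_of_dvd hY hm ((mem_S_prim hY hm).of_mul_left hhp) (dvd_mul_left _ _), hm⟩
  · intro k _
    rw [mul_div_cancel_left₀ _ hhp.ne_zero]

/-! ### the family -/

/-- the structured family at `a` -/
def Fa (Del : Finset Eis) (e : Eis → ℂ) (V : Eis → Eis → ℂ) (a : Eis) : ℂ :=
  ∑ δ ∈ Del, e δ * (conj (sy a δ) * CS (V δ) a)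

/-- index set of the pairs `(δ, m)` at `(g, h)` -/
def IP (Y : ℝ) (Del : Finset Eis) (g h : Eis) : Finset (Eis × Eis) :=
  (S Y ×ˢ S Y).filter fun i => g * i.1 ∈ Del ∧ g * (h * i.2) ∈ S Y ∧ IsCoprime i.1 (h * i.2)

/-- the array of `(δ, m)` at `(g, h)` : `VP n = [(n, h m) = 1] V (g δ) (h n)` -/
def VP (V : Eis → Eis → ℂ) (g h : Eis) (i : Eis × Eis) : Eis → ℂ :=
  ua (V (g * i.1)) (h * i.2) h

/-- the coefficient of `(δ, m)` at `(g, h)` -/
def eP (e b : Eis → ℂ) (g h : Eis) (i : Eis × Eis) : ℂ := e (g * i.1) * conj (b (g * (h * i.2)))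

/-- the pair family at `(g, h)` -/
def FP (Y : ℝ) (Del : Finset Eis) (e b : Eis → ℂ) (V : Eis → Eis → ℂ) (g h a : Eis) : ℂ :=
  ∑ i ∈ IP Y Del g h, eP e b g h i * (conj (sy a (i.1 * i.2)) * CS (VP V g h i) a)

lemma sy_recip_cop {a h : Eis} (ha : IsPrim a) (hh : IsPrim h) :
    conj (sy a h) * sy a h = if IsCoprime h a then 1 else 0 := by
  split_ifs with hc
  · rw [mul_comm]; exact sy_conj_mul_self syG hh hc.symm
  · rw [sy_cop0 hh fun h' => hc h'.symm]; simp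

/-- **the conjugated factor `CS b` is absorbed by the family** -/
theorem fam_b {Y : ℝ} (hY : 0 ≤ Y) {Del : Finset Eis} (hDel : ∀ δ ∈ Del, δ ∈ S Y) {b : Eis → ℂ}
    (hb : ∀ m, b m ≠ 0 → m ∈ S Y) {V : Eis → Eis → ℂ} (hV : ∀ δ ∈ Del, ∀ n, V δ n ≠ 0 → n ∈ S Y)
    (e : Eis → ℂ) {a : Eis} (ha : IsPrim a) :
    Fa Del e V a * conj (CS b a) = ∑ g ∈ S Y, ∑ h ∈ S Y,
      if IsCoprime (g * h) a then sy a g * FP Y Del e b V g h a else 0 := by
  set F : Eis → Eis → ℂ := fun δ m =>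
    (if δ ∈ Del then e δ * (conj (sy a δ) * CS (V δ) a) else 0) * conj (b m * sy a m) with hF
  have e1 : Fa Del e V a = ∑ δ ∈ S Y, if δ ∈ Del then e δ * (conj (sy a δ) * CS (V δ) a) else 0 := by
    unfold Fa
    rw [← Finset.sum_filter]
    refine Finset.sum_congr ?_ fun _ _ => rfl
    ext δ
    rw [Finset.mem_filter]
    exact ⟨fun h => ⟨hDel δ h, h⟩, fun h => h.2⟩
  rw [e1, CS_fin hb, map_sum, Finset.sum_mul_sum]
  have e2 : ∑ δ ∈ S Y, ∑ m ∈ S Y, F δ m = _ :=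
    Tau671.sum_pairs_gcd (S := S Y) (D := S Y) (fun x hx => ((mem_S hY).1 hx).2)
      (fun x hx => mem_S_prim hY hx) (fun x hx d hd hdx => S_of_dvd hY hx hd hdx) F
  rw [show (∑ i ∈ S Y, ∑ j ∈ S Y, (if i ∈ Del then e i * (conj (sy a i) * CS (V i) a) else 0) *
    conj (b j * sy a j)) = ∑ δ ∈ S Y, ∑ m ∈ S Y, F δ m from rfl, e2]
  refine Finset.sum_congr rfl fun g hg => ?_
  have hgp := mem_S_prim hY hg
  -- the sum over `δ, m`
  have e3 : ∀ δ ∈ S Y, ∑ m ∈ S Y,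
      (if g * δ ∈ S Y ∧ g * m ∈ S Y ∧ IsCoprime δ m then F (g * δ) (g * m) else 0) =
      ∑ h ∈ S Y, ∑ k ∈ S Y, if h * k ∈ S Y then
        (if g * δ ∈ Del ∧ g * (h * k) ∈ S Y ∧ IsCoprime δ (h * k) then
          (if IsCoprime (g * h) a then sy a g * (eP e b g h (δ, k) *
            (conj (sy a (δ * k)) * CS (VP V g h (δ, k)) a)) else 0) else 0) else 0 := by
    intro δ hδ
    have hδp := mem_S_prim hY hδ
    rw [← sum_dvs_S hY (fun h k => if g * δ ∈ Del ∧ g * (h * k) ∈ S Y ∧ IsCoprime δ (h * k) then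
          (if IsCoprime (g * h) a then sy a g * (eP e b g h (δ, k) *
            (conj (sy a (δ * k)) * CS (VP V g h (δ, k)) a)) else 0) else 0)]
    refine Finset.sum_congr rfl fun m hm => ?_
    have hmp := mem_S_prim hY hm
    have e4 : ∀ h ∈ dvs m, h * (m / h) = m := fun h hh => (dvs_quo hmp hh).2.symm
    by_cases hc : g * δ ∈ Del ∧ g * m ∈ S Y ∧ IsCoprime δ m
    · have hgd : g * δ ∈ S Y := hDel _ hc.1
      rw [if_pos ⟨hgd, hc.2⟩]
      simp only [hF]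
      rw [if_pos hc.1, CS_sum_ua (hV _ hc.1) hY hmp a]
      rw [Finset.mul_sum, Finset.mul_sum, Finset.sum_mul]
      refine Finset.sum_congr rfl fun h hh => ?_
      have hhp := isPrim_of_mem_dvs hh
      have hkp := (dvs_quo hmp hh).1
      have e5 := e4 h hh
      rw [if_pos (by rw [e5]; exact hc)]
      unfold eP VP
      simp only
      rw [e5, syG.mul_right _ _ _ hδp hkp, syG.mul_right _ _ _ hgp hδp, syG.mul_right _ _ _ hgp hmp]
      have e6 : sy a m = sy a h * sy a (m / h) := by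
        conv_lhs => rw [← e5]
        exact syG.mul_right _ _ _ hhp hkp
      rw [e6]
      have e7 := sy_recip_cop ha hhp
      have e8 := conj_sq_conj (x := a) hgp
      by_cases hgh : IsCoprime (g * h) a
      · rw [if_pos hgh]
        have h2 : IsCoprime h a := IsCoprime.of_mul_left_right hgh
        rw [if_pos h2] at e7
        simp only [map_mul]
        linear_combination (e (g * δ) * conj (b (g * m)) * conj (sy a δ) * conj (sy a (m / h)) *
          CS (ua (V (g * δ)) m h) a * (conj (sy a g) * conj (sy a g))) * e7 +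
          (e (g * δ) * conj (b (g * m)) * conj (sy a δ) * conj (sy a (m / h)) *
          CS (ua (V (g * δ)) m h) a) * e8
      · rw [if_neg hgh]
        have h0 : sy a g = 0 ∨ sy a h = 0 := by
          by_contra hcon
          push Not at hcon
          apply hgh
          have h1 : IsCoprime a g := by
            by_contra h'
            exact hcon.1 (sy_cop0 hgp h')
          have h2 : IsCoprime a h := by
            by_contra h'
            exact hcon.2 (sy_cop0 hhp h')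
          exact (IsCoprime.mul_right h1 h2).symm
        rcases h0 with h0 | h0
        · rw [h0]; simp
        · rw [h0]; simp
    · rw [Finset.sum_eq_zero (s := dvs m) fun h hh => by rw [e4 h hh, if_neg hc]]
      split_ifs with h1
      · have h2 : ¬ g * δ ∈ Del := fun h => hc ⟨h, h1.2⟩
        simp only [hF]
        rw [if_neg h2, zero_mul]
      · rfl
  rw [Finset.sum_congr rfl e3, Finset.sum_comm]
  refine Finset.sum_congr rfl fun h hh => ?_
  have hhp := mem_S_prim hY hh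
  unfold FP IP
  rw [Finset.sum_filter, Finset.sum_product, Finset.mul_sum]
  split_ifs with hgh
  · refine Finset.sum_congr rfl fun δ hδ => ?_
    rw [Finset.mul_sum]
    refine Finset.sum_congr rfl fun k hk => ?_
    by_cases hc : g * δ ∈ Del ∧ g * (h * k) ∈ S Y ∧ IsCoprime δ (h * k)
    · have hkp := mem_S_prim hY hk
      have h1 : h * k ∈ S Y := S_of_dvd hY hc.2.1 (hhp.mul hkp) (dvd_mul_left _ _)
      rw [if_pos h1, if_pos hc, if_pos hc]
    · rw [if_neg hc, if_neg hc]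
      simp
  · refine Finset.sum_eq_zero fun δ hδ => Finset.sum_eq_zero fun k hk => ?_
    simp

/-! ### supports -/

lemma IP_mem {Y : ℝ} (hY : 0 ≤ Y) {Del : Finset Eis} {g h : Eis} {i : Eis × Eis}
    (hi : i ∈ IP Y Del g h) : IsPrim i.1 ∧ IsPrim i.2 ∧ Squarefree (i.1 * i.2) ∧
      IsCoprime i.1 i.2 ∧ IsCoprime i.1 h ∧ g * i.1 ∈ Del ∧ g * (h * i.2) ∈ S Y ∧
      i.1 ∈ S Y ∧ i.2 ∈ S Y := by
  unfold IP at hi
  rw [Finset.mem_filter, Finset.mem_product] at hi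
  obtain ⟨⟨h1, h2⟩, h3, h4, h5⟩ := hi
  have p1 := (mem_S hY).1 h1
  have p2 := (mem_S hY).1 h2
  have c1 : IsCoprime i.1 i.2 := IsCoprime.of_mul_right_right h5
  have c2 : IsCoprime i.1 h := IsCoprime.of_mul_right_left h5
  exact ⟨p1.2.1, p2.2.1, (squarefree_mul_iff.mpr ⟨c1.isRelPrime, p1.2.2, p2.2.2⟩), c1, c2, h3, h4,
    h1, h2⟩

/-- the support of the arrays -/
lemma VP_ne {Y : ℝ} (hY : 0 ≤ Y) {Del : Finset Eis} {V : Eis → Eis → ℂ}
    (hV : ∀ δ ∈ Del, ∀ n, V δ n ≠ 0 → n ∈ S Y ∧ IsCoprime n δ) {g h : Eis} (hh : IsPrim h)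
    {i : Eis × Eis} (hi : i ∈ IP Y Del g h) {n : Eis} (hn : VP V g h i n ≠ 0) :
    V (g * i.1) (h * n) ≠ 0 ∧ IsPrim n ∧ Squarefree (h * n) ∧ n ∈ S Y ∧
      IsCoprime n (i.1 * i.2) ∧ IsCoprime n h ∧ IsCoprime n g := by
  obtain ⟨h1, h2⟩ := ua_ne hn
  obtain ⟨-, -, -, -, -, h3, -⟩ := IP_mem hY hi
  obtain ⟨h4, h5⟩ := hV _ h3 _ h2
  have h6 := (mem_S hY).1 h4
  have hnp : IsPrim n := h6.2.1.of_mul_left hh
  have h7 : IsCoprime n (g * i.1) := IsCoprime.of_mul_left_right h5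
  refine ⟨h2, hnp, h6.2.2, S_of_dvd hY h4 hnp (dvd_mul_left _ _), ?_,
    IsCoprime.of_mul_right_left h1, IsCoprime.of_mul_right_left h7⟩
  exact IsCoprime.mul_right (IsCoprime.of_mul_right_right h7) (IsCoprime.of_mul_right_right h1)

/-! ### Cauchy -/

/-- **Cauchy with weights over the pairs `(g, h)`** -/
theorem fam_b_sq {Y : ℝ} (hY : 0 ≤ Y) {Del : Finset Eis} (hDel : ∀ δ ∈ Del, δ ∈ S Y)
    {b : Eis → ℂ} (hb : ∀ m, b m ≠ 0 → m ∈ S Y) {V : Eis → Eis → ℂ}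
    (hV : ∀ δ ∈ Del, ∀ n, V δ n ≠ 0 → n ∈ S Y) (e : Eis → ℂ) {w : Eis → Eis → ℝ}
    (hw : ∀ g h, 0 < w g h) {a : Eis} (ha : IsPrim a) :
    ‖Fa Del e V a‖ ^ 2 * ‖CS b a‖ ^ 2 ≤ (∑ g ∈ S Y, ∑ h ∈ S Y, (w g h)⁻¹) *
      ∑ g ∈ S Y, ∑ h ∈ S Y, w g h * (if IsCoprime (g * h) a then ‖FP Y Del e b V g h a‖ ^ 2 else 0) := by
  have h1 := fam_b hY hDel hb hV e ha
  have h2 : ‖Fa Del e V a‖ ^ 2 * ‖CS b a‖ ^ 2 = ‖Fa Del e V a * conj (CS b a)‖ ^ 2 := by
    rw [norm_mul, RCLike.norm_conj, mul_pow]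
  rw [h2, h1, ← Finset.sum_product', ← Finset.sum_product', ← Finset.sum_product']
  set P := S Y ×ˢ S Y
  set f : Eis × Eis → ℂ := fun x =>
    if IsCoprime (x.1 * x.2) a then sy a x.1 * FP Y Del e b V x.1 x.2 a else 0 with hf
  have h3 : ‖∑ x ∈ P, f x‖ ^ 2 ≤ (∑ x ∈ P, ‖f x‖) ^ 2 :=
    pow_le_pow_left₀ (norm_nonneg _) (norm_sum_le _ _) 2
  have h4 : (∑ x ∈ P, ‖f x‖) ^ 2 ≤ (∑ x ∈ P, (w x.1 x.2)⁻¹) * ∑ x ∈ P, w x.1 x.2 * ‖f x‖ ^ 2 := by
    refine Finset.sum_sq_le_sum_mul_sum_of_sq_eq_mul P (fun x _ => (inv_pos.mpr (hw _ _)).le)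
      (fun x _ => mul_nonneg (hw _ _).le (sq_nonneg _)) (fun x _ => ?_)
    have := (hw x.1 x.2).ne'
    field_simp
  refine (h3.trans h4).trans (mul_le_mul_of_nonneg_left (Finset.sum_le_sum fun x hx => ?_)
    (Finset.sum_nonneg fun x _ => (inv_pos.mpr (hw _ _)).le))
  refine mul_le_mul_of_nonneg_left ?_ (hw _ _).le
  simp only [hf]
  split_ifs
  · rw [norm_mul]
    have h5 : ‖sy a x.1‖ ≤ 1 :=
      Tau671.norm_sy_le (mem_S_prim hY (Finset.mem_product.1 hx).1)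
    exact pow_le_pow_left₀ (by positivity) (mul_le_of_le_one_left (norm_nonneg _) h5) 2
  · simp

/-! ### cube-free `d` -/

/-- `CS b (a s²)` is the character side of a twisted sequence at `a` -/
lemma CS_sq {b : Eis → ℂ} (hb : ∀ m, b m ≠ 0 → IsPrim m) (a s : Eis) :
    CS b (a * s ^ 2) = CS (fun m => b m * sy (s ^ 2) m) a := by
  unfold CS
  refine tsum_congr fun m => ?_
  by_cases h : b m = 0
  · simp only [h, zero_mul]
  · rw [syG.mul_left _ _ _ (hb m h)]; ring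

/-- the product at the level of the Gauss sums: frequency `x m²` -/
theorem Sd_CS {v b : Eis → ℂ} (hb : ∀ m, b m ≠ 0 → IsPrim m) {d : Eis} (hd : IsPrim d)
    (hc : CbF d) : E4352.Sd v d * conj (CS b d) =
      ∑' x : Eis, v x * ∑' m : Eis, conj (b m) * conj (gs (x * m ^ 2) d) := by
  unfold E4352.Sd CS
  rw [← tsum_mul_right]
  refine tsum_congr fun x => ?_
  rw [Complex.conj_tsum, mul_assoc, ← tsum_mul_left]
  congr 1
  refine tsum_congr fun m => ?_
  by_cases h : b m = 0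
  · rw [h]; simp
  · rw [← gs_sq_mul (hb m h) hd hc]
    simp only [map_mul]
    ring

end Crest.Agent.R017.E4F266
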