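import Crest.Agent.R017.E4Dic_352

/-!
# Row 17, C70/E4: the local inequalities F1 - F5 of 393 on the sums of a prefix (helper858)

Per prime of the prefix, from `LocP` and `spl_pf`, then summed with the weights `lg p ≥ 0`.
-/

set_option autoImplicit false
set_option linter.unusedSectionVars false

noncomputable section

open Complex
open scoped ComplexConjugate

namespace Crest.Agent.R017.E4F858

open Crest.Agent.R012 Crest.Agent.R012.Eis Crest.Agent.R012.Mob705
open Crest.Agent.R012.Div277 (nm_le_of_dvd)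
open Crest.Agent.R017.Sx545 Crest.Agent.R017.CM106 Crest.Agent.R017.C70
open Crest.Agent.R017.E4352 Crest.Agent.R017.E4J352
open Crest.Agent.R017.E4RG858 (fm pow_dvd_iff dvd_iff_mult mult_mul mult_pow mult_eq_zero fac rho
  rho_nonneg)
open Crest.Agent.R017.E4RH858 Crest.Agent.R017.E4Dic352

/-- `2 (1 - rho)` as a natural number -/
def al2 (u k : ℕ) : ℕ := if k ≤ u then 2 else if k % 3 = 0 then 0 else 1

lemma al2_cast (u k : ℕ) : (2 * (1 - rho u k) : ℝ) = al2 u k := by
  unfold rho al2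
  split_ifs <;> norm_num

/-- the arithmetic content of `LocP` -/
structure Ar (B R Z R' Z' F U b : ℕ) : Prop where
  vB : B ≤ 1
  vR : R + R' ≤ 2
  hU : U = F + R' + Z'
  hF : F + 3 * B = R + Z
  one : B = 1 → R' = 0 ∧ Z' = 0 ∧ 1 ≤ Z ∧ (b = 0 ∨ (1 ≤ F ∧ GG F b))
  zero : B = 0 → R = 0 ∧ Z = 0 ∧ 1 ≤ b ∧ (1 ≤ Z' ∨ (R' = 2 ∧ b = 3)) ∧ GG (R' + Z') b ∧
    ¬ (b = 2 ∧ R' = 0 ∧ Z' = 1)

lemma ar_of {P : Pf} {p : Eis} (h : LocP P p) : Ar (multiplicity p P.B) (multiplicity p P.R)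
    (multiplicity p P.Z) (multiplicity p P.R') (multiplicity p P.Z') (multiplicity p P.F)
    (multiplicity p (P.F * P.R' * P.Z')) (multiplicity p P.b) :=
  ⟨h.vB, h.vR, h.U, h.F, h.one, h.zero⟩

section ar

variable {B R Z R' Z' F U b : ℕ} (h : Ar B R Z R' Z' F U b)
include h

lemma ar1 : 3 * al2 U b + 3 * (2 * b % 3) ≤ 6 * B + 2 * b + b % 3 := by
  have hB := h.vB
  have hU := h.hU
  have hF := h.hF
  unfold al2
  rcases Nat.eq_zero_or_pos B with h0 | h0
  · obtain ⟨h1, h2, h3, h4, h5, h6⟩ := h.zero h0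
    unfold GG at h5
    split_ifs <;> omega
  · obtain ⟨h1, h2, h3, h4⟩ := h.one (by omega)
    unfold GG at h4
    split_ifs <;> omega

lemma ar4 : 2 * (b % 3) + 3 * (R + R') ≤ 6 * B + 2 * b := by
  have hB := h.vB
  have hU := h.hU
  have hF := h.hF
  have hR := h.vR
  rcases Nat.eq_zero_or_pos B with h0 | h0
  · obtain ⟨h1, h2, h3, h4, h5, h6⟩ := h.zero h0
    unfold GG at h5
    omega
  · omega

lemma ar2 {l m f : ℕ} (hz : Z + Z' = f + (l + 2 * m)) : b % 3 + 3 * min m 1 ≤ 3 * B + b := by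
  have hB := h.vB
  have hU := h.hU
  have hF := h.hF
  rcases Nat.eq_zero_or_pos B with h0 | h0
  · obtain ⟨h1, h2, h3, h4, h5, h6⟩ := h.zero h0
    unfold GG at h5
    omega
  · omega

lemma ar3 {l m f e : ℕ} (hz : Z + Z' = f + (l + 2 * m)) (hf : f ≤ 2 * e) :
    3 * al2 U b + 12 * B + 4 * b + b % 3 ≤
      2 * b % 3 + 6 * (R + R') + 6 * l + 12 * m + 12 * e := by
  have hB := h.vB
  have hU := h.hU
  have hF := h.hF
  unfold al2
  obtain ⟨j, hj⟩ : ∃ j, b = 3 * j ∨ b = 3 * j + 1 ∨ b = 3 * j + 2 := ⟨b / 3, by omega⟩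
  rcases Nat.eq_zero_or_pos B with h0 | h0
  · obtain ⟨h1, h2, h3, h4, h5, h6⟩ := h.zero h0
    unfold GG at h5
    rcases hj with hj | hj | hj
    · split_ifs <;> omega
    · have e1 : 2 * b % 3 = 2 := by omega
      have e2 : b % 3 = 1 := by omega
      rw [e1, e2]
      split_ifs <;> omega
    · have e1 : 2 * b % 3 = 1 := by omega
      have e2 : b % 3 = 2 := by omega
      rw [e1, e2]
      split_ifs <;> omega
  · obtain ⟨h1, h2, h3, h4⟩ := h.one (by omega)
    unfold GG at h4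
    split_ifs <;> omega

end ar

lemma ar5 (b : ℕ) : b % 3 ≤ 2 * (2 * b % 3) := by omega

/-- comparing weighted sums -/
lemma sum_le {S : Finset Eis} {f g : Eis → ℕ} (h : ∀ p ∈ S, f p ≤ g p) :
    ∑ p ∈ S, (f p : ℝ) * lg p ≤ ∑ p ∈ S, (g p : ℝ) * lg p :=
  Finset.sum_le_sum fun p hp => mul_le_mul_of_nonneg_right (by exact_mod_cast h p hp) (lg_nonneg p)

lemma alS_nat (P : Pf) : alS P = ∑ p ∈ SP P,
    (al2 (multiplicity p (P.F * P.R' * P.Z')) (multiplicity p P.b) : ℝ) * lg p :=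
  Finset.sum_congr rfl fun p _ => by rw [al2_cast]

/-- `∑ min (v_m) 1` -/
def m1S (P : Pf) (m : Eis) : ℝ := ∑ p ∈ SP P, ((min (multiplicity p m) 1 : ℕ) : ℝ) * lg p

/-- `∑ (v_m - 1)^+` -/
def m2S (P : Pf) (m : Eis) : ℝ := ∑ p ∈ SP P, ((multiplicity p m - 1 : ℕ) : ℝ) * lg p

lemma m1S_nonneg (P : Pf) (m : Eis) : 0 ≤ m1S P m := sum_nonneg' fun _ _ => Nat.cast_nonneg _
lemma m2S_nonneg (P : Pf) (m : Eis) : 0 ≤ m2S P m := sum_nonneg' fun _ _ => Nat.cast_nonneg _

/-- `m = m1 + m2` -/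
lemma lS_m (P : Pf) (m : Eis) : lS P m = m1S P m + m2S P m := by
  unfold lS m1S m2S
  rw [← Finset.sum_add_distrib]
  refine Finset.sum_congr rfl fun p _ => ?_
  rw [← add_mul]
  congr 1
  rw [← Nat.cast_add]
  congr 1
  omega

section main

variable {P : Pf} (hP : ∀ p ∈ SP P, LocP P p)
include hP

/-- **F1** -/
theorem F1 : 3 * alS P + 3 * lqS P ≤ 6 * BS P + 2 * bS P + tauS P := by
  have h := sum_le (S := SP P)
    (f := fun p => 3 * al2 (multiplicity p (P.F * P.R' * P.Z')) (multiplicity p P.b) +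
      3 * (2 * multiplicity p P.b % 3))
    (g := fun p => 6 * multiplicity p P.B + 2 * multiplicity p P.b + multiplicity p P.b % 3)
    fun p hp => ar1 (ar_of (hP p hp))
  rw [alS_nat]
  unfold lqS BS bS tauS
  push_cast at h ⊢
  simp only [Finset.mul_sum, ← Finset.sum_add_distrib]
  refine le_trans (le_of_eq ?_) (h.trans (le_of_eq ?_)) <;>
    exact Finset.sum_congr rfl fun p _ => by ring

/-- **F4** -/
theorem F4 : 2 * tauS P + 3 * RS P ≤ 6 * BS P + 2 * bS P := by
  have h := sum_le (S := SP P)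
    (f := fun p => 2 * (multiplicity p P.b % 3) + 3 * (multiplicity p P.R + multiplicity p P.R'))
    (g := fun p => 6 * multiplicity p P.B + 2 * multiplicity p P.b)
    fun p hp => ar4 (ar_of (hP p hp))
  unfold RS BS bS tauS
  push_cast at h ⊢
  simp only [Finset.mul_sum, ← Finset.sum_add_distrib]
  refine le_trans (le_of_eq ?_) (h.trans (le_of_eq ?_)) <;>
    exact Finset.sum_congr rfl fun p _ => by ring

omit hP in
/-- **F5** -/
theorem F5 (P : Pf) : tauS P ≤ 2 * lqS P := by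
  have h := sum_le (S := SP P)
    (f := fun p => multiplicity p P.b % 3)
    (g := fun p => 2 * (2 * multiplicity p P.b % 3)) fun p _ => ar5 _
  unfold tauS lqS
  push_cast at h ⊢
  simp only [Finset.mul_sum]
  refine h.trans (le_of_eq ?_)
  exact Finset.sum_congr rfl fun p _ => by ring

/-- **F2**, in the first powers -/
theorem F2 {f l m : Eis}
    (hz : ∀ p ∈ SP P, multiplicity p P.Z + multiplicity p P.Z' =
      multiplicity p f + (multiplicity p l + 2 * multiplicity p m)) :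
    tauS P + 3 * m1S P m ≤ 3 * BS P + bS P := by
  have h := sum_le (S := SP P)
    (f := fun p => multiplicity p P.b % 3 + 3 * min (multiplicity p m) 1)
    (g := fun p => 3 * multiplicity p P.B + multiplicity p P.b)
    fun p hp => ar2 (ar_of (hP p hp)) (hz p hp)
  unfold tauS m1S BS bS
  push_cast at h ⊢
  simp only [Finset.mul_sum, ← Finset.sum_add_distrib]
  refine le_trans (le_of_eq ?_) (h.trans (le_of_eq ?_)) <;>
    exact Finset.sum_congr rfl fun p _ => by ring

/-- **F2**, all powers -/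
theorem F2' {f l m : Eis}
    (hz : ∀ p ∈ SP P, multiplicity p P.Z + multiplicity p P.Z' =
      multiplicity p f + (multiplicity p l + 2 * multiplicity p m)) :
    tauS P + 3 * lS P m ≤ 3 * BS P + bS P + 3 * m2S P m := by
  have h := F2 hP hz
  rw [lS_m]
  linarith

/-- **F3** -/
theorem F3 {e₀ l m : Eis} (he0 : e₀ ≠ 0) (he : ∀ p ∈ SP P, ¬ p ^ 3 ∣ e₀)
    (hz : ∀ p ∈ SP P, multiplicity p P.Z + multiplicity p P.Z' =
      multiplicity p e₀ + (multiplicity p l + 2 * multiplicity p m)) :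
    3 * alS P + 12 * BS P + 4 * bS P + tauS P ≤
      lqS P + 6 * RS P + 6 * lS P l + 12 * lS P m + 12 * eS e₀ P := by
  classical
  have h := sum_le (S := SP P)
    (f := fun p => 3 * al2 (multiplicity p (P.F * P.R' * P.Z')) (multiplicity p P.b) +
      12 * multiplicity p P.B + 4 * multiplicity p P.b + multiplicity p P.b % 3)
    (g := fun p => 2 * multiplicity p P.b % 3 +
      6 * (multiplicity p P.R + multiplicity p P.R') + 6 * multiplicity p l +
      12 * multiplicity p m + 12 * (if p ∣ e₀ then 1 else 0))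
    fun p hp => ar3 (ar_of (hP p hp)) (hz p hp) (by
      have hpp : Prime p := (isPP_of_mem_pp hp).prime
      split_ifs with h1
      · have h2 : ¬ 3 ≤ multiplicity p e₀ := fun h3 =>
          he p hp ((pow_dvd_iff hpp he0).mpr h3)
        omega
      · rw [mult_eq_zero hpp he0 h1])
  rw [alS_nat]
  unfold lqS BS bS tauS RS lS eS
  push_cast at h ⊢
  simp only [Finset.mul_sum, ← Finset.sum_add_distrib]
  refine le_trans (le_of_eq ?_) (h.trans (le_of_eq ?_)) <;>
    exact Finset.sum_congr rfl fun p _ => by ring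

end main

/-! ### for the terms -/

section terms

variable {O : Type} {M : Eis} {t : Tm O}

/-- every prime of the prefix is local -/
lemma locP_of (h : Facts M t) : ∀ p ∈ SP (pf t), LocP (pf t) p := h.loc

variable {e₀ z f1 f2 f3 D1' Z'' l m : Eis}

/-- **F1 - F5 of a splitting** -/
theorem all5 (s : Spl M e₀ z t f1 f2 f3 D1' Z'' l m) (h : Facts M t) (hok : t.OK M 1)
    (he : ∀ p : Eis, Prime p → ¬ p ^ 3 ∣ e₀) :
    (3 * alS (pf t) + 3 * lqS (pf t) ≤ 6 * BS (pf t) + 2 * bS (pf t) + tauS (pf t)) ∧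
    (tauS (pf t) + 3 * m1S (pf t) m ≤ 3 * BS (pf t) + bS (pf t)) ∧
    (tauS (pf t) + 3 * lS (pf t) m ≤ 3 * BS (pf t) + bS (pf t) + 3 * m2S (pf t) m) ∧
    (3 * alS (pf t) + 12 * BS (pf t) + 4 * bS (pf t) + tauS (pf t) ≤
      lqS (pf t) + 6 * RS (pf t) + 6 * lS (pf t) l + 12 * lS (pf t) m + 12 * eS e₀ (pf t)) ∧
    (2 * tauS (pf t) + 3 * RS (pf t) ≤ 6 * BS (pf t) + 2 * bS (pf t)) ∧
    tauS (pf t) ≤ 2 * lqS (pf t) := by
  have hl := locP_of h
  have hz : ∀ p ∈ SP (pf t), multiplicity p (pf t).Z + multiplicity p (pf t).Z' =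
      multiplicity p e₀ + (multiplicity p l + 2 * multiplicity p m) :=
    fun p hp => spl_pf s h hok hp
  exact ⟨F1 hl, F2 hl hz, F2' hl hz, F3 hl (spl_e0 s h hok)
    (fun p hp => he p (isPP_of_mem_pp hp).prime) hz, F4 hl, F5 _⟩

end terms

end Crest.Agent.R017.E4F858
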