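import Crest.Agent.R017.E4Rd_70

/-!
# Row 17, E4 of class E (StrUX): the real inequality, literal text (helper918)

The text v3.7 of `E4Rd_70` with
* helper792's `T`-number of the difference: `tE = max tT tb`,
  `tb = 2/3 (v + s) + 5/3 N1 - max 0 (17/100 - β - s)` (also in `d0`)
* the cube line of the x-side (783, 939, 770, 842 #37397, 72): the factor of the cube class is
  `L^(1/3) (Nn/Nb)^(2/3)`, the R-number `rP i n σ = i/3 + 2 n - σ` (with the `n/3` of `rr`),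
  `σ = max 0 (17/100 - β - s - R1 - R2)`
-/

set_option autoImplicit false

noncomputable section

namespace Crest.Agent.R017.E4R70

namespace Cls

variable (z : Cls) (N u : ℝ)

/-- bias of the difference, shortened by `β` and `e₀` -/
def sg : ℝ := max 0 (17 / 100 - z.β - z.s)

/-- the bias in the R-number, shortened by `R` too -/
def sgR : ℝ := max 0 (17 / 100 - z.β - z.s - z.R1 - z.R2)

/-- bias branch of the `T`-number of class E at the level `v + s` (792) -/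
def tb : ℝ := 2 / 3 * (z.v + z.s) + 5 / 3 * z.N1 N - z.sg

/-- `T`-moment of class E -/
def tE : ℝ := max (z.tT N u) (z.tb N)

/-- loss of the large sieve by the square part, class E -/
def d0E : ℝ := min (max 0 (max (z.v + z.s + z.N1 N + z.u1 N u)
  (5 / 3 * z.N1 N + 2 / 3 * (z.v + z.s)) - z.tE N u)) (z.v1 / 2)

end Cls

/-- principal part of the R-number (783, 770, 939), in the normalisation of `rr` (`+ n/3`) -/
def rP (i n σ : ℝ) : ℝ := i / 3 + 2 * n - σ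

/-- `x`-side: structured, class E : `XLT` and the principal line, the same `lt` -/
def XLTE (d k v1 N1 Nq R1 R2 u1 lqt sh cnt tT ρ f g σ x ex : ℝ) : Prop :=
  ∃ lt : ℝ, lt + 1 / 20 ≤ N1 - R2 ∧ x ≤ ex ∧ x + (v1 + x - 2 / 3 * k) + f + ρ / 3 ≤ ex ∧
    x + (v1 + 2 * x - k) + f + ρ ≤ ex ∧
    x + (2 * v1 - k + lqt - lt) / 3 + f ≤ ex ∧
    x + (2 * v1 - k + lqt - lt) / 3 + (lt - v1 / 2) + g ≤ ex ∧
    x + (2 * v1 - k + lqt - lt) / 3 + lt / 2 + max 0 (v1 - (Nq - R2 + R1)) / 2 + cnt +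
      rr d (Nq + lt - v1 + sh) (Nq - R2) u1 ≤ tT + ex ∧
    x + (2 * v1 - k + lqt - lt) / 3 + lt / 3 + 2 / 3 * (v1 - (Nq - R2 + R1)) + cnt +
      rP (Nq + lt - v1 + sh) (Nq - R2) σ ≤ tT + ex

/-- the closers of the `x`-side, class E -/
def Cls.ClXE (z : Cls) (d N u x ex : ℝ) : Prop :=
  XHB z.k z.v1 (z.d0E N u) z.c12 z.s1 x ex ∨
    XLTE d z.k z.v1 (z.N1 N) (N - z.β) z.R1 z.R2 u z.lqt z.sh z.cnt (z.tE N u)
      (z.c12 + z.s1) (z.ff N u) ((z.fF N u + z.ff N u) / 2) z.sgR x ex ∨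
    XPV z.k z.v1 z.lqt (z.c12 + z.s1) (z.ff N u) x ex

/-- **the inequality of class E** -/
def Cls.GoalE (z : Cls) (d N M u a c T : ℝ) : Prop :=
  ∃ x ex ey κ : ℝ, 0 ≤ x ∧ x ≤ z.c1 c ∧ z.ky - 3 * z.s1 ≤ κ ∧ κ ≤ z.ky ∧
    z.ClXE d N u x ex ∧ z.ClY d M a κ (z.c1 c - x) ey ∧
    2 / 3 + (z.β + z.al - 2 * z.E - z.F + 2 * z.s + 2 * z.W) +
      (z.tE N u - (z.v + z.us) / 3 - (N - z.β) / 3) + ex + ey ≤ T

/-- the number which the real inequality of class E with the abstract `T`-number `τ` proves -/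
structure Cls.GoalT (z : Cls) (d N M u a c τ T : ℝ) : Prop where
  intro ::
  out : ∃ x ex ey κ : ℝ, 0 ≤ x ∧ x ≤ z.c1 c ∧ z.ky - 3 * z.s1 ≤ κ ∧ κ ≤ z.ky ∧
    (XHB z.k z.v1 (min (max 0 (max (z.v + z.s + z.N1 N + z.u1 N u)
        (5 / 3 * z.N1 N + 2 / 3 * (z.v + z.s)) - τ)) (z.v1 / 2)) z.c12 z.s1 x ex ∨
      XLTE d z.k z.v1 (z.N1 N) (N - z.β) z.R1 z.R2 u z.lqt z.sh z.cnt τ
        (z.c12 + z.s1) (z.ff N u) ((z.fF N u + z.ff N u) / 2) z.sgR x ex ∨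
      XPV z.k z.v1 z.lqt (z.c12 + z.s1) (z.ff N u) x ex) ∧
    z.ClY d M a κ (z.c1 c - x) ey ∧
    2 / 3 + (z.β + z.al - 2 * z.E - z.F + 2 * z.s + 2 * z.W) +
      (τ - (z.v + z.us) / 3 - (N - z.β) / 3) + ex + ey ≤ T

/-- **two trees suffice** : the text at `τ = tT` where `tb ≤ tT`, at `τ = tb` where `tT ≤ tb` -/
theorem Cls.goalE_of_T {z : Cls} {d N M u a c T : ℝ}
    (h1 : z.tb N ≤ z.tT N u → z.GoalT d N M u a c (z.tT N u) T)
    (h2 : z.tT N u ≤ z.tb N → z.GoalT d N M u a c (z.tb N) T) : z.GoalE d N M u a c T := by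
  rcases le_total (z.tb N) (z.tT N u) with h | h
  · obtain ⟨H⟩ := h1 h
    have e : z.tE N u = z.tT N u := max_eq_left h
    unfold Cls.GoalE Cls.ClXE Cls.d0E
    rw [e]
    exact H
  · obtain ⟨H⟩ := h2 h
    have e : z.tE N u = z.tb N := max_eq_right h
    unfold Cls.GoalE Cls.ClXE Cls.d0E
    rw [e]
    exact H

end Crest.Agent.R017.E4R70
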