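import Crest.Agent.R017.E4Bx_918
import Crest.Agent.R017.E4Re_918

/-!
# Row 17, E4 (StrU / StrUX): the linear facts and the clauses of the real inequality (helper69)

Format-free: every fact of the box `Bx4` and of the class `Ok` which is not a field already, as one
linear inequality in the atoms `d * r, d * N, d * M, d * a, d * c, d * u, Al ..`, `tT, u1, d0, fF,
ff, tb, sg, sgR`; the clauses are disjunctions of conjunctions of linear inequalities.
-/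

set_option autoImplicit false
set_option linter.all false

noncomputable section

namespace Crest.Agent.R017.E4Fa69

open Crest.Agent.R017.Bx918 Crest.Agent.R017.R8C918 Crest.Agent.R017.E4R70

variable {μ d r N M u a c x v : ℝ} {z : Cls}

/-! ### products with `d` -/

/-- **the products** -/
structure Pd (d r N M u a c : ℝ) : Prop where
  r0 : 0 ≤ d * r
  N0 : 0 ≤ d * N
  M0 : 0 ≤ d * M
  u0 : 0 ≤ d * u
  a0 : 0 ≤ d * a
  c0 : 0 ≤ d * c
  r1 : d ≤ d * r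
  r28 : 28 * (d * r) ≤ 31 * d
  u1 : 2 / 9 * d ≤ d * u
  u5 : 3 * (d * u) ≤ d * N
  MN : 2 * (d * N) ≤ 3 * (d * M)
  Mu : d * N - d * u ≤ d * M
  near : 671 / 672 * d ≤ d * N + d * u
  N34 : 3 / 4 * d ≤ d * N
  N84 : 103 * (d * N) ≤ 84 * d
  a12 : 12 * (d * a) ≤ d
  cr : 3 * (d * c) ≤ d * r
  D : d * N + d * M + d * a - d * c ≤ d * r
  P : d * N + d * M + d * a + d * c ≤ 5 / 3 * (d * r)
  q43 : d * N + d * M + d * a ≤ 4 / 3 * (d * r)
  r42 : 42 * (d * r) ≤ r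
  N42 : 42 * (d * N) ≤ N
  M42 : 42 * (d * M) ≤ M
  u42 : 42 * (d * u) ≤ u
  a42 : 42 * (d * a) ≤ a
  c42 : 42 * (d * c) ≤ c

theorem pd (B : Bx4 μ d r N M u a c x v) : Pd d r N M u a c := by
  have h0 := B.d0
  have h42 := B.d42
  have k : ∀ {p q : ℝ}, p ≤ q → d * p ≤ d * q := fun h => mul_le_mul_of_nonneg_left h h0
  have j : ∀ {q : ℝ}, 0 ≤ q → 42 * (d * q) ≤ q := fun {q} h => by
    have := mul_le_mul_of_nonneg_right h42 h
    linarith
  have e1 := B.r1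
  have e2 := B.r28
  have e3 := B.u0
  have e4 := B.u5
  have e5 := B.MN
  have e6 := B.Mu
  have e7 := B.near
  have e8 := B.N34
  have e9 := B.N84
  have e10 := B.a0
  have e11 := B.a12
  have e12 := B.c0
  have e13 := B.cr
  have e14 := B.D
  have e15 := B.P
  have e16 := B.q43
  have e17 := B.μd
  have e18 := B.μ0
  have e19 : d * d ≤ d * (1 / 42) := k h42
  have f1 := k e1
  have f2 := k e2
  have f3 := k e3
  have f4 := k e4
  have f5 := k e5
  have f6 := k e6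
  have f7 := k e7
  have f8 := k e8
  have f9 := k e9
  have f10 := k e10
  have f11 := k e11
  have f12 := k e12
  have f13 := k e13
  have f14 := k e14
  have f15 := k e15
  have f16 := k e16
  have f17 := k e17
  have M0 : 0 ≤ M := by linarith
  have N0 : 0 ≤ N := by linarith
  have u0 : 0 ≤ u := by linarith
  have r0 : 0 ≤ r := by linarith
  refine ⟨mul_nonneg h0 r0, mul_nonneg h0 N0, mul_nonneg h0 M0, mul_nonneg h0 u0,
    mul_nonneg h0 e10, mul_nonneg h0 e12, ?_, ?_, ?_, ?_, ?_, ?_, ?_, ?_, ?_, ?_, ?_, ?_, ?_, ?_,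
    j r0, j N0, j M0, j u0, j e10, j e12⟩ <;> linarith

/-! ### the allowed loss -/

/-- **lower bounds of `Al`** -/
structure Pa (d r N M a c x : ℝ) : Prop where
  A0 : 0 ≤ Al d r (N + M + a) c
  a1 : 8 / 3 * (d * r) ≤ Al d r (N + M + a) c
  a2 : 8 / 3 * (d * r) + r / 2 - 1 + (N + M + a - c) / 2 ≤ Al d r (N + M + a) c
  a3 : 5 / 12 * r - 2 / 3 * (d * r) - 5 / 3 + 3 / 4 * (N + M + a + c) +
    2 * (d * N + d * M + d * a + d * c) ≤ Al d r (N + M + a) c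
  s1 : 2 * (d * a + d * c) + 1 / 4 * d ≤ Al d r (N + M + a) c
  s2 : 1 / 3 * (5 / 4 * N - 1) + 2 * (d * a + d * c) + 1 / 4 * d ≤ Al d r (N + M + a) c
  s3 : 1 / 3 * (2 * (N + M + a) + c - 3 + 2 / 5 * (r - (N + M + a) + c)) +
    2 * (d * a + d * c) + 1 / 4 * d ≤ Al d r (N + M + a) c
  s4 : 3 / 4 * (a + c - x - 7 / 9 * (1 - M)) + 2 * (d * a + d * c) + 1 / 4 * d ≤
    Al d r (N + M + a) c
  s5 : 3 / 4 * (a + c - x - 7 / 9 * (1 - M)) + 1 / 3 * (5 / 4 * N - 1) +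
    2 * (d * a + d * c) + 1 / 4 * d ≤ Al d r (N + M + a) c
  s6 : 3 / 4 * (a + c - x - 7 / 9 * (1 - M)) +
    1 / 3 * (2 * (N + M + a) + c - 3 + 2 / 5 * (r - (N + M + a) + c)) +
    2 * (d * a + d * c) + 1 / 4 * d ≤ Al d r (N + M + a) c
  t1 : 2 * (d * a + d * c) + d ≤ Al d r (N + M + a) c
  t2 : (5 / 4 * N - 1) + 2 * (d * a + d * c) + d ≤ Al d r (N + M + a) c
  t3 : 3 / 4 * (a + c - x - 7 / 9 * (1 - M)) + 2 * (d * a + d * c) + d ≤ Al d r (N + M + a) c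
  t4 : 3 / 4 * (a + c - x - 7 / 9 * (1 - M)) + (5 / 4 * N - 1) + 2 * (d * a + d * c) + d ≤
    Al d r (N + M + a) c

theorem pa (B : Bx4 μ d r N M u a c x v) : Pa d r N M a c x := by
  have h1 := B.sqE
  have h2 := B.sq2
  have hp := pd B
  have e : 2 * d * (a + c) = 2 * (d * a + d * c) := by ring
  rw [e] at h1 h2
  unfold LSe rhoE at h1
  have g1 : 8 / 3 * d * r ≤ Al d r (N + M + a) c := le_max_left _ _
  have g2 : r * (8 / 3 * d + 1 / 2) - 1 + (N + M + a - c) / 2 ≤ Al d r (N + M + a) c :=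
    (le_max_left _ _).trans (le_max_right _ _)
  have g3 : r * (5 / 12 - 2 / 3 * d) - 5 / 3 + (3 / 4 + 2 * d) * (N + M + a + c) ≤
      Al d r (N + M + a) c := (le_max_right _ _).trans (le_max_right _ _)
  have m1 : (0 : ℝ) ≤ max 0 (a + c - x - 7 / 9 * (1 - M)) := le_max_left _ _
  have m2 := le_max_right (0 : ℝ) (a + c - x - 7 / 9 * (1 - M))
  have m3 : (0 : ℝ) ≤ max 0 (max (5 / 4 * N - 1)
    (2 * (N + M + a) + c - 3 + 2 / 5 * (r - (N + M + a) + c))) := le_max_left _ _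
  have m4 : 5 / 4 * N - 1 ≤ max 0 (max (5 / 4 * N - 1)
    (2 * (N + M + a) + c - 3 + 2 / 5 * (r - (N + M + a) + c))) :=
    (le_max_left _ _).trans (le_max_right _ _)
  have m5 : 2 * (N + M + a) + c - 3 + 2 / 5 * (r - (N + M + a) + c) ≤ max 0 (max (5 / 4 * N - 1)
    (2 * (N + M + a) + c - 3 + 2 / 5 * (r - (N + M + a) + c))) :=
    (le_max_right _ _).trans (le_max_right _ _)
  have m6 : (0 : ℝ) ≤ max 0 (5 / 4 * N - 1) := le_max_left _ _
  have m7 := le_max_right (0 : ℝ) (5 / 4 * N - 1)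
  have r0 := hp.r0
  refine ⟨?_, ?_, ?_, ?_, ?_, ?_, ?_, ?_, ?_, ?_, ?_, ?_, ?_, ?_⟩
  · linarith
  · linarith
  · linarith
  · linarith
  all_goals linarith

/-- the window, and the level dependent ranges -/
structure Pt (d N x v β s : ℝ) : Prop where
  v1 : v ≤ 2 * N - 1 + 9 / 4 * x
  v2 : v ≤ 3 / 4 * N + 9 / 4 * x
  v3 : v ≤ 3 / 4 * N
  s1 : 4 * s ≤ 2 * N - 1 + 9 / 4 * x - v + 9 / 8 * d
  s2 : 4 * s ≤ 3 / 4 * N + 9 / 4 * x - v + 9 / 8 * d
  b1 : 2 * β ≤ 2 * N - 1 + 9 / 4 * x - v + 9 / 8 * d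
  b2 : 2 * β ≤ 3 / 4 * N + 9 / 4 * x - v + 9 / 8 * d

theorem pt (B : Bx4 μ d r N M u a c x z.v) (h : z.Ok d r N M a c x) : Pt d N x z.v z.β z.s := by
  have h1 := B.vt
  have h2 := h.hs
  have h3 := h.hb
  unfold topK at h2 h3
  have g1 := min_le_left (2 * N - 1) (3 / 4 * N)
  have g2 := min_le_right (2 * N - 1) (3 / 4 * N)
  exact ⟨by linarith, by linarith, B.v34, by linarith, by linarith, by linarith, by linarith⟩

/-! ### the clauses of the box -/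

/-- share -/
theorem c_shr (B : Bx4 μ d r N M u a c x v) : x ≤ 0 ∨
    (0 ≤ 1 / 36 - x - 2 * d ∧ 0 ≤ 199 / 360 - x - 7 / 10 * N ∧ 0 ≤ 15 / 19 - N - x ∧
      0 ≤ a + c - 7 / 9 * (1 - M) - x) := by
  rcases B.shr with h | ⟨h1, h2, h3⟩
  · exact Or.inl h.le
  · rcases le_or_gt x 0 with h | h
    · exact Or.inl h
    · right
      have h4 := B.need
      rcases max_choice (0 : ℝ) (a + c - 7 / 9 * (1 - M)) with h5 | h5
      · rw [h5] at h4; linarith
      · rw [h5] at h4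
        exact ⟨by linarith, by linarith, by linarith, by linarith⟩

/-- the upper bound of `Al` from the absolute closure with the share `y` : the `w`-part and the
`n`-part are maxima -/
theorem c_na (B : Bx4 μ d r N M u a c x v) {y : ℝ} (hy : Adm N c y) : ∃ w n : ℝ,
    Al d r (N + M + a) c ≤ d + 2 * (d * a + d * c) + 3 / 4 * w + 1 / 3 * n ∧
    (w = 0 ∨ w = a + c - y - 7 / 9 * (1 - M)) ∧
    (n = 0 ∨ n = 5 / 4 * N - 1 ∨ n = N + u - 1) := by
  have h := B.na y hy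
  unfold LA at h
  refine ⟨max 0 (a + c - y - 7 / 9 * (1 - M)), max 0 (max (5 / 4 * N - 1) (N + u - 1)), by
    linarith, max_choice _ _, ?_⟩
  rcases max_choice (0 : ℝ) (max (5 / 4 * N - 1) (N + u - 1)) with h1 | h1
  · exact Or.inl h1
  · rw [h1]
    exact Or.inr (max_choice _ _)

/-- the six alternatives -/
theorem c_na6 (B : Bx4 μ d r N M u a c x v) {y : ℝ} (hy : Adm N c y) :
    (Al d r (N + M + a) c ≤ d + 2 * (d * a + d * c)) ∨
    (Al d r (N + M + a) c ≤ d + 2 * (d * a + d * c) + 1 / 3 * (5 / 4 * N - 1)) ∨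
    (Al d r (N + M + a) c ≤ d + 2 * (d * a + d * c) + 1 / 3 * (N + u - 1)) ∨
    (Al d r (N + M + a) c ≤ d + 2 * (d * a + d * c) + 3 / 4 * (a + c - y - 7 / 9 * (1 - M))) ∨
    (Al d r (N + M + a) c ≤ d + 2 * (d * a + d * c) + 3 / 4 * (a + c - y - 7 / 9 * (1 - M)) +
      1 / 3 * (5 / 4 * N - 1)) ∨
    (Al d r (N + M + a) c ≤ d + 2 * (d * a + d * c) + 3 / 4 * (a + c - y - 7 / 9 * (1 - M)) +
      1 / 3 * (N + u - 1)) := by
  obtain ⟨w, n, h, hw, hn⟩ := c_na B hy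
  rcases hw with e | e <;> rcases hn with e' | e' | e' <;> rw [e, e'] at h
  · left; linarith
  · right; left; linarith
  · right; right; left; linarith
  · right; right; right; left; linarith
  · right; right; right; right; left; linarith
  · right; right; right; right; right; linarith

theorem adm0 (B : Bx4 μ d r N M u a c x v) : Adm N c 0 := ⟨le_rfl, B.c0, Or.inl rfl⟩

theorem admx (B : Bx4 μ d r N M u a c x v) : Adm N c x := B.adm

theorem admc (B : Bx4 μ d r N M u a c x v) (h : N + c ≤ 4 / 5) : Adm N c c :=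
  ⟨B.c0, le_rfl, Or.inr h⟩

theorem admN (B : Bx4 μ d r N M u a c x v) (h : N ≤ 4 / 5) (h1 : 4 / 5 ≤ N + c) :
    Adm N c (4 / 5 - N) := ⟨by linarith, by linarith, Or.inr (by linarith)⟩

/-! ### the numbers of a class -/

theorem N1_ge (B : Bx4 μ d r N M u a c x z.v) (h : z.Ok d r N M a c x) :
    1 / 2 - x - 1 / 64 ≤ z.N1 N ∧ 4 / 9 ≤ z.N1 N ∧ x ≤ 1 / 36 := by
  have h1 := h.hβ
  have h2 := h.h64
  have h3 : x ≤ 1 / 36 := by
    rcases B.shr with e | ⟨e, -, -⟩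
    · rw [e]; norm_num
    · have := B.d0; linarith
  unfold Cls.N1
  refine ⟨by linarith, by linarith, h3⟩

/-- `u1` -/
theorem f_u1 : z.u1 N u ≤ u ∧ 3 * z.u1 N u ≤ z.N1 N := by
  unfold Cls.u1
  have h1 := min_le_left u (z.N1 N / 3)
  have h2 := min_le_right u (z.N1 N / 3)
  exact ⟨h1, by linarith⟩

theorem c_u1 : (0 ≤ z.u1 N u - u) ∨ (0 ≤ 3 * z.u1 N u - z.N1 N) := by
  unfold Cls.u1
  rcases min_choice u (z.N1 N / 3) with h | h <;> rw [h]
  · left; linarith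
  · right; linarith

theorem u1_nonneg (B : Bx4 μ d r N M u a c x z.v) (h : z.Ok d r N M a c x) : 0 ≤ z.u1 N u := by
  obtain ⟨-, h1, -⟩ := N1_ge B h
  have h2 := B.u0
  exact le_min (by linarith) (by linarith)

/-- upper bound of `tT` by the main branch -/
theorem c_tM : (z.tT N u ≤ 2 * z.N1 N ∧ 3 / 2 * z.N1 N + 2 / 3 * (z.v + z.s) ≤ 2 * z.N1 N) ∨
    (z.tT N u ≤ 3 / 2 * z.N1 N + 2 / 3 * (z.v + z.s) ∧
      2 * z.N1 N ≤ 3 / 2 * z.N1 N + 2 / 3 * (z.v + z.s)) := by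
  have h : z.tT N u ≤ z.tM N := min_le_left _ _
  unfold Cls.tM at h
  rcases le_total (3 / 2 * z.N1 N + 2 / 3 * (z.v + z.s)) (2 * z.N1 N) with h1 | h1
  · rw [max_eq_left h1] at h; exact Or.inl ⟨h, h1⟩
  · rw [max_eq_right h1] at h; exact Or.inr ⟨h, h1⟩

/-- upper bound of `tT` by the trivial branch -/
theorem c_tB : (z.tT N u ≤ z.v + z.s + z.N1 N + z.u1 N u ∧
      5 / 3 * z.N1 N + (z.v + z.s) / 3 ≤ z.v + z.s + z.N1 N + z.u1 N u) ∨
    (z.tT N u ≤ 5 / 3 * z.N1 N + (z.v + z.s) / 3 ∧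
      z.v + z.s + z.N1 N + z.u1 N u ≤ 5 / 3 * z.N1 N + (z.v + z.s) / 3) := by
  have h : z.tT N u ≤ z.tB N u := min_le_right _ _
  unfold Cls.tB at h
  rcases le_total (5 / 3 * z.N1 N + (z.v + z.s) / 3) (z.v + z.s + z.N1 N + z.u1 N u) with h1 | h1
  · rw [max_eq_left h1] at h; exact Or.inl ⟨h, h1⟩
  · rw [max_eq_right h1] at h; exact Or.inr ⟨h, h1⟩

/-- lower bound of `tT` -/
theorem c_tT : (2 * z.N1 N ≤ z.tT N u ∧ 3 / 2 * z.N1 N + 2 / 3 * (z.v + z.s) ≤ z.tT N u) ∨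
    (z.v + z.s + z.N1 N + z.u1 N u ≤ z.tT N u ∧
      5 / 3 * z.N1 N + (z.v + z.s) / 3 ≤ z.tT N u) := by
  unfold Cls.tT
  rcases min_choice (z.tM N) (z.tB N u) with h | h <;> rw [h]
  · exact Or.inl ⟨le_max_left _ _, le_max_right _ _⟩
  · exact Or.inr ⟨le_max_left _ _, le_max_right _ _⟩

theorem tT_nonneg (B : Bx4 μ d r N M u a c x z.v) (h : z.Ok d r N M a c x) : 0 ≤ z.tT N u := by
  obtain ⟨-, h1, -⟩ := N1_ge B h
  have h2 := h.v
  have h3 := h.s
  have h4 := u1_nonneg B h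
  rcases c_tT (z := z) (N := N) (u := u) with ⟨e, -⟩ | ⟨e, -⟩ <;> linarith

/-- the loss `d0` at an abstract `T`-number `τ` -/
def dT (z : Cls) (N u τ : ℝ) : ℝ := min (max 0 (max (z.v + z.s + z.N1 N + z.u1 N u)
  (5 / 3 * z.N1 N + 2 / 3 * (z.v + z.s)) - τ)) (z.v1 / 2)

theorem dT_tT : dT z N u (z.tT N u) = z.d0 N u := rfl

theorem dT_tE : dT z N u (z.tE N u) = z.d0E N u := rfl

theorem f_d0 {τ : ℝ} : 2 * dT z N u τ ≤ z.v1 := by
  have h := min_le_right (max 0 (max (z.v + z.s + z.N1 N + z.u1 N u)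
    (5 / 3 * z.N1 N + 2 / 3 * (z.v + z.s)) - τ)) (z.v1 / 2)
  unfold dT
  linarith

theorem d0_nonneg {τ : ℝ} (h : z.Ok d r N M a c x) : 0 ≤ dT z N u τ := by
  have := h.hv
  exact le_min (le_max_left _ _) (by linarith)

theorem c_d0 {τ : ℝ} : dT z N u τ ≤ 0 ∨
    (dT z N u τ ≤ z.v + z.s + z.N1 N + z.u1 N u - τ ∧
      5 / 3 * z.N1 N + 2 / 3 * (z.v + z.s) ≤ z.v + z.s + z.N1 N + z.u1 N u) ∨
    (dT z N u τ ≤ 5 / 3 * z.N1 N + 2 / 3 * (z.v + z.s) - τ ∧
      z.v + z.s + z.N1 N + z.u1 N u ≤ 5 / 3 * z.N1 N + 2 / 3 * (z.v + z.s)) := by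
  have h := min_le_left (max 0 (max (z.v + z.s + z.N1 N + z.u1 N u)
    (5 / 3 * z.N1 N + 2 / 3 * (z.v + z.s)) - τ)) (z.v1 / 2)
  unfold dT
  rcases le_total 0 (max (z.v + z.s + z.N1 N + z.u1 N u)
    (5 / 3 * z.N1 N + 2 / 3 * (z.v + z.s)) - τ) with h0 | h0
  · rw [max_eq_right h0] at h ⊢
    rcases le_total (5 / 3 * z.N1 N + 2 / 3 * (z.v + z.s)) (z.v + z.s + z.N1 N + z.u1 N u) with
      h1 | h1
    · rw [max_eq_left h1] at h ⊢
      exact Or.inr (Or.inl ⟨h, h1⟩)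
    · rw [max_eq_right h1] at h ⊢
      exact Or.inr (Or.inr ⟨h, h1⟩)
  · rw [max_eq_left h0] at h ⊢
    exact Or.inl h

theorem fF_nonneg : 0 ≤ z.fF N u := le_max_left _ _

theorem f_fF : (z.v + z.s - z.N1 N + z.u1 N u) / 3 ≤ z.fF N u := le_max_right _ _

theorem c_fF : z.fF N u ≤ 0 ∨
    (3 * z.fF N u ≤ z.v + z.s - z.N1 N + z.u1 N u ∧ 0 ≤ z.v + z.s - z.N1 N + z.u1 N u) := by
  unfold Cls.fF
  rcases le_total 0 ((z.v + z.s - z.N1 N + z.u1 N u) / 3) with h | h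
  · rw [max_eq_right h]; right; exact ⟨by linarith, by linarith⟩
  · rw [max_eq_left h]; left; exact le_rfl

theorem f_ff : z.ff N u ≤ z.fF N u ∧ z.ff N u ≤ z.nu + z.c12 + z.Y1 :=
  ⟨min_le_left _ _, min_le_right _ _⟩

theorem ff_nonneg (h : z.Ok d r N M a c x) : 0 ≤ z.ff N u := by
  have h1 := h.nu
  have h2 := h.c12
  have h3 := h.Y1
  exact le_min fF_nonneg (by linarith)

theorem c_ff : z.fF N u ≤ z.ff N u ∨ z.nu + z.c12 + z.Y1 ≤ z.ff N u := by
  unfold Cls.ff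
  rcases min_choice (z.fF N u) (z.nu + z.c12 + z.Y1) with h | h <;> rw [h]
  · exact Or.inl le_rfl
  · exact Or.inr le_rfl

/-- `max 0 (y / 2)` -/
theorem c_half (y : ℝ) : max 0 (y / 2) ≤ 0 ∨ (2 * max 0 (y / 2) ≤ y ∧ 0 ≤ y) := by
  rcases le_total 0 (y / 2) with h | h
  · rw [max_eq_right h]; right; exact ⟨by linarith, by linarith⟩
  · rw [max_eq_left h]; left; exact le_rfl

theorem half_eq (y : ℝ) : max 0 y / 2 = max 0 (y / 2) := by
  rcases le_total 0 y with h | h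
  · rw [max_eq_right h, max_eq_right (by linarith)]
  · rw [max_eq_left h, max_eq_left (by linarith), zero_div]

/-! ### class E -/

theorem f_sg : 0 ≤ z.sg ∧ 17 / 100 - z.β - z.s ≤ z.sg := ⟨le_max_left _ _, le_max_right _ _⟩

theorem c_sg : z.sg ≤ 0 ∨ (z.sg ≤ 17 / 100 - z.β - z.s ∧ 0 ≤ 17 / 100 - z.β - z.s) := by
  unfold Cls.sg
  rcases le_total 0 (17 / 100 - z.β - z.s) with h | h
  · rw [max_eq_right h]; exact Or.inr ⟨le_rfl, h⟩
  · rw [max_eq_left h]; exact Or.inl le_rfl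

theorem f_sgR (h : z.Ok d r N M a c x) : 0 ≤ z.sgR ∧
    17 / 100 - z.β - z.s - z.R1 - z.R2 ≤ z.sgR ∧ z.sgR ≤ z.sg ∧ z.sg ≤ 17 / 100 ∧
      z.sg ≤ z.sgR + z.R1 + z.R2 := by
  have h1 := h.R1
  have h2 := h.R2
  have h3 := h.β
  have h4 := h.s
  refine ⟨le_max_left _ _, le_max_right _ _, ?_, ?_, ?_⟩
  · exact max_le_max le_rfl (by linarith)
  · exact max_le (by norm_num) (by linarith)
  · have h5 : (0 : ℝ) ≤ z.sgR := le_max_left _ _
    have h6 : 17 / 100 - z.β - z.s - z.R1 - z.R2 ≤ z.sgR := le_max_right _ _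
    exact max_le (by linarith) (by linarith)

theorem c_sgR : z.sgR ≤ 0 ∨ (z.sgR ≤ 17 / 100 - z.β - z.s - z.R1 - z.R2 ∧
    0 ≤ 17 / 100 - z.β - z.s - z.R1 - z.R2) := by
  unfold Cls.sgR
  rcases le_total 0 (17 / 100 - z.β - z.s - z.R1 - z.R2) with h | h
  · rw [max_eq_right h]; exact Or.inr ⟨le_rfl, h⟩
  · rw [max_eq_left h]; exact Or.inl le_rfl

theorem tb_nonneg (B : Bx4 μ d r N M u a c x z.v) (h : z.Ok d r N M a c x) : 0 ≤ z.tb N := by
  obtain ⟨-, h1, -⟩ := N1_ge B h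
  obtain ⟨-, -, -, h2, -⟩ := f_sgR h
  have h3 := h.v
  have h4 := h.s
  unfold Cls.tb
  linarith

/-- **class N follows from class E** -/
theorem goal_of_GoalE {T : ℝ} (H : z.GoalE d N M u a c T) : z.Goal d N M u a c T := by
  obtain ⟨X, ex, ey, κ, h1, h2, h3, h4, h5, h6, h7⟩ := H
  have h8 : z.tT N u ≤ z.tE N u := le_max_left _ _
  refine ⟨X, ex + (z.tE N u - z.tT N u), ey, κ, h1, h2, h3, h4, ?_, h6, by linarith⟩
  rcases h5 with ⟨a1, a2, a3, a4⟩ | ⟨lt, a1, a2, a3, a4, a5, a6, a7, -⟩ | ⟨a1, a2, a3, a4, a5⟩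
  · left
    have h9 : z.d0 N u ≤ z.d0E N u + (z.tE N u - z.tT N u) := by
      unfold Cls.d0 Cls.d0E
      rw [← sub_le_iff_le_add]
      refine le_min ?_ ?_
      · rw [sub_le_iff_le_add]
        refine (min_le_left _ _).trans ?_
        refine max_le ?_ ?_
        · have := le_max_left (0 : ℝ) (max (z.v + z.s + z.N1 N + z.u1 N u)
            (5 / 3 * z.N1 N + 2 / 3 * (z.v + z.s)) - z.tE N u)
          linarith
        · have := le_max_right (0 : ℝ) (max (z.v + z.s + z.N1 N + z.u1 N u)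
            (5 / 3 * z.N1 N + 2 / 3 * (z.v + z.s)) - z.tE N u)
          linarith
      · rw [sub_le_iff_le_add]
        refine (min_le_right _ _).trans ?_
        linarith
    exact ⟨by linarith, by linarith, by linarith, by linarith⟩
  · right; left
    exact ⟨lt, a1, by linarith, by linarith, by linarith, by linarith, by linarith, by linarith⟩
  · right; right
    exact ⟨a1, by linarith, by linarith, by linarith, by linarith⟩

end Crest.Agent.R017.E4Fa69
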