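import Crest.Agent.R017.E4Hg_918
import Crest.Agent.R017.E4Re_918

/-!
# Row 17, E4 of class E (StrUX): from base `K` to base `X` (helper918)

The twins of `E4Hg_918` for the text `E4Re_918`.
-/

set_option autoImplicit false

noncomputable section

namespace Crest.Agent.R017.He918

open Crest.Agent.R017.Bx918 Crest.Agent.R017.E4R70 Crest.Agent.R017.Nm918
open Crest.Agent.R017.Hg918

lemma rP_mul (κ i n σ : ℝ) : rP (κ * i) (κ * n) (κ * σ) = κ * rP i n σ := by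
  unfold rP
  ring

/-- the structured closer of class E in base `X` -/
def XLTEX (d k v1 N1 Nq R1 R2 u1 lqt sh cnt tT ρ f g σ x ex : ℝ) : Prop :=
  ∃ lt : ℝ, lt + 1 / 25 ≤ N1 - R2 ∧ x ≤ ex ∧ x + (v1 + x - 2 / 3 * k) + f + ρ / 3 ≤ ex ∧
    x + (v1 + 2 * x - k) + f + ρ ≤ ex ∧
    x + (2 * v1 - k + lqt - lt) / 3 + f ≤ ex ∧
    x + (2 * v1 - k + lqt - lt) / 3 + (lt - v1 / 2) + g ≤ ex ∧
    x + (2 * v1 - k + lqt - lt) / 3 + lt / 2 + max 0 (v1 - (Nq - R2 + R1)) / 2 + cnt +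
      rr d (Nq + lt - v1 + sh) (Nq - R2) u1 ≤ tT + ex ∧
    x + (2 * v1 - k + lqt - lt) / 3 + lt / 3 + 2 / 3 * (v1 - (Nq - R2 + R1)) + cnt +
      rP (Nq + lt - v1 + sh) (Nq - R2) σ ≤ tT + ex

/-- the class-N closer is the first seven lines -/
lemma XLTEX.toX {d k v1 N1 Nq R1 R2 u1 lqt sh cnt tT ρ f g σ x ex : ℝ}
    (H : XLTEX d k v1 N1 Nq R1 R2 u1 lqt sh cnt tT ρ f g σ x ex) :
    XLTX d k v1 N1 Nq R1 R2 u1 lqt sh cnt tT ρ f g x ex := by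
  obtain ⟨lt, h1, h2, h3, h4, h5, h6, h7, -⟩ := H
  exact ⟨lt, h1, h2, h3, h4, h5, h6, h7⟩

lemma XLTE_mul {κ : ℝ} (h : 4 / 5 ≤ κ) {d k v1 N1 Nq R1 R2 u1 lqt sh cnt tT ρ f g σ x ex : ℝ}
    (H : XLTE d k v1 N1 Nq R1 R2 u1 lqt sh cnt tT ρ f g σ x ex) :
    XLTEX d (κ * k) (κ * v1) (κ * N1) (κ * Nq) (κ * R1) (κ * R2) (κ * u1) (κ * lqt) (κ * sh)
      (κ * cnt) (κ * tT) (κ * ρ) (κ * f) (κ * g) (κ * σ) (κ * x) (κ * ex) := by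
  have h0 : 0 ≤ κ := by linarith
  obtain ⟨lt, h1, h2, h3, h4, h5, h6, h7, h8⟩ := H
  have g1 := mul_le_mul_of_nonneg_left h1 h0
  have g2 := mul_le_mul_of_nonneg_left h2 h0
  have g3 := mul_le_mul_of_nonneg_left h3 h0
  have g4 := mul_le_mul_of_nonneg_left h4 h0
  have g5 := mul_le_mul_of_nonneg_left h5 h0
  have g6 := mul_le_mul_of_nonneg_left h6 h0
  have g7 := mul_le_mul_of_nonneg_left h7 h0
  have g8 := mul_le_mul_of_nonneg_left h8 h0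
  have e := rr_mul h0 d (Nq + lt - v1 + sh) (Nq - R2) u1
  have e' := rP_mul κ (Nq + lt - v1 + sh) (Nq - R2) σ
  have e1 : κ * (Nq + lt - v1 + sh) = κ * Nq + κ * lt - κ * v1 + κ * sh := by ring
  have e2 : κ * (Nq - R2) = κ * Nq - κ * R2 := by ring
  rw [e1, e2] at e e'
  have e3 := mmax0 κ (v1 - (Nq - R2 + R1)) h0
  have e4 : κ * (v1 - (Nq - R2 + R1)) = κ * v1 - (κ * Nq - κ * R2 + κ * R1) := by ring
  rw [e4] at e3
  refine ⟨κ * lt, by linarith, g2, by linarith, by linarith, by linarith, by linarith, ?_, ?_⟩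
  · rw [e, e3]
    linarith
  · rw [e']
    linarith

/-- the closers of the `x`-side in base `X`, class E (`z` in units of `log K`) -/
def ClXEX (κ₀ : ℝ) (z : Cls) (d N u x ex : ℝ) : Prop :=
  XHB (κ₀ * z.k) (κ₀ * z.v1) (κ₀ * z.d0E N u) (κ₀ * z.c12) (κ₀ * z.s1) x ex ∨
    XLTEX d (κ₀ * z.k) (κ₀ * z.v1) (κ₀ * z.N1 N) (κ₀ * (N - z.β)) (κ₀ * z.R1) (κ₀ * z.R2)
      (κ₀ * u) (κ₀ * z.lqt) (κ₀ * z.sh) (κ₀ * z.cnt) (κ₀ * z.tE N u) (κ₀ * (z.c12 + z.s1))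
      (κ₀ * z.ff N u) (κ₀ * ((z.fF N u + z.ff N u) / 2)) (κ₀ * z.sgR) x ex ∨
    XPV (κ₀ * z.k) (κ₀ * z.v1) (κ₀ * z.lqt) (κ₀ * (z.c12 + z.s1)) (κ₀ * z.ff N u) x ex

/-- **the inequality of class E in base `X`** (`κ₀ = log K / log X`, `z` in units of `log K`) -/
def GoalEX (κ₀ : ℝ) (z : Cls) (d N M u a c T : ℝ) : Prop :=
  ∃ x ex ey κ : ℝ, 0 ≤ x ∧ x ≤ κ₀ * z.c1 c ∧ κ₀ * z.ky - 3 * (κ₀ * z.s1) ≤ κ ∧ κ ≤ κ₀ * z.ky ∧
    ClXEX κ₀ z d N u x ex ∧ ClYX κ₀ z d M a κ (κ₀ * z.c1 c - x) ey ∧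
    κ₀ * (2 / 3 + (z.β + z.al - 2 * z.E - z.F + 2 * z.s + 2 * z.W) +
      (z.tE N u - (z.v + z.us) / 3 - (N - z.β) / 3)) + ex + ey ≤ T

/-- **from base `K` to base `X`**, class E -/
theorem goalEX_of {κ₀ : ℝ} (h : 4 / 5 ≤ κ₀) {z : Cls} {d N M u a c T : ℝ}
    (H : z.GoalE d N M u a c T) : GoalEX κ₀ z d N M u a c (κ₀ * T) := by
  have h0 : 0 ≤ κ₀ := by linarith
  obtain ⟨x, ex, ey, κ, h1, h2, h3, h4, h5, h6, h7⟩ := H
  have g2 := mul_le_mul_of_nonneg_left h2 h0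
  have g3 := mul_le_mul_of_nonneg_left h3 h0
  have g4 := mul_le_mul_of_nonneg_left h4 h0
  have g7 := mul_le_mul_of_nonneg_left h7 h0
  refine ⟨κ₀ * x, κ₀ * ex, κ₀ * ey, κ₀ * κ, mul_nonneg h0 h1, g2, by linarith, g4, ?_, ?_,
    by linarith⟩
  · rcases h5 with h5 | h5 | h5
    · exact Or.inl (XHB_mul h0 h5)
    · exact Or.inr (Or.inl (XLTE_mul h h5))
    · exact Or.inr (Or.inr (XPV_mul h0 h5))
  · have e : κ₀ * z.c1 c - κ₀ * x = κ₀ * (z.c1 c - x) := by ring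
    rw [e]
    rcases h6 with ⟨h6, h8⟩ | ⟨h6, h8⟩ | h6
    · exact Or.inl ⟨h6, YOK_mul h0 h8⟩
    · have := YOK_mul h0 h8
      rw [mul_zero] at this
      exact Or.inr (Or.inl ⟨h6, this⟩)
    · have := mul_le_mul_of_nonneg_left h6 h0
      exact Or.inr (Or.inr (by linarith))

end Crest.Agent.R017.He918
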