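import Crest.Agent.R017.E4Gm_918
import Crest.Agent.R017.E4He_918

/-!
# Row 17, E4 of class E (StrUX): the real side as one theorem (helper918)

* `E4DE`, `E4FE` : the two halves of the real inequality of class E, base `K`
* `E4D0`, `E4D1`, `E4F0`, `E4F1` : the same split at `tb ≤ tT` / `tT ≤ tb`
  (`e4DE_of`, `e4FE_of`)
* `glueDE`, `glueFE`, `termUE` : the twins of `glueD`, `glueF`, `termU`
-/

set_option autoImplicit false

noncomputable section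

namespace Crest.Agent.R017.Ge918

open Crest.Agent.R017.Prov71 Crest.Agent.R017.R8C918 Crest.Agent.R017.E5B71
open Crest.Agent.R017.Bx918 Crest.Agent.R017.E4R70 Crest.Agent.R017.Nm918
open Crest.Agent.R017.Hg918 Crest.Agent.R017.Gl918 Crest.Agent.R017.Gm918
open Crest.Agent.R017.He918

/-- the direct half of the real inequality of class E -/
def E4DE : Prop := ∀ (μ d r N M u a c x : ℝ) (z : Cls), Bx4 μ d r N M u a c x z.v →
  z.Ok d r N M a c x → z.nsw r N M a c → z.rD →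
    z.GoalE d N M u a c (2 + (N + M + a) + c + Al d r (N + M + a) c - 11 / 10 * d)

/-- the dual half of the real inequality of class E -/
def E4FE : Prop := ∀ (μ d r N M u a c x : ℝ) (z : Cls), Bx4 μ d r N M u a c x z.v →
  z.Ok d r N M a c x → z.sw r N M a c → z.rF r N M a c →
    z.GoalE d N M u a c (2 + (N + M + a) + c + Al d r (N + M + a) c - 11 / 10 * d)

/-- direct half, `tb ≤ tT` -/
def E4D0 : Prop := ∀ (μ d r N M u a c x : ℝ) (z : Cls), Bx4 μ d r N M u a c x z.v →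
  z.Ok d r N M a c x → z.nsw r N M a c → z.rD → z.tb N ≤ z.tT N u →
    z.GoalT d N M u a c (z.tT N u)
      (2 + (N + M + a) + c + Al d r (N + M + a) c - 11 / 10 * d)

/-- direct half, `tT ≤ tb` -/
def E4D1 : Prop := ∀ (μ d r N M u a c x : ℝ) (z : Cls), Bx4 μ d r N M u a c x z.v →
  z.Ok d r N M a c x → z.nsw r N M a c → z.rD → z.tT N u ≤ z.tb N →
    z.GoalT d N M u a c (z.tb N)
      (2 + (N + M + a) + c + Al d r (N + M + a) c - 11 / 10 * d)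

/-- dual half, `tb ≤ tT` -/
def E4F0 : Prop := ∀ (μ d r N M u a c x : ℝ) (z : Cls), Bx4 μ d r N M u a c x z.v →
  z.Ok d r N M a c x → z.sw r N M a c → z.rF r N M a c → z.tb N ≤ z.tT N u →
    z.GoalT d N M u a c (z.tT N u)
      (2 + (N + M + a) + c + Al d r (N + M + a) c - 11 / 10 * d)

/-- dual half, `tT ≤ tb` -/
def E4F1 : Prop := ∀ (μ d r N M u a c x : ℝ) (z : Cls), Bx4 μ d r N M u a c x z.v →
  z.Ok d r N M a c x → z.sw r N M a c → z.rF r N M a c → z.tT N u ≤ z.tb N →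
    z.GoalT d N M u a c (z.tb N)
      (2 + (N + M + a) + c + Al d r (N + M + a) c - 11 / 10 * d)

theorem e4DE_of (h0 : E4D0) (h1 : E4D1) : E4DE := fun μ d r N M u a c x z B ok hn hr =>
  Cls.goalE_of_T (fun h => h0 μ d r N M u a c x z B ok hn hr h)
    (fun h => h1 μ d r N M u a c x z B ok hn hr h)

theorem e4FE_of (h0 : E4F0) (h1 : E4F1) : E4FE := fun μ d r N M u a c x z B ok hn hr =>
  Cls.goalE_of_T (fun h => h0 μ d r N M u a c x z B ok hn hr h)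
    (fun h => h1 μ d r N M u a c x z B ok hn hr h)

variable {A d δ : ℝ} {p : Fin 3 ⊕ Fin 5 → ℝ} {w : Kd → ℝ} {r N M u a c x : ℝ} {z : Cls}

section glue
variable (hd : 0 ≤ d) (hd1 : d ≤ 1 / 8) (hA : A ≤ 1) (hA1 : 16 * (1 - A) ≤ d)
  (hS : Sq5 A d p w) {v₀ : ℝ} (hv0 : 0 ≤ v₀) (hv : v₀ ≤ top9 p)
  (hn : Nrm p w r N M u a c x) (hδ : 0 ≤ δ) (hδ1 : 40 * δ ≤ 1)
  (hz : OkT δ z d r N M a c x) (hw : z.v ≤ v₀ / cκ p + δ)

include hd hd1 hA hA1 hS hv0 hv hn hδ hδ1 hz hw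

/-- **the direct half in base `X`**, class E -/
theorem glueDE (H : E4DE)
    (h1 : z.k + z.lam + z.sc ≤ 1 - 2 * z.η - 2 * z.F - 2 * z.b1 - z.b - 3 * z.B + δ)
    (h2 : 1 - z.K1 r N M a c ≤ z.ss + δ) :
    GoalEX (cκ p) (nom (20 * δ) δ (2 * δ) (8 * δ) z) d N M u a c
      (2 * T5 (7 / 8 + d) (p, w) - cκ p * (11 / 10 * d)) := by
  have hκ := hS.κpos
  have hκ0 := hS.κ0
  have B := box hd hd1 hA hA1 hS hv0 hv hn
  have hwin := win_of hκ hn hv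
  obtain ⟨o1, o2⟩ := nom_ok (bG := 8 * δ) B hδ hδ1 hz (by linarith) (by linarith)
  obtain ⟨o3, o4⟩ := nom_D B hδ hδ1 h1 h2
  have G := goalEX_of (κ₀ := cκ p) (by linarith) (H _ _ _ _ _ _ _ _ _ _ o2 o1 o4 o3)
  rw [val_eq hn hκ] at G
  exact G

/-- **the dual half in base `X`**, class E -/
theorem glueFE (H : E4FE)
    (h1 : z.k + z.lam ≤ z.K1 r N M a c + z.us + z.sc + z.η + z.F - 2 * z.b1 - z.b + δ)
    (h2 : z.ss ≤ 1 - z.K1 r N M a c + δ) :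
    GoalEX (cκ p) (nom (20 * δ) δ (2 * δ) 0 z) d N M u a c
      (2 * T5 (7 / 8 + d) (p, w) - cκ p * (11 / 10 * d)) := by
  have hκ := hS.κpos
  have hκ0 := hS.κ0
  have B := box hd hd1 hA hA1 hS hv0 hv hn
  have hwin := win_of hκ hn hv
  obtain ⟨o1, o2⟩ := nom_ok (bG := 0) B hδ hδ1 hz (by linarith) le_rfl
  obtain ⟨o3, o4⟩ := nom_F B hδ hδ1 h1 h2
  have G := goalEX_of (κ₀ := cκ p) (by linarith) (H _ _ _ _ _ _ _ _ _ _ o2 o1 o4 o3)
  rw [val_eq hn hκ] at G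
  exact G

end glue

/-- **the core of `TermUX`** : everything up to `δ` gives an exact near class with closers -/
theorem termUE (HD : E4DE) (HF : E4FE) (hd : 0 ≤ d) (hd1 : d ≤ 1 / 8) (hA : A ≤ 1)
    (hA1 : 16 * (1 - A) ≤ d) (hS : Sq5 A d p w) {v₀ : ℝ} (hv0 : 0 ≤ v₀) (hv : v₀ ≤ top9 p)
    (hn : Nrm p w r N M u a c x) (hδ : 0 ≤ δ) (hδ1 : 40 * δ ≤ 1)
    (hz : OkT δ z d r N M a c x) (hw : z.v ≤ v₀ / cκ p + δ)
    (hr : (z.k + z.lam + z.sc ≤ 1 - 2 * z.η - 2 * z.F - 2 * z.b1 - z.b - 3 * z.B + δ ∧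
        1 - z.K1 r N M a c ≤ z.ss + δ) ∨
      (z.k + z.lam ≤ z.K1 r N M a c + z.us + z.sc + z.η + z.F - 2 * z.b1 - z.b + δ ∧
        z.ss ≤ 1 - z.K1 r N M a c + δ)) :
    ∃ z' : Cls, Near (100 * δ) z z' ∧ z'.Ok d r N M a c x ∧ z'.ky ≤ 1 ∧
      GoalEX (cκ p) z' d N M u a c (2 * T5 (7 / 8 + d) (p, w) - cκ p * (11 / 10 * d)) := by
  have hκ := hS.κpos
  have B := box hd hd1 hA hA1 hS hv0 hv hn
  have hwin := win_of hκ hn hv
  have hw' : z.v ≤ topK N x + δ := by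
    unfold topK
    linarith
  rcases hr with ⟨h1, h2⟩ | ⟨h1, h2⟩
  · obtain ⟨o1, o2⟩ := nom_ok (bG := 8 * δ) B hδ hδ1 hz (by linarith) (by linarith)
    obtain ⟨o3, o4⟩ := nom_D B hδ hδ1 h1 h2
    exact ⟨_, near_nom hδ hz (bnd_D B hδ1 hz hw' h1) (by linarith) le_rfl, o1, ky_D o1 o3,
      glueDE hd hd1 hA hA1 hS hv0 hv hn hδ hδ1 hz hw HD h1 h2⟩
  · obtain ⟨o1, o2⟩ := nom_ok (bG := 0) B hδ hδ1 hz (by linarith) le_rfl
    obtain ⟨o3, o4⟩ := nom_F B hδ hδ1 h1 h2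
    exact ⟨_, near_nom hδ hz (bnd_F B hδ1 hz hw' h1 h2) le_rfl (by linarith), o1,
      ky_F o1 o3 o4, glueFE hd hd1 hA hA1 hS hv0 hv hn hδ hδ1 hz hw HF h1 h2⟩

end Crest.Agent.R017.Ge918
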