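import Crest.Agent.R017.E4Hg_918

/-!
# Row 17, E4 (StrU): the real side as one theorem (helper918)

* `E4D`, `E4F`   : the two halves of the real inequality (helper393, helper45), base `K`
* `glueD`, `glueF` : for an exact configuration `Sq5 A d p w` and a class `z` (units `log K`)
  satisfying everything up to `δ`: the closers at the nominal class `nom .. z`, in base `X`, with
  the value `2 T5 - 11/10 κ d`
* `near_*` : the nominal lengths are close to the true ones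
-/

set_option autoImplicit false

noncomputable section

namespace Crest.Agent.R017.Gl918

open Crest.Agent.R017.Prov71 Crest.Agent.R017.R8C918 Crest.Agent.R017.E5B71
open Crest.Agent.R017.Bx918 Crest.Agent.R017.E4R70 Crest.Agent.R017.Nm918
open Crest.Agent.R017.Hg918

/-- the direct half of the real inequality -/
def E4D : Prop := ∀ (μ d r N M u a c x : ℝ) (z : Cls), Bx4 μ d r N M u a c x z.v →
  z.Ok d r N M a c x → z.nsw r N M a c → z.rD →
    z.Goal d N M u a c (2 + (N + M + a) + c + Al d r (N + M + a) c - 11 / 10 * d)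

/-- the dual half of the real inequality -/
def E4F : Prop := ∀ (μ d r N M u a c x : ℝ) (z : Cls), Bx4 μ d r N M u a c x z.v →
  z.Ok d r N M a c x → z.sw r N M a c → z.rF r N M a c →
    z.Goal d N M u a c (2 + (N + M + a) + c + Al d r (N + M + a) c - 11 / 10 * d)

/-- the normalised box data of a configuration -/
structure Nrm (p : Fin 3 ⊕ Fin 5 → ℝ) (w : Kd → ℝ) (r N M u a c x : ℝ) : Prop where
  r : r = 1 / cκ p
  N : N = cN p / cκ p
  M : M = cM p / cκ p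
  u : u = cu p 4 / cκ p
  a : a = w .mo / cκ p
  c : c = w .am / cκ p
  x : x = cx' p / cκ p

variable {A d δ : ℝ} {p : Fin 3 ⊕ Fin 5 → ℝ} {w : Kd → ℝ} {r N M u a c x : ℝ} {z : Cls}

lemma val_eq (hn : Nrm p w r N M u a c x) (h0 : 0 < cκ p) :
    cκ p * (2 + (N + M + a) + c + Al d r (N + M + a) c - 11 / 10 * d) =
      2 * T5 (7 / 8 + d) (p, w) - cκ p * (11 / 10 * d) := by
  have h := two_T5 (d := d) (q := (p, w)) h0
  rw [h, hn.N, hn.M, hn.a, hn.c, hn.r]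
  ring

lemma win_of (hκ : 0 < cκ p) (hn : Nrm p w r N M u a c x) {v₀ : ℝ} (hv : v₀ ≤ top9 p) :
    v₀ / cκ p ≤ min (2 * N - 1) (3 / 4 * N) + 9 / 4 * x := by
  have e : (min (2 * N - 1) (3 / 4 * N) + 9 / 4 * x) * cκ p = top9 p := by
    unfold top9
    rw [add_mul, min_mul_of_nonneg _ _ hκ.le, hn.N, hn.x]
    congr 1
    · congr 1 <;> field_simp
    · field_simp
  rw [div_le_iff₀ hκ, e]
  exact hv

section glue
variable (hd : 0 ≤ d) (hd1 : d ≤ 1 / 8) (hA : A ≤ 1) (hA1 : 16 * (1 - A) ≤ d)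
  (hS : Sq5 A d p w) {v₀ : ℝ} (hv0 : 0 ≤ v₀) (hv : v₀ ≤ top9 p)
  (hn : Nrm p w r N M u a c x) (hδ : 0 ≤ δ) (hδ1 : 40 * δ ≤ 1)
  (hz : OkT δ z d r N M a c x) (hw : z.v ≤ v₀ / cκ p + δ)

include hd hd1 hA hA1 hS hv0 hv hn

lemma box : Bx4 (1 - A) d r N M u a c x (v₀ / cκ p) := by
  have h := bx4 hd hd1 hA hA1 hS hv0 hv
  rw [← hn.r, ← hn.N, ← hn.M, ← hn.u, ← hn.a, ← hn.c, ← hn.x] at h
  exact h

include hδ hδ1 hz hw

/-- **the direct half in base `X`** -/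
theorem glueD (H : E4D)
    (h1 : z.k + z.lam + z.sc ≤ 1 - 2 * z.η - 2 * z.F - 2 * z.b1 - z.b - 3 * z.B + δ)
    (h2 : 1 - z.K1 r N M a c ≤ z.ss + δ) :
    GoalX (cκ p) (nom (20 * δ) δ (2 * δ) (8 * δ) z) d N M u a c
      (2 * T5 (7 / 8 + d) (p, w) - cκ p * (11 / 10 * d)) := by
  have hκ := hS.κpos
  have hκ0 := hS.κ0
  have B := box hd hd1 hA hA1 hS hv0 hv hn
  have hwin := win_of hκ hn hv
  obtain ⟨o1, o2⟩ := nom_ok (bG := 8 * δ) B hδ hδ1 hz (by linarith) (by linarith)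
  obtain ⟨o3, o4⟩ := nom_D B hδ hδ1 h1 h2
  have G := goalX_of (κ₀ := cκ p) (by linarith) (H _ _ _ _ _ _ _ _ _ _ o2 o1 o4 o3)
  rw [val_eq hn hκ] at G
  exact G

/-- **the dual half in base `X`** -/
theorem glueF (H : E4F)
    (h1 : z.k + z.lam ≤ z.K1 r N M a c + z.us + z.sc + z.η + z.F - 2 * z.b1 - z.b + δ)
    (h2 : z.ss ≤ 1 - z.K1 r N M a c + δ) :
    GoalX (cκ p) (nom (20 * δ) δ (2 * δ) 0 z) d N M u a c
      (2 * T5 (7 / 8 + d) (p, w) - cκ p * (11 / 10 * d)) := by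
  have hκ := hS.κpos
  have hκ0 := hS.κ0
  have B := box hd hd1 hA hA1 hS hv0 hv hn
  have hwin := win_of hκ hn hv
  obtain ⟨o1, o2⟩ := nom_ok (bG := 0) B hδ hδ1 hz (by linarith) le_rfl
  obtain ⟨o3, o4⟩ := nom_F B hδ hδ1 h1 h2
  have G := goalX_of (κ₀ := cκ p) (by linarith) (H _ _ _ _ _ _ _ _ _ _ o2 o1 o4 o3)
  rw [val_eq hn hκ] at G
  exact G

end glue

/-- the loss `2/3 d N1` of the `T`-number (743 (B)) fits : `2 T5 - 4/9 d` is left -/
theorem loss_ok {κ₀ d N1 T : ℝ} (hd : 0 ≤ d) (hκ : 8 / 9 ≤ κ₀) (hN : 103 * N1 ≤ 84) :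
    (T - κ₀ * (11 / 10 * d)) + κ₀ * (2 / 3 * d * N1) ≤ T - 4 / 9 * d := by
  have h1 : d * N1 ≤ d * (84 / 103) := mul_le_mul_of_nonneg_left (by linarith) hd
  have h2 : κ₀ * (2 / 3 * (d * N1)) ≤ κ₀ * (2 / 3 * (d * (84 / 103))) :=
    mul_le_mul_of_nonneg_left (by linarith) (by linarith)
  have h3 : 8 / 9 * d ≤ κ₀ * d := mul_le_mul_of_nonneg_right hκ hd
  nlinarith

end Crest.Agent.R017.Gl918
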