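import Crest.Agent.R017.E4Gl_918

/-!
# Row 17, E4 (StrU): the core of `TermU` (helper918)

* `bnd_D`, `bnd_F` : the fields of a class are `≤ 4`
* `ky_D`, `ky_F` : the frequency of the `y`-side is `≤ 1`
* `termU` : from an exact configuration and a class satisfying everything up to `δ`, the nominal
  class `z'` with the closers in base `X`
-/

set_option autoImplicit false

noncomputable section

namespace Crest.Agent.R017.Gm918

open Crest.Agent.R017.Prov71 Crest.Agent.R017.R8C918 Crest.Agent.R017.E5B71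
open Crest.Agent.R017.Bx918 Crest.Agent.R017.E4R70 Crest.Agent.R017.Nm918
open Crest.Agent.R017.Hg918 Crest.Agent.R017.Gl918

variable {μ d r N M u a c x v δ : ℝ} {z : Cls}

lemma box_bd (B : Bx4 μ d r N M u a c x v) : x ≤ 1 / 36 ∧ topK N x ≤ 1 ∧ N ≤ 1 ∧ c ≤ 1 / 2 ∧
    M + a ≤ 1 ∧ 0 ≤ r - (N + M + a) + c ∧ r - (N + M + a) + c ≤ 1 := by
  have h1 := B.D
  have h2 := B.cr
  have h3 := B.r28
  have h4 := B.N34
  have h5 := B.N84
  have h6 := B.q43
  have h7 := B.MN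
  have h8 := B.a0
  have h9 := B.d0
  have h10 : x ≤ 1 / 36 := by
    rcases B.shr with h | ⟨h, -, -⟩ <;> linarith
  have h11 := min_le_right (2 * N - 1) (3 / 4 * N)
  refine ⟨h10, ?_, by linarith, by linarith, by linarith, by linarith, by linarith⟩
  unfold topK
  linarith

set_option maxHeartbeats 1000000 in
/-- **the fields are bounded**, from one range line -/
lemma bnd_of (B : Bx4 μ d r N M u a c x v) (hδ1 : 40 * δ ≤ 1)
    (h : OkT δ z d r N M a c x) (hw : z.v ≤ topK N x + δ)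
    (hl : z.k + z.lam + z.sc + z.b + 2 * z.b1 ≤ 3 / 2)
    (hs : 3 * (z.η + z.B + z.F) ≤ 2) : Bnd z := by
  obtain ⟨b1, b2, b3, b4, b5, b6, b7⟩ := box_bd B
  have p0 := h.v
  have p1 := h.k
  have p2 := h.η
  have p3 := h.b1
  have p4 := h.F
  have p5 := h.β
  have p6 := h.s
  have p7 := h.G
  have p8 := h.Y0
  have p9 := h.Y1
  have p10 := h.W
  have p11 := h.c02
  have p12 := h.c12
  have p13 := h.nu
  have p14 := h.al
  have p15 := h.B
  have p16 := h.b
  have p17 := h.tau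
  have p18 := h.lq
  have p19 := h.R1
  have p20 := h.R2
  have p21 := h.l
  have p22 := h.m1
  have p23 := h.m2
  have p24 := h.E
  have p25 := h.zm
  have p26 := h.sW
  have p27 := h.sc
  have p28 := h.s1
  have p29 := h.sWs
  have e1 := h.h64
  have e2 := h.hβ
  have e3 := h.hv
  have e4 := h.hc
  have e5 := h.hm
  have e6 := h.hf
  have e7 := h.s1k
  have e8 := h.F1
  have e9 := h.F2
  have e10 := h.F4
  simp only [Cls.lam, Cls.s0] at hl
  simp only [Cls.v1] at e3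
  simp only [Cls.c1] at e4
  simp only [Cls.m] at e5
  refine ⟨?_, ?_, ?_, ?_, ?_, ?_, ?_, ?_, ?_, ?_, ?_, ?_, ?_, ?_, ?_, ?_, ?_, ?_, ?_, ?_, ?_, ?_, ?_, ?_, ?_, ?_, ?_, ?_, ?_⟩ <;> linarith

lemma bnd_D (B : Bx4 μ d r N M u a c x v) (hδ1 : 40 * δ ≤ 1)
    (h : OkT δ z d r N M a c x) (hw : z.v ≤ topK N x + δ)
    (h1 : z.k + z.lam + z.sc ≤ 1 - 2 * z.η - 2 * z.F - 2 * z.b1 - z.b - 3 * z.B + δ) : Bnd z := by
  have p1 := h.k
  have p2 := h.η
  have p3 := h.b1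
  have p4 := h.F
  have p15 := h.B
  have p16 := h.b
  have p27 := h.sc
  have hl : 0 ≤ z.lam := by
    have := h.G
    have := h.sWs
    have := h.Y0
    have := h.Y1
    have := h.c02
    have := h.c12
    have := h.W
    have := h.sW
    have := h.nu
    unfold Cls.lam Cls.s0
    linarith
  exact bnd_of B hδ1 h hw (by linarith) (by linarith)

lemma bnd_F (B : Bx4 μ d r N M u a c x v) (hδ1 : 40 * δ ≤ 1)
    (h : OkT δ z d r N M a c x) (hw : z.v ≤ topK N x + δ)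
    (h1 : z.k + z.lam ≤ z.K1 r N M a c + z.us + z.sc + z.η + z.F - 2 * z.b1 - z.b + δ)
    (h2 : z.ss ≤ 1 - z.K1 r N M a c + δ) : Bnd z := by
  obtain ⟨k0, k1⟩ := K0_bd B
  have hK := K1_eq z r N M a c
  have p0 := h.v
  have p2 := h.η
  have p3 := h.b1
  have p4 := h.F
  have p5 := h.β
  have p10 := h.W
  have p15 := h.B
  have p16 := h.b
  have p26 := h.sW
  have p27 := h.sc
  have hu : 0 ≤ z.us := by
    have := h.G
    have := h.sWs
    have := h.Y0
    have := h.Y1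
    have := h.c12
    unfold Cls.us Cls.s0
    linarith
  unfold Cls.ss at h2
  exact bnd_of B hδ1 h hw (by linarith) (by linarith)

/-- the `y`-frequency is at most the family (direct range) -/
lemma ky_D (h : z.Ok d r N M a c x) (h1 : z.rD) : z.ky ≤ 1 := by
  have p1 := h.F2
  have p2 := h.m1
  have p3 := h.W
  have p4 := h.sW
  have p5 := h.sc
  unfold Cls.rD at h1
  unfold Cls.ky
  linarith

/-- the `y`-frequency is at most the family (dual range) -/
lemma ky_F (h : z.Ok d r N M a c x) (h1 : z.rF r N M a c) (h2 : z.sw r N M a c) : z.ky ≤ 1 := by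
  have p1 := h.F2
  have p2 := h.m1
  have p3 := h.W
  have p4 := h.sW
  have p5 := h.sc
  have p6 := h.B
  have p7 := h.η
  have p8 := h.F
  unfold Cls.rF at h1
  unfold Cls.sw Cls.ss at h2
  unfold Cls.ky
  linarith

variable {A : ℝ} {p : Fin 3 ⊕ Fin 5 → ℝ} {w : Kd → ℝ}

/-- **the core of `TermU`** : everything up to `δ` gives an exact near class with closers -/
theorem termU (HD : E4D) (HF : E4F) (hd : 0 ≤ d) (hd1 : d ≤ 1 / 8) (hA : A ≤ 1)
    (hA1 : 16 * (1 - A) ≤ d) (hS : Sq5 A d p w) {v₀ : ℝ} (hv0 : 0 ≤ v₀) (hv : v₀ ≤ top9 p)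
    (hn : Nrm p w r N M u a c x) (hδ : 0 ≤ δ) (hδ1 : 40 * δ ≤ 1)
    (hz : OkT δ z d r N M a c x) (hw : z.v ≤ v₀ / cκ p + δ)
    (hr : (z.k + z.lam + z.sc ≤ 1 - 2 * z.η - 2 * z.F - 2 * z.b1 - z.b - 3 * z.B + δ ∧
        1 - z.K1 r N M a c ≤ z.ss + δ) ∨
      (z.k + z.lam ≤ z.K1 r N M a c + z.us + z.sc + z.η + z.F - 2 * z.b1 - z.b + δ ∧
        z.ss ≤ 1 - z.K1 r N M a c + δ)) :
    ∃ z' : Cls, Near (100 * δ) z z' ∧ z'.Ok d r N M a c x ∧ z'.ky ≤ 1 ∧
      GoalX (cκ p) z' d N M u a c (2 * T5 (7 / 8 + d) (p, w) - cκ p * (11 / 10 * d)) := by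
  have hκ := hS.κpos
  have B := box hd hd1 hA hA1 hS hv0 hv hn
  have hwin := win_of hκ hn hv
  have hw' : z.v ≤ topK N x + δ := by
    unfold topK
    linarith
  rcases hr with ⟨h1, h2⟩ | ⟨h1, h2⟩
  · obtain ⟨o1, o2⟩ := nom_ok (bG := 8 * δ) B hδ hδ1 hz (by linarith) (by linarith)
    obtain ⟨o3, o4⟩ := nom_D B hδ hδ1 h1 h2
    exact ⟨_, near_nom hδ hz (bnd_D B hδ1 hz hw' h1) (by linarith) le_rfl, o1, ky_D o1 o3,
      glueD hd hd1 hA hA1 hS hv0 hv hn hδ hδ1 hz hw HD h1 h2⟩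
  · obtain ⟨o1, o2⟩ := nom_ok (bG := 0) B hδ hδ1 hz (by linarith) le_rfl
    obtain ⟨o3, o4⟩ := nom_F B hδ hδ1 h1 h2
    exact ⟨_, near_nom hδ hz (bnd_F B hδ1 hz hw' h1 h2) le_rfl (by linarith), o1,
      ky_F o1 o3 o4, glueF hd hd1 hA hA1 hS hv0 hv hn hδ hδ1 hz hw HF h1 h2⟩

end Crest.Agent.R017.Gm918
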