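import Crest.Agent.R017.YW_61

/-!
# Row 17: closed forms of the `y`-side when the marked lumps are eaten up (helper61)

* `GoodYM d κ M q c y e` : `GoodY` at `(M, q)`, or at `(0, M + q)` (the unmarked mass of a child is
  at most the total length `M + q`; of use when `M < 0`), with any `Y ≥ min (M + y) (M + q)` in the
  place of the largest shortening
-/

set_option autoImplicit false

namespace Crest.Agent.R017.YU61

open Crest.Agent.R017.YM61

/-- `GoodY` at `(M, q)` or at `(0, M + q)` -/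
def GoodYM (d κ M q c y e : ℝ) : Prop :=
  GoodY d κ M q c y e ∨
    ∃ Y : ℝ, 0 ≤ Y ∧ (M + y ≤ Y ∨ M + q ≤ Y) ∧ GoodY d κ 0 (max 0 (M + q)) c Y e

variable {d κ M q c y e : ℝ}

theorem GoodY.toM (h : GoodY d κ M q c y e) : GoodYM d κ M q c y e := Or.inl h

/-- `GoodY` at `(0, M + q)`, `0 ≤ M + q` -/
theorem GoodYM_of_neg (h0 : 0 ≤ M + q) (h : GoodY d κ 0 (M + q) c (M + q) e) :
    GoodYM d κ M q c y e :=
  Or.inr ⟨M + q, h0, Or.inr le_rfl, by rwa [max_eq_right h0]⟩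

/-- `GoodY` at `(0, max 0 (M + q))` -/
theorem GoodYM_of_max (h : GoodY d κ 0 (max 0 (M + q)) c (max 0 (M + q)) e) :
    GoodYM d κ M q c y e :=
  Or.inr ⟨_, le_max_left _ _, Or.inr (le_max_right _ _), h⟩

/-- `GoodY` at `(0, M + q)` with `Y = M + y` (the length of the lumps before the shortening) -/
theorem GoodYM_of_neg' (h0 : 0 ≤ M + q) (hy : 0 ≤ M + y)
    (h : GoodY d κ 0 (M + q) c (M + y) e) : GoodYM d κ M q c y e :=
  Or.inr ⟨M + y, hy, Or.inl le_rfl, by rwa [max_eq_right h0]⟩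

/-- `GoodY` is nondecreasing in the bound -/
theorem GoodY.mono {e' : ℝ} (h : GoodY d κ M q c y e) (he : e ≤ e') : GoodY d κ M q c y e' := by
  obtain ⟨h1, h2⟩ := h
  refine ⟨h1.trans he, ?_⟩
  rcases h2 with h2 | ⟨h2, h3, h4⟩ | h2 | ⟨h2, h3⟩
  · exact Or.inl (h2.trans he)
  · exact Or.inr (Or.inl ⟨h2.trans he, h3, h4⟩)
  · exact Or.inr (Or.inr (Or.inl (h2.trans he)))
  · exact Or.inr (Or.inr (Or.inr ⟨h2.trans he, h3.trans he⟩))

/-- `GoodYM` is nondecreasing in the bound -/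
theorem GoodYM.mono {e' : ℝ} (h : GoodYM d κ M q c y e) (he : e ≤ e') :
    GoodYM d κ M q c y e' := by
  rcases h with h | ⟨Y, h0, h1, h2⟩
  · exact Or.inl (h.mono he)
  · exact Or.inr ⟨Y, h0, h1, h2.mono he⟩

end Crest.Agent.R017.YU61
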