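import Crest.Agent.R017.E4Hg_918
import Crest.Agent.R017.YX_61

/-!
# Row 17, E4 (StrU): the closers of the `y`-side as helper61's `GoodYM` (helper918)
-/

set_option autoImplicit false

noncomputable section

namespace Crest.Agent.R017.Gy918

open Crest.Agent.R017.E4R70 Crest.Agent.R017.Hg918

/-- **`ClYX` gives helper61's closed forms** (any largest shortening `y`) or the trivial bound -/
theorem clY_good {κ₀ : ℝ} (h0 : 0 ≤ κ₀) {z : Cls} {d M a κ w ey : ℝ} (hM : 0 ≤ a + z.M1 M)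
    (h : ClYX κ₀ z d M a κ w ey) (y : ℝ) :
    YU61.GoodYM d κ (κ₀ * z.M1 M) (κ₀ * a) w y ey ∨
      κ₀ * z.kt + 2 * (κ₀ * z.M1 M + κ₀ * a + w) ≤ ey := by
  rcases h with ⟨-, h⟩ | ⟨-, h⟩ | h
  · exact Or.inl (YU61.GoodY.toM (YOK.good h y))
  · refine Or.inl (YU61.GoodYM_of_neg ?_ ?_)
    · have := mul_nonneg h0 hM
      linarith
    · have e : κ₀ * z.M1 M + κ₀ * a = κ₀ * (a + z.M1 M) := by ring
      rw [e]
      exact YOK.good h _
  · exact Or.inr h

/-- `0 ≤ a + M1` for an exact class -/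
lemma M1_nonneg {z : Cls} {d r N M a c x : ℝ} (h : z.Ok d r N M a c x) : 0 ≤ a + z.M1 M := by
  have := h.hm
  unfold Cls.M1
  linarith

end Crest.Agent.R017.Gy918
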