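import Crest.Agent.R017.E4v5_47

/-!
# Row 17, C70/E4, joint form (helper47): block hypotheses from second moments

* `XMo`, `YMo` : second moments of the two sides over the block
* `PBo_le` : `PBo ≤ κ^(-1/2) √XMo √YMo`
* `hp5_of`, `hpd_of2` : `HP5`, `HPd` from bounds for the second moments
* `PBo_le_split` : version where the `y`-side is a finite sum of products
-/

set_option autoImplicit false
set_option linter.unusedVariables false
set_option linter.unusedSectionVars false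

noncomputable section

open Complex
open scoped ComplexConjugate

namespace Crest.Agent.R017.E4v5

open Crest.Agent.R012 Crest.Agent.R012.Eis Crest.Agent.R012.Mob705 Crest.Agent.R012.Gauss880
open Crest.Agent.R012.Div277
open Crest.Agent.R017.Sx545 Crest.Agent.R017.CM106 Crest.Agent.R017.C70 Crest.Agent.R017.C590
open Crest.Agent.R017.B770 Crest.Agent.R017.Sx440
open Crest.Agent.R017.E2440 Crest.Agent.R017.E4352

open Classical in
/-- the block of cube-free `d`, `κ < nm d ≤ 2κ` -/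
def blk (M : Eis) (κ : ℝ) : Finset Eis :=
  (primBall ⌊2 * κ⌋₊).filter (fun d => Sm M d ∧ CbF d ∧ κ < nm d)

/-- second moment of `F i d` over the blocks `κ / lam i` -/
def Mo2 (M : Eis) {I : Type} [Fintype I] (lam : I → ℝ) (κ : ℝ) (F : I → Eis → ℂ) : ℝ :=
  ∑ i, ∑ d ∈ blk M (κ / lam i), ‖F i d‖ ^ 2

lemma Mo2_nonneg {M : Eis} {I : Type} [Fintype I] {lam : I → ℝ} {κ : ℝ} {F : I → Eis → ℂ} :
    0 ≤ Mo2 M lam κ F :=
  Finset.sum_nonneg fun _ _ => Finset.sum_nonneg fun _ _ => by positivity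

section

variable {M : Eis} {I : Type} [Fintype I] {lam : I → ℝ} {κ : ℝ}

/-- Cauchy over the blocks -/
lemma cauchy_blk (hlam : ∀ i, 0 < lam i) (hκ : 0 < κ) (F G : I → Eis → ℂ) :
    ∑ i, (lam i) ^ (-(1 / 2) : ℝ) * ∑ d ∈ blk M (κ / lam i),
      (nm d : ℝ) ^ (-(1 / 2) : ℝ) * (‖F i d‖ * ‖G i d‖) ≤
      κ ^ (-(1 / 2) : ℝ) * (Real.sqrt (Mo2 M lam κ F) * Real.sqrt (Mo2 M lam κ G)) := by
  classical
  have h1 : ∀ i, (lam i) ^ (-(1 / 2) : ℝ) * ∑ d ∈ blk M (κ / lam i),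
      (nm d : ℝ) ^ (-(1 / 2) : ℝ) * (‖F i d‖ * ‖G i d‖) ≤
      κ ^ (-(1 / 2) : ℝ) * ∑ d ∈ blk M (κ / lam i), ‖F i d‖ * ‖G i d‖ := by
    intro i
    have hl := hlam i
    have e1 : κ ^ (-(1 / 2) : ℝ) = (lam i) ^ (-(1 / 2) : ℝ) * (κ / lam i) ^ (-(1 / 2) : ℝ) := by
      rw [← Real.mul_rpow hl.le (by positivity), mul_div_cancel₀ _ hl.ne']
    rw [e1, mul_assoc]
    refine mul_le_mul_of_nonneg_left ?_ (Real.rpow_nonneg hl.le _)
    rw [Finset.mul_sum]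
    refine Finset.sum_le_sum fun d hd => ?_
    unfold blk at hd
    rw [Finset.mem_filter] at hd
    refine mul_le_mul_of_nonneg_right ?_ (by positivity)
    exact Real.rpow_le_rpow_of_nonpos (by positivity) hd.2.2.2.le (by norm_num)
  refine (Finset.sum_le_sum fun i _ => h1 i).trans ?_
  rw [← Finset.mul_sum]
  refine mul_le_mul_of_nonneg_left ?_ (Real.rpow_nonneg hκ.le _)
  rw [Finset.sum_sigma' Finset.univ (fun i => blk M (κ / lam i))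
    (fun i d => ‖F i d‖ * ‖G i d‖)]
  rw [← Real.sqrt_mul Mo2_nonneg]
  apply Real.le_sqrt_of_sq_le
  unfold Mo2
  rw [Finset.sum_sigma' Finset.univ (fun i => blk M (κ / lam i)) (fun i d => ‖F i d‖ ^ 2),
    Finset.sum_sigma' Finset.univ (fun i => blk M (κ / lam i)) (fun i d => ‖G i d‖ ^ 2)]
  exact Finset.sum_mul_sq_le_sq_mul_sq _ _ _

/-- **the block from second moments** -/
theorem PBo_le (hlam : ∀ i, 0 < lam i) (hκ : 0 < κ) (q R Z : Eis) (g : Eis → ℂ)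
    (v w : I → Eis → ℂ) :
    PBo M lam q R Z g v w κ ≤ κ ^ (-(1 / 2) : ℝ) *
      (Real.sqrt (Mo2 M lam κ (fun i => Sd (tws R q g (v i)))) *
        Real.sqrt (Mo2 M lam κ (fun i => CS (tws Z q g (w i))))) := by
  classical
  refine le_trans (le_of_eq ?_) (cauchy_blk hlam hκ _ _)
  unfold PBo PB blk
  refine Finset.sum_congr rfl fun i _ => ?_
  congr 1
  refine Finset.sum_congr rfl fun d _ => ?_
  ring

/-- version with a splitting of the `y`-side -/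
theorem PBo_le_split (hlam : ∀ i, 0 < lam i) (hκ : 0 < κ) (q R Z : Eis) (g : Eis → ℂ)
    (v w : I → Eis → ℂ) {T : Type} (s : Finset T) (b c : T → I → Eis → ℂ)
    (h : ∀ i, ∀ d ∈ blk M (κ / lam i), CS (tws Z q g (w i)) d = ∑ t ∈ s, b t i d * c t i d) :
    PBo M lam q R Z g v w κ ≤ κ ^ (-(1 / 2) : ℝ) * ∑ t ∈ s,
      (Real.sqrt (Mo2 M lam κ (fun i d => Sd (tws R q g (v i)) d * c t i d)) *
        Real.sqrt (Mo2 M lam κ (b t))) := by
  classical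
  have h1 : PBo M lam q R Z g v w κ ≤ ∑ t ∈ s, ∑ i, (lam i) ^ (-(1 / 2) : ℝ) *
      ∑ d ∈ blk M (κ / lam i), (nm d : ℝ) ^ (-(1 / 2) : ℝ) *
        (‖Sd (tws R q g (v i)) d * c t i d‖ * ‖b t i d‖) := by
    rw [Finset.sum_comm]
    unfold PBo PB
    refine Finset.sum_le_sum fun i _ => ?_
    have hl := (hlam i).le
    rw [← Finset.mul_sum]
    refine mul_le_mul_of_nonneg_left ?_ (Real.rpow_nonneg hl _)
    rw [Finset.sum_comm]
    refine Finset.sum_le_sum fun d hd => ?_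
    rw [h i d hd]
    have h2 : ‖∑ t ∈ s, b t i d * c t i d‖ ≤ ∑ t ∈ s, ‖b t i d‖ * ‖c t i d‖ :=
      (norm_sum_le _ _).trans (Finset.sum_le_sum fun t _ => (norm_mul _ _).le)
    have h3 : (0 : ℝ) ≤ (nm d : ℝ) ^ (-(1 / 2) : ℝ) := by positivity
    calc (nm d : ℝ) ^ (-(1 / 2) : ℝ) * ‖Sd (tws R q g (v i)) d‖ * ‖∑ t ∈ s, b t i d * c t i d‖
        ≤ (nm d : ℝ) ^ (-(1 / 2) : ℝ) * ‖Sd (tws R q g (v i)) d‖ *
          ∑ t ∈ s, ‖b t i d‖ * ‖c t i d‖ := by gcongr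
      _ = ∑ t ∈ s, (nm d : ℝ) ^ (-(1 / 2) : ℝ) *
          (‖Sd (tws R q g (v i)) d * c t i d‖ * ‖b t i d‖) := by
          rw [Finset.mul_sum]
          refine Finset.sum_congr rfl fun t _ => ?_
          rw [norm_mul]
          ring
  refine h1.trans ?_
  rw [Finset.mul_sum]
  exact Finset.sum_le_sum fun t _ => cauchy_blk hlam hκ _ _

end

section

variable {M f : Eis} {O : Type} [Fintype O] {lam : O → ℝ} {v w : O → Eis → ℂ}

lemma lamD_pos {𝒟 : Finset Eis} {a : ℝ} (hlam : ∀ o, 0 < lam o) (ha : 0 < a)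
    (h𝒟 : ∀ d ∈ 𝒟, a ≤ nm d) (i : O × {d : Eis // d ∈ 𝒟}) : 0 < lamD (𝒟 := 𝒟) a lam i := by
  unfold lamD
  have h1 : (0 : ℝ) < nm i.2.1 := lt_of_lt_of_le ha (h𝒟 _ i.2.2)
  have h2 := hlam i.1
  positivity

/-- **`HP5` from second moments** -/
theorem hp5_of {M' : Eis} {j : ℤ} {A : ℝ} (hlam : ∀ o, 0 < lam o) {RX : ℝ → ℝ → ℝ → ℝ}
    {RY : ℝ → ℝ → ℝ → ℝ}
    (hX : ∀ (q R Z : Eis) (g : Eis → ℂ) (ξ κ a : ℝ) (𝒟 : Finset Eis), Sm M q → PrI q R → PrI q Z →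
      (∀ p : Eis, Prime p → p ∣ q → p ∣ f * R * Z) → TwC M' j q ξ g → 0 < κ → 1 ≤ a →
      DSet M q f a 𝒟 → Mo2 M (lamD (𝒟 := 𝒟) a lam) κ (fun i => Sd (tws R q g (vF v i))) ≤
        (1 + |ξ|) ^ A * RX κ a (nm (rd Z)))
    (hY : ∀ (q R Z : Eis) (g : Eis → ℂ) (ξ κ a : ℝ) (𝒟 : Finset Eis), Sm M q → PrI q R → PrI q Z →
      (∀ p : Eis, Prime p → p ∣ q → p ∣ f * R * Z) → TwC M' j q ξ g → 0 < κ → 1 ≤ a →
      DSet M q f a 𝒟 → Mo2 M (lamD (𝒟 := 𝒟) a lam) κ (fun i => CS (tws Z q g (wF w i))) ≤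
        (1 + |ξ|) ^ A * RY κ a (nm (rd Z))) :
    HP5 M f M' j A lam v w (fun κ a z => κ ^ (-(1 / 2) : ℝ) *
      (Real.sqrt (RX κ a z) * Real.sqrt (RY κ a z))) := by
  intro q R Z g ξ κ a 𝒟 hq hR hZ hp hg hκ ha hD
  have h1 := PBo_le (M := M) (lamD_pos (lam := lam) hlam (by linarith) (fun d hd => (hD d hd).2.2.2.2.1))
    hκ q R Z g (vF v) (wF w)
  refine h1.trans ?_
  have hx := hX q R Z g ξ κ a 𝒟 hq hR hZ hp hg hκ ha hD
  have hy := hY q R Z g ξ κ a 𝒟 hq hR hZ hp hg hκ ha hD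
  have hw : 0 ≤ (1 + |ξ|) ^ A := Real.rpow_nonneg (by positivity) _
  have e1 : Real.sqrt ((1 + |ξ|) ^ A * RX κ a (nm (rd Z))) =
      Real.sqrt ((1 + |ξ|) ^ A) * Real.sqrt (RX κ a (nm (rd Z))) := Real.sqrt_mul hw _
  have e2 : Real.sqrt ((1 + |ξ|) ^ A * RY κ a (nm (rd Z))) =
      Real.sqrt ((1 + |ξ|) ^ A) * Real.sqrt (RY κ a (nm (rd Z))) := Real.sqrt_mul hw _
  have hx' := Real.sqrt_le_sqrt hx
  have hy' := Real.sqrt_le_sqrt hy
  rw [e1] at hx'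
  rw [e2] at hy'
  have hs : Real.sqrt ((1 + |ξ|) ^ A) * Real.sqrt ((1 + |ξ|) ^ A) = (1 + |ξ|) ^ A :=
    Real.mul_self_sqrt hw
  calc κ ^ (-(1 / 2) : ℝ) *
      (Real.sqrt (Mo2 M (lamD (𝒟 := 𝒟) a lam) κ (fun i => Sd (tws R q g (vF v i)))) *
        Real.sqrt (Mo2 M (lamD (𝒟 := 𝒟) a lam) κ (fun i => CS (tws Z q g (wF w i)))))
      ≤ κ ^ (-(1 / 2) : ℝ) * ((Real.sqrt ((1 + |ξ|) ^ A) * Real.sqrt (RX κ a (nm (rd Z)))) *
        (Real.sqrt ((1 + |ξ|) ^ A) * Real.sqrt (RY κ a (nm (rd Z))))) := by gcongr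
    _ = (Real.sqrt ((1 + |ξ|) ^ A) * Real.sqrt ((1 + |ξ|) ^ A)) * (κ ^ (-(1 / 2) : ℝ) *
        (Real.sqrt (RX κ a (nm (rd Z))) * Real.sqrt (RY κ a (nm (rd Z))))) := by ring
    _ = _ := by rw [hs]

end

end Crest.Agent.R017.E4v5
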