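import Crest.Agent.R017.E4d_579
import Crest.Agent.R017.E3D_579

/-!
# Row 17, block C70, leaf E4 (helper681): the structured side of the dual sums

The index set of the structured side is `(δ, r)`, frequency `x = r (t δ²)`, coefficient
`e δ * (sy (q δ) r * uS (W δ) (R δ) (B δ) r)` (579's structured sequences).

* `XP_eq` : `XP` (579) as `∑_δ c_δ sy (y δ) d * CS (V δ) d`, `V δ` again a twisted structured
  sequence (extra symbol `b`, dilation `ρ`)
* `XP_sq_le` : classes of the `b`-part of `δ`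
-/

set_option autoImplicit false
set_option linter.unusedVariables false
set_option linter.unusedSectionVars false

noncomputable section

open Complex Finset
open scoped ComplexConjugate

namespace Crest.Agent.R017.E4x681

open Crest.Agent.R012 Crest.Agent.R012.Eis
open Crest.Agent.R012.Mob705
open Crest.Agent.R017.CM106 (CS TG FS)
open Crest.Agent.R017.PX764 (n6)
open Crest.Agent.R017.E4579
open Crest.Agent.R017.E3D579 (uS bt cK uS_mul uS_supp sy_mulR n6_nonneg norm_cK_le)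
open Gauss880 (syG)

lemma recip {a b : Eis} (ha : IsPrim a) (hb : IsPrim b) : sy a b = sy b a := syG.recip a b ha hb

/-! ### the inner sum -/

open Classical in
lemma inner_eq {b ρ d : Eis} (hb : IsPrim b) (hρ : IsPrim ρ) (hs : SupB ρ b) (f : Eis → ℂ)
    (hf : ∀ r, f r ≠ 0 → IsPrim r) :
    ∑' r : Eis, (if IsPrim r ∧ bpt b r = ρ then f r * (sy (bco b r) b * sy r d) else 0) =
      ∑' μ : Eis, f (ρ * μ) * (sy μ b * sy (ρ * μ) d) := by
  have hinj : Function.Injective (fun μ : Eis => ρ * μ) := fun x y h =>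
    mul_left_cancel₀ hρ.ne_zero h
  rw [← hinj.tsum_eq (f := fun r => if IsPrim r ∧ bpt b r = ρ then
    f r * (sy (bco b r) b * sy r d) else 0)]
  · refine tsum_congr fun μ => ?_
    by_cases h0 : f (ρ * μ) = 0
    · simp [h0]
    have hr : IsPrim (ρ * μ) := hf _ h0
    have hμ : IsPrim μ := hr.of_mul_left hρ
    by_cases hc : IsCoprime μ b
    · have h1 := bpt_eq hb hρ hμ hs hc
      rw [if_pos ⟨hr, h1.1⟩, h1.2]
    · have h2 : sy μ b = 0 := (syG.eq_zero μ b hb).mpr hc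
      rw [h2, zero_mul, mul_zero]
      rw [if_neg]
      rintro ⟨-, h3⟩
      apply hc
      have h4 := bpt_mul_bco hb hr
      rw [h3] at h4
      have h5 : bco b (ρ * μ) = μ := mul_left_cancel₀ hρ.ne_zero h4
      rw [← h5]
      exact bco_cop hb hr
  · intro r hr
    rw [Function.mem_support] at hr
    split_ifs at hr with h
    · refine ⟨bco b r, ?_⟩
      have := bpt_mul_bco hb h.1
      rw [h.2] at this
      exact this
    · exact absurd rfl hr

/-- the new sequence -/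
def Vd (b ρ q : Eis) (W : ℝ → ℂ) (R : Eis) (B : Eis → ℂ) (μ : Eis) : ℂ :=
  sy (q * b) μ * uS (fun z => W ((nm ρ : ℝ) * z)) (R * ρ) (bt ρ B) μ

lemma inner_eq' {b ρ d : Eis} (hb : IsPrim b) (hρ : IsPrim ρ) (hs : SupB ρ b) (hd : IsPrim d)
    (q : Eis) (W : ℝ → ℂ) (R : Eis) {B : Eis → ℂ} (hB : FS B) :
    ∑' μ : Eis, (sy q (ρ * μ) * uS W R B (ρ * μ)) * (sy μ b * sy (ρ * μ) d) =
      (sy q ρ * cK R ρ * sy ρ d) * CS (Vd b ρ q W R B) d := by
  unfold CS
  rw [← tsum_mul_left]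
  refine tsum_congr fun μ => ?_
  rw [uS_mul W R hB hρ μ]
  by_cases h0 : uS (fun z => W ((nm ρ : ℝ) * z)) (R * ρ) (bt ρ B) μ = 0
  · unfold Vd
    rw [h0]; simp
  have hμ : IsPrim μ := (uS_supp h0).1
  unfold Vd
  rw [sy_mulR hρ hμ, sy_mulL hd, sy_mulL hμ, recip hμ hb, recip hμ hd]
  ring

/-! ### the exact identity -/

open Classical in
/-- the dilation -/
def rh (b P z : Eis) : Eis := P / bpt b z

open Classical in
/-- **(X1)** -/
theorem XP_eq {Δ R0 : Finset Eis} {y : Eis → Eis} (hy : ∀ δ ∈ Δ, IsPrim (y δ))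
    (e : Eis → ℂ) (q : Eis → Eis) (W : Eis → ℝ → ℂ) (R : Eis → Eis) {B : Eis → Eis → ℂ}
    (hB : ∀ δ ∈ Δ, FS (B δ)) (hR0 : ∀ δ ∈ Δ, ∀ r, uS (W δ) (R δ) (B δ) r ≠ 0 → r ∈ R0)
    (hRp : ∀ r ∈ R0, IsPrim r) {b P d : Eis} (hb : IsPrim b) (hP : IsPrim P) (hs : SupB P b)
    (hd : IsPrim d) :
    XP (Δ ×ˢ R0) (fun i => e i.1 * (sy (q i.1) i.2 * uS (W i.1) (R i.1) (B i.1) i.2))
        (fun i => i.2 * y i.1) b P d =
      ∑ δ ∈ Δ.filter (fun δ => bpt b (y δ) ∣ P),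
        (e δ * sy (bco b (y δ)) b * (sy (q δ) (rh b P (y δ)) * cK (R δ) (rh b P (y δ)) *
          sy (rh b P (y δ)) d)) *
          (sy (y δ) d * CS (Vd b (rh b P (y δ)) (q δ) (W δ) (R δ) (B δ)) d) := by
  unfold XP
  rw [Finset.sum_filter, Finset.sum_product, Finset.sum_filter]
  refine Finset.sum_congr rfl fun δ hδ => ?_
  have hyp := hy δ hδ
  by_cases hz : bpt b (y δ) ∣ P
  · rw [if_pos hz]
    have hzp : IsPrim (bpt b (y δ)) := bpt_prim hb hyp
    have hρe : P = bpt b (y δ) * rh b P (y δ) := by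
      unfold rh
      obtain ⟨c, hc⟩ := hz
      rw [hc, mul_div_cancel_left₀ c hzp.ne_zero]
    set ρ := rh b P (y δ) with hρd
    have hρ : IsPrim ρ := by
      rw [hρe] at hP
      exact hP.of_mul_left hzp
    have hsρ : SupB ρ b := hs.of_dvd ⟨bpt b (y δ), by rw [hρe]; ring⟩
    have h1 : ∀ r ∈ R0, (if bpt b (r * y δ) = P then
        e δ * (sy (q δ) r * uS (W δ) (R δ) (B δ) r) * (sy (bco b (r * y δ)) b * sy (r * y δ) d)
          else 0) =
        (e δ * sy (bco b (y δ)) b * sy (y δ) d) * (if IsPrim r ∧ bpt b r = ρ then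
          (sy (q δ) r * uS (W δ) (R δ) (B δ) r) * (sy (bco b r) b * sy r d) else 0) := by
      intro r hr
      have hrp := hRp r hr
      have h2 := bpt_mul hb hrp hyp
      have h3 : bpt b (r * y δ) = P ↔ IsPrim r ∧ bpt b r = ρ := by
        rw [h2.1, hρe]
        constructor
        · intro h
          refine ⟨hrp, ?_⟩
          rw [mul_comm (bpt b (y δ)) ρ] at h
          exact mul_right_cancel₀ hzp.ne_zero h
        · rintro ⟨-, h⟩
          rw [h]; ring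
      by_cases h4 : IsPrim r ∧ bpt b r = ρ
      · rw [if_pos (h3.mpr h4), if_pos h4, h2.2, sy_mulL hb, sy_mulL hd]
        ring
      · rw [if_neg (fun h => h4 (h3.mp h)), if_neg h4, mul_zero]
    rw [Finset.sum_congr rfl h1, ← Finset.mul_sum]
    have h5 : ∑ r ∈ R0, (if IsPrim r ∧ bpt b r = ρ then
          (sy (q δ) r * uS (W δ) (R δ) (B δ) r) * (sy (bco b r) b * sy r d) else 0) =
        ∑' r : Eis, (if IsPrim r ∧ bpt b r = ρ then
          (sy (q δ) r * uS (W δ) (R δ) (B δ) r) * (sy (bco b r) b * sy r d) else 0) := by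
      symm
      apply tsum_eq_sum
      intro r hr
      have : uS (W δ) (R δ) (B δ) r = 0 := by
        by_contra h
        exact hr (hR0 δ hδ r h)
      rw [this]; simp
    rw [h5, inner_eq hb hρ hsρ (fun r => sy (q δ) r * uS (W δ) (R δ) (B δ) r)
      (fun r hr => (uS_supp (right_ne_zero_of_mul hr)).1),
      inner_eq' hb hρ hsρ hd (q δ) (W δ) (R δ) (hB δ hδ)]
    ring
  · rw [if_neg hz]
    apply Finset.sum_eq_zero
    intro r hr
    rw [if_neg]
    intro h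
    apply hz
    have h2 := bpt_mul hb (hRp r hr) hyp
    rw [h2.1] at h
    exact ⟨bpt b r, by rw [← h]; ring⟩

/-! ### the classes -/

/-- coefficients -/
def ex (e : Eis → ℂ) (q R : Eis → Eis) (t b P δ : Eis) : ℂ :=
  e δ * sy (bco b (t * δ ^ 2)) b *
    (sy (q δ) (rh b P (t * δ ^ 2)) * cK (R δ) (rh b P (t * δ ^ 2)))

lemma norm_sy_le1 (x : Eis) {c : Eis} (hc : IsPrim c) : ‖sy x c‖ ≤ 1 := E4579.norm_sy_le' x hc

lemma norm_ex_le (e : Eis → ℂ) (q R : Eis → Eis) {t b P δ : Eis} (hb : IsPrim b)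
    (hρ : IsPrim (rh b P (t * δ ^ 2))) :
    ‖ex e q R t b P δ‖ ≤ ‖e δ‖ * n6 (rh b P (t * δ ^ 2)) := by
  unfold ex
  rw [norm_mul, norm_mul, norm_mul]
  have h1 := norm_sy_le1 (bco b (t * δ ^ 2)) hb
  have h2 := norm_sy_le1 (q δ) hρ
  have h3 := norm_cK_le (R δ) hρ
  have h4 : ‖sy (q δ) (rh b P (t * δ ^ 2))‖ * ‖cK (R δ) (rh b P (t * δ ^ 2))‖ ≤
      1 * n6 (rh b P (t * δ ^ 2)) := mul_le_mul h2 h3 (norm_nonneg _) zero_le_one
  calc ‖e δ‖ * ‖sy (bco b (t * δ ^ 2)) b‖ *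
        (‖sy (q δ) (rh b P (t * δ ^ 2))‖ * ‖cK (R δ) (rh b P (t * δ ^ 2))‖)
      ≤ ‖e δ‖ * 1 * (1 * n6 (rh b P (t * δ ^ 2))) :=
        mul_le_mul (mul_le_mul_of_nonneg_left h1 (norm_nonneg _)) h4 (by positivity)
          (by positivity)
    _ = _ := by ring

lemma bpt_sq {b t δ : Eis} (hb : IsPrim b) (ht : IsPrim t) (hδ : IsPrim δ) :
    bpt b (t * δ ^ 2) = bpt b t * bpt b δ ^ 2 := by
  rw [pow_two, (bpt_mul hb ht (hδ.mul hδ)).1, (bpt_mul hb hδ hδ).1, pow_two]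

lemma sy_sq_conj {x d : Eis} (hd : IsPrim d) : sy x d ^ 2 = conj (sy x d) := by
  by_cases h : IsCoprime x d
  · have h1 := syG.cube x d hd h
    have h2 : ‖sy x d‖ = 1 := PX764.norm_sy_one hd h
    have h3 : sy x d * conj (sy x d) = 1 := by
      rw [Complex.mul_conj, Complex.normSq_eq_norm_sq, h2]; simp
    have h4 : sy x d ≠ 0 := left_ne_zero_of_mul_eq_one h3
    apply mul_left_cancel₀ h4
    rw [h3, ← h1]; ring
  · rw [(syG.eq_zero x d hd).mpr h]; simp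

lemma sy_ysq {t δ d : Eis} (hδ : IsPrim δ) (hd : IsPrim d) :
    sy (t * δ ^ 2) d = sy t d * conj (sy d δ) := by
  rw [sy_mulL hd, pow_two, sy_mulL hd, ← pow_two, sy_sq_conj hd, recip hδ hd]

/-- the sequence of the class `z` (`z` = `b`-part of `t δ²`) -/
def Vz (b P z q : Eis) (W : ℝ → ℂ) (R : Eis) (B : Eis → ℂ) : Eis → ℂ := Vd b (P / z) q W R B

open Classical in
/-- **(X1), classes of the `b`-part of `δ`** -/
theorem XP_sq_le {Δ R0 : Finset Eis} {t : Eis} (ht : IsPrim t) (hΔ : ∀ δ ∈ Δ, IsPrim δ)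
    (e : Eis → ℂ) (q : Eis → Eis) (W : Eis → ℝ → ℂ) (R : Eis → Eis) {B : Eis → Eis → ℂ}
    (hB : ∀ δ ∈ Δ, FS (B δ)) (hR0 : ∀ δ ∈ Δ, ∀ r, uS (W δ) (R δ) (B δ) r ≠ 0 → r ∈ R0)
    (hRp : ∀ r ∈ R0, IsPrim r) {b P d : Eis} (hb : IsPrim b) (hP : IsPrim P) (hs : SupB P b)
    (hd : IsPrim d) :
    ‖XP (Δ ×ˢ R0) (fun i => e i.1 * (sy (q i.1) i.2 * uS (W i.1) (R i.1) (B i.1) i.2))
        (fun i => i.2 * (t * i.1 ^ 2)) b P d‖ ^ 2 ≤
      ((Δ.image (bpt b)).card : ℝ) *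
        ∑ β ∈ (Δ.image (bpt b)).filter (fun β => bpt b t * β ^ 2 ∣ P),
          ‖∑ δ ∈ Δ.filter (fun δ => bpt b δ = β), ex e q R t b P δ *
            (conj (sy d δ) * CS (Vz b P (bpt b t * β ^ 2) (q δ) (W δ) (R δ) (B δ)) d)‖ ^ 2 := by
  have hy : ∀ δ ∈ Δ, IsPrim (t * δ ^ 2) := fun δ hδ => by
    rw [pow_two]; exact ht.mul ((hΔ δ hδ).mul (hΔ δ hδ))
  rw [XP_eq (y := fun δ => t * δ ^ 2) hy e q W R hB hR0 hRp hb hP hs hd]
  set T := (Δ.image (bpt b)).filter (fun β => bpt b t * β ^ 2 ∣ P) with hT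
  have h1 : ∑ δ ∈ Δ.filter (fun δ => bpt b (t * δ ^ 2) ∣ P),
        (e δ * sy (bco b (t * δ ^ 2)) b * (sy (q δ) (rh b P (t * δ ^ 2)) *
          cK (R δ) (rh b P (t * δ ^ 2)) * sy (rh b P (t * δ ^ 2)) d)) *
          (sy (t * δ ^ 2) d * CS (Vd b (rh b P (t * δ ^ 2)) (q δ) (W δ) (R δ) (B δ)) d) =
      ∑ β ∈ T, (sy (P / (bpt b t * β ^ 2)) d * sy t d) *
        ∑ δ ∈ Δ.filter (fun δ => bpt b δ = β), ex e q R t b P δ *
            (conj (sy d δ) * CS (Vz b P (bpt b t * β ^ 2) (q δ) (W δ) (R δ) (B δ)) d) := by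
    have h2 : Δ.filter (fun δ => bpt b (t * δ ^ 2) ∣ P) =
        Δ.filter (fun δ => bpt b δ ∈ T) := by
      refine Finset.filter_congr fun δ hδ => ?_
      rw [hT, Finset.mem_filter, bpt_sq hb ht (hΔ δ hδ)]
      exact ⟨fun h => ⟨Finset.mem_image_of_mem _ hδ, h⟩, fun h => h.2⟩
    rw [h2, ← Finset.sum_fiberwise_of_maps_to (g := bpt b) (t := T)
      (fun δ hδ => (Finset.mem_filter.mp hδ).2)]
    refine Finset.sum_congr rfl fun β hβ => ?_
    rw [Finset.mul_sum, Finset.filter_filter]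
    have h3 : Δ.filter (fun δ => bpt b δ ∈ T ∧ bpt b δ = β) =
        Δ.filter (fun δ => bpt b δ = β) := by
      refine Finset.filter_congr fun δ hδ => ?_
      exact ⟨fun h => h.2, fun h => ⟨h ▸ hβ, h⟩⟩
    rw [h3]
    refine Finset.sum_congr rfl fun δ hδ => ?_
    rw [Finset.mem_filter] at hδ
    have h4 : rh b P (t * δ ^ 2) = P / (bpt b t * β ^ 2) := by
      unfold rh
      rw [bpt_sq hb ht (hΔ δ hδ.1), hδ.2]
    unfold ex Vz
    rw [sy_ysq (hΔ δ hδ.1) hd, h4]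
    ring
  rw [h1]
  have h5 : ‖∑ β ∈ T, (sy (P / (bpt b t * β ^ 2)) d * sy t d) *
        ∑ δ ∈ Δ.filter (fun δ => bpt b δ = β), ex e q R t b P δ *
            (conj (sy d δ) * CS (Vz b P (bpt b t * β ^ 2) (q δ) (W δ) (R δ) (B δ)) d)‖ ≤
      ∑ β ∈ T, ‖∑ δ ∈ Δ.filter (fun δ => bpt b δ = β), ex e q R t b P δ *
            (conj (sy d δ) * CS (Vz b P (bpt b t * β ^ 2) (q δ) (W δ) (R δ) (B δ)) d)‖ := by
    refine (norm_sum_le _ _).trans (Finset.sum_le_sum fun β _ => ?_)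
    rw [norm_mul, norm_mul]
    have ha := norm_sy_le1 (P / (bpt b t * β ^ 2)) hd
    have hb' := norm_sy_le1 t hd
    have : ‖sy (P / (bpt b t * β ^ 2)) d‖ * ‖sy t d‖ ≤ 1 := by
      calc _ ≤ (1 : ℝ) * 1 := mul_le_mul ha hb' (norm_nonneg _) zero_le_one
        _ = 1 := one_mul _
    exact mul_le_of_le_one_left (norm_nonneg _) this
  refine (pow_le_pow_left₀ (norm_nonneg _) h5 2).trans ?_
  refine (sq_sum_le_card_mul_sum_sq).trans ?_
  apply mul_le_mul_of_nonneg_right _ (Finset.sum_nonneg fun _ _ => by positivity)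
  exact_mod_cast Finset.card_le_card (Finset.filter_subset _ _)

/-- a twisted structured sequence in the frequency `Q = q b` -/
lemma Vz_eq (b P z q : Eis) (W : ℝ → ℂ) (R : Eis) (B : Eis → ℂ) (μ : Eis) :
    Vz b P z q W R B μ =
      sy (q * b) μ * uS (fun x => W ((nm (P / z) : ℝ) * x)) (R * (P / z)) (bt (P / z) B) μ := rfl

end Crest.Agent.R017.E4x681
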