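import Crest.Agent.R017.E4v5_47
import Crest.Agent.R017.E4Bd_783
import Crest.Agent.R017.E4x_681
import Crest.Agent.R017.E3A_164

/-!
# Row 17, block C70, leaf E4 (helper92): the structured side at cube-free moduli

`d = a s²`, `a s` squarefree.

* `norm_gs_sq2` : `‖gs s (s²)‖² = N(s)³`
* `Vr v' s δ r` : the inner sequence (681), `x = s r δ²`
* `Sd_val`, `Sd_sq` : `Sd v' (a s²)` = (constant of modulus `N(s)^(3/2) N(a)^(1/2)`) ×
  `Σ_δ sy (δ²) a * CS (Vr v' s δ) a`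
* `XM`, `YM` : the second moments, `PBo_le` : Cauchy, `XM_le` : the moment at squarefree moduli
* `Vr_eq` : the inner sequence of a structured function is structured
-/

set_option autoImplicit false

noncomputable section

open Complex Finset
open scoped ComplexConjugate

namespace Crest.Agent.R017.E4y92

open Crest.Agent.R012 Crest.Agent.R012.Eis Crest.Agent.R012.GaussLoc283
open Crest.Agent.R012.Mob705
open Crest.Agent.R012.LS2 (S mem_S)
open Crest.Agent.R017.Sx545 (Sm)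
open Crest.Agent.R017.C70 (CbF)
open Crest.Agent.R017.CM106 (CS)
open Crest.Agent.R017.E4352
open Gauss880 (syG)

/-! ### the Gauss sum at `s²` -/

lemma gs_psq_ne {p x : Eis} (hp : IsPP p) (h : gs x (p ^ 2) ≠ 0) : p ∣ x ∧ ¬ p ^ 2 ∣ x := by
  constructor
  · by_contra hd
    exact h (gs_pow_ge_two syAx hp.isPrim hp.prime hd le_rfl)
  · rintro ⟨y, rfl⟩
    apply h
    rw [mul_comm]
    exact gs_sq_sq syAx hp.isPrim hp.prime

lemma cop_of_sqf {a b : Eis} (h : Squarefree (a * b)) : IsCoprime a b :=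
  (squarefree_mul_iff.mp h).1.isCoprime

lemma of_gs_ne {s x : Eis} (hs : IsPrim s) (hsq : Squarefree s) (h : gs x (s ^ 2) ≠ 0) (p : Eis)
    (hp : IsPP p) (hps : p ∣ s) : p ∣ x ∧ ¬ p ^ 2 ∣ x := by
  obtain ⟨t, rfl⟩ := hps
  have htp : IsPrim t := hs.of_mul_left hp.isPrim
  have hc : IsCoprime p t := cop_of_sqf hsq
  have e : (p * t) ^ 2 = p ^ 2 * t ^ 2 := by ring
  rw [e, gs_mul' syAx x (hp.isPrim.pow 2) (htp.pow 2) hc.pow] at h
  exact gs_psq_ne hp (left_ne_zero_of_mul h)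

lemma exists_of_gs {s x : Eis} (hs : IsPrim s) (hsq : Squarefree s) (hx : IsPrim x)
    (h : gs x (s ^ 2) ≠ 0) : ∃ y, IsPrim y ∧ IsCoprime y s ∧ x = s * y := by
  have hd : s ∣ x := by
    rw [← prod_pp hs hsq, (ppSet_pp s).prod_dvd]
    intro p hp
    rw [mem_pp hs.ne_zero] at hp
    exact (of_gs_ne hs hsq h p hp.1 hp.2).1
  obtain ⟨y, rfl⟩ := hd
  have hy : IsPrim y := hx.of_mul_left hs
  refine ⟨y, hy, ?_, rfl⟩
  rw [isCoprime_iff_pp hy]
  intro p hp hpy hps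
  refine (of_gs_ne hs hsq h p hp hps).2 ?_
  rw [pow_two]
  exact mul_dvd_mul hps hpy

lemma norm_gs_sq2 : ∀ (n : ℕ) {s : Eis}, nm s ≤ n → IsPrim s → Squarefree s →
    ‖gs s (s ^ 2)‖ ^ 2 = (nm s : ℝ) ^ 3 := by
  intro n
  induction n with
  | zero =>
    intro s h hs _
    exact absurd (nm_eq_zero.mp (Nat.le_zero.mp h)) hs.ne_zero
  | succ n ih =>
    intro s h hs hsq
    by_cases h1 : s = 1
    · subst h1
      rw [one_pow, gs_one_right syAx]
      simp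
    obtain ⟨p, hp, t, rfl⟩ := exists_pp_dvd_of_isPrim hs h1
    have htp : IsPrim t := hs.of_mul_left hp.isPrim
    have hc : IsCoprime p t := cop_of_sqf hsq
    have htn : nm t ≤ n := by
      rw [nm_mul] at h
      have h2 := hp.one_lt_nm
      have h3 : 0 < nm t := nm_pos.mpr htp.ne_zero
      nlinarith
    have hpt : ¬ p ∣ t := fun hd => hp.prime.not_isUnit (hc.isUnit_of_dvd' dvd_rfl hd)
    have e : (p * t) ^ 2 = p ^ 2 * t ^ 2 := by ring
    have e2 : p * t * p ^ 2 = t * p ^ 3 := by ring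
    rw [e, gs_mul' syAx _ (hp.isPrim.pow 2) (htp.pow 2) hc.pow, e2,
      gs_cube_left syAx t (htp.pow 2) hc.pow_right, mul_comm p t, gs_p_sq syAx hp.isPrim,
      norm_mul, norm_mul, RCLike.norm_conj, Complex.norm_natCast, mul_pow, mul_pow,
      norm_gs_prime_sq syAx hp.isPrim hp.prime hpt, ih htn htp hsq.of_mul_right, nm_mul]
    push_cast
    ring

/-! ### the inner sequence -/

open Classical in
/-- the inner sequence at `(s, δ)` -/
def Vr (v' : Eis → ℂ) (s δ r : Eis) : ℂ :=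
  if IsPrim r ∧ Squarefree r ∧ IsCoprime r δ ∧ IsCoprime (r * δ) s then
    v' (s * (r * δ ^ 2)) * sy (r * δ ^ 2) (s ^ 2) else 0

lemma conj_gs_asq {s a y : Eis} (hs : IsPrim s) (ha : IsPrim a) (haq : Squarefree a)
    (has : IsCoprime a s) (hys : IsCoprime y s) :
    conj (gs (s * y) (a * s ^ 2)) =
      conj (gs s (s ^ 2)) * conj (gs 1 a) * (sy y (s ^ 2) * sy y a) := by
  have h1 : gs (s * y) (a * s ^ 2) = gs (s * y) (s ^ 2) * (conj (sy (s * y * s ^ 2) a) * gs 1 a) := by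
    rw [mul_comm a (s ^ 2)]
    exact E4579.gs_split (hs.pow 2) ha haq has.symm.pow_left
  have h2 : gs (s * y) (s ^ 2) = conj (sy y (s ^ 2)) * gs s (s ^ 2) :=
    gs_mul_left syAx s (hs.pow 2) hys.pow_right
  have h3 : sy (s * y * s ^ 2) a = sy y a := by
    have e : s * y * s ^ 2 = s ^ 3 * y := by ring
    rw [e, E4579.sy_mulL ha, GaussLoc283.SyAx.pow_left syAx _ ha, syG.cube s a ha has.symm, one_mul]
  rw [h1, h2, h3]
  simp only [map_mul, Complex.conj_conj]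
  ring

/-- decomposition of a sum over cube-free elements -/
lemma tsum_cbf {F : Eis → ℂ} {X : ℝ} (hX : 0 ≤ X)
    (hF : ∀ x, F x ≠ 0 → IsPrim x ∧ CbF x ∧ (nm x : ℝ) ≤ X) :
    ∑' x : Eis, F x = ∑ δ ∈ S X, ∑' r : Eis,
      (open Classical in if IsPrim r ∧ Squarefree r ∧ IsCoprime r δ then F (r * δ ^ 2) else 0) := by
  classical
  set P : Finset (Eis × Eis) := (S X ×ˢ primBall ⌊X⌋₊).filter
    fun y => Squarefree y.2 ∧ IsCoprime y.2 y.1 with hP
  have hmem : ∀ y ∈ P, IsPrim y.1 ∧ Squarefree y.1 ∧ IsPrim y.2 ∧ Squarefree y.2 ∧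
      IsCoprime y.2 y.1 := by
    intro y hy
    obtain ⟨h1, h2, h3⟩ := mem_filter.mp hy
    obtain ⟨h4, h5⟩ := mem_product.mp h1
    obtain ⟨-, h6, h7⟩ := (mem_S hX).mp h4
    exact ⟨h6, h7, (mem_primBall.mp h5).2, h2, h3⟩
  have hinj : Set.InjOn (fun y : Eis × Eis => y.2 * y.1 ^ 2) (P : Set (Eis × Eis)) := by
    intro y hy y' hy' h
    obtain ⟨a1, a2, a3, a4, -⟩ := hmem y hy
    obtain ⟨b1, b2, b3, b4, -⟩ := hmem y' hy'
    obtain ⟨e1, e2⟩ := E3A164.eq_ng a3 a4 a1 b3 b4 b1 h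
    exact Prod.ext e2 e1
  have hbd : ∀ r δ : Eis, IsPrim r → IsPrim δ → F (r * δ ^ 2) ≠ 0 →
      (nm r : ℝ) ≤ X ∧ (nm δ : ℝ) ≤ X := by
    intro r δ hr hδ h
    have h1 := (hF _ h).2.2
    rw [nm_mul, nm_pow] at h1
    push_cast at h1
    have p1 : (1 : ℝ) ≤ nm r := by exact_mod_cast nm_pos.mpr hr.ne_zero
    have p2 : (1 : ℝ) ≤ nm δ := by exact_mod_cast nm_pos.mpr hδ.ne_zero
    have q1 : (nm r : ℝ) ≤ nm r * nm δ ^ 2 :=
      le_mul_of_one_le_right (by positivity) (one_le_pow₀ p2)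
    have q2 : (nm δ : ℝ) ≤ nm δ ^ 2 := le_self_pow₀ p2 two_ne_zero
    have q3 : (nm δ : ℝ) ^ 2 ≤ nm r * nm δ ^ 2 := le_mul_of_one_le_left (by positivity) p1
    exact ⟨q1.trans h1, (q2.trans q3).trans h1⟩
  have e1 : ∑' x : Eis, F x = ∑ x ∈ P.image (fun y : Eis × Eis => y.2 * y.1 ^ 2), F x := by
    refine tsum_eq_sum fun x hx => ?_
    by_contra h
    obtain ⟨h1, h2, h3⟩ := hF x h
    obtain ⟨n, m, hn, hns, hm, hms, hc, he⟩ := E3A164.cbf_dec h1 h2
    apply hx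
    rw [mem_image]
    rw [he] at h
    obtain ⟨q1, q2⟩ := hbd n m hn hm h
    refine ⟨(m, n), ?_, he.symm⟩
    rw [hP, mem_filter, mem_product, mem_S hX, mem_primBall]
    exact ⟨⟨⟨q2, hm, hms⟩, Nat.le_floor q1, hn⟩, hns, hc⟩
  rw [e1, sum_image hinj, hP, sum_filter, sum_product]
  refine sum_congr rfl fun δ hδ => ?_
  obtain ⟨-, hδ1, -⟩ := (mem_S hX).mp hδ
  symm
  rw [tsum_eq_sum (s := primBall ⌊X⌋₊)]
  · refine sum_congr rfl fun r hr => ?_
    have hr1 := (mem_primBall.mp hr).2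
    refine if_congr ?_ rfl rfl
    exact ⟨fun h => h.2, fun h => ⟨hr1, h⟩⟩
  · intro r hr
    rw [ite_eq_right_iff]
    intro h
    by_contra h0
    exact hr (mem_primBall.mpr ⟨Nat.le_floor (hbd r δ h.1 hδ1 h0).1, h.1⟩)

theorem Sd_val {v' : Eis → ℂ} {s a : Eis} {X : ℝ} (hX : 0 ≤ X) (hs : IsPrim s)
    (hsq : Squarefree s) (ha : IsPrim a) (haq : Squarefree a) (has : IsCoprime a s)
    (hv : ∀ x, v' x ≠ 0 → IsPrim x ∧ CbF x ∧ (nm x : ℝ) ≤ X) :
    Sd v' (a * s ^ 2) = conj (gs s (s ^ 2)) * conj (gs 1 a) *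
      ∑ δ ∈ S X, sy (δ ^ 2) a * CS (Vr v' s δ) a := by
  classical
  have key : ∀ x, v' x * conj (gs x (a * s ^ 2)) ≠ 0 →
      ∃ y, IsPrim y ∧ IsCoprime y s ∧ x = s * y := by
    intro x hx
    have h1 := left_ne_zero_of_mul hx
    have h2 := right_ne_zero_of_mul hx
    have h3 : gs x (s ^ 2) ≠ 0 := by
      intro h0
      apply h2
      rw [mul_comm a (s ^ 2), E4579.gs_split (hs.pow 2) ha haq has.symm.pow_left, h0, zero_mul,
        map_zero]
    exact exists_of_gs hs hsq (hv x h1).1 h3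
  -- the sum over `y`
  set F : Eis → ℂ := fun y => if IsPrim y ∧ IsCoprime y s then
    v' (s * y) * (sy y (s ^ 2) * sy y a) else 0 with hFd
  have e1 : Sd v' (a * s ^ 2) = conj (gs s (s ^ 2)) * conj (gs 1 a) * ∑' y : Eis, F y := by
    unfold Sd
    have hinj : Function.Injective (fun y : Eis => s * y) := fun x y h =>
      mul_left_cancel₀ hs.ne_zero h
    rw [← hinj.tsum_eq (f := fun x => v' x * conj (gs x (a * s ^ 2)))]
    · rw [← tsum_mul_left]
      refine tsum_congr fun y => ?_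
      simp only [hFd]
      by_cases hy : IsPrim y ∧ IsCoprime y s
      · rw [if_pos hy, conj_gs_asq hs ha haq has hy.2]
        ring
      · rw [if_neg hy, mul_zero]
        by_contra h0
        obtain ⟨z, hz, hzs, he⟩ := key _ h0
        have : y = z := mul_left_cancel₀ hs.ne_zero he
        subst this
        exact hy ⟨hz, hzs⟩
    · intro x hx
      obtain ⟨y, -, -, he⟩ := key x hx
      exact ⟨y, he.symm⟩
  have hF : ∀ x, F x ≠ 0 → IsPrim x ∧ CbF x ∧ (nm x : ℝ) ≤ X := by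
    intro x hx
    simp only [hFd] at hx
    split_ifs at hx with h
    · obtain ⟨h1, h2, h3⟩ := hv _ (left_ne_zero_of_mul hx)
      refine ⟨h.1, fun p hp hd => h2 p hp (hd.mul_left s), ?_⟩
      rw [nm_mul] at h3
      push_cast at h3
      have p1 : (1 : ℝ) ≤ nm s := by exact_mod_cast nm_pos.mpr hs.ne_zero
      exact (le_mul_of_one_le_left (Nat.cast_nonneg _) p1).trans h3
    · exact absurd rfl hx
  rw [e1, tsum_cbf hX hF]
  congr 1
  refine sum_congr rfl fun δ hδ => ?_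
  obtain ⟨-, hδ1, -⟩ := (mem_S hX).mp hδ
  unfold CS
  rw [← tsum_mul_left]
  refine tsum_congr fun r => ?_
  by_cases hr : IsPrim r ∧ Squarefree r ∧ IsCoprime r δ
  · rw [if_pos hr]
    simp only [hFd]
    have hrδ : IsPrim (r * δ ^ 2) := hr.1.mul (hδ1.pow 2)
    by_cases hc : IsCoprime (r * δ) s
    · have h1 : IsCoprime (r * δ ^ 2) s := hc.of_mul_left_left.mul_left hc.of_mul_left_right.pow_left
      unfold Vr
      rw [if_pos ⟨hrδ, h1⟩, if_pos ⟨hr.1, hr.2.1, hr.2.2, hc⟩, E4579.sy_mulL (x := r) ha,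
        E4x681.recip hr.1 ha]
      ring
    · unfold Vr
      rw [if_neg, if_neg (fun h => hc h.2.2.2)]
      · ring
      · rintro ⟨-, h⟩
        apply hc
        have h2 := (IsCoprime.pow_left_iff (m := 2) (by norm_num)).mp h.of_mul_left_right
        exact h.of_mul_left_left.mul_left h2
  · rw [if_neg hr]
    unfold Vr
    rw [if_neg (fun h => hr ⟨h.1, h.2.1, h.2.2.1⟩)]
    ring

/-- **(1)** -/
theorem Sd_sq {v' : Eis → ℂ} {s a : Eis} {X : ℝ} (hX : 0 ≤ X) (hs : IsPrim s)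
    (hsq : Squarefree s) (ha : IsPrim a) (haq : Squarefree a) (has : IsCoprime a s)
    (hv : ∀ x, v' x ≠ 0 → IsPrim x ∧ CbF x ∧ (nm x : ℝ) ≤ X) :
    ‖Sd v' (a * s ^ 2)‖ ^ 2 = (nm a : ℝ) * (nm s : ℝ) ^ 3 *
      ‖∑ δ ∈ S X, sy (δ ^ 2) a * CS (Vr v' s δ) a‖ ^ 2 := by
  rw [Sd_val hX hs hsq ha haq has hv]
  have h1 : ‖gs 1 a‖ ^ 2 = nm a := Gauss880.norm_gs_sq syG ha haq isCoprime_one_left
  have h2 := norm_gs_sq2 _ le_rfl hs hsq
  rw [norm_mul, norm_mul, RCLike.norm_conj, RCLike.norm_conj, mul_pow, mul_pow, h1, h2]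
  ring

/-! ### moments -/

open Classical in
/-- the moduli of the block -/
def Dk (M : Eis) (κ : ℝ) : Finset Eis :=
  (primBall ⌊2 * κ⌋₊).filter (fun d => Sm M d ∧ CbF d ∧ κ < nm d)

/-- the moment of the structured side -/
def XM (M : Eis) (v' : Eis → ℂ) (κ : ℝ) : ℝ := ∑ d ∈ Dk M κ, ((nm d : ℝ))⁻¹ * ‖Sd v' d‖ ^ 2

/-- the moment of the other side -/
def YM (M : Eis) (w' : Eis → ℂ) (κ : ℝ) : ℝ := ∑ d ∈ Dk M κ, ‖CS w' d‖ ^ 2

lemma XM_nonneg (M : Eis) (v' : Eis → ℂ) (κ : ℝ) : 0 ≤ XM M v' κ :=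
  sum_nonneg fun _ _ => by positivity

lemma YM_nonneg (M : Eis) (w' : Eis → ℂ) (κ : ℝ) : 0 ≤ YM M w' κ :=
  sum_nonneg fun _ _ => by positivity

open Classical in
/-- **Cauchy** -/
theorem PBo_le (M : Eis) {O : Type} [Fintype O] {lam : O → ℝ} (hl : ∀ o, 0 < lam o)
    (q R Z : Eis) (g : Eis → ℂ) (v w : O → Eis → ℂ) (κ : ℝ) :
    PBo M lam q R Z g v w κ ≤
      Real.sqrt (∑ o, (lam o)⁻¹ * XM M (tws R q g (v o)) (κ / lam o)) *
        Real.sqrt (∑ o, YM M (tws Z q g (w o)) (κ / lam o)) := by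
  have e1 : PBo M lam q R Z g v w κ = ∑ x ∈ (univ : Finset O).sigma fun o => Dk M (κ / lam o),
      ((lam x.1) ^ (-(1 / 2) : ℝ) * ((nm x.2 : ℝ) ^ (-(1 / 2) : ℝ) *
        ‖Sd (tws R q g (v x.1)) x.2‖)) * ‖CS (tws Z q g (w x.1)) x.2‖ := by
    rw [sum_sigma]
    unfold PBo
    refine sum_congr rfl fun o _ => ?_
    unfold PB
    rw [mul_sum]
    refine sum_congr ?_ fun d _ => by ring
    unfold Dk
    congr
  have e2 : ∑ o, (lam o)⁻¹ * XM M (tws R q g (v o)) (κ / lam o) =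
      ∑ x ∈ (univ : Finset O).sigma fun o => Dk M (κ / lam o),
      ((lam x.1) ^ (-(1 / 2) : ℝ) * ((nm x.2 : ℝ) ^ (-(1 / 2) : ℝ) *
        ‖Sd (tws R q g (v x.1)) x.2‖)) ^ 2 := by
    rw [sum_sigma]
    refine sum_congr rfl fun o _ => ?_
    unfold XM
    rw [mul_sum]
    refine sum_congr rfl fun d _ => ?_
    have h1 : ((lam o) ^ (-(1 / 2) : ℝ)) ^ 2 = (lam o)⁻¹ := by
      rw [← Real.rpow_natCast, ← Real.rpow_mul (hl o).le]
      norm_num
      exact Real.rpow_neg_one _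
    have h2 : ((nm d : ℝ) ^ (-(1 / 2) : ℝ)) ^ 2 = (nm d : ℝ)⁻¹ := by
      rw [← Real.rpow_natCast, ← Real.rpow_mul (Nat.cast_nonneg _)]
      norm_num
      exact Real.rpow_neg_one _
    dsimp only
    rw [mul_pow, mul_pow, h1, h2]
  have e3 : ∑ o, YM M (tws Z q g (w o)) (κ / lam o) =
      ∑ x ∈ (univ : Finset O).sigma fun o => Dk M (κ / lam o),
        ‖CS (tws Z q g (w x.1)) x.2‖ ^ 2 := by
    rw [sum_sigma]
    rfl
  rw [e1, e2, e3]
  exact Real.sum_mul_le_sqrt_mul_sqrt _ _ _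

open Classical in
/-- **(2) the moment at squarefree moduli** -/
theorem XM_le {M : Eis} {v' : Eis → ℂ} {κ X : ℝ} (hκ : 0 < κ) (hX : 0 ≤ X)
    (hv : ∀ x, v' x ≠ 0 → IsPrim x ∧ CbF x ∧ (nm x : ℝ) ≤ X) :
    XM M v' κ ≤ ∑ s ∈ (S (Real.sqrt (2 * κ))).filter (fun s => Sm M s),
      (nm s : ℝ) * ∑ a ∈ (S (2 * κ / nm s ^ 2)).filter
        (fun a => Sm M a ∧ IsCoprime a s ∧ κ / nm s ^ 2 < nm a),
          ‖∑ δ ∈ S X, sy (δ ^ 2) a * CS (Vr v' s δ) a‖ ^ 2 := by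
  have hdec : ∀ d : Eis, ∃ z : Eis × Eis, d ∈ Dk M κ → IsPrim z.1 ∧ Squarefree z.1 ∧ IsPrim z.2 ∧
      Squarefree z.2 ∧ IsCoprime z.1 z.2 ∧ d = z.1 * z.2 ^ 2 := by
    intro d
    by_cases hd : d ∈ Dk M κ
    · have h1 := mem_filter.mp hd
      obtain ⟨n, m, h⟩ := E3A164.cbf_dec (mem_primBall.mp h1.1).2 h1.2.2.1
      exact ⟨(n, m), fun _ => h⟩
    · exact ⟨(1, 1), fun h => absurd h hd⟩
  choose z hz using hdec
  have hinj : Set.InjOn z (Dk M κ : Set Eis) := by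
    intro d hd d' hd' h
    rw [(hz d hd).2.2.2.2.2, (hz d' hd').2.2.2.2.2, h]
  set G : Eis × Eis → ℝ := fun y => (nm y.2 : ℝ) *
    ‖∑ δ ∈ S X, sy (δ ^ 2) y.1 * CS (Vr v' y.2 δ) y.1‖ ^ 2 with hG
  have hG0 : ∀ y, 0 ≤ G y := fun y => by
    simp only [hG]
    positivity
  have e1 : XM M v' κ = ∑ y ∈ (Dk M κ).image z, G y := by
    rw [sum_image hinj]
    unfold XM
    refine sum_congr rfl fun d hd => ?_
    obtain ⟨h1, h2, h3, h4, h5, h6⟩ := hz d hd
    have h7 := Sd_sq hX h3 h4 h1 h2 h5 hv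
    rw [← h6] at h7
    have h8 : (nm d : ℝ) = nm (z d).1 * nm (z d).2 ^ 2 := by
      conv_lhs => rw [h6, nm_mul, nm_pow]
      push_cast
      ring
    have ha0 : (nm (z d).1 : ℝ) ≠ 0 := by exact_mod_cast (nm_pos.mpr h1.ne_zero).ne'
    have hs0 : (nm (z d).2 : ℝ) ≠ 0 := by exact_mod_cast (nm_pos.mpr h3.ne_zero).ne'
    rw [h7, h8]
    simp only [hG]
    field_simp
  -- the target as a sum over pairs
  set T : Finset (Eis × Eis) := (primBall ⌊2 * κ⌋₊ ×ˢ primBall ⌊Real.sqrt (2 * κ)⌋₊).filter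
    fun y => Squarefree y.1 ∧ Squarefree y.2 ∧ Sm M y.2 ∧ Sm M y.1 ∧ IsCoprime y.1 y.2 ∧
      (nm y.1 : ℝ) ≤ 2 * κ / nm y.2 ^ 2 ∧ κ / nm y.2 ^ 2 < nm y.1 with hT
  have hsub : (Dk M κ).image z ⊆ T := by
    intro y hy
    obtain ⟨d, hd, rfl⟩ := mem_image.mp hy
    obtain ⟨h1, h2, h3, h4, h5, h6⟩ := hz d hd
    have hd' := mem_filter.mp hd
    have hdn : (nm d : ℝ) ≤ 2 * κ := by
      have := (mem_primBall.mp hd'.1).1
      exact (Nat.le_floor_iff (by positivity)).mp this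
    have hnm : (nm d : ℝ) = nm (z d).1 * nm (z d).2 ^ 2 := by
      conv_lhs => rw [h6, nm_mul, nm_pow]
      push_cast
      ring
    have p1 : (1 : ℝ) ≤ nm (z d).1 := by exact_mod_cast nm_pos.mpr h1.ne_zero
    have p2 : (1 : ℝ) ≤ nm (z d).2 := by exact_mod_cast nm_pos.mpr h3.ne_zero
    have p3 : (0 : ℝ) < (nm (z d).2 : ℝ) ^ 2 := by positivity
    have hdM := hd'.2.1.2
    rw [h6] at hdM
    rw [hT, mem_filter, mem_product, mem_primBall, mem_primBall]
    refine ⟨⟨⟨Nat.le_floor ?_, h1⟩, Nat.le_floor ?_, h3⟩, h2, h4,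
      ⟨h3, ?_⟩, ⟨h1, hdM.of_mul_left_left⟩, h5, ?_, ?_⟩
    · have q1 : (nm (z d).1 : ℝ) ≤ nm (z d).1 * nm (z d).2 ^ 2 :=
        le_mul_of_one_le_right (by positivity) (one_le_pow₀ p2)
      linarith
    · have q2 : (nm (z d).2 : ℝ) ^ 2 ≤ nm (z d).1 * nm (z d).2 ^ 2 :=
        le_mul_of_one_le_left (by positivity) p1
      exact Real.le_sqrt_of_sq_le (by linarith)
    · exact (IsCoprime.pow_left_iff (by norm_num)).mp hdM.of_mul_left_right
    · rw [le_div_iff₀ p3, ← hnm]; exact hdn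
    · rw [div_lt_iff₀ p3, ← hnm]; exact hd'.2.2.2
  rw [e1]
  refine (sum_le_sum_of_subset_of_nonneg hsub fun y _ _ => hG0 y).trans ?_
  have e2 : ∑ y ∈ T, G y = ∑ s ∈ primBall ⌊Real.sqrt (2 * κ)⌋₊, ∑ a ∈ primBall ⌊2 * κ⌋₊,
      if Squarefree a ∧ Squarefree s ∧ Sm M s ∧ Sm M a ∧ IsCoprime a s ∧
        (nm a : ℝ) ≤ 2 * κ / nm s ^ 2 ∧ κ / nm s ^ 2 < nm a then G (a, s) else 0 := by
    rw [hT, sum_filter, sum_product_right]
  rw [e2]
  have e3 : (S (Real.sqrt (2 * κ))).filter (fun s => Sm M s) =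
      (primBall ⌊Real.sqrt (2 * κ)⌋₊).filter (fun s => Squarefree s ∧ Sm M s) := by
    ext s
    simp only [S, mem_filter]
    tauto
  rw [e3, sum_filter]
  refine sum_le_sum fun s hs => ?_
  by_cases h1 : Squarefree s ∧ Sm M s
  · rw [if_pos h1, mul_sum]
    have hs1 : (1 : ℝ) ≤ nm s := by exact_mod_cast nm_pos.mpr h1.2.1.ne_zero
    have p3 : (0 : ℝ) < (nm s : ℝ) ^ 2 := by positivity
    rw [← sum_filter]
    have e4 : (primBall ⌊2 * κ⌋₊).filter (fun a => Squarefree a ∧ Squarefree s ∧ Sm M s ∧ Sm M a ∧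
        IsCoprime a s ∧ (nm a : ℝ) ≤ 2 * κ / nm s ^ 2 ∧ κ / nm s ^ 2 < nm a) ⊆
        (S (2 * κ / nm s ^ 2)).filter
        (fun a => Sm M a ∧ IsCoprime a s ∧ κ / nm s ^ 2 < nm a) := by
      intro a ha
      obtain ⟨ha1, ha2, -, -, ha3, ha4, ha5, ha6⟩ := mem_filter.mp ha
      rw [mem_filter, mem_S (by positivity)]
      exact ⟨⟨ha5, ha3.1, ha2⟩, ha3, ha4, ha6⟩
    exact sum_le_sum_of_subset_of_nonneg e4 fun a _ _ => hG0 _
  · rw [if_neg h1]
    apply le_of_eq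
    refine sum_eq_zero fun a _ => ?_
    rw [if_neg]
    intro h3
    exact h1 ⟨h3.2.1, h3.2.2.1⟩

/-! ### structured functions -/

open Crest.Agent.R017.PX764 (n6)
open Crest.Agent.R017.CM106 (FS)
open Crest.Agent.R017.E3D579 (uS bt cK uS_mul uS_supp sy_mulR n6_nonneg norm_cK_le uS_cop)
open Crest.Agent.R017.E4579 (sy_mulL)
open Crest.Agent.R017.E4x681 (recip sy_sq_conj)
open Crest.Agent.R017.E4o502 (vD)

lemma conj_sy_sq {x d : Eis} (hx : IsPrim x) (hd : IsPrim d) : conj (sy x d) = sy (d ^ 2) x := by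
  rw [pow_two, sy_mulL hx, ← pow_two, recip hd hx, sy_sq_conj hd]

lemma sy_r_sq {r s : Eis} (hr : IsPrim r) (hs : IsPrim s) : sy r (s ^ 2) = sy (s ^ 2) r :=
  recip hr (hs.pow 2)

open Classical in
/-- the coefficient -/
def cf (Q q₁ q₂ D R s q u w : Eis) (χ g₀ ev : Eis → ℂ) (Rr : Eis → Eis) (δ : Eis) : ℂ :=
  if IsCoprime (s * δ) q ∧ IsCoprime (R * (s * δ)) D ∧ IsCoprime δ s then
    ev (w * δ) * (χ u * (sy Q u * cK (Rr (w * δ)) u)) *
      (sy (s * δ ^ 2) q₁ * conj (sy (s * δ ^ 2) q₂) * g₀ (s * δ ^ 2)) *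
        (conj (sy (R * (s * δ ^ 2)) D) * sy (δ ^ 2) (s ^ 2)) else 0

lemma norm_cf_le {Q q₁ q₂ D R s q u w : Eis} {χ g₀ ev : Eis → ℂ} {Rr : Eis → Eis} {δ : Eis}
    (hq1 : IsPrim q₁) (hq2 : IsPrim q₂) (hD : IsPrim D) (hs : IsPrim s) (hu : IsPrim u)
    (hχ : ‖χ u‖ ≤ 1) (hg : ‖g₀ (s * δ ^ 2)‖ ≤ 1) :
    ‖cf Q q₁ q₂ D R s q u w χ g₀ ev Rr δ‖ ≤ ‖ev (w * δ)‖ * n6 u := by
  classical
  unfold cf
  split_ifs with h
  · simp only [norm_mul, RCLike.norm_conj]
    have a1 := E4579.norm_sy_le' Q hu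
    have a2 := norm_cK_le (Rr (w * δ)) hu
    have a3 := E4579.norm_sy_le' (s * δ ^ 2) hq1
    have a4 := E4579.norm_sy_le' (s * δ ^ 2) hq2
    have a5 := E4579.norm_sy_le' (R * (s * δ ^ 2)) hD
    have a6 := E4579.norm_sy_le' (δ ^ 2) (hs.pow 2)
    have b1 : ‖χ u‖ * (‖sy Q u‖ * ‖cK (Rr (w * δ)) u‖) ≤ n6 u := by
      calc _ ≤ 1 * (1 * n6 u) := mul_le_mul hχ (mul_le_mul a1 a2 (norm_nonneg _) zero_le_one)
            (by positivity) zero_le_one
        _ = n6 u := by ring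
    have b2 : ‖sy (s * δ ^ 2) q₁‖ * ‖sy (s * δ ^ 2) q₂‖ * ‖g₀ (s * δ ^ 2)‖ ≤ 1 := by
      calc _ ≤ (1 : ℝ) * 1 * 1 := mul_le_mul (mul_le_mul a3 a4 (norm_nonneg _) zero_le_one) hg
            (norm_nonneg _) (by norm_num)
        _ = 1 := by ring
    have b3 : ‖sy (R * (s * δ ^ 2)) D‖ * ‖sy (δ ^ 2) (s ^ 2)‖ ≤ 1 := by
      calc _ ≤ (1 : ℝ) * 1 := mul_le_mul a5 a6 (norm_nonneg _) zero_le_one
        _ = 1 := by ring
    calc _ ≤ ‖ev (w * δ)‖ * n6 u * 1 * 1 := by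
          refine mul_le_mul (mul_le_mul (mul_le_mul_of_nonneg_left b1 (norm_nonneg _)) b2
            (by positivity) (mul_nonneg (norm_nonneg _) (n6_nonneg u))) b3 (by positivity) ?_
          exact mul_nonneg (mul_nonneg (norm_nonneg _) (n6_nonneg u)) zero_le_one
      _ = _ := by ring
  · rw [norm_zero]
    exact mul_nonneg (norm_nonneg _) (n6_nonneg u)

/-- **(3)**: `v` structured, `R s = u w²` -/
theorem Vr_eq {R q D s δ Q q₁ q₂ u w : Eis} {g χ g₀ ev v : Eis → ℂ} {W : Eis → ℝ → ℂ}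
    {Rr : Eis → Eis} {B : Eis → Eis → ℂ} (hR : PrI q R) (hD : IsPrim D)
    (hs : IsPrim s) (hδ : IsPrim δ) (hδq : Squarefree δ) (hq1 : IsPrim q₁) (hq2 : IsPrim q₂)
    (hu : IsPrim u) (huq : Squarefree u) (hw : IsPrim w) (hwq : Squarefree w)
    (huw : IsCoprime u w) (hRs : R * s = u * w ^ 2)
    (hg : ∀ y, IsPrim y → g y = sy y q₁ * conj (sy y q₂) * g₀ y)
    (hg0 : ∀ x y, IsPrim x → IsPrim y → g₀ (x * y) = g₀ x * g₀ y)
    (hχ : ∀ x y, IsPrim x → IsPrim y → χ (x * y) = χ x * χ y)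
    (hB : ∀ e, FS (B e))
    (hv : ∀ e r, IsPrim e → Squarefree e → IsPrim r → Squarefree r → IsCoprime r e →
      v (r * e ^ 2) = ev e * (χ r * (sy Q r * uS (W e) (Rr e) (B e) r))) (r : Eis) :
    Vr (tws R q g (vD D v)) s δ r =
      cf Q q₁ q₂ D R s q u w χ g₀ ev Rr δ * ((χ r * g₀ r) *
        (sy (Q * (q₁ * q₂ ^ 2 * (D ^ 2 * s ^ 2))) r *
          uS (fun x => W (w * δ) ((nm u : ℝ) * x)) (Rr (w * δ) * u * (q * s * D * δ))
            (bt u (B (w * δ))) r)) := by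
  classical
  have hRp := hR.1
  by_cases hr : IsPrim r ∧ Squarefree r ∧ IsCoprime r (q * s * D * δ)
  · obtain ⟨hr1, hr2, hr3⟩ := hr
    have hrδ : IsCoprime r δ := hr3.of_mul_right_right
    have hrD : IsCoprime r D := hr3.of_mul_right_left.of_mul_right_right
    have hrs : IsCoprime r s := hr3.of_mul_right_left.of_mul_right_left.of_mul_right_right
    have hrq : IsCoprime r q := hr3.of_mul_right_left.of_mul_right_left.of_mul_right_left
    have hrR : IsCoprime r R := by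
      rw [isCoprime_comm, isCoprime_iff_pp hRp]
      intro p hp h1 h2
      exact hp.prime.not_isUnit (hrq.isUnit_of_dvd' h2 (hR.2 p hp.prime h1))
    have hruw : IsCoprime r (u * w ^ 2) := by rw [← hRs]; exact hrR.mul_right hrs
    have hru : IsCoprime r u := hruw.of_mul_right_left
    have hrw : IsCoprime r w := (IsCoprime.pow_right_iff (by norm_num)).mp hruw.of_mul_right_right
    have hδ2 : IsPrim (δ ^ 2) := hδ.pow 2
    have hrδ2 : IsPrim (r * δ ^ 2) := hr1.mul hδ2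
    have hcut : uS (fun x => W (w * δ) ((nm u : ℝ) * x)) (Rr (w * δ) * u * (q * s * D * δ))
        (bt u (B (w * δ))) r = uS (fun x => W (w * δ) ((nm u : ℝ) * x)) (Rr (w * δ) * u)
        (bt u (B (w * δ))) r := by
      rw [← uS_cop, if_pos hr3]
    rw [hcut]
    unfold Vr
    by_cases hc : IsCoprime (s * δ) q ∧ IsCoprime (R * (s * δ)) D ∧ IsCoprime δ s
    · obtain ⟨hc1, hc2, hc3⟩ := hc
      have hδq' : IsCoprime δ q := hc1.of_mul_left_right
      have hsq' : IsCoprime s q := hc1.of_mul_left_left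
      have hδR : IsCoprime δ R := by
        rw [isCoprime_comm, isCoprime_iff_pp hRp]
        intro p hp h1 h2
        exact hp.prime.not_isUnit (hδq'.isUnit_of_dvd' h2 (hR.2 p hp.prime h1))
      have hδuw : IsCoprime δ (u * w ^ 2) := by rw [← hRs]; exact hδR.mul_right hc3
      have hδu : IsCoprime δ u := hδuw.of_mul_right_left
      have hδw : IsCoprime δ w :=
        (IsCoprime.pow_right_iff (by norm_num)).mp hδuw.of_mul_right_right
      have i1 : IsCoprime (s * (r * δ ^ 2)) q :=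
        hsq'.mul_left (hrq.mul_left hδq'.pow_left)
      have i2 : IsCoprime (R * (s * (r * δ ^ 2))) D :=
        hc2.of_mul_left_left.mul_left (hc2.of_mul_left_right.of_mul_left_left.mul_left
          (hrD.mul_left hc2.of_mul_left_right.of_mul_left_right.pow_left))
      rw [if_pos ⟨hr1, hr2, hrδ, hrs.mul_left hc3⟩]
      unfold cf
      rw [if_pos ⟨hc1, hc2, hc3⟩]
      unfold tws
      rw [if_pos i1]
      unfold vD tws
      rw [if_pos i2, one_mul]
      have e0 : R * (s * (r * δ ^ 2)) = (u * r) * (w * δ) ^ 2 := by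
        linear_combination (r * δ ^ 2) * hRs
      have hwδ : IsPrim (w * δ) := hw.mul hδ
      have hwδq : Squarefree (w * δ) :=
        (squarefree_mul_iff.mpr ⟨hδw.symm.isRelPrime, hwq, hδq⟩)
      have hur : Squarefree (u * r) :=
        (squarefree_mul_iff.mpr ⟨hru.symm.isRelPrime, huq, hr2⟩)
      have hcop : IsCoprime (u * r) (w * δ) :=
        (huw.mul_right hδu.symm).mul_left (hrw.mul_right hrδ)
      have e1 : v (R * (s * (r * δ ^ 2))) = ev (w * δ) * (χ (u * r) * (sy Q (u * r) *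
          uS (W (w * δ)) (Rr (w * δ)) (B (w * δ)) (u * r))) := by
        rw [e0]
        exact hv _ _ hwδ hwδq (hu.mul hr1) hur hcop
      have e2 : s * (r * δ ^ 2) = (s * δ ^ 2) * r := by ring
      have e3 : R * (s * (r * δ ^ 2)) = (R * (s * δ ^ 2)) * r := by ring
      beta_reduce
      rw [e1, hχ u r hu hr1, sy_mulR hu hr1, uS_mul _ _ (hB _) hu r,
        hg _ (hs.mul hrδ2), e3, e2, sy_mulL (x := s * δ ^ 2) (y := r) hq1,
        sy_mulL (x := s * δ ^ 2) (y := r) hq2, sy_mulL (x := R * (s * δ ^ 2)) (y := r) hD,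
        hg0 _ _ (hs.mul hδ2) hr1, sy_mulL (x := r) (hs.pow 2), sy_mulL (x := Q) hr1,
        sy_mulL (x := q₁ * q₂ ^ 2) hr1, sy_mulL (x := q₁) hr1, sy_mulL (x := D ^ 2) hr1,
        ← conj_sy_sq hr1 hq2, ← conj_sy_sq hr1 hD, sy_r_sq hr1 hs, ← recip hr1 hq1]
      simp only [map_mul]
      ring
    · unfold cf
      rw [if_neg hc, zero_mul]
      by_cases h1 : IsPrim r ∧ Squarefree r ∧ IsCoprime r δ ∧ IsCoprime (r * δ) s
      · rw [if_pos h1]
        unfold tws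
        by_cases h2 : IsCoprime (s * (r * δ ^ 2)) q
        · rw [if_pos h2]
          unfold vD tws
          by_cases h3 : IsCoprime (R * (s * (r * δ ^ 2))) D
          · exfalso
            apply hc
            have j1 : IsCoprime (δ ^ 2) q := h2.of_mul_left_right.of_mul_left_right
            have j2 : IsCoprime (δ ^ 2) D := h3.of_mul_left_right.of_mul_left_right.of_mul_left_right
            have j3 : IsCoprime δ q := (IsCoprime.pow_left_iff (by norm_num)).mp j1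
            have j4 : IsCoprime δ D := (IsCoprime.pow_left_iff (by norm_num)).mp j2
            exact ⟨h2.of_mul_left_left.mul_left j3,
              h3.of_mul_left_left.mul_left (h3.of_mul_left_right.of_mul_left_left.mul_left j4),
              h1.2.2.2.of_mul_left_right⟩
          · rw [if_neg h3]; ring
        · rw [if_neg h2]; ring
      · rw [if_neg h1]
  · have h0 : uS (fun x => W (w * δ) ((nm u : ℝ) * x)) (Rr (w * δ) * u * (q * s * D * δ))
        (bt u (B (w * δ))) r = 0 := by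
      by_contra h
      obtain ⟨h1, h2, h3, -⟩ := uS_supp h
      exact hr ⟨h1, h2, h3.of_mul_right_right⟩
    rw [h0, mul_zero, mul_zero, mul_zero]
    unfold Vr
    by_cases h1 : IsPrim r ∧ Squarefree r ∧ IsCoprime r δ ∧ IsCoprime (r * δ) s
    · rw [if_pos h1]
      unfold tws
      by_cases h2 : IsCoprime (s * (r * δ ^ 2)) q
      · rw [if_pos h2]
        unfold vD tws
        by_cases h3 : IsCoprime (R * (s * (r * δ ^ 2))) D
        · exfalso
          apply hr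
          refine ⟨h1.1, h1.2.1, ?_⟩
          have j1 : IsCoprime r q := h2.of_mul_left_right.of_mul_left_left
          have j2 : IsCoprime r D := h3.of_mul_left_right.of_mul_left_right.of_mul_left_left
          exact ((j1.mul_right h1.2.2.2.of_mul_left_left).mul_right j2).mul_right h1.2.2.1
        · rw [if_neg h3]; ring
      · rw [if_neg h2]; ring
    · rw [if_neg h1]

lemma Vr_zero {R q D s δ : Eis} {g v : Eis → ℂ} (hv : ∀ x, v x ≠ 0 → CbF x)
    (h : ¬ CbF (R * s)) (r : Eis) : Vr (tws R q g (vD D v)) s δ r = 0 := by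
  classical
  unfold Vr
  split_ifs with h1
  · have h2 : tws R q g (vD D v) (s * (r * δ ^ 2)) = 0 := by
      unfold tws
      split_ifs with h3
      · have h4 : vD D v (R * (s * (r * δ ^ 2))) = 0 := by
          unfold vD tws
          split_ifs with h5
          · rw [one_mul]
            have h6 : v (R * (s * (r * δ ^ 2))) = 0 := by
              by_contra h7
              apply h
              intro p hp hd
              refine hv _ h7 p hp (hd.trans ⟨r * δ ^ 2, by ring⟩)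
            rw [h6, mul_zero]
          · rfl
        rw [h4, mul_zero]
      · rfl
    rw [h2, zero_mul]
  · rfl

/-- `R s = u w²` -/
lemma exists_uw {x : Eis} (hx : IsPrim x) (h : CbF x) : ∃ u w, IsPrim u ∧ Squarefree u ∧
    IsPrim w ∧ Squarefree w ∧ IsCoprime u w ∧ x = u * w ^ 2 := E3A164.cbf_dec hx h

/-- the data of the twist -/
lemma twc_split {M' q : Eis} {J : ℤ} {ξ : ℝ} {g : Eis → ℂ} (h : TwC M' J q ξ g) :
    ∃ (q₁ q₂ : Eis) (η : Eis → ℂ) (j : ℤ), IsPrim q₁ ∧ IsPrim q₂ ∧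
      (∀ p : Eis, Prime p → p ∣ q₁ * q₂ → p ∣ q) ∧ End699.HC M' η ∧ (j = 0 ∨ j = J) ∧
      PSer47.IsChar (E4Bd783.gx η j ξ) ∧
      ∀ y, g y = sy y q₁ * conj (sy y q₂) * E4Bd783.gx η j ξ y := by
  obtain ⟨q₁, q₂, η, j, h1, h2, h3, h4, h5, h6⟩ := h
  refine ⟨q₁, q₂, η, j, h1, h2, h3, h4, h5, E4Bd783.gx_isChar h4 j ξ, fun y => ?_⟩
  rw [h6, E4Bd783.gx]
  ring

end Crest.Agent.R017.E4y92
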