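import Crest.Agent.R017.GHB4_842
import Crest.Agent.R017.E4y_92
import Crest.Agent.R017.E4U0_47

/-!
# Row 17, E4, x-side by the cubic large sieve with a natural factor (helper842)

`sd_hb` : `∑_{d cube-free, nm d ≤ K} nm(d)⁻¹ ‖Sd v d‖² ‖CS b d‖²` for arbitrary cube-free `v` and
arbitrary natural `b`; `mo2_hb` : the same in the form `Mo2`.
-/

set_option autoImplicit false
set_option maxHeartbeats 400000

noncomputable section

open Complex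
open scoped ComplexConjugate Classical

namespace Crest.Agent.R017.GHB842

open Crest.Agent.R012 Crest.Agent.R012.Eis
open Crest.Agent.R012.LS2 (S mem_S HB Final)
open Crest.Agent.R012.Div277 (dvs mem_dvs isPrim_of_mem_dvs dvd_of_mem_dvs tau tau_le_rpow
  sum_primBall_dvs sum_inv_primBall_le poly_log_le)
open Crest.Agent.R017.CM106 (CS)
open Crest.Agent.R017.PX764 (norm_sy_le' n6)
open Crest.Agent.R017.E1551 (nmpos CS_fin nm_ge_one)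
open Crest.Agent.R017.C70 (JC CbF OKJ)
open Crest.Agent.R017.E4352 (Sd)
open Crest.Agent.R017.E4v5 (blk Mo2)
open Crest.Agent.R017.E4y92 (Vr Sd_sq)
open Crest.Agent.R017.E3P842 (CS_smul_sy)
open Gauss880 (syG)

lemma Vr_ne {v : Eis → ℂ} {s δ r : Eis} (h : Vr v s δ r ≠ 0) :
    (IsPrim r ∧ Squarefree r ∧ IsCoprime r δ ∧ IsCoprime (r * δ) s) ∧ v (s * (r * δ ^ 2)) ≠ 0 := by
  unfold Vr at h
  split_ifs at h with h1
  · exact ⟨h1, left_ne_zero_of_mul h⟩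
  · exact absurd rfl h

/-- the energy of `v` at the square part `δ` -/
def En (V : ℝ) (v : Eis → ℂ) (δ : Eis) : ℝ :=
  ∑ r ∈ (S V).filter (fun r => IsCoprime r δ), ‖v (r * δ ^ 2)‖ ^ 2

lemma En_nonneg (V : ℝ) (v : Eis → ℂ) (δ : Eis) : 0 ≤ En V v δ :=
  Finset.sum_nonneg fun _ _ => by positivity

lemma alg_s {K VB s d : ℝ} (hK : 0 ≤ K) (hV : 0 ≤ VB) (hs : 1 ≤ s) (hd : 1 ≤ d) :
    s * (K / s ^ 2 + VB / (s * d ^ 2) + (K / s ^ 2 * (VB / (s * d ^ 2))) ^ ((2 : ℝ) / 3)) ≤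
      K + VB / d ^ 2 + (K * (VB / d ^ 2)) ^ ((2 : ℝ) / 3) := by
  have s0 : 0 < s := by linarith
  have d0 : 0 < d := by linarith
  have e3 : (K / s ^ 2 * (VB / (s * d ^ 2))) ^ ((2 : ℝ) / 3) =
      (K * (VB / d ^ 2)) ^ ((2 : ℝ) / 3) * (s ^ 2)⁻¹ := by
    have h1 : K / s ^ 2 * (VB / (s * d ^ 2)) = (K * (VB / d ^ 2)) * (s ^ 3)⁻¹ := by
      field_simp
    have h2 : ((s ^ 3)⁻¹) ^ ((2 : ℝ) / 3) = (s ^ 2)⁻¹ := by
      rw [Real.inv_rpow (by positivity), ← Real.rpow_natCast s 3, ← Real.rpow_mul s0.le,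
        ← Real.rpow_natCast s 2]
      norm_num
    rw [h1, Real.mul_rpow (by positivity) (by positivity), h2]
  rw [e3]
  set Z := (K * (VB / d ^ 2)) ^ ((2 : ℝ) / 3) with hZ
  have hZ0 : 0 ≤ Z := by positivity
  have t1 : s * (K / s ^ 2) ≤ K := by
    have : s * (K / s ^ 2) = K / s := by field_simp
    rw [this]; exact div_le_self hK hs
  have t2 : s * (VB / (s * d ^ 2)) = VB / d ^ 2 := by field_simp
  have t3 : s * (Z * (s ^ 2)⁻¹) ≤ Z := by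
    have : s * (Z * (s ^ 2)⁻¹) = Z / s := by field_simp
    rw [this]; exact div_le_self hZ0 hs
  calc s * (K / s ^ 2 + VB / (s * d ^ 2) + Z * (s ^ 2)⁻¹) =
      s * (K / s ^ 2) + s * (VB / (s * d ^ 2)) + s * (Z * (s ^ 2)⁻¹) := by ring
    _ ≤ _ := by rw [t2]; linarith

/-- one pair `(s, δ)` -/
lemma one_sd {ε C : ℝ} (hε : 0 ≤ ε) (hC0 : 0 ≤ C) (hC : ∀ M N : ℝ, 1 ≤ M → 1 ≤ N →
    HB M N (C * (M * N) ^ ε * (M + N + (M * N) ^ ((2 : ℝ) / 3)))) {K V B : ℝ} (hK : 1 ≤ K)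
    (hV : 1 ≤ V) (hB : 1 ≤ B) {v b : Eis → ℂ}
    (hv : ∀ x, v x ≠ 0 → IsPrim x ∧ CbF x ∧ (nm x : ℝ) ≤ V)
    (hb : ∀ n, b n ≠ 0 → n ∈ primBall ⌊B⌋₊) {Mb : ℝ} (hMb0 : 0 ≤ Mb)
    (hMb : ∀ s, IsPrim s → ∑ d ∈ primBall ⌊B⌋₊, ‖b (s * d)‖ ^ 2 ≤ Mb / nm s) {τ : ℝ}
    (hτ : ∀ u ∈ primBall ⌊V * B⌋₊, (tau u : ℝ) ≤ τ) (hτ0 : 0 ≤ τ) {s δ : Eis} (hs : IsPrim s)
    (hδ : IsPrim δ) :
    (nm s : ℝ) * ∑ a ∈ S (K / (nm s : ℝ) ^ 2), ‖CS (Vr v s δ) a * CS b (a * s ^ 2)‖ ^ 2 ≤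
      WW C ε τ K V B * Mb * Qd K V B (nm δ) * ∑ r ∈ S V, ‖Vr v s δ r‖ ^ 2 := by
  have hV0 : 0 ≤ V := by linarith
  have hB0 : 0 ≤ B := by linarith
  have hK0 : 0 ≤ K := by linarith
  have hs1 : (1 : ℝ) ≤ nm s := nm_ge_one hs.ne_zero
  have hd1 : (1 : ℝ) ≤ nm δ := nm_ge_one hδ.ne_zero
  set σ : ℝ := (nm s : ℝ) with hσ
  set d : ℝ := (nm δ : ℝ) with hd
  set K' : ℝ := K / σ ^ 2 with hK'
  have hK'0 : 0 ≤ K' := by positivity
  set N : ℝ := V / (σ * d ^ 2) with hN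
  have hlogB := Real.log_nonneg hB
  have hVB1 : 1 ≤ V * B := by nlinarith
  have hlogVB := Real.log_nonneg hVB1
  have hWW0 : 0 ≤ WW C ε τ K V B := by unfold WW; positivity
  have hSV : 0 ≤ ∑ r ∈ S V, ‖Vr v s δ r‖ ^ 2 := Finset.sum_nonneg fun _ _ => by positivity
  have hQ := Qd_nonneg hK0 hV0 hB0 (by positivity : 0 ≤ d)
  have hRHS : 0 ≤ WW C ε τ K V B * Mb * Qd K V B d * ∑ r ∈ S V, ‖Vr v s δ r‖ ^ 2 := by
    positivity
  set b' : Eis → ℂ := fun n => b n * sy (s ^ 2) n with hb'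
  have hbp : ∀ n, b n ≠ 0 → IsPrim n := fun n hn => (mem_primBall.mp (hb n hn)).2
  have e0 : ∀ a, CS b (a * s ^ 2) = CS b' a := fun a => by
    rw [hb', ← CS_smul_sy hbp]
    congr 1
    ring
  simp only [e0]
  by_cases hK1 : K' < 1
  · have : S K' = ∅ := by
      rw [Finset.eq_empty_iff_forall_notMem]
      intro k hk
      obtain ⟨k1, k2, k3⟩ := (mem_S hK'0).1 hk
      have : (1 : ℝ) ≤ nm k := nm_ge_one k2.ne_zero
      linarith
    rw [this, Finset.sum_empty, mul_zero]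
    exact hRHS
  push Not at hK1
  by_cases hbe : ∀ n, Vr v s δ n = 0
  · have : ∀ k, CS (Vr v s δ) k = 0 := fun k => by unfold CS; simp [hbe]
    simp only [this]
    simpa using hRHS
  push Not at hbe
  obtain ⟨n₀, hn₀⟩ := hbe
  have hNmem : ∀ n, Vr v s δ n ≠ 0 → IsPrim n ∧ Squarefree n ∧ (nm n : ℝ) ≤ N ∧ 1 ≤ N := by
    intro n hn
    obtain ⟨⟨g1, g2, g3, g4⟩, g5⟩ := Vr_ne hn
    have g6 := (hv _ g5).2.2
    have e1 : (nm (s * (n * δ ^ 2)) : ℝ) = nm n * (σ * d ^ 2) := by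
      rw [nm_mul, nm_mul, nm_pow]
      push_cast
      ring
    rw [e1] at g6
    have g7 : (nm n : ℝ) ≤ N := by
      rw [hN, le_div_iff₀ (by positivity)]
      exact g6
    exact ⟨g1, g2, g7, (nm_ge_one g1.ne_zero).trans g7⟩
  have hN1 : 1 ≤ N := (hNmem n₀ hn₀).2.2.2
  have hN0 : 0 ≤ N := by linarith
  have hNV : N ≤ V := by
    refine div_le_self hV0 ?_
    have h1 : (1 : ℝ) ≤ d ^ 2 := one_le_pow₀ hd1
    nlinarith
  have hNB : N * B ≤ V * B := mul_le_mul_of_nonneg_right hNV hB0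
  have hNB1 : 1 ≤ N * B := by nlinarith
  have hK'K : K' ≤ K := div_le_self hK0 (one_le_pow₀ hs1)
  have key := prod_hb1 hε hC0 hC hK1 hN1 hB (β := Vr v s δ) (b := b')
    (fun n hn => (mem_S hN0).2 ⟨(hNmem n hn).2.2.1, (hNmem n hn).1, (hNmem n hn).2.1⟩)
    (fun n hn => hb n (left_ne_zero_of_mul hn)) hMb0
    (fun u hu => by
      refine le_trans (Finset.sum_le_sum fun x hx => ?_) (hMb u hu)
      refine pow_le_pow_left₀ (norm_nonneg _) ?_ 2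
      rw [hb']
      simp only [norm_mul]
      exact mul_le_of_le_one_right (norm_nonneg _) (norm_sy_le' (hu.mul (mem_primBall.mp hx).2)))
    (T := τ) (fun u hu => hτ u (Div277.primBall_mono (Nat.floor_le_floor hNB) hu)) hτ0
  have w1 : (100 * (1 + Real.log B)) ^ 4 *
      ((100 * (1 + Real.log (N * B))) * (C * (K' * (N * B)) ^ ε) * τ ^ 2) ≤ WW C ε τ K V B := by
    unfold WW
    have l1 : Real.log (N * B) ≤ Real.log (V * B) := Real.log_le_log (by linarith) hNB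
    have l0 := Real.log_nonneg hNB1
    have l2 : K' * (N * B) ≤ K * (V * B) := mul_le_mul hK'K hNB (by positivity) hK0
    have l3 : (K' * (N * B)) ^ ε ≤ (K * (V * B)) ^ ε := Real.rpow_le_rpow (by positivity) l2 hε
    gcongr
  have w2 : ∑ n ∈ S N, ‖Vr v s δ n‖ ^ 2 ≤ ∑ n ∈ S V, ‖Vr v s δ n‖ ^ 2 := by
    refine Finset.sum_le_sum_of_subset_of_nonneg (fun n hn => ?_) fun _ _ _ => by positivity
    obtain ⟨k1, k2, k3⟩ := (mem_S hN0).1 hn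
    exact (mem_S hV0).2 ⟨k1.trans hNV, k2, k3⟩
  have w3 := alg_s (K := K) (VB := V * B) (s := σ) (d := d) hK0 (by positivity) hs1 hd1
  have e6 : V * B / (σ * d ^ 2) = N * B := by rw [hN]; ring
  rw [e6] at w3
  calc σ * ∑ a ∈ S K', ‖CS (Vr v s δ) a * CS b' a‖ ^ 2
      ≤ σ * (WW C ε τ K V B * (Mb * (K' + N * B + (K' * (N * B)) ^ ((2 : ℝ) / 3)) *
          ∑ n ∈ S V, ‖Vr v s δ n‖ ^ 2)) := by
        refine mul_le_mul_of_nonneg_left (key.trans ?_) (by positivity)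
        rw [← mul_assoc ((100 * (1 + Real.log B)) ^ 4)]
        exact mul_le_mul w1 (mul_le_mul_of_nonneg_left w2 (by positivity)) (by positivity) hWW0
    _ = WW C ε τ K V B * Mb * (σ * (K' + N * B + (K' * (N * B)) ^ ((2 : ℝ) / 3))) *
        ∑ n ∈ S V, ‖Vr v s δ n‖ ^ 2 := by ring
    _ ≤ WW C ε τ K V B * Mb * (K + V * B / d ^ 2 + (K * (V * B / d ^ 2)) ^ ((2 : ℝ) / 3)) *
        ∑ n ∈ S V, ‖Vr v s δ n‖ ^ 2 := by
        refine mul_le_mul_of_nonneg_right ?_ hSV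
        exact mul_le_mul_of_nonneg_left w3 (by positivity)
    _ = _ := by unfold Qd; ring

/-- regrouping `(s, r) ↦ s r` -/
lemma sum_Vr_le {V : ℝ} (hV : 1 ≤ V) {v : Eis → ℂ}
    (hv : ∀ x, v x ≠ 0 → IsPrim x ∧ CbF x ∧ (nm x : ℝ) ≤ V) {δ : Eis} (hδ : IsPrim δ) {τ : ℝ}
    (hτ : ∀ u ∈ primBall ⌊V⌋₊, (tau u : ℝ) ≤ τ) (Ss : Finset Eis)
    (hSs : ∀ s ∈ Ss, IsPrim s ∧ Squarefree s) :
    ∑ s ∈ Ss, ∑ r ∈ S V, ‖Vr v s δ r‖ ^ 2 ≤ τ * En V v δ := by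
  have hV0 : 0 ≤ V := by linarith
  set A := (Ss ×ˢ S V).filter (fun z => Vr v z.1 δ z.2 ≠ 0) with hA
  set T := (S V).filter (fun r => IsCoprime r δ) with hT
  have hmem : ∀ z ∈ A, IsPrim z.1 ∧ IsPrim z.2 ∧ z.1 * z.2 ∈ T ∧
      ‖Vr v z.1 δ z.2‖ ≤ ‖v (z.1 * z.2 * δ ^ 2)‖ := by
    intro z hz
    rw [hA, Finset.mem_filter, Finset.mem_product] at hz
    obtain ⟨⟨h1, h2⟩, h3⟩ := hz
    obtain ⟨s1, s2⟩ := hSs _ h1
    obtain ⟨⟨g1, g2, g3, g4⟩, g5⟩ := Vr_ne h3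
    have g6 := (hv _ g5).2.2
    have hd1 : (1 : ℝ) ≤ nm δ := nm_ge_one hδ.ne_zero
    have hsr : IsCoprime z.1 z.2 := g4.of_mul_left_left.symm
    refine ⟨s1, g1, ?_, ?_⟩
    · rw [hT, Finset.mem_filter, mem_S hV0]
      refine ⟨⟨?_, s1.mul g1, squarefree_mul_iff.mpr ⟨hsr.isRelPrime, s2, g2⟩⟩, ?_⟩
      · refine le_trans ?_ g6
        rw [nm_mul, nm_mul, nm_mul, nm_pow]
        push_cast
        have h4 : (1 : ℝ) ≤ (nm δ : ℝ) ^ 2 := one_le_pow₀ hd1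
        have h5 : (0 : ℝ) ≤ nm z.1 * nm z.2 := by positivity
        nlinarith
      · exact g4.of_mul_left_right.symm.mul_left g3
    · unfold Vr
      rw [if_pos ⟨g1, g2, g3, g4⟩, norm_mul]
      have e1 : z.1 * (z.2 * δ ^ 2) = z.1 * z.2 * δ ^ 2 := by ring
      rw [e1]
      exact mul_le_of_le_one_right (norm_nonneg _) (norm_sy_le' (s1.pow 2))
  have e1 : ∑ s ∈ Ss, ∑ r ∈ S V, ‖Vr v s δ r‖ ^ 2 = ∑ z ∈ A, ‖Vr v z.1 δ z.2‖ ^ 2 := by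
    rw [← Finset.sum_product', hA, Finset.sum_filter]
    refine Finset.sum_congr rfl fun z _ => ?_
    split_ifs with h
    · rfl
    · push Not at h
      rw [h]; simp
  have hmap : ∀ z ∈ A, z.1 * z.2 ∈ T := fun z hz => (hmem z hz).2.2.1
  calc ∑ s ∈ Ss, ∑ r ∈ S V, ‖Vr v s δ r‖ ^ 2 = ∑ z ∈ A, ‖Vr v z.1 δ z.2‖ ^ 2 := e1
    _ ≤ ∑ z ∈ A, ‖v (z.1 * z.2 * δ ^ 2)‖ ^ 2 := Finset.sum_le_sum fun z hz =>
        pow_le_pow_left₀ (norm_nonneg _) (hmem z hz).2.2.2 2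
    _ = ∑ n ∈ T, ∑ z ∈ A.filter (fun z => z.1 * z.2 = n), ‖v (z.1 * z.2 * δ ^ 2)‖ ^ 2 :=
        (Finset.sum_fiberwise_of_maps_to hmap _).symm
    _ ≤ ∑ n ∈ T, τ * ‖v (n * δ ^ 2)‖ ^ 2 := by
        refine Finset.sum_le_sum fun n hn => ?_
        have hn' := (mem_S hV0).1 (Finset.mem_filter.mp hn).1
        have e2 : ∑ z ∈ A.filter (fun z => z.1 * z.2 = n), ‖v (z.1 * z.2 * δ ^ 2)‖ ^ 2 =
            ((A.filter (fun z => z.1 * z.2 = n)).card : ℝ) * ‖v (n * δ ^ 2)‖ ^ 2 := by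
          rw [Finset.sum_congr rfl (fun z hz => by rw [(Finset.mem_filter.mp hz).2]),
            Finset.sum_const, nsmul_eq_mul]
        rw [e2]
        refine mul_le_mul_of_nonneg_right ?_ (by positivity)
        have hcard : (A.filter (fun z => z.1 * z.2 = n)).card ≤ (dvs n).card := by
          refine Finset.card_le_card_of_injOn (fun z => z.1) (fun z hz => ?_)
            (fun z hz z' hz' he => ?_)
          · obtain ⟨h1, h2⟩ := Finset.mem_filter.mp hz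
            exact (mem_dvs hn'.2.1.ne_zero).mpr ⟨(hmem z h1).1, h2 ▸ dvd_mul_right _ _⟩
          · obtain ⟨h1, h2⟩ := Finset.mem_filter.mp hz
            obtain ⟨h1', h2'⟩ := Finset.mem_filter.mp hz'
            have he' : z.1 = z'.1 := he
            refine Prod.ext he' ?_
            have : z.1 * z.2 = z.1 * z'.2 := by rw [h2, he', h2']
            exact mul_left_cancel₀ (hmem z h1).1.ne_zero this
        refine le_trans ?_ (hτ n (by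
          rw [mem_primBall]
          exact ⟨Nat.le_floor hn'.1, hn'.2.1⟩))
        exact_mod_cast hcard
    _ = τ * En V v δ := by rw [← Finset.mul_sum]; rfl

/-- with explicit parameters (x-side) -/
lemma sd_hb0 {ε C : ℝ} (hε : 0 ≤ ε) (hC0 : 0 ≤ C) (hC : ∀ M N : ℝ, 1 ≤ M → 1 ≤ N →
    HB M N (C * (M * N) ^ ε * (M + N + (M * N) ^ ((2 : ℝ) / 3)))) {K V B : ℝ} (hK : 1 ≤ K)
    (hV : 1 ≤ V) (hB : 1 ≤ B) {v b : Eis → ℂ}
    (hv : ∀ x, v x ≠ 0 → IsPrim x ∧ CbF x ∧ (nm x : ℝ) ≤ V)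
    (hb : ∀ n, b n ≠ 0 → n ∈ primBall ⌊B⌋₊) {Mb : ℝ} (hMb0 : 0 ≤ Mb)
    (hMb : ∀ s, IsPrim s → ∑ d ∈ primBall ⌊B⌋₊, ‖b (s * d)‖ ^ 2 ≤ Mb / nm s) {τ : ℝ}
    (hτ : ∀ u ∈ primBall ⌊V * B⌋₊, (tau u : ℝ) ≤ τ) (hτ0 : 0 ≤ τ) :
    ∑ d ∈ (primBall ⌊K⌋₊).filter CbF, ((nm d : ℝ))⁻¹ * (‖Sd v d‖ ^ 2 * ‖CS b d‖ ^ 2) ≤
      (100 * (1 + Real.log V)) * τ * (WW C ε τ K V B * Mb) *
        ∑ δ ∈ S V, (nm δ : ℝ) * Qd K V B (nm δ) * En V v δ := by
  have hV0 : 0 ≤ V := by linarith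
  have hB0 : 0 ≤ B := by linarith
  have hK0 : 0 ≤ K := by linarith
  have hlogV := Real.log_nonneg hV
  have hlogB := Real.log_nonneg hB
  have hVB1 : 1 ≤ V * B := by nlinarith
  have hlogVB := Real.log_nonneg hVB1
  have hWW0 : 0 ≤ WW C ε τ K V B := by unfold WW; positivity
  set L : ℝ := 100 * (1 + Real.log V) with hL
  have hL0 : 0 ≤ L := by positivity
  have hLs : ∑ s ∈ S V, (1 / (nm s : ℝ)) ≤ L := by
    calc ∑ s ∈ S V, (1 / (nm s : ℝ)) ≤ ∑ s ∈ primBall ⌊V⌋₊, (1 / (nm s : ℝ)) := by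
          refine Finset.sum_le_sum_of_subset_of_nonneg ?_ fun _ _ _ => by positivity
          unfold S; exact Finset.filter_subset _ _
      _ ≤ L := by
          refine (sum_inv_primBall_le _).trans ?_
          have hY1 : 1 ≤ ⌊V⌋₊ := Nat.le_floor (by exact_mod_cast hV)
          have : Real.log ⌊V⌋₊ ≤ Real.log V :=
            Real.log_le_log (by exact_mod_cast hY1) (Nat.floor_le hV0)
          rw [hL]; linarith
  have hP0 : ∀ s ∈ S V, s ≠ 0 := fun s hs => ((mem_S hV0).1 hs).2.1.ne_zero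
  have s1 := sum_CbF hK (fun d => ((nm d : ℝ))⁻¹ * (‖Sd v d‖ ^ 2 * ‖CS b d‖ ^ 2))
    (fun d => by positivity)
  refine s1.trans ?_
  have s2 : ∀ s ∈ S K, ∑ a ∈ (S (K / (nm s : ℝ) ^ 2)).filter (fun k => IsCoprime k s),
      ((nm (a * s ^ 2) : ℝ))⁻¹ * (‖Sd v (a * s ^ 2)‖ ^ 2 * ‖CS b (a * s ^ 2)‖ ^ 2) ≤
      L * ∑ δ ∈ S V, (nm δ : ℝ) * (WW C ε τ K V B * Mb * Qd K V B (nm δ) *
        ∑ r ∈ S V, ‖Vr v s δ r‖ ^ 2) := by
    intro s hs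
    obtain ⟨hs1, hsp, hss⟩ := (mem_S hK0).1 hs
    have hKs : 0 ≤ K / (nm s : ℝ) ^ 2 := by positivity
    have ns := nmpos hsp.ne_zero
    have p1 : ∀ a ∈ (S (K / (nm s : ℝ) ^ 2)).filter (fun k => IsCoprime k s),
        ((nm (a * s ^ 2) : ℝ))⁻¹ * (‖Sd v (a * s ^ 2)‖ ^ 2 * ‖CS b (a * s ^ 2)‖ ^ 2) ≤
        L * ∑ δ ∈ S V, (nm δ : ℝ) * ((nm s : ℝ) * ‖CS (Vr v s δ) a * CS b (a * s ^ 2)‖ ^ 2) := by
      intro a ha
      rw [Finset.mem_filter, mem_S hKs] at ha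
      obtain ⟨⟨a1, a2, a3⟩, a4⟩ := ha
      have na := nmpos a2.ne_zero
      have e1 : ((nm (a * s ^ 2) : ℝ))⁻¹ * (‖Sd v (a * s ^ 2)‖ ^ 2 * ‖CS b (a * s ^ 2)‖ ^ 2) =
          (nm s : ℝ) * ‖∑ δ ∈ S V, sy (δ ^ 2) a * CS (Vr v s δ) a * CS b (a * s ^ 2)‖ ^ 2 := by
        rw [Sd_sq hV0 hsp hss a2 a3 a4 hv, nm_mul, nm_pow, ← Finset.sum_mul, norm_mul]
        push_cast
        field_simp
      rw [e1]
      have h1 := cauchy_w hP0 (fun δ => sy (δ ^ 2) a * CS (Vr v s δ) a * CS b (a * s ^ 2))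
      calc (nm s : ℝ) * ‖∑ δ ∈ S V, sy (δ ^ 2) a * CS (Vr v s δ) a * CS b (a * s ^ 2)‖ ^ 2
          ≤ (nm s : ℝ) * (L * ∑ δ ∈ S V, (nm δ : ℝ) *
              ‖CS (Vr v s δ) a * CS b (a * s ^ 2)‖ ^ 2) := by
            refine mul_le_mul_of_nonneg_left (h1.trans ?_) ns.le
            refine mul_le_mul hLs (Finset.sum_le_sum fun δ hδ => ?_)
              (Finset.sum_nonneg fun _ _ => by positivity) hL0
            refine mul_le_mul_of_nonneg_left ?_ (by positivity)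
            refine pow_le_pow_left₀ (norm_nonneg _) ?_ 2
            rw [mul_assoc, norm_mul]
            exact mul_le_of_le_one_left (norm_nonneg _) (norm_sy_le' a2)
        _ = _ := by
            rw [mul_left_comm, Finset.mul_sum]
            congr 1
            refine Finset.sum_congr rfl fun δ _ => ?_
            ring
    refine (Finset.sum_le_sum p1).trans ?_
    rw [← Finset.mul_sum, Finset.sum_comm]
    refine mul_le_mul_of_nonneg_left (Finset.sum_le_sum fun δ hδ => ?_) hL0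
    rw [← Finset.mul_sum, ← Finset.mul_sum]
    refine mul_le_mul_of_nonneg_left ?_ (by positivity)
    refine le_trans ?_ (one_sd hε hC0 hC hK hV hB hv hb hMb0 hMb hτ hτ0 hsp
      ((mem_S hV0).1 hδ).2.1)
    refine mul_le_mul_of_nonneg_left ?_ ns.le
    exact Finset.sum_le_sum_of_subset_of_nonneg (Finset.filter_subset _ _)
      fun _ _ _ => by positivity
  refine (Finset.sum_le_sum s2).trans ?_
  rw [← Finset.mul_sum, Finset.sum_comm, mul_assoc L, mul_assoc L]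
  refine mul_le_mul_of_nonneg_left ?_ hL0
  rw [Finset.mul_sum]
  refine Finset.sum_le_sum fun δ hδ => ?_
  rw [← Finset.mul_sum, ← Finset.mul_sum]
  have hQ := Qd_nonneg hK0 hV0 hB0 (Nat.cast_nonneg (nm δ) : (0 : ℝ) ≤ _)
  have h2 := sum_Vr_le hV hv ((mem_S hV0).1 hδ).2.1 (τ := τ)
    (fun u hu => hτ u (Div277.primBall_mono (Nat.floor_le_floor (by nlinarith)) hu)) (S K)
    (fun s hs => ((mem_S hK0).1 hs).2)
  calc (nm δ : ℝ) * (WW C ε τ K V B * Mb * Qd K V B (nm δ) *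
        ∑ s ∈ S K, ∑ r ∈ S V, ‖Vr v s δ r‖ ^ 2)
      ≤ (nm δ : ℝ) * (WW C ε τ K V B * Mb * Qd K V B (nm δ) * (τ * En V v δ)) := by
        refine mul_le_mul_of_nonneg_left (mul_le_mul_of_nonneg_left h2 (by positivity))
          (by positivity)
    _ = _ := by ring

lemma final_alg2 {C1 C2 P6 Y LX Mb Sx W lv : ℝ} (h1 : 0 ≤ C1) (h2 : 0 ≤ C2) (h3 : 0 ≤ P6)
    (h4 : 0 ≤ Y) (h5 : 0 ≤ LX) (h6 : 0 ≤ Mb) (h7 : 0 ≤ Sx) (h8 : 0 ≤ W)
    (a1 : lv ≤ LX) (b1 : W ≤ LX ^ 4 * (LX * (C1 * Y ^ 3) * (C2 * Y ^ 2) ^ 2))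
    (b2 : LX ^ 6 ≤ 64 * (P6 * Y)) :
    lv * (C2 * Y ^ 2) * (W * Mb) * Sx ≤ C1 * (64 * P6) * C2 ^ 3 * Y ^ 10 * (Mb * Sx) := by
  calc lv * (C2 * Y ^ 2) * (W * Mb) * Sx
      ≤ LX * (C2 * Y ^ 2) * ((LX ^ 4 * (LX * (C1 * Y ^ 3) * (C2 * Y ^ 2) ^ 2)) * Mb) * Sx := by
        gcongr
    _ = C1 * C2 ^ 3 * Y ^ 9 * (LX ^ 6) * (Mb * Sx) := by ring
    _ ≤ C1 * C2 ^ 3 * Y ^ 9 * (64 * (P6 * Y)) * (Mb * Sx) := by gcongr
    _ = C1 * (64 * P6) * C2 ^ 3 * Y ^ 10 * (Mb * Sx) := by ring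

/-- **the x-side moment with a natural factor, by the large sieve** -/
theorem sd_hb {ε : ℝ} (hε : 0 < ε) : ∃ C : ℝ, 0 < C ∧ ∀ X K V B Mb : ℝ,
    1 ≤ K → 1 ≤ V → 1 ≤ B → K ≤ X → V ≤ X → B ≤ X → 0 ≤ Mb → ∀ (v b : Eis → ℂ),
      (∀ x, v x ≠ 0 → IsPrim x ∧ CbF x ∧ (nm x : ℝ) ≤ V) →
      (∀ n, b n ≠ 0 → n ∈ primBall ⌊B⌋₊) →
      (∀ s, IsPrim s → ∑ d ∈ primBall ⌊B⌋₊, ‖b (s * d)‖ ^ 2 ≤ Mb / nm s) →
    ∑ d ∈ (primBall ⌊K⌋₊).filter CbF, ((nm d : ℝ))⁻¹ * (‖Sd v d‖ ^ 2 * ‖CS b d‖ ^ 2) ≤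
      C * X ^ ε * (Mb * ∑ δ ∈ S V, (nm δ : ℝ) * Qd K V B (nm δ) * En V v δ) := by
  set η : ℝ := ε / 10 with hη
  have hη0 : 0 < η := by positivity
  obtain ⟨C1, hC1, hHB⟩ := LS2.hb_final η hη0
  obtain ⟨C2, hC2, hτ⟩ := tau_le_rpow hη0
  have hC20 : 0 < C2 := by linarith
  set P6 : ℝ := (100 * (1 + ((6 : ℕ) : ℝ) / η)) ^ 6 with hP6
  have hP60 : 0 < P6 := by positivity
  refine ⟨C1 * (64 * P6) * C2 ^ 3, by positivity, ?_⟩
  intro X K V B Mb hK hV hB hKX hVX hBX hMb0 v b hv hb hMb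
  have hX : 1 ≤ X := hK.trans hKX
  have hX0 : 0 < X := by linarith
  have hVB : V * B ≤ X ^ 2 := by
    rw [pow_two]
    exact mul_le_mul hVX hBX (by linarith) hX0.le
  set Y : ℝ := X ^ η with hY
  have hY0 : 0 < Y := by positivity
  have hYn : ∀ n : ℕ, (X ^ n) ^ η = Y ^ n := fun n => by
    rw [hY, ← Real.rpow_natCast X n, ← Real.rpow_mul hX0.le, ← Real.rpow_natCast (X ^ η) n,
      ← Real.rpow_mul hX0.le]
    congr 1
    ring
  set τ : ℝ := C2 * Y ^ 2 with hτd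
  have hτ0 : 0 ≤ τ := by positivity
  have hτ' : ∀ u ∈ primBall ⌊V * B⌋₊, (tau u : ℝ) ≤ τ := by
    intro u hu
    obtain ⟨u1, u2⟩ := mem_primBall.mp hu
    have huX : (nm u : ℝ) ≤ X ^ 2 := ((Nat.le_floor_iff (by positivity)).mp u1).trans hVB
    refine (hτ u u2.ne_zero).trans ?_
    rw [hτd, ← hYn 2]
    exact mul_le_mul_of_nonneg_left (Real.rpow_le_rpow (Nat.cast_nonneg _) huX hη0.le) hC20.le
  refine (sd_hb0 hη0.le hC1.le hHB hK hV hB hv hb hMb0 hMb hτ' hτ0).trans ?_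
  set Sx : ℝ := ∑ δ ∈ S V, (nm δ : ℝ) * Qd K V B (nm δ) * En V v δ with hSx
  have hSx0 : 0 ≤ Sx := Finset.sum_nonneg fun δ _ => by
    have := Qd_nonneg (by linarith : 0 ≤ K) (by linarith : 0 ≤ V) (by linarith : 0 ≤ B)
      (Nat.cast_nonneg (nm δ) : (0 : ℝ) ≤ _)
    have h2 := En_nonneg V v δ
    positivity
  set LX : ℝ := 200 * (1 + Real.log X) with hLX
  have lX := Real.log_nonneg hX
  have lV := Real.log_nonneg hV
  have lB := Real.log_nonneg hB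
  have lVB : 0 ≤ Real.log (V * B) := Real.log_nonneg (by nlinarith)
  have l1 : Real.log V ≤ Real.log X := Real.log_le_log (by linarith) hVX
  have l2 : Real.log B ≤ Real.log X := Real.log_le_log (by linarith) hBX
  have l3 : Real.log (V * B) ≤ 2 * Real.log X := by
    rw [Real.log_mul (by linarith) (by linarith)]; linarith
  have a1 : 100 * (1 + Real.log V) ≤ LX := by rw [hLX]; linarith
  have a2 : 100 * (1 + Real.log B) ≤ LX := by rw [hLX]; linarith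
  have a3 : 100 * (1 + Real.log (V * B)) ≤ LX := by rw [hLX]; linarith
  have a4 : (K * (V * B)) ^ η ≤ Y ^ 3 := by
    rw [← hYn 3]
    refine Real.rpow_le_rpow (by positivity) ?_ hη0.le
    calc K * (V * B) ≤ X * X ^ 2 := mul_le_mul hKX hVB (by positivity) hX0.le
      _ = X ^ 3 := by ring
  have hLX0 : 0 ≤ LX := by positivity
  have b1 : WW C1 η τ K V B ≤ LX ^ 4 * (LX * (C1 * Y ^ 3) * τ ^ 2) := by
    unfold WW
    gcongr
  have b2 : LX ^ 6 ≤ 64 * (P6 * Y) := by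
    have h1 := poly_log_le 6 hX hη0
    calc LX ^ 6 = 64 * (100 * (1 + Real.log X)) ^ 6 := by rw [hLX]; ring
      _ ≤ 64 * (P6 * Y) := mul_le_mul_of_nonneg_left h1 (by norm_num)
  have b3 : X ^ ε = Y ^ 10 := by
    rw [hY, ← Real.rpow_natCast (X ^ η) 10, ← Real.rpow_mul hX0.le]
    congr 1
    rw [hη]; push_cast; ring
  have hWW0 : 0 ≤ WW C1 η τ K V B := by unfold WW; positivity
  rw [b3]
  exact final_alg2 hC1.le hC20.le hP60.le hY0.le hLX0 hMb0 hSx0 hWW0 a1 b1 b2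

/-- **the `Mo2` form** : family over `I`, ranges `V i`, `B i` may depend on `i` -/
theorem mo2_hb {ε : ℝ} (hε : 0 < ε) : ∃ C : ℝ, 0 < C ∧ ∀ (X : ℝ) (M : Eis) (I : Type)
    (_ : Fintype I) (lam V B Mb : I → ℝ) (κ : ℝ) (v b : I → Eis → ℂ),
    (∀ i, 0 < lam i) → 0 ≤ κ → (∀ i, 2 * (κ / lam i) ≤ X) → (∀ i, 1 ≤ V i) → (∀ i, V i ≤ X) →
      (∀ i, 1 ≤ B i) → (∀ i, B i ≤ X) → (∀ i, 0 ≤ Mb i) →
      (∀ i x, v i x ≠ 0 → IsPrim x ∧ CbF x ∧ (nm x : ℝ) ≤ V i) →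
      (∀ i n, b i n ≠ 0 → n ∈ primBall ⌊B i⌋₊) →
      (∀ i s, IsPrim s → ∑ d ∈ primBall ⌊B i⌋₊, ‖b i (s * d)‖ ^ 2 ≤ Mb i / nm s) →
    Mo2 M lam κ (fun i d => Sd (v i) d * CS (b i) d) ≤ C * X ^ ε * ∑ i, (κ / lam i) *
      (Mb i * ∑ δ ∈ S (V i), (nm δ : ℝ) * Qd (2 * (κ / lam i)) (V i) (B i) (nm δ) *
        En (V i) (v i) δ) := by
  obtain ⟨C, hC, h⟩ := sd_hb hε
  refine ⟨2 * C, by positivity, ?_⟩
  intro X M I _ lam V B Mb κ v b hlam hκ hκX hV hVX hB hBX hMb0 hv hb hMb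
  unfold Mo2
  rw [Finset.mul_sum]
  refine Finset.sum_le_sum fun i _ => ?_
  have hl := hlam i
  have hκl : 0 ≤ κ / lam i := by positivity
  have hS0 : 0 ≤ ∑ δ ∈ S (V i), (nm δ : ℝ) * Qd (2 * (κ / lam i)) (V i) (B i) (nm δ) *
        En (V i) (v i) δ := Finset.sum_nonneg fun δ _ => by
    have := Qd_nonneg (by linarith : 0 ≤ 2 * (κ / lam i)) (by linarith [hV i] : 0 ≤ V i)
      (by linarith [hB i] : 0 ≤ B i) (Nat.cast_nonneg (nm δ) : (0 : ℝ) ≤ _)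
    have h2 := En_nonneg (V i) (v i) δ
    positivity
  by_cases hK1 : 2 * (κ / lam i) < 1
  · have e : blk M (κ / lam i) = ∅ := by
      rw [Finset.eq_empty_iff_forall_notMem]
      intro d hd
      unfold blk at hd
      rw [Finset.mem_filter, mem_primBall] at hd
      have h1 : (1 : ℝ) ≤ nm d := nm_ge_one hd.1.2.ne_zero
      have h2 := (Nat.le_floor_iff (by linarith)).mp hd.1.1
      linarith
    rw [e, Finset.sum_empty]
    have hX0 : 0 ≤ X := by linarith [hV i, hVX i]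
    have := hMb0 i
    positivity
  push Not at hK1
  have h1 := h X (2 * (κ / lam i)) (V i) (B i) (Mb i) hK1 (hV i) (hB i) (hκX i) (hVX i) (hBX i)
    (hMb0 i) (v i) (b i) (hv i) (hb i) (hMb i)
  calc ∑ d ∈ blk M (κ / lam i), ‖Sd (v i) d * CS (b i) d‖ ^ 2
      ≤ ∑ d ∈ blk M (κ / lam i), 2 * (κ / lam i) * (((nm d : ℝ))⁻¹ *
          (‖Sd (v i) d‖ ^ 2 * ‖CS (b i) d‖ ^ 2)) := by
        refine Finset.sum_le_sum fun d hd => ?_
        unfold blk at hd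
        rw [Finset.mem_filter, mem_primBall] at hd
        have h3 := nmpos hd.1.2.ne_zero
        have h2 := (Nat.le_floor_iff (by linarith)).mp hd.1.1
        rw [norm_mul, mul_pow, ← mul_assoc]
        refine le_mul_of_one_le_left (by positivity) ?_
        rw [← div_eq_mul_inv, one_le_div h3]
        exact h2
    _ ≤ 2 * (κ / lam i) * ∑ d ∈ (primBall ⌊2 * (κ / lam i)⌋₊).filter CbF, ((nm d : ℝ))⁻¹ *
          (‖Sd (v i) d‖ ^ 2 * ‖CS (b i) d‖ ^ 2) := by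
        rw [← Finset.mul_sum]
        refine mul_le_mul_of_nonneg_left ?_ (by positivity)
        refine Finset.sum_le_sum_of_subset_of_nonneg (fun d hd => ?_) fun _ _ _ => by positivity
        unfold blk at hd
        rw [Finset.mem_filter] at hd ⊢
        exact ⟨hd.1, hd.2.2.1⟩
    _ ≤ 2 * (κ / lam i) * (C * X ^ ε * (Mb i * ∑ δ ∈ S (V i), (nm δ : ℝ) *
          Qd (2 * (κ / lam i)) (V i) (B i) (nm δ) * En (V i) (v i) δ)) :=
        mul_le_mul_of_nonneg_left h1 (by positivity)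
    _ = _ := by ring

/-- the energy of a twisted dilated sequence -/
lemma En_tws_le {V : ℝ} {R q : Eis} {g v : Eis → ℂ} (hg : ∀ y, IsPrim y → ‖g y‖ ≤ 1) {δ : Eis}
    (hδ : IsPrim δ) : En V (E4352.tws R q g v) δ ≤
      ∑ r ∈ (S V).filter (fun r => IsCoprime r δ), ‖v (R * (r * δ ^ 2))‖ ^ 2 := by
  unfold En
  refine Finset.sum_le_sum fun r hr => ?_
  have hrp : IsPrim r := by
    have h1 := (Finset.mem_filter.mp hr).1
    unfold S at h1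
    exact (mem_primBall.mp (Finset.mem_filter.mp h1).1).2
  refine pow_le_pow_left₀ (norm_nonneg _) ?_ 2
  unfold E4352.tws
  split_ifs
  · rw [norm_mul]
    exact mul_le_of_le_one_left (norm_nonneg _) (hg _ (hrp.mul (hδ.pow 2)))
  · rw [norm_zero]; exact norm_nonneg _

end Crest.Agent.R017.GHB842
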