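import Crest.Agent.R017.YC_61

/-!
# Row 17, R8 / E4 at list level: the `y`-side, all frequencies, closed forms, children (helper61)

* `fA`, `fB` : constraint functions of the boxes
* `GoodY d κ M q c Y e` : one of the closed forms is `≤ e` (nominal state, `Y` = largest possible
  shortening of the unmarked mass), and the principal frequencies are `≤ e`
* `yu_core` : every child of a nominal state with `GoodY .. e` satisfies `RT ≤ H ^ M * X ^ (e + ε)`
-/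

set_option autoImplicit false

noncomputable section

open Set

namespace Crest.Agent.R017.YU61

open Crest.Agent.R012 Crest.Agent.R012.Eis
open Crest.Agent.R017.FE47
open Crest.Agent.R017.XG702 (Pcs BG)
open Crest.Agent.R017.XT71 (Sys Win)
open Crest.Agent.R017.E5B71 (UB)
open Crest.Agent.R017.Prov71
open Crest.Agent.R017.B770
open Crest.Agent.R017.End699 Crest.Agent.R017.Sup271
open Crest.Agent.R017.ER911 Crest.Agent.R017.SC777 Crest.Agent.R017.ExpC702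
open Crest.Agent.R017.UBR61 Crest.Agent.R017.YM61 Crest.Agent.R017.YP61 Crest.Agent.R017.YC61
open Crest.Agent.R017.UBT973

/-! ### constraint functions -/

/-- one coordinate in `[0, K]` -/
def gK (K x : ℝ) : ℝ := max (-x) (x - K)

/-- the box `[0, K]` -/
def fA (K : ℝ) (q : (Fin 3 → ℝ) × (Kd → ℝ)) : ℝ :=
  max (gK K (q.1 0)) (max (gK K (q.1 1)) (max (gK K (q.1 2)) (max (gK K (q.2 .mo))
    (gK K (q.2 .am)))))

/-- the box with the constraints of `T6` -/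
def fB (K : ℝ) (q : (Fin 3 → ℝ) × (Kd → ℝ)) : ℝ :=
  max (fA K q) (max (27 * q.2 .mo - 8 * (q.1 0 - (q.1 1 + q.1 2)))
    (5 * q.1 0 - 14 * (q.1 1 + q.1 2)))

lemma gK_le {K x σ : ℝ} : gK K x ≤ σ ↔ -σ ≤ x ∧ x ≤ K + σ := by
  unfold gK
  rw [max_le_iff]
  constructor
  · rintro ⟨h1, h2⟩; constructor <;> linarith
  · rintro ⟨h1, h2⟩; constructor <;> linarith

lemma fA_le {K σ : ℝ} {q : (Fin 3 → ℝ) × (Kd → ℝ)} : fA K q ≤ σ ↔
    (∀ i, -σ ≤ q.1 i ∧ q.1 i ≤ K + σ) ∧ ∀ t, -σ ≤ q.2 t ∧ q.2 t ≤ K + σ := by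
  unfold fA
  simp only [max_le_iff, gK_le]
  constructor
  · rintro ⟨h0, h1, h2, h3, h4⟩
    refine ⟨fun i => ?_, fun t => ?_⟩
    · fin_cases i
      exacts [h0, h1, h2]
    · cases t
      exacts [h3, h4]
  · rintro ⟨h1, h2⟩
    exact ⟨h1 0, h1 1, h1 2, h2 .mo, h2 .am⟩

lemma cont_fA (K : ℝ) : Continuous (fA K) := by unfold fA gK; fun_prop

lemma cont_fB (K : ℝ) : Continuous (fB K) := by
  unfold fB
  exact (cont_fA K).max (by fun_prop)

lemma compact_fA (K : ℝ) : IsCompact {q | fA K q ≤ 1} := by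
  have hbox : IsCompact ((Set.pi Set.univ fun _ : Fin 3 => Set.Icc (-1) (K + 1)) ×ˢ
      (Set.pi Set.univ fun _ : Kd => Set.Icc (-1) (K + 1))) :=
    (isCompact_univ_pi fun _ => isCompact_Icc).prod (isCompact_univ_pi fun _ => isCompact_Icc)
  refine hbox.of_isClosed_subset (isClosed_le (cont_fA K) continuous_const) fun q hq => ?_
  have h := fA_le.1 (show fA K q ≤ 1 from hq)
  exact ⟨fun i _ => h.1 i, fun t _ => h.2 t⟩

lemma compact_fB (K : ℝ) : IsCompact {q | fB K q ≤ 1} :=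
  (compact_fA K).of_isClosed_subset (isClosed_le (cont_fB K) continuous_const)
    fun q hq => (le_max_left _ _).trans (show fB K q ≤ 1 from hq)

lemma fA_sub (K : ℝ) : {q | fA K q ≤ 0} ⊆ DomY K := by
  intro q hq
  have h := fA_le.1 (show fA K q ≤ 0 from hq)
  simpa [DomY] using h

lemma fB_sub (K : ℝ) : {q | fB K q ≤ 0} ⊆ DomB K := by
  intro q hq
  have hq' : fB K q ≤ 0 := hq
  unfold fB at hq'
  simp only [max_le_iff] at hq'
  obtain ⟨h1, h2, h3⟩ := hq'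
  exact ⟨fA_sub K h1, by linarith, by linarith⟩

/-! ### the closed forms of a nominal state -/

/-- one of the closed forms is `≤ e` : family `κ`, marked lumps `M`, unmarked mass `q`, amplifier
`c`, `Y` = largest possible shortening of `q` -/
def GoodY (d κ M q c Y e : ℝ) : Prop :=
  κ / 3 + 2 * (q + c) ≤ e ∧
    (EA d κ M q c ≤ e ∨
      (EB d κ M q c ≤ e ∧ 27 * q ≤ 8 * (κ - M) ∧ 5 * κ ≤ 14 * M) ∨
      EHs d κ (M + q + c) c ≤ e ∨
      (EHt d κ (M + q + c) q c ≤ e ∧ EHt d κ (M + q + c) (q - Y) c ≤ e))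

section
variable {Λ : Type*} {π : Λ → DPar} {h : ℝ → ℝ} {d : ℝ} {r s rc : EF}
variable {c₀ : ℝ} (hpu : PU h c₀) (hP : ∀ lam, (π lam).OK)
  (hN : ∀ lam k, k ≠ 0 → NPm (π lam).n (π lam).ψ (π lam).l₂ k) (c : Λ → ℝ)
  (R : ExpRules (7 / 8 + d) r s) (C : ExpC r (ex Dq (fun lam => Rc (π lam) h)))

include hpu hP hN R C

/-- **children of a nominal state** -/
theorem yu_core (hd : 0 ≤ d) (hd8 : d ≤ 1 / 8) {K : ℝ} (hK : 0 ≤ K) {ε : ℝ} (hε : 0 < ε) :
    ∃ σ : ℝ, 0 < σ ∧ ∀ (lam : Λ) (N : ℕ) (B : ℝ), ∃ (M₀ : ℕ) (X₀ : ℝ), 1 < X₀ ∧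
    ∀ X : ℝ, X₀ ≤ X → ∀ (a : Y2) (ps : List Pq), a.ok → 0 ≤ a.l → ps.length ≤ N →
      (∀ p ∈ ps, Dq.lump p ∨ Dq.nl X p ≤ σ) → S2.s₂ a ≤ X ^ B →
      (∀ p ∈ ps, Dq.s2 p ≤ X ^ B ∧ 0 ≤ Dq.len p) →
      ∀ H : ℝ, 1 ≤ H → S2.s₁ a ≤ H → (∀ p ∈ ps, Dq.s1 p ≤ H) →
      ∀ κ M q w Y e : ℝ, 0 ≤ κ → κ ≤ K → M ≤ K → 0 ≤ q → q ≤ K → 0 ≤ w → w ≤ K → 0 ≤ Y →
        |a.l / Real.log X - κ| ≤ σ → |Dq.mass X ps .am - w| ≤ σ → Dq.mass X ps .mo ≤ q + σ →
        q - Y - σ ≤ Dq.mass X ps .mo →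
        |(a.u₁.z + a.u₂.z) / Real.log X + Dq.mass X ps .mo - (M + q)| ≤ σ →
        GoodY d κ M q w Y e →
        RT (π lam) h (a.l + c lam) (a.u₁ :: a.u₂ :: ps) ≤ H ^ M₀ * X ^ (e + ε) := by
  set K₁ : ℝ := 3 * K + 1 with hK₁
  have uA := ubs_yt hpu hP hN c (cont_fA K₁) (compact_fA K₁) (fA_sub K₁)
    (by unfold EA YM61.eC; fun_prop) (ymA hpu hP c R C hd K₁)
  have uB := ubs_yt hpu hP hN c (cont_fB K₁) (compact_fB K₁) (fB_sub K₁)
    (by unfold EB; fun_prop) (ymB hpu hP c R C hd K₁)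
  have uS := ubs_yt hpu hP hN c (cont_fA K₁) (compact_fA K₁) (fA_sub K₁)
    (by unfold EHs EHb cl; fun_prop) (ymHs hpu hP c R C hd hd8 K₁)
  have uT := ubs_yt hpu hP hN c (cont_fA K₁) (compact_fA K₁) (fA_sub K₁)
    (by unfold EHt EHb cl; fun_prop) (ymHt hpu hP c R C hd hd8 K₁)
  rw [UBs_iff] at uA uB uS uT
  have hε2 : 0 < ε / 2 := by linarith
  obtain ⟨σA, hσA, vA⟩ := uA (ε / 2) hε2
  obtain ⟨σB, hσB, vB⟩ := uB (ε / 2) hε2
  obtain ⟨σS, hσS, vS⟩ := uS (ε / 2) hε2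
  obtain ⟨σT, hσT, vT⟩ := uT (ε / 2) hε2
  set m₀ : ℝ := min (min σA σB) (min (min σS σT) (min ε 1)) with hm₀
  have hm0 : 0 < m₀ := lt_min (lt_min hσA hσB) (lt_min (lt_min hσS hσT) (lt_min hε one_pos))
  have mA : m₀ ≤ σA := (min_le_left _ _).trans (min_le_left _ _)
  have mB : m₀ ≤ σB := (min_le_left _ _).trans (min_le_right _ _)
  have mS : m₀ ≤ σS := ((min_le_right _ _).trans (min_le_left _ _)).trans (min_le_left _ _)
  have mT : m₀ ≤ σT := ((min_le_right _ _).trans (min_le_left _ _)).trans (min_le_right _ _)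
  have mε : m₀ ≤ ε := ((min_le_right _ _).trans (min_le_right _ _)).trans (min_le_left _ _)
  have m1 : m₀ ≤ 1 := ((min_le_right _ _).trans (min_le_right _ _)).trans (min_le_right _ _)
  refine ⟨m₀ / 60, by positivity, fun lam N B => ?_⟩
  obtain ⟨MA, XA, hXA, wA⟩ := vA lam N B
  obtain ⟨MB, XB, hXB, wB⟩ := vB lam N B
  obtain ⟨MS, XS, hXS, wS⟩ := vS lam N B
  obtain ⟨MT, XT, hXT, wT⟩ := vT lam N B
  refine ⟨MA + MB + MS + MT, max (max XA XB) (max XS XT),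
    lt_of_lt_of_le hXA ((le_max_left _ _).trans (le_max_left _ _)), ?_⟩
  intro X hX a ps hok hl0 hlen hgr hs2 hgood H hH hs1 hps κ M q w Y e hκ0 hκK hMK hq0 hqK hw0 hwK hY0
    h1 h2 h3 h4 h5 hG
  have hXA' : XA ≤ X := ((le_max_left _ _).trans (le_max_left _ _)).trans hX
  have hXB' : XB ≤ X := ((le_max_right _ _).trans (le_max_left _ _)).trans hX
  have hXS' : XS ≤ X := ((le_max_left _ _).trans (le_max_right _ _)).trans hX
  have hXT' : XT ≤ X := ((le_max_right _ _).trans (le_max_right _ _)).trans hX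
  have hX1 : 1 < X := by linarith
  have hX0 : 0 < X := by linarith
  have hlog : 0 < Real.log X := Real.log_pos hX1
  set τ : ℝ := m₀ / 60 with hτ
  have hτ0 : 0 < τ := by positivity
  -- the coordinates of the child
  have c0 : S2.ev X a 0 = a.l / Real.log X := rfl
  have c1 : S2.ev X a 1 = a.u₁.z / Real.log X := rfl
  have c2 : S2.ev X a 2 = a.u₂.z / Real.log X := rfl
  have c1' : 0 ≤ S2.ev X a 1 := by rw [c1]; exact div_nonneg hok.1.2 hlog.le
  have c2' : 0 ≤ S2.ev X a 2 := by rw [c2]; exact div_nonneg hok.2.2 hlog.le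
  have c12 : (a.u₁.z + a.u₂.z) / Real.log X = S2.ev X a 1 + S2.ev X a 2 := by
    rw [c1, c2, add_div]
  rw [c12] at h5
  rw [← c0] at h1
  have hnl : ∀ p ∈ ps, 0 ≤ Dq.nl X p := fun p hp => div_nonneg (hgood p hp).2 hlog.le
  have n3 := XG702.mass_nonneg (D := Dq) hnl .mo
  have n4 := XG702.mass_nonneg (D := Dq) hnl .am
  have hev : 0 ≤ S2.ev X a 0 := by rw [c0]; exact div_nonneg hl0 hlog.le
  obtain ⟨a1, a1'⟩ := abs_le.1 h1
  obtain ⟨a2, a2'⟩ := abs_le.1 h2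
  obtain ⟨a5, a5'⟩ := abs_le.1 h5
  have hfA : fA K₁ (S2.ev X a, Dq.mass X ps) ≤ τ := by
    rw [fA_le]
    refine ⟨fun i => ?_, fun t => ?_⟩
    · fin_cases i
      · show -τ ≤ S2.ev X a 0 ∧ S2.ev X a 0 ≤ K₁ + τ
        constructor <;> linarith
      · show -τ ≤ S2.ev X a 1 ∧ S2.ev X a 1 ≤ K₁ + τ
        constructor <;> linarith
      · show -τ ≤ S2.ev X a 2 ∧ S2.ev X a 2 ≤ K₁ + τ
        constructor <;> linarith
    · cases t
      · show -τ ≤ Dq.mass X ps .mo ∧ Dq.mass X ps .mo ≤ K₁ + τ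
        constructor <;> linarith
      · show -τ ≤ Dq.mass X ps .am ∧ Dq.mass X ps .am ≤ K₁ + τ
        constructor <;> linarith
  have hwn : ∀ {f : (Fin 3 → ℝ) × (Kd → ℝ) → ℝ} {σ' : ℝ}, m₀ ≤ σ' →
      f (S2.ev X a, Dq.mass X ps) ≤ σ' → Wn S2 Dq f univ σ' N B X a ps := by
    intro f σ' hσ' hf
    have hσ0 : 0 ≤ σ' := hm0.le.trans hσ'
    exact ⟨hlen, fun p hp => (hgr p hp).imp id fun h => by linarith,
      Real.one_le_rpow hX1.le hσ0, Nat.zero_le _, hs2, hgood, hf, fun _ _ _ => trivial⟩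
  have hEP : S2.ev X a 0 / 3 + 2 * (Dq.mass X ps .mo + Dq.mass X ps .am) ≤ e + ε / 2 := by
    have := hG.1
    linarith
  -- conclusion from one of the bounds
  have fin : ∀ {E₀ : ℝ} {M₁ : ℕ}, E₀ ≤ e + ε / 2 → M₁ ≤ MA + MB + MS + MT →
      mkFs (fun lam => RT (π lam) h) c lam a ps ≤ H ^ M₁ * X ^ (max E₀
        (S2.ev X a 0 / 3 + 2 * (Dq.mass X ps .mo + Dq.mass X ps .am)) + ε / 2) →
      RT (π lam) h (a.l + c lam) (a.u₁ :: a.u₂ :: ps) ≤
        H ^ (MA + MB + MS + MT) * X ^ (e + ε) := by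
    intro E₀ M₁ g1 g2 g3
    have e1 : mkFs (fun lam => RT (π lam) h) c lam a ps =
        RT (π lam) h (a.l + c lam) (a.u₁ :: a.u₂ :: ps) := by
      unfold mkFs mkF
      rw [if_pos hok]
      rfl
    rw [← e1]
    refine g3.trans ?_
    have g4 : X ^ (max E₀ (S2.ev X a 0 / 3 + 2 * (Dq.mass X ps .mo + Dq.mass X ps .am)) +
        ε / 2) ≤ X ^ (e + ε) := by
      refine Real.rpow_le_rpow_of_exponent_le hX1.le ?_
      have := max_le g1 hEP
      linarith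
    exact mul_le_mul (pow_le_pow_right₀ hH g2) g4 (by positivity)
      (pow_nonneg (by linarith) _)
  rcases hG.2 with hg | ⟨hg, hg1, hg2⟩ | hg | ⟨hg, hg'⟩
  · refine fin (E₀ := EA d (S2.ev X a 0) (S2.ev X a 1 + S2.ev X a 2) (Dq.mass X ps .mo)
      (Dq.mass X ps .am)) ?_ (by omega)
      (wA X hXA' a ps (hwn mA (hfA.trans (by linarith))) H hH hs1 hps)
    have := EA_child (d := d) (κ := κ) (κ' := S2.ev X a 0) (M := M)
      (M' := S2.ev X a 1 + S2.ev X a 2) (q := q) (q' := Dq.mass X ps .mo) (c := w)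
      (c' := Dq.mass X ps .am) (β := 0) (α := 0) hd hτ0.le (by linarith) h3 (by linarith)
      (by linarith)
    rw [sub_zero, sub_zero] at this
    nlinarith
  · obtain ⟨k1, k2⟩ := EBdom_child (κ := κ) (κ' := S2.ev X a 0) (M := M)
      (M' := S2.ev X a 1 + S2.ev X a 2) (q := q) (q' := Dq.mass X ps .mo) (β := 0) h1 h3
      (by rw [sub_zero]; exact h5)
    rw [sub_zero] at k1 k2
    have hfB : fB K₁ (S2.ev X a, Dq.mass X ps) ≤ σB := by
      unfold fB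
      refine max_le (hfA.trans (by linarith)) (max_le ?_ ?_)
      · show 27 * Dq.mass X ps .mo - 8 * (S2.ev X a 0 - (S2.ev X a 1 + S2.ev X a 2)) ≤ σB
        linarith
      · show 5 * S2.ev X a 0 - 14 * (S2.ev X a 1 + S2.ev X a 2) ≤ σB
        linarith
    refine fin (E₀ := EB d (S2.ev X a 0) (S2.ev X a 1 + S2.ev X a 2) (Dq.mass X ps .mo)
      (Dq.mass X ps .am)) ?_ (by omega)
      (wB X hXB' a ps (hwn mB hfB) H hH hs1 hps)
    have := EB_child (d := d) (κ := κ) (κ' := S2.ev X a 0) (M := M)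
      (M' := S2.ev X a 1 + S2.ev X a 2) (q := q) (q' := Dq.mass X ps .mo) (c := w)
      (c' := Dq.mass X ps .am) (β := 0) (α := 0) hd hτ0.le (by linarith) h3 (by linarith)
      (by linarith)
    rw [sub_zero, sub_zero] at this
    nlinarith
  · refine fin (E₀ := EHs d (S2.ev X a 0) (S2.ev X a 1 + S2.ev X a 2 + Dq.mass X ps .mo +
      Dq.mass X ps .am) (Dq.mass X ps .am)) ?_ (by omega)
      (wS X hXS' a ps (hwn mS (hfA.trans (by linarith))) H hH hs1 hps)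
    have := EHs_child (d := d) (κ := κ) (κ' := S2.ev X a 0) (n := M + q + w)
      (n' := S2.ev X a 1 + S2.ev X a 2 + Dq.mass X ps .mo + Dq.mass X ps .am) (c := w)
      (c' := Dq.mass X ps .am) (τ := 2 * τ) hd hd8 hev (by linarith) (by linarith)
      (h2.trans (by linarith)) n4
    linarith
  · refine fin (E₀ := EHt d (S2.ev X a 0) (S2.ev X a 1 + S2.ev X a 2 + Dq.mass X ps .mo +
      Dq.mass X ps .am) (Dq.mass X ps .mo) (Dq.mass X ps .am)) ?_ (by omega)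
      (wT X hXT' a ps (hwn mT (hfA.trans (by linarith))) H hH hs1 hps)
    have := EHt_child (d := d) (κ := κ) (κ' := S2.ev X a 0) (n := M + q + w)
      (n' := S2.ev X a 1 + S2.ev X a 2 + Dq.mass X ps .mo + Dq.mass X ps .am) (c := w)
      (c' := Dq.mass X ps .am) (q := q) (q' := Dq.mass X ps .mo) (Y := Y) (τ := 2 * τ)
      hd hd8 hev (by linarith) (by linarith) (by linarith) (by linarith) hY0
      (h2.trans (by linarith)) n4 hw0 hκ0
    have h6 := max_le hg hg'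
    linarith

end

end Crest.Agent.R017.YU61
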