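import Crest.Agent.R017.E4Nm_918
import Crest.Agent.R017.YU_61

/-!
# Row 17, E4 (StrU): from base `K` to base `X` (helper918)

All closers of helper70's text are homogeneous of degree one: `Goal` at the exponents in units of
`log K` gives `GoalX` at the exponents in units of `log X` (`κ = log K / log X`).
`YOK.good` : helper61's `GoodY`.
-/

set_option autoImplicit false

noncomputable section

namespace Crest.Agent.R017.Hg918

open Crest.Agent.R017.Bx918 Crest.Agent.R017.E4R70 Crest.Agent.R017.Nm918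

/-! ### homogeneity -/

lemma mmin (κ a b : ℝ) (h : 0 ≤ κ) : min (κ * a) (κ * b) = κ * min a b :=
  (mul_min_of_nonneg _ _ h).symm

lemma mmax (κ a b : ℝ) (h : 0 ≤ κ) : max (κ * a) (κ * b) = κ * max a b :=
  (mul_max_of_nonneg _ _ h).symm

lemma mmax0 (κ b : ℝ) (h : 0 ≤ κ) : max 0 (κ * b) = κ * max 0 b := by
  rw [← mmax _ _ _ h, mul_zero]

lemma rr_mul {κ : ℝ} (h : 0 ≤ κ) (d i n u : ℝ) :
    rr d (κ * i) (κ * n) (κ * u) = κ * rr d i n u := by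
  unfold rr
  have e : κ * i / 2 = κ * (i / 2) := by ring
  have e' : κ * i / 3 = κ * (i / 3) := by ring
  rw [e, e', mmin _ _ _ h, mmax0 _ _ h, mmax _ _ _ h]
  ring

lemma eC_mul {κ : ℝ} (h : 0 ≤ κ) (k M c : ℝ) : eC (κ * k) (κ * M) (κ * c) = κ * eC k M c := by
  unfold eC
  have e1 : κ * k - κ * M = κ * (k - M) := by ring
  have e2 : 2 / 3 * (κ * k) - κ * M / 3 = κ * (2 / 3 * k - M / 3) := by ring
  rw [e1, e2, mmax0 _ _ h, mmax0 _ _ h]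
  have e3 : 7 / 9 * (κ * max 0 (k - M)) = κ * (7 / 9 * max 0 (k - M)) := by ring
  rw [e3, mmin _ _ _ h, ← mul_sub, mmax0 _ _ h]

lemma EA_mul {κ : ℝ} (h : 0 ≤ κ) (d k M q c : ℝ) :
    EA d (κ * k) (κ * M) (κ * q) (κ * c) = κ * EA d k M q c := by
  unfold EA
  rw [eC_mul h]
  ring

lemma EB_mul {κ : ℝ} (h : 0 ≤ κ) (d k M q c : ℝ) :
    EB d (κ * k) (κ * M) (κ * q) (κ * c) = κ * EB d k M q c := by
  unfold EB
  have e : κ * q + κ * c - 7 / 9 * (κ * k - κ * M) = κ * (q + c - 7 / 9 * (k - M)) := by ring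
  rw [e, mmax0 _ _ h]
  ring

lemma YOK_mul {κ : ℝ} (h : 0 ≤ κ) {d k M q c e : ℝ} (H : YOK d k M q c e) :
    YOK d (κ * k) (κ * M) (κ * q) (κ * c) (κ * e) := by
  obtain ⟨h0, h1⟩ := H
  refine ⟨?_, ?_⟩
  · have := mul_le_mul_of_nonneg_left h0 h
    linarith
  · rcases h1 with h1 | ⟨h1, h2, h3⟩
    · left
      rw [EA_mul h]
      exact mul_le_mul_of_nonneg_left h1 h
    · right
      refine ⟨?_, ?_, ?_⟩
      · rw [EB_mul h]
        exact mul_le_mul_of_nonneg_left h1 h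
      · have := mul_le_mul_of_nonneg_left h2 h
        linarith
      · have := mul_le_mul_of_nonneg_left h3 h
        linarith

/-- **helper61's `GoodY`** -/
theorem YOK.good {d k M q c e : ℝ} (H : YOK d k M q c e) (Y : ℝ) :
    YU61.GoodY d k M q c Y e := by
  obtain ⟨h0, h1⟩ := H
  refine ⟨h0, ?_⟩
  rcases h1 with h1 | h1
  · exact Or.inl h1
  · exact Or.inr (Or.inl h1)

lemma XHB_mul {κ : ℝ} (h : 0 ≤ κ) {k v1 d0 c12 s1 x ex : ℝ} (H : XHB k v1 d0 c12 s1 x ex) :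
    XHB (κ * k) (κ * v1) (κ * d0) (κ * c12) (κ * s1) (κ * x) (κ * ex) := by
  obtain ⟨h0, h1, h2, h3⟩ := H
  have g0 := mul_le_mul_of_nonneg_left h0 h
  have g1 := mul_le_mul_of_nonneg_left h1 h
  have g2 := mul_le_mul_of_nonneg_left h2 h
  have g3 := mul_le_mul_of_nonneg_left h3 h
  exact ⟨by linarith, by linarith, by linarith, by linarith⟩

/-- the structured closer in base `X` -/
def XLTX (d k v1 N1 Nq R1 R2 u1 lqt sh cnt tT ρ f g x ex : ℝ) : Prop :=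
  ∃ lt : ℝ, lt + 1 / 25 ≤ N1 - R2 ∧ x ≤ ex ∧ x + (v1 + x - 2 / 3 * k) + f + ρ / 3 ≤ ex ∧
    x + (v1 + 2 * x - k) + f + ρ ≤ ex ∧
    x + (2 * v1 - k + lqt - lt) / 3 + f ≤ ex ∧
    x + (2 * v1 - k + lqt - lt) / 3 + (lt - v1 / 2) + g ≤ ex ∧
    x + (2 * v1 - k + lqt - lt) / 3 + lt / 2 + max 0 (v1 - (Nq - R2 + R1)) / 2 + cnt +
      rr d (Nq + lt - v1 + sh) (Nq - R2) u1 ≤ tT + ex

lemma XLT_mul {κ : ℝ} (h : 4 / 5 ≤ κ) {d k v1 N1 Nq R1 R2 u1 lqt sh cnt tT ρ f g x ex : ℝ}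
    (H : XLT d k v1 N1 Nq R1 R2 u1 lqt sh cnt tT ρ f g x ex) :
    XLTX d (κ * k) (κ * v1) (κ * N1) (κ * Nq) (κ * R1) (κ * R2) (κ * u1) (κ * lqt) (κ * sh)
      (κ * cnt) (κ * tT) (κ * ρ) (κ * f) (κ * g) (κ * x) (κ * ex) := by
  have h0 : 0 ≤ κ := by linarith
  obtain ⟨lt, h1, h2, h3, h4, h5, h6, h7⟩ := H
  have g1 := mul_le_mul_of_nonneg_left h1 h0
  have g2 := mul_le_mul_of_nonneg_left h2 h0
  have g3 := mul_le_mul_of_nonneg_left h3 h0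
  have g4 := mul_le_mul_of_nonneg_left h4 h0
  have g5 := mul_le_mul_of_nonneg_left h5 h0
  have g6 := mul_le_mul_of_nonneg_left h6 h0
  have g7 := mul_le_mul_of_nonneg_left h7 h0
  have e := rr_mul h0 d (Nq + lt - v1 + sh) (Nq - R2) u1
  have e1 : κ * (Nq + lt - v1 + sh) = κ * Nq + κ * lt - κ * v1 + κ * sh := by ring
  have e2 : κ * (Nq - R2) = κ * Nq - κ * R2 := by ring
  have e3 := mmax0 κ (v1 - (Nq - R2 + R1)) h0
  have e4 : κ * (v1 - (Nq - R2 + R1)) = κ * v1 - (κ * Nq - κ * R2 + κ * R1) := by ring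
  rw [e1, e2] at e
  rw [e4] at e3
  refine ⟨κ * lt, by linarith, g2, by linarith, by linarith, by linarith, by linarith, ?_⟩
  rw [e, e3]
  linarith

lemma XPV_mul {κ : ℝ} (h : 0 ≤ κ) {k v1 lqt ρ f x ex : ℝ} (H : XPV k v1 lqt ρ f x ex) :
    XPV (κ * k) (κ * v1) (κ * lqt) (κ * ρ) (κ * f) (κ * x) (κ * ex) := by
  obtain ⟨h1, h2, h3, h4, h5⟩ := H
  have g3 := mul_le_mul_of_nonneg_left h3 h
  have g4 := mul_le_mul_of_nonneg_left h4 h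
  have g5 := mul_le_mul_of_nonneg_left h5 h
  exact ⟨by rw [h1, mul_zero], mul_nonneg h h2, by linarith, by linarith, by linarith⟩

/-- the closers of the `x`-side in base `X` (`z` in units of `log K`) -/
def ClX (κ₀ : ℝ) (z : Cls) (d N u x ex : ℝ) : Prop :=
  XHB (κ₀ * z.k) (κ₀ * z.v1) (κ₀ * z.d0 N u) (κ₀ * z.c12) (κ₀ * z.s1) x ex ∨
    XLTX d (κ₀ * z.k) (κ₀ * z.v1) (κ₀ * z.N1 N) (κ₀ * (N - z.β)) (κ₀ * z.R1) (κ₀ * z.R2)
      (κ₀ * u) (κ₀ * z.lqt) (κ₀ * z.sh) (κ₀ * z.cnt) (κ₀ * z.tT N u) (κ₀ * (z.c12 + z.s1))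
      (κ₀ * z.ff N u) (κ₀ * ((z.fF N u + z.ff N u) / 2)) x ex ∨
    XPV (κ₀ * z.k) (κ₀ * z.v1) (κ₀ * z.lqt) (κ₀ * (z.c12 + z.s1)) (κ₀ * z.ff N u) x ex

/-- the closers of the `y`-side in base `X`, `w` = length of the amplifier side -/
def ClYX (κ₀ : ℝ) (z : Cls) (d M a κ w ey : ℝ) : Prop :=
  (0 ≤ z.M1 M ∧ YOK d κ (κ₀ * z.M1 M) (κ₀ * a) w ey) ∨
    (z.M1 M ≤ 0 ∧ YOK d κ 0 (κ₀ * (a + z.M1 M)) w ey) ∨
    κ₀ * z.kt + 2 * (κ₀ * z.M1 M + κ₀ * a + w) ≤ ey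

/-- **the inequality in base `X`** (`κ₀ = log K / log X`, `z` in units of `log K`) -/
def GoalX (κ₀ : ℝ) (z : Cls) (d N M u a c T : ℝ) : Prop :=
  ∃ x ex ey κ : ℝ, 0 ≤ x ∧ x ≤ κ₀ * z.c1 c ∧ κ₀ * z.ky - 3 * (κ₀ * z.s1) ≤ κ ∧ κ ≤ κ₀ * z.ky ∧
    ClX κ₀ z d N u x ex ∧ ClYX κ₀ z d M a κ (κ₀ * z.c1 c - x) ey ∧
    κ₀ * (2 / 3 + (z.β + z.al - 2 * z.E - z.F + 2 * z.s + 2 * z.W) +
      (z.tT N u - (z.v + z.us) / 3 - (N - z.β) / 3)) + ex + ey ≤ T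

/-- **from base `K` to base `X`** -/
theorem goalX_of {κ₀ : ℝ} (h : 4 / 5 ≤ κ₀) {z : Cls} {d N M u a c T : ℝ}
    (H : z.Goal d N M u a c T) : GoalX κ₀ z d N M u a c (κ₀ * T) := by
  have h0 : 0 ≤ κ₀ := by linarith
  obtain ⟨x, ex, ey, κ, h1, h2, h3, h4, h5, h6, h7⟩ := H
  have g2 := mul_le_mul_of_nonneg_left h2 h0
  have g3 := mul_le_mul_of_nonneg_left h3 h0
  have g4 := mul_le_mul_of_nonneg_left h4 h0
  have g7 := mul_le_mul_of_nonneg_left h7 h0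
  refine ⟨κ₀ * x, κ₀ * ex, κ₀ * ey, κ₀ * κ, mul_nonneg h0 h1, g2, by linarith, g4, ?_, ?_,
    by linarith⟩
  · rcases h5 with h5 | h5 | h5
    · exact Or.inl (XHB_mul h0 h5)
    · exact Or.inr (Or.inl (XLT_mul h h5))
    · exact Or.inr (Or.inr (XPV_mul h0 h5))
  · have e : κ₀ * z.c1 c - κ₀ * x = κ₀ * (z.c1 c - x) := by ring
    rw [e]
    rcases h6 with ⟨h6, h8⟩ | ⟨h6, h8⟩ | h6
    · exact Or.inl ⟨h6, YOK_mul h0 h8⟩
    · have := YOK_mul h0 h8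
      rw [mul_zero] at this
      exact Or.inr (Or.inl ⟨h6, this⟩)
    · have := mul_le_mul_of_nonneg_left h6 h0
      exact Or.inr (Or.inr (by linarith))

end Crest.Agent.R017.Hg918
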