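import Crest.Agent.R017.E4s_164

/-!
# Row 17, C70, leaf E4: sizes of the data of `dictI` (helper164)

* `vI_ne`, `wI_ne` : unpacking of a nonzero value
* `ssm_vI`, `ssm_wI`, `cbf_vI`
* `lam_XI` : `nm x nm (s ν)² ≤ nm j nm δ² nm s²`
* `norm_vI_le`, `norm_wI_le`
* `dat4` : `Dat4 M f lam vI wI X`
-/

set_option autoImplicit false

noncomputable section

open Finset Complex
open scoped ComplexConjugate

namespace Crest.Agent.R017.E4D164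

open Crest.Agent.R012 Crest.Agent.R012.Eis Crest.Agent.R012.GaussLoc283
open Crest.Agent.R012.Mob705 hiding pb mem_pb
open Crest.Agent.R012.Div277
open Crest.Agent.R017.Sx545 (Sm)
open Crest.Agent.R017.CM106
open Crest.Agent.R017.PX764 (th Gh n6)
open Crest.Agent.R017.C70 Crest.Agent.R017.GrB829 Crest.Agent.R017.GrD829
open Crest.Agent.R017.E2440
open Crest.Agent.R017.End699 (HC)
open Crest.Agent.R017.E4352 (SSm nf PrI XF Dat4)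
open Crest.Agent.R017.E4579 (bpt bco)
open Crest.Agent.R017.E4K164 (dc dc_spec rd rd_prim jc_ne_zero)

variable {A : Type*} {M : Eis} {ψ : Eis → ℂ} {l : ℤ} {f : Eis} {I : Finset A} {s δ j : A → Eis}
  {c : A → ℂ} {c₀ g : Eis} {o : Eis × Eis}

lemma vI_ne {X : Eis} (h : vI M ψ l f I s δ j c c₀ g o X ≠ 0) :
    Sm M X ∧ ∃ i ∈ I, (dc (j i)).1 = c₀ ∧ s i = o.1 ∧ (dc (j i)).2.2 = o.2 ∧
      XI δ j i = g * X ∧ c i ≠ 0 := by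
  classical
  obtain ⟨h1, i, hi, h2, h3⟩ := pu_ne h
  unfold II at hi
  rw [Finset.mem_filter] at hi
  refine ⟨h1, i, hi.1, hi.2.1, hi.2.2.1, hi.2.2.2, h2, ?_⟩
  intro h0
  apply h3
  unfold cI
  rw [h0]
  simp

lemma wI_ne {b₁ b₂ : Eis → ℂ} {L : Finset (Eis × Eis)} {z Y : Eis}
    (h : wI M b₁ b₂ L z o Y ≠ 0) : Sm M Y ∧ ∃ p ∈ L, p.1 * p.2 ^ 2 = z * Y ∧ b₁ p.1 ≠ 0 ∧
      b₂ p.2 ≠ 0 := by
  obtain ⟨h1, p, hp, h2, h3⟩ := pu_ne h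
  refine ⟨h1, p, hp, h2, ?_, ?_⟩
  · intro h0
    apply h3
    unfold cb
    rw [h0]
    ring
  · intro h0
    apply h3
    unfold cb
    rw [h0]
    simp

lemma ssm_pu {B : Type*} {I : Finset B} {X : B → Eis} {a : B → ℂ} (hM : M ≠ 0)
    (hX : ∀ i ∈ I, IsPrim (X i)) (hg : PrI M g) : SSm M (pu M I X a g) where
  fin := (I.image (fun i => bco (rd M) (X i))).finite_toSet.subset fun _ hx =>
    Finset.mem_coe.mpr (pu_fin hM hX hg hx)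
  sm := fun _ h => (pu_ne h).1

lemma XI_prim (hI : OKI I s δ j c) {i : A} (hi : i ∈ I) : IsPrim (XI δ j i) := by
  obtain ⟨-, h2, -⟩ := dc_spec (hI.jc i hi)
  exact h2.mul ((hI.prim i hi).pow 2)

lemma ssm_vI (hM : M ≠ 0) (hI : OKI I s δ j c) (hg : PrI M g) :
    SSm M (vI M ψ l f I s δ j c c₀ g o) := by
  classical
  refine ssm_pu hM (fun i hi => ?_) hg
  unfold II at hi
  exact XI_prim hI (Finset.mem_filter.mp hi).1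

lemma ssm_wI (hM : M ≠ 0) {b₁ b₂ : Eis → ℂ} (h₁ : FS b₁) (h₂ : FS b₂) {z : Eis}
    (hz : PrI M z) : SSm M (wI M b₁ b₂ (h₁.fin.toFinset ×ˢ h₂.fin.toFinset) z o) := by
  refine ssm_pu hM (fun p hp => ?_) hz
  rw [Finset.mem_product, Set.Finite.mem_toFinset, Set.Finite.mem_toFinset] at hp
  exact (h₁.prim _ hp.1).mul ((h₂.prim _ hp.2).pow 2)

lemma cbf_of_dvd {x y : Eis} (h : CbF y) (hd : x ∣ y) : CbF x := fun p hp h3 =>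
  h p hp (h3.trans hd)

lemma cbf_XI (hI : OKI I s δ j c) {i : A} (hi : i ∈ I) (h0 : c i ≠ 0) : CbF (XI δ j i) := by
  obtain ⟨s1, s2, s3, s4, s5, s6, s7⟩ := dc_spec (hI.jc i hi)
  refine GrE579.cbF_dec s3 (hI.sqf i hi) ?_
  refine (hI.cop i hi h0).of_isCoprime_of_dvd_left ?_
  conv_rhs => rw [s7]
  exact ⟨(dc (j i)).1 * (dc (j i)).2.2 ^ 2, by ring⟩

lemma cbf_vI (hI : OKI I s δ j c) {X : Eis} (h : vI M ψ l f I s δ j c c₀ g o X ≠ 0) :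
    CbF X := by
  obtain ⟨-, i, hi, -, -, -, h2, h3⟩ := vI_ne h
  exact cbf_of_dvd (cbf_XI hI hi h3) ⟨g, by rw [h2]; ring⟩

/-- `nm (r δ²) nm ν² ≤ nm j nm δ²` -/
lemma nm_XI_nu (hI : OKI I s δ j c) {i : A} (hi : i ∈ I) :
    nm (XI δ j i) * nm (dc (j i)).2.2 ^ 2 ≤ nm (j i) * nm (δ i) ^ 2 := by
  obtain ⟨s1, s2, s3, s4, s5, s6, s7⟩ := dc_spec (hI.jc i hi)
  have h1 : nm (j i) = nm (dc (j i)).1 * nm (dc (j i)).2.1 * nm (dc (j i)).2.2 ^ 2 := by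
    conv_lhs => rw [s7]
    rw [nm_mul, nm_mul, nm_pow]
  have h2 : 1 ≤ nm (dc (j i)).1 := nm_pos.mpr s1.ne_zero
  unfold XI
  rw [h1, nm_mul, nm_pow]
  calc nm (dc (j i)).2.1 * nm (δ i) ^ 2 * nm (dc (j i)).2.2 ^ 2
      = 1 * (nm (dc (j i)).2.1 * nm (dc (j i)).2.2 ^ 2 * nm (δ i) ^ 2) := by ring
    _ ≤ nm (dc (j i)).1 * (nm (dc (j i)).2.1 * nm (dc (j i)).2.2 ^ 2 * nm (δ i) ^ 2) :=
        Nat.mul_le_mul_right _ h2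
    _ = _ := by ring

/-- **the `x`-side size with the outer parameter** -/
lemma lam_vI (hI : OKI I s δ j c) (hg : IsPrim g) {V : ℝ}
    (hV : ∀ i ∈ I, c i ≠ 0 → (nm (j i) : ℝ) * nm (δ i) ^ 2 * nm (s i) ^ 2 ≤ V) {X : Eis}
    (h : vI M ψ l f I s δ j c c₀ g o X ≠ 0) :
    (nm X : ℝ) * (nm (o.1 * o.2) : ℝ) ^ 2 ≤ V := by
  obtain ⟨-, i, hi, -, h5, h6, h2, h3⟩ := vI_ne h
  have h4 : (nm (XI δ j i) : ℝ) * nm (dc (j i)).2.2 ^ 2 ≤ nm (j i) * nm (δ i) ^ 2 := by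
    exact_mod_cast nm_XI_nu hI hi
  have h7 : (nm X : ℝ) ≤ nm (XI δ j i) := by
    rw [h2]
    have h8 : nm X ≤ nm (g * X) := by
      rw [nm_mul]
      exact Nat.le_mul_of_pos_left _ (nm_pos.mpr hg.ne_zero)
    exact_mod_cast h8
  have h9 := hV i hi h3
  rw [nm_mul, ← h5, ← h6]
  push_cast
  calc (nm X : ℝ) * ((nm (s i) : ℝ) * nm (dc (j i)).2.2) ^ 2
      ≤ nm (XI δ j i) * ((nm (s i) : ℝ) * nm (dc (j i)).2.2) ^ 2 := by gcongr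
    _ = (nm (XI δ j i) * nm (dc (j i)).2.2 ^ 2) * (nm (s i) : ℝ) ^ 2 := by ring
    _ ≤ (nm (j i) * nm (δ i) ^ 2) * (nm (s i) : ℝ) ^ 2 := by gcongr
    _ ≤ V := h9

lemma nm_vI (hI : OKI I s δ j c) (hg : IsPrim g) {V : ℝ}
    (hV : ∀ i ∈ I, c i ≠ 0 → (nm (j i) : ℝ) * nm (δ i) ^ 2 * nm (s i) ^ 2 ≤ V) {X : Eis}
    (h : vI M ψ l f I s δ j c c₀ g o X ≠ 0) : (nm X : ℝ) ≤ V := by
  have h1 := lam_vI hI hg hV h
  obtain ⟨-, i, hi, -, h5, h6, -, -⟩ := vI_ne h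
  have h2 : (1 : ℝ) ≤ nm (o.1 * o.2) := by
    rw [← h5, ← h6]
    exact one_le_nm (mul_ne_zero (hI.s i hi).ne_zero (dc_spec (hI.jc i hi)).2.2.2.1.ne_zero)
  have h3 : (1 : ℝ) ≤ (nm (o.1 * o.2) : ℝ) ^ 2 := one_le_pow₀ h2
  have h4 : (0 : ℝ) ≤ nm X := Nat.cast_nonneg _
  nlinarith

lemma nm_wI {b₁ b₂ : Eis → ℂ} {L : Finset (Eis × Eis)} {z Y : Eis} (hz : IsPrim z) {N₂ : ℝ}
    (hN₂ : ∀ n m, b₁ n ≠ 0 → b₂ m ≠ 0 → (nm (n * m ^ 2) : ℝ) ≤ N₂)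
    (h : wI M b₁ b₂ L z o Y ≠ 0) : (nm Y : ℝ) ≤ N₂ := by
  obtain ⟨-, p, -, h2, h3, h4⟩ := wI_ne h
  refine le_trans ?_ (hN₂ _ _ h3 h4)
  rw [h2]
  have h8 : nm Y ≤ nm (z * Y) := by
    rw [nm_mul]
    exact Nat.le_mul_of_pos_left _ (nm_pos.mpr hz.ne_zero)
  exact_mod_cast h8

/-! ### norms -/

lemma norm_pu_le {B : Type*} {I : Finset B} {X : B → Eis} {a : B → ℂ} {x : Eis} {C : ℝ}
    (hC : ∀ i ∈ I, ‖a i‖ ≤ C) (hC0 : 0 ≤ C) : ‖pu M I X a g x‖ ≤ I.card * C := by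
  classical
  unfold pu
  split_ifs
  · refine (norm_sum_le _ _).trans ?_
    refine (Finset.sum_le_sum (g := fun _ => C) fun i hi =>
      hC i (Finset.mem_filter.mp hi).1).trans ?_
    rw [Finset.sum_const, nsmul_eq_mul]
    exact mul_le_mul_of_nonneg_right (by exact_mod_cast Finset.card_filter_le _ _) hC0
  · rw [norm_zero]; positivity

lemma norm_cI_le {ψ : Eis → ℂ} (hψ : HC M ψ) (hI : OKI I s δ j c) (hf : IsPrim f) {i : A}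
    (hi : i ∈ I) : ‖cI ψ l f s δ j c i‖ ≤
      ‖c i‖ * Bth * (nm (s i * (dc (j i)).2.2) : ℝ) := by
  obtain ⟨s1, s2, s3, s4, s5, s6, s7⟩ := dc_spec (hI.jc i hi)
  have hsp : IsPrim (s i * (dc (j i)).2.2) := (hI.s i hi).mul s4
  have h1 : ‖sy (dc (j i)).2.2 (δ i)‖ ≤ 1 := norm_sy_le1 (hI.prim i hi)
  have h2 : ‖th ((dc (j i)).1 * (dc (j i)).2.1)‖ ≤ Bth :=
    E2440.norm_th_le (mul_ne_zero s1.ne_zero s2.ne_zero)
  have h3 : ‖End699.tw ψ l (s i * (dc (j i)).2.2)‖ ≤ 1 := (hψ.isChar_tw l).norm_le hsp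
  have h4 : ‖sy (s i * (dc (j i)).2.2) f‖ ≤ 1 := norm_sy_le1 hf
  have h5 : (1 : ℝ) ≤ nm (s i * (dc (j i)).2.2) := one_le_nm hsp.ne_zero
  have h6 : (nm (s i * (dc (j i)).2.2) : ℝ) ^ (2 / 3 : ℝ) ≤ nm (s i * (dc (j i)).2.2) := by
    conv_rhs => rw [← Real.rpow_one (nm (s i * (dc (j i)).2.2) : ℝ)]
    exact Real.rpow_le_rpow_of_exponent_le h5 (by norm_num)
  have h7 : (0 : ℝ) ≤ (nm (s i * (dc (j i)).2.2) : ℝ) ^ (2 / 3 : ℝ) := by positivity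
  have h8 := Bth_nonneg
  unfold cI
  rw [norm_mul, norm_mul, norm_mul, norm_mul, norm_mul, RCLike.norm_conj, RCLike.norm_conj,
    RCLike.norm_conj, Complex.norm_real, Real.norm_of_nonneg h7]
  calc ‖c i‖ * (‖sy (dc (j i)).2.2 (δ i)‖ * ‖th ((dc (j i)).1 * (dc (j i)).2.1)‖) *
        (‖End699.tw ψ l (s i * (dc (j i)).2.2)‖ * ‖sy (s i * (dc (j i)).2.2) f‖ *
          (nm (s i * (dc (j i)).2.2) : ℝ) ^ (2 / 3 : ℝ))
      ≤ ‖c i‖ * (1 * Bth) * (1 * 1 * (nm (s i * (dc (j i)).2.2) : ℝ)) := by gcongr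
    _ = _ := by ring

lemma norm_cb_le {b₁ b₂ : Eis → ℂ} {ν : Eis} {p : Eis × Eis} (h1 : IsPrim p.1)
    (h2 : IsPrim p.2) : ‖cb b₁ b₂ ν p‖ ≤ ‖b₁ p.1‖ * ‖b₂ p.2‖ := by
  unfold cb
  rw [norm_mul, norm_mul, norm_mul, RCLike.norm_conj, RCLike.norm_conj]
  have h3 : ‖sy ν p.1‖ ≤ 1 := norm_sy_le1 h1
  have h4 : ‖sy ν p.2‖ ≤ 1 := norm_sy_le1 h2
  calc ‖b₁ p.1‖ * ‖b₂ p.2‖ * (‖sy ν p.1‖ * ‖sy ν p.2‖)
      ≤ ‖b₁ p.1‖ * ‖b₂ p.2‖ * (1 * 1) := by gcongr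
    _ = _ := by ring

open Classical in
lemma card_OU : (OU M I s j).card ≤ I.card := by
  unfold OU
  exact (Finset.card_filter_le _ _).trans Finset.card_image_le

open Classical in
lemma mem_OU (o : OU M I s j) : ∃ i ∈ I, s i = o.1.1 ∧ (dc (j i)).2.2 = o.1.2 ∧
    Sm M (o.1.1 * o.1.2) := by
  have h := o.2
  unfold OU at h
  rw [Finset.mem_filter, Finset.mem_image] at h
  obtain ⟨⟨i, hi, h1⟩, h2⟩ := h
  exact ⟨i, hi, by rw [← h1], by rw [← h1], h2⟩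

/-- **the standing conditions** -/
theorem dat4 {ψ : Eis → ℂ} (hψ : HC M ψ) (hI : OKI I s δ j c) (hf : Sm M f) (hg : PrI M g)
    {z : Eis} (hz : PrI M z) {b₁ b₂ : Eis → ℂ} (h₁ : FS b₁) (h₂ : FS b₂) {X V N₂ Cv Cw : ℝ}
    (hX : 1 ≤ X) (hcard : (I.card : ℝ) ≤ X) (hfX : (nm f : ℝ) ≤ X)
    (hV : ∀ i ∈ I, c i ≠ 0 → (nm (j i) : ℝ) * nm (δ i) ^ 2 * nm (s i) ^ 2 ≤ V) (hVX : V ≤ X)
    (hs : ∀ i ∈ I, (nm (s i * (dc (j i)).2.2) : ℝ) ≤ X)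
    (hN₂ : ∀ n m, b₁ n ≠ 0 → b₂ m ≠ 0 → (nm (n * m ^ 2) : ℝ) ≤ N₂) (hNX : N₂ ≤ X)
    (hCv0 : 0 ≤ Cv) (hcv : ∀ i ∈ I, ‖c i‖ * Bth * (nm (s i * (dc (j i)).2.2) : ℝ) ≤ Cv)
    (hCv : I.card * Cv ≤ X) (hCw0 : 0 ≤ Cw) (hcw : ∀ n m, ‖b₁ n‖ * ‖b₂ m‖ ≤ Cw)
    (hCw : ((h₁.fin.toFinset ×ˢ h₂.fin.toFinset).card : ℝ) * Cw ≤ X) :
    Dat4 M f (O := OU M I s j) (fun o => (nm (o.1.1 * o.1.2) : ℝ))
      (fun o => vI M ψ l f I s δ j c c₀ g o.1)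
      (fun o => wI M b₁ b₂ (h₁.fin.toFinset ×ˢ h₂.fin.toFinset) z o.1) X where
  X1 := hX
  card := by
    rw [Fintype.card_coe]
    exact le_trans (by exact_mod_cast card_OU) hcard
  lam1 o := by
    obtain ⟨i, hi, h1, h2, h3⟩ := mem_OU o
    refine ⟨one_le_nm h3.ne_zero, ?_⟩
    rw [← h1, ← h2]
    exact hs i hi
  hf := ⟨hf, hfX⟩
  hv o := ssm_vI hψ.q0 hI hg
  hw o := ssm_wI hψ.q0 h₁ h₂ hz
  vx o x h := ⟨cbf_vI hI h, (nm_vI hI hg.1 hV h).trans hVX⟩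
  wy o y h := (nm_wI hz.1 hN₂ h).trans hNX
  vb o x := by
    classical
    refine le_trans ?_ hCv
    have h1 : ‖pu M (II I s j c₀ o.1) (XI δ j) (cI ψ l f s δ j c) g x‖ ≤
        (II I s j c₀ o.1).card * Cv := norm_pu_le (fun i hi => by
      unfold II at hi
      exact (norm_cI_le hψ hI hf.1 (Finset.mem_filter.mp hi).1).trans
        (hcv i (Finset.mem_filter.mp hi).1)) hCv0
    refine h1.trans (mul_le_mul_of_nonneg_right ?_ hCv0)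
    have h2 : (II I s j c₀ o.1).card ≤ I.card := by
      unfold II
      exact Finset.card_filter_le _ _
    exact_mod_cast h2
  wb o y := by
    refine le_trans ?_ hCw
    exact norm_pu_le (fun p hp => by
      rw [Finset.mem_product, Set.Finite.mem_toFinset, Set.Finite.mem_toFinset] at hp
      exact (norm_cb_le (h₁.prim _ hp.1) (h₂.prim _ hp.2)).trans (hcw _ _)) hCw0

/-- **the `U`-bound** -/
theorem u_bound (hI : OKI I s δ j c) (hg : IsPrim g) {z : Eis} (hz : IsPrim z)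
    {b₁ b₂ : Eis → ℂ} {L : Finset (Eis × Eis)} {V N₂ : ℝ} (hV0 : 0 ≤ V)
    (hV : ∀ i ∈ I, c i ≠ 0 → (nm (j i) : ℝ) * nm (δ i) ^ 2 * nm (s i) ^ 2 ≤ V)
    (hN₂ : ∀ n m, b₁ n ≠ 0 → b₂ m ≠ 0 → (nm (n * m ^ 2) : ℝ) ≤ N₂) (o : OU M I s j) {x y : Eis}
    (hx : vI M ψ l f I s δ j c c₀ g o.1 x ≠ 0) (hy : wI M b₁ b₂ L z o.1 y ≠ 0) :
    (nm (f * x * y) : ℝ) * (nm (o.1.1 * o.1.2) : ℝ) ^ 2 ≤ nm f * V * N₂ := by
  have h1 := lam_vI hI hg hV hx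
  have h2 := nm_wI hz hN₂ hy
  have h3 : (0 : ℝ) ≤ nm y := Nat.cast_nonneg _
  rw [nm_mul, nm_mul]
  push_cast
  calc (nm f : ℝ) * nm x * nm y * (nm (o.1.1 * o.1.2) : ℝ) ^ 2
      = nm f * ((nm x : ℝ) * (nm (o.1.1 * o.1.2) : ℝ) ^ 2) * nm y := by ring
    _ ≤ nm f * V * N₂ := by gcongr

end Crest.Agent.R017.E4D164
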