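import Crest.Agent.R017.E4Hx_842
import Crest.Agent.R017.E4p_164

/-!
# Row 17, E4: the x-side of the joint form in the large sieve range, dictionary arrays (helper842)

`jx_hbI` : the bound of the x-side with the arrays `vI` of the dictionary, in terms of the coefficients.
-/

set_option autoImplicit false
set_option maxHeartbeats 400000

noncomputable section

open Complex
open scoped ComplexConjugate Classical

namespace Crest.Agent.R017.GHB842

open Crest.Agent.R012 Crest.Agent.R012.Eis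
open Crest.Agent.R012.LS2 (S mem_S)
open Crest.Agent.R012.Div277 (dvs mem_dvs isPrim_of_mem_dvs dvd_of_mem_dvs tau tau_le_rpow)
open Crest.Agent.R017.CM106 (CS)
open Crest.Agent.R017.PX764 (norm_sy_le' n6 th Gh)
open Crest.Agent.R017.E1551 (nmpos nm_ge_one)
open Crest.Agent.R017.C70 (CbF JC)
open Crest.Agent.R017.GrB829 (IsC)
open Crest.Agent.R017.Sx545 (Sm)
open Crest.Agent.R017.End699 (HC)
open Crest.Agent.R017.E4352 (Sd tws)
open Crest.Agent.R017.E4o502 (vD)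
open Crest.Agent.R017.E4K164 (dc dc_spec)
open Crest.Agent.R017.E4D164 (OKI XI II cI vI OU pu)
open Gauss880 (syG)

/-! ### divisibility -/

lemma dvd_of_sq_dvd {D r δ : Eis} (hD : Squarefree D) (hr : Squarefree r) (hc : IsCoprime r δ)
    (h : D ^ 2 ∣ r * δ ^ 2) : D ∣ δ := by
  obtain ⟨a, b, ha, hb, rfl⟩ := exists_dvd_and_dvd_of_dvd_mul ((dvd_pow_self D two_ne_zero).trans h)
  have hb' : Squarefree b := hD.squarefree_of_dvd (dvd_mul_left _ _)
  have hbδ : b ∣ δ := (hb'.dvd_pow_iff_dvd two_ne_zero).mp hb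
  have haδ : IsCoprime (a ^ 2) (δ ^ 2) := (hc.of_isCoprime_of_dvd_left ha).pow
  have h1 : a ^ 2 ∣ r * δ ^ 2 := (pow_dvd_pow_of_dvd (dvd_mul_right a b) 2).trans h
  have h2 : a ^ 2 ∣ r := haδ.dvd_of_dvd_mul_right h1
  rw [pow_two] at h2
  have h3 : IsUnit a := hr a h2
  exact (h3.mul_left_dvd).mpr hbδ

lemma norm_thc_sq_le {c r : Eis} (hc : IsC c) (hr : IsPrim r) (hs : Squarefree r) :
    ‖th (c * r)‖ ^ 2 ≤ (nm r : ℝ) ^ (-(1 : ℝ) / 3) := by
  rw [E3s164.th_c_mul hc hr hs, norm_mul, norm_mul, RCLike.norm_conj, Complex.norm_real,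
    Real.norm_eq_abs, abs_of_nonneg (by unfold n6; positivity), ← n6_sq]
  have h1 : ‖Gh c r‖ ≤ 1 := by
    unfold Gh
    rw [norm_mul, RCLike.norm_conj, norm_G_one hr hs, one_mul]
    exact norm_sy_le' hr
  have h2 := E3A164.norm_th_c hc
  have h3 : 0 ≤ n6 r := by unfold n6; positivity
  refine pow_le_pow_left₀ (by positivity) ?_ 2
  calc ‖Gh c r‖ * n6 r * ‖th c‖ ≤ 1 * n6 r * 1 := by gcongr
    _ = n6 r := by ring

section en

variable {A : Type*} {M : Eis} {ψ : Eis → ℂ} {l : ℤ} {f : Eis} {I : Finset A} {s δ j : A → Eis}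
  {c : A → ℂ} {c₀ g : Eis}

lemma norm_cI_sq_le (hψ : HC M ψ) (hI : OKI I s δ j c) (hf : IsPrim f) {i : A} (hi : i ∈ I) :
    ‖cI ψ l f s δ j c i‖ ^ 2 ≤ ‖c i‖ ^ 2 * ((nm (dc (j i)).2.1 : ℝ) ^ (-(1 : ℝ) / 3) *
      (nm (s i * (dc (j i)).2.2) : ℝ) ^ ((4 : ℝ) / 3)) := by
  obtain ⟨s1, s2, s3, s4, s5, s6, s7⟩ := dc_spec (hI.jc i hi)
  have hsp : IsPrim (s i * (dc (j i)).2.2) := (hI.s i hi).mul s4
  have h1 : ‖sy (dc (j i)).2.2 (δ i)‖ ≤ 1 := norm_sy_le' (hI.prim i hi)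
  have h2 := norm_thc_sq_le s1 s2 s3
  have h3 : ‖End699.tw ψ l (s i * (dc (j i)).2.2)‖ ≤ 1 := (hψ.isChar_tw l).norm_le hsp
  have h4 : ‖sy (s i * (dc (j i)).2.2) f‖ ≤ 1 := norm_sy_le' hf
  have h5 : (0 : ℝ) ≤ (nm (s i * (dc (j i)).2.2) : ℝ) ^ (2 / 3 : ℝ) := by positivity
  have e1 : ((nm (s i * (dc (j i)).2.2) : ℝ) ^ (2 / 3 : ℝ)) ^ 2 =
      (nm (s i * (dc (j i)).2.2) : ℝ) ^ ((4 : ℝ) / 3) := by
    rw [← Real.rpow_natCast, ← Real.rpow_mul (Nat.cast_nonneg _)]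
    norm_num
  unfold cI
  rw [norm_mul, norm_mul, norm_mul, norm_mul, norm_mul, RCLike.norm_conj, RCLike.norm_conj,
    RCLike.norm_conj, Complex.norm_real, Real.norm_eq_abs, abs_of_nonneg h5]
  calc (‖c i‖ * (‖sy (dc (j i)).2.2 (δ i)‖ * ‖th ((dc (j i)).1 * (dc (j i)).2.1)‖) *
        (‖End699.tw ψ l (s i * (dc (j i)).2.2)‖ * ‖sy (s i * (dc (j i)).2.2) f‖ *
          (nm (s i * (dc (j i)).2.2) : ℝ) ^ (2 / 3 : ℝ))) ^ 2
      ≤ (‖c i‖ * (1 * ‖th ((dc (j i)).1 * (dc (j i)).2.1)‖) *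
        (1 * 1 * (nm (s i * (dc (j i)).2.2) : ℝ) ^ (2 / 3 : ℝ))) ^ 2 := by gcongr
    _ = ‖c i‖ ^ 2 * (‖th ((dc (j i)).1 * (dc (j i)).2.1)‖ ^ 2 *
        ((nm (s i * (dc (j i)).2.2) : ℝ) ^ (2 / 3 : ℝ)) ^ 2) := by ring
    _ ≤ _ := by
        rw [e1]
        gcongr

/-- the indices over `x` -/
def Ix (I : Finset A) (s δ j : A → Eis) (c : A → ℂ) (c₀ : Eis) (o : Eis × Eis) (x : Eis) :
    Finset A := (II I s j c₀ o).filter (fun i => c i ≠ 0 ∧ XI δ j i = x)

lemma norm_vI_sq_le {o : Eis × Eis} {m : ℝ} (hm : ∀ x, ((Ix I s δ j c c₀ o x).card : ℝ) ≤ m)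
    (x : Eis) : ‖vI M ψ l f I s δ j c c₀ g o x‖ ^ 2 ≤
      m * ∑ i ∈ Ix I s δ j c c₀ o (g * x), ‖cI ψ l f s δ j c i‖ ^ 2 := by
  have hm0 : 0 ≤ m := (Nat.cast_nonneg _).trans (hm 0)
  unfold vI pu
  split_ifs with h
  · have e1 : ∑ i ∈ (II I s j c₀ o).filter (fun i => XI δ j i = g * x), cI ψ l f s δ j c i =
        ∑ i ∈ Ix I s δ j c c₀ o (g * x), cI ψ l f s δ j c i := by
      symm
      unfold Ix
      refine Finset.sum_subset (fun i hi => ?_) fun i hi hin => ?_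
      · rw [Finset.mem_filter] at hi ⊢
        exact ⟨hi.1, hi.2.2⟩
      · rw [Finset.mem_filter] at hi hin
        by_contra hne
        apply hin
        refine ⟨hi.1, ?_, hi.2⟩
        intro h0
        apply hne
        unfold cI
        rw [h0]
        simp
    rw [e1]
    calc ‖∑ i ∈ Ix I s δ j c c₀ o (g * x), cI ψ l f s δ j c i‖ ^ 2
        ≤ (∑ i ∈ Ix I s δ j c c₀ o (g * x), ‖cI ψ l f s δ j c i‖) ^ 2 :=
          pow_le_pow_left₀ (norm_nonneg _) (norm_sum_le _ _) 2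
      _ ≤ ((Ix I s δ j c c₀ o (g * x)).card : ℝ) *
          ∑ i ∈ Ix I s δ j c c₀ o (g * x), ‖cI ψ l f s δ j c i‖ ^ 2 := sq_sum_le_card_mul_sum_sq
      _ ≤ _ := mul_le_mul_of_nonneg_right (hm _) (Finset.sum_nonneg fun _ _ => by positivity)
  · rw [norm_zero, zero_pow two_ne_zero]
    exact mul_nonneg hm0 (Finset.sum_nonneg fun _ _ => by positivity)

lemma Qd_mul_le {K V B D d : ℝ} (hK : 0 ≤ K) (hV : 0 ≤ V) (hB : 0 ≤ B) (hD : 1 ≤ D)
    (hDd : D ≤ d) : D * Qd K V B D ≤ d * K + V * B + (K * (V * B)) ^ ((2 : ℝ) / 3) := by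
  have D0 : 0 < D := by linarith
  unfold Qd
  have t1 : D * K ≤ d * K := mul_le_mul_of_nonneg_right hDd hK
  have t2 : D * (V * B / D ^ 2) ≤ V * B := by
    have : D * (V * B / D ^ 2) = V * B / D := by field_simp
    rw [this]; exact div_le_self (by positivity) hD
  have e3 : (K * (V * B / D ^ 2)) ^ ((2 : ℝ) / 3) =
      (K * (V * B)) ^ ((2 : ℝ) / 3) * ((D ^ 2) ^ ((2 : ℝ) / 3))⁻¹ := by
    rw [← Real.inv_rpow (by positivity), ← Real.mul_rpow (by positivity) (by positivity)]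
    congr 1
    field_simp
  have e4 : D ≤ (D ^ 2) ^ ((2 : ℝ) / 3) := by
    rw [← Real.rpow_natCast D 2, ← Real.rpow_mul D0.le]
    conv_lhs => rw [← Real.rpow_one D]
    exact Real.rpow_le_rpow_of_exponent_le hD (by norm_num)
  have t3 : D * (K * (V * B / D ^ 2)) ^ ((2 : ℝ) / 3) ≤ (K * (V * B)) ^ ((2 : ℝ) / 3) := by
    rw [e3]
    have h1 : ((D ^ 2) ^ ((2 : ℝ) / 3))⁻¹ ≤ D⁻¹ := inv_anti₀ D0 e4
    have h0 : 0 ≤ (K * (V * B)) ^ ((2 : ℝ) / 3) := by positivity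
    calc D * ((K * (V * B)) ^ ((2 : ℝ) / 3) * ((D ^ 2) ^ ((2 : ℝ) / 3))⁻¹)
        ≤ D * ((K * (V * B)) ^ ((2 : ℝ) / 3) * D⁻¹) :=
          mul_le_mul_of_nonneg_left (mul_le_mul_of_nonneg_left h1 h0) D0.le
      _ = _ := by field_simp
  linarith

/-- **the energy of the dictionary array** -/
lemma energy_vI (hI : OKI I s δ j c) (hg : IsPrim g) {o : Eis × Eis} {K V B : ℝ} (hK : 0 ≤ K)
    (hV : 1 ≤ V) (hB : 0 ≤ B) {m τ : ℝ}
    (hm : ∀ x, ((Ix I s δ j c c₀ o x).card : ℝ) ≤ m) (hτ : ∀ i ∈ I, (tau (δ i) : ℝ) ≤ τ) :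
    ∑ D ∈ S V, (nm D : ℝ) * Qd K V B (nm D) *
      ∑ x ∈ (primBall ⌊V⌋₊).filter (fun x => D ^ 2 ∣ x), ‖vI M ψ l f I s δ j c c₀ g o x‖ ^ 2 ≤
    m * τ * ∑ i ∈ II I s j c₀ o,
      ((nm (δ i) : ℝ) * K + V * B + (K * (V * B)) ^ ((2 : ℝ) / 3)) *
        ‖cI ψ l f s δ j c i‖ ^ 2 := by
  have hV0 : 0 ≤ V := by linarith
  have hm0 : 0 ≤ m := (Nat.cast_nonneg _).trans (hm 0)
  have hQ : ∀ D : Eis, 0 ≤ Qd K V B (nm D) := fun D => Qd_nonneg hK hV0 hB (Nat.cast_nonneg _)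
  set F : A → ℝ := fun i => ‖cI ψ l f s δ j c i‖ ^ 2 with hF
  have hF0 : ∀ i, 0 ≤ F i := fun i => by rw [hF]; positivity
  calc ∑ D ∈ S V, (nm D : ℝ) * Qd K V B (nm D) *
        ∑ x ∈ (primBall ⌊V⌋₊).filter (fun x => D ^ 2 ∣ x), ‖vI M ψ l f I s δ j c c₀ g o x‖ ^ 2
      ≤ ∑ D ∈ S V, (nm D : ℝ) * Qd K V B (nm D) *
        ∑ x ∈ (primBall ⌊V⌋₊).filter (fun x => D ^ 2 ∣ x),
          m * ∑ i ∈ Ix I s δ j c c₀ o (g * x), F i := by
        refine Finset.sum_le_sum fun D _ => ?_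
        have := hQ D
        refine mul_le_mul_of_nonneg_left (Finset.sum_le_sum fun x _ => norm_vI_sq_le hm x)
          (by positivity)
    _ ≤ ∑ D ∈ S V, (nm D : ℝ) * Qd K V B (nm D) *
        (m * ∑ i ∈ (II I s j c₀ o).filter (fun i => D ∣ δ i), F i) := by
        refine Finset.sum_le_sum fun D hD => ?_
        have hq := hQ D
        have hDs := ((mem_S hV0).1 hD).2.2
        refine mul_le_mul_of_nonneg_left ?_ (by positivity)
        rw [← Finset.mul_sum]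
        refine mul_le_mul_of_nonneg_left ?_ hm0
        set X := (primBall ⌊V⌋₊).filter (fun x => D ^ 2 ∣ x) with hX
        have hdisj : (X : Set Eis).PairwiseDisjoint (fun x => Ix I s δ j c c₀ o (g * x)) := by
          intro x hx x' hx' hne
          rw [Function.onFun, Finset.disjoint_left]
          intro i hi hi'
          unfold Ix at hi hi'
          rw [Finset.mem_filter] at hi hi'
          apply hne
          exact mul_left_cancel₀ hg.ne_zero (hi.2.2.symm.trans hi'.2.2)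
        rw [← Finset.sum_biUnion hdisj]
        refine Finset.sum_le_sum_of_subset_of_nonneg (fun i hi => ?_) fun i _ _ => hF0 i
        rw [Finset.mem_biUnion] at hi
        obtain ⟨x, hx, hi⟩ := hi
        unfold Ix at hi
        rw [Finset.mem_filter] at hi
        obtain ⟨h1, h2, h3⟩ := hi
        have hiI : i ∈ I := by unfold II at h1; exact (Finset.mem_filter.mp h1).1
        rw [Finset.mem_filter]
        refine ⟨h1, ?_⟩
        obtain ⟨s1, s2, s3, s4, s5, s6, s7⟩ := dc_spec (hI.jc i hiI)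
        have hcop : IsCoprime (dc (j i)).2.1 (δ i) := by
          have h4 := hI.cop i hiI h2
          rw [s7] at h4
          exact IsCoprime.of_mul_left_right (IsCoprime.of_mul_left_left h4)
        refine dvd_of_sq_dvd hDs s3 hcop ?_
        have h5 : D ^ 2 ∣ x := (Finset.mem_filter.mp hx).2
        have h6 : D ^ 2 ∣ XI δ j i := by rw [h3]; exact h5.mul_left g
        exact h6
    _ = m * ∑ i ∈ II I s j c₀ o, F i *
          ∑ D ∈ (S V).filter (fun D => D ∣ δ i), (nm D : ℝ) * Qd K V B (nm D) := by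
        simp only [Finset.sum_filter, Finset.mul_sum]
        rw [Finset.sum_comm]
        refine Finset.sum_congr rfl fun i _ => Finset.sum_congr rfl fun D _ => ?_
        split_ifs <;> ring
    _ ≤ m * ∑ i ∈ II I s j c₀ o, F i * (τ * ((nm (δ i) : ℝ) * K + V * B +
          (K * (V * B)) ^ ((2 : ℝ) / 3))) := by
        refine mul_le_mul_of_nonneg_left (Finset.sum_le_sum fun i hi => ?_) hm0
        have hiI : i ∈ I := by unfold II at hi; exact (Finset.mem_filter.mp hi).1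
        have hδp := hI.prim i hiI
        refine mul_le_mul_of_nonneg_left ?_ (hF0 i)
        calc ∑ D ∈ (S V).filter (fun D => D ∣ δ i), (nm D : ℝ) * Qd K V B (nm D)
            ≤ ∑ D ∈ (S V).filter (fun D => D ∣ δ i), ((nm (δ i) : ℝ) * K + V * B +
              (K * (V * B)) ^ ((2 : ℝ) / 3)) := by
              refine Finset.sum_le_sum fun D hD => ?_
              rw [Finset.mem_filter, mem_S hV0] at hD
              exact Qd_mul_le hK hV0 hB (nm_ge_one hD.1.2.1.ne_zero)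
                (by exact_mod_cast Div277.nm_le_of_dvd hδp.ne_zero hD.2)
          _ = (((S V).filter (fun D => D ∣ δ i)).card : ℝ) * ((nm (δ i) : ℝ) * K + V * B +
              (K * (V * B)) ^ ((2 : ℝ) / 3)) := by rw [Finset.sum_const, nsmul_eq_mul]
          _ ≤ _ := by
              refine mul_le_mul_of_nonneg_right ?_ (by positivity)
              refine le_trans ?_ (hτ i hiI)
              have : (S V).filter (fun D => D ∣ δ i) ⊆ dvs (δ i) := fun D hD => by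
                rw [Finset.mem_filter, mem_S hV0] at hD
                exact (mem_dvs hδp.ne_zero).mpr ⟨hD.1.2.1, hD.2⟩
              exact_mod_cast Finset.card_le_card this
    _ = _ := by
        rw [Finset.mul_sum, Finset.mul_sum]
        refine Finset.sum_congr rfl fun i _ => ?_
        ring

end en

end Crest.Agent.R017.GHB842
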