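import Crest.Agent.R017.E4Hi_842

/-!
# Row 17, E4: the x-side in the large sieve range, true lengths (helper842)

* `CS_fib`, `norm_CS_sig` : a sequence split by the `S₀`-part of the index
* `Qs` : the large sieve norm, the length in the last term without the `S₀`-part
* `one_sdS`, `sum_Vr_leS`, `sd_hbS` : the x-side moment with a natural factor
-/

set_option autoImplicit false
set_option maxHeartbeats 400000

noncomputable section

open Complex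
open scoped ComplexConjugate Classical

namespace Crest.Agent.R017.GHB842

open Crest.Agent.R012 Crest.Agent.R012.Eis
open Crest.Agent.R012.LS2 (S mem_S HB Final)
open Crest.Agent.R012.Div277 (dvs mem_dvs isPrim_of_mem_dvs dvd_of_mem_dvs tau tau_le_rpow
  sum_inv_primBall_le poly_log_le)
open Crest.Agent.R012.GaussLoc283 (syAx)
open Crest.Agent.R017.CM106 (CS)
open Crest.Agent.R017.PX764 (norm_sy_le' n6 th Gh)
open Crest.Agent.R017.E1551 (nmpos nm_ge_one)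
open Crest.Agent.R017.C70 (CbF JC)
open Crest.Agent.R017.E4352 (Sd)
open Crest.Agent.R017.E4y92 (Vr Sd_sq)
open Crest.Agent.R017.E3P842 (CS_smul_sy)
open Crest.Agent.R017.E4579 (SupB bpt bco bpt_prim bpt_sup bpt_dvd bpt_mul bpt_mul_bco bco_cop
  bco_prim bpt_eq)

lemma dvd_of_sqfS {N : Eis} {m : Eis} : Squarefree m → (∀ p : Eis, Prime p → p ∣ m → p ∣ N) →
    m ∣ N := by
  refine UniqueFactorizationMonoid.induction_on_prime
    (P := fun m => Squarefree m → (∀ p : Eis, Prime p → p ∣ m → p ∣ N) → m ∣ N) m ?_ ?_ ?_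
  · intro h
    exact absurd h not_squarefree_zero
  · intro u hu _ _
    exact hu.dvd
  · intro a p ha hp ih hsf hdv
    have h1 : Squarefree a := hsf.squarefree_of_dvd (dvd_mul_left _ _)
    have h2 : ¬ p ∣ a := by
      rintro ⟨b, rfl⟩
      exact hp.not_isUnit (hsf p ⟨b, by ring⟩)
    have h3 : IsCoprime p a := hp.irreducible.coprime_iff_not_dvd.mpr h2
    exact h3.mul_dvd (hdv p hp (dvd_mul_right _ _))
      (ih h1 fun q hq hqa => hdv q hq (hqa.mul_left _))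

/-- a squarefree `σ` all whose primes divide `S₀` divides `S₀` -/
lemma bpt_mem_dvs {S₀ n : Eis} (hS : IsPrim S₀) (hn : IsPrim n) (hq : Squarefree n) :
    bpt S₀ n ∈ dvs S₀ := by
  rw [mem_dvs hS.ne_zero]
  refine ⟨bpt_prim hS hn, ?_⟩
  exact dvd_of_sqfS (hq.squarefree_of_dvd (bpt_dvd hS hn)) (bpt_sup hS hn)

/-- the part of the sequence with `S₀`-part `σ` -/
def fib (S₀ : Eis) (W : Eis → ℂ) (σ r : Eis) : ℂ := if bpt S₀ r = σ then W r else 0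

lemma fib_ne {S₀ : Eis} {W : Eis → ℂ} {σ r : Eis} (h : fib S₀ W σ r ≠ 0) :
    bpt S₀ r = σ ∧ W r ≠ 0 := by
  unfold fib at h
  split_ifs at h with h1
  · exact ⟨h1, h⟩
  · exact absurd rfl h

lemma CS_finS {W : Eis → ℂ} {T : Finset Eis} (hW : ∀ n, W n ≠ 0 → n ∈ T) (a : Eis) :
    CS W a = ∑ n ∈ T, W n * sy a n := by
  unfold CS
  refine tsum_eq_sum fun n hn => ?_
  by_contra h
  exact hn (hW n (left_ne_zero_of_mul h))

lemma CS_fib {N : ℝ} (hN : 0 ≤ N) {W : Eis → ℂ} (hW : ∀ n, W n ≠ 0 → n ∈ S N) {S₀ : Eis}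
    (hS : IsPrim S₀) (a : Eis) : CS W a = ∑ σ ∈ dvs S₀, CS (fib S₀ W σ) a := by
  rw [CS_finS hW a, Finset.sum_congr rfl (fun σ _ => CS_finS (W := fib S₀ W σ)
    (fun n hn => hW n (fib_ne hn).2) a), Finset.sum_comm]
  refine Finset.sum_congr rfl fun n hn => ?_
  obtain ⟨h1, h2, h3⟩ := (mem_S hN).1 hn
  rw [← Finset.sum_mul]
  congr 1
  unfold fib
  rw [Finset.sum_ite_eq, if_pos (bpt_mem_dvs hS h2 h3)]

/-- the sequence of the cofactors -/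
def cof (S₀ : Eis) (W : Eis → ℂ) (σ ρ : Eis) : ℂ :=
  if IsPrim ρ then fib S₀ W σ (σ * ρ) else 0

lemma cof_ne {S₀ : Eis} {W : Eis → ℂ} {σ ρ : Eis} (h : cof S₀ W σ ρ ≠ 0) :
    IsPrim ρ ∧ bpt S₀ (σ * ρ) = σ ∧ W (σ * ρ) ≠ 0 := by
  unfold cof at h
  split_ifs at h with h1
  · exact ⟨h1, fib_ne h⟩
  · exact absurd rfl h

lemma CS_cof {N : ℝ} (hN : 0 ≤ N) {W : Eis → ℂ} (hW : ∀ n, W n ≠ 0 → n ∈ S N) {S₀ : Eis}
    (hS : IsPrim S₀) {σ : Eis} (hσ : IsPrim σ) (a : Eis) :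
    CS (fib S₀ W σ) a = sy a σ * CS (cof S₀ W σ) a := by
  have hc : ∀ ρ, cof S₀ W σ ρ ≠ 0 → ρ ∈ S N := by
    intro ρ hρ
    obtain ⟨h1, h2, h3⟩ := cof_ne hρ
    obtain ⟨g1, g2, g3⟩ := (mem_S hN).1 (hW _ h3)
    refine (mem_S hN).2 ⟨?_, h1, g3.squarefree_of_dvd (dvd_mul_left _ _)⟩
    refine le_trans ?_ g1
    rw [nm_mul]
    push_cast
    exact le_mul_of_one_le_left (Nat.cast_nonneg _) (nm_ge_one hσ.ne_zero)
  rw [CS_finS (W := fib S₀ W σ) (fun n hn => hW n (fib_ne hn).2) a, CS_finS hc a, Finset.mul_sum]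
  symm
  refine Finset.sum_bij_ne_zero (fun ρ _ _ => σ * ρ) (fun ρ _ hne => ?_)
    (fun ρ _ _ ρ' _ _ he => ?_) (fun r hr hne => ?_) (fun ρ _ hne => ?_)
  · have h1 : cof S₀ W σ ρ ≠ 0 := by
      intro h0; apply hne; rw [h0]; ring
    exact hW _ (cof_ne h1).2.2
  · exact mul_left_cancel₀ hσ.ne_zero he
  · have h1 : fib S₀ W σ r ≠ 0 := left_ne_zero_of_mul hne
    obtain ⟨h2, h3⟩ := fib_ne h1
    obtain ⟨g1, g2, g3⟩ := (mem_S hN).1 hr
    have hrσ : σ * bco S₀ r = r := by rw [← h2]; exact bpt_mul_bco hS g2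
    have hρ : IsPrim (bco S₀ r) := bco_prim hS g2
    have h4 : cof S₀ W σ (bco S₀ r) = fib S₀ W σ r := by
      unfold cof
      rw [if_pos hρ, hrσ]
    have h5 : cof S₀ W σ (bco S₀ r) ≠ 0 := by rw [h4]; exact h1
    refine ⟨bco S₀ r, hc _ h5, ?_, hrσ⟩
    rw [h4]
    have e : sy a σ * (fib S₀ W σ r * sy a (bco S₀ r)) = fib S₀ W σ r * sy a r := by
      conv_rhs => rw [← hrσ, syAx.mul_right a σ (bco S₀ r) hσ hρ]
      rw [hrσ]
      ring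
    rw [e]
    exact hne
  · have h1 : cof S₀ W σ ρ ≠ 0 := by
      intro h0; apply hne; rw [h0]; ring
    obtain ⟨h2, -, -⟩ := cof_ne h1
    rw [syAx.mul_right a σ ρ hσ h2]
    unfold cof
    rw [if_pos h2]
    ring

/-- `‖CS W‖²` by the `S₀`-parts -/
lemma CS_sq_fib {N : ℝ} (hN : 0 ≤ N) {W : Eis → ℂ} (hW : ∀ n, W n ≠ 0 → n ∈ S N) {S₀ : Eis}
    (hS : IsPrim S₀) (a : Eis) :
    ‖CS W a‖ ^ 2 ≤ ((dvs S₀).card : ℝ) * ∑ σ ∈ dvs S₀, ‖CS (cof S₀ W σ) a‖ ^ 2 := by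
  rw [CS_fib hN hW hS a]
  refine (pow_le_pow_left₀ (norm_nonneg _) (norm_sum_le _ _) 2).trans ?_
  refine sq_sum_le_card_mul_sum_sq.trans ?_
  refine mul_le_mul_of_nonneg_left (Finset.sum_le_sum fun σ hσ => ?_) (Nat.cast_nonneg _)
  have hσp := isPrim_of_mem_dvs hσ
  refine pow_le_pow_left₀ (norm_nonneg _) ?_ 2
  rw [CS_cof hN hW hS hσp a, norm_mul]
  exact mul_le_of_le_one_left (norm_nonneg _) (norm_sy_le' hσp)

/-- the energy by the `S₀`-parts -/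
lemma sum_cof {N : ℝ} (hN : 0 ≤ N) {W : Eis → ℂ} (hW : ∀ n, W n ≠ 0 → n ∈ S N) {S₀ : Eis}
    (hS : IsPrim S₀) (F : Eis → ℝ) (hF : ∀ σ, 0 ≤ F σ) (T : Eis → Finset Eis) :
    ∑ σ ∈ dvs S₀, F σ * ∑ ρ ∈ T σ, ‖cof S₀ W σ ρ‖ ^ 2 ≤
      ∑ r ∈ S N, F (bpt S₀ r) * ‖W r‖ ^ 2 := by
  set A := (dvs S₀).sigma (fun σ => (T σ).filter (fun ρ => cof S₀ W σ ρ ≠ 0)) with hA
  have e1 : ∑ σ ∈ dvs S₀, F σ * ∑ ρ ∈ T σ, ‖cof S₀ W σ ρ‖ ^ 2 =
      ∑ z ∈ A, F z.1 * ‖cof S₀ W z.1 z.2‖ ^ 2 := by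
    rw [hA, Finset.sum_sigma]
    refine Finset.sum_congr rfl fun σ _ => ?_
    rw [Finset.mul_sum, Finset.sum_filter]
    refine Finset.sum_congr rfl fun ρ _ => ?_
    split_ifs with h
    · rfl
    · push Not at h
      rw [h]; simp
  have hz : ∀ z ∈ A, IsPrim z.1 ∧ IsPrim z.2 ∧ bpt S₀ (z.1 * z.2) = z.1 ∧ W (z.1 * z.2) ≠ 0 ∧
      cof S₀ W z.1 z.2 = W (z.1 * z.2) := by
    intro z hz
    rw [hA, Finset.mem_sigma, Finset.mem_filter] at hz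
    obtain ⟨h1, h2, h3⟩ := cof_ne hz.2.2
    refine ⟨isPrim_of_mem_dvs hz.1, h1, h2, h3, ?_⟩
    unfold cof fib
    rw [if_pos h1, if_pos h2]
  rw [e1]
  have e2 : ∑ z ∈ A, F z.1 * ‖cof S₀ W z.1 z.2‖ ^ 2 =
      ∑ r ∈ A.image (fun z => z.1 * z.2), F (bpt S₀ r) * ‖W r‖ ^ 2 := by
    rw [Finset.sum_image]
    · refine Finset.sum_congr rfl fun z hz' => ?_
      obtain ⟨h1, h2, h3, h4, h5⟩ := hz z hz'
      rw [h3, h5]
    · intro z hz' y hy he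
      obtain ⟨h1, h2, h3, h4, h5⟩ := hz z hz'
      obtain ⟨g1, g2, g3, g4, g5⟩ := hz y hy
      have he' : z.1 * z.2 = y.1 * y.2 := he
      have k1 : z.1 = y.1 := by rw [← h3, ← g3, he']
      obtain ⟨a, b⟩ := z
      obtain ⟨c, d⟩ := y
      simp only at k1 he' h1
      subst k1
      have k2 : b = d := mul_left_cancel₀ h1.ne_zero he'
      rw [k2]
  rw [e2]
  refine Finset.sum_le_sum_of_subset_of_nonneg (fun r hr => ?_) fun r _ _ => by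
    have := hF (bpt S₀ r)
    positivity
  obtain ⟨z, hz', rfl⟩ := Finset.mem_image.mp hr
  exact hW _ (hz z hz').2.2.2.1

/-- the norm: the length in the last term without the `S₀`-part of `r` -/
def Qs (K V B : ℝ) (S₀ : Eis) (d : ℝ) (r : Eis) : ℝ :=
  K + V * B / d ^ 2 + (K * (V * B / ((nm (bpt S₀ r) : ℝ) * d ^ 2))) ^ ((2 : ℝ) / 3)

lemma Qs_nonneg {K V B d : ℝ} {S₀ r : Eis} (hK : 0 ≤ K) (hV : 0 ≤ V) (hB : 0 ≤ B)
    (hd : 0 ≤ d) : 0 ≤ Qs K V B S₀ d r := by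
  unfold Qs
  have : (0 : ℝ) ≤ nm (bpt S₀ r) := Nat.cast_nonneg _
  positivity

lemma alg_sS {K VB s d g t : ℝ} (hK : 0 ≤ K) (hV : 0 ≤ VB) (hs : 1 ≤ s) (hd : 1 ≤ d)
    (hg : 1 ≤ g) (ht : 1 ≤ t) (htg : t ≤ s * g) :
    s * (K / s ^ 2 + VB / (s * d ^ 2 * g) + (K / s ^ 2 * (VB / (s * d ^ 2 * g))) ^ ((2 : ℝ) / 3)) ≤
      K + VB / d ^ 2 + (K * (VB / (t * d ^ 2))) ^ ((2 : ℝ) / 3) := by
  have s0 : 0 < s := by linarith
  have d0 : 0 < d := by linarith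
  have g0 : 0 < g := by linarith
  have t0 : 0 < t := by linarith
  have e3 : (K / s ^ 2 * (VB / (s * d ^ 2 * g))) ^ ((2 : ℝ) / 3) =
      (K * (VB / (g * d ^ 2))) ^ ((2 : ℝ) / 3) * (s ^ 2)⁻¹ := by
    have h1 : K / s ^ 2 * (VB / (s * d ^ 2 * g)) = (K * (VB / (g * d ^ 2))) * (s ^ 3)⁻¹ := by
      field_simp
    have h2 : ((s ^ 3)⁻¹) ^ ((2 : ℝ) / 3) = (s ^ 2)⁻¹ := by
      rw [Real.inv_rpow (by positivity), ← Real.rpow_natCast s 3, ← Real.rpow_mul s0.le,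
        ← Real.rpow_natCast s 2]
      norm_num
    rw [h1, Real.mul_rpow (by positivity) (by positivity), h2]
  rw [e3]
  have e4 : (K * (VB / (g * d ^ 2))) ^ ((2 : ℝ) / 3) ≤
      (K * (VB / (t * d ^ 2))) ^ ((2 : ℝ) / 3) * s := by
    have h1 : K * (VB / (g * d ^ 2)) ≤ (K * (VB / (t * d ^ 2))) * s := by
      have e5 : (K * (VB / (t * d ^ 2))) * s = K * VB * s / (t * d ^ 2) := by ring
      have e6 : K * (VB / (g * d ^ 2)) = K * VB / (g * d ^ 2) := by ring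
      rw [e5, e6, div_le_div_iff₀ (by positivity) (by positivity)]
      have : K * VB * (t * d ^ 2) ≤ K * VB * ((s * g) * d ^ 2) := by gcongr
      calc K * VB * (t * d ^ 2) ≤ K * VB * ((s * g) * d ^ 2) := this
        _ = K * VB * s * (g * d ^ 2) := by ring
    have h2 : s ^ ((2 : ℝ) / 3) ≤ s := by
      conv_rhs => rw [← Real.rpow_one s]
      exact Real.rpow_le_rpow_of_exponent_le hs (by norm_num)
    calc (K * (VB / (g * d ^ 2))) ^ ((2 : ℝ) / 3)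
        ≤ ((K * (VB / (t * d ^ 2))) * s) ^ ((2 : ℝ) / 3) :=
          Real.rpow_le_rpow (by positivity) h1 (by norm_num)
      _ = (K * (VB / (t * d ^ 2))) ^ ((2 : ℝ) / 3) * s ^ ((2 : ℝ) / 3) :=
          Real.mul_rpow (by positivity) (by positivity)
      _ ≤ _ := mul_le_mul_of_nonneg_left h2 (by positivity)
  set Z := (K * (VB / (g * d ^ 2))) ^ ((2 : ℝ) / 3) with hZ
  set Z' := (K * (VB / (t * d ^ 2))) ^ ((2 : ℝ) / 3) with hZ'
  have hZ0 : 0 ≤ Z := by positivity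
  have t1 : s * (K / s ^ 2) ≤ K := by
    have : s * (K / s ^ 2) = K / s := by field_simp
    rw [this]; exact div_le_self hK hs
  have t2 : s * (VB / (s * d ^ 2 * g)) ≤ VB / d ^ 2 := by
    have : s * (VB / (s * d ^ 2 * g)) = VB / d ^ 2 / g := by field_simp
    rw [this]; exact div_le_self (by positivity) hg
  have t3 : s * (Z * (s ^ 2)⁻¹) ≤ Z' := by
    have : s * (Z * (s ^ 2)⁻¹) = Z / s := by field_simp
    rw [this, div_le_iff₀ s0]; exact e4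
  calc s * (K / s ^ 2 + VB / (s * d ^ 2 * g) + Z * (s ^ 2)⁻¹) =
      s * (K / s ^ 2) + s * (VB / (s * d ^ 2 * g)) + s * (Z * (s ^ 2)⁻¹) := by ring
    _ ≤ _ := by linarith

/-- one pair `(s, δ)` -/
lemma one_sdS {ε C : ℝ} (hε : 0 ≤ ε) (hC0 : 0 ≤ C) (hC : ∀ M N : ℝ, 1 ≤ M → 1 ≤ N →
    HB M N (C * (M * N) ^ ε * (M + N + (M * N) ^ ((2 : ℝ) / 3)))) {K V B : ℝ} (hK : 1 ≤ K)
    (hV : 1 ≤ V) (hB : 1 ≤ B) {v b : Eis → ℂ}
    (hv : ∀ x, v x ≠ 0 → IsPrim x ∧ CbF x ∧ (nm x : ℝ) ≤ V)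
    (hb : ∀ n, b n ≠ 0 → n ∈ primBall ⌊B⌋₊) {Mb : ℝ} (hMb0 : 0 ≤ Mb)
    (hMb : ∀ s, IsPrim s → ∑ d ∈ primBall ⌊B⌋₊, ‖b (s * d)‖ ^ 2 ≤ Mb / nm s) {τ : ℝ}
    (hτ : ∀ u ∈ primBall ⌊V * B⌋₊, (tau u : ℝ) ≤ τ) (hτ0 : 0 ≤ τ) {s δ S₀ : Eis} (hs : IsPrim s)
    (hδ : IsPrim δ) (hS : IsPrim S₀) :
    (nm s : ℝ) * ∑ a ∈ S (K / (nm s : ℝ) ^ 2), ‖CS (Vr v s δ) a * CS b (a * s ^ 2)‖ ^ 2 ≤
      ((dvs S₀).card : ℝ) * (WW C ε τ K V B * Mb) *
        ∑ r ∈ S V, Qs K V B S₀ (nm δ) (s * r) * ‖Vr v s δ r‖ ^ 2 := by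
  have hV0 : 0 ≤ V := by linarith
  have hB0 : 0 ≤ B := by linarith
  have hK0 : 0 ≤ K := by linarith
  have hs1 : (1 : ℝ) ≤ nm s := nm_ge_one hs.ne_zero
  have hd1 : (1 : ℝ) ≤ nm δ := nm_ge_one hδ.ne_zero
  set σ : ℝ := (nm s : ℝ) with hσ
  set d : ℝ := (nm δ : ℝ) with hd
  set K' : ℝ := K / σ ^ 2 with hK'
  have hK'0 : 0 ≤ K' := by positivity
  have hlogB := Real.log_nonneg hB
  have hVB1 : 1 ≤ V * B := by nlinarith
  have hlogVB := Real.log_nonneg hVB1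
  have hWW0 : 0 ≤ WW C ε τ K V B := by unfold WW; positivity
  set W := Vr v s δ with hW
  have hWm : ∀ n, W n ≠ 0 → n ∈ S V := by
    intro n hn
    obtain ⟨⟨g1, g2, g3, g4⟩, g5⟩ := Vr_ne hn
    have g6 := (hv _ g5).2.2
    refine (mem_S hV0).2 ⟨le_trans ?_ g6, g1, g2⟩
    rw [nm_mul, nm_mul, nm_pow]
    push_cast
    have h1 : (1 : ℝ) ≤ d ^ 2 := one_le_pow₀ hd1
    have h2 : (0 : ℝ) ≤ nm n := Nat.cast_nonneg _
    calc (nm n : ℝ) = 1 * (nm n * 1) := by ring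
      _ ≤ σ * (nm n * d ^ 2) := by gcongr
  set b' : Eis → ℂ := fun n => b n * sy (s ^ 2) n with hb'
  have hbp : ∀ n, b n ≠ 0 → IsPrim n := fun n hn => (mem_primBall.mp (hb n hn)).2
  have e0 : ∀ a, CS b (a * s ^ 2) = CS b' a := fun a => by
    rw [hb', ← CS_smul_sy hbp]
    congr 1
    ring
  simp only [e0]
  -- one `S₀`-part
  set Fs : Eis → ℝ := fun g => K + V * B / d ^ 2 +
    (K * (V * B / ((nm (bpt S₀ s * g) : ℝ) * d ^ 2))) ^ ((2 : ℝ) / 3) with hFs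
  have hFs0 : ∀ g, 0 ≤ Fs g := fun g => by
    rw [hFs]
    have : (0 : ℝ) ≤ nm (bpt S₀ s * g) := Nat.cast_nonneg _
    positivity
  have hone : ∀ g ∈ dvs S₀, σ * ∑ a ∈ S K', ‖CS (cof S₀ W g) a * CS b' a‖ ^ 2 ≤
      WW C ε τ K V B * Mb * (Fs g * ∑ r ∈ S (V / (σ * d ^ 2 * nm g)), ‖cof S₀ W g r‖ ^ 2) := by
    intro g hg
    have hgp : IsPrim g := isPrim_of_mem_dvs hg
    have hg1 : (1 : ℝ) ≤ nm g := nm_ge_one hgp.ne_zero
    set N : ℝ := V / (σ * d ^ 2 * nm g) with hN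
    have hN00 : 0 ≤ N := by positivity
    have hSN : 0 ≤ ∑ r ∈ S N, ‖cof S₀ W g r‖ ^ 2 := Finset.sum_nonneg fun _ _ => by positivity
    have hRHS : 0 ≤ WW C ε τ K V B * Mb * (Fs g * ∑ r ∈ S N, ‖cof S₀ W g r‖ ^ 2) := by
      have := hFs0 g
      positivity
    by_cases hK1 : K' < 1
    · have : S K' = ∅ := by
        rw [Finset.eq_empty_iff_forall_notMem]
        intro k hk
        obtain ⟨k1, k2, k3⟩ := (mem_S hK'0).1 hk
        have : (1 : ℝ) ≤ nm k := nm_ge_one k2.ne_zero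
        linarith
      rw [this, Finset.sum_empty, mul_zero]
      exact hRHS
    push Not at hK1
    by_cases hbe : ∀ n, cof S₀ W g n = 0
    · have : ∀ k, CS (cof S₀ W g) k = 0 := fun k => by unfold CS; simp [hbe]
      simp only [this]
      simpa using hRHS
    push Not at hbe
    obtain ⟨n₀, hn₀⟩ := hbe
    have hNmem : ∀ n, cof S₀ W g n ≠ 0 → IsPrim n ∧ Squarefree n ∧ (nm n : ℝ) ≤ N ∧ 1 ≤ N := by
      intro n hn
      obtain ⟨c1, c2, c3⟩ := cof_ne hn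
      obtain ⟨⟨g1, g2, g3, g4⟩, g5⟩ := Vr_ne c3
      have g6 := (hv _ g5).2.2
      have e1 : (nm (s * (g * n * δ ^ 2)) : ℝ) = nm n * (σ * d ^ 2 * nm g) := by
        rw [nm_mul, nm_mul, nm_mul, nm_pow]
        push_cast
        ring
      rw [e1] at g6
      have g7 : (nm n : ℝ) ≤ N := by
        rw [hN, le_div_iff₀ (by positivity)]
        exact g6
      exact ⟨c1, g2.squarefree_of_dvd (dvd_mul_left _ _), g7, (nm_ge_one c1.ne_zero).trans g7⟩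
    have hN1 : 1 ≤ N := (hNmem n₀ hn₀).2.2.2
    have hN0 : 0 ≤ N := by linarith
    have hden : (1 : ℝ) ≤ σ * d ^ 2 * nm g := by
      have h1 : (1 : ℝ) ≤ d ^ 2 := one_le_pow₀ hd1
      calc (1 : ℝ) = 1 * 1 * 1 := by ring
        _ ≤ σ * d ^ 2 * nm g := by gcongr
    have hNV : N ≤ V := div_le_self hV0 hden
    have hNB : N * B ≤ V * B := mul_le_mul_of_nonneg_right hNV hB0
    have hNB1 : 1 ≤ N * B := by nlinarith
    have hK'K : K' ≤ K := div_le_self hK0 (one_le_pow₀ hs1)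
    have key := prod_hb1 hε hC0 hC hK1 hN1 hB (β := cof S₀ W g) (b := b')
      (fun n hn => (mem_S hN0).2 ⟨(hNmem n hn).2.2.1, (hNmem n hn).1, (hNmem n hn).2.1⟩)
      (fun n hn => hb n (left_ne_zero_of_mul hn)) hMb0
      (fun u hu => by
        refine le_trans (Finset.sum_le_sum fun x hx => ?_) (hMb u hu)
        refine pow_le_pow_left₀ (norm_nonneg _) ?_ 2
        rw [hb']
        simp only [norm_mul]
        exact mul_le_of_le_one_right (norm_nonneg _)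
          (norm_sy_le' (hu.mul (mem_primBall.mp hx).2)))
      (T := τ) (fun u hu => hτ u (Div277.primBall_mono (Nat.floor_le_floor hNB) hu)) hτ0
    have w1 : (100 * (1 + Real.log B)) ^ 4 *
        ((100 * (1 + Real.log (N * B))) * (C * (K' * (N * B)) ^ ε) * τ ^ 2) ≤
        WW C ε τ K V B := by
      unfold WW
      have l1 : Real.log (N * B) ≤ Real.log (V * B) := Real.log_le_log (by linarith) hNB
      have l0 := Real.log_nonneg hNB1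
      have l2 : K' * (N * B) ≤ K * (V * B) := mul_le_mul hK'K hNB (by positivity) hK0
      have l3 : (K' * (N * B)) ^ ε ≤ (K * (V * B)) ^ ε := Real.rpow_le_rpow (by positivity) l2 hε
      gcongr
    have hbs : IsPrim (bpt S₀ s) := bpt_prim hS hs
    have hsg : (nm (bpt S₀ s * g) : ℝ) ≤ σ * nm g := by
      rw [nm_mul]
      push_cast
      refine mul_le_mul_of_nonneg_right ?_ (Nat.cast_nonneg _)
      rw [hσ]
      exact_mod_cast Div277.nm_le_of_dvd hs.ne_zero (bpt_dvd hS hs)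
    have w3 := alg_sS (K := K) (VB := V * B) (s := σ) (d := d) (g := nm g)
      (t := nm (bpt S₀ s * g)) hK0 (by positivity) hs1 hd1 hg1
      (nm_ge_one (hbs.mul hgp).ne_zero) hsg
    have e6 : V * B / (σ * d ^ 2 * nm g) = N * B := by rw [hN]; ring
    rw [e6] at w3
    calc σ * ∑ a ∈ S K', ‖CS (cof S₀ W g) a * CS b' a‖ ^ 2
        ≤ σ * (WW C ε τ K V B * (Mb * (K' + N * B + (K' * (N * B)) ^ ((2 : ℝ) / 3)) *
            ∑ n ∈ S N, ‖cof S₀ W g n‖ ^ 2)) := by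
          refine mul_le_mul_of_nonneg_left (key.trans ?_) (by positivity)
          rw [← mul_assoc ((100 * (1 + Real.log B)) ^ 4)]
          exact mul_le_mul_of_nonneg_right w1 (by positivity)
      _ = WW C ε τ K V B * Mb * ((σ * (K' + N * B + (K' * (N * B)) ^ ((2 : ℝ) / 3))) *
          ∑ n ∈ S N, ‖cof S₀ W g n‖ ^ 2) := by ring
      _ ≤ WW C ε τ K V B * Mb * (Fs g * ∑ n ∈ S N, ‖cof S₀ W g n‖ ^ 2) := by
          refine mul_le_mul_of_nonneg_left (mul_le_mul_of_nonneg_right w3 hSN) (by positivity)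
  have hsum := sum_cof hV0 hWm hS Fs hFs0 (fun g => S (V / (σ * d ^ 2 * nm g)))
  calc σ * ∑ a ∈ S K', ‖CS W a * CS b' a‖ ^ 2
      ≤ σ * ∑ a ∈ S K', ((dvs S₀).card : ℝ) * ∑ g ∈ dvs S₀, ‖CS (cof S₀ W g) a * CS b' a‖ ^ 2 := by
        refine mul_le_mul_of_nonneg_left (Finset.sum_le_sum fun a _ => ?_) (by positivity)
        have h1 := CS_sq_fib hV0 hWm hS a
        rw [norm_mul, mul_pow]
        calc ‖CS W a‖ ^ 2 * ‖CS b' a‖ ^ 2
            ≤ (((dvs S₀).card : ℝ) * ∑ g ∈ dvs S₀, ‖CS (cof S₀ W g) a‖ ^ 2) * ‖CS b' a‖ ^ 2 :=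
              mul_le_mul_of_nonneg_right h1 (by positivity)
          _ = _ := by
              rw [mul_assoc, Finset.sum_mul]
              congr 1
              refine Finset.sum_congr rfl fun g _ => ?_
              rw [norm_mul, mul_pow]
    _ = ((dvs S₀).card : ℝ) * ∑ g ∈ dvs S₀, (σ * ∑ a ∈ S K', ‖CS (cof S₀ W g) a * CS b' a‖ ^ 2) := by
        rw [← Finset.mul_sum, Finset.sum_comm]
        simp_rw [← Finset.mul_sum]
        ring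
    _ ≤ ((dvs S₀).card : ℝ) * ∑ g ∈ dvs S₀, (WW C ε τ K V B * Mb *
          (Fs g * ∑ r ∈ S (V / (σ * d ^ 2 * nm g)), ‖cof S₀ W g r‖ ^ 2)) :=
        mul_le_mul_of_nonneg_left (Finset.sum_le_sum hone) (Nat.cast_nonneg _)
    _ = ((dvs S₀).card : ℝ) * (WW C ε τ K V B * Mb) * ∑ g ∈ dvs S₀,
          Fs g * ∑ r ∈ S (V / (σ * d ^ 2 * nm g)), ‖cof S₀ W g r‖ ^ 2 := by
        rw [← Finset.mul_sum]; ring
    _ ≤ ((dvs S₀).card : ℝ) * (WW C ε τ K V B * Mb) *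
          ∑ r ∈ S V, Fs (bpt S₀ r) * ‖W r‖ ^ 2 :=
        mul_le_mul_of_nonneg_left hsum (by positivity)
    _ = _ := by
        congr 1
        refine Finset.sum_congr rfl fun r hr => ?_
        have hrp := ((mem_S hV0).1 hr).2.1
        rw [hFs]
        unfold Qs
        rw [(bpt_mul hS hs hrp).1]

/-- the energy with the refined norm -/
def EnS (K V B : ℝ) (S₀ : Eis) (v : Eis → ℂ) (δ : Eis) : ℝ :=
  ∑ r ∈ (S V).filter (fun r => IsCoprime r δ),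
    Qs K V B S₀ (nm δ) r * ‖v (r * δ ^ 2)‖ ^ 2

lemma EnS_nonneg {K V B : ℝ} (hK : 0 ≤ K) (hV : 0 ≤ V) (hB : 0 ≤ B) (S₀ : Eis) (v : Eis → ℂ)
    (δ : Eis) : 0 ≤ EnS K V B S₀ v δ :=
  Finset.sum_nonneg fun r _ => by
    have := Qs_nonneg (S₀ := S₀) (r := r) hK hV hB (Nat.cast_nonneg (nm δ) : (0 : ℝ) ≤ _)
    positivity

/-- regrouping `(s, r) ↦ s r`, with a weight -/
lemma sum_Vr_leS {V : ℝ} (hV : 1 ≤ V) {v : Eis → ℂ}
    (hv : ∀ x, v x ≠ 0 → IsPrim x ∧ CbF x ∧ (nm x : ℝ) ≤ V) {δ : Eis} (hδ : IsPrim δ) {τ : ℝ}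
    (hτ : ∀ u ∈ primBall ⌊V⌋₊, (tau u : ℝ) ≤ τ) (Ss : Finset Eis)
    (hSs : ∀ s ∈ Ss, IsPrim s ∧ Squarefree s) (Q : Eis → ℝ) (hQ : ∀ r, 0 ≤ Q r) :
    ∑ s ∈ Ss, ∑ r ∈ S V, Q (s * r) * ‖Vr v s δ r‖ ^ 2 ≤
      τ * ∑ r ∈ (S V).filter (fun r => IsCoprime r δ), Q r * ‖v (r * δ ^ 2)‖ ^ 2 := by
  have hV0 : 0 ≤ V := by linarith
  set A := (Ss ×ˢ S V).filter (fun z => Vr v z.1 δ z.2 ≠ 0) with hA
  set T := (S V).filter (fun r => IsCoprime r δ) with hT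
  have hmem : ∀ z ∈ A, IsPrim z.1 ∧ IsPrim z.2 ∧ z.1 * z.2 ∈ T ∧
      ‖Vr v z.1 δ z.2‖ ≤ ‖v (z.1 * z.2 * δ ^ 2)‖ := by
    intro z hz
    rw [hA, Finset.mem_filter, Finset.mem_product] at hz
    obtain ⟨⟨h1, h2⟩, h3⟩ := hz
    obtain ⟨s1, s2⟩ := hSs _ h1
    obtain ⟨⟨g1, g2, g3, g4⟩, g5⟩ := Vr_ne h3
    have g6 := (hv _ g5).2.2
    have hd1 : (1 : ℝ) ≤ nm δ := nm_ge_one hδ.ne_zero
    have hsr : IsCoprime z.1 z.2 := g4.of_mul_left_left.symm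
    refine ⟨s1, g1, ?_, ?_⟩
    · rw [hT, Finset.mem_filter, mem_S hV0]
      refine ⟨⟨?_, s1.mul g1, squarefree_mul_iff.mpr ⟨hsr.isRelPrime, s2, g2⟩⟩, ?_⟩
      · refine le_trans ?_ g6
        rw [nm_mul, nm_mul, nm_mul, nm_pow]
        push_cast
        have h4 : (1 : ℝ) ≤ (nm δ : ℝ) ^ 2 := one_le_pow₀ hd1
        have h5 : (0 : ℝ) ≤ nm z.1 * nm z.2 := by positivity
        nlinarith
      · exact g4.of_mul_left_right.symm.mul_left g3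
    · unfold Vr
      rw [if_pos ⟨g1, g2, g3, g4⟩, norm_mul]
      have e1 : z.1 * (z.2 * δ ^ 2) = z.1 * z.2 * δ ^ 2 := by ring
      rw [e1]
      exact mul_le_of_le_one_right (norm_nonneg _) (norm_sy_le' (s1.pow 2))
  have e1 : ∑ s ∈ Ss, ∑ r ∈ S V, Q (s * r) * ‖Vr v s δ r‖ ^ 2 =
      ∑ z ∈ A, Q (z.1 * z.2) * ‖Vr v z.1 δ z.2‖ ^ 2 := by
    rw [← Finset.sum_product', hA, Finset.sum_filter]
    refine Finset.sum_congr rfl fun z _ => ?_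
    split_ifs with h
    · rfl
    · push Not at h
      rw [h]; simp
  have hmap : ∀ z ∈ A, z.1 * z.2 ∈ T := fun z hz => (hmem z hz).2.2.1
  calc ∑ s ∈ Ss, ∑ r ∈ S V, Q (s * r) * ‖Vr v s δ r‖ ^ 2 =
        ∑ z ∈ A, Q (z.1 * z.2) * ‖Vr v z.1 δ z.2‖ ^ 2 := e1
    _ ≤ ∑ z ∈ A, Q (z.1 * z.2) * ‖v (z.1 * z.2 * δ ^ 2)‖ ^ 2 :=
        Finset.sum_le_sum fun z hz => mul_le_mul_of_nonneg_left
          (pow_le_pow_left₀ (norm_nonneg _) (hmem z hz).2.2.2 2) (hQ _)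
    _ = ∑ n ∈ T, ∑ z ∈ A.filter (fun z => z.1 * z.2 = n),
          Q (z.1 * z.2) * ‖v (z.1 * z.2 * δ ^ 2)‖ ^ 2 :=
        (Finset.sum_fiberwise_of_maps_to hmap _).symm
    _ ≤ ∑ n ∈ T, τ * (Q n * ‖v (n * δ ^ 2)‖ ^ 2) := by
        refine Finset.sum_le_sum fun n hn => ?_
        have hn' := (mem_S hV0).1 (Finset.mem_filter.mp hn).1
        have e2 : ∑ z ∈ A.filter (fun z => z.1 * z.2 = n),
              Q (z.1 * z.2) * ‖v (z.1 * z.2 * δ ^ 2)‖ ^ 2 =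
            ((A.filter (fun z => z.1 * z.2 = n)).card : ℝ) * (Q n * ‖v (n * δ ^ 2)‖ ^ 2) := by
          rw [Finset.sum_congr rfl (fun z hz => by rw [(Finset.mem_filter.mp hz).2]),
            Finset.sum_const, nsmul_eq_mul]
        rw [e2]
        have hQn := hQ n
        refine mul_le_mul_of_nonneg_right ?_ (by positivity)
        have hcard : (A.filter (fun z => z.1 * z.2 = n)).card ≤ (dvs n).card := by
          refine Finset.card_le_card_of_injOn (fun z => z.1) (fun z hz => ?_)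
            (fun z hz z' hz' he => ?_)
          · obtain ⟨h1, h2⟩ := Finset.mem_filter.mp hz
            exact (mem_dvs hn'.2.1.ne_zero).mpr ⟨(hmem z h1).1, h2 ▸ dvd_mul_right _ _⟩
          · obtain ⟨h1, h2⟩ := Finset.mem_filter.mp hz
            obtain ⟨h1', h2'⟩ := Finset.mem_filter.mp hz'
            have he' : z.1 = z'.1 := he
            refine Prod.ext he' ?_
            have : z.1 * z.2 = z.1 * z'.2 := by rw [h2, he', h2']
            exact mul_left_cancel₀ (hmem z h1).1.ne_zero this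
        refine le_trans ?_ (hτ n (by
          rw [mem_primBall]
          exact ⟨Nat.le_floor hn'.1, hn'.2.1⟩))
        exact_mod_cast hcard
    _ = _ := by rw [← Finset.mul_sum]

/-- with explicit parameters -/
lemma sd_hb0S {ε C : ℝ} (hε : 0 ≤ ε) (hC0 : 0 ≤ C) (hC : ∀ M N : ℝ, 1 ≤ M → 1 ≤ N →
    HB M N (C * (M * N) ^ ε * (M + N + (M * N) ^ ((2 : ℝ) / 3)))) {K V B : ℝ} (hK : 1 ≤ K)
    (hV : 1 ≤ V) (hB : 1 ≤ B) {v b : Eis → ℂ}
    (hv : ∀ x, v x ≠ 0 → IsPrim x ∧ CbF x ∧ (nm x : ℝ) ≤ V)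
    (hb : ∀ n, b n ≠ 0 → n ∈ primBall ⌊B⌋₊) {Mb : ℝ} (hMb0 : 0 ≤ Mb)
    (hMb : ∀ s, IsPrim s → ∑ d ∈ primBall ⌊B⌋₊, ‖b (s * d)‖ ^ 2 ≤ Mb / nm s) {τ : ℝ}
    (hτ : ∀ u ∈ primBall ⌊V * B⌋₊, (tau u : ℝ) ≤ τ) (hτ0 : 0 ≤ τ) {S₀ : Eis}
    (hS : IsPrim S₀) :
    ∑ d ∈ (primBall ⌊K⌋₊).filter CbF, ((nm d : ℝ))⁻¹ * (‖Sd v d‖ ^ 2 * ‖CS b d‖ ^ 2) ≤
      (100 * (1 + Real.log V)) * τ * (((dvs S₀).card : ℝ) * (WW C ε τ K V B * Mb)) *
        ∑ δ ∈ S V, (nm δ : ℝ) * EnS K V B S₀ v δ := by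
  have hV0 : 0 ≤ V := by linarith
  have hB0 : 0 ≤ B := by linarith
  have hK0 : 0 ≤ K := by linarith
  have hlogV := Real.log_nonneg hV
  have hlogB := Real.log_nonneg hB
  have hVB1 : 1 ≤ V * B := by nlinarith
  have hlogVB := Real.log_nonneg hVB1
  have hWW0 : 0 ≤ WW C ε τ K V B := by unfold WW; positivity
  set L : ℝ := 100 * (1 + Real.log V) with hL
  have hL0 : 0 ≤ L := by positivity
  have hLs : ∑ s ∈ S V, (1 / (nm s : ℝ)) ≤ L := by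
    calc ∑ s ∈ S V, (1 / (nm s : ℝ)) ≤ ∑ s ∈ primBall ⌊V⌋₊, (1 / (nm s : ℝ)) := by
          refine Finset.sum_le_sum_of_subset_of_nonneg ?_ fun _ _ _ => by positivity
          unfold S; exact Finset.filter_subset _ _
      _ ≤ L := by
          refine (sum_inv_primBall_le _).trans ?_
          have hY1 : 1 ≤ ⌊V⌋₊ := Nat.le_floor (by exact_mod_cast hV)
          have : Real.log ⌊V⌋₊ ≤ Real.log V :=
            Real.log_le_log (by exact_mod_cast hY1) (Nat.floor_le hV0)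
          rw [hL]; linarith
  have hP0 : ∀ s ∈ S V, s ≠ 0 := fun s hs => ((mem_S hV0).1 hs).2.1.ne_zero
  have s1 := sum_CbF hK (fun d => ((nm d : ℝ))⁻¹ * (‖Sd v d‖ ^ 2 * ‖CS b d‖ ^ 2))
    (fun d => by positivity)
  refine s1.trans ?_
  have s2 : ∀ s ∈ S K, ∑ a ∈ (S (K / (nm s : ℝ) ^ 2)).filter (fun k => IsCoprime k s),
      ((nm (a * s ^ 2) : ℝ))⁻¹ * (‖Sd v (a * s ^ 2)‖ ^ 2 * ‖CS b (a * s ^ 2)‖ ^ 2) ≤
      L * ∑ δ ∈ S V, (nm δ : ℝ) * (((dvs S₀).card : ℝ) * (WW C ε τ K V B * Mb) *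
        ∑ r ∈ S V, Qs K V B S₀ (nm δ) (s * r) * ‖Vr v s δ r‖ ^ 2) := by
    intro s hs
    obtain ⟨hs1, hsp, hss⟩ := (mem_S hK0).1 hs
    have hKs : 0 ≤ K / (nm s : ℝ) ^ 2 := by positivity
    have ns := nmpos hsp.ne_zero
    have p1 : ∀ a ∈ (S (K / (nm s : ℝ) ^ 2)).filter (fun k => IsCoprime k s),
        ((nm (a * s ^ 2) : ℝ))⁻¹ * (‖Sd v (a * s ^ 2)‖ ^ 2 * ‖CS b (a * s ^ 2)‖ ^ 2) ≤
        L * ∑ δ ∈ S V, (nm δ : ℝ) * ((nm s : ℝ) * ‖CS (Vr v s δ) a * CS b (a * s ^ 2)‖ ^ 2) := by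
      intro a ha
      rw [Finset.mem_filter, mem_S hKs] at ha
      obtain ⟨⟨a1, a2, a3⟩, a4⟩ := ha
      have na := nmpos a2.ne_zero
      have e1 : ((nm (a * s ^ 2) : ℝ))⁻¹ * (‖Sd v (a * s ^ 2)‖ ^ 2 * ‖CS b (a * s ^ 2)‖ ^ 2) =
          (nm s : ℝ) * ‖∑ δ ∈ S V, sy (δ ^ 2) a * CS (Vr v s δ) a * CS b (a * s ^ 2)‖ ^ 2 := by
        rw [Sd_sq hV0 hsp hss a2 a3 a4 hv, nm_mul, nm_pow, ← Finset.sum_mul, norm_mul]
        push_cast
        field_simp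
      rw [e1]
      have h1 := cauchy_w hP0 (fun δ => sy (δ ^ 2) a * CS (Vr v s δ) a * CS b (a * s ^ 2))
      calc (nm s : ℝ) * ‖∑ δ ∈ S V, sy (δ ^ 2) a * CS (Vr v s δ) a * CS b (a * s ^ 2)‖ ^ 2
          ≤ (nm s : ℝ) * (L * ∑ δ ∈ S V, (nm δ : ℝ) *
              ‖CS (Vr v s δ) a * CS b (a * s ^ 2)‖ ^ 2) := by
            refine mul_le_mul_of_nonneg_left (h1.trans ?_) ns.le
            refine mul_le_mul hLs (Finset.sum_le_sum fun δ hδ => ?_)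
              (Finset.sum_nonneg fun _ _ => by positivity) hL0
            refine mul_le_mul_of_nonneg_left ?_ (by positivity)
            refine pow_le_pow_left₀ (norm_nonneg _) ?_ 2
            rw [mul_assoc, norm_mul]
            exact mul_le_of_le_one_left (norm_nonneg _) (norm_sy_le' a2)
        _ = _ := by
            rw [mul_left_comm, Finset.mul_sum]
            congr 1
            refine Finset.sum_congr rfl fun δ _ => ?_
            ring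
    refine (Finset.sum_le_sum p1).trans ?_
    rw [← Finset.mul_sum, Finset.sum_comm]
    refine mul_le_mul_of_nonneg_left (Finset.sum_le_sum fun δ hδ => ?_) hL0
    rw [← Finset.mul_sum, ← Finset.mul_sum]
    refine mul_le_mul_of_nonneg_left ?_ (by positivity)
    refine le_trans ?_ (one_sdS hε hC0 hC hK hV hB hv hb hMb0 hMb hτ hτ0 hsp
      ((mem_S hV0).1 hδ).2.1 hS)
    refine mul_le_mul_of_nonneg_left ?_ ns.le
    exact Finset.sum_le_sum_of_subset_of_nonneg (Finset.filter_subset _ _)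
      fun _ _ _ => by positivity
  refine (Finset.sum_le_sum s2).trans ?_
  rw [← Finset.mul_sum, Finset.sum_comm, mul_assoc L, mul_assoc L]
  refine mul_le_mul_of_nonneg_left ?_ hL0
  rw [Finset.mul_sum]
  refine Finset.sum_le_sum fun δ hδ => ?_
  rw [← Finset.mul_sum, ← Finset.mul_sum]
  have h2 := sum_Vr_leS hV hv ((mem_S hV0).1 hδ).2.1 (τ := τ)
    (fun u hu => hτ u (Div277.primBall_mono (Nat.floor_le_floor (by nlinarith)) hu)) (S K)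
    (fun s hs => ((mem_S hK0).1 hs).2) (Qs K V B S₀ (nm δ))
    (fun r => Qs_nonneg hK0 hV0 hB0 (Nat.cast_nonneg _))
  calc (nm δ : ℝ) * (((dvs S₀).card : ℝ) * (WW C ε τ K V B * Mb) *
        ∑ s ∈ S K, ∑ r ∈ S V, Qs K V B S₀ (nm δ) (s * r) * ‖Vr v s δ r‖ ^ 2)
      ≤ (nm δ : ℝ) * (((dvs S₀).card : ℝ) * (WW C ε τ K V B * Mb) *
        (τ * EnS K V B S₀ v δ)) := by
        refine mul_le_mul_of_nonneg_left (mul_le_mul_of_nonneg_left h2 (by positivity))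
          (by positivity)
    _ = _ := by ring

lemma final_alg3 {C1 C2 P6 Y LX Mb Sx W lv t : ℝ} (h1 : 0 ≤ C1) (h2 : 0 ≤ C2) (h3 : 0 ≤ P6)
    (h4 : 0 ≤ Y) (h5 : 0 ≤ LX) (h6 : 0 ≤ Mb) (h7 : 0 ≤ Sx) (h8 : 0 ≤ W) (h9 : 0 ≤ t)
    (a1 : lv ≤ LX) (a2 : t ≤ C2 * Y)
    (b1 : W ≤ LX ^ 4 * (LX * (C1 * Y ^ 3) * (C2 * Y ^ 2) ^ 2))
    (b2 : LX ^ 6 ≤ 64 * (P6 * Y)) :
    lv * (C2 * Y ^ 2) * (t * (W * Mb)) * Sx ≤ C1 * (64 * P6) * C2 ^ 4 * Y ^ 11 * (Mb * Sx) := by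
  calc lv * (C2 * Y ^ 2) * (t * (W * Mb)) * Sx
      ≤ LX * (C2 * Y ^ 2) * ((C2 * Y) *
        ((LX ^ 4 * (LX * (C1 * Y ^ 3) * (C2 * Y ^ 2) ^ 2)) * Mb)) * Sx := by
        gcongr
    _ = C1 * C2 ^ 4 * Y ^ 10 * (LX ^ 6) * (Mb * Sx) := by ring
    _ ≤ C1 * C2 ^ 4 * Y ^ 10 * (64 * (P6 * Y)) * (Mb * Sx) := by gcongr
    _ = C1 * (64 * P6) * C2 ^ 4 * Y ^ 11 * (Mb * Sx) := by ring

/-- **the x-side moment with a natural factor, by the large sieve, true length** -/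
theorem sd_hbS {ε : ℝ} (hε : 0 < ε) : ∃ C : ℝ, 0 < C ∧ ∀ X K V B Mb : ℝ,
    1 ≤ K → 1 ≤ V → 1 ≤ B → K ≤ X → V ≤ X → B ≤ X → 0 ≤ Mb → ∀ (v b : Eis → ℂ) (S₀ : Eis),
      IsPrim S₀ → (nm S₀ : ℝ) ≤ X →
      (∀ x, v x ≠ 0 → IsPrim x ∧ CbF x ∧ (nm x : ℝ) ≤ V) →
      (∀ n, b n ≠ 0 → n ∈ primBall ⌊B⌋₊) →
      (∀ s, IsPrim s → ∑ d ∈ primBall ⌊B⌋₊, ‖b (s * d)‖ ^ 2 ≤ Mb / nm s) →
    ∑ d ∈ (primBall ⌊K⌋₊).filter CbF, ((nm d : ℝ))⁻¹ * (‖Sd v d‖ ^ 2 * ‖CS b d‖ ^ 2) ≤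
      C * X ^ ε * (Mb * ∑ δ ∈ S V, (nm δ : ℝ) * EnS K V B S₀ v δ) := by
  set η : ℝ := ε / 11 with hη
  have hη0 : 0 < η := by positivity
  obtain ⟨C1, hC1, hHB⟩ := LS2.hb_final η hη0
  obtain ⟨C2, hC2, hτ⟩ := tau_le_rpow hη0
  have hC20 : 0 < C2 := by linarith
  set P6 : ℝ := (100 * (1 + ((6 : ℕ) : ℝ) / η)) ^ 6 with hP6
  have hP60 : 0 < P6 := by positivity
  refine ⟨C1 * (64 * P6) * C2 ^ 4, by positivity, ?_⟩
  intro X K V B Mb hK hV hB hKX hVX hBX hMb0 v b S₀ hS hSX hv hb hMb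
  have hX : 1 ≤ X := hK.trans hKX
  have hX0 : 0 < X := by linarith
  have hVB : V * B ≤ X ^ 2 := by
    rw [pow_two]
    exact mul_le_mul hVX hBX (by linarith) hX0.le
  set Y : ℝ := X ^ η with hY
  have hY0 : 0 < Y := by positivity
  have hYn : ∀ n : ℕ, (X ^ n) ^ η = Y ^ n := fun n => by
    rw [hY, ← Real.rpow_natCast X n, ← Real.rpow_mul hX0.le, ← Real.rpow_natCast (X ^ η) n,
      ← Real.rpow_mul hX0.le]
    congr 1
    ring
  set τ : ℝ := C2 * Y ^ 2 with hτd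
  have hτ0 : 0 ≤ τ := by positivity
  have hτ' : ∀ u ∈ primBall ⌊V * B⌋₊, (tau u : ℝ) ≤ τ := by
    intro u hu
    obtain ⟨u1, u2⟩ := mem_primBall.mp hu
    have huX : (nm u : ℝ) ≤ X ^ 2 := ((Nat.le_floor_iff (by positivity)).mp u1).trans hVB
    refine (hτ u u2.ne_zero).trans ?_
    rw [hτd, ← hYn 2]
    exact mul_le_mul_of_nonneg_left (Real.rpow_le_rpow (Nat.cast_nonneg _) huX hη0.le) hC20.le
  have htS : ((dvs S₀).card : ℝ) ≤ C2 * Y := by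
    refine (hτ S₀ hS.ne_zero).trans ?_
    exact mul_le_mul_of_nonneg_left (Real.rpow_le_rpow (Nat.cast_nonneg _) hSX hη0.le) hC20.le
  refine (sd_hb0S hη0.le hC1.le hHB hK hV hB hv hb hMb0 hMb hτ' hτ0 hS).trans ?_
  set Sx : ℝ := ∑ δ ∈ S V, (nm δ : ℝ) * EnS K V B S₀ v δ with hSx
  have hSx0 : 0 ≤ Sx := Finset.sum_nonneg fun δ _ => by
    have h2 := EnS_nonneg (by linarith : 0 ≤ K) (by linarith : 0 ≤ V) (by linarith : 0 ≤ B) S₀ v δ
    positivity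
  set LX : ℝ := 200 * (1 + Real.log X) with hLX
  have lX := Real.log_nonneg hX
  have lV := Real.log_nonneg hV
  have lB := Real.log_nonneg hB
  have lVB : 0 ≤ Real.log (V * B) := Real.log_nonneg (by nlinarith)
  have l1 : Real.log V ≤ Real.log X := Real.log_le_log (by linarith) hVX
  have l2 : Real.log B ≤ Real.log X := Real.log_le_log (by linarith) hBX
  have l3 : Real.log (V * B) ≤ 2 * Real.log X := by
    rw [Real.log_mul (by linarith) (by linarith)]; linarith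
  have a1 : 100 * (1 + Real.log V) ≤ LX := by rw [hLX]; linarith
  have a2 : 100 * (1 + Real.log B) ≤ LX := by rw [hLX]; linarith
  have a3 : 100 * (1 + Real.log (V * B)) ≤ LX := by rw [hLX]; linarith
  have a4 : (K * (V * B)) ^ η ≤ Y ^ 3 := by
    rw [← hYn 3]
    refine Real.rpow_le_rpow (by positivity) ?_ hη0.le
    calc K * (V * B) ≤ X * X ^ 2 := mul_le_mul hKX hVB (by positivity) hX0.le
      _ = X ^ 3 := by ring
  have hLX0 : 0 ≤ LX := by positivity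
  have b1 : WW C1 η τ K V B ≤ LX ^ 4 * (LX * (C1 * Y ^ 3) * τ ^ 2) := by
    unfold WW
    gcongr
  have b2 : LX ^ 6 ≤ 64 * (P6 * Y) := by
    have h1 := poly_log_le 6 hX hη0
    calc LX ^ 6 = 64 * (100 * (1 + Real.log X)) ^ 6 := by rw [hLX]; ring
      _ ≤ 64 * (P6 * Y) := mul_le_mul_of_nonneg_left h1 (by norm_num)
  have b3 : X ^ ε = Y ^ 11 := by
    rw [hY, ← Real.rpow_natCast (X ^ η) 11, ← Real.rpow_mul hX0.le]
    congr 1
    rw [hη]; push_cast; ring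
  have hWW0 : 0 ≤ WW C1 η τ K V B := by unfold WW; positivity
  rw [b3]
  exact final_alg3 hC1.le hC20.le hP60.le hY0.le hLX0 hMb0 hSx0 hWW0 (Nat.cast_nonneg _) a1 htS b1 b2

end Crest.Agent.R017.GHB842
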