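import Crest.Agent.R017.E4fe1_502

/-!
# Row 17, C70/E4, version 7 (fully joint form): definitions and `E4core7` as a `Prop` (helper352)

The sum is opened completely: the terms are the tuples `(o, D0, D1, B, R, Z; b, R', Z', k)`; the
hypothesis is a bound for the positive sum of the terms, over finite sets in one dyadic class
(nothing is a supremum, the exact Gauss sum is kept).

* `Tm`, `Tm.OK`, `Tm.val` : tuples, admissibility, values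
* `Win`, `Tm.In` : dyadic classes
* `JB` : joint block hypothesis
* `rngD`, `rngF` : ranges of the direct and of the dual half, `sw` the switch
* `E4core7`, `E4dir7`
-/

set_option autoImplicit false

noncomputable section

open Complex
open scoped ComplexConjugate

namespace Crest.Agent.R017.E4J352

open Crest.Agent.R012 Crest.Agent.R012.Eis Crest.Agent.R012.Mob705 Crest.Agent.R012.Gauss880
open Crest.Agent.R012.Div277
open Crest.Agent.R017.Sx545 Crest.Agent.R017.CM106 Crest.Agent.R017.C70 Crest.Agent.R017.C590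
open Crest.Agent.R017.End699 Crest.Agent.R017.B770 Crest.Agent.R017.Sx440
open Crest.Agent.R017.E2440 Crest.Agent.R017.E4352
open Crest.Agent.R017.E4o502 (vD wD GoodD GB)
open Crest.Agent.R017.E4v5 (Law5 HM5)
open Crest.Agent.R017.E4fe502 (FF)

/-- one term of the completely opened sum: `D = D0 D1`, `B`, `R`, `Z` from the opening
(`D0 ∣ f`, `D1` prime to `f`, `R ∣ x`, `D1 Z ∣ y`), `b`, `R'`, `Z'` from the separation
of `gs (F x y) (b k)`, `k` the cube-free frequency -/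
structure Tm (O : Type) where
  /-- outer index -/
  o : O
  /-- part of `D` dividing `f` -/
  D0 : Eis
  /-- part of `D` prime to `f` -/
  D1 : Eis
  /-- cubes of the opening -/
  B : Eis
  /-- `B`-part of `x` -/
  R : Eis
  /-- `B`-part of `y` -/
  Z : Eis
  /-- non-coprime part of the modulus -/
  b : Eis
  /-- `b`-part of `x` -/
  R' : Eis
  /-- `b`-part of `y` -/
  Z' : Eis
  /-- frequency -/
  k : Eis

namespace Tm

variable {O : Type}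

/-- the frequency factor `F = (f / D0) R Z / B³` -/
def F (f : Eis) (t : Tm O) : Eis := FF f t.D0 t.B t.R t.Z

/-- the `x`-side of a term, `G` the additional twist -/
def xs (v : O → Eis → ℂ) (G : Eis → ℂ) (t : Tm O) : ℂ :=
  Sd (tws (t.R * t.R') (t.B * t.b) (fun y => sy y t.b * G y) (vD (t.D0 * t.D1) (v t.o))) t.k

/-- the `y`-side of a term -/
def ys (w : O → Eis → ℂ) (G : Eis → ℂ) (t : Tm O) : ℂ :=
  CS (tws (t.Z * t.Z') (t.B * t.b) (fun y => sy y t.b * G y) (wD (t.D0 * t.D1) t.D1 (w t.o))) t.k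

/-- the weight of a term -/
def wt (f : Eis) (lam : O → ℝ) (t : Tm O) : ℝ :=
  (nm (t.D0 * t.D1) : ℝ) ^ (-(1 / 2) : ℝ) * (‖gs (t.F f * t.R' * t.Z') t.b‖ / nm t.b) *
    (lam t.o * nm t.k)⁻¹

/-- the value of a term -/
def val (f : Eis) (lam : O → ℝ) (v w : O → Eis → ℂ) (G : Eis → ℂ) (t : Tm O) : ℝ :=
  t.wt f lam * (‖t.xs v G‖ * ‖t.ys w G‖)

/-- admissible terms -/
structure OK (M f : Eis) (t : Tm O) : Prop where
  pD0 : IsPrim t.D0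
  pD1 : IsPrim t.D1
  good : GoodD M f t.D0 t.D1
  gb : GB M (f / t.D0) (t.D0 * t.D1) t.B t.R t.Z
  pR : PrI t.B t.R
  pZ : PrI t.B t.Z
  sb : Sm M t.b
  sk : Sm M t.k
  ck : CbF t.k
  cbk : IsCoprime t.b t.k
  ckF : IsCoprime t.k (t.F f)
  pR' : PrI t.b t.R'
  pZ' : PrI t.b t.Z'
  cRZ : IsCoprime (t.R' * t.Z') (t.D0 * t.D1 * t.B)
  pb : ∀ p : Eis, Prime p → p ∣ t.b → p ∣ t.Z' ∨ p ∣ t.F f ∨
    (p ^ 2 ∣ t.R' ∧ ¬ p ^ 3 ∣ t.R' ∧ p ^ 3 ∣ t.b ∧ ¬ p ^ 4 ∣ t.b)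

end Tm

/-- dyadic class -/
structure Win where
  n0 : ℕ
  n1 : ℕ
  nB : ℕ
  nR : ℕ
  nZ : ℕ
  nb : ℕ
  nR' : ℕ
  nZ' : ℕ
  nlam : ℕ
  nkk : ℕ
  nk : ℕ
  nkp : ℕ
  nl : ℕ

/-- `x` in the `n`-th dyadic window -/
def inW (n : ℕ) (x : ℝ) : Prop := (2 : ℝ) ^ n ≤ x ∧ x < 2 ^ (n + 1)

/-- terms in one dyadic class -/
structure Tm.In {O : Type} (lam : O → ℝ) (c : Win) (t : Tm O) : Prop where
  h0 : inW c.n0 (nm t.D0)
  h1 : inW c.n1 (nm t.D1)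
  hB : inW c.nB (nm t.B)
  hR : inW c.nR (nm t.R)
  hZ : inW c.nZ (nm t.Z)
  hb : inW c.nb (nm t.b)
  hR' : inW c.nR' (nm t.R')
  hZ' : inW c.nZ' (nm t.Z')
  hlam : inW c.nlam (lam t.o)
  hkk : inW c.nkk (nm t.k)
  hk : inW c.nk (lam t.o * nm t.k)
  hkp : inW c.nkp (nm ((t.D0 * t.D1) ^ 2 * (t.b * t.k)))
  hl : inW c.nl (lam t.o * nm ((t.D0 * t.D1) ^ 2 * (t.b * t.k)))

/-- **joint block hypothesis** -/
def JB (M f : Eis) {O : Type} (lam : O → ℝ) (v w : O → Eis → ℂ) (G : Eis → ℂ)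
    (rng : Tm O → Prop) (S : ℝ) : Prop :=
  ∀ (c : Win) (𝒥 : Finset (Tm O)),
    (∀ t ∈ 𝒥, t.OK M f ∧ t.val f lam v w G ≠ 0 ∧ t.In lam c ∧ rng t) →
    ∑ t ∈ 𝒥, t.val f lam v w G ≤ S

/-- **class-free form** (a consequence of `JB`, see `JB.tot`) -/
def JBt (M f : Eis) {O : Type} (lam : O → ℝ) (v w : O → Eis → ℂ) (G : Eis → ℂ)
    (rng : Tm O → Prop) (Y S : ℝ) : Prop :=
  ∀ 𝒥 : Finset (Tm O),
    (∀ t ∈ 𝒥, t.OK M f ∧ rng t ∧ (nm t.D0 : ℝ) ≤ Y ∧ (nm t.D1 : ℝ) ≤ Y ∧ (nm t.B : ℝ) ≤ Y ∧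
      (nm t.R : ℝ) ≤ Y ∧ (nm t.Z : ℝ) ≤ Y ∧ (nm t.b : ℝ) ≤ Y ∧ (nm t.R' : ℝ) ≤ Y ∧
      (nm t.Z' : ℝ) ≤ Y ∧ (nm t.k : ℝ) ≤ Y) →
    ∑ t ∈ 𝒥, t.val f lam v w G ≤ S

/-- **the dyadic classes** -/
def Classes : Prop :=
  ∀ ε : ℝ, 0 < ε → ∃ C : ℝ, 0 ≤ C ∧ ∀ (M f : Eis) (O : Type) (lam : O → ℝ)
    (v w : O → Eis → ℂ) (G : Eis → ℂ) (rng : Tm O → Prop) (Y S : ℝ), 1 ≤ Y → 0 ≤ S →
    (∀ o, 1 ≤ lam o ∧ lam o ≤ Y) → JB M f lam v w G rng S →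
    JBt M f lam v w G rng Y (C * Y ^ ε * S)

/-- range of the direct half -/
def rngD {O : Type} (sw : Eis → Eis → Eis → Eis → Eis → Prop) (lam : O → ℝ) (K : ℝ)
    (t : Tm O) : Prop :=
  ¬ sw t.D0 t.D1 t.B t.R t.Z ∧
    lam t.o * nm ((t.D0 * t.D1) ^ 2 * t.B ^ 3 * (t.b * t.k)) ≤ K

/-- range of the dual half, `L` the dual length at `D = 1` -/
def rngF {O : Type} (sw : Eis → Eis → Eis → Eis → Eis → Prop) (lam : O → ℝ) (L : ℝ)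
    (t : Tm O) : Prop :=
  sw t.D0 t.D1 t.B t.R t.Z ∧ lam t.o * nm (t.b * t.k) ≤ L * nm (t.D0 * t.D1)

/-- the twist of the dual half -/
def gx (η : Eis → ℂ) (J : ℤ) (ξ : ℝ) (y : Eis) : ℂ := End699.tw η J y * (nm y : ℂ) ^ (I * ξ)

/-- **E4core**, fully joint form -/
def E4core7 : Prop :=
  ∀ (M : Eis) (ψ : Eis → ℂ) (l : ℤ) (ι : Type) (_ : Fintype ι) (D : Dt3 ι), HC M ψ → D.OK M →
  ∀ ε A : ℝ, 0 < ε → 0 ≤ A → ∃ (C : ℝ) (m₀ N₀ : ℕ), 0 ≤ C ∧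
    ∀ (V : ℝ → ℂ) (W : ι → ℝ → ℂ) (mt : Eis → ℝ → ℂ) (B : ℝ), 0 ≤ B → Law5 M ψ l D V W mt →
      (∀ i, WT m₀ N₀ B (W i)) → (∀ y, ‖V y‖ ≤ B) → (∀ y, 1 < y → V y = 0) →
    ∀ (f : Eis) (O : Type) (_ : Fintype O) (lam : O → ℝ) (v w : O → Eis → ℂ)
      (X K U T₀ : ℝ) (S Mn : ℝ) (sw : Eis → Eis → Eis → Eis → Eis → Prop),
      Dat4 M f lam v w X →
      1 ≤ K → K ≤ X → 0 < U → U ≤ X → 0 ≤ S → 0 ≤ Mn →
      (∀ o x y, v o x ≠ 0 → w o y ≠ 0 → (nm (f * x * y) : ℝ) * lam o ^ 2 ≤ U) →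
      (∀ D0 D1 B R Z : Eis, sw D0 D1 B R Z → (nm D1 : ℝ) * nm (rd Z) ≤ 2 * T₀) →
      JB M f lam v w (fun _ => 1) (rngD sw lam K) S →
      (∀ i ξ, JB M f lam v w (gx (D.η i) D.j ξ) (rngF sw lam (U / K * X ^ ε))
        ((1 + |ξ|) ^ A * S)) →
      HM5 M f lam v w K T₀ mt Mn →
      ‖∑ o, ∑' x : Eis, v o x * ∑' y : Eis, w o y *
        NT (M * (f * y)) (f * x * y)
          (fun k => End699.tw ψ l k * V (nm k * lam o / K))‖ ≤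
        C * X ^ ε * (B * (K * S + X ^ (-A)) + Mn)

/-- **absolute version** : everything direct -/
def E4dir7 : Prop :=
  ∀ ε : ℝ, 0 < ε → ∃ C : ℝ, 0 ≤ C ∧
    ∀ (M f : Eis) (O : Type) (_ : Fintype O) (lam : O → ℝ) (v w : O → Eis → ℂ) (X K B : ℝ)
      (φ : O → Eis → ℂ) (S : ℝ), Dat4 M f lam v w X → 1 ≤ K → K ≤ X →
      0 ≤ B → 0 ≤ S → (∀ o k, Sm M k → ‖φ o k‖ ≤ B) →
      (∀ o k, K / lam o < nm k → φ o k = 0) →
      JB M f lam v w (fun _ => 1) (rngD (fun _ _ _ _ _ => False) lam K) S →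
      ‖∑ o, ∑' x : Eis, v o x * ∑' y : Eis, w o y * NT (M * (f * y)) (f * x * y) (φ o)‖ ≤
        C * X ^ ε * (B * (K * S))

end Crest.Agent.R017.E4J352
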