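import Crest.Agent.R017.E4H_842
import Crest.Agent.R017.E4v7_352

/-!
# Row 17, E4: the x-side of the joint form in the large sieve range (helper842)

`jx_one` : for one prefix `(o, D, B, b)` : the sum over `R`, `R'`, `k` of
`nm(k)⁻¹ ‖Sd (tws (R R') (B b) (sy · b G) (vD D v)) k‖² ‖CS bm k‖²` is bounded by the energy of `v`.
-/

set_option autoImplicit false
set_option maxHeartbeats 400000

noncomputable section

open Complex
open scoped ComplexConjugate Classical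

namespace Crest.Agent.R017.GHB842

open Crest.Agent.R012 Crest.Agent.R012.Eis
open Crest.Agent.R012.LS2 (S mem_S)
open Crest.Agent.R012.Div277 (dvs mem_dvs isPrim_of_mem_dvs dvd_of_mem_dvs tau tau_le_rpow)
open Crest.Agent.R017.CM106 (CS)
open Crest.Agent.R017.PX764 (norm_sy_le')
open Crest.Agent.R017.E1551 (nmpos nm_ge_one)
open Crest.Agent.R017.C70 (CbF)
open Crest.Agent.R017.E4352 (Sd tws)
open Crest.Agent.R017.E4o502 (vD)

lemma norm_twsD_le {R q D b : Eis} {G v : Eis → ℂ} (hR : IsPrim R) (hD : IsPrim D)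
    (hb : IsPrim b) (hG : ∀ y, IsPrim y → ‖G y‖ ≤ 1) {y : Eis} (hy : IsPrim y) :
    ‖tws R q (fun y => sy y b * G y) (vD D v) y‖ ≤ ‖v (R * y)‖ := by
  unfold tws vD tws
  split_ifs
  · rw [norm_mul, norm_mul, norm_mul, RCLike.norm_conj, one_mul]
    have h1 : ‖sy y b‖ ≤ 1 := norm_sy_le' hb
    have h2 := hG y hy
    have h3 : ‖sy (R * y) D‖ ≤ 1 := norm_sy_le' hD
    calc ‖sy y b‖ * ‖G y‖ * (‖sy (R * y) D‖ * ‖v (R * y)‖) ≤ 1 * 1 * (1 * ‖v (R * y)‖) := by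
          gcongr
      _ = _ := by ring
  · rw [mul_zero, norm_zero]; exact norm_nonneg _
  · rw [norm_zero]; exact norm_nonneg _

lemma twsD_ne {R q D b : Eis} {G v : Eis → ℂ} {y : Eis}
    (h : tws R q (fun y => sy y b * G y) (vD D v) y ≠ 0) : v (R * y) ≠ 0 := by
  unfold tws vD tws at h
  split_ifs at h
  · have h1 := right_ne_zero_of_mul (right_ne_zero_of_mul h)
    rwa [one_mul] at h1
  · simp at h
  · exact absurd rfl h

lemma CbF_of_dvd {x y : Eis} (h : CbF x) (hd : y ∣ x) : CbF y :=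
  fun p hp hp3 => h p hp (hp3.trans hd)

/-- energy over `R`, `R'` -/
lemma sum_RR_le {V : ℝ} (hV : 1 ≤ V) {v : Eis → ℂ}
    (hv : ∀ x, v x ≠ 0 → IsPrim x ∧ CbF x ∧ (nm x : ℝ) ≤ V) {δ : Eis} (hδ : IsPrim δ) {τ : ℝ}
    (hτ0 : 0 ≤ τ) (hτ : ∀ u ∈ primBall ⌊V⌋₊, (tau u : ℝ) ≤ τ) (Rs Rs' : Finset Eis)
    (hRs : ∀ R ∈ Rs, IsPrim R) (hRs' : ∀ R ∈ Rs', IsPrim R) :
    ∑ R ∈ Rs, ∑ R' ∈ Rs', ∑ r ∈ (S V).filter (fun r => IsCoprime r δ),
      ‖v (R * R' * (r * δ ^ 2))‖ ^ 2 ≤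
      τ ^ 2 * ∑ x ∈ (primBall ⌊V⌋₊).filter (fun x => δ ^ 2 ∣ x), ‖v x‖ ^ 2 := by
  have hV0 : 0 ≤ V := by linarith
  set T := (S V).filter (fun r => IsCoprime r δ) with hT
  have hTp : ∀ r ∈ T, IsPrim r := fun r hr => ((mem_S hV0).1 (Finset.mem_filter.mp hr).1).2.1
  set f : Eis × Eis × Eis → Eis := fun z => z.1 * z.2.1 * (z.2.2 * δ ^ 2) with hf
  set A := (Rs ×ˢ (Rs' ×ˢ T)).filter (fun z => v (f z) ≠ 0) with hA
  set P := (primBall ⌊V⌋₊).filter (fun x => δ ^ 2 ∣ x) with hP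
  have e1 : ∑ R ∈ Rs, ∑ R' ∈ Rs', ∑ r ∈ T, ‖v (R * R' * (r * δ ^ 2))‖ ^ 2 =
      ∑ z ∈ A, ‖v (f z)‖ ^ 2 := by
    rw [hA, Finset.sum_filter]
    simp only [Finset.sum_product, hf]
    refine Finset.sum_congr rfl fun R _ => Finset.sum_congr rfl fun R' _ =>
      Finset.sum_congr rfl fun r _ => ?_
    split_ifs with h
    · rfl
    · push Not at h
      rw [h]; simp
  have hmemA : ∀ z ∈ A, IsPrim z.1 ∧ IsPrim z.2.1 ∧ IsPrim z.2.2 := by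
    intro z hz
    rw [hA, Finset.mem_filter, Finset.mem_product, Finset.mem_product] at hz
    exact ⟨hRs _ hz.1.1, hRs' _ hz.1.2.1, hTp _ hz.1.2.2⟩
  have hmap : ∀ z ∈ A, f z ∈ P := by
    intro z hz
    have h1 := (Finset.mem_filter.mp hz).2
    obtain ⟨h2, -, h3⟩ := hv _ h1
    rw [hP, Finset.mem_filter, mem_primBall]
    exact ⟨⟨Nat.le_floor h3, h2⟩, ⟨z.1 * z.2.1 * z.2.2, by simp only [hf]; ring⟩⟩
  rw [e1, ← Finset.sum_fiberwise_of_maps_to hmap, Finset.mul_sum]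
  refine Finset.sum_le_sum fun x hx => ?_
  have hxP := mem_primBall.mp (Finset.mem_filter.mp hx).1
  have hx0 := hxP.2.ne_zero
  set Ax := A.filter (fun z => f z = x) with hAx
  have e2 : ∑ z ∈ Ax, ‖v (f z)‖ ^ 2 = (Ax.card : ℝ) * ‖v x‖ ^ 2 := by
    rw [Finset.sum_congr rfl (fun z hz => by rw [(Finset.mem_filter.mp hz).2]), Finset.sum_const,
      nsmul_eq_mul]
  rw [e2]
  refine mul_le_mul_of_nonneg_right ?_ (by positivity)
  have hcard : Ax.card ≤ (dvs x ×ˢ dvs x).card := by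
    refine Finset.card_le_card_of_injOn (fun z => (z.1, z.2.1)) (fun z hz => ?_)
      (fun z hz z' hz' he => ?_)
    · obtain ⟨h1, h2⟩ := Finset.mem_filter.mp hz
      obtain ⟨g1, g2, g3⟩ := hmemA z h1
      rw [Finset.coe_product]
      refine ⟨(mem_dvs hx0).mpr ⟨g1, ?_⟩, (mem_dvs hx0).mpr ⟨g2, ?_⟩⟩
      · rw [← h2]; exact ⟨z.2.1 * (z.2.2 * δ ^ 2), by simp only [hf]; ring⟩
      · rw [← h2]; exact ⟨z.1 * (z.2.2 * δ ^ 2), by simp only [hf]; ring⟩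
    · obtain ⟨h1, h2⟩ := Finset.mem_filter.mp hz
      obtain ⟨h1', h2'⟩ := Finset.mem_filter.mp hz'
      obtain ⟨g1, g2, g3⟩ := hmemA z h1
      obtain ⟨a, b, r⟩ := z
      obtain ⟨a', b', r'⟩ := z'
      simp only [Prod.mk.injEq] at he g1 g2
      obtain ⟨rfl, rfl⟩ := he
      have hr : r = r' := by
        have h3 : a * b * (r * δ ^ 2) = a * b * (r' * δ ^ 2) := h2.trans h2'.symm
        have h4 : (a * b * δ ^ 2) * r = (a * b * δ ^ 2) * r' := by linear_combination h3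
        exact mul_left_cancel₀ (mul_ne_zero (mul_ne_zero g1.ne_zero g2.ne_zero)
          (pow_ne_zero 2 hδ.ne_zero)) h4
      rw [hr]
  have c2 : ((dvs x).card : ℝ) ≤ τ := hτ x (mem_primBall.mpr hxP)
  calc (Ax.card : ℝ) ≤ ((dvs x ×ˢ dvs x).card : ℝ) := by exact_mod_cast hcard
    _ = (dvs x).card * (dvs x).card := by rw [Finset.card_product]; push_cast; ring
    _ ≤ τ * τ := by gcongr
    _ = τ ^ 2 := by ring

/-- **the x-side of the joint form, one prefix** -/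
theorem jx_one {ε : ℝ} (hε : 0 < ε) : ∃ C : ℝ, 0 < C ∧ ∀ X K V B Mb : ℝ,
    1 ≤ K → 1 ≤ V → 1 ≤ B → K ≤ X → V ≤ X → B ≤ X → 0 ≤ Mb → ∀ (v bm G : Eis → ℂ)
      (D q b : Eis) (Rs Rs' : Finset Eis), IsPrim D → IsPrim b → (∀ R ∈ Rs, IsPrim R) →
      (∀ R ∈ Rs', IsPrim R) → (∀ y, IsPrim y → ‖G y‖ ≤ 1) →
      (∀ x, v x ≠ 0 → IsPrim x ∧ CbF x ∧ (nm x : ℝ) ≤ V) →
      (∀ n, bm n ≠ 0 → n ∈ primBall ⌊B⌋₊) →
      (∀ s, IsPrim s → ∑ d ∈ primBall ⌊B⌋₊, ‖bm (s * d)‖ ^ 2 ≤ Mb / nm s) →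
    ∑ R ∈ Rs, ∑ R' ∈ Rs', ∑ k ∈ (primBall ⌊K⌋₊).filter CbF, ((nm k : ℝ))⁻¹ *
      (‖Sd (tws (R * R') q (fun y => sy y b * G y) (vD D v)) k‖ ^ 2 * ‖CS bm k‖ ^ 2) ≤
      C * X ^ ε * (Mb * ∑ δ ∈ S V, (nm δ : ℝ) * Qd K V B (nm δ) *
        ∑ x ∈ (primBall ⌊V⌋₊).filter (fun x => δ ^ 2 ∣ x), ‖v x‖ ^ 2) := by
  obtain ⟨C, hC, h⟩ := sd_hb (half_pos hε)
  obtain ⟨C2, hC2, hτ⟩ := tau_le_rpow (show 0 < ε / 4 by positivity)
  have hC20 : 0 < C2 := by linarith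
  refine ⟨C * C2 ^ 2, by positivity, ?_⟩
  intro X K V B Mb hK hV hB hKX hVX hBX hMb0 v bm G D q b Rs Rs' hD hb hRs hRs' hG hv hbm hMb
  have hX : 1 ≤ X := hK.trans hKX
  have hX0 : 0 < X := by linarith
  have hV0 : 0 ≤ V := by linarith
  set τ : ℝ := C2 * X ^ (ε / 4) with hτd
  have hτ0 : 0 ≤ τ := by positivity
  have hτ' : ∀ u ∈ primBall ⌊V⌋₊, (tau u : ℝ) ≤ τ := by
    intro u hu
    obtain ⟨u1, u2⟩ := mem_primBall.mp hu
    have huX : (nm u : ℝ) ≤ X := ((Nat.le_floor_iff hV0).mp u1).trans hVX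
    refine (hτ u u2.ne_zero).trans ?_
    exact mul_le_mul_of_nonneg_left (Real.rpow_le_rpow (Nat.cast_nonneg _) huX (by positivity))
      hC20.le
  have h1 : ∀ R ∈ Rs, ∀ R' ∈ Rs', ∑ k ∈ (primBall ⌊K⌋₊).filter CbF, ((nm k : ℝ))⁻¹ *
      (‖Sd (tws (R * R') q (fun y => sy y b * G y) (vD D v)) k‖ ^ 2 * ‖CS bm k‖ ^ 2) ≤
      C * X ^ (ε / 2) * (Mb * ∑ δ ∈ S V, (nm δ : ℝ) * Qd K V B (nm δ) *
        ∑ r ∈ (S V).filter (fun r => IsCoprime r δ), ‖v (R * R' * (r * δ ^ 2))‖ ^ 2) := by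
    intro R hR R' hR'
    have hRR : IsPrim (R * R') := (hRs R hR).mul (hRs' R' hR')
    refine (h X K V B Mb hK hV hB hKX hVX hBX hMb0 _ bm (fun y hy => ?_) hbm hMb).trans ?_
    · have h2 := twsD_ne hy
      obtain ⟨g1, g2, g3⟩ := hv _ h2
      refine ⟨IsPrim.of_mul_left g1 hRR, CbF_of_dvd g2 (dvd_mul_left _ _), ?_⟩
      rw [nm_mul] at g3
      push_cast at g3
      have h4 : (1 : ℝ) ≤ nm (R * R') := nm_ge_one hRR.ne_zero
      have h5 : (0 : ℝ) ≤ nm y := Nat.cast_nonneg _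
      nlinarith
    · refine mul_le_mul_of_nonneg_left (mul_le_mul_of_nonneg_left
        (Finset.sum_le_sum fun δ hδ => ?_) hMb0) (by positivity)
      have hδp := ((mem_S hV0).1 hδ).2.1
      have hQ := Qd_nonneg (by linarith : 0 ≤ K) hV0 (by linarith : 0 ≤ B)
        (Nat.cast_nonneg (nm δ) : (0 : ℝ) ≤ _)
      refine mul_le_mul_of_nonneg_left ?_ (by positivity)
      unfold En
      refine Finset.sum_le_sum fun r hr => pow_le_pow_left₀ (norm_nonneg _) ?_ 2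
      have hrp := ((mem_S hV0).1 (Finset.mem_filter.mp hr).1).2.1
      exact norm_twsD_le hRR hD hb hG (hrp.mul (hδp.pow 2))
  calc ∑ R ∈ Rs, ∑ R' ∈ Rs', ∑ k ∈ (primBall ⌊K⌋₊).filter CbF, ((nm k : ℝ))⁻¹ *
      (‖Sd (tws (R * R') q (fun y => sy y b * G y) (vD D v)) k‖ ^ 2 * ‖CS bm k‖ ^ 2)
      ≤ ∑ R ∈ Rs, ∑ R' ∈ Rs', C * X ^ (ε / 2) * (Mb * ∑ δ ∈ S V, (nm δ : ℝ) *
        Qd K V B (nm δ) * ∑ r ∈ (S V).filter (fun r => IsCoprime r δ),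
          ‖v (R * R' * (r * δ ^ 2))‖ ^ 2) :=
        Finset.sum_le_sum fun R hR => Finset.sum_le_sum fun R' hR' => h1 R hR R' hR'
    _ = C * X ^ (ε / 2) * (Mb * ∑ δ ∈ S V, (nm δ : ℝ) * Qd K V B (nm δ) *
          ∑ R ∈ Rs, ∑ R' ∈ Rs', ∑ r ∈ (S V).filter (fun r => IsCoprime r δ),
            ‖v (R * R' * (r * δ ^ 2))‖ ^ 2) := by
        simp only [← Finset.mul_sum]
        congr 2
        simp only [Finset.mul_sum]
        rw [Finset.sum_congr rfl (fun R _ => Finset.sum_comm), Finset.sum_comm]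
    _ ≤ C * X ^ (ε / 2) * (Mb * ∑ δ ∈ S V, (nm δ : ℝ) * Qd K V B (nm δ) *
          (τ ^ 2 * ∑ x ∈ (primBall ⌊V⌋₊).filter (fun x => δ ^ 2 ∣ x), ‖v x‖ ^ 2)) := by
        refine mul_le_mul_of_nonneg_left (mul_le_mul_of_nonneg_left
          (Finset.sum_le_sum fun δ hδ => ?_) hMb0) (by positivity)
        have hδp := ((mem_S hV0).1 hδ).2.1
        have hQ := Qd_nonneg (by linarith : 0 ≤ K) hV0 (by linarith : 0 ≤ B)
          (Nat.cast_nonneg (nm δ) : (0 : ℝ) ≤ _)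
        exact mul_le_mul_of_nonneg_left (sum_RR_le hV hv hδp hτ0 hτ' Rs Rs' hRs hRs')
          (by positivity)
    _ = (C * X ^ (ε / 2) * τ ^ 2) * (Mb * ∑ δ ∈ S V, (nm δ : ℝ) * Qd K V B (nm δ) *
          ∑ x ∈ (primBall ⌊V⌋₊).filter (fun x => δ ^ 2 ∣ x), ‖v x‖ ^ 2) := by
        have e : ∀ δ : Eis, (nm δ : ℝ) * Qd K V B (nm δ) *
            (τ ^ 2 * ∑ x ∈ (primBall ⌊V⌋₊).filter (fun x => δ ^ 2 ∣ x), ‖v x‖ ^ 2) =
            τ ^ 2 * ((nm δ : ℝ) * Qd K V B (nm δ) *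
            ∑ x ∈ (primBall ⌊V⌋₊).filter (fun x => δ ^ 2 ∣ x), ‖v x‖ ^ 2) := fun δ => by ring
        simp only [e]
        rw [← Finset.mul_sum]
        ring
    _ = _ := by
        congr 1
        have : X ^ ε = X ^ (ε / 2) * (X ^ (ε / 4)) ^ 2 := by
          rw [← Real.rpow_natCast (X ^ (ε / 4)) 2, ← Real.rpow_mul hX0.le, ← Real.rpow_add hX0]
          congr 1
          push_cast
          ring
        rw [this, hτd]
        ring

end Crest.Agent.R017.GHB842
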