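import Crest.Agent.R017.JxH_679
import Crest.Agent.R017.E4Hx_842

/-!
# Row 17, C70/E4 (version 7), the `x`-side in the large sieve range (helper679)

* `xb_one` : one prefix (level `V / N(R R')`, moved natural factor `bm`)
* `Ex` : energy of the multiples of `δ²`
* `xv_HB` : the sum over the terms of one class, from the energies of `v o`
* `bm_cv` : the moved factor as one natural sequence, `mb_cv` : its second moments
-/

set_option autoImplicit false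

noncomputable section

open Complex Finset
open scoped ComplexConjugate Classical

namespace Crest.Agent.R017.JxB679

open Crest.Agent.R012 Crest.Agent.R012.Eis Crest.Agent.R012.Mob705
open Crest.Agent.R012.Div277
open Crest.Agent.R012.LS2 (S mem_S)
open Crest.Agent.R017.Sx545 (Sm)
open Crest.Agent.R017.C70 (CbF)
open Crest.Agent.R017.CM106 (CS FS)
open Crest.Agent.R017.E4352
open Crest.Agent.R017.E4J352
open Crest.Agent.R017.E4o502 (vD)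
open Crest.Agent.R017.E4y92 (XM Dk)
open Crest.Agent.R017.JxG679 Crest.Agent.R017.JxH679
open Crest.Agent.R017.GHB842 (Qd Qd_nonneg sd_hb En norm_twsD_le twsD_ne CbF_of_dvd)

/-- energy of the multiples of `δ²` -/
def Ex (V : ℝ) (v : Eis → ℂ) (δ : Eis) : ℝ :=
  ∑ x ∈ (primBall ⌊V⌋₊).filter (fun x => δ ^ 2 ∣ x), ‖v x‖ ^ 2

lemma Ex_nonneg (V : ℝ) (v : Eis → ℂ) (δ : Eis) : 0 ≤ Ex V v δ :=
  sum_nonneg fun _ _ => by positivity

/-- the right side of one prefix -/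
def QE (K V V' B : ℝ) (v : Eis → ℂ) : ℝ :=
  ∑ δ ∈ S V, (nm δ : ℝ) * Qd K V' B (nm δ) * Ex V v δ

lemma En_le_Ex {V V' : ℝ} (hV : 0 ≤ V) (hV' : 0 ≤ V') {v : Eis → ℂ}
    (hv : ∀ x, v x ≠ 0 → IsPrim x ∧ CbF x ∧ (nm x : ℝ) ≤ V) {P q D b δ : Eis} {G : Eis → ℂ}
    (hP : IsPrim P) (hD : IsPrim D) (hb : IsPrim b) (hG : ∀ y, IsPrim y → ‖G y‖ ≤ 1)
    (hδ : IsPrim δ) :
    En V' (tws P q (fun y => sy y b * G y) (vD D v)) δ ≤ Ex V v δ := by
  unfold En Ex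
  have h1 : ∀ r ∈ (S V').filter (fun r => IsCoprime r δ),
      ‖tws P q (fun y => sy y b * G y) (vD D v) (r * δ ^ 2)‖ ^ 2 ≤ ‖v (P * (r * δ ^ 2))‖ ^ 2 := by
    intro r hr
    have hrp : IsPrim r := ((mem_S hV').1 (mem_filter.mp hr).1).2.1
    exact pow_le_pow_left₀ (norm_nonneg _)
      (norm_twsD_le hP hD hb hG (hrp.mul (hδ.pow 2))) 2
  refine (sum_le_sum h1).trans ?_
  have e1 : ∑ r ∈ (S V').filter (fun r => IsCoprime r δ), ‖v (P * (r * δ ^ 2))‖ ^ 2 =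
      ∑ r ∈ ((S V').filter (fun r => IsCoprime r δ)).filter (fun r => v (P * (r * δ ^ 2)) ≠ 0),
        ‖v (P * (r * δ ^ 2))‖ ^ 2 := by
    symm
    refine sum_subset (filter_subset _ _) fun r hr hn => ?_
    have : v (P * (r * δ ^ 2)) = 0 := by
      by_contra h
      exact hn (mem_filter.mpr ⟨hr, h⟩)
    rw [this, norm_zero]; norm_num
  rw [e1]
  refine sum_le_of_inj _ (fun r => P * (r * δ ^ 2)) _ ?_ ?_ (fun x => ‖v x‖ ^ 2)
    (fun x => by positivity)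
  · intro r hr
    obtain ⟨-, h2⟩ := mem_filter.mp hr
    obtain ⟨g1, -, g3⟩ := hv _ h2
    exact mem_filter.mpr ⟨mem_primBall.mpr ⟨Nat.le_floor g3, g1⟩,
      (dvd_mul_left _ _).mul_left _⟩
  · intro r _ r' _ he
    have h3 : r * δ ^ 2 = r' * δ ^ 2 := mul_left_cancel₀ hP.ne_zero he
    exact mul_right_cancel₀ (pow_ne_zero 2 hδ.ne_zero) h3

/-- **one prefix** -/
theorem xb_one {ε : ℝ} (hε : 0 < ε) : ∃ C : ℝ, 1 ≤ C ∧ ∀ X K V B Mb : ℝ,
    1 ≤ K → 0 ≤ V → 1 ≤ B → K ≤ X → V ≤ X → B ≤ X → 0 ≤ Mb → ∀ (v bm G : Eis → ℂ)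
      (P q D b : Eis), IsPrim P → IsPrim D → IsPrim b → (∀ y, IsPrim y → ‖G y‖ ≤ 1) →
      (∀ x, v x ≠ 0 → IsPrim x ∧ CbF x ∧ (nm x : ℝ) ≤ V) →
      (∀ n, bm n ≠ 0 → n ∈ primBall ⌊B⌋₊) →
      (∀ s, IsPrim s → ∑ d ∈ primBall ⌊B⌋₊, ‖bm (s * d)‖ ^ 2 ≤ Mb / nm s) →
    ∑ k ∈ (primBall ⌊K⌋₊).filter CbF, ((nm k : ℝ))⁻¹ *
      (‖Sd (tws P q (fun y => sy y b * G y) (vD D v)) k‖ ^ 2 * ‖CS bm k‖ ^ 2) ≤
      C * X ^ ε * (Mb * QE K V (V / nm P) B v) := by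
  obtain ⟨C0, hC0, h⟩ := sd_hb hε
  refine ⟨max C0 1, le_max_right _ _, ?_⟩
  intro X K V B Mb hK hV hB hKX hVX hBX hMb0 v bm G P q D b hP hD hb hG hv hbm hMb
  have hX : 1 ≤ X := hK.trans hKX
  have hX0 : 0 < X := by linarith
  have hP1 : (1 : ℝ) ≤ nm P := by exact_mod_cast nm_pos.mpr hP.ne_zero
  have hP0 : (0 : ℝ) < nm P := by linarith
  have hQE : 0 ≤ QE K V (V / nm P) B v := by
    unfold QE
    refine sum_nonneg fun δ _ => ?_
    have := Qd_nonneg (K := K) (V := V / nm P) (B := B) (d := nm δ) (by linarith)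
      (by positivity) (by linarith) (Nat.cast_nonneg _)
    have := Ex_nonneg V v δ
    positivity
  have hC : 0 < max C0 1 := by positivity
  have hsupp : ∀ y, tws P q (fun y => sy y b * G y) (vD D v) y ≠ 0 →
      IsPrim y ∧ CbF y ∧ (nm y : ℝ) ≤ V / nm P := by
    intro y hy
    have h2 := twsD_ne hy
    obtain ⟨g1, g2, g3⟩ := hv _ h2
    refine ⟨IsPrim.of_mul_left g1 hP, CbF_of_dvd g2 (dvd_mul_left _ _), ?_⟩
    rw [nm_mul] at g3
    push_cast at g3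
    rw [le_div_iff₀ hP0]
    linarith
  by_cases hV1 : 1 ≤ V / nm P
  · have hVP : V / nm P ≤ V := div_le_self hV hP1
    refine (h X K (V / nm P) B Mb hK hV1 hB hKX (hVP.trans hVX) hBX hMb0 _ bm hsupp hbm
      hMb).trans ?_
    have h3 : ∑ δ ∈ S (V / nm P), (nm δ : ℝ) * Qd K (V / nm P) B (nm δ) *
        En (V / nm P) (tws P q (fun y => sy y b * G y) (vD D v)) δ ≤
        QE K V (V / nm P) B v := by
      unfold QE
      have hsub : S (V / nm P) ⊆ S V := by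
        intro δ hδ
        rw [mem_S (by linarith)] at hδ
        rw [mem_S hV]
        exact ⟨hδ.1.trans hVP, hδ.2⟩
      refine le_trans (sum_le_sum fun δ hδ => ?_) (sum_le_sum_of_subset_of_nonneg hsub
        fun δ _ _ => ?_)
      · have hδp : IsPrim δ := ((mem_S (by linarith)).1 hδ).2.1
        have hq := Qd_nonneg (K := K) (V := V / nm P) (B := B) (d := nm δ) (by linarith)
          (by linarith) (by linarith) (Nat.cast_nonneg _)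
        exact mul_le_mul_of_nonneg_left (En_le_Ex hV (by linarith) hv hP hD hb hG hδp)
          (by positivity)
      · have hq := Qd_nonneg (K := K) (V := V / nm P) (B := B) (d := nm δ) (by linarith)
          (by linarith) (by linarith) (Nat.cast_nonneg _)
        have := Ex_nonneg V v δ
        positivity
    calc C0 * X ^ ε * (Mb * ∑ δ ∈ S (V / nm P), (nm δ : ℝ) * Qd K (V / nm P) B (nm δ) *
          En (V / nm P) (tws P q (fun y => sy y b * G y) (vD D v)) δ)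
        ≤ C0 * X ^ ε * (Mb * QE K V (V / nm P) B v) :=
          mul_le_mul_of_nonneg_left (mul_le_mul_of_nonneg_left h3 hMb0) (by positivity)
      _ ≤ max C0 1 * X ^ ε * (Mb * QE K V (V / nm P) B v) := by
          refine mul_le_mul_of_nonneg_right (mul_le_mul_of_nonneg_right (le_max_left _ _)
            (by positivity)) (by positivity)
  · have hz : ∀ y, tws P q (fun y => sy y b * G y) (vD D v) y = 0 := by
      intro y
      by_contra hy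
      obtain ⟨g1, -, g3⟩ := hsupp y hy
      have : (1 : ℝ) ≤ nm y := by exact_mod_cast nm_pos.mpr g1.ne_zero
      exact hV1 (this.trans g3)
    have h0 : ∀ k, Sd (tws P q (fun y => sy y b * G y) (vD D v)) k = 0 := by
      intro k
      unfold Sd
      simp only [hz, zero_mul, tsum_zero]
    have h1 : ∑ k ∈ (primBall ⌊K⌋₊).filter CbF, ((nm k : ℝ))⁻¹ *
        (‖Sd (tws P q (fun y => sy y b * G y) (vD D v)) k‖ ^ 2 * ‖CS bm k‖ ^ 2) = 0 := by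
      refine sum_eq_zero fun k _ => ?_
      rw [h0, norm_zero]
      ring
    rw [h1]
    positivity

lemma Dk_sub (M : Eis) (κ : ℝ) : Dk M κ ⊆ (primBall ⌊2 * κ⌋₊).filter CbF := by
  intro k hk
  unfold Dk at hk
  obtain ⟨h1, h2⟩ := mem_filter.mp hk
  exact mem_filter.mpr ⟨h1, h2.2.1⟩

lemma Qd_mono {K V V' B d : ℝ} (hK : 0 ≤ K) (hV : 0 ≤ V) (hVV : V ≤ V') (hB : 0 ≤ B) :
    Qd K V B d ≤ Qd K V' B d := by
  unfold Qd
  gcongr

/-- **the `x`-side in the large sieve range** : `Oc` the outer indices of the class, `V` the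
length of `v o` on the class, `P` a lower bound for `N(R R')` -/
theorem xv_HB {ε : ℝ} (hε : 0 < ε) (n : ℕ) : ∃ C : ℝ, 1 ≤ C ∧ ∀ {O : Type} [Fintype O]
    (M : Eis) (Y : ℝ), 1 ≤ Y → ∀ (lam : O → ℝ) (v : O → Eis → ℂ) (G : Eis → ℂ)
    (κ L V P B Mb : ℝ), 1 / 2 ≤ κ → 2 * κ ≤ Y → 0 < L → 0 ≤ V → V ≤ Y → 1 ≤ P → 1 ≤ B →
    B ≤ Y → 0 ≤ Mb →
    (∀ y, IsPrim y → ‖G y‖ ≤ 1) → ∀ (Oc : Finset O),
    (∀ o ∈ Oc, ∀ x, v o x ≠ 0 → IsPrim x ∧ CbF x ∧ (nm x : ℝ) ≤ V) →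
    ∀ (𝒥 : Finset (Tm O)) (b1 : Tm O → Eis)
    (pk : O → Eis → Eis → Px O) (x : Tm O → Fin n → Eis) (E : Eis → Eis → Eis)
    (bm : O → Eis → Eis → (Fin n → Eis) → Eis → ℂ),
    (∀ t ∈ 𝒥, t.o ∈ Oc ∧ px t = pk t.o t.D1 (b1 t) ∧ Kw M κ t.k ∧ L ≤ lam t.o * nm t.k ∧
      (IsPrim t.D1 ∧ (nm t.D1 : ℝ) ≤ Y) ∧ (IsPrim (b1 t) ∧ (nm (b1 t) : ℝ) ≤ Y) ∧
      (∀ i, IsPrim (x t i)) ∧ (∀ i, x t i ∣ E t.D1 (b1 t)) ∧ E t.D1 (b1 t) ≠ 0 ∧
      (nm (E t.D1 (b1 t)) : ℝ) ≤ Y) →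
    (∀ t ∈ 𝒥, ∀ t' ∈ 𝒥, t.o = t'.o → t.D1 = t'.D1 → b1 t = b1 t' → t.k = t'.k → t = t') →
    (∀ t ∈ 𝒥, ∀ o ∈ Oc, (pk o t.D1 (b1 t)).o = o ∧ IsPrim (pk o t.D1 (b1 t)).P ∧
      P ≤ nm (pk o t.D1 (b1 t)).P ∧ IsPrim (pk o t.D1 (b1 t)).D ∧
      IsPrim (pk o t.D1 (b1 t)).b ∧
      (∀ m, bm o t.D1 (b1 t) (x t) m ≠ 0 → m ∈ primBall ⌊B⌋₊) ∧
      (∀ s, IsPrim s → ∑ d ∈ primBall ⌊B⌋₊, ‖bm o t.D1 (b1 t) (x t) (s * d)‖ ^ 2 ≤
        Mb / nm s)) →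
    ∑ t ∈ 𝒥, (nm (t.D1 * b1 t) : ℝ)⁻¹ * ((lam t.o * nm t.k)⁻¹ ^ 2 *
      (‖t.xs v G‖ ^ 2 * ‖CS (bm t.o t.D1 (b1 t) (x t)) t.k‖ ^ 2)) ≤
      C * Y ^ ε * (κ / L ^ 2 * (Mb * ∑ δ ∈ S V, (nm δ : ℝ) * Qd (2 * κ) (V / P) B (nm δ) *
        ∑ o ∈ Oc, Ex V (v o) δ)) := by
  have hε2 : 0 < ε / 2 := by positivity
  obtain ⟨C1, hC1, h1⟩ := hx_of hε2 n
  obtain ⟨C2, hC2, h2⟩ := xb_one hε2
  refine ⟨C1 * C2, one_le_mul_of_one_le_of_one_le hC1 hC2, ?_⟩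
  intro O _ M Y hY lam v G κ L V P B Mb hκ hκY hL hV hVY hP1 hB hBY hMb hG Oc hv 𝒥 b1 pk x E bm
    hJ hinj hpk
  have hY0 : 0 < Y := by linarith
  have hP0 : 0 < P := by linarith
  set R : ℝ := ∑ δ ∈ S V, (nm δ : ℝ) * Qd (2 * κ) (V / P) B (nm δ) * ∑ o ∈ Oc, Ex V (v o) δ
    with hR
  have hQd : ∀ δ : Eis, 0 ≤ Qd (2 * κ) (V / P) B (nm δ) := fun δ =>
    Qd_nonneg (by linarith) (by positivity) (by linarith) (Nat.cast_nonneg _)
  have hR0 : 0 ≤ R := by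
    rw [hR]
    refine sum_nonneg fun δ _ => mul_nonneg (mul_nonneg (Nat.cast_nonneg _) (hQd δ))
      (sum_nonneg fun o _ => Ex_nonneg _ _ _)
  set Hh : O → Eis → Eis → (Fin n → Eis) → Eis → ℝ := fun o D b ξ k =>
    if o ∈ Oc then ‖CS (bm o D b ξ) k‖ ^ 2 else 0 with hHh
  have hHh0 : ∀ o D b ξ k, 0 ≤ Hh o D b ξ k := fun o D b ξ k => by
    simp only [hHh]
    split_ifs
    · positivity
    · exact le_rfl
  have key : ∀ t ∈ 𝒥, ∑ o, ∑ k ∈ Dk M κ, (nm k : ℝ)⁻¹ *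
      (‖Sd ((pk o t.D1 (b1 t)).v' v G) k‖ ^ 2 * Hh o t.D1 (b1 t) (x t) k) ≤
      C2 * Y ^ (ε / 2) * (Mb * R) := by
    intro t ht
    have e1 : ∀ o, ∑ k ∈ Dk M κ, (nm k : ℝ)⁻¹ *
        (‖Sd ((pk o t.D1 (b1 t)).v' v G) k‖ ^ 2 * Hh o t.D1 (b1 t) (x t) k) ≤
        if o ∈ Oc then C2 * Y ^ (ε / 2) * (Mb * QE (2 * κ) V (V / P) B (v o)) else 0 := by
      intro o
      by_cases ho : o ∈ Oc
      · rw [if_pos ho]
        obtain ⟨p0, p1, p2, p3, p4, p5, p6⟩ := hpk t ht o ho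
        have q1 := h2 Y (2 * κ) V B Mb (by linarith) hV hB hκY hVY hBY hMb (v o)
          (bm o t.D1 (b1 t) (x t)) G (pk o t.D1 (b1 t)).P
          ((pk o t.D1 (b1 t)).B * (pk o t.D1 (b1 t)).b) (pk o t.D1 (b1 t)).D
          (pk o t.D1 (b1 t)).b p1 p3 p4 hG (hv o ho) p5 p6
        have q2 : ∑ k ∈ Dk M κ, (nm k : ℝ)⁻¹ *
            (‖Sd ((pk o t.D1 (b1 t)).v' v G) k‖ ^ 2 * Hh o t.D1 (b1 t) (x t) k) ≤
            ∑ k ∈ (primBall ⌊2 * κ⌋₊).filter CbF, ((nm k : ℝ))⁻¹ *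
              (‖Sd (tws (pk o t.D1 (b1 t)).P ((pk o t.D1 (b1 t)).B * (pk o t.D1 (b1 t)).b)
                (fun y => sy y (pk o t.D1 (b1 t)).b * G y) (vD (pk o t.D1 (b1 t)).D (v o))) k‖ ^ 2
                * ‖CS (bm o t.D1 (b1 t) (x t)) k‖ ^ 2) := by
          refine le_trans (le_of_eq (sum_congr rfl fun k _ => ?_))
            (sum_le_sum_of_subset_of_nonneg (Dk_sub M κ) fun k _ _ => by positivity)
          simp only [hHh, if_pos ho]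
          unfold Px.v'
          rw [p0]
        refine q2.trans (q1.trans (mul_le_mul_of_nonneg_left (mul_le_mul_of_nonneg_left ?_ hMb)
          (by positivity)))
        unfold QE
        refine sum_le_sum fun δ _ => mul_le_mul_of_nonneg_right (mul_le_mul_of_nonneg_left
          (Qd_mono (by linarith) (by positivity) ?_ (by linarith)) (Nat.cast_nonneg _))
          (Ex_nonneg _ _ _)
        exact div_le_div_of_nonneg_left hV hP0 p2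
      · rw [if_neg ho]
        refine le_of_eq (sum_eq_zero fun k _ => ?_)
        simp only [hHh, if_neg ho]
        ring
    refine (sum_le_sum fun o _ => e1 o).trans ?_
    rw [← sum_filter, ← mul_sum, ← mul_sum]
    refine le_of_eq ?_
    congr 2
    have e2 : (univ.filter fun o => o ∈ Oc) = Oc := by ext o; simp
    rw [e2, hR]
    unfold QE
    rw [sum_comm]
    refine sum_congr rfl fun δ _ => ?_
    rw [mul_sum]
  have fin := h1 M Y hY lam v G κ L (C2 * Y ^ (ε / 2) * (Mb * R)) (by linarith) hL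
    (by positivity) 𝒥 b1 pk x E Hh hHh0
    (fun t ht => (hJ t ht).2) hinj key
  have e3 : ∑ t ∈ 𝒥, (nm (t.D1 * b1 t) : ℝ)⁻¹ * ((lam t.o * nm t.k)⁻¹ ^ 2 *
      (‖t.xs v G‖ ^ 2 * ‖CS (bm t.o t.D1 (b1 t) (x t)) t.k‖ ^ 2)) =
      ∑ t ∈ 𝒥, (nm (t.D1 * b1 t) : ℝ)⁻¹ * ((lam t.o * nm t.k)⁻¹ ^ 2 *
      (‖t.xs v G‖ ^ 2 * Hh t.o t.D1 (b1 t) (x t) t.k)) := by
    refine sum_congr rfl fun t ht => ?_
    simp only [hHh, if_pos (hJ t ht).1]
  rw [e3]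
  refine fin.trans (le_of_eq ?_)
  have e4 : Y ^ ε = Y ^ (ε / 2) * Y ^ (ε / 2) := by
    rw [← Real.rpow_add hY0]
    congr 1
    ring
  rw [e4]
  ring

end Crest.Agent.R017.JxB679
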