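import Crest.Agent.R017.E4Hj_842
import Crest.Agent.R017.JxB_679

/-!
# Row 17, E4: the x-side in the large sieve range, one prefix, true length (helper842)

* `Qds K V B σ d = K + V B / d² + (K (V B / (σ d²)))^{2/3}`
* `jx_oneS` : one prefix `P = R R'`, the `S₀`-part of the cofactor at least `σ`
* `sig_of` : the hypothesis on `σ` from the `S₀`-part of `x`
-/

set_option autoImplicit false
set_option maxHeartbeats 400000

noncomputable section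

open Complex Finset
open scoped ComplexConjugate Classical

namespace Crest.Agent.R017.GHB842

open Crest.Agent.R012 Crest.Agent.R012.Eis
open Crest.Agent.R012.LS2 (S mem_S)
open Crest.Agent.R017.CM106 (CS)
open Crest.Agent.R017.E1551 (nmpos nm_ge_one)
open Crest.Agent.R017.C70 (CbF)
open Crest.Agent.R017.E4352 (Sd tws)
open Crest.Agent.R017.E4o502 (vD)
open Crest.Agent.R017.E4y92 (Dk)
open Crest.Agent.R017.E4579 (SupB bpt bco bpt_prim bpt_sup bpt_dvd bpt_mul bpt_mul_bco bco_cop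
  bco_prim bpt_eq)
open Crest.Agent.R017.JxB679 (Ex Ex_nonneg Dk_sub)
open Crest.Agent.R017.JxH679 (sum_le_of_inj)

/-- the large sieve norm, the length in the last term divided by `σ` -/
def Qds (K V B σ d : ℝ) : ℝ :=
  K + V * B / d ^ 2 + (K * (V * B / (σ * d ^ 2))) ^ ((2 : ℝ) / 3)

lemma Qds_nonneg {K V B σ d : ℝ} (hK : 0 ≤ K) (hV : 0 ≤ V) (hB : 0 ≤ B) (hσ : 0 ≤ σ)
    (_hd : 0 ≤ d) : 0 ≤ Qds K V B σ d := by
  unfold Qds
  positivity

lemma Qds_mono {K V V' B σ d : ℝ} (hK : 0 ≤ K) (hV : 0 ≤ V) (hVV : V ≤ V') (hB : 0 ≤ B)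
    (hσ : 0 ≤ σ) : Qds K V B σ d ≤ Qds K V' B σ d := by
  unfold Qds
  gcongr

/-- `EnS` of a twisted sequence -/
lemma EnS_le_Ex {V V' : ℝ} (hV : 0 ≤ V) (hV' : 0 ≤ V') {v : Eis → ℂ}
    (hv : ∀ x, v x ≠ 0 → IsPrim x ∧ CbF x ∧ (nm x : ℝ) ≤ V) {P q D b δ S₀ : Eis} {G : Eis → ℂ}
    (hP : IsPrim P) (hD : IsPrim D) (hb : IsPrim b) (hG : ∀ y, IsPrim y → ‖G y‖ ≤ 1)
    (hδ : IsPrim δ) {K B σ : ℝ} (hK : 0 ≤ K) (hB : 0 ≤ B) (hσ : 0 < σ)
    (hs : ∀ r, IsPrim r → Squarefree r → IsCoprime r δ → v (P * (r * δ ^ 2)) ≠ 0 →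
      σ ≤ nm (bpt S₀ r)) :
    EnS K V' B S₀ (tws P q (fun y => sy y b * G y) (vD D v)) δ ≤
      Qds K V' B σ (nm δ) * Ex V v δ := by
  have hQ0 : 0 ≤ Qds K V' B σ (nm δ) := Qds_nonneg hK hV' hB hσ.le (Nat.cast_nonneg _)
  have hd0 : (0 : ℝ) < nm δ := nmpos hδ.ne_zero
  unfold EnS
  have h1 : ∀ r ∈ (S V').filter (fun r => IsCoprime r δ),
      Qs K V' B S₀ (nm δ) r * ‖tws P q (fun y => sy y b * G y) (vD D v) (r * δ ^ 2)‖ ^ 2 ≤
      Qds K V' B σ (nm δ) * ‖v (P * (r * δ ^ 2))‖ ^ 2 := by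
    intro r hr
    obtain ⟨hr1, hr2⟩ := mem_filter.mp hr
    obtain ⟨hr3, hrp, hrs⟩ := (mem_S hV').1 hr1
    by_cases h0 : tws P q (fun y => sy y b * G y) (vD D v) (r * δ ^ 2) = 0
    · rw [h0, norm_zero]
      have : (0 : ℝ) ≤ Qds K V' B σ (nm δ) * ‖v (P * (r * δ ^ 2))‖ ^ 2 := by positivity
      simpa using this
    · have h2 := twsD_ne h0
      have h3 := hs r hrp hrs hr2 h2
      have h4 : Qs K V' B S₀ (nm δ) r ≤ Qds K V' B σ (nm δ) := by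
        unfold Qs Qds
        gcongr
      refine mul_le_mul h4 (pow_le_pow_left₀ (norm_nonneg _)
        (norm_twsD_le hP hD hb hG (hrp.mul (hδ.pow 2))) 2) (by positivity) hQ0
  refine (sum_le_sum h1).trans ?_
  rw [← mul_sum]
  refine mul_le_mul_of_nonneg_left ?_ hQ0
  unfold Ex
  have e1 : ∑ r ∈ (S V').filter (fun r => IsCoprime r δ), ‖v (P * (r * δ ^ 2))‖ ^ 2 =
      ∑ r ∈ ((S V').filter (fun r => IsCoprime r δ)).filter (fun r => v (P * (r * δ ^ 2)) ≠ 0),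
        ‖v (P * (r * δ ^ 2))‖ ^ 2 := by
    symm
    refine sum_subset (filter_subset _ _) fun r hr hn => ?_
    have : v (P * (r * δ ^ 2)) = 0 := by
      by_contra h
      exact hn (mem_filter.mpr ⟨hr, h⟩)
    rw [this, norm_zero]; norm_num
  rw [e1]
  refine sum_le_of_inj _ (fun r => P * (r * δ ^ 2)) _ ?_ ?_ (fun x => ‖v x‖ ^ 2)
    (fun x => by positivity)
  · intro r hr
    obtain ⟨-, h2⟩ := mem_filter.mp hr
    obtain ⟨g1, -, g3⟩ := hv _ h2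
    exact mem_filter.mpr ⟨mem_primBall.mpr ⟨Nat.le_floor g3, g1⟩,
      (dvd_mul_left _ _).mul_left _⟩
  · intro r _ r' _ he
    have h3 : r * δ ^ 2 = r' * δ ^ 2 := mul_left_cancel₀ hP.ne_zero he
    exact mul_right_cancel₀ (pow_ne_zero 2 hδ.ne_zero) h3

/-- the right side of one prefix -/
def QES (K V V' B σ : ℝ) (v : Eis → ℂ) : ℝ :=
  ∑ δ ∈ S V, (nm δ : ℝ) * Qds K V' B σ (nm δ) * Ex V v δ

lemma QES_nonneg {K V V' B σ : ℝ} (hK : 0 ≤ K) (hV' : 0 ≤ V') (hB : 0 ≤ B) (hσ : 0 ≤ σ)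
    (v : Eis → ℂ) : 0 ≤ QES K V V' B σ v := by
  unfold QES
  refine sum_nonneg fun δ _ => ?_
  have h1 := Qds_nonneg hK hV' hB hσ (Nat.cast_nonneg (nm δ) : (0 : ℝ) ≤ _)
  have h2 := Ex_nonneg V v δ
  positivity

lemma QES_mono {K V V' V'' B σ : ℝ} (hK : 0 ≤ K) (hV' : 0 ≤ V') (hVV : V' ≤ V'') (hB : 0 ≤ B)
    (hσ : 0 ≤ σ) (v : Eis → ℂ) : QES K V V' B σ v ≤ QES K V V'' B σ v := by
  unfold QES
  refine sum_le_sum fun δ _ => mul_le_mul_of_nonneg_right (mul_le_mul_of_nonneg_left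
    (Qds_mono hK hV' hVV hB hσ) (Nat.cast_nonneg _)) (Ex_nonneg _ _ _)

/-- **one prefix, true length** -/
theorem jx_oneS {ε : ℝ} (hε : 0 < ε) : ∃ C : ℝ, 1 ≤ C ∧ ∀ X K V B Mb σ : ℝ,
    1 ≤ K → 0 ≤ V → 1 ≤ B → K ≤ X → V ≤ X → B ≤ X → 0 ≤ Mb → 0 < σ → ∀ (v bm G : Eis → ℂ)
      (P q D b S₀ : Eis), IsPrim P → IsPrim D → IsPrim b → IsPrim S₀ → (nm S₀ : ℝ) ≤ X →
      (∀ y, IsPrim y → ‖G y‖ ≤ 1) →
      (∀ x, v x ≠ 0 → IsPrim x ∧ CbF x ∧ (nm x : ℝ) ≤ V) →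
      (∀ r δ, IsPrim r → IsPrim δ → Squarefree r → IsCoprime r δ → v (P * (r * δ ^ 2)) ≠ 0 →
        σ ≤ nm (bpt S₀ r)) →
      (∀ n, bm n ≠ 0 → n ∈ primBall ⌊B⌋₊) →
      (∀ s, IsPrim s → ∑ d ∈ primBall ⌊B⌋₊, ‖bm (s * d)‖ ^ 2 ≤ Mb / nm s) →
    ∑ k ∈ (primBall ⌊K⌋₊).filter CbF, ((nm k : ℝ))⁻¹ *
      (‖Sd (tws P q (fun y => sy y b * G y) (vD D v)) k‖ ^ 2 * ‖CS bm k‖ ^ 2) ≤
      C * X ^ ε * (Mb * QES K V (V / nm P) B σ v) := by
  obtain ⟨C0, hC0, h⟩ := sd_hbS hε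
  refine ⟨max C0 1, le_max_right _ _, ?_⟩
  intro X K V B Mb σ hK hV hB hKX hVX hBX hMb0 hσ v bm G P q D b S₀ hP hD hb hS hSX hG hv hs
    hbm hMb
  have hX : 1 ≤ X := hK.trans hKX
  have hX0 : 0 < X := by linarith
  have hP1 : (1 : ℝ) ≤ nm P := by exact_mod_cast nm_pos.mpr hP.ne_zero
  have hP0 : (0 : ℝ) < nm P := by linarith
  have hQE : 0 ≤ QES K V (V / nm P) B σ v :=
    QES_nonneg (by linarith) (by positivity) (by linarith) hσ.le v
  have hC : 0 < max C0 1 := by positivity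
  have hsupp : ∀ y, tws P q (fun y => sy y b * G y) (vD D v) y ≠ 0 →
      IsPrim y ∧ CbF y ∧ (nm y : ℝ) ≤ V / nm P := by
    intro y hy
    have h2 := twsD_ne hy
    obtain ⟨g1, g2, g3⟩ := hv _ h2
    refine ⟨IsPrim.of_mul_left g1 hP, CbF_of_dvd g2 (dvd_mul_left _ _), ?_⟩
    rw [nm_mul] at g3
    push_cast at g3
    rw [le_div_iff₀ hP0]
    linarith
  by_cases hV1 : 1 ≤ V / nm P
  · have hVP : V / nm P ≤ V := div_le_self hV hP1
    refine (h X K (V / nm P) B Mb hK hV1 hB hKX (hVP.trans hVX) hBX hMb0 _ bm S₀ hS hSX hsupp hbm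
      hMb).trans ?_
    have h3 : ∑ δ ∈ S (V / nm P), (nm δ : ℝ) * EnS K (V / nm P) B S₀
        (tws P q (fun y => sy y b * G y) (vD D v)) δ ≤ QES K V (V / nm P) B σ v := by
      unfold QES
      have hsub : S (V / nm P) ⊆ S V := by
        intro δ hδ
        rw [mem_S (by linarith)] at hδ
        rw [mem_S hV]
        exact ⟨hδ.1.trans hVP, hδ.2⟩
      refine le_trans (sum_le_sum fun δ hδ => ?_) (sum_le_sum_of_subset_of_nonneg hsub
        fun δ _ _ => ?_)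
      · have hδp : IsPrim δ := ((mem_S (by linarith)).1 hδ).2.1
        rw [mul_assoc]
        exact mul_le_mul_of_nonneg_left (EnS_le_Ex hV (by linarith) hv hP hD hb hG hδp
          (by linarith) (by linarith) hσ (fun r h1 h2 h3 h4 => hs r δ h1 hδp h2 h3 h4))
          (Nat.cast_nonneg _)
      · have hq := Qds_nonneg (K := K) (V := V / nm P) (B := B) (σ := σ) (d := nm δ)
          (by linarith) (by linarith) (by linarith) hσ.le (Nat.cast_nonneg _)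
        have := Ex_nonneg V v δ
        positivity
    calc C0 * X ^ ε * (Mb * ∑ δ ∈ S (V / nm P), (nm δ : ℝ) * EnS K (V / nm P) B S₀
          (tws P q (fun y => sy y b * G y) (vD D v)) δ)
        ≤ C0 * X ^ ε * (Mb * QES K V (V / nm P) B σ v) :=
          mul_le_mul_of_nonneg_left (mul_le_mul_of_nonneg_left h3 hMb0) (by positivity)
      _ ≤ max C0 1 * X ^ ε * (Mb * QES K V (V / nm P) B σ v) := by
          refine mul_le_mul_of_nonneg_right (mul_le_mul_of_nonneg_right (le_max_left _ _)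
            (by positivity)) (by positivity)
  · have hz : ∀ y, tws P q (fun y => sy y b * G y) (vD D v) y = 0 := by
      intro y
      by_contra hy
      obtain ⟨g1, -, g3⟩ := hsupp y hy
      have : (1 : ℝ) ≤ nm y := by exact_mod_cast nm_pos.mpr g1.ne_zero
      exact hV1 (this.trans g3)
    have h0 : ∀ k, Sd (tws P q (fun y => sy y b * G y) (vD D v)) k = 0 := by
      intro k
      unfold Sd
      simp only [hz, zero_mul, tsum_zero]
    have h1 : ∑ k ∈ (primBall ⌊K⌋₊).filter CbF, ((nm k : ℝ))⁻¹ *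
        (‖Sd (tws P q (fun y => sy y b * G y) (vD D v)) k‖ ^ 2 * ‖CS bm k‖ ^ 2) = 0 := by
      refine sum_eq_zero fun k _ => ?_
      rw [h0, norm_zero]
      ring
    rw [h1]
    positivity

lemma bpt_one_of_cop {S₀ P : Eis} (hS : IsPrim S₀) (hP : IsPrim P) (h : IsCoprime P S₀) :
    bpt S₀ P = 1 := by
  have h1 := (bpt_eq (P := 1) (y := P) hS isPrim_one hP
    (fun p hp hp1 => absurd (isUnit_of_dvd_one hp1) hp.not_isUnit) h).1
  rwa [one_mul] at h1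

/-- the hypothesis on `σ` of `jx_oneS`, from the `S₀`-part of `x` -/
lemma sig_of {S₀ P : Eis} {v : Eis → ℂ} {σ : ℝ} (hS : IsPrim S₀) (hP : IsPrim P)
    (hPS : IsCoprime P S₀) (h : ∀ x, v x ≠ 0 → Squarefree (bpt S₀ x) ∧ σ ≤ nm (bpt S₀ x)) :
    ∀ r δ, IsPrim r → IsPrim δ → Squarefree r → IsCoprime r δ → v (P * (r * δ ^ 2)) ≠ 0 →
        σ ≤ nm (bpt S₀ r) := by
  intro r δ hr hδ _ _ hne
  obtain ⟨h1, h2⟩ := h _ hne
  have e1 : bpt S₀ (P * (r * δ ^ 2)) = bpt S₀ r * (bpt S₀ δ) ^ 2 := by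
    rw [(bpt_mul hS hP (hr.mul (hδ.pow 2))).1, (bpt_mul hS hr (hδ.pow 2)).1,
      bpt_one_of_cop hS hP hPS, one_mul, pow_two, (bpt_mul hS hδ hδ).1, pow_two]
  rw [e1] at h1 h2
  have h3 : IsUnit (bpt S₀ δ) := h1 _ ⟨bpt S₀ r, by ring⟩
  have h4 : bpt S₀ δ = 1 := K695.prim_eq_one_of_isUnit (bpt_prim hS hδ) h3
  rw [h4, one_pow, mul_one] at h2
  exact h2

end Crest.Agent.R017.GHB842
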