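import Crest.Agent.R017.E4J_792

/-!
# Row 17, E4 / E5: joint moments of sub-sequences, list form (helper792; (Y2) of helper54)

* `joint_list` : pairs `(D, k)`, arbitrary weight `w ≥ 0` of the frequencies
* `joint_RQ` : `k = D² d m₀`, `w k = [Q k] ∏_{rest} ‖CS (pc h p) k‖²`
-/

set_option autoImplicit false
set_option linter.unusedSectionVars false
set_option linter.unusedVariables false

noncomputable section

open Complex
open scoped ComplexConjugate

namespace Crest.Agent.R017.E4J792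

open Crest.Agent.R012 Crest.Agent.R012.Eis Crest.Agent.R012.LS2 Crest.Agent.R012.Gauss880
open Crest.Agent.R012.Div277 (tau dvs mem_dvs tau_le_rpow)
open Crest.Agent.R012.PSer47 (IsChar)
open Crest.Agent.R017.CM106 Crest.Agent.R017.HP842 Crest.Agent.R017.FE47
open Crest.Agent.R017.End699 Crest.Agent.R017.XC858
open Crest.Agent.R017.HSep813 (gw norm_gw_le MF sep_list)
open Crest.Agent.R017.B770
open Crest.Agent.R017.Prov71
open Crest.Agent.R017.Rough381

/-- weighted moment of a list -/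
def WL (h : ℝ → ℝ) (w : Eis → ℝ) (P : DPar) (Λ : ℝ) (ps : List Pq) : ℝ :=
  ∑ k ∈ bl Λ, w k * (ps.map fun p => ‖CS (pc h (p.pc P)) k‖ ^ 2).prod

lemma WL_ofFn (h : ℝ → ℝ) (w : Eis → ℝ) (P : DPar) (Λ : ℝ) {n : ℕ} (g : Fin n → Pq) :
    WL h w P Λ (List.ofFn g) = WM h w Λ (fun i => (g i).pc P) := by
  unfold WL WM
  refine Finset.sum_congr rfl fun k _ => ?_
  rw [List.map_ofFn, List.prod_ofFn]
  rfl

set_option maxHeartbeats 1000000 in
/-- **joint moments, list form** -/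
theorem joint_list {h : ℝ → ℝ} {c : ℝ} (hpu : PU h c) (N : ℕ) {ε : ℝ} (hε : 0 < ε) {B₀ : ℝ}
    (hB₀ : 0 ≤ B₀) {M : ℝ} (hM : 0 ≤ M) : ∃ C r : ℝ, 1 ≤ C ∧ 0 ≤ r ∧ ∀ X : ℝ, 3 ≤ X →
    ∀ (P : DPar), (∀ k : Kd, IsChar (chK P k)) →
    ∀ (w : Eis → ℝ), (∀ k, 0 ≤ w k) → ∀ (Λ a₁ : ℝ), 0 ≤ Λ → Λ ≤ X ^ B₀ → 1 ≤ a₁ → a₁ ≤ X →
    ∀ ps : List Pq, ps.length ≤ N →
    ∀ J : Finset (Eis × Eis), (∀ p ∈ J, IsPrim p.1 ∧ p.1 ∣ p.2 ∧ p.2 ∈ bl Λ ∧
      a₁ ≤ nm p.1 ∧ (nm p.1 : ℝ) ≤ 2 * a₁) →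
    ∀ Bd : ℝ, 0 ≤ Bd →
    (∀ ps' : List Pq, List.Forall₂ (Ch r) ps' ps →
      |Ls ps - Ls ps' - Real.log a₁| ≤ r → WL h w P Λ ps' ≤ Bd * cst ps' ps ^ M) →
    ∑ p ∈ J, w p.2 * ‖CS (CM106.sub (alL h (ps.map (Pq.pc P))) p.1) p.2‖ ^ 2 ≤
      C * X ^ ε * Bd := by
  classical
  obtain ⟨R₀, hR₀⟩ := bump_of_cs hpu.cs
  set R := max R₀ 0 with hRd
  have hR0 : 0 ≤ R := le_max_right _ _
  have hR : ∀ u, cx h u ≠ 0 → |u| ≤ R := fun u hu => (hR₀ u hu).trans (le_max_left _ _)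
  obtain ⟨C₁, hC₁, H⟩ := joint_fam hpu hR0 hR M
  set η := ε / (4 * ((N : ℝ) + 1) * (B₀ + 1)) with hη
  have hN0 : (0 : ℝ) ≤ N := Nat.cast_nonneg _
  have hη0 : 0 < η := by positivity
  obtain ⟨C₂, hC₂, hτ⟩ := tau_le_rpow hη0
  set c₀ : ℝ := Real.log 2 + 1 with hc₀
  have hl2 : 0 ≤ Real.log 2 := Real.log_nonneg (by norm_num)
  have hc₀0 : 0 ≤ c₀ := by linarith
  obtain ⟨C₃, hC₃, hlog⟩ := log_pow_le (ε := ε / 2) (by linarith) N hc₀0
  set r : ℝ := N * (2 * R + 2) + (2 * R + 2) with hr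
  have hr0 : 0 ≤ r := by positivity
  refine ⟨C₁ ^ N * C₃ * (C₂ ^ N) ^ 2, r, ?_, hr0, ?_⟩
  · exact one_le_mul_of_one_le_of_one_le (one_le_mul_of_one_le_of_one_le (one_le_pow₀ hC₁) hC₃)
      (one_le_pow₀ (one_le_pow₀ hC₂))
  intro X hX P hP w hw Λ a₁ hΛ hΛX ha₁ ha₁X ps hlen J hJ Bd hBd hyp
  have hX1 : (1 : ℝ) ≤ X := by linarith
  have hX0 : (0 : ℝ) < X := by linarith
  set n := ps.length with hn
  have hnN : (n : ℝ) ≤ N := by exact_mod_cast hlen
  set s : Fin n → Pc := fun i => (ps.get i).pc P with hs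
  have hsOK : ∀ i, (s i).OK := fun i => ⟨(hP _).mul' (HP842.prin0_isChar _), Real.exp_pos _⟩
  have hseq : alL h (ps.map (Pq.pc P)) = al h s := by
    have : ps.map (Pq.pc P) = List.ofFn s := by
      conv_lhs => rw [← List.ofFn_get ps]
      rw [List.map_ofFn]
      rfl
    rw [this, ← al_eq]
  set D : ℝ := C₂ ^ N * X ^ (ε / 4) with hD
  have hD0 : 0 ≤ D := by positivity
  have hDτ : ∀ j ∈ bl Λ, (tau j : ℝ) ^ Fintype.card (Fin n) ≤ D := by
    intro j hj
    rw [Fintype.card_fin]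
    have hj' := (mem_bl hΛ).1 hj
    have hj1 : (1 : ℝ) ≤ nm j := by exact_mod_cast nm_pos.2 hj'.1
    have h5 : (tau j : ℝ) ≤ C₂ * (nm j : ℝ) ^ η := hτ j hj'.1
    have h6 : (1 : ℝ) ≤ C₂ * (nm j : ℝ) ^ η := by
      have := Real.one_le_rpow hj1 hη0.le
      nlinarith
    calc (tau j : ℝ) ^ n ≤ (C₂ * (nm j : ℝ) ^ η) ^ n :=
          pow_le_pow_left₀ (Nat.cast_nonneg _) h5 n
      _ ≤ (C₂ * (nm j : ℝ) ^ η) ^ N := pow_le_pow_right₀ h6 hlen
      _ = C₂ ^ N * (nm j : ℝ) ^ (η * N) := by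
          rw [mul_pow, ← Real.rpow_natCast ((nm j : ℝ) ^ η), ← Real.rpow_mul (by positivity)]
      _ ≤ C₂ ^ N * (X ^ B₀) ^ (η * N) := by
          refine mul_le_mul_of_nonneg_left ?_ (by positivity)
          exact Real.rpow_le_rpow (by positivity) (hj'.2.trans hΛX) (by positivity)
      _ = C₂ ^ N * X ^ (B₀ * (η * N)) := by rw [← Real.rpow_mul hX0.le]
      _ ≤ D := by
          rw [hD]
          refine mul_le_mul_of_nonneg_left ?_ (by positivity)
          refine Real.rpow_le_rpow_of_exponent_le hX1 ?_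
          have e1 : B₀ * (η * N) = ε / 4 * ((B₀ / (B₀ + 1)) * (N / (N + 1))) := by
            rw [hη]
            have h1 : ((N : ℝ) + 1) ≠ 0 := by positivity
            have h2 : (B₀ + 1) ≠ 0 := by positivity
            field_simp
          rw [e1]
          have e2 : (N : ℝ) / (N + 1) ≤ 1 := by
            rw [div_le_one (by positivity)]; linarith
          have e3 : B₀ / (B₀ + 1) ≤ 1 := by
            rw [div_le_one (by positivity)]; linarith
          have e4 : (B₀ / (B₀ + 1)) * ((N : ℝ) / (N + 1)) ≤ 1 :=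
            mul_le_one₀ e3 (by positivity) e2
          nlinarith
  have hlog2a : Real.log (2 * a₁) = Real.log 2 + Real.log a₁ :=
    Real.log_mul two_ne_zero (by linarith)
  have hla0 : 0 ≤ Real.log a₁ := Real.log_nonneg ha₁
  have key := H (Fin n) s hsOK w hw Λ (2 * X) hΛ (by linarith) J
    (fun p hp => by
      obtain ⟨h1, h2, h3, h4, h5⟩ := hJ p hp
      exact ⟨h1, h2, h3, ((mem_bl hΛ).1 h3).1, by linarith⟩)
    Bd D hBd hD0 hDτ
    (by
      intro b m Y t hx hY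
      obtain ⟨x, hx, p, hp, hxp⟩ := hx
      obtain ⟨h1, h2, h3, h4, h5⟩ := hJ p hp
      set g : Fin n → Pq := fun i => mkc (ps.get i) (vk s b i) (Y i) (t i) with hg
      set ps' := List.ofFn g with hps'
      have hY0 : ∀ i, 0 < Y i := fun i => by have := (hY i).1; linarith
      have hlogs : ∀ i, Real.log (s i).Y = (ps.get i).z := fun i => Real.log_exp _
      have hgz : ∀ i, (g i).z = Real.log (Y i) := fun i => rfl
      have hm0 : ∀ i, (0 : ℝ) ≤ m i := fun i => Nat.cast_nonneg _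
      have hup : ∀ i, Real.log (Y i) + (m i : ℝ) ≤ (ps.get i).z + (2 * R + 1) := by
        intro i
        have := (abs_le.1 (hY i).2).2
        rw [hlogs i] at this
        linarith
      have hlo : ∀ i, (ps.get i).z - (2 * R + 1) ≤ Real.log (Y i) + (m i : ℝ) := by
        intro i
        have := (abs_le.1 (hY i).2).1
        rw [hlogs i] at this
        linarith
      have hcardn : ∑ _i : Fin n, (2 * R + 1) = n * (2 * R + 1) := by
        rw [Finset.sum_const, Finset.card_univ, Fintype.card_fin, nsmul_eq_mul]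
      have hnr : (n : ℝ) * (2 * R + 1) ≤ N * (2 * R + 1) :=
        mul_le_mul_of_nonneg_right hnN (by linarith)
      have hLs' : Ls ps' = ∑ i, Real.log (Y i) := by
        rw [hps', Ls_ofFn]
        exact Finset.sum_congr rfl fun i _ => hgz i
      have hLs : Ls ps = ∑ i, (ps.get i).z := Ls_get ps
      have hsum1 : Ls ps' + ∑ i, (m i : ℝ) ≤ Ls ps + n * (2 * R + 1) := by
        rw [hLs', hLs, ← Finset.sum_add_distrib]
        calc ∑ i, (Real.log (Y i) + (m i : ℝ)) ≤ ∑ i, ((ps.get i).z + (2 * R + 1)) :=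
              Finset.sum_le_sum fun i _ => hup i
          _ = _ := by rw [Finset.sum_add_distrib, hcardn]
      have hsum2 : Ls ps - n * (2 * R + 1) ≤ Ls ps' + ∑ i, (m i : ℝ) := by
        rw [hLs', hLs, ← Finset.sum_add_distrib]
        calc (∑ i, (ps.get i).z) - n * (2 * R + 1) = ∑ i, ((ps.get i).z - (2 * R + 1)) := by
              rw [Finset.sum_sub_distrib, hcardn]
          _ ≤ ∑ i, (Real.log (Y i) + (m i : ℝ)) :=
              Finset.sum_le_sum fun i _ => hlo i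
      -- the total shortening
      have hxpos : ∀ i, (0 : ℝ) < nm (x i) := fun i => by
        exact_mod_cast nm_pos.2 (hx i).1.ne_zero
      have hlogD : Real.log (nm p.1) = ∑ i, Real.log (nm (x i)) := by
        rw [← hxp, HP842.nm_prod_cast, Real.log_prod fun i _ => (hxpos i).ne']
      have hp0 : (0 : ℝ) < nm p.1 := by linarith
      have hD1 : Real.log a₁ ≤ Real.log (nm p.1) := Real.log_le_log (by linarith) h4
      have hD2 : Real.log (nm p.1) ≤ Real.log 2 + Real.log a₁ := by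
        rw [← hlog2a]; exact Real.log_le_log hp0 h5
      have hm1 : ∑ i, (m i : ℝ) ≤ Real.log (nm p.1) := by
        rw [hlogD]; exact Finset.sum_le_sum fun i _ => (hx i).2.1
      have hm2 : Real.log (nm p.1) ≤ ∑ i, (m i : ℝ) + n := by
        rw [hlogD]
        calc ∑ i, Real.log (nm (x i)) ≤ ∑ i, ((m i : ℝ) + 1) :=
              Finset.sum_le_sum fun i _ => (hx i).2.2.le
          _ = _ := by
              rw [Finset.sum_add_distrib, Finset.sum_const, Finset.card_univ, Fintype.card_fin,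
                nsmul_eq_mul, mul_one]
      have hl21 : Real.log 2 ≤ 1 := by
        have := Real.log_two_lt_d9
        linarith
      have hchild : List.Forall₂ (Ch r) ps' ps := by
        refine forall₂_ofFn ps g fun i => ⟨rfl, rfl, ?_, ?_, ?_⟩
        · intro hu
          show vk s b i = .one
          unfold vk
          have hu' : (s i).u = .one := hu
          rw [if_neg (by rw [hu']; simp), hu']
        · rw [hgz i]
          exact Real.log_nonneg (hY i).1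
        · rw [hgz i]
          have := hup i
          have := hm0 i
          have : 0 ≤ (N : ℝ) * (2 * R + 2) := by positivity
          rw [hr]
          linarith
      have hlin : |Ls ps - Ls ps' - Real.log a₁| ≤ r := by
        rw [hr, abs_le]
        have e1 : (N : ℝ) * (2 * R + 2) = N * (2 * R + 1) + N := by ring
        rw [e1]
        constructor <;> linarith
      have h1' := hyp ps' hchild hlin
      have e1 : WL h w P Λ ps' = WM h w Λ (cellP s (vk s b) Y t) := by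
        rw [hps', WL_ofFn]
        congr 1
        funext i
        exact mkc_pc P (ps.get i) (vk s b i) (hY0 i) (t i)
      rw [← e1]
      refine h1'.trans (le_of_eq ?_)
      have e2 : cst ps' ps = ∏ i, (1 + |t i - (s i).t|) := by
        rw [hps', cst_ofFn]
        rfl
      rw [e2, Real.finsetProd_rpow _ _ fun i _ => by positivity])
  rw [hseq]
  refine key.trans ?_
  rw [Fintype.card_fin]
  have hlog2X : Real.log (2 * X) = Real.log 2 + Real.log X :=
    Real.log_mul two_ne_zero hX0.ne'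
  have hlX : 0 ≤ Real.log X := Real.log_nonneg hX1
  have h1 : (C₁ * (Real.log (2 * X) + 1)) ^ n ≤ C₁ ^ N * (C₃ * X ^ (ε / 2)) := by
    have h3 : 1 ≤ C₁ * (Real.log (2 * X) + 1) :=
      one_le_mul_of_one_le_of_one_le hC₁ (by rw [hlog2X]; linarith)
    calc (C₁ * (Real.log (2 * X) + 1)) ^ n ≤ (C₁ * (Real.log (2 * X) + 1)) ^ N :=
          pow_le_pow_right₀ h3 hlen
      _ = C₁ ^ N * (Real.log (2 * X) + 1) ^ N := by rw [mul_pow]
      _ = C₁ ^ N * (Real.log X + c₀) ^ N := by rw [hlog2X, hc₀]; congr 2; ring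
      _ ≤ _ := mul_le_mul_of_nonneg_left (hlog X hX1) (by positivity)
  have h5 : 0 ≤ D * (D * Bd) := by positivity
  refine (mul_le_mul_of_nonneg_right h1 h5).trans (le_of_eq ?_)
  rw [hD]
  have e : X ^ ε = X ^ (ε / 2) * X ^ (ε / 4) * X ^ (ε / 4) := by
    rw [← Real.rpow_add hX0, ← Real.rpow_add hX0]; congr 1; ring
  rw [e]
  ring

/-- the weight of the remaining pieces -/
def wR (Q : Eis → Prop) (h : ℝ → ℝ) (rest : List Pc) (k : Eis) : ℝ := by
  classical exact if Q k then (rest.map fun p => ‖CS (pc h p) k‖ ^ 2).prod else 0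

lemma prod_sq_nonneg (h : ℝ → ℝ) (rest : List Pc) (k : Eis) :
    0 ≤ (rest.map fun p => ‖CS (pc h p) k‖ ^ 2).prod := by
  refine List.prod_nonneg fun x hx => ?_
  obtain ⟨p, _, rfl⟩ := List.mem_map.1 hx
  positivity

lemma wR_nonneg (Q : Eis → Prop) (h : ℝ → ℝ) (rest : List Pc) (k : Eis) : 0 ≤ wR Q h rest k := by
  unfold wR
  split_ifs
  · exact prod_sq_nonneg h rest k
  · exact le_rfl

lemma WL_wR (Q : Eis → Prop) (h : ℝ → ℝ) (rest : List Pc) (P : DPar) (l : ℝ) (ps : List Pq) :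
    WL h (wR Q h rest) P (Real.exp l) ps = RQ Q h l (ps.map (Pq.pc P) ++ rest) := by
  classical
  unfold WL RQ
  rw [Finset.sum_filter]
  refine Finset.sum_congr rfl fun k _ => ?_
  unfold wR
  rw [List.map_append, List.prod_append, List.map_map]
  split_ifs
  · rw [mul_comm]; rfl
  · rw [zero_mul]

/-- **joint moments, `k = D² d m₀`** -/
theorem joint_RQ {h : ℝ → ℝ} {c : ℝ} (hpu : PU h c) (N : ℕ) {ε : ℝ} (hε : 0 < ε) {B₀ : ℝ}
    (hB₀ : 0 ≤ B₀) {M : ℝ} (hM : 0 ≤ M) : ∃ C r : ℝ, 1 ≤ C ∧ 0 ≤ r ∧ ∀ X : ℝ, 3 ≤ X →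
    ∀ (P : DPar), (∀ k : Kd, IsChar (chK P k)) →
    ∀ (Q : Eis → Prop) (rest : List Pc) (κ a₁ : ℝ) (m₀ : Eis), m₀ ≠ 0 → 1 ≤ a₁ → a₁ ≤ X →
    Real.exp κ * (2 * a₁) ^ 2 * nm m₀ ≤ X ^ B₀ →
    ∀ ps : List Pq, ps.length ≤ N →
    ∀ 𝒟 : Finset Eis, (∀ D ∈ 𝒟, IsPrim D ∧ a₁ ≤ nm D ∧ (nm D : ℝ) ≤ 2 * a₁) →
    ∀ Bd : ℝ, 0 ≤ Bd →
    (∀ ps' : List Pq, List.Forall₂ (Ch r) ps' ps →
      |Ls ps - Ls ps' - Real.log a₁| ≤ r →
      RQ Q h (κ + 2 * Real.log (2 * a₁) + Real.log (nm m₀)) (ps'.map (Pq.pc P) ++ rest) ≤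
        Bd * cst ps' ps ^ M) →
    ∑ D ∈ 𝒟, ∑ d ∈ bl (Real.exp κ), wR Q h rest (D ^ 2 * d * m₀) *
      ‖CS (CM106.sub (alL h (ps.map (Pq.pc P))) D) (D ^ 2 * d * m₀)‖ ^ 2 ≤ C * X ^ ε * Bd := by
  classical
  obtain ⟨C, r, hC, hr, H⟩ := joint_list hpu N hε hB₀ hM
  refine ⟨C, r, hC, hr, ?_⟩
  intro X hX P hP Q rest κ a₁ m₀ hm₀ ha₁ ha₁X hΛX ps hlen 𝒟 h𝒟 Bd hBd hyp
  have ha0 : 0 < a₁ := by linarith
  have hm1 : (0 : ℝ) < nm m₀ := by exact_mod_cast nm_pos.2 hm₀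
  set l : ℝ := κ + 2 * Real.log (2 * a₁) + Real.log (nm m₀) with hl
  have hel : Real.exp l = Real.exp κ * (2 * a₁) ^ 2 * nm m₀ := by
    rw [hl, Real.exp_add, Real.exp_add, Real.exp_log hm1, two_mul (Real.log (2 * a₁)),
      Real.exp_add, Real.exp_log (by positivity)]
    ring
  set J : Finset (Eis × Eis) :=
    (𝒟 ×ˢ bl (Real.exp κ)).image (fun p => (p.1, p.1 ^ 2 * p.2 * m₀)) with hJ
  have h1 := H X hX P hP (wR Q h rest) (wR_nonneg Q h rest) (Real.exp l) a₁ (Real.exp_pos _).le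
    (hel ▸ hΛX) ha₁ ha₁X ps hlen J ?_ Bd hBd ?_
  · refine le_trans (le_of_eq ?_) h1
    rw [hJ, Finset.sum_image, Finset.sum_product]
    rintro ⟨D, d⟩ hp ⟨D', d'⟩ hp' he
    rw [Finset.mem_coe, Finset.mem_product] at hp hp'
    simp only [Prod.mk.injEq] at he
    obtain ⟨he1, he2⟩ := he
    subst he1
    have hD0 : D ^ 2 ≠ 0 := pow_ne_zero 2 (h𝒟 D hp.1).1.ne_zero
    have h2 : D ^ 2 * d = D ^ 2 * d' := mul_right_cancel₀ hm₀ he2
    rw [mul_left_cancel₀ hD0 h2]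
  · intro p hp
    rw [hJ, Finset.mem_image] at hp
    obtain ⟨⟨D, d⟩, hq, rfl⟩ := hp
    rw [Finset.mem_product] at hq
    obtain ⟨hD1, hD2, hD3⟩ := h𝒟 D hq.1
    have hd := (mem_bl (Real.exp_pos κ).le).1 hq.2
    refine ⟨hD1, ⟨D * d * m₀, by ring⟩, ?_, hD2, hD3⟩
    rw [mem_bl (Real.exp_pos _).le]
    refine ⟨mul_ne_zero (mul_ne_zero (pow_ne_zero 2 hD1.ne_zero) hd.1) hm₀, ?_⟩
    rw [hel]
    have e1 : (nm (D ^ 2 * d * m₀) : ℝ) = (nm D : ℝ) ^ 2 * nm d * nm m₀ := by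
      rw [nm_mul, nm_mul, pow_two, nm_mul]
      push_cast
      ring
    show (nm (D ^ 2 * d * m₀) : ℝ) ≤ _
    rw [e1]
    have h3 : (nm D : ℝ) ^ 2 ≤ (2 * a₁) ^ 2 := pow_le_pow_left₀ (Nat.cast_nonneg _) hD3 2
    have h4 : (0 : ℝ) ≤ nm d := Nat.cast_nonneg _
    calc (nm D : ℝ) ^ 2 * nm d * nm m₀ ≤ (2 * a₁) ^ 2 * Real.exp κ * nm m₀ := by
          refine mul_le_mul_of_nonneg_right (mul_le_mul h3 hd.2 h4 (by positivity)) hm1.le
      _ = _ := by ring
  · intro ps' hch hls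
    rw [WL_wR]
    exact hyp ps' hch hls

end Crest.Agent.R017.E4J792
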