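import Crest.Agent.R017.E4Xf_372
import Crest.Agent.R017.E4JB_858

/-!
# Row 17, R8 / E5, exceptional class: `JPUX ⟹ JBUX` (helper372)

helper858's `E4JB` for the double difference, many scales.

* `JPUX` : `JBUX` at a fixed prefix, a fixed `bo3` and a fixed label
* `jbux_of_jpux`
-/

set_option autoImplicit false

noncomputable section

open Finset Complex Filter
open scoped ComplexConjugate ContDiff

namespace Crest.Agent.R017.E4Df372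

open Crest.Agent.R012 Crest.Agent.R012.Eis
open Crest.Agent.R012.Mob705 hiding pb mem_pb
open Crest.Agent.R012.LS2 (S mem_S)
open Crest.Agent.R017.Sx545 (Sm)
open Crest.Agent.R017.CM106 (CS FS)
open Crest.Agent.R017.C70 (OKJ)
open Crest.Agent.R017.E4352 (PrI rd Dat4 SSm)
open Crest.Agent.R017.E5P571 (Gd mem_Gd)
open Crest.Agent.R017.E5B71
open Crest.Agent.R017.B770 (DPar)
open Crest.Agent.R017.Prov71
open Crest.Agent.R017.FE47 (SM)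
open Crest.Agent.R017.ExP960 hiding alX
open Crest.Agent.R017.E4D164 hiding E4L
open Crest.Agent.R017.E5L770
open Crest.Agent.R017.E4J352 (Tm JB rngD rngF gx)
open Crest.Agent.R017.E4ap783 (TG7 PG mtr E4Ly MpY)
open Crest.Agent.R017.E4X266 (rngDC rngFC)
open Crest.Agent.R017.E4U164
open Crest.Agent.R017.Str699 (b3 nm_b3_le b3_prim o_spec)
open Crest.Agent.R017.E4RH858 (JP0b JP0s JP0w JP0s_of_w JB_of_JP0s kl kl_prim kl_dvd rad3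
  rad3_prim nm_rad3_le card_dvs4 be1 be2 gd be1_prim be2_prim gd_prim be1_dvd_self be2_dvd gd_dvd
  be_mulS)
open Crest.Agent.R012.Div277 (dvs mem_dvs)

variable {Λ : Type*}

/-- **joint block hypothesis at list level, at a fixed prefix** -/
def JPUX (π : Λ → DPar) (h : ℝ → ℝ) (θ A d β μ e0 r : ℝ) (Bf : ℕ → ℝ → ℝ → ℝ → ℝ)
    (Jf : ℝ → ℝ → ℝ → Finset (Eis × Eis)) : Prop :=
  ∀ ε : ℝ, 0 < ε → ∃ ε' : ℝ, 0 < ε' ∧ ε' ≤ ε ∧ ∃ δ : ℝ, 0 < δ ∧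
    ∀ (lam : Λ × Eis) (N : ℕ) (B : ℝ)
    (T : Finset ((Eis → ℂ) × ℤ)), ¬ (π lam.1).CaseD →
    (∀ t ∈ T, TG7 (π lam.1).n₃ 0 t) →
    ∃ A' : ℝ, 0 ≤ A' ∧ ∃ δ' : ℝ, 0 < δ' ∧ ∃ X₀ : ℝ, 1 < X₀ ∧ ∀ X : ℝ, X₀ ≤ X →
    ∀ (a : BdX × ℕ) (ps : List Pq) (q : (Option IX5 → ℝ) × (Kd → ℝ)),
      FrLX A d β δ δ' B X N a ps q → a.1.ok → lam.2 ∈ SM (π lam.1).n → a.1.okP (π lam.1) →
    ∀ x : Dt, x.OK (π lam.1) (Bf a.2) e0 r ε' X a.1.toBd → XLowX d X q x →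
      (x.I Jf (bl a)).Nonempty →
    ∀ (j : Fin 2) (h₁ : FS (b1 (π lam.1) h lam.2 ps))
      (h₂ : FS (b2X (π lam.1) h lam.2 a.1 ps j)),
    (1 ≤ X ^ ε' * Real.exp a.1.l * Real.exp (-hE (π lam.1) a ps x) →
      JP0w (π lam.1).n₃ (fN (π lam.1).n₃ (x.E a.1.toBd)) (fun β => (nm (be1 x.e₀ β) : ℝ)) bo3
        (soL x (fN (π lam.1).n₃ (x.E a.1.toBd))) lD
        (vE π h lam Jf a x) (wE π h lam Jf a ps x j h₁ h₂) (fun _ => 1)
        (rngDC cD (fun _ _ _ _ _ => False) lD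
          (X ^ ε' * Real.exp a.1.l * Real.exp (-hE (π lam.1) a ps x)))
        (X ^ (T5 θ (prQ (dn q.1, q.2)) - μ + ε) / (nrm x * Real.exp (a.1.l / 3)))) ∧
    ∀ s : ℝ, 0 ≤ s → s < hE (π lam.1) a ps x →
    ∃ (sw : Eis → Eis → Eis → Eis → Eis → Prop) (T₀ : ℝ), 0 ≤ T₀ ∧
      (∀ D0 D1 B R Z : Eis, sw D0 D1 B R Z → (nm D1 : ℝ) * nm (rd Z) ≤ 2 * T₀) ∧
      JP0w (π lam.1).n₃ (fN (π lam.1).n₃ (x.E a.1.toBd)) (fun β => (nm (be1 x.e₀ β) : ℝ)) bo3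
        (soL x (fN (π lam.1).n₃ (x.E a.1.toBd))) lD
        (vE π h lam Jf a x) (wE π h lam Jf a ps x j h₁ h₂) (fun _ => 1)
        (rngDC cD sw lD (X ^ ε' * Real.exp a.1.l * Real.exp (-s)))
        (X ^ (T5 θ (prQ (dn q.1, q.2)) - μ + ε) / (nrm x * Real.exp (a.1.l / 3))) ∧
      ∀ t ∈ T, ∀ ξ : ℝ,
        JP0w (π lam.1).n₃ (fN (π lam.1).n₃ (x.E a.1.toBd)) (fun β => (nm (be1 x.e₀ β) : ℝ)) bo3
          (soL x (fN (π lam.1).n₃ (x.E a.1.toBd))) lD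
          (vE π h lam Jf a x) (wE π h lam Jf a ps x j h₁ h₂) (gx t.1 t.2 ξ)
          (rngFC cD sw lD
            (X ^ ε' * (U0 (π lam.1) (bl a) ps x / (Real.exp a.1.l * Real.exp (-s)))))
          ((1 + |ξ|) ^ A' *
            (X ^ (T5 θ (prQ (dn q.1, q.2)) - μ + ε) / (nrm x * Real.exp (a.1.l / 3))))

lemma FrLX.mono {A d β δ δ' δ₁ δ₁' B X : ℝ} {N : ℕ} {a : BdX × ℕ} {ps : List Pq}
    {q : (Option IX5 → ℝ) × (Kd → ℝ)} (h : FrLX A d β δ δ' B X N a ps q) (hX : 1 ≤ X)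
    (h1 : δ ≤ δ₁) (h2 : δ' ≤ δ₁') : FrLX A d β δ₁ δ₁' B X N a ps q :=
  { h with
    lum := fun p hp => (h.lum p hp).imp_right fun h3 => h3.trans h1
    win := h.win.mono hX h1 le_rfl le_rfl h2
    mass := fun t => (h.mass t).trans h1
    good := XG702.Good_mono hX h.good h2 }

/-- **`JPUX ⟹ JBUX`** -/
theorem jbux_of_jpux {π : Λ → DPar} {h : ℝ → ℝ} (hP : ∀ lam, (π lam).OK) {θ A d β μ e0 r : ℝ}
    {Bf : ℕ → ℝ → ℝ → ℝ → ℝ} {Jf : ℝ → ℝ → ℝ → Finset (Eis × Eis)}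
    (hJf : ∀ l N z, OKJ (Jf l N z)) (HS : SzUX π h A d β e0 r Bf Jf)
    (HJ : JPUX π h θ A d β μ e0 r Bf Jf) : JBUX π h θ A d β μ e0 r Bf Jf := by
  intro ε hε
  set ε₀ : ℝ := min (ε / 2) 1 with hε₀
  have hε₀p : 0 < ε₀ := lt_min (by positivity) one_pos
  obtain ⟨ε', hε', hε'0, δ, hδ, HJ⟩ := HJ ε₀ hε₀p
  have hε'1 : ε' ≤ 1 := hε'0.trans (min_le_right _ _)
  have hε'2 : ε' ≤ ε := hε'0.trans ((min_le_left _ _).trans (by linarith))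
  refine ⟨ε', hε', hε'2, min δ (1 / 2), lt_min hδ (by norm_num), fun lam N B T hD hT => ?_⟩
  obtain ⟨A', hA', δ', hδ', X₁, hX₁, HJ⟩ := HJ lam N B T hD hT
  obtain ⟨A0, C0, X₂, hA0, -, hX₂, HS⟩ := HS lam N B 1 one_pos
  have hA0p : 0 < A0 := by linarith
  obtain ⟨C₁, hC₁, HC⟩ := JB_of_JP0s (ε := ε / (96 * A0)) (by positivity)
  obtain ⟨C₂, hC₂, HC₂⟩ := card_dvs4 (ε := ε / (96 * A0)) (by positivity)
  set C : ℝ := C₁ * C₂ with hCd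
  have hC : 1 ≤ C := by nlinarith
  obtain ⟨X₃, hX₃⟩ := (((tendsto_rpow_atTop (show 0 < ε / 4 by positivity)).eventually_ge_atTop C).and
    (eventually_ge_atTop 1)).exists_forall_of_atTop
  refine ⟨A', hA', min δ' 1, lt_min hδ' one_pos, max (max X₁ X₂) X₃,
    lt_of_lt_of_le hX₁ ((le_max_left _ _).trans (le_max_left _ _)), ?_⟩
  intro X hX a ps q hF hok hl2 hokP x hx hxl hne j h₁ h₂
  have hX1 : X₁ ≤ X := ((le_max_left _ _).trans (le_max_left _ _)).trans hX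
  have hX2 : X₂ ≤ X := ((le_max_right _ _).trans (le_max_left _ _)).trans hX
  have hX3 : X₃ ≤ X := (le_max_right _ _).trans hX
  have hXg1 : 1 < X := hX₁.trans_le hX1
  have hX0 : 0 < X := by linarith
  obtain ⟨hCX, -⟩ := hX₃ X hX3
  obtain ⟨HD0, HJs⟩ := HJ X hX1 a ps q
    (hF.mono hXg1.le (min_le_left _ _) (min_le_left _ _)) hok hl2 hokP x hx hxl hne j h₁ h₂
  obtain ⟨SF, SD⟩ := HS X hX2 a ps q (min δ (1 / 2)) (min δ' 1) (min_le_right _ _)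
    (min_le_right _ _) hF hok hl2 hokP
  have SD := SD x (hx.mono hXg1.le hε'1) hne j h₁ h₂
  set Y : ℝ := X ^ A0 with hY
  have hY1 : 1 ≤ Y := Real.one_le_rpow hXg1.le hA0p.le
  have hY0 : 0 < Y := by linarith
  have hYp : ∀ {m n : ℕ}, m ≤ n → Y ^ m ≤ Y ^ n := fun h => pow_le_pow_right₀ hY1 h
  have hY12 : Y ≤ Y ^ 12 := by simpa using hYp (show 1 ≤ 12 by norm_num)
  -- the primary elements
  have hn₃ : (π lam.1).n₃ ≠ 0 := (hP lam.1).χ₃.q0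
  have hEp : IsPrim (x.E a.1.toBd) := hokP.1.prim.mul (T3_prim x.β hx.β)
  have hEY : (nm (x.E a.1.toBd) : ℝ) ≤ Y ^ 2 := nm_E_le hx SF.eN SF.y3
  have hf0 : fN (π lam.1).n₃ (x.E a.1.toBd) ≠ 0 := (fM_spec hn₃ hEp).2.1.ne_zero
  have hfY4 : (nm (fN (π lam.1).n₃ (x.E a.1.toBd)) : ℝ) ≤ Y ^ 4 := by
    refine (nm_fN_le' hn₃ hEp).trans ?_
    calc (nm (x.E a.1.toBd) : ℝ) ^ 2 ≤ (Y ^ 2) ^ 2 := by gcongr
      _ = Y ^ 4 := by ring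
  have hfY : (nm (fN (π lam.1).n₃ (x.E a.1.toBd)) : ℝ) ≤ Y ^ 12 :=
    hfY4.trans (hYp (by norm_num))
  -- the label
  obtain ⟨g1, g2, g3⟩ := (mem_Gd hok.1.2.2).mp hx.g
  obtain ⟨t1, t2, t3⟩ := (mem_Gd (tS_prim hEp).ne_zero).mp hx.t
  obtain ⟨e3, e1, e2⟩ := (mem_S (Real.exp_nonneg _)).mp hx.e₀
  have hNp : IsPrim (x.g * x.e₀ * x.t) := (g1.prim.mul e1).mul t1.prim
  have hN1 : (nm (x.g * x.e₀ * x.t) : ℝ) ≤ Y ^ 4 := by
    rw [nm_mul, nm_mul]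
    push_cast
    have a1 : (nm x.g : ℝ) ≤ Y := by
      refine le_trans ?_ SF.d₃
      exact_mod_cast Div277.nm_le_of_dvd hok.1.2.2 g3
    have a2 : (nm x.e₀ : ℝ) ≤ Y := e3.trans SF.eY
    have a3 : (nm x.t : ℝ) ≤ Y ^ 2 := by
      refine le_trans ?_ hEY
      exact_mod_cast (Div277.nm_le_of_dvd (tS_prim hEp).ne_zero t3).trans
        (Div277.nm_le_of_dvd hEp.ne_zero ((dvd_pow_self _ (by norm_num)).trans (tS_dvd hEp)))
    calc (nm x.g : ℝ) * nm x.e₀ * nm x.t ≤ Y * Y * Y ^ 2 := by gcongr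
      _ = Y ^ 4 := by ring
  have hN2 : (nm (rad3 (x.g * x.e₀ * x.t)) : ℝ) ≤ Y ^ 12 := by
    calc (nm (rad3 (x.g * x.e₀ * x.t)) : ℝ) ≤ (nm (x.g * x.e₀ * x.t) : ℝ) ^ 3 := by
          exact_mod_cast nm_rad3_le hNp
      _ ≤ (Y ^ 4) ^ 3 := by gcongr
      _ = Y ^ 12 := by ring
  have hdat := dat4_mono' SD.dat hY12
  -- the fixed variable
  have hbo : ∀ t : Tm (x.O π lam Jf (bl a)), IsPrim (be1 x.e₀ (bo3 t)) ∧
      (nm (be1 x.e₀ (bo3 t)) : ℝ) ≤ Y ^ 12 := by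
    intro t
    obtain ⟨o1, o2, -⟩ := o_spec (a := bl a) hJf hok.1 hokP hx t.o
    refine ⟨be1_prim _ _, ?_⟩
    have h0 : nm (be1 x.e₀ (bo3 t)) ≤ nm (bo3 t) :=
      Div277.nm_le_of_dvd (b3_prim _).ne_zero (be1_dvd_self (b3_prim _))
    have h1 : (nm (be1 x.e₀ (bo3 t)) : ℝ) ≤ nm (t.o.1.1 * t.o.1.2) := by
      exact_mod_cast h0.trans (nm_b3_le (o1.mul o2))
    exact h1.trans (hdat.lam1 t.o).2
  have hinj : ∀ t t' : Tm (x.O π lam Jf (bl a)), be1 x.e₀ (bo3 t) = be1 x.e₀ (bo3 t') →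
      be2 x.e₀ (bo3 t) = be2 x.e₀ (bo3 t') → bo3 t = bo3 t' := by
    intro t t' h1 h2
    rw [← bo3_mul x.e₀ t, ← bo3_mul x.e₀ t', h1, h2]
  set f : Eis := fN (π lam.1).n₃ (x.E a.1.toBd) with hf
  have hfp : IsPrim f := (fM_spec hn₃ hEp).2.1.prim
  have he0Y : (nm x.e₀ : ℝ) ≤ Y ^ 12 := (e3.trans SF.eY).trans hY12
  set Tl : Finset (Eis × Eis × Eis × Eis) := dvs x.e₀ ×ˢ dvs (rad3 (x.g * x.e₀ * x.t)) ×ˢ
    dvs f ×ˢ dvs f with hTl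
  have hso : ∀ t : Tm (x.O π lam Jf (bl a)), (be2 x.e₀ (bo3 t), soL x f t) ∈ Tl := fun t => by
    rw [hTl, Finset.mem_product, Finset.mem_product, Finset.mem_product]
    exact ⟨(mem_dvs e1.ne_zero).mpr ⟨be2_prim _ _, be2_dvd e1⟩,
      (mem_dvs (rad3_prim _).ne_zero).mpr ⟨kl_prim _ _, kl_dvd _ _⟩,
      (mem_dvs hf0).mpr ⟨gd_prim _ _, gd_dvd hfp⟩,
      (mem_dvs hf0).mpr ⟨gd_prim _ _, gd_dvd hfp⟩⟩
  have hTc : (Tl.card : ℝ) ≤ C₂ * (Y ^ 12) ^ (ε / (96 * A0)) :=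
    HC₂ _ _ _ _ (Y ^ 12) hdat.X1 e1.ne_zero (rad3_prim _).ne_zero hf0 hf0 he0Y hN2 hfY hfY
  -- the number
  have hCY : C₁ * (Y ^ 12) ^ (ε / (96 * A0)) * Tl.card ≤ X ^ (ε / 2) := by
    have h1 : (Y ^ 12) ^ (ε / (96 * A0)) = X ^ (ε / 8) := by
      rw [hY, ← Real.rpow_natCast, ← Real.rpow_mul hX0.le, ← Real.rpow_mul hX0.le]
      congr 1
      push_cast
      field_simp
      ring
    rw [h1] at hTc ⊢
    have h2 := Real.rpow_nonneg hX0.le (ε / 8)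
    have h3 := Real.rpow_nonneg hX0.le (ε / 4)
    calc C₁ * X ^ (ε / 8) * Tl.card ≤ C₁ * X ^ (ε / 8) * (C₂ * X ^ (ε / 8)) := by gcongr
      _ = C * (X ^ (ε / 8) * X ^ (ε / 8)) := by rw [hCd]; ring
      _ = C * X ^ (ε / 4) := by rw [← Real.rpow_add hX0]; ring_nf
      _ ≤ X ^ (ε / 4) * X ^ (ε / 4) := by gcongr
      _ = X ^ (ε / 2) := by rw [← Real.rpow_add hX0]; ring_nf
  have hDn : 0 < nrm x * Real.exp (a.1.l / 3) := by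
    have h1 : (0 : ℝ) < nm (∏ i, x.β i) := by
      exact_mod_cast nm_pos.mpr (T3_prim x.β hx.β).ne_zero
    have h2 : (0 : ℝ) < nm x.e₀ := by exact_mod_cast nm_pos.mpr e1.ne_zero
    unfold nrm
    positivity
  set Z : ℝ := T5 θ (prQ (dn q.1, q.2)) - μ with hZ
  have hS : ∀ b : ℝ, 0 ≤ b → C₁ * (Y ^ 12) ^ (ε / (96 * A0)) * (Tl.card *
      (b * (X ^ (Z + ε₀) / (nrm x * Real.exp (a.1.l / 3))))) ≤
      b * (X ^ (Z + ε) / (nrm x * Real.exp (a.1.l / 3))) := by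
    intro b hb
    have h1 : 0 ≤ X ^ (Z + ε₀) := Real.rpow_nonneg hX0.le _
    have h2 : C₁ * (Y ^ 12) ^ (ε / (96 * A0)) * Tl.card *
        X ^ (Z + ε₀) ≤ X ^ (Z + ε) := by
      calc C₁ * (Y ^ 12) ^ (ε / (96 * A0)) * Tl.card * X ^ (Z + ε₀)
          ≤ X ^ (ε / 2) * X ^ (Z + ε₀) :=
            mul_le_mul_of_nonneg_right hCY h1
        _ = X ^ (ε / 2 + (Z + ε₀)) := (Real.rpow_add hX0 _ _).symm
        _ ≤ X ^ (Z + ε) := by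
          refine Real.rpow_le_rpow_of_exponent_le hXg1.le ?_
          have := min_le_left (ε / 2) 1
          rw [← hε₀] at this
          linarith
    calc C₁ * (Y ^ 12) ^ (ε / (96 * A0)) * (Tl.card *
        (b * (X ^ (Z + ε₀) / (nrm x * Real.exp (a.1.l / 3)))))
        = b * (C₁ * (Y ^ 12) ^ (ε / (96 * A0)) * Tl.card *
          X ^ (Z + ε₀) / (nrm x * Real.exp (a.1.l / 3))) := by ring
      _ ≤ _ := by gcongr
  have hS0 : 0 ≤ X ^ (Z + ε₀) / (nrm x * Real.exp (a.1.l / 3)) := by positivity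
  have one : ∀ {rng : Tm (x.O π lam Jf (bl a)) → Prop},
      JP0w (π lam.1).n₃ f (fun β => (nm (be1 x.e₀ β) : ℝ)) bo3 (soL x f) lD
        (vE π h lam Jf a x) (wE π h lam Jf a ps x j h₁ h₂)
        (fun _ => 1) rng (X ^ (Z + ε₀) / (nrm x * Real.exp (a.1.l / 3))) →
      JB (π lam.1).n₃ 1 lD (vE π h lam Jf a x) (wE π h lam Jf a ps x j h₁ h₂) (fun _ => 1) rng
        (X ^ (Z + ε) / (nrm x * Real.exp (a.1.l / 3))) := by
    intro rng HD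
    have h1 := HC (π lam.1).n₃ f (x.O π lam Jf (bl a)) inferInstance
      (fun t => be1 x.e₀ (bo3 t)) _ (fun t => (be2 x.e₀ (bo3 t), soL x f t)) lD
      (vE π h lam Jf a x) (wE π h lam Jf a ps x j h₁ h₂) (fun _ => 1) _
      Tl (Y ^ 12) _ hdat hf0 hfY hS0 (fun t _ _ => hbo t) (fun t _ _ => hso t)
      (JP0s_of_w hS0 hinj HD)
    refine JBm h1 (fun _ hr => hr) ?_
    have h2 := hS 1 zero_le_one
    rwa [one_mul, one_mul] at h2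
  refine ⟨fun h => one (HD0 h), fun s hs0 hs1 => ?_⟩
  obtain ⟨sw, T₀, hT₀, hsw, HD, HG⟩ := HJs s hs0 hs1
  refine ⟨sw, T₀, hT₀, hsw, one HD, fun t ht ξ => ?_⟩
  have hS1 : 0 ≤ (1 + |ξ|) ^ A' * (X ^ (Z + ε₀) / (nrm x * Real.exp (a.1.l / 3))) := by
    have := abs_nonneg ξ
    positivity
  have h1 := HC (π lam.1).n₃ f (x.O π lam Jf (bl a)) inferInstance
    (fun t => be1 x.e₀ (bo3 t)) _ (fun t => (be2 x.e₀ (bo3 t), soL x f t)) lD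
    (vE π h lam Jf a x) (wE π h lam Jf a ps x j h₁ h₂) (gx t.1 t.2 ξ) _
    Tl (Y ^ 12) _ hdat hf0 hfY hS1 (fun t _ _ => hbo t) (fun t _ _ => hso t)
    (JP0s_of_w hS1 hinj (HG t ht ξ))
  exact JBm h1 (fun _ hr => hr) (hS ((1 + |ξ|) ^ A') (by positivity))

end Crest.Agent.R017.E4Df372
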