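import Crest.Agent.R017.Leg4_381
import Crest.Agent.R017.Rough3_381
import Crest.Agent.R017.HP6_842

/-!
# Row 17, E4 / E5: joint moments of sub-sequences (helper792; (Y2) of helper54)

* `CS_sub_cv` : at a frequency divisible by `D`, `CS (sub (cv f) D)` is the sum over the
  factorizations of `D`
* `joint_fam` : family form, `joint_list` : list form.
  For every finite set `J` of pairs `(D, k)` with `D ∣ k`, and every weight `w ≥ 0` of the
  frequencies, `∑_{(D,k) ∈ J} w k ‖CS (sub α D) k‖²` is bounded by the moments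
  `∑_{k ∈ bl Λ} w k ∏ ‖CS (pc h p') k‖²` of the shortened lists (total shortening `log nm D`),
  WITHOUT the number of `D`
-/

set_option autoImplicit false
set_option linter.unusedSectionVars false
set_option linter.unusedVariables false

noncomputable section

open Complex
open scoped ComplexConjugate

namespace Crest.Agent.R017.E4J792

open Crest.Agent.R012 Crest.Agent.R012.Eis Crest.Agent.R012.LS2 Crest.Agent.R012.Gauss880
open Crest.Agent.R012.Div277 (tau dvs mem_dvs tau_le_rpow)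
open Crest.Agent.R012.PSer47 (IsChar)
open Crest.Agent.R017.CM106 Crest.Agent.R017.HP842 Crest.Agent.R017.FE47
open Crest.Agent.R017.End699 Crest.Agent.R017.XC858
open Crest.Agent.R017.HSep813 (gw norm_gw_le MF sep_list)
open Crest.Agent.R017.B770
open Crest.Agent.R017.Prov71
open Crest.Agent.R017.Rough381

variable {ι : Type} [Fintype ι] [DecidableEq ι]

/-! ### factorizations -/

/-- at a frequency divisible by `d`, `CS (sub (cv f) d)` is a sum over factorizations -/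
theorem CS_sub_cv {f : ι → Eis → ℂ} (hf : ∀ i, FS (f i)) {d : Eis} (hd : IsPrim d) {k : Eis}
    (hdk : d ∣ k) :
    CS (CM106.sub (cv f) d) k = ∑ x ∈ Tu ι d, CS (cv (fun i => CM106.sub (f i) (x i))) k := by
  classical
  have e1 : CS (CM106.sub (cv f) d) k =
      ∑' m : Eis, ∑ x ∈ Tu ι d, cv (fun i => CM106.sub (f i) (x i)) m * sy k m := by
    unfold CS
    refine tsum_congr fun m => ?_
    by_cases hm : IsPrim m
    · by_cases hc : IsCoprime k m
      · have hc' : IsCoprime d m := hc.of_isCoprime_of_dvd_left hdk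
        unfold CM106.sub
        rw [cv_mul f hd hm hc', Finset.sum_mul]
        rfl
      · rw [(syG.eq_zero k m hm).2 hc]
        simp
    · have h1 : CM106.sub (cv f) d m = 0 := by
        unfold CM106.sub
        refine cv_not_prim fun h => hm (h.of_mul_left hd)
      rw [h1, zero_mul]
      symm
      refine Finset.sum_eq_zero fun x _ => ?_
      rw [cv_not_prim hm, zero_mul]
  rw [e1, Summable.tsum_finsetSum]
  · rfl
  · intro x hx
    rw [mem_Tu] at hx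
    exact (FS_cv (f := fun i => CM106.sub (f i) (x i)) fun i => (hf i).sub (hx.1 i)).summable _

/-- `prin0 a` is invisible at the multiples of `a` -/
lemma CS_pc_sub {h : ℝ → ℝ} (P : Pc) {a k : Eis} (hak : a ∣ k) :
    CS (pc h (P.sub a)) k = CS (pc h (sh P a)) k := by
  unfold CS
  refine tsum_congr fun m => ?_
  by_cases hm : IsPrim m
  · by_cases hc : IsCoprime k m
    · rw [pc_sub_rough P (hc.of_isCoprime_of_dvd_left hak)]
    · rw [(syG.eq_zero k m hm).2 hc]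
      simp
  · have h1 : pc h (P.sub a) m = 0 := by unfold pc; rw [if_neg hm]
    have h2 : pc h (sh P a) m = 0 := by unfold pc; rw [if_neg hm]
    rw [h1, h2]

/-! ### the weighted moment -/

/-- weighted moment of a family -/
def WM (h : ℝ → ℝ) (w : Eis → ℝ) (Λ : ℝ) (s : ι → Pc) : ℝ :=
  ∑ k ∈ bl Λ, w k * ∏ i, ‖CS (pc h (s i)) k‖ ^ 2

lemma WM_nonneg (h : ℝ → ℝ) {w : Eis → ℝ} (hw : ∀ k, 0 ≤ w k) (Λ : ℝ) (s : ι → Pc) :
    0 ≤ WM h w Λ s :=
  Finset.sum_nonneg fun k _ => mul_nonneg (hw k) (Finset.prod_nonneg fun _ _ => by positivity)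

open Classical in
/-- the arithmetical coefficient -/
def phc (w : Eis → ℝ) (s : ι → Pc) (v : ι → UT) (k : Eis) (b : ι → Eis) : ℂ :=
  ((Real.sqrt (w k) : ℝ) : ℂ) *
    ∏ i, (if IsPrim (b i) then uv (v i) (b i) * (s i).ψ (b i) * sy k (b i) else 0)

lemma MF_phc {h : ℝ → ℝ} {R : ℝ} (hR : ∀ u, cx h u ≠ 0 → |u| ≤ R) (w : Eis → ℝ) (s : ι → Pc)
    (v : ι → UT) (k : Eis) {X : ℕ} {Y : ι → ℝ} (hY0 : ∀ i, 0 < Y i)
    (hY : ∀ i, Y i * Real.exp R ≤ X) (t : ι → ℝ) :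
    MF h (Fintype.piFinset fun _ : ι => primBall X) (phc w s v k) Y t =
      ((Real.sqrt (w k) : ℝ) : ℂ) * ∏ i, CS (pc h (cellP s v Y t i)) k := by
  classical
  have e1 : ∀ i, CS (pc h (cellP s v Y t i)) k =
      ∑ b ∈ primBall X, pc h (cellP s v Y t i) b * sy k b := by
    intro i
    unfold CS
    refine tsum_eq_sum fun b hb => ?_
    have : pc h (cellP s v Y t i) b = 0 := by
      by_contra h0
      exact hb (Rough381.Bd_pc hR (P := cellP s v Y t i) (hY0 i) (hY i) h0)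
    rw [this, zero_mul]
  rw [Finset.prod_congr rfl fun i _ => e1 i, Finset.prod_univ_sum, Finset.mul_sum]
  unfold MF phc
  refine Finset.sum_congr rfl fun b _ => ?_
  rw [mul_assoc, ← Finset.prod_mul_distrib]
  congr 1
  refine Finset.prod_congr rfl fun i _ => ?_
  unfold pc cellP
  by_cases h1 : IsPrim (b i)
  · rw [if_pos h1, if_pos h1]; ring
  · rw [if_neg h1, if_neg h1]; ring

lemma norm_MF_phc {h : ℝ → ℝ} {R : ℝ} (hR : ∀ u, cx h u ≠ 0 → |u| ≤ R) {w : Eis → ℝ}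
    (hw : ∀ k, 0 ≤ w k) (s : ι → Pc)
    (v : ι → UT) (k : Eis) {X : ℕ} {Y : ι → ℝ} (hY0 : ∀ i, 0 < Y i)
    (hY : ∀ i, Y i * Real.exp R ≤ X) (t : ι → ℝ) :
    ‖MF h (Fintype.piFinset fun _ : ι => primBall X) (phc w s v k) Y t‖ ^ 2 =
      w k * ∏ i, ‖CS (pc h (cellP s v Y t i)) k‖ ^ 2 := by
  rw [MF_phc hR w s v k hY0 hY t, norm_mul, mul_pow, norm_prod, Finset.prod_pow,
    Complex.norm_real, Real.norm_eq_abs, sq_abs, Real.sq_sqrt (hw k)]

/-- a sum over pairs `(k, x)` with `x i ∣ k` -/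
lemma merge_dvd {Λ : ℝ} (K : Finset (Eis × (ι → Eis)))
    (hK : ∀ p ∈ K, p.1 ∈ bl Λ ∧ p.1 ≠ 0 ∧ (∀ i, IsPrim (p.2 i)) ∧ ∀ i, p.2 i ∣ p.1)
    (F : Eis → ℝ) (hF : ∀ k, 0 ≤ F k) :
    ∑ p ∈ K, F p.1 ≤ ∑ k ∈ bl Λ, (tau k : ℝ) ^ Fintype.card ι * F k := by
  classical
  rw [← Finset.sum_fiberwise_of_maps_to (fun p hp => (hK p hp).1) (fun p => F p.1)]
  refine Finset.sum_le_sum fun k _ => ?_
  have e1 : ∀ p ∈ K.filter (fun p => p.1 = k), F p.1 = F k := by
    intro p hp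
    rw [(Finset.mem_filter.1 hp).2]
  rw [Finset.sum_congr rfl e1, Finset.sum_const, nsmul_eq_mul]
  refine mul_le_mul_of_nonneg_right ?_ (hF k)
  have h1 : (K.filter (fun p => p.1 = k)).card ≤ (Fintype.piFinset fun _ : ι => dvs k).card := by
    refine Finset.card_le_card_of_injOn (fun p => p.2) ?_ ?_
    · intro p hp
      have hp' := Finset.mem_filter.1 (Finset.mem_coe.1 hp)
      obtain ⟨_, h2, h3, h4⟩ := hK p hp'.1
      rw [Finset.mem_coe, Fintype.mem_piFinset]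
      intro i
      rw [← hp'.2]
      exact (mem_dvs h2).2 ⟨h3 i, h4 i⟩
    · intro p hp p' hp' hpp
      have hp1 := Finset.mem_filter.1 (Finset.mem_coe.1 hp)
      have hp2 := Finset.mem_filter.1 (Finset.mem_coe.1 hp')
      exact Prod.ext (hp1.2.trans hp2.2.symm) hpp
  have h2 : (Fintype.piFinset fun _ : ι => dvs k).card = tau k ^ Fintype.card ι := by
    rw [Fintype.card_piFinset, Finset.prod_const, Finset.card_univ]
    rfl
  rw [h2] at h1
  exact_mod_cast h1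

/-- **one cell**: separation of the lengths -/
theorem cell_CS {h : ℝ → ℝ} {c : ℝ} (hpu : PU h c) {R : ℝ} (hR0 : 0 ≤ R)
    (hR : ∀ u, cx h u ≠ 0 → |u| ≤ R) (M : ℝ) : ∃ C : ℝ, 0 ≤ C ∧
    ∀ (ι : Type) [Fintype ι] [DecidableEq ι] (s : ι → Pc), (∀ i, (s i).OK) →
    ∀ (w : Eis → ℝ), (∀ k, 0 ≤ w k) → ∀ Λ : ℝ, 0 ≤ Λ →
    ∀ (v : ι → UT) (n : ι → ℕ) (K : Finset (Eis × (ι → Eis))),
    (∀ p ∈ K, p.1 ∈ bl Λ ∧ p.1 ≠ 0 ∧ (∀ i, IsPrim (p.2 i)) ∧ (∀ i, p.2 i ∣ p.1) ∧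
      ∀ i, |Real.log (nm (p.2 i)) - n i| ≤ 1) →
    ∀ B D : ℝ, 0 ≤ B → 0 ≤ D →
    (∀ j ∈ bl Λ, (tau j : ℝ) ^ Fintype.card ι ≤ D) →
    (∀ Y t : ι → ℝ, (∀ i, 1 ≤ Y i ∧ |Real.log (Y i) - (Real.log (s i).Y - n i)| ≤ 2 * R + 1) →
      WM h w Λ (cellP s v Y t) ≤ B * ∏ i, (1 + |t i - (s i).t|) ^ M) →
    ∑ p ∈ K, w p.1 * ∏ i, ‖CS (pc h (cellP s v (fun i => (s i).Y / nm (p.2 i))
      (fun i => (s i).t) i)) p.1‖ ^ 2 ≤ C ^ Fintype.card ι * (D * B) := by
  classical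
  obtain ⟨C, hC, H⟩ := sep_list hpu hR0 hR (ρ := 1) zero_le_one M
  refine ⟨C, hC, ?_⟩
  intro ι _ _ s hs w hw Λ hΛ0 v n K hK B D hB hD hτ hyp
  -- a common support
  obtain ⟨X, hX⟩ : ∃ X : ℕ, ∀ i, (s i).Y * Real.exp (2 * R + 1) * Real.exp R ≤ X := by
    refine ⟨⌈∑ i, (s i).Y * Real.exp (2 * R + 1) * Real.exp R⌉₊, fun i => ?_⟩
    refine le_trans ?_ (Nat.le_ceil _)
    exact Finset.single_le_sum (f := fun i => (s i).Y * Real.exp (2 * R + 1) * Real.exp R)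
      (fun i _ => by have := (hs i).Y0; positivity) (Finset.mem_univ i)
  have h1R : (1 : ℝ) ≤ Real.exp (2 * R + 1) := Real.one_le_exp (by linarith)
  have hT : ∀ b ∈ Fintype.piFinset (fun _ : ι => primBall X), ∀ i, b i ≠ 0 := by
    intro b hb i
    rw [Fintype.mem_piFinset] at hb
    exact (mem_primBall.1 (hb i)).2.ne_zero
  have hYX : ∀ (Y : ι → ℝ), (∀ i, 0 < Y i ∧
      |Real.log (Y i) - (Real.log (s i).Y - n i)| ≤ 2 * R + 1) →
      ∀ i, Y i * Real.exp R ≤ X := by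
    intro Y hY i
    refine le_trans ?_ (hX i)
    refine mul_le_mul_of_nonneg_right ?_ (Real.exp_pos _).le
    obtain ⟨h1, h2⟩ := hY i
    have h3 := (abs_le.1 h2).2
    have h4 : (0 : ℝ) ≤ n i := Nat.cast_nonneg _
    calc Y i = Real.exp (Real.log (Y i)) := (Real.exp_log h1).symm
      _ ≤ Real.exp (Real.log (s i).Y + (2 * R + 1)) := Real.exp_le_exp.2 (by linarith)
      _ = (s i).Y * Real.exp (2 * R + 1) := by rw [Real.exp_add, Real.exp_log (hs i).Y0]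
  have key := H ι (Eis × (ι → Eis)) K (Fintype.piFinset fun _ : ι => primBall X) hT
    (fun p => phc w s v p.1) (fun p i => (s i).Y / nm (p.2 i))
    (fun i => Real.log (s i).Y - n i) (fun i => (s i).t) (D * B) (mul_nonneg hD hB)
    (by
      intro p hp i
      obtain ⟨_, _, h3, _, h6⟩ := hK p hp
      have h7 : (0 : ℝ) < nm (p.2 i) := by exact_mod_cast nm_pos.2 (h3 i).ne_zero
      show |Real.log ((s i).Y / nm (p.2 i)) - (Real.log (s i).Y - n i)| ≤ 1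
      rw [Real.log_div (hs i).Y0.ne' h7.ne']
      have h8 := h6 i
      have h9 : Real.log (s i).Y - Real.log (nm (p.2 i)) - (Real.log (s i).Y - n i) =
          -(Real.log (nm (p.2 i)) - n i) := by ring
      rw [h9, abs_neg]
      exact h8)
    (by
      intro m τ hm
      have hY : ∀ i, 0 < Real.exp (c * m i) ∧
          |Real.log (Real.exp (c * m i)) - (Real.log (s i).Y - n i)| ≤ 2 * R + 1 := by
        intro i
        refine ⟨Real.exp_pos _, ?_⟩
        rw [Real.log_exp]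
        exact hm i
      set s' : ι → Pc := cellP s v (fun i => Real.exp (c * m i)) (fun i => (s i).t + τ i)
        with hs'
      have e1 : ∀ p ∈ K, ‖MF h (Fintype.piFinset fun _ : ι => primBall X)
          (phc w s v p.1) (fun i => Real.exp (c * m i))
          (fun i => (s i).t + τ i)‖ ^ 2 = w p.1 * ∏ i, ‖CS (pc h (s' i)) p.1‖ ^ 2 := by
        intro p _
        rw [norm_MF_phc hR hw s v p.1 (fun i => (hY i).1) (hYX _ hY)]
      rw [Finset.sum_congr rfl e1]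
      have hFn : ∀ k, 0 ≤ w k * ∏ i, ‖CS (pc h (s' i)) k‖ ^ 2 := fun k =>
        mul_nonneg (hw k) (Finset.prod_nonneg fun _ _ => by positivity)
      refine (merge_dvd K (fun p hp => ⟨(hK p hp).1, (hK p hp).2.1, (hK p hp).2.2.1,
        (hK p hp).2.2.2.1⟩) (fun k => w k * ∏ i, ‖CS (pc h (s' i)) k‖ ^ 2) hFn).trans ?_
      have h7 : ∑ k ∈ bl Λ, (tau k : ℝ) ^ Fintype.card ι *
          (w k * ∏ i, ‖CS (pc h (s' i)) k‖ ^ 2) ≤ D * WM h w Λ s' := by
        unfold WM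
        rw [Finset.mul_sum]
        exact Finset.sum_le_sum fun k hk => mul_le_mul_of_nonneg_right (hτ k hk) (hFn k)
      refine h7.trans ?_
      have h8 := hyp (fun i => Real.exp (c * m i)) (fun i => (s i).t + τ i)
        (fun i => ⟨Real.one_le_exp (mul_nonneg hpu.cpos.le (Nat.cast_nonneg _)), (hY i).2⟩)
      have h9 : ∏ i, (1 + |(s i).t + τ i - (s i).t|) ^ M = ∏ i, (1 + |τ i|) ^ M := by
        refine Finset.prod_congr rfl fun i _ => ?_
        rw [add_sub_cancel_left]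
      rw [h9] at h8
      calc D * WM h w Λ s' ≤ D * (B * ∏ i, (1 + |τ i|) ^ M) := mul_le_mul_of_nonneg_left h8 hD
        _ = D * B * ∏ i, (1 + |τ i|) ^ M := by ring)
  refine le_trans (le_of_eq ?_) key
  refine Finset.sum_congr rfl fun p hp => ?_
  obtain ⟨_, _, h3, _, h6⟩ := hK p hp
  rw [norm_MF_phc hR hw s v p.1 ?_ ?_]
  · intro i
    have h7 : (0 : ℝ) < nm (p.2 i) := by exact_mod_cast nm_pos.2 (h3 i).ne_zero
    exact div_pos (hs i).Y0 h7
  · intro i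
    have h7 : (1 : ℝ) ≤ nm (p.2 i) := by exact_mod_cast nm_pos.2 (h3 i).ne_zero
    have hYi := (hs i).Y0
    refine le_trans ?_ (hX i)
    refine mul_le_mul_of_nonneg_right ?_ (Real.exp_pos _).le
    calc (s i).Y / nm (p.2 i) ≤ (s i).Y := div_le_self hYi.le h7
      _ = (s i).Y * 1 := (mul_one _).symm
      _ ≤ _ := mul_le_mul_of_nonneg_left h1R hYi.le

/-! ### the family form -/

lemma log_floor {x : Eis} (hx : IsPrim x) :
    ((⌊Real.log (nm x)⌋₊ : ℕ) : ℝ) ≤ Real.log (nm x) ∧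
      Real.log (nm x) < (⌊Real.log (nm x)⌋₊ : ℕ) + 1 := by
  have h7 : (1 : ℝ) ≤ nm x := by exact_mod_cast nm_pos.2 hx.ne_zero
  exact ⟨Nat.floor_le (Real.log_nonneg h7), Nat.lt_floor_add_one _⟩

/-- **joint moments, family form** -/
theorem joint_fam {h : ℝ → ℝ} {c : ℝ} (hpu : PU h c) {R : ℝ} (hR0 : 0 ≤ R)
    (hR : ∀ u, cx h u ≠ 0 → |u| ≤ R) (M : ℝ) : ∃ C : ℝ, 1 ≤ C ∧
    ∀ (ι : Type) [Fintype ι] [DecidableEq ι] (s : ι → Pc), (∀ i, (s i).OK) →
    ∀ (w : Eis → ℝ), (∀ k, 0 ≤ w k) → ∀ (Λ X : ℝ), 0 ≤ Λ → 1 ≤ X →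
    ∀ J : Finset (Eis × Eis), (∀ p ∈ J, IsPrim p.1 ∧ p.1 ∣ p.2 ∧ p.2 ∈ bl Λ ∧ p.2 ≠ 0 ∧
      (nm p.1 : ℝ) ≤ X) →
    ∀ B D : ℝ, 0 ≤ B → 0 ≤ D → (∀ j ∈ bl Λ, (tau j : ℝ) ^ Fintype.card ι ≤ D) →
    (∀ (b : ι → Bool) (n : ι → ℕ) (Y t : ι → ℝ),
      (∃ x : ι → Eis, (∀ i, IsPrim (x i) ∧ (n i : ℝ) ≤ Real.log (nm (x i)) ∧
        Real.log (nm (x i)) < n i + 1) ∧ ∃ p ∈ J, ∏ i, x i = p.1) →
      (∀ i, 1 ≤ Y i ∧ |Real.log (Y i) - (Real.log (s i).Y - n i)| ≤ 2 * R + 1) →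
      WM h w Λ (cellP s (vk s b) Y t) ≤ B * ∏ i, (1 + |t i - (s i).t|) ^ M) →
    ∑ p ∈ J, w p.2 * ‖CS (CM106.sub (al h s) p.1) p.2‖ ^ 2 ≤
      (C * (Real.log X + 1)) ^ Fintype.card ι * (D * (D * B)) := by
  classical
  obtain ⟨C, hC, H⟩ := cell_CS hpu hR0 hR M
  refine ⟨2 * (C + 1), by linarith, ?_⟩
  intro ι _ _ s hs w hw Λ X hΛ hX J hJ B D hB hD hτ hyp
  set k := Fintype.card ι with hk
  have hlog0 : 0 ≤ Real.log X := Real.log_nonneg hX
  set N := ⌊Real.log X⌋₊ with hN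
  have hNle : (N : ℝ) ≤ Real.log X := Nat.floor_le hlog0
  have hFS : ∀ i, FS (pc h (s i)) := fun i => FS_pc hR (hs i)
  -- the moment at a tuple
  set Gm : Eis → (ι → Eis) → ℝ := fun j x =>
    w j * ∏ i, ‖CS (pc h (cellP s (vk s (key x).1) (fun i => (s i).Y / nm (x i))
      (fun i => (s i).t) i)) j‖ ^ 2 with hGm
  have hGm0 : ∀ j x, 0 ≤ Gm j x := fun j x =>
    mul_nonneg (hw j) (Finset.prod_nonneg fun _ _ => by positivity)
  -- step 1
  have e1 : ∀ p ∈ J, w p.2 * ‖CS (CM106.sub (al h s) p.1) p.2‖ ^ 2 ≤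
      D * ∑ x ∈ Tu ι p.1, Gm p.2 x := by
    intro p hp
    obtain ⟨hp1, hp2, hp3, hp4, hp5⟩ := hJ p hp
    have h1 : ∀ x ∈ Tu ι p.1, w p.2 *
        ‖CS (cv (fun i => CM106.sub (pc h (s i)) (x i))) p.2‖ ^ 2 ≤ Gm p.2 x := by
      intro x hx
      rw [mem_Tu] at hx
      have hxi : ∀ i, x i ∣ p.2 := fun i =>
        ((Finset.dvd_prod_of_mem x (Finset.mem_univ i)).trans (hx.2 ▸ dvd_refl _)).trans hp2
      have h2 := norm_CS_sub (h := h) hs hx.1 p.2
      have h3 : CS (al h (ssub s x)) p.2 = ∏ i, CS (pc h (ssub s x i)) p.2 := by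
        unfold al
        exact CS_cv (fun i => FS_pc hR ((hs i).sub (hx.1 i))) p.2
      have h4 : ∏ i, CS (pc h (ssub s x i)) p.2 = ∏ i, CS (pc h (cellP s (vk s (key x).1)
          (fun i => (s i).Y / nm (x i)) (fun i => (s i).t) i)) p.2 := by
        refine Finset.prod_congr rfl fun i _ => ?_
        show CS (pc h ((s i).sub (x i))) p.2 = _
        rw [CS_pc_sub (s i) (hxi i)]
        have h5 := congrFun (shS_eq s x) i
        rw [← h5]
        rfl
      rw [hGm]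
      refine mul_le_mul_of_nonneg_left ?_ (hw _)
      rw [Finset.prod_pow, ← norm_prod, ← h4, ← h3]
      exact pow_le_pow_left₀ (norm_nonneg _) h2 2
    have h6 : CS (CM106.sub (al h s) p.1) p.2 =
        ∑ x ∈ Tu ι p.1, CS (cv (fun i => CM106.sub (pc h (s i)) (x i))) p.2 :=
      CS_sub_cv hFS hp1 hp2
    have h7 : ((Tu ι p.1).card : ℝ) ≤ D := by
      have h8 : ((Tu ι p.1).card : ℝ) ≤ (tau p.1 : ℝ) ^ Fintype.card ι := by
        exact_mod_cast card_Tu_le p.1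
      refine h8.trans (le_trans ?_ (hτ p.2 hp3))
      refine pow_le_pow_left₀ (Nat.cast_nonneg _) ?_ _
      have : (dvs p.1).card ≤ (dvs p.2).card := Finset.card_le_card fun d hd => by
        have hd' := (mem_dvs hp1.ne_zero).1 hd
        exact (mem_dvs hp4).2 ⟨hd'.1, hd'.2.trans hp2⟩
      unfold tau
      exact_mod_cast this
    rw [h6]
    calc w p.2 * ‖∑ x ∈ Tu ι p.1, CS (cv (fun i => CM106.sub (pc h (s i)) (x i))) p.2‖ ^ 2
        ≤ w p.2 * ((Tu ι p.1).card * ∑ x ∈ Tu ι p.1,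
          ‖CS (cv (fun i => CM106.sub (pc h (s i)) (x i))) p.2‖ ^ 2) :=
          mul_le_mul_of_nonneg_left (CR2.norm_sum_sq_le_card _ _) (hw _)
      _ = (Tu ι p.1).card * ∑ x ∈ Tu ι p.1,
          w p.2 * ‖CS (cv (fun i => CM106.sub (pc h (s i)) (x i))) p.2‖ ^ 2 := by
          rw [← Finset.mul_sum]; ring
      _ ≤ (Tu ι p.1).card * ∑ x ∈ Tu ι p.1, Gm p.2 x :=
          mul_le_mul_of_nonneg_left (Finset.sum_le_sum h1) (Nat.cast_nonneg _)
      _ ≤ D * ∑ x ∈ Tu ι p.1, Gm p.2 x :=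
          mul_le_mul_of_nonneg_right h7 (Finset.sum_nonneg fun x _ => hGm0 _ _)
  -- step 2
  set K : Finset (Eis × (ι → Eis)) :=
    (J.sigma fun p => Tu ι p.1).image (fun y => (y.1.2, y.2)) with hK
  have hKm : ∀ z ∈ K, ∃ p ∈ J, z.2 ∈ Tu ι p.1 ∧ p.2 = z.1 := by
    intro z hz
    rw [hK, Finset.mem_image] at hz
    obtain ⟨y, hy, rfl⟩ := hz
    rw [Finset.mem_sigma] at hy
    exact ⟨y.1, hy.1, hy.2, rfl⟩
  have e2 : ∑ p ∈ J, ∑ x ∈ Tu ι p.1, Gm p.2 x = ∑ z ∈ K, Gm z.1 z.2 := by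
    rw [Finset.sum_sigma', hK, Finset.sum_image]
    rintro ⟨p, x⟩ hy ⟨p', x'⟩ hy' he
    rw [Finset.mem_coe, Finset.mem_sigma] at hy hy'
    have h1 := (mem_Tu.1 hy.2).2
    have h2 := (mem_Tu.1 hy'.2).2
    simp only [Prod.mk.injEq] at he
    obtain ⟨he1, he2⟩ := he
    subst he2
    have h3 : p.1 = p'.1 := h1.symm.trans h2
    have h4 : p = p' := Prod.ext h3 he1
    subst h4
    rfl
  -- step 3
  set Cs : Finset ((ι → Bool) × (ι → ℕ)) :=
    Finset.univ ×ˢ Fintype.piFinset (fun _ : ι => Finset.range (N + 1)) with hCs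
  have hcard : (Cs.card : ℝ) ≤ (2 * (Real.log X + 1)) ^ k := by
    rw [hCs, Finset.card_product, Finset.card_univ, Fintype.card_piFinset]
    simp only [Fintype.card_fun, Fintype.card_bool, Finset.card_range, Finset.prod_const,
      Finset.card_univ]
    push_cast
    rw [← hk, ← mul_pow]
    have : (2 * ((N : ℝ) + 1)) ≤ 2 * (Real.log X + 1) := by linarith
    exact pow_le_pow_left₀ (by positivity) this k
  have hmaps : ∀ z ∈ K, key z.2 ∈ Cs := by
    intro z hz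
    obtain ⟨p, hp, hz1, hz2⟩ := hKm z hz
    obtain ⟨hp1, hp2, hp3, hp4, hp5⟩ := hJ p hp
    have hx := mem_Tu.1 hz1
    rw [hCs, Finset.mem_product, Fintype.mem_piFinset]
    refine ⟨Finset.mem_univ _, fun i => ?_⟩
    rw [Finset.mem_range, Nat.lt_succ_iff]
    show ⌊Real.log (nm (z.2 i))⌋₊ ≤ N
    refine Nat.floor_le_floor (Real.log_le_log ?_ ?_)
    · exact_mod_cast nm_pos.2 (hx.1 i).ne_zero
    · have h1 : z.2 i ∣ p.1 :=
        (Finset.dvd_prod_of_mem z.2 (Finset.mem_univ i)).trans (hx.2 ▸ dvd_refl _)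
      have h2 : (nm (z.2 i) : ℝ) ≤ nm p.1 := by
        exact_mod_cast Leg381.nm_le_of_dvd' hp1.ne_zero h1
      exact h2.trans hp5
  have hcell : ∀ c ∈ Cs, ∑ z ∈ K.filter (fun z => key z.2 = c), Gm z.1 z.2 ≤
      (C + 1) ^ k * (D * B) := by
    intro c hc
    rcases (K.filter (fun z => key z.2 = c)).eq_empty_or_nonempty with hemp | hne
    · rw [hemp, Finset.sum_empty]
      have : 0 ≤ C + 1 := by linarith
      positivity
    have e3 : ∑ z ∈ K.filter (fun z => key z.2 = c), Gm z.1 z.2 =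
        ∑ z ∈ K.filter (fun z => key z.2 = c), w z.1 *
          ∏ i, ‖CS (pc h (cellP s (vk s c.1) (fun i => (s i).Y / nm (z.2 i))
            (fun i => (s i).t) i)) z.1‖ ^ 2 := by
      refine Finset.sum_congr rfl fun z hz => ?_
      rw [hGm]
      show w z.1 * ∏ i, ‖CS (pc h (cellP s (vk s (key z.2).1) (fun i => (s i).Y / nm (z.2 i))
        (fun i => (s i).t) i)) z.1‖ ^ 2 = _
      rw [(Finset.mem_filter.1 hz).2]
    have hnn : ∀ z ∈ K.filter (fun z => key z.2 = c), ∀ i, (c.2 i : ℝ) ≤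
        Real.log (nm (z.2 i)) ∧ Real.log (nm (z.2 i)) < c.2 i + 1 := by
      intro z hz i
      obtain ⟨hz0, hz3⟩ := Finset.mem_filter.1 hz
      obtain ⟨p, hp, hz1, hz2⟩ := hKm z hz0
      have hx := mem_Tu.1 hz1
      have h1 : c.2 i = ⌊Real.log (nm (z.2 i))⌋₊ := by rw [← hz3]; rfl
      rw [h1]
      exact log_floor (hx.1 i)
    rw [e3]
    have h4 : C ^ k * (D * B) ≤ (C + 1) ^ k * (D * B) :=
      mul_le_mul_of_nonneg_right (pow_le_pow_left₀ hC (by linarith) k) (mul_nonneg hD hB)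
    refine (H ι s hs w hw Λ hΛ (vk s c.1) c.2 (K.filter (fun z => key z.2 = c)) ?_ B D hB hD hτ
      ?_).trans h4
    · intro z hz
      obtain ⟨hz0, hz3⟩ := Finset.mem_filter.1 hz
      obtain ⟨p, hp, hz1, hz2⟩ := hKm z hz0
      obtain ⟨hp1, hp2, hp3, hp4, hp5⟩ := hJ p hp
      have hx := mem_Tu.1 hz1
      refine ⟨hz2 ▸ hp3, hz2 ▸ hp4, hx.1, fun i => ?_, fun i => ?_⟩
      · rw [← hz2]
        exact ((Finset.dvd_prod_of_mem z.2 (Finset.mem_univ i)).trans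
          (hx.2 ▸ dvd_refl _)).trans hp2
      · have := hnn z hz i
        rw [abs_le]
        constructor <;> linarith [this.1, this.2]
    · intro Y t hY
      obtain ⟨z, hz⟩ := hne
      obtain ⟨hz0, hz3⟩ := Finset.mem_filter.1 hz
      obtain ⟨p, hp, hz1, hz2⟩ := hKm z hz0
      have hx := mem_Tu.1 hz1
      exact hyp c.1 c.2 Y t ⟨z.2, fun i => ⟨hx.1 i, (hnn z hz i).1, (hnn z hz i).2⟩,
        p, hp, hx.2⟩ hY
  calc ∑ p ∈ J, w p.2 * ‖CS (CM106.sub (al h s) p.1) p.2‖ ^ 2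
      ≤ ∑ p ∈ J, D * ∑ x ∈ Tu ι p.1, Gm p.2 x := Finset.sum_le_sum e1
    _ = D * ∑ z ∈ K, Gm z.1 z.2 := by rw [← Finset.mul_sum, e2]
    _ = D * ∑ c ∈ Cs, ∑ z ∈ K.filter (fun z => key z.2 = c), Gm z.1 z.2 := by
        rw [Finset.sum_fiberwise_of_maps_to hmaps]
    _ ≤ D * ∑ c ∈ Cs, (C + 1) ^ k * (D * B) :=
        mul_le_mul_of_nonneg_left (Finset.sum_le_sum hcell) hD
    _ = D * (Cs.card * ((C + 1) ^ k * (D * B))) := by rw [Finset.sum_const, nsmul_eq_mul]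
    _ ≤ D * ((2 * (Real.log X + 1)) ^ k * ((C + 1) ^ k * (D * B))) := by
        refine mul_le_mul_of_nonneg_left (mul_le_mul_of_nonneg_right hcard ?_) hD
        have : 0 ≤ C + 1 := by linarith
        positivity
    _ = _ := by
        have e5 : (2 * (C + 1) * (Real.log X + 1)) ^ k =
            (2 * (Real.log X + 1)) ^ k * (C + 1) ^ k := by
          rw [← mul_pow]; congr 1; ring
        rw [e5]
        ring

end Crest.Agent.R017.E4J792
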