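import Crest.Agent.R017.E4v7_352

/-!
# Row 17, C70/E4, version 7: the algebra of one index `z = (D0, D1, B, R, Z)` (helper164)

* `cz` : the coprimality factor, `comp_eq` : composition of the two shortenings
* `vz`, `wz` : the `x`-side and the `y`-side
* `Sd_vz`, `CS_wz`, `prod_z` : the sums; `val_z` : the value of a term
-/

set_option autoImplicit false

noncomputable section

open Complex
open scoped ComplexConjugate

namespace Crest.Agent.R017.E4J352

open Crest.Agent.R012 Crest.Agent.R012.Eis Crest.Agent.R012.Mob705 Crest.Agent.R012.Gauss880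
open Crest.Agent.R017.CM106 (CS)
open Crest.Agent.R017.E4352
open Crest.Agent.R017.E4o502 (vD wD)

open Classical in
/-- the coprimality factor -/
def cz (A D : Eis) : ℂ := if IsCoprime A D then 1 else 0

lemma cz_one {A D : Eis} (h : IsCoprime A D) : cz A D = 1 := by
  unfold cz; rw [if_pos h]

lemma cz_zero {A D : Eis} (h : ¬ IsCoprime A D) : cz A D = 0 := by
  unfold cz; rw [if_neg h]

lemma norm_cz_le (A D : Eis) : ‖cz A D‖ ≤ 1 := by
  unfold cz
  split_ifs
  · rw [norm_one]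
  · rw [norm_zero]; exact zero_le_one

/-- **composition of the shortenings** -/
theorem comp_eq {b R' B R D : Eis} {g c : Eis → ℂ} (hc : ∀ y, ¬ IsCoprime y D → c y = 0) (x : Eis) :
    tws R' b g (tws R B (fun _ => 1) c) x = cz R' (D * B) * tws (R * R') (B * b) g c x := by
  classical
  have e0 : R * (R' * x) = R * R' * x := by ring
  unfold E4352.tws
  beta_reduce
  by_cases h : IsCoprime R' (D * B)
  · have hB : IsCoprime R' B := h.of_mul_right_right
    have h1 : IsCoprime x (B * b) ↔ IsCoprime x B ∧ IsCoprime x b := IsCoprime.mul_right_iff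
    have h2 : IsCoprime (R' * x) B ↔ IsCoprime x B :=
      ⟨fun h' => h'.of_mul_left_right, fun h' => hB.mul_left h'⟩
    rw [cz_one h, one_mul, h1, h2, e0]
    by_cases c1 : IsCoprime x b
    · by_cases c2 : IsCoprime x B
      · simp only [c1, c2, and_self, if_true, one_mul]
      · simp [c1, c2]
    · simp [c1]
  · rw [cz_zero h, zero_mul]
    by_cases c1 : IsCoprime x b
    · by_cases c2 : IsCoprime (R' * x) B
      · rw [if_pos c1, if_pos c2, hc, mul_zero, mul_zero]
        intro h3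
        rw [e0] at h3
        exact h (h3.of_mul_left_left.of_mul_left_right.mul_right c2.of_mul_left_left)
      · simp [c2]
    · simp [c1]

lemma vD_cop {D : Eis} {v : Eis → ℂ} (y : Eis) (h : ¬ IsCoprime y D) : vD D v y = 0 := by
  classical
  unfold E4o502.vD E4352.tws
  rw [if_neg h]

lemma wD_cop {D D1 : Eis} {w : Eis → ℂ} (y : Eis) (h : ¬ IsCoprime y D) : wD D D1 w y = 0 := by
  classical
  unfold E4o502.wD E4352.tws
  rw [if_neg h]

/-- **the `x`-side** -/
theorem vz (b R' B R D : Eis) (g v : Eis → ℂ) (x : Eis) :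
    tws R' b g (tws R B (fun _ => 1) (vD D v)) x =
      cz R' (D * B) * tws (R * R') (B * b) g (vD D v) x := comp_eq vD_cop x

/-- **the `y`-side** -/
theorem wz (b Z' B Z D D1 : Eis) (g w : Eis → ℂ) (y : Eis) :
    tws Z' b g (tws Z B (fun _ => 1) (wD D D1 w)) y =
      cz Z' (D * B) * tws (Z * Z') (B * b) g (wD D D1 w) y := comp_eq wD_cop y

/-- the text of the leaf, `x`-side -/
theorem vz_ex (b R' B R D0 D1 : Eis) (g v : Eis → ℂ) : ∃ u : ℂ, ‖u‖ ≤ 1 ∧
    (¬ IsCoprime R' (D0 * D1 * B) → u = 0) ∧ ∀ x,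
      tws R' b g (tws R B (fun _ => 1) (vD (D0 * D1) v)) x =
        u * tws (R * R') (B * b) g (vD (D0 * D1) v) x :=
  ⟨cz R' (D0 * D1 * B), norm_cz_le _ _, cz_zero, vz b R' B R (D0 * D1) g v⟩

/-- the text of the leaf, `y`-side -/
theorem wz_ex (b Z' B Z D0 D1 : Eis) (g w : Eis → ℂ) : ∃ u : ℂ, ‖u‖ ≤ 1 ∧
    (¬ IsCoprime Z' (D0 * D1 * B) → u = 0) ∧ ∀ y,
      tws Z' b g (tws Z B (fun _ => 1) (wD (D0 * D1) D1 w)) y =
        u * tws (Z * Z') (B * b) g (wD (D0 * D1) D1 w) y :=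
  ⟨cz Z' (D0 * D1 * B), norm_cz_le _ _, cz_zero, wz b Z' B Z (D0 * D1) D1 g w⟩

/-! ### the sums -/

lemma Sd_cmul {u : ℂ} {c c' : Eis → ℂ} (h : ∀ x, c x = u * c' x) (k : Eis) :
    Sd c k = u * Sd c' k := by
  unfold Sd
  rw [← tsum_mul_left]
  exact tsum_congr fun x => by rw [h]; ring

lemma CS_cmul {u : ℂ} {c c' : Eis → ℂ} (h : ∀ x, c x = u * c' x) (k : Eis) :
    CS c k = u * CS c' k := by
  unfold CM106.CS
  rw [← tsum_mul_left]
  exact tsum_congr fun x => by rw [h]; ring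

theorem Sd_vz (b R' B R D : Eis) (g v : Eis → ℂ) (k : Eis) :
    Sd (tws R' b g (tws R B (fun _ => 1) (vD D v))) k =
      cz R' (D * B) * Sd (tws (R * R') (B * b) g (vD D v)) k := Sd_cmul (vz b R' B R D g v) k

theorem CS_wz (b Z' B Z D D1 : Eis) (g w : Eis → ℂ) (k : Eis) :
    CS (tws Z' b g (tws Z B (fun _ => 1) (wD D D1 w))) k =
      cz Z' (D * B) * CS (tws (Z * Z') (B * b) g (wD D D1 w)) k :=
  CS_cmul (wz b Z' B Z D D1 g w) k

open Classical in
lemma norm_cz_mul (A A' D : Eis) : ‖cz A D‖ * ‖cz A' D‖ = if IsCoprime (A * A') D then 1 else 0 := by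
  by_cases h : IsCoprime A D
  · by_cases h' : IsCoprime A' D
    · rw [cz_one h, cz_one h', if_pos (h.mul_left h')]; simp
    · rw [cz_zero h', if_neg (fun h0 => h' h0.of_mul_left_right)]; simp
  · rw [cz_zero h, if_neg (fun h0 => h h0.of_mul_left_left)]; simp

open Classical in
/-- **the two sides together** -/
theorem prod_z (b R' Z' B R Z D D1 : Eis) (g v w : Eis → ℂ) (k : Eis) :
    ‖Sd (tws R' b g (tws R B (fun _ => 1) (vD D v))) k‖ *
        ‖CS (tws Z' b g (tws Z B (fun _ => 1) (wD D D1 w))) k‖ =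
      if IsCoprime (R' * Z') (D * B) then
        ‖Sd (tws (R * R') (B * b) g (vD D v)) k‖ * ‖CS (tws (Z * Z') (B * b) g (wD D D1 w)) k‖
      else 0 := by
  rw [Sd_vz, CS_wz, norm_mul, norm_mul]
  have h := norm_cz_mul R' Z' (D * B)
  calc _ = (‖cz R' (D * B)‖ * ‖cz Z' (D * B)‖) *
        (‖Sd (tws (R * R') (B * b) g (vD D v)) k‖ *
          ‖CS (tws (Z * Z') (B * b) g (wD D D1 w)) k‖) := by ring
    _ = _ := by
      rw [h]
      split_ifs <;> simp

open Classical in
/-- **the two sides of a term** -/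
theorem prod_tm {O : Type} (t : Tm O) (v w : O → Eis → ℂ) (G : Eis → ℂ) :
    ‖Sd (tws t.R' t.b (fun y => sy y t.b * G y)
        (tws t.R t.B (fun _ => 1) (vD (t.D0 * t.D1) (v t.o)))) t.k‖ *
      ‖CS (tws t.Z' t.b (fun y => sy y t.b * G y)
        (tws t.Z t.B (fun _ => 1) (wD (t.D0 * t.D1) t.D1 (w t.o)))) t.k‖ =
      if IsCoprime (t.R' * t.Z') (t.D0 * t.D1 * t.B) then ‖t.xs v G‖ * ‖t.ys w G‖ else 0 := by
  rw [prod_z]
  rfl

end Crest.Agent.R017.E4J352
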