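import Crest.Agent.R017.NT2_47

/-!
# Row 17, natural cubic series: removal of a squarefree modulus that divides the frequency (helper47)

* `NT_rem3 : NT (M p) (h p³) φ = NT M (h p³) φ - q³ NT M h (φ (p³ ·))` (any `h`)
* `NT_full` : `n ∣ u`, `n` squarefree, `u ≠ 0`:
  `NT (M n) u φ = Σ_{D ∣ n} Σ_{B ∣ n, B³ ∣ u} cB D conj (u/D over D) μ(B) N(B)³
     NT M (u/(D B³)) (φ (D² B³ ·))`
* `NT_cop` : `n` prime to `h`:
  `NT (M n) h φ = Σ_{A ∣ n} cA A (h over A) NT M (h A) (φ (A ·))`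
-/

set_option autoImplicit false
set_option linter.unusedVariables false

noncomputable section

open Complex
open scoped ComplexConjugate

namespace Crest.Agent.R017.NT47

open Crest.Agent.R012 Crest.Agent.R012.Eis Crest.Agent.R012.GaussLoc283
open Crest.Agent.R012.Mob705 Crest.Agent.R012.Div277
open Crest.Agent.R017.Sx545 (Sm)
open Crest.Agent.R017.E2440

variable {M p h : Eis}

/-- modulus `M p`: the frequency counts only up to cubes of `p` -/
lemma NT_mod_cube (hp : Sm M p) (h : Eis) (φ : Eis → ℂ) :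
    NT (M * p) (h * p ^ 3) φ = NT (M * p) h φ := by
  unfold NT
  refine tsum_congr fun e => ?_
  split_ifs with he
  · congr 1
    unfold DS
    refine tsum_congr fun d => ?_
    split_ifs with hd
    · have hd' := hd
      rw [sm_mul_right] at hd'
      rw [gs_cube_left syAx h hd.prim hd'.2.symm]
    · rfl
  · rfl

/-- one prime whose cube divides the frequency -/
theorem NT_rem3 (hp : Sm M p) (hpp : Prime p) (h : Eis) {φ : Eis → ℂ} (hφ : Dcy φ) :
    NT (M * p) (h * p ^ 3) φ = NT M (h * p ^ 3) φ -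
      (nm p : ℂ) ^ 3 * NT M h (fun k => φ (p ^ 3 * k)) := by
  rw [NT_mod_cube hp, NT_cube hp hpp h hφ]
  ring

lemma sum_dvs_p {R : Type*} [AddCommMonoid R] {p n : Eis} (hp : IsPrim p) (hpp : Prime p)
    (hn : IsPrim n) (hpn : ¬ p ∣ n) (F : Eis → R) :
    ∑ x ∈ dvs (p * n), F x = ∑ x ∈ dvs n, (F x + F (p * x)) := by
  classical
  have hp0 := hpp.ne_zero
  have i2 : Set.InjOn (fun x : Eis => p * x) (dvs n : Set Eis) := by
    rintro x - y - h
    exact mul_left_cancel₀ hp0 h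
  rw [Finset.sum_add_distrib, ← Finset.sum_image (f := F) i2, ← Finset.sum_union]
  · refine Finset.sum_congr ?_ fun _ _ => rfl
    ext x
    rw [mem_dvs (hp.mul hn).ne_zero, Finset.mem_union, Finset.mem_image, mem_dvs hn.ne_zero]
    constructor
    · rintro ⟨h1, h2⟩
      by_cases h : p ∣ x
      · right
        obtain ⟨y, rfl⟩ := h
        have hy1 : IsPrim y := h1.of_mul_left hp
        exact ⟨y, (mem_dvs hn.ne_zero).mpr ⟨hy1, (mul_dvd_mul_iff_left hp0).mp h2⟩, rfl⟩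
      · left
        have hc : IsCoprime p x := ((hpp.irreducible).coprime_iff_not_dvd).mpr h
        exact ⟨h1, hc.symm.dvd_of_dvd_mul_left h2⟩
    · rintro (⟨h1, h2⟩ | ⟨y, hy, rfl⟩)
      · exact ⟨h1, h2.mul_left _⟩
      · rw [mem_dvs hn.ne_zero] at hy
        exact ⟨hp.mul hy.1, mul_dvd_mul_left p hy.2⟩
  · rw [Finset.disjoint_left]
    intro x hx hx'
    rw [Finset.mem_image] at hx'
    obtain ⟨y, hy, rfl⟩ := hx'
    rw [mem_dvs hn.ne_zero] at hx
    exact hpn ((dvd_mul_right p y).trans hx.2)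

open Classical in
/-- one term of the full removal -/
def Tf (M u : Eis) (φ : Eis → ℂ) (D B : Eis) : ℂ :=
  if B ^ 3 ∣ u then
    cB D * conj (sy (u / D) D) * ((muE B : ℂ) * (nm B : ℂ) ^ 3) *
      NT M (u / (D * B ^ 3)) (fun k => φ (D ^ 2 * B ^ 3 * k))
  else 0

lemma Tf_of_not_dvd {M u : Eis} {φ : Eis → ℂ} {D B : Eis} (h : ¬ B ^ 3 ∣ u) : Tf M u φ D B = 0 := by
  unfold Tf; rw [if_neg h]

lemma Tf_of_sy {M u : Eis} {φ : Eis → ℂ} {D B : Eis} (h : sy (u / D) D = 0) :
    Tf M u φ D B = 0 := by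
  unfold Tf
  split_ifs
  · rw [h]; simp
  · rfl

lemma div_eq' {a b : Eis} (hb : b ≠ 0) {c : Eis} (h : a = b * c) : a / b = c := by
  rw [h]; exact mul_div_cancel_left₀ c hb

/-- the explicit value of a term -/
lemma Tf_eq {M φ} {D B w : Eis} (hD : D ≠ 0) (hB : B ≠ 0) :
    Tf M (D * B ^ 3 * w) φ D B = cB D * conj (sy (B ^ 3 * w) D) *
      ((muE B : ℂ) * (nm B : ℂ) ^ 3) * NT M w (fun k => φ (D ^ 2 * B ^ 3 * k)) := by
  unfold Tf
  rw [if_pos ⟨D * w, by ring⟩, div_eq' hD (c := B ^ 3 * w) (by ring),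
    div_eq' (mul_ne_zero hD (pow_ne_zero 3 hB)) (c := w) rfl]

lemma tf_step (hp : Sm M p) (hpp : Prime p) {D B u : Eis} (hD : IsPrim D) (hB : IsPrim B)
    (hDs : Squarefree D) (hpD : ¬ p ∣ D) (hpB : ¬ p ∣ B) (hu : u ≠ 0) (hDu : p * D ∣ u)
    {φ : Eis → ℂ} (hφ : Dcy φ) :
    Tf (M * p) u φ D B = (Tf M u φ D B + Tf M u φ D (p * B)) +
      (Tf M u φ (p * D) B + Tf M u φ (p * D) (p * B)) := by
  have hp0 := hpp.ne_zero
  have hcD : IsCoprime p D := ((hpp.irreducible).coprime_iff_not_dvd).mpr hpD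
  have hcB : IsCoprime p B := ((hpp.irreducible).coprime_iff_not_dvd).mpr hpB
  by_cases hBu : B ^ 3 ∣ u
  swap
  · have h2 : ¬ (p * B) ^ 3 ∣ u := fun h => hBu ((Dvd.intro_left (p ^ 3) (by ring)).trans h)
    rw [Tf_of_not_dvd hBu, Tf_of_not_dvd hBu, Tf_of_not_dvd hBu, Tf_of_not_dvd h2,
      Tf_of_not_dvd h2]
    simp
  obtain ⟨w0, hw0⟩ := hDu
  have hw0' : u = D * (p * w0) := by rw [hw0]; ring
  have hw00 : w0 ≠ 0 := by rintro rfl; exact hu (by rw [hw0]; ring)
  have e1 : u / D = p * w0 := div_eq' hD.ne_zero hw0'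
  have e2 : u / (p * D) = w0 := div_eq' (mul_ne_zero hp0 hD.ne_zero) hw0
  by_cases hc : IsCoprime (p * w0) D
  swap
  · have hc2 : ¬ IsCoprime w0 D := fun h => hc (hcD.mul_left h)
    have h1 : sy (u / D) D = 0 := by rw [e1]; exact (syAx.eq_zero _ _ hD).mpr hc
    have h2 : sy (u / (p * D)) (p * D) = 0 := by
      rw [e2]
      exact (syAx.eq_zero _ _ (hp.prim.mul hD)).mpr (fun h => hc2 h.of_mul_right_right)
    rw [Tf_of_sy h1, Tf_of_sy h1, Tf_of_sy h1, Tf_of_sy h2, Tf_of_sy h2]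
    simp
  -- `D` and `B` are coprime
  have hcop : IsCoprime B D := by
    rw [isCoprime_iff_pp hB]
    intro q hq hqB hqD
    have h1 : q ^ 3 ∣ u := (pow_dvd_pow_of_dvd hqB 3).trans hBu
    obtain ⟨D', rfl⟩ := hqD
    have hq0 := hq.prime.ne_zero
    have hqD' : ¬ q ∣ D' := fun h => hq.prime.not_isUnit (hDs q (mul_dvd_mul_left q h))
    rw [hw0', show q ^ 3 = q * q ^ 2 by ring, mul_assoc] at h1
    have h2 : q ^ 2 ∣ D' * (p * w0) := (mul_dvd_mul_iff_left hq0).mp h1
    have h3 : q ∣ p * w0 := by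
      rcases hq.prime.dvd_or_dvd ((dvd_pow_self q two_ne_zero).trans h2) with h | h
      · exact absurd h hqD'
      · exact h
    exact hq.prime.not_isUnit (hc.isUnit_of_dvd' h3 (dvd_mul_right _ _))
  have h3 : B ^ 3 ∣ w0 := by
    have h4 : B ^ 3 ∣ D * (p * w0) := hw0' ▸ hBu
    have h5 : B ^ 3 ∣ p * w0 := (hcop.pow_left).dvd_of_dvd_mul_left h4
    exact (hcB.symm.pow_left).dvd_of_dvd_mul_left h5
  obtain ⟨w1, rfl⟩ := h3
  have hw1 : w1 ≠ 0 := right_ne_zero_of_mul hw00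
  have hu1 : u = D * B ^ 3 * (w1 * p) := by rw [hw0]; ring
  have hu2 : u = (p * D) * B ^ 3 * w1 := by rw [hw0]; ring
  have hD0 := hD.ne_zero
  have hB0 := hB.ne_zero
  have hφ2 : Dcy (fun k => φ (D ^ 2 * B ^ 3 * k)) :=
    hφ.dil (mul_ne_zero (pow_ne_zero 2 hD0) (pow_ne_zero 3 hB0))
  have E1 : Tf (M * p) u φ D B = cB D * conj (sy (B ^ 3 * (w1 * p)) D) *
      ((muE B : ℂ) * (nm B : ℂ) ^ 3) * NT (M * p) (w1 * p) (fun k => φ (D ^ 2 * B ^ 3 * k)) := by
    rw [hu1]; exact Tf_eq hD0 hB0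
  have E2 : Tf M u φ D B = cB D * conj (sy (B ^ 3 * (w1 * p)) D) *
      ((muE B : ℂ) * (nm B : ℂ) ^ 3) * NT M (w1 * p) (fun k => φ (D ^ 2 * B ^ 3 * k)) := by
    rw [hu1]; exact Tf_eq hD0 hB0
  by_cases hpw : p ∣ w1
  · -- `p² ∣ u`
    obtain ⟨w2, rfl⟩ := hpw
    have h6 : sy (u / (p * D)) (p * D) = 0 := by
      rw [e2]
      refine (syAx.eq_zero _ _ (hp.prim.mul hD)).mpr (fun h => ?_)
      exact hpp.not_isUnit (h.isUnit_of_dvd' (dvd_mul_of_dvd_right (dvd_mul_right p w2) _)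
        (dvd_mul_right _ _))
    rw [Tf_of_sy (B := B) h6, Tf_of_sy (B := p * B) h6, add_zero, add_zero]
    by_cases hpw2 : p ∣ w2
    · -- `p³ ∣ u`
      obtain ⟨w3, rfl⟩ := hpw2
      have hu3 : u = D * (p * B) ^ 3 * w3 := by rw [hw0]; ring
      have E3 : Tf M u φ D (p * B) = cB D * conj (sy ((p * B) ^ 3 * w3) D) *
          ((muE (p * B) : ℂ) * (nm (p * B) : ℂ) ^ 3) *
          NT M w3 (fun k => φ (D ^ 2 * (p * B) ^ 3 * k)) := by
        rw [hu3]; exact Tf_eq hD0 (mul_ne_zero hp0 hB0)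
      have e5 : p * (p * w3) * p = w3 * p ^ 3 := by ring
      have e6 : (fun k => φ (D ^ 2 * (p * B) ^ 3 * k)) =
          fun k => φ (D ^ 2 * B ^ 3 * (p ^ 3 * k)) := by
        funext k; congr 1; ring
      have e7 : (p * B) ^ 3 * w3 = B ^ 3 * (w3 * p ^ 3) := by ring
      rw [E1, E2, E3, e5, NT_rem3 hp hpp w3 hφ2, e6, e7, muE_mul hp0 hB0 hcB, muE_prime hpp,
        nm_mul]
      push_cast
      ring
    · have h7 : ¬ (p * B) ^ 3 ∣ u := by
        intro h
        obtain ⟨c, hc'⟩ := h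
        have h8 : p ^ 2 * (p * (B ^ 3 * c)) = p ^ 2 * (D * (B ^ 3 * w2)) := by
          calc p ^ 2 * (p * (B ^ 3 * c)) = (p * B) ^ 3 * c := by ring
            _ = u := hc'.symm
            _ = p ^ 2 * (D * (B ^ 3 * w2)) := by rw [hw0]; ring
        have h9 : p ∣ D * (B ^ 3 * w2) := ⟨_, (mul_left_cancel₀ (pow_ne_zero 2 hp0) h8).symm⟩
        rcases hpp.dvd_or_dvd h9 with h | h
        · exact hpD h
        · rcases hpp.dvd_or_dvd h with h | h
          · exact hpB (hpp.dvd_of_dvd_pow h)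
          · exact hpw2 h
      have e5 : p * w2 * p = w2 * p ^ 2 := by ring
      rw [Tf_of_not_dvd h7, add_zero, E1, E2, e5, NT_rem2 hp hpp hpw2 hφ2]
  · -- `p ∥ u`
    have h7 : ¬ (p * B) ^ 3 ∣ u := by
      intro h
      obtain ⟨c, hc'⟩ := h
      have h8 : p * (p * (p * B ^ 3 * c)) = p * (D * (B ^ 3 * w1)) := by
        calc p * (p * (p * B ^ 3 * c)) = (p * B) ^ 3 * c := by ring
          _ = u := hc'.symm
          _ = p * (D * (B ^ 3 * w1)) := by rw [hw0]; ring
      have h9 : p ∣ D * (B ^ 3 * w1) := ⟨_, (mul_left_cancel₀ hp0 h8).symm⟩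
      rcases hpp.dvd_or_dvd h9 with h | h
      · exact hpD h
      · rcases hpp.dvd_or_dvd h with h | h
        · exact hpB (hpp.dvd_of_dvd_pow h)
        · exact hpw h
    have E4 : Tf M u φ (p * D) B = cB (p * D) * conj (sy (B ^ 3 * w1) (p * D)) *
        ((muE B : ℂ) * (nm B : ℂ) ^ 3) * NT M w1 (fun k => φ ((p * D) ^ 2 * B ^ 3 * k)) := by
      rw [hu2]; exact Tf_eq (mul_ne_zero hp0 hD0) hB0
    have e8 : sy (B ^ 3 * w1) p = sy w1 p := by
      rw [mul_comm]; exact sy_cube_one hp.prim hcB.symm w1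
    have e9 : c1 p (B ^ 3 * w1) = c1 p w1 := by unfold c1; rw [e8]
    have e10 : (fun k => φ ((p * D) ^ 2 * B ^ 3 * k)) =
        fun k => φ (D ^ 2 * B ^ 3 * (p ^ 2 * k)) := by
      funext k; congr 1; ring
    rw [Tf_of_not_dvd h7, Tf_of_not_dvd h7, add_zero, add_zero, E1, E2, E4, e10,
      NT_rem1 hp hpp hpw hφ2, cB_step hp.prim hpp hD hpD, e9,
      show B ^ 3 * w1 * p = B ^ 3 * (w1 * p) by ring]
    ring

theorem NT_full0 : ∀ (N : ℕ) (n : Eis), nm n ≤ N → Squarefree n → ∀ (M u : Eis), Sm M n →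
    u ≠ 0 → n ∣ u → ∀ φ : Eis → ℂ, Dcy φ →
    NT (M * n) u φ = ∑ D ∈ dvs n, ∑ B ∈ dvs n, Tf M u φ D B := by
  intro N
  induction N with
  | zero =>
    intro n hn _ M v hM
    have := nm_pos.mpr hM.ne_zero
    omega
  | succ N ih =>
    intro n hn hsq M u hM hu hnu φ hφ
    by_cases h1 : n = 1
    · subst h1
      have e : dvs (1 : Eis) = {1} := by
        ext x
        rw [mem_dvs one_ne_zero, Finset.mem_singleton]
        constructor
        · rintro ⟨h1, h2⟩
          exact isPrim_eq_one_of_isUnit h1 (isUnit_of_dvd_one h2)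
        · rintro rfl
          exact ⟨isPrim_one, dvd_rfl⟩
      have e2 : u = 1 * 1 ^ 3 * u := by ring
      rw [e, Finset.sum_singleton, Finset.sum_singleton, e2, Tf_eq one_ne_zero one_ne_zero,
        cB_one, syAx.one_right, muE_one, nm_one]
      simp
    · obtain ⟨p, hp, hpn⟩ := exists_pp_dvd_of_isPrim hM.prim h1
      obtain ⟨m, rfl⟩ := hpn
      have hp1 := hp.isPrim
      have hpp := hp.prime
      have hp0 := hpp.ne_zero
      have hm1 : IsPrim m := hM.prim.of_mul_left hp1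
      have hmS : Sm M m := hM.of_mul_left hp1
      have hpS : Sm M p := hM.of_dvd hp1 (dvd_mul_right _ _)
      have hsm : Squarefree m := hsq.of_mul_right
      have hpm : ¬ p ∣ m := by
        intro h
        exact hpp.not_isUnit (hsq p (mul_dvd_mul_left p h))
      have hcop : IsCoprime p m := ((hpp.irreducible).coprime_iff_not_dvd).mpr hpm
      have hnm : nm m ≤ N := by
        have h2 : nm (p * m) = nm p * nm m := nm_mul _ _
        have h3 := hp.four_le_nm
        have h4 := nm_pos.mpr hm1.ne_zero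
        have h5 : 4 * nm m ≤ nm p * nm m := Nat.mul_le_mul_right _ h3
        omega
      have hMm : Sm (M * p) m := ⟨hm1, hmS.2.mul_right hcop.symm⟩
      have e1 : M * (p * m) = (M * p) * m := by ring
      rw [e1, ih m hnm hsm (M * p) u hMm hu ((dvd_mul_left m p).trans hnu) φ hφ,
        sum_dvs_p hp1 hpp hm1 hpm]
      refine Finset.sum_congr rfl fun D hD => ?_
      rw [sum_dvs_p hp1 hpp hm1 hpm, sum_dvs_p hp1 hpp hm1 hpm, ← Finset.sum_add_distrib]
      refine Finset.sum_congr rfl fun B hB => ?_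
      rw [mem_dvs hm1.ne_zero] at hD hB
      refine tf_step hpS hpp hD.1 hB.1 (hsm.squarefree_of_dvd hD.2) (fun h => hpm (h.trans hD.2))
        (fun h => hpm (h.trans hB.2)) hu ((mul_dvd_mul_left p hD.2).trans hnu) hφ

open Classical in
/-- **E4 (C): removal of a squarefree modulus that divides the frequency** -/
theorem NT_full {n M u : Eis} (hsq : Squarefree n) (hM : Sm M n) (hu : u ≠ 0) (hnu : n ∣ u)
    {φ : Eis → ℂ} (hφ : Dcy φ) :
    NT (M * n) u φ = ∑ D ∈ dvs n, ∑ B ∈ (dvs n).filter (fun B => B ^ 3 ∣ u),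
      cB D * conj (sy (u / D) D) * ((muE B : ℂ) * (nm B : ℂ) ^ 3) *
        NT M (u / (D * B ^ 3)) (fun k => φ (D ^ 2 * B ^ 3 * k)) := by
  rw [NT_full0 (nm n) n le_rfl hsq M u hM hu hnu φ hφ]
  refine Finset.sum_congr rfl fun D _ => ?_
  rw [Finset.sum_filter]
  rfl

/-! ### primes prime to the frequency -/

/-- the coefficient of the removal of primes that do not divide the frequency -/
def cA (A : Eis) : ℂ := (muE A : ℂ) * ((Real.sqrt (nm A) : ℝ) : ℂ) * conj (G A)

lemma cA_one : cA 1 = 1 := by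
  unfold cA
  rw [muE_one, nm_one, G_one']
  simp

lemma cA_step {p A h : Eis} (hp : IsPrim p) (hpp : Prime p) (hA : IsPrim A) (hpA : ¬ p ∣ A) :
    cA (p * A) * sy h (p * A) = -(cA A * sy h A * c0 p (h * A)) := by
  have hcop : IsCoprime p A := ((hpp.irreducible).coprime_iff_not_dvd).mpr hpA
  unfold cA c0
  rw [muE_mul hpp.ne_zero hA.ne_zero hcop, muE_prime hpp, Gauss880.G_mul_all Gauss880.syG hp hA,
    syAx.mul_right h p A hp hA, syAx.mul_left h A p hp, nm_mul]
  have h1 : Real.sqrt ((nm p * nm A : ℕ) : ℝ) = Real.sqrt (nm p) * Real.sqrt (nm A) := by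
    rw [Nat.cast_mul, Real.sqrt_mul (Nat.cast_nonneg _)]
  have h2 : sy p A = sy A p := syAx.recip _ _ hp hA
  rw [h1]
  simp only [map_mul, Complex.conj_conj]
  push_cast
  rw [h2]
  ring

theorem NT_cop0 : ∀ (N : ℕ) (n : Eis), nm n ≤ N → Squarefree n → ∀ (M h : Eis), Sm M n →
    IsCoprime h n → ∀ φ : Eis → ℂ, Dcy φ →
    NT (M * n) h φ = ∑ A ∈ dvs n, cA A * sy h A * NT M (h * A) (fun k => φ (A * k)) := by
  intro N
  induction N with
  | zero =>
    intro n hn _ M v hM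
    have := nm_pos.mpr hM.ne_zero
    omega
  | succ N ih =>
    intro n hn hsq M h hM hh φ hφ
    by_cases h1 : n = 1
    · subst h1
      have e : dvs (1 : Eis) = {1} := by
        ext x
        rw [mem_dvs one_ne_zero, Finset.mem_singleton]
        constructor
        · rintro ⟨h1, h2⟩
          exact isPrim_eq_one_of_isUnit h1 (isUnit_of_dvd_one h2)
        · rintro rfl
          exact ⟨isPrim_one, dvd_rfl⟩
      rw [e, Finset.sum_singleton, cA_one, syAx.one_right]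
      simp
    · obtain ⟨p, hp, hpn⟩ := exists_pp_dvd_of_isPrim hM.prim h1
      obtain ⟨m, rfl⟩ := hpn
      have hp1 := hp.isPrim
      have hpp := hp.prime
      have hp0 := hpp.ne_zero
      have hm1 : IsPrim m := hM.prim.of_mul_left hp1
      have hmS : Sm M m := hM.of_mul_left hp1
      have hpS : Sm M p := hM.of_dvd hp1 (dvd_mul_right _ _)
      have hsm : Squarefree m := hsq.of_mul_right
      have hpm : ¬ p ∣ m := by
        intro h
        exact hpp.not_isUnit (hsq p (mul_dvd_mul_left p h))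
      have hcop : IsCoprime p m := ((hpp.irreducible).coprime_iff_not_dvd).mpr hpm
      have hnm : nm m ≤ N := by
        have h2 : nm (p * m) = nm p * nm m := nm_mul _ _
        have h3 := hp.four_le_nm
        have h4 := nm_pos.mpr hm1.ne_zero
        have h5 : 4 * nm m ≤ nm p * nm m := Nat.mul_le_mul_right _ h3
        omega
      have hMm : Sm (M * p) m := ⟨hm1, hmS.2.mul_right hcop.symm⟩
      have e1 : M * (p * m) = (M * p) * m := by ring
      rw [e1, ih m hnm hsm (M * p) h hMm hh.of_mul_right_right φ hφ,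
        sum_dvs_p hp1 hpp hm1 hpm]
      refine Finset.sum_congr rfl fun A hA => ?_
      rw [mem_dvs hm1.ne_zero] at hA
      have hpA : ¬ p ∣ A := fun h => hpm (h.trans hA.2)
      have hphA : ¬ p ∣ h * A := by
        intro h'
        rcases hpp.dvd_or_dvd h' with h' | h'
        · exact hpp.not_isUnit (hh.isUnit_of_dvd' h' (dvd_mul_right _ _))
        · exact hpA h'
      have hφ2 : Dcy (fun k => φ (A * k)) := hφ.dil hA.1.ne_zero
      have e6 : (fun k => φ (p * A * k)) = fun k => φ (A * (p * k)) := by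
        funext k
        congr 1
        ring
      rw [NT_rem0 hpS hpp hphA hφ2, cA_step hp1 hpp hA.1 hpA, e6,
        show h * (p * A) = h * A * p by ring]
      ring

/-- **removal of a squarefree modulus prime to the frequency** -/
theorem NT_cop {n M h : Eis} (hsq : Squarefree n) (hM : Sm M n) (hh : IsCoprime h n)
    {φ : Eis → ℂ} (hφ : Dcy φ) :
    NT (M * n) h φ = ∑ A ∈ dvs n, cA A * sy h A * NT M (h * A) (fun k => φ (A * k)) :=
  NT_cop0 (nm n) n le_rfl hsq M h hM hh φ hφ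

open Classical in
/-- **removal of a squarefree modulus `n₁ n₂` with `n₁ ∣ u`, `n₂` prime to `u`** -/
theorem NT_any {n1 n2 M u : Eis} (hsq1 : Squarefree n1) (hsq2 : Squarefree n2)
    (hM1 : Sm M n1) (hM2 : Sm (M * n1) n2) (hu : u ≠ 0) (hnu : n1 ∣ u) (hu2 : IsCoprime u n2)
    {φ : Eis → ℂ} (hφ : Dcy φ) :
    NT (M * n1 * n2) u φ = ∑ A ∈ dvs n2, ∑ D ∈ dvs n1,
      ∑ B ∈ (dvs n1).filter (fun B => B ^ 3 ∣ u * A),
      cA A * sy u A * (cB D * conj (sy (u * A / D) D) * ((muE B : ℂ) * (nm B : ℂ) ^ 3)) *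
        NT M (u * A / (D * B ^ 3)) (fun k => φ (A * D ^ 2 * B ^ 3 * k)) := by
  rw [NT_cop hsq2 hM2 hu2 hφ]
  refine Finset.sum_congr rfl fun A hA => ?_
  rw [mem_dvs hM2.ne_zero] at hA
  rw [NT_full hsq1 hM1 (mul_ne_zero hu hA.1.ne_zero) (hnu.mul_right _) (hφ.dil hA.1.ne_zero),
    Finset.mul_sum]
  refine Finset.sum_congr rfl fun D _ => ?_
  rw [Finset.mul_sum]
  refine Finset.sum_congr rfl fun B _ => ?_
  have e : (fun k => φ (A * D ^ 2 * B ^ 3 * k)) = fun k => φ (A * (D ^ 2 * B ^ 3 * k)) := by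
    funext k; congr 1; ring
  rw [e]
  ring

end Crest.Agent.R017.NT47
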