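import Crest.Agent.R017.E4defs_352
import Crest.Agent.R017.E4d_579
import Crest.Agent.R017.NT3_47

/-!
# Row 17, C70/E4: tools for the assembly (helper352)

* `rd`, `PrI` : radicals
* `NT_rad` : `NT (M a) = NT (M rd a)`
* `sum_bp` : regrouping of a sum by the `t`-part
-/

set_option autoImplicit false

noncomputable section

open Complex
open scoped ComplexConjugate

namespace Crest.Agent.R017.E4352

open Crest.Agent.R012 Crest.Agent.R012.Eis Crest.Agent.R012.Mob705 Crest.Agent.R012.Gauss880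
open Crest.Agent.R012.GaussLoc283
open Crest.Agent.R012.Div277
open Crest.Agent.R017.Sx545 Crest.Agent.R017.CM106 Crest.Agent.R017.C70 Crest.Agent.R017.C590
open Crest.Agent.R017.B770 Crest.Agent.R017.E2440
open Crest.Agent.R017.E4579 (bpt bco SupB)

/-! ### radicals -/

lemma rd_prim (a : Eis) : IsPrim (rd a) := (ppSet_pp a).isPrim_prod

lemma rd_sqf (a : Eis) : Squarefree (rd a) := (ppSet_pp a).squarefree_prod

lemma rd_dvd (a : Eis) : rd a ∣ a := prod_pp_dvd a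

lemma pp_rd (a : Eis) : pp (rd a) = pp a := (ppSet_pp a).pp_prod

lemma dvd_rd {a D : Eis} (ha : a ≠ 0) (hD : IsPrim D) :
    D ∣ rd a ↔ Squarefree D ∧ ∀ p, Prime p → p ∣ D → p ∣ a := by
  constructor
  · intro h
    exact ⟨(rd_sqf a).squarefree_of_dvd h, fun p _ hp => (hp.trans h).trans (rd_dvd a)⟩
  · rintro ⟨h1, h2⟩
    rw [← prod_pp hD h1]
    refine (ppSet_pp D).prod_dvd.mpr fun p hp => ?_
    have hp1 := isPP_of_mem_pp hp
    refine ((ppSet_pp a).dvd_prod hp1).mpr ?_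
    exact (mem_pp ha).mpr ⟨hp1, h2 p hp1.prime (dvd_of_mem_pp hp)⟩

lemma prI_iff {q R : Eis} : PrI q R ↔ IsPrim R ∧ SupB R q := Iff.rfl

lemma cop_of_primes {a b : Eis} (ha : IsPrim a) (h : ∀ p, Prime p → p ∣ a → ¬ p ∣ b) :
    IsCoprime a b := by
  rw [isCoprime_iff_pp ha]
  intro p hp h1 h2
  exact h p hp.prime h1 h2

/-- associate primary prime -/
lemma exists_pp_of_prime {p a : Eis} (hp : Prime p) (ha : IsPrim a) (h : p ∣ a) :
    ∃ q, IsPP q ∧ Associated q p := by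
  have h1 : ¬ lam ∣ p := fun h' => ha.not_lam_dvd (h'.trans h)
  obtain ⟨q, hq, hqp⟩ := exists_pp_dvd h1 hp.not_isUnit
  exact ⟨q, hq, hq.prime.associated_of_dvd hp hqp⟩

lemma cop_iff_primes {a b : Eis} (ha : IsPrim a) :
    IsCoprime a b ↔ ∀ p, Prime p → p ∣ a → ¬ p ∣ b :=
  ⟨fun h _ hp h1 h2 => hp.not_isUnit (h.isUnit_of_dvd' h1 h2), cop_of_primes ha⟩

lemma rd_mul {a b : Eis} (ha : a ≠ 0) (hb : b ≠ 0) (h : IsCoprime a b) :
    rd (a * b) = rd a * rd b := by
  classical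
  unfold rd
  rw [pp_mul ha hb, Finset.prod_union (pp_disjoint h)]

lemma nm_rd_mul {a b : Eis} (ha : a ≠ 0) (hb : b ≠ 0) (h : IsCoprime a b) :
    (nm (rd (a * b)) : ℝ) = nm (rd a) * nm (rd b) := by
  rw [rd_mul ha hb h, nm_mul]; push_cast; rfl

lemma one_le_nm_rd (a : Eis) : (1 : ℝ) ≤ nm (rd a) := one_le_nm (rd_prim a).ne_zero

lemma cop_rd_iff {a b : Eis} (hb : IsPrim b) : IsCoprime a (rd b) ↔ IsCoprime a b := by
  rw [isCoprime_comm, cop_iff_primes (rd_prim b), isCoprime_comm (x := a),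
    cop_iff_primes hb]
  constructor
  · intro h p hp h1 h2
    obtain ⟨q, hq, hqp⟩ := exists_pp_of_prime hp hb h1
    have h3 : q ∣ rd b := (dvd_rd hb.ne_zero hq.isPrim).mpr
      ⟨hq.prime.squarefree, fun r _ hr => hr.trans (hqp.dvd.trans h1)⟩
    exact h q hq.prime h3 (hqp.dvd.trans h2)
  · intro h p hp h1 h2
    exact h p hp (h1.trans (rd_dvd b)) h2

lemma sm_rd {M b : Eis} (hb : IsPrim b) (d : Eis) : Sm (M * rd b) d ↔ Sm (M * b) d := by
  have h1 : Sm (M * rd b) d ↔ Sm M d ∧ IsCoprime d (rd b) := by rw [sm_mul_right]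
  have h2 : Sm (M * b) d ↔ Sm M d ∧ IsCoprime d b := by rw [sm_mul_right]
  rw [h1, h2, cop_rd_iff hb]

lemma NT_rad {M b : Eis} (hb : IsPrim b) (u : Eis) (φ : Eis → ℂ) :
    NT (M * b) u φ = NT (M * rd b) u φ := by
  have e : Sm (M * b) = Sm (M * rd b) := funext fun d => propext (sm_rd hb d).symm
  unfold NT DS
  rw [e]

/-! ### regrouping by the `t`-part -/

open Classical in
lemma sum_bp {t : Eis} (ht : IsPrim t) (N : ℕ) (F : Eis → ℂ) :
    ∑ x ∈ primBall N, F x = ∑ R ∈ (primBall N).filter (fun R => PrI t R),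
      ∑ x ∈ primBall N, if IsCoprime x t ∧ nm (R * x) ≤ N then F (R * x) else 0 := by
  have h1 : ∀ x ∈ primBall N, bpt t x ∈ (primBall N).filter (fun R => PrI t R) := by
    intro x hx
    rw [mem_primBall] at hx
    rw [Finset.mem_filter, mem_primBall]
    have h2 := E4579.bpt_dvd ht hx.2
    exact ⟨⟨(nm_le_of_dvd hx.2.ne_zero h2).trans hx.1, E4579.bpt_prim ht hx.2⟩,
      E4579.bpt_prim ht hx.2, E4579.bpt_sup ht hx.2⟩
  rw [← Finset.sum_fiberwise_of_maps_to h1]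
  refine Finset.sum_congr rfl fun R hR => ?_
  rw [Finset.mem_filter, mem_primBall] at hR
  obtain ⟨⟨hRn, hRp⟩, -, hRs⟩ := hR
  rw [← Finset.sum_filter]
  symm
  refine Finset.sum_bij (fun x _ => R * x) ?_ ?_ ?_ ?_
  · intro x hx
    rw [Finset.mem_filter, mem_primBall] at hx
    obtain ⟨⟨h2, h3⟩, h4, h5⟩ := hx
    rw [Finset.mem_filter, mem_primBall]
    exact ⟨⟨h5, hRp.mul h3⟩, (E4579.bpt_eq ht hRp h3 hRs h4).1⟩
  · intro x _ y _ h
    exact mul_left_cancel₀ hRp.ne_zero h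
  · intro x hx
    rw [Finset.mem_filter, mem_primBall] at hx
    obtain ⟨⟨h2, h3⟩, h4⟩ := hx
    obtain ⟨y, hy, hy2⟩ := (E4579.bpt_eq_iff ht h3 hRp hRs).mp h4
    have hyp : IsPrim y := (hy ▸ h3 : IsPrim (R * y)).of_mul_left hRp
    refine ⟨y, ?_, hy.symm⟩
    rw [Finset.mem_filter, mem_primBall]
    refine ⟨⟨?_, hyp⟩, hy2, by rw [← hy]; exact h2⟩
    exact (nm_le_of_dvd h3.ne_zero (hy ▸ dvd_mul_left y R)).trans h2
  · intro x _; rfl

/-- a finite form of the sum over `SSm` -/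
lemma tsum_SSm {M : Eis} {c : Eis → ℂ} (hc : SSm M c) {N : ℕ} (hN : ∀ x, c x ≠ 0 → nm x ≤ N)
    (F : Eis → ℂ) : ∑' x, c x * F x = ∑ x ∈ primBall N, c x * F x := by
  classical
  refine tsum_eq_sum fun x hx => ?_
  by_cases h : c x = 0
  · rw [h, zero_mul]
  · exact absurd (mem_primBall.mpr ⟨hN x h, (hc.sm x h).prim⟩) hx

/-! ### composition of twists -/

/-- functions multiplicative on coprime-to-`t` primary elements (the twists) -/
lemma tws_tws {R t R' b : Eis} {g₀ g c : Eis → ℂ} (hg : ∀ x y, g₀ (x * y) = g₀ x * g₀ y)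
    (hR' : IsCoprime R' t) (x : Eis) :
    tws R' b g (tws R t g₀ c) x = g₀ R' * tws (R * R') (t * b) (fun y => g y * g₀ y) c x := by
  unfold tws
  by_cases h1 : IsCoprime x b
  · by_cases h2 : IsCoprime x t
    · rw [if_pos h1, if_pos (hR'.mul_left h2), if_pos (h2.mul_right h1), hg,
        show R * R' * x = R * (R' * x) by ring]
      ring
    · rw [if_pos h1, if_neg (fun h => h2 h.of_mul_left_right),
        if_neg (fun h => h2 h.of_mul_right_left)]
      ring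
  · rw [if_neg h1, if_neg (fun h => h1 h.of_mul_right_right), mul_zero]

lemma tws_tws_zero {R t R' b : Eis} {g₀ g c : Eis → ℂ} (hR' : ¬ IsCoprime R' t) (x : Eis) :
    tws R' b g (tws R t g₀ c) x = 0 := by
  unfold tws
  rw [if_neg (fun h : IsCoprime (R' * x) t => hR' h.of_mul_left_left)]
  simp

end Crest.Agent.R017.E4352
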