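import Crest.Agent.R017.P3allF_283
import Crest.Agent.R017.C70Defs_54

/-!
# Row 17, R8 (E3, item (b)): the diagonal sums `Σ_k |th(j k)|²` (helper829)

For `j` as in `JC`, `b` primary, `(j, b) = 1`:
`FJ j b y = Σ_{k primary, N k ≤ y, (k,b)=1} |th(j k)|²
  = (3/2) κ₀ PE(b) N(j)^(-1/3) y^(2/3) + O(sig(b) τ(j)² N(j)^(-1/6) y^(1/3) EL(y))`,
by the exact recursions (`p` prime, `p ∤ j b`, `N = N(p)`)
`FJ (j p) b y = N^(-1/3) FJ j (b p) y + FJ j b (y/N²)`, `FJ (j p²) b y = FJ j b (y/N)`.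
-/

set_option autoImplicit false

noncomputable section

open Finset MeasureTheory
open scoped ComplexConjugate

namespace Crest.Agent.R017.GrB829

open Crest.Agent.R012 Crest.Agent.R012.Eis Crest.Agent.R012.Tau85 Crest.Agent.R012.T3_85
open Crest.Agent.R012.Mob705 Crest.Agent.R012.Div277 Crest.Agent.R012.Gauss880
open Crest.Agent.R017.PX764 Crest.Agent.R017.P3all283 Crest.Agent.R017.C70

lemma norm_th_lamish {r : Eis} (hr : Rho777.Lamish r) {a : Eis} (ha : IsPrim a) :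
    ‖th (r * a)‖ ^ 2 = ‖th r‖ ^ 2 * ‖tauE a‖ ^ 2 := by
  unfold th
  rw [norm_div, norm_div, div_pow, div_pow, norm_rho_mul rho_rel hr ha]
  ring

lemma lamish_one : Rho777.Lamish (1 : Eis) := by
  have := lamish_ulam isUnit_one 0
  simpa using this

lemma norm_th_prim {a : Eis} (ha : IsPrim a) : ‖th a‖ ^ 2 = ‖tauE a‖ ^ 2 := by
  have := norm_th_lamish lamish_one ha
  rw [one_mul, th_one, norm_one, one_pow, one_mul] at this
  exact this

/-- `Σ_{k primary, N k ≤ y, (k,b)=1} |th(j k)|²` -/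
def FJ (j b : Eis) (y : ℝ) : ℝ := ∑ k ∈ cop b y, ‖th (j * k)‖ ^ 2

lemma FJ_nonneg (j b : Eis) (y : ℝ) : 0 ≤ FJ j b y := Finset.sum_nonneg fun _ _ => by positivity

lemma FJ_one (b : Eis) (y : ℝ) : FJ 1 b y = TT b y := by
  classical
  unfold FJ TT cop g2
  rw [Finset.sum_filter]
  refine Finset.sum_congr rfl fun k hk => ?_
  rw [one_mul, norm_th_prim (mem_pb.1 hk).2]

lemma coprime_iff {p k : Eis} (hp : Prime p) : IsCoprime k p ↔ ¬ p ∣ k := by
  rw [isCoprime_comm]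
  exact hp.irreducible.coprime_iff_not_dvd

lemma FJ_split {j b p : Eis} (hp : IsPP p) (hpb : IsCoprime p b) (y : ℝ) :
    FJ j b y = FJ j (b * p) y + FJ (j * p) b (y / nm p) := by
  classical
  unfold FJ
  rw [← Finset.sum_filter_add_sum_filter_not (cop b y) (fun k => p ∣ k),
    cop_filter_dvd b y hp.1 hpb, Finset.sum_map, add_comm]
  congr 1
  · refine Finset.sum_congr ?_ fun _ _ => rfl
    ext k
    rw [mem_filter, mem_cop, mem_cop, IsCoprime.mul_right_iff, coprime_iff hp.2]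
    tauto
  · refine Finset.sum_congr rfl fun k _ => ?_
    rw [mulEmb_apply, ← mul_assoc]

lemma sqf_pp {p : Eis} (hp : IsPP p) : Squarefree p := hp.2.squarefree

lemma FJ_p1 {j b p : Eis} (hp : IsPP p) (hpj : ¬ p ∣ j) (y : ℝ) :
    FJ (j * p) (b * p) y = n6 p ^ 2 * FJ j (b * p) y := by
  unfold FJ
  rw [Finset.mul_sum]
  refine Finset.sum_congr rfl fun k hk => ?_
  have hk2 := (mem_cop.1 hk).2
  rw [IsCoprime.mul_right_iff, coprime_iff hp.2] at hk2
  have h1 : ¬ p ∣ j * k := fun h => (hp.2.dvd_or_dvd h).elim hpj hk2.2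
  have h2 : IsCoprime (j * k) p := (coprime_iff hp.2).2 h1
  rw [show j * p * k = (j * k) * p by ring, th_mul hp.1 (sqf_pp hp) h2, norm_mul, norm_mul,
    RCLike.norm_conj, norm_Gh_one hp.1 (sqf_pp hp) h2, one_mul, mul_pow, Complex.norm_real,
    Real.norm_of_nonneg (n6_pos hp.1.ne_zero).le]

lemma FJ_p2 {j b p : Eis} (hp : IsPP p) (hpj : ¬ p ∣ j) (y : ℝ) :
    FJ (j * p ^ 2) (b * p) y = 0 := by
  unfold FJ
  refine Finset.sum_eq_zero fun k hk => ?_
  have hk2 := (mem_cop.1 hk).2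
  rw [IsCoprime.mul_right_iff, coprime_iff hp.2] at hk2
  have h1 : ¬ p ∣ j * k := fun h => (hp.2.dvd_or_dvd h).elim hpj hk2.2
  rw [show j * p ^ 2 * k = (j * k) * p ^ 2 by ring, th_two hp.2 hp.1 h1]
  simp

lemma FJ_p3 {j b p : Eis} (hp : IsPP p) (y : ℝ) : FJ (j * p ^ 3) b y = FJ j b y := by
  unfold FJ
  refine Finset.sum_congr rfl fun k _ => ?_
  rw [show j * p ^ 3 * k = (j * k) * p ^ 3 by ring, th_cube hp.1]

/-- the recursion at `v_p(j) = 2` -/
lemma FJ_rec2 {j b p : Eis} (hp : IsPP p) (hpb : IsCoprime p b) (hpj : ¬ p ∣ j) (y : ℝ) :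
    FJ (j * p ^ 2) b y = FJ j b (y / nm p) := by
  rw [FJ_split hp hpb, FJ_p2 hp hpj, zero_add, show j * p ^ 2 * p = j * p ^ 3 by ring, FJ_p3 hp]

/-- the recursion at `v_p(j) = 1` -/
lemma FJ_rec1 {j b p : Eis} (hp : IsPP p) (hpb : IsCoprime p b) (hpj : ¬ p ∣ j) (y : ℝ) :
    FJ (j * p) b y = n6 p ^ 2 * FJ j (b * p) y + FJ j b (y / nm p / nm p) := by
  rw [FJ_split hp hpb, FJ_p1 hp hpj, show j * p * p = j * p ^ 2 by ring, FJ_rec2 hp hpb hpj]

/-! ### the main terms -/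

/-- the main term -/
def Mn (j b : Eis) (y : ℝ) : ℝ :=
  3 / 2 * (kap0 * PE b) * (nm j : ℝ) ^ (-(1 : ℝ) / 3) * y ^ (2 / 3 : ℝ)

/-- the error term -/
def Er (j b : Eis) (y : ℝ) : ℝ :=
  10000000 * sig b * 4 ^ (pp j).card * n6 j * y ^ (1 / 3 : ℝ) * EL y

lemma pp_mul_pp {b p : Eis} (hb : b ≠ 0) (hp : IsPP p) : pp (b * p) = pp b ∪ {p} := by
  rw [pp_mul hb hp.1.ne_zero, pp_prime hp]

lemma not_mem_pp {b p : Eis} (hb : b ≠ 0) (h : ¬ p ∣ b) : p ∉ pp b := fun hm =>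
  h ((mem_pp hb).1 hm).2

lemma PE_mul_pp {b p : Eis} (hb : b ≠ 0) (hp : IsPP p) (h : ¬ p ∣ b) :
    PE (b * p) = PE b * (1 - 1 / (nm p : ℝ)) := by
  classical
  unfold PE
  rw [pp_mul_pp hb hp, Finset.prod_union (Finset.disjoint_singleton_right.2 (not_mem_pp hb h)),
    Finset.prod_singleton]

lemma sig_mul_pp {b p : Eis} (hb : b ≠ 0) (hp : IsPP p) (h : ¬ p ∣ b) :
    sig (b * p) = sig b * (1 + 1 / Real.sqrt (nm p)) := by
  classical
  unfold sig
  rw [pp_mul_pp hb hp, Finset.prod_union (Finset.disjoint_singleton_right.2 (not_mem_pp hb h)),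
    Finset.prod_singleton]

lemma card_mul_pp {b p : Eis} (hb : b ≠ 0) (hp : IsPP p) (h : ¬ p ∣ b) :
    (pp (b * p)).card = (pp b).card + 1 := by
  classical
  rw [pp_mul_pp hb hp, Finset.card_union_of_disjoint
    (Finset.disjoint_singleton_right.2 (not_mem_pp hb h)), Finset.card_singleton]

lemma card_mul_pp2 {b p : Eis} (hb : b ≠ 0) (hp : IsPP p) (h : ¬ p ∣ b) :
    (pp (b * p ^ 2)).card = (pp b).card + 1 := by
  classical
  rw [pp_mul hb (pow_ne_zero _ hp.1.ne_zero), pp_pow hp.1.ne_zero two_ne_zero, pp_prime hp,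
    Finset.card_union_of_disjoint
    (Finset.disjoint_singleton_right.2 (not_mem_pp hb h)), Finset.card_singleton]

section powers
variable {p : Eis}

lemma nm_pos' (hp : IsPP p) : (0 : ℝ) < nm p := by exact_mod_cast nm_pos.2 hp.1.ne_zero

lemma one_div_nm (hp : IsPP p) : 1 / (nm p : ℝ) = n6 p ^ 6 := by
  unfold n6
  rw [← Real.rpow_natCast, ← Real.rpow_mul (nm_pos' hp).le, one_div, ← Real.rpow_neg_one]
  norm_num

lemma one_div_sqrt_nm (hp : IsPP p) : 1 / Real.sqrt (nm p : ℝ) = n6 p ^ 3 := by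
  unfold n6
  rw [← Real.rpow_natCast, ← Real.rpow_mul (nm_pos' hp).le, one_div, Real.sqrt_eq_rpow,
    ← Real.rpow_neg (nm_pos' hp).le]
  norm_num

lemma div_rpow_n6 (hp : IsPP p) {y : ℝ} (hy : 0 ≤ y) (m : ℕ) :
    (y / nm p) ^ ((m : ℝ) / 3) = y ^ ((m : ℝ) / 3) * n6 p ^ (2 * m) := by
  have h0 := nm_pos' hp
  unfold n6
  rw [Real.div_rpow hy h0.le, ← Real.rpow_natCast (((nm p : ℝ)) ^ (-(1 : ℝ) / 6)),
    ← Real.rpow_mul h0.le, div_eq_mul_inv, ← Real.rpow_neg h0.le]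
  congr 2
  push_cast
  ring

lemma rpow_third_mul (j : Eis) (hp : IsPP p) :
    (nm (j * p) : ℝ) ^ (-(1 : ℝ) / 3) = (nm j : ℝ) ^ (-(1 : ℝ) / 3) * n6 p ^ 2 := by
  have h0 := nm_pos' hp
  unfold n6
  rw [nm_mul]
  push_cast
  rw [Real.mul_rpow (Nat.cast_nonneg _) h0.le, ← Real.rpow_natCast, ← Real.rpow_mul h0.le]
  congr 2
  norm_num

end powers

lemma EL_nonneg (y : ℝ) : 0 ≤ EL y := zero_le_one.trans (one_le_EL y)

lemma div_le_self' {p : Eis} (hp : IsPP p) {y : ℝ} (hy : 0 ≤ y) : y / nm p ≤ y := by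
  have h1 : (1 : ℝ) ≤ nm p := by exact_mod_cast nm_pos.2 hp.1.ne_zero
  exact div_le_self hy h1

/-- step `v_p(j) = 2` -/
lemma step2 {j b p : Eis} (hj : j ≠ 0) (hp : IsPP p) (hpb : IsCoprime p b)
    (hpj : ¬ p ∣ j) {y : ℝ} (hy : 0 ≤ y)
    (h : |FJ j b (y / nm p) - Mn j b (y / nm p)| ≤ Er j b (y / nm p)) :
    |FJ (j * p ^ 2) b y - Mn (j * p ^ 2) b y| ≤ Er (j * p ^ 2) b y := by
  have hs0 := n6_pos hp.1.ne_zero
  have hs1 := n6_le_one hp.1.ne_zero
  have hM : Mn (j * p ^ 2) b y = Mn j b (y / nm p) := by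
    unfold Mn
    have h1 := div_rpow_n6 hp hy 2
    push_cast at h1
    rw [h1, show j * p ^ 2 = j * p * p by ring, rpow_third_mul _ hp, rpow_third_mul _ hp]
    ring
  have hE : Er j b (y / nm p) ≤ Er (j * p ^ 2) b y := by
    unfold Er
    have h1 := div_rpow_n6 hp hy 1
    rw [Nat.cast_one, mul_one] at h1
    rw [h1, card_mul_pp2 hj hp hpj, show j * p ^ 2 = j * p * p by ring, n6_mul, n6_mul]
    have hEL := EL_mono (div_le_self' hp hy)
    have h0 : 0 ≤ 10000000 * sig b * 4 ^ (pp j).card * n6 j * (y ^ (1 / 3 : ℝ) * n6 p ^ 2) := by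
      have := sig_pos b
      have := n6_pos hj
      positivity
    have h2 : 0 ≤ 10000000 * sig b * 4 ^ (pp j).card * n6 j * (y ^ (1 / 3 : ℝ) * n6 p ^ 2) * EL y :=
      mul_nonneg h0 (EL_nonneg y)
    calc 10000000 * sig b * 4 ^ (pp j).card * n6 j * (y ^ (1 / 3 : ℝ) * n6 p ^ 2) * EL (y / nm p)
        ≤ 10000000 * sig b * 4 ^ (pp j).card * n6 j * (y ^ (1 / 3 : ℝ) * n6 p ^ 2) * EL y :=
          mul_le_mul_of_nonneg_left hEL h0
      _ ≤ 4 * (10000000 * sig b * 4 ^ (pp j).card * n6 j * (y ^ (1 / 3 : ℝ) * n6 p ^ 2) * EL y) := by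
          linarith
      _ = _ := by rw [pow_succ]; ring
  rw [FJ_rec2 hp hpb hpj, hM]
  exact h.trans hE

/-- step `v_p(j) = 1` -/
lemma step1 {j b p : Eis} (hj : j ≠ 0) (hb : b ≠ 0) (hp : IsPP p) (hpb : IsCoprime p b)
    (hpj : ¬ p ∣ j) {y : ℝ} (hy : 0 ≤ y)
    (h : |FJ j (b * p) y - Mn j (b * p) y| ≤ Er j (b * p) y)
    (h' : |FJ j b (y / nm p / nm p) - Mn j b (y / nm p / nm p)| ≤ Er j b (y / nm p / nm p)) :
    |FJ (j * p) b y - Mn (j * p) b y| ≤ Er (j * p) b y := by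
  have hs0 := n6_pos hp.1.ne_zero
  have hs1 := n6_le_one hp.1.ne_zero
  have hpb' : ¬ p ∣ b := (coprime_iff hp.2).1 hpb.symm
  have hy1 : 0 ≤ y / nm p := div_nonneg hy (Nat.cast_nonneg _)
  have hM : Mn (j * p) b y = n6 p ^ 2 * Mn j (b * p) y + Mn j b (y / nm p / nm p) := by
    unfold Mn
    have h1 := div_rpow_n6 hp hy1 2
    have h2 := div_rpow_n6 hp hy 2
    push_cast at h1 h2
    rw [h1, h2, rpow_third_mul _ hp, PE_mul_pp hb hp hpb', one_div_nm hp]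
    ring
  have hE : n6 p ^ 2 * Er j (b * p) y + Er j b (y / nm p / nm p) ≤ Er (j * p) b y := by
    unfold Er
    have h1 := div_rpow_n6 hp hy 1
    have h2 := div_rpow_n6 hp hy1 1
    rw [Nat.cast_one, mul_one] at h1 h2
    rw [h2, h1, card_mul_pp hj hp hpj, n6_mul, sig_mul_pp hb hp hpb', one_div_sqrt_nm hp]
    have hEL : EL (y / nm p / nm p) ≤ EL y :=
      EL_mono ((div_le_self' hp hy1).trans (div_le_self' hp hy))
    set Q : ℝ := 10000000 * sig b * 4 ^ (pp j).card * n6 j * y ^ (1 / 3 : ℝ) with hQ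
    have hQ0 : 0 ≤ Q := by
      have := sig_pos b
      have := n6_pos hj
      positivity
    set s := n6 p
    have hQE : 0 ≤ Q * EL y := mul_nonneg hQ0 (EL_nonneg y)
    have e1 : s ^ 2 * (10000000 * (sig b * (1 + s ^ 3)) * 4 ^ (pp j).card * n6 j *
        y ^ (1 / 3 : ℝ) * EL y) = s ^ 2 * (1 + s ^ 3) * (Q * EL y) := by rw [hQ]; ring
    have e2 : 10000000 * sig b * 4 ^ (pp j).card * n6 j * (y ^ (1 / 3 : ℝ) * s ^ 2 * s ^ 2) *
        EL (y / nm p / nm p) ≤ s ^ 4 * (Q * EL y) := by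
      calc _ = s ^ 4 * Q * EL (y / nm p / nm p) := by rw [hQ]; ring
        _ ≤ s ^ 4 * Q * EL y := mul_le_mul_of_nonneg_left hEL (by positivity)
        _ = _ := by ring
    have e3 : 10000000 * sig b * 4 ^ ((pp j).card + 1) * (n6 j * s) * y ^ (1 / 3 : ℝ) * EL y =
        4 * s * (Q * EL y) := by rw [hQ, pow_succ]; ring
    have h3 : s ^ 2 ≤ s := by nlinarith
    have h4 : s ^ 4 ≤ s := by nlinarith [pow_le_one₀ (n := 3) hs0.le hs1]
    have h5 : s ^ 5 ≤ s := by nlinarith [pow_le_one₀ (n := 4) hs0.le hs1]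
    have e4 : s ^ 2 * (1 + s ^ 3) + s ^ 4 ≤ 4 * s := by nlinarith
    rw [e1, e3]
    calc _ ≤ s ^ 2 * (1 + s ^ 3) * (Q * EL y) + s ^ 4 * (Q * EL y) := by
          gcongr
      _ = (s ^ 2 * (1 + s ^ 3) + s ^ 4) * (Q * EL y) := by ring
      _ ≤ 4 * s * (Q * EL y) := mul_le_mul_of_nonneg_right e4 hQE
  rw [FJ_rec1 hp hpb hpj, hM]
  have e : n6 p ^ 2 * FJ j (b * p) y + FJ j b (y / nm p / nm p) -
      (n6 p ^ 2 * Mn j (b * p) y + Mn j b (y / nm p / nm p)) =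
      n6 p ^ 2 * (FJ j (b * p) y - Mn j (b * p) y) +
        (FJ j b (y / nm p / nm p) - Mn j b (y / nm p / nm p)) := by ring
  rw [e]
  refine (abs_add_le _ _).trans (le_trans ?_ hE)
  rw [abs_mul, abs_of_nonneg (by positivity : (0 : ℝ) ≤ n6 p ^ 2)]
  gcongr

lemma cbF_of_mul {a b : Eis} (h : CbF (a * b)) : CbF b := fun p hp hd =>
  h p hp (hd.trans (dvd_mul_left _ _))

/-- **the frequency sums, `j` primary cube-free** -/
theorem FJ_prim : ∀ (n : ℕ) (j : Eis), nm j ≤ n → IsPrim j → CbF j → ∀ b : Eis, b ≠ 0 →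
    IsCoprime j b → ∀ y : ℝ, 0 ≤ y → |FJ j b y - Mn j b y| ≤ Er j b y := by
  intro n
  induction n with
  | zero =>
    intro j hj hp
    have := nm_pos.2 hp.ne_zero
    omega
  | succ n ih =>
    intro j hj hjp hcf b hb hjb y hy
    by_cases h1 : j = 1
    · subst h1
      rw [FJ_one]
      have := abs_TT_sub_le hb hy
      unfold Mn Er
      rw [nm_one, pp_one, n6_one]
      simpa using this
    · have h2 : pp j ≠ ∅ := fun h => h1 ((pp_eq_empty_iff hjp).1 h)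
      obtain ⟨p, hpm⟩ := Finset.nonempty_iff_ne_empty.2 h2
      have hp := isPP_of_mem_pp hpm
      obtain ⟨j1, rfl⟩ := dvd_of_mem_pp hpm
      have hj1 : IsPrim j1 := hjp.of_mul_left hp.1
      have hpb : IsCoprime p b := hjb.of_mul_left_left
      have hj1b : IsCoprime j1 b := hjb.of_mul_left_right
      have hN : 1 < nm p := hp.one_lt_nm
      have hn1 : nm j1 ≤ n := by
        rw [nm_mul] at hj
        have := nm_pos.2 hj1.ne_zero
        nlinarith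
      by_cases hd : p ∣ j1
      · obtain ⟨j2, rfl⟩ := hd
        have hj2 : IsPrim j2 := hj1.of_mul_left hp.1
        have hj2b : IsCoprime j2 b := hj1b.of_mul_left_right
        have hn2 : nm j2 ≤ n := by
          rw [nm_mul] at hn1
          have := nm_pos.2 hj2.ne_zero
          nlinarith
        have hnd : ¬ p ∣ j2 := by
          rintro ⟨t, rfl⟩
          exact hcf p hp.2 ⟨t, by ring⟩
        rw [show p * (p * j2) = j2 * p ^ 2 by ring]
        exact step2 hj2.ne_zero hp hpb hnd hy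
          (ih j2 hn2 hj2 (cbF_of_mul (cbF_of_mul hcf)) b hb hj2b _
            (div_nonneg hy (Nat.cast_nonneg _)))
      · rw [mul_comm]
        refine step1 hj1.ne_zero hb hp hpb hd hy
          (ih j1 hn1 hj1 (cbF_of_mul hcf) (b * p) (mul_ne_zero hb hp.1.ne_zero)
            (hj1b.mul_right ((coprime_iff hp.2).2 hd)) y hy)
          (ih j1 hn1 hj1 (cbF_of_mul hcf) b hb hj1b _
            (div_nonneg (div_nonneg hy (Nat.cast_nonneg _)) (Nat.cast_nonneg _)))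

/-! ### the frequencies `j = c j'` -/

lemma w_pow_unit (i : ℕ) : IsUnit (w ^ i) := isUnit_w.pow i

lemma c_three (i : ℕ) : (3 : Eis) * w ^ i = (-w ^ 2 * w ^ i) * lam ^ 2 := by
  rw [P3all283.three_eq]; ring

lemma th_c_three {i : ℕ} (hi : i ≤ 2) :
    ‖th (3 * w ^ i)‖ ^ 2 = (nm ((3 : Eis) * w ^ i) : ℝ) ^ (-(1 : ℝ) / 3) := by
  have hu : IsUnit (-w ^ 2 * w ^ i) := ((isUnit_w.pow 2).neg).mul (w_pow_unit i)
  have h1 := rho18 rho_MS rho_rel _ hu 2 le_rfl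
  have hc : (0 : ℝ) < cD := cD_pos
  unfold th
  rw [norm_div, div_pow, Complex.norm_real, Real.norm_of_nonneg hc.le, c_three, h1]
  have h3 : (3 : ℤ) ∣ (-w ^ 2 * w ^ i * lam ^ 2).im := by
    interval_cases i <;> decide
  rw [kapR_of_dvd h3]
  have e : (pC * M49.Dsf) ^ 2 = cD ^ 2 := rfl
  rw [e, mul_div_cancel_left₀ _ (pow_ne_zero _ hc.ne')]
  norm_num

/-- the constants `c` of `JC` -/
def IsC (c : Eis) : Prop := c = 1 ∨ c = 3 ∨ c = 3 * w ∨ c = 3 * w ^ 2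

lemma IsC.lamish {c : Eis} (hc : IsC c) : Rho777.Lamish c := by
  have h : ∀ i : ℕ, Rho777.Lamish (3 * w ^ i) := fun i => by
    rw [c_three]
    exact lamish_ulam (((isUnit_w.pow 2).neg).mul (w_pow_unit i)) 2
  rcases hc with rfl | rfl | rfl | rfl
  · exact lamish_one
  · simpa using h 0
  · simpa using h 1
  · exact h 2

lemma IsC.norm_th {c : Eis} (hc : IsC c) : ‖th c‖ ^ 2 = (nm c : ℝ) ^ (-(1 : ℝ) / 3) := by
  rcases hc with rfl | rfl | rfl | rfl
  · rw [th_one, nm_one]; simp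
  · simpa using th_c_three (i := 0) (by norm_num)
  · simpa using th_c_three (i := 1) (by norm_num)
  · exact th_c_three (i := 2) le_rfl

lemma IsC.ne_zero {c : Eis} (hc : IsC c) : c ≠ 0 := by
  rcases hc with rfl | rfl | rfl | rfl <;> decide

lemma FJ_c {c j : Eis} (hc : IsC c) (hj : IsPrim j) (b : Eis) (y : ℝ) :
    FJ (c * j) b y = (nm c : ℝ) ^ (-(1 : ℝ) / 3) * FJ j b y := by
  unfold FJ
  rw [Finset.mul_sum]
  refine Finset.sum_congr rfl fun k hk => ?_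
  have hjk : IsPrim (j * k) := hj.mul (mem_cop.1 hk).1.2
  rw [mul_assoc, norm_th_lamish hc.lamish hjk, hc.norm_th, norm_th_prim hjk]

lemma two_pow_le {d : Eis} (hd : d ≠ 0) : (2 : ℝ) ^ (pp d).card ≤ tau d := by
  have h1 : ∏ p ∈ pp d, ((1 : ℝ) + 1) = 2 ^ (pp d).card := by
    rw [Finset.prod_const]; norm_num
  have h2 := sum_abs_muE_mul hd (fun _ => (1 : ℝ)) (fun S _ => by simp)
  rw [← h1, ← h2, tau, Finset.card_eq_sum_ones]
  push_cast
  refine Finset.sum_le_sum fun d _ => ?_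
  rw [mul_one]
  exact abs_muE_le_real d

lemma four_pow_le {d : Eis} (hd : d ≠ 0) : (4 : ℝ) ^ (pp d).card ≤ (tau d : ℝ) ^ 2 := by
  have h := two_pow_le hd
  rw [show (4 : ℝ) = 2 ^ 2 by norm_num, ← pow_mul, mul_comm, pow_mul]
  exact pow_le_pow_left₀ (by positivity) h 2

/-- **the frequency sums for `JC j`** -/
theorem FJ_bound {j b : Eis} (hj : JC j) (hb : b ≠ 0) (hjb : IsCoprime j b) {y : ℝ} (hy : 0 ≤ y) :
    |FJ j b y - 3 / 2 * (kap0 * PE b) * (nm j : ℝ) ^ (-(1 : ℝ) / 3) * y ^ (2 / 3 : ℝ)| ≤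
      10000000 * sig b * (tau j : ℝ) ^ 2 * n6 j * y ^ (1 / 3 : ℝ) * EL y := by
  obtain ⟨c, hc, j', hp, hcf, rfl⟩ := hj
  have hc' : IsC c := hc
  have h1 := FJ_prim (nm j') j' le_rfl hp hcf b hb hjb.of_mul_left_right y hy
  rw [FJ_c hc' hp, nm_mul, n6_mul]
  push_cast
  rw [Real.mul_rpow (Nat.cast_nonneg _) (Nat.cast_nonneg _)]
  set x : ℝ := (nm c : ℝ) ^ (-(1 : ℝ) / 3) with hx
  have hnc : (1 : ℝ) ≤ nm c := by exact_mod_cast nm_pos.2 hc'.ne_zero
  have hx0 : 0 ≤ x := by positivity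
  have hx1 : x ≤ n6 c := by
    rw [hx]; unfold n6
    exact Real.rpow_le_rpow_of_exponent_le hnc (by norm_num)
  have e : x * FJ j' b y - 3 / 2 * (kap0 * PE b) * (x * (nm j' : ℝ) ^ (-(1 : ℝ) / 3)) *
      y ^ (2 / 3 : ℝ) = x * (FJ j' b y - Mn j' b y) := by unfold Mn; ring
  rw [e, abs_mul, abs_of_nonneg hx0]
  refine (mul_le_mul_of_nonneg_left h1 hx0).trans ?_
  unfold Er
  have h2 : (4 : ℝ) ^ (pp j').card ≤ (tau (c * j') : ℝ) ^ 2 := by
    refine (four_pow_le hp.ne_zero).trans ?_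
    have h3 := tau_le_of_dvd (mul_ne_zero hc'.ne_zero hp.ne_zero) (dvd_mul_left j' c)
    gcongr
  have hs := sig_pos b
  have hn := n6_pos hp.ne_zero
  have hE := EL_nonneg y
  have hc6 := (n6_pos hc'.ne_zero).le
  calc x * (10000000 * sig b * 4 ^ (pp j').card * n6 j' * y ^ (1 / 3 : ℝ) * EL y)
      ≤ n6 c * (10000000 * sig b * (tau (c * j') : ℝ) ^ 2 * n6 j' * y ^ (1 / 3 : ℝ) * EL y) := by
        gcongr
    _ = _ := by ring

end Crest.Agent.R017.GrB829
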