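import Crest.Agent.R017.E4LCa_858
import Crest.Agent.R017.E4a_352
import Crest.Agent.R017.GrB_829

/-!
# Row 17, C70/E4, case L with an arbitrary cubic character of level `M` (helper858)

* `base_idC`, `base27C` : level 27, character `(σ/·)`, `σ ∈ {1, 3ε}`
* `hasC_all` : level `27 m h`, character `(σ h/·)`
* `law_Cp` : case L for `(σ h/·)`, `h` composed of primes of `M`, general class of dual weights
* `law5_C`, `law5_CS` (with S-unit data), `law5h_C` (compensated weights), `law5_LS`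
-/

set_option autoImplicit false

noncomputable section

open Complex MeasureTheory Set Filter Topology
open scoped ComplexConjugate ContDiff

namespace Crest.Agent.R017.E4LC858

open Crest.Agent.R012 Crest.Agent.R012.Eis Crest.Agent.R012.GaussLoc283
open Crest.Agent.R012.Gauss880 (syG)
open Crest.Agent.R017.FE47 (SM)
open Crest.Agent.R017.F1
open Crest.Agent.R017.X6545 (TF Bd)
open Crest.Agent.R017.X6B848 (fyw ev_fyw)
open Crest.Agent.R017.X6C180 Crest.Agent.R017.X6W180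
open Crest.Agent.R017.Sx545 (Sm sm_one_iff)
open Crest.Agent.R017.E2440 (TP' Cg_piece NT NT_eq_Cg c0 c1)
open Crest.Agent.R017.End699 (HC)
open Crest.Agent.R017.A590
open Crest.Agent.R017.B770 (SW Rad0)
open Crest.Agent.R017.C590
open Crest.Agent.R017.E4352 (WT PrI rd)
open Crest.Agent.R017.E4v5 (Law5)
open Crest.Agent.R017.E4L266
open Crest.Agent.R017.E4X266

variable {σ : Eis} {P : (ℝ → ℝ → ℂ) → Prop}

/-! ### the base -/

lemma sg_dvd (hσ : X6C180.Sg σ) : σ ∣ 3 := by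
  rcases hσ with rfl | ⟨e, he, rfl⟩
  · exact one_dvd _
  · obtain ⟨f, hf⟩ := he.exists_right_inv
    exact ⟨f, by rw [mul_assoc, hf, mul_one]⟩

lemma sg_of_isC (hσ : GrB829.IsC σ) : X6C180.Sg σ := by
  rcases hσ with rfl | rfl | rfl | rfl
  · exact Or.inl rfl
  · exact Or.inr ⟨1, isUnit_one, by rw [mul_one]⟩
  · exact Or.inr ⟨w, isUnit_w, rfl⟩
  · exact Or.inr ⟨w ^ 2, isUnit_w.pow 2, rfl⟩

lemma sg_cop (hσ : X6C180.Sg σ) {d : Eis} (hd : IsPrim d) : IsCoprime σ d :=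
  (hd.isCoprime_three.of_isCoprime_of_dvd_right (sg_dvd hσ)).symm

lemma sg_SM (hσ : X6C180.Sg σ) {M : Eis} (h3 : (3 : Eis) ∣ M) : σ ∈ SM M :=
  ⟨hσ.ne_zero, fun _ _ hd => (hd.trans (sg_dvd hσ)).trans h3⟩

lemma sm_27 : Sm (27 : Eis) = Sm 1 := by
  funext b
  exact propext ⟨fun h => sm_one_iff.mpr h.1, fun h => ⟨h.1, coprime_27 h.1⟩⟩

/-- the main identity at the frequency `σ u` -/
theorem base_idC (hσ : X6C180.Sg σ) {V : ℝ → ℂ} (hV : SW V) {χ : Eis → ℂ}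
    (hχ : ∀ b, IsPrim b → χ b = sy σ b) {u : Eis} (hu : IsPrim u) {Q : ℝ} (hQ : 0 < Q) (τ : ℝ) :
    N3 27 χ u (fun y => (y : ℂ) ^ (I * τ) * V y) Q =
      (Q : ℂ) * ∑ i : IX σ, TP' σ u (Tw τ (FV V)) Q i +
      (kP : ℂ) * ((Xn960.gamN 3 * (Real.pi / 3) : ℝ) : ℂ) * conj (PX764.rho (σ * u)) *
        ((Q ^ (4 / 3 : ℝ) : ℝ) : ℂ) *
        ∫ y : ℝ, Tw τ (fun x => ((Real.exp (2 * x / 3) : ℝ) : ℂ) * FV V x) y := by
  classical
  set F := Tw τ (FV V) with hF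
  have hSc : Sc F := (sc_FV hV).tw τ
  have hwt := wt_GFc hSc
  have hev := ev_fA hwt hQ
  have hσu : σ * u ≠ 0 := mul_ne_zero hσ.ne_zero hu.ne_zero
  have h1 : N3 27 χ u (fun y => (y : ℂ) ^ (I * τ) * V y) Q =
      ((Q ^ (2 / 3 : ℝ) : ℝ) : ℂ) * NT 1 (σ * u) (fun k => fA (GF F) Q (toC k)) := by
    have e0 : NT 1 (σ * u) (fun k => fA (GF F) Q (toC k)) =
        NT 27 u (fun k => sy σ k ^ 1 * fA (GF F) Q (toC k)) := by
      rw [← C590.NT_shift (M := 27) (p := σ) (fun d hd => sg_cop hσ hd.1) 1 u, pow_one,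
        mul_comm σ u]
      unfold NT E2440.DS
      rw [sm_27]
    rw [e0, ← C590.NT_smul]
    unfold N3
    refine C590.NT_congr (fun k hk => ?_) u
    have hk0 : (0 : ℝ) < nm k := by exact_mod_cast nm_pos.2 hk.1.ne_zero
    have hkne : toC k ≠ 0 := by rw [Ne, toC_eq_zero]; exact hk.1.ne_zero
    rw [hχ k hk.1, pow_one, fA_eq hQ hkne, norm_toC_sq, hF, GF_FV V τ (div_pos hk0 hQ)]
    have e1 : ((Q ^ (2 / 3 : ℝ) : ℝ) : ℂ) * ((((nm k : ℝ) ^ (-(2 / 3) : ℝ) : ℝ) : ℂ) *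
        ((((nm k : ℝ) / Q) ^ (2 / 3 : ℝ) : ℝ) : ℂ)) = 1 := by
      rw [← Complex.ofReal_mul, ← Complex.ofReal_mul, Real.div_rpow hk0.le hQ.le,
        Real.rpow_neg hk0.le]
      have h1 : (nm k : ℝ) ^ (2 / 3 : ℝ) ≠ 0 := (Real.rpow_pos_of_pos hk0 _).ne'
      have h2 : Q ^ (2 / 3 : ℝ) ≠ 0 := (Real.rpow_pos_of_pos hQ _).ne'
      field_simp
      norm_num
    linear_combination (-(sy σ k * (((nm k / Q : ℝ) : ℂ) ^ (I * τ) * V ((nm k : ℝ) / Q)))) * e1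
  rw [h1, NT_eq_Cg hev (σ * u), starR PX764.rho_MS hev hσu, mB_fA hwt hQ, mB_rV1 hwt]
  have h2 := Du_eqc (σ := σ) (v := u) hσ hu F hQ
  rw [h2, mellin_GF]
  have h3 : ∫ y : ℝ, F y * ((Real.exp (2 * y / 3) : ℝ) : ℂ) =
      ∫ y : ℝ, Tw τ (fun x => ((Real.exp (2 * x / 3) : ℝ) : ℂ) * FV V x) y := by
    refine integral_congr_ae (Eventually.of_forall fun y => ?_)
    simp only [hF, Tw]
    ring
  rw [h3]
  have e2 : ((Q ^ (2 / 3 : ℝ) : ℝ) : ℂ) * ((Q ^ (1 / 3 : ℝ) : ℝ) : ℂ) = (Q : ℂ) := by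
    rw [← Complex.ofReal_mul, ← Real.rpow_add hQ]
    norm_num
  have e3 : ((Q ^ (2 / 3 : ℝ) : ℝ) : ℂ) * ((Q ^ (2 / 3 : ℝ) : ℝ) : ℂ) =
      ((Q ^ (4 / 3 : ℝ) : ℝ) : ℂ) := by
    rw [← Complex.ofReal_mul, ← Real.rpow_add hQ]
    norm_num
  rw [← e3]
  linear_combination (∑ i : IX σ, TP' σ u F Q i) * e2

/-- one dual piece -/
lemma piece_eqC (hσ : X6C180.Sg σ) {u : Eis} (hu : IsPrim u) (F : ℝ → ℂ) {Q : ℝ} (hQ : 0 < Q)
    (i : IX σ) {χ : Eis → ℂ} (hχ : ∀ b, IsPrim b → χ b = sy (dl' σ i * σ) b) :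
    TP' σ u F Q i = sy (dl' σ i) u *
      D3 27 χ u (fun y => om' σ F i (Real.exp (-Real.log y))) (1 * nm u / Q) := by
  classical
  unfold TP' D3 E2440.DS
  congr 1
  refine tsum_congr fun d => ?_
  have hSM : dl' σ i ∈ SM 3 := SU.SM (dl_SU hσ.ne_zero i)
  have hu0 : (0 : ℝ) < nm u := by exact_mod_cast nm_pos.2 hu.ne_zero
  by_cases hd : IsPrim d
  · have hd9 : Sm (27 : Eis) d := ⟨hd, coprime_27 hd⟩
    rw [if_pos hd, if_pos hd9]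
    beta_reduce
    rw [hχ d hd]
    have hd0 : (0 : ℝ) < nm d := by exact_mod_cast nm_pos.2 hd.ne_zero
    have hcop : IsCoprime (dl' σ i * σ) d := (SM3_coprime hSM hd).mul_left (sg_cop hσ hd)
    have hg : conj (gs (dl' σ i * σ * u) d) = sy (dl' σ i * σ) d * conj (gs u d) := by
      rw [mul_comm (dl' σ i * σ), gs_mul_left syAx u hd hcop, map_mul, Complex.conj_conj]
    rw [hg]
    have e1 : Real.exp (-Real.log ((nm d : ℝ) / (1 * nm u / Q))) = (nm u : ℝ) / (Q * nm d) := by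
      rw [Real.exp_neg, Real.exp_log (by positivity)]
      field_simp
    rw [e1]
    push_cast
    ring
  · rw [if_neg hd, if_neg (fun h => hd h.1)]

lemma dl_dvdC (hσ : X6C180.Sg σ) (i : IX σ) : dl' σ i ∣ 9 := by
  have h9 : 3 * σ ∣ 9 := by
    rw [show (9 : Eis) = 3 * 3 by norm_num]
    exact mul_dvd_mul_left 3 (sg_dvd hσ)
  rcases i with _ | _ | δ
  · exact one_dvd _
  · exact one_dvd _
  · exact (((mem_Dl hσ.ne_zero).mp δ.2).2.2).trans h9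

lemma uni_sy' {δ N : Eis} (h0 : δ ≠ 0) (hN : 9 * δ ∣ N) : Uni N (sy δ) where
  one := syAx.one_right δ
  mul a b ha hb := syAx.mul_right δ a b ha.1 hb.1
  norm _ ha := syAx.norm_eq_one ha.1
    ((ha.2.of_isCoprime_of_dvd_right ((dvd_mul_left δ 9).trans hN)).symm)
  per _ _ ha hb hab := Char766.sy_periodic Char766.suppl h0 ha.1 hb.1 (hN.trans hab)

lemma coprime_243 {b : Eis} (hb : IsPrim b) : IsCoprime b 243 := by
  rw [show (243 : Eis) = 3 ^ 5 by norm_num]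
  exact hb.isCoprime_three.pow_right

/-- **level 27** -/
theorem base27C (hσ : X6C180.Sg σ) (hB : ∀ V : ℝ → ℂ, SW V → ∀ i : IX σ,
    P (fun τ y => om' σ (Tw τ (FV V)) i (Real.exp (-Real.log y))))
    {ψ : Eis → ℂ} (hψ : ∀ b, Sm (27 : Eis) b → ψ b = sy σ b) :
    HasC P 27 ψ mmB (fun u => conj (PX764.rho (σ * u))) := by
  have h243 : (243 : Eis) ≠ 0 := by decide
  have h3 : (3 : Eis) ∣ 243 := ⟨81, by norm_num⟩
  have h27 : (3 : Eis) ∣ 27 := ⟨9, by norm_num⟩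
  have hd : ∀ i : IX σ, dl' σ i ∈ SM 27 := fun i =>
    ⟨(SU.SM (dl_SU hσ.ne_zero i)).1, fun p hp hpd =>
      ((SU.SM (dl_SU hσ.ne_zero i)).2 p hp hpd).trans h27⟩
  have hdσ : ∀ i : IX σ, dl' σ i * σ ∈ SM 27 := fun i => sm_mul_mem (hd i) (sg_SM hσ h27)
  have hcop : ∀ b, Sm (27 : Eis) b → IsCoprime b 243 := fun b hb => coprime_243 hb.1
  set ch : IX σ → Eis → ℂ := fun i => Rst 243 (sy (dl' σ i)) with hch
  set ch2 : IX σ → Eis → ℂ := fun i => Rst 243 (sy (dl' σ i * σ)) with hch2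
  have hHC : ∀ i, HC 243 (ch i) := fun i => hc_rst h243 h3 (uni_sy' (hd i).1 (by
    rw [show (243 : Eis) = 9 * 27 by norm_num]
    exact mul_dvd_mul_left 9 ((dl_dvdC hσ i).trans ⟨3, by norm_num⟩)))
  have hHC2 : ∀ i, HC 243 (ch2 i) := fun i => hc_rst h243 h3 (uni_sy' (hdσ i).1 (by
    rw [show (243 : Eis) = 9 * (9 * 3) by norm_num]
    exact mul_dvd_mul_left 9 (mul_dvd_mul (dl_dvdC hσ i) (sg_dvd hσ))))
  refine ⟨IX σ, inferInstance, ⟨243, fun _ => 1, ch, ch2, 0, 0, fun _ => 1⟩, ⟨?_, ?_⟩, ?_⟩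
  · exact
      { ne := h243
        dvd := ⟨9, by norm_num⟩
        rad := fun r hr hd => by
          have e : (243 : Eis) = 3 ^ 5 := by norm_num
          rw [e] at hd
          exact (hr.dvd_of_dvd_pow hd).trans h27
        η := hHC
        ψ' := hHC2
        ρ := fun _ => one_pos }
  · exact ⟨rfl, rfl, fun i => ⟨dl' σ i, hd i, fun b hb => Rst_of (hcop b hb)⟩,
      fun i => ⟨dl' σ i * σ, hdσ i, fun b hb => Rst_of (hcop b hb)⟩⟩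
  · intro V hV
    refine ⟨fun i τ y => om' σ (Tw τ (FV V)) i (Real.exp (-Real.log y)),
      fun i => hB V hV i, fun u hu Q hQ τ => ?_⟩
    have hχ : ∀ b, IsPrim b → End699.tw ψ 0 b = sy σ b := fun b hb => by
      rw [tw_zero, hψ b ⟨hb, coprime_27 hb⟩]
    rw [base_idC hσ hV hχ hu.1 hQ τ]
    have e1 : ∀ i : IX σ, TP' σ u (Tw τ (FV V)) Q i =
        1 * End699.tw (ch i) 0 u * D3 27 (End699.tw (ch2 i) 0) u
          (fun y => om' σ (Tw τ (FV V)) i (Real.exp (-Real.log y))) (1 * nm u / Q) := by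
      intro i
      have hc : ∀ b, IsPrim b → End699.tw (ch i) 0 b = sy (dl' σ i) b := fun b hb => by
        rw [tw_zero]
        exact Rst_of (coprime_243 hb)
      have hc2 : ∀ b, IsPrim b → End699.tw (ch2 i) 0 b = sy (dl' σ i * σ) b := fun b hb => by
        rw [tw_zero]
        exact Rst_of (coprime_243 hb)
      rw [piece_eqC hσ hu.1 (Tw τ (FV V)) hQ i hc2, hc u hu.1]
      simp only [one_mul]
    rw [Finset.sum_congr rfl fun i _ => e1 i]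
    unfold MT mmB
    ring

/-! ### the induction -/

/-- exponent 0 -/
lemma rho_step0 {p X u s : Eis} (hpr : IsPrim p) (hsqp : Squarefree p) (hp0 : (0 : ℝ) < nm p)
    (hX : X = s * u) (hs : IsCoprime s p) (hu : IsCoprime u p) (c : ℂ) :
    ((1 - (((nm p : ℝ)⁻¹ : ℝ) : ℂ)) * c) * conj (PX764.rho X) =
      c * conj (PX764.rho X) - c0 p u * sy s p * ((((nm p : ℝ)) ^ (4 / 3 : ℝ))⁻¹ : ℝ) *
        (c * conj (PX764.rho (X * p))) := by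
  have hXc : IsCoprime X p := hX ▸ hs.mul_left hu
  have hrho := PX764.rho_mul hpr X hsqp hXc
  have a1 : G p * conj (G p) = 1 := Gauss880.G_mul_conj syG hpr hsqp
  have a2 : sy s p * conj (sy s p) = 1 := by
    rw [Complex.mul_conj, Complex.normSq_eq_norm_sq, PX764.norm_sy_one hpr hs]; simp
  have a3 : sy u p * conj (sy u p) = 1 := by
    rw [Complex.mul_conj, Complex.normSq_eq_norm_sq, PX764.norm_sy_one hpr hu]; simp
  have hph : c0 p u * sy s p * PX764.Gh X p = ((Real.sqrt (nm p) : ℝ) : ℂ) := by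
    unfold c0 PX764.Gh
    rw [hX, syAx.mul_left s u p hpr, map_mul]
    calc ((Real.sqrt (nm p) : ℝ) : ℂ) * (conj (G p) * sy u p) * sy s p *
          (G p * (conj (sy s p) * conj (sy u p))) =
        ((Real.sqrt (nm p) : ℝ) : ℂ) * (G p * conj (G p)) * (sy s p * conj (sy s p)) *
          (sy u p * conj (sy u p)) := by ring
      _ = _ := by rw [a1, a2, a3]; ring
  have hpow : ((Real.sqrt (nm p) : ℝ) : ℂ) * (((((nm p : ℝ)) ^ (4 / 3 : ℝ))⁻¹ : ℝ) : ℂ) *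
      ((PX764.n6 p : ℝ) : ℂ) = (((nm p : ℝ)⁻¹ : ℝ) : ℂ) := by
    rw [← Complex.ofReal_mul, ← Complex.ofReal_mul]
    congr 1
    unfold PX764.n6
    rw [Real.sqrt_eq_rpow, ← Real.rpow_neg hp0.le, ← Real.rpow_add hp0, ← Real.rpow_add hp0,
      ← Real.rpow_neg_one]
    norm_num
  rw [hrho, map_mul, map_mul, Complex.conj_conj, Complex.conj_ofReal]
  generalize (((((nm p : ℝ)) ^ (4 / 3 : ℝ))⁻¹ : ℝ) : ℂ) = T at hpow ⊢
  generalize ((PX764.n6 p : ℝ) : ℂ) = N6 at hpow ⊢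
  generalize (((nm p : ℝ)⁻¹ : ℝ) : ℂ) = iv at hpow ⊢
  linear_combination (c * conj (PX764.rho X) * T * N6) * hph + (c * conj (PX764.rho X)) * hpow

/-- exponent 1 -/
lemma rho_step1 {p X u s : Eis} (hpr : IsPrim p) (hsqp : Squarefree p) (hp0 : (0 : ℝ) < nm p)
    (hX : X = s * u) (hs : IsCoprime s p) (hu : IsCoprime u p) (c : ℂ) :
    ((1 - (((nm p : ℝ)⁻¹ : ℝ) : ℂ)) * c) * conj (PX764.rho (X * p)) =
      c * conj (PX764.rho (X * p)) - c1 p u * sy s p ^ 2 *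
        ((((nm p : ℝ) ^ 2) ^ (4 / 3 : ℝ))⁻¹ : ℝ) * (c * conj (PX764.rho X)) := by
  have hXc : IsCoprime X p := hX ▸ hs.mul_left hu
  have hrho := PX764.rho_mul hpr X hsqp hXc
  have hG := PX764.Gh_mul_conj (h := X) hpr hsqp hXc
  have hn6 : ((PX764.n6 p : ℝ) : ℂ) * ((((nm p : ℝ) ^ ((1 : ℝ) / 6)) : ℝ) : ℂ) = 1 := by
    rw [← Complex.ofReal_mul]
    unfold PX764.n6
    rw [← Real.rpow_add hp0]
    norm_num
  have hrho2 : conj (PX764.rho X) = conj (PX764.Gh X p) *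
      ((((nm p : ℝ) ^ ((1 : ℝ) / 6)) : ℝ) : ℂ) * conj (PX764.rho (X * p)) := by
    rw [hrho, map_mul, map_mul, Complex.conj_conj, Complex.conj_ofReal]
    linear_combination (-conj (PX764.rho X)) * hG +
      (-conj (PX764.rho X) * (PX764.Gh X p * conj (PX764.Gh X p))) * hn6
  have hph : c1 p u * sy s p ^ 2 * conj (PX764.Gh X p) =
      (nm p : ℂ) * ((Real.sqrt (nm p) : ℝ) : ℂ) := by
    unfold c1 PX764.Gh
    rw [map_mul, Complex.conj_conj, hX, syAx.mul_left s u p hpr]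
    have a1 : G p * conj (G p) = 1 := Gauss880.G_mul_conj syG hpr hsqp
    have a2 : sy s p ^ 3 = 1 := syG.cube s p hpr hs
    have a3 : sy u p * conj (sy u p) = 1 := by
      rw [Complex.mul_conj, Complex.normSq_eq_norm_sq, PX764.norm_sy_one hpr hu]; simp
    calc (nm p : ℂ) * ((Real.sqrt (nm p) : ℝ) : ℂ) * (conj (sy u p) * G p) * sy s p ^ 2 *
          (conj (G p) * (sy s p * sy u p)) =
        (nm p : ℂ) * ((Real.sqrt (nm p) : ℝ) : ℂ) * (G p * conj (G p)) * (sy s p ^ 3) *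
          (sy u p * conj (sy u p)) := by ring
      _ = _ := by rw [a1, a2, a3]; ring
  have hpow : (nm p : ℂ) * ((Real.sqrt (nm p) : ℝ) : ℂ) *
      (((((nm p : ℝ) ^ 2) ^ (4 / 3 : ℝ))⁻¹ : ℝ) : ℂ) *
      ((((nm p : ℝ) ^ ((1 : ℝ) / 6)) : ℝ) : ℂ) = (((nm p : ℝ)⁻¹ : ℝ) : ℂ) := by
    rw [show (nm p : ℂ) = (((nm p : ℝ)) : ℂ) by push_cast; rfl, ← Complex.ofReal_mul,
      ← Complex.ofReal_mul, ← Complex.ofReal_mul]
    congr 1
    have b1 : ((nm p : ℝ) ^ 2) ^ (4 / 3 : ℝ) = (nm p : ℝ) ^ (8 / 3 : ℝ) := by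
      rw [← Real.rpow_natCast, ← Real.rpow_mul hp0.le]; norm_num
    rw [b1, Real.sqrt_eq_rpow, ← Real.rpow_neg hp0.le]
    nth_rewrite 1 [← Real.rpow_one (nm p : ℝ)]
    rw [← Real.rpow_add hp0, ← Real.rpow_add hp0, ← Real.rpow_add hp0,
      ← Real.rpow_neg_one]
    norm_num
  rw [hrho2]
  generalize (((((nm p : ℝ) ^ 2) ^ (4 / 3 : ℝ))⁻¹ : ℝ) : ℂ) = T at hpow ⊢
  generalize ((((nm p : ℝ) ^ ((1 : ℝ) / 6)) : ℝ) : ℂ) = N6 at hpow ⊢
  generalize (((nm p : ℝ)⁻¹ : ℝ) : ℂ) = iv at hpow ⊢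
  linear_combination (c * conj (PX764.rho (X * p)) * T * N6) * hph +
    (c * conj (PX764.rho (X * p))) * hpow

lemma prI_one {h : Eis} (hh : PrI 1 h) : h = 1 := by
  by_contra h1
  obtain ⟨p, hp, -, m, rfl⟩ := Char766.exists_prim_prime_dvd hh.1 h1
  exact hp.not_isUnit (isUnit_of_dvd_one (hh.2 p hp (dvd_mul_right _ _)))

lemma exists_val' {u p : Eis} (hu : u ≠ 0) (hp : Prime p) : ∃ (a : ℕ) (r : Eis),
    u = r * p ^ a ∧ ¬ p ∣ r := by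
  obtain ⟨a, r, h1, h2⟩ := WfDvdMonoid.max_power_factor hu hp.irreducible
  exact ⟨a, r, by rw [h2, mul_comm], h1⟩

/-- **level `27 m h`**, character `(σ h/·)` -/
theorem hasC_all (hP : ∀ W, P W → ∀ τ, WB (W τ)) (hσ : X6C180.Sg σ)
    (hB : ∀ V : ℝ → ℂ, SW V → ∀ i : IX σ,
    P (fun τ y => om' σ (Tw τ (FV V)) i (Real.exp (-Real.log y)))) :
    ∀ (n : ℕ) (m : Eis), nm m ≤ n → IsPrim m → Squarefree m → ∀ h : Eis, PrI m h →
    ∃ c : ℝ, 0 ≤ c ∧ c ≤ 1 ∧ ∀ ψ : Eis → ℂ,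
    (∀ b, Sm (27 * (m * h)) b → ψ b = sy (σ * h) b) →
      HasC P (27 * (m * h)) ψ mmB (fun u => (c : ℂ) * conj (PX764.rho (σ * h * u))) := by
  intro n
  induction n with
  | zero =>
    intro m hn hp
    have := nm_pos.mpr hp.ne_zero
    omega
  | succ n ih =>
    intro m hn hp hs h hh
    by_cases h1 : m = 1
    · subst h1
      obtain rfl := prI_one hh
      refine ⟨1, zero_le_one, le_rfl, fun ψ hψ => ?_⟩
      have h27 : (27 : Eis) * (1 * 1) = 27 := by norm_num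
      rw [h27] at hψ ⊢
      have := base27C hσ hB (ψ := ψ) fun b hb => by rw [hψ b hb, mul_one]
      simpa using this
    obtain ⟨p, hpp, hpr, m₁, rfl⟩ := Char766.exists_prim_prime_dvd hp h1
    obtain ⟨k, h₁, rfl, hph⟩ := exists_val' hh.1.ne_zero hpp
    have hm1 : IsPrim m₁ := (prim_mul_iff hpr).mp hp
    have hs1 : Squarefree m₁ := hs.of_mul_right
    have hh1 : IsPrim h₁ := by
      have := hh.1
      rw [mul_comm] at this
      exact (prim_mul_iff (hpr.pow k)).mp this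
    have hcop : IsCoprime p m₁ := by
      rw [hpp.irreducible.coprime_iff_not_dvd]
      intro hd
      obtain ⟨t, rfl⟩ := hd
      exact hpp.not_isUnit (hs p ⟨t, by ring⟩)
    have hcoph : IsCoprime p h₁ := hpp.irreducible.coprime_iff_not_dvd.mpr hph
    have hPrI : PrI m₁ h₁ := by
      refine ⟨hh1, fun q hq hqh => ?_⟩
      rcases hq.dvd_or_dvd (hh.2 q hq (hqh.mul_right _)) with h5 | h5
      · exact absurd (((hq.associated_of_dvd hpp h5).dvd').trans hqh) hph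
      · exact h5
    have hlt : nm m₁ ≤ n := by
      have h2 : 1 < nm p := by
        have h3 : nm p ≠ 1 := fun h => hpp.not_isUnit (isUnit_iff.mpr h)
        have := nm_pos.mpr hpp.ne_zero
        omega
      have h4 := nm_pos.mpr hm1.ne_zero
      rw [nm_mul] at hn
      nlinarith
    set M₁ : Eis := 27 * (m₁ * h₁) with hM₁
    have hM10 : M₁ ≠ 0 := mul_ne_zero (by decide) (mul_ne_zero hm1.ne_zero hh1.ne_zero)
    have h3M : (3 : Eis) ∣ M₁ := ⟨9 * (m₁ * h₁), by rw [hM₁]; ring⟩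
    have hsp : Sm M₁ p := ⟨hpr, (coprime_27 hpr).mul_right (hcop.mul_right hcoph)⟩
    have hM : (27 : Eis) * (p * m₁ * (h₁ * p ^ k)) = p ^ (k + 1) * M₁ := by rw [hM₁]; ring
    have hext : Ext3 (27 * (p * m₁ * (h₁ * p ^ k))) M₁ p :=
      { three := h3M
        pr := hpp
        sp := hsp
        iff := fun b => by
          rw [hM]
          constructor
          · intro hb
            refine ⟨⟨hb.1, hb.2.of_isCoprime_of_dvd_right ⟨p ^ (k + 1), by ring⟩⟩, fun hd => ?_⟩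
            exact hpp.not_isUnit (hb.2.isUnit_of_dvd' hd
              ((dvd_pow_self p (Nat.succ_ne_zero k)).mul_right _))
          · rintro ⟨hb, hd⟩
            exact ⟨hb.1, (((hpp.irreducible.coprime_iff_not_dvd.mpr hd).symm).pow_right).mul_right
              hb.2⟩ }
    have hσh : σ * h₁ ≠ 0 := mul_ne_zero hσ.ne_zero hh1.ne_zero
    have huni : Uni M₁ (sy (σ * h₁)) := uni_sy' hσh (by
      obtain ⟨f, hf⟩ := sg_dvd hσ
      refine ⟨f * m₁, ?_⟩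
      rw [hM₁]
      calc (27 : Eis) * (m₁ * h₁) = 9 * 3 * (m₁ * h₁) := by norm_num
        _ = 9 * (σ * f) * (m₁ * h₁) := by rw [← hf]
        _ = _ := by ring)
    have hHC : HC M₁ (Rst M₁ (sy (σ * h₁))) := hc_rst hM10 h3M huni
    obtain ⟨c, hc0, hc1, hcX⟩ := ih m₁ hlt hm1 hs1 h₁ hPrI
    have hL := hcX (Rst M₁ (sy (σ * h₁))) fun b hb => Rst_of hb.2
    have hq1 : (1 : ℝ) ≤ nm p := by exact_mod_cast nm_pos.mpr hpp.ne_zero
    have hq0 : (0 : ℝ) < nm p := by linarith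
    have hsqp : Squarefree p := hs.of_mul_left
    have hinv1 : ((nm p : ℝ))⁻¹ ≤ 1 := inv_le_one_of_one_le₀ hq1
    have hinv0 : 0 ≤ ((nm p : ℝ))⁻¹ := by positivity
    have hsc : IsCoprime (σ * h₁) p := (sg_cop hσ hpr).mul_left hcoph.symm
    have hup : ∀ u, Sm (27 * (p * m₁ * (h₁ * p ^ k))) u → IsCoprime u p := fun u hu =>
      (hext.cop hu).symm
    -- the character
    have hψe : ∀ e t : ℕ, k = 3 * t + e → ∀ ψ : Eis → ℂ,
        (∀ b, Sm (27 * (p * m₁ * (h₁ * p ^ k))) b → ψ b = sy (σ * (h₁ * p ^ k)) b) →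
        ∀ b, Sm (27 * (p * m₁ * (h₁ * p ^ k))) b →
          ψ b = Rst M₁ (sy (σ * h₁)) b * sy p b ^ e := by
      intro e t hk ψ hψ b hb
      rw [hψ b hb, Rst_of (hext.low hb).2, ← mul_assoc, syAx.mul_left _ _ b hb.1,
        syAx.pow_left p hb.1 k, hk, pow_add, pow_mul, syG.cube p b hb.1 (hext.cop hb), one_pow,
        one_mul]
    have hrho3 : ∀ e t : ℕ, k = 3 * t + e → ∀ u, PX764.rho (σ * (h₁ * p ^ k) * u) =
        PX764.rho (σ * h₁ * u * p ^ e) := by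
      intro e t hk u
      rw [← Rho777.rho_cube_pow PX764.rho_rel (hpr.pow t) (σ * h₁ * u * p ^ e)]
      congr 1
      rw [hk, pow_add, pow_mul']
      ring
    have hsp2 : IsCoprime (p ^ 2) M₁ := hsp.2.pow_left
    have hk3 : k = 3 * (k / 3) + k % 3 := (Nat.div_add_mod k 3).symm
    rcases (by omega : k % 3 = 0 ∨ k % 3 = 1 ∨ k % 3 = 2) with h5 | h5 | h5
    · rw [h5] at hk3
      refine ⟨(1 - ((nm p : ℝ))⁻¹) * c, by nlinarith, by nlinarith, fun ψ hψ => ?_⟩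
      refine stepC hP hext (Nat.succ_ne_zero k) hM hHC hL (e := 0) (by norm_num)
        (hψe 0 _ hk3 ψ hψ) (fun _ u hu => ?_) (fun h => absurd h (by norm_num))
        (fun h => absurd h (by norm_num))
      have h6 := rho_step0 hpr hsqp hq0 (X := σ * h₁ * u) rfl hsc (hup u hu) (c : ℂ)
      rw [hrho3 0 _ hk3 u, pow_zero, mul_one, Rst_of hsp.2,
        show σ * h₁ * (u * p) = σ * h₁ * u * p by ring, ← h6]
      push_cast
      ring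
    · rw [h5] at hk3
      refine ⟨(1 - ((nm p : ℝ))⁻¹) * c, by nlinarith, by nlinarith, fun ψ hψ => ?_⟩
      refine stepC hP hext (Nat.succ_ne_zero k) hM hHC hL (e := 1) (by norm_num)
        (hψe 1 _ hk3 ψ hψ) (fun h => absurd h (by norm_num)) (fun _ u hu => ?_)
        (fun h => absurd h (by norm_num))
      have h6 := rho_step1 hpr hsqp hq0 (X := σ * h₁ * u) rfl hsc (hup u hu) (c : ℂ)
      rw [hrho3 1 _ hk3 u, pow_one, Rst_of hsp2, syAx.pow_right _ hpr 2,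
        show σ * h₁ * (u * p) = σ * h₁ * u * p by ring, ← h6]
      push_cast
      ring
    · rw [h5] at hk3
      refine ⟨c, hc0, hc1, fun ψ hψ => ?_⟩
      refine stepC hP hext (Nat.succ_ne_zero k) hM hHC hL (e := 2) (by norm_num)
        (hψe 2 _ hk3 ψ hψ) (fun h => absurd h (by norm_num)) (fun h => absurd h (by norm_num))
        (fun _ u _ => ?_)
      rw [hrho3 2 _ hk3 u]
      congr 3
      ring

/-! ### all levels -/

lemma rd_primes {M q : Eis} (hM0 : M ≠ 0) {b : Eis} (hb : IsPrim b) (hq : Prime q) (h1 : q ∣ b)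
    (h2 : q ∣ M) : q ∣ rd M := by
  obtain ⟨r, hr, hrq⟩ := E4352.exists_pp_of_prime hq hb h1
  refine hrq.symm.dvd.trans ((E4352.dvd_rd hM0 hr.isPrim).mpr ⟨hr.prime.squarefree, fun s _ hs => ?_⟩)
  exact (hs.trans hrq.dvd).trans h2

lemma sm_rdC {M h : Eis} (hM0 : M ≠ 0) (h3 : ∀ q : Eis, Prime q → q ∣ 3 → q ∣ M) (hh : PrI M h) :
    Sm M = Sm (27 * (rd M * h)) := by
  have hrd : ∀ q : Eis, Prime q → q ∣ 27 * (rd M * h) → q ∣ M := by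
    intro q hq hd
    rcases hq.dvd_or_dvd hd with h4 | h4
    · rw [show (27 : Eis) = 3 ^ 3 by norm_num] at h4
      exact h3 q hq (hq.dvd_of_dvd_pow h4)
    · rcases hq.dvd_or_dvd h4 with h5 | h5
      · exact h5.trans (E4352.rd_dvd M)
      · exact hh.2 q hq h5
  have key : ∀ b, IsPrim b → (IsCoprime b M ↔ IsCoprime b (27 * (rd M * h))) := by
    intro b hb
    constructor
    · intro h
      refine isCoprime_of_prime_dvd (fun h' => hb.ne_zero h'.1) fun p hp h1 h2 => ?_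
      exact hp.not_isUnit (h.isUnit_of_dvd' h1 (hrd p hp h2))
    · intro h
      refine isCoprime_of_prime_dvd (fun h' => hb.ne_zero h'.1) fun p hp h1 h2 => ?_
      exact hp.not_isUnit (h.isUnit_of_dvd' h1
        (((rd_primes hM0 hb hp h1 h2).mul_right _).mul_left _))
  funext b
  exact propext ⟨fun h => ⟨h.1, (key b h.1).mp h.2⟩, fun h => ⟨h.1, (key b h.1).mpr h.2⟩⟩

/-- **case L, exact main term, cubic character `(σ h/·)`** -/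
theorem law_Cp (hP : ∀ W, P W → ∀ τ, WB (W τ)) (hσ : X6C180.Sg σ)
    (hB : ∀ V : ℝ → ℂ, SW V → ∀ i : IX σ,
    P (fun τ y => om' σ (Tw τ (FV V)) i (Real.exp (-Real.log y))))
    {M h : Eis} (hM0 : M ≠ 0) (h3 : ∀ q : Eis, Prime q → q ∣ 3 → q ∣ M) (hh : PrI M h)
    {ψ : Eis → ℂ} (hψ : ∀ b, Sm M b → ψ b = sy (σ * h) b) :
    ∃ (ι : Type) (_ : Fintype ι) (D : Dt3 ι), (D.OK M ∧ SD M D) ∧ ∀ V : ℝ → ℂ, SW V →
      ∃ mc : ℝ → ℂ, (∀ A : ℕ, ∃ C : ℝ, 0 ≤ C ∧ ∀ τ, ‖mc τ‖ ≤ C * ((1 + |τ|) ^ A)⁻¹) ∧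
        ∃ W : ι → ℝ → ℝ → ℂ, (∀ i, P (W i)) ∧
          ∀ u : Eis, Sm M u → ∀ Q : ℝ, 0 < Q → ∀ τ : ℝ,
            N3 M (End699.tw ψ 0) u (fun y => (y : ℂ) ^ (I * τ) * V y) Q =
              mc τ * conj (PX764.rho (σ * h * u)) * ((Q ^ (4 / 3 : ℝ) : ℝ) : ℂ) +
              (Q : ℂ) * ∑ i, D.κ i * End699.tw (D.η i) D.j u *
                D3 M (End699.tw (D.ψ' i) D.l') u (W i τ) (D.ρ i * nm u / Q) := by
  have hS : Sm M = Sm (27 * (rd M * h)) := sm_rdC hM0 h3 hh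
  have hPrI : PrI (rd M) h := ⟨hh.1, fun q hq hd => rd_primes hM0 hh.1 hq hd (hh.2 q hq hd)⟩
  obtain ⟨c, hc0, hc1, hcX⟩ := hasC_all hP hσ hB (nm (rd M)) (rd M) le_rfl (E4352.rd_prim M)
    (E4352.rd_sqf M) h hPrI
  have h1 := hcX ψ fun b hb => hψ b (hS ▸ hb)
  have h2 := h1.transfer hM0 hS fun q hq hd => by
    rcases hq.dvd_or_dvd hd with h4 | h4
    · rw [show (27 : Eis) = 3 ^ 3 by norm_num] at h4
      exact h3 q hq (hq.dvd_of_dvd_pow h4)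
    · rcases hq.dvd_or_dvd h4 with h5 | h5
      · exact h5.trans (E4352.rd_dvd M)
      · exact hh.2 q hq h5
  obtain ⟨ι, iι, D, hD, hFE⟩ := h2
  refine ⟨ι, iι, D, hD, fun V hV => ?_⟩
  obtain ⟨W, hW, h5⟩ := hFE V hV
  refine ⟨fun τ => mmB V τ * (c : ℂ), fun A => ?_, W, hW, fun u hu Q hQ τ => ?_⟩
  · obtain ⟨C, hC, h6⟩ := mmB_dec hV A
    refine ⟨C, hC, fun τ => ?_⟩
    rw [norm_mul, Complex.norm_real, Real.norm_of_nonneg hc0]
    exact (mul_le_of_le_one_right (norm_nonneg _) hc1).trans (h6 τ)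
  · rw [h5 u hu Q hQ τ]
    unfold MT
    ring

/-! ### `Law5` -/

/-- **case L, cubic character `(σ h/·)`, S-unit data** -/
theorem law5_CS {M : Eis} (hM0 : M ≠ 0) (h3 : ∀ q : Eis, Prime q → q ∣ 3 → q ∣ M) {σ h : Eis}
    (hσ : X6C180.Sg σ) (hh : PrI M h) {ψ : Eis → ℂ} (hψ : ∀ b, Sm M b → ψ b = sy (σ * h) b) :
    ∃ (ι : Type) (_ : Fintype ι) (D : Dt3 ι), (D.OK M ∧ SD M D) ∧ ∀ V : ℝ → ℂ, SW V →
      ∃ mc : ℝ → ℂ, (∀ A : ℕ, ∃ C : ℝ, 0 ≤ C ∧ ∀ τ, ‖mc τ‖ ≤ C * ((1 + |τ|) ^ A)⁻¹) ∧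
        ∃ W : ι → ℝ → ℝ → ℂ,
          (∀ τ : ℝ, Law5 M ψ 0 D (fun y => (y : ℂ) ^ (I * τ) * V y) (fun i => W i τ)
            (fun u Q => mc τ * conj (PX764.rho (σ * h * u)) * ((Q ^ (4 / 3 : ℝ) : ℝ) : ℂ))) ∧
          ∀ m₁ N₀ : ℕ, ∃ C A : ℝ, 0 ≤ C ∧ ∀ τ i, WT m₁ N₀ (C * (1 + |τ|) ^ A) (W i τ) := by
  obtain ⟨ι, iι, D, hD, hL⟩ := law_Cp (P := WTf) (fun W hW τ => wb_of_wtf hW τ) hσ
    (fun V hV i => om_fam hσ.ne_zero i (sc_FV hV)) hM0 h3 hh hψ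
  refine ⟨ι, iι, D, hD, fun V hV => ?_⟩
  obtain ⟨mc, hmc, W, hW, h5⟩ := hL V hV
  exact ⟨mc, hmc, W, fun τ u hu Q hQ => h5 u hu Q hQ τ, fun m₁ N₀ => wt_uniform hW m₁ N₀⟩

/-- **case L, cubic character `(σ h/·)`** (783's literal form) -/
theorem law5_C {M : Eis} (hM0 : M ≠ 0) (h9 : (9 : Eis) ∣ M) {σ h : Eis} (hσ : GrB829.IsC σ)
    (hh : E4352.PrI M h) {ψ : Eis → ℂ} (hψ : ∀ b, Sm M b → ψ b = sy (σ * h) b) :
    ∃ (ι : Type) (_ : Fintype ι) (D : Dt3 ι), D.OK M ∧ ∀ V : ℝ → ℂ, SW V →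
      ∃ mc : ℝ → ℂ, (∀ A : ℕ, ∃ C : ℝ, 0 ≤ C ∧ ∀ τ, ‖mc τ‖ ≤ C * ((1 + |τ|) ^ A)⁻¹) ∧
        ∃ W : ι → ℝ → ℝ → ℂ,
          (∀ τ : ℝ, Law5 M ψ 0 D (fun y => (y : ℂ) ^ (I * τ) * V y) (fun i => W i τ)
            (fun u Q => mc τ * conj (PX764.rho (σ * h * u)) * ((Q ^ (4 / 3 : ℝ) : ℝ) : ℂ))) ∧
          ∀ m₁ N₀ : ℕ, ∃ C A : ℝ, 0 ≤ C ∧ ∀ τ i, WT m₁ N₀ (C * (1 + |τ|) ^ A) (W i τ) := by
  have h39 : (3 : Eis) ∣ 9 := ⟨3, by norm_num⟩
  obtain ⟨ι, iι, D, hD, hL⟩ := law5_CS hM0 (fun q _ hd => (hd.trans h39).trans h9)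
    (sg_of_isC hσ) hh hψ
  exact ⟨ι, iι, D, hD.1, hL⟩

/-- **case L, cubic character `(σ h/·)`, compensated weights, S-unit data** -/
theorem law5h_C {M : Eis} (hM0 : M ≠ 0) (h3 : ∀ q : Eis, Prime q → q ∣ 3 → q ∣ M) {σ h : Eis}
    (hσ : X6C180.Sg σ) (hh : PrI M h) {ψ : Eis → ℂ} (hψ : ∀ b, Sm M b → ψ b = sy (σ * h) b) :
    ∃ (ι : Type) (_ : Fintype ι) (D : Dt3 ι), (D.OK M ∧ SD M D) ∧ ∀ V : ℝ → ℂ, SW V →
      ∃ mc : ℝ → ℂ, (∀ A : ℕ, ∃ C : ℝ, 0 ≤ C ∧ ∀ τ, ‖mc τ‖ ≤ C * ((1 + |τ|) ^ A)⁻¹) ∧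
        ∃ W : ι → ℝ → ℝ → ℂ,
          (∀ τ : ℝ, Law5 M ψ 0 D (fun y => (y : ℂ) ^ (I * τ) * V y) (fun i => W i τ)
            (fun u Q => mc τ * conj (PX764.rho (σ * h * u)) * ((Q ^ (4 / 3 : ℝ) : ℝ) : ℂ))) ∧
          (∀ τ η : ℝ, 0 ≤ η → Law5 M ψ 0 D (cmp (fun y => (y : ℂ) ^ (I * τ) * V y) η)
            (fun i => dif (W i τ) η)
            (fun u Q => ((1 - Real.exp (-(η / 3)) : ℝ) : ℂ) * mc τ *
              conj (PX764.rho (σ * h * u)) * ((Q ^ (4 / 3 : ℝ) : ℝ) : ℂ))) ∧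
          (∀ m₁ N₀ : ℕ, ∃ C A : ℝ, 0 ≤ C ∧ ∀ τ i, WT m₁ N₀ (C * (1 + |τ|) ^ A) (W i τ)) ∧
          ∀ m₁ N₀ : ℕ, ∃ C A : ℝ, 0 ≤ C ∧ ∀ τ η i, 0 ≤ η →
            WTx m₁ N₀ (C * (1 + |τ|) ^ A) η (dif (W i τ) η) := by
  obtain ⟨ι, iι, D, hD, hL⟩ := law_Cp (P := fun W => WTf W ∧ WTd W)
    (fun W hW τ => wb_of_wtf hW.1 τ) hσ
    (fun V hV i => ⟨om_fam hσ.ne_zero i (sc_FV hV), omd_fam hσ.ne_zero i (sc_FV hV)⟩)
    hM0 h3 hh hψ
  refine ⟨ι, iι, D, hD, fun V hV => ?_⟩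
  obtain ⟨mc, hmc, W, hW, h5⟩ := hL V hV
  refine ⟨mc, hmc, W, fun τ u hu Q hQ => h5 u hu Q hQ τ, fun τ η hη u hu Q hQ => ?_,
    fun m₁ N₀ => wt_uniform (fun i => (hW i).1) m₁ N₀,
    fun m₁ N₀ => wtx_uniform (fun i => (hW i).1) (fun i => (hW i).2) m₁ N₀⟩
  have hb : ∀ k, Sm M k → ‖End699.tw ψ 0 k‖ ≤ 1 := fun k hk => by
    rw [tw_zero, hψ k hk]
    exact Char766.norm_sy_le hk.1
  have hQ' : 0 < Q * Real.exp (-η) := by positivity
  have hu0 : (0 : ℝ) < nm u := by exact_mod_cast nm_pos.2 hu.1.ne_zero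
  rw [N3_cmp hb (vb_of_sw hV τ) hQ, h5 u hu Q hQ τ, h5 u hu _ hQ' τ]
  beta_reduce
  rw [← mt_cmp _ _ hQ]
  have e1 : ∀ i, D3 M (End699.tw (D.ψ' i) D.l') u (dif (W i τ) η) (D.ρ i * nm u / Q) =
      D3 M (End699.tw (D.ψ' i) D.l') u (W i τ) (D.ρ i * nm u / Q) -
      D3 M (End699.tw (D.ψ' i) D.l') u (W i τ) (D.ρ i * nm u / (Q * Real.exp (-η))) := by
    intro i
    have hb' : ∀ k, Sm M k → ‖End699.tw (D.ψ' i) D.l' k‖ ≤ 1 :=
      fun k hk => norm_tw_le' (hD.1.ψ' i) _ hk.1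
    have hY : 0 < D.ρ i * nm u / Q := by have := hD.1.ρ i; positivity
    rw [D3_dif hb' (wb_of_wtf (hW i).1 τ) hY]
    congr 2
    rw [Real.exp_neg]
    field_simp
  have e3 : ∑ i, D.κ i * End699.tw (D.η i) D.j u *
      D3 M (End699.tw (D.ψ' i) D.l') u (dif (W i τ) η) (D.ρ i * nm u / Q) =
      ∑ i, D.κ i * End699.tw (D.η i) D.j u *
        D3 M (End699.tw (D.ψ' i) D.l') u (W i τ) (D.ρ i * nm u / Q) -
      ∑ i, D.κ i * End699.tw (D.η i) D.j u *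
        D3 M (End699.tw (D.ψ' i) D.l') u (W i τ) (D.ρ i * nm u / (Q * Real.exp (-η))) := by
    rw [← Finset.sum_sub_distrib]
    exact Finset.sum_congr rfl fun i _ => by rw [e1 i, mul_sub]
  rw [e3]
  have e2 : ((Real.exp η : ℝ) : ℂ) * (((Q * Real.exp (-η) : ℝ)) : ℂ) = (Q : ℂ) := by
    rw [← Complex.ofReal_mul]
    congr 1
    rw [Real.exp_neg]
    field_simp
  linear_combination (-(∑ i, D.κ i * End699.tw (D.η i) D.j u *
    D3 M (End699.tw (D.ψ' i) D.l') u (W i τ) (D.ρ i * nm u / (Q * Real.exp (-η))))) * e2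

/-- `law5_L` with S-unit data -/
theorem law5_LS {M m₀ : Eis} (hM0 : M ≠ 0) (hr : Rad0 M m₀) {ψ : Eis → ℂ}
    (hψ : ∀ b, Sm M b → ψ b = sy m₀ b) :
    ∃ (ι : Type) (_ : Fintype ι) (D : Dt3 ι), (D.OK M ∧ SD M D) ∧ ∀ V : ℝ → ℂ, SW V →
      ∃ mc : ℝ → ℂ, (∀ A : ℕ, ∃ C : ℝ, 0 ≤ C ∧ ∀ τ, ‖mc τ‖ ≤ C * ((1 + |τ|) ^ A)⁻¹) ∧
        ∃ W : ι → ℝ → ℝ → ℂ,
          (∀ τ : ℝ, Law5 M ψ 0 D (fun y => (y : ℂ) ^ (I * τ) * V y) (fun i => W i τ)
            (fun u Q => mc τ * conj (PX764.rho (m₀ * u)) * ((Q ^ (4 / 3 : ℝ) : ℝ) : ℂ))) ∧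
          ∀ m₁ N₀ : ℕ, ∃ C A : ℝ, 0 ≤ C ∧ ∀ τ i, WT m₁ N₀ (C * (1 + |τ|) ^ A) (W i τ) := by
  have := law5_CS (σ := 1) (h := m₀) hM0 (fun q hq hd => (hr.iff q hq).mp (hd.mul_right _))
    (Or.inl rfl)
    ⟨hr.prim, fun p hp hd => (hr.iff p hp).mp (hd.mul_left _)⟩ (ψ := ψ)
    (fun b hb => by rw [one_mul]; exact hψ b hb)
  simpa only [one_mul] using this

/-- `law5h` with S-unit data -/
theorem law5h_LS {M m₀ : Eis} (hM0 : M ≠ 0) (hr : Rad0 M m₀) {ψ : Eis → ℂ}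
    (hψ : ∀ b, Sm M b → ψ b = sy m₀ b) :
    ∃ (ι : Type) (_ : Fintype ι) (D : Dt3 ι), (D.OK M ∧ SD M D) ∧ ∀ V : ℝ → ℂ, SW V →
      ∃ mc : ℝ → ℂ, (∀ A : ℕ, ∃ C : ℝ, 0 ≤ C ∧ ∀ τ, ‖mc τ‖ ≤ C * ((1 + |τ|) ^ A)⁻¹) ∧
        ∃ W : ι → ℝ → ℝ → ℂ,
          (∀ τ : ℝ, Law5 M ψ 0 D (fun y => (y : ℂ) ^ (I * τ) * V y) (fun i => W i τ)
            (fun u Q => mc τ * conj (PX764.rho (m₀ * u)) * ((Q ^ (4 / 3 : ℝ) : ℝ) : ℂ))) ∧
          (∀ τ η : ℝ, 0 ≤ η → Law5 M ψ 0 D (cmp (fun y => (y : ℂ) ^ (I * τ) * V y) η)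
            (fun i => dif (W i τ) η)
            (fun u Q => ((1 - Real.exp (-(η / 3)) : ℝ) : ℂ) * mc τ *
              conj (PX764.rho (m₀ * u)) * ((Q ^ (4 / 3 : ℝ) : ℝ) : ℂ))) ∧
          (∀ m₁ N₀ : ℕ, ∃ C A : ℝ, 0 ≤ C ∧ ∀ τ i, WT m₁ N₀ (C * (1 + |τ|) ^ A) (W i τ)) ∧
          ∀ m₁ N₀ : ℕ, ∃ C A : ℝ, 0 ≤ C ∧ ∀ τ η i, 0 ≤ η →
            WTx m₁ N₀ (C * (1 + |τ|) ^ A) η (dif (W i τ) η) := by
  have := law5h_C (σ := 1) (h := m₀) hM0 (fun q hq hd => (hr.iff q hq).mp (hd.mul_right _))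
    (Or.inl rfl) ⟨hr.prim, fun p hp hd => (hr.iff p hp).mp (hd.mul_left _)⟩ (ψ := ψ)
    (fun b hb => by rw [one_mul]; exact hψ b hb)
  simpa only [one_mul] using this

end Crest.Agent.R017.E4LC858
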