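import Crest.Agent.R017.C70Defs_54
import Crest.Agent.R017.CT0_590
import Crest.Agent.R017.E2d_440
import Crest.Agent.R012.Mu_413

/-!
# Row 17, C70/E4 (near-equal 5-boxes, the structured times w-side sum): common definitions (helper352)

NT-world: `u = f x y`, `x = j δ²` (v-side), `y = l m²` (w-side), everything in `Sm M`.

* `SSm M c` : finite support in `Sm M`
* `tws R q g c y = [(y,q)=1] g y c (R y)` : shortened twisted sequence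
* `Sd v d = Σ' x, v x conj (gs x d)` : v-side (`d` cube-free; `= conj St` up to the weight)
* `PB M q R Z g v w κ` : the bilinear block over cube-free `d ~ κ`
* `nf u k` : natural coefficients, `NT M u φ = Σ'_{k ∈ Sm M} nf u k φ k`
* `Law` : functional equation for ONE weight, with error `mt`
* `TwC` : the class of twists
-/

set_option autoImplicit false

noncomputable section

open Complex
open scoped ComplexConjugate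

namespace Crest.Agent.R017.E4352

open Crest.Agent.R012 Crest.Agent.R012.Eis Crest.Agent.R012.Mob705 Crest.Agent.R012.Gauss880
open Crest.Agent.R012.Div277
open Crest.Agent.R017.Sx545 Crest.Agent.R017.CM106 Crest.Agent.R017.C70 Crest.Agent.R017.C590
open Crest.Agent.R017.End699 Crest.Agent.R017.B770 Crest.Agent.R017.Sx440

/-- finitely supported sequences on `Sm M` -/
structure SSm (M : Eis) (c : Eis → ℂ) : Prop where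
  fin : (Function.support c).Finite
  sm : ∀ y, c y ≠ 0 → Sm M y

open Classical in
/-- shortened, twisted sequence, prime to `q` -/
def tws (R q : Eis) (g c : Eis → ℂ) (y : Eis) : ℂ := if IsCoprime y q then g y * c (R * y) else 0

/-- the v-side at `d` -/
def Sd (v : Eis → ℂ) (d : Eis) : ℂ := ∑' x : Eis, v x * conj (gs x d)

/-- the product of the primary primes of `a` -/
def rd (a : Eis) : Eis := ∏ p ∈ pp a, p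

open Classical in
/-- natural coefficients -/
def nf (u k : Eis) : ℂ :=
  ∑ x ∈ (primBall (nm k) ×ˢ primBall (nm k)).filter (fun x => x.2 * x.1 ^ 3 = k),
    (nm x.1 : ℂ) ^ 2 * conj (gs u x.2)

/-- the class of twists: symbols at the primes of `q`, a fixed family of Hecke characters, a height -/
def TwC (M' : Eis) (J : ℤ) (q : Eis) (ξ : ℝ) (g : Eis → ℂ) : Prop :=
  ∃ (q₁ q₂ : Eis) (η : Eis → ℂ) (j : ℤ), IsPrim q₁ ∧ IsPrim q₂ ∧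
    (∀ p : Eis, Prime p → p ∣ q₁ * q₂ → p ∣ q) ∧ HC M' η ∧ (j = 0 ∨ j = J) ∧
    ∀ y, g y = sy y q₁ * conj (sy y q₂) * End699.tw η j y * (nm y : ℂ) ^ (I * ξ)

open Classical in
/-- the bilinear block -/
def PB (M q R Z : Eis) (g v w : Eis → ℂ) (κ : ℝ) : ℝ :=
  ∑ d ∈ (primBall ⌊2 * κ⌋₊).filter (fun d => Sm M d ∧ CbF d ∧ κ < nm d),
    (nm d : ℝ) ^ (-(1 / 2) : ℝ) * ‖Sd (tws R q g v) d‖ * ‖CS (tws Z q g w) d‖

/-- functional equation for one weight, with error `mt u Q` -/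
def Law {ι : Type} [Fintype ι] (M : Eis) (ψ : Eis → ℂ) (l : ℤ) (D : Dt3 ι) (V : ℝ → ℂ)
    (W : ι → ℝ → ℂ) (mt : Eis → ℝ → ℝ) : Prop :=
  ∀ u : Eis, Sm M u → ∀ Q : ℝ, 0 < Q →
    ‖N3 M (End699.tw ψ l) u V Q - (Q : ℂ) * ∑ i, D.κ i * End699.tw (D.η i) D.j u *
      D3 M (End699.tw (D.ψ' i) D.l') u (W i) (D.ρ i * nm u / Q)‖ ≤ mt u Q

/-- dual weights: smooth, bounded at `0`, rapidly decreasing at `∞`, logarithmic derivatives up to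
order `m₀` -/
structure WT (m₀ N₀ : ℕ) (B : ℝ) (W : ℝ → ℂ) : Prop where
  smooth : ContDiffOn ℝ (⊤ : ℕ∞) W (Set.Ioi 0)
  dec : ∀ m ≤ m₀, ∀ y : ℝ, 0 < y →
    ‖iteratedDeriv m (fun x => W (Real.exp x)) (Real.log y)‖ ≤ B * min 1 ((y ^ N₀)⁻¹)

/-- `v`-side frequencies: cube-free, i.e. `x = j δ²` with `j δ` squarefree -/
def XF (x : Eis) : Prop := CbF x

/-- `R` is composed of primes of `q` -/
def PrI (q R : Eis) : Prop := IsPrim R ∧ ∀ p : Eis, Prime p → p ∣ R → p ∣ q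

/-! ### the leaves -/

open Crest.Agent.R017.E2440

open Classical in
/-- index sets of **L5** : `((b, k), (R, Z))`, `b k = d` -/
def IxS (f d : Eis) (X : ℝ) : Finset ((Eis × Eis) × (Eis × Eis)) :=
  ((dvs d ×ˢ dvs d) ×ˢ (primBall ⌊X⌋₊ ×ˢ primBall ⌊X⌋₊)).filter fun i =>
    i.1.1 * i.1.2 = d ∧ IsCoprime i.1.1 i.1.2 ∧ CbF i.1.2 ∧ IsCoprime i.1.2 f ∧
      PrI i.1.1 i.2.1 ∧ PrI i.1.1 i.2.2 ∧
      ∀ p : Eis, Prime p → p ∣ i.1.1 → p ∣ i.2.2 ∨ p ∣ f ∨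
        (p ^ 2 ∣ i.2.1 ∧ ¬ p ^ 3 ∣ i.2.1 ∧ p ^ 3 ∣ i.1.1 ∧ ¬ p ^ 4 ∣ i.1.1)

/-- **L5** (separation at one `d`) -/
def LStr : Prop :=
  ∀ (M f d : Eis) (v w : Eis → ℂ) (X : ℝ), Sm M f → Sm M d → SSm M v → SSm M w →
    (∀ x, v x ≠ 0 → XF x ∧ (nm x : ℝ) ≤ X) → (∀ y, w y ≠ 0 → (nm y : ℝ) ≤ X) →
    ‖∑' x : Eis, v x * ∑' y : Eis, w y * conj (gs (f * x * y) d)‖ ≤
      ∑ i ∈ IxS f d X, ‖gs (f * i.2.1 * i.2.2) i.1.1‖ *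
        (‖Sd (tws i.2.1 i.1.1 (fun y => sy y i.1.1) v) i.1.2‖ *
          ‖CS (tws i.2.2 i.1.1 (fun y => sy y i.1.1) w) i.1.2‖)

/-- **L6** (separation of the dual weight) -/
def LSep : Prop :=
  ∀ J : ℕ, 2 ≤ J → ∃ C : ℝ, 0 ≤ C ∧ ∀ (B : ℝ) (W : ℝ → ℂ), WT (J + 2) 1 B W →
    ∀ L : ℝ, 1 ≤ L → ∃ h : ℝ → ℂ, Continuous h ∧
      (∀ ξ, ‖h ξ‖ ≤ C * B * L * (1 + |ξ|) ^ (-(J : ℝ))) ∧
      ∀ s : ℝ, -L ≤ s → W (Real.exp s) = ∫ ξ : ℝ, h ξ * Complex.exp (I * ξ * s)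

/-- the block, summed over the outer parameter -/
def PBo (M : Eis) {O : Type} [Fintype O] (lam : O → ℝ) (q R Z : Eis) (g : Eis → ℂ)
    (v w : O → Eis → ℂ) (κ : ℝ) : ℝ :=
  ∑ o, (lam o) ^ (-(1 / 2) : ℝ) * PB M q R Z g (v o) (w o) (κ / lam o)

/-- the standing conditions on the data -/
structure Dat4 (M f : Eis) {O : Type} [Fintype O] (lam : O → ℝ) (v w : O → Eis → ℂ) (X : ℝ) :
    Prop where
  X1 : 1 ≤ X
  card : (Fintype.card O : ℝ) ≤ X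
  lam1 : ∀ o, 1 ≤ lam o ∧ lam o ≤ X
  hf : Sm M f ∧ (nm f : ℝ) ≤ X
  hv : ∀ o, SSm M (v o)
  hw : ∀ o, SSm M (w o)
  vx : ∀ o x, v o x ≠ 0 → XF x ∧ (nm x : ℝ) ≤ X
  wy : ∀ o y, w o y ≠ 0 → (nm y : ℝ) ≤ X
  vb : ∀ o x, ‖v o x‖ ≤ X
  wb : ∀ o y, ‖w o y‖ ≤ X

/-- the bound function : nonnegative, antitone in the shortening -/
structure BdC (Bd : ℝ → ℝ → ℝ) : Prop where
  nn : ∀ κ z, 0 ≤ Bd κ z
  anti : ∀ κ z z', 1 ≤ z → z ≤ z' → Bd κ z' ≤ Bd κ z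

/-- **L7p** (primal bilinear bound, no functional equation) -/
def LBp : Prop :=
  ∀ ε : ℝ, 0 < ε → ∃ C : ℝ, 0 ≤ C ∧
    ∀ (M f : Eis) (O : Type) (_ : Fintype O) (lam : O → ℝ) (v w : O → Eis → ℂ) (X K B : ℝ)
      (φ : O → Eis → ℂ) (Bd : ℝ → ℝ → ℝ) (S : ℝ), Dat4 M f lam v w X → 0 < K → K ≤ X → 0 ≤ B →
      0 ≤ S → BdC Bd →
      (∀ o k, Sm M k → ‖φ o k‖ ≤ B) → (∀ o k, K / lam o < nm k → φ o k = 0) →
      (∀ b R Z κ, Sm M b → PrI b R → PrI b Z → (∀ p : Eis, Prime p → p ∣ b → p ∣ f * R * Z) →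
        0 < κ → PBo M lam b R Z (fun y => sy y b) v w κ ≤ Bd κ (nm (rd Z))) →
      (∀ b₁ b₃ κ : ℝ, 1 ≤ b₁ → 1 ≤ b₃ → 1 / 4 ≤ κ → κ * b₁ ^ 2 * b₃ ^ 3 ≤ K →
        b₁ ^ (1 / 2 : ℝ) * b₃ * κ ^ (-(1 / 2) : ℝ) * Bd κ (b₁ * b₃) ≤ S) →
      ‖∑ o, ∑' x : Eis, v o x * ∑' y : Eis, w o y * NT M (f * x * y) (φ o)‖ ≤
        C * X ^ ε * B * K * S

/-- **L7d** (dual bilinear bound) : `Kd` the dual length -/
def LBd : Prop :=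
  ∀ (M M' : Eis) (J : ℤ) (η ψ' : Eis → ℂ) (l' : ℤ) (ρ : ℝ), HC M' η → HC M' ψ' → M ∣ M' → M' ≠ 0 →
    (∀ p : Eis, Prime p → p ∣ M' → p ∣ M) → 0 < ρ →
  ∀ ε A : ℝ, 0 < ε → 0 ≤ A → ∃ (C : ℝ) (m₀ N₀ : ℕ), 0 ≤ C ∧
    ∀ (f : Eis) (O : Type) (_ : Fintype O) (lam : O → ℝ) (v w : O → Eis → ℂ) (X Q Kd B : ℝ)
      (W : ℝ → ℂ) (Bd : ℝ → ℝ → ℝ) (S : ℝ), Dat4 M f lam v w X → X⁻¹ ≤ Q → Q ≤ X → 0 < Kd →
      Kd ≤ X → 0 ≤ B → 0 ≤ S → BdC Bd → WT m₀ N₀ B W →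
      (∀ o x y, v o x ≠ 0 → w o y ≠ 0 → (nm (f * x * y) : ℝ) * lam o ^ 2 ≤ Kd * Q) →
      (∀ b R Z g ξ κ, Sm M b → PrI b R → PrI b Z →
        (∀ p : Eis, Prime p → p ∣ b → p ∣ f * R * Z) → TwC M' J b ξ g → 0 < κ →
        PBo M lam b R Z g v w κ ≤ (1 + |ξ|) ^ A * Bd κ (nm (rd Z))) →
      (∀ b₁ b₃ κ : ℝ, 1 ≤ b₁ → 1 ≤ b₃ → 1 / 4 ≤ κ → κ * b₁ ^ 2 * b₃ ^ 3 ≤ Kd * X ^ ε →
        b₁ ^ (1 / 2 : ℝ) * b₃ * κ ^ (-(1 / 2) : ℝ) * Bd κ (b₁ * b₃) ≤ S) →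
      ‖∑ o, ∑' x : Eis, v o x * ∑' y : Eis, w o y * (((Q / lam o : ℝ) : ℂ) *
        (End699.tw η J (f * x * y) *
          D3 M (End699.tw ψ' l') (f * x * y) W (ρ * nm (f * x * y) / (Q / lam o))))‖ ≤
        C * X ^ ε * B * (Q * S + X ^ (-A))

/-- **E4core** -/
def E4core : Prop :=
  ∀ (M : Eis) (ψ : Eis → ℂ) (l : ℤ) (ι : Type) (_ : Fintype ι) (D : Dt3 ι), HC M ψ → D.OK M →
  ∀ ε A : ℝ, 0 < ε → 0 ≤ A → ∃ (C : ℝ) (m₀ N₀ : ℕ), 0 ≤ C ∧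
    ∀ (V : ℝ → ℂ) (W : ι → ℝ → ℂ) (mt : Eis → ℝ → ℝ) (B : ℝ), 0 ≤ B → Law M ψ l D V W mt →
      (∀ i, WT m₀ N₀ B (W i)) → (∀ y, ‖V y‖ ≤ B) → (∀ y, 1 < y → V y = 0) →
    ∀ (f : Eis) (O : Type) (_ : Fintype O) (lam : O → ℝ) (v w : O → Eis → ℂ)
      (X K U T₀ : ℝ) (Bd : ℝ → ℝ → ℝ) (S Mn : ℝ), Dat4 M f lam v w X →
      1 ≤ K → K ≤ X → 0 < U →
      U ≤ X → 1 ≤ T₀ → T₀ ≤ X → 0 ≤ S → 0 ≤ Mn → BdC Bd →
      (∀ o x y, v o x ≠ 0 → w o y ≠ 0 → (nm (f * x * y) : ℝ) * lam o ^ 2 ≤ U) →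
      (∀ q R Z g ξ κ, Sm M q → PrI q R → PrI q Z →
        (∀ p : Eis, Prime p → p ∣ q → p ∣ f * R * Z) → TwC D.M' D.j q ξ g → 0 < κ →
        PBo M lam q R Z g v w κ ≤ (1 + |ξ|) ^ A * Bd κ (nm (rd Z))) →
      (∀ a₀ a₁ a₃ b₁ b₃ κ : ℝ, 1 ≤ a₀ → a₀ ≤ nm (rd f) → 1 ≤ a₁ → 1 ≤ a₃ → 1 ≤ b₁ → 1 ≤ b₃ →
        1 / 4 ≤ κ →
        κ * b₁ ^ 2 * b₃ ^ 3 ≤
          (if a₁ * a₃ ≤ T₀ then U / K * (a₀ * a₁) else K / (a₀ ^ 2 * a₁ ^ 2 * a₃ ^ 3)) * X ^ ε →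
        a₀ ^ (-(1 / 2) : ℝ) * (a₁ ^ (1 / 2 : ℝ) * a₃ * b₁ ^ (1 / 2 : ℝ) * b₃ *
          κ ^ (-(1 / 2) : ℝ) * Bd κ (a₁ * a₃ * (b₁ * b₃))) ≤ S) →
      (∀ R Z q₁ q₃ F : Eis, Sm M q₁ → Sm M q₃ → Squarefree q₁ → Squarefree q₃ →
        IsCoprime q₁ q₃ → (nm (rd Z) : ℝ) ≤ T₀ → f * R * Z = q₁ * q₃ ^ 3 * F → IsCoprime F q₁ →
        Sm M F → PrI (q₁ * q₃) R → PrI (q₁ * q₃) Z →
        ((nm q₁ : ℝ) ^ (5 / 2 : ℝ) * (nm q₃ : ℝ) ^ 4) *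
          ∑ o, ∑' x : Eis, ‖tws R (q₁ * q₃) (fun _ => 1) (v o) x‖ *
            ∑' y : Eis, ‖tws Z (q₁ * q₃) (fun _ => 1) (w o) y‖ *
              mt (F * x * y) (K / (lam o * nm (q₁ ^ 2 * q₃ ^ 3))) ≤ Mn) →
      ‖∑ o, ∑' x : Eis, v o x * ∑' y : Eis, w o y *
        NT (M * (f * y)) (f * x * y)
          (fun k => End699.tw ψ l k * V (nm k * lam o / K))‖ ≤
        C * X ^ ε * (B * (K * S + X ^ (-A)) + Mn)

open Classical in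
/-- the admissible data of the removal of `(k, f y) = 1`: `D` the primes with exponent `1` in the
frequency, `B` the primes with exponent `≥ 3`; `R`, `Z` the `D B`-parts of `x`, `y` -/
def Good (M f D B R Z : Eis) : Prop :=
  Squarefree D ∧ Squarefree B ∧ IsCoprime D B ∧ Sm M D ∧ Sm M B ∧ D * B ^ 3 ∣ f * R * Z ∧
    IsCoprime (f * R * Z / (D * B ^ 3)) D ∧ ∀ p : Eis, Prime p → p ∣ D * B → p ∣ f * Z

open Classical in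
/-- **opening** (combinatorial half of `E4core`) -/
def LOpen : Prop :=
  ∀ (M f : Eis) (v w φ : Eis → ℂ) (N : ℕ), Sm M f → SSm M v → SSm M w →
    (∀ x, v x ≠ 0 → nm x ≤ N) → (∀ y, w y ≠ 0 → nm y ≤ N) → nm f ≤ N → Dcy φ →
    ∑' x : Eis, v x * ∑' y : Eis, w y * NT (M * (f * y)) (f * x * y) φ =
      ∑ D ∈ primBall (N ^ 2), ∑ B ∈ primBall (N ^ 2),
        ∑ R ∈ (primBall N).filter (fun R => PrI (D * B) R),
          ∑ Z ∈ (primBall N).filter (fun Z => PrI (D * B) Z),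
            if Good M f D B R Z then
              (cB D * conj (sy (f * R * Z / (D * B ^ 3)) D) *
                ((muE B : ℂ) * (nm B : ℂ) ^ 3)) *
              ∑' x : Eis, tws R (D * B) (fun x => conj (sy x D)) v x *
                ∑' y : Eis, tws Z (D * B) (fun y => conj (sy y D)) w y *
                  NT M (f * R * Z / (D * B ^ 3) * x * y) (fun k => φ (D ^ 2 * B ^ 3 * k))
            else 0

/-- **counting** -/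
def LCnt : Prop :=
  ∀ ε : ℝ, 0 < ε → ∃ C : ℝ, 0 ≤ C ∧ ∀ (q : Eis) (X : ℝ), 1 ≤ X → q ≠ 0 → (nm q : ℝ) ≤ X →
    (open Classical in ((primBall ⌊X⌋₊).filter fun R => PrI q R).card : ℝ) ≤ C * X ^ ε

end Crest.Agent.R017.E4352
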