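import Crest.Agent.R017.E4a_47
import Crest.Agent.R017.E4defs_352

/-!
# Row 17, E4: leaves L1 - L4 of `E4defs_352` (helper47)

* `lNf : LNf`, `NT_hasSum` : `NT M u φ = Σ_k [Sm M k] nf u k φ k`
* `lMo : LMo`
* `lTh : LTh`
* `lVt : LVt`
-/

set_option autoImplicit false
set_option linter.unusedVariables false

noncomputable section

open Complex
open scoped ComplexConjugate

namespace Crest.Agent.R017.NT47

open Crest.Agent.R012 Crest.Agent.R012.Eis Crest.Agent.R012.GaussLoc283
open Crest.Agent.R012.Mob705 Crest.Agent.R012.Div277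
open Crest.Agent.R017.Sx545 (Sm)
open Crest.Agent.R017.E2440
open Crest.Agent.R017.PX764 (th Gh n6)
open Crest.Agent.R017.E4352 (nf)

/-! ### the statements (352's E4defs v1) -/

/-- **L1** (toggles) -/
def LVt : Prop :=
  ∀ M t r : Eis, Sm M t → Squarefree t → Sm M r → (∀ p : Eis, Prime p → (p ∣ r ↔ p ∣ t)) →
    (∀ (h : Eis) (φ : Eis → ℂ), Sm M h → IsCoprime h t → Dcy φ →
      NT M (r * h) (fun k => open Classical in if t ∣ k then φ k else 0) = 0) ∨
    ∃ (q₁ q₃ F : Eis) (C : ℂ), IsPrim q₁ ∧ IsPrim q₃ ∧ IsPrim F ∧ t = q₁ * q₃ ∧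
      r = q₁ * q₃ ^ 3 * F ∧ IsCoprime q₁ F ∧
      ‖C‖ = (nm q₁ : ℝ) ^ (3 / 2 : ℝ) * (nm q₃ : ℝ) ^ 3 ∧
      ∀ (h : Eis) (φ : Eis → ℂ), Sm M h → IsCoprime h t → Dcy φ →
        NT M (r * h) (fun k => open Classical in if t ∣ k then φ k else 0) =
          C * conj (sy h q₁) * NT M (F * h) (fun k => φ (q₁ ^ 2 * q₃ ^ 3 * k))

open Classical in
/-- **L2** (Möbius) -/
def LMo : Prop :=
  ∀ (M y u : Eis) (φ : Eis → ℂ), Sm M y → Sm M u → Dcy φ →
    NT (M * y) u φ = ∑ t ∈ (dvs y).filter (fun t => Squarefree t),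
      ((muE t : ℤ) : ℂ) * NT M u (fun k => open Classical in if t ∣ k then φ k else 0)

/-- **L3** (natural coefficients) -/
def LNf : Prop :=
  (∀ (M u : Eis) (φ : Eis → ℂ), Dcy φ →
    NT M u φ = ∑' k : Eis, open Classical in if Sm M k then nf u k * φ k else 0) ∧
  (∀ u y k : Eis, IsPrim y → IsPrim k → IsCoprime y k → nf (u * y) k = nf u k * sy y k) ∧
  (∀ j δ k : Eis, IsPrim j → IsPrim δ → IsPrim k → Squarefree (j * δ) →
    nf (j * δ ^ 2) k = nf j k * conj (sy k δ))

/-- **L4** (theta = natural coefficients) -/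
def LTh : Prop :=
  ∀ j k : Eis, IsPrim j → Squarefree j → IsPrim k →
    PX764.th (j * k) = PX764.th j * (((nm k : ℝ) ^ (-(2 : ℝ) / 3) : ℝ) : ℂ) * nf j k

/-! ### the natural coefficients -/

open Classical in
/-- the double series -/
def GG (M u : Eis) (φ : Eis → ℂ) (x : Eis × Eis) : ℂ :=
  if Sm M x.1 ∧ Sm M x.2 then (nm x.1 : ℂ) ^ 2 * (conj (gs u x.2) * φ (x.2 * x.1 ^ 3)) else 0

lemma norm_GG_le {M u : Eis} {φ : Eis → ℂ} {C : ℝ} (hC0 : 0 ≤ C)
    (hC : ∀ k, k ≠ 0 → ‖φ k‖ ≤ C * ((nm k : ℝ) ^ 3)⁻¹) (x : Eis × Eis) :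
    ‖GG M u φ x‖ ≤ C * (((nm x.1 : ℝ) ^ 2)⁻¹ * ((nm x.2 : ℝ) ^ 2)⁻¹) := by
  unfold GG
  split_ifs with h
  · have h1 := one_le_nm h.1.ne_zero
    have h2 := one_le_nm h.2.ne_zero
    rw [norm_mul, norm_mul, norm_pow, Complex.norm_natCast, RCLike.norm_conj]
    have h3 : ‖φ (x.2 * x.1 ^ 3)‖ ≤ C * ((nm (x.2 * x.1 ^ 3) : ℝ) ^ 3)⁻¹ :=
      hC _ (mul_ne_zero h.2.ne_zero (pow_ne_zero 3 h.1.ne_zero))
    have h4 : ‖gs u x.2‖ ≤ nm x.2 := norm_gs_le syAx u h.2.prim
    calc (nm x.1 : ℝ) ^ 2 * (‖gs u x.2‖ * ‖φ (x.2 * x.1 ^ 3)‖)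
        ≤ (nm x.1 : ℝ) ^ 2 * ((nm x.2 : ℝ) * (C * ((nm (x.2 * x.1 ^ 3) : ℝ) ^ 3)⁻¹)) := by
          gcongr
      _ = C * (((nm x.1 : ℝ) ^ 7)⁻¹ * ((nm x.2 : ℝ) ^ 2)⁻¹) := by
          rw [nm_mul, nm_pow]
          push_cast
          have h5 : (nm x.1 : ℝ) ≠ 0 := by linarith
          have h6 : (nm x.2 : ℝ) ≠ 0 := by linarith
          field_simp
      _ ≤ _ := by
          apply mul_le_mul_of_nonneg_left _ hC0
          apply mul_le_mul_of_nonneg_right _ (by positivity)
          apply inv_anti₀ (by positivity)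
          exact pow_le_pow_right₀ h1 (by norm_num)
  · rw [norm_zero]; positivity

lemma summable_GG {M u : Eis} {φ : Eis → ℂ} (hφ : Dcy φ) : Summable (GG M u φ) := by
  obtain ⟨C, hC0, hC⟩ := hφ.nonneg
  refine Summable.of_norm_bounded (g := fun x : Eis × Eis =>
    C * (((nm x.1 : ℝ) ^ 2)⁻¹ * ((nm x.2 : ℝ) ^ 2)⁻¹)) ?_ (norm_GG_le hC0 hC)
  exact (summable_nm2.mul_of_nonneg summable_nm2 (fun _ => by positivity)
    (fun _ => by positivity)).mul_left C

lemma NT_eq_GG {M u : Eis} {φ : Eis → ℂ} (hφ : Dcy φ) : NT M u φ = ∑' x, GG M u φ x := by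
  classical
  rw [(summable_GG hφ).tsum_prod]
  unfold NT
  refine tsum_congr fun e => ?_
  unfold GG
  split_ifs with he
  · unfold DS
    rw [← tsum_mul_left]
    refine tsum_congr fun d => ?_
    by_cases hd : Sm M d
    · rw [if_pos hd, if_pos ⟨he, hd⟩]
    · rw [if_neg hd, if_neg (fun h => hd h.2), mul_zero]
  · refine (Eq.trans (tsum_congr fun d => ?_) tsum_zero).symm
    rw [if_neg (fun h => he h.1)]

/-- the product map -/
def pim (x : Eis × Eis) : Eis := x.2 * x.1 ^ 3

lemma sm_pim {M k : Eis} {x : Eis × Eis} (h1 : IsPrim x.1) (h2 : IsPrim x.2) (hx : pim x = k) :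
    Sm M k ↔ Sm M x.1 ∧ Sm M x.2 := by
  unfold pim at hx
  constructor
  · intro h
    rw [← hx] at h
    have h3 := h.of_mul_right (h1.pow 3)
    have h4 := h.of_mul_left h2
    exact ⟨h4.of_dvd h1 (dvd_pow_self _ (by norm_num)), h3⟩
  · rintro ⟨h3, h4⟩
    rw [← hx]
    exact h4.mul (h3.pow 3)

open Classical in
lemma nf_fib {M u k : Eis} {φ : Eis → ℂ} :
    (∑' x : {x : Eis × Eis // pim x = k}, GG M u φ x.1) = if Sm M k then nf u k * φ k else 0 := by
  rw [show (∑' x : {x : Eis × Eis // pim x = k}, GG M u φ x.1) = _ from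
    tsum_subtype {x : Eis × Eis | pim x = k} (GG M u φ)]
  by_cases hk : Sm M k
  · rw [if_pos hk]
    rw [tsum_eq_sum (s := (primBall (nm k) ×ˢ primBall (nm k)).filter
      (fun x => x.2 * x.1 ^ 3 = k))]
    · unfold nf
      rw [Finset.sum_mul]
      refine Finset.sum_congr rfl fun x hx => ?_
      rw [Finset.mem_filter, Finset.mem_product, mem_primBall, mem_primBall] at hx
      obtain ⟨⟨h1, h2⟩, h3⟩ := hx
      rw [Set.indicator_of_mem (show x ∈ {x : Eis × Eis | pim x = k} from h3)]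
      unfold GG
      rw [if_pos ((sm_pim h1.2 h2.2 h3).mp hk), h3]
      ring
    · intro x hx
      by_cases h3 : pim x = k
      · rw [Set.indicator_of_mem (show x ∈ {x : Eis × Eis | pim x = k} from h3)]
        unfold GG
        rw [if_neg]
        rintro ⟨h1, h2⟩
        apply hx
        rw [Finset.mem_filter, Finset.mem_product, mem_primBall, mem_primBall]
        have hd1 : x.1 ∣ k := by
          rw [← h3]; exact dvd_mul_of_dvd_right (dvd_pow_self _ (by norm_num)) _
        have hd2 : x.2 ∣ k := by rw [← h3]; exact dvd_mul_right _ _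
        exact ⟨⟨⟨nm_le_of_dvd hk.ne_zero hd1, h1.prim⟩, ⟨nm_le_of_dvd hk.ne_zero hd2, h2.prim⟩⟩,
          h3⟩
      · rw [Set.indicator_of_notMem (show x ∉ {x : Eis × Eis | pim x = k} from h3)]
  · rw [if_neg hk]
    refine Eq.trans (tsum_congr fun x => ?_) tsum_zero
    by_cases h3 : pim x = k
    · rw [Set.indicator_of_mem (show x ∈ {x : Eis × Eis | pim x = k} from h3)]
      unfold GG
      rw [if_neg]
      intro h
      exact hk ((sm_pim h.1.prim h.2.prim h3).mpr h)
    · rw [Set.indicator_of_notMem (show x ∉ {x : Eis × Eis | pim x = k} from h3)]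

open Classical in
/-- **`NT` in natural coefficients** -/
theorem NT_hasSum {M u : Eis} {φ : Eis → ℂ} (hφ : Dcy φ) :
    HasSum (fun k => if Sm M k then nf u k * φ k else 0) (NT M u φ) := by
  have hs := summable_GG (M := M) (u := u) hφ
  have h1 : HasSum (GG M u φ) (NT M u φ) := by
    rw [NT_eq_GG hφ]; exact hs.hasSum
  have h2 := ((Equiv.sigmaFiberEquiv pim).hasSum_iff (f := GG M u φ)).mpr h1
  have h3 := h2.sigma (g := fun k => if Sm M k then nf u k * φ k else 0) ?_
  · exact h3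
  · intro k
    rw [← nf_fib]
    have h4 : Summable (fun x : {x : Eis × Eis // pim x = k} => GG M u φ x.1) :=
      hs.subtype {x : Eis × Eis | pim x = k}
    exact h4.hasSum

open Classical in
/-- the indicator of one element -/
def ind1 (k : Eis) : Eis → ℂ := fun x => if x = k then 1 else 0

lemma dcy_ind1 (k : Eis) : Dcy (ind1 k) := by
  refine ⟨(nm k : ℝ) ^ 3, fun x hx => ?_⟩
  unfold ind1
  split_ifs with h
  · subst h
    have h1 := one_le_nm hx
    rw [norm_one, mul_inv_cancel₀ (by positivity)]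
  · rw [norm_zero]; positivity

lemma NT_ind1 {M u k : Eis} (hk : Sm M k) (g : Eis → ℂ) (hg : Dcy (fun x => g x * ind1 k x)) :
    NT M u (fun x => g x * ind1 k x) = nf u k * g k := by
  classical
  have h := NT_hasSum (M := M) (u := u) hg
  have h2 : (fun x => if Sm M x then nf u x * (g x * ind1 k x) else 0) =
      fun x => if x = k then nf u k * g k else 0 := by
    funext x
    unfold ind1
    by_cases hx : x = k
    · subst hx
      rw [if_pos hk, if_pos rfl, if_pos rfl, mul_one]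
    · rw [if_neg hx, if_neg hx]
      simp
  rw [h2] at h
  exact h.unique (hasSum_ite_eq k _)

lemma NT_ind {M u k : Eis} (hk : Sm M k) : NT M u (ind1 k) = nf u k := by
  have h := NT_ind1 (u := u) hk (fun _ => 1) (by simpa using dcy_ind1 k)
  simpa using h

lemma NT_ind_zero {M u k : Eis} (hk : ¬ Sm M k) : NT M u (ind1 k) = 0 := by
  classical
  have h := NT_hasSum (M := M) (u := u) (dcy_ind1 k)
  have h2 : (fun x => if Sm M x then nf u x * ind1 k x else 0) = fun x => 0 := by
    funext x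
    unfold ind1
    by_cases hx : x = k
    · subst hx
      rw [if_neg hk]
    · rw [if_neg hx]
      simp
  rw [h2] at h
  exact h.unique hasSum_zero

lemma nf_mul {u y k : Eis} (hy : IsPrim y) (hk : IsPrim k) (hyk : IsCoprime y k) :
    nf (u * y) k = nf u k * sy y k := by
  classical
  unfold nf
  rw [Finset.sum_mul]
  refine Finset.sum_congr rfl fun x hx => ?_
  rw [Finset.mem_filter, Finset.mem_product, mem_primBall, mem_primBall] at hx
  obtain ⟨⟨h1, h2⟩, h3⟩ := hx
  have hd2 : x.2 ∣ k := by rw [← h3]; exact dvd_mul_right _ _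
  have hd1 : x.1 ∣ k := by
    rw [← h3]; exact dvd_mul_of_dvd_right (dvd_pow_self _ (by norm_num)) _
  have hc2 : IsCoprime y x.2 := hyk.of_isCoprime_of_dvd_right hd2
  have hc1 : IsCoprime y x.1 := hyk.of_isCoprime_of_dvd_right hd1
  have e1 : gs (u * y) x.2 = conj (sy y x.2) * gs u x.2 :=
    Gauss880.gs_mul_of_coprime Gauss880.syG h2.2 u hc2
  have e2 : sy y k = sy y x.2 := by
    rw [← h3, syAx.mul_right _ _ _ h2.2 (h1.2.pow 3)]
    have e3 : sy y (x.1 ^ 3) = 1 := by
      rw [show x.1 ^ 3 = x.1 * (x.1 * x.1) by ring, syAx.mul_right _ _ _ h1.2 (h1.2.mul h1.2),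
        syAx.mul_right _ _ _ h1.2 h1.2]
      have := syAx.cube y x.1 h1.2 hc1
      rw [show sy y x.1 * (sy y x.1 * sy y x.1) = sy y x.1 ^ 3 by ring, this]
    rw [e3, mul_one]
  rw [e1, e2, map_mul, Complex.conj_conj]
  ring

lemma nf_two {h p k : Eis} (hp : IsPP p) (hh : ¬ p ∣ h) (hk : IsPrim k) (hpk : p ∣ k) :
    nf (h * p ^ 2) k = 0 := by
  have hp1 : Sm 1 p := ⟨hp.isPrim, isCoprime_one_right⟩
  have hk1 : Sm 1 k := ⟨hk, isCoprime_one_right⟩
  have h1 := NT_rem2 hp1 hp.prime hh (dcy_ind1 k)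
  rw [NT_ind hk1, NT_ind_zero (fun h' => ?_)] at h1
  · exact h1.symm
  · have h2 := h'.2
    rw [one_mul] at h2
    exact (cop_iff hp.prime k).mp h2 hpk

theorem lNf : LNf := by
  classical
  refine ⟨fun M u φ hφ => (NT_hasSum hφ).tsum_eq.symm, fun u y k hy hk hyk => nf_mul hy hk hyk,
    fun j δ k hj hδ hk hs => ?_⟩
  by_cases hc : IsCoprime δ k
  · rw [nf_mul (hδ.pow 2) hk hc.pow_left]
    congr 1
    rw [pow_two, syAx.mul_left _ _ _ hk, ← sy_conj_sq hk hc, syAx.recip δ k hδ hk]
  · obtain ⟨p, hp, hpδ, hpk⟩ := exists_common_pp hδ hc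
    have hck : ¬ IsCoprime k δ := fun h => hc h.symm
    have h0 : sy k δ = 0 := (syAx.eq_zero k δ hδ).mpr hck
    obtain ⟨δ', rfl⟩ := hpδ
    have hpj : ¬ p ∣ j * δ' ^ 2 := by
      intro h
      have hss : ¬ p ∣ j * δ' := by
        intro h2
        apply hp.prime.not_isUnit
        apply hs p
        have : j * (p * δ') = p * (j * δ') := by ring
        rw [this]
        exact mul_dvd_mul_left p h2
      rcases hp.prime.dvd_or_dvd h with h | h
      · exact hss (h.mul_right _)
      · exact hss ((hp.prime.dvd_of_dvd_pow h).mul_left _)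
    have e : j * (p * δ') ^ 2 = (j * δ' ^ 2) * p ^ 2 := by ring
    rw [e, nf_two hp hpj hk hpk, h0]
    simp

/-! ### Möbius -/

lemma muE_zero_of_not_sqf {t : Eis} (h : ¬ Squarefree t) : muE t = 0 := by
  have := abs_muE t
  rw [if_neg h] at this
  exact abs_eq_zero.mp this

lemma dcy_ind {φ : Eis → ℂ} (hφ : Dcy φ) (P : Eis → Prop) :
    open Classical in Dcy (fun k => if P k then φ k else 0) := by
  classical
  obtain ⟨C, hC0, hC⟩ := hφ.nonneg
  refine ⟨C, fun k hk => ?_⟩
  show ‖if P k then φ k else 0‖ ≤ _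
  split_ifs
  · exact hC k hk
  · rw [norm_zero]; positivity

theorem lMo : LMo := by
  classical
  intro M y u φ hy hu hφ
  have h1 : ∀ t : Eis, HasSum (fun k => if Sm M k then nf u k * (if t ∣ k then φ k else 0) else 0)
      (NT M u (fun k => if t ∣ k then φ k else 0)) := fun t =>
    NT_hasSum (dcy_ind hφ (fun k => t ∣ k))
  have h2 : HasSum (fun k => ∑ t ∈ (dvs y).filter (fun t => Squarefree t), ((muE t : ℤ) : ℂ) *
      (if Sm M k then nf u k * (if t ∣ k then φ k else 0) else 0))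
      (∑ t ∈ (dvs y).filter (fun t => Squarefree t), ((muE t : ℤ) : ℂ) *
        NT M u (fun k => if t ∣ k then φ k else 0)) :=
    hasSum_sum fun t _ => (h1 t).mul_left _
  have h3 := NT_hasSum (M := M * y) (u := u) hφ
  refine h3.unique ?_
  convert h2 using 1
  funext k
  by_cases hk : Sm M k
  swap
  · rw [if_neg (fun h => hk ⟨h.1, h.2.of_mul_right_left⟩)]
    simp [hk]
  have e1 : ∑ t ∈ (dvs y).filter (fun t => Squarefree t), ((muE t : ℤ) : ℂ) *
      (if Sm M k then nf u k * (if t ∣ k then φ k else 0) else 0) =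
      (nf u k * φ k) * ∑ t ∈ dvs y, (((if t ∣ k then muE t else 0 : ℤ)) : ℂ) := by
    rw [Finset.sum_filter, Finset.mul_sum]
    refine Finset.sum_congr rfl fun t _ => ?_
    rw [if_pos hk]
    by_cases hs : Squarefree t
    · rw [if_pos hs]
      by_cases ht : t ∣ k
      · rw [if_pos ht, if_pos ht]; ring
      · rw [if_neg ht, if_neg ht]; simp
    · rw [if_neg hs, muE_zero_of_not_sqf hs]
      simp
  rw [e1, ← Int.cast_sum, sum_muE_coprime hk.prim hy.ne_zero]
  by_cases hc : IsCoprime k y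
  · have hS : Sm (M * y) k := ⟨hk.1, hk.2.mul_right hc⟩
    rw [if_pos hS, if_pos hc]
    push_cast
    ring
  · have hS : ¬ Sm (M * y) k := fun h => hc h.2.of_mul_right_right
    rw [if_neg hS, if_neg hc]
    simp

/-! ### theta coefficients -/

theorem lTh : LTh := by
  classical
  intro j k hj hjs hk
  have hc : NoP 1 (1 : Eis) :=
    ⟨one_ne_zero, fun p hp _ h => hp.not_isUnit (isUnit_of_dvd_one h)⟩
  have h1 := THs_all hc hj hjs 1 (ind1 k) (dcy_ind1 k)
  rw [one_mul] at h1
  have hk1 : Sm 1 k := ⟨hk, isCoprime_one_right⟩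
  rw [NT_ind1 hk1 n23 (dcy_ind1 k).n23] at h1
  have h2 : TS 1 j (ind1 k) = th (j * k) := by
    unfold TS
    rw [tsum_eq_single k]
    · rw [if_pos hk1]
      unfold ind1
      rw [if_pos rfl, mul_one]
    · intro x hx
      unfold ind1
      rw [if_neg hx]
      simp
  rw [h2] at h1
  rw [h1]
  unfold n23
  have e : (-(2 : ℝ) / 3) = (-(2 / 3 : ℝ)) := by norm_num
  rw [e]
  ring

/-! ### toggles -/

lemma NT_dvd {M p u : Eis} (hp : Sm M p) (hpp : Prime p) {φ : Eis → ℂ} (hφ : Dcy φ) :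
    open Classical in
    NT M u (fun k => if p ∣ k then φ k else 0) = NT M u φ - NT (M * p) u φ := by
  classical
  have h1 := NT_hasSum (M := M) (u := u) (dcy_ind hφ (fun k => p ∣ k))
  have h2 := (NT_hasSum (M := M) (u := u) hφ).sub (NT_hasSum (M := M * p) (u := u) hφ)
  have e : (fun k => if Sm M k then nf u k * (if p ∣ k then φ k else 0) else 0) =
      fun k => (if Sm M k then nf u k * φ k else 0) -
        (if Sm (M * p) k then nf u k * φ k else 0) := by
    funext k
    rw [sm_mul_right]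
    simp only [cop_iff hpp]
    by_cases hk : Sm M k <;> by_cases hpk : p ∣ k <;> simp [hk, hpk]
  rw [e] at h1
  exact h1.unique h2

open Classical in
lemma ind_mul {p t : Eis} (hpt : IsCoprime p t) (φ : Eis → ℂ) :
    (fun k => if p * t ∣ k then φ k else 0) =
      fun k => if p ∣ k then (if t ∣ k then φ k else 0) else 0 := by
  funext k
  by_cases h1 : p ∣ k <;> by_cases h2 : t ∣ k
  · rw [if_pos (hpt.mul_dvd h1 h2), if_pos h1, if_pos h2]
  · rw [if_neg (fun h => h2 ((dvd_mul_left t p).trans h)), if_pos h1, if_neg h2]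
  · rw [if_neg (fun h => h1 ((dvd_mul_right p t).trans h)), if_neg h1]
  · rw [if_neg (fun h => h1 ((dvd_mul_right p t).trans h)), if_neg h1]

open Classical in
lemma ind_dil {p t : Eis} (hpt : IsCoprime p t) (φ : Eis → ℂ) (i : ℕ) :
    (fun k => (fun k => if t ∣ k then φ k else 0) (p ^ i * k)) =
      fun k => if t ∣ k then φ (p ^ i * k) else 0 := by
  funext k
  have hc : IsCoprime t (p ^ i) := hpt.symm.pow_right
  by_cases h : t ∣ k
  · simp only
    rw [if_pos h, if_pos (h.mul_left _)]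
  · simp only
    rw [if_neg h, if_neg (fun h' => h (hc.dvd_of_dvd_mul_left h'))]

/-- the conclusion of `LVt` -/
def VtC (M t r : Eis) : Prop := open Classical in
    (∀ (h : Eis) (φ : Eis → ℂ), Sm M h → IsCoprime h t → Dcy φ →
      NT M (r * h) (fun k => if t ∣ k then φ k else 0) = 0) ∨
    ∃ (q₁ q₃ F : Eis) (C : ℂ), IsPrim q₁ ∧ IsPrim q₃ ∧ IsPrim F ∧ t = q₁ * q₃ ∧
      r = q₁ * q₃ ^ 3 * F ∧ IsCoprime q₁ F ∧
      ‖C‖ = (nm q₁ : ℝ) ^ (3 / 2 : ℝ) * (nm q₃ : ℝ) ^ 3 ∧
      ∀ (h : Eis) (φ : Eis → ℂ), Sm M h → IsCoprime h t → Dcy φ →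
        NT M (r * h) (fun k => if t ∣ k then φ k else 0) =
          C * conj (sy h q₁) * NT M (F * h) (fun k => φ (q₁ ^ 2 * q₃ ^ 3 * k))

lemma vt_one {M r : Eis} (hr : r = 1) : VtC M 1 r := by
  classical
  subst hr
  right
  refine ⟨1, 1, 1, 1, isPrim_one, isPrim_one, isPrim_one, by ring, by ring, isCoprime_one_left,
    by simp [nm_one], fun h φ _ _ _ => ?_⟩
  rw [syAx.one_right]
  simp

/-- one prime -/
lemma vt_step {M p t r' : Eis} (U : ℕ) (hp : Sm M p) (hpp : Prime p) (ht : IsPrim t)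
    (hpt : IsCoprime p t) (hr : Sm M r') (hpr : ¬ p ∣ r') (ht0 : t ≠ 0)
    (hrt : ∀ q : Eis, Prime q → (q ∣ r' ↔ q ∣ t)) (H : VtC M t r') :
    VtC M (p * t) (p ^ (U + 1) * r') := by
  classical
  have hp0 := hpp.ne_zero
  have hq0 : (0 : ℝ) < nm p := by exact_mod_cast nm_pos.mpr hp0
  -- `U + 1 = 1`
  have key1 : ∀ (h : Eis) (φ : Eis → ℂ), Sm M h → IsCoprime h (p * t) → Dcy φ →
      NT M (p ^ 1 * r' * h) (fun k => if p * t ∣ k then φ k else 0) =
        c1 p (r' * h) * NT M (r' * h) (fun k => if t ∣ k then φ (p ^ 2 * k) else 0) := by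
    intro h φ hh hht hφ
    have hph : ¬ p ∣ r' * h := by
      intro h'
      rcases hpp.dvd_or_dvd h' with h' | h'
      · exact hpr h'
      · exact hpp.not_isUnit (hht.isUnit_of_dvd' h' (dvd_mul_right _ _))
    have hψ := dcy_ind hφ (fun k => t ∣ k)
    rw [ind_mul hpt, NT_dvd hp hpp hψ]
    have e : p ^ 1 * r' * h = (r' * h) * p := by ring
    rw [e, NT_rem1 hp hpp hph hψ, ind_dil hpt]
    ring
  have key2 : ∀ (h : Eis) (φ : Eis → ℂ), Sm M h → IsCoprime h (p * t) → Dcy φ →
      NT M (p ^ 2 * r' * h) (fun k => if p * t ∣ k then φ k else 0) = 0 := by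
    intro h φ hh hht hφ
    have hph : ¬ p ∣ r' * h := by
      intro h'
      rcases hpp.dvd_or_dvd h' with h' | h'
      · exact hpr h'
      · exact hpp.not_isUnit (hht.isUnit_of_dvd' h' (dvd_mul_right _ _))
    have hψ := dcy_ind hφ (fun k => t ∣ k)
    rw [ind_mul hpt, NT_dvd hp hpp hψ]
    have e : p ^ 2 * r' * h = (r' * h) * p ^ 2 := by ring
    rw [e, NT_rem2 hp hpp hph hψ]
    ring
  have key3 : ∀ (j : ℕ) (h : Eis) (φ : Eis → ℂ), Sm M h → IsCoprime h (p * t) → Dcy φ →
      NT M (p ^ (j + 3) * r' * h) (fun k => if p * t ∣ k then φ k else 0) =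
        (nm p : ℂ) ^ 3 * NT M (r' * (p ^ j * h))
          (fun k => if t ∣ k then φ (p ^ 3 * k) else 0) := by
    intro j h φ hh hht hφ
    have hψ := dcy_ind hφ (fun k => t ∣ k)
    rw [ind_mul hpt, NT_dvd hp hpp hψ]
    have e : p ^ (j + 3) * r' * h = (r' * (p ^ j * h)) * p ^ 3 := by ring
    rw [e, NT_rem3 hp hpp _ hψ, ind_dil hpt]
    ring
  have hcS : ∀ h, IsCoprime h (p * t) → IsCoprime h t := fun h hh => hh.of_mul_right_right
  obtain _ | _ | j := U
  · -- exponent one
    rcases H with H | ⟨q₁, q₃, F, C, hq1, hq3, hF, htq, hrq, hqF, hCn, H⟩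
    · left
      intro h φ hh hht hφ
      rw [zero_add, key1 h φ hh hht hφ, H h _ hh (hcS h hht) (hφ.dil (pow_ne_zero 2 hp0)),
        mul_zero]
    · right
      have hFr : F ∣ r' := by rw [hrq]; exact dvd_mul_left _ _
      have hpF : IsCoprime p F := ((hpp.irreducible).coprime_iff_not_dvd).mpr
        (fun h => hpr (h.trans hFr))
      have hpr2 : IsCoprime r' p := ((cop_iff hpp r').mpr hpr)
      refine ⟨p * q₁, q₃, F, C * ((nm p : ℂ) * ((Real.sqrt (nm p) : ℝ) : ℂ) *
        (conj (sy r' p) * G p)), hp.prim.mul hq1, hq3, hF, by rw [htq]; ring, by rw [hrq]; ring,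
        IsCoprime.mul_left hpF hqF, ?_, fun h φ hh hht hφ => ?_⟩
      · rw [norm_mul, norm_mul, norm_mul, norm_mul, hCn, RCLike.norm_conj,
          Gauss880.norm_sy Gauss880.syG hp.prim hpr2, Complex.norm_natCast, Complex.norm_real,
          Real.norm_of_nonneg (Real.sqrt_nonneg _),
          PX764.norm_G_one hp.prim hpp.squarefree, nm_mul]
        push_cast
        have e1 : (nm p : ℝ) * Real.sqrt (nm p) = (nm p : ℝ) ^ (3 / 2 : ℝ) := by
          rw [Real.sqrt_eq_rpow, show (3 / 2 : ℝ) = 1 + 1 / 2 by norm_num,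
            Real.rpow_add hq0, Real.rpow_one]
        rw [e1, Real.mul_rpow hq0.le (by positivity)]
        ring
      · rw [zero_add, key1 h φ hh hht hφ, H h _ hh (hcS h hht) (hφ.dil (pow_ne_zero 2 hp0))]
        have e2 : c1 p (r' * h) = (nm p : ℂ) * ((Real.sqrt (nm p) : ℝ) : ℂ) *
            (conj (sy r' p) * conj (sy h p) * G p) := by
          unfold c1
          rw [syAx.mul_left _ _ _ hp.prim, map_mul]
        have e3 : (fun k => φ (p ^ 2 * (q₁ ^ 2 * q₃ ^ 3 * k))) =
            fun k => φ ((p * q₁) ^ 2 * q₃ ^ 3 * k) := by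
          funext k; congr 1; ring
        rw [e2, e3, syAx.mul_right _ _ _ hp.prim hq1, map_mul]
        ring
  · -- exponent two
    left
    intro h φ hh hht hφ
    exact key2 h φ hh hht hφ
  · -- exponent at least three
    have hhj : ∀ h, Sm M h → Sm M (p ^ j * h) := fun h hh => (hp.pow j).mul hh
    have hcj : ∀ h, IsCoprime h (p * t) → IsCoprime (p ^ j * h) t := fun h hh =>
      (hpt.pow_left).mul_left (hcS h hh)
    have ej : j + 1 + 1 + 1 = j + 3 := by ring
    rw [ej]
    rcases H with H | ⟨q₁, q₃, F, C, hq1, hq3, hF, htq, hrq, hqF, hCn, H⟩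
    · left
      intro h φ hh hht hφ
      rw [key3 j h φ hh hht hφ, H _ _ (hhj h hh) (hcj h hht) (hφ.dil (pow_ne_zero 3 hp0)),
        mul_zero]
    · right
      have hq1t : q₁ ∣ t := by rw [htq]; exact dvd_mul_right _ _
      have hpq1 : IsCoprime p q₁ := hpt.of_isCoprime_of_dvd_right hq1t
      refine ⟨q₁, p * q₃, F * p ^ j, C * ((nm p : ℂ) ^ 3 * conj (sy (p ^ j) q₁)), hq1,
        hp.prim.mul hq3, hF.mul (hp.prim.pow j), by rw [htq]; ring, by rw [hrq]; ring,
        hqF.mul_right (hpq1.symm.pow_right), ?_, fun h φ hh hht hφ => ?_⟩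
      · rw [norm_mul, norm_mul, norm_pow, hCn, RCLike.norm_conj,
          Gauss880.norm_sy Gauss880.syG hq1 hpq1.pow_left, Complex.norm_natCast, nm_mul]
        push_cast
        ring
      · rw [key3 j h φ hh hht hφ, H _ _ (hhj h hh) (hcj h hht) (hφ.dil (pow_ne_zero 3 hp0))]
        have e3 : (fun k => φ (p ^ 3 * (q₁ ^ 2 * q₃ ^ 3 * k))) =
            fun k => φ (q₁ ^ 2 * (p * q₃) ^ 3 * k) := by
          funext k; congr 1; ring
        rw [e3, syAx.mul_left _ _ _ hq1, map_mul, show F * (p ^ j * h) = F * p ^ j * h by ring]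
        ring

theorem lVt : LVt := by
  classical
  have key : ∀ (N : ℕ) (t : Eis), nm t ≤ N → ∀ (M r : Eis), Sm M t → Squarefree t → Sm M r →
      (∀ p : Eis, Prime p → (p ∣ r ↔ p ∣ t)) → VtC M t r := by
    intro N
    induction N with
    | zero =>
      intro t ht M r hMt
      have := nm_pos.mpr hMt.ne_zero
      omega
    | succ N ih =>
      intro t hN M r hMt hts hMr hrt
      by_cases h1 : t = 1
      · subst h1
        refine vt_one ?_
        by_contra hr1
        obtain ⟨p, hp, hpr⟩ := exists_pp_dvd_of_isPrim hMr.prim hr1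
        exact hp.prime.not_isUnit (isUnit_of_dvd_one ((hrt p hp.prime).mp hpr))
      · obtain ⟨p, hp, hpt⟩ := exists_pp_dvd_of_isPrim hMt.prim h1
        obtain ⟨t', rfl⟩ := hpt
        have hp1 := hp.isPrim
        have hpp := hp.prime
        have hp0 := hpp.ne_zero
        have hm1 : IsPrim t' := hMt.prim.of_mul_left hp1
        have hmS : Sm M t' := hMt.of_mul_left hp1
        have hpS : Sm M p := hMt.of_dvd hp1 (dvd_mul_right _ _)
        have hsm : Squarefree t' := hts.of_mul_right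
        have hpm : ¬ p ∣ t' := by
          intro h
          exact hpp.not_isUnit (hts p (mul_dvd_mul_left p h))
        have hcop : IsCoprime p t' := ((hpp.irreducible).coprime_iff_not_dvd).mpr hpm
        have hnm : nm t' ≤ N := by
          have h2 : nm (p * t') = nm p * nm t' := nm_mul _ _
          have h3 := hp.four_le_nm
          have h4 := nm_pos.mpr hm1.ne_zero
          have h5 : 4 * nm t' ≤ nm p * nm t' := Nat.mul_le_mul_right _ h3
          omega
        have hpr : p ∣ r := (hrt p hpp).mpr (dvd_mul_right _ _)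
        obtain ⟨j, r', hr', hrc, hrr⟩ := exists_pd hp1 hpp hMr.prim
        have hpr' : ¬ p ∣ r' := (cop_iff hpp r').mp hrc
        obtain _ | U := j
        · exfalso
          rw [pow_zero, one_mul] at hrr
          exact hpr' (hrr ▸ hpr)
        · have hMr' : Sm M r' := by
            rw [hrr] at hMr
            exact hMr.of_mul_left (hp1.pow _)
          have hrt' : ∀ q : Eis, Prime q → (q ∣ r' ↔ q ∣ t') := by
            intro q hq
            constructor
            · intro h
              have h2 : q ∣ p * t' := (hrt q hq).mp (by rw [hrr]; exact h.mul_left _)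
              rcases hq.dvd_or_dvd h2 with h3 | h3
              · exfalso
                have h4 : Associated q p := hq.associated_of_dvd hpp h3
                exact hpr' (h4.symm.dvd.trans h)
              · exact h3
            · intro h
              have h2 : q ∣ r := (hrt q hq).mpr (h.mul_left _)
              rw [hrr] at h2
              rcases hq.dvd_or_dvd h2 with h3 | h3
              · exfalso
                have h4 : Associated q p := hq.associated_of_dvd hpp (hq.dvd_of_dvd_pow h3)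
                exact hpm (h4.symm.dvd.trans h)
              · exact h3
          rw [hrr]
          exact vt_step U hpS hpp hm1 hcop hMr' hpr' hm1.ne_zero hrt'
            (ih t' hnm M r' hmS hsm hMr' hrt')
  intro M t r hMt hts hMr hrt
  exact key (nm t) t le_rfl M r hMt hts hMr hrt

end Crest.Agent.R017.NT47
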