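import Crest.Agent.R017.E4LawB_266
import Crest.Agent.R017.CT2_590

/-!
# Row 17, C70/E4: the functional equation with main term, all levels (helper266)

* `HasL M ψ l R` : functional equation with error `C (1+|τ|)^(-A) R(u) Q^(4/3)`
* `stepL` : adding a prime
* `law_L` : case L
-/

set_option autoImplicit false

noncomputable section

open Complex MeasureTheory Set Filter Topology
open scoped ComplexConjugate ContDiff

namespace Crest.Agent.R017.E4L266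

open Crest.Agent.R012 Crest.Agent.R012.Eis Crest.Agent.R012.GaussLoc283
open Crest.Agent.R017.FE47 (SM)
open Crest.Agent.R017.F1
open Crest.Agent.R017.X6C180 (IX dl' om' dl_SU SU.SM)
open Crest.Agent.R017.Sx545 (Sm sm_one_iff)
open Crest.Agent.R017.End699 (HC)
open Crest.Agent.R017.A590
open Crest.Agent.R017.E2440 (NT DS Dcy c0 c1)
open Crest.Agent.R017.B770 (SW)
open Crest.Agent.R017.C590
open Crest.Agent.R017.E4352 (Law WT)

variable {M M₁ M' p u : Eis} {j l' : ℤ} {R R' : Eis → ℝ}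

lemma wb_of_wtf {W : ℝ → ℝ → ℂ} (hW : WTf W) (τ : ℝ) : WB (W τ) := by
  obtain ⟨C, A, hC, hb⟩ := hW.dec 0 2
  refine ⟨C * (1 + |τ|) ^ A, by have := abs_nonneg τ; positivity, fun y hy => ?_⟩
  have h := hb τ y hy
  rw [iteratedDeriv_zero] at h
  simp only [Real.exp_log hy] at h
  exact h.trans (mul_le_mul_of_nonneg_left (min_le_right _ _) (by have := abs_nonneg τ; positivity))

/-- representation with error -/
def RepL (M M' : Eis) (j l' : ℤ) (R : Eis → ℝ) (F : (ℝ → ℂ) → Eis → ℝ → ℝ → ℂ) : Prop :=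
  ∃ (ι : Type) (_ : Fintype ι) (κ : ι → ℂ) (η ψ' : ι → Eis → ℂ) (ρ : ι → ℝ),
    (∀ i, HC M' (η i)) ∧ (∀ i, HC M' (ψ' i)) ∧ (∀ i, 0 < ρ i) ∧
    ∀ V : ℝ → ℂ, SW V → ∃ W : ι → ℝ → ℝ → ℂ, (∀ i, WTf (W i)) ∧
      ∀ A : ℕ, ∃ C : ℝ, 0 ≤ C ∧ ∀ u : Eis, Sm M u → ∀ Q : ℝ, 0 < Q → ∀ τ : ℝ,
        ‖F V u Q τ - (Q : ℂ) * ∑ i, κ i * End699.tw (η i) j u *
          D3 M (End699.tw (ψ' i) l') u (W i τ) (ρ i * nm u / Q)‖ ≤
          C * ((1 + |τ|) ^ A)⁻¹ * (R u * Q ^ (4 / 3 : ℝ))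

lemma RepL.mono {F : (ℝ → ℂ) → Eis → ℝ → ℝ → ℂ} (hF : RepL M M' j l' R F) {K : ℝ} (hK : 0 ≤ K)
    (h : ∀ u, Sm M u → R u ≤ K * R' u) : RepL M M' j l' R' F := by
  obtain ⟨ι, iι, κ, η, ψ', ρ, h1, h2, h3, h4⟩ := hF
  refine ⟨ι, iι, κ, η, ψ', ρ, h1, h2, h3, fun V hV => ?_⟩
  obtain ⟨W, hW, h5⟩ := h4 V hV
  refine ⟨W, hW, fun A => ?_⟩
  obtain ⟨C, hC, h6⟩ := h5 A
  refine ⟨C * K, by positivity, fun u hu Q hQ τ => (h6 u hu Q hQ τ).trans ?_⟩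
  have h7 := h u hu
  have h8 : (0 : ℝ) ≤ ((1 + |τ|) ^ A)⁻¹ := by have := abs_nonneg τ; positivity
  have h9 : (0 : ℝ) ≤ Q ^ (4 / 3 : ℝ) := by positivity
  calc C * ((1 + |τ|) ^ A)⁻¹ * (R u * Q ^ (4 / 3 : ℝ))
      ≤ C * ((1 + |τ|) ^ A)⁻¹ * ((K * R' u) * Q ^ (4 / 3 : ℝ)) := by gcongr
    _ = _ := by ring

lemma RepL.congr {F G : (ℝ → ℂ) → Eis → ℝ → ℝ → ℂ} (hF : RepL M M' j l' R F)
    (h : ∀ V, SW V → ∀ u, Sm M u → ∀ Q : ℝ, 0 < Q → ∀ τ, G V u Q τ = F V u Q τ) :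
    RepL M M' j l' R G := by
  obtain ⟨ι, iι, κ, η, ψ', ρ, h1, h2, h3, h4⟩ := hF
  refine ⟨ι, iι, κ, η, ψ', ρ, h1, h2, h3, fun V hV => ?_⟩
  obtain ⟨W, hW, h5⟩ := h4 V hV
  refine ⟨W, hW, fun A => ?_⟩
  obtain ⟨C, hC, h6⟩ := h5 A
  refine ⟨C, hC, fun u hu Q hQ τ => ?_⟩
  rw [h V hV u hu Q hQ τ]
  exact h6 u hu Q hQ τ

lemma RepL.add {F G : (ℝ → ℂ) → Eis → ℝ → ℝ → ℂ} (hF : RepL M M' j l' R F)
    (hG : RepL M M' j l' R G) : RepL M M' j l' R (fun V u Q τ => F V u Q τ + G V u Q τ) := by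
  obtain ⟨ι, iι, κ, η, ψ', ρ, h1, h2, h3, h4⟩ := hF
  obtain ⟨ι2, iι2, κ2, η2, ψ2, ρ2, g1, g2, g3, g4⟩ := hG
  refine ⟨ι ⊕ ι2, inferInstance, Sum.elim κ κ2, Sum.elim η η2, Sum.elim ψ' ψ2, Sum.elim ρ ρ2,
    ?_, ?_, ?_, fun V hV => ?_⟩
  · rintro (i | i)
    · exact h1 i
    · exact g1 i
  · rintro (i | i)
    · exact h2 i
    · exact g2 i
  · rintro (i | i)
    · exact h3 i
    · exact g3 i
  · obtain ⟨W, hW, h5⟩ := h4 V hV
    obtain ⟨W2, hW2, g5⟩ := g4 V hV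
    refine ⟨Sum.elim W W2, ?_, fun A => ?_⟩
    · rintro (i | i)
      · exact hW i
      · exact hW2 i
    · obtain ⟨C, hC, h6⟩ := h5 A
      obtain ⟨C2, hC2, g6⟩ := g5 A
      refine ⟨C + C2, by positivity, fun u hu Q hQ τ => ?_⟩
      have a1 := h6 u hu Q hQ τ
      have a2 := g6 u hu Q hQ τ
      rw [Fintype.sum_sum_type]
      simp only [Sum.elim_inl, Sum.elim_inr]
      rw [mul_add]
      refine le_trans (le_of_eq ?_) ((norm_add_le _ _).trans ((add_le_add a1 a2).trans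
        (le_of_eq ?_)))
      · congr 1
        ring
      · ring

lemma RepL.cmul (hM0 : M' ≠ 0) (h3 : (3 : Eis) ∣ M') (hcop : ∀ b, Sm M b → IsCoprime b M')
    {F : (ℝ → ℂ) → Eis → ℝ → ℝ → ℂ} (hF : RepL M M' j l' R F) (c : ℂ) {g : Eis → ℂ}
    (hg : Uni M' g) :
    RepL M M' j l' R (fun V u Q τ => c * g u * F V u Q τ) := by
  obtain ⟨ι, iι, κ, η, ψ', ρ, h1, h2, h3', h4⟩ := hF
  refine ⟨ι, iι, fun i => c * κ i, fun i => Rst M' (fun a => η i a * g a), ψ', ρ,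
    fun i => hc_rst hM0 h3 ((uni_of_HC (h1 i)).mul' hg), h2, h3', fun V hV => ?_⟩
  obtain ⟨W, hW, h5⟩ := h4 V hV
  refine ⟨W, hW, fun A => ?_⟩
  obtain ⟨C, hC, h6⟩ := h5 A
  refine ⟨‖c‖ * C, by positivity, fun u hu Q hQ τ => ?_⟩
  have e : ∀ i, c * κ i * End699.tw (Rst M' (fun a => η i a * g a)) j u *
      D3 M (End699.tw (ψ' i) l') u (W i τ) (ρ i * nm u / Q) =
      (c * g u) * (κ i * End699.tw (η i) j u *
        D3 M (End699.tw (ψ' i) l') u (W i τ) (ρ i * nm u / Q)) := by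
    intro i
    rw [tw_rst hcop _ _ hu]
    unfold End699.tw
    ring
  rw [Finset.sum_congr rfl fun i _ => e i, ← Finset.mul_sum]
  have h7 := h6 u hu Q hQ τ
  have hg1 : ‖g u‖ = 1 := hg.norm u ⟨hu.1, hcop u hu⟩
  have e2 : c * g u * F V u Q τ - (Q : ℂ) * (c * g u * ∑ i, κ i * End699.tw (η i) j u *
        D3 M (End699.tw (ψ' i) l') u (W i τ) (ρ i * nm u / Q)) =
      c * g u * (F V u Q τ - (Q : ℂ) * ∑ i, κ i * End699.tw (η i) j u *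
        D3 M (End699.tw (ψ' i) l') u (W i τ) (ρ i * nm u / Q)) := by ring
  rw [e2, norm_mul, norm_mul, hg1, mul_one]
  calc ‖c‖ * _ ≤ ‖c‖ * (C * ((1 + |τ|) ^ A)⁻¹ * (R u * Q ^ (4 / 3 : ℝ))) :=
        mul_le_mul_of_nonneg_left h7 (norm_nonneg _)
    _ = _ := by ring

lemma RepL.dil {F : (ℝ → ℂ) → Eis → ℝ → ℝ → ℂ} (hF : RepL M M' j l' R F) {t : ℝ} (ht : 0 < t) :
    RepL M M' j l' R (fun V u Q τ => F V u (Q / t) τ) := by
  obtain ⟨ι, iι, κ, η, ψ', ρ, h1, h2, h3, h4⟩ := hF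
  refine ⟨ι, iι, fun i => (t : ℂ)⁻¹ * κ i, η, ψ', fun i => ρ i * t, h1, h2,
    fun i => mul_pos (h3 i) ht, fun V hV => ?_⟩
  obtain ⟨W, hW, h5⟩ := h4 V hV
  refine ⟨W, hW, fun A => ?_⟩
  obtain ⟨C, hC, h6⟩ := h5 A
  refine ⟨C * (t ^ (4 / 3 : ℝ))⁻¹, by positivity, fun u hu Q hQ τ => ?_⟩
  have h7 := h6 u hu (Q / t) (div_pos hQ ht) τ
  have e : ∀ i, (t : ℂ)⁻¹ * κ i * End699.tw (η i) j u *
      D3 M (End699.tw (ψ' i) l') u (W i τ) (ρ i * t * nm u / Q) =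
      (t : ℂ)⁻¹ * (κ i * End699.tw (η i) j u *
        D3 M (End699.tw (ψ' i) l') u (W i τ) (ρ i * nm u / (Q / t))) := by
    intro i
    have : ρ i * t * nm u / Q = ρ i * nm u / (Q / t) := by
      rw [div_div_eq_mul_div]; ring
    rw [this]
    ring
  rw [Finset.sum_congr rfl fun i _ => e i, ← Finset.mul_sum]
  have e2 : (Q : ℂ) * ((t : ℂ)⁻¹ * ∑ i, κ i * End699.tw (η i) j u *
        D3 M (End699.tw (ψ' i) l') u (W i τ) (ρ i * nm u / (Q / t))) =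
      ((Q / t : ℝ) : ℂ) * ∑ i, κ i * End699.tw (η i) j u *
        D3 M (End699.tw (ψ' i) l') u (W i τ) (ρ i * nm u / (Q / t)) := by
    push_cast; ring
  rw [e2]
  refine h7.trans (le_of_eq ?_)
  rw [Real.div_rpow hQ.le ht.le]
  ring

/-- functional equation with main term -/
def LE3 {ι : Type} [Fintype ι] (M : Eis) (ψ : Eis → ℂ) (l : ℤ) (D : Dt3 ι) (R : Eis → ℝ) : Prop :=
  ∀ V : ℝ → ℂ, SW V → ∃ W : ι → ℝ → ℝ → ℂ, (∀ i, WTf (W i)) ∧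
    ∀ A : ℕ, ∃ C : ℝ, 0 ≤ C ∧ ∀ u : Eis, Sm M u → ∀ Q : ℝ, 0 < Q → ∀ τ : ℝ,
      ‖N3 M (End699.tw ψ l) u (fun y => (y : ℂ) ^ (I * τ) * V y) Q -
        (Q : ℂ) * ∑ i, D.κ i * End699.tw (D.η i) D.j u *
          D3 M (End699.tw (D.ψ' i) D.l') u (W i τ) (D.ρ i * nm u / Q)‖ ≤
        C * ((1 + |τ|) ^ A)⁻¹ * (R u * Q ^ (4 / 3 : ℝ))

def HasL (M : Eis) (ψ : Eis → ℂ) (l : ℤ) (R : Eis → ℝ) : Prop :=
  ∃ (ι : Type) (_ : Fintype ι) (D : Dt3 ι), D.OK M ∧ LE3 M ψ l D R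

lemma rep_baseL (h : Ext3 M M₁ p) {v : ℕ} {ι : Type} [Fintype ι] {D : Dt3 ι} (hD : D.OK M₁)
    {ψ₁ : Eis → ℂ} {l : ℤ} (hFE : LE3 M₁ ψ₁ l D R)
    (hcop : ∀ b, Sm M b → IsCoprime b (D.M' * p ^ v))
    (i a : ℕ) (K : ℂ) {hh g₁ g₂ : Eis → ℂ} (u0 : Uni (D.M' * p ^ v) hh)
    (u1 : Uni (D.M' * p ^ v) g₁) (u2 : Uni (D.M' * p ^ v) g₂)
    (hsplit : ∀ χ : Eis → ℂ, (∀ a b, Sm M₁ a → Sm M₁ b → χ (a * b) = χ a * χ b) →
      (∀ k, Sm M₁ k → ‖χ k‖ ≤ 1) → ∀ W : ℝ → ℂ, WB W → ∀ u, Sm M u → ∀ Y : ℝ, 0 < Y →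
      D3 M₁ χ (u * p ^ i) W Y = D3 M (fun d => χ d * g₁ d) u W Y +
        K * hh u * (χ (p ^ a) * ((nm p : ℂ) ^ a)⁻¹) *
          D3 M (fun d => χ d * g₂ d) u W (Y / (nm p : ℝ) ^ a)) :
    RepL M (D.M' * p ^ v) D.j D.l' (fun u => R (u * p ^ i)) (fun V u Q τ =>
      N3 M₁ (End699.tw ψ₁ l) (u * p ^ i) (fun y => (y : ℂ) ^ (I * τ) * V y) Q) := by
  have hM0 : D.M' * p ^ v ≠ 0 := mul_ne_zero hD.ne (pow_ne_zero _ h.pr.ne_zero)
  have h3 : (3 : Eis) ∣ D.M' * p ^ v := (h.three.trans hD.dvd).mul_right _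
  have hq := h.q_pos
  have v1 : ∀ i, Uni (D.M' * p ^ v) (D.η i) := fun i => (uni_of_HC (hD.η i)).mono (dvd_mul_right _ _)
  have v2 : ∀ i, Uni (D.M' * p ^ v) (D.ψ' i) :=
    fun i => (uni_of_HC (hD.ψ' i)).mono (dvd_mul_right _ _)
  refine ⟨ι ⊕ ι, inferInstance,
    Sum.elim (fun x => D.κ x * End699.tw (D.η x) D.j (p ^ i))
      (fun x => D.κ x * End699.tw (D.η x) D.j (p ^ i) * K *
        (End699.tw (D.ψ' x) D.l' (p ^ a) * ((nm p : ℂ) ^ a)⁻¹)),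
    Sum.elim (fun x => Rst (D.M' * p ^ v) (D.η x))
      (fun x => Rst (D.M' * p ^ v) (fun b => D.η x b * hh b)),
    Sum.elim (fun x => Rst (D.M' * p ^ v) (fun b => D.ψ' x b * g₁ b))
      (fun x => Rst (D.M' * p ^ v) (fun b => D.ψ' x b * g₂ b)),
    Sum.elim (fun x => D.ρ x * nm (p ^ i)) (fun x => D.ρ x * nm (p ^ i) / (nm p : ℝ) ^ a),
    ?_, ?_, ?_, fun V hV => ?_⟩
  · rintro (x | x)
    · exact hc_rst hM0 h3 (v1 x)
    · exact hc_rst hM0 h3 ((v1 x).mul' u0)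
  · rintro (x | x)
    · exact hc_rst hM0 h3 ((v2 x).mul' u1)
    · exact hc_rst hM0 h3 ((v2 x).mul' u2)
  · have hpi : (0 : ℝ) < nm (p ^ i) := by
      exact_mod_cast nm_pos.mpr (pow_ne_zero i h.pr.ne_zero)
    rintro (x | x)
    · exact mul_pos (hD.ρ x) hpi
    · exact div_pos (mul_pos (hD.ρ x) hpi) (by positivity)
  · obtain ⟨W, hW, h5⟩ := hFE V hV
    refine ⟨Sum.elim W W, ?_, fun A => ?_⟩
    · rintro (x | x)
      · exact hW x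
      · exact hW x
    obtain ⟨C, hC, h6⟩ := h5 A
    refine ⟨C, hC, fun u hu Q hQ τ => ?_⟩
    · have hup : Sm M₁ (u * p ^ i) := (h.low hu).mul (h.sp.pow i)
      refine le_trans (le_of_eq ?_) (h6 (u * p ^ i) hup Q hQ τ)
      congr 2
      rw [Fintype.sum_sum_type]
      simp only [Sum.elim_inl, Sum.elim_inr]
      rw [← Finset.sum_add_distrib]
      congr 1
      refine Finset.sum_congr rfl fun x _ => ?_
      have hY : 0 < D.ρ x * nm (u * p ^ i) / Q := by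
        have h6 : (0 : ℝ) < nm (u * p ^ i) := by exact_mod_cast nm_pos.mpr hup.ne_zero
        have := hD.ρ x
        positivity
      have hmul : ∀ a b, Sm M₁ a → Sm M₁ b → End699.tw (D.ψ' x) D.l' (a * b) =
          End699.tw (D.ψ' x) D.l' a * End699.tw (D.ψ' x) D.l' b :=
        fun a b ha hb => tw_mul (hD.ψ' x) D.l' ha.1 hb.1
      rw [hsplit (End699.tw (D.ψ' x) D.l') hmul (fun k hk => norm_tw_le' (hD.ψ' x) D.l' hk.1)
        (W x τ) (wb_of_wtf (hW x) τ) u hu _ hY, tw_mul (hD.η x) D.j hu.1 (h.sp.pow i).1,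
        tw_rst hcop _ _ hu, tw_rst hcop _ _ hu]
      have e1 : D.ρ x * (nm (u * p ^ i) : ℝ) / Q = D.ρ x * nm (p ^ i) * nm u / Q := by
        rw [nm_mul]; push_cast; ring
      have e2 : D.ρ x * (nm (p ^ i) : ℝ) * nm u / Q / (nm p : ℝ) ^ a =
          D.ρ x * nm (p ^ i) / (nm p : ℝ) ^ a * nm u / Q := by ring
      have f1 : ∀ (g : Eis → ℂ) (Y : ℝ),
          D3 M (End699.tw (Rst (D.M' * p ^ v) (fun b => D.ψ' x b * g b)) D.l') u (W x τ) Y =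
          D3 M (fun d => End699.tw (D.ψ' x) D.l' d * g d) u (W x τ) Y := by
        intro g Y
        refine D3_congr (fun b hb => ?_) u _ _
        rw [tw_rst hcop _ _ hb]
        unfold End699.tw
        ring
      rw [f1, f1, e1, e2]
      unfold End699.tw
      ring

/-- **adding a prime** (the character acquires `(p/·)`) -/
theorem stepL (h : Ext3 M M₁ p) {v : ℕ} (hv0 : v ≠ 0) (hv : M = p ^ v * M₁)
    {ψ₁ : Eis → ℂ} (hψ₁ : HC M₁ ψ₁) {l : ℤ} (H : HasL M₁ ψ₁ l R)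
    {ψ : Eis → ℂ} (hψ : ∀ b, Sm M b → ψ b = ψ₁ b * sy p b) {K : ℝ} (hK : 0 ≤ K)
    (hR0 : ∀ u, Sm M u → R u ≤ K * R' u) (hR1 : ∀ u, Sm M u → R (u * p) ≤ K * R' u) :
    HasL M ψ l R' := by
  obtain ⟨ι, iι, D, hD, hFE⟩ := H
  have hM0 : D.M' * p ^ v ≠ 0 := mul_ne_zero hD.ne (pow_ne_zero _ h.pr.ne_zero)
  have h3 : (3 : Eis) ∣ D.M' * p ^ v := (h.three.trans hD.dvd).mul_right _
  have hpM : p ∣ D.M' * p ^ v := (dvd_pow_self p hv0).mul_left _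
  have hrad : ∀ r : Eis, Prime r → r ∣ D.M' * p ^ v → r ∣ M := by
    intro r hr hrd
    rcases hr.dvd_or_dvd hrd with h5 | h5
    · rw [hv]; exact (hD.rad r hr h5).mul_left _
    · rw [hv]; exact h5.mul_right _
  have hcop : ∀ b, Sm M b → IsCoprime b (D.M' * p ^ v) := by
    intro b hb
    refine isCoprime_of_prime_dvd (fun h' => hM0 h'.2) (fun r hr h5 h6 => ?_)
    exact hr.not_isUnit (hb.2.isUnit_of_dvd' h5 (hrad r hr h6))
  set M'' := D.M' * p ^ v with hM''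
  have hq := h.q_pos
  have uo : Uni M'' (fun _ => (1 : ℂ)) :=
    { one := rfl, mul := fun _ _ _ _ => by norm_num, norm := fun _ _ => norm_one,
      per := fun _ _ _ _ _ => rfl }
  have ul : Uni M'' (fun b => sy b p) :=
    { one := syAx.one_left h.sp.1
      mul := fun a b _ _ => syAx.mul_left a b p h.sp.1
      norm := fun a ha => syAx.norm_eq_one h.sp.1 (IsCoprime.of_isCoprime_of_dvd_right ha.2 hpM)
      per := fun a b _ _ hab => syAx.congr a b p h.sp.1 (hpM.trans hab) }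
  have ur : Uni M'' (fun b => sy p b) :=
    { one := ul.one ▸ (syAx.recip p 1 h.sp.1 isPrim_one)
      mul := fun a b ha hb => by
        rw [syAx.recip p (a * b) h.sp.1 (ha.1.mul hb.1), syAx.recip p a h.sp.1 ha.1,
          syAx.recip p b h.sp.1 hb.1]
        exact ul.mul a b ha hb
      norm := fun a ha => by rw [syAx.recip p a h.sp.1 ha.1]; exact ul.norm a ha
      per := fun a b ha hb hab => by
        rw [syAx.recip p a h.sp.1 ha.1, syAx.recip p b h.sp.1 hb.1]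
        exact ul.per a b ha hb hab }
  set sq : ℂ := ((Real.sqrt (nm p) : ℝ) : ℂ) with hsq
  have R0 : RepL M M'' D.j D.l' (fun u => R (u * p ^ 0)) (fun V u Q τ =>
      N3 M₁ (End699.tw ψ₁ l) (u * p ^ 0) (fun y => (y : ℂ) ^ (I * τ) * V y) Q) := by
    refine rep_baseL h hD hFE hcop 0 1 (sq * conj (G p)) ul uo ur ?_
    intro χ hmul hb W hW u hu Y hY
    have := D3_zero h hmul hb hW hu hY
    simp only [pow_zero, mul_one, pow_one]
    rw [this]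
    unfold c0
    ring
  have R1 : RepL M M'' D.j D.l' (fun u => R (u * p ^ 1)) (fun V u Q τ =>
      N3 M₁ (End699.tw ψ₁ l) (u * p ^ 1) (fun y => (y : ℂ) ^ (I * τ) * V y) Q) := by
    refine rep_baseL h hD hFE hcop 1 2 ((nm p : ℂ) * sq * G p) ul.conj' ur uo ?_
    intro χ hmul hb W hW u hu Y hY
    have := D3_one h hmul hb hW hu hY
    simp only [pow_one, mul_one]
    rw [this]
    unfold c1
    ring
  have hmul : ∀ a b, Sm M₁ a → Sm M₁ b → End699.tw ψ₁ l (a * b) =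
      End699.tw ψ₁ l a * End699.tw ψ₁ l b := fun a b ha hb => tw_mul hψ₁ l ha.1 hb.1
  have hb : ∀ k, Sm M₁ k → ‖End699.tw ψ₁ l k‖ ≤ 1 := fun k hk => norm_tw_le' hψ₁ l hk.1
  have hψ' : ∀ b, Sm M b → End699.tw ψ l b = End699.tw ψ₁ l b * sy p b := by
    intro b hb
    unfold End699.tw
    rw [hψ b hb]
    ring
  have fin : RepL M M'' D.j D.l' R' (fun V u Q τ =>
      N3 M (End699.tw ψ l) u (fun y => (y : ℂ) ^ (I * τ) * V y) Q) → HasL M ψ l R' := by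
    rintro ⟨κι, iκ, κ, η, ψ', ρ, a1, a2, a3, a4⟩
    refine ⟨κι, iκ, ⟨M'', κ, η, ψ', D.j, D.l', ρ⟩, ?_, a4⟩
    exact
      { ne := hM0
        dvd := by rw [hv, hM'', mul_comm (p ^ v) M₁]; exact mul_dvd_mul_right hD.dvd _
        rad := hrad
        η := a1
        ψ' := a2
        ρ := a3 }
  refine fin ?_
  have R0' := R0.mono (R' := R') hK fun u hu => by simpa using hR0 u hu
  have R1' := R1.mono (R' := R') hK fun u hu => by simpa using hR1 u hu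
  have e := ((R0'.dil (pow_pos hq 2)).cmul hM0 h3 hcop
    (-((nm p : ℂ) * sq * G p) * End699.tw ψ₁ l (p ^ 2)) ul.conj')
  refine (R1'.add e).congr fun V hV u hu Q hQ τ => ?_
  rw [N3_congr (fun b hb => hψ' b hb) u _ _,
    N3_one h hmul hb (vb_of_sw hV τ) hu hQ]
  simp only [pow_zero, mul_one, pow_one]
  unfold c1
  ring

end Crest.Agent.R017.E4L266
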