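import Crest.Agent.R017.E4LawC_266
import Crest.Agent.R012.CharInst_766

/-!
# Row 17, C70/E4: the functional equation of case L (helper266)

* `base9` : level 9, trivial character
* `hasL_all` : level `9 m₀`, character `(m₀/·)`
* `law_L` : `E4352.Law` for `(m₀/·)`, `m₀` primary squarefree, `Rad0 M m₀`
-/

set_option autoImplicit false

noncomputable section

open Complex MeasureTheory Set Filter Topology
open scoped ComplexConjugate ContDiff

namespace Crest.Agent.R017.E4L266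

open Crest.Agent.R012 Crest.Agent.R012.Eis Crest.Agent.R012.GaussLoc283
open Crest.Agent.R017.FE47 (SM)
open Crest.Agent.R017.F1
open Crest.Agent.R017.X6C180 (IX dl' om' dl_SU SU.SM)
open Crest.Agent.R017.Sx545 (Sm sm_one_iff)
open Crest.Agent.R017.End699 (HC)
open Crest.Agent.R017.A590
open Crest.Agent.R017.B770 (SW Rad0)
open Crest.Agent.R017.C590
open Crest.Agent.R017.E4352 (Law WT)

lemma dl_dvd (i : IX 1) : dl' 1 i ∣ 3 := by
  rcases i with _ | _ | δ
  · exact one_dvd _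
  · exact one_dvd _
  · have := ((mem_Dl one_ne_zero).mp δ.2).2.2
    rwa [mul_one] at this

lemma uni_sy {δ : Eis} (hδ : δ ∣ 3) : Uni 27 (sy δ) := by
  have h0 : δ ≠ 0 := by
    rintro rfl
    rw [zero_dvd_iff] at hδ
    exact absurd hδ (by decide)
  exact
  { one := syAx.one_right δ
    mul := fun a b ha hb => syAx.mul_right δ a b ha.1 hb.1
    norm := fun a ha => syAx.norm_eq_one ha.1 ((ha.1.isCoprime_three.of_isCoprime_of_dvd_right hδ).symm)
    per := fun a b ha hb hab => Char766.sy_periodic Char766.suppl h0 ha.1 hb.1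
      (dvd_trans (by
        obtain ⟨t, ht⟩ := hδ
        exact ⟨t, by
          have : (27 : Eis) = 9 * 3 := by norm_num
          rw [this, ht]; ring⟩) hab) }

lemma coprime_27 {b : Eis} (hb : IsPrim b) : IsCoprime b 27 := by
  rw [show (27 : Eis) = 3 ^ 3 by norm_num]
  exact hb.isCoprime_three.pow_right

lemma tw_zero (ψ : Eis → ℂ) (b : Eis) : End699.tw ψ 0 b = ψ b := by
  unfold End699.tw
  rw [End699.ang_zero', mul_one]

/-- **level 9** -/
theorem base9 {ψ : Eis → ℂ} (hψ : ∀ b, Sm (9 : Eis) b → ψ b = 1) :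
    HasL 9 ψ 0 (fun u => ‖PX764.rho u‖) := by
  have h27 : (27 : Eis) ≠ 0 := by decide
  have h3 : (3 : Eis) ∣ 27 := ⟨9, by norm_num⟩
  set ch : IX 1 → Eis → ℂ := fun i => Rst 27 (sy (dl' 1 i)) with hch
  have hHC : ∀ i, HC 27 (ch i) := fun i => hc_rst h27 h3 (uni_sy (dl_dvd i))
  refine ⟨IX 1, inferInstance, ⟨27, fun _ => 1, ch, ch, 0, 0, fun _ => 1⟩, ?_, ?_⟩
  · exact
      { ne := h27
        dvd := ⟨3, by norm_num⟩
        rad := fun r hr hd => by
          have e : (27 : Eis) = 3 ^ 3 := by norm_num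
          rw [e] at hd
          have e9 : (9 : Eis) = 3 * 3 := by norm_num
          show r ∣ 9
          rw [e9]
          exact (hr.dvd_of_dvd_pow hd).mul_right _
        η := hHC
        ψ' := hHC
        ρ := fun _ => one_pos }
  · intro V hV
    refine ⟨fun i τ y => om' 1 (Tw τ (FV V)) i (Real.exp (-Real.log y)),
      fun i => om_fam one_ne_zero i (sc_FV hV), fun A => ?_⟩
    obtain ⟨C, hC, hJ⟩ := J_dec (sc_exp_mul (sc_FV hV) 2) A
    set K : ℝ := ‖(kP : ℂ) * ((Xn960.gamN 3 * (Real.pi / 3) : ℝ) : ℂ)‖ with hK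
    refine ⟨K * C, by positivity, fun u hu Q hQ τ => ?_⟩
    have hχ : ∀ b, IsPrim b → End699.tw ψ 0 b = 1 := fun b hb => by
      rw [tw_zero, hψ b ⟨hb, coprime_nine hb⟩]
    rw [base_id hV hχ hu.1 hQ τ]
    have e1 : ∀ i : IX 1, E2440.TP' 1 u (Tw τ (FV V)) Q i =
        1 * End699.tw (ch i) 0 u * D3 9 (End699.tw (ch i) 0) u
          (fun y => om' 1 (Tw τ (FV V)) i (Real.exp (-Real.log y))) (1 * nm u / Q) := by
      intro i
      have hc : ∀ b, IsPrim b → End699.tw (ch i) 0 b = sy (dl' 1 i) b := fun b hb => by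
        rw [tw_zero]
        exact Rst_of (coprime_27 hb)
      rw [piece_eq hu.1 (Tw τ (FV V)) hQ i hc, hc u hu.1]
      simp only [one_mul]
    rw [Finset.sum_congr rfl fun i _ => e1 i]
    simp only []
    rw [add_sub_cancel_left, norm_mul, norm_mul, norm_mul, RCLike.norm_conj, Complex.norm_real,
      Real.norm_of_nonneg (by positivity)]
    have h1 := hJ τ
    calc K * ‖PX764.rho u‖ * Q ^ (4 / 3 : ℝ) * _ ≤
        K * ‖PX764.rho u‖ * Q ^ (4 / 3 : ℝ) * (C * ((1 + |τ|) ^ A)⁻¹) :=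
          mul_le_mul_of_nonneg_left h1 (by positivity)
      _ = _ := by ring

/-- **level `9 m₀`** -/
theorem hasL_all : ∀ (n : ℕ) (m₀ : Eis), nm m₀ ≤ n → IsPrim m₀ → Squarefree m₀ → ∀ ψ : Eis → ℂ,
    (∀ b, Sm (9 * m₀) b → ψ b = sy m₀ b) → HasL (9 * m₀) ψ 0 (fun u => ‖PX764.rho (m₀ * u)‖) := by
  intro n
  induction n with
  | zero =>
    intro m₀ hn hp
    have := nm_pos.mpr hp.ne_zero
    omega
  | succ n ih =>
    intro m₀ hn hp hs ψ hψ
    by_cases h1 : m₀ = 1
    · subst h1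
      have := base9 (ψ := ψ) fun b hb => by
        rw [hψ b (by rwa [mul_one]), syAx.one_left hb.1]
      simpa using this
    · obtain ⟨p, hpp, hpr, m₁, rfl⟩ := Char766.exists_prim_prime_dvd hp h1
      have hm1 : IsPrim m₁ := (prim_mul_iff hpr).mp hp
      have hs1 : Squarefree m₁ := hs.of_mul_right
      have hcop : IsCoprime p m₁ := by
        rw [hpp.irreducible.coprime_iff_not_dvd]
        intro hd
        obtain ⟨t, rfl⟩ := hd
        exact hpp.not_isUnit (hs p ⟨t, by ring⟩)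
      have hlt : nm m₁ ≤ n := by
        have h2 : 1 < nm p := by
          have h3 : nm p ≠ 1 := fun h => hpp.not_isUnit (isUnit_iff.mpr h)
          have := nm_pos.mpr hpp.ne_zero
          omega
        have h4 := nm_pos.mpr hm1.ne_zero
        rw [nm_mul] at hn
        nlinarith
      set M₁ : Eis := 9 * m₁ with hM₁
      have hM10 : M₁ ≠ 0 := mul_ne_zero (by decide) hm1.ne_zero
      have h3M : (3 : Eis) ∣ M₁ := ⟨3 * m₁, by rw [hM₁]; ring⟩
      have hsp : Sm M₁ p := ⟨hpr, (coprime_nine hpr).mul_right hcop⟩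
      have hM : (9 : Eis) * (p * m₁) = p ^ 1 * M₁ := by rw [hM₁]; ring
      have hext : Ext3 (9 * (p * m₁)) M₁ p :=
        { three := h3M
          pr := hpp
          sp := hsp
          iff := fun b => by
            rw [hM, pow_one]
            constructor
            · intro hb
              refine ⟨⟨hb.1, hb.2.of_isCoprime_of_dvd_right ⟨p, by ring⟩⟩, fun hd => ?_⟩
              exact hpp.not_isUnit (hb.2.isUnit_of_dvd' hd (dvd_mul_right _ _))
            · rintro ⟨hb, hd⟩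
              exact ⟨hb.1, ((hpp.irreducible.coprime_iff_not_dvd.mpr hd).symm).mul_right hb.2⟩ }
      have huni : Uni M₁ (sy m₁) :=
        { one := syAx.one_right m₁
          mul := fun a b ha hb => syAx.mul_right m₁ a b ha.1 hb.1
          norm := fun a ha => syAx.norm_eq_one ha.1
            (ha.2.of_isCoprime_of_dvd_right (dvd_mul_left m₁ 9)).symm
          per := fun a b ha hb hab => by
            rw [syAx.recip m₁ a hm1 ha.1, syAx.recip m₁ b hm1 hb.1]
            exact syAx.congr a b m₁ hm1 ((dvd_mul_left m₁ 9).trans hab) }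
      have hHC : HC M₁ (Rst M₁ (sy m₁)) := hc_rst hM10 h3M huni
      have hL := ih m₁ hlt hm1 hs1 (Rst M₁ (sy m₁)) fun b hb => Rst_of hb.2
      have hq1 : (1 : ℝ) ≤ nm p := by exact_mod_cast nm_pos.mpr hpp.ne_zero
      have hq0 : (0 : ℝ) < nm p := by linarith
      have hrho : ∀ u, Sm (9 * (p * m₁)) u →
          ‖PX764.rho (p * m₁ * u)‖ = (nm p : ℝ) ^ (-(1 : ℝ) / 6) * ‖PX764.rho (m₁ * u)‖ := by
        intro u hu
        have hc : IsCoprime (m₁ * u) p :=
          hcop.symm.mul_left ((hpp.irreducible.coprime_iff_not_dvd.mpr (hext.ndvd hu)).symm)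
        have := PX764.rho_mul hpr (m₁ * u) hs.of_mul_left hc
        rw [show p * m₁ * u = m₁ * u * p by ring, this, norm_mul, norm_mul, RCLike.norm_conj,
          PX764.norm_Gh_one hpr hs.of_mul_left hc, one_mul, Complex.norm_real,
          Real.norm_of_nonneg (PX764.n6_pos hpp.ne_zero).le]
        rfl
      refine stepL hext one_ne_zero hM hHC hL (K := (nm p : ℝ) ^ ((1 : ℝ) / 6)) ?_ (by positivity)
        ?_ ?_
      · intro b hb
        rw [hψ b hb, Rst_of (hext.low hb).2, syAx.mul_left p m₁ b hb.1]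
        ring
      · intro u hu
        rw [hrho u hu, ← mul_assoc, ← Real.rpow_add hq0]
        norm_num
      · intro u hu
        have e : m₁ * (u * p) = p * m₁ * u := by ring
        rw [e]
        have h5 : (1 : ℝ) ≤ (nm p : ℝ) ^ ((1 : ℝ) / 6) := Real.one_le_rpow hq1 (by norm_num)
        exact le_mul_of_one_le_left (norm_nonneg _) h5

/-- change of the modulus -/
lemma HasL.transfer {M M₁ : Eis} (hM0 : M ≠ 0) (hS : Sm M = Sm M₁)
    (hr : ∀ p : Eis, Prime p → p ∣ M₁ → p ∣ M) {ψ : Eis → ℂ} {l : ℤ} {R : Eis → ℝ}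
    (h : HasL M₁ ψ l R) : HasL M ψ l R := by
  obtain ⟨ι, iι, D, hD, hFE⟩ := h
  set M'' : Eis := D.M' * M with hM''
  have h0 : M'' ≠ 0 := mul_ne_zero hD.ne hM0
  have hrad : ∀ p : Eis, Prime p → p ∣ M'' → p ∣ M := by
    intro p hp hd
    rcases hp.dvd_or_dvd hd with h1 | h1
    · exact hr p hp (hD.rad p hp h1)
    · exact h1
  have hcop : ∀ b, Sm M b → IsCoprime b M'' := by
    intro b hb
    refine isCoprime_of_prime_dvd (fun h' => h0 h'.2) (fun r hr h5 h6 => ?_)
    exact hr.not_isUnit (hb.2.isUnit_of_dvd' h5 (hrad r hr h6))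
  by_cases he : IsEmpty ι
  · refine ⟨ι, iι, ⟨M'', D.κ, D.η, D.ψ', D.j, D.l', D.ρ⟩, ?_, ?_⟩
    · exact
        { ne := h0
          dvd := dvd_mul_left _ _
          rad := hrad
          η := fun i => he.elim i
          ψ' := fun i => he.elim i
          ρ := fun i => he.elim i }
    · unfold LE3 N3 D3 E2440.NT E2440.DS at hFE ⊢
      rw [hS]
      exact hFE
  rw [not_isEmpty_iff] at he
  have h3 : (3 : Eis) ∣ M'' := ((hD.η he.some).three).mul_right _
  have u1 : ∀ i, Uni M'' (D.η i) := fun i => (uni_of_HC (hD.η i)).mono (dvd_mul_right _ _)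
  have u2 : ∀ i, Uni M'' (D.ψ' i) := fun i => (uni_of_HC (hD.ψ' i)).mono (dvd_mul_right _ _)
  refine ⟨ι, iι, ⟨M'', D.κ, fun i => Rst M'' (D.η i), fun i => Rst M'' (D.ψ' i), D.j, D.l', D.ρ⟩,
    ?_, ?_⟩
  · exact
      { ne := h0
        dvd := dvd_mul_left _ _
        rad := hrad
        η := fun i => hc_rst h0 h3 (u1 i)
        ψ' := fun i => hc_rst h0 h3 (u2 i)
        ρ := hD.ρ }
  · intro V hV
    obtain ⟨W, hW, h5⟩ := hFE V hV
    refine ⟨W, hW, fun A => ?_⟩
    obtain ⟨C, hC, h6⟩ := h5 A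
    refine ⟨C, hC, fun u hu Q hQ τ => ?_⟩
    have hu1 : Sm M₁ u := hS ▸ hu
    refine le_trans (le_of_eq ?_) (h6 u hu1 Q hQ τ)
    have hN : ∀ (V : ℝ → ℂ), N3 M (End699.tw ψ l) u V Q = N3 M₁ (End699.tw ψ l) u V Q := by
      intro V
      unfold N3 E2440.NT E2440.DS
      rw [hS]
    have hDD : ∀ (χ : Eis → ℂ) (W : ℝ → ℂ) (Y : ℝ), D3 M χ u W Y = D3 M₁ χ u W Y := by
      intro χ W Y
      unfold D3 E2440.DS
      rw [hS]
    rw [hN]
    congr 2
    congr 1
    refine Finset.sum_congr rfl fun i _ => ?_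
    rw [tw_rst hcop _ _ hu]
    have f1 : D3 M (End699.tw (Rst M'' (D.ψ' i)) D.l') u (W i τ) (D.ρ i * nm u / Q) =
        D3 M (End699.tw (D.ψ' i) D.l') u (W i τ) (D.ρ i * nm u / Q) :=
      D3_congr (fun b hb => by rw [tw_rst hcop _ _ hb]; rfl) u _ _
    show D.κ i * (D.η i u * ang D.j u) *
      D3 M (End699.tw (Rst M'' (D.ψ' i)) D.l') u (W i τ) (D.ρ i * nm u / Q) = _
    rw [f1, hDD]
    rfl

/-- **case L** -/
theorem law_L {M m₀ : Eis} (hM0 : M ≠ 0) (h9 : (9 : Eis) ∣ M) (hr : Rad0 M m₀) {ψ : Eis → ℂ}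
    (hψ : ∀ b, Sm M b → ψ b = sy m₀ b) :
    ∃ (ι : Type) (_ : Fintype ι) (D : Dt3 ι), D.OK M ∧ ∀ V : ℝ → ℂ, SW V → ∀ m₁ N₀ A : ℕ,
      ∃ C J : ℝ, 0 ≤ C ∧ ∀ τ : ℝ, ∃ W : ι → ℝ → ℂ,
        Law M ψ 0 D (fun y => (y : ℂ) ^ (I * τ) * V y) W
          (fun u Q => C * ((1 + |τ|) ^ A)⁻¹ * (‖PX764.rho (m₀ * u)‖ * Q ^ (4 / 3 : ℝ))) ∧
        ∀ i, WT m₁ N₀ (C * (1 + |τ|) ^ J) (W i) := by
  have hS : Sm M = Sm (9 * m₀) := by
    have key : ∀ b, IsPrim b → (IsCoprime b M ↔ IsCoprime b (9 * m₀)) := by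
      intro b hb
      constructor
      · intro h
        refine isCoprime_of_prime_dvd (fun h' => hb.ne_zero h'.1) fun p hp h1 h2 => ?_
        have h3 : p ∣ 3 * m₀ := by
          rw [show (9 : Eis) * m₀ = 3 * (3 * m₀) by ring] at h2
          rcases hp.dvd_or_dvd h2 with h4 | h4
          · exact h4.mul_right _
          · exact h4
        exact hp.not_isUnit (h.isUnit_of_dvd' h1 ((hr.iff p hp).mp h3))
      · intro h
        refine isCoprime_of_prime_dvd (fun h' => hb.ne_zero h'.1) fun p hp h1 h2 => ?_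
        have h3 : p ∣ 3 * m₀ := (hr.iff p hp).mpr h2
        have h4 : p ∣ 9 * m₀ := by
          rw [show (9 : Eis) * m₀ = 3 * (3 * m₀) by ring]
          exact h3.mul_left _
        exact hp.not_isUnit (h.isUnit_of_dvd' h1 h4)
    funext b
    refine propext ⟨fun h => ⟨h.1, (key b h.1).mp h.2⟩, fun h => ⟨h.1, (key b h.1).mpr h.2⟩⟩
  have h1 := hasL_all (nm m₀) m₀ le_rfl hr.prim hr.sqf ψ fun b hb => hψ b (hS ▸ hb)
  have h2 : HasL M ψ 0 (fun u => ‖PX764.rho (m₀ * u)‖) := h1.transfer hM0 hS fun p hp hd => by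
    refine (hr.iff p hp).mp ?_
    rw [show (9 : Eis) * m₀ = 3 * (3 * m₀) by ring] at hd
    rcases hp.dvd_or_dvd hd with h4 | h4
    · exact h4.mul_right _
    · exact h4
  obtain ⟨ι, iι, D, hD, hFE⟩ := h2
  refine ⟨ι, iι, D, hD, fun V hV m₁ N₀ A => ?_⟩
  obtain ⟨W, hW, h5⟩ := hFE V hV
  obtain ⟨C, hC, h6⟩ := h5 A
  obtain ⟨C2, J, hC2, h7⟩ := wt_uniform hW m₁ N₀
  refine ⟨C + C2, J, by positivity, fun τ => ⟨fun i => W i τ, fun u hu Q hQ => ?_, fun i => ?_⟩⟩
  · refine (h6 u hu Q hQ τ).trans ?_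
    have h8 : (0 : ℝ) ≤ ((1 + |τ|) ^ A)⁻¹ := by have := abs_nonneg τ; positivity
    have h9 : C ≤ C + C2 := by linarith
    have h10 : (0 : ℝ) ≤ ‖PX764.rho (m₀ * u)‖ * Q ^ (4 / 3 : ℝ) := by positivity
    exact mul_le_mul_of_nonneg_right (mul_le_mul_of_nonneg_right h9 h8) h10
  · have h8 := h7 τ i
    refine ⟨h8.smooth, fun m hm y hy => (h8.dec m hm y hy).trans ?_⟩
    have h9 : C2 ≤ C + C2 := by linarith
    have h10 : (0 : ℝ) ≤ min 1 ((y ^ N₀)⁻¹) := le_min zero_le_one (by positivity)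
    have h11 : (0 : ℝ) ≤ (1 + |τ|) ^ J := by have := abs_nonneg τ; positivity
    gcongr

end Crest.Agent.R017.E4L266
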