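import Crest.Agent.R017.E4Law_266
import Crest.Agent.R017.E2g_440

/-!
# Row 17, C70/E4: dual weights of the functional equation with main term (helper266)

* `Sc F` : smooth with compact support, `Tw τ F x = e^{iτx} F x`
* `om_fam` : `(τ, y) ↦ om' v0 (Tw τ F) i (1/y)` is in the class `WTf`
* `J_dec` : rapid decay of `∫ F e^{iτx}`
-/

set_option autoImplicit false

noncomputable section

open Complex MeasureTheory Set Filter Topology
open scoped ComplexConjugate ContDiff SchwartzMap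

namespace Crest.Agent.R017.E4L266

open Crest.Agent.R012 Crest.Agent.R012.Eis
open Crest.Agent.R012.Parseval499 (frq s3 toC_s3_ne)
open Crest.Agent.R017.F1
open Crest.Agent.R017.X6545 (TF Bd)
open Crest.Agent.R017.X6B848 (fyw ev_fyw)
open Crest.Agent.R017.X6C180 Crest.Agent.R017.X6W180
open Crest.Agent.R017.E1c146 (iteratedDeriv_seq)

/-! ### twists -/

/-- `D + iτ` -/
def DTt (τ : ℝ) (F : ℝ → ℂ) (y : ℝ) : ℂ := (I * τ) * F y + deriv F y

/-- `e^{iτx} F x` -/
def Tw (τ : ℝ) (F : ℝ → ℂ) (y : ℝ) : ℂ := cexp (I * τ * y) * F y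

lemma tf1_DTt (τ : ℝ) {F : ℝ → ℂ} (h : TF1 F) : TF1 (DTt τ F) where
  smooth := (contDiff_const.mul h.smooth).add (tf1_deriv h).smooth
  supp := fun y hy => by unfold DTt; rw [h.supp y hy, (tf1_deriv h).supp y hy]; simp

lemma bd_DTt (τ : ℝ) {F : ℝ → ℂ} (h : TF1 F) {k : ℕ} {S : ℝ} (hB : Bd F (k + 1) S) :
    Bd (DTt τ F) k ((1 + |τ|) * S) := by
  intro i hi y
  have hseq := iteratedDeriv_seq (g := fun n y => (I * τ) * iteratedDeriv n F y +
    iteratedDeriv (n + 1) F y) (fun n u => ((hasDeriv_iter h.smooth n u).const_mul _).add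
      (hasDeriv_iter h.smooth (n + 1) u)) i
  have e0 : (fun y => (I * τ) * iteratedDeriv 0 F y + iteratedDeriv (0 + 1) F y) =
      DTt τ F := by
    funext y
    unfold DTt
    rw [iteratedDeriv_zero, zero_add, iteratedDeriv_one]
  rw [e0] at hseq
  rw [hseq]
  simp only
  have h1 := hB i (by omega) y
  have h2 := hB (i + 1) (by omega) y
  refine (norm_add_le _ _).trans ?_
  rw [norm_mul, norm_mul, Complex.norm_I, one_mul, Complex.norm_real, Real.norm_eq_abs]
  have := mul_le_mul_of_nonneg_left h1 (abs_nonneg τ)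
  linarith

lemma tf1_DTt_iter (τ : ℝ) {F : ℝ → ℂ} (hF : TF1 F) (n : ℕ) : TF1 ((DTt τ)^[n] F) := by
  induction n with
  | zero => exact hF
  | succ n ih =>
    rw [Function.iterate_succ_apply']
    exact tf1_DTt τ ih

lemma bd_DTt_iter (τ : ℝ) {F : ℝ → ℂ} (hF : TF1 F) {k : ℕ} {S : ℝ} (n : ℕ)
    (hB : Bd F (k + n) S) : Bd ((DTt τ)^[n] F) k ((1 + |τ|) ^ n * S) := by
  induction n generalizing k with
  | zero => simpa using hB
  | succ n ih =>
    rw [Function.iterate_succ_apply']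
    have h1 := ih (k := k + 1) (by rwa [show k + 1 + n = k + (n + 1) by ring])
    have := bd_DTt τ (tf1_DTt_iter τ hF n) h1
    rwa [← mul_assoc, ← pow_succ'] at this

lemma hasDeriv_osc (τ : ℝ) (u : ℝ) :
    HasDerivAt (fun y : ℝ => cexp (I * τ * y)) (cexp (I * τ * u) * (I * τ)) u := by
  have h1 : HasDerivAt (fun y : ℝ => I * τ * (y : ℂ)) (I * τ * 1) u :=
    (Complex.ofRealCLM.hasDerivAt (x := u)).const_mul (I * (τ : ℂ))
  rw [mul_one] at h1
  exact h1.cexp

lemma hasDeriv_Tw (τ : ℝ) {F : ℝ → ℂ} (hF : TF1 F) (n : ℕ) (u : ℝ) :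
    HasDerivAt (Tw τ ((DTt τ)^[n] F)) (Tw τ ((DTt τ)^[n + 1] F) u) u := by
  have h1 := (tf1_DTt_iter τ hF n).smooth
  have h2 : HasDerivAt ((DTt τ)^[n] F) (deriv ((DTt τ)^[n] F) u) u :=
    ((contDiff_infty_iff_deriv.mp h1).1 u).hasDerivAt
  have h3 := (hasDeriv_osc τ u).mul h2
  rw [Function.iterate_succ_apply']
  have e : Tw τ (DTt τ ((DTt τ)^[n] F)) u =
      cexp (I * τ * u) * (I * τ) * (DTt τ)^[n] F u + cexp (I * τ * u) * deriv ((DTt τ)^[n] F) u := by
    unfold Tw DTt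
    ring
  rw [e]
  exact h3

lemma norm_osc (τ y : ℝ) : ‖cexp (I * τ * y)‖ = 1 := by
  rw [Complex.norm_exp]
  simp

lemma contDiff_osc (τ : ℝ) : ContDiff ℝ ((⊤ : ℕ∞) : WithTop ℕ∞) (fun y : ℝ => cexp (I * τ * y)) :=
  Complex.contDiff_exp.comp (contDiff_const.mul Complex.ofRealCLM.contDiff)

lemma tf1_Tw (τ : ℝ) {F : ℝ → ℂ} (h : TF1 F) : TF1 (Tw τ F) where
  smooth := (contDiff_osc τ).mul h.smooth
  supp := fun y hy => by unfold Tw; rw [h.supp y hy, mul_zero]

lemma bd_Tw (τ : ℝ) {F : ℝ → ℂ} (hF : TF1 F) {k : ℕ} {S : ℝ} (hB : Bd F k S) :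
    Bd (Tw τ F) k ((1 + |τ|) ^ k * S) := by
  intro i hi y
  have hseq := iteratedDeriv_seq (g := fun n => Tw τ ((DTt τ)^[n] F))
    (fun n u => hasDeriv_Tw τ hF n u) i
  have e0 : Tw τ ((DTt τ)^[0] F) = Tw τ F := rfl
  have hseq' : iteratedDeriv i (Tw τ F) = Tw τ ((DTt τ)^[i] F) := hseq
  rw [hseq']
  have h1 := bd_DTt_iter (k := 0) τ hF i (bd_mono hB (by omega)) 0 le_rfl y
  rw [iteratedDeriv_zero] at h1
  have hS : 0 ≤ S := (norm_nonneg _).trans (hB 0 (Nat.zero_le _) 0)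
  have h2 : (1 : ℝ) ≤ 1 + |τ| := by have := abs_nonneg τ; linarith
  have h3 : ‖Tw τ ((DTt τ)^[i] F) y‖ = ‖(DTt τ)^[i] F y‖ := by
    unfold Tw
    rw [norm_mul, norm_osc, one_mul]
  rw [h3]
  exact h1.trans (mul_le_mul_of_nonneg_right (pow_le_pow_right₀ h2 hi) hS)

/-! ### smooth functions with compact support -/

/-- smooth with compact support -/
structure Sc (F : ℝ → ℂ) : Prop where
  smooth : ContDiff ℝ ((⊤ : ℕ∞) : WithTop ℕ∞) F
  supp : ∃ R : ℝ, 0 < R ∧ ∀ y : ℝ, R < |y| → F y = 0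

lemma Sc.tw {F : ℝ → ℂ} (h : Sc F) (τ : ℝ) : Sc (Tw τ F) where
  smooth := (contDiff_osc τ).mul h.smooth
  supp := by
    obtain ⟨R, hR, h2⟩ := h.supp
    exact ⟨R, hR, fun y hy => by unfold Tw; rw [h2 y hy, mul_zero]⟩

lemma wt_GFc {F : ℝ → ℂ} (hF : Sc F) : M49.Wt (GF F) := by
  obtain ⟨R, hR, hs⟩ := hF.supp
  refine ⟨?_, ⟨Real.exp (-R), Real.exp R, Real.exp_pos _, Real.exp_lt_exp.mpr (by linarith),
    fun x hx => ?_⟩⟩
  · rw [contDiff_iff_contDiffAt]
    intro x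
    rcases lt_or_ge x (Real.exp (-(R + 1))) with hx | hx
    · have h0 : GF F =ᶠ[𝓝 x] fun _ => 0 := by
        filter_upwards [gt_mem_nhds hx] with y hy
        unfold GF
        split_ifs with h
        · apply hs
          have h1 : Real.log y < -(R + 1) := by
            rw [← Real.log_exp (-(R + 1))]
            exact Real.log_lt_log h hy
          rw [abs_of_neg (by linarith)]
          linarith
        · rfl
      exact (contDiffAt_const (c := (0 : ℂ))).congr_of_eventuallyEq h0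
    · have hx0 : 0 < x := (Real.exp_pos _).trans_le hx
      have h0 : GF F =ᶠ[𝓝 x] fun y => F (Real.log y) := by
        filter_upwards [lt_mem_nhds hx0] with y hy
        unfold GF
        rw [if_pos hy]
      refine ContDiffAt.congr_of_eventuallyEq ?_ h0
      exact hF.smooth.contDiffAt.comp x (Real.contDiffAt_log.mpr hx0.ne')
  · unfold GF
    split_ifs with h
    · apply hs
      rcases hx with hx | hx
      · have h1 : Real.log x < -R := by
          rw [← Real.log_exp (-R)]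
          exact Real.log_lt_log h hx
        rw [abs_of_neg (by linarith)]
        linarith
      · have h1 : R < Real.log x := by
          rw [← Real.log_exp R]
          exact Real.log_lt_log (Real.exp_pos _) hx
        rw [abs_of_pos (by linarith)]
        exact h1
    · rfl

lemma rV_V1_GF' (F : ℝ → ℂ) : rV (V1 (GF F)) = fyw (-(4 / 3)) F := by
  funext x
  unfold rV V1 GF fyw
  by_cases hx : x = 0
  · subst hx
    rw [norm_zero]
    have h1 : (0 : ℝ) ^ (-(4 / 3) : ℝ) = 0 := Real.zero_rpow (by norm_num)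
    rw [h1, if_neg (by norm_num)]
    simp
  · have hn : 0 < ‖x‖ := norm_pos_iff.mpr hx
    rw [if_pos (by positivity), ← Real.rpow_natCast, ← Real.rpow_mul hn.le]
    norm_num

/-- admissible -/
def EvF (F : ℝ → ℂ) : Prop := Ev (fyw (-(4 / 3)) F)

lemma EvF.add {F G : ℝ → ℂ} (hF : EvF F) (hG : EvF G) : EvF (fun y => F y + G y) := by
  unfold EvF
  rw [fyw_add]
  exact Ev.add hF hG

lemma EvF.smul {F : ℝ → ℂ} (hF : EvF F) (a : ℂ) : EvF (fun y => a * F y) := by
  unfold EvF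
  rw [fyw_smul]
  exact Ev.const_mul hF a

lemma EvF.tr {F : ℝ → ℂ} (hF : EvF F) (h : ℝ) : EvF (fun y => F (y - h)) := by
  unfold EvF
  rw [fyw_tr (by norm_num)]
  have hw : ((Real.exp (h / 2) : ℝ) : ℂ) ≠ 0 := by exact_mod_cast (Real.exp_pos _).ne'
  exact (Ev.dl hF hw).const_mul _

lemma evF_of_tf {F : ℝ → ℂ} (h : TF F) : EvF F := ev_fyw (by norm_num) h

/-- additivity, homogeneity and translation covariance for all admissible functions -/
structure OpE (L : (ℝ → ℂ) → ℝ → ℂ) : Prop where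
  add : ∀ F G : ℝ → ℂ, EvF F → EvF G → ∀ x, L (fun y => F y + G y) x = L F x + L G x
  smul : ∀ (a : ℂ) (F : ℝ → ℂ), ∀ x, L (fun y => a * F y) x = a * L F x
  tr : ∀ (F : ℝ → ℂ) (h : ℝ), ∀ x,
    L (fun y => F (y - h)) x = ((Real.exp (h / 3) : ℝ) : ℂ) * L F (x - h)

lemma opE_W (a : ℂ) {κ : ℝ} (hκ : 0 < κ) :
    OpE fun F x => a * pr (Wf (fyw (-(4 / 3)) F)) (κ * Real.exp x) where
  add := fun F G hF hG x => by
    unfold pr
    rw [fyw_add, Wf_add hF hG (sq_ne hκ x)]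
    ring
  smul := fun b F x => by
    unfold pr
    rw [fyw_smul, Wf_const_mul]
    ring
  tr := fun F h x => by
    have : pr (Wf (fyw (-(4 / 3)) fun y => F (y - h))) (κ * Real.exp x) =
        ((Real.exp (h / 3) : ℝ) : ℂ) * pr (Wf (fyw (-(4 / 3)) F)) (κ * Real.exp (x - h)) := by
      rw [← pr_tr _ hκ]
      unfold pr
      rw [Wf_tr]
    rw [this]; ring

lemma opE_G (a : ℂ) {κ : ℝ} (hκ : 0 < κ) :
    OpE fun F x => a * pr (gg (Wf (fyw (-(4 / 3)) F))) (κ * Real.exp x) where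
  add := fun F G hF hG x => by
    have hy := sq_ne hκ x
    have h3 : ((Real.sqrt (κ * Real.exp x) : ℝ) : ℂ) / (3 * toC s3) ≠ 0 :=
      div_ne_zero hy (mul_ne_zero (by norm_num) toC_s3_ne)
    unfold pr gg
    rw [fyw_add, Wf_add hF hG hy, Wf_add hF hG h3]
    ring
  smul := fun b F x => by
    unfold pr gg
    rw [fyw_smul, Wf_const_mul, Wf_const_mul]
    ring
  tr := fun F h x => by
    have : pr (gg (Wf (fyw (-(4 / 3)) fun y => F (y - h)))) (κ * Real.exp x) =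
        ((Real.exp (h / 3) : ℝ) : ℂ) * pr (gg (Wf (fyw (-(4 / 3)) F))) (κ * Real.exp (x - h)) := by
      rw [← pr_tr _ hκ]
      have e : Wf (fyw (-(4 / 3)) fun y => F (y - h)) = fun y => ((Real.exp (h / 3) : ℝ) : ℂ) *
          Wf (fyw (-(4 / 3)) F) (y / ((Real.exp (h / 2) : ℝ) : ℂ)) := funext fun y => Wf_tr F h y
      rw [e, gg_dil']
      rfl
    rw [this]; ring

lemma opE_om {v0 : Eis} (h0 : v0 ≠ 0) (i : IX v0) :
    OpE fun F x => om' v0 F i (Real.exp x) := by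
  have hN0 : (0 : ℝ) < nm v0 := by exact_mod_cast nm_pos.2 h0
  rcases i with _ | _ | δ
  · exact opE_W _ hN0
  · exact opE_G _ hN0
  · have hdl : (0 : ℝ) < nm δ.1 := by exact_mod_cast nm_pos.2 ((mem_Dl h0).mp δ.2).1.1
    exact opE_G _ (div_pos hN0 hdl)

lemma OpE.sum {L : (ℝ → ℂ) → ℝ → ℂ} (hL : OpE L) (s : Finset ℕ) (c : ℕ → ℂ) (F : ℕ → ℝ → ℂ)
    (b : ℕ → ℝ) (hF : ∀ k, EvF (F k)) :
    EvF (fun y => ∑ k ∈ s, c k * F k (y - b k)) ∧ ∀ x,
      L (fun y => ∑ k ∈ s, c k * F k (y - b k)) x =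
        ∑ k ∈ s, c k * (((Real.exp (b k / 3) : ℝ) : ℂ) * L (F k) (x - b k)) := by
  classical
  induction s using Finset.induction_on with
  | empty =>
    have e : (fun y : ℝ => ∑ k ∈ (∅ : Finset ℕ), c k * F k (y - b k)) = fun y => (0 : ℂ) * F 0 y := by
      funext y; simp
    refine ⟨?_, fun x => ?_⟩
    · rw [e]; exact (hF 0).smul 0
    · rw [e, hL.smul, zero_mul, Finset.sum_empty]
  | insert a s ha ih =>
    have e : (fun y : ℝ => ∑ k ∈ insert a s, c k * F k (y - b k)) =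
        fun y => (c a * F a (y - b a)) + ∑ k ∈ s, c k * F k (y - b k) := by
      funext y; rw [Finset.sum_insert ha]
    have h1 : EvF (fun y => c a * F a (y - b a)) := ((hF a).tr (b a)).smul (c a)
    refine ⟨?_, fun x => ?_⟩
    · rw [e]; exact h1.add ih.1
    · rw [e, hL.add _ _ h1 ih.1, hL.smul (c a) (fun y => F a (y - b a)), hL.tr (F a) (b a), ih.2 x,
        Finset.sum_insert ha]

/-! ### partition -/

/-- the bump -/
def hb (x : ℝ) : ℝ := Real.smoothTransition (x + 1) - Real.smoothTransition x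

lemma hb_smooth : ContDiff ℝ ((⊤ : ℕ∞) : WithTop ℕ∞) hb :=
  ((Real.smoothTransition.contDiff (n := (⊤ : ℕ∞))).comp (contDiff_id.add contDiff_const)).sub
    Real.smoothTransition.contDiff

lemma hb_supp {x : ℝ} (hx : 1 < |x|) : hb x = 0 := by
  unfold hb
  rcases lt_abs.mp hx with h | h
  · rw [Real.smoothTransition.one_of_one_le (by linarith),
      Real.smoothTransition.one_of_one_le (by linarith), sub_self]
  · rw [Real.smoothTransition.zero_of_nonpos (by linarith),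
      Real.smoothTransition.zero_of_nonpos (by linarith), sub_self]

lemma hb_sum (N : ℕ) {x : ℝ} (hx : |x| ≤ N) :
    ∑ k ∈ Finset.range (2 * N + 1), hb (x - ((k : ℝ) - N)) = 1 := by
  have h1 := Finset.sum_range_sub' (fun k : ℕ => Real.smoothTransition (x + N + 1 - k)) (2 * N + 1)
  have h2 : ∀ k : ℕ, hb (x - ((k : ℝ) - N)) = Real.smoothTransition (x + N + 1 - k) -
      Real.smoothTransition (x + N + 1 - ((k + 1 : ℕ) : ℝ)) := by
    intro k
    unfold hb
    push_cast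
    congr 2 <;> ring
  rw [Finset.sum_congr rfl fun k _ => h2 k, h1]
  obtain ⟨h3, h4⟩ := abs_le.mp hx
  rw [Real.smoothTransition.one_of_one_le (by push_cast; linarith),
    Real.smoothTransition.zero_of_nonpos (by push_cast; linarith), sub_zero]

lemma Sc.part {F : ℝ → ℂ} (hF : Sc F) : ∃ (N : ℕ) (Φ : ℕ → ℝ → ℂ), (∀ k, TF1 (Φ k)) ∧
    ∀ τ : ℝ, Tw τ F = fun y => ∑ k ∈ Finset.range (2 * N + 1),
      cexp (I * τ * ((k : ℝ) - N : ℝ)) * Tw τ (Φ k) (y - ((k : ℝ) - N)) := by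
  obtain ⟨R, hR, hs⟩ := hF.supp
  obtain ⟨N, hN⟩ := exists_nat_ge R
  refine ⟨N, fun k y => F (y + ((k : ℝ) - N)) * (hb y : ℂ), fun k => ⟨?_, fun y hy => ?_⟩,
    fun τ => ?_⟩
  · exact (hF.smooth.comp (contDiff_id.add contDiff_const)).mul
      (Complex.ofRealCLM.contDiff.comp hb_smooth)
  · simp only
    rw [hb_supp (by linarith), Complex.ofReal_zero, mul_zero]
  · funext y
    have e : ∀ k : ℕ, cexp (I * τ * ((k : ℝ) - N : ℝ)) *
        Tw τ (fun y => F (y + ((k : ℝ) - N)) * (hb y : ℂ)) (y - ((k : ℝ) - N)) =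
        Tw τ F y * (hb (y - ((k : ℝ) - N)) : ℂ) := by
      intro k
      unfold Tw
      beta_reduce
      rw [sub_add_cancel]
      have h2 : cexp (I * τ * y) = cexp (I * τ * ((k : ℝ) - N : ℝ)) *
          cexp (I * τ * (y - ((k : ℝ) - N) : ℝ)) := by
        rw [← Complex.exp_add]
        congr 1
        push_cast
        ring
      rw [h2]
      ring
    rw [Finset.sum_congr rfl fun k _ => e k, ← Finset.mul_sum]
    by_cases hy : |y| ≤ N
    · have h3 := hb_sum N hy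
      rw [← Complex.ofReal_sum, h3, Complex.ofReal_one, mul_one]
    · have h4 : F y = 0 := hs y (hN.trans_lt (not_le.mp hy))
      unfold Tw
      rw [h4]
      simp

/-! ### the family of dual weights -/

/-- the sequence of derivatives -/
def gs' (L : (ℝ → ℂ) → ℝ → ℂ) (N : ℕ) (Φ : ℕ → ℝ → ℂ) (τ : ℝ) (n : ℕ) (x : ℝ) : ℂ :=
  ∑ k ∈ Finset.range (2 * N + 1), (cexp (I * τ * ((k : ℝ) - N : ℝ)) *
    ((Real.exp (((k : ℝ) - N) / 3) : ℝ) : ℂ)) *
      ((-1 : ℂ) ^ n * L (DF^[n] (Tw τ (Φ k))) (-x - ((k : ℝ) - N)))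

lemma gs'_deriv {L : (ℝ → ℂ) → ℝ → ℂ} (hL : Op L) (N : ℕ) {Φ : ℕ → ℝ → ℂ} (hΦ : ∀ k, TF1 (Φ k))
    (τ : ℝ) (n : ℕ) (x : ℝ) :
    HasDerivAt (gs' L N Φ τ n) (gs' L N Φ τ (n + 1) x) x := by
  unfold gs'
  refine HasDerivAt.fun_sum fun k _ => ?_
  have h1 := hL.hasDerivAt (tf1_iter (tf1_Tw τ (hΦ k)) n) (-x - ((k : ℝ) - N))
  have h12 : HasDerivAt (fun z : ℝ => -z - ((k : ℝ) - N)) (-1) x := by
    have := (hasDerivAt_neg x).sub_const ((k : ℝ) - N)
    exact this
  have h2 := (HasDerivAt.scomp x h1 h12).const_mul ((-1 : ℂ) ^ n)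
  rw [← Function.iterate_succ_apply' DF n (Tw τ (Φ k))] at h2
  have h3 := h2.const_mul (cexp (I * τ * ((k : ℝ) - N : ℝ)) *
    ((Real.exp (((k : ℝ) - N) / 3) : ℝ) : ℂ))
  have e3 : (-1 : ℂ) ^ (n + 1) * L (DF^[n + 1] (Tw τ (Φ k))) (-x - ((k : ℝ) - N)) =
      (-1 : ℂ) ^ n * (-1 : ℝ) • L (DF^[n.succ] (Tw τ (Φ k))) (-x - ((k : ℝ) - N)) := by
    rw [pow_succ, Complex.real_smul]
    push_cast
    ring
  rw [e3]
  exact h3

/-- **the dual weights of the families `Tw τ F`** -/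
theorem op_fam {L : (ℝ → ℂ) → ℝ → ℂ} (hL : Op L) (hE : OpE L) {F : ℝ → ℂ} (hF : Sc F) :
    WTf (fun τ y => L (Tw τ F) (-Real.log y)) := by
  obtain ⟨N, Φ, hΦ, hp⟩ := hF.part
  have key : ∀ τ x, L (Tw τ F) (-x) = gs' L N Φ τ 0 x := by
    intro τ x
    rw [hp τ, (hE.sum _ _ _ _ fun k => evF_of_tf (tf1_tf (tf1_Tw τ (hΦ k)))).2]
    unfold gs'
    refine Finset.sum_congr rfl fun k _ => ?_
    rw [pow_zero, one_mul, Function.iterate_zero, id]
    ring
  have hx : ∀ τ, (fun x => L (Tw τ F) (-Real.log (Real.exp x))) = gs' L N Φ τ 0 := by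
    intro τ
    funext x
    rw [Real.log_exp]
    exact key τ x
  refine ⟨fun τ => ?_, fun m n => ?_⟩
  · have h1 : ContDiff ℝ ∞ (gs' L N Φ τ 0) := E1c146.contDiff_seq (fun n u => gs'_deriv hL N hΦ τ n u)
    have h2 : ContDiffOn ℝ (⊤ : ℕ∞) (fun y => gs' L N Φ τ 0 (Real.log y)) (Set.Ioi 0) :=
      h1.comp_contDiffOn (contDiffOn_id.log fun x hx => (Set.mem_Ioi.mp hx).ne')
    exact h2.congr fun y _ => key τ (Real.log y)
  · obtain ⟨k, C, hC0, hC⟩ := hL.bd n
    have hS := fun j => exists_Bd (hΦ j) (k + m)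
    choose S hS0 hS using hS
    set D : ℝ := ∑ j ∈ Finset.range (2 * N + 1), Real.exp (((j : ℝ) - N) / 3) *
      (C * (2 ^ m * S j) * Real.exp (n * N)) with hD
    refine ⟨D, ((k + m : ℕ) : ℝ), Finset.sum_nonneg fun j _ => by have := hS0 j; positivity,
      fun τ y hy => ?_⟩
    rw [hx τ, iteratedDeriv_seq (fun n u => gs'_deriv hL N hΦ τ n u) m]
    unfold gs'
    refine (norm_sum_le _ _).trans ?_
    rw [hD, Finset.sum_mul, Finset.sum_mul]
    refine Finset.sum_le_sum fun j hj => ?_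
    rw [Finset.mem_range] at hj
    have hτ1 : (1 : ℝ) ≤ 1 + |τ| := by have := abs_nonneg τ; linarith
    rw [norm_mul, norm_mul, norm_osc, one_mul, Complex.norm_real,
      Real.norm_of_nonneg (Real.exp_pos _).le, norm_mul, norm_pow, norm_neg, norm_one, one_pow,
      one_mul]
    have hb1 : Bd (Tw τ (Φ j)) (k + m) ((1 + |τ|) ^ (k + m) * S j) := bd_Tw τ (hΦ j) (hS j)
    have hb2 := bd_iter (tf1_Tw τ (hΦ j)) m hb1
    have h3 := hC _ _ (tf1_tf (tf1_iter (tf1_Tw τ (hΦ j)) m)) hb2 (-Real.log y - ((j : ℝ) - N))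
    have h4 : min 1 (Real.exp (n * (-Real.log y - ((j : ℝ) - N)))) ≤
        Real.exp (n * N) * min 1 ((y ^ n)⁻¹) := by
      have hn : (0 : ℝ) ≤ n := Nat.cast_nonneg n
      have hN : (0 : ℝ) ≤ N := Nat.cast_nonneg N
      have h5 : Real.exp (n * (-Real.log y - ((j : ℝ) - N))) ≤ Real.exp (n * N) * (y ^ n)⁻¹ := by
        have e1 : (y ^ n)⁻¹ = Real.exp (n * -Real.log y) := by
          rw [mul_neg, Real.exp_neg, Real.exp_nat_mul, Real.exp_log hy]
        rw [e1, ← Real.exp_add]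
        apply Real.exp_le_exp.mpr
        have h6 : (0 : ℝ) ≤ (j : ℝ) := Nat.cast_nonneg j
        nlinarith
      have h7 : 1 ≤ Real.exp (n * N) := Real.one_le_exp (by positivity)
      rcases le_total 1 ((y ^ n)⁻¹) with h8 | h8
      · rw [min_eq_left h8, mul_one]
        exact (min_le_left _ _).trans h7
      · rw [min_eq_right h8]
        exact (min_le_right _ _).trans h5
    have hm0 : 0 ≤ min 1 ((y ^ n)⁻¹) := le_min zero_le_one (by positivity)
    have hSj := hS0 j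
    calc Real.exp (((j : ℝ) - N) / 3) * ‖L (DF^[m] (Tw τ (Φ j))) (-Real.log y - ((j : ℝ) - N))‖
        ≤ Real.exp (((j : ℝ) - N) / 3) * (C * (2 ^ m * ((1 + |τ|) ^ (k + m) * S j)) *
            (Real.exp (n * N) * min 1 ((y ^ n)⁻¹))) := by
          refine mul_le_mul_of_nonneg_left (h3.trans ?_) (Real.exp_pos _).le
          exact mul_le_mul_of_nonneg_left h4 (by positivity)
      _ = Real.exp (((j : ℝ) - N) / 3) * (C * (2 ^ m * S j) * Real.exp (n * N)) *
          (1 + |τ|) ^ (((k + m : ℕ) : ℝ)) * min 1 ((y ^ n)⁻¹) := by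
          rw [Real.rpow_natCast]
          ring

/-- **the dual kernels** -/
theorem om_fam {v0 : Eis} (h0 : v0 ≠ 0) (i : IX v0) {F : ℝ → ℂ} (hF : Sc F) :
    WTf (fun τ y => om' v0 (Tw τ F) i (Real.exp (-Real.log y))) :=
  op_fam (op_om h0 i) (opE_om h0 i) hF

/-! ### the main term -/

/-- rapid decay of the oscillating integral -/
theorem J_dec {F : ℝ → ℂ} (hF : Sc F) (A : ℕ) : ∃ C : ℝ, 0 ≤ C ∧ ∀ τ : ℝ,
    ‖∫ y : ℝ, Tw τ F y‖ ≤ C * ((1 + |τ|) ^ A)⁻¹ := by
  obtain ⟨R, hR, hs⟩ := hF.supp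
  have hc : HasCompactSupport F := by
    refine HasCompactSupport.intro (isCompact_Icc (a := -R) (b := R)) fun y hy => ?_
    refine hs y ?_
    rw [Set.mem_Icc, not_and_or, not_le, not_le] at hy
    rcases hy with hy | hy
    · rw [abs_of_neg (by linarith)]; linarith
    · rw [abs_of_pos (by linarith)]; exact hy
  set S : 𝓢(ℝ, ℂ) := hc.toSchwartzMap hF.smooth with hS
  have hd := fun n : ℕ => (FourierTransform.fourier S).decay n 0
  choose D hD0 hD using hd
  have key : ∀ τ : ℝ, ∫ y : ℝ, Tw τ F y = (FourierTransform.fourier S) (-(τ / (2 * Real.pi))) := by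
    intro τ
    rw [SchwartzMap.fourier_coe, Real.fourier_eq']
    refine integral_congr_ae (Eventually.of_forall fun y => ?_)
    have e1 : (S : ℝ → ℂ) y = F y := rfl
    simp only [e1, Tw, smul_eq_mul]
    congr 1
    congr 1
    simp only [RCLike.inner_apply, conj_trivial]
    push_cast
    have : (Real.pi : ℂ) ≠ 0 := by exact_mod_cast Real.pi_ne_zero
    field_simp
  refine ⟨(2 ^ A) * (D 0 + (2 * Real.pi) ^ A * D A), by
    have h0 := (hD0 0).le; have hA := (hD0 A).le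
    positivity, fun τ => ?_⟩
  rw [key, ← div_eq_mul_inv, le_div_iff₀ (by positivity)]
  have h0 := hD 0 (-(τ / (2 * Real.pi)))
  have h1 := hD A (-(τ / (2 * Real.pi)))
  rw [norm_iteratedFDeriv_zero] at h0 h1
  rw [pow_zero, one_mul] at h0
  set Z := ‖(FourierTransform.fourier S) (-(τ / (2 * Real.pi)))‖ with hZ
  have hZ0 : 0 ≤ Z := norm_nonneg _
  have e2 : |τ| ^ A * Z = (2 * Real.pi) ^ A * (‖-(τ / (2 * Real.pi))‖ ^ A * Z) := by
    rw [norm_neg, norm_div, Real.norm_eq_abs, Real.norm_of_nonneg (by positivity : (0 : ℝ) ≤ 2 * Real.pi),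
      div_pow]
    field_simp
  have h2 : (1 + |τ|) ^ A ≤ 2 ^ A * (1 + |τ| ^ A) := by
    rcases le_total |τ| 1 with h | h
    · calc (1 + |τ|) ^ A ≤ 2 ^ A := pow_le_pow_left₀ (by positivity) (by linarith) A
        _ = 2 ^ A * 1 := (mul_one _).symm
        _ ≤ 2 ^ A * (1 + |τ| ^ A) := by gcongr; have : 0 ≤ |τ| ^ A := by positivity
                                        linarith
    · calc (1 + |τ|) ^ A ≤ (2 * |τ|) ^ A := pow_le_pow_left₀ (by positivity) (by linarith) A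
        _ = 2 ^ A * |τ| ^ A := mul_pow _ _ _
        _ ≤ 2 ^ A * (1 + |τ| ^ A) := by gcongr; linarith
  calc Z * (1 + |τ|) ^ A ≤ Z * (2 ^ A * (1 + |τ| ^ A)) := by gcongr
    _ = 2 ^ A * (Z + |τ| ^ A * Z) := by ring
    _ ≤ 2 ^ A * (D 0 + (2 * Real.pi) ^ A * D A) := by
        rw [e2]
        gcongr

end Crest.Agent.R017.E4L266
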