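import Crest.Agent.R017.FinA1_266

/-!
# Row 17, sextic F2: the pure part of the level does not depend on the cubic twist (helper266)

* `perA_iff`, `pureL_iff` : for `θ^3 = ψ^3` on the good elements
* `exists_R0` : `A = m R0`, `R0` primary, `m` the exact period at `A`
-/

set_option autoImplicit false

noncomputable section

open Complex
open scoped ComplexConjugate

namespace Crest.Agent.R017.FinA266

open Crest.Agent.R012 Crest.Agent.R012.Eis Crest.Agent.R012.Gauss880 Crest.Agent.R017.Loc266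
open Crest.Agent.R017.Sx440 Crest.Agent.R017.Kub664 Crest.Agent.R017.Tw266
open Crest.Agent.R017.Rw266 Crest.Agent.R017.GG90 Crest.Agent.R017.LamP64
open Crest.Agent.R017.GLm74

variable {N A B e : Eis} {ψ θ γ : Eis → ℂ}

lemma dvd_nm_self (A : Eis) : A ∣ ((nm A : ℕ) : Eis) := ⟨Eis.conj A, (Eis.mul_conj A).symm⟩

/-- `x ≡ 1 mod m^j` with `m ∣ A` implies `x^{N(A)} ≡ 1 mod m^{j+1}`, `j ≥ 1`. -/
lemma pow_nm_congr {m x : Eis} (hmA : m ∣ A) {j : ℕ} (hj : j ≠ 0) (h : m ^ j ∣ x - 1) :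
    m ^ (j + 1) ∣ x ^ nm A - 1 := by
  have h1 : (x ^ nm A - 1) = (∑ i ∈ Finset.range (nm A), x ^ i) * (x - 1) := (geom_sum_mul x _).symm
  rw [h1, pow_succ, mul_comm (m ^ j) m]
  refine mul_dvd_mul ?_ h
  have hm1 : m ∣ x - 1 := (dvd_pow_self m hj).trans h
  have h2 : ∑ i ∈ Finset.range (nm A), x ^ i =
      ∑ i ∈ Finset.range (nm A), (x ^ i - 1) + ((nm A : ℕ) : Eis) := by
    rw [Finset.sum_sub_distrib]
    simp
  rw [h2]
  refine dvd_add (Finset.dvd_sum fun i _ => ?_) (hmA.trans (dvd_nm_self A))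
  have := sub_dvd_pow_sub_pow x 1 i
  rw [one_pow] at this
  exact hm1.trans this

lemma pow_iter {m x : Eis} (hmA : m ∣ A) (h : m ∣ x - 1) (j : ℕ) :
    m ^ (j + 1) ∣ x ^ (nm A) ^ j - 1 := by
  induction j with
  | zero => simpa using h
  | succ j ih =>
    rw [pow_succ (nm A), pow_mul]
    exact pow_nm_congr hmA (by omega) ih

/-- same primes: `A ∣ m^k`. -/
lemma dvd_pow_of_same {m : Eis} (hA : A ≠ 0) (hm : ∀ p, Prime p → p ∣ A → p ∣ m) :
    ∃ k : ℕ, A ∣ m ^ k := by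
  induction A using UniqueFactorizationMonoid.induction_on_prime with
  | h₁ => exact absurd rfl hA
  | h₂ x hx => exact ⟨0, by rw [pow_zero]; exact isUnit_iff_dvd_one.mp hx⟩
  | h₃ a p ha hp ih =>
    obtain ⟨k, hk⟩ := ih ha (fun q hq hqa => hm q hq (hqa.mul_left p))
    refine ⟨k + 1, ?_⟩
    rw [pow_succ, mul_comm (m ^ k)]
    exact mul_dvd_mul (hm p hp (dvd_mul_right p a)) hk

lemma exists_exp_one {m x : Eis} (hA : A ≠ 0) (hlam : ¬ lam ∣ A) (hm : SameP A m)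
    (h : m ∣ x - 1) : ∃ n : ℕ, n.Coprime 3 ∧ A ∣ x ^ n - 1 := by
  obtain ⟨k, hk⟩ := dvd_pow_of_same hA hm.pr
  refine ⟨(nm A) ^ k, ?_, (hk.trans (pow_dvd_pow m (by omega : k ≤ k + 1))).trans
    (pow_iter hm.dvd h k)⟩
  apply Nat.Coprime.pow_left
  rw [Nat.coprime_comm, Nat.Prime.coprime_iff_not_dvd Nat.prime_three]
  intro h3
  have h1 := three_dvd_nm_sub_one hlam
  have h2 := nm_pos.mpr hA
  omega

lemma lf_pow (H : Blk A B e) (c : Eis) (n : ℕ) : A * B ∣ lf e (c ^ n) - lf e c ^ n := by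
  induction n with
  | zero => rw [pow_zero, pow_zero, lf_one, sub_self]; exact dvd_zero _
  | succ n ih =>
    rw [pow_succ, pow_succ]
    have h1 := lf_mul H (c ^ n) c
    have : lf e (c ^ n * c) - lf e c ^ n * lf e c =
      (lf e (c ^ n * c) - lf e (c ^ n) * lf e c) + (lf e (c ^ n) - lf e c ^ n) * lf e c := by ring
    rw [this]
    exact dvd_add h1 (ih.mul_right _)

lemma isCh_pow_val {m : Eis} {χ : Eis → ℂ} (hχ : IsCh m χ) (c : Eis) (n : ℕ) :
    χ (c ^ n) = χ c ^ n := by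
  induction n with
  | zero => rw [pow_zero, pow_zero, hχ.one]
  | succ n ih => rw [pow_succ, pow_succ, hχ.mul, ih]

lemma one_of_pow {z : ℂ} {n : ℕ} (hn : n.Coprime 3) (h3 : z ^ 3 = 1) (h : z ^ n = 1) : z = 1 := by
  have h1 : orderOf z ∣ 3 := orderOf_dvd_of_pow_eq_one h3
  have h2 : orderOf z ∣ n := orderOf_dvd_of_pow_eq_one h
  have h4 : orderOf z ∣ 1 := by
    have := Nat.dvd_gcd h2 h1
    rwa [hn] at this
  exact orderOf_eq_one_iff.mp (Nat.dvd_one.mp h4)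

lemma not_lam_dvd_of_blk (H : Blk A B e) (h9 : (9 : Eis) ∣ B) : ¬ lam ∣ A := by
  intro h
  have h3 : lam ∣ B := by
    have h4 : lam ∣ (9 : Eis) := by
      have : (9 : Eis) = lam * (lam * (-w ^ 2) * 3) := by
        have h3 : (3 : Eis) = lam * (lam * (-w ^ 2)) := by rw [three_eq]; ring
        calc (9 : Eis) = 3 * 3 := by norm_num
          _ = (lam * (lam * (-w ^ 2))) * 3 := by rw [← h3]
          _ = _ := by ring
      exact ⟨_, this⟩
    exact h4.trans h9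
  have h4 : IsCoprime lam lam :=
    IsCoprime.of_isCoprime_of_dvd_left (IsCoprime.of_isCoprime_of_dvd_right H.cop h3) h
  exact prime_lam.not_isUnit (isCoprime_self.mp h4)

theorem perA_of (H : Lvl A B e) (h9 : (9 : Eis) ∣ B)
    (hψ : IsCh (A * B) ψ) (hθ : IsCh (A * B) θ)
    (h3 : ∀ c, Gd c → IsCoprime c (A * B) → θ c ^ 3 = ψ c ^ 3) {m : Eis}
    (hm : PerA A e ψ m) : PerA A e θ m := by
  refine ⟨hm.1, fun c hc h1 => ?_⟩
  have g : Gn (A * B) (lf e c) := gd_lf H ((adm_iff H h9).mpr hc)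
  obtain ⟨n, hn, hn1⟩ := exists_exp_one H.A0 (not_lam_dvd_of_blk H.toBlk h9) hm.1 h1
  have e1 : θ (lf e c) ^ 3 = 1 := by
    rw [h3 _ g.1 g.2, hm.2 c hc h1, one_pow]
  have e2 : θ (lf e c) ^ n = 1 := by
    rw [← isCh_pow_val hθ, ← hθ.per.congr (lf_pow H.toBlk c n), ← hθ.one,
      show θ 1 = θ (lf e 1) by rw [lf_one]]
    exact hθ.per.congr (lf_congr H.toBlk hn1)
  exact one_of_pow hn e1 e2

theorem perA_iff (H : Lvl A B e) (h9 : (9 : Eis) ∣ B)
    (hψ : IsCh (A * B) ψ) (hθ : IsCh (A * B) θ)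
    (h3 : ∀ c, Gd c → IsCoprime c (A * B) → θ c ^ 3 = ψ c ^ 3) (m : Eis) :
    PerA A e ψ m ↔ PerA A e θ m :=
  ⟨perA_of H h9 hψ hθ h3, perA_of H h9 hθ hψ (fun c hc hcN => (h3 c hc hcN).symm)⟩

theorem pureL_of (H : Lvl A B e) (h8 : (8 : Eis) ∣ B) (h9 : (9 : Eis) ∣ B)
    (h3 : ∀ c, Gd c → IsCoprime c (A * B) → θ c ^ 3 = ψ c ^ 3) (hP : PureL A B ψ) :
    PureL A B θ := by
  intro p hp hpA
  obtain ⟨b, ⟨k, hk⟩, hpb, hne⟩ := hP p hp hpA
  have hcop : IsCoprime b (A * B) := by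
    refine isCoprime_of_prime_dvd (fun h0 => H.ne h0.2) (fun q hq h1 h2 => ?_)
    by_cases hqp : q ∣ p
    · exact hpb (((hq.associated_of_dvd hp hqp).symm.dvd).trans h1)
    · rcases hq.dvd_or_dvd (h2.trans hk) with h4 | h4
      · have : q ∣ 1 := by
          have := dvd_sub h1 h4
          rwa [sub_sub_cancel] at this
        exact hq.not_isUnit (isUnit_of_dvd_one this)
      · exact hqp (hq.dvd_of_dvd_pow h4)
  have hpB : ¬ p ∣ B := by
    intro h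
    have h1 : IsCoprime p p := IsCoprime.of_isCoprime_of_dvd_left
      (IsCoprime.of_isCoprime_of_dvd_right H.toBlk.cop h) hpA
    exact hp.not_isUnit (isCoprime_self.mp h1)
  have hB1 : B ∣ b - 1 := by
    have h1 : IsCoprime B (p ^ k) :=
      (((hp.irreducible.coprime_iff_not_dvd).mpr hpB).pow_left).symm
    exact h1.dvd_of_dvd_mul_right ((dvd_mul_left B A).trans hk)
  have hg : Gd b := by
    refine ⟨Dvd.dvd.trans (Dvd.dvd.trans ⟨3, by norm_num⟩ h9) hB1, fun h2 => ?_⟩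
    have h4 : (2 : Eis) ∣ 1 := by
      have := dvd_sub h2 (Dvd.dvd.trans (Dvd.dvd.trans ⟨4, by norm_num⟩ h8) hB1)
      rwa [sub_sub_cancel] at this
    exact prime_two.not_isUnit (isUnit_of_dvd_one h4)
  refine ⟨b, ⟨k, hk⟩, hpb, ?_⟩
  rw [show θ b ^ 6 = (θ b ^ 3) ^ 2 by ring, h3 b hg hcop, ← pow_mul]
  exact hne

/-- **the minimal period and the primary `R0`.** -/
theorem exists_R0 (H : Lvl A B e) (h9 : (9 : Eis) ∣ B) (hψ : IsCh (A * B) ψ) :
    ∃ m R0, A = m * R0 ∧ IsPrim R0 ∧ PerA A e ψ m ∧ ∀ m', PerA A e ψ m' → nm m ≤ nm m' := by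
  obtain ⟨m, hm, hmin⟩ := exists_min H hψ
  obtain ⟨t0, ht0⟩ := hm.1.dvd
  have hl : ¬ lam ∣ t0 := fun h => not_lam_dvd_of_blk H.toBlk h9 (by rw [ht0]; exact h.mul_left _)
  obtain ⟨u, hu⟩ := exists_unit_mul_isPrim hl
  have hui : (↑u⁻¹ : Eis) * ↑u = 1 := by rw [← Units.val_mul, inv_mul_cancel, Units.val_one]
  have hd : ∀ {z : Eis}, m * ↑u⁻¹ ∣ z ↔ m ∣ z := by
    intro z
    constructor
    · exact (dvd_mul_right m _).trans
    · rintro ⟨s, rfl⟩
      exact ⟨↑u * s, by linear_combination -(m * s) * hui⟩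
  refine ⟨m * ↑u⁻¹, u * t0, ?_, hu, ⟨⟨?_, ?_⟩, ?_⟩, fun m' hm' => ?_⟩
  · rw [ht0]; linear_combination -(m * t0) * hui
  · exact hd.mpr hm.1.dvd
  · intro p hp hpA
    exact (hm.1.pr p hp hpA).mul_right _
  · intro c hc h1
    exact hm.2 c hc (hd.mp h1)
  · rw [nm_mul, Eis.isUnit_iff.mp (u⁻¹).isUnit, mul_one]
    exact hmin m' hm'

end Crest.Agent.R017.FinA266
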