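import Crest.Agent.R017.WPoly_681
import Crest.Agent.R017.Rw6_266
import Crest.Agent.R017.XiI1_590

/-!
# Row 17, section A: the table of the weights of `rowA` (helper681)

* `GG_shift` : `GG (π⁶ hS) = ψ(j)⁶ γ(j⁶) GG hS` if `N ∣ hS (π - j)`
* `exists_xiA` : the primitive character `ξ` inducing `ψ(·)⁶ γ(·⁶)`
* `GG_per` : `GG (p⁶ hS) = ξ(p) GG hS` if `p^r ∣ hS`, `p^r ∥ N`
* `tab_wK` : the table of `wK`
-/

set_option autoImplicit false

noncomputable section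

open Complex
open scoped ComplexConjugate

namespace Crest.Agent.R017.Glue681

open Crest.Agent.R012 Crest.Agent.R012.Eis Crest.Agent.R012.Gauss880 Crest.Agent.R017.Loc266
open Crest.Agent.R017.Sx440 Crest.Agent.R017.Kub664 Crest.Agent.R017.Tw266
open Crest.Agent.R017.Orth681 Crest.Agent.R017.Rw266 Crest.Agent.R017.Xn590
open Crest.Agent.R012.Parseval499

variable {N : Eis}

/-! ### The shift -/

lemma rho2_pow6 {a c : Eis} (ha : Od a) (hc : Od c) : rho2 (a ^ 6) c = 1 := by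
  have h2 : Od (a ^ 3) := by
    have : a ^ 3 = a * (a * a) := by ring
    rw [this]
    exact ha.mul (ha.mul ha)
  have h3 := rho2_mul_left (a := a ^ 3) (b := a ^ 3) (c := c) h2 h2 hc
  rw [rho2_sq] at h3
  have e : a ^ 3 * a ^ 3 = a ^ 6 := by ring
  rwa [e] at h3

lemma od_pow {a : Eis} (ha : Od a) (n : ℕ) : Od (a ^ n) := by
  induction n with
  | zero => rw [pow_zero]; exact od_one
  | succ n ih => rw [pow_succ]; exact ih.mul ha

open Classical in
lemma GG_shift (hN : Lev N) {x : Eis} {ψ γ : Eis → ℂ} (hψ : IsCh N ψ) (hγ : Gm N γ) {hS π j : Eis}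
    (D : Ss N hS) (P : Ss N π) (hj : Gd j) (hjN : IsCoprime j N) (hd : N ∣ hS * (π - j)) :
    GG N x (fun c => ψ c * γ c) (π ^ 6 * hS) 1 =
      ψ j ^ 6 * γ (j ^ 6) * GG N x (fun c => ψ c * γ c) hS 1 := by
  have D6 : Ss N (π ^ 6 * hS) := (P.pow 6).mul D
  have Dd : Dec N (π ^ 6 * hS) 1 := D6.dec
  have hj6 : Gd (j ^ 6) := hj.pow 6
  have hj6N : IsCoprime (j ^ 6) N := hjN.pow_left
  set H : Eis → ℂ := fun c => if Gd c ∧ IsCoprime c N then
    (ψ c * γ c) * etaH (π ^ 6 * hS) 1 c * ea N x (-(π ^ 6 * hS * 1) * ivN N c) else 0 with hH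
  have hPH : PMod N H := by
    intro c t
    have hd : N ∣ (c + N * t) - c := ⟨t, by ring⟩
    have h72 := hN.d72.trans hd
    have e1 : (Gd (c + N * t) ∧ IsCoprime (c + N * t) N) ↔ (Gd c ∧ IsCoprime c N) :=
      and_congr (gd_congr h72) (cop_congr hd)
    simp only [hH]
    by_cases hc : Gd c ∧ IsCoprime c N
    · have hc' := e1.mpr hc
      rw [if_pos hc, if_pos hc', hψ.per, hγ.per, etaH_congr hN Dd hc'.1 hc.1 hd]
      congr 1
      apply ea_congr_right hN.ne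
      have h3 := ivN_congr hc'.2 hd
      have : -(π ^ 6 * hS * 1) * ivN N (c + N * t) - -(π ^ 6 * hS * 1) * ivN N c =
        (ivN N (c + N * t) - ivN N c) * (-(π ^ 6 * hS * 1)) := by ring
      rw [this]; exact h3.mul_right _
    · rw [if_neg hc, if_neg (fun h => hc (e1.mp h))]
  have hGG : GG N x (fun c => ψ c * γ c) (π ^ 6 * hS) 1 = sumMod N H := rfl
  rw [hGG, ← sumMod_mul_coprime hN.ne hPH hj6N]
  unfold Rw266.GG
  rw [← sumMod_mul_left hN.ne]
  refine sumMod_congr fun c => ?_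
  simp only [hH]
  have e1 : (Gd (j ^ 6 * c) ∧ IsCoprime (j ^ 6 * c) N) ↔ (Gd c ∧ IsCoprime c N) := by
    refine and_congr (gd_mul_iff hj6) ?_
    exact ⟨fun h => h.of_mul_left_right, fun h => hj6N.mul_left h⟩
  by_cases hc : Gd c ∧ IsCoprime c N
  · rw [if_pos hc, if_pos (e1.mpr hc)]
    have f1 : ψ (j ^ 6 * c) = ψ j ^ 6 * ψ c := by
      rw [hψ.mul]
      congr 1
      simp only [pow_succ, pow_zero, one_mul, hψ.mul]
    have f2 : γ (j ^ 6 * c) = γ (j ^ 6) * γ c := by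
      rw [hγ.mul _ _ hj6.2 hc.1.2, rho2_pow6 hj.2 hc.1.2, mul_one]
    have f3 : etaH (π ^ 6 * hS) 1 (j ^ 6 * c) = etaH hS 1 c := by
      unfold etaH
      rw [rho2_one_left _ (e1.mpr hc).1.2, rho2_one_left _ hc.1.2, mul_one, mul_one]
      have g1 : sy6 (-(π ^ 6 * hS)) (j ^ 6 * c) =
          sy6 (-(π ^ 6 * hS)) (j ^ 6) * sy6 (-(π ^ 6 * hS)) c :=
        sy6_mul_right _ hj6.ne hc.1.ne
      have g2 : sy6 (-(π ^ 6 * hS)) (j ^ 6) = 1 := by
        rw [sy6_pow_right _ hj.ne, sy6_pow_six hj.1 hj.2 (D6.neg.cop hjN)]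
      have g3 : sy6 (-(π ^ 6 * hS)) c = sy6 (π ^ 6) c * sy6 (-hS) c := by
        rw [← sy6_mul_left hc.1.1 hc.1.2]
        congr 1
        ring
      have g4 : sy6 (π ^ 6) c = 1 := by
        have h6 := sy6_pow_six hc.1.1 hc.1.2 (P.cop hc.2)
        have e6 : sy6 (π ^ 6) c = sy6 π c ^ 6 := by
          simp only [pow_succ, pow_zero, one_mul, sy6_mul_left hc.1.1 hc.1.2]
        rw [e6, h6]
      rw [g1, g2, g3, g4, one_mul, one_mul]
    have f4 : ea N x (-(π ^ 6 * hS * 1) * ivN N (j ^ 6 * c)) = ea N x (-(hS * 1) * ivN N c) := by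
      apply ea_congr_right hN.ne
      obtain ⟨v, hv⟩ := ivN_mul hj6N hc.2
      obtain ⟨t, ht⟩ := (ivN_spec hj6N).2
      obtain ⟨z, hz⟩ := hd
      have h6 : π ^ 6 - j ^ 6 = (π - j) * (π ^ 5 + π ^ 4 * j + π ^ 3 * j ^ 2 + π ^ 2 * j ^ 3 +
        π * j ^ 4 + j ^ 5) := by ring
      refine ⟨-(π ^ 6 * hS) * v - hS * ivN N c * t - ivN N (j ^ 6) * ivN N c * z *
        (π ^ 5 + π ^ 4 * j + π ^ 3 * j ^ 2 + π ^ 2 * j ^ 3 + π * j ^ 4 + j ^ 5), ?_⟩
      linear_combination (-(π ^ 6 * hS)) * hv - (hS * ivN N c) * ht -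
        (ivN N (j ^ 6) * ivN N c * (π ^ 5 + π ^ 4 * j + π ^ 3 * j ^ 2 + π ^ 2 * j ^ 3 +
          π * j ^ 4 + j ^ 5)) * hz
    rw [f1, f2, f3, f4]
    ring
  · rw [if_neg hc, if_neg (fun h => hc (e1.mp h)), mul_zero]

/-! ### The primitive character -/

open Classical in
/-- `ψ(a)⁶ γ(a⁶)`. -/
def ch6 (N : Eis) (ψ γ : Eis → ℂ) (a : Eis) : ℂ := if IsCoprime a N then xiA ψ γ a else 0

lemma od_of_cop (hN : Lev N) {c : Eis} (hc : IsCoprime c N) : Od c := by
  intro h'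
  have h2N : (2 : Eis) ∣ N := two_dvd_72.trans hN.d72
  have h4 : IsCoprime (2 : Eis) 2 := IsCoprime.of_isCoprime_of_dvd_left
    (IsCoprime.of_isCoprime_of_dvd_right hc h2N) h'
  exact prime_two.not_isUnit (isCoprime_self.mp h4)

lemma ch6_isCh (hN : Lev N) {ψ γ : Eis → ℂ} (hψ : IsCh N ψ) (hγ : Gm N γ) :
    IsCh N (ch6 N ψ γ) where
  one := by
    unfold ch6 xiA
    rw [if_pos isCoprime_one_left, hψ.one, one_pow, one_pow, hγ.one, one_mul]
  mul a b := by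
    unfold ch6
    by_cases ha : IsCoprime a N
    · by_cases hb : IsCoprime b N
      · rw [if_pos (ha.mul_left hb), if_pos ha, if_pos hb]
        unfold xiA
        have oa := od_of_cop hN ha
        have ob := od_of_cop hN hb
        rw [hψ.mul, mul_pow a b, hγ.mul _ _ (od_pow oa 6) (od_pow ob 6),
          rho2_pow6 oa (od_pow ob 6)]
        ring
      · rw [if_neg (fun h => hb h.of_mul_left_right), if_neg hb, mul_zero]
    · rw [if_neg (fun h => ha h.of_mul_left_left), if_neg ha, zero_mul]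
  per a t := by
    unfold ch6
    have hd : N ∣ (a + N * t) - a := ⟨t, by ring⟩
    by_cases ha : IsCoprime a N
    · rw [if_pos ha, if_pos ((cop_congr hd).mpr ha)]
      unfold xiA
      rw [hψ.per]
      congr 1
      refine hγ.per.congr ?_
      obtain ⟨z, hz⟩ := hd
      have h6 : (a + N * t) ^ 6 - a ^ 6 = ((a + N * t) - a) * ((a + N * t) ^ 5 +
        (a + N * t) ^ 4 * a + (a + N * t) ^ 3 * a ^ 2 + (a + N * t) ^ 2 * a ^ 3 +
        (a + N * t) * a ^ 4 + a ^ 5) := by ring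
      rw [h6, hz]
      exact (dvd_mul_right _ _).mul_right _
    · rw [if_neg ha, if_neg (fun h => ha ((cop_congr hd).mp h))]
  zero a ha := by
    unfold ch6
    rw [if_neg ha]

lemma ch6_unit {ψ γ : Eis → ℂ} (hψ : IsCh N ψ) (hγ : Gm N γ) (u : Eis)
    (hu : IsUnit u) : ch6 N ψ γ u = 1 := by
  unfold ch6 xiA
  have h6 := unit6 hu
  have e : ψ u ^ 6 = ψ (u ^ 6) := by
    simp only [pow_succ, pow_zero, one_mul, hψ.mul]
  rw [if_pos (isCoprime_of_isUnit hu N), e, h6, hψ.one, hγ.one, one_mul]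

/-- **the primitive character** inducing `ψ(·)⁶ γ(·⁶)`. -/
theorem exists_xiA (hN : Lev N) {ψ γ : Eis → ℂ} (hψ : IsCh N ψ) (hγ : Gm N γ) :
    ∃ (m : Eis) (ξ : Eis → ℂ) (c : ℂ), m ∣ N ∧ m ≠ 0 ∧ IsCh m ξ ∧ Prp m ξ ∧
      XiP ξ (toC sq3 * toC m) c ∧ ‖c‖ ^ 2 * (3 * nm m) = 4 ∧ (∀ u, IsUnit u → ξ u = 1) ∧
      ∀ a, IsCoprime a N → ξ a = xiA ψ γ a := by
  obtain ⟨m, ξ, hmN, hm, h1, h2, h3⟩ := XiI590.exists_prim hN.ne (ch6_isCh hN hψ hγ)
  have hu : ∀ u, IsUnit u → ξ u = 1 := fun u hu => by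
    rw [h3 u (isCoprime_of_isUnit hu N), ch6_unit hψ hγ u hu]
  have hD : Xi499.XiD ξ m (gl ξ 1 m) :=
    { m0 := hm
      mul := h1.mul
      unit := hu
      per := h1.per
      norm_le := fun a => h1.norm_le_one hm a
      gauss := fun k => gl_prim hm h1 h2 k
      abs := norm_gl_sq hm h1 h2 }
  refine ⟨m, ξ, _, hmN, hm, h1, h2.prp, xiP_of_D hD, ?_, hu, fun a ha => ?_⟩
  · rw [norm_mul, mul_pow, hD.abs, Complex.norm_real, Real.norm_eq_abs, sq_abs, div_pow, mul_pow,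
      Real.sq_sqrt (by norm_num)]
    have h4 : (nm m : ℝ) ≠ 0 := by exact_mod_cast (nm_pos.mpr hm).ne'
    field_simp
    norm_num
  · rw [h3 a ha]
    unfold ch6
    rw [if_pos ha]

/-! ### Periodicity of the local sums -/

/-- the inducing primitive character. -/
structure XiN (N : Eis) (ψ γ : Eis → ℂ) (m : Eis) (ξ : Eis → ℂ) : Prop where
  mN : m ∣ N
  m0 : m ≠ 0
  ch : IsCh m ξ
  prp : Prp m ξ
  u : ∀ u, IsUnit u → ξ u = 1
  eq : ∀ a, IsCoprime a N → ξ a = xiA ψ γ a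

lemma lam_not_dvd_cop (hN : Lev N) {c : Eis} (hc : IsCoprime c N) : ¬ lam ∣ c := by
  intro h'
  have h4 : IsCoprime lam lam := IsCoprime.of_isCoprime_of_dvd_left
    (IsCoprime.of_isCoprime_of_dvd_right hc (lam_dvd hN)) h'
  exact prime_lam.not_isUnit (isCoprime_self.mp h4)

lemma ss_unit {u : Eis} (hu : IsUnit u) : Ss N u :=
  ⟨hu.ne_zero, fun p hp hd => absurd (isUnit_of_dvd_unit hd hu) hp.not_isUnit⟩

/-- if `ξ` is ramified at `p` the sum vanishes. -/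
lemma GG_ram (hN : Lev N) {x : Eis} {ψ γ : Eis → ℂ} (hψ : IsCh N ψ) (hγ : Gm N γ) {m : Eis}
    {ξ : Eis → ℂ} (X : XiN N ψ γ m ξ) {p : Eis} (hp : Prime p) {r : ℕ} {N' : Eis}
    (hNp : N = p ^ r * N') (hcop : IsCoprime p N') {hS : Eis} (D : Ss N hS) (hd : p ^ r ∣ hS)
    (hpm : p ∣ m) : GG N x (fun c => ψ c * γ c) hS 1 = 0 := by
  obtain ⟨u, hu, hud, hu1⟩ := X.prp p hp hpm
  obtain ⟨j0, hj1, hj2⟩ := crt_pm (hcop.pow_left (m := r)) u 1
  have hup : IsCoprime u p := IsCoprime.of_isCoprime_of_dvd_right hu hpm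
  have c1 : IsCoprime j0 (p ^ r) := cop_of_congr hj1 hup.pow_right
  have c2 : IsCoprime j0 N' := cop_of_congr hj2 isCoprime_one_left
  have c3 : IsCoprime j0 N := by rw [hNp]; exact c1.mul_right c2
  have hmd : m ∣ j0 - u := by
    obtain ⟨m1, m2, h1, h2, hm⟩ := exists_dvd_and_dvd_of_dvd_mul (hNp ▸ X.mN)
    have d1 : m1 ∣ j0 - u := h1.trans hj1
    have cm : IsCoprime m2 p := IsCoprime.of_isCoprime_of_dvd_left hcop.symm h2
    have d3 : m2 ∣ u - 1 := by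
      have : m2 ∣ (u - 1) * p := (Dvd.intro_left m1 hm.symm).trans hud
      exact cm.dvd_of_dvd_mul_right this
    have d2 : m2 ∣ j0 - u := by
      have := dvd_sub (h2.trans hj2) d3
      rwa [sub_sub_sub_cancel_right] at this
    have c12 : IsCoprime m1 m2 :=
      (IsCoprime.of_isCoprime_of_dvd_right (hcop.pow_left (m := r)) h2).of_isCoprime_of_dvd_left h1
    rw [hm]
    exact c12.mul_dvd d1 d2
  have hξj : ξ j0 ≠ 1 := by rwa [X.ch.per.congr hmd]
  obtain ⟨e, he⟩ := exists_unit_mul_isPrim (lam_not_dvd_cop hN c3)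
  have hjN : IsCoprime ((e : Eis) * j0) N := (isCoprime_of_isUnit e.isUnit N).mul_left c3
  have hj : Gd ((e : Eis) * j0) := ⟨he, od_of_cop hN hjN⟩
  have hdv : N ∣ hS * ((e : Eis) - (e : Eis) * j0) := by
    have e1 : hS * ((e : Eis) - (e : Eis) * j0) = -(e : Eis) * (hS * (j0 - 1)) := by ring
    rw [e1]
    refine Dvd.dvd.mul_left ?_ _
    rw [hNp]
    exact mul_dvd_mul hd hj2
  have key := GG_shift hN (x := x) hψ hγ D (ss_unit e.isUnit) hj hjN hdv
  rw [unit6 e.isUnit, one_mul] at key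
  have h1 : ψ ((e : Eis) * j0) ^ 6 * γ (((e : Eis) * j0) ^ 6) = ξ j0 := by
    have := X.eq _ hjN
    unfold xiA at this
    rw [← this, X.ch.mul, X.u _ e.isUnit, one_mul]
  rw [h1] at key
  have h2 : (1 - ξ j0) * GG N x (fun c => ψ c * γ c) hS 1 = 0 := by linear_combination key
  exact (mul_eq_zero.mp h2).resolve_left (sub_ne_zero.mpr hξj.symm)

/-- **Periodicity**: `GG (p⁶ hS) = ξ(p) GG hS`. -/
theorem GG_per (hN : Lev N) {x : Eis} {ψ γ : Eis → ℂ} (hψ : IsCh N ψ) (hγ : Gm N γ) {m : Eis}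
    {ξ : Eis → ℂ} (X : XiN N ψ γ m ξ) {p : Eis} (hp : Prime p) {r : ℕ} {N' : Eis}
    (hNp : N = p ^ r * N') (hcop : IsCoprime p N') (hpN : p ∣ N) {hS : Eis} (D : Ss N hS)
    (hd : p ^ r ∣ hS) :
    GG N x (fun c => ψ c * γ c) (p ^ 6 * hS) 1 = ξ p * GG N x (fun c => ψ c * γ c) hS 1 := by
  have Dp : Ss N p := ⟨hp.ne_zero, fun q hq hqp => ((hq.associated_of_dvd hp hqp).dvd).trans hpN⟩
  by_cases hpm : p ∣ m
  · rw [GG_ram hN hψ hγ X hp hNp hcop D hd hpm,
      GG_ram hN hψ hγ X hp hNp hcop ((Dp.pow 6).mul D) (hd.mul_left _) hpm, mul_zero]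
  · obtain ⟨j0, hj1, hj2⟩ := crt_pm (hcop.pow_left (m := r)) 1 p
    have c1 : IsCoprime j0 (p ^ r) := cop_of_congr hj1 isCoprime_one_left
    have c2 : IsCoprime j0 N' := cop_of_congr hj2 hcop
    have c3 : IsCoprime j0 N := by rw [hNp]; exact c1.mul_right c2
    have cm : IsCoprime m p := ((hp.irreducible.coprime_iff_not_dvd).mpr hpm).symm
    have hmN' : m ∣ N' := by
      have := hNp ▸ X.mN
      exact (cm.pow_right (n := r)).dvd_of_dvd_mul_left this
    have hξj : ξ j0 = ξ p := X.ch.per.congr (hmN'.trans hj2)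
    obtain ⟨e, he⟩ := exists_unit_mul_isPrim (lam_not_dvd_cop hN c3)
    have hjN : IsCoprime ((e : Eis) * j0) N := (isCoprime_of_isUnit e.isUnit N).mul_left c3
    have hj : Gd ((e : Eis) * j0) := ⟨he, od_of_cop hN hjN⟩
    have hdv : N ∣ hS * ((e : Eis) * p - (e : Eis) * j0) := by
      have e1 : hS * ((e : Eis) * p - (e : Eis) * j0) = -(e : Eis) * (hS * (j0 - p)) := by ring
      rw [e1]
      refine Dvd.dvd.mul_left ?_ _
      rw [hNp]
      exact mul_dvd_mul hd hj2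
    have key := GG_shift hN (x := x) hψ hγ D ((ss_unit e.isUnit).mul Dp) hj hjN hdv
    have h1 : ψ ((e : Eis) * j0) ^ 6 * γ (((e : Eis) * j0) ^ 6) = ξ p := by
      have := X.eq _ hjN
      unfold xiA at this
      rw [← this, X.ch.mul, X.u _ e.isUnit, one_mul, hξj]
    rw [h1, mul_pow, unit6 e.isUnit, one_mul] at key
    exact key

theorem WS_per (hN : Lev N) {x : Eis} {s : ℂ} {ψ γ : Eis → ℂ} (hψ : IsCh N ψ) (hγ : Gm N γ)
    {m : Eis} {ξ : Eis → ℂ} (X : XiN N ψ γ m ξ) {p : Eis} (hp : Prime p) {r : ℕ} {N' : Eis}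
    (hNp : N = p ^ r * N') (hcop : IsCoprime p N') (hpN : p ∣ N) {hS : Eis} (D : Ss N hS)
    (hd : p ^ r ∣ hS) :
    WS N x s (fun c => ψ c * γ c) (p ^ 6 * hS) = ξ p * WS N x s (fun c => ψ c * γ c) hS := by
  unfold WS
  rw [GG_per hN hψ hγ X hp hNp hcop hpN D hd, ← mul_neg,
    GG_per hN hψ hγ X hp hNp hcop hpN D.neg ((dvd_neg).mpr hd)]
  ring

/-! ### The table of `wK` -/

/-- the local values. -/
def Vt (N x : Eis) (s w0 : ℂ) (ψ γ : Eis → ℂ) (R0 : Eis) (c : Fin 3) (a b : ℕ) : ℂ :=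
  (w0 * covol (toC N))⁻¹ * WS N x s (fun c => ψ c * γ c) (R0 * e3 c a b)

/-- the table of class `k`. -/
def tK (N x : Eis) (s w0 : ℂ) (ψ γ : Eis → ℂ) (R0 : Eis) (k : K3) (c : Fin 3) (a b : ℕ) : ℂ :=
  if (((c : ℕ) : ZMod 3), (a : ZMod 3), (b : ZMod 3)) = k then Vt N x s w0 ψ γ R0 c a b else 0

lemma mon_e3 (c : Fin 3) (a b : ℕ) : mon 2 lam c a b = e3 c a b := by
  unfold mon e3
  ring

lemma WS_neg {x : Eis} {s : ℂ} (hs : s = 1 ∨ s = -1) (g : Eis → ℂ) (hS : Eis) :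
    WS N x s g (-hS) = s * WS N x s g hS := by
  have hss : s * s = 1 := by rcases hs with h | h <;> rw [h] <;> ring
  unfold WS
  rw [neg_neg]
  linear_combination (-(GG N x g (-hS) 1) / 2) * hss

/-- `R0` prime to `6`, with primes dividing `N`. -/
structure RR (N R0 : Eis) : Prop where
  ss : Ss N R0
  n2 : ¬ (2 : Eis) ∣ R0
  nl : ¬ lam ∣ R0

lemma RR.ts {R0 : Eis} (R : RR N R0) : TS 2 lam R0 where
  h1 := prime_two
  h2 := prime_lam
  h12 := fun h => not_two_dvd_lam h.dvd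
  he := R.ss.ne
  he1 := R.n2
  he2 := R.nl

lemma isE3_par {R0 hS : Eis} {p : ℕ × ℕ × ℕ} (h : IsE3 R0 hS p) : IsE3 R0 (-hS) p := by
  rcases h with h | h
  · right; rw [h]
  · left; rw [h, neg_neg]

lemma cl3_neg {R0 : Eis} (hR : R0 ≠ 0) (hS : Eis) : cl3 R0 (-hS) = cl3 R0 hS := by
  by_cases h : ∃ p, IsE3 R0 hS p
  · obtain ⟨p, hp⟩ := h
    rw [cl3_of hR hp, cl3_of hR (isE3_par hp)]
  · have h' : ¬ ∃ p, IsE3 R0 (-hS) p := by
      rintro ⟨p, hp⟩
      have := isE3_par hp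
      rw [neg_neg] at this
      exact h ⟨p, this⟩
    unfold cl3
    rw [dif_neg h, dif_neg h']

lemma sd_neg {h : Eis} (hd : SD N h) : SD N (-h) ∧ sp N (-h) = -sp N h ∧ jp N (-h) = jp N h := by
  obtain ⟨h1, D⟩ := sp_spec hd
  have D' : Dec N (-sp N h) (jp N h) := D.neg
  have e : -h = -sp N h * jp N h ^ 6 := by
    conv_lhs => rw [h1]
    ring
  have h2 := sp_eq D'
  rw [← e] at h2
  exact ⟨⟨(-sp N h, jp N h), e, D'⟩, h2.1, h2.2⟩

lemma w_pow_mod3 (n : ℕ) : w ^ ((⟨n % 3, Nat.mod_lt n (by norm_num)⟩ : Fin 3) : ℕ) = w ^ n := by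
  rw [w_pow_mod n]

/-- primes dividing `6`. -/
lemma prime_six {p : Eis} (hp : Prime p) (h2 : ¬ (2 : Eis) ∣ p) (hl : ¬ lam ∣ p) :
    ¬ p ∣ 2 ∧ ¬ p ∣ lam := by
  constructor
  · intro h
    exact h2 ((hp.associated_of_dvd prime_two h).symm.dvd)
  · intro h
    exact hl ((hp.associated_of_dvd prime_lam h).symm.dvd)

theorem tab_wK (hN : Lev N) {x : Eis} {s : ℂ} (hs : s = 1 ∨ s = -1) {ψ γ : Eis → ℂ}
    {m : Eis} {ξ : Eis → ℂ} (X : XiN N ψ γ m ξ) {R0 : Eis}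
    (R : RR N R0) (hpure : ∀ p, Prime p → p ∣ N → ¬ (2 : Eis) ∣ p → ¬ lam ∣ p → ξ p = 0) {w0 : ℂ}
    (hw0 : w0 ≠ 0) (k : K3) :
    Tab 2 lam R0 s w0 ξ (tK N x s w0 ψ γ R0 k)
      (fun h => (covol (toC N) : ℂ)⁻¹ * wK N x s ψ γ (cl3 R0) k h) where
  par h hh := by
    classical
    have key : wK N x s ψ γ (cl3 R0) k (-h) = s * wK N x s ψ γ (cl3 R0) k h := by
      by_cases hd : SD N h
      · obtain ⟨hd', e1, e2⟩ := sd_neg hd
        unfold wK WfG
        rw [e1, e2, cl3_neg R.ss.ne, if_pos hd, if_pos hd', WS_neg hs]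
        split_ifs
        · ring
        · ring
      · have hd' : ¬ SD N (-h) := by
          intro h'
          have := (sd_neg h').1
          rw [neg_neg] at this
          exact hd this
        rw [wK_zero hd, wK_zero hd', mul_zero]
    rw [key]
    ring
  val c a b j hj hj2 hjl := by
    classical
    have hcv : (covol (toC N) : ℂ) ≠ 0 := by
      exact_mod_cast (covol_pos (by rw [Ne, toC_eq_zero]; exact hN.ne)).ne'
    obtain ⟨e, he⟩ := exists_unit_mul_isPrim hjl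
    have hod : Od ((e : Eis) * j) := by
      intro h
      exact hj2 ((e.isUnit.dvd_mul_left).mp h)
    have hgd : Gd ((e : Eis) * j) := ⟨he, hod⟩
    have hj6 : ((e : Eis) * j) ^ 6 = j ^ 6 := by rw [mul_pow, unit6 e.isUnit, one_mul]
    have hxi : ξ ((e : Eis) * j) = ξ j := by rw [X.ch.mul, X.u _ e.isUnit, one_mul]
    have hPL : F1.PL ((e : Eis) * j) = F1.PL j := PL_unit_mul e.isUnit hj
    have hmon : mon 2 lam c a b * (R0 * j ^ 6) = (R0 * e3 c a b) * ((e : Eis) * j) ^ 6 := by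
      rw [hj6, mon_e3]; ring
    rw [hmon]
    set j' : Eis := (e : Eis) * j with hj'
    by_cases hcop : IsCoprime j' N
    · have D : Dec N (R0 * e3 c a b) j' :=
        ⟨mul_ne_zero R.ss.ne (e3_ne _ _ _), (R.ss.mul (ss_e3 hN _ _ _)).pr, hgd, hcop⟩
      rw [wK_eq D, cl3_eq R.ss.ne]
      unfold tK Vt
      by_cases hk : (((c : ℕ) : ZMod 3), (a : ZMod 3), (b : ZMod 3)) = k
      · rw [if_pos hk, if_pos (by rw [hk]), ← X.eq _ hcop, hxi, hPL]
        field_simp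
      · rw [if_neg hk, if_neg (fun h => hk (Option.some.inj h)), mul_zero, zero_mul, mul_zero]
    · -- a pure prime divides `j'`
      have hj'0 : j' ≠ 0 := hgd.ne
      obtain ⟨p, hp, hpj, hpN⟩ : ∃ p, Prime p ∧ p ∣ j' ∧ p ∣ N := by
        by_contra hcon
        push Not at hcon
        exact hcop (isCoprime_of_prime_dvd (fun h => hj'0 h.1) fun q hq h1 h2 => hcon q hq h1 h2)
      have h2p : ¬ (2 : Eis) ∣ p := fun h => hod (h.trans hpj)
      have hlp : ¬ lam ∣ p := fun h => hgd.1.not_lam_dvd (h.trans hpj)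
      have hξ0 : ξ j' = 0 := by
        obtain ⟨t, ht⟩ := hpj
        rw [ht, X.ch.mul, hpure p hp hpN h2p hlp, zero_mul]
      rw [← hxi, ← hPL, hξ0, zero_mul, mul_zero, mul_zero]
      have hz : wK N x s ψ γ (cl3 R0) k (R0 * e3 c a b * j' ^ 6) = 0 := by
        by_contra hne
        have hd : SD N (R0 * e3 c a b * j' ^ 6) := by
          by_contra hd
          exact hne (wK_zero hd k)
        obtain ⟨h1, D⟩ := sp_spec hd
        have hcl : cl3 R0 (sp N (R0 * e3 c a b * j' ^ 6)) = some k := by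
          by_contra hcl
          apply hne
          unfold wK
          rw [if_neg hcl]
        obtain ⟨q, hq, -⟩ := cl3_some hcl
        set J := jp N (R0 * e3 c a b * j' ^ 6) with hJ
        have h3 : ∃ σ : Eis, IsUnit σ ∧ e3 c a b * j' ^ 6 = σ * (e3 q.1 q.2.1 q.2.2 * J ^ 6) := by
          rcases hq with hq | hq
          · refine ⟨1, isUnit_one, mul_left_cancel₀ R.ss.ne ?_⟩
            rw [← mul_assoc]
            conv_lhs => rw [h1, hq]
            ring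
          · refine ⟨-1, isUnit_one.neg, mul_left_cancel₀ R.ss.ne ?_⟩
            rw [← mul_assoc]
            conv_lhs => rw [h1, hq]
            ring
        obtain ⟨σ, hσ, h4⟩ := h3
        obtain ⟨p2, pl⟩ := prime_six hp h2p hlp
        have h5 : p ∣ σ * (e3 q.1 q.2.1 q.2.2 * J ^ 6) := by
          rw [← h4]
          exact (hpj.pow (by norm_num)).mul_left _
        have hu1 : ∀ {u : Eis}, IsUnit u → ¬ p ∣ u := fun hu h => hp.not_isUnit (isUnit_of_dvd_unit h hu)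
        rcases hp.dvd_or_dvd h5 with h | h
        · exact hu1 hσ h
        rcases hp.dvd_or_dvd h with h | h
        · unfold e3 at h
          rcases hp.dvd_or_dvd h with h | h
          · rcases hp.dvd_or_dvd h with h | h
            · exact hu1 (isUnit_w.pow _) h
            · exact p2 (hp.dvd_of_dvd_pow h)
          · exact pl (hp.dvd_of_dvd_pow h)
        · have h6 := hp.dvd_of_dvd_pow h
          have h7 : IsCoprime p p := IsCoprime.of_isCoprime_of_dvd_left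
            (IsCoprime.of_isCoprime_of_dvd_right D.cop hpN) h6
          exact hp.not_isUnit (isCoprime_self.mp h7)
      rw [hz, mul_zero]
  supp h hh hne := by
    classical
    have hne' : wK N x s ψ γ (cl3 R0) k h ≠ 0 := right_ne_zero_of_mul hne
    have hd : SD N h := by
      by_contra hd
      exact hne' (wK_zero hd k)
    obtain ⟨h1, D⟩ := sp_spec hd
    have hcl : cl3 R0 (sp N h) = some k := by
      by_contra hcl
      apply hne'
      unfold wK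
      rw [if_neg hcl]
    obtain ⟨q, hq, -⟩ := cl3_some hcl
    have hmon : mon 2 lam ⟨q.1 % 3, Nat.mod_lt _ (by norm_num)⟩ q.2.1 q.2.2 =
        e3 q.1 q.2.1 q.2.2 := by
      unfold mon e3
      rw [w_pow_mod3]
      ring
    refine ⟨⟨q.1 % 3, Nat.mod_lt _ (by norm_num)⟩, q.2.1, q.2.2, jp N h, D.gd.ne, D.gd.2,
      D.gd.1.not_lam_dvd, ?_⟩
    rw [hmon]
    rcases hq with hq | hq
    · left
      conv_lhs => rw [h1, hq]
      ring
    · right
      conv_lhs => rw [h1, hq]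
      ring

/-! ### Finite support of the polynomial -/

/-- levels at `2` and `λ`. -/
structure Lvl2 (N : Eis) (r2 rl : ℕ) : Prop where
  two : ∃ N', N = 2 ^ r2 * N' ∧ IsCoprime 2 N'
  lam : ∃ N', N = lam ^ rl * N' ∧ IsCoprime lam N'

lemma e3_two (n a b : ℕ) : e3 n (a + 6) b = 2 ^ 6 * e3 n a b := by
  unfold e3; rw [pow_add]; ring

lemma e3_lam (n a b : ℕ) : e3 n a (b + 6) = lam ^ 6 * e3 n a b := by
  unfold e3; rw [pow_add]; ring

theorem Vt_two (hN : Lev N) {x : Eis} {s : ℂ} {ψ γ : Eis → ℂ} (hψ : IsCh N ψ) (hγ : Gm N γ)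
    {m : Eis} {ξ : Eis → ℂ} (X : XiN N ψ γ m ξ) {R0 : Eis} (R : RR N R0) {w0 : ℂ} {r2 rl : ℕ}
    (L : Lvl2 N r2 rl) (c : Fin 3) {a : ℕ} (ha : r2 ≤ a) (b : ℕ) :
    Vt N x s w0 ψ γ R0 c (a + 6) b = ξ 2 * Vt N x s w0 ψ γ R0 c a b := by
  obtain ⟨N', h1, h2⟩ := L.two
  have hd : (2 : Eis) ^ r2 ∣ R0 * e3 c a b := by
    unfold e3
    exact ((((pow_dvd_pow 2 ha).mul_left _).mul_right _).mul_left _)
  have key := WS_per hN (x := x) (s := s) hψ hγ X prime_two h1 h2 (two_dvd_72.trans hN.d72)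
    (R.ss.mul (ss_e3 hN c a b)) hd
  unfold Vt
  have e : R0 * e3 c (a + 6) b = 2 ^ 6 * (R0 * e3 c a b) := by rw [e3_two]; ring
  rw [e, key]
  ring

theorem Vt_lam (hN : Lev N) {x : Eis} {s : ℂ} {ψ γ : Eis → ℂ} (hψ : IsCh N ψ) (hγ : Gm N γ)
    {m : Eis} {ξ : Eis → ℂ} (X : XiN N ψ γ m ξ) {R0 : Eis} (R : RR N R0) {w0 : ℂ} {r2 rl : ℕ}
    (L : Lvl2 N r2 rl) (c : Fin 3) (a : ℕ) {b : ℕ} (hb : rl ≤ b) :
    Vt N x s w0 ψ γ R0 c a (b + 6) = ξ lam * Vt N x s w0 ψ γ R0 c a b := by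
  obtain ⟨N', h1, h2⟩ := L.lam
  have hd : lam ^ rl ∣ R0 * e3 c a b := by
    unfold e3
    exact ((pow_dvd_pow lam hb).mul_left _).mul_left _
  have key := WS_per hN (x := x) (s := s) hψ hγ X prime_lam h1 h2 (lam_dvd hN)
    (R.ss.mul (ss_e3 hN c a b)) hd
  unfold Vt
  have e : R0 * e3 c a (b + 6) = lam ^ 6 * (R0 * e3 c a b) := by rw [e3_lam]; ring
  rw [e, key]
  ring

lemma cast6 (a : ℕ) : ((a + 6 : ℕ) : ZMod 3) = (a : ZMod 3) := by
  push_cast
  have : (6 : ZMod 3) = 0 := by decide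
  rw [this, add_zero]

theorem qT_supp (hN : Lev N) {x : Eis} {s : ℂ} {ψ γ : Eis → ℂ} (hψ : IsCh N ψ) (hγ : Gm N γ)
    {m : Eis} {ξ : Eis → ℂ} (X : XiN N ψ γ m ξ) {R0 : Eis} (R : RR N R0) {w0 : ℂ} {r2 rl : ℕ}
    (L : Lvl2 N r2 rl) (k : K3) (c : Fin 3) (a b : ℕ) (h : r2 + 6 ≤ a ∨ rl + 6 ≤ b) :
    qT (ξ 2) (ξ lam) (tK N x s w0 ψ γ R0 k) c a b = 0 := by
  rw [qT_apply]
  rcases h with h | h
  · obtain ⟨a', rfl⟩ := Nat.exists_eq_add_of_le' (show 6 ≤ a by omega)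
    have ha' : r2 ≤ a' := by omega
    have key : ∀ b, tK N x s w0 ψ γ R0 k c (a' + 6) b = ξ 2 * tK N x s w0 ψ γ R0 k c a' b := by
      intro b
      unfold tK
      rw [cast6, Vt_two hN hψ hγ X R L c ha' b]
      split_ifs <;> ring
    have e : a' + 6 - 6 = a' := by omega
    simp only [show 6 ≤ a' + 6 by omega, true_and, if_true, e, key]
    split_ifs <;> ring
  · obtain ⟨b', rfl⟩ := Nat.exists_eq_add_of_le' (show 6 ≤ b by omega)
    have hb' : rl ≤ b' := by omega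
    have key : ∀ a, tK N x s w0 ψ γ R0 k c a (b' + 6) = ξ lam * tK N x s w0 ψ γ R0 k c a b' := by
      intro a
      unfold tK
      rw [cast6, Vt_lam hN hψ hγ X R L c a hb']
      split_ifs <;> ring
    have e : b' + 6 - 6 = b' := by omega
    simp only [show 6 ≤ b' + 6 by omega, and_true, if_true, e, key]
    split_ifs <;> ring

end Crest.Agent.R017.Glue681
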