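import Crest.Agent.R017.Rw5_266
import Crest.Agent.R017.WPolyI_681

/-!
# Row 17, twisted cubic F1, the part `ψ_λ` of high conductor (helper681), 1

Level `N`, `9 p ∣ N` for every prime `p ∣ N`; good `c` : primary, prime to `N`.

* `GCh N θ` : character of the good classes
* `GS N θ y = Σ_{c good} θ(c) e(y c̄ / (√-3 N))`
* `GS_mul`, `GS_zero`, `GS_class`, `GS_norm`, `GS_exists`
-/

set_option autoImplicit false

noncomputable section

open Complex
open scoped ComplexConjugate

namespace Crest.Agent.R017.Hi681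

open Crest.Agent.R012 Crest.Agent.R012.Eis Crest.Agent.R012.Gauss880 Crest.Agent.R017.Loc266
open Crest.Agent.R017.Rw266 (ivN ivN_spec iv_unique ivN_congr ivN_mul ea_congr_right cop_congr
  prim_congr')

variable {N : Eis}

/-- levels -/
structure L3 (N : Eis) : Prop where
  ne : N ≠ 0
  d9 : (9 : Eis) ∣ N
  pr : ∀ p : Eis, Prime p → p ∣ N → 9 * p ∣ N

lemma L3.d3 (h : L3 N) : (3 : Eis) ∣ N := Dvd.dvd.trans ⟨3, by norm_num⟩ h.d9

/-- good elements: primary, prime to `N` -/
def Gp (N c : Eis) : Prop := IsPrim c ∧ IsCoprime c N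

lemma gp_one : Gp N 1 := ⟨isPrim_one, isCoprime_one_left⟩

lemma Gp.ne {c : Eis} (h : Gp N c) : c ≠ 0 := h.1.ne_zero

lemma Gp.mul {a b : Eis} (ha : Gp N a) (hb : Gp N b) : Gp N (a * b) :=
  ⟨ha.1.mul hb.1, ha.2.mul_left hb.2⟩

lemma Gp.pow {a : Eis} (ha : Gp N a) (n : ℕ) : Gp N (a ^ n) := by
  induction n with
  | zero => rw [pow_zero]; exact gp_one
  | succ n ih => rw [pow_succ]; exact ih.mul ha

lemma gp_congr (hN : L3 N) {a b : Eis} (h : N ∣ a - b) : Gp N a ↔ Gp N b := by
  have h3 := hN.d3.trans h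
  have h3' : (3 : Eis) ∣ b - a := by rw [← neg_sub, dvd_neg]; exact h3
  refine and_congr ⟨prim_congr' h3, prim_congr' h3'⟩ (cop_congr h)

lemma gp_mul_iff {a b : Eis} (ha : Gp N a) : Gp N (a * b) ↔ Gp N b := by
  constructor
  · intro h
    exact ⟨Sym645.prim_of_mul_left ha.1 h.1, h.2.of_mul_left_right⟩
  · exact ha.mul

/-- `c z ≡ 1` -/
lemma gp_inv (hN : L3 N) {c z : Eis} (h : N ∣ c * z - 1) : Gp N c ↔ Gp N z := by
  have key : ∀ {c z : Eis}, N ∣ c * z - 1 → Gp N c → Gp N z := by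
    intro c z h hc
    obtain ⟨t, ht⟩ := h
    refine ⟨?_, ⟨c, -t, by linear_combination ht⟩⟩
    obtain ⟨r, hr⟩ := hN.d3
    obtain ⟨s, hs⟩ := hc.1
    refine ⟨r * t - s * z, ?_⟩
    linear_combination ht + t * hr - z * hs
  exact ⟨key h, key (by rwa [mul_comm])⟩

lemma gp_ivN (hN : L3 N) {c : Eis} (hc : Gp N c) : Gp N (ivN N c) :=
  (gp_inv hN (ivN_spec hc.2).2).mp hc

/-- characters of the good classes -/
structure GCh (N : Eis) (θ : Eis → ℂ) : Prop where
  one : θ 1 = 1
  mul : ∀ a b, Gp N a → Gp N b → θ (a * b) = θ a * θ b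
  per : ∀ a b, Gp N a → Gp N b → N ∣ a - b → θ a = θ b
  norm : ∀ a, Gp N a → ‖θ a‖ = 1

variable {θ : Eis → ℂ}

lemma GCh.mul_conj (H : GCh N θ) {a : Eis} (ha : Gp N a) : θ a * conj (θ a) = 1 := by
  rw [Complex.mul_conj, Complex.normSq_eq_norm_sq, H.norm a ha]; simp

lemma GCh.ne (H : GCh N θ) {a : Eis} (ha : Gp N a) : θ a ≠ 0 :=
  left_ne_zero_of_mul_eq_one (H.mul_conj ha)

lemma GCh.pow (H : GCh N θ) {a : Eis} (ha : Gp N a) (n : ℕ) : θ (a ^ n) = θ a ^ n := by
  induction n with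
  | zero => rw [pow_zero, pow_zero, H.one]
  | succ n ih => rw [pow_succ, H.mul _ _ (ha.pow n) ha, ih, pow_succ]

lemma gch_of_isCh (hN : N ≠ 0) (H : IsCh N θ) : GCh N θ where
  one := H.one
  mul a b _ _ := H.mul a b
  per a b _ _ h := H.per.congr h
  norm a ha := H.norm_eq_one hN ha.2

lemma gch_mul {θ' : Eis → ℂ} (H : GCh N θ) (H' : GCh N θ') : GCh N (fun c => θ c * θ' c) where
  one := by rw [H.one, H'.one, mul_one]
  mul a b ha hb := by rw [H.mul a b ha hb, H'.mul a b ha hb]; ring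
  per a b ha hb h := by rw [H.per a b ha hb h, H'.per a b ha hb h]
  norm a ha := by rw [norm_mul, H.norm a ha, H'.norm a ha, mul_one]

lemma gch_conj (H : GCh N θ) : GCh N (fun c => conj (θ c)) where
  one := by rw [H.one, map_one]
  mul a b ha hb := by rw [H.mul a b ha hb, map_mul]
  per a b ha hb h := by rw [H.per a b ha hb h]
  norm a ha := by rw [RCLike.norm_conj, H.norm a ha]

lemma gch_congr {θ' : Eis → ℂ} (H : GCh N θ) (h : ∀ c, Gp N c → θ' c = θ c) : GCh N θ' where
  one := by rw [h 1 gp_one, H.one]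
  mul a b ha hb := by rw [h _ (ha.mul hb), h a ha, h b hb, H.mul a b ha hb]
  per a b ha hb hab := by rw [h a ha, h b hb, H.per a b ha hb hab]
  norm a ha := by rw [h a ha, H.norm a ha]

open Classical in
/-- the sum over good classes -/
def GS (N : Eis) (θ : Eis → ℂ) (y : Eis) : ℂ :=
  sumMod N (fun c => if Gp N c then θ c * ea N y (ivN N c) else 0)

lemma GS_ext {θ' : Eis → ℂ} (h : ∀ c, Gp N c → θ' c = θ c) (y : Eis) : GS N θ' y = GS N θ y := by
  classical
  unfold GS
  refine sumMod_congr fun c => ?_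
  by_cases hc : Gp N c
  · rw [if_pos hc, if_pos hc, h c hc]
  · rw [if_neg hc, if_neg hc]

open Classical in
lemma pmod_GS (hN : L3 N) (H : GCh N θ) (y : Eis) :
    PMod N (fun c => if Gp N c then θ c * ea N y (ivN N c) else 0) := by
  intro c t
  beta_reduce
  have hd : N ∣ (c + N * t) - c := ⟨t, by ring⟩
  by_cases hc : Gp N c
  · have hc' := (gp_congr hN hd).mpr hc
    rw [if_pos hc, if_pos hc', H.per _ _ hc' hc hd]
    congr 1
    exact ea_congr_right hN.ne (ivN_congr hc'.2 hd)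
  · rw [if_neg hc, if_neg (fun h => hc ((gp_congr hN hd).mp h))]

lemma GS_congr (hN : L3 N) {y y' : Eis} (h : N ∣ y - y') : GS N θ y = GS N θ y' := by
  classical
  unfold GS
  refine sumMod_congr fun c => ?_
  rw [ea_congr hN.ne h]

/-- `GS (y g) = θ(g) GS y` -/
theorem GS_mul (hN : L3 N) (H : GCh N θ) (y : Eis) {g : Eis} (hg : Gp N g) :
    GS N θ (y * g) = θ g * GS N θ y := by
  classical
  have h1 := sumMod_mul_coprime hN.ne (pmod_GS hN H (y * g)) hg.2
  unfold GS
  rw [← h1, ← sumMod_mul_left hN.ne]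
  refine sumMod_congr fun c => ?_
  by_cases hc : Gp N c
  · rw [if_pos hc, if_pos (hg.mul hc), H.mul g c hg hc]
    have e : ea N (y * g) (ivN N (g * c)) = ea N y (ivN N c) := by
      rw [← ea_mul]
      apply ea_congr_right hN.ne
      refine iv_unique (c := c) ?_ (ivN_spec hc.2).2
      have := (ivN_spec (hg.mul hc).2).2
      rwa [show c * (g * ivN N (g * c)) = g * c * ivN N (g * c) by ring]
    rw [e]; ring
  · rw [if_neg hc, if_neg (fun h => hc ((gp_mul_iff hg).mp h)), mul_zero]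

/-- ramified at every prime of the level -/
structure Rm (N : Eis) (θ : Eis → ℂ) : Prop where
  ch : GCh N θ
  ram : ∀ p, Prime p → p ∣ N → ∃ u, Gp N u ∧ N ∣ p * (u - 1) ∧ θ u ≠ 1

theorem GS_zero (hN : L3 N) (H : Rm N θ) {y : Eis} (hy : ¬ IsCoprime y N) : GS N θ y = 0 := by
  obtain ⟨p, hp, hpy, hpN⟩ : ∃ p, Prime p ∧ p ∣ y ∧ p ∣ N := by
    by_contra hcon
    push Not at hcon
    exact hy (isCoprime_of_prime_dvd (fun h => hN.ne h.2) fun q hq h1 h2 => hcon q hq h1 h2)
  obtain ⟨u, hu, hud, hu1⟩ := H.ram p hp hpN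
  have h1 : N ∣ y * u - y := by
    have : y * u - y = y * (u - 1) := by ring
    rw [this]
    exact hud.trans (mul_dvd_mul_right hpy _)
  have h2 := GS_mul hN H.ch y hu
  rw [GS_congr hN h1] at h2
  have h3 : (1 - θ u) * GS N θ y = 0 := by linear_combination h2
  exact (mul_eq_zero.mp h3).resolve_left (sub_ne_zero.mpr hu1.symm)

/-! ### the class modulo `3` -/

/-- `N / 3` -/
def N3 (hN : L3 N) : Eis := Classical.choose hN.d3

lemma N3_spec (hN : L3 N) : N = 3 * N3 hN := Classical.choose_spec hN.d3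

lemma three_dvd_N3 (hN : L3 N) : (3 : Eis) ∣ N3 hN := by
  obtain ⟨t, ht⟩ := hN.d9
  refine ⟨t, ?_⟩
  have h1 : (3 : Eis) * N3 hN = 3 * (3 * t) := by rw [← N3_spec hN, ht]; ring
  exact mul_left_cancel₀ three_ne_zero' h1

lemma N_dvd_sq (hN : L3 N) : N ∣ N3 hN * N3 hN := by
  obtain ⟨t, ht⟩ := three_dvd_N3 hN
  exact ⟨t, by conv_lhs => rw [ht]
               conv_rhs => rw [N3_spec hN]
               rw [ht]; ring⟩

lemma gp_N3 (hN : L3 N) (t : Eis) : Gp N (1 + N3 hN * t) := by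
  refine ⟨?_, ?_⟩
  · unfold IsPrim
    rw [show 1 + N3 hN * t - 1 = N3 hN * t by ring]
    exact (three_dvd_N3 hN).mul_right _
  · obtain ⟨r, hr⟩ := N_dvd_sq hN
    exact ⟨1 - N3 hN * t, r * t ^ 2, by linear_combination (-(t ^ 2)) * hr⟩

/-- the class of `y` belongs to `θ` -/
def Kc (hN : L3 N) (θ : Eis → ℂ) (y : Eis) : Prop :=
  ∀ t, ea N (y * (N3 hN * t)) 1 = θ (1 + N3 hN * t)

lemma GS_shift3 (hN : L3 N) (y t : Eis) :
    GS N θ (y * (1 + N3 hN * t)) = ea N (y * (N3 hN * t)) 1 * GS N θ y := by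
  classical
  unfold GS
  rw [← sumMod_mul_left hN.ne]
  refine sumMod_congr fun c => ?_
  by_cases hc : Gp N c
  · rw [if_pos hc, if_pos hc, show y * (1 + N3 hN * t) = y + y * (N3 hN * t) by ring, ea_add_left]
    have e : ea N (y * (N3 hN * t)) (ivN N c) = ea N (y * (N3 hN * t)) 1 := by
      have h1 : (3 : Eis) ∣ ivN N c - 1 := (gp_ivN hN hc).1
      obtain ⟨r, hr⟩ := h1
      have h2 : ivN N c = 1 + 3 * r := by linear_combination hr
      rw [h2, ea_add hN.ne]
      have h3 : ea N (y * (N3 hN * t)) (3 * r) = 1 := by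
        rw [ea_mul]
        refine ea_dvd hN.ne ⟨y * t, ?_⟩ _
        conv_rhs => rw [N3_spec hN]
        ring
      rw [h3, mul_one]
    rw [e]; ring
  · rw [if_neg hc, if_neg hc, mul_zero]

theorem kc_of_ne (hN : L3 N) (H : GCh N θ) {y : Eis} (hy : GS N θ y ≠ 0) : Kc hN θ y := by
  intro t
  have h1 := GS_shift3 (θ := θ) hN y t
  rw [GS_mul hN H y (gp_N3 hN t)] at h1
  exact (mul_right_cancel₀ hy h1).symm

theorem kc_unique (hN : L3 N) {y y' : Eis} (h : Kc hN θ y) (h' : Kc hN θ y') :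
    (3 : Eis) ∣ y - y' := by
  classical
  have h1 : ∀ t, ea N ((y - y') * N3 hN) t = 1 := by
    intro t
    have h2 := (h t).trans (h' t).symm
    have e1 : ∀ z : Eis, ea N (z * (N3 hN * t)) 1 = ea N (z * N3 hN) t := by
      intro z
      rw [show z * (N3 hN * t) = (z * N3 hN) * t by ring, ← ea_mul, mul_one]
    rw [e1, e1] at h2
    have e2 : ea N (y * N3 hN) t = ea N ((y - y') * N3 hN) t * ea N (y' * N3 hN) t := by
      rw [← ea_add_left]
      congr 1; ring
    rw [e2] at h2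
    have h3 := ea_ne_zero N (y' * N3 hN) t
    exact mul_right_cancel₀ h3 (h2.trans (one_mul _).symm)
  have h2 := sumMod_ea hN.ne ((y - y') * N3 hN)
  rw [sumMod_congr (g := fun _ => (1 : ℂ)) h1, sumMod_const hN.ne] at h2
  have hnm : (nm N : ℂ) ≠ 0 := by exact_mod_cast (nm_pos.mpr hN.ne).ne'
  by_cases hd : N ∣ (y - y') * N3 hN
  · obtain ⟨t, ht⟩ := hd
    have hN30 : N3 hN ≠ 0 := by
      intro h0
      apply hN.ne
      rw [N3_spec hN, h0, mul_zero]
    refine ⟨t, mul_right_cancel₀ hN30 ?_⟩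
    rw [ht]
    conv_lhs => rw [N3_spec hN]
    ring
  · rw [if_neg hd, mul_one] at h2
    exact absurd h2 hnm

lemma kc_congr (hN : L3 N) {y y' : Eis} (h : Kc hN θ y) (h3 : (3 : Eis) ∣ y' - y) :
    Kc hN θ y' := by
  intro t
  rw [← h t]
  obtain ⟨r, hr⟩ := h3
  apply ea_congr hN.ne
  refine ⟨r * t, ?_⟩
  conv_rhs => rw [N3_spec hN]
  linear_combination (N3 hN * t) * hr

lemma kc_ext (hN : L3 N) {θ' : Eis → ℂ} {y : Eis} (h : Kc hN θ y)
    (he : ∀ t, θ' (1 + N3 hN * t) = θ (1 + N3 hN * t)) : Kc hN θ' y := fun t => by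
  rw [he]; exact h t

lemma kc_neg (hN : L3 N) {y : Eis} (h : Kc hN θ y) : Kc hN (fun c => conj (θ c)) (-y) := by
  intro t
  beta_reduce
  rw [← h t, star_ea]
  congr 1; ring

/-! ### Parseval -/

open Classical in
/-- number of good classes -/
def cG (N : Eis) : ℂ := sumMod N (fun c => if Gp N c then (1 : ℂ) else 0)

open Classical in
lemma pmod_cG (hN : L3 N) : PMod N (fun c => if Gp N c then (1 : ℂ) else 0) := by
  intro c t
  beta_reduce
  have hd : N ∣ (c + N * t) - c := ⟨t, by ring⟩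
  by_cases hc : Gp N c
  · rw [if_pos hc, if_pos ((gp_congr hN hd).mpr hc)]
  · rw [if_neg hc, if_neg (fun h => hc ((gp_congr hN hd).mp h))]

lemma cG_ne (hN : L3 N) : cG N ≠ 0 := by
  classical
  unfold cG
  have hcrs := isCRS_crs hN.ne
  rw [sumMod_eq_sum hcrs (pmod_cG hN)]
  obtain ⟨r, ⟨hr, hrd⟩, -⟩ := hcrs 1
  have hg : Gp N r := by
    refine (gp_congr hN ?_).mpr gp_one
    rw [← neg_sub, dvd_neg]; exact hrd
  intro h0
  have h1 := congrArg Complex.re h0
  rw [Complex.re_sum, Complex.zero_re] at h1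
  have h2 : ∀ c ∈ crs N, 0 ≤ (if Gp N c then (1 : ℂ) else 0).re := by
    intro c _
    split_ifs <;> simp
  have h3 := (Finset.sum_eq_zero_iff_of_nonneg h2).mp h1 r hr
  rw [if_pos hg] at h3
  simp at h3

theorem parsevalG (hN : L3 N) (H : GCh N θ) :
    sumMod N (fun y => GS N θ y * conj (GS N θ y)) = nm N * cG N := by
  classical
  set f : Eis → ℂ := fun c => if Gp N c then conj (θ c) else 0 with hf
  have hP : PMod N f := by
    intro c t
    have hd : N ∣ (c + N * t) - c := ⟨t, by ring⟩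
    simp only [hf]
    by_cases hc : Gp N c
    · have hc' := (gp_congr hN hd).mpr hc
      rw [if_pos hc, if_pos hc', H.per _ _ hc' hc hd]
    · rw [if_neg hc, if_neg (fun h => hc ((gp_congr hN hd).mp h))]
  have e1 : ∀ y, GS N θ y = gl f y N := by
    intro y
    unfold GS gl
    refine sumMod_inv hN.ne ?_ ?_ ?_
    · intro x hx
      rw [if_neg (fun h => hx h.2)]
    · intro x hx
      simp only [hf]
      rw [if_neg (fun h => hx h.2), zero_mul]
    · intro x z hxz
      simp only [hf]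
      by_cases hx : Gp N x
      · have hz := (gp_inv hN hxz).mp hx
        rw [if_pos hx, if_pos hz]
        have h1 : θ x * θ z = 1 := by
          rw [← H.mul x z hx hz, H.per _ 1 (hx.mul hz) gp_one hxz, H.one]
        have h2 : θ x = conj (θ z) := by
          have := H.mul_conj hz
          calc θ x = θ x * (θ z * conj (θ z)) := by rw [this, mul_one]
            _ = (θ x * θ z) * conj (θ z) := by ring
            _ = conj (θ z) := by rw [h1, one_mul]
        have h3 : ea N y (ivN N x) = ea N y z :=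
          ea_congr_right hN.ne (iv_unique (ivN_spec hx.2).2 hxz)
        rw [h2, h3]
      · rw [if_neg hx, if_neg (fun h => hx ((gp_inv hN hxz).mpr h)), zero_mul]
  simp_rw [e1]
  rw [parseval hN.ne f hP]
  congr 1
  unfold cnt cG
  refine sumMod_congr fun c => ?_
  simp only [hf]
  by_cases hc : Gp N c
  · rw [if_pos hc, if_pos hc, Complex.conj_conj, mul_comm]
    exact H.mul_conj hc
  · rw [if_neg hc, if_neg hc, zero_mul]

lemma pmod_GSn (hN : L3 N) : PMod N (fun y => GS N θ y * conj (GS N θ y)) := by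
  intro y t
  beta_reduce
  rw [GS_congr (θ := θ) hN (show N ∣ y + N * t - y from ⟨t, by ring⟩)]

/-- **the norm** -/
theorem GS_norm (hN : L3 N) (H : Rm N θ) {y : Eis} (hy : GS N θ y ≠ 0) :
    GS N θ y * conj (GS N θ y) = nm N := by
  classical
  have hyN : IsCoprime y N := by
    by_contra h
    exact hy (GS_zero hN H h)
  have h1 := parsevalG hN H.ch
  rw [← sumMod_mul_coprime hN.ne (pmod_GSn hN) hyN] at h1
  have e1 : ∀ g, GS N θ (y * g) * conj (GS N θ (y * g)) =
      (GS N θ y * conj (GS N θ y)) * (if Gp N g then (1 : ℂ) else 0) := by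
    intro g
    by_cases hg : Gp N g
    · rw [if_pos hg, GS_mul hN H.ch y hg, map_mul]
      have := H.ch.mul_conj hg
      linear_combination (GS N θ y * conj (GS N θ y)) * this
    · rw [if_neg hg, mul_zero]
      have h0 : GS N θ (y * g) = 0 := by
        by_contra hne
        apply hg
        have hcop : IsCoprime (y * g) N := by
          by_contra h
          exact hne (GS_zero hN H h)
        refine ⟨?_, hcop.of_mul_left_right⟩
        have h3 := kc_unique hN (kc_of_ne hN H.ch hne) (kc_of_ne hN H.ch hy)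
        have h4 : (3 : Eis) ∣ y * (g - 1) := by
          have : y * (g - 1) = y * g - y := by ring
          rw [this]; exact h3
        have h5 : IsCoprime (3 : Eis) y := (IsCoprime.of_isCoprime_of_dvd_right hyN hN.d3).symm
        exact h5.dvd_of_dvd_mul_left h4
      rw [h0, zero_mul]
  rw [sumMod_congr e1, sumMod_mul_left hN.ne] at h1
  exact mul_right_cancel₀ (cG_ne hN) h1

theorem GS_exists (hN : L3 N) (H : GCh N θ) : ∃ y, GS N θ y ≠ 0 := by
  by_contra hcon
  push Not at hcon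
  have h1 := parsevalG hN H
  have e1 : ∀ y, GS N θ y * conj (GS N θ y) = (fun _ => (0 : ℂ)) y := by
    intro y; rw [hcon y, zero_mul]
  rw [sumMod_congr e1, sumMod_const hN.ne, mul_zero] at h1
  have hnm : (nm N : ℂ) ≠ 0 := by exact_mod_cast (nm_pos.mpr hN.ne).ne'
  exact mul_ne_zero hnm (cG_ne hN) h1.symm

/-- nonvanishing on the class -/
theorem GS_ne_of (hN : L3 N) (H : Rm N θ) {y : Eis} (hy : IsCoprime y N) (hk : Kc hN θ y) :
    GS N θ y ≠ 0 := by
  obtain ⟨y0, h0⟩ := GS_exists hN H.ch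
  have hy0 : IsCoprime y0 N := by
    by_contra h
    exact h0 (GS_zero hN H h)
  have h3 : (3 : Eis) ∣ y - y0 := kc_unique hN hk (kc_of_ne hN H.ch h0)
  -- `y = y0 g`
  obtain ⟨z, hz⟩ := (ivN_spec hy0).2
  have hg : Gp N (y * ivN N y0) := by
    refine ⟨?_, hy.mul_left (ivN_spec hy0).1⟩
    unfold IsPrim
    have : y * ivN N y0 - 1 = (y - y0) * ivN N y0 + (y0 * ivN N y0 - 1) := by ring
    rw [this]
    exact dvd_add (h3.mul_right _) (hN.d3.trans (ivN_spec hy0).2)
  have e : GS N θ y = GS N θ (y0 * (y * ivN N y0)) := by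
    apply GS_congr hN
    exact ⟨-(y * z), by linear_combination (-y) * hz⟩
  rw [e, GS_mul hN H.ch y0 hg]
  exact mul_ne_zero (H.ch.ne hg) h0

end Crest.Agent.R017.Hi681
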