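import Crest.Agent.R017.CT0_590
import Crest.Agent.R017.Hi1_681
import Crest.Agent.R017.FinA2_266

/-!
# Row 17, C.F1tw (C): the exact conductor (helper92, for 681's Hi6)

* `exact_cond`
-/

set_option autoImplicit false

noncomputable section

open Complex
open scoped ComplexConjugate

namespace Crest.Agent.R017.Hc92

open Crest.Agent.R012 Crest.Agent.R012.Eis Crest.Agent.R012.Gauss880
open Crest.Agent.R017.Sx440 Crest.Agent.R017.Sx545 Crest.Agent.R017.C590 Crest.Agent.R017.Loc266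
open Crest.Agent.R017.End699 (HC)

variable {M N M0 : Eis} {ψ : Eis → ℂ}

/-- admissible levels -/
structure Ad (M N : Eis) (ψ : Eis → ℂ) : Prop where
  dvd : N ∣ M
  pr : ∀ p, Prime p → p ∣ M → p ∣ N
  per : ∀ a b, Sm M a → Sm M b → N ∣ a - b → ψ a = ψ b

lemma ad_self (hC : HC M ψ) : Ad M M ψ where
  dvd := dvd_rfl
  pr _ _ h := h
  per a b ha hb hab := hC.per a b ha.1 hb.1 hab

lemma exists_min (hC : HC M ψ) : ∃ N, Ad M N ψ ∧ ∀ N', Ad M N' ψ → nm N ≤ nm N' := by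
  classical
  have hex : ∃ n, ∃ N, Ad M N ψ ∧ nm N = n := ⟨_, M, ad_self hC, rfl⟩
  obtain ⟨N, hN, he⟩ := Nat.find_spec hex
  refine ⟨N, hN, fun N' h' => ?_⟩
  rw [he]
  exact Nat.find_min' hex ⟨N', h', rfl⟩

/-- a primary inverse modulo `M` -/
lemma exists_prim_inv (h3 : (3 : Eis) ∣ M) {b : Eis} (hb : Sm M b) :
    ∃ b', Sm M b' ∧ M ∣ b * b' - 1 := by
  obtain ⟨b', hb', hbb⟩ := exists_inv hb.2
  have h1 : IsPrim (b * b') := h3.trans hbb
  exact ⟨b', ⟨Sym645.prim_of_mul_left hb.1 h1, hb'⟩, hbb⟩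

lemma exact_of_min (hC : HC M ψ) (h : Ad M N ψ) (hmin : ∀ N', Ad M N' ψ → nm N ≤ nm N')
    {p : Eis} (hp : Prime p) (hpN : p ∣ N) (hp2 : p ^ 2 ∣ N) :
    ∃ c, Sm M c ∧ N ∣ p * (c - 1) ∧ ψ c ≠ 1 := by
  obtain ⟨N', hN'⟩ := hpN
  have hM0 := hC.q0
  have hN0 : N ≠ 0 := fun h0 => hM0 (by
    have := h.dvd
    rw [h0] at this
    exact zero_dvd_iff.mp this)
  have hN'0 : N' ≠ 0 := fun h0 => hN0 (by rw [hN', h0, mul_zero])
  have hpN' : p ∣ N' := by
    rw [hN', pow_two] at hp2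
    exact (mul_dvd_mul_iff_left hp.ne_zero).mp hp2
  by_contra hcon
  push Not at hcon
  have hAd : Ad M N' ψ := by
    refine ⟨(Dvd.intro_left p hN'.symm).trans h.dvd, fun q hq hqM => ?_, fun a b ha hb hab => ?_⟩
    · have h1 := h.pr q hq hqM
      rw [hN'] at h1
      rcases hq.dvd_or_dvd h1 with h2 | h2
      · exact h2.trans hpN'
      · exact h2
    · obtain ⟨b', hb', hbb⟩ := exists_prim_inv hC.three hb
      have hd : N' ∣ a * b' - 1 := by
        have e : a * b' - 1 = (a - b) * b' + (b * b' - 1) := by ring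
        rw [e]
        exact dvd_add (hab.mul_right _)
          (((Dvd.intro_left p hN'.symm).trans h.dvd).trans hbb)
      have h1 : ψ (a * b') = 1 := hcon _ (ha.mul hb') (by rw [hN']; exact mul_dvd_mul_left p hd)
      have h2 : ψ (b * b') = 1 := by
        rw [hC.per _ 1 (hb.mul hb').1 R012.isPrim_one hbb, hC.char.one]
      rw [hC.char.mul _ _ ha.1 hb'.1] at h1
      rw [hC.char.mul _ _ hb.1 hb'.1] at h2
      have hne : ψ b' ≠ 0 := right_ne_zero_of_mul (h2.trans_ne one_ne_zero)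
      exact mul_right_cancel₀ hne (h1.trans h2.symm)
  have h1 := hmin N' hAd
  rw [hN', nm_mul] at h1
  have h2 := nm_pos.mpr hN'0
  have h3 : 2 ≤ nm p := by
    have h4 : nm p ≠ 1 := fun h5 => hp.not_isUnit (Eis.isUnit_iff.mpr h5)
    have h5 := nm_pos.mpr hp.ne_zero
    omega
  nlinarith

/-- **the exact conductor** -/
theorem exact_cond {k : ℕ} (h9 : (9 : Eis) ∣ M) (hC : HC M ψ) (hP : Pure3 M ψ)
    (eq : M = lam ^ k * M0) (nl : ¬ lam ∣ M0)
    (hn : ∃ c, IsPrim c ∧ 9 * M0 ∣ c - 1 ∧ IsCoprime c M ∧ ψ c ≠ 1) :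
    ∃ N, N ∣ M ∧ N ≠ 0 ∧ lam ^ 5 ∣ N ∧ (∀ p, Prime p → p ∣ M → p ∣ N) ∧
      (∀ a b, Sm M a → Sm M b → N ∣ a - b → ψ a = ψ b) ∧
      (∀ p, Prime p → p ∣ N → ∃ c, Sm M c ∧ N ∣ p * (c - 1) ∧ ψ c ≠ 1 ∧
        (¬ p ^ 2 ∣ N → ψ c ^ 3 ≠ 1)) := by
  obtain ⟨N, hN, hmin⟩ := exists_min hC
  have hM0 := hC.q0
  have hN0 : N ≠ 0 := fun h0 => hM0 (by
    have := hN.dvd
    rw [h0] at this
    exact zero_dvd_iff.mp this)
  have hlN : lam ^ 5 ∣ N := by
    have f : FiniteMultiplicity lam N := FiniteMultiplicity.of_prime_left prime_lam hN0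
    obtain ⟨N1, hN1, hnl⟩ := f.exists_eq_pow_mul_and_not_dvd
    set j := multiplicity lam N
    by_cases hj : 5 ≤ j
    · rw [hN1]
      exact (pow_dvd_pow lam hj).mul_right _
    · exfalso
      obtain ⟨c, hc, hc9, hcM, hne⟩ := hn
      have h1 : N1 ∣ M0 := by
        have h2 : N1 ∣ lam ^ k * M0 := by
          rw [← eq]
          exact (Dvd.intro_left _ hN1.symm).trans hN.dvd
        have h3 : IsCoprime N1 (lam ^ k) :=
          (((prime_lam.irreducible.coprime_iff_not_dvd).mpr hnl).symm).pow_right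
        exact h3.dvd_of_dvd_mul_left h2
      have h4 : N ∣ 9 * M0 := by
        rw [hN1]
        refine mul_dvd_mul ?_ h1
        have e : lam ^ 4 ∣ (9 : Eis) := by
          refine ⟨w ^ 4, ?_⟩
          have h3 : (3 : Eis) = -w ^ 2 * lam * lam := three_eq
          calc (9 : Eis) = 3 * 3 := by norm_num
            _ = (-w ^ 2 * lam * lam) * (-w ^ 2 * lam * lam) := by rw [← h3]
            _ = lam ^ 4 * w ^ 4 := by ring
        exact (pow_dvd_pow lam (by omega)).trans e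
      apply hne
      rw [hN.per c 1 ⟨hc, hcM⟩ ⟨R012.isPrim_one, isCoprime_one_left⟩ (h4.trans hc9), hC.char.one]
  refine ⟨N, hN.dvd, hN0, hlN, hN.pr, hN.per, fun p hp hpN => ?_⟩
  by_cases hp2 : p ^ 2 ∣ N
  · obtain ⟨c, h1, h2, h3⟩ := exact_of_min hC hN hmin hp hpN hp2
    exact ⟨c, h1, h2, h3, fun h => absurd hp2 h⟩
  · have hp3 : ¬ p ∣ 3 := by
      intro h
      have hpl : p ∣ lam := by
        have h3 : (3 : Eis) = -w ^ 2 * lam * lam := three_eq
        rw [h3] at h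
        rcases hp.dvd_or_dvd h with h1 | h1
        · rcases hp.dvd_or_dvd h1 with h2 | h2
          · exact absurd (isUnit_of_dvd_unit h2 (isUnit_w.pow 2).neg) hp.not_isUnit
          · exact h2
        · exact h1
      have h5 : p ^ 5 ∣ N := (pow_dvd_pow_of_dvd hpl 5).trans hlN
      exact hp2 ((pow_dvd_pow p (by norm_num)).trans h5)
    have hpM : p ∣ M := hpN.trans hN.dvd
    have f : FiniteMultiplicity p M := FiniteMultiplicity.of_prime_left hp hM0
    obtain ⟨M₁, hM1, hnp⟩ := f.exists_eq_pow_mul_and_not_dvd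
    set v := multiplicity p M
    obtain ⟨b, hb, hb1, hpb, hne⟩ := hP p hp hpM hp3 v M₁ hM1 hnp
    have hbM : IsCoprime b M := by
      refine isCoprime_of_prime_dvd (fun h => hM0 h.2) (fun q hq h1 h2 => ?_)
      rw [hM1] at h2
      rcases hq.dvd_or_dvd h2 with h3 | h3
      · exact hpb (((hq.associated_of_dvd hp (hq.dvd_of_dvd_pow h3)).symm.dvd).trans h1)
      · have h4 : q ∣ 1 := by
          have := dvd_sub h1 (h3.trans hb1)
          rwa [sub_sub_cancel] at this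
        exact hq.not_isUnit (isUnit_of_dvd_one h4)
    refine ⟨b, ⟨hb, hbM⟩, ?_, fun h => hne (by rw [h, one_pow]), fun _ => hne⟩
    obtain ⟨N', hN'⟩ := hpN
    have hnpN' : ¬ p ∣ N' := fun h => hp2 (by rw [hN', pow_two]; exact mul_dvd_mul_left p h)
    have h1 : N' ∣ M₁ := by
      have h2 : N' ∣ p ^ v * M₁ := by
        rw [← hM1]
        exact (Dvd.intro_left _ hN'.symm).trans hN.dvd
      have h3 : IsCoprime N' (p ^ v) :=
        (((hp.irreducible.coprime_iff_not_dvd).mpr hnpN').symm).pow_right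
      exact h3.dvd_of_dvd_mul_left h2
    rw [hN']
    exact mul_dvd_mul_left p (h1.trans hb1)

end Crest.Agent.R017.Hc92
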