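import Crest.Agent.R017.Hi5_681
import Crest.Agent.R017.CD7_47
import Crest.Agent.R017.Hc_92

/-!
# Row 17, twisted cubic F1, the part `ψ_λ` of high conductor (helper681), 6

* `fPn_good` : `f_+` as a sum over good `e`
* `raw_C` : the raw functional equation
* `notLowAll : CD47.NotLowAll`
-/

set_option autoImplicit false

noncomputable section

open Complex
open scoped ComplexConjugate SchwartzMap

namespace Crest.Agent.R017.Hi681

open Crest.Agent.R012 Crest.Agent.R012.Eis Crest.Agent.R012.Gauss880 Crest.Agent.R017.Loc266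
open Crest.Agent.R012.AU681 Crest.Agent.R012.Parseval499 Crest.Agent.R012.K695
open Crest.Agent.R017.Kub664 Crest.Agent.R017.Orth681 Crest.Agent.R017.Glue681
open Crest.Agent.R017.Xn590 Crest.Agent.R017.Coef92 Crest.Agent.R017.CD47
open Crest.Agent.R017.Sx545 Crest.Agent.R017.A590 Crest.Agent.R017.C590
open Crest.Agent.R017.End699 (HC)

variable {N m x M : Eis} {s : ℂ} {θ ξ ψ : Eis → ℂ} {f : ℂ → ℂ}

lemma fOn_mul (n : ℕ) (ξ : Eis → ℂ) (V : ℝ) (h0 t B : ℂ) (f : ℂ → ℂ) (z : ℂ) :
    fOn n ξ V h0 (t * B) f z = t * fOn n ξ V h0 B f z := by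
  unfold fOn
  ring

/-- `f_+` over good elements -/
theorem fPn_good (hN : L3 N) (hs : s = 1 ∨ s = -1) (X : XH N s θ ξ) (h0 : ξ 0 = 0)
    (hf : DatN 3 s ξ f) {c : Eis} (hc : c ≠ 0) :
    fPn 3 ξ f (toC c) = ∑' e : Eis, open Classical in
      if Sm N e then θ e ^ 3 * (nm e : ℂ) ^ 2 * f (toC e ^ 3 * toC c) else 0 := by
  classical
  have hss : s * s = 1 := by rcases hs with h | h <;> rw [h] <;> ring
  set G : Eis → ℂ := fun e => ξ e * ((nm e : ℂ) ^ (3 - 1) * f (toC e ^ 3 * toC c)) with hG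
  have hfc : Xi590.CS f := ⟨hf.smooth, hf.supp⟩
  have hsum : Summable G := by
    apply summable_of_hasFiniteSupport
    refine ((finite_pairs3 hfc).preimage (f := fun e : Eis => (c, e))
      (fun a _ b _ h => (Prod.mk.inj h).2)).subset ?_
    intro e he
    rw [Function.mem_support] at he
    have he0 : e ≠ 0 := by
      rintro rfl
      exact he (by simp only [hG]; rw [h0, zero_mul])
    exact ⟨hc, he0, fun h => he (by simp only [hG]; rw [h]; ring)⟩
  have hu : ∀ u e, IsUnit u → G (u * e) = G e := by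
    intro u e hu
    simp only [hG]
    have h1 : nm (u * e) = nm e := by rw [nm_mul, isUnit_iff.mp hu, one_mul]
    rw [h1, X.u.mul]
    rcases unit3 hu with h3 | h3
    · rw [X.u.cube_one hu h3, one_mul]
      have h4 : toC (u * e) ^ 3 = toC e ^ 3 := by
        rw [← map_pow, ← map_pow, mul_pow, h3, one_mul]
      rw [h4]
    · have h5 : ξ u = s := by
        have h6 : ξ (-u) = 1 := X.u.cube_one hu.neg (by linear_combination -h3)
        rw [X.u.neg'] at h6
        linear_combination s * h6 - ξ u * hss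
      have h4 : toC (u * e) ^ 3 * toC c = -(toC e ^ 3 * toC c) := by
        rw [← map_pow, ← map_pow, mul_pow, h3, neg_one_mul, map_neg]
        ring
      rw [h5, h4, hf.par]
      linear_combination (ξ e * (nm e : ℂ) ^ (3 - 1) * f (toC e ^ 3 * toC c)) * hss
  have e1 : fPn 3 ξ f (toC c) = (1 / 6 : ℂ) * ∑' e : Eis, if IsCoprime e N then G e else 0 := by
    unfold fPn
    congr 1
    refine tsum_congr fun e => ?_
    split_ifs with he
    · rfl
    · have hz : ξ e = 0 := by
        by_cases he0 : e = 0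
        · rw [he0, h0]
        · obtain ⟨p, hp, hpe, hpN⟩ : ∃ p, Prime p ∧ p ∣ e ∧ p ∣ N := by
            by_contra hcon
            push Not at hcon
            exact he (isCoprime_of_prime_dvd (fun h => hN.ne h.2)
              fun q hq h1 h2 => hcon q hq h1 h2)
          obtain ⟨t, rfl⟩ := hpe
          rw [X.u.mul, X.zero p hp hpN, zero_mul]
      rw [hz, zero_mul]
  rw [e1, XiI590.tsum_units hN.d3 hsum hu, ← mul_assoc]
  have h6 : (1 / 6 : ℂ) * 6 = 1 := by norm_num
  rw [h6, one_mul]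
  refine tsum_congr fun e => ?_
  by_cases he : Sm N e
  · rw [if_pos he, if_pos he]
    simp only [hG]
    rw [X.good e he]
    ring
  · rw [if_neg he, if_neg he]

lemma sp_N (hN : L3 N) : Sp N (N * sq3) := by
  refine ⟨mul_ne_zero hN.ne sq3_ne_zero, fun p hp hd => ?_⟩
  rcases hp.dvd_or_dvd hd with h | h
  · exact h
  · have h3 : sq3 ∣ 3 := ⟨-sq3, by apply ext' <;> simp [sq3]⟩
    exact (h.trans h3).trans hN.d3

/-- the character of the row -/
def tC (N : Eis) (ψ : Eis → ℂ) (c : Eis) : ℂ := ψ c * conj (sc (N * sq3) c)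

/-- the dual character -/
def uC (N : Eis) (ψ : Eis → ℂ) (u1 c : Eis) : ℂ := dS (tC N ψ) u1 c * sc (N * sq3) c

lemma gch_tC (hN : L3 N) (H : GCh N ψ) : GCh N (tC N ψ) :=
  gch_mul H (gch_conj (gch_sc hN (sp_N hN)))

/-- **the raw form** -/
theorem raw_C (hN : L3 N) (hs : s = 1 ∨ s = -1) (H : GCh N ψ) (P : Pu N (tC N ψ))
    {c0' : ℂ} (hX : XiP ξ (toC sq3 * toC m) c0') (X : XH N s (tC N ψ) ξ) (hm : m ≠ 0)
    (h9 : 9 * nm m = nm N) (h0 : ξ 0 = 0) {u1 : Eis} (hu1 : IsUnit u1) (hk : Kc hN (tC N ψ) u1)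
    (hf : DatN 3 s ξ f) {u : Eis} (hu : Sm N u) :
    LRaw N ψ u f = tS (tC N ψ) u1 u * RRaw N (uC N ψ u1) u
      (fOn 3 ξ 1 (toC u1) (wC0 N (tC N ψ) u1 1 * 2) f) (1 / (toC N * toC s3)) := by
  classical
  set θ := tC N ψ with hθ
  have Hθ : GCh N θ := gch_tC hN H
  have hz0 := sp_N hN
  have hx : IsCoprime (-u) N := hu.2.neg_left
  have hnN : (nm N : ℂ) ≠ 0 := by exact_mod_cast (nm_pos.mpr hN.ne).ne'
  have hk' : Kc hN θ (-(-u * u1)) := by
    refine kc_congr hN hk ?_
    have h1 : (3 : Eis) ∣ u - 1 := hu.1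
    have : -(-u * u1) - u1 = (u - 1) * u1 := by ring
    rw [this]
    exact h1.mul_right _
  have key := ls_C hN hs Hθ P hx hX X hm h9 hu1 hk' one_pos hf hu.1.ne_zero
  have hxu : N ∣ -u + u := by rw [neg_add_cancel]; exact dvd_zero _
  -- left side
  have eL : LS 3 ξ f (rowH N (-u) θ) N u = nm N * LRaw N ψ u f := by
    unfold LS LRaw
    rw [← tsum_mul_left]
    refine tsum_congr fun c => ?_
    by_cases hc : Sm N c
    · have hc0 := hc.1.ne_zero
      rw [if_neg hc0, if_pos hc, SC_rowH hN (show Gp N c from hc) hxu,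
        fPn_good hN hs X h0 hf hc0]
      have e1 : θ c * sc (N * sq3) c = ψ c := by
        have h1 := sc_mul_conj (N := N) (show Gp N c from hc) hz0
        rw [hθ]
        unfold tC
        linear_combination (ψ c) * h1
      have e2 : (∑' e : Eis, if Sm N e then θ e ^ 3 * (nm e : ℂ) ^ 2 * f (toC e ^ 3 * toC c)
          else 0) = ∑' e : Eis, if Sm N e then ψ e ^ 3 * (nm e : ℂ) ^ 2 *
            f (toC e ^ 3 * toC c) else 0 := by
        refine tsum_congr fun e => ?_
        by_cases he : Sm N e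
        · rw [if_pos he, if_pos he]
          have h2 : θ e ^ 3 = ψ e ^ 3 := by
            have h3 := sc_cube (N := N) (show Gp N e from he) hz0
            rw [hθ]
            unfold tC
            rw [mul_pow, ← map_pow, h3, map_one, mul_one]
          rw [h2]
        · rw [if_neg he, if_neg he]
      rw [e2]
      linear_combination ((nm N : ℂ) * conj (gs u c) * (∑' e : Eis, if Sm N e then
        ψ e ^ 3 * (nm e : ℂ) ^ 2 * f (toC e ^ 3 * toC c) else 0)) * e1
    · rw [if_neg hc, mul_zero]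
      split_ifs with hc0
      · rfl
      · rw [SC_rowH_zero (show ¬ Gp N c from hc) (mul_ne_zero hN.ne hc0), mul_zero]
  -- right side
  have eR : RS 3 ξ 1 (toC u1) (wC0 N θ u1 (- -u) * (2 * ((1 : ℝ) : ℂ))) f
      (rowH N (-u) (dS θ u1)) N u = nm N * (tS θ u1 u * RRaw N (uC N ψ u1) u
        (fOn 3 ξ 1 (toC u1) (wC0 N θ u1 1 * 2) f) (1 / (toC N * toC s3))) := by
    have hw : wC0 N θ u1 (- -u) * (2 * ((1 : ℝ) : ℂ)) = tS θ u1 u * (wC0 N θ u1 1 * 2) := by
      have h1 := GS_mul hN (gch_tS hN Hθ (sp_unit (N := N) hu1)) u1 (show Gp N u from hu)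
      unfold wC0
      rw [neg_neg, one_mul, mul_comm u u1, h1]
      push_cast
      ring
    unfold RS RRaw
    rw [← tsum_mul_left, ← tsum_mul_left]
    refine tsum_congr fun c => ?_
    by_cases hc : Sm N c
    · have hc0 := hc.1.ne_zero
      rw [if_neg hc0, if_pos hc, SC_rowH hN (show Gp N c from hc) hxu, hw, fOn_mul]
      have e1 : frq (toC N) u / toC c = 1 / (toC N * toC s3) * toC u / toC c := by
        unfold frq
        ring
      rw [e1]
      unfold uC
      push_cast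
      ring
    · rw [if_neg hc, mul_zero, mul_zero]
      split_ifs with hc0
      · rfl
      · rw [SC_rowH_zero (show ¬ Gp N c from hc) (mul_ne_zero hN.ne hc0), mul_zero]
  rw [eL, eR] at key
  exact mul_left_cancel₀ hnN key

/-! ### the twist at an exact prime -/

lemma sc_one_of_sq (hN : L3 N) {z u p : Eis} (hz : Sp N z) (hu : Gp N u) (hp : Prime p)
    (hpN : p ∣ N) (hp2 : p ^ 2 ∣ N) (hd : N ∣ p * (u - 1)) : sc z u = 1 := by
  have h9 : (9 : Eis) ∣ u - 1 := by
    obtain ⟨t, ht⟩ := (hN.pr p hp hpN).trans hd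
    refine ⟨t, ?_⟩
    apply mul_left_cancel₀ hp.ne_zero
    linear_combination ht
  refine sc_eq_one hN hz hu h9 fun q hq hqN _ => ?_
  by_cases hqp : q ∣ p
  · obtain ⟨v, hv⟩ := hq.associated_of_dvd hp hqp
    obtain ⟨t, ht⟩ := hp2.trans hd
    refine ⟨v * t, ?_⟩
    apply mul_left_cancel₀ hp.ne_zero
    rw [← hv] at ht ⊢
    linear_combination ht
  · exact (hq.dvd_or_dvd (hqN.trans hd)).resolve_left hqp

/-- **the case of a character which is not low** -/
theorem notLowAll : NotLowAll := by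
  intro M M0 k ψ h9 hψ hP hM hn ⟨c, hc1, hc2, hc3⟩ l hl
  have hcM : IsCoprime c M := by
    by_contra h
    refine isCoprime_of_prime_dvd (x := c) (y := M) (fun h => hψ.q0 h.2) ?_ |> h
    intro p hp hpc hpM
    rw [hM] at hpM
    rcases hp.dvd_or_dvd hpM with h5 | h5
    · have h6 : p ∣ lam := hp.dvd_of_dvd_pow h5
      have h7 : IsUnit p := hc1.isCoprime_lam.isUnit_of_dvd' hpc h6
      exact hp.not_isUnit h7
    · have h6 : p ∣ c - 1 := (h5.mul_left 9).trans hc2
      have h7 : p ∣ 1 := by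
        have := dvd_sub hpc h6
        rwa [sub_sub_cancel] at this
      exact hp.not_isUnit (isUnit_of_dvd_one h7)
  obtain ⟨N, hNM, hN0, hlN, hrad, hper, hex⟩ :=
    Hc92.exact_cond h9 hψ hP hM hn ⟨c, hc1, hc2, hcM, hc3⟩
  have hd9 : (9 : Eis) ∣ N := by
    refine nine_dvd_lam4.trans (Dvd.dvd.trans ⟨lam, by ring⟩ hlN)
  have hN : L3 N := by
    refine ⟨hN0, hd9, fun p hp hpN => ?_⟩
    by_cases hp3 : p ∣ 3
    · have hpl : p ∣ lam := by
        rw [three_eq] at hp3
        rcases hp.dvd_or_dvd hp3 with h | h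
        · exact absurd (isUnit_of_dvd_unit h (isUnit_w.pow 2).neg) hp.not_isUnit
        · exact hp.dvd_of_dvd_pow h
      have : (9 : Eis) * p ∣ lam ^ 4 * lam := mul_dvd_mul nine_dvd_lam4 hpl
      exact this.trans (by rw [← pow_succ]; exact hlN)
    · have h6 : IsCoprime p 3 := (hp.irreducible.coprime_iff_not_dvd).mpr hp3
      have h7 : (9 : Eis) = 3 * 3 := by norm_num
      have h5 : IsCoprime p 9 := by rw [h7]; exact h6.mul_right h6
      exact h5.symm.mul_dvd hd9 hpN
  have hSm : ∀ b, Sm N b → Sm M b := by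
    intro b hb
    refine ⟨hb.1, isCoprime_of_prime_dvd (fun h => hψ.q0 h.2) fun p hp hpb hpM => ?_⟩
    exact hp.not_isUnit (hb.2.isUnit_of_dvd' hpb (hrad p hp hpM))
  have hSm' : ∀ b, Sm M b → Sm N b := fun b hb =>
    ⟨hb.1, IsCoprime.of_isCoprime_of_dvd_right hb.2 hNM⟩
  have hSS : Sm M = Sm N := by
    funext b
    exact propext ⟨hSm' b, hSm b⟩
  have U := uni_of_HC hψ
  have H : GCh N ψ :=
    ⟨U.one, fun a b ha hb => U.mul a b (hSm a ha) (hSm b hb),
      fun a b ha hb hab => hper a b (hSm a ha) (hSm b hb) hab, fun a ha => U.norm a (hSm a ha)⟩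
  have Hθ := gch_tC hN H
  have hz0 := sp_N hN
  have E : Ex N (tC N ψ) := by
    intro p hp hpN
    obtain ⟨v, hv, hvd, hv1, hv2⟩ := hex p hp hpN
    have hv' : Gp N v := hSm' v hv
    by_cases hp2 : p ^ 2 ∣ N
    · refine ⟨v, hv', hvd, ?_, Or.inl hp2⟩
      unfold tC
      rw [sc_one_of_sq hN hz0 hv' hp hpN hp2 hvd, map_one, mul_one]
      exact hv1
    · have h5 : tC N ψ v ^ 3 ≠ 1 := by
        unfold tC
        rw [mul_pow, ← map_pow, sc_cube hv' hz0, map_one, mul_one]
        exact hv2 hp2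
      refine ⟨v, hv', hvd, fun h => h5 (by rw [h, one_pow]), Or.inr h5⟩
  have P := E.pu hN Hθ
  have hs : ((-1 : ℂ) ^ l = 1) ∨ ((-1 : ℂ) ^ l = -1) := by
    rcases Int.even_or_odd l with h | h
    · exact Or.inl h.neg_one_zpow
    · exact Or.inr h.neg_one_zpow
  obtain ⟨m, ξ, c0', hm, hX, X, hm9, h0⟩ := exists_xi3 hN hs Hθ E
  obtain ⟨u1, hu1, hk⟩ := exists_unit_class (x := -1) hN Hθ P isCoprime_one_left.neg_left
  have hk1 : Kc hN (tC N ψ) u1 := by
    have : -(-1 * u1) = u1 := by ring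
    rwa [this] at hk
  refine raw3_hasFE3 (M' := M) dvd_rfl hψ.q0 (fun p _ h => h) hψ ?_
  refine ⟨Unit, inferInstance, ξ, _, c0', 1, toC u1, wC0 N (tC N ψ) u1 1 * 2,
    fun _ => tS (tC N ψ) u1, fun _ => uC N ψ u1, fun _ => 1 / (toC N * toC s3), hX,
    toC_ne_zero hu1.ne_zero, Or.inl h0, fun _ a b ha hb hab => ?_, fun _ => ?_, fun _ => ?_,
    fun f hf _ u hu => ?_⟩
  · exact (gch_tS hN Hθ (sp_unit hu1)).per a b (hSm' a ha) (hSm' b hb) (hNM.trans hab)
  · have G := gch_mul (gch_dS hN Hθ (sp_unit (N := N) hu1)) (gch_sc hN hz0)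
    exact ⟨G.one, fun a b ha hb => G.mul a b (hSm' a ha) (hSm' b hb),
      fun a ha => G.norm a (hSm' a ha),
      fun a b ha hb hab => G.per a b (hSm' a ha) (hSm' b hb) (hNM.trans hab)⟩
  · refine one_div_ne_zero (mul_ne_zero (toC_ne_zero hN0) ?_)
    rw [Ne, toC_eq_zero]
    decide
  · have key := raw_C hN hs H P hX X hm hm9 h0 hu1 hk1 hf (hSm' u hu)
    simp only [Finset.univ_unique, Finset.sum_singleton]
    unfold LRaw RRaw at key ⊢
    rw [hSS]
    exact key

end Crest.Agent.R017.Hi681
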