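import Crest.Agent.R017.Kub6B_64

/-!
# Row 17: the row identity (values of the symbol on the rows `w = x v₀ + h v₀'`)

For coprime rows `v₀ = (c₀, d₀)`, `w = (c, d)` with good `d, d₀`, and
`h = c d₀ - d c₀ = hS * h'`, `h'` good, `hS` composed of primes dividing `q`,
`w ≡ x v₀ mod h'`:

  `s c d * (s hS d₀ * ρ h' d₀) = s c₀ d₀ * s x h' * (s hS d * ρ h' d) * (s (-1) d₀ * ρ d d₀)`

where `ρ` is the reciprocity factor `s a b = ρ a b * s b a`.
-/

set_option autoImplicit false

noncomputable section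

namespace Crest.Agent.R017.Kub664

open Crest.Agent.R012 Eis Crest.Agent.R017.Sx440 Crest.Agent.R017.Sx146

/-- A reciprocity factor. -/
structure RecF (s : Eis → Eis → ℂ) (q : Eis) (Gd : Eis → Prop) (ρ : Eis → Eis → ℂ) : Prop where
  rel : ∀ a b : Eis, Gd a → Gd b → s a b = ρ a b * s b a
  congr_left : ∀ a a' b : Eis, Gd a → Gd a' → Gd b → q ∣ a - a' → ρ a b = ρ a' b
  congr_right : ∀ a b b' : Eis, Gd a → Gd b → Gd b' → q ∣ b - b' → ρ a b = ρ a b'

namespace RowAPI

variable {s : Eis → Eis → ℂ} {q : Eis} {Gd : Eis → Prop}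

/-- The row identity, coprime case. -/
lemma row_identity_aux {Xc : Eis → Prop} (H : RowAPI s q Xc Gd) {ρ : Eis → Eis → ℂ}
    (hρ : RecF s q Gd ρ) {c d c0 d0 hS h' x : Eis} (hd : Gd d) (hd0 : Gd d0) (hh : Gd h')
    (hdet : c * d0 - d * c0 = hS * h') (hx : h' ∣ d - x * d0) (hcop : IsCoprime d0 d) :
    s c d * (s hS d0 * ρ h' d0) =
      s c0 d0 * s x h' * (s hS d * ρ h' d) * (s (-1) d0 * ρ d d0) := by
  have e1 : s c d * s d0 d = s hS d * (ρ h' d * (s x h' * s d0 h')) := by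
    rw [← H.mul_left _ _ _ hd, H.congr (c * d0) (hS * h') d hd
      ⟨c0, by linear_combination hdet⟩, H.mul_left _ _ _ hd, hρ.rel h' d hh hd,
      H.congr d (x * d0) h' hh hx, H.mul_left _ _ _ hh]
  have e2 : s (-1) d0 * (ρ d d0 * s d0 d) * s c0 d0 = s hS d0 * (ρ h' d0 * s d0 h') := by
    rw [← hρ.rel d d0 hd hd0, ← H.mul_left _ _ _ hd0, ← H.mul_left _ _ _ hd0,
      H.congr (-1 * d * c0) (hS * h') d0 hd0 ⟨-c, by linear_combination hdet⟩,
      H.mul_left _ _ _ hd0, hρ.rel h' d0 hh hd0]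
  have h5 : s d0 d ≠ 0 := H.ne_zero _ _ hd hcop
  apply mul_left_cancel₀ h5
  linear_combination (s hS d0 * ρ h' d0) * e1 - (s hS d * ρ h' d * s x h') * e2

/-- **The row identity**, for all rows. -/
theorem row_identity (H : RowAPI s q (fun _ => True) Gd) {ρ : Eis → Eis → ℂ}
    (hρ : RecF s q Gd ρ) {c d c0 d0 hS h' x : Eis}
    (hcd0 : IsCoprime c0 d0) (hd : Gd d) (hd0 : Gd d0) (hh : Gd h') (hS0 : hS ≠ 0)
    (hSq : ∀ p : Eis, Prime p → p ∣ hS → p ∣ q)
    (hdet : c * d0 - d * c0 = hS * h') (hxc : h' ∣ c - x * c0) (hx : h' ∣ d - x * d0) :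
    s c d * (s hS d0 * ρ h' d0) =
      s c0 d0 * s x h' * (s hS d * ρ h' d) * (s (-1) d0 * ρ d d0) := by
  have hq := H.q_ne
  -- a shift `t`, divisible by `q * hS`
  have hYq : IsCoprime h' (q * hS) := by
    apply isCoprime_of_prime_dvd
    · rintro ⟨h1, -⟩; exact H.gd_ne _ hh h1
    · intro p hp h1 h2
      have h3 : p ∣ q := by
        rcases hp.dvd_or_dvd h2 with h3 | h3
        · exact h3
        · exact hSq p hp h3
      exact hp.not_isUnit ((H.gd_coprime _ hh).isUnit_of_dvd' h1 h3)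
  obtain ⟨t, htq, htc⟩ := exists_shift (q := q * hS) hcd0.symm (H.gd_ne _ hh) hYq
  have htq1 : q ∣ t := (Dvd.intro _ rfl).trans htq
  -- shifted second entries
  have hD : Gd (d - t * c) := H.gd_congr d _ hd (by
    have : d - (d - t * c) = t * c := by ring
    rw [this]; exact htq1.mul_right _)
  have hD0 : Gd (d0 - t * c0) := H.gd_congr d0 _ hd0 (by
    have : d0 - (d0 - t * c0) = t * c0 := by ring
    rw [this]; exact htq1.mul_right _)
  have hqD : q ∣ (d - t * c) - d := by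
    have : (d - t * c) - d = -(t * c) := by ring
    rw [this]; exact (htq1.mul_right _).neg_right
  have hqD0 : q ∣ (d0 - t * c0) - d0 := by
    have : (d0 - t * c0) - d0 = -(t * c0) := by ring
    rw [this]; exact (htq1.mul_right _).neg_right
  -- the symbol on the row does not change
  have hrow : ∀ a b : Eis, Gd b → Gd (b - t * a) → s a (b - t * a) = s a b := by
    intro a b hb hb'
    by_cases ha : a = 0
    · subst ha; simp
    · apply H.period a _ _ ha trivial hb' hb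
      obtain ⟨r, hr⟩ := htq1
      exact ⟨-r, by rw [hr]; ring⟩
  have hSrow : ∀ a b : Eis, Gd b → Gd (b - t * a) → s hS (b - t * a) = s hS b := by
    intro a b hb hb'
    apply H.period hS _ _ hS0 trivial hb' hb
    obtain ⟨r, hr⟩ := htq
    exact ⟨-(r * a), by rw [hr]; ring⟩
  have hcop : IsCoprime (d0 - t * c0) (d - t * c) := by
    apply isCoprime_of_prime_dvd
    · rintro ⟨h1, -⟩; exact H.gd_ne _ hD0 h1
    intro p hp h1 h2
    have h3 : p ∣ hS * h' := by
      rw [← hdet]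
      have : c * d0 - d * c0 = c * (d0 - t * c0) - (d - t * c) * c0 := by ring
      rw [this]
      exact dvd_sub (h1.mul_left _) (h2.mul_right _)
    rcases hp.dvd_or_dvd h3 with h4 | h4
    · exact hp.not_isUnit ((H.gd_coprime _ hD0).isUnit_of_dvd' h1 (hSq p hp h4))
    · exact hp.not_isUnit (htc.isUnit_of_dvd' h1 h4)
  have hneg : s (-1) (d0 - t * c0) = s (-1) d0 := by
    apply H.period (-1) _ _ (by simp) trivial hD0 hd0
    obtain ⟨r, hr⟩ := htq1
    exact ⟨r * c0, by rw [hr]; ring⟩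
  have key := H.row_identity_aux hρ (c := c) (d := d - t * c) (c0 := c0) (d0 := d0 - t * c0)
    (hS := hS) (h' := h') (x := x) hD hD0 hh (by linear_combination hdet) (by
      have : d - t * c - x * (d0 - t * c0) = (d - x * d0) - t * (c - x * c0) := by ring
      rw [this]
      exact dvd_sub hx (hxc.mul_left _)) hcop
  rw [hrow c d hd hD, hrow c0 d0 hd0 hD0, hSrow c d hd hD, hSrow c0 d0 hd0 hD0, hneg,
    hρ.congr_right h' _ _ hh hD0 hd0 hqD0, hρ.congr_right h' _ _ hh hD hd hqD,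
    hρ.congr_left _ _ _ hD hd hD0 hqD, hρ.congr_right _ _ _ hd hD0 hd0 hqD0] at key
  exact key

/-- The row identity for `w = x v₀ + h v₀'`. -/
theorem row_identity' (H : RowAPI s q (fun _ => True) Gd) {ρ : Eis → Eis → ℂ}
    (hρ : RecF s q Gd ρ) {c0 d0 c1 d1 hS h' x : Eis} (hdet : c1 * d0 - d1 * c0 = 1)
    (hd : Gd (x * d0 + hS * h' * d1)) (hd0 : Gd d0) (hh : Gd h') (hS0 : hS ≠ 0)
    (hSq : ∀ p : Eis, Prime p → p ∣ hS → p ∣ q) :
    s (x * c0 + hS * h' * c1) (x * d0 + hS * h' * d1) * (s hS d0 * ρ h' d0) =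
      s c0 d0 * s x h' * (s hS (x * d0 + hS * h' * d1) * ρ h' (x * d0 + hS * h' * d1)) *
        (s (-1) d0 * ρ (x * d0 + hS * h' * d1) d0) := by
  apply H.row_identity hρ _ hd hd0 hh hS0 hSq
  · linear_combination hS * h' * hdet
  · exact ⟨hS * c1, by ring⟩
  · exact ⟨hS * d1, by ring⟩
  · exact ⟨-d1, c1, by linear_combination hdet⟩

end RowAPI

/-! ### closure of `RecF` -/

namespace RecF

variable {s s1 s2 : Eis → Eis → ℂ} {q q1 q2 : Eis} {Gd G1 G2 : Eis → Prop}
  {ρ ρ1 ρ2 : Eis → Eis → ℂ}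

theorem conj (H : RecF s q Gd ρ) :
    RecF (fun x y => (starRingEnd ℂ) (s x y)) q Gd (fun x y => (starRingEnd ℂ) (ρ x y)) where
  rel a b ha hb := by rw [H.rel a b ha hb, map_mul]
  congr_left a a' b ha ha' hb h := by rw [H.congr_left a a' b ha ha' hb h]
  congr_right a b b' ha hb hb' h := by rw [H.congr_right a b b' ha hb hb' h]

theorem prod (H1 : RecF s1 q1 G1 ρ1) (H2 : RecF s2 q2 G2 ρ2) :
    RecF (fun x y => s1 x y * s2 x y) (q1 * q2) (fun x => G1 x ∧ G2 x)
      (fun x y => ρ1 x y * ρ2 x y) where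
  rel a b ha hb := by
    rw [H1.rel a b ha.1 hb.1, H2.rel a b ha.2 hb.2]; ring
  congr_left a a' b ha ha' hb h := by
    rw [H1.congr_left a a' b ha.1 ha'.1 hb.1 ((Dvd.intro _ rfl).trans h),
      H2.congr_left a a' b ha.2 ha'.2 hb.2 ((Dvd.intro_left _ rfl).trans h)]
  congr_right a b b' ha hb hb' h := by
    rw [H1.congr_right a b b' ha.1 hb.1 hb'.1 ((Dvd.intro _ rfl).trans h),
      H2.congr_right a b b' ha.2 hb.2 hb'.2 ((Dvd.intro_left _ rfl).trans h)]

end RecF

/-! ### the quadratic reciprocity factor -/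

open Classical in
/-- The exponent `i` with `w^i a ≡ 1 mod 2`. -/
def ui (a : Eis) : ℕ := if h : ∃ i : ℕ, Un (w ^ i * a) then Classical.choose h else 0

lemma un_ui {a : Eis} (h : Od a) : Un (w ^ (ui a) * a) := by
  have h1 : ∃ i : ℕ, Un (w ^ i * a) := exists_unit_un (od_iff_nm.1 h)
  unfold ui
  rw [dif_pos h1]
  exact Classical.choose_spec h1

/-- The quadratic reciprocity factor `H₂(a, b)` of odd elements. -/
def rho2 (a b : Eis) : ℂ := (sg (w ^ (ui a) * a) (w ^ (ui b) * b) : ℂ)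

/-- `H₂` in terms of any representatives `w^i a`, `w^j b` which are `1 mod 2`. -/
lemma rho2_eq {a b : Eis} {i j : ℕ} (ha : Un (w ^ i * a)) (hb : Un (w ^ j * b)) :
    rho2 a b = (sg (w ^ i * a) (w ^ j * b) : ℂ) := by
  have hao : Od a := od_iff_nm.2 (nm_odd_mul.1 ha.odd).2
  have hbo : Od b := od_iff_nm.2 (nm_odd_mul.1 hb.odd).2
  have h1 := un_ui hao
  have h2 := un_ui hbo
  -- two unit multiples `≡ 1 mod 2` of the same element are equal up to `w^3 = 1`
  have key : ∀ (c : Eis) (k l : ℕ), Od c → Un (w ^ k * c) → Un (w ^ l * c) →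
      w ^ k * c = w ^ l * c := by
    intro c k l hc hk hl
    have hw3 : (w : Eis) ^ 3 = 1 := w_cube
    have hmod : ∀ n : ℕ, (w : Eis) ^ n = w ^ (n % 3) := by
      intro n
      conv_lhs => rw [← Nat.div_add_mod n 3, pow_add, pow_mul, hw3, one_pow, one_mul]
    rw [hmod k] at hk ⊢
    rw [hmod l] at hl ⊢
    have hkl : (2 : Eis) ∣ (w ^ (k % 3) - w ^ (l % 3)) * c := by
      have := dvd_sub (un_iff.1 hk) (un_iff.1 hl)
      have e : (w ^ (k % 3) * c - 1) - (w ^ (l % 3) * c - 1) =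
        (w ^ (k % 3) - w ^ (l % 3)) * c := by ring
      rwa [e] at this
    have h2' : (2 : Eis) ∣ (w ^ (k % 3) - w ^ (l % 3)) := by
      rcases prime_two.dvd_or_dvd hkl with h | h
      · exact h
      · exact absurd h hc
    have hk3 : k % 3 < 3 := Nat.mod_lt _ (by norm_num)
    have hl3 : l % 3 < 3 := Nat.mod_lt _ (by norm_num)
    have hw2 : (w : Eis) ^ 2 = ⟨-1, -1⟩ := K695.w_sq'
    have fin : w ^ (k % 3) = w ^ (l % 3) := by
      interval_cases hk' : k % 3 <;> interval_cases hl' : l % 3 <;>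
        first
        | rfl
        | (exfalso
           rw [Sx146.two_dvd_iff] at h2'
           simp [hw2] at h2'
           try omega)
    rw [fin]
  rw [rho2, key a _ _ hao h1 ha, key b _ _ hbo h2 hb]

theorem recF2 : RecF sy2 4 Od rho2 where
  rel a b ha hb := by
    have h1 := un_ui ha
    have h2 := un_ui hb
    rw [sy2_eq_q2, sy2_eq_q2, q2_recip_gen h1 h2]
    unfold rho2
    push_cast
    ring
  congr_left a a' b ha ha' hb h := by
    have h1 := un_ui ha
    have h2 := un_ui hb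
    have h3 : Un (w ^ (ui a) * a') :=
      un_of_congr (w_pow_mul_congr _ (Dvd.dvd.trans ⟨2, by norm_num⟩ h)) h1
    rw [rho2_eq h1 h2, rho2_eq h3 h2, sg_congr (w_pow_mul_congr _ h)]
  congr_right a b b' ha hb hb' h := by
    have h1 := un_ui ha
    have h2 := un_ui hb
    have h3 : Un (w ^ (ui b) * b') :=
      un_of_congr (w_pow_mul_congr _ (Dvd.dvd.trans ⟨2, by norm_num⟩ h)) h2
    rw [rho2_eq h1 h2, rho2_eq h1 h3, sg_symm, sg_congr (w_pow_mul_congr _ h), sg_symm]

lemma rho2_of_four_left {a b : Eis} (ha : (4 : Eis) ∣ a - 1) (hb : Od b) : rho2 a b = 1 := by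
  have h1 : Un (w ^ 0 * a) := by
    rw [pow_zero, one_mul, un_iff]
    exact Dvd.dvd.trans ⟨2, by norm_num⟩ ha
  rw [rho2_eq h1 (un_ui hb), pow_zero, one_mul, sg_of_four ha]
  simp

lemma rho2_of_four_right {a b : Eis} (ha : Od a) (hb : (4 : Eis) ∣ b - 1) : rho2 a b = 1 := by
  have h1 : Un (w ^ 0 * b) := by
    rw [pow_zero, one_mul, un_iff]
    exact Dvd.dvd.trans ⟨2, by norm_num⟩ hb
  rw [rho2_eq (un_ui ha) h1, pow_zero, one_mul, sg_symm, sg_of_four hb]
  simp

/-! ### the cubic reciprocity factor -/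

open Classical in
/-- A unit `u` with `u a` primary. -/
def up (a : Eis) : Eis := if h : ∃ u : Eis, IsUnit u ∧ IsPrim (u * a) then Classical.choose h else 1

lemma up_spec {a : Eis} (h : G3 a) : IsUnit (up a) ∧ IsPrim (up a * a) := by
  have h1 : ∃ u : Eis, IsUnit u ∧ IsPrim (u * a) := Sym645.exists_unit_prim h
  unfold up
  rw [dif_pos h1]
  exact Classical.choose_spec h1

lemma up_eq {a u : Eis} (hu : IsUnit u) (hp : IsPrim (u * a)) : up a = u := by
  have hg : G3 a := (Sym645.nm_mod_of_mul (Sym645.prim_nm_mod hp)).2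
  obtain ⟨h1, h2⟩ := up_spec hg
  obtain ⟨v, hv⟩ := hu.exists_right_inv
  have hvu : IsUnit (up a * v) := h1.mul (IsUnit.of_mul_eq_one u (by rw [mul_comm]; exact hv))
  have e : (up a * v) * (u * a) = up a * a := by linear_combination (up a * a) * hv
  have hp' : IsPrim (up a * v) := by
    rw [← e] at h2
    rw [mul_comm] at h2
    exact Sym645.prim_of_mul_left hp h2
  have h3 := Sym645.prim_unit_eq_one hvu hp'
  have : up a * (v * u) = u := by rw [← mul_assoc, h3, one_mul]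
  rwa [mul_comm v u, hv, mul_one] at this

/-- The cubic reciprocity factor. -/
def rho3 (a b : Eis) : ℂ := sy (up b) a * (starRingEnd ℂ) (sy (up a) b)

lemma sy_unit_norm {u c : Eis} (hu : IsUnit u) (hc : G3 c) :
    sy u c * (starRingEnd ℂ) (sy u c) = 1 := by
  have hcop : IsCoprime u c := by
    obtain ⟨v, hv⟩ := hu.exists_right_inv
    exact ⟨v, 0, by linear_combination hv⟩
  rw [Complex.mul_conj, Complex.normSq_eq_norm_sq, Sym645.norm_sy_of_isCoprime hc hcop]
  simp

lemma sy_unit_congr' {u m n : Eis} (hu : IsUnit u) (hm : G3 m) (hn : G3 n)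
    (h : (9 : Eis) ∣ m - n) : sy u m = sy u n := by
  obtain ⟨v, hv, hp⟩ := Sym645.exists_unit_prim hm
  have hp' : IsPrim (v * n) := by
    have : v * n - 1 = (v * m - 1) - v * (m - n) := by ring
    unfold IsPrim at *
    rw [this]
    exact dvd_sub hp ((Dvd.dvd.trans ⟨3, by norm_num⟩ h).mul_left _)
  rw [← Sym645.sy_assoc_right u (associated_unit_mul_left m v hv),
    ← Sym645.sy_assoc_right u (associated_unit_mul_left n v hv)]
  apply Sym645.sy_unit_congr hu hp hp'
  rw [← mul_sub]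
  exact h.mul_left _

lemma up_congr {a a' : Eis} (ha : G3 a) (h : (3 : Eis) ∣ a - a') : up a' = up a := by
  obtain ⟨h1, h2⟩ := up_spec ha
  apply up_eq h1
  unfold IsPrim at *
  have : up a * a' - 1 = (up a * a - 1) - up a * (a - a') := by ring
  rw [this]
  exact dvd_sub h2 (h.mul_left _)

theorem recF3 : RecF sy 9 G3 rho3 where
  rel a b ha hb := by
    obtain ⟨h1, h2⟩ := up_spec ha
    obtain ⟨h3, h4⟩ := up_spec hb
    have h5 := Sym645.sy_reciprocity h2 h4
    rw [Sym645.sy_assoc_right _ (associated_unit_mul_left b _ h3),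
      Sym645.sy_assoc_right _ (associated_unit_mul_left a _ h1),
      Sym645.sy_mul_left hb, Sym645.sy_mul_left ha] at h5
    have h6 := sy_unit_norm h1 hb
    unfold rho3
    linear_combination (starRingEnd ℂ) (sy (up a) b) * h5 - sy a b * h6
  congr_left a a' b ha ha' hb h := by
    obtain ⟨h3, h4⟩ := up_spec hb
    unfold rho3
    rw [up_congr ha (Dvd.dvd.trans ⟨3, by norm_num⟩ h), sy_unit_congr' h3 ha ha' h]
  congr_right a b b' ha hb hb' h := by
    obtain ⟨h1, h2⟩ := up_spec ha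
    unfold rho3
    rw [up_congr hb (Dvd.dvd.trans ⟨3, by norm_num⟩ h), sy_unit_congr' h1 hb hb' h]

lemma up_prim {a : Eis} (ha : IsPrim a) : up a = 1 :=
  up_eq isUnit_one (by rw [one_mul]; exact ha)

lemma up_neg_prim {a : Eis} (ha : IsPrim (-a)) : up a = -1 :=
  up_eq isUnit_one.neg (by rw [neg_one_mul]; exact ha)

/-- `H₃ = 1` on elements `≡ ± 1 mod 3`. -/
lemma rho3_pm {a b : Eis} (ha : IsPrim a ∨ IsPrim (-a)) (hb : IsPrim b ∨ IsPrim (-b)) :
    rho3 a b = 1 := by
  have g3 : ∀ c : Eis, IsPrim c ∨ IsPrim (-c) → G3 c := by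
    intro c hc
    rcases hc with h | h
    · exact Sym645.prim_nm_mod h
    · have : nm (-1 * -c) % 3 = 1 := by
        rw [nm_mul, (isUnit_iff (z := -1)).1 isUnit_one.neg, one_mul]
        exact Sym645.prim_nm_mod h
      simpa [G3] using this
  have hs : ∀ c : Eis, G3 c → sy (-1) c = 1 := fun c hc => by
    rw [Sym645.sy_neg hc, Sym645.sy_one_left hc]
  have hu : ∀ c d : Eis, IsPrim c ∨ IsPrim (-c) → G3 d → sy (up c) d = 1 := by
    intro c d hc hd
    rcases hc with h | h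
    · rw [up_prim h, Sym645.sy_one_left hd]
    · rw [up_neg_prim h, hs d hd]
  unfold rho3
  rw [hu b a hb (g3 a ha), hu a b ha (g3 b hb)]
  simp

/-! ### the sextic symbol -/

/-- The sextic reciprocity factor. -/
def rho6 (a b : Eis) : ℂ := rho2 a b * (starRingEnd ℂ) (rho3 a b)

theorem recF6 : RecF sy6 72 G6' rho6 := by
  have h2 : RecF sy2 8 Od rho2 :=
    { rel := recF2.rel
      congr_left := fun a a' b ha ha' hb h =>
        recF2.congr_left a a' b ha ha' hb (Dvd.dvd.trans ⟨2, by norm_num⟩ h)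
      congr_right := fun a b b' ha hb hb' h =>
        recF2.congr_right a b b' ha hb hb' (Dvd.dvd.trans ⟨2, by norm_num⟩ h) }
  have h := h2.prod recF3.conj
  have e : (8 : Eis) * 9 = 72 := by norm_num
  rw [e] at h
  exact h

/-- The row identity for the sextic symbol. -/
theorem sy6_row_identity {c d c0 d0 hS h' x : Eis}
    (hcd0 : IsCoprime c0 d0) (hd : G6' d) (hd0 : G6' d0) (hh : G6' h') (hS0 : hS ≠ 0)
    (hSq : ∀ p : Eis, Prime p → p ∣ hS → p ∣ 72)
    (hdet : c * d0 - d * c0 = hS * h') (hxc : h' ∣ c - x * c0) (hx : h' ∣ d - x * d0) :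
    sy6 c d * (sy6 hS d0 * rho6 h' d0) =
      sy6 c0 d0 * sy6 x h' * (sy6 hS d * rho6 h' d) * (sy6 (-1) d0 * rho6 d d0) :=
  api6.row_identity recF6 hcd0 hd hd0 hh hS0 hSq hdet hxc hx

/-- The row identity for the quadratic symbol. -/
theorem sy2_row_identity {c d c0 d0 hS h' x : Eis}
    (hcd0 : IsCoprime c0 d0) (hd : Od d) (hd0 : Od d0) (hh : Od h') (hS0 : hS ≠ 0)
    (hSq : ∀ p : Eis, Prime p → p ∣ hS → p ∣ 8)
    (hdet : c * d0 - d * c0 = hS * h') (hxc : h' ∣ c - x * c0) (hx : h' ∣ d - x * d0) :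
    sy2 c d * (sy2 hS d0 * rho2 h' d0) =
      sy2 c0 d0 * sy2 x h' * (sy2 hS d * rho2 h' d) * (sy2 (-1) d0 * rho2 d d0) := by
  have h2 : RecF sy2 8 Od rho2 :=
    { rel := recF2.rel
      congr_left := fun a a' b ha ha' hb h =>
        recF2.congr_left a a' b ha ha' hb (Dvd.dvd.trans ⟨2, by norm_num⟩ h)
      congr_right := fun a b b' ha hb hb' h =>
        recF2.congr_right a b b' ha hb hb' (Dvd.dvd.trans ⟨2, by norm_num⟩ h) }
  exact api2.row_identity h2 hcd0 hd hd0 hh hS0 hSq hdet hxc hx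

/-- The row identity for the cubic symbol. -/
theorem sy_row_identity {c d c0 d0 hS h' x : Eis}
    (hcd0 : IsCoprime c0 d0) (hd : G3 d) (hd0 : G3 d0) (hh : G3 h') (hS0 : hS ≠ 0)
    (hSq : ∀ p : Eis, Prime p → p ∣ hS → p ∣ 9)
    (hdet : c * d0 - d * c0 = hS * h') (hxc : h' ∣ c - x * c0) (hx : h' ∣ d - x * d0) :
    sy c d * (sy hS d0 * rho3 h' d0) =
      sy c0 d0 * sy x h' * (sy hS d * rho3 h' d) * (sy (-1) d0 * rho3 d d0) :=
  api3.row_identity recF3 hcd0 hd hd0 hh hS0 hSq hdet hxc hx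

end Crest.Agent.R017.Kub664
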