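import Crest.Agent.R017.XiI1_590
import Crest.Agent.R017.Wt1_92
import Crest.Agent.R017.Sx3a_545
import Crest.Agent.R012.PC_355
import Crest.Agent.R017.Kub6C_64
import Crest.Agent.R012.Kubota_695

/-!
# Row 17: the `e`-sum over `Sm M` (helper590)

* `exists_mob` : `Σ_{(e, M) = 1} G e = Σ_i μ_i Σ_e G (d_i e)`
* `tsum_units` : `Σ_{(e, M) = 1} G e = 6 Σ_{Sm M e} G e` for `3 ∣ M`, `G` invariant under units
* `redf` : the modified test function, `fPn_redf`, `fPn_redf_Sm`
-/

set_option autoImplicit false

noncomputable section

open Complex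
open scoped ComplexConjugate

namespace Crest.Agent.R017.XiI590

open Crest.Agent.R012 Crest.Agent.R012.Eis Crest.Agent.R012.Gauss880
open Crest.Agent.R017.Xi499 Crest.Agent.R017.Xn590 Crest.Agent.R017.Sx545

/-! ### Moebius inversion -/

open Classical in
theorem exists_mob_list {M : Eis} (hM : M ≠ 0) : ∃ L : List (ℂ × Eis),
    (∀ q ∈ L, q.2 ≠ 0 ∧ ‖q.1‖ = 1 ∧ ∀ p, Prime p → p ∣ q.2 → p ∣ M) ∧
    ∀ G : Eis → ℂ, Summable G → (∑' e : Eis, if IsCoprime e M then G e else 0) =
      (L.map fun q => q.1 * ∑' e : Eis, G (q.2 * e)).sum := by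
  induction M using UniqueFactorizationMonoid.induction_on_prime with
  | h₁ => exact absurd rfl hM
  | h₂ x hx =>
    refine ⟨[(1, 1)], ?_, ?_⟩
    · intro q hq
      simp only [List.mem_singleton] at hq
      subst hq
      refine ⟨one_ne_zero, by simp, fun p hp h => absurd (isUnit_of_dvd_one h) hp.not_isUnit⟩
    · intro G _
      simp [fun e : Eis => (isCoprime_of_isUnit hx e).symm]
  | h₃ a p ha hp ih =>
    obtain ⟨L, hL, hG⟩ := ih ha
    by_cases hpa : p ∣ a
    · refine ⟨L, fun q hq => ⟨(hL q hq).1, (hL q hq).2.1, fun p' hp' h =>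
        ((hL q hq).2.2 p' hp' h).mul_left p⟩, fun G hs => ?_⟩
      rw [← hG G hs]
      refine tsum_congr fun e => ?_
      have : IsCoprime e (p * a) ↔ IsCoprime e a := by
        constructor
        · exact fun h => IsCoprime.of_mul_right_right h
        · intro h
          exact IsCoprime.mul_right (IsCoprime.of_isCoprime_of_dvd_right h hpa) h
      by_cases h : IsCoprime e a
      · rw [if_pos h, if_pos (this.mpr h)]
      · rw [if_neg h, if_neg (fun h' => h (this.mp h'))]
    · have hcop : IsCoprime p a := hp.irreducible.coprime_iff_not_dvd.mpr hpa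
      refine ⟨L ++ L.map (fun q => (-q.1, p * q.2)), ?_, ?_⟩
      · intro q hq
        rw [List.mem_append] at hq
        rcases hq with hq | hq
        · exact ⟨(hL q hq).1, (hL q hq).2.1, fun p' hp' h => ((hL q hq).2.2 p' hp' h).mul_left p⟩
        · rw [List.mem_map] at hq
          obtain ⟨q', hq', rfl⟩ := hq
          refine ⟨mul_ne_zero hp.ne_zero (hL q' hq').1, by rw [norm_neg]; exact (hL q' hq').2.1,
            fun p' hp' h => ?_⟩
          rcases hp'.dvd_or_dvd h with h | h
          · exact h.mul_right a
          · exact ((hL q' hq').2.2 p' hp' h).mul_left p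
      · intro G hs
        have hinj : Function.Injective (fun e : Eis => p * e) :=
          fun x y h => mul_left_cancel₀ hp.ne_zero h
        have hs' : Summable fun e : Eis => G (p * e) := hs.comp_injective hinj
        have h1 := hG G hs
        have h2 := hG _ hs'
        have hi : ∀ (P : Eis → Prop) [DecidablePred P],
            Summable fun e : Eis => if P e then G e else 0 := by
          intro P _
          have := hs.indicator {e | P e}
          refine this.congr fun e => ?_
          by_cases h : P e
          · rw [if_pos h, Set.indicator_of_mem (show e ∈ {e | P e} from h)]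
          · rw [if_neg h, Set.indicator_of_notMem (show e ∉ {e | P e} from h)]
        have h3 : (∑' e : Eis, if IsCoprime e (p * a) then G e else 0) =
            (∑' e : Eis, if IsCoprime e a then G e else 0) -
              ∑' e : Eis, if (IsCoprime e a ∧ p ∣ e) then G e else 0 := by
          rw [← (hi (fun e => IsCoprime e a)).tsum_sub (hi (fun e => IsCoprime e a ∧ p ∣ e))]
          refine tsum_congr fun e => ?_
          by_cases h : IsCoprime e a
          · by_cases h' : p ∣ e
            · have hA : IsCoprime e a ∧ p ∣ e := ⟨h, h'⟩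
              have hB : ¬ IsCoprime e (p * a) := by
                intro h4
                have h5 : IsCoprime p p :=
                  (IsCoprime.of_isCoprime_of_dvd_left (IsCoprime.of_mul_right_left h4) h')
                exact hp.not_isUnit (isCoprime_self.mp h5)
              rw [if_pos h, if_pos hA, if_neg hB, sub_self]
            · have hA : ¬ (IsCoprime e a ∧ p ∣ e) := fun h4 => h' h4.2
              have hB : IsCoprime e (p * a) :=
                IsCoprime.mul_right (hp.irreducible.coprime_iff_not_dvd.mpr h').symm h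
              rw [if_pos h, if_neg hA, sub_zero, if_pos hB]
          · have hA : ¬ (IsCoprime e a ∧ p ∣ e) := fun h4 => h h4.1
            have hB : ¬ IsCoprime e (p * a) := fun h4 => h (IsCoprime.of_mul_right_right h4)
            rw [if_neg h, if_neg hA, sub_zero, if_neg hB]
        have h4 : (∑' e : Eis, if (IsCoprime e a ∧ p ∣ e) then G e else 0) =
            ∑' e : Eis, if IsCoprime e a then G (p * e) else 0 := by
          rw [← hinj.tsum_eq]
          · refine tsum_congr fun e => ?_
            have : (IsCoprime (p * e) a ∧ p ∣ p * e) ↔ IsCoprime e a := by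
              constructor
              · exact fun h => IsCoprime.of_mul_left_right h.1
              · exact fun h => ⟨hcop.mul_left h, dvd_mul_right _ _⟩
            by_cases h : IsCoprime e a
            · rw [if_pos h, if_pos (this.mpr h)]
            · rw [if_neg h, if_neg (fun h' => h (this.mp h'))]
          · intro e he
            rw [Function.mem_support] at he
            by_cases h : IsCoprime e a ∧ p ∣ e
            · obtain ⟨t, rfl⟩ := h.2
              exact ⟨t, rfl⟩
            · rw [if_neg h] at he
              exact absurd rfl he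
        rw [h3, h4, h1, h2, List.map_append, List.sum_append, List.map_map, sub_eq_add_neg]
        congr 1
        rw [← neg_one_mul, ← List.sum_map_mul_left]
        congr 1
        refine List.map_congr_left fun q _ => ?_
        simp only [Function.comp]
        rw [neg_one_mul, neg_mul]
        congr 2
        refine tsum_congr fun e => ?_
        rw [mul_assoc]

open Classical in
/-- **Moebius inversion** with a finite family. -/
theorem exists_mob {M : Eis} (hM : M ≠ 0) : ∃ (k : ℕ) (μ : Fin k → ℂ) (d : Fin k → Eis),
    (∀ i, d i ≠ 0 ∧ ‖μ i‖ = 1 ∧ ∀ p, Prime p → p ∣ d i → p ∣ M) ∧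
    ∀ G : Eis → ℂ, Summable G → (∑' e : Eis, if IsCoprime e M then G e else 0) =
      ∑ i, μ i * ∑' e : Eis, G (d i * e) := by
  obtain ⟨L, h1, h2⟩ := exists_mob_list hM
  refine ⟨L.length, fun i => (L.get i).1, fun i => (L.get i).2, fun i => h1 _ (L.get_mem i),
    fun G hG => ?_⟩
  rw [h2 G hG, ← List.sum_ofFn]
  congr 1
  have := List.map_ofFn (f := L.get) (g := fun q : ℂ × Eis => q.1 * ∑' e : Eis, G (q.2 * e))
  rw [List.ofFn_get] at this
  exact this

/-! ### units -/

lemma exists_units6 {z : Eis} (h : ¬ (1 - w : Eis) ∣ z) : ∃ u ∈ P355.units6, IsPrim (u * z) := by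
  have h1 : ¬ (3 : ℤ) ∣ z.re + z.im := fun h' => h (K695.lam_dvd h')
  have ha : z.re % 3 = 0 ∨ z.re % 3 = 1 ∨ z.re % 3 = 2 := by omega
  have hb : z.im % 3 = 0 ∨ z.im % 3 = 1 ∨ z.im % 3 = 2 := by omega
  have m1 : (1 : Eis) ∈ P355.units6 := by simp [P355.units6]
  have m2 : (w : Eis) ∈ P355.units6 := by simp [P355.units6]
  have m3 : (w ^ 2 : Eis) ∈ P355.units6 := by simp [P355.units6]
  have m4 : (-1 : Eis) ∈ P355.units6 := by simp [P355.units6]
  have m5 : (-w : Eis) ∈ P355.units6 := by simp [P355.units6]
  have m6 : (-w ^ 2 : Eis) ∈ P355.units6 := by simp [P355.units6]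
  rcases ha with ha | ha | ha <;> rcases hb with hb | hb | hb
  · exfalso; omega
  · exact ⟨w ^ 2, m3, K695.isPrim_iff.mpr (by
      rw [re_mul', im_mul', K695.w_sq']; constructor <;> simp <;> omega)⟩
  · exact ⟨-w ^ 2, m6, K695.isPrim_iff.mpr (by
      rw [re_mul', im_mul', K695.w_sq']; constructor <;> simp <;> omega)⟩
  · exact ⟨1, m1, K695.isPrim_iff.mpr (by
      rw [re_mul', im_mul']; constructor <;> simp <;> omega)⟩
  · exact ⟨-w, m5, K695.isPrim_iff.mpr (by
      rw [re_mul', im_mul']; constructor <;> simp <;> omega)⟩
  · exfalso; omega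
  · exact ⟨-1, m4, K695.isPrim_iff.mpr (by
      rw [re_mul', im_mul']; constructor <;> simp <;> omega)⟩
  · exfalso; omega
  · exact ⟨w, m2, K695.isPrim_iff.mpr (by
      rw [re_mul', im_mul']; constructor <;> simp <;> omega)⟩

lemma isUnit_of_mem {u : Eis} (hu : u ∈ P355.units6) : IsUnit u :=
  isUnit_iff.mpr (P355.nm_of_mem_units6 hu)

lemma card_units6 : P355.units6.card = 6 := by decide

lemma units6_unique {u v z : Eis} (hu : u ∈ P355.units6) (hv : v ∈ P355.units6)
    (h1 : IsPrim (u * z)) (h2 : IsPrim (v * z)) : u = v := by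
  rw [← Kub664.up_eq (isUnit_of_mem hu) h1, ← Kub664.up_eq (isUnit_of_mem hv) h2]

open Classical in
/-- sum over the elements prime to `M` = 6 sums over the primary ones (`3 ∣ M`). -/
theorem tsum_units {M : Eis} (h3 : (3 : Eis) ∣ M) {G : Eis → ℂ} (hG : Summable G)
    (hu : ∀ u e, IsUnit u → G (u * e) = G e) :
    (∑' e : Eis, if IsCoprime e M then G e else 0) = 6 * ∑' e : Eis, if Sm M e then G e else 0 := by
  have hpt : ∀ e : Eis, (if IsCoprime e M then G e else 0) =
      ∑ u ∈ P355.units6, if Sm M (u * e) then G (u * e) else 0 := by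
    intro e
    by_cases he : IsCoprime e M
    · have hl : ¬ (1 - w : Eis) ∣ e := by
        intro hd
        have h1 : (1 - w : Eis) ∣ 3 := ⟨1 - w ^ 2, by
          have := w_sq
          linear_combination (2 - w) * this⟩
        have h2 : IsUnit (1 - w : Eis) := he.isUnit_of_dvd' hd (h1.trans h3)
        rw [isUnit_iff] at h2
        revert h2
        decide
      obtain ⟨u, hu6, hp⟩ := exists_units6 hl
      rw [if_pos he, Finset.sum_eq_single u]
      · rw [if_pos ⟨hp, (isCoprime_of_isUnit (isUnit_of_mem hu6) M).mul_left he⟩,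
          hu u e (isUnit_of_mem hu6)]
      · intro v hv hne
        rw [if_neg]
        exact fun h => hne (units6_unique hv hu6 h.1 hp)
      · exact fun h => absurd hu6 h
    · rw [if_neg he, Finset.sum_eq_zero]
      intro u _
      rw [if_neg]
      exact fun h => he (IsCoprime.of_mul_left_right h.2)
  have hi : Summable fun e : Eis => if Sm M e then G e else 0 := by
    have := hG.indicator {e | Sm M e}
    refine this.congr fun e => ?_
    by_cases h : Sm M e
    · rw [if_pos h, Set.indicator_of_mem (show e ∈ {e | Sm M e} from h)]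
    · rw [if_neg h, Set.indicator_of_notMem (show e ∉ {e | Sm M e} from h)]
  have hU : ∀ u ∈ P355.units6, Function.Bijective (fun e : Eis => u * e) := by
    intro u hu6
    obtain ⟨v, hv⟩ := (isUnit_of_mem hu6).exists_right_inv
    refine ⟨fun x y h => mul_left_cancel₀ (isUnit_of_mem hu6).ne_zero h, fun y => ⟨v * y, ?_⟩⟩
    change u * (v * y) = y
    rw [← mul_assoc, hv, one_mul]
  rw [tsum_congr hpt, Summable.tsum_finsetSum]
  · have h1 : ∀ u ∈ P355.units6, (∑' e : Eis, if Sm M (u * e) then G (u * e) else 0) =
        ∑' e : Eis, if Sm M e then G e else 0 := by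
      intro u hu6
      exact (Equiv.ofBijective _ (hU u hu6)).tsum_eq (fun e => if Sm M e then G e else 0)
    rw [Finset.sum_congr rfl h1, Finset.sum_const, card_units6, nsmul_eq_mul]
    norm_num
  · intro u hu6
    exact hi.comp_injective (hU u hu6).1

end Crest.Agent.R017.XiI590
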