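import Crest.Agent.R017.F1Star6_180
import Crest.Agent.R017.XiI2_590
import Crest.Agent.R012.MFinal_49
import Crest.Agent.R012.Schw2_922

/-!
# Row 17, section F (helper180): `fL` as a sum over primary elements
-/

set_option autoImplicit false

noncomputable section

open MeasureTheory Complex Set

namespace Crest.Agent.R017.F1

open Crest.Agent.R012 Crest.Agent.R012.Eis Crest.Agent.R012.Sym645
open Crest.Agent.R012.Parseval499 (frq s3)
open scoped ComplexConjugate

/-- primary elements from all elements -/
lemma tsum_prim_of_all {G : Eis → ℂ} (hG : Summable G)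
    (hu : ∀ u e, IsUnit u → G (u * e) = G e) : open Classical in
    (∑' e : Eis, if IsPrim e then G e else 0) =
      (1 / 6 : ℂ) * (∑' e : Eis, G e - ∑' e : Eis, G (lam * e)) := by
  classical
  have h1 := XiI590.tsum_units (M := 3) dvd_rfl hG hu
  have h2 : (∑' e : Eis, if Sx545.Sm 3 e then G e else 0) =
      ∑' e : Eis, if IsPrim e then G e else 0 := by
    refine tsum_congr fun e => ?_
    by_cases h : IsPrim e
    · rw [if_pos h, if_pos ⟨h, h.isCoprime_three⟩]
    · rw [if_neg h, if_neg (fun h' => h h'.1)]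
  have hinj : Function.Injective (fun e : Eis => lam * e) := mul_right_injective₀ lam_ne_zero
  have h3 : (∑' e : Eis, G (lam * e)) = ∑' e : Eis, if lam ∣ e then G e else 0 := by
    have := hinj.tsum_eq (f := fun e : Eis => if lam ∣ e then G e else 0) ?_
    · rw [← this]
      refine tsum_congr fun e => ?_
      rw [if_pos (dvd_mul_right _ _)]
    · intro e he
      rw [Function.mem_support] at he
      by_cases h : lam ∣ e
      · obtain ⟨t, rfl⟩ := h
        exact ⟨t, rfl⟩
      · rw [if_neg h] at he
        exact absurd rfl he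
  have h4 : ∀ e : Eis, (if IsCoprime e 3 then G e else 0) = G e - (if lam ∣ e then G e else 0) := by
    intro e
    have hc : IsCoprime e 3 ↔ ¬ lam ∣ e := by
      constructor
      · intro h hd
        have h3 : lam ∣ (3 : Eis) := lam_dvd_three
        exact prime_lam.not_isUnit (h.isUnit_of_dvd' hd h3)
      · intro h
        obtain ⟨u, hu⟩ := exists_unit_mul_isPrim h
        exact IsCoprime.of_mul_left_right hu.isCoprime_three
    by_cases h : lam ∣ e
    · rw [if_pos h, if_neg (fun h' => hc.mp h' h), sub_self]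
    · rw [if_neg h, if_pos (hc.mpr h), sub_zero]
  have hs : Summable fun e : Eis => if lam ∣ e then G e else 0 := by
    refine (hG.indicator {e | lam ∣ e}).congr fun e => ?_
    by_cases h : lam ∣ e
    · rw [if_pos h, Set.indicator_of_mem (show e ∈ {e | lam ∣ e} from h)]
    · rw [if_neg h, Set.indicator_of_notMem (show e ∉ {e | lam ∣ e} from h)]
  rw [h2, tsum_congr h4, hG.tsum_sub hs, ← h3] at h1
  rw [h1]
  ring

/-- `f_L(x) = Σ_{e ≡ 1 (3)} N(e)² f(e³ x)`. -/
theorem fL_eq_prim {f : ℂ → ℂ} (hf : Ev f) (x : ℂ) : open Classical in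
    fL f x = ∑' e : Eis, if IsPrim e then ((nm e : ℂ) ^ 2) * f (toC e ^ 3 * x) else 0 := by
  classical
  rw [tsum_prim_of_all (summable_fP hf x)]
  · unfold fL fP al
    have e1 : ∀ e : Eis, ((nm (lam * e) : ℂ) ^ 2) * f (toC (lam * e) ^ 3 * x) =
        9 * (((nm e : ℂ) ^ 2) * f (toC e ^ 3 * (toC lam ^ 3 * x))) := by
      intro e
      rw [nm_mul, nm_lam, map_mul toC, mul_pow (toC lam)]
      push_cast
      rw [show toC lam ^ 3 * toC e ^ 3 * x = toC e ^ 3 * (toC lam ^ 3 * x) by ring]
      ring
    rw [tsum_congr e1, tsum_mul_left]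
    ring
  · intro u e hu
    have h1 : nm (u * e) = nm e := by rw [nm_mul, isUnit_iff.mp hu, one_mul]
    have h2 : f (toC (u * e) ^ 3 * x) = f (toC e ^ 3 * x) := by
      rw [map_mul toC, mul_pow (toC u), ← map_pow toC]
      rcases unit_cube hu with h | h
      · rw [h, map_one, one_mul]
      · rw [h, map_neg, map_one, ← hf.even]
        congr 1; ring
    rw [h1, h2]

end Crest.Agent.R017.F1
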