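import Crest.Agent.R017.Tw3F_541
import Crest.Agent.R017.F1Cln2_180

/-!
# Row 17, twisted cubic F1 (helper541), part G: the local sums of `A4`, evaluation of `LS`, `RS`

`SC_A4` : `S_{A4 j}(ν; c) = N(m) twc(c) S_{a4 j}(ν; c)` when `m ∣ 3x + ν`, `m` primary.
-/

set_option autoImplicit false

noncomputable section

open Complex MeasureTheory Set
open scoped ComplexConjugate SchwartzMap

namespace Crest.Agent.R017.Tw3

open Crest.Agent.R012 Crest.Agent.R012.Eis Crest.Agent.R012.Gauss880 Crest.Agent.R012.Mob705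
open Crest.Agent.R012.Sym645 (prim_nm_mod)
open Crest.Agent.R012.K695 (det2 n2 Vec EC rowv)
open Crest.Agent.R012.Parseval499 (par covol frq s3 covol_pos toC_s3_ne eC_toC_div_s3)
open Crest.Agent.R017.F1 hiding SA scl dil
open Crest.Agent.R017.Loc266
open Crest.Agent.R017.Xn590
open Crest.Agent.R017.Rw266 (ivN ivN_spec ivN_congr ea_congr_right)
open Crest.Agent.R017.FE47 (SM BM)

variable {m x : Eis} {ψ : Eis → ℂ}

/-! ### the local sums -/

lemma aI_mulR {k : Eis} (hk : IsPrim k) (c X : Eis) :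
    aI (c, k * X) = conj (sy c k) * aI (c, X) := by
  classical
  by_cases hc : (3 : Eis) ∣ c
  · rw [aI_dvd hc, aI_dvd hc]
    by_cases hX : IsPrim X
    · rw [if_pos (hk.mul hX), if_pos hX, Sym645.sy_mul_right _ hk.ne_zero hX.ne_zero, map_mul]
    · rw [if_neg (fun h => hX (h.of_mul_left hk)), if_neg hX, mul_zero]
  · rw [aI_not_dvd hc, aI_not_dvd hc, mul_zero]

lemma aF_mulR {t k : Eis} (ht : inL t) (hk : IsPrim k) (c X : Eis) :
    aF t (c, k * X) = conj (sy c k) * aF t (c, X) := by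
  classical
  by_cases hc : IsPrim c
  · rw [aF_prim hc ht, aF_prim hc ht]
    have e : (3 : Eis) ∣ k * X - t * c ↔ (3 : Eis) ∣ X - t * c := by
      apply three_dvd_congr
      obtain ⟨s, hs⟩ := hk
      exact ⟨X * s, by linear_combination X * hs⟩
    simp only [e]
    by_cases h3 : (3 : Eis) ∣ X - t * c
    · rw [if_pos h3, if_pos h3, Sym645.sy_mul_left (prim_nm_mod hc), map_mul,
        Sym645.sy_reciprocity hk hc]
    · rw [if_neg h3, if_neg h3, mul_zero]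
  · rw [aF_not_prim hc, aF_not_prim hc, mul_zero]

lemma a4_mulR (j : Fin 4) {k : Eis} (hk : IsPrim k) (c X : Eis) :
    a4 j (c, k * X) = conj (sy c k) * a4 j (c, X) := by
  by_cases hj : j = 0
  · subst hj
    exact aI_mulR hk c X
  · rw [a4_pos hj]
    exact aF_mulR (inL3 (t4_cases j)) hk c X

theorem SC_A4 (hm : IsPrim m) (hψ : IsCh m ψ) {ν : Eis} (hx : m ∣ 3 * x + ν) (j : Fin 4)
    {c : Eis} (hc0 : c ≠ 0) :
    Coef92.SC (A4 m x ψ j) (3 * m) ν c = (nm m : ℂ) * (twc m ψ c * F1.SC (a4 j) ν c) := by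
  have hm0 := hm.ne_zero
  have h3c : (3 * c : Eis) ≠ 0 := three_mul_ne hc0
  have h3mc : (3 * m * c : Eis) ≠ 0 := mul_ne_zero (three_mul_ne hm0) hc0
  by_cases hc : IsCoprime c m
  swap
  · have h1 : ψ c = 0 := hψ.zero c hc
    unfold Coef92.SC twc
    rw [sumMod_congr (g := fun _ => 0) (fun d => by unfold A4 rb; simp [h1]), sumMod_const h3mc, h1]
    ring
  have hmC : toC m ≠ 0 := by rwa [Ne, toC_eq_zero]
  have hcC : toC c ≠ 0 := by rwa [Ne, toC_eq_zero]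
  have hs := toC_s3_ne
  have hcop : IsCoprime (3 * c) m := (hm.isCoprime_three.symm).mul_left hc
  have e0 : 3 * m * c = 3 * c * m := by ring
  have hF : PMod (3 * c * m) (fun d => A4 m x ψ j (c, d) *
      eC (toC ν * toC d / (toC s3 * toC (3 * c * m)))) := by
    rw [← e0]
    exact (per_A4 hm0 hψ j c).mul (pmod_eC3 h3mc ν)
  unfold Coef92.SC F1.SC
  rw [e0]
  rw [sumMod_crt_mul (c := 3 * c) (d := m)
    (f := fun X => conj (sy c m) * ψ c * (a4 j (c, X) *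
      eC (toC ν * toC X / (toC s3 * toC (3 * c)))))
    (g := fun _ => 1) h3c hm0 _ hcop hF]
  · rw [sumMod_mul_left h3c, sumMod_const hm0]
    unfold twc
    ring
  · intro X Y
    have e1 : a4 j (c, m * X + 3 * c * Y) = conj (sy c m) * a4 j (c, X) := by
      have h1 := pmod_a4 j c (m * X) Y
      simp only at h1
      rw [h1, a4_mulR j hm]
    have e2 : rb m x ψ (c, m * X + 3 * c * Y) = ψ c * ea m x (3 * Y) := by
      unfold rb
      simp only
      congr 1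
      apply ea_congr_right hm0
      obtain ⟨t, ht⟩ := (ivN_spec hc).2
      exact ⟨X * ivN m c + 3 * Y * t, by linear_combination (3 * Y) * ht⟩
    have e3 : ea m x (3 * Y) * eC (toC ν * toC (m * X + 3 * c * Y) /
        (toC s3 * toC (3 * c * m))) = eC (toC ν * toC X / (toC s3 * toC (3 * c))) := by
      obtain ⟨t, ht⟩ := hx
      have hs3 : toC sq3 = toC s3 := rfl
      have h5 : toC x * toC (3 * Y) / (toC sq3 * toC m) + toC ν * toC (m * X + 3 * c * Y) /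
          (toC s3 * toC (3 * c * m)) = toC ν * toC X / (toC s3 * toC (3 * c)) +
          toC (t * Y) / toC s3 := by
        have h6 : 3 * toC x + toC ν = toC m * toC t := by
          have := congrArg toC ht
          simpa [map_add, map_mul, toC_three'] using this
        rw [hs3]
        simp only [map_add, map_mul, toC_three']
        field_simp
        linear_combination (3 * toC c * toC Y) * h6
      unfold ea
      rw [← R012.eC_add, h5, R012.eC_add, eC_toC_div_s3, mul_one]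
    unfold A4
    rw [e1, e2, mul_one]
    linear_combination (conj (sy c m) * a4 j (c, X) * ψ c) * e3

/-! ### evaluation -/

/-- `Σ_{d ≡ 1 (3)} w(d) conj (gs u d) φ(d)` -/
def Cw (w : Eis → ℂ) (u : Eis) (φ : ℂ → ℂ) : ℂ := by
  classical
  exact ∑' d : Eis, if IsPrim d then w d * conj (gs u d) * φ (toC d) else 0

lemma not_prim_zero : ¬ IsPrim (0 : Eis) := fun h => h.ne_zero rfl

lemma tsum_pos' (hm : IsPrim m) (hψ : IsCh m ψ) {ν : Eis} (hx : m ∣ 3 * x + ν) {j : Fin 4}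
    (hj : j ≠ 0) (φ : ℂ → ℂ) :
    open Classical in
    ∑' c : Eis, (if c = 0 then 0 else φ (toC c) * Coef92.SC (A4 m x ψ j) (3 * m) ν c) =
      (nm m : ℂ) * (eC (toC (t4 j * ν) / (toC s3 * 3)) * Cw (twc m ψ) ν φ) := by
  classical
  unfold Cw
  rw [← tsum_mul_left, ← tsum_mul_left]
  refine tsum_congr fun c => ?_
  by_cases h0 : c = 0
  · subst h0
    rw [if_pos rfl, if_neg not_prim_zero]; ring
  · rw [if_neg h0, SC_A4 hm hψ hx j h0, a4_pos hj]
    by_cases hc : IsPrim c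
    · rw [if_pos hc, SC_aF hc (inL3 (t4_cases j))]; ring
    · rw [if_neg hc, SC_aF_not_prim h0 hc]; ring

lemma norm_SC_le {a : Eis × Eis → ℂ} (ha : ∀ r, ‖a r‖ ≤ 1) {N c : Eis} (hNc : N * c ≠ 0)
    (ν : Eis) : ‖Coef92.SC a N ν c‖ ≤ nm (N * c) := by
  unfold Coef92.SC
  have h := norm_sumMod_le (f := fun d => a (c, d) *
    eC (toC ν * toC d / (toC s3 * toC (N * c)))) (B := 1) hNc
    (fun d => by rw [norm_mul, R012.norm_eC, mul_one]; exact ha _)
  rw [mul_one] at h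
  exact h

lemma summable_rc {φ : ℂ → ℂ} {C : ℝ} (h : ∀ y : ℂ, y ≠ 0 → ‖φ y‖ ≤ C * ‖y‖ ^ 4) {v : ℂ}
    (hv : v ≠ 0) {a : Eis × Eis → ℂ} (ha : ∀ r, ‖a r‖ ≤ 1) {N : Eis} (hN : N ≠ 0) (ν : Eis) :
    open Classical in
    Summable (fun c : Eis => if c = 0 then 0 else rc φ v (toC c) * Coef92.SC a N ν c) := by
  classical
  obtain ⟨D, hD⟩ := rc_dc h hv
  refine Summable.of_norm_bounded (g := fun d : Eis => (D * nm N) * ((nm d : ℝ) ^ 2)⁻¹)
    (summable_inv_nm_sq.mul_left _) fun c => ?_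
  by_cases hc : c = 0
  · rw [if_pos hc, hc, norm_zero]; simp
  · rw [if_neg hc, norm_mul]
    have h1 := norm_SC_le ha (mul_ne_zero hN hc) ν
    have h2 := hD (toC c) (norm_toC_ge hc)
    have h3 : ‖toC c‖ ^ 6 = (nm c : ℝ) ^ 3 := by
      rw [← norm_toC_sq]; ring
    rw [h3] at h2
    have h4 : (0 : ℝ) < nm c := by exact_mod_cast nm_pos.mpr hc
    rw [nm_mul] at h1
    push_cast at h1
    calc ‖rc φ v (toC c)‖ * ‖Coef92.SC a N ν c‖
        ≤ (D * ((nm c : ℝ) ^ 3)⁻¹) * (nm N * nm c) :=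
          mul_le_mul h2 h1 (norm_nonneg _) ((norm_nonneg _).trans h2)
      _ = (D * nm N) * ((nm c : ℝ) ^ 2)⁻¹ := by field_simp

lemma prime_self : ∀ p : Eis, Prime p → p ∣ m → p ∣ m := fun _ _ h => h

lemma SC_A4_zero (hm : IsPrim m) (hψ : IsCh m ψ) {ν : Eis} (hx : m ∣ 3 * x + ν) {δ b : Eis}
    (h3 : (3 : Eis) ∣ δ) (hδ : δ ∈ SM (3 : Eis)) (hb : IsPrim b) :
    Coef92.SC (A4 m x ψ 0) (3 * m) ν (δ * b) =
      (nm m : ℂ) * ((twc m ψ δ * twc m ψ b) * (Lam δ ν * conj (gs (δ * ν) b))) := by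
  have hδ0 : δ ≠ 0 := hδ.1
  rw [SC_A4 hm hψ hx 0 (mul_ne_zero hδ0 hb.ne_zero), (isCh_twc hψ hm prime_self).mul]
  congr 2
  exact SC_aI h3 hδ hb ν

lemma tsum_zero' (hm : IsPrim m) (hψ : IsCh m ψ) {ν : Eis} (hν : ν ≠ 0) (hx : m ∣ 3 * x + ν)
    {φ : ℂ → ℂ} {v : ℂ}
    (hS : open Classical in Summable (fun c : Eis => (if c = 0 then 0 else
      rc φ v (toC c) * Coef92.SC (A4 m x ψ 0) (3 * m) ν c))) :
    open Classical in
    ∑' c : Eis, (if c = 0 then 0 else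
      rc φ v (toC c) * Coef92.SC (A4 m x ψ 0) (3 * m) ν c) =
      (nm m : ℂ) * ∑ δ ∈ Dl ν, Lam δ ν * (((nm δ : ℝ)⁻¹ : ℝ) : ℂ) *
        (twc m ψ δ * Cw (twc m ψ) (δ * ν) (rc φ (v / toC δ))) := by
  classical
  rw [FE47.tsum_decomp (dvd_refl (3 : Eis)) (if_pos rfl) hS]
  set Gf : Eis → ℂ := fun δ => (nm m : ℂ) * (Lam δ ν * (((nm δ : ℝ)⁻¹ : ℝ) : ℂ) *
        (twc m ψ δ * Cw (twc m ψ) (δ * ν) (rc φ (v / toC δ)))) with hG
  have e1 : ∀ δ : SM (3 : Eis), ∑' b : BM (3 : Eis), (if δ.1 * b.1 = 0 then 0 else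
      rc φ v (toC (δ.1 * b.1)) * Coef92.SC (A4 m x ψ 0) (3 * m) ν (δ.1 * b.1)) =
      if (3 : Eis) ∣ δ.1 then Gf δ.1 else 0 := by
    intro δ
    have hδ := δ.2
    have hδ0 : δ.1 ≠ 0 := hδ.1
    have hδC : toC δ.1 ≠ 0 := by rwa [Ne, toC_eq_zero]
    split_ifs with h3
    · rw [hG]
      simp only
      have e2 : ∀ b : Eis, IsPrim b → (if δ.1 * b = 0 then 0 else
          rc φ v (toC (δ.1 * b)) * Coef92.SC (A4 m x ψ 0) (3 * m) ν (δ.1 * b)) =
          (nm m : ℂ) * (Lam δ.1 ν * (((nm δ.1 : ℝ)⁻¹ : ℝ) : ℂ) * (twc m ψ δ.1 *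
            (twc m ψ b * conj (gs (δ.1 * ν) b) * rc φ (v / toC δ.1) (toC b)))) := by
        intro b hb
        have hb0 := hb.ne_zero
        rw [if_neg (mul_ne_zero hδ0 hb0), SC_A4_zero hm hψ hx h3 hδ hb]
        unfold rc
        rw [map_mul, norm_mul, mul_pow, norm_toC_sq, div_div, mul_inv]
        push_cast
        ring
      unfold Cw
      rw [← tsum_mul_left, ← tsum_mul_left, ← tsum_mul_left]
      have e3 : ∑' b : BM (3 : Eis), (if δ.1 * b.1 = 0 then 0 else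
          rc φ v (toC (δ.1 * b.1)) * Coef92.SC (A4 m x ψ 0) (3 * m) ν (δ.1 * b.1)) =
          ∑' b : Eis, (BM (3 : Eis)).indicator (fun b => (if δ.1 * b = 0 then 0 else
          rc φ v (toC (δ.1 * b)) * Coef92.SC (A4 m x ψ 0) (3 * m) ν (δ.1 * b))) b :=
        tsum_subtype (BM (3 : Eis)) (fun b => (if δ.1 * b = 0 then 0 else
          rc φ v (toC (δ.1 * b)) * Coef92.SC (A4 m x ψ 0) (3 * m) ν (δ.1 * b)))
      rw [e3]
      refine tsum_congr fun b => ?_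
      by_cases hb : IsPrim b
      · rw [Set.indicator_of_mem (show b ∈ BM (3 : Eis) from ⟨hb, hb.isCoprime_three⟩), if_pos hb,
          e2 b hb]
      · rw [Set.indicator_of_notMem (fun h : b ∈ BM (3 : Eis) => hb h.1), if_neg hb, mul_zero,
          mul_zero, mul_zero]
    · have e2 : ∀ b : BM (3 : Eis), (if δ.1 * b.1 = 0 then 0 else
          rc φ v (toC (δ.1 * b.1)) * Coef92.SC (A4 m x ψ 0) (3 * m) ν (δ.1 * b.1)) = 0 := by
        intro b
        split_ifs with h0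
        · rfl
        · rw [SC_A4 hm hψ hx 0 h0]
          have h1 : F1.SC (a4 0) ν (δ.1 * b.1) = 0 := by
            refine SC_aI_not_dvd h0 (fun h => ?_) ν
            exact h3 ((IsCoprime.symm b.2.2).dvd_of_dvd_mul_right h)
          rw [h1, mul_zero, mul_zero, mul_zero]
      rw [tsum_congr e2, tsum_zero]
  rw [tsum_congr e1]
  have e4 : ∑' δ : SM (3 : Eis), (if (3 : Eis) ∣ δ.1 then Gf δ.1 else 0) =
      ∑' δ : Eis, (SM (3 : Eis)).indicator (fun δ => if (3 : Eis) ∣ δ then Gf δ else 0) δ :=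
    tsum_subtype (SM (3 : Eis)) (fun δ => if (3 : Eis) ∣ δ then Gf δ else 0)
  rw [e4, tsum_eq_sum (s := Dl ν), Finset.mul_sum]
  · refine Finset.sum_congr rfl fun δ hδ => ?_
    rw [mem_Dl hν] at hδ
    rw [Set.indicator_of_mem hδ.1, if_pos hδ.2.1]
  · intro δ hδ
    rw [mem_Dl hν] at hδ
    by_cases h1 : δ ∈ SM (3 : Eis)
    · rw [Set.indicator_of_mem h1]
      split_ifs with h3
      · have h4 : ¬ δ ∣ 3 * ν := fun h4 => hδ ⟨h1, h3, h4⟩
        rw [hG]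
        simp only
        rw [Lam_eq_zero h3 h1 h4, zero_mul, zero_mul, mul_zero]
      · rfl
    · rw [Set.indicator_of_notMem h1]

/-! ### `LS`, `RS` -/

variable {n : ℕ} {s : ℂ} {ξ : Eis → ℂ} {V : ℝ} {h0 B : ℂ} {f : ℂ → ℂ}

theorem LS_eval (hm : IsPrim m) (hψ : IsCh m ψ) {ν : Eis} (hx : m ∣ 3 * x + ν) :
    Coef92.LS n ξ f (A4 m x ψ 1) (3 * m) ν =
      (nm m : ℂ) * Cw (twc m ψ) ν (fPn n ξ f) := by
  classical
  have h := tsum_pos' hm hψ hx (j := 1) (by decide) (fPn n ξ f)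
  have e : eC (toC (t4 1 * ν) / (toC s3 * 3)) = 1 := by
    have : t4 1 = 0 := rfl
    rw [this, zero_mul, map_zero, zero_div, Parseval499.eC_zero]
  rw [e, one_mul] at h
  exact h

lemma rs_rc (N ν : Eis) (a : Eis × Eis → ℂ) :
    open Classical in
    Coef92.RS n ξ V h0 B f a N ν = ∑' c : Eis, (if c = 0 then 0 else
      rc (fOn n ξ V h0 B f) (frq (toC N) ν) (toC c) * Coef92.SC a N ν c) := by
  classical
  unfold Coef92.RS
  refine tsum_congr fun c => ?_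
  split_ifs with hc
  · rfl
  · unfold rc
    rw [norm_toC_sq]

theorem RS_pos (hm : IsPrim m) (hψ : IsCh m ψ) {ν : Eis} (hx : m ∣ 3 * x + ν) {j : Fin 4}
    (hj : j ≠ 0) :
    Coef92.RS n ξ V h0 B f (A4 m x ψ j) (3 * m) ν =
      (nm m : ℂ) * (eC (toC (t4 j * ν) / (toC s3 * 3)) *
        Cw (twc m ψ) ν (rc (fOn n ξ V h0 B f) (frq (toC (3 * m)) ν))) := by
  rw [rs_rc]
  exact tsum_pos' hm hψ hx hj _

theorem RS_zero (hm : IsPrim m) (hψ : IsCh m ψ) {ν : Eis} (hν : ν ≠ 0) (hx : m ∣ 3 * x + ν)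
    {C : ℝ} (hC : ∀ y : ℂ, y ≠ 0 → ‖fOn n ξ V h0 B f y‖ ≤ C * ‖y‖ ^ 4) :
    Coef92.RS n ξ V h0 B f (A4 m x ψ 0) (3 * m) ν =
      (nm m : ℂ) * ∑ δ ∈ Dl ν, Lam δ ν * (((nm δ : ℝ)⁻¹ : ℝ) : ℂ) *
        (twc m ψ δ * Cw (twc m ψ) (δ * ν)
          (rc (fOn n ξ V h0 B f) (frq (toC (3 * m)) ν / toC δ))) := by
  have h3m : (3 * m : Eis) ≠ 0 := three_mul_ne hm.ne_zero
  rw [rs_rc]
  exact tsum_zero' hm hψ hν hx (summable_rc hC (Coef92.frq_ne_zero h3m hν)
    (norm_A4_le hm.ne_zero hψ 0) h3m ν)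

end Crest.Agent.R017.Tw3
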