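import Crest.Agent.R017.Tw3P2_266
import Crest.Agent.R017.Tw3G_541
import Crest.Agent.R017.CD7_47
import Crest.Agent.R017.F1Pol1_180

/-!
# Row 17, twisted cubic F1, wrong parity (helper266), part 3: `OddAll`
-/

set_option autoImplicit false

noncomputable section

open Complex MeasureTheory Set
open scoped ComplexConjugate SchwartzMap

namespace Crest.Agent.R017.Tw3P266

open Crest.Agent.R012 Crest.Agent.R012.Eis Crest.Agent.R012.Gauss880 Crest.Agent.R012.Mob705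
open Crest.Agent.R012.Sym645 (prim_nm_mod)
open Crest.Agent.R012.K695 (det2 n2 Vec EC rowv)
open Crest.Agent.R012.Parseval499 (par covol frq s3 covol_pos toC_s3_ne)
open Crest.Agent.R017.F1 hiding SA scl dil
open Crest.Agent.R017.Loc266
open Crest.Agent.R017.Xn590 Crest.Agent.R017.Tw3
open Crest.Agent.R017.Glue681 (CS_of_DatN summable_fPn)
open Crest.Agent.R017.CD47 (LPr Cgt dph GenId OddId OddAll)

variable {m x : Eis} {φ : Eis → ℂ}

/-! ### the character `sy(·, m) φ` -/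

/-- `ψ = (·/m)_3 φ` -/
def ps (m : Eis) (φ : Eis → ℂ) (c : Eis) : ℂ := sy c m * φ c

lemma isCh_ps (hm : IsPrim m) (hφ : IsCh m φ) : IsCh m (ps m φ) where
  one := by
    unfold ps
    rw [hφ.one, Sym645.sy_one_left (prim_nm_mod hm), one_mul]
  mul a b := by
    unfold ps
    rw [hφ.mul, Char766.sy_mul_left hm]; ring
  per a t := by
    unfold ps
    rw [hφ.per, Sym645.sy_congr (prim_nm_mod hm) (x := a + m * t) (y := a) ⟨t, by ring⟩]
  zero a h := by
    unfold ps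
    rw [hφ.zero a h, mul_zero]

lemma sy3 (hm : IsPrim m) {c : Eis} (hc : IsCoprime c m) : sy c m ^ 3 = 1 :=
  Char766.sy_cube hm hc

lemma syc (hm : IsPrim m) {c : Eis} (hc : IsCoprime c m) : conj (sy c m) * sy c m = 1 := by
  rw [Char766.conj_sy hm]
  have := sy3 hm hc
  linear_combination this

lemma twD_ps (hm : IsPrim m) (T : TwD m φ) : TwD m (ps m φ) where
  m0 := T.m0
  lm := T.lm
  ch := isCh_ps hm T.ch
  p3 p hp hpm := by
    obtain ⟨u, hu, hd, h1⟩ := T.p3 p hp hpm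
    refine ⟨u, hu, hd, fun h => h1 ?_⟩
    beta_reduce at h ⊢
    unfold ps at h
    rw [mul_pow, sy3 hm hu, one_mul] at h
    exact h

lemma twc_ps (hm : IsPrim m) (hφ : IsCh m φ) : twc m (ps m φ) = φ := by
  funext c
  unfold twc ps
  by_cases hc : IsCoprime c m
  · have := syc hm hc
    linear_combination (φ c) * this
  · rw [hφ.zero c hc]; ring

lemma twc_ps' (hm : IsPrim m) (hφ : IsCh m φ) :
    twc m (fun z => conj (ps m φ z)) = dph m φ := by
  funext c
  unfold twc ps dph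
  by_cases hc : IsCoprime c m
  · have h1 := syc hm hc
    have h2 := Char766.conj_sy hm (x := c)
    show conj (sy c m) * conj (sy c m * φ c) = sy c m * conj (φ c)
    rw [map_mul]
    rw [h2] at h1 ⊢
    linear_combination (sy c m * conj (φ c)) * h1
  · simp [hφ.zero c hc]

lemma ps_neg_one (hm : IsPrim m) : ps m φ (-1) = φ (-1) := by
  unfold ps
  rw [Sym645.sy_neg (prim_nm_mod hm), Sym645.sy_one_left (prim_nm_mod hm), one_mul]

/-! ### the left side -/

lemma xo_ps_prim (hm : IsPrim m) (hφ : IsCh m φ) {e : Eis} (he : IsPrim e) :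
    xo (ps m φ) e = φ e ^ 3 := by
  unfold xo ps
  rw [qd_prim he, mul_one, mul_pow]
  by_cases hc : IsCoprime e m
  · rw [sy3 hm hc, one_mul]
  · rw [hφ.zero e hc]; simp

lemma unit_cases {u : Eis} (hu : IsUnit u) : (u ^ 3 = 1 ∧ qd u = 1) ∨ (u ^ 3 = -1 ∧ qd u = -1) := by
  have hw : qd w = 1 := by
    have : r3 w = 1 := by decide
    unfold qd
    rw [this]
    have : q3 1 = 1 := rfl
    rw [this]; norm_num
  have hwk : ∀ k : ℕ, qd (w ^ k) = 1 := by
    intro k
    induction k with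
    | zero => rw [pow_zero, qd_one]
    | succ k ih => rw [pow_succ, qd_mul, ih, hw, one_mul]
  obtain ⟨k, -, rfl | rfl⟩ := isUnit_exists hu
  · left
    refine ⟨?_, hwk k⟩
    rw [← pow_mul, mul_comm, pow_mul, w_cube, one_pow]
  · right
    refine ⟨?_, ?_⟩
    · have h1 : (-w ^ k : Eis) ^ 3 = -((w ^ 3) ^ k) := by ring
      rw [h1, w_cube, one_pow]
    · rw [show (-w ^ k : Eis) = (-1) * w ^ k by ring, qd_mul, qd_neg_one, hwk, mul_one]

lemma ps_unit (hm : IsPrim m) (hφ : IsCh m φ) {u : Eis} (hu : IsUnit u) :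
    (u ^ 3 = 1 ∧ xo (ps m φ) u = 1) ∨ (u ^ 3 = -1 ∧ xo (ps m φ) u = -φ (-1)) := by
  have h3 : ∀ z : Eis, ps m φ z ^ 3 = ps m φ (z ^ 3) := by
    intro z
    have := (isCh_ps hm hφ).mul
    rw [pow_succ (z : Eis), pow_two, this, this]; ring
  rcases unit_cases hu with ⟨h1, h2⟩ | ⟨h1, h2⟩
  · left
    refine ⟨h1, ?_⟩
    unfold xo
    rw [h2, h3, h1, (isCh_ps hm hφ).one, mul_one]
  · right
    refine ⟨h1, ?_⟩
    unfold xo
    rw [h2, h3, h1, ps_neg_one hm]; ring

theorem fPn_ps (hm : IsPrim m) (T : TwD m φ) {f : ℂ → ℂ}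
    (hf : DatN 3 (-φ (-1)) (xo (ps m φ)) f) (c : ℂ) :
    open Classical in
    fPn 3 (xo (ps m φ)) f c =
      ∑' e : Eis, if IsPrim e then φ e ^ 3 * (nm e : ℂ) ^ 2 * f (toC e ^ 3 * c) else 0 := by
  classical
  set ξ := xo (ps m φ) with hξ
  set G : Eis → ℂ := fun e => ξ e * ((nm e : ℂ) ^ (3 - 1) * f (toC e ^ 3 * c)) with hG
  have hmul : ∀ a b, ξ (a * b) = ξ a * ξ b := (isCh_xo (isCh_ps hm T.ch)).mul
  have hs : (-φ (-1)) * (-φ (-1)) = 1 := by
    have := psi_neg_sq T.ch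
    linear_combination this
  have hu : ∀ u e, IsUnit u → G (u * e) = G e := by
    intro u e hu
    simp only [hG]
    have hn : nm (u * e) = nm e := by rw [nm_mul, isUnit_iff.mp hu, one_mul]
    rw [hn, hmul]
    rcases ps_unit hm T.ch hu with ⟨h1, h2⟩ | ⟨h1, h2⟩
    · have e1 : toC (u * e) ^ 3 * c = toC e ^ 3 * c := by
        rw [← map_pow, mul_pow, h1, one_mul, map_pow]
      rw [e1, ← hξ] at *
      rw [h2, one_mul]
    · have e1 : toC (u * e) ^ 3 * c = -(toC e ^ 3 * c) := by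
        rw [← map_pow, mul_pow, h1, neg_one_mul, map_neg, map_pow]; ring
      rw [e1, hf.par, ← hξ] at *
      rw [h2]
      linear_combination (ξ e * ((nm e : ℂ) ^ (3 - 1) * f (toC e ^ 3 * c))) * hs
  have hl : ∀ e, G (lam * e) = 0 := by
    intro e
    have h1 : ξ (lam * e) = 0 := by
      rw [hξ]
      unfold xo
      rw [qd_zero (associated_lam_sq3.symm.dvd.trans (dvd_mul_right _ _)), mul_zero]
    simp only [hG]
    rw [h1, zero_mul]
  have hsum : Summable G := summable_fPn (by norm_num) (CS_of_DatN hf) c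
  have h := tsum_prim_of_all hsum hu
  rw [tsum_congr hl, tsum_zero, sub_zero] at h
  unfold fPn
  rw [← h]
  refine tsum_congr fun e => ?_
  by_cases he : IsPrim e
  · rw [if_pos he, if_pos he]
    simp only [hG]
    rw [hξ, xo_ps_prim hm T.ch he]
    ring
  · rw [if_neg he, if_neg he]

lemma cw_fPn (hm : IsPrim m) (T : TwD m φ) {f : ℂ → ℂ}
    (hf : DatN 3 (-φ (-1)) (xo (ps m φ)) f) (ν : Eis) :
    Cw φ ν (fPn 3 (xo (ps m φ)) f) = LPr φ ν f := by
  classical
  unfold Cw LPr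
  refine tsum_congr fun c => ?_
  by_cases hc : IsPrim c
  · rw [if_pos hc, if_pos hc, fPn_ps hm T hf]
  · rw [if_neg hc, if_neg hc]

/-! ### the right side -/

lemma fOn_lin (ξ : Eis → ℂ) (V : ℝ) (h0 B : ℂ) (f : ℂ → ℂ) (z : ℂ) :
    fOn 3 ξ V h0 B f z = B * fOn 3 ξ V h0 1 f z := by
  unfold fOn
  ring

lemma cw_cgt (w : Eis → ℂ) (u : Eis) (F : ℂ → ℂ) : Cw w u F = Cgt w u F := by
  classical
  unfold Cw Cgt
  rfl

lemma cw_lin (w : Eis → ℂ) (u : Eis) (B : ℂ) (F : ℂ → ℂ) :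
    Cw w u (fun z => B * F z) = B * Cw w u F := by
  classical
  unfold Cw
  rw [← tsum_mul_left]
  refine tsum_congr fun c => ?_
  split_ifs <;> ring

/-- `rc` of `fOn` at `v / (3 √-3)`. -/
lemma rc_lin (ξ : Eis → ℂ) (V : ℝ) (h0 B : ℂ) (f : ℂ → ℂ) (v : ℂ) :
    rc (fOn 3 ξ V h0 B f) (v / (3 * toC s3)) =
      fun z => B * rc (fun z => fOn 3 ξ V h0 1 f (z / (3 * toC s3))) v z := by
  funext z
  unfold rc
  rw [fOn_lin, div_right_comm]
  ring

lemma exists_x (hm : IsPrim m) {ν : Eis} (hν : IsCoprime ν m) :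
    ∃ x, m ∣ 3 * x + ν ∧ IsCoprime x m := by
  obtain ⟨a, b, hab⟩ := hm.isCoprime_three
  refine ⟨-(b * ν), ⟨a * ν, ?_⟩, ?_⟩
  · linear_combination (-ν) * hab
  · have hb : IsCoprime b m := ⟨3, a, by linear_combination hab⟩
    exact (hb.mul_left hν).neg_left

/-- **`OddAll`** -/
theorem oddAll : OddAll := by
  classical
  intro m φ hm T
  set ψ := ps m φ with hψ
  have Tψ : TwD m ψ := twD_ps hm T
  have hch := Tψ.ch
  have hn1 : ψ (-1) = φ (-1) := ps_neg_one hm
  set ξ := xo ψ with hξ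
  set K : ℂ := (1 / 2) * ((covol (toC (3 * m)) : ℂ)⁻¹ *
    (conj (ψ 3) * gl (fun z => conj (ψ z)) 1 m)) with hK
  refine ⟨ξ, 1 / 2, toC 1, 1, 1, -1, 1, K, toC sq3 * toC (sq3 * m), po m ψ, xiPo Tψ,
    toC_ne_zero one_ne_zero, ?_, ?_⟩
  · rw [hξ]
    unfold xo
    rw [qd_zero (dvd_zero _), mul_zero]
  · intro f hf ν hν hνm
    obtain ⟨x, hx, hxm⟩ := exists_x hm hνm
    have hf' : DatN 3 (-ψ (-1)) (xo ψ) f := by rw [hn1]; exact hf
    have key := coef_o Tψ hxm hf' 1 hν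
    have h3m : (3 * m : Eis) ≠ 0 := three_mul_ne hm.ne_zero
    obtain ⟨C, hC⟩ := decThmN 3 _ _ _ _ _ _ _ _ (xiPo Tψ) (xnC_o Tψ hxm) f hf' 4
    -- the constant
    have hB : wo m x ψ = K * (φ ν * sy ν m) := by
      unfold wo tc
      have h1 : ψ (-x) = conj (ψ 3) * ψ ν := by
        have h2 : ψ 3 * ψ (-x) = ψ ν := by
          rw [← hch.mul]
          apply hch.per.congr
          rw [show 3 * -x - ν = -(3 * x + ν) by ring, dvd_neg]
          exact hx
        have h3 : ψ 3 * conj (ψ 3) = 1 := hch.mul_conj_self hm.ne_zero hm.isCoprime_three.symm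
        linear_combination (conj (ψ 3)) * h2 - (ψ (-x)) * h3
      have h4 : ψ ν = sy ν m * φ ν := rfl
      rw [h1, h4, hK]
      ring
    -- the frequency
    have hfr : frq (toC (3 * m)) ν = toC ν / toC m / (3 * toC s3) := by
      unfold frq
      have hmC : toC m ≠ 0 := toC_ne_zero hm.ne_zero
      have hs := toC_s3_ne
      rw [map_mul, toC_three']
      field_simp
    have hn0 : (nm m : ℂ) ≠ 0 := nmC_ne hm.ne_zero
    set G2 : ℂ → ℂ := fun z => fOn 3 ξ (1 / 2) (toC 1) 1 f (z / (3 * toC s3)) with hG2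
    have e4t : (e4 0 1 : ℤ) = 1 ∧ (e4 1 1 : ℤ) = 0 ∧ (e4 2 1 : ℤ) = 1 ∧ (e4 3 1 : ℤ) = -1 := by
      decide
    rw [LS_eval hm hch hx, twc_ps hm T.ch, cw_fPn hm T hf, Fin.sum_univ_four, e4t.1, e4t.2.1,
      e4t.2.2.1, e4t.2.2.2, RS_zero hm hch.conj hν hx (C := C) (fun y hy => (hC y hy).1),
      RS_pos hm hch.conj hx (j := 2) (by decide), RS_pos hm hch.conj hx (j := 3) (by decide),
      twc_ps' hm T.ch, hfr, ← hξ] at key
    have t2 : eC (toC (t4 2 * ν) / (toC s3 * 3)) = eC (frq 3 ν) := by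
      have : t4 2 = 1 := rfl
      rw [this, one_mul]
      unfold frq
      rw [mul_comm (toC s3)]
    have t3 : eC (toC (t4 3 * ν) / (toC s3 * 3)) = eC (-frq 3 ν) := by
      have : t4 3 = -1 := rfl
      rw [this, neg_one_mul, map_neg]
      unfold frq
      rw [mul_comm (toC s3), neg_div]
    have hsum : ∑ δ ∈ Dl ν, Lam δ ν * (((nm δ : ℝ)⁻¹ : ℝ) : ℂ) *
        (dph m φ δ * Cw (dph m φ) (δ * ν)
          (rc (fOn 3 ξ (1 / 2) (toC 1) (wo m x ψ) f) (toC ν / toC m / (3 * toC s3) / toC δ))) =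
        wo m x ψ * ∑ δ ∈ Dl ν, Lam δ ν * (nm δ : ℂ)⁻¹ * dph m φ δ *
          Cgt (dph m φ) (δ * ν) (rc G2 (toC ν / (toC m * toC δ))) := by
      rw [Finset.mul_sum]
      refine Finset.sum_congr rfl fun δ _ => ?_
      have e1 : toC ν / toC m / (3 * toC s3) / toC δ = toC ν / (toC m * toC δ) / (3 * toC s3) := by
        rw [div_right_comm, div_div (toC ν)]
      rw [e1, rc_lin, cw_lin, cw_cgt]
      push_cast
      ring
    rw [hsum, t2, t3, rc_lin, cw_lin, cw_cgt] at key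
    have hfin : LPr φ ν f = wo m x ψ * ((eC (frq 3 ν) - eC (-frq 3 ν)) *
        Cgt (dph m φ) ν (rc G2 (toC ν / toC m)) +
        ∑ δ ∈ Dl ν, Lam δ ν * (nm δ : ℂ)⁻¹ * dph m φ δ *
          Cgt (dph m φ) (δ * ν) (rc G2 (toC ν / (toC m * toC δ)))) := by
      apply mul_left_cancel₀ hn0
      rw [key]
      push_cast
      ring
    rw [hfin, hB]
    ring

end Crest.Agent.R017.Tw3P266
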