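import Crest.Agent.R017.Tw3I_541
import Crest.Agent.R017.Tw3P3_266
import Crest.Agent.R017.Hi6_681

/-!
# Row 17: C.F1tw, the twisted cubic functional equation for all Hecke characters (assembly)

`Tw3.stepPure3` and `Tw3.f1tw` : no hypotheses left (47's glue, 541's `evenAll`, 266's `oddAll`,
681's `notLowAll`, 590's splitting at the primes with `ψ_p³ = 1`).
-/

set_option autoImplicit false

namespace Crest.Agent.R017.Tw3

open Crest.Agent.R012 Crest.Agent.R012.Eis
open Crest.Agent.R017.End699 (HC)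
open Crest.Agent.R017.C590 (StepPure3 HasFE3 NoPole)

theorem stepPure3 : StepPure3 :=
  CD47.stepPure3_of Hi681.notLowAll evenAll Tw3P266.oddAll

/-- **C.F1tw** -/
theorem f1tw {M : Eis} (h9 : (9 : Eis) ∣ M) {ψ : Eis → ℂ} (hψ : HC M ψ) {l : ℤ}
    (hl : NoPole M ψ l) : HasFE3 M ψ l :=
  CD47.f1tw_of Hi681.notLowAll evenAll Tw3P266.oddAll h9 hψ hl

end Crest.Agent.R017.Tw3
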