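import Crest.Agent.R017.E4defs_352
import Crest.Agent.R017.F1Tw_541

/-!
# Row 17, C70/E4: the functional equation for one weight, case R (helper266)

* `WTf W` : families of dual weights, bounded at `0`, rapidly decreasing at `∞`, polynomial in the height
* `wt_uniform` : uniform constants for finitely many families
* `law_R` : `E4352.Law` with `mt = 0` for `(ψ, l)` without main term
-/

set_option autoImplicit false

noncomputable section

open Complex Set
open scoped ComplexConjugate ContDiff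

namespace Crest.Agent.R017.E4L266

open Crest.Agent.R012 Crest.Agent.R012.Eis
open Crest.Agent.R017.End699 Crest.Agent.R017.B770 Crest.Agent.R017.C590
open Crest.Agent.R017.Sx440 Crest.Agent.R017.E4352

/-- families of dual weights: smooth, bounded at `0`, rapidly decreasing at `∞` with all logarithmic
derivatives, polynomially in the height. -/
structure WTf (W : ℝ → ℝ → ℂ) : Prop where
  smooth : ∀ τ, ContDiffOn ℝ (⊤ : ℕ∞) (W τ) (Set.Ioi 0)
  dec : ∀ m N : ℕ, ∃ C A : ℝ, 0 ≤ C ∧ ∀ τ y, 0 < y →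
    ‖iteratedDeriv m (fun x => W τ (Real.exp x)) (Real.log y)‖ ≤
      C * (1 + |τ|) ^ A * min 1 ((y ^ N)⁻¹)

lemma wtf_of_rd {W : ℝ → ℝ → ℂ} (hW : RD W) : WTf W where
  smooth := hW.smooth
  dec := by
    intro m N
    obtain ⟨C, A, hC, h⟩ := hW.dec m N
    obtain ⟨C', A', hC', h'⟩ := hW.dec m 0
    refine ⟨max C C', max A A', le_max_of_le_left hC, fun τ y hy => ?_⟩
    have h1 : (1 : ℝ) ≤ 1 + |τ| := by have := abs_nonneg τ; linarith
    have e1 : C * (1 + |τ|) ^ A ≤ max C C' * (1 + |τ|) ^ max A A' :=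
      mul_le_mul (le_max_left _ _) (Real.rpow_le_rpow_of_exponent_le h1 (le_max_left _ _))
        (by positivity) (le_max_of_le_left hC)
    have e2 : C' * (1 + |τ|) ^ A' ≤ max C C' * (1 + |τ|) ^ max A A' :=
      mul_le_mul (le_max_right _ _) (Real.rpow_le_rpow_of_exponent_le h1 (le_max_right _ _))
        (by positivity) (le_max_of_le_left hC)
    have g1 := h τ y hy
    have g2 := h' τ y hy
    rw [pow_zero, inv_one, min_self, mul_one] at g2
    rw [mul_min_of_nonneg _ _ (by positivity), mul_one]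
    refine le_min (g2.trans e2) (g1.trans ?_)
    exact mul_le_mul e1 (min_le_right _ _) (by positivity) (by positivity)

/-- uniform constants -/
lemma wt_uniform {ι : Type} [Fintype ι] {W : ι → ℝ → ℝ → ℂ} (hW : ∀ i, WTf (W i)) (m₀ N₀ : ℕ) :
    ∃ C A : ℝ, 0 ≤ C ∧ ∀ τ i, WT m₀ N₀ (C * (1 + |τ|) ^ A) (W i τ) := by
  classical
  choose C A hC h using fun i m => (hW i).dec m N₀
  set CC : ℝ := ∑ i, ∑ m ∈ Finset.range (m₀ + 1), C i m with hCC
  set AA : ℝ := ∑ i, ∑ m ∈ Finset.range (m₀ + 1), |A i m| with hAA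
  have c1 : ∀ i m, m ≤ m₀ → C i m ≤ CC := by
    intro i m hm
    have e1 : C i m ≤ ∑ m ∈ Finset.range (m₀ + 1), C i m :=
      Finset.single_le_sum (f := fun m => C i m) (fun m _ => hC i m)
        (Finset.mem_range.mpr (by omega))
    refine e1.trans ?_
    exact Finset.single_le_sum (f := fun i => ∑ m ∈ Finset.range (m₀ + 1), C i m)
      (fun i _ => Finset.sum_nonneg fun m _ => hC i m) (Finset.mem_univ i)
  have c2 : ∀ i m, m ≤ m₀ → A i m ≤ AA := by
    intro i m hm
    have e1 : |A i m| ≤ ∑ m ∈ Finset.range (m₀ + 1), |A i m| :=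
      Finset.single_le_sum (f := fun m => |A i m|) (fun m _ => abs_nonneg _)
        (Finset.mem_range.mpr (by omega))
    refine (le_abs_self _).trans (e1.trans ?_)
    exact Finset.single_le_sum (f := fun i => ∑ m ∈ Finset.range (m₀ + 1), |A i m|)
      (fun i _ => Finset.sum_nonneg fun m _ => abs_nonneg _) (Finset.mem_univ i)
  have hCC0 : 0 ≤ CC := Finset.sum_nonneg fun i _ => Finset.sum_nonneg fun m _ => hC i m
  refine ⟨CC, AA, hCC0, fun τ i => ⟨(hW i).smooth τ, fun m hm y hy => ?_⟩⟩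
  have h1 : (1 : ℝ) ≤ 1 + |τ| := by have := abs_nonneg τ; linarith
  refine (h i m τ y hy).trans ?_
  refine mul_le_mul_of_nonneg_right ?_ (le_min zero_le_one (by positivity))
  exact mul_le_mul (c1 i m hm) (Real.rpow_le_rpow_of_exponent_le h1 (c2 i m hm)) (by positivity) hCC0

/-- **case R**: `Law` without main term, for every Hecke character `(ψ, l)` without pole -/
theorem law_R {M : Eis} (h9 : (9 : Eis) ∣ M) {ψ : Eis → ℂ} (hψ : HC M ψ) {l : ℤ}
    (hl : NoPole M ψ l) :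
    ∃ (ι : Type) (_ : Fintype ι) (D : Dt3 ι), D.OK M ∧ ∀ V : ℝ → ℂ, SW V → ∀ m₀ N₀ : ℕ,
      ∃ C A : ℝ, 0 ≤ C ∧ ∀ τ : ℝ, ∃ W : ι → ℝ → ℂ,
        Law M ψ l D (fun y => (y : ℂ) ^ (I * τ) * V y) W (fun _ _ => 0) ∧
        ∀ i, WT m₀ N₀ (C * (1 + |τ|) ^ A) (W i) := by
  obtain ⟨ι, iι, D, hD, hFE⟩ := Tw3.f1tw h9 hψ hl
  refine ⟨ι, iι, D, hD, fun V hV m₀ N₀ => ?_⟩
  obtain ⟨W, hW, h5⟩ := hFE V hV
  obtain ⟨C, A, hC, hw⟩ := wt_uniform (fun i => wtf_of_rd (hW i)) m₀ N₀
  refine ⟨C, A, hC, fun τ => ⟨fun i => W i τ, fun u hu Q hQ => ?_, fun i => hw τ i⟩⟩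
  rw [h5 u hu Q hQ τ, sub_self, norm_zero]

end Crest.Agent.R017.E4L266
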