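import Mathlib

/-!
# Row 17: a small verified checker for trees of linear certificates (helper45)

A point is a list `p` of nonnegative reals, `p 0 = 1`; a linear form is a pair `(P, N)` of lists of
naturals with value `Σ (P_i - N_i) p_i`.  `check` runs through a tree whose leaves are closers
(lists of forms that are certified nonnegative) or contradictions; `check_sound` is the soundness.
-/

set_option autoImplicit false

namespace Crest.Agent.R017.Rf45

/-- `Σ a_i x_i` -/
noncomputable def dot : List ℕ → List ℝ → ℝ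
  | [], _ => 0
  | _ :: _, [] => 0
  | a :: l, x :: p => (a : ℝ) * x + dot l p

@[simp] lemma dot_nil (p : List ℝ) : dot [] p = 0 := by cases p <;> rfl
@[simp] lemma dot_nil' (a : List ℕ) : dot a [] = 0 := by cases a <;> rfl
@[simp] lemma dot_cons (a : ℕ) (l : List ℕ) (x : ℝ) (p : List ℝ) :
    dot (a :: l) (x :: p) = (a : ℝ) * x + dot l p := rfl

/-- a linear form -/
abbrev F := List ℕ × List ℕ

/-- value of a form -/
noncomputable def val (f : F) (p : List ℝ) : ℝ := dot f.1 p - dot f.2 p

/-- `m a + b` -/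
noncomputable def lax (m : ℕ) (a : List ℕ) : List ℕ → List ℕ :=
  @List.rec ℕ (fun _ => List ℕ → List ℕ) (fun b => b)
    (fun x _ ih b => @List.rec ℕ (fun _ => List ℕ) (Nat.mul m x :: ih [])
      (fun y b' _ => Nat.add (Nat.mul m x) y :: ih b') b) a

lemma dot_lax (m : ℕ) (a : List ℕ) : ∀ (b : List ℕ) (p : List ℝ),
    dot (lax m a b) p = (m : ℝ) * dot a p + dot b p := by
  induction a with
  | nil => intro b p; simp [lax]
  | cons x a ih =>
    intro b p
    cases b with
    | nil =>
      cases p with
      | nil => simp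
      | cons y p =>
        have h := ih [] p
        change ((Nat.mul m x : ℕ) : ℝ) * y + dot (lax m a []) p = _
        rw [h]
        simp only [Nat.mul_eq, Nat.cast_mul, dot_cons, dot_nil]
        ring
    | cons z b =>
      cases p with
      | nil => simp
      | cons y p =>
        have h := ih b p
        change ((Nat.add (Nat.mul m x) z : ℕ) : ℝ) * y + dot (lax m a b) p = _
        rw [h]
        simp only [Nat.mul_eq, Nat.add_eq, Nat.cast_mul, Nat.cast_add, dot_cons]
        ring

/-- coordinatewise `≤` -/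
noncomputable def lle (a : List ℕ) : List ℕ → Bool :=
  @List.rec ℕ (fun _ => List ℕ → Bool) (fun _ => true)
    (fun x _ ih b => @List.rec ℕ (fun _ => Bool)
      (@Bool.rec (fun _ => Bool) false (ih []) (Nat.ble x 0))
      (fun y b' _ => @Bool.rec (fun _ => Bool) false (ih b') (Nat.ble x y)) b) a

lemma bool_rec_eq {b c : Bool} (h : @Bool.rec (fun _ => Bool) false c b = true) :
    b = true ∧ c = true := by
  cases b
  · simp at h
  · exact ⟨rfl, h⟩

lemma dot_nonneg {p : List ℝ} (hp : ∀ x ∈ p, 0 ≤ x) : ∀ a : List ℕ, 0 ≤ dot a p := by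
  induction p with
  | nil => intro a; simp
  | cons y p ih =>
    intro a
    cases a with
    | nil => simp
    | cons x a =>
      rw [dot_cons]
      have h1 : 0 ≤ y := hp y (by simp)
      have h2 := ih (fun x hx => hp x (by simp [hx])) a
      positivity

lemma dot_lle (a : List ℕ) : ∀ (b : List ℕ) (p : List ℝ), lle a b = true → (∀ x ∈ p, 0 ≤ x) →
    dot a p ≤ dot b p := by
  induction a with
  | nil => intro b p _ hp; simpa using dot_nonneg hp b
  | cons x a ih =>
    intro b p h hp
    cases p with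
    | nil => simp
    | cons z p =>
      have hz : 0 ≤ z := hp z (by simp)
      have hp' : ∀ x ∈ p, 0 ≤ x := fun x hx => hp x (by simp [hx])
      cases b with
      | nil =>
        have h' := bool_rec_eq (c := lle a []) (b := Nat.ble x 0) h
        have h1 := Nat.le_of_ble_eq_true h'.1
        have h2 := ih [] p h'.2 hp'
        have h3 : x = 0 := by omega
        rw [dot_cons, h3]
        simpa using h2
      | cons y b =>
        have h' := bool_rec_eq (c := lle a b) (b := Nat.ble x y) h
        have h1 := Nat.le_of_ble_eq_true h'.1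
        have h2 := ih b p h'.2 hp'
        rw [dot_cons, dot_cons]
        have h3 : (x : ℝ) ≤ y := by exact_mod_cast h1
        have h4 := mul_le_mul_of_nonneg_right h3 hz
        linarith

/-- a constraint : `(strict, form)` -/
abbrev K := Bool × F

/-- the `i`-th constraint -/
noncomputable def nth (l : List K) : ℕ → K :=
  @List.rec K (fun _ => ℕ → K) (fun _ => (false, [], []))
    (fun x _ ih n => @Nat.rec (fun _ => K) x (fun k _ => ih k) n) l

/-- the constraint holds -/
def holds (p : List ℝ) (k : K) : Prop := 0 ≤ val k.2 p ∧ (k.1 = true → 0 < val k.2 p)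

lemma nth_holds {p : List ℝ} (l : List K) : (∀ k ∈ l, holds p k) → ∀ n, holds p (nth l n) := by
  induction l with
  | nil =>
    intro _ n
    refine ⟨?_, ?_⟩
    · change 0 ≤ val ([], []) p
      simp [val]
    · intro h
      exact absurd h (by change ¬ (false = true); simp)
  | cons x l ih =>
    intro h n
    cases n with
    | zero => exact h x (by simp)
    | succ n => exact ih (fun k hk => h k (by simp [hk])) n

/-- a certificate : list of `(index, multiplier)`, ending in the multiplier of the target -/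
inductive Ct
  | z : ℕ → Ct
  | k : ℕ → ℕ → Ct → Ct

/-- the certificate shows that the target `(P, N)` is at least `(L, R)` -/
noncomputable def comb (cs : List K) (P N : List ℕ) (s : Ct) : List ℕ → List ℕ → Bool :=
  @Ct.rec (fun _ => List ℕ → List ℕ → Bool)
    (fun D L R => @Bool.rec (fun _ => Bool) false (lle (lax D N L) (lax D P R)) (Nat.ble 1 D))
    (fun i m _ ih L R => @Prod.rec Bool F (fun _ => Bool)
      (fun _ f => @Prod.rec (List ℕ) (List ℕ) (fun _ => Bool)
        (fun A B => ih (lax m A L) (lax m B R)) f) (nth cs i)) s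

lemma comb_sound {cs : List K} {P N : List ℕ} {p : List ℝ} (hp : ∀ x ∈ p, 0 ≤ x)
    (hc : ∀ k ∈ cs, holds p k) (s : Ct) : ∀ L R : List ℕ, comb cs P N s L R = true →
      ∃ D : ℝ, 1 ≤ D ∧ dot L p - dot R p ≤ D * val (P, N) p := by
  induction s with
  | z D =>
    intro L R h
    have h' := bool_rec_eq (b := Nat.ble 1 D) (c := lle (lax D N L) (lax D P R)) h
    have h1 := Nat.le_of_ble_eq_true h'.1
    have h2 := dot_lle _ _ p h'.2 hp
    rw [dot_lax, dot_lax] at h2
    refine ⟨D, by exact_mod_cast h1, ?_⟩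
    simp only [val]
    linarith
  | k i m s ih =>
    intro L R h
    have hi := nth_holds cs hc i
    have h1 : comb cs P N s (lax m (nth cs i).2.1 L) (lax m (nth cs i).2.2 R) = true := h
    obtain ⟨D, hD, h2⟩ := ih _ _ h1
    refine ⟨D, hD, ?_⟩
    rw [dot_lax, dot_lax] at h2
    have h3 : 0 ≤ dot (nth cs i).2.1 p - dot (nth cs i).2.2 p := hi.1
    have h4 : 0 ≤ (m : ℝ) * (dot (nth cs i).2.1 p - dot (nth cs i).2.2 p) :=
      mul_nonneg (Nat.cast_nonneg m) h3
    linarith

/-- data of a closer : side conditions, lines of the first sum, lines of the second, base -/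
structure Cl where
  S : List F
  X : List F
  Y : List F
  b : F

/-- `b - x - y` -/
noncomputable def tgt (b x y : F) : F := (lax 1 b.1 (lax 1 x.2 y.2), lax 1 b.2 (lax 1 x.1 y.1))

lemma val_tgt (b x y : F) (p : List ℝ) : val (tgt b x y) p = val b p - val x p - val y p := by
  simp only [val, tgt, dot_lax, Nat.cast_one, one_mul]
  ring

/-- the closer applies at `p` -/
def Cl.ok (c : Cl) (p : List ℝ) : Prop :=
  (∀ s ∈ c.S, 0 ≤ val s p) ∧ ∀ x ∈ c.X, ∀ y ∈ c.Y, 0 ≤ val c.b p - val x p - val y p

/-- certificates for a list of targets -/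
noncomputable def chkl (cs : List K) : List F → List Ct → Bool
  | [], _ => true
  | _ :: _, [] => false
  | t :: ts, s :: l => comb cs t.1 t.2 s [] [] && chkl cs ts l

lemma comb_nonneg {cs : List K} {f : F} {p : List ℝ} (hp : ∀ x ∈ p, 0 ≤ x)
    (hc : ∀ k ∈ cs, holds p k) {s : Ct} (h : comb cs f.1 f.2 s [] [] = true) : 0 ≤ val f p := by
  obtain ⟨D, hD, h1⟩ := comb_sound hp hc s [] [] h
  simp only [dot_nil, sub_self] at h1
  by_contra hn
  push Not at hn
  have : D * val (f.1, f.2) p < 0 := mul_neg_of_pos_of_neg (by linarith) hn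
  linarith

lemma chkl_sound {cs : List K} {p : List ℝ} (hp : ∀ x ∈ p, 0 ≤ x) (hc : ∀ k ∈ cs, holds p k) :
    ∀ (ts : List F) (l : List Ct), chkl cs ts l = true → ∀ t ∈ ts, 0 ≤ val t p := by
  intro ts
  induction ts with
  | nil => intro l _ t ht; simp at ht
  | cons t ts ih =>
    intro l h
    cases l with
    | nil => simp [chkl] at h
    | cons s l =>
      simp only [chkl, Bool.and_eq_true] at h
      intro t' ht'
      rcases List.mem_cons.1 ht' with e | e
      · rw [e]; exact comb_nonneg hp hc h.1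
      · exact ih l h.2 t' e

/-- all targets of a closer -/
noncomputable def Cl.ts (c : Cl) : List F := c.S ++ c.X.flatMap fun x => c.Y.map fun y => tgt c.b x y

/-- the trees -/
inductive Tr
  | inf : ℕ → Ct → Tr
  | dn : ℕ → List Ct → Tr
  | br : List ℕ → List ℕ → Tr → Tr → Tr
  | cl : ℕ → Tr → Tr → Tr
  | em : ℕ → Tr

/-- the `n`-th closer -/
def nthC : List Cl → ℕ → Option Cl
  | [], _ => none
  | c :: _, 0 => some c
  | _ :: l, n + 1 => nthC l n

/-- the `n`-th clause -/
def nthS : List (List (List F)) → ℕ → Option (List (List F))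
  | [], _ => none
  | c :: _, 0 => some c
  | _ :: l, n + 1 => nthS l n

/-- clause `n` loses its first alternative -/
def dropS : List (List (List F)) → ℕ → List (List (List F))
  | [], _ => []
  | c :: l, 0 => c.tail :: l
  | c :: l, n + 1 => c :: dropS l n

/-- add the forms of an alternative (nonstrict) -/
def addA : List F → List K → List K
  | [], cs => cs
  | f :: l, cs => addA l ((false, f) :: cs)

/-- the checker -/
noncomputable def check (tab : List Cl) : Tr → List K → List (List (List F)) → Bool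
  | .inf t s, cs, _ =>
    match nth cs t with
    | (true, P, N) => comb cs N P s [] []
    | (false, P, N) => comb cs N P s [1] []
  | .dn c l, cs, _ =>
    match nthC tab c with
    | some C => chkl cs C.ts l
    | none => false
  | .br P N t1 t2, cs, st =>
    check tab t1 ((true, N, P) :: cs) st && check tab t2 ((false, P, N) :: cs) st
  | .cl j t1 t2, cs, st =>
    match nthS st j with
    | some (A :: _) => check tab t1 (addA A cs) st && check tab t2 cs (dropS st j)
    | _ => false
  | .em j, _, st =>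
    match nthS st j with
    | some [] => true
    | _ => false

/-- all clauses hold -/
def SatS (p : List ℝ) (st : List (List (List F))) : Prop :=
  ∀ c ∈ st, ∃ A ∈ c, ∀ f ∈ A, 0 ≤ val f p

lemma nthC_mem : ∀ (l : List Cl) (n : ℕ) (c : Cl), nthC l n = some c → c ∈ l
  | [], _, _, h => by simp [nthC] at h
  | a :: l, 0, c, h => by simp [nthC] at h; simp [h]
  | a :: l, n + 1, c, h => by
    simp only [nthC] at h
    exact List.mem_cons_of_mem _ (nthC_mem l n c h)

lemma nthS_mem : ∀ (l : List (List (List F))) (n : ℕ) (c : List (List F)), nthS l n = some c →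
    c ∈ l
  | [], _, _, h => by simp [nthS] at h
  | a :: l, 0, c, h => by simp [nthS] at h; simp [h]
  | a :: l, n + 1, c, h => by
    simp only [nthS] at h
    exact List.mem_cons_of_mem _ (nthS_mem l n c h)

lemma addA_holds {p : List ℝ} : ∀ (A : List F) (cs : List K), (∀ f ∈ A, 0 ≤ val f p) →
    (∀ k ∈ cs, holds p k) → ∀ k ∈ addA A cs, holds p k
  | [], _, _, hc => hc
  | f :: A, cs, hA, hc => by
    apply addA_holds A _ (fun g hg => hA g (by simp [hg]))
    intro k hk
    rcases List.mem_cons.1 hk with e | e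
    · rw [e]
      exact ⟨hA f (by simp), fun h => absurd h (by simp)⟩
    · exact hc k e

lemma dropS_sat {p : List ℝ} : ∀ (st : List (List (List F))) (j : ℕ) (A : List F)
    (r : List (List F)), nthS st j = some (A :: r) → SatS p st → (¬ ∀ f ∈ A, 0 ≤ val f p) →
      SatS p (dropS st j)
  | [], _, _, _, h, _, _ => by simp [nthS] at h
  | c :: l, 0, A, r, h, hs, hA => by
    simp only [nthS, Option.some.injEq] at h
    intro d hd
    simp only [dropS] at hd
    rcases List.mem_cons.1 hd with e | e
    · obtain ⟨B, hB, hB'⟩ := hs c (by simp)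
      rw [h] at hB
      rcases List.mem_cons.1 hB with e2 | e2
      · rw [e2] at hB'; exact absurd hB' hA
      · refine ⟨B, ?_, hB'⟩
        rw [e, h]
        exact e2
    · exact hs d (by simp [e])
  | c :: l, n + 1, A, r, h, hs, hA => by
    simp only [nthS] at h
    intro d hd
    simp only [dropS] at hd
    rcases List.mem_cons.1 hd with e | e
    · rw [e]; exact hs c (by simp)
    · exact dropS_sat l n A r h (fun d hd => hs d (by simp [hd])) hA d e

lemma holds_neg {p : List ℝ} {P N : List ℕ} (h : val (P, N) p < 0) : holds p (true, N, P) := by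
  have e : val (N, P) p = - val (P, N) p := by simp only [val]; ring
  refine ⟨?_, fun _ => ?_⟩
  · change 0 ≤ val (N, P) p
    rw [e]; linarith
  · change 0 < val (N, P) p
    rw [e]; linarith

/-- **soundness** : at every nonnegative point with first entry `1` satisfying the constraints and
the clauses some closer of the table applies -/
theorem check_sound {tab : List Cl} {p : List ℝ} (hp : ∀ x ∈ p, 0 ≤ x) (h1 : ∃ p', p = 1 :: p')
    (t : Tr) : ∀ (cs : List K) (st : List (List (List F))), check tab t cs st = true →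
      (∀ k ∈ cs, holds p k) → SatS p st → ∃ c ∈ tab, c.ok p := by
  induction t with
  | inf t s =>
    intro cs st h hc _
    exfalso
    have ht := nth_holds cs hc t
    simp only [check] at h
    rcases e : nth cs t with ⟨b, P, N⟩
    rw [e] at h ht
    have e1 : val (N, P) p = - val (P, N) p := by simp only [val]; ring
    cases b with
    | true =>
      have h2 : 0 ≤ val (N, P) p := comb_nonneg (f := (N, P)) hp hc h
      have h3 : 0 < val (P, N) p := ht.2 rfl
      linarith
    | false =>
      obtain ⟨D, hD, h2⟩ := comb_sound hp hc s [1] [] h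
      obtain ⟨p', hp'⟩ := h1
      have h3 : dot [1] p = 1 := by rw [hp']; simp
      have h4 : 0 ≤ val (P, N) p := ht.1
      rw [h3, dot_nil, e1] at h2
      have h5 : 0 ≤ D * val (P, N) p := mul_nonneg (by linarith) h4
      linarith
  | dn c l =>
    intro cs st h hc _
    simp only [check] at h
    rcases e : nthC tab c with _ | C
    · rw [e] at h; simp at h
    · rw [e] at h
      refine ⟨C, nthC_mem _ _ _ e, ?_⟩
      have h2 := chkl_sound hp hc _ _ h
      refine ⟨fun s hs => h2 s (by simp [Cl.ts, hs]), fun x hx y hy => ?_⟩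
      have h3 := h2 (tgt C.b x y) (by
        simp only [Cl.ts, List.mem_append, List.mem_flatMap, List.mem_map]
        exact Or.inr ⟨x, hx, y, hy, rfl⟩)
      rwa [val_tgt] at h3
  | br P N t1 t2 ih1 ih2 =>
    intro cs st h hc hs
    simp only [check, Bool.and_eq_true] at h
    rcases lt_or_ge (val (P, N) p) 0 with h3 | h3
    · refine ih1 _ _ h.1 ?_ hs
      intro k hk
      rcases List.mem_cons.1 hk with e | e
      · rw [e]; exact holds_neg h3
      · exact hc k e
    · refine ih2 _ _ h.2 ?_ hs
      intro k hk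
      rcases List.mem_cons.1 hk with e | e
      · rw [e]; exact ⟨h3, fun h => absurd h (by simp)⟩
      · exact hc k e
  | cl j t1 t2 ih1 ih2 =>
    intro cs st h hc hs
    simp only [check] at h
    rcases e : nthS st j with _ | ⟨_ | ⟨A, r⟩⟩
    · rw [e] at h; simp at h
    · rw [e] at h; simp at h
    · rw [e] at h
      simp only [Bool.and_eq_true] at h
      by_cases hA : ∀ f ∈ A, 0 ≤ val f p
      · exact ih1 _ _ h.1 (addA_holds A cs hA hc) hs
      · exact ih2 _ _ h.2 hc (dropS_sat st j A r e hs hA)
  | em j =>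
    intro cs st h hc hs
    simp only [check] at h
    rcases e : nthS st j with _ | ⟨_ | ⟨A, r⟩⟩
    · rw [e] at h; simp at h
    · obtain ⟨B, hB, _⟩ := hs [] (nthS_mem _ _ _ e)
      simp at hB
    · rw [e] at h; simp at h

/-! ### expressions -/

/-- linear expressions -/
inductive E
  | c : ℕ → E
  | v : ℕ → E
  | add : E → E → E
  | sub : E → E → E
  | sm : ℕ → ℕ → E → E

/-- entry of the point -/
noncomputable def get : List ℝ → ℕ → ℝ
  | [], _ => 0
  | x :: _, 0 => x
  | _ :: p, n + 1 => get p n

/-- value -/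
noncomputable def E.ev (p : List ℝ) : E → ℝ
  | .c n => n
  | .v i => get p i
  | .add a b => a.ev p + b.ev p
  | .sub a b => a.ev p - b.ev p
  | .sm n m a => (n : ℝ) / (m : ℝ) * a.ev p

/-- unit vector -/
def unit : ℕ → List ℕ
  | 0 => [1]
  | n + 1 => 0 :: unit n

lemma dot_unit : ∀ (n : ℕ) (p : List ℝ), dot (unit n) p = get p n
  | 0, [] => by simp [get]
  | 0, x :: p => by simp [get, unit]
  | n + 1, [] => by simp [get]
  | n + 1, x :: p => by simp [get, unit, dot_unit n p]

/-- normal form `(D, P, N)` : `D * ev = Σ (P - N) p` -/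
noncomputable def E.nf : E → ℕ × List ℕ × List ℕ
  | .c n => (1, [n], [])
  | .v i => (1, unit i, [])
  | .add a b =>
    match a.nf, b.nf with
    | (D, P, N), (D', P', N') =>
      (Nat.mul D D', lax D' P (lax D P' []), lax D' N (lax D N' []))
  | .sub a b =>
    match a.nf, b.nf with
    | (D, P, N), (D', P', N') =>
      (Nat.mul D D', lax D' P (lax D N' []), lax D' N (lax D P' []))
  | .sm n m a =>
    match a.nf with
    | (D, P, N) => (Nat.mul D m, lax n P [], lax n N [])

/-- all denominators are positive -/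
def E.good : E → Bool
  | .c _ => true
  | .v _ => true
  | .add a b => a.good && b.good
  | .sub a b => a.good && b.good
  | .sm _ m a => Nat.ble 1 m && a.good

lemma nf_sound {p : List ℝ} (hp : ∃ p', p = 1 :: p') : ∀ e : E, e.good = true →
    0 < e.nf.1 ∧ (e.nf.1 : ℝ) * e.ev p = val e.nf.2 p := by
  intro e
  induction e with
  | c n =>
    intro _
    obtain ⟨p', h⟩ := hp
    refine ⟨Nat.one_pos, ?_⟩
    simp [E.nf, E.ev, val, h]
  | v i =>
    intro _
    refine ⟨Nat.one_pos, ?_⟩
    simp [E.nf, E.ev, val, dot_unit]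
  | add a b iha ihb =>
    intro h
    simp only [E.good, Bool.and_eq_true] at h
    obtain ⟨a1, a2⟩ := iha h.1
    obtain ⟨b1, b2⟩ := ihb h.2
    rcases ea : a.nf with ⟨D, P, N⟩
    rcases eb : b.nf with ⟨D', P', N'⟩
    rw [ea] at a1 a2
    rw [eb] at b1 b2
    simp only [E.nf, ea, eb, E.ev, val, dot_lax, dot_nil, Nat.mul_eq] at *
    refine ⟨Nat.mul_pos a1 b1, ?_⟩
    push_cast
    linear_combination (D' : ℝ) * a2 + (D : ℝ) * b2
  | sub a b iha ihb =>
    intro h
    simp only [E.good, Bool.and_eq_true] at h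
    obtain ⟨a1, a2⟩ := iha h.1
    obtain ⟨b1, b2⟩ := ihb h.2
    rcases ea : a.nf with ⟨D, P, N⟩
    rcases eb : b.nf with ⟨D', P', N'⟩
    rw [ea] at a1 a2
    rw [eb] at b1 b2
    simp only [E.nf, ea, eb, E.ev, val, dot_lax, dot_nil, Nat.mul_eq] at *
    refine ⟨Nat.mul_pos a1 b1, ?_⟩
    push_cast
    linear_combination (D' : ℝ) * a2 - (D : ℝ) * b2
  | sm n m a iha =>
    intro h
    simp only [E.good, Bool.and_eq_true] at h
    obtain ⟨a1, a2⟩ := iha h.2
    have hm : 0 < m := Nat.le_of_ble_eq_true h.1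
    have hm' : (m : ℝ) ≠ 0 := by positivity
    rcases ea : a.nf with ⟨D, P, N⟩
    rw [ea] at a1 a2
    simp only [E.nf, ea, E.ev, val, dot_lax, dot_nil, Nat.mul_eq] at *
    refine ⟨Nat.mul_pos a1 hm, ?_⟩
    push_cast
    field_simp
    linear_combination (n : ℝ) * a2

/-- `K * e = f` -/
noncomputable def lineOk (k : ℕ) (e : E) (f : F) : Bool :=
  match e.nf with
  | (D, P, N) => e.good && (lle (lax D f.1 (lax k N [])) (lax D f.2 (lax k P [])) &&
      lle (lax D f.2 (lax k P [])) (lax D f.1 (lax k N [])))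

lemma lineOk_sound {k : ℕ} {e : E} {f : F} (h : lineOk k e f = true) {p : List ℝ}
    (hp : ∀ x ∈ p, 0 ≤ x) (h1 : ∃ p', p = 1 :: p') : (k : ℝ) * e.ev p = val f p := by
  unfold lineOk at h
  rcases ea : e.nf with ⟨D, P, N⟩
  rw [ea] at h
  simp only [Bool.and_eq_true] at h
  obtain ⟨h0, h2, h3⟩ := h
  obtain ⟨a1, a2⟩ := nf_sound h1 e h0
  rw [ea] at a1 a2
  have h4 := dot_lle _ _ p h2 hp
  have h5 := dot_lle _ _ p h3 hp
  simp only [dot_lax, dot_nil] at h4 h5
  have hD : (0 : ℝ) < D := by exact_mod_cast a1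
  simp only [val] at *
  have : (D : ℝ) * ((k : ℝ) * e.ev p) = (D : ℝ) * (dot f.1 p - dot f.2 p) := by
    linear_combination (k : ℝ) * a2 - (le_antisymm h4 h5)
  exact mul_left_cancel₀ hD.ne' this

/-- symbolic closer -/
structure ClE where
  S : List E
  X : List E
  Y : List E
  b : E

/-- the symbolic closer applies at `p` -/
def ClE.ok (c : ClE) (p : List ℝ) : Prop :=
  (∀ s ∈ c.S, 0 ≤ s.ev p) ∧ ∀ x ∈ c.X, ∀ y ∈ c.Y, x.ev p + y.ev p ≤ c.b.ev p

/-- lists of lines -/
noncomputable def linesOk (k : ℕ) : List E → List F → Bool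
  | [], [] => true
  | e :: l, f :: m => lineOk k e f && linesOk k l m
  | _, _ => false

/-- the data of a closer are right -/
noncomputable def clOk (k : ℕ) (e : ClE) (d : Cl) : Bool :=
  Nat.ble 1 k && (linesOk k e.S d.S && (linesOk k e.X d.X && (linesOk k e.Y d.Y &&
    lineOk k e.b d.b)))

lemma linesOk_sound {k : ℕ} {p : List ℝ} (hp : ∀ x ∈ p, 0 ≤ x) (h1 : ∃ p', p = 1 :: p') :
    ∀ (l : List E) (m : List F), linesOk k l m = true →
      ∀ e ∈ l, ∃ f ∈ m, (k : ℝ) * e.ev p = val f p
  | [], [], _ => by simp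
  | e :: l, f :: m, h => by
    simp only [linesOk, Bool.and_eq_true] at h
    intro e' he'
    rcases List.mem_cons.1 he' with h2 | h2
    · exact ⟨f, by simp, by rw [h2]; exact lineOk_sound h.1 hp h1⟩
    · obtain ⟨f', hf', h3⟩ := linesOk_sound hp h1 l m h.2 e' h2
      exact ⟨f', by simp [hf'], h3⟩
  | [], _ :: _, h => by simp [linesOk] at h
  | _ :: _, [], h => by simp [linesOk] at h

lemma clOk_sound {k : ℕ} {e : ClE} {d : Cl} (h : clOk k e d = true) {p : List ℝ}
    (hp : ∀ x ∈ p, 0 ≤ x) (h1 : ∃ p', p = 1 :: p') (hd : d.ok p) : e.ok p := by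
  simp only [clOk, Bool.and_eq_true] at h
  obtain ⟨h0, hS, hX, hY, hb⟩ := h
  have hk : (0 : ℝ) < k := by
    have := Nat.le_of_ble_eq_true h0
    exact_mod_cast this
  refine ⟨fun s hs => ?_, fun x hx y hy => ?_⟩
  · obtain ⟨f, hf, h2⟩ := linesOk_sound hp h1 _ _ hS s hs
    have h3 := hd.1 f hf
    rw [← h2] at h3
    exact nonneg_of_mul_nonneg_right h3 hk
  · obtain ⟨f, hf, h2⟩ := linesOk_sound hp h1 _ _ hX x hx
    obtain ⟨g, hg, h3⟩ := linesOk_sound hp h1 _ _ hY y hy
    have h4 := lineOk_sound hb hp h1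
    have h5 := hd.2 f hf g hg
    rw [← h2, ← h3, ← h4] at h5
    have h6 : 0 ≤ (k : ℝ) * (e.b.ev p - x.ev p - y.ev p) := by linarith
    have h7 := nonneg_of_mul_nonneg_right h6 hk
    linarith

/-- the table -/
noncomputable def tabOk (k : ℕ) : List ClE → List Cl → Bool
  | [], [] => true
  | e :: l, d :: m => clOk k e d && tabOk k l m
  | _, _ => false

lemma tabOk_sound {k : ℕ} {p : List ℝ} (hp : ∀ x ∈ p, 0 ≤ x) (h1 : ∃ p', p = 1 :: p') :
    ∀ (l : List ClE) (m : List Cl), tabOk k l m = true → (∃ d ∈ m, d.ok p) → ∃ e ∈ l, e.ok p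
  | [], [], _, h => by simp at h
  | e :: l, d :: m, h, ⟨d', hd', hd2⟩ => by
    simp only [tabOk, Bool.and_eq_true] at h
    rcases List.mem_cons.1 hd' with h2 | h2
    · exact ⟨e, by simp, clOk_sound h.1 hp h1 (h2 ▸ hd2)⟩
    · obtain ⟨e', he', h3⟩ := tabOk_sound hp h1 l m h.2 ⟨d', h2, hd2⟩
      exact ⟨e', by simp [he'], h3⟩
  | [], _ :: _, h, _ => by simp [tabOk] at h
  | _ :: _, [], h, _ => by simp [tabOk] at h

end Crest.Agent.R017.Rf45
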