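import Crest.Agent.R017.E4Gl_918
import Crest.Agent.R017.Rf_45

/-!
# Row 17, E4 (StrU): the real inequality and the checker (helper45)

`pt` : the point of a class; `mk sp` : the closer of a specification `sp` (frequency `ky` or
`ky - 3 s1`, sign of `M1`, moved mass `x`, type of the `x`-side, type of the `y`-side);
`mk_goal` : if the closer applies, `z.Goal` holds.
-/

set_option autoImplicit false
set_option linter.all false

noncomputable section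

namespace Crest.Agent.R017.E4Lk45

open Crest.Agent.R017.Rf45 Crest.Agent.R017.E4R70 Crest.Agent.R017.Bx918 Crest.Agent.R017.R8C918

instance : Add E := ⟨E.add⟩
instance : Sub E := ⟨E.sub⟩

lemma ev_add (p : List ℝ) (a b : E) : (a + b).ev p = a.ev p + b.ev p := rfl
lemma ev_sub (p : List ℝ) (a b : E) : (a - b).ev p = a.ev p - b.ev p := rfl
lemma ev_sm (p : List ℝ) (n m : ℕ) (a : E) : (E.sm n m a).ev p = (n : ℝ) / (m : ℝ) * a.ev p := rfl
lemma ev_con (p : List ℝ) (n : ℕ) : (E.c n).ev p = (n : ℝ) := rfl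

/-- the point of a class -/
def pt (μ d r N M u a c x : ℝ) (z : Cls) : List ℝ :=
  [1, d, μ, r, N, M, u, a, c, x, z.v, z.k, z.η, z.b1, z.F, z.β, z.s, z.sW, z.G, z.Y0, z.Y1, z.W, z.c02, z.c12, z.nu, z.al, z.B, z.b, z.tau, z.lq, z.R1, z.R2, z.l, z.m1, z.m2, z.E, z.s1, z.zm, d * r, d * N, d * M, d * a, d * c, d * u, Al d r (N + M + a) c, z.tT N u, z.u1 N u, z.d0 N u, z.fF N u, z.ff N u, max 0 ((z.v1 - (N - z.β - z.R2 + z.R1)) / 2), z.sc]

def v_d : E := .v 1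
def v_mu : E := .v 2
def v_r : E := .v 3
def v_N : E := .v 4
def v_M : E := .v 5
def v_u : E := .v 6
def v_a : E := .v 7
def v_c : E := .v 8
def v_xs : E := .v 9
def v_v : E := .v 10
def v_k : E := .v 11
def v_et : E := .v 12
def v_b1 : E := .v 13
def v_F : E := .v 14
def v_be : E := .v 15
def v_s : E := .v 16
def v_sW : E := .v 17
def v_G : E := .v 18
def v_Y0 : E := .v 19
def v_Y1 : E := .v 20
def v_W : E := .v 21
def v_c02 : E := .v 22
def v_c12 : E := .v 23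
def v_nu : E := .v 24
def v_al : E := .v 25
def v_B : E := .v 26
def v_b : E := .v 27
def v_tau : E := .v 28
def v_lq : E := .v 29
def v_R1 : E := .v 30
def v_R2 : E := .v 31
def v_l : E := .v 32
def v_m1 : E := .v 33
def v_m2 : E := .v 34
def v_E : E := .v 35
def v_s1 : E := .v 36
def v_zm : E := .v 37
def v_dr : E := .v 38
def v_dN : E := .v 39
def v_dM : E := .v 40
def v_da : E := .v 41
def v_dc : E := .v 42
def v_du : E := .v 43
def v_A : E := .v 44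
def v_tT : E := .v 45
def v_u1 : E := .v 46
def v_d0 : E := .v 47
def v_fF : E := .v 48
def v_ff : E := .v 49
def v_gg : E := .v 50
def v_sc : E := .v 51

variable {μ d r N M u a c x : ℝ} {z : Cls}

lemma ev_d : v_d.ev (pt μ d r N M u a c x z) = d := rfl
lemma ev_mu : v_mu.ev (pt μ d r N M u a c x z) = μ := rfl
lemma ev_r : v_r.ev (pt μ d r N M u a c x z) = r := rfl
lemma ev_N : v_N.ev (pt μ d r N M u a c x z) = N := rfl
lemma ev_M : v_M.ev (pt μ d r N M u a c x z) = M := rfl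
lemma ev_u : v_u.ev (pt μ d r N M u a c x z) = u := rfl
lemma ev_a : v_a.ev (pt μ d r N M u a c x z) = a := rfl
lemma ev_c : v_c.ev (pt μ d r N M u a c x z) = c := rfl
lemma ev_xs : v_xs.ev (pt μ d r N M u a c x z) = x := rfl
lemma ev_v : v_v.ev (pt μ d r N M u a c x z) = z.v := rfl
lemma ev_k : v_k.ev (pt μ d r N M u a c x z) = z.k := rfl
lemma ev_et : v_et.ev (pt μ d r N M u a c x z) = z.η := rfl
lemma ev_b1 : v_b1.ev (pt μ d r N M u a c x z) = z.b1 := rfl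
lemma ev_F : v_F.ev (pt μ d r N M u a c x z) = z.F := rfl
lemma ev_be : v_be.ev (pt μ d r N M u a c x z) = z.β := rfl
lemma ev_s : v_s.ev (pt μ d r N M u a c x z) = z.s := rfl
lemma ev_sW : v_sW.ev (pt μ d r N M u a c x z) = z.sW := rfl
lemma ev_G : v_G.ev (pt μ d r N M u a c x z) = z.G := rfl
lemma ev_Y0 : v_Y0.ev (pt μ d r N M u a c x z) = z.Y0 := rfl
lemma ev_Y1 : v_Y1.ev (pt μ d r N M u a c x z) = z.Y1 := rfl
lemma ev_W : v_W.ev (pt μ d r N M u a c x z) = z.W := rfl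
lemma ev_c02 : v_c02.ev (pt μ d r N M u a c x z) = z.c02 := rfl
lemma ev_c12 : v_c12.ev (pt μ d r N M u a c x z) = z.c12 := rfl
lemma ev_nu : v_nu.ev (pt μ d r N M u a c x z) = z.nu := rfl
lemma ev_al : v_al.ev (pt μ d r N M u a c x z) = z.al := rfl
lemma ev_B : v_B.ev (pt μ d r N M u a c x z) = z.B := rfl
lemma ev_b : v_b.ev (pt μ d r N M u a c x z) = z.b := rfl
lemma ev_tau : v_tau.ev (pt μ d r N M u a c x z) = z.tau := rfl
lemma ev_lq : v_lq.ev (pt μ d r N M u a c x z) = z.lq := rfl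
lemma ev_R1 : v_R1.ev (pt μ d r N M u a c x z) = z.R1 := rfl
lemma ev_R2 : v_R2.ev (pt μ d r N M u a c x z) = z.R2 := rfl
lemma ev_l : v_l.ev (pt μ d r N M u a c x z) = z.l := rfl
lemma ev_m1 : v_m1.ev (pt μ d r N M u a c x z) = z.m1 := rfl
lemma ev_m2 : v_m2.ev (pt μ d r N M u a c x z) = z.m2 := rfl
lemma ev_E : v_E.ev (pt μ d r N M u a c x z) = z.E := rfl
lemma ev_s1 : v_s1.ev (pt μ d r N M u a c x z) = z.s1 := rfl
lemma ev_zm : v_zm.ev (pt μ d r N M u a c x z) = z.zm := rfl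
lemma ev_dr : v_dr.ev (pt μ d r N M u a c x z) = d * r := rfl
lemma ev_dN : v_dN.ev (pt μ d r N M u a c x z) = d * N := rfl
lemma ev_dM : v_dM.ev (pt μ d r N M u a c x z) = d * M := rfl
lemma ev_da : v_da.ev (pt μ d r N M u a c x z) = d * a := rfl
lemma ev_dc : v_dc.ev (pt μ d r N M u a c x z) = d * c := rfl
lemma ev_du : v_du.ev (pt μ d r N M u a c x z) = d * u := rfl
lemma ev_A : v_A.ev (pt μ d r N M u a c x z) = Al d r (N + M + a) c := rfl
lemma ev_tT : v_tT.ev (pt μ d r N M u a c x z) = z.tT N u := rfl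
lemma ev_u1 : v_u1.ev (pt μ d r N M u a c x z) = z.u1 N u := rfl
lemma ev_d0 : v_d0.ev (pt μ d r N M u a c x z) = z.d0 N u := rfl
lemma ev_fF : v_fF.ev (pt μ d r N M u a c x z) = z.fF N u := rfl
lemma ev_ff : v_ff.ev (pt μ d r N M u a c x z) = z.ff N u := rfl
lemma ev_gg : v_gg.ev (pt μ d r N M u a c x z) = max 0 ((z.v1 - (N - z.β - z.R2 + z.R1)) / 2) := rfl
lemma ev_sc : v_sc.ev (pt μ d r N M u a c x z) = z.sc := rfl

def e_N1 : E := v_N - v_be - v_s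
def e_Nq : E := v_N - v_be
def e_s0 : E := v_s - v_sW
def e_v1 : E := v_v - v_R1 - .sm 2 1 v_R2 - v_Y0 - v_Y1 - .sm 2 1 v_c02 - .sm 2 1 v_c12 -
  .sm 2 1 v_nu
def e_c1 : E := v_c - v_et - v_b1 - v_l
def e_m : E := v_m1 + v_m2
def e_M1 : E := v_M - e_m - v_zm
def e_lam : E := v_G + e_s0 + .sm 2 1 v_Y0 + .sm 2 1 v_Y1 + v_c02 + .sm 2 1 v_c12 +
  .sm 3 1 (v_W + v_sW) + v_nu
def e_us : E := .sm 3 1 (v_G + e_s0 + v_Y0 + v_Y1 + v_c12) + .sm 6 1 (v_W + v_sW)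
def e_ky : E := v_k + e_lam - .sm 3 1 (v_W + v_sW) + .sm 2 1 v_et + .sm 2 1 v_b1 + .sm 2 1 v_F +
  v_tau
def e_lqt : E := v_et + v_b1 + v_F + v_lq + .sm 2 1 (v_G + v_c12 + e_s0)
def e_sh : E := v_R1 - v_R2 + .sm 2 1 (v_Y0 + v_Y1) + v_c02 + v_c12 + v_nu
def e_cnt : E := v_R1 + .sm 2 1 v_R2 + v_Y0 + v_Y1 + .sm 2 1 (v_c02 + v_c12 + v_nu)
def e_kt : E := v_k + v_et + v_b1 + v_Y1 + v_c12 + v_nu
def e_dac : E := .sm 2 1 (v_da + v_dc)
def e_L : E := v_v + v_s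
/-- target minus main term -/
def e_b : E := (.c 2 + (v_N + v_M + v_a) + v_c + v_A - .sm 11 10 v_d) -
  (.sm 2 3 (.c 1) + (v_be + v_al - .sm 2 1 v_E - v_F + .sm 2 1 v_s + .sm 2 1 v_W) +
    (v_tT - .sm 1 3 (v_v + e_us) - .sm 1 3 (v_N - v_be)))

section evs
local macro "evs" : tactic => `(tactic| simp only [ev_add, ev_sub, ev_sm, ev_con, ev_d, ev_mu, ev_r, ev_N, ev_M, ev_u, ev_a, ev_c, ev_xs, ev_v, ev_k, ev_et, ev_b1, ev_F, ev_be, ev_s, ev_sW, ev_G, ev_Y0, ev_Y1, ev_W, ev_c02, ev_c12, ev_nu, ev_al, ev_B, ev_b, ev_tau, ev_lq, ev_R1, ev_R2, ev_l, ev_m1, ev_m2, ev_E, ev_s1, ev_zm, ev_dr, ev_dN, ev_dM, ev_da, ev_dc, ev_du, ev_A, ev_tT, ev_u1, ev_d0, ev_fF, ev_ff, ev_gg, ev_sc])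

lemma ev_N1 : e_N1.ev (pt μ d r N M u a c x z) = z.N1 N := by
  simp only [e_N1]; evs; rfl
lemma ev_Nq : e_Nq.ev (pt μ d r N M u a c x z) = N - z.β := by
  simp only [e_Nq]; evs
lemma ev_s0 : e_s0.ev (pt μ d r N M u a c x z) = z.s0 := by
  simp only [e_s0]; evs; rfl
lemma ev_v1 : e_v1.ev (pt μ d r N M u a c x z) = z.v1 := by
  simp only [e_v1]; evs; unfold Cls.v1; push_cast; ring
lemma ev_c1 : e_c1.ev (pt μ d r N M u a c x z) = z.c1 c := by
  simp only [e_c1]; evs; rfl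
lemma ev_m : e_m.ev (pt μ d r N M u a c x z) = z.m := by
  simp only [e_m]; evs; rfl
lemma ev_M1 : e_M1.ev (pt μ d r N M u a c x z) = z.M1 M := by
  simp only [e_M1, ev_sub, ev_m]; evs; rfl
lemma ev_lam : e_lam.ev (pt μ d r N M u a c x z) = z.lam := by
  simp only [e_lam, ev_add, ev_s0]; evs; unfold Cls.lam; push_cast; ring
lemma ev_us : e_us.ev (pt μ d r N M u a c x z) = z.us := by
  simp only [e_us, ev_add, ev_sm, ev_s0]; evs; unfold Cls.us; push_cast; ring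
lemma ev_ky : e_ky.ev (pt μ d r N M u a c x z) = z.ky := by
  simp only [e_ky, ev_add, ev_sub, ev_lam]; evs; unfold Cls.ky; push_cast; ring
lemma ev_lqt : e_lqt.ev (pt μ d r N M u a c x z) = z.lqt := by
  simp only [e_lqt, ev_add, ev_sm, ev_s0]; evs; unfold Cls.lqt; push_cast; ring
lemma ev_sh : e_sh.ev (pt μ d r N M u a c x z) = z.sh := by
  simp only [e_sh]; evs; unfold Cls.sh; push_cast; ring
lemma ev_cnt : e_cnt.ev (pt μ d r N M u a c x z) = z.cnt := by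
  simp only [e_cnt]; evs; unfold Cls.cnt; push_cast; ring
lemma ev_kt : e_kt.ev (pt μ d r N M u a c x z) = z.kt := by
  simp only [e_kt]; evs; rfl
lemma ev_dac : e_dac.ev (pt μ d r N M u a c x z) = 2 * (d * a + d * c) := by
  simp only [e_dac]; evs; push_cast; ring
lemma ev_b' : e_b.ev (pt μ d r N M u a c x z) =
    (2 + (N + M + a) + c + Al d r (N + M + a) c - 11 / 10 * d) -
      (2 / 3 + (z.β + z.al - 2 * z.E - z.F + 2 * z.s + 2 * z.W) +
        (z.tT N u - (z.v + z.us) / 3 - (N - z.β) / 3)) := by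
  simp only [e_b, ev_add, ev_sub, ev_sm, ev_us]; evs; push_cast; ring

/-- types of the `x`-side -/
inductive XTy
  | hb
  | pv
  | lt (e : E) (zz : Bool)

/-- types of the `y`-side -/
inductive YTy
  | A1
  | A2
  | B
  | YT

/-- specification of a closer -/
structure Sp where
  k3 : Bool
  m1 : Bool
  x : E
  xt : XTy
  yt : YTy

def kap : Bool → E
  | true => e_ky - .sm 3 1 v_s1
  | false => e_ky

def MM : Bool → E
  | true => .c 0
  | false => e_M1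

def qq : Bool → E
  | true => e_M1 + v_a
  | false => v_a

def xS (x : E) : XTy → List E
  | .hb => []
  | .pv => [.c 0 - x]
  | .lt t _ => [e_N1 - v_R2 - t - .sm 1 20 (.c 1)]

/-- `x + A` -/
def e_L4 (x t : E) : E := x + .sm 1 3 (.sm 2 1 e_v1 - v_k + e_lqt - t)
def e_i (t : E) : E := e_Nq + t - e_v1 + e_sh
def e_R (x t : E) : E := e_L4 x t + .sm 1 2 t + e_cnt + (e_Nq - v_R2) + v_gg - v_tT

def xX (x : E) : XTy → List E
  | .hb => [x - v_s1, x + v_d0 - v_s1, .sm 2 1 x + e_v1 - v_k + v_c12 + v_s1,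
      .sm 1 3 (.sm 3 1 x + .sm 2 1 (e_v1 + x) - v_k - v_s1)]
  | .pv => [.c 0, e_v1 - v_k + v_ff + v_c12 + v_s1,
      .sm 1 3 (.sm 3 1 e_v1 - .sm 2 1 v_k + v_c12 + v_s1) + v_ff,
      .sm 1 3 (.sm 2 1 e_v1 - v_k + e_lqt) + v_ff]
  | .lt t zz =>
    [x, x + (e_v1 + x - .sm 2 3 v_k) + v_ff + .sm 1 3 (v_c12 + v_s1),
      x + (e_v1 + .sm 2 1 x - v_k) + v_ff + v_c12 + v_s1, e_L4 x t + v_ff,
      e_L4 x t + (t - .sm 1 2 e_v1) + .sm 1 2 (v_fF + v_ff)] ++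
    match zz with
    | true => [e_R x t + .sm 11 8 (e_i t) + .sm 2 1 v_du, e_R x t + .sm 1 3 (e_i t) + .sm 2 1 v_du]
    | false => [e_R x t + e_i t + .sm 3 4 v_u + .sm 2 1 v_du,
        e_R x t + .sm 1 3 (e_i t) + .sm 3 4 v_u + .sm 2 1 v_du]

def yS (k3 m1 : Bool) : YTy → List E
  | .A1 => []
  | .A2 => []
  | .B => [.sm 8 1 (kap k3 - MM m1) - .sm 27 1 (qq m1), .sm 14 1 (MM m1) - .sm 5 1 (kap k3)]
  | .YT => []

def mS (m1 : Bool) : YTy → List E
  | .YT => []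
  | _ => match m1 with
    | true => [.c 0 - e_M1]
    | false => [e_M1]

def e_P (k q w : E) : E := .sm 1 3 k + .sm 2 1 (q + w)
def e_B (k m q w : E) : E := k + m + q + w + e_dac

def yY (k m q w : E) : YTy → List E
  | .A1 => [e_P k q w, e_B k m q w + .sm 3 4 q + .sm 3 4 w]
  | .A2 => [e_P k q w, e_B k m q w + .sm 3 4 q,
      e_B k m q w + .sm 3 4 (q + w - .sm 7 9 (k - m)),
      e_B k m q w + .sm 3 4 (q + w - .sm 2 3 k + .sm 1 3 m)]
  | .B => [e_P k q w, e_B k m q w, e_B k m q w + .sm 3 4 (q + w - .sm 7 9 (k - m))]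
  | .YT => [e_kt + .sm 2 1 (e_M1 + v_a + w)]

/-- the closer -/
def mk (s : Sp) : ClE where
  S := [s.x, e_c1 - s.x] ++ (mS s.m1 s.yt ++ (xS s.x s.xt ++ yS s.k3 s.m1 s.yt))
  X := xX s.x s.xt
  Y := yY (kap s.k3) (MM s.m1) (qq s.m1) (e_c1 - s.x) s.yt
  b := e_b

lemma exists_top (p : List ℝ) : ∀ X : List E, X ≠ [] → ∃ e ∈ X, ∀ y ∈ X, y.ev p ≤ e.ev p
  | [], h => absurd rfl h
  | [e], _ => ⟨e, by simp, by simp⟩
  | e :: f :: X, _ => by
    obtain ⟨g, hg, h⟩ := exists_top p (f :: X) (by simp)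
    rcases le_total (e.ev p) (g.ev p) with h1 | h1
    · refine ⟨g, List.mem_cons_of_mem _ hg, fun y hy => ?_⟩
      rcases List.mem_cons.1 hy with h2 | h2
      · rw [h2]; exact h1
      · exact h y h2
    · refine ⟨e, by simp, fun y hy => ?_⟩
      rcases List.mem_cons.1 hy with h2 | h2
      · rw [h2]
      · exact (h y h2).trans h1

/-- from the lines of the `x`-side to `ClX` -/
lemma clX_of (h0 : 0 ≤ d) (hu : 0 ≤ u) {e : E} {t : XTy} {ex : ℝ}
    (hx : 0 ≤ e.ev (pt μ d r N M u a c x z))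
    (hS : ∀ s ∈ xS e t, 0 ≤ s.ev (pt μ d r N M u a c x z))
    (hX : ∀ y ∈ xX e t, y.ev (pt μ d r N M u a c x z) ≤ ex) :
    z.ClX d N u (e.ev (pt μ d r N M u a c x z)) ex := by
  cases t with
  | hb =>
    left
    simp only [xX, List.mem_cons, List.not_mem_nil, or_false, forall_eq_or_imp, forall_eq] at hX
    simp only [ev_v1, ev_add, ev_sub, ev_sm, ev_con, ev_d, ev_mu, ev_r, ev_N, ev_M, ev_u, ev_a, ev_c, ev_xs, ev_v, ev_k, ev_et, ev_b1, ev_F, ev_be, ev_s, ev_sW, ev_G, ev_Y0, ev_Y1, ev_W, ev_c02, ev_c12, ev_nu, ev_al, ev_B, ev_b, ev_tau, ev_lq, ev_R1, ev_R2, ev_l, ev_m1, ev_m2, ev_E, ev_s1, ev_zm, ev_dr, ev_dN, ev_dM, ev_da, ev_dc, ev_du, ev_A, ev_tT, ev_u1, ev_d0, ev_fF, ev_ff, ev_gg, ev_sc] at hX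
    obtain ⟨h1, h2, h3, h4⟩ := hX
    norm_num at h1 h2 h3 h4
    refine ⟨by linarith, by linarith, by linarith, by linarith⟩
  | pv =>
    right; right
    simp only [xS, List.mem_cons, List.not_mem_nil, or_false, forall_eq] at hS
    simp only [xX, List.mem_cons, List.not_mem_nil, or_false, forall_eq_or_imp, forall_eq] at hX
    simp only [ev_v1, ev_lqt, ev_add, ev_sub, ev_sm, ev_con, ev_d, ev_mu, ev_r, ev_N, ev_M, ev_u, ev_a, ev_c, ev_xs, ev_v, ev_k, ev_et, ev_b1, ev_F, ev_be, ev_s, ev_sW, ev_G, ev_Y0, ev_Y1, ev_W, ev_c02, ev_c12, ev_nu, ev_al, ev_B, ev_b, ev_tau, ev_lq, ev_R1, ev_R2, ev_l, ev_m1, ev_m2, ev_E, ev_s1, ev_zm, ev_dr, ev_dN, ev_dM, ev_da, ev_dc, ev_du, ev_A, ev_tT, ev_u1, ev_d0, ev_fF, ev_ff, ev_gg, ev_sc] at hX hS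
    obtain ⟨h1, h2, h3, h4⟩ := hX
    norm_num at h1 h2 h3 h4 hS
    refine ⟨by linarith, by linarith, by linarith, by linarith, by linarith⟩
  | lt t zz =>
    right; left
    simp only [xS, List.mem_cons, List.not_mem_nil, or_false, forall_eq] at hS
    refine ⟨t.ev (pt μ d r N M u a c x z), ?_⟩
    simp only [ev_N1, ev_add, ev_sub, ev_sm, ev_con, ev_d, ev_mu, ev_r, ev_N, ev_M, ev_u, ev_a, ev_c, ev_xs, ev_v, ev_k, ev_et, ev_b1, ev_F, ev_be, ev_s, ev_sW, ev_G, ev_Y0, ev_Y1, ev_W, ev_c02, ev_c12, ev_nu, ev_al, ev_B, ev_b, ev_tau, ev_lq, ev_R1, ev_R2, ev_l, ev_m1, ev_m2, ev_E, ev_s1, ev_zm, ev_dr, ev_dN, ev_dM, ev_da, ev_dc, ev_du, ev_A, ev_tT, ev_u1, ev_d0, ev_fF, ev_ff, ev_gg, ev_sc] at hS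
    have e1 : max 0 (z.v1 - (N - z.β - z.R2 + z.R1)) / 2 =
        max 0 ((z.v1 - (N - z.β - z.R2 + z.R1)) / 2) := by
      rcases le_total 0 (z.v1 - (N - z.β - z.R2 + z.R1)) with h | h
      · rw [max_eq_right h, max_eq_right (by linarith)]
      · rw [max_eq_left h, max_eq_left (by linarith), zero_div]
    obtain ⟨i, hi⟩ : ∃ i, i = N - z.β + t.ev (pt μ d r N M u a c x z) - z.v1 + z.sh := ⟨_, rfl⟩
    obtain ⟨w, hw⟩ : ∃ w, w = max 0 (min u (i / 2)) := ⟨_, rfl⟩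
    have w0 : 0 ≤ w := by rw [hw]; exact le_max_left _ _
    have w1 : w ≤ u := by rw [hw]; exact max_le hu (min_le_left _ _)
    have w2 : d * w ≤ d * u := mul_le_mul_of_nonneg_left w1 h0
    have w3 : 0 ≤ d * u := mul_nonneg h0 hu
    have w4 : (3 / 4 + 2 * d) * w = 3 / 4 * w + 2 * (d * w) := by ring
    cases zz with
    | true =>
      simp only [xX, List.cons_append, List.nil_append, List.mem_cons, List.not_mem_nil, or_false,
        forall_eq_or_imp, forall_eq] at hX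
      simp only [e_R, e_L4, e_i, ev_v1, ev_lqt, ev_cnt, ev_sh, ev_Nq, ev_add, ev_sub, ev_sm,
        ev_con, ev_d, ev_mu, ev_r, ev_N, ev_M, ev_u, ev_a, ev_c, ev_xs, ev_v, ev_k, ev_et, ev_b1, ev_F, ev_be, ev_s, ev_sW, ev_G, ev_Y0, ev_Y1, ev_W, ev_c02, ev_c12, ev_nu, ev_al, ev_B, ev_b, ev_tau, ev_lq, ev_R1, ev_R2, ev_l, ev_m1, ev_m2, ev_E, ev_s1, ev_zm, ev_dr, ev_dN, ev_dM, ev_da, ev_dc, ev_du, ev_A, ev_tT, ev_u1, ev_d0, ev_fF, ev_ff, ev_gg, ev_sc] at hX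
      obtain ⟨h1, h2, h3, h4, h5, h6, h7⟩ := hX
      norm_num at h1 h2 h3 h4 h5 h6 h7 hS
      refine ⟨by linarith, by linarith, by linarith, by linarith, by linarith, by linarith, ?_⟩
      unfold rr
      rw [e1, ← hi, ← hw, w4]
      rw [← hi] at h6 h7
      rcases le_total 0 i with h | h
      · have w5 : w ≤ i / 2 := by rw [hw]; exact max_le (by linarith) (min_le_right _ _)
        rw [max_eq_left (by linarith : i / 3 ≤ i)]
        linarith
      · have w5 : w ≤ 0 := by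
          rw [hw]; exact max_le le_rfl ((min_le_right _ _).trans (by linarith))
        have w6 : d * w ≤ 0 := mul_nonpos_of_nonneg_of_nonpos h0 w5
        rw [max_eq_right (by linarith : i ≤ i / 3)]
        linarith
    | false =>
      simp only [xX, List.cons_append, List.nil_append, List.mem_cons, List.not_mem_nil, or_false,
        forall_eq_or_imp, forall_eq] at hX
      simp only [e_R, e_L4, e_i, ev_v1, ev_lqt, ev_cnt, ev_sh, ev_Nq, ev_add, ev_sub, ev_sm,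
        ev_con, ev_d, ev_mu, ev_r, ev_N, ev_M, ev_u, ev_a, ev_c, ev_xs, ev_v, ev_k, ev_et, ev_b1, ev_F, ev_be, ev_s, ev_sW, ev_G, ev_Y0, ev_Y1, ev_W, ev_c02, ev_c12, ev_nu, ev_al, ev_B, ev_b, ev_tau, ev_lq, ev_R1, ev_R2, ev_l, ev_m1, ev_m2, ev_E, ev_s1, ev_zm, ev_dr, ev_dN, ev_dM, ev_da, ev_dc, ev_du, ev_A, ev_tT, ev_u1, ev_d0, ev_fF, ev_ff, ev_gg, ev_sc] at hX
      obtain ⟨h1, h2, h3, h4, h5, h6, h7⟩ := hX
      norm_num at h1 h2 h3 h4 h5 h6 h7 hS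
      refine ⟨by linarith, by linarith, by linarith, by linarith, by linarith, by linarith, ?_⟩
      unfold rr
      rw [e1, ← hi, ← hw, w4]
      rw [← hi] at h6 h7
      rcases le_total 0 i with h | h
      · rw [max_eq_left (by linarith : i / 3 ≤ i)]
        linarith
      · rw [max_eq_right (by linarith : i ≤ i / 3)]
        linarith

lemma yok_of {κ m q w e : ℝ} (h0 : 0 ≤ d) (hw : 0 ≤ w)
    (hqw : d * (q + w) ≤ d * a + d * c) (hP : 1 / 3 * κ + 2 * (q + w) ≤ e)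
    (hE : (κ + m + q + w + 2 * (d * a + d * c) + 3 / 4 * q + 3 / 4 * w ≤ e) ∨
      (κ + m + q + w + 2 * (d * a + d * c) + 3 / 4 * q ≤ e ∧
        κ + m + q + w + 2 * (d * a + d * c) + 3 / 4 * (q + w - 7 / 9 * (κ - m)) ≤ e ∧
        κ + m + q + w + 2 * (d * a + d * c) + 3 / 4 * (q + w - 2 / 3 * κ + 1 / 3 * m) ≤ e) ∨
      (0 ≤ 8 * (κ - m) - 27 * q ∧ 0 ≤ 14 * m - 5 * κ ∧
        κ + m + q + w + 2 * (d * a + d * c) ≤ e ∧
        κ + m + q + w + 2 * (d * a + d * c) + 3 / 4 * (q + w - 7 / 9 * (κ - m)) ≤ e)) :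
    YOK d κ m q w e := by
  refine ⟨by linarith, ?_⟩
  have e1 : 2 * d * (q + w) = 2 * (d * (q + w)) := by ring
  rcases hE with h | ⟨h1, h2, h3⟩ | ⟨h1, h2, h3, h4⟩
  · left
    unfold EA eC
    rw [e1]
    have h5 : max 0 (w - min (7 / 9 * max 0 (κ - m)) (max 0 (2 / 3 * κ - m / 3))) ≤ w := by
      refine max_le hw ?_
      have h6 : (0 : ℝ) ≤ min (7 / 9 * max 0 (κ - m)) (max 0 (2 / 3 * κ - m / 3)) :=
        le_min (mul_nonneg (by norm_num) (le_max_left _ _)) (le_max_left _ _)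
      linarith
    linarith
  · left
    unfold EA eC
    rw [e1]
    rcases min_choice (7 / 9 * max 0 (κ - m)) (max 0 (2 / 3 * κ - m / 3)) with h6 | h6
    · rw [h6]
      rcases max_choice (0 : ℝ) (w - 7 / 9 * max 0 (κ - m)) with h7 | h7
      · rw [h7]; linarith
      · rw [h7]
        have h8 := le_max_right (0 : ℝ) (κ - m)
        linarith
    · rw [h6]
      rcases max_choice (0 : ℝ) (w - max 0 (2 / 3 * κ - m / 3)) with h7 | h7
      · rw [h7]; linarith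
      · rw [h7]
        have h8 := le_max_right (0 : ℝ) (2 / 3 * κ - m / 3)
        linarith
  · right
    unfold EB
    rw [e1]
    refine ⟨?_, by linarith, by linarith⟩
    rcases max_choice (0 : ℝ) (q + w - 7 / 9 * (κ - m)) with h7 | h7
    · rw [h7]; linarith
    · rw [h7]; linarith

lemma ev_kap (k3 : Bool) : (kap k3).ev (pt μ d r N M u a c x z) =
    if k3 then z.ky - 3 * z.s1 else z.ky := by
  cases k3
  · simp only [kap, ev_ky]; rfl
  · simp only [kap, ev_sub, ev_sm, ev_ky, ev_s1]; norm_num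

/-- from the lines of the `y`-side to `ClY` -/
lemma clY_of (h0 : 0 ≤ d) (ha : 0 ≤ a) (hc1 : z.c1 c ≤ c) (k3 m1 : Bool) {e : E} {t : YTy} {ey : ℝ}
    (hx : 0 ≤ e.ev (pt μ d r N M u a c x z))
    (hx1 : e.ev (pt μ d r N M u a c x z) ≤ z.c1 c)
    (hM : ∀ s ∈ mS m1 t, 0 ≤ s.ev (pt μ d r N M u a c x z))
    (hS : ∀ s ∈ yS k3 m1 t, 0 ≤ s.ev (pt μ d r N M u a c x z))
    (hY : ∀ y ∈ yY (kap k3) (MM m1) (qq m1) (e_c1 - e) t, y.ev (pt μ d r N M u a c x z) ≤ ey) :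
    z.ClY d M a ((kap k3).ev (pt μ d r N M u a c x z)) (z.c1 c - e.ev (pt μ d r N M u a c x z))
      ey := by
  obtain ⟨κ, hκ⟩ : ∃ κ, κ = (kap k3).ev (pt μ d r N M u a c x z) := ⟨_, rfl⟩
  obtain ⟨X, hX⟩ : ∃ X, X = e.ev (pt μ d r N M u a c x z) := ⟨_, rfl⟩
  rw [← hκ, ← hX]
  rw [← hX] at hx hx1
  have hac : d * (a + (z.c1 c - X)) ≤ d * a + d * c := by
    rw [mul_add]
    have := mul_le_mul_of_nonneg_left (by linarith : z.c1 c - X ≤ c) h0
    linarith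
  cases m1 with
  | false =>
    cases t with
    | YT =>
      right; right
      simp only [yY, List.mem_cons, List.not_mem_nil, or_false, forall_eq] at hY
      simp only [ev_kt, ev_M1, ev_c1, ev_add, ev_sub, ev_sm, ev_con, ev_d, ev_mu, ev_r, ev_N, ev_M, ev_u, ev_a, ev_c, ev_xs, ev_v, ev_k, ev_et, ev_b1, ev_F, ev_be, ev_s, ev_sW, ev_G, ev_Y0, ev_Y1, ev_W, ev_c02, ev_c12, ev_nu, ev_al, ev_B, ev_b, ev_tau, ev_lq, ev_R1, ev_R2, ev_l, ev_m1, ev_m2, ev_E, ev_s1, ev_zm, ev_dr, ev_dN, ev_dM, ev_da, ev_dc, ev_du, ev_A, ev_tT, ev_u1, ev_d0, ev_fF, ev_ff, ev_gg, ev_sc, ← hX] at hY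
      norm_num at hY
      linarith
    | A1 =>
      left
      simp only [mS, List.mem_cons, List.not_mem_nil, or_false, forall_eq, ev_M1] at hM
      simp only [yY, e_P, e_B, MM, qq, List.mem_cons, List.not_mem_nil, or_false,
        forall_eq_or_imp, forall_eq] at hY
      simp only [ev_kt, ev_M1, ev_c1, ev_dac, ev_add, ev_sub, ev_sm, ev_con, ev_d, ev_mu, ev_r, ev_N, ev_M, ev_u, ev_a, ev_c, ev_xs, ev_v, ev_k, ev_et, ev_b1, ev_F, ev_be, ev_s, ev_sW, ev_G, ev_Y0, ev_Y1, ev_W, ev_c02, ev_c12, ev_nu, ev_al, ev_B, ev_b, ev_tau, ev_lq, ev_R1, ev_R2, ev_l, ev_m1, ev_m2, ev_E, ev_s1, ev_zm, ev_dr, ev_dN, ev_dM, ev_da, ev_dc, ev_du, ev_A, ev_tT, ev_u1, ev_d0, ev_fF, ev_ff, ev_gg, ev_sc, ← hX,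
        ← hκ] at hY
      obtain ⟨h1, h2⟩ := hY
      norm_num at h1 h2
      exact ⟨hM, yok_of h0 (by linarith) hac (by linarith) (Or.inl (by linarith))⟩
    | A2 =>
      left
      simp only [mS, List.mem_cons, List.not_mem_nil, or_false, forall_eq, ev_M1] at hM
      simp only [yY, e_P, e_B, MM, qq, List.mem_cons, List.not_mem_nil, or_false,
        forall_eq_or_imp, forall_eq] at hY
      simp only [ev_kt, ev_M1, ev_c1, ev_dac, ev_add, ev_sub, ev_sm, ev_con, ev_d, ev_mu, ev_r, ev_N, ev_M, ev_u, ev_a, ev_c, ev_xs, ev_v, ev_k, ev_et, ev_b1, ev_F, ev_be, ev_s, ev_sW, ev_G, ev_Y0, ev_Y1, ev_W, ev_c02, ev_c12, ev_nu, ev_al, ev_B, ev_b, ev_tau, ev_lq, ev_R1, ev_R2, ev_l, ev_m1, ev_m2, ev_E, ev_s1, ev_zm, ev_dr, ev_dN, ev_dM, ev_da, ev_dc, ev_du, ev_A, ev_tT, ev_u1, ev_d0, ev_fF, ev_ff, ev_gg, ev_sc, ← hX,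
        ← hκ] at hY
      obtain ⟨h1, h2, h3, h4⟩ := hY
      norm_num at h1 h2 h3 h4
      exact ⟨hM, yok_of h0 (by linarith) hac (by linarith)
        (Or.inr (Or.inl ⟨by linarith, by linarith, by linarith⟩))⟩
    | B =>
      left
      simp only [mS, List.mem_cons, List.not_mem_nil, or_false, forall_eq, ev_M1] at hM
      simp only [yS, MM, qq, List.mem_cons, List.not_mem_nil, or_false,
        forall_eq_or_imp, forall_eq] at hS
      simp only [yY, e_P, e_B, MM, qq, List.mem_cons, List.not_mem_nil, or_false,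
        forall_eq_or_imp, forall_eq] at hY
      simp only [ev_kt, ev_M1, ev_c1, ev_dac, ev_add, ev_sub, ev_sm, ev_con, ev_d, ev_mu, ev_r, ev_N, ev_M, ev_u, ev_a, ev_c, ev_xs, ev_v, ev_k, ev_et, ev_b1, ev_F, ev_be, ev_s, ev_sW, ev_G, ev_Y0, ev_Y1, ev_W, ev_c02, ev_c12, ev_nu, ev_al, ev_B, ev_b, ev_tau, ev_lq, ev_R1, ev_R2, ev_l, ev_m1, ev_m2, ev_E, ev_s1, ev_zm, ev_dr, ev_dN, ev_dM, ev_da, ev_dc, ev_du, ev_A, ev_tT, ev_u1, ev_d0, ev_fF, ev_ff, ev_gg, ev_sc, ← hX,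
        ← hκ] at hY hS
      obtain ⟨h1, h2, h3⟩ := hY
      obtain ⟨h4, h5⟩ := hS
      norm_num at h1 h2 h3 h4 h5
      exact ⟨hM, yok_of h0 (by linarith) hac (by linarith)
        (Or.inr (Or.inr ⟨by linarith, by linarith, by linarith, by linarith⟩))⟩
  | true =>
    cases t with
    | YT =>
      right; right
      simp only [yY, List.mem_cons, List.not_mem_nil, or_false, forall_eq] at hY
      simp only [ev_kt, ev_M1, ev_c1, ev_add, ev_sub, ev_sm, ev_con, ev_d, ev_mu, ev_r, ev_N, ev_M, ev_u, ev_a, ev_c, ev_xs, ev_v, ev_k, ev_et, ev_b1, ev_F, ev_be, ev_s, ev_sW, ev_G, ev_Y0, ev_Y1, ev_W, ev_c02, ev_c12, ev_nu, ev_al, ev_B, ev_b, ev_tau, ev_lq, ev_R1, ev_R2, ev_l, ev_m1, ev_m2, ev_E, ev_s1, ev_zm, ev_dr, ev_dN, ev_dM, ev_da, ev_dc, ev_du, ev_A, ev_tT, ev_u1, ev_d0, ev_fF, ev_ff, ev_gg, ev_sc, ← hX] at hY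
      norm_num at hY
      linarith
    | A1 =>
      right; left
      simp only [mS, List.mem_cons, List.not_mem_nil, or_false, forall_eq, ev_sub, ev_con,
        ev_M1] at hM
      simp only [yY, e_P, e_B, MM, qq, List.mem_cons, List.not_mem_nil, or_false,
        forall_eq_or_imp, forall_eq] at hY
      simp only [ev_kt, ev_M1, ev_c1, ev_dac, ev_add, ev_sub, ev_sm, ev_con, ev_d, ev_mu, ev_r, ev_N, ev_M, ev_u, ev_a, ev_c, ev_xs, ev_v, ev_k, ev_et, ev_b1, ev_F, ev_be, ev_s, ev_sW, ev_G, ev_Y0, ev_Y1, ev_W, ev_c02, ev_c12, ev_nu, ev_al, ev_B, ev_b, ev_tau, ev_lq, ev_R1, ev_R2, ev_l, ev_m1, ev_m2, ev_E, ev_s1, ev_zm, ev_dr, ev_dN, ev_dM, ev_da, ev_dc, ev_du, ev_A, ev_tT, ev_u1, ev_d0, ev_fF, ev_ff, ev_gg, ev_sc, ← hX,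
        ← hκ] at hY
      obtain ⟨h1, h2⟩ := hY
      norm_num at h1 h2 hM
      have hac' : d * (a + z.M1 M + (z.c1 c - X)) ≤ d * a + d * c :=
        (mul_le_mul_of_nonneg_left (by linarith) h0).trans hac
      exact ⟨hM, yok_of h0 (by linarith) hac' (by linarith) (Or.inl (by linarith))⟩
    | A2 =>
      right; left
      simp only [mS, List.mem_cons, List.not_mem_nil, or_false, forall_eq, ev_sub, ev_con,
        ev_M1] at hM
      simp only [yY, e_P, e_B, MM, qq, List.mem_cons, List.not_mem_nil, or_false,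
        forall_eq_or_imp, forall_eq] at hY
      simp only [ev_kt, ev_M1, ev_c1, ev_dac, ev_add, ev_sub, ev_sm, ev_con, ev_d, ev_mu, ev_r, ev_N, ev_M, ev_u, ev_a, ev_c, ev_xs, ev_v, ev_k, ev_et, ev_b1, ev_F, ev_be, ev_s, ev_sW, ev_G, ev_Y0, ev_Y1, ev_W, ev_c02, ev_c12, ev_nu, ev_al, ev_B, ev_b, ev_tau, ev_lq, ev_R1, ev_R2, ev_l, ev_m1, ev_m2, ev_E, ev_s1, ev_zm, ev_dr, ev_dN, ev_dM, ev_da, ev_dc, ev_du, ev_A, ev_tT, ev_u1, ev_d0, ev_fF, ev_ff, ev_gg, ev_sc, ← hX,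
        ← hκ] at hY
      obtain ⟨h1, h2, h3, h4⟩ := hY
      norm_num at h1 h2 h3 h4 hM
      have hac' : d * (a + z.M1 M + (z.c1 c - X)) ≤ d * a + d * c :=
        (mul_le_mul_of_nonneg_left (by linarith) h0).trans hac
      exact ⟨hM, yok_of h0 (by linarith) hac' (by linarith)
        (Or.inr (Or.inl ⟨by linarith, by linarith, by linarith⟩))⟩
    | B =>
      right; left
      simp only [mS, List.mem_cons, List.not_mem_nil, or_false, forall_eq, ev_sub, ev_con,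
        ev_M1] at hM
      simp only [yS, MM, qq, List.mem_cons, List.not_mem_nil, or_false,
        forall_eq_or_imp, forall_eq] at hS
      simp only [yY, e_P, e_B, MM, qq, List.mem_cons, List.not_mem_nil, or_false,
        forall_eq_or_imp, forall_eq] at hY
      simp only [ev_kt, ev_M1, ev_c1, ev_dac, ev_add, ev_sub, ev_sm, ev_con, ev_d, ev_mu, ev_r, ev_N, ev_M, ev_u, ev_a, ev_c, ev_xs, ev_v, ev_k, ev_et, ev_b1, ev_F, ev_be, ev_s, ev_sW, ev_G, ev_Y0, ev_Y1, ev_W, ev_c02, ev_c12, ev_nu, ev_al, ev_B, ev_b, ev_tau, ev_lq, ev_R1, ev_R2, ev_l, ev_m1, ev_m2, ev_E, ev_s1, ev_zm, ev_dr, ev_dN, ev_dM, ev_da, ev_dc, ev_du, ev_A, ev_tT, ev_u1, ev_d0, ev_fF, ev_ff, ev_gg, ev_sc, ← hX,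
        ← hκ] at hY hS
      obtain ⟨h1, h2, h3⟩ := hY
      obtain ⟨h4, h5⟩ := hS
      norm_num at h1 h2 h3 h4 h5 hM
      have hac' : d * (a + z.M1 M + (z.c1 c - X)) ≤ d * a + d * c :=
        (mul_le_mul_of_nonneg_left (by linarith) h0).trans hac
      exact ⟨hM, yok_of h0 (by linarith) hac' (by linarith)
        (Or.inr (Or.inr ⟨by linarith, by linarith, by linarith, by linarith⟩))⟩

/-- **a closer that applies gives the inequality** -/
theorem mk_goal (h0 : 0 ≤ d) (ha : 0 ≤ a) (hu : 0 ≤ u)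
    (hc1 : z.c1 c ≤ c) (hs1 : 0 ≤ z.s1) (sp : Sp) (h : (mk sp).ok (pt μ d r N M u a c x z)) :
    z.Goal d N M u a c (2 + (N + M + a) + c + Al d r (N + M + a) c - 11 / 10 * d) := by
  obtain ⟨hS, hXY⟩ := h
  have hx : 0 ≤ sp.x.ev (pt μ d r N M u a c x z) := hS _ (by simp [mk])
  have hx1 : sp.x.ev (pt μ d r N M u a c x z) ≤ z.c1 c := by
    have h1 := hS (e_c1 - sp.x) (by simp [mk])
    rw [ev_sub, ev_c1] at h1
    linarith
  have hne : (mk sp).X ≠ [] := by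
    simp only [mk]
    rcases sp.xt with _ | _ | ⟨t, zz⟩ <;> simp [xX]
  obtain ⟨e, he, hmax⟩ := exists_top (pt μ d r N M u a c x z) _ hne
  refine ⟨sp.x.ev (pt μ d r N M u a c x z), e.ev (pt μ d r N M u a c x z),
    e_b.ev (pt μ d r N M u a c x z) - e.ev (pt μ d r N M u a c x z),
    (kap sp.k3).ev (pt μ d r N M u a c x z), hx, hx1, ?_, ?_, ?_, ?_, ?_⟩
  · rw [ev_kap]
    split_ifs <;> linarith
  · rw [ev_kap]
    split_ifs <;> linarith
  · exact clX_of h0 hu hx (fun s hs => hS s (by simp [mk, hs])) hmax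
  · refine clY_of (t := sp.yt) h0 ha hc1 sp.k3 sp.m1 hx hx1 (fun s hs => hS s (by simp [mk, hs]))
      (fun s hs => hS s (by simp [mk, hs])) fun y hy => ?_
    have h1 := hXY e he y hy
    have h2 : (mk sp).b = e_b := rfl
    rw [h2] at h1
    linarith
  · rw [ev_b']
    linarith

end evs

end Crest.Agent.R017.E4Lk45
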