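import Crest.Agent.R017.E4Lk_45

/-!
# Row 17, E4 (StrU): the dual lengths `lt` and the moved masses `x` used in the trees (helper45)
-/

set_option autoImplicit false

noncomputable section

namespace Crest.Agent.R017.E4Lt45

open Crest.Agent.R017.Rf45 Crest.Agent.R017.E4Lk45

def x_cg (k3 m1 : Bool) : E := e_c1 - .sm 7 9 (kap k3 - MM m1)
def x_ca (k3 m1 : Bool) : E := e_c1 + qq m1 - .sm 7 9 (kap k3 - MM m1)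
def x_N : E := .sm 4 5 (.c 1) - v_N

def l_i0 : E := e_Nq - e_v1 + e_sh
def l_n0 : E := e_Nq - v_R2
def lt_u1f : E := .sm 2 3 (.sm 2 1 e_N1 - e_cnt - l_i0 - l_n0 - .sm 3 4 v_u - v_gg + v_ff)
def lt_T1f : E := .sm 2 3 (v_tT - e_cnt - l_i0 - l_n0 - .sm 3 4 v_u - v_gg + v_ff)
def lt_z1f : E := .sm 8 15 (.sm 2 1 e_N1 - e_cnt - .sm 11 8 l_i0 - l_n0 - v_gg + v_ff)
def lt_T2f : E := .sm 8 15 (v_tT - e_cnt - .sm 11 8 l_i0 - l_n0 - v_gg + v_ff)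
def lt_u1 : E := .sm 2 3 (.sm 2 1 e_N1 - e_cnt - l_i0 - l_n0 - .sm 3 4 v_u - v_gg)
def lt_T1 : E := .sm 2 3 (v_tT - e_cnt - l_i0 - l_n0 - .sm 3 4 v_u - v_gg)
def lt_z1 : E := .sm 8 15 (.sm 2 1 e_N1 - e_cnt - .sm 11 8 l_i0 - l_n0 - v_gg)
def lt_T2 : E := .sm 8 15 (v_tT - e_cnt - .sm 11 8 l_i0 - l_n0 - v_gg)
def lt_h : E := .sm 1 2 e_v1
def lt_n : E := e_N1 - v_R2 - .sm 1 20 (.c 1)
def lt_k0 : E := .sm 2 1 e_v1 - v_k + e_lqt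
def lt_kf : E := .sm 2 1 e_v1 - v_k + e_lqt + .sm 3 1 v_ff
def lt_k1 : E := e_lqt - e_v1 + v_k
def lt_k2 : E := e_lqt - e_v1 + .sm 2 1 v_k
def lt_U0 : E := .sm 2 3 (e_v1 - .sm 3 4 v_u)

end Crest.Agent.R017.E4Lt45
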