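import Crest.Agent.R017.E4Lx_266

/-!
# Row 17, C70/E4: the functional equation with exact main term, dual weights in a general class `P`
(helper266)

Copy of `E4LawX_266` with `WTf` replaced by an arbitrary class `P` of families of dual weights.

* `law_Lp` : case L, dual weights in `WTf` and with good two-scale differences
-/

set_option autoImplicit false

noncomputable section

open Complex MeasureTheory Set Filter Topology
open scoped ComplexConjugate ContDiff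

namespace Crest.Agent.R017.E4X266

open Crest.Agent.R012 Crest.Agent.R012.Eis Crest.Agent.R012.GaussLoc283
open Crest.Agent.R012.Gauss880 (syG)
open Crest.Agent.R017.FE47 (SM)
open Crest.Agent.R017.F1
open Crest.Agent.R017.X6C180 (IX dl' om' dl_SU SU.SM)
open Crest.Agent.R017.Sx545 (Sm sm_one_iff)
open Crest.Agent.R017.End699 (HC)
open Crest.Agent.R017.A590
open Crest.Agent.R017.E2440 (NT DS Dcy c0 c1)
open Crest.Agent.R017.B770 (SW Rad0)
open Crest.Agent.R017.C590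
open Crest.Agent.R017.E4352 (Law WT)
open Crest.Agent.R017.E4L266

variable {M M₁ M' p u : Eis} {j l' : ℤ} {mm : (ℝ → ℂ) → ℝ → ℂ} {S S' : Eis → ℂ}
  {P : (ℝ → ℝ → ℂ) → Prop}

/-- representation with main term -/
def RepY (P : (ℝ → ℝ → ℂ) → Prop) (M M' : Eis) (j l' : ℤ) (mm : (ℝ → ℂ) → ℝ → ℂ) (S : Eis → ℂ)
    (F : (ℝ → ℂ) → Eis → ℝ → ℝ → ℂ) : Prop :=
  ∃ (ι : Type) (_ : Fintype ι) (κ : ι → ℂ) (η ψ' : ι → Eis → ℂ) (ρ : ι → ℝ),
    (∀ i, HC M' (η i)) ∧ (∀ i, HC M' (ψ' i)) ∧ (∀ i, 0 < ρ i) ∧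
    ∀ V : ℝ → ℂ, SW V → ∃ W : ι → ℝ → ℝ → ℂ, (∀ i, P (W i)) ∧
      ∀ u : Eis, Sm M u → ∀ Q : ℝ, 0 < Q → ∀ τ : ℝ,
        F V u Q τ = MT (mm V τ) (S u) Q + (Q : ℂ) * ∑ i, κ i * End699.tw (η i) j u *
          D3 M (End699.tw (ψ' i) l') u (W i τ) (ρ i * nm u / Q)

lemma RepY.congr {F G : (ℝ → ℂ) → Eis → ℝ → ℝ → ℂ} (hF : RepY P M M' j l' mm S F)
    (h : ∀ V, SW V → ∀ u, Sm M u → ∀ Q : ℝ, 0 < Q → ∀ τ, G V u Q τ = F V u Q τ)
    (hS : ∀ u, Sm M u → S' u = S u) : RepY P M M' j l' mm S' G := by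
  obtain ⟨ι, iι, κ, η, ψ', ρ, h1, h2, h3, h4⟩ := hF
  refine ⟨ι, iι, κ, η, ψ', ρ, h1, h2, h3, fun V hV => ?_⟩
  obtain ⟨W, hW, h5⟩ := h4 V hV
  refine ⟨W, hW, fun u hu Q hQ τ => ?_⟩
  rw [h V hV u hu Q hQ τ, h5 u hu Q hQ τ, hS u hu]

lemma RepY.add {F G : (ℝ → ℂ) → Eis → ℝ → ℝ → ℂ} (hF : RepY P M M' j l' mm S F)
    (hG : RepY P M M' j l' mm S' G) :
    RepY P M M' j l' mm (fun u => S u + S' u) (fun V u Q τ => F V u Q τ + G V u Q τ) := by
  obtain ⟨ι, iι, κ, η, ψ', ρ, h1, h2, h3, h4⟩ := hF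
  obtain ⟨ι2, iι2, κ2, η2, ψ2, ρ2, g1, g2, g3, g4⟩ := hG
  refine ⟨ι ⊕ ι2, inferInstance, Sum.elim κ κ2, Sum.elim η η2, Sum.elim ψ' ψ2, Sum.elim ρ ρ2,
    ?_, ?_, ?_, fun V hV => ?_⟩
  · rintro (i | i)
    · exact h1 i
    · exact g1 i
  · rintro (i | i)
    · exact h2 i
    · exact g2 i
  · rintro (i | i)
    · exact h3 i
    · exact g3 i
  · obtain ⟨W, hW, h5⟩ := h4 V hV
    obtain ⟨W2, hW2, g5⟩ := g4 V hV
    refine ⟨Sum.elim W W2, ?_, fun u hu Q hQ τ => ?_⟩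
    · rintro (i | i)
      · exact hW i
      · exact hW2 i
    · beta_reduce
      rw [Fintype.sum_sum_type, h5 u hu Q hQ τ, g5 u hu Q hQ τ]
      simp only [Sum.elim_inl, Sum.elim_inr]
      unfold MT
      ring

lemma RepY.cmul (hM0 : M' ≠ 0) (h3 : (3 : Eis) ∣ M') (hcop : ∀ b, Sm M b → IsCoprime b M')
    {F : (ℝ → ℂ) → Eis → ℝ → ℝ → ℂ} (hF : RepY P M M' j l' mm S F) (c : ℂ) {g : Eis → ℂ}
    (hg : Uni M' g) :
    RepY P M M' j l' mm (fun u => c * g u * S u) (fun V u Q τ => c * g u * F V u Q τ) := by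
  obtain ⟨ι, iι, κ, η, ψ', ρ, h1, h2, h3', h4⟩ := hF
  refine ⟨ι, iι, fun i => c * κ i, fun i => Rst M' (fun a => η i a * g a), ψ', ρ,
    fun i => hc_rst hM0 h3 ((uni_of_HC (h1 i)).mul' hg), h2, h3', fun V hV => ?_⟩
  obtain ⟨W, hW, h5⟩ := h4 V hV
  refine ⟨W, hW, fun u hu Q hQ τ => ?_⟩
  have e : ∀ i, c * κ i * End699.tw (Rst M' (fun a => η i a * g a)) j u *
      D3 M (End699.tw (ψ' i) l') u (W i τ) (ρ i * nm u / Q) =
      (c * g u) * (κ i * End699.tw (η i) j u *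
        D3 M (End699.tw (ψ' i) l') u (W i τ) (ρ i * nm u / Q)) := by
    intro i
    rw [tw_rst hcop _ _ hu]
    unfold End699.tw
    ring
  beta_reduce
  rw [Finset.sum_congr rfl fun i _ => e i, ← Finset.mul_sum, h5 u hu Q hQ τ]
  unfold MT
  ring

lemma RepY.dil {F : (ℝ → ℂ) → Eis → ℝ → ℝ → ℂ} (hF : RepY P M M' j l' mm S F) {t : ℝ}
    (ht : 0 < t) :
    RepY P M M' j l' mm (fun u => (((t ^ (4 / 3 : ℝ))⁻¹ : ℝ) : ℂ) * S u)
      (fun V u Q τ => F V u (Q / t) τ) := by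
  obtain ⟨ι, iι, κ, η, ψ', ρ, h1, h2, h3, h4⟩ := hF
  refine ⟨ι, iι, fun i => (t : ℂ)⁻¹ * κ i, η, ψ', fun i => ρ i * t, h1, h2,
    fun i => mul_pos (h3 i) ht, fun V hV => ?_⟩
  obtain ⟨W, hW, h5⟩ := h4 V hV
  refine ⟨W, hW, fun u hu Q hQ τ => ?_⟩
  have e : ∀ i, (t : ℂ)⁻¹ * κ i * End699.tw (η i) j u *
      D3 M (End699.tw (ψ' i) l') u (W i τ) (ρ i * t * nm u / Q) =
      (t : ℂ)⁻¹ * (κ i * End699.tw (η i) j u *
        D3 M (End699.tw (ψ' i) l') u (W i τ) (ρ i * nm u / (Q / t))) := by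
    intro i
    have : ρ i * t * nm u / Q = ρ i * nm u / (Q / t) := by
      rw [div_div_eq_mul_div]; ring
    rw [this]
    ring
  beta_reduce
  rw [Finset.sum_congr rfl fun i _ => e i, ← Finset.mul_sum, h5 u hu (Q / t) (div_pos hQ ht) τ]
  unfold MT
  rw [Real.div_rpow hQ.le ht.le]
  push_cast
  ring

/-- functional equation with main term -/
def LY3 (P : (ℝ → ℝ → ℂ) → Prop) {ι : Type} [Fintype ι] (M : Eis) (ψ : Eis → ℂ) (l : ℤ) (D : Dt3 ι)
    (mm : (ℝ → ℂ) → ℝ → ℂ) (S : Eis → ℂ) : Prop :=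
  ∀ V : ℝ → ℂ, SW V → ∃ W : ι → ℝ → ℝ → ℂ, (∀ i, P (W i)) ∧
    ∀ u : Eis, Sm M u → ∀ Q : ℝ, 0 < Q → ∀ τ : ℝ,
      N3 M (End699.tw ψ l) u (fun y => (y : ℂ) ^ (I * τ) * V y) Q =
        MT (mm V τ) (S u) Q + (Q : ℂ) * ∑ i, D.κ i * End699.tw (D.η i) D.j u *
          D3 M (End699.tw (D.ψ' i) D.l') u (W i τ) (D.ρ i * nm u / Q)

def HasY (P : (ℝ → ℝ → ℂ) → Prop) (M : Eis) (ψ : Eis → ℂ) (l : ℤ) (mm : (ℝ → ℂ) → ℝ → ℂ) (S : Eis → ℂ) : Prop :=
  ∃ (ι : Type) (_ : Fintype ι) (D : Dt3 ι), D.OK M ∧ LY3 P M ψ l D mm S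

lemma rep_baseY (hP : ∀ W, P W → ∀ τ, WB (W τ)) (h : Ext3 M M₁ p) {v : ℕ} {ι : Type} [Fintype ι] {D : Dt3 ι} (hD : D.OK M₁)
    {ψ₁ : Eis → ℂ} {l : ℤ} (hFE : LY3 P M₁ ψ₁ l D mm S)
    (hcop : ∀ b, Sm M b → IsCoprime b (D.M' * p ^ v))
    (i a : ℕ) (K : ℂ) {hh g₁ g₂ : Eis → ℂ} (u0 : Uni (D.M' * p ^ v) hh)
    (u1 : Uni (D.M' * p ^ v) g₁) (u2 : Uni (D.M' * p ^ v) g₂)
    (hsplit : ∀ χ : Eis → ℂ, (∀ a b, Sm M₁ a → Sm M₁ b → χ (a * b) = χ a * χ b) →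
      (∀ k, Sm M₁ k → ‖χ k‖ ≤ 1) → ∀ W : ℝ → ℂ, WB W → ∀ u, Sm M u → ∀ Y : ℝ, 0 < Y →
      D3 M₁ χ (u * p ^ i) W Y = D3 M (fun d => χ d * g₁ d) u W Y +
        K * hh u * (χ (p ^ a) * ((nm p : ℂ) ^ a)⁻¹) *
          D3 M (fun d => χ d * g₂ d) u W (Y / (nm p : ℝ) ^ a)) :
    RepY P M (D.M' * p ^ v) D.j D.l' mm (fun u => S (u * p ^ i)) (fun V u Q τ =>
      N3 M₁ (End699.tw ψ₁ l) (u * p ^ i) (fun y => (y : ℂ) ^ (I * τ) * V y) Q) := by
  have hM0 : D.M' * p ^ v ≠ 0 := mul_ne_zero hD.ne (pow_ne_zero _ h.pr.ne_zero)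
  have h3 : (3 : Eis) ∣ D.M' * p ^ v := (h.three.trans hD.dvd).mul_right _
  have hq := h.q_pos
  have v1 : ∀ i, Uni (D.M' * p ^ v) (D.η i) := fun i => (uni_of_HC (hD.η i)).mono (dvd_mul_right _ _)
  have v2 : ∀ i, Uni (D.M' * p ^ v) (D.ψ' i) :=
    fun i => (uni_of_HC (hD.ψ' i)).mono (dvd_mul_right _ _)
  refine ⟨ι ⊕ ι, inferInstance,
    Sum.elim (fun x => D.κ x * End699.tw (D.η x) D.j (p ^ i))
      (fun x => D.κ x * End699.tw (D.η x) D.j (p ^ i) * K *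
        (End699.tw (D.ψ' x) D.l' (p ^ a) * ((nm p : ℂ) ^ a)⁻¹)),
    Sum.elim (fun x => Rst (D.M' * p ^ v) (D.η x))
      (fun x => Rst (D.M' * p ^ v) (fun b => D.η x b * hh b)),
    Sum.elim (fun x => Rst (D.M' * p ^ v) (fun b => D.ψ' x b * g₁ b))
      (fun x => Rst (D.M' * p ^ v) (fun b => D.ψ' x b * g₂ b)),
    Sum.elim (fun x => D.ρ x * nm (p ^ i)) (fun x => D.ρ x * nm (p ^ i) / (nm p : ℝ) ^ a),
    ?_, ?_, ?_, fun V hV => ?_⟩
  · rintro (x | x)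
    · exact hc_rst hM0 h3 (v1 x)
    · exact hc_rst hM0 h3 ((v1 x).mul' u0)
  · rintro (x | x)
    · exact hc_rst hM0 h3 ((v2 x).mul' u1)
    · exact hc_rst hM0 h3 ((v2 x).mul' u2)
  · have hpi : (0 : ℝ) < nm (p ^ i) := by
      exact_mod_cast nm_pos.mpr (pow_ne_zero i h.pr.ne_zero)
    rintro (x | x)
    · exact mul_pos (hD.ρ x) hpi
    · exact div_pos (mul_pos (hD.ρ x) hpi) (by positivity)
  · obtain ⟨W, hW, h5⟩ := hFE V hV
    refine ⟨Sum.elim W W, ?_, fun u hu Q hQ τ => ?_⟩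
    · rintro (x | x)
      · exact hW x
      · exact hW x
    · have hup : Sm M₁ (u * p ^ i) := (h.low hu).mul (h.sp.pow i)
      beta_reduce
      rw [h5 (u * p ^ i) hup Q hQ τ]
      congr 1
      rw [Fintype.sum_sum_type]
      simp only [Sum.elim_inl, Sum.elim_inr]
      rw [← Finset.sum_add_distrib]
      congr 1
      refine Finset.sum_congr rfl fun x _ => ?_
      have hY : 0 < D.ρ x * nm (u * p ^ i) / Q := by
        have h6 : (0 : ℝ) < nm (u * p ^ i) := by exact_mod_cast nm_pos.mpr hup.ne_zero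
        have := hD.ρ x
        positivity
      have hmul : ∀ a b, Sm M₁ a → Sm M₁ b → End699.tw (D.ψ' x) D.l' (a * b) =
          End699.tw (D.ψ' x) D.l' a * End699.tw (D.ψ' x) D.l' b :=
        fun a b ha hb => tw_mul (hD.ψ' x) D.l' ha.1 hb.1
      rw [hsplit (End699.tw (D.ψ' x) D.l') hmul (fun k hk => norm_tw_le' (hD.ψ' x) D.l' hk.1)
        (W x τ) (hP _ (hW x) τ) u hu _ hY, tw_mul (hD.η x) D.j hu.1 (h.sp.pow i).1,
        tw_rst hcop _ _ hu, tw_rst hcop _ _ hu]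
      have e1 : D.ρ x * (nm (u * p ^ i) : ℝ) / Q = D.ρ x * nm (p ^ i) * nm u / Q := by
        rw [nm_mul]; push_cast; ring
      have e2 : D.ρ x * (nm (p ^ i) : ℝ) * nm u / Q / (nm p : ℝ) ^ a =
          D.ρ x * nm (p ^ i) / (nm p : ℝ) ^ a * nm u / Q := by ring
      have f1 : ∀ (g : Eis → ℂ) (Y : ℝ),
          D3 M (End699.tw (Rst (D.M' * p ^ v) (fun b => D.ψ' x b * g b)) D.l') u (W x τ) Y =
          D3 M (fun d => End699.tw (D.ψ' x) D.l' d * g d) u (W x τ) Y := by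
        intro g Y
        refine D3_congr (fun b hb => ?_) u _ _
        rw [tw_rst hcop _ _ hb]
        unfold End699.tw
        ring
      rw [f1, f1, e1, e2]
      unfold End699.tw
      ring

/-- **adding a prime** (the character acquires `(p/·)`) -/
theorem stepY (hP : ∀ W, P W → ∀ τ, WB (W τ)) (h : Ext3 M M₁ p) {v : ℕ} (hv0 : v ≠ 0) (hv : M = p ^ v * M₁)
    {ψ₁ : Eis → ℂ} (hψ₁ : HC M₁ ψ₁) {l : ℤ} (H : HasY P M₁ ψ₁ l mm S)
    {ψ : Eis → ℂ} (hψ : ∀ b, Sm M b → ψ b = ψ₁ b * sy p b)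
    (hS : ∀ u, Sm M u → S' u = S (u * p) - c1 p u * End699.tw ψ₁ l (p ^ 2) *
      ((((nm p : ℝ) ^ 2) ^ (4 / 3 : ℝ))⁻¹ : ℝ) * S u) :
    HasY P M ψ l mm S' := by
  obtain ⟨ι, iι, D, hD, hFE⟩ := H
  have hM0 : D.M' * p ^ v ≠ 0 := mul_ne_zero hD.ne (pow_ne_zero _ h.pr.ne_zero)
  have h3 : (3 : Eis) ∣ D.M' * p ^ v := (h.three.trans hD.dvd).mul_right _
  have hpM : p ∣ D.M' * p ^ v := (dvd_pow_self p hv0).mul_left _
  have hrad : ∀ r : Eis, Prime r → r ∣ D.M' * p ^ v → r ∣ M := by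
    intro r hr hrd
    rcases hr.dvd_or_dvd hrd with h5 | h5
    · rw [hv]; exact (hD.rad r hr h5).mul_left _
    · rw [hv]; exact h5.mul_right _
  have hcop : ∀ b, Sm M b → IsCoprime b (D.M' * p ^ v) := by
    intro b hb
    refine isCoprime_of_prime_dvd (fun h' => hM0 h'.2) (fun r hr h5 h6 => ?_)
    exact hr.not_isUnit (hb.2.isUnit_of_dvd' h5 (hrad r hr h6))
  set M'' := D.M' * p ^ v with hM''
  have hq := h.q_pos
  have uo : Uni M'' (fun _ => (1 : ℂ)) :=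
    { one := rfl, mul := fun _ _ _ _ => by norm_num, norm := fun _ _ => norm_one,
      per := fun _ _ _ _ _ => rfl }
  have ul : Uni M'' (fun b => sy b p) :=
    { one := syAx.one_left h.sp.1
      mul := fun a b _ _ => syAx.mul_left a b p h.sp.1
      norm := fun a ha => syAx.norm_eq_one h.sp.1 (IsCoprime.of_isCoprime_of_dvd_right ha.2 hpM)
      per := fun a b _ _ hab => syAx.congr a b p h.sp.1 (hpM.trans hab) }
  have ur : Uni M'' (fun b => sy p b) :=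
    { one := ul.one ▸ (syAx.recip p 1 h.sp.1 isPrim_one)
      mul := fun a b ha hb => by
        rw [syAx.recip p (a * b) h.sp.1 (ha.1.mul hb.1), syAx.recip p a h.sp.1 ha.1,
          syAx.recip p b h.sp.1 hb.1]
        exact ul.mul a b ha hb
      norm := fun a ha => by rw [syAx.recip p a h.sp.1 ha.1]; exact ul.norm a ha
      per := fun a b ha hb hab => by
        rw [syAx.recip p a h.sp.1 ha.1, syAx.recip p b h.sp.1 hb.1]
        exact ul.per a b ha hb hab }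
  set sq : ℂ := ((Real.sqrt (nm p) : ℝ) : ℂ) with hsq
  have R0 : RepY P M M'' D.j D.l' mm (fun u => S (u * p ^ 0)) (fun V u Q τ =>
      N3 M₁ (End699.tw ψ₁ l) (u * p ^ 0) (fun y => (y : ℂ) ^ (I * τ) * V y) Q) := by
    refine rep_baseY hP h hD hFE hcop 0 1 (sq * conj (G p)) ul uo ur ?_
    intro χ hmul hb W hW u hu Y hY
    have := D3_zero h hmul hb hW hu hY
    simp only [pow_zero, mul_one, pow_one]
    rw [this]
    unfold c0
    ring
  have R1 : RepY P M M'' D.j D.l' mm (fun u => S (u * p ^ 1)) (fun V u Q τ =>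
      N3 M₁ (End699.tw ψ₁ l) (u * p ^ 1) (fun y => (y : ℂ) ^ (I * τ) * V y) Q) := by
    refine rep_baseY hP h hD hFE hcop 1 2 ((nm p : ℂ) * sq * G p) ul.conj' ur uo ?_
    intro χ hmul hb W hW u hu Y hY
    have := D3_one h hmul hb hW hu hY
    simp only [pow_one, mul_one]
    rw [this]
    unfold c1
    ring
  have hmul : ∀ a b, Sm M₁ a → Sm M₁ b → End699.tw ψ₁ l (a * b) =
      End699.tw ψ₁ l a * End699.tw ψ₁ l b := fun a b ha hb => tw_mul hψ₁ l ha.1 hb.1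
  have hb : ∀ k, Sm M₁ k → ‖End699.tw ψ₁ l k‖ ≤ 1 := fun k hk => norm_tw_le' hψ₁ l hk.1
  have hψ' : ∀ b, Sm M b → End699.tw ψ l b = End699.tw ψ₁ l b * sy p b := by
    intro b hb
    unfold End699.tw
    rw [hψ b hb]
    ring
  have fin : RepY P M M'' D.j D.l' mm S' (fun V u Q τ =>
      N3 M (End699.tw ψ l) u (fun y => (y : ℂ) ^ (I * τ) * V y) Q) → HasY P M ψ l mm S' := by
    rintro ⟨κι, iκ, κ, η, ψ', ρ, a1, a2, a3, a4⟩
    refine ⟨κι, iκ, ⟨M'', κ, η, ψ', D.j, D.l', ρ⟩, ?_, a4⟩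
    exact
      { ne := hM0
        dvd := by rw [hv, hM'', mul_comm (p ^ v) M₁]; exact mul_dvd_mul_right hD.dvd _
        rad := hrad
        η := a1
        ψ' := a2
        ρ := a3 }
  refine fin ?_
  have e := ((R0.dil (pow_pos hq 2)).cmul hM0 h3 hcop
    (-((nm p : ℂ) * sq * G p) * End699.tw ψ₁ l (p ^ 2)) ul.conj')
  refine (R1.add e).congr (fun V hV u hu Q hQ τ => ?_) (fun u hu => ?_)
  · rw [N3_congr (fun b hb => hψ' b hb) u _ _,
      N3_one h hmul hb (vb_of_sw hV τ) hu hQ]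
    simp only [pow_zero, mul_one, pow_one]
    unfold c1
    ring
  · rw [hS u hu]
    simp only [pow_zero, mul_one, pow_one]
    unfold c1
    ring

/-- **level 9** -/
theorem base9Y (hB : ∀ V : ℝ → ℂ, SW V → ∀ i : IX 1,
    P (fun τ y => om' 1 (Tw τ (FV V)) i (Real.exp (-Real.log y))))
    {ψ : Eis → ℂ} (hψ : ∀ b, Sm (9 : Eis) b → ψ b = 1) :
    HasY P 9 ψ 0 mmB (fun u => conj (PX764.rho u)) := by
  have h27 : (27 : Eis) ≠ 0 := by decide
  have h3 : (3 : Eis) ∣ 27 := ⟨9, by norm_num⟩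
  set ch : IX 1 → Eis → ℂ := fun i => Rst 27 (sy (dl' 1 i)) with hch
  have hHC : ∀ i, HC 27 (ch i) := fun i => hc_rst h27 h3 (uni_sy (dl_dvd i))
  refine ⟨IX 1, inferInstance, ⟨27, fun _ => 1, ch, ch, 0, 0, fun _ => 1⟩, ?_, ?_⟩
  · exact
      { ne := h27
        dvd := ⟨3, by norm_num⟩
        rad := fun r hr hd => by
          have e : (27 : Eis) = 3 ^ 3 := by norm_num
          rw [e] at hd
          have e9 : (9 : Eis) = 3 * 3 := by norm_num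
          show r ∣ 9
          rw [e9]
          exact (hr.dvd_of_dvd_pow hd).mul_right _
        η := hHC
        ψ' := hHC
        ρ := fun _ => one_pos }
  · intro V hV
    refine ⟨fun i τ y => om' 1 (Tw τ (FV V)) i (Real.exp (-Real.log y)),
      fun i => hB V hV i, fun u hu Q hQ τ => ?_⟩
    have hχ : ∀ b, IsPrim b → End699.tw ψ 0 b = 1 := fun b hb => by
      rw [tw_zero, hψ b ⟨hb, coprime_nine hb⟩]
    rw [base_id hV hχ hu.1 hQ τ]
    have e1 : ∀ i : IX 1, E2440.TP' 1 u (Tw τ (FV V)) Q i =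
        1 * End699.tw (ch i) 0 u * D3 9 (End699.tw (ch i) 0) u
          (fun y => om' 1 (Tw τ (FV V)) i (Real.exp (-Real.log y))) (1 * nm u / Q) := by
      intro i
      have hc : ∀ b, IsPrim b → End699.tw (ch i) 0 b = sy (dl' 1 i) b := fun b hb => by
        rw [tw_zero]
        exact Rst_of (coprime_27 hb)
      rw [piece_eq hu.1 (Tw τ (FV V)) hQ i hc, hc u hu.1]
      simp only [one_mul]
    rw [Finset.sum_congr rfl fun i _ => e1 i]
    unfold MT mmB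
    ring

/-- **level `9 m₀`** -/
theorem hasY_all (hP : ∀ W, P W → ∀ τ, WB (W τ))
    (hB : ∀ V : ℝ → ℂ, SW V → ∀ i : IX 1,
    P (fun τ y => om' 1 (Tw τ (FV V)) i (Real.exp (-Real.log y)))) :
    ∀ (n : ℕ) (m₀ : Eis), nm m₀ ≤ n → IsPrim m₀ → Squarefree m₀ →
    ∃ c : ℝ, 0 ≤ c ∧ c ≤ 1 ∧ ∀ ψ : Eis → ℂ,
    (∀ b, Sm (9 * m₀) b → ψ b = sy m₀ b) →
      HasY P (9 * m₀) ψ 0 mmB (fun u => (c : ℂ) * conj (PX764.rho (m₀ * u))) := by
  intro n
  induction n with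
  | zero =>
    intro m₀ hn hp
    have := nm_pos.mpr hp.ne_zero
    omega
  | succ n ih =>
    intro m₀ hn hp hs
    by_cases h1 : m₀ = 1
    · subst h1
      refine ⟨1, zero_le_one, le_rfl, fun ψ hψ => ?_⟩
      have := base9Y hB (ψ := ψ) fun b hb => by
        rw [hψ b (by rwa [mul_one]), syAx.one_left hb.1]
      simpa using this
    · obtain ⟨p, hpp, hpr, m₁, rfl⟩ := Char766.exists_prim_prime_dvd hp h1
      have hm1 : IsPrim m₁ := (prim_mul_iff hpr).mp hp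
      have hs1 : Squarefree m₁ := hs.of_mul_right
      have hcop : IsCoprime p m₁ := by
        rw [hpp.irreducible.coprime_iff_not_dvd]
        intro hd
        obtain ⟨t, rfl⟩ := hd
        exact hpp.not_isUnit (hs p ⟨t, by ring⟩)
      have hlt : nm m₁ ≤ n := by
        have h2 : 1 < nm p := by
          have h3 : nm p ≠ 1 := fun h => hpp.not_isUnit (isUnit_iff.mpr h)
          have := nm_pos.mpr hpp.ne_zero
          omega
        have h4 := nm_pos.mpr hm1.ne_zero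
        rw [nm_mul] at hn
        nlinarith
      set M₁ : Eis := 9 * m₁ with hM₁
      have hM10 : M₁ ≠ 0 := mul_ne_zero (by decide) hm1.ne_zero
      have h3M : (3 : Eis) ∣ M₁ := ⟨3 * m₁, by rw [hM₁]; ring⟩
      have hsp : Sm M₁ p := ⟨hpr, (coprime_nine hpr).mul_right hcop⟩
      have hM : (9 : Eis) * (p * m₁) = p ^ 1 * M₁ := by rw [hM₁]; ring
      have hext : Ext3 (9 * (p * m₁)) M₁ p :=
        { three := h3M
          pr := hpp
          sp := hsp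
          iff := fun b => by
            rw [hM, pow_one]
            constructor
            · intro hb
              refine ⟨⟨hb.1, hb.2.of_isCoprime_of_dvd_right ⟨p, by ring⟩⟩, fun hd => ?_⟩
              exact hpp.not_isUnit (hb.2.isUnit_of_dvd' hd (dvd_mul_right _ _))
            · rintro ⟨hb, hd⟩
              exact ⟨hb.1, ((hpp.irreducible.coprime_iff_not_dvd.mpr hd).symm).mul_right hb.2⟩ }
      have huni : Uni M₁ (sy m₁) :=
        { one := syAx.one_right m₁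
          mul := fun a b ha hb => syAx.mul_right m₁ a b ha.1 hb.1
          norm := fun a ha => syAx.norm_eq_one ha.1
            (ha.2.of_isCoprime_of_dvd_right (dvd_mul_left m₁ 9)).symm
          per := fun a b ha hb hab => by
            rw [syAx.recip m₁ a hm1 ha.1, syAx.recip m₁ b hm1 hb.1]
            exact syAx.congr a b m₁ hm1 ((dvd_mul_left m₁ 9).trans hab) }
      have hHC : HC M₁ (Rst M₁ (sy m₁)) := hc_rst hM10 h3M huni
      obtain ⟨c, hc0, hc1, hcX⟩ := ih m₁ hlt hm1 hs1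
      have hL := hcX (Rst M₁ (sy m₁)) fun b hb => Rst_of hb.2
      have hq1 : (1 : ℝ) ≤ nm p := by exact_mod_cast nm_pos.mpr hpp.ne_zero
      have hq0 : (0 : ℝ) < nm p := by linarith
      have hsqp : Squarefree p := hs.of_mul_left
      have hinv1 : ((nm p : ℝ))⁻¹ ≤ 1 := inv_le_one_of_one_le₀ hq1
      have hinv0 : 0 ≤ ((nm p : ℝ))⁻¹ := by positivity
      refine ⟨(1 - ((nm p : ℝ))⁻¹) * c, by nlinarith, by nlinarith, fun ψ hψ => ?_⟩
      refine stepY hP hext one_ne_zero hM hHC hL (fun b hb => ?_) (fun u hu => ?_)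
      · rw [hψ b hb, Rst_of (hext.low hb).2, syAx.mul_left p m₁ b hb.1]
        ring
      · have hpu : ¬ p ∣ u := hext.ndvd hu
        have hup : IsCoprime u p := (hpp.irreducible.coprime_iff_not_dvd.mpr hpu).symm
        have hc : IsCoprime (m₁ * u) p := hcop.symm.mul_left hup
        have hrho := PX764.rho_mul hpr (m₁ * u) hsqp hc
        have e0 : p * m₁ * u = m₁ * u * p := by ring
        have e1 : m₁ * (u * p) = m₁ * u * p := by ring
        -- `Gh conj Gh = 1`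
        have hG := PX764.Gh_mul_conj (h := m₁ * u) hpr hsqp hc
        have hn6 : ((PX764.n6 p : ℝ) : ℂ) * ((((nm p : ℝ) ^ ((1 : ℝ) / 6)) : ℝ) : ℂ) = 1 := by
          rw [← Complex.ofReal_mul]
          unfold PX764.n6
          rw [← Real.rpow_add hq0]
          norm_num
        have hrho2 : conj (PX764.rho (m₁ * u)) = conj (PX764.Gh (m₁ * u) p) *
            ((((nm p : ℝ) ^ ((1 : ℝ) / 6)) : ℝ) : ℂ) * conj (PX764.rho (m₁ * u * p)) := by
          rw [hrho, map_mul, map_mul, Complex.conj_conj, Complex.conj_ofReal]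
          linear_combination (-conj (PX764.rho (m₁ * u))) * hG +
            (-conj (PX764.rho (m₁ * u)) * (PX764.Gh (m₁ * u) p * conj (PX764.Gh (m₁ * u) p))) * hn6
        have htw : End699.tw (Rst M₁ (sy m₁)) 0 (p ^ 2) = sy m₁ p ^ 2 := by
          rw [tw_zero, Rst_of (hsp.pow 2).2, syAx.pow_right m₁ hpr 2]
        -- the phase
        have hph : c1 p u * sy m₁ p ^ 2 * conj (PX764.Gh (m₁ * u) p) =
            (nm p : ℂ) * ((Real.sqrt (nm p) : ℝ) : ℂ) := by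
          unfold c1 PX764.Gh
          rw [map_mul, Complex.conj_conj, syAx.mul_left m₁ u p hpr]
          have a1 : G p * conj (G p) = 1 := Gauss880.G_mul_conj syG hpr hsqp
          have a2 : sy m₁ p ^ 3 = 1 := syG.cube m₁ p hpr hcop.symm
          have a3 : sy u p * conj (sy u p) = 1 := by
            rw [Complex.mul_conj, Complex.normSq_eq_norm_sq, PX764.norm_sy_one hpr hup]; simp
          calc (nm p : ℂ) * ((Real.sqrt (nm p) : ℝ) : ℂ) * (conj (sy u p) * G p) * sy m₁ p ^ 2 *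
                (conj (G p) * (sy m₁ p * sy u p)) =
              (nm p : ℂ) * ((Real.sqrt (nm p) : ℝ) : ℂ) * (G p * conj (G p)) * (sy m₁ p ^ 3) *
                (sy u p * conj (sy u p)) := by ring
            _ = _ := by rw [a1, a2, a3]; ring
        have hpow : (nm p : ℂ) * ((Real.sqrt (nm p) : ℝ) : ℂ) *
            (((((nm p : ℝ) ^ 2) ^ (4 / 3 : ℝ))⁻¹ : ℝ) : ℂ) *
            ((((nm p : ℝ) ^ ((1 : ℝ) / 6)) : ℝ) : ℂ) = (((nm p : ℝ)⁻¹ : ℝ) : ℂ) := by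
          rw [show (nm p : ℂ) = (((nm p : ℝ)) : ℂ) by push_cast; rfl, ← Complex.ofReal_mul,
            ← Complex.ofReal_mul, ← Complex.ofReal_mul]
          congr 1
          have b1 : ((nm p : ℝ) ^ 2) ^ (4 / 3 : ℝ) = (nm p : ℝ) ^ (8 / 3 : ℝ) := by
            rw [← Real.rpow_natCast, ← Real.rpow_mul hq0.le]; norm_num
          rw [b1, Real.sqrt_eq_rpow, ← Real.rpow_neg hq0.le]
          nth_rewrite 1 [← Real.rpow_one (nm p : ℝ)]
          rw [← Real.rpow_add hq0, ← Real.rpow_add hq0, ← Real.rpow_add hq0,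
            ← Real.rpow_neg_one]
          norm_num
        beta_reduce
        rw [e0, e1, htw, hrho2]
        have e5 : (((1 - ((nm p : ℝ))⁻¹) * c : ℝ) : ℂ) = (1 - (((nm p : ℝ)⁻¹ : ℝ) : ℂ)) * (c : ℂ) := by
          push_cast; ring
        rw [e5]
        generalize (((((nm p : ℝ) ^ 2) ^ (4 / 3 : ℝ))⁻¹ : ℝ) : ℂ) = T at hpow ⊢
        generalize ((((nm p : ℝ) ^ ((1 : ℝ) / 6)) : ℝ) : ℂ) = N6 at hpow ⊢
        generalize (((nm p : ℝ)⁻¹ : ℝ) : ℂ) = iv at hpow ⊢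
        linear_combination ((c : ℂ) * conj (PX764.rho (m₁ * u * p)) * T * N6) * hph +
          ((c : ℂ) * conj (PX764.rho (m₁ * u * p))) * hpow

/-- change of the modulus -/
lemma HasY.transfer {M M₁ : Eis} (hM0 : M ≠ 0) (hS : Sm M = Sm M₁)
    (hr : ∀ p : Eis, Prime p → p ∣ M₁ → p ∣ M) {ψ : Eis → ℂ} {l : ℤ}
    (h : HasY P M₁ ψ l mm S) : HasY P M ψ l mm S := by
  obtain ⟨ι, iι, D, hD, hFE⟩ := h
  set M'' : Eis := D.M' * M with hM''
  have h0 : M'' ≠ 0 := mul_ne_zero hD.ne hM0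
  have hrad : ∀ p : Eis, Prime p → p ∣ M'' → p ∣ M := by
    intro p hp hd
    rcases hp.dvd_or_dvd hd with h1 | h1
    · exact hr p hp (hD.rad p hp h1)
    · exact h1
  have hcop : ∀ b, Sm M b → IsCoprime b M'' := by
    intro b hb
    refine isCoprime_of_prime_dvd (fun h' => h0 h'.2) (fun r hr h5 h6 => ?_)
    exact hr.not_isUnit (hb.2.isUnit_of_dvd' h5 (hrad r hr h6))
  by_cases he : IsEmpty ι
  · refine ⟨ι, iι, ⟨M'', D.κ, D.η, D.ψ', D.j, D.l', D.ρ⟩, ?_, ?_⟩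
    · exact
        { ne := h0
          dvd := dvd_mul_left _ _
          rad := hrad
          η := fun i => he.elim i
          ψ' := fun i => he.elim i
          ρ := fun i => he.elim i }
    · unfold LY3 N3 D3 E2440.NT E2440.DS at hFE ⊢
      rw [hS]
      exact hFE
  rw [not_isEmpty_iff] at he
  have h3 : (3 : Eis) ∣ M'' := ((hD.η he.some).three).mul_right _
  have u1 : ∀ i, Uni M'' (D.η i) := fun i => (uni_of_HC (hD.η i)).mono (dvd_mul_right _ _)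
  have u2 : ∀ i, Uni M'' (D.ψ' i) := fun i => (uni_of_HC (hD.ψ' i)).mono (dvd_mul_right _ _)
  refine ⟨ι, iι, ⟨M'', D.κ, fun i => Rst M'' (D.η i), fun i => Rst M'' (D.ψ' i), D.j, D.l', D.ρ⟩,
    ?_, ?_⟩
  · exact
      { ne := h0
        dvd := dvd_mul_left _ _
        rad := hrad
        η := fun i => hc_rst h0 h3 (u1 i)
        ψ' := fun i => hc_rst h0 h3 (u2 i)
        ρ := hD.ρ }
  · intro V hV
    obtain ⟨W, hW, h5⟩ := hFE V hV
    refine ⟨W, hW, fun u hu Q hQ τ => ?_⟩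
    have hu1 : Sm M₁ u := hS ▸ hu
    have hN : ∀ (V : ℝ → ℂ), N3 M (End699.tw ψ l) u V Q = N3 M₁ (End699.tw ψ l) u V Q := by
      intro V
      unfold N3 E2440.NT E2440.DS
      rw [hS]
    have hDD : ∀ (χ : Eis → ℂ) (W : ℝ → ℂ) (Y : ℝ), D3 M χ u W Y = D3 M₁ χ u W Y := by
      intro χ W Y
      unfold D3 E2440.DS
      rw [hS]
    rw [hN, h5 u hu1 Q hQ τ]
    congr 2
    refine Finset.sum_congr rfl fun i _ => ?_
    rw [tw_rst hcop _ _ hu]
    have f1 : D3 M (End699.tw (Rst M'' (D.ψ' i)) D.l') u (W i τ) (D.ρ i * nm u / Q) =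
        D3 M (End699.tw (D.ψ' i) D.l') u (W i τ) (D.ρ i * nm u / Q) :=
      D3_congr (fun b hb => by rw [tw_rst hcop _ _ hb]; rfl) u _ _
    show _ = D.κ i * (D.η i u * ang D.j u) *
      D3 M (End699.tw (Rst M'' (D.ψ' i)) D.l') u (W i τ) (D.ρ i * nm u / Q)
    rw [f1, hDD]
    rfl

/-- **case L, exact main term** -/
theorem law_Lp (hP : ∀ W, P W → ∀ τ, WB (W τ))
    (hB : ∀ V : ℝ → ℂ, SW V → ∀ i : IX 1,
    P (fun τ y => om' 1 (Tw τ (FV V)) i (Real.exp (-Real.log y))))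
    {M m₀ : Eis} (hM0 : M ≠ 0) (hr : Rad0 M m₀) {ψ : Eis → ℂ}
    (hψ : ∀ b, Sm M b → ψ b = sy m₀ b) :
    ∃ (ι : Type) (_ : Fintype ι) (D : Dt3 ι), D.OK M ∧ ∀ V : ℝ → ℂ, SW V →
      ∃ mc : ℝ → ℂ, (∀ A : ℕ, ∃ C : ℝ, 0 ≤ C ∧ ∀ τ, ‖mc τ‖ ≤ C * ((1 + |τ|) ^ A)⁻¹) ∧
        ∃ W : ι → ℝ → ℝ → ℂ, (∀ i, P (W i)) ∧
          ∀ u : Eis, Sm M u → ∀ Q : ℝ, 0 < Q → ∀ τ : ℝ,
            N3 M (End699.tw ψ 0) u (fun y => (y : ℂ) ^ (I * τ) * V y) Q =
              mc τ * conj (PX764.rho (m₀ * u)) * ((Q ^ (4 / 3 : ℝ) : ℝ) : ℂ) +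
              (Q : ℂ) * ∑ i, D.κ i * End699.tw (D.η i) D.j u *
                D3 M (End699.tw (D.ψ' i) D.l') u (W i τ) (D.ρ i * nm u / Q) := by
  have hS : Sm M = Sm (9 * m₀) := sm_rad0 hr
  obtain ⟨c, hc0, hc1, hcX⟩ := hasY_all hP hB (nm m₀) m₀ le_rfl hr.prim hr.sqf
  have h1 := hcX ψ fun b hb => hψ b (hS ▸ hb)
  have h2 := h1.transfer hM0 hS fun p hp hd => by
    refine (hr.iff p hp).mp ?_
    rw [show (9 : Eis) * m₀ = 3 * (3 * m₀) by ring] at hd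
    rcases hp.dvd_or_dvd hd with h4 | h4
    · exact h4.mul_right _
    · exact h4
  obtain ⟨ι, iι, D, hD, hFE⟩ := h2
  refine ⟨ι, iι, D, hD, fun V hV => ?_⟩
  obtain ⟨W, hW, h5⟩ := hFE V hV
  refine ⟨fun τ => mmB V τ * (c : ℂ), fun A => ?_, W, hW, fun u hu Q hQ τ => ?_⟩
  · obtain ⟨C, hC, h6⟩ := mmB_dec hV A
    refine ⟨C, hC, fun τ => ?_⟩
    rw [norm_mul, Complex.norm_real, Real.norm_of_nonneg hc0]
    exact (mul_le_of_le_one_right (norm_nonneg _) hc1).trans (h6 τ)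
  · rw [h5 u hu Q hQ τ]
    unfold MT
    ring

end Crest.Agent.R017.E4X266
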