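import Crest.Agent.R017.E4LawX_266
import Crest.Agent.R017.OmInf_180

/-!
# Row 17, C70/E4 exceptional class: two-scale differences of the dual weights (helper266)

* `WTd W` : `W τ y - W τ (y e^{-h})` is bounded by `min (y^{1/3}) (min 1 ((y e^{-h})^{-N}))` with all
  logarithmic derivatives, uniformly in `h ≥ 0`, polynomially in the height
* `omd_fam` : the dual kernels are in this class
-/

set_option autoImplicit false

noncomputable section

open Complex MeasureTheory Set Filter Topology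
open scoped ComplexConjugate ContDiff

namespace Crest.Agent.R017.E4X266

open Crest.Agent.R012 Crest.Agent.R012.Eis
open Crest.Agent.R017.X6545 (TF Bd)
open Crest.Agent.R017.X6C180 Crest.Agent.R017.X6W180
open Crest.Agent.R017.OmInf180 (Ld op_Ld dom_bd)
open Crest.Agent.R017.E1c146 (iteratedDeriv_seq)
open Crest.Agent.R017.E4L266

/-- the two-scale differences -/
def dif (W : ℝ → ℂ) (h y : ℝ) : ℂ := W y - W (y * Real.exp (-h))

/-- the bound of the two-scale differences -/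
def bdx (N : ℕ) (h y : ℝ) : ℝ := min (y ^ (1 / 3 : ℝ)) (min 1 (((y * Real.exp (-h)) ^ N)⁻¹))

/-- families with good two-scale differences -/
def WTd (W : ℝ → ℝ → ℂ) : Prop :=
  ∀ m N : ℕ, ∃ C A : ℝ, 0 ≤ C ∧ ∀ τ h y, 0 ≤ h → 0 < y →
    ‖iteratedDeriv m (fun x => dif (W τ) h (Real.exp x)) (Real.log y)‖ ≤
      C * (1 + |τ|) ^ A * bdx N h y

lemma opE_Ld {v0 : Eis} (h0 : v0 ≠ 0) (i : IX v0) (h : ℝ) : OpE (Ld v0 i h) := by
  have hop := opE_om h0 i
  refine ⟨fun F G hF hG x => ?_, fun a F x => ?_, fun F r x => ?_⟩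
  · have h1 := hop.add F G hF hG x
    have h2 := hop.add F G hF hG (x + h)
    unfold Ld
    rw [h1, h2]
    ring
  · have h1 := hop.smul a F x
    have h2 := hop.smul a F (x + h)
    unfold Ld
    rw [h1, h2]
    ring
  · have h1 := hop.tr F r x
    have h2 := hop.tr F r (x + h)
    unfold Ld
    rw [h1, h2, show x + h - r = x - r + h by ring]
    ring

/-- the families `Ld (Tw τ F)` -/
theorem ld_fam {v0 : Eis} (h0 : v0 ≠ 0) (i : IX v0) {F : ℝ → ℂ} (hF : Sc F) (m n : ℕ) :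
    ∃ C A : ℝ, 0 ≤ C ∧ ∀ τ h y, 0 ≤ h → 0 < y →
      ‖iteratedDeriv m (fun x => Ld v0 i h (Tw τ F) (-x)) (Real.log y)‖ ≤
        C * (1 + |τ|) ^ A * bdx n h y := by
  obtain ⟨N, Φ, hΦ, hp⟩ := hF.part
  obtain ⟨k, C, hC0, hC⟩ := dom_bd h0 n
  have hS := fun j => exists_Bd (hΦ j) (k + m)
  choose S hS0 hS using hS
  set D : ℝ := ∑ j ∈ Finset.range (2 * N + 1), Real.exp (((j : ℝ) - N) / 3) *
    (C * (2 ^ m * S j) * Real.exp ((n + 1) * (N + 1))) with hD
  refine ⟨D, ((k + m : ℕ) : ℝ), Finset.sum_nonneg fun j _ => by have := hS0 j; positivity,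
    fun τ h y hh hy => ?_⟩
  have hL := op_Ld h0 i hh
  have key : (fun x => Ld v0 i h (Tw τ F) (-x)) = gs' (Ld v0 i h) N Φ τ 0 := by
    funext x
    rw [hp τ, ((opE_Ld h0 i h).sum _ _ _ _ fun k => evF_of_tf (tf1_tf (tf1_Tw τ (hΦ k)))).2]
    unfold gs'
    refine Finset.sum_congr rfl fun k _ => ?_
    rw [pow_zero, one_mul, Function.iterate_zero, id]
    ring
  rw [key, iteratedDeriv_seq (fun n u => gs'_deriv hL N hΦ τ n u) m]
  unfold gs'
  refine (norm_sum_le _ _).trans ?_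
  rw [hD, Finset.sum_mul, Finset.sum_mul]
  refine Finset.sum_le_sum fun j hj => ?_
  rw [Finset.mem_range] at hj
  have hτ1 : (1 : ℝ) ≤ 1 + |τ| := by have := abs_nonneg τ; linarith
  rw [norm_mul, norm_mul, norm_osc, one_mul, Complex.norm_real,
    Real.norm_of_nonneg (Real.exp_pos _).le, norm_mul, norm_pow, norm_neg, norm_one, one_pow,
    one_mul]
  have hb1 : Bd (Tw τ (Φ j)) (k + m) ((1 + |τ|) ^ (k + m) * S j) := bd_Tw τ (hΦ j) (hS j)
  have hb2 := bd_iter (tf1_Tw τ (hΦ j)) m hb1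
  have h3 := hC _ _ (tf1_tf (tf1_iter (tf1_Tw τ (hΦ j)) m)) hb2 i h
    (-Real.log y - ((j : ℝ) - N)) hh
  have hn : (0 : ℝ) ≤ n := Nat.cast_nonneg n
  have hN : (0 : ℝ) ≤ N := Nat.cast_nonneg N
  have hj0 : (0 : ℝ) ≤ (j : ℝ) := Nat.cast_nonneg j
  have hjN : (j : ℝ) ≤ 2 * N := by
    have : j ≤ 2 * N := by omega
    exact_mod_cast this
  set E : ℝ := Real.exp ((n + 1) * (N + 1)) with hE
  have hE1 : 1 ≤ E := Real.one_le_exp (by positivity)
  have e1 : y ^ (1 / 3 : ℝ) = Real.exp (Real.log y / 3) := by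
    rw [Real.rpow_def_of_pos hy]; congr 1; ring
  have e2 : ((y * Real.exp (-h)) ^ n)⁻¹ = Real.exp (n * (-Real.log y + h)) := by
    rw [← Real.exp_log hy, ← Real.exp_add, ← Real.exp_nat_mul, ← Real.exp_neg, Real.log_exp]
    congr 1; ring
  have h4 : min (Real.exp (-((-Real.log y - ((j : ℝ) - N)) / 3)))
      (min 1 (Real.exp (n * (-Real.log y - ((j : ℝ) - N) + h)))) ≤ E * bdx n h y := by
    unfold bdx
    rw [e1, e2]
    have a1 : Real.exp (-((-Real.log y - ((j : ℝ) - N)) / 3)) ≤ E * Real.exp (Real.log y / 3) := by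
      rw [hE, ← Real.exp_add]
      apply Real.exp_le_exp.mpr
      nlinarith
    have a2 : Real.exp (n * (-Real.log y - ((j : ℝ) - N) + h)) ≤
        E * Real.exp (n * (-Real.log y + h)) := by
      rw [hE, ← Real.exp_add]
      apply Real.exp_le_exp.mpr
      nlinarith
    rw [mul_min_of_nonneg _ _ (by linarith), mul_min_of_nonneg _ _ (by linarith), mul_one]
    exact min_le_min a1 (min_le_min hE1 a2)
  have hm0 : 0 ≤ bdx n h y := by unfold bdx; positivity
  have hSj := hS0 j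
  calc Real.exp (((j : ℝ) - N) / 3) *
        ‖Ld v0 i h (DF^[m] (Tw τ (Φ j))) (-Real.log y - ((j : ℝ) - N))‖
      ≤ Real.exp (((j : ℝ) - N) / 3) * (C * (2 ^ m * ((1 + |τ|) ^ (k + m) * S j)) *
          (E * bdx n h y)) := by
        refine mul_le_mul_of_nonneg_left ?_ (Real.exp_pos _).le
        unfold Ld
        exact h3.trans (mul_le_mul_of_nonneg_left h4 (by positivity))
    _ = Real.exp (((j : ℝ) - N) / 3) * (C * (2 ^ m * S j) * E) *
        (1 + |τ|) ^ (((k + m : ℕ) : ℝ)) * bdx n h y := by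
        rw [Real.rpow_natCast]
        ring

/-- **the dual kernels have good two-scale differences** -/
theorem omd_fam {v0 : Eis} (h0 : v0 ≠ 0) (i : IX v0) {F : ℝ → ℂ} (hF : Sc F) :
    WTd (fun τ y => om' v0 (Tw τ F) i (Real.exp (-Real.log y))) := by
  intro m N
  obtain ⟨C, A, hC, h⟩ := ld_fam h0 i hF m N
  refine ⟨C, A, hC, fun τ h' y hh hy => ?_⟩
  have e : (fun x => dif (fun y => om' v0 (Tw τ F) i (Real.exp (-Real.log y))) h' (Real.exp x)) =
      fun x => Ld v0 i h' (Tw τ F) (-x) := by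
    funext x
    unfold dif Ld
    simp only
    rw [← Real.exp_add, Real.log_exp, Real.log_exp]
    congr 3
    ring
  rw [e]
  exact h τ h' y hh hy

end Crest.Agent.R017.E4X266
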