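import Crest.Agent.R017.E4Ge_918

/-!
# Row 17, StrU: the real inequality of class N from the one of class E (helper352)

The total `τ + ex` is monotone in the `T`-number `τ` : `GoalE → Goal`, hence one pair of trees
(`E4DE`, `E4FE`) serves both classes.
-/

set_option autoImplicit false

noncomputable section

namespace Crest.Agent.R017.E4Nd352

open Crest.Agent.R017.E4R70
open Crest.Agent.R017.Bx918

variable {z : Cls} {d N M u a c T : ℝ}

lemma d0_le (z : Cls) (N u : ℝ) : z.d0 N u ≤ z.d0E N u + (z.tE N u - z.tT N u) := by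
  have h0 : z.tT N u ≤ z.tE N u := le_max_left _ _
  unfold Cls.d0 Cls.d0E
  obtain ⟨Q, hQ⟩ : ∃ Q, Q = max (z.v + z.s + z.N1 N + z.u1 N u)
    (5 / 3 * z.N1 N + 2 / 3 * (z.v + z.s)) := ⟨_, rfl⟩
  rw [← hQ]
  rw [← sub_le_iff_le_add]
  refine le_min ?_ ?_
  · have h1 : max 0 (Q - z.tT N u) ≤ max 0 (Q - z.tE N u) + (z.tE N u - z.tT N u) := by
      refine max_le ?_ ?_
      · have := le_max_left (0 : ℝ) (Q - z.tE N u)
        linarith
      · have := le_max_right (0 : ℝ) (Q - z.tE N u)
        linarith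
    have h2 := min_le_left (max 0 (Q - z.tT N u)) (z.v1 / 2)
    linarith
  · have h2 := min_le_right (max 0 (Q - z.tT N u)) (z.v1 / 2)
    linarith

/-- **class N from class E** -/
theorem goal_of_E (h : z.GoalE d N M u a c T) : z.Goal d N M u a c T := by
  obtain ⟨x, ex, ey, κ, h1, h2, h3, h4, hX, hY, hT⟩ := h
  have h0 : z.tT N u ≤ z.tE N u := le_max_left _ _
  refine ⟨x, ex + (z.tE N u - z.tT N u), ey, κ, h1, h2, h3, h4, ?_, hY, by linarith⟩
  rcases hX with ⟨a1, a2, a3, a4⟩ | ⟨lt, a1, a2, a3, a4, a5, a6, a7, -⟩ | ⟨a1, a2, a3, a4, a5⟩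
  · left
    have h5 := d0_le z N u
    exact ⟨by linarith, by linarith, by linarith, by linarith⟩
  · right; left
    exact ⟨lt, a1, by linarith, by linarith, by linarith, by linarith, by linarith, by linarith⟩
  · right; right
    exact ⟨a1, by linarith, by linarith, by linarith, by linarith⟩

/-- `E4D` from `E4DE` -/
theorem e4D_of (H : Ge918.E4DE) : Gl918.E4D := fun μ d r N M u a c x z B ok hn hr =>
  goal_of_E (H μ d r N M u a c x z B ok hn hr)

/-- `E4F` from `E4FE` -/
theorem e4F_of (H : Ge918.E4FE) : Gl918.E4F := fun μ d r N M u a c x z B ok hn hr =>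
  goal_of_E (H μ d r N M u a c x z B ok hn hr)

end Crest.Agent.R017.E4Nd352
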