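import Crest.Agent.R017.E4Pp_266
import Crest.Agent.R017.E4v7d_352

/-!
# Row 17, C70/E4 exceptional class: principal frequencies (helper266), III: the masses over `z`

* `PtF` : the facts at one point `(x', y')` of `z`
* `massZ` : the sum over `z` of a mass is at most `τ₀⁵` times the mass over `o`
-/

set_option autoImplicit false

noncomputable section

open Complex
open scoped ComplexConjugate

namespace Crest.Agent.R017.E4X266

open Crest.Agent.R012 Crest.Agent.R012.Eis Crest.Agent.R012.Mob705 Crest.Agent.R012.Gauss880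
open Crest.Agent.R012.Div277
open Crest.Agent.R017.Sx545 Crest.Agent.R017.CM106 Crest.Agent.R017.C70 Crest.Agent.R017.C590
open Crest.Agent.R017.E2440 Crest.Agent.R017.E4352
open Crest.Agent.R017.E4o502 (vD wD GoodD GB ssm_tws bd_tws)
open Crest.Agent.R017.E4fe502 (FF Dta Bi bi_fin bi_right)
open Crest.Agent.R017.E4R266
open Crest.Agent.R017.E4J352 (Tm QB dta ez ez_sm ez_one ssm_vz ssm_wz)
open Crest.Agent.R017.E4Pr266 (cr cr_nonneg cr_mul tau_mono sum_inj_le)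

section

variable {M f : Eis} {O : Type} {v w : O → Eis → ℂ} {𝒬 : Finset Q5}

lemma vz_facts {z : O × {q : Q5 // q ∈ 𝒬}} {x : Eis} (hx : vz v z x ≠ 0) :
    IsCoprime x z.2.1.B ∧ IsCoprime (z.2.1.R * x) (z.2.1.D0 * z.2.1.D1) ∧
      v z.1 (z.2.1.R * x) ≠ 0 ∧ ‖vz v z x‖ ≤ ‖v z.1 (z.2.1.R * x)‖ := by
  have a1 : IsCoprime x z.2.1.B ∧ vD (z.2.1.D0 * z.2.1.D1) (v z.1) (z.2.1.R * x) ≠ 0 := by
    unfold vz E4352.tws at hx
    split_ifs at hx with h'
    · exact ⟨h', right_ne_zero_of_mul hx⟩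
    · exact absurd rfl hx
  have a2 : IsCoprime (z.2.1.R * x) (z.2.1.D0 * z.2.1.D1) ∧ v z.1 (z.2.1.R * x) ≠ 0 := by
    have h0 := a1.2
    unfold vD E4352.tws at h0
    split_ifs at h0 with h'
    · have := right_ne_zero_of_mul h0
      rw [one_mul] at this
      exact ⟨h', this⟩
    · exact absurd rfl h0
  refine ⟨a1.1, a2.1, a2.2, ?_⟩
  unfold vz vD E4352.tws
  rw [if_pos a1.1, if_pos a2.1, one_mul, one_mul, norm_mul, RCLike.norm_conj]
  exact mul_le_of_le_one_left (norm_nonneg _) (CF61.norm_sy_le _ _)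

lemma wz_facts {z : O × {q : Q5 // q ∈ 𝒬}} {y : Eis} (hy : wz w z y ≠ 0) :
    IsCoprime y z.2.1.B ∧ IsCoprime (z.2.1.Z * y) (z.2.1.D0 * z.2.1.D1) ∧
      w z.1 (z.2.1.D1 * (z.2.1.Z * y)) ≠ 0 ∧
      ‖wz w z y‖ ≤ ‖w z.1 (z.2.1.D1 * (z.2.1.Z * y))‖ := by
  have b1 : IsCoprime y z.2.1.B ∧
      wD (z.2.1.D0 * z.2.1.D1) z.2.1.D1 (w z.1) (z.2.1.Z * y) ≠ 0 := by
    unfold wz E4352.tws at hy
    split_ifs at hy with h'
    · exact ⟨h', right_ne_zero_of_mul hy⟩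
    · exact absurd rfl hy
  have b2 : IsCoprime (z.2.1.Z * y) (z.2.1.D0 * z.2.1.D1) ∧
      w z.1 (z.2.1.D1 * (z.2.1.Z * y)) ≠ 0 := by
    have h0 := b1.2
    unfold wD E4352.tws at h0
    split_ifs at h0 with h'
    · exact ⟨h', right_ne_zero_of_mul h0⟩
    · exact absurd rfl h0
  refine ⟨b1.1, b2.1, b2.2, ?_⟩
  unfold wz wD E4352.tws
  rw [if_pos b1.1, if_pos b2.1, one_mul, norm_mul, RCLike.norm_conj]
  exact mul_le_of_le_one_left (norm_nonneg _) (CF61.norm_sy_le _ _)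

/-- the facts at one point -/
structure PtF (M f : Eis) (c : Eis) (q : Q5) (x y : Eis) : Prop where
  up : IsPrim (FF f q.D0 q.B q.R q.Z * x * y)
  uD : IsCoprime (FF f q.D0 q.B q.R q.Z * x * y) (q.D0 * q.D1)
  eq : f * (q.R * x) * (q.D1 * (q.Z * y)) =
    (q.D0 * q.D1) * q.B ^ 3 * (FF f q.D0 q.B q.R q.Z * x * y)
  cD : IsCoprime c (q.D0 * q.D1)
  cx : ∀ p, IsPP p → p ∣ c → p ∣ FF f q.D0 q.B q.R q.Z * x * y → p ∣ q.R * x

lemma ptF (hf : Sm M f) {c : Eis} {q : Q5} (hq : QOK M f q) {x y : Eis} (hx : Sm M (q.R * x))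
    (hy : Sm M (q.D1 * (q.Z * y))) (cx : IsCoprime (q.R * x) (q.D0 * q.D1))
    (cy : IsCoprime (q.Z * y) (q.D0 * q.D1)) (hc : IsCoprime c (f * (q.D1 * (q.Z * y)))) :
    PtF M f c q x y := by
  have h := dta hf hq
  obtain ⟨c1, c2, c3, c4⟩ := h.copFF hq.good hq.gb.2.2.1
  have hxp : IsPrim x := hx.prim.of_mul_left h.hR
  have hyp : IsPrim y := (hy.prim.of_mul_left hq.pD1).of_mul_left h.hZ
  have hup : IsPrim (FF f q.D0 q.B q.R q.Z * x * y) := (h.sFF.prim.mul hxp).mul hyp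
  have e1 : f * (q.R * x) * (q.D1 * (q.Z * y)) =
      (q.D0 * q.D1) * q.B ^ 3 * (FF f q.D0 q.B q.R q.Z * x * y) := by
    have g1 := h.hFF
    have g2 := h.f'
    calc f * (q.R * x) * (q.D1 * (q.Z * y)) =
          (q.D0 * (f / q.D0)) * (q.R * x) * (q.D1 * (q.Z * y)) := by rw [g2]
      _ = q.D0 * q.D1 * (f / q.D0 * q.R * q.Z) * x * y := by ring
      _ = _ := by rw [g1]; ring
  have hcf : IsCoprime c f := hc.of_mul_right_left
  have hcy : IsCoprime c (q.D1 * (q.Z * y)) := hc.of_mul_right_right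
  refine ⟨hup, (c4.mul_left cx.of_mul_left_right).mul_left cy.of_mul_left_right, e1, ?_, ?_⟩
  · exact (hcf.of_isCoprime_of_dvd_right h.dvd).mul_right hcy.of_mul_right_left
  · intro p hp hpc hpu
    have h1 : p ∣ f * (q.R * x) * (q.D1 * (q.Z * y)) := by
      rw [e1]; exact hpu.mul_left _
    rcases hp.prime.dvd_or_dvd h1 with h2 | h2
    · rcases hp.prime.dvd_or_dvd h2 with h3 | h3
      · exact absurd (hcf.isUnit_of_dvd' hpc h3) hp.prime.not_isUnit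
      · exact h3
    · exact absurd (hcy.isUnit_of_dvd' hpc h2) hp.prime.not_isUnit

/-- **the masses over `z`** -/
theorem massZ [Fintype O] (hf : Sm M f) (hv : ∀ o, SSm M (v o)) (hw : ∀ o, SSm M (w o))
    (h𝒬 : ∀ q ∈ 𝒬, QOK M f q) {τ₀ : ℝ}
    (hτ : ∀ o x y, v o x ≠ 0 → w o y ≠ 0 → (tau (f * x * y) : ℝ) ≤ τ₀)
    (H : O → Eis → Eis → ℝ) (hH : ∀ o x y, 0 ≤ H o x y)
    (G : (z : O × {q : Q5 // q ∈ 𝒬}) → Eis → Eis → ℂ)
    (hG : ∀ z x y, vz v z x ≠ 0 → wz w z y ≠ 0 → IsCoprime (z.2.1.R * x) (z.2.1.D0 * z.2.1.D1) →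
      IsCoprime (z.2.1.Z * y) (z.2.1.D0 * z.2.1.D1) → v z.1 (z.2.1.R * x) ≠ 0 →
      w z.1 (z.2.1.D1 * (z.2.1.Z * y)) ≠ 0 →
      ‖G z x y‖ ≤ H z.1 (z.2.1.R * x) (z.2.1.D1 * (z.2.1.Z * y))) :
    ∑ z : O × {q : Q5 // q ∈ 𝒬}, ‖Bi (vz v z) (wz w z) (G z)‖ ≤
      τ₀ ^ 5 * ∑ o, ∑' x : Eis, ‖v o x‖ * ∑' y : Eis, ‖w o y‖ * H o x y := by
  classical
  -- the finite form of the right side
  have e0 : ∀ o, ∑' x : Eis, ‖v o x‖ * ∑' y : Eis, ‖w o y‖ * H o x y =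
      ∑ x ∈ (hv o).fin.toFinset, ∑ y ∈ (hw o).fin.toFinset, ‖v o x‖ * (‖w o y‖ * H o x y) := by
    intro o
    rw [tsum_eq_sum (s := (hv o).fin.toFinset)]
    · refine Finset.sum_congr rfl fun x _ => ?_
      rw [← Finset.mul_sum]
      congr 1
      refine tsum_eq_sum fun y hy => ?_
      have : w o y = 0 := by
        by_contra h
        exact hy ((hw o).fin.mem_toFinset.mpr h)
      rw [this, norm_zero, zero_mul]
    · intro x hx
      have : v o x = 0 := by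
        by_contra h
        exact hx ((hv o).fin.mem_toFinset.mpr h)
      rw [this, norm_zero, zero_mul]
  set P : O → Q5 → Eis → Eis → Prop := fun _ q x y => q.D0 ∈ dvs (f * x * y) ∧
    q.D1 ∈ dvs (f * x * y) ∧ q.B ∈ dvs (f * x * y) ∧ q.R ∈ dvs (f * x * y) ∧
    q.Z ∈ dvs (f * x * y) with hP
  set h : O → Q5 → Eis → Eis → ℝ := fun o q x y =>
    if P o q x y then ‖v o x‖ * (‖w o y‖ * H o x y) else 0 with hh
  have hh0 : ∀ o q x y, 0 ≤ h o q x y := by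
    intro o q x y
    simp only [hh]
    split_ifs
    · have := hH o x y
      positivity
    · exact le_rfl
  -- one `z`
  have hz : ∀ z : O × {q : Q5 // q ∈ 𝒬}, ‖Bi (vz v z) (wz w z) (G z)‖ ≤
      ∑ x ∈ (hv z.1).fin.toFinset, ∑ y ∈ (hw z.1).fin.toFinset, h z.1 z.2.1 x y := by
    intro z
    have hq := h𝒬 _ z.2.2
    have sv := ssm_vz hv h𝒬 z
    have sw := ssm_wz hw h𝒬 z
    rw [bi_fin sv sw]
    have g1 : ‖∑ x ∈ sv.fin.toFinset, ∑ y ∈ sw.fin.toFinset,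
        vz v z x * (wz w z y * G z x y)‖ ≤ ∑ x ∈ sv.fin.toFinset, ∑ y ∈ sw.fin.toFinset,
          h z.1 z.2.1 (z.2.1.R * x) ((z.2.1.D1 * z.2.1.Z) * y) := by
      refine (norm_sum_le _ _).trans (Finset.sum_le_sum fun x hx => (norm_sum_le _ _).trans
        (Finset.sum_le_sum fun y hy => ?_))
      have hx' := sv.fin.mem_toFinset.mp hx
      have hy' := sw.fin.mem_toFinset.mp hy
      obtain ⟨a1, a2, a3, a4⟩ := vz_facts hx'
      obtain ⟨b1, b2, b3, b4⟩ := wz_facts hy'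
      have hk := hG z x y hx' hy' a2 b2 a3 b3
      have pt := ptF (c := 1) hf hq ((hv z.1).sm _ a3) ((hw z.1).sm _ b3) a2 b2
        isCoprime_one_left
      have hn0 : f * (z.2.1.R * x) * (z.2.1.D1 * (z.2.1.Z * y)) ≠ 0 :=
        mul_ne_zero (mul_ne_zero hf.ne_zero ((hv z.1).sm _ a3).ne_zero)
          ((hw z.1).sm _ b3).ne_zero
      have hPP : P z.1 z.2.1 (z.2.1.R * x) ((z.2.1.D1 * z.2.1.Z) * y) := by
        simp only [hP]
        rw [mul_assoc z.2.1.D1 z.2.1.Z y, mem_dvs hn0, mem_dvs hn0, mem_dvs hn0, mem_dvs hn0,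
          mem_dvs hn0]
        refine ⟨⟨hq.pD0, ?_⟩, ⟨hq.pD1, ?_⟩, ⟨hq.gb.2.1.prim, ?_⟩, ⟨hq.pR.1, ?_⟩, ⟨hq.pZ.1, ?_⟩⟩
        · exact ((dta hf hq).dvd.mul_right _).mul_right _
        · exact (dvd_mul_right _ _).mul_left _
        · rw [pt.eq]
          exact ⟨(z.2.1.D0 * z.2.1.D1) * z.2.1.B ^ 2 *
            (FF f z.2.1.D0 z.2.1.B z.2.1.R z.2.1.Z * x * y), by ring⟩
        · exact ((dvd_mul_right _ _).mul_left _).mul_right _
        · exact ((dvd_mul_right _ _).mul_left _).mul_left _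
      simp only [hh]
      rw [if_pos hPP, mul_assoc z.2.1.D1 z.2.1.Z y, norm_mul, norm_mul]
      have hn := norm_nonneg (vz v z x)
      gcongr
    refine g1.trans ?_
    have g2 : ∀ x ∈ sv.fin.toFinset, ∑ y ∈ sw.fin.toFinset,
        h z.1 z.2.1 (z.2.1.R * x) ((z.2.1.D1 * z.2.1.Z) * y) ≤
          ∑ y ∈ (hw z.1).fin.toFinset, h z.1 z.2.1 (z.2.1.R * x) y := by
      intro x _
      refine sum_inj_le (mul_ne_zero hq.pD1.ne_zero hq.pZ.1.ne_zero) (fun y hy => ?_)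
        (h := fun y => h z.1 z.2.1 (z.2.1.R * x) y) (fun y => hh0 _ _ _ _)
      obtain ⟨b1, b2, b3, b4⟩ := wz_facts (sw.fin.mem_toFinset.mp hy)
      rw [(hw z.1).fin.mem_toFinset, mul_assoc]
      exact b3
    refine (Finset.sum_le_sum g2).trans ?_
    refine sum_inj_le hq.pR.1.ne_zero (fun x hx => ?_)
      (h := fun x => ∑ y ∈ (hw z.1).fin.toFinset, h z.1 z.2.1 x y)
      (fun x => Finset.sum_nonneg fun y _ => hh0 _ _ _ _)
    obtain ⟨a1, a2, a3, a4⟩ := vz_facts (sv.fin.mem_toFinset.mp hx)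
    rw [(hv z.1).fin.mem_toFinset]
    exact a3
  refine (Finset.sum_le_sum fun z _ => hz z).trans ?_
  rw [Fintype.sum_prod_type, Finset.mul_sum]
  refine Finset.sum_le_sum fun o _ => ?_
  rw [e0 o, Finset.sum_coe_sort 𝒬 (fun q => ∑ x ∈ (hv o).fin.toFinset,
    ∑ y ∈ (hw o).fin.toFinset, h o q x y), Finset.sum_comm, Finset.mul_sum]
  refine Finset.sum_le_sum fun x hx => ?_
  rw [Finset.sum_comm, Finset.mul_sum]
  refine Finset.sum_le_sum fun y hy => ?_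
  have hx' := (hv o).fin.mem_toFinset.mp hx
  have hy' := (hw o).fin.mem_toFinset.mp hy
  have hk0 : 0 ≤ ‖v o x‖ * (‖w o y‖ * H o x y) := by
    have := hH o x y
    positivity
  simp only [hh]
  rw [← Finset.sum_filter, Finset.sum_const, nsmul_eq_mul]
  refine mul_le_mul_of_nonneg_right ?_ hk0
  have hc : ((𝒬.filter fun q => P o q x y).card : ℝ) ≤ (tau (f * x * y) : ℝ) ^ 5 := by
    have h1 : (𝒬.filter fun q => P o q x y) ⊆ (dvs (f * x * y)) ×ˢ ((dvs (f * x * y)) ×ˢ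
        ((dvs (f * x * y)) ×ˢ ((dvs (f * x * y)) ×ˢ (dvs (f * x * y))))) := by
      intro q hq
      obtain ⟨-, h1, h2, h3, h4, h5⟩ := Finset.mem_filter.mp hq
      simp only [Finset.mem_product]
      exact ⟨h1, h2, h3, h4, h5⟩
    have h2 := Finset.card_le_card h1
    rw [Finset.card_product, Finset.card_product, Finset.card_product, Finset.card_product] at h2
    have h3 : (tau (f * x * y) : ℕ) = (dvs (f * x * y)).card := rfl
    rw [← h3] at h2
    calc ((𝒬.filter fun q => P o q x y).card : ℝ) ≤ ((tau (f * x * y) * (tau (f * x * y) *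
          (tau (f * x * y) * (tau (f * x * y) * tau (f * x * y)))) : ℕ) : ℝ) := by
          exact_mod_cast h2
      _ = _ := by push_cast; ring
  exact hc.trans (pow_le_pow_left₀ (Nat.cast_nonneg _) (hτ o x y hx' hy') 5)

end

end Crest.Agent.R017.E4X266
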