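import Crest.Agent.R017.E4aq_783
import Crest.Agent.R017.E4LxC_266
import Crest.Agent.R017.E4Es_783

/-!
# Row 17, C70/E4, application of `E4core7y`: exceptional class, compensated weights, outer
non-cubes (helper783)

* `E4Ly` : the outer sum over the non-cubes (the left side of `E4core7y`)
* `MpY` : the principal numbers (dual and direct)
* `HLx`, `Apy`, `apy_class`, `apy_all`, `apy_dict`
-/

set_option autoImplicit false

noncomputable section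

open Complex
open scoped ComplexConjugate

namespace Crest.Agent.R017.E4ap783

open Crest.Agent.R012 Crest.Agent.R012.Eis Crest.Agent.R012.GaussLoc283
open Crest.Agent.R012.Mob705 hiding pb mem_pb
open Crest.Agent.R012.Div277
open Crest.Agent.R017.Sx545 (Sm)
open Crest.Agent.R017.C70 Crest.Agent.R017.GrB829
open Crest.Agent.R017.E2440
open Crest.Agent.R017.A590
open Crest.Agent.R017.B770 (SW)
open Crest.Agent.R017.C590
open Crest.Agent.R017.End699 (HC)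
open Crest.Agent.R017.E4352 (PrI SSm XF Dat4 WT tws TwC rd)
open Crest.Agent.R017.E4D164
open Crest.Agent.R017.E4v5
open Crest.Agent.R017.E4LC858
open Crest.Agent.R017.E4X266 (cmp WTx dif E4core7y PrC g6 Mq1 Mq0 ESum rngDC rngFC)
open Crest.Agent.R017.E4Es783 (esum)
open Crest.Agent.R017.FE47 (SM)
open Crest.Agent.R017.E4o502 (GoodD GB)
open Crest.Agent.R017.E4J352 (Tm JB rngD rngF gx)

open Classical in
/-- the outer sum over the non-cubes `c o * k` -/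
def E4Ly (M f : Eis) (ψ : Eis → ℂ) (l : ℤ) (W : ℝ → ℂ) (K : ℝ) {O : Type} [Fintype O]
    (c : O → Eis) (lam : O → ℝ) (v w : O → Eis → ℂ) : ℂ :=
  ∑ o, ∑' x : Eis, v o x * ∑' y : Eis, w o y *
    NT (M * (f * y)) (f * x * y) (fun k => if ∃ z : Eis, c o * k = z ^ 3 then 0 else
      End699.tw ψ l k * W (nm k * lam o / K))

lemma WTx.mono' {m₀ N₀ : ℕ} {B B' h : ℝ} {W : ℝ → ℂ} (H : WTx m₀ N₀ B h W) (hB : B ≤ B') :
    WTx m₀ N₀ B' h W where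
  smooth := H.smooth
  dec m hm y hy := (H.dec m hm y hy).trans
    (mul_le_mul_of_nonneg_right hB (by
      unfold E4X266.bdx
      have := Real.exp_pos (-h)
      exact le_min (by positivity) (le_min zero_le_one (by positivity))))

/-! ### one character -/

/-- functional equations for `(χ, 0)`, compensated weights, main term at `m`, S-unit data -/
def HLx (N : Eis) (χ : Eis → ℂ) (m : Eis) : Prop :=
  ∃ (ι : Type) (_ : Fintype ι) (D : Dt3 ι), D.OK N ∧ SD N D ∧ ∀ V : ℝ → ℂ, SW V →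
    ∃ mc : ℝ → ℂ, (∃ C : ℝ, 0 ≤ C ∧ ∀ τ, ‖mc τ‖ ≤ C) ∧ ∃ W : ι → ℝ → ℝ → ℂ,
      (∀ τ h : ℝ, 0 ≤ h → Law5 N χ 0 D (cmp (fun y => (y : ℂ) ^ (I * τ) * V y) h)
        (fun i => dif (W i τ) h)
        (fun u Q => (((1 - Real.exp (-(h / 3)) : ℝ) : ℂ) * mc τ) * mtr (some m) u Q)) ∧
      ∀ m₀ N₀ : ℕ, ∃ C A : ℝ, 0 ≤ C ∧ ∀ τ h i, 0 ≤ h →
        WTx m₀ N₀ (C * (1 + |τ|) ^ A) h (dif (W i τ) h)

/-- the principal numbers (dual and direct) -/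
def MpY (f : Eis) {O : Type} [Fintype O] (c : O → Eis) (lam : O → ℝ) (v w : O → Eis → ℂ)
    (K h : ℝ) : ℝ :=
  ∑ o, (K / lam o) ^ (4 / 3 : ℝ) * Mq1 (c o) f (v o) (w o) +
    Real.exp (h / 3) * ∑ o, (K / lam o) ^ (2 / 3 : ℝ) * Mq0 (c o) f (v o) (w o)

lemma cr_nonneg (u : Eis) : 0 ≤ E4Pr266.cr u := by
  unfold E4Pr266.cr
  exact Finset.sum_nonneg fun t _ => Nat.cast_nonneg _

lemma g6_nonneg (c x : Eis) : 0 ≤ g6 c x := by
  unfold g6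
  exact Finset.prod_nonneg fun p _ => by positivity

lemma mq1_nonneg (c f : Eis) (v w : Eis → ℂ) : 0 ≤ Mq1 c f v w := by
  unfold Mq1
  refine tsum_nonneg fun x => mul_nonneg (mul_nonneg (norm_nonneg _) (g6_nonneg _ _))
    (tsum_nonneg fun y => mul_nonneg (norm_nonneg _) (mul_nonneg (cr_nonneg _) (by positivity)))

lemma mq0_nonneg (c f : Eis) (v w : Eis → ℂ) : 0 ≤ Mq0 c f v w := by
  unfold Mq0
  refine tsum_nonneg fun x => mul_nonneg (mul_nonneg (norm_nonneg _) (g6_nonneg _ _))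
    (tsum_nonneg fun y => mul_nonneg (norm_nonneg _) (cr_nonneg _))

lemma mpY_nonneg {M f : Eis} {O : Type} [Fintype O] {c : O → Eis} {lam : O → ℝ}
    {v w : O → Eis → ℂ} {X K h : ℝ} (hD : Dat4 M f lam v w X) (hK : 1 ≤ K) :
    0 ≤ MpY f c lam v w K h := by
  have h1 : ∀ o, 0 ≤ K / lam o := fun o => div_nonneg (by linarith) (by linarith [(hD.lam1 o).1])
  exact add_nonneg (Finset.sum_nonneg fun o _ => mul_nonneg (Real.rpow_nonneg (h1 o) _)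
    (mq1_nonneg _ _ _ _)) (mul_nonneg (Real.exp_pos _).le (Finset.sum_nonneg fun o _ =>
      mul_nonneg (Real.rpow_nonneg (h1 o) _) (mq0_nonneg _ _ _ _)))

/-- the conclusion for one character; `T` dual twists, `P` polar data -/
def Apy (M : Eis) (χ : Eis → ℂ) (T : Finset ((Eis → ℂ) × ℤ)) (P : Finset Eis) (V : ℝ → ℂ)
    (ε A C J : ℝ) : Prop :=
  ∀ (τ h : ℝ) (f : Eis) (O : Type) (_ : Fintype O) (c : O → Eis) (lam : O → ℝ)
    (v w : O → Eis → ℂ) (X K U T₀ : ℝ) (S Mn : ℝ) (sw : Eis → Eis → Eis → Eis → Eis → Prop),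
    Dat4 M f lam v w X → (∀ o, IsPrim (c o)) → (∀ o y, w o y ≠ 0 → IsCoprime (c o) (f * y)) →
    0 ≤ h → Real.exp h ≤ X → 1 ≤ K → K ≤ X → 0 < U → U ≤ X → 0 ≤ S → 0 ≤ Mn →
    (∀ o x y, v o x ≠ 0 → w o y ≠ 0 → (nm (f * x * y) : ℝ) * lam o ^ 2 ≤ U) →
    (∀ D0 D1 B R Z : Eis, sw D0 D1 B R Z → (nm D1 : ℝ) * nm (rd Z) ≤ 2 * T₀) →
    JB M f lam v w (fun _ => 1) (rngDC c sw lam K) S →
    (∀ t ∈ T, ∀ ξ, JB M f lam v w (gx t.1 t.2 ξ)
      (rngFC c sw lam (Real.exp h * (U / K) * X ^ ε)) ((1 + |ξ|) ^ A * S)) →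
    (∀ m ∈ P, HM5 M f lam v w K T₀ (mtr (some m)) Mn) →
    ‖E4Ly M f χ 0 (cmp (fun y => (y : ℂ) ^ (I * τ) * V y) h) K c lam v w‖ ≤
      C * X ^ ε * (1 + |τ|) ^ J * (K * S + X ^ (-A) + Mn + MpY f c lam v w K h)

lemma Apy.mono {M : Eis} {χ : Eis → ℂ} {T T' : Finset ((Eis → ℂ) × ℤ)} {P P' : Finset Eis}
    {V : ℝ → ℂ} {ε A C J C' J' : ℝ} (H : Apy M χ T P V ε A C J) (hT : T ⊆ T') (hP : P ⊆ P')
    (hC : C ≤ C') (hC0 : 0 ≤ C) (hJ : J ≤ J') : Apy M χ T' P' V ε A C' J' := by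
  intro τ h f O iO c lam v w X K U T₀ S Mn sw hD c1 c2 g1 g2 h1 h2 h3 h4 h5 h6 h7 h8 h9 h10 h11
  have hX1 : 1 ≤ X := hD.X1
  have hMp := mpY_nonneg (c := c) (h := h) hD h1
  have h14 : (0 : ℝ) ≤ K * S + X ^ (-A) + Mn + MpY f c lam v w K h := by positivity
  have h15 : (1 + |τ|) ^ J ≤ (1 + |τ|) ^ J' :=
    Real.rpow_le_rpow_of_exponent_le (by linarith [abs_nonneg τ]) hJ
  have h16 : (0 : ℝ) ≤ X ^ ε := by positivity
  have h17 : (0 : ℝ) ≤ (1 + |τ|) ^ J := by have := abs_nonneg τ; positivity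
  refine (H τ h f O iO c lam v w X K U T₀ S Mn sw hD c1 c2 g1 g2 h1 h2 h3 h4 h5 h6 h7 h8 h9
    (fun t ht => h10 t (hT ht)) (fun m hm => h11 m (hP hm))).trans ?_
  gcongr
  exact mul_nonneg (hC0.trans hC) h16

lemma ESum.mono {M : Eis} {ψ : Eis → ℂ} {l : ℤ} {V : ℝ → ℂ} {h B B' : ℝ}
    (H : ESum M ψ l V h B) (hB : B ≤ B') : ESum M ψ l V h B' := fun Q hQ =>
  (H Q hQ).trans (mul_le_mul_of_nonneg_right hB (by positivity))

open Classical in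
/-- **one character** -/
theorem apy_class (H7 : E4core7y) {N : Eis} {χ : Eis → ℂ} {m : Eis} (hχ : HC N χ)
    (hcub : ∀ e, Sm N e → χ (e ^ 3) = 1)
    (hL : HLx N χ m) : ∃ T : Finset ((Eis → ℂ) × ℤ), (∀ t ∈ T, TG7 N 0 t) ∧
      ∀ V : ℝ → ℂ, SW V → (∀ y, 1 < y → V y = 0) →
      ∀ ε A : ℝ, 0 < ε → 0 ≤ A → ∃ C J : ℝ, 0 ≤ C ∧ 0 ≤ J ∧
        Apy N χ T {m} V ε A C J := by
  obtain ⟨ι, iι, D, hD, hSD, hFE⟩ := hL
  refine ⟨Finset.univ.image fun i => (D.η i, D.j), fun t ht => ?_, fun V hV hV1 ε A hε hA => ?_⟩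
  · obtain ⟨i, -, rfl⟩ := Finset.mem_image.mp ht
    exact ⟨⟨D.M', hD.ne, hD.dvd, hD.rad, hD.η i⟩, fun _ => ⟨hSD.j, hSD.η i⟩, hSD.j⟩
  obtain ⟨C, m₀, N₀, hC, H⟩ := H7 N χ 0 ι iι D hχ hD ε A hε hA
  obtain ⟨mc, ⟨Cm, hCm, hmc⟩, W, hlaw, hwt⟩ := hFE V hV
  obtain ⟨C2, A2, hC2, hW⟩ := hwt m₀ N₀
  obtain ⟨B0, hB0, hB⟩ := bdd_sw hV
  obtain ⟨Ce, Je, hCe, hJe, hES⟩ := esum hχ.q0 hcub hV
  refine ⟨C * (C2 + B0 + Ce + Cm + 1), max A2 Je, by positivity, hJe.trans (le_max_right _ _), ?_⟩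
  intro τ h f O iO c lam v w X K U T₀ S Mn sw hDat c1 c2 g1 g2 h1 h2 h3 h4 h7 h8 h9 h10 h11 h12 h13
  set J := max A2 Je with hJ
  have ht1 : 1 ≤ 1 + |τ| := by linarith [abs_nonneg τ]
  have hJ1 : 1 ≤ (1 + |τ|) ^ J := Real.one_le_rpow ht1 (hJe.trans (le_max_right _ _))
  have hJ2 : (1 + |τ|) ^ A2 ≤ (1 + |τ|) ^ J :=
    Real.rpow_le_rpow_of_exponent_le ht1 (le_max_left _ _)
  have hJ3 : (1 + |τ|) ^ Je ≤ (1 + |τ|) ^ J :=
    Real.rpow_le_rpow_of_exponent_le ht1 (le_max_right _ _)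
  have hJ0 : 0 ≤ (1 + |τ|) ^ J := by positivity
  set B := (C2 + B0 + Ce) * (1 + |τ|) ^ J with hBdef
  have hB1 : 0 ≤ B := by positivity
  have hX1 : 1 ≤ X := hDat.X1
  have hMp := mpY_nonneg (c := c) (h := h) hDat h1
  have he : ‖((1 - Real.exp (-(h / 3)) : ℝ) : ℂ) * mc τ‖ ≤ Cm := by
    rw [norm_mul, Complex.norm_real, Real.norm_eq_abs]
    have h0 : 0 < Real.exp (-(h / 3)) := Real.exp_pos _
    have h1 : Real.exp (-(h / 3)) ≤ 1 := by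
      rw [← Real.exp_zero]
      exact Real.exp_le_exp.mpr (by linarith)
    rw [abs_of_nonneg (by linarith)]
    calc _ ≤ 1 * Cm := mul_le_mul (by linarith) (hmc τ) (norm_nonneg _) zero_le_one
      _ = Cm := one_mul _
  have hM : HM5 N f lam v w K T₀ (fun u Q => (((1 - Real.exp (-(h / 3)) : ℝ) : ℂ) * mc τ) *
      mtr (some m) u Q) (Cm * Mn) := HM5.cmul (h13 m (by simp)) _ he
  have h0 := H (fun y => (y : ℂ) ^ (I * τ) * V y) (fun i => dif (W i τ) h)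
    (fun u Q => (((1 - Real.exp (-(h / 3)) : ℝ) : ℂ) * mc τ) * mtr (some m) u Q)
    B h hB1 g1 (hlaw τ h g1) (fun i => WTx.mono' (hW τ h i g1) ?_) (fun y => ?_) (fun y hy => ?_)
    (ESum.mono (hES τ h g1) ?_)
    f O iO c lam v w X K U T₀ S (Cm * Mn) sw hDat c1 c2 h1 h2 h3 h4 g2 h7 (by positivity)
    h9 h10 h11
    (fun i => h12 (D.η i, D.j) (Finset.mem_image_of_mem _ (Finset.mem_univ i))) hM
  · refine h0.trans ?_
    have h14 : (0 : ℝ) ≤ X ^ ε := by positivity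
    have h15 : (0 : ℝ) ≤ X ^ (-A) := by positivity
    have h16 : 0 ≤ K * S := by positivity
    have e1 : Cm * Mn ≤ Cm * Mn * (1 + |τ|) ^ J := le_mul_of_one_le_right (by positivity) hJ1
    have e3 : B * ∑ o, (K / lam o) ^ (4 / 3 : ℝ) * Mq1 (c o) f (v o) (w o) +
        B * (Real.exp (h / 3) * ∑ o, (K / lam o) ^ (2 / 3 : ℝ) * Mq0 (c o) f (v o) (w o)) =
        B * MpY f c lam v w K h := by
      unfold MpY
      ring
    have e2 : B * (K * S + X ^ (-A)) + Cm * Mn + B * MpY f c lam v w K h ≤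
        (C2 + B0 + Ce + Cm + 1) * (1 + |τ|) ^ J *
          (K * S + X ^ (-A) + Mn + MpY f c lam v w K h) := by
      have h17 : 0 ≤ C2 + B0 + Ce := by positivity
      have h18 : 0 ≤ (C2 + B0 + Ce + 1) * (1 + |τ|) ^ J * Mn := by positivity
      have h19 : 0 ≤ (Cm + 1) * (1 + |τ|) ^ J * (K * S + X ^ (-A) + MpY f c lam v w K h) := by
        positivity
      rw [hBdef]
      linarith
    calc _ = C * X ^ ε * (B * (K * S + X ^ (-A)) + Cm * Mn + B * MpY f c lam v w K h) := by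
          rw [← e3]; ring
      _ ≤ C * X ^ ε * ((C2 + B0 + Ce + Cm + 1) * (1 + |τ|) ^ J *
          (K * S + X ^ (-A) + Mn + MpY f c lam v w K h)) :=
          mul_le_mul_of_nonneg_left e2 (by positivity)
      _ = _ := by ring
  · rw [hBdef]
    calc C2 * (1 + |τ|) ^ A2 ≤ C2 * (1 + |τ|) ^ J := by gcongr
      _ ≤ _ := by gcongr; linarith
  · refine (norm_tau hV hB τ y).trans ?_
    rw [hBdef]
    calc B0 = B0 * 1 := (mul_one _).symm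
      _ ≤ (C2 + B0 + Ce) * (1 + |τ|) ^ J := mul_le_mul (by linarith) hJ1 zero_le_one (by positivity)
  · rw [hV1 y hy, mul_zero]
  · rw [hBdef]
    calc Ce * (1 + |τ|) ^ Je ≤ Ce * (1 + |τ|) ^ J := by gcongr
      _ ≤ _ := by gcongr; linarith

theorem hlx_chr {N : Eis} (h27 : (27 : Eis) ∣ N) {ψ : Eis → ℂ} (hψ : HC N ψ) {m₀ : Eis}
    (hm₀ : PrI N m₀) (hm : ∀ b, Sm N b → conj (ψ b) = sy m₀ b) {c h : Eis} (hc : IsC c)
    (hh : PrI N h) : PG N 0 (c * (m₀ * h)) ∧ HLx N (chr N ψ c h) (c * (m₀ * h)) := by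
  have h9 : (9 : Eis) ∣ N := Dvd.dvd.trans ⟨3, by norm_num⟩ h27
  have h39 : (3 : Eis) ∣ 9 := ⟨3, by norm_num⟩
  refine ⟨⟨rfl, c, m₀ * h, hc, pri_mul hm₀ hh, rfl⟩, ?_⟩
  obtain ⟨ι, iι, D, ⟨hD, hSD⟩, H⟩ := law5h_C hψ.q0
    (fun q _ hd => (hd.trans h39).trans h9) (sg_of_isC hc) (pri_mul hm₀ hh)
    (ψ := chr N ψ c h) fun b hb => by
      rw [chr_of hb, hm b hb, syAx.mul_left _ _ _ hb.1, syAx.mul_left _ _ _ hb.1]
      ring
  refine ⟨ι, iι, D, hD, hSD, fun V hV => ?_⟩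
  obtain ⟨mc, hmc, W, -, hlaw, -, hwt⟩ := H V hV
  obtain ⟨C, hC0, hC1⟩ := hmc 0
  refine ⟨mc, ⟨C, hC0, fun τ => by simpa using hC1 τ⟩, W, fun τ h hh => ?_, hwt⟩
  intro u hu Q hQ
  rw [hlaw τ h hh u hu Q hQ]
  simp only [mtr]
  ring

/-- the characters of the exceptional class are cubic -/
lemma cub_chr {N : Eis} (h3 : (3 : Eis) ∣ N) {ψ : Eis → ℂ} {m₀ : Eis}
    (hm₀ : PrI N m₀) (hm : ∀ b, Sm N b → conj (ψ b) = sy m₀ b) {c h : Eis} (hc : IsC c)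
    (hh : PrI N h) {e : Eis} (he : Sm N e) : chr N ψ c h (e ^ 3) = 1 := by
  have he3 : Sm N (e ^ 3) := ⟨he.1.pow 3, he.2.pow_left⟩
  have k : ∀ a : Eis, IsCoprime a e → sy a (e ^ 3) = 1 := fun a ha => by
    rw [syAx.pow_right a he.1 3, syAx.cube a e he.1 ha]
  have hce : IsCoprime c e := by
    have h1 : IsCoprime (3 : Eis) e := (he.2.of_isCoprime_of_dvd_right h3).symm
    exact h1.of_isCoprime_of_dvd_left (isc_dvd hc)
  rw [chr_of he3, hm _ he3, k _ (cop_pri hm₀ he), k _ (cop_pri hh he), k _ hce]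
  norm_num

open Classical in
lemma E4Ly_eq {M f : Eis} {O : Type} [Fintype O] {c : O → Eis} {lam : O → ℝ} {v w : O → Eis → ℂ}
    (h3 : (3 : Eis) ∣ M) {χ χ' : Eis → ℂ} (hχ : ∀ b, Sm M b → χ b = χ' b) (l : ℤ)
    (V : ℝ → ℂ) (K : ℝ) : E4Ly M f χ l V K c lam v w = E4Ly (27 * M) f χ' l V K c lam v w := by
  unfold E4Ly
  refine Finset.sum_congr rfl fun o _ => tsum_congr fun x => ?_
  congr 1
  refine tsum_congr fun y => ?_
  congr 1
  have e : Sm (27 * M * (f * y)) = Sm (M * (f * y)) := by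
    rw [mul_assoc]
    exact sm_27 (h3.mul_right _)
  have e2 : NT (27 * M * (f * y)) (f * x * y) (fun k => if ∃ z : Eis, c o * k = z ^ 3 then 0 else
      End699.tw χ' l k * V (nm k * lam o / K)) =
      NT (M * (f * y)) (f * x * y) (fun k => if ∃ z : Eis, c o * k = z ^ 3 then 0 else
        End699.tw χ' l k * V (nm k * lam o / K)) := by
    unfold NT DS
    rw [e]
  rw [e2]
  refine C590.NT_congr (fun k hk => ?_) _
  have : End699.tw χ l k = End699.tw χ' l k := by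
    unfold End699.tw
    rw [hχ k (sm_sub hk)]
  rw [this]

/-- **the application** : all characters `χ = conj ψ (c h / ·)`, exceptional class -/
theorem apy_all (H7 : E4core7y) {M : Eis} {ψ : Eis → ℂ} (hψ : HC M ψ)
    (hcs : ∃ m₀, PrI M m₀ ∧ ∀ b, Sm M b → conj (ψ b) = sy m₀ b) :
    ∃ (T : Finset ((Eis → ℂ) × ℤ)) (P : Finset Eis), (∀ t ∈ T, TG7 M 0 t) ∧
      (∀ m ∈ P, PG M 0 m) ∧
      ∀ V : ℝ → ℂ, SW V → (∀ y, 1 < y → V y = 0) → ∀ ε A : ℝ, 0 < ε → 0 ≤ A →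
        ∃ C J : ℝ, 0 ≤ C ∧ 0 ≤ J ∧ ∀ (χ : Eis → ℂ) (c h : Eis), IsC c → PrI M h →
          (∀ b, Sm M b → χ b = conj (ψ b) * (sy c b * sy h b)) → Apy M χ T P V ε A C J := by
  classical
  have h3 := hψ.three
  set N : Eis := 27 * M with hN
  have hψN : HC N ψ := hc_27 hψ
  have h27 : (27 : Eis) ∣ N := dvd_mul_right _ _
  obtain ⟨m₀, hm₀, hm⟩ := hcs
  set S : Finset (Eis × Eis) := C4 ×ˢ RC M with hS
  have hSm : ∀ q ∈ S, IsC q.1 ∧ PrI M q.2 := fun q hq => by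
    rw [hS, Finset.mem_product] at hq
    exact ⟨mem_C4.mp hq.1, (mem_RC.mp hq.2).2⟩
  have key : ∀ q ∈ S, ∃ (t : Finset ((Eis → ℂ) × ℤ)) (m : Eis), (∀ x ∈ t, TG7 N 0 x) ∧
      PG N 0 m ∧
      ∀ V : ℝ → ℂ, SW V → (∀ y, 1 < y → V y = 0) → ∀ ε A : ℝ, 0 < ε → 0 ≤ A →
        ∃ C J : ℝ, 0 ≤ C ∧ 0 ≤ J ∧ Apy N (chr N ψ q.1 q.2) t {m} V ε A C J := by
    intro q hq
    obtain ⟨h1, h2⟩ := hSm q hq
    have hm1 : ∀ b, Sm N b → conj (ψ b) = sy m₀ b := fun b hb => hm b (by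
      rw [hN, sm_27 h3] at hb; exact hb)
    obtain ⟨hm2, hL⟩ := hlx_chr h27 hψN (pri_27 hm₀) hm1 h1 (pri_27 h2)
    obtain ⟨t, ht, H⟩ := apy_class H7 (hc_chr h27 hψN h1 (pri_27 h2)) (fun e he =>
      cub_chr hψN.three (pri_27 hm₀) hm1 h1 (pri_27 h2) he) hL
    exact ⟨t, _, ht, hm2, H⟩
  choose! t m ht hm' H using key
  refine ⟨S.biUnion t, S.biUnion (fun q => {m q}), fun x hx => ?_, fun x hx => ?_,
    fun V hV hV1 ε A hε hA => ?_⟩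
  · obtain ⟨q, hq, h1⟩ := Finset.mem_biUnion.mp hx
    exact tg7_27 h3 (ht q hq x h1)
  · obtain ⟨q, hq, h1⟩ := Finset.mem_biUnion.mp hx
    rw [Finset.mem_singleton] at h1
    rw [h1]
    exact pg_27 h3 (hm' q hq)
  · have key2 : ∀ q ∈ S, ∃ C J : ℝ, 0 ≤ C ∧ 0 ≤ J ∧
        Apy N (chr N ψ q.1 q.2) (t q) {m q} V ε A C J := fun q hq =>
      H q hq V hV hV1 ε A hε hA
    choose! C J hC0 hJ0 HA using key2
    refine ⟨∑ q ∈ S, C q, ∑ q ∈ S, J q, Finset.sum_nonneg hC0, Finset.sum_nonneg hJ0, ?_⟩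
    intro χ c h hc hh hχ
    obtain ⟨h', hh', hred⟩ := exists_RC hψ.q0 hh
    have hq : (c, h') ∈ S := by
      rw [hS, Finset.mem_product]
      exact ⟨mem_C4.mpr hc, hh'⟩
    have h1 := (HA (c, h') hq).mono (T' := S.biUnion t) (P' := S.biUnion fun q => {m q})
      (C' := ∑ q ∈ S, C q) (J' := ∑ q ∈ S, J q)
      (Finset.subset_biUnion_of_mem t hq)
      (Finset.subset_biUnion_of_mem (fun q => ({m q} : Finset Eis)) hq)
      (Finset.single_le_sum hC0 hq) (hC0 _ hq) (Finset.single_le_sum hJ0 hq)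
    have hχ' : ∀ b, Sm M b → χ b = chr N ψ c h' b := by
      intro b hb
      have hb' : Sm N b := by rw [hN, sm_27 h3]; exact hb
      rw [hχ b hb, chr_of hb', hred b hb]
    intro τ a f O iO cO lam v w X K U T₀ Sx Mn sw hD c1 c2 k1 k2 g1 g2 g3 g4 g5 g6 g7 g8 g9 g10 g11
    rw [E4Ly_eq h3 hχ']
    exact h1 τ a f O iO cO lam v w X K U T₀ Sx Mn sw (dat_27 h3 hD) c1 c2 k1 k2 g1 g2 g3 g4 g5 g6
      g7 g8 (jb_27 h3 g9) (fun t ht ξ => jb_27 h3 (g10 t ht ξ))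
      (fun m hm => hm_27 h3 (g11 m hm))

/-- **the application, in the form of the dictionary, exceptional class** -/
theorem apy_dict (H7 : E4core7y) {M : Eis} {ψ : Eis → ℂ} (hψ : HC M ψ)
    (hcs : ∃ m₀, PrI M m₀ ∧ ∀ b, Sm M b → conj (ψ b) = sy m₀ b) :
    ∃ (T : Finset ((Eis → ℂ) × ℤ)) (P : Finset Eis), (∀ t ∈ T, TG7 M 0 t) ∧
      (∀ m ∈ P, PG M 0 m) ∧
      ∀ V : ℝ → ℂ, SW V → (∀ y, 1 < y → V y = 0) → ∀ ε A : ℝ, 0 < ε → 0 ≤ A →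
        ∃ C J : ℝ, 0 ≤ C ∧ 0 ≤ J ∧ ∀ E c₀ g z : Eis, IsPrim E → IsC c₀ → PrI M g → PrI M z →
          Apy M (psd (psE M ψ E) (c₀ * g * z)) T P V ε A C J := by
  obtain ⟨T, P, h1, h2, H⟩ := apy_all H7 hψ hcs
  refine ⟨T, P, h1, h2, fun V hV hV1 ε A hε hA => ?_⟩
  obtain ⟨C, J, hC0, hJ0, H1⟩ := H V hV hV1 ε A hε hA
  refine ⟨C, J, hC0, hJ0, fun E c₀ g z hE hc hg hz => ?_⟩
  obtain ⟨h3, h4⟩ := psd_eq (c := c₀) (ψ := ψ) hψ.q0 hE hg hz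
  exact H1 _ c₀ _ hc h3 h4

end Crest.Agent.R017.E4ap783
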