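import Crest.Agent.R017.E4Pq_783
import Crest.Agent.R017.E4ax_783

/-!
# Row 17, C70/E4, exceptional class: the principal numbers through the energy (helper783)

* `mq1_le` : `Mq1 c 1 v w` through `∑ ‖v x‖² N(x)^(1/3)`, `w` supported on `f₀ l m²`
* `mq0_le`, `mpY_le` : the direct number through the dual one, `e^h U ≤ K²`
-/

set_option autoImplicit false
set_option linter.unusedVariables false

noncomputable section

open Complex
open scoped ComplexConjugate Classical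

namespace Crest.Agent.R017.E4Pq783

open Crest.Agent.R012 Crest.Agent.R012.Eis Crest.Agent.R012.Mob705
open Crest.Agent.R012.Div277
open Crest.Agent.R017.Sx545 (Sm)
open Crest.Agent.R017.E4352 (Dat4)
open Crest.Agent.R017.E4Pr266 (cr cr_nonneg le_cr)
open Crest.Agent.R017.E4X266 (g6 Mq1 Mq0)
open Crest.Agent.R017.E4ap783 (MpY g6_nonneg mq1_nonneg mq0_nonneg)

lemma tsum_supp {F : Eis → ℝ} {A : Finset Eis} (h : ∀ x, x ∉ A → F x = 0) :
    ∑' x, F x = ∑ x ∈ A, F x := tsum_eq_sum fun x hx => h x hx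

/-- **the dual mass of one outer index** -/
theorem mq1_le {c f₀ : Eis} (hf : IsPrim f₀)
    (hf3 : ∀ t, IsPrim t → t ^ 3 ∣ f₀ → t = 1) {S₀ : ℝ} (hS0 : 0 ≤ S₀)
    (hS : ∀ t, IsPrim t → t ^ 2 ∣ f₀ → (nm t : ℝ) ≤ S₀) {v w : Eis → ℂ} {V L N : ℕ}
    {B T G : ℝ} (hB : 0 ≤ B) (hT0 : 0 ≤ T) (hG : 0 ≤ G)
    (hv : ∀ x, v x ≠ 0 → x ∈ primBall V)
    (hw : ∀ y, w y ≠ 0 → ∃ l ∈ primBall L, ∃ m ∈ primBall N, y = f₀ * (l * m ^ 2))
    (hwB : ∀ y, ‖w y‖ ≤ B) (hg : ∀ x, v x ≠ 0 → g6 c x ≤ G)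
    (hT : ∀ x ∈ primBall V, ∀ l ∈ primBall L, ∀ m ∈ primBall N,
      (tau (f₀ * x * (l * m ^ 2)) : ℝ) ≤ T)
    (hT' : ∀ x ∈ primBall V, (tau (f₀ * x) : ℝ) ≤ T) :
    Mq1 c 1 v w ≤ G * (B * (nm f₀ : ℝ) ^ (-(1 / 3) : ℝ) * (T ^ 2 * ((L : ℝ) ^ (1 - 1 / 3 : ℝ) *
      (N : ℝ) ^ (1 - 2 / 3 : ℝ)) * ((100 * (1 + Real.log L)) * (100 * (1 + Real.log N))))) *
      (Real.sqrt (∑ x ∈ primBall V, ‖v x‖ ^ 2 * (nm x : ℝ) ^ (1 / 3 : ℝ)) *
        Real.sqrt (T ^ 3 * S₀ * (100 * (1 + Real.log V)))) := by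
  set P : ℝ := T ^ 2 * ((L : ℝ) ^ (1 - 1 / 3 : ℝ) *
      (N : ℝ) ^ (1 - 2 / 3 : ℝ)) * ((100 * (1 + Real.log L)) * (100 * (1 + Real.log N))) with hP
  have hlogL := one_add_log_nonneg L
  have hlogN := one_add_log_nonneg N
  have hP0 : 0 ≤ P := by positivity
  have hnf : (0 : ℝ) < nm f₀ := by exact_mod_cast nm_pos.2 hf.ne_zero
  -- the inner sum
  have hin : ∀ x ∈ primBall V, ∑' y : Eis, ‖w y‖ *
      (cr (1 * x * y) * (nm (1 * x * y) : ℝ) ^ (-(1 / 3) : ℝ)) ≤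
      B * (nm f₀ : ℝ) ^ (-(1 / 3) : ℝ) * P * (cr (f₀ * x) * (nm x : ℝ) ^ (-(1 / 3) : ℝ)) := by
    intro x hx
    have hxp := (mem_primBall.mp hx).2
    have hnx : (0 : ℝ) < nm x := by exact_mod_cast nm_pos.2 hxp.ne_zero
    set A : Finset (Eis × Eis) := primBall L ×ˢ primBall N with hA
    set φ : Eis × Eis → Eis := fun p => f₀ * (p.1 * p.2 ^ 2) with hφ
    set F : Eis → ℝ := fun y => B * (cr (1 * x * y) * (nm (1 * x * y) : ℝ) ^ (-(1 / 3) : ℝ)) with hF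
    have hF0 : ∀ y, 0 ≤ F y := fun y => by
      have := cr_nonneg (1 * x * y)
      simp only [hF]
      positivity
    have h1 : ∑' y : Eis, ‖w y‖ * (cr (1 * x * y) * (nm (1 * x * y) : ℝ) ^ (-(1 / 3) : ℝ)) =
        ∑ y ∈ A.image φ, ‖w y‖ * (cr (1 * x * y) * (nm (1 * x * y) : ℝ) ^ (-(1 / 3) : ℝ)) := by
      refine tsum_supp fun y hy => ?_
      by_contra hne
      have hwy : w y ≠ 0 := by
        intro h0
        apply hne
        rw [h0, norm_zero, zero_mul]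
      obtain ⟨l, hl, m, hm, e⟩ := hw y hwy
      exact hy (Finset.mem_image.mpr ⟨(l, m), Finset.mem_product.mpr ⟨hl, hm⟩, e.symm⟩)
    rw [h1]
    have h2 : ∑ y ∈ A.image φ, ‖w y‖ * (cr (1 * x * y) * (nm (1 * x * y) : ℝ) ^ (-(1 / 3) : ℝ)) ≤
        ∑ y ∈ A.image φ, F y := by
      refine Finset.sum_le_sum fun y _ => ?_
      have h3 : 0 ≤ cr (1 * x * y) * (nm (1 * x * y) : ℝ) ^ (-(1 / 3) : ℝ) := by
        have := cr_nonneg (1 * x * y)
        positivity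
      exact mul_le_mul_of_nonneg_right (hwB y) h3
    refine h2.trans ((Finset.sum_image_le_of_nonneg fun _ _ => hF0 _).trans ?_)
    rw [hA, Finset.sum_product]
    have h4 : ∀ l ∈ primBall L, ∀ m ∈ primBall N, F (φ (l, m)) =
        (B * (nm f₀ : ℝ) ^ (-(1 / 3) : ℝ) * (nm x : ℝ) ^ (-(1 / 3) : ℝ)) *
        (cr (f₀ * x * (l * m ^ 2)) * ((nm l : ℝ) ^ (-(1 / 3) : ℝ) *
          (nm m : ℝ) ^ (-(2 / 3) : ℝ))) := by
      intro l hl m hm
      simp only [hF, hφ]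
      have e1 : 1 * x * (f₀ * (l * m ^ 2)) = f₀ * x * (l * m ^ 2) := by ring
      have e2 : ((nm m : ℝ) ^ 2) ^ (-(1 / 3) : ℝ) = (nm m : ℝ) ^ (-(2 / 3) : ℝ) := by
        rw [← Real.rpow_natCast, ← Real.rpow_mul (Nat.cast_nonneg _)]
        norm_num
      rw [e1, nm_mul, nm_mul, nm_mul, nm_pow]
      push_cast
      rw [Real.mul_rpow (by positivity) (by positivity), Real.mul_rpow (by positivity)
        (by positivity), Real.mul_rpow (by positivity) (by positivity), e2]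
      ring
    rw [Finset.sum_congr rfl fun l hl => Finset.sum_congr rfl fun m hm => h4 l hl m hm]
    simp_rw [← Finset.mul_sum]
    have h5 := sum_cr (u₀ := f₀ * x) (mul_ne_zero hf.ne_zero hxp.ne_zero) (L := L) (N := N)
      (a := 1 / 3) (c := 2 / 3) (by norm_num) (by norm_num) (T := T) (fun l hl m hm =>
        hT x hx l hl m hm)
    have h6 : 0 ≤ B * (nm f₀ : ℝ) ^ (-(1 / 3) : ℝ) * (nm x : ℝ) ^ (-(1 / 3) : ℝ) := by positivity
    refine (mul_le_mul_of_nonneg_left h5 h6).trans (le_of_eq ?_)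
    rw [hP]
    ring
  -- the outer sum
  have h7 : Mq1 c 1 v w = ∑ x ∈ primBall V, (‖v x‖ * g6 c x) * ∑' y : Eis, ‖w y‖ *
      (cr (1 * x * y) * (nm (1 * x * y) : ℝ) ^ (-(1 / 3) : ℝ)) := by
    unfold Mq1
    refine tsum_supp fun x hx => ?_
    have hvx : v x = 0 := by
      by_contra h0
      exact hx (hv x h0)
    rw [hvx, norm_zero, zero_mul, zero_mul]
  rw [h7]
  set Q : ℝ := B * (nm f₀ : ℝ) ^ (-(1 / 3) : ℝ) * P with hQ
  have hQ0 : 0 ≤ Q := by positivity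
  have h8 : ∀ x ∈ primBall V, (‖v x‖ * g6 c x) * ∑' y : Eis, ‖w y‖ *
      (cr (1 * x * y) * (nm (1 * x * y) : ℝ) ^ (-(1 / 3) : ℝ)) ≤
      (G * Q) * ((‖v x‖ * (nm x : ℝ) ^ (1 / 6 : ℝ)) * (cr (f₀ * x) * (nm x : ℝ) ^ (-(1 / 2) : ℝ))) := by
    intro x hx
    have hxp := (mem_primBall.mp hx).2
    have hnx : (0 : ℝ) < nm x := by exact_mod_cast nm_pos.2 hxp.ne_zero
    have hcr := cr_nonneg (f₀ * x)
    by_cases hvx : v x = 0
    · rw [hvx, norm_zero]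
      simp
    have e1 : (nm x : ℝ) ^ (-(1 / 3) : ℝ) = (nm x : ℝ) ^ (1 / 6 : ℝ) * (nm x : ℝ) ^ (-(1 / 2) : ℝ) := by
      rw [← Real.rpow_add hnx]
      norm_num
    have h9 := hin x hx
    rw [e1] at h9
    calc (‖v x‖ * g6 c x) * ∑' y : Eis, ‖w y‖ *
          (cr (1 * x * y) * (nm (1 * x * y) : ℝ) ^ (-(1 / 3) : ℝ))
        ≤ (‖v x‖ * G) * (Q * (cr (f₀ * x) *
            ((nm x : ℝ) ^ (1 / 6 : ℝ) * (nm x : ℝ) ^ (-(1 / 2) : ℝ)))) := by
          refine mul_le_mul ?_ h9 ?_ (by positivity)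
          · exact mul_le_mul_of_nonneg_left (hg x hvx) (norm_nonneg _)
          · exact tsum_nonneg fun y => mul_nonneg (norm_nonneg _)
              (mul_nonneg (cr_nonneg _) (by positivity))
      _ = _ := by ring
  refine (Finset.sum_le_sum h8).trans ?_
  rw [← Finset.mul_sum]
  have h10 := Real.sum_mul_le_sqrt_mul_sqrt (primBall V)
    (fun x => ‖v x‖ * (nm x : ℝ) ^ (1 / 6 : ℝ)) (fun x => cr (f₀ * x) * (nm x : ℝ) ^ (-(1 / 2) : ℝ))
  have h11 : ∑ x ∈ primBall V, (‖v x‖ * (nm x : ℝ) ^ (1 / 6 : ℝ)) ^ 2 =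
      ∑ x ∈ primBall V, ‖v x‖ ^ 2 * (nm x : ℝ) ^ (1 / 3 : ℝ) := by
    refine Finset.sum_congr rfl fun x _ => ?_
    rw [mul_pow, ← Real.rpow_natCast ((nm x : ℝ) ^ (1 / 6 : ℝ)), ← Real.rpow_mul (by positivity)]
    norm_num
  have h12 : ∑ x ∈ primBall V, (cr (f₀ * x) * (nm x : ℝ) ^ (-(1 / 2) : ℝ)) ^ 2 ≤
      T ^ 3 * S₀ * (100 * (1 + Real.log V)) := by
    refine le_trans (le_of_eq ?_) (sum_cr2 hf hf3 hS0 hS hT0 hT')
    refine Finset.sum_congr rfl fun x hx => ?_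
    have hnx : (0 : ℝ) < nm x := by exact_mod_cast nm_pos.2 (mem_primBall.mp hx).2.ne_zero
    rw [mul_pow, ← Real.rpow_natCast ((nm x : ℝ) ^ (-(1 / 2) : ℝ)), ← Real.rpow_mul (by positivity)]
    congr 1
    norm_num
    rw [Real.rpow_neg_one]
  rw [h11] at h10
  have h13 := Real.sqrt_le_sqrt h12
  have h14 : 0 ≤ G * Q := by positivity
  calc _ ≤ (G * Q) * (Real.sqrt (∑ x ∈ primBall V, ‖v x‖ ^ 2 * (nm x : ℝ) ^ (1 / 3 : ℝ)) *
        Real.sqrt (T ^ 3 * S₀ * (100 * (1 + Real.log V)))) := by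
        refine mul_le_mul_of_nonneg_left (h10.trans ?_) h14
        exact mul_le_mul_of_nonneg_left h13 (Real.sqrt_nonneg _)
    _ = _ := by rw [hQ, hP]

/-- the direct mass through the dual one -/
theorem mq0_le {c : Eis} {v w : Eis → ℂ} {V W : Finset Eis} (hv : ∀ x, v x ≠ 0 → x ∈ V)
    (hw : ∀ y, w y ≠ 0 → y ∈ W) (hp : ∀ x y, v x ≠ 0 → w y ≠ 0 → 1 * x * y ≠ 0) {U : ℝ}
    (hU : ∀ x y, v x ≠ 0 → w y ≠ 0 → (nm (1 * x * y) : ℝ) ≤ U) :
    Mq0 c 1 v w ≤ U ^ (1 / 3 : ℝ) * Mq1 c 1 v w := by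
  unfold Mq0 Mq1
  rw [tsum_supp (A := V), tsum_supp (A := V), Finset.mul_sum]
  · refine Finset.sum_le_sum fun x _ => ?_
    rw [tsum_supp (A := W), tsum_supp (A := W)]
    · by_cases hvx : v x = 0
      · rw [hvx]; simp
      have e0 : U ^ (1 / 3 : ℝ) * ((‖v x‖ * g6 c x) * ∑ y ∈ W, ‖w y‖ *
          (cr (1 * x * y) * (nm (1 * x * y) : ℝ) ^ (-(1 / 3) : ℝ))) =
          (‖v x‖ * g6 c x) * ∑ y ∈ W, U ^ (1 / 3 : ℝ) * (‖w y‖ *
          (cr (1 * x * y) * (nm (1 * x * y) : ℝ) ^ (-(1 / 3) : ℝ))) := by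
        rw [← Finset.mul_sum]; ring
      rw [e0]
      refine mul_le_mul_of_nonneg_left (Finset.sum_le_sum fun y _ => ?_)
        (mul_nonneg (norm_nonneg _) (g6_nonneg _ _))
      by_cases hwy : w y = 0
      · rw [hwy]; simp
      have h1 : (0 : ℝ) < nm (1 * x * y) := by exact_mod_cast nm_pos.2 (hp x y hvx hwy)
      have h2 := hU x y hvx hwy
      have h3 : 1 ≤ U ^ (1 / 3 : ℝ) * (nm (1 * x * y) : ℝ) ^ (-(1 / 3) : ℝ) := by
        rw [Real.rpow_neg h1.le, ← div_eq_mul_inv, one_le_div (by positivity)]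
        exact Real.rpow_le_rpow h1.le h2 (by norm_num)
      have h4 : 0 ≤ ‖w y‖ * cr (1 * x * y) := mul_nonneg (norm_nonneg _) (cr_nonneg _)
      calc ‖w y‖ * cr (1 * x * y) = ‖w y‖ * cr (1 * x * y) * 1 := (mul_one _).symm
        _ ≤ ‖w y‖ * cr (1 * x * y) * (U ^ (1 / 3 : ℝ) * (nm (1 * x * y) : ℝ) ^ (-(1 / 3) : ℝ)) :=
            mul_le_mul_of_nonneg_left h3 h4
        _ = _ := by ring
    · intro y hy
      have : w y = 0 := by by_contra h0; exact hy (hw y h0)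
      rw [this]; simp
    · intro y hy
      have : w y = 0 := by by_contra h0; exact hy (hw y h0)
      rw [this]; simp
  · intro x hx
    have : v x = 0 := by by_contra h0; exact hx (hv x h0)
    rw [this]; simp
  · intro x hx
    have : v x = 0 := by by_contra h0; exact hx (hv x h0)
    rw [this]; simp

/-- **`MpY` through the dual masses** -/
theorem mpY_le {M : Eis} {O : Type} [Fintype O] {c : O → Eis} {lam : O → ℝ}
    {v w : O → Eis → ℂ} {X K h U : ℝ} (hD : Dat4 M 1 lam v w X) (hK : 1 ≤ K) (hU0 : 0 ≤ U)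
    (hU : ∀ o x y, v o x ≠ 0 → w o y ≠ 0 → (nm (1 * x * y) : ℝ) * lam o ^ 2 ≤ U) {C : ℝ}
    (hC : 0 ≤ C) (hKU : Real.exp h * U ≤ C ^ 3 * K ^ 2) :
    MpY 1 c lam v w K h ≤ (1 + C) * ∑ o, (K / lam o) ^ (4 / 3 : ℝ) * Mq1 (c o) 1 (v o) (w o) := by
  unfold MpY
  have hl : ∀ o, 0 < lam o := fun o => by linarith [(hD.lam1 o).1]
  have hKpos : 0 < K := by linarith
  have key : ∀ o, Real.exp (h / 3) * ((K / lam o) ^ (2 / 3 : ℝ) * Mq0 (c o) 1 (v o) (w o)) ≤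
      C * ((K / lam o) ^ (4 / 3 : ℝ) * Mq1 (c o) 1 (v o) (w o)) := by
    intro o
    have h0 := mq0_le (c := c o) (v := v o) (w := w o) (V := primBall ⌊X⌋₊) (W := primBall ⌊X⌋₊)
      (U := U / lam o ^ 2) (fun x hx => by
        rw [mem_primBall]
        exact ⟨Nat.le_floor (hD.vx o x hx).2, ((hD.hv o).sm x hx).1⟩) (fun y hy => by
        rw [mem_primBall]
        exact ⟨Nat.le_floor (hD.wy o y hy), ((hD.hw o).sm y hy).1⟩) (fun x y hx hy => by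
        rw [one_mul]
        exact mul_ne_zero ((hD.hv o).sm x hx).1.ne_zero ((hD.hw o).sm y hy).1.ne_zero) (fun x y hx hy => by
        rw [le_div_iff₀ (by have := hl o; positivity)]
        exact hU o x y hx hy)
    have h1 := mq1_nonneg (c o) 1 (v o) (w o)
    have hlo := hl o
    have e1 : Real.exp (h / 3) * ((K / lam o) ^ (2 / 3 : ℝ) * (U / lam o ^ 2) ^ (1 / 3 : ℝ)) ≤
        C * (K / lam o) ^ (4 / 3 : ℝ) := by
      have e2 : Real.exp (h / 3) * (U / lam o ^ 2) ^ (1 / 3 : ℝ) ≤ C * (K / lam o) ^ (2 / 3 : ℝ) := by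
        have e3 : Real.exp (h / 3) * (U / lam o ^ 2) ^ (1 / 3 : ℝ) =
            (Real.exp h * U / lam o ^ 2) ^ (1 / 3 : ℝ) := by
          rw [show Real.exp h * U / lam o ^ 2 = Real.exp h * (U / lam o ^ 2) by ring,
            Real.mul_rpow (Real.exp_pos _).le (by positivity), ← Real.exp_mul]
          congr 2
          ring
        have e4 : C * (K / lam o) ^ (2 / 3 : ℝ) = (C ^ 3 * K ^ 2 / lam o ^ 2) ^ (1 / 3 : ℝ) := by
          rw [show C ^ 3 * K ^ 2 / lam o ^ 2 = C ^ 3 * (K / lam o) ^ 2 by field_simp,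
            Real.mul_rpow (by positivity) (by positivity)]
          congr 1
          · rw [← Real.rpow_natCast, ← Real.rpow_mul hC]
            norm_num
          · rw [← Real.rpow_natCast (K / lam o) 2, ← Real.rpow_mul (by positivity)]
            norm_num
        rw [e3, e4]
        refine Real.rpow_le_rpow (by positivity) ?_ (by norm_num)
        gcongr
      have e5 : (K / lam o) ^ (4 / 3 : ℝ) = (K / lam o) ^ (2 / 3 : ℝ) * (K / lam o) ^ (2 / 3 : ℝ) := by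
        rw [← Real.rpow_add (by positivity)]
        norm_num
      have e6 : 0 ≤ (K / lam o) ^ (2 / 3 : ℝ) := by positivity
      calc _ = (K / lam o) ^ (2 / 3 : ℝ) *
            (Real.exp (h / 3) * (U / lam o ^ 2) ^ (1 / 3 : ℝ)) := by ring
        _ ≤ (K / lam o) ^ (2 / 3 : ℝ) * (C * (K / lam o) ^ (2 / 3 : ℝ)) :=
            mul_le_mul_of_nonneg_left e2 e6
        _ = _ := by rw [e5]; ring
    calc _ ≤ Real.exp (h / 3) * ((K / lam o) ^ (2 / 3 : ℝ) *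
          ((U / lam o ^ 2) ^ (1 / 3 : ℝ) * Mq1 (c o) 1 (v o) (w o))) := by gcongr
      _ = (Real.exp (h / 3) * ((K / lam o) ^ (2 / 3 : ℝ) * (U / lam o ^ 2) ^ (1 / 3 : ℝ))) *
            Mq1 (c o) 1 (v o) (w o) := by ring
      _ ≤ (C * (K / lam o) ^ (4 / 3 : ℝ)) * Mq1 (c o) 1 (v o) (w o) :=
          mul_le_mul_of_nonneg_right e1 h1
      _ = _ := by ring
  have h2 : Real.exp (h / 3) * ∑ o, (K / lam o) ^ (2 / 3 : ℝ) * Mq0 (c o) 1 (v o) (w o) ≤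
      C * ∑ o, (K / lam o) ^ (4 / 3 : ℝ) * Mq1 (c o) 1 (v o) (w o) := by
    rw [Finset.mul_sum, Finset.mul_sum]
    exact Finset.sum_le_sum fun o _ => key o
  linarith

end Crest.Agent.R017.E4Pq783
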