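import Crest.Agent.R017.E4Pm_266
import Crest.Agent.R017.LBpD_47
import Crest.Agent.R017.E4Fx_266

/-!
# Row 17, C70/E4 exceptional class: principal frequencies (helper266), IV

* `prinF` : the dual principal part over `z`
-/

set_option autoImplicit false

noncomputable section

open Complex
open scoped ComplexConjugate

namespace Crest.Agent.R017.E4X266

open Crest.Agent.R012 Crest.Agent.R012.Eis Crest.Agent.R012.Mob705 Crest.Agent.R012.Gauss880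
open Crest.Agent.R012.Div277
open Crest.Agent.R017.Sx545 Crest.Agent.R017.CM106 Crest.Agent.R017.C70 Crest.Agent.R017.C590
open Crest.Agent.R017.End699
open Crest.Agent.R017.E2440 Crest.Agent.R017.E4352
open Crest.Agent.R017.E4o502 (vD wD GoodD GB ssm_tws bd_tws)
open Crest.Agent.R017.E4fe502 (FF Dta Bi bi_fin bi_right bi_smul)
open Crest.Agent.R017.E4R266
open Crest.Agent.R017.E4J352 (Tm QB dta ez ez_sm ez_one ssm_vz ssm_wz)
open Crest.Agent.R017.E4Pr266 (cr cr_nonneg cr_mul tau_mono sum_inj_le D3c)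

/-- the divisor bound of the data -/
lemma tau_dat {ε : ℝ} (hε : 0 < ε) : ∃ C : ℝ, 0 ≤ C ∧
    ∀ (M f : Eis) (O : Type) (_ : Fintype O) (lam : O → ℝ) (v w : O → Eis → ℂ) (X : ℝ),
      Dat4 M f lam v w X → ∀ o x y, v o x ≠ 0 → w o y ≠ 0 →
        (tau (f * x * y) : ℝ) ≤ C * X ^ ε := by
  obtain ⟨C2, hC2, H2⟩ := tau_le_rpow (ε := ε / 3) (by positivity)
  refine ⟨C2, by linarith, ?_⟩
  intro M f O _ lam v w X hdat o x y hx hy
  have hX1 := hdat.X1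
  have hX0 : 0 < X := by linarith
  have s1 := (hdat.hv o).sm x hx
  have s2 := (hdat.hw o).sm y hy
  have h0 : f * x * y ≠ 0 :=
    mul_ne_zero (mul_ne_zero hdat.hf.1.ne_zero s1.ne_zero) s2.ne_zero
  have h1 : (nm (f * x * y) : ℝ) ≤ X ^ 3 := by
    have a1 := hdat.hf.2
    have a2 := (hdat.vx o x hx).2
    have a3 := hdat.wy o y hy
    rw [nm_mul, nm_mul]
    push_cast
    calc (nm f : ℝ) * nm x * nm y ≤ X * X * X := by gcongr
      _ = X ^ 3 := by ring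
  refine (H2 _ h0).trans ?_
  refine mul_le_mul_of_nonneg_left ?_ (by linarith)
  calc (nm (f * x * y) : ℝ) ^ (ε / 3) ≤ (X ^ 3) ^ (ε / 3) :=
        Real.rpow_le_rpow (Nat.cast_nonneg _) h1 (by positivity)
    _ = X ^ ε := by
        rw [pow_rpow hX0]; congr 1; push_cast; ring

lemma g6_nonneg (c x : Eis) : 0 ≤ g6 c x := Finset.prod_nonneg fun p _ => by positivity

/-- real powers, dual part -/
lemma pow_idF {n b L m : ℝ} (hn : 1 ≤ n) (hb : 1 ≤ b) (hL : 0 < L) (hm : 0 < m) :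
    n ^ (3 / 2 : ℝ) * b ^ 3 * (L / (n ^ 2 * b ^ 3) *
      ((m / (L / (n ^ 2 * b ^ 3))) ^ (-(1 / 3) : ℝ) * n ^ (-(1 / 6) : ℝ))) ≤
    L ^ (4 / 3 : ℝ) * (b * (n * b ^ 3 * m) ^ (-(1 / 3) : ℝ)) := by
  obtain ⟨α, rfl⟩ : ∃ α, n = Real.exp α := ⟨Real.log n, (Real.exp_log (by linarith)).symm⟩
  obtain ⟨β, rfl⟩ : ∃ β, b = Real.exp β := ⟨Real.log b, (Real.exp_log (by linarith)).symm⟩
  obtain ⟨l, rfl⟩ : ∃ l, L = Real.exp l := ⟨Real.log L, (Real.exp_log hL).symm⟩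
  obtain ⟨μ, rfl⟩ : ∃ μ, m = Real.exp μ := ⟨Real.log m, (Real.exp_log hm).symm⟩
  have h1 : 0 ≤ α := Real.exp_le_exp.mp (by rw [Real.exp_zero]; exact hn)
  have h2 : 0 ≤ β := Real.exp_le_exp.mp (by rw [Real.exp_zero]; exact hb)
  simp only [← Real.exp_nat_mul, ← Real.exp_mul, ← Real.exp_add, ← Real.exp_sub]
  refine Real.exp_le_exp.mpr ?_
  push_cast
  nlinarith

/-- real powers, direct part -/
lemma pow_idD {n b L : ℝ} (hn : 0 < n) (hb : 0 < b) (hL : 0 < L) :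
    n ^ (3 / 2 : ℝ) * b ^ 3 * ((L / (n ^ 2 * b ^ 3)) ^ (2 / 3 : ℝ) * n ^ (-(1 / 6) : ℝ)) =
    L ^ (2 / 3 : ℝ) * b := by
  obtain ⟨α, rfl⟩ : ∃ α, n = Real.exp α := ⟨Real.log n, (Real.exp_log hn).symm⟩
  obtain ⟨β, rfl⟩ : ∃ β, b = Real.exp β := ⟨Real.log b, (Real.exp_log hb).symm⟩
  obtain ⟨l, rfl⟩ : ∃ l, L = Real.exp l := ⟨Real.log L, (Real.exp_log hL).symm⟩
  simp only [← Real.exp_nat_mul, ← Real.exp_mul, ← Real.exp_add, ← Real.exp_sub]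
  congr 1
  push_cast
  ring

/-- a bilinear term with a scalar -/
lemma bi_norm_smul (a b : Eis → ℂ) (c : ℂ) (G : Eis → Eis → ℂ) :
    ‖c * Bi a b G‖ = ‖Bi a b (fun x y => c * G x y)‖ := by rw [bi_smul]

lemma ts_pull (a : Eis → ℝ) (b : Eis → ℝ) (H : Eis → Eis → ℝ) (g : Eis → ℝ) (k : ℝ) :
    ∑' x : Eis, a x * ∑' y : Eis, b y * (k * (g x * H x y)) =
      k * ∑' x : Eis, (a x * g x) * ∑' y : Eis, b y * H x y := by
  rw [← tsum_mul_left]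
  refine tsum_congr fun x => ?_
  have : ∑' y : Eis, b y * (k * (g x * H x y)) = (k * g x) * ∑' y : Eis, b y * H x y := by
    rw [← tsum_mul_left]
    exact tsum_congr fun y => by ring
  rw [this]
  ring

/-- **the dual principal part** over `z` -/
theorem prinF {ρ : ℝ} (hρ : 0 < ρ) {ε : ℝ} (hε : 0 < ε) : ∃ C : ℝ, 0 ≤ C ∧
    ∀ (M f : Eis) (O : Type) (_ : Fintype O) (c : O → Eis) (lam : O → ℝ) (v w : O → Eis → ℂ)
      (X K B : ℝ) (χ₁ χ₂ : Eis → ℂ) (W : ℝ → ℂ) (𝒬 : Finset Q5)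
      (a : O × {q : Q5 // q ∈ 𝒬} → ℂ),
      Dat4 M f lam v w X → (∀ o, IsPrim (c o)) → (∀ o y, w o y ≠ 0 → IsCoprime (c o) (f * y)) →
      0 < K → 0 ≤ B → (∀ d, IsPrim d → ‖χ₁ d‖ ≤ 1) →
      (∀ d, IsPrim d → ‖χ₂ d‖ ≤ 1) → (∀ y : ℝ, 0 < y → ‖W y‖ ≤ B * y ^ (1 / 3 : ℝ)) →
      (∀ q ∈ 𝒬, QOK M f q) →
      (∀ z, ‖a z‖ ≤ (nm (z.2.1.D0 * z.2.1.D1) : ℝ) ^ (3 / 2 : ℝ) * (nm z.2.1.B : ℝ) ^ 3) →
      ‖∑ z : O × {q : Q5 // q ∈ 𝒬}, Bi (vz v z) (fun y => a z * wz w z y)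
        (fun x y => (Qz lam K z : ℂ) * (χ₁ (fz f z * x * y) *
          D3c (PrC (c z.1) (z.2.1.D0 * z.2.1.D1)) M χ₂ (fz f z * x * y) W
            (ρ * nm (fz f z * x * y) / Qz lam K z)))‖ ≤
        C * X ^ ε * (B * ∑ o, (K / lam o) ^ (4 / 3 : ℝ) * Mq1 (c o) f (v o) (w o)) := by
  obtain ⟨C1, h10, H1⟩ := tau_dat (ε := ε / 6) (by positivity)
  refine ⟨C1 ^ 6 * ρ ^ (-(1 / 3) : ℝ), by positivity, ?_⟩
  intro M f O _ c lam v w X K B χ₁ χ₂ W 𝒬 a hdat hcp hcw hK hB hχ₁ hχ₂ hW h𝒬 ha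
  have hX1 := hdat.X1
  have hX0 : 0 < X := by linarith
  have hlam0 : ∀ o, 0 < lam o := fun o => by linarith [(hdat.lam1 o).1]
  set τ₀ : ℝ := C1 * X ^ (ε / 6) with hτ₀
  have hτ0 : 0 ≤ τ₀ := by positivity
  have hτ := H1 M f O _ lam v w X hdat
  rw [← hτ₀] at hτ
  set H : O → Eis → Eis → ℝ := fun o x y => (τ₀ * (B * ρ ^ (-(1 / 3) : ℝ)) *
    (K / lam o) ^ (4 / 3 : ℝ)) * (g6 (c o) x *
      (cr (f * x * y) * (nm (f * x * y) : ℝ) ^ (-(1 / 3) : ℝ))) with hH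
  have hH0 : ∀ o x y, 0 ≤ H o x y := by
    intro o x y
    have h1 := cr_nonneg (f * x * y)
    have h2 := g6_nonneg (c o) x
    have h3 := hlam0 o
    simp only [hH]
    positivity
  have key := massZ (𝒬 := 𝒬) hdat.hf.1 hdat.hv hdat.hw h𝒬 hτ H hH0
    (fun z x y => a z * ((Qz lam K z : ℂ) * (χ₁ (fz f z * x * y) *
          D3c (PrC (c z.1) (z.2.1.D0 * z.2.1.D1)) M χ₂ (fz f z * x * y) W
            (ρ * nm (fz f z * x * y) / Qz lam K z)))) ?_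
  · have e1 : ∀ o, ∑' x : Eis, ‖v o x‖ * ∑' y : Eis, ‖w o y‖ * H o x y =
        (τ₀ * (B * ρ ^ (-(1 / 3) : ℝ)) * (K / lam o) ^ (4 / 3 : ℝ)) *
          Mq1 (c o) f (v o) (w o) := by
      intro o
      simp only [hH]
      rw [ts_pull]
      rfl
    rw [Finset.sum_congr rfl fun o _ => e1 o] at key
    refine (norm_sum_le _ _).trans ?_
    have e2 : ∀ z : O × {q : Q5 // q ∈ 𝒬}, ‖Bi (vz v z) (fun y => a z * wz w z y)
        (fun x y => (Qz lam K z : ℂ) * (χ₁ (fz f z * x * y) *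
          D3c (PrC (c z.1) (z.2.1.D0 * z.2.1.D1)) M χ₂ (fz f z * x * y) W
            (ρ * nm (fz f z * x * y) / Qz lam K z)))‖ = ‖Bi (vz v z) (wz w z)
        (fun x y => a z * ((Qz lam K z : ℂ) * (χ₁ (fz f z * x * y) *
          D3c (PrC (c z.1) (z.2.1.D0 * z.2.1.D1)) M χ₂ (fz f z * x * y) W
            (ρ * nm (fz f z * x * y) / Qz lam K z))))‖ := by
      intro z
      rw [bi_right, bi_norm_smul]
    rw [Finset.sum_congr rfl fun z _ => e2 z]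
    refine key.trans (le_of_eq ?_)
    have e3 : ∑ o, (τ₀ * (B * ρ ^ (-(1 / 3) : ℝ)) * (K / lam o) ^ (4 / 3 : ℝ)) *
        Mq1 (c o) f (v o) (w o) = (τ₀ * (B * ρ ^ (-(1 / 3) : ℝ))) *
          ∑ o, (K / lam o) ^ (4 / 3 : ℝ) * Mq1 (c o) f (v o) (w o) := by
      rw [Finset.mul_sum]
      exact Finset.sum_congr rfl fun o _ => by ring
    rw [e3]
    have e4 : τ₀ ^ 6 = C1 ^ 6 * X ^ ε := by
      rw [hτ₀, mul_pow, ← Real.rpow_natCast (X ^ (ε / 6)) 6, ← Real.rpow_mul hX0.le]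
      congr 2
      push_cast
      ring
    calc τ₀ ^ 5 * (τ₀ * (B * ρ ^ (-(1 / 3) : ℝ)) *
          ∑ o, (K / lam o) ^ (4 / 3 : ℝ) * Mq1 (c o) f (v o) (w o)) =
        τ₀ ^ 6 * ((B * ρ ^ (-(1 / 3) : ℝ)) *
          ∑ o, (K / lam o) ^ (4 / 3 : ℝ) * Mq1 (c o) f (v o) (w o)) := by ring
      _ = _ := by rw [e4]; ring
  · intro z x y hx hy cx cy hvx hwy
    have hq := h𝒬 _ z.2.2
    have pt := ptF hdat.hf.1 hq ((hdat.hv z.1).sm _ hvx) ((hdat.hw z.1).sm _ hwy) cx cy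
      (hcw _ _ hwy)
    have hD := hq.good.2.2.1
    have hDs := hq.good.2.1
    set D := z.2.1.D0 * z.2.1.D1 with hDd
    have hu : fz f z * x * y = FF f z.2.1.D0 z.2.1.B z.2.1.R z.2.1.Z * x * y := rfl
    rw [hu]
    set u : Eis := FF f z.2.1.D0 z.2.1.B z.2.1.R z.2.1.Z * x * y with hud
    set n : ℝ := (nm D : ℝ) with hn
    set b : ℝ := (nm z.2.1.B : ℝ) with hb
    set m : ℝ := (nm u : ℝ) with hm
    set L : ℝ := K / lam z.1 with hL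
    have hn1 : 1 ≤ n := one_le_nm hD.ne_zero
    have hb1 : 1 ≤ b := one_le_nm hq.gb.2.1.ne_zero
    have hm1 : 1 ≤ m := one_le_nm pt.up.ne_zero
    have hL0 : 0 < L := by have := hlam0 z.1; positivity
    have hQ : Qz lam K z = L / (n ^ 2 * b ^ 3) := by
      have hnB : ((nm (D ^ 2 * z.2.1.B ^ 3) : ℕ) : ℝ) = n ^ 2 * b ^ 3 := by
        rw [nm_mul, nm_pow, nm_pow]; push_cast; rfl
      show K / (lam z.1 * ((nm (D ^ 2 * z.2.1.B ^ 3) : ℕ) : ℝ)) = _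
      rw [hnB, ← div_div]
    set Q : ℝ := L / (n ^ 2 * b ^ 3) with hQd
    have hQ0 : 0 < Q := by positivity
    rw [hQ]
    set Y : ℝ := ρ * m / Q with hY
    have hY0 : 0 < Y := by positivity
    have hu0 : D * z.2.1.B ^ 3 * u ≠ 0 :=
      mul_ne_zero (mul_ne_zero hD.ne_zero (pow_ne_zero 3 hq.gb.2.1.ne_zero)) pt.up.ne_zero
    -- the principal sum
    have hsum : ‖D3c (PrC (c z.1) D) M χ₂ u W Y‖ ≤ tau u * ((B * Y ^ (-(1 / 3) : ℝ)) *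
        (cr u * (g6 (c z.1) (z.2.1.R * x) * n ^ (-(1 / 6) : ℝ)))) := by
      unfold E4Pr266.D3c
      refine pr_sum (M := M) (c := c z.1) (D := D) (x := z.2.1.R * x) pt.up.ne_zero (hcp _)
        hD.prim hDs pt.cD pt.cx (G := fun d => χ₂ d * (nm d : ℂ)⁻¹ * W (nm d / Y))
        (by positivity) (fun d hd _ => ?_) _ (fun d h1 h2 => if_pos ⟨h1, h2⟩)
        (fun d h => if_neg h)
      have hd0 : (0 : ℝ) < nm d := by exact_mod_cast nm_pos.mpr hd.ne_zero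
      have h1 := hW (nm d / Y) (by positivity)
      have h2 := hχ₂ d hd.prim
      rw [norm_mul, norm_mul, norm_inv, Complex.norm_natCast]
      calc ‖χ₂ d‖ * (nm d : ℝ)⁻¹ * ‖W (nm d / Y)‖ * (nm d : ℝ) ^ (2 / 3 : ℝ) ≤
            1 * (nm d : ℝ)⁻¹ * (B * (nm d / Y) ^ (1 / 3 : ℝ)) * (nm d : ℝ) ^ (2 / 3 : ℝ) := by
            gcongr
        _ = B * Y ^ (-(1 / 3) : ℝ) * ((nm d : ℝ)⁻¹ * ((nm d : ℝ) ^ (1 / 3 : ℝ) *
              (nm d : ℝ) ^ (2 / 3 : ℝ))) := by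
            rw [Real.div_rpow hd0.le hY0.le, Real.rpow_neg hY0.le]
            ring
        _ = B * Y ^ (-(1 / 3) : ℝ) := by
            rw [← Real.rpow_add hd0]
            norm_num
            rw [inv_mul_cancel₀ hd0.ne', mul_one]
    have t1 : (tau u : ℝ) ≤ τ₀ := by
      refine le_trans ?_ (hτ _ _ _ hvx hwy)
      rw [pt.eq]
      exact_mod_cast tau_mono hu0 (dvd_mul_left _ _)
    have t2 : b * cr u ≤ cr (f * (z.2.1.R * x) * (z.2.1.D1 * (z.2.1.Z * y))) := by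
      rw [pt.eq]
      exact cr_mul hq.gb.2.1.prim hu0
    have t3 : (nm (f * (z.2.1.R * x) * (z.2.1.D1 * (z.2.1.Z * y))) : ℝ) = n * b ^ 3 * m := by
      rw [pt.eq, nm_mul, nm_mul, nm_pow]; push_cast; rfl
    have t4 : Y ^ (-(1 / 3) : ℝ) = ρ ^ (-(1 / 3) : ℝ) * (m / Q) ^ (-(1 / 3) : ℝ) := by
      rw [hY, mul_div_assoc, Real.mul_rpow hρ.le (by positivity)]
    have hcr := cr_nonneg u
    have hg6 := g6_nonneg (c z.1) (z.2.1.R * x)
    have hχ := hχ₁ u pt.up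
    have haz := ha z
    have key2 := pow_idF hn1 hb1 hL0 (show 0 < m by linarith)
    rw [← hQd] at key2
    rw [norm_mul, norm_mul, norm_mul, Complex.norm_real, Real.norm_of_nonneg hQ0.le]
    calc ‖a z‖ * (Q * (‖χ₁ u‖ * ‖D3c (PrC (c z.1) D) M χ₂ u W Y‖)) ≤
          (n ^ (3 / 2 : ℝ) * b ^ 3) * (Q * (1 * (τ₀ * ((B * (ρ ^ (-(1 / 3) : ℝ) *
            (m / Q) ^ (-(1 / 3) : ℝ))) * (cr u * (g6 (c z.1) (z.2.1.R * x) *
              n ^ (-(1 / 6) : ℝ))))))) := by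
          rw [← t4]
          have h5 : ‖D3c (PrC (c z.1) D) M χ₂ u W Y‖ ≤ τ₀ * ((B * Y ^ (-(1 / 3) : ℝ)) *
              (cr u * (g6 (c z.1) (z.2.1.R * x) * n ^ (-(1 / 6) : ℝ)))) :=
            hsum.trans (mul_le_mul_of_nonneg_right t1 (by positivity))
          gcongr
      _ = (τ₀ * (B * ρ ^ (-(1 / 3) : ℝ)) * cr u * g6 (c z.1) (z.2.1.R * x)) *
          (n ^ (3 / 2 : ℝ) * b ^ 3 * (Q * ((m / Q) ^ (-(1 / 3) : ℝ) *
            n ^ (-(1 / 6) : ℝ)))) := by ring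
      _ ≤ (τ₀ * (B * ρ ^ (-(1 / 3) : ℝ)) * cr u * g6 (c z.1) (z.2.1.R * x)) *
          (L ^ (4 / 3 : ℝ) * (b * (n * b ^ 3 * m) ^ (-(1 / 3) : ℝ))) :=
          mul_le_mul_of_nonneg_left key2 (by positivity)
      _ = (τ₀ * (B * ρ ^ (-(1 / 3) : ℝ)) * g6 (c z.1) (z.2.1.R * x) * L ^ (4 / 3 : ℝ) *
          (n * b ^ 3 * m) ^ (-(1 / 3) : ℝ)) * (b * cr u) := by ring
      _ ≤ (τ₀ * (B * ρ ^ (-(1 / 3) : ℝ)) * g6 (c z.1) (z.2.1.R * x) * L ^ (4 / 3 : ℝ) *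
          (n * b ^ 3 * m) ^ (-(1 / 3) : ℝ)) *
            cr (f * (z.2.1.R * x) * (z.2.1.D1 * (z.2.1.Z * y))) :=
          mul_le_mul_of_nonneg_left t2 (by positivity)
      _ = H z.1 (z.2.1.R * x) (z.2.1.D1 * (z.2.1.Z * y)) := by
          simp only [hH]
          rw [t3, ← hL]
          ring

end Crest.Agent.R017.E4X266
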