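import Crest.Agent.R017.E4Uy_512
import Crest.Agent.R017.E4Xf_372

/-!
# Row 17, R8 / E5, consumer of E4, class E : sizes for the data of `JBUX` (helper512)

* `fr_of_frLX` : the frame of one level gives `Fr` at helper71's datum
* `sz_alX` : the difference of the two shapes of the three-lump side
* `dt_dat4X` : `Dat4`, the tight `U`-bound and the sizes for `vE`, `wE`
* `dt_sizesX` : the size hypotheses of `midXV`
* `szUX` : helper372's sizes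
-/

set_option autoImplicit false

noncomputable section

open Finset Complex
open scoped ComplexConjugate

namespace Crest.Agent.R017.E4Us512

open Crest.Agent.R012 Crest.Agent.R012.Eis
open Crest.Agent.R012.Mob705 hiding pb mem_pb
open Crest.Agent.R012.Div277
open Crest.Agent.R012.LS2 (S mem_S)
open Crest.Agent.R017.Sx545 (Sm)
open Crest.Agent.R017.CM106 (CS FS sub)
open Crest.Agent.R017.FE47 (cx PU SM)
open Crest.Agent.R017.C70
open Crest.Agent.R017.HP842 (Pc pc)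
open Crest.Agent.R017.XT71 (Sys Win mx le_mx)
open Crest.Agent.R017.End699 (HC)
open Crest.Agent.R017.E4352 (PrI Dat4)
open Crest.Agent.R017.E5k54 (PT alb)
open Crest.Agent.R017.SSb54 (PTb mem_PTb)
open Crest.Agent.R017.E5P571 (Gd mem_Gd)
open Crest.Agent.R017.E5B71
open Crest.Agent.R017.B770 (DPar)
open Crest.Agent.R017.Prov71
open Crest.Agent.R017.E5L770
open Crest.Agent.R017.E5LX770 (SqLX)
open Crest.Agent.R017.ExP960 hiding alX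
open Crest.Agent.R017.P1X960 (cmb)
open Crest.Agent.R017.E4D164 hiding E4L
open Crest.Agent.R017.E4U164
open Crest.Agent.R017.E4Df372

/-- what a frame gives: `Fr`, the range of the family, the replaced lengths -/
structure FrX (X B₁ : ℝ) (N : ℕ) (a : BdX × ℕ) (ps : List Pq) : Prop where
  fr : Fr X B₁ N a.1.toBd ps a.2
  l8 : 1 / 8 * Real.log X ≤ a.1.l
  l2 : a.1.l ≤ 2 * Real.log X
  zs : ∀ i, a.1.zs i ≤ B₁ * Real.log X

/-- **the frame of one level gives the size conditions** -/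
theorem fr_of_frLX {A d β δ δ' B X : ℝ} (hA : 2 / 3 ≤ A) (hδ : δ ≤ 1 / 2) (hX : 1 < X) {N : ℕ}
    {a : BdX × ℕ} {ps : List Pq} {q : (Option IX5 → ℝ) × (Kd → ℝ)}
    (H : FrLX A d β δ δ' B X N a ps q) (ha : a.1.ok) {P : DPar} (haP : a.1.okP P) {B₁ : ℝ}
    (hB₁ : B ≤ B₁) (h3 : 4 ≤ B₁) : FrX X B₁ N a ps := by
  have hl : 0 < Real.log X := Real.log_pos hX
  have hX0 : 0 < X := by linarith
  have hdom := H.dom
  unfold SqLX DomL at hdom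
  obtain ⟨hq, -, hq2⟩ := hdom
  have hSq : Sq5 A d (prX (dn q.1)) q.2 := hq.1
  obtain ⟨c1, c2, c3⟩ := cu_le hA hSq.toNr5
  have key : ∀ {y c : ℝ}, |y / Real.log X - c| ≤ δ → c ≤ 4 / 3 → y ≤ 2 * Real.log X := by
    intro y c h1 h2
    have h4 := (abs_le.mp h1).2
    have h5 : y / Real.log X ≤ 2 := by linarith
    rwa [div_le_iff₀ hl] at h5
  have h24 : 2 * Real.log X ≤ B₁ * Real.log X := mul_le_mul_of_nonneg_right (by linarith) hl.le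
  have h44 : 4 * Real.log X ≤ B₁ * Real.log X := mul_le_mul_of_nonneg_right h3 hl.le
  have hz0 : ∀ p ∈ ps, 0 ≤ p.z := fun p hp => (H.good p hp).2.2
  have el : |a.1.l / Real.log X - cκ (prX (dn q.1))| ≤ δ := H.win.ev (some (.inl (.inl 0)))
  have hκ1 := hSq.κ1
  have hκ0 := hSq.κ0
  have hu : ∀ j, (a.1.us j).z ≤ 2 * Real.log X := by
    intro j
    have e2 : |(a.1.us j).z / Real.log X - cu (prX (dn q.1)) j| ≤ δ :=
      H.win.ev (some (.inl (.inr j)))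
    exact key e2 (c1 j)
  have hl8 : 1 / 8 * Real.log X ≤ a.1.l := by
    have h4 := (abs_le.mp el).1
    have h5 : 1 / 8 ≤ a.1.l / Real.log X := by linarith
    rwa [le_div_iff₀ hl] at h5
  refine ⟨⟨H.len, (key el (by linarith)).trans h24, ?_, fun j => (hu j).trans h24,
    fun p hp => ?_, ⟨ha.base.2.2, ?_⟩, ⟨haP.1.1, ?_⟩, ?_⟩, hl8, key el (by linarith), fun i => ?_⟩
  · have : 0 ≤ 1 / 8 * Real.log X := by positivity
    exact this.trans hl8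
  · have h4 := nl_le_mass hX hz0 hp
    have h5 := (abs_le.mp (H.mass p.kd)).2
    have h6 := c2 p.kd
    have h7 : p.z / Real.log X ≤ 2 := by
      have : Dq.nl X p = p.z / Real.log X := rfl
      rw [← this]; linarith
    rw [div_le_iff₀ hl] at h7
    linarith
  · have h4 : max (nm a.1.d₃ : ℝ) (mx Dq.s2 (List.ofFn a.1.us)) ≤ X ^ B := H.win.s₂
    exact (le_max_left _ _).trans (h4.trans (Real.rpow_le_rpow_of_exponent_le hX.le hB₁))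
  · have e2 : |Real.log (nm a.1.e) / Real.log X - ce (prX (dn q.1))| ≤ δ :=
      H.win.ev (some (.inl (.inl 2)))
    have h4 := (key e2 c3).trans h24
    have h5 : (0 : ℝ) < nm a.1.e := by exact_mod_cast nm_pos.2 haP.1.1.ne_zero
    calc (nm a.1.e : ℝ) = Real.exp (Real.log (nm a.1.e)) := (Real.exp_log h5).symm
      _ ≤ Real.exp (B₁ * Real.log X) := Real.exp_le_exp.2 h4
      _ = X ^ B₁ := by rw [Real.rpow_def_of_pos hX0, mul_comm]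
  · have e2 : |Real.log 2 * (a.2 : ℝ) / Real.log X - q.1 none| ≤ δ := H.win.ev none
    have h4 := top5_le hA hSq
    have h5 := (abs_le.mp e2).2
    have h8 : q.1 none ≤ top5 (prX (dn q.1)) := hq2
    have h6 : Real.log 2 * (a.2 : ℝ) / Real.log X ≤ 4 := by linarith
    rw [div_le_iff₀ hl] at h6
    exact h6.trans h44
  · have z0 := ha.z0 0
    have z1 := ha.z0 1
    have z2 := ha.z0 2
    have z3 := ha.z0 3
    have s01 := ha.s01
    have s23 := ha.s23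
    have u0 := hu 0
    have u1 := hu 1
    have u2 := hu 2
    have u3 := hu 3
    refine le_trans ?_ h44
    fin_cases i
    · show a.1.zs 0 ≤ _
      linarith
    · show a.1.zs 1 ≤ _
      linarith
    · show a.1.zs 2 ≤ _
      linarith
    · show a.1.zs 3 ≤ _
      linarith

lemma len_bsX (a : BdX) (ps : List Pq) (j : Fin 2) : (bsX a ps j).length ≤ ps.length + 2 := by
  have : (moL ps).length ≤ ps.length := List.length_filter_le _ _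
  fin_cases j
  · show (moL ps).length + 1 + 1 ≤ _
    omega
  · show (moL ps).length + 1 + 1 ≤ _
    omega

lemma lz_bsX {a : BdX} (ha : a.ok) (ps : List Pq) (j : Fin 2) :
    lz (bsX a ps j) = lz (bs2 a.toBd ps) := by
  fin_cases j
  · rfl
  · show lz (stz (a.us 0) (a.zs 0) :: stz (a.us 1) (a.zs 1) :: moL ps) =
      lz (a.us 0 :: a.us 1 :: moL ps)
    rw [lz_cons, lz_cons, lz_cons, lz_cons]
    show a.zs 0 + (a.zs 1 + lz (moL ps)) = (a.us 0).z + ((a.us 1).z + lz (moL ps))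
    have := ha.s01
    linarith

lemma z_bsX {X B₁ : ℝ} {N : ℕ} {a : BdX × ℕ} {ps : List Pq} (H : FrX X B₁ N a ps) (j : Fin 2) :
    ∀ p ∈ bsX a.1 ps j, p.z ≤ B₁ * Real.log X := by
  intro p hp
  fin_cases j
  · have hp' : p ∈ a.1.us 0 :: a.1.us 1 :: moL ps := hp
    rw [List.mem_cons, List.mem_cons] at hp'
    rcases hp' with rfl | rfl | hp'
    · exact H.fr.u 0
    · exact H.fr.u 1
    · exact H.fr.p p (List.mem_of_mem_filter hp')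
  · have hp' : p ∈ stz (a.1.us 0) (a.1.zs 0) :: stz (a.1.us 1) (a.1.zs 1) :: moL ps := hp
    rw [List.mem_cons, List.mem_cons] at hp'
    rcases hp' with rfl | rfl | hp'
    · exact H.zs 0
    · exact H.zs 1
    · exact H.fr.p p (List.mem_of_mem_filter hp')

/-- **the difference of the two shapes of the three-lump side** -/
lemma sz_alX {h : ℝ → ℝ} {P : DPar} (hP : P.OK) {R H : ℝ}
    (hR : ∀ u, cx h u ≠ 0 → |u| ≤ R) (hH : ∀ u, ‖cx h u‖ ≤ H) {Y : ℝ} (hY : 100 ≤ Y)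
    (hRY : Real.exp R ≤ Y) (hHY : H ≤ Y) (t₀ : Eis) {a : BdX}
    (hu : ∀ j, Real.exp (a.us j).z ≤ Y) (hz : ∀ j, Real.exp (a.zs j) ≤ Y) {β : Fin 3 → Eis}
    (hβ : ∀ j, IsPrim (β j)) :
    Sz (E4Df372.alX P h t₀ a β) (Y ^ 6) (Y ^ 25) := by
  have h1 : Sz (alb (f3 P h t₀ a.toBd) β) (Y ^ 6) (Y ^ 24) :=
    sz_three hP hR hH hY hRY hHY t₀ (us := ![a.us 2, a.us 3, a.us 4]) (fun j => by
      fin_cases j
      · exact hu 2
      · exact hu 3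
      · exact hu 4) hβ
  have h2 : Sz (alb (f3' P h t₀ a) β) (Y ^ 6) (Y ^ 24) :=
    sz_three hP hR hH hY hRY hHY t₀ (us := u3' a) (fun j => by
      fin_cases j
      · exact hz 2
      · exact hz 3
      · exact hu 4) hβ
  have e : ∀ n, E4Df372.alX P h t₀ a β n = ExP960.ph a * alb (f3 P h t₀ a.toBd) β n +
      (-ExP960.ph' a) * alb (f3' P h t₀ a) β n := fun n => rfl
  have hor : ∀ n, E4Df372.alX P h t₀ a β n ≠ 0 →
      alb (f3 P h t₀ a.toBd) β n ≠ 0 ∨ alb (f3' P h t₀ a) β n ≠ 0 := by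
    intro n hn
    by_contra hc
    push Not at hc
    apply hn
    rw [e, hc.1, hc.2]
    ring
  refine ⟨fun n hn => ?_, fun n hn => ?_, fun n => ?_⟩
  · rcases hor n hn with h | h
    · exact h1.prim n h
    · exact h2.prim n h
  · rcases hor n hn with h | h
    · exact h1.le n h
    · exact h2.le n h
  · rw [e]
    refine (norm_add_le _ _).trans ?_
    rw [norm_mul, norm_mul, norm_neg, ExP960.norm_ph, ExP960.norm_ph', one_mul, one_mul]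
    have h3 := h1.bd n
    have h4 := h2.bd n
    have h5 : 0 ≤ Y ^ 24 := by positivity
    have h6 : Y ^ 25 = Y * Y ^ 24 := by ring
    rw [h6]
    nlinarith

variable {Λ : Type*}

/-- **`Dat4`, the `U`-bound and the sizes of `vE`, `wE`** -/
theorem dt_dat4X {π : Λ → DPar} {h : ℝ → ℝ} {c : ℝ} (hh : PU h c) {A : ℝ} (d β : ℝ)
    (hA : 2 / 3 ≤ A) (e0 r : ℝ) {Jf : ℝ → ℝ → ℝ → Finset (Eis × Eis)}
    (hJf : ∀ l N z, OKJ (Jf l N z)) (lam : Λ × Eis) (hP : (π lam.1).OK) (N : ℕ) (B E R : ℝ)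
    (hR : 0 < R) :
    ∃ A₀ C₀ X₀ : ℝ, 1 ≤ A₀ ∧ 1 ≤ C₀ ∧ 1 < X₀ ∧ ∀ X : ℝ, X₀ ≤ X → ∀ δ δ' ε : ℝ, δ ≤ 1 / 2 → ε ≤ E →
    ∀ (Bf : ℝ → ℝ → ℝ → ℝ) (a : BdX × ℕ) (ps : List Pq) (q : (Option IX5 → ℝ) × (Kd → ℝ)),
      FrLX A d β δ δ' B X N a ps q → a.1.ok → a.1.okP (π lam.1) →
    (1 ≤ R * Real.exp a.1.l ∧ R * Real.exp a.1.l ≤ X ^ A₀ ∧ Real.exp a.1.l ≤ X ^ A₀ ∧
      Real.exp (-a.1.l) ≤ X ^ A₀ ∧ 0 ≤ a.1.l) ∧
    ∀ x : Dt, x.OK (π lam.1) Bf e0 r ε X a.1.toBd →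
    ∀ (j : Fin 2) (h₁ : FS (b1 (π lam.1) h lam.2 ps)) (h₂ : FS (b2X (π lam.1) h lam.2 a.1 ps j)),
      Dat4 (π lam.1).n₃ 1 lD (vE π h lam Jf a x) (wE π h lam Jf a ps x j h₁ h₂) (X ^ A₀) ∧
      (∀ (o : x.O π lam Jf (bl a)) (u y : Eis), vE π h lam Jf a x o u ≠ 0 →
        wE π h lam Jf a ps x j h₁ h₂ o y ≠ 0 →
        (nm (1 * u * y) : ℝ) * lD o ^ 2 ≤ C₀ * U0 (π lam.1) (bl a) ps x) ∧
      0 < U0 (π lam.1) (bl a) ps x ∧
      ((x.I Jf (bl a)).Nonempty → C₀ * U0 (π lam.1) (bl a) ps x ≤ X ^ A₀) ∧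
      (nm (fN (π lam.1).n₃ (x.E a.1.toBd)) : ℝ) ≤ X ^ A₀ ∧
      ∀ i ∈ x.I Jf (bl a), (nm (sS x.g x.e₀ x.t i.1) : ℝ) ≤ X ^ A₀ := by
  obtain ⟨Rh, Hh, hR0, hH1, hRh, hHh⟩ := bdd_PU hh
  set B₁ : ℝ := max B 4 + |E| with hB₁
  have hE0 := abs_nonneg E
  have hB3 : 4 ≤ B₁ := by
    have := le_max_right B 4
    rw [hB₁]; linarith
  have hBB : B ≤ B₁ := by
    have := le_max_left B 4
    rw [hB₁]; linarith
  obtain ⟨A₀, C₀, X₀, hA₀, hC₀, hX₀, H⟩ := dat4_famG hh hP e0 r N (B := B₁) (by linarith)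
  set C₁ : ℝ := 2 ^ 28 * C₀ with hC₁
  have hC₁1 : 1 ≤ C₁ := by rw [hC₁]; linarith
  have hERh := Real.exp_pos Rh
  refine ⟨6 * A₀ + B₁ + 2, C₁,
    max (max X₀ (max C₁ R)) (max (Real.exp (|Real.log R| * 8)) (100 + Real.exp Rh + Hh)),
    by linarith, hC₁1, lt_max_of_lt_left (lt_max_of_lt_left hX₀), ?_⟩
  intro X hX δ δ' ε hδ hεE Bf a ps q hF ha haP
  have hXX : X₀ ≤ X := (le_max_left _ _).trans ((le_max_left _ _).trans hX)
  have hXC : C₁ ≤ X :=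
    (le_max_left _ _).trans ((le_max_right _ _).trans ((le_max_left _ _).trans hX))
  have hXR : R ≤ X :=
    (le_max_right _ _).trans ((le_max_right _ _).trans ((le_max_left _ _).trans hX))
  have hXe : Real.exp (|Real.log R| * 8) ≤ X :=
    (le_max_left _ _).trans ((le_max_right _ _).trans hX)
  have hXh : 100 + Real.exp Rh + Hh ≤ X :=
    (le_max_right _ _).trans ((le_max_right _ _).trans hX)
  have hX1 : 1 < X := hX₀.trans_le hXX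
  have hX0 : 0 < X := by linarith
  have hlX0 : 0 < Real.log X := Real.log_pos hX1
  have hFX := fr_of_frLX hA hδ hX1 hF ha haP hBB hB3
  have hFr := hFX.fr
  have hmo : ∀ y, y ≤ 6 * A₀ + B₁ + 2 → X ^ y ≤ X ^ (6 * A₀ + B₁ + 2) := fun y hy =>
    Real.rpow_le_rpow_of_exponent_le hX1.le hy
  have hlX := hFX.l2
  have hlX1 := hFX.l8
  have hexpl : Real.exp a.1.l ≤ X ^ (2 : ℝ) := by
    rw [Real.rpow_def_of_pos hX0, mul_comm]
    exact Real.exp_le_exp.2 hlX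
  have hRl : |Real.log R| ≤ a.1.l := by
    have h6 : |Real.log R| * 8 ≤ Real.log X := (Real.le_log_iff_exp_le hX0).mpr hXe
    linarith
  have hexp0 := Real.exp_pos a.1.l
  refine ⟨⟨?_, ?_, ?_, ?_, hFr.l0⟩, fun x hx j h₁ h₂ => ?_⟩
  · have h7 : 0 ≤ Real.log R + a.1.l := by
      have := neg_abs_le (Real.log R)
      linarith
    calc (1 : ℝ) ≤ Real.exp (Real.log R + a.1.l) := Real.one_le_exp h7
      _ = R * Real.exp a.1.l := by rw [Real.exp_add, Real.exp_log hR]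
  · calc R * Real.exp a.1.l ≤ X ^ (1 : ℝ) * X ^ (2 : ℝ) := by
          rw [Real.rpow_one]
          gcongr
      _ = X ^ (3 : ℝ) := by rw [← Real.rpow_add hX0]; norm_num
      _ ≤ _ := hmo _ (by linarith)
  · exact hexpl.trans (hmo _ (by linarith))
  · have h8 : Real.exp (-a.1.l) ≤ 1 := Real.exp_le_one_iff.mpr (by linarith [hFr.l0])
    exact h8.trans (Real.one_le_rpow hX1.le (by linarith))
  have hJ := okJ3 hJf a.1.toBd a.2
  have hI : ∀ k ∈ x.I Jf (bl a), IsPrim k.1 ∧ (nm k.1 : ℝ) ≤ X ^ B₁ ∧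
      k.2 ∈ J3 Jf a.1.toBd a.2 := by
    intro k hk
    obtain ⟨⟨hq, hxJ⟩, -⟩ := Dt.mem_I.mp hk
    have h1 := hx.Q _ hq
    refine ⟨h1.1.1, ?_, hxJ⟩
    have h2 : (1 : ℝ) ≤ nm k.1 := one_le_nm' h1.1.1
    calc (nm k.1 : ℝ) ≤ (nm k.1 : ℝ) ^ 2 := by nlinarith
      _ ≤ X ^ ε * Real.exp a.1.l := h1.2.2.2
      _ ≤ X ^ |E| * X ^ (4 : ℝ) := by
          have h3 : X ^ ε ≤ X ^ |E| :=
            Real.rpow_le_rpow_of_exponent_le hX1.le (hεE.trans (le_abs_self _))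
          have h4 : X ^ (2 : ℝ) ≤ X ^ (4 : ℝ) :=
            Real.rpow_le_rpow_of_exponent_le hX1.le (by norm_num)
          have h5 := hexpl.trans h4
          have h6 : 0 ≤ X ^ |E| := Real.rpow_nonneg hX0.le _
          gcongr
      _ = X ^ (|E| + 4) := (Real.rpow_add hX0 _ _).symm
      _ ≤ X ^ B₁ := Real.rpow_le_rpow_of_exponent_le hX1.le (by
          have := le_max_right B 4
          rw [hB₁]; linarith)
  have hg := (mem_Gd ha.base.2.2).mp hx.g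
  have he₀ := (mem_S (Real.exp_pos _).le).mp hx.e₀
  have hEp : IsPrim (x.E a.1.toBd) := haP.1.1.mul (T3_prim _ hx.β)
  have ht := (mem_Gd (tS_prim hEp).ne_zero).mp hx.t
  -- the size of `alX`
  have hB'0 : 0 ≤ |e0| * B₁ := mul_nonneg (abs_nonneg _) (by linarith)
  set Y : ℝ := X ^ (1 + B₁ + |e0| * B₁) with hY
  have hXY : X ≤ Y := by
    conv_lhs => rw [← Real.rpow_one X]
    exact Real.rpow_le_rpow_of_exponent_le hX1.le (by linarith)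
  have hexpY : ∀ y : ℝ, y ≤ B₁ * Real.log X → Real.exp y ≤ Y := by
    intro y hy
    have h9 : y ≤ (1 + B₁ + |e0| * B₁) * Real.log X :=
      hy.trans (mul_le_mul_of_nonneg_right (by linarith) hlX0.le)
    rw [hY, Real.rpow_def_of_pos hX0, mul_comm]
    exact Real.exp_le_exp.2 h9
  have hα : Sz (E4Df372.alX (π lam.1) h lam.2 a.1 x.β) (Y ^ 6) (Y ^ 25) :=
    sz_alX hP hRh hHh (by linarith) (by linarith) (by linarith) lam.2
      (fun j => hexpY _ (hFr.u j)) (fun j => hexpY _ (hFX.zs j))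
      (fun j => (mem_primBall.mp (mem_PT (mem_PTb.mp hx.β).1 j)).2)
  obtain ⟨g1, g2, g3, g4, g5, g6⟩ := H X hXX a.1.toBd ps a.2 hFr Bf Jf hJ lam.2 (bsX a.1 ps j)
    ((len_bsX a.1 ps j).trans (Nat.add_le_add_right hFr.len 2)) (z_bsX hFX j) h₁ h₂
    (x.I Jf (bl a)) hI x.g hg.1.1 hg.2.2 x.β hx.β x.e₀ he₀.2.1 he₀.1 x.t ht.1.1 ht.2.2
    (E4Df372.alX (π lam.1) h lam.2 a.1 x.β) hα
    (π lam.1).l₃ (fun k => conj ((π lam.1).χ₃ k)) hP.χ₃.conj x.ph hx.ph x.c₀ x.g' x.z hx.g' hx.z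
  rw [lz_bsX ha] at g2 g5
  have hfpos : (0 : ℝ) < nm (fN (π lam.1).n₃ (x.E a.1.toBd)) := by
    exact_mod_cast nm_pos.2 (fM_spec hP.χ₃.q0 hEp).2.1.ne_zero
  have hU0 : 0 < U0 (π lam.1) (bl a) ps x := by
    have h10 : (0 : ℝ) < nm (fN (π lam.1).n₃ (x.E (bl a).1)) := hfpos
    unfold U0; positivity
  refine ⟨dat4_mono g1 (hmo _ (by linarith)), ?_, hU0, ?_, g3.trans (hmo _ (by linarith)),
    fun i hi => (g6 i hi).trans (hmo _ (by linarith))⟩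
  · intro o u y hu hy
    refine (g2 (2 ^ 27 * (2 * 2 ^ a.2 * 8 ^ x.nS / 8 ^ x.nE)) (by positivity)
      (dt_V (a := bl a) hJ hx ha.base haP) o u y hu hy).trans (le_of_eq ?_)
    unfold U0
    rw [lam_eq, lmo_eq]
    show (nm (fN (π lam.1).n₃ (a.1.e * ∏ j, x.β j)) : ℝ) *
        (2 ^ 27 * (2 * 2 ^ a.2 * 8 ^ x.nS / 8 ^ x.nE)) *
        (C₀ * Real.exp (lz (amL ps) + 2 * lz (bs2 a.1.toBd ps))) =
      C₁ * (nm (fN (π lam.1).n₃ (a.1.e * ∏ j, x.β j)) * 2 ^ a.2 * 8 ^ x.nS / 8 ^ x.nE *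
        Real.exp (lz (amL ps) + 2 * lz (bs2 a.1.toBd ps)))
    rw [hC₁]
    ring
  · rintro ⟨i, hi⟩
    have h1 := (dt_nS (a := bl a) hJ hx ha.base haP i hi).1
    have h2 := g6 i hi
    have h3 : (2 : ℝ) ^ x.nS ≤ X ^ A₀ := h1.trans h2
    have hXA : 0 ≤ X ^ A₀ := Real.rpow_nonneg hX0.le _
    have h4 : (8 : ℝ) ^ x.nS ≤ (X ^ A₀) ^ 3 := by
      have : (8 : ℝ) ^ x.nS = (2 ^ x.nS) ^ 3 := by
        rw [← pow_mul, mul_comm, pow_mul]; norm_num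
      rw [this]
      exact pow_le_pow_left₀ (by positivity) h3 3
    have h5 : (1 : ℝ) ≤ 8 ^ x.nE := one_le_pow₀ (by norm_num)
    have h6 : (2 : ℝ) ^ a.2 ≤ X ^ A₀ := by
      have : (0 : ℝ) < 2 ^ a.2 := by positivity
      linarith
    have g3' : (nm (fN (π lam.1).n₃ (x.E a.1.toBd)) : ℝ) ≤ X ^ A₀ := g3
    unfold U0
    rw [lam_eq, lmo_eq]
    show C₁ * ((nm (fN (π lam.1).n₃ (x.E a.1.toBd)) : ℝ) * 2 ^ a.2 * 8 ^ x.nS / 8 ^ x.nE *
          Real.exp (lz (amL ps) + 2 * lz (bs2 a.1.toBd ps))) ≤ _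
    calc C₁ * ((nm (fN (π lam.1).n₃ (x.E a.1.toBd)) : ℝ) * 2 ^ a.2 * 8 ^ x.nS / 8 ^ x.nE *
          Real.exp (lz (amL ps) + 2 * lz (bs2 a.1.toBd ps)))
        ≤ X ^ (1 : ℝ) * ((X ^ A₀ * X ^ A₀ * (X ^ A₀) ^ 3 / 1) * X ^ A₀) := by
          rw [Real.rpow_one]
          gcongr
      _ = X ^ (1 + 6 * A₀) := by
          rw [div_one, Real.rpow_add hX0, mul_comm 6 A₀, Real.rpow_mul hX0.le]
          have : (X ^ A₀) ^ (6 : ℝ) = (X ^ A₀) ^ 6 := by exact_mod_cast Real.rpow_natCast _ 6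
          rw [this]
          ring
      _ ≤ _ := hmo _ (by linarith)

/-- **the size hypotheses of `midXV` in the frame** -/
theorem dt_sizesX {π : Λ → DPar} {h : ℝ → ℝ} {c : ℝ} (hh : PU h c) {A : ℝ} (d β : ℝ)
    (hA : 2 / 3 ≤ A) (e0 r : ℝ) {Jf : ℝ → ℝ → ℝ → Finset (Eis × Eis)}
    (hJf : ∀ l N z, OKJ (Jf l N z)) (lam : Λ × Eis) (hP : (π lam.1).OK) (N : ℕ) (B R : ℝ) :
    ∃ A₀ X₀ : ℝ, 1 ≤ A₀ ∧ 1 < X₀ ∧ ∀ X : ℝ, X₀ ≤ X → ∀ δ δ' : ℝ, δ ≤ 1 / 2 →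
    ∀ (Bf : ℝ → ℝ → ℝ → ℝ) (a : BdX × ℕ) (ps : List Pq) (q : (Option IX5 → ℝ) × (Kd → ℝ)),
      FrLX A d β δ δ' B X N a ps q → a.1.ok → a.1.okP (π lam.1) →
    (∀ g e₀ t, IsPrim g → g ∣ a.1.d₃ → IsPrim e₀ → IsPrim t →
      (nm e₀ : ℝ) ≤ Real.exp (e0 * a.1.l) →
      (∃ β ∈ T3 Bf a.1.toBd r, t ∣ tS (a.1.e * ∏ j, β j)) →
      ∀ x ∈ (QK a.1.toBd (R * Real.exp a.1.l)) ×ˢ J3 Jf a.1.toBd a.2,
        nm (XI jD (jJ (sE (fun q => q ^ 2 * g) e₀ t)) x) ≤ ⌊X ^ A₀⌋₊) ∧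
    (∀ g e₀ t, IsPrim g → g ∣ a.1.d₃ → IsPrim e₀ → IsPrim t →
      (nm e₀ : ℝ) ≤ Real.exp (e0 * a.1.l) →
      (∃ β ∈ T3 Bf a.1.toBd r, t ∣ tS (a.1.e * ∏ j, β j)) →
      ∀ q ∈ QK a.1.toBd (R * Real.exp a.1.l),
        IsPrim (sS g e₀ t q) ∧ (nm (sS g e₀ t q) : ℝ) ≤ X ^ A₀) ∧
    (∀ j n m, b1 (π lam.1) h lam.2 ps n ≠ 0 → b2X (π lam.1) h lam.2 a.1 ps j m ≠ 0 →
      nm (n * m ^ 2) ≤ ⌊X ^ A₀⌋₊) ∧
    ((Y3 a.1.toBd r : ℕ) : ℝ) ^ Fintype.card (Fin 3) ≤ X ^ A₀ ∧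
    Real.exp (e0 * a.1.l) ≤ X ^ A₀ ∧
    (nm (π lam.1).n₃ : ℝ) ≤ X ^ A₀ ∧ (nm a.1.d₃ : ℝ) ≤ X ^ A₀ ∧ (nm a.1.e : ℝ) ≤ X ^ A₀ := by
  set B₁ : ℝ := max B 4 with hB₁
  have hB3 : 4 ≤ B₁ := le_max_right _ _
  have hBB : B ≤ B₁ := le_max_left _ _
  obtain ⟨A₁, X₁, hA₁, hX₁, H₁⟩ := sizes_fam hh hP e0 r N (B := B₁) (by linarith)
  obtain ⟨A₂, X₂, hA₂, hX₂, H₂⟩ := N2_list hh hP N (B := B₁) (by linarith)
  refine ⟨A₁ + A₂, max (max X₁ X₂) (max 1 R), by linarith,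
    lt_max_of_lt_left (lt_max_of_lt_left hX₁), ?_⟩
  intro X hX δ δ' hδ Bf a ps q hF ha haP
  have hXX₁ : X₁ ≤ X := (le_max_left _ _).trans ((le_max_left _ _).trans hX)
  have hXX₂ : X₂ ≤ X := (le_max_right _ _).trans ((le_max_left _ _).trans hX)
  have hXR : R ≤ X := (le_max_right _ _).trans ((le_max_right _ _).trans hX)
  have hX1 : 1 < X := hX₁.trans_le hXX₁
  have hX0 : 0 < X := by linarith
  have hFX := fr_of_frLX hA hδ hX1 hF ha haP hBB hB3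
  have hFr := hFX.fr
  have hexpl : Real.exp a.1.l ≤ X ^ (2 : ℝ) := by
    rw [Real.rpow_def_of_pos hX0, mul_comm]
    exact Real.exp_le_exp.2 hFX.l2
  have m1 : X ^ A₁ ≤ X ^ (A₁ + A₂) := Real.rpow_le_rpow_of_exponent_le hX1.le (by linarith)
  have m2 : X ^ A₂ ≤ X ^ (A₁ + A₂) := Real.rpow_le_rpow_of_exponent_le hX1.le (by linarith)
  obtain ⟨s1, s2, -, s4, s5, s6, s7, s8⟩ := H₁ X hXX₁ a.1.toBd ps a.2 hFr Bf Jf
    (okJ3 hJf a.1.toBd a.2) lam.2 (QK a.1.toBd (R * Real.exp a.1.l)) fun q hq => by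
      have h1 := mem_QK.mp hq
      have hqp : IsPrim q := (haP.2.2 q h1.1).1.1
      refine ⟨hqp, ?_⟩
      have h2 : (1 : ℝ) ≤ nm q := one_le_nm' hqp
      calc (nm q : ℝ) ≤ (nm q : ℝ) ^ 2 := by nlinarith
        _ ≤ R * Real.exp a.1.l := h1.2.2
        _ ≤ X ^ (1 : ℝ) * X ^ (2 : ℝ) := by
            rw [Real.rpow_one]
            have := Real.exp_pos a.1.l
            gcongr
        _ = X ^ (3 : ℝ) := by rw [← Real.rpow_add hX0]; norm_num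
        _ ≤ _ := Real.rpow_le_rpow_of_exponent_le hX1.le (by linarith)
  refine ⟨fun g e₀ t hg hgd he₀ ht he₀l hβ x hx =>
      (s1 g e₀ t hg hgd he₀ ht he₀l hβ x hx).trans (Nat.floor_le_floor m1),
    fun g e₀ t hg hgd he₀ ht he₀l hβ q hq =>
      ⟨(s2 g e₀ t hg hgd he₀ ht he₀l hβ q hq).1, (s2 g e₀ t hg hgd he₀ ht he₀l hβ q hq).2.trans m1⟩,
    fun j n m hn hm => ?_, s4.trans m1, s5.trans m1, s6.trans m1, s7.trans m1, s8.trans m1⟩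
  exact (H₂ X hXX₂ a.1.toBd ps a.2 hFr lam.2 (bsX a.1 ps j)
    ((len_bsX a.1 ps j).trans (Nat.add_le_add_right hFr.len 2)) (z_bsX hFX j) n m hn hm).trans
      (Nat.floor_le_floor m2)

/-- **the sizes of the consumer, class E** -/
theorem szUX {π : Λ → DPar} {h : ℝ → ℝ} {c : ℝ} (hh : PU h c) (hP : ∀ lam, (π lam).OK) {A : ℝ}
    (d β : ℝ) (hA : 2 / 3 ≤ A) (e0 r : ℝ) (Bf : ℕ → ℝ → ℝ → ℝ → ℝ)
    {Jf : ℝ → ℝ → ℝ → Finset (Eis × Eis)} (hJf : ∀ l N z, OKJ (Jf l N z)) :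
    SzUX π h A d β e0 r Bf Jf := by
  intro lam N B R hR
  set B₁ : ℝ := max B 4 with hB₁
  have hB3 : 4 ≤ B₁ := le_max_right _ _
  have hBB : B ≤ B₁ := le_max_left _ _
  obtain ⟨A₁, C₀, X₁, hA₁, hC₀, hX₁, H₁⟩ := dt_dat4X hh d β hA e0 r hJf lam (hP lam.1) N B 1 R hR
  obtain ⟨A₂, X₂, hA₂, hX₂, H₂⟩ := dt_sizesX hh d β hA e0 r hJf lam (hP lam.1) N B R
  obtain ⟨A₃, X₃, hA₃, hX₃, H₃⟩ := nrm_fam e0 r N (B := B₁) (by linarith)
  refine ⟨A₁ + A₂ + A₃, C₀, max X₁ (max X₂ X₃), by linarith, hC₀, lt_max_of_lt_left hX₁, ?_⟩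
  intro X hX a ps q δ δ' hδ _ hF ha _ haP
  have hXX₁ : X₁ ≤ X := (le_max_left _ _).trans hX
  have hXX₂ : X₂ ≤ X := (le_max_left _ _).trans ((le_max_right _ _).trans hX)
  have hXX₃ : X₃ ≤ X := (le_max_right _ _).trans ((le_max_right _ _).trans hX)
  have hX1 : 1 < X := hX₁.trans_le hXX₁
  have m1 : X ^ A₁ ≤ X ^ (A₁ + A₂ + A₃) :=
    Real.rpow_le_rpow_of_exponent_le hX1.le (by linarith)
  have m2 : X ^ A₂ ≤ X ^ (A₁ + A₂ + A₃) :=
    Real.rpow_le_rpow_of_exponent_le hX1.le (by linarith)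
  have m3 : X ^ A₃ ≤ X ^ (A₁ + A₂ + A₃) :=
    Real.rpow_le_rpow_of_exponent_le hX1.le (by linarith)
  obtain ⟨⟨k1, kY, -, -, -⟩, HD⟩ := H₁ X hXX₁ δ δ' 1 hδ le_rfl (Bf a.2) a ps q hF ha haP
  obtain ⟨s1, s2, s3, s4, s5, s6, s7, s8⟩ := H₂ X hXX₂ δ δ' hδ (Bf a.2) a ps q hF ha haP
  have hFX := fr_of_frLX hA hδ hX1 hF ha haP hBB hB3
  refine ⟨⟨k1, kY.trans m1, s5.trans m2, ?_, s6.trans m2, s7.trans m2, s8.trans m2, ?_, ?_, ?_⟩,
    fun x hx hne j h₁ h₂ => ?_⟩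
  · rw [Fintype.card_fin] at s4
    exact s4.trans m2
  · intro g e₀ t hg hgd he₀ ht he₀l hβ x hx
    exact (s1 g e₀ t hg hgd he₀ ht he₀l hβ x hx).trans (Nat.floor_le_floor m2)
  · intro j n m hn hm
    exact (s3 j n m hn hm).trans (Nat.floor_le_floor m2)
  · intro g e₀ t hg hgd he₀ ht he₀l hβ q hq
    exact (s2 g e₀ t hg hgd he₀ ht he₀l hβ q hq).2.trans m2
  · obtain ⟨g1, g2, g3, g4, -, -⟩ := HD x hx j h₁ h₂
    exact ⟨dat4_mono g1 m1, g2, g3, (g4 hne).trans m1,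
      (H₃ X hXX₃ (bl a) ps hFX.fr (π lam.1) (Bf a.2) 1 X x hx).trans m3⟩

end Crest.Agent.R017.E4Us512
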