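import Crest.Agent.R017.E4Xc_372

/-!
# Row 17, exceptional class, StrUX: linearity of the `x`-side (helper372)

* `vX_cmb` : `vX` of a combination of two sequences
* `vE_eq` : `vE` through the natural and the replaced shape
* `wE_zero`, `wE_cop`, `vE_cop` : the `y`-side of shape `0`; coprimality
-/

set_option autoImplicit false

noncomputable section

open Finset Complex
open scoped ComplexConjugate

namespace Crest.Agent.R017.E4Df372

open Crest.Agent.R012 Crest.Agent.R012.Eis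
open Crest.Agent.R012.Mob705 hiding pb mem_pb
open Crest.Agent.R012.LS2 (S mem_S)
open Crest.Agent.R017.Sx545 (Sm)
open Crest.Agent.R017.CM106 (CS FS)
open Crest.Agent.R017.C70 (OKJ)
open Crest.Agent.R017.GrB829
open Crest.Agent.R017.E2440 (TE)
open Crest.Agent.R017.E4352 (PrI rd Dat4)
open Crest.Agent.R017.E5k54 (alb)
open Crest.Agent.R017.E5P571 (Gd)
open Crest.Agent.R017.E5B71
open Crest.Agent.R017.B770 (DPar)
open Crest.Agent.R017.Prov71
open Crest.Agent.R017.ExP960 hiding alX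
open Crest.Agent.R017.E4D164 hiding E4L
open Crest.Agent.R017.E4K164 (dc dc_spec)
open Crest.Agent.R017.P1X960 (cmb TE_cmb)
open Crest.Agent.R017.E5L770
open Crest.Agent.R017.E4U164

open Classical in
/-- **`vX` of a combination** -/
theorem vX_cmb {M : Eis} {ψ : Eis → ℂ} {l : ℤ} {I : Finset (Eis × (Eis × Eis))}
    (hI : ∀ i ∈ I, i.2.1 ≠ 0) {om : Eis × Eis → ℂ} {ph : Eis → ℂ} {E : Eis} {a b : Eis → ℂ}
    (ha : FS a) (hb : FS b) (z w : ℂ) {g e₀ t c₀ g' : Eis} (o : OD M I g e₀ t) (x : Eis) :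
    vX M ψ l I om ph E (cmb z w a b) g e₀ t c₀ g' o x =
      conj z * vX M ψ l I om ph E a g e₀ t c₀ g' o x +
        conj w * vX M ψ l I om ph E b g e₀ t c₀ g' o x := by
  unfold vX vI pu
  split_ifs with hx
  · rw [Finset.mul_sum, Finset.mul_sum, ← Finset.sum_add_distrib]
    refine Finset.sum_congr rfl fun i hi => ?_
    have hi' : i ∈ I := by
      have h1 := (Finset.mem_filter.mp hi).1
      unfold II at h1
      exact (Finset.mem_filter.mp h1).1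
    unfold cI jC cE
    rw [TE_cmb ha hb z w (hI i hi')]
    simp only [map_mul, map_add]
    ring
  · simp

variable {Λ : Type*}

lemma mem_I_prim {Jf : ℝ → ℝ → ℝ → Finset (Eis × Eis)}
    (hJf : ∀ l N z, OKJ (Jf l N z)) (a : BdX × ℕ) (x : Dt) : ∀ i ∈ x.I Jf (bl a), i.2.1 ≠ 0 := by
  intro i hi
  exact ((okJ3 hJf (bl a).1 (bl a).2).prim _ (Dt.mem_I.mp hi).1.2).ne_zero

/-- the `x`-side of the natural shape: helper164's `x.v` -/
def vE0 (π : Λ → DPar) (h : ℝ → ℝ) (lam : Λ × Eis) (Jf : ℝ → ℝ → ℝ → Finset (Eis × Eis))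
    (a : BdX × ℕ) (x : Dt) (o : x.O π lam Jf (bl a)) : Eis → ℂ :=
  vX (π lam.1).n₃ (fun k => conj ((π lam.1).χ₃ k)) (π lam.1).l₃ (x.I Jf (bl a)) (omL a.2) x.ph
    (x.E a.1.toBd) (alb (f3 (π lam.1) h lam.2 a.1.toBd) x.β) x.g x.e₀ x.t x.c₀ x.g' o

/-- the `x`-side of the replaced shape -/
def vE1 (π : Λ → DPar) (h : ℝ → ℝ) (lam : Λ × Eis) (Jf : ℝ → ℝ → ℝ → Finset (Eis × Eis))
    (a : BdX × ℕ) (x : Dt) (o : x.O π lam Jf (bl a)) : Eis → ℂ :=
  vX (π lam.1).n₃ (fun k => conj ((π lam.1).χ₃ k)) (π lam.1).l₃ (x.I Jf (bl a)) (omL a.2) x.ph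
    (x.E a.1.toBd) (alb (f3' (π lam.1) h lam.2 a.1) x.β) x.g x.e₀ x.t x.c₀ x.g' o

lemma vE0_eq (π : Λ → DPar) (h : ℝ → ℝ) (lam : Λ × Eis) (Jf : ℝ → ℝ → ℝ → Finset (Eis × Eis))
    (a : BdX × ℕ) (x : Dt) : vE0 π h lam Jf a x = x.v π h lam Jf (bl a) := rfl

/-- **`vE` through the two shapes** -/
theorem vE_eq {π : Λ → DPar} {h : ℝ → ℝ} (hh : Bump h) {lam : Λ × Eis} (hP : (π lam.1).OK)
    {Jf : ℝ → ℝ → ℝ → Finset (Eis × Eis)} (hJf : ∀ l N z, OKJ (Jf l N z)) (a : BdX × ℕ) (x : Dt)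
    (hβ : ∀ i, IsPrim (x.β i)) (o : x.O π lam Jf (bl a)) (X : Eis) :
    vE π h lam Jf a x o X = conj (ExP960.ph a.1) * vE0 π h lam Jf a x o X -
      conj (ExP960.ph' a.1) * vE1 π h lam Jf a x o X := by
  have h1 := vX_cmb (M := (π lam.1).n₃) (ψ := fun k => conj ((π lam.1).χ₃ k))
    (l := (π lam.1).l₃) (mem_I_prim hJf a x) (om := omL a.2) (ph := x.ph) (E := x.E a.1.toBd)
    (fs_alb (t := lam.2) (a := a.1) hP hh hβ) (fs_alb' (t := lam.2) (a := a.1) hP hh hβ)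
    (ExP960.ph a.1) (-ExP960.ph' a.1) (g := x.g) (e₀ := x.e₀) (t := x.t) (c₀ := x.c₀)
    (g' := x.g') o X
  rw [map_neg, neg_mul, ← sub_eq_add_neg] at h1
  exact h1

/-- shape `0` of the `y`-side is helper164's `x.w` -/
lemma wE_zero (π : Λ → DPar) (h : ℝ → ℝ) (lam : Λ × Eis) (Jf : ℝ → ℝ → ℝ → Finset (Eis × Eis))
    (a : BdX × ℕ) (ps : List Pq) (x : Dt) (h₁ : FS (b1 (π lam.1) h lam.2 ps))
    (h₂ : FS (b2X (π lam.1) h lam.2 a.1 ps 0)) :
    wE π h lam Jf a ps x 0 h₁ h₂ = x.w π h lam Jf (bl a) ps h₁ h₂ := rfl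

end Crest.Agent.R017.E4Df372
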