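import Crest.Agent.R017.EnZ_743

/-!
# Row 17, block C70, leaf E4 (helper743): the class number of the energy of the x-side

* `lc_sqf`, `SF2`  : `S_q = lc (lc (q² g) e₀) t = q² F'`, `F'` squarefree, prime to `q`
* `pA`    : the local classes (164's `pS`);  `nm_q`, `nm_F`, `nm_e_le`
* `Cls.card_q` : the number of `q` over one `y`;  `Cls.sum_le` : weighted sums over one class
* `en_clw`, `en_cls` : the class form of `en_gen`
-/

set_option autoImplicit false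

noncomputable section

open Complex Finset
open scoped ComplexConjugate

namespace Crest.Agent.R017.EnX743

open Crest.Agent.R012 Crest.Agent.R012.Eis Crest.Agent.R012.GaussLoc283
open Crest.Agent.R012.Mob705 hiding pb mem_pb
open Crest.Agent.R012.Div277
open Crest.Agent.R017.Sx545 (Sm)
open Crest.Agent.R017.C70 (CbF JC OKJ)
open Crest.Agent.R017.End699 (HC)
open Crest.Agent.R017.GrB829 (IsC)
open Crest.Agent.R017.DgA829 (lc lc_prim lc_dvd lc_mul)
open Crest.Agent.R017.PX764 (n6 th Gh th_mul)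
open Crest.Agent.R017.E4K164 (dc dc_spec)
open Crest.Agent.R017.E5b54 (stj stj_spec stj_inj JC_cf JC_ne_zero)
open Crest.Agent.R017.E4v92

/-! ### the structure of `S_q` -/

/-- `lc t x = t y`, `y ∣ x` prime to `t` -/
lemma lc_sqf {t x : Eis} (ht : IsPrim t) (hx : IsPrim x) (hxs : Squarefree x) :
    ∃ y, IsPrim y ∧ Squarefree y ∧ IsCoprime t y ∧ y ∣ x ∧ lc t x = t * y := by
  obtain ⟨g0, t1, x1, hg0, hx1, e1, e2, hc⟩ := exists_gcd' t hx
  have h1 : IsCoprime g0 x1 := by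
    rw [e2] at hxs
    exact (squarefree_mul_iff.mp hxs).1.isCoprime
  have h2 : IsCoprime t x1 := by rw [e1]; exact h1.mul_left hc
  refine ⟨x1, hx1, hxs.squarefree_of_dvd ⟨g0, by rw [e2]; ring⟩, h2, ⟨g0, by rw [e2]; ring⟩, ?_⟩
  have h3 := lc_mul ht hg0 hx1 ⟨t1, e1⟩ h2
  rw [← h3, ← e2]

/-- `S = q² F'` -/
structure SF2 (q₀ F₀ S₀ : Eis) : Prop where
  q : IsPrim q₀
  qs : Squarefree q₀
  F : IsPrim F₀
  Fs : Squarefree F₀
  c : IsCoprime q₀ F₀
  S : S₀ = q₀ ^ 2 * F₀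

lemma SF2.prim {q F' S : Eis} (h : SF2 q F' S) : IsPrim S := by
  rw [h.S]; exact (h.q.pow 2).mul h.F

/-- 164's `S_q` -/
lemma exists_SF2 {q g e₀ t : Eis} (hq : IsPrim q) (hqs : Squarefree q) (hg : IsPrim g)
    (hgs : Squarefree g) (hqg : IsCoprime q g) (he : IsPrim e₀) (hes : Squarefree e₀)
    (ht : IsPrim t) (hts : Squarefree t) :
    ∃ F', SF2 q F' (lc (lc (q ^ 2 * g) e₀) t) := by
  have h1 : IsPrim (q ^ 2 * g) := (hq.pow 2).mul hg
  obtain ⟨y, hy, hys, hyc, -, e1⟩ := lc_sqf h1 he hes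
  have h2 : IsPrim (q ^ 2 * g * y) := h1.mul hy
  obtain ⟨z, hz, hzs, hzc, -, e2⟩ := lc_sqf h2 ht hts
  rw [e1, e2]
  have hqy : IsCoprime q y := (IsCoprime.pow_left_iff (by norm_num)).mp hyc.of_mul_left_left
  have hgy : IsCoprime g y := hyc.of_mul_left_right
  have hqz : IsCoprime q z :=
    (IsCoprime.pow_left_iff (by norm_num)).mp hzc.of_mul_left_left.of_mul_left_left
  have hgz : IsCoprime g z := hzc.of_mul_left_left.of_mul_left_right
  have hyz : IsCoprime y z := hzc.of_mul_left_right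
  refine ⟨g * y * z, hq, hqs, (hg.mul hy).mul hz, ?_, (hqg.mul_right hqy).mul_right hqz, by ring⟩
  exact squarefree_mul_iff.mpr ⟨(hgz.mul_left hyz).isRelPrime,
    squarefree_mul_iff.mpr ⟨hgy.isRelPrime, hgs, hys⟩, hzs⟩

section loc

variable {q F' S j : Eis}

lemma mult_q (h : SF2 q F' S) {p : Eis} (hp : Prime p) (hpq : p ∣ q) : multiplicity p S = 2 := by
  refine multiplicity_eq_of_dvd_of_not_dvd ?_ ?_
  · rw [h.S]; exact (pow_dvd_pow_of_dvd hpq 2).mul_right _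
  · intro h3
    obtain ⟨q₁, hq₁⟩ := hpq
    have h8 : ¬ p ∣ q₁ := by
      rintro ⟨x, rfl⟩
      exact hp.not_isUnit (h.qs p ⟨x, by rw [hq₁]; ring⟩)
    have h9 : ¬ p ∣ F' := fun h' => hp.not_isUnit (h.c.isUnit_of_dvd' ⟨q₁, hq₁⟩ h')
    have h10 : p ^ 2 * p ∣ p ^ 2 * (q₁ ^ 2 * F') := by
      have e1 : p ^ 2 * p = p ^ (2 + 1) := by ring
      have e2 : p ^ 2 * (q₁ ^ 2 * F') = S := by rw [h.S, hq₁]; ring
      rw [e1, e2]; exact h3
    have h11 := (mul_dvd_mul_iff_left (pow_ne_zero 2 hp.ne_zero)).mp h10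
    rcases hp.dvd_or_dvd h11 with h' | h'
    · exact h8 (hp.dvd_of_dvd_pow h')
    · exact h9 h'

lemma mult_F (h : SF2 q F' S) {p : Eis} (hp : Prime p) (hpF : p ∣ F') :
    multiplicity p S = 1 := by
  refine multiplicity_eq_of_dvd_of_not_dvd ?_ ?_
  · rw [h.S, pow_one]; exact hpF.mul_left _
  · intro h3
    have h4 : IsCoprime p q := by
      rw [hp.irreducible.coprime_iff_not_dvd]
      exact fun h' => hp.not_isUnit (h.c.isUnit_of_dvd' h' hpF)
    have h5 : p ^ (1 + 1) ∣ q ^ 2 * F' := by rw [← h.S]; exact h3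
    have h6 : p ^ (1 + 1) ∣ F' := (IsCoprime.pow h4).dvd_of_dvd_mul_left h5
    have h7 : p * p ∣ F' := by rw [← pow_two]; exact h6
    exact hp.not_isUnit (h.Fs p h7)

open Classical in
/-- the local class -/
def pA (a b : ℕ) (s j : Eis) : Finset Eis :=
  (pp s).filter (fun p => multiplicity p s = a + 1 ∧ multiplicity p j = b)

lemma mem_pA {a b : ℕ} {s p : Eis} (h : p ∈ pA a b s j) :
    IsPP p ∧ p ∣ s ∧ multiplicity p s = a + 1 ∧ multiplicity p j = b := by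
  classical
  unfold pA at h
  obtain ⟨h1, h2, h3⟩ := mem_filter.mp h
  exact ⟨isPP_of_mem_pp h1, dvd_of_mem_pp h1, h2, h3⟩

/-- `v_p(j) ≤ 2` -/
lemma mult_j (hj : JC j) {p : Eis} (hp : Prime p) : multiplicity p j < 3 := by
  by_contra h
  push Not at h
  exact (JC_cf hj).2 p hp (pow_dvd_of_le_multiplicity h)

open Classical in
lemma prod_split (T : Finset Eis) (hj : JC j) (hT : ∀ p ∈ T, Prime p) :
    nm (∏ p ∈ T, p) = nm (∏ p ∈ T.filter (fun p => multiplicity p j = 0), p) *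
      nm (∏ p ∈ T.filter (fun p => multiplicity p j = 1), p) *
      nm (∏ p ∈ T.filter (fun p => multiplicity p j = 2), p) := by
  simp only [Mob705.nm_prod]
  rw [← prod_filter_mul_prod_filter_not T (fun p => multiplicity p j = 0), mul_assoc]
  congr 1
  rw [← prod_filter_mul_prod_filter_not (T.filter (fun p => ¬ multiplicity p j = 0))
    (fun p => multiplicity p j = 1)]
  rw [filter_filter, filter_filter]
  congr 1
  · refine prod_congr (filter_congr fun p _ => ?_) fun _ _ => rfl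
    omega
  · refine prod_congr (filter_congr fun p hp => ?_) fun _ _ => rfl
    have := mult_j hj (hT p hp)
    omega

open Classical in
lemma pA_q (h : SF2 q F' S) (b : ℕ) :
    pA 1 b S j = (pp q).filter (fun p => multiplicity p j = b) := by
  unfold pA
  ext p
  rw [mem_filter, mem_filter, mem_pp h.prim.ne_zero, mem_pp h.q.ne_zero]
  constructor
  · rintro ⟨⟨h1, h2⟩, h3, h4⟩
    refine ⟨⟨h1, ?_⟩, h4⟩
    rw [h.S] at h2
    rcases h1.2.dvd_or_dvd h2 with h5 | h5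
    · exact h1.2.dvd_of_dvd_pow h5
    · have h6 := mult_F h h1.2 h5
      omega
  · rintro ⟨⟨h1, h2⟩, h4⟩
    refine ⟨⟨h1, ?_⟩, mult_q h h1.2 h2, h4⟩
    rw [h.S]
    exact (h2.trans (dvd_pow_self q (by norm_num))).mul_right _

open Classical in
lemma pA_F (h : SF2 q F' S) (b : ℕ) :
    pA 0 b S j = (pp F').filter (fun p => multiplicity p j = b) := by
  unfold pA
  ext p
  rw [mem_filter, mem_filter, mem_pp h.prim.ne_zero, mem_pp h.F.ne_zero]
  constructor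
  · rintro ⟨⟨h1, h2⟩, h3, h4⟩
    refine ⟨⟨h1, ?_⟩, h4⟩
    rw [h.S] at h2
    rcases h1.2.dvd_or_dvd h2 with h5 | h5
    · have h6 := mult_q h h1.2 (h1.2.dvd_of_dvd_pow h5)
      omega
    · exact h5
  · rintro ⟨⟨h1, h2⟩, h4⟩
    refine ⟨⟨h1, ?_⟩, mult_F h h1.2 h2, h4⟩
    rw [h.S]
    exact h2.mul_left _

/-- the part of the class -/
def pP (a b : ℕ) (s j : Eis) : Eis := ∏ p ∈ pA a b s j, p

lemma nm_q (h : SF2 q F' S) (hj : JC j) :
    nm q = nm (pP 1 0 S j) * nm (pP 1 1 S j) * nm (pP 1 2 S j) := by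
  classical
  unfold pP
  rw [pA_q h, pA_q h, pA_q h]
  conv_lhs => rw [← prod_pp h.q h.qs]
  exact prod_split _ hj fun p hp => (isPP_of_mem_pp hp).2

lemma nm_F (h : SF2 q F' S) (hj : JC j) :
    nm F' = nm (pP 0 0 S j) * nm (pP 0 1 S j) * nm (pP 0 2 S j) := by
  classical
  unfold pP
  rw [pA_F h, pA_F h, pA_F h]
  conv_lhs => rw [← prod_pp h.F h.Fs]
  exact prod_split _ hj fun p hp => (isPP_of_mem_pp hp).2

lemma pA_pp {a b : ℕ} {s : Eis} : PPSet (pA a b s j) := by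
  classical
  unfold pA
  exact fun p hp => isPP_of_mem_pp (mem_filter.mp hp).1

lemma pP_prim {a b : ℕ} {s : Eis} : IsPrim (pP a b s j) := pA_pp.isPrim_prod

lemma dvd_pP_sub {T : Finset Eis} {a n : Eis} (hn : IsPrim n) (hns : Squarefree n)
    (hT : T ⊆ pp n) (hT' : a = ∏ p ∈ T, p) : a ∣ n := by
  rw [hT', ← prod_pp hn hns]
  exact prod_dvd_prod_of_subset _ _ _ hT

/-- **the cube part of the star in its class** -/
lemma nm_e_le (h : SF2 q F' S) (hj : JC j) :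
    nm (eS S j) ≤ nm (pP 0 2 S j) * (nm (pP 1 1 S j) * nm (pP 1 2 S j)) := by
  classical
  obtain ⟨c, x, hc, hx, e1, e2, e3, e4, e5⟩ := eS_split h.q h.qs h.F h.Fs h.c h.S hj
  -- `c`
  have hc10 : IsCoprime (pP 1 0 S j) c := by
    refine isCoprime_of_prime_dvd (fun h' => hc.ne_zero h'.2) fun p hp h1 h2 => ?_
    unfold pP at h1
    obtain ⟨p', hp', h3⟩ := (hp.dvd_finsetProd_iff _).mp h1
    obtain ⟨h4, -, -, h5⟩ := mem_pA hp'
    rw [multiplicity_eq_zero] at h5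
    have h6 : p' ∣ p := (hp.associated_of_dvd h4.2 h3).symm.dvd
    exact h5 (h6.trans (h2.trans e3))
  have hc1 : pP 1 0 S j * c ∣ q := by
    refine hc10.mul_dvd ?_ e2
    exact dvd_pP_sub h.q h.qs (T := pA 1 0 S j) (by rw [pA_q h]; exact filter_subset _ _) rfl
  have hc2 : nm c ≤ nm (pP 1 1 S j) * nm (pP 1 2 S j) := by
    have h1 := nm_le_of_dvd h.q.ne_zero hc1
    rw [nm_mul, nm_q h hj, mul_assoc] at h1
    exact Nat.le_of_mul_le_mul_left h1 (nm_pos.mpr pP_prim.ne_zero)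
  -- `x`
  have key : ∀ b : ℕ, b < 2 → IsCoprime (pP 0 b S j) x := by
    intro b hb
    refine isCoprime_of_prime_dvd (fun h' => hx.ne_zero h'.2) fun p hp h1 h2 => ?_
    unfold pP at h1
    obtain ⟨p', hp', h3⟩ := (hp.dvd_finsetProd_iff _).mp h1
    obtain ⟨h4, -, -, h5⟩ := mem_pA hp'
    have h6 : p' ∣ p := (hp.associated_of_dvd h4.2 h3).symm.dvd
    have h7 : p' ^ 2 ∣ j := (pow_dvd_pow_of_dvd (h6.trans h2) 2).trans e5
    have h8 : FiniteMultiplicity p' j :=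
      FiniteMultiplicity.of_not_isUnit h4.2.not_isUnit (JC_ne_zero hj)
    have h9 := h8.pow_dvd_iff_le_multiplicity.mp h7
    omega
  have h01 : IsCoprime (pP 0 0 S j) (pP 0 1 S j) := by
    refine isCoprime_of_prime_dvd (fun h' => pP_prim.ne_zero h'.2) fun p hp h1 h2 => ?_
    unfold pP at h1 h2
    obtain ⟨p', hp', h3⟩ := (hp.dvd_finsetProd_iff _).mp h1
    obtain ⟨p'', hp'', h3'⟩ := (hp.dvd_finsetProd_iff _).mp h2
    obtain ⟨h4, -, -, h5⟩ := mem_pA hp'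
    obtain ⟨h4', -, -, h5'⟩ := mem_pA hp''
    have h6 : p' = p'' := by
      refine h4.1.eq_of_associated h4'.1 ?_
      exact (hp.associated_of_dvd h4.2 h3).symm.trans (hp.associated_of_dvd h4'.2 h3')
    rw [h6] at h5
    omega
  have hx1 : pP 0 0 S j * pP 0 1 S j * x ∣ F' := by
    refine ((key 0 (by norm_num)).mul_left (key 1 (by norm_num))).mul_dvd (h01.mul_dvd ?_ ?_) e4
    · exact dvd_pP_sub h.F h.Fs (T := pA 0 0 S j) (by rw [pA_F h]; exact filter_subset _ _) rfl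
    · exact dvd_pP_sub h.F h.Fs (T := pA 0 1 S j) (by rw [pA_F h]; exact filter_subset _ _) rfl
  have hx2 : nm x ≤ nm (pP 0 2 S j) := by
    have h1 := nm_le_of_dvd h.F.ne_zero hx1
    rw [nm_mul, nm_mul, nm_F h hj] at h1
    exact Nat.le_of_mul_le_mul_left h1 (Nat.mul_pos (nm_pos.mpr pP_prim.ne_zero)
      (nm_pos.mpr pP_prim.ne_zero))
  rw [e1, nm_mul, mul_comm]
  exact Nat.mul_le_mul hx2 hc2

/-- `q = (part prime to j) * (divisor of j)` -/
lemma q_split (h : SF2 q F' S) (hj : JC j) :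
    ∃ c, IsPrim c ∧ c ∣ j ∧ q = pP 1 0 S j * c := by
  classical
  have h1 : pP 1 0 S j ∣ q :=
    dvd_pP_sub h.q h.qs (T := pA 1 0 S j) (by rw [pA_q h]; exact filter_subset _ _) rfl
  obtain ⟨c, hc⟩ := h1
  have hcp : IsPrim c := IsPrim.of_mul_left (hc ▸ h.q) pP_prim
  refine ⟨c, hcp, ?_, hc⟩
  have hcs : Squarefree c := h.qs.squarefree_of_dvd ⟨pP 1 0 S j, by rw [hc]; ring⟩
  have hcc : IsCoprime (pP 1 0 S j) c := by
    have h2 := h.qs
    rw [hc] at h2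
    exact (squarefree_mul_iff.mp h2).1.isCoprime
  rw [← prod_pp hcp hcs]
  refine Finset.prod_dvd_of_coprime (fun p hp p' hp' hne => ?_) fun p hp => ?_
  · have h3 := isPP_of_mem_pp hp
    have h4 := isPP_of_mem_pp hp'
    have h5 : IsCoprime p p' := by
      rw [h3.2.irreducible.coprime_iff_not_dvd]
      intro h6
      exact hne (h3.1.eq_of_associated h4.1 (h3.2.associated_of_dvd h4.2 h6))
    exact h5
  · have h3 := isPP_of_mem_pp hp
    have h4 := dvd_of_mem_pp hp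
    by_contra h5
    have h6 : p ∈ pA 1 0 S j := by
      rw [pA_q h, mem_filter, mem_pp h.q.ne_zero]
      refine ⟨⟨h3, h4.trans ⟨pP 1 0 S j, by rw [hc]; ring⟩⟩, ?_⟩
      rw [multiplicity_eq_zero]
      exact h5
    have h7 : p ∣ pP 1 0 S j := dvd_prod_of_mem _ h6
    exact h3.2.not_isUnit (hcc.isUnit_of_dvd' h7 h4)

/-- `S` determines `q` -/
lemma q_unique {q₁ F₁ : Eis} (h : SF2 q F' S) (h' : SF2 q₁ F₁ S) : q = q₁ := by
  have h1 : pp q = pp q₁ := by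
    ext p
    rw [mem_pp h.q.ne_zero, mem_pp h'.q.ne_zero]
    refine and_congr_right fun hp => ⟨fun h2 => ?_, fun h2 => ?_⟩
    · have h3 := mult_q h hp.2 h2
      have h4 : p ∣ S := by
        rw [h.S]; exact (h2.trans (dvd_pow_self q (by norm_num))).mul_right _
      rw [h'.S] at h4
      rcases hp.2.dvd_or_dvd h4 with h5 | h5
      · exact hp.2.dvd_of_dvd_pow h5
      · have := mult_F h' hp.2 h5
        omega
    · have h3 := mult_q h' hp.2 h2
      have h4 : p ∣ S := by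
        rw [h'.S]; exact (h2.trans (dvd_pow_self q₁ (by norm_num))).mul_right _
      rw [h.S] at h4
      rcases hp.2.dvd_or_dvd h4 with h5 | h5
      · exact hp.2.dvd_of_dvd_pow h5
      · have := mult_F h hp.2 h5
        omega
  rw [← prod_pp h.q h.qs, ← prod_pp h'.q h'.qs, h1]

end loc

/-! ### the class form -/

section cls

variable {M c₀ g : Eis} {J : Finset (Eis × Eis)} {I : Finset (Eis × (Eis × Eis))}
  {sE : Eis → Eis} {m : ℕ → ℕ → ℕ}

/-- an index set of one class -/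
structure Cls (J : Finset (Eis × Eis)) (I : Finset (Eis × (Eis × Eis))) (sE : Eis → Eis)
    (m : ℕ → ℕ → ℕ) : Prop where
  J : ∀ i ∈ I, i.2 ∈ J
  sf : ∀ i ∈ I, ∃ F', SF2 i.1 F' (sE i.1)
  lo : ∀ i ∈ I, ∀ a < 2, ∀ b < 3, 2 ^ m a b ≤ nm (pP a b (sE i.1) i.2.2)
  hi : ∀ i ∈ I, ∀ a < 2, ∀ b < 3, nm (pP a b (sE i.1) i.2.2) < 2 ^ (m a b + 1)

/-- `log₂ nm S` -/
def nSm (m : ℕ → ℕ → ℕ) : ℕ := m 0 0 + m 0 1 + m 0 2 + 2 * (m 1 0 + m 1 1 + m 1 2)

/-- `log₂ nm e` -/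
def nEm (m : ℕ → ℕ → ℕ) : ℕ := m 0 2 + m 1 1 + m 1 2

lemma Cls.nm_S (h : Cls J I sE m) (hJ : OKJ J) {i : Eis × (Eis × Eis)} (hi : i ∈ I) :
    2 ^ nSm m ≤ nm (sE i.1) := by
  obtain ⟨F', h1⟩ := h.sf i hi
  have hj := hJ.jc _ (h.J i hi)
  have l := h.lo i hi
  have e : nm (sE i.1) = nm i.1 ^ 2 * nm F' := by rw [h1.S, nm_mul, nm_pow]
  rw [e, nm_q h1 hj, nm_F h1 hj]
  have e2 : 2 ^ nSm m = (2 ^ m 1 0 * 2 ^ m 1 1 * 2 ^ m 1 2) ^ 2 *
      (2 ^ m 0 0 * 2 ^ m 0 1 * 2 ^ m 0 2) := by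
    unfold nSm
    ring
  rw [e2]
  have a0 := l 0 (by norm_num) 0 (by norm_num)
  have a1 := l 0 (by norm_num) 1 (by norm_num)
  have a2 := l 0 (by norm_num) 2 (by norm_num)
  have b0 := l 1 (by norm_num) 0 (by norm_num)
  have b1 := l 1 (by norm_num) 1 (by norm_num)
  have b2 := l 1 (by norm_num) 2 (by norm_num)
  exact Nat.mul_le_mul (Nat.pow_le_pow_left (Nat.mul_le_mul (Nat.mul_le_mul b0 b1) b2) 2)
    (Nat.mul_le_mul (Nat.mul_le_mul a0 a1) a2)

lemma Cls.nm_e (h : Cls J I sE m) (hJ : OKJ J) {i : Eis × (Eis × Eis)} (hi : i ∈ I) :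
    nm (eS (sE i.1) i.2.2) ≤ 8 * 2 ^ nEm m := by
  obtain ⟨F', h1⟩ := h.sf i hi
  have hj := hJ.jc _ (h.J i hi)
  refine (nm_e_le h1 hj).trans ?_
  have u := h.hi i hi
  have a2 := (u 0 (by norm_num) 2 (by norm_num)).le
  have b1 := (u 1 (by norm_num) 1 (by norm_num)).le
  have b2 := (u 1 (by norm_num) 2 (by norm_num)).le
  have e2 : 8 * 2 ^ nEm m = 2 ^ (m 0 2 + 1) * (2 ^ (m 1 1 + 1) * 2 ^ (m 1 2 + 1)) := by
    unfold nEm
    ring
  rw [e2]
  exact Nat.mul_le_mul a2 (Nat.mul_le_mul b1 b2)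

open Classical in
/-- **the number of `q` over one `y`** -/
lemma Cls.card_q (h : Cls J I sE m) (hJ : OKJ J) {y : Eis × Eis} (hy : y ∈ J) :
    ((I.filter (fun i => i.2 = y)).card : ℝ) ≤ 200 * 2 ^ m 1 0 * tau y.2 := by
  have hj := hJ.jc _ hy
  set T := (primBall (2 ^ (m 1 0 + 1))) ×ˢ dvs y.2 with hT
  have h1 : (I.filter (fun i => i.2 = y)).card ≤ T.card := by
    have hex : ∀ i ∈ I.filter (fun i => i.2 = y), ∃ c, IsPrim c ∧ c ∣ y.2 ∧
        i.1 = pP 1 0 (sE i.1) y.2 * c := by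
      intro i hi
      obtain ⟨hi1, hi2⟩ := mem_filter.mp hi
      obtain ⟨F', k1⟩ := h.sf i hi1
      rw [← hi2] at hj ⊢
      exact q_split k1 hj
    choose! cf hcf using hex
    refine card_le_card_of_injOn (fun i => (pP 1 0 (sE i.1) y.2, cf i)) (fun i hi => ?_)
      (fun i hi i' hi' e => ?_)
    · rw [mem_coe] at hi
      obtain ⟨hi1, hi2⟩ := mem_filter.mp hi
      obtain ⟨k1, k2, k3⟩ := hcf i hi
      rw [hT, mem_coe, mem_product]
      refine ⟨mem_primBall.mpr ⟨?_, pP_prim⟩, (mem_dvs (JC_ne_zero hj)).mpr ⟨k1, k2⟩⟩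
      have := (h.hi i hi1 1 (by norm_num) 0 (by norm_num)).le
      rw [hi2] at this
      exact this
    · rw [mem_coe] at hi hi'
      obtain ⟨-, -, k3⟩ := hcf i hi
      obtain ⟨-, -, k3'⟩ := hcf i' hi'
      have e1 := (Prod.mk.inj e).1
      have e2 := (Prod.mk.inj e).2
      have e3 : i.1 = i'.1 := by rw [k3, k3', e1, e2]
      exact Prod.ext e3 ((mem_filter.mp hi).2.trans (mem_filter.mp hi').2.symm)
  have h2 : (T.card : ℝ) ≤ 100 * (2 ^ (m 1 0 + 1) : ℕ) * tau y.2 := by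
    rw [hT, card_product, Nat.cast_mul]
    have h3 := Lat277.card_primBall_le (2 ^ (m 1 0 + 1))
    unfold tau
    exact mul_le_mul_of_nonneg_right h3 (Nat.cast_nonneg _)
  calc ((I.filter (fun i => i.2 = y)).card : ℝ) ≤ (T.card : ℝ) := by exact_mod_cast h1
    _ ≤ 100 * (2 ^ (m 1 0 + 1) : ℕ) * tau y.2 := h2
    _ = _ := by push_cast; ring

/-- **weighted sums over one class** -/
theorem Cls.sum_le (h : Cls J I sE m) (hJ : OKJ J) {I' : Finset (Eis × (Eis × Eis))}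
    (hI' : I' ⊆ I) {w : Eis × Eis → ℝ} {Om : ℝ} (hOm0 : 0 ≤ Om)
    (hw : ∀ i ∈ I', 0 ≤ w (oI sE i))
    (hOm : ∀ i ∈ I', w (oI sE i) * ((nm (sE i.1) : ℝ) * nm (nuS (sE i.1) i.2.2)) ^ 2 ≤ Om)
    {J' : Finset (Eis × Eis)} (hJ' : ∀ i ∈ I', i.2 ∈ J') (hJJ : J' ⊆ J)
    {G : Eis × Eis → ℝ} (hG : ∀ y ∈ J, 0 ≤ G y) :
    ∑ i ∈ I', w (oI sE i) * (wI sE i * G i.2) ≤
      1600 * (Om * 2 ^ (nEm m + m 1 0) / 2 ^ nSm m) *
        ∑ y ∈ J', (tau y.2 : ℝ) * ((nm y.2 : ℝ) ^ (-(1 : ℝ) / 3) * G y) := by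
  classical
  set A : ℝ := Om * (8 * 2 ^ nEm m) / 2 ^ nSm m with hA
  have hA0 : 0 ≤ A := by positivity
  set H : Eis × Eis → ℝ := fun y => (nm y.2 : ℝ) ^ (-(1 : ℝ) / 3) * G y with hH
  have hH0 : ∀ y ∈ J, 0 ≤ H y := fun y hy =>
    mul_nonneg (Real.rpow_nonneg (Nat.cast_nonneg _) _) (hG y hy)
  have h2 : ∀ i ∈ I', w (oI sE i) * (wI sE i * G i.2) ≤ A * H i.2 := by
    intro i hi
    have hi1 := hI' hi
    have h8 := hOm i hi
    have hw0 := hw i hi
    obtain ⟨F', hF⟩ := h.sf i hi1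
    have hSp : IsPrim (sE i.1) := hF.prim
    have h4 : (2 : ℝ) ^ nSm m ≤ nm (sE i.1) := by exact_mod_cast h.nm_S hJ hi1
    have h5 : (nm (eS (sE i.1) i.2.2) : ℝ) ≤ 8 * 2 ^ nEm m := by exact_mod_cast h.nm_e hJ hi1
    have h6 := nm_pos' hSp.ne_zero
    have h7 : (0 : ℝ) < 2 ^ nSm m := by positivity
    have h10 : w (oI sE i) * ((nm (sE i.1) : ℝ) * (nm (nuS (sE i.1) i.2.2) : ℝ) ^ 2 *
        nm (eS (sE i.1) i.2.2)) ≤ A := by
      set s := (nm (sE i.1) : ℝ)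
      set v := (nm (nuS (sE i.1) i.2.2) : ℝ)
      set e := (nm (eS (sE i.1) i.2.2) : ℝ)
      set u := w (oI sE i)
      have he : 0 ≤ e := Nat.cast_nonneg _
      calc u * (s * v ^ 2 * e) = (u * (s * v) ^ 2) * e / s := by
            field_simp
        _ ≤ Om * (8 * 2 ^ nEm m) / s := by
            gcongr
        _ ≤ A := by
            rw [hA]
            exact div_le_div_of_nonneg_left (by positivity) h7 h4
    have h11 := hH0 _ (h.J i hi1)
    calc w (oI sE i) * (wI sE i * G i.2) =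
          (w (oI sE i) * ((nm (sE i.1) : ℝ) * (nm (nuS (sE i.1) i.2.2) : ℝ) ^ 2 *
            nm (eS (sE i.1) i.2.2))) * H i.2 := by
            unfold wI
            rw [hH]
            ring
      _ ≤ _ := mul_le_mul_of_nonneg_right h10 h11
  refine (sum_le_sum h2).trans ?_
  have h4 : ∑ i ∈ I', A * H i.2 =
      ∑ y ∈ J', ((I'.filter (fun i => i.2 = y)).card : ℝ) * (A * H y) := by
    rw [← sum_fiberwise_of_maps_to (s := I') (t := J') (g := fun i => i.2) hJ']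
    refine sum_congr rfl fun y hy => ?_
    rw [sum_congr rfl (fun i hi => by rw [(mem_filter.mp hi).2]), sum_const, nsmul_eq_mul]
  rw [h4]
  have h5 : ∑ y ∈ J', ((I'.filter (fun i => i.2 = y)).card : ℝ) * (A * H y) ≤
      ∑ y ∈ J', (200 * 2 ^ m 1 0 * A) * ((tau y.2 : ℝ) * H y) := by
    refine sum_le_sum fun y hy => ?_
    have h6 := h.card_q hJ (hJJ hy)
    have h7 : ((I'.filter (fun i => i.2 = y)).card : ℝ) ≤
        ((I.filter (fun i => i.2 = y)).card : ℝ) := by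
      exact_mod_cast card_le_card (filter_subset_filter _ hI')
    calc ((I'.filter (fun i => i.2 = y)).card : ℝ) * (A * H y) ≤
          (200 * 2 ^ m 1 0 * tau y.2) * (A * H y) :=
          mul_le_mul_of_nonneg_right (h7.trans h6) (mul_nonneg hA0 (hH0 y (hJJ hy)))
      _ = _ := by ring
  refine h5.trans (le_of_eq ?_)
  rw [← mul_sum, hA, pow_add]
  ring

open Classical in
/-- **the class form of the energy**, weight `w` on the outer index -/
theorem en_clw {ψ : Eis → ℂ} (hψ : HC M ψ) (l : ℤ) {f : Eis} (hf : IsPrim f) (hJ : OKJ J)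
    (h : Cls J I sE m) {ε : Eis → ℂ} (hε : ∀ q, ‖ε q‖ ≤ 1) {om : Eis × Eis → ℂ} {α : Eis → ℂ}
    {e₀ : Eis} (hg : g ≠ 0) {O : Finset (Eis × Eis)} {w : Eis × Eis → ℝ} {Om : ℝ}
    (hOm0 : 0 ≤ Om) (hw : ∀ o ∈ O, 0 ≤ w o)
    (hOm : ∀ o ∈ O, w o * (nm (o.1 * o.2) : ℝ) ^ 2 ≤ Om) {P : Eis × Eis → Finset Eis} {δ : Eis}
    (hδ : Squarefree δ) (hP : ∀ o ∈ O, ∀ X ∈ P o, δ ^ 2 ∣ X) :
    ∑ o ∈ O, w o * ∑ X ∈ P o, ‖E4D164.vI M ψ l f I (E4D164.jS sE) E4D164.jD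
        (E4D164.jJ sE) (E4D164.jC sE (E4D164.cE ε om α e₀)) c₀ g o X‖ ^ 2 ≤
      1600 * (Om * 2 ^ (nEm m + m 1 0) / 2 ^ nSm m) *
        TSd J om α e₀ δ (fun y => (tau y.2 : ℝ)) := by
  have hI : ∀ i ∈ I, i.2 ∈ J ∧ IsPrim (sE i.1) := fun i hi =>
    ⟨h.J i hi, (h.sf i hi).choose_spec.prim⟩
  have hFb : ∀ S, (((I.image Prod.fst).filter (fun b => sE b = S)).card : ℝ) ≤ 1 := by
    intro S
    have h1 : ((I.image Prod.fst).filter (fun b => sE b = S)).card ≤ 1 := by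
      rw [card_le_one]
      intro b hb b' hb'
      obtain ⟨h1, h2⟩ := mem_filter.mp hb
      obtain ⟨h1', h2'⟩ := mem_filter.mp hb'
      obtain ⟨i, hi, rfl⟩ := mem_image.mp h1
      obtain ⟨i', hi', rfl⟩ := mem_image.mp h1'
      obtain ⟨F, k⟩ := h.sf i hi
      obtain ⟨F₁, k₁⟩ := h.sf i' hi'
      rw [h2] at k
      rw [h2'] at k₁
      exact q_unique k k₁
    exact_mod_cast h1
  have h1 := en_gen (M := M) (c₀ := c₀) (g := g) hψ l hf hJ hI (Fb := 1)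
    (fun S => by convert hFb S) (ε := ε)
    (fun i _ => hε i.1) (om := om) (α := α) (e₀ := e₀) hg (O := O) (w := w)
    hw (P := P) hδ hP
  rw [one_mul] at h1
  refine h1.trans ?_
  unfold TSd
  refine h.sum_le hJ (filter_subset _ _) hOm0 (fun i hi => ?_) (fun i hi => ?_)
    (fun i hi => ?_) (filter_subset _ _)
    (G := fun y => ‖om y‖ ^ 2 * ‖E2440.TE α y e₀‖ ^ 2) (fun y _ => by positivity)
  · exact hw _ (mem_filter.mp hi).2.2.1
  · have h3 := hOm _ (mem_filter.mp hi).2.2.1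
    have h9 : (nm ((oI sE i).1 * (oI sE i).2) : ℝ) =
        (nm (sE i.1) : ℝ) * nm (nuS (sE i.1) i.2.2) := by
      unfold oI
      rw [nm_mul]
      push_cast
      ring
    rw [h9] at h3
    exact h3
  · obtain ⟨h3, h4, -⟩ := mem_filter.mp hi
    exact mem_filter.mpr ⟨h.J i h3, h4⟩

open Classical in
/-- **the class form of the energy** -/
theorem en_cls {ψ : Eis → ℂ} (hψ : HC M ψ) (l : ℤ) {f : Eis} (hf : IsPrim f) (hJ : OKJ J)
    (h : Cls J I sE m) {ε : Eis → ℂ} (hε : ∀ q, ‖ε q‖ ≤ 1) {om : Eis × Eis → ℂ} {α : Eis → ℂ}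
    {e₀ : Eis} (hg : g ≠ 0) {O : Finset (Eis × Eis)} {Lam : ℝ}
    (hLam : ∀ o ∈ O, (nm (o.1 * o.2) : ℝ) ≤ Lam) {P : Eis × Eis → Finset Eis} {δ : Eis}
    (hδ : Squarefree δ) (hP : ∀ o ∈ O, ∀ X ∈ P o, δ ^ 2 ∣ X) :
    ∑ o ∈ O, ∑ X ∈ P o, ‖E4D164.vI M ψ l f I (E4D164.jS sE) E4D164.jD
        (E4D164.jJ sE) (E4D164.jC sE (E4D164.cE ε om α e₀)) c₀ g o X‖ ^ 2 ≤
      1600 * (Lam ^ 2 * 2 ^ (nEm m + m 1 0) / 2 ^ nSm m) *
        TSd J om α e₀ δ (fun y => (tau y.2 : ℝ)) := by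
  have h1 := en_clw (M := M) (c₀ := c₀) (g := g) hψ l hf hJ h hε (om := om) (α := α)
    (e₀ := e₀) hg (O := O) (w := fun _ => 1) (sq_nonneg Lam) (fun _ _ => zero_le_one)
    (fun o ho => by
      rw [one_mul]
      exact pow_le_pow_left₀ (Nat.cast_nonneg _) (hLam o ho) 2) (P := P) hδ hP
  simp only [one_mul] at h1
  exact h1

end cls

end Crest.Agent.R017.EnX743
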