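import Crest.Agent.R017.E4Pm_783
import Crest.Agent.R017.E4Uz_512
import Crest.Agent.R017.EnU_743
import Crest.Agent.R017.E4Xf_372
import Crest.Agent.R017.E4Xl_372

/-!
# Row 17, C70/E4, exceptional class: the principal numbers at 164's data (helper783)

* `vX_spec`, `vX_size`, `vX_g6` : the support of the `x`-side
* `wX_spec` : the support of the `y`-side is `f₀ l m²`
* `sum_lam` : `∑_o 1 / N(S ν)`;  `en_o` : the energy with the weight `N(x)^(1/3)`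
-/

set_option autoImplicit false
set_option linter.unusedVariables false

noncomputable section

open Finset Complex
open scoped ComplexConjugate

namespace Crest.Agent.R017.E4Pn783

open Crest.Agent.R012 Crest.Agent.R012.Eis Crest.Agent.R012.GaussLoc283
open Crest.Agent.R012.Mob705 hiding pb mem_pb
open Crest.Agent.R012.Div277
open Crest.Agent.R012.LS2 (S mem_S)
open Crest.Agent.R017.Sx545 (Sm)
open Crest.Agent.R017.C70 (CbF JC OKJ)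
open Crest.Agent.R017.CM106 (FS)
open Crest.Agent.R017.End699 (HC)
open Crest.Agent.R017.E4352 (PrI rd Dat4)
open Crest.Agent.R017.E5P571 (Gd mem_Gd)
open Crest.Agent.R017.B770 (DPar)
open Crest.Agent.R017.Prov71
open Crest.Agent.R017.HP842 (Pc pc alL)
open Crest.Agent.R017.FE47 (PU cx)
open Crest.Agent.R017.E4D164 hiding E4L
open Crest.Agent.R017.E4K164 (dc dc_spec jc_ne_zero)
open Crest.Agent.R017.E5b54 (stj stj_spec JC_ne_zero)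
open Crest.Agent.R017.E4U164
open Crest.Agent.R017.EnX743
open Crest.Agent.R017.E4v92
open Crest.Agent.R017.E4Us512 hiding nSm nEm
open Crest.Agent.R017.E4X266 (g6 Mq1 Mq0)
open Crest.Agent.R017.E4Df372 (cD)

/-! ### the `y`-side -/

/-- the part prime to `M` of `l m²` -/
lemma sm_part {M z y l m : Eis} (hM : M ≠ 0) (hl : IsPrim l) (hm : IsPrim m) (hz : PrI M z)
    (hy : Sm M y) (h : l * m ^ 2 = z * y) :
    ∃ l' m' : Eis, IsPrim l' ∧ IsPrim m' ∧ l' ∣ l ∧ m' ∣ m ∧ y = l' * m' ^ 2 := by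
  obtain ⟨a1, a2, a3⟩ := mpt_spec hM hl
  obtain ⟨b1, b2, b3⟩ := mpt_spec hM hm
  set lM := E4579.bpt (E4K164.rd M) l
  set l' := E4579.bco (E4K164.rd M) l
  set mM := E4579.bpt (E4K164.rd M) m
  set m' := E4579.bco (E4K164.rd M) m
  have hp : IsPrim (l * m ^ 2) := hl.mul (hm.pow 2)
  have h1 : l * m ^ 2 = (lM * mM ^ 2) * (l' * m' ^ 2) := by
    conv_lhs => rw [a3, b3]
    ring
  have h2 : PrI M (lM * mM ^ 2) := ⟨a1.1.mul (b1.1.pow 2), fun p hp hd => by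
    rcases hp.dvd_or_dvd hd with h3 | h3
    · exact a1.2 p hp h3
    · exact b1.2 p hp (hp.dvd_of_dvd_pow h3)⟩
  have h3 : Sm M (l' * m' ^ 2) := ⟨a2.1.mul (b2.1.pow 2), a2.2.mul_left b2.2.pow_left⟩
  have e1 := (mpt_unique hM hp hz hy h).2
  have e2 := (mpt_unique hM hp h2 h3 h1).2
  exact ⟨l', m', a2.1, b2.1, ⟨lM, by rw [mul_comm]; exact a3⟩, ⟨mM, by rw [mul_comm]; exact b3⟩,
    e1.trans e2.symm⟩

/-- **the support and the size of the `y`-side** -/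
lemma wX_spec {M : Eis} (hM : M ≠ 0) {b₁ b₂ : Eis → ℂ} {F : Finset (Eis × Eis)}
    (hF : ∀ p ∈ F, b₁ p.1 ≠ 0 ∧ b₂ p.2 ≠ 0) {L N : ℕ} {B T : ℝ} (hB : 0 ≤ B)
    (h1 : ∀ n, b₁ n ≠ 0 → n ∈ primBall L) (h2 : ∀ n, b₂ n ≠ 0 → n ∈ primBall N)
    (hb : ∀ n m, ‖b₁ n‖ * ‖b₂ m‖ ≤ B)
    (hT : ∀ l ∈ primBall L, ∀ m ∈ primBall N, (tau (l * m ^ 2) : ℝ) ≤ T) {E z : Eis}
    (hf : Sm M (fN M E)) (hz : PrI M z) {OO : Finset (Eis × Eis)} (o : OO) (y : Eis)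
    (hy : wX M b₁ b₂ F E z o y ≠ 0) :
    (∃ l ∈ primBall L, ∃ m ∈ primBall N, y = fN M E * (l * m ^ 2)) ∧
      ‖wX M b₁ b₂ F E z o y‖ ≤ T * B := by
  classical
  unfold wX at hy
  obtain ⟨y', rfl, hy'⟩ := mulw_ne hf.1.ne_zero hy
  unfold wX
  rw [mulw_mul hf.1.ne_zero]
  unfold E4D164.wI ww at hy' ⊢
  obtain ⟨hs, p, hp, hpz, -⟩ := pu_ne hy'
  obtain ⟨k1, k2⟩ := hF p hp
  have hl := h1 _ k1
  have hm := h2 _ k2
  have hlp := (mem_primBall.mp hl).2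
  have hmp := (mem_primBall.mp hm).2
  refine ⟨?_, ?_⟩
  · obtain ⟨l', m', a1, a2, a3, a4, a5⟩ := sm_part hM hlp hmp hz hs hpz
    refine ⟨l', mem_primBall.mpr ⟨(nm_le_of_dvd hlp.ne_zero a3).trans (mem_primBall.mp hl).1, a1⟩,
      m', mem_primBall.mpr ⟨(nm_le_of_dvd hmp.ne_zero a4).trans (mem_primBall.mp hm).1, a2⟩, ?_⟩
    rw [a5]
  · unfold pu
    rw [if_pos hs]
    set A := F.filter (fun i => i.1 * i.2 ^ 2 = z * y') with hA
    have h3 : (A.card : ℝ) ≤ T := by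
      refine le_trans ?_ (hT _ hl _ hm)
      have hne : p.1 * p.2 ^ 2 ≠ 0 := (hlp.mul (hmp.pow 2)).ne_zero
      have h4 : A.card ≤ (dvs (p.1 * p.2 ^ 2)).card := by
        refine card_le_card_of_injOn (fun i => i.2) (fun i hi => ?_) (fun i hi i' hi' e => ?_)
        · rw [mem_coe, hA, mem_filter] at hi
          have q2 := (mem_primBall.mp (h2 _ (hF i hi.1).2)).2
          rw [mem_coe, mem_dvs hne, hpz, ← hi.2]
          exact ⟨q2, Dvd.intro_left (i.1 * i.2) (by ring)⟩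
        · rw [mem_coe, hA, mem_filter] at hi hi'
          have q2 := (mem_primBall.mp (h2 _ (hF i hi.1).2)).2
          dsimp only at e
          have e1 : i.1 * i.2 ^ 2 = i'.1 * i.2 ^ 2 := by
            rw [hi.2, e, hi'.2]
          exact Prod.ext (mul_right_cancel₀ (pow_ne_zero 2 q2.ne_zero) e1) e
      unfold tau
      exact_mod_cast h4
    refine (norm_sum_le _ _).trans ?_
    have h5 : ∀ i ∈ A, ‖cb b₁ b₂ ((o : Eis × Eis).1 * (o : Eis × Eis).2) i‖ ≤ B := by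
      intro i hi
      rw [hA, mem_filter] at hi
      have q1 := (mem_primBall.mp (h1 _ (hF i hi.1).1)).2
      have q2 := (mem_primBall.mp (h2 _ (hF i hi.1).2)).2
      unfold cb
      rw [norm_mul, norm_mul, norm_mul, RCLike.norm_conj, RCLike.norm_conj]
      have g1 := E2440.norm_sy_le1 (k := (o : Eis × Eis).1 * (o : Eis × Eis).2) q1
      have g2 := E2440.norm_sy_le1 (k := (o : Eis × Eis).1 * (o : Eis × Eis).2) q2
      calc _ ≤ ‖b₁ i.1‖ * ‖b₂ i.2‖ * (1 * 1) := by gcongr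
        _ ≤ B := by rw [one_mul, mul_one]; exact hb _ _
    calc ∑ i ∈ A, ‖cb b₁ b₂ ((o : Eis × Eis).1 * (o : Eis × Eis).2) i‖ ≤ ∑ i ∈ A, B :=
          sum_le_sum h5
      _ = A.card * B := by rw [sum_const, nsmul_eq_mul]
      _ ≤ T * B := mul_le_mul_of_nonneg_right h3 hB

/-! ### the `x`-side -/

section xs

variable {M : Eis} {J : Finset (Eis × Eis)} {I : Finset (Eis × (Eis × Eis))}
  {m : ℕ → ℕ → ℕ} {g e₀ t : Eis}

/-- a datum of a point of the support -/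
lemma vX_spec (hJ : OKJ J) (hC : Cls J I (sS g e₀ t) m) {ψ : Eis → ℂ} {l : ℤ}
    {om : Eis × Eis → ℂ} {ph : Eis → ℂ} {E : Eis} {α : Eis → ℂ} {c₀ g' : Eis}
    (o : OD M I g e₀ t) {X : Eis} (h : vX M ψ l I om ph E α g e₀ t c₀ g' o X ≠ 0) :
    Sm M X ∧ ∃ i ∈ I, sS g e₀ t i.1 = o.1.1 ∧
      (dc (stj (sS g e₀ t i.1) i.2.2)).2.2 = o.1.2 ∧
      (dc (stj (sS g e₀ t i.1) i.2.2)).2.1 * i.2.1 ^ 2 = g' * X ∧
      IsCoprime i.2.2 i.2.1 ∧ IsCoprime (sS g e₀ t i.1) i.2.1 := by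
  classical
  unfold vX vI at h
  obtain ⟨hs, i, hi, hX, hc⟩ := pu_ne h
  unfold II at hi
  rw [mem_filter] at hi
  obtain ⟨hiI, h0, h1, h2⟩ := hi
  have h3 := cI_cop hJ (hC.J i hiI) hc
  exact ⟨hs, i, hiI, h1, h2, hX, h3.1, h3.2.1⟩

/-- the size of the support -/
lemma vX_size (hJ : OKJ J) (hC : Cls J I (sS g e₀ t) m) {V₁ : ℝ}
    (hV : ∀ i ∈ I, (nm (jJ (sS g e₀ t) i) : ℝ) * nm (jD i) ^ 2 * nm (jS (sS g e₀ t) i) ^ 2 ≤ V₁)
    {ψ : Eis → ℂ} {l : ℤ} {om : Eis × Eis → ℂ} {ph : Eis → ℂ} {E : Eis} {α : Eis → ℂ}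
    {c₀ g' : Eis} (hg' : IsPrim g') (o : OD M I g e₀ t) {X : Eis}
    (h : vX M ψ l I om ph E α g e₀ t c₀ g' o X ≠ 0) : (nm X : ℝ) * lD o ^ 2 ≤ V₁ := by
  obtain ⟨hs, i, hi, h1, h2, h3, -, -⟩ := vX_spec hJ hC o h
  refine le_trans ?_ (hV i hi)
  obtain ⟨F', hF⟩ := hC.sf i hi
  obtain ⟨s1, s2, s3, s4, s5, s6, s7⟩ := dc_spec (stj_spec hF.prim (hJ.jc _ (hC.J i hi))).1
  have hj := jc_ne_zero (stj_spec hF.prim (hJ.jc _ (hC.J i hi))).1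
  have e1 : nm X ≤ nm (g' * X) := by
    rw [nm_mul]
    exact Nat.le_mul_of_pos_left _ (nm_pos.2 hg'.ne_zero)
  have e2 : nm (g' * X) * nm (o.1.2) ^ 2 ≤ nm (stj (sS g e₀ t i.1) i.2.2) * nm i.2.1 ^ 2 := by
    have hc : 1 ≤ nm (dc (stj (sS g e₀ t i.1) i.2.2)).1 := by
      refine nm_pos.2 fun h0 => ?_
      rw [s7, h0, zero_mul, zero_mul] at hj
      exact hj rfl
    have e3 : nm (stj (sS g e₀ t i.1) i.2.2) = nm (dc (stj (sS g e₀ t i.1) i.2.2)).1 *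
        nm (dc (stj (sS g e₀ t i.1) i.2.2)).2.1 * nm (dc (stj (sS g e₀ t i.1) i.2.2)).2.2 ^ 2 := by
      conv_lhs => rw [s7]
      rw [nm_mul, nm_mul, nm_pow]
    rw [← h3, ← h2, e3, nm_mul, nm_pow]
    calc _ = 1 * (nm (dc (stj (sS g e₀ t i.1) i.2.2)).2.1 * nm i.2.1 ^ 2 *
          nm (dc (stj (sS g e₀ t i.1) i.2.2)).2.2 ^ 2) := by ring
      _ ≤ nm (dc (stj (sS g e₀ t i.1) i.2.2)).1 *
          (nm (dc (stj (sS g e₀ t i.1) i.2.2)).2.1 * nm i.2.1 ^ 2 *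
          nm (dc (stj (sS g e₀ t i.1) i.2.2)).2.2 ^ 2) := Nat.mul_le_mul_right _ hc
      _ = _ := by ring
  have e4 : (nm X : ℝ) * (nm o.1.2 : ℝ) ^ 2 ≤
      nm (stj (sS g e₀ t i.1) i.2.2) * (nm i.2.1 : ℝ) ^ 2 := by
    have : nm X * nm o.1.2 ^ 2 ≤ nm (stj (sS g e₀ t i.1) i.2.2) * nm i.2.1 ^ 2 :=
      (Nat.mul_le_mul_right _ e1).trans e2
    exact_mod_cast this
  unfold lD jJ jD jS
  rw [nm_mul, h1]
  push_cast
  rw [h1] at e4
  calc (nm X : ℝ) * ((nm o.1.1 : ℝ) * nm o.1.2) ^ 2 =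
        ((nm X : ℝ) * (nm o.1.2 : ℝ) ^ 2) * (nm o.1.1 : ℝ) ^ 2 := by ring
    _ ≤ (nm (stj o.1.1 i.2.2) * (nm i.2.1 : ℝ) ^ 2) * (nm o.1.1 : ℝ) ^ 2 :=
        mul_le_mul_of_nonneg_right e4 (by positivity)

/-- the common primes of the outer frequency and the support -/
lemma vX_g6 (hJ : OKJ J) (hC : Cls J I (sS g e₀ t) m)
    {ψ : Eis → ℂ} {l : ℤ} {om : Eis × Eis → ℂ} {ph : Eis → ℂ} {E : Eis} {α : Eis → ℂ}
    {c₀ g' : Eis} (o : OD M I g e₀ t) {X : Eis}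
    (h : vX M ψ l I om ph E α g e₀ t c₀ g' o X ≠ 0) :
    g6 (cD o) X ≤ ((2 : ℝ) ^ (m 0 0 + m 0 1 + m 0 2 + m 1 0 + m 1 1 + m 1 2 + 6)) ^ (1 / 6 : ℝ) := by
  classical
  obtain ⟨hs, i, hi, h1, h2, h3, h4, h5⟩ := vX_spec hJ hC o h
  obtain ⟨F', hF⟩ := hC.sf i hi
  have hj := hJ.jc _ (hC.J i hi)
  obtain ⟨hst, ee, hee, hse⟩ := stj_spec hF.prim hj
  obtain ⟨s1, s2, s3, s4, s5, s6, s7⟩ := dc_spec hst
  have hqF : IsPrim (i.1 * F') := hF.q.mul hF.F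
  have hqFs : Squarefree (i.1 * F') := (squarefree_mul_iff.mpr
    ⟨hF.c.isRelPrime, hF.qs, hF.Fs⟩)
  have hX0 : IsPrim X := hs.1
  have hcD : (cD o) ≠ 0 := by
    unfold E4Df372.cD
    rw [← h1, ← h2]
    exact mul_ne_zero hF.prim.ne_zero s4.ne_zero
  have hsub : (pp (cD o)).filter (fun p => p ∣ X) ⊆ pp (i.1 * F') := by
    intro p hp
    rw [mem_filter, mem_pp hcD] at hp
    obtain ⟨⟨hpp, hpc⟩, hpX⟩ := hp
    rw [mem_pp hqF.ne_zero]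
    refine ⟨hpp, ?_⟩
    -- `p` does not divide `ν`
    have hν : ¬ p ∣ o.1.2 := by
      intro hpν
      rw [← h2] at hpν
      have h6 : p ∣ (dc (stj (sS g e₀ t i.1) i.2.2)).2.1 * i.2.1 ^ 2 := by
        rw [h3]; exact hpX.mul_left _
      rcases hpp.prime.dvd_or_dvd h6 with h7 | h7
      · exact hpp.prime.not_isUnit (s6.isUnit_of_dvd' h7 hpν)
      · have h8 : p ∣ i.2.1 := hpp.prime.dvd_of_dvd_pow h7
        have h9 : p ∣ stj (sS g e₀ t i.1) i.2.2 * ee ^ 3 := by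
          refine Dvd.dvd.mul_right ?_ _
          rw [s7]
          exact (hpν.trans (dvd_pow_self _ (by norm_num))).mul_left _
        rw [← hse] at h9
        rcases hpp.prime.dvd_or_dvd h9 with h10 | h10
        · exact hpp.prime.not_isUnit (h4.isUnit_of_dvd' h10 h8)
        · exact hpp.prime.not_isUnit (h5.isUnit_of_dvd' h10 h8)
    have h6 : p ∣ o.1.1 := by
      unfold E4Df372.cD at hpc
      rcases hpp.prime.dvd_or_dvd hpc with h7 | h7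
      · exact h7
      · exact absurd h7 hν
    rw [← h1, hF.S] at h6
    rcases hpp.prime.dvd_or_dvd h6 with h7 | h7
    · exact (hpp.prime.dvd_of_dvd_pow h7).mul_right _
    · exact h7.mul_left _
  have hn : ∀ p ∈ pp (i.1 * F'), (1 : ℝ) ≤ (nm p : ℝ) ^ (1 / 6 : ℝ) := by
    intro p hp
    have := ((mem_pp hqF.ne_zero).mp hp).1
    exact Real.one_le_rpow (by exact_mod_cast nm_pos.2 this.prime.ne_zero) (by norm_num)
  have h8 : g6 (cD o) X ≤ ∏ p ∈ pp (i.1 * F'), (nm p : ℝ) ^ (1 / 6 : ℝ) := by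
    have e : g6 (cD o) X = ∏ p ∈ (pp (cD o)).filter (fun p => p ∣ X), (nm p : ℝ) ^ (1 / 6 : ℝ) := by
      unfold E4X266.g6
      congr
    rw [e, ← Finset.prod_sdiff hsub]
    have h9 : (1 : ℝ) ≤ ∏ p ∈ pp (i.1 * F') \ (pp (cD o)).filter (fun p => p ∣ X),
        (nm p : ℝ) ^ (1 / 6 : ℝ) := by
      refine Finset.prod_induction _ (fun a => (1 : ℝ) ≤ a) (fun a b ha hb => ?_) le_rfl
        (fun p hp => hn p (mem_sdiff.mp hp).1)
      nlinarith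
    have h10 : (0 : ℝ) ≤ ∏ p ∈ (pp (cD o)).filter (fun p => p ∣ X), (nm p : ℝ) ^ (1 / 6 : ℝ) :=
      Finset.prod_nonneg fun p _ => by positivity
    exact le_mul_of_one_le_left h10 h9
  refine h8.trans ?_
  rw [Real.finsetProd_rpow _ _ fun p _ => Nat.cast_nonneg _]
  refine Real.rpow_le_rpow (Finset.prod_nonneg fun p _ => Nat.cast_nonneg _) ?_ (by norm_num)
  have e1 : ∏ p ∈ pp (i.1 * F'), (nm p : ℝ) = nm (i.1 * F') := by
    conv_rhs => rw [← prod_pp hqF hqFs]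
    rw [E554.nm_prod]
    push_cast
    rfl
  have hh := hC.hi i hi
  have a0 := (hh 0 (by norm_num) 0 (by norm_num)).le
  have a1 := (hh 0 (by norm_num) 1 (by norm_num)).le
  have a2 := (hh 0 (by norm_num) 2 (by norm_num)).le
  have b0 := (hh 1 (by norm_num) 0 (by norm_num)).le
  have b1 := (hh 1 (by norm_num) 1 (by norm_num)).le
  have b2 := (hh 1 (by norm_num) 2 (by norm_num)).le
  have e2 : nm (i.1 * F') ≤ 2 ^ (m 0 0 + m 0 1 + m 0 2 + m 1 0 + m 1 1 + m 1 2 + 6) := by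
    rw [nm_mul, nm_q hF hj, nm_F hF hj]
    calc _ ≤ (2 ^ (m 1 0 + 1) * 2 ^ (m 1 1 + 1) * 2 ^ (m 1 2 + 1)) *
          (2 ^ (m 0 0 + 1) * 2 ^ (m 0 1 + 1) * 2 ^ (m 0 2 + 1)) :=
          Nat.mul_le_mul (Nat.mul_le_mul (Nat.mul_le_mul b0 b1) b2)
            (Nat.mul_le_mul (Nat.mul_le_mul a0 a1) a2)
      _ = _ := by rw [← pow_add, ← pow_add, ← pow_add, ← pow_add, ← pow_add]; congr 1; ring
  rw [e1]
  exact_mod_cast e2

/-! ### the sum over the outer index -/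

/-- `∑_o 1 / N(S ν)` -/
lemma sum_lam (hJ : OKJ J) (hC : Cls J I (sS g e₀ t) m) {Z : ℕ}
    (hZ : ∀ o : OD M I g e₀ t, nm o.1.2 ≤ Z) :
    ∑ o : OD M I g e₀ t, 1 / lD o ≤
      (100 * 2 ^ (m 1 0 + m 1 1 + m 1 2 + 3)) / 2 ^ EnX743.nSm m * (100 * (1 + Real.log Z)) := by
  classical
  set Ss : Finset Eis := (primBall (2 ^ (m 1 0 + m 1 1 + m 1 2 + 3))).image (sS g e₀ t) with hSs
  set Sf := Ss.filter (fun s => 2 ^ EnX743.nSm m ≤ nm s) with hSf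
  have hmem : ∀ o ∈ OD M I g e₀ t, o ∈ Sf ×ˢ primBall Z := by
    intro o ho
    obtain ⟨i, hi, h1, h2⟩ : ∃ i ∈ I, sS g e₀ t i.1 = o.1 ∧
        (dc (stj (sS g e₀ t i.1) i.2.2)).2.2 = o.2 := by
      unfold OD OU at ho
      rw [mem_filter, mem_image] at ho
      obtain ⟨⟨i, hi, h⟩, -⟩ := ho
      exact ⟨i, hi, by have := congrArg Prod.fst h; exact this,
        by have := congrArg Prod.snd h; exact this⟩
    obtain ⟨F', hF⟩ := hC.sf i hi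
    have hj := hJ.jc _ (hC.J i hi)
    obtain ⟨s1, s2, s3, s4, s5, s6, s7⟩ := dc_spec (stj_spec hF.prim hj).1
    have hh := hC.hi i hi
    have b0 := (hh 1 (by norm_num) 0 (by norm_num)).le
    have b1 := (hh 1 (by norm_num) 1 (by norm_num)).le
    have b2 := (hh 1 (by norm_num) 2 (by norm_num)).le
    rw [mem_product, hSf, mem_filter, hSs, mem_image]
    refine ⟨⟨⟨i.1, mem_primBall.mpr ⟨?_, hF.q⟩, h1⟩, ?_⟩, mem_primBall.mpr ⟨hZ ⟨o, ho⟩, ?_⟩⟩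
    · rw [nm_q hF hj]
      calc _ ≤ 2 ^ (m 1 0 + 1) * 2 ^ (m 1 1 + 1) * 2 ^ (m 1 2 + 1) :=
            Nat.mul_le_mul (Nat.mul_le_mul b0 b1) b2
        _ = _ := by rw [← pow_add, ← pow_add]; congr 1; ring
    · rw [← h1]
      exact hC.nm_S hJ hi
    · rw [← h2]
      exact s4
  have h1 : ∑ o : OD M I g e₀ t, 1 / lD o = ∑ o ∈ OD M I g e₀ t, 1 / (nm (o.1 * o.2) : ℝ) := by
    rw [← Finset.sum_coe_sort (OD M I g e₀ t) (fun o => 1 / (nm (o.1 * o.2) : ℝ))]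
    rfl
  rw [h1]
  refine (sum_le_sum_of_subset_of_nonneg hmem fun _ _ _ => by positivity).trans ?_
  rw [sum_product]
  have h2 : ∀ s ∈ Sf, ∑ ν ∈ primBall Z, 1 / (nm (s * ν) : ℝ) ≤
      1 / 2 ^ EnX743.nSm m * (100 * (1 + Real.log Z)) := by
    intro s hs
    rw [hSf, mem_filter] at hs
    have h3 : (2 : ℝ) ^ EnX743.nSm m ≤ nm s := by exact_mod_cast hs.2
    have h4 : (0 : ℝ) < 2 ^ EnX743.nSm m := by positivity
    have h5 : ∑ ν ∈ primBall Z, 1 / (nm (s * ν) : ℝ) = 1 / (nm s : ℝ) *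
        ∑ ν ∈ primBall Z, 1 / (nm ν : ℝ) := by
      rw [mul_sum]
      refine sum_congr rfl fun ν _ => ?_
      rw [nm_mul]
      push_cast
      rw [one_div_mul_one_div]
    rw [h5]
    have h6 := sum_inv_primBall_le Z
    have h7 := one_div_le_one_div_of_le h4 h3
    have h8 : 0 ≤ ∑ ν ∈ primBall Z, 1 / (nm ν : ℝ) := sum_nonneg fun _ _ => by positivity
    calc _ ≤ 1 / 2 ^ EnX743.nSm m * ∑ ν ∈ primBall Z, 1 / (nm ν : ℝ) :=
          mul_le_mul_of_nonneg_right h7 h8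
      _ ≤ _ := mul_le_mul_of_nonneg_left h6 (by positivity)
  refine (sum_le_sum h2).trans ?_
  rw [sum_const, nsmul_eq_mul]
  have h3 : (Sf.card : ℝ) ≤ 100 * 2 ^ (m 1 0 + m 1 1 + m 1 2 + 3) := by
    have h4 : (Sf.card : ℝ) ≤ ((primBall (2 ^ (m 1 0 + m 1 1 + m 1 2 + 3))).card : ℝ) := by
      exact_mod_cast (card_filter_le _ _).trans card_image_le
    refine h4.trans ((Lat277.card_primBall_le _).trans (le_of_eq ?_))
    push_cast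
    ring
  have h4 := one_add_log_nonneg Z
  calc _ ≤ (100 * 2 ^ (m 1 0 + m 1 1 + m 1 2 + 3)) *
        (1 / 2 ^ EnX743.nSm m * (100 * (1 + Real.log Z))) :=
        mul_le_mul_of_nonneg_right h3 (by positivity)
    _ = _ := by ring

open Classical in
/-- **the energy with the weight `N(x)^(1/3)`** -/
lemma en_o (hJ : OKJ J) (hC : Cls J I (sS g e₀ t) m) {ψ : Eis → ℂ} (hψ : HC M ψ) (l : ℤ)
    {V₁ : ℝ} (hV0 : 0 ≤ V₁)
    (hV : ∀ i ∈ I, (nm (jJ (sS g e₀ t) i) : ℝ) * nm (jD i) ^ 2 * nm (jS (sS g e₀ t) i) ^ 2 ≤ V₁)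
    {om : Eis × Eis → ℂ} {ph : Eis → ℂ} (hph : ∀ q, ‖ph q‖ ≤ 1) {E : Eis} (hE : IsPrim E)
    {α : Eis → ℂ} {c₀ g' : Eis} (hg' : IsPrim g') (V : ℕ) :
    ∑ o : OD M I g e₀ t, (lD o) ^ (-(5 / 3) : ℝ) *
      ∑ X ∈ primBall V, ‖vX M ψ l I om ph E α g e₀ t c₀ g' o X‖ ^ 2 * (nm X : ℝ) ^ (1 / 3 : ℝ) ≤
    V₁ ^ (1 / 3 : ℝ) * (1600 * (((2 : ℝ) ^ EnX743.nSm m) ^ (-(1 / 3) : ℝ) *
      2 ^ (EnX743.nEm m + m 1 0) / 2 ^ EnX743.nSm m) * TSd J om α e₀ 1 (fun y => (tau y.2 : ℝ))) := by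
  have hl1 : ∀ o : OD M I g e₀ t, (2 : ℝ) ^ EnX743.nSm m ≤ lD o := by
    intro o
    obtain ⟨i, hi, h1, h2⟩ : ∃ i ∈ I, sS g e₀ t i.1 = o.1.1 ∧
        (dc (stj (sS g e₀ t i.1) i.2.2)).2.2 = o.1.2 := by
      have ho := o.2
      unfold OD OU at ho
      rw [mem_filter, mem_image] at ho
      obtain ⟨⟨i, hi, h⟩, -⟩ := ho
      exact ⟨i, hi, by have := congrArg Prod.fst h; exact this,
        by have := congrArg Prod.snd h; exact this⟩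
    obtain ⟨F', hF⟩ := hC.sf i hi
    obtain ⟨s1, s2, s3, s4, s5, s6, s7⟩ := dc_spec (stj_spec hF.prim (hJ.jc _ (hC.J i hi))).1
    have h3 := hC.nm_S hJ hi
    unfold lD
    rw [nm_mul, ← h1, ← h2]
    have h4 := nm_pos.2 s4.ne_zero
    have h5 : 2 ^ EnX743.nSm m ≤ nm (sS g e₀ t i.1) *
        nm (dc (stj (sS g e₀ t i.1) i.2.2)).2.2 := h3.trans (Nat.le_mul_of_pos_right _ h4)
    exact_mod_cast h5
  have h2p : (0 : ℝ) < 2 ^ EnX743.nSm m := by positivity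
  -- remove `N(x)`
  have h1 : ∀ o : OD M I g e₀ t, (lD o) ^ (-(5 / 3) : ℝ) *
      ∑ X ∈ primBall V, ‖vX M ψ l I om ph E α g e₀ t c₀ g' o X‖ ^ 2 * (nm X : ℝ) ^ (1 / 3 : ℝ) ≤
      V₁ ^ (1 / 3 : ℝ) * ((lD o) ^ (-(7 / 3) : ℝ) *
      ∑ X ∈ primBall V, ‖vX M ψ l I om ph E α g e₀ t c₀ g' o X‖ ^ 2) := by
    intro o
    have hlo : 0 < lD o := h2p.trans_le (hl1 o)
    rw [mul_sum, mul_sum, mul_sum]
    refine sum_le_sum fun X _ => ?_
    by_cases hv : vX M ψ l I om ph E α g e₀ t c₀ g' o X = 0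
    · rw [hv]; simp
    have h3 := vX_size hJ hC hV hg' o hv
    have h4 : (nm X : ℝ) ^ (1 / 3 : ℝ) ≤ V₁ ^ (1 / 3 : ℝ) * (lD o) ^ (-(2 / 3) : ℝ) := by
      have h5 : (nm X : ℝ) ≤ V₁ / lD o ^ 2 := by rw [le_div_iff₀ (by positivity)]; exact h3
      refine (Real.rpow_le_rpow (Nat.cast_nonneg _) h5 (by norm_num)).trans (le_of_eq ?_)
      rw [Real.div_rpow hV0 (by positivity), div_eq_mul_inv]
      congr 1
      rw [← Real.rpow_natCast, ← Real.rpow_mul hlo.le, ← Real.rpow_neg hlo.le]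
      norm_num
    have h6 : (lD o) ^ (-(7 / 3) : ℝ) = (lD o) ^ (-(5 / 3) : ℝ) * (lD o) ^ (-(2 / 3) : ℝ) := by
      rw [← Real.rpow_add hlo]
      norm_num
    rw [h6]
    have h7 : 0 ≤ (lD o) ^ (-(5 / 3) : ℝ) * ‖vX M ψ l I om ph E α g e₀ t c₀ g' o X‖ ^ 2 := by
      positivity
    calc _ = ((lD o) ^ (-(5 / 3) : ℝ) * ‖vX M ψ l I om ph E α g e₀ t c₀ g' o X‖ ^ 2) *
          (nm X : ℝ) ^ (1 / 3 : ℝ) := by ring
      _ ≤ ((lD o) ^ (-(5 / 3) : ℝ) * ‖vX M ψ l I om ph E α g e₀ t c₀ g' o X‖ ^ 2) *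
          (V₁ ^ (1 / 3 : ℝ) * (lD o) ^ (-(2 / 3) : ℝ)) := mul_le_mul_of_nonneg_left h4 h7
      _ = _ := by ring
  refine (sum_le_sum fun o _ => h1 o).trans ?_
  rw [← mul_sum]
  refine mul_le_mul_of_nonneg_left ?_ (Real.rpow_nonneg hV0 _)
  have h3 : ∑ o : OD M I g e₀ t, (lD o) ^ (-(7 / 3) : ℝ) *
      ∑ X ∈ primBall V, ‖vX M ψ l I om ph E α g e₀ t c₀ g' o X‖ ^ 2 =
      ∑ o ∈ OD M I g e₀ t, (nm (o.1 * o.2) : ℝ) ^ (-(7 / 3) : ℝ) *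
      ∑ X ∈ primBall V, ‖vI M (psE M ψ E) l (fN M E) I (jS (sS g e₀ t)) jD (jJ (sS g e₀ t))
    (jC (sS g e₀ t) (cE ph om α e₀)) c₀ g' o X‖ ^ 2 := by
    rw [← Finset.sum_coe_sort (OD M I g e₀ t) (fun o => (nm (o.1 * o.2) : ℝ) ^ (-(7 / 3) : ℝ) *
      ∑ X ∈ primBall V, ‖vI M (psE M ψ E) l (fN M E) I (jS (sS g e₀ t)) jD (jJ (sS g e₀ t))
    (jC (sS g e₀ t) (cE ph om α e₀)) c₀ g' o X‖ ^ 2)]
    rfl
  rw [h3]
  have hfp : IsPrim (fN M E) := (fM_spec hψ.q0 hE).2.1.1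
  refine en_clw (hc_psE hψ hE) l hfp hJ hC hph (g := g') hg'.ne_zero
    (Om := ((2 : ℝ) ^ EnX743.nSm m) ^ (-(1 / 3) : ℝ)) (by positivity) (fun o _ => by positivity)
    (fun o ho => ?_) (P := fun _ => primBall V) squarefree_one (fun o _ X _ => by
      rw [one_pow]; exact one_dvd _)
  have h4 := hl1 ⟨o, ho⟩
  have h5 : (0 : ℝ) < nm (o.1 * o.2) := h2p.trans_le h4
  have h6 : (nm (o.1 * o.2) : ℝ) ^ (-(7 / 3) : ℝ) * (nm (o.1 * o.2) : ℝ) ^ 2 =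
      (nm (o.1 * o.2) : ℝ) ^ (-(1 / 3) : ℝ) := by
    rw [← Real.rpow_natCast (nm (o.1 * o.2) : ℝ) 2, ← Real.rpow_add h5]
    norm_num
  rw [h6]
  exact Real.rpow_le_rpow_of_nonpos h2p h4 (by norm_num)

end xs

end Crest.Agent.R017.E4Pn783
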