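import Crest.Agent.R017.E4Pn_266

/-!
# Row 17, C70/E4 exceptional class: principal frequencies (helper266), V

* `dpr_le` : the direct principal part at one frequency
* `prinD` : the direct principal part over `z`
-/

set_option autoImplicit false

noncomputable section

open Complex
open scoped ComplexConjugate

namespace Crest.Agent.R017.E4X266

open Crest.Agent.R012 Crest.Agent.R012.Eis Crest.Agent.R012.Mob705 Crest.Agent.R012.Gauss880
open Crest.Agent.R012.Div277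
open Crest.Agent.R017.Sx545 Crest.Agent.R017.CM106 Crest.Agent.R017.C70 Crest.Agent.R017.C590
open Crest.Agent.R017.End699
open Crest.Agent.R017.E2440 Crest.Agent.R017.E4352
open Crest.Agent.R017.E4o502 (vD wD GoodD GB ssm_tws bd_tws)
open Crest.Agent.R017.E4fe502 (FF Dta Bi bi_fin bi_right bi_smul)
open Crest.Agent.R017.E4R266
open Crest.Agent.R017.E4J352 (Tm QB dta ez ez_sm ez_one ssm_vz ssm_wz)
open Crest.Agent.R017.E4Pr266 (cr cr_nonneg cr_mul tau_mono sum_inj_le D3c)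

open Classical in
/-- **the direct principal part** at one frequency -/
theorem dpr_le {M u c D B x : Eis} (hu : u ≠ 0) (hc : IsPrim c) (hD : IsPrim D)
    (hDs : Squarefree D) (hB : IsPrim B) (hcD : IsCoprime c D)
    (hx : ∀ p, IsPP p → p ∣ c → p ∣ u → p ∣ x) {φ : Eis → ℂ} {N : ℕ}
    (hφ : ∀ k, IsPrim k → N < nm k → φ k = 0) {Γ : ℝ} (hΓ : 0 ≤ Γ)
    (hG : ∀ d, Sm M d → ‖∑ e ∈ primBall N, if Sm M e then (nm e : ℂ) ^ 2 * φ (d * e ^ 3)
      else 0‖ * (nm d : ℝ) ^ (2 / 3 : ℝ) ≤ Γ) :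
    ‖NT M u (fun k => if ∃ z : Eis, c * (D ^ 2 * B ^ 3 * k) = z ^ 3 then φ k else 0)‖ ≤
      tau u * (Γ * (cr u * (g6 c x * (nm D : ℝ) ^ (-(1 / 6) : ℝ)))) := by
  set φ' : Eis → ℂ := fun k => if ∃ z : Eis, c * (D ^ 2 * B ^ 3 * k) = z ^ 3 then φ k else 0
    with hφ'
  have h0 : ∀ k, IsPrim k → N < nm k → φ' k = 0 := by
    intro k h1 h2
    simp only [hφ']
    rw [hφ k h1 h2, ite_self]
  rw [LBp47.NT_fin h0, Finset.sum_comm]
  set F : Eis → ℂ := fun d => if Sm M d ∧ PrC c D d then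
    conj (gs u d) * ∑ e ∈ primBall N, (if Sm M e then (nm e : ℂ) ^ 2 * φ (d * e ^ 3) else 0)
    else 0 with hF
  have hpc : ∀ d e : Eis, IsPrim e →
      ((∃ z : Eis, c * (D ^ 2 * B ^ 3 * (d * e ^ 3)) = z ^ 3) ↔ PrC c D d) := by
    intro d e he
    unfold PrC
    constructor
    · rintro ⟨z, hz⟩
      refine cube_cancel (g := B * e) (mul_ne_zero hB.ne_zero he.ne_zero) (z := z) ?_
      rw [← hz]; ring
    · rintro ⟨z, hz⟩
      refine ⟨z * (B * e), ?_⟩
      rw [mul_pow, ← hz]; ring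
  have e1 : ∑ d ∈ primBall N, ∑ e ∈ primBall N, (if Sm M e ∧ Sm M d then
      (nm e : ℂ) ^ 2 * (conj (gs u d) * φ' (d * e ^ 3)) else 0) = ∑ d ∈ primBall N, F d := by
    refine Finset.sum_congr rfl fun d _ => ?_
    simp only [hF]
    by_cases hd : Sm M d
    · by_cases hp : PrC c D d
      · rw [if_pos ⟨hd, hp⟩, Finset.mul_sum]
        refine Finset.sum_congr rfl fun e _ => ?_
        by_cases he : Sm M e
        · rw [if_pos ⟨he, hd⟩, if_pos he]
          simp only [hφ']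
          rw [if_pos ((hpc d e he.prim).mpr hp)]
          ring
        · rw [if_neg (fun h => he h.1), if_neg he, mul_zero]
      · rw [if_neg (fun h => hp h.2)]
        refine Finset.sum_eq_zero fun e _ => ?_
        by_cases he : Sm M e
        · rw [if_pos ⟨he, hd⟩]
          simp only [hφ']
          rw [if_neg (fun h => hp ((hpc d e he.prim).mp h)), mul_zero, mul_zero]
        · rw [if_neg (fun h => he h.1)]
    · rw [if_neg (fun h => hd h.1)]
      exact Finset.sum_eq_zero fun e _ => if_neg fun h => hd h.2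
  rw [e1]
  have e2 : ∑ d ∈ primBall N, F d = ∑' d, F d := by
    symm
    refine tsum_eq_sum fun d hd => ?_
    simp only [hF]
    split_ifs with h
    · rw [Finset.sum_eq_zero, mul_zero]
      intro e _
      split_ifs with he
      · rw [hφ _ (h.1.prim.mul (he.prim.pow 3)), mul_zero]
        have h1 := (LBp47.nm_le_pim he.ne_zero h.1.ne_zero).2
        refine lt_of_lt_of_le ?_ h1
        by_contra hc'
        push Not at hc'
        exact hd (mem_primBall.mpr ⟨hc', h.1.prim⟩)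
      · rfl
    · rfl
  rw [e2]
  exact pr_sum (M := M) hu hc hD hDs hcD hx
    (G := fun d => ∑ e ∈ primBall N, (if Sm M e then (nm e : ℂ) ^ 2 * φ (d * e ^ 3) else 0))
    hΓ (fun d hd _ => hG d hd) F (fun d h1 h2 => if_pos ⟨h1, h2⟩) (fun d h => if_neg h)

open Classical in
/-- **the direct principal part** over `z` -/
theorem prinD {ε : ℝ} (hε : 0 < ε) : ∃ C : ℝ, 0 ≤ C ∧
    ∀ (M f : Eis) (ψ : Eis → ℂ) (l : ℤ) (V : ℝ → ℂ) (h : ℝ) (O : Type) (_ : Fintype O)
      (c : O → Eis) (lam : O → ℝ) (v w : O → Eis → ℂ) (X K B : ℝ) (𝒬 : Finset Q5),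
      HC M ψ → 0 ≤ h → (∀ y, 1 < y → V y = 0) → ESum M ψ l V h B →
      Dat4 M f lam v w X → (∀ o, IsPrim (c o)) → (∀ o y, w o y ≠ 0 → IsCoprime (c o) (f * y)) →
      0 < K → 0 ≤ B → (∀ q ∈ 𝒬, QOK M f q) →
      ‖∑ z : O × {q : Q5 // q ∈ 𝒬}, cq f z.2.1 * Bi (vz v z) (wz w z)
        (fun x y => NT M (fz f z * x * y) (fun k =>
          if ∃ t : Eis, c z.1 * (ez z.2.1 * k) = t ^ 3 then End699.tw ψ l (ez z.2.1 * k) *
            cmp V h (nm (ez z.2.1 * k) * lam z.1 / K) else 0))‖ ≤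
        C * X ^ ε * (B * (Real.exp (h / 3) *
          ∑ o, (K / lam o) ^ (2 / 3 : ℝ) * Mq0 (c o) f (v o) (w o))) := by
  obtain ⟨C1, h10, H1⟩ := tau_dat (ε := ε / 6) (by positivity)
  refine ⟨C1 ^ 6, by positivity, ?_⟩
  intro M f ψ l V h O _ c lam v w X K B 𝒬 hψ hh hV1 hES hdat hcp hcw hK hB h𝒬
  have hX1 := hdat.X1
  have hX0 : 0 < X := by linarith
  have he1 : 1 ≤ Real.exp h := Real.one_le_exp hh
  have hlam0 : ∀ o, 0 < lam o := fun o => by linarith [(hdat.lam1 o).1]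
  set τ₀ : ℝ := C1 * X ^ (ε / 6) with hτ₀
  have hτ0 : 0 ≤ τ₀ := by positivity
  have hτ := H1 M f O _ lam v w X hdat
  rw [← hτ₀] at hτ
  set H : O → Eis → Eis → ℝ := fun o x y => (τ₀ * (B * Real.exp (h / 3)) *
    (K / lam o) ^ (2 / 3 : ℝ)) * (g6 (c o) x * cr (f * x * y)) with hH
  have hH0 : ∀ o x y, 0 ≤ H o x y := by
    intro o x y
    have h1 := cr_nonneg (f * x * y)
    have h2 := g6_nonneg (c o) x
    have h3 := hlam0 o
    simp only [hH]
    positivity
  have key := massZ (𝒬 := 𝒬) hdat.hf.1 hdat.hv hdat.hw h𝒬 hτ H hH0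
    (fun z x y => cq f z.2.1 * NT M (fz f z * x * y) (fun k =>
          if ∃ t : Eis, c z.1 * (ez z.2.1 * k) = t ^ 3 then End699.tw ψ l (ez z.2.1 * k) *
            cmp V h (nm (ez z.2.1 * k) * lam z.1 / K) else 0)) ?_
  · have e1 : ∀ o, ∑' x : Eis, ‖v o x‖ * ∑' y : Eis, ‖w o y‖ * H o x y =
        (τ₀ * (B * Real.exp (h / 3)) * (K / lam o) ^ (2 / 3 : ℝ)) *
          Mq0 (c o) f (v o) (w o) := by
      intro o
      simp only [hH]
      rw [ts_pull]
      rfl
    rw [Finset.sum_congr rfl fun o _ => e1 o] at key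
    refine (norm_sum_le _ _).trans ?_
    rw [Finset.sum_congr rfl fun z _ => bi_norm_smul (vz v z) (wz w z) (cq f z.2.1) _]
    refine key.trans (le_of_eq ?_)
    have e3 : ∑ o, (τ₀ * (B * Real.exp (h / 3)) * (K / lam o) ^ (2 / 3 : ℝ)) *
        Mq0 (c o) f (v o) (w o) = (τ₀ * (B * Real.exp (h / 3))) *
          ∑ o, (K / lam o) ^ (2 / 3 : ℝ) * Mq0 (c o) f (v o) (w o) := by
      rw [Finset.mul_sum]
      exact Finset.sum_congr rfl fun o _ => by ring
    rw [e3]
    have e4 : τ₀ ^ 6 = C1 ^ 6 * X ^ ε := by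
      rw [hτ₀, mul_pow, ← Real.rpow_natCast (X ^ (ε / 6)) 6, ← Real.rpow_mul hX0.le]
      congr 2
      push_cast
      ring
    calc τ₀ ^ 5 * (τ₀ * (B * Real.exp (h / 3)) *
          ∑ o, (K / lam o) ^ (2 / 3 : ℝ) * Mq0 (c o) f (v o) (w o)) =
        τ₀ ^ 6 * ((B * Real.exp (h / 3)) *
          ∑ o, (K / lam o) ^ (2 / 3 : ℝ) * Mq0 (c o) f (v o) (w o)) := by ring
      _ = _ := by rw [e4]; ring
  · intro z x y hx hy cx cy hvx hwy
    have hq := h𝒬 _ z.2.2
    have pt := ptF hdat.hf.1 hq ((hdat.hv z.1).sm _ hvx) ((hdat.hw z.1).sm _ hwy) cx cy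
      (hcw _ _ hwy)
    have hD := hq.good.2.2.1
    have hDs := hq.good.2.1
    have hez := ez_sm hq
    have hez1 := ez_one hq
    set D := z.2.1.D0 * z.2.1.D1 with hDd
    have hu : fz f z * x * y = FF f z.2.1.D0 z.2.1.B z.2.1.R z.2.1.Z * x * y := rfl
    rw [hu]
    set u : Eis := FF f z.2.1.D0 z.2.1.B z.2.1.R z.2.1.Z * x * y with hud
    set n : ℝ := (nm D : ℝ) with hn
    set b : ℝ := (nm z.2.1.B : ℝ) with hb
    set L : ℝ := K / lam z.1 with hL
    have hn1 : 1 ≤ n := one_le_nm hD.ne_zero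
    have hb1 : 1 ≤ b := one_le_nm hq.gb.2.1.ne_zero
    have hL0 : 0 < L := by have := hlam0 z.1; positivity
    have hnE : (nm (ez z.2.1) : ℝ) = n ^ 2 * b ^ 3 := by
      show ((nm (D ^ 2 * z.2.1.B ^ 3) : ℕ) : ℝ) = n ^ 2 * b ^ 3
      rw [nm_mul, nm_pow, nm_pow]; push_cast; rfl
    set Q : ℝ := L / (n ^ 2 * b ^ 3) with hQd
    have hQ0 : 0 < Q := by positivity
    have hu0 : D * z.2.1.B ^ 3 * u ≠ 0 :=
      mul_ne_zero (mul_ne_zero hD.ne_zero (pow_ne_zero 3 hq.gb.2.1.ne_zero)) pt.up.ne_zero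
    set φ : Eis → ℂ := fun k => End699.tw ψ l (ez z.2.1 * k) *
            cmp V h (nm (ez z.2.1 * k) * lam z.1 / K) with hφ
    have hφ0 : ∀ k, IsPrim k → ⌊K⌋₊ < nm k → φ k = 0 := by
      intro k _ hk
      have h1 : K < nm k := Nat.lt_of_floor_lt hk
      have h2 : 1 < (nm (ez z.2.1 * k) : ℝ) * lam z.1 / K := by
        rw [lt_div_iff₀ hK, one_mul, nm_mul]
        push_cast
        have h3 := (hdat.lam1 z.1).1
        calc K < nm k := h1
          _ = 1 * nm k * 1 := by ring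
          _ ≤ nm (ez z.2.1) * nm k * lam z.1 := by gcongr
      have h3 : 1 < (nm (ez z.2.1 * k) : ℝ) * lam z.1 / K * Real.exp h := by nlinarith
      simp only [hφ]
      unfold cmp
      rw [hV1 _ h2, hV1 _ h3]
      simp
    have hG : ∀ d, Sm M d → ‖∑ e ∈ primBall ⌊K⌋₊, if Sm M e then
        (nm e : ℂ) ^ 2 * φ (d * e ^ 3) else 0‖ * (nm d : ℝ) ^ (2 / 3 : ℝ) ≤
          B * Real.exp (h / 3) * Q ^ (2 / 3 : ℝ) := by
      intro d hd
      have hd0 : (0 : ℝ) < nm d := by exact_mod_cast nm_pos.mpr hd.ne_zero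
      have e1 : ∑ e ∈ primBall ⌊K⌋₊, (if Sm M e then (nm e : ℂ) ^ 2 * φ (d * e ^ 3) else 0) =
          ∑' e : Eis, if Sm M e then (nm e : ℂ) ^ 2 * φ (d * e ^ 3) else 0 := by
        symm
        refine tsum_eq_sum fun e he => ?_
        split_ifs with h1
        · rw [hφ0 _ (hd.prim.mul (h1.prim.pow 3)), mul_zero]
          have h2 := (LBp47.nm_le_pim h1.ne_zero hd.ne_zero).1
          refine lt_of_lt_of_le ?_ h2
          by_contra hc'
          push Not at hc'
          exact he (mem_primBall.mpr ⟨hc', h1.prim⟩)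
        · rfl
      have hQ' : 0 < Q / nm d := by positivity
      have e2 : ∑' e : Eis, (if Sm M e then (nm e : ℂ) ^ 2 * φ (d * e ^ 3) else 0) =
          End699.tw ψ l (ez z.2.1 * d) * ∑' e : Eis, if Sm M e then
            (nm e : ℂ) ^ 2 * (End699.tw ψ l (e ^ 3) * cmp V h ((nm e : ℝ) ^ 3 / (Q / nm d)))
              else 0 := by
        rw [← tsum_mul_left]
        refine tsum_congr fun e => ?_
        split_ifs with h1
        · simp only [hφ]
          have h2 : End699.tw ψ l (ez z.2.1 * (d * e ^ 3)) =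
              End699.tw ψ l (ez z.2.1 * d) * End699.tw ψ l (e ^ 3) := by
            rw [← A590.tw_mul hψ l (hez.prim.mul hd.prim) (h1.prim.pow 3), mul_assoc]
          have h3 : (nm (ez z.2.1 * (d * e ^ 3)) : ℝ) * lam z.1 / K =
              (nm e : ℝ) ^ 3 / (Q / nm d) := by
            rw [nm_mul, nm_mul, nm_pow]
            push_cast
            rw [hnE, hQd, hL]
            have := hlam0 z.1
            field_simp
          rw [h2, h3]
          ring
        · rw [mul_zero]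
      rw [e1, e2, norm_mul]
      have h4 := hES (Q / nm d) hQ'
      have h5 : ‖End699.tw ψ l (ez z.2.1 * d)‖ ≤ 1 :=
        A590.norm_tw_le' hψ l (hez.prim.mul hd.prim)
      have h6 : (0 : ℝ) ≤ (nm d : ℝ) ^ (2 / 3 : ℝ) := by positivity
      calc ‖End699.tw ψ l (ez z.2.1 * d)‖ * ‖∑' e : Eis, if Sm M e then
            (nm e : ℂ) ^ 2 * (End699.tw ψ l (e ^ 3) * cmp V h ((nm e : ℝ) ^ 3 / (Q / nm d)))
              else 0‖ * (nm d : ℝ) ^ (2 / 3 : ℝ) ≤
            1 * (B * (Real.exp (h / 3) * (Q / nm d) ^ (2 / 3 : ℝ))) *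
              (nm d : ℝ) ^ (2 / 3 : ℝ) := by gcongr
        _ = _ := by
            rw [Real.div_rpow hQ0.le hd0.le]
            have : (nm d : ℝ) ^ (2 / 3 : ℝ) ≠ 0 := by positivity
            field_simp
    have hdp := dpr_le (M := M) (c := c z.1) (D := D) (B := z.2.1.B) (x := z.2.1.R * x)
      pt.up.ne_zero (hcp _) hD.prim hDs hq.gb.2.1.prim pt.cD pt.cx hφ0
      (Γ := B * Real.exp (h / 3) * Q ^ (2 / 3 : ℝ)) (by positivity) hG
    have t1 : (tau u : ℝ) ≤ τ₀ := by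
      refine le_trans ?_ (hτ _ _ _ hvx hwy)
      rw [pt.eq]
      exact_mod_cast tau_mono hu0 (dvd_mul_left _ _)
    have t2 : b * cr u ≤ cr (f * (z.2.1.R * x) * (z.2.1.D1 * (z.2.1.Z * y))) := by
      rw [pt.eq]
      exact cr_mul hq.gb.2.1.prim hu0
    have hcr := cr_nonneg u
    have hg6 := g6_nonneg (c z.1) (z.2.1.R * x)
    have haz := norm_cq hq
    have key2 := pow_idD (show 0 < n by linarith) (show 0 < b by linarith) hL0
    rw [← hQd] at key2
    rw [norm_mul]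
    calc ‖cq f z.2.1‖ * _ ≤
          (n ^ (3 / 2 : ℝ) * b ^ 3) * (τ₀ * ((B * Real.exp (h / 3) * Q ^ (2 / 3 : ℝ)) *
            (cr u * (g6 (c z.1) (z.2.1.R * x) * n ^ (-(1 / 6) : ℝ))))) := by
          refine mul_le_mul haz ?_ (norm_nonneg _) (by positivity)
          exact hdp.trans (mul_le_mul_of_nonneg_right t1 (by positivity))
      _ = (τ₀ * (B * Real.exp (h / 3)) * cr u * g6 (c z.1) (z.2.1.R * x)) *
          (n ^ (3 / 2 : ℝ) * b ^ 3 * (Q ^ (2 / 3 : ℝ) * n ^ (-(1 / 6) : ℝ))) := by ring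
      _ = (τ₀ * (B * Real.exp (h / 3)) * g6 (c z.1) (z.2.1.R * x) * L ^ (2 / 3 : ℝ)) *
          (b * cr u) := by rw [key2]; ring
      _ ≤ (τ₀ * (B * Real.exp (h / 3)) * g6 (c z.1) (z.2.1.R * x) * L ^ (2 / 3 : ℝ)) *
            cr (f * (z.2.1.R * x) * (z.2.1.D1 * (z.2.1.Z * y))) :=
          mul_le_mul_of_nonneg_left t2 (by positivity)
      _ = H z.1 (z.2.1.R * x) (z.2.1.D1 * (z.2.1.Z * y)) := by
          simp only [hH]
          rw [← hL]
          ring

end Crest.Agent.R017.E4X266
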