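import Crest.Agent.R017.E4Pn_783

/-!
# Row 17, C70/E4, exceptional class: the principal numbers, class form (helper783)

* `cauchy_o` : Cauchy over the outer index
* `f0_spec` : the symbol part is cube-free
* **`mq1_sum`** : `∑_o (K / N(Sν))^(4/3) Mq1` through the weighted `T`-sum
-/

set_option autoImplicit false
set_option linter.unusedVariables false

noncomputable section

open Finset Complex
open scoped ComplexConjugate

namespace Crest.Agent.R017.E4Pn783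

open Crest.Agent.R012 Crest.Agent.R012.Eis Crest.Agent.R012.GaussLoc283
open Crest.Agent.R012.Mob705 hiding pb mem_pb
open Crest.Agent.R012.Div277
open Crest.Agent.R017.Sx545 (Sm)
open Crest.Agent.R017.C70 (CbF JC OKJ)
open Crest.Agent.R017.End699 (HC)
open Crest.Agent.R017.E4352 (PrI rd Dat4)
open Crest.Agent.R017.E4D164 hiding E4L
open Crest.Agent.R017.E4U164
open Crest.Agent.R017.EnX743
open Crest.Agent.R017.E4X266 (g6 Mq1 Mq0)
open Crest.Agent.R017.E4Df372 (cD)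

/-- Cauchy over the outer index -/
lemma cauchy_o {O : Type*} [Fintype O] {lam M1 Ex : O → ℝ} {K A : ℝ} (hK : 0 ≤ K)
    (hl : ∀ o, 0 < lam o) (hA : 0 ≤ A) (hE : ∀ o, 0 ≤ Ex o)
    (h : ∀ o, M1 o ≤ A * Real.sqrt (Ex o)) :
    ∑ o, (K / lam o) ^ (4 / 3 : ℝ) * M1 o ≤ K ^ (4 / 3 : ℝ) * A *
      (Real.sqrt (∑ o, 1 / lam o) * Real.sqrt (∑ o, lam o ^ (-(5 / 3) : ℝ) * Ex o)) := by
  have h1 : ∀ o, (K / lam o) ^ (4 / 3 : ℝ) * M1 o ≤ (K ^ (4 / 3 : ℝ) * A) *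
      (lam o ^ (-(1 / 2) : ℝ) * (lam o ^ (-(5 / 6) : ℝ) * Real.sqrt (Ex o))) := by
    intro o
    have h2 := hl o
    have e1 : (K / lam o) ^ (4 / 3 : ℝ) = K ^ (4 / 3 : ℝ) *
        (lam o ^ (-(1 / 2) : ℝ) * lam o ^ (-(5 / 6) : ℝ)) := by
      rw [← Real.rpow_add h2, div_eq_mul_inv, Real.mul_rpow hK (by positivity), Real.inv_rpow h2.le,
        ← Real.rpow_neg h2.le]
      norm_num
    rw [e1]
    have h3 : 0 ≤ K ^ (4 / 3 : ℝ) * (lam o ^ (-(1 / 2) : ℝ) * lam o ^ (-(5 / 6) : ℝ)) := by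
      positivity
    refine (mul_le_mul_of_nonneg_left (h o) h3).trans (le_of_eq ?_)
    ring
  refine (sum_le_sum fun o _ => h1 o).trans ?_
  rw [← mul_sum]
  refine mul_le_mul_of_nonneg_left ?_ (by positivity)
  have h4 := Real.sum_mul_le_sqrt_mul_sqrt (univ : Finset O) (fun o => lam o ^ (-(1 / 2) : ℝ))
    (fun o => lam o ^ (-(5 / 6) : ℝ) * Real.sqrt (Ex o))
  refine h4.trans (le_of_eq ?_)
  congr 2
  · refine sum_congr rfl fun o _ => ?_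
    rw [← Real.rpow_natCast, ← Real.rpow_mul (hl o).le,
      show (-(1 / 2) : ℝ) * ((2 : ℕ) : ℝ) = -1 by norm_num, Real.rpow_neg_one, one_div]
  · refine sum_congr rfl fun o _ => ?_
    rw [mul_pow, Real.sq_sqrt (hE o), ← Real.rpow_natCast, ← Real.rpow_mul (hl o).le]
    norm_num

/-- the symbol part is cube-free -/
lemma f0_spec {M E : Eis} (hM : M ≠ 0) (hE : IsPrim E) :
    (∀ t, IsPrim t → t ^ 3 ∣ fN M E → t = 1) ∧
      ∀ t, IsPrim t → t ^ 2 ∣ fN M E → (nm t : ℝ) ≤ (nm (fN M E) : ℝ) ^ (1 / 2 : ℝ) := by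
  obtain ⟨h1, h2, h3⟩ := fM_spec hM hE
  obtain ⟨s1, s2, s3, s4, s5, s6, s7⟩ := sd_spec hE
  refine ⟨fun t ht hd => ?_, fun t ht hd => ?_⟩
  · by_contra hne
    obtain ⟨p, hp, hpt⟩ := exists_pp_dvd ht.not_lam_dvd fun hu =>
      hne (isPrim_eq_one_of_isUnit ht hu)
    have h4 : p ^ 3 ∣ (sd E).1 ^ 2 * (sd E).2.1 := by
      have h5 : p ^ 3 ∣ fS E := ((pow_dvd_pow_of_dvd hpt 3).trans hd).trans
        (by rw [h3]; exact dvd_mul_left _ _)
      exact h5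
    by_cases hp1 : p ∣ (sd E).1
    · have hc : IsCoprime (p ^ 3) (sd E).2.1 := (s5.of_isCoprime_of_dvd_left hp1).pow_left
      have h5 := hc.dvd_of_dvd_mul_right h4
      obtain ⟨k, hk⟩ := hp1
      rw [hk, mul_pow] at h5
      have h6 : p ∣ k ^ 2 := by
        refine (mul_dvd_mul_iff_left (pow_ne_zero 2 hp.prime.ne_zero)).mp ?_
        rw [← pow_succ]
        exact h5
      have h7 : p * p ∣ (sd E).1 := by
        rw [hk]
        exact mul_dvd_mul_left p (hp.prime.dvd_of_dvd_pow h6)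
      exact hp.prime.not_isUnit (s2 p h7)
    · have h5 : p ^ 3 ∣ (sd E).2.1 := by
        have hc : IsCoprime (p ^ 3) ((sd E).1 ^ 2) := by
          refine IsCoprime.pow ?_
          exact (hp.prime.irreducible.coprime_iff_not_dvd).mpr hp1
        exact hc.dvd_of_dvd_mul_left h4
      have h6 : p * p ∣ (sd E).2.1 := (Dvd.intro p (by ring : p * p * p = p ^ 3)).trans h5
      exact hp.prime.not_isUnit (s4 p h6)
  · have h4 := nm_le_of_dvd h2.1.ne_zero hd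
    rw [nm_pow] at h4
    have h5 : ((nm t : ℝ)) ^ 2 ≤ nm (fN M E) := by exact_mod_cast h4
    have h6 : (nm t : ℝ) = ((nm t : ℝ) ^ 2) ^ (1 / 2 : ℝ) := by
      rw [← Real.rpow_natCast, ← Real.rpow_mul (Nat.cast_nonneg _)]
      norm_num
    rw [h6]
    exact Real.rpow_le_rpow (by positivity) h5 (by norm_num)

section xs

variable {M : Eis} {J : Finset (Eis × Eis)} {I : Finset (Eis × (Eis × Eis))}
  {m : ℕ → ℕ → ℕ} {g e₀ t : Eis}

set_option maxHeartbeats 1600000 in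
/-- **the dual principal number, class form** -/
theorem mq1_sum (hJ : OKJ J) (hC : Cls J I (sS g e₀ t) m) {ψ : Eis → ℂ} (hψ : HC M ψ) (l : ℤ)
    {V₁ : ℝ} (hV0 : 0 ≤ V₁)
    (hV : ∀ i ∈ I, (nm (jJ (sS g e₀ t) i) : ℝ) * nm (jD i) ^ 2 * nm (jS (sS g e₀ t) i) ^ 2 ≤ V₁)
    {om : Eis × Eis → ℂ} {ph : Eis → ℂ} (hph : ∀ q, ‖ph q‖ ≤ 1) {E : Eis} (hE : IsPrim E)
    {α : Eis → ℂ} {c₀ g' z : Eis} (hg' : IsPrim g') (hz : PrI M z)
    {b₁ b₂ : Eis → ℂ} {F : Finset (Eis × Eis)} (hF : ∀ p ∈ F, b₁ p.1 ≠ 0 ∧ b₂ p.2 ≠ 0)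
    {V L N Z : ℕ} {B T K : ℝ} (hB : 0 ≤ B) (hK : 0 ≤ K)
    (hb1 : ∀ n, b₁ n ≠ 0 → n ∈ primBall L) (hb2 : ∀ n, b₂ n ≠ 0 → n ∈ primBall N)
    (hb : ∀ n m, ‖b₁ n‖ * ‖b₂ m‖ ≤ B)
    (hv : ∀ (o : OD M I g e₀ t) X, vX M ψ l I om ph E α g e₀ t c₀ g' o X ≠ 0 → nm X ≤ V)
    (hZ : ∀ o : OD M I g e₀ t, nm o.1.2 ≤ Z)
    (hT1 : ∀ l ∈ primBall L, ∀ m ∈ primBall N, (tau (l * m ^ 2) : ℝ) ≤ T)
    (hT2 : ∀ x ∈ primBall V, ∀ l ∈ primBall L, ∀ m ∈ primBall N,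
      (tau (fN M E * x * (l * m ^ 2)) : ℝ) ≤ T)
    (hT3 : ∀ x ∈ primBall V, (tau (fN M E * x) : ℝ) ≤ T) :
    ∑ o : OD M I g e₀ t, (K / lD o) ^ (4 / 3 : ℝ) *
      Mq1 (cD o) 1 (vX M ψ l I om ph E α g e₀ t c₀ g' o) (wX M b₁ b₂ F E z o) ≤
    K ^ (4 / 3 : ℝ) * (((2 : ℝ) ^ (m 0 0 + m 0 1 + m 0 2 + m 1 0 + m 1 1 + m 1 2 + 6)) ^
        (1 / 6 : ℝ) * ((T * B) * (T ^ 2 * ((L : ℝ) ^ (1 - 1 / 3 : ℝ) *
      (N : ℝ) ^ (1 - 2 / 3 : ℝ)) * ((100 * (1 + Real.log L)) * (100 * (1 + Real.log N))))) *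
      Real.sqrt (T ^ 3 * (100 * (1 + Real.log V)))) *
      (Real.sqrt ((100 * 2 ^ (m 1 0 + m 1 1 + m 1 2 + 3)) / 2 ^ EnX743.nSm m *
          (100 * (1 + Real.log Z))) *
        Real.sqrt (V₁ ^ (1 / 3 : ℝ) * (1600 * (((2 : ℝ) ^ EnX743.nSm m) ^ (-(1 / 3) : ℝ) *
          2 ^ (EnX743.nEm m + m 1 0) / 2 ^ EnX743.nSm m) *
            TSd J om α e₀ 1 (fun y => (tau y.2 : ℝ))))) := by
  classical
  have hM : M ≠ 0 := hψ.q0
  obtain ⟨f1, f2, f3⟩ := fM_spec hM hE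
  obtain ⟨c1, c2⟩ := f0_spec hM hE
  set f₀ := fN M E with hf₀
  have hnf : (1 : ℝ) ≤ nm f₀ := by exact_mod_cast nm_pos.2 f2.1.ne_zero
  set G : ℝ := ((2 : ℝ) ^ (m 0 0 + m 0 1 + m 0 2 + m 1 0 + m 1 1 + m 1 2 + 6)) ^ (1 / 6 : ℝ) with hG
  set P : ℝ := T ^ 2 * ((L : ℝ) ^ (1 - 1 / 3 : ℝ) *
      (N : ℝ) ^ (1 - 2 / 3 : ℝ)) * ((100 * (1 + Real.log L)) * (100 * (1 + Real.log N))) with hP
  have hlogL := one_add_log_nonneg L
  have hlogN := one_add_log_nonneg N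
  have hlogV := one_add_log_nonneg V
  have hP0 : 0 ≤ P := by positivity
  have hG0 : 0 ≤ G := by positivity
  by_cases hO : Nonempty (OD M I g e₀ t)
  swap
  · have : IsEmpty (OD M I g e₀ t) := not_nonempty_iff.mp hO
    rw [Finset.univ_eq_empty, Finset.sum_empty]
    by_cases hT0 : 0 ≤ T
    · positivity
    · by_cases hne : (primBall V).Nonempty
      · obtain ⟨x, hx⟩ := hne
        exact absurd ((Nat.cast_nonneg _).trans (hT3 x hx)) hT0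
      · have h1 : Real.sqrt (T ^ 3 * (100 * (1 + Real.log V))) = 0 := by
          refine Real.sqrt_eq_zero_of_nonpos ?_
          have : T ^ 3 ≤ 0 := by
            have h2 : T < 0 := not_le.mp hT0
            nlinarith [sq_nonneg T]
          nlinarith
        rw [h1]
        simp
  by_cases hVe : ∃ (o : OD M I g e₀ t) (X : Eis), vX M ψ l I om ph E α g e₀ t c₀ g' o X ≠ 0
  swap
  · have h0 : ∀ o : OD M I g e₀ t,
        Mq1 (cD o) 1 (vX M ψ l I om ph E α g e₀ t c₀ g' o) (wX M b₁ b₂ F E z o) = 0 := by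
      intro o
      unfold Mq1
      refine (tsum_congr fun x => ?_).trans tsum_zero
      have : vX M ψ l I om ph E α g e₀ t c₀ g' o x = 0 := by
        by_contra h1
        exact hVe ⟨o, x, h1⟩
      rw [this]
      simp
    rw [Finset.sum_congr rfl fun o _ => by rw [h0 o, mul_zero], Finset.sum_const_zero]
    by_cases hT0 : 0 ≤ T
    · positivity
    · have h1 : Real.sqrt (T ^ 3 * (100 * (1 + Real.log V))) = 0 := by
        refine Real.sqrt_eq_zero_of_nonpos ?_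
        have : T ^ 3 ≤ 0 := by
          have h2 : T < 0 := not_le.mp hT0
          nlinarith [sq_nonneg T]
        nlinarith
      rw [h1]
      simp
  have hT0 : 0 ≤ T := by
    obtain ⟨o, X, hX⟩ := hVe
    have h1 := (vX_spec hJ hC o hX).1
    exact (Nat.cast_nonneg _).trans (hT3 X (mem_primBall.mpr ⟨hv o X hX, h1.1⟩))
  have hlp : ∀ o : OD M I g e₀ t, 0 < lD o := by
    intro o
    have h1 : Sm M (o.1.1 * o.1.2) := by
      have ho := o.2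
      unfold OD OU at ho
      exact (mem_filter.mp ho).2
    unfold lD
    exact_mod_cast nm_pos.2 h1.1.ne_zero
  -- one outer index
  have key : ∀ o : OD M I g e₀ t,
      Mq1 (cD o) 1 (vX M ψ l I om ph E α g e₀ t c₀ g' o) (wX M b₁ b₂ F E z o) ≤
      (G * ((T * B) * P) * Real.sqrt (T ^ 3 * (100 * (1 + Real.log V)))) *
        Real.sqrt (∑ X ∈ primBall V, ‖vX M ψ l I om ph E α g e₀ t c₀ g' o X‖ ^ 2 *
          (nm X : ℝ) ^ (1 / 3 : ℝ)) := by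
    intro o
    have hw := fun y hy => wX_spec hM hF hB hb1 hb2 hb hT1 f2 hz o y hy
    have h1 := E4Pq783.mq1_le (c := cD o) (f₀ := f₀) f2.1 c1
      (S₀ := (nm f₀ : ℝ) ^ (1 / 2 : ℝ)) (by positivity) c2
      (v := vX M ψ l I om ph E α g e₀ t c₀ g' o) (w := wX M b₁ b₂ F E z o) (V := V) (L := L)
      (N := N) (B := T * B) (T := T) (G := G) (mul_nonneg hT0 hB) hT0 hG0
      (fun x hx => mem_primBall.mpr ⟨hv o x hx, (vX_spec hJ hC o hx).1.1⟩)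
      (fun y hy => (hw y hy).1) (fun y => by
        by_cases hy : wX M b₁ b₂ F E z o y = 0
        · rw [hy, norm_zero]
          exact mul_nonneg hT0 hB
        · exact (hw y hy).2) (fun x hx => vX_g6 hJ hC o hx) hT2 hT3
    refine h1.trans ?_
    rw [← hP]
    have e1 : Real.sqrt (T ^ 3 * (nm f₀ : ℝ) ^ (1 / 2 : ℝ) * (100 * (1 + Real.log V))) =
        (nm f₀ : ℝ) ^ (1 / 4 : ℝ) * Real.sqrt (T ^ 3 * (100 * (1 + Real.log V))) := by
      rw [show T ^ 3 * (nm f₀ : ℝ) ^ (1 / 2 : ℝ) * (100 * (1 + Real.log V)) =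
        (nm f₀ : ℝ) ^ (1 / 2 : ℝ) * (T ^ 3 * (100 * (1 + Real.log V))) by ring,
        Real.sqrt_mul (by positivity)]
      congr 1
      rw [Real.sqrt_eq_rpow, ← Real.rpow_mul (by positivity)]
      norm_num
    rw [e1]
    have e2 : (nm f₀ : ℝ) ^ (-(1 / 3) : ℝ) * (nm f₀ : ℝ) ^ (1 / 4 : ℝ) ≤ 1 := by
      rw [← Real.rpow_add (by linarith)]
      exact Real.rpow_le_one_of_one_le_of_nonpos hnf (by norm_num)
    set s1 := Real.sqrt (∑ X ∈ primBall V, ‖vX M ψ l I om ph E α g e₀ t c₀ g' o X‖ ^ 2 *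
          (nm X : ℝ) ^ (1 / 3 : ℝ))
    set s2 := Real.sqrt (T ^ 3 * (100 * (1 + Real.log V)))
    have hs1 : 0 ≤ s1 := Real.sqrt_nonneg _
    have hs2 : 0 ≤ s2 := Real.sqrt_nonneg _
    have hTB : 0 ≤ T * B := mul_nonneg hT0 hB
    calc G * (T * B * (nm f₀ : ℝ) ^ (-(1 / 3) : ℝ) * P) * (s1 * ((nm f₀ : ℝ) ^ (1 / 4 : ℝ) * s2))
        = (G * ((T * B) * P) * s2 * s1) *
            ((nm f₀ : ℝ) ^ (-(1 / 3) : ℝ) * (nm f₀ : ℝ) ^ (1 / 4 : ℝ)) := by ring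
      _ ≤ (G * ((T * B) * P) * s2 * s1) * 1 := mul_le_mul_of_nonneg_left e2 (by positivity)
      _ = _ := by ring
  have hA0 : 0 ≤ G * ((T * B) * P) * Real.sqrt (T ^ 3 * (100 * (1 + Real.log V))) := by
    have hTB : 0 ≤ T * B := mul_nonneg hT0 hB
    positivity
  refine (cauchy_o hK hlp hA0 (fun o => sum_nonneg fun _ _ => by positivity) key).trans ?_
  refine mul_le_mul_of_nonneg_left ?_ (by positivity)
  have h2 := Real.sqrt_le_sqrt (sum_lam (e₀ := e₀) (g := g) (t := t) (M := M) hJ hC hZ)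
  have h3 := Real.sqrt_le_sqrt (en_o hJ hC hψ l hV0 hV (om := om) hph hE (α := α) (c₀ := c₀) hg' V)
  exact mul_le_mul h2 h3 (Real.sqrt_nonneg _) (Real.sqrt_nonneg _)

end xs

end Crest.Agent.R017.E4Pn783
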