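import Crest.Agent.R017.E4Pq_266

/-!
# Row 17, C70/E4 exceptional class: principal frequencies (helper266), II

* `pr_term` : `‖gs u d‖ ≤ nm d^(2/3) cr u g6 c x nm D^(-1/6)` at principal `d`
* `pr_e` : `d = d0 e³` with `gs u d ≠ 0` has `e ∣ u`
* `prC_d0` : the principal `d` are the `d0 e³`
-/

set_option autoImplicit false

noncomputable section

open Complex
open scoped ComplexConjugate

namespace Crest.Agent.R017.E4X266

open Crest.Agent.R012 Crest.Agent.R012.Eis Crest.Agent.R012.Mob705 Crest.Agent.R012.Gauss880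
open Crest.Agent.R012.Div277
open Crest.Agent.R017.Sx545 (Sm)
open Crest.Agent.R017.C70 (CbF)
open Crest.Agent.R017.E4Pr266 (cr le_cr cr_nonneg)

/-- cancellation of cubes -/
lemma cube_cancel {n g z : Eis} (hg : g ≠ 0) (h : n * g ^ 3 = z ^ 3) : ∃ w, n = w ^ 3 := by
  have h1 : g ∣ z := by
    have h2 : g ^ 3 ∣ z ^ 3 := ⟨n, by rw [← h]; ring⟩
    exact (UniqueFactorizationMonoid.pow_dvd_pow_iff_dvd (by norm_num)).mp h2
  obtain ⟨w, rfl⟩ := h1
  refine ⟨w, mul_right_cancel₀ (pow_ne_zero 3 hg) ?_⟩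
  rw [h]; ring

/-- a prime dividing a cube exactly with exponent `1` or `2` -/
lemma not_cube_one {p r w : Eis} (hp : Prime p) (h : p * r = w ^ 3) : p ∣ r := by
  have h1 : p ∣ w := hp.dvd_of_dvd_pow (n := 3) ⟨r, h.symm⟩
  obtain ⟨s, rfl⟩ := h1
  have h2 : p * r = p * (p * (p * s ^ 3)) := by rw [h]; ring
  have h3 := mul_left_cancel₀ hp.ne_zero h2
  exact ⟨_, h3⟩

lemma not_cube_two {p r w : Eis} (hp : Prime p) (h : p ^ 2 * r = w ^ 3) : p ∣ r := by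
  have h1 : p ∣ w := hp.dvd_of_dvd_pow (n := 3) ⟨p * r, by rw [← h]; ring⟩
  obtain ⟨s, rfl⟩ := h1
  have h2 : p ^ 2 * r = p ^ 2 * (p * s ^ 3) := by rw [h]; ring
  have h3 := mul_left_cancel₀ (pow_ne_zero 2 hp.ne_zero) h2
  exact ⟨_, h3⟩

/-- the norm of a squarefree number -/
lemma nm_sqf {a : Eis} (ha : IsPrim a) (hs : Squarefree a) :
    (nm a : ℝ) = ∏ p ∈ pp a, (nm p : ℝ) := by
  have h := congrArg nm (prod_pp ha hs)
  rw [Mob705.nm_prod] at h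
  rw [← h]
  push_cast
  rfl

lemma nm_pos' {p : Eis} (hp : IsPP p) : (1 : ℝ) ≤ nm p := by
  exact_mod_cast hp.one_lt_nm.le

open Classical in
/-- **one principal frequency** -/
theorem pr_term {u c D d x : Eis} (hu : u ≠ 0) (hc : IsPrim c) (hD : IsPrim D)
    (hDs : Squarefree D) (hcD : IsCoprime c D)
    (hx : ∀ p, IsPP p → p ∣ c → p ∣ u → p ∣ x) (hd : IsPrim d) (hP : PrC c D d)
    (h0 : gs u d ≠ 0) :
    ‖gs u d‖ ≤ (nm d : ℝ) ^ (2 / 3 : ℝ) * (cr u * (g6 c x * (nm D : ℝ) ^ (-(1 / 6) : ℝ))) ∧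
      ∃ a g : Eis, IsPrim a ∧ IsPrim g ∧ CbF a ∧ g ∣ u ∧ d = a * g ^ 3 := by
  obtain ⟨a, b, g, t, ha, hb, hg, ht, hsq, hdd, hau, hgu, htg, htu, hn⟩ :=
    gs_pr_le hu (nm d) d le_rfl hd h0
  have hsa : Squarefree a := hsq.squarefree_of_dvd (dvd_mul_right _ _)
  have hsb : Squarefree b := hsq.squarefree_of_dvd (dvd_mul_left _ _)
  -- the cube relation
  obtain ⟨z, hz⟩ := hP
  have h1 : (c * (a ^ 2 * b) * D ^ 2) * g ^ 3 = z ^ 3 := by rw [← hz, hdd]; ring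
  obtain ⟨w, hw⟩ := cube_cancel hg.ne_zero h1
  -- no common primes of `a` and `D`
  have key : ∀ p, IsPP p → p ∣ a → (p ∣ c ∧ ¬ p ∣ D) := by
    intro p hp hpa
    have hpb : ¬ p ∣ b := fun h => by
      obtain ⟨a', rfl⟩ := hpa
      obtain ⟨b', rfl⟩ := h
      exact hp.prime.not_isUnit (hsq p ⟨a' * b', by ring⟩)
    obtain ⟨a', rfl⟩ := hpa
    have hpa' : ¬ p ∣ a' := fun h => by
      obtain ⟨s, rfl⟩ := h
      exact hp.prime.not_isUnit (hsa p ⟨s, by ring⟩)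
    by_cases hpD : p ∣ D
    · exfalso
      have hpc : ¬ p ∣ c := fun h => hp.prime.not_isUnit (hcD.isUnit_of_dvd' h hpD)
      obtain ⟨D', rfl⟩ := hpD
      have hpD' : ¬ p ∣ D' := fun h => by
        obtain ⟨s, rfl⟩ := h
        exact hp.prime.not_isUnit (hDs p ⟨s, by ring⟩)
      have h2 : (p * (c * a' ^ 2 * b * D' ^ 2)) * p ^ 3 = w ^ 3 := by rw [← hw]; ring
      obtain ⟨w', hw'⟩ := cube_cancel hp.ne_zero h2
      have h3 := not_cube_one hp.prime hw'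
      rcases hp.prime.dvd_or_dvd h3 with h4 | h4
      · rcases hp.prime.dvd_or_dvd h4 with h5 | h5
        · rcases hp.prime.dvd_or_dvd h5 with h6 | h6
          · exact hpc h6
          · exact hpa' (hp.prime.dvd_of_dvd_pow h6)
        · exact hpb h5
      · exact hpD' (hp.prime.dvd_of_dvd_pow h4)
    · refine ⟨?_, hpD⟩
      have h2 : p ^ 2 * (c * a' ^ 2 * b * D ^ 2) = w ^ 3 := by rw [← hw]; ring
      have h3 := not_cube_two hp.prime h2
      rcases hp.prime.dvd_or_dvd h3 with h4 | h4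
      · rcases hp.prime.dvd_or_dvd h4 with h5 | h5
        · rcases hp.prime.dvd_or_dvd h5 with h6 | h6
          · exact h6
          · exact absurd (hp.prime.dvd_of_dvd_pow h6) hpa'
        · exact absurd h5 hpb
      · exact absurd (hp.prime.dvd_of_dvd_pow h4) hpD
  have keyD : ∀ p, IsPP p → p ∣ D → p ∣ b := by
    intro p hp hpD
    have hpc : ¬ p ∣ c := fun h => hp.prime.not_isUnit (hcD.isUnit_of_dvd' h hpD)
    have hpa : ¬ p ∣ a := fun h => (key p hp h).2 hpD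
    obtain ⟨D', rfl⟩ := hpD
    have hpD' : ¬ p ∣ D' := fun h => by
      obtain ⟨s, rfl⟩ := h
      exact hp.prime.not_isUnit (hDs p ⟨s, by ring⟩)
    have h2 : p ^ 2 * (c * (a ^ 2 * b) * D' ^ 2) = w ^ 3 := by rw [← hw]; ring
    have h3 := not_cube_two hp.prime h2
    rcases hp.prime.dvd_or_dvd h3 with h4 | h4
    · rcases hp.prime.dvd_or_dvd h4 with h5 | h5
      · exact absurd h5 hpc
      · rcases hp.prime.dvd_or_dvd h5 with h6 | h6
        · exact absurd (hp.prime.dvd_of_dvd_pow h6) hpa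
        · exact h6
    · exact absurd (hp.prime.dvd_of_dvd_pow h4) hpD'
  -- sizes
  have s1 : (nm a : ℝ) ^ (1 / 6 : ℝ) ≤ g6 c x := by
    rw [nm_sqf ha hsa, ← Real.finsetProd_rpow _ _ (fun p _ => Nat.cast_nonneg _)]
    unfold g6
    refine Finset.prod_le_prod_of_subset_of_one_le (fun p hp => ?_) (fun p _ => by positivity)
      (fun p hp _ => ?_)
    · obtain ⟨q1, q2⟩ := (mem_pp ha.ne_zero).mp hp
      have q3 := (key p q1 q2).1
      exact Finset.mem_filter.mpr ⟨(mem_pp hc.ne_zero).mpr ⟨q1, q3⟩, hx p q1 q3 (q2.trans hau)⟩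
    · obtain ⟨q1, q2⟩ := (mem_pp hc.ne_zero).mp (Finset.mem_filter.mp hp).1
      exact Real.one_le_rpow (nm_pos' q1) (by norm_num)
  have s2 : (nm b : ℝ) ^ (-(1 / 6) : ℝ) ≤ (nm D : ℝ) ^ (-(1 / 6) : ℝ) := by
    have hD1 : (0 : ℝ) < nm D := by exact_mod_cast nm_pos.mpr hD.ne_zero
    refine Real.rpow_le_rpow_of_nonpos hD1 ?_ (by norm_num)
    rw [nm_sqf hD hDs, nm_sqf hb hsb]
    refine Finset.prod_le_prod_of_subset_of_one_le (fun p hp => ?_) (fun p _ => Nat.cast_nonneg _)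
      (fun p hp _ => ?_)
    · obtain ⟨q1, q2⟩ := (mem_pp hD.ne_zero).mp hp
      exact (mem_pp hb.ne_zero).mpr ⟨q1, keyD p q1 q2⟩
    · exact nm_pos' ((mem_pp hb.ne_zero).mp hp).1
  have hD1 : (0 : ℝ) < nm D := by exact_mod_cast nm_pos.mpr hD.ne_zero
  have hg0 : 0 ≤ g6 c x := Finset.prod_nonneg fun p _ => by positivity
  refine ⟨?_, a ^ 2 * b, g, (ha.pow 2).mul hb, hg, ?_, hgu, hdd⟩
  · have h5 := le_cr hu ht htu
    have h6 : (0 : ℝ) ≤ nm t := Nat.cast_nonneg _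
    have h7 := cr_nonneg u
    calc ‖gs u d‖ ≤ (nm d : ℝ) ^ (2 / 3 : ℝ) * nm t *
        ((nm a : ℝ) ^ (1 / 6 : ℝ) * (nm b : ℝ) ^ (-(1 / 6) : ℝ)) := hn
      _ ≤ (nm d : ℝ) ^ (2 / 3 : ℝ) * cr u * (g6 c x * (nm D : ℝ) ^ (-(1 / 6) : ℝ)) := by gcongr
      _ = _ := by ring
  · intro p hp h
    by_cases hpa : p ∣ a
    · have hpb : ¬ p ∣ b := fun h' => by
        obtain ⟨a', rfl⟩ := hpa
        obtain ⟨b', rfl⟩ := h'
        exact hp.not_isUnit (hsq p ⟨a' * b', by ring⟩)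
      obtain ⟨a', rfl⟩ := hpa
      have hpa' : ¬ p ∣ a' := fun h => by
        obtain ⟨s, rfl⟩ := h
        exact hp.not_isUnit (hsa p ⟨s, by ring⟩)
      have h2 : p ∣ a' ^ 2 * b := by
        obtain ⟨r, hr⟩ := h
        refine ⟨r, mul_left_cancel₀ (pow_ne_zero 2 hp.ne_zero) ?_⟩
        calc p ^ 2 * (a' ^ 2 * b) = (p * a') ^ 2 * b := by ring
          _ = _ := by rw [hr]; ring
      rcases hp.dvd_or_dvd h2 with h3 | h3
      · exact hpa' (hp.dvd_of_dvd_pow h3)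
      · exact hpb h3
    · have h2 : p ^ 3 ∣ b := hp.pow_dvd_of_dvd_mul_left 3 (fun h' => hpa (hp.dvd_of_dvd_pow h')) h
      refine hp.not_isUnit (hsb p ?_)
      exact (show p * p ∣ p ^ 3 from ⟨p, by ring⟩).trans h2

/-- **the sum over the principal frequencies** -/
theorem pr_sum {M u c D x : Eis} (hu : u ≠ 0) (hc : IsPrim c) (hD : IsPrim D)
    (hDs : Squarefree D) (hcD : IsCoprime c D)
    (hx : ∀ p, IsPP p → p ∣ c → p ∣ u → p ∣ x) {G : Eis → ℂ} {Γ : ℝ} (hΓ : 0 ≤ Γ)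
    (hG : ∀ d, Sm M d → PrC c D d → ‖G d‖ * (nm d : ℝ) ^ (2 / 3 : ℝ) ≤ Γ)
    (F : Eis → ℂ) (hF1 : ∀ d, Sm M d → PrC c D d → F d = conj (gs u d) * G d)
    (hF0 : ∀ d, ¬ (Sm M d ∧ PrC c D d) → F d = 0) :
    ‖∑' d : Eis, F d‖ ≤ tau u * (Γ * (cr u * (g6 c x * (nm D : ℝ) ^ (-(1 / 6) : ℝ)))) := by
  classical
  have hcr := cr_nonneg u
  have hg0 : 0 ≤ g6 c x := Finset.prod_nonneg fun p _ => by positivity
  obtain ⟨d0, hd0, hcf, hd0i⟩ := exists_d0 (hc.mul (hD.pow 2))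
  have hpr : ∀ d, IsPrim d → (PrC c D d ↔ ∃ e, IsPrim e ∧ d = d0 * e ^ 3) := by
    intro d hd
    rw [← hd0i d hd]
    unfold PrC
    constructor
    · rintro ⟨z, hz⟩; exact ⟨z, by rw [← hz]; ring⟩
    · rintro ⟨z, hz⟩; exact ⟨z, by rw [← hz]; ring⟩
  set T : Finset Eis := (dvs u).image (fun e => d0 * e ^ 3) with hT
  set A : ℝ := Γ * (cr u * (g6 c x * (nm D : ℝ) ^ (-(1 / 6) : ℝ))) with hA
  have hA0 : 0 ≤ A := by positivity
  have hterm : ∀ d, ‖F d‖ ≤ A := by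
    intro d
    by_cases h : Sm M d ∧ PrC c D d
    · rw [hF1 d h.1 h.2]
      by_cases h0 : gs u d = 0
      · rw [h0]; simpa using hA0
      · have h1 := (pr_term hu hc hD hDs hcD hx h.1.prim h.2 h0).1
        have h2 := hG d h.1 h.2
        rw [norm_mul, RCLike.norm_conj]
        have h3 : 0 ≤ cr u * (g6 c x * (nm D : ℝ) ^ (-(1 / 6) : ℝ)) := by positivity
        calc ‖gs u d‖ * ‖G d‖ ≤ ((nm d : ℝ) ^ (2 / 3 : ℝ) *
              (cr u * (g6 c x * (nm D : ℝ) ^ (-(1 / 6) : ℝ)))) * ‖G d‖ := by gcongr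
          _ = (‖G d‖ * (nm d : ℝ) ^ (2 / 3 : ℝ)) *
              (cr u * (g6 c x * (nm D : ℝ) ^ (-(1 / 6) : ℝ))) := by ring
          _ ≤ A := by rw [hA]; gcongr
    · rw [hF0 d h, norm_zero]; exact hA0
  have hsupp : ∀ d, d ∉ T → F d = 0 := by
    intro d hd
    by_cases h : Sm M d ∧ PrC c D d
    · rw [hF1 d h.1 h.2]
      by_cases h0 : gs u d = 0
      · rw [h0]; simp
      · exfalso
        obtain ⟨e, he, hde⟩ := (hpr d h.1.prim).mp h.2
        obtain ⟨a, g, ha, hg, hca, hgu, hdd⟩ :=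
          (pr_term hu hc hD hDs hcD hx h.1.prim h.2 h0).2
        have h5 : e ∣ g := E5Q571.dvd_of_cube_dvd ha hg he hca
          ⟨d0, by rw [← hdd, hde]; ring⟩
        exact hd (Finset.mem_image.mpr ⟨e, (mem_dvs hu).mpr ⟨he, h5.trans hgu⟩, hde.symm⟩)
    · exact hF0 d h
  rw [tsum_eq_sum (s := T) fun d hd => hsupp d hd]
  refine (norm_sum_le _ _).trans ((Finset.sum_le_card_nsmul T _ A fun d _ => hterm d).trans ?_)
  rw [nsmul_eq_mul]
  refine mul_le_mul_of_nonneg_right ?_ hA0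
  unfold tau
  exact_mod_cast Finset.card_image_le

end Crest.Agent.R017.E4X266
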