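import Crest.Agent.R017.E4v7y_266
import Crest.Agent.R017.CubL_813

/-!
# Row 17, C70/E4 exceptional class: principal frequencies `c d D² = cube` (helper266)

* `gs_pr_le` : the size of `gs u d` for arbitrary `d`, in terms of the type `d = a² b g³`
* `exists_d0` : the principal `d` are `d0 e³`
* `pr_term` : `‖gs u d‖ ≤ nm d^(2/3) cr u g6 c x nm D^(-1/6)` at principal `d`
* `pr_sum` : sums over the principal `d`
-/

set_option autoImplicit false

noncomputable section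

open Complex
open scoped ComplexConjugate

namespace Crest.Agent.R017.E4X266

open Crest.Agent.R012 Crest.Agent.R012.Eis Crest.Agent.R012.Mob705 Crest.Agent.R012.Gauss880
open Crest.Agent.R012.Div277
open Crest.Agent.R012.GaussLoc283 (syAx norm_gs_le gs_table_succ gs_table_ge gs_table_le
  gs_one_right)
open Crest.Agent.R017.Sx545 (Sm)
open Crest.Agent.R017.C70 (CbF)
open Crest.Agent.R017.E4BW858 (exists_val norm_gs_mul_le norm_gs_prime)
open Crest.Agent.R017.E4Pr266 (cr le_cr cr_nonneg)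

/-- one prime -/
lemma gs_local {u p : Eis} (hu : u ≠ 0) (hp : IsPP p) {k : ℕ} (hk : 1 ≤ k)
    (h0 : gs u (p ^ k) ≠ 0) :
    ∃ α β γ τ : ℕ, α + β ≤ 1 ∧ k = 2 * α + β + 3 * γ ∧ τ ≤ γ ∧ p ^ α ∣ u ∧ p ^ γ ∣ u ∧
      p ^ (3 * τ) ∣ u ∧ ‖gs u (p ^ k)‖ ≤ ((nm p : ℝ) ^ k) ^ (2 / 3 : ℝ) * (nm p : ℝ) ^ τ *
        (((nm p : ℝ) ^ α) ^ (1 / 6 : ℝ) * ((nm p : ℝ) ^ β) ^ (-(1 / 6) : ℝ)) := by
  have hN0 : (0 : ℝ) < nm p := by exact_mod_cast nm_pos.mpr hp.ne_zero
  obtain ⟨a, r, rfl, hr⟩ := exists_val hu hp.prime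
  have ha : k ≤ a + 1 := by
    by_contra h
    exact h0 (gs_table_ge syAx hp.isPrim hp.prime hr (by omega))
  have hpow : ∀ {n : ℕ}, n ≤ a → p ^ n ∣ r * p ^ a := fun h => (pow_dvd_pow p h).mul_left r
  have hR : ∀ (n : ℕ) (t : ℝ), ((nm p : ℝ) ^ n) ^ t = (nm p : ℝ) ^ ((n : ℝ) * t) := fun n t => by
    rw [← Real.rpow_natCast, ← Real.rpow_mul hN0.le]
  rcases Nat.lt_or_ge a k with h1 | h1
  · have hk2 : k = a + 1 := by omega
    subst hk2
    have h5 := gs_table_succ syAx hp.isPrim hp.prime hr a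
    have hm : a % 3 = 0 ∨ a % 3 = 1 ∨ a % 3 = 2 := by omega
    rcases hm with hm | hm | hm
    · obtain ⟨i, rfl⟩ : ∃ i, a = 3 * i := ⟨a / 3, by omega⟩
      refine ⟨0, 1, i, i, by omega, by omega, le_rfl, by simp, hpow (by omega), hpow (by omega), ?_⟩
      rw [h5, if_pos (by omega), norm_mul, norm_pow, Complex.norm_natCast, norm_gs_prime hp hr]
      rw [hR, hR, hR, ← Real.rpow_natCast (nm p : ℝ) i, ← Real.rpow_natCast (nm p : ℝ) (3 * i),
        ← Real.rpow_add hN0, ← Real.rpow_add hN0, ← Real.rpow_add hN0, ← Real.rpow_add hN0]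
      apply le_of_eq
      congr 1
      push_cast
      ring
    · obtain ⟨i, rfl⟩ : ∃ i, a = 3 * i + 1 := ⟨a / 3, by omega⟩
      refine ⟨1, 0, i, i, by omega, by omega, le_rfl, hpow (by omega), hpow (by omega),
        hpow (by omega), ?_⟩
      rw [h5, if_neg (by omega), if_pos (by omega), norm_mul, norm_pow, Complex.norm_natCast,
        RCLike.norm_conj, norm_gs_prime hp hr]
      rw [hR, hR, hR, ← Real.rpow_natCast (nm p : ℝ) i,
        ← Real.rpow_natCast (nm p : ℝ) (3 * i + 1),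
        ← Real.rpow_add hN0, ← Real.rpow_add hN0, ← Real.rpow_add hN0, ← Real.rpow_add hN0]
      apply le_of_eq
      congr 1
      push_cast
      ring
    · obtain ⟨i, rfl⟩ : ∃ i, a = 3 * i + 2 := ⟨a / 3, by omega⟩
      refine ⟨0, 0, i + 1, i, by omega, by omega, by omega, by simp, hpow (by omega),
        hpow (by omega), ?_⟩
      rw [h5, if_neg (by omega), if_neg (by omega), norm_mul, norm_pow, Complex.norm_natCast,
        norm_neg, norm_one]
      rw [hR, hR, hR, ← Real.rpow_natCast (nm p : ℝ) i,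
        ← Real.rpow_natCast (nm p : ℝ) (3 * i + 2), mul_one,
        ← Real.rpow_add hN0, ← Real.rpow_add hN0, ← Real.rpow_add hN0]
      apply le_of_eq
      congr 1
      push_cast
      ring
  · -- `k ≤ a`
    obtain ⟨k', rfl⟩ : ∃ k', k = k' + 1 := ⟨k - 1, by omega⟩
    have h5 := gs_table_le syAx (r := r) hp.isPrim hp.prime (a := a) (k := k') (by omega)
    have h3 : (k' + 1) % 3 = 0 := by
      by_contra hcon
      rw [if_neg hcon] at h5
      exact h0 h5
    obtain ⟨i, hi⟩ : ∃ i, k' + 1 = 3 * i := ⟨(k' + 1) / 3, by omega⟩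
    refine ⟨0, 0, i, i, by omega, by omega, le_rfl, by simp, hpow (by omega), hpow (by omega), ?_⟩
    have h6 := norm_gs_le syAx (r * p ^ a) (hp.isPrim.pow (k' + 1))
    rw [nm_pow, Nat.cast_pow] at h6
    refine h6.trans (le_of_eq ?_)
    rw [hi, hR, hR, hR, ← Real.rpow_natCast (nm p : ℝ) i, ← Real.rpow_natCast (nm p : ℝ) (3 * i),
      ← Real.rpow_add hN0, ← Real.rpow_add hN0, ← Real.rpow_add hN0]
    congr 1
    push_cast
    ring

lemma sqf_pow_le_one {p : Eis} (hp : Prime p) {α : ℕ} (h : α ≤ 1) : Squarefree (p ^ α) := by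
  rcases Nat.lt_or_ge α 1 with h1 | h1
  · have : α = 0 := by omega
    subst this
    rw [pow_zero]
    exact squarefree_one
  · have : α = 1 := by omega
    subst this
    rw [pow_one]
    exact hp.squarefree

/-- **the size of a Gauss sum** in terms of the type `d = a² b g³` -/
theorem gs_pr_le {u : Eis} (hu : u ≠ 0) : ∀ (N : ℕ) (d : Eis), nm d ≤ N → IsPrim d →
    gs u d ≠ 0 → ∃ a b g t : Eis, IsPrim a ∧ IsPrim b ∧ IsPrim g ∧ IsPrim t ∧
      Squarefree (a * b) ∧ d = a ^ 2 * b * g ^ 3 ∧ a ∣ u ∧ g ∣ u ∧ t ∣ g ∧ t ^ 3 ∣ u ∧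
      ‖gs u d‖ ≤ (nm d : ℝ) ^ (2 / 3 : ℝ) * nm t *
        ((nm a : ℝ) ^ (1 / 6 : ℝ) * (nm b : ℝ) ^ (-(1 / 6) : ℝ)) := by
  intro N
  induction N with
  | zero =>
    intro b hb hbp
    exact absurd (nm_eq_zero.mp (Nat.le_zero.mp hb)) hbp.ne_zero
  | succ N ih =>
    intro d hb hbp h0
    by_cases h1 : d = 1
    · subst h1
      refine ⟨1, 1, 1, 1, isPrim_one, isPrim_one, isPrim_one, isPrim_one, by simp, by simp,
        one_dvd _, one_dvd _, one_dvd _, by simp, ?_⟩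
      rw [gs_one_right syAx]
      simp
    · obtain ⟨p, hp, hpb⟩ := exists_pp_dvd_of_isPrim hbp h1
      obtain ⟨k, d', rfl, hb'⟩ := exists_val hbp.ne_zero hp.prime
      rw [mul_comm] at hb hbp hpb h0 ⊢
      have hb'p : IsPrim d' := hbp.of_mul_left (hp.isPrim.pow k)
      have hk : 1 ≤ k := by
        by_contra h
        have : k = 0 := by omega
        subst this
        rw [pow_zero, one_mul] at hpb
        exact hb' hpb
      have hlt : nm d' ≤ N := by
        rw [nm_mul, nm_pow] at hb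
        have h2 : 1 ≤ nm d' := nm_pos.mpr hb'p.ne_zero
        have h3 : 2 ≤ nm p ^ k := by
          calc 2 ≤ nm p := hp.one_lt_nm
            _ = nm p ^ 1 := (pow_one _).symm
            _ ≤ nm p ^ k := Nat.pow_le_pow_right (by have := hp.one_lt_nm; omega) hk
        nlinarith
      have hcop0 : IsCoprime p d' := (hp.isCoprime_iff).mpr hb'
      have hcop : IsCoprime (p ^ k) d' := hcop0.pow_left
      have hle := norm_gs_mul_le (u := u) (hp.isPrim.pow k) hb'p hcop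
      have hne : ‖gs u (p ^ k)‖ * ‖gs u d'‖ ≠ 0 := fun h =>
        h0 (norm_eq_zero.mp (le_antisymm (h ▸ hle) (norm_nonneg _)))
      have hn1 : gs u (p ^ k) ≠ 0 := norm_ne_zero_iff.mp (left_ne_zero_of_mul hne)
      have hn2 : gs u d' ≠ 0 := norm_ne_zero_iff.mp (right_ne_zero_of_mul hne)
      obtain ⟨α, β, γ, τ, hαβ, hkk, hτγ, hα, hγ, hτ, hn⟩ := gs_local hu hp hk hn1
      obtain ⟨a, b, g, t, ha, hbb, hg, ht, hsq, hd', hau, hgu, htg, htu, hnn⟩ := ih d' hlt hb'p hn2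
      have had : a ∣ d' := ⟨a * b * g ^ 3, by rw [hd']; ring⟩
      have hbd : b ∣ d' := ⟨a ^ 2 * g ^ 3, by rw [hd']; ring⟩
      have hgd : g ∣ d' := ⟨a ^ 2 * b * g ^ 2, by rw [hd']; ring⟩
      have cpa : IsCoprime p a := hcop0.of_isCoprime_of_dvd_right had
      have cpb : IsCoprime p b := hcop0.of_isCoprime_of_dvd_right hbd
      have cpg : IsCoprime p g := hcop0.of_isCoprime_of_dvd_right hgd
      have cpt : IsCoprime p t := cpg.of_isCoprime_of_dvd_right htg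
      refine ⟨p ^ α * a, p ^ β * b, p ^ γ * g, p ^ τ * t, (hp.isPrim.pow α).mul ha,
        (hp.isPrim.pow β).mul hbb, (hp.isPrim.pow γ).mul hg, (hp.isPrim.pow τ).mul ht, ?_, ?_,
        IsCoprime.mul_dvd cpa.pow_left hα hau, IsCoprime.mul_dvd cpg.pow_left hγ hgu,
        mul_dvd_mul (pow_dvd_pow p hτγ) htg, ?_, ?_⟩
      · have e1 : p ^ α * a * (p ^ β * b) = p ^ (α + β) * (a * b) := by rw [pow_add]; ring
        rw [e1, squarefree_mul_iff]
        exact ⟨(cpa.mul_right cpb).pow_left.isRelPrime, sqf_pow_le_one hp.prime hαβ, hsq⟩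
      · rw [hd', hkk, pow_add, pow_add, pow_mul, pow_mul]
        ring
      · have e2 : (p ^ τ * t) ^ 3 = p ^ (3 * τ) * t ^ 3 := by rw [mul_pow, ← pow_mul]; ring
        rw [e2]
        exact IsCoprime.mul_dvd (cpt.pow_left.pow_right) hτ htu
      · have hP0 : (0 : ℝ) < nm p := by exact_mod_cast nm_pos.mpr hp.ne_zero
        have a1 : (nm (p ^ k * d') : ℝ) = (nm p : ℝ) ^ k * nm d' := by
          rw [nm_mul, nm_pow]; push_cast; ring
        have a2 : (nm (p ^ τ * t) : ℝ) = (nm p : ℝ) ^ τ * nm t := by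
          rw [nm_mul, nm_pow]; push_cast; ring
        have a3 : (nm (p ^ α * a) : ℝ) = (nm p : ℝ) ^ α * nm a := by
          rw [nm_mul, nm_pow]; push_cast; ring
        have a4 : (nm (p ^ β * b) : ℝ) = (nm p : ℝ) ^ β * nm b := by
          rw [nm_mul, nm_pow]; push_cast; ring
        have hna : (0 : ℝ) ≤ nm a := Nat.cast_nonneg _
        have hnb : (0 : ℝ) ≤ nm b := Nat.cast_nonneg _
        have hnd : (0 : ℝ) ≤ nm d' := Nat.cast_nonneg _
        rw [a1, a2, a3, a4, Real.mul_rpow (by positivity) hnd, Real.mul_rpow (by positivity) hna,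
          Real.mul_rpow (by positivity) hnb]
        refine hle.trans ?_
        calc ‖gs u (p ^ k)‖ * ‖gs u d'‖ ≤
            (((nm p : ℝ) ^ k) ^ (2 / 3 : ℝ) * (nm p : ℝ) ^ τ *
              (((nm p : ℝ) ^ α) ^ (1 / 6 : ℝ) * ((nm p : ℝ) ^ β) ^ (-(1 / 6) : ℝ))) *
            ((nm d' : ℝ) ^ (2 / 3 : ℝ) * nm t *
              ((nm a : ℝ) ^ (1 / 6 : ℝ) * (nm b : ℝ) ^ (-(1 / 6) : ℝ))) :=
            mul_le_mul hn hnn (norm_nonneg _) (by positivity)
          _ = _ := by ring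

/-- cube-free complement -/
lemma exists_d0 {n : Eis} (hn : IsPrim n) : ∃ d0 : Eis, IsPrim d0 ∧ CbF d0 ∧
    ∀ d : Eis, IsPrim d → ((∃ z, n * d = z ^ 3) ↔ ∃ e, IsPrim e ∧ d = d0 * e ^ 3) := by
  obtain ⟨d0, g, hd0, hg, hcf, h2⟩ := E5b54.exists_cf_prim (hn.pow 2)
  have hgn : g ∣ n := by
    refine E5Q571.dvd_of_cube_dvd isPrim_one hn hg
      (fun p hp h => hp.not_isUnit (isUnit_of_dvd_one ((dvd_pow_self p (by norm_num)).trans h))) ?_
    exact ⟨d0 * n, by
      calc 1 * n ^ 3 = n ^ 2 * n := by ring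
        _ = _ := by rw [h2]; ring⟩
  obtain ⟨y, hy⟩ := hgn
  have hyp : IsPrim y := by
    have : IsPrim (g * y) := by rw [← hy]; exact hn
    exact this.of_mul_left hg
  -- `n d0 = y³`
  have hnd : n * d0 = y ^ 3 := by
    apply mul_left_cancel₀ (pow_ne_zero 3 hg.ne_zero)
    calc g ^ 3 * (n * d0) = n * (d0 * g ^ 3) := by ring
      _ = n * n ^ 2 := by rw [h2]
      _ = (g * y) ^ 3 := by rw [← hy]; ring
      _ = g ^ 3 * y ^ 3 := by ring
  refine ⟨d0, hd0, hcf, fun d hd => ⟨?_, ?_⟩⟩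
  · rintro ⟨z, hz⟩
    have hz3 : IsPrim (z ^ 3) := by rw [← hz]; exact hn.mul hd
    have h4 : ¬ Eis.lam ∣ z := fun h =>
      hz3.not_lam_dvd (h.trans (dvd_pow_self z (by norm_num)))
    set z' := prim z with hz'
    have hzp : IsPrim z' := prim_isPrim h4
    have e3 : z' ^ 3 = z ^ 3 := E4Pr266.eq_of_cube hzp hz3 (prim_associated z).symm
    -- `d y³ = d0 z'³`
    have h5 : d * y ^ 3 = d0 * z' ^ 3 := by rw [e3, ← hz, ← hnd]; ring
    have h6 : y ∣ z' := E5Q571.dvd_of_cube_dvd hd0 hzp hyp hcf ⟨d, by rw [← h5]; ring⟩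
    obtain ⟨e, he⟩ := h6
    refine ⟨e, (by rw [he] at hzp; exact hzp.of_mul_left hyp), ?_⟩
    apply mul_right_cancel₀ (pow_ne_zero 3 hyp.ne_zero)
    rw [h5, he]; ring
  · rintro ⟨e, -, rfl⟩
    exact ⟨y * e, by
      calc n * (d0 * e ^ 3) = (n * d0) * e ^ 3 := by ring
        _ = _ := by rw [hnd]; ring⟩

end Crest.Agent.R017.E4X266
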