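import Crest.Agent.R017.E4v7y_266

/-!
# Row 17, C70/E4, exceptional class: the masses of the principal parts (helper783)

* `cr_split` : `t³ ∣ u₀ l m²` gives `t = t₀ t₁ t₂`, `t₀³ ∣ u₀`, `t₁ ∣ l`, `t₂ ∣ m`
* `sum_cr` : `∑_{l,m} cr(u₀ l m²) N(l)^{-a} N(m)^{-c} ≤ cr(u₀) T² L^{1-a} M^{1-c} log²`
* `sum_x` : `∑_x (g6 c x)² cr(f₀ x)² / N(x) ≤ tau(c) T³ sq(f₀) log`
-/

set_option autoImplicit false
set_option linter.unusedVariables false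

noncomputable section

open Complex
open scoped ComplexConjugate Classical

namespace Crest.Agent.R017.E4Pq783

open Crest.Agent.R012 Crest.Agent.R012.Eis Crest.Agent.R012.Mob705
open Crest.Agent.R012.Div277
open Crest.Agent.R017.Sx545 (Sm)
open Crest.Agent.R017.C70 (CbF)
open Crest.Agent.R017.E4Pr266 (cr cr_nonneg le_cr)
open Crest.Agent.R017.E4X266 (g6 Mq1 Mq0)

/-! ### primary gcd -/

lemma exists_gcd' {l u : Eis} (hl : IsPrim l) (hu : IsPrim u) :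
    ∃ g l₁ u₁ : Eis, IsPrim g ∧ IsPrim l₁ ∧ IsPrim u₁ ∧ l = g * l₁ ∧ u = g * u₁ ∧
      IsCoprime l₁ u₁ := by
  set g0 := EuclideanDomain.gcd l u with hg
  have hg1 : g0 ∣ l := EuclideanDomain.gcd_dvd_left _ _
  have hg2 : g0 ∣ u := EuclideanDomain.gcd_dvd_right _ _
  have hgl : ¬ lam ∣ g0 := fun h => hu.not_lam_dvd (h.trans hg2)
  set e := prim g0 with he
  have hep : IsPrim e := prim_isPrim hgl
  have hass : Associated g0 e := prim_associated g0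
  obtain ⟨k1, hk1⟩ : e ∣ l := hass.symm.dvd.trans hg1
  obtain ⟨k2, hk2⟩ : e ∣ u := hass.symm.dvd.trans hg2
  refine ⟨e, k1, k2, hep, IsPrim.of_mul_left (hk1 ▸ hl) hep, IsPrim.of_mul_left (hk2 ▸ hu) hep,
    hk1, hk2, ?_⟩
  have hbez := EuclideanDomain.gcd_eq_gcd_ab l u
  rw [← hg] at hbez
  obtain ⟨v, hv⟩ := hass
  refine ⟨v * EuclideanDomain.gcdA l u, v * EuclideanDomain.gcdB l u, ?_⟩
  apply mul_left_cancel₀ hep.ne_zero
  calc e * (v * EuclideanDomain.gcdA l u * k1 + v * EuclideanDomain.gcdB l u * k2)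
      = v * (e * k1 * EuclideanDomain.gcdA l u + e * k2 * EuclideanDomain.gcdB l u) := by
        ring
    _ = v * (l * EuclideanDomain.gcdA l u + u * EuclideanDomain.gcdB l u) := by
        rw [← hk1, ← hk2]
    _ = e * 1 := by rw [← hbez, mul_comm, hv, mul_one]

/-- the splitting of a cube divisor -/
lemma cr_split {u₀ l m t : Eis} (hl : IsPrim l) (hm : IsPrim m) (ht : IsPrim t)
    (h : t ^ 3 ∣ u₀ * (l * m ^ 2)) :
    ∃ t₀ t₁ t₂ l' m' : Eis, IsPrim t₀ ∧ IsPrim t₁ ∧ IsPrim t₂ ∧ t = t₀ * (t₁ * t₂) ∧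
      l = t₁ * l' ∧ m = t₂ * m' ∧ t₀ ^ 3 ∣ u₀ ∧ t₁ ∣ u₀ * (l' * m' ^ 2) ∧
      t₂ ∣ u₀ * (l' * m' ^ 2) := by
  obtain ⟨t₁, t', l', ht₁, ht', hl', e1, e2, hc1⟩ := exists_gcd' ht hl
  obtain ⟨t₂, t₀, m', ht₂, ht₀, hm', e3, e4, hc2⟩ := exists_gcd' ht' hm
  have h1 : (t₁ * t₂ ^ 2) * (t₁ ^ 2 * t₂ * t₀ ^ 3) ∣ (t₁ * t₂ ^ 2) * (u₀ * (l' * m' ^ 2)) := by
    have g1 : (t₁ * t₂ ^ 2) * (t₁ ^ 2 * t₂ * t₀ ^ 3) = t ^ 3 := by rw [e1, e3]; ring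
    have g2 : (t₁ * t₂ ^ 2) * (u₀ * (l' * m' ^ 2)) = u₀ * (l * m ^ 2) := by rw [e2, e4]; ring
    rw [g1, g2]
    exact h
  have h2 : t₁ ^ 2 * t₂ * t₀ ^ 3 ∣ u₀ * (l' * m' ^ 2) :=
    (mul_dvd_mul_iff_left (mul_ne_zero ht₁.ne_zero (pow_ne_zero 2 ht₂.ne_zero))).mp h1
  have hcl : IsCoprime t₀ l' := by
    rw [e3] at hc1
    exact hc1.of_mul_left_right
  refine ⟨t₀, t₁, t₂, l', m', ht₀, ht₁, ht₂, by rw [e1, e3]; ring, e2, e4, ?_, ?_, ?_⟩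
  · have h3 : t₀ ^ 3 ∣ u₀ * (l' * m' ^ 2) := (dvd_mul_left _ _).trans h2
    have hc : IsCoprime (t₀ ^ 3) (l' * m' ^ 2) :=
      (hcl.mul_right (hc2.pow_right)).pow_left
    exact hc.dvd_of_dvd_mul_right h3
  · exact (Dvd.intro _ (by ring : t₁ * (t₁ * t₂ * t₀ ^ 3) = t₁ ^ 2 * t₂ * t₀ ^ 3)).trans h2
  · exact (Dvd.intro _ (by ring : t₂ * (t₁ ^ 2 * t₀ ^ 3) = t₁ ^ 2 * t₂ * t₀ ^ 3)).trans h2

/-- pointwise -/
lemma cr_le {u₀ l m : Eis} (hu : u₀ ≠ 0) (hl : IsPrim l) (hm : IsPrim m) :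
    cr (u₀ * (l * m ^ 2)) ≤ cr u₀ * ∑ t₁ ∈ dvs l, ∑ t₂ ∈ dvs m,
      if t₁ ∣ u₀ * ((l / t₁) * (m / t₂) ^ 2) ∧ t₂ ∣ u₀ * ((l / t₁) * (m / t₂) ^ 2) then
        (nm t₁ : ℝ) * nm t₂ else 0 := by
  have hu0 : u₀ * (l * m ^ 2) ≠ 0 :=
    mul_ne_zero hu (mul_ne_zero hl.ne_zero (pow_ne_zero 2 hm.ne_zero))
  set A : Finset (Eis × (Eis × Eis)) :=
    (((dvs u₀).filter (fun t => t ^ 3 ∣ u₀)) ×ˢ (dvs l ×ˢ dvs m)).filter fun p =>
      p.2.1 ∣ u₀ * ((l / p.2.1) * (m / p.2.2) ^ 2) ∧ p.2.2 ∣ u₀ * ((l / p.2.1) * (m / p.2.2) ^ 2)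
    with hA
  have e1 : cr u₀ * (∑ t₁ ∈ dvs l, ∑ t₂ ∈ dvs m,
      if t₁ ∣ u₀ * ((l / t₁) * (m / t₂) ^ 2) ∧ t₂ ∣ u₀ * ((l / t₁) * (m / t₂) ^ 2) then
        (nm t₁ : ℝ) * nm t₂ else 0) = ∑ p ∈ A, (nm (p.1 * (p.2.1 * p.2.2)) : ℝ) := by
    rw [hA, Finset.sum_filter, Finset.sum_product, ← Finset.sum_product' (dvs l) (dvs m)]
    unfold cr
    rw [Finset.sum_mul_sum]
    refine Finset.sum_congr rfl fun t _ => Finset.sum_congr rfl fun q _ => ?_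
    split_ifs with h
    · rw [nm_mul, nm_mul]; push_cast; ring
    · rw [mul_zero]
  rw [e1]
  have hsub : (dvs (u₀ * (l * m ^ 2))).filter (fun t => t ^ 3 ∣ u₀ * (l * m ^ 2)) ⊆
      A.image fun p => p.1 * (p.2.1 * p.2.2) := by
    intro t ht
    rw [Finset.mem_filter, mem_dvs hu0] at ht
    obtain ⟨t₀, t₁, t₂, l', m', h0, h1, h2, ht', hl', hm', d0, d1, d2⟩ :=
      cr_split hl hm ht.1.1 ht.2
    have e2 : l / t₁ = l' := by rw [hl', mul_div_cancel_left₀ _ h1.ne_zero]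
    have e3 : m / t₂ = m' := by rw [hm', mul_div_cancel_left₀ _ h2.ne_zero]
    rw [Finset.mem_image]
    refine ⟨(t₀, (t₁, t₂)), ?_, ht'.symm⟩
    rw [hA, Finset.mem_filter, Finset.mem_product, Finset.mem_product, Finset.mem_filter,
      mem_dvs hu, mem_dvs hl.ne_zero, mem_dvs hm.ne_zero]
    simp only
    rw [e2, e3]
    exact ⟨⟨⟨⟨h0, (dvd_pow_self t₀ (by norm_num)).trans d0⟩, d0⟩, ⟨h1, ⟨l', hl'⟩⟩, ⟨h2, ⟨m', hm'⟩⟩⟩,
      d1, d2⟩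
  unfold cr
  exact (Finset.sum_le_sum_of_subset_of_nonneg hsub fun _ _ _ => Nat.cast_nonneg _).trans
    (Finset.sum_image_le_of_nonneg fun _ _ => Nat.cast_nonneg _)

/-- one variable -/
lemma wt_le {L : ℕ} {t l : Eis} (ht : IsPrim t) (hl : l ∈ primBall (L / nm t)) {a : ℝ} (ha : a ≤ 1) :
    (nm t : ℝ) * (nm (t * l) : ℝ) ^ (-a) ≤ (L : ℝ) ^ (1 - a) * (1 / (nm l : ℝ)) := by
  rw [mem_primBall] at hl
  have ht0 : 0 < nm t := nm_pos.mpr ht.ne_zero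
  have hl0 : (0 : ℝ) < nm l := by exact_mod_cast nm_pos.mpr hl.2.ne_zero
  have htr : (0 : ℝ) < nm t := by exact_mod_cast ht0
  have h1 : (nm t : ℝ) * nm l ≤ L := by
    have := (Nat.le_div_iff_mul_le ht0).mp hl.1
    rw [mul_comm] at this
    exact_mod_cast this
  have h2 : (nm (t * l) : ℝ) = nm t * nm l := by rw [nm_mul]; push_cast; ring
  rw [h2]
  have hP : (0 : ℝ) < nm t * nm l := by positivity
  have e1 : (nm t : ℝ) * ((nm t : ℝ) * nm l) ^ (-a) =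
      ((nm t : ℝ) * nm l) ^ (1 - a) * (1 / (nm l : ℝ)) := by
    rw [sub_eq_add_neg, Real.rpow_add hP, Real.rpow_one]
    field_simp
  rw [e1]
  have h3 : ((nm t : ℝ) * nm l) ^ (1 - a) ≤ (L : ℝ) ^ (1 - a) :=
    Real.rpow_le_rpow hP.le h1 (by linarith)
  gcongr

lemma swap_le {L : ℕ} {G : Eis → Eis → ℝ} (hG : ∀ t l, 0 ≤ G t l) :
    ∑ t ∈ primBall L, ∑ l ∈ primBall (L / nm t), G t l ≤
      ∑ l ∈ primBall L, ∑ t ∈ primBall L, G t l := by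
  rw [Finset.sum_comm (s := primBall L) (t := primBall L)]
  refine Finset.sum_le_sum fun t _ => ?_
  refine Finset.sum_le_sum_of_subset_of_nonneg (fun l hl => ?_) fun _ _ _ => hG _ _
  rw [mem_primBall] at hl ⊢
  exact ⟨hl.1.trans (Nat.div_le_self _ _), hl.2⟩

lemma card_dvd_le {L : ℕ} {u : Eis} (hu : u ≠ 0) :
    (((primBall L).filter fun t => t ∣ u).card : ℝ) ≤ tau u := by
  unfold tau
  refine Nat.cast_le.mpr (Finset.card_le_card fun t ht => ?_)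
  rw [Finset.mem_filter, mem_primBall] at ht
  exact (mem_dvs hu).mpr ⟨ht.1.2, ht.2⟩

/-- **the `y`-side** -/
theorem sum_cr {u₀ : Eis} (hu : u₀ ≠ 0) {L N : ℕ} {a c : ℝ} (ha : a ≤ 1) (hc : c ≤ 1) {T : ℝ}
    (hT : ∀ l ∈ primBall L, ∀ m ∈ primBall N, (tau (u₀ * (l * m ^ 2)) : ℝ) ≤ T) :
    ∑ l ∈ primBall L, ∑ m ∈ primBall N, cr (u₀ * (l * m ^ 2)) *
      ((nm l : ℝ) ^ (-a) * (nm m : ℝ) ^ (-c)) ≤
    cr u₀ * (T ^ 2 * ((L : ℝ) ^ (1 - a) * (N : ℝ) ^ (1 - c)) *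
      ((100 * (1 + Real.log L)) * (100 * (1 + Real.log N)))) := by
  set cd : Eis → Eis → Eis → Eis → Prop := fun t₁ l t₂ m =>
    t₁ ∣ u₀ * (l * m ^ 2) ∧ t₂ ∣ u₀ * (l * m ^ 2) with hcd
  set F : Eis → Eis → Eis → Eis → ℝ := fun t₁ l t₂ m =>
    if cd t₁ (l / t₁) t₂ (m / t₂) then (nm t₁ : ℝ) * nm t₂ * ((nm l : ℝ) ^ (-a) * (nm m : ℝ) ^ (-c))
    else 0 with hF
  set P : ℝ := (L : ℝ) ^ (1 - a) * (N : ℝ) ^ (1 - c) with hP
  have hP0 : 0 ≤ P := by positivity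
  set G : Eis → Eis → Eis → Eis → ℝ := fun t₁ l t₂ m =>
    if cd t₁ l t₂ m then P * (1 / (nm l : ℝ) * (1 / (nm m : ℝ))) else 0 with hG
  have hG0 : ∀ t₁ l t₂ m, 0 ≤ G t₁ l t₂ m := fun t₁ l t₂ m => by
    simp only [hG]
    split_ifs
    · positivity
    · exact le_rfl
  have s1 : ∑ l ∈ primBall L, ∑ m ∈ primBall N, cr (u₀ * (l * m ^ 2)) *
      ((nm l : ℝ) ^ (-a) * (nm m : ℝ) ^ (-c)) ≤
      cr u₀ * ∑ l ∈ primBall L, ∑ t₁ ∈ dvs l, ∑ m ∈ primBall N, ∑ t₂ ∈ dvs m, F t₁ l t₂ m := by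
    rw [Finset.mul_sum]
    refine Finset.sum_le_sum fun l hl => ?_
    rw [Finset.sum_comm, Finset.mul_sum]
    refine Finset.sum_le_sum fun m hm => ?_
    have h1 := cr_le hu (mem_primBall.mp hl).2 (mem_primBall.mp hm).2
    have h2 : (0 : ℝ) ≤ (nm l : ℝ) ^ (-a) * (nm m : ℝ) ^ (-c) := by positivity
    refine (mul_le_mul_of_nonneg_right h1 h2).trans (le_of_eq ?_)
    rw [mul_assoc, Finset.sum_mul]
    congr 1
    refine Finset.sum_congr rfl fun t₁ _ => ?_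
    rw [Finset.sum_mul]
    refine Finset.sum_congr rfl fun t₂ _ => ?_
    simp only [hF, hcd]
    split_ifs
    · rfl
    · rw [zero_mul]
  refine s1.trans (mul_le_mul_of_nonneg_left ?_ (cr_nonneg _))
  rw [sum_primBall_dvs L (fun t₁ l => ∑ m ∈ primBall N, ∑ t₂ ∈ dvs m, F t₁ l t₂ m)]
  have s2 : ∑ t₁ ∈ primBall L, ∑ l ∈ primBall (L / nm t₁), ∑ m ∈ primBall N, ∑ t₂ ∈ dvs m,
      F t₁ (t₁ * l) t₂ m ≤
      ∑ t₁ ∈ primBall L, ∑ l ∈ primBall (L / nm t₁), ∑ m ∈ primBall N, ∑ t₂ ∈ primBall N,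
        G t₁ l t₂ m := by
    refine Finset.sum_le_sum fun t₁ ht₁ => Finset.sum_le_sum fun l hl => ?_
    rw [sum_primBall_dvs N (fun t₂ m => F t₁ (t₁ * l) t₂ m)]
    refine le_trans ?_ (swap_le (L := N) (G := fun t₂ m => G t₁ l t₂ m) fun _ _ => hG0 _ _ _ _)
    refine Finset.sum_le_sum fun t₂ ht₂ => Finset.sum_le_sum fun m hm => ?_
    have p1 := (mem_primBall.mp ht₁).2
    have p2 := (mem_primBall.mp ht₂).2
    simp only [hF, hG]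
    rw [mul_div_cancel_left₀ _ p1.ne_zero, mul_div_cancel_left₀ _ p2.ne_zero]
    split_ifs
    · have h1 := wt_le p1 hl ha
      have h2 := wt_le p2 hm hc
      have h3 : (0 : ℝ) ≤ (nm t₂ : ℝ) * (nm (t₂ * m) : ℝ) ^ (-c) := by positivity
      have h4 : (0 : ℝ) ≤ (L : ℝ) ^ (1 - a) * (1 / (nm l : ℝ)) := by positivity
      calc (nm t₁ : ℝ) * nm t₂ * ((nm (t₁ * l) : ℝ) ^ (-a) * (nm (t₂ * m) : ℝ) ^ (-c)) =
          ((nm t₁ : ℝ) * (nm (t₁ * l) : ℝ) ^ (-a)) * ((nm t₂ : ℝ) * (nm (t₂ * m) : ℝ) ^ (-c)) := by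
            ring
        _ ≤ ((L : ℝ) ^ (1 - a) * (1 / (nm l : ℝ))) * ((N : ℝ) ^ (1 - c) * (1 / (nm m : ℝ))) :=
            mul_le_mul h1 h2 h3 h4
        _ = _ := by rw [hP]; ring
    · exact le_rfl
  refine s2.trans ?_
  refine (swap_le (L := L) (G := fun t₁ l => ∑ m ∈ primBall N, ∑ t₂ ∈ primBall N, G t₁ l t₂ m)
    fun _ _ => Finset.sum_nonneg fun _ _ => Finset.sum_nonneg fun _ _ => hG0 _ _ _ _).trans ?_
  have s3 : ∀ l ∈ primBall L, ∑ t₁ ∈ primBall L, ∑ m ∈ primBall N, ∑ t₂ ∈ primBall N,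
      G t₁ l t₂ m ≤ (T ^ 2 * P * (100 * (1 + Real.log N))) * (1 / (nm l : ℝ)) := by
    intro l hl
    rw [Finset.sum_comm]
    have s4 : ∀ m ∈ primBall N, ∑ t₁ ∈ primBall L, ∑ t₂ ∈ primBall N, G t₁ l t₂ m ≤
        (T ^ 2 * P * (1 / (nm l : ℝ))) * (1 / (nm m : ℝ)) := by
      intro m hm
      have hu' : u₀ * (l * m ^ 2) ≠ 0 := mul_ne_zero hu (mul_ne_zero (mem_primBall.mp hl).2.ne_zero
        (pow_ne_zero 2 (mem_primBall.mp hm).2.ne_zero))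
      have e1 : ∑ t₁ ∈ primBall L, ∑ t₂ ∈ primBall N, G t₁ l t₂ m =
          (((primBall L).filter fun t => t ∣ u₀ * (l * m ^ 2)).card : ℝ) *
          ((((primBall N).filter fun t => t ∣ u₀ * (l * m ^ 2)).card : ℝ) *
            (P * (1 / (nm l : ℝ) * (1 / (nm m : ℝ))))) := by
        have e2 : ∀ t₁ ∈ primBall L, ∑ t₂ ∈ primBall N, G t₁ l t₂ m =
            if t₁ ∣ u₀ * (l * m ^ 2) then
            ((((primBall N).filter fun t => t ∣ u₀ * (l * m ^ 2)).card : ℝ) *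
              (P * (1 / (nm l : ℝ) * (1 / (nm m : ℝ))))) else 0 := by
          intro t₁ _
          by_cases h1 : t₁ ∣ u₀ * (l * m ^ 2)
          · rw [if_pos h1]
            simp only [hG, hcd, h1, true_and]
            rw [← Finset.sum_filter, Finset.sum_const, nsmul_eq_mul]
          · rw [if_neg h1]
            simp only [hG, hcd, h1, false_and, if_false, Finset.sum_const_zero]
        rw [Finset.sum_congr rfl e2, ← Finset.sum_filter, Finset.sum_const, nsmul_eq_mul]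
      rw [e1]
      have h1 := (card_dvd_le (L := L) hu').trans (hT l hl m hm)
      have h2 := (card_dvd_le (L := N) hu').trans (hT l hl m hm)
      have h3 : (0 : ℝ) ≤ T := (Nat.cast_nonneg _).trans h1
      calc _ ≤ T * (T * (P * (1 / (nm l : ℝ) * (1 / (nm m : ℝ))))) := by gcongr
        _ = _ := by ring
    refine (Finset.sum_le_sum s4).trans ?_
    rw [← Finset.mul_sum]
    have h5 := sum_inv_primBall_le N
    have h6 : 0 ≤ T ^ 2 * P * (1 / (nm l : ℝ)) := by positivity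
    calc _ ≤ (T ^ 2 * P * (1 / (nm l : ℝ))) * (100 * (1 + Real.log N)) :=
          mul_le_mul_of_nonneg_left h5 h6
      _ = _ := by ring
  refine (Finset.sum_le_sum s3).trans ?_
  rw [← Finset.mul_sum]
  have h5 := sum_inv_primBall_le L
  have h7 := one_add_log_nonneg N
  have h6 : 0 ≤ T ^ 2 * P * (100 * (1 + Real.log N)) := by positivity
  calc _ ≤ (T ^ 2 * P * (100 * (1 + Real.log N))) * (100 * (1 + Real.log L)) :=
        mul_le_mul_of_nonneg_left h5 h6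
    _ = _ := by ring

/-! ### the `x`-side -/

/-- the splitting for a cube-free `f₀` -/
lemma cub_split {f₀ x t : Eis} (hf3 : ∀ t, IsPrim t → t ^ 3 ∣ f₀ → t = 1) (hx : IsPrim x)
    (ht : IsPrim t) (h : t ^ 3 ∣ f₀ * x) :
    ∃ g s x₃ : Eis, IsPrim g ∧ IsPrim s ∧ IsPrim x₃ ∧ t = g * s ∧ x = g ^ 2 * s * x₃ ∧
      s ^ 2 ∣ f₀ ∧ g ∣ f₀ * x₃ ∧ s ∣ f₀ * x₃ := by
  obtain ⟨t₁, t', x₂, ht₁, ht', hx₂, e1, e2, hc1⟩ := exists_gcd' ht hx
  have h1 : t₁ * (t₁ ^ 2 * t' ^ 3) ∣ t₁ * (f₀ * x₂) := by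
    have g1 : t₁ * (t₁ ^ 2 * t' ^ 3) = t ^ 3 := by rw [e1]; ring
    have g2 : t₁ * (f₀ * x₂) = f₀ * x := by rw [e2]; ring
    rw [g1, g2]
    exact h
  have h2 : t₁ ^ 2 * t' ^ 3 ∣ f₀ * x₂ := (mul_dvd_mul_iff_left ht₁.ne_zero).mp h1
  have h3 : t' ^ 3 ∣ f₀ := (hc1.pow_left (m := 3)).dvd_of_dvd_mul_right
    ((dvd_mul_left _ _).trans h2)
  have h4 : t' = 1 := hf3 t' ht' h3
  rw [h4, mul_one] at e1
  subst e1
  rw [h4, one_pow, mul_one] at h2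
  obtain ⟨g, s, x₃, hg, hs, hx₃, e3, e4, hc2⟩ := exists_gcd' ht hx₂
  have h5 : g * (g * s ^ 2) ∣ g * (f₀ * x₃) := by
    have g1 : g * (g * s ^ 2) = t ^ 2 := by rw [e3]; ring
    have g2 : g * (f₀ * x₃) = f₀ * x₂ := by rw [e4]; ring
    rw [g1, g2]
    exact h2
  have h6 : g * s ^ 2 ∣ f₀ * x₃ := (mul_dvd_mul_iff_left hg.ne_zero).mp h5
  refine ⟨g, s, x₃, hg, hs, hx₃, e3, by rw [e2, e4, e3]; ring, ?_, (dvd_mul_right _ _).trans h6, ?_⟩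
  · exact (hc2.pow_left (m := 2)).dvd_of_dvd_mul_right ((dvd_mul_left _ _).trans h6)
  · exact ((dvd_pow_self s (by norm_num)).trans (dvd_mul_left _ _)).trans h6

/-- the mean square of `cr` -/
lemma sum_cr2 {f₀ : Eis} (hf : IsPrim f₀) (hf3 : ∀ t, IsPrim t → t ^ 3 ∣ f₀ → t = 1) {S₀ : ℝ}
    (hS0 : 0 ≤ S₀) (hS : ∀ t, IsPrim t → t ^ 2 ∣ f₀ → (nm t : ℝ) ≤ S₀) {V : ℕ} {T : ℝ}
    (hT0 : 0 ≤ T) (hT : ∀ x ∈ primBall V, (tau (f₀ * x) : ℝ) ≤ T) :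
    ∑ x ∈ primBall V, cr (f₀ * x) ^ 2 * (1 / (nm x : ℝ)) ≤
      T ^ 3 * S₀ * (100 * (1 + Real.log V)) := by
  set A : Finset ((_ : Eis) × Eis) := (primBall V).sigma fun x =>
    (dvs (f₀ * x)).filter fun t => t ^ 3 ∣ f₀ * x with hA
  set B : Finset ((_ : Eis) × (Eis × Eis)) := (primBall V).sigma fun x =>
    (dvs (f₀ * x) ×ˢ dvs (f₀ * x)).filter fun p => p.2 ^ 2 ∣ f₀ with hB
  set F : ((_ : Eis) × Eis) → ℝ := fun p => (nm p.2 : ℝ) ^ 2 * (1 / (nm p.1 : ℝ)) with hF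
  set φ : ((_ : Eis) × (Eis × Eis)) → ((_ : Eis) × Eis) := fun p =>
    ⟨p.2.1 ^ 2 * p.2.2 * p.1, p.2.1 * p.2.2⟩ with hφ
  have hF0 : ∀ p, 0 ≤ F p := fun p => by simp only [hF]; positivity
  have s1 : ∑ x ∈ primBall V, cr (f₀ * x) ^ 2 * (1 / (nm x : ℝ)) ≤ T * ∑ p ∈ A, F p := by
    rw [hA, Finset.sum_sigma, Finset.mul_sum]
    refine Finset.sum_le_sum fun x hx => ?_
    have h1 : cr (f₀ * x) ^ 2 ≤ T * ∑ t ∈ (dvs (f₀ * x)).filter (fun t => t ^ 3 ∣ f₀ * x),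
        (nm t : ℝ) ^ 2 := by
      unfold cr
      refine (sq_sum_le_card_mul_sum_sq).trans ?_
      refine mul_le_mul_of_nonneg_right ?_ (Finset.sum_nonneg fun _ _ => by positivity)
      refine le_trans ?_ (hT x hx)
      unfold tau
      exact_mod_cast Finset.card_filter_le _ _
    have h2 : (0 : ℝ) ≤ 1 / (nm x : ℝ) := by positivity
    refine (mul_le_mul_of_nonneg_right h1 h2).trans (le_of_eq ?_)
    rw [mul_assoc, Finset.sum_mul]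
  have hsub : A ⊆ B.image φ := by
    intro q hq
    obtain ⟨x, t⟩ := q
    rw [hA, Finset.mem_sigma, Finset.mem_filter, mem_primBall] at hq
    simp only at hq
    obtain ⟨hx, ht, h3⟩ := hq
    have hx0 : f₀ * x ≠ 0 := mul_ne_zero hf.ne_zero hx.2.ne_zero
    rw [mem_dvs hx0] at ht
    obtain ⟨g, s, x₃, hg, hs, hx₃, e1, e2, d1, d2, d3⟩ := cub_split hf3 hx.2 ht.1 h3
    have hx₃0 : f₀ * x₃ ≠ 0 := mul_ne_zero hf.ne_zero hx₃.ne_zero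
    rw [Finset.mem_image]
    refine ⟨⟨x₃, (g, s)⟩, ?_, ?_⟩
    · rw [hB, Finset.mem_sigma, Finset.mem_filter, Finset.mem_product, mem_dvs hx₃0, mem_dvs hx₃0,
        mem_primBall]
      exact ⟨⟨(nm_le_of_dvd hx.2.ne_zero ⟨g ^ 2 * s, by rw [e2]; ring⟩).trans hx.1, hx₃⟩,
        ⟨⟨hg, d2⟩, ⟨hs, d3⟩⟩, d1⟩
    · simp only [hφ]
      rw [e1, e2]
  have s2 : ∑ p ∈ A, F p ≤ ∑ q ∈ B, F (φ q) :=
    (Finset.sum_le_sum_of_subset_of_nonneg hsub fun _ _ _ => hF0 _).trans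
      (Finset.sum_image_le_of_nonneg fun _ _ => hF0 _)
  have s3 : ∑ q ∈ B, F (φ q) ≤ ∑ x ∈ primBall V, (T ^ 2 * S₀) * (1 / (nm x : ℝ)) := by
    rw [hB, Finset.sum_sigma]
    refine Finset.sum_le_sum fun x hx => ?_
    have hxp := (mem_primBall.mp hx).2
    have hx0 : f₀ * x ≠ 0 := mul_ne_zero hf.ne_zero hxp.ne_zero
    have h1 : ∀ p ∈ (dvs (f₀ * x) ×ˢ dvs (f₀ * x)).filter (fun p => p.2 ^ 2 ∣ f₀),
        F (φ ⟨x, p⟩) ≤ S₀ * (1 / (nm x : ℝ)) := by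
      intro p hp
      rw [Finset.mem_filter, Finset.mem_product, mem_dvs hx0, mem_dvs hx0] at hp
      obtain ⟨⟨⟨hg, -⟩, ⟨hs, -⟩⟩, h2⟩ := hp
      have n1 : (0 : ℝ) < nm p.1 := by exact_mod_cast nm_pos.mpr hg.ne_zero
      have n2 : (0 : ℝ) < nm p.2 := by exact_mod_cast nm_pos.mpr hs.ne_zero
      have n3 : (0 : ℝ) < nm x := by exact_mod_cast nm_pos.mpr hxp.ne_zero
      have e1 : F (φ ⟨x, p⟩) = (nm p.2 : ℝ) * (1 / (nm x : ℝ)) := by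
        simp only [hF, hφ]
        rw [nm_mul, nm_mul, nm_mul, nm_pow]
        push_cast
        field_simp
      rw [e1]
      have := hS p.2 hs h2
      gcongr
    refine (Finset.sum_le_sum h1).trans ?_
    rw [Finset.sum_const, nsmul_eq_mul]
    have h2 : ((((dvs (f₀ * x) ×ˢ dvs (f₀ * x)).filter (fun p => p.2 ^ 2 ∣ f₀)).card : ℕ) : ℝ) ≤
        T * T := by
      have h3 : (((dvs (f₀ * x) ×ˢ dvs (f₀ * x)).filter (fun p => p.2 ^ 2 ∣ f₀)).card : ℝ) ≤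
          (tau (f₀ * x) : ℝ) * tau (f₀ * x) := by
        unfold tau
        rw [← Nat.cast_mul, ← Finset.card_product]
        exact_mod_cast Finset.card_filter_le _ _
      exact h3.trans (mul_le_mul (hT x hx) (hT x hx) (Nat.cast_nonneg _) hT0)
    have h4 : (0 : ℝ) ≤ S₀ * (1 / (nm x : ℝ)) := by positivity
    calc _ ≤ T * T * (S₀ * (1 / (nm x : ℝ))) := mul_le_mul_of_nonneg_right h2 h4
      _ = _ := by ring
  have s4 : ∑ x ∈ primBall V, (T ^ 2 * S₀) * (1 / (nm x : ℝ)) ≤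
      (T ^ 2 * S₀) * (100 * (1 + Real.log V)) := by
    rw [← Finset.mul_sum]
    exact mul_le_mul_of_nonneg_left (sum_inv_primBall_le V) (by positivity)
  calc _ ≤ T * ((T ^ 2 * S₀) * (100 * (1 + Real.log V))) :=
        s1.trans (mul_le_mul_of_nonneg_left (s2.trans (s3.trans s4)) hT0)
    _ = _ := by ring

/-- `g6²` is `N(d)^(1/3)` with `d ∣ c`, `d ∣ x` -/
lemma g6_sq {c : Eis} (hc : IsPrim c) (x : Eis) : ∃ d ∈ dvs c, d ∣ x ∧
    g6 c x ^ 2 = (nm d : ℝ) ^ (1 / 3 : ℝ) := by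
  set P := (pp c).filter (fun p => p ∣ x) with hP
  have hpp : ∀ p ∈ P, IsPP p ∧ p ∣ c ∧ p ∣ x := fun p hp => by
    rw [hP, Finset.mem_filter, mem_pp hc.ne_zero] at hp
    exact ⟨hp.1.1, hp.1.2, hp.2⟩
  have hcop : (P : Set Eis).Pairwise (Function.onFun IsCoprime fun p => p) := fun p hp q hq h =>
    (hpp p hp).1.isCoprime (hpp q hq).1 h
  have h1 : ∏ p ∈ P, p ∣ c := Finset.prod_dvd_of_coprime hcop fun p hp => (hpp p hp).2.1
  have h2 : ∏ p ∈ P, p ∣ x := Finset.prod_dvd_of_coprime hcop fun p hp => (hpp p hp).2.2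
  have h3 : ∀ Q : Finset Eis, (∀ p ∈ Q, IsPP p) → IsPrim (∏ p ∈ Q, p) ∧
      (∏ p ∈ Q, (nm p : ℝ) ^ (1 / 6 : ℝ)) ^ 2 = (nm (∏ p ∈ Q, p) : ℝ) ^ (1 / 3 : ℝ) := by
    intro Q
    induction Q using Finset.induction_on with
    | empty => intro _; simp [isPrim_one, nm_one]
    | insert a Q ha ih =>
      intro h
      obtain ⟨i1, i2⟩ := ih fun p hp => h p (Finset.mem_insert_of_mem hp)
      have ha' := h a (Finset.mem_insert_self _ _)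
      rw [Finset.prod_insert ha, Finset.prod_insert ha]
      refine ⟨ha'.isPrim.mul i1, ?_⟩
      rw [mul_pow, i2, nm_mul]
      push_cast
      rw [Real.mul_rpow (by positivity) (by positivity), ← Real.rpow_natCast,
        ← Real.rpow_mul (by positivity)]
      norm_num
  obtain ⟨h4, h5⟩ := h3 P fun p hp => (hpp p hp).1
  refine ⟨∏ p ∈ P, p, (mem_dvs hc.ne_zero).mpr ⟨h4, h1⟩, h2, ?_⟩
  rw [← h5]
  rfl

lemma cr_cf {c f₀ d x : Eis} (hc : IsCoprime c f₀) (hd : IsPrim d) (hdc : d ∣ c)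
    (hf : IsPrim f₀) (hx : IsPrim x) (hC : CbF (d * x)) : cr (f₀ * (d * x)) ≤ cr (f₀ * x) := by
  have h0 : f₀ * (d * x) ≠ 0 := mul_ne_zero hf.ne_zero (mul_ne_zero hd.ne_zero hx.ne_zero)
  have h1 : f₀ * x ≠ 0 := mul_ne_zero hf.ne_zero hx.ne_zero
  unfold cr
  refine Finset.sum_le_sum_of_subset_of_nonneg (fun t ht => ?_) fun _ _ _ => Nat.cast_nonneg _
  rw [Finset.mem_filter, mem_dvs h0] at ht
  have htd : IsCoprime t d := by
    rw [isCoprime_iff_pp ht.1.1]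
    intro p hp hpt hpd
    have h2 : p ^ 3 ∣ f₀ * (d * x) := (pow_dvd_pow_of_dvd hpt 3).trans ht.2
    have h3 : IsCoprime (p ^ 3) f₀ := (hc.of_isCoprime_of_dvd_left (hpd.trans hdc)).pow_left
    exact hC p hp.prime (h3.dvd_of_dvd_mul_left h2)
  have h4 : t ^ 3 ∣ f₀ * x := by
    have h5 : t ^ 3 ∣ d * (f₀ * x) := by
      have : d * (f₀ * x) = f₀ * (d * x) := by ring
      rw [this]
      exact ht.2
    exact (htd.pow_left (m := 3)).dvd_of_dvd_mul_left h5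
  rw [Finset.mem_filter, mem_dvs h1]
  exact ⟨⟨ht.1.1, (dvd_pow_self t (by norm_num)).trans h4⟩, h4⟩

/-- **the `x`-side** -/
theorem sum_x {c f₀ : Eis} (hc : IsPrim c) (hf : IsPrim f₀) (hcf : IsCoprime c f₀)
    (hf3 : ∀ t, IsPrim t → t ^ 3 ∣ f₀ → t = 1) {S₀ : ℝ}
    (hS0 : 0 ≤ S₀) (hS : ∀ t, IsPrim t → t ^ 2 ∣ f₀ → (nm t : ℝ) ≤ S₀) {V : ℕ} {T : ℝ}
    (hT0 : 0 ≤ T) (hT : ∀ x ∈ primBall V, (tau (f₀ * x) : ℝ) ≤ T) :
    ∑ x ∈ (primBall V).filter (fun x => CbF x), g6 c x ^ 2 * cr (f₀ * x) ^ 2 * (1 / (nm x : ℝ)) ≤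
      tau c * (T ^ 3 * S₀ * (100 * (1 + Real.log V))) := by
  have s1 : ∀ x ∈ (primBall V).filter (fun x => CbF x),
      g6 c x ^ 2 * cr (f₀ * x) ^ 2 * (1 / (nm x : ℝ)) ≤
      ∑ d ∈ dvs c, if d ∣ x then (nm d : ℝ) ^ (1 / 3 : ℝ) * cr (f₀ * (x / d)) ^ 2 *
        (1 / (nm x : ℝ)) else 0 := by
    intro x hx
    rw [Finset.mem_filter, mem_primBall] at hx
    obtain ⟨d, hd, hdx, e1⟩ := g6_sq hc x
    have hdp := isPrim_of_mem_dvs hd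
    rw [e1]
    have hterm : (nm d : ℝ) ^ (1 / 3 : ℝ) * cr (f₀ * x) ^ 2 * (1 / (nm x : ℝ)) ≤
        (if d ∣ x then (nm d : ℝ) ^ (1 / 3 : ℝ) * cr (f₀ * (x / d)) ^ 2 *
        (1 / (nm x : ℝ)) else 0) := by
      rw [if_pos hdx]
      obtain ⟨x', rfl⟩ := hdx
      rw [mul_div_cancel_left₀ _ hdp.ne_zero]
      have h2 := cr_cf hcf hdp (dvd_of_mem_dvs hd) hf (hx.1.2.of_mul_left hdp) hx.2
      have h3 := cr_nonneg (f₀ * (d * x'))
      gcongr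
    refine hterm.trans (Finset.single_le_sum (f := fun d => if d ∣ x then
      (nm d : ℝ) ^ (1 / 3 : ℝ) * cr (f₀ * (x / d)) ^ 2 * (1 / (nm x : ℝ)) else 0)
      (fun d _ => ?_) hd)
    split_ifs
    · positivity
    · exact le_rfl
  refine (Finset.sum_le_sum s1).trans ?_
  rw [Finset.sum_comm]
  have s2 : ∀ d ∈ dvs c, ∑ x ∈ (primBall V).filter (fun x => CbF x), (if d ∣ x then
      (nm d : ℝ) ^ (1 / 3 : ℝ) * cr (f₀ * (x / d)) ^ 2 * (1 / (nm x : ℝ)) else 0) ≤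
      T ^ 3 * S₀ * (100 * (1 + Real.log V)) := by
    intro d hd
    have hdp := isPrim_of_mem_dvs hd
    have hn : (1 : ℝ) ≤ nm d := by exact_mod_cast nm_pos.mpr hdp.ne_zero
    refine le_trans ?_ (sum_cr2 hf hf3 hS0 hS hT0 hT)
    have h1 : ∑ x ∈ (primBall V).filter (fun x => CbF x), (if d ∣ x then
        (nm d : ℝ) ^ (1 / 3 : ℝ) * cr (f₀ * (x / d)) ^ 2 * (1 / (nm x : ℝ)) else 0) ≤
        ∑ x ∈ primBall V, (if d ∣ x then
        (nm d : ℝ) ^ (1 / 3 : ℝ) * cr (f₀ * (x / d)) ^ 2 * (1 / (nm x : ℝ)) else 0) := by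
      refine Finset.sum_le_sum_of_subset_of_nonneg (Finset.filter_subset _ _) fun _ _ _ => ?_
      split_ifs
      · positivity
      · exact le_rfl
    refine h1.trans ?_
    rw [← Finset.sum_filter, primBall_filter_dvd V hdp, Finset.sum_map]
    have h2 : ∑ x ∈ primBall (V / nm d), (nm d : ℝ) ^ (1 / 3 : ℝ) *
        cr (f₀ * (mulEmb d hdp.ne_zero x / d)) ^ 2 * (1 / (nm (mulEmb d hdp.ne_zero x) : ℝ)) ≤
        ∑ x ∈ primBall (V / nm d), cr (f₀ * x) ^ 2 * (1 / (nm x : ℝ)) := by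
      refine Finset.sum_le_sum fun x _ => ?_
      rw [mulEmb_apply, mul_div_cancel_left₀ _ hdp.ne_zero, nm_mul]
      push_cast
      have h3 : (nm d : ℝ) ^ (1 / 3 : ℝ) ≤ nm d := by
        calc (nm d : ℝ) ^ (1 / 3 : ℝ) ≤ (nm d : ℝ) ^ (1 : ℝ) :=
              Real.rpow_le_rpow_of_exponent_le hn (by norm_num)
          _ = _ := Real.rpow_one _
      have h4 : (nm d : ℝ) ^ (1 / 3 : ℝ) * (1 / ((nm d : ℝ) * nm x)) ≤ 1 / (nm x : ℝ) := by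
        have : 1 / ((nm d : ℝ) * nm x) = (1 / (nm d : ℝ)) * (1 / (nm x : ℝ)) := by
          rw [one_div_mul_one_div]
        rw [this, ← mul_assoc]
        have h5 : (nm d : ℝ) ^ (1 / 3 : ℝ) * (1 / (nm d : ℝ)) ≤ 1 := by
          rw [mul_one_div, div_le_one (by linarith)]
          exact h3
        have h6 : (0 : ℝ) ≤ 1 / (nm x : ℝ) := by positivity
        calc _ ≤ 1 * (1 / (nm x : ℝ)) := mul_le_mul_of_nonneg_right h5 h6
          _ = _ := one_mul _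
      calc (nm d : ℝ) ^ (1 / 3 : ℝ) * cr (f₀ * x) ^ 2 * (1 / ((nm d : ℝ) * nm x)) =
          cr (f₀ * x) ^ 2 * ((nm d : ℝ) ^ (1 / 3 : ℝ) * (1 / ((nm d : ℝ) * nm x))) := by ring
        _ ≤ _ := mul_le_mul_of_nonneg_left h4 (by positivity)
    refine h2.trans (Finset.sum_le_sum_of_subset_of_nonneg (fun x hx => ?_) fun _ _ _ => by
      positivity)
    rw [mem_primBall] at hx ⊢
    exact ⟨hx.1.trans (Nat.div_le_self _ _), hx.2⟩
  refine (Finset.sum_le_sum s2).trans ?_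
  rw [Finset.sum_const, nsmul_eq_mul]
  rfl

end Crest.Agent.R017.E4Pq783
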