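import Crest.Agent.R017.E4Po_783

/-!
# Row 17, C70/E4, exceptional class: powers of two (helper783)

* `two_pow` : the class numbers of the dual principal number
* `log_bd`, `chain1`, `chain2` : the real calculus
-/

set_option autoImplicit false
set_option linter.unusedVariables false

noncomputable section

open Finset

namespace Crest.Agent.R017.E4Pn783

/-- **the class numbers** -/
theorem two_pow (m : ℕ → ℕ → ℕ) (a₂ : ℕ) {Lz TD : ℝ} (hL : 0 ≤ Lz) (hT : 0 ≤ TD) :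
    ((2 : ℝ) ^ (m 0 0 + m 0 1 + m 0 2 + m 1 0 + m 1 1 + m 1 2 + 6)) ^ (1 / 6 : ℝ) *
      (Real.sqrt ((100 * 2 ^ (m 1 0 + m 1 1 + m 1 2 + 3)) / 2 ^ EnX743.nSm m * Lz) *
        Real.sqrt ((2 ^ 27 * (2 * 2 ^ a₂ * 8 ^ EnX743.nSm m / 8 ^ EnX743.nEm m)) ^ (1 / 3 : ℝ) *
          (1600 * (((2 : ℝ) ^ EnX743.nSm m) ^ (-(1 / 3) : ℝ) *
          2 ^ (EnX743.nEm m + m 1 0) / 2 ^ EnX743.nSm m) * TD))) ≤
    2 ^ 17 * (((2 : ℝ) ^ a₂) ^ (1 / 6 : ℝ) *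
      ((2 : ℝ) ^ (m 0 0 + m 0 1 + m 0 2 + m 1 0 + m 1 1 + m 1 2)) ^ (-(1 / 6) : ℝ)) *
      (Real.sqrt Lz * Real.sqrt TD) := by
  have h2 : (0 : ℝ) < 2 := by norm_num
  have e2 : ∀ n : ℕ, (2 : ℝ) ^ n = (2 : ℝ) ^ (n : ℝ) := fun n => (Real.rpow_natCast 2 n).symm
  have e8 : ∀ n : ℕ, (8 : ℝ) ^ n = (2 : ℝ) ^ (3 * (n : ℝ)) := fun n => by
    rw [show (8 : ℝ) = 2 ^ 3 by norm_num, ← pow_mul, e2]
    push_cast
    rfl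
  set P : ℝ := (m 1 0 + m 1 1 + m 1 2 + 3 : ℝ) - (m 0 0 + m 0 1 + m 0 2 + 2 *
    (m 1 0 + m 1 1 + m 1 2) : ℝ) with hP
  set nS : ℝ := (m 0 0 + m 0 1 + m 0 2 + 2 * (m 1 0 + m 1 1 + m 1 2) : ℝ) with hnS
  set nE : ℝ := (m 0 2 + m 1 1 + m 1 2 : ℝ) with hnE
  have cS : ((EnX743.nSm m : ℕ) : ℝ) = nS := by
    unfold EnX743.nSm
    push_cast
    rw [hnS]
  have cE : ((EnX743.nEm m : ℕ) : ℝ) = nE := by
    unfold EnX743.nEm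
    push_cast
    rw [hnE]
  have p1 : (100 * (2 : ℝ) ^ (m 1 0 + m 1 1 + m 1 2 + 3)) / 2 ^ EnX743.nSm m =
      10 ^ 2 * (2 : ℝ) ^ P := by
    rw [e2, e2, cS, hP, Real.rpow_sub h2]
    push_cast
    norm_num
    ring
  have p2 : ((2 : ℝ) ^ 27 * (2 * 2 ^ a₂ * 8 ^ EnX743.nSm m / 8 ^ EnX743.nEm m)) ^ (1 / 3 : ℝ) =
      (2 : ℝ) ^ ((28 + a₂ + 3 * nS - 3 * nE) / 3) := by
    have h1 : (2 : ℝ) ^ 27 * (2 * 2 ^ a₂ * 8 ^ EnX743.nSm m / 8 ^ EnX743.nEm m) =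
        (2 : ℝ) ^ (28 + (a₂ : ℝ) + 3 * nS - 3 * nE) := by
      rw [e8, e8, cS, cE, e2 a₂, Real.rpow_sub h2, Real.rpow_add h2, Real.rpow_add h2]
      have : (2 : ℝ) ^ (28 : ℝ) = 2 ^ 28 := by
        rw [← Real.rpow_natCast]
        norm_num
      rw [this]
      ring
    rw [h1, ← Real.rpow_mul h2.le]
    congr 1
    ring
  set Q : ℝ := (28 + a₂ + 3 * nS - 3 * nE) / 3 - nS / 3 + (nE + m 1 0) - nS with hQ
  have p3 : (2 : ℝ) ^ ((28 + a₂ + 3 * nS - 3 * nE) / 3) *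
      (1600 * (((2 : ℝ) ^ EnX743.nSm m) ^ (-(1 / 3) : ℝ) *
          2 ^ (EnX743.nEm m + m 1 0) / 2 ^ EnX743.nSm m)) = 40 ^ 2 * (2 : ℝ) ^ Q := by
    rw [e2 (EnX743.nSm m), e2 (EnX743.nEm m + m 1 0), cS, ← Real.rpow_mul h2.le]
    have c1 : (((EnX743.nEm m + m 1 0 : ℕ)) : ℝ) = nE + m 1 0 := by
      rw [Nat.cast_add, cE]
    rw [c1]
    have c2 : (2 : ℝ) ^ Q = (2 : ℝ) ^ ((28 + a₂ + 3 * nS - 3 * nE) / 3) *
        (2 : ℝ) ^ (nS * (-(1 / 3))) * (2 : ℝ) ^ (nE + (m 1 0 : ℝ)) / (2 : ℝ) ^ nS := by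
      rw [← Real.rpow_add h2, ← Real.rpow_add h2, ← Real.rpow_sub h2]
      congr 1
      rw [hQ]
      ring
    rw [c2]
    ring
  have s1 : Real.sqrt ((100 * 2 ^ (m 1 0 + m 1 1 + m 1 2 + 3)) / 2 ^ EnX743.nSm m * Lz) =
      10 * (2 : ℝ) ^ (P / 2) * Real.sqrt Lz := by
    rw [p1, Real.sqrt_mul (by positivity), Real.sqrt_mul (by positivity), Real.sqrt_sq (by norm_num),
      Real.sqrt_eq_rpow ((2 : ℝ) ^ P), ← Real.rpow_mul h2.le]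
    congr 2
    ring_nf
  have s2 : Real.sqrt ((2 ^ 27 * (2 * 2 ^ a₂ * 8 ^ EnX743.nSm m / 8 ^ EnX743.nEm m)) ^ (1 / 3 : ℝ) *
          (1600 * (((2 : ℝ) ^ EnX743.nSm m) ^ (-(1 / 3) : ℝ) *
          2 ^ (EnX743.nEm m + m 1 0) / 2 ^ EnX743.nSm m) * TD)) =
      40 * (2 : ℝ) ^ (Q / 2) * Real.sqrt TD := by
    rw [p2, ← mul_assoc, p3, Real.sqrt_mul (by positivity), Real.sqrt_mul (by positivity),
      Real.sqrt_sq (by norm_num), Real.sqrt_eq_rpow ((2 : ℝ) ^ Q), ← Real.rpow_mul h2.le]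
    congr 2
    ring_nf
  rw [s1, s2]
  set W : ℝ := (m 0 0 + m 0 1 + m 0 2 + m 1 0 + m 1 1 + m 1 2 : ℝ) with hW
  have s3 : ((2 : ℝ) ^ (m 0 0 + m 0 1 + m 0 2 + m 1 0 + m 1 1 + m 1 2 + 6)) ^ (1 / 6 : ℝ) =
      (2 : ℝ) ^ ((W + 6) / 6) := by
    rw [e2, ← Real.rpow_mul h2.le]
    congr 1
    push_cast
    rw [hW]
    ring
  have s4 : ((2 : ℝ) ^ (m 0 0 + m 0 1 + m 0 2 + m 1 0 + m 1 1 + m 1 2)) ^ (-(1 / 6) : ℝ) =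
      (2 : ℝ) ^ (-(W / 6)) := by
    rw [e2, ← Real.rpow_mul h2.le]
    congr 1
    push_cast
    rw [hW]
    ring
  have s5 : ((2 : ℝ) ^ a₂) ^ (1 / 6 : ℝ) = (2 : ℝ) ^ ((a₂ : ℝ) / 6) := by
    rw [e2, ← Real.rpow_mul h2.le]
    congr 1
    ring
  rw [s3, s4, s5]
  have hL' := Real.sqrt_nonneg Lz
  have hT' := Real.sqrt_nonneg TD
  have key : (2 : ℝ) ^ ((W + 6) / 6) * (10 * (2 : ℝ) ^ (P / 2) * (40 * (2 : ℝ) ^ (Q / 2))) ≤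
      2 ^ 17 * ((2 : ℝ) ^ ((a₂ : ℝ) / 6) * (2 : ℝ) ^ (-(W / 6))) := by
    have k1 : (2 : ℝ) ^ ((W + 6) / 6) * (10 * (2 : ℝ) ^ (P / 2) * (40 * (2 : ℝ) ^ (Q / 2))) =
        400 * (2 : ℝ) ^ ((W + 6) / 6 + P / 2 + Q / 2) := by
      rw [Real.rpow_add h2, Real.rpow_add h2]
      ring
    have k2 : (2 : ℝ) ^ ((W + 6) / 6 + P / 2 + Q / 2) ≤ (2 : ℝ) ^ ((a₂ : ℝ) / 6 + -(W / 6) + 8) := by
      refine Real.rpow_le_rpow_of_exponent_le (by norm_num) ?_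
      have i00 : (0 : ℝ) ≤ m 0 0 := Nat.cast_nonneg _
      have i01 : (0 : ℝ) ≤ m 0 1 := Nat.cast_nonneg _
      have i02 : (0 : ℝ) ≤ m 0 2 := Nat.cast_nonneg _
      have i10 : (0 : ℝ) ≤ m 1 0 := Nat.cast_nonneg _
      have i11 : (0 : ℝ) ≤ m 1 1 := Nat.cast_nonneg _
      have i12 : (0 : ℝ) ≤ m 1 2 := Nat.cast_nonneg _
      rw [hP, hQ, hnS, hnE, hW]
      linarith
    have k3 : (2 : ℝ) ^ ((a₂ : ℝ) / 6 + -(W / 6) + 8) =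
        (2 : ℝ) ^ ((a₂ : ℝ) / 6) * (2 : ℝ) ^ (-(W / 6)) * 256 := by
      rw [Real.rpow_add h2, Real.rpow_add h2]
      congr 1
      have : (2 : ℝ) ^ (8 : ℝ) = 2 ^ 8 := by
        rw [← Real.rpow_natCast]
        norm_num
      rw [this]
      norm_num
    rw [k1]
    rw [k3] at k2
    have k4 : 0 ≤ (2 : ℝ) ^ ((a₂ : ℝ) / 6) * (2 : ℝ) ^ (-(W / 6)) := by positivity
    calc _ ≤ 400 * ((2 : ℝ) ^ ((a₂ : ℝ) / 6) * (2 : ℝ) ^ (-(W / 6)) * 256) :=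
          mul_le_mul_of_nonneg_left k2 (by norm_num)
      _ = 102400 * ((2 : ℝ) ^ ((a₂ : ℝ) / 6) * (2 : ℝ) ^ (-(W / 6))) := by ring
      _ ≤ _ := mul_le_mul_of_nonneg_right (by norm_num) k4
  calc _ = ((2 : ℝ) ^ ((W + 6) / 6) * (10 * (2 : ℝ) ^ (P / 2) * (40 * (2 : ℝ) ^ (Q / 2)))) *
        (Real.sqrt Lz * Real.sqrt TD) := by ring
    _ ≤ _ := mul_le_mul_of_nonneg_right key (by positivity)

lemma log_bd {A' τ X : ℝ} (hτ : 0 < τ) (hA' : 0 ≤ A') (hX : 1 ≤ X) {n : ℕ}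
    (hn : (n : ℝ) ≤ X ^ A') : 0 ≤ 100 * (1 + Real.log n) ∧
      100 * (1 + Real.log n) ≤ 100 * (1 + A' / τ) * X ^ τ := by
  have hX0 : 0 < X := by linarith
  have h1 : 1 ≤ X ^ τ := Real.one_le_rpow hX hτ.le
  have h0 : 0 ≤ Real.log n := by
    rcases Nat.eq_zero_or_pos n with h | h
    · rw [h]; simp
    · exact Real.log_nonneg (by exact_mod_cast h)
  have h2 : Real.log n ≤ A' * Real.log X := by
    rcases Nat.eq_zero_or_pos n with h | h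
    · rw [h]
      have := Real.log_nonneg hX
      simp
      positivity
    · have := Real.log_le_log (by exact_mod_cast h) hn
      rwa [Real.log_rpow hX0] at this
  have h3 : Real.log X ≤ X ^ τ / τ := Real.log_le_rpow_div hX0.le hτ
  have h4 : A' * Real.log X ≤ A' / τ * X ^ τ := by
    calc A' * Real.log X ≤ A' * (X ^ τ / τ) := mul_le_mul_of_nonneg_left h3 hA'
      _ = _ := by ring
  constructor
  · linarith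
  · nlinarith

lemma chain1 {K4 G Y LN l1 l2 l3 l4 q P TD S : ℝ} (hK4 : 0 ≤ K4) (hY : 1 ≤ Y)
    (hLN : 0 ≤ LN) (h1 : 0 ≤ l1) (h1' : l1 ≤ Y) (h2 : 0 ≤ l2) (h2' : l2 ≤ Y)
    (h3' : l3 ≤ Y) (h4' : l4 ≤ Y) (hP : 0 ≤ P) (hTD : TD ≤ Y * S)
    (hG : 0 ≤ G) (hq : 0 ≤ q) (two : G * q ≤ P * (Real.sqrt l4 * Real.sqrt TD)) :
    K4 * (G * ((Y * (Y * Y)) * (Y ^ 2 * LN * (l1 * l2))) * Real.sqrt (Y ^ 3 * l3)) * q ≤
      K4 * (Y ^ 10 * LN * (P * Real.sqrt S)) := by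
  have hY0 : 0 ≤ Y := by linarith
  have s1 : Real.sqrt (Y ^ 3 * l3) ≤ Y ^ 2 := by
    refine Real.sqrt_le_iff.mpr ⟨by positivity, ?_⟩
    calc Y ^ 3 * l3 ≤ Y ^ 3 * Y := mul_le_mul_of_nonneg_left h3' (by positivity)
      _ = _ := by ring
  have s2 : Real.sqrt l4 * Real.sqrt TD ≤ Y * Real.sqrt S := by
    calc Real.sqrt l4 * Real.sqrt TD ≤ Real.sqrt Y * Real.sqrt (Y * S) :=
          mul_le_mul (Real.sqrt_le_sqrt h4') (Real.sqrt_le_sqrt hTD) (Real.sqrt_nonneg _)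
            (Real.sqrt_nonneg _)
      _ = (Real.sqrt Y * Real.sqrt Y) * Real.sqrt S := by
          rw [Real.sqrt_mul hY0]; ring
      _ = _ := by rw [Real.mul_self_sqrt hY0]
  have s3 : l1 * l2 ≤ Y * Y := mul_le_mul h1' h2' h2 hY0
  have s4 : (Y * (Y * Y)) * (Y ^ 2 * LN * (l1 * l2)) ≤ (Y * (Y * Y)) * (Y ^ 2 * LN * (Y * Y)) := by
    gcongr
  have hS := Real.sqrt_nonneg S
  calc K4 * (G * ((Y * (Y * Y)) * (Y ^ 2 * LN * (l1 * l2))) * Real.sqrt (Y ^ 3 * l3)) * q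
      = K4 * (((Y * (Y * Y)) * (Y ^ 2 * LN * (l1 * l2))) * Real.sqrt (Y ^ 3 * l3) * (G * q)) := by
        ring
    _ ≤ K4 * (((Y * (Y * Y)) * (Y ^ 2 * LN * (Y * Y))) * Y ^ 2 * (P * (Y * Real.sqrt S))) := by
        refine mul_le_mul_of_nonneg_left ?_ hK4
        refine mul_le_mul ?_ (two.trans (mul_le_mul_of_nonneg_left s2 hP)) (by positivity)
          (by positivity)
        exact mul_le_mul s4 s1 (Real.sqrt_nonneg _) (by positivity)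
    _ = _ := by ring

lemma pow_bd' {Y K s X t : ℝ} (hX : 0 < X) (hK : 1 ≤ K) (hY : 0 ≤ Y) (h : Y ≤ K * X ^ s)
    (ht : 0 ≤ t) (ht1 : t ≤ 1) : Y ^ t ≤ K * X ^ (s * t) := by
  have h1 : K ^ t ≤ K := by
    conv_rhs => rw [← Real.rpow_one K]
    exact Real.rpow_le_rpow_of_exponent_le hK ht1
  calc Y ^ t ≤ (K * X ^ s) ^ t := Real.rpow_le_rpow hY h ht
    _ = K ^ t * X ^ (s * t) := by
        rw [Real.mul_rpow (by linarith) (by positivity), ← Real.rpow_mul hX.le]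
    _ ≤ _ := by gcongr

lemma chain2 {X K K₁ C₀ τ ε l L N V₂ W6 ne nb sS a0 a1 a2 a3 a4 a5 E : ℝ} (hX : 1 < X)
    (hK : 1 ≤ K) (hK₁ : 1 ≤ K₁) (hC : 0 ≤ C₀) (hl : Real.exp l ≤ X ^ a0) (hL0 : 0 ≤ L)
    (hL : L ≤ K₁ * X ^ a1) (hN0 : 0 ≤ N) (hN : N ≤ K₁ * X ^ a2) (hV0 : 0 ≤ V₂)
    (hV : V₂ ≤ X ^ a3) (hne0 : 0 < ne) (hne : ne ≤ X ^ a4) (hW0 : 0 ≤ W6)
    (hW : W6 ≤ 2 * ne ^ (-(1 / 6) : ℝ)) (hnb : 0 < nb) (hS0 : 0 ≤ sS)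
    (hS : sS ≤ X ^ a5 / (nb * ne) ^ (1 / 2 : ℝ))
    (hc : (1 + C₀) * 2 ^ 18 * K ^ 10 * K₁ ^ 2 ≤ X ^ (ε / 2))
    (hex : 10 * τ + 2 / 3 * a0 + 2 / 3 * a1 + a2 / 3 + a3 / 6 + 1 / 3 * a4 + a5 + ε / 2 ≤ E) :
    (1 + C₀) * (Real.exp l ^ (4 / 3 : ℝ) * ((K * X ^ τ) ^ 10 *
      (L ^ (1 - 1 / 3 : ℝ) * N ^ (1 - 2 / 3 : ℝ)) * ((2 ^ 17 * (V₂ ^ (1 / 6 : ℝ) * W6)) * sS))) ≤
      X ^ E * Real.exp (2 / 3 * l) / (nb ^ (1 / 2 : ℝ) * ne) := by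
  have hX0 : 0 < X := by linarith
  have e1 : Real.exp l ^ (4 / 3 : ℝ) = Real.exp (2 / 3 * l) * Real.exp l ^ (2 / 3 : ℝ) := by
    rw [← Real.exp_mul, ← Real.exp_mul, ← Real.exp_add]
    congr 1
    ring
  have e2 : Real.exp l ^ (2 / 3 : ℝ) ≤ X ^ (a0 * (2 / 3)) := by
    refine (Real.rpow_le_rpow (Real.exp_pos _).le hl (by norm_num)).trans (le_of_eq ?_)
    rw [← Real.rpow_mul hX0.le]
  have e3 : (K * X ^ τ) ^ 10 = K ^ 10 * X ^ (10 * τ) := by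
    rw [mul_pow, ← Real.rpow_natCast (X ^ τ) 10, ← Real.rpow_mul hX0.le]
    congr 2
    push_cast
    ring
  have e4 : L ^ (1 - 1 / 3 : ℝ) ≤ K₁ * X ^ (a1 * (1 - 1 / 3)) :=
    pow_bd' hX0 hK₁ hL0 hL (by norm_num) (by norm_num)
  have e5 : N ^ (1 - 2 / 3 : ℝ) ≤ K₁ * X ^ (a2 * (1 - 2 / 3)) :=
    pow_bd' hX0 hK₁ hN0 hN (by norm_num) (by norm_num)
  have e6 : V₂ ^ (1 / 6 : ℝ) ≤ X ^ (a3 * (1 / 6)) := by
    refine (Real.rpow_le_rpow hV0 hV (by norm_num)).trans (le_of_eq ?_)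
    rw [← Real.rpow_mul hX0.le]
  have hnb' : 0 < nb ^ (1 / 2 : ℝ) := Real.rpow_pos_of_pos hnb _
  have hne' : 0 < ne ^ (1 / 2 : ℝ) := Real.rpow_pos_of_pos hne0 _
  have e7 : W6 * sS ≤ 2 * (X ^ (a4 * (1 / 3)) * X ^ a5) / (nb ^ (1 / 2 : ℝ) * ne) := by
    have h1 : ne ^ (1 / 3 : ℝ) ≤ X ^ (a4 * (1 / 3)) := by
      refine (Real.rpow_le_rpow hne0.le hne (by norm_num)).trans (le_of_eq ?_)
      rw [← Real.rpow_mul hX0.le]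
    have h2 : ne ^ (-(1 / 6) : ℝ) / ne ^ (1 / 2 : ℝ) = ne ^ (1 / 3 : ℝ) / ne := by
      have h3 : ne ^ (1 / 3 : ℝ) / ne = ne ^ (1 / 3 - 1 : ℝ) := by
        rw [Real.rpow_sub hne0, Real.rpow_one]
      rw [h3, ← Real.rpow_sub hne0]
      congr 1
      norm_num
    calc W6 * sS ≤ (2 * ne ^ (-(1 / 6) : ℝ)) * (X ^ a5 / (nb * ne) ^ (1 / 2 : ℝ)) :=
          mul_le_mul hW hS hS0 (by positivity)
      _ = 2 * (ne ^ (-(1 / 6) : ℝ) / ne ^ (1 / 2 : ℝ)) * X ^ a5 / nb ^ (1 / 2 : ℝ) := by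
          rw [Real.mul_rpow hnb.le hne0.le]
          field_simp
      _ = 2 * (ne ^ (1 / 3 : ℝ) * X ^ a5) / (nb ^ (1 / 2 : ℝ) * ne) := by
          rw [h2]
          field_simp
      _ ≤ _ := by gcongr
  rw [e1, e3]
  calc (1 + C₀) * (Real.exp (2 / 3 * l) * Real.exp l ^ (2 / 3 : ℝ) * (K ^ 10 * X ^ (10 * τ) *
      (L ^ (1 - 1 / 3 : ℝ) * N ^ (1 - 2 / 3 : ℝ)) * ((2 ^ 17 * (V₂ ^ (1 / 6 : ℝ) * W6)) * sS)))
      = (1 + C₀) * (Real.exp (2 / 3 * l) * Real.exp l ^ (2 / 3 : ℝ) * (K ^ 10 * X ^ (10 * τ) *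
      (L ^ (1 - 1 / 3 : ℝ) * N ^ (1 - 2 / 3 : ℝ)) * (2 ^ 17 * V₂ ^ (1 / 6 : ℝ) * (W6 * sS)))) := by
        ring
    _ ≤ (1 + C₀) * (Real.exp (2 / 3 * l) * X ^ (a0 * (2 / 3)) * (K ^ 10 * X ^ (10 * τ) *
      ((K₁ * X ^ (a1 * (1 - 1 / 3))) * (K₁ * X ^ (a2 * (1 - 2 / 3)))) *
      (2 ^ 17 * X ^ (a3 * (1 / 6)) * (2 * (X ^ (a4 * (1 / 3)) * X ^ a5) /
        (nb ^ (1 / 2 : ℝ) * ne))))) := by
        gcongr
    _ = ((1 + C₀) * 2 ^ 18 * K ^ 10 * K₁ ^ 2) * (X ^ (a0 * (2 / 3)) * X ^ (10 * τ) *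
      X ^ (a1 * (1 - 1 / 3)) * X ^ (a2 * (1 - 2 / 3)) * X ^ (a3 * (1 / 6)) * X ^ (a4 * (1 / 3)) *
        X ^ a5) * Real.exp (2 / 3 * l) / (nb ^ (1 / 2 : ℝ) * ne) := by
        field_simp
    _ ≤ X ^ (ε / 2) * (X ^ (a0 * (2 / 3)) * X ^ (10 * τ) *
      X ^ (a1 * (1 - 1 / 3)) * X ^ (a2 * (1 - 2 / 3)) * X ^ (a3 * (1 / 6)) * X ^ (a4 * (1 / 3)) *
        X ^ a5) * Real.exp (2 / 3 * l) / (nb ^ (1 / 2 : ℝ) * ne) := by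
        gcongr
    _ ≤ _ := by
        have h2 : X ^ (ε / 2) * (X ^ (a0 * (2 / 3)) * X ^ (10 * τ) *
            X ^ (a1 * (1 - 1 / 3)) * X ^ (a2 * (1 - 2 / 3)) * X ^ (a3 * (1 / 6)) *
            X ^ (a4 * (1 / 3)) * X ^ a5) ≤ X ^ E := by
          rw [← Real.rpow_add hX0, ← Real.rpow_add hX0, ← Real.rpow_add hX0, ← Real.rpow_add hX0,
            ← Real.rpow_add hX0, ← Real.rpow_add hX0, ← Real.rpow_add hX0]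
          refine Real.rpow_le_rpow_of_exponent_le hX.le ?_
          linarith
        gcongr

end Crest.Agent.R017.E4Pn783
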