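import Crest.Agent.R017.E4b_352

/-!
# Row 17, C70/E4: the data of one term of the opening (helper352)
-/

set_option autoImplicit false

noncomputable section

open Complex
open scoped ComplexConjugate

namespace Crest.Agent.R017.E4352

open Crest.Agent.R012 Crest.Agent.R012.Eis Crest.Agent.R012.Mob705 Crest.Agent.R012.Gauss880
open Crest.Agent.R012.GaussLoc283
open Crest.Agent.R012.Div277
open Crest.Agent.R017.Sx545 Crest.Agent.R017.CM106 Crest.Agent.R017.C70 Crest.Agent.R017.C590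
open Crest.Agent.R017.B770 Crest.Agent.R017.E2440 Crest.Agent.R017.End699
open Crest.Agent.R017.E4579 (bpt bco SupB)

variable {M : Eis} {t R : Eis} {g c : Eis → ℂ}

lemma tws_ne {x : Eis} (h : tws R t g c x ≠ 0) : IsCoprime x t ∧ c (R * x) ≠ 0 := by
  unfold tws at h
  split_ifs at h with h1
  · exact ⟨h1, right_ne_zero_of_mul h⟩
  · exact absurd rfl h

lemma tws_SSm (hc : SSm M c) (hR : IsPrim R) : SSm M (tws R t g c) where
  fin := by
    refine Set.Finite.subset (hc.fin.preimage (f := fun m => R * m) ?_) ?_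
    · intro x _ y _ h
      exact mul_left_cancel₀ hR.ne_zero h
    · intro x hx
      exact (tws_ne hx).2
  sm := fun y hy => (hc.sm _ (tws_ne hy).2).of_mul_left hR

lemma norm_tws_le (hg : ∀ x, ‖g x‖ ≤ 1) {X : ℝ} (hX : 0 ≤ X) (hc : ∀ x, ‖c x‖ ≤ X) (x : Eis) :
    ‖tws R t g c x‖ ≤ X := by
  unfold tws
  split_ifs
  · rw [norm_mul]
    calc ‖g x‖ * ‖c (R * x)‖ ≤ 1 * X := mul_le_mul (hg x) (hc _) (norm_nonneg _) zero_le_one
      _ = X := one_mul X
  · rw [norm_zero]; exact hX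

lemma norm_tws_le_one (hg : ∀ x, ‖g x‖ ≤ 1) (x : Eis) :
    ‖tws R t g c x‖ ≤ ‖tws R t (fun _ => 1) c x‖ := by
  unfold tws
  split_ifs
  · rw [norm_mul, one_mul]
    exact mul_le_of_le_one_left (norm_nonneg _) (hg x)
  · exact le_rfl

lemma nm_tws_le (hR : IsPrim R) {X : ℝ} (hc : ∀ x, c x ≠ 0 → (nm x : ℝ) ≤ X) {x : Eis}
    (h : tws R t g c x ≠ 0) : (nm x : ℝ) ≤ X := by
  have h1 := (tws_ne h).2
  refine le_trans ?_ (hc _ h1)
  rw [nm_mul]
  have h2 : 1 ≤ nm R := nm_pos.mpr hR.ne_zero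
  have : nm x ≤ nm R * nm x := Nat.le_mul_of_pos_left _ h2
  exact_mod_cast this

lemma CbF.of_mul {a b : Eis} (h : CbF (a * b)) : CbF b := fun p hp h' => h p hp (h'.mul_left a)

variable {f F Z D : Eis} {O : Type} [Fintype O] {lam : O → ℝ} {v w : O → Eis → ℂ} {X Y : ℝ}

lemma Dat4_comp (h : Dat4 M f lam v w X) (hR : IsPrim R) (hZ : IsPrim Z) (hD : IsPrim D)
    (hF : Sm M F) (hXY : X ≤ Y) (hFY : (nm F : ℝ) ≤ Y) :
    Dat4 M F lam (fun o => tws R t (cj D) (v o)) (fun o => tws Z t (cj D) (w o)) Y where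
  X1 := h.X1.trans hXY
  card := h.card.trans hXY
  lam1 := fun o => ⟨(h.lam1 o).1, (h.lam1 o).2.trans hXY⟩
  hf := ⟨hF, hFY⟩
  hv := fun o => tws_SSm (h.hv o) hR
  hw := fun o => tws_SSm (h.hw o) hZ
  vx := fun o x hx => ⟨CbF.of_mul (h.vx o _ (tws_ne hx).2).1,
    (nm_tws_le hR (fun x hx => (h.vx o x hx).2) hx).trans hXY⟩
  wy := fun o y hy => (nm_tws_le hZ (h.wy o) hy).trans hXY
  vb := fun o x => (norm_tws_le (cj_le hD) (by linarith [h.X1]) (h.vb o) x).trans hXY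
  wb := fun o x => (norm_tws_le (cj_le hD) (by linarith [h.X1]) (h.wb o) x).trans hXY

/-! ### finite sums -/

lemma tsum_SSmR {M : Eis} {c : Eis → ℂ} (hc : SSm M c) {N : ℕ} (hN : ∀ x, c x ≠ 0 → nm x ≤ N)
    (F : Eis → ℝ) : ∑' x, ‖c x‖ * F x = ∑ x ∈ primBall N, ‖c x‖ * F x := by
  classical
  refine tsum_eq_sum fun x hx => ?_
  by_cases h : c x = 0
  · rw [h, norm_zero, zero_mul]
  · exact absurd (mem_primBall.mpr ⟨hN x h, (hc.sm x h).prim⟩) hx

lemma NT_congr_phi {M u : Eis} {φ φ' : Eis → ℂ} (h : ∀ k, Sm M k → φ k = φ' k) :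
    NT M u φ = NT M u φ' := by
  classical
  unfold NT DS
  refine tsum_congr fun e => ?_
  split_ifs with he
  · congr 1
    refine tsum_congr fun d => ?_
    split_ifs with hd
    · congr 1
      exact h _ (hd.mul (he.pow 3))
    · rfl
  · rfl

/-! ### the radical of `Z` -/

lemma bco_sqf {f D : Eis} (hf : IsPrim f) (hD : IsPrim D) (hs : Squarefree D) :
    Squarefree (bco f D) :=
  hs.squarefree_of_dvd ⟨bpt f D, by rw [mul_comm]; exact (E4579.bpt_mul_bco hf hD).symm⟩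

lemma bco_dvd {f D : Eis} (hf : IsPrim f) (hD : IsPrim D) : bco f D ∣ D :=
  ⟨bpt f D, by rw [mul_comm]; exact (E4579.bpt_mul_bco hf hD).symm⟩

lemma bpt_dvd_rd {f D : Eis} (hf : IsPrim f) (hD : IsPrim D) (hs : Squarefree D) :
    bpt f D ∣ rd f :=
  (dvd_rd hf.ne_zero (E4579.bpt_prim hf hD)).mpr
    ⟨hs.squarefree_of_dvd (E4579.bpt_dvd hf hD), E4579.bpt_sup hf hD⟩

lemma sqf_dvd_of_primes {a b : Eis} (ha : IsPrim a) (hs : Squarefree a)
    (h : ∀ p, Prime p → p ∣ a → p ∣ b) : a ∣ b := by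
  rw [← prod_pp ha hs]
  exact (ppSet_pp a).prod_dvd.mpr fun p hp => h p (isPP_of_mem_pp hp).prime (dvd_of_mem_pp hp)

lemma Good.F_spec {B : Eis} (h : Good M f D B R Z) (hf : Sm M f) (hR : Sm M R) (hZ : Sm M Z) :
    ∃ F, F = f * R * Z / (D * B ^ 3) ∧ Sm M F ∧ f * R * Z = D * B ^ 3 * F ∧ IsCoprime F D ∧
      F ∣ f * R * Z := by
  obtain ⟨h1, h2, h3, h4, h5, ⟨F, hF⟩, h7, h8⟩ := h
  have h0 : D * B ^ 3 ≠ 0 := mul_ne_zero h4.ne_zero (pow_ne_zero 3 h5.ne_zero)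
  have e : f * R * Z / (D * B ^ 3) = F := by rw [hF, mul_div_cancel_left₀ F h0]
  have h9 : Sm M (D * B ^ 3 * F) := hF ▸ (hf.mul hR).mul hZ
  have h10 : Sm M F := h9.of_mul_left (h4.prim.mul (h5.prim.pow 3))
  rw [e] at h7
  exact ⟨F, e.symm, h10, hF, h7, Dvd.intro_left _ hF.symm⟩

/-- `rd Z = D₁ Z₃` with `D₁ = bco f D`, `bco f B ∣ Z₃ ∣ B` -/
lemma Good.rdZ {B : Eis} (h : Good M f D B R Z) (hf : Sm M f) (hR : Sm M R) (hZ : Sm M Z)
    (hZt : PrI (D * B) Z) :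
    ∃ Z₃, IsPrim Z₃ ∧ rd Z = bco f D * Z₃ ∧ bco f B ∣ Z₃ ∧ Z₃ ∣ B := by
  obtain ⟨F, -, hF, hF2, hF3, -⟩ := h.F_spec hf hR hZ
  obtain ⟨h1, h2, h3, h4, h5, -, -, h8⟩ := h
  have hfp := hf.prim
  have b1 : bco f D ∣ rd Z := by
    refine (dvd_rd hZ.ne_zero (E4579.bco_prim hfp h4.prim)).mpr ⟨bco_sqf hfp h4.prim h1, ?_⟩
    intro p hp hpd
    have h9 : p ∣ f * Z := h8 p hp ((hpd.trans (bco_dvd hfp h4.prim)).mul_right _)
    rcases hp.dvd_or_dvd h9 with h | h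
    · exact absurd ((E4579.bco_cop hfp h4.prim).isUnit_of_dvd' hpd h) hp.not_isUnit
    · exact h
  obtain ⟨Z₃, hZ₃⟩ := b1
  have pZ₃ : IsPrim Z₃ := (hZ₃ ▸ rd_prim Z : IsPrim (bco f D * Z₃)).of_mul_left
    (E4579.bco_prim hfp h4.prim)
  have sq := hZ₃ ▸ rd_sqf Z
  have cop : IsCoprime (bco f D) Z₃ := (squarefree_mul_iff.mp sq).1.isCoprime
  refine ⟨Z₃, pZ₃, hZ₃, ?_, ?_⟩
  · refine sqf_dvd_of_primes (E4579.bco_prim hfp h5.prim) (bco_sqf hfp h5.prim h2) ?_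
    intro p hp hpd
    have hpB : p ∣ B := hpd.trans (bco_dvd hfp h5.prim)
    have h9 : p ∣ f * Z := h8 p hp (hpB.mul_left _)
    have h10 : p ∣ Z := by
      rcases hp.dvd_or_dvd h9 with h | h
      · exact absurd ((E4579.bco_cop hfp h5.prim).isUnit_of_dvd' hpd h) hp.not_isUnit
      · exact h
    obtain ⟨q, hq, hqp⟩ := exists_pp_of_prime hp hZ.prim h10
    have h11 : q ∣ rd Z := (dvd_rd hZ.ne_zero hq.isPrim).mpr
      ⟨hq.prime.squarefree, fun r _ hr => hr.trans (hqp.dvd.trans h10)⟩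
    have h12 : p ∣ bco f D * Z₃ := hZ₃ ▸ (hqp.symm.dvd.trans h11)
    rcases hp.dvd_or_dvd h12 with h | h
    · have h13 : p ∣ D := h.trans (bco_dvd hfp h4.prim)
      exact absurd (h3.isUnit_of_dvd' h13 hpB) hp.not_isUnit
    · exact h
  · refine sqf_dvd_of_primes pZ₃ sq.of_mul_right ?_
    intro p hp hpd
    have hpZ : p ∣ Z := (hpd.trans (Dvd.intro_left _ hZ₃.symm)).trans (rd_dvd Z)
    have h9 : p ∣ D * B := hZt.2 p hp hpZ
    rcases hp.dvd_or_dvd h9 with h | h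
    · exfalso
      have hcF : ¬ p ∣ F := fun h' => hp.not_isUnit (hF3.isUnit_of_dvd' h' h)
      have hcB : ¬ p ∣ B := fun h' => hp.not_isUnit (h3.isUnit_of_dvd' h h')
      obtain ⟨D', rfl⟩ := h
      have hcD' : ¬ p ∣ D' := fun h' => hp.not_isUnit (h1 p (mul_dvd_mul_left p h'))
      by_cases hpf : p ∣ f
      · have h10 : p * p ∣ f * R * Z := by
          have : p * p ∣ f * Z := mul_dvd_mul hpf hpZ
          exact this.trans ⟨R, by ring⟩
        rw [hF2] at h10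
        have h11 : p ∣ D' * (B ^ 3 * F) := by
          have h12 : p * p ∣ p * (D' * (B ^ 3 * F)) := by
            convert h10 using 1
            ring
          exact (mul_dvd_mul_iff_left hp.ne_zero).mp h12
        rcases hp.dvd_or_dvd h11 with h | h
        · exact hcD' h
        · rcases hp.dvd_or_dvd h with h | h
          · exact hcB (hp.dvd_of_dvd_pow h)
          · exact hcF h
      · have h10 : p ∣ bco f (p * D') := by
          have h11 := E4579.bpt_mul_bco hfp h4.prim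
          have h12 : p ∣ bpt f (p * D') * bco f (p * D') := by rw [h11]; exact dvd_mul_right _ _
          rcases hp.dvd_or_dvd h12 with h | h
          · exact absurd (E4579.bpt_sup hfp h4.prim p hp h) hpf
          · exact h
        exact hp.not_isUnit (cop.isUnit_of_dvd' h10 hpd)
    · exact h

end Crest.Agent.R017.E4352
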