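import Crest.Agent.R017.E4p18_939
import Crest.Agent.R017.E4c_352

/-!
# Row 17, block C70, leaf E4, case L (helper939): the polar terms, part 19

`polar_ELe` : `polar_EL` with the gain `nm e₀ ^ (-1/2)` of the outer sum
-/

set_option autoImplicit false
set_option linter.unusedVariables false
set_option linter.unusedSectionVars false

noncomputable section

open Finset
open scoped ComplexConjugate

namespace Crest.Agent.R017.E4P939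

open Crest.Agent.R012 Crest.Agent.R012.Eis Crest.Agent.R012.Mob705 Crest.Agent.R012.Gauss880
open Crest.Agent.R012.Div277 (dvs mem_dvs tau tau_le_rpow)
open Crest.Agent.R017.Sx545 (Sm)
open Crest.Agent.R017.CM106 (FS)
open Crest.Agent.R017.PX764 (rho th Gh n6 cD)
open Crest.Agent.R017.E2440 (NoP TE)
open Crest.Agent.R017.C70
open Crest.Agent.R017.End699 (HC)
open Crest.Agent.R017.GrB829
open Crest.Agent.R017.E4352 (PrI SSm Dat4)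
open Crest.Agent.R017.E4v5 (HM5)
open Crest.Agent.R017.E4K164 (dc dc_spec)
open Crest.Agent.R017.E4D164
open Crest.Agent.R017.E4ap783 (mtr PG)
open Crest.Agent.R017.E5b54 (stj stj_spec)
open Crest.Agent.R017.DgA829 (lc lc_prim lc_dvd)

/-- the outer sum with the step `e₀` -/
lemma sum_sE {ε : ℝ} (hε : 0 < ε) : ∃ C : ℝ, 0 < C ∧ ∀ X : ℝ, 1 ≤ X → ∀ (Q : Finset Eis)
    (s₁ : Eis → Eis) (e₀ : Eis), IsPrim e₀ → Squarefree e₀ → (∀ q ∈ Q, IsPrim q) →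
    (∀ q ∈ Q, IsPrim (s₁ q) ∧ q ^ 2 ∣ s₁ q ∧ e₀ ∣ s₁ q ∧ (nm (s₁ q) : ℝ) ≤ X) →
    ∑ q ∈ Q, (nm (s₁ q) : ℝ) ^ (-(1 / 2) : ℝ) ≤ C * X ^ ε * (nm e₀ : ℝ) ^ (-(1 / 2) : ℝ) := by
  classical
  obtain ⟨C2, hC2, htau⟩ := tau_le_rpow (ε := ε / 2) (by positivity)
  obtain ⟨C3, hC3, hinv⟩ := sum_inv_X (ε := ε / 2) (by positivity)
  have hC20 : 0 < C2 := by linarith
  refine ⟨C2 * C3, by positivity, fun X hX Q s₁ e₀ he₀ hsq hQ hs => ?_⟩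
  have hX0 : 0 < X := by linarith
  have hen : (0 : ℝ) < nm e₀ := by exact_mod_cast nm_pos.mpr he₀.ne_zero
  rcases Q.eq_empty_or_nonempty with rfl | ⟨q₀, hq₀⟩
  · rw [Finset.sum_empty]; positivity
  have heX : (nm e₀ : ℝ) ≤ X := by
    obtain ⟨h1, -, h3, h4⟩ := hs q₀ hq₀
    exact le_trans (by exact_mod_cast Div277.nm_le_of_dvd h1.ne_zero h3) h4
  have key : ∀ q ∈ Q, ∃ p : Eis × Eis, p.1 ∈ dvs e₀ ∧ IsPrim p.2 ∧ q = p.1 * p.2 ∧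
      p.2 ^ 2 * e₀ ∣ s₁ q := by
    intro q hq
    have hqp := hQ q hq
    obtain ⟨h1, h2, h3, h4⟩ := hs q hq
    have hu : IsPrim (E4579.bpt q e₀) := E4579.bpt_prim hqp he₀
    have hw : IsPrim (E4579.bco q e₀) := E4579.bco_prim hqp he₀
    have hmul : E4579.bpt q e₀ * E4579.bco q e₀ = e₀ := E4579.bpt_mul_bco hqp he₀
    have hcop : IsCoprime (E4579.bco q e₀) q := E4579.bco_cop hqp he₀
    have hud : E4579.bpt q e₀ ∣ e₀ := E4579.bpt_dvd hqp he₀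
    have huq : E4579.bpt q e₀ ∣ q :=
      E4352.sqf_dvd_of_primes hu (hsq.squarefree_of_dvd hud) (E4579.bpt_sup hqp he₀)
    obtain ⟨q', hq'⟩ := huq
    have hqp' : IsPrim (E4579.bpt q e₀ * q') := by rw [← hq']; exact hqp
    have hq'p : IsPrim q' := hqp'.of_mul_left hu
    refine ⟨(E4579.bpt q e₀, q'), (mem_dvs he₀.ne_zero).2 ⟨hu, hud⟩, hq'p, hq', ?_⟩
    have h5 : q ^ 2 * E4579.bco q e₀ ∣ s₁ q :=
      (hcop.symm.pow_left (m := 2)).mul_dvd h2 ((Dvd.intro_left _ hmul).trans h3)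
    refine dvd_trans ⟨E4579.bpt q e₀, ?_⟩ h5
    show q ^ 2 * E4579.bco q e₀ = q' ^ 2 * e₀ * E4579.bpt q e₀
    calc q ^ 2 * E4579.bco q e₀ = (E4579.bpt q e₀ * q') ^ 2 * E4579.bco q e₀ := by rw [← hq']
      _ = q' ^ 2 * (E4579.bpt q e₀ * E4579.bco q e₀) * E4579.bpt q e₀ := by ring
      _ = _ := by rw [hmul]
  choose! g hg1 hg2 hg3 hg4 using key
  have hle : ∀ q ∈ Q, (nm (s₁ q) : ℝ) ^ (-(1 / 2) : ℝ) ≤
      (nm e₀ : ℝ) ^ (-(1 / 2) : ℝ) * (nm (g q).2 : ℝ)⁻¹ := by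
    intro q hq
    have h1 := hs q hq
    have hn : (0 : ℝ) < nm (g q).2 := by exact_mod_cast nm_pos.mpr (hg2 q hq).ne_zero
    have h2 : (nm (g q).2 : ℝ) ^ 2 * nm e₀ ≤ nm (s₁ q) := by
      have := Div277.nm_le_of_dvd h1.1.ne_zero (hg4 q hq)
      rw [nm_mul, nm_pow] at this
      exact_mod_cast this
    calc (nm (s₁ q) : ℝ) ^ (-(1 / 2) : ℝ) ≤ ((nm (g q).2 : ℝ) ^ 2 * nm e₀) ^ (-(1 / 2) : ℝ) :=
          Real.rpow_le_rpow_of_nonpos (by positivity) h2 (by norm_num)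
      _ = (nm e₀ : ℝ) ^ (-(1 / 2) : ℝ) * (nm (g q).2 : ℝ)⁻¹ := by
          rw [Real.mul_rpow (by positivity) hen.le, ← Real.rpow_natCast, ← Real.rpow_mul hn.le,
            ← Real.rpow_neg_one, mul_comm]
          norm_num
  have hinj : Set.InjOn g Q := by
    intro q hq q' hq' h
    rw [hg3 q hq, hg3 q' hq', h]
  have hmem : ∀ q ∈ Q, g q ∈ dvs e₀ ×ˢ primBall ⌊X⌋₊ := by
    intro q hq
    have h1 := hs q hq
    rw [Finset.mem_product, GLS106.mem_primBall_floor]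
    refine ⟨hg1 q hq, ?_, hg2 q hq⟩
    have h5 : (g q).2 ∣ s₁ q := (Dvd.intro ((g q).2 * e₀) (by ring)).trans (hg4 q hq)
    exact le_trans (by exact_mod_cast Div277.nm_le_of_dvd h1.1.ne_zero h5) h1.2.2.2
  calc ∑ q ∈ Q, (nm (s₁ q) : ℝ) ^ (-(1 / 2) : ℝ)
      ≤ ∑ q ∈ Q, (nm e₀ : ℝ) ^ (-(1 / 2) : ℝ) * (nm (g q).2 : ℝ)⁻¹ := Finset.sum_le_sum hle
    _ = ∑ p ∈ Q.image g, (nm e₀ : ℝ) ^ (-(1 / 2) : ℝ) * (nm p.2 : ℝ)⁻¹ :=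
        (Finset.sum_image (f := fun p : Eis × Eis =>
          (nm e₀ : ℝ) ^ (-(1 / 2) : ℝ) * (nm p.2 : ℝ)⁻¹) hinj).symm
    _ ≤ ∑ p ∈ dvs e₀ ×ˢ primBall ⌊X⌋₊, (nm e₀ : ℝ) ^ (-(1 / 2) : ℝ) * (nm p.2 : ℝ)⁻¹ := by
        refine Finset.sum_le_sum_of_subset_of_nonneg ?_ fun _ _ _ => by positivity
        intro p hp
        obtain ⟨q, hq, rfl⟩ := Finset.mem_image.1 hp
        exact hmem q hq
    _ = (dvs e₀).card * ((nm e₀ : ℝ) ^ (-(1 / 2) : ℝ) * ∑ ν ∈ primBall ⌊X⌋₊, (nm ν : ℝ)⁻¹) := by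
        rw [Finset.sum_product]
        simp only [← Finset.mul_sum]
        rw [Finset.sum_const, nsmul_eq_mul]
        ring
    _ ≤ (C2 * X ^ (ε / 2)) * ((nm e₀ : ℝ) ^ (-(1 / 2) : ℝ) * (C3 * X ^ (ε / 2))) := by
        have h1 : ((dvs e₀).card : ℝ) ≤ C2 * X ^ (ε / 2) := by
          have h2 : (tau e₀ : ℝ) ≤ C2 * (nm e₀ : ℝ) ^ (ε / 2) := htau e₀ he₀.ne_zero
          refine le_trans h2 ?_
          exact mul_le_mul_of_nonneg_left (Real.rpow_le_rpow hen.le heX (by positivity)) hC20.le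
        exact mul_le_mul h1 (mul_le_mul_of_nonneg_left (hinv X hX) (by positivity))
          (mul_nonneg (by positivity) (Finset.sum_nonneg fun _ _ => by positivity)) (by positivity)
    _ = _ := by
        have hpw : X ^ (ε / 2) * X ^ (ε / 2) = X ^ ε := by
          rw [← Real.rpow_add hX0]; congr 1; ring
        rw [← hpw]; ring

/-- **the polar hypothesis for every summand of `midF_E4L`, gain in `e₀`** -/
theorem polar_ELe {ε : ℝ} (hε : 0 < ε) : ∃ C : ℝ, 0 < C ∧ ∀ (M f : Eis) (ψ : Eis → ℂ) (l : ℤ)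
    (Q : Finset Eis) (γ e₀ t : Eis) (J : Finset (Eis × Eis)) (I : Finset (Eis × (Eis × Eis))) (εc : Eis → ℂ)
    (om : Eis × Eis → ℂ) (α : Eis → ℂ) (c₀ g z : Eis) (b₁ b₂ : Eis → ℂ) (h₁ : FS b₁)
    (h₂ : FS b₂) (X K T₀ V Λ Cw : ℝ), HC M ψ → Sm M f → (nm f : ℝ) ≤ X → PrI M g → PrI M z →
    (∀ q ∈ Q, IsPrim q) → IsPrim γ → IsPrim e₀ → IsPrim t →
    (∀ q ∈ Q, (nm (sE (fun q => q ^ 2 * γ) e₀ t q) : ℝ) ≤ X) → OKJ J → I ⊆ Q ×ˢ J → (∀ q, ‖εc q‖ ≤ 1) →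
    0 ≤ V → (∀ x ∈ J, (nm x.2 : ℝ) * nm x.1 ^ 2 ≤ V) →
    (∀ i ∈ I, (nm (jS (sE (fun q => q ^ 2 * γ) e₀ t) i *
      (dc (jJ (sE (fun q => q ^ 2 * γ) e₀ t) i)).2.2) : ℝ) ≤ X) → 0 ≤ K → 0 ≤ Λ → 0 ≤ Cw →
    (∀ n m, ‖b₁ n‖ * ‖b₂ m‖ ≤ Cw) → (∀ n m, b₁ n ≠ 0 → b₂ m ≠ 0 → (nm (n * m ^ 2) : ℝ) ≤ X) →
    (∀ n m, b₁ n ≠ 0 → b₂ m ≠ 0 → (nm n : ℝ) ^ 2 * nm m ≤ Λ) →
    Dat4 M 1 (O := OU M I (jS (sE (fun q => q ^ 2 * γ) e₀ t))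
        (jJ (sE (fun q => q ^ 2 * γ) e₀ t))) (fun o => (nm (o.1.1 * o.1.2) : ℝ))
      (fun o => vI M ψ l f I (jS (sE (fun q => q ^ 2 * γ) e₀ t)) jD
        (jJ (sE (fun q => q ^ 2 * γ) e₀ t))
        (jC (sE (fun q => q ^ 2 * γ) e₀ t) (cE εc om α e₀)) c₀ g o.1)
      (fun o => mulw f (wI M b₁ b₂ (h₁.fin.toFinset ×ˢ h₂.fin.toFinset) z o.1)) X →
    (¬ Squarefree e₀ → TS J (fun x => ‖om x‖ * ‖TE α x e₀‖) = 0) →
    ∀ (l' : ℤ) (m0 : Eis), PG M l' m0 →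
    HM5 M 1 (O := OU M I (jS (sE (fun q => q ^ 2 * γ) e₀ t))
        (jJ (sE (fun q => q ^ 2 * γ) e₀ t))) (fun o => (nm (o.1.1 * o.1.2) : ℝ))
      (fun o => vI M ψ l f I (jS (sE (fun q => q ^ 2 * γ) e₀ t)) jD
        (jJ (sE (fun q => q ^ 2 * γ) e₀ t))
        (jC (sE (fun q => q ^ 2 * γ) e₀ t) (cE εc om α e₀)) c₀ g o.1)
      (fun o => mulw f (wI M b₁ b₂ (h₁.fin.toFinset ×ˢ h₂.fin.toFinset) z o.1)) K T₀
      (mtr (some m0))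
      (C * X ^ ε * (nm e₀ : ℝ) ^ (-(1 / 2) : ℝ) * (K ^ (4 / 3 : ℝ) * (Cw *
        (Real.sqrt (TS J (fun x => ‖om x‖ * ‖TE α x e₀‖)) *
        (Λ ^ (1 / 3 : ℝ) * V ^ (1 / 3 : ℝ) + Λ ^ (5 / 12 : ℝ) * V ^ (1 / 12 : ℝ)))))) := by
  obtain ⟨K0, hK0, hp0⟩ := polar_EL (ε := ε) hε
  obtain ⟨K1, hK1, hpo⟩ := polar_gen (ε := ε / 2) (by positivity)
  obtain ⟨C3, hC3, hinv⟩ := sum_sE (ε := ε / 2) (by positivity)
  refine ⟨K1 * C3, by positivity, ?_⟩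
  intro M f ψ l Q γ e₀ t J I εc om α c₀ g z b₁ b₂ h₁ h₂ X K T₀ V Λ Cw hψ hf hfX hg hz hQ hγ he₀ ht
    hsE hJ hIQ hεc hV0 hV hsX hK hΛ hCw0 hcw hN hΛ2 hD hTS l' m0 hm0
  by_cases hsq : Squarefree e₀
  swap
  · refine HM5.mono (hp0 M f ψ l Q γ e₀ t J I εc om α c₀ g z b₁ b₂ h₁ h₂ X K T₀ V Λ Cw hψ hf hfX hg
      hz hQ hγ he₀ ht hsE hJ hIQ hεc hV0 hV hsX hK hΛ hCw0 hcw hN hΛ2 hD l' m0 hm0) (le_of_eq ?_)
    rw [hTS hsq, Real.sqrt_zero]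
    ring
  have hX := hD.X1
  have hX0 : 0 < X := by linarith
  set s : Eis → Eis := fun q => q ^ 2 * γ with hs
  set s' := sE s e₀ t with hs'
  have hsp : ∀ q ∈ Q, IsPrim (s q) := fun q hq => ((hQ q hq).pow 2).mul hγ
  have hspec : ∀ q ∈ Q, IsPrim (s' q) ∧ s q ∣ s' q := fun q hq => sE_spec (hsp q hq) he₀ ht
  have hinj : Set.InjOn s Q := by
    intro q hq q' hq' h
    exact sq_inj (hQ q hq) (hQ q' hq') (mul_right_cancel₀ hγ.ne_zero h)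
  have hSQ : ∑ b ∈ Q, (nm (s' b) : ℝ) ^ (-(1 / 2) : ℝ) ≤
      C3 * X ^ (ε / 2) * (nm e₀ : ℝ) ^ (-(1 / 2) : ℝ) := by
    refine hinv X hX Q s' e₀ he₀ hsq hQ fun q hq => ?_
    obtain ⟨h3, h4⟩ := hspec q hq
    refine ⟨h3, (Dvd.intro γ rfl).trans h4, ?_, hsE q hq⟩
    have h5 := lc_prim (hsp q hq) he₀
    exact ((lc_dvd (hsp q hq) he₀ _).mp ((lc_dvd h5 ht _).mp dvd_rfl).1).2
  have h0 := hpo M m0 f ψ l Eis Q s' s J (cE εc om α e₀) (fun x => ‖om x‖ * ‖TE α x e₀‖) I c₀ g z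
    b₁ b₂ h₁ h₂ X K T₀ V (C3 * X ^ (ε / 2) * (nm e₀ : ℝ) ^ (-(1 / 2) : ℝ)) Λ Cw hψ
    (NoP_of_PG hψ.three hψ.q0 hm0) hf hfX hg hz
    (fun q hq => ⟨(hspec q hq).1, hsE q hq⟩) hinj
    (fun q hq => ⟨hsp q hq, (hspec q hq).2⟩) hJ hIQ
    (fun b _ x _ hx => TE_cop (by
      unfold cE at hx
      exact right_ne_zero_of_mul (right_ne_zero_of_mul hx)))
    (fun b _ x _ => by
      unfold cE
      rw [norm_mul, norm_mul]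
      exact mul_le_of_le_one_left (by positivity) (hεc b)) hV0 hV hsX hSQ hK hΛ hCw0 hcw hN hΛ2 hD
  refine HM5.mono h0 (le_of_eq ?_)
  have hpw : X ^ (ε / 2) * X ^ (ε / 2) = X ^ ε := by
    rw [← Real.rpow_add hX0]
    congr 1; ring
  rw [← hpw]
  ring

end Crest.Agent.R017.E4P939
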