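import Crest.Agent.R017.E4p17_939

/-!
# Row 17, block C70, leaf E4, case L (helper939): the polar terms, part 18

`polar_EL` : the polar hypothesis of `E4core5`/`E4core7` for every summand of 164's `midF_E4L`.
-/

set_option autoImplicit false
set_option linter.unusedVariables false
set_option linter.unusedSectionVars false

noncomputable section

open Finset
open scoped ComplexConjugate

namespace Crest.Agent.R017.E4P939

open Crest.Agent.R012 Crest.Agent.R012.Eis Crest.Agent.R012.Mob705 Crest.Agent.R012.Gauss880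
open Crest.Agent.R017.Sx545 (Sm)
open Crest.Agent.R017.CM106 (FS)
open Crest.Agent.R017.PX764 (rho th Gh n6 cD)
open Crest.Agent.R017.E2440 (NoP TE)
open Crest.Agent.R017.C70
open Crest.Agent.R017.End699 (HC)
open Crest.Agent.R017.GrB829
open Crest.Agent.R017.E4352 (PrI SSm Dat4)
open Crest.Agent.R017.E4v5 (HM5)
open Crest.Agent.R017.E4K164 (dc dc_spec)
open Crest.Agent.R017.E4D164
open Crest.Agent.R017.E4ap783 (mtr PG)
open Crest.Agent.R017.E5b54 (stj stj_spec)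
open Crest.Agent.R017.DgA829 (lc lc_prim lc_dvd)

/-- the polar data are harmless -/
lemma NoP_of_PG {M : Eis} (h3 : (3 : Eis) ∣ M) (hM : M ≠ 0) {l : ℤ} {m : Eis} (h : PG M l m) :
    NoP M m := by
  obtain ⟨-, σ, h, hσ, hh, rfl⟩ := h
  refine ⟨mul_ne_zero hσ.ne_zero hh.1.ne_zero, fun p hp hpS hd => ?_⟩
  have hpM : p ∣ M := by
    rcases hp.dvd_or_dvd hd with h1 | h1
    · exact (h1.trans (E4ap783.isc_dvd hσ)).trans h3
    · exact hh.2 p hp h1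
  exact hp.not_isUnit (hpS.2.isUnit_of_dvd' dvd_rfl hpM)

lemma sq_inj {q q' : Eis} (hq : IsPrim q) (hq' : IsPrim q') (h : q ^ 2 = q' ^ 2) : q = q' := by
  rcases sq_eq_sq_iff_eq_or_eq_neg.mp h with h1 | h1
  · exact h1
  · refine hq.eq_of_associated hq' ?_
    rw [h1]
    exact (Associated.refl q').neg_left

lemma sE_spec {B : Type*} {s : B → Eis} {e₀ t : Eis} {b : B} (hs : IsPrim (s b))
    (he : IsPrim e₀) (ht : IsPrim t) : IsPrim (sE s e₀ t b) ∧ s b ∣ sE s e₀ t b := by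
  unfold sE
  have h1 := lc_prim hs he
  refine ⟨lc_prim h1 ht, ?_⟩
  exact ((lc_dvd hs he _).mp ((lc_dvd h1 ht _).mp dvd_rfl).1).1

/-- **the polar hypothesis for every summand of `midF_E4L`** -/
theorem polar_EL {ε : ℝ} (hε : 0 < ε) : ∃ C : ℝ, 0 < C ∧ ∀ (M f : Eis) (ψ : Eis → ℂ) (l : ℤ)
    (Q : Finset Eis) (γ e₀ t : Eis) (J : Finset (Eis × Eis)) (I : Finset (Eis × (Eis × Eis))) (εc : Eis → ℂ)
    (om : Eis × Eis → ℂ) (α : Eis → ℂ) (c₀ g z : Eis) (b₁ b₂ : Eis → ℂ) (h₁ : FS b₁)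
    (h₂ : FS b₂) (X K T₀ V Λ Cw : ℝ), HC M ψ → Sm M f → (nm f : ℝ) ≤ X → PrI M g → PrI M z →
    (∀ q ∈ Q, IsPrim q) → IsPrim γ → IsPrim e₀ → IsPrim t →
    (∀ q ∈ Q, (nm (sE (fun q => q ^ 2 * γ) e₀ t q) : ℝ) ≤ X) → OKJ J → I ⊆ Q ×ˢ J → (∀ q, ‖εc q‖ ≤ 1) →
    0 ≤ V → (∀ x ∈ J, (nm x.2 : ℝ) * nm x.1 ^ 2 ≤ V) →
    (∀ i ∈ I, (nm (jS (sE (fun q => q ^ 2 * γ) e₀ t) i *
      (dc (jJ (sE (fun q => q ^ 2 * γ) e₀ t) i)).2.2) : ℝ) ≤ X) → 0 ≤ K → 0 ≤ Λ → 0 ≤ Cw →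
    (∀ n m, ‖b₁ n‖ * ‖b₂ m‖ ≤ Cw) → (∀ n m, b₁ n ≠ 0 → b₂ m ≠ 0 → (nm (n * m ^ 2) : ℝ) ≤ X) →
    (∀ n m, b₁ n ≠ 0 → b₂ m ≠ 0 → (nm n : ℝ) ^ 2 * nm m ≤ Λ) →
    Dat4 M 1 (O := OU M I (jS (sE (fun q => q ^ 2 * γ) e₀ t))
        (jJ (sE (fun q => q ^ 2 * γ) e₀ t))) (fun o => (nm (o.1.1 * o.1.2) : ℝ))
      (fun o => vI M ψ l f I (jS (sE (fun q => q ^ 2 * γ) e₀ t)) jD
        (jJ (sE (fun q => q ^ 2 * γ) e₀ t))
        (jC (sE (fun q => q ^ 2 * γ) e₀ t) (cE εc om α e₀)) c₀ g o.1)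
      (fun o => mulw f (wI M b₁ b₂ (h₁.fin.toFinset ×ˢ h₂.fin.toFinset) z o.1)) X →
    ∀ (l' : ℤ) (m0 : Eis), PG M l' m0 →
    HM5 M 1 (O := OU M I (jS (sE (fun q => q ^ 2 * γ) e₀ t))
        (jJ (sE (fun q => q ^ 2 * γ) e₀ t))) (fun o => (nm (o.1.1 * o.1.2) : ℝ))
      (fun o => vI M ψ l f I (jS (sE (fun q => q ^ 2 * γ) e₀ t)) jD
        (jJ (sE (fun q => q ^ 2 * γ) e₀ t))
        (jC (sE (fun q => q ^ 2 * γ) e₀ t) (cE εc om α e₀)) c₀ g o.1)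
      (fun o => mulw f (wI M b₁ b₂ (h₁.fin.toFinset ×ˢ h₂.fin.toFinset) z o.1)) K T₀
      (mtr (some m0))
      (C * X ^ ε * (K ^ (4 / 3 : ℝ) * (Cw * (Real.sqrt (TS J (fun x => ‖om x‖ * ‖TE α x e₀‖)) *
        (Λ ^ (1 / 3 : ℝ) * V ^ (1 / 3 : ℝ) + Λ ^ (5 / 12 : ℝ) * V ^ (1 / 12 : ℝ)))))) := by
  obtain ⟨K1, hK1, hpo⟩ := polar_gen (ε := ε / 2) (by positivity)
  obtain ⟨C3, hC3, hinv⟩ := sum_inv_X (ε := ε / 2) (by positivity)
  refine ⟨K1 * C3, by positivity, ?_⟩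
  intro M f ψ l Q γ e₀ t J I εc om α c₀ g z b₁ b₂ h₁ h₂ X K T₀ V Λ Cw hψ hf hfX hg hz hQ hγ he₀ ht
    hsE hJ hIQ hεc hV0 hV hsX hK hΛ hCw0 hcw hN hΛ2 hD l' m0 hm0
  have hX := hD.X1
  have hX0 : 0 < X := by linarith
  set s : Eis → Eis := fun q => q ^ 2 * γ with hs
  set s' := sE s e₀ t with hs'
  have hsp : ∀ q ∈ Q, IsPrim (s q) := fun q hq => ((hQ q hq).pow 2).mul hγ
  have hspec : ∀ q ∈ Q, IsPrim (s' q) ∧ s q ∣ s' q := fun q hq => sE_spec (hsp q hq) he₀ ht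
  have hinj : Set.InjOn s Q := by
    intro q hq q' hq' h
    exact sq_inj (hQ q hq) (hQ q' hq') (mul_right_cancel₀ hγ.ne_zero h)
  have hSQ : ∑ b ∈ Q, (nm (s' b) : ℝ) ^ (-(1 / 2) : ℝ) ≤ C3 * X ^ (ε / 2) := by
    refine le_trans (le_trans (Finset.sum_le_sum (g := fun q => (nm q : ℝ)⁻¹) fun q hq => ?_)
      (Finset.sum_le_sum_of_subset_of_nonneg (t := primBall ⌊X⌋₊) ?_
        fun _ _ _ => by positivity)) (hinv X hX)
    · obtain ⟨h3, h4⟩ := hspec q hq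
      have h5 : (0 : ℝ) < nm q := by exact_mod_cast nm_pos.mpr (hQ q hq).ne_zero
      have h6 : ((nm q : ℝ)) ^ 2 ≤ nm (s' q) := by
        have h7 : q ^ 2 ∣ s' q := (Dvd.intro γ rfl).trans h4
        have h8 := Div277.nm_le_of_dvd h3.ne_zero h7
        rw [nm_pow] at h8
        exact_mod_cast h8
      calc (nm (s' q) : ℝ) ^ (-(1 / 2) : ℝ) ≤ ((nm q : ℝ) ^ 2) ^ (-(1 / 2) : ℝ) :=
            Real.rpow_le_rpow_of_nonpos (by positivity) h6 (by norm_num)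
        _ = (nm q : ℝ)⁻¹ := by
            rw [← Real.rpow_natCast, ← Real.rpow_mul h5.le, ← Real.rpow_neg_one]
            norm_num
    · intro q hq
      rw [GLS106.mem_primBall_floor]
      refine ⟨?_, hQ q hq⟩
      obtain ⟨h3, h4⟩ := hspec q hq
      have h7 : q ∣ s' q := (Dvd.intro (q * γ) (by rw [hs]; ring)).trans h4
      exact le_trans (by exact_mod_cast Div277.nm_le_of_dvd h3.ne_zero h7) (hsE q hq)
  have h0 := hpo M m0 f ψ l Eis Q s' s J (cE εc om α e₀) (fun x => ‖om x‖ * ‖TE α x e₀‖) I c₀ g z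
    b₁ b₂ h₁ h₂ X K T₀ V (C3 * X ^ (ε / 2)) Λ Cw hψ (NoP_of_PG hψ.three hψ.q0 hm0) hf hfX hg hz
    (fun q hq => ⟨(hspec q hq).1, hsE q hq⟩) hinj
    (fun q hq => ⟨hsp q hq, (hspec q hq).2⟩) hJ hIQ
    (fun b _ x _ hx => TE_cop (by
      unfold cE at hx
      exact right_ne_zero_of_mul (right_ne_zero_of_mul hx)))
    (fun b _ x _ => by
      unfold cE
      rw [norm_mul, norm_mul]
      exact mul_le_of_le_one_left (by positivity) (hεc b)) hV0 hV hsX hSQ hK hΛ hCw0 hcw hN hΛ2 hD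
  refine HM5.mono h0 (le_of_eq ?_)
  have hpw : X ^ (ε / 2) * X ^ (ε / 2) = X ^ ε := by
    rw [← Real.rpow_add hX0]
    congr 1; ring
  rw [← hpw]
  ring

end Crest.Agent.R017.E4P939
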