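import Crest.Agent.R017.RX2b_241

/-!
# Row 17, T.4 (helper764): the T-hypotheses of `I1WN` for a difference `x = a - ζ b`

* `num_L'` : the joint block of the difference, additive form
* `ext_num` : the four inequalities (M0, Ms, Ml, Mt) of `I1WN` for `x` from the numbers of `a`, `b`
  against the kernel `Dk` and the pointwise bound of the bias
-/

set_option autoImplicit false

noncomputable section

open Complex
open scoped ComplexConjugate Classical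

namespace Crest.Agent.R017.ExT764

open Crest.Agent.R012 Crest.Agent.R012.Eis Crest.Agent.R012.MC
open Crest.Agent.R012.LS2 (S mem_S bl mem_bl)
open Crest.Agent.R017.CM106 (TG FS)
open Crest.Agent.R017.HP842 (KS Kg KS_Kg)
open Crest.Agent.R017.PX764 (Dk th md pC_pos)
open Crest.Agent.R017.Prov71 (CubeFree)
open Crest.Agent.R017.Rough381 (VF)
open Crest.Agent.R017.E1551 (sg tws JB yv yv_pos BU mem_BU CF)
open Crest.Agent.R017.LegK545 (VK SFK JBK)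
open Crest.Agent.R017.RX241

/-- the pointwise bound of the bias -/
def PBh (x : Eis → ℂ) (E D2 J P : ℝ) : Prop :=
  ∀ g, IsPrim g → (nm g : ℝ) ≤ P → ∀ j, CubeFree j → (nm j : ℝ) ≤ P → ∀ t : ℝ,
    ‖Md (tws (sg x g) t) j‖ ^ 2 ≤
      E * (nm g : ℝ) ^ (-(5 / 3) : ℝ) * min 1 (nm g * D2) * (1 + |t|) ^ J

/-- the joint block of the difference, additive form -/
theorem num_L' {ε : ℝ} (hε : 0 < ε) : ∃ C : ℝ, 0 ≤ C ∧ ∀ (a b x : Eis → ℂ) (ζ : ℂ), ‖ζ‖ ≤ 1 →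
    FS a → FS b → (∀ n, x n = a n - ζ * b n) → ∀ (E D2 K X N1 Y P J : ℝ), 0 ≤ E → 0 ≤ D2 →
    0 < K → 0 < X → 0 < N1 → 0 ≤ Y → ∀ (Q : Eis → Prop) (h : Eis), IsPrim h →
    ∀ B V t : ℝ, 1 ≤ B → 1 ≤ V → V * B ≤ P → V ≤ 9 * N1 / (nm h : ℝ) ^ 2 →
    (∀ U ∈ S Y, B / 2 < nm U → (nm U : ℝ) ≤ B → Q U → ∀ j, CubeFree j → (nm j : ℝ) ≤ V * B →
      ‖Md (tws (sg x (h * U)) t) j‖ ^ 2 ≤ E * (nm (h * U) : ℝ) ^ (-(5 / 3) : ℝ) *
        min 1 (nm (h * U) * D2) * (1 + |t|) ^ J) →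
    JB Y x Q h B V t ≤ 3 * JBK Dk Y a Q h B V t + 3 * JBK Dk Y b Q h B V t +
      C * P ^ ε * Nb E D2 K X N1 / (nm h : ℝ) ^ 2 * yv K X h V * (1 + |t|) ^ J := by
  obtain ⟨C, hC, H⟩ := num_L hε
  refine ⟨C, hC, ?_⟩
  intro a b x ζ hζ ha hb hx E D2 K X N1 Y P J hE hD hK hX hN hY Q h hh B V t hB hV hVB hVN hPB
  have hh0 : (0 : ℝ) < nm h := by exact_mod_cast nm_pos.2 hh.ne_zero
  have hy : 0 < yv K X h V := yv_pos hK hX (by linarith) hh.ne_zero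
  have hT : 0 < (1 + |t|) ^ J := Real.rpow_pos_of_pos (by positivity) _
  have key : ∀ z : ℝ, z = (z * (nm h : ℝ) ^ 2 / (yv K X h V * (1 + |t|) ^ J)) / (nm h : ℝ) ^ 2 *
      yv K X h V * (1 + |t|) ^ J := by
    intro z
    field_simp
  have main := H a b x ζ hζ ha hb hx E D2 K X N1 Y P J hE hD hK hX hN hY Q h hh B V t hB hV hVB hVN
    hPB _ _ (le_of_eq (key (JBK Dk Y a Q h B V t))) (le_of_eq (key (JBK Dk Y b Q h B V t)))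
  refine main.trans (le_of_eq ?_)
  have e1 := key (JBK Dk Y a Q h B V t)
  have e2 := key (JBK Dk Y b Q h B V t)
  conv_rhs => rw [e1, e2]
  ring

/-- **the T-hypotheses of `I1WN` for a difference** -/
theorem ext_num {ε : ℝ} (hε : 0 < ε) : ∃ C : ℝ, 0 ≤ C ∧ ∀ (a b x : Eis → ℂ) (ζ : ℂ), ‖ζ‖ ≤ 1 →
    FS a → FS b → (∀ n, x n = a n - ζ * b n) → ∀ (E D2 K X Y Y₁ T₀ E0 G₀ P J : ℝ), 0 ≤ E →
    0 ≤ D2 → 0 < K → 0 < X → 1 ≤ Y → Y ≤ P → 0 < Y₁ → Y₁ ≤ P → 1 ≤ P →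
    PBh x E D2 J (P ^ 2) →
    ∀ A0 As Al At B0 Bs Bl Bt : ℝ,
    -- the numbers of `a`
    (∀ V, 1 ≤ V → V ≤ Y₁ → ∀ t, VK Dk V (tws a t) ≤
      A0 * max 1 ((V * K / X ^ 2) ^ (1 / 3 : ℝ)) * (1 + |t|) ^ J) →
    (∀ g ∈ S Y, g ≠ 1 → (nm g : ℝ) ≤ G₀ → ∀ V, 1 ≤ V → V ≤ Y₁ * nm g → ∀ t,
      VK Dk V (tws (sg a g) t) ≤ As / (nm g : ℝ) ^ 2 *
        max 1 ((V * K / (X / nm g) ^ 2) ^ (1 / 3 : ℝ)) * (1 + |t|) ^ J) →
    (∀ h ∈ S Y, ∀ B V, 1 ≤ B → B ≤ Y → 1 ≤ V → V ≤ Y₁ / (nm h : ℝ) ^ 2 → ∀ t,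
      JBK Dk Y a (fun U => G₀ < nm (h * U)) h B V t ≤
        Al / (nm h : ℝ) ^ 2 * max B⁻¹ (yv K X h V) * (1 + |t|) ^ J) →
    (∀ δ ∈ S Y, ∀ B V, 1 ≤ B → B ≤ Y → 1 ≤ V → V ≤ Y₁ / (nm δ : ℝ) ^ 2 →
      (E0 < B ∨ T₀ < V * (nm δ : ℝ) ^ 2) → ∀ t,
      B⁻¹ * (nm δ * (yv K X δ V)⁻¹) * JBK Dk Y a (fun _ => True) δ B V t ≤
        At / nm δ * (1 + |t|) ^ J) →
    -- the numbers of `b`
    (∀ V, 1 ≤ V → V ≤ Y₁ → ∀ t, VK Dk V (tws b t) ≤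
      B0 * max 1 ((V * K / X ^ 2) ^ (1 / 3 : ℝ)) * (1 + |t|) ^ J) →
    (∀ g ∈ S Y, g ≠ 1 → (nm g : ℝ) ≤ G₀ → ∀ V, 1 ≤ V → V ≤ Y₁ * nm g → ∀ t,
      VK Dk V (tws (sg b g) t) ≤ Bs / (nm g : ℝ) ^ 2 *
        max 1 ((V * K / (X / nm g) ^ 2) ^ (1 / 3 : ℝ)) * (1 + |t|) ^ J) →
    (∀ h ∈ S Y, ∀ B V, 1 ≤ B → B ≤ Y → 1 ≤ V → V ≤ Y₁ / (nm h : ℝ) ^ 2 → ∀ t,
      JBK Dk Y b (fun U => G₀ < nm (h * U)) h B V t ≤
        Bl / (nm h : ℝ) ^ 2 * max B⁻¹ (yv K X h V) * (1 + |t|) ^ J) →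
    (∀ δ ∈ S Y, ∀ B V, 1 ≤ B → B ≤ Y → 1 ≤ V → V ≤ Y₁ / (nm δ : ℝ) ^ 2 →
      (E0 < B ∨ T₀ < V * (nm δ : ℝ) ^ 2) → ∀ t,
      B⁻¹ * (nm δ * (yv K X δ V)⁻¹) * JBK Dk Y b (fun _ => True) δ B V t ≤
        Bt / nm δ * (1 + |t|) ^ J) →
    -- the numbers of `x`
    (∀ V, 1 ≤ V → V ≤ Y₁ → ∀ t, VF V (tws x t) ≤
      (3 * A0 + 3 * B0 + C * Nb E D2 K X Y₁) * max 1 ((V * K / X ^ 2) ^ (1 / 3 : ℝ)) *
        (1 + |t|) ^ J) ∧
    (∀ g ∈ S Y, g ≠ 1 → (nm g : ℝ) ≤ G₀ → ∀ V, 1 ≤ V → V ≤ Y₁ * nm g → ∀ t,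
      VF V (tws (sg x g) t) ≤ (3 * As + 3 * Bs + C * (G₀ * Nb E D2 K X Y₁)) / (nm g : ℝ) ^ 2 *
        max 1 ((V * K / (X / nm g) ^ 2) ^ (1 / 3 : ℝ)) * (1 + |t|) ^ J) ∧
    (∀ h ∈ S Y, ∀ B V, 1 ≤ B → B ≤ Y → 1 ≤ V → V ≤ Y₁ / (nm h : ℝ) ^ 2 → ∀ t,
      JB Y x (fun U => G₀ < nm (h * U)) h B V t ≤
        (3 * Al + 3 * Bl + C * P ^ ε * Nb E D2 K X Y₁) / (nm h : ℝ) ^ 2 *
          max B⁻¹ (yv K X h V) * (1 + |t|) ^ J) ∧
    (∀ δ ∈ S Y, ∀ B V, 1 ≤ B → B ≤ Y → 1 ≤ V → V ≤ Y₁ / (nm δ : ℝ) ^ 2 →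
      (E0 < B ∨ T₀ < V * (nm δ : ℝ) ^ 2) → ∀ t,
      B⁻¹ * (nm δ * (yv K X δ V)⁻¹) * JB Y x (fun _ => True) δ B V t ≤
        (3 * At + 3 * Bt + C * P ^ ε * Nb E D2 K X Y₁) / nm δ * (1 + |t|) ^ J) := by
  obtain ⟨C₁, hC₁, HS⟩ := num_S
  obtain ⟨C₂, hC₂, HL⟩ := num_L' (ε := ε / 2) (by positivity)
  refine ⟨C₁ + C₂, by positivity, ?_⟩
  intro a b x ζ hζ ha hb hx E D2 K X Y Y₁ T₀ E0 G₀ P J hE hD hK hX hY hYP hY₁ h1P hP hPB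
    A0 As Al At B0 Bs Bl Bt a0 aS aL aT b0 bS bL bT
  have hP0 : 0 < P := by linarith
  have hY0 : 0 ≤ Y := by linarith
  have hPP : P ≤ P ^ 2 := by nlinarith
  have hNb : 0 ≤ Nb E D2 K X Y₁ := Nb_nonneg hE hD hK.le hX.le hY₁.le
  have hPe : (P ^ 2) ^ (ε / 2) = P ^ ε := by
    rw [← Real.rpow_natCast, ← Real.rpow_mul hP0.le]; congr 1; push_cast; ring
  -- the joint block, common part
  have joint : ∀ h ∈ S Y, ∀ (Q : Eis → Prop) (B V : ℝ), 1 ≤ B → B ≤ Y → 1 ≤ V →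
      V ≤ Y₁ / (nm h : ℝ) ^ 2 → ∀ t, JB Y x Q h B V t ≤
        3 * JBK Dk Y a Q h B V t + 3 * JBK Dk Y b Q h B V t +
        (C₁ + C₂) * P ^ ε * Nb E D2 K X Y₁ / (nm h : ℝ) ^ 2 * yv K X h V * (1 + |t|) ^ J := by
    intro h hh Q B V hB hBY hV hVY t
    obtain ⟨hhY, hhp, -⟩ := (mem_S hY0).1 hh
    have hh1 : (1 : ℝ) ≤ nm h := by exact_mod_cast nm_pos.2 hhp.ne_zero
    have hh0 : (0 : ℝ) < nm h := by linarith
    have hy : 0 < yv K X h V := yv_pos hK hX (by linarith) hhp.ne_zero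
    have hT : 0 < (1 + |t|) ^ J := Real.rpow_pos_of_pos (by positivity) _
    have hV1 : V ≤ Y₁ := hVY.trans (div_le_self hY₁.le (one_le_pow₀ hh1))
    have hVB : V * B ≤ P ^ 2 := by
      rw [pow_two]
      exact mul_le_mul (hV1.trans h1P) (hBY.trans hYP) (by linarith) hP0.le
    have hVN : V ≤ 9 * Y₁ / (nm h : ℝ) ^ 2 := by
      refine hVY.trans ?_
      gcongr
      linarith
    have main := HL a b x ζ hζ ha hb hx E D2 K X Y₁ Y (P ^ 2) J hE hD hK hX hY₁ hY0 Q h hhp B V t hB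
      hV hVB hVN (fun U hU hU1 hU2 hQ j hj hjV => by
        obtain ⟨hUY, hUp, -⟩ := (mem_S hY0).1 hU
        refine hPB (h * U) (hhp.mul hUp) ?_ j hj (hjV.trans hVB) t
        rw [nm_mul, pow_two]
        push_cast
        exact mul_le_mul (hhY.trans hYP) (hUY.trans hYP) (Nat.cast_nonneg _) hP0.le)
    rw [hPe] at main
    refine main.trans ?_
    have h5 : C₂ * P ^ ε * Nb E D2 K X Y₁ / (nm h : ℝ) ^ 2 * yv K X h V * (1 + |t|) ^ J ≤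
        (C₁ + C₂) * P ^ ε * Nb E D2 K X Y₁ / (nm h : ℝ) ^ 2 * yv K X h V * (1 + |t|) ^ J := by
      gcongr
      linarith
    linarith
  refine ⟨?_, ?_, ?_, ?_⟩
  · intro V hV hVY t
    have h1 : (nm (1 : Eis) : ℝ) = 1 := by
      have : nm (1 : Eis) = 1 := by decide
      rw [this]; norm_num
    have s1 : ∀ w : Eis → ℂ, sg w 1 = w := fun w => by
      funext n
      show w (1 * n) = w n
      rw [one_mul]
    have main := HS a b x ζ hζ ha hb hx E D2 K X Y₁ 1 J hE hD hK hX hY₁ 1 isPrim_one (by rw [h1]) V t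
      hV (by rw [h1]; linarith) (fun j hj hjV => hPB 1 isPrim_one
        (by rw [h1]; exact one_le_pow₀ hP) j hj (hjV.trans (hVY.trans (h1P.trans hPP))) t) A0 B0
      (by
        rw [s1, h1, one_pow, div_one, div_one]
        exact a0 V hV hVY t)
      (by
        rw [s1, h1, one_pow, div_one, div_one]
        exact b0 V hV hVY t)
    rw [s1, h1, one_pow, div_one, div_one, one_mul] at main
    refine main.trans ?_
    have hT : 0 ≤ (1 + |t|) ^ J := Real.rpow_nonneg (by positivity) _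
    have hm : 0 ≤ max 1 ((V * K / X ^ 2) ^ (1 / 3 : ℝ)) := le_max_of_le_left zero_le_one
    gcongr
    linarith
  · intro g hg hg1 hgG V hV hVY t
    obtain ⟨hgY, hgp, -⟩ := (mem_S hY0).1 hg
    have hng1 : (1 : ℝ) ≤ nm g := by exact_mod_cast nm_pos.2 hgp.ne_zero
    have hng0 : (0 : ℝ) < nm g := by linarith
    have hG0 : 0 ≤ G₀ := by linarith
    have hVP : V ≤ P ^ 2 := by
      refine hVY.trans ?_
      rw [pow_two]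
      exact mul_le_mul h1P (hgY.trans hYP) hng0.le hP0.le
    have main := HS a b x ζ hζ ha hb hx E D2 K X Y₁ G₀ J hE hD hK hX hY₁ g hgp hgG V t
      hV (by nlinarith) (fun j hj hjV => hPB g hgp ((hgY.trans hYP).trans hPP) j hj
        (hjV.trans hVP) t) As Bs (aS g hg hg1 hgG V hV hVY t) (bS g hg hg1 hgG V hV hVY t)
    refine main.trans ?_
    have hT : 0 ≤ (1 + |t|) ^ J := Real.rpow_nonneg (by positivity) _
    have hm : 0 ≤ max 1 ((V * K / (X / nm g) ^ 2) ^ (1 / 3 : ℝ)) :=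
      le_max_of_le_left zero_le_one
    gcongr
    linarith
  · intro h hh B V hB hBY hV hVY t
    obtain ⟨hhY, hhp, -⟩ := (mem_S hY0).1 hh
    have hh0 : (0 : ℝ) < nm h := by exact_mod_cast nm_pos.2 hhp.ne_zero
    have hT : 0 ≤ (1 + |t|) ^ J := Real.rpow_nonneg (by positivity) _
    have j1 := joint h hh (fun U => G₀ < nm (h * U)) B V hB hBY hV hVY t
    have j2 := aL h hh B V hB hBY hV hVY t
    have j3 := bL h hh B V hB hBY hV hVY t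
    set mx := max B⁻¹ (yv K X h V) with hmx
    have j4 : (C₁ + C₂) * P ^ ε * Nb E D2 K X Y₁ / (nm h : ℝ) ^ 2 * yv K X h V * (1 + |t|) ^ J ≤
        (C₁ + C₂) * P ^ ε * Nb E D2 K X Y₁ / (nm h : ℝ) ^ 2 * mx * (1 + |t|) ^ J := by
      gcongr
      exact le_max_right _ _
    calc JB Y x (fun U => G₀ < nm (h * U)) h B V t ≤ _ := j1
      _ ≤ 3 * (Al / (nm h : ℝ) ^ 2 * mx * (1 + |t|) ^ J) +
          3 * (Bl / (nm h : ℝ) ^ 2 * mx * (1 + |t|) ^ J) +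
          (C₁ + C₂) * P ^ ε * Nb E D2 K X Y₁ / (nm h : ℝ) ^ 2 * mx * (1 + |t|) ^ J := by
          linarith
      _ = _ := by ring
  · intro δ hδ B V hB hBY hV hVY hcond t
    obtain ⟨hδY, hδp, -⟩ := (mem_S hY0).1 hδ
    have hδ0 : (0 : ℝ) < nm δ := by exact_mod_cast nm_pos.2 hδp.ne_zero
    have hT : 0 ≤ (1 + |t|) ^ J := Real.rpow_nonneg (by positivity) _
    have hB0 : 0 < B := by linarith
    have hBi : B⁻¹ ≤ 1 := inv_le_one_of_one_le₀ hB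
    have hBi0 : 0 < B⁻¹ := inv_pos.2 hB0
    have hy : 0 < yv K X δ V := yv_pos hK hX (by linarith) hδp.ne_zero
    have j1 := joint δ hδ (fun _ => True) B V hB hBY hV hVY t
    have j2 := aT δ hδ B V hB hBY hV hVY hcond t
    have j3 := bT δ hδ B V hB hBY hV hVY hcond t
    have hw : 0 ≤ B⁻¹ * (nm δ * (yv K X δ V)⁻¹) := by positivity
    calc B⁻¹ * (nm δ * (yv K X δ V)⁻¹) * JB Y x (fun _ => True) δ B V t
        ≤ B⁻¹ * (nm δ * (yv K X δ V)⁻¹) * (3 * JBK Dk Y a (fun _ => True) δ B V t +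
          3 * JBK Dk Y b (fun _ => True) δ B V t +
          (C₁ + C₂) * P ^ ε * Nb E D2 K X Y₁ / (nm δ : ℝ) ^ 2 * yv K X δ V * (1 + |t|) ^ J) :=
          mul_le_mul_of_nonneg_left j1 hw
      _ = 3 * (B⁻¹ * (nm δ * (yv K X δ V)⁻¹) * JBK Dk Y a (fun _ => True) δ B V t) +
          3 * (B⁻¹ * (nm δ * (yv K X δ V)⁻¹) * JBK Dk Y b (fun _ => True) δ B V t) +
          B⁻¹ * ((C₁ + C₂) * P ^ ε * Nb E D2 K X Y₁ / nm δ * (1 + |t|) ^ J) := by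
          field_simp
      _ ≤ 3 * (At / nm δ * (1 + |t|) ^ J) + 3 * (Bt / nm δ * (1 + |t|) ^ J) +
          1 * ((C₁ + C₂) * P ^ ε * Nb E D2 K X Y₁ / nm δ * (1 + |t|) ^ J) := by
          have h6 : B⁻¹ * ((C₁ + C₂) * P ^ ε * Nb E D2 K X Y₁ / nm δ * (1 + |t|) ^ J) ≤
              1 * ((C₁ + C₂) * P ^ ε * Nb E D2 K X Y₁ / nm δ * (1 + |t|) ^ J) := by
            gcongr
          linarith
      _ = _ := by ring

end Crest.Agent.R017.ExT764
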