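import Crest.Agent.R017.ExD9_791
import Crest.Agent.R017.ExT1_764
import Crest.Agent.R017.HPL_842

/-!
# Row 17, T.4 (helper764): principal values and bias of a difference of shapes, `Pc` level

* `xP h p1 p2 l δ` : `alL h (p1 :: p2 :: l) - ζ alL h (p1' :: p2' :: l)`, lengths `log Y ± δ`
* `exd_pc` : 791's `exd_list` for lists of typed pieces without `DPar`
-/

set_option autoImplicit false

noncomputable section

open Complex MeasureTheory Filter Topology
open scoped ContDiff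

namespace Crest.Agent.R017.ExT764

open Crest.Agent.R012 Crest.Agent.R012.Eis Crest.Agent.R012.Po581 Crest.Agent.R012.Gauss880
open Crest.Agent.R012.Weight600 (osc norm_osc)
open Crest.Agent.R012.PSer47 Crest.Agent.R012.Div277 Crest.Agent.R012.Mob705
open Crest.Agent.R017.End699 Crest.Agent.R017.FE47 Crest.Agent.R017.Two939
open Crest.Agent.R017.TXC791
open Crest.Agent.R017.CM106 (CS TG FS)
open Crest.Agent.R017.TP320 (conv)
open Crest.Agent.R017.HP842 (Th sqc FS_conv UT Pc uv pc norm_uv_le alL alL_cons alL_nil)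
open Crest.Agent.R017.ExD791

/-- total log length -/
def LP (l : List Pc) : ℝ := (l.map fun p => Real.log p.Y).sum

lemma LP_cons (p : Pc) (l : List Pc) : LP (p :: l) = Real.log p.Y + LP l := by
  unfold LP; rw [List.map_cons, List.sum_cons]

/-- shift of the length -/
def shY (δ : ℝ) (p : Pc) : Pc := { p with Y := p.Y * Real.exp δ }

lemma shY_OK {δ : ℝ} {p : Pc} (hp : p.OK) : (shY δ p).OK where
  ch := hp.ch
  Y0 := mul_pos hp.Y0 (Real.exp_pos _)

lemma log_shY {δ : ℝ} {p : Pc} (hp : p.OK) : Real.log (shY δ p).Y = Real.log p.Y + δ := by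
  show Real.log (p.Y * Real.exp δ) = _
  rw [Real.log_mul hp.Y0.ne' (Real.exp_pos _).ne', Real.log_exp]

/-- the unimodular factor -/
def zeP (p1 p2 : Pc) (δ : ℝ) : ℂ := osc p1.t (-δ) * osc p2.t δ

lemma norm_zeP (p1 p2 : Pc) (δ : ℝ) : ‖zeP p1 p2 δ‖ = 1 := by
  unfold zeP; rw [norm_mul, norm_osc, norm_osc, one_mul]

/-- the difference of two lists, centred heights -/
def xP (h : ℝ → ℝ) (p1 p2 : Pc) (l : List Pc) (δ : ℝ) (n : Eis) : ℂ :=
  alL h (p1 :: p2 :: l) n - zeP p1 p2 δ * alL h (shY δ p1 :: shY (-δ) p2 :: l) n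

lemma FS_alL {h : ℝ → ℝ} {R : ℝ} (hR : ∀ u, cx h u ≠ 0 → |u| ≤ R) {l : List Pc}
    (hl : ∀ p ∈ l, p.OK) : FS (alL h l) := by
  unfold HP842.alL
  refine HP842.FS_cvL fun f hf => ?_
  obtain ⟨p, hp, rfl⟩ := List.mem_map.1 hf
  exact HP842.FS_pc hR (hl p hp)

/-- a lump at its own scale -/
lemma pc_eq_fp {h : ℝ → ℝ} {p : Pc} (hu : p.u = .one) (n : Eis) :
    pc h p n = osc p.t (Real.log p.Y) *
      fp (cx h) p.ψ (fun _ => 1) (Real.log p.Y) p.t n := by
  unfold HP842.pc fp Hk HSep813.gw End699.ext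
  by_cases hn : IsPrim n
  · rw [if_pos hn, if_pos hn]
    simp only [hu]
    have e1 : osc p.t (Real.log (nm n)) =
        osc p.t (Real.log p.Y) * osc p.t (Real.log (nm n) - Real.log p.Y) := by
      rw [← Weight600.osc_add_right]; congr 1; ring
    rw [e1]
    unfold HP842.uv
    ring
  · rw [if_neg hn, if_neg hn]; ring

/-- the difference of two lists at their own scales -/
lemma xP_eq {h : ℝ → ℝ} {R : ℝ} (hR : ∀ u, cx h u ≠ 0 → |u| ≤ R) {p1 p2 : Pc} {l : List Pc}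
    (h1 : p1.OK) (h2 : p2.OK) (hl : ∀ p ∈ l, p.OK) (hu1 : p1.u = .one) (hu2 : p2.u = .one)
    (δ : ℝ) (n : Eis) :
    xP h p1 p2 l δ n = (osc p1.t (Real.log p1.Y) * osc p2.t (Real.log p2.Y)) *
      conv (fun n =>
        conv (fp (cx h) p1.ψ (fun _ => 1) (Real.log p1.Y) p1.t)
          (fp (cx h) p2.ψ (fun _ => 1) (Real.log p2.Y) p2.t) n -
        conv (fp (cx h) p1.ψ (fun _ => 1) (Real.log p1.Y + δ) p1.t)
          (fp (cx h) p2.ψ (fun _ => 1) (Real.log p2.Y - δ) p2.t) n) (alL h l) n := by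
  have hv := FS_alL hR hl
  have key : ∀ q1 q2 : Pc, q1.OK → q2.OK → q1.u = .one → q2.u = .one → alL h (q1 :: q2 :: l) n =
      (osc q1.t (Real.log q1.Y) * osc q2.t (Real.log q2.Y)) * conv (conv
        (fp (cx h) q1.ψ (fun _ => 1) (Real.log q1.Y) q1.t)
        (fp (cx h) q2.ψ (fun _ => 1) (Real.log q2.Y) q2.t)) (alL h l) n := by
    intro q1 q2 k1 k2 m1 m2
    rw [alL_cons, alL_cons, ← XC858.conv_assoc (HP842.FS_pc hR k1) (HP842.FS_pc hR k2) hv]
    have e1 : pc h q1 = fun n => osc q1.t (Real.log q1.Y) *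
      fp (cx h) q1.ψ (fun _ => 1) (Real.log q1.Y) q1.t n := funext fun n => pc_eq_fp m1 n
    have e2 : pc h q2 = fun n => osc q2.t (Real.log q2.Y) *
      fp (cx h) q2.ψ (fun _ => 1) (Real.log q2.Y) q2.t n := funext fun n => pc_eq_fp m2 n
    rw [e1, e2]
    have e3 : conv (fun n => osc q1.t (Real.log q1.Y) *
        fp (cx h) q1.ψ (fun _ => 1) (Real.log q1.Y) q1.t n)
        (fun n => osc q2.t (Real.log q2.Y) *
        fp (cx h) q2.ψ (fun _ => 1) (Real.log q2.Y) q2.t n) =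
        fun n => (osc q1.t (Real.log q1.Y) * osc q2.t (Real.log q2.Y)) * conv
        (fp (cx h) q1.ψ (fun _ => 1) (Real.log q1.Y) q1.t)
        (fp (cx h) q2.ψ (fun _ => 1) (Real.log q2.Y) q2.t) n :=
      funext fun n => conv_smul2 _ _ _ _ n
    rw [e3]
    have e4 : alL h l = fun n => (1 : ℂ) * alL h l n := by
      funext n; ring
    conv_lhs => rw [e4]
    rw [conv_smul2, mul_one]
  unfold xP
  rw [key p1 p2 h1 h2 hu1 hu2, key (shY δ p1) (shY (-δ) p2) (shY_OK h1) (shY_OK h2) hu1 hu2]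
  have s1 := log_shY (δ := δ) h1
  have s2 := log_shY (δ := -δ) h2
  rw [← sub_eq_add_neg] at s2
  have s3 : (shY δ p1).t = p1.t := rfl
  have s4 : (shY (-δ) p2).t = p2.t := rfl
  have s5 : (shY δ p1).ψ = p1.ψ := rfl
  have s6 : (shY (-δ) p2).ψ = p2.ψ := rfl
  rw [s1, s2, s3, s4, s5, s6]
  have o1 : osc p1.t (-δ) * osc p1.t (Real.log p1.Y + δ) = osc p1.t (Real.log p1.Y) := by
    rw [← Weight600.osc_add_right]; congr 1; ring
  have o2 : osc p2.t δ * osc p2.t (Real.log p2.Y - δ) = osc p2.t (Real.log p2.Y) := by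
    rw [← Weight600.osc_add_right]; congr 1; ring
  have hsub : ∀ a b v : Eis → ℂ, conv (fun n => a n - b n) v n = conv a v n - conv b v n := by
    intro a b v
    unfold TP320.conv
    rw [← Finset.sum_sub_distrib]
    exact Finset.sum_congr rfl fun d _ => by ring
  rw [hsub, ← o1, ← o2]
  unfold zeP
  ring

/-- support and size -/
lemma alL_size {h : ℝ → ℝ} {R A : ℝ} (hR : ∀ u, cx h u ≠ 0 → |u| ≤ R) (hA1 : 1 ≤ A)
    (hA : ∀ u, ‖cx h u‖ ≤ A) {l : List Pc} (hl : ∀ p ∈ l, p.OK) :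
    (∀ n, alL h l n ≠ 0 → (nm n : ℝ) ≤ Real.exp (R * l.length + LP l)) ∧
      ∀ n, IsPrim n → ‖alL h l n‖ ≤ (A * (tau n : ℝ) ^ 2) ^ l.length := by
  classical
  induction l with
  | nil =>
    constructor
    · intro n hn
      rw [alL_nil] at hn
      have h1 : n = 1 := by
        by_contra h0
        exact hn (HP842.dl_ne h0)
      have h2 : nm (1 : Eis) = 1 := by decide
      rw [h1, h2]
      simp [LP]
    · intro n _
      rw [alL_nil]
      by_cases h0 : n = 1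
      · rw [h0, HP842.dl_one]; simp
      · rw [HP842.dl_ne h0]; simp
  | cons p l ih =>
    obtain ⟨ih1, ih2⟩ := ih fun q hq => hl q (List.mem_cons_of_mem _ hq)
    have hp := hl p List.mem_cons_self
    constructor
    · intro n hn
      rw [alL_cons] at hn
      unfold TP320.conv at hn
      obtain ⟨d, hd, h0⟩ := Finset.exists_ne_zero_of_sum_ne_zero hn
      have h1 : pc h p d ≠ 0 := left_ne_zero_of_mul h0
      have h2 : alL h l (n / d) ≠ 0 := right_ne_zero_of_mul h0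
      have h3 := (HP842.pc_support hR hp.Y0 h1).2
      have h4 := ih1 _ h2
      have h5 := TP320.mul_div_of_mem hd
      have h6 : (nm n : ℝ) = nm d * nm (n / d) := by
        rw [← Nat.cast_mul, ← nm_mul, h5]
      rw [h6, LP_cons, List.length_cons]
      have hY0 := hp.Y0
      have hRY : 0 ≤ Real.exp R * p.Y := by positivity
      calc (nm d : ℝ) * nm (n / d) ≤ (Real.exp R * p.Y) *
            Real.exp (R * l.length + LP l) := by gcongr
        _ = _ := by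
            have : p.Y = Real.exp (Real.log p.Y) := (Real.exp_log hp.Y0).symm
            rw [this, Real.log_exp, ← Real.exp_add, ← Real.exp_add]
            congr 1
            push_cast; ring
    · intro n hn
      rw [alL_cons, List.length_cons]
      unfold TP320.conv
      have hτ1 : (1 : ℝ) ≤ tau n := by exact_mod_cast one_le_tau hn.ne_zero
      calc ‖∑ d ∈ dvs n, pc h p d * alL h l (n / d)‖
          ≤ ∑ d ∈ dvs n, (A * tau n) * (A * (tau n : ℝ) ^ 2) ^ l.length := by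
            refine (norm_sum_le _ _).trans (Finset.sum_le_sum fun d hd => ?_)
            have hdp := isPrim_of_mem_dvs hd
            have hqp : IsPrim (n / d) := TP320.quot_prim hn hd
            have h5 := TP320.mul_div_of_mem hd
            have hqd : (n / d) ∣ n := ⟨d, by rw [mul_comm]; exact h5.symm⟩
            have t2 : (tau (n / d) : ℝ) ≤ tau n := by exact_mod_cast tau_le_of_dvd hn.ne_zero hqd
            have h6 : ‖pc h p d‖ ≤ A * tau n := by
              have := norm_pc_le' (by linarith) hA hp d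
              nlinarith
            have h8 : ‖alL h l (n / d)‖ ≤ (A * (tau n : ℝ) ^ 2) ^ l.length := by
              refine (ih2 _ hqp).trans ?_
              gcongr
            rw [norm_mul]
            gcongr
        _ = tau n * ((A * tau n) * (A * (tau n : ℝ) ^ 2) ^ l.length) := by
            rw [Finset.sum_const, nsmul_eq_mul]; rfl
        _ = _ := by ring

set_option maxHeartbeats 2000000 in
/-- **principal values of the difference of two lists** -/
theorem exd_pc {h : ℝ → ℝ} {c : ℝ} (hpu : PU h c) (N : ℕ) {σ : ℝ} (hσ : σ ≤ 1) {B : ℝ}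
    (hB : 0 ≤ B) {ε : ℝ} (hε : 0 < ε) :
    ∃ C : ℝ, 1 ≤ C ∧ ∀ X : ℝ, 3 ≤ X → ∀ (p1 p2 : Pc) (l : List Pc), p1.OK → p2.OK →
      (∀ p ∈ l, p.OK) → p1.u = .one → p2.u = .one → l.length ≤ N →
      LP l ≤ B * Real.log X → ∀ Ψ : Eis → ℂ, IsChar Ψ → ∀ ρ1 ρ2 : Eis, ρ1 ≠ 0 → ρ2 ≠ 0 →
      (nm ρ1 : ℝ) ≤ X ^ B → (nm ρ2 : ℝ) ≤ X ^ B →
      (∀ b, IsPrim b → p1.ψ b * Ψ b = prin0 ρ1 b) →
      (∀ b, IsPrim b → p2.ψ b * Ψ b = prin0 ρ2 b) →
      ∀ δ d0 : ℝ, d0 ≤ Real.log p1.Y → d0 ≤ Real.log p2.Y → d0 ≤ Real.log p1.Y + δ →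
      d0 ≤ Real.log p2.Y - δ →
      d0 ≤ B * Real.log X → ∀ (q g : Eis), q ≠ 0 → (nm q : ℝ) ≤ X ^ B → IsPrim g →
      (nm g : ℝ) ≤ X ^ B → ∀ t : ℝ,
      ‖∑' n : Eis, sqc q (xP h p1 p2 l δ) (g * n) *
          (osc t (Real.log (nm n)) * (ps σ n * Ψ n))‖ ≤
        C * X ^ ε * ((1 + |p1.t + t|) * (1 + |p2.t + t|)) ^ 3 *
          ((Real.exp (LP (p1 :: p2 :: l)) / nm g) ^ (1 - σ) * Mg d0 g) := by
  classical
  obtain ⟨R, hR0, hR⟩ := exists_R (cs_cx hpu.cs)
  obtain ⟨A, hA0, hA⟩ := exists_sup (cd_cx hpu.cd).continuous (cs_cx hpu.cs)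
  set A1 := max A 1 with hA1
  have hA11 : 1 ≤ A1 := le_max_right _ _
  have hA1b : ∀ u, ‖cx h u‖ ≤ A1 := fun u => (hA u).trans (le_max_left _ _)
  set e1 := ε / (3 * (B + 1)) with he1
  have he10 : 0 < e1 := by rw [he1]; positivity
  obtain ⟨C0, hC0, hb⟩ := exd_sig (cd_cx hpu.cd) (cs_cx hpu.cs) σ he10
  set e2 := ε / (3 * (B + 1) * (2 * N + 1)) with he2
  have he20 : 0 < e2 := by rw [he2]; positivity
  obtain ⟨C1, hC1, hτ⟩ := tau_le_rpow he20
  set K := Real.exp (R * N) with hK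
  have hK1 : 1 ≤ K := Real.one_le_exp (by positivity)
  set C3 := 100 * (1 + 1 / e1) with hC3
  have hC31 : 1 ≤ C3 := by
    have : 0 ≤ 1 / e1 := by positivity
    rw [hC3]; linarith
  have hKe1 : 1 ≤ K ^ e1 := Real.one_le_rpow hK1 he10.le
  have hKs : 1 ≤ K ^ (1 - σ) := Real.one_le_rpow hK1 (by linarith)
  have hCA : 1 ≤ (A1 * (C1 * K ^ e2) ^ 2) ^ N := by
    refine one_le_pow₀ ?_
    have h1 : 1 ≤ C1 * K ^ e2 :=
      one_le_mul_of_one_le_of_one_le hC1 (Real.one_le_rpow hK1 he20.le)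
    exact one_le_mul_of_one_le_of_one_le hA11 (one_le_pow₀ h1)
  refine ⟨C0 * K ^ e1 * ((A1 * (C1 * K ^ e2) ^ 2) ^ N * K ^ (1 - σ) * (C3 * K ^ e1)), ?_, ?_⟩
  · refine one_le_mul_of_one_le_of_one_le (one_le_mul_of_one_le_of_one_le hC0 hKe1) ?_
    exact one_le_mul_of_one_le_of_one_le (one_le_mul_of_one_le_of_one_le hCA hKs)
      (one_le_mul_of_one_le_of_one_le hC31 hKe1)
  intro X hX3 p1 p2 l hok1 hok2 hokl hu1 hu2 hlen hLl Ψ hΨ ρ1 ρ2 hρ1 hρ2 hZρ1 hZρ2 hp1 hp2 δ d0 hy1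
    hy2 hy3 hy4 hd0 q g hq hqX hg hgX t
  have hX1 : 1 ≤ X := by linarith
  have hX0 : 0 < X := by linarith
  have hXB1 : 1 ≤ X ^ B := Real.one_le_rpow hX1 hB
  set Z := K * X ^ B with hZ
  have hXBZ : X ^ B ≤ Z := le_mul_of_one_le_left (by positivity) hK1
  have hZ1 : 1 ≤ Z := hXB1.trans hXBZ
  have hZ0 : 0 < Z := by linarith
  have hexpB : Real.exp (B * Real.log X) = X ^ B := by
    rw [Real.rpow_def_of_pos hX0]; congr 1; ring
  -- powers of Z
  have hZe1 : Z ^ e1 ≤ K ^ e1 * X ^ (ε / 3) := by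
    rw [hZ, Real.mul_rpow (by positivity) (by positivity), ← Real.rpow_mul hX0.le]
    gcongr
    rw [he1, mul_div_assoc', div_le_div_iff₀ (by positivity) (by norm_num)]
    nlinarith
  have hZe2 : (Z ^ e2) ^ (2 * N) ≤ (K ^ e2) ^ (2 * N) * X ^ (ε / 3) := by
    have e3 : (X ^ B) ^ e2 = X ^ (B * e2) := (Real.rpow_mul hX0.le _ _).symm
    rw [hZ, Real.mul_rpow (by positivity) (by positivity), mul_pow, e3]
    have e4 : (X ^ (B * e2)) ^ (2 * N) = X ^ (B * e2 * (2 * N)) := by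
      rw [← Real.rpow_natCast, ← Real.rpow_mul hX0.le]; push_cast; ring_nf
    rw [e4]
    gcongr
    rw [he2]
    have hN0 : (0 : ℝ) ≤ N := Nat.cast_nonneg _
    have e5 : B * (ε / (3 * (B + 1) * (2 * N + 1))) * (2 * N) =
        (ε / 3) * ((B * (2 * N)) / ((B + 1) * (2 * N + 1))) := by field_simp
    rw [e5]
    have e6 : (B * (2 * N)) / ((B + 1) * (2 * N + 1)) ≤ 1 := by
      rw [div_le_one (by positivity)]
      nlinarith
    calc (ε / 3) * ((B * (2 * N)) / ((B + 1) * (2 * N + 1))) ≤ (ε / 3) * 1 := by gcongr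
      _ = _ := mul_one _
  -- the rest
  obtain ⟨hs1, hs2⟩ := alL_size hR hA11 hA1b hokl
  have hv := FS_alL hR hokl
  set E := Real.exp (R * l.length + LP l) with hE
  have hEZ : E ≤ Z := by
    rw [hE, hZ, hK, ← hexpB, ← Real.exp_add]
    apply Real.exp_le_exp.mpr
    have : (l.length : ℝ) ≤ N := by exact_mod_cast hlen
    have := mul_le_mul_of_nonneg_left this hR0
    linarith
  have hEK : E ≤ K * Real.exp (LP l) := by
    rw [hE, hK, ← Real.exp_add]
    apply Real.exp_le_exp.mpr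
    have : (l.length : ℝ) ≤ N := by exact_mod_cast hlen
    have := mul_le_mul_of_nonneg_left this hR0
    linarith
  set Bv := (A1 * (C1 * Z ^ e2) ^ 2) ^ N with hBv
  have hCZ1 : 1 ≤ C1 * Z ^ e2 :=
    one_le_mul_of_one_le_of_one_le hC1 (Real.one_le_rpow hZ1 he20.le)
  have hACZ : 1 ≤ A1 * (C1 * Z ^ e2) ^ 2 :=
    one_le_mul_of_one_le_of_one_le hA11 (one_le_pow₀ hCZ1)
  have hBv0 : 0 ≤ Bv := by positivity
  have hvb : ∀ n, ‖alL h l n‖ ≤ Bv := by
    intro n
    by_cases h0 : alL h l n = 0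
    · rw [h0, norm_zero]; exact hBv0
    · have hnp := hv.prim n h0
      refine (hs2 n hnp).trans ?_
      have h1 : (tau n : ℝ) ≤ C1 * Z ^ e2 := by
        refine (hτ n hnp.ne_zero).trans ?_
        gcongr
        exact (hs1 n h0).trans hEZ
      calc (A1 * (tau n : ℝ) ^ 2) ^ l.length ≤ (A1 * (C1 * Z ^ e2) ^ 2) ^ l.length := by gcongr
        _ ≤ _ := pow_le_pow_right₀ hACZ hlen
  have hV := fun (a : Eis) (ha : IsPrim a) (_ : a ∣ g) =>
    V_of_sup_sig hv hσ hBv0 (Real.exp_pos _).le hvb hs1 hZ1 hEZ ha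
  have hexpd : Real.exp d0 ≤ Z := by
    refine le_trans ?_ hXBZ
    rw [← hexpB]; exact Real.exp_le_exp.mpr hd0
  have main := hb _ _ Ψ hok1.ch hok2.ch hΨ ρ1 ρ2 hρ1 hρ2 hp1 hp2 1 1 (fun _ => 1)
    (fun _ => 1) zero_le_one zero_le_one Fl_one Fl_one (Real.log p1.Y) (Real.log p2.Y) δ
    p1.t p2.t d0 hy1 hy2 hy3 hy4 (alL h l) hv q g hq hg _ hV Z hZ1 (hZρ1.trans hXBZ)
    (hZρ2.trans hXBZ) (hqX.trans hXBZ) (hgX.trans hXBZ) hexpd
    (fun n hn => (hs1 n hn).trans hEZ) t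
  -- the sequence
  have hseq : ∀ n : Eis, sqc q (xP h p1 p2 l δ) (g * n) *
          (osc t (Real.log (nm n)) * (ps σ n * Ψ n)) =
      (osc p1.t (Real.log p1.Y) * osc p2.t (Real.log p2.Y)) * (sqc q (conv (fun n =>
        conv (fp (cx h) p1.ψ (fun _ => 1) (Real.log p1.Y) p1.t)
          (fp (cx h) p2.ψ (fun _ => 1) (Real.log p2.Y) p2.t) n -
        conv (fp (cx h) p1.ψ (fun _ => 1) (Real.log p1.Y + δ) p1.t)
          (fp (cx h) p2.ψ (fun _ => 1) (Real.log p2.Y - δ) p2.t) n) (alL h l)) (g * n) *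
          (osc t (Real.log (nm n)) * (ps σ n * Ψ n))) := by
    intro n
    unfold HP842.sqc
    rw [xP_eq hR hok1 hok2 hokl hu1 hu2 δ]
    ring
  rw [tsum_congr hseq, tsum_mul_left, norm_mul, norm_mul, norm_osc, norm_osc, one_mul, one_mul]
  refine main.trans ?_
  have hMg0 : 0 ≤ Mg d0 g := by unfold Mg; positivity
  set TT := ((1 + |p1.t + t|) * (1 + |p2.t + t|)) ^ 3 with hTT
  have hTT0 : 0 ≤ TT := by positivity
  have hng := one_le_nm hg
  have hng0 : (0 : ℝ) < nm g := by linarith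
  -- log Z
  have hlog : 100 * (1 + Real.log Z) ≤ C3 * (K ^ e1 * X ^ (ε / 3)) := by
    have h1 := poly_log_le 1 hZ1 he10
    rw [pow_one, pow_one] at h1
    refine h1.trans ?_
    rw [hC3]
    push_cast
    gcongr
  have hBvX : Bv ≤ (A1 * (C1 * K ^ e2) ^ 2) ^ N * X ^ (ε / 3) := by
    have e3 : Bv = A1 ^ N * C1 ^ (2 * N) * (Z ^ e2) ^ (2 * N) := by
      rw [hBv, mul_pow, ← pow_mul, mul_pow]; ring
    have e4 : (A1 * (C1 * K ^ e2) ^ 2) ^ N = A1 ^ N * C1 ^ (2 * N) * (K ^ e2) ^ (2 * N) := by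
      rw [mul_pow, ← pow_mul, mul_pow]; ring
    rw [e3, e4, mul_assoc (A1 ^ N * C1 ^ (2 * N))]
    gcongr
  have hE1s : E ^ (1 - σ) ≤ K ^ (1 - σ) * Real.exp ((1 - σ) * LP l) := by
    have h1 : E ^ (1 - σ) ≤ (K * Real.exp (LP l)) ^ (1 - σ) :=
      Real.rpow_le_rpow (Real.exp_pos _).le hEK (by linarith)
    refine h1.trans (le_of_eq ?_)
    rw [Real.mul_rpow (by positivity) (by positivity), ← Real.exp_mul (LP l)]
    congr 2; ring
  have hfinal : (Real.exp (LP (p1 :: p2 :: l)) / nm g) ^ (1 - σ) =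
      (nm g : ℝ) ^ σ * Real.exp ((1 - σ) * (Real.log p1.Y + Real.log p2.Y)) * Real.exp ((1 - σ) * LP l) / nm g := by
    rw [Real.div_rpow (Real.exp_pos _).le hng0.le, ← Real.exp_mul, LP_cons, LP_cons,
      Real.rpow_sub hng0, Real.rpow_one]
    have e3 : Real.exp ((Real.log p1.Y + (Real.log p2.Y + LP l)) * (1 - σ)) =
        Real.exp ((1 - σ) * (Real.log p1.Y + Real.log p2.Y)) * Real.exp ((1 - σ) * LP l) := by
      rw [← Real.exp_add]; congr 1; ring
    rw [e3]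
    field_simp
  rw [hfinal]
  have hX3e : X ^ (ε / 3) * X ^ (ε / 3) * X ^ (ε / 3) = X ^ ε := by
    rw [← Real.rpow_add hX0, ← Real.rpow_add hX0]; congr 1; ring
  have hC30 : 0 ≤ C3 := by linarith
  have hlZ : 0 ≤ 100 * (1 + Real.log Z) := by
    have := Real.log_nonneg hZ1
    linarith
  calc C0 * Z ^ e1 * (1 ^ 2 * 1 ^ 2) * TT *
        (((nm g : ℝ) ^ σ * Real.exp ((1 - σ) * (Real.log p1.Y + Real.log p2.Y)) *
          (Bv * E ^ (1 - σ) * (100 * (1 + Real.log Z))) / nm g) * Mg d0 g)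
      ≤ C0 * (K ^ e1 * X ^ (ε / 3)) * (1 ^ 2 * 1 ^ 2) * TT *
        (((nm g : ℝ) ^ σ * Real.exp ((1 - σ) * (Real.log p1.Y + Real.log p2.Y)) *
          (((A1 * (C1 * K ^ e2) ^ 2) ^ N * X ^ (ε / 3)) *
            (K ^ (1 - σ) * Real.exp ((1 - σ) * LP l)) * (C3 * (K ^ e1 * X ^ (ε / 3)))) / nm g) *
              Mg d0 g) := by
        have hEs0 : 0 ≤ E ^ (1 - σ) := by positivity
        gcongr
    _ = (C0 * K ^ e1 * ((A1 * (C1 * K ^ e2) ^ 2) ^ N * K ^ (1 - σ) * (C3 * K ^ e1))) *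
        (X ^ (ε / 3) * X ^ (ε / 3) * X ^ (ε / 3)) * TT *
        (((nm g : ℝ) ^ σ * Real.exp ((1 - σ) * (Real.log p1.Y + Real.log p2.Y)) *
          Real.exp ((1 - σ) * LP l) / nm g) * Mg d0 g) := by ring
    _ = _ := by rw [hX3e]

end Crest.Agent.R017.ExT764
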