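import Crest.Agent.R017.R8Ov_918

/-!
# Row 17, R8 / E4, case L: the polar terms in exponents (helper939)

`hm5_L` (E4p10_939) bounds the polar terms of `E4core5` by
`K^(4/3) √M2 (Xv^(1/2) Λ^(1/3) + Xv^(1/4) Λ^(5/12))`, `Λ = L² M`.  In exponents (squared, family
`= 1`, `th`-normalised): `M2 = 5/3 n - 2/3 v`, `Xv = v`, `Λ = 2 g + M + a`, `K : 4/3`:

* `pF n v g m = 4/3 + (5/3 n - 2/3 v) + v + 2/3 (2 g + m)`
* `pS n v g m = 4/3 + (5/3 n - 2/3 v) + v/2 + 5/6 (2 g + m)`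

with `n = N + x`, `g = c - x`, `m = M + a`, `v ≤ 2 n - 1`.
-/

set_option autoImplicit false

namespace Crest.Agent.R017.R8Pol

open Crest.Agent.R017.R8C918 Crest.Agent.R017.R8T70

/-- first polar term -/
noncomputable def pF (n v g m : ℝ) : ℝ := 4 / 3 + (5 / 3 * n - 2 / 3 * v) + v + 2 / 3 * (2 * g + m)

/-- second polar term -/
noncomputable def pS (n v g m : ℝ) : ℝ :=
  4 / 3 + (5 / 3 * n - 2 / 3 * v) + v / 2 + 5 / 6 * (2 * g + m)

lemma pF0 {r N M u a c x v : ℝ} (B : Box5 r N M u a c) (hx : AdmT N M a c x)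
    (hv : v ≤ 2 * (N + x) - 1) :
    pF (N + x) v (c - x) (M + a) ≤ 2 + (N + M + a + c) + A0 r (N + M + a) c := by
  obtain ⟨hu, hMN, hM1, hs, ha, hc, hr, hD, hP, hcr⟩ := B
  obtain ⟨hx0, hxc, hx1⟩ := hx
  unfold pF
  have : 4 / 3 + (5 / 3 * (N + x) - 2 / 3 * v) + v + 2 / 3 * (2 * (c - x) + (M + a)) -
      (2 + (N + M + a + c)) ≤ A0 r (N + M + a) c := by
    refine A0_ge fun ⟨h0, h1, h2⟩ => ?_
    rcases hx1 with rfl | ⟨h3, h4⟩ <;> linarith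
  linarith

lemma pS0 {r N M u a c x v : ℝ} (B : Box5 r N M u a c) (hx : AdmT N M a c x) (hv : 0 ≤ v) :
    pS (N + x) v (c - x) (M + a) ≤ 2 + (N + M + a + c) + A0 r (N + M + a) c := by
  obtain ⟨hu, hMN, hM1, hs, ha, hc, hr, hD, hP, hcr⟩ := B
  obtain ⟨hx0, hxc, hx1⟩ := hx
  unfold pS
  have : 4 / 3 + (5 / 3 * (N + x) - 2 / 3 * v) + v / 2 + 5 / 6 * (2 * (c - x) + (M + a)) -
      (2 + (N + M + a + c)) ≤ A0 r (N + M + a) c := by
    refine A0_ge fun ⟨h0, h1, h2⟩ => ?_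
    rcases hx1 with rfl | ⟨h3, h4⟩ <;> linarith
  linarith

/-- with the gain of `θ = 7/8 + d` -/
theorem pF_le {d r N M u a c x v : ℝ} (hd : 0 ≤ d) (B : Box5 r N M u a c) (hr : r ≤ 3 / 2)
    (hx : AdmT N M a c x) (hv : v ≤ 2 * (N + x) - 1) :
    pF (N + x) v (c - x) (M + a) + 2 * d * (a + c) + 3 / 2 * d ≤
      2 + (N + M + a + c) + Al d r (N + M + a) c := by
  have h1 := pF0 B hx hv
  have h2 := Al_slack hd B hr
  linarith

theorem pS_le {d r N M u a c x v : ℝ} (hd : 0 ≤ d) (B : Box5 r N M u a c) (hr : r ≤ 3 / 2)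
    (hx : AdmT N M a c x) (hv : 0 ≤ v) :
    pS (N + x) v (c - x) (M + a) + 2 * d * (a + c) + 3 / 2 * d ≤
      2 + (N + M + a + c) + Al d r (N + M + a) c := by
  have h1 := pS0 B hx hv
  have h2 := Al_slack hd B hr
  linarith

/-- boxes of 918's open cone, natural triple (`x = 0`) -/
theorem pFo {d μ r N M u a c v : ℝ} (hd : 0 ≤ d) (hd1 : d ≤ 1 / 8) (hμ : 0 ≤ μ)
    (hμ1 : 16 * μ ≤ d) (B : Box5o μ r N M u a c) (hv : v ≤ 2 * N - 1) :
    pF N v c (M + a) + d ≤ 2 + (N + M + a + c) + Al d r (N + M + a) c := by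
  have hB := B.up hμ (by linarith)
  have hx : AdmT (N + 3 / 4 * μ) (M + 1 / 2 * μ) a c 0 := ⟨le_rfl, B.c0, Or.inl rfl⟩
  have h := pF_le hd hB (by linarith [B.r2]) hx (v := v) (by linarith)
  have hl := Al_lip (r := r) (q := N + M + a) (c := c) hd hd1 hμ
  have e : N + M + a + 5 / 4 * μ = N + 3 / 4 * μ + (M + 1 / 2 * μ) + a := by ring
  rw [e] at hl
  have hac : 0 ≤ d * (a + c) := mul_nonneg hd (by linarith [B.a0, B.c0])
  unfold pF at h ⊢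
  linarith

theorem pSo {d μ r N M u a c v : ℝ} (hd : 0 ≤ d) (hd1 : d ≤ 1 / 8) (hμ : 0 ≤ μ)
    (hμ1 : 16 * μ ≤ d) (B : Box5o μ r N M u a c) (hv : 0 ≤ v) :
    pS N v c (M + a) + d ≤ 2 + (N + M + a + c) + Al d r (N + M + a) c := by
  have hB := B.up hμ (by linarith)
  have hx : AdmT (N + 3 / 4 * μ) (M + 1 / 2 * μ) a c 0 := ⟨le_rfl, B.c0, Or.inl rfl⟩
  have h := pS_le hd hB (by linarith [B.r2]) hx hv
  have hl := Al_lip (r := r) (q := N + M + a) (c := c) hd hd1 hμ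
  have e : N + M + a + 5 / 4 * μ = N + 3 / 4 * μ + (M + 1 / 2 * μ) + a := by ring
  rw [e] at hl
  have hac : 0 ≤ d * (a + c) := mul_nonneg hd (by linarith [B.a0, B.c0])
  unfold pS at h ⊢
  linarith

end Crest.Agent.R017.R8Pol
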