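import Crest.Agent.R017.E5L2_770
import Crest.Agent.R017.R8Pol_939

/-!
# Row 17, R8 / E4, case L: the polar terms at the levels `SqL` in exponents (helper939)

* `two_T5` : `2 T5 (7/8 + d) = 2 κ + (q + c) + κ Al d (1/κ) (q/κ) (c/κ)`
* `mn1`, `mn2` : the two polar lines on `SqL A d`, slack `(4/9) d`
-/

set_option autoImplicit false

noncomputable section

namespace Crest.Agent.R017.MnR939

open Crest.Agent.R017.R8C918 Crest.Agent.R017.R8T70 Crest.Agent.R017.E5B71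
open Crest.Agent.R017.Prov71 Crest.Agent.R017.E5L770

/-- first line, boxes -/
lemma r1 {r N M u a c x v η : ℝ} (B : Box5 r N M u a c) (hη : 0 ≤ η) (hx0 : 0 ≤ x) (hxc : x ≤ c)
    (hx : x = 0 ∨ (x ≤ 4 / 5 - N + η ∧ x ≤ a + c - 7 / 9 * (1 - M) + η)) (hv0 : 0 ≤ v)
    (hv1 : v ≤ 2 * N - 1 + 3 * x) (hv2 : v ≤ 3 / 4 * N + 3 * x) :
    -2 / 3 + 2 / 3 * N + max 0 (v - (2 * N - 1)) / 3 + v / 3 + c / 3 - (M + a) / 3 - 4 * η ≤
      A0 r (N + M + a) c := by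
  obtain ⟨hu, hMN, hM1, hs, ha, hc, hr, hD, hP, hcr⟩ := B
  refine A0_ge fun ⟨h0, h1, h2⟩ => ?_
  rcases le_total (v - (2 * N - 1)) 0 with h3 | h3
  · rw [max_eq_left h3] at h0 h1 h2
    rcases hx with rfl | ⟨h4, h5⟩ <;> linarith
  · rw [max_eq_right h3] at h0 h1 h2
    rcases hx with rfl | ⟨h4, h5⟩ <;> linarith

/-- second line, boxes -/
lemma r2 {r N M u a c x v η : ℝ} (B : Box5 r N M u a c) (hη : 0 ≤ η) (hx0 : 0 ≤ x) (hxc : x ≤ c)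
    (hx : x = 0 ∨ (x ≤ 4 / 5 - N + η ∧ x ≤ a + c - 7 / 9 * (1 - M) + η)) (hv0 : 0 ≤ v)
    (hv1 : v ≤ 2 * N - 1 + 3 * x) (hv2 : v ≤ 3 / 4 * N + 3 * x) :
    -2 / 3 + 2 / 3 * N + max 0 (v - (2 * N - 1)) / 3 - v / 6 + 2 / 3 * c - (M + a) / 6 - 4 * η ≤
      A0 r (N + M + a) c := by
  obtain ⟨hu, hMN, hM1, hs, ha, hc, hr, hD, hP, hcr⟩ := B
  refine A0_ge fun ⟨h0, h1, h2⟩ => ?_
  rcases le_total (v - (2 * N - 1)) 0 with h3 | h3
  · rw [max_eq_left h3] at h0 h1 h2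
    rcases hx with rfl | ⟨h4, h5⟩ <;> linarith
  · rw [max_eq_right h3] at h0 h1 h2
    rcases hx with rfl | ⟨h4, h5⟩ <;> linarith

/-- the target -/
lemma two_T5 (d : ℝ) (q : (Fin 3 ⊕ Fin 5 → ℝ) × (Kd → ℝ)) (hκ : 0 < cκ q.1) :
    2 * T5 (7 / 8 + d) q = 2 * cκ q.1 + (cN q.1 + cM q.1 + q.2 .mo + q.2 .am) +
      cκ q.1 * Al d (1 / cκ q.1) (cN q.1 / cκ q.1 + cM q.1 / cκ q.1 + q.2 .mo / cκ q.1)
        (q.2 .am / cκ q.1) := by
  set κ := cκ q.1 with hk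
  have h1 : κ * Al d (1 / κ) (cN q.1 / κ + cM q.1 / κ + q.2 .mo / κ) (q.2 .am / κ) =
      max (8 / 3 * d) (max ((8 / 3 * d + 1 / 2) - κ + (cN q.1 + cM q.1 + q.2 .mo - q.2 .am) / 2)
        ((5 / 12 - 2 / 3 * d) - 5 / 3 * κ +
          (3 / 4 + 2 * d) * (cN q.1 + cM q.1 + q.2 .mo + q.2 .am))) := by
    unfold Al
    rw [mul_max_of_nonneg _ _ hκ.le, mul_max_of_nonneg _ _ hκ.le]
    congr 1
    · field_simp
    · congr 1
      · field_simp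
      · field_simp
  have h2 : ∀ {a b c s : ℝ}, 2 * (s + max a (max b c)) =
      max (2 * (s + a)) (max (2 * (s + b)) (2 * (s + c))) := by
    intro a b c s
    rw [← max_add_add_left, ← max_add_add_left, mul_max_of_nonneg _ _ (by norm_num),
      mul_max_of_nonneg _ _ (by norm_num)]
  rw [h1, T5, Cone59.Tg, h2, ← max_add_add_left, ← max_add_add_left]
  congr 1
  · ring
  · congr 1 <;> ring

/-- the normalised conditions on `SqL` -/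
structure Nz (A d : ℝ) (κ N M u a c x v : ℝ) : Prop where
  κ0 : 8 / 9 ≤ κ
  box : Box5o (1 - A) (1 / κ) (N / κ) (M / κ) (u / κ) (a / κ) (c / κ)
  x0 : 0 ≤ x / κ
  xc : x / κ ≤ c / κ
  x45 : x / κ = 0 ∨ (x / κ ≤ 4 / 5 - N / κ ∧ x / κ ≤ a / κ + c / κ - 7 / 9 * (1 - M / κ))
  v0 : 0 ≤ v / κ
  v1 : v / κ ≤ 2 * (N / κ) - 1 + 3 * (x / κ)
  v2 : v / κ ≤ 3 / 4 * (N / κ) + 3 * (x / κ)

lemma nz_of {A d : ℝ} {q : (Option (Fin 3 ⊕ Fin 5) → ℝ) × (Kd → ℝ)} (h : q ∈ SqL A d) :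
    Nz A d (cκ (dn q.1)) (cN (dn q.1)) (cM (dn q.1)) (cu (dn q.1) 4) (q.2 .mo) (q.2 .am)
      (cx' (dn q.1)) (q.1 none) := by
  obtain ⟨h1, h2, h3⟩ := h
  have h1 : Sq5 A d (dn q.1) q.2 := h1
  have hκ := h1.toNr5.κpos
  obtain ⟨x0, x1, x2⟩ := h1.tl.adm
  have h4 := h1.need
  unfold top5 at h3
  set κ := cκ (dn q.1)
  have hx0 : 0 ≤ cx' (dn q.1) := by
    have := mul_nonneg x0 hκ.le
    rwa [div_mul_cancel₀ _ hκ.ne'] at this
  have h3 : q.1 none ≤ min (2 * cN (dn q.1) - κ) (3 / 4 * cN (dn q.1)) + 3 * cx' (dn q.1) := by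
    linarith
  have hv : q.1 none / κ ≤ min (2 * cN (dn q.1) - κ) (3 / 4 * cN (dn q.1)) / κ +
      3 * (cx' (dn q.1) / κ) := by
    rw [← mul_div_assoc, ← add_div]
    exact div_le_div_of_nonneg_right h3 hκ.le
  refine ⟨h1.κ0, h1.toNr5.box, x0, x1, ?_, div_nonneg h2 hκ.le, hv.trans ?_, hv.trans ?_⟩
  · rcases x2 with x2 | x2
    · exact Or.inl x2
    · rcases le_total (q.2 .mo / κ + q.2 .am / κ - 7 / 9 * (1 - cM (dn q.1) / κ)) 0 with e | e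
      · rw [max_eq_left e] at h4
        exact Or.inl (le_antisymm h4 x0)
      · rw [max_eq_right e] at h4
        exact Or.inr ⟨by linarith, h4⟩
  · have h5 : min (2 * cN (dn q.1) - κ) (3 / 4 * cN (dn q.1)) / κ ≤ 2 * (cN (dn q.1) / κ) - 1 := by
      have := div_le_div_of_nonneg_right
        (min_le_left (2 * cN (dn q.1) - κ) (3 / 4 * cN (dn q.1))) hκ.le
      refine this.trans (le_of_eq ?_)
      rw [sub_div, div_self hκ.ne']; ring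
    linarith
  · have h5 : min (2 * cN (dn q.1) - κ) (3 / 4 * cN (dn q.1)) / κ ≤ 3 / 4 * (cN (dn q.1) / κ) := by
      have := div_le_div_of_nonneg_right
        (min_le_right (2 * cN (dn q.1) - κ) (3 / 4 * cN (dn q.1))) hκ.le
      refine this.trans (le_of_eq ?_)
      ring
    linarith

section lines

variable {A d : ℝ} {κ N M u a c x v : ℝ}

lemma Nz.up (h : Nz A d κ N M u a c x v) (hA : A ≤ 1) (hA1 : 16 * (1 - A) ≤ d)
    (hd1 : d ≤ 1 / 8) :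
    Box5 (1 / κ + 5 / 4 * (1 - A)) (N / κ + 3 / 4 * (1 - A)) (M / κ + 1 / 2 * (1 - A))
      (u / κ + 1 / 4 * (1 - A)) (a / κ) (c / κ) :=
  h.box.up (by linarith) (by linarith)

lemma Nz.slack (h : Nz A d κ N M u a c x v) (hd : 0 ≤ d) (hA : A ≤ 1) (hA1 : 16 * (1 - A) ≤ d)
    (hd1 : d ≤ 1 / 8) :
    A0 (1 / κ + 5 / 4 * (1 - A)) (N / κ + 3 / 4 * (1 - A) + (M / κ + 1 / 2 * (1 - A)) + a / κ)
      (c / κ) + 3 / 2 * d ≤
      Al d (1 / κ) (N / κ + M / κ + a / κ) (c / κ) + 2 * (1 - A) := by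
  have h1 := Al_slack hd (h.up hA hA1 hd1) (by linarith [h.box.r2])
  have h2 := Al_lip (r := 1 / κ) (q := N / κ + M / κ + a / κ) (c := c / κ) hd hd1
    (show 0 ≤ 1 - A by linarith)
  have e : N / κ + M / κ + a / κ + 5 / 4 * (1 - A) =
      N / κ + 3 / 4 * (1 - A) + (M / κ + 1 / 2 * (1 - A)) + a / κ := by ring
  rw [e] at h2
  have h3 : 0 ≤ d * (a / κ + c / κ) := mul_nonneg hd (by linarith [h.box.a0, h.box.c0])
  linarith

lemma Nz.mx (h : Nz A d κ N M u a c x v) (hA : A ≤ 1) :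
    max 0 (v / κ - (2 * (N / κ) - 1)) ≤
      max 0 (v / κ - (2 * (N / κ + 3 / 4 * (1 - A)) - 1)) + 3 / 2 * (1 - A) := by
  refine max_le (by linarith [le_max_left 0 (v / κ - (2 * (N / κ + 3 / 4 * (1 - A)) - 1))]) ?_
  linarith [le_max_right 0 (v / κ - (2 * (N / κ + 3 / 4 * (1 - A)) - 1))]

/-- first line, normalised -/
lemma Nz.l1 (h : Nz A d κ N M u a c x v) (hd : 0 ≤ d) (hA : A ≤ 1) (hA1 : 16 * (1 - A) ≤ d)
    (hd1 : d ≤ 1 / 8) :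
    -2 / 3 + 2 / 3 * (N / κ) + max 0 (v / κ - (2 * (N / κ) - 1)) / 3 + v / κ / 3 + c / κ / 3 -
      (M / κ + a / κ) / 3 + d ≤ Al d (1 / κ) (N / κ + M / κ + a / κ) (c / κ) := by
  have h1 := r1 (h.up hA hA1 hd1) (x := x / κ) (v := v / κ) (η := 3 / 4 * (1 - A)) (by linarith)
    h.x0 h.xc (by
      rcases h.x45 with e | ⟨e1, e2⟩
      · exact Or.inl e
      · exact Or.inr ⟨by linarith, by linarith⟩) h.v0 (by linarith [h.v1]) (by linarith [h.v2])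
  have h2 := h.slack hd hA hA1 hd1
  have h3 := h.mx hA
  linarith

/-- second line, normalised -/
lemma Nz.l2 (h : Nz A d κ N M u a c x v) (hd : 0 ≤ d) (hA : A ≤ 1) (hA1 : 16 * (1 - A) ≤ d)
    (hd1 : d ≤ 1 / 8) :
    -2 / 3 + 2 / 3 * (N / κ) + max 0 (v / κ - (2 * (N / κ) - 1)) / 3 - v / κ / 6 +
      2 / 3 * (c / κ) - (M / κ + a / κ) / 6 + d ≤
      Al d (1 / κ) (N / κ + M / κ + a / κ) (c / κ) := by
  have h1 := r2 (h.up hA hA1 hd1) (x := x / κ) (v := v / κ) (η := 3 / 4 * (1 - A)) (by linarith)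
    h.x0 h.xc (by
      rcases h.x45 with e | ⟨e1, e2⟩
      · exact Or.inl e
      · exact Or.inr ⟨by linarith, by linarith⟩) h.v0 (by linarith [h.v1]) (by linarith [h.v2])
  have h2 := h.slack hd hA hA1 hd1
  have h3 := h.mx hA
  linarith

end lines

/-- `E q = log_X` of the T-moment : `5/3 N - v/3 + max 0 (v - (2 N - κ)) / 3` -/
def ET (q : (Option (Fin 3 ⊕ Fin 5) → ℝ) × (Kd → ℝ)) : ℝ :=
  5 / 3 * cN (dn q.1) - q.1 none / 3 +
    max 0 (q.1 none - (2 * cN (dn q.1) - cκ (dn q.1))) / 3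

variable {A d : ℝ} {q : (Option (Fin 3 ⊕ Fin 5) → ℝ) × (Kd → ℝ)}

/-- **first polar line on `SqL`** -/
theorem mn1 (hd : 0 ≤ d) (hd1 : d ≤ 1 / 8) (hA : A ≤ 1) (hA1 : 16 * (1 - A) ≤ d)
    (h : q ∈ SqL A d) :
    2 / 3 * cκ (dn q.1) + ET q / 2 + (2 * q.2 .am + (cM (dn q.1) + q.2 .mo)) / 3 +
      q.1 none / 3 + 4 / 9 * d ≤ T5 (7 / 8 + d) (dn q.1, q.2) := by
  have hz := nz_of h
  have hκ : 0 < cκ (dn q.1) := by linarith [hz.κ0]
  have h1 := mul_le_mul_of_nonneg_left (hz.l1 hd hA hA1 hd1) hκ.le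
  have h2 := two_T5 d (dn q.1, q.2) hκ
  have e1 : cκ (dn q.1) * (-2 / 3 + 2 / 3 * (cN (dn q.1) / cκ (dn q.1)) +
      max 0 (q.1 none / cκ (dn q.1) - (2 * (cN (dn q.1) / cκ (dn q.1)) - 1)) / 3 +
      q.1 none / cκ (dn q.1) / 3 + q.2 .am / cκ (dn q.1) / 3 -
      (cM (dn q.1) / cκ (dn q.1) + q.2 .mo / cκ (dn q.1)) / 3 + d) =
      -2 / 3 * cκ (dn q.1) + 2 / 3 * cN (dn q.1) +
      (cκ (dn q.1) * max 0 (q.1 none / cκ (dn q.1) - (2 * (cN (dn q.1) / cκ (dn q.1)) - 1))) / 3 +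
      q.1 none / 3 + q.2 .am / 3 - (cM (dn q.1) + q.2 .mo) / 3 + cκ (dn q.1) * d := by
    field_simp
  have e2 : cκ (dn q.1) * max 0 (q.1 none / cκ (dn q.1) - (2 * (cN (dn q.1) / cκ (dn q.1)) - 1)) =
      max 0 (q.1 none - (2 * cN (dn q.1) - cκ (dn q.1))) := by
    rw [mul_max_of_nonneg _ _ hκ.le, mul_zero]
    congr 1
    field_simp
  rw [e1, e2] at h1
  have h3 : 8 / 9 * d ≤ cκ (dn q.1) * d := mul_le_mul_of_nonneg_right hz.κ0 hd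
  unfold ET
  simp only at h2
  linarith

/-- **second polar line on `SqL`** -/
theorem mn2 (hd : 0 ≤ d) (hd1 : d ≤ 1 / 8) (hA : A ≤ 1) (hA1 : 16 * (1 - A) ≤ d)
    (h : q ∈ SqL A d) :
    2 / 3 * cκ (dn q.1) + ET q / 2 + 5 / 12 * (2 * q.2 .am + (cM (dn q.1) + q.2 .mo)) +
      q.1 none / 12 + 4 / 9 * d ≤ T5 (7 / 8 + d) (dn q.1, q.2) := by
  have hz := nz_of h
  have hκ : 0 < cκ (dn q.1) := by linarith [hz.κ0]
  have h1 := mul_le_mul_of_nonneg_left (hz.l2 hd hA hA1 hd1) hκ.le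
  have h2 := two_T5 d (dn q.1, q.2) hκ
  have e1 : cκ (dn q.1) * (-2 / 3 + 2 / 3 * (cN (dn q.1) / cκ (dn q.1)) +
      max 0 (q.1 none / cκ (dn q.1) - (2 * (cN (dn q.1) / cκ (dn q.1)) - 1)) / 3 -
      q.1 none / cκ (dn q.1) / 6 + 2 / 3 * (q.2 .am / cκ (dn q.1)) -
      (cM (dn q.1) / cκ (dn q.1) + q.2 .mo / cκ (dn q.1)) / 6 + d) =
      -2 / 3 * cκ (dn q.1) + 2 / 3 * cN (dn q.1) +
      (cκ (dn q.1) * max 0 (q.1 none / cκ (dn q.1) - (2 * (cN (dn q.1) / cκ (dn q.1)) - 1))) / 3 -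
      q.1 none / 6 + 2 / 3 * q.2 .am - (cM (dn q.1) + q.2 .mo) / 6 + cκ (dn q.1) * d := by
    field_simp
  have e2 : cκ (dn q.1) * max 0 (q.1 none / cκ (dn q.1) - (2 * (cN (dn q.1) / cκ (dn q.1)) - 1)) =
      max 0 (q.1 none - (2 * cN (dn q.1) - cκ (dn q.1))) := by
    rw [mul_max_of_nonneg _ _ hκ.le, mul_zero]
    congr 1
    field_simp
  rw [e1, e2] at h1
  have h3 : 8 / 9 * d ≤ cκ (dn q.1) * d := mul_le_mul_of_nonneg_right hz.κ0 hd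
  unfold ET
  simp only at h2
  linarith

end Crest.Agent.R017.MnR939
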