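import Crest.Agent.R017.E4Uc_164
import Crest.Agent.R017.MnR_939
import Crest.Agent.R017.E4p18_939
import Crest.Agent.R017.ExT2_764
import Crest.Agent.R017.AL_813

/-!
# Row 17, R8 / E4, case L: the polar terms at list level (helper939)

* `TSU` : the T-moment at list level (input)
* `FrL.l_le` .. : the lengths of the frame in exponents
* `b1_size`, `b2_size` : supports and sizes of the two sides
-/

set_option autoImplicit false
set_option linter.unusedVariables false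

noncomputable section

open Finset
open scoped ComplexConjugate

namespace Crest.Agent.R017.MnU939

open Crest.Agent.R012 Crest.Agent.R012.Eis
open Crest.Agent.R012.LS2 (S mem_S)
open Crest.Agent.R017.FE47 (cx)
open Crest.Agent.R017.E5k54 (alb)
open Crest.Agent.R017.E2440 (TE)
open Crest.Agent.R017.E5B71
open Crest.Agent.R017.XT71 (Sys Win)
open Crest.Agent.R017.B770 (DPar)
open Crest.Agent.R017.Prov71
open Crest.Agent.R017.FE47 (SM)
open Crest.Agent.R017.E4D164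
open Crest.Agent.R017.E5L770
open Crest.Agent.R017.E4U164
open Crest.Agent.R017.E4P939 (TS)
open Crest.Agent.R017.MnR939 (ET)
open Crest.Agent.R017.HP842 (Pc alL)
open Crest.Agent.R012.Div277 (tau)

variable {Λ : Type*} (π : Λ → DPar) (h : ℝ → ℝ)

/-- **the T-moment at list level** -/
def TSU (A d e0 r : ℝ) (Bf : ℝ → ℝ → ℝ → ℝ) (Jf : ℝ → ℝ → ℝ → Finset (Eis × Eis)) : Prop :=
  ∀ ε : ℝ, 0 < ε → ∃ δ : ℝ, 0 < δ ∧ ∀ (lam : Λ × Eis) (N : ℕ) (B : ℝ), ¬ (π lam.1).CaseD →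
    ∃ δ' : ℝ, 0 < δ' ∧ ∃ X₀ : ℝ, 1 < X₀ ∧ ∀ X : ℝ, X₀ ≤ X →
    ∀ (a : Bd × ℕ) (ps : List Pq) (q : (Option (Fin 3 ⊕ Fin 5) → ℝ) × (Kd → ℝ)),
      FrL A d δ δ' B X N a ps q → a.1.ok → lam.2 ∈ SM (π lam.1).n → a.1.okP (π lam.1) →
    ∀ β ∈ T3 Bf a.1 r, ∀ e₀ ∈ S (Real.exp (e0 * a.1.l)),
      TS (J3 Jf a.1 a.2) (fun x => ‖omL a.2 x‖ *
        ‖TE (alb (f3 (π lam.1) h lam.2 a.1) β) x e₀‖) ≤ X ^ (ET q + ε) / (nm (∏ i, β i) : ℝ)

/-- **the T-moment at list level, loss `lo`, gain in the step `e₀`** -/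
def TSUe (A d lo e0 r : ℝ) (Bf : ℝ → ℝ → ℝ → ℝ) (Jf : ℝ → ℝ → ℝ → Finset (Eis × Eis)) : Prop :=
  ∀ ε : ℝ, 0 < ε → ∃ δ : ℝ, 0 < δ ∧ ∀ (lam : Λ × Eis) (N : ℕ) (B : ℝ), ¬ (π lam.1).CaseD →
    ∃ δ' : ℝ, 0 < δ' ∧ ∃ X₀ : ℝ, 1 < X₀ ∧ ∀ X : ℝ, X₀ ≤ X →
    ∀ (a : Bd × ℕ) (ps : List Pq) (q : (Option (Fin 3 ⊕ Fin 5) → ℝ) × (Kd → ℝ)),
      FrL A d δ δ' B X N a ps q → a.1.ok → lam.2 ∈ SM (π lam.1).n → a.1.okP (π lam.1) →
    ∀ b ∈ T3 Bf a.1 r, ∀ e₀ ∈ S (Real.exp (e0 * a.1.l)),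
      4 * Real.log (nm e₀) ≤ (low5 (dn q.1) - q.1 none + d) * Real.log X →
      TS (J3 Jf a.1 a.2) (fun x => ‖omL a.2 x‖ *
        ‖TE (alb (f3 (π lam.1) h lam.2 a.1) b) x e₀‖) ≤
        X ^ (ET q + lo + ε) / ((nm (∏ i, b i) : ℝ) * nm e₀)

/-- no structured part at a step which is not squarefree -/
lemma TE_zero {α : Eis → ℂ} (hα : ∀ n, α n ≠ 0 → Squarefree n) {e : Eis} (he : ¬ Squarefree e)
    (x : Eis × Eis) : TE α x e = 0 := by
  classical
  unfold TE
  refine (tsum_congr (g := fun _ => 0) fun m => ?_).trans tsum_zero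
  split_ifs with h
  · by_cases h0 : α (x.1 * m) = 0
    · rw [h0, zero_mul]
    · exact absurd ((hα _ h0).squarefree_of_dvd (h.1.mul_left x.1)) he
  · rfl

lemma alb_sqf {ι : Type*} [Fintype ι] {f : ι → Eis → ℂ} {β : ι → Eis} {n : Eis}
    (h : alb f β n ≠ 0) : Squarefree n := by
  unfold E5k54.alb E554.sqc at h
  split_ifs at h with h1
  · exact h1.1
  · exact absurd rfl h

lemma TS_zero {α : Eis → ℂ} (hα : ∀ n, α n ≠ 0 → Squarefree n) {e : Eis} (he : ¬ Squarefree e)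
    (J : Finset (Eis × Eis)) (om : Eis × Eis → ℂ) :
    TS J (fun x => ‖om x‖ * ‖TE α x e‖) = 0 := by
  unfold TS
  refine Finset.sum_eq_zero fun x _ => ?_
  have h1 := TE_zero hα he x
  simp only [h1, norm_zero, mul_zero]
  norm_num

section frame

variable {A d δ δ' B X : ℝ} {N : ℕ} {a : Bd × ℕ} {ps : List Pq}
  {q : (Option (Fin 3 ⊕ Fin 5) → ℝ) × (Kd → ℝ)}

lemma FrL_l (h : FrL A d δ δ' B X N a ps q) (hX : 1 < X) :
    |a.1.l - cκ (dn q.1) * Real.log X| ≤ δ * Real.log X := by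
  have hL := Real.log_pos hX
  have h1 := h.win.ev (some (.inl 0))
  have e1 : (lev (Real.log 2) S5).ev X a (some (.inl 0)) = a.1.l / Real.log X := rfl
  have e2 : q.1 (some (.inl 0)) = cκ (dn q.1) := rfl
  rw [e1, e2] at h1
  have h2 := mul_le_mul_of_nonneg_right h1 hL.le
  rw [← abs_of_pos hL, ← abs_mul, abs_of_pos hL, sub_mul, div_mul_cancel₀ _ hL.ne'] at h2
  exact h2

lemma FrL_u (h : FrL A d δ δ' B X N a ps q) (hX : 1 < X) (i : Fin 5) :
    |(a.1.us i).z - cu (dn q.1) i * Real.log X| ≤ δ * Real.log X := by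
  have hL := Real.log_pos hX
  have h1 := h.win.ev (some (.inr i))
  have e1 : (lev (Real.log 2) S5).ev X a (some (.inr i)) = (a.1.us i).z / Real.log X := rfl
  have e2 : q.1 (some (.inr i)) = cu (dn q.1) i := rfl
  rw [e1, e2] at h1
  have h2 := mul_le_mul_of_nonneg_right h1 hL.le
  rw [← abs_of_pos hL, ← abs_mul, abs_of_pos hL, sub_mul, div_mul_cancel₀ _ hL.ne'] at h2
  exact h2

lemma FrL_v (h : FrL A d δ δ' B X N a ps q) (hX : 1 < X) :
    |Real.log 2 * a.2 - q.1 none * Real.log X| ≤ δ * Real.log X := by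
  have hL := Real.log_pos hX
  have h1 := h.win.ev none
  have e1 : (lev (Real.log 2) S5).ev X a none = Real.log 2 * (a.2 : ℝ) / Real.log X := rfl
  rw [e1] at h1
  have h2 := mul_le_mul_of_nonneg_right h1 hL.le
  rw [← abs_of_pos hL, ← abs_mul, abs_of_pos hL, sub_mul, div_mul_cancel₀ _ hL.ne'] at h2
  exact h2

lemma sum_filter_mass {X : ℝ} (ps : List Pq) (t : Kd) :
    (((ps.filter fun p => p.kd = t).map fun p => p.z).sum) / Real.log X = Dq.mass X ps t := by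
  induction ps with
  | nil => simp
  | cons p ps ih =>
    rw [XG702.Pcs.mass_cons, ← ih]
    by_cases hp : p.kd = t
    · have : Dq.kind p = t := hp
      rw [if_pos this, List.filter_cons_of_pos (by simpa using hp), List.map_cons, List.sum_cons,
        add_div]
      rfl
    · have : ¬ Dq.kind p = t := hp
      rw [if_neg this, List.filter_cons_of_neg (by simpa using hp), zero_add]

lemma FrL_am (h : FrL A d δ δ' B X N a ps q) (hX : 1 < X) :
    |lam' ps - q.2 .am * Real.log X| ≤ δ * Real.log X := by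
  have hL := Real.log_pos hX
  have h1 := h.mass .am
  rw [← sum_filter_mass] at h1
  have h2 := mul_le_mul_of_nonneg_right h1 hL.le
  rw [← abs_of_pos hL, ← abs_mul, abs_of_pos hL, sub_mul, div_mul_cancel₀ _ hL.ne'] at h2
  exact h2

lemma FrL_mo (h : FrL A d δ δ' B X N a ps q) (hX : 1 < X) :
    |lmo a.1 ps - (cM (dn q.1) + q.2 .mo) * Real.log X| ≤ 3 * δ * Real.log X := by
  have hL := Real.log_pos hX
  have h1 := h.mass .mo
  rw [← sum_filter_mass] at h1
  have h2 := mul_le_mul_of_nonneg_right h1 hL.le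
  rw [← abs_of_pos hL, ← abs_mul, abs_of_pos hL, sub_mul, div_mul_cancel₀ _ hL.ne'] at h2
  have h3 := FrL_u h hX 0
  have h4 := FrL_u h hX 1
  have e : lmo a.1 ps = (a.1.us 0).z + ((a.1.us 1).z +
      ((ps.filter fun p => p.kd = Kd.mo).map fun p => p.z).sum) := by
    unfold lmo bs2 moL
    rw [List.map_cons, List.map_cons, List.sum_cons, List.sum_cons]
  have e2 : cM (dn q.1) = cu (dn q.1) 0 + cu (dn q.1) 1 := rfl
  rw [abs_le] at h2 h3 h4 ⊢
  rw [e, e2]
  constructor <;> nlinarith [h2.1, h2.2, h3.1, h3.2, h4.1, h4.2]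

end frame

/-! ### the two sides -/

section sides

variable {π h}

lemma LP_map (P : DPar) (t : Eis) (ps : List Pq) :
    ExT764.LP (ps.map (Pt P t)) = (ps.map fun p => p.z).sum := by
  induction ps with
  | nil => simp [ExT764.LP]
  | cons p ps ih =>
    rw [List.map_cons, ExT764.LP_cons, ih, List.map_cons, List.sum_cons]
    congr 1
    show Real.log (Real.exp p.z) = p.z
    exact Real.log_exp _

end sides

end Crest.Agent.R017.MnU939
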