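import Crest.Agent.R017.E4Uv_512
import Crest.Agent.R017.MnD_939
import Crest.Agent.R017.E4p19_939

/-!
# Row 17, R8 / E4, case L: the polar terms at list level (helper939)

`mnU_of_TSUe` : `MnU` of helper164's `E4Uc_164` from the T-moment `TSUe`.
-/

set_option autoImplicit false
set_option linter.unusedVariables false

noncomputable section

open Finset
open scoped ComplexConjugate

namespace Crest.Agent.R017.MnU939

open Crest.Agent.R012 Crest.Agent.R012.Eis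
open Crest.Agent.R012.LS2 (S mem_S)
open Crest.Agent.R017.Sx545 (Sm)
open Crest.Agent.R017.CM106 (FS)
open Crest.Agent.R017.C70
open Crest.Agent.R017.FE47 (cx PU SM)
open Crest.Agent.R017.E5k54 (alb)
open Crest.Agent.R017.E2440 (TE)
open Crest.Agent.R017.E5B71
open Crest.Agent.R017.XT71 (Sys Win)
open Crest.Agent.R017.B770 (DPar)
open Crest.Agent.R017.Prov71
open Crest.Agent.R017.E4352 (PrI Dat4)
open Crest.Agent.R017.E4v5 (HM5)
open Crest.Agent.R017.E4K164 (dc dc_spec jc_ne_zero)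
open Crest.Agent.R017.E4D164
open Crest.Agent.R017.E5P571 (Gd mem_Gd)
open Crest.Agent.R017.E5L770
open Crest.Agent.R017.E4U164
open Crest.Agent.R017.E4ap783 (mtr PG)
open Crest.Agent.R017.E4P939 (TS TS_nonneg polar_ELe)
open Crest.Agent.R017.MnR939 (ET mn1 mn2)
open Crest.Agent.R017.E4Us512

/-- constants are small powers -/
lemma const_le {K ε X : ℝ} (hε : 0 < ε) (hX : (max 1 K) ^ (1 / ε) ≤ X) : K ≤ X ^ ε := by
  have h1 : 0 ≤ max 1 K := by positivity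
  calc K ≤ max 1 K := le_max_right _ _
    _ = ((max 1 K) ^ (1 / ε)) ^ ε := by
        rw [← Real.rpow_mul h1, one_div, inv_mul_cancel₀ hε.ne', Real.rpow_one]
    _ ≤ X ^ ε := Real.rpow_le_rpow (by positivity) hX hε.le

/-- the final estimate -/
lemma fin_real {X C R l Cw st nb ne Λ1 V1 Λ2 V2 K1 κ δ ε E lo T d μ a1 a2 : ℝ} (hX : 1 < X)
    (hC : 0 ≤ C) (hR : 0 < R) (hl : l ≤ (κ + δ) * Real.log X) (hnb : 0 < nb) (hne : 0 < ne)
    (hst0 : 0 ≤ st) (hst : st ≤ X ^ ((E + lo) / 2 + ε / 16) / (nb * ne ^ (1 / 2 : ℝ)))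
    (hK1 : 0 ≤ K1) (hΛ1 : 0 ≤ Λ1)
    (hΛ2 : 0 ≤ Λ2) (hV1 : 0 ≤ V1) (hV2 : 0 ≤ V2) (h1 : Λ1 * V1 ≤ K1 * X ^ (a1 + 3 * δ))
    (h2 : Λ2 * V2 ≤ K1 * X ^ (a2 + 3 * δ)) (hCw : 0 ≤ Cw) (hδ0 : 0 ≤ δ) (hδ : δ ≤ ε / 16)
    (hm1 : 2 / 3 * κ + E / 2 + a1 + 4 / 9 * d ≤ T) (hm2 : 2 / 3 * κ + E / 2 + a2 + 4 / 9 * d ≤ T)
    (hμ : lo / 2 + μ ≤ 4 / 9 * d) (hK : 2 * (C * R ^ (4 / 3 : ℝ) * Cw * K1) ≤ X ^ (ε / 2)) :
    C * X ^ (ε / 16) * ne ^ (-(1 / 2) : ℝ) * ((R * Real.exp l) ^ (4 / 3 : ℝ) *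
      (Cw * X ^ (ε / 16) * (st * (Λ1 * V1 + Λ2 * V2)))) ≤
      X ^ (T - μ + ε) * Real.exp (2 / 3 * l) / (nb * ne) := by
  have hX0 : 0 < X := by linarith
  have hL := Real.log_pos hX
  have ha : (R * Real.exp l) ^ (4 / 3 : ℝ) ≤ R ^ (4 / 3 : ℝ) * X ^ (2 / 3 * κ + δ) *
      Real.exp (2 / 3 * l) := by
    rw [Real.mul_rpow hR.le (Real.exp_pos _).le, ← Real.exp_mul, mul_assoc]
    refine mul_le_mul_of_nonneg_left ?_ (by positivity)
    rw [Real.rpow_def_of_pos hX0, ← Real.exp_add]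
    refine Real.exp_le_exp.mpr ?_
    nlinarith [mul_nonneg hδ0 hL.le]
  have key : ∀ {a : ℝ}, 2 / 3 * κ + E / 2 + a + 4 / 9 * d ≤ T →
      X ^ (ε / 16) * X ^ (2 / 3 * κ + δ) * X ^ (ε / 16) * X ^ ((E + lo) / 2 + ε / 16) *
        X ^ (a + 3 * δ) ≤ X ^ (T - μ + ε / 2) := by
    intro a ha
    rw [← Real.rpow_add hX0, ← Real.rpow_add hX0, ← Real.rpow_add hX0, ← Real.rpow_add hX0]
    exact Real.rpow_le_rpow_of_exponent_le hX.le (by linarith)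
  have hexp := Real.exp_pos (2 / 3 * l)
  rw [le_div_iff₀ (by positivity)]
  have hb : st * (nb * ne ^ (1 / 2 : ℝ)) ≤ X ^ ((E + lo) / 2 + ε / 16) := by
    rwa [le_div_iff₀ (by positivity)] at hst
  have hnn : ne ^ (-(1 / 2) : ℝ) * ne = ne ^ (1 / 2 : ℝ) := by
    conv_lhs => rw [← Real.rpow_one ne, ← Real.rpow_mul hne.le, ← Real.rpow_add hne]
    norm_num
  have h3 : Λ1 * V1 + Λ2 * V2 ≤ K1 * (X ^ (a1 + 3 * δ) + X ^ (a2 + 3 * δ)) := by linarith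
  calc C * X ^ (ε / 16) * ne ^ (-(1 / 2) : ℝ) * ((R * Real.exp l) ^ (4 / 3 : ℝ) *
      (Cw * X ^ (ε / 16) * (st * (Λ1 * V1 + Λ2 * V2)))) * (nb * ne)
      = C * X ^ (ε / 16) * (R * Real.exp l) ^ (4 / 3 : ℝ) * (Cw * X ^ (ε / 16)) *
        (st * (nb * (ne ^ (-(1 / 2) : ℝ) * ne))) * (Λ1 * V1 + Λ2 * V2) := by ring
    _ = C * X ^ (ε / 16) * (R * Real.exp l) ^ (4 / 3 : ℝ) * (Cw * X ^ (ε / 16)) *
        (st * (nb * ne ^ (1 / 2 : ℝ))) * (Λ1 * V1 + Λ2 * V2) := by rw [hnn]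
    _ ≤ C * X ^ (ε / 16) * (R ^ (4 / 3 : ℝ) * X ^ (2 / 3 * κ + δ) * Real.exp (2 / 3 * l)) *
        (Cw * X ^ (ε / 16)) * (X ^ ((E + lo) / 2 + ε / 16)) *
        (K1 * (X ^ (a1 + 3 * δ) + X ^ (a2 + 3 * δ))) := by gcongr
    _ = (C * R ^ (4 / 3 : ℝ) * Cw * K1) * Real.exp (2 / 3 * l) *
        (X ^ (ε / 16) * X ^ (2 / 3 * κ + δ) * X ^ (ε / 16) * X ^ ((E + lo) / 2 + ε / 16) *
          X ^ (a1 + 3 * δ) +
        X ^ (ε / 16) * X ^ (2 / 3 * κ + δ) * X ^ (ε / 16) * X ^ ((E + lo) / 2 + ε / 16) *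
          X ^ (a2 + 3 * δ)) := by ring
    _ ≤ (C * R ^ (4 / 3 : ℝ) * Cw * K1) * Real.exp (2 / 3 * l) *
        (X ^ (T - μ + ε / 2) + X ^ (T - μ + ε / 2)) := by
        have k1 := key hm1
        have k2 := key hm2
        gcongr
    _ = (2 * (C * R ^ (4 / 3 : ℝ) * Cw * K1)) * (X ^ (T - μ + ε / 2) * Real.exp (2 / 3 * l)) := by
        ring
    _ ≤ X ^ (ε / 2) * (X ^ (T - μ + ε / 2) * Real.exp (2 / 3 * l)) := by gcongr
    _ = X ^ (T - μ + ε) * Real.exp (2 / 3 * l) := by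
        rw [← mul_assoc, ← Real.rpow_add hX0]
        congr 2
        ring

/-- the square root of the T-moment -/
lemma sqrt_TS {TSv X E lo ε nb ne : ℝ} (hX0 : 0 < X) (hnb : 0 < nb) (hne : 0 < ne)
    (h : TSv ≤ X ^ (E + lo + ε / 8) / (nb * ne)) :
    Real.sqrt TSv ≤ X ^ ((E + lo) / 2 + ε / 16) / (nb ^ (1 / 2 : ℝ) * ne ^ (1 / 2 : ℝ)) := by
  refine (Real.sqrt_le_sqrt h).trans (le_of_eq ?_)
  rw [Real.sqrt_eq_rpow, Real.div_rpow (by positivity) (by positivity), ← Real.rpow_mul hX0.le,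
    Real.mul_rpow hnb.le hne.le]
  congr 2
  ring

variable {Λ : Type*} {π : Λ → DPar} {h : ℝ → ℝ}

lemma FrL_mono {A d δ δ₁ δ' B X : ℝ} {N : ℕ} {a : Bd × ℕ} {ps : List Pq}
    {q : (Option (Fin 3 ⊕ Fin 5) → ℝ) × (Kd → ℝ)} (h : FrL A d δ δ' B X N a ps q) (hX : 1 ≤ X)
    (hδ : δ ≤ δ₁) : FrL A d δ₁ δ' B X N a ps q :=
  { h with
    lum := fun p hp => (h.lum p hp).imp id fun h1 => h1.trans hδ
    win := h.win.mono hX hδ le_rfl le_rfl le_rfl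
    mass := fun t => (h.mass t).trans hδ }

lemma exp_le_rpow {x y X : ℝ} (hX : 0 < X) (h : x ≤ y * Real.log X) : Real.exp x ≤ X ^ y := by
  rw [Real.rpow_def_of_pos hX, mul_comm]
  exact Real.exp_le_exp.mpr h

lemma pow_bd {Y K s X t : ℝ} (hX : 0 < X) (hK : 1 ≤ K) (hY : 0 ≤ Y) (h : Y ≤ K * X ^ s)
    (ht : 0 ≤ t) (ht1 : t ≤ 1) : Y ^ t ≤ K * X ^ (s * t) := by
  have h1 : K ^ t ≤ K := by
    conv_rhs => rw [← Real.rpow_one K]
    exact Real.rpow_le_rpow_of_exponent_le hK ht1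
  calc Y ^ t ≤ (K * X ^ s) ^ t := Real.rpow_le_rpow hY h ht
    _ = K ^ t * X ^ (s * t) := by
        rw [Real.mul_rpow (by linarith) (by positivity), ← Real.rpow_mul hX.le]
    _ ≤ _ := by gcongr

/-- **`MnU` from the T-moment** -/
theorem mnU_of_TSUe {c A d μ lo e0 r : ℝ} {Bf : ℝ → ℝ → ℝ → ℝ}
    {Jf : ℝ → ℝ → ℝ → Finset (Eis × Eis)} (hh : PU h c) (hP : ∀ lam, (π lam).OK)
    (hA : 2 / 3 ≤ A) (hA1 : A ≤ 1) (hAd : 16 * (1 - A) ≤ d) (hd1 : d ≤ 1 / 8)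
    (hμ : lo / 2 + μ ≤ 4 / 9 * d) (hJf : ∀ l N z, OKJ (Jf l N z))
    (hT : TSUe π h A d lo e0 r Bf Jf) : MnU π h (7 / 8 + d) A d μ e0 r Bf Jf := by
  intro ε hε
  have hd : 0 ≤ d := by linarith
  obtain ⟨δ₁, hδ₁, HT⟩ := hT (ε / 8) (by positivity)
  set δ : ℝ := min δ₁ (min (1 / 2) (ε / 16)) with hδdef
  have hδ0 : 0 < δ := lt_min hδ₁ (lt_min (by norm_num) (by positivity))
  have hδ1 : δ ≤ δ₁ := min_le_left _ _
  have hδ2 : δ ≤ 1 / 2 := (min_le_right _ _).trans (min_le_left _ _)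
  have hδ5 : δ ≤ ε / 16 := (min_le_right _ _).trans (min_le_right _ _)
  refine ⟨ε, hε, le_rfl, δ, hδ0, ?_⟩
  intro lam N B R Pm hR hD hPm
  obtain ⟨δ', hδ', X₁, hX₁, HT⟩ := HT lam N B hD
  obtain ⟨A₀, C₀, X₂, hA₀, hC₀, hX₂, H4⟩ := dt_dat4 (h := h) hh hA (d := d) e0 r Bf hJf lam
    (hP lam.1) N B ε R hR
  obtain ⟨A₁, X₃, hA₁, hX₃, HS⟩ := dt_sizes (h := h) hh hA (d := d) e0 r Bf hJf lam (hP lam.1) N B R
  obtain ⟨C₂, X₄, hC₂, hX₄, HC⟩ := dt_Cw (h := h) hh hA (d := d) lam (hP lam.1) N B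
    (ε := ε / 16) (by positivity)
  obtain ⟨Rh, H, hRh0, hH1, hRh, hH⟩ := bdd_PU hh
  set B₁ : ℝ := max B 3 with hB₁
  have hB3 : 3 ≤ B₁ := le_max_right _ _
  have hBB : B ≤ B₁ := le_max_left _ _
  set A' : ℝ := 2 * A₀ + A₁ + B₁ + 1 with hA'
  have hA'0 : 0 < A' := by linarith
  obtain ⟨C, hC, HP⟩ := polar_ELe (ε := ε / (16 * A')) (by positivity)
  set CL : ℝ := (Real.exp Rh ^ N) ^ 2 * Real.exp Rh ^ (N + 2) with hCL
  have hCL1 : 1 ≤ CL := by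
    have := Real.one_le_exp hRh0
    exact one_le_mul_of_one_le_of_one_le (one_le_pow₀ (one_le_pow₀ this)) (one_le_pow₀ this)
  set K1 : ℝ := CL * 2 with hK1
  refine ⟨δ', hδ', max (max X₁ (max X₂ (max X₃ X₄))) (max 2 ((max 1 (2 * (C * R ^ (4 / 3 : ℝ) * C₂ *
    K1))) ^ (1 / (ε / 2)))), ?_, ?_⟩
  · exact lt_max_of_lt_left (lt_max_of_lt_left hX₁)
  intro X hX a ps q hF ha hS haP x hx hxl h₁ h₂ m hm T₀ hT₀
  have g1 : X₁ ≤ X := (le_max_left _ _).trans ((le_max_left _ _).trans hX)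
  have g2 : X₂ ≤ X := (le_max_left _ _).trans ((le_max_right _ _).trans ((le_max_left _ _).trans hX))
  have g3 : X₃ ≤ X := (le_max_left _ _).trans ((le_max_right _ _).trans
    ((le_max_right _ _).trans ((le_max_left _ _).trans hX)))
  have g4 : X₄ ≤ X := (le_max_right _ _).trans ((le_max_right _ _).trans
    ((le_max_right _ _).trans ((le_max_left _ _).trans hX)))
  have g5 : 2 ≤ X := (le_max_left _ _).trans ((le_max_right _ _).trans hX)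
  have g6 : (max 1 (2 * (C * R ^ (4 / 3 : ℝ) * C₂ * K1))) ^ (1 / (ε / 2)) ≤ X :=
    (le_max_right _ _).trans ((le_max_right _ _).trans hX)
  have hX1 : 1 < X := by linarith
  have hX0 : 0 < X := by linarith
  have hL : 0 < Real.log X := Real.log_pos hX1
  set P := π lam.1 with hPd
  have hsq : q ∈ SqL A d := hF.dom
  have hFr := fr_of_frL hA hδ2 hX1 hF ha haP hBB hB3
  have hJ := okJ3 hJf a.1 a.2
  have hnrm : 0 < nrm x := by
    have h1 : (0 : ℝ) < nm (∏ i, x.β i) := by exact_mod_cast nm_pos.mpr (T3_prim _ hx.β).ne_zero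
    have h2 : (0 : ℝ) < nm x.e₀ := by
      exact_mod_cast nm_pos.mpr ((mem_S (Real.exp_pos _).le).mp hx.e₀).2.1.ne_zero
    unfold nrm; positivity
  have hMn : 0 ≤ X ^ (T5 (7 / 8 + d) (dn q.1, q.2) - μ + ε) * Real.exp (2 / 3 * a.1.l) / nrm x := by
    positivity
  obtain ⟨⟨-, hRe, -, -, hl0⟩, H4⟩ := H4 X g2 δ δ' ε hδ2 le_rfl a ps q hF ha haP
  obtain ⟨H4a, -, -, -, H4b, H4c⟩ := H4 x hx h₁ h₂
  obtain ⟨-, -, HSn, -, -, -, -, -⟩ := HS X g3 δ δ' hδ2 a ps q hF ha haP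
  have HCw := HC X g4 δ δ' hδ2 a ps q hF ha haP
  have hTS := HT X g1 a ps q (FrL_mono hF hX1.le hδ1) ha hS haP x.β hx.β x.e₀ hx.e₀ (by first | exact hxl | exact hxl.1)
  rcases (x.I Jf a).eq_empty_or_nonempty with hemp | hne
  · haveI : IsEmpty (x.O π lam Jf a) := isEmpty_O hemp
    exact hm5_empty hMn
  -- numbers
  set κ := cκ (dn q.1) with hκ
  have nl := (abs_le.mp (FrL_l hF hX1)).2
  have nv := (abs_le.mp (FrL_v hF hX1)).2
  have nam := (abs_le.mp (FrL_am hF hX1)).2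
  have nmo := (abs_le.mp (FrL_mo hF hX1)).2
  have hκ1 : κ ≤ 1 := (show Sq5 A d (dn q.1) q.2 from hsq.1).κ1
  have hβ0 : (0 : ℝ) < nm (∏ i, x.β i) := by exact_mod_cast nm_pos.mpr (T3_prim _ hx.β).ne_zero
  have he₀ := (mem_S (Real.exp_pos _).le).mp hx.e₀
  have he₀0 : (0 : ℝ) < nm x.e₀ := by exact_mod_cast nm_pos.mpr he₀.2.1.ne_zero
  have hg := (mem_Gd ha.2.2).mp hx.g
  have hEp : IsPrim (x.E a.1) := haP.1.1.mul (T3_prim _ hx.β)
  have ht := (mem_Gd (tS_prim hEp).ne_zero).mp hx.t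
  have hXA : ∀ {y z : ℝ}, y ≤ z → X ^ y ≤ X ^ z := fun hyz =>
    Real.rpow_le_rpow_of_exponent_le hX1.le hyz
  have hY : (X ^ A') ^ (ε / (16 * A')) = X ^ (ε / 16) := by
    rw [← Real.rpow_mul hX0.le]
    congr 1
    field_simp
  -- supports of the two sides
  have hb₁ : Sz (b1 P h lam.2 ps) (Real.exp Rh ^ N * Real.exp (lz (amL ps)))
      ((100 * Real.exp Rh * H) ^ N * Real.exp (lz (amL ps))) :=
    sz_side (hP _) hRh0 hRh hH1 hH lam.2 ((len_am ps).trans hF.len)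
  have hb₂ : Sz (b2 P h lam.2 a.1 ps) (Real.exp Rh ^ (N + 2) * Real.exp (lz (bs2 a.1 ps)))
      ((100 * Real.exp Rh * H) ^ (N + 2) * Real.exp (lz (bs2 a.1 ps))) :=
    sz_side (hP _) hRh0 hRh hH1 hH lam.2 ((len_bs a.1 ps).trans (Nat.add_le_add_right hF.len 2))
  set Λ₀ : ℝ := CL * Real.exp (2 * lam' ps + lmo a.1 ps) with hΛ₀
  have hΛ0 : 0 < Λ₀ := by positivity
  have hΛ : ∀ n m, b1 P h lam.2 ps n ≠ 0 → b2 P h lam.2 a.1 ps m ≠ 0 →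
      (nm n : ℝ) ^ 2 * nm m ≤ Λ₀ := by
    intro n m hn hm
    have k1 := hb₁.le n hn
    have k2 := hb₂.le m hm
    calc (nm n : ℝ) ^ 2 * nm m ≤ (Real.exp Rh ^ N * Real.exp (lz (amL ps))) ^ 2 *
          (Real.exp Rh ^ (N + 2) * Real.exp (lz (bs2 a.1 ps))) := by gcongr
      _ = Λ₀ := by
          rw [hΛ₀, hCL, show 2 * lam' ps + lmo a.1 ps = lz (amL ps) + lz (amL ps) +
            lz (bs2 a.1 ps) by rw [lam_eq, lmo_eq]; ring, Real.exp_add, Real.exp_add]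
          ring
  set V : ℝ := 2 * 2 ^ a.2 with hV
  have hV0 : 0 < V := by positivity
  have hVJ : ∀ y ∈ J3 Jf a.1 a.2, (nm y.2 : ℝ) * nm y.1 ^ 2 ≤ V := by
    intro y hy
    have h3 := mem_J3_le hy (mul_ne_zero (jc_ne_zero (hJ.jc y hy))
      (pow_ne_zero 2 (hJ.prim y hy).ne_zero))
    rw [nm_mul, nm_pow] at h3
    push_cast at h3
    exact h3
  have hVX : V ≤ X ^ (B₁ + 1) := by
    have h3 : (2 : ℝ) ^ a.2 ≤ X ^ B₁ := by
      have h4 := exp_le_rpow hX0 hFr.lv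
      rwa [mul_comm, Real.exp_nat_mul, Real.exp_log (by norm_num)] at h4
    rw [hV, add_comm B₁ 1, Real.rpow_add hX0, Real.rpow_one]
    exact mul_le_mul g5 h3 (by positivity) hX0.le
  have hVv : V ≤ 2 * X ^ (q.1 none + δ) := by
    have h3 : (2 : ℝ) ^ a.2 ≤ X ^ (q.1 none + δ) := by
      have h4 := exp_le_rpow (x := Real.log 2 * a.2) (y := q.1 none + δ) hX0 (by linarith)
      rwa [mul_comm, Real.exp_nat_mul, Real.exp_log (by norm_num)] at h4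
    rw [hV]
    linarith
  have hΛX : Λ₀ ≤ CL * X ^ (2 * q.2 .am + (cM (dn q.1) + q.2 .mo) + 5 * δ) := by
    rw [hΛ₀]
    refine mul_le_mul_of_nonneg_left (exp_le_rpow hX0 ?_) (by linarith)
    linarith
  -- the sizes of the outer parameters
  set Q : Finset Eis := (x.I Jf a).image Prod.fst with hQ
  have hIQ : x.I Jf a ⊆ Q ×ˢ J3 Jf a.1 a.2 := by
    intro i hi
    exact Finset.mem_product.mpr ⟨Finset.mem_image_of_mem _ hi, (Dt.mem_I.mp hi).1.2⟩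
  have hQp : ∀ q' ∈ Q, IsPrim q' ∧ (nm (sS x.g x.e₀ x.t q') : ℝ) ≤ X ^ A₀ := by
    intro q' hq'
    obtain ⟨i, hi, rfl⟩ := Finset.mem_image.mp hq'
    exact ⟨(hx.Q _ (Dt.mem_I.mp hi).1.1).1.1, H4c i hi⟩
  have hSν : ∀ i ∈ x.I Jf a, (nm (jS (sS x.g x.e₀ x.t) i *
      (dc (jJ (sS x.g x.e₀ x.t) i)).2.2) : ℝ) ≤ X ^ A' := by
    intro i hi
    have hiJ := (Dt.mem_I.mp hi).1.2
    have hj := hJ.jc _ hiJ
    have hs : IsPrim (sS x.g x.e₀ x.t i.1) := (c3_sS hx ha haP (Dt.mem_I.mp hi).1.1).1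
    obtain ⟨k1, -⟩ := E5b54.stj_spec hs hj
    have k2 : (nm (dc (jJ (sS x.g x.e₀ x.t) i)).2.2 : ℝ) ≤ nm (jJ (sS x.g x.e₀ x.t) i) := by
      exact_mod_cast nm_nu' k1
    have k3 : (nm (jJ (sS x.g x.e₀ x.t) i) : ℝ) ≤ nm i.2.2 * nm (sS x.g x.e₀ x.t i.1) := by
      exact_mod_cast nm_stj hs hj
    have k4 : (nm i.2.2 : ℝ) ≤ V := by
      have h5 := hVJ _ hiJ
      have h6 : (1 : ℝ) ≤ nm i.2.1 := by
        exact_mod_cast nm_pos.mpr (hJ.prim _ hiJ).ne_zero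
      have h7 : (0 : ℝ) ≤ nm i.2.2 := Nat.cast_nonneg _
      have h8 := mul_le_mul_of_nonneg_left (one_le_pow₀ h6 (n := 2)) h7
      linarith
    have k5 := H4c i hi
    rw [nm_mul]
    push_cast
    have k6 : (0 : ℝ) ≤ nm (sS x.g x.e₀ x.t i.1) := Nat.cast_nonneg _
    calc (nm (sS x.g x.e₀ x.t i.1) : ℝ) * nm (dc (jJ (sS x.g x.e₀ x.t) i)).2.2
        ≤ X ^ A₀ * (X ^ (B₁ + 1) * X ^ A₀) := by
          refine mul_le_mul k5 (k2.trans (k3.trans ?_)) (Nat.cast_nonneg _) (by positivity)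
          exact mul_le_mul (k4.trans hVX) k5 k6 (by positivity)
      _ = X ^ (A₀ + (B₁ + 1 + A₀)) := by rw [Real.rpow_add hX0 A₀, Real.rpow_add hX0 (B₁ + 1)]
      _ ≤ X ^ A' := hXA (by rw [hA']; linarith)
  have hnm : ∀ n m, b1 P h lam.2 ps n ≠ 0 → b2 P h lam.2 a.1 ps m ≠ 0 →
      (nm (n * m ^ 2) : ℝ) ≤ X ^ A' := by
    intro n m hn hm
    have h3 := HSn n m hn hm
    have h4 : ((nm (n * m ^ 2) : ℕ) : ℝ) ≤ (⌊X ^ A₁⌋₊ : ℝ) := by exact_mod_cast h3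
    exact h4.trans ((Nat.floor_le (by positivity)).trans (hXA (by rw [hA']; linarith)))
  have hfin := HP P.n₃ (fN P.n₃ (x.E a.1)) (psE P.n₃ (fun k => conj (P.χ₃ k)) (x.E a.1)) P.l₃ Q
    x.g x.e₀ x.t (J3 Jf a.1 a.2) (x.I Jf a) x.ph (omL a.2) (alb (f3 P h lam.2 a.1) x.β) x.c₀
    x.g' x.z (b1 P h lam.2 ps) (b2 P h lam.2 a.1 ps) h₁ h₂ (X ^ A') (R * Real.exp a.1.l) T₀ V Λ₀
    (C₂ * X ^ (ε / 16)) (hc_psE (hP lam.1).χ₃.conj hEp) (fM_spec (hP lam.1).χ₃.q0 hEp).2.1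
    (H4b.trans (hXA (by rw [hA']; linarith))) hx.g' hx.z (fun q' hq' => (hQp q' hq').1) hg.1.1
    he₀.2.1 ht.1.1 (fun q' hq' => (hQp q' hq').2.trans (hXA (by rw [hA']; linarith))) hJ hIQ
    hx.ph hV0.le hVJ hSν (by positivity) hΛ0.le (by positivity) HCw hnm hΛ
    (dat4_mono H4a (hXA (by rw [hA']; linarith)))
    (fun hs => TS_zero (fun n hn => alb_sqf hn) hs _ _) P.l₃ m (hPm m hm)
  refine E4P939.HM5.mono hfin ?_
  rw [hY]
  have hrt := sqrt_TS hX0 hβ0 he₀0 hTS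
  have hΛ1 : Λ₀ ^ (1 / 3 : ℝ) * V ^ (1 / 3 : ℝ) ≤
      K1 * X ^ ((2 * q.2 .am + (cM (dn q.1) + q.2 .mo)) / 3 + q.1 none / 3 + 3 * δ) := by
    have k1 := pow_bd hX0 hCL1 hΛ0.le hΛX (t := 1 / 3) (by norm_num) (by norm_num)
    have k2 := pow_bd hX0 one_le_two hV0.le hVv (t := 1 / 3) (by norm_num) (by norm_num)
    refine (mul_le_mul k1 k2 (by positivity) (by positivity)).trans ?_
    rw [hK1, mul_mul_mul_comm, ← Real.rpow_add hX0]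
    exact mul_le_mul_of_nonneg_left (hXA (by linarith)) (by positivity)
  have hΛ2 : Λ₀ ^ (5 / 12 : ℝ) * V ^ (1 / 12 : ℝ) ≤
      K1 * X ^ (5 / 12 * (2 * q.2 .am + (cM (dn q.1) + q.2 .mo)) + q.1 none / 12 + 3 * δ) := by
    have k1 := pow_bd hX0 hCL1 hΛ0.le hΛX (t := 5 / 12) (by norm_num) (by norm_num)
    have k2 := pow_bd hX0 one_le_two hV0.le hVv (t := 1 / 12) (by norm_num) (by norm_num)
    refine (mul_le_mul k1 k2 (by positivity) (by positivity)).trans ?_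
    rw [hK1, mul_mul_mul_comm, ← Real.rpow_add hX0]
    exact mul_le_mul_of_nonneg_left (hXA (by linarith)) (by positivity)
  refine fin_real (κ := κ) (δ := δ) (E := ET q) (d := d) (lo := lo) hX1 hC.le hR (by linarith)
    (by positivity) he₀0 (Real.sqrt_nonneg _) hrt (by positivity) (by positivity) (by positivity)
    (by positivity) (by positivity) hΛ1 hΛ2 (by positivity) hδ0.le hδ5 ?_ ?_ hμ
    (const_le (by positivity) g6)
  · have := mn1 hd hd1 hA1 hAd hsq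
    linarith
  · have := mn2 hd hd1 hA1 hAd hsq
    linarith

end Crest.Agent.R017.MnU939
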