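import Crest.Agent.R017.E4Uz_512
import Crest.Agent.R017.MnU_939

/-!
# Row 17, R8 / E4, class E: the polar terms at list level (helper939)

* `TSUXe` : the T-moment of the double difference at list level (input)
* `mnUX_of_TSUXe` : `MnUX` of helper372's `E4Xc_372` from `TSUXe`
-/

set_option autoImplicit false
set_option linter.unusedVariables false

noncomputable section

open Finset
open scoped ComplexConjugate

namespace Crest.Agent.R017.MnU939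

open Crest.Agent.R012 Crest.Agent.R012.Eis
open Crest.Agent.R012.LS2 (S mem_S)
open Crest.Agent.R017.Sx545 (Sm)
open Crest.Agent.R017.CM106 (FS)
open Crest.Agent.R017.C70
open Crest.Agent.R017.HP842 (alL)
open Crest.Agent.R017.FE47 (cx PU SM)
open Crest.Agent.R017.E5k54 (alb)
open Crest.Agent.R017.E2440 (TE)
open Crest.Agent.R017.E5B71
open Crest.Agent.R017.XT71 (Sys Win)
open Crest.Agent.R017.B770 (DPar)
open Crest.Agent.R017.Prov71
open Crest.Agent.R017.E4352 (PrI Dat4)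
open Crest.Agent.R017.E4v5 (HM5)
open Crest.Agent.R017.E4K164 (dc dc_spec jc_ne_zero)
open Crest.Agent.R017.E4D164 hiding E4L
open Crest.Agent.R017.E5P571 (Gd mem_Gd)
open Crest.Agent.R017.E5L770
open Crest.Agent.R017.E5LX770 (SqLX)
open Crest.Agent.R017.ExP960 hiding alX
open Crest.Agent.R017.E4U164
open Crest.Agent.R017.E4Df372
open Crest.Agent.R017.E4ap783 (mtr PG)
open Crest.Agent.R017.E4P939 (TS TS_nonneg polar_ELe)
open Crest.Agent.R017.MnR939 (ET mn1 mn2)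
open Crest.Agent.R017.E4Us512

/-- helper71's coordinates, with the level -/
def dnX (q : (Option IX5 → ℝ) × (Kd → ℝ)) : (Option (Fin 3 ⊕ Fin 5) → ℝ) × (Kd → ℝ) :=
  (fun o => q.1 (o.map Sum.inl), q.2)

lemma dnX_mem {A d β : ℝ} {q : (Option IX5 → ℝ) × (Kd → ℝ)} (h : q ∈ SqLX A d β) :
    dnX q ∈ SqL A d := by
  obtain ⟨h1, h2, h3⟩ := h
  exact ⟨h1.1, h2, h3⟩

variable {Λ : Type*} (π : Λ → DPar) (h : ℝ → ℝ)

/-- **the T-moment of the double difference at list level, loss `lo`, gain in the step `e₀`** -/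
def TSUXe (A d β lo e0 r : ℝ) (Bf : ℕ → ℝ → ℝ → ℝ → ℝ) (Jf : ℝ → ℝ → ℝ → Finset (Eis × Eis)) :
    Prop :=
  ∀ ε : ℝ, 0 < ε → ∃ δ : ℝ, 0 < δ ∧ ∀ (lam : Λ × Eis) (N : ℕ) (B : ℝ), ¬ (π lam.1).CaseD →
    ∃ δ' : ℝ, 0 < δ' ∧ ∃ X₀ : ℝ, 1 < X₀ ∧ ∀ X : ℝ, X₀ ≤ X →
    ∀ (a : BdX × ℕ) (ps : List Pq) (q : (Option IX5 → ℝ) × (Kd → ℝ)),
      FrLX A d β δ δ' B X N a ps q → a.1.ok → lam.2 ∈ SM (π lam.1).n → a.1.okP (π lam.1) →
    ∀ b ∈ T3 (Bf a.2) a.1.toBd r, ∀ e₀ ∈ S (Real.exp (e0 * a.1.l)),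
      4 * Real.log (nm e₀) ≤ (low5 (prX (dn q.1)) - q.1 none + d) * Real.log X →
      TS (J3 Jf a.1.toBd a.2) (fun x => ‖omL a.2 x‖ *
        ‖TE (E4Df372.alX (π lam.1) h lam.2 a.1 b) x e₀‖) ≤
        X ^ (ET (dnX q) + lo + ε) / ((nm (∏ i, b i) : ℝ) * nm e₀)

lemma alX_sqf {P : DPar} {t : Eis} {a : BdX} {b : Fin 3 → Eis} {n : Eis}
    (hn : E4Df372.alX P h t a b n ≠ 0) : Squarefree n := by
  unfold E4Df372.alX at hn
  by_cases h1 : alb (f3 P h t a.toBd) b n = 0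
  · by_cases h2 : alb (f3' P h t a) b n = 0
    · refine absurd ?_ hn
      show _ * alb (f3 P h t a.toBd) b n + _ * alb (f3' P h t a) b n = 0
      rw [h1, h2, mul_zero, mul_zero, add_zero]
    · exact alb_sqf h2
  · exact alb_sqf h1

section frame

variable {A d β δ δ' B X : ℝ} {N : ℕ} {a : BdX × ℕ} {ps : List Pq}
  {q : (Option IX5 → ℝ) × (Kd → ℝ)}

lemma toX {y c X : ℝ} (hX : 1 < X) (h1 : |y / Real.log X - c| ≤ δ) :
    |y - c * Real.log X| ≤ δ * Real.log X := by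
  have hL := Real.log_pos hX
  have h2 := mul_le_mul_of_nonneg_right h1 hL.le
  rw [← abs_of_pos hL, ← abs_mul, abs_of_pos hL, sub_mul, div_mul_cancel₀ _ hL.ne'] at h2
  exact h2

lemma FrLX_l (h : FrLX A d β δ δ' B X N a ps q) (hX : 1 < X) :
    |a.1.l - cκ (prX (dn q.1)) * Real.log X| ≤ δ * Real.log X :=
  toX hX (h.win.ev (some (.inl (.inl 0))))

lemma FrLX_u (h : FrLX A d β δ δ' B X N a ps q) (hX : 1 < X) (i : Fin 5) :
    |(a.1.us i).z - cu (prX (dn q.1)) i * Real.log X| ≤ δ * Real.log X :=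
  toX hX (h.win.ev (some (.inl (.inr i))))

lemma FrLX_v (h : FrLX A d β δ δ' B X N a ps q) (hX : 1 < X) :
    |Real.log 2 * a.2 - q.1 none * Real.log X| ≤ δ * Real.log X :=
  toX hX (h.win.ev none)

lemma FrLX_am (h : FrLX A d β δ δ' B X N a ps q) (hX : 1 < X) :
    |lam' ps - q.2 .am * Real.log X| ≤ δ * Real.log X := by
  have h1 := h.mass .am
  rw [← sum_filter_mass] at h1
  exact toX hX h1

lemma FrLX_mo (h : FrLX A d β δ δ' B X N a ps q) (hX : 1 < X) :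
    |lmo a.1.toBd ps - (cM (prX (dn q.1)) + q.2 .mo) * Real.log X| ≤ 3 * δ * Real.log X := by
  have h1 := h.mass .mo
  rw [← sum_filter_mass] at h1
  have h2 := toX hX h1
  have h3 := FrLX_u h hX 0
  have h4 := FrLX_u h hX 1
  have e : lmo a.1.toBd ps = (a.1.us 0).z + ((a.1.us 1).z +
      ((ps.filter fun p => p.kd = Kd.mo).map fun p => p.z).sum) := by
    unfold lmo bs2 moL
    rw [List.map_cons, List.map_cons, List.sum_cons, List.sum_cons]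
  have e2 : cM (prX (dn q.1)) = cu (prX (dn q.1)) 0 + cu (prX (dn q.1)) 1 := rfl
  rw [abs_le] at h2 h3 h4 ⊢
  rw [e, e2]
  constructor <;> nlinarith [h2.1, h2.2, h3.1, h3.2, h4.1, h4.2]

lemma FrLX_mono {δ₁ : ℝ} (h : FrLX A d β δ δ' B X N a ps q) (hX : 1 ≤ X)
    (hδ : δ ≤ δ₁) : FrLX A d β δ₁ δ' B X N a ps q :=
  { h with
    lum := fun p hp => (h.lum p hp).imp id fun h1 => h1.trans hδ
    win := h.win.mono hX hδ le_rfl le_rfl le_rfl
    mass := fun t => (h.mass t).trans hδ }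

end frame

/-- **a side is `≤ C X^ε`**, any list -/
theorem cw_list {h : ℝ → ℝ} {c : ℝ} (hh : PU h c) {P : DPar} (hP : P.OK) (N : ℕ) {B : ℝ}
    (hB : 0 ≤ B) {ε : ℝ} (hε : 0 < ε) : ∃ C X₀ : ℝ, 1 ≤ C ∧ 1 < X₀ ∧ ∀ X : ℝ, X₀ ≤ X →
    ∀ (qs : List Pq), qs.length ≤ N + 2 → lz qs ≤ B * Real.log X → ∀ (t₀ n : Eis),
      ‖alL h (qs.map (Pt P t₀)) n‖ ≤ C * X ^ ε := by
  obtain ⟨R, H, hR0, hH1, hR, hH⟩ := bdd_PU hh
  set K : ℝ := ((N + 2 : ℕ) : ℝ) with hK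
  have hK0 : 0 < K := by rw [hK]; exact_mod_cast (by omega : 0 < N + 2)
  obtain ⟨C, hC1, hτ⟩ := Div277.tau_le_rpow (show 0 < ε / ((B + 1) * K) by positivity)
  have hER := Real.one_le_exp hR0
  refine ⟨(H * C) ^ (N + 2), 1 + Real.exp R ^ (N + 2),
    one_le_pow₀ (one_le_mul_of_one_le_of_one_le hH1 hC1), by
      have : 1 ≤ Real.exp R ^ (N + 2) := one_le_pow₀ hER
      linarith, ?_⟩
  intro X hX qs hq hz t₀ n
  have hX1 : 1 < X := by
    have : 1 ≤ Real.exp R ^ (N + 2) := one_le_pow₀ hER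
    linarith
  have hX0 : 0 < X := by linarith
  have h0 : 0 ≤ (H * C) ^ (N + 2) * X ^ ε := by positivity
  by_cases hn0 : alL h (qs.map (Pt P t₀)) n = 0
  · rw [hn0, norm_zero]; exact h0
  have hs := sz_side hP hR0 hR hH1 hH t₀ hq
  have hnp := hs.prim n hn0
  have hnY : (nm n : ℝ) ≤ X ^ (B + 1) := by
    calc (nm n : ℝ) ≤ Real.exp R ^ (N + 2) * Real.exp (lz qs) := hs.le n hn0
      _ ≤ X * X ^ B := by
          refine mul_le_mul (by linarith) ?_ (Real.exp_pos _).le hX0.le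
          rw [Real.rpow_def_of_pos hX0, mul_comm]
          exact Real.exp_le_exp.2 hz
      _ = X ^ (B + 1) := by rw [Real.rpow_add hX0, Real.rpow_one, mul_comm]
  have h1 := alL_tau (ps := qs.map (Pt P t₀)) hH (fun p hp => by
    obtain ⟨q, -, rfl⟩ := List.mem_map.1 hp
    exact ok_Pt P t₀ hP q) hnp.ne_zero
  rw [List.length_map, ← mul_pow] at h1
  have h3 : (Div277.tau n : ℝ) ≤ C * X ^ (ε / K) := by
    refine (hτ n hnp.ne_zero).trans ?_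
    have h4 : (nm n : ℝ) ^ (ε / ((B + 1) * K)) ≤ (X ^ (B + 1)) ^ (ε / ((B + 1) * K)) := by gcongr
    have h5 : (X ^ (B + 1)) ^ (ε / ((B + 1) * K)) = X ^ (ε / K) := by
      rw [← Real.rpow_mul hX0.le]
      congr 1
      field_simp
    rw [h5] at h4
    gcongr
  have h6 : 1 ≤ H * (C * X ^ (ε / K)) := by
    have : 1 ≤ X ^ (ε / K) := Real.one_le_rpow hX1.le (by positivity)
    exact one_le_mul_of_one_le_of_one_le hH1 (one_le_mul_of_one_le_of_one_le hC1 this)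
  calc ‖alL h (qs.map (Pt P t₀)) n‖ ≤ (H * Div277.tau n) ^ qs.length := h1
    _ ≤ (H * (C * X ^ (ε / K))) ^ qs.length := by gcongr
    _ ≤ (H * (C * X ^ (ε / K))) ^ (N + 2) := pow_le_pow_right₀ h6 hq
    _ = (H * C) ^ (N + 2) * X ^ ε := by
        have : (X ^ (ε / K)) ^ (N + 2) = X ^ ε := by
          rw [← Real.rpow_natCast, ← Real.rpow_mul hX0.le]
          congr 1
          rw [← hK]
          field_simp
        rw [← mul_assoc, mul_pow, this]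

variable {π h}

set_option maxHeartbeats 1600000 in
/-- **`MnUX` from the T-moment** -/
theorem mnUX_of_TSUXe {c A d β μ lo e0 r : ℝ} {Bf : ℕ → ℝ → ℝ → ℝ → ℝ}
    {Jf : ℝ → ℝ → ℝ → Finset (Eis × Eis)} (hh : PU h c) (hP : ∀ lam, (π lam).OK)
    (hA : 2 / 3 ≤ A) (hA1 : A ≤ 1) (hAd : 16 * (1 - A) ≤ d) (hd1 : d ≤ 1 / 8)
    (hμ : lo / 2 + μ ≤ 4 / 9 * d) (hJf : ∀ l N z, OKJ (Jf l N z))
    (hT : TSUXe π h A d β lo e0 r Bf Jf) : MnUX π h (7 / 8 + d) A d β μ e0 r Bf Jf := by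
  intro ε hε
  have hd : 0 ≤ d := by linarith
  obtain ⟨δ₁, hδ₁, HT⟩ := hT (ε / 8) (by positivity)
  set δ : ℝ := min δ₁ (min (1 / 2) (ε / 16)) with hδdef
  have hδ0 : 0 < δ := lt_min hδ₁ (lt_min (by norm_num) (by positivity))
  have hδ1 : δ ≤ δ₁ := min_le_left _ _
  have hδ2 : δ ≤ 1 / 2 := (min_le_right _ _).trans (min_le_left _ _)
  have hδ5 : δ ≤ ε / 16 := (min_le_right _ _).trans (min_le_right _ _)
  refine ⟨ε, hε, le_rfl, δ, hδ0, ?_⟩
  intro lam N B R Pm hR hD hPm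
  obtain ⟨δ', hδ', X₁, hX₁, HT⟩ := HT lam N B hD
  obtain ⟨A₀, C₀, X₂, hA₀, hC₀, hX₂, H4⟩ := dt_dat4X (h := h) hh d β hA e0 r hJf lam
    (hP lam.1) N B ε R hR
  obtain ⟨A₁, X₃, hA₁, hX₃, HS⟩ := dt_sizesX (h := h) hh d β hA e0 r hJf lam (hP lam.1) N B R
  obtain ⟨C₂, X₄, hC₂, hX₄, HC⟩ := cw_list (h := h) hh (hP lam.1) N (B := 8) (by norm_num)
    (ε := ε / 32) (by positivity)
  obtain ⟨Rh, H, hRh0, hH1, hRh, hH⟩ := bdd_PU hh
  set B₁ : ℝ := max B 4 with hB₁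
  have hB3 : 4 ≤ B₁ := le_max_right _ _
  have hBB : B ≤ B₁ := le_max_left _ _
  set A' : ℝ := 2 * A₀ + A₁ + B₁ + 1 with hA'
  have hA'0 : 0 < A' := by linarith
  obtain ⟨C, hC, HP⟩ := polar_ELe (ε := ε / (16 * A')) (by positivity)
  set CL : ℝ := (Real.exp Rh ^ N) ^ 2 * Real.exp Rh ^ (N + 2) with hCL
  have hCL1 : 1 ≤ CL := by
    have := Real.one_le_exp hRh0
    exact one_le_mul_of_one_le_of_one_le (one_le_pow₀ (one_le_pow₀ this)) (one_le_pow₀ this)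
  set K1 : ℝ := CL * 2 with hK1
  refine ⟨δ', hδ', max (max X₁ (max X₂ (max X₃ X₄))) (max 2 ((max 1 (2 * (C * R ^ (4 / 3 : ℝ) *
    (C₂ * C₂) * K1))) ^ (1 / (ε / 2)))), ?_, ?_⟩
  · exact lt_max_of_lt_left (lt_max_of_lt_left hX₁)
  intro X hX a ps q hF ha hS haP x hx hxl hne hhE j h₁ h₂ m hm T₀ hT₀
  have g1 : X₁ ≤ X := (le_max_left _ _).trans ((le_max_left _ _).trans hX)
  have g2 : X₂ ≤ X := (le_max_left _ _).trans ((le_max_right _ _).trans ((le_max_left _ _).trans hX))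
  have g3 : X₃ ≤ X := (le_max_left _ _).trans ((le_max_right _ _).trans
    ((le_max_right _ _).trans ((le_max_left _ _).trans hX)))
  have g4 : X₄ ≤ X := (le_max_right _ _).trans ((le_max_right _ _).trans
    ((le_max_right _ _).trans ((le_max_left _ _).trans hX)))
  have g5 : 2 ≤ X := (le_max_left _ _).trans ((le_max_right _ _).trans hX)
  have g6 : (max 1 (2 * (C * R ^ (4 / 3 : ℝ) * (C₂ * C₂) * K1))) ^ (1 / (ε / 2)) ≤ X :=
    (le_max_right _ _).trans ((le_max_right _ _).trans hX)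
  have hX1 : 1 < X := by linarith
  have hX0 : 0 < X := by linarith
  have hL : 0 < Real.log X := Real.log_pos hX1
  set P := π lam.1 with hPd
  have hsq : dnX q ∈ SqL A d := dnX_mem hF.dom
  have hFX := fr_of_frLX hA hδ2 hX1 hF ha haP hBB hB3
  have hFr := hFX.fr
  have hJ := okJ3 hJf a.1.toBd a.2
  obtain ⟨⟨-, hRe, -, -, hl0⟩, H4⟩ := H4 X g2 δ δ' ε hδ2 le_rfl (Bf a.2) a ps q hF ha haP
  obtain ⟨H4a, -, -, -, H4b, H4c⟩ := H4 x hx j h₁ h₂
  obtain ⟨-, -, HSn, -, -, -, -, -⟩ := HS X g3 δ δ' hδ2 (Bf a.2) a ps q hF ha haP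
  have hTS := HT X g1 a ps q (FrLX_mono hF hX1.le hδ1) ha hS haP x.β hx.β x.e₀ hx.e₀ (by first | exact hxl | exact hxl.1)
  -- numbers
  set κ := cκ (prX (dn q.1)) with hκ
  have nl := (abs_le.mp (FrLX_l hF hX1)).2
  have nv := (abs_le.mp (FrLX_v hF hX1)).2
  have nam := (abs_le.mp (FrLX_am hF hX1)).2
  have nmo := (abs_le.mp (FrLX_mo hF hX1)).2
  have hSq : Sq5 A d (prX (dn q.1)) q.2 := hsq.1
  have hκ1 : κ ≤ 1 := hSq.κ1
  have hβ0 : (0 : ℝ) < nm (∏ i, x.β i) := by exact_mod_cast nm_pos.mpr (T3_prim _ hx.β).ne_zero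
  have he₀ := (mem_S (Real.exp_pos _).le).mp hx.e₀
  have he₀0 : (0 : ℝ) < nm x.e₀ := by exact_mod_cast nm_pos.mpr he₀.2.1.ne_zero
  have hg := (mem_Gd ha.base.2.2).mp hx.g
  have hEp : IsPrim (x.E a.1.toBd) := haP.1.1.mul (T3_prim _ hx.β)
  have ht := (mem_Gd (tS_prim hEp).ne_zero).mp hx.t
  have hXA : ∀ {y z : ℝ}, y ≤ z → X ^ y ≤ X ^ z := fun hyz =>
    Real.rpow_le_rpow_of_exponent_le hX1.le hyz
  have hY : (X ^ A') ^ (ε / (16 * A')) = X ^ (ε / 16) := by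
    rw [← Real.rpow_mul hX0.le]
    congr 1
    field_simp
  -- supports of the two sides
  have hb₁ : Sz (b1 P h lam.2 ps) (Real.exp Rh ^ N * Real.exp (lz (amL ps)))
      ((100 * Real.exp Rh * H) ^ N * Real.exp (lz (amL ps))) :=
    sz_side (hP _) hRh0 hRh hH1 hH lam.2 ((len_am ps).trans hF.len)
  have hb₂ : Sz (b2X P h lam.2 a.1 ps j) (Real.exp Rh ^ (N + 2) * Real.exp (lz (bsX a.1 ps j)))
      ((100 * Real.exp Rh * H) ^ (N + 2) * Real.exp (lz (bsX a.1 ps j))) :=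
    sz_side (hP _) hRh0 hRh hH1 hH lam.2 ((len_bsX a.1 ps j).trans (Nat.add_le_add_right hF.len 2))
  obtain ⟨c1, c2, -⟩ := cu_le hA hSq.toNr5
  have hlam8 : lz (amL ps) ≤ 8 * Real.log X := by
    have h3 := c2 .am
    rw [← lam_eq]
    have h5 : q.2 .am * Real.log X ≤ 4 * Real.log X :=
      mul_le_mul_of_nonneg_right (by linarith) hL.le
    have h6 : 3 * δ * Real.log X ≤ 2 * Real.log X :=
      mul_le_mul_of_nonneg_right (by linarith) hL.le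
    linarith
  have hlmo8 : lz (bs2 a.1.toBd ps) ≤ 8 * Real.log X := by
    have h3 := c2 .mo
    have h4 : cM (prX (dn q.1)) ≤ 8 / 3 := by
      have e2 : cM (prX (dn q.1)) = cu (prX (dn q.1)) 0 + cu (prX (dn q.1)) 1 := rfl
      rw [e2]; linarith [c1 0, c1 1]
    rw [← lmo_eq]
    have h5 : (cM (prX (dn q.1)) + q.2 .mo) * Real.log X ≤ 4 * Real.log X :=
      mul_le_mul_of_nonneg_right (by linarith) hL.le
    have h6 : 3 * δ * Real.log X ≤ 2 * Real.log X :=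
      mul_le_mul_of_nonneg_right (by linarith) hL.le
    linarith
  have HCw : ∀ n m, ‖b1 P h lam.2 ps n‖ * ‖b2X P h lam.2 a.1 ps j m‖ ≤
      (C₂ * C₂) * X ^ (ε / 16) := by
    intro n m
    have h3 := HC X g4 (amL ps) ((len_am ps).trans (hF.len.trans (Nat.le_add_right _ _))) hlam8
      lam.2 n
    have h4 := HC X g4 (bsX a.1 ps j) ((len_bsX a.1 ps j).trans (Nat.add_le_add_right hF.len 2))
      ((lz_bsX ha ps j).le.trans hlmo8) lam.2 m
    have h5 : X ^ (ε / 16) = X ^ (ε / 32) * X ^ (ε / 32) := by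
      rw [← Real.rpow_add hX0]
      congr 1; ring
    calc ‖b1 P h lam.2 ps n‖ * ‖b2X P h lam.2 a.1 ps j m‖
        ≤ (C₂ * X ^ (ε / 32)) * (C₂ * X ^ (ε / 32)) :=
          mul_le_mul h3 h4 (norm_nonneg _) (by positivity)
      _ = _ := by rw [h5]; ring
  set Λ₀ : ℝ := CL * Real.exp (2 * lam' ps + lmo a.1.toBd ps) with hΛ₀
  have hΛ0 : 0 < Λ₀ := by positivity
  have hΛ : ∀ n m, b1 P h lam.2 ps n ≠ 0 → b2X P h lam.2 a.1 ps j m ≠ 0 →
      (nm n : ℝ) ^ 2 * nm m ≤ Λ₀ := by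
    intro n m hn hm
    have k1 := hb₁.le n hn
    have k2 := hb₂.le m hm
    calc (nm n : ℝ) ^ 2 * nm m ≤ (Real.exp Rh ^ N * Real.exp (lz (amL ps))) ^ 2 *
          (Real.exp Rh ^ (N + 2) * Real.exp (lz (bsX a.1 ps j))) := by gcongr
      _ = Λ₀ := by
          rw [hΛ₀, hCL, show 2 * lam' ps + lmo a.1.toBd ps = lz (amL ps) + lz (amL ps) +
            lz (bsX a.1 ps j) by rw [lam_eq, lmo_eq, lz_bsX ha]; ring, Real.exp_add, Real.exp_add]
          ring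
  set V : ℝ := 2 * 2 ^ a.2 with hV
  have hV0 : 0 < V := by positivity
  have hVJ : ∀ y ∈ J3 Jf a.1.toBd a.2, (nm y.2 : ℝ) * nm y.1 ^ 2 ≤ V := by
    intro y hy
    have h3 := mem_J3_le hy (mul_ne_zero (jc_ne_zero (hJ.jc y hy))
      (pow_ne_zero 2 (hJ.prim y hy).ne_zero))
    rw [nm_mul, nm_pow] at h3
    push_cast at h3
    exact h3
  have hVX : V ≤ X ^ (B₁ + 1) := by
    have h3 : (2 : ℝ) ^ a.2 ≤ X ^ B₁ := by
      have h4 := exp_le_rpow hX0 hFr.lv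
      rwa [mul_comm, Real.exp_nat_mul, Real.exp_log (by norm_num)] at h4
    rw [hV, add_comm B₁ 1, Real.rpow_add hX0, Real.rpow_one]
    exact mul_le_mul g5 h3 (by positivity) hX0.le
  have hVv : V ≤ 2 * X ^ (q.1 none + δ) := by
    have h3 : (2 : ℝ) ^ a.2 ≤ X ^ (q.1 none + δ) := by
      have h4 := exp_le_rpow (x := Real.log 2 * a.2) (y := q.1 none + δ) hX0 (by linarith)
      rwa [mul_comm, Real.exp_nat_mul, Real.exp_log (by norm_num)] at h4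
    rw [hV]
    linarith
  have hΛX : Λ₀ ≤ CL * X ^ (2 * q.2 .am + (cM (prX (dn q.1)) + q.2 .mo) + 5 * δ) := by
    rw [hΛ₀]
    refine mul_le_mul_of_nonneg_left (exp_le_rpow hX0 ?_) (by linarith)
    linarith
  -- the sizes of the outer parameters
  set Q : Finset Eis := (x.I Jf (bl a)).image Prod.fst with hQ
  have hIQ : x.I Jf (bl a) ⊆ Q ×ˢ J3 Jf a.1.toBd a.2 := by
    intro i hi
    exact Finset.mem_product.mpr ⟨Finset.mem_image_of_mem _ hi, (Dt.mem_I.mp hi).1.2⟩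
  have hQp : ∀ q' ∈ Q, IsPrim q' ∧ (nm (sS x.g x.e₀ x.t q') : ℝ) ≤ X ^ A₀ := by
    intro q' hq'
    obtain ⟨i, hi, rfl⟩ := Finset.mem_image.mp hq'
    exact ⟨(hx.Q _ (Dt.mem_I.mp hi).1.1).1.1, H4c i hi⟩
  have hSν : ∀ i ∈ x.I Jf (bl a), (nm (jS (sS x.g x.e₀ x.t) i *
      (dc (jJ (sS x.g x.e₀ x.t) i)).2.2) : ℝ) ≤ X ^ A' := by
    intro i hi
    have hiJ : i.2 ∈ J3 Jf a.1.toBd a.2 := (Dt.mem_I.mp hi).1.2
    have hj := hJ.jc _ hiJ
    have hs : IsPrim (sS x.g x.e₀ x.t i.1) := (c3_sS hx ha.base haP (Dt.mem_I.mp hi).1.1).1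
    obtain ⟨k1, -⟩ := E5b54.stj_spec hs hj
    have k2 : (nm (dc (jJ (sS x.g x.e₀ x.t) i)).2.2 : ℝ) ≤ nm (jJ (sS x.g x.e₀ x.t) i) := by
      exact_mod_cast nm_nu' k1
    have k3 : (nm (jJ (sS x.g x.e₀ x.t) i) : ℝ) ≤ nm i.2.2 * nm (sS x.g x.e₀ x.t i.1) := by
      exact_mod_cast nm_stj hs hj
    have k4 : (nm i.2.2 : ℝ) ≤ V := by
      have h5 := hVJ _ hiJ
      have h6 : (1 : ℝ) ≤ nm i.2.1 := by
        exact_mod_cast nm_pos.mpr (hJ.prim _ hiJ).ne_zero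
      have h7 : (0 : ℝ) ≤ nm i.2.2 := Nat.cast_nonneg _
      have h8 := mul_le_mul_of_nonneg_left (one_le_pow₀ h6 (n := 2)) h7
      linarith
    have k5 := H4c i hi
    rw [nm_mul]
    push_cast
    have k6 : (0 : ℝ) ≤ nm (sS x.g x.e₀ x.t i.1) := Nat.cast_nonneg _
    calc (nm (sS x.g x.e₀ x.t i.1) : ℝ) * nm (dc (jJ (sS x.g x.e₀ x.t) i)).2.2
        ≤ X ^ A₀ * (X ^ (B₁ + 1) * X ^ A₀) := by
          refine mul_le_mul k5 (k2.trans (k3.trans ?_)) (Nat.cast_nonneg _) (by positivity)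
          exact mul_le_mul (k4.trans hVX) k5 k6 (by positivity)
      _ = X ^ (A₀ + (B₁ + 1 + A₀)) := by rw [Real.rpow_add hX0 A₀, Real.rpow_add hX0 (B₁ + 1)]
      _ ≤ X ^ A' := hXA (by rw [hA']; linarith)
  have hnm : ∀ n m, b1 P h lam.2 ps n ≠ 0 → b2X P h lam.2 a.1 ps j m ≠ 0 →
      (nm (n * m ^ 2) : ℝ) ≤ X ^ A' := by
    intro n m hn hm
    have h3 := HSn j n m hn hm
    have h4 : ((nm (n * m ^ 2) : ℕ) : ℝ) ≤ (⌊X ^ A₁⌋₊ : ℝ) := by exact_mod_cast h3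
    exact h4.trans ((Nat.floor_le (by positivity)).trans (hXA (by rw [hA']; linarith)))
  have hfin := HP P.n₃ (fN P.n₃ (x.E a.1.toBd)) (psE P.n₃ (fun k => conj (P.χ₃ k)) (x.E a.1.toBd))
    P.l₃ Q x.g x.e₀ x.t (J3 Jf a.1.toBd a.2) (x.I Jf (bl a)) x.ph (omL a.2)
    (E4Df372.alX P h lam.2 a.1 x.β) x.c₀
    x.g' x.z (b1 P h lam.2 ps) (b2X P h lam.2 a.1 ps j) h₁ h₂ (X ^ A') (R * Real.exp a.1.l) T₀ V Λ₀
    (C₂ * C₂ * X ^ (ε / 16)) (hc_psE (hP lam.1).χ₃.conj hEp) (fM_spec (hP lam.1).χ₃.q0 hEp).2.1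
    (H4b.trans (hXA (by rw [hA']; linarith))) hx.g' hx.z (fun q' hq' => (hQp q' hq').1) hg.1.1
    he₀.2.1 ht.1.1 (fun q' hq' => (hQp q' hq').2.trans (hXA (by rw [hA']; linarith))) hJ hIQ
    hx.ph hV0.le hVJ hSν (by positivity) hΛ0.le (by positivity) HCw hnm hΛ
    (dat4_mono H4a (hXA (by rw [hA']; linarith)))
    (fun hs => TS_zero (fun n hn => alX_sqf _ hn) hs _ _) 0 m (hPm m hm)
  refine E4P939.HM5.mono hfin ?_
  rw [hY]
  have hrt := sqrt_TS hX0 hβ0 he₀0 hTS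
  have hΛ1 : Λ₀ ^ (1 / 3 : ℝ) * V ^ (1 / 3 : ℝ) ≤
      K1 * X ^ ((2 * q.2 .am + (cM (prX (dn q.1)) + q.2 .mo)) / 3 + q.1 none / 3 + 3 * δ) := by
    have k1 := pow_bd hX0 hCL1 hΛ0.le hΛX (t := 1 / 3) (by norm_num) (by norm_num)
    have k2 := pow_bd hX0 one_le_two hV0.le hVv (t := 1 / 3) (by norm_num) (by norm_num)
    refine (mul_le_mul k1 k2 (by positivity) (by positivity)).trans ?_
    rw [hK1, mul_mul_mul_comm, ← Real.rpow_add hX0]
    exact mul_le_mul_of_nonneg_left (hXA (by linarith)) (by positivity)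
  have hΛ2 : Λ₀ ^ (5 / 12 : ℝ) * V ^ (1 / 12 : ℝ) ≤
      K1 * X ^ (5 / 12 * (2 * q.2 .am + (cM (prX (dn q.1)) + q.2 .mo)) + q.1 none / 12 +
        3 * δ) := by
    have k1 := pow_bd hX0 hCL1 hΛ0.le hΛX (t := 5 / 12) (by norm_num) (by norm_num)
    have k2 := pow_bd hX0 one_le_two hV0.le hVv (t := 1 / 12) (by norm_num) (by norm_num)
    refine (mul_le_mul k1 k2 (by positivity) (by positivity)).trans ?_
    rw [hK1, mul_mul_mul_comm, ← Real.rpow_add hX0]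
    exact mul_le_mul_of_nonneg_left (hXA (by linarith)) (by positivity)
  refine fin_real (κ := κ) (δ := δ) (E := ET (dnX q)) (d := d) (lo := lo) hX1 hC.le hR
    (by linarith) (by positivity) he₀0 (Real.sqrt_nonneg _) hrt (by positivity) (by positivity)
    (by positivity) (by positivity) (by positivity) hΛ1 hΛ2 (by positivity) hδ0.le hδ5 ?_ ?_ hμ
    (const_le (by positivity) g6)
  · have h7 : 2 / 3 * κ + ET (dnX q) / 2 + (2 * q.2 .am + (cM (prX (dn q.1)) + q.2 .mo)) / 3 +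
        q.1 none / 3 + 4 / 9 * d ≤ T5 (7 / 8 + d) (prQ (dn q.1, q.2)) := mn1 hd hd1 hA1 hAd hsq
    linarith
  · have h7 : 2 / 3 * κ + ET (dnX q) / 2 + 5 / 12 * (2 * q.2 .am + (cM (prX (dn q.1)) +
        q.2 .mo)) + q.1 none / 12 + 4 / 9 * d ≤ T5 (7 / 8 + d) (prQ (dn q.1, q.2)) :=
      mn2 hd hd1 hA1 hAd hsq
    linarith

end Crest.Agent.R017.MnU939
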