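import Crest.Agent.R017.E4Pt_783
import Crest.Agent.R017.MnX_939

/-!
# Row 17, C70/E4, exceptional class: **PrUX** (helper783)

* `pr_real` : the real inequality of the principal numbers
* **`prUX_of_TSUXe`** : `PrUX` of helper372's `E4Xc_372` from helper939's `TSUXe`
-/

set_option autoImplicit false
set_option linter.unusedVariables false

noncomputable section

open Finset
open scoped ComplexConjugate

namespace Crest.Agent.R017.E4Pn783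

open Crest.Agent.R012 Crest.Agent.R012.Eis
open Crest.Agent.R012.Mob705 (pp mem_pp exists_pp_dvd isPrim_eq_one_of_isUnit)
open Crest.Agent.R012.Div277
open Crest.Agent.R012.LS2 (S mem_S)
open Crest.Agent.R017.Sx545 (Sm)
open Crest.Agent.R017.CM106 (FS)
open Crest.Agent.R017.C70
open Crest.Agent.R017.HP842 (alL)
open Crest.Agent.R017.FE47 (cx PU SM)
open Crest.Agent.R017.E2440 (TE)
open Crest.Agent.R017.E5B71
open Crest.Agent.R017.XT71 (Sys Win)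
open Crest.Agent.R017.B770 (DPar)
open Crest.Agent.R017.Prov71
open Crest.Agent.R017.E4352 (PrI Dat4)
open Crest.Agent.R017.E4K164 (dc dc_spec jc_ne_zero)
open Crest.Agent.R017.DgA829 (lc lc_prim lc_dvd)
open Crest.Agent.R017.E4D164 hiding E4L
open Crest.Agent.R017.E5P571 (Gd mem_Gd)
open Crest.Agent.R017.E5L770
open Crest.Agent.R017.E5LX770 (SqLX)
open Crest.Agent.R017.ExP960 hiding alX
open Crest.Agent.R017.E4U164
open Crest.Agent.R017.E4Df372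
open Crest.Agent.R017.E4ap783 (MpY)
open Crest.Agent.R017.E4X266 (Mq1)
open Crest.Agent.R017.E4P939 (TS TS_nonneg)
open Crest.Agent.R017.MnR939 (ET)
open Crest.Agent.R017.MnU939
open Crest.Agent.R017.E4Us512 hiding nSm nEm
open Crest.Agent.R017.EnX743 (Cls SF2 exists_SF2 pP TSd)

/-! ### the class of the data -/

/-- the class numbers of the data -/
def mD (x : Dt) (a b : ℕ) : ℕ := if h : a < 2 ∧ b < 3 then x.m ⟨a, h.1⟩ ⟨b, h.2⟩ else 0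

lemma nSm_mD (x : Dt) : EnX743.nSm (mD x) = x.nS := by
  unfold EnX743.nSm Dt.nS
  rw [Fin.sum_univ_three, Fin.sum_univ_three]
  rfl

lemma nEm_mD (x : Dt) : EnX743.nEm (mD x) = x.nE := rfl

lemma pS_pP (a : Fin 2) (b : Fin 3) (s j : Eis) : pS a b s j = pP (a : ℕ) (b : ℕ) s j := by
  classical
  unfold pS EnX743.pP EnX743.pA
  congr

variable {Λ : Type*}

/-- the index set of the data is one class -/
lemma cls_D {π : Λ → DPar} {lam : Λ × Eis} {Jf : ℝ → ℝ → ℝ → Finset (Eis × Eis)}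
    {a : Bd × ℕ} {x : Dt} {Bf : ℝ → ℝ → ℝ → ℝ} {e0 r ε X : ℝ}
    (hx : x.OK (π lam.1) Bf e0 r ε X a.1) (ha : a.1.ok) (haP : a.1.okP (π lam.1)) :
    Cls (J3 Jf a.1 a.2) (x.I Jf a) (sS x.g x.e₀ x.t) (mD x) where
  J i hi := (Dt.mem_I.mp hi).1.2
  sf i hi := by
    obtain ⟨⟨h1, -⟩, -⟩ := Dt.mem_I.mp hi
    obtain ⟨q1, q2, q3, -⟩ := hx.Q _ h1
    obtain ⟨g1, g2, g3⟩ := (mem_Gd ha.2.2).mp hx.g
    have hE : IsPrim (x.E a.1) := haP.1.1.mul (T3_prim _ hx.β)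
    obtain ⟨t1, t2, -⟩ := (mem_Gd (tS_prim hE).ne_zero).mp hx.t
    obtain ⟨-, e1, e2⟩ := (mem_S (Real.exp_pos _).le).mp hx.e₀
    exact exists_SF2 q1.1 q2 g1.1 g2 (q3.of_isCoprime_of_dvd_right g3) e1 e2 t1.1 t2
  lo i hi b hb c hc := by
    have h := ((Dt.mem_I.mp hi).2 ⟨b, hb⟩ ⟨c, hc⟩).1
    rw [pS_pP] at h
    unfold mD
    rw [dif_pos ⟨hb, hc⟩]
    exact h
  hi i hi b hb c hc := by
    have h := ((Dt.mem_I.mp hi).2 ⟨b, hb⟩ ⟨c, hc⟩).2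
    rw [pS_pP] at h
    unfold mD
    rw [dif_pos ⟨hb, hc⟩]
    exact h

/-- `N(e₀)` against the class -/
lemma e0_le {J : Finset (Eis × Eis)} {I : Finset (Eis × (Eis × Eis))} {m : ℕ → ℕ → ℕ}
    {g e₀ t : Eis} (hJ : OKJ J) (hC : Cls J I (sS g e₀ t) m) (hI : I.Nonempty)
    (hg : IsPrim g) (he : IsPrim e₀) (hes : Squarefree e₀) (ht : IsPrim t) :
    (nm e₀ : ℝ) ≤ (2 : ℝ) ^ (m 0 0 + m 0 1 + m 0 2 + m 1 0 + m 1 1 + m 1 2 + 6) := by
  obtain ⟨i, hi⟩ := hI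
  obtain ⟨F', hF⟩ := hC.sf i hi
  have hj := hJ.jc _ (hC.J i hi)
  have hq2 : IsPrim (i.1 ^ 2 * g) := (hF.q.pow 2).mul hg
  have h1 : e₀ ∣ sS g e₀ t i.1 := by
    unfold sS sE
    have k1 := ((lc_dvd hq2 he (lc (i.1 ^ 2 * g) e₀)).mp dvd_rfl).2
    have k2 := ((lc_dvd (lc_prim hq2 he) ht (lc (lc (i.1 ^ 2 * g) e₀) t)).mp dvd_rfl).1
    exact k1.trans k2
  have h2 : e₀ ∣ (i.1 * F') ^ 2 := by
    refine h1.trans ?_
    rw [hF.S]
    exact ⟨F', by ring⟩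
  have h3 : e₀ ∣ i.1 * F' := (hes.dvd_pow_iff_dvd (by norm_num)).mp h2
  have h4 := nm_le_of_dvd (hF.q.mul hF.F).ne_zero h3
  have hh := hC.hi i hi
  have a0 := (hh 0 (by norm_num) 0 (by norm_num)).le
  have a1 := (hh 0 (by norm_num) 1 (by norm_num)).le
  have a2 := (hh 0 (by norm_num) 2 (by norm_num)).le
  have b0 := (hh 1 (by norm_num) 0 (by norm_num)).le
  have b1 := (hh 1 (by norm_num) 1 (by norm_num)).le
  have b2 := (hh 1 (by norm_num) 2 (by norm_num)).le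
  have e2 : nm (i.1 * F') ≤ 2 ^ (m 0 0 + m 0 1 + m 0 2 + m 1 0 + m 1 1 + m 1 2 + 6) := by
    rw [nm_mul, EnX743.nm_q hF hj, EnX743.nm_F hF hj]
    calc _ ≤ (2 ^ (m 1 0 + 1) * 2 ^ (m 1 1 + 1) * 2 ^ (m 1 2 + 1)) *
          (2 ^ (m 0 0 + 1) * 2 ^ (m 0 1 + 1) * 2 ^ (m 0 2 + 1)) :=
          Nat.mul_le_mul (Nat.mul_le_mul (Nat.mul_le_mul b0 b1) b2)
            (Nat.mul_le_mul (Nat.mul_le_mul a0 a1) a2)
      _ = _ := by rw [← pow_add, ← pow_add, ← pow_add, ← pow_add, ← pow_add]; congr 1; ring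
  exact_mod_cast h4.trans e2

/-! ### the real inequality -/

lemma t5_ge {θ : ℝ} (hθ : 7 / 8 ≤ θ) (p : Fin 3 ⊕ Fin 5 → ℝ) (w : Kd → ℝ) :
    cκ p + (cN p + cM p + w .mo + w .am) / 2 ≤ T5 θ (p, w) := by
  unfold T5 Cone59.Tg
  simp only
  have := le_max_left ((cκ p - 1) + (cN p + cM p + w .mo - (2 - 2 * (1 / 3))) / 2 +
    (w .am - 1 / 3) / 2) (max ((cκ p - 1) / 2 + 3 / 4 * (cN p + cM p + w .mo - (2 - 2 * (1 / 3))) +
      1 / 4 * (w .am - 1 / 3)) ((cκ p - 1) / 6 + θ * (cN p + cM p + w .mo - (2 - 2 * (1 / 3))) +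
      θ * (w .am - 1 / 3)))
  linarith

/-- **the real inequality** -/
theorem pr_real {A d θ e0 δ : ℝ} (hA : 19 / 20 ≤ A) (hθ : 7 / 8 ≤ θ) (he : e0 ≤ 1 / 8)
    (he0 : 0 ≤ e0) (hδ : 0 ≤ δ)
    {q : (Option (Fin 3 ⊕ Fin 5) → ℝ) × (Kd → ℝ)} (h : q ∈ SqL A d)
    (hU : q.1 none + q.2 .am + 2 * (cM (dn q.1) + q.2 .mo) ≤ 2 * cκ (dn q.1) + 10 * δ) :
    2 / 3 * cκ (dn q.1) + 2 / 3 * q.2 .am + 1 / 3 * (cM (dn q.1) + q.2 .mo) + q.1 none / 6 +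
      ET q / 2 + 1 / 3 * (e0 * cκ (dn q.1)) + 1 / 50 ≤ T5 θ (dn q.1, q.2) + 2 * δ := by
  obtain ⟨hD, hv0, hv1⟩ := h
  have hN5 : Nr5 A (dn q.1) q.2 := (hD : Sq5 A d (dn q.1) q.2).toNr5
  have t1 := t5_ge hθ (dn q.1) q.2
  obtain ⟨a1, a2, a3, a4⟩ := hN5.anti
  have c0 := hN5.κ0
  have c1 := hN5.κ1
  have c2 := hN5.q
  have c3 := hN5.c
  have c4 := hN5.near
  have c5 := hN5.w0 .mo
  have eN : cN (dn q.1) = cu (dn q.1) 2 + cu (dn q.1) 3 + cu (dn q.1) 4 := rfl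
  have eM : cM (dn q.1) = cu (dn q.1) 0 + cu (dn q.1) 1 := rfl
  have hAκ : 19 / 20 * cκ (dn q.1) ≤ A * cκ (dn q.1) := mul_le_mul_of_nonneg_right hA (by linarith)
  have hMN : 2 / 3 * cN (dn q.1) ≤ cM (dn q.1) := by rw [eN, eM]; linarith
  have hNκ : 57 / 80 * cκ (dn q.1) ≤ cN (dn q.1) := by
    have : cu (dn q.1) 4 ≤ cN (dn q.1) / 3 := by rw [eN]; linarith
    linarith
  have hek : e0 * cκ (dn q.1) ≤ 1 / 8 * cκ (dn q.1) := mul_le_mul_of_nonneg_right he (by linarith)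
  unfold MnR939.ET
  rcases le_total (q.1 none - (2 * cN (dn q.1) - cκ (dn q.1))) 0 with h1 | h1
  · rw [max_eq_left h1]
    have hN8 : cN (dn q.1) ≤ 4 / 5 := by linarith
    linarith
  · rw [max_eq_right h1]
    linarith

variable {π : Λ → DPar} {h : ℝ → ℝ}

lemma tsd_le {J : Finset (Eis × Eis)} {om : Eis × Eis → ℂ} {α : Eis → ℂ} {e₀ : Eis} {Y : ℝ}
    (hY : ∀ y ∈ J, (tau y.2 : ℝ) ≤ Y) :
    TSd J om α e₀ 1 (fun y => (tau y.2 : ℝ)) ≤ Y * TS J (fun x => ‖om x‖ * ‖TE α x e₀‖) := by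
  classical
  unfold EnX743.TSd E4P939.TS
  have h0 : ∀ y : Eis × Eis, 0 ≤ (tau y.2 : ℝ) * ((nm y.2 : ℝ) ^ (-(1 : ℝ) / 3) *
      (‖om y‖ ^ 2 * ‖E2440.TE α y e₀‖ ^ 2)) := fun y => by positivity
  refine (sum_le_sum_of_subset_of_nonneg (filter_subset _ _) fun y _ _ => h0 y).trans ?_
  rw [mul_sum]
  refine sum_le_sum fun y hy => ?_
  have h1 : (nm y.2 : ℝ) ^ (-(1 : ℝ) / 3) = (nm y.2 : ℝ) ^ (-(1 / 3) : ℝ) := by
    congr 1
    ring
  rw [h1, mul_pow]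
  have h2 : 0 ≤ (nm y.2 : ℝ) ^ (-(1 / 3) : ℝ) * (‖om y‖ ^ 2 * ‖E2440.TE α y e₀‖ ^ 2) := by
    positivity
  calc _ ≤ Y * ((nm y.2 : ℝ) ^ (-(1 / 3) : ℝ) * (‖om y‖ ^ 2 * ‖E2440.TE α y e₀‖ ^ 2)) :=
        mul_le_mul_of_nonneg_right (hY y hy) h2
    _ = _ := by ring

lemma w6_le {ne W : ℝ} (hne : 0 < ne) (h : ne ≤ W * 64) (hW : 0 < W) :
    W ^ (-(1 / 6) : ℝ) ≤ 2 * ne ^ (-(1 / 6) : ℝ) := by
  have h1 : (W * 64) ^ (-(1 / 6) : ℝ) ≤ ne ^ (-(1 / 6) : ℝ) :=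
    Real.rpow_le_rpow_of_nonpos hne h (by norm_num)
  have h2 : (W * 64) ^ (-(1 / 6) : ℝ) = W ^ (-(1 / 6) : ℝ) * (1 / 2) := by
    rw [Real.mul_rpow hW.le (by norm_num), show (64 : ℝ) = 2 ^ (6 : ℝ) by norm_num,
      ← Real.rpow_mul (by norm_num)]
    congr 1
    rw [show (6 : ℝ) * -(1 / 6) = -1 by norm_num, Real.rpow_neg_one]
    norm_num
  rw [h2] at h1
  linarith

set_option maxHeartbeats 3200000 in
/-- **`PrUX` from the T-moment** -/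
theorem prUX_of_TSUXe {c A d β θ μ lo e0 r : ℝ} {Bf : ℕ → ℝ → ℝ → ℝ → ℝ}
    {Jf : ℝ → ℝ → ℝ → Finset (Eis × Eis)} (hh : PU h c) (hP : ∀ lam, (π lam).OK)
    (hA : 19 / 20 ≤ A) (hθ : 7 / 8 ≤ θ) (he0 : 0 ≤ e0) (he1 : e0 ≤ 1 / 8)
    (hμ : lo / 2 + μ ≤ 1 / 50) (hJf : ∀ l N z, OKJ (Jf l N z))
    (hT : TSUXe π h A d β lo e0 r Bf Jf) : PrUX π h θ A d β μ e0 r Bf Jf := by
  intro ε hε
  have hA' : 2 / 3 ≤ A := by linarith
  obtain ⟨δ₁, hδ₁, HT⟩ := hT (ε / 8) (by positivity)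
  set δ : ℝ := min δ₁ (min (1 / 2) (ε / 64)) with hδdef
  have hδ0 : 0 < δ := lt_min hδ₁ (lt_min (by norm_num) (by positivity))
  have hδ1 : δ ≤ δ₁ := min_le_left _ _
  have hδ2 : δ ≤ 1 / 2 := (min_le_right _ _).trans (min_le_left _ _)
  have hδ3 : δ ≤ ε / 64 := (min_le_right _ _).trans (min_le_right _ _)
  refine ⟨ε, hε, le_rfl, δ, hδ0, ?_⟩
  intro lam N B hD
  obtain ⟨δ', hδ', X₁, hX₁, HT⟩ := HT lam N B hD
  obtain ⟨A₀, C₀, X₂, hA₀, hC₀, hX₂, H4⟩ := dt_dat4X (h := h) hh d β hA' e0 r hJf lam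
    (hP lam.1) N B ε 1 one_pos
  set τ : ℝ := ε / 160 with hτ
  have hτ0 : 0 < τ := by positivity
  obtain ⟨C₂, X₄, hC₂, hX₄, HC⟩ := cw_list (h := h) hh (hP lam.1) N (B := 8) (by norm_num)
    (ε := τ) hτ0
  obtain ⟨Rh, H, hRh0, hH1, hRh, hH⟩ := bdd_PU hh
  set B₁ : ℝ := max B 4 with hB₁
  have hB3 : 4 ≤ B₁ := le_max_right _ _
  have hBB : B ≤ B₁ := le_max_left _ _
  set A' : ℝ := 2 * A₀ + 27 + B₁ with hA'def
  have hA'0 : 0 < A' := by linarith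
  obtain ⟨C₃, hC₃, hta⟩ := tau_le_rpow (show 0 < τ / A' by positivity)
  set K : ℝ := C₂ + C₃ + 100 * (1 + A' / τ) with hKdef
  have hAτ : 0 < A' / τ := by positivity
  have hK2 : C₂ ≤ K := by rw [hKdef]; linarith
  have hK3 : C₃ ≤ K := by rw [hKdef]; linarith
  have hK4 : 100 * (1 + A' / τ) ≤ K := by rw [hKdef]; linarith
  have hK1 : 1 ≤ K := hC₂.trans hK2
  set K₁ : ℝ := Real.exp Rh ^ (N + 2) with hK₁def
  have hK₁1 : 1 ≤ K₁ := one_le_pow₀ (Real.one_le_exp hRh0)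
  refine ⟨δ', hδ', max (max X₁ (max X₂ X₄)) (max (max 2 K₁)
    ((max 1 ((1 + C₀) * 2 ^ 18 * K ^ 10 * K₁ ^ 2)) ^ (1 / (ε / 2)))), ?_, ?_⟩
  · exact lt_max_of_lt_left (lt_max_of_lt_left hX₁)
  intro X hX a ps q hF ha hS haP x hx hxl hne hhE j h₁ h₂
  have g1 : X₁ ≤ X := (le_max_left _ _).trans ((le_max_left _ _).trans hX)
  have g2 : X₂ ≤ X := (le_max_left _ _).trans ((le_max_right _ _).trans ((le_max_left _ _).trans hX))
  have g4 : X₄ ≤ X :=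
    (le_max_right _ _).trans ((le_max_right _ _).trans ((le_max_left _ _).trans hX))
  have g5 : 2 ≤ X := (le_max_left _ _).trans ((le_max_left _ _).trans ((le_max_right _ _).trans hX))
  have g7 : K₁ ≤ X :=
    (le_max_right _ _).trans ((le_max_left _ _).trans ((le_max_right _ _).trans hX))
  have g6 : (max 1 ((1 + C₀) * 2 ^ 18 * K ^ 10 * K₁ ^ 2)) ^ (1 / (ε / 2)) ≤ X :=
    (le_max_right _ _).trans ((le_max_right _ _).trans hX)
  have hX1 : 1 < X := by linarith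
  have hX0 : 0 < X := by linarith
  have hL : 0 < Real.log X := Real.log_pos hX1
  set P := π lam.1 with hPd
  have hsq : dnX q ∈ SqL A d := dnX_mem hF.dom
  have hFX := fr_of_frLX hA' hδ2 hX1 hF ha haP hBB hB3
  have hFr := hFX.fr
  have hJ := okJ3 hJf a.1.toBd a.2
  obtain ⟨⟨-, -, -, -, hl0⟩, H4⟩ := H4 X g2 δ δ' ε hδ2 le_rfl (Bf a.2) a ps q hF ha haP
  obtain ⟨H4a, H4U, hU00, -, H4b, -⟩ := H4 x hx j h₁ h₂
  have hTS := HT X g1 a ps q (FrLX_mono hF hX1.le hδ1) ha hS haP x.β hx.β x.e₀ hx.e₀ hxl.1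
  -- numbers
  set κ := cκ (prX (dn q.1)) with hκ
  have nl := abs_le.mp (FrLX_l hF hX1)
  have nv := abs_le.mp (FrLX_v hF hX1)
  have nam := abs_le.mp (FrLX_am hF hX1)
  have nmo := abs_le.mp (FrLX_mo hF hX1)
  have hSq : Sq5 A d (prX (dn q.1)) q.2 := hsq.1
  have hκ1 : κ ≤ 1 := hSq.κ1
  have hβ0 : (0 : ℝ) < nm (∏ i, x.β i) := by exact_mod_cast nm_pos.mpr (T3_prim _ hx.β).ne_zero
  have he₀ := (mem_S (Real.exp_pos _).le).mp hx.e₀
  have he₀0 : (0 : ℝ) < nm x.e₀ := by exact_mod_cast nm_pos.mpr he₀.2.1.ne_zero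
  have hg := (mem_Gd ha.base.2.2).mp hx.g
  have hEp : IsPrim (x.E a.1.toBd) := haP.1.1.mul (T3_prim _ hx.β)
  have ht := (mem_Gd (tS_prim hEp).ne_zero).mp hx.t
  have hXA : ∀ {y z : ℝ}, y ≤ z → X ^ y ≤ X ^ z := fun hyz =>
    Real.rpow_le_rpow_of_exponent_le hX1.le hyz
  have hXτ : 1 ≤ X ^ τ := Real.one_le_rpow hX1.le hτ0.le
  -- supports of the two sides
  have hb₁ : Sz (b1 P h lam.2 ps) (Real.exp Rh ^ N * Real.exp (lz (amL ps)))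
      ((100 * Real.exp Rh * H) ^ N * Real.exp (lz (amL ps))) :=
    sz_side (hP _) hRh0 hRh hH1 hH lam.2 ((len_am ps).trans hF.len)
  have hb₂ : Sz (b2X P h lam.2 a.1 ps j) (Real.exp Rh ^ (N + 2) * Real.exp (lz (bsX a.1 ps j)))
      ((100 * Real.exp Rh * H) ^ (N + 2) * Real.exp (lz (bsX a.1 ps j))) :=
    sz_side (hP _) hRh0 hRh hH1 hH lam.2 ((len_bsX a.1 ps j).trans (Nat.add_le_add_right hF.len 2))
  obtain ⟨c1, c2, -⟩ := cu_le hA' hSq.toNr5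
  have hlam8 : lz (amL ps) ≤ 8 * Real.log X := by
    have h3 := c2 .am
    rw [← lam_eq]
    have h5 : q.2 .am * Real.log X ≤ 4 * Real.log X :=
      mul_le_mul_of_nonneg_right (by linarith) hL.le
    have h6 : 3 * δ * Real.log X ≤ 2 * Real.log X :=
      mul_le_mul_of_nonneg_right (by linarith) hL.le
    linarith [nam.2]
  have hlmo8 : lz (bs2 a.1.toBd ps) ≤ 8 * Real.log X := by
    have h3 := c2 .mo
    have h4 : cM (prX (dn q.1)) ≤ 8 / 3 := by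
      have e2 : cM (prX (dn q.1)) = cu (prX (dn q.1)) 0 + cu (prX (dn q.1)) 1 := rfl
      rw [e2]; linarith [c1 0, c1 1]
    rw [← lmo_eq]
    have h5 : (cM (prX (dn q.1)) + q.2 .mo) * Real.log X ≤ 4 * Real.log X :=
      mul_le_mul_of_nonneg_right (by linarith) hL.le
    have h6 : 3 * δ * Real.log X ≤ 2 * Real.log X :=
      mul_le_mul_of_nonneg_right (by linarith) hL.le
    linarith [nmo.2]
  set Y : ℝ := K * X ^ τ with hY
  have hY1 : 1 ≤ Y := one_le_mul_of_one_le_of_one_le hK1 hXτ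
  have hY0 : 0 ≤ Y := by linarith
  have HCw : ∀ n m, ‖b1 P h lam.2 ps n‖ * ‖b2X P h lam.2 a.1 ps j m‖ ≤ Y * Y := by
    intro n m
    have h3 := HC X g4 (amL ps) ((len_am ps).trans (hF.len.trans (Nat.le_add_right _ _))) hlam8
      lam.2 n
    have h4 := HC X g4 (bsX a.1 ps j) ((len_bsX a.1 ps j).trans (Nat.add_le_add_right hF.len 2))
      ((lz_bsX ha ps j).le.trans hlmo8) lam.2 m
    have h5 : C₂ * X ^ τ ≤ Y := mul_le_mul_of_nonneg_right hK2 (by positivity)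
    exact mul_le_mul (h3.trans h5) (h4.trans h5) (norm_nonneg _) hY0
  have htau : ∀ n : Eis, n ≠ 0 → (nm n : ℝ) ≤ X ^ A' → (tau n : ℝ) ≤ Y := by
    intro n hn hnX
    refine (hta n hn).trans ?_
    have h3 : (nm n : ℝ) ^ (τ / A') ≤ X ^ τ := by
      refine (Real.rpow_le_rpow (Nat.cast_nonneg _) hnX (by positivity)).trans (le_of_eq ?_)
      rw [← Real.rpow_mul hX0.le]
      congr 1
      field_simp
    exact mul_le_mul hK3 h3 (by positivity) (by linarith)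
  have hlog : ∀ n : ℕ, (n : ℝ) ≤ X ^ A' → 0 ≤ 100 * (1 + Real.log n) ∧
      100 * (1 + Real.log n) ≤ Y := by
    intro n hn
    obtain ⟨h1, h2⟩ := log_bd hτ0 hA'0.le hX1.le hn
    exact ⟨h1, h2.trans (mul_le_mul_of_nonneg_right hK4 (by positivity))⟩
  -- the lengths
  have hexpN : Real.exp Rh ^ N ≤ K₁ :=
    pow_le_pow_right₀ (Real.one_le_exp hRh0) (Nat.le_add_right _ _)
  set Lr : ℝ := Real.exp Rh ^ N * Real.exp (lz (amL ps)) with hLr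
  set Nr : ℝ := Real.exp Rh ^ (N + 2) * Real.exp (lz (bsX a.1 ps j)) with hNr
  have hLr0 : 0 ≤ Lr := by positivity
  have hNr0 : 0 ≤ Nr := by positivity
  have hLr1 : Lr ≤ K₁ * X ^ (q.2 .am + δ) := by
    refine mul_le_mul hexpN (exp_le_rpow hX0 ?_) (Real.exp_pos _).le (by linarith)
    rw [← lam_eq]
    linarith [nam.2]
  have hNr1 : Nr ≤ K₁ * X ^ (cM (prX (dn q.1)) + q.2 .mo + 3 * δ) := by
    refine mul_le_mul le_rfl (exp_le_rpow hX0 ?_) (Real.exp_pos _).le (by linarith)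
    rw [lz_bsX ha, ← lmo_eq]
    linarith [nmo.2]
  have hLr9 : Lr ≤ X ^ (9 : ℝ) := by
    calc Lr ≤ X * X ^ (8 : ℝ) := mul_le_mul (hexpN.trans g7) (exp_le_rpow hX0 hlam8)
          (Real.exp_pos _).le hX0.le
      _ = X ^ (9 : ℝ) := by
          rw [show (9 : ℝ) = 1 + 8 by norm_num, Real.rpow_add hX0, Real.rpow_one]
  have hNr9 : Nr ≤ X ^ (9 : ℝ) := by
    calc Nr ≤ X * X ^ (8 : ℝ) := mul_le_mul g7
          (exp_le_rpow hX0 ((lz_bsX ha ps j).le.trans hlmo8)) (Real.exp_pos _).le hX0.le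
      _ = X ^ (9 : ℝ) := by
          rw [show (9 : ℝ) = 1 + 8 by norm_num, Real.rpow_add hX0, Real.rpow_one]
  have hfl : ((⌊Lr⌋₊ : ℕ) : ℝ) ≤ Lr := Nat.floor_le hLr0
  have hfn : ((⌊Nr⌋₊ : ℕ) : ℝ) ≤ Nr := Nat.floor_le hNr0
  have hfv : ((⌊X ^ A₀⌋₊ : ℕ) : ℝ) ≤ X ^ A₀ := Nat.floor_le (by positivity)
  have h27 : ∀ l ∈ primBall ⌊Lr⌋₊, ∀ m ∈ primBall ⌊Nr⌋₊,
      IsPrim (l * m ^ 2) ∧ (nm (l * m ^ 2) : ℝ) ≤ X ^ (27 : ℝ) := by
    intro l hl m hm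
    obtain ⟨l1, l2⟩ := mem_primBall.mp hl
    obtain ⟨m1, m2⟩ := mem_primBall.mp hm
    refine ⟨l2.mul (m2.pow 2), ?_⟩
    have k1 : (nm l : ℝ) ≤ X ^ (9 : ℝ) :=
      (show (nm l : ℝ) ≤ (⌊Lr⌋₊ : ℕ) by exact_mod_cast l1).trans (hfl.trans hLr9)
    have k2 : (nm m : ℝ) ≤ X ^ (9 : ℝ) :=
      (show (nm m : ℝ) ≤ (⌊Nr⌋₊ : ℕ) by exact_mod_cast m1).trans (hfn.trans hNr9)
    rw [nm_mul, nm_pow]
    push_cast
    calc (nm l : ℝ) * (nm m : ℝ) ^ 2 ≤ X ^ (9 : ℝ) * (X ^ (9 : ℝ)) ^ 2 := by gcongr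
      _ = X ^ (27 : ℝ) := by
          rw [← Real.rpow_natCast, ← Real.rpow_mul hX0.le, ← Real.rpow_add hX0]
          norm_num
  have hnx : ∀ y ∈ primBall ⌊X ^ A₀⌋₊, IsPrim y ∧ (nm y : ℝ) ≤ X ^ A₀ := by
    intro y hy
    obtain ⟨y1, y2⟩ := mem_primBall.mp hy
    exact ⟨y2, (show (nm y : ℝ) ≤ (⌊X ^ A₀⌋₊ : ℕ) by exact_mod_cast y1).trans hfv⟩
  have hfp : IsPrim (fN P.n₃ (x.E a.1.toBd)) := (fM_spec (hP lam.1).χ₃.q0 hEp).2.1.1
  -- the level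
  have hVJ : ∀ y ∈ J3 Jf a.1.toBd a.2, (nm y.2 : ℝ) ≤ X ^ A' ∧ y.2 ≠ 0 := by
    intro y hy
    have h0 := jc_ne_zero (hJ.jc y hy)
    have h3 := mem_J3_le hy (mul_ne_zero h0 (pow_ne_zero 2 (hJ.prim y hy).ne_zero))
    rw [nm_mul, nm_pow] at h3
    push_cast at h3
    have h6 : (1 : ℝ) ≤ nm y.1 := by exact_mod_cast nm_pos.mpr (hJ.prim _ hy).ne_zero
    have h7 : (0 : ℝ) ≤ nm y.2 := Nat.cast_nonneg _
    have h8 := mul_le_mul_of_nonneg_left (one_le_pow₀ h6 (n := 2)) h7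
    have h9 : (2 : ℝ) ^ a.2 ≤ X ^ B₁ := by
      have h4 := exp_le_rpow hX0 hFr.lv
      rwa [mul_comm, Real.exp_nat_mul, Real.exp_log (by norm_num)] at h4
    refine ⟨?_, h0⟩
    calc (nm y.2 : ℝ) ≤ 2 * 2 ^ a.2 := by linarith
      _ ≤ X * X ^ B₁ := mul_le_mul g5 h9 (by positivity) hX0.le
      _ = X ^ (1 + B₁) := by rw [Real.rpow_add hX0, Real.rpow_one]
      _ ≤ X ^ A' := hXA (by rw [hA'def]; linarith)
  -- the scale
  set u₀ : ℝ := U0 P (bl a) ps x with hu₀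
  obtain ⟨hhe, hlu⟩ : hE P a ps x = (2 * a.1.l - Real.log u₀) / 3 ∧ Real.log u₀ < 2 * a.1.l := by
    unfold E4Df372.hE at hhE ⊢
    have h1 : 0 < (2 * a.1.l - Real.log u₀) / 3 := by
      by_contra h2
      rw [max_eq_left (not_lt.mp h2)] at hhE
      exact lt_irrefl _ hhE
    exact ⟨max_eq_right h1.le, by linarith⟩
  have hKU : Real.exp (hE P a ps x) * (C₀ * u₀) ≤ C₀ ^ 3 * Real.exp a.1.l ^ 2 := by
    have h1 : Real.exp (hE P a ps x) * u₀ ≤ Real.exp a.1.l ^ 2 := by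
      calc Real.exp (hE P a ps x) * u₀ = Real.exp (hE P a ps x + Real.log u₀) := by
            rw [Real.exp_add, Real.exp_log hU00]
        _ ≤ Real.exp (a.1.l + a.1.l) := Real.exp_le_exp.2 (by rw [hhe]; linarith)
        _ = _ := by rw [Real.exp_add, sq]
    have h2 : C₀ ≤ C₀ ^ 3 := le_self_pow₀ hC₀ (by norm_num)
    calc Real.exp (hE P a ps x) * (C₀ * u₀) = C₀ * (Real.exp (hE P a ps x) * u₀) := by ring
      _ ≤ _ := mul_le_mul h2 h1 (by positivity) (by positivity)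
  have hUr : q.1 none + q.2 .am + 2 * (cM (prX (dn q.1)) + q.2 .mo) ≤ 2 * κ + 10 * δ := by
    have h1 : Real.log 2 * a.2 + (lam' ps + 2 * lmo a.1.toBd ps) ≤ Real.log u₀ := by
      rw [Real.le_log_iff_exp_le hU00, Real.exp_add, mul_comm (Real.log 2), Real.exp_nat_mul,
        Real.exp_log (by norm_num)]
      rw [hu₀]
      unfold U0
      have h2 : (1 : ℝ) ≤ nm (fN P.n₃ (x.E a.1.toBd)) := by
        exact_mod_cast nm_pos.mpr hfp.ne_zero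
      have h3 : (1 : ℝ) ≤ 8 ^ x.nS / 8 ^ x.nE := by
        rw [le_div_iff₀ (by positivity), one_mul]
        refine pow_le_pow_right₀ (by norm_num) ?_
        unfold Dt.nS Dt.nE
        rw [Fin.sum_univ_three, Fin.sum_univ_three]
        omega
      have h4 : (0 : ℝ) < 2 ^ a.2 * Real.exp (lam' ps + 2 * lmo a.1.toBd ps) := by positivity
      show (2 : ℝ) ^ a.2 * Real.exp (lam' ps + 2 * lmo a.1.toBd ps) ≤
        nm (fN P.n₃ (x.E a.1.toBd)) * 2 ^ a.2 * 8 ^ x.nS / 8 ^ x.nE *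
          Real.exp (lam' ps + 2 * lmo a.1.toBd ps)
      calc _ = 1 * 1 * ((2 : ℝ) ^ a.2 * Real.exp (lam' ps + 2 * lmo a.1.toBd ps)) := by ring
        _ ≤ (nm (fN P.n₃ (x.E a.1.toBd)) : ℝ) * (8 ^ x.nS / 8 ^ x.nE) *
            ((2 : ℝ) ^ a.2 * Real.exp (lam' ps + 2 * lmo a.1.toBd ps)) := by gcongr
        _ = _ := by ring
    have h2 : (q.1 none + q.2 .am + 2 * (cM (prX (dn q.1)) + q.2 .mo)) * Real.log X ≤
        (2 * κ + 10 * δ) * Real.log X := by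
      linarith [nv.1, nam.1, nmo.1, nl.2]
    exact le_of_mul_le_mul_right h2 hL
  -- the principal number
  refine (E4Pq783.mpY_le H4a (Real.one_le_exp hl0) (by positivity) H4U (by linarith) hKU).trans ?_
  have hmq := mq1_sum (J := J3 Jf a.1.toBd a.2) (I := x.I Jf (bl a)) (m := mD x) (g := x.g)
    (e₀ := x.e₀) (t := x.t) hJ (cls_D (a := bl a) hx ha.base haP) (hP lam.1).χ₃.conj P.l₃
    (V₁ := 2 ^ 27 * (2 * 2 ^ a.2 * 8 ^ EnX743.nSm (mD x) / 8 ^ EnX743.nEm (mD x)))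
    (by positivity) (by
      rw [nSm_mD, nEm_mD]
      exact dt_V (a := bl a) hJ hx ha.base haP) (om := omL a.2) hx.ph hEp
    (α := E4Df372.alX P h lam.2 a.1 x.β) (c₀ := x.c₀) hx.g'.1 hx.z
    (b₁ := b1 P h lam.2 ps) (b₂ := b2X P h lam.2 a.1 ps j)
    (F := h₁.fin.toFinset ×ˢ h₂.fin.toFinset) (fun p hp => by
      rw [mem_product, Set.Finite.mem_toFinset, Set.Finite.mem_toFinset] at hp
      exact ⟨hp.1, hp.2⟩) (V := ⌊X ^ A₀⌋₊) (L := ⌊Lr⌋₊) (N := ⌊Nr⌋₊) (Z := ⌊X ^ A₀⌋₊)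
    (B := Y * Y) (T := Y) (K := Real.exp a.1.l) (by positivity) (Real.exp_pos _).le
    (fun n hn => hb₁.mem hn) (fun n hn => hb₂.mem hn) HCw
    (fun o y hy => Nat.le_floor (H4a.vx o y hy).2)
    (fun o => by
      refine Nat.le_floor ?_
      have h3 := (H4a.lam1 o).2
      have h4 := (H4a.lam1 o).1
      unfold lD at h3 h4
      rw [nm_mul] at h3 h4
      push_cast at h3 h4
      have h5 : (1 : ℝ) ≤ nm o.1.1 := by
        have h6 : nm o.1.1 ≠ 0 := by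
          intro h7
          rw [h7] at h4
          norm_num at h4
        exact_mod_cast Nat.one_le_iff_ne_zero.mpr h6
      have h6 : (0 : ℝ) ≤ nm o.1.2 := Nat.cast_nonneg _
      calc (nm o.1.2 : ℝ) = 1 * nm o.1.2 := (one_mul _).symm
        _ ≤ nm o.1.1 * nm o.1.2 := mul_le_mul_of_nonneg_right h5 h6
        _ ≤ _ := h3)
    (fun l hl m hm => htau _ (h27 l hl m hm).1.ne_zero ((h27 l hl m hm).2.trans
      (hXA (by rw [hA'def]; linarith))))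
    (fun y hy l hl m hm => by
      refine htau _ ((hfp.mul (hnx y hy).1).mul (h27 l hl m hm).1).ne_zero ?_
      rw [nm_mul, nm_mul]
      push_cast
      calc (nm (fN P.n₃ (x.E a.1.toBd)) : ℝ) * nm y * nm (l * m ^ 2) ≤
            X ^ A₀ * X ^ A₀ * X ^ (27 : ℝ) :=
            mul_le_mul (mul_le_mul H4b (hnx y hy).2 (Nat.cast_nonneg _) (by positivity))
              (h27 l hl m hm).2 (Nat.cast_nonneg _) (by positivity)
        _ = X ^ (A₀ + A₀ + 27) := by rw [Real.rpow_add hX0, Real.rpow_add hX0]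
        _ ≤ X ^ A' := hXA (by rw [hA'def]; linarith))
    (fun y hy => by
      refine htau _ (hfp.mul (hnx y hy).1).ne_zero ?_
      rw [nm_mul]
      push_cast
      calc (nm (fN P.n₃ (x.E a.1.toBd)) : ℝ) * nm y ≤ X ^ A₀ * X ^ A₀ :=
            mul_le_mul H4b (hnx y hy).2 (Nat.cast_nonneg _) (by positivity)
        _ = X ^ (A₀ + A₀) := by rw [Real.rpow_add hX0]
        _ ≤ X ^ A' := hXA (by rw [hA'def]; linarith))
  have hSn : (∑ o : x.O π lam Jf (bl a), (Real.exp a.1.l / lD o) ^ (4 / 3 : ℝ) *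
      Mq1 (cD o) 1 (vE π h lam Jf a x o) (wE π h lam Jf a ps x j h₁ h₂ o)) ≤ _ := hmq
  set TD : ℝ := TSd (J3 Jf a.1.toBd a.2) (omL a.2) (E4Df372.alX P h lam.2 a.1 x.β) x.e₀ 1
    (fun y => (tau y.2 : ℝ)) with hTD
  set Sv : ℝ := TS (J3 Jf a.1.toBd a.2) (fun y => ‖omL a.2 y‖ *
    ‖TE (E4Df372.alX P h lam.2 a.1 x.β) y x.e₀‖) with hSv
  have hTD0 : 0 ≤ TD := by
    rw [hTD]
    unfold EnX743.TSd
    exact Finset.sum_nonneg fun y _ => by positivity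
  have hTDS : TD ≤ Y * Sv := tsd_le fun y hy => htau _ (hVJ y hy).2 (hVJ y hy).1
  have lL := hlog ⌊Lr⌋₊ (hfl.trans (hLr9.trans (hXA (by rw [hA'def]; linarith))))
  have lN := hlog ⌊Nr⌋₊ (hfn.trans (hNr9.trans (hXA (by rw [hA'def]; linarith))))
  have lV := hlog ⌊X ^ A₀⌋₊ (hfv.trans (hXA (by rw [hA'def]; linarith)))
  have two := two_pow (mD x) a.2 lV.1 hTD0
  set W : ℝ := (2 : ℝ) ^ (mD x 0 0 + mD x 0 1 + mD x 0 2 + mD x 1 0 + mD x 1 1 + mD x 1 2) with hW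
  have hW0 : 0 < W := by positivity
  have hch := hSn.trans (chain1 (Real.rpow_nonneg (Real.exp_pos _).le _) hY1 (by positivity)
    lL.1 lL.2 lN.1 lN.2 lV.2 lV.2 (by positivity) hTDS (by positivity) (by positivity) two)
  refine (mul_le_mul_of_nonneg_left hch (by linarith)).trans ?_
  have hrt : Real.sqrt Sv ≤ X ^ ((ET (dnX q) + lo) / 2 + ε / 16) /
      ((nm (∏ i, x.β i) : ℝ) * nm x.e₀) ^ (1 / 2 : ℝ) := by
    refine (Real.sqrt_le_sqrt hTS).trans (le_of_eq ?_)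
    rw [Real.sqrt_eq_rpow, Real.div_rpow (by positivity) (by positivity), ← Real.rpow_mul hX0.le]
    congr 2
    ring
  have hWe : (nm x.e₀ : ℝ) ≤ W * 64 := by
    have h1 := e0_le hJ (cls_D (a := bl a) hx ha.base haP) hne hg.1.1 he₀.2.1 he₀.2.2 ht.1.1
    rw [pow_add] at h1
    rw [hW]
    norm_num at h1 ⊢
    linarith
  have hVv : (2 : ℝ) ^ a.2 ≤ X ^ (q.1 none + δ) := by
    have h4 := exp_le_rpow (x := Real.log 2 * a.2) (y := q.1 none + δ) hX0 (by linarith [nv.2])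
    rwa [mul_comm, Real.exp_nat_mul, Real.exp_log (by norm_num)] at h4
  have hne' : (nm x.e₀ : ℝ) ≤ X ^ (e0 * (κ + δ)) := by
    refine he₀.1.trans (exp_le_rpow hX0 ?_)
    have h3 : a.1.l ≤ (κ + δ) * Real.log X := by linarith [nl.2]
    calc e0 * a.1.l ≤ e0 * ((κ + δ) * Real.log X) := mul_le_mul_of_nonneg_left h3 he0
      _ = _ := by ring
  have hpr := pr_real (q := dnX q) hA hθ he1 he0 hδ0.le hsq hUr
  have hpr' : 2 / 3 * κ + 2 / 3 * q.2 .am + 1 / 3 * (cM (prX (dn q.1)) + q.2 .mo) +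
      q.1 none / 6 + ET (dnX q) / 2 + 1 / 3 * (e0 * κ) + 1 / 50 ≤
      T5 θ (prQ (dn q.1, q.2)) + 2 * δ := hpr
  have hed : e0 * δ ≤ 1 / 8 * δ := mul_le_mul_of_nonneg_right he1 hδ0.le
  have hfin := chain2 (X := X) (K := K) (K₁ := K₁) (C₀ := C₀) (τ := τ) (ε := ε) (l := a.1.l)
    (L := ((⌊Lr⌋₊ : ℕ) : ℝ)) (N := ((⌊Nr⌋₊ : ℕ) : ℝ)) (V₂ := (2 : ℝ) ^ a.2)
    (W6 := W ^ (-(1 / 6) : ℝ)) (ne := nm x.e₀) (nb := nm (∏ i, x.β i)) (sS := Real.sqrt Sv)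
    (a0 := κ + δ) (a1 := q.2 .am + δ) (a2 := cM (prX (dn q.1)) + q.2 .mo + 3 * δ)
    (a3 := q.1 none + δ) (a4 := e0 * (κ + δ)) (a5 := (ET (dnX q) + lo) / 2 + ε / 16)
    (E := T5 θ (prQ (dn q.1, q.2)) - μ + ε) hX1 hK1 hK₁1 (by linarith)
    (exp_le_rpow hX0 (by linarith [nl.2])) (Nat.cast_nonneg _) (hfl.trans hLr1) (Nat.cast_nonneg _)
    (hfn.trans hNr1) (by positivity) hVv he₀0 hne' (by positivity) (w6_le he₀0 hWe hW0) hβ0
    (Real.sqrt_nonneg _) hrt (const_le (by positivity) g6) (by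
      rw [hτ]
      linarith)
  exact hfin

end Crest.Agent.R017.E4Pn783
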