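import Crest.Agent.R017.E4ay_783
import Crest.Agent.R017.E4Cy_266

/-!
# Row 17, C70/E4, exceptional class, principal numbers: only the dual mass matters (helper266)

(helper974 #28000 (4)) If `e^h U ≤ C³ K²` and `N(f x y) lam² ≤ U` on the supports, then
`e^{h/3} (K/lam)^{2/3} Mq0 ≤ C (K/lam)^{4/3} Mq1`.
-/

set_option autoImplicit false

noncomputable section

open Complex

namespace Crest.Agent.R017.E4X266

open Crest.Agent.R012 Crest.Agent.R012.Eis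
open Crest.Agent.R017.Sx545 (Sm)
open Crest.Agent.R017.E4352 (Dat4 SSm)
open Crest.Agent.R017.E4ap783 (MpY)
open Crest.Agent.R017.E4Pr266 (cr cr_nonneg)

/-- finite form of a double sum -/
lemma mass_fin {M : Eis} {v w : Eis → ℂ} (hv : SSm M v) (hw : SSm M w) (a : Eis → ℝ)
    (H : Eis → Eis → ℝ) :
    ∑' x : Eis, (‖v x‖ * a x) * ∑' y : Eis, ‖w y‖ * H x y =
      ∑ x ∈ hv.fin.toFinset, ∑ y ∈ hw.fin.toFinset, (‖v x‖ * a x) * (‖w y‖ * H x y) := by
  rw [tsum_eq_sum (s := hv.fin.toFinset)]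
  · refine Finset.sum_congr rfl fun x _ => ?_
    rw [← Finset.mul_sum]
    congr 1
    refine tsum_eq_sum fun y hy => ?_
    have : w y = 0 := by
      by_contra h
      exact hy (hw.fin.mem_toFinset.mpr h)
    rw [this, norm_zero, zero_mul]
  · intro x hx
    have : v x = 0 := by
      by_contra h
      exact hx (hv.fin.mem_toFinset.mpr h)
    rw [this, norm_zero, zero_mul, zero_mul]

/-- one outer index -/
lemma mq0_le {M f c : Eis} {v w : Eis → ℂ} (hf : IsPrim f) (hv : SSm M v) (hw : SSm M w)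
    {K lam U h C : ℝ} (hK : 0 < K) (hlam : 0 < lam) (hC : 0 ≤ C)
    (hU : ∀ x y, v x ≠ 0 → w y ≠ 0 → (nm (f * x * y) : ℝ) * lam ^ 2 ≤ U)
    (hh : Real.exp h * U ≤ C ^ 3 * K ^ 2) :
    Real.exp (h / 3) * ((K / lam) ^ (2 / 3 : ℝ) * Mq0 c f v w) ≤
      C * ((K / lam) ^ (4 / 3 : ℝ) * Mq1 c f v w) := by
  unfold Mq0 Mq1
  rw [mass_fin hv hw (fun x => g6 c x) (fun x y => cr (f * x * y)),
    mass_fin hv hw (fun x => g6 c x) (fun x y => cr (f * x * y) *
      (nm (f * x * y) : ℝ) ^ (-(1 / 3) : ℝ))]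
  simp only [Finset.mul_sum]
  refine Finset.sum_le_sum fun x hx => Finset.sum_le_sum fun y hy => ?_
  have hx' : v x ≠ 0 := hv.fin.mem_toFinset.mp hx
  have hy' : w y ≠ 0 := hw.fin.mem_toFinset.mp hy
  have h1 := hU x y hx' hy'
  have hcr := cr_nonneg (f * x * y)
  have hg := g6_nonneg c x
  set n : ℝ := (nm (f * x * y) : ℝ) with hn
  have hn0 : 0 < n := by
    rw [hn]
    exact_mod_cast nm_pos.mpr (mul_ne_zero (mul_ne_zero hf.ne_zero (hv.sm x hx').ne_zero)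
      (hw.sm y hy').ne_zero)
  set L : ℝ := K / lam with hL
  have hL0 : 0 < L := by positivity
  -- `e^h n ≤ C³ L²`
  have h2 : Real.exp h * n ≤ C ^ 3 * L ^ 2 := by
    rw [hL, div_pow, mul_div_assoc', le_div_iff₀ (by positivity)]
    calc Real.exp h * n * lam ^ 2 = Real.exp h * (n * lam ^ 2) := by ring
      _ ≤ Real.exp h * U := mul_le_mul_of_nonneg_left h1 (Real.exp_pos _).le
      _ ≤ _ := hh
  have h3 : Real.exp (h / 3) * n ^ (1 / 3 : ℝ) ≤ C * L ^ (2 / 3 : ℝ) := by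
    have h4 := Real.rpow_le_rpow (by positivity) h2 (by norm_num : (0 : ℝ) ≤ 1 / 3)
    rw [Real.mul_rpow (Real.exp_pos _).le hn0.le, ← Real.exp_mul,
      Real.mul_rpow (by positivity) (by positivity), ← Real.rpow_natCast C 3,
      ← Real.rpow_mul hC, ← Real.rpow_natCast L 2, ← Real.rpow_mul hL0.le] at h4
    norm_num at h4
    rw [show h / 3 = h * (1 / 3) by ring]
    norm_num
    exact h4
  have h5 : Real.exp (h / 3) * L ^ (2 / 3 : ℝ) ≤
      C * (L ^ (4 / 3 : ℝ) * n ^ (-(1 / 3) : ℝ)) := by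
    have e1 : L ^ (4 / 3 : ℝ) = L ^ (2 / 3 : ℝ) * L ^ (2 / 3 : ℝ) := by
      rw [← Real.rpow_add hL0]; norm_num
    have e2 : n ^ (1 / 3 : ℝ) * n ^ (-(1 / 3) : ℝ) = 1 := by
      rw [← Real.rpow_add hn0]; norm_num
    calc Real.exp (h / 3) * L ^ (2 / 3 : ℝ) =
          (Real.exp (h / 3) * n ^ (1 / 3 : ℝ)) * (L ^ (2 / 3 : ℝ) * n ^ (-(1 / 3) : ℝ)) := by
          calc _ = Real.exp (h / 3) * L ^ (2 / 3 : ℝ) * (n ^ (1 / 3 : ℝ) *
                n ^ (-(1 / 3) : ℝ)) := by rw [e2, mul_one]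
            _ = _ := by ring
      _ ≤ (C * L ^ (2 / 3 : ℝ)) * (L ^ (2 / 3 : ℝ) * n ^ (-(1 / 3) : ℝ)) :=
          mul_le_mul_of_nonneg_right h3 (by positivity)
      _ = _ := by rw [e1]; ring
  calc Real.exp (h / 3) * (L ^ (2 / 3 : ℝ) * (‖v x‖ * g6 c x * (‖w y‖ * cr (f * x * y)))) =
        (Real.exp (h / 3) * L ^ (2 / 3 : ℝ)) * (‖v x‖ * g6 c x * (‖w y‖ * cr (f * x * y))) := by
        ring
    _ ≤ (C * (L ^ (4 / 3 : ℝ) * n ^ (-(1 / 3) : ℝ))) *
        (‖v x‖ * g6 c x * (‖w y‖ * cr (f * x * y))) :=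
        mul_le_mul_of_nonneg_right h5 (by positivity)
    _ = _ := by ring

/-- **the principal numbers are bounded by the dual masses** -/
theorem mpY_le {M f : Eis} {O : Type} [Fintype O] {c : O → Eis} {lam : O → ℝ}
    {v w : O → Eis → ℂ} {X K U h C : ℝ} (hD : Dat4 M f lam v w X) (hK : 0 < K) (hC : 0 ≤ C)
    (hU : ∀ o x y, v o x ≠ 0 → w o y ≠ 0 → (nm (f * x * y) : ℝ) * lam o ^ 2 ≤ U)
    (hh : Real.exp h * U ≤ C ^ 3 * K ^ 2) :
    MpY f c lam v w K h ≤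
      (1 + C) * ∑ o, (K / lam o) ^ (4 / 3 : ℝ) * Mq1 (c o) f (v o) (w o) := by
  unfold MpY
  rw [add_mul, one_mul]
  refine add_le_add le_rfl ?_
  rw [Finset.mul_sum, Finset.mul_sum]
  exact Finset.sum_le_sum fun o _ => mq0_le hD.hf.1.prim (hD.hv o) (hD.hw o) hK
    (by linarith [(hD.lam1 o).1]) hC (hU o) hh

end Crest.Agent.R017.E4X266
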