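import Crest.Agent.R017.E4RGc_858

/-!
# Row 17, C70/E4 version 7, regrouping by local types (helper858)

* `JP0`, `JP` : joint block hypothesis at fixed parts, before / after Cauchy
* `JB_of_JP0`, `JB_of_JP`
-/

set_option autoImplicit false

noncomputable section

open Complex
open scoped ComplexConjugate

namespace Crest.Agent.R017.E4RG858

open Crest.Agent.R012 Crest.Agent.R012.Eis Crest.Agent.R012.Mob705 Crest.Agent.R012.Div277
open Crest.Agent.R017.Sx545 Crest.Agent.R017.CM106 Crest.Agent.R017.C70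
open Crest.Agent.R017.E4352 Crest.Agent.R017.E4J352

variable {O : Type}

/-- weight of a prefix: count times Gauss ratio (primes of `e₀` cost no count) -/
def wP (P : Ty → Eis) : ℝ :=
  ∏ τ, (nm (P τ) : ℝ) ^ ((if tE τ then 0 else 1) - tRho τ)

/-- generic weight of a term -/
def w1 (lam : O → ℝ) (t : Tm O) : ℝ :=
  (nm (t.D1 * b1 t) : ℝ) ^ (-(1 / 2) : ℝ) * (lam t.o * nm t.k)⁻¹

/-- **joint block hypothesis at fixed parts**, before Cauchy -/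
def JP0 (M e₀ : Eis) (lam : O → ℝ) (v w : O → Eis → ℂ) (G : Eis → ℂ)
    (rng : Tm O → Prop) (S : ℝ) : Prop :=
  ∀ (c : Win) (P : Ty → Eis) (𝒥 : Finset (Tm O)),
    (∀ t ∈ 𝒥, t.OK M 1 ∧ t.val 1 lam v w G ≠ 0 ∧ t.In lam c ∧ rng t ∧ par e₀ t = P) →
    wP P * ∑ t ∈ 𝒥, (nm (t.D1 * b1 t) : ℝ) ^ (-(1 / 2) : ℝ) *
      ((lam t.o * nm t.k)⁻¹ * (‖t.xs v G‖ * ‖t.ys w G‖)) ≤ S

/-- **joint block hypothesis at fixed parts**, after Cauchy -/
def JP (M e₀ : Eis) (lam : O → ℝ) (v w : O → Eis → ℂ) (G : Eis → ℂ)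
    (rng : Tm O → Prop) (S : ℝ) : Prop :=
  ∀ (c : Win) (P : Ty → Eis) (𝒥 : Finset (Tm O)),
    (∀ t ∈ 𝒥, t.OK M 1 ∧ t.val 1 lam v w G ≠ 0 ∧ t.In lam c ∧ rng t ∧ par e₀ t = P) →
    wP P * (√(∑ t ∈ 𝒥, (nm (t.D1 * b1 t) * (lam t.o * nm t.k))⁻¹ * ‖t.xs v G‖ ^ 2) *
      √(∑ t ∈ 𝒥, (lam t.o * nm t.k)⁻¹ * ‖t.ys w G‖ ^ 2)) ≤ S

variable {M e₀ : Eis} {lam : O → ℝ} {v w : O → Eis → ℂ} {G : Eis → ℂ} {rng : Tm O → Prop}

lemma nm_par_pos (e₀ : Eis) (t : Tm O) (τ : Ty) : (0 : ℝ) < nm (par e₀ t τ) := by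
  exact_mod_cast nm_pos.mpr (prim_par e₀ t τ).ne_zero

/-- sizes of the parts -/
lemma nm_par_le [Fintype O] {Y : ℝ} {t : Tm O} (hd : Dat4 M 1 lam v w Y) (h : t.OK M 1)
    (hv : t.val 1 lam v w G ≠ 0) (τ : Ty) : (nm (par e₀ t τ) : ℝ) ≤ Y ^ 2 := by
  obtain ⟨hgs, hxs, hys⟩ := val_ne hv
  obtain ⟨h0, hF, hFB, hsq, hsB, hBD⟩ := isPP_F h
  obtain ⟨x, -, -, hx⟩ := xs_ne hxs
  obtain ⟨y, -, -, hy⟩ := ys_ne hys
  have h1 : (nm (t.R * t.R' * x) : ℝ) ≤ Y := (hd.vx _ _ hx).2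
  have h2 : (nm (t.D1 * (t.Z * t.Z' * y)) : ℝ) ≤ Y := hd.wy _ _ hy
  have n1 : t.R * t.R' * x ≠ 0 := ((hd.hv _).sm _ hx).ne_zero
  have n2 : t.D1 * (t.Z * t.Z' * y) ≠ 0 := ((hd.hw _).sm _ hy).ne_zero
  have h3 : par e₀ t τ ∣ (t.R * t.R' * x) * (t.D1 * (t.Z * t.Z' * y)) := by
    unfold par
    split_ifs
    · exact one_dvd _
    · rw [(ppSet_fib e₀ t τ).prod_dvd]
      intro p hp
      have hp' := (mem_fib.mp hp).1
      have hpp := (isPP_of_mem_pp hp').prime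
      rcases hpp.dvd_or_dvd (dvd_of_mem_pp hp') with h4 | h4
      · have h5 : p ∣ t.R * t.Z := by
          rw [← hFB]
          exact ((dvd_pow_self _ three_ne_zero).trans (pow_dvd_pow_of_dvd h4 3)).mul_right _
        rcases hpp.dvd_or_dvd h5 with h6 | h6
        · exact ((h6.mul_right _).mul_right _).mul_right _
        · exact (((h6.mul_right _).mul_right _).mul_left _).mul_left _
      · rcases h.pb p hpp h4 with h2 | h2 | ⟨h2, -⟩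
        · exact (((h2.mul_left _).mul_right _).mul_left _).mul_left _
        · have h5 : p ∣ t.R * t.Z := by
            rw [← hFB]
            exact h2.mul_left _
          rcases hpp.dvd_or_dvd h5 with h6 | h6
          · exact ((h6.mul_right _).mul_right _).mul_right _
          · exact (((h6.mul_right _).mul_right _).mul_left _).mul_left _
        · have h3 : p ∣ t.R' := (dvd_pow_self p two_ne_zero).trans h2
          exact ((h3.mul_left _).mul_right _).mul_right _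
  have h4 := nm_le_of_dvd (mul_ne_zero n1 n2) h3
  rw [nm_mul] at h4
  have h5 : (nm (par e₀ t τ) : ℝ) ≤ nm (t.R * t.R' * x) * nm (t.D1 * (t.Z * t.Z' * y)) := by
    exact_mod_cast h4
  calc (nm (par e₀ t τ) : ℝ) ≤ nm (t.R * t.R' * x) * nm (t.D1 * (t.Z * t.Z' * y)) := h5
    _ ≤ Y * Y := by
        have := hd.X1
        gcongr
    _ = Y ^ 2 := by ring

lemma key_real {a L x y : ℝ} (ha : 0 ≤ a) (hL : 0 ≤ L) (hx : 0 ≤ x) (hy : 0 ≤ y) :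
    a ^ (-(1 / 2) : ℝ) * (L⁻¹ * (x * y)) = √((a * L)⁻¹ * x ^ 2) * √(L⁻¹ * y ^ 2) := by
  have h2 : 0 ≤ (a * L)⁻¹ := by positivity
  have h4 : 0 ≤ L⁻¹ := by positivity
  rw [Real.sqrt_mul h2, Real.sqrt_mul h4, Real.sqrt_sq hx, Real.sqrt_sq hy, mul_inv,
    Real.sqrt_mul (inv_nonneg.mpr ha), Real.rpow_neg ha, ← Real.sqrt_eq_rpow, Real.sqrt_inv a]
  have h3 : √L⁻¹ * √L⁻¹ = L⁻¹ := Real.mul_self_sqrt h4
  calc _ = (√a)⁻¹ * ((√L⁻¹ * √L⁻¹) * (x * y)) := by rw [h3]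
    _ = _ := by ring

/-- from Cauchy back to the sum -/
lemma JP0_of_JP (hl1 : ∀ o, 0 ≤ lam o) {S : ℝ} (h : JP M e₀ lam v w G rng S) :
    JP0 M e₀ lam v w G rng S := by
  intro c P 𝒥 hJ
  refine le_trans ?_ (h c P 𝒥 hJ)
  have hw : 0 ≤ wP P := Finset.prod_nonneg fun _ _ => by positivity
  refine mul_le_mul_of_nonneg_left ?_ hw
  have hl : ∀ t : Tm O, 0 ≤ lam t.o * nm t.k := fun t =>
    mul_nonneg (hl1 t.o) (Nat.cast_nonneg _)
  rw [Finset.sum_congr rfl fun t _ =>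
    key_real (Nat.cast_nonneg _) (hl t) (norm_nonneg _) (norm_nonneg _)]
  exact Real.sum_sqrt_mul_sqrt_le 𝒥
    (fun t => mul_nonneg (inv_nonneg.mpr (mul_nonneg (Nat.cast_nonneg _) (hl t)))
      (sq_nonneg _))
    (fun t => mul_nonneg (inv_nonneg.mpr (hl t)) (sq_nonneg _))

/-! ### the sum over the parts -/

open Classical in
/-- range of one part -/
def rgT (e₀ : Eis) (N : ℕ) (τ : Ty) : Finset Eis := if tE τ then dvs e₀ else primBall N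

/-- weight of one part -/
def gT (τ : Ty) (x : Eis) : ℝ := (nm x : ℝ) ^ (-(if tE τ then 0 else 1) : ℝ)

lemma gT_nonneg (τ : Ty) (x : Eis) : 0 ≤ gT τ x := by unfold gT; positivity

lemma sum_gT {ε : ℝ} (hε : 0 < ε) : ∃ C : ℝ, 1 ≤ C ∧ ∀ (e₀ : Eis) (Y : ℝ), 1 ≤ Y → e₀ ≠ 0 →
    (nm e₀ : ℝ) ≤ Y → ∀ τ : Ty, ∑ x ∈ rgT e₀ ⌊Y ^ 2⌋₊ τ, gT τ x ≤ C * Y ^ ε := by
  obtain ⟨C₁, hC₁, h₁⟩ := tau_le_rpow hε
  have hC2 : (0 : ℝ) ≤ (100 * (1 + ((1 : ℕ) : ℝ) / (ε / 2))) ^ 1 := by positivity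
  refine ⟨C₁ + (100 * (1 + ((1 : ℕ) : ℝ) / (ε / 2))) ^ 1, by linarith, ?_⟩
  intro e₀ Y hY he hY2 τ
  have hYε : (0 : ℝ) ≤ Y ^ ε := by positivity
  unfold rgT gT
  split_ifs with h
  · simp only [neg_zero, Real.rpow_zero, Finset.sum_const, nsmul_eq_mul, mul_one]
    have h2 : ((dvs e₀).card : ℝ) ≤ C₁ * (nm e₀ : ℝ) ^ ε := h₁ e₀ he
    have h3 : (nm e₀ : ℝ) ^ ε ≤ Y ^ ε := Real.rpow_le_rpow (Nat.cast_nonneg _) hY2 hε.le
    nlinarith
  · have hY3 : 1 ≤ Y ^ 2 := one_le_pow₀ hY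
    have h2 : ∑ x ∈ primBall ⌊Y ^ 2⌋₊, (nm x : ℝ) ^ (-1 : ℝ) ≤ 100 * (1 + Real.log (⌊Y ^ 2⌋₊ : ℕ)) := by
      refine le_trans (le_of_eq ?_) (sum_inv_primBall_le ⌊Y ^ 2⌋₊)
      exact Finset.sum_congr rfl fun x _ => by rw [Real.rpow_neg_one, one_div]
    have h3 : Real.log (⌊Y ^ 2⌋₊ : ℕ) ≤ Real.log (Y ^ 2) :=
      Real.log_le_log (by exact_mod_cast Nat.floor_pos.mpr hY3) (Nat.floor_le (by positivity))
    have h4 := poly_log_le 1 hY3 (half_pos hε)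
    rw [pow_one] at h4
    have h5 : (Y ^ 2) ^ (ε / 2) = Y ^ ε := by
      rw [← Real.rpow_natCast, ← Real.rpow_mul (by linarith)]
      congr 1
      push_cast
      ring
    rw [h5] at h4
    have h6 : (0 : ℝ) ≤ C₁ * Y ^ ε := by positivity
    calc ∑ x ∈ primBall ⌊Y ^ 2⌋₊, (nm x : ℝ) ^ (-1 : ℝ) ≤ 100 * (1 + Real.log (⌊Y ^ 2⌋₊ : ℕ)) := h2
      _ ≤ 100 * (1 + Real.log (Y ^ 2)) := by linarith
      _ ≤ (100 * (1 + ((1 : ℕ) : ℝ) / (ε / 2))) ^ 1 * Y ^ ε := h4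
      _ ≤ _ := by rw [add_mul]; linarith

open Classical in
/-- **regrouping**: the joint block hypothesis from its form at fixed parts -/
theorem JB_of_JP0 {ε : ℝ} (hε : 0 < ε) : ∃ C : ℝ, 1 ≤ C ∧
    ∀ (M e₀ : Eis) (O : Type) (_ : Fintype O) (lam : O → ℝ) (v w : O → Eis → ℂ) (G : Eis → ℂ)
      (rng : Tm O → Prop) (Y S : ℝ), Dat4 M 1 lam v w Y → Wy5 e₀ w → e₀ ≠ 0 → (nm e₀ : ℝ) ≤ Y →
      0 ≤ S → JP0 M e₀ lam v w G rng S → JB M 1 lam v w G rng (C * Y ^ ε * S) := by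
  have hT : (0 : ℝ) < Fintype.card Ty := by
    have : 0 < Fintype.card Ty := Fintype.card_pos
    exact_mod_cast this
  obtain ⟨C, hC, hs⟩ := sum_gT (ε := ε / Fintype.card Ty) (by positivity)
  refine ⟨C ^ Fintype.card Ty, one_le_pow₀ hC, ?_⟩
  intro M e₀ O _ lam v w G rng Y S hd hw he heY hS hJP c 𝒥 hJ
  have hY := hd.X1
  -- the parts which occur
  set Ps : Finset (Ty → Eis) := Fintype.piFinset (fun τ => rgT e₀ ⌊Y ^ 2⌋₊ τ) with hPs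
  have hmap : ∀ t ∈ 𝒥, par e₀ t ∈ Ps := by
    intro t ht
    obtain ⟨h1, h2, h3, h4⟩ := hJ t ht
    have hf := facts hd hw h1 h2
    rw [hPs, Fintype.mem_piFinset]
    intro τ
    unfold rgT
    split_ifs with h5
    · exact (mem_dvs he).mpr ⟨prim_par e₀ t τ, hf.dE τ h5⟩
    · rw [mem_primBall]
      exact ⟨Nat.le_floor (nm_par_le hd h1 h2 τ), prim_par e₀ t τ⟩
  rw [← Finset.sum_fiberwise_of_maps_to hmap]
  have key : ∀ P ∈ Ps, ∑ t ∈ 𝒥.filter (fun t => par e₀ t = P), t.val 1 lam v w G ≤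
      (∏ τ, gT τ (P τ)) * S := by
    intro P hP
    have hP0 : ∀ τ, (0 : ℝ) < nm (P τ) := by
      intro τ
      have h1 := Fintype.mem_piFinset.mp hP τ
      unfold rgT at h1
      split_ifs at h1
      · exact_mod_cast nm_pos.mpr (isPrim_of_mem_dvs h1).ne_zero
      · exact_mod_cast nm_pos.mpr (mem_primBall.mp h1).2.ne_zero
    have h1 := hJP c P (𝒥.filter (fun t => par e₀ t = P)) (by
      intro t ht
      rw [Finset.mem_filter] at ht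
      obtain ⟨h1, h2, h3, h4⟩ := hJ t ht.1
      exact ⟨h1, h2, h3, h4, ht.2⟩)
    have h2 : ∏ τ, (nm (P τ) : ℝ) ^ (-tRho τ) = (∏ τ, gT τ (P τ)) * wP P := by
      unfold wP gT
      rw [← Finset.prod_mul_distrib]
      refine Finset.prod_congr rfl fun τ _ => ?_
      rw [← Real.rpow_add (hP0 τ)]
      congr 1
      ring
    have h3 : 0 ≤ ∏ τ, gT τ (P τ) := Finset.prod_nonneg fun τ _ => gT_nonneg τ _
    calc ∑ t ∈ 𝒥.filter (fun t => par e₀ t = P), t.val 1 lam v w G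
        ≤ ∑ t ∈ 𝒥.filter (fun t => par e₀ t = P), (∏ τ, (nm (P τ) : ℝ) ^ (-tRho τ)) *
          ((nm (t.D1 * b1 t) : ℝ) ^ (-(1 / 2) : ℝ) *
            ((lam t.o * nm t.k)⁻¹ * (‖t.xs v G‖ * ‖t.ys w G‖))) := by
          refine Finset.sum_le_sum fun t ht => ?_
          rw [Finset.mem_filter] at ht
          obtain ⟨h4, h5, -, -⟩ := hJ t ht.1
          have h6 := val_le hd hw h4 h5
          rw [ht.2] at h6
          exact h6
      _ = (∏ τ, gT τ (P τ)) * (wP P * ∑ t ∈ 𝒥.filter (fun t => par e₀ t = P),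
          (nm (t.D1 * b1 t) : ℝ) ^ (-(1 / 2) : ℝ) *
            ((lam t.o * nm t.k)⁻¹ * (‖t.xs v G‖ * ‖t.ys w G‖))) := by
          rw [← Finset.mul_sum, h2]
          ring
      _ ≤ (∏ τ, gT τ (P τ)) * S := mul_le_mul_of_nonneg_left h1 h3
  calc ∑ P ∈ Ps, ∑ t ∈ 𝒥.filter (fun t => par e₀ t = P), t.val 1 lam v w G
      ≤ ∑ P ∈ Ps, (∏ τ, gT τ (P τ)) * S := Finset.sum_le_sum key
    _ = (∏ τ, ∑ x ∈ rgT e₀ ⌊Y ^ 2⌋₊ τ, gT τ x) * S := by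
        rw [← Finset.sum_mul, hPs, Finset.prod_univ_sum]
    _ ≤ (∏ _τ : Ty, (C * Y ^ (ε / Fintype.card Ty))) * S := by
        refine mul_le_mul_of_nonneg_right ?_ hS
        exact Finset.prod_le_prod (fun τ _ => Finset.sum_nonneg fun x _ => gT_nonneg τ x)
          fun τ _ => hs e₀ Y hY he heY τ
    _ = C ^ Fintype.card Ty * Y ^ ε * S := by
        rw [Finset.prod_const, Finset.card_univ, mul_pow, ← Real.rpow_natCast (Y ^ _),
          ← Real.rpow_mul (by linarith)]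
        congr 3
        field_simp

/-- the form after Cauchy -/
theorem JB_of_JP {ε : ℝ} (hε : 0 < ε) : ∃ C : ℝ, 1 ≤ C ∧
    ∀ (M e₀ : Eis) (O : Type) (_ : Fintype O) (lam : O → ℝ) (v w : O → Eis → ℂ) (G : Eis → ℂ)
      (rng : Tm O → Prop) (Y S : ℝ), Dat4 M 1 lam v w Y → Wy5 e₀ w → e₀ ≠ 0 → (nm e₀ : ℝ) ≤ Y →
      0 ≤ S → JP M e₀ lam v w G rng S → JB M 1 lam v w G rng (C * Y ^ ε * S) := by
  obtain ⟨C, hC, h⟩ := JB_of_JP0 hε
  refine ⟨C, hC, ?_⟩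
  intro M e₀ O _ lam v w G rng Y S hd hw he heY hS hJP
  exact h M e₀ O _ lam v w G rng Y S hd hw he heY hS
    (JP0_of_JP (fun o => by linarith [(hd.lam1 o).1]) hJP)

end Crest.Agent.R017.E4RG858
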