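import Crest.Agent.R017.E4RGa_858
import Crest.Agent.R017.E4v7_352

/-!
# Row 17, C70/E4 version 7, regrouping by local types (helper858), part b: the parts of a term

For a term `t` at `f = 1` every primary prime `p ∣ B b` has a local type
`(e, be, i, r, z) = ([p ∣ e₀], [p ∣ B], v_p(b), v_p(R R'), v_p(Z Z'))`.

* `par e₀ t τ` : product of the primes of type `τ` (`1` for the types of `b₁`)
* `b1 t` : product of the primes with `(be, i, r, z) = (0, 2, 0, 1)`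
* `Facts`, `facts` : all components of `t` as monomials in the parts
* `val_le` : the value of a term
-/

set_option autoImplicit false

noncomputable section

open Complex
open scoped ComplexConjugate

namespace Crest.Agent.R017.E4RG858

open Crest.Agent.R012 Crest.Agent.R012.Eis Crest.Agent.R012.Mob705
open Crest.Agent.R017.Sx545 Crest.Agent.R017.CM106 Crest.Agent.R017.C70
open Crest.Agent.R017.E4352 Crest.Agent.R017.E4J352
open Crest.Agent.R017.E4o502 (vD wD GoodD GB)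
open Crest.Agent.R017.E4fe502 (FF)

/-- local types `(e, be, i, r, z)` -/
abbrev Ty : Type := Bool × Bool × Fin 9 × Fin 3 × Fin 6

/-- `p ∣ e₀` -/
def tE (τ : Ty) : Bool := τ.1
/-- `p ∣ B` -/
def tB (τ : Ty) : Bool := τ.2.1
/-- `v_p(b)` -/
def tI (τ : Ty) : ℕ := τ.2.2.1
/-- `v_p(R R')` -/
def tR (τ : Ty) : ℕ := τ.2.2.2.1
/-- `v_p(Z Z')` -/
def tZ (τ : Ty) : ℕ := τ.2.2.2.2
/-- valuation of the Gauss argument -/
def tU (τ : Ty) : ℕ := if tB τ then tR τ + tZ τ - 3 else tR τ + tZ τ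
/-- types of `b₁` -/
def IsB1 (τ : Ty) : Prop := tB τ = false ∧ tI τ = 2 ∧ tR τ = 0 ∧ tZ τ = 1

/-- the types which occur -/
def Allowed (τ : Ty) : Prop :=
  ¬ IsB1 τ ∧ (4 ≤ tZ τ → tE τ = true) ∧
  (if tB τ then 3 ≤ tR τ + tZ τ ∧ (tI τ = 0 ∨ (1 ≤ tU τ ∧
      (tI τ = tU τ + 1 ∨ (tI τ % 3 = 0 ∧ tI τ ≤ tU τ))))
    else 1 ≤ tI τ ∧ (1 ≤ tZ τ ∨ (tR τ = 2 ∧ tI τ = 3)) ∧
      (tI τ = tU τ + 1 ∨ (tI τ % 3 = 0 ∧ tI τ ≤ tU τ)))

/-- exponent in `B` -/
def xB (τ : Ty) : ℕ := if tB τ then 1 else 0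
/-- exponent in `R` -/
def xR (τ : Ty) : ℕ := if tB τ then tR τ else 0
/-- exponent in `Z` -/
def xZ (τ : Ty) : ℕ := if tB τ then tZ τ else 0
/-- exponent in `R'` -/
def xR' (τ : Ty) : ℕ := if tB τ then 0 else tR τ
/-- exponent in `Z'` -/
def xZ' (τ : Ty) : ℕ := if tB τ then 0 else tZ τ
/-- exponent in `F` -/
def xF (τ : Ty) : ℕ := if tB τ then tR τ + tZ τ - 3 else 0

/-- exponent of the Gauss ratio -/
def tRho (τ : Ty) : ℝ := rho (tU τ) (tI τ)

variable {O : Type}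

open Classical in
/-- local type of `t` at `p` -/
def ty (e₀ : Eis) (t : Tm O) (p : Eis) : Ty :=
  (decide (p ∣ e₀), decide (p ∣ t.B), Fin.ofNat 9 (multiplicity p t.b),
    Fin.ofNat 3 (multiplicity p (t.R * t.R')), Fin.ofNat 6 (multiplicity p (t.Z * t.Z')))

open Classical in
/-- the primes of type `τ` -/
def fib (e₀ : Eis) (t : Tm O) (τ : Ty) : Finset Eis :=
  (pp (t.B * t.b)).filter (fun p => ty e₀ t p = τ)

open Classical in
/-- the generic part -/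
def b1 (t : Tm O) : Eis := ∏ p ∈ (pp (t.B * t.b)).filter (fun p => IsB1 (ty 1 t p)), p

open Classical in
/-- the part of type `τ` -/
def par (e₀ : Eis) (t : Tm O) (τ : Ty) : Eis := if IsB1 τ then 1 else ∏ p ∈ fib e₀ t τ, p

/-- the standing conditions on the support of the `y`-side -/
def Wy5 (e₀ : Eis) (w : O → Eis → ℂ) : Prop :=
  ∀ o y, w o y ≠ 0 → ∀ p : Eis, Prime p → ¬ p ^ 6 ∣ y ∧ (p ^ 4 ∣ y → p ∣ e₀)

/-- all components of `t` in terms of the parts -/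
structure Facts (M e₀ : Eis) (t : Tm O) : Prop where
  D0 : t.D0 = 1
  B : t.B = ∏ τ, par e₀ t τ ^ xB τ
  b : t.b = b1 t ^ 2 * ∏ τ, par e₀ t τ ^ tI τ
  R : t.R = ∏ τ, par e₀ t τ ^ xR τ
  Z : t.Z = ∏ τ, par e₀ t τ ^ xZ τ
  R' : t.R' = ∏ τ, par e₀ t τ ^ xR' τ
  Z' : t.Z' = b1 t * ∏ τ, par e₀ t τ ^ xZ' τ
  F : t.F 1 = ∏ τ, par e₀ t τ ^ xF τ
  sP : ∀ τ, Sm M (par e₀ t τ)
  sb1 : Sm M (b1 t)
  qP : ∀ τ, Squarefree (par e₀ t τ)
  qb1 : Squarefree (b1 t)
  al : ∀ τ, par e₀ t τ ≠ 1 → Allowed τ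
  dE : ∀ τ, tE τ = true → par e₀ t τ ∣ e₀
  cE : ∀ τ, tE τ = false → IsCoprime (par e₀ t τ) e₀
  cP : ∀ τ τ', τ ≠ τ' → IsCoprime (par e₀ t τ) (par e₀ t τ')
  c1 : ∀ τ, IsCoprime (par e₀ t τ) (b1 t)
  cD : ∀ τ, IsCoprime (par e₀ t τ) t.D1
  c1D : IsCoprime (b1 t) t.D1
  c1k : IsCoprime (b1 t) t.k
  ck : ∀ τ, tI τ ≠ 0 ∨ tU τ ≠ 0 → IsCoprime (par e₀ t τ) t.k

/-! ### supports -/

lemma exists_of_Sd {c : Eis → ℂ} {d : Eis} (h : Sd c d ≠ 0) : ∃ x, c x ≠ 0 := by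
  by_contra h1
  push Not at h1
  apply h
  unfold Sd
  simp [h1]

lemma exists_of_CS {c : Eis → ℂ} {d : Eis} (h : CS c d ≠ 0) : ∃ x, c x ≠ 0 := by
  by_contra h1
  push Not at h1
  apply h
  unfold CS
  simp [h1]

lemma tws_ne {R q : Eis} {g c : Eis → ℂ} {y : Eis} (h : tws R q g c y ≠ 0) :
    IsCoprime y q ∧ c (R * y) ≠ 0 := by
  unfold tws at h
  split_ifs at h with h1
  · exact ⟨h1, right_ne_zero_of_mul h⟩
  · exact absurd rfl h

variable {M e₀ : Eis} {lam : O → ℝ} {v w : O → Eis → ℂ} {G : Eis → ℂ} {t : Tm O}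

lemma xs_ne (h : t.xs v G ≠ 0) : ∃ x, IsCoprime x (t.B * t.b) ∧
    IsCoprime (t.R * t.R' * x) (t.D0 * t.D1) ∧ v t.o (t.R * t.R' * x) ≠ 0 := by
  obtain ⟨x, hx⟩ := exists_of_Sd h
  obtain ⟨h1, h2⟩ := tws_ne hx
  obtain ⟨h3, h4⟩ := tws_ne h2
  rw [one_mul] at h4
  exact ⟨x, h1, h3, h4⟩

lemma ys_ne (h : t.ys w G ≠ 0) : ∃ y, IsCoprime y (t.B * t.b) ∧
    IsCoprime (t.Z * t.Z' * y) (t.D0 * t.D1) ∧ w t.o (t.D1 * (t.Z * t.Z' * y)) ≠ 0 := by
  obtain ⟨x, hx⟩ := exists_of_CS h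
  obtain ⟨h1, h2⟩ := tws_ne hx
  obtain ⟨h3, h4⟩ := tws_ne h2
  exact ⟨x, h1, h3, h4⟩

lemma val_ne {f : Eis} (h : t.val f lam v w G ≠ 0) :
    gs (t.F f * t.R' * t.Z') t.b ≠ 0 ∧ t.xs v G ≠ 0 ∧ t.ys w G ≠ 0 := by
  unfold Tm.val Tm.wt at h
  refine ⟨?_, ?_, ?_⟩
  · rintro h1
    apply h
    rw [h1]
    simp
  · rintro h1
    apply h
    rw [h1]
    simp
  · rintro h1
    apply h
    rw [h1]
    simp


/-! ### local structure -/

lemma isPP_F {t : Tm O} (h : t.OK M 1) : t.D0 = 1 ∧ IsPrim (t.F 1) ∧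
    t.B ^ 3 * t.F 1 = t.R * t.Z ∧ Squarefree t.B ∧ Sm M t.B ∧ IsCoprime t.B t.D1 := by
  have h0 : t.D0 = 1 := isPrim_eq_one_of_isUnit h.pD0 (isUnit_of_dvd_one h.good.1)
  have h1 : (1 : Eis) / t.D0 = 1 := by rw [h0, EuclideanDomain.div_one]
  have h2 := h.gb
  rw [h1] at h2
  obtain ⟨a1, a2, a3, a4, a5⟩ := h2
  have h3 : t.B ^ 3 * t.F 1 = t.R * t.Z := by
    unfold Tm.F FF
    rw [h1, EuclideanDomain.mul_div_cancel' (pow_ne_zero 3 a2.ne_zero) a4, one_mul]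
  have h4 : IsPrim (t.F 1) := by
    have : IsPrim (t.B ^ 3 * t.F 1) := h3 ▸ h.pR.1.mul h.pZ.1
    exact this.of_mul_left (a2.prim.pow 3)
  refine ⟨h0, h4, h3, a1, a2, ?_⟩
  rw [h0, one_mul] at a3
  exact a3

/-- the local facts at `p` -/
structure Loc (e₀ : Eis) (t : Tm O) (p : Eis) : Prop where
  hE : tE (ty e₀ t p) = true ↔ p ∣ e₀
  hB : tB (ty e₀ t p) = true ↔ p ∣ t.B
  B : multiplicity p t.B = xB (ty e₀ t p)
  b : multiplicity p t.b = tI (ty e₀ t p)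
  R : multiplicity p t.R = xR (ty e₀ t p)
  Z : multiplicity p t.Z = xZ (ty e₀ t p)
  R' : multiplicity p t.R' = xR' (ty e₀ t p)
  Z' : multiplicity p t.Z' = xZ' (ty e₀ t p)
  F : multiplicity p (t.F 1) = xF (ty e₀ t p)
  U : multiplicity p (t.F 1 * t.R' * t.Z') = tU (ty e₀ t p)
  al : IsB1 (ty e₀ t p) ∨ Allowed (ty e₀ t p)

open Classical in
/-- **local structure** -/
lemma loc [Fintype O] {Y : ℝ} (hd : Dat4 M 1 lam v w Y) (hw : Wy5 e₀ w) (h : t.OK M 1)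
    (hv : t.val 1 lam v w G ≠ 0) {p : Eis} (hp : IsPP p) (hpb : p ∣ t.B * t.b) : Loc e₀ t p := by
  obtain ⟨hgs, hxs, hys⟩ := val_ne hv
  obtain ⟨h0, hF, hFB, hsq, hsB, hBD⟩ := isPP_F h
  have hpp := hp.prime
  have nR := h.pR.1.ne_zero
  have nZ := h.pZ.1.ne_zero
  have nR' := h.pR'.1.ne_zero
  have nZ' := h.pZ'.1.ne_zero
  have nb := h.sb.ne_zero
  have nB := hsB.ne_zero
  have nF := hF.ne_zero
  -- sizes
  obtain ⟨x, -, -, hx⟩ := xs_ne hxs
  obtain ⟨y, -, -, hy⟩ := ys_ne hys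
  have hr : multiplicity p (t.R * t.R') ≤ 2 := by
    by_contra h1
    have h2 : p ^ 3 ∣ t.R * t.R' := (pow_dvd_iff hpp (mul_ne_zero nR nR')).mpr (by omega)
    exact (hd.vx _ _ hx).1 p hpp (h2.mul_right x)
  have hz : multiplicity p (t.Z * t.Z') ≤ 5 := by
    by_contra h1
    have h2 : p ^ 6 ∣ t.Z * t.Z' := (pow_dvd_iff hpp (mul_ne_zero nZ nZ')).mpr (by omega)
    exact (hw _ _ hy p hpp).1 ((h2.mul_right y).mul_left _)
  have hz4 : 4 ≤ multiplicity p (t.Z * t.Z') → p ∣ e₀ := by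
    intro h1
    have h2 : p ^ 4 ∣ t.Z * t.Z' := (pow_dvd_iff hpp (mul_ne_zero nZ nZ')).mpr (by omega)
    exact (hw _ _ hy p hpp).2 ((h2.mul_right y).mul_left _)
  have eR := mult_mul hpp nR nR'
  have eZ := mult_mul hpp nZ nZ'
  have eF : 3 * multiplicity p t.B + multiplicity p (t.F 1) =
      multiplicity p t.R + multiplicity p t.Z := by
    rw [← mult_mul hpp nR nZ, ← hFB, mult_mul hpp (pow_ne_zero _ nB) nF, mult_pow hpp nB]
  have eU : multiplicity p (t.F 1 * t.R' * t.Z') =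
      multiplicity p (t.F 1) + multiplicity p t.R' + multiplicity p t.Z' := by
    rw [mult_mul hpp (mul_ne_zero nF nR') nZ', mult_mul hpp nF nR']
  have hnu : t.F 1 * t.R' * t.Z' ≠ 0 := mul_ne_zero (mul_ne_zero nF nR') nZ'
  -- the Gauss condition
  have hg : 1 ≤ multiplicity p t.b →
      multiplicity p t.b = multiplicity p (t.F 1 * t.R' * t.Z') + 1 ∨
      (multiplicity p t.b % 3 = 0 ∧
        multiplicity p t.b ≤ multiplicity p (t.F 1 * t.R' * t.Z')) := fun h1 =>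
    gs_ne hnu h.sb.prim hgs hp ((dvd_iff_mult hpp nb).mpr h1)
  have hpbc : 1 ≤ multiplicity p t.b → 1 ≤ multiplicity p t.Z' ∨ 1 ≤ multiplicity p (t.F 1) ∨
      (multiplicity p t.R' = 2 ∧ multiplicity p t.b = 3) := by
    intro h1
    rcases h.pb p hpp ((dvd_iff_mult hpp nb).mpr h1) with h2 | h2 | ⟨h2, h3, h4, h5⟩
    · exact Or.inl ((dvd_iff_mult hpp nZ').mp h2)
    · exact Or.inr (Or.inl ((dvd_iff_mult hpp nF).mp h2))
    · rw [pow_dvd_iff hpp nR'] at h2 h3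
      rw [pow_dvd_iff hpp nb] at h4 h5
      exact Or.inr (Or.inr ⟨by omega, by omega⟩)
  -- the two cases
  have hcase : (p ∣ t.B ∧ multiplicity p t.B = 1 ∧ multiplicity p t.R' = 0 ∧
      multiplicity p t.Z' = 0) ∨ (¬ p ∣ t.B ∧ multiplicity p t.B = 0 ∧ multiplicity p t.R = 0 ∧
      multiplicity p t.Z = 0 ∧ 1 ≤ multiplicity p t.b) := by
    by_cases hpB : p ∣ t.B
    · left
      refine ⟨hpB, ?_, ?_, ?_⟩
      · have h1 := (dvd_iff_mult hpp nB).mp hpB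
        have h2 : ¬ 2 ≤ multiplicity p t.B := by
          rw [← pow_dvd_iff hpp nB, pow_two]
          intro h3
          exact hpp.not_isUnit (hsq p h3)
        omega
      · refine mult_eq_zero hpp nR' fun h1 => ?_
        exact hpp.not_isUnit (h.cRZ.isUnit_of_dvd' (h1.mul_right _) (hpB.mul_left _))
      · refine mult_eq_zero hpp nZ' fun h1 => ?_
        exact hpp.not_isUnit (h.cRZ.isUnit_of_dvd' (h1.mul_left _) (hpB.mul_left _))
    · right
      refine ⟨hpB, mult_eq_zero hpp nB hpB, ?_, ?_, ?_⟩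
      · exact mult_eq_zero hpp nR fun h1 => hpB (h.pR.2 p hpp h1)
      · exact mult_eq_zero hpp nZ fun h1 => hpB (h.pZ.2 p hpp h1)
      · exact (dvd_iff_mult hpp nb).mp ((hpp.dvd_or_dvd hpb).resolve_left hpB)
  have hi : multiplicity p t.b ≤ 8 := by
    by_cases h1 : 1 ≤ multiplicity p t.b
    · rcases hg h1 with h2 | h2 <;> rcases hcase with h3 | h3 <;> omega
    · omega
  have vI : tI (ty e₀ t p) = multiplicity p t.b := by
    show multiplicity p t.b % 9 = _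
    omega
  have vR : tR (ty e₀ t p) = multiplicity p (t.R * t.R') := by
    show multiplicity p (t.R * t.R') % 3 = _
    omega
  have vZ : tZ (ty e₀ t p) = multiplicity p (t.Z * t.Z') := by
    show multiplicity p (t.Z * t.Z') % 6 = _
    omega
  have vE : tE (ty e₀ t p) = true ↔ p ∣ e₀ := by
    show decide (p ∣ e₀) = true ↔ _
    rw [decide_eq_true_eq]
  have vB : tB (ty e₀ t p) = true ↔ p ∣ t.B := by
    show decide (p ∣ t.B) = true ↔ _
    rw [decide_eq_true_eq]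
  have vU : tU (ty e₀ t p) = if p ∣ t.B then tR (ty e₀ t p) + tZ (ty e₀ t p) - 3 else
      tR (ty e₀ t p) + tZ (ty e₀ t p) := by
    unfold tU
    exact if_congr vB rfl rfl
  rcases hcase with ⟨c1, c2, c3, c4⟩ | ⟨c1, c2, c3, c4, c5⟩
  · have vB' := vB.mpr c1
    rw [if_pos c1] at vU
    refine ⟨vE, vB, ?_, vI.symm, ?_, ?_, ?_, ?_, ?_, ?_, Or.inr ⟨?_, ?_, ?_⟩⟩
    · unfold xB; rw [if_pos vB']; exact c2
    · unfold xR; rw [if_pos vB']; omega
    · unfold xZ; rw [if_pos vB']; omega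
    · unfold xR'; rw [if_pos vB']; exact c3
    · unfold xZ'; rw [if_pos vB']; exact c4
    · unfold xF; rw [if_pos vB']; omega
    · omega
    · rintro ⟨h1, -⟩
      rw [vB'] at h1
      exact absurd h1 (by decide)
    · intro h1
      exact vE.mpr (hz4 (by omega))
    · rw [if_pos vB', vU, vI]
      refine ⟨by omega, ?_⟩
      by_cases h1 : 1 ≤ multiplicity p t.b
      · right
        rcases hpbc h1 with h2 | h2 | h2
        · omega
        · rcases hg h1 with h3 | h3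
          · exact ⟨by omega, Or.inl (by omega)⟩
          · exact ⟨by omega, Or.inr ⟨h3.1, by omega⟩⟩
        · omega
      · left; omega
  · have vB' : tB (ty e₀ t p) = false := by
      rw [← Bool.not_eq_true, vB]; exact c1
    rw [if_neg c1] at vU
    refine ⟨vE, vB, ?_, vI.symm, ?_, ?_, ?_, ?_, ?_, ?_, ?_⟩
    · unfold xB; rw [vB']; exact c2
    · unfold xR; rw [vB']; exact c3
    · unfold xZ; rw [vB']; exact c4
    · unfold xR'; rw [vB']; show _ = tR _; omega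
    · unfold xZ'; rw [vB']; show _ = tZ _; omega
    · unfold xF; rw [vB']; show _ = 0; omega
    · omega
    · by_cases h1 : IsB1 (ty e₀ t p)
      · exact Or.inl h1
      · right
        refine ⟨h1, fun h2 => vE.mpr (hz4 (by omega)), ?_⟩
        rw [vB']
        show 1 ≤ tI _ ∧ _ ∧ _
        rw [vU, vI]
        unfold IsB1 at h1
        rw [vB', vI] at h1
        have h2 : ¬ (multiplicity p t.b = 2 ∧ tR (ty e₀ t p) = 0 ∧ tZ (ty e₀ t p) = 1) :=
          fun h3 => h1 ⟨rfl, h3⟩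
        refine ⟨c5, ?_, ?_⟩
        · rcases hpbc c5 with h3 | h3 | h3
          · left; omega
          · omega
          · right; omega
        · rcases hg c5 with h3 | h3
          · left; omega
          · right; exact ⟨h3.1, by omega⟩

end Crest.Agent.R017.E4RG858
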