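import Crest.Agent.R017.E4RGb_858

/-!
# Row 17, C70/E4 version 7, regrouping by local types (helper858), part c: monomials

* `fac_ty` : an element whose exponents are a function of the local type
* `facts` : all components of a term
* `val_le` : the value of a term
* `ext_par` : a term is determined by `o, D1, b₁, k` and its parts
-/

set_option autoImplicit false

noncomputable section

open Complex
open scoped ComplexConjugate

namespace Crest.Agent.R017.E4RG858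

open Crest.Agent.R012 Crest.Agent.R012.Eis Crest.Agent.R012.Mob705
open Crest.Agent.R017.Sx545 Crest.Agent.R017.CM106 Crest.Agent.R017.C70
open Crest.Agent.R017.E4352 Crest.Agent.R017.E4J352
open Crest.Agent.R017.E4o502 (vD wD GoodD GB)
open Crest.Agent.R017.E4fe502 (FF)

variable {O : Type} {M e₀ : Eis} {lam : O → ℝ} {v w : O → Eis → ℂ} {G : Eis → ℂ} {t : Tm O}

lemma isB1_ty (e₀ e₁ : Eis) (t : Tm O) (p : Eis) : IsB1 (ty e₀ t p) ↔ IsB1 (ty e₁ t p) :=
  Iff.rfl

open Classical in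
lemma ppSet_fib (e₀ : Eis) (t : Tm O) (τ : Ty) : PPSet (fib e₀ t τ) :=
  (ppSet_pp _).subset (Finset.filter_subset _ _)

open Classical in
/-- the set of primes of `b₁` -/
def fib1 (t : Tm O) : Finset Eis := (pp (t.B * t.b)).filter (fun p => IsB1 (ty 1 t p))

open Classical in
lemma fib1_sub (t : Tm O) : fib1 t ⊆ pp (t.B * t.b) := Finset.filter_subset _ _

open Classical in
lemma ppSet_fib1 (t : Tm O) : PPSet (fib1 t) :=
  (ppSet_pp _).subset (Finset.filter_subset _ _)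

open Classical in
/-- multiplicative regrouping, in any commutative monoid -/
lemma prod_ty {A : Type} [CommMonoid A] (e₀ : Eis) (t : Tm O) (g : Eis → A) :
    ∏ p ∈ pp (t.B * t.b), g p = (∏ p ∈ fib1 t, g p) *
      ∏ τ : Ty, (if IsB1 τ then 1 else ∏ p ∈ fib e₀ t τ, g p) := by
  rw [← Finset.prod_filter_mul_prod_filter_not (pp (t.B * t.b)) (fun p => IsB1 (ty 1 t p)) g]
  congr 1
  rw [← Finset.prod_fiberwise (s := (pp (t.B * t.b)).filter fun p => ¬ IsB1 (ty 1 t p))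
    (g := fun p => ty e₀ t p) (f := g)]
  refine Finset.prod_congr rfl fun τ _ => ?_
  split_ifs with h
  · rw [Finset.filter_filter]
    apply Finset.prod_eq_one
    intro p hp
    rw [Finset.mem_filter] at hp
    exfalso
    apply hp.2.1
    rw [isB1_ty 1 e₀, hp.2.2]
    exact h
  · rw [Finset.filter_filter]
    refine Finset.prod_congr ?_ fun _ _ => rfl
    unfold fib
    refine Finset.filter_congr fun p _ => ?_
    constructor
    · exact fun h1 => h1.2
    · intro h1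
      refine ⟨?_, h1⟩
      rw [isB1_ty 1 e₀, h1]
      exact h

open Classical in
/-- an element whose exponents are a function of the type -/
lemma fac_ty {n : Eis} (hn : IsPrim n) (hpp : pp n ⊆ pp (t.B * t.b)) (f : Ty → ℕ) (c : ℕ)
    (h : ∀ p ∈ pp (t.B * t.b), multiplicity p n = f (ty e₀ t p)) (hc : ∀ τ, IsB1 τ → f τ = c) :
    n = b1 t ^ c * ∏ τ, par e₀ t τ ^ f τ := by
  conv_lhs => rw [fac hn (ppSet_pp _) hpp]
  rw [prod_ty e₀ t]
  congr 1
  · unfold b1
    rw [← Finset.prod_pow]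
    refine Finset.prod_congr rfl fun p hp => ?_
    rw [Finset.mem_filter] at hp
    rw [h p hp.1, hc (ty e₀ t p) hp.2]
  · refine Finset.prod_congr rfl fun τ _ => ?_
    unfold par
    split_ifs with h1
    · rw [one_pow]
    · rw [← Finset.prod_pow]
      refine Finset.prod_congr rfl fun p hp => ?_
      unfold fib at hp
      rw [Finset.mem_filter] at hp
      rw [h p hp.1, hp.2]

lemma not_isB1_tB {τ : Ty} (h : tB τ = true) : ¬ IsB1 τ := by
  rintro ⟨h1, -⟩
  rw [h] at h1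
  exact absurd h1 (by decide)

lemma dvd_par {p : Eis} (hp : IsPP p) {τ : Ty} :
    p ∣ par e₀ t τ ↔ ¬ IsB1 τ ∧ p ∈ fib e₀ t τ := by
  unfold par
  split_ifs with h
  · constructor
    · intro h1
      exact absurd (isUnit_of_dvd_one h1) hp.prime.not_isUnit
    · intro h1
      exact absurd h h1.1
  · rw [(ppSet_fib e₀ t τ).dvd_prod hp]
    exact ⟨fun h1 => ⟨h, h1⟩, fun h1 => h1.2⟩

lemma dvd_b1 {p : Eis} (hp : IsPP p) : p ∣ b1 t ↔ p ∈ fib1 t :=
  (ppSet_fib1 t).dvd_prod hp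

lemma prim_par (e₀ : Eis) (t : Tm O) (τ : Ty) : IsPrim (par e₀ t τ) := by
  unfold par
  split_ifs
  · exact isPrim_one
  · exact (ppSet_fib e₀ t τ).isPrim_prod

lemma prim_b1 (t : Tm O) : IsPrim (b1 t) := (ppSet_fib1 t).isPrim_prod

open Classical in
lemma mem_fib {p : Eis} {τ : Ty} :
    p ∈ fib e₀ t τ ↔ p ∈ pp (t.B * t.b) ∧ ty e₀ t p = τ := Finset.mem_filter

open Classical in
lemma mem_fib1 {p : Eis} :
    p ∈ fib1 t ↔ p ∈ pp (t.B * t.b) ∧ IsB1 (ty 1 t p) := Finset.mem_filter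

/-- **all components of a term** -/
theorem facts [Fintype O] {Y : ℝ} (hd : Dat4 M 1 lam v w Y) (hw : Wy5 e₀ w) (h : t.OK M 1)
    (hv : t.val 1 lam v w G ≠ 0) : Facts M e₀ t := by
  obtain ⟨h0, hF, hFB, hsq, hsB, hBD⟩ := isPP_F h
  have nB := hsB.ne_zero
  have nb := h.sb.ne_zero
  have nBb : t.B * t.b ≠ 0 := mul_ne_zero nB nb
  have hloc : ∀ p ∈ pp (t.B * t.b), Loc e₀ t p := fun p hp =>
    loc hd hw h hv (isPP_of_mem_pp hp) (dvd_of_mem_pp hp)
  have hsub : ∀ {n : Eis}, n ≠ 0 → (∀ p : Eis, Prime p → p ∣ n → p ∣ t.B * t.b) →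
      pp n ⊆ pp (t.B * t.b) := by
    intro n hn h1 p hp
    exact (mem_pp nBb).mpr ⟨isPP_of_mem_pp hp, h1 p (isPP_of_mem_pp hp).prime (dvd_of_mem_pp hp)⟩
  have sS : ∀ p ∈ pp (t.B * t.b), Sm M p := by
    intro p hp
    exact (hsB.mul h.sb).of_dvd (isPP_of_mem_pp hp).isPrim (dvd_of_mem_pp hp)
  have sprod : ∀ S ⊆ pp (t.B * t.b), Sm M (∏ p ∈ S, p) := by
    intro S hS
    refine ⟨((ppSet_pp _).subset hS).isPrim_prod, ?_⟩
    exact IsCoprime.prod_left fun p hp => (sS p (hS hp)).cop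
  -- `B b` is prime to `D1`
  have hbD : ∀ p ∈ pp (t.B * t.b), ¬ p ∣ t.D1 := by
    intro p hp hpD
    have hpp := (isPP_of_mem_pp hp).prime
    have hcD : IsCoprime (t.R' * t.Z') t.D1 := by
      have := h.cRZ
      rw [h0, one_mul] at this
      exact this.of_mul_right_left
    rcases hpp.dvd_or_dvd (dvd_of_mem_pp hp) with h1 | h1
    · exact hpp.not_isUnit (hBD.isUnit_of_dvd' h1 hpD)
    · rcases h.pb p hpp h1 with h2 | h2 | ⟨h2, -⟩
      · exact hpp.not_isUnit (hcD.isUnit_of_dvd' (h2.mul_left _) hpD)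
      · have h3 : p ∣ t.R * t.Z := by
          rw [← hFB]
          exact h2.mul_left _
        have h4 : p ∣ t.B := by
          rcases hpp.dvd_or_dvd h3 with h5 | h5
          · exact h.pR.2 p hpp h5
          · exact h.pZ.2 p hpp h5
        exact hpp.not_isUnit (hBD.isUnit_of_dvd' h4 hpD)
      · have h3 : p ∣ t.R' := (dvd_pow_self p two_ne_zero).trans h2
        exact hpp.not_isUnit (hcD.isUnit_of_dvd' (h3.mul_right _) hpD)
  refine
    { D0 := h0
      B := ?_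
      b := ?_
      R := ?_
      Z := ?_
      R' := ?_
      Z' := ?_
      F := ?_
      sP := ?_
      sb1 := ?_
      qP := ?_
      qb1 := ?_
      al := ?_
      dE := ?_
      cE := ?_
      cP := ?_
      c1 := ?_
      cD := ?_
      c1D := ?_
      c1k := ?_
      ck := ?_ }
  · have := fac_ty (e₀ := e₀) (t := t) hsB.prim (hsub nB fun p _ h1 => h1.mul_right _) xB 0
      (fun p hp => (hloc p hp).B) (fun τ h1 => by unfold xB; rw [h1.1]; rfl)
    rwa [pow_zero, one_mul] at this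
  · exact fac_ty (e₀ := e₀) (t := t) h.sb.prim (hsub nb fun p _ h1 => h1.mul_left _) tI 2
      (fun p hp => (hloc p hp).b) (fun τ h1 => h1.2.1)
  · have := fac_ty (e₀ := e₀) (t := t) h.pR.1
      (hsub h.pR.1.ne_zero fun p hp h1 => (h.pR.2 p hp h1).mul_right _) xR 0
      (fun p hp => (hloc p hp).R) (fun τ h1 => by unfold xR; rw [h1.1]; rfl)
    rwa [pow_zero, one_mul] at this
  · have := fac_ty (e₀ := e₀) (t := t) h.pZ.1
      (hsub h.pZ.1.ne_zero fun p hp h1 => (h.pZ.2 p hp h1).mul_right _) xZ 0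
      (fun p hp => (hloc p hp).Z) (fun τ h1 => by unfold xZ; rw [h1.1]; rfl)
    rwa [pow_zero, one_mul] at this
  · have := fac_ty (e₀ := e₀) (t := t) h.pR'.1
      (hsub h.pR'.1.ne_zero fun p hp h1 => (h.pR'.2 p hp h1).mul_left _) xR' 0
      (fun p hp => (hloc p hp).R') (fun τ h1 => by unfold xR'; rw [h1.1]; exact h1.2.2.1)
    rwa [pow_zero, one_mul] at this
  · have := fac_ty (e₀ := e₀) (t := t) h.pZ'.1
      (hsub h.pZ'.1.ne_zero fun p hp h1 => (h.pZ'.2 p hp h1).mul_left _) xZ' 1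
      (fun p hp => (hloc p hp).Z') (fun τ h1 => by unfold xZ'; rw [h1.1]; exact h1.2.2.2)
    rwa [pow_one] at this
  · have := fac_ty (e₀ := e₀) (t := t) hF
      (hsub hF.ne_zero fun p hp h1 => by
        have h3 : p ∣ t.R * t.Z := by
          rw [← hFB]
          exact h1.mul_left _
        rcases hp.dvd_or_dvd h3 with h5 | h5
        · exact (h.pR.2 p hp h5).mul_right _
        · exact (h.pZ.2 p hp h5).mul_right _) xF 0
      (fun p hp => (hloc p hp).F) (fun τ h1 => by unfold xF; rw [h1.1]; rfl)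
    rwa [pow_zero, one_mul] at this
  · intro τ
    unfold par
    split_ifs
    · exact Sm.one M
    · exact sprod _ (Finset.filter_subset _ _)
  · exact sprod _ (fib1_sub t)
  · intro τ
    unfold par
    split_ifs
    · exact squarefree_one
    · exact (ppSet_fib e₀ t τ).squarefree_prod
  · exact (ppSet_fib1 t).squarefree_prod
  · intro τ hτ
    obtain ⟨p, hp, hpd⟩ := exists_pp_dvd_of_isPrim (prim_par e₀ t τ) hτ
    obtain ⟨h1, h2⟩ := (dvd_par hp).mp hpd
    rw [mem_fib] at h2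
    have h3 := (hloc p h2.1).al
    rw [h2.2] at h3
    exact h3.resolve_left h1
  · intro τ hτ
    unfold par
    split_ifs
    · exact one_dvd _
    · rw [(ppSet_fib e₀ t τ).prod_dvd]
      intro p hp
      rw [mem_fib] at hp
      have h1 := (hloc p hp.1).hE
      rw [hp.2] at h1
      exact h1.mp hτ
  · intro τ hτ
    rw [isCoprime_iff_pp (prim_par e₀ t τ)]
    intro p hp hpd
    obtain ⟨h1, h2⟩ := (dvd_par hp).mp hpd
    rw [mem_fib] at h2
    have h3 := (hloc p h2.1).hE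
    rw [h2.2, hτ] at h3
    intro h4
    exact absurd (h3.mpr h4) (by decide)
  · intro τ τ' hne
    rw [isCoprime_iff_pp (prim_par e₀ t τ)]
    intro p hp hpd hpd'
    have h2 := ((dvd_par hp).mp hpd).2
    have h3 := ((dvd_par hp).mp hpd').2
    rw [mem_fib] at h2 h3
    exact hne (h2.2.symm.trans h3.2)
  · intro τ
    rw [isCoprime_iff_pp (prim_par e₀ t τ)]
    intro p hp hpd hpd'
    obtain ⟨h1, h2⟩ := (dvd_par hp).mp hpd
    have h3 := (dvd_b1 hp).mp hpd'
    rw [mem_fib] at h2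
    rw [mem_fib1] at h3
    apply h1
    rw [← h2.2]
    exact h3.2
  · intro τ
    rw [isCoprime_iff_pp (prim_par e₀ t τ)]
    intro p hp hpd
    have h2 := ((dvd_par hp).mp hpd).2
    rw [mem_fib] at h2
    exact hbD p h2.1
  · rw [isCoprime_iff_pp (prim_b1 t)]
    intro p hp hpd
    have h2 := (dvd_b1 hp).mp hpd
    rw [mem_fib1] at h2
    exact hbD p h2.1
  · rw [isCoprime_iff_pp (prim_b1 t)]
    intro p hp hpd hk
    have h2 := (dvd_b1 hp).mp hpd
    rw [mem_fib1] at h2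
    have h3 : p ∣ t.b := by
      rw [dvd_iff_mult hp.prime nb, (hloc p h2.1).b]
      have h4 : tI (ty e₀ t p) = 2 := h2.2.2.1
      omega
    exact hp.prime.not_isUnit (h.cbk.isUnit_of_dvd' h3 hk)
  · intro τ hτ
    rw [isCoprime_iff_pp (prim_par e₀ t τ)]
    intro p hp hpd hk
    obtain ⟨h1, h2⟩ := (dvd_par hp).mp hpd
    rw [mem_fib] at h2
    have hl := hloc p h2.1
    by_cases hb : p ∣ t.b
    · exact hp.prime.not_isUnit (h.cbk.isUnit_of_dvd' hb hk)
    · have h4 : multiplicity p t.b = 0 := mult_eq_zero hp.prime nb hb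
      have h5 : tI τ = 0 := by rw [← h2.2, ← hl.b, h4]
      have h6 : tU τ ≠ 0 := hτ.resolve_left fun h7 => h7 h5
      have h7 : p ∣ t.B := (hp.prime.dvd_or_dvd (dvd_of_mem_pp h2.1)).resolve_right hb
      have h8 : tB τ = true := by rw [← h2.2]; exact hl.hB.mpr h7
      have h9 : p ∣ t.F 1 := by
        rw [dvd_iff_mult hp.prime hF.ne_zero, hl.F, h2.2]
        unfold xF
        rw [if_pos h8]
        unfold tU at h6
        rw [if_pos h8] at h6
        omega
      exact hp.prime.not_isUnit (h.ckF.isUnit_of_dvd' hk h9)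


/-- **a term is determined by** `o, D1, b₁, k` and its parts -/
theorem ext_par {t t' : Tm O} (h : Facts M e₀ t) (h' : Facts M e₀ t')
    (hp : par e₀ t = par e₀ t') (h1 : t.o = t'.o) (h2 : t.D1 = t'.D1) (h3 : b1 t = b1 t')
    (h4 : t.k = t'.k) : t = t' := by
  have e0 : t.D0 = t'.D0 := by rw [h.D0, h'.D0]
  have e1 : t.B = t'.B := by rw [h.B, h'.B, hp]
  have e2 : t.b = t'.b := by rw [h.b, h'.b, hp, h3]
  have e3 : t.R = t'.R := by rw [h.R, h'.R, hp]
  have e4 : t.Z = t'.Z := by rw [h.Z, h'.Z, hp]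
  have e5 : t.R' = t'.R' := by rw [h.R', h'.R', hp]
  have e6 : t.Z' = t'.Z' := by rw [h.Z', h'.Z', hp, h3]
  cases t
  cases t'
  simp only at *
  subst h1 h2 h4 e0 e1 e2 e3 e4 e5 e6
  rfl

/-- **the Gauss ratio** -/
theorem ratio_le [Fintype O] {Y : ℝ} (hd : Dat4 M 1 lam v w Y) (hw : Wy5 e₀ w) (h : t.OK M 1)
    (hv : t.val 1 lam v w G ≠ 0) :
    ‖gs (t.F 1 * t.R' * t.Z') t.b‖ / nm t.b ≤
      (nm (b1 t) : ℝ) ^ (-(1 / 2) : ℝ) * ∏ τ, (nm (par e₀ t τ) : ℝ) ^ (-tRho τ) := by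
  obtain ⟨h0, hF, hFB, hsq, hsB, hBD⟩ := isPP_F h
  have nB := hsB.ne_zero
  have nb := h.sb.ne_zero
  have nBb : t.B * t.b ≠ 0 := mul_ne_zero nB nb
  have hloc : ∀ p ∈ pp (t.B * t.b), Loc e₀ t p := fun p hp =>
    loc hd hw h hv (isPP_of_mem_pp hp) (dvd_of_mem_pp hp)
  have hnu : t.F 1 * t.R' * t.Z' ≠ 0 :=
    mul_ne_zero (mul_ne_zero hF.ne_zero h.pR'.1.ne_zero) h.pZ'.1.ne_zero
  refine (gs_le_rho hnu h.sb.prim (ppSet_pp (t.B * t.b))
    (pp_mono nBb (Dvd.intro_left _ rfl))).trans (le_of_eq ?_)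
  have e1 : ∏ p ∈ pp (t.B * t.b), (nm p : ℝ) ^
      (-rho (multiplicity p (t.F 1 * t.R' * t.Z')) (multiplicity p t.b)) =
      ∏ p ∈ pp (t.B * t.b), (nm p : ℝ) ^ (-tRho (ty e₀ t p)) :=
    Finset.prod_congr rfl fun p hp => by
      rw [(hloc p hp).U, (hloc p hp).b]
      rfl
  rw [e1, prod_ty e₀ t]
  congr 1
  · have e2 : (nm (b1 t) : ℝ) = ∏ p ∈ fib1 t, (nm p : ℝ) := by
      show (nm (∏ p ∈ fib1 t, p) : ℝ) = _
      rw [E4BW858.nm_prod, Nat.cast_prod]
    rw [e2, ← Real.finsetProd_rpow _ _ (fun p _ => Nat.cast_nonneg _)]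
    refine Finset.prod_congr rfl fun p hp => ?_
    congr 2
    obtain ⟨b1, b2, b3, b4⟩ := (mem_fib1.mp hp).2
    show rho (tU (ty 1 t p)) (tI (ty 1 t p)) = 1 / 2
    have e3 : tU (ty 1 t p) = 1 := by
      unfold tU
      rw [b1, b3, b4]
      rfl
    rw [e3, b2]
    unfold rho
    norm_num
  · refine Finset.prod_congr rfl fun τ _ => ?_
    unfold par
    split_ifs with h1
    · rw [nm_one, Nat.cast_one, Real.one_rpow]
    · rw [E4BW858.nm_prod, Nat.cast_prod,
        ← Real.finsetProd_rpow _ _ (fun p _ => Nat.cast_nonneg _)]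
      refine Finset.prod_congr rfl fun p hp => ?_
      rw [(mem_fib.mp hp).2]

/-- **the value of a term** -/
theorem val_le [Fintype O] {Y : ℝ} (hd : Dat4 M 1 lam v w Y) (hw : Wy5 e₀ w) (h : t.OK M 1)
    (hv : t.val 1 lam v w G ≠ 0) :
    t.val 1 lam v w G ≤ (∏ τ, (nm (par e₀ t τ) : ℝ) ^ (-tRho τ)) *
      ((nm (t.D1 * b1 t) : ℝ) ^ (-(1 / 2) : ℝ) *
        ((lam t.o * nm t.k)⁻¹ * (‖t.xs v G‖ * ‖t.ys w G‖))) := by
  have h0 := (isPP_F h).1
  have h1 : 0 ≤ (lam t.o * nm t.k)⁻¹ := by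
    have := (hd.lam1 t.o).1
    positivity
  have h2 := ratio_le hd hw h hv
  unfold Tm.val Tm.wt
  rw [h0, one_mul, nm_mul, Nat.cast_mul, Real.mul_rpow (Nat.cast_nonneg _) (Nat.cast_nonneg _)]
  calc (nm t.D1 : ℝ) ^ (-(1 / 2) : ℝ) * (‖gs (t.F 1 * t.R' * t.Z') t.b‖ / nm t.b) *
        (lam t.o * nm t.k)⁻¹ * (‖t.xs v G‖ * ‖t.ys w G‖)
      ≤ (nm t.D1 : ℝ) ^ (-(1 / 2) : ℝ) * ((nm (b1 t) : ℝ) ^ (-(1 / 2) : ℝ) *
        ∏ τ, (nm (par e₀ t τ) : ℝ) ^ (-tRho τ)) *
        (lam t.o * nm t.k)⁻¹ * (‖t.xs v G‖ * ‖t.ys w G‖) := by gcongr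
    _ = _ := by ring

end Crest.Agent.R017.E4RG858
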