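import Crest.Agent.R017.E4RG_858

/-!
# Row 17, C70/E4 version 7, regrouping by local types (helper858), part d: the finite list of types

* `Allowed`, `IsB1` are decidable; `tRho2 = 2 tRho` in `ℕ`: every numerical statement about all allowed
  types is proved by `decide`
* `allowed_e0` : the complete list for `p ∤ e₀`
* `sum_log` : logarithms of the components
-/

set_option autoImplicit false

noncomputable section

open Complex

namespace Crest.Agent.R017.E4RG858

open Crest.Agent.R012 Crest.Agent.R012.Eis Crest.Agent.R012.Mob705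
open Crest.Agent.R017.E4352 Crest.Agent.R017.E4J352

instance (τ : Ty) : Decidable (IsB1 τ) := by unfold IsB1; infer_instance

instance (τ : Ty) : Decidable (Allowed τ) := by unfold Allowed; infer_instance

/-- twice the exponent of the Gauss ratio -/
def tRho2 (τ : Ty) : ℕ := if tI τ ≤ tU τ then 0 else if tI τ % 3 = 0 then 2 else 1

lemma tRho_eq (τ : Ty) : tRho τ = (tRho2 τ : ℝ) / 2 := by
  unfold tRho rho tRho2
  split_ifs <;> norm_num

/-- all types with `p ∤ e₀` which occur: `(be, i, r, z)` -/
theorem allowed_e0 : ∀ τ : Ty, Allowed τ → tE τ = false →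
    (tB τ, tI τ, tR τ, tZ τ) ∈
      ([(true, 0, 1, 2), (true, 0, 2, 1), (true, 0, 0, 3), (true, 0, 2, 2), (true, 0, 1, 3),
        (true, 0, 2, 3), (true, 2, 2, 2), (true, 2, 1, 3), (true, 3, 2, 3),
        (false, 3, 1, 1), (false, 3, 0, 2), (false, 3, 2, 0), (false, 3, 1, 2), (false, 3, 2, 1),
        (false, 3, 0, 3), (false, 3, 2, 2), (false, 3, 1, 3), (false, 3, 2, 3),
        (false, 4, 1, 2), (false, 4, 2, 1), (false, 4, 0, 3), (false, 5, 2, 2), (false, 5, 1, 3),
        (false, 6, 2, 3)] : List (Bool × ℕ × ℕ × ℕ)) := by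
  decide +kernel

end Crest.Agent.R017.E4RG858
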