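import Crest.Agent.R017.E4RHb_858
import Crest.Agent.R017.E4C_401

/-!
# Row 17, C70/E4 version 7, regrouping (helper858), version 3

* `JP0`, `JP` : joint block hypothesis at a fixed prefix, before / after Cauchy
* `JB_of_JP0`, `JB_of_JP` (no hypothesis on the `y`-side besides `Dat4`)
-/

set_option autoImplicit false

noncomputable section

open Complex
open scoped ComplexConjugate

namespace Crest.Agent.R017.E4RH858

open Crest.Agent.R012 Crest.Agent.R012.Eis Crest.Agent.R012.Mob705 Crest.Agent.R012.Div277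
open Crest.Agent.R017.Sx545 Crest.Agent.R017.CM106 Crest.Agent.R017.C70
open Crest.Agent.R017.E4352 Crest.Agent.R017.E4J352
open Crest.Agent.R017.E4BW858 (isPrim_prod')
open Crest.Agent.R017.E4RG858 (fm pow_dvd_iff dvd_iff_mult mult_mul mult_pow mult_eq_zero fac rho
  rho_nonneg gs_le_rho gs_ne)

variable {O : Type}

open Classical in
/-- the primes of `B b'` which do not divide `e₀` -/
def r0 (e₀ : Eis) (P : Pf) : Eis := ∏ p ∈ (pp (P.B * P.b)).filter (fun p => ¬ p ∣ e₀), p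

open Classical in
/-- the primes of `B b'` which divide `e₀` -/
def re (e₀ : Eis) (P : Pf) : Eis := ∏ p ∈ (pp (P.B * P.b)).filter (fun p => p ∣ e₀), p

/-- weight of a prefix: count (of the primes outside `e₀`) times Gauss ratio -/
def wP (e₀ : Eis) (P : Pf) : ℝ := nm (r0 e₀ P) * rat P

/-- **joint block hypothesis at a fixed prefix**, before Cauchy -/
def JP0 (M e₀ : Eis) (lam : O → ℝ) (v w : O → Eis → ℂ) (G : Eis → ℂ)
    (rng : Tm O → Prop) (S : ℝ) : Prop :=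
  ∀ (c : Win) (P : Pf) (𝒥 : Finset (Tm O)),
    (∀ t ∈ 𝒥, t.OK M 1 ∧ t.val 1 lam v w G ≠ 0 ∧ t.In lam c ∧ rng t ∧ pf t = P) →
    wP e₀ P * ∑ t ∈ 𝒥, (nm (t.D1 * b1 t) : ℝ) ^ (-(1 / 2) : ℝ) *
      ((lam t.o * nm t.k)⁻¹ * (‖t.xs v G‖ * ‖t.ys w G‖)) ≤ S

/-- **joint block hypothesis at a fixed prefix**, after Cauchy -/
def JP (M e₀ : Eis) (lam : O → ℝ) (v w : O → Eis → ℂ) (G : Eis → ℂ)
    (rng : Tm O → Prop) (S : ℝ) : Prop :=
  ∀ (c : Win) (P : Pf) (𝒥 : Finset (Tm O)),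
    (∀ t ∈ 𝒥, t.OK M 1 ∧ t.val 1 lam v w G ≠ 0 ∧ t.In lam c ∧ rng t ∧ pf t = P) →
    wP e₀ P * (√(∑ t ∈ 𝒥, (nm (t.D1 * b1 t) * (lam t.o * nm t.k))⁻¹ * ‖t.xs v G‖ ^ 2) *
      √(∑ t ∈ 𝒥, (lam t.o * nm t.k)⁻¹ * ‖t.ys w G‖ ^ 2)) ≤ S

variable {M e₀ : Eis} {lam : O → ℝ} {v w : O → Eis → ℂ} {G : Eis → ℂ} {rng : Tm O → Prop}

lemma key_real {a L x y : ℝ} (ha : 0 ≤ a) (hL : 0 ≤ L) (hx : 0 ≤ x) (hy : 0 ≤ y) :
    a ^ (-(1 / 2) : ℝ) * (L⁻¹ * (x * y)) = √((a * L)⁻¹ * x ^ 2) * √(L⁻¹ * y ^ 2) := by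
  have h2 : 0 ≤ (a * L)⁻¹ := by positivity
  have h4 : 0 ≤ L⁻¹ := by positivity
  rw [Real.sqrt_mul h2, Real.sqrt_mul h4, Real.sqrt_sq hx, Real.sqrt_sq hy, mul_inv,
    Real.sqrt_mul (inv_nonneg.mpr ha), Real.rpow_neg ha, ← Real.sqrt_eq_rpow, Real.sqrt_inv a]
  have h3 : √L⁻¹ * √L⁻¹ = L⁻¹ := Real.mul_self_sqrt h4
  calc _ = (√a)⁻¹ * ((√L⁻¹ * √L⁻¹) * (x * y)) := by rw [h3]
    _ = _ := by ring

/-- from Cauchy back to the sum -/
lemma JP0_of_JP (hl1 : ∀ o, 0 ≤ lam o) {S : ℝ} (h : JP M e₀ lam v w G rng S) :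
    JP0 M e₀ lam v w G rng S := by
  intro c P 𝒥 hJ
  refine le_trans ?_ (h c P 𝒥 hJ)
  have hw : 0 ≤ wP e₀ P := mul_nonneg (Nat.cast_nonneg _) (rat_nonneg P)
  refine mul_le_mul_of_nonneg_left ?_ hw
  have hl : ∀ t : Tm O, 0 ≤ lam t.o * nm t.k := fun t =>
    mul_nonneg (hl1 t.o) (Nat.cast_nonneg _)
  rw [Finset.sum_congr rfl fun t _ =>
    key_real (Nat.cast_nonneg _) (hl t) (norm_nonneg _) (norm_nonneg _)]
  exact Real.sum_sqrt_mul_sqrt_le 𝒥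
    (fun t => mul_nonneg (inv_nonneg.mpr (mul_nonneg (Nat.cast_nonneg _) (hl t)))
      (sq_nonneg _))
    (fun t => mul_nonneg (inv_nonneg.mpr (hl t)) (sq_nonneg _))

/-! ### sizes -/

/-- sizes of a prefix -/
structure Sz (X : ℝ) (P : Pf) : Prop where
  B : (nm P.B : ℝ) ≤ X
  b : (nm P.b : ℝ) ≤ X
  R : (nm P.R : ℝ) ≤ X
  Z : (nm P.Z : ℝ) ≤ X
  R' : (nm P.R' : ℝ) ≤ X
  Z' : (nm P.Z' : ℝ) ≤ X
  Bb : (nm (P.B * P.b) : ℝ) ≤ X

lemma vb_le {P : Pf} {p : Eis} (h : LocP P p) :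
    multiplicity p P.b ≤ 2 * multiplicity p (P.F * P.R' * P.Z') := by
  rw [h.U]
  have h1 := h.vB
  rcases Nat.eq_zero_or_pos (multiplicity p P.B) with h2 | h2
  · obtain ⟨a1, a2, a3, a4, a5, -⟩ := h.zero h2
    rcases a5 with a5 | a5 <;> omega
  · obtain ⟨a1, a2, a3, a4⟩ := h.one (by omega)
    rcases a4 with a4 | ⟨a4, a5⟩
    · omega
    · rcases a5 with a5 | a5 <;> omega

/-- `b' ∣ (F R' Z'')²` -/
lemma b_dvd {t : Tm O} (h : Facts M t) :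
    (pf t).b ∣ ((pf t).F * (pf t).R' * (pf t).Z') ^ 2 := by
  have h1 := fac h.sb.prim (ppSet_pp ((pf t).B * (pf t).b))
    (pp_mono (mul_ne_zero h.sB.ne_zero h.sb.ne_zero) (Dvd.intro_left _ rfl))
  have hn : (pf t).F * (pf t).R' * (pf t).Z' ≠ 0 :=
    mul_ne_zero (mul_ne_zero h.pF.ne_zero h.pR'.1.ne_zero) h.pZ'.1.ne_zero
  rw [h1]
  refine Finset.prod_dvd_of_coprime ?_ ?_
  · intro a ha b hb hab
    exact ((ppSet_pp _).pairwise ha hb hab).pow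
  · intro p hp
    have hpp := (isPP_of_mem_pp hp).prime
    rw [pow_dvd_iff hpp (pow_ne_zero _ hn), mult_pow hpp hn]
    exact vb_le (h.loc p hp)

lemma sz [Fintype O] {Y : ℝ} {t : Tm O} (hd : Dat4 M 1 lam v w Y) (h : t.OK M 1)
    (hv : t.val 1 lam v w G ≠ 0) : Sz (Y ^ 7) (pf t) := by
  obtain ⟨hgs, hxs, hys⟩ := val_ne hv
  have hf := facts hd h hv
  obtain ⟨x, -, -, hx⟩ := xs_ne hxs
  obtain ⟨y, -, -, hy⟩ := ys_ne hys
  have hY := hd.X1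
  have h1 : (nm (t.R * t.R' * x) : ℝ) ≤ Y := (hd.vx _ _ hx).2
  have h2 : (nm (t.D1 * (t.Z * t.Z' * y)) : ℝ) ≤ Y := hd.wy _ _ hy
  have n1 : t.R * t.R' * x ≠ 0 := ((hd.hv _).sm _ hx).ne_zero
  have n2 : t.D1 * (t.Z * t.Z' * y) ≠ 0 := ((hd.hw _).sm _ hy).ne_zero
  have le : ∀ {a b : Eis}, b ≠ 0 → a ∣ b → (nm b : ℝ) ≤ Y → (nm a : ℝ) ≤ Y := by
    intro a b hb hab hbY
    exact le_trans (by exact_mod_cast nm_le_of_dvd hb hab) hbY
  have hRR : (nm (t.R * t.R') : ℝ) ≤ Y := le n1 (dvd_mul_right _ _) h1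
  have hZZ : (nm (t.Z * t.Z') : ℝ) ≤ Y := le n2 ((dvd_mul_right _ _).mul_left _) h2
  have pR := hf.pR.1.ne_zero
  have pZ := hf.pZ.1.ne_zero
  have pR' := hf.pR'.1.ne_zero
  have pZ' := hf.pZ'.1.ne_zero
  have pB := hf.sB.ne_zero
  have pb := hf.sb.ne_zero
  have o : ∀ {a : Eis}, a ≠ 0 → (1 : ℝ) ≤ nm a := fun ha => by exact_mod_cast nm_pos.mpr ha
  have hR : (nm (pf t).R : ℝ) ≤ Y := le (left_ne_zero_of_mul n1) (dvd_mul_right _ _) hRR
  have hR' : (nm (pf t).R' : ℝ) ≤ Y := le (left_ne_zero_of_mul n1) (dvd_mul_left _ _) hRR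
  have hZ : (nm (pf t).Z : ℝ) ≤ Y :=
    le (left_ne_zero_of_mul (right_ne_zero_of_mul n2)) (dvd_mul_right _ _) hZZ
  have hZ' : (nm (pf t).Z' : ℝ) ≤ Y :=
    le (left_ne_zero_of_mul (right_ne_zero_of_mul n2)) (by
      rw [hf.Z']
      exact (dvd_mul_left _ _).mul_left _) hZZ
  have hFB : (nm (pf t).B : ℝ) ^ 3 * nm (pf t).F = nm (pf t).R * nm (pf t).Z := by
    have := congrArg nm hf.FB
    rw [nm_mul, nm_mul, nm_pow] at this
    exact_mod_cast this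
  have oB := o pB
  have oF := o hf.pF.ne_zero
  have hB : (nm (pf t).B : ℝ) ≤ Y ^ 2 := by
    calc (nm (pf t).B : ℝ) ≤ (nm (pf t).B : ℝ) ^ 3 := le_self_pow₀ oB (by norm_num)
      _ ≤ (nm (pf t).B : ℝ) ^ 3 * nm (pf t).F := le_mul_of_one_le_right (by positivity) oF
      _ = nm (pf t).R * nm (pf t).Z := hFB
      _ ≤ Y * Y := by gcongr
      _ = Y ^ 2 := by ring
  have hF : (nm (pf t).F : ℝ) ≤ nm (pf t).R * nm (pf t).Z := by
    rw [← hFB]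
    exact le_mul_of_one_le_left (by positivity) (one_le_pow₀ oB)
  have hRR2 : (nm (pf t).R : ℝ) * nm (pf t).R' ≤ Y := by
    have : (nm (t.R * t.R') : ℝ) = nm (pf t).R * nm (pf t).R' := by
      rw [nm_mul, Nat.cast_mul]
      rfl
    rw [← this]
    exact hRR
  have hZZ2 : (nm (pf t).Z : ℝ) * nm (pf t).Z' ≤ Y := by
    have h3 : (nm ((pf t).Z * (pf t).Z') : ℝ) ≤ Y :=
      le (left_ne_zero_of_mul (right_ne_zero_of_mul n2)) (by
        rw [hf.Z']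
        exact mul_dvd_mul dvd_rfl (dvd_mul_left _ _)) hZZ
    rwa [nm_mul, Nat.cast_mul] at h3
  have hb : (nm (pf t).b : ℝ) ≤ Y ^ 4 := by
    have h3 := nm_le_of_dvd (pow_ne_zero 2 (mul_ne_zero (mul_ne_zero hf.pF.ne_zero pR') pZ'))
      (b_dvd hf)
    rw [nm_pow, nm_mul, nm_mul] at h3
    calc (nm (pf t).b : ℝ) ≤ (nm (pf t).F * nm (pf t).R' * nm (pf t).Z') ^ 2 := by
          exact_mod_cast h3
      _ ≤ ((nm (pf t).R * nm (pf t).Z) * nm (pf t).R' * nm (pf t).Z') ^ 2 := by gcongr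
      _ = ((nm (pf t).R * nm (pf t).R') * (nm (pf t).Z * nm (pf t).Z')) ^ 2 := by ring
      _ ≤ (Y * Y) ^ 2 := by gcongr
      _ = Y ^ 4 := by ring
  have up : ∀ {k : ℕ}, k ≤ 7 → Y ^ k ≤ Y ^ 7 := fun hk => pow_le_pow_right₀ hY hk
  have up1 : Y ≤ Y ^ 7 := le_self_pow₀ hY (by norm_num)
  refine ⟨hB.trans (up (by norm_num)), hb.trans (up (by norm_num)), hR.trans up1, hZ.trans up1,
    hR'.trans up1, hZ'.trans up1, ?_⟩
  rw [nm_mul, Nat.cast_mul]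
  calc (nm (pf t).B : ℝ) * nm (pf t).b ≤ Y ^ 2 * Y ^ 4 := by gcongr
    _ = Y ^ 6 := by ring
    _ ≤ Y ^ 7 := up (by norm_num)

/-! ### the sum over the prefixes -/

/-- the structure needed for counting -/
structure Cn (X : ℝ) (P : Pf) : Prop extends Sz X P where
  sB : IsPrim P.B
  sb : IsPrim P.b
  pR : PrI P.B P.R
  pZ : PrI P.B P.Z
  pR' : PrI P.b P.R'
  pZ' : PrI P.b P.Z'

open Classical in
theorem sum_pf {ε : ℝ} (hε : 0 < ε) : ∃ C : ℝ, 1 ≤ C ∧ ∀ (e₀ : Eis) (X : ℝ), 1 ≤ X → e₀ ≠ 0 →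
    (nm e₀ : ℝ) ≤ X → ∀ Ps : Finset Pf, (∀ P ∈ Ps, Cn X P) →
    ∑ P ∈ Ps, ((nm (r0 e₀ P) : ℝ))⁻¹ ≤ C * X ^ ε := by
  obtain ⟨C₁, hC₁, h₁⟩ := tau_le_rpow (ε := ε / 3) (by positivity)
  obtain ⟨C₂, hC₂, h₂⟩ := Crest.Agent.R017.E4401.lCnt (ε / 36) (by positivity)
  have hC3 : (0 : ℝ) ≤ (100 * (1 + ((1 : ℕ) : ℝ) / (ε / 3))) ^ 1 := by positivity
  refine ⟨1 + (100 * (1 + ((1 : ℕ) : ℝ) / (ε / 3))) ^ 1 * C₁ * C₂ ^ 6, ?_, ?_⟩
  · have : (0 : ℝ) ≤ (100 * (1 + ((1 : ℕ) : ℝ) / (ε / 3))) ^ 1 * C₁ * C₂ ^ 6 := by positivity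
    linarith
  intro e₀ X hX he heX Ps hPs
  have hX0 : 0 ≤ X := by linarith
  have hXX : X ≤ X ^ 2 := le_self_pow₀ hX (by norm_num)
  -- the radical
  have hpr : ∀ P : Pf, IsPrim (r0 e₀ P) ∧ IsPrim (re e₀ P) := fun P =>
    ⟨((ppSet_pp _).subset (Finset.filter_subset _ _)).isPrim_prod,
      ((ppSet_pp _).subset (Finset.filter_subset _ _)).isPrim_prod⟩
  have hmap : ∀ P ∈ Ps, (r0 e₀ P, re e₀ P) ∈ primBall ⌊X⌋₊ ×ˢ dvs e₀ := by
    intro P hP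
    have hc := hPs P hP
    rw [Finset.mem_product]
    constructor
    · rw [mem_primBall]
      refine ⟨Nat.le_floor (le_trans ?_ hc.Bb), (hpr P).1⟩
      have h3 : r0 e₀ P ∣ P.B * P.b :=
        ((ppSet_pp _).subset (Finset.filter_subset _ _)).prod_dvd.mpr fun p hp =>
          dvd_of_mem_pp (Finset.mem_filter.mp hp).1
      exact_mod_cast nm_le_of_dvd (mul_ne_zero hc.sB.ne_zero hc.sb.ne_zero) h3
    · rw [mem_dvs he]
      refine ⟨(hpr P).2, ?_⟩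
      exact ((ppSet_pp _).subset (Finset.filter_subset _ _)).prod_dvd.mpr fun p hp =>
          (Finset.mem_filter.mp hp).2
  rw [← Finset.sum_fiberwise_of_maps_to hmap]
  have key : ∀ x ∈ primBall ⌊X⌋₊ ×ˢ dvs e₀,
      ∑ P ∈ Ps.filter (fun P => (r0 e₀ P, re e₀ P) = x), ((nm (r0 e₀ P) : ℝ))⁻¹ ≤
      (nm x.1 : ℝ)⁻¹ * (C₂ ^ 6 * X ^ (ε / 3)) := by
    rintro ⟨a, c⟩ hac
    rw [Finset.mem_product, mem_primBall, mem_dvs he] at hac
    obtain ⟨⟨ha, hap⟩, hcp, hce⟩ := hac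
    set q : Eis := a * c with hq
    have hq0 : q ≠ 0 := mul_ne_zero hap.ne_zero hcp.ne_zero
    have hqX : (nm q : ℝ) ≤ X ^ 2 := by
      rw [hq, nm_mul, Nat.cast_mul, pow_two]
      have h3 : (nm a : ℝ) ≤ X := (Nat.le_floor_iff hX0).mp ha
      have h4 : (nm c : ℝ) ≤ X := le_trans (by exact_mod_cast nm_le_of_dvd he hce) heX
      gcongr
    set T : Finset Eis := (primBall ⌊X ^ 2⌋₊).filter fun R => PrI q R with hT
    have hTc : (T.card : ℝ) ≤ C₂ * X ^ (ε / 18) := by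
      have h3 := h₂ q (X ^ 2) (one_le_pow₀ hX) hq0 hqX
      have h4 : (X ^ 2) ^ (ε / 36) = X ^ (ε / 18) := by
        rw [← Real.rpow_natCast, ← Real.rpow_mul hX0]
        congr 1
        push_cast
        ring
      rw [h4] at h3
      exact h3
    have hcard : ((Ps.filter (fun P => (r0 e₀ P, re e₀ P) = (a, c))).card : ℝ) ≤
        (T.card : ℝ) ^ 6 := by
      have h3 : (Ps.filter (fun P => (r0 e₀ P, re e₀ P) = (a, c))).card ≤
          (T ×ˢ T ×ˢ T ×ˢ T ×ˢ T ×ˢ T).card := by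
        refine Finset.card_le_card_of_injOn (fun P => (P.B, P.b, P.R, P.Z, P.R', P.Z')) ?_ ?_
        · intro P hP
          rw [Finset.mem_coe, Finset.mem_filter] at hP
          obtain ⟨hP1, hP2⟩ := hP
          rw [Prod.mk.injEq] at hP2
          have hc := hPs P hP1
          have hpq : ∀ p : Eis, Prime p → p ∣ P.B * P.b → p ∣ q := by
            intro p hp hpd
            have hl : ¬ lam ∣ p := fun h => (hc.sB.mul hc.sb).not_lam_dvd (h.trans hpd)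
            have hq1 : IsPP (prim p) := ⟨prim_isPrim hl, (prim_associated p).prime_iff.mp hp⟩
            have h4 := prim_associated p
            rw [h4.dvd_iff_dvd_left] at hpd ⊢
            have h5 : prim p ∈ pp (P.B * P.b) :=
              (mem_pp (mul_ne_zero hc.sB.ne_zero hc.sb.ne_zero)).mpr ⟨hq1, hpd⟩
            rw [hq, ← hP2.1, ← hP2.2]
            by_cases h6 : prim p ∣ e₀
            · refine Dvd.dvd.mul_left ?_ _
              exact Finset.dvd_prod_of_mem (fun x => x) (Finset.mem_filter.mpr ⟨h5, h6⟩)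
            · refine Dvd.dvd.mul_right ?_ _
              exact Finset.dvd_prod_of_mem (fun x => x) (Finset.mem_filter.mpr ⟨h5, h6⟩)
          have mT : ∀ {n : Eis}, IsPrim n → (nm n : ℝ) ≤ X →
              (∀ p : Eis, Prime p → p ∣ n → p ∣ P.B * P.b) → n ∈ T := by
            intro n hn hnX hnp
            rw [hT, Finset.mem_filter, mem_primBall]
            exact ⟨⟨Nat.le_floor (hnX.trans hXX), hn⟩, hn,
              fun p hp hpn => hpq p hp (hnp p hp hpn)⟩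
          simp only [Finset.coe_product, Set.mem_prod, Finset.mem_coe]
          exact ⟨mT hc.sB hc.B fun p _ h => h.mul_right _,
            mT hc.sb hc.b fun p _ h => h.mul_left _,
            mT hc.pR.1 hc.R fun p hp h => (hc.pR.2 p hp h).mul_right _,
            mT hc.pZ.1 hc.Z fun p hp h => (hc.pZ.2 p hp h).mul_right _,
            mT hc.pR'.1 hc.R' fun p hp h => (hc.pR'.2 p hp h).mul_left _,
            mT hc.pZ'.1 hc.Z' fun p hp h => (hc.pZ'.2 p hp h).mul_left _⟩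
        · intro P _ P' _ h
          simp only [Prod.mk.injEq] at h
          obtain ⟨h1, h2, h3, h4, h5, h6⟩ := h
          cases P
          cases P'
          simp only at *
          subst h1 h2 h3 h4 h5 h6
          rfl
      have h4 : (T ×ˢ T ×ˢ T ×ˢ T ×ˢ T ×ˢ T).card = T.card ^ 6 := by
        simp only [Finset.card_product]
        ring
      rw [h4] at h3
      exact_mod_cast h3
    calc ∑ P ∈ Ps.filter (fun P => (r0 e₀ P, re e₀ P) = (a, c)), ((nm (r0 e₀ P) : ℝ))⁻¹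
        = ∑ P ∈ Ps.filter (fun P => (r0 e₀ P, re e₀ P) = (a, c)), ((nm a : ℝ))⁻¹ := by
          refine Finset.sum_congr rfl fun P hP => ?_
          have := (Finset.mem_filter.mp hP).2
          rw [Prod.mk.injEq] at this
          rw [this.1]
      _ = ((Ps.filter (fun P => (r0 e₀ P, re e₀ P) = (a, c))).card : ℝ) * (nm a : ℝ)⁻¹ := by
          rw [Finset.sum_const, nsmul_eq_mul]
      _ ≤ (T.card : ℝ) ^ 6 * (nm a : ℝ)⁻¹ :=
          mul_le_mul_of_nonneg_right hcard (by positivity)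
      _ ≤ (C₂ * X ^ (ε / 18)) ^ 6 * (nm a : ℝ)⁻¹ := by gcongr
      _ = (nm a : ℝ)⁻¹ * (C₂ ^ 6 * X ^ (ε / 3)) := by
          rw [mul_pow, ← Real.rpow_natCast (X ^ _), ← Real.rpow_mul hX0]
          have : ε / 18 * ((6 : ℕ) : ℝ) = ε / 3 := by
            push_cast
            ring
          rw [this]
          ring
  refine (Finset.sum_le_sum key).trans ?_
  rw [Finset.sum_product]
  simp only [Finset.sum_const, nsmul_eq_mul]
  have e1 : ∑ x ∈ primBall ⌊X⌋₊, ((dvs e₀).card : ℝ) * ((nm x : ℝ)⁻¹ * (C₂ ^ 6 * X ^ (ε / 3))) =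
      (∑ x ∈ primBall ⌊X⌋₊, 1 / (nm x : ℝ)) * ((dvs e₀).card * (C₂ ^ 6 * X ^ (ε / 3))) := by
    rw [Finset.sum_mul]
    refine Finset.sum_congr rfl fun x _ => ?_
    rw [one_div]
    ring
  rw [e1]
  have e2 : ∑ x ∈ primBall ⌊X⌋₊, 1 / (nm x : ℝ) ≤
      (100 * (1 + ((1 : ℕ) : ℝ) / (ε / 3))) ^ 1 * X ^ (ε / 3) := by
    refine (sum_inv_primBall_le ⌊X⌋₊).trans ?_
    have h3 : Real.log (⌊X⌋₊ : ℕ) ≤ Real.log X :=
      Real.log_le_log (by exact_mod_cast Nat.floor_pos.mpr hX) (Nat.floor_le (by positivity))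
    have h4 := poly_log_le 1 hX (δ := ε / 3) (by positivity)
    rw [pow_one] at h4
    linarith
  have e3 : ((dvs e₀).card : ℝ) ≤ C₁ * X ^ (ε / 3) := by
    have h3 : ((dvs e₀).card : ℝ) ≤ C₁ * (nm e₀ : ℝ) ^ (ε / 3) := h₁ e₀ he
    have h4 : (nm e₀ : ℝ) ^ (ε / 3) ≤ X ^ (ε / 3) :=
      Real.rpow_le_rpow (Nat.cast_nonneg _) heX (by positivity)
    nlinarith
  have hXε : (0 : ℝ) ≤ X ^ ε := by positivity
  calc (∑ x ∈ primBall ⌊X⌋₊, 1 / (nm x : ℝ)) * ((dvs e₀).card * (C₂ ^ 6 * X ^ (ε / 3)))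
      ≤ ((100 * (1 + ((1 : ℕ) : ℝ) / (ε / 3))) ^ 1 * X ^ (ε / 3)) *
        ((C₁ * X ^ (ε / 3)) * (C₂ ^ 6 * X ^ (ε / 3))) := by gcongr
    _ = (100 * (1 + ((1 : ℕ) : ℝ) / (ε / 3))) ^ 1 * C₁ * C₂ ^ 6 *
        (X ^ (ε / 3) * X ^ (ε / 3) * X ^ (ε / 3)) := by ring
    _ = (100 * (1 + ((1 : ℕ) : ℝ) / (ε / 3))) ^ 1 * C₁ * C₂ ^ 6 * X ^ ε := by
        rw [← Real.rpow_add (by linarith), ← Real.rpow_add (by linarith)]
        congr 2
        ring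
    _ ≤ _ := by rw [add_mul]; linarith

open Classical in
/-- **regrouping**: the joint block hypothesis from its form at a fixed prefix -/
theorem JB_of_JP0 {ε : ℝ} (hε : 0 < ε) : ∃ C : ℝ, 1 ≤ C ∧
    ∀ (M e₀ : Eis) (O : Type) (_ : Fintype O) (lam : O → ℝ) (v w : O → Eis → ℂ) (G : Eis → ℂ)
      (rng : Tm O → Prop) (Y S : ℝ), Dat4 M 1 lam v w Y → e₀ ≠ 0 → (nm e₀ : ℝ) ≤ Y →
      0 ≤ S → JP0 M e₀ lam v w G rng S → JB M 1 lam v w G rng (C * Y ^ ε * S) := by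
  obtain ⟨C, hC, hs⟩ := sum_pf (ε := ε / 7) (by positivity)
  refine ⟨C, hC, ?_⟩
  intro M e₀ O _ lam v w G rng Y S hd he heY hS hJP c 𝒥 hJ
  have hY := hd.X1
  have hmap : ∀ t ∈ 𝒥, pf t ∈ 𝒥.image pf := fun t ht => Finset.mem_image_of_mem _ ht
  rw [← Finset.sum_fiberwise_of_maps_to hmap]
  have hCn : ∀ P ∈ 𝒥.image pf, Cn (Y ^ 7) P := by
    intro P hP
    obtain ⟨t, ht, rfl⟩ := Finset.mem_image.mp hP
    obtain ⟨h1, h2, -, -⟩ := hJ t ht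
    have hf := facts hd h1 h2
    exact ⟨sz hd h1 h2, hf.sB.prim, hf.sb.prim, hf.pR, hf.pZ, hf.pR', hf.pZ'⟩
  have key : ∀ P ∈ 𝒥.image pf, ∑ t ∈ 𝒥.filter (fun t => pf t = P), t.val 1 lam v w G ≤
      ((nm (r0 e₀ P) : ℝ))⁻¹ * S := by
    intro P hP
    have hr0 : (0 : ℝ) < nm (r0 e₀ P) := by
      have : IsPrim (r0 e₀ P) :=
        ((ppSet_pp _).subset (Finset.filter_subset _ _)).isPrim_prod
      exact_mod_cast nm_pos.mpr this.ne_zero
    have h1 := hJP c P (𝒥.filter (fun t => pf t = P)) (by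
      intro t ht
      rw [Finset.mem_filter] at ht
      obtain ⟨h1, h2, h3, h4⟩ := hJ t ht.1
      exact ⟨h1, h2, h3, h4, ht.2⟩)
    calc ∑ t ∈ 𝒥.filter (fun t => pf t = P), t.val 1 lam v w G
        ≤ ∑ t ∈ 𝒥.filter (fun t => pf t = P), rat P *
          ((nm (t.D1 * b1 t) : ℝ) ^ (-(1 / 2) : ℝ) *
            ((lam t.o * nm t.k)⁻¹ * (‖t.xs v G‖ * ‖t.ys w G‖))) := by
          refine Finset.sum_le_sum fun t ht => ?_
          rw [Finset.mem_filter] at ht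
          obtain ⟨h4, h5, -, -⟩ := hJ t ht.1
          have h6 := val_le hd h4 h5
          rw [ht.2] at h6
          exact h6
      _ = ((nm (r0 e₀ P) : ℝ))⁻¹ * (wP e₀ P * ∑ t ∈ 𝒥.filter (fun t => pf t = P),
          (nm (t.D1 * b1 t) : ℝ) ^ (-(1 / 2) : ℝ) *
            ((lam t.o * nm t.k)⁻¹ * (‖t.xs v G‖ * ‖t.ys w G‖))) := by
          rw [← Finset.mul_sum]
          unfold wP
          field_simp
      _ ≤ ((nm (r0 e₀ P) : ℝ))⁻¹ * S := mul_le_mul_of_nonneg_left h1 (by positivity)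
  calc ∑ P ∈ 𝒥.image pf, ∑ t ∈ 𝒥.filter (fun t => pf t = P), t.val 1 lam v w G
      ≤ ∑ P ∈ 𝒥.image pf, ((nm (r0 e₀ P) : ℝ))⁻¹ * S := Finset.sum_le_sum key
    _ = (∑ P ∈ 𝒥.image pf, ((nm (r0 e₀ P) : ℝ))⁻¹) * S := by rw [Finset.sum_mul]
    _ ≤ (C * (Y ^ 7) ^ (ε / 7)) * S := by
        refine mul_le_mul_of_nonneg_right ?_ hS
        exact hs e₀ (Y ^ 7) (one_le_pow₀ hY) he
          (heY.trans (le_self_pow₀ hY (by norm_num))) _ hCn
    _ = C * Y ^ ε * S := by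
        rw [← Real.rpow_natCast Y, ← Real.rpow_mul (by linarith)]
        congr 3
        push_cast
        ring

/-- the form after Cauchy -/
theorem JB_of_JP {ε : ℝ} (hε : 0 < ε) : ∃ C : ℝ, 1 ≤ C ∧
    ∀ (M e₀ : Eis) (O : Type) (_ : Fintype O) (lam : O → ℝ) (v w : O → Eis → ℂ) (G : Eis → ℂ)
      (rng : Tm O → Prop) (Y S : ℝ), Dat4 M 1 lam v w Y → e₀ ≠ 0 → (nm e₀ : ℝ) ≤ Y →
      0 ≤ S → JP M e₀ lam v w G rng S → JB M 1 lam v w G rng (C * Y ^ ε * S) := by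
  obtain ⟨C, hC, h⟩ := JB_of_JP0 hε
  refine ⟨C, hC, ?_⟩
  intro M e₀ O _ lam v w G rng Y S hd he heY hS hJP
  exact h M e₀ O _ lam v w G rng Y S hd he heY hS
    (JP0_of_JP (fun o => by linarith [(hd.lam1 o).1]) hJP)

end Crest.Agent.R017.E4RH858
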