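import Crest.Agent.R017.E4RGa_858
import Crest.Agent.R017.E4v7_352

/-!
# Row 17, C70/E4 version 7, regrouping (helper858), version 3, part a: prefixes with arbitrary exponents

For a term `t` at `f = 1`: `b1 t` = product of the primes `p ∣ B b` with
`v_p(B) = 0, v_p(b) = 2, v_p(R R') = 0, v_p(Z Z') = 1`, and
`pf t = (B, b', R, Z, R', Z'')` with `b = b₁² b'`, `Z' = b₁ Z''`.

* `Facts`, `LocP`, `facts`
* `ratio_le`, `val_le`, `ext_pf`
-/

set_option autoImplicit false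

noncomputable section

open Complex
open scoped ComplexConjugate

namespace Crest.Agent.R017.E4RH858

open Crest.Agent.R012 Crest.Agent.R012.Eis Crest.Agent.R012.Mob705
open Crest.Agent.R012.Div277 (nm_le_of_dvd)
open Crest.Agent.R017.Sx545 Crest.Agent.R017.CM106 Crest.Agent.R017.C70
open Crest.Agent.R017.E4352 Crest.Agent.R017.E4J352
open Crest.Agent.R017.E4o502 (vD wD GoodD GB)
open Crest.Agent.R017.E4fe502 (FF)
open Crest.Agent.R017.E4BW858 (isPrim_prod')
open Crest.Agent.R017.E4RG858 (fm pow_dvd_iff dvd_iff_mult mult_mul mult_pow mult_eq_zero fac rho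
  rho_nonneg gs_le_rho gs_ne)

/-- prefixes : `B, b', R, Z, R', Z''` -/
structure Pf where
  /-- cubes of the opening -/
  B : Eis
  /-- the part `b'` of `b = b₁² b'` -/
  b : Eis
  /-- `B`-part of `x` -/
  R : Eis
  /-- `B`-part of `y` -/
  Z : Eis
  /-- `b`-part of `x` -/
  R' : Eis
  /-- the part `Z''` of `Z' = b₁ Z''` -/
  Z' : Eis

/-- the frequency factor of a prefix -/
def Pf.F (P : Pf) : Eis := P.R * P.Z / P.B ^ 3

/-- the Gauss condition -/
def GG (u k : ℕ) : Prop := k = u + 1 ∨ (k % 3 = 0 ∧ k ≤ u)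

variable {O : Type}

/-- `p` belongs to `b₁` -/
def B1p (t : Tm O) (p : Eis) : Prop :=
  multiplicity p t.B = 0 ∧ multiplicity p t.b = 2 ∧ multiplicity p (t.R * t.R') = 0 ∧
    multiplicity p (t.Z * t.Z') = 1

open Classical in
/-- the primes of `b₁` -/
def s1 (t : Tm O) : Finset Eis := (pp (t.B * t.b)).filter (fun p => B1p t p)

open Classical in
/-- the other primes -/
def s2 (t : Tm O) : Finset Eis := (pp (t.B * t.b)).filter (fun p => ¬ B1p t p)

/-- the generic part -/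
def b1 (t : Tm O) : Eis := ∏ p ∈ s1 t, p

/-- **the prefix of a term** -/
def pf (t : Tm O) : Pf where
  B := t.B
  b := ∏ p ∈ s2 t, p ^ multiplicity p t.b
  R := t.R
  Z := t.Z
  R' := t.R'
  Z' := ∏ p ∈ s2 t, p ^ multiplicity p t.Z'

/-- local structure of a prefix at a prime of `B b'` -/
structure LocP (P : Pf) (p : Eis) : Prop where
  vB : multiplicity p P.B ≤ 1
  vR : multiplicity p P.R + multiplicity p P.R' ≤ 2
  U : multiplicity p (P.F * P.R' * P.Z') =
    multiplicity p P.F + multiplicity p P.R' + multiplicity p P.Z'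
  F : multiplicity p P.F + 3 * multiplicity p P.B = multiplicity p P.R + multiplicity p P.Z
  one : multiplicity p P.B = 1 → multiplicity p P.R' = 0 ∧ multiplicity p P.Z' = 0 ∧
    1 ≤ multiplicity p P.Z ∧ (multiplicity p P.b = 0 ∨
      (1 ≤ multiplicity p P.F ∧ GG (multiplicity p P.F) (multiplicity p P.b)))
  zero : multiplicity p P.B = 0 → multiplicity p P.R = 0 ∧ multiplicity p P.Z = 0 ∧
    1 ≤ multiplicity p P.b ∧
    (1 ≤ multiplicity p P.Z' ∨ (multiplicity p P.R' = 2 ∧ multiplicity p P.b = 3)) ∧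
    GG (multiplicity p P.R' + multiplicity p P.Z') (multiplicity p P.b) ∧
    ¬ (multiplicity p P.b = 2 ∧ multiplicity p P.R' = 0 ∧ multiplicity p P.Z' = 1)

/-- all facts about a term -/
structure Facts (M : Eis) (t : Tm O) : Prop where
  D0 : t.D0 = 1
  b : t.b = b1 t ^ 2 * (pf t).b
  Z' : t.Z' = b1 t * (pf t).Z'
  F : t.F 1 = (pf t).F
  FB : (pf t).B ^ 3 * (pf t).F = (pf t).R * (pf t).Z
  pF : IsPrim (pf t).F
  sb1 : Sm M (b1 t)
  qb1 : Squarefree (b1 t)
  sB : Sm M (pf t).B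
  qB : Squarefree (pf t).B
  sb : Sm M (pf t).b
  pR : PrI (pf t).B (pf t).R
  pZ : PrI (pf t).B (pf t).Z
  pR' : PrI (pf t).b (pf t).R'
  pZ' : PrI (pf t).b (pf t).Z'
  cRZ : IsCoprime ((pf t).R' * (pf t).Z') (pf t).B
  c1 : IsCoprime (b1 t) ((pf t).B * (pf t).b)
  c1D : IsCoprime (b1 t) t.D1
  c1k : IsCoprime (b1 t) t.k
  cD : IsCoprime ((pf t).B * (pf t).b) t.D1
  ck : IsCoprime (pf t).b t.k
  ckF : IsCoprime t.k (pf t).F
  ps : pp ((pf t).B * (pf t).b) = s2 t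
  mb : ∀ p ∈ s2 t, multiplicity p (pf t).b = multiplicity p t.b
  mZ : ∀ p ∈ s2 t, multiplicity p (pf t).Z' = multiplicity p t.Z'
  loc : ∀ p ∈ pp ((pf t).B * (pf t).b), LocP (pf t) p

/-! ### supports -/

lemma exists_of_Sd {c : Eis → ℂ} {d : Eis} (h : Sd c d ≠ 0) : ∃ x, c x ≠ 0 := by
  by_contra h1
  push Not at h1
  apply h
  unfold Sd
  simp [h1]

lemma exists_of_CS {c : Eis → ℂ} {d : Eis} (h : CS c d ≠ 0) : ∃ x, c x ≠ 0 := by
  by_contra h1
  push Not at h1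
  apply h
  unfold CS
  simp [h1]

lemma tws_ne {R q : Eis} {g c : Eis → ℂ} {y : Eis} (h : tws R q g c y ≠ 0) :
    IsCoprime y q ∧ c (R * y) ≠ 0 := by
  unfold tws at h
  split_ifs at h with h1
  · exact ⟨h1, right_ne_zero_of_mul h⟩
  · exact absurd rfl h

variable {M e₀ : Eis} {lam : O → ℝ} {v w : O → Eis → ℂ} {G : Eis → ℂ} {t : Tm O}

lemma xs_ne (h : t.xs v G ≠ 0) : ∃ x, IsCoprime x (t.B * t.b) ∧
    IsCoprime (t.R * t.R' * x) (t.D0 * t.D1) ∧ v t.o (t.R * t.R' * x) ≠ 0 := by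
  obtain ⟨x, hx⟩ := exists_of_Sd h
  obtain ⟨h1, h2⟩ := tws_ne hx
  obtain ⟨h3, h4⟩ := tws_ne h2
  rw [one_mul] at h4
  exact ⟨x, h1, h3, h4⟩

lemma ys_ne (h : t.ys w G ≠ 0) : ∃ y, IsCoprime y (t.B * t.b) ∧
    IsCoprime (t.Z * t.Z' * y) (t.D0 * t.D1) ∧ w t.o (t.D1 * (t.Z * t.Z' * y)) ≠ 0 := by
  obtain ⟨x, hx⟩ := exists_of_CS h
  obtain ⟨h1, h2⟩ := tws_ne hx
  obtain ⟨h3, h4⟩ := tws_ne h2
  exact ⟨x, h1, h3, h4⟩

lemma val_ne {f : Eis} (h : t.val f lam v w G ≠ 0) :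
    gs (t.F f * t.R' * t.Z') t.b ≠ 0 ∧ t.xs v G ≠ 0 ∧ t.ys w G ≠ 0 := by
  unfold Tm.val Tm.wt at h
  refine ⟨?_, ?_, ?_⟩
  · rintro h1
    apply h
    rw [h1]
    simp
  · rintro h1
    apply h
    rw [h1]
    simp
  · rintro h1
    apply h
    rw [h1]
    simp

/-! ### local structure -/

lemma base {t : Tm O} (h : t.OK M 1) : t.D0 = 1 ∧ IsPrim (t.F 1) ∧ t.F 1 = (pf t).F ∧
    t.B ^ 3 * t.F 1 = t.R * t.Z ∧ Squarefree t.B ∧ Sm M t.B ∧ IsCoprime t.B t.D1 ∧
    ∀ p : Eis, Prime p → p ∣ t.B → p ∣ t.Z := by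
  have h0 : t.D0 = 1 := isPrim_eq_one_of_isUnit h.pD0 (isUnit_of_dvd_one h.good.1)
  have h1 : (1 : Eis) / t.D0 = 1 := by rw [h0, EuclideanDomain.div_one]
  have h2 := h.gb
  rw [h1] at h2
  obtain ⟨a1, a2, a3, a4, a5⟩ := h2
  have h3 : t.B ^ 3 * t.F 1 = t.R * t.Z := by
    unfold Tm.F FF
    rw [h1, EuclideanDomain.mul_div_cancel' (pow_ne_zero 3 a2.ne_zero) a4, one_mul]
  have h4 : IsPrim (t.F 1) := by
    have : IsPrim (t.B ^ 3 * t.F 1) := h3 ▸ h.pR.1.mul h.pZ.1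
    exact this.of_mul_left (a2.prim.pow 3)
  refine ⟨h0, h4, ?_, h3, a1, a2, ?_, ?_⟩
  · unfold Tm.F FF Pf.F pf
    rw [h1, one_mul]
  · rw [h0, one_mul] at a3
    exact a3
  · intro p hp hpB
    have := a5 p hp hpB
    rwa [one_mul] at this

/-- the local facts of a term at `p` -/
structure LocT (t : Tm O) (p : Eis) : Prop where
  vB : multiplicity p t.B ≤ 1
  vR : multiplicity p t.R + multiplicity p t.R' ≤ 2
  U : multiplicity p (t.F 1 * t.R' * t.Z') =
    multiplicity p (t.F 1) + multiplicity p t.R' + multiplicity p t.Z'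
  F : multiplicity p (t.F 1) + 3 * multiplicity p t.B = multiplicity p t.R + multiplicity p t.Z
  one : multiplicity p t.B = 1 → multiplicity p t.R' = 0 ∧ multiplicity p t.Z' = 0 ∧
    1 ≤ multiplicity p t.Z ∧ (multiplicity p t.b = 0 ∨
      (1 ≤ multiplicity p (t.F 1) ∧ GG (multiplicity p (t.F 1)) (multiplicity p t.b)))
  zero : multiplicity p t.B = 0 → multiplicity p t.R = 0 ∧ multiplicity p t.Z = 0 ∧
    1 ≤ multiplicity p t.b ∧
    (1 ≤ multiplicity p t.Z' ∨ (multiplicity p t.R' = 2 ∧ multiplicity p t.b = 3)) ∧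
    GG (multiplicity p t.R' + multiplicity p t.Z') (multiplicity p t.b)

open Classical in
/-- **local structure** -/
lemma locT [Fintype O] {Y : ℝ} (hd : Dat4 M 1 lam v w Y) (h : t.OK M 1)
    (hv : t.val 1 lam v w G ≠ 0) {p : Eis} (hp : IsPP p) (hpb : p ∣ t.B * t.b) : LocT t p := by
  obtain ⟨hgs, hxs, hys⟩ := val_ne hv
  obtain ⟨h0, hF, -, hFB, hsq, hsB, hBD, hBZ⟩ := base h
  have hpp := hp.prime
  have nR := h.pR.1.ne_zero
  have nZ := h.pZ.1.ne_zero
  have nR' := h.pR'.1.ne_zero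
  have nZ' := h.pZ'.1.ne_zero
  have nb := h.sb.ne_zero
  have nB := hsB.ne_zero
  have nF := hF.ne_zero
  -- sizes
  obtain ⟨x, -, -, hx⟩ := xs_ne hxs
  have hr : multiplicity p (t.R * t.R') ≤ 2 := by
    by_contra h1
    have h2 : p ^ 3 ∣ t.R * t.R' := (pow_dvd_iff hpp (mul_ne_zero nR nR')).mpr (by omega)
    exact (hd.vx _ _ hx).1 p hpp (h2.mul_right x)
  rw [mult_mul hpp nR nR'] at hr
  have eF : 3 * multiplicity p t.B + multiplicity p (t.F 1) =
      multiplicity p t.R + multiplicity p t.Z := by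
    rw [← mult_mul hpp nR nZ, ← hFB, mult_mul hpp (pow_ne_zero _ nB) nF, mult_pow hpp nB]
  have eU : multiplicity p (t.F 1 * t.R' * t.Z') =
      multiplicity p (t.F 1) + multiplicity p t.R' + multiplicity p t.Z' := by
    rw [mult_mul hpp (mul_ne_zero nF nR') nZ', mult_mul hpp nF nR']
  have hnu : t.F 1 * t.R' * t.Z' ≠ 0 := mul_ne_zero (mul_ne_zero nF nR') nZ'
  -- the Gauss condition
  have hg : 1 ≤ multiplicity p t.b →
      GG (multiplicity p (t.F 1 * t.R' * t.Z')) (multiplicity p t.b) := fun h1 =>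
    gs_ne hnu h.sb.prim hgs hp ((dvd_iff_mult hpp nb).mpr h1)
  have hpbc : 1 ≤ multiplicity p t.b → 1 ≤ multiplicity p t.Z' ∨ 1 ≤ multiplicity p (t.F 1) ∨
      (multiplicity p t.R' = 2 ∧ multiplicity p t.b = 3) := by
    intro h1
    rcases h.pb p hpp ((dvd_iff_mult hpp nb).mpr h1) with h2 | h2 | ⟨h2, h3, h4, h5⟩
    · exact Or.inl ((dvd_iff_mult hpp nZ').mp h2)
    · exact Or.inr (Or.inl ((dvd_iff_mult hpp nF).mp h2))
    · rw [pow_dvd_iff hpp nR'] at h2 h3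
      rw [pow_dvd_iff hpp nb] at h4 h5
      exact Or.inr (Or.inr ⟨by omega, by omega⟩)
  by_cases hpB : p ∣ t.B
  · have c2 : multiplicity p t.B = 1 := by
      have h1 := (dvd_iff_mult hpp nB).mp hpB
      have h2 : ¬ 2 ≤ multiplicity p t.B := by
        rw [← pow_dvd_iff hpp nB, pow_two]
        intro h3
        exact hpp.not_isUnit (hsq p h3)
      omega
    have c3 : multiplicity p t.R' = 0 := mult_eq_zero hpp nR' fun h1 =>
      hpp.not_isUnit (h.cRZ.isUnit_of_dvd' (h1.mul_right _) (hpB.mul_left _))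
    have c4 : multiplicity p t.Z' = 0 := mult_eq_zero hpp nZ' fun h1 =>
      hpp.not_isUnit (h.cRZ.isUnit_of_dvd' (h1.mul_left _) (hpB.mul_left _))
    have c5 := (dvd_iff_mult hpp nZ).mp (hBZ p hpp hpB)
    refine ⟨by omega, hr, eU, by omega, fun _ => ⟨c3, c4, c5, ?_⟩, fun h1 => by omega⟩
    by_cases h1 : 1 ≤ multiplicity p t.b
    · right
      have h2 := hg h1
      rw [eU, c3, c4, add_zero, add_zero] at h2
      rcases hpbc h1 with h3 | h3 | h3
      · omega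
      · exact ⟨h3, h2⟩
      · omega
    · left; omega
  · have c2 := mult_eq_zero hpp nB hpB
    have c3 : multiplicity p t.R = 0 := mult_eq_zero hpp nR fun h1 => hpB (h.pR.2 p hpp h1)
    have c4 : multiplicity p t.Z = 0 := mult_eq_zero hpp nZ fun h1 => hpB (h.pZ.2 p hpp h1)
    have c5 : 1 ≤ multiplicity p t.b :=
      (dvd_iff_mult hpp nb).mp ((hpp.dvd_or_dvd hpb).resolve_left hpB)
    have c6 : multiplicity p (t.F 1) = 0 := by omega
    refine ⟨by omega, hr, eU, by omega, fun h1 => by omega, fun _ => ⟨c3, c4, c5, ?_, ?_⟩⟩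
    · rcases hpbc c5 with h3 | h3 | h3
      · exact Or.inl h3
      · omega
      · exact Or.inr h3
    · have h2 := hg c5
      rw [eU, c6, zero_add] at h2
      exact h2

end Crest.Agent.R017.E4RH858
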