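import Crest.Agent.R017.E4RHa_858

/-!
# Row 17, C70/E4 version 7, regrouping (helper858), version 3, part b: facts, value of a term
-/

set_option autoImplicit false

noncomputable section

open Complex
open scoped ComplexConjugate

namespace Crest.Agent.R017.E4RH858

open Crest.Agent.R012 Crest.Agent.R012.Eis Crest.Agent.R012.Mob705
open Crest.Agent.R012.Div277 (nm_le_of_dvd)
open Crest.Agent.R017.Sx545 Crest.Agent.R017.CM106 Crest.Agent.R017.C70
open Crest.Agent.R017.E4352 Crest.Agent.R017.E4J352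
open Crest.Agent.R017.E4o502 (vD wD GoodD GB)
open Crest.Agent.R017.E4fe502 (FF)
open Crest.Agent.R017.E4BW858 (isPrim_prod')
open Crest.Agent.R017.E4RG858 (fm pow_dvd_iff dvd_iff_mult mult_mul mult_pow mult_eq_zero fac rho
  rho_nonneg gs_le_rho gs_ne)

variable {O : Type} {M e₀ : Eis} {lam : O → ℝ} {v w : O → Eis → ℂ} {G : Eis → ℂ} {t : Tm O}

open Classical in
lemma mem_s1 {p : Eis} : p ∈ s1 t ↔ p ∈ pp (t.B * t.b) ∧ B1p t p := Finset.mem_filter

open Classical in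
lemma mem_s2 {p : Eis} : p ∈ s2 t ↔ p ∈ pp (t.B * t.b) ∧ ¬ B1p t p := Finset.mem_filter

open Classical in
lemma prod_s12 {A : Type} [CommMonoid A] (t : Tm O) (g : Eis → A) :
    ∏ p ∈ pp (t.B * t.b), g p = (∏ p ∈ s1 t, g p) * ∏ p ∈ s2 t, g p :=
  (Finset.prod_filter_mul_prod_filter_not _ _ _).symm

lemma s1_sub (t : Tm O) : s1 t ⊆ pp (t.B * t.b) := fun _ h => (mem_s1.mp h).1

lemma s2_sub (t : Tm O) : s2 t ⊆ pp (t.B * t.b) := fun _ h => (mem_s2.mp h).1

lemma ps1 (t : Tm O) : PPSet (s1 t) := (ppSet_pp _).subset (s1_sub t)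

lemma ps2 (t : Tm O) : PPSet (s2 t) := (ppSet_pp _).subset (s2_sub t)

lemma prim_b1 (t : Tm O) : IsPrim (b1 t) := (ps1 t).isPrim_prod

lemma prim_pow {S : Finset Eis} (hS : PPSet S) (k : Eis → ℕ) : IsPrim (∏ p ∈ S, p ^ k p) :=
  isPrim_prod' fun p hp => (hS p hp).isPrim.pow _

lemma dvd_pow_prod {S : Finset Eis} (hS : PPSet S) {k : Eis → ℕ} {p : Eis} (hp : IsPP p)
    (h : p ∣ ∏ q ∈ S, q ^ k q) : p ∈ S ∧ 1 ≤ k p := by
  obtain ⟨q, hq, hpq⟩ := (Prime.dvd_finsetProd_iff hp.prime _).mp h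
  have h1 := hp.eq_of_dvd (hS q hq) (hp.prime.dvd_of_dvd_pow hpq)
  subst h1
  refine ⟨hq, ?_⟩
  by_contra h2
  have h3 : k p = 0 := by omega
  rw [h3, pow_zero] at hpq
  exact hp.prime.not_isUnit (isUnit_of_dvd_one hpq)

lemma mult_prod {S : Finset Eis} (hS : PPSet S) (k : Eis → ℕ) {p : Eis} (hp : p ∈ S) :
    multiplicity p (∏ q ∈ S, q ^ k q) = k p := by
  classical
  have hpp := hS p hp
  have n0 := (prim_pow hS k).ne_zero
  rw [← Finset.mul_prod_erase S _ hp] at n0 ⊢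
  have h1 : p ^ k p ≠ 0 := left_ne_zero_of_mul n0
  have h2 := right_ne_zero_of_mul n0
  rw [mult_mul hpp.prime h1 h2, mult_eq_zero hpp.prime h2, add_zero, mult_pow hpp.prime hpp.ne_zero]
  · have h3 := (dvd_iff_mult hpp.prime hpp.ne_zero).mp dvd_rfl
    have h4 : ¬ 2 ≤ multiplicity p p := by
      rw [← pow_dvd_iff hpp.prime hpp.ne_zero, pow_two]
      intro h
      have h' : p * p ∣ p * 1 := by rwa [mul_one]
      exact hpp.prime.not_isUnit
        (isUnit_of_dvd_one ((mul_dvd_mul_iff_left hpp.ne_zero).mp h'))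
    have h5 : multiplicity p p = 1 := by omega
    rw [h5, mul_one]
  · intro h3
    have h4 : PPSet (S.erase p) := hS.subset (Finset.erase_subset _ _)
    have h5 := (dvd_pow_prod h4 hpp h3).1
    exact absurd h5 (Finset.notMem_erase _ _)

/-- **all facts about a term** -/
theorem facts [Fintype O] {Y : ℝ} (hd : Dat4 M 1 lam v w Y) (h : t.OK M 1)
    (hv : t.val 1 lam v w G ≠ 0) : Facts M t := by
  obtain ⟨h0, hF, hFe, hFB, hsq, hsB, hBD, hBZ⟩ := base h
  have nB := hsB.ne_zero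
  have nb := h.sb.ne_zero
  have nR := h.pR.1.ne_zero
  have nZ := h.pZ.1.ne_zero
  have nR' := h.pR'.1.ne_zero
  have nZ' := h.pZ'.1.ne_zero
  have nBb : t.B * t.b ≠ 0 := mul_ne_zero nB nb
  have hloc : ∀ p ∈ pp (t.B * t.b), LocT t p := fun p hp =>
    locT hd h hv (isPP_of_mem_pp hp) (dvd_of_mem_pp hp)
  have sS : ∀ p ∈ pp (t.B * t.b), Sm M p := fun p hp =>
    (hsB.mul h.sb).of_dvd (isPP_of_mem_pp hp).isPrim (dvd_of_mem_pp hp)
  have hbD : ∀ p ∈ pp (t.B * t.b), ¬ p ∣ t.D1 := by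
    intro p hp hpD
    have hpp := (isPP_of_mem_pp hp).prime
    have hcD : IsCoprime (t.R' * t.Z') t.D1 := by
      have := h.cRZ
      rw [h0, one_mul] at this
      exact this.of_mul_right_left
    rcases hpp.dvd_or_dvd (dvd_of_mem_pp hp) with h1 | h1
    · exact hpp.not_isUnit (hBD.isUnit_of_dvd' h1 hpD)
    · rcases h.pb p hpp h1 with h2 | h2 | ⟨h2, -⟩
      · exact hpp.not_isUnit (hcD.isUnit_of_dvd' (h2.mul_left _) hpD)
      · have h3 : p ∣ t.R * t.Z := by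
          rw [← hFB]
          exact h2.mul_left _
        have h4 : p ∣ t.B := by
          rcases hpp.dvd_or_dvd h3 with h5 | h5
          · exact h.pR.2 p hpp h5
          · exact h.pZ.2 p hpp h5
        exact hpp.not_isUnit (hBD.isUnit_of_dvd' h4 hpD)
      · have h3 : p ∣ t.R' := (dvd_pow_self p two_ne_zero).trans h2
        exact hpp.not_isUnit (hcD.isUnit_of_dvd' (h3.mul_right _) hpD)
  -- the two factorizations
  have eb : t.b = b1 t ^ 2 * (pf t).b := by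
    have e1 := fac h.sb.prim (ppSet_pp (t.B * t.b)) (pp_mono nBb (Dvd.intro_left _ rfl))
    rw [prod_s12] at e1
    have e2 : ∏ p ∈ s1 t, p ^ multiplicity p t.b = b1 t ^ 2 := by
      unfold b1
      rw [← Finset.prod_pow]
      exact Finset.prod_congr rfl fun p hp => by rw [(mem_s1.mp hp).2.2.1]
    rw [e2] at e1
    exact e1
  have zS : pp t.Z' ⊆ pp (t.B * t.b) := fun p hp => (mem_pp nBb).mpr ⟨isPP_of_mem_pp hp,
    (h.pZ'.2 p (isPP_of_mem_pp hp).prime (dvd_of_mem_pp hp)).mul_left _⟩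
  have eZ : t.Z' = b1 t * (pf t).Z' := by
    have e1 := fac h.pZ'.1 (ppSet_pp (t.B * t.b)) zS
    rw [prod_s12] at e1
    have e2 : ∏ p ∈ s1 t, p ^ multiplicity p t.Z' = b1 t := by
      unfold b1
      refine Finset.prod_congr rfl fun p hp => ?_
      obtain ⟨hp1, hB0, -, -, hz⟩ := mem_s1.mp hp
      have h1 := ((hloc p hp1).zero hB0).2.1
      rw [mult_mul (isPP_of_mem_pp hp1).prime nZ nZ', h1, zero_add] at hz
      rw [hz, pow_one]
    rw [e2] at e1
    exact e1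
  -- primes of `B b'`
  have sb' : Sm M (pf t).b := by
    refine ⟨prim_pow (ps2 t) _, ?_⟩
    exact IsCoprime.prod_left fun p hp => (sS p (s2_sub t hp)).cop.pow_left
  have nb' := sb'.ne_zero
  have nBb' : (pf t).B * (pf t).b ≠ 0 := mul_ne_zero nB nb'
  have n1 := (prim_b1 t).ne_zero
  have hb2 : ∀ p ∈ s2 t, multiplicity p (pf t).b = multiplicity p t.b := fun p hp =>
    mult_prod (ps2 t) _ hp
  have hZ2 : ∀ p ∈ s2 t, multiplicity p (pf t).Z' = multiplicity p t.Z' := fun p hp =>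
    mult_prod (ps2 t) _ hp
  have hB' : (pf t).B = t.B := rfl
  have hpp2 : pp ((pf t).B * (pf t).b) = s2 t := by
    ext p
    rw [mem_pp nBb', mem_s2]
    constructor
    · rintro ⟨hp, hd⟩
      rcases hp.prime.dvd_or_dvd hd with h1 | h1
      · rw [hB'] at h1
        refine ⟨(mem_pp nBb).mpr ⟨hp, h1.mul_right _⟩, fun h2 => ?_⟩
        have h3 := (dvd_iff_mult hp.prime nB).mp h1
        have h4 := h2.1
        omega
      · exact mem_s2.mp (dvd_pow_prod (ps2 t) hp h1).1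
    · rintro ⟨hp, hd⟩
      have hpp := isPP_of_mem_pp hp
      refine ⟨hpp, ?_⟩
      rcases hpp.prime.dvd_or_dvd (dvd_of_mem_pp hp) with h1 | h1
      · exact Dvd.dvd.mul_right (by rw [hB']; exact h1) _
      · refine Dvd.dvd.mul_left ?_ _
        rw [dvd_iff_mult hpp.prime nb', hb2 p (mem_s2.mpr ⟨hp, hd⟩)]
        exact (dvd_iff_mult hpp.prime nb).mp h1
  have c1 : IsCoprime (b1 t) ((pf t).B * (pf t).b) := by
    rw [isCoprime_iff_pp (prim_b1 t)]
    intro p hp hpd hpd'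
    have h1 := mem_s1.mp (((ps1 t).dvd_prod hp).mp hpd)
    have h2 : p ∈ s2 t := hpp2 ▸ (mem_pp nBb').mpr ⟨hp, hpd'⟩
    exact (mem_s2.mp h2).2 h1.2
  refine
    { D0 := h0
      b := eb
      Z' := eZ
      F := hFe
      FB := ?_
      pF := hFe ▸ hF
      sb1 := ?_
      qb1 := (ps1 t).squarefree_prod
      sB := hsB
      qB := hsq
      sb := sb'
      pR := h.pR
      pZ := h.pZ
      pR' := ?_
      pZ' := ?_
      cRZ := ?_
      c1 := c1
      c1D := ?_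
      c1k := ?_
      cD := ?_
      ck := ?_
      ckF := hFe ▸ h.ckF
      ps := hpp2
      mb := hb2
      mZ := hZ2
      loc := ?_ }
  · rw [← hFe]
    exact hFB
  · refine ⟨prim_b1 t, ?_⟩
    exact IsCoprime.prod_left fun p hp => (sS p (s1_sub t hp)).cop
  · refine ⟨h.pR'.1, fun p hp hpR => ?_⟩
    obtain ⟨q, hq, hpq⟩ : ∃ q, IsPP q ∧ Associated p q :=
      ⟨prim p, ⟨prim_isPrim fun hl => h.pR'.1.not_lam_dvd (hl.trans hpR),
        (prim_associated p).prime_iff.mp hp⟩, prim_associated p⟩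
    rw [hpq.dvd_iff_dvd_left] at hpR ⊢
    have h1 := h.pR'.2 q hq.prime hpR
    have h2 : q ∈ pp (t.B * t.b) := (mem_pp nBb).mpr ⟨hq, h1.mul_left _⟩
    have h3 : q ∈ s2 t := mem_s2.mpr ⟨h2, fun h4 => by
      have h5 := h4.2.2.1
      rw [mult_mul hq.prime nR nR'] at h5
      have h6 := (dvd_iff_mult hq.prime nR').mp hpR
      omega⟩
    rw [dvd_iff_mult hq.prime nb', hb2 q h3]
    exact (dvd_iff_mult hq.prime nb).mp h1
  · refine ⟨prim_pow (ps2 t) _, fun p hp hpR => ?_⟩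
    obtain ⟨q, hq, hpq⟩ : ∃ q, IsPP q ∧ Associated p q :=
      ⟨prim p, ⟨prim_isPrim fun hl => (prim_pow (ps2 t) _).not_lam_dvd (hl.trans hpR),
        (prim_associated p).prime_iff.mp hp⟩, prim_associated p⟩
    rw [hpq.dvd_iff_dvd_left] at hpR ⊢
    obtain ⟨h3, h4⟩ := dvd_pow_prod (ps2 t) hq hpR
    have h5 : q ∣ t.Z' := (dvd_iff_mult hq.prime nZ').mpr h4
    have h1 := h.pZ'.2 q hq.prime h5
    rw [dvd_iff_mult hq.prime nb', hb2 q h3]
    exact (dvd_iff_mult hq.prime nb).mp h1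
  · have h1 := h.cRZ.of_mul_right_right
    rw [eZ] at h1
    have h2 : (pf t).R' * (pf t).Z' ∣ t.R' * (b1 t * (pf t).Z') :=
      mul_dvd_mul dvd_rfl (dvd_mul_left _ _)
    exact h1.of_isCoprime_of_dvd_left h2
  · rw [isCoprime_iff_pp (prim_b1 t)]
    intro p hp hpd
    exact hbD p (mem_s1.mp (((ps1 t).dvd_prod hp).mp hpd)).1
  · have h1 := h.cbk
    rw [eb] at h1
    exact (IsCoprime.pow_left_iff (by norm_num)).mp h1.of_mul_left_left
  · rw [isCoprime_iff_pp (show IsPrim ((pf t).B * (pf t).b) from hsB.prim.mul sb'.prim)]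
    intro p hp hpd
    have h2 : p ∈ s2 t := hpp2 ▸ (mem_pp nBb').mpr ⟨hp, hpd⟩
    exact hbD p (s2_sub t h2)
  · have h1 := h.cbk
    rw [eb] at h1
    exact h1.of_mul_left_right
  · intro p hp
    rw [hpp2] at hp
    obtain ⟨hp1, hp2⟩ := mem_s2.mp hp
    have hl := hloc p hp1
    have hpp := isPP_of_mem_pp hp1
    have e1 := hb2 p hp
    have e2 := hZ2 p hp
    have nF := hF.ne_zero
    have nZ2 : (pf t).Z' ≠ 0 := (prim_pow (ps2 t) _).ne_zero
    refine ⟨hl.vB, hl.vR, ?_, ?_, ?_, ?_⟩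
    · rw [← hFe]
      show multiplicity p (t.F 1 * t.R' * (pf t).Z') = _
      rw [mult_mul hpp.prime (mul_ne_zero nF nR') nZ2, mult_mul hpp.prime nF nR']
      rfl
    · rw [← hFe]
      exact hl.F
    · rw [← hFe, e1, e2]
      exact hl.one
    · rw [e1, e2]
      intro h1
      obtain ⟨a1, a2, a3, a4, a5⟩ := hl.zero h1
      refine ⟨a1, a2, a3, a4, a5, ?_⟩
      rintro ⟨b1, b2, b3⟩
      apply hp2
      refine ⟨h1, b1, ?_, ?_⟩
      · rw [mult_mul hpp.prime nR nR', a1, zero_add]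
        exact b2
      · rw [mult_mul hpp.prime nZ nZ', a2, zero_add]
        exact b3


/-- **a term is determined by** `o, D1, b₁, k` and its prefix -/
theorem ext_pf {t t' : Tm O} (h : Facts M t) (h' : Facts M t')
    (hp : pf t = pf t') (h1 : t.o = t'.o) (h2 : t.D1 = t'.D1) (h3 : b1 t = b1 t')
    (h4 : t.k = t'.k) : t = t' := by
  have e0 : t.D0 = t'.D0 := by rw [h.D0, h'.D0]
  have e1 : t.B = t'.B := congrArg Pf.B hp
  have e2 : t.b = t'.b := by rw [h.b, h'.b, hp, h3]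
  have e3 : t.R = t'.R := congrArg Pf.R hp
  have e4 : t.Z = t'.Z := congrArg Pf.Z hp
  have e5 : t.R' = t'.R' := congrArg Pf.R' hp
  have e6 : t.Z' = t'.Z' := by rw [h.Z', h'.Z', hp, h3]
  cases t
  cases t'
  simp only at *
  subst h1 h2 h4 e0 e1 e2 e3 e4 e5 e6
  rfl

/-- **the Gauss ratio of a prefix** -/
def rat (P : Pf) : ℝ := ∏ p ∈ pp (P.B * P.b),
  (nm p : ℝ) ^ (-rho (multiplicity p (P.F * P.R' * P.Z')) (multiplicity p P.b))

lemma rat_nonneg (P : Pf) : 0 ≤ rat P := Finset.prod_nonneg fun _ _ => by positivity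

/-- **the Gauss ratio** -/
theorem ratio_le [Fintype O] {Y : ℝ} (hd : Dat4 M 1 lam v w Y) (h : t.OK M 1)
    (hv : t.val 1 lam v w G ≠ 0) :
    ‖gs (t.F 1 * t.R' * t.Z') t.b‖ / nm t.b ≤ (nm (b1 t) : ℝ) ^ (-(1 / 2) : ℝ) * rat (pf t) := by
  obtain ⟨h0, hF, hFe, hFB, hsq, hsB, hBD, hBZ⟩ := base h
  have nB := hsB.ne_zero
  have nb := h.sb.ne_zero
  have nBb : t.B * t.b ≠ 0 := mul_ne_zero nB nb
  have hf := facts hd h hv
  have hloc : ∀ p ∈ pp (t.B * t.b), LocT t p := fun p hp =>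
    locT hd h hv (isPP_of_mem_pp hp) (dvd_of_mem_pp hp)
  have hnu : t.F 1 * t.R' * t.Z' ≠ 0 :=
    mul_ne_zero (mul_ne_zero hF.ne_zero h.pR'.1.ne_zero) h.pZ'.1.ne_zero
  refine (gs_le_rho hnu h.sb.prim (ppSet_pp (t.B * t.b))
    (pp_mono nBb (Dvd.intro_left _ rfl))).trans (le_of_eq ?_)
  rw [prod_s12]
  congr 1
  · have e2 : (nm (b1 t) : ℝ) = ∏ p ∈ s1 t, (nm p : ℝ) := by
      show (nm (∏ p ∈ s1 t, p) : ℝ) = _
      rw [E4BW858.nm_prod, Nat.cast_prod]
    rw [e2, ← Real.finsetProd_rpow _ _ (fun p _ => Nat.cast_nonneg _)]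
    refine Finset.prod_congr rfl fun p hp => ?_
    obtain ⟨hp1, c1, c2, c3, c4⟩ := mem_s1.mp hp
    have hpp := (isPP_of_mem_pp hp1).prime
    have hl := hloc p hp1
    obtain ⟨a1, a2, -⟩ := hl.zero c1
    rw [mult_mul hpp h.pR.1.ne_zero h.pR'.1.ne_zero] at c3
    rw [mult_mul hpp h.pZ.1.ne_zero h.pZ'.1.ne_zero] at c4
    have hF0 := hl.F
    have hU := hl.U
    have e3 : multiplicity p (t.F 1 * t.R' * t.Z') = 1 := by omega
    rw [e3, c2]
    have e4 : rho 1 2 = 1 / 2 := by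
      unfold rho
      norm_num
    rw [e4]
  · unfold rat
    rw [hf.ps]
    refine Finset.prod_congr rfl fun p hp => ?_
    rw [hf.mb p hp, (hf.loc p (by rw [hf.ps]; exact hp)).U, hf.mZ p hp,
      (hloc p (s2_sub t hp)).U, ← hf.F]
    rfl

/-- **the value of a term** -/
theorem val_le [Fintype O] {Y : ℝ} (hd : Dat4 M 1 lam v w Y) (h : t.OK M 1)
    (hv : t.val 1 lam v w G ≠ 0) :
    t.val 1 lam v w G ≤ rat (pf t) *
      ((nm (t.D1 * b1 t) : ℝ) ^ (-(1 / 2) : ℝ) *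
        ((lam t.o * nm t.k)⁻¹ * (‖t.xs v G‖ * ‖t.ys w G‖))) := by
  have h0 := (base h).1
  have h1 : 0 ≤ (lam t.o * nm t.k)⁻¹ := by
    have := (hd.lam1 t.o).1
    positivity
  have h2 := ratio_le hd h hv
  unfold Tm.val Tm.wt
  rw [h0, one_mul, nm_mul, Nat.cast_mul, Real.mul_rpow (Nat.cast_nonneg _) (Nat.cast_nonneg _)]
  calc (nm t.D1 : ℝ) ^ (-(1 / 2) : ℝ) * (‖gs (t.F 1 * t.R' * t.Z') t.b‖ / nm t.b) *
        (lam t.o * nm t.k)⁻¹ * (‖t.xs v G‖ * ‖t.ys w G‖)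
      ≤ (nm t.D1 : ℝ) ^ (-(1 / 2) : ℝ) * ((nm (b1 t) : ℝ) ^ (-(1 / 2) : ℝ) * rat (pf t)) *
        (lam t.o * nm t.k)⁻¹ * (‖t.xs v G‖ * ‖t.ys w G‖) := by gcongr
    _ = _ := by ring

end Crest.Agent.R017.E4RH858
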