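import Crest.Agent.R017.E4RH_858

/-!
# Row 17, C70/E4 version 7, regrouping (helper858), with one more fixed variable

* `JP0b`, `JB_of_JP0b` : as `JP0`, with a further fixed part `bo t` of the term (count `nm β`),
  e.g. the primes `p` with `p³ ∣ S ν`
-/

set_option autoImplicit false

noncomputable section

open Complex
open scoped ComplexConjugate

namespace Crest.Agent.R017.E4RH858

open Crest.Agent.R012 Crest.Agent.R012.Eis Crest.Agent.R012.Mob705 Crest.Agent.R012.Div277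
open Crest.Agent.R017.Sx545 Crest.Agent.R017.CM106 Crest.Agent.R017.C70
open Crest.Agent.R017.E4352 Crest.Agent.R017.E4J352

variable {O : Type}

/-- **joint block hypothesis at a fixed prefix and a fixed part `bo t`** -/
def JP0b (M e₀ : Eis) (bo : Tm O → Eis) (lam : O → ℝ) (v w : O → Eis → ℂ) (G : Eis → ℂ)
    (rng : Tm O → Prop) (S : ℝ) : Prop :=
  ∀ (c : Win) (P : Pf) (β : Eis) (𝒥 : Finset (Tm O)),
    (∀ t ∈ 𝒥, t.OK M 1 ∧ t.val 1 lam v w G ≠ 0 ∧ t.In lam c ∧ rng t ∧ pf t = P ∧ bo t = β) →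
    nm β * (wP e₀ P * ∑ t ∈ 𝒥, (nm (t.D1 * b1 t) : ℝ) ^ (-(1 / 2) : ℝ) *
      ((lam t.o * nm t.k)⁻¹ * (‖t.xs v G‖ * ‖t.ys w G‖))) ≤ S

open Classical in
theorem JP0_of_JP0b {ε : ℝ} (hε : 0 < ε) : ∃ C : ℝ, 1 ≤ C ∧
    ∀ (M e₀ : Eis) (O : Type) (bo : Tm O → Eis) (lam : O → ℝ) (v w : O → Eis → ℂ) (G : Eis → ℂ)
      (rng : Tm O → Prop) (Y S : ℝ), 1 ≤ Y → 0 ≤ S →
      (∀ t : Tm O, t.OK M 1 → t.val 1 lam v w G ≠ 0 → IsPrim (bo t) ∧ (nm (bo t) : ℝ) ≤ Y) →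
      JP0b M e₀ bo lam v w G rng S → JP0 M e₀ lam v w G rng (C * Y ^ ε * S) := by
  refine ⟨1 + (100 * (1 + ((1 : ℕ) : ℝ) / ε)) ^ 1, ?_, ?_⟩
  · have : (0 : ℝ) ≤ (100 * (1 + ((1 : ℕ) : ℝ) / ε)) ^ 1 := by positivity
    linarith
  intro M e₀ O bo lam v w G rng Y S hY hS hbo hJP c P 𝒥 hJ
  have hmap : ∀ t ∈ 𝒥, bo t ∈ primBall ⌊Y⌋₊ := by
    intro t ht
    obtain ⟨h1, h2, -⟩ := hJ t ht
    obtain ⟨h3, h4⟩ := hbo t h1 h2
    rw [mem_primBall]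
    exact ⟨Nat.le_floor h4, h3⟩
  rw [← Finset.sum_fiberwise_of_maps_to hmap, Finset.mul_sum]
  have key : ∀ β ∈ primBall ⌊Y⌋₊, wP e₀ P * ∑ t ∈ 𝒥.filter (fun t => bo t = β),
      (nm (t.D1 * b1 t) : ℝ) ^ (-(1 / 2) : ℝ) *
        ((lam t.o * nm t.k)⁻¹ * (‖t.xs v G‖ * ‖t.ys w G‖)) ≤ 1 / (nm β : ℝ) * S := by
    intro β hβ
    have hβ0 : (0 : ℝ) < nm β := by
      exact_mod_cast nm_pos.mpr (mem_primBall.mp hβ).2.ne_zero
    have h1 := hJP c P β (𝒥.filter (fun t => bo t = β)) (by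
      intro t ht
      rw [Finset.mem_filter] at ht
      obtain ⟨h1, h2, h3, h4, h5⟩ := hJ t ht.1
      exact ⟨h1, h2, h3, h4, h5, ht.2⟩)
    rw [one_div_mul_eq_div, le_div_iff₀ hβ0]
    linarith
  refine (Finset.sum_le_sum key).trans ?_
  rw [← Finset.sum_mul]
  refine mul_le_mul_of_nonneg_right ?_ hS
  refine (sum_inv_primBall_le ⌊Y⌋₊).trans ?_
  have h3 : Real.log (⌊Y⌋₊ : ℕ) ≤ Real.log Y :=
    Real.log_le_log (by exact_mod_cast Nat.floor_pos.mpr hY) (Nat.floor_le (by positivity))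
  have h4 := poly_log_le 1 hY (δ := ε) hε
  rw [pow_one] at h4
  have h5 : (0 : ℝ) ≤ Y ^ ε := by positivity
  nlinarith

/-- **regrouping with one more fixed variable** -/
theorem JB_of_JP0b {ε : ℝ} (hε : 0 < ε) : ∃ C : ℝ, 1 ≤ C ∧
    ∀ (M e₀ : Eis) (O : Type) (_ : Fintype O) (bo : Tm O → Eis) (lam : O → ℝ)
      (v w : O → Eis → ℂ) (G : Eis → ℂ) (rng : Tm O → Prop) (Y S : ℝ), Dat4 M 1 lam v w Y →
      e₀ ≠ 0 → (nm e₀ : ℝ) ≤ Y → 0 ≤ S →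
      (∀ t : Tm O, t.OK M 1 → t.val 1 lam v w G ≠ 0 → IsPrim (bo t) ∧ (nm (bo t) : ℝ) ≤ Y) →
      JP0b M e₀ bo lam v w G rng S → JB M 1 lam v w G rng (C * Y ^ ε * S) := by
  obtain ⟨C, hC, h⟩ := JB_of_JP0 (half_pos hε)
  obtain ⟨C', hC', h'⟩ := JP0_of_JP0b (half_pos hε)
  refine ⟨C * C', by nlinarith, ?_⟩
  intro M e₀ O _ bo lam v w G rng Y S hd he heY hS hbo hJP
  have hY := hd.X1
  have h1 := h M e₀ O _ lam v w G rng Y (C' * Y ^ (ε / 2) * S) hd he heY (by positivity)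
    (h' M e₀ O bo lam v w G rng Y S hY hS hbo hJP)
  have e1 : C * Y ^ (ε / 2) * (C' * Y ^ (ε / 2) * S) = C * C' * Y ^ ε * S := by
    rw [show ε = ε / 2 + ε / 2 by ring, Real.rpow_add (by linarith)]
    ring_nf
  rw [e1] at h1
  exact h1

end Crest.Agent.R017.E4RH858
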