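import Crest.Agent.R017.E4RI_858

/-!
# Row 17, C70/E4 version 7: the count of the cube part prime to `e₀` (helper352)

* `be1 e₀ β`, `be2 e₀ β` : primes of `β` not dividing / dividing `e₀`
* `be_mul` : `β = be1 * be2` for squarefree `β`;  `sum_be1` : `∑ 1 / N(be1 β) ≤ C Y^ε`
-/

set_option autoImplicit false

noncomputable section

namespace Crest.Agent.R017.E4RH858

open Crest.Agent.R012 Crest.Agent.R012.Eis Crest.Agent.R012.Mob705 Crest.Agent.R012.Div277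
open Crest.Agent.R017.Sx545 Crest.Agent.R017.CM106 Crest.Agent.R017.C70
open Crest.Agent.R017.E4352 Crest.Agent.R017.E4J352
open Crest.Agent.R017.E4RG858 (fm pow_dvd_iff dvd_iff_mult mult_mul mult_pow mult_eq_zero fac)

open Classical in
/-- the primes of `β` not dividing `e₀` -/
def be1 (e₀ β : Eis) : Eis := ∏ p ∈ (pp β).filter (fun p => ¬ p ∣ e₀), p

open Classical in
/-- the primes of `β` dividing `e₀` -/
def be2 (e₀ β : Eis) : Eis := ∏ p ∈ (pp β).filter (fun p => p ∣ e₀), p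

lemma be1_prim (e₀ β : Eis) : IsPrim (be1 e₀ β) := by
  classical
  unfold be1
  have h := prim_pow (S := (pp β).filter (fun p => ¬ p ∣ e₀))
    (fun p hp => ppSet_pp β p (Finset.mem_filter.mp hp).1) (fun _ => 1)
  simpa using h

lemma be2_prim (e₀ β : Eis) : IsPrim (be2 e₀ β) := by
  classical
  unfold be2
  have h := prim_pow (S := (pp β).filter (fun p => p ∣ e₀))
    (fun p hp => ppSet_pp β p (Finset.mem_filter.mp hp).1) (fun _ => 1)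
  simpa using h

lemma mult_sqf_eq {β p : Eis} (hβ : IsPrim β) (hs : Squarefree β) (hp : p ∈ pp β) :
    multiplicity p β = 1 := by
  have hpp := (isPP_of_mem_pp hp).prime
  have h1 := (dvd_iff_mult hpp hβ.ne_zero).mp (dvd_of_mem_pp hp)
  by_contra h
  have h2 : p ^ 2 ∣ β := (pow_dvd_iff hpp hβ.ne_zero).mpr (by omega)
  rw [pow_two] at h2
  exact hpp.not_isUnit (hs p h2)

lemma be_mul {e₀ β : Eis} (hβ : IsPrim β) (hs : Squarefree β) : be1 e₀ β * be2 e₀ β = β := by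
  classical
  have h1 := fac hβ (ppSet_pp β) subset_rfl
  have h2 : ∏ p ∈ pp β, p ^ multiplicity p β = ∏ p ∈ pp β, p :=
    Finset.prod_congr rfl fun p hp => by rw [mult_sqf_eq hβ hs hp, pow_one]
  rw [h2, ← Finset.prod_filter_mul_prod_filter_not (pp β) (fun p => p ∣ e₀)] at h1
  unfold be1 be2
  rw [mul_comm]
  exact h1.symm

lemma be1_dvd {e₀ β : Eis} (hβ : IsPrim β) (hs : Squarefree β) : be1 e₀ β ∣ β :=
  ⟨be2 e₀ β, (be_mul hβ hs).symm⟩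

lemma be2_dvd' {e₀ β : Eis} (h0 : e₀ ≠ 0) : be2 e₀ β ∣ ∏ p ∈ pp e₀, p := by
  classical
  unfold be2
  refine Finset.prod_dvd_prod_of_subset _ _ _ fun p hp => ?_
  obtain ⟨h1, h2⟩ := Finset.mem_filter.mp hp
  exact (mem_pp h0).mpr ⟨isPP_of_mem_pp h1, h2⟩

lemma be2_dvd {e₀ β : Eis} (h0 : IsPrim e₀) : be2 e₀ β ∣ e₀ := by
  refine (be2_dvd' h0.ne_zero).trans ?_
  conv_rhs => rw [fac h0 (ppSet_pp e₀) subset_rfl]
  refine Finset.prod_dvd_prod_of_dvd _ _ fun p hp => ?_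
  have h1 := (dvd_iff_mult (isPP_of_mem_pp hp).prime h0.ne_zero).mp (dvd_of_mem_pp hp)
  exact dvd_pow_self p (by omega)

open Classical in
/-- **the count of the part prime to `e₀`** -/
theorem sum_be1 {ε : ℝ} (hε : 0 < ε) : ∃ C : ℝ, 1 ≤ C ∧ ∀ (e₀ : Eis) (Y : ℝ), 1 ≤ Y →
    IsPrim e₀ → (nm e₀ : ℝ) ≤ Y → ∀ Bs : Finset Eis,
    (∀ β ∈ Bs, IsPrim β ∧ Squarefree β ∧ (nm β : ℝ) ≤ Y) →
    ∑ β ∈ Bs, 1 / (nm (be1 e₀ β) : ℝ) ≤ C * Y ^ ε := by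
  obtain ⟨C', hC', h'⟩ := tau_le_rpow (half_pos hε)
  refine ⟨C' * (1 + (100 * (1 + ((1 : ℕ) : ℝ) / (ε / 2))) ^ 1), ?_, ?_⟩
  · have : (0 : ℝ) ≤ (100 * (1 + ((1 : ℕ) : ℝ) / (ε / 2))) ^ 1 := by positivity
    nlinarith
  intro e₀ Y hY he heY Bs hBs
  have hinj : Set.InjOn (fun β => (be1 e₀ β, be2 e₀ β)) (Bs : Set Eis) := by
    intro β hβ β' hβ' h
    have h1 : be1 e₀ β = be1 e₀ β' := congrArg Prod.fst h
    have h2 : be2 e₀ β = be2 e₀ β' := congrArg Prod.snd h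
    obtain ⟨a1, a2, -⟩ := hBs β hβ
    obtain ⟨b1, b2, -⟩ := hBs β' hβ'
    rw [← be_mul (e₀ := e₀) a1 a2, ← be_mul (e₀ := e₀) b1 b2, h1, h2]
  have h1 : ∑ β ∈ Bs, 1 / (nm (be1 e₀ β) : ℝ) =
      ∑ p ∈ Bs.image (fun β => (be1 e₀ β, be2 e₀ β)), 1 / (nm p.1 : ℝ) :=
    (Finset.sum_image (f := fun p : Eis × Eis => 1 / (nm p.1 : ℝ)) hinj).symm
  have h2 : ∑ p ∈ Bs.image (fun β => (be1 e₀ β, be2 e₀ β)), 1 / (nm p.1 : ℝ) ≤
      ∑ p ∈ primBall ⌊Y⌋₊ ×ˢ dvs e₀, 1 / (nm p.1 : ℝ) := by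
    refine Finset.sum_le_sum_of_subset_of_nonneg ?_ fun _ _ _ => by positivity
    intro p hp
    obtain ⟨β, hβ, rfl⟩ := Finset.mem_image.mp hp
    obtain ⟨a1, a2, a3⟩ := hBs β hβ
    rw [Finset.mem_product]
    refine ⟨mem_primBall.mpr ⟨?_, be1_prim _ _⟩, (mem_dvs he.ne_zero).mpr
      ⟨be2_prim _ _, be2_dvd he⟩⟩
    exact (nm_le_of_dvd a1.ne_zero (be1_dvd a1 a2)).trans (Nat.le_floor a3)
  rw [h1]
  refine h2.trans ?_
  rw [Finset.sum_product]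
  simp only [Finset.sum_const, nsmul_eq_mul]
  rw [← Finset.mul_sum]
  have h3 : ((dvs e₀).card : ℝ) ≤ C' * Y ^ (ε / 2) := by
    refine (h' e₀ he.ne_zero).trans (mul_le_mul_of_nonneg_left ?_ (by linarith))
    exact Real.rpow_le_rpow (Nat.cast_nonneg _) heY (by positivity)
  have h4 := sum_inv_primBall_le ⌊Y⌋₊
  have h5 : Real.log (⌊Y⌋₊ : ℕ) ≤ Real.log Y :=
    Real.log_le_log (by exact_mod_cast Nat.floor_pos.mpr hY) (Nat.floor_le (by positivity))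
  have h6 := poly_log_le 1 hY (δ := ε / 2) (half_pos hε)
  rw [pow_one] at h6
  have h7 : (0 : ℝ) ≤ Y ^ (ε / 2) := by positivity
  have h8 : ∑ x ∈ primBall ⌊Y⌋₊, 1 / (nm x : ℝ) ≤
      (1 + (100 * (1 + ((1 : ℕ) : ℝ) / (ε / 2))) ^ 1) * Y ^ (ε / 2) := by
    have h9 : (1 : ℝ) ≤ Y ^ (ε / 2) := Real.one_le_rpow hY (by positivity)
    nlinarith
  calc ((dvs e₀).card : ℝ) * ∑ x ∈ primBall ⌊Y⌋₊, 1 / (nm x : ℝ)
      ≤ (C' * Y ^ (ε / 2)) * ((1 + (100 * (1 + ((1 : ℕ) : ℝ) / (ε / 2))) ^ 1) * Y ^ (ε / 2)) := by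
        refine mul_le_mul h3 h8 (Finset.sum_nonneg fun _ _ => by positivity) (by positivity)
    _ = C' * (1 + (100 * (1 + ((1 : ℕ) : ℝ) / (ε / 2))) ^ 1) * Y ^ ε := by
        rw [show ε = ε / 2 + ε / 2 by ring, Real.rpow_add (by linarith)]
        ring_nf

end Crest.Agent.R017.E4RH858
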