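import Crest.Agent.R017.E4Bf_783

/-!
# Row 17, E4, S-form: the bilinear bounds with the exact positive sum (helper783)

Index `o` with its own `f o`, lengths `K o`, `Q o`; filter `Nf o` on the frequencies.

* `DatS` : standing conditions;  `aS` : the positive sum at one `d`;  `BSf`, `BS` : positive sums
* `D3F` : the dual series over the frequencies with `N`
* `lBdSf`, `lBdS` : dual half;  `lBpS` : direct half
-/

set_option autoImplicit false

noncomputable section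

open Complex MeasureTheory
open scoped ComplexConjugate

namespace Crest.Agent.R017.E4S783

open Crest.Agent.R012 Crest.Agent.R012.Eis Crest.Agent.R012.Mob705 Crest.Agent.R012.Gauss880
open Crest.Agent.R012.Div277 Crest.Agent.R012.PSer47
open Crest.Agent.R017.Sx545 Crest.Agent.R017.CM106 Crest.Agent.R017.C70 Crest.Agent.R017.C590
open Crest.Agent.R017.End699 Crest.Agent.R017.B770 Crest.Agent.R017.Sx440
open Crest.Agent.R017.E4352 Crest.Agent.R017.E2440
open Crest.Agent.R017.E4Bd783 hiding DK mem_DK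

/-- the standing conditions -/
structure DatS (M : Eis) {O : Type} [Fintype O] (f : O → Eis) (v w : O → Eis → ℂ) (X : ℝ) :
    Prop where
  X1 : 1 ≤ X
  card : (Fintype.card O : ℝ) ≤ X
  hf : ∀ o, Sm M (f o) ∧ (nm (f o) : ℝ) ≤ X
  hv : ∀ o, SSm M (v o)
  hw : ∀ o, SSm M (w o)
  vx : ∀ o x, v o x ≠ 0 → XF x ∧ (nm x : ℝ) ≤ X
  wy : ∀ o y, w o y ≠ 0 → (nm y : ℝ) ≤ X
  vb : ∀ o x, ‖v o x‖ ≤ X
  wb : ∀ o y, ‖w o y‖ ≤ X

/-- the positive sum at one `d` -/
def aS (f : Eis) (X : ℝ) (g : Eis → Eis → ℂ) (v w : Eis → ℂ) (d : Eis) : ℝ :=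
  ∑ i ∈ IxS f d X, ‖gs (f * i.2.1 * i.2.2) i.1.1‖ *
    (‖Sd (tws i.2.1 i.1.1 (g i.1.1) v) i.1.2‖ * ‖CS (tws i.2.2 i.1.1 (g i.1.1) w) i.1.2‖)

open Classical in
/-- the frequencies -/
def DN (M : Eis) (K : ℝ) (N : Eis → Prop) : Finset Eis :=
  (primBall ⌊K⌋₊).filter (fun d => Sm M d ∧ N d)

/-- **the positive sum**, with filter -/
def BSf (M : Eis) {O : Type} [Fintype O] (f : O → Eis) (v w : O → Eis → ℂ) (g : Eis → Eis → ℂ)
    (X : ℝ) (c K : O → ℝ) (Nf : O → Eis → Prop) : ℝ :=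
  ∑ o, c o * ∑ d ∈ DN M (K o) (Nf o), (nm d : ℝ)⁻¹ * aS (f o) X g (v o) (w o) d

open Classical in
/-- **the positive sum** -/
def BS (M : Eis) {O : Type} [Fintype O] (f : O → Eis) (v w : O → Eis → ℂ) (g : Eis → Eis → ℂ)
    (X : ℝ) (c K : O → ℝ) : ℝ :=
  ∑ o, c o * ∑ d ∈ (primBall ⌊K o⌋₊).filter (fun d => Sm M d), (nm d : ℝ)⁻¹ *
    ∑ i ∈ IxS (f o) d X, ‖gs (f o * i.2.1 * i.2.2) i.1.1‖ *
      (‖Sd (tws i.2.1 i.1.1 (g i.1.1) (v o)) i.1.2‖ *
        ‖CS (tws i.2.2 i.1.1 (g i.1.1) (w o)) i.1.2‖)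

open Classical in
lemma DN_true (M : Eis) (K : ℝ) {N : Eis → Prop} (hN : ∀ d, N d) :
    DN M K N = (primBall ⌊K⌋₊).filter (fun d => Sm M d) := by
  unfold DN
  exact Finset.filter_congr fun d _ => ⟨fun h => h.1, fun h => ⟨h, hN d⟩⟩

lemma BSf_true (M : Eis) {O : Type} [Fintype O] (f : O → Eis) (v w : O → Eis → ℂ)
    (g : Eis → Eis → ℂ) (X : ℝ) (c K : O → ℝ) :
    BSf M f v w g X c K (fun _ _ => True) = BS M f v w g X c K := by
  unfold BSf BS aS
  refine Finset.sum_congr rfl fun o _ => ?_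
  rw [DN_true M (K o) (fun _ => trivial)]

open Classical in
/-- the dual series over the frequencies with `N` -/
def D3F (M : Eis) (χ : Eis → ℂ) (u : Eis) (W : ℝ → ℂ) (Y : ℝ) (N : Eis → Prop) : ℂ :=
  ∑' d : Eis, if Sm M d ∧ N d then
    conj (gs u d) * (χ d * (nm d : ℂ)⁻¹ * W (nm d / Y)) else 0

open Classical in
lemma D3F_true (M : Eis) (χ : Eis → ℂ) (u : Eis) (W : ℝ → ℂ) (Y : ℝ) :
    D3F M χ u W Y (fun _ => True) = D3 M χ u W Y := by
  unfold D3F D3 E2440.DS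
  refine tsum_congr fun d => ?_
  by_cases h : Sm M d
  · rw [if_pos ⟨h, trivial⟩, if_pos h]
  · rw [if_neg (fun h1 => h h1.1), if_neg h]

open Classical in
lemma mem_DN {M d : Eis} {K : ℝ} {N : Eis → Prop} :
    d ∈ DN M K N ↔ (nm d : ℝ) ≤ K ∧ Sm M d ∧ N d := by
  unfold DN
  rw [Finset.mem_filter, mem_primBall]
  constructor
  · rintro ⟨⟨h1, h2⟩, h3⟩
    refine ⟨?_, h3⟩
    have h4 : 0 < nm d := nm_pos.mpr h2.ne_zero
    have h5 : 0 < ⌊K⌋₊ := lt_of_lt_of_le h4 h1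
    have h6 : (0 : ℝ) ≤ K := by
      by_contra h7
      rw [Nat.floor_of_nonpos (not_le.mp h7).le] at h5
      exact absurd h5 (lt_irrefl _)
    exact (Nat.le_floor_iff h6).mp h1
  · rintro ⟨h1, h2⟩
    exact ⟨⟨Nat.le_floor h1, h2.1.prim⟩, h2⟩

lemma aS_nonneg (f : Eis) (X : ℝ) (g : Eis → Eis → ℂ) (v w : Eis → ℂ) (d : Eis) :
    0 ≤ aS f X g v w d := Finset.sum_nonneg fun _ _ => by positivity

lemma BSf_nonneg {M : Eis} {O : Type} [Fintype O] (f : O → Eis) (v w : O → Eis → ℂ)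
    (g : Eis → Eis → ℂ) (X : ℝ) {c : O → ℝ} (hc : ∀ o, 0 ≤ c o) (K : O → ℝ)
    (Nf : O → Eis → Prop) : 0 ≤ BSf M f v w g X c K Nf :=
  Finset.sum_nonneg fun o _ => mul_nonneg (hc o) (Finset.sum_nonneg fun d _ => by
    have := aS_nonneg (f o) X g (v o) (w o) d
    positivity)

lemma BSf_mono {M : Eis} {O : Type} [Fintype O] (f : O → Eis) (v w : O → Eis → ℂ)
    (g : Eis → Eis → ℂ) (X : ℝ) {c : O → ℝ} (hc : ∀ o, 0 ≤ c o) {K K' : O → ℝ}
    (hK : ∀ o, K o ≤ K' o) (Nf : O → Eis → Prop) :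
    BSf M f v w g X c K Nf ≤ BSf M f v w g X c K' Nf := by
  refine Finset.sum_le_sum fun o _ => mul_le_mul_of_nonneg_left
    (Finset.sum_le_sum_of_subset_of_nonneg ?_ fun d _ _ => ?_) (hc o)
  · intro d hd
    rw [mem_DN] at hd ⊢
    exact ⟨hd.1.trans (hK o), hd.2⟩
  · have := aS_nonneg (f o) X g (v o) (w o) d
    positivity

/-! ### the dual half -/

/-- **L7d**, S-form, with filter -/
def LBdSf : Prop :=
  ∀ (M M' : Eis) (J : ℤ) (η ψ' : Eis → ℂ) (l' : ℤ) (ρ : ℝ), HC M' η → HC M' ψ' → M ∣ M' → M' ≠ 0 →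
    (∀ p : Eis, Prime p → p ∣ M' → p ∣ M) → 0 < ρ →
  ∀ ε A : ℝ, 0 < ε → 0 ≤ A → ∃ (C : ℝ) (m₀ N₀ : ℕ), 0 ≤ C ∧
    ∀ (O : Type) (_ : Fintype O) (f : O → Eis) (v w : O → Eis → ℂ) (X : ℝ) (Q Kd : O → ℝ) (B : ℝ)
      (W : ℝ → ℂ) (S : ℝ) (Nf : O → Eis → Prop), DatS M f v w X →
      (∀ o, X⁻¹ ≤ Q o ∧ Q o ≤ X) → (∀ o, 0 < Kd o ∧ Kd o ≤ X) → 0 ≤ B → 0 ≤ S → WT m₀ N₀ B W →
      (∀ o x y, v o x ≠ 0 → w o y ≠ 0 → (nm (f o * x * y) : ℝ) ≤ Kd o * Q o) →
      (∀ ξ : ℝ, BSf M f v w (fun b y => sy y b * gx η J ξ y) X Q (fun o => Kd o * X ^ ε) Nf ≤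
        (1 + |ξ|) ^ A * S) →
      ‖∑ o, ∑' x : Eis, v o x * ∑' y : Eis, w o y * ((Q o : ℂ) *
        (End699.tw η J (f o * x * y) *
          D3F M (End699.tw ψ' l') (f o * x * y) W (ρ * nm (f o * x * y) / Q o) (Nf o)))‖ ≤
        C * X ^ ε * (B * (S + X ^ (-A)))

/-- **L7d**, S-form -/
def LBdS : Prop :=
  ∀ (M M' : Eis) (J : ℤ) (η ψ' : Eis → ℂ) (l' : ℤ) (ρ : ℝ), HC M' η → HC M' ψ' → M ∣ M' → M' ≠ 0 →
    (∀ p : Eis, Prime p → p ∣ M' → p ∣ M) → 0 < ρ →
  ∀ ε A : ℝ, 0 < ε → 0 ≤ A → ∃ (C : ℝ) (m₀ N₀ : ℕ), 0 ≤ C ∧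
    ∀ (O : Type) (_ : Fintype O) (f : O → Eis) (v w : O → Eis → ℂ) (X : ℝ) (Q Kd : O → ℝ) (B : ℝ)
      (W : ℝ → ℂ) (S : ℝ), DatS M f v w X →
      (∀ o, X⁻¹ ≤ Q o ∧ Q o ≤ X) → (∀ o, 0 < Kd o ∧ Kd o ≤ X) → 0 ≤ B → 0 ≤ S → WT m₀ N₀ B W →
      (∀ o x y, v o x ≠ 0 → w o y ≠ 0 → (nm (f o * x * y) : ℝ) ≤ Kd o * Q o) →
      (∀ ξ : ℝ, BS M f v w (fun b y => sy y b * gx η J ξ y) X Q (fun o => Kd o * X ^ ε) ≤
        (1 + |ξ|) ^ A * S) →
      ‖∑ o, ∑' x : Eis, v o x * ∑' y : Eis, w o y * ((Q o : ℂ) *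
        (End699.tw η J (f o * x * y) *
          D3 M (End699.tw ψ' l') (f o * x * y) W (ρ * nm (f o * x * y) / Q o)))‖ ≤
        C * X ^ ε * (B * (S + X ^ (-A)))

open Classical in
lemma d3_tailF {M : Eis} {χ : Eis → ℂ} (hχ : ∀ d, IsPrim d → ‖χ d‖ ≤ 1) {W : ℝ → ℂ} {B : ℝ} {n : ℕ}
    (hB : 0 ≤ B) (hW : ∀ y : ℝ, 0 < y → ‖W y‖ ≤ B * (y ^ (n + 2))⁻¹) {u : Eis} {Y K P : ℝ}
    (N : Eis → Prop) (hY : 0 < Y) (hK : 0 < K) (hP : 0 < P) (hYP : Y ≤ P) :
    ‖D3F M χ u W Y N - ∑ d ∈ DN M K N, conj (gs u d) * (χ d * (nm d : ℂ)⁻¹ * W (nm d / Y))‖ ≤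
      B * (P / K) ^ n * P ^ 2 * K0 := by
  set F : Eis → ℂ := fun d => if Sm M d ∧ N d then
    conj (gs u d) * (χ d * (nm d : ℂ)⁻¹ * W (nm d / Y)) else 0 with hF
  set G : Eis → ℂ := fun d => if d ∈ DN M K N then 0 else F d with hG
  have hbd : ∀ d, ‖G d‖ ≤ (B * (P / K) ^ n * P ^ 2) * ((nm d : ℝ) ^ 2)⁻¹ := by
    intro d
    have hc : 0 ≤ (B * (P / K) ^ n * P ^ 2) * ((nm d : ℝ) ^ 2)⁻¹ := by positivity
    simp only [hG, hF]
    split_ifs with h1 h2
    · rw [norm_zero]; exact hc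
    · have hd := h2.1.ne_zero
      have hn := one_le_nm hd
      have hn0 : (0 : ℝ) < nm d := by linarith
      have hKd : K < nm d := by
        by_contra hcon
        exact h1 (mem_DN.mpr ⟨not_lt.mp hcon, h2⟩)
      have hW1 := hW (nm d / Y) (by positivity)
      have e1 : ((nm d / Y : ℝ) ^ (n + 2))⁻¹ = (Y / nm d) ^ n * (Y / nm d) ^ 2 := by
        rw [← pow_add, ← inv_pow, inv_div]
      have h3 : Y / nm d ≤ P / K := div_le_div₀ hP.le hYP hK hKd.le
      have h4 : Y / nm d ≤ P / nm d := div_le_div_of_nonneg_right hYP hn0.le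
      have h5 : ‖W (nm d / Y)‖ ≤ B * ((P / K) ^ n * (P / nm d) ^ 2) := by
        refine hW1.trans ?_
        rw [e1]
        gcongr
      rw [norm_mul, norm_mul, norm_mul, RCLike.norm_conj, norm_inv, Complex.norm_natCast]
      have h6 : ‖gs u d‖ ≤ nm d := GaussLoc283.norm_gs_le GaussLoc283.syAx u h2.1.prim
      calc ‖gs u d‖ * (‖χ d‖ * (nm d : ℝ)⁻¹ * ‖W (nm d / Y)‖)
          ≤ nm d * (1 * (nm d : ℝ)⁻¹ * (B * ((P / K) ^ n * (P / nm d) ^ 2))) := by
            have := hχ d h2.1.prim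
            gcongr
        _ = _ := by
            field_simp
    · rw [norm_zero]; exact hc
  have hGs : Summable G := Summable.of_norm_bounded (summable_nm2.mul_left _) hbd
  have h1 : HasSum (fun d => if d ∈ DN M K N then F d else 0) (∑ d ∈ DN M K N, F d) := by
    have h0 : HasSum (fun d => if d ∈ DN M K N then F d else 0)
        (∑ d ∈ DN M K N, if d ∈ DN M K N then F d else 0) :=
      hasSum_sum_of_ne_finset_zero fun d hd => if_neg hd
    rwa [Finset.sum_congr rfl (fun d hd => if_pos hd)] at h0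
  have h2 : HasSum F (∑' d, G d + ∑ d ∈ DN M K N, F d) := by
    have h3 := hGs.hasSum.add h1
    have e : (fun d => G d + if d ∈ DN M K N then F d else 0) = F := by
      funext d
      simp only [hG]
      split_ifs <;> simp
    rwa [e] at h3
  have h4 : D3F M χ u W Y N = ∑' d, F d := rfl
  have h5 : ∑ d ∈ DN M K N, conj (gs u d) * (χ d * (nm d : ℂ)⁻¹ * W (nm d / Y)) =
      ∑ d ∈ DN M K N, F d := by
    refine Finset.sum_congr rfl fun d hd => ?_
    simp only [hF]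
    rw [if_pos (mem_DN.mp hd).2]
  rw [h4, h5, h2.tsum_eq, add_sub_cancel_right]
  refine (tsum_of_norm_bounded (summable_nm2.mul_left _).hasSum hbd).trans (le_of_eq ?_)
  rw [tsum_mul_left]
  rfl

section main

variable {M : Eis} {O : Type} [Fintype O] {f : O → Eis} {v w : O → Eis → ℂ} {X : ℝ}

lemma lstr_gxS (hL : LStr) (D : DatS M f v w X) {g : Eis → ℂ} (hg : IsChar g) (o : O) {d : Eis}
    (hd : Sm M d) :
    ‖∑' x : Eis, (v o x * g x) * ∑' y : Eis, (w o y * g y) * conj (gs (f o * x * y) d)‖ ≤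
      aS (f o) X (fun b y => sy y b * g y) (v o) (w o) d := by
  have hs : ∀ {c : Eis → ℂ}, SSm M c → SSm M (fun x => c x * g x) := fun {c} hc =>
    ⟨hc.fin.subset fun x hx h0 => hx (by simp [show c x = 0 from h0]),
      fun y hy => hc.sm y (left_ne_zero_of_mul hy)⟩
  refine (hL M (f o) d (fun x => v o x * g x) (fun y => w o y * g y) X (D.hf o).1 hd (hs (D.hv o))
    (hs (D.hw o)) (fun x hx => D.vx o x (left_ne_zero_of_mul hx))
    (fun y hy => D.wy o y (left_ne_zero_of_mul hy))).trans ?_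
  refine Finset.sum_le_sum fun i hi => ?_
  obtain ⟨h1, h2, -, -⟩ := mem_IxS hi
  refine mul_le_mul_of_nonneg_left ?_ (norm_nonneg _)
  exact mul_le_mul (sd_gx hg h1 fun x hx => ((D.hv o).sm x hx).prim)
    (cs_gx hg h2 fun x hx => ((D.hw o).sm x hx).prim) (norm_nonneg _) (norm_nonneg _)

lemma heightS {M' : Eis} {J : ℤ} {η : Eis → ℂ} {Q K : O → ℝ} {Nf : O → Eis → Prop} {ξ : ℝ}
    (hη : HC M' η) (hStr : LStr) (D : DatS M f v w X) (hQ : ∀ o, 0 ≤ Q o) :
    ∑ o, Q o * ∑ d ∈ DN M (K o) (Nf o), (nm d : ℝ)⁻¹ *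
      ‖∑' x : Eis, (v o x * gx η J ξ x) * ∑' y : Eis, (w o y * gx η J ξ y) *
        conj (gs (f o * x * y) d)‖ ≤ BSf M f v w (fun b y => sy y b * gx η J ξ y) X Q K Nf := by
  refine Finset.sum_le_sum fun o _ => mul_le_mul_of_nonneg_left
    (Finset.sum_le_sum fun d hd => ?_) (hQ o)
  exact mul_le_mul_of_nonneg_left (lstr_gxS hStr D (gx_isChar hη J ξ) o (mem_DN.mp hd).2.1)
    (by positivity)

end main

set_option maxHeartbeats 2000000 in
open Classical in
/-- **L7d**, S-form, from the separation of the weight and the separation at one `d` -/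
theorem lBdSf_of (hSep : LSep) (hStr : LStr) : LBdSf := by
  intro M M' J η ψ' l' ρ hη hψ hMM hM0 hrad hρ ε A hε hA
  obtain ⟨CB, hCB⟩ : ∃ CB : ℝ, CB = 1 := ⟨1, rfl⟩
  have hCB0 : 0 ≤ CB := by rw [hCB]; exact zero_le_one
  set J₂ : ℕ := ⌈A⌉₊ + 2 with hJ₂
  obtain ⟨CS₁, hCS0, hCS⟩ := hSep J₂ (by omega)
  set e₁ : ℝ := min ε 1 with he₁
  have he₁0 : 0 < e₁ := lt_min hε one_pos
  set n : ℕ := ⌈(8 + A) / e₁⌉₊ with hn
  have hnA : 8 + A ≤ e₁ * n := by
    have := Nat.le_ceil ((8 + A) / e₁)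
    rw [div_le_iff₀ he₁0] at this
    linarith
  set I2 : ℝ := ∫ ξ : ℝ, (1 + |ξ|) ^ (-(2 : ℝ)) with hI2
  have hI20 : 0 ≤ I2 := integral_nonneg fun ξ => by positivity
  set CL : ℝ := 5 * (2 / ε) + |Real.log ρ| + 1 with hCL
  have hCL0 : 0 ≤ CL := by positivity
  have hK00 := K0_nonneg
  refine ⟨CB * (CS₁ * CL * I2) + 10 ^ 4 * (K0 * ρ ^ (n + 2)), J₂ + 2, n + 2, by positivity, ?_⟩
  intro O _ f v w X Q Kd B W S Nf D hQb hKb hB hS hW hsup hPB
  have hX1 := D.X1
  have hX0 : 0 < X := by linarith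
  have hQ0 : ∀ o, 0 < Q o := fun o => lt_of_lt_of_le (inv_pos.mpr hX0) (hQb o).1
  set K : O → ℝ := fun o => Kd o * X ^ e₁ with hK
  have hXe1 : 1 ≤ X ^ e₁ := Real.one_le_rpow hX1 he₁0.le
  have hK0 : ∀ o, 0 < K o := fun o => mul_pos (hKb o).1 (by positivity)
  have hf0 : ∀ o, f o ≠ 0 := fun o => (D.hf o).1.ne_zero
  set PX := primBall ⌊X⌋₊ with hPX
  have hPv : ∀ o x, v o x ≠ 0 → x ∈ PX := fun o x hx => by
    rw [hPX, mem_primBall]
    exact ⟨Nat.le_floor (D.vx o x hx).2, ((D.hv o).sm x hx).prim⟩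
  have hPw : ∀ o x, w o x ≠ 0 → x ∈ PX := fun o x hx => by
    rw [hPX, mem_primBall]
    exact ⟨Nat.le_floor (D.wy o x hx), ((D.hw o).sm x hx).prim⟩
  -- the pieces
  set Y : O → Eis → Eis → ℝ := fun o x y => ρ * nm (f o * x * y) / Q o with hY
  set m : O → Eis → Eis → ℂ := fun o x y => ∑ d ∈ DN M (K o) (Nf o), conj (gs (f o * x * y) d) *
    (End699.tw ψ' l' d * (nm d : ℂ)⁻¹ * W (nm d / Y o x y)) with hm
  set T : ℝ := B * (K0 * ρ ^ (n + 2)) * (X ^ (-(e₁ * n)) * X ^ 2) with hT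
  have hχ : ∀ d, IsPrim d → ‖End699.tw ψ' l' d‖ ≤ 1 := fun d hd => (hψ.isChar_tw l').norm_le hd
  have hηn : ∀ d, IsPrim d → ‖End699.tw η J d‖ ≤ 1 := fun d hd => (hη.isChar_tw J).norm_le hd
  have hpr : ∀ o x y, v o x ≠ 0 → w o y ≠ 0 → IsPrim (f o * x * y) := fun o x y h1 h2 =>
    ((D.hf o).1.prim.mul ((D.hv o).sm x h1).prim).mul ((D.hw o).sm y h2).prim
  have hYpos : ∀ o x y, v o x ≠ 0 → w o y ≠ 0 → 0 < Y o x y := fun o x y h1 h2 => by
    have h3 : (0 : ℝ) < nm (f o * x * y) := by exact_mod_cast nm_pos.mpr (hpr o x y h1 h2).ne_zero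
    have h4 := hQ0 o
    simp only [hY]
    positivity
  have htail : ∀ o x y, v o x ≠ 0 → w o y ≠ 0 →
      ‖D3F M (End699.tw ψ' l') (f o * x * y) W (Y o x y) (Nf o) - m o x y‖ ≤ T := by
    intro o x y h1 h2
    have hKd := (hKb o).1
    have hKdX := (hKb o).2
    refine (d3_tailF hχ hB (fun z hz => wt_norm hB hW hz) (Nf o) (hYpos o x y h1 h2) (hK0 o)
      (P := ρ * Kd o) (by positivity) ?_).trans ?_
    · simp only [hY]
      have h3 := hsup o x y h1 h2
      rw [div_le_iff₀ (hQ0 o)]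
      calc ρ * (nm (f o * x * y) : ℝ) ≤ ρ * (Kd o * Q o) := by gcongr
        _ = ρ * Kd o * Q o := by ring
    · have h2 : ρ * Kd o / K o = ρ * X ^ (-e₁) := by
        simp only [hK]
        rw [Real.rpow_neg hX0.le]
        field_simp
      have h4 : (X ^ (-e₁)) ^ n = X ^ (-(e₁ * n)) := by
        rw [← Real.rpow_natCast, ← Real.rpow_mul hX0.le]
        congr 1
        ring
      rw [hT, h2, mul_pow, h4, mul_pow ρ (Kd o)]
      have h5 : Kd o ^ 2 ≤ X ^ 2 := by gcongr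
      calc B * (ρ ^ n * X ^ (-(e₁ * n))) * (ρ ^ 2 * Kd o ^ 2) * K0
          = B * (K0 * ρ ^ (n + 2)) * (X ^ (-(e₁ * n)) * Kd o ^ 2) := by ring
        _ ≤ _ := by gcongr
  -- splitting
  have hsplit : ∑ o, ∑' x : Eis, v o x * ∑' y : Eis, w o y * (((Q o : ℝ) : ℂ) *
        (End699.tw η J (f o * x * y) *
          D3F M (End699.tw ψ' l') (f o * x * y) W (ρ * nm (f o * x * y) / Q o) (Nf o))) =
      (∑ o, ∑ x ∈ PX, ∑ y ∈ PX, v o x * (w o y * (((Q o : ℝ) : ℂ) *
        (End699.tw η J (f o * x * y) * m o x y)))) +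
      ∑ o, ∑ x ∈ PX, ∑ y ∈ PX, v o x * (w o y * (((Q o : ℝ) : ℂ) *
        (End699.tw η J (f o * x * y) *
          (D3F M (End699.tw ψ' l') (f o * x * y) W (Y o x y) (Nf o) - m o x y)))) := by
    rw [← Finset.sum_add_distrib]
    refine Finset.sum_congr rfl fun o _ => ?_
    rw [← Finset.sum_add_distrib, tsum_eq_sum (s := PX) (fun x hx => by
      have : v o x = 0 := by
        by_contra h
        exact hx (hPv o x h)
      rw [this, zero_mul])]
    refine Finset.sum_congr rfl fun x _ => ?_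
    rw [← Finset.sum_add_distrib, tsum_eq_sum (s := PX) (fun y hy => by
      have : w o y = 0 := by
        by_contra h
        exact hy (hPw o y h)
      rw [this, zero_mul]), Finset.mul_sum]
    refine Finset.sum_congr rfl fun y _ => ?_
    simp only [hY]
    ring
  rw [hsplit]
  -- the tail
  have hcard : ((PX.card : ℕ) : ℝ) ≤ 100 * X := by
    refine (Lat277.card_primBall_le _).trans ?_
    have := Nat.floor_le hX0.le
    linarith
  have hb2 : ‖∑ o, ∑ x ∈ PX, ∑ y ∈ PX, v o x * (w o y * (((Q o : ℝ) : ℂ) *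
        (End699.tw η J (f o * x * y) *
          (D3F M (End699.tw ψ' l') (f o * x * y) W (Y o x y) (Nf o) - m o x y))))‖ ≤
      10 ^ 4 * (K0 * ρ ^ (n + 2)) * (B * X ^ (-A)) := by
    have hT0 : 0 ≤ T := by positivity
    have h1 : ‖∑ o, ∑ x ∈ PX, ∑ y ∈ PX, v o x * (w o y * (((Q o : ℝ) : ℂ) *
        (End699.tw η J (f o * x * y) *
          (D3F M (End699.tw ψ' l') (f o * x * y) W (Y o x y) (Nf o) - m o x y))))‖ ≤
        ∑ _o : O, ∑ _x ∈ PX, ∑ _y ∈ PX, X * (X * (X * (1 * T))) := by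
      refine (norm_sum_le _ _).trans (Finset.sum_le_sum fun o _ => ?_)
      refine (norm_sum_le _ _).trans (Finset.sum_le_sum fun x _ => ?_)
      refine (norm_sum_le _ _).trans (Finset.sum_le_sum fun y _ => ?_)
      by_cases h1 : v o x = 0
      · rw [h1, zero_mul, norm_zero]; positivity
      by_cases h2 : w o y = 0
      · rw [h2, zero_mul, mul_zero, norm_zero]; positivity
      rw [norm_mul, norm_mul, norm_mul, norm_mul]
      have h3 : ‖((Q o : ℝ) : ℂ)‖ ≤ X := by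
        rw [Complex.norm_real, Real.norm_eq_abs, abs_of_nonneg (hQ0 o).le]
        exact (hQb o).2
      have h4 := htail o x y h1 h2
      have h5 := hηn _ (hpr o x y h1 h2)
      have h6 := D.vb o x
      have h7 := D.wb o y
      gcongr
    refine h1.trans ?_
    simp only [Finset.sum_const, nsmul_eq_mul, Finset.card_univ]
    have h6 : X ^ (-(e₁ * n)) * X ^ 8 ≤ X ^ (-A) := by
      rw [← Real.rpow_natCast X 8, ← Real.rpow_add hX0]
      apply Real.rpow_le_rpow_of_exponent_le hX1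
      push_cast
      linarith
    calc (Fintype.card O : ℝ) * ((PX.card : ℝ) * ((PX.card : ℝ) * (X * (X * (X * (1 * T))))))
        ≤ X * ((100 * X) * ((100 * X) * (X * (X * (X * (1 *
            (B * (K0 * ρ ^ (n + 2)) * (X ^ (-(e₁ * n)) * X ^ 2)))))))) := by
          have := D.card
          gcongr
      _ = 10 ^ 4 * (K0 * ρ ^ (n + 2)) * (B * (X ^ (-(e₁ * n)) * X ^ 8)) := by ring
      _ ≤ _ := by gcongr
  -- the main part
  set L : ℝ := 5 * Real.log X + |Real.log ρ| + 1 with hL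
  have hlogX : 0 ≤ Real.log X := Real.log_nonneg hX1
  have hL1 : 1 ≤ L := by
    have := abs_nonneg (Real.log ρ)
    rw [hL]; linarith
  obtain ⟨h, hc, hh, hsep⟩ := hCS B W (wt_one hB (by omega) hW) L hL1
  have hA2 : A - J₂ ≤ -2 := by
    have := Nat.le_ceil A
    rw [hJ₂]; push_cast; linarith
  have hi : Integrable h := by
    refine (int_two.const_mul (CS₁ * B * L)).mono' hc.aestronglyMeasurable
      (Filter.Eventually.of_forall fun ξ => (hh ξ).trans ?_)
    have h1 : (0 : ℝ) ≤ CS₁ * B * L := by positivity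
    apply mul_le_mul_of_nonneg_left _ h1
    apply Real.rpow_le_rpow_of_exponent_le (by linarith [abs_nonneg ξ])
    linarith
  have hb1 : ‖∑ o, ∑ x ∈ PX, ∑ y ∈ PX, v o x * (w o y * (((Q o : ℝ) : ℂ) *
        (End699.tw η J (f o * x * y) * m o x y)))‖ ≤
      ∫ ξ : ℝ, (CS₁ * B * L * (CB * X ^ (ε / 2) * S)) * (1 + |ξ|) ^ (-(2 : ℝ)) := by
    have hflat : ∑ o, ∑ x ∈ PX, ∑ y ∈ PX, v o x * (w o y * (((Q o : ℝ) : ℂ) *
        (End699.tw η J (f o * x * y) * m o x y))) =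
        ∑ i ∈ (Finset.univ : Finset O).sigma (fun o => DN M (K o) (Nf o) ×ˢ (PX ×ˢ PX)),
          (v i.1 i.2.2.1 * (w i.1 i.2.2.2 * (((Q i.1 : ℝ) : ℂ) *
            (End699.tw η J (f i.1 * i.2.2.1 * i.2.2.2) * (conj (gs (f i.1 * i.2.2.1 * i.2.2.2) i.2.1) *
              (End699.tw ψ' l' i.2.1 * (nm i.2.1 : ℂ)⁻¹)))))) *
            W (nm i.2.1 / Y i.1 i.2.2.1 i.2.2.2) := by
      rw [Finset.sum_sigma]
      refine Finset.sum_congr rfl fun o _ => ?_
      rw [Finset.sum_product, Finset.sum_comm' (s := DN M (K o) (Nf o)) (t := fun _ => PX ×ˢ PX)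
        (t' := PX ×ˢ PX) (s' := fun _ => DN M (K o) (Nf o)) (by intro a b; tauto),
        Finset.sum_product]
      refine Finset.sum_congr rfl fun x _ => Finset.sum_congr rfl fun y _ => ?_
      simp only [hm]
      rw [Finset.mul_sum, Finset.mul_sum, Finset.mul_sum, Finset.mul_sum]
      refine Finset.sum_congr rfl fun d _ => ?_
      ring
    rw [hflat]
    refine sum_sep _ _ _ (fun i => (Real.log (nm i.2.1) - Real.log ρ +
      Real.log (Q i.1)) - Real.log (nm (f i.1)) - Real.log (nm i.2.2.1) -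
        Real.log (nm i.2.2.2)) hc hi ?_
      (int_two.const_mul _) ?_
    · rintro ⟨o, d, x, y⟩ hi0 ha
      dsimp only at ha ⊢
      rw [Finset.mem_sigma, Finset.mem_product] at hi0
      have h1 : v o x ≠ 0 := left_ne_zero_of_mul ha
      have h2 : w o y ≠ 0 := left_ne_zero_of_mul (right_ne_zero_of_mul ha)
      have hd := (mem_DN.mp hi0.2.1).2.1
      have hx := ((D.hv o).sm x h1).prim
      have hy := ((D.hw o).sm y h2).prim
      have n1 : (1 : ℝ) ≤ nm d := one_le_nm hd.ne_zero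
      have n2 : (1 : ℝ) ≤ nm x := one_le_nm hx.ne_zero
      have n3 : (1 : ℝ) ≤ nm y := one_le_nm hy.ne_zero
      have n4 : (1 : ℝ) ≤ nm (f o) := one_le_nm (hf0 o)
      have p5 := hQ0 o
      have hs : Real.exp ((Real.log (nm d) - Real.log ρ +
          Real.log (Q o)) - Real.log (nm (f o)) - Real.log (nm x) - Real.log (nm y)) =
          nm d / Y o x y := by
        simp only [hY]
        rw [Real.exp_sub, Real.exp_sub, Real.exp_sub, Real.exp_add, Real.exp_sub,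
          Real.exp_log (by linarith), Real.exp_log hρ, Real.exp_log p5,
          Real.exp_log (by linarith), Real.exp_log (by linarith), Real.exp_log (by linarith),
          nm_mul, nm_mul]
        push_cast
        field_simp
      rw [← hs]
      refine hsep _ ?_
      have l1 : 0 ≤ Real.log (nm d) := Real.log_nonneg n1
      have l2 : Real.log (nm x) ≤ Real.log X :=
        Real.log_le_log (by linarith) (D.vx o x h1).2
      have l3 : Real.log (nm y) ≤ Real.log X :=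
        Real.log_le_log (by linarith) (D.wy o y h2)
      have l4 : Real.log (nm (f o)) ≤ Real.log X :=
        Real.log_le_log (by linarith) (D.hf o).2
      have l6 : -Real.log X ≤ Real.log (Q o) := by
        rw [← Real.log_inv]
        exact Real.log_le_log (inv_pos.mpr hX0) (hQb o).1
      have l7 := le_abs_self (Real.log ρ)
      rw [hL]
      linarith
    · intro ξ
      have hh1 : ∑ o, Q o * ∑ d ∈ DN M (K o) (Nf o), (nm d : ℝ)⁻¹ *
          ‖∑' x : Eis, (v o x * gx η J (-ξ) x) * ∑' y : Eis, (w o y * gx η J (-ξ) y) *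
            conj (gs (f o * x * y) d)‖ ≤ CB * X ^ (ε / 2) * ((1 + |ξ|) ^ A * S) := by
        refine (heightS hη hStr D (fun o => (hQ0 o).le)).trans ?_
        have h1 := (BSf_mono (M := M) f v w
          (fun b y => sy y b * gx η J (-ξ) y) X (fun o => (hQ0 o).le) (K := K)
            (K' := fun o => Kd o * X ^ ε) (fun o => ?_) Nf).trans (hPB (-ξ))
        · rw [abs_neg] at h1
          refine h1.trans ?_
          rw [hCB, one_mul]
          exact le_mul_of_one_le_left (by positivity) (Real.one_le_rpow hX1 (by positivity))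
        · simp only [hK]
          apply mul_le_mul_of_nonneg_left _ (hKb o).1.le
          exact Real.rpow_le_rpow_of_exponent_le hX1 (min_le_left _ _)
      have hsum : ‖∑ i ∈ (Finset.univ : Finset O).sigma (fun o => DN M (K o) (Nf o) ×ˢ (PX ×ˢ PX)),
          (v i.1 i.2.2.1 * (w i.1 i.2.2.2 * (((Q i.1 : ℝ) : ℂ) *
            (End699.tw η J (f i.1 * i.2.2.1 * i.2.2.2) * (conj (gs (f i.1 * i.2.2.1 * i.2.2.2) i.2.1) *
              (End699.tw ψ' l' i.2.1 * (nm i.2.1 : ℂ)⁻¹)))))) *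
            Complex.exp (I * ξ * (((Real.log (nm i.2.1) - Real.log ρ +
      Real.log (Q i.1)) - Real.log (nm (f i.1)) - Real.log (nm i.2.2.1) -
        Real.log (nm i.2.2.2) : ℝ) : ℂ))‖ ≤
          CB * X ^ (ε / 2) * ((1 + |ξ|) ^ A * S) := by
        rw [Finset.sum_sigma]
        refine (norm_sum_le _ _).trans ?_
        refine le_trans ?_ hh1
        refine Finset.sum_le_sum fun o _ => ?_
        rw [Finset.sum_product]
        refine (norm_sum_le _ _).trans ?_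
        rw [Finset.mul_sum]
        refine Finset.sum_le_sum fun d hd => ?_
        have hd' := (mem_DN.mp hd).2.1
        have e2 : ∑ z ∈ PX ×ˢ PX, (v o z.1 * (w o z.2 * (((Q o : ℝ) : ℂ) *
            (End699.tw η J (f o * z.1 * z.2) * (conj (gs (f o * z.1 * z.2) d) *
              (End699.tw ψ' l' d * (nm d : ℂ)⁻¹)))))) *
            Complex.exp (I * ξ * (((Real.log (nm d) - Real.log ρ +
      Real.log (Q o)) - Real.log (nm (f o)) - Real.log (nm z.1) - Real.log (nm z.2) : ℝ) : ℂ)) =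
          (((Q o : ℝ) : ℂ) * ((End699.tw ψ' l' d * (nm d : ℂ)⁻¹) *
            (Complex.exp (I * ξ * ((Real.log (nm d) - Real.log ρ +
              Real.log (Q o) : ℝ) : ℂ)) * gx η J (-ξ) (f o)))) *
            ∑' x : Eis, (v o x * gx η J (-ξ) x) * ∑' y : Eis, (w o y * gx η J (-ξ) y) *
              conj (gs (f o * x * y) d) := by
          rw [Finset.sum_product, tsum_eq_sum (s := PX) (fun x hx => by
            have : v o x = 0 := by
              by_contra h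
              exact hx (hPv o x h)
            rw [this, zero_mul, zero_mul]), Finset.mul_sum]
          refine Finset.sum_congr rfl fun x _ => ?_
          rw [tsum_eq_sum (s := PX) (fun y hy => by
            have : w o y = 0 := by
              by_contra h
              exact hy (hPw o y h)
            rw [this, zero_mul, zero_mul]), Finset.mul_sum, Finset.mul_sum]
          refine Finset.sum_congr rfl fun y _ => ?_
          exact term_eq hη (D.hf o).1.prim (fun h1 => ((D.hv o).sm x h1).prim)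
            (fun h1 => ((D.hw o).sm y h1).prim)
        dsimp only
        rw [e2, norm_mul]
        refine (mul_le_mul_of_nonneg_right (b := ‖((Q o : ℝ) : ℂ) *
          ((End699.tw ψ' l' d * (nm d : ℂ)⁻¹) *
            (Complex.exp (I * ξ * ((Real.log (nm d) - Real.log ρ +
              Real.log (Q o) : ℝ) : ℂ)) * gx η J (-ξ) (f o)))‖) (c := Q o * (nm d : ℝ)⁻¹) ?_
                (norm_nonneg _)).trans (le_of_eq (mul_assoc _ _ _))
        rw [norm_mul, norm_mul, norm_mul, norm_mul, norm_exp_I, norm_inv, Complex.norm_natCast,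
          Complex.norm_real, Real.norm_eq_abs, abs_of_nonneg (hQ0 o).le]
        have g1 := (gx_isChar hη J (-ξ)).norm_le (D.hf o).1.prim
        have g2 := hχ d hd'.prim
        have g3 := (hQ0 o).le
        calc Q o * (‖End699.tw ψ' l' d‖ * (nm d : ℝ)⁻¹ * (1 * ‖gx η J (-ξ) (f o)‖))
            ≤ Q o * (1 * (nm d : ℝ)⁻¹ * (1 * 1)) := by gcongr
          _ = _ := by ring
      have hA3 : (1 + |ξ|) ^ (-(J₂ : ℝ)) * (1 + |ξ|) ^ A ≤ (1 + |ξ|) ^ (-(2 : ℝ)) := by
        have h0 : 0 < 1 + |ξ| := by positivity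
        rw [← Real.rpow_add h0]
        apply Real.rpow_le_rpow_of_exponent_le (by linarith [abs_nonneg ξ])
        linarith
      refine (mul_le_mul (hh ξ) hsum (norm_nonneg _) (by positivity)).trans ?_
      calc (CS₁ * B * L * (1 + |ξ|) ^ (-(J₂ : ℝ))) *
            (CB * X ^ (ε / 2) * ((1 + |ξ|) ^ A * S))
          = (CS₁ * B * L * (CB * X ^ (ε / 2) * S)) *
            ((1 + |ξ|) ^ (-(J₂ : ℝ)) * (1 + |ξ|) ^ A) := by ring
        _ ≤ _ := by gcongr
  rw [integral_const_mul] at hb1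
  have hLX : L ≤ CL * X ^ (ε / 2) := by
    have h1 : Real.log X ≤ X ^ (ε / 2) / (ε / 2) := Real.log_le_rpow_div hX0.le (by positivity)
    have h2 : 1 ≤ X ^ (ε / 2) := Real.one_le_rpow hX1 (by positivity)
    have h3 := abs_nonneg (Real.log ρ)
    have e : X ^ (ε / 2) / (ε / 2) = (2 / ε) * X ^ (ε / 2) := by field_simp
    rw [e] at h1
    rw [hL, hCL]
    nlinarith
  refine (norm_add_le _ _).trans ?_
  refine (add_le_add hb1 hb2).trans ?_
  have hXε : X ^ (ε / 2) * X ^ (ε / 2) = X ^ ε := by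
    rw [← Real.rpow_add hX0]; congr 1; ring
  have hXε1 : 1 ≤ X ^ ε := Real.one_le_rpow hX1 hε.le
  have hXA : 0 ≤ X ^ (-A) := by positivity
  have k1 : CS₁ * B * L * (CB * X ^ (ε / 2) * S) * I2 ≤
      CB * (CS₁ * CL * I2) * (X ^ ε * (B * S)) := by
    calc CS₁ * B * L * (CB * X ^ (ε / 2) * S) * I2
        ≤ CS₁ * B * (CL * X ^ (ε / 2)) * (CB * X ^ (ε / 2) * S) * I2 := by gcongr
      _ = CB * (CS₁ * CL * I2) * ((X ^ (ε / 2) * X ^ (ε / 2)) * (B * S)) := by ring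
      _ = _ := by rw [hXε]
  have k2 : 10 ^ 4 * (K0 * ρ ^ (n + 2)) * (B * X ^ (-A)) ≤
      10 ^ 4 * (K0 * ρ ^ (n + 2)) * (X ^ ε * (B * X ^ (-A))) := by
    apply mul_le_mul_of_nonneg_left _ (by positivity)
    exact le_mul_of_one_le_left (by positivity) hXε1
  refine (add_le_add k1 k2).trans ?_
  have t1 : 0 ≤ CB * (CS₁ * CL * I2) := by positivity
  have t2 : 0 ≤ 10 ^ 4 * (K0 * ρ ^ (n + 2)) := by positivity
  have t3 : 0 ≤ X ^ ε * (B * S) := by positivity
  have t4 : 0 ≤ X ^ ε * (B * X ^ (-A)) := by positivity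
  calc CB * (CS₁ * CL * I2) * (X ^ ε * (B * S)) +
        10 ^ 4 * (K0 * ρ ^ (n + 2)) * (X ^ ε * (B * X ^ (-A)))
      ≤ (CB * (CS₁ * CL * I2) + 10 ^ 4 * (K0 * ρ ^ (n + 2))) *
        (X ^ ε * (B * S) + X ^ ε * (B * X ^ (-A))) := by
        nlinarith [mul_nonneg t1 t4, mul_nonneg t2 t3]
    _ = _ := by ring


/-- **L7d**, S-form, with filter -/
theorem lBdSf : LBdSf := lBdSf_of E4Sep92.lSep E4401.lStr

/-- **L7d**, S-form -/
theorem lBdS : LBdS := by
  intro M M' J η ψ' l' ρ hη hψ hMM hM0 hrad hρ ε A hε hA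
  obtain ⟨C, m₀, N₀, hC, H⟩ := lBdSf M M' J η ψ' l' ρ hη hψ hMM hM0 hrad hρ ε A hε hA
  refine ⟨C, m₀, N₀, hC, ?_⟩
  intro O _ f v w X Q Kd B W S D hQ hK hB hS hW hsup hPB
  have h := H O _ f v w X Q Kd B W S (fun _ _ => True) D hQ hK hB hS hW hsup (fun ξ => by
    rw [BSf_true]
    exact hPB ξ)
  simp only [D3F_true] at h
  exact h

/-! ### the direct half -/

/-- **L7p**, S-form -/
def LBpS : Prop :=
  ∀ ε : ℝ, 0 < ε → ∃ C : ℝ, 0 ≤ C ∧
    ∀ (M : Eis) (O : Type) (_ : Fintype O) (f : O → Eis) (v w : O → Eis → ℂ) (X : ℝ) (K : O → ℝ)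
      (B : ℝ) (φ : O → Eis → ℂ), DatS M f v w X → (∀ o, 0 < K o ∧ K o ≤ X) → 0 ≤ B →
      (∀ o k, Sm M k → ‖φ o k‖ ≤ B) → (∀ o k, K o < nm k → φ o k = 0) →
      ‖∑ o, ∑' x : Eis, v o x * ∑' y : Eis, w o y * NT M (f o * x * y) (φ o)‖ ≤
        C * X ^ ε * B * BS M f v w (fun b y => sy y b) X K K

section

open Crest.Agent.R017.LBp47

open Classical in
/-- **L7p**, S-form -/
theorem lBpS_of (hL : LStr) : LBpS := by
  intro ε hε
  obtain ⟨C3, hC30, hC3⟩ : ∃ C3 : ℝ, 0 ≤ C3 ∧ ∀ X : ℝ, 1 ≤ X →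
      100 * (1 + Real.log X) ≤ C3 * X ^ ε := by
    refine ⟨(100 * (1 + (1 : ℕ) / ε)) ^ 1, by positivity, fun X hX => ?_⟩
    have := poly_log_le 1 hX (δ := ε) (by positivity)
    rwa [pow_one] at this
  refine ⟨C3, by positivity, ?_⟩
  intro M O _ f v w X K B φ hdat hKb hB0 hφB hφ0
  have hX1 := hdat.X1
  have hX0 : 0 < X := by linarith
  rw [← BSf_true]
  unfold BSf
  rw [Finset.mul_sum]
  refine (norm_sum_le _ _).trans (Finset.sum_le_sum fun o _ => ?_)
  obtain ⟨hK, hKX⟩ := hKb o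
  set N : ℕ := ⌊K o⌋₊ with hN
  set g : Eis → Eis → ℂ := fun b y => sy y b with hg
  have haS0 : ∀ d, 0 ≤ aS (f o) X g (v o) (w o) d := fun d => aS_nonneg _ _ _ _ _ _
  set S : ℝ := ∑ d ∈ DN M (K o) (fun _ => True), (nm d : ℝ)⁻¹ * aS (f o) X g (v o) (w o) d
    with hSdef
  have hS : 0 ≤ S := Finset.sum_nonneg fun d _ => by
    have := haS0 d
    positivity
  have hφN : ∀ k, IsPrim k → N < nm k → φ o k = 0 := fun k _ hk =>
    hφ0 o k ((Nat.floor_lt hK.le).mp hk)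
  clear_value S
  rw [xy_NT (hdat.hv o) (hdat.hw o) hφN]
  have h2 : ∀ e ∈ primBall N, ‖∑ d ∈ primBall N, (if Sm M e ∧ Sm M d then
        ((nm e : ℂ) ^ 2 * φ o (d * e ^ 3)) *
          (∑' x : Eis, v o x * ∑' y : Eis, w o y * conj (gs (f o * x * y) d)) else 0)‖ ≤
        (B * K o * S) * (1 / (nm e : ℝ)) := by
    intro e he
    rw [mem_primBall] at he
    have he1 : (1 : ℝ) ≤ nm e := by exact_mod_cast nm_pos.mpr he.2.ne_zero
    have he0 : (0 : ℝ) < nm e := by linarith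
    have h3 : ∀ d ∈ primBall N, ‖(if Sm M e ∧ Sm M d then
        ((nm e : ℂ) ^ 2 * φ o (d * e ^ 3)) *
          (∑' x : Eis, v o x * ∑' y : Eis, w o y * conj (gs (f o * x * y) d)) else 0)‖ ≤
        if Sm M d ∧ True then
          (B * K o * (1 / (nm e : ℝ))) * ((nm d : ℝ)⁻¹ * aS (f o) X g (v o) (w o) d) else 0 := by
      intro d hd
      rw [mem_primBall] at hd
      have hd1 : (1 : ℝ) ≤ nm d := by exact_mod_cast nm_pos.mpr hd.2.ne_zero
      have hd0 : (0 : ℝ) < nm d := by linarith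
      have haSd := haS0 d
      have hrhs : (0 : ℝ) ≤ if Sm M d ∧ True then
          (B * K o * (1 / (nm e : ℝ))) * ((nm d : ℝ)⁻¹ * aS (f o) X g (v o) (w o) d) else 0 := by
        split_ifs
        · positivity
        · exact le_rfl
      by_cases hS1 : Sm M e ∧ Sm M d
      swap
      · rw [if_neg hS1, norm_zero]; exact hrhs
      rw [if_pos hS1]
      by_cases hlt : (nm d : ℝ) * (nm e : ℝ) ^ 3 ≤ K o
      swap
      · have h3 : φ o (d * e ^ 3) = 0 := by
          refine hφ0 o _ ?_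
          push Not at hlt
          rw [nm_mul, nm_pow]
          push_cast
          exact hlt
        rw [h3]
        simp only [mul_zero, zero_mul, norm_zero]
        exact hrhs
      rw [if_pos ⟨hS1.2, trivial⟩, norm_mul, norm_mul, norm_pow, Complex.norm_natCast]
      have hSm : Sm M (d * e ^ 3) := hS1.2.mul (hS1.1.pow 3)
      have h4 := hφB o (d * e ^ 3) hSm
      have h5 : ‖∑' x : Eis, v o x * ∑' y : Eis, w o y * conj (gs (f o * x * y) d)‖ ≤
          aS (f o) X g (v o) (w o) d :=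
        hL M (f o) d (v o) (w o) X (hdat.hf o).1 hS1.2 (hdat.hv o) (hdat.hw o) (hdat.vx o)
          (hdat.wy o)
      calc (nm e : ℝ) ^ 2 * ‖φ o (d * e ^ 3)‖ *
            ‖∑' x : Eis, v o x * ∑' y : Eis, w o y * conj (gs (f o * x * y) d)‖
          ≤ (nm e : ℝ) ^ 2 * B * aS (f o) X g (v o) (w o) d := by
            gcongr
        _ = (B * (1 / (nm e : ℝ)) * ((nm d : ℝ)⁻¹ * aS (f o) X g (v o) (w o) d)) *
            ((nm d : ℝ) * (nm e : ℝ) ^ 3) := by
            field_simp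
        _ ≤ (B * (1 / (nm e : ℝ)) * ((nm d : ℝ)⁻¹ * aS (f o) X g (v o) (w o) d)) * K o := by
            gcongr
        _ = _ := by ring
    refine (norm_sum_le _ _).trans ((Finset.sum_le_sum h3).trans ?_)
    rw [← Finset.sum_filter, ← Finset.mul_sum]
    apply le_of_eq
    rw [hSdef, hN]
    unfold DN
    ring_nf
  refine (norm_sum_le _ _).trans ((Finset.sum_le_sum h2).trans ?_)
  rw [← Finset.mul_sum]
  calc (B * K o * S) * ∑ e ∈ primBall N, (1 / (nm e : ℝ)) ≤ (B * K o * S) * (C3 * X ^ ε) := by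
        refine mul_le_mul_of_nonneg_left ?_ (mul_nonneg (mul_nonneg hB0 hK.le) hS)
        refine (sum_inv_primBall_le N).trans (le_trans ?_ (hC3 X hX1))
        have hNX : (N : ℝ) ≤ X := (Nat.floor_le hK.le).trans hKX
        have : Real.log N ≤ Real.log X := by
          rcases Nat.eq_zero_or_pos N with h | h
          · rw [h]
            simp only [Nat.cast_zero, Real.log_zero]
            exact Real.log_nonneg hX1
          · exact Real.log_le_log (by exact_mod_cast h) hNX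
        linarith
    _ = C3 * X ^ ε * B * (K o * S) := by ring

end

/-- **L7p**, S-form -/
theorem lBpS : LBpS := lBpS_of E4401.lStr

end Crest.Agent.R017.E4S783
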