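import Crest.Agent.R017.E4v7_352
import Crest.Agent.R017.E4S_783

/-!
# Row 17, C70/E4, version 7: the positive sum over the index of the opening and `JBt` (helper266)

* `Q5`, `QOK`, `fz`, `vz`, `wz`, `Qz` : the family over `z = (o, (D0, D1, B, R, Z))`
* `tws_comp` : composition of the two shortenings
* `bsf_le` : `BSf` over `z` is at most `K` times the `JBt`-number, with a filter
-/

set_option autoImplicit false

noncomputable section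

open Complex
open scoped ComplexConjugate

namespace Crest.Agent.R017.E4R266

open Crest.Agent.R012 Crest.Agent.R012.Eis Crest.Agent.R012.Mob705 Crest.Agent.R012.Gauss880
open Crest.Agent.R012.Div277
open Crest.Agent.R017.Sx545 Crest.Agent.R017.CM106 Crest.Agent.R017.C70 Crest.Agent.R017.C590
open Crest.Agent.R017.End699 Crest.Agent.R017.B770 Crest.Agent.R017.Sx440
open Crest.Agent.R017.E2440 Crest.Agent.R017.E4352
open Crest.Agent.R017.E4o502 (vD wD GoodD GB)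
open Crest.Agent.R017.E4fe502 (FF)
open Crest.Agent.R017.E4J352 (Tm JBt)
open Crest.Agent.R017.E4S783 (BSf aS DN mem_DN)

/-- `(D0, D1, B, R, Z)` -/
abbrev Q5 : Type := Eis × Eis × Eis × Eis × Eis

namespace Q5

/-- components -/
def D0 (q : Q5) : Eis := q.1
/-- components -/
def D1 (q : Q5) : Eis := q.2.1
/-- components -/
def B (q : Q5) : Eis := q.2.2.1
/-- components -/
def R (q : Q5) : Eis := q.2.2.2.1
/-- components -/
def Z (q : Q5) : Eis := q.2.2.2.2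
/-- `D = D0 D1` -/
def D (q : Q5) : Eis := q.D0 * q.D1

end Q5

/-- admissible quintuples -/
structure QOK (M f : Eis) (q : Q5) : Prop where
  pD0 : IsPrim q.D0
  pD1 : IsPrim q.D1
  good : GoodD M f q.D0 q.D1
  gb : GB M (f / q.D0) (q.D0 * q.D1) q.B q.R q.Z
  pR : PrI q.B q.R
  pZ : PrI q.B q.Z

/-- sizes -/
structure QSz (Y : ℝ) (q : Q5) : Prop where
  D0 : (nm q.D0 : ℝ) ≤ Y
  D1 : (nm q.D1 : ℝ) ≤ Y
  B : (nm q.B : ℝ) ≤ Y
  R : (nm q.R : ℝ) ≤ Y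
  Z : (nm q.Z : ℝ) ≤ Y

section

variable {O : Type} {𝒬 : Finset Q5}

/-- the frequency factor -/
def fz (f : Eis) (z : O × {q : Q5 // q ∈ 𝒬}) : Eis :=
  FF f z.2.1.D0 z.2.1.B z.2.1.R z.2.1.Z

/-- `x`-side -/
def vz (v : O → Eis → ℂ) (z : O × {q : Q5 // q ∈ 𝒬}) : Eis → ℂ :=
  E4352.tws z.2.1.R z.2.1.B (fun _ => 1) (vD (z.2.1.D0 * z.2.1.D1) (v z.1))

/-- `y`-side -/
def wz (w : O → Eis → ℂ) (z : O × {q : Q5 // q ∈ 𝒬}) : Eis → ℂ :=
  E4352.tws z.2.1.Z z.2.1.B (fun _ => 1) (wD (z.2.1.D0 * z.2.1.D1) z.2.1.D1 (w z.1))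

/-- the length -/
def Qz (lam : O → ℝ) (K : ℝ) (z : O × {q : Q5 // q ∈ 𝒬}) : ℝ :=
  K / (lam z.1 * nm ((z.2.1.D0 * z.2.1.D1) ^ 2 * z.2.1.B ^ 3))

/-- the term -/
def tm (z : O × {q : Q5 // q ∈ 𝒬}) (i : (Eis × Eis) × (Eis × Eis)) : Tm O :=
  ⟨z.1, z.2.1.D0, z.2.1.D1, z.2.1.B, z.2.1.R, z.2.1.Z, i.1.1, i.2.1, i.2.2, i.1.2⟩

lemma tm_inj {z z' : O × {q : Q5 // q ∈ 𝒬}} {i i' : (Eis × Eis) × (Eis × Eis)}
    (h : tm z i = tm z' i') : z = z' ∧ i = i' := by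
  obtain ⟨o, ⟨⟨a1, a2, a3, a4, a5⟩, ha⟩⟩ := z
  obtain ⟨o', ⟨⟨b1, b2, b3, b4, b5⟩, hb⟩⟩ := z'
  obtain ⟨⟨i1, i2⟩, ⟨i3, i4⟩⟩ := i
  obtain ⟨⟨j1, j2⟩, ⟨j3, j4⟩⟩ := i'
  unfold tm Q5.D0 Q5.D1 Q5.B Q5.R Q5.Z at h
  simp only [Tm.mk.injEq] at h
  obtain ⟨h1, h2, h3, h4, h5, h6, h7, h8, h9, h10⟩ := h
  subst h1 h2 h3 h4 h5 h6 h7 h8 h9 h10
  exact ⟨rfl, rfl⟩

end

/-- composition of two shortenings -/
lemma tws_comp {D B b R R' : Eis} {g c : Eis → ℂ} (hc : ∀ x, ¬ IsCoprime x D → c x = 0) (x : Eis) :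
    E4352.tws R' b g (E4352.tws R B (fun _ => 1) c) x =
      (open Classical in if IsCoprime R' (D * B) then (1 : ℂ) else 0) *
        E4352.tws (R * R') (B * b) g c x := by
  classical
  unfold E4352.tws
  by_cases hxb : IsCoprime x b
  swap
  · rw [if_neg hxb, if_neg (fun h : IsCoprime x (B * b) => hxb h.of_mul_right_right), mul_zero]
  rw [if_pos hxb, one_mul]
  by_cases hR : IsCoprime R' (D * B)
  · rw [if_pos hR, one_mul]
    by_cases hxB : IsCoprime x B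
    · rw [if_pos (hR.of_mul_right_right.mul_left hxB), if_pos (hxB.mul_right hxb), mul_assoc]
    · rw [if_neg (fun h : IsCoprime (R' * x) B => hxB h.of_mul_left_right),
        if_neg (fun h : IsCoprime x (B * b) => hxB h.of_mul_right_left), mul_zero]
  · rw [if_neg hR, zero_mul]
    by_cases hRB : IsCoprime R' B
    · have hRD : ¬ IsCoprime R' D := fun h => hR (h.mul_right hRB)
      have h0 : c (R * (R' * x)) = 0 :=
        hc _ fun h => hRD h.of_mul_left_right.of_mul_left_left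
      rw [h0, ite_self, mul_zero]
    · rw [if_neg (fun h : IsCoprime (R' * x) B => hRB h.of_mul_left_left), mul_zero]

lemma vD_zero {D : Eis} {v : Eis → ℂ} (x : Eis) (h : ¬ IsCoprime x D) : vD D v x = 0 := by
  unfold E4o502.vD E4352.tws
  rw [if_neg h]

lemma wD_zero {D D1 : Eis} {w : Eis → ℂ} (x : Eis) (h : ¬ IsCoprime x D) : wD D D1 w x = 0 := by
  unfold E4o502.wD E4352.tws
  rw [if_neg h]

lemma Sd_smul {u : ℂ} {a b : Eis → ℂ} (h : ∀ x, a x = u * b x) (k : Eis) :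
    Sd a k = u * Sd b k := by
  unfold Sd
  rw [← tsum_mul_left]
  exact tsum_congr fun x => by rw [h x]; ring

lemma CS_smul {u : ℂ} {a b : Eis → ℂ} (h : ∀ x, a x = u * b x) (k : Eis) :
    CS a k = u * CS b k := by
  unfold CS
  rw [← tsum_mul_left]
  exact tsum_congr fun x => by rw [h x]; ring

section main

variable {M f : Eis} {O : Type} [Fintype O] {lam : O → ℝ} {v w : O → Eis → ℂ} {𝒬 : Finset Q5}

open Classical in
/-- the summand at one `z` -/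
lemma term_le (hlam : ∀ o, 0 < lam o) {K : ℝ} (hK : 0 < K) {G : Eis → ℂ} {c : ℂ}
    {z : O × {q : Q5 // q ∈ 𝒬}} (hq : QOK M f z.2.1)
    (hc : ‖c‖ ≤ (nm (z.2.1.D0 * z.2.1.D1) : ℝ) ^ (3 / 2 : ℝ) * (nm z.2.1.B : ℝ) ^ 3)
    (i : (Eis × Eis) × (Eis × Eis)) (h1 : IsPrim i.1.1) (h2 : IsPrim i.1.2) :
    Qz lam K z * ((nm (i.1.1 * i.1.2) : ℝ)⁻¹ *
      (‖gs (fz f z * i.2.1 * i.2.2) i.1.1‖ *
        (‖Sd (E4352.tws i.2.1 i.1.1 (fun y => sy y i.1.1 * G y) (vz v z)) i.1.2‖ *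
          ‖CS (E4352.tws i.2.2 i.1.1 (fun y => sy y i.1.1 * G y) (fun y => c * wz w z y)) i.1.2‖))) ≤
      if IsCoprime (i.2.1 * i.2.2) (z.2.1.D0 * z.2.1.D1 * z.2.1.B) then
        K * (tm z i).val f lam v w G else 0 := by
  classical
  obtain ⟨o, ⟨q, hq𝒬⟩⟩ := z
  obtain ⟨⟨b, k⟩, ⟨R', Z'⟩⟩ := i
  simp only at h1 h2 hc hq ⊢
  have hD : IsPrim (q.D0 * q.D1) := hq.pD0.mul hq.pD1
  have hDn : (0 : ℝ) < nm (q.D0 * q.D1) := by exact_mod_cast nm_pos.mpr hD.ne_zero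
  have hBn : (0 : ℝ) < nm q.B := by exact_mod_cast nm_pos.mpr hq.gb.2.1.ne_zero
  have hbn : (0 : ℝ) < nm b := by exact_mod_cast nm_pos.mpr h1.ne_zero
  have hkn : (0 : ℝ) < nm k := by exact_mod_cast nm_pos.mpr h2.ne_zero
  have hl := hlam o
  set g : Eis → ℂ := fun y => sy y b * G y with hg
  -- the two sides
  have ev : ∀ x, E4352.tws R' b g (vz v (⟨o, ⟨q, hq𝒬⟩⟩ : O × {q : Q5 // q ∈ 𝒬})) x =
      (if IsCoprime R' (q.D0 * q.D1 * q.B) then (1 : ℂ) else 0) *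
        E4352.tws (q.R * R') (q.B * b) g (vD (q.D0 * q.D1) (v o)) x := fun x =>
    tws_comp (D := q.D0 * q.D1) (B := q.B) (b := b) (R := q.R) (R' := R') (g := g)
      (c := vD (q.D0 * q.D1) (v o)) (fun x hx => vD_zero x hx) x
  have ew : ∀ x, E4352.tws Z' b g (fun y => c * wz w (⟨o, ⟨q, hq𝒬⟩⟩ : O × {q : Q5 // q ∈ 𝒬}) y) x =
      (c * (if IsCoprime Z' (q.D0 * q.D1 * q.B) then (1 : ℂ) else 0)) *
        E4352.tws (q.Z * Z') (q.B * b) g (wD (q.D0 * q.D1) q.D1 (w o)) x := fun x => by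
    have e1 : E4352.tws Z' b g (fun y => c * wz w (⟨o, ⟨q, hq𝒬⟩⟩ : O × {q : Q5 // q ∈ 𝒬}) y) x =
        c * E4352.tws Z' b g (wz w (⟨o, ⟨q, hq𝒬⟩⟩ : O × {q : Q5 // q ∈ 𝒬})) x := by
      unfold E4352.tws
      split_ifs
      · ring
      · ring
    have e2 := tws_comp (D := q.D0 * q.D1) (B := q.B) (b := b) (R := q.Z) (R' := Z') (g := g)
      (c := wD (q.D0 * q.D1) q.D1 (w o)) (fun x hx => wD_zero x hx) x
    rw [e1]
    unfold wz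
    simp only
    rw [e2]
    ring
  rw [Sd_smul ev, CS_smul ew]
  by_cases hR : IsCoprime R' (q.D0 * q.D1 * q.B)
  swap
  · rw [if_neg hR, if_neg (fun h : IsCoprime (R' * Z') _ => hR h.of_mul_left_left)]
    simp
  by_cases hZ : IsCoprime Z' (q.D0 * q.D1 * q.B)
  swap
  · rw [if_neg hZ, if_neg (fun h : IsCoprime (R' * Z') _ => hZ h.of_mul_left_right)]
    simp
  rw [if_pos hR, if_pos hZ, if_pos (hR.mul_left hZ), one_mul, mul_one]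
  set a1 := ‖Sd (E4352.tws (q.R * R') (q.B * b) g (vD (q.D0 * q.D1) (v o))) k‖ with ha1
  set a2 := ‖CS (E4352.tws (q.Z * Z') (q.B * b) g (wD (q.D0 * q.D1) q.D1 (w o))) k‖ with ha2
  have e3 : (tm (⟨o, ⟨q, hq𝒬⟩⟩ : O × {q : Q5 // q ∈ 𝒬}) ((b, k), (R', Z'))).val f lam v w G =
      ((nm (q.D0 * q.D1) : ℝ) ^ (-(1 / 2) : ℝ) * (‖gs (FF f q.D0 q.B q.R q.Z * R' * Z') b‖ / nm b) *
        (lam o * nm k)⁻¹) * (a1 * a2) := rfl
  rw [e3, norm_mul]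
  have a10 : 0 ≤ a1 := norm_nonneg _
  have a20 : 0 ≤ a2 := norm_nonneg _
  unfold Qz fz
  simp only
  set γ := ‖gs (FF f q.D0 q.B q.R q.Z * R' * Z') b‖ with hγ
  have hγ0 : 0 ≤ γ := norm_nonneg _
  have e4 : (nm ((q.D0 * q.D1) ^ 2 * q.B ^ 3) : ℝ) = (nm (q.D0 * q.D1) : ℝ) ^ 2 * (nm q.B : ℝ) ^ 3 := by
    rw [nm_mul, nm_pow, nm_pow]; push_cast; ring
  have e5 : (nm (b * k) : ℝ) = nm b * nm k := by rw [nm_mul]; push_cast; ring
  rw [e4, e5]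
  set d : ℝ := (nm (q.D0 * q.D1) : ℝ) with hd
  set β : ℝ := (nm q.B : ℝ) with hβ
  have e6 : d ^ (3 / 2 : ℝ) = d ^ 2 * d ^ (-(1 / 2) : ℝ) := by
    rw [← Real.rpow_natCast d 2, ← Real.rpow_add hDn]
    norm_num
  calc K / (lam o * (d ^ 2 * β ^ 3)) * (((nm b : ℝ) * nm k)⁻¹ * (γ * (a1 * (‖c‖ * a2))))
      ≤ K / (lam o * (d ^ 2 * β ^ 3)) * (((nm b : ℝ) * nm k)⁻¹ *
          (γ * (a1 * ((d ^ (3 / 2 : ℝ) * β ^ 3) * a2)))) := by gcongr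
    _ = _ := by
        rw [e6]
        field_simp

/-- **the positive sum over `z`** -/
theorem bsf_le {G : Eis → ℂ} {rng : Tm O → Prop} {Y S : ℝ} (hS : JBt M f lam v w G rng Y S)
    (hlam : ∀ o, 0 < lam o) {K : ℝ} (hK : 0 < K) (h𝒬 : ∀ q ∈ 𝒬, QOK M f q ∧ QSz Y q)
    (c : O × {q : Q5 // q ∈ 𝒬} → ℂ)
    (hc : ∀ z, ‖c z‖ ≤ (nm (z.2.1.D0 * z.2.1.D1) : ℝ) ^ (3 / 2 : ℝ) * (nm z.2.1.B : ℝ) ^ 3)
    {X : ℝ} (hX : 0 ≤ X) (hXY : X ≤ Y) (Kz : O × {q : Q5 // q ∈ 𝒬} → ℝ) (hKz : ∀ z, Kz z ≤ Y)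
    (Nf : O × {q : Q5 // q ∈ 𝒬} → Eis → Prop)
    (hr : ∀ (z : O × {q : Q5 // q ∈ 𝒬}) (i : (Eis × Eis) × (Eis × Eis)),
      (nm (i.1.1 * i.1.2) : ℝ) ≤ Kz z → Sm M (i.1.1 * i.1.2) → Nf z (i.1.1 * i.1.2) →
        rng (tm z i)) :
    BSf M (fz f) (vz v) (fun z y => c z * wz w z y) (fun b y => sy y b * G y) X (Qz lam K) Kz Nf ≤
      K * S := by
  classical
  set Fs : (z : O × {q : Q5 // q ∈ 𝒬}) → Finset (Σ _ : Eis, (Eis × Eis) × (Eis × Eis)) := fun z =>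
    (DN M (Kz z) (Nf z)).sigma fun d => IxS (fz f z) d X with hFs
  set T : Finset (Σ _ : O × {q : Q5 // q ∈ 𝒬}, Σ _ : Eis, (Eis × Eis) × (Eis × Eis)) :=
    Finset.univ.sigma Fs with hT
  have hmem : ∀ p ∈ T, Sm M p.2.1 ∧ (nm p.2.1 : ℝ) ≤ Kz p.1 ∧ Nf p.1 p.2.1 ∧
      p.2.2 ∈ IxS (fz f p.1) p.2.1 X := by
    intro p hp
    rw [hT, Finset.mem_sigma, hFs] at hp
    have h1 := Finset.mem_sigma.mp hp.2
    have h2 := mem_DN.mp h1.1
    exact ⟨h2.2.1, h2.1, h2.2.2, h1.2⟩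
  -- the sum as a sum over `T`
  have e1 : BSf M (fz f) (vz v) (fun z y => c z * wz w z y) (fun b y => sy y b * G y) X
      (Qz lam K) Kz Nf = ∑ p ∈ T, Qz lam K p.1 * ((nm p.2.1 : ℝ)⁻¹ *
        (‖gs (fz f p.1 * p.2.2.2.1 * p.2.2.2.2) p.2.2.1.1‖ *
        (‖Sd (E4352.tws p.2.2.2.1 p.2.2.1.1 (fun y => sy y p.2.2.1.1 * G y) (vz v p.1))
            p.2.2.1.2‖ *
          ‖CS (E4352.tws p.2.2.2.2 p.2.2.1.1 (fun y => sy y p.2.2.1.1 * G y)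
            (fun y => c p.1 * wz w p.1 y)) p.2.2.1.2‖))) := by
    unfold BSf aS
    rw [hT, Finset.sum_sigma]
    refine Finset.sum_congr rfl fun z _ => ?_
    rw [hFs]
    simp only
    rw [Finset.sum_sigma, Finset.mul_sum]
    refine Finset.sum_congr rfl fun d _ => ?_
    rw [Finset.mul_sum, Finset.mul_sum]
  rw [e1]
  have e2 : ∀ p ∈ T, Qz lam K p.1 * ((nm p.2.1 : ℝ)⁻¹ *
        (‖gs (fz f p.1 * p.2.2.2.1 * p.2.2.2.2) p.2.2.1.1‖ *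
        (‖Sd (E4352.tws p.2.2.2.1 p.2.2.1.1 (fun y => sy y p.2.2.1.1 * G y) (vz v p.1))
            p.2.2.1.2‖ *
          ‖CS (E4352.tws p.2.2.2.2 p.2.2.1.1 (fun y => sy y p.2.2.1.1 * G y)
            (fun y => c p.1 * wz w p.1 y)) p.2.2.1.2‖))) ≤
      if IsCoprime (p.2.2.2.1 * p.2.2.2.2) (p.1.2.1.D0 * p.1.2.1.D1 * p.1.2.1.B) then
        K * (tm p.1 p.2.2).val f lam v w G else 0 := by
    intro p hp
    obtain ⟨h1, h2, h3, h4⟩ := hmem p hp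
    unfold IxS at h4
    rw [Finset.mem_filter, Finset.mem_product, Finset.mem_product, mem_dvs h1.ne_zero,
      mem_dvs h1.ne_zero] at h4
    have h5 := term_le (v := v) (w := w) hlam hK (G := G) (c := c p.1) (z := p.1)
      (h𝒬 _ p.1.2.2).1 (hc p.1) p.2.2 h4.1.1.1.1 h4.1.1.2.1
    rw [h4.2.1] at h5
    exact h5
  refine (Finset.sum_le_sum e2).trans ?_
  rw [← Finset.sum_filter, ← Finset.mul_sum]
  refine mul_le_mul_of_nonneg_left ?_ hK.le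
  set T' := T.filter fun p =>
    IsCoprime (p.2.2.2.1 * p.2.2.2.2) (p.1.2.1.D0 * p.1.2.1.D1 * p.1.2.1.B) with hT'
  have hinj : Set.InjOn (fun p : (Σ _ : O × {q : Q5 // q ∈ 𝒬},
      Σ _ : Eis, (Eis × Eis) × (Eis × Eis)) => tm p.1 p.2.2) T' := by
    intro p hp p' hp' h
    obtain ⟨z, d, i⟩ := p
    obtain ⟨z', d', i'⟩ := p'
    obtain ⟨h1, h2⟩ := tm_inj h
    have hp1 := hmem _ (Finset.mem_filter.mp hp).1
    have hp2 := hmem _ (Finset.mem_filter.mp hp').1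
    simp only at h1 h2 hp1 hp2
    subst h1 h2
    have h3 := hp1.2.2.2
    have h4 := hp2.2.2.2
    unfold IxS at h3 h4
    rw [Finset.mem_filter] at h3 h4
    have : d = d' := h3.2.1.symm.trans h4.2.1
    subst this
    rfl
  rw [← Finset.sum_image (f := fun t : Tm O => t.val f lam v w G) hinj]
  refine hS _ fun t ht => ?_
  obtain ⟨p, hp, rfl⟩ := Finset.mem_image.mp ht
  have hpT := (Finset.mem_filter.mp hp).1
  have hcop := (Finset.mem_filter.mp hp).2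
  obtain ⟨h1, h2, h3, h4⟩ := hmem p hpT
  obtain ⟨z, d, ⟨⟨b, k⟩, ⟨R', Z'⟩⟩⟩ := p
  simp only at h1 h2 h3 h4 hcop
  unfold IxS at h4
  rw [Finset.mem_filter, Finset.mem_product, Finset.mem_product, mem_dvs h1.ne_zero,
    mem_dvs h1.ne_zero, Finset.mem_product, mem_primBall, mem_primBall] at h4
  obtain ⟨⟨⟨⟨b1, b2⟩, ⟨k1, k2⟩⟩, ⟨⟨r1, r2⟩, ⟨z1, z2⟩⟩⟩, c1, c2, c3, c4, c5, c6, c7⟩ := h4
  simp only at b1 b2 k1 k2 r1 r2 z1 z2 c1 c2 c3 c4 c5 c6 c7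
  obtain ⟨hq, hsz⟩ := h𝒬 _ z.2.2
  have hfl : (⌊X⌋₊ : ℝ) ≤ X := Nat.floor_le hX
  have hsd := h1
  rw [← c1] at hsd
  have hsb : Sm M b := hsd.of_mul_right k1
  have hsk : Sm M k := hsd.of_mul_left b1
  refine ⟨⟨hq.pD0, hq.pD1, hq.good, hq.gb, hq.pR, hq.pZ, hsb, hsk, c3, c2, c4, c5, c6, hcop, c7⟩,
    hr z ((b, k), (R', Z')) (by simp only; rw [c1]; exact h2) (by simp only; rw [c1]; exact h1)
      (by simp only; rw [c1]; exact h3), hsz.D0, hsz.D1, hsz.B, hsz.R, hsz.Z, ?_, ?_, ?_, ?_⟩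
  · exact (le_trans (by exact_mod_cast nm_le_of_dvd h1.ne_zero b2) h2).trans (hKz z)
  · exact (le_trans (by exact_mod_cast r1) hfl).trans hXY
  · exact (le_trans (by exact_mod_cast z1) hfl).trans hXY
  · exact (le_trans (by exact_mod_cast nm_le_of_dvd h1.ne_zero k2) h2).trans (hKz z)

end main

end Crest.Agent.R017.E4R266
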