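import Crest.Agent.R017.E4e_164
import Crest.Agent.R017.E5b_54

/-!
# Row 17, C70, leaf E4: symbols (helper164)

* `sd E` : `E = r ν² e³`;  `fS E = r² ν`, `tS E = e`
* `sy_E` : `sy k E = conj (sy k (fS E)) [(k, tS E) = 1]`
* `hc_PrI` : `HC M ψ → HC M (ψ conj (sy · f))` for `f` composed of primes of `M`
-/

set_option autoImplicit false

noncomputable section

open Finset Complex
open scoped ComplexConjugate

namespace Crest.Agent.R017.E4D164

open Crest.Agent.R012 Crest.Agent.R012.Eis Crest.Agent.R012.GaussLoc283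
open Crest.Agent.R012.Mob705 hiding pb mem_pb
open Crest.Agent.R012.Div277
open Crest.Agent.R017.Sx545 (Sm)
open Crest.Agent.R017.CM106
open Crest.Agent.R017.C70 Crest.Agent.R017.GrB829 Crest.Agent.R017.GrD829
open Crest.Agent.R017.End699 (HC)
open Crest.Agent.R017.E4352 (PrI)
open Crest.Agent.R017.E4579 (bpt bco)
open Crest.Agent.R017.E4K164 (dc dc_spec rd rd_prim)

/-- the property of `(r, ν, e)` -/
def SdP (E : Eis) (t : Eis × Eis × Eis) : Prop :=
  IsPrim t.1 ∧ Squarefree t.1 ∧ IsPrim t.2.1 ∧ Squarefree t.2.1 ∧ IsCoprime t.1 t.2.1 ∧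
    IsPrim t.2.2 ∧ E = t.1 * t.2.1 ^ 2 * t.2.2 ^ 3

lemma exists_sd {E : Eis} (hE : IsPrim E) : ∃ t, SdP E t := by
  obtain ⟨j, e, hj, he, hcf, h⟩ := E5b54.exists_cf_prim hE
  have hJ : JC j := ⟨1, Or.inl rfl, j, hj, hcf, by ring⟩
  obtain ⟨s1, s2, s3, s4, s5, s6, s7⟩ := dc_spec hJ
  have hc1 : (dc j).1 = 1 := by
    have h0 : IsPrim ((dc j).1 * ((dc j).2.1 * (dc j).2.2 ^ 2)) := by
      have : (dc j).1 * ((dc j).2.1 * (dc j).2.2 ^ 2) = j := by
        conv_rhs => rw [s7]
        ring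
      rw [this]; exact hj
    have h1 : IsPrim (dc j).1 := h0.of_mul_right (s2.mul (s4.pow 2))
    rcases s1 with h2 | h2
    · exact h2
    · exfalso
      have h3 : (3 : Eis) ∣ (dc j).1 := by
        rcases h2 with h2 | h2 | h2
        · rw [h2]
        · rw [h2]; exact dvd_mul_right _ _
        · rw [h2]; exact dvd_mul_right _ _
      have h4 := h1.isCoprime_three.isUnit_of_dvd' h3 dvd_rfl
      rw [Eis.isUnit_iff] at h4
      exact absurd h4 (by decide)
  refine ⟨((dc j).2.1, (dc j).2.2, e), s2, s3, s4, s5, s6, he, ?_⟩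
  rw [h]
  conv_lhs => rw [s7, hc1]
  ring

open Classical in
/-- `(r, ν, e)` with `E = r ν² e³` -/
def sd (E : Eis) : Eis × Eis × Eis := if h : ∃ t, SdP E t then h.choose else (1, 1, 1)

lemma sd_spec {E : Eis} (hE : IsPrim E) : SdP E (sd E) := by
  have h := exists_sd hE
  unfold sd
  rw [dif_pos h]
  exact h.choose_spec

/-- the symbol part -/
def fS (E : Eis) : Eis := (sd E).1 ^ 2 * (sd E).2.1

/-- the cube part -/
def tS (E : Eis) : Eis := (sd E).2.2

lemma fS_prim {E : Eis} (hE : IsPrim E) : IsPrim (fS E) := by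
  obtain ⟨h1, -, h3, -⟩ := sd_spec hE
  exact (h1.pow 2).mul h3

lemma tS_prim {E : Eis} (hE : IsPrim E) : IsPrim (tS E) := by
  obtain ⟨-, -, -, -, -, h6, -⟩ := sd_spec hE
  exact h6

lemma fS_dvd {E p : Eis} (hE : IsPrim E) (hp : Prime p) (h : p ∣ fS E) : p ∣ E := by
  obtain ⟨h1, -, h3, -, -, h6, h7⟩ := sd_spec hE
  rw [h7]
  unfold fS at h
  rcases hp.dvd_or_dvd h with h | h
  · exact ((hp.dvd_of_dvd_pow h).mul_right _).mul_right _
  · exact (((h.trans (dvd_pow_self _ (by norm_num))).mul_left _)).mul_right _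

lemma tS_dvd {E : Eis} (hE : IsPrim E) : tS E ^ 3 ∣ E := by
  obtain ⟨h1, -, h3, -, -, h6, h7⟩ := sd_spec hE
  conv_rhs => rw [h7]
  exact dvd_mul_left _ _

/-- size of the symbol part -/
lemma fS_eq {E : Eis} (hE : IsPrim E) :
    fS E * ((sd E).2.1 * tS E ^ 3) = (sd E).1 * E := by
  obtain ⟨-, -, -, -, -, -, h7⟩ := sd_spec hE
  unfold fS tS
  linear_combination -(sd E).1 * h7

open Classical in
lemma sy_cube_right {k e : Eis} (he : IsPrim e) :
    sy k (e ^ 3) = if IsCoprime k e then 1 else 0 := by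
  have e1 : sy k (e ^ 3) = sy k e ^ 3 := by
    rw [show e ^ 3 = e * (e * e) by ring, syAx.mul_right _ _ _ he (he.mul he),
      syAx.mul_right _ _ _ he he]
    ring
  rw [e1]
  split_ifs with h
  · exact syAx.cube k e he h
  · rw [(syAx.eq_zero k e he).mpr h]
    simp

lemma sy_sq_right {k e : Eis} (he : IsPrim e) : sy k (e ^ 2) = conj (sy k e) := by
  rw [pow_two, syAx.mul_right _ _ _ he he]
  by_cases h : IsCoprime k e
  · have := syAx.cube k e he h
    have h1 : ‖sy k e‖ = 1 := Sym645.norm_sy_of_isCoprime (Sym645.prim_nm_mod he) h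
    have h2 : sy k e * conj (sy k e) = 1 := by
      rw [Complex.mul_conj, Complex.normSq_eq_norm_sq, h1]
      norm_num
    have h3 : sy k e ≠ 0 := by
      intro h0
      rw [h0, norm_zero] at h1
      exact one_ne_zero h1.symm
    apply mul_left_cancel₀ h3
    rw [h2, ← this]
    ring
  · rw [(syAx.eq_zero k e he).mpr h]
    simp

open Classical in
/-- **the symbol at a primary element** -/
theorem sy_E {E k : Eis} (hE : IsPrim E) :
    sy k E = conj (sy k (fS E)) * if IsCoprime k (tS E) then 1 else 0 := by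
  obtain ⟨h1, -, h3, -, -, h6, h7⟩ := sd_spec hE
  conv_lhs => rw [h7]
  rw [syAx.mul_right _ _ _ (h1.mul (h3.pow 2)) (h6.pow 3), syAx.mul_right _ _ _ h1 (h3.pow 2),
    sy_cube_right h6, sy_sq_right h3]
  unfold fS tS
  rw [syAx.mul_right _ _ _ (h1.pow 2) h3, sy_sq_right h1, map_mul, Complex.conj_conj]

/-! ### characters -/

lemma per_PrI {M : Eis} : ∀ (n : ℕ) (f : Eis), nm f ≤ n → PrI M f → ∀ a b : Eis, M ∣ a - b →
    sy a f = sy b f := by
  intro n
  induction n with
  | zero =>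
    intro f hf hp
    exact absurd (nm_eq_zero.mp (Nat.le_zero.mp hf)) hp.1.ne_zero
  | succ n ih =>
    intro f hf hp a b hab
    by_cases h1 : f = 1
    · rw [h1]
      exact syAx.congr a b 1 isPrim_one (one_dvd _)
    · obtain ⟨p, hpp, hpd⟩ : ∃ p, IsPP p ∧ p ∣ f := by
        by_contra h
        push Not at h
        have h2 : IsCoprime f f := (isCoprime_iff_pp hp.1).mpr fun p hpp h3 => absurd h3 (h p hpp)
        exact h1 (isPrim_eq_one_of_isUnit hp.1 (h2.isUnit_of_dvd' dvd_rfl dvd_rfl))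
      obtain ⟨c, rfl⟩ := hpd
      have hc : IsPrim c := hp.1.of_mul_left hpp.isPrim
      have hcn : nm c ≤ n := by
        rw [nm_mul] at hf
        have h2 := hpp.one_lt_nm
        have h3 : 0 < nm c := nm_pos.mpr hc.ne_zero
        nlinarith
      have hcM : PrI M c := ⟨hc, fun q hq hd => hp.2 q hq (hd.mul_left _)⟩
      rw [syAx.mul_right _ _ _ hpp.isPrim hc, syAx.mul_right _ _ _ hpp.isPrim hc,
        ih c hcn hcM a b hab,
        syAx.congr a b p hpp.isPrim ((hp.2 p hpp.prime (dvd_mul_right _ _)).trans hab)]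

/-- twist by the symbol at a product of primes of `M` -/
theorem hc_PrI {M f : Eis} {ψ : Eis → ℂ} (hψ : HC M ψ) (hf : PrI M f) :
    HC M (fun k => ψ k * conj (sy k f)) where
  q0 := hψ.q0
  three := hψ.three
  char :=
    { one := by
        rw [hψ.char.one, Gauss880.sy_one_left Gauss880.syG hf.1]
        simp
      mul := fun a b ha hb => by
        rw [hψ.char.mul a b ha hb, syAx.mul_left _ _ _ hf.1, map_mul]
        ring
      norm := fun a ha => by
        by_cases h : IsCoprime a M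
        · rcases hψ.char.norm a ha with h0 | h0
          · left; rw [h0, zero_mul]
          · right
            rw [norm_mul, h0, RCLike.norm_conj,
              Sym645.norm_sy_of_isCoprime (Sym645.prim_nm_mod hf.1) (cop_PrI hf h).symm, one_mul]
        · left
          rw [hψ.van a ha h, zero_mul] }
  per a b ha hb hd := by
    rw [hψ.per a b ha hb hd, per_PrI _ f le_rfl hf a b hd]
  van a ha hc := by rw [hψ.van a ha hc, zero_mul]

/-- the `M`-part of the symbol -/
def fM (M E : Eis) : Eis := bpt (rd M) (fS E)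

/-- the part of the symbol prime to `M` -/
def fN (M E : Eis) : Eis := bco (rd M) (fS E)

lemma fM_spec {M E : Eis} (hM : M ≠ 0) (hE : IsPrim E) : PrI M (fM M E) ∧ Sm M (fN M E) ∧
    fS E = fM M E * fN M E := mpt_spec hM (fS_prim hE)

/-- the twisted character -/
def psE (M : Eis) (ψ : Eis → ℂ) (E k : Eis) : ℂ := ψ k * conj (sy k (fM M E))

lemma hc_psE {M E : Eis} {ψ : Eis → ℂ} (hψ : HC M ψ) (hE : IsPrim E) : HC M (psE M ψ E) :=
  hc_PrI hψ (fM_spec hψ.q0 hE).1

open Classical in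
/-- the weight times the symbol -/
theorem Wk_E {M E : Eis} {ψ : Eis → ℂ} (hM : M ≠ 0) (hE : IsPrim E) (l : ℤ) (V : ℝ → ℂ) (K : ℝ)
    (k : Eis) : End699.tw ψ l k * V (nm k / K) * sy k E =
      Wk (psE M ψ E) l (fN M E) V K k * if IsCoprime k (tS E) then 1 else 0 := by
  obtain ⟨h1, h2, h3⟩ := fM_spec hM hE
  rw [sy_E hE, h3, syAx.mul_right _ _ _ h1.1 h2.1]
  unfold Wk psE End699.tw
  rw [map_mul]
  ring

end Crest.Agent.R017.E4D164
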