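import Crest.Agent.R017.BDefs_770

/-!
# Row 17, section B, leaf L3: the interface between the pointwise expansion of `NSum` (L3a) and
the exponent sum (L3b)
-/

set_option autoImplicit false

noncomputable section

open scoped ComplexConjugate

namespace Crest.Agent.R017.Asm986

open Crest.Agent.R012 Crest.Agent.R012.Eis Crest.Agent.R012.PSer47
open Crest.Agent.R017.End699 Crest.Agent.R017.Sx545 Crest.Agent.R017.B770

/-- powerful (`1` included) -/
def Pf (b : Eis) : Prop := ∀ p : Eis, Prime p → p ∣ b → p ^ 2 ∣ b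

open Classical in
/-- the weight of an amplifier prime `p` which is glued to the `b`-sum -/
def uw (k p : Eis) : ℂ := 1 - if p ^ 2 ∣ k then (nm p : ℂ) else 0

open Classical in
/-- **L3a**: the pointwise expansion of the natural sum. -/
def NSExp : Prop :=
  ∀ h : ℝ → ℂ, HW h → ∀ V : ℝ → ℂ, SW V → ∀ (M : Eis) (f g : Eis → ℂ), (2 : Eis) ∣ M →
    (3 : Eis) ∣ M → M ≠ 0 → IsChar f → IsChar g →
    ∀ (r : ℕ) (y Q₀ Q : ℝ), 0 < r → 0 < y → 1 ≤ Q₀ → 0 < Q → (nm M : ℝ) < Q₀ ^ (y / r) / 9 →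
    ∀ (J : Finset (Fin r)) (k : Eis), k ≠ 0 →
      NSum h r y Q₀ J M f g V Q k =
        ∑ J' ∈ J.powerset, ∑ p ∈ tup r y Q₀ J',
          (∏ i : J', h (Real.log (nm (p i)) - kap r y Q₀ i) * (f (p i) * g (p i)) * uw k (p i)) *
          ∑' b : Eis, if Sm M b ∧ Pf b ∧ IsCoprime b (∏ i : J', p i) then
            f b * tk k b 1 *
              Amp h r y Q₀ (J \ J') (fun q => g q * prin0 b q * conj (sy k q)) *
              MV V (Q / (nm b * nm (∏ i : J', p i)))
                (fun q => f q * prin0 (M * b * ∏ i : J', p i) q * sy k q)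
            else 0

open Classical in
/-- **L3a**, norm version (all that is needed). -/
def NSExpLe : Prop :=
  ∀ h : ℝ → ℂ, HW h → ∀ V : ℝ → ℂ, SW V → ∀ (M : Eis) (f g : Eis → ℂ), (2 : Eis) ∣ M →
    (3 : Eis) ∣ M → M ≠ 0 → IsChar f → IsChar g →
    ∀ (r : ℕ) (y Q₀ Q : ℝ), 0 < r → 0 < y → 1 ≤ Q₀ → 0 < Q → (nm M : ℝ) < Q₀ ^ (y / r) / 9 →
    ∀ (J : Finset (Fin r)) (k : Eis), k ≠ 0 →
      ‖NSum h r y Q₀ J M f g V Q k‖ ≤
        ∑ J' ∈ J.powerset, ∑ p ∈ tup r y Q₀ J',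
          (∏ i : J', ‖h (Real.log (nm (p i)) - kap r y Q₀ i)‖ * ‖uw k (p i)‖) *
          ∑' b : Eis, if Sm M b ∧ Pf b ∧ IsCoprime b (∏ i : J', p i) then
            ‖tk k b 1‖ *
              ‖Amp h r y Q₀ (J \ J') (fun q => g q * prin0 b q * conj (sy k q))‖ *
              ‖MV V (Q / (nm b * nm (∏ i : J', p i)))
                (fun q => f q * prin0 (M * b * ∏ i : J', p i) q * sy k q)‖
            else 0

end Crest.Agent.R017.Asm986
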