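import Crest.Agent.R017.E4Dic_352
import Crest.Agent.R017.E4s_164
import Crest.Agent.R017.NSDefs_986

/-!
# Row 17, C70/E4 version 7: the size of the kernel `fN M (e ∏ β)` (helper352)

* `vp_fS` : the exponents of `fS E`
* `lg_fN_le` : `log N(fN) ≤ (2/5) log N(e) + (1/2) log N(∏ β)`
* `fN_cube` : no cube divides `fN`
* `lg_t_le` : the primes of `tS E`
-/

set_option autoImplicit false

noncomputable section

namespace Crest.Agent.R017.E4Dic352

open Crest.Agent.R012 Crest.Agent.R012.Eis Crest.Agent.R012.Mob705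
open Crest.Agent.R017.Sx545 Crest.Agent.R017.CM106 Crest.Agent.R017.C70
open Crest.Agent.R017.E4352
open Crest.Agent.R017.E4RG858 (fm pow_dvd_iff dvd_iff_mult mult_mul mult_pow mult_eq_zero fac)
open Crest.Agent.R017.E4D164 (sd SdP sd_spec fS tS fN fM fM_spec fS_prim tS_prim)

lemma mult_le_one {a p : Eis} (ha : IsPrim a) (hs : Squarefree a) (hp : Prime p) :
    multiplicity p a ≤ 1 := by
  by_contra h
  have h1 : p ^ 2 ∣ a := (pow_dvd_iff hp ha.ne_zero).mpr (by omega)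
  rw [pow_two] at h1
  exact hp.not_isUnit (hs p h1)

/-- the exponents of the symbol part -/
lemma vp_fS {E : Eis} (hE : IsPrim E) {p : Eis} (hp : Prime p) : ∃ a b c : ℕ, a ≤ 1 ∧ b ≤ 1 ∧
    a + b ≤ 1 ∧ multiplicity p E = a + 2 * b + 3 * c ∧ multiplicity p (fS E) = 2 * a + b ∧
    multiplicity p (tS E) = c := by
  obtain ⟨h1, h2, h3, h4, h5, h6, h7⟩ := sd_spec hE
  refine ⟨multiplicity p (sd E).1, multiplicity p (sd E).2.1, multiplicity p (sd E).2.2,
    mult_le_one h1 h2 hp, mult_le_one h3 h4 hp, ?_, ?_, ?_, rfl⟩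
  · by_contra h
    have e1 := mult_le_one h1 h2 hp
    have e2 := mult_le_one h3 h4 hp
    have d1 : p ∣ (sd E).1 := (dvd_iff_mult hp h1.ne_zero).mpr (by omega)
    have d2 : p ∣ (sd E).2.1 := (dvd_iff_mult hp h3.ne_zero).mpr (by omega)
    exact hp.not_isUnit (h5.isUnit_of_dvd' d1 d2)
  · conv_lhs => rw [h7]
    rw [mult_mul hp (mul_ne_zero h1.ne_zero (pow_ne_zero _ h3.ne_zero))
      (pow_ne_zero _ h6.ne_zero), mult_mul hp h1.ne_zero (pow_ne_zero _ h3.ne_zero),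
      mult_pow hp h3.ne_zero, mult_pow hp h6.ne_zero]
  · unfold fS
    rw [mult_mul hp (pow_ne_zero _ h1.ne_zero) h3.ne_zero, mult_pow hp h1.ne_zero]

/-- **the size of the kernel** -/
theorem lg_fS_le {e b : Eis} (he : IsPrim e) (hb : IsPrim b)
    (he5 : ∀ p : Eis, Prime p → p ∣ e → p ^ 5 ∣ e) (hb2 : ∀ p : Eis, Prime p → p ∣ b → p ^ 2 ∣ b) :
    lg (fS (e * b)) ≤ 2 / 5 * lg e + 1 / 2 * lg b := by
  have hE := he.mul hb
  have hS : PPSet (pp (e * b)) := ppSet_pp _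
  have s1 : pp (fS (e * b)) ⊆ pp (e * b) := by
    intro p hp
    have h1 := isPP_of_mem_pp hp
    exact (mem_pp hE.ne_zero).mpr ⟨h1, E4D164.fS_dvd hE h1.prime (dvd_of_mem_pp hp)⟩
  rw [lg_fac (fS_prim hE) hS s1, lg_fac he hS (pp_mono hE.ne_zero (dvd_mul_right _ _)),
    lg_fac hb hS (pp_mono hE.ne_zero (dvd_mul_left _ _)), Finset.mul_sum, Finset.mul_sum,
    ← Finset.sum_add_distrib]
  refine Finset.sum_le_sum fun p hp => ?_
  have hpp := (isPP_of_mem_pp hp).prime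
  obtain ⟨x, y, z, k1, k2, k3, k4, k5, -⟩ := vp_fS hE hpp
  rw [mult_mul hpp he.ne_zero hb.ne_zero] at k4
  have c1 : multiplicity p e = 0 ∨ 5 ≤ multiplicity p e := by
    by_cases h : p ∣ e
    · exact Or.inr ((pow_dvd_iff hpp he.ne_zero).mp (he5 p hpp h))
    · exact Or.inl (mult_eq_zero hpp he.ne_zero h)
  have c2 : multiplicity p b = 0 ∨ 2 ≤ multiplicity p b := by
    by_cases h : p ∣ b
    · exact Or.inr ((pow_dvd_iff hpp hb.ne_zero).mp (hb2 p hpp h))
    · exact Or.inl (mult_eq_zero hpp hb.ne_zero h)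
  have key : 10 * multiplicity p (fS (e * b)) ≤ 4 * multiplicity p e + 5 * multiplicity p b := by
    rw [k5]
    rcases c1 with c1 | c1 <;> rcases c2 with c2 | c2 <;> omega
  have key' : (10 : ℝ) * multiplicity p (fS (e * b)) ≤
      4 * multiplicity p e + 5 * multiplicity p b := by exact_mod_cast key
  have h0 := lg_nonneg p
  nlinarith

lemma fN_dvd {M E : Eis} (hM : M ≠ 0) (hE : IsPrim E) : fN M E ∣ fS E := by
  obtain ⟨-, -, h3⟩ := fM_spec hM hE
  rw [h3]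
  exact dvd_mul_left _ _

lemma lg_le_of_dvd {a b : Eis} (hb : b ≠ 0) (h : a ∣ b) : lg a ≤ lg b := by
  have ha : a ≠ 0 := fun h0 => hb (by rw [h0] at h; exact zero_dvd_iff.mp h)
  unfold lg
  exact Real.log_le_log (nm_pos' ha) (by
    exact_mod_cast Crest.Agent.R012.Div277.nm_le_of_dvd hb h)

/-- **the size of the kernel prime to `M`** -/
theorem lg_fN_le {M e b : Eis} (hM : M ≠ 0) (he : IsPrim e) (hb : IsPrim b)
    (he5 : ∀ p : Eis, Prime p → p ∣ e → p ^ 5 ∣ e) (hb2 : Asm986.Pf b) :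
    lg (fN M (e * b)) ≤ 2 / 5 * lg e + 1 / 2 * lg b :=
  (lg_le_of_dvd (fS_prim (he.mul hb)).ne_zero (fN_dvd hM (he.mul hb))).trans
    (lg_fS_le he hb he5 hb2)

/-- no cube divides the kernel -/
theorem fN_cube {M E : Eis} (hM : M ≠ 0) (hE : IsPrim E) {p : Eis} (hp : Prime p) :
    multiplicity p (fN M E) ≤ 2 := by
  obtain ⟨x, y, z, k1, k2, k3, k4, k5, -⟩ := vp_fS hE hp
  have h1 := fN_dvd hM hE
  have h2 : (fN M E) ≠ 0 := (fM_spec hM hE).2.1.ne_zero
  by_contra h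
  have h3 : p ^ 3 ∣ fN M E := (pow_dvd_iff hp h2).mpr (by omega)
  have h4 := (pow_dvd_iff hp (fS_prim hE).ne_zero).mp (h3.trans h1)
  omega

/-- the primes of the cube part -/
theorem lg_t_le {E t : Eis} (hE : IsPrim E) (ht : t ∣ tS E) : 3 * lg t ≤ lg E := by
  have h1 : t ^ 3 ∣ E := (pow_dvd_pow_of_dvd ht 3).trans (E4D164.tS_dvd hE)
  have h2 := lg_le_of_dvd hE.ne_zero h1
  rw [lg_pow] at h2
  push_cast at h2
  exact h2

end Crest.Agent.R017.E4Dic352
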