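import Crest.Agent.R017.Str3_699
import Crest.Agent.R017.E4fN_352
import Crest.Agent.R017.E4Cl_352

/-!
# Row 17, StrU: frame and classes in logarithms (helper352)

* `mass_am`, `mass_mo`, `FrV`, `frV` : the frame in exponents
* `kG`, `kY`, `kW`, `kC` : logarithms of the classes; `log_U0`, `log_lam`
* `dir_cls`, `fe_cls` : the two ranges in the class variables
-/

set_option autoImplicit false
set_option linter.unusedSectionVars false

noncomputable section

open Finset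

namespace Crest.Agent.R017.E4St352

open Crest.Agent.R012 Crest.Agent.R012.Eis Crest.Agent.R012.Mob705
open Crest.Agent.R017.Sx545 (Sm)
open Crest.Agent.R017.C70
open Crest.Agent.R017.Prov71 Crest.Agent.R017.E5B71 Crest.Agent.R017.E4D164
open Crest.Agent.R017.XG702 (Pcs)
open Crest.Agent.R017.B770 (DPar)
open Crest.Agent.R017.E5L770
open Crest.Agent.R017.E4U164
open Crest.Agent.R017.E4J352 (Tm rngD rngF)
open Crest.Agent.R017.E4RH858
open Crest.Agent.R017.E4Dic352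
open Crest.Agent.R017.Str699 (b3 n3 nu0 mlam eT o_spec)

/-! ### the frame -/

lemma mass_am (X : ℝ) (ps : List Pq) : Dq.mass X ps .am = lam' ps / Real.log X := by
  classical
  induction ps with
  | nil => simp [lam', amL]
  | cons p ps ih =>
    rw [Pcs.mass_cons, ih]
    unfold lam' amL
    rw [List.filter_cons]
    by_cases h : p.kd = .am
    · rw [if_pos (by exact h), if_pos (by simpa using h), List.map_cons, List.sum_cons, add_div]
      rfl
    · rw [if_neg (by exact h), if_neg (by simpa using h), zero_add]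

lemma mass_mo (X : ℝ) (ps : List Pq) :
    Dq.mass X ps .mo = ((moL ps).map fun p => p.z).sum / Real.log X := by
  classical
  induction ps with
  | nil => simp [moL]
  | cons p ps ih =>
    rw [Pcs.mass_cons, ih]
    unfold moL
    rw [List.filter_cons]
    by_cases h : p.kd = .mo
    · rw [if_pos (by exact h), if_pos (by simpa using h), List.map_cons, List.sum_cons, add_div]
      rfl
    · rw [if_neg (by exact h), if_neg (by simpa using h), zero_add]

/-- **the frame in exponents** -/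
structure FrV (δ L : ℝ) (a : Bd × ℕ) (ps : List Pq)
    (q : (Option (Fin 3 ⊕ Fin 5) → ℝ) × (Kd → ℝ)) : Prop where
  κ : |a.1.l - cκ (dn q.1) * L| ≤ δ * L
  x : |a.1.z - cx' (dn q.1) * L| ≤ δ * L
  e : |lg a.1.e - ce (dn q.1) * L| ≤ δ * L
  u : ∀ i, |(a.1.us i).z - cu (dn q.1) i * L| ≤ δ * L
  v : |Real.log 2 * a.2 - q.1 none * L| ≤ δ * L
  am : |lam' ps - q.2 .am * L| ≤ δ * L
  mo : |lmo a.1 ps - (cM (dn q.1) + q.2 .mo) * L| ≤ 3 * δ * L

lemma abs_of_div {y c δ L : ℝ} (hL : 0 < L) (h : |y / L - c| ≤ δ) : |y - c * L| ≤ δ * L := by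
  have e : y - c * L = (y / L - c) * L := by field_simp
  rw [e, abs_mul, abs_of_pos hL]
  exact mul_le_mul_of_nonneg_right h hL.le

theorem frV {A d δ δ' B X : ℝ} {N : ℕ} {a : Bd × ℕ} {ps : List Pq}
    {q : (Option (Fin 3 ⊕ Fin 5) → ℝ) × (Kd → ℝ)} (H : FrL A d δ δ' B X N a ps q) (hX : 1 < X) :
    FrV δ (Real.log X) a ps q := by
  have hL : 0 < Real.log X := Real.log_pos hX
  have hu : ∀ i, |(a.1.us i).z - cu (dn q.1) i * Real.log X| ≤ δ * Real.log X := fun i =>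
    abs_of_div hL (H.win.ev (some (.inr i)))
  have hm : |((moL ps).map fun p => p.z).sum - q.2 .mo * Real.log X| ≤ δ * Real.log X :=
    abs_of_div hL (by rw [← mass_mo]; exact H.mass .mo)
  refine ⟨abs_of_div hL (H.win.ev (some (.inl 0))), abs_of_div hL (H.win.ev (some (.inl 1))),
    abs_of_div hL (H.win.ev (some (.inl 2))), hu, abs_of_div hL (H.win.ev none),
    abs_of_div hL (by rw [← mass_am]; exact H.mass .am), ?_⟩
  have e : lmo a.1 ps = (a.1.us 0).z + ((a.1.us 1).z + ((moL ps).map fun p => p.z).sum) := by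
    unfold lmo bs2
    rw [List.map_cons, List.map_cons, List.sum_cons, List.sum_cons]
  have h0 := abs_le.mp (hu 0)
  have h1 := abs_le.mp (hu 1)
  have h2 := abs_le.mp hm
  have eM : cM (dn q.1) = cu (dn q.1) 0 + cu (dn q.1) 1 := rfl
  rw [e, eM, abs_le]
  constructor <;> nlinarith [h0.1, h0.2, h1.1, h1.2, h2.1, h2.2]

/-! ### the classes -/

/-- `G` : primes of `S` with `v_p(S) = 1`, `v_p(j) = 0` -/
def kG (x : Dt) : ℝ := x.m 0 0 * Real.log 2
/-- `Y` -/
def kY (x : Dt) : ℝ := (x.m 0 1 + x.m 1 1 + x.m 1 2) * Real.log 2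
/-- `W` : `v_p(S) = 2`, `v_p(j) = 0` -/
def kW (x : Dt) : ℝ := x.m 1 0 * Real.log 2
/-- `v_p(S) = 1`, `v_p(j) = 2` -/
def kC (x : Dt) : ℝ := x.m 0 2 * Real.log 2

lemma log2_nonneg : 0 ≤ Real.log 2 := Real.log_nonneg (by norm_num)

lemma kG_nonneg (x : Dt) : 0 ≤ kG x := mul_nonneg (Nat.cast_nonneg _) log2_nonneg
lemma kY_nonneg (x : Dt) : 0 ≤ kY x := mul_nonneg (by positivity) log2_nonneg
lemma kW_nonneg (x : Dt) : 0 ≤ kW x := mul_nonneg (Nat.cast_nonneg _) log2_nonneg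
lemma kC_nonneg (x : Dt) : 0 ≤ kC x := mul_nonneg (Nat.cast_nonneg _) log2_nonneg

lemma mlam_eq (x : Dt) : (mlam x.m : ℝ) * Real.log 2 = kG x + 2 * kY x + 3 * kW x + kC x := by
  have h : mlam x.m = x.m 0 0 + 2 * x.m 0 1 + x.m 0 2 + 3 * x.m 1 0 + 2 * x.m 1 1 +
      2 * x.m 1 2 := by
    unfold mlam
    simp only [Fin.sum_univ_two, Fin.sum_univ_three]
    have e00 : eT 0 0 = 1 := rfl
    have e01 : eT 0 1 = 2 := rfl
    have e02 : eT 0 2 = 1 := rfl
    have e10 : eT 1 0 = 3 := rfl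
    have e11 : eT 1 1 = 2 := rfl
    have e12 : eT 1 2 = 2 := rfl
    rw [e00, e01, e02, e10, e11, e12]
    ring
  rw [h]
  unfold kG kY kW kC
  push_cast
  ring

lemma nSE_eq (x : Dt) : ((x.nS : ℝ) - x.nE) * Real.log 2 = kG x + kY x + 2 * kW x := by
  unfold Dt.nS Dt.nE kG kY kW
  simp only [Fin.sum_univ_three]
  push_cast
  ring

/-- **the logarithm of `U0`** -/
theorem log_U0 {P : DPar} {a : Bd × ℕ} {ps : List Pq} {x : Dt}
    (h : fN P.n₃ (x.E a.1) ≠ 0) : Real.log (U0 P a ps x) =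
      lg (fN P.n₃ (x.E a.1)) + Real.log 2 * a.2 + 3 * (kG x + kY x + 2 * kW x) +
        (lam' ps + 2 * lmo a.1 ps) := by
  have h1 := nm_pos' h
  have h8 : Real.log 8 = 3 * Real.log 2 := by
    rw [show (8 : ℝ) = 2 ^ 3 by norm_num, Real.log_pow]
    push_cast
    ring
  unfold U0
  rw [Real.log_mul (by positivity) (Real.exp_pos _).ne', Real.log_exp,
    Real.log_div (by positivity) (by positivity), Real.log_mul (by positivity) (by positivity),
    Real.log_mul h1.ne' (by positivity), Real.log_pow, Real.log_pow, Real.log_pow, h8,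
    ← nSE_eq]
  unfold lg
  ring

section cls

variable {Λ : Type*} {π : Λ → DPar} {lam : Λ × Eis} {Jf : ℝ → ℝ → ℝ → Finset (Eis × Eis)}
  {a : Bd × ℕ} {x : Dt} {Bf : ℝ → ℝ → ℝ → ℝ} {e0 r ε X : ℝ}

/-- `N(S ν)` from the classes -/
theorem log_lam (hJ : ∀ l N z, OKJ (Jf l N z)) (ha : a.1.ok) (hP : a.1.okP (π lam.1))
    (hx : x.OK (π lam.1) Bf e0 r ε X a.1) (o : x.O π lam Jf a) :
    kG x + 2 * kY x + 3 * kW x + kC x + lg (nu0 o.1.1 o.1.2) ≤ Real.log (lD o) ∧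
    Real.log (lD o) ≤ kG x + 2 * kY x + 3 * kW x + kC x + lg (nu0 o.1.1 o.1.2) +
      11 * Real.log 2 := by
  obtain ⟨p1, p2, -, -, -, h1, h2⟩ := o_spec hJ ha hP hx o
  have h0 : (0 : ℝ) < nm (nu0 o.1.1 o.1.2) := nm_pos' (Str699.nu0_prim _ _).ne_zero
  have h3 : (0 : ℝ) < nm (o.1.1 * o.1.2) := nm_pos' (p1.mul p2).ne_zero
  have h1' : (2 : ℝ) ^ mlam x.m * nm (nu0 o.1.1 o.1.2) ≤ nm (o.1.1 * o.1.2) := by exact_mod_cast h1
  have h2' : (nm (o.1.1 * o.1.2) : ℝ) ≤ 2 ^ 11 * 2 ^ mlam x.m * nm (nu0 o.1.1 o.1.2) := by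
    exact_mod_cast h2
  have e1 := Real.log_le_log (by positivity) h1'
  have e2 := Real.log_le_log h3 h2'
  rw [Real.log_mul (by positivity) h0.ne', Real.log_pow, mlam_eq] at e1
  rw [Real.log_mul (by positivity) h0.ne', Real.log_mul (by positivity) (by positivity),
    Real.log_pow, Real.log_pow, mlam_eq] at e2
  unfold lD lg
  refine ⟨e1, e2.trans ?_⟩
  push_cast
  linarith

lemma lD_pos (o : x.O π lam Jf a) (hJ : ∀ l N z, OKJ (Jf l N z)) (ha : a.1.ok)
    (hP : a.1.okP (π lam.1)) (hx : x.OK (π lam.1) Bf e0 r ε X a.1) : 0 < lD o := by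
  obtain ⟨p1, p2, -⟩ := o_spec hJ ha hP hx o
  exact nm_pos' (p1.mul p2).ne_zero

/-- the cube part of `S ν` -/
theorem lg_b3 (hJ : ∀ l N z, OKJ (Jf l N z)) (ha : a.1.ok) (hP : a.1.okP (π lam.1))
    (hx : x.OK (π lam.1) Bf e0 r ε X a.1) (o : x.O π lam Jf a) :
    kW x ≤ lg (b3 (o.1.1 * o.1.2)) ∧ lg (b3 (o.1.1 * o.1.2)) ≤ kW x + Real.log 2 := by
  obtain ⟨-, -, -, -, ⟨h1, h2⟩, -, -⟩ := o_spec hJ ha hP hx o
  have h0 : (0 : ℝ) < nm (b3 (o.1.1 * o.1.2)) := nm_pos' (Str699.b3_prim _).ne_zero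
  have h1' : (2 : ℝ) ^ x.m 1 0 ≤ nm (b3 (o.1.1 * o.1.2)) := by exact_mod_cast h1
  have h2' : (nm (b3 (o.1.1 * o.1.2)) : ℝ) ≤ 2 ^ (x.m 1 0 + 1) := by exact_mod_cast h2.le
  have e1 := Real.log_le_log (by positivity) h1'
  have e2 := Real.log_le_log h0 h2'
  rw [Real.log_pow] at e1 e2
  unfold kW lg
  refine ⟨e1, e2.trans (le_of_eq ?_)⟩
  push_cast
  ring

variable {t : Tm (x.O π lam Jf a)}

lemma kap_eq (hk : t.k ≠ 0) (hl : 0 < lD t.o) : E4Dic352.kap lD t = Real.log (lD t.o) + lg t.k := by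
  unfold E4Dic352.kap lg
  exact Real.log_mul hl.ne' (nm_pos' hk).ne'

/-- **the direct range in the class variables** -/
theorem dir_cls (hJ : ∀ l N z, OKJ (Jf l N z)) (ha : a.1.ok) (hP : a.1.okP (π lam.1))
    (hx : x.OK (π lam.1) Bf e0 r ε X a.1) {M : Eis} (h : Facts M t) (hD : t.D1 ≠ 0)
    (hk : t.k ≠ 0) {sw : Eis → Eis → Eis → Eis → Eis → Prop} {K : ℝ}
    (hr : rngD sw lD K t) :
    lg t.k + lg (nu0 t.o.1.1 t.o.1.2) + kC x + kG x + 2 * kY x + 3 * kW x + 2 * lg t.D1 +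
      3 * BS (pf t) + 2 * lg (b1 t) + bS (pf t) ≤ Real.log K := by
  have hl := lD_pos t.o hJ ha hP hx
  have h1 := dir_log h hD hk hl hr
  have h2 := (log_lam hJ ha hP hx t.o).1
  rw [kap_eq hk hl] at h1
  linarith

/-- **the dual range in the class variables** -/
theorem fe_cls (hJ : ∀ l N z, OKJ (Jf l N z)) (ha : a.1.ok) (hP : a.1.okP (π lam.1))
    (hx : x.OK (π lam.1) Bf e0 r ε X a.1) {M : Eis} (h : Facts M t) (hD : t.D1 ≠ 0)
    (hk : t.k ≠ 0) {ps : List Pq} (hX : 0 < X) {ε' : ℝ}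
    (hf : fN (π lam.1).n₃ (x.E a.1) ≠ 0) {sw : Eis → Eis → Eis → Eis → Eis → Prop}
    (hr : rngF sw lD (X ^ ε' * (U0 (π lam.1) a ps x / Real.exp a.1.l)) t) :
    lg t.k + lg (nu0 t.o.1.1 t.o.1.2) + kC x + 2 * lg (b1 t) + bS (pf t) ≤
      ε' * Real.log X + (lg (fN (π lam.1).n₃ (x.E a.1)) + Real.log 2 * a.2 + lam' ps +
        2 * lmo a.1 ps - a.1.l) + 2 * kG x + kY x + 3 * kW x + lg t.D1 := by
  have hl := lD_pos t.o hJ ha hP hx
  have hn := nm_pos' hf
  have hU : 0 < U0 (π lam.1) a ps x := by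
    unfold U0
    positivity
  have h1 := fe_log h hD hk hl (by positivity) hr
  have h2 := (log_lam hJ ha hP hx t.o).1
  rw [kap_eq hk hl, Real.log_mul (by positivity) (by positivity), Real.log_rpow hX,
    Real.log_div hU.ne' (Real.exp_pos _).ne', Real.log_exp, log_U0 hf] at h1
  linarith

end cls

end Crest.Agent.R017.E4St352
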