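import Crest.Agent.R017.E4Se_352
import Crest.Agent.R017.E4ScE_266

/-!
# Row 17, StrUX: the lengths of a term (helper266)

helper352's `E4Sb`, `E4Se` at the data of class E, one scale `s`.

* `e0_splitX` : any sequences;  `trN_ofE` : the lengths `TrN` of a term of class E, scale `sc`
* `logKE_le`, `logUE_le`, `hE_ge` : the lengths of a scale
* `termDE`, `termFE`, `termHE` : everything for a term of the direct / dual block of a scale, and of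
  the last direct block
-/

set_option autoImplicit false
set_option linter.unusedSectionVars false

noncomputable section

open Finset Complex
open scoped ComplexConjugate

namespace Crest.Agent.R017.E4SE266

open Crest.Agent.R012 Crest.Agent.R012.Eis
open Crest.Agent.R012.Mob705 hiding pb mem_pb kap
open Crest.Agent.R017.Sx545 (Sm)
open Crest.Agent.R017.CM106 (FS)
open Crest.Agent.R017.C70
open Crest.Agent.R017.Prov71 Crest.Agent.R017.E5B71 Crest.Agent.R017.E4D164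
open Crest.Agent.R017.B770 (DPar)
open Crest.Agent.R017.E5L770
open Crest.Agent.R017.E5LX770 (SqLX)
open Crest.Agent.R017.ExP960 hiding alX
open Crest.Agent.R017.E4U164
open Crest.Agent.R017.E4Df372
open Crest.Agent.R017.E4352 (PrI rd)
open Crest.Agent.R017.E4J352 (Tm rngD rngF)
open Crest.Agent.R017.E4RG858 (pow_dvd_iff dvd_iff_mult mult_mul mult_pow mult_eq_zero fac)
open Crest.Agent.R017.E4RH858
open Crest.Agent.R017.E4Dic352
open Crest.Agent.R017.Str699 (b3 n3 nu0 mlam)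
open Crest.Agent.R017.E4R70 (Cls topK)
open Crest.Agent.R017.Nm918 (OkT)
open Crest.Agent.R017.JxS679 (sk)
open Crest.Agent.R017.E4St352

section cls

variable {Λ : Type*} {π : Λ → DPar} {lam : Λ × Eis}
  {Jf : ℝ → ℝ → ℝ → Finset (Eis × Eis)}
  {a : Bd × ℕ} {x : Dt} {Bf : ℝ → ℝ → ℝ → ℝ} {e0 r ε X : ℝ} {t : Tm (x.O π lam Jf a)}

/-- **the `e₀`-primes outside `bo3` are of class `(1,0)`**, any
sequence -/
theorem e0_splitX (hJ : ∀ l N z, OKJ (Jf l N z)) (ha : a.1.ok) (hP : a.1.okP (π lam.1))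
    (hn : (π lam.1).n₃ ≠ 0) (hx : x.OK (π lam.1) Bf e0 r ε X a.1) {ψ : Eis → ℂ} {l : ℤ}
    {α : Eis → ℂ} {G : Eis → ℂ}
    (hxs : t.xs (vX (π lam.1).n₃ ψ l (x.I Jf a) (omL a.2) x.ph (x.E a.1) α x.g x.e₀ x.t x.c₀ x.g')
      G ≠ 0) :
    lg x.e₀ - lg (be2 x.e₀ (bo3 t)) ≤ kG x + Real.log 2 := by
  classical
  obtain ⟨x1, -, -, hx1⟩ := xs_ne hxs
  obtain ⟨-, -, -, -, -, -, -, -, -, -, j, j1, j2, j3, j4, j5, j6, j7⟩ :=
    vX_spec hJ ha hP hn hx t.o hx1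
  obtain ⟨e1, e2, -⟩ := e0_prim hx
  have hS0 := j5.ne_zero
  have hb : bo3 t = pS 1 0 t.o.1.1 j := j4
  -- every prime of `e₀`
  have key : pp x.e₀ ⊆ (pp t.o.1.1).filter (fun p => multiplicity p t.o.1.1 = ((0 : Fin 2) : ℕ) + 1 ∧
      multiplicity p j = ((0 : Fin 3) : ℕ)) ∪ (pp (bo3 t)).filter (fun p => p ∣ x.e₀) := by
    intro p hp
    obtain ⟨hpp, hpe⟩ := (mem_pp e1.ne_zero).mp hp
    have hpS : p ∣ t.o.1.1 := hpe.trans j3
    have m1 := (dvd_iff_mult hpp.prime hS0).mp hpS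
    have m2 := j6 p hpp
    have m3 : multiplicity p j = 0 := mult_eq_zero hpp.prime (E4K164.jc_ne_zero j1) fun hd =>
      hpp.prime.not_isUnit (j2.isUnit_of_dvd' hd hpe)
    have hmS : p ∈ pp t.o.1.1 := (mem_pp hS0).mpr ⟨hpp, hpS⟩
    rw [mem_union]
    rcases (by omega : multiplicity p t.o.1.1 = 1 ∨ multiplicity p t.o.1.1 = 2) with h1 | h1
    · left
      exact mem_filter.mpr ⟨hmS, by simpa using h1, by simpa using m3⟩
    · right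
      refine mem_filter.mpr ⟨(mem_pp (bo3_prim t).ne_zero).mpr ⟨hpp, ?_⟩, hpe⟩
      rw [hb]
      unfold pS
      exact dvd_prod_of_mem _ (mem_filter.mpr ⟨hmS, by simpa using h1, by simpa using m3⟩)
  have h1 : lg x.e₀ = ∑ p ∈ pp x.e₀, lg p := by
    conv_lhs => rw [← prod_pp e1 e2]
    exact lg_prod1 (ne_of_mem (ppSet_pp _))
  have h2 : lg (pS 0 0 t.o.1.1 j) = ∑ p ∈ (pp t.o.1.1).filter
      (fun p => multiplicity p t.o.1.1 = ((0 : Fin 2) : ℕ) + 1 ∧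
        multiplicity p j = ((0 : Fin 3) : ℕ)), lg p := by
    unfold pS
    exact lg_prod1 fun p hp => ne_of_mem (ppSet_pp _) p (mem_filter.mp hp).1
  have h3 : lg (be2 x.e₀ (bo3 t)) = ∑ p ∈ (pp (bo3 t)).filter (fun p => p ∣ x.e₀), lg p := by
    unfold be2
    exact lg_prod1 fun p hp => ne_of_mem (ppSet_pp _) p (mem_filter.mp hp).1
  have h4 : ∑ p ∈ pp x.e₀, lg p ≤ lg (pS 0 0 t.o.1.1 j) + lg (be2 x.e₀ (bo3 t)) := by
    rw [h2, h3]
    refine (sum_le_sum_of_subset_of_nonneg key fun _ _ _ => lg_nonneg _).trans ?_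
    set A := (pp t.o.1.1).filter (fun p => multiplicity p t.o.1.1 = ((0 : Fin 2) : ℕ) + 1 ∧
      multiplicity p j = ((0 : Fin 3) : ℕ))
    set B := (pp (bo3 t)).filter (fun p => p ∣ x.e₀)
    have h6 := sum_union_inter (s₁ := A) (s₂ := B) (f := lg)
    have h7 : 0 ≤ ∑ p ∈ A ∩ B, lg p := sum_nonneg fun _ _ => lg_nonneg _
    linarith
  have h5 : lg (pS 0 0 t.o.1.1 j) ≤ kG x + Real.log 2 := by
    have h6 := (j7 0 0).2.le
    have h7 : (nm (pS 0 0 t.o.1.1 j) : ℝ) ≤ 2 ^ (x.m 0 0 + 1) := by exact_mod_cast h6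
    have h8 := Real.log_le_log (nm_pos' (Str699.pS_prim _ _ _ _).ne_zero) h7
    rw [Real.log_pow] at h8
    unfold kG lg
    push_cast at h8
    linarith
  linarith

end cls

/-! ### the frame, one scale -/

section frame

variable {δ τ X s : ℝ} {a : Bd × ℕ} {ps : List Pq}
  {q : (Option (Fin 3 ⊕ Fin 5) → ℝ) × (Kd → ℝ)}

/-- the direct length -/
lemma logKE_le (H : FrV δ (Real.log X) a ps q) (hX : 1 < X) {ε' : ℝ} (h1 : δ ≤ τ) (h2 : ε' ≤ τ) :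
    Real.log (X ^ ε' * Real.exp a.1.l * Real.exp (-s)) ≤
      cκ (dn q.1) * Real.log X - s + 4 * τ * Real.log X := by
  have h := logK_le H hX h1 h2
  have hX0 : 0 < X := by linarith
  rw [Real.log_mul (mul_pos (Real.rpow_pos_of_pos hX0 _) (Real.exp_pos _)).ne'
    (Real.exp_pos _).ne', Real.log_exp]
  linarith

/-- the dual length -/
lemma logUE_le {P : DPar} {x : Dt} {A : ℝ} (H : FrV δ (Real.log X) a ps q) (hX : 1 < X)
    (hN : Nr5 A (dn q.1) q.2) {ε' : ℝ} (h1 : 4 * δ ≤ τ) (h2 : 2 * ε' ≤ τ)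
    (hP : a.1.okP P) (hn : P.n₃ ≠ 0) (hβ : IsPrim (∏ i, x.β i)) (hpf : Asm986.Pf (∏ i, x.β i)) :
    Real.log (X ^ ε' * (U0 P a ps x / (Real.exp a.1.l * Real.exp (-s)))) ≤
      K1L (Real.log X) (cκ (dn q.1)) (cN (dn q.1)) (cM (dn q.1)) (q.2 .mo) (q.2 .am) a.2 x +
        3 * (kG x + kY x) + 6 * kW x + s + 9 / 2 * τ * Real.log X := by
  have h := logU_le H hX hN h1 h2 hP hn hβ hpf
  have hX0 : 0 < X := by linarith
  have hEp : IsPrim (x.E a.1) := hP.1.prim.mul hβ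
  have h0 := nm_pos' (fM_spec hn hEp).2.1.ne_zero
  have hU : 0 < U0 P a ps x := by
    unfold U0
    positivity
  have e : X ^ ε' * (U0 P a ps x / (Real.exp a.1.l * Real.exp (-s))) =
      X ^ ε' * (U0 P a ps x / Real.exp a.1.l) * Real.exp s := by
    rw [Real.exp_neg]
    field_simp
  rw [e, Real.log_mul (by positivity) (Real.exp_pos _).ne', Real.log_exp]
  linarith

/-- **the last scale** -/
lemma hE_ge {P : DPar} {x : Dt} {A : ℝ} {ps : List Pq} {a : BdX × ℕ}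
    (H : FrV δ (Real.log X) (bl a) ps q) (hX : 1 < X)
    (hN : Nr5 A (dn q.1) q.2) (h1 : 4 * δ ≤ τ)
    (hP : a.1.okP P) (hn : P.n₃ ≠ 0) (hβ : IsPrim (∏ i, x.β i)) (hpf : Asm986.Pf (∏ i, x.β i)) :
    cκ (dn q.1) * Real.log X -
      K1L (Real.log X) (cκ (dn q.1)) (cN (dn q.1)) (cM (dn q.1)) (q.2 .mo) (q.2 .am) a.2 x -
        3 * (kG x + kY x) - 6 * kW x - 5 * τ * Real.log X ≤ 3 * E4Df372.hE P a ps x := by
  have hX0 : 0 < X := by linarith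
  have h := logU_le (ε' := 0) H hX hN h1 (by
    have : 0 ≤ δ * Real.log X := (abs_nonneg _).trans H.κ
    have h2 : 0 ≤ δ := nonneg_of_mul_nonneg_left this (Real.log_pos hX)
    linarith) hP hn hβ hpf
  have hEp : IsPrim (x.E a.1.toBd) := hP.1.prim.mul hβ
  have h0 := nm_pos' (fM_spec hn hEp).2.1.ne_zero
  have hU : 0 < U0 P (bl a) ps x := by
    unfold U0
    positivity
  rw [Real.rpow_zero, one_mul, Real.log_div hU.ne' (Real.exp_pos _).ne', Real.log_exp] at h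
  have hκ := abs_le.mp H.κ
  have h4 := mul_le_mul_of_nonneg_right h1 (Real.log_pos hX).le
  have h5 : (2 * a.1.l - Real.log (U0 P (bl a) ps x)) / 3 ≤ E4Df372.hE P a ps x := le_max_right _ _
  have e1 : (bl a).1.l = a.1.l := rfl
  have e2 : (bl a).2 = a.2 := rfl
  rw [e1] at h hκ
  rw [e2] at h
  linarith [hκ.1]

end frame

/-! ### the terms of class E -/

section dat

variable {Λ : Type*} {π : Λ → DPar} {h : ℝ → ℝ} {lam : Λ × Eis}
  {Jf : ℝ → ℝ → ℝ → Finset (Eis × Eis)}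
  {a : BdX × ℕ} {x : Dt} {Bf : ℝ → ℝ → ℝ → ℝ} {e0 r ε X : ℝ} {t : Tm (x.O π lam Jf (bl a))}

lemma lg_βE (hx : x.OK (π lam.1) Bf e0 r ε X a.1.toBd)
    (hBf : Bf a.1.l (a3 a.1.toBd) a.1.z ≤ a3 a.1.toBd + a.1.z - a.1.l / 2) :
    lg (∏ i, x.β i) ≤ a3 a.1.toBd + a.1.z - a.1.l / 2 := by
  have h1 := (SSb54.mem_PTb.mp hx.β).2
  have h2 := Real.log_le_log (nm_pos' (T3_prim x.β hx.β).ne_zero) h1
  rw [Real.log_exp] at h2
  exact h2.trans hBf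

/-- **the lengths of a term in class E**, scale `sc` -/
theorem trN_ofE (hJ : ∀ l N z, OKJ (Jf l N z)) {A τ δ L sc : ℝ} {ps : List Pq}
    {q : (Option IX5 → ℝ) × (Kd → ℝ)} (H : FrV δ L (bl a) ps (qX q))
    (hN : Nr5 A (prX (dn q.1)) q.2)
    (hL : 0 < L) (hδ : 0 ≤ δ) (hδτ : δ ≤ τ) (hτ1 : τ ≤ 1 / 2) (h2 : 28 * Real.log 2 ≤ τ * L)
    (ha : a.1.ok) (hP : a.1.okP (π lam.1)) (hn : (π lam.1).n₃ ≠ 0)
    (hx : x.OK (π lam.1) Bf e0 r ε X a.1.toBd)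
    (hBf : Bf a.1.l (a3 a.1.toBd) a.1.z ≤ a3 a.1.toBd + a.1.z - a.1.l / 2) (he1 : 64 * e0 ≤ 1)
    {j : Fin 2} {h₁ : FS (b1 (π lam.1) h lam.2 ps)} {h₂ : FS (b2X (π lam.1) h lam.2 a.1 ps j)}
    {G : Eis → ℂ} (hf : Facts (π lam.1).n₃ t) (hok : t.OK (π lam.1).n₃ 1)
    (hval : t.val 1 lD (vE π h lam Jf a x) (wE π h lam Jf a ps x j h₁ h₂) G ≠ 0)
    {f1 f2 f3 D1' Z'' l m : Eis}
    (s : Spl (π lam.1).n₃ (fN (π lam.1).n₃ (x.E a.1.toBd)) x.z t f1 f2 f3 D1' Z'' l m)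
    (hl : lg l + lg D1' ≤ lam' ps + τ * L) (hm : lg m ≤ lmo a.1.toBd ps + τ * L)
    (hsc : 0 ≤ sc) :
    TrN τ L (cκ (prX (dn q.1))) (cN (prX (dn q.1))) (cM (prX (dn q.1))) (q.2 .mo) (q.2 .am)
      (cx' (prX (dn q.1))) sc a.2 x (fN (π lam.1).n₃ (x.E a.1.toBd)) t f1 f2 D1' l m := by
  refine trN_gen (a := bl a) (q := qX q) hJ H hN hL hδ hδτ hτ1 h2 ha.base hP hn hx he1
    (lg_βE hx hBf) hf hok ?_
    (len_xE hJ ha hP hn hx hf hval) s hl hm hsc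
  rw [gS_eq]
  exact max_le (e0_splitX (a := bl a) hJ ha.base hP hn hx (val_ne hval).2.1)
    (by linarith [log2_nonneg])

/-- the hypotheses of a term, in units of the family -/
lemma switch_top {L κ N M ao am cx sc τ : ℝ} {i : ℕ} {f : Eis} {OO : Finset (Eis × Eis)}
    {t : Tm OO} {f1 f2 D1' l m : Eis}
    (T : TrN τ L κ N M ao am cx sc i x f t f1 f2 D1' l m) (hL : 0 < L) (hκ : 8 / 9 ≤ κ)
    (hτ : 0 ≤ τ)
    (h : κ * L - K1L L κ N M ao am i x - 3 * (kG x + kY x) - 6 * kW x - 5 * τ * L ≤ 3 * sc) :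
    1 - (zTr (κ * L) i x f t f1 f2 D1' l m sc).K1 (1 / κ) (N / κ) (M / κ) (ao / κ) (am / κ) ≤
      (zTr (κ * L) i x f t f1 f2 D1' l m sc).ss + 6 * τ := by
  have hκ0 : 0 < κ := by linarith
  have hG : 0 < κ * L := mul_pos hκ0 hL
  have hs : 5 * τ * L ≤ 6 * τ * (κ * L) := by
    have : 0 ≤ τ * L := mul_nonneg hτ hL.le
    nlinarith
  have h4 := zss (i := i) (x := x) (f := f) (t := t) (f1 := f1) (f2 := f2) (D1' := D1') (l := l)
    (m := m) (sc := sc) hG.ne'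
  have h5 := zK1 (N := N) (M := M) (ao := ao) (am := am) (i := i) (x := x) (f := f) (t := t)
    (f1 := f1) (f2 := f2) (D1' := D1') (l := l) (m := m) (sc := sc) hL.ne' hκ0.ne'
  have g3 := T.b3.1
  have g0 := le_gS x t
  have g4 := kW_nonneg x
  have g5 : 0 ≤ lg D1' := lg_nonneg _
  have g6 := BS_nonneg (pf t)
  have g7 : 0 ≤ lg f1 := lg_nonneg _
  refine le_of_mul_le_mul_left ?_ hG
  rw [mul_sub, mul_add, h4, h5]
  linarith

/-- **a term of the direct block of a scale** -/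
theorem termDE (hJ : ∀ l N z, OKJ (Jf l N z)) {A τ δ ε' s : ℝ} {ps : List Pq}
    {q : (Option IX5 → ℝ) × (Kd → ℝ)} (H : FrV δ (Real.log X) (bl a) ps (qX q))
    (hX : 1 < X) (hN : Nr5 A (prX (dn q.1)) q.2) (hτ : 0 ≤ τ) (hδτ : δ ≤ τ) (hετ : ε' ≤ τ)
    (hlow : q.1 none ≤ low5 (prX (dn q.1))) (ha : a.1.ok) (hP : a.1.okP (π lam.1))
    {Bf : ℝ → ℝ → ℝ → ℝ} (hx : x.OK (π lam.1) Bf e0 r ε X a.1.toBd)
    (hf : Facts (π lam.1).n₃ t) (hok : t.OK (π lam.1).n₃ 1) {f1 f2 D1' l m : Eis}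
    (T : TrN τ (Real.log X) (cκ (prX (dn q.1))) (cN (prX (dn q.1))) (cM (prX (dn q.1)))
      (q.2 .mo) (q.2 .am) (cx' (prX (dn q.1))) s a.2 x (fN (π lam.1).n₃ (x.E a.1.toBd)) t
      f1 f2 D1' l m)
    (hr : rngD (swU (swT (Real.log X) (cκ (prX (dn q.1))) (cN (prX (dn q.1)))
      (cM (prX (dn q.1))) (q.2 .mo) (q.2 .am) s a.2 x)) lD
      (X ^ ε' * Real.exp a.1.l * Real.exp (-s)) t)
    {z : Cls} (hz : z = zTr (cκ (prX (dn q.1)) * Real.log X) a.2 x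
      (fN (π lam.1).n₃ (x.E a.1.toBd)) t f1 f2 D1' l m s) {d : ℝ}
    (h9 : 4 * z.s ≤ topK (cN (prX (dn q.1)) / cκ (prX (dn q.1)))
      (cx' (prX (dn q.1)) / cκ (prX (dn q.1))) - z.v + 9 / 8 * d + 6 * τ)
    (hb : 2 * z.β ≤ topK (cN (prX (dn q.1)) / cκ (prX (dn q.1)))
      (cx' (prX (dn q.1)) / cκ (prX (dn q.1))) - z.v + 9 / 8 * d + 6 * τ) :
    OkT (6 * τ) z d (1 / cκ (prX (dn q.1))) (cN (prX (dn q.1)) / cκ (prX (dn q.1)))
        (cM (prX (dn q.1)) / cκ (prX (dn q.1))) (q.2 .mo / cκ (prX (dn q.1)))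
        (q.2 .am / cκ (prX (dn q.1))) (cx' (prX (dn q.1)) / cκ (prX (dn q.1))) ∧
      z.v ≤ min (2 * (cN (prX (dn q.1)) / cκ (prX (dn q.1))) - 1)
        (3 / 4 * (cN (prX (dn q.1)) / cκ (prX (dn q.1)))) +
        9 / 4 * (cx' (prX (dn q.1)) / cκ (prX (dn q.1))) + 6 * τ ∧
      z.k + z.lam + z.sc ≤ 1 - 2 * z.η - 2 * z.F - 2 * z.b1 - z.b - 3 * z.B + 6 * τ ∧
      1 - z.K1 (1 / cκ (prX (dn q.1))) (cN (prX (dn q.1)) / cκ (prX (dn q.1)))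
        (cM (prX (dn q.1)) / cκ (prX (dn q.1))) (q.2 .mo / cκ (prX (dn q.1)))
        (q.2 .am / cκ (prX (dn q.1))) ≤ z.ss + 6 * τ := by
  have hL : 0 < Real.log X := Real.log_pos hX
  have hκ := hN.κ0
  have hD : t.D1 ≠ 0 := hok.pD1.ne_zero
  have hl := lD_pos (a := bl a) t.o hJ ha.base hP hx
  have hlam := (log_lam (a := bl a) hJ ha.base hP hx t.o).1
  subst hz
  refine ⟨T.okT hL hκ hτ h9 hb, win_of (q := qX q) H hX rfl hκ hδτ hlow,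
    T.rD hL hκ hτ hf hD hl hlam hr (logKE_le (q := qX q) H hX hδτ hετ), ?_⟩
  have h1 := T.nsw hL hκ hf hD hr.1
  linarith

/-- **a term of the last direct block** -/
theorem termHE (hJ : ∀ l N z, OKJ (Jf l N z)) {A τ δ ε' : ℝ} {ps : List Pq}
    {q : (Option IX5 → ℝ) × (Kd → ℝ)} (H : FrV δ (Real.log X) (bl a) ps (qX q))
    (hX : 1 < X) (hN : Nr5 A (prX (dn q.1)) q.2) (hτ : 0 ≤ τ) (hδτ : 4 * δ ≤ τ) (hετ : ε' ≤ τ)
    (hn : (π lam.1).n₃ ≠ 0)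
    (hlow : q.1 none ≤ low5 (prX (dn q.1))) (ha : a.1.ok) (hP : a.1.okP (π lam.1))
    {Bf : ℝ → ℝ → ℝ → ℝ} (hx : x.OK (π lam.1) Bf e0 r ε X a.1.toBd)
    (hf : Facts (π lam.1).n₃ t) (hok : t.OK (π lam.1).n₃ 1) {f1 f2 D1' l m : Eis}
    (T : TrN τ (Real.log X) (cκ (prX (dn q.1))) (cN (prX (dn q.1))) (cM (prX (dn q.1)))
      (q.2 .mo) (q.2 .am) (cx' (prX (dn q.1))) (E4Df372.hE (π lam.1) a ps x) a.2 x
      (fN (π lam.1).n₃ (x.E a.1.toBd)) t f1 f2 D1' l m)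
    {sw : Eis → Eis → Eis → Eis → Eis → Prop}
    (hr : rngD sw lD
      (X ^ ε' * Real.exp a.1.l * Real.exp (-E4Df372.hE (π lam.1) a ps x)) t)
    {z : Cls} (hz : z = zTr (cκ (prX (dn q.1)) * Real.log X) a.2 x
      (fN (π lam.1).n₃ (x.E a.1.toBd)) t f1 f2 D1' l m (E4Df372.hE (π lam.1) a ps x)) {d : ℝ}
    (h9 : 4 * z.s ≤ topK (cN (prX (dn q.1)) / cκ (prX (dn q.1)))
      (cx' (prX (dn q.1)) / cκ (prX (dn q.1))) - z.v + 9 / 8 * d + 6 * τ)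
    (hb : 2 * z.β ≤ topK (cN (prX (dn q.1)) / cκ (prX (dn q.1)))
      (cx' (prX (dn q.1)) / cκ (prX (dn q.1))) - z.v + 9 / 8 * d + 6 * τ) :
    OkT (6 * τ) z d (1 / cκ (prX (dn q.1))) (cN (prX (dn q.1)) / cκ (prX (dn q.1)))
        (cM (prX (dn q.1)) / cκ (prX (dn q.1))) (q.2 .mo / cκ (prX (dn q.1)))
        (q.2 .am / cκ (prX (dn q.1))) (cx' (prX (dn q.1)) / cκ (prX (dn q.1))) ∧
      z.v ≤ min (2 * (cN (prX (dn q.1)) / cκ (prX (dn q.1))) - 1)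
        (3 / 4 * (cN (prX (dn q.1)) / cκ (prX (dn q.1)))) +
        9 / 4 * (cx' (prX (dn q.1)) / cκ (prX (dn q.1))) + 6 * τ ∧
      z.k + z.lam + z.sc ≤ 1 - 2 * z.η - 2 * z.F - 2 * z.b1 - z.b - 3 * z.B + 6 * τ ∧
      1 - z.K1 (1 / cκ (prX (dn q.1))) (cN (prX (dn q.1)) / cκ (prX (dn q.1)))
        (cM (prX (dn q.1)) / cκ (prX (dn q.1))) (q.2 .mo / cκ (prX (dn q.1)))
        (q.2 .am / cκ (prX (dn q.1))) ≤ z.ss + 6 * τ := by
  have hL : 0 < Real.log X := Real.log_pos hX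
  have hκ := hN.κ0
  have hD : t.D1 ≠ 0 := hok.pD1.ne_zero
  have hl := lD_pos (a := bl a) t.o hJ ha.base hP hx
  have hlam := (log_lam (a := bl a) hJ ha.base hP hx t.o).1
  have hδτ' : δ ≤ τ := by linarith
  have hβ : IsPrim (∏ i, x.β i) := T3_prim x.β hx.β
  subst hz
  exact ⟨T.okT hL hκ hτ h9 hb, win_of (q := qX q) H hX rfl hκ hδτ' hlow,
    T.rD hL hκ hτ hf hD hl hlam hr (logKE_le (q := qX q) H hX hδτ' hετ),
    switch_top T hL hκ hτ (hE_ge (q := qX q) H hX hN hδτ hP hn hβ (pf_β (a := bl a) hx))⟩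

/-- **a term of the dual block of a scale** -/
theorem termFE (hJ : ∀ l N z, OKJ (Jf l N z)) {A τ δ ε' s : ℝ} {ps : List Pq}
    {q : (Option IX5 → ℝ) × (Kd → ℝ)} (H : FrV δ (Real.log X) (bl a) ps (qX q))
    (hX : 1 < X) (hN : Nr5 A (prX (dn q.1)) q.2) (hτ : 0 ≤ τ) (hδτ : 4 * δ ≤ τ)
    (hετ : 2 * ε' ≤ τ) (hn : (π lam.1).n₃ ≠ 0)
    (hlow : q.1 none ≤ low5 (prX (dn q.1))) (ha : a.1.ok) (hP : a.1.okP (π lam.1))
    {Bf : ℝ → ℝ → ℝ → ℝ} (hx : x.OK (π lam.1) Bf e0 r ε X a.1.toBd)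
    (hf : Facts (π lam.1).n₃ t) (hok : t.OK (π lam.1).n₃ 1) {f1 f2 D1' l m : Eis}
    (T : TrN τ (Real.log X) (cκ (prX (dn q.1))) (cN (prX (dn q.1))) (cM (prX (dn q.1)))
      (q.2 .mo) (q.2 .am) (cx' (prX (dn q.1))) s a.2 x (fN (π lam.1).n₃ (x.E a.1.toBd)) t
      f1 f2 D1' l m)
    (hr : rngF (swU (swT (Real.log X) (cκ (prX (dn q.1))) (cN (prX (dn q.1)))
      (cM (prX (dn q.1))) (q.2 .mo) (q.2 .am) s a.2 x)) lD
      (X ^ ε' * (U0 (π lam.1) (bl a) ps x / (Real.exp a.1.l * Real.exp (-s)))) t)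
    {z : Cls} (hz : z = zTr (cκ (prX (dn q.1)) * Real.log X) a.2 x
      (fN (π lam.1).n₃ (x.E a.1.toBd)) t f1 f2 D1' l m s) {d : ℝ}
    (h9 : 4 * z.s ≤ topK (cN (prX (dn q.1)) / cκ (prX (dn q.1)))
      (cx' (prX (dn q.1)) / cκ (prX (dn q.1))) - z.v + 9 / 8 * d + 6 * τ)
    (hb : 2 * z.β ≤ topK (cN (prX (dn q.1)) / cκ (prX (dn q.1)))
      (cx' (prX (dn q.1)) / cκ (prX (dn q.1))) - z.v + 9 / 8 * d + 6 * τ) :
    OkT (6 * τ) z d (1 / cκ (prX (dn q.1))) (cN (prX (dn q.1)) / cκ (prX (dn q.1)))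
        (cM (prX (dn q.1)) / cκ (prX (dn q.1))) (q.2 .mo / cκ (prX (dn q.1)))
        (q.2 .am / cκ (prX (dn q.1))) (cx' (prX (dn q.1)) / cκ (prX (dn q.1))) ∧
      z.v ≤ min (2 * (cN (prX (dn q.1)) / cκ (prX (dn q.1))) - 1)
        (3 / 4 * (cN (prX (dn q.1)) / cκ (prX (dn q.1)))) +
        9 / 4 * (cx' (prX (dn q.1)) / cκ (prX (dn q.1))) + 6 * τ ∧
      z.k + z.lam ≤ z.K1 (1 / cκ (prX (dn q.1))) (cN (prX (dn q.1)) / cκ (prX (dn q.1)))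
        (cM (prX (dn q.1)) / cκ (prX (dn q.1))) (q.2 .mo / cκ (prX (dn q.1)))
        (q.2 .am / cκ (prX (dn q.1))) + z.us +
        z.sc + z.η + z.F - 2 * z.b1 - z.b + 6 * τ ∧
      z.ss ≤ 1 - z.K1 (1 / cκ (prX (dn q.1))) (cN (prX (dn q.1)) / cκ (prX (dn q.1)))
        (cM (prX (dn q.1)) / cκ (prX (dn q.1))) (q.2 .mo / cκ (prX (dn q.1)))
        (q.2 .am / cκ (prX (dn q.1))) + 6 * τ := by
  have hL : 0 < Real.log X := Real.log_pos hX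
  have hX0 : 0 < X := by linarith
  have hκ := hN.κ0
  have hD : t.D1 ≠ 0 := hok.pD1.ne_zero
  have hl := lD_pos (a := bl a) t.o hJ ha.base hP hx
  have hlam := (log_lam (a := bl a) hJ ha.base hP hx t.o).1
  have hβ : IsPrim (∏ i, x.β i) := T3_prim x.β hx.β
  have hEp : IsPrim (x.E a.1.toBd) := hP.1.prim.mul hβ
  have h0 := nm_pos' (fM_spec hn hEp).2.1.ne_zero
  have hU : 0 < U0 (π lam.1) (bl a) ps x := by
    have h1 : 0 < (nm (fN (π lam.1).n₃ (x.E (bl a).1)) : ℝ) := h0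
    unfold U0
    positivity
  have hU' : 0 < X ^ ε' * (U0 (π lam.1) (bl a) ps x / (Real.exp a.1.l * Real.exp (-s))) := by
    have := Real.rpow_pos_of_pos hX0 ε'
    positivity
  subst hz
  exact ⟨T.okT hL hκ hτ h9 hb, win_of (q := qX q) H hX rfl hκ (by linarith) hlow,
    T.rF hL hκ hτ hf hD hl hlam hU' hr
      (logUE_le (a := bl a) (q := qX q) H hX hN hδτ hετ hP hn hβ (pf_β (a := bl a) hx)),
    T.sw hL hκ hτ hr.1⟩

end dat

end Crest.Agent.R017.E4SE266
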