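import Crest.Agent.R017.E4Sb_352

/-!
# Row 17, StrU: the lines of a term, class N (helper352)

* `logK_le`, `logU_le` : the two lengths
* `win_of` : the window of the level;  `lvl_of` : the level dependent lines
* `termD`, `termF` : everything helper918's `nom_*` needs, for a term of the direct / dual block
-/

set_option autoImplicit false
set_option linter.unusedSectionVars false

noncomputable section

open Finset Complex
open scoped ComplexConjugate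

namespace Crest.Agent.R017.E4St352

open Crest.Agent.R012 Crest.Agent.R012.Eis
open Crest.Agent.R012.Mob705 hiding pb mem_pb kap
open Crest.Agent.R017.Sx545 (Sm)
open Crest.Agent.R017.CM106 (FS)
open Crest.Agent.R017.C70
open Crest.Agent.R017.Prov71 Crest.Agent.R017.E5B71 Crest.Agent.R017.E4D164
open Crest.Agent.R017.B770 (DPar)
open Crest.Agent.R017.E5L770
open Crest.Agent.R017.E4U164
open Crest.Agent.R017.E4352 (PrI rd)
open Crest.Agent.R017.E4J352 (Tm rngD rngF)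
open Crest.Agent.R017.E4RH858
open Crest.Agent.R017.E4Dic352
open Crest.Agent.R017.Str699 (b3 n3 nu0 mlam)
open Crest.Agent.R017.E4R70 (Cls topK)
open Crest.Agent.R017.Nm918 (OkT)

section frame

variable {δ τ X : ℝ} {a : Bd × ℕ} {ps : List Pq}
  {q : (Option (Fin 3 ⊕ Fin 5) → ℝ) × (Kd → ℝ)}

lemma logK_le (H : FrV δ (Real.log X) a ps q) (hX : 1 < X) {ε' : ℝ} (h1 : δ ≤ τ) (h2 : ε' ≤ τ) :
    Real.log (X ^ ε' * Real.exp a.1.l) ≤ cκ (dn q.1) * Real.log X - 0 + 4 * τ * Real.log X := by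
  have hL : 0 < Real.log X := Real.log_pos hX
  have hX0 : 0 < X := by linarith
  have h3 := abs_le.mp H.κ
  rw [Real.log_mul (Real.rpow_pos_of_pos hX0 _).ne' (Real.exp_pos _).ne', Real.log_exp,
    Real.log_rpow hX0]
  have h4 := mul_le_mul_of_nonneg_right h1 hL.le
  have h5 := mul_le_mul_of_nonneg_right h2 hL.le
  have h6 : 0 ≤ δ * Real.log X := (abs_nonneg _).trans H.κ
  nlinarith [h3.2]

/-- the dual length -/
theorem logU_le {P : DPar} {x : Dt} {A : ℝ} (H : FrV δ (Real.log X) a ps q) (hX : 1 < X)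
    (hN : Nr5 A (dn q.1) q.2) {ε' : ℝ} (h1 : 4 * δ ≤ τ) (h2 : 2 * ε' ≤ τ)
    (hP : a.1.okP P) (hn : P.n₃ ≠ 0) (hβ : IsPrim (∏ i, x.β i)) (hpf : Asm986.Pf (∏ i, x.β i)) :
    Real.log (X ^ ε' * (U0 P a ps x / Real.exp a.1.l)) ≤
      K1L (Real.log X) (cκ (dn q.1)) (cN (dn q.1)) (cM (dn q.1)) (q.2 .mo) (q.2 .am) a.2 x +
        3 * (kG x + kY x) + 6 * kW x + 0 + 9 / 2 * τ * Real.log X := by
  have hL : 0 < Real.log X := Real.log_pos hX
  have hX0 : 0 < X := by linarith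
  have hEp : IsPrim (x.E a.1) := hP.1.prim.mul hβ
  have hf : fN P.n₃ (x.E a.1) ≠ 0 := (fM_spec hn hEp).2.1.ne_zero
  have h0 := nm_pos' hf
  have hU : 0 < U0 P a ps x := by
    unfold U0
    positivity
  rw [Real.log_mul (Real.rpow_pos_of_pos hX0 _).ne' (by positivity), Real.log_rpow hX0,
    Real.log_div hU.ne' (Real.exp_pos _).ne', Real.log_exp, log_U0 hf]
  have hκ := abs_le.mp H.κ
  have he := abs_le.mp H.e
  have ham := abs_le.mp H.am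
  have hmo := abs_le.mp H.mo
  have h4 : lg (fN P.n₃ (x.E a.1)) ≤ 2 / 5 * lg a.1.e + 1 / 2 * lg (∏ i, x.β i) :=
    lg_fN_le hn hP.1.prim hβ hP.2.1 hpf
  have h6 := hN.D
  have h7 : ce (dn q.1) * Real.log X ≤
      (1 - (cN (dn q.1) + cM (dn q.1) + q.2 .mo) + q.2 .am) * Real.log X :=
    mul_le_mul_of_nonneg_right (by linarith) hL.le
  have h8 := mul_le_mul_of_nonneg_right h1 hL.le
  have h9 := mul_le_mul_of_nonneg_right h2 hL.le
  have h10 : 0 ≤ δ * Real.log X := (abs_nonneg _).trans H.κ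
  unfold K1L
  linarith [he.2, ham.2, hmo.2, hκ.1]

/-- **the window of the level** -/
theorem win_of (H : FrV δ (Real.log X) a ps q) (hX : 1 < X) {κ : ℝ} (hκ : κ = cκ (dn q.1))
    (hκ8 : 8 / 9 ≤ κ) (h1 : δ ≤ τ) (hlow : q.1 none ≤ low5 (dn q.1)) :
    Real.log 2 * a.2 / (κ * Real.log X) ≤
      min (2 * (cN (dn q.1) / κ) - 1) (3 / 4 * (cN (dn q.1) / κ)) +
        9 / 4 * (cx' (dn q.1) / κ) + 6 * τ := by
  have hL : 0 < Real.log X := Real.log_pos hX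
  have hκ0 : 0 < κ := by linarith
  have h2 := abs_le.mp H.v
  have h6 : 0 ≤ δ * Real.log X := (abs_nonneg _).trans H.κ
  have h4 := mul_le_mul_of_nonneg_right h1 hL.le
  have e : (min (2 * (cN (dn q.1) / κ) - 1) (3 / 4 * (cN (dn q.1) / κ)) +
      9 / 4 * (cx' (dn q.1) / κ)) * κ = low5 (dn q.1) := by
    unfold low5
    rw [add_mul, min_mul_of_nonneg _ _ hκ0.le, ← hκ]
    congr 1
    · congr 1 <;> field_simp
    · field_simp
  rw [div_le_iff₀ (mul_pos hκ0 hL)]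
  have h7 : low5 (dn q.1) * Real.log X =
      (min (2 * (cN (dn q.1) / κ) - 1) (3 / 4 * (cN (dn q.1) / κ)) +
        9 / 4 * (cx' (dn q.1) / κ)) * (κ * Real.log X) := by
    rw [← e]; ring
  have h8 := mul_le_mul_of_nonneg_right hlow hL.le
  have h9 : 0 ≤ τ * Real.log X := h6.trans h4
  have h10 : 8 / 9 * (τ * Real.log X) ≤ κ * (τ * Real.log X) :=
    mul_le_mul_of_nonneg_right hκ8 h9
  rw [add_mul, ← h7]
  nlinarith [h2.2]

/-- **a level dependent line** (`y = log N(e₀)` or `y = log N(∏ β)`) -/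
theorem lvl_of (H : FrV δ (Real.log X) a ps q) (hX : 1 < X) {κ : ℝ} (hκ : κ = cκ (dn q.1))
    (hκ8 : 8 / 9 ≤ κ) (h1 : δ ≤ τ) {cc y d d' : ℝ} (hd : d ≤ κ * d')
    (h : cc * y ≤ (low5 (dn q.1) - q.1 none + d) * Real.log X) :
    cc * (y / (κ * Real.log X)) ≤ topK (cN (dn q.1) / κ) (cx' (dn q.1) / κ) -
      Real.log 2 * a.2 / (κ * Real.log X) + d' + 6 * τ := by
  have hL : 0 < Real.log X := Real.log_pos hX
  have hκ0 : 0 < κ := by linarith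
  have hG : 0 < κ * Real.log X := mul_pos hκ0 hL
  have h2 := abs_le.mp H.v
  have h6 : 0 ≤ δ * Real.log X := (abs_nonneg _).trans H.κ
  have h4 := mul_le_mul_of_nonneg_right h1 hL.le
  have e : topK (cN (dn q.1) / κ) (cx' (dn q.1) / κ) * κ = low5 (dn q.1) := by
    unfold low5 topK
    rw [add_mul, min_mul_of_nonneg _ _ hκ0.le, ← hκ]
    congr 1
    · congr 1 <;> field_simp
    · field_simp
  have h7 : low5 (dn q.1) * Real.log X =
      topK (cN (dn q.1) / κ) (cx' (dn q.1) / κ) * (κ * Real.log X) := by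
    rw [← e]; ring
  have h9 : 0 ≤ τ * Real.log X := h6.trans h4
  have h10 : 8 / 9 * (τ * Real.log X) ≤ κ * (τ * Real.log X) :=
    mul_le_mul_of_nonneg_right hκ8 h9
  have h11 := mul_le_mul_of_nonneg_right hd hL.le
  refine le_of_mul_le_mul_right ?_ hG
  have e1 : y / (κ * Real.log X) * (κ * Real.log X) = y := div_mul_cancel₀ y hG.ne'
  have e2 : Real.log 2 * a.2 / (κ * Real.log X) * (κ * Real.log X) = Real.log 2 * a.2 :=
    div_mul_cancel₀ _ hG.ne'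
  have e3 : cc * (y / (κ * Real.log X)) * (κ * Real.log X) = cc * y := by rw [mul_assoc, e1]
  have e4 : (topK (cN (dn q.1) / κ) (cx' (dn q.1) / κ) - Real.log 2 * a.2 / (κ * Real.log X) +
      d' + 6 * τ) * (κ * Real.log X) = topK (cN (dn q.1) / κ) (cx' (dn q.1) / κ) *
        (κ * Real.log X) - Real.log 2 * a.2 / (κ * Real.log X) * (κ * Real.log X) +
        κ * d' * Real.log X + 6 * (κ * (τ * Real.log X)) := by ring
  rw [e3, e4, e2, ← h7]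
  nlinarith [h2.2]

end frame

section term

variable {Λ : Type*} {π : Λ → DPar} {h : ℝ → ℝ} {lam : Λ × Eis}
  {Jf : ℝ → ℝ → ℝ → Finset (Eis × Eis)}
  {a : Bd × ℕ} {x : Dt} {e0 r ε X : ℝ} {t : Tm (x.O π lam Jf a)}

/-- **a term of the direct block** -/
theorem termD (hJ : ∀ l N z, OKJ (Jf l N z)) {A τ δ ε' : ℝ} {ps : List Pq}
    {q : (Option (Fin 3 ⊕ Fin 5) → ℝ) × (Kd → ℝ)} (H : FrV δ (Real.log X) a ps q)
    (hX : 1 < X) (hN : Nr5 A (dn q.1) q.2) (hτ : 0 ≤ τ) (hδτ : δ ≤ τ) (hετ : ε' ≤ τ)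
    (hlow : q.1 none ≤ low5 (dn q.1)) (ha : a.1.ok) (hP : a.1.okP (π lam.1))
    {Bf : ℝ → ℝ → ℝ → ℝ} (hx : x.OK (π lam.1) Bf e0 r ε X a.1)
    (hf : Facts (π lam.1).n₃ t) (hok : t.OK (π lam.1).n₃ 1) {f1 f2 D1' l m : Eis}
    (T : TrN τ (Real.log X) (cκ (dn q.1)) (cN (dn q.1)) (cM (dn q.1)) (q.2 .mo) (q.2 .am)
      (cx' (dn q.1)) 0 a.2 x (fN (π lam.1).n₃ (x.E a.1)) t f1 f2 D1' l m)
    (hr : rngD (swU (swT (Real.log X) (cκ (dn q.1)) (cN (dn q.1)) (cM (dn q.1)) (q.2 .mo)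
      (q.2 .am) 0 a.2 x)) lD (X ^ ε' * Real.exp a.1.l) t)
    {z : Cls} (hz : z = zTr (cκ (dn q.1) * Real.log X) a.2 x (fN (π lam.1).n₃ (x.E a.1)) t
      f1 f2 D1' l m 0) {d : ℝ}
    (h4 : 4 * z.s ≤ topK (cN (dn q.1) / cκ (dn q.1)) (cx' (dn q.1) / cκ (dn q.1)) - z.v +
      9 / 8 * d + 6 * τ)
    (hb : 2 * z.β ≤ topK (cN (dn q.1) / cκ (dn q.1)) (cx' (dn q.1) / cκ (dn q.1)) - z.v +
      9 / 8 * d + 6 * τ) :
    OkT (6 * τ) z d (1 / cκ (dn q.1)) (cN (dn q.1) / cκ (dn q.1)) (cM (dn q.1) / cκ (dn q.1))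
        (q.2 .mo / cκ (dn q.1)) (q.2 .am / cκ (dn q.1)) (cx' (dn q.1) / cκ (dn q.1)) ∧
      z.v ≤ min (2 * (cN (dn q.1) / cκ (dn q.1)) - 1) (3 / 4 * (cN (dn q.1) / cκ (dn q.1))) +
        9 / 4 * (cx' (dn q.1) / cκ (dn q.1)) + 6 * τ ∧
      z.k + z.lam + z.sc ≤ 1 - 2 * z.η - 2 * z.F - 2 * z.b1 - z.b - 3 * z.B + 6 * τ ∧
      1 - z.K1 (1 / cκ (dn q.1)) (cN (dn q.1) / cκ (dn q.1)) (cM (dn q.1) / cκ (dn q.1))
        (q.2 .mo / cκ (dn q.1)) (q.2 .am / cκ (dn q.1)) ≤ z.ss + 6 * τ := by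
  have hL : 0 < Real.log X := Real.log_pos hX
  have hκ := hN.κ0
  have hD : t.D1 ≠ 0 := hok.pD1.ne_zero
  have hl := lD_pos t.o hJ ha hP hx
  have hlam := (log_lam hJ ha hP hx t.o).1
  subst hz
  refine ⟨T.okT hL hκ hτ h4 hb, win_of H hX rfl hκ hδτ hlow,
    T.rD hL hκ hτ hf hD hl hlam hr (logK_le H hX hδτ hετ), ?_⟩
  have h1 := T.nsw hL hκ hf hD hr.1
  linarith

/-- **a term of the dual block** -/
theorem termF (hJ : ∀ l N z, OKJ (Jf l N z)) {A τ δ ε' : ℝ} {ps : List Pq}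
    {q : (Option (Fin 3 ⊕ Fin 5) → ℝ) × (Kd → ℝ)} (H : FrV δ (Real.log X) a ps q)
    (hX : 1 < X) (hN : Nr5 A (dn q.1) q.2) (hτ : 0 ≤ τ) (hδτ : 4 * δ ≤ τ)
    (hετ : 2 * ε' ≤ τ) (hn : (π lam.1).n₃ ≠ 0)
    (hlow : q.1 none ≤ low5 (dn q.1)) (ha : a.1.ok) (hP : a.1.okP (π lam.1))
    {Bf : ℝ → ℝ → ℝ → ℝ} (hx : x.OK (π lam.1) Bf e0 r ε X a.1)
    (hf : Facts (π lam.1).n₃ t) (hok : t.OK (π lam.1).n₃ 1) {f1 f2 D1' l m : Eis}
    (T : TrN τ (Real.log X) (cκ (dn q.1)) (cN (dn q.1)) (cM (dn q.1)) (q.2 .mo) (q.2 .am)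
      (cx' (dn q.1)) 0 a.2 x (fN (π lam.1).n₃ (x.E a.1)) t f1 f2 D1' l m)
    (hr : rngF (swU (swT (Real.log X) (cκ (dn q.1)) (cN (dn q.1)) (cM (dn q.1)) (q.2 .mo)
      (q.2 .am) 0 a.2 x)) lD (X ^ ε' * (U0 (π lam.1) a ps x / Real.exp a.1.l)) t)
    {z : Cls} (hz : z = zTr (cκ (dn q.1) * Real.log X) a.2 x (fN (π lam.1).n₃ (x.E a.1)) t
      f1 f2 D1' l m 0) {d : ℝ}
    (h4 : 4 * z.s ≤ topK (cN (dn q.1) / cκ (dn q.1)) (cx' (dn q.1) / cκ (dn q.1)) - z.v +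
      9 / 8 * d + 6 * τ)
    (hb : 2 * z.β ≤ topK (cN (dn q.1) / cκ (dn q.1)) (cx' (dn q.1) / cκ (dn q.1)) - z.v +
      9 / 8 * d + 6 * τ) :
    OkT (6 * τ) z d (1 / cκ (dn q.1)) (cN (dn q.1) / cκ (dn q.1)) (cM (dn q.1) / cκ (dn q.1))
        (q.2 .mo / cκ (dn q.1)) (q.2 .am / cκ (dn q.1)) (cx' (dn q.1) / cκ (dn q.1)) ∧
      z.v ≤ min (2 * (cN (dn q.1) / cκ (dn q.1)) - 1) (3 / 4 * (cN (dn q.1) / cκ (dn q.1))) +
        9 / 4 * (cx' (dn q.1) / cκ (dn q.1)) + 6 * τ ∧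
      z.k + z.lam ≤ z.K1 (1 / cκ (dn q.1)) (cN (dn q.1) / cκ (dn q.1))
        (cM (dn q.1) / cκ (dn q.1)) (q.2 .mo / cκ (dn q.1)) (q.2 .am / cκ (dn q.1)) + z.us +
        z.sc + z.η + z.F - 2 * z.b1 - z.b + 6 * τ ∧
      z.ss ≤ 1 - z.K1 (1 / cκ (dn q.1)) (cN (dn q.1) / cκ (dn q.1)) (cM (dn q.1) / cκ (dn q.1))
        (q.2 .mo / cκ (dn q.1)) (q.2 .am / cκ (dn q.1)) + 6 * τ := by
  have hL : 0 < Real.log X := Real.log_pos hX
  have hX0 : 0 < X := by linarith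
  have hκ := hN.κ0
  have hD : t.D1 ≠ 0 := hok.pD1.ne_zero
  have hl := lD_pos t.o hJ ha hP hx
  have hlam := (log_lam hJ ha hP hx t.o).1
  have hβ : IsPrim (∏ i, x.β i) := T3_prim x.β hx.β
  have hEp : IsPrim (x.E a.1) := hP.1.prim.mul hβ
  have h0 := nm_pos' (fM_spec hn hEp).2.1.ne_zero
  have hU : 0 < U0 (π lam.1) a ps x := by
    unfold U0
    positivity
  have hU' : 0 < X ^ ε' * (U0 (π lam.1) a ps x / Real.exp a.1.l) := by
    have := Real.rpow_pos_of_pos hX0 ε'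
    positivity
  subst hz
  exact ⟨T.okT hL hκ hτ h4 hb, win_of H hX rfl hκ (by linarith) hlow,
    T.rF hL hκ hτ hf hD hl hlam hU' hr (logU_le H hX hN hδτ hετ hP hn hβ (pf_β hx)),
    T.sw hL hκ hτ hr.1⟩

end term

end Crest.Agent.R017.E4St352
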