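import Crest.Agent.R017.F1Tw_541
import Crest.Agent.R017.E4Law5_266

/-!
# Row 17, C.F1tw: the cubic functional equations with the angular types (helper61)

* `HasFE3j` : `HasFE3` with `D.j = l`, `D.l' = -l`
* `f1tw_j` : the functional equation for all characters
* `law5_Rj` : 266's `law5_R` with the angular types

(The proofs of 47, 681, 590, 266, with the types carried along.)
-/

set_option autoImplicit false

noncomputable section

namespace Crest.Agent.R017.FE3j61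

open Crest.Agent.R012 Crest.Agent.R012.Eis
open Crest.Agent.R017.C590 Crest.Agent.R017.Sx545 Crest.Agent.R017.B770
open Crest.Agent.R017.End699 (HC)

/-- existence of a cubic functional equation with angular types -/
def HasFE3j (M : Eis) (ψ : Eis → ℂ) (l : ℤ) : Prop :=
  ∃ (ι : Type) (_ : Fintype ι) (D : Dt3 ι), (D.OK M ∧ D.j = l ∧ D.l' = -l) ∧ FE3 M ψ l D

section raw

open MeasureTheory Complex Set Filter
open scoped ComplexConjugate SchwartzMap ContDiff Topology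
open Crest.Agent.R012.Gauss880 Crest.Agent.R017.Loc266
open Crest.Agent.R012.Mob705
open Crest.Agent.R012.Parseval499 (frq s3 toC_s3_ne)
open Crest.Agent.R017.A590
open Crest.Agent.R017.Xn590 Crest.Agent.R017.Wt92 Crest.Agent.R017.EndA92
open Crest.Agent.R017.E2440 (NT DS)
open Crest.Agent.R017.CD47
open Crest.Agent.R017.Tw3 (TwD)

variable {M M' m : Eis} {ψ φ : Eis → ℂ} {l : ℤ} {a b : ℕ}

/-- **from the raw form to 590's functional equation** -/
theorem raw3_j (hMM : M ∣ M') (hM0 : M' ≠ 0) (hrad : ∀ p : Eis, Prime p → p ∣ M' → p ∣ M)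
    (hψ : HC M ψ) (H : Raw3 M M' ψ l) : HasFE3j M ψ l := by
  obtain ⟨ι, iι, ξ, κx, cx, Vc, h0, B, K, ψ', r, hξ, hh0, hl, hK, hU, hr, hFE⟩ := H
  have h3 : (3 : Eis) ∣ M' := hψ.three.trans hMM
  have hcop : ∀ b, Sm M b → IsCoprime b M' := by
    intro b hb
    refine isCoprime_of_prime_dvd (fun h' => hM0 h'.2) (fun p hp h5 h6 => ?_)
    exact hp.not_isUnit (hb.2.isUnit_of_dvd' h5 (hrad p hp h6))
  have h1 := Rep.sum (M := M) (M' := M') (j := l) (l' := -l) (Finset.univ : Finset ι)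
    (F := fun i V u Q τ => K i u * RRaw M (ψ' i) u (fOn 3 ξ Vc h0 B (fT V l τ Q)) (r i))
    (fun i _ => Rep.fmul' hM0 h3 hcop (rep_rraw hM0 h3 hcop (hU i)
      (rw_fOn (Vc := Vc) (B := B) hξ hh0 hl) (hr i)) (hK i))
  have h2 : Rep M M' l (-l) (fun V u Q τ =>
      N3 M (End699.tw ψ l) u (fun y => (y : ℂ) ^ (I * τ) * V y) Q) := by
    refine h1.congr fun V hV u hu Q hQ τ => ?_
    rw [← left_N3 hψ hV τ hQ u]
    exact hFE _ (fT_dat (vd_sw hV) hl τ hQ) (rot_fT V l τ) u hu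
  obtain ⟨κι, iκ, κ, η, ψ2, ρ, a1, a2, a3, a4⟩ := h2
  refine ⟨κι, iκ, ⟨M', κ, η, ψ2, l, -l, ρ⟩, ⟨?_, rfl, rfl⟩, a4⟩
  exact
    { ne := hM0
      dvd := hMM
      rad := hrad
      η := a1
      ψ' := a2
      ρ := a3 }

/-- the end -/
theorem fin_j (H : Low M m ψ φ a b) (h : Rep M (81 * M) l (-l) (fun V u Q τ => LPr φ (lm a b * u) (fT V l τ Q))) :
    HasFE3j M ψ l := by
  have h2 : Rep M (81 * M) l (-l) (fun V u Q τ =>
      N3 M (End699.tw ψ l) u (fun y => (y : ℂ) ^ (I * τ) * V y) Q) := by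
    refine h.congr fun V hV u hu Q hQ τ => ?_
    rw [← left_N3 H.hc hV τ hQ u, lraw_low H.phi0 H.eq]
  obtain ⟨κι, iκ, κ, η, ψ2, ρ, a1, a2, a3, a4⟩ := h2
  refine ⟨κι, iκ, ⟨81 * M, κ, η, ψ2, l, -l, ρ⟩, ⟨?_, rfl, rfl⟩, a4⟩
  exact
    { ne := H.M'_ne
      dvd := dvd_mul_left _ _
      rad := H.rad
      η := a1
      ψ' := a2
      ρ := a3 }

section

variable {ξ : Eis → ℂ} {κ c : ℂ} {Vc : ℝ} {h0 B y K0 A1 A2 A3 A4 s : ℂ}
  {G1 G2 : (ℂ → ℂ) → ℂ → ℂ}

theorem gen_j (H : Low M m ψ φ a b) (hl : ξ 0 = 0 ∨ l ≠ 0) (hs : s = (-1) ^ l)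
    (hE : GenId m φ ξ s A1 A2 A3 A4 K0 G1 G2) (hG1 : RW l (fun V τ Q => G1 (fT V l τ Q)))
    (hG2 : RW l (fun V τ Q => G2 (fT V l τ Q))) : HasFE3j M ψ l := by
  classical
  refine fin_j H ?_
  have hmC := H.mC
  have hL : toC (lm a b) ≠ 0 := Po581.toC_ne_zero (lm_ne a b)
  have R1 := H.rep_kcell hG1 (lm_mem a b) (t := toC (lm a b) / toC m)
    (div_ne_zero hL hmC) (K := fun u => K0 * φ (lm a b * u) * sy (lm a b * u) m * A1)
    (fun u v _ _ h => by rw [H.kphi h, H.ksy h])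
  have R2 := H.rep_kcell hG2 (lm_mem a b)
    (t := toC (lm a b) / toC m) (div_ne_zero hL hmC)
    (K := fun u => K0 * φ (lm a b * u) * sy (lm a b * u) m *
      (A2 * eC (frq 3 (lm a b * u)) + A3 * eC (-frq 3 (lm a b * u))))
    (fun u v _ _ h => by rw [H.kphi h, H.ksy h, Low.kth h, Low.kth' h])
  have R3 := Rep.sum (F1.Dl (lm a b)) (fun δ hδ => by
    obtain ⟨h1, -, h3⟩ := (F1.mem_Dl (lm_ne a b)).mp hδ
    have hδC : toC δ ≠ 0 := Po581.toC_ne_zero h1.1
    exact H.rep_kcell hG2 (sm3_mul h1 (lm_mem a b))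
      (t := toC (lm a b) / (toC m * toC δ)) (div_ne_zero hL (mul_ne_zero hmC hδC))
      (K := fun u => K0 * φ (lm a b * u) * sy (lm a b * u) m *
        (A4 * (F1.Lam δ (lm a b * u) * (nm δ : ℂ)⁻¹ * dph m φ δ)))
      (fun u v _ _ h => by rw [H.kphi h, H.ksy h, H.klam hδ h]))
  refine ((R1.add R2).add R3).congr fun V hV u hu Q hQ τ => ?_
  have hν0 : lm a b * u ≠ 0 := mul_ne_zero (lm_ne a b) hu.1.ne_zero
  have hνm : IsCoprime (lm a b * u) m :=
    (lm_cop H.mp).mul_left ((H.sm u hu.1).mp hu)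
  rw [hE _ (hs ▸ fT_dat (vd_sw hV) hl τ hQ) _ hν0 hνm, Dl_lm (lm_ne a b) hu.1]
  have e1 : toC (lm a b * u) / toC m = toC (lm a b) / toC m * toC u := by
    rw [map_mul]; ring
  have e2 : ∀ δ : Eis, toC (lm a b * u) / (toC m * toC δ) =
      toC (lm a b) / (toC m * toC δ) * toC u := by
    intro δ; rw [map_mul]; ring
  have e3 : ∀ δ : Eis, δ * (lm a b * u) = δ * lm a b * u := fun δ => by ring
  simp only [e1, e2, e3]
  rw [mul_add, mul_add, Finset.mul_sum, Finset.mul_sum]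
  congr 1
  · congr 1
    · ring
    · ring
  · refine Finset.sum_congr rfl fun δ _ => ?_
    ring

theorem even_j (H : Low M m ψ φ a b) (hξ : XiP ξ κ c) (hh0 : h0 ≠ 0) (hl : ξ 0 = 0 ∨ l ≠ 0)
    (hs : s = (-1) ^ l) (hE : EvenId m φ ξ Vc h0 B s y K0) : HasFE3j M ψ l :=
  gen_j H hl hs hE (rw_neg hξ hh0 hl) (rw_gE hξ hh0 hl y)

theorem odd_j (H : Low M m ψ φ a b) (hξ : XiP ξ κ c) (hh0 : h0 ≠ 0) (hl : ξ 0 = 0 ∨ l ≠ 0)
    (hs : s = (-1) ^ l) (hE : OddId m φ ξ Vc h0 B s A2 A3 A4 K0) : HasFE3j M ψ l :=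
  gen_j H hl hs hE (rw_fOn hξ hh0 hl) (rw_s3 hξ hh0 hl)

end

theorem low_j (hE : EvenAll) (hO : OddAll) (H : Low M m ψ φ a b) (hl : NoPole M ψ l) :
    HasFE3j M ψ l := by
  have T := H.twD
  have hs : (-1 : ℂ) ^ l = 1 ∨ (-1 : ℂ) ^ l = -1 := by
    rcases Int.even_or_odd l with h | h
    · left; exact h.neg_one_zpow
    · right; exact h.neg_one_zpow
  have hp : φ (-1) = 1 ∨ φ (-1) = -1 := by
    have h1 : φ (-1) * φ (-1) = 1 := by rw [← T.ch.mul, neg_one_mul, neg_neg, T.ch.one]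
    have h2 : (φ (-1) - 1) * (φ (-1) + 1) = 0 := by linear_combination h1
    rcases mul_eq_zero.mp h2 with h | h
    · left; exact sub_eq_zero.mp h
    · right; exact eq_neg_of_add_eq_zero_left h
  by_cases h : φ (-1) = (-1) ^ l
  · obtain ⟨Vc, h0, B, y, K0, κ, c, h1, h2, h3⟩ := hE m φ H.mp T
    exact even_j H h1 h2 (H.pole hl) h h3
  · have h' : -φ (-1) = (-1) ^ l := by
      rcases hs with h1 | h1 <;> rcases hp with h2 | h2
      · exact absurd (h2.trans h1.symm) h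
      · rw [h1, h2, neg_neg]
      · rw [h1, h2]
      · exact absurd (h2.trans h1.symm) h
    obtain ⟨ξ, Vc, h0, B, A2, A3, A4, K0, κ, c, h1, h2, h4, h3⟩ := hO m φ H.mp T
    exact odd_j H h1 h2 (Or.inl h4) h' h3

end raw

section notlow

open Complex
open scoped ComplexConjugate SchwartzMap
open Crest.Agent.R012.Gauss880 Crest.Agent.R017.Loc266
open Crest.Agent.R012.AU681 Crest.Agent.R012.Parseval499 Crest.Agent.R012.K695
open Crest.Agent.R017.Kub664 Crest.Agent.R017.Orth681 Crest.Agent.R017.Glue681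
open Crest.Agent.R017.Xn590 Crest.Agent.R017.Coef92 Crest.Agent.R017.CD47
open Crest.Agent.R017.A590
open Crest.Agent.R017.Hi681

/-- not low -/
theorem notLow_j : ∀ (M M0 : Eis) (k : ℕ) (ψ : Eis → ℂ), (9 : Eis) ∣ M → HC M ψ →
  Pure3 M ψ → M = lam ^ k * M0 → ¬ lam ∣ M0 →
  (∃ c, IsPrim c ∧ 9 * M0 ∣ c - 1 ∧ ψ c ≠ 1) → ∀ l : ℤ, NoPole M ψ l → HasFE3j M ψ l := by
  intro M M0 k ψ h9 hψ hP hM hn ⟨c, hc1, hc2, hc3⟩ l hl
  have hcM : IsCoprime c M := by
    by_contra h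
    refine isCoprime_of_prime_dvd (x := c) (y := M) (fun h => hψ.q0 h.2) ?_ |> h
    intro p hp hpc hpM
    rw [hM] at hpM
    rcases hp.dvd_or_dvd hpM with h5 | h5
    · have h6 : p ∣ lam := hp.dvd_of_dvd_pow h5
      have h7 : IsUnit p := hc1.isCoprime_lam.isUnit_of_dvd' hpc h6
      exact hp.not_isUnit h7
    · have h6 : p ∣ c - 1 := (h5.mul_left 9).trans hc2
      have h7 : p ∣ 1 := by
        have := dvd_sub hpc h6
        rwa [sub_sub_cancel] at this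
      exact hp.not_isUnit (isUnit_of_dvd_one h7)
  obtain ⟨N, hNM, hN0, hlN, hrad, hper, hex⟩ :=
    Hc92.exact_cond h9 hψ hP hM hn ⟨c, hc1, hc2, hcM, hc3⟩
  have hd9 : (9 : Eis) ∣ N := by
    refine nine_dvd_lam4.trans (Dvd.dvd.trans ⟨lam, by ring⟩ hlN)
  have hN : L3 N := by
    refine ⟨hN0, hd9, fun p hp hpN => ?_⟩
    by_cases hp3 : p ∣ 3
    · have hpl : p ∣ lam := by
        rw [three_eq] at hp3
        rcases hp.dvd_or_dvd hp3 with h | h
        · exact absurd (isUnit_of_dvd_unit h (isUnit_w.pow 2).neg) hp.not_isUnit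
        · exact hp.dvd_of_dvd_pow h
      have : (9 : Eis) * p ∣ lam ^ 4 * lam := mul_dvd_mul nine_dvd_lam4 hpl
      exact this.trans (by rw [← pow_succ]; exact hlN)
    · have h6 : IsCoprime p 3 := (hp.irreducible.coprime_iff_not_dvd).mpr hp3
      have h7 : (9 : Eis) = 3 * 3 := by norm_num
      have h5 : IsCoprime p 9 := by rw [h7]; exact h6.mul_right h6
      exact h5.symm.mul_dvd hd9 hpN
  have hSm : ∀ b, Sm N b → Sm M b := by
    intro b hb
    refine ⟨hb.1, isCoprime_of_prime_dvd (fun h => hψ.q0 h.2) fun p hp hpb hpM => ?_⟩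
    exact hp.not_isUnit (hb.2.isUnit_of_dvd' hpb (hrad p hp hpM))
  have hSm' : ∀ b, Sm M b → Sm N b := fun b hb =>
    ⟨hb.1, IsCoprime.of_isCoprime_of_dvd_right hb.2 hNM⟩
  have hSS : Sm M = Sm N := by
    funext b
    exact propext ⟨hSm' b, hSm b⟩
  have U := uni_of_HC hψ
  have H : GCh N ψ :=
    ⟨U.one, fun a b ha hb => U.mul a b (hSm a ha) (hSm b hb),
      fun a b ha hb hab => hper a b (hSm a ha) (hSm b hb) hab, fun a ha => U.norm a (hSm a ha)⟩
  have Hθ := gch_tC hN H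
  have hz0 := sp_N hN
  have E : Ex N (tC N ψ) := by
    intro p hp hpN
    obtain ⟨v, hv, hvd, hv1, hv2⟩ := hex p hp hpN
    have hv' : Gp N v := hSm' v hv
    by_cases hp2 : p ^ 2 ∣ N
    · refine ⟨v, hv', hvd, ?_, Or.inl hp2⟩
      unfold tC
      rw [sc_one_of_sq hN hz0 hv' hp hpN hp2 hvd, map_one, mul_one]
      exact hv1
    · have h5 : tC N ψ v ^ 3 ≠ 1 := by
        unfold tC
        rw [mul_pow, ← map_pow, sc_cube hv' hz0, map_one, mul_one]
        exact hv2 hp2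
      refine ⟨v, hv', hvd, fun h => h5 (by rw [h, one_pow]), Or.inr h5⟩
  have P := E.pu hN Hθ
  have hs : ((-1 : ℂ) ^ l = 1) ∨ ((-1 : ℂ) ^ l = -1) := by
    rcases Int.even_or_odd l with h | h
    · exact Or.inl h.neg_one_zpow
    · exact Or.inr h.neg_one_zpow
  obtain ⟨m, ξ, c0', hm, hX, X, hm9, h0⟩ := exists_xi3 hN hs Hθ E
  obtain ⟨u1, hu1, hk⟩ := exists_unit_class (x := -1) hN Hθ P isCoprime_one_left.neg_left
  have hk1 : Kc hN (tC N ψ) u1 := by
    have : -(-1 * u1) = u1 := by ring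
    rwa [this] at hk
  refine raw3_j (M' := M) dvd_rfl hψ.q0 (fun p _ h => h) hψ ?_
  refine ⟨Unit, inferInstance, ξ, _, c0', 1, toC u1, wC0 N (tC N ψ) u1 1 * 2,
    fun _ => tS (tC N ψ) u1, fun _ => uC N ψ u1, fun _ => 1 / (toC N * toC s3), hX,
    toC_ne_zero hu1.ne_zero, Or.inl h0, fun _ a b ha hb hab => ?_, fun _ => ?_, fun _ => ?_,
    fun f hf _ u hu => ?_⟩
  · exact (gch_tS hN Hθ (sp_unit hu1)).per a b (hSm' a ha) (hSm' b hb) (hNM.trans hab)
  · have G := gch_mul (gch_dS hN Hθ (sp_unit (N := N) hu1)) (gch_sc hN hz0)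
    exact ⟨G.one, fun a b ha hb => G.mul a b (hSm' a ha) (hSm' b hb),
      fun a ha => G.norm a (hSm' a ha),
      fun a b ha hb hab => G.per a b (hSm' a ha) (hSm' b hb) (hNM.trans hab)⟩
  · refine one_div_ne_zero (mul_ne_zero (toC_ne_zero hN0) ?_)
    rw [Ne, toC_eq_zero]
    decide
  · have key := raw_C hN hs H P hX X hm hm9 h0 hu1 hk1 hf (hSm' u hu)
    simp only [Finset.univ_unique, Finset.sum_singleton]
    unfold LRaw RRaw at key ⊢
    rw [hSS]
    exact key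

end notlow

section step

open Crest.Agent.R017.CD47 Crest.Agent.R017.A590
open Crest.Agent.R012.Gauss880 Crest.Agent.R017.Loc266

variable {M m : Eis} {ψ φ : Eis → ℂ} {l : ℤ} {a b : ℕ}

/-- **`StepPure3` from the three cases** -/
theorem stepPure_j (hE : EvenAll) (hO : OddAll) :
    ∀ M : Eis, (9 : Eis) ∣ M → ∀ ψ : Eis → ℂ, HC M ψ → Pure3 M ψ → ∀ l : ℤ, NoPole M ψ l →
    HasFE3j M ψ l := by
  intro M h9 ψ hψ hP l hl
  obtain ⟨M0, hM, hn⟩ := (FiniteMultiplicity.of_prime_left prime_lam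
    hψ.q0).exists_eq_pow_mul_and_not_dvd
  by_cases hlow : ∀ c, IsPrim c → 9 * M0 ∣ c - 1 → ψ c = 1
  · have D : Dc M M0 (multiplicity lam M) ψ := ⟨h9, hψ, hM, hn, hlow⟩
    obtain ⟨m, φ, a, b, H, -⟩ := D.exists_low hP
    exact low_j hE hO H hl
  · push Not at hlow
    obtain ⟨c, h1, h2, h3⟩ := hlow
    exact notLow_j M M0 _ ψ h9 hψ hP hM hn ⟨c, h1, h2, h3⟩ l hl

end step

section cubic

open Complex Set
open scoped ComplexConjugate ContDiff
open Crest.Agent.R012.GaussLoc283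
open Crest.Agent.R017.End699 Crest.Agent.R017.Sx440
open Crest.Agent.R017.A590
open Crest.Agent.R017.E2440 (NT DS Dcy c0 c1)

variable {M M₁ M' p u : Eis} {j l' : ℤ}

/-- **adding a prime with a cubic component** -/
theorem step_cubic_j (h : Ext3 M M₁ p) {v : ℕ} (hv0 : v ≠ 0) (hv : M = p ^ v * M₁)
    {ψ₁ : Eis → ℂ} (hψ₁ : HC M₁ ψ₁) {l : ℤ} (H : HasFE3j M₁ ψ₁ l)
    {m : ℕ} (hm : m ≤ 2) {ψ : Eis → ℂ} (hψ : ∀ b, Sm M b → ψ b = ψ₁ b * sy p b ^ m) :
    HasFE3j M ψ l := by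
  obtain ⟨ι, iι, D, ⟨hD, hj, hl'⟩, hFE⟩ := H
  have hM0 : D.M' * p ^ v ≠ 0 := mul_ne_zero hD.ne (pow_ne_zero _ h.pr.ne_zero)
  have h3 : (3 : Eis) ∣ D.M' * p ^ v := (h.three.trans hD.dvd).mul_right _
  have hpM : p ∣ D.M' * p ^ v := (dvd_pow_self p hv0).mul_left _
  have hrad : ∀ r : Eis, Prime r → r ∣ D.M' * p ^ v → r ∣ M := by
    intro r hr hrd
    rcases hr.dvd_or_dvd hrd with h5 | h5
    · rw [hv]; exact (hD.rad r hr h5).mul_left _
    · rw [hv]; exact h5.mul_right _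
  have hcop : ∀ b, Sm M b → IsCoprime b (D.M' * p ^ v) := by
    intro b hb
    refine isCoprime_of_prime_dvd (fun h' => hM0 h'.2) (fun r hr h5 h6 => ?_)
    exact hr.not_isUnit (hb.2.isUnit_of_dvd' h5 (hrad r hr h6))
  set M'' := D.M' * p ^ v with hM''
  have hq := h.q_pos
  have uo : Uni M'' (fun _ => (1 : ℂ)) :=
    { one := rfl, mul := fun _ _ _ _ => by norm_num, norm := fun _ _ => norm_one,
      per := fun _ _ _ _ _ => rfl }
  have ul : Uni M'' (fun b => sy b p) :=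
    { one := syAx.one_left h.sp.1
      mul := fun a b _ _ => syAx.mul_left a b p h.sp.1
      norm := fun a ha => syAx.norm_eq_one h.sp.1 (IsCoprime.of_isCoprime_of_dvd_right ha.2 hpM)
      per := fun a b _ _ hab => syAx.congr a b p h.sp.1 (hpM.trans hab) }
  have ur : Uni M'' (fun b => sy p b) :=
    { one := ul.one ▸ (syAx.recip p 1 h.sp.1 isPrim_one)
      mul := fun a b ha hb => by
        rw [syAx.recip p (a * b) h.sp.1 (ha.1.mul hb.1), syAx.recip p a h.sp.1 ha.1,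
          syAx.recip p b h.sp.1 hb.1]
        exact ul.mul a b ha hb
      norm := fun a ha => by rw [syAx.recip p a h.sp.1 ha.1]; exact ul.norm a ha
      per := fun a b ha hb hab => by
        rw [syAx.recip p a h.sp.1 ha.1, syAx.recip p b h.sp.1 hb.1]
        exact ul.per a b ha hb hab }
  -- the three representations
  set sq : ℂ := ((Real.sqrt (nm p) : ℝ) : ℂ) with hsq
  have R0 : Rep M M'' D.j D.l' (fun V u Q τ =>
      N3 M₁ (End699.tw ψ₁ l) (u * p ^ 0) (fun y => (y : ℂ) ^ (I * τ) * V y) Q) := by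
    refine rep_base h hD hFE hcop 0 1 (sq * conj (G p)) ul uo ur ?_
    intro χ hmul hb W hW u hu Y hY
    have := D3_zero h hmul hb hW hu hY
    simp only [pow_zero, mul_one, pow_one]
    rw [this]
    unfold c0
    ring
  have R1 : Rep M M'' D.j D.l' (fun V u Q τ =>
      N3 M₁ (End699.tw ψ₁ l) (u * p ^ 1) (fun y => (y : ℂ) ^ (I * τ) * V y) Q) := by
    refine rep_base h hD hFE hcop 1 2 ((nm p : ℂ) * sq * G p) ul.conj' ur uo ?_
    intro χ hmul hb W hW u hu Y hY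
    have := D3_one h hmul hb hW hu hY
    simp only [pow_one, mul_one]
    rw [this]
    unfold c1
    ring
  have R2 : Rep M M'' D.j D.l' (fun V u Q τ =>
      N3 M₁ (End699.tw ψ₁ l) (u * p ^ 2) (fun y => (y : ℂ) ^ (I * τ) * V y) Q) := by
    refine rep_base h hD hFE hcop 2 3 (-(nm p : ℂ) ^ 2) uo (ur.pow 2) (ur.pow 2) ?_
    intro χ hmul hb W hW u hu Y hY
    have := D3_two h hmul hb hW hu hY
    rw [this]
    ring
  have hmul : ∀ a b, Sm M₁ a → Sm M₁ b → End699.tw ψ₁ l (a * b) =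
      End699.tw ψ₁ l a * End699.tw ψ₁ l b := fun a b ha hb => tw_mul hψ₁ l ha.1 hb.1
  have hb : ∀ k, Sm M₁ k → ‖End699.tw ψ₁ l k‖ ≤ 1 := fun k hk => norm_tw_le' hψ₁ l hk.1
  have hψ' : ∀ b, Sm M b → End699.tw ψ l b = End699.tw ψ₁ l b * sy p b ^ m := by
    intro b hb
    unfold End699.tw
    rw [hψ b hb]
    ring
  -- conclusion from a representation
  have fin : Rep M M'' D.j D.l' (fun V u Q τ =>
      N3 M (End699.tw ψ l) u (fun y => (y : ℂ) ^ (I * τ) * V y) Q) → HasFE3j M ψ l := by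
    rintro ⟨κι, iκ, κ, η, ψ', ρ, a1, a2, a3, a4⟩
    refine ⟨κι, iκ, ⟨M'', κ, η, ψ', D.j, D.l', ρ⟩, ⟨?_, hj, hl'⟩, a4⟩
    exact
      { ne := hM0
        dvd := by rw [hv, hM'', mul_comm (p ^ v) M₁]; exact mul_dvd_mul_right hD.dvd _
        rad := hrad
        η := a1
        ψ' := a2
        ρ := a3 }
  refine fin ?_
  interval_cases m
  · have e := (R1.dil hq).cmul hM0 h3 hcop (-(sq * conj (G p)) * End699.tw ψ₁ l p) ul
    refine (R0.add e).congr fun V hV u hu Q hQ τ => ?_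
    rw [N3_congr (fun b hb => by rw [hψ' b hb, pow_zero, mul_one]) u _ _,
      N3_zero h hmul hb (vb_of_sw hV τ) hu hQ]
    simp only [pow_zero, mul_one, pow_one]
    unfold c0
    ring
  · have e := ((R0.dil (pow_pos hq 2)).cmul hM0 h3 hcop
      (-((nm p : ℂ) * sq * G p) * End699.tw ψ₁ l (p ^ 2)) ul.conj')
    refine (R1.add e).congr fun V hV u hu Q hQ τ => ?_
    rw [N3_congr (fun b hb => by rw [hψ' b hb, pow_one]) u _ _,
      N3_one h hmul hb (vb_of_sw hV τ) hu hQ]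
    simp only [pow_zero, mul_one, pow_one]
    unfold c1
    ring
  · refine R2.congr fun V hV u hu Q hQ τ => ?_
    rw [N3_congr (fun b hb => hψ' b hb) u _ _, N3_two h hmul hb (vb_of_sw hV τ) hu hQ]

end cubic

section aux

open Complex Set
open scoped ComplexConjugate ContDiff
open Crest.Agent.R012.GaussLoc283
open Crest.Agent.R017.End699 Crest.Agent.R017.Sx440
open Crest.Agent.R017.A590

variable {M M₁ p : Eis} {ψ χ : Eis → ℂ}

theorem aux_j (hΘ : ThetaP3) (H : ∀ M : Eis, (9 : Eis) ∣ M → ∀ ψ : Eis → ℂ, HC M ψ →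
    Pure3 M ψ → ∀ l : ℤ, NoPole M ψ l → HasFE3j M ψ l) : ∀ n : ℕ, ∀ M : Eis, nm M = n → (9 : Eis) ∣ M →
    ∀ ψ : Eis → ℂ, HC M ψ → ∀ l : ℤ, NoPole M ψ l → HasFE3j M ψ l := by
  intro n
  induction n using Nat.strong_induction_on with
  | _ n ih =>
    intro M hn h9 ψ hψ l hl
    by_cases hP : Pure3 M ψ
    · exact H M h9 ψ hψ hP l hl
    · unfold Pure3 PureAt3 at hP
      push Not at hP
      obtain ⟨p, hp, hpM, hp3, v, M₁, hM, hpM₁, h6⟩ := hP
      have hlam : ¬ lam ∣ p := by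
        intro hd
        have h1 : Associated lam p := prime_lam.associated_of_dvd hp hd
        exact hp3 (h1.symm.dvd.trans lam_dvd_three)
      obtain ⟨u, hu⟩ := exists_unit_mul_isPrim hlam
      -- the primary associate
      set p' : Eis := u * p with hp'
      set M₁' : Eis := ((u⁻¹ : Eisˣ) : Eis) ^ v * M₁ with hM₁'
      have huu : ((u⁻¹ : Eisˣ) : Eis) * (u : Eis) = 1 := by simp
      have hM' : M = p' ^ v * M₁' := by
        rw [hp', hM₁', mul_pow, hM]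
        calc p ^ v * M₁ = (((u⁻¹ : Eisˣ) : Eis) * (u : Eis)) ^ v * (p ^ v * M₁) := by
              rw [huu, one_pow, one_mul]
          _ = _ := by rw [mul_pow]; ring
      have hass : Associated p p' := ⟨u, by rw [hp']; ring⟩
      have hpp' : Prime p' := hass.prime hp
      have hp3' : ¬ p' ∣ 3 := fun h => hp3 (hass.dvd.trans h)
      have hpM' : p' ∣ M := hass.symm.dvd.trans hpM
      have hass1 : Associated M₁ M₁' := by
        refine ⟨(u⁻¹) ^ v, ?_⟩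
        rw [hM₁']
        push_cast
        ring
      have hpM₁' : ¬ p' ∣ M₁' := fun h => hpM₁ (hass.dvd.trans (h.trans hass1.symm.dvd))
      obtain ⟨hE, hv0, h9'⟩ := exists_ext3 h9 hpp' hp3' hpM' hM' hpM₁' hu
      obtain ⟨ψ₁, hψ₁, m, hm, hd⟩ := exists_low3 hΘ hE hv0 hM' hψ (by
        intro b hb1 hb2 hb3
        exact h6 b hb1 (hass1.dvd.trans hb2) (fun h => hb3 (hass.symm.dvd.trans h)))
      have hlt : nm M₁' < n := by
        have key : nm M = nm p' ^ v * nm M₁' := by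
          rw [hM']; rw [nm_mul (p' ^ v) M₁', nm_pow p' v]
        rw [← hn, key]
        have h1 : 0 < nm M₁' := nm_pos.mpr hψ₁.q0
        have h2 : 1 < nm p' := by
          have h3 : nm p' ≠ 0 := (nm_pos.mpr hpp'.ne_zero).ne'
          have h4 : nm p' ≠ 1 := fun h => hpp'.not_isUnit (isUnit_iff.mpr h)
          omega
        have h3 : 1 < nm p' ^ v := Nat.one_lt_pow hv0 h2
        calc nm M₁' = 1 * nm M₁' := (one_mul _).symm
          _ < nm p' ^ v * nm M₁' := Nat.mul_lt_mul_of_pos_right h3 h1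
      have hNP : NoPole M₁' ψ₁ l := by
        rcases hl with hl | ⟨b, hb, hb3⟩
        · exact Or.inl hl
        · refine Or.inr ⟨b, hE.low hb, fun h0 => hb3 ?_⟩
          rw [hd b hb, mul_pow, h0, one_mul, ← pow_mul, mul_comm m 3, pow_mul,
            syAx.cube p' b hb.1 (hE.cop hb), one_pow]
      have hlow := ih (nm M₁') hlt M₁' rfl h9' ψ₁ hψ₁ l hNP
      exact step_cubic_j hE hv0 hM' hψ₁ hlow hm hd

/-- **cubic functional equations for all characters** -/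
theorem has_j (hΘ : ThetaP3) (H : ∀ M : Eis, (9 : Eis) ∣ M → ∀ ψ : Eis → ℂ, HC M ψ →
    Pure3 M ψ → ∀ l : ℤ, NoPole M ψ l → HasFE3j M ψ l) {M : Eis} (h9 : (9 : Eis) ∣ M) {ψ : Eis → ℂ}
    (hψ : HC M ψ) {l : ℤ} (hl : NoPole M ψ l) : HasFE3j M ψ l :=
  aux_j hΘ H (nm M) M rfl h9 ψ hψ l hl

/-- **C.F1tw with the angular types** -/
theorem f1tw_j {M : Eis} (h9 : (9 : Eis) ∣ M) {ψ : Eis → ℂ} (hψ : HC M ψ) {l : ℤ}
    (hl : NoPole M ψ l) : HasFE3j M ψ l :=
  has_j thetaP3 (stepPure_j Tw3.evenAll Tw3P266.oddAll) h9 hψ hl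

end aux

section law

open Complex Set
open scoped ComplexConjugate ContDiff
open Crest.Agent.R017.E4352 (WT)
open Crest.Agent.R017.E4v5 (Law5)
open Crest.Agent.R017.E4L266

/-- **case R, with the angular types** -/
theorem law5_Rj {M : Eis} (h9 : (9 : Eis) ∣ M) {ψ : Eis → ℂ} (hψ : HC M ψ) {l : ℤ}
    (hl : NoPole M ψ l) :
    ∃ (ι : Type) (_ : Fintype ι) (D : Dt3 ι), (D.OK M ∧ D.j = l ∧ D.l' = -l) ∧
      ∀ V : ℝ → ℂ, SW V → ∃ W : ι → ℝ → ℝ → ℂ,
        (∀ τ : ℝ, Law5 M ψ l D (fun y => (y : ℂ) ^ (I * τ) * V y) (fun i => W i τ)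
          (fun _ _ => 0)) ∧
        ∀ m₀ N₀ : ℕ, ∃ C A : ℝ, 0 ≤ C ∧ ∀ τ i, WT m₀ N₀ (C * (1 + |τ|) ^ A) (W i τ) := by
  obtain ⟨ι, iι, D, hD, hFE⟩ := f1tw_j h9 hψ hl
  refine ⟨ι, iι, D, hD, fun V hV => ?_⟩
  obtain ⟨W, hW, h5⟩ := hFE V hV
  refine ⟨W, fun τ u hu Q hQ => ?_, fun m₀ N₀ => wt_uniform (fun i => wtf_of_rd (hW i)) m₀ N₀⟩
  rw [h5 u hu Q hQ τ, zero_add]

end law

end Crest.Agent.R017.FE3j61
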