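import Crest.Agent.R017.E4apC_783
import Crest.Agent.R017.E4LC_858
import Crest.Agent.R017.E4v7_352
import Crest.Agent.R017.FE3j_61

/-!
# Row 17, C70/E4, application of `E4core7` (helper783)

* `HL7 N χ l m` : functional equations of `(χ, l)`, S-unit data if `l = 0`
* `TG7` : dual twist `(η, j)`, `j = l`;  `Ap7` : the conclusion for one character
* `ap7_class`, `ap7_all`, `ap7_dict` : from `E4core7`;  `ap7_dir` : from `E4dir7`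
-/

set_option autoImplicit false

noncomputable section

open Complex
open scoped ComplexConjugate

namespace Crest.Agent.R017.E4ap783

open Crest.Agent.R012 Crest.Agent.R012.Eis Crest.Agent.R012.GaussLoc283
open Crest.Agent.R012.Mob705 hiding pb mem_pb
open Crest.Agent.R012.Div277
open Crest.Agent.R017.Sx545 (Sm)
open Crest.Agent.R017.C70 Crest.Agent.R017.GrB829
open Crest.Agent.R017.E2440
open Crest.Agent.R017.A590
open Crest.Agent.R017.B770 (SW)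
open Crest.Agent.R017.C590
open Crest.Agent.R017.End699 (HC)
open Crest.Agent.R017.E4352 (PrI SSm XF Dat4 WT tws TwC rd)
open Crest.Agent.R017.E4D164
open Crest.Agent.R017.E4v5
open Crest.Agent.R017.E4LC858
open Crest.Agent.R017.FE47 (SM)
open Crest.Agent.R017.E4o502 (GoodD GB)
open Crest.Agent.R017.E4J352 (Tm JB rngD rngF gx E4core7 E4dir7)

theorem law5C : Law5C := law5_C

/-- functional equations for `(χ, l)` with main term at `m`; S-unit data if `l = 0` -/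
def HL7 (N : Eis) (χ : Eis → ℂ) (l : ℤ) (m : Option Eis) : Prop :=
  ∃ (ι : Type) (_ : Fintype ι) (D : Dt3 ι), D.OK N ∧ D.j = l ∧ (l = 0 → SD N D) ∧ ∀ V : ℝ → ℂ, SW V →
    ∃ mc : ℝ → ℂ, (∃ C : ℝ, 0 ≤ C ∧ ∀ τ, ‖mc τ‖ ≤ C) ∧ ∃ W : ι → ℝ → ℝ → ℂ,
      (∀ τ : ℝ, Law5 N χ l D (fun y => (y : ℂ) ^ (I * τ) * V y) (fun i => W i τ)
        (fun u Q => mc τ * mtr m u Q)) ∧
      ∀ m₀ N₀ : ℕ, ∃ C A : ℝ, 0 ≤ C ∧ ∀ τ i, WT m₀ N₀ (C * (1 + |τ|) ^ A) (W i τ)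

/-- the dual twist `(η, j)` -/
def TG7 (M : Eis) (l : ℤ) (t : (Eis → ℂ) × ℤ) : Prop :=
  (∃ M' : Eis, M' ≠ 0 ∧ M ∣ M' ∧ (∀ p : Eis, Prime p → p ∣ M' → p ∣ M) ∧ HC M' t.1) ∧
    (l = 0 → t.2 = 0 ∧ SC M t.1) ∧ t.2 = l

/-- the conclusion for one character; `T` dual twists, `P` polar data -/
def Ap7 (M : Eis) (χ : Eis → ℂ) (l : ℤ) (T : Finset ((Eis → ℂ) × ℤ)) (P : Finset Eis) (V : ℝ → ℂ)
    (ε A C J : ℝ) : Prop :=
  ∀ (τ : ℝ) (f : Eis) (O : Type) (_ : Fintype O) (lam : O → ℝ) (v w : O → Eis → ℂ)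
    (X K U T₀ : ℝ) (S Mn : ℝ) (sw : Eis → Eis → Eis → Eis → Eis → Prop), Dat4 M f lam v w X →
    1 ≤ K → K ≤ X → 0 < U → U ≤ X → 0 ≤ S → 0 ≤ Mn →
    (∀ o x y, v o x ≠ 0 → w o y ≠ 0 → (nm (f * x * y) : ℝ) * lam o ^ 2 ≤ U) →
    (∀ D0 D1 B R Z : Eis, sw D0 D1 B R Z → (nm D1 : ℝ) * nm (rd Z) ≤ 2 * T₀) →
    JB M f lam v w (fun _ => 1) (rngD sw lam K) S →
    (∀ t ∈ T, ∀ ξ, JB M f lam v w (gx t.1 t.2 ξ) (rngF sw lam (U / K * X ^ ε))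
      ((1 + |ξ|) ^ A * S)) →
    (∀ m ∈ P, HM5 M f lam v w K T₀ (mtr (some m)) Mn) →
    ‖E4L M f χ l (fun y => (y : ℂ) ^ (I * τ) * V y) K lam v w‖ ≤
      C * X ^ ε * (1 + |τ|) ^ J * (K * S + X ^ (-A) + Mn)

lemma Ap7.mono {M : Eis} {χ : Eis → ℂ} {l : ℤ} {T T' : Finset ((Eis → ℂ) × ℤ)} {P P' : Finset Eis}
    {V : ℝ → ℂ} {ε A C J C' J' : ℝ} (h : Ap7 M χ l T P V ε A C J) (hT : T ⊆ T') (hP : P ⊆ P')
    (hC : C ≤ C') (hC0 : 0 ≤ C) (hJ : J ≤ J') : Ap7 M χ l T' P' V ε A C' J' := by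
  intro τ f O iO lam v w X K U T₀ S Mn sw hD h1 h2 h3 h4 h5 h6 h7 h8 h9 h10 h11
  have hX1 : 1 ≤ X := hD.X1
  have h14 : (0 : ℝ) ≤ K * S + X ^ (-A) + Mn := by positivity
  have h15 : (1 + |τ|) ^ J ≤ (1 + |τ|) ^ J' :=
    Real.rpow_le_rpow_of_exponent_le (by linarith [abs_nonneg τ]) hJ
  have h16 : (0 : ℝ) ≤ X ^ ε := by positivity
  have h17 : (0 : ℝ) ≤ (1 + |τ|) ^ J := by have := abs_nonneg τ; positivity
  refine (h τ f O iO lam v w X K U T₀ S Mn sw hD h1 h2 h3 h4 h5 h6 h7 h8 h9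
    (fun t ht => h10 t (hT ht)) (fun m hm => h11 m (hP hm))).trans ?_
  gcongr
  exact mul_nonneg (hC0.trans hC) h16

open Classical in
/-- **one character** -/
theorem ap7_class (H7 : E4core7) {N : Eis} {χ : Eis → ℂ} {l : ℤ} {m : Option Eis} (hχ : HC N χ)
    (hL : HL7 N χ l m) : ∃ T : Finset ((Eis → ℂ) × ℤ), (∀ t ∈ T, TG7 N l t) ∧
      ∀ V : ℝ → ℂ, SW V → (∀ y, 1 < y → V y = 0) →
      ∀ ε A : ℝ, 0 < ε → 0 ≤ A → ∃ C J : ℝ, 0 ≤ C ∧ 0 ≤ J ∧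
        Ap7 N χ l T m.toFinset V ε A C J := by
  obtain ⟨ι, iι, D, hD, hDj, hSD, hFE⟩ := hL
  refine ⟨Finset.univ.image fun i => (D.η i, D.j), fun t ht => ?_, fun V hV hV1 ε A hε hA => ?_⟩
  · obtain ⟨i, -, rfl⟩ := Finset.mem_image.mp ht
    exact ⟨⟨D.M', hD.ne, hD.dvd, hD.rad, hD.η i⟩, fun hl => ⟨(hSD hl).j, (hSD hl).η i⟩, hDj⟩
  obtain ⟨C, m₀, N₀, hC, H⟩ := H7 N χ l ι iι D hχ hD ε A hε hA
  obtain ⟨mc, ⟨Cm, hCm, hmc⟩, W, hlaw, hwt⟩ := hFE V hV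
  obtain ⟨C2, A2, hC2, hW⟩ := hwt m₀ N₀
  obtain ⟨B0, hB0, hB⟩ := bdd_sw hV
  refine ⟨C * (C2 + B0 + Cm), max A2 0, by positivity, le_max_right _ _, ?_⟩
  intro τ f O iO lam v w X K U T₀ S Mn sw hDat h1 h2 h3 h4 h7 h8 h9 h10 h11 h12 h13
  set J := max A2 0 with hJ
  have ht1 : 1 ≤ 1 + |τ| := by linarith [abs_nonneg τ]
  have hJ1 : 1 ≤ (1 + |τ|) ^ J := Real.one_le_rpow ht1 (le_max_right _ _)
  have hJ2 : (1 + |τ|) ^ A2 ≤ (1 + |τ|) ^ J :=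
    Real.rpow_le_rpow_of_exponent_le ht1 (le_max_left _ _)
  set B := (C2 + B0) * (1 + |τ|) ^ J with hBdef
  have hB1 : 0 ≤ B := by positivity
  have hX1 : 1 ≤ X := hDat.X1
  have hM : HM5 N f lam v w K T₀ (fun u Q => mc τ * mtr m u Q) (Cm * Mn) := by
    rcases m with _ | m
    · intro R Z q₁ q₃ F g1 g2 g3 g4 g5 g6 g7 g8 g9 g10 g11
      have e : (∑ o, ∑' x : Eis, tws R (q₁ * q₃) (fun x => conj (sy x q₁)) (v o) x *
          ∑' y : Eis, tws Z (q₁ * q₃) (fun y => conj (sy y q₁)) (w o) y *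
            (mc τ * mtr none (F * x * y) (K / (lam o * nm (q₁ ^ 2 * q₃ ^ 3))))) = 0 := by
        simp [mtr]
      beta_reduce
      rw [e, norm_zero, mul_zero]
      positivity
    · exact HM5.cmul (h13 m (by simp)) (mc τ) (hmc τ)
  have h0 := H (fun y => (y : ℂ) ^ (I * τ) * V y) (fun i => W i τ) (fun u Q => mc τ * mtr m u Q)
    B hB1 (hlaw τ) (fun i => WT.mono' (hW τ i) ?_) (fun y => ?_) (fun y hy => ?_) f O iO lam v w
    X K U T₀ S (Cm * Mn) sw hDat h1 h2 h3 h4 h7 (by positivity) h9 h10 h11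
    (fun i => h12 (D.η i, D.j) (Finset.mem_image_of_mem _ (Finset.mem_univ i))) hM
  · refine h0.trans ?_
    have h14 : (0 : ℝ) ≤ X ^ ε := by positivity
    have h15 : (0 : ℝ) ≤ X ^ (-A) := by positivity
    have h16 : 0 ≤ K * S := by positivity
    have hJ0 : 0 ≤ (1 + |τ|) ^ J := by positivity
    have e1 : Cm * Mn ≤ Cm * Mn * (1 + |τ|) ^ J := le_mul_of_one_le_right (by positivity) hJ1
    have e2 : B * (K * S + X ^ (-A)) + Cm * Mn ≤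
        (C2 + B0 + Cm) * (1 + |τ|) ^ J * (K * S + X ^ (-A) + Mn) := by
      rw [hBdef]
      nlinarith [mul_nonneg (mul_nonneg (add_nonneg hC2 hB0) hJ0) h8,
        mul_nonneg (mul_nonneg hCm hJ0) (add_nonneg h16 h15)]
    calc C * X ^ ε * (B * (K * S + X ^ (-A)) + Cm * Mn)
        ≤ C * X ^ ε * ((C2 + B0 + Cm) * (1 + |τ|) ^ J * (K * S + X ^ (-A) + Mn)) :=
          mul_le_mul_of_nonneg_left e2 (by positivity)
      _ = _ := by ring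
  · rw [hBdef]
    calc C2 * (1 + |τ|) ^ A2 ≤ C2 * (1 + |τ|) ^ J := by gcongr
      _ ≤ _ := by gcongr; linarith
  · refine (norm_tau hV hB τ y).trans ?_
    rw [hBdef]
    calc B0 = B0 * 1 := (mul_one _).symm
      _ ≤ (C2 + B0) * (1 + |τ|) ^ J := mul_le_mul (by linarith) hJ1 zero_le_one (by positivity)
  · rw [hV1 y hy, mul_zero]

theorem hl7_chr {N : Eis} (h27 : (27 : Eis) ∣ N) {ψ : Eis → ℂ} (hψ : HC N ψ) {l : ℤ}
    (hcs : Cs N ψ l) {c h : Eis} (hc : IsC c) (hh : PrI N h) :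
    ∃ m : Option Eis, (∀ x ∈ m.toFinset, PG N l x) ∧ HL7 N (chr N ψ c h) (-l) m := by
  have h9 : (9 : Eis) ∣ N := Dvd.dvd.trans ⟨3, by norm_num⟩ h27
  have h39 : (3 : Eis) ∣ 9 := ⟨3, by norm_num⟩
  have hχ := hc_chr h27 hψ hc hh
  by_cases hl : l = 0
  · subst hl
    obtain ⟨m₀, hm₀, hm⟩ : ∃ m₀, PrI N m₀ ∧ ∀ b, Sm N b → conj (ψ b) = sy m₀ b := by
      rcases hcs with h0 | h0
      · exact absurd rfl h0
      · exact h0
    refine ⟨some (c * (m₀ * h)), fun x hx => ?_, ?_⟩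
    · rw [Option.mem_toFinset, Option.mem_some_iff] at hx
      exact ⟨rfl, c, m₀ * h, hc, pri_mul hm₀ hh, hx.symm⟩
    · obtain ⟨ι, iι, D, ⟨hD, hSD⟩, H⟩ := law5_CS hψ.q0
        (fun q _ hd => (hd.trans h39).trans h9) (sg_of_isC hc) (pri_mul hm₀ hh)
        (ψ := chr N ψ c h) fun b hb => by
          rw [chr_of hb, hm b hb, syAx.mul_left _ _ _ hb.1, syAx.mul_left _ _ _ hb.1]
          ring
      rw [neg_zero]
      refine ⟨ι, iι, D, hD, hSD.j, fun _ => hSD, fun V hV => ?_⟩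
      obtain ⟨mc, hmc, W, hlaw, hwt⟩ := H V hV
      obtain ⟨C, hC0, hC1⟩ := hmc 0
      refine ⟨mc, ⟨C, hC0, fun τ => by simpa using hC1 τ⟩, W, fun τ => ?_, hwt⟩
      intro u hu Q hQ
      rw [hlaw τ u hu Q hQ]
      simp only [mtr]
      ring
  · refine ⟨none, fun x hx => by simp at hx, ?_⟩
    obtain ⟨ι, iι, D, ⟨hD, hj, -⟩, H⟩ :=
      FE3j61.law5_Rj h9 hχ (l := -l) (Or.inl (neg_ne_zero.mpr hl))
    refine ⟨ι, iι, D, hD, hj, fun h => absurd h (neg_ne_zero.mpr hl), fun V hV => ?_⟩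
    obtain ⟨W, hlaw, hwt⟩ := H V hV
    refine ⟨fun _ => 0, ⟨0, le_rfl, fun τ => by simp⟩, W, fun τ => ?_, hwt⟩
    intro u hu Q hQ
    rw [hlaw τ u hu Q hQ]
    simp only [mtr]
    ring

/-! ### change of the modulus -/

lemma ok_27 {M f : Eis} {O : Type} (h3 : (3 : Eis) ∣ M) (t : Tm O) :
    t.OK (27 * M) f ↔ t.OK M f := by
  have e := sm_27 h3
  constructor
  · rintro ⟨h1, h2, h3, h4, h5, h6, h7, h8, h9, h10, h11, h12, h13, h14, h15⟩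
    unfold GoodD at h3
    unfold GB at h4
    rw [e] at h3 h4 h7 h8
    exact ⟨h1, h2, h3, h4, h5, h6, h7, h8, h9, h10, h11, h12, h13, h14, h15⟩
  · rintro ⟨h1, h2, h3, h4, h5, h6, h7, h8, h9, h10, h11, h12, h13, h14, h15⟩
    unfold GoodD at h3
    unfold GB at h4
    rw [← e] at h3 h4 h7 h8
    exact ⟨h1, h2, h3, h4, h5, h6, h7, h8, h9, h10, h11, h12, h13, h14, h15⟩

lemma jb_27 {M f : Eis} {O : Type} {lam : O → ℝ} {v w : O → Eis → ℂ} {G : Eis → ℂ}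
    {rng : Tm O → Prop} {S : ℝ} (h3 : (3 : Eis) ∣ M) (h : JB M f lam v w G rng S) :
    JB (27 * M) f lam v w G rng S := fun c 𝒥 h𝒥 =>
  h c 𝒥 fun t ht => ⟨(ok_27 h3 t).mp (h𝒥 t ht).1, (h𝒥 t ht).2⟩

lemma sc_of_27 {M : Eis} (h3 : (3 : Eis) ∣ M) {g : Eis → ℂ} (h : SC (27 * M) g) : SC M g := by
  obtain ⟨t, ht, h1⟩ := h
  exact ⟨t, ⟨ht.1, fun p hp hd => prime_27 h3 hp (ht.2 p hp hd)⟩,
    fun b hb => h1 b (by rw [sm_27 h3]; exact hb)⟩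

lemma tg7_27 {M : Eis} (h3 : (3 : Eis) ∣ M) {l : ℤ} {t : (Eis → ℂ) × ℤ} (h : TG7 (27 * M) l t) :
    TG7 M l t := by
  obtain ⟨⟨M', h1, h2, h4, h5⟩, h6, h7⟩ := h
  exact ⟨⟨M', h1, (dvd_mul_left _ _).trans h2, fun p hp hd => prime_27 h3 hp (h4 p hp hd), h5⟩,
    fun hl => ⟨(h6 hl).1, sc_of_27 h3 (h6 hl).2⟩, h7⟩

/-- **the application** : all characters `χ = conj ψ (c h / ·)`; `T` finitely many dual twists, `P`
finitely many polar data (empty if `l ≠ 0`) -/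
theorem ap7_all (H7 : E4core7) {M : Eis} {ψ : Eis → ℂ} (hψ : HC M ψ) {l : ℤ} (hcs : Cs M ψ l) :
    ∃ (T : Finset ((Eis → ℂ) × ℤ)) (P : Finset Eis), (∀ t ∈ T, TG7 M (-l) t) ∧
      (∀ m ∈ P, PG M l m) ∧
      ∀ V : ℝ → ℂ, SW V → (∀ y, 1 < y → V y = 0) → ∀ ε A : ℝ, 0 < ε → 0 ≤ A →
        ∃ C J : ℝ, 0 ≤ C ∧ 0 ≤ J ∧ ∀ (χ : Eis → ℂ) (c h : Eis), IsC c → PrI M h →
          (∀ b, Sm M b → χ b = conj (ψ b) * (sy c b * sy h b)) → Ap7 M χ (-l) T P V ε A C J := by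
  classical
  have h3 := hψ.three
  set N : Eis := 27 * M with hN
  have hψN : HC N ψ := hc_27 hψ
  have h27 : (27 : Eis) ∣ N := dvd_mul_right _ _
  have hcsN : Cs N ψ l := cs_27 h3 hcs
  set S : Finset (Eis × Eis) := C4 ×ˢ RC M with hS
  have hSm : ∀ q ∈ S, IsC q.1 ∧ PrI M q.2 := fun q hq => by
    rw [hS, Finset.mem_product] at hq
    exact ⟨mem_C4.mp hq.1, (mem_RC.mp hq.2).2⟩
  have key : ∀ q ∈ S, ∃ (t : Finset ((Eis → ℂ) × ℤ)) (m : Option Eis), (∀ x ∈ t, TG7 N (-l) x) ∧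
      (∀ x ∈ m.toFinset, PG N l x) ∧
      ∀ V : ℝ → ℂ, SW V → (∀ y, 1 < y → V y = 0) → ∀ ε A : ℝ, 0 < ε → 0 ≤ A →
        ∃ C J : ℝ, 0 ≤ C ∧ 0 ≤ J ∧ Ap7 N (chr N ψ q.1 q.2) (-l) t m.toFinset V ε A C J := by
    intro q hq
    obtain ⟨h1, h2⟩ := hSm q hq
    obtain ⟨m, hm, hL⟩ := hl7_chr h27 hψN hcsN h1 (pri_27 h2)
    obtain ⟨t, ht, H⟩ := ap7_class H7 (hc_chr h27 hψN h1 (pri_27 h2)) hL
    exact ⟨t, m, ht, hm, H⟩
  choose! t m ht hm H using key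
  refine ⟨S.biUnion t, S.biUnion (fun q => (m q).toFinset), fun x hx => ?_, fun x hx => ?_,
    fun V hV hV1 ε A hε hA => ?_⟩
  · obtain ⟨q, hq, h1⟩ := Finset.mem_biUnion.mp hx
    exact tg7_27 h3 (ht q hq x h1)
  · obtain ⟨q, hq, h1⟩ := Finset.mem_biUnion.mp hx
    exact pg_27 h3 (hm q hq x h1)
  · have key2 : ∀ q ∈ S, ∃ C J : ℝ, 0 ≤ C ∧ 0 ≤ J ∧
        Ap7 N (chr N ψ q.1 q.2) (-l) (t q) (m q).toFinset V ε A C J := fun q hq =>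
      H q hq V hV hV1 ε A hε hA
    choose! C J hC0 hJ0 HA using key2
    refine ⟨∑ q ∈ S, C q, ∑ q ∈ S, J q, Finset.sum_nonneg hC0, Finset.sum_nonneg hJ0, ?_⟩
    intro χ c h hc hh hχ
    obtain ⟨h', hh', hred⟩ := exists_RC hψ.q0 hh
    have hq : (c, h') ∈ S := by
      rw [hS, Finset.mem_product]
      exact ⟨mem_C4.mpr hc, hh'⟩
    have h1 := (HA (c, h') hq).mono (T' := S.biUnion t) (P' := S.biUnion fun q => (m q).toFinset)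
      (C' := ∑ q ∈ S, C q) (J' := ∑ q ∈ S, J q)
      (Finset.subset_biUnion_of_mem t hq)
      (Finset.subset_biUnion_of_mem (fun q => (m q).toFinset) hq)
      (Finset.single_le_sum hC0 hq) (hC0 _ hq) (Finset.single_le_sum hJ0 hq)
    have hχ' : ∀ b, Sm M b → χ b = chr N ψ c h' b := by
      intro b hb
      have hb' : Sm N b := by rw [hN, sm_27 h3]; exact hb
      rw [hχ b hb, chr_of hb', hred b hb]
    intro τ f O iO lam v w X K U T₀ Sx Mn sw hD g1 g2 g3 g4 g5 g6 g7 g8 g9 g10 g11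
    rw [E4L_eq h3 hχ']
    exact h1 τ f O iO lam v w X K U T₀ Sx Mn sw (dat_27 h3 hD) g1 g2 g3 g4 g5 g6 g7 g8
      (jb_27 h3 g9) (fun t ht ξ => jb_27 h3 (g10 t ht ξ)) (fun m hm => hm_27 h3 (g11 m hm))

/-- **the application, in the form of the dictionary** -/
theorem ap7_dict (H7 : E4core7) {M : Eis} {ψ : Eis → ℂ} (hψ : HC M ψ) {l : ℤ} (hcs : Cs M ψ l) :
    ∃ (T : Finset ((Eis → ℂ) × ℤ)) (P : Finset Eis), (∀ t ∈ T, TG7 M (-l) t) ∧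
      (∀ m ∈ P, PG M l m) ∧
      ∀ V : ℝ → ℂ, SW V → (∀ y, 1 < y → V y = 0) → ∀ ε A : ℝ, 0 < ε → 0 ≤ A →
        ∃ C J : ℝ, 0 ≤ C ∧ 0 ≤ J ∧ ∀ E c₀ g z : Eis, IsPrim E → IsC c₀ → PrI M g → PrI M z →
          Ap7 M (psd (psE M ψ E) (c₀ * g * z)) (-l) T P V ε A C J := by
  obtain ⟨T, P, h1, h2, H⟩ := ap7_all H7 hψ hcs
  refine ⟨T, P, h1, h2, fun V hV hV1 ε A hε hA => ?_⟩
  obtain ⟨C, J, hC0, hJ0, H1⟩ := H V hV hV1 ε A hε hA
  refine ⟨C, J, hC0, hJ0, fun E c₀ g z hE hc hg hz => ?_⟩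
  obtain ⟨h3, h4⟩ := psd_eq (c := c₀) (ψ := ψ) hψ.q0 hE hg hz
  exact H1 _ c₀ _ hc h3 h4

/-! ### the direct version -/

/-- **no functional equation** : any character -/
theorem ap7_dir (H7 : E4dir7) (ε : ℝ) (hε : 0 < ε) : ∃ C : ℝ, 0 ≤ C ∧
    ∀ (M : Eis) (χ : Eis → ℂ) (l : ℤ) (V : ℝ → ℂ) (B : ℝ), (∀ b, IsPrim b → ‖χ b‖ ≤ 1) →
      (∀ y, ‖V y‖ ≤ B) → (∀ y, 1 < y → V y = 0) →
    ∀ (f : Eis) (O : Type) (_ : Fintype O) (lam : O → ℝ) (v w : O → Eis → ℂ) (X K : ℝ)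
      (S : ℝ), Dat4 M f lam v w X → 1 ≤ K → K ≤ X → 0 ≤ S →
      JB M f lam v w (fun _ => 1) (rngD (fun _ _ _ _ _ => False) lam K) S →
      ‖E4L M f χ l V K lam v w‖ ≤ C * X ^ ε * (B * (K * S)) := by
  obtain ⟨C, hC, H⟩ := H7 ε hε
  refine ⟨C, hC, ?_⟩
  intro M χ l V B hχ hB hV f O iO lam v w X K S hD h1 h2 h3 h4
  have hB0 : 0 ≤ B := (norm_nonneg _).trans (hB 0)
  refine H M f O iO lam v w X K B (fun o k => End699.tw χ l k * V (nm k * lam o / K)) S hD h1 h2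
    hB0 h3 (fun o k hk => ?_) (fun o k hk => ?_) h4
  · rw [norm_mul]
    have e1 : ‖End699.tw χ l k‖ ≤ 1 := by
      unfold End699.tw
      rw [norm_mul]
      have hk0 := hk.1.ne_zero
      have h7 : ‖ang l k‖ ≤ 1 := by
        rcases PSer47.ang_isChar l with ⟨-, -, h8⟩
        rcases h8 k hk.1 with h9 | h9
        · rw [h9, norm_zero]; exact zero_le_one
        · rw [h9]
      exact mul_le_one₀ (hχ k hk.1) (norm_nonneg _) h7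
    calc _ ≤ 1 * B := mul_le_mul e1 (hB _) (norm_nonneg _) zero_le_one
      _ = B := one_mul B
  · have hl := (hD.lam1 o).1
    have hK : 0 < K := by linarith
    have : 1 < (nm k : ℝ) * lam o / K := by
      rw [one_lt_div hK]
      rwa [div_lt_iff₀ (by linarith)] at hk
    rw [hV _ this, mul_zero]

end Crest.Agent.R017.E4ap783
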