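import Crest.Agent.R017.E4Ub_164
import Crest.Agent.R017.E5L2_770
import Crest.Agent.R017.E4aq_783

/-!
# Row 17, R8 / E5, consumer of E4 : the list-level Props `JBU`, `MnU` (helper164)

* `FrL` : the frame of `UB (lev (log 2) S5) .. (SqL A d) (alL al5)`
* `sS`, `OD`, `lD`, `vX`, `wX` : multipliers, outer index set, families of the dictionary (`f = 1`)
* `pS` : local classes;  `Dt`, `Dt.I`, `Dt.OK` : data of one summand, full class `m`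
* `U0` : the tight `U`;  `nrm` : the normalisation
* `JBU` : joint block hypothesis;  `MnU` : polar terms
-/

set_option autoImplicit false

noncomputable section

open Finset Complex
open scoped ComplexConjugate

namespace Crest.Agent.R017.E4U164

open Crest.Agent.R012 Crest.Agent.R012.Eis
open Crest.Agent.R012.Mob705 hiding pb mem_pb
open Crest.Agent.R012.LS2 (S mem_S)
open Crest.Agent.R017.Sx545 (Sm)
open Crest.Agent.R017.CM106 (FS)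
open Crest.Agent.R017.E4352 (PrI rd)
open Crest.Agent.R017.E5k54 (alb)
open Crest.Agent.R017.E5P571 (Gd)
open Crest.Agent.R017.E5B71
open Crest.Agent.R017.XT71 (Sys Win)
open Crest.Agent.R017.B770 (DPar)
open Crest.Agent.R017.Prov71
open Crest.Agent.R017.FE47 (SM)
open Crest.Agent.R017.E4D164
open Crest.Agent.R017.E5L770
open Crest.Agent.R017.E4v5 (HM5)
open Crest.Agent.R017.E4J352 (Tm JB rngD rngF gx)
open Crest.Agent.R017.E4ap783 (TG7 PG mtr)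

/-! ### the frame -/

/-- the top of the levels treated by E4: `A + (9/4) x` -/
def low5 (p : Fin 3 ⊕ Fin 5 → ℝ) : ℝ := min (2 * cN p - cκ p) (3 / 4 * cN p) + 9 / 4 * cx' p

/-- the domain of the low levels -/
def SqLow (A d : ℝ) : Set ((Option (Fin 3 ⊕ Fin 5) → ℝ) × (Kd → ℝ)) :=
  {q | q ∈ SqL A d ∧ q.1 none ≤ low5 (dn q.1)}

/-- the frame of `UB (lev (log 2) S5) Dq .. (SqLow A d) (alL al5)`, gated -/
structure FrL (A d δ δ' B X : ℝ) (N : ℕ) (a : Bd × ℕ) (ps : List Pq)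
    (q : (Option (Fin 3 ⊕ Fin 5) → ℝ) × (Kd → ℝ)) : Prop where
  len : ps.length ≤ N
  lum : ∀ p ∈ ps, Dq.lump p ∨ Dq.nl X p ≤ δ
  dom : q ∈ SqL A d
  win : Win (lev (Real.log 2) S5) q.1 δ N B δ' X a
  mass : ∀ t, |Dq.mass X ps t - q.2 t| ≤ δ
  good : Dq.Good X δ' B ps
  al : ∀ p ∈ ps, Dq.lump p → ((lev (Real.log 2) S5).ev X a, Dq.nl X p) ∈ alL al5
  /-- the level occurs (helper92: the window is complete) -/
  lvl : a.2 < nL a.1.l (a3 a.1) a.1.z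
  /-- low levels (helper319) -/
  low : q.1 none ≤ low5 (dn q.1)

/-! ### the families -/

/-- the multiplier `S_q = lc (lc (q² g) e₀) t` -/
def sS (g e₀ t : Eis) : Eis → Eis := sE (fun q => q ^ 2 * g) e₀ t

/-- the part of `s` at the primes with `v_p(s) = a + 1`, `v_p(j) = b` -/
def pS (a : Fin 2) (b : Fin 3) (s j : Eis) : Eis := by
  classical
  exact ∏ p ∈ (pp s).filter (fun p => multiplicity p s = (a : ℕ) + 1 ∧ multiplicity p j = (b : ℕ)), p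

/-- the outer index set -/
def OD (M : Eis) (I : Finset (Eis × (Eis × Eis))) (g e₀ t : Eis) : Finset (Eis × Eis) :=
  OU M I (jS (sS g e₀ t)) (jJ (sS g e₀ t))

/-- the outer parameter `N(S ν)` -/
def lD {OO : Finset (Eis × Eis)} (o : OO) : ℝ := (nm (o.1.1 * o.1.2) : ℝ)

/-- the `x`-side, `E = e ∏ β`, `α = alb f β` -/
def vX (M : Eis) (ψ : Eis → ℂ) (l : ℤ) (I : Finset (Eis × (Eis × Eis)))
    (om : Eis × Eis → ℂ) (ph : Eis → ℂ) (E : Eis) (α : Eis → ℂ) (g e₀ t c₀ g' : Eis)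
    (o : OD M I g e₀ t) : Eis → ℂ :=
  vI M (psE M ψ E) l (fN M E) I (jS (sS g e₀ t)) jD (jJ (sS g e₀ t))
    (jC (sS g e₀ t) (cE ph om α e₀)) c₀ g' o.1

/-- the `y`-side, with the symbol part of `E` -/
def wX (M : Eis) (b₁ b₂ : Eis → ℂ) (L : Finset (Eis × Eis)) (E z : Eis) {OO : Finset (Eis × Eis)}
    (o : OO) : Eis → ℂ := mulw (fN M E) (wI M b₁ b₂ L z o.1)

/-- the data of one summand : outer set `Q`, class `m` -/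
structure Dt where
  g : Eis
  β : Fin 3 → Eis
  e₀ : Eis
  t : Eis
  c₀ : Eis
  g' : Eis
  z : Eis
  Q : Finset Eis
  ph : Eis → ℂ
  m : Fin 2 → Fin 3 → ℕ

/-- the index set (pairs `(q, (δ, j))`) : the full class -/
def Dt.I (Jf : ℝ → ℝ → ℝ → Finset (Eis × Eis)) (a : Bd × ℕ) (x : Dt) :
    Finset (Eis × (Eis × Eis)) := by
  classical
  exact (x.Q ×ˢ J3 Jf a.1 a.2).filter fun i => ∀ b c,
    2 ^ x.m b c ≤ nm (pS b c (sS x.g x.e₀ x.t i.1) i.2.2) ∧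
      nm (pS b c (sS x.g x.e₀ x.t i.1) i.2.2) < 2 ^ (x.m b c + 1)

lemma Dt.mem_I {Jf : ℝ → ℝ → ℝ → Finset (Eis × Eis)} {a : Bd × ℕ} {x : Dt}
    {i : Eis × (Eis × Eis)} : i ∈ x.I Jf a ↔ (i.1 ∈ x.Q ∧ i.2 ∈ J3 Jf a.1 a.2) ∧ ∀ b c,
    2 ^ x.m b c ≤ nm (pS b c (sS x.g x.e₀ x.t i.1) i.2.2) ∧
      nm (pS b c (sS x.g x.e₀ x.t i.1) i.2.2) < 2 ^ (x.m b c + 1) := by
  classical
  unfold Dt.I
  rw [mem_filter, mem_product]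

/-- `e ∏ β` -/
def Dt.E (x : Dt) (a : Bd) : Eis := a.e * ∏ i, x.β i

/-- `log₂ N(S)` of the class -/
def Dt.nS (x : Dt) : ℕ := ∑ b, x.m 0 b + 2 * ∑ b, x.m 1 b

/-- `log₂ N(e)` of the class : `j S = j' e³` -/
def Dt.nE (x : Dt) : ℕ := x.m 0 2 + x.m 1 1 + x.m 1 2

/-- admissible data -/
structure Dt.OK (P : DPar) (Bf : ℝ → ℝ → ℝ → ℝ) (e0 r ε X : ℝ) (a : Bd) (x : Dt) : Prop where
  g : x.g ∈ Gd P.n a.d₃
  β : x.β ∈ T3 Bf a r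
  e₀ : x.e₀ ∈ S (Real.exp (e0 * a.l))
  t : x.t ∈ Gd P.n (tS (x.E a))
  c₀ : x.c₀ ∈ C4
  g' : PrI P.n₃ x.g'
  z : PrI P.n₃ x.z
  Q : ∀ q ∈ x.Q, Sm P.n q ∧ Squarefree q ∧ IsCoprime q a.d₃ ∧
    (nm q : ℝ) ^ 2 ≤ X ^ ε * Real.exp a.l
  ph : ∀ q, ‖x.ph q‖ ≤ 1

variable {Λ : Type*}

section fam

variable (π : Λ → DPar) (h : ℝ → ℝ) (lam : Λ × Eis) (Jf : ℝ → ℝ → ℝ → Finset (Eis × Eis))
  (a : Bd × ℕ) (ps : List Pq) (x : Dt)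

/-- the outer index set of the data -/
def Dt.O : Finset (Eis × Eis) := OD (π lam.1).n₃ (x.I Jf a) x.g x.e₀ x.t

/-- the `x`-side of the data -/
def Dt.v (o : x.O π lam Jf a) : Eis → ℂ :=
  vX (π lam.1).n₃ (fun k => conj ((π lam.1).χ₃ k)) (π lam.1).l₃ (x.I Jf a) (omL a.2) x.ph
    (x.E a.1) (alb (f3 (π lam.1) h lam.2 a.1) x.β) x.g x.e₀ x.t x.c₀ x.g' o

/-- the `y`-side of the data -/
def Dt.w (h₁ : FS (b1 (π lam.1) h lam.2 ps)) (h₂ : FS (b2 (π lam.1) h lam.2 a.1 ps))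
    (o : x.O π lam Jf a) : Eis → ℂ :=
  wX (π lam.1).n₃ (b1 (π lam.1) h lam.2 ps) (b2 (π lam.1) h lam.2 a.1 ps)
    (h₁.fin.toFinset ×ˢ h₂.fin.toFinset) (x.E a.1) x.z o

end fam

/-- length of the Möbius side -/
def lmo (a : Bd) (ps : List Pq) : ℝ := ((bs2 a ps).map fun p => p.z).sum

/-- length of the amplifier side -/
def lam' (ps : List Pq) : ℝ := ((amL ps).map fun p => p.z).sum

/-- the tight `U` : `N(x y) N(S ν)² ≤ X^ε U0` -/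
def U0 (P : DPar) (a : Bd × ℕ) (ps : List Pq) (x : Dt) : ℝ :=
  nm (fN P.n₃ (x.E a.1)) * 2 ^ a.2 * 8 ^ x.nS / 8 ^ x.nE * Real.exp (lam' ps + 2 * lmo a.1 ps)

/-- the normalisation -/
def nrm (x : Dt) : ℝ := (nm (∏ i, x.β i) : ℝ) ^ (1 / 2 : ℝ) * nm x.e₀

variable (π : Λ → DPar) (h : ℝ → ℝ)

/-- **the window of the structured part treated by E4** (helper699): long `e₀`, long `β` only at
low levels -/
def XLow (d X : ℝ) (q : (Option (Fin 3 ⊕ Fin 5) → ℝ) × (Kd → ℝ)) (x : Dt) : Prop :=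
  4 * Real.log (nm x.e₀) ≤ (low5 (dn q.1) - q.1 none + d) * Real.log X ∧
    2 * Real.log (nm (∏ i, x.β i)) ≤ (low5 (dn q.1) - q.1 none + d) * Real.log X

/-- **joint block hypothesis at list level** -/
def JBU (θ A d μ e0 r : ℝ) (Bf : ℝ → ℝ → ℝ → ℝ) (Jf : ℝ → ℝ → ℝ → Finset (Eis × Eis)) : Prop :=
  ∀ ε : ℝ, 0 < ε → ∃ ε' : ℝ, 0 < ε' ∧ ε' ≤ ε ∧ ∃ δ : ℝ, 0 < δ ∧
    ∀ (lam : Λ × Eis) (N : ℕ) (B : ℝ)
    (T : Finset ((Eis → ℂ) × ℤ)), ¬ (π lam.1).CaseD →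
    (∀ t ∈ T, TG7 (π lam.1).n₃ (-(π lam.1).l₃) t) →
    ∃ A' : ℝ, 0 ≤ A' ∧ ∃ δ' : ℝ, 0 < δ' ∧ ∃ X₀ : ℝ, 1 < X₀ ∧ ∀ X : ℝ, X₀ ≤ X →
    ∀ (a : Bd × ℕ) (ps : List Pq) (q : (Option (Fin 3 ⊕ Fin 5) → ℝ) × (Kd → ℝ)),
      FrL A d δ δ' B X N a ps q → a.1.ok → lam.2 ∈ SM (π lam.1).n → a.1.okP (π lam.1) →
    ∀ x : Dt, x.OK (π lam.1) Bf e0 r ε' X a.1 → XLow d X q x →
    ∀ (h₁ : FS (b1 (π lam.1) h lam.2 ps)) (h₂ : FS (b2 (π lam.1) h lam.2 a.1 ps)),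
    ∃ (sw : Eis → Eis → Eis → Eis → Eis → Prop) (T₀ : ℝ), 0 ≤ T₀ ∧
      (∀ D0 D1 B R Z : Eis, sw D0 D1 B R Z → (nm D1 : ℝ) * nm (rd Z) ≤ 2 * T₀) ∧
      JB (π lam.1).n₃ 1 lD (x.v π h lam Jf a) (x.w π h lam Jf a ps h₁ h₂) (fun _ => 1)
        (rngD sw lD (X ^ ε' * Real.exp a.1.l))
        (X ^ (T5 θ (dn q.1, q.2) - μ + ε) / (nrm x * Real.exp (a.1.l / 3))) ∧
      ∀ t ∈ T, ∀ ξ : ℝ,
        JB (π lam.1).n₃ 1 lD (x.v π h lam Jf a) (x.w π h lam Jf a ps h₁ h₂) (gx t.1 t.2 ξ)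
          (rngF sw lD (X ^ ε' * (U0 (π lam.1) a ps x / Real.exp a.1.l)))
          ((1 + |ξ|) ^ A' *
            (X ^ (T5 θ (dn q.1, q.2) - μ + ε) / (nrm x * Real.exp (a.1.l / 3))))

/-- **polar terms at list level** -/
def MnU (θ A d μ e0 r : ℝ) (Bf : ℝ → ℝ → ℝ → ℝ) (Jf : ℝ → ℝ → ℝ → Finset (Eis × Eis)) : Prop :=
  ∀ ε : ℝ, 0 < ε → ∃ ε' : ℝ, 0 < ε' ∧ ε' ≤ ε ∧ ∃ δ : ℝ, 0 < δ ∧
    ∀ (lam : Λ × Eis) (N : ℕ) (B R : ℝ) (Pm : Finset Eis),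
    0 < R → ¬ (π lam.1).CaseD → (∀ m ∈ Pm, PG (π lam.1).n₃ (π lam.1).l₃ m) →
    ∃ δ' : ℝ, 0 < δ' ∧ ∃ X₀ : ℝ, 1 < X₀ ∧ ∀ X : ℝ, X₀ ≤ X →
    ∀ (a : Bd × ℕ) (ps : List Pq) (q : (Option (Fin 3 ⊕ Fin 5) → ℝ) × (Kd → ℝ)),
      FrL A d δ δ' B X N a ps q → a.1.ok → lam.2 ∈ SM (π lam.1).n → a.1.okP (π lam.1) →
    ∀ x : Dt, x.OK (π lam.1) Bf e0 r ε' X a.1 → XLow d X q x →
    ∀ (h₁ : FS (b1 (π lam.1) h lam.2 ps)) (h₂ : FS (b2 (π lam.1) h lam.2 a.1 ps)),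
    ∀ m ∈ Pm, ∀ T₀ : ℝ, 0 ≤ T₀ →
      HM5 (π lam.1).n₃ 1 lD (x.v π h lam Jf a) (x.w π h lam Jf a ps h₁ h₂)
        (R * Real.exp a.1.l) T₀ (mtr (some m))
        (X ^ (T5 θ (dn q.1, q.2) - μ + ε) * Real.exp (2 / 3 * a.1.l) / nrm x)

end Crest.Agent.R017.E4U164
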