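import Crest.Agent.R017.E4zf_372
import Crest.Agent.R017.E4Uc_164
import Crest.Agent.R017.E4ay_783

/-!
# Row 17, exceptional class, StrUX: the list-level hypotheses (helper372)

helper164's `E4Uc` for the double difference; the outer cubes are removed.

* `FrLX` : the frame of `UB (lev (log 2) S5X) Dq .. (SqLX A d β) (alL alX)`
* `vE`, `wE` : the families of the data `x : Dt` (helper164's); `j : Fin 2` the shape of the two-lump
  side, `alX` the difference of the two shapes of the three-lump side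
* `hE` : the number of scales (`e^{3 hE} = (e^l)² / U₀` if positive)
* `strUX_of_levG` : 770's `strUX_of_lev`, levels `< nL` only
* **`JBUX`** : joint block hypothesis, non-principal frequencies;  **`MnUX`** : polar terms;
  **`PrUX`** : the principal numbers
-/

set_option autoImplicit false

noncomputable section

open Finset Complex
open scoped ComplexConjugate

namespace Crest.Agent.R017.E4Df372

open Crest.Agent.R012 Crest.Agent.R012.Eis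
open Crest.Agent.R012.Mob705 hiding pb mem_pb
open Crest.Agent.R012.LS2 (S mem_S)
open Crest.Agent.R017.Sx545 (Sm)
open Crest.Agent.R017.CM106 (CS FS)
open Crest.Agent.R017.C70 (OKJ)
open Crest.Agent.R017.End699 (HC)
open Crest.Agent.R017.E4352 (PrI rd Dat4)
open Crest.Agent.R017.E5k54 (alb)
open Crest.Agent.R017.E5P571 (Gd)
open Crest.Agent.R017.E5B71
open Crest.Agent.R017.XT71 (Sys Win)
open Crest.Agent.R017.B770 (DPar)
open Crest.Agent.R017.Prov71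
open Crest.Agent.R017.FE47 (SM)
open Crest.Agent.R017.ExP960 hiding alX
open Crest.Agent.R017.E4D164 hiding E4L
open Crest.Agent.R017.E5L770
open Crest.Agent.R017.E5LX770 (SqLX SfEV SfE nLX_le midE_lev tailE_lev)
open Crest.Agent.R017.E4v5 (HM5)
open Crest.Agent.R017.E4J352 (Tm JB rngD rngF gx)
open Crest.Agent.R017.E4ap783 (TG7 PG mtr E4Ly MpY)
open Crest.Agent.R017.E4X266 (rngDC rngFC)
open Crest.Agent.R017.E4U164

/-! ### the levels -/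

/-- **StrUX from one level `< nL`** (helper92's gate) -/
theorem strUX_of_levG {Λ : Type*} {π : Λ → DPar} {h : ℝ → ℝ} (hP : ∀ lam, (π lam).OK)
    {θ A d β μ : ℝ} (hA : 2 / 3 ≤ A)
    (e0 r : ℝ) (Bf : ℕ → ℝ → ℝ → ℝ → ℝ) (Jf : ℝ → ℝ → ℝ → Finset (Eis × Eis))
    (H : UB (lev (Real.log 2) S5X) Dq
      (fun lam a ps => if a.2 < nL a.1.l (a3 a.1.toBd) a.1.z then
        MidX π h (SfEV π h e0 r (Bf a.2) Jf a.2) lam a.1 ps else 0)
      (SqLX A d β) (alL ExP960.alX) fun q => T5 θ (prQ (dn q.1, q.2)) - μ) :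
    StrUX π h θ (SfE π h e0 r Bf Jf nL) A d β μ :=
  ub_of_lev (S := S5X)
    (Ψl := fun i lam a ps => if i < nL a.l (a3 a.toBd) a.z then
      MidX π h (SfEV π h e0 r (Bf i) Jf i) lam a ps else 0)
    (top := fun p => top5 (prX p))
    (C₀ := 10) (M := 2) (c := Real.log 2) (c₁ := Real.log 2) (by norm_num)
    (Real.log_pos (by norm_num)) (nT := fun a => nL a.l (a3 a.toBd) a.z)
    (fun q hq => top5_nonneg hA hq.1) (fun q hq => top5_le hA hq.1)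
    (fun p p' δ hδ hh => top5_lip _ _ δ hδ fun i => hh (.inl i))
    (fun X a hX => nLX_le hX a)
    (fun lam a ps => (midE_lev π h e0 r Bf Jf nL (hP lam.1) a ps).trans (le_of_eq
      (Finset.sum_congr rfl fun i hi => (if_pos (Finset.mem_range.mp hi)).symm)))
    (fun q _ => le_rfl) H

/-- **TailUX from one level `< nL`** -/
theorem tailUX_of_levG {Λ : Type*} {π : Λ → DPar} {h : ℝ → ℝ} {θ A d β μ : ℝ} (hA : 2 / 3 ≤ A)
    (e0 r : ℝ) (Bf : ℕ → ℝ → ℝ → ℝ → ℝ) (Jf : ℝ → ℝ → ℝ → Finset (Eis × Eis))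
    (H : ∀ R : Λ → ℝ, (∀ lam, 0 ≤ R lam) → UB (lev (Real.log 2) S5X) Dq
      (fun lam a ps => if a.2 < nL a.1.l (a3 a.1.toBd) a.1.z then
        TailSX π h (SfEV π h e0 r (Bf a.2) Jf a.2) R lam a.1 ps else 0)
      (SqLX A d β) (alL ExP960.alX) fun q => T5 θ (prQ (dn q.1, q.2)) - μ) :
    TailUX π h θ (SfE π h e0 r Bf Jf nL) A d β μ := fun R hR =>
  ub_of_lev (S := S5X)
    (Ψl := fun i lam a ps => if i < nL a.l (a3 a.toBd) a.z then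
      TailSX π h (SfEV π h e0 r (Bf i) Jf i) R lam a ps else 0)
    (top := fun p => top5 (prX p))
    (C₀ := 10) (M := 2) (c := Real.log 2) (c₁ := Real.log 2) (by norm_num)
    (Real.log_pos (by norm_num)) (nT := fun a => nL a.l (a3 a.toBd) a.z)
    (fun q hq => top5_nonneg hA hq.1) (fun q hq => top5_le hA hq.1)
    (fun p p' δ hδ hh => top5_lip _ _ δ hδ fun i => hh (.inl i))
    (fun X a hX => nLX_le hX a)
    (fun lam a ps => (tailE_lev π h e0 r Bf Jf nL R lam a ps).trans (le_of_eq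
      (Finset.sum_congr rfl fun i hi => (if_pos (Finset.mem_range.mp hi)).symm)))
    (fun q _ => le_rfl) (H R hR)

/-! ### the frame -/

/-- the domain of the low levels -/
def SqLowX (A d β : ℝ) : Set ((Option IX5 → ℝ) × (Kd → ℝ)) :=
  {q | q ∈ SqLX A d β ∧ q.1 none ≤ low5 (prX (dn q.1))}

/-- the frame of `UB (lev (log 2) S5X) Dq .. (SqLowX A d β) (alL alX)`, gated -/
structure FrLX (A d β δ δ' B X : ℝ) (N : ℕ) (a : BdX × ℕ) (ps : List Pq)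
    (q : (Option IX5 → ℝ) × (Kd → ℝ)) : Prop where
  len : ps.length ≤ N
  lum : ∀ p ∈ ps, Dq.lump p ∨ Dq.nl X p ≤ δ
  dom : q ∈ SqLX A d β
  win : Win (lev (Real.log 2) S5X) q.1 δ N B δ' X a
  mass : ∀ t, |Dq.mass X ps t - q.2 t| ≤ δ
  good : Dq.Good X δ' B ps
  al : ∀ p ∈ ps, Dq.lump p →
    ((lev (Real.log 2) S5X).ev X a, Dq.nl X p) ∈ E5L770.alL ExP960.alX
  /-- the level occurs (helper92) -/
  lvl : a.2 < nL a.1.l (a3 a.1.toBd) a.1.z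
  /-- low levels (helper319) -/
  low : q.1 none ≤ low5 (prX (dn q.1))

/-- helper71's datum and the level -/
def bl (a : BdX × ℕ) : Bd × ℕ := (a.1.toBd, a.2)

variable {Λ : Type*}

section fam

variable (π : Λ → DPar) (h : ℝ → ℝ) (lam : Λ × Eis) (Jf : ℝ → ℝ → ℝ → Finset (Eis × Eis))
  (a : BdX × ℕ) (ps : List Pq) (x : Dt)

/-- the `x`-side of the data -/
def vE (o : x.O π lam Jf (bl a)) : Eis → ℂ :=
  vX (π lam.1).n₃ (fun k => conj ((π lam.1).χ₃ k)) (π lam.1).l₃ (x.I Jf (bl a)) (omL a.2) x.ph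
    (x.E a.1.toBd) (alX (π lam.1) h lam.2 a.1 x.β) x.g x.e₀ x.t x.c₀ x.g' o

/-- the `y`-side of the data, shape `j` -/
def wE (j : Fin 2) (h₁ : FS (b1 (π lam.1) h lam.2 ps)) (h₂ : FS (b2X (π lam.1) h lam.2 a.1 ps j))
    (o : x.O π lam Jf (bl a)) : Eis → ℂ :=
  wX (π lam.1).n₃ (b1 (π lam.1) h lam.2 ps) (b2X (π lam.1) h lam.2 a.1 ps j)
    (h₁.fin.toFinset ×ˢ h₂.fin.toFinset) (x.E a.1.toBd) x.z o

end fam

/-- **the window of the structured part treated by E4** (helper699) -/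
def XLowX (d X : ℝ) (q : (Option IX5 → ℝ) × (Kd → ℝ)) (x : Dt) : Prop :=
  4 * Real.log (nm x.e₀) ≤ (low5 (prX (dn q.1)) - q.1 none + d) * Real.log X ∧
    2 * Real.log (nm (∏ i, x.β i)) ≤ (low5 (prX (dn q.1)) - q.1 none + d) * Real.log X

/-- the number of scales: `e^{3 hE} = (e^l)² / U₀` if positive -/
def hE (P : DPar) (a : BdX × ℕ) (ps : List Pq) (x : Dt) : ℝ :=
  max 0 ((2 * a.1.l - Real.log (U0 P (bl a) ps x)) / 3)

lemma hE_nonneg (P : DPar) (a : BdX × ℕ) (ps : List Pq) (x : Dt) : 0 ≤ hE P a ps x :=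
  le_max_left _ _

variable (π : Λ → DPar) (h : ℝ → ℝ)

/-- **joint block hypothesis at list level**, non-principal frequencies, one switch per scale -/
def JBUX (θ A d β μ e0 r : ℝ) (Bf : ℕ → ℝ → ℝ → ℝ → ℝ) (Jf : ℝ → ℝ → ℝ → Finset (Eis × Eis)) :
    Prop :=
  ∀ ε : ℝ, 0 < ε → ∃ ε' : ℝ, 0 < ε' ∧ ε' ≤ ε ∧ ∃ δ : ℝ, 0 < δ ∧
    ∀ (lam : Λ × Eis) (N : ℕ) (B : ℝ)
    (T : Finset ((Eis → ℂ) × ℤ)), ¬ (π lam.1).CaseD →
    (∀ t ∈ T, TG7 (π lam.1).n₃ 0 t) →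
    ∃ A' : ℝ, 0 ≤ A' ∧ ∃ δ' : ℝ, 0 < δ' ∧ ∃ X₀ : ℝ, 1 < X₀ ∧ ∀ X : ℝ, X₀ ≤ X →
    ∀ (a : BdX × ℕ) (ps : List Pq) (q : (Option IX5 → ℝ) × (Kd → ℝ)),
      FrLX A d β δ δ' B X N a ps q → a.1.ok → lam.2 ∈ SM (π lam.1).n → a.1.okP (π lam.1) →
    ∀ x : Dt, x.OK (π lam.1) (Bf a.2) e0 r ε' X a.1.toBd → XLowX d X q x →
      (x.I Jf (bl a)).Nonempty →
    ∀ (j : Fin 2) (h₁ : FS (b1 (π lam.1) h lam.2 ps))
      (h₂ : FS (b2X (π lam.1) h lam.2 a.1 ps j)),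
    (1 ≤ X ^ ε' * Real.exp a.1.l * Real.exp (-hE (π lam.1) a ps x) →
      JB (π lam.1).n₃ 1 lD (vE π h lam Jf a x) (wE π h lam Jf a ps x j h₁ h₂) (fun _ => 1)
        (rngDC cD (fun _ _ _ _ _ => False) lD
          (X ^ ε' * Real.exp a.1.l * Real.exp (-hE (π lam.1) a ps x)))
        (X ^ (T5 θ (prQ (dn q.1, q.2)) - μ + ε) / (nrm x * Real.exp (a.1.l / 3)))) ∧
    ∀ s : ℝ, 0 ≤ s → s < hE (π lam.1) a ps x →
    ∃ (sw : Eis → Eis → Eis → Eis → Eis → Prop) (T₀ : ℝ), 0 ≤ T₀ ∧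
      (∀ D0 D1 B R Z : Eis, sw D0 D1 B R Z → (nm D1 : ℝ) * nm (rd Z) ≤ 2 * T₀) ∧
      JB (π lam.1).n₃ 1 lD (vE π h lam Jf a x) (wE π h lam Jf a ps x j h₁ h₂) (fun _ => 1)
        (rngDC cD sw lD (X ^ ε' * Real.exp a.1.l * Real.exp (-s)))
        (X ^ (T5 θ (prQ (dn q.1, q.2)) - μ + ε) / (nrm x * Real.exp (a.1.l / 3))) ∧
      ∀ t ∈ T, ∀ ξ : ℝ,
        JB (π lam.1).n₃ 1 lD (vE π h lam Jf a x) (wE π h lam Jf a ps x j h₁ h₂)
          (gx t.1 t.2 ξ)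
          (rngFC cD sw lD
            (X ^ ε' * (U0 (π lam.1) (bl a) ps x / (Real.exp a.1.l * Real.exp (-s)))))
          ((1 + |ξ|) ^ A' *
            (X ^ (T5 θ (prQ (dn q.1, q.2)) - μ + ε) / (nrm x * Real.exp (a.1.l / 3))))

/-- **polar terms at list level** -/
def MnUX (θ A d β μ e0 r : ℝ) (Bf : ℕ → ℝ → ℝ → ℝ → ℝ)
    (Jf : ℝ → ℝ → ℝ → Finset (Eis × Eis)) : Prop :=
  ∀ ε : ℝ, 0 < ε → ∃ ε' : ℝ, 0 < ε' ∧ ε' ≤ ε ∧ ∃ δ : ℝ, 0 < δ ∧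
    ∀ (lam : Λ × Eis) (N : ℕ) (B R : ℝ) (Pm : Finset Eis),
    0 < R → ¬ (π lam.1).CaseD → (∀ m ∈ Pm, PG (π lam.1).n₃ 0 m) →
    ∃ δ' : ℝ, 0 < δ' ∧ ∃ X₀ : ℝ, 1 < X₀ ∧ ∀ X : ℝ, X₀ ≤ X →
    ∀ (a : BdX × ℕ) (ps : List Pq) (q : (Option IX5 → ℝ) × (Kd → ℝ)),
      FrLX A d β δ δ' B X N a ps q → a.1.ok → lam.2 ∈ SM (π lam.1).n → a.1.okP (π lam.1) →
    ∀ x : Dt, x.OK (π lam.1) (Bf a.2) e0 r ε' X a.1.toBd → XLowX d X q x →
      (x.I Jf (bl a)).Nonempty →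
    0 < hE (π lam.1) a ps x →
    ∀ (j : Fin 2) (h₁ : FS (b1 (π lam.1) h lam.2 ps))
      (h₂ : FS (b2X (π lam.1) h lam.2 a.1 ps j)),
    ∀ m ∈ Pm, ∀ T₀ : ℝ, 0 ≤ T₀ →
      HM5 (π lam.1).n₃ 1 lD (vE π h lam Jf a x) (wE π h lam Jf a ps x j h₁ h₂)
        (R * Real.exp a.1.l) T₀ (mtr (some m))
        (X ^ (T5 θ (prQ (dn q.1, q.2)) - μ + ε) * Real.exp (2 / 3 * a.1.l) / nrm x)

/-- **principal numbers at list level** (dual and direct) -/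
def PrUX (θ A d β μ e0 r : ℝ) (Bf : ℕ → ℝ → ℝ → ℝ → ℝ)
    (Jf : ℝ → ℝ → ℝ → Finset (Eis × Eis)) : Prop :=
  ∀ ε : ℝ, 0 < ε → ∃ ε' : ℝ, 0 < ε' ∧ ε' ≤ ε ∧ ∃ δ : ℝ, 0 < δ ∧
    ∀ (lam : Λ × Eis) (N : ℕ) (B : ℝ), ¬ (π lam.1).CaseD →
    ∃ δ' : ℝ, 0 < δ' ∧ ∃ X₀ : ℝ, 1 < X₀ ∧ ∀ X : ℝ, X₀ ≤ X →
    ∀ (a : BdX × ℕ) (ps : List Pq) (q : (Option IX5 → ℝ) × (Kd → ℝ)),
      FrLX A d β δ δ' B X N a ps q → a.1.ok → lam.2 ∈ SM (π lam.1).n → a.1.okP (π lam.1) →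
    ∀ x : Dt, x.OK (π lam.1) (Bf a.2) e0 r ε' X a.1.toBd → XLowX d X q x →
      (x.I Jf (bl a)).Nonempty →
    0 < hE (π lam.1) a ps x →
    ∀ (j : Fin 2) (h₁ : FS (b1 (π lam.1) h lam.2 ps))
      (h₂ : FS (b2X (π lam.1) h lam.2 a.1 ps j)),
      MpY 1 cD lD (vE π h lam Jf a x) (wE π h lam Jf a ps x j h₁ h₂) (Real.exp a.1.l)
          (hE (π lam.1) a ps x) ≤
        X ^ (T5 θ (prQ (dn q.1, q.2)) - μ + ε) * Real.exp (2 / 3 * a.1.l) / nrm x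

end Crest.Agent.R017.E4Df372
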