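import Crest.Agent.R017.StrD_699
import Crest.Agent.R017.E4Xc_372
import Crest.Agent.R017.E4He_918

/-!
# Row 17, T.3, `StrUX`: the two inputs of `XRUX` (helper372)

helper699's `StrD` for the exceptional class, many scales.

* `TmG` : the real side of one term, fifth argument `sc` = the scale
* `VxE` : the exponent of the `x`-side with helper918's `T`-number `tE`
* `TermUX` : the real side of the terms;  `XNumUX` : the number of the `x`-side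
-/

set_option autoImplicit false

noncomputable section

open Finset Complex
open scoped ComplexConjugate

namespace Crest.Agent.R017.E4Df372

open Crest.Agent.R012 Crest.Agent.R012.Eis
open Crest.Agent.R012.Mob705 hiding pb mem_pb
open Crest.Agent.R017.Sx545 (Sm)
open Crest.Agent.R017.CM106 (FS CS)
open Crest.Agent.R017.FE47 (PU SM)
open Crest.Agent.R017.B770
open Crest.Agent.R017.Prov71
open Crest.Agent.R017.Rough381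
open Crest.Agent.R017.E4352 (PrI Dat4 rd)
open Crest.Agent.R017.E5B71
open Crest.Agent.R017.E5L770
open Crest.Agent.R017.ExP960 hiding alX
open Crest.Agent.R017.E4D164 hiding E4L
open Crest.Agent.R017.E4J352
open Crest.Agent.R017.E4U164
open Crest.Agent.R017.E4X266 (PrC rngDC rngFC)
open Crest.Agent.R017.E4R70
open Crest.Agent.R017.Hg918 hiding ClX GoalX
open Crest.Agent.R017.He918 (ClXEX GoalEX)
open Crest.Agent.R017.Nm918 (Near)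
open Crest.Agent.R017.E4RH858 (Pf pf wP be1 be2 kl)
open Crest.Agent.R017.E4Dic352
open Crest.Agent.R017.E4F858 (R1S R2S m1S m2S)
open Crest.Agent.R017.JxL679 (NatS)
open Crest.Agent.R017.XSd512 (XMo)
open Crest.Agent.R017.YsU61
open Crest.Agent.R017.StrD699 (zT)

/-- the exponent of the `x`-side (units of the family), without the closer, class E -/
def VxE (z : Cls) (N u : ℝ) : ℝ := z.tE N u - (z.v + z.us) / 3 - (N - z.β) / 3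

section

variable {Λ : Type*} (π : Λ → DPar) (h : ℝ → ℝ)

/-- **the real side of one term at the scale `sc`** -/
def TmG (θ d μ η ρ X : ℝ) {Jf : ℝ → ℝ → ℝ → Finset (Eis × Eis)} (lam : Λ × Eis) (a : BdX × ℕ)
    (ps : List Pq) (q : (Option IX5 → ℝ) × (Kd → ℝ)) (x : Dt) (t : Tm (x.O π lam Jf (bl a)))
    (sc : ℝ) : Prop :=
  ∀ f1 f2 f3 D1' Z'' l' m : Eis,
    Spl (π lam.1).n₃ (fN (π lam.1).n₃ (x.E a.1.toBd)) x.z t f1 f2 f3 D1' Z'' l' m →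
    Real.log (nm l') + Real.log (nm D1') ≤ Ls (amL ps) + ρ * Real.log X →
    Real.log (nm m) ≤ (a.1.us 0).z + (a.1.us 1).z + Ls (moL ps) + ρ * Real.log X →
    ∃ z' : Cls,
      Near η (zT (cκ (prX (dn q.1)) * Real.log X) a.2 x (fN (π lam.1).n₃ (x.E a.1.toBd)) t f1 f2
        D1' l' m sc) z' ∧
      z'.Ok d (1 / cκ (prX (dn q.1))) (cN (prX (dn q.1)) / cκ (prX (dn q.1)))
        (cM (prX (dn q.1)) / cκ (prX (dn q.1))) (q.2 .mo / cκ (prX (dn q.1)))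
        (q.2 .am / cκ (prX (dn q.1))) (cx' (prX (dn q.1)) / cκ (prX (dn q.1))) ∧
      z'.ky ≤ 1 ∧
      GoalEX (cκ (prX (dn q.1))) z' d (cN (prX (dn q.1)) / cκ (prX (dn q.1)))
        (cM (prX (dn q.1)) / cκ (prX (dn q.1))) (cu (prX (dn q.1)) 4 / cκ (prX (dn q.1)))
        (q.2 .mo / cκ (prX (dn q.1))) (q.2 .am / cκ (prX (dn q.1)))
        (2 * T5 θ (prQ (dn q.1, q.2)) - 2 * μ -
          cκ (prX (dn q.1)) * (2 / 3 * d * z'.N1 (cN (prX (dn q.1)) / cκ (prX (dn q.1)))))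

/-- **the real side of the terms**, class E: the direct block at the last scale, and both blocks
at every scale before it -/
def TermUX (θ A d β μ e0 r : ℝ) (Bf : ℕ → ℝ → ℝ → ℝ → ℝ) (Jf : ℝ → ℝ → ℝ → Finset (Eis × Eis)) :
    Prop :=
  ∀ η : ℝ, 0 < η → ∃ δ₃ : ℝ, 0 < δ₃ ∧ ∀ ρ ε' δ : ℝ, 0 < ρ → ρ ≤ δ₃ → 0 < ε' → ε' ≤ δ₃ →
    0 < δ → δ ≤ δ₃ →
    ∀ (lam : Λ × Eis) (N : ℕ) (B : ℝ), ¬ (π lam.1).CaseD →
    ∃ δ' : ℝ, 0 < δ' ∧ ∃ X₀ : ℝ, 1 < X₀ ∧ ∀ X : ℝ, X₀ ≤ X →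
    ∀ (a : BdX × ℕ) (ps : List Pq) (q : (Option IX5 → ℝ) × (Kd → ℝ)),
      FrLX A d β δ δ' B X N a ps q → a.1.ok → lam.2 ∈ SM (π lam.1).n → a.1.okP (π lam.1) →
    ∀ x : Dt, x.OK (π lam.1) (Bf a.2) e0 r ε' X a.1.toBd → XLowX d X q x →
      (x.I Jf (bl a)).Nonempty →
    ∀ (j : Fin 2) (h₁ : FS (b1 (π lam.1) h lam.2 ps))
      (h₂ : FS (b2X (π lam.1) h lam.2 a.1 ps j)),
    (1 ≤ X ^ ε' * Real.exp a.1.l * Real.exp (-hE (π lam.1) a ps x) →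
      ∀ (G : Eis → ℂ) (t : Tm (x.O π lam Jf (bl a))), t.OK (π lam.1).n₃ 1 →
        t.val 1 lD (vE π h lam Jf a x) (wE π h lam Jf a ps x j h₁ h₂) G ≠ 0 →
        rngDC cD (fun _ _ _ _ _ => False) lD
          (X ^ ε' * Real.exp a.1.l * Real.exp (-hE (π lam.1) a ps x)) t →
        TmG π θ d μ η ρ X lam a ps q x t (hE (π lam.1) a ps x)) ∧
    ∀ s : ℝ, 0 ≤ s → s < hE (π lam.1) a ps x →
    ∃ (sw : Eis → Eis → Eis → Eis → Eis → Prop) (T₀ : ℝ), 0 ≤ T₀ ∧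
      (∀ D0 D1 B R Z : Eis, sw D0 D1 B R Z → (nm D1 : ℝ) * nm (rd Z) ≤ 2 * T₀) ∧
      ∀ (G : Eis → ℂ) (t : Tm (x.O π lam Jf (bl a))), t.OK (π lam.1).n₃ 1 →
        t.val 1 lD (vE π h lam Jf a x) (wE π h lam Jf a ps x j h₁ h₂) G ≠ 0 →
        (rngDC cD sw lD (X ^ ε' * Real.exp a.1.l * Real.exp (-s)) t ∨
          rngFC cD sw lD
            (X ^ ε' * (U0 (π lam.1) (bl a) ps x / (Real.exp a.1.l * Real.exp (-s)))) t) →
        TmG π θ d μ η ρ X lam a ps q x t s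

/-- **the number of the `x`-side of one block**, class E; `sc` is free -/
def XNumUX (A d β e0 r : ℝ) (Bf : ℕ → ℝ → ℝ → ℝ → ℝ) (Jf : ℝ → ℝ → ℝ → Finset (Eis × Eis)) :
    Prop :=
  ∀ ε : ℝ, 0 < ε → ∃ η : ℝ, 0 < η ∧
    ∀ (lam : Λ × Eis) (N : ℕ) (B : ℝ) (T : Finset ((Eis → ℂ) × ℤ)), ¬ (π lam.1).CaseD →
    (∀ tt ∈ T, TwOK (π lam.1) tt) →
    ∃ (M₁ : ℕ) (δ' : ℝ), 0 < δ' ∧ ∃ X₀ : ℝ, 1 < X₀ ∧ ∀ X : ℝ, X₀ ≤ X →
    ∀ δ ε' : ℝ, δ ≤ η → ε' ≤ η →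
    ∀ (a : BdX × ℕ) (ps : List Pq) (q : (Option IX5 → ℝ) × (Kd → ℝ)),
      FrLX A d β δ δ' B X N a ps q → a.1.ok → lam.2 ∈ SM (π lam.1).n → a.1.okP (π lam.1) →
    ∀ x : Dt, x.OK (π lam.1) (Bf a.2) e0 r ε' X a.1.toBd → XLowX d X q x →
      (x.I Jf (bl a)).Nonempty →
    ∀ (j : Fin 2) (h₁ : FS (b1 (π lam.1) h lam.2 ps))
      (h₂ : FS (b2X (π lam.1) h lam.2 a.1 ps j)),
    ∀ tt ∈ T, ∀ (ξ : ℝ) (G : Eis → ℂ), (∀ y, Sm (π lam.1).n₃ y → G y = gx tt.1 tt.2 ξ y) →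
    ∀ (c : E4J352.Win) (P : Pf) (β₀ : Eis) (τ : Eis × Eis × Eis)
      (𝒥 : Finset (Tm (x.O π lam Jf (bl a)))),
      (∀ t ∈ 𝒥, t.OK (π lam.1).n₃ 1 ∧
        t.val 1 lD (vE π h lam Jf a x) (wE π h lam Jf a ps x j h₁ h₂) G ≠ 0 ∧ t.In lD c ∧
        pf t = P ∧ bo3 t = β₀ ∧ soL x (fN (π lam.1).n₃ (x.E a.1.toBd)) t = τ) →
    ∀ Oc : Finset (x.O π lam Jf (bl a)), (∀ o, o ∈ Oc ↔ ∃ t ∈ 𝒥, t.o = o) →
    ∀ t ∈ 𝒥, ∀ f1 f2 f3 D1' Z'' l' m : Eis,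
      Spl (π lam.1).n₃ (fN (π lam.1).n₃ (x.E a.1.toBd)) x.z t f1 f2 f3 D1' Z'' l' m →
    ∀ (z' : Cls) (sc mx ex : ℝ),
      Near η (zT (cκ (prX (dn q.1)) * Real.log X) a.2 x (fN (π lam.1).n₃ (x.E a.1.toBd)) t f1 f2
        D1' l' m sc) z' →
      z'.Ok d (1 / cκ (prX (dn q.1))) (cN (prX (dn q.1)) / cκ (prX (dn q.1)))
        (cM (prX (dn q.1)) / cκ (prX (dn q.1))) (q.2 .mo / cκ (prX (dn q.1)))
        (q.2 .am / cκ (prX (dn q.1))) (cx' (prX (dn q.1)) / cκ (prX (dn q.1))) →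
      z'.ky ≤ 1 → 0 ≤ mx → mx ≤ 2 →
      ClXEX (cκ (prX (dn q.1))) z' d (cN (prX (dn q.1)) / cκ (prX (dn q.1)))
        (cu (prX (dn q.1)) 4 / cκ (prX (dn q.1))) mx ex →
    ∀ t' ∈ 𝒥, ∀ Bm : ℝ, 1 ≤ Bm → Bm ≤ X ^ (mx + η) →
      ∀ Bd : ℝ, Bd = ((1 + |ξ|) ^ M₁) ^ 2 * X ^ (cκ (prX (dn q.1)) * (z'.k + 2 * z'.lam) +
        (cκ (prX (dn q.1)) * VxE z' (cN (prX (dn q.1)) / cκ (prX (dn q.1)))
          (cu (prX (dn q.1)) 4 / cκ (prX (dn q.1))) +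
          cκ (prX (dn q.1)) * (2 / 3 * d * z'.N1 (cN (prX (dn q.1)) / cκ (prX (dn q.1)))) +
          ex + ε)) →
      (mx = 0 → XMo (π lam.1).n₃ (vE π h lam Jf a x) G P Oc c.nkk
        (fun k => kl (x.g * x.e₀ * x.t) k = τ.1) t'.D1 (E4RH858.b1 t') (fun _ _ => 1) ≤ Bd) ∧
      (∀ bm : x.O π lam Jf (bl a) → Eis → ℂ, (∀ o ∈ Oc, NatS Bm (X ^ η * Bm) (bm o)) →
        XMo (π lam.1).n₃ (vE π h lam Jf a x) G P Oc c.nkk
          (fun k => kl (x.g * x.e₀ * x.t) k = τ.1) t'.D1 (E4RH858.b1 t')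
          (fun o k => ‖CS (bm o) k‖ ^ 2) ≤ Bd)

end

end Crest.Agent.R017.E4Df372
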