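import Crest.Agent.R017.E4SbE_266
import Crest.Agent.R017.E4Ge_918
import Crest.Agent.R017.Rough3_381
import Crest.Agent.R017.StrDE_372

/-!
# Row 17, StrUX: the real side of one term (helper352, after helper266)

helper352's `E4Sf` at the data of class E.

* `coreE` : the nominal class of one term, one scale, from helper918's `termUE`
* `TmS`, `TermSX` : the text (helper372's `TmG`, `TermUX` with `zTr`);  `termSX_of`
* `termUX_of` : helper372's `TermUX`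
-/

set_option autoImplicit false
set_option linter.unusedSectionVars false

noncomputable section

open Finset Complex
open scoped ComplexConjugate

namespace Crest.Agent.R017.E4Sx352

open Crest.Agent.R012 Crest.Agent.R012.Eis
open Crest.Agent.R012.Mob705 hiding pb mem_pb kap
open Crest.Agent.R017.Sx545 (Sm)
open Crest.Agent.R017.CM106 (FS)
open Crest.Agent.R017.C70
open Crest.Agent.R017.FE47 (SM)
open Crest.Agent.R017.Prov71 Crest.Agent.R017.E5B71 Crest.Agent.R017.E4D164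
open Crest.Agent.R017.B770 (DPar)
open Crest.Agent.R017.Rough381 (Ls)
open Crest.Agent.R017.E5L770
open Crest.Agent.R017.E5LX770 (SqLX)
open Crest.Agent.R017.ExP960 hiding alX
open Crest.Agent.R017.E4U164
open Crest.Agent.R017.E4Df372
open Crest.Agent.R017.E4352 (PrI rd)
open Crest.Agent.R017.E4J352 (Tm rngD rngF)
open Crest.Agent.R017.E4X266 (rngDC rngFC)
open Crest.Agent.R017.E4RH858
open Crest.Agent.R017.E4Dic352
open Crest.Agent.R017.Str699 (b3 n3 nu0 mlam)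
open Crest.Agent.R017.E4R70 (Cls topK)
open Crest.Agent.R017.Nm918 (OkT Near)
open Crest.Agent.R017.He918 (GoalEX)
open Crest.Agent.R017.Gl918 (Nrm)
open Crest.Agent.R017.Ge918 (E4DE E4FE)
open Crest.Agent.R017.Bx918 (top9)
open Crest.Agent.R017.E4St352
open Crest.Agent.R017.E4SE266

variable {Λ : Type*} {π : Λ → DPar} {h : ℝ → ℝ} {lam : Λ × Eis}
  {Jf : ℝ → ℝ → ℝ → Finset (Eis × Eis)}
  {a : BdX × ℕ} {x : Dt} {e0 r X : ℝ}

/-- the switch of a scale -/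
def swE (X : ℝ) (q : (Option IX5 → ℝ) × (Kd → ℝ)) (i : ℕ) (x : Dt) (s : ℝ) :
    Eis → Eis → Eis → Eis → Eis → Prop :=
  swU (swT (Real.log X) (cκ (prX (dn q.1))) (cN (prX (dn q.1))) (cM (prX (dn q.1)))
    (q.2 .mo) (q.2 .am) s i x)

/-- **the nominal class of a term**: direct or dual block of the scale `s`, or last direct block
(`s = hE`) -/
theorem coreE (hP : ∀ lam, (π lam).OK) (HD : E4DE) (HF : E4FE) {A d β : ℝ}
    {Bf : ℕ → ℝ → ℝ → ℝ → ℝ} (hd : 0 ≤ d) (hd1 : d ≤ 1 / 8) (hA : A ≤ 1)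
    (hA1 : 16 * (1 - A) ≤ d) (he1 : 64 * e0 ≤ 1)
    (hBf : ∀ i l N z, Bf i l N z ≤ bfO l N z) (hJf : ∀ l N z, OKJ (Jf l N z))
    {τ δ δ' B ρ ε' : ℝ} {N : ℕ} (hτ : 0 < τ) (hτ1 : τ ≤ 1 / 240) (hδ : 0 ≤ δ) (hδτ : 4 * δ ≤ τ)
    (hετ : 2 * ε' ≤ τ) (hρτ : ρ ≤ τ) (hε : 0 < ε') {μ : ℝ} (hμ : 2 * μ ≤ 4 / 9 * d) {ps : List Pq}
    {q : (Option IX5 → ℝ) × (Kd → ℝ)} (hX : 1 < X) (h28 : 28 * Real.log 2 ≤ τ * Real.log X)
    (hF : FrLX A d β δ δ' B X N a ps q) (hok : a.1.ok) (hokP : a.1.okP (π lam.1))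
    (hx : x.OK (π lam.1) (Bf a.2) e0 r ε' X a.1.toBd) (hxl : XLowX d X q x) {j : Fin 2}
    {h₁ : FS (b1 (π lam.1) h lam.2 ps)} {h₂ : FS (b2X (π lam.1) h lam.2 a.1 ps j)} {G : Eis → ℂ}
    {t : Tm (x.O π lam Jf (bl a))} (hf : Facts (π lam.1).n₃ t) (ht : t.OK (π lam.1).n₃ 1)
    (hv : t.val 1 lD (vE π h lam Jf a x) (wE π h lam Jf a ps x j h₁ h₂) G ≠ 0) {s : ℝ}
    (hs : 0 ≤ s)
    (hr : (rngD (swE X q a.2 x s) lD (X ^ ε' * Real.exp a.1.l * Real.exp (-s)) t ∨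
        rngF (swE X q a.2 x s) lD
          (X ^ ε' * (U0 (π lam.1) (bl a) ps x / (Real.exp a.1.l * Real.exp (-s)))) t) ∨
      (s = hE (π lam.1) a ps x ∧ ∃ sw, rngD sw lD
        (X ^ ε' * Real.exp a.1.l * Real.exp (-hE (π lam.1) a ps x)) t))
    {f1 f2 f3 D1' Z'' l' m : Eis}
    (hsp : Spl (π lam.1).n₃ (fN (π lam.1).n₃ (x.E a.1.toBd)) x.z t f1 f2 f3 D1' Z'' l' m)
    (h3 : Real.log (nm l') + Real.log (nm D1') ≤ Ls (amL ps) + ρ * Real.log X)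
    (h4 : Real.log (nm m) ≤ (a.1.us 0).z + (a.1.us 1).z + Ls (moL ps) + ρ * Real.log X) :
    ∃ z' : Cls,
      Near (100 * (6 * τ)) (zTr (cκ (prX (dn q.1)) * Real.log X) a.2 x
        (fN (π lam.1).n₃ (x.E a.1.toBd)) t f1 f2 D1' l' m s) z' ∧
      z'.Ok d (1 / cκ (prX (dn q.1))) (cN (prX (dn q.1)) / cκ (prX (dn q.1)))
        (cM (prX (dn q.1)) / cκ (prX (dn q.1))) (q.2 .mo / cκ (prX (dn q.1)))
        (q.2 .am / cκ (prX (dn q.1))) (cx' (prX (dn q.1)) / cκ (prX (dn q.1))) ∧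
      z'.ky ≤ 1 ∧
      GoalEX (cκ (prX (dn q.1))) z' d (cN (prX (dn q.1)) / cκ (prX (dn q.1)))
        (cM (prX (dn q.1)) / cκ (prX (dn q.1))) (cu (prX (dn q.1)) 4 / cκ (prX (dn q.1)))
        (q.2 .mo / cκ (prX (dn q.1))) (q.2 .am / cκ (prX (dn q.1)))
        (2 * T5 (7 / 8 + d) (prQ (dn q.1, q.2)) - 2 * μ -
          cκ (prX (dn q.1)) * (2 / 3 * d * z'.N1 (cN (prX (dn q.1)) / cκ (prX (dn q.1))))) := by
  have hX0 : 0 < X := by linarith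
  have hL : 0 < Real.log X := Real.log_pos hX
  have S : Sq5 A d (prX (dn q.1)) q.2 := hF.dom.1.1
  have hv0 : 0 ≤ q.1 none := hF.dom.2.1
  have V : FrV δ (Real.log X) (bl a) ps (qX q) := frVX hF hX
  have hn : (π lam.1).n₃ ≠ 0 := (hP lam.1).χ₃.q0
  have hκ := S.toNr5.κ0
  have hκ0 := S.κpos
  have hG : 0 < cκ (prX (dn q.1)) * Real.log X := mul_pos hκ0 hL
  have hτL : 0 ≤ τ * Real.log X := mul_nonneg hτ.le hL.le
  have hρL : ρ * Real.log X ≤ τ * Real.log X :=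
    mul_le_mul_of_nonneg_right (by linarith) hL.le
  have hl : lg l' + lg D1' ≤ lam' ps + τ * Real.log X := by
    have e : lam' ps = Ls (amL ps) := rfl
    rw [e]
    unfold lg
    linarith
  have hm : lg m ≤ lmo a.1.toBd ps + τ * Real.log X := by
    have e : lmo a.1.toBd ps = (a.1.us 0).z + (a.1.us 1).z + Ls (moL ps) := by
      unfold lmo bs2 Ls
      rw [List.map_cons, List.map_cons, List.sum_cons, List.sum_cons, add_assoc]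
    rw [e]
    unfold lg
    linarith
  have T := trN_ofE hJf V S.toNr5 hL hδ (by linarith) (by linarith) h28 hok hokP hn hx
    (hBf _ _ _ _) he1 hf ht hv hsp hl hm hs
  obtain ⟨z, hz⟩ : ∃ z, z = zTr (cκ (prX (dn q.1)) * Real.log X) a.2 x
    (fN (π lam.1).n₃ (x.E a.1.toBd)) t f1 f2 D1' l' m s := ⟨_, rfl⟩
  have hdκ : d ≤ cκ (prX (dn q.1)) * (9 / 8 * d) := by nlinarith
  have k1 : 4 * z.s ≤ topK (cN (prX (dn q.1)) / cκ (prX (dn q.1)))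
      (cx' (prX (dn q.1)) / cκ (prX (dn q.1))) - z.v + 9 / 8 * d + 6 * τ := by
    rw [hz]
    exact lvl_of (q := qX q) V hX rfl hκ (by linarith) hdκ hxl.1
  have k2 : 2 * z.β ≤ topK (cN (prX (dn q.1)) / cκ (prX (dn q.1)))
      (cx' (prX (dn q.1)) / cκ (prX (dn q.1))) - z.v + 9 / 8 * d + 6 * τ := by
    rw [hz]
    exact lvl_of (q := qX q) V hX rfl hκ (by linarith) hdκ hxl.2
  have k3 : z.v ≤ q.1 none / cκ (prX (dn q.1)) + 6 * τ := by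
    rw [hz]
    show Real.log 2 * a.2 / (cκ (prX (dn q.1)) * Real.log X) ≤ _
    rw [div_le_iff₀ hG]
    have e1 : Real.log 2 * a.2 - q.1 none * Real.log X ≤ δ * Real.log X := (abs_le.mp V.v).2
    have e2 : (q.1 none / cκ (prX (dn q.1)) + 6 * τ) * (cκ (prX (dn q.1)) * Real.log X) =
        q.1 none * Real.log X + 6 * (cκ (prX (dn q.1)) * (τ * Real.log X)) := by
      field_simp
    have e3 : δ * Real.log X ≤ τ * Real.log X :=
      mul_le_mul_of_nonneg_right (by linarith) hL.le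
    rw [e2]
    nlinarith
  have hnr : Nrm (prX (dn q.1)) q.2 (1 / cκ (prX (dn q.1)))
      (cN (prX (dn q.1)) / cκ (prX (dn q.1))) (cM (prX (dn q.1)) / cκ (prX (dn q.1)))
      (cu (prX (dn q.1)) 4 / cκ (prX (dn q.1))) (q.2 .mo / cκ (prX (dn q.1)))
      (q.2 .am / cκ (prX (dn q.1))) (cx' (prX (dn q.1)) / cκ (prX (dn q.1))) :=
    ⟨rfl, rfl, rfl, rfl, rfl, rfl, rfl⟩
  have hδτ' : δ ≤ τ := by linarith
  have hετ' : ε' ≤ τ := by linarith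
  rw [← hz]
  have main : ∃ z' : Cls, Near (100 * (6 * τ)) z z' ∧
      z'.Ok d (1 / cκ (prX (dn q.1))) (cN (prX (dn q.1)) / cκ (prX (dn q.1)))
        (cM (prX (dn q.1)) / cκ (prX (dn q.1))) (q.2 .mo / cκ (prX (dn q.1)))
        (q.2 .am / cκ (prX (dn q.1))) (cx' (prX (dn q.1)) / cκ (prX (dn q.1))) ∧
      z'.ky ≤ 1 ∧ GoalEX (cκ (prX (dn q.1))) z' d (cN (prX (dn q.1)) / cκ (prX (dn q.1)))
        (cM (prX (dn q.1)) / cκ (prX (dn q.1))) (cu (prX (dn q.1)) 4 / cκ (prX (dn q.1)))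
        (q.2 .mo / cκ (prX (dn q.1))) (q.2 .am / cκ (prX (dn q.1)))
        (2 * T5 (7 / 8 + d) (prX (dn q.1), q.2) - cκ (prX (dn q.1)) * (11 / 10 * d)) := by
    rcases hr with (hr | hr) | ⟨hse, sw, hr⟩
    · obtain ⟨g1, g2, g3, g4⟩ := termDE hJf V hX S.toNr5 hτ.le hδτ' hετ'
        hF.low hok hokP hx hf ht T hr hz k1 k2
      exact Ge918.termUE HD HF hd hd1 hA hA1 S hv0 hF.low hnr (by linarith) (by linarith) g1 k3
        (Or.inl ⟨g3, g4⟩)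
    · obtain ⟨g1, g2, g3, g4⟩ := termFE hJf V hX S.toNr5 hτ.le hδτ hετ hn
        hF.low hok hokP hx hf ht T hr hz k1 k2
      exact Ge918.termUE HD HF hd hd1 hA hA1 S hv0 hF.low hnr (by linarith) (by linarith) g1 k3
        (Or.inr ⟨g3, g4⟩)
    · subst hse
      obtain ⟨g1, g2, g3, g4⟩ := termHE hJf V hX S.toNr5 hτ.le hδτ hετ' hn
        hF.low hok hokP hx hf ht T hr hz k1 k2
      exact Ge918.termUE HD HF hd hd1 hA hA1 S hv0 hF.low hnr (by linarith) (by linarith) g1 k3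
        (Or.inl ⟨g3, g4⟩)
  obtain ⟨z', m1, m2, m3, m4⟩ := main
  have hN1 : 103 * z'.N1 (cN (prX (dn q.1)) / cκ (prX (dn q.1))) ≤ 84 := by
    have e1 := (Gl918.box hd hd1 hA hA1 S hv0 hF.low hnr).N84
    have e2 := m2.β
    have e3 := m2.s
    unfold Cls.N1
    linarith
  have hls := Gl918.loss_ok (T := 2 * T5 (7 / 8 + d) (prX (dn q.1), q.2)) hd hκ hN1
  refine ⟨z', m1, m2, m3, ?_⟩
  obtain ⟨y, ex, ey, κ', g1, g2, g3, g4, g5, g6, g7⟩ := m4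
  refine ⟨y, ex, ey, κ', g1, g2, g3, g4, g5, g6, g7.trans ?_⟩
  have e : prQ (dn q.1, q.2) = (prX (dn q.1), q.2) := rfl
  rw [e]
  linarith

/-! ### the text -/

/-- **the nominal class of a term** (helper372's `TmG`) -/
def TmS (π : Λ → DPar) (θ d μ η ρ X : ℝ) (lam : Λ × Eis) (a : BdX × ℕ) (ps : List Pq)
    (q : (Option IX5 → ℝ) × (Kd → ℝ)) (x : Dt) {OO : Finset (Eis × Eis)} (t : Tm OO) (sc : ℝ) :
    Prop :=
  ∀ f1 f2 f3 D1' Z'' l' m : Eis,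
    Spl (π lam.1).n₃ (fN (π lam.1).n₃ (x.E a.1.toBd)) x.z t f1 f2 f3 D1' Z'' l' m →
    Real.log (nm l') + Real.log (nm D1') ≤ Ls (amL ps) + ρ * Real.log X →
    Real.log (nm m) ≤ (a.1.us 0).z + (a.1.us 1).z + Ls (moL ps) + ρ * Real.log X →
    ∃ z' : Cls,
      Near η (zTr (cκ (prX (dn q.1)) * Real.log X) a.2 x (fN (π lam.1).n₃ (x.E a.1.toBd)) t
        f1 f2 D1' l' m sc) z' ∧
      z'.Ok d (1 / cκ (prX (dn q.1))) (cN (prX (dn q.1)) / cκ (prX (dn q.1)))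
        (cM (prX (dn q.1)) / cκ (prX (dn q.1))) (q.2 .mo / cκ (prX (dn q.1)))
        (q.2 .am / cκ (prX (dn q.1))) (cx' (prX (dn q.1)) / cκ (prX (dn q.1))) ∧
      z'.ky ≤ 1 ∧
      GoalEX (cκ (prX (dn q.1))) z' d (cN (prX (dn q.1)) / cκ (prX (dn q.1)))
        (cM (prX (dn q.1)) / cκ (prX (dn q.1))) (cu (prX (dn q.1)) 4 / cκ (prX (dn q.1)))
        (q.2 .mo / cκ (prX (dn q.1))) (q.2 .am / cκ (prX (dn q.1)))
        (2 * T5 θ (prQ (dn q.1, q.2)) - 2 * μ -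
          cκ (prX (dn q.1)) * (2 / 3 * d * z'.N1 (cN (prX (dn q.1)) / cκ (prX (dn q.1)))))

/-- **the real side of one term**, class E -/
def TermSX (π : Λ → DPar) (h : ℝ → ℝ) (θ A d β μ e0 r : ℝ) (Bf : ℕ → ℝ → ℝ → ℝ → ℝ)
    (Jf : ℝ → ℝ → ℝ → Finset (Eis × Eis)) : Prop :=
  ∀ η : ℝ, 0 < η → ∃ δ₃ : ℝ, 0 < δ₃ ∧ ∀ ρ ε' δ : ℝ, 0 < ρ → ρ ≤ δ₃ → 0 < ε' → ε' ≤ δ₃ →
    0 < δ → δ ≤ δ₃ →
    ∀ (lam : Λ × Eis) (N : ℕ) (B : ℝ), ¬ (π lam.1).CaseD →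
    ∃ δ' : ℝ, 0 < δ' ∧ ∃ X₀ : ℝ, 1 < X₀ ∧ ∀ X : ℝ, X₀ ≤ X →
    ∀ (a : BdX × ℕ) (ps : List Pq) (q : (Option IX5 → ℝ) × (Kd → ℝ)),
      FrLX A d β δ δ' B X N a ps q → a.1.ok → lam.2 ∈ SM (π lam.1).n → a.1.okP (π lam.1) →
    ∀ x : Dt, x.OK (π lam.1) (Bf a.2) e0 r ε' X a.1.toBd → XLowX d X q x →
      (x.I Jf (bl a)).Nonempty →
    ∀ (j : Fin 2) (h₁ : FS (b1 (π lam.1) h lam.2 ps))
      (h₂ : FS (b2X (π lam.1) h lam.2 a.1 ps j)),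
    (1 ≤ X ^ ε' * Real.exp a.1.l * Real.exp (-hE (π lam.1) a ps x) →
      ∀ (G : Eis → ℂ) (t : Tm (x.O π lam Jf (bl a))), t.OK (π lam.1).n₃ 1 →
        t.val 1 lD (vE π h lam Jf a x) (wE π h lam Jf a ps x j h₁ h₂) G ≠ 0 →
        rngDC cD (fun _ _ _ _ _ => False) lD
          (X ^ ε' * Real.exp a.1.l * Real.exp (-hE (π lam.1) a ps x)) t →
        TmS π θ d μ η ρ X lam a ps q x t (hE (π lam.1) a ps x)) ∧
    ∀ s : ℝ, 0 ≤ s → s < hE (π lam.1) a ps x →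
    ∃ (sw : Eis → Eis → Eis → Eis → Eis → Prop) (T₀ : ℝ), 0 ≤ T₀ ∧
      (∀ D0 D1 B R Z : Eis, sw D0 D1 B R Z → (nm D1 : ℝ) * nm (rd Z) ≤ 2 * T₀) ∧
      ∀ (G : Eis → ℂ) (t : Tm (x.O π lam Jf (bl a))), t.OK (π lam.1).n₃ 1 →
        t.val 1 lD (vE π h lam Jf a x) (wE π h lam Jf a ps x j h₁ h₂) G ≠ 0 →
        (rngDC cD sw lD (X ^ ε' * Real.exp a.1.l * Real.exp (-s)) t ∨
          rngFC cD sw lD
            (X ^ ε' * (U0 (π lam.1) (bl a) ps x / (Real.exp a.1.l * Real.exp (-s)))) t) →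
        TmS π θ d μ η ρ X lam a ps q x t s

/-- **`TermSX` holds** -/
theorem termSX_of (hP : ∀ lam, (π lam).OK) (HD : E4DE) (HF : E4FE) {A d β μ : ℝ}
    {Bf : ℕ → ℝ → ℝ → ℝ → ℝ} (hd : 0 ≤ d) (hd1 : d ≤ 1 / 8) (hA : A ≤ 1)
    (hA1 : 16 * (1 - A) ≤ d) (hμ : 2 * μ ≤ 4 / 9 * d) (he1 : 64 * e0 ≤ 1)
    (hBf : ∀ i l N z, Bf i l N z ≤ bfO l N z) (hJf : ∀ l N z, OKJ (Jf l N z))
    (HS : SzUX π h A d β e0 r Bf Jf) : TermSX π h (7 / 8 + d) A d β μ e0 r Bf Jf := by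
  intro η hη
  obtain ⟨τ, hτd⟩ : ∃ τ, τ = min (1 / 240) (η / 600) := ⟨_, rfl⟩
  have hτ : 0 < τ := by rw [hτd]; exact lt_min (by norm_num) (by positivity)
  have hτ1 : τ ≤ 1 / 240 := by rw [hτd]; exact min_le_left _ _
  have hτ2 : τ ≤ η / 600 := by rw [hτd]; exact min_le_right _ _
  refine ⟨τ / 4, by positivity, fun ρ ε' δ hρ hρ' hε hε' hδ hδ' lam N B hD => ?_⟩
  obtain ⟨A0, C0, X₂, hA0, -, hX₂, HS⟩ := HS lam N B 1 one_pos
  refine ⟨1, one_pos, max X₂ (Real.exp (28 * Real.log 2 / τ)),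
    lt_of_lt_of_le hX₂ (le_max_left _ _), ?_⟩
  intro X hX a ps q hF hok hl2 hokP x hx hxl hne j h₁ h₂
  have hX2 : X₂ ≤ X := (le_max_left _ _).trans hX
  have hX3 : Real.exp (28 * Real.log 2 / τ) ≤ X := (le_max_right _ _).trans hX
  have hX1 : 1 < X := hX₂.trans_le hX2
  have hL : 0 < Real.log X := Real.log_pos hX1
  have h28 : 28 * Real.log 2 ≤ τ * Real.log X := by
    have h5 := Real.log_le_log (Real.exp_pos _) hX3
    rw [Real.log_exp, div_le_iff₀ hτ] at h5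
    linarith
  obtain ⟨SF, SD⟩ := HS X hX2 a ps q δ 1 (by linarith) le_rfl hF hok hl2 hokP
  have SD := SD x (hx.mono hX1.le (by linarith)) hne j h₁ h₂
  have main : ∀ (G : Eis → ℂ) (t : Tm (x.O π lam Jf (bl a))), t.OK (π lam.1).n₃ 1 →
      t.val 1 lD (vE π h lam Jf a x) (wE π h lam Jf a ps x j h₁ h₂) G ≠ 0 → ∀ s : ℝ, 0 ≤ s →
      ((rngD (swE X q a.2 x s) lD (X ^ ε' * Real.exp a.1.l * Real.exp (-s)) t ∨
        rngF (swE X q a.2 x s) lD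
          (X ^ ε' * (U0 (π lam.1) (bl a) ps x / (Real.exp a.1.l * Real.exp (-s)))) t) ∨
      (s = hE (π lam.1) a ps x ∧ ∃ sw, rngD sw lD
        (X ^ ε' * Real.exp a.1.l * Real.exp (-hE (π lam.1) a ps x)) t)) →
      TmS π (7 / 8 + d) d μ η ρ X lam a ps q x t s := by
    intro G t ht hv s hs hr f1 f2 f3 D1' Z'' l' m hsp h3 h4
    obtain ⟨z', m1, m2, m3, m4⟩ := coreE hP HD HF hd hd1 hA hA1 he1 hBf hJf hτ hτ1 hδ.le
      (by linarith) (by linarith) (by linarith) hε hμ hX1 h28 hF hok hokP hx hxl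
      (facts SD.dat ht hv) ht hv hs hr hsp h3 h4
    exact ⟨z', m1.mono (by linarith), m2, m3, m4⟩
  refine ⟨fun _ G t ht hv hr => main G t ht hv _ (hE_nonneg _ _ _ _)
    (Or.inr ⟨rfl, _, hr.1⟩), fun s hs hs' => ⟨swE X q a.2 x s, _, ?_, fun _ _ _ _ _ h => swU_T0 h,
    fun G t ht hv hr => main G t ht hv s hs (Or.inl (hr.imp (fun h => h.1) fun h => h.1))⟩⟩
  positivity

/-- **`TermUX`** -/
theorem termUX_of (hP : ∀ lam, (π lam).OK) (HD : E4DE) (HF : E4FE) {A d β μ e0 r : ℝ}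
    {Bf : ℕ → ℝ → ℝ → ℝ → ℝ} {Jf : ℝ → ℝ → ℝ → Finset (Eis × Eis)} (hd : 0 ≤ d)
    (hd1 : d ≤ 1 / 8) (hA : A ≤ 1) (hA1 : 16 * (1 - A) ≤ d) (hμ : 2 * μ ≤ 4 / 9 * d)
    (he1 : 64 * e0 ≤ 1) (hBf : ∀ i l N z, Bf i l N z ≤ bfO l N z)
    (hJf : ∀ l N z, OKJ (Jf l N z)) (HS : SzUX π h A d β e0 r Bf Jf) :
    TermUX π h (7 / 8 + d) A d β μ e0 r Bf Jf :=
  termSX_of hP HD HF hd hd1 hA hA1 hμ he1 hBf hJf HS

end Crest.Agent.R017.E4Sx352
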