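import Crest.Agent.R017.E4Se_352
import Crest.Agent.R017.E4Gm_918
import Crest.Agent.R017.Rough3_381

/-!
# Row 17, StrU: the real side of one term (helper352)

* `TermS` : the text (helper699's `TermU` with `XLow`, `zTr`, helper918's `Near`, `Ok d`)
* `termS_of` : from helper918's `termU` and the lengths of the term
-/

set_option autoImplicit false
set_option linter.unusedSectionVars false

noncomputable section

open Finset Complex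
open scoped ComplexConjugate

namespace Crest.Agent.R017.E4St352

open Crest.Agent.R012 Crest.Agent.R012.Eis
open Crest.Agent.R012.Mob705 hiding pb mem_pb kap
open Crest.Agent.R017.Sx545 (Sm)
open Crest.Agent.R017.CM106 (FS)
open Crest.Agent.R017.C70
open Crest.Agent.R017.FE47 (SM)
open Crest.Agent.R017.Prov71 Crest.Agent.R017.E5B71 Crest.Agent.R017.E4D164
open Crest.Agent.R017.B770 (DPar)
open Crest.Agent.R017.Rough381 (Ls)
open Crest.Agent.R017.E5L770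
open Crest.Agent.R017.E4U164
open Crest.Agent.R017.E4352 (PrI rd)
open Crest.Agent.R017.E4J352 (Tm rngD rngF)
open Crest.Agent.R017.E4RH858
open Crest.Agent.R017.E4Dic352
open Crest.Agent.R017.Str699 (b3 n3 nu0 mlam)
open Crest.Agent.R017.E4R70 (Cls topK)
open Crest.Agent.R017.Nm918 (OkT Near)
open Crest.Agent.R017.Hg918 (GoalX)
open Crest.Agent.R017.Gl918 (E4D E4F Nrm)
open Crest.Agent.R017.Bx918 (top9)

/-- **the real side of one term** -/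
def TermS {Λ : Type*} (π : Λ → DPar) (h : ℝ → ℝ) (θ A d μ e0 r : ℝ) (Bf : ℝ → ℝ → ℝ → ℝ)
    (Jf : ℝ → ℝ → ℝ → Finset (Eis × Eis)) : Prop :=
  ∀ η : ℝ, 0 < η → ∃ δ₃ : ℝ, 0 < δ₃ ∧ ∀ ρ ε' δ : ℝ, 0 < ρ → ρ ≤ δ₃ → 0 < ε' → ε' ≤ δ₃ →
    0 < δ → δ ≤ δ₃ →
    ∀ (lam : Λ × Eis) (N : ℕ) (B : ℝ), ¬ (π lam.1).CaseD →
    ∃ δ' : ℝ, 0 < δ' ∧ ∃ X₀ : ℝ, 1 < X₀ ∧ ∀ X : ℝ, X₀ ≤ X →
    ∀ (a : Bd × ℕ) (ps : List Pq) (q : (Option (Fin 3 ⊕ Fin 5) → ℝ) × (Kd → ℝ)),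
      FrL A d δ δ' B X N a ps q → a.1.ok → lam.2 ∈ SM (π lam.1).n → a.1.okP (π lam.1) →
    ∀ x : Dt, x.OK (π lam.1) Bf e0 r ε' X a.1 → XLow d X q x →
    ∀ (h₁ : FS (b1 (π lam.1) h lam.2 ps)) (h₂ : FS (b2 (π lam.1) h lam.2 a.1 ps)),
    ∃ (sw : Eis → Eis → Eis → Eis → Eis → Prop) (T₀ : ℝ), 0 ≤ T₀ ∧
      (∀ D0 D1 B R Z : Eis, sw D0 D1 B R Z → (nm D1 : ℝ) * nm (rd Z) ≤ 2 * T₀) ∧
      ∀ (G : Eis → ℂ) (t : Tm (x.O π lam Jf a)), t.OK (π lam.1).n₃ 1 →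
        t.val 1 lD (x.v π h lam Jf a) (x.w π h lam Jf a ps h₁ h₂) G ≠ 0 →
        (rngD sw lD (X ^ ε' * Real.exp a.1.l) t ∨
          rngF sw lD (X ^ ε' * (U0 (π lam.1) a ps x / Real.exp a.1.l)) t) →
      ∀ f1 f2 f3 D1' Z'' l' m : Eis,
        Spl (π lam.1).n₃ (fN (π lam.1).n₃ (x.E a.1)) x.z t f1 f2 f3 D1' Z'' l' m →
        Real.log (nm l') + Real.log (nm D1') ≤ Ls (amL ps) + ρ * Real.log X →
        Real.log (nm m) ≤ (a.1.us 0).z + (a.1.us 1).z + Ls (moL ps) + ρ * Real.log X →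
        ∃ z' : Cls,
          Near η (zTr (cκ (dn q.1) * Real.log X) a.2 x (fN (π lam.1).n₃ (x.E a.1)) t f1 f2 D1' l'
            m 0) z' ∧
          z'.Ok d (1 / cκ (dn q.1)) (cN (dn q.1) / cκ (dn q.1)) (cM (dn q.1) / cκ (dn q.1))
            (q.2 .mo / cκ (dn q.1)) (q.2 .am / cκ (dn q.1)) (cx' (dn q.1) / cκ (dn q.1)) ∧
          z'.ky ≤ 1 ∧
          GoalX (cκ (dn q.1)) z' d (cN (dn q.1) / cκ (dn q.1)) (cM (dn q.1) / cκ (dn q.1))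
            (cu (dn q.1) 4 / cκ (dn q.1)) (q.2 .mo / cκ (dn q.1)) (q.2 .am / cκ (dn q.1))
            (2 * T5 θ (dn q.1, q.2) - 2 * μ -
              cκ (dn q.1) * (2 / 3 * d * z'.N1 (cN (dn q.1) / cκ (dn q.1))))

lemma GoalX.mono {κ₀ : ℝ} {z : Cls} {d N M u a c T T' : ℝ} (h : GoalX κ₀ z d N M u a c T)
    (hT : T ≤ T') : GoalX κ₀ z d N M u a c T' := by
  obtain ⟨x, ex, ey, κ, g1, g2, g3, g4, g5, g6, g7⟩ := h
  exact ⟨x, ex, ey, κ, g1, g2, g3, g4, g5, g6, g7.trans hT⟩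

theorem termS_of {Λ : Type*} {π : Λ → DPar} {h : ℝ → ℝ} (hP : ∀ lam, (π lam).OK)
    (HD : E4D) (HF : E4F) {A d μ e0 r : ℝ} {Bf : ℝ → ℝ → ℝ → ℝ}
    {Jf : ℝ → ℝ → ℝ → Finset (Eis × Eis)} (hd : 0 ≤ d) (hd1 : d ≤ 1 / 8) (hA : A ≤ 1)
    (hA1 : 16 * (1 - A) ≤ d) (hμ : 2 * μ ≤ 4 / 9 * d) (he1 : 64 * e0 ≤ 1)
    (hBf : ∀ l N z, Bf l N z ≤ bfO l N z) (hJf : ∀ l N z, OKJ (Jf l N z))
    (HS : SzU π h A d e0 r Bf Jf) : TermS π h (7 / 8 + d) A d μ e0 r Bf Jf := by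
  intro η hη
  obtain ⟨τ, hτd⟩ : ∃ τ, τ = min (1 / 240) (η / 600) := ⟨_, rfl⟩
  have hτ : 0 < τ := by rw [hτd]; exact lt_min (by norm_num) (by positivity)
  have hτ1 : τ ≤ 1 / 240 := by rw [hτd]; exact min_le_left _ _
  have hτ2 : τ ≤ η / 600 := by rw [hτd]; exact min_le_right _ _
  refine ⟨τ / 4, by positivity, fun ρ ε' δ hρ hρ' hε hε' hδ hδ' lam N B hD => ?_⟩
  obtain ⟨A0, C0, X₂, hA0, -, hX₂, HS⟩ := HS lam N B 1 one_pos
  refine ⟨1, one_pos, max X₂ (Real.exp (28 * Real.log 2 / τ)),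
    lt_of_lt_of_le hX₂ (le_max_left _ _), ?_⟩
  intro X hX a ps q hF hok hl2 hokP x hx hxl h₁ h₂
  have hX2 : X₂ ≤ X := (le_max_left _ _).trans hX
  have hX3 : Real.exp (28 * Real.log 2 / τ) ≤ X := (le_max_right _ _).trans hX
  have hX1 : 1 < X := hX₂.trans_le hX2
  have hX0 : 0 < X := by linarith
  have hL : 0 < Real.log X := Real.log_pos hX1
  have h28 : 28 * Real.log 2 ≤ τ * Real.log X := by
    have h5 := Real.log_le_log (Real.exp_pos _) hX3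
    rw [Real.log_exp, div_le_iff₀ hτ] at h5
    linarith
  have S : Sq5 A d (dn q.1) q.2 := hF.dom.1
  have hv0 : 0 ≤ q.1 none := hF.dom.2.1
  have V : FrV δ (Real.log X) a ps q := frV hF hX1
  have hn : (π lam.1).n₃ ≠ 0 := (hP lam.1).χ₃.q0
  obtain ⟨SF, SD⟩ := HS X hX2 a ps q δ 1 (by linarith) le_rfl hF hok hl2 hokP
  have SD := SD x (hx.mono hX1.le (by linarith)) h₁ h₂
  obtain ⟨κ, hκd⟩ : ∃ κ, κ = cκ (dn q.1) := ⟨_, rfl⟩
  have hκ := S.toNr5.κ0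
  have hκ0 := S.κpos
  have hG : 0 < cκ (dn q.1) * Real.log X := mul_pos hκ0 hL
  have hτL : 0 ≤ τ * Real.log X := mul_nonneg hτ.le hL.le
  refine ⟨swU (swT (Real.log X) (cκ (dn q.1)) (cN (dn q.1)) (cM (dn q.1)) (q.2 .mo)
    (q.2 .am) 0 a.2 x), Real.exp (swT (Real.log X) (cκ (dn q.1)) (cN (dn q.1)) (cM (dn q.1))
    (q.2 .mo) (q.2 .am) 0 a.2 x) / 2, by positivity, fun _ _ _ _ _ h => swU_T0 h, ?_⟩
  intro G t ht hv hr f1 f2 f3 D1' Z'' l' m s h3 h4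
  have hf := facts SD.dat ht hv
  have hρL : ρ * Real.log X ≤ τ * Real.log X :=
    mul_le_mul_of_nonneg_right (by linarith) hL.le
  have hl : lg l' + lg D1' ≤ lam' ps + τ * Real.log X := by
    have e : lam' ps = Ls (amL ps) := rfl
    rw [e]
    unfold lg
    linarith
  have hm : lg m ≤ lmo a.1 ps + τ * Real.log X := by
    have e : lmo a.1 ps = (a.1.us 0).z + (a.1.us 1).z + Ls (moL ps) := by
      unfold lmo bs2 Ls
      rw [List.map_cons, List.map_cons, List.sum_cons, List.sum_cons, add_assoc]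
    rw [e]
    unfold lg
    linarith
  have T := trN_of hJf V S.toNr5 hL hδ.le (by linarith) (by linarith) h28 hok hokP hn hBf hx he1
    hf ht hv s hl hm
  obtain ⟨z, hz⟩ : ∃ z, z = zTr (cκ (dn q.1) * Real.log X) a.2 x (fN (π lam.1).n₃ (x.E a.1)) t
    f1 f2 D1' l' m 0 := ⟨_, rfl⟩
  have hdκ : d ≤ cκ (dn q.1) * (9 / 8 * d) := by nlinarith
  have k1 : 4 * z.s ≤ topK (cN (dn q.1) / cκ (dn q.1)) (cx' (dn q.1) / cκ (dn q.1)) - z.v +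
      9 / 8 * d + 6 * τ := by
    rw [hz]
    exact lvl_of V hX1 rfl hκ (by linarith) hdκ hxl.1
  have k2 : 2 * z.β ≤ topK (cN (dn q.1) / cκ (dn q.1)) (cx' (dn q.1) / cκ (dn q.1)) - z.v +
      9 / 8 * d + 6 * τ := by
    rw [hz]
    exact lvl_of V hX1 rfl hκ (by linarith) hdκ hxl.2
  have k3 : z.v ≤ q.1 none / cκ (dn q.1) + 6 * τ := by
    rw [hz]
    show Real.log 2 * a.2 / (cκ (dn q.1) * Real.log X) ≤ _
    rw [div_le_iff₀ hG]
    have e1 := (abs_le.mp V.v).2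
    have e2 : (q.1 none / cκ (dn q.1) + 6 * τ) * (cκ (dn q.1) * Real.log X) =
        q.1 none * Real.log X + 6 * (cκ (dn q.1) * (τ * Real.log X)) := by
      field_simp
    have e3 : δ * Real.log X ≤ τ * Real.log X :=
      mul_le_mul_of_nonneg_right (by linarith) hL.le
    rw [e2]
    nlinarith
  have hnr : Nrm (dn q.1) q.2 (1 / cκ (dn q.1)) (cN (dn q.1) / cκ (dn q.1))
      (cM (dn q.1) / cκ (dn q.1)) (cu (dn q.1) 4 / cκ (dn q.1)) (q.2 .mo / cκ (dn q.1))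
      (q.2 .am / cκ (dn q.1)) (cx' (dn q.1) / cκ (dn q.1)) :=
    ⟨rfl, rfl, rfl, rfl, rfl, rfl, rfl⟩
  rw [← hz]
  have main : ∃ z' : Cls, Near (100 * (6 * τ)) z z' ∧
      z'.Ok d (1 / cκ (dn q.1)) (cN (dn q.1) / cκ (dn q.1)) (cM (dn q.1) / cκ (dn q.1))
        (q.2 .mo / cκ (dn q.1)) (q.2 .am / cκ (dn q.1)) (cx' (dn q.1) / cκ (dn q.1)) ∧
      z'.ky ≤ 1 ∧ GoalX (cκ (dn q.1)) z' d (cN (dn q.1) / cκ (dn q.1))
        (cM (dn q.1) / cκ (dn q.1)) (cu (dn q.1) 4 / cκ (dn q.1)) (q.2 .mo / cκ (dn q.1))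
        (q.2 .am / cκ (dn q.1)) (2 * T5 (7 / 8 + d) (dn q.1, q.2) -
          cκ (dn q.1) * (11 / 10 * d)) := by
    rcases hr with hr | hr
    · obtain ⟨g1, g2, g3, g4⟩ := termD hJf V hX1 S.toNr5 hτ.le (by linarith) (by linarith)
        hF.low hok hokP hx hf ht T hr hz k1 k2
      exact Gm918.termU HD HF hd hd1 hA hA1 S hv0 hF.low hnr (by linarith) (by linarith) g1 k3
        (Or.inl ⟨g3, g4⟩)
    · obtain ⟨g1, g2, g3, g4⟩ := termF hJf V hX1 S.toNr5 hτ.le (by linarith) (by linarith) hn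
        hF.low hok hokP hx hf ht T hr hz k1 k2
      exact Gm918.termU HD HF hd hd1 hA hA1 S hv0 hF.low hnr (by linarith) (by linarith) g1 k3
        (Or.inr ⟨g3, g4⟩)
  obtain ⟨z', m1, m2, m3, m4⟩ := main
  have hN1 : 103 * z'.N1 (cN (dn q.1) / cκ (dn q.1)) ≤ 84 := by
    have e1 := (Gl918.box hd hd1 hA hA1 S hv0 hF.low hnr).N84
    have e2 := m2.β
    have e3 := m2.s
    unfold Cls.N1
    linarith
  have hls := Gl918.loss_ok (T := 2 * T5 (7 / 8 + d) (dn q.1, q.2)) hd hκ hN1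
  exact ⟨z', m1.mono (by linarith), m2, m3, GoalX.mono m4 (by linarith)⟩

end Crest.Agent.R017.E4St352
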