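import Crest.Agent.R017.E4S_783

/-!
# Row 17, E4, S-form: the direct half with a filter on the frequencies (helper783)

* `lBpSf` : `lBpS` for weights `φ o` vanishing on `d e³`, `¬ Nf o d`
-/

set_option autoImplicit false

noncomputable section

open Complex MeasureTheory
open scoped ComplexConjugate

namespace Crest.Agent.R017.E4S783

open Crest.Agent.R012 Crest.Agent.R012.Eis Crest.Agent.R012.Mob705 Crest.Agent.R012.Gauss880
open Crest.Agent.R012.Div277 Crest.Agent.R012.PSer47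
open Crest.Agent.R017.Sx545 Crest.Agent.R017.CM106 Crest.Agent.R017.C70 Crest.Agent.R017.C590
open Crest.Agent.R017.End699 Crest.Agent.R017.B770 Crest.Agent.R017.Sx440
open Crest.Agent.R017.E4352 Crest.Agent.R017.E2440
open Crest.Agent.R017.E4Bd783 hiding DK mem_DK

/-! ### the direct half -/

/-- **L7p**, S-form, with filter -/
def LBpSf : Prop :=
  ∀ ε : ℝ, 0 < ε → ∃ C : ℝ, 0 ≤ C ∧
    ∀ (M : Eis) (O : Type) (_ : Fintype O) (f : O → Eis) (v w : O → Eis → ℂ) (X : ℝ) (K : O → ℝ)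
      (B : ℝ) (φ : O → Eis → ℂ) (Nf : O → Eis → Prop), DatS M f v w X →
      (∀ o, 0 < K o ∧ K o ≤ X) → 0 ≤ B →
      (∀ o k, Sm M k → ‖φ o k‖ ≤ B) → (∀ o k, K o < nm k → φ o k = 0) →
      (∀ o d e, Sm M d → Sm M e → ¬ Nf o d → φ o (d * e ^ 3) = 0) →
      ‖∑ o, ∑' x : Eis, v o x * ∑' y : Eis, w o y * NT M (f o * x * y) (φ o)‖ ≤
        C * X ^ ε * B * BSf M f v w (fun b y => sy y b) X K K Nf

section

open Crest.Agent.R017.LBp47

open Classical in
/-- **L7p**, S-form, with filter -/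
theorem lBpSf_of (hL : LStr) : LBpSf := by
  intro ε hε
  obtain ⟨C3, hC30, hC3⟩ : ∃ C3 : ℝ, 0 ≤ C3 ∧ ∀ X : ℝ, 1 ≤ X →
      100 * (1 + Real.log X) ≤ C3 * X ^ ε := by
    refine ⟨(100 * (1 + (1 : ℕ) / ε)) ^ 1, by positivity, fun X hX => ?_⟩
    have := poly_log_le 1 hX (δ := ε) (by positivity)
    rwa [pow_one] at this
  refine ⟨C3, by positivity, ?_⟩
  intro M O _ f v w X K B φ Nf hdat hKb hB0 hφB hφ0 hφf
  have hX1 := hdat.X1
  have hX0 : 0 < X := by linarith
  unfold BSf
  rw [Finset.mul_sum]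
  refine (norm_sum_le _ _).trans (Finset.sum_le_sum fun o _ => ?_)
  obtain ⟨hK, hKX⟩ := hKb o
  set N : ℕ := ⌊K o⌋₊ with hN
  set g : Eis → Eis → ℂ := fun b y => sy y b with hg
  have haS0 : ∀ d, 0 ≤ aS (f o) X g (v o) (w o) d := fun d => aS_nonneg _ _ _ _ _ _
  set S : ℝ := ∑ d ∈ DN M (K o) (Nf o), (nm d : ℝ)⁻¹ * aS (f o) X g (v o) (w o) d
    with hSdef
  have hS : 0 ≤ S := Finset.sum_nonneg fun d _ => by
    have := haS0 d
    positivity
  have hφN : ∀ k, IsPrim k → N < nm k → φ o k = 0 := fun k _ hk =>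
    hφ0 o k ((Nat.floor_lt hK.le).mp hk)
  clear_value S
  rw [xy_NT (hdat.hv o) (hdat.hw o) hφN]
  have h2 : ∀ e ∈ primBall N, ‖∑ d ∈ primBall N, (if Sm M e ∧ Sm M d then
        ((nm e : ℂ) ^ 2 * φ o (d * e ^ 3)) *
          (∑' x : Eis, v o x * ∑' y : Eis, w o y * conj (gs (f o * x * y) d)) else 0)‖ ≤
        (B * K o * S) * (1 / (nm e : ℝ)) := by
    intro e he
    rw [mem_primBall] at he
    have he1 : (1 : ℝ) ≤ nm e := by exact_mod_cast nm_pos.mpr he.2.ne_zero
    have he0 : (0 : ℝ) < nm e := by linarith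
    have h3 : ∀ d ∈ primBall N, ‖(if Sm M e ∧ Sm M d then
        ((nm e : ℂ) ^ 2 * φ o (d * e ^ 3)) *
          (∑' x : Eis, v o x * ∑' y : Eis, w o y * conj (gs (f o * x * y) d)) else 0)‖ ≤
        if Sm M d ∧ Nf o d then
          (B * K o * (1 / (nm e : ℝ))) * ((nm d : ℝ)⁻¹ * aS (f o) X g (v o) (w o) d) else 0 := by
      intro d hd
      rw [mem_primBall] at hd
      have hd1 : (1 : ℝ) ≤ nm d := by exact_mod_cast nm_pos.mpr hd.2.ne_zero
      have hd0 : (0 : ℝ) < nm d := by linarith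
      have haSd := haS0 d
      have hrhs : (0 : ℝ) ≤ if Sm M d ∧ Nf o d then
          (B * K o * (1 / (nm e : ℝ))) * ((nm d : ℝ)⁻¹ * aS (f o) X g (v o) (w o) d) else 0 := by
        split_ifs
        · positivity
        · exact le_rfl
      by_cases hS1 : Sm M e ∧ Sm M d
      swap
      · rw [if_neg hS1, norm_zero]; exact hrhs
      rw [if_pos hS1]
      by_cases hNf : Nf o d
      swap
      · rw [hφf o d e hS1.2 hS1.1 hNf]
        simp only [mul_zero, zero_mul, norm_zero]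
        exact hrhs
      by_cases hlt : (nm d : ℝ) * (nm e : ℝ) ^ 3 ≤ K o
      swap
      · have h3 : φ o (d * e ^ 3) = 0 := by
          refine hφ0 o _ ?_
          push Not at hlt
          rw [nm_mul, nm_pow]
          push_cast
          exact hlt
        rw [h3]
        simp only [mul_zero, zero_mul, norm_zero]
        exact hrhs
      rw [if_pos ⟨hS1.2, hNf⟩, norm_mul, norm_mul, norm_pow, Complex.norm_natCast]
      have hSm : Sm M (d * e ^ 3) := hS1.2.mul (hS1.1.pow 3)
      have h4 := hφB o (d * e ^ 3) hSm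
      have h5 : ‖∑' x : Eis, v o x * ∑' y : Eis, w o y * conj (gs (f o * x * y) d)‖ ≤
          aS (f o) X g (v o) (w o) d :=
        hL M (f o) d (v o) (w o) X (hdat.hf o).1 hS1.2 (hdat.hv o) (hdat.hw o) (hdat.vx o)
          (hdat.wy o)
      calc (nm e : ℝ) ^ 2 * ‖φ o (d * e ^ 3)‖ *
            ‖∑' x : Eis, v o x * ∑' y : Eis, w o y * conj (gs (f o * x * y) d)‖
          ≤ (nm e : ℝ) ^ 2 * B * aS (f o) X g (v o) (w o) d := by
            gcongr
        _ = (B * (1 / (nm e : ℝ)) * ((nm d : ℝ)⁻¹ * aS (f o) X g (v o) (w o) d)) *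
            ((nm d : ℝ) * (nm e : ℝ) ^ 3) := by
            field_simp
        _ ≤ (B * (1 / (nm e : ℝ)) * ((nm d : ℝ)⁻¹ * aS (f o) X g (v o) (w o) d)) * K o := by
            gcongr
        _ = _ := by ring
    refine (norm_sum_le _ _).trans ((Finset.sum_le_sum h3).trans ?_)
    rw [← Finset.sum_filter, ← Finset.mul_sum]
    apply le_of_eq
    rw [hSdef, hN]
    unfold DN
    ring_nf
  refine (norm_sum_le _ _).trans ((Finset.sum_le_sum h2).trans ?_)
  rw [← Finset.mul_sum]
  calc (B * K o * S) * ∑ e ∈ primBall N, (1 / (nm e : ℝ)) ≤ (B * K o * S) * (C3 * X ^ ε) := by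
        refine mul_le_mul_of_nonneg_left ?_ (mul_nonneg (mul_nonneg hB0 hK.le) hS)
        refine (sum_inv_primBall_le N).trans (le_trans ?_ (hC3 X hX1))
        have hNX : (N : ℝ) ≤ X := (Nat.floor_le hK.le).trans hKX
        have : Real.log N ≤ Real.log X := by
          rcases Nat.eq_zero_or_pos N with h | h
          · rw [h]
            simp only [Nat.cast_zero, Real.log_zero]
            exact Real.log_nonneg hX1
          · exact Real.log_le_log (by exact_mod_cast h) hNX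
        linarith
    _ = C3 * X ^ ε * B * (K o * S) := by ring

end

/-- **L7p**, S-form, with filter -/
theorem lBpSf : LBpSf := lBpSf_of E4401.lStr

end Crest.Agent.R017.E4S783
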