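import Crest.Agent.R017.XSd_512
import Crest.Agent.R017.E4Uf_164

/-!
# Row 17, C70/E4 (version 7): the `x`-side at helper164's data (helper512)

* `th_Dt` : `TH` at the data
-/

set_option autoImplicit false

noncomputable section

open Complex Finset
open scoped ComplexConjugate Classical

namespace Crest.Agent.R017.XSd512

open Crest.Agent.R012 Crest.Agent.R012.Eis
open Crest.Agent.R012.Mob705 hiding pb mem_pb
open Crest.Agent.R017.CM106 (CS FS)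
open Crest.Agent.R017.B770 (DPar)
open Crest.Agent.R017.E5B71
open Crest.Agent.R017.Prov71
open Crest.Agent.R017.E4352
open Crest.Agent.R017.E4J352
open Crest.Agent.R017.E4U164
open Crest.Agent.R017.E4RH858 (Pf pf Facts)
open Crest.Agent.R017.JyF744 (nu2)
open Crest.Agent.R017.JxP679

variable {Λ : Type*} {π : Λ → DPar} {h : ℝ → ℝ} {lam : Λ × Eis}
  {Jf : ℝ → ℝ → ℝ → Finset (Eis × Eis)} {a : Bd × ℕ} {ps : List Pq} {x : Dt}
  {h₁ : FS (b1 (π lam.1) h lam.2 ps)} {h₂ : FS (b2 (π lam.1) h lam.2 a.1 ps)}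

/-- **the hypotheses on the terms at the data** -/
theorem th_Dt {e0 r R C0 Y : ℝ} {Bf : ℝ → ℝ → ℝ → ℝ} (hY : 1 ≤ Y)
    (sz : SzF π h e0 r R Y Bf Jf lam a ps) (sd : SzD π h C0 Y Jf lam a ps x h₁ h₂)
    (hM : (π lam.1).n₃ ≠ 0) (hE : IsPrim (x.E a.1)) {G : Eis → ℂ} {cl : Win} {Pp : Pf}
    {Oc : Finset (x.O π lam Jf a)} {t : Tm (x.O π lam Jf a)}
    (hok : t.OK (π lam.1).n₃ 1)
    (hv : t.val 1 lD (x.v π h lam Jf a) (x.w π h lam Jf a ps h₁ h₂) G ≠ 0)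
    (hcl : t.In lD cl) (hpf : pf t = Pp) (ho : t.o ∈ Oc) :
    TH (π lam.1).n₃ lD (Y ^ 2) cl Pp x.z Oc t := by
  have hfp : IsPrim (E4D164.fN (π lam.1).n₃ (x.E a.1)) := (E4D164.fM_spec hM hE).2.1.1
  refine th_of (X := Y) (Yw := Y) (lam := lD) (v := x.v π h lam Jf a)
    (w := x.w π h lam Jf a ps h₁ h₂) (G := G) sd.dat hfp (b₁ := b1 (π lam.1) h lam.2 ps)
    (b₂ := b2 (π lam.1) h lam.2 a.1 ps) (Lf := h₁.fin.toFinset ×ˢ h₂.fin.toFinset)
    (fun o => rfl) (fun p _ g1 g2 => ?_) (le_self_pow₀ hY (by norm_num)) (by linarith)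
    (by rw [pow_two]) hok hv hcl hpf ho
  have h1 := sz.N₂ p.1 p.2 g1 g2
  exact (Nat.le_floor_iff (by linarith)).mp h1

end Crest.Agent.R017.XSd512
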