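import Crest.Agent.R017.YsU_61
import Crest.Agent.R017.E4JB_858
import Crest.Agent.R017.XSe_512
import Crest.Agent.R017.E4Sa_352
import Crest.Agent.R017.E4G_858
import Crest.Agent.R017.E4Gl_918
import Crest.Agent.R017.JxT_679

/-!
# Row 17, T.3, `StrU`: the two inputs of `XRU` (helper699)

* `zT` : the class of a term (helper352's `zTr`)
* `TermU` : the real side of one term;  `XNumU` : the number of the `x`-side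
-/

set_option autoImplicit false

noncomputable section

open Finset Complex
open scoped ComplexConjugate

namespace Crest.Agent.R017.StrD699

open Crest.Agent.R012 Crest.Agent.R012.Eis
open Crest.Agent.R012.Mob705 hiding pb mem_pb
open Crest.Agent.R017.Sx545 (Sm)
open Crest.Agent.R017.CM106 (FS CS)
open Crest.Agent.R017.FE47 (PU SM)
open Crest.Agent.R017.B770
open Crest.Agent.R017.Prov71
open Crest.Agent.R017.Rough381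
open Crest.Agent.R017.E4352 (PrI Dat4 rd)
open Crest.Agent.R017.E5B71
open Crest.Agent.R017.E5L770
open Crest.Agent.R017.E4D164
open Crest.Agent.R017.E4J352
open Crest.Agent.R017.E4U164
open Crest.Agent.R017.E4R70
open Crest.Agent.R017.Hg918
open Crest.Agent.R017.Nm918 (Near)
open Crest.Agent.R017.E4RH858 (Pf pf wP be1 be2 kl)
open Crest.Agent.R017.E4Dic352
open Crest.Agent.R017.E4St352 (kG kC)
open Crest.Agent.R017.E4F858 (R1S R2S m1S m2S)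
open Crest.Agent.R017.Str699 (nu0)
open Crest.Agent.R017.JxS679 (sk)
open Crest.Agent.R017.JxL679 (NatS)
open Crest.Agent.R017.XSd512 (XMo)
open Crest.Agent.R017.YsU61

/-- **the class of a term**, units `Lg` (helper352's `zTr`) -/
def zT (Lg : ℝ) (i : ℕ) (x : Dt) (f : Eis) {OO : Finset (Eis × Eis)} (t : Tm OO)
    (f1 f2 D1' l m : Eis) (sc : ℝ) : Cls where
  v := Real.log 2 * i / Lg
  k := lg t.k / Lg
  η := lg D1' / Lg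
  b1 := beS t f2 / Lg
  F := lg f1 / Lg
  β := lg (∏ i, x.β i) / Lg
  s := lg x.e₀ / Lg
  G := max 0 (kG x - (lg x.e₀ - lg (be2 x.e₀ (bo3 t)))) / Lg
  Y0 := x.m 0 1 * Real.log 2 / Lg
  Y1 := x.m 1 1 * Real.log 2 / Lg
  W := lg (be1 x.e₀ (bo3 t)) / Lg
  c02 := kC x / Lg
  c12 := x.m 1 2 * Real.log 2 / Lg
  nu := lg (nu0 t.o.1.1 t.o.1.2) / Lg
  al := (alS (pf t) + bfS t f2) / Lg
  B := BS (pf t) / Lg
  b := (bS (pf t) + 2 * bfS t f2) / Lg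
  tau := (tauS (pf t) + 2 * bfS t f2) / Lg
  lq := (lqS (pf t) + bfS t f2) / Lg
  R1 := R1S (pf t) / Lg
  R2 := R2S (pf t) / Lg
  l := (lg l - beS t f2) / Lg
  m1 := m1S (pf t) m / Lg
  m2 := m2S (pf t) m / Lg
  E := (eS f (pf t) + bfS t f2) / Lg
  zm := (lg m - lS (pf t) m) / Lg
  sW := lg (be2 x.e₀ (bo3 t)) / Lg
  sc := sc / Lg
  s1 := min (lg (sk (x.g * x.e₀ * x.t) t.k)) (kG x) / Lg

/-- the exponent of the `x`-side (units of the family), without the closer -/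
def Vx (z : Cls) (N u : ℝ) : ℝ := z.tT N u - (z.v + z.us) / 3 - (N - z.β) / 3

section

variable {Λ : Type*} (π : Λ → DPar) (h : ℝ → ℝ)

/-- **the real side of one term** -/
def TermU (θ A d μ e0 r : ℝ) (Bf : ℝ → ℝ → ℝ → ℝ) (Jf : ℝ → ℝ → ℝ → Finset (Eis × Eis)) : Prop :=
  ∀ η : ℝ, 0 < η → ∃ δ₃ : ℝ, 0 < δ₃ ∧ ∀ ρ ε' δ : ℝ, 0 < ρ → ρ ≤ δ₃ → 0 < ε' → ε' ≤ δ₃ →
    0 < δ → δ ≤ δ₃ →
    ∀ (lam : Λ × Eis) (N : ℕ) (B : ℝ), ¬ (π lam.1).CaseD →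
    ∃ δ' : ℝ, 0 < δ' ∧ ∃ X₀ : ℝ, 1 < X₀ ∧ ∀ X : ℝ, X₀ ≤ X →
    ∀ (a : Bd × ℕ) (ps : List Pq) (q : (Option (Fin 3 ⊕ Fin 5) → ℝ) × (Kd → ℝ)),
      FrL A d δ δ' B X N a ps q → a.1.ok → lam.2 ∈ SM (π lam.1).n → a.1.okP (π lam.1) →
    ∀ x : Dt, x.OK (π lam.1) Bf e0 r ε' X a.1 → XLow d X q x →
    ∀ (h₁ : FS (b1 (π lam.1) h lam.2 ps)) (h₂ : FS (b2 (π lam.1) h lam.2 a.1 ps)),
    ∃ (sw : Eis → Eis → Eis → Eis → Eis → Prop) (T₀ : ℝ), 0 ≤ T₀ ∧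
      (∀ D0 D1 B R Z : Eis, sw D0 D1 B R Z → (nm D1 : ℝ) * nm (rd Z) ≤ 2 * T₀) ∧
      ∀ (G : Eis → ℂ) (t : Tm (x.O π lam Jf a)), t.OK (π lam.1).n₃ 1 →
        t.val 1 lD (x.v π h lam Jf a) (x.w π h lam Jf a ps h₁ h₂) G ≠ 0 →
        (rngD sw lD (X ^ ε' * Real.exp a.1.l) t ∨
          rngF sw lD (X ^ ε' * (U0 (π lam.1) a ps x / Real.exp a.1.l)) t) →
      ∀ f1 f2 f3 D1' Z'' l' m : Eis,
        Spl (π lam.1).n₃ (fN (π lam.1).n₃ (x.E a.1)) x.z t f1 f2 f3 D1' Z'' l' m →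
        Real.log (nm l') + Real.log (nm D1') ≤ Ls (amL ps) + ρ * Real.log X →
        Real.log (nm m) ≤ (a.1.us 0).z + (a.1.us 1).z + Ls (moL ps) + ρ * Real.log X →
        ∃ z' : Cls,
          Near η (zT (cκ (dn q.1) * Real.log X) a.2 x (fN (π lam.1).n₃ (x.E a.1)) t f1 f2 D1' l' m
            0) z' ∧
          z'.Ok d (1 / cκ (dn q.1)) (cN (dn q.1) / cκ (dn q.1)) (cM (dn q.1) / cκ (dn q.1))
            (q.2 .mo / cκ (dn q.1)) (q.2 .am / cκ (dn q.1)) (cx' (dn q.1) / cκ (dn q.1)) ∧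
          z'.ky ≤ 1 ∧
          GoalX (cκ (dn q.1)) z' d (cN (dn q.1) / cκ (dn q.1)) (cM (dn q.1) / cκ (dn q.1))
            (cu (dn q.1) 4 / cκ (dn q.1)) (q.2 .mo / cκ (dn q.1)) (q.2 .am / cκ (dn q.1))
            (2 * T5 θ (dn q.1, q.2) - 2 * μ -
              cκ (dn q.1) * (2 / 3 * d * z'.N1 (cN (dn q.1) / cκ (dn q.1))))

/-- **the number of the `x`-side of one block** -/
def XNumU (A d e0 r : ℝ) (Bf : ℝ → ℝ → ℝ → ℝ) (Jf : ℝ → ℝ → ℝ → Finset (Eis × Eis)) : Prop :=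
  ∀ ε : ℝ, 0 < ε → ∃ η : ℝ, 0 < η ∧
    ∀ (lam : Λ × Eis) (N : ℕ) (B : ℝ) (T : Finset ((Eis → ℂ) × ℤ)), ¬ (π lam.1).CaseD →
    (∀ tt ∈ T, TwOK (π lam.1) tt) →
    ∃ (M₁ : ℕ) (δ' : ℝ), 0 < δ' ∧ ∃ X₀ : ℝ, 1 < X₀ ∧ ∀ X : ℝ, X₀ ≤ X →
    ∀ δ ε' : ℝ, δ ≤ η → ε' ≤ η →
    ∀ (a : Bd × ℕ) (ps : List Pq) (q : (Option (Fin 3 ⊕ Fin 5) → ℝ) × (Kd → ℝ)),
      FrL A d δ δ' B X N a ps q → a.1.ok → lam.2 ∈ SM (π lam.1).n → a.1.okP (π lam.1) →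
    ∀ x : Dt, x.OK (π lam.1) Bf e0 r ε' X a.1 →
    ∀ (h₁ : FS (b1 (π lam.1) h lam.2 ps)) (h₂ : FS (b2 (π lam.1) h lam.2 a.1 ps)),
    ∀ tt ∈ T, ∀ (ξ : ℝ) (G : Eis → ℂ), (∀ y, Sm (π lam.1).n₃ y → G y = gx tt.1 tt.2 ξ y) →
    ∀ (c : E4J352.Win) (P : Pf) (β : Eis) (τ : Eis × Eis × Eis)
      (𝒥 : Finset (Tm (x.O π lam Jf a))),
      (∀ t ∈ 𝒥, t.OK (π lam.1).n₃ 1 ∧
        t.val 1 lD (x.v π h lam Jf a) (x.w π h lam Jf a ps h₁ h₂) G ≠ 0 ∧ t.In lD c ∧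
        pf t = P ∧ bo3 t = β ∧ soL x (fN (π lam.1).n₃ (x.E a.1)) t = τ) →
    ∀ Oc : Finset (x.O π lam Jf a), (∀ o, o ∈ Oc ↔ ∃ t ∈ 𝒥, t.o = o) →
    ∀ t ∈ 𝒥, ∀ f1 f2 f3 D1' Z'' l' m : Eis,
      Spl (π lam.1).n₃ (fN (π lam.1).n₃ (x.E a.1)) x.z t f1 f2 f3 D1' Z'' l' m →
    ∀ (z' : Cls) (mx ex : ℝ),
      Near η (zT (cκ (dn q.1) * Real.log X) a.2 x (fN (π lam.1).n₃ (x.E a.1)) t f1 f2 D1' l' m
        0) z' →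
      z'.Ok d (1 / cκ (dn q.1)) (cN (dn q.1) / cκ (dn q.1)) (cM (dn q.1) / cκ (dn q.1))
        (q.2 .mo / cκ (dn q.1)) (q.2 .am / cκ (dn q.1)) (cx' (dn q.1) / cκ (dn q.1)) →
      z'.ky ≤ 1 → 0 ≤ mx → mx ≤ 2 →
      ClX (cκ (dn q.1)) z' d (cN (dn q.1) / cκ (dn q.1)) (cu (dn q.1) 4 / cκ (dn q.1)) mx ex →
    ∀ t' ∈ 𝒥, ∀ Bm : ℝ, 1 ≤ Bm → Bm ≤ X ^ (mx + η) →
      ∀ Bd : ℝ, Bd = ((1 + |ξ|) ^ M₁) ^ 2 * X ^ (cκ (dn q.1) * (z'.k + 2 * z'.lam) +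
        (cκ (dn q.1) * Vx z' (cN (dn q.1) / cκ (dn q.1)) (cu (dn q.1) 4 / cκ (dn q.1)) +
          cκ (dn q.1) * (2 / 3 * d * z'.N1 (cN (dn q.1) / cκ (dn q.1))) + ex + ε)) →
      (mx = 0 → XMo (π lam.1).n₃ (x.v π h lam Jf a) G P Oc c.nkk
        (fun k => kl (x.g * x.e₀ * x.t) k = τ.1) t'.D1 (E4RH858.b1 t') (fun _ _ => 1) ≤ Bd) ∧
      (∀ bm : x.O π lam Jf a → Eis → ℂ, (∀ o ∈ Oc, NatS Bm (X ^ η * Bm) (bm o)) →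
        XMo (π lam.1).n₃ (x.v π h lam Jf a) G P Oc c.nkk
          (fun k => kl (x.g * x.e₀ * x.t) k = τ.1) t'.D1 (E4RH858.b1 t')
          (fun o k => ‖CS (bm o) k‖ ^ 2) ≤ Bd)

end

end Crest.Agent.R017.StrD699
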