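import Crest.Agent.R017.E4Sf_352
import Crest.Agent.R017.StrD_699

/-!
# Row 17, StrU: helper699's `TermU` (helper352)
-/

set_option autoImplicit false

noncomputable section

namespace Crest.Agent.R017.E4St352

open Crest.Agent.R012 Crest.Agent.R012.Eis
open Crest.Agent.R017.C70
open Crest.Agent.R017.Prov71 Crest.Agent.R017.E5B71 Crest.Agent.R017.E4D164
open Crest.Agent.R017.B770 (DPar)
open Crest.Agent.R017.E5L770
open Crest.Agent.R017.E4U164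
open Crest.Agent.R017.Gl918 (E4D E4F)

/-- **`TermU`** -/
theorem termU_of {Λ : Type*} {π : Λ → DPar} {h : ℝ → ℝ} (hP : ∀ lam, (π lam).OK)
    (HD : E4D) (HF : E4F) {A d μ e0 r : ℝ} {Bf : ℝ → ℝ → ℝ → ℝ}
    {Jf : ℝ → ℝ → ℝ → Finset (Eis × Eis)} (hd : 0 ≤ d) (hd1 : d ≤ 1 / 8) (hA : A ≤ 1)
    (hA1 : 16 * (1 - A) ≤ d) (hμ : 2 * μ ≤ 4 / 9 * d) (he1 : 64 * e0 ≤ 1)
    (hBf : ∀ l N z, Bf l N z ≤ bfO l N z) (hJf : ∀ l N z, OKJ (Jf l N z))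
    (HS : SzU π h A d e0 r Bf Jf) : StrD699.TermU π h (7 / 8 + d) A d μ e0 r Bf Jf :=
  termS_of hP HD HF hd hd1 hA hA1 hμ he1 hBf hJf HS

end Crest.Agent.R017.E4St352
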