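import Crest.Agent.R017.P1DomS_918
import Crest.Agent.R017.FNEb_708

/-!
# Row 17, E4 (StrU): the parent of the flat `T`-moment (helper918)

`b9 p = (5/4 N, y₃, y₄, u, 0)` : helper708's flat claims (`FE2L`, `flat_bundle`) at this parent
have `K5 = 5/4 N`, `T5 = 3/4 N`, `L5 = 0`: the `T`-moment of the three lumps is flat up to
`3/4 N`, which contains the whole window `min (2N - κ) (3/4 N) + 9/4 x` of the low levels.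
`Sq5.b9` : the region facts of `b9` (helper47's `D5`: sorted, near-equal, `R5`).
-/

set_option autoImplicit false

noncomputable section

namespace Crest.Agent.R017.E5B71

open Crest.Agent.R017.Prov71 Crest.Agent.R017.R8C918 Crest.Agent.R017.TM708

variable {A d : ℝ} {p : Fin 3 ⊕ Fin 5 → ℝ} {w : Kd → ℝ}

/-- the parent of the flat `T`-moment of the structured middle term -/
def b9 (p : Fin 3 ⊕ Fin 5 → ℝ) : Fin 5 → ℝ := ![5 / 4 * cN p, cu p 2, cu p 3, cu p 4, 0]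

lemma b9_0 (p : Fin 3 ⊕ Fin 5 → ℝ) : b9 p 0 = 5 / 4 * cN p := rfl
lemma b9_1 (p : Fin 3 ⊕ Fin 5 → ℝ) : b9 p 1 = cu p 2 := rfl
lemma b9_2 (p : Fin 3 ⊕ Fin 5 → ℝ) : b9 p 2 = cu p 3 := rfl
lemma b9_3 (p : Fin 3 ⊕ Fin 5 → ℝ) : b9 p 3 = cu p 4 := rfl
lemma b9_4 (p : Fin 3 ⊕ Fin 5 → ℝ) : b9 p 4 = 0 := rfl

lemma b9_N (p : Fin 3 ⊕ Fin 5 → ℝ) : b9 p 1 + b9 p 2 + b9 p 3 = cN p := rfl

lemma K5_b9 (p : Fin 3 ⊕ Fin 5 → ℝ) : K5 (b9 p) = 5 / 4 * cN p := by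
  unfold K5
  rw [b9_N, b9_0, max_self]

lemma L5_b9 (p : Fin 3 ⊕ Fin 5 → ℝ) : L5 (b9 p) = 0 := by
  unfold L5
  rw [K5_b9, b9_0, sub_self, zero_div]

lemma T5_b9 (p : Fin 3 ⊕ Fin 5 → ℝ) : TM708.T5 (b9 p) = 3 / 4 * cN p := by
  unfold TM708.T5
  rw [b9_N, b9_0, b9_4]
  have e : 2 * cN p - 5 / 4 * cN p = 3 / 4 * cN p := by ring
  rw [e, min_self]
  ring

/-- **the parent of the flat `T`-moment is near-equal** -/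
theorem Sq5.b9 (hd : 0 ≤ d) (hd1 : d ≤ 1 / 8) (hA1 : 16 * (1 - A) ≤ d) (h : Sq5 A d p w) :
    R5 (b9 p) ∧ 2 / 3 ≤ b9 p 0 ∧ b9 p 0 ≤ 1 + 1 / 50 ∧ b9 p 3 ≤ b9 p 2 ∧ b9 p 2 ≤ b9 p 1 ∧
      b9 p 0 ≤ b9 p 1 + b9 p 2 + b9 p 3 + b9 p 3 ∧ 200 * b9 p 1 ≤ 61 * b9 p 0 ∧
      2 / 9 * b9 p 0 ≤ b9 p 3 := by
  have hκ := h.κpos
  have B := h.nab hd hd1 hA1
  obtain ⟨f1, f2, f3, f4⟩ := B.facts
  rw [cN_div] at f3 f4
  have g1 : 2 / 9 * cκ p ≤ cu p 4 := by rwa [le_div_iff₀ hκ] at f1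
  have g2 : cu p 2 ≤ 2 / 7 * cκ p := by rwa [div_le_iff₀ hκ] at f2
  have g3 : cN p ≤ 84 / 103 * cκ p := by rwa [div_le_iff₀ hκ] at f3
  have g4 : 3 / 4 * cκ p ≤ cN p := by rwa [le_div_iff₀ hκ] at f4
  have g5 := h.κ0
  have g6 := h.κ1
  obtain ⟨s1, s2, s3, s4⟩ := h.anti
  have hN : cN p = cu p 2 + cu p 3 + cu p 4 := rfl
  refine ⟨⟨?_, ?_, ?_, ?_, ?_, ?_, ?_, ?_⟩, ?_, ?_, ?_, ?_, ?_, ?_, ?_⟩
  all_goals first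
    | (simp only [b9_0, b9_1, b9_2, b9_3, b9_4]; linarith)
    | (simp only [b9_0, b9_1, b9_2, b9_3, b9_4]; left; exact le_rfl)

end Crest.Agent.R017.E5B71
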