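import Crest.Agent.R017.E4TDd_45

/-! # Row 17, E4 (StrU): pieces of the tree, direct half (helper45) -/

set_option autoImplicit false
set_option linter.all false
set_option maxHeartbeats 4000000
set_option maxRecDepth 20000

noncomputable section

namespace Crest.Agent.R017.E4TD45

open Crest.Agent.R017.Rg45 Crest.Agent.R017.Rg45.Tr
open Crest.Agent.R017.E4Lk45 Crest.Agent.R017.E4Fa45 Crest.Agent.R017.E4Lt45

theorem o_0 : check tab [] t_0 x_0 gcls = true := by decide +kernel

theorem o_2 : check tab [x_0, x_1] t_2 x_2 gcls = true := by decide +kernel

theorem o_3 : check tab [] t_3 x_3 gcls = true := by decide +kernel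

theorem o_6 : check tab [] t_6 x_6 gcls = true := by decide +kernel

theorem o_9 : check tab [] t_9 x_9 gcls = true := by decide +kernel

theorem o_12 : check tab [x_5, x_6, x_7, x_8, x_9, x_11] t_12 x_12 gcls = true := by decide +kernel

theorem o_13 : check tab [] t_13 x_13 gcls = true := by decide +kernel

theorem o_19 : check tab [] t_19 x_19 gcls = true := by decide +kernel

theorem o_27 : check tab [] t_27 x_27 gcls = true := by decide +kernel

theorem o_28 : check tab [x_26, x_27] t_28 x_28 gcls = true := by decide +kernel

theorem o_39 : check tab [] t_39 x_39 gcls = true := by decide +kernel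

theorem o_40 : check tab [x_39] t_40 x_40 gcls = true := by decide +kernel

theorem o_44 : check tab [x_43] t_44 x_44 gcls = true := by decide +kernel

theorem o_58 : check tab [] t_58 x_58 gcls = true := by decide +kernel

theorem o_60 : check tab [] t_60 x_60 gcls = true := by decide +kernel

theorem o_64 : check tab [x_46, x_49, x_52, x_62, x_63] t_64 x_64 gcls = true := by decide +kernel

theorem o_66 : check tab [] t_66 x_66 gcls = true := by decide +kernel

theorem o_71 : check tab [x_70] t_71 x_71 gcls = true := by decide +kernel

theorem o_72 : check tab [] t_72 x_72 gcls = true := by decide +kernel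

theorem o_73 : check tab [] t_73 x_73 gcls = true := by decide +kernel

theorem o_74 : check tab [] t_74 x_74 gcls = true := by decide +kernel

theorem o_84 : check tab [] t_84 x_84 gcls = true := by decide +kernel

theorem o_86 : check tab [] t_86 x_86 gcls = true := by decide +kernel

theorem o_89 : check tab [x_88] t_89 x_89 gcls = true := by decide +kernel

theorem o_90 : check tab [x_84, x_85, x_86, x_87, x_89] t_90 x_90 gcls = true := by decide +kernel

theorem o_93 : check tab [x_83, x_90, x_92] t_93 x_93 gcls = true := by decide +kernel

theorem o_102 : check tab [] t_102 x_102 gcls = true := by decide +kernel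

theorem o_106 : check tab [] t_106 x_106 gcls = true := by decide +kernel

theorem o_108 : check tab [] t_108 x_108 gcls = true := by decide +kernel

theorem o_111 : check tab [x_110] t_111 x_111 gcls = true := by decide +kernel

theorem o_115 : check tab [] t_115 x_115 gcls = true := by decide +kernel

theorem o_117 : check tab [x_113, x_114, x_115, x_116] t_117 x_117 gcls = true := by decide +kernel

theorem o_119 : check tab [] t_119 x_119 gcls = true := by decide +kernel

theorem o_134 : check tab [] t_134 x_134 gcls = true := by decide +kernel

theorem o_140 : check tab [x_139] t_140 x_140 gcls = true := by decide +kernel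

theorem o_142 : check tab [] t_142 x_142 gcls = true := by decide +kernel

theorem o_145 : check tab [] t_145 x_145 gcls = true := by decide +kernel

theorem o_147 : check tab [] t_147 x_147 gcls = true := by decide +kernel

theorem o_152 : check tab [] t_152 x_152 gcls = true := by decide +kernel

theorem o_159 : check tab [x_153, x_154, x_155, x_156, x_157, x_158] t_159 x_159 gcls = true := by decide +kernel

theorem o_161 : check tab [] t_161 x_161 gcls = true := by decide +kernel

theorem o_164 : check tab [x_163] t_164 x_164 gcls = true := by decide +kernel


end Crest.Agent.R017.E4TD45
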