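import Crest.Agent.R017.E4TDd_45

/-! # Row 17, E4 (StrU): pieces of the tree, direct half (helper45) -/

set_option autoImplicit false
set_option linter.all false
set_option maxHeartbeats 4000000
set_option maxRecDepth 20000

noncomputable section

namespace Crest.Agent.R017.E4TD45

open Crest.Agent.R017.Rg45 Crest.Agent.R017.Rg45.Tr
open Crest.Agent.R017.E4Lk45 Crest.Agent.R017.E4Fa45 Crest.Agent.R017.E4Lt45

theorem o_1 : check tab [] t_1 x_1 gcls = true := by decide +kernel

theorem o_5 : check tab [x_2, x_4] t_5 x_5 gcls = true := by decide +kernel

theorem o_8 : check tab [] t_8 x_8 gcls = true := by decide +kernel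

theorem o_14 : check tab [x_13] t_14 x_14 gcls = true := by decide +kernel

theorem o_15 : check tab [] t_15 x_15 gcls = true := by decide +kernel

theorem o_16 : check tab [x_15] t_16 x_16 gcls = true := by decide +kernel

theorem o_18 : check tab [] t_18 x_18 gcls = true := by decide +kernel

theorem o_20 : check tab [] t_20 x_20 gcls = true := by decide +kernel

theorem o_21 : check tab [x_18, x_19, x_20] t_21 x_21 gcls = true := by decide +kernel

theorem o_22 : check tab [] t_22 x_22 gcls = true := by decide +kernel

theorem o_25 : check tab [] t_25 x_25 gcls = true := by decide +kernel

theorem o_34 : check tab [] t_34 x_34 gcls = true := by decide +kernel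

theorem o_35 : check tab [x_33, x_34] t_35 x_35 gcls = true := by decide +kernel

theorem o_36 : check tab [x_32, x_35] t_36 x_36 gcls = true := by decide +kernel

theorem o_48 : check tab [] t_48 x_48 gcls = true := by decide +kernel

theorem o_50 : check tab [] t_50 x_50 gcls = true := by decide +kernel

theorem o_51 : check tab [x_50] t_51 x_51 gcls = true := by decide +kernel

theorem o_56 : check tab [] t_56 x_56 gcls = true := by decide +kernel

theorem o_59 : check tab [] t_59 x_59 gcls = true := by decide +kernel

theorem o_75 : check tab [x_72, x_73, x_74] t_75 x_75 gcls = true := by decide +kernel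

theorem o_76 : check tab [] t_76 x_76 gcls = true := by decide +kernel

theorem o_81 : check tab [] t_81 x_81 gcls = true := by decide +kernel

theorem o_88 : check tab [] t_88 x_88 gcls = true := by decide +kernel

theorem o_92 : check tab [x_91] t_92 x_92 gcls = true := by decide +kernel

theorem o_94 : check tab [] t_94 x_94 gcls = true := by decide +kernel

theorem o_95 : check tab [x_94] t_95 x_95 gcls = true := by decide +kernel

theorem o_100 : check tab [x_95, x_97, x_99] t_100 x_100 gcls = true := by decide +kernel

theorem o_104 : check tab [] t_104 x_104 gcls = true := by decide +kernel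

theorem o_126 : check tab [x_125] t_126 x_126 gcls = true := by decide +kernel

theorem o_129 : check tab [] t_129 x_129 gcls = true := by decide +kernel

theorem o_130 : check tab [x_129] t_130 x_130 gcls = true := by decide +kernel

theorem o_132 : check tab [] t_132 x_132 gcls = true := by decide +kernel

theorem o_133 : check tab [] t_133 x_133 gcls = true := by decide +kernel

theorem o_135 : check tab [] t_135 x_135 gcls = true := by decide +kernel

theorem o_137 : check tab [] t_137 x_137 gcls = true := by decide +kernel

theorem o_139 : check tab [] t_139 x_139 gcls = true := by decide +kernel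

theorem o_143 : check tab [] t_143 x_143 gcls = true := by decide +kernel

theorem o_155 : check tab [] t_155 x_155 gcls = true := by decide +kernel

theorem o_157 : check tab [] t_157 x_157 gcls = true := by decide +kernel

theorem o_162 : check tab [x_160, x_161] t_162 x_162 gcls = true := by decide +kernel

theorem o_163 : check tab [] t_163 x_163 gcls = true := by decide +kernel


end Crest.Agent.R017.E4TD45
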