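import Crest.Agent.R017.E4TDd_45

/-! # Row 17, E4 (StrU): pieces of the tree, direct half (helper45) -/

set_option autoImplicit false
set_option linter.all false
set_option maxHeartbeats 4000000
set_option maxRecDepth 20000

noncomputable section

namespace Crest.Agent.R017.E4TD45

open Crest.Agent.R017.Rg45 Crest.Agent.R017.Rg45.Tr
open Crest.Agent.R017.E4Lk45 Crest.Agent.R017.E4Fa45 Crest.Agent.R017.E4Lt45

theorem o_4 : check tab [x_3] t_4 x_4 gcls = true := by decide +kernel

theorem o_17 : check tab [x_14, x_16] t_17 x_17 gcls = true := by decide +kernel

theorem o_23 : check tab [] t_23 x_23 gcls = true := by decide +kernel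

theorem o_26 : check tab [x_25] t_26 x_26 gcls = true := by decide +kernel

theorem o_31 : check tab [x_30] t_31 x_31 gcls = true := by decide +kernel

theorem o_32 : check tab [] t_32 x_32 gcls = true := by decide +kernel

theorem o_41 : check tab [x_40] t_41 x_41 gcls = true := by decide +kernel

theorem o_45 : check tab [] t_45 x_45 gcls = true := by decide +kernel

theorem o_46 : check tab [x_45] t_46 x_46 gcls = true := by decide +kernel

theorem o_47 : check tab [] t_47 x_47 gcls = true := by decide +kernel

theorem o_52 : check tab [x_51] t_52 x_52 gcls = true := by decide +kernel

theorem o_53 : check tab [] t_53 x_53 gcls = true := by decide +kernel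

theorem o_55 : check tab [x_54] t_55 x_55 gcls = true := by decide +kernel

theorem o_62 : check tab [x_57, x_58, x_59, x_60, x_61] t_62 x_62 gcls = true := by decide +kernel

theorem o_67 : check tab [x_65, x_66] t_67 x_67 gcls = true := by decide +kernel

theorem o_68 : check tab [x_41, x_44, x_64, x_67] t_68 x_68 gcls = true := by decide +kernel

theorem o_69 : check tab [x_12, x_17, x_29, x_38, x_68] t_69 x_69 gcls = true := by decide +kernel

theorem o_70 : check tab [] t_70 x_70 gcls = true := by decide +kernel

theorem o_77 : check tab [x_76] t_77 x_77 gcls = true := by decide +kernel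

theorem o_80 : check tab [x_79] t_80 x_80 gcls = true := by decide +kernel

theorem o_87 : check tab [] t_87 x_87 gcls = true := by decide +kernel

theorem o_97 : check tab [x_96] t_97 x_97 gcls = true := by decide +kernel

theorem o_98 : check tab [] t_98 x_98 gcls = true := by decide +kernel

theorem o_99 : check tab [x_98] t_99 x_99 gcls = true := by decide +kernel

theorem o_101 : check tab [] t_101 x_101 gcls = true := by decide +kernel

theorem o_103 : check tab [] t_103 x_103 gcls = true := by decide +kernel

theorem o_105 : check tab [] t_105 x_105 gcls = true := by decide +kernel

theorem o_116 : check tab [] t_116 x_116 gcls = true := by decide +kernel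

theorem o_121 : check tab [x_120] t_121 x_121 gcls = true := by decide +kernel

theorem o_123 : check tab [x_122] t_123 x_123 gcls = true := by decide +kernel

theorem o_124 : check tab [x_112, x_117, x_118, x_119, x_121, x_123] t_124 x_124 gcls = true := by decide +kernel

theorem o_125 : check tab [] t_125 x_125 gcls = true := by decide +kernel

theorem o_128 : check tab [x_127] t_128 x_128 gcls = true := by decide +kernel

theorem o_131 : check tab [x_126, x_128, x_130] t_131 x_131 gcls = true := by decide +kernel

theorem o_138 : check tab [x_132, x_133, x_134, x_135, x_136, x_137] t_138 x_138 gcls = true := by decide +kernel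

theorem o_141 : check tab [x_93, x_100, x_107, x_109, x_124, x_131, x_138, x_140] t_141 x_141 gcls = true := by decide +kernel

theorem o_144 : check tab [] t_144 x_144 gcls = true := by decide +kernel

theorem o_149 : check tab [] t_149 x_149 gcls = true := by decide +kernel

theorem o_150 : check tab [x_148, x_149] t_150 x_150 gcls = true := by decide +kernel

theorem o_153 : check tab [] t_153 x_153 gcls = true := by decide +kernel

theorem o_154 : check tab [] t_154 x_154 gcls = true := by decide +kernel


end Crest.Agent.R017.E4TD45
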