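import Crest.Agent.R017.E4TDa_45
import Crest.Agent.R017.E4TDb_45
import Crest.Agent.R017.E4TDc_45
import Crest.Agent.R017.E4TDe_45

/-!
# Row 17, E4 (StrU): the direct half of the real inequality (helper45)
-/

set_option autoImplicit false
set_option linter.all false
set_option maxRecDepth 20000

namespace Crest.Agent.R017.E4TD45

open Crest.Agent.R017.Rg45 Crest.Agent.R017.E4Lk45 Crest.Agent.R017.E4Fa45
open Crest.Agent.R017.E4Lt45 Crest.Agent.R017.Bx918 Crest.Agent.R017.R8C918 Crest.Agent.R017.E4R70

theorem tab_ok : Rf45.tabOk 2160 (specs.map mk) (tab.map unC) = true := by decide +kernel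

theorem tab_pk : pkC (tab.map unC) tab = true := by decide +kernel

theorem tab_small : tab.all Cl.small = true := by decide +kernel

theorem gf_pk : pkK fD gf = true := by decide +kernel

theorem gcls_pk : pkSS cls gcls = true := by decide +kernel

theorem g_0 : Good tab gcls x_0 := good_of tab_small o_0 ag_nil

theorem g_1 : Good tab gcls x_1 := good_of tab_small o_1 ag_nil

theorem g_2 : Good tab gcls x_2 := good_of tab_small o_2 (ag_cons g_0 (ag_cons g_1 ag_nil))

theorem g_3 : Good tab gcls x_3 := good_of tab_small o_3 ag_nil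

theorem g_4 : Good tab gcls x_4 := good_of tab_small o_4 (ag_cons g_3 ag_nil)

theorem g_5 : Good tab gcls x_5 := good_of tab_small o_5 (ag_cons g_2 (ag_cons g_4 ag_nil))

theorem g_6 : Good tab gcls x_6 := good_of tab_small o_6 ag_nil

theorem g_7 : Good tab gcls x_7 := good_of tab_small o_7 ag_nil

theorem g_8 : Good tab gcls x_8 := good_of tab_small o_8 ag_nil

theorem g_9 : Good tab gcls x_9 := good_of tab_small o_9 ag_nil

theorem g_10 : Good tab gcls x_10 := good_of tab_small o_10 ag_nil

theorem g_11 : Good tab gcls x_11 := good_of tab_small o_11 (ag_cons g_10 ag_nil)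

theorem g_12 : Good tab gcls x_12 := good_of tab_small o_12 (ag_cons g_5 (ag_cons g_6 (ag_cons g_7 (ag_cons g_8 (ag_cons g_9 (ag_cons g_11 ag_nil))))))

theorem g_13 : Good tab gcls x_13 := good_of tab_small o_13 ag_nil

theorem g_14 : Good tab gcls x_14 := good_of tab_small o_14 (ag_cons g_13 ag_nil)

theorem g_15 : Good tab gcls x_15 := good_of tab_small o_15 ag_nil

theorem g_16 : Good tab gcls x_16 := good_of tab_small o_16 (ag_cons g_15 ag_nil)

theorem g_17 : Good tab gcls x_17 := good_of tab_small o_17 (ag_cons g_14 (ag_cons g_16 ag_nil))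

theorem g_18 : Good tab gcls x_18 := good_of tab_small o_18 ag_nil

theorem g_19 : Good tab gcls x_19 := good_of tab_small o_19 ag_nil

theorem g_20 : Good tab gcls x_20 := good_of tab_small o_20 ag_nil

theorem g_21 : Good tab gcls x_21 := good_of tab_small o_21 (ag_cons g_18 (ag_cons g_19 (ag_cons g_20 ag_nil)))

theorem g_22 : Good tab gcls x_22 := good_of tab_small o_22 ag_nil

theorem g_23 : Good tab gcls x_23 := good_of tab_small o_23 ag_nil

theorem g_24 : Good tab gcls x_24 := good_of tab_small o_24 (ag_cons g_22 (ag_cons g_23 ag_nil))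

theorem g_25 : Good tab gcls x_25 := good_of tab_small o_25 ag_nil

theorem g_26 : Good tab gcls x_26 := good_of tab_small o_26 (ag_cons g_25 ag_nil)

theorem g_27 : Good tab gcls x_27 := good_of tab_small o_27 ag_nil

theorem g_28 : Good tab gcls x_28 := good_of tab_small o_28 (ag_cons g_26 (ag_cons g_27 ag_nil))

theorem g_29 : Good tab gcls x_29 := good_of tab_small o_29 (ag_cons g_21 (ag_cons g_24 (ag_cons g_28 ag_nil)))

theorem g_30 : Good tab gcls x_30 := good_of tab_small o_30 ag_nil

theorem g_31 : Good tab gcls x_31 := good_of tab_small o_31 (ag_cons g_30 ag_nil)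

theorem g_32 : Good tab gcls x_32 := good_of tab_small o_32 ag_nil

theorem g_33 : Good tab gcls x_33 := good_of tab_small o_33 ag_nil

theorem g_34 : Good tab gcls x_34 := good_of tab_small o_34 ag_nil

theorem g_35 : Good tab gcls x_35 := good_of tab_small o_35 (ag_cons g_33 (ag_cons g_34 ag_nil))

theorem g_36 : Good tab gcls x_36 := good_of tab_small o_36 (ag_cons g_32 (ag_cons g_35 ag_nil))

theorem g_37 : Good tab gcls x_37 := good_of tab_small o_37 ag_nil

theorem g_38 : Good tab gcls x_38 := good_of tab_small o_38 (ag_cons g_31 (ag_cons g_36 (ag_cons g_37 ag_nil)))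

theorem g_39 : Good tab gcls x_39 := good_of tab_small o_39 ag_nil

theorem g_40 : Good tab gcls x_40 := good_of tab_small o_40 (ag_cons g_39 ag_nil)

theorem g_41 : Good tab gcls x_41 := good_of tab_small o_41 (ag_cons g_40 ag_nil)

theorem g_42 : Good tab gcls x_42 := good_of tab_small o_42 ag_nil

theorem g_43 : Good tab gcls x_43 := good_of tab_small o_43 (ag_cons g_42 ag_nil)

theorem g_44 : Good tab gcls x_44 := good_of tab_small o_44 (ag_cons g_43 ag_nil)

theorem g_45 : Good tab gcls x_45 := good_of tab_small o_45 ag_nil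

theorem g_46 : Good tab gcls x_46 := good_of tab_small o_46 (ag_cons g_45 ag_nil)

theorem g_47 : Good tab gcls x_47 := good_of tab_small o_47 ag_nil

theorem g_48 : Good tab gcls x_48 := good_of tab_small o_48 ag_nil

theorem g_49 : Good tab gcls x_49 := good_of tab_small o_49 (ag_cons g_47 (ag_cons g_48 ag_nil))

theorem g_50 : Good tab gcls x_50 := good_of tab_small o_50 ag_nil

theorem g_51 : Good tab gcls x_51 := good_of tab_small o_51 (ag_cons g_50 ag_nil)

theorem g_52 : Good tab gcls x_52 := good_of tab_small o_52 (ag_cons g_51 ag_nil)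

theorem g_53 : Good tab gcls x_53 := good_of tab_small o_53 ag_nil

theorem g_54 : Good tab gcls x_54 := good_of tab_small o_54 ag_nil

theorem g_55 : Good tab gcls x_55 := good_of tab_small o_55 (ag_cons g_54 ag_nil)

theorem g_56 : Good tab gcls x_56 := good_of tab_small o_56 ag_nil

theorem g_57 : Good tab gcls x_57 := good_of tab_small o_57 (ag_cons g_53 (ag_cons g_55 (ag_cons g_56 ag_nil)))

theorem g_58 : Good tab gcls x_58 := good_of tab_small o_58 ag_nil

theorem g_59 : Good tab gcls x_59 := good_of tab_small o_59 ag_nil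

theorem g_60 : Good tab gcls x_60 := good_of tab_small o_60 ag_nil

theorem g_61 : Good tab gcls x_61 := good_of tab_small o_61 ag_nil

theorem g_62 : Good tab gcls x_62 := good_of tab_small o_62 (ag_cons g_57 (ag_cons g_58 (ag_cons g_59 (ag_cons g_60 (ag_cons g_61 ag_nil)))))

theorem g_63 : Good tab gcls x_63 := good_of tab_small o_63 ag_nil

theorem g_64 : Good tab gcls x_64 := good_of tab_small o_64 (ag_cons g_46 (ag_cons g_49 (ag_cons g_52 (ag_cons g_62 (ag_cons g_63 ag_nil)))))

theorem g_65 : Good tab gcls x_65 := good_of tab_small o_65 ag_nil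

theorem g_66 : Good tab gcls x_66 := good_of tab_small o_66 ag_nil

theorem g_67 : Good tab gcls x_67 := good_of tab_small o_67 (ag_cons g_65 (ag_cons g_66 ag_nil))

theorem g_68 : Good tab gcls x_68 := good_of tab_small o_68 (ag_cons g_41 (ag_cons g_44 (ag_cons g_64 (ag_cons g_67 ag_nil))))

theorem g_69 : Good tab gcls x_69 := good_of tab_small o_69 (ag_cons g_12 (ag_cons g_17 (ag_cons g_29 (ag_cons g_38 (ag_cons g_68 ag_nil)))))

theorem g_70 : Good tab gcls x_70 := good_of tab_small o_70 ag_nil

theorem g_71 : Good tab gcls x_71 := good_of tab_small o_71 (ag_cons g_70 ag_nil)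

theorem g_72 : Good tab gcls x_72 := good_of tab_small o_72 ag_nil

theorem g_73 : Good tab gcls x_73 := good_of tab_small o_73 ag_nil

theorem g_74 : Good tab gcls x_74 := good_of tab_small o_74 ag_nil

theorem g_75 : Good tab gcls x_75 := good_of tab_small o_75 (ag_cons g_72 (ag_cons g_73 (ag_cons g_74 ag_nil)))

theorem g_76 : Good tab gcls x_76 := good_of tab_small o_76 ag_nil

theorem g_77 : Good tab gcls x_77 := good_of tab_small o_77 (ag_cons g_76 ag_nil)

theorem g_78 : Good tab gcls x_78 := good_of tab_small o_78 (ag_cons g_71 (ag_cons g_75 (ag_cons g_77 ag_nil)))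

theorem g_79 : Good tab gcls x_79 := good_of tab_small o_79 ag_nil

theorem g_80 : Good tab gcls x_80 := good_of tab_small o_80 (ag_cons g_79 ag_nil)

theorem g_81 : Good tab gcls x_81 := good_of tab_small o_81 ag_nil

theorem g_82 : Good tab gcls x_82 := good_of tab_small o_82 (ag_cons g_81 ag_nil)

theorem g_83 : Good tab gcls x_83 := good_of tab_small o_83 (ag_cons g_80 (ag_cons g_82 ag_nil))

theorem g_84 : Good tab gcls x_84 := good_of tab_small o_84 ag_nil

theorem g_85 : Good tab gcls x_85 := good_of tab_small o_85 ag_nil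

theorem g_86 : Good tab gcls x_86 := good_of tab_small o_86 ag_nil

theorem g_87 : Good tab gcls x_87 := good_of tab_small o_87 ag_nil

theorem g_88 : Good tab gcls x_88 := good_of tab_small o_88 ag_nil

theorem g_89 : Good tab gcls x_89 := good_of tab_small o_89 (ag_cons g_88 ag_nil)

theorem g_90 : Good tab gcls x_90 := good_of tab_small o_90 (ag_cons g_84 (ag_cons g_85 (ag_cons g_86 (ag_cons g_87 (ag_cons g_89 ag_nil)))))

theorem g_91 : Good tab gcls x_91 := good_of tab_small o_91 ag_nil

theorem g_92 : Good tab gcls x_92 := good_of tab_small o_92 (ag_cons g_91 ag_nil)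

theorem g_93 : Good tab gcls x_93 := good_of tab_small o_93 (ag_cons g_83 (ag_cons g_90 (ag_cons g_92 ag_nil)))

theorem g_94 : Good tab gcls x_94 := good_of tab_small o_94 ag_nil

theorem g_95 : Good tab gcls x_95 := good_of tab_small o_95 (ag_cons g_94 ag_nil)

theorem g_96 : Good tab gcls x_96 := good_of tab_small o_96 ag_nil

theorem g_97 : Good tab gcls x_97 := good_of tab_small o_97 (ag_cons g_96 ag_nil)

theorem g_98 : Good tab gcls x_98 := good_of tab_small o_98 ag_nil

theorem g_99 : Good tab gcls x_99 := good_of tab_small o_99 (ag_cons g_98 ag_nil)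

theorem g_100 : Good tab gcls x_100 := good_of tab_small o_100 (ag_cons g_95 (ag_cons g_97 (ag_cons g_99 ag_nil)))

theorem g_101 : Good tab gcls x_101 := good_of tab_small o_101 ag_nil

theorem g_102 : Good tab gcls x_102 := good_of tab_small o_102 ag_nil

theorem g_103 : Good tab gcls x_103 := good_of tab_small o_103 ag_nil

theorem g_104 : Good tab gcls x_104 := good_of tab_small o_104 ag_nil

theorem g_105 : Good tab gcls x_105 := good_of tab_small o_105 ag_nil

theorem g_106 : Good tab gcls x_106 := good_of tab_small o_106 ag_nil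

theorem g_107 : Good tab gcls x_107 := good_of tab_small o_107 (ag_cons g_101 (ag_cons g_102 (ag_cons g_103 (ag_cons g_104 (ag_cons g_105 (ag_cons g_106 ag_nil))))))

theorem g_108 : Good tab gcls x_108 := good_of tab_small o_108 ag_nil

theorem g_109 : Good tab gcls x_109 := good_of tab_small o_109 (ag_cons g_108 ag_nil)

theorem g_110 : Good tab gcls x_110 := good_of tab_small o_110 ag_nil

theorem g_111 : Good tab gcls x_111 := good_of tab_small o_111 (ag_cons g_110 ag_nil)

theorem g_112 : Good tab gcls x_112 := good_of tab_small o_112 (ag_cons g_111 ag_nil)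

theorem g_113 : Good tab gcls x_113 := good_of tab_small o_113 ag_nil

theorem g_114 : Good tab gcls x_114 := good_of tab_small o_114 ag_nil

theorem g_115 : Good tab gcls x_115 := good_of tab_small o_115 ag_nil

theorem g_116 : Good tab gcls x_116 := good_of tab_small o_116 ag_nil

theorem g_117 : Good tab gcls x_117 := good_of tab_small o_117 (ag_cons g_113 (ag_cons g_114 (ag_cons g_115 (ag_cons g_116 ag_nil))))

theorem g_118 : Good tab gcls x_118 := good_of tab_small o_118 ag_nil

theorem g_119 : Good tab gcls x_119 := good_of tab_small o_119 ag_nil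

theorem g_120 : Good tab gcls x_120 := good_of tab_small o_120 ag_nil

theorem g_121 : Good tab gcls x_121 := good_of tab_small o_121 (ag_cons g_120 ag_nil)

theorem g_122 : Good tab gcls x_122 := good_of tab_small o_122 ag_nil

theorem g_123 : Good tab gcls x_123 := good_of tab_small o_123 (ag_cons g_122 ag_nil)

theorem g_124 : Good tab gcls x_124 := good_of tab_small o_124 (ag_cons g_112 (ag_cons g_117 (ag_cons g_118 (ag_cons g_119 (ag_cons g_121 (ag_cons g_123 ag_nil))))))

theorem g_125 : Good tab gcls x_125 := good_of tab_small o_125 ag_nil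

theorem g_126 : Good tab gcls x_126 := good_of tab_small o_126 (ag_cons g_125 ag_nil)

theorem g_127 : Good tab gcls x_127 := good_of tab_small o_127 ag_nil

theorem g_128 : Good tab gcls x_128 := good_of tab_small o_128 (ag_cons g_127 ag_nil)

theorem g_129 : Good tab gcls x_129 := good_of tab_small o_129 ag_nil

theorem g_130 : Good tab gcls x_130 := good_of tab_small o_130 (ag_cons g_129 ag_nil)

theorem g_131 : Good tab gcls x_131 := good_of tab_small o_131 (ag_cons g_126 (ag_cons g_128 (ag_cons g_130 ag_nil)))

theorem g_132 : Good tab gcls x_132 := good_of tab_small o_132 ag_nil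

theorem g_133 : Good tab gcls x_133 := good_of tab_small o_133 ag_nil

theorem g_134 : Good tab gcls x_134 := good_of tab_small o_134 ag_nil

theorem g_135 : Good tab gcls x_135 := good_of tab_small o_135 ag_nil

theorem g_136 : Good tab gcls x_136 := good_of tab_small o_136 ag_nil

theorem g_137 : Good tab gcls x_137 := good_of tab_small o_137 ag_nil

theorem g_138 : Good tab gcls x_138 := good_of tab_small o_138 (ag_cons g_132 (ag_cons g_133 (ag_cons g_134 (ag_cons g_135 (ag_cons g_136 (ag_cons g_137 ag_nil))))))

theorem g_139 : Good tab gcls x_139 := good_of tab_small o_139 ag_nil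

theorem g_140 : Good tab gcls x_140 := good_of tab_small o_140 (ag_cons g_139 ag_nil)

theorem g_141 : Good tab gcls x_141 := good_of tab_small o_141 (ag_cons g_93 (ag_cons g_100 (ag_cons g_107 (ag_cons g_109 (ag_cons g_124 (ag_cons g_131 (ag_cons g_138 (ag_cons g_140 ag_nil))))))))

theorem g_142 : Good tab gcls x_142 := good_of tab_small o_142 ag_nil

theorem g_143 : Good tab gcls x_143 := good_of tab_small o_143 ag_nil

theorem g_144 : Good tab gcls x_144 := good_of tab_small o_144 ag_nil

theorem g_145 : Good tab gcls x_145 := good_of tab_small o_145 ag_nil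

theorem g_146 : Good tab gcls x_146 := good_of tab_small o_146 (ag_cons g_145 ag_nil)

theorem g_147 : Good tab gcls x_147 := good_of tab_small o_147 ag_nil

theorem g_148 : Good tab gcls x_148 := good_of tab_small o_148 ag_nil

theorem g_149 : Good tab gcls x_149 := good_of tab_small o_149 ag_nil

theorem g_150 : Good tab gcls x_150 := good_of tab_small o_150 (ag_cons g_148 (ag_cons g_149 ag_nil))

theorem g_151 : Good tab gcls x_151 := good_of tab_small o_151 (ag_cons g_144 (ag_cons g_146 (ag_cons g_147 (ag_cons g_150 ag_nil))))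

theorem g_152 : Good tab gcls x_152 := good_of tab_small o_152 ag_nil

theorem g_153 : Good tab gcls x_153 := good_of tab_small o_153 ag_nil

theorem g_154 : Good tab gcls x_154 := good_of tab_small o_154 ag_nil

theorem g_155 : Good tab gcls x_155 := good_of tab_small o_155 ag_nil

theorem g_156 : Good tab gcls x_156 := good_of tab_small o_156 ag_nil

theorem g_157 : Good tab gcls x_157 := good_of tab_small o_157 ag_nil

theorem g_158 : Good tab gcls x_158 := good_of tab_small o_158 ag_nil

theorem g_159 : Good tab gcls x_159 := good_of tab_small o_159 (ag_cons g_153 (ag_cons g_154 (ag_cons g_155 (ag_cons g_156 (ag_cons g_157 (ag_cons g_158 ag_nil))))))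

theorem g_160 : Good tab gcls x_160 := good_of tab_small o_160 ag_nil

theorem g_161 : Good tab gcls x_161 := good_of tab_small o_161 ag_nil

theorem g_162 : Good tab gcls x_162 := good_of tab_small o_162 (ag_cons g_160 (ag_cons g_161 ag_nil))

theorem g_163 : Good tab gcls x_163 := good_of tab_small o_163 ag_nil

theorem g_164 : Good tab gcls x_164 := good_of tab_small o_164 (ag_cons g_163 ag_nil)

theorem g_165 : Good tab gcls x_165 := good_of tab_small o_165 (ag_cons g_69 (ag_cons g_78 (ag_cons g_141 (ag_cons g_142 (ag_cons g_143 (ag_cons g_151 (ag_cons g_152 (ag_cons g_159 (ag_cons g_162 (ag_cons g_164 ag_nil))))))))))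

/-- **the direct half of the real inequality of E4** -/
theorem e4D : Gl918.E4D := by
  intro μ d r N M u a c x z B O h1 h2
  have hp := pt_nonneg B O
  have hl : (pt μ d r N M u a c x z).length ≤ 52 := by simp [pt]
  have h1' : ∃ p', pt μ d r N M u a c x z = 1 :: p' := ⟨_, rfl⟩
  have hc := g_165 _ ⟨hp, hl, h1'⟩ (pkK_holds _ _ gf_pk (fD_holds B O h1 h2))
    (pkSS_sat _ _ gcls_pk (cls_sat B O))
  obtain ⟨e, he, hek⟩ := Rf45.tabOk_sound hp h1' (specs.map mk) (tab.map unC) tab_ok
    (pkC_ok _ _ tab_pk hc)
  obtain ⟨sp, hsp, rfl⟩ := List.mem_map.1 he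
  have hc1 : z.c1 c ≤ c := by
    unfold Cls.c1
    linarith [O.η, O.b1, O.l]
  exact mk_goal B.d0 B.a0 (by linarith [B.u0]) hc1 O.s1 sp hek

end Crest.Agent.R017.E4TD45
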