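import Crest.Agent.R017.E4TDd_45

/-! # Row 17, E4 (StrU): pieces of the tree, direct half (helper45) -/

set_option autoImplicit false
set_option linter.all false
set_option maxHeartbeats 4000000
set_option maxRecDepth 20000

noncomputable section

namespace Crest.Agent.R017.E4TD45

open Crest.Agent.R017.Rg45 Crest.Agent.R017.Rg45.Tr
open Crest.Agent.R017.E4Lk45 Crest.Agent.R017.E4Fa45 Crest.Agent.R017.E4Lt45

theorem o_7 : check tab [] t_7 x_7 gcls = true := by decide +kernel

theorem o_10 : check tab [] t_10 x_10 gcls = true := by decide +kernel

theorem o_11 : check tab [x_10] t_11 x_11 gcls = true := by decide +kernel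

theorem o_24 : check tab [x_22, x_23] t_24 x_24 gcls = true := by decide +kernel

theorem o_29 : check tab [x_21, x_24, x_28] t_29 x_29 gcls = true := by decide +kernel

theorem o_30 : check tab [] t_30 x_30 gcls = true := by decide +kernel

theorem o_33 : check tab [] t_33 x_33 gcls = true := by decide +kernel

theorem o_37 : check tab [] t_37 x_37 gcls = true := by decide +kernel

theorem o_38 : check tab [x_31, x_36, x_37] t_38 x_38 gcls = true := by decide +kernel

theorem o_42 : check tab [] t_42 x_42 gcls = true := by decide +kernel

theorem o_43 : check tab [x_42] t_43 x_43 gcls = true := by decide +kernel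

theorem o_49 : check tab [x_47, x_48] t_49 x_49 gcls = true := by decide +kernel

theorem o_54 : check tab [] t_54 x_54 gcls = true := by decide +kernel

theorem o_57 : check tab [x_53, x_55, x_56] t_57 x_57 gcls = true := by decide +kernel

theorem o_61 : check tab [] t_61 x_61 gcls = true := by decide +kernel

theorem o_63 : check tab [] t_63 x_63 gcls = true := by decide +kernel

theorem o_65 : check tab [] t_65 x_65 gcls = true := by decide +kernel

theorem o_78 : check tab [x_71, x_75, x_77] t_78 x_78 gcls = true := by decide +kernel

theorem o_79 : check tab [] t_79 x_79 gcls = true := by decide +kernel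

theorem o_82 : check tab [x_81] t_82 x_82 gcls = true := by decide +kernel

theorem o_83 : check tab [x_80, x_82] t_83 x_83 gcls = true := by decide +kernel

theorem o_85 : check tab [] t_85 x_85 gcls = true := by decide +kernel

theorem o_91 : check tab [] t_91 x_91 gcls = true := by decide +kernel

theorem o_96 : check tab [] t_96 x_96 gcls = true := by decide +kernel

theorem o_107 : check tab [x_101, x_102, x_103, x_104, x_105, x_106] t_107 x_107 gcls = true := by decide +kernel

theorem o_109 : check tab [x_108] t_109 x_109 gcls = true := by decide +kernel

theorem o_110 : check tab [] t_110 x_110 gcls = true := by decide +kernel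

theorem o_112 : check tab [x_111] t_112 x_112 gcls = true := by decide +kernel

theorem o_113 : check tab [] t_113 x_113 gcls = true := by decide +kernel

theorem o_114 : check tab [] t_114 x_114 gcls = true := by decide +kernel

theorem o_118 : check tab [] t_118 x_118 gcls = true := by decide +kernel

theorem o_120 : check tab [] t_120 x_120 gcls = true := by decide +kernel

theorem o_122 : check tab [] t_122 x_122 gcls = true := by decide +kernel

theorem o_127 : check tab [] t_127 x_127 gcls = true := by decide +kernel

theorem o_136 : check tab [] t_136 x_136 gcls = true := by decide +kernel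

theorem o_146 : check tab [x_145] t_146 x_146 gcls = true := by decide +kernel

theorem o_148 : check tab [] t_148 x_148 gcls = true := by decide +kernel

theorem o_151 : check tab [x_144, x_146, x_147, x_150] t_151 x_151 gcls = true := by decide +kernel

theorem o_156 : check tab [] t_156 x_156 gcls = true := by decide +kernel

theorem o_158 : check tab [] t_158 x_158 gcls = true := by decide +kernel

theorem o_160 : check tab [] t_160 x_160 gcls = true := by decide +kernel

theorem o_165 : check tab [x_69, x_78, x_141, x_142, x_143, x_151, x_152, x_159, x_162, x_164] t_165 x_165 gcls = true := by decide +kernel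


end Crest.Agent.R017.E4TD45
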