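import Crest.Agent.R017.E4THa_45
import Crest.Agent.R017.E4THb_45
import Crest.Agent.R017.E4THc_45
import Crest.Agent.R017.E4THe_45
import Crest.Agent.R017.E4THf_45
import Crest.Agent.R017.E4THg_45
import Crest.Agent.R017.E4THh_45
import Crest.Agent.R017.E4THi_45

/-!
# Row 17, E4 of class E (StrUX): the direct, `tb ≤ tT`, half of the real inequality (helper45)
-/

set_option autoImplicit false
set_option linter.all false
set_option maxRecDepth 20000

namespace Crest.Agent.R017.E4TH45

open Crest.Agent.R017.Rh45 Crest.Agent.R017.E4Lke918 Crest.Agent.R017.E4FaE45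
open Crest.Agent.R017.E4LtE45 Crest.Agent.R017.Bx918 Crest.Agent.R017.R8C918 Crest.Agent.R017.E4R70

theorem tab_ok : Rf45.tabOk 2160 (specs.map mkE) (tab.map unC) = true := by decide +kernel

theorem tab_pk : pkC (tab.map unC) tab = true := by decide +kernel

theorem tab_small : tab.all Cl.small = true := by decide +kernel

theorem gf_pk : pkK fD0 gf = true := by decide +kernel

theorem gcls_pk : pkSS cls0 gcls = true := by decide +kernel

theorem g_0 : Good tab gcls x_0 := good_of tab_small o_0 ag_nil

theorem g_1 : Good tab gcls x_1 := good_of tab_small o_1 ag_nil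

theorem g_2 : Good tab gcls x_2 := good_of tab_small o_2 (ag_cons g_1 ag_nil)

theorem g_3 : Good tab gcls x_3 := good_of tab_small o_3 ag_nil

theorem g_4 : Good tab gcls x_4 := good_of tab_small o_4 (ag_cons g_0 (ag_cons g_2 (ag_cons g_3 ag_nil)))

theorem g_5 : Good tab gcls x_5 := good_of tab_small o_5 ag_nil

theorem g_6 : Good tab gcls x_6 := good_of tab_small o_6 ag_nil

theorem g_7 : Good tab gcls x_7 := good_of tab_small o_7 ag_nil

theorem g_8 : Good tab gcls x_8 := good_of tab_small o_8 (ag_cons g_6 (ag_cons g_7 ag_nil))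

theorem g_9 : Good tab gcls x_9 := good_of tab_small o_9 (ag_cons g_8 ag_nil)

theorem g_10 : Good tab gcls x_10 := good_of tab_small o_10 ag_nil

theorem g_11 : Good tab gcls x_11 := good_of tab_small o_11 (ag_cons g_10 ag_nil)

theorem g_12 : Good tab gcls x_12 := good_of tab_small o_12 (ag_cons g_4 (ag_cons g_5 (ag_cons g_9 (ag_cons g_11 ag_nil))))

theorem g_13 : Good tab gcls x_13 := good_of tab_small o_13 ag_nil

theorem g_14 : Good tab gcls x_14 := good_of tab_small o_14 (ag_cons g_13 ag_nil)

theorem g_15 : Good tab gcls x_15 := good_of tab_small o_15 ag_nil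

theorem g_16 : Good tab gcls x_16 := good_of tab_small o_16 (ag_cons g_15 ag_nil)

theorem g_17 : Good tab gcls x_17 := good_of tab_small o_17 ag_nil

theorem g_18 : Good tab gcls x_18 := good_of tab_small o_18 ag_nil

theorem g_19 : Good tab gcls x_19 := good_of tab_small o_19 ag_nil

theorem g_20 : Good tab gcls x_20 := good_of tab_small o_20 (ag_cons g_17 (ag_cons g_18 (ag_cons g_19 ag_nil)))

theorem g_21 : Good tab gcls x_21 := good_of tab_small o_21 ag_nil

theorem g_22 : Good tab gcls x_22 := good_of tab_small o_22 (ag_cons g_21 ag_nil)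

theorem g_23 : Good tab gcls x_23 := good_of tab_small o_23 (ag_cons g_14 (ag_cons g_16 (ag_cons g_20 (ag_cons g_22 ag_nil))))

theorem g_24 : Good tab gcls x_24 := good_of tab_small o_24 ag_nil

theorem g_25 : Good tab gcls x_25 := good_of tab_small o_25 (ag_cons g_12 (ag_cons g_23 (ag_cons g_24 ag_nil)))

theorem g_26 : Good tab gcls x_26 := good_of tab_small o_26 ag_nil

theorem g_27 : Good tab gcls x_27 := good_of tab_small o_27 ag_nil

theorem g_28 : Good tab gcls x_28 := good_of tab_small o_28 (ag_cons g_27 ag_nil)

theorem g_29 : Good tab gcls x_29 := good_of tab_small o_29 ag_nil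

theorem g_30 : Good tab gcls x_30 := good_of tab_small o_30 (ag_cons g_29 ag_nil)

theorem g_31 : Good tab gcls x_31 := good_of tab_small o_31 ag_nil

theorem g_32 : Good tab gcls x_32 := good_of tab_small o_32 ag_nil

theorem g_33 : Good tab gcls x_33 := good_of tab_small o_33 (ag_cons g_30 (ag_cons g_31 (ag_cons g_32 ag_nil)))

theorem g_34 : Good tab gcls x_34 := good_of tab_small o_34 ag_nil

theorem g_35 : Good tab gcls x_35 := good_of tab_small o_35 (ag_cons g_34 ag_nil)

theorem g_36 : Good tab gcls x_36 := good_of tab_small o_36 (ag_cons g_26 (ag_cons g_28 (ag_cons g_33 (ag_cons g_35 ag_nil))))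

theorem g_37 : Good tab gcls x_37 := good_of tab_small o_37 ag_nil

theorem g_38 : Good tab gcls x_38 := good_of tab_small o_38 ag_nil

theorem g_39 : Good tab gcls x_39 := good_of tab_small o_39 (ag_cons g_38 ag_nil)

theorem g_40 : Good tab gcls x_40 := good_of tab_small o_40 ag_nil

theorem g_41 : Good tab gcls x_41 := good_of tab_small o_41 ag_nil

theorem g_42 : Good tab gcls x_42 := good_of tab_small o_42 (ag_cons g_40 (ag_cons g_41 ag_nil))

theorem g_43 : Good tab gcls x_43 := good_of tab_small o_43 ag_nil

theorem g_44 : Good tab gcls x_44 := good_of tab_small o_44 (ag_cons g_43 ag_nil)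

theorem g_45 : Good tab gcls x_45 := good_of tab_small o_45 (ag_cons g_37 (ag_cons g_39 (ag_cons g_42 (ag_cons g_44 ag_nil))))

theorem g_46 : Good tab gcls x_46 := good_of tab_small o_46 ag_nil

theorem g_47 : Good tab gcls x_47 := good_of tab_small o_47 ag_nil

theorem g_48 : Good tab gcls x_48 := good_of tab_small o_48 ag_nil

theorem g_49 : Good tab gcls x_49 := good_of tab_small o_49 (ag_cons g_47 (ag_cons g_48 ag_nil))

theorem g_50 : Good tab gcls x_50 := good_of tab_small o_50 ag_nil

theorem g_51 : Good tab gcls x_51 := good_of tab_small o_51 ag_nil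

theorem g_52 : Good tab gcls x_52 := good_of tab_small o_52 ag_nil

theorem g_53 : Good tab gcls x_53 := good_of tab_small o_53 (ag_cons g_52 ag_nil)

theorem g_54 : Good tab gcls x_54 := good_of tab_small o_54 (ag_cons g_51 (ag_cons g_53 ag_nil))

theorem g_55 : Good tab gcls x_55 := good_of tab_small o_55 ag_nil

theorem g_56 : Good tab gcls x_56 := good_of tab_small o_56 ag_nil

theorem g_57 : Good tab gcls x_57 := good_of tab_small o_57 (ag_cons g_56 ag_nil)

theorem g_58 : Good tab gcls x_58 := good_of tab_small o_58 ag_nil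

theorem g_59 : Good tab gcls x_59 := good_of tab_small o_59 (ag_cons g_57 (ag_cons g_58 ag_nil))

theorem g_60 : Good tab gcls x_60 := good_of tab_small o_60 (ag_cons g_49 (ag_cons g_50 (ag_cons g_54 (ag_cons g_55 (ag_cons g_59 ag_nil)))))

theorem g_61 : Good tab gcls x_61 := good_of tab_small o_61 ag_nil

theorem g_62 : Good tab gcls x_62 := good_of tab_small o_62 ag_nil

theorem g_63 : Good tab gcls x_63 := good_of tab_small o_63 (ag_cons g_62 ag_nil)

theorem g_64 : Good tab gcls x_64 := good_of tab_small o_64 (ag_cons g_63 ag_nil)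

theorem g_65 : Good tab gcls x_65 := good_of tab_small o_65 ag_nil

theorem g_66 : Good tab gcls x_66 := good_of tab_small o_66 ag_nil

theorem g_67 : Good tab gcls x_67 := good_of tab_small o_67 (ag_cons g_65 (ag_cons g_66 ag_nil))

theorem g_68 : Good tab gcls x_68 := good_of tab_small o_68 (ag_cons g_61 (ag_cons g_64 (ag_cons g_67 ag_nil)))

theorem g_69 : Good tab gcls x_69 := good_of tab_small o_69 ag_nil

theorem g_70 : Good tab gcls x_70 := good_of tab_small o_70 (ag_cons g_68 (ag_cons g_69 ag_nil))

theorem g_71 : Good tab gcls x_71 := good_of tab_small o_71 ag_nil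

theorem g_72 : Good tab gcls x_72 := good_of tab_small o_72 (ag_cons g_60 (ag_cons g_70 (ag_cons g_71 ag_nil)))

theorem g_73 : Good tab gcls x_73 := good_of tab_small o_73 ag_nil

theorem g_74 : Good tab gcls x_74 := good_of tab_small o_74 ag_nil

theorem g_75 : Good tab gcls x_75 := good_of tab_small o_75 (ag_cons g_74 ag_nil)

theorem g_76 : Good tab gcls x_76 := good_of tab_small o_76 (ag_cons g_73 (ag_cons g_75 ag_nil))

theorem g_77 : Good tab gcls x_77 := good_of tab_small o_77 ag_nil

theorem g_78 : Good tab gcls x_78 := good_of tab_small o_78 (ag_cons g_77 ag_nil)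

theorem g_79 : Good tab gcls x_79 := good_of tab_small o_79 ag_nil

theorem g_80 : Good tab gcls x_80 := good_of tab_small o_80 (ag_cons g_78 (ag_cons g_79 ag_nil))

theorem g_81 : Good tab gcls x_81 := good_of tab_small o_81 ag_nil

theorem g_82 : Good tab gcls x_82 := good_of tab_small o_82 (ag_cons g_81 ag_nil)

theorem g_83 : Good tab gcls x_83 := good_of tab_small o_83 ag_nil

theorem g_84 : Good tab gcls x_84 := good_of tab_small o_84 (ag_cons g_80 (ag_cons g_82 (ag_cons g_83 ag_nil)))

theorem g_85 : Good tab gcls x_85 := good_of tab_small o_85 ag_nil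

theorem g_86 : Good tab gcls x_86 := good_of tab_small o_86 (ag_cons g_76 (ag_cons g_84 (ag_cons g_85 ag_nil)))

theorem g_87 : Good tab gcls x_87 := good_of tab_small o_87 ag_nil

theorem g_88 : Good tab gcls x_88 := good_of tab_small o_88 ag_nil

theorem g_89 : Good tab gcls x_89 := good_of tab_small o_89 ag_nil

theorem g_90 : Good tab gcls x_90 := good_of tab_small o_90 ag_nil

theorem g_91 : Good tab gcls x_91 := good_of tab_small o_91 (ag_cons g_89 (ag_cons g_90 ag_nil))

theorem g_92 : Good tab gcls x_92 := good_of tab_small o_92 ag_nil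

theorem g_93 : Good tab gcls x_93 := good_of tab_small o_93 (ag_cons g_87 (ag_cons g_88 (ag_cons g_91 (ag_cons g_92 ag_nil))))

theorem g_94 : Good tab gcls x_94 := good_of tab_small o_94 ag_nil

theorem g_95 : Good tab gcls x_95 := good_of tab_small o_95 (ag_cons g_94 ag_nil)

theorem g_96 : Good tab gcls x_96 := good_of tab_small o_96 ag_nil

theorem g_97 : Good tab gcls x_97 := good_of tab_small o_97 ag_nil

theorem g_98 : Good tab gcls x_98 := good_of tab_small o_98 ag_nil

theorem g_99 : Good tab gcls x_99 := good_of tab_small o_99 ag_nil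

theorem g_100 : Good tab gcls x_100 := good_of tab_small o_100 (ag_cons g_98 (ag_cons g_99 ag_nil))

theorem g_101 : Good tab gcls x_101 := good_of tab_small o_101 (ag_cons g_93 (ag_cons g_95 (ag_cons g_96 (ag_cons g_97 (ag_cons g_100 ag_nil)))))

theorem g_102 : Good tab gcls x_102 := good_of tab_small o_102 ag_nil

theorem g_103 : Good tab gcls x_103 := good_of tab_small o_103 (ag_cons g_101 (ag_cons g_102 ag_nil))

theorem g_104 : Good tab gcls x_104 := good_of tab_small o_104 ag_nil

theorem g_105 : Good tab gcls x_105 := good_of tab_small o_105 ag_nil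

theorem g_106 : Good tab gcls x_106 := good_of tab_small o_106 ag_nil

theorem g_107 : Good tab gcls x_107 := good_of tab_small o_107 (ag_cons g_104 (ag_cons g_105 (ag_cons g_106 ag_nil)))

theorem g_108 : Good tab gcls x_108 := good_of tab_small o_108 (ag_cons g_107 ag_nil)

theorem g_109 : Good tab gcls x_109 := good_of tab_small o_109 ag_nil

theorem g_110 : Good tab gcls x_110 := good_of tab_small o_110 (ag_cons g_109 ag_nil)

theorem g_111 : Good tab gcls x_111 := good_of tab_small o_111 ag_nil

theorem g_112 : Good tab gcls x_112 := good_of tab_small o_112 ag_nil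

theorem g_113 : Good tab gcls x_113 := good_of tab_small o_113 ag_nil

theorem g_114 : Good tab gcls x_114 := good_of tab_small o_114 ag_nil

theorem g_115 : Good tab gcls x_115 := good_of tab_small o_115 (ag_cons g_110 (ag_cons g_111 (ag_cons g_112 (ag_cons g_113 (ag_cons g_114 ag_nil)))))

theorem g_116 : Good tab gcls x_116 := good_of tab_small o_116 ag_nil

theorem g_117 : Good tab gcls x_117 := good_of tab_small o_117 (ag_cons g_116 ag_nil)

theorem g_118 : Good tab gcls x_118 := good_of tab_small o_118 (ag_cons g_108 (ag_cons g_115 (ag_cons g_117 ag_nil)))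

theorem g_119 : Good tab gcls x_119 := good_of tab_small o_119 ag_nil

theorem g_120 : Good tab gcls x_120 := good_of tab_small o_120 (ag_cons g_118 (ag_cons g_119 ag_nil))

theorem g_121 : Good tab gcls x_121 := good_of tab_small o_121 ag_nil

theorem g_122 : Good tab gcls x_122 := good_of tab_small o_122 (ag_cons g_103 (ag_cons g_120 (ag_cons g_121 ag_nil)))

theorem g_123 : Good tab gcls x_123 := good_of tab_small o_123 (ag_cons g_25 (ag_cons g_36 (ag_cons g_45 (ag_cons g_46 (ag_cons g_72 (ag_cons g_86 (ag_cons g_122 ag_nil)))))))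

theorem g_124 : Good tab gcls x_124 := good_of tab_small o_124 ag_nil

theorem g_125 : Good tab gcls x_125 := good_of tab_small o_125 ag_nil

theorem g_126 : Good tab gcls x_126 := good_of tab_small o_126 (ag_cons g_124 (ag_cons g_125 ag_nil))

theorem g_127 : Good tab gcls x_127 := good_of tab_small o_127 ag_nil

theorem g_128 : Good tab gcls x_128 := good_of tab_small o_128 ag_nil

theorem g_129 : Good tab gcls x_129 := good_of tab_small o_129 ag_nil

theorem g_130 : Good tab gcls x_130 := good_of tab_small o_130 ag_nil

theorem g_131 : Good tab gcls x_131 := good_of tab_small o_131 (ag_cons g_127 (ag_cons g_128 (ag_cons g_129 (ag_cons g_130 ag_nil))))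

theorem g_132 : Good tab gcls x_132 := good_of tab_small o_132 ag_nil

theorem g_133 : Good tab gcls x_133 := good_of tab_small o_133 (ag_cons g_126 (ag_cons g_131 (ag_cons g_132 ag_nil)))

theorem g_134 : Good tab gcls x_134 := good_of tab_small o_134 ag_nil

theorem g_135 : Good tab gcls x_135 := good_of tab_small o_135 ag_nil

theorem g_136 : Good tab gcls x_136 := good_of tab_small o_136 (ag_cons g_134 (ag_cons g_135 ag_nil))

theorem g_137 : Good tab gcls x_137 := good_of tab_small o_137 ag_nil

theorem g_138 : Good tab gcls x_138 := good_of tab_small o_138 ag_nil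

theorem g_139 : Good tab gcls x_139 := good_of tab_small o_139 (ag_cons g_136 (ag_cons g_137 (ag_cons g_138 ag_nil)))

theorem g_140 : Good tab gcls x_140 := good_of tab_small o_140 ag_nil

theorem g_141 : Good tab gcls x_141 := good_of tab_small o_141 (ag_cons g_133 (ag_cons g_139 (ag_cons g_140 ag_nil)))

theorem g_142 : Good tab gcls x_142 := good_of tab_small o_142 ag_nil

theorem g_143 : Good tab gcls x_143 := good_of tab_small o_143 ag_nil

theorem g_144 : Good tab gcls x_144 := good_of tab_small o_144 ag_nil

theorem g_145 : Good tab gcls x_145 := good_of tab_small o_145 ag_nil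

theorem g_146 : Good tab gcls x_146 := good_of tab_small o_146 (ag_cons g_144 (ag_cons g_145 ag_nil))

theorem g_147 : Good tab gcls x_147 := good_of tab_small o_147 ag_nil

theorem g_148 : Good tab gcls x_148 := good_of tab_small o_148 ag_nil

theorem g_149 : Good tab gcls x_149 := good_of tab_small o_149 (ag_cons g_142 (ag_cons g_143 (ag_cons g_146 (ag_cons g_147 (ag_cons g_148 ag_nil)))))

theorem g_150 : Good tab gcls x_150 := good_of tab_small o_150 ag_nil

theorem g_151 : Good tab gcls x_151 := good_of tab_small o_151 (ag_cons g_150 ag_nil)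

theorem g_152 : Good tab gcls x_152 := good_of tab_small o_152 ag_nil

theorem g_153 : Good tab gcls x_153 := good_of tab_small o_153 (ag_cons g_151 (ag_cons g_152 ag_nil))

theorem g_154 : Good tab gcls x_154 := good_of tab_small o_154 ag_nil

theorem g_155 : Good tab gcls x_155 := good_of tab_small o_155 ag_nil

theorem g_156 : Good tab gcls x_156 := good_of tab_small o_156 ag_nil

theorem g_157 : Good tab gcls x_157 := good_of tab_small o_157 (ag_cons g_154 (ag_cons g_155 (ag_cons g_156 ag_nil)))

theorem g_158 : Good tab gcls x_158 := good_of tab_small o_158 ag_nil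

theorem g_159 : Good tab gcls x_159 := good_of tab_small o_159 ag_nil

theorem g_160 : Good tab gcls x_160 := good_of tab_small o_160 (ag_cons g_153 (ag_cons g_157 (ag_cons g_158 (ag_cons g_159 ag_nil))))

theorem g_161 : Good tab gcls x_161 := good_of tab_small o_161 ag_nil

theorem g_162 : Good tab gcls x_162 := good_of tab_small o_162 (ag_cons g_149 (ag_cons g_160 (ag_cons g_161 ag_nil)))

theorem g_163 : Good tab gcls x_163 := good_of tab_small o_163 ag_nil

theorem g_164 : Good tab gcls x_164 := good_of tab_small o_164 ag_nil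

theorem g_165 : Good tab gcls x_165 := good_of tab_small o_165 (ag_cons g_164 ag_nil)

theorem g_166 : Good tab gcls x_166 := good_of tab_small o_166 (ag_cons g_163 (ag_cons g_165 ag_nil))

theorem g_167 : Good tab gcls x_167 := good_of tab_small o_167 ag_nil

theorem g_168 : Good tab gcls x_168 := good_of tab_small o_168 (ag_cons g_166 (ag_cons g_167 ag_nil))

theorem g_169 : Good tab gcls x_169 := good_of tab_small o_169 ag_nil

theorem g_170 : Good tab gcls x_170 := good_of tab_small o_170 (ag_cons g_169 ag_nil)

theorem g_171 : Good tab gcls x_171 := good_of tab_small o_171 (ag_cons g_170 ag_nil)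

theorem g_172 : Good tab gcls x_172 := good_of tab_small o_172 ag_nil

theorem g_173 : Good tab gcls x_173 := good_of tab_small o_173 (ag_cons g_172 ag_nil)

theorem g_174 : Good tab gcls x_174 := good_of tab_small o_174 ag_nil

theorem g_175 : Good tab gcls x_175 := good_of tab_small o_175 (ag_cons g_171 (ag_cons g_173 (ag_cons g_174 ag_nil)))

theorem g_176 : Good tab gcls x_176 := good_of tab_small o_176 ag_nil

theorem g_177 : Good tab gcls x_177 := good_of tab_small o_177 (ag_cons g_168 (ag_cons g_175 (ag_cons g_176 ag_nil)))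

theorem g_178 : Good tab gcls x_178 := good_of tab_small o_178 ag_nil

theorem g_179 : Good tab gcls x_179 := good_of tab_small o_179 (ag_cons g_178 ag_nil)

theorem g_180 : Good tab gcls x_180 := good_of tab_small o_180 ag_nil

theorem g_181 : Good tab gcls x_181 := good_of tab_small o_181 ag_nil

theorem g_182 : Good tab gcls x_182 := good_of tab_small o_182 (ag_cons g_180 (ag_cons g_181 ag_nil))

theorem g_183 : Good tab gcls x_183 := good_of tab_small o_183 ag_nil

theorem g_184 : Good tab gcls x_184 := good_of tab_small o_184 (ag_cons g_179 (ag_cons g_182 (ag_cons g_183 ag_nil)))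

theorem g_185 : Good tab gcls x_185 := good_of tab_small o_185 ag_nil

theorem g_186 : Good tab gcls x_186 := good_of tab_small o_186 ag_nil

theorem g_187 : Good tab gcls x_187 := good_of tab_small o_187 (ag_cons g_186 ag_nil)

theorem g_188 : Good tab gcls x_188 := good_of tab_small o_188 ag_nil

theorem g_189 : Good tab gcls x_189 := good_of tab_small o_189 (ag_cons g_185 (ag_cons g_187 (ag_cons g_188 ag_nil)))

theorem g_190 : Good tab gcls x_190 := good_of tab_small o_190 ag_nil

theorem g_191 : Good tab gcls x_191 := good_of tab_small o_191 (ag_cons g_184 (ag_cons g_189 (ag_cons g_190 ag_nil)))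

theorem g_192 : Good tab gcls x_192 := good_of tab_small o_192 ag_nil

theorem g_193 : Good tab gcls x_193 := good_of tab_small o_193 ag_nil

theorem g_194 : Good tab gcls x_194 := good_of tab_small o_194 (ag_cons g_192 (ag_cons g_193 ag_nil))

theorem g_195 : Good tab gcls x_195 := good_of tab_small o_195 ag_nil

theorem g_196 : Good tab gcls x_196 := good_of tab_small o_196 ag_nil

theorem g_197 : Good tab gcls x_197 := good_of tab_small o_197 ag_nil

theorem g_198 : Good tab gcls x_198 := good_of tab_small o_198 ag_nil

theorem g_199 : Good tab gcls x_199 := good_of tab_small o_199 (ag_cons g_195 (ag_cons g_196 (ag_cons g_197 (ag_cons g_198 ag_nil))))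

theorem g_200 : Good tab gcls x_200 := good_of tab_small o_200 ag_nil

theorem g_201 : Good tab gcls x_201 := good_of tab_small o_201 (ag_cons g_194 (ag_cons g_199 (ag_cons g_200 ag_nil)))

theorem g_202 : Good tab gcls x_202 := good_of tab_small o_202 ag_nil

theorem g_203 : Good tab gcls x_203 := good_of tab_small o_203 (ag_cons g_202 ag_nil)

theorem g_204 : Good tab gcls x_204 := good_of tab_small o_204 (ag_cons g_203 ag_nil)

theorem g_205 : Good tab gcls x_205 := good_of tab_small o_205 ag_nil

theorem g_206 : Good tab gcls x_206 := good_of tab_small o_206 (ag_cons g_204 (ag_cons g_205 ag_nil))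

theorem g_207 : Good tab gcls x_207 := good_of tab_small o_207 ag_nil

theorem g_208 : Good tab gcls x_208 := good_of tab_small o_208 (ag_cons g_206 (ag_cons g_207 ag_nil))

theorem g_209 : Good tab gcls x_209 := good_of tab_small o_209 ag_nil

theorem g_210 : Good tab gcls x_210 := good_of tab_small o_210 (ag_cons g_201 (ag_cons g_208 (ag_cons g_209 ag_nil)))

theorem g_211 : Good tab gcls x_211 := good_of tab_small o_211 ag_nil

theorem g_212 : Good tab gcls x_212 := good_of tab_small o_212 ag_nil

theorem g_213 : Good tab gcls x_213 := good_of tab_small o_213 (ag_cons g_211 (ag_cons g_212 ag_nil))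

theorem g_214 : Good tab gcls x_214 := good_of tab_small o_214 ag_nil

theorem g_215 : Good tab gcls x_215 := good_of tab_small o_215 ag_nil

theorem g_216 : Good tab gcls x_216 := good_of tab_small o_216 (ag_cons g_214 (ag_cons g_215 ag_nil))

theorem g_217 : Good tab gcls x_217 := good_of tab_small o_217 ag_nil

theorem g_218 : Good tab gcls x_218 := good_of tab_small o_218 (ag_cons g_213 (ag_cons g_216 (ag_cons g_217 ag_nil)))

theorem g_219 : Good tab gcls x_219 := good_of tab_small o_219 ag_nil

theorem g_220 : Good tab gcls x_220 := good_of tab_small o_220 ag_nil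

theorem g_221 : Good tab gcls x_221 := good_of tab_small o_221 ag_nil

theorem g_222 : Good tab gcls x_222 := good_of tab_small o_222 (ag_cons g_219 (ag_cons g_220 (ag_cons g_221 ag_nil)))

theorem g_223 : Good tab gcls x_223 := good_of tab_small o_223 ag_nil

theorem g_224 : Good tab gcls x_224 := good_of tab_small o_224 (ag_cons g_222 (ag_cons g_223 ag_nil))

theorem g_225 : Good tab gcls x_225 := good_of tab_small o_225 ag_nil

theorem g_226 : Good tab gcls x_226 := good_of tab_small o_226 ag_nil

theorem g_227 : Good tab gcls x_227 := good_of tab_small o_227 ag_nil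

theorem g_228 : Good tab gcls x_228 := good_of tab_small o_228 (ag_cons g_224 (ag_cons g_225 (ag_cons g_226 (ag_cons g_227 ag_nil))))

theorem g_229 : Good tab gcls x_229 := good_of tab_small o_229 ag_nil

theorem g_230 : Good tab gcls x_230 := good_of tab_small o_230 (ag_cons g_228 (ag_cons g_229 ag_nil))

theorem g_231 : Good tab gcls x_231 := good_of tab_small o_231 ag_nil

theorem g_232 : Good tab gcls x_232 := good_of tab_small o_232 (ag_cons g_218 (ag_cons g_230 (ag_cons g_231 ag_nil)))

theorem g_233 : Good tab gcls x_233 := good_of tab_small o_233 (ag_cons g_141 (ag_cons g_162 (ag_cons g_177 (ag_cons g_191 (ag_cons g_210 (ag_cons g_232 ag_nil))))))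

theorem g_234 : Good tab gcls x_234 := good_of tab_small o_234 ag_nil

theorem g_235 : Good tab gcls x_235 := good_of tab_small o_235 ag_nil

theorem g_236 : Good tab gcls x_236 := good_of tab_small o_236 (ag_cons g_234 (ag_cons g_235 ag_nil))

theorem g_237 : Good tab gcls x_237 := good_of tab_small o_237 ag_nil

theorem g_238 : Good tab gcls x_238 := good_of tab_small o_238 ag_nil

theorem g_239 : Good tab gcls x_239 := good_of tab_small o_239 ag_nil

theorem g_240 : Good tab gcls x_240 := good_of tab_small o_240 (ag_cons g_238 (ag_cons g_239 ag_nil))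

theorem g_241 : Good tab gcls x_241 := good_of tab_small o_241 (ag_cons g_237 (ag_cons g_240 ag_nil))

theorem g_242 : Good tab gcls x_242 := good_of tab_small o_242 (ag_cons g_236 (ag_cons g_241 ag_nil))

theorem g_243 : Good tab gcls x_243 := good_of tab_small o_243 ag_nil

theorem g_244 : Good tab gcls x_244 := good_of tab_small o_244 (ag_cons g_242 (ag_cons g_243 ag_nil))

theorem g_245 : Good tab gcls x_245 := good_of tab_small o_245 ag_nil

theorem g_246 : Good tab gcls x_246 := good_of tab_small o_246 ag_nil

theorem g_247 : Good tab gcls x_247 := good_of tab_small o_247 ag_nil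

theorem g_248 : Good tab gcls x_248 := good_of tab_small o_248 (ag_cons g_247 ag_nil)

theorem g_249 : Good tab gcls x_249 := good_of tab_small o_249 (ag_cons g_248 ag_nil)

theorem g_250 : Good tab gcls x_250 := good_of tab_small o_250 ag_nil

theorem g_251 : Good tab gcls x_251 := good_of tab_small o_251 ag_nil

theorem g_252 : Good tab gcls x_252 := good_of tab_small o_252 (ag_cons g_251 ag_nil)

theorem g_253 : Good tab gcls x_253 := good_of tab_small o_253 ag_nil

theorem g_254 : Good tab gcls x_254 := good_of tab_small o_254 (ag_cons g_245 (ag_cons g_246 (ag_cons g_249 (ag_cons g_250 (ag_cons g_252 (ag_cons g_253 ag_nil))))))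

theorem g_255 : Good tab gcls x_255 := good_of tab_small o_255 ag_nil

theorem g_256 : Good tab gcls x_256 := good_of tab_small o_256 (ag_cons g_254 (ag_cons g_255 ag_nil))

theorem g_257 : Good tab gcls x_257 := good_of tab_small o_257 ag_nil

theorem g_258 : Good tab gcls x_258 := good_of tab_small o_258 (ag_cons g_244 (ag_cons g_256 (ag_cons g_257 ag_nil)))

theorem g_259 : Good tab gcls x_259 := good_of tab_small o_259 ag_nil

theorem g_260 : Good tab gcls x_260 := good_of tab_small o_260 ag_nil

theorem g_261 : Good tab gcls x_261 := good_of tab_small o_261 (ag_cons g_260 ag_nil)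

theorem g_262 : Good tab gcls x_262 := good_of tab_small o_262 (ag_cons g_261 ag_nil)

theorem g_263 : Good tab gcls x_263 := good_of tab_small o_263 ag_nil

theorem g_264 : Good tab gcls x_264 := good_of tab_small o_264 ag_nil

theorem g_265 : Good tab gcls x_265 := good_of tab_small o_265 (ag_cons g_264 ag_nil)

theorem g_266 : Good tab gcls x_266 := good_of tab_small o_266 (ag_cons g_263 (ag_cons g_265 ag_nil))

theorem g_267 : Good tab gcls x_267 := good_of tab_small o_267 (ag_cons g_259 (ag_cons g_262 (ag_cons g_266 ag_nil)))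

theorem g_268 : Good tab gcls x_268 := good_of tab_small o_268 ag_nil

theorem g_269 : Good tab gcls x_269 := good_of tab_small o_269 (ag_cons g_267 (ag_cons g_268 ag_nil))

theorem g_270 : Good tab gcls x_270 := good_of tab_small o_270 ag_nil

theorem g_271 : Good tab gcls x_271 := good_of tab_small o_271 ag_nil

theorem g_272 : Good tab gcls x_272 := good_of tab_small o_272 (ag_cons g_270 (ag_cons g_271 ag_nil))

theorem g_273 : Good tab gcls x_273 := good_of tab_small o_273 ag_nil

theorem g_274 : Good tab gcls x_274 := good_of tab_small o_274 ag_nil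

theorem g_275 : Good tab gcls x_275 := good_of tab_small o_275 ag_nil

theorem g_276 : Good tab gcls x_276 := good_of tab_small o_276 (ag_cons g_275 ag_nil)

theorem g_277 : Good tab gcls x_277 := good_of tab_small o_277 ag_nil

theorem g_278 : Good tab gcls x_278 := good_of tab_small o_278 (ag_cons g_272 (ag_cons g_273 (ag_cons g_274 (ag_cons g_276 (ag_cons g_277 ag_nil)))))

theorem g_279 : Good tab gcls x_279 := good_of tab_small o_279 ag_nil

theorem g_280 : Good tab gcls x_280 := good_of tab_small o_280 (ag_cons g_278 (ag_cons g_279 ag_nil))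

theorem g_281 : Good tab gcls x_281 := good_of tab_small o_281 ag_nil

theorem g_282 : Good tab gcls x_282 := good_of tab_small o_282 (ag_cons g_269 (ag_cons g_280 (ag_cons g_281 ag_nil)))

theorem g_283 : Good tab gcls x_283 := good_of tab_small o_283 (ag_cons g_123 (ag_cons g_233 (ag_cons g_258 (ag_cons g_282 ag_nil))))

/-- **the direct, `tb ≤ tT`, half of the real inequality of E4 in class E** -/
theorem e4D0 : Ge918.E4D0 := by
  intro μ d r N M u a c x z B O h1 h2 h3
  have hp := pt_nonneg B O (tT_nonneg B O)
  have hl : (ptE μ d r N M u a c x (z.tT N u) z).length ≤ 56 := by simp [ptE]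
  have h1' : ∃ p', ptE μ d r N M u a c x (z.tT N u) z = 1 :: p' := ⟨_, rfl⟩
  have hc := g_283 _ ⟨hp, hl, h1'⟩ (pkK_holds _ _ gf_pk (fD0_holds B O h1 h2 h3))
    (pkSS_sat _ _ gcls_pk (cls0_sat B O))
  obtain ⟨e, he, hek⟩ := Rf45.tabOk_sound hp h1' (specs.map mkE) (tab.map unC) tab_ok
    (pkC_ok _ _ tab_pk hc)
  obtain ⟨sp, hsp, rfl⟩ := List.mem_map.1 he
  have hc1 : z.c1 c ≤ c := by
    unfold Cls.c1
    linarith [O.η, O.b1, O.l]
  exact mkE_goal B.d0 B.a0 (by linarith [B.u0]) hc1 O.s1 sp hek

end Crest.Agent.R017.E4TH45
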