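import Crest.Agent.R017.E4TJa_45

/-!
# Row 17, E4 of class E (StrUX): the dual, `tT ≤ tb`, half of the real inequality (helper45)
-/

set_option autoImplicit false
set_option linter.all false
set_option maxRecDepth 20000

namespace Crest.Agent.R017.E4TJ45

open Crest.Agent.R017.Rh45 Crest.Agent.R017.E4Lke918 Crest.Agent.R017.E4FaE45
open Crest.Agent.R017.E4LtE45 Crest.Agent.R017.Bx918 Crest.Agent.R017.R8C918 Crest.Agent.R017.E4R70

theorem tab_ok : Rf45.tabOk 180 (specs.map mkE) (tab.map unC) = true := by decide +kernel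

theorem tab_pk : pkC (tab.map unC) tab = true := by decide +kernel

theorem tab_small : tab.all Cl.small = true := by decide +kernel

theorem gf_pk : pkK fF1 gf = true := by decide +kernel

theorem gcls_pk : pkSS cls1 gcls = true := by decide +kernel

theorem g_0 : Good tab gcls x_0 := good_of tab_small o_0 ag_nil

theorem g_1 : Good tab gcls x_1 := good_of tab_small o_1 (ag_cons g_0 ag_nil)

theorem g_2 : Good tab gcls x_2 := good_of tab_small o_2 (ag_cons g_1 ag_nil)

theorem g_3 : Good tab gcls x_3 := good_of tab_small o_3 ag_nil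

theorem g_4 : Good tab gcls x_4 := good_of tab_small o_4 ag_nil

theorem g_5 : Good tab gcls x_5 := good_of tab_small o_5 ag_nil

theorem g_6 : Good tab gcls x_6 := good_of tab_small o_6 (ag_cons g_5 ag_nil)

theorem g_7 : Good tab gcls x_7 := good_of tab_small o_7 (ag_cons g_2 (ag_cons g_3 (ag_cons g_4 (ag_cons g_6 ag_nil))))

/-- **the dual, `tT ≤ tb`, half of the real inequality of E4 in class E** -/
theorem e4F1 : Ge918.E4F1 := by
  intro μ d r N M u a c x z B O h1 h2 h3
  have hp := pt_nonneg B O ((tT_nonneg B O).trans h3)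
  have hl : (ptE μ d r N M u a c x (z.tb N) z).length ≤ 56 := by simp [ptE]
  have h1' : ∃ p', ptE μ d r N M u a c x (z.tb N) z = 1 :: p' := ⟨_, rfl⟩
  have hc := g_7 _ ⟨hp, hl, h1'⟩ (pkK_holds _ _ gf_pk (fF1_holds B O h1 h2))
    (pkSS_sat _ _ gcls_pk (cls1_sat B O h3))
  obtain ⟨e, he, hek⟩ := Rf45.tabOk_sound hp h1' (specs.map mkE) (tab.map unC) tab_ok
    (pkC_ok _ _ tab_pk hc)
  obtain ⟨sp, hsp, rfl⟩ := List.mem_map.1 he
  have hc1 : z.c1 c ≤ c := by
    unfold Cls.c1
    linarith [O.η, O.b1, O.l]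
  exact mkE_goal B.d0 B.a0 (by linarith [B.u0]) hc1 O.s1 sp hek

end Crest.Agent.R017.E4TJ45
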