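import Crest.Agent.R017.E4TG_45
import Crest.Agent.R017.E4TH_45
import Crest.Agent.R017.E4TJ_45
import Crest.Agent.R017.E4TK_45

/-!
# Row 17, E4 of class E (StrUX): the real inequality (helper45)

`e4DE`, `e4FE` : the two halves of the real inequality of class E (texts of `E4Ge_918`), from the
four trees of certificates `E4TG_45` (dual, `tb ≤ tT`), `E4TH_45` (direct, `tb ≤ tT`), `E4TJ_45`
(dual, `tT ≤ tb`), `E4TK_45` (direct, `tT ≤ tb`).
-/

set_option autoImplicit false

namespace Crest.Agent.R017.E4TE45

/-- **the direct half of the real inequality of E4 in class E** -/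
theorem e4DE : Ge918.E4DE := Ge918.e4DE_of E4TH45.e4D0 E4TK45.e4D1

/-- **the dual half of the real inequality of E4 in class E** -/
theorem e4FE : Ge918.E4FE := Ge918.e4FE_of E4TG45.e4F0 E4TJ45.e4F1

end Crest.Agent.R017.E4TE45
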