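import Crest.Agent.R017.E4TFd_45

/-! # Row 17, E4 (StrU): pieces of the tree, dual half (helper45) -/

set_option autoImplicit false
set_option linter.all false
set_option maxHeartbeats 4000000
set_option maxRecDepth 20000

noncomputable section

namespace Crest.Agent.R017.E4TF45

open Crest.Agent.R017.Rg45 Crest.Agent.R017.Rg45.Tr
open Crest.Agent.R017.E4Lk45 Crest.Agent.R017.E4Fa45 Crest.Agent.R017.E4Lt45

theorem o_4 : check tab [x_1, x_3] t_4 x_4 gcls = true := by decide +kernel

theorem o_8 : check tab [] t_8 x_8 gcls = true := by decide +kernel

theorem o_13 : check tab [x_4, x_5, x_6, x_9, x_12] t_13 x_13 gcls = true := by decide +kernel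

theorem o_14 : check tab [] t_14 x_14 gcls = true := by decide +kernel

theorem o_16 : check tab [] t_16 x_16 gcls = true := by decide +kernel

theorem o_23 : check tab [] t_23 x_23 gcls = true := by decide +kernel

theorem o_28 : check tab [x_27] t_28 x_28 gcls = true := by decide +kernel

theorem o_30 : check tab [] t_30 x_30 gcls = true := by decide +kernel

theorem o_31 : check tab [] t_31 x_31 gcls = true := by decide +kernel

theorem o_32 : check tab [x_30, x_31] t_32 x_32 gcls = true := by decide +kernel

theorem o_34 : check tab [] t_34 x_34 gcls = true := by decide +kernel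

theorem o_38 : check tab [x_36, x_37] t_38 x_38 gcls = true := by decide +kernel

theorem o_40 : check tab [x_32, x_33, x_34, x_35, x_38, x_39] t_40 x_40 gcls = true := by decide +kernel

theorem o_44 : check tab [x_43] t_44 x_44 gcls = true := by decide +kernel

theorem o_45 : check tab [x_41, x_42, x_44] t_45 x_45 gcls = true := by decide +kernel

theorem o_48 : check tab [] t_48 x_48 gcls = true := by decide +kernel

theorem o_49 : check tab [] t_49 x_49 gcls = true := by decide +kernel

theorem o_51 : check tab [x_49, x_50] t_51 x_51 gcls = true := by decide +kernel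

theorem o_53 : check tab [x_51, x_52] t_53 x_53 gcls = true := by decide +kernel

theorem o_54 : check tab [x_40, x_45, x_46, x_47, x_48, x_53] t_54 x_54 gcls = true := by decide +kernel


end Crest.Agent.R017.E4TF45
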