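import Crest.Agent.R017.E4TFd_45

/-! # Row 17, E4 (StrU): pieces of the tree, dual half (helper45) -/

set_option autoImplicit false
set_option linter.all false
set_option maxHeartbeats 4000000
set_option maxRecDepth 20000

noncomputable section

namespace Crest.Agent.R017.E4TF45

open Crest.Agent.R017.Rg45 Crest.Agent.R017.Rg45.Tr
open Crest.Agent.R017.E4Lk45 Crest.Agent.R017.E4Fa45 Crest.Agent.R017.E4Lt45

theorem o_0 : check tab [] t_0 x_0 gcls = true := by decide +kernel

theorem o_1 : check tab [x_0] t_1 x_1 gcls = true := by decide +kernel

theorem o_11 : check tab [x_10] t_11 x_11 gcls = true := by decide +kernel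

theorem o_15 : check tab [] t_15 x_15 gcls = true := by decide +kernel

theorem o_18 : check tab [x_17] t_18 x_18 gcls = true := by decide +kernel

theorem o_19 : check tab [] t_19 x_19 gcls = true := by decide +kernel

theorem o_21 : check tab [] t_21 x_21 gcls = true := by decide +kernel

theorem o_22 : check tab [x_20, x_21] t_22 x_22 gcls = true := by decide +kernel

theorem o_24 : check tab [] t_24 x_24 gcls = true := by decide +kernel

theorem o_26 : check tab [x_25] t_26 x_26 gcls = true := by decide +kernel

theorem o_37 : check tab [] t_37 x_37 gcls = true := by decide +kernel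

theorem o_39 : check tab [] t_39 x_39 gcls = true := by decide +kernel

theorem o_41 : check tab [] t_41 x_41 gcls = true := by decide +kernel

theorem o_42 : check tab [] t_42 x_42 gcls = true := by decide +kernel

theorem o_43 : check tab [] t_43 x_43 gcls = true := by decide +kernel

theorem o_46 : check tab [] t_46 x_46 gcls = true := by decide +kernel

theorem o_47 : check tab [] t_47 x_47 gcls = true := by decide +kernel

theorem o_52 : check tab [] t_52 x_52 gcls = true := by decide +kernel

theorem o_57 : check tab [] t_57 x_57 gcls = true := by decide +kernel

theorem o_60 : check tab [] t_60 x_60 gcls = true := by decide +kernel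

theorem o_61 : check tab [x_13, x_29, x_54, x_55, x_56, x_57, x_58, x_59, x_60] t_61 x_61 gcls = true := by decide +kernel


end Crest.Agent.R017.E4TF45
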