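import Crest.Agent.R017.E4TFa_45
import Crest.Agent.R017.E4TFb_45
import Crest.Agent.R017.E4TFc_45

/-!
# Row 17, E4 (StrU): the dual half of the real inequality (helper45)
-/

set_option autoImplicit false
set_option linter.all false
set_option maxRecDepth 20000

namespace Crest.Agent.R017.E4TF45

open Crest.Agent.R017.Rg45 Crest.Agent.R017.E4Lk45 Crest.Agent.R017.E4Fa45
open Crest.Agent.R017.E4Lt45 Crest.Agent.R017.Bx918 Crest.Agent.R017.R8C918 Crest.Agent.R017.E4R70

theorem tab_ok : Rf45.tabOk 2160 (specs.map mk) (tab.map unC) = true := by decide +kernel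

theorem tab_pk : pkC (tab.map unC) tab = true := by decide +kernel

theorem tab_small : tab.all Cl.small = true := by decide +kernel

theorem gf_pk : pkK fF gf = true := by decide +kernel

theorem gcls_pk : pkSS cls gcls = true := by decide +kernel

theorem g_0 : Good tab gcls x_0 := good_of tab_small o_0 ag_nil

theorem g_1 : Good tab gcls x_1 := good_of tab_small o_1 (ag_cons g_0 ag_nil)

theorem g_2 : Good tab gcls x_2 := good_of tab_small o_2 ag_nil

theorem g_3 : Good tab gcls x_3 := good_of tab_small o_3 (ag_cons g_2 ag_nil)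

theorem g_4 : Good tab gcls x_4 := good_of tab_small o_4 (ag_cons g_1 (ag_cons g_3 ag_nil))

theorem g_5 : Good tab gcls x_5 := good_of tab_small o_5 ag_nil

theorem g_6 : Good tab gcls x_6 := good_of tab_small o_6 ag_nil

theorem g_7 : Good tab gcls x_7 := good_of tab_small o_7 ag_nil

theorem g_8 : Good tab gcls x_8 := good_of tab_small o_8 ag_nil

theorem g_9 : Good tab gcls x_9 := good_of tab_small o_9 (ag_cons g_7 (ag_cons g_8 ag_nil))

theorem g_10 : Good tab gcls x_10 := good_of tab_small o_10 ag_nil

theorem g_11 : Good tab gcls x_11 := good_of tab_small o_11 (ag_cons g_10 ag_nil)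

theorem g_12 : Good tab gcls x_12 := good_of tab_small o_12 (ag_cons g_11 ag_nil)

theorem g_13 : Good tab gcls x_13 := good_of tab_small o_13 (ag_cons g_4 (ag_cons g_5 (ag_cons g_6 (ag_cons g_9 (ag_cons g_12 ag_nil)))))

theorem g_14 : Good tab gcls x_14 := good_of tab_small o_14 ag_nil

theorem g_15 : Good tab gcls x_15 := good_of tab_small o_15 ag_nil

theorem g_16 : Good tab gcls x_16 := good_of tab_small o_16 ag_nil

theorem g_17 : Good tab gcls x_17 := good_of tab_small o_17 (ag_cons g_14 (ag_cons g_15 (ag_cons g_16 ag_nil)))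

theorem g_18 : Good tab gcls x_18 := good_of tab_small o_18 (ag_cons g_17 ag_nil)

theorem g_19 : Good tab gcls x_19 := good_of tab_small o_19 ag_nil

theorem g_20 : Good tab gcls x_20 := good_of tab_small o_20 ag_nil

theorem g_21 : Good tab gcls x_21 := good_of tab_small o_21 ag_nil

theorem g_22 : Good tab gcls x_22 := good_of tab_small o_22 (ag_cons g_20 (ag_cons g_21 ag_nil))

theorem g_23 : Good tab gcls x_23 := good_of tab_small o_23 ag_nil

theorem g_24 : Good tab gcls x_24 := good_of tab_small o_24 ag_nil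

theorem g_25 : Good tab gcls x_25 := good_of tab_small o_25 (ag_cons g_22 (ag_cons g_23 (ag_cons g_24 ag_nil)))

theorem g_26 : Good tab gcls x_26 := good_of tab_small o_26 (ag_cons g_25 ag_nil)

theorem g_27 : Good tab gcls x_27 := good_of tab_small o_27 ag_nil

theorem g_28 : Good tab gcls x_28 := good_of tab_small o_28 (ag_cons g_27 ag_nil)

theorem g_29 : Good tab gcls x_29 := good_of tab_small o_29 (ag_cons g_18 (ag_cons g_19 (ag_cons g_26 (ag_cons g_28 ag_nil))))

theorem g_30 : Good tab gcls x_30 := good_of tab_small o_30 ag_nil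

theorem g_31 : Good tab gcls x_31 := good_of tab_small o_31 ag_nil

theorem g_32 : Good tab gcls x_32 := good_of tab_small o_32 (ag_cons g_30 (ag_cons g_31 ag_nil))

theorem g_33 : Good tab gcls x_33 := good_of tab_small o_33 ag_nil

theorem g_34 : Good tab gcls x_34 := good_of tab_small o_34 ag_nil

theorem g_35 : Good tab gcls x_35 := good_of tab_small o_35 ag_nil

theorem g_36 : Good tab gcls x_36 := good_of tab_small o_36 ag_nil

theorem g_37 : Good tab gcls x_37 := good_of tab_small o_37 ag_nil

theorem g_38 : Good tab gcls x_38 := good_of tab_small o_38 (ag_cons g_36 (ag_cons g_37 ag_nil))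

theorem g_39 : Good tab gcls x_39 := good_of tab_small o_39 ag_nil

theorem g_40 : Good tab gcls x_40 := good_of tab_small o_40 (ag_cons g_32 (ag_cons g_33 (ag_cons g_34 (ag_cons g_35 (ag_cons g_38 (ag_cons g_39 ag_nil))))))

theorem g_41 : Good tab gcls x_41 := good_of tab_small o_41 ag_nil

theorem g_42 : Good tab gcls x_42 := good_of tab_small o_42 ag_nil

theorem g_43 : Good tab gcls x_43 := good_of tab_small o_43 ag_nil

theorem g_44 : Good tab gcls x_44 := good_of tab_small o_44 (ag_cons g_43 ag_nil)

theorem g_45 : Good tab gcls x_45 := good_of tab_small o_45 (ag_cons g_41 (ag_cons g_42 (ag_cons g_44 ag_nil)))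

theorem g_46 : Good tab gcls x_46 := good_of tab_small o_46 ag_nil

theorem g_47 : Good tab gcls x_47 := good_of tab_small o_47 ag_nil

theorem g_48 : Good tab gcls x_48 := good_of tab_small o_48 ag_nil

theorem g_49 : Good tab gcls x_49 := good_of tab_small o_49 ag_nil

theorem g_50 : Good tab gcls x_50 := good_of tab_small o_50 ag_nil

theorem g_51 : Good tab gcls x_51 := good_of tab_small o_51 (ag_cons g_49 (ag_cons g_50 ag_nil))

theorem g_52 : Good tab gcls x_52 := good_of tab_small o_52 ag_nil

theorem g_53 : Good tab gcls x_53 := good_of tab_small o_53 (ag_cons g_51 (ag_cons g_52 ag_nil))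

theorem g_54 : Good tab gcls x_54 := good_of tab_small o_54 (ag_cons g_40 (ag_cons g_45 (ag_cons g_46 (ag_cons g_47 (ag_cons g_48 (ag_cons g_53 ag_nil))))))

theorem g_55 : Good tab gcls x_55 := good_of tab_small o_55 ag_nil

theorem g_56 : Good tab gcls x_56 := good_of tab_small o_56 ag_nil

theorem g_57 : Good tab gcls x_57 := good_of tab_small o_57 ag_nil

theorem g_58 : Good tab gcls x_58 := good_of tab_small o_58 ag_nil

theorem g_59 : Good tab gcls x_59 := good_of tab_small o_59 ag_nil

theorem g_60 : Good tab gcls x_60 := good_of tab_small o_60 ag_nil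

theorem g_61 : Good tab gcls x_61 := good_of tab_small o_61 (ag_cons g_13 (ag_cons g_29 (ag_cons g_54 (ag_cons g_55 (ag_cons g_56 (ag_cons g_57 (ag_cons g_58 (ag_cons g_59 (ag_cons g_60 ag_nil)))))))))

/-- **the dual half of the real inequality of E4** -/
theorem e4F : Gl918.E4F := by
  intro μ d r N M u a c x z B O h1 h2
  have hp := pt_nonneg B O
  have hl : (pt μ d r N M u a c x z).length ≤ 52 := by simp [pt]
  have h1' : ∃ p', pt μ d r N M u a c x z = 1 :: p' := ⟨_, rfl⟩
  have hc := g_61 _ ⟨hp, hl, h1'⟩ (pkK_holds _ _ gf_pk (fF_holds B O h1 h2))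
    (pkSS_sat _ _ gcls_pk (cls_sat B O))
  obtain ⟨e, he, hek⟩ := Rf45.tabOk_sound hp h1' (specs.map mk) (tab.map unC) tab_ok
    (pkC_ok _ _ tab_pk hc)
  obtain ⟨sp, hsp, rfl⟩ := List.mem_map.1 he
  have hc1 : z.c1 c ≤ c := by
    unfold Cls.c1
    linarith [O.η, O.b1, O.l]
  exact mk_goal B.d0 B.a0 (by linarith [B.u0]) hc1 O.s1 sp hek

end Crest.Agent.R017.E4TF45
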