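import Crest.Agent.R017.E4TFd_45

/-! # Row 17, E4 (StrU): pieces of the tree, dual half (helper45) -/

set_option autoImplicit false
set_option linter.all false
set_option maxHeartbeats 4000000
set_option maxRecDepth 20000

noncomputable section

namespace Crest.Agent.R017.E4TF45

open Crest.Agent.R017.Rg45 Crest.Agent.R017.Rg45.Tr
open Crest.Agent.R017.E4Lk45 Crest.Agent.R017.E4Fa45 Crest.Agent.R017.E4Lt45

theorem o_2 : check tab [] t_2 x_2 gcls = true := by decide +kernel

theorem o_3 : check tab [x_2] t_3 x_3 gcls = true := by decide +kernel

theorem o_5 : check tab [] t_5 x_5 gcls = true := by decide +kernel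

theorem o_6 : check tab [] t_6 x_6 gcls = true := by decide +kernel

theorem o_7 : check tab [] t_7 x_7 gcls = true := by decide +kernel

theorem o_9 : check tab [x_7, x_8] t_9 x_9 gcls = true := by decide +kernel

theorem o_10 : check tab [] t_10 x_10 gcls = true := by decide +kernel

theorem o_12 : check tab [x_11] t_12 x_12 gcls = true := by decide +kernel

theorem o_17 : check tab [x_14, x_15, x_16] t_17 x_17 gcls = true := by decide +kernel

theorem o_20 : check tab [] t_20 x_20 gcls = true := by decide +kernel

theorem o_25 : check tab [x_22, x_23, x_24] t_25 x_25 gcls = true := by decide +kernel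

theorem o_27 : check tab [] t_27 x_27 gcls = true := by decide +kernel

theorem o_29 : check tab [x_18, x_19, x_26, x_28] t_29 x_29 gcls = true := by decide +kernel

theorem o_33 : check tab [] t_33 x_33 gcls = true := by decide +kernel

theorem o_35 : check tab [] t_35 x_35 gcls = true := by decide +kernel

theorem o_36 : check tab [] t_36 x_36 gcls = true := by decide +kernel

theorem o_50 : check tab [] t_50 x_50 gcls = true := by decide +kernel

theorem o_55 : check tab [] t_55 x_55 gcls = true := by decide +kernel

theorem o_56 : check tab [] t_56 x_56 gcls = true := by decide +kernel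

theorem o_58 : check tab [] t_58 x_58 gcls = true := by decide +kernel

theorem o_59 : check tab [] t_59 x_59 gcls = true := by decide +kernel


end Crest.Agent.R017.E4TF45
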