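import Crest.Agent.R017.E4TJd_45

/-! # Row 17, E4 of class E (StrUX): pieces of the tree, dual, `tT ≤ tb`, half (helper45) -/

set_option autoImplicit false
set_option linter.all false
set_option maxHeartbeats 4000000
set_option maxRecDepth 20000

noncomputable section

namespace Crest.Agent.R017.E4TJ45

open Crest.Agent.R017.Rh45 Crest.Agent.R017.Rh45.Tr
open Crest.Agent.R017.E4Lke918 Crest.Agent.R017.E4FaE45 Crest.Agent.R017.E4LtE45

theorem o_0 : check tab [] t_0 x_0 gcls = true := by decide +kernel

theorem o_1 : check tab [x_0] t_1 x_1 gcls = true := by decide +kernel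

theorem o_2 : check tab [x_1] t_2 x_2 gcls = true := by decide +kernel

theorem o_3 : check tab [] t_3 x_3 gcls = true := by decide +kernel

theorem o_4 : check tab [] t_4 x_4 gcls = true := by decide +kernel

theorem o_5 : check tab [] t_5 x_5 gcls = true := by decide +kernel

theorem o_6 : check tab [x_5] t_6 x_6 gcls = true := by decide +kernel

theorem o_7 : check tab [x_2, x_3, x_4, x_6] t_7 x_7 gcls = true := by decide +kernel


end Crest.Agent.R017.E4TJ45
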