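import Crest.Agent.R017.E4Nm_918

/-!
# Row 17, E4 (StrU): the `T`-numbers of the children are `≤ tT` (helper918)

* `y_bd` : the longest lump `y` of the list `N` of an `E4` box satisfies
  `200/61 y + topK + 9/8 d + 3/64 ≤ 2 N`, hence the near claims at `K ≥ 200/61 z₁` cost nothing
* `own_tT` : the number `Γ` of a child (own family) is `≤ tT + 2/3 d N1`
-/

set_option autoImplicit false

noncomputable section

namespace Crest.Agent.R017.Tc918

open Crest.Agent.R017.R8C918 Crest.Agent.R017.Bx918 Crest.Agent.R017.E4R70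
open Crest.Agent.R017.Nm918

variable {μ d r N M u a c x v : ℝ}

lemma na_third (B : Bx4 μ d r N M u a c x v) {y : ℝ} (hy : Adm N c y) :
    5 / 12 * r - 5 / 3 + 3 / 4 * (N + M + a + c) + 19 / 25 * d ≤
      3 / 4 * max 0 (a + c - y - 7 / 9 * (1 - M)) +
        max 0 (max (5 / 4 * N - 1) (N + u - 1)) / 3 := by
  have h := B.na y hy
  have h1 : r * (5 / 12 - 2 / 3 * d) - 5 / 3 + (3 / 4 + 2 * d) * (N + M + a + c) ≤
      Al d r (N + M + a) c := by
    unfold Al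
    exact (le_max_right _ _).trans (le_max_right _ _)
  unfold LA at h
  have h2 := B.N34
  have h3 := B.MN
  have h4 := B.r28
  have h5 := B.d0
  have h6 : 0 ≤ d * (N + M - r / 3 - 1 / 2 - 19 / 50) := mul_nonneg h5 (by linarith)
  nlinarith

lemma na_second (B : Bx4 μ d r N M u a c x v) {y : ℝ} (hy : Adm N c y) :
    r / 2 - 1 + (N + M + a - c) / 2 + 7 / 10 * d ≤
      3 / 4 * max 0 (a + c - y - 7 / 9 * (1 - M)) +
        max 0 (max (5 / 4 * N - 1) (N + u - 1)) / 3 := by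
  have h := B.na y hy
  have h1 : r * (8 / 3 * d + 1 / 2) - 1 + (N + M + a - c) / 2 ≤ Al d r (N + M + a) c := by
    unfold Al
    exact (le_max_left _ _).trans (le_max_right _ _)
  unfold LA at h
  have h2 := B.r1
  have h3 := B.cr
  have h4 := B.r28
  have h5 := B.d0
  have h7 := B.a12
  have h6 : 0 ≤ d * (8 / 3 * r - 1 - 2 * (a + c) - 7 / 10) := mul_nonneg h5 (by linarith)
  nlinarith

set_option maxHeartbeats 1000000 in
/-- **the longest lump is short** -/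
theorem y_bd (B : Bx4 μ d r N M u a c x v) {y : ℝ} (h1 : y ≤ N - 2 * u) (h2 : 2 * y ≤ M) :
    200 / 61 * y + topK N x + 9 / 8 * d + 3 / 64 ≤ 2 * N := by
  have b1 := B.near
  have b2 := B.μd
  have b3 := B.d42
  have b4 := B.d0
  have b5 := B.r1
  have b6 := B.D
  have b7 := B.a0
  have b8 := B.MN
  have b9 := B.N34
  have b10 := B.cr
  have b11 := B.P
  have b12 := B.c0
  have b13 := B.r28
  have b14 := B.N84
  have b15 := B.u5
  have b16 := B.q43
  have ht : topK N x ≤ 2 * N - 1 + 9 / 4 * x := by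
    unfold topK
    have := min_le_left (2 * N - 1) (3 / 4 * N)
    linarith
  have n0 := na_third B (y := 0) ⟨le_rfl, B.c0, Or.inl rfl⟩
  have m0 := na_second B (y := 0) ⟨le_rfl, B.c0, Or.inl rfl⟩
  have hc : 1 / 7 ≤ c := by linarith
  have he : max 0 (max (5 / 4 * N - 1) (N + u - 1)) = 0 ∨
      max 0 (max (5 / 4 * N - 1) (N + u - 1)) = 5 / 4 * N - 1 ∨
      max 0 (max (5 / 4 * N - 1) (N + u - 1)) = N + u - 1 := by
    rcases max_choice 0 (max (5 / 4 * N - 1) (N + u - 1)) with h | h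
    · exact Or.inl h
    · rcases max_choice (5 / 4 * N - 1) (N + u - 1) with h' | h'
      · exact Or.inr (Or.inl (h.trans h'))
      · exact Or.inr (Or.inr (h.trans h'))
  have he0 : 0 ≤ max 0 (max (5 / 4 * N - 1) (N + u - 1)) := le_max_left _ _
  have he1 : 5 / 4 * N - 1 ≤ max 0 (max (5 / 4 * N - 1) (N + u - 1)) :=
    (le_max_left _ _).trans (le_max_right _ _)
  have he2 : N + u - 1 ≤ max 0 (max (5 / 4 * N - 1) (N + u - 1)) :=
    (le_max_right _ _).trans (le_max_right _ _)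
  rcases B.shr with hx | ⟨hx1, hx2, hx3⟩
  · -- no shortening
    subst hx
    generalize max 0 (max (5 / 4 * N - 1) (N + u - 1)) = e at *
    rcases max_cases 0 (a + c - 0 - 7 / 9 * (1 - M)) with ⟨e1, e2⟩ | ⟨e1, e2⟩ <;>
    rw [e1] at n0 m0 <;> rcases he with he | he | he <;> linarith
  · -- shortening
    have hx0 := B.adm.1
    have n1 := na_third B (y := 4 / 5 - N) ⟨by linarith, by linarith, Or.inr (by linarith)⟩
    have m1 := na_second B (y := 4 / 5 - N) ⟨by linarith, by linarith, Or.inr (by linarith)⟩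
    have hn := B.need
    generalize max 0 (max (5 / 4 * N - 1) (N + u - 1)) = e at *
    rcases max_cases 0 (a + c - 7 / 9 * (1 - M)) with ⟨f1, f2⟩ | ⟨f1, f2⟩ <;>
    rw [f1] at hn <;>
    rcases max_cases 0 (a + c - 0 - 7 / 9 * (1 - M)) with ⟨e1, e2⟩ | ⟨e1, e2⟩ <;>
    rw [e1] at n0 m0 <;>
    rcases max_cases 0 (a + c - (4 / 5 - N) - 7 / 9 * (1 - M)) with ⟨e7, e8⟩ | ⟨e7, e8⟩ <;>
    rw [e7] at n1 m1 <;>
    rcases he with he | he | he <;> linarith

/-- the level is at most the length of the child list -/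
lemma lev_le (B : Bx4 μ d r N M u a c x v) {z : Cls} (h : z.Ok d r N M a c x) :
    z.v + z.s ≤ z.N1 N := by
  have h1 := h.hb
  have h2 := h.h64
  have h3 := h.β
  have h4 := B.N34
  have h5 := B.d42
  have h6 := min_le_right (2 * N - 1) (3 / 4 * N)
  have hx : x ≤ 1 / 36 := by
    have := B.d0
    rcases B.shr with h | ⟨h, -, -⟩ <;> linarith
  unfold topK at h1
  unfold Cls.N1
  linarith

/-- **the long lump costs nothing** -/
lemma far_le (B : Bx4 μ d r N M u a c x v) {z : Cls} (h : z.Ok d r N M a c x) {y : ℝ}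
    (h1 : y ≤ N - 2 * u) (h2 : 2 * y ≤ M) :
    z.v + z.s + 200 / 61 * y ≤ 2 * z.N1 N := by
  have h3 := y_bd B h1 h2
  have h4 := h.hb
  have h5 := h.h64
  unfold Cls.N1
  linarith

/-- the own family of a child (708, 90, 911) -/
def Ko (n L z₁ : ℝ) : ℝ := max (5 / 4 * n) (max (L + n / 2) (max (3 / 2 * L) (200 / 61 * z₁)))

/-- **main branch** : the number of a child at its own family, with tolerance `δ` -/
theorem own_tM (B : Bx4 μ d r N M u a c x v) {z : Cls} (h : z.Ok d r N M a c x) {y δ n L z₁ : ℝ}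
    (h1 : y ≤ N - 2 * u) (h2 : 2 * y ≤ M) (hδ : 0 ≤ δ) (hn : n ≤ z.N1 N + δ)
    (hL : L ≤ z.v + z.s + δ) (hz : z₁ ≤ y + δ) :
    max (max (2 * n) (L + n)) (4 / 3 * n + (L + Ko n L z₁) / 3) ≤ z.tM N + 4 * δ := by
  have e1 := lev_le B h
  have e2 := far_le B h h1 h2
  have m1 : 2 * z.N1 N ≤ z.tM N := le_max_left _ _
  have m2 : 3 / 2 * z.N1 N + 2 / 3 * (z.v + z.s) ≤ z.tM N := le_max_right _ _
  have hK : Ko n L z₁ ≤ 3 * (z.tM N + 4 * δ - 4 / 3 * n) - L := by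
    unfold Ko
    refine max_le ?_ (max_le ?_ (max_le ?_ ?_))
    · rcases le_total (z.v + z.s) (3 / 4 * z.N1 N) with h | h <;> linarith
    · linarith
    · linarith
    · linarith
  refine max_le (max_le ?_ ?_) ?_ <;> linarith

/-- **trivial branch**, with tolerance `δ` -/
theorem own_tB {z : Cls} {δ n L z₃ : ℝ} (hδ : 0 ≤ δ) (hn : n ≤ z.N1 N + δ)
    (hL : L ≤ z.v + z.s + δ) (h3 : z₃ ≤ z.u1 N u + δ) :
    max (L + n + z₃) (5 / 3 * n + L / 3) ≤ z.tB N u + 3 * δ := by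
  have m1 : z.v + z.s + z.N1 N + z.u1 N u ≤ z.tB N u := le_max_left _ _
  have m2 : 5 / 3 * z.N1 N + (z.v + z.s) / 3 ≤ z.tB N u := le_max_right _ _
  refine max_le ?_ ?_ <;> linarith

/-- **the number of a child is `≤ tT`**, loss `2 d z₃ ≤ 2/3 d N1 + ..` -/
theorem own_tT (B : Bx4 μ d r N M u a c x v) {z : Cls} (h : z.Ok d r N M a c x)
    {y δ n L z₁ z₃ : ℝ} (h1 : y ≤ N - 2 * u) (h2 : 2 * y ≤ M) (hδ : 0 ≤ δ)
    (hn : n ≤ z.N1 N + δ) (hL : L ≤ z.v + z.s + δ) (hz : z₁ ≤ y + δ) (h3 : z₃ ≤ z.u1 N u + δ) :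
    min (max (max (2 * n) (L + n)) (4 / 3 * n + (L + Ko n L z₁) / 3) + 2 * d * z₃)
      (max (L + n + z₃) (5 / 3 * n + L / 3)) ≤ z.tT N u + 2 / 3 * d * z.N1 N + 5 * δ := by
  have e1 := own_tM B h h1 h2 hδ hn hL hz
  have e2 := own_tB (z := z) (N := N) (u := u) hδ hn hL h3
  have hd := B.d0
  have hd1 := B.d42
  have hu : z.u1 N u ≤ z.N1 N / 3 := min_le_right _ _
  have p1 : d * z₃ ≤ d * (z.N1 N / 3 + δ) := mul_le_mul_of_nonneg_left (by linarith) hd
  have p2 : d * δ ≤ 1 / 42 * δ := mul_le_mul_of_nonneg_right hd1 hδ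
  have hN1 : 0 ≤ z.N1 N := by
    have := lev_le B h
    have := h.v
    have := h.s
    linarith
  have p3 : 0 ≤ d * z.N1 N := mul_nonneg hd hN1
  unfold Cls.tT
  rcases min_choice (z.tM N) (z.tB N u) with h' | h' <;> rw [h']
  · exact (min_le_left _ _).trans (by nlinarith)
  · exact (min_le_right _ _).trans (by nlinarith)

/-- **792's closed form `Gq` (own family `K0` of OwA_90 `= Ko`) at the class is `≤ tT`**, base `X`
(`κ₀ = log K / log X`), true lengths up to `δ` -/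
theorem own_Gq (B : Bx4 μ d r N M u a c x v) {z : Cls} (h : z.Ok d r N M a c x)
    {y κ₀ δ L n z₁ u' : ℝ} (h1 : y ≤ N - 2 * u) (h2 : 2 * y ≤ M) (hκ : 0 ≤ κ₀) (hδ : 0 ≤ δ)
    (hn : n ≤ κ₀ * z.N1 N + δ) (hL : L ≤ κ₀ * (z.v + z.s) + δ) (hz : z₁ ≤ κ₀ * y + δ)
    (hu : u' ≤ κ₀ * u + δ) :
    min (max (max (2 * n) (L + n)) (4 / 3 * n + (L + Ko n L z₁) / 3) + 2 / 3 * d * n)
      (max (L + n + min u' (n / 3)) (5 / 3 * n + L / 3)) ≤
      κ₀ * (z.tT N u + 2 / 3 * d * z.N1 N) + 5 * δ := by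
  have e1 := mul_le_mul_of_nonneg_left (lev_le B h) hκ
  have e2 := mul_le_mul_of_nonneg_left (far_le B h h1 h2) hκ
  have m1 : κ₀ * (2 * z.N1 N) ≤ κ₀ * z.tM N := mul_le_mul_of_nonneg_left (le_max_left _ _) hκ
  have m2 : κ₀ * (3 / 2 * z.N1 N + 2 / 3 * (z.v + z.s)) ≤ κ₀ * z.tM N :=
    mul_le_mul_of_nonneg_left (le_max_right _ _) hκ
  have m3 : κ₀ * (z.v + z.s + z.N1 N + z.u1 N u) ≤ κ₀ * z.tB N u :=
    mul_le_mul_of_nonneg_left (le_max_left _ _) hκ
  have m4 : κ₀ * (5 / 3 * z.N1 N + (z.v + z.s) / 3) ≤ κ₀ * z.tB N u :=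
    mul_le_mul_of_nonneg_left (le_max_right _ _) hκ
  have hd := B.d0
  have hd1 := B.d42
  have hN1 : 0 ≤ z.N1 N := by
    have := lev_le B h
    have := h.v
    have := h.s
    linarith
  have hκN : 0 ≤ κ₀ * z.N1 N := mul_nonneg hκ hN1
  have qu : min u' (n / 3) ≤ κ₀ * z.u1 N u + δ := by
    have e : κ₀ * z.u1 N u = min (κ₀ * u) (κ₀ * (z.N1 N / 3)) := by
      unfold Cls.u1
      rw [mul_min_of_nonneg _ _ hκ]
    rw [e, ← min_add_add_right]
    exact min_le_min (by linarith) (by linarith)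
  have hK : Ko n L z₁ ≤ 3 * (κ₀ * z.tM N + 4 * δ - 4 / 3 * n) - L := by
    unfold Ko
    refine max_le ?_ (max_le ?_ (max_le ?_ ?_))
    · rcases le_total (κ₀ * (z.v + z.s)) (3 / 4 * (κ₀ * z.N1 N)) with h | h <;> linarith
    · linarith
    · linarith
    · linarith
  have r1 : d * n ≤ d * (κ₀ * z.N1 N + δ) := mul_le_mul_of_nonneg_left hn hd
  have r2 : d * δ ≤ 1 / 42 * δ := mul_le_mul_of_nonneg_right hd1 hδ
  have r3 : 0 ≤ d * (κ₀ * z.N1 N) := mul_nonneg hd hκN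
  have hA : max (max (2 * n) (L + n)) (4 / 3 * n + (L + Ko n L z₁) / 3) + 2 / 3 * d * n ≤
      κ₀ * z.tM N + κ₀ * (2 / 3 * d * z.N1 N) + 5 * δ := by
    have : max (max (2 * n) (L + n)) (4 / 3 * n + (L + Ko n L z₁) / 3) ≤
        κ₀ * z.tM N + 4 * δ := by
      refine max_le (max_le ?_ ?_) ?_ <;> linarith
    nlinarith
  have hB : max (L + n + min u' (n / 3)) (5 / 3 * n + L / 3) ≤
      κ₀ * z.tB N u + κ₀ * (2 / 3 * d * z.N1 N) + 5 * δ := by
    refine max_le ?_ ?_ <;> nlinarith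
  have e : κ₀ * (z.tT N u + 2 / 3 * d * z.N1 N) + 5 * δ =
      min (κ₀ * z.tM N + κ₀ * (2 / 3 * d * z.N1 N) + 5 * δ)
        (κ₀ * z.tB N u + κ₀ * (2 / 3 * d * z.N1 N) + 5 * δ) := by
    unfold Cls.tT
    rw [min_add_add_right, min_add_add_right, ← mul_min_of_nonneg _ _ hκ]
    ring
  rw [e]
  exact min_le_min hA hB

/-- the second bound of `T₀` (743) : `min (2 n) (max (L + n + u₁) (5/3 n + L/3)) ≤ tT` -/
theorem low_tT {z : Cls} {κ₀ : ℝ} (hκ : 0 ≤ κ₀) :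
    min (2 * (κ₀ * z.N1 N)) (max (κ₀ * (z.v + z.s) + κ₀ * z.N1 N + κ₀ * z.u1 N u)
      (5 / 3 * (κ₀ * z.N1 N) + κ₀ * (z.v + z.s) / 3)) ≤ κ₀ * z.tT N u := by
  have e : κ₀ * z.tT N u = min (κ₀ * z.tM N) (κ₀ * z.tB N u) := by
    unfold Cls.tT
    rw [mul_min_of_nonneg _ _ hκ]
  rw [e]
  refine min_le_min ?_ ?_
  · have m1 : κ₀ * (2 * z.N1 N) ≤ κ₀ * z.tM N := mul_le_mul_of_nonneg_left (le_max_left _ _) hκ
    linarith
  · unfold Cls.tB
    rw [mul_max_of_nonneg _ _ hκ]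
    exact max_le_max (by linarith) (by linarith)

open Crest.Agent.R017.Prov71 Crest.Agent.R017.E5B71 in
/-- the longest lump of the list `N` of an exact square -/
theorem y_of {A : ℝ} {p : Fin 3 ⊕ Fin 5 → ℝ} {w : Kd → ℝ} (h : Sq5 A d p w) :
    cu p 2 / cκ p ≤ cN p / cκ p - 2 * (cu p 4 / cκ p) ∧ 2 * (cu p 2 / cκ p) ≤ cM p / cκ p := by
  have hκ := h.κpos
  obtain ⟨s1, s2, s3, s4⟩ := h.anti
  have hN : cN p = cu p 2 + cu p 3 + cu p 4 := rfl
  have hM : cM p = cu p 0 + cu p 1 := rfl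
  constructor
  · rw [le_sub_iff_add_le, ← mul_div_assoc, ← add_div]
    exact div_le_div_of_nonneg_right (by linarith) hκ.le
  · rw [← mul_div_assoc]
    exact div_le_div_of_nonneg_right (by linarith) hκ.le

end Crest.Agent.R017.Tc918
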