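import Mathlib

/-!
# Row 17, E4 / R8 (helper743): the `T`-number of a pure list at its own family, as a function

* `KG q v n zM zm` : the own family (`zM`, `zm` = largest, smallest lump)
* **`GT d q v z₁ z₂ z₃`** : the number
* `GT_mono`, `GT_slope`, **`GT_child`**, `GT_triv`, `GT_cont4`
-/

set_option autoImplicit false

noncomputable section

namespace Crest.Agent.R017.EnX743

/-- **own family** of a list of level `v`, length `n`, largest lump `zM`, smallest lump `zm` -/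
def KG (q v n zM zm : ℝ) : ℝ :=
  max (5 / 4 * n) (max (v + n / 2) (max (q * (v + n)) (max (3 / 2 * v)
    (min (n + zm) (200 / 61 * zM)))))

/-- the large number, `n`, `zM`, `zm` free -/
def GB (d q v n zM zm : ℝ) : ℝ :=
  min (max (max (2 * n) (v + n)) (4 / 3 * n + (v + KG q v n zM zm) / 3) + 2 * d * zm)
    (max (v + n + zm) (5 / 3 * n + (v - zm) / 3))

/-- **the number** -/
def GT (d q v z₁ z₂ z₃ : ℝ) : ℝ :=
  GB d q v (z₁ + z₂ + z₃) (max z₁ (max z₂ z₃)) (min z₁ (min z₂ z₃))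

section K
variable (q v n zM zm : ℝ)

lemma KG_a : 5 / 4 * n ≤ KG q v n zM zm := le_max_left _ _
lemma KG_b : v + n / 2 ≤ KG q v n zM zm := (le_max_left _ _).trans (le_max_right _ _)
lemma KG_q : q * (v + n) ≤ KG q v n zM zm :=
  (le_max_left _ _).trans ((le_max_right _ _).trans (le_max_right _ _))
lemma KG_c : 3 / 2 * v ≤ KG q v n zM zm :=
  (le_max_left _ _).trans ((le_max_right _ _).trans ((le_max_right _ _).trans (le_max_right _ _)))
lemma KG_d : min (n + zm) (200 / 61 * zM) ≤ KG q v n zM zm :=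
  (le_max_right _ _).trans ((le_max_right _ _).trans ((le_max_right _ _).trans (le_max_right _ _)))

lemma KG_le {x : ℝ} (h1 : 5 / 4 * n ≤ x) (h2 : v + n / 2 ≤ x) (h3 : q * (v + n) ≤ x)
    (h4 : 3 / 2 * v ≤ x) (h5 : min (n + zm) (200 / 61 * zM) ≤ x) : KG q v n zM zm ≤ x :=
  max_le h1 (max_le h2 (max_le h3 (max_le h4 h5)))

end K

lemma KG_mono {q v v' n n' zM zM' zm zm' : ℝ} (hq : 0 ≤ q) (hv : v ≤ v') (hn : n ≤ n')
    (hM : zM ≤ zM') (hm : zm ≤ zm') : KG q v n zM zm ≤ KG q v' n' zM' zm' := by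
  refine KG_le _ _ _ _ _ ((by linarith : 5 / 4 * n ≤ 5 / 4 * n').trans (KG_a ..))
    ((by linarith : v + n / 2 ≤ v' + n' / 2).trans (KG_b ..))
    ((mul_le_mul_of_nonneg_left (by linarith) hq).trans (KG_q ..))
    ((by linarith : 3 / 2 * v ≤ 3 / 2 * v').trans (KG_c ..))
    ((min_le_min (by linarith) (by linarith)).trans (KG_d ..))

lemma KG_slope {q v σ n zM zm : ℝ} (hq : 0 ≤ q) (hq1 : q ≤ 1) (hσ : 0 ≤ σ) :
    KG q (v + σ) n zM zm ≤ KG q v n zM zm + 3 / 2 * σ := by
  have h1 := KG_a q v n zM zm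
  have h2 := KG_b q v n zM zm
  have h3 := KG_q q v n zM zm
  have h4 := KG_c q v n zM zm
  have h5 := KG_d q v n zM zm
  have h6 : q * σ ≤ σ := mul_le_of_le_one_left hσ hq1
  refine KG_le _ _ _ _ _ (by linarith) (by linarith) ?_ (by linarith) (by linarith)
  calc q * (v + σ + n) = q * (v + n) + q * σ := by ring
    _ ≤ _ := by linarith

/-- monotone -/
lemma GB_mono {d q v v' n n' zM zM' zm zm' : ℝ} (hd : 0 ≤ d) (hq : 0 ≤ q) (hv : v ≤ v')
    (hn : n ≤ n') (hM : zM ≤ zM') (hm : zm ≤ zm') (hmn : 2 * (zm' - zm) ≤ 5 * (n' - n)) :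
    GB d q v n zM zm ≤ GB d q v' n' zM' zm' := by
  have hK := KG_mono hq hv hn hM hm
  have hdz : 2 * d * zm ≤ 2 * d * zm' := mul_le_mul_of_nonneg_left hm (by linarith)
  unfold GB
  refine min_le_min (add_le_add (max_le_max (max_le_max (by linarith) (by linarith))
    (by linarith)) hdz) (max_le_max (by linarith) (by linarith))

/-- slope one in the level -/
lemma GB_slope {d q v σ n zM zm : ℝ} (hq : 0 ≤ q) (hq1 : q ≤ 1) (hσ : 0 ≤ σ) :
    GB d q (v + σ) n zM zm ≤ GB d q v n zM zm + σ := by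
  have hK := KG_slope (v := v) (n := n) (zM := zM) (zm := zm) hq hq1 hσ
  unfold GB
  rw [min_add]
  refine min_le_min ?_ ?_
  · have h1 := le_max_left (max (2 * n) (v + n)) (4 / 3 * n + (v + KG q v n zM zm) / 3)
    have h2 := le_max_right (max (2 * n) (v + n)) (4 / 3 * n + (v + KG q v n zM zm) / 3)
    have h3 := (le_max_left (2 * n) (v + n)).trans h1
    have h4 := (le_max_right (2 * n) (v + n)).trans h1
    have : max (max (2 * n) (v + σ + n)) (4 / 3 * n + (v + σ + KG q (v + σ) n zM zm) / 3) ≤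
        max (max (2 * n) (v + n)) (4 / 3 * n + (v + KG q v n zM zm) / 3) + σ :=
      max_le (max_le (by linarith) (by linarith)) (by linarith)
    linarith
  · have h1 := le_max_left (v + n + zm) (5 / 3 * n + (v - zm) / 3)
    have h2 := le_max_right (v + n + zm) (5 / 3 * n + (v - zm) / 3)
    exact max_le (by linarith) (by linarith)

/-- **shorter lists at lower levels** -/
lemma GB_child {d q v n zM zM' zm zm' e : ℝ} (hd : 0 ≤ d) (hq : 0 ≤ q) (he : 0 ≤ e)
    (hM : zM ≤ zM') (hm : zm ≤ zm') (hme : zm' - zm ≤ e) :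
    GB d q (v - 2 * e) (n - e) zM zm ≤ GB d q v n zM' zm' - 2 * e := by
  have hK := KG_mono (v := v - 2 * e) (v' := v) (n := n - e) (n' := n) hq (by linarith)
    (by linarith) hM hm
  have hdz : 2 * d * zm ≤ 2 * d * zm' := mul_le_mul_of_nonneg_left hm (by linarith)
  unfold GB
  have e0 : ∀ a b : ℝ, min a b - 2 * e = min (a - 2 * e) (b - 2 * e) := fun a b => by
    rw [sub_eq_add_neg, min_add]; rfl
  rw [e0]
  refine min_le_min ?_ ?_
  · have h1 := le_max_left (max (2 * n) (v + n)) (4 / 3 * n + (v + KG q v n zM' zm') / 3)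
    have h2 := le_max_right (max (2 * n) (v + n)) (4 / 3 * n + (v + KG q v n zM' zm') / 3)
    have h3 := (le_max_left (2 * n) (v + n)).trans h1
    have h4 := (le_max_right (2 * n) (v + n)).trans h1
    have : max (max (2 * (n - e)) (v - 2 * e + (n - e)))
        (4 / 3 * (n - e) + (v - 2 * e + KG q (v - 2 * e) (n - e) zM zm) / 3) ≤
        max (max (2 * n) (v + n)) (4 / 3 * n + (v + KG q v n zM' zm') / 3) - 2 * e :=
      max_le (max_le (by linarith) (by linarith)) (by linarith)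
    linarith
  · have h1 := le_max_left (v + n + zm') (5 / 3 * n + (v - zm') / 3)
    have h2 := le_max_right (v + n + zm') (5 / 3 * n + (v - zm') / 3)
    exact max_le (by linarith) (by linarith)

/-- the trivial branch -/
lemma GB_triv (d q v n zM zm : ℝ) :
    GB d q v n zM zm ≤ max (v + n + zm) (5 / 3 * n + (v - zm) / 3) := min_le_right _ _

/-- the number of the lists of the family `Fin 4` -/
lemma GT_cont4 (d q : ℝ) : Continuous fun x : Fin 4 → ℝ => GT d q (x 0) (x 1) (x 2) (x 3) := by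
  unfold GT GB KG
  fun_prop

/-- slope one in the level -/
lemma GT_slope {d q v σ z₁ z₂ z₃ : ℝ} (hq : 0 ≤ q) (hq1 : q ≤ 1) (hσ : 0 ≤ σ) :
    GT d q (v + σ) z₁ z₂ z₃ ≤ GT d q v z₁ z₂ z₃ + σ := GB_slope hq hq1 hσ

/-- monotone in the level -/
lemma GT_mono {d q v v' z₁ z₂ z₃ : ℝ} (hd : 0 ≤ d) (hq : 0 ≤ q) (hv : v ≤ v') :
    GT d q v z₁ z₂ z₃ ≤ GT d q v' z₁ z₂ z₃ :=
  GB_mono hd hq hv le_rfl le_rfl le_rfl (by linarith)

/-- **shorter lists at lower levels** -/
theorem GT_child {d q v e : ℝ} {z y : Fin 3 → ℝ} (hd : 0 ≤ d) (hq : 0 ≤ q)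
    (h : ∀ i, z i ≤ y i) (he : y 0 + y 1 + y 2 - (z 0 + z 1 + z 2) = e) :
    GT d q (v - 2 * e) (z 0) (z 1) (z 2) ≤ GT d q v (y 0) (y 1) (y 2) - 2 * e := by
  have h0 := h 0
  have h1 := h 1
  have h2 := h 2
  have e1 : z 0 + z 1 + z 2 = y 0 + y 1 + y 2 - e := by linarith
  unfold GT
  rw [e1]
  refine GB_child hd hq (by linarith) (max_le_max h0 (max_le_max h1 h2))
    (min_le_min h0 (min_le_min h1 h2)) ?_
  -- the minimum grows by at most `e`
  have k1 : min (y 0) (min (y 1) (y 2)) - e ≤ z 0 := by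
    have := min_le_left (y 0) (min (y 1) (y 2))
    linarith
  have k2 : min (y 0) (min (y 1) (y 2)) - e ≤ z 1 := by
    have := (min_le_right (y 0) (min (y 1) (y 2))).trans (min_le_left _ _)
    linarith
  have k3 : min (y 0) (min (y 1) (y 2)) - e ≤ z 2 := by
    have := (min_le_right (y 0) (min (y 1) (y 2))).trans (min_le_right _ _)
    linarith
  have := le_min k1 (le_min k2 k3)
  linarith

/-- the trivial branch, smallest lump at most `u` -/
theorem GT_triv {d q v z₁ z₂ z₃ u : ℝ} (h1 : 0 ≤ z₁) (h2 : 0 ≤ z₂) (h3 : 0 ≤ z₃)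
    (hu : min z₁ (min z₂ z₃) ≤ u) :
    GT d q v z₁ z₂ z₃ ≤ max (v + (z₁ + z₂ + z₃) + u) (5 / 3 * (z₁ + z₂ + z₃) + v / 3) := by
  have h0 : 0 ≤ min z₁ (min z₂ z₃) := le_min h1 (le_min h2 h3)
  refine (GB_triv _ _ _ _ _ _).trans (max_le_max (by linarith) (by linarith))

end Crest.Agent.R017.EnX743
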