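import Crest.Agent.R017.E4Tc_918
import Crest.Agent.R017.OwGd_743

/-!
# Row 17, E4 (StrU): helper743's number `GT` of a child is `≤ tT` (helper918)

* `own_GT` : base `X` (`κ₀ = log K / log X`), nominal class `z` (exact `Ok`), true lumps and level
  up to `δ`
-/

set_option autoImplicit false

noncomputable section

namespace Crest.Agent.R017.Td918

open Crest.Agent.R017.R8C918 Crest.Agent.R017.Bx918 Crest.Agent.R017.E4R70
open Crest.Agent.R017.Nm918 Crest.Agent.R017.Tc918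

variable {μ d r N M u a c x v : ℝ}

/-- **743's number of a child is `≤ tT`**, loss `2/3 d N1` -/
theorem own_GT (B : Bx4 μ d r N M u a c x v) {z : Cls} (h : z.Ok d r N M a c x)
    {y κ₀ q δ L z₁ z₂ z₃ : ℝ} (h1 : y ≤ N - 2 * u) (h2 : 2 * y ≤ M) (hκ : 0 ≤ κ₀)
    (hδ : 0 ≤ δ) (hq1 : q ≤ 5 / 7) (p1 : 0 ≤ z₁) (p2 : 0 ≤ z₂)
    (p3 : 0 ≤ z₃) (hL0 : 0 ≤ L) (y1 : z₁ ≤ κ₀ * y + δ) (y2 : z₂ ≤ κ₀ * y + δ)
    (y3 : z₃ ≤ κ₀ * y + δ) (hm : z₁ ≤ κ₀ * u + δ ∨ z₂ ≤ κ₀ * u + δ ∨ z₃ ≤ κ₀ * u + δ)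
    (hn : z₁ + z₂ + z₃ ≤ κ₀ * z.N1 N + δ) (hL : L ≤ κ₀ * (z.v + z.s) + δ) :
    EnX743.GT d q L z₁ z₂ z₃ ≤ κ₀ * (z.tT N u + 2 / 3 * d * z.N1 N) + 6 * δ := by
  have e1 := mul_le_mul_of_nonneg_left (lev_le B h) hκ
  have e2 := mul_le_mul_of_nonneg_left (far_le B h h1 h2) hκ
  have m1 : κ₀ * (2 * z.N1 N) ≤ κ₀ * z.tM N := mul_le_mul_of_nonneg_left (le_max_left _ _) hκ
  have m2 : κ₀ * (3 / 2 * z.N1 N + 2 / 3 * (z.v + z.s)) ≤ κ₀ * z.tM N :=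
    mul_le_mul_of_nonneg_left (le_max_right _ _) hκ
  have m3 : κ₀ * (z.v + z.s + z.N1 N + z.u1 N u) ≤ κ₀ * z.tB N u :=
    mul_le_mul_of_nonneg_left (le_max_left _ _) hκ
  have m4 : κ₀ * (5 / 3 * z.N1 N + (z.v + z.s) / 3) ≤ κ₀ * z.tB N u :=
    mul_le_mul_of_nonneg_left (le_max_right _ _) hκ
  have hd := B.d0
  have hd1 := B.d42
  have hN1 : 0 ≤ z.N1 N := by
    have := lev_le B h
    have := h.v
    have := h.s
    linarith
  have hκN : 0 ≤ κ₀ * z.N1 N := mul_nonneg hκ hN1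
  -- the smallest lump
  have zm0 : 0 ≤ min z₁ (min z₂ z₃) := le_min p1 (le_min p2 p3)
  have q1 : min z₁ (min z₂ z₃) ≤ z₁ := min_le_left _ _
  have q2 : min z₁ (min z₂ z₃) ≤ z₂ := (min_le_right _ _).trans (min_le_left _ _)
  have q3 : min z₁ (min z₂ z₃) ≤ z₃ := (min_le_right _ _).trans (min_le_right _ _)
  have qn : min z₁ (min z₂ z₃) ≤ κ₀ * z.N1 N / 3 + δ := by linarith
  have qu : min z₁ (min z₂ z₃) ≤ κ₀ * z.u1 N u + δ := by
    have e : κ₀ * z.u1 N u = min (κ₀ * u) (κ₀ * (z.N1 N / 3)) := by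
      unfold Cls.u1
      rw [mul_min_of_nonneg _ _ hκ]
    rw [e, ← min_add_add_right]
    refine le_min ?_ (by linarith)
    rcases hm with h | h | h <;> linarith
  -- the largest lump
  have zM : max z₁ (max z₂ z₃) ≤ κ₀ * y + δ := max_le y1 (max_le y2 y3)
  unfold EnX743.GT EnX743.GB
  set n := z₁ + z₂ + z₃ with hndef
  set zm := min z₁ (min z₂ z₃) with hzm
  set zM' := max z₁ (max z₂ z₃) with hzM
  have hn0 : 0 ≤ n := by linarith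
  have hK : EnX743.KG q L n zM' zm ≤ 3 * (κ₀ * z.tM N + 4 * δ - 4 / 3 * n) - L := by
    refine EnX743.KG_le _ _ _ _ _ ?_ ?_ ?_ ?_ ?_
    · rcases le_total (κ₀ * (z.v + z.s)) (3 / 4 * (κ₀ * z.N1 N)) with h | h <;> linarith
    · linarith
    · have h5 : q * (L + n) ≤ 5 / 7 * (L + n) := mul_le_mul_of_nonneg_right hq1 (by linarith)
      rcases le_total (κ₀ * (z.v + z.s)) (3 / 4 * (κ₀ * z.N1 N)) with h | h <;> linarith
    · linarith
    · exact (min_le_right _ _).trans (by linarith)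
  have r1 : d * zm ≤ d * (κ₀ * z.N1 N / 3 + δ) := mul_le_mul_of_nonneg_left qn hd
  have r2 : d * δ ≤ 1 / 42 * δ := mul_le_mul_of_nonneg_right hd1 hδ
  have r3 : 0 ≤ d * (κ₀ * z.N1 N) := mul_nonneg hd hκN
  have hA : max (max (2 * n) (L + n)) (4 / 3 * n + (L + EnX743.KG q L n zM' zm) / 3) +
      2 * d * zm ≤ κ₀ * z.tM N + κ₀ * (2 / 3 * d * z.N1 N) + 6 * δ := by
    have : max (max (2 * n) (L + n)) (4 / 3 * n + (L + EnX743.KG q L n zM' zm) / 3) ≤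
        κ₀ * z.tM N + 4 * δ := by
      refine max_le (max_le ?_ ?_) ?_ <;> linarith
    nlinarith
  have hB : max (L + n + zm) (5 / 3 * n + (L - zm) / 3) ≤
      κ₀ * z.tB N u + κ₀ * (2 / 3 * d * z.N1 N) + 6 * δ := by
    refine max_le ?_ ?_ <;> nlinarith
  have e : κ₀ * (z.tT N u + 2 / 3 * d * z.N1 N) + 6 * δ =
      min (κ₀ * z.tM N + κ₀ * (2 / 3 * d * z.N1 N) + 6 * δ)
        (κ₀ * z.tB N u + κ₀ * (2 / 3 * d * z.N1 N) + 6 * δ) := by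
    unfold Cls.tT
    rw [min_add_add_right, min_add_add_right, ← mul_min_of_nonneg _ _ hκ]
    ring
  rw [e]
  exact min_le_min hA hB

end Crest.Agent.R017.Td918
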