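import Crest.Agent.R017.E4v5_47

/-!
# Row 17, C70/E4 at list level, part 1 (helper699)

* `XMo`, `YMo` : second moments of the two sides of a block, summed over the outer index
* `PBo_le` : Cauchy-Schwarz for a block
* `BdS` : the optimal bound function; `Pt5` : the block hypothesis and the numeric condition in one
  pointwise condition
* `core5_pt`, `dir_pt` : `E4core5`, `E4dir` with `Pt5`
-/

set_option autoImplicit false

noncomputable section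

open Complex
open scoped ComplexConjugate

namespace Crest.Agent.R017.E4U699

open Crest.Agent.R012 Crest.Agent.R012.Eis Crest.Agent.R012.Mob705 Crest.Agent.R012.Gauss880
open Crest.Agent.R012.GaussLoc283
open Crest.Agent.R012.Div277
open Crest.Agent.R017.Sx545 Crest.Agent.R017.CM106 Crest.Agent.R017.C70 Crest.Agent.R017.C590
open Crest.Agent.R017.End699 Crest.Agent.R017.B770 Crest.Agent.R017.Sx440
open Crest.Agent.R017.E2440 Crest.Agent.R017.E4352 Crest.Agent.R017.E4v5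
open Crest.Agent.R017.E4o502 (vD wD)

open Classical in
/-- cube-free frequencies of a block -/
def DK (M : Eis) (κ : ℝ) : Finset Eis :=
  (primBall ⌊2 * κ⌋₊).filter (fun d => Sm M d ∧ CbF d ∧ κ < nm d)

/-- second moment of the `x`-side -/
def XMo (M : Eis) {O : Type} [Fintype O] (lam : O → ℝ) (q R : Eis) (g : Eis → ℂ)
    (v : O → Eis → ℂ) (κ : ℝ) : ℝ :=
  ∑ o, ∑ d ∈ DK M (κ / lam o), ‖Sd (tws R q g (v o)) d‖ ^ 2

/-- second moment of the `y`-side -/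
def YMo (M : Eis) {O : Type} [Fintype O] (lam : O → ℝ) (q Z : Eis) (g : Eis → ℂ)
    (w : O → Eis → ℂ) (κ : ℝ) : ℝ :=
  ∑ o, ∑ d ∈ DK M (κ / lam o), ‖CS (tws Z q g (w o)) d‖ ^ 2

lemma XMo_nonneg (M : Eis) {O : Type} [Fintype O] (lam : O → ℝ) (q R : Eis) (g : Eis → ℂ)
    (v : O → Eis → ℂ) (κ : ℝ) : 0 ≤ XMo M lam q R g v κ :=
  Finset.sum_nonneg fun _ _ => Finset.sum_nonneg fun _ _ => sq_nonneg _

lemma YMo_nonneg (M : Eis) {O : Type} [Fintype O] (lam : O → ℝ) (q Z : Eis) (g : Eis → ℂ)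
    (w : O → Eis → ℂ) (κ : ℝ) : 0 ≤ YMo M lam q Z g w κ :=
  Finset.sum_nonneg fun _ _ => Finset.sum_nonneg fun _ _ => sq_nonneg _

lemma PBo_nonneg (M : Eis) {O : Type} [Fintype O] {lam : O → ℝ} (hlam : ∀ o, 0 < lam o)
    (q R Z : Eis) (g : Eis → ℂ) (v w : O → Eis → ℂ) (κ : ℝ) :
    0 ≤ PBo M lam q R Z g v w κ := by
  refine Finset.sum_nonneg fun o _ => mul_nonneg (Real.rpow_nonneg (hlam o).le _) ?_
  exact Finset.sum_nonneg fun d _ => by positivity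

/-- **Cauchy-Schwarz for a block** -/
theorem PBo_le (M : Eis) {O : Type} [Fintype O] {lam : O → ℝ} (hlam : ∀ o, 0 < lam o)
    (q R Z : Eis) (g : Eis → ℂ) (v w : O → Eis → ℂ) {κ : ℝ} (hκ : 0 < κ) :
    PBo M lam q R Z g v w κ ≤ κ ^ (-(1 / 2) : ℝ) *
      (Real.sqrt (XMo M lam q R g v κ) * Real.sqrt (YMo M lam q Z g w κ)) := by
  classical
  have h1 : PBo M lam q R Z g v w κ ≤ κ ^ (-(1 / 2) : ℝ) * ∑ o, ∑ d ∈ DK M (κ / lam o),
      ‖Sd (tws R q g (v o)) d‖ * ‖CS (tws Z q g (w o)) d‖ := by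
    unfold PBo PB
    rw [Finset.mul_sum]
    refine Finset.sum_le_sum fun o _ => ?_
    rw [Finset.mul_sum, Finset.mul_sum]
    have hs : (primBall ⌊2 * (κ / lam o)⌋₊).filter (fun d => Sm M d ∧ CbF d ∧ κ / lam o < nm d) =
        DK M (κ / lam o) := by
      unfold DK
      congr
    rw [hs]
    refine Finset.sum_le_sum fun d hd => ?_
    have hd' : κ / lam o < nm d := by
      unfold DK at hd
      exact (Finset.mem_filter.mp hd).2.2.2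
    have hl := hlam o
    have h2 : κ ≤ lam o * nm d := by
      rw [div_lt_iff₀ hl] at hd'
      linarith [mul_comm (lam o) (nm d : ℝ)]
    have h3 : (lam o) ^ (-(1 / 2) : ℝ) * (nm d : ℝ) ^ (-(1 / 2) : ℝ) ≤ κ ^ (-(1 / 2) : ℝ) := by
      rw [← Real.mul_rpow hl.le (Nat.cast_nonneg _)]
      exact Real.rpow_le_rpow_of_nonpos hκ h2 (by norm_num)
    calc (lam o) ^ (-(1 / 2) : ℝ) * ((nm d : ℝ) ^ (-(1 / 2) : ℝ) *
          ‖Sd (tws R q g (v o)) d‖ * ‖CS (tws Z q g (w o)) d‖) =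
        ((lam o) ^ (-(1 / 2) : ℝ) * (nm d : ℝ) ^ (-(1 / 2) : ℝ)) *
          (‖Sd (tws R q g (v o)) d‖ * ‖CS (tws Z q g (w o)) d‖) := by ring
      _ ≤ _ := mul_le_mul_of_nonneg_right h3 (by positivity)
  refine h1.trans (mul_le_mul_of_nonneg_left ?_ (Real.rpow_nonneg hκ.le _))
  have e1 : ∑ o, ∑ d ∈ DK M (κ / lam o), ‖Sd (tws R q g (v o)) d‖ * ‖CS (tws Z q g (w o)) d‖ =
      ∑ x ∈ Finset.univ.sigma fun o => DK M (κ / lam o),
        ‖Sd (tws R q g (v x.1)) x.2‖ * ‖CS (tws Z q g (w x.1)) x.2‖ := by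
    rw [Finset.sum_sigma]
  have e2 : XMo M lam q R g v κ = ∑ x ∈ Finset.univ.sigma fun o => DK M (κ / lam o),
        ‖Sd (tws R q g (v x.1)) x.2‖ ^ 2 := by
    unfold XMo; rw [Finset.sum_sigma]
  have e3 : YMo M lam q Z g w κ = ∑ x ∈ Finset.univ.sigma fun o => DK M (κ / lam o),
        ‖CS (tws Z q g (w x.1)) x.2‖ ^ 2 := by
    unfold YMo; rw [Finset.sum_sigma]
  rw [e1, e2, e3, ← Real.sqrt_mul (Finset.sum_nonneg fun _ _ => sq_nonneg _)]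
  exact Real.le_sqrt_of_sq_le (Finset.sum_mul_sq_le_sq_mul_sq _ _ _)

/-! ### boundedness -/


/-- total mass -/
def N1 (c : Eis → ℂ) : ℝ := ∑' y, ‖c y‖

lemma N1_nonneg (c : Eis → ℂ) : 0 ≤ N1 c := tsum_nonneg fun _ => norm_nonneg _

lemma summ {M : Eis} {c : Eis → ℂ} (hc : SSm M c) : Summable fun y => ‖c y‖ :=
  summable_of_hasFiniteSupport (hc.fin.subset fun y hy => by
    rw [Function.mem_support] at hy ⊢
    exact fun h => hy (by rw [h, norm_zero]))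

lemma CS_le {M : Eis} {c : Eis → ℂ} (hc : SSm M c) (k : Eis) : ‖CS c k‖ ≤ N1 c := by
  have h1 : ∀ y, ‖c y * sy k y‖ ≤ ‖c y‖ := fun y => by
    by_cases h0 : c y = 0
    · rw [h0]; simp
    · rw [norm_mul]
      exact mul_le_of_le_one_right (norm_nonneg _) (Char766.norm_sy_le (hc.sm y h0).1)
  have h2 : Summable fun y => ‖c y * sy k y‖ :=
    Summable.of_nonneg_of_le (fun _ => norm_nonneg _) h1 (summ hc)
  exact (norm_tsum_le_tsum_norm h2).trans (h2.tsum_le_tsum h1 (summ hc))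

lemma Sd_le {M : Eis} {c : Eis → ℂ} (hc : SSm M c) {d : Eis} (hd : IsPrim d) :
    ‖Sd c d‖ ≤ N1 c * nm d := by
  have h1 : ∀ y, ‖c y * conj (gs y d)‖ ≤ ‖c y‖ * nm d := fun y => by
    rw [norm_mul, RCLike.norm_conj]
    exact mul_le_mul_of_nonneg_left (GaussLoc283.norm_gs_le syAx y hd) (norm_nonneg _)
  have hs := (summ hc).mul_right (nm d : ℝ)
  have h2 : Summable fun y => ‖c y * conj (gs y d)‖ :=
    Summable.of_nonneg_of_le (fun _ => norm_nonneg _) h1 hs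
  refine (norm_tsum_le_tsum_norm h2).trans ((h2.tsum_le_tsum h1 hs).trans ?_)
  rw [tsum_mul_right]
  exact le_rfl

lemma N1_tws {M R q : Eis} {g c : Eis → ℂ} (hc : SSm M c) (hR : IsPrim R)
    (hg : ∀ y, IsPrim y → ‖g y‖ ≤ 1) : N1 (tws R q g c) ≤ N1 c := by
  classical
  have h1 : ∀ y, ‖tws R q g c y‖ ≤ ‖c (R * y)‖ := fun y => by
    by_cases h0 : c (R * y) = 0
    · unfold E4352.tws; rw [h0]; simp
    · have hy : IsPrim y := (hc.sm _ h0).1.of_mul_left hR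
      unfold E4352.tws
      split_ifs
      · rw [norm_mul]; exact mul_le_of_le_one_left (norm_nonneg _) (hg y hy)
      · rw [norm_zero]; exact norm_nonneg _
  have hinj : Function.Injective fun y : Eis => R * y := fun a b h =>
    mul_left_cancel₀ hR.ne_zero h
  have h3 : Summable ((fun y => ‖c y‖) ∘ fun y : Eis => R * y) := (summ hc).comp_injective hinj
  have h2 : Summable fun y => ‖tws R q g c y‖ :=
    Summable.of_nonneg_of_le (fun _ => norm_nonneg _) h1 h3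
  exact (h2.tsum_le_tsum h1 h3).trans
    (tsum_comp_le_tsum_of_inj (summ hc) (fun _ => norm_nonneg _) hinj)

lemma TwC_norm {M' q : Eis} {J : ℤ} {ξ : ℝ} {g : Eis → ℂ} (h : TwC M' J q ξ g) :
    ∀ y, IsPrim y → ‖g y‖ ≤ 1 := by
  intro y hy
  obtain ⟨q₁, q₂, η, j, h1, h2, -, h4, -, h6⟩ := h
  rw [h6, norm_mul, norm_mul, norm_mul, RCLike.norm_conj]
  have e1 : ‖sy y q₁‖ ≤ 1 := Char766.norm_sy_le h1
  have e2 : ‖sy y q₂‖ ≤ 1 := Char766.norm_sy_le h2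
  have e3 : ‖End699.tw η j y‖ ≤ 1 := (h4.isChar_tw j).norm_le hy
  have e4 : ‖(nm y : ℂ) ^ (I * ξ)‖ = 1 := by
    have h0 : 0 < (nm y : ℝ) := by exact_mod_cast nm_pos.mpr hy.ne_zero
    have : (nm y : ℂ) = ((nm y : ℝ) : ℂ) := by norm_cast
    rw [this, Complex.norm_cpow_eq_rpow_re_of_pos h0]
    simp
  rw [e4, mul_one]
  calc ‖sy y q₁‖ * ‖sy y q₂‖ * ‖End699.tw η j y‖ ≤ 1 * 1 * 1 := by gcongr
    _ = 1 := by norm_num


/-! ### the optimal bound function -/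

section BdS

variable {M f : Eis} {G : Eis → ℝ → (Eis → ℂ) → Prop} {O : Type} {lam : O → ℝ}
  {v w : O → Eis → ℂ}

/-- admissible block data, class `G` of twists -/
structure Adm (M f : Eis) (G : Eis → ℝ → (Eis → ℂ) → Prop) (a : ℝ) (q R Z : Eis) (g : Eis → ℂ)
    (ξ : ℝ) (𝒟 : Finset Eis) : Prop where
  hq : Sm M q
  hR : PrI q R
  hZ : PrI q Z
  hp : ∀ p : Eis, Prime p → p ∣ q → p ∣ f * R * Z
  hg : G q ξ g
  ha : 1 ≤ a
  hD : DSet M q f a 𝒟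

lemma one_le_lamD {a : ℝ} (ha : 1 ≤ a) {q : Eis} {𝒟 : Finset Eis} (hD : DSet M q f a 𝒟)
    (hlam : ∀ o, 1 ≤ lam o) (i : O × {d : Eis // d ∈ 𝒟}) : 1 ≤ lamD a lam i := by
  unfold lamD
  have h1 := (hD i.2.1 i.2.2).2.2.2.2.1
  have h2 : 1 ≤ (nm i.2.1 : ℝ) / a := by rw [le_div_iff₀ (by linarith)]; linarith
  have h3 : 1 ≤ ((nm i.2.1 : ℝ) / a) ^ 2 := one_le_pow₀ h2
  nlinarith [hlam i.1]

lemma card_le {a : ℝ} {q : Eis} {𝒟 : Finset Eis} (hD : DSet M q f a 𝒟) :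
    𝒟 ⊆ primBall ⌊2 * a⌋₊ := fun d hd => by
  rw [mem_primBall]
  exact ⟨Nat.le_floor (hD d hd).2.2.2.2.2, (hD d hd).2.1.1⟩

/-- trivial bound, uniform in the block data -/
lemma PBo_triv [Fintype O] (hG : ∀ q ξ g, G q ξ g → ∀ y, IsPrim y → ‖g y‖ ≤ 1)
    (hlam : ∀ o, 1 ≤ lam o) (hv : ∀ o, SSm M (v o)) (hw : ∀ o, SSm M (w o)) (κ a : ℝ) :
    ∃ T : ℝ, 0 ≤ T ∧ ∀ (q R Z : Eis) (g : Eis → ℂ) (ξ : ℝ) (𝒟 : Finset Eis),
      Adm M f G a q R Z g ξ 𝒟 → 0 < κ →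
      PBo M (lamD (𝒟 := 𝒟) a lam) q R Z g (vF v) (wF w) κ ≤ T := by
  classical
  set V : ℝ := ∑ o, N1 (v o) with hV
  set W : ℝ := ∑ o, N1 (w o) with hW
  have hV0 : 0 ≤ V := Finset.sum_nonneg fun _ _ => N1_nonneg _
  have hW0 : 0 ≤ W := Finset.sum_nonneg fun _ _ => N1_nonneg _
  set P : ℝ := ((primBall ⌊2 * κ⌋₊).card : ℝ) with hP
  set Q : ℝ := ((primBall ⌊2 * a⌋₊).card : ℝ) with hQ
  have hP0 : 0 ≤ P := Nat.cast_nonneg _
  have hQ0 : 0 ≤ Q := Nat.cast_nonneg _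
  refine ⟨(Fintype.card O) * Q * (P * (V * (2 * |κ|) * W)), by positivity, ?_⟩
  intro q R Z g ξ 𝒟 h hκ
  have hgn := hG _ _ _ h.hg
  have hcard : (Fintype.card (O × {d : Eis // d ∈ 𝒟}) : ℝ) ≤ Fintype.card O * Q := by
    rw [Fintype.card_prod, Nat.cast_mul, Fintype.card_coe]
    refine mul_le_mul_of_nonneg_left ?_ (Nat.cast_nonneg _)
    rw [hQ]
    exact_mod_cast Finset.card_le_card (card_le h.hD)
  have hterm : ∀ i : O × {d : Eis // d ∈ 𝒟}, (lamD a lam i) ^ (-(1 / 2) : ℝ) *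
      PB M q R Z g (vF v i) (wF w i) (κ / lamD a lam i) ≤ P * (V * (2 * |κ|) * W) := by
    intro i
    have hl := one_le_lamD (lam := lam) h.ha h.hD hlam i
    have hDp : IsPrim i.2.1 := (h.hD i.2.1 i.2.2).2.1.1
    have e1 : (lamD a lam i) ^ (-(1 / 2) : ℝ) ≤ 1 :=
      Real.rpow_le_one_of_one_le_of_nonpos hl (by norm_num)
    have hsv : SSm M (vF v i) := E4o502.ssm_tws (hv i.1) isPrim_one
    have hsw : SSm M (wF w i) := E4o502.ssm_tws (hw i.1) hDp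
    have nv : N1 (tws R q g (vF v i)) ≤ V := by
      refine (N1_tws hsv h.hR.1 hgn).trans ((N1_tws (hv i.1) isPrim_one fun y hy => ?_).trans ?_)
      · rw [RCLike.norm_conj]; exact Char766.norm_sy_le hDp
      · exact Finset.single_le_sum (f := fun o => N1 (v o)) (fun _ _ => N1_nonneg _)
          (Finset.mem_univ i.1)
    have nw : N1 (tws Z q g (wF w i)) ≤ W := by
      refine (N1_tws hsw h.hZ.1 hgn).trans ((N1_tws (hw i.1) hDp fun y hy => ?_).trans ?_)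
      · rw [RCLike.norm_conj]; exact Char766.norm_sy_le hDp
      · exact Finset.single_le_sum (f := fun o => N1 (w o)) (fun _ _ => N1_nonneg _)
          (Finset.mem_univ i.1)
    have e2 : PB M q R Z g (vF v i) (wF w i) (κ / lamD a lam i) ≤ P * (V * (2 * |κ|) * W) := by
      unfold PB
      have hk : κ / lamD a lam i ≤ κ := div_le_self hκ.le hl
      calc _ ≤ ∑ d ∈ primBall ⌊2 * κ⌋₊, V * (2 * |κ|) * W := by
            refine (Finset.sum_le_sum (g := fun _ => V * (2 * |κ|) * W) ?_).trans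
              (Finset.sum_le_sum_of_subset_of_nonneg ?_ fun _ _ _ => by positivity)
            · intro d hd
              rw [Finset.mem_filter, mem_primBall] at hd
              have hdp := hd.1.2
              have h1 : (1 : ℝ) ≤ nm d := one_le_nm hdp.ne_zero
              have h2 : (nm d : ℝ) ≤ 2 * |κ| := by
                rw [abs_of_pos hκ]
                have h3 : (nm d : ℝ) ≤ ⌊2 * (κ / lamD a lam i)⌋₊ := by exact_mod_cast hd.1.1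
                have h4 := Nat.floor_le (show 0 ≤ 2 * (κ / lamD a lam i) by positivity)
                linarith
              have h5 : (nm d : ℝ) ^ (-(1 / 2) : ℝ) ≤ 1 :=
                Real.rpow_le_one_of_one_le_of_nonpos h1 (by norm_num)
              have h6 : ‖Sd (tws R q g (vF v i)) d‖ ≤ V * (2 * |κ|) :=
                (Sd_le (E4o502.ssm_tws hsv h.hR.1) hdp).trans
                  (mul_le_mul nv h2 (by positivity) hV0)
              have h7 : ‖CS (tws Z q g (wF w i)) d‖ ≤ W :=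
                (CS_le (E4o502.ssm_tws hsw h.hZ.1) d).trans nw
              calc _ ≤ 1 * (V * (2 * |κ|)) * W := by gcongr
                _ = _ := by ring
            · intro d hd
              rw [Finset.mem_filter, mem_primBall] at hd
              rw [mem_primBall]
              exact ⟨hd.1.1.trans (Nat.floor_mono (by linarith)), hd.1.2⟩
        _ = _ := by rw [Finset.sum_const, nsmul_eq_mul]
    have e3 : 0 ≤ PB M q R Z g (vF v i) (wF w i) (κ / lamD a lam i) :=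
      Finset.sum_nonneg fun _ _ => by positivity
    calc _ ≤ 1 * PB M q R Z g (vF v i) (wF w i) (κ / lamD a lam i) :=
          mul_le_mul_of_nonneg_right e1 e3
      _ ≤ _ := by rw [one_mul]; exact e2
  calc PBo M (lamD (𝒟 := 𝒟) a lam) q R Z g (vF v) (wF w) κ ≤
      ∑ i : O × {d : Eis // d ∈ 𝒟}, P * (V * (2 * |κ|) * W) :=
        Finset.sum_le_sum fun i _ => hterm i
    _ = (Fintype.card (O × {d : Eis // d ∈ 𝒟}) : ℝ) * (P * (V * (2 * |κ|) * W)) := by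
        rw [Finset.sum_const, Finset.card_univ, nsmul_eq_mul]
    _ ≤ _ := mul_le_mul_of_nonneg_right hcard (by positivity)

/-- normalised values of the blocks -/
def BS (M f : Eis) (G : Eis → ℝ → (Eis → ℂ) → Prop) (A : ℝ) {O : Type} [Fintype O] (lam : O → ℝ)
    (v w : O → Eis → ℂ) (κ a z : ℝ) : Set ℝ :=
  {x | ∃ (q R Z : Eis) (g : Eis → ℂ) (ξ : ℝ) (𝒟 : Finset Eis), Adm M f G a q R Z g ξ 𝒟 ∧ 0 < κ ∧
    z ≤ nm (rd Z) ∧
    x = PBo M (lamD (𝒟 := 𝒟) a lam) q R Z g (vF v) (wF w) κ / (1 + |ξ|) ^ A}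

/-- **the optimal bound function** -/
def BdS (M f : Eis) (G : Eis → ℝ → (Eis → ℂ) → Prop) (A : ℝ) {O : Type} [Fintype O] (lam : O → ℝ)
    (v w : O → Eis → ℂ) (κ a z : ℝ) : ℝ := sSup (BS M f G A lam v w κ a z)

variable [Fintype O] {A : ℝ}

lemma BS_nonneg (hlam : ∀ o, 1 ≤ lam o) {κ a z x : ℝ} (hx : x ∈ BS M f G A lam v w κ a z) :
    0 ≤ x := by
  obtain ⟨q, R, Z, g, ξ, 𝒟, h, -, -, rfl⟩ := hx
  exact div_nonneg (PBo_nonneg M (fun i => by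
    have := one_le_lamD (lam := lam) h.ha h.hD hlam i
    linarith) _ _ _ _ _ _ _) (by positivity)

lemma BS_bdd (hG : ∀ q ξ g, G q ξ g → ∀ y, IsPrim y → ‖g y‖ ≤ 1) (hA : 0 ≤ A)
    (hlam : ∀ o, 1 ≤ lam o) (hv : ∀ o, SSm M (v o)) (hw : ∀ o, SSm M (w o)) (κ a z : ℝ) :
    BddAbove (BS M f G A lam v w κ a z) := by
  obtain ⟨T, hT, H⟩ := PBo_triv (f := f) hG hlam hv hw κ a
  refine ⟨T, ?_⟩
  rintro x ⟨q, R, Z, g, ξ, 𝒟, h, hκ, -, rfl⟩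
  have h1 : (1 : ℝ) ≤ (1 + |ξ|) ^ A := Real.one_le_rpow (by linarith [abs_nonneg ξ]) hA
  exact (div_le_self (PBo_nonneg M (fun i => by
    have := one_le_lamD (lam := lam) h.ha h.hD hlam i
    linarith) _ _ _ _ _ _ _) h1).trans (H q R Z g ξ 𝒟 h hκ)

lemma BdS_bdC (hG : ∀ q ξ g, G q ξ g → ∀ y, IsPrim y → ‖g y‖ ≤ 1) (hA : 0 ≤ A)
    (hlam : ∀ o, 1 ≤ lam o) (hv : ∀ o, SSm M (v o)) (hw : ∀ o, SSm M (w o)) :
    BdC5 (BdS M f G A lam v w) := by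
  intro a
  refine ⟨fun κ z => Real.sSup_nonneg fun x hx => BS_nonneg hlam hx, fun κ z z' _ hz => ?_⟩
  refine Real.sSup_le (fun x hx => ?_) (Real.sSup_nonneg fun x hx => BS_nonneg hlam hx)
  refine le_csSup (BS_bdd hG hA hlam hv hw κ a z) ?_
  obtain ⟨q, R, Z, g, ξ, 𝒟, h, hκ, h2, h3⟩ := hx
  exact ⟨q, R, Z, g, ξ, 𝒟, h, hκ, hz.trans h2, h3⟩

lemma BdS_ge (hG : ∀ q ξ g, G q ξ g → ∀ y, IsPrim y → ‖g y‖ ≤ 1) (hA : 0 ≤ A)
    (hlam : ∀ o, 1 ≤ lam o) (hv : ∀ o, SSm M (v o)) (hw : ∀ o, SSm M (w o)) {q R Z : Eis}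
    {g : Eis → ℂ} {ξ κ a : ℝ} {𝒟 : Finset Eis} (h : Adm M f G a q R Z g ξ 𝒟) (hκ : 0 < κ) :
    PBo M (lamD (𝒟 := 𝒟) a lam) q R Z g (vF v) (wF w) κ ≤
      (1 + |ξ|) ^ A * BdS M f G A lam v w κ a (nm (rd Z)) := by
  have h1 : (0 : ℝ) < (1 + |ξ|) ^ A := Real.rpow_pos_of_pos (by linarith [abs_nonneg ξ]) _
  rw [← div_le_iff₀' h1]
  exact le_csSup (BS_bdd hG hA hlam hv hw κ a _) ⟨q, R, Z, g, ξ, 𝒟, h, hκ, le_rfl, rfl⟩

/-- **pointwise condition** : block hypothesis and numeric condition in one -/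
def Pt5 (M f : Eis) (G : Eis → ℝ → (Eis → ℂ) → Prop) (A : ℝ) {O : Type} [Fintype O] (lam : O → ℝ)
    (v w : O → Eis → ℂ) (lim : ℝ → ℝ → ℝ → ℝ) (S : ℝ) : Prop :=
  ∀ (q R Z : Eis) (g : Eis → ℂ) (ξ : ℝ) (𝒟 : Finset Eis) (a₀ a a₃ b₁ b₃ κ : ℝ),
    Adm M f G a q R Z g ξ 𝒟 → 1 ≤ a₀ → a₀ ≤ nm (rd f) → 1 ≤ a₃ → 1 ≤ b₁ → 1 ≤ b₃ → 1 / 4 ≤ κ →
    κ * b₁ ^ 2 * b₃ ^ 3 ≤ lim a₀ a a₃ → a₃ * (b₁ * b₃) ≤ nm (rd Z) →
    a₀ ^ (-(1 / 2) : ℝ) * (a ^ (-(1 / 2) : ℝ) * a₃ * b₁ ^ (1 / 2 : ℝ) * b₃ *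
      κ ^ (-(1 / 2) : ℝ) * PBo M (lamD (𝒟 := 𝒟) a lam) q R Z g (vF v) (wF w) κ) ≤
      (1 + |ξ|) ^ A * S

lemma num_of_pt {lim : ℝ → ℝ → ℝ → ℝ} {S : ℝ} (hS : 0 ≤ S)
    (h : Pt5 M f G A lam v w lim S) : Num5 f lim (BdS M f G A lam v w) S := by
  intro a₀ a₁ a₃ b₁ b₃ κ h0 h0' h1 h3 hb1 hb3 hκ hlim
  have hκ0 : 0 < κ := by linarith
  set c : ℝ := a₀ ^ (-(1 / 2) : ℝ) * (a₁ ^ (-(1 / 2) : ℝ) * a₃ * b₁ ^ (1 / 2 : ℝ) * b₃ *
    κ ^ (-(1 / 2) : ℝ)) with hc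
  have hc0 : 0 < c := by
    have e1 : 0 < a₀ ^ (-(1 / 2) : ℝ) := Real.rpow_pos_of_pos (by linarith) _
    have e2 : 0 < a₁ ^ (-(1 / 2) : ℝ) := Real.rpow_pos_of_pos (by linarith) _
    have e3 : 0 < b₁ ^ (1 / 2 : ℝ) := Real.rpow_pos_of_pos (by linarith) _
    have e4 : 0 < κ ^ (-(1 / 2) : ℝ) := Real.rpow_pos_of_pos hκ0 _
    rw [hc]
    have e5 : 0 < a₃ := by linarith
    have e6 : 0 < b₃ := by linarith
    positivity
  have key : BdS M f G A lam v w κ a₁ (a₃ * (b₁ * b₃)) ≤ S / c := by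
    refine Real.sSup_le ?_ (div_nonneg hS hc0.le)
    rintro x ⟨q, R, Z, g, ξ, 𝒟, hA, -, hz, rfl⟩
    have h2 := h q R Z g ξ 𝒟 a₀ a₁ a₃ b₁ b₃ κ hA h0 h0' h3 hb1 hb3 hκ hlim hz
    have h4 : (0 : ℝ) < (1 + |ξ|) ^ A := Real.rpow_pos_of_pos (by linarith [abs_nonneg ξ]) _
    rw [le_div_iff₀ hc0, div_mul_eq_mul_div, div_le_iff₀ h4]
    calc _ = a₀ ^ (-(1 / 2) : ℝ) * (a₁ ^ (-(1 / 2) : ℝ) * a₃ * b₁ ^ (1 / 2 : ℝ) * b₃ *
          κ ^ (-(1 / 2) : ℝ) * PBo M (lamD (𝒟 := 𝒟) a₁ lam) q R Z g (vF v) (wF w) κ) := by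
          rw [hc]; ring
      _ ≤ _ := h2
      _ = _ := mul_comm _ _
  calc _ = c * BdS M f G A lam v w κ a₁ (a₃ * (b₁ * b₃)) := by rw [hc]; ring
    _ ≤ c * (S / c) := mul_le_mul_of_nonneg_left key hc0.le
    _ = S := by field_simp

end BdS

/-- **`E4core5` with the pointwise condition** -/
def E4core5P : Prop :=
  ∀ (M : Eis) (ψ : Eis → ℂ) (l : ℤ) (ι : Type) (_ : Fintype ι) (D : Dt3 ι), HC M ψ → D.OK M →
  ∀ ε A : ℝ, 0 < ε → 0 ≤ A → ∃ (C : ℝ) (m₀ N₀ : ℕ), 0 ≤ C ∧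
    ∀ (V : ℝ → ℂ) (W : ι → ℝ → ℂ) (mt : Eis → ℝ → ℂ) (B : ℝ), 0 ≤ B → Law5 M ψ l D V W mt →
      (∀ i, WT m₀ N₀ B (W i)) → (∀ y, ‖V y‖ ≤ B) → (∀ y, 1 < y → V y = 0) →
    ∀ (f : Eis) (O : Type) (_ : Fintype O) (lam : O → ℝ) (v w : O → Eis → ℂ)
      (X K U T₀ : ℝ) (S Mn : ℝ), Dat4 M f lam v w X →
      1 ≤ K → K ≤ X → 0 < U → U ≤ X → 0 ≤ T₀ → T₀ ≤ X → 0 ≤ S → 0 ≤ Mn →
      (∀ o x y, v o x ≠ 0 → w o y ≠ 0 → (nm (f * x * y) : ℝ) * lam o ^ 2 ≤ U) →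
      Pt5 M f (fun q ξ g => TwC D.M' D.j q ξ g) A lam v w
        (fun a₀ a₁ a₃ => (if a₁ * a₃ ≤ T₀ then 8 * (U / K) * (a₀ * a₁) else
        K / (a₀ ^ 2 * a₁ ^ 2 * a₃ ^ 3)) * X ^ ε) S →
      HM5 M f lam v w K T₀ mt Mn →
      ‖∑ o, ∑' x : Eis, v o x * ∑' y : Eis, w o y *
        NT (M * (f * y)) (f * x * y)
          (fun k => End699.tw ψ l k * V (nm k * lam o / K))‖ ≤
        C * X ^ ε * (B * (K * S + X ^ (-A)) + Mn)

theorem core5_pt (h : E4core5) : E4core5P := by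
  intro M ψ l ι _ D hψ hD ε A hε hA
  obtain ⟨C, m₀, N₀, hC, H⟩ := h M ψ l ι _ D hψ hD ε A hε hA
  refine ⟨C, m₀, N₀, hC, ?_⟩
  intro V W mt B hB hL hW hV hV1 f O _ lam v w X K U T₀ S Mn hdat hK hKX hU hUX hT hTX hS hMn
    hxy hPt hHM
  have hG : ∀ (q : Eis) (ξ : ℝ) (g : Eis → ℂ), TwC D.M' D.j q ξ g → ∀ y, IsPrim y → ‖g y‖ ≤ 1 :=
    fun q ξ g hg => TwC_norm hg
  have hlam : ∀ o, 1 ≤ lam o := fun o => (hdat.lam1 o).1
  refine H V W mt B hB hL hW hV hV1 f O _ lam v w X K U T₀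
    (BdS M f (fun q ξ g => TwC D.M' D.j q ξ g) A lam v w) S Mn hdat hK hKX hU hUX hT hTX hS hMn
    (BdS_bdC hG hA hlam hdat.hv hdat.hw) hxy ?_ (num_of_pt hS hPt) hHM
  intro q R Z g ξ κ a 𝒟 hq hR hZ hp hg hκ ha hD'
  exact BdS_ge hG hA hlam hdat.hv hdat.hw ⟨hq, hR, hZ, hp, hg, ha, hD'⟩ hκ

/-- the class of twists of the direct half -/
def GD (q : Eis) (ξ : ℝ) (g : Eis → ℂ) : Prop :=
  ξ = 0 ∧ ∃ q₁ q₂ : Eis, PrI q q₁ ∧ PrI q q₂ ∧ g = fun y => sy y q₁ * conj (sy y q₂)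

lemma GD_norm (q : Eis) (ξ : ℝ) (g : Eis → ℂ) (h : GD q ξ g) : ∀ y, IsPrim y → ‖g y‖ ≤ 1 := by
  intro y _
  obtain ⟨-, q₁, q₂, h1, h2, rfl⟩ := h
  rw [norm_mul, RCLike.norm_conj]
  exact mul_le_one₀ (Char766.norm_sy_le h1.1) (norm_nonneg _) (Char766.norm_sy_le h2.1)

/-- **`E4dir` with the pointwise condition** -/
def E4dirP : Prop :=
  ∀ ε : ℝ, 0 < ε → ∃ C : ℝ, 0 ≤ C ∧
    ∀ (M f : Eis) (O : Type) (_ : Fintype O) (lam : O → ℝ) (v w : O → Eis → ℂ) (X K B : ℝ)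
      (φ : O → Eis → ℂ) (S : ℝ), Dat4 M f lam v w X → 1 ≤ K → K ≤ X →
      0 ≤ B → 0 ≤ S → (∀ o k, Sm M k → ‖φ o k‖ ≤ B) →
      (∀ o k, K / lam o < nm k → φ o k = 0) →
      Pt5 M f GD 0 lam v w (fun a₀ a₁ a₃ => K / (a₀ ^ 2 * a₁ ^ 2 * a₃ ^ 3)) S →
      ‖∑ o, ∑' x : Eis, v o x * ∑' y : Eis, w o y * NT (M * (f * y)) (f * x * y) (φ o)‖ ≤
        C * X ^ ε * (B * (K * S))

theorem dir_pt (h : E4dir) : E4dirP := by
  intro ε hε
  obtain ⟨C, hC, H⟩ := h ε hε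
  refine ⟨C, hC, ?_⟩
  intro M f O _ lam v w X K B φ S hdat hK hKX hB hS hφ hφ0 hPt
  have hlam : ∀ o, 1 ≤ lam o := fun o => (hdat.lam1 o).1
  refine H M f O _ lam v w X K B φ (BdS M f GD 0 lam v w) S hdat hK hKX hB hS
    (BdS_bdC GD_norm le_rfl hlam hdat.hv hdat.hw) hφ hφ0 ?_ (num_of_pt hS hPt)
  intro q R Z q₁ q₂ κ a 𝒟 hq hR hZ h1 h2 hp hκ ha hD'
  have := BdS_ge GD_norm le_rfl hlam hdat.hv hdat.hw
    (A := 0) ⟨hq, hR, hZ, hp, ⟨rfl, q₁, q₂, h1, h2, rfl⟩, ha, hD'⟩ hκ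
  rwa [Real.rpow_zero, one_mul] at this

end Crest.Agent.R017.E4U699
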