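import Crest.Agent.R017.E4Ud_164
import Crest.Agent.R017.NSb1_986

/-!
# Row 17, R8 / E5, consumer of E4 : preliminaries (helper164)

* `VR`, `sw_VR`, `V1_Vt` : the weight of the application of `E4core7`
* `cs_of` : the class of the data
* `JBm`, `E4L_smul`, `FrL.mono`, `Dt.OK.mono` : monotonicity
-/

set_option autoImplicit false

noncomputable section

open Finset Complex
open scoped ComplexConjugate ContDiff

namespace Crest.Agent.R017.E4U164

open Crest.Agent.R012 Crest.Agent.R012.Eis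
open Crest.Agent.R012.Mob705 hiding pb mem_pb
open Crest.Agent.R012.LS2 (S mem_S)
open Crest.Agent.R017.Sx545 (Sm)
open Crest.Agent.R017.CM106 (FS)
open Crest.Agent.R017.E2440
open Crest.Agent.R017.End699 (HC)
open Crest.Agent.R017.E4352 (PrI rd)
open Crest.Agent.R017.E5B71
open Crest.Agent.R017.B770
open Crest.Agent.R017.Prov71
open Crest.Agent.R017.E4D164
open Crest.Agent.R017.E4J352 (Tm JB rngD rngF gx)
open Crest.Agent.R017.E4ap783 (Cs PG mtr TG7)

/-! ### the weight -/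

/-- `y^(-2/3) conj U(R y)` -/
def VR (U : ℝ → ℂ) (R y : ℝ) : ℂ := ((y ^ (-(2 / 3) : ℝ) : ℝ) : ℂ) * conj (U (R * y))

lemma sw_conj {V : ℝ → ℂ} (hV : SW V) : SW (fun y => conj (V y)) where
  smooth := Complex.conjCLE.contDiff.comp hV.smooth
  cpt := by
    have h1 : tsupport (fun y => conj (V y)) ⊆ tsupport V := by
      refine closure_mono fun y hy => ?_
      rw [Function.mem_support] at hy ⊢
      intro h
      exact hy (by simp only [h, map_zero])
    exact hV.cpt.of_isClosed_subset (isClosed_tsupport _) h1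
  supp := by
    refine Set.Subset.trans (closure_mono fun y hy => ?_) hV.supp
    rw [Function.mem_support] at hy ⊢
    intro h
    exact hy (by simp only [h, map_zero])

lemma sw_pow {V : ℝ → ℂ} (hV : SW V) (b : ℝ) : SW (fun y => ((y ^ b : ℝ) : ℂ) * V y) where
  smooth := by
    rw [contDiff_iff_contDiffAt]
    intro y
    by_cases hy : 0 < y
    · have h1 : ContDiffAt ℝ ∞ (fun y : ℝ => (((y : ℝ) ^ b : ℝ) : ℂ)) y :=
        Complex.ofRealCLM.contDiff.contDiffAt.comp y (Real.contDiffAt_rpow_const_of_ne hy.ne')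
      exact h1.mul hV.smooth.contDiffAt
    · have h2 : y ∉ tsupport V := fun h => hy (hV.supp h)
      have h3 : ∀ᶠ z in nhds y, z ∉ tsupport V := (isClosed_tsupport V).isOpen_compl.mem_nhds h2
      have h4 : (fun y => ((y ^ b : ℝ) : ℂ) * V y) =ᶠ[nhds y] fun _ => 0 := by
        filter_upwards [h3] with z hz
        rw [image_eq_zero_of_notMem_tsupport hz, mul_zero]
      exact contDiffAt_const.congr_of_eventuallyEq h4
  cpt := hV.cpt.mul_left
  supp := (tsupport_mul_subset_right).trans hV.supp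

lemma sw_VR {U : ℝ → ℂ} (hU : SW U) {R : ℝ} (hR : 0 < R) : SW (VR U R) :=
  sw_pow (sw_conj (Asm986.sw_scale hU hR)) _

lemma VR_zero {U : ℝ → ℂ} {R : ℝ} (hR : 0 < R) (hU : ∀ y, R < y → U y = 0) (y : ℝ) (hy : 1 < y) :
    VR U R y = 0 := by
  unfold VR
  rw [hU _ (by nlinarith), map_zero, mul_zero]

lemma sw_nonpos {V : ℝ → ℂ} (hV : SW V) {y : ℝ} (hy : y ≤ 0) : V y = 0 := by
  by_contra h
  have h1 : y ∈ tsupport V := subset_tsupport V h
  exact absurd (hV.supp h1) (not_lt.mpr hy)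

/-- the dual weight of `Vt` -/
lemma V1_Vt {U : ℝ → ℂ} (hU : SW U) {R K : ℝ} (hR : 0 < R) (hK : 0 < K) (τ : ℝ) :
    V1 (Vt U τ R K) = fun y : ℝ => conj ((K : ℂ) ^ (I * τ)) *
      ((y : ℂ) ^ (I * ((-τ : ℝ) : ℂ)) * VR U R y) := by
  funext y
  unfold V1 Vt VR
  by_cases hy : 0 < y
  · have e1 : ((K * y : ℝ) : ℂ) ^ (I * τ) = (K : ℂ) ^ (I * τ) * (y : ℂ) ^ (I * τ) := by
      rw [Complex.ofReal_mul, Complex.mul_cpow_ofReal_nonneg hK.le hy.le]
    have e2 : conj ((y : ℂ) ^ (I * τ)) = (y : ℂ) ^ (I * ((-τ : ℝ) : ℂ)) := by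
      have h1 := Complex.conj_cpow (y : ℂ) (conj (I * (τ : ℂ)))
        (by rw [Complex.arg_ofReal_of_nonneg hy.le]; exact Real.pi_pos.ne)
      rw [Complex.conj_conj, Complex.conj_ofReal] at h1
      rw [← h1]
      congr 1
      simp
    rw [e1, map_mul, map_mul, e2]
    ring
  · have hy' : y ≤ 0 := not_lt.mp hy
    have h0 : U (R * y) = 0 := sw_nonpos hU (mul_nonpos_of_nonneg_of_nonpos hR.le hy')
    simp only [h0, mul_zero, map_zero]

/-! ### the class -/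

/-- the class of the data -/
lemma cs_of {P : DPar} (hP : P.OK) (hD : ¬ P.CaseD) :
    Cs P.n₃ (fun k => conj (P.χ₃ k)) P.l₃ := by
  have key : (∃ m₀, Rad0 P.n m₀ ∧ P.n₃ = 3 * m₀ ∧ P.χ₃ = fun a => sy a m₀) →
      Cs P.n₃ (fun k => conj (P.χ₃ k)) P.l₃ := by
    rintro ⟨m₀, hm, h3, hχ⟩
    refine Or.inr ⟨m₀, ⟨hm.prim, fun p hp hd => ?_⟩, fun b hb => ?_⟩
    · rw [h3]; exact dvd_mul_of_dvd_right hd _
    · beta_reduce
      rw [Complex.conj_conj, hχ]
      exact Sym645.sy_reciprocity hb.1 hm.prim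
  rcases hP.cases with h | h | h | h
  · exact key h.2.2.2
  · exact Or.inl h.l₃ne
  · exact key h.2.2.2.2
  · exact absurd h hD

/-! ### monotonicity -/

lemma JBm {M f : Eis} {O : Type} {lam : O → ℝ} {v w : O → Eis → ℂ} {G : Eis → ℂ}
    {rng rng' : Tm O → Prop} {S S' : ℝ} (h : JB M f lam v w G rng S)
    (hr : ∀ t, rng' t → rng t) (hS : S ≤ S') : JB M f lam v w G rng' S' :=
  fun c 𝒥 h𝒥 => (h c 𝒥 fun t ht => ⟨(h𝒥 t ht).1, (h𝒥 t ht).2.1, (h𝒥 t ht).2.2.1,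
    hr t (h𝒥 t ht).2.2.2⟩).trans hS

lemma E4L_smul (M f : Eis) (χ : Eis → ℂ) (l : ℤ) (c : ℂ) (V : ℝ → ℂ) (K : ℝ) {O : Type}
    [Fintype O] (lam : O → ℝ) (v w : O → Eis → ℂ) :
    E4L M f χ l (fun y => c * V y) K lam v w = c * E4L M f χ l V K lam v w := by
  unfold E4L
  rw [mul_sum]
  refine sum_congr rfl fun o _ => ?_
  rw [← tsum_mul_left]
  refine tsum_congr fun x => ?_
  rw [mul_left_comm c (v o x)]
  refine congrArg (v o x * ·) ?_
  rw [← tsum_mul_left]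
  refine tsum_congr fun y => ?_
  rw [mul_left_comm c (w o y)]
  refine congrArg (w o y * ·) ?_
  rw [← NT_smul]
  refine congrArg _ ?_
  funext k
  ring

lemma FrL.mono {A d δ δ' δ₁ δ₁' B X : ℝ} {N : ℕ} {a : Bd × ℕ} {ps : List Pq}
    {q : (Option (Fin 3 ⊕ Fin 5) → ℝ) × (Kd → ℝ)} (h : FrL A d δ δ' B X N a ps q) (hX : 1 ≤ X)
    (h1 : δ ≤ δ₁) (h2 : δ' ≤ δ₁') : FrL A d δ₁ δ₁' B X N a ps q where
  len := h.len
  lum p hp := (h.lum p hp).imp_right fun h3 => h3.trans h1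
  dom := h.dom
  win := h.win.mono hX h1 le_rfl le_rfl h2
  mass t := (h.mass t).trans h1
  good := XG702.Good_mono hX h.good h2
  al := h.al
  lvl := h.lvl
  low := h.low

lemma Dt.OK.mono {P : DPar} {Bf : ℝ → ℝ → ℝ → ℝ} {e0 r ε ε₁ X : ℝ} {a : Bd} {x : Dt}
    (h : x.OK P Bf e0 r ε X a) (hX : 1 ≤ X) (h1 : ε ≤ ε₁) : x.OK P Bf e0 r ε₁ X a where
  g := h.g
  β := h.β
  e₀ := h.e₀
  t := h.t
  c₀ := h.c₀
  g' := h.g'
  z := h.z
  Q q hq := by
    obtain ⟨h2, h3, h4, h5⟩ := h.Q q hq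
    refine ⟨h2, h3, h4, h5.trans ?_⟩
    exact mul_le_mul_of_nonneg_right (Real.rpow_le_rpow_of_exponent_le hX h1)
      (Real.exp_pos _).le
  ph := h.ph

end Crest.Agent.R017.E4U164
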