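import Crest.Agent.R017.E4Uf_164

/-!
# Row 17, R8 / E5, consumer of E4 : one summand (helper164)

* `midF_caseD` : `MidF = 0` in case (D)
* `t5_nonneg` : the target is nonnegative on the domain
* `term_le` : one class of one summand, from `Ap7`
* `num_le` : the numbers;  `el_le` : `EL` of one summand from the classes
-/

set_option autoImplicit false

noncomputable section

open Finset Complex
open scoped ComplexConjugate ContDiff

namespace Crest.Agent.R017.E4U164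

open Crest.Agent.R012 Crest.Agent.R012.Eis
open Crest.Agent.R012.Mob705 hiding pb mem_pb
open Crest.Agent.R012.LS2 (S mem_S)
open Crest.Agent.R017.Sx545 (Sm)
open Crest.Agent.R017.CM106 (FS)
open Crest.Agent.R017.C70 (OKJ)
open Crest.Agent.R017.E2440
open Crest.Agent.R017.End699 (HC)
open Crest.Agent.R017.E4352 (PrI rd Dat4)
open Crest.Agent.R017.E5k54 (PT alb)
open Crest.Agent.R017.E5P571 (MS Gd mem_Gd PC BB)
open Crest.Agent.R017.DgA829 (lc lc_prim lc_dvd)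
open Crest.Agent.R017.SSb54 (PTb mem_PTb PTb_sub)
open Crest.Agent.R017.E5B71
open Crest.Agent.R017.B770
open Crest.Agent.R017.FE47 (SM)
open Crest.Agent.R017.Prov71
open Crest.Agent.R017.E5L770
open Crest.Agent.R017.E4D164
open Crest.Agent.R017.E4v5 (HM5)
open Crest.Agent.R017.E4J352 (Tm JB rngD rngF gx E4core7)
open Crest.Agent.R017.E4ap783 (Cs PG mtr TG7 Ap7 ap7_dict)

variable {Λ : Type*}

/-! ### case (D) -/

lemma midF_caseD {π : Λ → DPar} {h : ℝ → ℝ} {Sf : SF Λ} {lam : Λ × Eis} (hD : (π lam.1).CaseD)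
    (a : Bd) (ps : List Pq) : MidF π h Sf lam a ps = 0 := by
  unfold MidF
  split_ifs with hc
  · refine sum_eq_zero fun q _ => sum_eq_zero fun g _ => ?_
    have h1 : ∀ k, Wt (π lam.1) a k = 0 := by
      intro k
      unfold Wt SU770.DPar.wp
      have h2 : (π lam.1).U = fun _ => 0 := hD
      rw [h2, mul_zero]
    unfold MS
    rw [norm_eq_zero]
    refine (tsum_congr fun k => ?_).trans tsum_zero
    rw [h1 k, zero_mul, zero_mul, ite_self]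
  · rfl

/-! ### the target -/

lemma t5_nonneg {θ A d : ℝ} (hA : 0 ≤ A) (hθ : 0 ≤ θ) (hθ1 : θ ≤ 1)
    {q : (Option (Fin 3 ⊕ Fin 5) → ℝ) × (Kd → ℝ)} (hq : q ∈ SqL A d) :
    0 ≤ T5 θ (dn q.1, q.2) := by
  have h := hq.1.toNr5
  have hκ := h.κ0
  have han := h.anti
  have hnear := h.near
  have hmo := h.w0 .mo
  have ham := h.w0 .am
  unfold T5 Cone59.Tg
  dsimp only at h hκ han hnear hmo ham ⊢
  set p := dn q.1
  have hN : 0 ≤ cN p := by
    unfold cN at hnear ⊢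
    nlinarith [han.2.1, han.2.2.1, han.2.2.2, mul_nonneg hA (by linarith : (0:ℝ) ≤ cκ p)]
  have hM : 0 ≤ cM p := by
    unfold cN at hN
    unfold cM
    linarith [han.1, han.2.1, han.2.2.1, han.2.2.2]
  have h1 : 0 ≤ cN p + cM p + q.2 .mo := by linarith
  have h2 : (cκ p - 1) / 6 + θ * (cN p + cM p + q.2 .mo - (2 - 2 * (1 / 3))) +
      θ * (q.2 .am - 1 / 3) ≤ max ((cκ p - 1) + (cN p + cM p + q.2 .mo - (2 - 2 * (1 / 3))) / 2 +
        (q.2 .am - 1 / 3) / 2)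
    (max ((cκ p - 1) / 2 + 3 / 4 * (cN p + cM p + q.2 .mo - (2 - 2 * (1 / 3))) +
      1 / 4 * (q.2 .am - 1 / 3))
      ((cκ p - 1) / 6 + θ * (cN p + cM p + q.2 .mo - (2 - 2 * (1 / 3))) +
        θ * (q.2 .am - 1 / 3))) := (le_max_right _ _).trans (le_max_right _ _)
  refine le_trans ?_ (add_le_add_right h2 _)
  nlinarith [mul_nonneg hθ h1, mul_nonneg hθ ham]

/-! ### one class -/

/-- an empty class -/
lemma E4L_empty {π : Λ → DPar} {lam : Λ × Eis} {Jf : ℝ → ℝ → ℝ → Finset (Eis × Eis)}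
    {a : Bd × ℕ} {x : Dt} (hI : x.I Jf a = ∅) (M f : Eis) (χ : Eis → ℂ) (l : ℤ) (V : ℝ → ℂ)
    (K : ℝ) (L : x.O π lam Jf a → ℝ) (v w : x.O π lam Jf a → Eis → ℂ) :
    E4L M f χ l V K L v w = 0 := by
  classical
  have h0 : x.O π lam Jf a = ∅ := by
    unfold Dt.O OD OU
    rw [hI]
    simp
  haveI : IsEmpty (x.O π lam Jf a) := by
    rw [h0]
    infer_instance
  unfold E4L
  exact Fintype.sum_empty _

/-- **one class of one summand** -/
theorem term_le {π : Λ → DPar} {h : ℝ → ℝ} {lam : Λ × Eis} (hP : (π lam.1).OK)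
    {Jf : ℝ → ℝ → ℝ → Finset (Eis × Eis)} {a : Bd × ℕ} {ps : List Pq} {x : Dt}
    {h₁ : FS (b1 (π lam.1) h lam.2 ps)} {h₂ : FS (b2 (π lam.1) h lam.2 a.1 ps)}
    {R εa As C J C0 Y S' Mn T₀ : ℝ} (hR : 0 < R) {T : Finset ((Eis → ℂ) × ℤ)} {Pm : Finset Eis}
    (hap : Ap7 (π lam.1).n₃ (psd (psE (π lam.1).n₃ (fun k => conj ((π lam.1).χ₃ k)) (x.E a.1))
      (x.c₀ * x.g' * x.z)) (-(π lam.1).l₃) T Pm (VR (π lam.1).U R) εa As C J)
    (hs : SzD π h C0 Y Jf lam a ps x h₁ h₂) (hI : (x.I Jf a).Nonempty) (hC0 : 0 < C0)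
    {sw : Eis → Eis → Eis → Eis → Eis → Prop}
    (hsw : ∀ D0 D1 B R Z : Eis, sw D0 D1 B R Z → (nm D1 : ℝ) * nm (rd Z) ≤ 2 * T₀)
    (hK1 : 1 ≤ R * Real.exp a.1.l) (hKY : R * Real.exp a.1.l ≤ Y) (hS : 0 ≤ S') (hMn : 0 ≤ Mn)
    (hJ : JB (π lam.1).n₃ 1 lD (x.v π h lam Jf a) (x.w π h lam Jf a ps h₁ h₂) (fun _ => 1)
      (rngD sw lD (R * Real.exp a.1.l)) S')
    (hJd : ∀ t ∈ T, ∀ ξ : ℝ, JB (π lam.1).n₃ 1 lD (x.v π h lam Jf a)
      (x.w π h lam Jf a ps h₁ h₂) (gx t.1 t.2 ξ)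
      (rngF sw lD (C0 * U0 (π lam.1) a ps x / (R * Real.exp a.1.l) * Y ^ εa))
      ((1 + |ξ|) ^ As * S'))
    (hM : ∀ m ∈ Pm, HM5 (π lam.1).n₃ 1 lD (x.v π h lam Jf a) (x.w π h lam Jf a ps h₁ h₂)
      (R * Real.exp a.1.l) T₀ (mtr (some m)) Mn) :
    ‖E4L (π lam.1).n₃ 1 (psd (psE (π lam.1).n₃ (fun k => conj ((π lam.1).χ₃ k)) (x.E a.1))
      (x.c₀ * x.g' * x.z)) (-(π lam.1).l₃)
      (V1 (Vt (π lam.1).U a.1.τ R (R * Real.exp a.1.l))) (R * Real.exp a.1.l)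
      (O := x.O π lam Jf a) lD (x.v π h lam Jf a) (x.w π h lam Jf a ps h₁ h₂)‖ ≤
      C * Y ^ εa * (1 + |a.1.τ|) ^ J * (R * Real.exp a.1.l * S' + Y ^ (-As) + Mn) := by
  have hK : 0 < R * Real.exp a.1.l := by positivity
  rw [V1_Vt hP.U hR hK, E4L_smul, norm_mul]
  have e1 : ‖conj (((R * Real.exp a.1.l : ℝ) : ℂ) ^ (I * a.1.τ))‖ = 1 := by
    rw [Complex.norm_conj, Complex.norm_cpow_eq_rpow_re_of_pos hK]
    simp
  rw [e1, one_mul]
  have h1 := hap (-a.1.τ) 1 (x.O π lam Jf a) inferInstance lD (x.v π h lam Jf a)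
    (x.w π h lam Jf a ps h₁ h₂) Y (R * Real.exp a.1.l) (C0 * U0 (π lam.1) a ps x) T₀ S' Mn sw
    hs.dat hK1 hKY (mul_pos hC0 hs.u0) (hs.uY hI) hS hMn hs.ub hsw hJ hJd hM
  rw [abs_neg] at h1
  exact h1

/-- the numbers -/
lemma num_le {R el Tg nr Y C H As : ℝ} {εa : ℝ} {l : ℝ} (hel : el = Real.exp l) (hR : 0 < R)
    (hK1 : 1 ≤ R * el) (hTg : 0 < Tg) (hnr : 0 < nr) (hC : 0 ≤ C) (hH : 0 ≤ H) (hY : 0 < Y)
    (hYA : Y ^ (-As) ≤ Tg / nr) :
    (R * el) ^ (-(2 / 3) : ℝ) * (C * Y ^ εa * H * (R * el * (Tg / (nr * Real.exp (l / 3))) +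
      Y ^ (-As) + Tg * Real.exp (2 / 3 * l) / nr)) ≤
      C * Y ^ εa * H * ((R ^ (1 / 3 : ℝ) + 1 + R ^ (-(2 / 3) : ℝ)) * (Tg / nr)) := by
  subst hel
  have hK : 0 < R * Real.exp l := by positivity
  have e0 : (R * Real.exp l) ^ (-(2 / 3) : ℝ) = R ^ (-(2 / 3) : ℝ) * Real.exp (-(2 / 3) * l) := by
    rw [Real.mul_rpow hR.le (Real.exp_pos _).le, ← Real.exp_mul, mul_comm l]
  have e1 : (R * Real.exp l) ^ (-(2 / 3) : ℝ) * (R * Real.exp l * (Tg / (nr * Real.exp (l / 3)))) =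
      R ^ (1 / 3 : ℝ) * (Tg / nr) := by
    rw [e0]
    have h1 : R ^ (1 / 3 : ℝ) = R ^ (-(2 / 3) : ℝ) * R := by
      rw [← Real.rpow_add_one hR.ne']
      norm_num
    have h2 : Real.exp (-(2 / 3) * l) * Real.exp l = Real.exp (l / 3) := by
      rw [← Real.exp_add]
      congr 1
      ring
    rw [h1]
    have h3 : Real.exp (l / 3) ≠ 0 := (Real.exp_pos _).ne'
    have h4 : Tg / (nr * Real.exp (l / 3)) = Tg / nr / Real.exp (l / 3) := by rw [div_div]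
    rw [h4]
    calc R ^ (-(2 / 3) : ℝ) * Real.exp (-(2 / 3) * l) *
          (R * Real.exp l * (Tg / nr / Real.exp (l / 3))) =
        R ^ (-(2 / 3) : ℝ) * R * (Real.exp (-(2 / 3) * l) * Real.exp l) *
          (Tg / nr / Real.exp (l / 3)) := by ring
      _ = _ := by rw [h2]; field_simp
  have e2 : (R * Real.exp l) ^ (-(2 / 3) : ℝ) * (Tg * Real.exp (2 / 3 * l) / nr) =
      R ^ (-(2 / 3) : ℝ) * (Tg / nr) := by
    rw [e0]
    have h2 : Real.exp (-(2 / 3) * l) * Real.exp (2 / 3 * l) = 1 := by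
      rw [← Real.exp_add]
      have : -(2 / 3) * l + 2 / 3 * l = 0 := by ring
      rw [this, Real.exp_zero]
    calc R ^ (-(2 / 3) : ℝ) * Real.exp (-(2 / 3) * l) * (Tg * Real.exp (2 / 3 * l) / nr) =
        R ^ (-(2 / 3) : ℝ) * (Real.exp (-(2 / 3) * l) * Real.exp (2 / 3 * l)) * (Tg / nr) := by ring
      _ = _ := by rw [h2, mul_one]
  have e3 : (R * Real.exp l) ^ (-(2 / 3) : ℝ) * Y ^ (-As) ≤ 1 * (Tg / nr) := by
    refine mul_le_mul (Real.rpow_le_one_of_one_le_of_nonpos hK1 (by norm_num)) hYA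
      (Real.rpow_nonneg hY.le _) zero_le_one
  calc _ = C * Y ^ εa * H * ((R * Real.exp l) ^ (-(2 / 3) : ℝ) *
        (R * Real.exp l * (Tg / (nr * Real.exp (l / 3)))) +
        (R * Real.exp l) ^ (-(2 / 3) : ℝ) * Y ^ (-As) +
        (R * Real.exp l) ^ (-(2 / 3) : ℝ) * (Tg * Real.exp (2 / 3 * l) / nr)) := by ring
    _ ≤ C * Y ^ εa * H * (R ^ (1 / 3 : ℝ) * (Tg / nr) + 1 * (Tg / nr) +
        R ^ (-(2 / 3) : ℝ) * (Tg / nr)) := by
      rw [e1, e2]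
      have h5 : 0 ≤ C * Y ^ εa * H :=
        mul_nonneg (mul_nonneg hC (Real.rpow_nonneg hY.le _)) hH
      refine mul_le_mul_of_nonneg_left ?_ h5
      linarith
    _ = _ := by ring

end Crest.Agent.R017.E4U164
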