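import Crest.Agent.R017.E4Ug_164

/-!
# Row 17, R8 / E5, consumer of E4 (helper164)

* `el_le` : `EL` of one summand from the classes
* `strBand_of_JBU` : `E4core7`, `JBU`, `MnU`, sizes ⟹ the band of `e0` of `StrU`
-/

set_option autoImplicit false

noncomputable section

open Finset Complex Filter
open scoped ComplexConjugate ContDiff

namespace Crest.Agent.R017.E4U164

open Crest.Agent.R012 Crest.Agent.R012.Eis
open Crest.Agent.R012.Mob705 hiding pb mem_pb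
open Crest.Agent.R012.LS2 (S mem_S)
open Crest.Agent.R017.Sx545 (Sm)
open Crest.Agent.R017.CM106 (FS)
open Crest.Agent.R017.C70 (OKJ)
open Crest.Agent.R017.E2440
open Crest.Agent.R017.End699 (HC)
open Crest.Agent.R017.E4352 (PrI rd Dat4)
open Crest.Agent.R017.E5k54 (PT alb)
open Crest.Agent.R017.E5P571 (MS Gd mem_Gd PC BB)
open Crest.Agent.R017.DgA829 (lc lc_prim lc_dvd)
open Crest.Agent.R017.SSb54 (PTb mem_PTb PTb_sub)
open Crest.Agent.R017.E5B71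
open Crest.Agent.R017.B770
open Crest.Agent.R017.FE47 (SM)
open Crest.Agent.R017.Prov71
open Crest.Agent.R017.E5L770
open Crest.Agent.R017.E4D164
open Crest.Agent.R017.E4v5 (HM5)
open Crest.Agent.R017.E4J352 (Tm JB rngD rngF gx E4core7)
open Crest.Agent.R017.E4ap783 (Cs PG mtr TG7 Ap7 ap7_dict)

variable {Λ : Type*}

open Classical in
/-- **`EL` of one summand from the classes** -/
theorem el_le {π : Λ → DPar} {h : ℝ → ℝ} {lam : Λ × Eis} (hP : (π lam.1).OK)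
    {Jf : ℝ → ℝ → ℝ → Finset (Eis × Eis)} (hJf : ∀ l N z, OKJ (Jf l N z)) {a : Bd × ℕ}
    {ps : List Pq} {R : ℝ} {g : Eis} {β : Fin 3 → Eis} {e₀ t c₀ g' z : Eis} (ph : Eis → ℂ)
    (hs : ∀ q ∈ QK a.1 (R * Real.exp a.1.l), IsPrim (sS g e₀ t q))
    (hE : fN (π lam.1).n₃ (a.1.e * ∏ i, β i) ≠ 0) (hg : PrI (π lam.1).n₃ g') {Nc : ℕ}
    (hN : ∀ q ∈ QK a.1 (R * Real.exp a.1.l), nm (sS g e₀ t q) < 2 ^ Nc)
    (h₁ : FS (b1 (π lam.1) h lam.2 ps)) (h₂ : FS (b2 (π lam.1) h lam.2 a.1 ps)) {Bb : ℝ}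
    (H : ∀ m : Fin 2 → Fin 3 → ℕ, ∀ x : Dt,
      x = ⟨g, β, e₀, t, c₀, g', z, QK a.1 (R * Real.exp a.1.l), ph, m⟩ →
      ‖E4L (π lam.1).n₃ 1 (psd (psE (π lam.1).n₃ (fun k => conj ((π lam.1).χ₃ k)) (x.E a.1))
        (x.c₀ * x.g' * x.z)) (-(π lam.1).l₃)
        (V1 (Vt (π lam.1).U a.1.τ R (R * Real.exp a.1.l))) (R * Real.exp a.1.l)
        (O := x.O π lam Jf a) lD (x.v π h lam Jf a) (x.w π h lam Jf a ps h₁ h₂)‖ ≤ Bb) :
    ‖EL (π lam.1).n₃ (fun k => conj ((π lam.1).χ₃ k)) (π lam.1).l₃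
      (Vt (π lam.1).U a.1.τ R (R * Real.exp a.1.l)) (R * Real.exp a.1.l)
      (QK a.1 (R * Real.exp a.1.l)) (fun q => q ^ 2 * g) ph (J3 Jf a.1 a.2) (omL a.2)
      (b1 (π lam.1) h lam.2 ps) (b2 (π lam.1) h lam.2 a.1 ps)
      (h₁.fin.toFinset ×ˢ h₂.fin.toFinset)
      (a.1.e * ∏ i, β i) (alb (f3 (π lam.1) h lam.2 a.1) β) e₀ t c₀ g' z‖ ≤
      (Nc : ℝ) ^ 6 * Bb := by
  rw [EL_split hP.χ₃.q0 _ _ _ _ hs ph (okJ3 hJf a.1 a.2) (omL a.2) _ _ _ hE _ hg hN]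
  refine (norm_sum_le _ _).trans ?_
  have h3 : ∀ m ∈ Kl Nc, ‖E4L (π lam.1).n₃ 1
      (psd (psE (π lam.1).n₃ (fun k => conj ((π lam.1).χ₃ k)) (a.1.e * ∏ i, β i))
        (c₀ * g' * z)) (-(π lam.1).l₃)
      (V1 (Vt (π lam.1).U a.1.τ R (R * Real.exp a.1.l))) (R * Real.exp a.1.l)
      (O := OD (π lam.1).n₃ (In (QK a.1 (R * Real.exp a.1.l)) (J3 Jf a.1 a.2) g e₀ t m) g e₀ t) lD
      (fun o => vX (π lam.1).n₃ (fun k => conj ((π lam.1).χ₃ k)) (π lam.1).l₃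
        (In (QK a.1 (R * Real.exp a.1.l)) (J3 Jf a.1 a.2) g e₀ t m) (omL a.2) ph
        (a.1.e * ∏ i, β i) (alb (f3 (π lam.1) h lam.2 a.1) β) g e₀ t c₀ g' o)
      (fun o => wX (π lam.1).n₃ (b1 (π lam.1) h lam.2 ps) (b2 (π lam.1) h lam.2 a.1 ps)
        (h₁.fin.toFinset ×ˢ h₂.fin.toFinset) (a.1.e * ∏ i, β i) z o)‖ ≤ Bb := by
    intro m _
    have h4 := H m ⟨g, β, e₀, t, c₀, g', z, QK a.1 (R * Real.exp a.1.l), ph, m⟩ rfl
    unfold Dt.v Dt.w Dt.O Dt.E Dt.I at h4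
    unfold In
    exact h4
  refine (sum_le_sum h3).trans (le_of_eq ?_)
  rw [sum_const, card_Kl, nsmul_eq_mul]
  push_cast
  ring

/-- pure numbers -/
lemma num2 {nr K' N6 Bb E C Yε H H' cR Tg : ℝ} (hnr : 0 < nr) (hK' : 0 ≤ K') (hN : 0 ≤ N6)
    (hE : E ≤ N6 * Bb) (hB : K' * Bb ≤ C * Yε * H * (cR * (Tg / nr))) (hC : 0 ≤ C) (hY : 0 ≤ Yε)
    (hH : H ≤ H') (hcR : 0 ≤ cR) (hTg : 0 ≤ Tg) :
    nr * (K' * E) ≤ N6 * (C * Yε * H' * (cR * Tg)) := by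
  calc nr * (K' * E) ≤ nr * (K' * (N6 * Bb)) := by gcongr
    _ = N6 * (nr * (K' * Bb)) := by ring
    _ ≤ N6 * (nr * (C * Yε * H * (cR * (Tg / nr)))) := by gcongr
    _ = N6 * (C * Yε * H * (cR * Tg)) := by field_simp
    _ ≤ _ := by gcongr

/-- **one summand** -/
theorem summand_le {π : Λ → DPar} {h : ℝ → ℝ} {lam : Λ × Eis} (hP : ∀ lam, (π lam).OK)
    (hh : Bump h) {e0 r : ℝ} {Bf : ℝ → ℝ → ℝ → ℝ} {Jf : ℝ → ℝ → ℝ → Finset (Eis × Eis)}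
    (hJf : ∀ l N z, OKJ (Jf l N z)) {a : Bd × ℕ} {ps : List Pq} (hokP : a.1.okP (π lam.1))
    (hd3 : a.1.d₃ ≠ 0) {X A0 R εm : ℝ} (hX1 : 1 ≤ X) (hR : 0 < R)
    (hRX : R ≤ X ^ εm) (sz : SzF π h e0 r R (X ^ A0) Bf Jf lam a ps) {C εa J As Tg H' : ℝ}
    (hC : 0 ≤ C) (hTg : 0 < Tg) (hτ : (1 + |a.1.τ|) ^ J ≤ H') {Nc : ℕ}
    (hNc : X ^ A0 < 2 ^ Nc)
    (hTA : ∀ nr : ℝ, 0 < nr → nr ≤ X ^ A0 → (X ^ A0) ^ (-As) ≤ Tg / nr)
    (Hx : ∀ x : Dt, x.OK (π lam.1) Bf e0 r εm X a.1 →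
      ∀ (h₁ : FS (b1 (π lam.1) h lam.2 ps)) (h₂ : FS (b2 (π lam.1) h lam.2 a.1 ps)),
      nrm x ≤ X ^ A0 ∧ ‖E4L (π lam.1).n₃ 1
        (psd (psE (π lam.1).n₃ (fun k => conj ((π lam.1).χ₃ k)) (x.E a.1))
          (x.c₀ * x.g' * x.z)) (-(π lam.1).l₃)
        (V1 (Vt (π lam.1).U a.1.τ R (R * Real.exp a.1.l))) (R * Real.exp a.1.l)
        (O := x.O π lam Jf a) lD (x.v π h lam Jf a) (x.w π h lam Jf a ps h₁ h₂)‖ ≤
        C * (X ^ A0) ^ εa * (1 + |a.1.τ|) ^ J * (R * Real.exp a.1.l *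
          (Tg / (nrm x * Real.exp (a.1.l / 3))) + (X ^ A0) ^ (-As) +
            Tg * Real.exp (2 / 3 * a.1.l) / nrm x))
    {ph : Eis → Eis → ℂ} (hph : ∀ g q, ‖ph g q‖ = 1) {g : Eis} (hg : g ∈ Gd (π lam.1).n a.1.d₃)
    {β : Fin 3 → Eis} (hβ : β ∈ T3 Bf a.1 r) {e₀ : Eis} (he₀ : e₀ ∈ S (Real.exp (e0 * a.1.l)))
    {t : Eis} (ht : t ∈ Gd (π lam.1).n (tS (a.1.e * ∏ i, β i))) {c₀ : Eis} (hc₀ : c₀ ∈ C4)
    {g' : Eis} {N₁ N₂ : ℕ} (hg' : g' ∈ MC (π lam.1).n₃ N₁) {z : Eis}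
    (hz : z ∈ MC (π lam.1).n₃ N₂) :
    (nm (∏ i, β i) : ℝ) ^ (1 / 2 : ℝ) * (nm e₀ : ℝ) *
      ((R * Real.exp a.1.l : ℝ) ^ (-(2 / 3) : ℝ) *
      ‖EL (π lam.1).n₃ (fun k => conj ((π lam.1).χ₃ k)) (π lam.1).l₃
        (Vt (π lam.1).U a.1.τ R (R * Real.exp a.1.l)) (R * Real.exp a.1.l)
        (QK a.1 (R * Real.exp a.1.l)) (fun q => q ^ 2 * g) (ph g) (J3 Jf a.1 a.2) (omL a.2)
        (b1 (π lam.1) h lam.2 ps) (b2 (π lam.1) h lam.2 a.1 ps)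
        ((fs_b1 (t := lam.2) (ps := ps) (hP lam.1) hh).fin.toFinset ×ˢ
          (fs_b2 (t := lam.2) (a := a.1) (ps := ps) (hP lam.1) hh).fin.toFinset)
        (a.1.e * ∏ i, β i) (alb (f3 (π lam.1) h lam.2 a.1) β) e₀ t c₀ g' z‖) ≤
      (Nc : ℝ) ^ 6 * (C * (X ^ A0) ^ εa * H' *
        ((R ^ (1 / 3 : ℝ) + 1 + R ^ (-(2 / 3) : ℝ)) * Tg)) := by
  have hX0 : 0 < X := by linarith
  have hY0 : 0 < X ^ A0 := Real.rpow_pos_of_pos hX0 _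
  have hM0 : (π lam.1).n₃ ≠ 0 := (hP lam.1).χ₃.q0
  have hgm := (mem_Gd hd3).mp hg
  have hβp : IsPrim (∏ i, β i) := T3_prim β hβ
  have hEp : IsPrim (a.1.e * ∏ i, β i) := hokP.1.1.mul hβp
  have htS : tS (a.1.e * ∏ i, β i) ≠ 0 := (tS_prim hEp).ne_zero
  have htm := (mem_Gd htS).mp ht
  have he₀p : IsPrim e₀ := ((mem_S (Real.exp_pos _).le).mp he₀).2.1
  have he₀X : (nm e₀ : ℝ) ≤ Real.exp (e0 * a.1.l) := ((mem_S (Real.exp_pos _).le).mp he₀).1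
  have hg'm := mem_MC.mp hg'
  have hzm := mem_MC.mp hz
  have hQ : ∀ q ∈ QK a.1 (R * Real.exp a.1.l), IsPrim (sS g e₀ t q) := by
    intro q hq
    have hq1 := (hokP.2.2 q (mem_QK.mp hq).1).1.1
    exact lc_prim (lc_prim ((hq1.pow 2).mul hgm.1.1) he₀p) htm.1.1
  have hN : ∀ q ∈ QK a.1 (R * Real.exp a.1.l), nm (sS g e₀ t q) < 2 ^ Nc := by
    intro q hq
    have h1 := sz.sS g e₀ t hgm.1.1 hgm.2.2 he₀p htm.1.1 he₀X ⟨β, hβ, htm.2.2⟩ q hq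
    exact_mod_cast h1.trans_lt hNc
  have hfN : fN (π lam.1).n₃ (a.1.e * ∏ i, β i) ≠ 0 := (fM_spec hM0 hEp).2.1.1.ne_zero
  have h1 : (0 : ℝ) < nm (∏ i, β i) := by exact_mod_cast nm_pos.mpr hβp.ne_zero
  have h2 : (0 : ℝ) < nm e₀ := by exact_mod_cast nm_pos.mpr he₀p.ne_zero
  have hnr : 0 < (nm (∏ i, β i) : ℝ) ^ (1 / 2 : ℝ) * (nm e₀ : ℝ) := by positivity
  have hOK : ∀ m, (⟨g, β, e₀, t, c₀, g', z, QK a.1 (R * Real.exp a.1.l), ph g, m⟩ : Dt).OK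
      (π lam.1) Bf e0 r εm X a.1 := fun m =>
    { g := hg
      β := hβ
      e₀ := he₀
      t := ht
      c₀ := hc₀
      g' := hg'm.2
      z := hzm.2
      Q := by
        intro q hq
        have hq2 := mem_QK.mp hq
        refine ⟨(hokP.2.2 q hq2.1).1, (hokP.2.2 q hq2.1).2, hq2.2.1, hq2.2.2.trans ?_⟩
        exact mul_le_mul_of_nonneg_right hRX (Real.exp_pos _).le
      ph := fun q => (hph g q).le }
  set h₁ := fs_b1 (t := lam.2) (ps := ps) (hP lam.1) hh with hh₁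
  set h₂ := fs_b2 (t := lam.2) (a := a.1) (ps := ps) (hP lam.1) hh with hh₂
  have hel := el_le (ps := ps) (c₀ := c₀) (z := z) (hP lam.1) hJf (ph g) hQ hfN hg'm.2 hN h₁ h₂
    (Bb := C * (X ^ A0) ^ εa * (1 + |a.1.τ|) ^ J * (R * Real.exp a.1.l *
      (Tg / ((nm (∏ i, β i) : ℝ) ^ (1 / 2 : ℝ) * (nm e₀ : ℝ) * Real.exp (a.1.l / 3))) +
        (X ^ A0) ^ (-As) + Tg * Real.exp (2 / 3 * a.1.l) /
          ((nm (∏ i, β i) : ℝ) ^ (1 / 2 : ℝ) * (nm e₀ : ℝ)))) (by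
      intro m x hx
      subst hx
      exact (Hx _ (hOK m) h₁ h₂).2)
  have hnrY : (nm (∏ i, β i) : ℝ) ^ (1 / 2 : ℝ) * (nm e₀ : ℝ) ≤ X ^ A0 :=
    (Hx _ (hOK 0) h₁ h₂).1
  have hnum := num_le (εa := εa) (H := (1 + |a.1.τ|) ^ J) (As := As) rfl hR sz.K1 hTg hnr hC
    (by positivity) hY0 (hTA _ hnr hnrY)
  exact num2 hnr (Real.rpow_nonneg (by positivity) _) (by positivity) hel hnum hC
    (Real.rpow_nonneg hY0.le _) hτ (by positivity) hTg.le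

lemma nrm_nonneg (x : Dt) : 0 ≤ nrm x :=
  mul_nonneg (Real.rpow_nonneg (Nat.cast_nonneg _) _) (Nat.cast_nonneg _)

/-- **one class, from the list-level facts** -/
theorem class_le {π : Λ → DPar} {h : ℝ → ℝ} {lam : Λ × Eis} (hP : (π lam.1).OK)
    {Jf : ℝ → ℝ → ℝ → Finset (Eis × Eis)} {a : Bd × ℕ} {ps : List Pq}
    (hokP : a.1.okP (π lam.1)) {x : Dt} {X Y R C0 εJ εa As A' Tg C J e0 r εm : ℝ}
    {Bf : ℝ → ℝ → ℝ → ℝ} (hx : x.OK (π lam.1) Bf e0 r εm X a.1) (hR : 0 < R)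
    {h₁ : FS (b1 (π lam.1) h lam.2 ps)} {h₂ : FS (b2 (π lam.1) h lam.2 a.1 ps)}
    (hs : SzD π h C0 Y Jf lam a ps x h₁ h₂) (hC0 : 0 < C0) (hC : 0 ≤ C)
    {T : Finset ((Eis → ℂ) × ℤ)}
    {Pm : Finset Eis}
    (Hap : ∀ E c₀ g z : Eis, IsPrim E → GrB829.IsC c₀ → PrI (π lam.1).n₃ g →
      PrI (π lam.1).n₃ z → Ap7 (π lam.1).n₃
        (psd (psE (π lam.1).n₃ (fun k => conj ((π lam.1).χ₃ k)) E) (c₀ * g * z))
        (-(π lam.1).l₃) T Pm (VR (π lam.1).U R) εa As C J)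
    (hK1 : 1 ≤ R * Real.exp a.1.l) (hKY : R * Real.exp a.1.l ≤ Y) (hRJ : R ≤ X ^ εJ)
    (hdu : C0 / R * Y ^ εa ≤ X ^ εJ) (hAs : A' ≤ As) (hTg : 0 < Tg)
    {sw : Eis → Eis → Eis → Eis → Eis → Prop} {T₀ : ℝ}
    (hsw : ∀ D0 D1 B R Z : Eis, sw D0 D1 B R Z → (nm D1 : ℝ) * nm (rd Z) ≤ 2 * T₀)
    (hJ1 : JB (π lam.1).n₃ 1 lD (x.v π h lam Jf a) (x.w π h lam Jf a ps h₁ h₂) (fun _ => 1)
      (rngD sw lD (X ^ εJ * Real.exp a.1.l)) (Tg / (nrm x * Real.exp (a.1.l / 3))))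
    (hJ2 : ∀ t ∈ T, ∀ ξ : ℝ,
      JB (π lam.1).n₃ 1 lD (x.v π h lam Jf a) (x.w π h lam Jf a ps h₁ h₂) (gx t.1 t.2 ξ)
        (rngF sw lD (X ^ εJ * (U0 (π lam.1) a ps x / Real.exp a.1.l)))
        ((1 + |ξ|) ^ A' * (Tg / (nrm x * Real.exp (a.1.l / 3)))))
    (hM : ∀ m ∈ Pm, HM5 (π lam.1).n₃ 1 lD (x.v π h lam Jf a) (x.w π h lam Jf a ps h₁ h₂)
      (R * Real.exp a.1.l) T₀ (mtr (some m)) (Tg * Real.exp (2 / 3 * a.1.l) / nrm x)) :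
    ‖E4L (π lam.1).n₃ 1 (psd (psE (π lam.1).n₃ (fun k => conj ((π lam.1).χ₃ k)) (x.E a.1))
      (x.c₀ * x.g' * x.z)) (-(π lam.1).l₃)
      (V1 (Vt (π lam.1).U a.1.τ R (R * Real.exp a.1.l))) (R * Real.exp a.1.l)
      (O := x.O π lam Jf a) lD (x.v π h lam Jf a) (x.w π h lam Jf a ps h₁ h₂)‖ ≤
      C * Y ^ εa * (1 + |a.1.τ|) ^ J * (R * Real.exp a.1.l *
        (Tg / (nrm x * Real.exp (a.1.l / 3))) + Y ^ (-As) +
          Tg * Real.exp (2 / 3 * a.1.l) / nrm x) := by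
  have hS : 0 ≤ Tg / (nrm x * Real.exp (a.1.l / 3)) :=
    div_nonneg hTg.le (mul_nonneg (nrm_nonneg x) (Real.exp_pos _).le)
  have hMn : 0 ≤ Tg * Real.exp (2 / 3 * a.1.l) / nrm x :=
    div_nonneg (mul_nonneg hTg.le (Real.exp_pos _).le) (nrm_nonneg x)
  have hE : IsPrim (x.E a.1) := hokP.1.1.mul (T3_prim x.β hx.β)
  rcases (x.I Jf a).eq_empty_or_nonempty with hI | hI
  · rw [E4L_empty hI, norm_zero]
    have hY : 0 ≤ Y := le_trans (by linarith) hKY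
    have hJp : 0 ≤ (1 + |a.1.τ|) ^ J := by positivity
    have hK : 0 ≤ R * Real.exp a.1.l := by positivity
    exact mul_nonneg (mul_nonneg (mul_nonneg hC (Real.rpow_nonneg hY _)) hJp)
      (add_nonneg (add_nonneg (mul_nonneg hK hS) (Real.rpow_nonneg hY _)) hMn)
  refine term_le hP hR (Hap _ _ _ _ hE (mem_C4.mp hx.c₀) hx.g' hx.z) hs hI hC0 hsw hK1 hKY hS hMn
    (JBm hJ1 (fun t ht => ⟨ht.1, ht.2.trans ?_⟩) le_rfl)
    (fun t ht ξ => JBm (hJ2 t ht ξ) (fun t' ht' => ⟨ht'.1, ht'.2.trans ?_⟩) ?_) hM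
  · exact mul_le_mul_of_nonneg_right hRJ (Real.exp_pos _).le
  · refine mul_le_mul_of_nonneg_right ?_ (Nat.cast_nonneg _)
    have hu := hs.u0
    calc C0 * U0 (π lam.1) a ps x / (R * Real.exp a.1.l) * Y ^ εa =
        (C0 / R * Y ^ εa) * (U0 (π lam.1) a ps x / Real.exp a.1.l) := by
          field_simp
      _ ≤ _ := mul_le_mul_of_nonneg_right hdu (div_nonneg hu.le (Real.exp_pos _).le)
  · refine mul_le_mul_of_nonneg_right ?_ hS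
    exact Real.rpow_le_rpow_of_exponent_le (by linarith [abs_nonneg ξ]) hAs

lemma hTA_le {X A0 As μ e nr : ℝ} (hX : 1 ≤ X) (hA0 : 1 ≤ A0) (hAs : 1 + |μ| ≤ As)
    (he : -μ ≤ e) (hnr : 0 < nr) (hn : nr ≤ X ^ A0) : (X ^ A0) ^ (-As) ≤ X ^ e / nr := by
  have hX0 : 0 < X := by linarith
  have hY0 : 0 < X ^ A0 := Real.rpow_pos_of_pos hX0 _
  have hY1 : X ≤ X ^ A0 := by
    calc X = X ^ (1 : ℝ) := (Real.rpow_one X).symm
      _ ≤ X ^ A0 := Real.rpow_le_rpow_of_exponent_le hX hA0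
  rw [le_div_iff₀ hnr]
  calc (X ^ A0) ^ (-As) * nr ≤ (X ^ A0) ^ (-As) * X ^ A0 := by gcongr
    _ = (X ^ A0) ^ (-As + 1) := by rw [Real.rpow_add_one hY0.ne']
    _ ≤ (X ^ A0) ^ (-|μ|) :=
      Real.rpow_le_rpow_of_exponent_le (hX.trans hY1) (by linarith)
    _ ≤ X ^ (-|μ|) :=
      Real.rpow_le_rpow_of_nonpos hX0 hY1 (neg_nonpos.mpr (abs_nonneg _))
    _ ≤ X ^ e := Real.rpow_le_rpow_of_exponent_le hX (by linarith [le_abs_self μ])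

lemma ev_num {c ε : ℝ} (hε : 0 < ε) : ∀ᶠ X : ℝ in atTop, c ≤ X ^ ε :=
  (tendsto_rpow_atTop hε).eventually_ge_atTop c

/-- on the band all `e₀`, `β` are in the window -/
lemma xlow_of {A d δ δ' B X e0 r b ε : ℝ} {N : ℕ} {a : Bd × ℕ} {ps : List Pq}
    {q : (Option (Fin 3 ⊕ Fin 5) → ℝ) × (Kd → ℝ)} {P : DPar} {Bf : ℝ → ℝ → ℝ → ℝ} {x : Dt}
    (hfr : FrL A d δ δ' B X N a ps q) (hX : 1 < X) (hx : x.OK P Bf e0 r ε X a.1)
    (he0 : 0 ≤ e0) (hb : 0 ≤ b) (hBf : ∀ l N z, Bf l N z ≤ b * l)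
    (hδ : 8 * (e0 + b + 1) * δ ≤ d)
    (h4 : 4 * e0 * cκ (dn q.1) ≤ low5 (dn q.1) - q.1 none + d / 2)
    (h5 : 2 * b * cκ (dn q.1) ≤ low5 (dn q.1) - q.1 none + d / 2) : XLow d X q x := by
  have hl : 0 < Real.log X := Real.log_pos hX
  have el : |a.1.l / Real.log X - cκ (dn q.1)| ≤ δ := hfr.win.ev (some (.inl 0))
  have h3 : a.1.l ≤ (cκ (dn q.1) + δ) * Real.log X := by
    have := (abs_le.mp el).2
    rw [← div_le_iff₀ hl]
    linarith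
  have hδ0 : 0 ≤ δ := (abs_nonneg _).trans el
  have hbδ : 0 ≤ b * δ := mul_nonneg hb hδ0
  have heδ : 0 ≤ e0 * δ := mul_nonneg he0 hδ0
  constructor
  · have hm := (mem_S (Real.exp_pos _).le).mp hx.e₀
    have h1 : (0 : ℝ) < nm x.e₀ := by exact_mod_cast nm_pos.mpr hm.2.1.ne_zero
    have h2 : Real.log (nm x.e₀) ≤ e0 * a.1.l := by
      rw [← Real.log_exp (e0 * a.1.l)]
      exact Real.log_le_log h1 hm.1
    have h6 : e0 * a.1.l ≤ e0 * ((cκ (dn q.1) + δ) * Real.log X) :=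
      mul_le_mul_of_nonneg_left h3 he0
    calc 4 * Real.log (nm x.e₀) ≤ (4 * e0 * cκ (dn q.1) + 4 * e0 * δ) * Real.log X := by
          linarith
      _ ≤ (low5 (dn q.1) - q.1 none + d) * Real.log X := by
          refine mul_le_mul_of_nonneg_right ?_ hl.le
          have : 4 * e0 * δ ≤ d / 2 := by linarith
          linarith
  · have hm := (mem_PTb.mp hx.β)
    have h1 : (0 : ℝ) < nm (∏ i, x.β i) := by
      exact_mod_cast nm_pos.mpr (T3_prim x.β hx.β).ne_zero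
    have h2 : Real.log (nm (∏ i, x.β i)) ≤ b * a.1.l := by
      refine le_trans ?_ (hBf a.1.l (a3 a.1) a.1.z)
      rw [← Real.log_exp (Bf a.1.l (a3 a.1) a.1.z)]
      exact Real.log_le_log h1 hm.2
    have h6 : b * a.1.l ≤ b * ((cκ (dn q.1) + δ) * Real.log X) :=
      mul_le_mul_of_nonneg_left h3 hb
    calc 2 * Real.log (nm (∏ i, x.β i)) ≤ (2 * b * cκ (dn q.1) + 2 * b * δ) * Real.log X := by
          linarith
      _ ≤ (low5 (dn q.1) - q.1 none + d) * Real.log X := by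
          refine mul_le_mul_of_nonneg_right ?_ hl.le
          have : 2 * b * δ ≤ d / 2 := by linarith
          linarith

/-- the band -/
def SqBand (A d e0 b : ℝ) : Set ((Option (Fin 3 ⊕ Fin 5) → ℝ) × (Kd → ℝ)) :=
  {q | q ∈ SqLow A d ∧ 4 * e0 * cκ (dn q.1) ≤ low5 (dn q.1) - q.1 none + d / 2 ∧
    2 * b * cκ (dn q.1) ≤ low5 (dn q.1) - q.1 none + d / 2}

/-- **the low levels of StrU from the list-level Props** (gated functional), the band of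
`e0`, `b` -/
theorem strBand_of_JBU (H7 : E4core7) {π : Λ → DPar} {h : ℝ → ℝ} (hP : ∀ lam, (π lam).OK)
    (hh : Bump h) {θ A d μ : ℝ} (hA : 2 / 3 ≤ A) (hd : 0 < d) (hθ : 0 ≤ θ) (hθ1 : θ ≤ 1)
    {e0 r b : ℝ} (he0 : 0 ≤ e0) (hb : 0 ≤ b) {Bf : ℝ → ℝ → ℝ → ℝ}
    (hBf : ∀ l N z, Bf l N z ≤ b * l) {Jf : ℝ → ℝ → ℝ → Finset (Eis × Eis)}
    (hJf : ∀ l N z, OKJ (Jf l N z)) (HJ : JBU π h θ A d μ e0 r Bf Jf)
    (HM : MnU π h θ A d μ e0 r Bf Jf) (HS : SzU π h A d e0 r Bf Jf) :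
    UB (lev (Real.log 2) S5) Dq
      (fun lam a ps => if a.2 < nL a.1.l (a3 a.1) a.1.z then
        MidF π h (SfV π h e0 r Bf Jf a.2) lam a.1 ps else 0)
      (SqBand A d e0 b) (alL al5) fun q => T5 θ (dn q.1, q.2) - μ := by
  intro ε hε
  have hε₁ : 0 < ε / 8 := by positivity
  set ε₁ : ℝ := ε / 8 with hε₁d
  obtain ⟨εJ, hεJ0, hεJ1, δJ, hδJ, HJ⟩ := HJ ε₁ hε₁
  obtain ⟨εM, hεM0, hεM1, δM, hδM, HM⟩ := HM ε₁ hε₁
  have hδ8 : 0 < d / (8 * (e0 + b + 1)) := by positivity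
  set δ₀ : ℝ := min (min (min δJ δM) (1 / 2)) (d / (8 * (e0 + b + 1))) with hδ₀d
  refine ⟨δ₀, by positivity, fun lam N B => ?_⟩
  by_cases hD : (π lam.1).CaseD
  · refine ⟨1, one_pos, 2, one_lt_two, fun X hX a ps _ _ q _ _ _ _ _ => ?_⟩
    beta_reduce
    rw [midF_caseD hD, ite_self]
    exact Real.rpow_nonneg (by linarith) _
  obtain ⟨R, hR1, hR2⟩ := Asm986.sw_bound (hP lam.1).U
  have hR : 0 < R := by linarith
  have hU : ∀ y, R < y → (π lam.1).U y = 0 := by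
    intro y hy
    by_contra h0
    exact absurd (hR2 y h0).2 (not_le.mpr hy)
  obtain ⟨T, Pm, hT, hPm, Hap⟩ := ap7_dict H7 (hP lam.1).χ₃.conj (cs_of (hP lam.1) hD)
  obtain ⟨A', hA'0, δJ', hδJ', XJ, hXJ, HJ⟩ := HJ lam N B T hD hT
  obtain ⟨δM', hδM', XM, hXM, HM⟩ := HM lam N B R Pm hR hD hPm
  obtain ⟨A0, C0, XS, hA0, hC0, hXS, HS⟩ := HS lam N B R hR
  have hA0p : 0 < A0 := by linarith
  have hAs : 0 ≤ max A' (1 + |μ|) := hA'0.trans (le_max_left _ _)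
  set As : ℝ := max A' (1 + |μ|) with hAsd
  have hεa : 0 < min ε₁ (εJ / 2) / A0 := by positivity
  set εa : ℝ := min ε₁ (εJ / 2) / A0 with hεad
  obtain ⟨C, J, hC, hJ0, Hap⟩ := Hap (VR (π lam.1).U R) (sw_VR (hP lam.1).U hR)
    (VR_zero hR hU) εa As hεa hAs
  obtain ⟨Cs, hCs, Hs⟩ := sum_mid (Fin 3) (ε := ε₁ / A0) (by positivity)
  have hεm : 0 < min (min εJ εM) 1 := lt_min (lt_min hεJ0 hεM0) one_pos
  set εm : ℝ := min (min εJ εM) 1 with hεmd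
  set δ' : ℝ := min (min δJ' δM') (min 1 (ε₁ / (J + 1))) with hδ'd
  have hδ' : 0 < δ' := by positivity
  -- large `X`
  obtain ⟨X₁, hX₁⟩ := (((((ev_num (c := C0 / R) (ε := εJ / 2) (by positivity)).and
    (ev_num (c := R) hεm)).and (ev_levels (A0 / Real.log 2) 1 (ε := ε₁ / 6) (by positivity))).and
    (ev_num (c := Cs * (‖(pC : ℂ)‖ * (C * (R ^ (1 / 3 : ℝ) + 1 + R ^ (-(2 / 3) : ℝ))))) hε₁)).and
    (eventually_ge_atTop (max (max XJ XM) (max XS 2)))).exists_forall_of_atTop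
  refine ⟨δ', hδ', max X₁ 2, lt_max_of_lt_right one_lt_two,
    fun X hX a ps hlen hlum q hdom hwin hmass hgood hal => ?_⟩
  obtain ⟨⟨⟨⟨v1, v2⟩, v3⟩, v4⟩, v5⟩ := hX₁ X ((le_max_left _ _).trans hX)
  beta_reduce
  have hXJ' : XJ ≤ X := ((le_max_left _ _).trans (le_max_left _ _)).trans v5
  have hXM' : XM ≤ X := ((le_max_right _ _).trans (le_max_left _ _)).trans v5
  have hXS' : XS ≤ X := ((le_max_left _ _).trans (le_max_right _ _)).trans v5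
  have hX2 : 2 ≤ X := ((le_max_right _ _).trans (le_max_right _ _)).trans v5
  have hX1 : 1 ≤ X := by linarith
  have hX0 : 0 < X := by linarith
  by_cases hlvl : a.2 < nL a.1.l (a3 a.1) a.1.z
  swap
  · rw [if_neg hlvl]
    exact Real.rpow_nonneg hX0.le _
  rw [if_pos hlvl]
  by_cases hcond : a.1.ok ∧ lam.2 ∈ SM (π lam.1).n ∧ a.1.okP (π lam.1)
  swap
  · unfold MidF
    rw [if_neg hcond]
    exact Real.rpow_nonneg hX0.le _
  obtain ⟨hok, hSM, hokP⟩ := hcond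
  have hfr : FrL A d δ₀ δ' B X N a ps q :=
    ⟨hlen, hlum, hdom.1.1, hwin, hmass, hgood, hal, hlvl, hdom.1.2⟩
  have hxl : ∀ x : Dt, x.OK (π lam.1) Bf e0 r εm X a.1 → XLow d X q x := fun x hx =>
    xlow_of hfr (by linarith) hx he0 hb hBf (by
      have h1 : δ₀ ≤ d / (8 * (e0 + b + 1)) := min_le_right _ _
      rw [le_div_iff₀ (by positivity)] at h1
      linarith) hdom.2.1 hdom.2.2
  have hfrJ : FrL A d δJ δJ' B X N a ps q :=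
    hfr.mono hX1 ((min_le_left _ _).trans ((min_le_left _ _).trans (min_le_left _ _)))
      ((min_le_left _ _).trans (min_le_left _ _))
  have hfrM : FrL A d δM δM' B X N a ps q :=
    hfr.mono hX1 ((min_le_left _ _).trans ((min_le_left _ _).trans (min_le_right _ _)))
      ((min_le_left _ _).trans (min_le_right _ _))
  obtain ⟨sz, sd⟩ := HS X hXS' a ps q _ _ ((min_le_left _ _).trans (min_le_right _ _))
    ((min_le_right _ _).trans (min_le_left _ _)) hfr hok hSM hokP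
  set Y : ℝ := X ^ A0 with hYd
  have hY1 : 1 ≤ Y := Real.one_le_rpow hX1 hA0p.le
  have hY0 : 0 < Y := by linarith
  set Tg : ℝ := X ^ (T5 θ (dn q.1, q.2) - μ + ε₁) with hTgd
  have hTg : 0 < Tg := Real.rpow_pos_of_pos hX0 _
  -- the height
  have hτ : (1 + |a.1.τ|) ^ J ≤ X ^ ε₁ := by
    have h1 : 1 + |a.1.τ| ≤ X ^ δ' := (le_max_left _ _).trans hwin.s₁
    have h2 : (1 + |a.1.τ|) ^ J ≤ (X ^ δ') ^ J :=
      Real.rpow_le_rpow (by positivity) h1 hJ0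
    refine h2.trans ?_
    rw [← Real.rpow_mul hX0.le]
    refine Real.rpow_le_rpow_of_exponent_le hX1 ?_
    have h3 : δ' ≤ ε₁ / (J + 1) := (min_le_right _ _).trans (min_le_right _ _)
    have h4 : 0 < J + 1 := by linarith
    calc δ' * J ≤ ε₁ / (J + 1) * (J + 1) :=
          mul_le_mul h3 (by linarith) hJ0 (by positivity)
      _ = ε₁ := by field_simp
  have hYa : Y ^ εa ≤ X ^ ε₁ := by
    rw [hYd, ← Real.rpow_mul hX0.le]
    refine Real.rpow_le_rpow_of_exponent_le hX1 ?_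
    rw [hεad]
    have : A0 * (min ε₁ (εJ / 2) / A0) = min ε₁ (εJ / 2) := by field_simp
    rw [this]
    exact min_le_left _ _
  have hYa2 : Y ^ εa ≤ X ^ (εJ / 2) := by
    rw [hYd, ← Real.rpow_mul hX0.le]
    refine Real.rpow_le_rpow_of_exponent_le hX1 ?_
    rw [hεad]
    have : A0 * (min ε₁ (εJ / 2) / A0) = min ε₁ (εJ / 2) := by field_simp
    rw [this]
    exact min_le_right _ _
  have hRJ : R ≤ X ^ εJ := v2.trans (Real.rpow_le_rpow_of_exponent_le hX1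
    ((min_le_left _ _).trans (min_le_left _ _)))
  have hdu : C0 / R * Y ^ εa ≤ X ^ εJ := by
    calc C0 / R * Y ^ εa ≤ X ^ (εJ / 2) * X ^ (εJ / 2) := by
          gcongr
      _ = X ^ εJ := by rw [← Real.rpow_add hX0]; congr 1; ring
  have hT5 : 0 ≤ T5 θ (dn q.1, q.2) := t5_nonneg (by linarith) hθ hθ1 hdom.1.1
  -- number of classes
  set Nc : ℕ := ⌊A0 / Real.log 2 * Real.log X⌋₊ + 1 with hNcd
  have hl2 : 0 < Real.log 2 := Real.log_pos (by norm_num)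
  have hlX : 0 ≤ Real.log X := Real.log_nonneg hX1
  have hNc1 : (Nc : ℝ) ≤ A0 / Real.log 2 * Real.log X + 1 := by
    rw [hNcd]
    push_cast
    have := Nat.floor_le (show 0 ≤ A0 / Real.log 2 * Real.log X by positivity)
    linarith
  have hNc6 : (Nc : ℝ) ^ 6 ≤ X ^ ε₁ := by
    have h1 : (Nc : ℝ) ≤ X ^ (ε₁ / 6) := hNc1.trans v3
    calc (Nc : ℝ) ^ 6 ≤ (X ^ (ε₁ / 6)) ^ 6 := pow_le_pow_left₀ (Nat.cast_nonneg _) h1 6
      _ = X ^ ε₁ := by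
        rw [← Real.rpow_natCast, ← Real.rpow_mul hX0.le]
        congr 1
        push_cast
        ring
  have hNc2 : Y < 2 ^ Nc := by
    have h1 : A0 / Real.log 2 * Real.log X < Nc := by
      rw [hNcd]
      push_cast
      exact Nat.lt_floor_add_one _
    have h2 : A0 * Real.log X < Nc * Real.log 2 := by
      have := mul_lt_mul_of_pos_right h1 hl2
      have h3 : A0 / Real.log 2 * Real.log X * Real.log 2 = A0 * Real.log X := by field_simp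
      linarith
    have h3 : Y = Real.exp (A0 * Real.log X) := by
      rw [hYd, Real.rpow_def_of_pos hX0, mul_comm]
    have h4 : (2 : ℝ) ^ Nc = Real.exp (Nc * Real.log 2) := by
      rw [← Real.rpow_natCast, Real.rpow_def_of_pos (by norm_num), mul_comm]
    rw [h3, h4]
    exact Real.exp_lt_exp.mpr h2
  obtain ⟨ph, hph, hmid⟩ := midV hh (hP lam.1) hR hU e0 r Bf hJf a.2 a.1 ps sz.N₁ sz.N₂
  refine hmid.trans ?_
  have hd3 : a.1.d₃ ≠ 0 := hok.2.2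
  have hM0 : (π lam.1).n₃ ≠ 0 := (hP lam.1).χ₃.q0
  have hKp : 0 < R * Real.exp a.1.l := by positivity
  set cR : ℝ := R ^ (1 / 3 : ℝ) + 1 + R ^ (-(2 / 3) : ℝ) with hcRd
  have hcR : 0 < cR := by positivity
  set Tt : ℝ := (Nc : ℝ) ^ 6 * (C * Y ^ εa * X ^ ε₁ * (cR * Tg)) with hTtd
  have hTt : 0 ≤ Tt := by positivity
  have key := Hs Y Tt ‖(pC : ℂ)‖ (Real.exp (e0 * a.1.l)) (Y3 a.1 r) ⌊Y⌋₊ ⌊Y⌋₊ (π lam.1).n
    (π lam.1).n₃ a.1.d₃ a.1.e (T3 Bf a.1 r)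
    (fun g β e₀ t c₀ g' z => (R * Real.exp a.1.l : ℝ) ^ (-(2 / 3) : ℝ) *
      ‖EL (π lam.1).n₃ (fun k => conj ((π lam.1).χ₃ k)) (π lam.1).l₃
        (Vt (π lam.1).U a.1.τ R (R * Real.exp a.1.l)) (R * Real.exp a.1.l)
        (QK a.1 (R * Real.exp a.1.l)) (fun q => q ^ 2 * g) (ph g) (J3 Jf a.1 a.2) (omL a.2)
        (b1 (π lam.1) h lam.2 ps) (b2 (π lam.1) h lam.2 a.1 ps)
        ((fs_b1 (t := lam.2) (ps := ps) (hP lam.1) hh).fin.toFinset ×ˢ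
          (fs_b2 (t := lam.2) (a := a.1) (ps := ps) (hP lam.1) hh).fin.toFinset)
        (a.1.e * ∏ i, β i) (alb (f3 (π lam.1) h lam.2 a.1) β) e₀ t c₀ g' z‖)
    (fun _ hβ => (mem_PTb.mp hβ).1) hY1 hTt (norm_nonneg _)
    (by rw [Fintype.card_fin]; exact sz.y3) sz.eY (Nat.floor_le hY0.le) (Nat.floor_le hY0.le)
    hM0 sz.n₃ hd3 sz.d₃ hokP.1.1 sz.eN ?_
  · refine key.trans ?_
    have e1 : Y ^ (ε₁ / A0) = X ^ ε₁ := by
      rw [hYd, ← Real.rpow_mul hX0.le]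
      congr 1
      field_simp
    have e2 : Tt ≤ X ^ ε₁ * (C * X ^ ε₁ * X ^ ε₁ * (cR * Tg)) := by
      rw [hTtd]
      gcongr
    have e3 : Tg = X ^ (T5 θ (dn q.1, q.2) - μ) * X ^ ε₁ := by
      rw [hTgd, Real.rpow_add hX0]
    calc Cs * Y ^ (ε₁ / A0) * (‖(pC : ℂ)‖ * Tt)
        ≤ Cs * X ^ ε₁ * (‖(pC : ℂ)‖ * (X ^ ε₁ * (C * X ^ ε₁ * X ^ ε₁ * (cR * Tg)))) := by
          rw [e1]
          gcongr
      _ = (Cs * (‖(pC : ℂ)‖ * (C * cR))) * (X ^ ε₁ * X ^ ε₁ * X ^ ε₁ * X ^ ε₁ * Tg) := by ring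
      _ ≤ X ^ ε₁ * (X ^ ε₁ * X ^ ε₁ * X ^ ε₁ * X ^ ε₁ * Tg) := by
          refine mul_le_mul_of_nonneg_right v4 (by positivity)
      _ = X ^ (T5 θ (dn q.1, q.2) - μ) * X ^ (6 * ε₁) := by
          rw [e3]
          have h6 : X ^ (6 * ε₁) = X ^ ε₁ * X ^ ε₁ * X ^ ε₁ * X ^ ε₁ * X ^ ε₁ * X ^ ε₁ := by
            rw [← Real.rpow_add hX0, ← Real.rpow_add hX0, ← Real.rpow_add hX0,
              ← Real.rpow_add hX0, ← Real.rpow_add hX0]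
            congr 1
            ring
          rw [h6]
          ring
      _ ≤ X ^ (T5 θ (dn q.1, q.2) - μ + ε) := by
          rw [← Real.rpow_add hX0]
          refine Real.rpow_le_rpow_of_exponent_le hX1 ?_
          rw [hε₁d]
          linarith
  · intro g hg β hβ e₀ he₀ t ht c₀ hc₀ g' hg' z hz
    refine summand_le (As := As) hP hh hJf hokP hd3 hX1 hR v2 sz hC hTg hτ hNc2
      (fun nr hnr hn => hTA_le hX1 hA0 (le_max_right _ _) (by linarith) hnr hn)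
      (fun x hx h₁ h₂ => ?_) hph hg hβ he₀ ht hc₀ hg' hz
    have hs := sd x (hx.mono hX1 (min_le_right _ _)) h₁ h₂
    obtain ⟨sw, T₀, hT0, hsw, hJ1, hJ2⟩ := HJ X hXJ' a ps q hfrJ hok hSM hokP x
      (hx.mono hX1 ((min_le_left _ _).trans (min_le_left _ _))) (hxl x hx) h₁ h₂
    have hM : ∀ m ∈ Pm, HM5 (π lam.1).n₃ 1 lD (x.v π h lam Jf a) (x.w π h lam Jf a ps h₁ h₂)
        (R * Real.exp a.1.l) T₀ (mtr (some m)) (Tg * Real.exp (2 / 3 * a.1.l) / nrm x) :=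
      fun m hm => HM X hXM' a ps q hfrM hok hSM hokP x
        (hx.mono hX1 ((min_le_left _ _).trans (min_le_right _ _))) (hxl x hx) h₁ h₂ m hm T₀ hT0
    exact ⟨hs.nrm, class_le (hP lam.1) hokP hx hR hs (by linarith) hC Hap sz.K1 sz.KY hRJ hdu
      (le_max_left _ _) hTg hsw hJ1 hJ2 hM⟩

end Crest.Agent.R017.E4U164
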