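import Crest.Agent.R017.E4m_164
import Crest.Agent.R017.E4q_164
import Crest.Agent.R017.HPL_842

/-!
# Row 17, R8 / E5, consumer of E4 : crude sizes of the arrays (helper512)

* `Sz f Z A` : `f` is supported on primary `n`, `N n ≤ Z`, and `|f| ≤ A`
* `sz_conv`, `sz_pc`, `sz_alL` : sides given by lists
* `sz_alb`, `norm_TE_le` : the squarefree sequence of a tuple and its `TE`
* `nm_lc`, `nm_stj`, `nm_nu` : the multipliers of the joint family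
-/

set_option autoImplicit false

noncomputable section

open Finset Complex
open scoped ComplexConjugate

namespace Crest.Agent.R017.E4Us512

open Crest.Agent.R012 Crest.Agent.R012.Eis
open Crest.Agent.R012.Mob705 hiding pb mem_pb
open Crest.Agent.R012.Div277
open Crest.Agent.R012.LS2 (S mem_S)
open Crest.Agent.R017.CM106 (CS FS sub)
open Crest.Agent.R017.FE47 (cx)
open Crest.Agent.R017.PX764 (th Gh n6 norm_Gh_one Gh_zero Gh_not_sqf)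
open Crest.Agent.R017.C70
open Crest.Agent.R017.HP842 (Pc pc alL cvL dl uv)
open Crest.Agent.R017.TP320 (conv mul_div_of_mem)
open Crest.Agent.R017.E2440 (TE)
open Crest.Agent.R017.E5k54 (PT alb)
open Crest.Agent.R017.E5b54 (stj stj_spec)
open Crest.Agent.R017.DgA829 (lc lc_prim lc_dvd)
open Crest.Agent.R017.E4K164 (dc dc_spec jc_ne_zero)

lemma one_le_nm' {a : Eis} (ha : IsPrim a) : (1 : ℝ) ≤ nm a := by
  exact_mod_cast nm_pos.2 ha.ne_zero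

/-! ### finitely supported sequences -/

/-- support and size -/
structure Sz (f : Eis → ℂ) (Z A : ℝ) : Prop where
  prim : ∀ n, f n ≠ 0 → IsPrim n
  le : ∀ n, f n ≠ 0 → (nm n : ℝ) ≤ Z
  bd : ∀ n, ‖f n‖ ≤ A

lemma Sz.mono {f : Eis → ℂ} {Z A Z' A' : ℝ} (h : Sz f Z A) (hZ : Z ≤ Z') (hA : A ≤ A') :
    Sz f Z' A' := ⟨h.prim, fun n hn => (h.le n hn).trans hZ, fun n => (h.bd n).trans hA⟩

lemma Sz.A0 {f : Eis → ℂ} {Z A : ℝ} (h : Sz f Z A) : 0 ≤ A := (norm_nonneg _).trans (h.bd 0)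

lemma Sz.mem {f : Eis → ℂ} {Z A : ℝ} (h : Sz f Z A) {n : Eis} (hn : f n ≠ 0) :
    n ∈ primBall ⌊Z⌋₊ := by
  rw [mem_primBall]
  exact ⟨Nat.le_floor (h.le n hn), h.prim n hn⟩

lemma card_pb_le {Z : ℝ} (hZ : 0 ≤ Z) : ((primBall ⌊Z⌋₊).card : ℝ) ≤ 100 * Z := by
  refine (Lat277.card_primBall_le _).trans ?_
  have := Nat.floor_le hZ
  linarith

lemma Sz.card {f : Eis → ℂ} {Z A : ℝ} (h : Sz f Z A) (hZ : 0 ≤ Z) (hf : FS f) :
    (hf.fin.toFinset.card : ℝ) ≤ 100 * Z := by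
  refine le_trans ?_ (card_pb_le hZ)
  refine Nat.cast_le.mpr (Finset.card_le_card fun n hn => ?_)
  rw [Set.Finite.mem_toFinset] at hn
  exact h.mem hn

lemma sz_dl : Sz dl 1 1 where
  prim n hn := by
    by_cases h : n = 1
    · rw [h]; exact isPrim_one
    · exact absurd (HP842.dl_ne h) hn
  le n hn := by
    by_cases h : n = 1
    · rw [h, nm_one]; norm_num
    · exact absurd (HP842.dl_ne h) hn
  bd n := by
    by_cases h : n = 1
    · rw [h, HP842.dl_one, norm_one]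
    · rw [HP842.dl_ne h, norm_zero]; exact zero_le_one

lemma sz_conv {f g : Eis → ℂ} {Z A Z' A' : ℝ} (hf : Sz f Z A) (hg : Sz g Z' A') (hZ : 0 ≤ Z) :
    Sz (conv f g) (Z * Z') (100 * Z * (A * A')) where
  prim n hn := by
    unfold TP320.conv at hn
    obtain ⟨d, hd, h0⟩ := Finset.exists_ne_zero_of_sum_ne_zero hn
    rw [← mul_div_of_mem hd]
    exact (hf.prim _ (left_ne_zero_of_mul h0)).mul (hg.prim _ (right_ne_zero_of_mul h0))
  le n hn := by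
    unfold TP320.conv at hn
    obtain ⟨d, hd, h0⟩ := Finset.exists_ne_zero_of_sum_ne_zero hn
    have h1 := hf.le _ (left_ne_zero_of_mul h0)
    have h2 := hg.le _ (right_ne_zero_of_mul h0)
    rw [← mul_div_of_mem hd, nm_mul]
    push_cast
    exact mul_le_mul h1 h2 (Nat.cast_nonneg _) hZ
  bd n := by
    classical
    unfold TP320.conv
    have h1 : ∀ d ∈ dvs n, ‖f d * g (n / d)‖ ≤ if d ∈ primBall ⌊Z⌋₊ then A * A' else 0 := by
      intro d _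
      split_ifs with h
      · rw [norm_mul]
        exact mul_le_mul (hf.bd _) (hg.bd _) (norm_nonneg _) hf.A0
      · have : f d = 0 := by
          by_contra h0
          exact h (hf.mem h0)
        rw [this, zero_mul, norm_zero]
    refine (norm_sum_le _ _).trans ((Finset.sum_le_sum h1).trans ?_)
    rw [← Finset.sum_filter, Finset.sum_const, nsmul_eq_mul]
    have h2 : ((dvs n).filter (fun d => d ∈ primBall ⌊Z⌋₊)).card ≤ (primBall ⌊Z⌋₊).card :=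
      Finset.card_le_card fun d hd => (Finset.mem_filter.mp hd).2
    have h3 : (((dvs n).filter (fun d => d ∈ primBall ⌊Z⌋₊)).card : ℝ) ≤ 100 * Z :=
      (Nat.cast_le.mpr h2).trans (card_pb_le hZ)
    exact mul_le_mul_of_nonneg_right h3 (mul_nonneg hf.A0 hg.A0)

lemma sz_pc {h : ℝ → ℝ} {R H : ℝ} (hR : ∀ u, cx h u ≠ 0 → |u| ≤ R) (hH : ∀ u, ‖cx h u‖ ≤ H)
    {p : Pc} (hp : p.OK) : Sz (pc h p) (Real.exp R * p.Y) H := by
  classical
  have hH0 : 0 ≤ H := (norm_nonneg _).trans (hH 0)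
  have key : ∀ b, pc h p b ≠ 0 → IsPrim b ∧ (nm b : ℝ) ≤ Real.exp R * p.Y := by
    intro b hb
    unfold pc at hb
    split_ifs at hb with hpb
    · refine ⟨hpb, ?_⟩
      have h1 : HSep813.gw h p.Y p.t b ≠ 0 := right_ne_zero_of_mul hb
      unfold HSep813.gw at h1
      have h2 := hR _ (right_ne_zero_of_mul h1)
      have h3 : (0 : ℝ) < nm b := by exact_mod_cast nm_pos.2 hpb.ne_zero
      have h4 : Real.log (nm b) ≤ R + Real.log p.Y := by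
        have := (abs_le.1 h2).2
        linarith
      calc (nm b : ℝ) = Real.exp (Real.log (nm b)) := (Real.exp_log h3).symm
        _ ≤ Real.exp (R + Real.log p.Y) := Real.exp_le_exp.2 h4
        _ = _ := by rw [Real.exp_add, Real.exp_log hp.Y0]
    · exact absurd rfl hb
  refine ⟨fun n hn => (key n hn).1, fun n hn => (key n hn).2, fun n => ?_⟩
  unfold pc
  split_ifs with hn
  · rw [norm_mul, norm_mul]
    have h1 := HP842.norm_uv_le p.u n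
    have h2 := hp.ch.norm_le hn
    have h3 := HSep813.norm_gw_le hH p.Y p.t n
    calc ‖uv p.u n‖ * ‖p.ψ n‖ * ‖HSep813.gw h p.Y p.t n‖ ≤ 1 * 1 * H := by gcongr
      _ = H := by ring
  · rw [norm_zero]; exact hH0

/-- the product of the lengths -/
def pY (ps : List Pc) : ℝ := (ps.map (·.Y)).prod

lemma pY_nil : pY [] = 1 := rfl

lemma pY_cons (p : Pc) (ps : List Pc) : pY (p :: ps) = p.Y * pY ps := by
  unfold pY; rw [List.map_cons, List.prod_cons]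

lemma pY_pos {ps : List Pc} (hp : ∀ p ∈ ps, p.OK) : 0 < pY ps := by
  induction ps with
  | nil => rw [pY_nil]; exact one_pos
  | cons p ps ih =>
    rw [pY_cons]
    exact mul_pos (hp p List.mem_cons_self).Y0 (ih fun q hq => hp q (List.mem_cons_of_mem _ hq))

lemma sz_alL {h : ℝ → ℝ} {R H : ℝ} (hR : ∀ u, cx h u ≠ 0 → |u| ≤ R) (hH : ∀ u, ‖cx h u‖ ≤ H)
    {ps : List Pc} (hp : ∀ p ∈ ps, p.OK) :
    Sz (alL h ps) (Real.exp R ^ ps.length * pY ps)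
      ((100 * Real.exp R * H) ^ ps.length * pY ps) := by
  induction ps with
  | nil =>
    rw [HP842.alL_nil, pY_nil]
    simpa using sz_dl
  | cons p ps ih =>
    have h1 := sz_pc hR hH (hp p List.mem_cons_self)
    have h2 := ih fun q hq => hp q (List.mem_cons_of_mem _ hq)
    have hY := (hp p List.mem_cons_self).Y0
    rw [HP842.alL_cons]
    refine (sz_conv h1 h2 (by positivity)).mono (le_of_eq ?_) (le_of_eq ?_)
    · rw [pY_cons, List.length_cons, pow_succ]; ring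
    · rw [pY_cons, List.length_cons, pow_succ]; ring

lemma pc_le {h : ℝ → ℝ} {H : ℝ} (hH : ∀ u, ‖cx h u‖ ≤ H) {p : Pc} (hp : p.OK) (n : Eis) :
    ‖pc h p n‖ ≤ H := by
  classical
  have hH0 : 0 ≤ H := (norm_nonneg _).trans (hH 0)
  unfold pc
  split_ifs with hn
  · rw [norm_mul, norm_mul]
    have h1 := HP842.norm_uv_le p.u n
    have h2 := hp.ch.norm_le hn
    have h3 := HSep813.norm_gw_le hH p.Y p.t n
    calc ‖uv p.u n‖ * ‖p.ψ n‖ * ‖HSep813.gw h p.Y p.t n‖ ≤ 1 * 1 * H := by gcongr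
      _ = H := by ring
  · rw [norm_zero]; exact hH0

/-- **a side is bounded by a power of the divisor function** -/
lemma alL_tau {h : ℝ → ℝ} {H : ℝ} (hH : ∀ u, ‖cx h u‖ ≤ H) {ps : List Pc}
    (hp : ∀ p ∈ ps, p.OK) {n : Eis} (hn : n ≠ 0) :
    ‖alL h ps n‖ ≤ H ^ ps.length * (tau n : ℝ) ^ ps.length := by
  have hH0 : 0 ≤ H := (norm_nonneg _).trans (hH 0)
  induction ps generalizing n with
  | nil =>
    rw [HP842.alL_nil]
    simpa using sz_dl.bd n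
  | cons p ps ih =>
    rw [HP842.alL_cons, List.length_cons]
    unfold TP320.conv
    refine (norm_sum_le _ _).trans ?_
    have h1 : ∀ d ∈ dvs n, ‖pc h p d * alL h ps (n / d)‖ ≤
        H * (H ^ ps.length * (tau n : ℝ) ^ ps.length) := by
      intro d hd
      have e1 := mul_div_of_mem hd
      have h0 : n / d ≠ 0 := fun h0 => hn (by rw [← e1, h0, mul_zero])
      have h2 : n / d ∣ n := Dvd.intro_left d e1
      have h3 : (tau (n / d) : ℝ) ≤ tau n := by exact_mod_cast tau_le_of_dvd hn h2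
      rw [norm_mul]
      refine mul_le_mul (pc_le hH (hp p List.mem_cons_self) d) ?_ (norm_nonneg _) hH0
      refine (ih (fun q hq => hp q (List.mem_cons_of_mem _ hq)) h0).trans ?_
      gcongr
    refine (Finset.sum_le_sum h1).trans (le_of_eq ?_)
    rw [Finset.sum_const, nsmul_eq_mul]
    unfold tau
    ring

/-! ### the squarefree sequence of a tuple -/

variable {ι : Type*} [Fintype ι]

lemma sz_alb {f : ι → Eis → ℂ} {Z : ι → ℝ} {A : ℝ} (hf : ∀ i, Sz (f i) (Z i) A)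
    (hZ0 : ∀ i, 0 ≤ Z i) {β : ι → Eis} (hβ : ∀ i, IsPrim (β i)) :
    Sz (alb f β) (∏ i, Z i) ((100 * ∏ i, Z i) ^ Fintype.card ι * A ^ Fintype.card ι) := by
  classical
  have hZ : 0 ≤ ∏ i, Z i := Finset.prod_nonneg fun i _ => hZ0 i
  have key : ∀ n, alb f β n ≠ 0 → IsPrim n ∧ (nm n : ℝ) ≤ ∏ i, Z i := by
    intro n h
    unfold alb E554.sqc at h
    split_ifs at h with h1
    · obtain ⟨a, ha, hne⟩ := Finset.exists_ne_zero_of_sum_ne_zero h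
      have h2 : ∀ i, f i (β i * a i) ≠ 0 := fun i => Finset.prod_ne_zero_iff.1 hne i (mem_univ i)
      have h3 : ∀ i, IsPrim (a i) := fun i => ((hf i).prim _ (h2 i)).of_mul_left (hβ i)
      rw [← (mem_filter.1 ha).2]
      refine ⟨E554.isPrim_prod fun i _ => h3 i, ?_⟩
      rw [E554.nm_prod]
      push_cast
      refine Finset.prod_le_prod (fun i _ => Nat.cast_nonneg _) fun i _ => ?_
      refine le_trans ?_ ((hf i).le _ (h2 i))
      rw [nm_mul]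
      push_cast
      exact le_mul_of_one_le_left (Nat.cast_nonneg _) (one_le_nm' (hβ i))
    · exact absurd rfl h
  have hA : 0 ≤ A ^ Fintype.card ι := by
    rcases isEmpty_or_nonempty ι with hι | ⟨⟨i⟩⟩
    · rw [Fintype.card_eq_zero, pow_zero]; exact zero_le_one
    · exact pow_nonneg (hf i).A0 _
  refine ⟨fun n hn => (key n hn).1, fun n hn => (key n hn).2, fun n => ?_⟩
  by_cases h0 : alb f β n = 0
  · rw [h0, norm_zero]
    positivity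
  · obtain ⟨hn, hle⟩ := key n h0
    unfold alb E554.sqc
    split_ifs with h1
    · refine (norm_sum_le _ _).trans ?_
      have h2 : ∀ a ∈ (Fintype.piFinset fun _ : ι => dvs n).filter (fun a => ∏ i, a i = n),
          ‖∏ i, sub (f i) (β i) (a i)‖ ≤ A ^ Fintype.card ι := by
        intro a _
        rw [norm_prod]
        calc ∏ i, ‖sub (f i) (β i) (a i)‖ ≤ ∏ _i : ι, A :=
              Finset.prod_le_prod (fun i _ => norm_nonneg _) fun i _ => (hf i).bd _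
          _ = _ := by rw [prod_const, card_univ]
      refine (Finset.sum_le_sum h2).trans ?_
      rw [Finset.sum_const, nsmul_eq_mul]
      refine mul_le_mul_of_nonneg_right ?_ hA
      have h3 : ((Fintype.piFinset fun _ : ι => dvs n).filter (fun a => ∏ i, a i = n)).card ≤
          (Fintype.piFinset fun _ : ι => dvs n).card := Finset.card_filter_le _ _
      have h4 : ((Fintype.piFinset fun _ : ι => dvs n).card : ℝ) =
          ((dvs n).card : ℝ) ^ Fintype.card ι := by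
        rw [Fintype.card_piFinset, prod_const, card_univ]
        push_cast
        rfl
      have h5 : ((dvs n).card : ℝ) ≤ 100 * ∏ i, Z i := by
        have h6 : (dvs n).card ≤ (primBall (nm n)).card := by
          unfold dvs
          exact Finset.card_filter_le _ _
        have h7 : ((dvs n).card : ℝ) ≤ 100 * nm n :=
          (Nat.cast_le.mpr h6).trans (Lat277.card_primBall_le _)
        linarith
      calc (((Fintype.piFinset fun _ : ι => dvs n).filter (fun a => ∏ i, a i = n)).card : ℝ)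
          ≤ ((dvs n).card : ℝ) ^ Fintype.card ι := by rw [← h4]; exact_mod_cast h3
        _ ≤ _ := by gcongr
    · rw [norm_zero]; positivity

lemma norm_n6_le' {b : Eis} (hb : IsPrim b) : ‖((n6 b : ℝ) : ℂ)‖ ≤ 1 := by
  have h1 := one_le_nm' hb
  unfold PX764.n6
  rw [Complex.norm_real, Real.norm_of_nonneg (by positivity)]
  exact Real.rpow_le_one_of_one_le_of_nonpos h1 (by norm_num)

lemma norm_Gh_le1 {h a : Eis} (ha : IsPrim a) : ‖Gh h a‖ ≤ 1 := by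
  by_cases hs : Squarefree a
  · by_cases hc : IsCoprime h a
    · exact (norm_Gh_one ha hs hc).le
    · rw [Gh_zero ha hc, norm_zero]; exact zero_le_one
  · rw [Gh_not_sqf ha hs, norm_zero]; exact zero_le_one

/-- **the inner sum is bounded trivially** -/
lemma norm_TE_le {α : Eis → ℂ} {Z A : ℝ} (hα : Sz α Z A) (hZ : 0 ≤ Z) {x : Eis × Eis}
    (hx : IsPrim x.1) (e : Eis) : ‖TE α x e‖ ≤ 100 * Z * A := by
  classical
  have hne : ∀ m, α (x.1 * m) ≠ 0 → m ∈ primBall ⌊Z⌋₊ := by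
    intro m hm
    have h1 := (hα.prim _ hm).of_mul_left hx
    rw [mem_primBall]
    refine ⟨Nat.le_floor (le_trans ?_ (hα.le _ hm)), h1⟩
    rw [nm_mul]
    push_cast
    exact le_mul_of_one_le_left (Nat.cast_nonneg _) (one_le_nm' hx)
  unfold E2440.TE
  rw [tsum_eq_sum (s := primBall ⌊Z⌋₊) fun m hm => by
    have : α (x.1 * m) = 0 := by
      by_contra h0
      exact hm (hne m h0)
    rw [this, zero_mul, ite_self]]
  refine (norm_sum_le _ _).trans ?_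
  have h1 : ∀ m ∈ primBall ⌊Z⌋₊, ‖(if e ∣ m ∧ IsCoprime x.2 (x.1 * m) then
      α (x.1 * m) * ((n6 m : ℂ) * Gh x.2 m) else 0)‖ ≤ A := by
    intro m hm
    have hmp := (mem_primBall.mp hm).2
    split_ifs
    · rw [norm_mul, norm_mul]
      have h2 := norm_n6_le' hmp
      have h3 := norm_Gh_le1 (h := x.2) hmp
      calc ‖α (x.1 * m)‖ * (‖(n6 m : ℂ)‖ * ‖Gh x.2 m‖) ≤ A * (1 * 1) := by
            have := hα.bd (x.1 * m)
            have := hα.A0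
            gcongr
        _ = A := by ring
    · rw [norm_zero]; exact hα.A0
  refine (Finset.sum_le_sum h1).trans ?_
  rw [Finset.sum_const, nsmul_eq_mul]
  exact mul_le_mul_of_nonneg_right (card_pb_le hZ) hα.A0

/-! ### the multipliers -/

lemma nm_lc {s t : Eis} (hs : IsPrim s) (ht : IsPrim t) : nm (lc s t) ≤ nm s * nm t := by
  rw [← nm_mul]
  exact nm_le_of_dvd (mul_ne_zero hs.ne_zero ht.ne_zero)
    ((lc_dvd hs ht _).mpr ⟨dvd_mul_right _ _, dvd_mul_left _ _⟩)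

lemma nm_sE {B : Type*} {s : B → Eis} {e₀ t : Eis} {b : B} (hs : IsPrim (s b)) (he : IsPrim e₀)
    (ht : IsPrim t) : nm (E4D164.sE s e₀ t b) ≤ nm (s b) * nm e₀ * nm t := by
  unfold E4D164.sE
  exact (nm_lc (lc_prim hs he) ht).trans (Nat.mul_le_mul_right _ (nm_lc hs he))

lemma sE_prim {B : Type*} {s : B → Eis} {e₀ t : Eis} {b : B} (hs : IsPrim (s b)) (he : IsPrim e₀)
    (ht : IsPrim t) : IsPrim (E4D164.sE s e₀ t b) := lc_prim (lc_prim hs he) ht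

lemma nm_stj {s j : Eis} (hs : IsPrim s) (hj : JC j) : nm (stj s j) ≤ nm j * nm s := by
  obtain ⟨-, e, he, h⟩ := stj_spec hs hj
  rw [← nm_mul, h, nm_mul]
  exact Nat.le_mul_of_pos_right _ (nm_pos.mpr (pow_ne_zero 3 he.ne_zero))

lemma nm_nu {j : Eis} (hj : JC j) : nm (dc j).2.2 ^ 2 ≤ nm j := by
  obtain ⟨s1, s2, s3, s4, s5, s6, s7⟩ := dc_spec hj
  have h1 : nm j = nm (dc j).1 * nm (dc j).2.1 * nm (dc j).2.2 ^ 2 := by
    conv_lhs => rw [s7]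
    rw [nm_mul, nm_mul, nm_pow]
  rw [h1]
  exact Nat.le_mul_of_pos_left _ (Nat.mul_pos (nm_pos.mpr s1.ne_zero) (nm_pos.mpr s2.ne_zero))

lemma nm_nu' {j : Eis} (hj : JC j) : nm (dc j).2.2 ≤ nm j := by
  refine le_trans ?_ (nm_nu hj)
  have : 0 < nm (dc j).2.2 := nm_pos.mpr (dc_spec hj).2.2.2.1.ne_zero
  nlinarith

lemma nm_r {j : Eis} (hj : JC j) : nm (dc j).2.1 ≤ nm j := by
  obtain ⟨s1, s2, s3, s4, s5, s6, s7⟩ := dc_spec hj
  refine nm_le_of_dvd (jc_ne_zero hj) ?_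
  conv_rhs => rw [s7]
  exact ⟨(dc j).1 * (dc j).2.2 ^ 2, by ring⟩

/-! ### the family -/

section fam

open Crest.Agent.R017.End699 (HC)
open Crest.Agent.R017.E4352 (PrI Dat4)
open Crest.Agent.R017.E4D164
open Crest.Agent.R017.E2440 (Bth Bth_nonneg norm_sy_le1)

variable {B : Type*}

lemma nm_XI_fam {s : B → Eis} {e₀ t : Eis} {i : B × (Eis × Eis)} (hs : IsPrim (s i.1))
    (he : IsPrim e₀) (ht : IsPrim t) (hj : JC i.2.2) {W L : ℝ}
    (hS : (nm (sE s e₀ t i.1) : ℝ) ≤ W) (hL : (nm (i.2.2 * i.2.1 ^ 2) : ℝ) ≤ L) :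
    (nm (jJ (sE s e₀ t) i) : ℝ) * nm (jD i) ^ 2 ≤ W * L ∧
      (nm (XI jD (jJ (sE s e₀ t)) i) : ℝ) ≤ W * L ∧
      (nm (dc (jJ (sE s e₀ t) i)).2.2 : ℝ) ≤ W * nm i.2.2 := by
  have hσ := sE_prim hs he ht
  have hj' := (stj_spec hσ hj).1
  have h1 : (nm (jJ (sE s e₀ t) i) : ℝ) ≤ nm i.2.2 * nm (sE s e₀ t i.1) := by
    unfold jJ
    exact_mod_cast nm_stj hσ hj
  have hL' : (nm i.2.2 : ℝ) * nm i.2.1 ^ 2 ≤ L := by
    rw [nm_mul, nm_pow] at hL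
    exact_mod_cast hL
  have hW : 0 ≤ W := (Nat.cast_nonneg _).trans hS
  have h2 : (nm (jJ (sE s e₀ t) i) : ℝ) * nm (jD i) ^ 2 ≤ W * L := by
    unfold jD
    calc (nm (jJ (sE s e₀ t) i) : ℝ) * (nm i.2.1 : ℝ) ^ 2
        ≤ ((nm i.2.2 : ℝ) * (nm (sE s e₀ t i.1) : ℝ)) * (nm i.2.1 : ℝ) ^ 2 :=
          mul_le_mul_of_nonneg_right h1 (by positivity)
      _ = (nm (sE s e₀ t i.1) : ℝ) * ((nm i.2.2 : ℝ) * (nm i.2.1 : ℝ) ^ 2) := by ring
      _ ≤ W * L := mul_le_mul hS hL' (by positivity) hW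
  refine ⟨h2, le_trans ?_ h2, ?_⟩
  · unfold XI
    rw [nm_mul, nm_pow]
    push_cast
    have : (nm (dc (jJ (sE s e₀ t) i)).2.1 : ℝ) ≤ nm (jJ (sE s e₀ t) i) := by
      exact_mod_cast nm_r hj'
    gcongr
  · have : (nm (dc (jJ (sE s e₀ t) i)).2.2 : ℝ) ≤ nm (jJ (sE s e₀ t) i) := by
      exact_mod_cast nm_nu' hj'
    refine this.trans (h1.trans ?_)
    rw [mul_comm]
    gcongr

lemma norm_jC_le {s : B → Eis} {e₀ t : Eis} {ε : B → ℂ} (hε : ∀ b, ‖ε b‖ ≤ 1)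
    {om : Eis × Eis → ℂ} {Co : ℝ} {α : Eis → ℂ} {Zα Aα : ℝ} (hα : Sz α Zα Aα) (hZα : 0 ≤ Zα)
    {i : B × (Eis × Eis)} (hx : IsPrim i.2.1) (hom : ‖om i.2‖ ≤ Co) :
    ‖jC (sE s e₀ t) (cE ε om α e₀) i‖ ≤ Co * (100 * Zα * Aα) := by
  unfold jC cE
  rw [norm_mul, norm_mul, norm_mul]
  have h1 := norm_TE_le hα hZα (x := i.2) hx e₀
  have h2 : ‖sy (sE s e₀ t i.1) i.2.1‖ ≤ 1 := norm_sy_le1 hx
  have h3 := hε i.1
  have hCo : 0 ≤ Co := (norm_nonneg _).trans hom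
  have hA0 := hα.A0
  calc ‖ε i.1‖ * (‖om i.2‖ * ‖TE α i.2 e₀‖) * ‖sy (sE s e₀ t i.1) i.2.1‖
      ≤ 1 * (Co * (100 * Zα * Aα)) * 1 := by gcongr
    _ = _ := by ring

/-- size hypotheses of the family; `W` bounds the multipliers, `L` the level -/
structure FamSz (Q : Finset B) (J : Finset (Eis × Eis)) (Co Zα Aα Z₁ A₁ Z₂ A₂ W L F X : ℝ) :
    Prop where
  X1 : 1 ≤ X
  card : (Q.card : ℝ) * J.card ≤ X
  hW : W ^ 3 * L ≤ X
  hc : (Q.card : ℝ) * J.card * (Co * (100 * Zα * Aα) * Bth * (W * (W * L))) ≤ X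
  hf : F * (Z₁ * Z₂ ^ 2) ≤ X
  hw : 100 * Z₁ * (100 * Z₂) * (A₁ * A₂) ≤ X

/-- the standing conditions of a subfamily -/
lemma okI_sub {Q : Finset B} {J : Finset (Eis × Eis)} {s δ j : B × (Eis × Eis) → Eis}
    {c : B × (Eis × Eis) → ℂ} (h : OKI (Q ×ˢ J) s δ j c) {I : Finset (B × (Eis × Eis))}
    (hI : ∀ i ∈ I, i.1 ∈ Q ∧ i.2 ∈ J) : OKI I s δ j c where
  s i hi := h.s i (Finset.mem_product.mpr (hI i hi))
  prim i hi := h.prim i (Finset.mem_product.mpr (hI i hi))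
  sqf i hi := h.sqf i (Finset.mem_product.mpr (hI i hi))
  jc i hi := h.jc i (Finset.mem_product.mpr (hI i hi))
  cop i hi := h.cop i (Finset.mem_product.mpr (hI i hi))

/-- the standing conditions of the family of one datum -/
lemma okI_fam {Q : Finset B} {s : B → Eis} (hs : ∀ b ∈ Q, IsPrim (s b)) {ε : B → ℂ}
    {J : Finset (Eis × Eis)} (hJ : OKJ J) {I : Finset (B × (Eis × Eis))}
    (hIQ : ∀ i ∈ I, i.1 ∈ Q ∧ i.2 ∈ J) {om : Eis × Eis → ℂ} {α : Eis → ℂ} {e₀ t : Eis}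
    (he₀ : IsPrim e₀) (ht : IsPrim t) :
    OKI I (jS (sE s e₀ t)) jD (jJ (sE s e₀ t)) (jC (sE s e₀ t) (cE ε om α e₀)) :=
  okI_sub (okI (fun b hb => sE_prim (hs b hb) he₀ ht) hJ fun b _ x _ hx => TE_cop (by
    unfold cE at hx
    exact right_ne_zero_of_mul (right_ne_zero_of_mul hx))) hIQ

/-- **`Dat4` for the family of one datum** -/
theorem dat4_gen {M : Eis} {ψ : Eis → ℂ} (hψ : HC M ψ) (l : ℤ) {Q : Finset B} {s : B → Eis}
    (hs : ∀ b ∈ Q, IsPrim (s b)) {ε : B → ℂ} (hε : ∀ b, ‖ε b‖ ≤ 1) {J : Finset (Eis × Eis)}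
    (hJ : OKJ J) {I : Finset (B × (Eis × Eis))} (hIQ : ∀ i ∈ I, i.1 ∈ Q ∧ i.2 ∈ J)
    {om : Eis × Eis → ℂ} {Co : ℝ} (hCo : 0 ≤ Co) (hom : ∀ x ∈ J, ‖om x‖ ≤ Co)
    {b₁ b₂ : Eis → ℂ} {Z₁ A₁ Z₂ A₂ : ℝ} (h₁ : FS b₁) (h₂ : FS b₂) (hb₁ : Sz b₁ Z₁ A₁)
    (hb₂ : Sz b₂ Z₂ A₂) (hZ₁ : 0 ≤ Z₁) (hZ₂ : 0 ≤ Z₂) {E : Eis} (hE : IsPrim E)
    {α : Eis → ℂ} {Zα Aα : ℝ} (hα : Sz α Zα Aα) (hZα : 0 ≤ Zα) {e₀ t c₀ g z : Eis}
    (he₀ : IsPrim e₀) (ht : IsPrim t) (hg : PrI M g) (hz : PrI M z) {W L X : ℝ} (hW : 0 ≤ W)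
    (hL0 : 0 ≤ L) (hS : ∀ b ∈ Q, (nm (sE s e₀ t b) : ℝ) ≤ W)
    (hL : ∀ x ∈ J, (nm (x.2 * x.1 ^ 2) : ℝ) ≤ L)
    (H : FamSz Q J Co Zα Aα Z₁ A₁ Z₂ A₂ W L (nm (fN M E)) X) :
    Dat4 M 1 (O := OU M I (jS (sE s e₀ t)) (jJ (sE s e₀ t)))
      (fun o => (nm (o.1.1 * o.1.2) : ℝ))
      (fun o => vI M (psE M ψ E) l (fN M E) I (jS (sE s e₀ t)) jD (jJ (sE s e₀ t))
        (jC (sE s e₀ t) (cE ε om α e₀)) c₀ g o.1)
      (fun o => mulw (fN M E) (wI M b₁ b₂ (h₁.fin.toFinset ×ˢ h₂.fin.toFinset) z o.1)) X := by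
  classical
  have hf := (fM_spec hψ.q0 hE).2.1
  have hse : ∀ b ∈ Q, IsPrim (sE s e₀ t b) := fun b hb => sE_prim (hs b hb) he₀ ht
  have hI : OKI I (jS (sE s e₀ t)) jD (jJ (sE s e₀ t))
      (jC (sE s e₀ t) (cE ε om α e₀)) := okI_fam hs hJ hIQ he₀ ht
  have key : ∀ i ∈ I, (nm (jJ (sE s e₀ t) i) : ℝ) * nm (jD i) ^ 2 ≤ W * L ∧
      (nm (XI jD (jJ (sE s e₀ t)) i) : ℝ) ≤ W * L ∧
      (nm (dc (jJ (sE s e₀ t) i)).2.2 : ℝ) ≤ W * nm i.2.2 := fun i hi =>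
    nm_XI_fam (hs _ (hIQ i hi).1) he₀ ht (hJ.jc _ (hIQ i hi).2) (hS _ (hIQ i hi).1)
      (hL _ (hIQ i hi).2)
  have hx2 : ∀ i ∈ I, (nm i.2.2 : ℝ) ≤ L := by
    intro i hi
    refine le_trans ?_ (hL _ (hIQ i hi).2)
    have h5 : nm i.2.2 ≤ nm (i.2.2 * i.2.1 ^ 2) := by
      rw [nm_mul]
      exact Nat.le_mul_of_pos_right _
        (nm_pos.mpr (pow_ne_zero 2 (hJ.prim _ (hIQ i hi).2).ne_zero))
    exact_mod_cast h5
  have hsν : ∀ i ∈ I,
      (nm (jS (sE s e₀ t) i * (dc (jJ (sE s e₀ t) i)).2.2) : ℝ) ≤ W * (W * L) := by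
    intro i hi
    rw [nm_mul]
    push_cast
    have h4 : (nm (jS (sE s e₀ t) i) : ℝ) ≤ W := hS _ (hIQ i hi).1
    have h5 := (key i hi).2.2
    have h6 := hx2 i hi
    have h7 : (nm (dc (jJ (sE s e₀ t) i)).2.2 : ℝ) ≤ W * L := h5.trans (by gcongr)
    gcongr
  have hV : ∀ i ∈ I, jC (sE s e₀ t) (cE ε om α e₀) i ≠ 0 →
      (nm (jJ (sE s e₀ t) i) : ℝ) * nm (jD i) ^ 2 * nm (jS (sE s e₀ t) i) ^ 2 ≤ W ^ 3 * L := by
    intro i hi _
    have h3 := (key i hi).1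
    have h4 : (nm (jS (sE s e₀ t) i) : ℝ) ≤ W := hS _ (hIQ i hi).1
    calc (nm (jJ (sE s e₀ t) i) : ℝ) * nm (jD i) ^ 2 * nm (jS (sE s e₀ t) i) ^ 2
        ≤ (W * L) * W ^ 2 := by gcongr
      _ = _ := by ring
  have hN₂ : ∀ n m, b₁ n ≠ 0 → b₂ m ≠ 0 → (nm (n * m ^ 2) : ℝ) ≤ Z₁ * Z₂ ^ 2 := by
    intro n m hn hm
    rw [nm_mul, nm_pow]
    push_cast
    have h3 := hb₁.le n hn
    have h4 := hb₂.le m hm
    gcongr
  have hB := Bth_nonneg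
  have hA := hα.A0
  have hC0 : 0 ≤ Co * (100 * Zα * Aα) * Bth * (W * (W * L)) := by positivity
  have hcard : (I.card : ℝ) ≤ (Q.card : ℝ) * J.card := by
    have h1 : I.card ≤ (Q ×ˢ J).card :=
      Finset.card_le_card fun i hi => Finset.mem_product.mpr (hIQ i hi)
    rw [Finset.card_product] at h1
    exact_mod_cast h1
  refine dat4_one (V := W ^ 3 * L) (N₂ := Z₁ * Z₂ ^ 2)
    (Cv := Co * (100 * Zα * Aα) * Bth * (W * (W * L))) (Cw := A₁ * A₂)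
    (hc_psE hψ hE) hI hf hg hz h₁ h₂ H.X1 (hcard.trans H.card) hV H.hW ?_
    hN₂ H.hf hC0 ?_ ?_ (mul_nonneg hb₁.A0 hb₂.A0) ?_ ?_
  · intro i hi
    refine (hsν i hi).trans (le_trans ?_ H.hW)
    have h1 : 1 ≤ W := (one_le_nm' (hse _ (hIQ i hi).1)).trans (hS _ (hIQ i hi).1)
    calc W * (W * L) = 1 * (W ^ 2 * L) := by ring
      _ ≤ W * (W ^ 2 * L) := by gcongr
      _ = _ := by ring
  · intro i hi
    have h1 := norm_jC_le (s := s) (e₀ := e₀) (t := t) hε hα hZα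
      (hJ.prim _ (hIQ i hi).2) (hom _ (hIQ i hi).2)
    have h2 := hsν i hi
    gcongr
  · exact (mul_le_mul_of_nonneg_right hcard hC0).trans H.hc
  · intro n m
    exact mul_le_mul (hb₁.bd n) (hb₂.bd m) (norm_nonneg _) hb₁.A0
  · rw [Finset.card_product]
    push_cast
    refine le_trans ?_ H.hw
    have h3 := hb₁.card hZ₁ h₁
    have h4 := hb₂.card hZ₂ h₂
    have h5 := mul_nonneg hb₁.A0 hb₂.A0
    gcongr

/-- **the `U`-bound for the family of one datum** -/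
theorem ub_gen {M : Eis} (hM : M ≠ 0) {ψ : Eis → ℂ} (l : ℤ) {Q : Finset B} {s : B → Eis}
    (hs : ∀ b ∈ Q, IsPrim (s b)) {ε : B → ℂ} {J : Finset (Eis × Eis)}
    (hJ : OKJ J) {I : Finset (B × (Eis × Eis))} (hIQ : ∀ i ∈ I, i.1 ∈ Q ∧ i.2 ∈ J)
    {om : Eis × Eis → ℂ} {b₁ b₂ : Eis → ℂ} {Z₁ A₁ Z₂ A₂ : ℝ} (hb₁ : Sz b₁ Z₁ A₁)
    (hb₂ : Sz b₂ Z₂ A₂) (hZ₁ : 0 ≤ Z₁) {E : Eis} (hE : IsPrim E)
    {α : Eis → ℂ} {e₀ t c₀ g z : Eis}
    (he₀ : IsPrim e₀) (ht : IsPrim t) (hg : IsPrim g) (hz : IsPrim z) {V : ℝ} (hV0 : 0 ≤ V)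
    (hV : ∀ i ∈ I, (nm (jJ (sE s e₀ t) i) : ℝ) * nm (jD i) ^ 2 * nm (jS (sE s e₀ t) i) ^ 2 ≤ V)
    (LL : Finset (Eis × Eis))
    (o : OU M I (jS (sE s e₀ t)) (jJ (sE s e₀ t))) (x y : Eis)
    (hx : vI M (psE M ψ E) l (fN M E) I (jS (sE s e₀ t)) jD (jJ (sE s e₀ t))
        (jC (sE s e₀ t) (cE ε om α e₀)) c₀ g o.1 x ≠ 0)
    (hy : mulw (fN M E) (wI M b₁ b₂ LL z o.1) y ≠ 0) :
    (nm (1 * x * y) : ℝ) * (nm (o.1.1 * o.1.2) : ℝ) ^ 2 ≤ nm (fN M E) * V * (Z₁ * Z₂ ^ 2) := by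
  have hf := (fM_spec hM hE).2.1
  have hI : OKI I (jS (sE s e₀ t)) jD (jJ (sE s e₀ t))
      (jC (sE s e₀ t) (cE ε om α e₀)) := okI_fam hs hJ hIQ he₀ ht
  have hN₂ : ∀ n m, b₁ n ≠ 0 → b₂ m ≠ 0 → (nm (n * m ^ 2) : ℝ) ≤ Z₁ * Z₂ ^ 2 := by
    intro n m hn hm
    rw [nm_mul, nm_pow]
    push_cast
    have h3 := hb₁.le n hn
    have h4 := hb₂.le m hm
    gcongr
  exact u_bound_one hI hf.ne_zero hg hz hV0 (fun i hi _ => hV i hi) hN₂ o hx hy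

/-- **`Dat4` when all sizes are powers of `Y`** (arbitrary `α`, `b₁`, `b₂`, `J`, `I`) -/
theorem dat4_Y {M : Eis} {ψ : Eis → ℂ} (hψ : HC M ψ) (l : ℤ) {Y : ℝ} (K : ℕ) (hY : 100 ≤ Y)
    (hB : Bth ≤ Y) {s : Eis → Eis} {J : Finset (Eis × Eis)} (hJ : OKJ J)
    (hJc : (J.card : ℝ) ≤ Y ^ 6) (hL : ∀ x ∈ J, (nm (x.2 * x.1 ^ 2) : ℝ) ≤ Y ^ 2)
    {I : Finset (Eis × (Eis × Eis))} (hI : ∀ k ∈ I, IsPrim k.1 ∧ (nm k.1 : ℝ) ≤ Y ∧ k.2 ∈ J)
    (hs : ∀ k ∈ I, IsPrim (s k.1)) {ε : Eis → ℂ} (hε : ∀ b, ‖ε b‖ ≤ 1)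
    {om : Eis × Eis → ℂ} {Co : ℝ} (hCo : 0 ≤ Co) (hCoY : Co ≤ Y) (hom : ∀ x ∈ J, ‖om x‖ ≤ Co)
    {b₁ b₂ : Eis → ℂ} (h₁ : FS b₁) (h₂ : FS b₂) (hb₁ : Sz b₁ (Y ^ K) (Y ^ K))
    (hb₂ : Sz b₂ (Y ^ K) (Y ^ K)) {E : Eis} (hE : IsPrim E) (hf : (nm (fN M E) : ℝ) ≤ Y ^ 26)
    {α : Eis → ℂ} (hα : Sz α (Y ^ K) (Y ^ K)) {e₀ t c₀ g z : Eis}
    (he₀ : IsPrim e₀) (ht : IsPrim t) (hg : PrI M g) (hz : PrI M z)
    (hS : ∀ k ∈ I, (nm (sE s e₀ t k.1) : ℝ) ≤ Y ^ 17) :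
    Dat4 M 1 (O := OU M I (jS (sE s e₀ t)) (jJ (sE s e₀ t)))
      (fun o => (nm (o.1.1 * o.1.2) : ℝ))
      (fun o => vI M (psE M ψ E) l (fN M E) I (jS (sE s e₀ t)) jD (jJ (sE s e₀ t))
        (jC (sE s e₀ t) (cE ε om α e₀)) c₀ g o.1)
      (fun o => mulw (fN M E) (wI M b₁ b₂ (h₁.fin.toFinset ×ˢ h₂.fin.toFinset) z o.1))
      (Y ^ (100 + 4 * K)) := by
  classical
  have hY1 : 1 ≤ Y := by linarith
  have hY0 : 0 ≤ Y := by linarith
  have hBth := Bth_nonneg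
  have hm : ∀ k, k ≤ 100 + 4 * K → Y ^ k ≤ Y ^ (100 + 4 * K) := fun k hk =>
    pow_le_pow_right₀ hY1 hk
  set Q : Finset Eis := I.image Prod.fst with hQdef
  have hQ : ∀ q ∈ Q, ∃ k ∈ I, k.1 = q := fun q hq => Finset.mem_image.mp hq
  have hIQ : ∀ k ∈ I, k.1 ∈ Q ∧ k.2 ∈ J := fun k hk =>
    ⟨Finset.mem_image_of_mem _ hk, (hI k hk).2.2⟩
  have hQc : (Q.card : ℝ) ≤ Y ^ 2 := by
    have h3 : Q ⊆ primBall ⌊Y⌋₊ := fun q hq => by
      obtain ⟨k, hk, rfl⟩ := hQ q hq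
      rw [mem_primBall]
      exact ⟨Nat.le_floor (hI k hk).2.1, (hI k hk).1⟩
    have h4 : (Q.card : ℝ) ≤ (primBall ⌊Y⌋₊).card := by exact_mod_cast Finset.card_le_card h3
    refine h4.trans ((card_pb_le hY0).trans ?_)
    nlinarith
  have hsQ : ∀ q ∈ Q, IsPrim (s q) := by
    intro q hq
    obtain ⟨k, hk, rfl⟩ := hQ q hq
    exact hs k hk
  have hSQ : ∀ q ∈ Q, (nm (sE s e₀ t q) : ℝ) ≤ Y ^ 17 := by
    intro q hq
    obtain ⟨k, hk, rfl⟩ := hQ q hq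
    exact hS k hk
  refine dat4_gen hψ l (Q := Q) (s := s) hsQ hε hJ hIQ hCo hom h₁ h₂ hb₁ hb₂ (by positivity)
    (by positivity) hE hα (by positivity) he₀ ht hg hz (W := Y ^ 17) (L := Y ^ 2) (by positivity)
    (by positivity) hSQ hL ⟨one_le_pow₀ hY1, ?_, ?_, ?_, ?_, ?_⟩
  · calc (Q.card : ℝ) * J.card ≤ Y ^ 2 * Y ^ 6 := by gcongr
      _ = Y ^ 8 := by ring
      _ ≤ _ := hm _ (by omega)
  · calc (Y ^ 17) ^ 3 * Y ^ 2 = Y ^ 53 := by ring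
      _ ≤ _ := hm _ (by omega)
  · calc (Q.card : ℝ) * J.card * (Co * (100 * Y ^ K * Y ^ K) * Bth * (Y ^ 17 * (Y ^ 17 * Y ^ 2)))
        ≤ Y ^ 2 * Y ^ 6 * (Y * (Y * Y ^ K * Y ^ K) * Y * (Y ^ 17 * (Y ^ 17 * Y ^ 2))) := by
          gcongr
      _ = Y ^ (47 + 2 * K) := by rw [pow_add, pow_mul]; ring
      _ ≤ _ := hm _ (by omega)
  · calc (nm (fN M E) : ℝ) * (Y ^ K * (Y ^ K) ^ 2) ≤ Y ^ 26 * (Y ^ K * (Y ^ K) ^ 2) := by gcongr
      _ = Y ^ (26 + 3 * K) := by rw [pow_add, pow_mul, pow_right_comm Y 3 K]; ring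
      _ ≤ _ := hm _ (by omega)
  · calc 100 * Y ^ K * (100 * Y ^ K) * (Y ^ K * Y ^ K)
        ≤ Y * Y ^ K * (Y * Y ^ K) * (Y ^ K * Y ^ K) := by gcongr
      _ = Y ^ (2 + 4 * K) := by rw [pow_add, pow_mul, pow_right_comm Y 4 K]; ring
      _ ≤ _ := hm _ (by omega)

end fam

end Crest.Agent.R017.E4Us512
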