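import Crest.Agent.R017.E4Us_512
import Crest.Agent.R017.E4Ub_164

/-!
# Row 17, R8 / E5, consumer of E4 : sizes in the frame of one level (helper512)

* `Fr` : the standing size conditions of a datum (`X` = base)
* `sizes` : all sizes are powers of `X`
* `dat4_fam` : `Dat4` and the tight `U`-bound for every datum of `midV`
-/

set_option autoImplicit false

noncomputable section

open Finset Complex
open scoped ComplexConjugate

namespace Crest.Agent.R017.E4Us512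

open Crest.Agent.R012 Crest.Agent.R012.Eis
open Crest.Agent.R012.Mob705 hiding pb mem_pb
open Crest.Agent.R012.Div277
open Crest.Agent.R012.LS2 (S mem_S)
open Crest.Agent.R017.CM106 (CS FS sub)
open Crest.Agent.R017.FE47 (cx PU SM)
open Crest.Agent.R017.C70
open Crest.Agent.R017.HP842 (Pc pc alL)
open Crest.Agent.R017.End699 (HC)
open Crest.Agent.R017.E4352 (PrI Dat4)
open Crest.Agent.R017.E4D164
open Crest.Agent.R017.E2440 (Bth Bth_nonneg)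
open Crest.Agent.R017.E5k54 (PT alb)
open Crest.Agent.R017.SSb54 (PTb mem_PTb)
open Crest.Agent.R017.E5B71
open Crest.Agent.R017.B770 (DPar)
open Crest.Agent.R017.Prov71
open Crest.Agent.R017.E5L770
open Crest.Agent.R017.E4U164
open Crest.Agent.R017.E4K164 (dc dc_spec)

/-! ### lists of typed pieces -/

/-- total log-length -/
def lz (ps : List Pq) : ℝ := (ps.map (·.z)).sum

lemma lz_cons (p : Pq) (ps : List Pq) : lz (p :: ps) = p.z + lz ps := by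
  unfold lz; rw [List.map_cons, List.sum_cons]

lemma pY_Pt (P : DPar) (t : Eis) (qs : List Pq) : pY (qs.map (Pt P t)) = Real.exp (lz qs) := by
  induction qs with
  | nil => rw [List.map_nil, pY_nil]; unfold lz; simp
  | cons q qs ih =>
    rw [List.map_cons, pY_cons, ih, lz_cons, Real.exp_add]
    rfl

lemma exp_lz_le {Y : ℝ} (hY : 1 ≤ Y) {qs : List Pq} {n : ℕ} (hn : qs.length ≤ n)
    (h : ∀ p ∈ qs, Real.exp p.z ≤ Y) : Real.exp (lz qs) ≤ Y ^ n := by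
  refine le_trans ?_ (pow_le_pow_right₀ hY hn)
  clear hn
  induction qs with
  | nil => unfold lz; simp
  | cons q qs ih =>
    rw [lz_cons, Real.exp_add, List.length_cons, pow_succ, mul_comm]
    have h1 := h q List.mem_cons_self
    have h2 := ih fun p hp => h p (List.mem_cons_of_mem _ hp)
    have : 0 ≤ Y := by linarith
    gcongr

/-- a side of typed pieces -/
lemma sz_side {P : DPar} (hP : P.OK) {h : ℝ → ℝ} {R H : ℝ} (hR0 : 0 ≤ R)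
    (hR : ∀ u, cx h u ≠ 0 → |u| ≤ R) (hH1 : 1 ≤ H) (hH : ∀ u, ‖cx h u‖ ≤ H) (t : Eis)
    {qs : List Pq} {n : ℕ} (hn : qs.length ≤ n) :
    Sz (alL h (qs.map (Pt P t))) (Real.exp R ^ n * Real.exp (lz qs))
      ((100 * Real.exp R * H) ^ n * Real.exp (lz qs)) := by
  have h1 := sz_alL hR hH (ps := qs.map (Pt P t)) (fun p hp => by
    obtain ⟨q, -, rfl⟩ := List.mem_map.1 hp
    exact ok_Pt P t hP q)
  rw [pY_Pt, List.length_map] at h1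
  have h2 : 1 ≤ Real.exp R := Real.one_le_exp hR0
  have h3 : 1 ≤ 100 * Real.exp R * H := by nlinarith
  refine h1.mono ?_ ?_
  · exact mul_le_mul_of_nonneg_right (pow_le_pow_right₀ h2 hn) (Real.exp_pos _).le
  · exact mul_le_mul_of_nonneg_right (pow_le_pow_right₀ h3 hn) (Real.exp_pos _).le

/-! ### the frame -/

/-- standing size conditions -/
structure Fr (X B : ℝ) (N : ℕ) (a : Bd) (ps : List Pq) (i : ℕ) : Prop where
  len : ps.length ≤ N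
  l : a.l ≤ B * Real.log X
  l0 : 0 ≤ a.l
  u : ∀ j, (a.us j).z ≤ B * Real.log X
  p : ∀ p ∈ ps, p.z ≤ B * Real.log X
  d3 : a.d₃ ≠ 0 ∧ (nm a.d₃ : ℝ) ≤ X ^ B
  e : IsPrim a.e ∧ (nm a.e : ℝ) ≤ X ^ B
  lv : Real.log 2 * i ≤ B * Real.log X

/-- the same in terms of one large number `Y` -/
structure FrY (Y e0 r : ℝ) (N : ℕ) (a : Bd) (ps : List Pq) (i : ℕ) : Prop where
  len : ps.length ≤ N
  Y1 : 100 ≤ Y
  l : Real.exp a.l ≤ Y
  e0l : Real.exp (e0 * a.l) ≤ Y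
  er : Real.exp r ≤ Y
  u : ∀ j, Real.exp (a.us j).z ≤ Y
  p : ∀ p ∈ ps, Real.exp p.z ≤ Y
  d3 : a.d₃ ≠ 0 ∧ (nm a.d₃ : ℝ) ≤ Y
  e : IsPrim a.e ∧ (nm a.e : ℝ) ≤ Y
  lv : (2 : ℝ) ^ i ≤ Y

lemma Fr.toY {X B e0 r : ℝ} {N : ℕ} {a : Bd} {ps : List Pq} {i : ℕ} (h : Fr X B N a ps i)
    (hX : 100 ≤ X) (hr : Real.exp r ≤ X) {B' : ℝ} (h1 : 1 ≤ B') (hB : B ≤ B')
    (he0 : |e0| * B ≤ B') : FrY (X ^ B') e0 r N a ps i := by
  have hX1 : 1 ≤ X := by linarith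
  have hX0 : 0 < X := by linarith
  have hlog : 0 ≤ Real.log X := Real.log_nonneg hX1
  have hXB : X ^ B ≤ X ^ B' := Real.rpow_le_rpow_of_exponent_le hX1 hB
  have hXX : X ≤ X ^ B' := by
    conv_lhs => rw [← Real.rpow_one X]
    exact Real.rpow_le_rpow_of_exponent_le hX1 h1
  have hexp : ∀ y : ℝ, y ≤ B * Real.log X → Real.exp y ≤ X ^ B' := by
    intro y hy
    refine le_trans (Real.exp_le_exp.2 hy) (le_trans (le_of_eq ?_) hXB)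
    rw [Real.rpow_def_of_pos hX0, mul_comm]
  refine ⟨h.len, hX.trans hXX, hexp _ h.l, ?_, hr.trans hXX, fun j => hexp _ (h.u j),
    fun p hp => hexp _ (h.p p hp), ⟨h.d3.1, h.d3.2.trans hXB⟩, ⟨h.e.1, h.e.2.trans hXB⟩, ?_⟩
  · have h2 : e0 * a.l ≤ B' * Real.log X := by
      calc e0 * a.l ≤ |e0| * a.l := mul_le_mul_of_nonneg_right (le_abs_self _) h.l0
        _ ≤ |e0| * (B * Real.log X) := mul_le_mul_of_nonneg_left h.l (abs_nonneg _)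
        _ = (|e0| * B) * Real.log X := by ring
        _ ≤ _ := mul_le_mul_of_nonneg_right he0 hlog
    refine (Real.exp_le_exp.2 h2).trans (le_of_eq ?_)
    rw [Real.rpow_def_of_pos hX0, mul_comm]
  · have h2 := hexp _ h.lv
    have h3 : (2 : ℝ) ^ i = Real.exp (Real.log 2 * i) := by
      rw [mul_comm, Real.exp_nat_mul, Real.exp_log (by norm_num)]
    rw [h3]
    exact h2

/-! ### sizes in terms of `Y` -/

lemma nm_fN_le {M E : Eis} (hM : M ≠ 0) (hE : IsPrim E) : (nm (fN M E) : ℝ) ≤ (nm E : ℝ) ^ 2 := by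
  obtain ⟨h1, h2, h3⟩ := fM_spec hM hE
  have h4 : nm (fN M E) ≤ nm (fS E) :=
    nm_le_of_dvd (fS_prim hE).ne_zero (by rw [h3]; exact dvd_mul_left _ _)
  obtain ⟨s1, -, s3, -, -, s6, s7⟩ := sd_spec hE
  have h5 : fS E ∣ E ^ 2 := by
    unfold fS
    conv_rhs => rw [s7]
    exact ⟨(sd E).2.1 ^ 3 * (sd E).2.2 ^ 6, by ring⟩
  have h6 : nm (fS E) ≤ nm E ^ 2 := by
    rw [← nm_pow]
    exact nm_le_of_dvd (pow_ne_zero 2 hE.ne_zero) h5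
  exact_mod_cast h4.trans h6

lemma nm_tS_le {E : Eis} (hE : IsPrim E) : nm (tS E) ≤ nm E :=
  nm_le_of_dvd hE.ne_zero ((dvd_pow_self _ (by norm_num)).trans (tS_dvd hE))

lemma mem_PT {ι : Type*} [Fintype ι] {Y : ℕ} {β : ι → Eis} (h : β ∈ PT ι Y) :
    ∀ i, β i ∈ primBall Y := by
  classical
  unfold E5k54.PT at h
  rw [Finset.mem_filter, Fintype.mem_piFinset] at h
  exact h.1

section Y

variable {Y e0 r : ℝ} {N : ℕ} {a : Bd} {ps : List Pq} {i : ℕ}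

lemma Y3_le (H : FrY Y e0 r N a ps i) : ((Y3 a r : ℕ) : ℝ) ≤ Y ^ 4 := by
  unfold Y3
  refine (Nat.floor_le (Real.exp_pos _).le).trans ?_
  have h1 := H.u 2
  have h2 := H.u 3
  have h3 := H.u 4
  have h4 := H.er
  have hY : 0 ≤ Y := by linarith [H.Y1]
  unfold E5L770.a3
  rw [Real.exp_add, Real.exp_add, Real.exp_add]
  calc Real.exp (a.us 2).z * Real.exp (a.us 3).z * Real.exp (a.us 4).z * Real.exp r
      ≤ Y * Y * Y * Y := by gcongr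
    _ = Y ^ 4 := by ring

lemma nm_beta_le (H : FrY Y e0 r N a ps i) {Bf : ℝ → ℝ → ℝ → ℝ} {β : Fin 3 → Eis}
    (hβ : β ∈ T3 Bf a r) : (nm (∏ j, β j) : ℝ) ≤ Y ^ 12 := by
  have h1 := mem_PT (mem_PTb.mp hβ).1
  have h2 : ∀ j, (nm (β j) : ℝ) ≤ Y ^ 4 := fun j => by
    refine le_trans ?_ (Y3_le H)
    exact_mod_cast (mem_primBall.mp (h1 j)).1
  have hY : 0 ≤ Y := by linarith [H.Y1]
  rw [E554.nm_prod]
  push_cast
  calc ∏ j, (nm (β j) : ℝ) ≤ ∏ _j : Fin 3, Y ^ 4 :=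
        Finset.prod_le_prod (fun _ _ => Nat.cast_nonneg _) fun j _ => h2 j
    _ = Y ^ 12 := by rw [prod_const, card_univ, Fintype.card_fin]; ring

lemma nm_E_le (H : FrY Y e0 r N a ps i) {Bf : ℝ → ℝ → ℝ → ℝ} {β : Fin 3 → Eis}
    (hβ : β ∈ T3 Bf a r) : IsPrim (a.e * ∏ j, β j) ∧ (nm (a.e * ∏ j, β j) : ℝ) ≤ Y ^ 13 := by
  refine ⟨H.e.1.mul (T3_prim β hβ), ?_⟩
  have h1 := nm_beta_le H hβ
  have h2 := H.e.2
  have hY : 0 ≤ Y := by linarith [H.Y1]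
  rw [nm_mul]
  push_cast
  calc (nm a.e : ℝ) * nm (∏ j, β j) ≤ Y * Y ^ 12 := by gcongr
    _ = Y ^ 13 := by ring

lemma nm_S_le (H : FrY Y e0 r N a ps i) {Bf : ℝ → ℝ → ℝ → ℝ} {β : Fin 3 → Eis}
    (hβ : β ∈ T3 Bf a r) {q g e₀ t : Eis} (hq : IsPrim q) (hqY : (nm q : ℝ) ≤ Y) (hg : IsPrim g)
    (hgd : g ∣ a.d₃) (he : IsPrim e₀) (heY : (nm e₀ : ℝ) ≤ Real.exp (e0 * a.l)) (ht : IsPrim t)
    (htd : t ∣ tS (a.e * ∏ j, β j)) :
    (nm (sE (fun q => q ^ 2 * g) e₀ t q) : ℝ) ≤ Y ^ 17 := by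
  have hE := nm_E_le H hβ
  have hY : 0 ≤ Y := by linarith [H.Y1]
  have h1 : (nm t : ℝ) ≤ Y ^ 13 := by
    refine le_trans ?_ hE.2
    exact_mod_cast (nm_le_of_dvd (tS_prim hE.1).ne_zero htd).trans (nm_tS_le hE.1)
  have h2 : (nm g : ℝ) ≤ Y := le_trans (by exact_mod_cast nm_le_of_dvd H.d3.1 hgd) H.d3.2
  have h3 : (nm e₀ : ℝ) ≤ Y := heY.trans H.e0l
  have h4 := nm_sE (s := fun q : Eis => q ^ 2 * g) (e₀ := e₀) (t := t) (b := q)
    ((hq.pow 2).mul hg) he ht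
  have h5 : (nm (sE (fun q => q ^ 2 * g) e₀ t q) : ℝ) ≤ (nm q ^ 2 * nm g) * nm e₀ * nm t := by
    have h6 : nm (q ^ 2 * g) = nm q ^ 2 * nm g := by rw [nm_mul, nm_pow]
    simp only [h6] at h4
    exact_mod_cast h4
  refine h5.trans ?_
  calc ((nm q : ℝ) ^ 2 * nm g) * nm e₀ * nm t ≤ (Y ^ 2 * Y) * Y * Y ^ 13 := by gcongr
    _ = Y ^ 17 := by ring

lemma mem_J3_le {Jf : ℝ → ℝ → ℝ → Finset (Eis × Eis)} {x : Eis × Eis} (hx : x ∈ J3 Jf a i)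
    (h0 : x.2 * x.1 ^ 2 ≠ 0) : (nm (x.2 * x.1 ^ 2) : ℝ) ≤ 2 * 2 ^ i := by
  have h1 := (mem_Jv.mp hx).2
  have h2 : Real.log (nm (x.2 * x.1 ^ 2)) ≤ Real.log 2 * (i + 1 : ℕ) := by
    have := (abs_le.mp h1).2
    unfold E5L770.lv at this
    push_cast
    linarith
  have h3 : (0 : ℝ) < nm (x.2 * x.1 ^ 2) := by exact_mod_cast nm_pos.2 h0
  calc (nm (x.2 * x.1 ^ 2) : ℝ) = Real.exp (Real.log (nm (x.2 * x.1 ^ 2))) := (Real.exp_log h3).symm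
    _ ≤ Real.exp (Real.log 2 * (i + 1 : ℕ)) := Real.exp_le_exp.2 h2
    _ = 2 ^ (i + 1) := by rw [mul_comm, Real.exp_nat_mul, Real.exp_log (by norm_num)]
    _ = 2 * 2 ^ i := by ring

lemma card_J3_le {Jf : ℝ → ℝ → ℝ → Finset (Eis × Eis)} (hJ : OKJ (J3 Jf a i)) :
    ((J3 Jf a i).card : ℝ) ≤ 100 * (2 * 2 ^ i) * (100 * (2 * 2 ^ i)) := by
  classical
  set L : ℝ := 2 * 2 ^ i with hL
  have hL1 : 1 ≤ L := by
    have : (1 : ℝ) ≤ 2 ^ i := one_le_pow₀ (by norm_num)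
    rw [hL]; linarith
  have hsub : J3 Jf a i ⊆ (primBall ⌊L⌋₊) ×ˢ ((ball ⌊L⌋₊).erase 0) := by
    intro x hx
    have hj0 := E4K164.jc_ne_zero (hJ.jc x hx)
    have hx0 : x.2 * x.1 ^ 2 ≠ 0 := mul_ne_zero hj0 (pow_ne_zero 2 (hJ.prim x hx).ne_zero)
    have h1 := mem_J3_le hx hx0
    rw [nm_mul, nm_pow] at h1
    push_cast at h1
    have h2 : (1 : ℝ) ≤ nm x.2 := by exact_mod_cast nm_pos.2 hj0
    have h3 := one_le_nm' (hJ.prim x hx)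
    rw [Finset.mem_product, mem_primBall, Finset.mem_erase, mem_ball]
    have h4 : (1 : ℝ) ≤ (nm x.1 : ℝ) ^ 2 := one_le_pow₀ h3
    have h5 : (nm x.2 : ℝ) ≤ (nm x.2 : ℝ) * (nm x.1 : ℝ) ^ 2 :=
      le_mul_of_one_le_right (by linarith) h4
    have h6 : (nm x.1 : ℝ) ^ 2 ≤ (nm x.2 : ℝ) * (nm x.1 : ℝ) ^ 2 :=
      le_mul_of_one_le_left (by positivity) h2
    have h7 : (nm x.1 : ℝ) ≤ (nm x.1 : ℝ) ^ 2 := by nlinarith
    refine ⟨⟨Nat.le_floor ?_, hJ.prim x hx⟩, hj0, Nat.le_floor ?_⟩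
    · linarith
    · linarith
  have h4 := Finset.card_le_card hsub
  rw [Finset.card_product] at h4
  have h5 : ((J3 Jf a i).card : ℝ) ≤ (primBall ⌊L⌋₊).card * ((ball ⌊L⌋₊).erase 0).card := by
    exact_mod_cast h4
  refine h5.trans ?_
  have h6 := card_pb_le (Z := L) (by linarith)
  have h7 : (((ball ⌊L⌋₊).erase 0).card : ℝ) ≤ 100 * L := by
    refine (Lat277.card_ball_erase_le _).trans ?_
    have := Nat.floor_le (show 0 ≤ L by linarith)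
    linarith
  gcongr

end Y

/-! ### the theorem -/

lemma bdd_PU {h : ℝ → ℝ} {c : ℝ} (hh : PU h c) : ∃ R H : ℝ, 0 ≤ R ∧ 1 ≤ H ∧
    (∀ u, cx h u ≠ 0 → |u| ≤ R) ∧ ∀ u, ‖cx h u‖ ≤ H := by
  obtain ⟨R, hR0, hR⟩ := FE47.exists_R' hh.cs
  obtain ⟨C, hC⟩ := hh.cs.exists_bound_of_continuous hh.cd.continuous
  refine ⟨R, max 1 C, hR0, le_max_left _ _, fun u hu => hR u fun h0 => hu ?_, fun u => ?_⟩
  · unfold FE47.cx
    rw [h0, Complex.ofReal_zero]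
  · unfold FE47.cx
    rw [Complex.norm_real]
    exact (hC u).trans (le_max_right _ _)

lemma omL_bdd : ∃ C : ℝ, 0 ≤ C ∧ ∀ (i : ℕ) (x : Eis × Eis), ‖omL i x‖ ≤ C := by
  obtain ⟨C, hC, H⟩ := wLc_bd 0
  refine ⟨C, hC, fun i x => ?_⟩
  have := H i (lv x)
  rw [iteratedDeriv_zero] at this
  exact this

lemma len_am (ps : List Pq) : (amL ps).length ≤ ps.length := List.length_filter_le _ _

lemma len_bs (a : Bd) (ps : List Pq) : (bs2 a ps).length ≤ ps.length + 2 := by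
  unfold bs2
  rw [List.length_cons, List.length_cons]
  have : (moL ps).length ≤ ps.length := List.length_filter_le _ _
  omega

section Y2

variable {Y e0 r : ℝ} {N : ℕ} {a : Bd} {ps : List Pq} {i : ℕ}

lemma exp_am_le (H : FrY Y e0 r N a ps i) : Real.exp (lz (amL ps)) ≤ Y ^ N :=
  exp_lz_le (by linarith [H.Y1]) ((len_am ps).trans H.len) fun p hp =>
    H.p p (List.mem_of_mem_filter hp)

lemma exp_bs_le (H : FrY Y e0 r N a ps i) : Real.exp (lz (bs2 a ps)) ≤ Y ^ (N + 2) :=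
  exp_lz_le (by linarith [H.Y1]) ((len_bs a ps).trans (Nat.add_le_add_right H.len 2)) fun p hp => by
    unfold bs2 at hp
    rw [List.mem_cons, List.mem_cons] at hp
    rcases hp with rfl | rfl | hp
    · exact H.u 0
    · exact H.u 1
    · exact H.p p (List.mem_of_mem_filter hp)

end Y2

lemma dat4_mono {M f : Eis} {O : Type} [Fintype O] {lam : O → ℝ} {v w : O → Eis → ℂ} {X X' : ℝ}
    (h : Dat4 M f lam v w X) (hX : X ≤ X') : Dat4 M f lam v w X' where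
  X1 := h.X1.trans hX
  card := h.card.trans hX
  lam1 o := ⟨(h.lam1 o).1, (h.lam1 o).2.trans hX⟩
  hf := ⟨h.hf.1, h.hf.2.trans hX⟩
  hv := h.hv
  hw := h.hw
  vx o x hx := ⟨(h.vx o x hx).1, (h.vx o x hx).2.trans hX⟩
  wy o y hy := (h.wy o y hy).trans hX
  vb o x := (h.vb o x).trans hX
  wb o y := (h.wb o y).trans hX

/-- **`Dat4`, the `U`-bound and the sizes for every datum of one level** -/
theorem dat4_fam {h : ℝ → ℝ} {c : ℝ} (hh : PU h c) {P : DPar} (hP : P.OK) (e0 r : ℝ) (N : ℕ)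
    {B : ℝ} (hB : 0 ≤ B) : ∃ A₀ C₀ X₀ : ℝ, 1 ≤ A₀ ∧ 1 ≤ C₀ ∧ 1 < X₀ ∧ ∀ X : ℝ, X₀ ≤ X →
    ∀ (a : Bd) (ps : List Pq) (i : ℕ), Fr X B N a ps i →
    ∀ (Bf : ℝ → ℝ → ℝ → ℝ) (Jf : ℝ → ℝ → ℝ → Finset (Eis × Eis)), OKJ (J3 Jf a i) →
    ∀ (t₀ : Eis) (h₁ : FS (b1 P h t₀ ps)) (h₂ : FS (b2 P h t₀ a ps))
      (I : Finset (Eis × (Eis × Eis))),
      (∀ k ∈ I, IsPrim k.1 ∧ (nm k.1 : ℝ) ≤ X ^ B ∧ k.2 ∈ J3 Jf a i) →
    ∀ g : Eis, IsPrim g → g ∣ a.d₃ → ∀ β ∈ T3 Bf a r,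
    ∀ e₀ : Eis, IsPrim e₀ → (nm e₀ : ℝ) ≤ Real.exp (e0 * a.l) →
    ∀ t : Eis, IsPrim t → t ∣ tS (a.e * ∏ j, β j) →
    ∀ (l : ℤ) (ψ : Eis → ℂ), HC P.n₃ ψ → ∀ ε : Eis → ℂ, (∀ q, ‖ε q‖ ≤ 1) →
    ∀ c₀ g' z : Eis, PrI P.n₃ g' → PrI P.n₃ z →
    Dat4 P.n₃ 1 (O := OU P.n₃ I (jS (sE (fun q => q ^ 2 * g) e₀ t))
        (jJ (sE (fun q => q ^ 2 * g) e₀ t)))
      (fun o => (nm (o.1.1 * o.1.2) : ℝ))
      (fun o => vI P.n₃ (psE P.n₃ ψ (a.e * ∏ j, β j)) l (fN P.n₃ (a.e * ∏ j, β j))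
        I (jS (sE (fun q => q ^ 2 * g) e₀ t)) jD
        (jJ (sE (fun q => q ^ 2 * g) e₀ t)) (jC (sE (fun q => q ^ 2 * g) e₀ t)
          (cE ε (omL i) (alb (f3 P h t₀ a) β) e₀)) c₀ g' o.1)
      (fun o => mulw (fN P.n₃ (a.e * ∏ j, β j)) (wI P.n₃ (b1 P h t₀ ps) (b2 P h t₀ a ps)
        (h₁.fin.toFinset ×ˢ h₂.fin.toFinset) z o.1)) (X ^ A₀) ∧
    (∀ V : ℝ, 0 ≤ V → (∀ k ∈ I, (nm (jJ (sE (fun q => q ^ 2 * g) e₀ t) k) : ℝ) *
        nm (jD k) ^ 2 * nm (jS (sE (fun q => q ^ 2 * g) e₀ t) k) ^ 2 ≤ V) →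
      ∀ (o : OU P.n₃ I (jS (sE (fun q => q ^ 2 * g) e₀ t))
        (jJ (sE (fun q => q ^ 2 * g) e₀ t))) (x y : Eis),
      vI P.n₃ (psE P.n₃ ψ (a.e * ∏ j, β j)) l (fN P.n₃ (a.e * ∏ j, β j))
        I (jS (sE (fun q => q ^ 2 * g) e₀ t)) jD
        (jJ (sE (fun q => q ^ 2 * g) e₀ t)) (jC (sE (fun q => q ^ 2 * g) e₀ t)
          (cE ε (omL i) (alb (f3 P h t₀ a) β) e₀)) c₀ g' o.1 x ≠ 0 →
      mulw (fN P.n₃ (a.e * ∏ j, β j)) (wI P.n₃ (b1 P h t₀ ps) (b2 P h t₀ a ps)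
        (h₁.fin.toFinset ×ˢ h₂.fin.toFinset) z o.1) y ≠ 0 →
      (nm (1 * x * y) : ℝ) * (nm (o.1.1 * o.1.2) : ℝ) ^ 2 ≤
        nm (fN P.n₃ (a.e * ∏ j, β j)) * V *
          (C₀ * Real.exp (lz (amL ps) + 2 * lz (bs2 a ps)))) ∧
    (nm (fN P.n₃ (a.e * ∏ j, β j)) : ℝ) ≤ X ^ A₀ ∧ (2 : ℝ) * 2 ^ i ≤ X ^ A₀ ∧
    Real.exp (lz (amL ps) + 2 * lz (bs2 a ps)) ≤ X ^ A₀ ∧
    ∀ k ∈ I, (nm (sE (fun q => q ^ 2 * g) e₀ t k.1) : ℝ) ≤ X ^ A₀ := by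
  obtain ⟨R, H, hR0, hH1, hR, hH⟩ := bdd_PU hh
  obtain ⟨Co, hCo, hom⟩ := omL_bdd
  have hBth := Bth_nonneg
  set B' : ℝ := 1 + B + |e0| * B with hB'
  have hB'1 : 1 ≤ B' := by
    have := mul_nonneg (abs_nonneg e0) hB
    rw [hB']; linarith
  have hB'2 : B ≤ B' := by
    have := mul_nonneg (abs_nonneg e0) hB
    rw [hB']; linarith
  have hB'3 : |e0| * B ≤ B' := by rw [hB']; linarith
  have hER := Real.exp_pos R
  set C₀ : ℝ := Real.exp R ^ (3 * N + 4) with hC₀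
  have hC₀1 : 1 ≤ C₀ := one_le_pow₀ (Real.one_le_exp hR0)
  refine ⟨B' * ((200 + 16 * N : ℕ) : ℝ), C₀,
    100 + Real.exp r + Real.exp R + H + Co + Bth, ?_, hC₀1, ?_, ?_⟩
  · have : (1 : ℝ) ≤ ((200 + 16 * N : ℕ) : ℝ) := by exact_mod_cast (by omega : 1 ≤ 200 + 16 * N)
    nlinarith
  · have := Real.exp_pos r
    linarith
  intro X hX a ps i hFr Bf Jf hJ t₀ h₁ h₂ I hI g hg hgd β hβ e₀ he₀ he₀l t ht htd l ψ hψ
    ε hε c₀ g' z hg' hz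
  classical
  have her := Real.exp_pos r
  have hX100 : 100 ≤ X := by linarith
  have hX1 : 1 ≤ X := by linarith
  have HY := hFr.toY (e0 := e0) (r := r) hX100 (by linarith) hB'1 hB'2 hB'3
  set Y : ℝ := X ^ B' with hY
  have hXY : X ≤ Y := by
    conv_lhs => rw [← Real.rpow_one X]
    exact Real.rpow_le_rpow_of_exponent_le hX1 hB'1
  have hXB : X ^ B ≤ Y := Real.rpow_le_rpow_of_exponent_le hX1 hB'2
  have hY1 : 1 ≤ Y := by linarith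
  have hY0 : 0 ≤ Y := by linarith
  have hYm : X ^ (B' * ((200 + 16 * N : ℕ) : ℝ)) = Y ^ (200 + 16 * N) := by
    rw [hY, ← Real.rpow_natCast, ← Real.rpow_mul (by linarith)]
  rw [hYm]
  have hm : ∀ k, k ≤ 200 + 16 * N → Y ^ k ≤ Y ^ (200 + 16 * N) := fun k hk =>
    pow_le_pow_right₀ hY1 hk
  set Q : Finset Eis := I.image Prod.fst with hQdef
  have hQY : ∀ q ∈ Q, IsPrim q ∧ (nm q : ℝ) ≤ Y := by
    intro q hq
    obtain ⟨k, hk, rfl⟩ := Finset.mem_image.mp hq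
    exact ⟨(hI k hk).1, (hI k hk).2.1.trans hXB⟩
  have hIQ : ∀ k ∈ I, k.1 ∈ Q ∧ k.2 ∈ J3 Jf a i := fun k hk =>
    ⟨Finset.mem_image_of_mem _ hk, (hI k hk).2.2⟩
  have hE := nm_E_le HY hβ
  have hF : (nm (fN P.n₃ (a.e * ∏ j, β j)) : ℝ) ≤ Y ^ 26 := by
    refine (nm_fN_le hP.χ₃.q0 hE.1).trans ?_
    calc (nm (a.e * ∏ j, β j) : ℝ) ^ 2 ≤ (Y ^ 13) ^ 2 := by
          have := hE.2
          gcongr
      _ = Y ^ 26 := by ring
  have hS : ∀ q ∈ Q, (nm (sE (fun q => q ^ 2 * g) e₀ t q) : ℝ) ≤ Y ^ 17 := fun q hq =>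
    nm_S_le HY hβ (hQY q hq).1 (hQY q hq).2 hg hgd he₀ he₀l ht htd
  have hb₁ : Sz (b1 P h t₀ ps) (Real.exp R ^ N * Real.exp (lz (amL ps)))
      ((100 * Real.exp R * H) ^ N * Real.exp (lz (amL ps))) :=
    sz_side hP hR0 hR hH1 hH t₀ ((len_am ps).trans hFr.len)
  have hb₂ : Sz (b2 P h t₀ a ps) (Real.exp R ^ (N + 2) * Real.exp (lz (bs2 a ps)))
      ((100 * Real.exp R * H) ^ (N + 2) * Real.exp (lz (bs2 a ps))) :=
    sz_side hP hR0 hR hH1 hH t₀ ((len_bs a ps).trans (Nat.add_le_add_right hFr.len 2))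
  have hα : Sz (alb (f3 P h t₀ a) β) (Y ^ 6) (Y ^ 24) := by
    have hf : ∀ j, Sz (f3 P h t₀ a j) (Y ^ 2) Y := by
      intro j
      have h3 := sz_pc hR hH (p := Pt P t₀ ((![a.us 2, a.us 3, a.us 4] : Fin 3 → Pq) j))
        (ok_Pt P t₀ hP _)
      refine h3.mono ?_ (by linarith)
      have h4 : Real.exp ((![a.us 2, a.us 3, a.us 4] : Fin 3 → Pq) j).z ≤ Y := by
        fin_cases j
        · exact HY.u 2
        · exact HY.u 3
        · exact HY.u 4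
      have h5 : (Pt P t₀ ((![a.us 2, a.us 3, a.us 4] : Fin 3 → Pq) j)).Y =
          Real.exp ((![a.us 2, a.us 3, a.us 4] : Fin 3 → Pq) j).z := rfl
      rw [h5, pow_two]
      have h6 : Real.exp R ≤ Y := by linarith
      exact mul_le_mul h6 h4 (Real.exp_pos _).le hY0
    have hβp : ∀ j, IsPrim (β j) := fun j =>
      (mem_primBall.mp (mem_PT (mem_PTb.mp hβ).1 j)).2
    refine (sz_alb hf (fun _ => by positivity) hβp).mono (le_of_eq ?_) ?_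
    · rw [prod_const, card_univ, Fintype.card_fin]; ring
    · rw [prod_const, card_univ, Fintype.card_fin]
      have h6 : (100 : ℝ) ≤ Y := by linarith
      calc (100 * (Y ^ 2) ^ 3) ^ 3 * Y ^ 3 ≤ (Y * (Y ^ 2) ^ 3) ^ 3 * Y ^ 3 := by gcongr
        _ = Y ^ 24 := by ring
  have hRY : Real.exp R ≤ Y := by linarith
  have hUY : 100 * Real.exp R * H ≤ Y ^ 3 := by
    calc 100 * Real.exp R * H ≤ Y * Y * Y := by
          have h1 : (100 : ℝ) ≤ Y := by linarith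
          have h2 : H ≤ Y := by linarith
          gcongr
      _ = Y ^ 3 := by ring
  have hU0 : 0 ≤ 100 * Real.exp R * H := by positivity
  have hk : ∀ k, k ≤ 24 + 4 * N → Y ^ k ≤ Y ^ (24 + 4 * N) := fun k hk =>
    pow_le_pow_right₀ hY1 hk
  have he1 := exp_am_le HY
  have he2 := exp_bs_le HY
  have hb₁' : Sz (b1 P h t₀ ps) (Y ^ (24 + 4 * N)) (Y ^ (24 + 4 * N)) := by
    refine hb₁.mono ?_ ?_
    · calc Real.exp R ^ N * Real.exp (lz (amL ps)) ≤ Y ^ N * Y ^ N := by gcongr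
        _ = Y ^ (2 * N) := by rw [← pow_add]; congr 1; ring
        _ ≤ _ := hk _ (by omega)
    · calc (100 * Real.exp R * H) ^ N * Real.exp (lz (amL ps)) ≤ (Y ^ 3) ^ N * Y ^ N := by gcongr
        _ = Y ^ (4 * N) := by rw [← pow_mul, ← pow_add]; congr 1; ring
        _ ≤ _ := hk _ (by omega)
  have hb₂' : Sz (b2 P h t₀ a ps) (Y ^ (24 + 4 * N)) (Y ^ (24 + 4 * N)) := by
    refine hb₂.mono ?_ ?_
    · calc Real.exp R ^ (N + 2) * Real.exp (lz (bs2 a ps)) ≤ Y ^ (N + 2) * Y ^ (N + 2) := by gcongr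
        _ = Y ^ (2 * N + 4) := by rw [← pow_add]; congr 1; ring
        _ ≤ _ := hk _ (by omega)
    · calc (100 * Real.exp R * H) ^ (N + 2) * Real.exp (lz (bs2 a ps))
          ≤ (Y ^ 3) ^ (N + 2) * Y ^ (N + 2) := by gcongr
        _ = Y ^ (4 * N + 8) := by rw [← pow_mul, ← pow_add]; congr 1; ring
        _ ≤ _ := hk _ (by omega)
  have hL : ∀ x ∈ J3 Jf a i, (nm (x.2 * x.1 ^ 2) : ℝ) ≤ 2 * 2 ^ i := fun x hx =>
    mem_J3_le hx (mul_ne_zero (E4K164.jc_ne_zero (hJ.jc x hx))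
      (pow_ne_zero 2 (hJ.prim x hx).ne_zero))
  have hsp : ∀ q ∈ Q, IsPrim (q ^ 2 * g) := fun q hq => ((hQY q hq).1.pow 2).mul hg
  have hi2 : (2 : ℝ) * 2 ^ i ≤ Y ^ 2 := by
    calc (2 : ℝ) * 2 ^ i ≤ Y * Y := by
          have := HY.lv
          have h2 : (2 : ℝ) ≤ Y := by linarith
          gcongr
      _ = Y ^ 2 := by ring
  have hJc : ((J3 Jf a i).card : ℝ) ≤ Y ^ 6 := by
    refine (card_J3_le hJ).trans ?_
    have h1 : (100 : ℝ) ≤ Y := by linarith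
    calc 100 * (2 * 2 ^ i) * (100 * (2 * 2 ^ i)) ≤ Y * Y ^ 2 * (Y * Y ^ 2) := by gcongr
      _ = Y ^ 6 := by ring
  refine ⟨?_, ?_, hF.trans (hm _ (by omega)), hi2.trans (hm _ (by omega)), ?_, ?_⟩
  · have h8 := dat4_Y hψ l (24 + 4 * N) (by linarith) (by linarith) hJ hJc
      (fun x hx => (hL x hx).trans hi2)
      (fun k hk => ⟨(hI k hk).1, (hI k hk).2.1.trans hXB, (hI k hk).2.2⟩)
      (fun k hk => hsp _ (hIQ k hk).1) hε hCo (by linarith) (fun x _ => hom i x) h₁ h₂ hb₁' hb₂'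
      hE.1 hF (hα.mono (hk _ (by omega)) (hk _ (by omega))) he₀ ht (c₀ := c₀) hg' hz
      (fun k hk => hS _ (hIQ k hk).1)
    have e4 : Y ^ (200 + 16 * N) = Y ^ (100 + 4 * (24 + 4 * N) + 4) := by congr 1; ring
    rw [e4]
    exact dat4_mono h8 (pow_le_pow_right₀ hY1 (by omega))
  · intro V hV0 hV o x y hx hy
    have h9 := ub_gen hψ.q0 l (Q := Q) (s := fun q => q ^ 2 * g) hsp hJ hIQ hb₁ hb₂
      (by positivity) hE.1 he₀ ht hg'.1 hz.1 hV0 hV _ o x y hx hy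
    refine h9.trans (le_of_eq ?_)
    have e2 : Real.exp (lz (amL ps) + 2 * lz (bs2 a ps)) =
        Real.exp (lz (amL ps)) * Real.exp (lz (bs2 a ps)) ^ 2 := by
      rw [Real.exp_add, ← Real.exp_nat_mul]
      norm_num
    have e3 : Real.exp R ^ (3 * N + 4) = Real.exp R ^ N * (Real.exp R ^ (N + 2)) ^ 2 := by
      rw [← pow_mul, ← pow_add]; congr 1; ring
    rw [e2, hC₀, e3]
    ring
  · calc Real.exp (lz (amL ps) + 2 * lz (bs2 a ps))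
        = Real.exp (lz (amL ps)) * Real.exp (lz (bs2 a ps)) ^ 2 := by
          rw [Real.exp_add, ← Real.exp_nat_mul]
          norm_num
      _ ≤ Y ^ N * (Y ^ (N + 2)) ^ 2 := by gcongr
      _ = Y ^ (3 * N + 4) := by rw [← pow_mul, ← pow_add]; congr 1; ring
      _ ≤ _ := hm _ (by omega)
  · intro k hk
    exact (hS _ (hIQ k hk).1).trans (hm _ (by omega))

/-- **the size hypotheses of `midV` and `sum_mid`** -/
theorem sizes_fam {h : ℝ → ℝ} {c : ℝ} (hh : PU h c) {P : DPar} (hP : P.OK) (e0 r : ℝ) (N : ℕ)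
    {B : ℝ} (hB : 0 ≤ B) : ∃ A₀ X₀ : ℝ, 1 ≤ A₀ ∧ 1 < X₀ ∧ ∀ X : ℝ, X₀ ≤ X →
    ∀ (a : Bd) (ps : List Pq) (i : ℕ), Fr X B N a ps i →
    ∀ (Bf : ℝ → ℝ → ℝ → ℝ) (Jf : ℝ → ℝ → ℝ → Finset (Eis × Eis)), OKJ (J3 Jf a i) →
    ∀ (t₀ : Eis) (Q : Finset Eis), (∀ q ∈ Q, IsPrim q ∧ (nm q : ℝ) ≤ X ^ B) →
    (∀ g e₀ t, IsPrim g → g ∣ a.d₃ → IsPrim e₀ → IsPrim t → (nm e₀ : ℝ) ≤ Real.exp (e0 * a.l) →
      (∃ β ∈ T3 Bf a r, t ∣ tS (a.e * ∏ j, β j)) → ∀ x ∈ Q ×ˢ J3 Jf a i,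
        nm (XI jD (jJ (sE (fun q => q ^ 2 * g) e₀ t)) x) ≤ ⌊X ^ A₀⌋₊) ∧
    (∀ g e₀ t, IsPrim g → g ∣ a.d₃ → IsPrim e₀ → IsPrim t → (nm e₀ : ℝ) ≤ Real.exp (e0 * a.l) →
      (∃ β ∈ T3 Bf a r, t ∣ tS (a.e * ∏ j, β j)) → ∀ q ∈ Q,
        IsPrim (sE (fun q => q ^ 2 * g) e₀ t q) ∧
          (nm (sE (fun q => q ^ 2 * g) e₀ t q) : ℝ) ≤ X ^ A₀) ∧
    (∀ n m, b1 P h t₀ ps n ≠ 0 → b2 P h t₀ a ps m ≠ 0 → nm (n * m ^ 2) ≤ ⌊X ^ A₀⌋₊) ∧
    ((Y3 a r : ℕ) : ℝ) ^ Fintype.card (Fin 3) ≤ X ^ A₀ ∧ Real.exp (e0 * a.l) ≤ X ^ A₀ ∧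
    (nm P.n₃ : ℝ) ≤ X ^ A₀ ∧ (nm a.d₃ : ℝ) ≤ X ^ A₀ ∧ (nm a.e : ℝ) ≤ X ^ A₀ := by
  obtain ⟨R, H, hR0, hH1, hR, hH⟩ := bdd_PU hh
  set B' : ℝ := 1 + B + |e0| * B with hB'
  have hB'1 : 1 ≤ B' := by
    have := mul_nonneg (abs_nonneg e0) hB
    rw [hB']; linarith
  have hB'2 : B ≤ B' := by
    have := mul_nonneg (abs_nonneg e0) hB
    rw [hB']; linarith
  have hB'3 : |e0| * B ≤ B' := by rw [hB']; linarith
  have hER := Real.exp_pos R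
  refine ⟨B' * ((100 + 12 * N : ℕ) : ℝ), 100 + Real.exp r + Real.exp R + nm P.n₃, ?_, ?_, ?_⟩
  · have : (1 : ℝ) ≤ ((100 + 12 * N : ℕ) : ℝ) := by exact_mod_cast (by omega : 1 ≤ 100 + 12 * N)
    nlinarith
  · have := Real.exp_pos r
    have : (0 : ℝ) ≤ nm P.n₃ := Nat.cast_nonneg _
    linarith
  intro X hX a ps i hFr Bf Jf hJ t₀ Q hQ
  have her := Real.exp_pos r
  have hn3 : (0 : ℝ) ≤ nm P.n₃ := Nat.cast_nonneg _
  have hX100 : 100 ≤ X := by linarith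
  have hX1 : 1 ≤ X := by linarith
  have HY := hFr.toY (e0 := e0) (r := r) hX100 (by linarith) hB'1 hB'2 hB'3
  set Y : ℝ := X ^ B' with hY
  have hXY : X ≤ Y := by
    conv_lhs => rw [← Real.rpow_one X]
    exact Real.rpow_le_rpow_of_exponent_le hX1 hB'1
  have hXB : X ^ B ≤ Y := Real.rpow_le_rpow_of_exponent_le hX1 hB'2
  have hY1 : 1 ≤ Y := by linarith
  have hY0 : 0 ≤ Y := by linarith
  have hYm : X ^ (B' * ((100 + 12 * N : ℕ) : ℝ)) = Y ^ (100 + 12 * N) := by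
    rw [hY, ← Real.rpow_natCast, ← Real.rpow_mul (by linarith)]
  rw [hYm]
  have hm : ∀ k, k ≤ 100 + 12 * N → Y ^ k ≤ Y ^ (100 + 12 * N) := fun k hk =>
    pow_le_pow_right₀ hY1 hk
  have hY1m : Y ≤ Y ^ (100 + 12 * N) := by
    conv_lhs => rw [← pow_one Y]
    exact hm _ (by omega)
  have hL : (2 : ℝ) * 2 ^ i ≤ Y ^ 2 := by
    calc (2 : ℝ) * 2 ^ i ≤ Y * Y := by
          have := HY.lv
          gcongr
          linarith
      _ = Y ^ 2 := by ring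
  refine ⟨?_, ?_, ?_, ?_, HY.e0l.trans hY1m, ?_, HY.d3.2.trans hY1m, HY.e.2.trans hY1m⟩
  · rintro g e₀ t hg hgd he₀ ht he₀l ⟨β, hβ, htd⟩ x hx
    obtain ⟨hq, hxJ⟩ := Finset.mem_product.mp hx
    refine Nat.le_floor ?_
    have h1 := nm_S_le HY hβ (hQ _ hq).1 ((hQ _ hq).2.trans hXB) hg hgd he₀ he₀l ht htd
    have hj0 := E4K164.jc_ne_zero (hJ.jc _ hxJ)
    have h2 : (nm (x.2.2 * x.2.1 ^ 2) : ℝ) ≤ 2 * 2 ^ i := mem_J3_le hxJ
      (mul_ne_zero hj0 (pow_ne_zero 2 (hJ.prim _ hxJ).ne_zero))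
    have h3 := nm_XI_fam (s := fun q : Eis => q ^ 2 * g) (e₀ := e₀) (t := t) (i := x)
      (((hQ _ hq).1.pow 2).mul hg) he₀ ht (hJ.jc _ hxJ) h1 h2
    refine h3.2.1.trans ?_
    calc Y ^ 17 * (2 * 2 ^ i) ≤ Y ^ 17 * Y ^ 2 := by gcongr
      _ = Y ^ 19 := by ring
      _ ≤ _ := hm _ (by omega)
  · rintro g e₀ t hg hgd he₀ ht he₀l ⟨β, hβ, htd⟩ q hq
    exact ⟨sE_prim (((hQ _ hq).1.pow 2).mul hg) he₀ ht,
      (nm_S_le HY hβ (hQ _ hq).1 ((hQ _ hq).2.trans hXB) hg hgd he₀ he₀l ht htd).trans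
        (hm _ (by omega))⟩
  · intro n m hn hm'
    refine Nat.le_floor ?_
    have hb₁ : Sz (b1 P h t₀ ps) (Real.exp R ^ N * Real.exp (lz (amL ps)))
        ((100 * Real.exp R * H) ^ N * Real.exp (lz (amL ps))) :=
      sz_side hP hR0 hR hH1 hH t₀ ((len_am ps).trans hFr.len)
    have hb₂ : Sz (b2 P h t₀ a ps) (Real.exp R ^ (N + 2) * Real.exp (lz (bs2 a ps)))
        ((100 * Real.exp R * H) ^ (N + 2) * Real.exp (lz (bs2 a ps))) :=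
      sz_side hP hR0 hR hH1 hH t₀ ((len_bs a ps).trans (Nat.add_le_add_right hFr.len 2))
    have h3 := hb₁.le n hn
    have h4 := hb₂.le m hm'
    have h5 := exp_am_le HY
    have h6 := exp_bs_le HY
    have hRY : Real.exp R ≤ Y := by linarith
    rw [nm_mul, nm_pow]
    push_cast
    calc (nm n : ℝ) * nm m ^ 2 ≤ (Real.exp R ^ N * Real.exp (lz (amL ps))) *
          (Real.exp R ^ (N + 2) * Real.exp (lz (bs2 a ps))) ^ 2 := by gcongr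
      _ ≤ (Y ^ N * Y ^ N) * (Y ^ (N + 2) * Y ^ (N + 2)) ^ 2 := by gcongr
      _ = Y ^ (8 + 6 * N) := by
          rw [← pow_add, ← pow_add, ← pow_mul, ← pow_add]; congr 1; ring
      _ ≤ _ := hm _ (by omega)
  · rw [Fintype.card_fin]
    calc ((Y3 a r : ℕ) : ℝ) ^ 3 ≤ (Y ^ 4) ^ 3 := by
          have := Y3_le HY
          gcongr
      _ = Y ^ 12 := by ring
      _ ≤ _ := hm _ (by omega)
  · have h1 := Real.exp_pos r
    linarith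

/-- **the sides are `≤ X^ε` on their supports** -/
theorem cw_fam {h : ℝ → ℝ} {c : ℝ} (hh : PU h c) {P : DPar} (hP : P.OK) (N : ℕ)
    {B : ℝ} (hB : 0 ≤ B) {ε : ℝ} (hε : 0 < ε) : ∃ C X₀ : ℝ, 1 ≤ C ∧ 1 < X₀ ∧ ∀ X : ℝ, X₀ ≤ X →
    ∀ (a : Bd) (ps : List Pq) (i : ℕ), Fr X B N a ps i → ∀ (t₀ n : Eis),
      ‖b1 P h t₀ ps n‖ ≤ C * X ^ ε ∧ ‖b2 P h t₀ a ps n‖ ≤ C * X ^ ε := by
  obtain ⟨R, H, hR0, hH1, hR, hH⟩ := bdd_PU hh
  set M : ℝ := (1 + B) * ((4 * (N + 2) : ℕ) : ℝ) with hM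
  have hN1 : (1 : ℝ) ≤ ((4 * (N + 2) : ℕ) : ℝ) := by exact_mod_cast (by omega : 1 ≤ 4 * (N + 2))
  have hM1 : 1 ≤ M := by rw [hM]; nlinarith
  set K : ℝ := ((N + 2 : ℕ) : ℝ) with hK
  have hK0 : 0 < K := by rw [hK]; exact_mod_cast (by omega : 0 < N + 2)
  obtain ⟨C, hC1, hτ⟩ := tau_le_rpow (show 0 < ε / (M * K) by positivity)
  have hER := Real.exp_pos R
  refine ⟨(H * C) ^ (N + 2), 100 + Real.exp R, one_le_pow₀ (one_le_mul_of_one_le_of_one_le hH1 hC1),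
    by linarith, ?_⟩
  intro X hX a ps i hFr t₀ n
  have hX1 : 1 ≤ X := by linarith
  have hX0 : 0 < X := by linarith
  have hB1 : B ≤ 1 + B := by linarith
  have HY := hFr.toY (e0 := 0) (r := 0) (B' := 1 + B) (by linarith) (by
    rw [Real.exp_zero]; linarith) (by linarith) hB1 (by simp; linarith)
  set Y : ℝ := X ^ (1 + B) with hY
  have hXY : X ≤ Y := by
    conv_lhs => rw [← Real.rpow_one X]
    exact Real.rpow_le_rpow_of_exponent_le hX1 (by linarith)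
  have hY1 : 1 ≤ Y := by linarith
  have key : ∀ (qs : List Pq), qs.length ≤ N + 2 → Real.exp (lz qs) ≤ Y ^ (N + 2) → ∀ n : Eis,
      ‖alL h (qs.map (Pt P t₀)) n‖ ≤ (H * C) ^ (N + 2) * X ^ ε := by
    intro qs hq hz n
    have h0 : 0 ≤ (H * C) ^ (N + 2) * X ^ ε := by positivity
    by_cases hn0 : alL h (qs.map (Pt P t₀)) n = 0
    · rw [hn0, norm_zero]; exact h0
    have hs := sz_side hP hR0 hR hH1 hH t₀ hq
    have hnp := hs.prim n hn0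
    have hnz := hs.le n hn0
    have hRY : Real.exp R ≤ Y := by linarith
    have hnY : (nm n : ℝ) ≤ X ^ M := by
      calc (nm n : ℝ) ≤ Real.exp R ^ (N + 2) * Real.exp (lz qs) := hnz
        _ ≤ Y ^ (N + 2) * Y ^ (N + 2) := by gcongr
        _ = Y ^ (2 * (N + 2)) := by rw [← pow_add]; congr 1; ring
        _ ≤ Y ^ (4 * (N + 2)) := pow_le_pow_right₀ hY1 (by omega)
        _ = X ^ M := by
          rw [hY, hM, ← Real.rpow_natCast, ← Real.rpow_mul hX0.le]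
    have h1 := alL_tau (ps := qs.map (Pt P t₀)) hH (fun p hp => by
      obtain ⟨q, -, rfl⟩ := List.mem_map.1 hp
      exact ok_Pt P t₀ hP q) hnp.ne_zero
    rw [List.length_map, ← mul_pow] at h1
    have h2 := hτ n hnp.ne_zero
    have h3 : (tau n : ℝ) ≤ C * X ^ (ε / K) := by
      refine h2.trans ?_
      have h4 : (nm n : ℝ) ^ (ε / (M * K)) ≤ (X ^ M) ^ (ε / (M * K)) := by gcongr
      have h5 : (X ^ M) ^ (ε / (M * K)) = X ^ (ε / K) := by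
        rw [← Real.rpow_mul hX0.le]; congr 1; field_simp
      rw [h5] at h4
      gcongr
    have hXK : 1 ≤ X ^ (ε / K) := Real.one_le_rpow hX1 (by positivity)
    have h6 : H * (tau n : ℝ) ≤ H * C * X ^ (ε / K) := by
      rw [mul_assoc]; gcongr
    have h7 : 1 ≤ H * C * X ^ (ε / K) :=
      one_le_mul_of_one_le_of_one_le (one_le_mul_of_one_le_of_one_le hH1 hC1) hXK
    calc ‖alL h (qs.map (Pt P t₀)) n‖ ≤ (H * (tau n : ℝ)) ^ qs.length := h1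
      _ ≤ (H * C * X ^ (ε / K)) ^ qs.length := by gcongr
      _ ≤ (H * C * X ^ (ε / K)) ^ (N + 2) := pow_le_pow_right₀ h7 hq
      _ = (H * C) ^ (N + 2) * X ^ ε := by
          rw [mul_pow, ← Real.rpow_natCast (X ^ (ε / K)), ← Real.rpow_mul hX0.le]
          congr 2
          rw [← hK]
          field_simp
  refine ⟨key _ ((len_am ps).trans (hFr.len.trans (by omega))) ?_ n,
    key _ ((len_bs a ps).trans (Nat.add_le_add_right hFr.len 2)) (exp_bs_le HY) n⟩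
  exact (exp_am_le HY).trans (pow_le_pow_right₀ hY1 (by omega))

end Crest.Agent.R017.E4Us512
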