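import Crest.Agent.R017.E4Uf_164
import Crest.Agent.R017.E4Uv_512

/-!
# Row 17, R8 / E5, consumer of E4 : `SzU` (helper512)

* `nrm_le` : `nrm x ≤ X^A₀`
* `szU` : 164's sizes
-/

set_option autoImplicit false

noncomputable section

open Finset Complex
open scoped ComplexConjugate

namespace Crest.Agent.R017.E4Us512

open Crest.Agent.R012 Crest.Agent.R012.Eis
open Crest.Agent.R012.Mob705 hiding pb mem_pb
open Crest.Agent.R012.Div277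
open Crest.Agent.R012.LS2 (S mem_S)
open Crest.Agent.R017.Sx545 (Sm)
open Crest.Agent.R017.CM106 (CS FS sub)
open Crest.Agent.R017.FE47 (cx PU SM)
open Crest.Agent.R017.C70
open Crest.Agent.R017.E4D164
open Crest.Agent.R017.SSb54 (PTb mem_PTb)
open Crest.Agent.R017.E5P571 (Gd mem_Gd)
open Crest.Agent.R017.E5B71
open Crest.Agent.R017.B770 (DPar)
open Crest.Agent.R017.Prov71
open Crest.Agent.R017.E5L770
open Crest.Agent.R017.E4U164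

variable {Λ : Type*}

/-- the normalisation in the frame -/
lemma nrm_fam (e0 r : ℝ) (N : ℕ) {B : ℝ} (hB : 0 ≤ B) : ∃ A₀ X₀ : ℝ, 1 ≤ A₀ ∧ 1 < X₀ ∧
    ∀ X : ℝ, X₀ ≤ X → ∀ (a : Bd × ℕ) (ps : List Pq), Fr X B N a.1 ps a.2 →
    ∀ (P : DPar) (Bf : ℝ → ℝ → ℝ → ℝ) (ε X' : ℝ) (x : Dt), x.OK P Bf e0 r ε X' a.1 →
      nrm x ≤ X ^ A₀ := by
  set B' : ℝ := 1 + B + |e0| * B with hB'
  have he0B := mul_nonneg (abs_nonneg e0) hB
  have hB'1 : 1 ≤ B' := by rw [hB']; linarith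
  have hB'2 : B ≤ B' := by rw [hB']; linarith
  have hB'3 : |e0| * B ≤ B' := by rw [hB']; linarith
  have her := Real.exp_pos r
  refine ⟨B' * ((13 : ℕ) : ℝ), 100 + Real.exp r, by push_cast; linarith, by linarith, ?_⟩
  intro X hX a ps hFr P Bf ε X' x hx
  have hX100 : 100 ≤ X := by linarith
  have hX1 : 1 ≤ X := by linarith
  have HY := hFr.toY (e0 := e0) (r := r) hX100 (by linarith) hB'1 hB'2 hB'3
  set Y : ℝ := X ^ B' with hY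
  have hYm : X ^ (B' * ((13 : ℕ) : ℝ)) = Y ^ 13 := by
    rw [hY, ← Real.rpow_natCast, ← Real.rpow_mul (by linarith)]
  rw [hYm]
  have hXY : X ≤ Y := by
    conv_lhs => rw [← Real.rpow_one X]
    exact Real.rpow_le_rpow_of_exponent_le hX1 hB'1
  have hY1 : 1 ≤ Y := by linarith
  have h1 := nm_beta_le HY hx.β
  have he₀ := (mem_S (Real.exp_pos _).le).mp hx.e₀
  have h2 : (nm x.e₀ : ℝ) ≤ Y := he₀.1.trans HY.e0l
  have h3 : (1 : ℝ) ≤ nm (∏ i, x.β i) := one_le_nm' (T3_prim _ hx.β)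
  have h4 : (nm (∏ i, x.β i) : ℝ) ^ (1 / 2 : ℝ) ≤ nm (∏ i, x.β i) := by
    conv_rhs => rw [← Real.rpow_one (nm (∏ i, x.β i) : ℝ)]
    exact Real.rpow_le_rpow_of_exponent_le h3 (by norm_num)
  unfold E4U164.nrm
  calc (nm (∏ i, x.β i) : ℝ) ^ (1 / 2 : ℝ) * nm x.e₀ ≤ Y ^ 12 * Y := by
        have h5 := h4.trans h1
        gcongr
    _ = Y ^ 13 := by ring

/-- **the sizes of the consumer** -/
theorem szU {π : Λ → DPar} {h : ℝ → ℝ} {c : ℝ} (hh : PU h c) (hP : ∀ lam, (π lam).OK) {A : ℝ}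
    (d : ℝ) (hA : 2 / 3 ≤ A) (e0 r : ℝ) (Bf : ℝ → ℝ → ℝ → ℝ)
    {Jf : ℝ → ℝ → ℝ → Finset (Eis × Eis)} (hJf : ∀ l N z, OKJ (Jf l N z)) :
    SzU π h A d e0 r Bf Jf := by
  intro lam N B R hR
  set B₁ : ℝ := max B 3 with hB₁
  have hB3 : 3 ≤ B₁ := le_max_right _ _
  have hBB : B ≤ B₁ := le_max_left _ _
  obtain ⟨A₁, C₀, X₁, hA₁, hC₀, hX₁, H₁⟩ := dt_dat4 hh (d := d) hA e0 r Bf hJf lam (hP lam.1) N B 1 R hR
  obtain ⟨A₂, X₂, hA₂, hX₂, H₂⟩ := dt_sizes hh (d := d) hA e0 r Bf hJf lam (hP lam.1) N B R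
  obtain ⟨A₃, X₃, hA₃, hX₃, H₃⟩ := nrm_fam e0 r N (B := B₁) (by linarith)
  refine ⟨A₁ + A₂ + A₃, C₀, max X₁ (max X₂ X₃), by linarith, hC₀, lt_max_of_lt_left hX₁, ?_⟩
  intro X hX a ps q δ δ' hδ _ hF ha _ haP
  have hXX₁ : X₁ ≤ X := (le_max_left _ _).trans hX
  have hXX₂ : X₂ ≤ X := (le_max_left _ _).trans ((le_max_right _ _).trans hX)
  have hXX₃ : X₃ ≤ X := (le_max_right _ _).trans ((le_max_right _ _).trans hX)
  have hX1 : 1 < X := hX₁.trans_le hXX₁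
  have m1 : X ^ A₁ ≤ X ^ (A₁ + A₂ + A₃) :=
    Real.rpow_le_rpow_of_exponent_le hX1.le (by linarith)
  have m2 : X ^ A₂ ≤ X ^ (A₁ + A₂ + A₃) :=
    Real.rpow_le_rpow_of_exponent_le hX1.le (by linarith)
  have m3 : X ^ A₃ ≤ X ^ (A₁ + A₂ + A₃) :=
    Real.rpow_le_rpow_of_exponent_le hX1.le (by linarith)
  obtain ⟨⟨k1, kY, -, -, -⟩, HD⟩ := H₁ X hXX₁ δ δ' 1 hδ le_rfl a ps q hF ha haP
  obtain ⟨s1, s2, s3, s4, s5, s6, s7, s8⟩ := H₂ X hXX₂ δ δ' hδ a ps q hF ha haP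
  have hFr := fr_of_frL hA hδ hX1 hF ha haP hBB hB3
  refine ⟨⟨k1, kY.trans m1, s5.trans m2, ?_, s6.trans m2, s7.trans m2, s8.trans m2, ?_, ?_, ?_⟩,
    fun x hx h₁ h₂ => ?_⟩
  · rw [Fintype.card_fin] at s4
    exact s4.trans m2
  · intro g e₀ t hg hgd he₀ ht he₀l hβ x hx
    exact (s1 g e₀ t hg hgd he₀ ht he₀l hβ x hx).trans (Nat.floor_le_floor m2)
  · intro n m hn hm
    exact (s3 n m hn hm).trans (Nat.floor_le_floor m2)
  · intro g e₀ t hg hgd he₀ ht he₀l hβ q hq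
    exact (s2 g e₀ t hg hgd he₀ ht he₀l hβ q hq).2.trans m2
  · obtain ⟨g1, g2, g3, g4, -, -⟩ := HD x hx h₁ h₂
    exact ⟨dat4_mono g1 m1, g2, g3, fun hne => (g4 hne).trans m1,
      (H₃ X hXX₃ a ps hFr (π lam.1) Bf 1 X x hx).trans m3⟩

end Crest.Agent.R017.E4Us512
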