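import Crest.Agent.R017.E4Ux_512

/-!
# Row 17, R8 / E5, consumer of E4, class E : general sizes (helper512)

* `dat4_famG` : `dat4_fam` for arbitrary `α` and an arbitrary list on the `y`-side
* `sz_three` : the squarefree sequence of three typed pieces
* `N2_list` : the bound of `n m²` for lists
-/

set_option autoImplicit false

noncomputable section

open Finset Complex
open scoped ComplexConjugate

namespace Crest.Agent.R017.E4Us512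

open Crest.Agent.R012 Crest.Agent.R012.Eis
open Crest.Agent.R012.Mob705 hiding pb mem_pb
open Crest.Agent.R012.Div277
open Crest.Agent.R012.LS2 (S mem_S)
open Crest.Agent.R017.CM106 (CS FS sub)
open Crest.Agent.R017.FE47 (cx PU SM)
open Crest.Agent.R017.C70
open Crest.Agent.R017.HP842 (Pc pc alL)
open Crest.Agent.R017.End699 (HC)
open Crest.Agent.R017.E4352 (PrI Dat4)
open Crest.Agent.R017.E4D164
open Crest.Agent.R017.E2440 (Bth Bth_nonneg)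
open Crest.Agent.R017.E5k54 (PT alb)
open Crest.Agent.R017.SSb54 (PTb mem_PTb)
open Crest.Agent.R017.E5B71
open Crest.Agent.R017.B770 (DPar)
open Crest.Agent.R017.Prov71
open Crest.Agent.R017.E5L770
open Crest.Agent.R017.E4U164
open Crest.Agent.R017.E4K164 (dc dc_spec)

/-- **`Dat4`, the `U`-bound and the sizes, arbitrary `α` and arbitrary list on the `y`-side** -/
theorem dat4_famG {h : ℝ → ℝ} {c : ℝ} (hh : PU h c) {P : DPar} (hP : P.OK) (e0 r : ℝ) (N : ℕ)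
    {B : ℝ} (hB : 0 ≤ B) : ∃ A₀ C₀ X₀ : ℝ, 1 ≤ A₀ ∧ 1 ≤ C₀ ∧ 1 < X₀ ∧ ∀ X : ℝ, X₀ ≤ X →
    ∀ (a : Bd) (ps : List Pq) (i : ℕ), Fr X B N a ps i →
    ∀ (Bf : ℝ → ℝ → ℝ → ℝ) (Jf : ℝ → ℝ → ℝ → Finset (Eis × Eis)), OKJ (J3 Jf a i) →
    ∀ (t₀ : Eis) (bs : List Pq), bs.length ≤ N + 2 → (∀ p ∈ bs, p.z ≤ B * Real.log X) →
    ∀ (h₁ : FS (b1 P h t₀ ps)) (h₂ : FS (alL h (bs.map (Pt P t₀))))
      (I : Finset (Eis × (Eis × Eis))),
      (∀ k ∈ I, IsPrim k.1 ∧ (nm k.1 : ℝ) ≤ X ^ B ∧ k.2 ∈ J3 Jf a i) →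
    ∀ g : Eis, IsPrim g → g ∣ a.d₃ → ∀ β ∈ T3 Bf a r,
    ∀ e₀ : Eis, IsPrim e₀ → (nm e₀ : ℝ) ≤ Real.exp (e0 * a.l) →
    ∀ t : Eis, IsPrim t → t ∣ tS (a.e * ∏ j, β j) →
    ∀ α : Eis → ℂ, Sz α ((X ^ (1 + B + |e0| * B)) ^ 6) ((X ^ (1 + B + |e0| * B)) ^ 25) →
    ∀ (l : ℤ) (ψ : Eis → ℂ), HC P.n₃ ψ → ∀ ε : Eis → ℂ, (∀ q, ‖ε q‖ ≤ 1) →
    ∀ c₀ g' z : Eis, PrI P.n₃ g' → PrI P.n₃ z →
    Dat4 P.n₃ 1 (O := OU P.n₃ I (jS (sE (fun q => q ^ 2 * g) e₀ t))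
        (jJ (sE (fun q => q ^ 2 * g) e₀ t)))
      (fun o => (nm (o.1.1 * o.1.2) : ℝ))
      (fun o => vI P.n₃ (psE P.n₃ ψ (a.e * ∏ j, β j)) l (fN P.n₃ (a.e * ∏ j, β j))
        I (jS (sE (fun q => q ^ 2 * g) e₀ t)) jD
        (jJ (sE (fun q => q ^ 2 * g) e₀ t)) (jC (sE (fun q => q ^ 2 * g) e₀ t)
          (cE ε (omL i) α e₀)) c₀ g' o.1)
      (fun o => mulw (fN P.n₃ (a.e * ∏ j, β j)) (wI P.n₃ (b1 P h t₀ ps) (alL h (bs.map (Pt P t₀)))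
        (h₁.fin.toFinset ×ˢ h₂.fin.toFinset) z o.1)) (X ^ A₀) ∧
    (∀ V : ℝ, 0 ≤ V → (∀ k ∈ I, (nm (jJ (sE (fun q => q ^ 2 * g) e₀ t) k) : ℝ) *
        nm (jD k) ^ 2 * nm (jS (sE (fun q => q ^ 2 * g) e₀ t) k) ^ 2 ≤ V) →
      ∀ (o : OU P.n₃ I (jS (sE (fun q => q ^ 2 * g) e₀ t))
        (jJ (sE (fun q => q ^ 2 * g) e₀ t))) (x y : Eis),
      vI P.n₃ (psE P.n₃ ψ (a.e * ∏ j, β j)) l (fN P.n₃ (a.e * ∏ j, β j))
        I (jS (sE (fun q => q ^ 2 * g) e₀ t)) jD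
        (jJ (sE (fun q => q ^ 2 * g) e₀ t)) (jC (sE (fun q => q ^ 2 * g) e₀ t)
          (cE ε (omL i) α e₀)) c₀ g' o.1 x ≠ 0 →
      mulw (fN P.n₃ (a.e * ∏ j, β j)) (wI P.n₃ (b1 P h t₀ ps) (alL h (bs.map (Pt P t₀)))
        (h₁.fin.toFinset ×ˢ h₂.fin.toFinset) z o.1) y ≠ 0 →
      (nm (1 * x * y) : ℝ) * (nm (o.1.1 * o.1.2) : ℝ) ^ 2 ≤
        nm (fN P.n₃ (a.e * ∏ j, β j)) * V *
          (C₀ * Real.exp (lz (amL ps) + 2 * lz bs))) ∧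
    (nm (fN P.n₃ (a.e * ∏ j, β j)) : ℝ) ≤ X ^ A₀ ∧ (2 : ℝ) * 2 ^ i ≤ X ^ A₀ ∧
    Real.exp (lz (amL ps) + 2 * lz bs) ≤ X ^ A₀ ∧
    ∀ k ∈ I, (nm (sE (fun q => q ^ 2 * g) e₀ t k.1) : ℝ) ≤ X ^ A₀ := by
  obtain ⟨R, H, hR0, hH1, hR, hH⟩ := bdd_PU hh
  obtain ⟨Co, hCo, hom⟩ := omL_bdd
  have hBth := Bth_nonneg
  set B' : ℝ := 1 + B + |e0| * B with hB'
  have hB'1 : 1 ≤ B' := by
    have := mul_nonneg (abs_nonneg e0) hB
    rw [hB']; linarith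
  have hB'2 : B ≤ B' := by
    have := mul_nonneg (abs_nonneg e0) hB
    rw [hB']; linarith
  have hB'3 : |e0| * B ≤ B' := by rw [hB']; linarith
  have hER := Real.exp_pos R
  set C₀ : ℝ := Real.exp R ^ (3 * N + 4) with hC₀
  have hC₀1 : 1 ≤ C₀ := one_le_pow₀ (Real.one_le_exp hR0)
  refine ⟨B' * ((200 + 16 * N : ℕ) : ℝ), C₀,
    100 + Real.exp r + Real.exp R + H + Co + Bth, ?_, hC₀1, ?_, ?_⟩
  · have : (1 : ℝ) ≤ ((200 + 16 * N : ℕ) : ℝ) := by exact_mod_cast (by omega : 1 ≤ 200 + 16 * N)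
    nlinarith
  · have := Real.exp_pos r
    linarith
  intro X hX a ps i hFr Bf Jf hJ t₀ bs hbl hbz h₁ h₂ I hI g hg hgd β hβ e₀ he₀ he₀l t ht htd α hα l ψ hψ
    ε hε c₀ g' z hg' hz
  classical
  have her := Real.exp_pos r
  have hX100 : 100 ≤ X := by linarith
  have hX1 : 1 ≤ X := by linarith
  have HY := hFr.toY (e0 := e0) (r := r) hX100 (by linarith) hB'1 hB'2 hB'3
  set Y : ℝ := X ^ B' with hY
  have hXY : X ≤ Y := by
    conv_lhs => rw [← Real.rpow_one X]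
    exact Real.rpow_le_rpow_of_exponent_le hX1 hB'1
  have hXB : X ^ B ≤ Y := Real.rpow_le_rpow_of_exponent_le hX1 hB'2
  have hY1 : 1 ≤ Y := by linarith
  have hY0 : 0 ≤ Y := by linarith
  have hYm : X ^ (B' * ((200 + 16 * N : ℕ) : ℝ)) = Y ^ (200 + 16 * N) := by
    rw [hY, ← Real.rpow_natCast, ← Real.rpow_mul (by linarith)]
  rw [hYm]
  have hm : ∀ k, k ≤ 200 + 16 * N → Y ^ k ≤ Y ^ (200 + 16 * N) := fun k hk =>
    pow_le_pow_right₀ hY1 hk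
  set Q : Finset Eis := I.image Prod.fst with hQdef
  have hQY : ∀ q ∈ Q, IsPrim q ∧ (nm q : ℝ) ≤ Y := by
    intro q hq
    obtain ⟨k, hk, rfl⟩ := Finset.mem_image.mp hq
    exact ⟨(hI k hk).1, (hI k hk).2.1.trans hXB⟩
  have hIQ : ∀ k ∈ I, k.1 ∈ Q ∧ k.2 ∈ J3 Jf a i := fun k hk =>
    ⟨Finset.mem_image_of_mem _ hk, (hI k hk).2.2⟩
  have hE := nm_E_le HY hβ
  have hF : (nm (fN P.n₃ (a.e * ∏ j, β j)) : ℝ) ≤ Y ^ 26 := by
    refine (nm_fN_le hP.χ₃.q0 hE.1).trans ?_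
    calc (nm (a.e * ∏ j, β j) : ℝ) ^ 2 ≤ (Y ^ 13) ^ 2 := by
          have := hE.2
          gcongr
      _ = Y ^ 26 := by ring
  have hS : ∀ q ∈ Q, (nm (sE (fun q => q ^ 2 * g) e₀ t q) : ℝ) ≤ Y ^ 17 := fun q hq =>
    nm_S_le HY hβ (hQY q hq).1 (hQY q hq).2 hg hgd he₀ he₀l ht htd
  have hb₁ : Sz (b1 P h t₀ ps) (Real.exp R ^ N * Real.exp (lz (amL ps)))
      ((100 * Real.exp R * H) ^ N * Real.exp (lz (amL ps))) :=
    sz_side hP hR0 hR hH1 hH t₀ ((len_am ps).trans hFr.len)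
  have hb₂ : Sz (alL h (bs.map (Pt P t₀))) (Real.exp R ^ (N + 2) * Real.exp (lz bs))
      ((100 * Real.exp R * H) ^ (N + 2) * Real.exp (lz bs)) :=
    sz_side hP hR0 hR hH1 hH t₀ hbl
  have hRY : Real.exp R ≤ Y := by linarith
  have hUY : 100 * Real.exp R * H ≤ Y ^ 3 := by
    calc 100 * Real.exp R * H ≤ Y * Y * Y := by
          have h1 : (100 : ℝ) ≤ Y := by linarith
          have h2 : H ≤ Y := by linarith
          gcongr
      _ = Y ^ 3 := by ring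
  have hU0 : 0 ≤ 100 * Real.exp R * H := by positivity
  have hk : ∀ k, k ≤ 25 + 4 * N → Y ^ k ≤ Y ^ (25 + 4 * N) := fun k hk =>
    pow_le_pow_right₀ hY1 hk
  have he1 := exp_am_le HY
  have he2 : Real.exp (lz bs) ≤ Y ^ (N + 2) := exp_lz_le hY1 hbl fun p hp => by
    have h1 : p.z ≤ B' * Real.log X := (hbz p hp).trans
      (mul_le_mul_of_nonneg_right hB'2 (Real.log_nonneg hX1))
    rw [hY, Real.rpow_def_of_pos (by linarith), mul_comm]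
    exact Real.exp_le_exp.2 h1
  have hb₁' : Sz (b1 P h t₀ ps) (Y ^ (25 + 4 * N)) (Y ^ (25 + 4 * N)) := by
    refine hb₁.mono ?_ ?_
    · calc Real.exp R ^ N * Real.exp (lz (amL ps)) ≤ Y ^ N * Y ^ N := by gcongr
        _ = Y ^ (2 * N) := by rw [← pow_add]; congr 1; ring
        _ ≤ _ := hk _ (by omega)
    · calc (100 * Real.exp R * H) ^ N * Real.exp (lz (amL ps)) ≤ (Y ^ 3) ^ N * Y ^ N := by gcongr
        _ = Y ^ (4 * N) := by rw [← pow_mul, ← pow_add]; congr 1; ring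
        _ ≤ _ := hk _ (by omega)
  have hb₂' : Sz (alL h (bs.map (Pt P t₀))) (Y ^ (25 + 4 * N)) (Y ^ (25 + 4 * N)) := by
    refine hb₂.mono ?_ ?_
    · calc Real.exp R ^ (N + 2) * Real.exp (lz bs) ≤ Y ^ (N + 2) * Y ^ (N + 2) := by gcongr
        _ = Y ^ (2 * N + 4) := by rw [← pow_add]; congr 1; ring
        _ ≤ _ := hk _ (by omega)
    · calc (100 * Real.exp R * H) ^ (N + 2) * Real.exp (lz bs)
          ≤ (Y ^ 3) ^ (N + 2) * Y ^ (N + 2) := by gcongr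
        _ = Y ^ (4 * N + 8) := by rw [← pow_mul, ← pow_add]; congr 1; ring
        _ ≤ _ := hk _ (by omega)
  have hL : ∀ x ∈ J3 Jf a i, (nm (x.2 * x.1 ^ 2) : ℝ) ≤ 2 * 2 ^ i := fun x hx =>
    mem_J3_le hx (mul_ne_zero (E4K164.jc_ne_zero (hJ.jc x hx))
      (pow_ne_zero 2 (hJ.prim x hx).ne_zero))
  have hsp : ∀ q ∈ Q, IsPrim (q ^ 2 * g) := fun q hq => ((hQY q hq).1.pow 2).mul hg
  have hi2 : (2 : ℝ) * 2 ^ i ≤ Y ^ 2 := by
    calc (2 : ℝ) * 2 ^ i ≤ Y * Y := by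
          have := HY.lv
          have h2 : (2 : ℝ) ≤ Y := by linarith
          gcongr
      _ = Y ^ 2 := by ring
  have hJc : ((J3 Jf a i).card : ℝ) ≤ Y ^ 6 := by
    refine (card_J3_le hJ).trans ?_
    have h1 : (100 : ℝ) ≤ Y := by linarith
    calc 100 * (2 * 2 ^ i) * (100 * (2 * 2 ^ i)) ≤ Y * Y ^ 2 * (Y * Y ^ 2) := by gcongr
      _ = Y ^ 6 := by ring
  refine ⟨?_, ?_, hF.trans (hm _ (by omega)), hi2.trans (hm _ (by omega)), ?_, ?_⟩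
  · have h8 := dat4_Y hψ l (25 + 4 * N) (by linarith) (by linarith) hJ hJc
      (fun x hx => (hL x hx).trans hi2)
      (fun k hk => ⟨(hI k hk).1, (hI k hk).2.1.trans hXB, (hI k hk).2.2⟩)
      (fun k hk => hsp _ (hIQ k hk).1) hε hCo (by linarith) (fun x _ => hom i x) h₁ h₂ hb₁' hb₂'
      hE.1 hF (hα.mono (hk _ (by omega)) (hk _ (by omega))) he₀ ht (c₀ := c₀) hg' hz
      (fun k hk => hS _ (hIQ k hk).1)
    have e4 : Y ^ (200 + 16 * N) = Y ^ (100 + 4 * (25 + 4 * N)) := by congr 1; ring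
    rw [e4]
    exact h8
  · intro V hV0 hV o x y hx hy
    have h9 := ub_gen hψ.q0 l (Q := Q) (s := fun q => q ^ 2 * g) hsp hJ hIQ hb₁ hb₂
      (by positivity) hE.1 he₀ ht hg'.1 hz.1 hV0 hV _ o x y hx hy
    refine h9.trans (le_of_eq ?_)
    have e2 : Real.exp (lz (amL ps) + 2 * lz bs) =
        Real.exp (lz (amL ps)) * Real.exp (lz bs) ^ 2 := by
      rw [Real.exp_add, ← Real.exp_nat_mul]
      norm_num
    have e3 : Real.exp R ^ (3 * N + 4) = Real.exp R ^ N * (Real.exp R ^ (N + 2)) ^ 2 := by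
      rw [← pow_mul, ← pow_add]; congr 1; ring
    rw [e2, hC₀, e3]
    ring
  · calc Real.exp (lz (amL ps) + 2 * lz bs)
        = Real.exp (lz (amL ps)) * Real.exp (lz bs) ^ 2 := by
          rw [Real.exp_add, ← Real.exp_nat_mul]
          norm_num
      _ ≤ Y ^ N * (Y ^ (N + 2)) ^ 2 := by gcongr
      _ = Y ^ (3 * N + 4) := by rw [← pow_mul, ← pow_add]; congr 1; ring
      _ ≤ _ := hm _ (by omega)
  · intro k hk
    exact (hS _ (hIQ k hk).1).trans (hm _ (by omega))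


/-- three typed pieces -/
lemma sz_three {h : ℝ → ℝ} {P : DPar} (hP : P.OK) {R H : ℝ}
    (hR : ∀ u, cx h u ≠ 0 → |u| ≤ R) (hH : ∀ u, ‖cx h u‖ ≤ H) {Y : ℝ} (hY : 100 ≤ Y)
    (hRY : Real.exp R ≤ Y) (hHY : H ≤ Y) (t₀ : Eis) {us : Fin 3 → Pq}
    (hus : ∀ j, Real.exp (us j).z ≤ Y) {β : Fin 3 → Eis} (hβ : ∀ j, IsPrim (β j)) :
    Sz (alb (fun j => pc h (Pt P t₀ (us j))) β) (Y ^ 6) (Y ^ 24) := by
  have hY0 : 0 ≤ Y := by linarith
  have hf : ∀ j, Sz (pc h (Pt P t₀ (us j))) (Y ^ 2) Y := by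
    intro j
    refine (sz_pc hR hH (p := Pt P t₀ (us j)) (ok_Pt P t₀ hP _)).mono ?_ hHY
    have h5 : (Pt P t₀ (us j)).Y = Real.exp (us j).z := rfl
    rw [h5, pow_two]
    exact mul_le_mul hRY (hus j) (Real.exp_pos _).le hY0
  refine (sz_alb hf (fun _ => by positivity) hβ).mono (le_of_eq ?_) ?_
  · rw [prod_const, card_univ, Fintype.card_fin]; ring
  · rw [prod_const, card_univ, Fintype.card_fin]
    calc (100 * (Y ^ 2) ^ 3) ^ 3 * Y ^ 3 ≤ (Y * (Y ^ 2) ^ 3) ^ 3 * Y ^ 3 := by gcongr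
      _ = Y ^ 24 := by ring

/-- **`N(n m²)` for a list on the `y`-side** -/
theorem N2_list {h : ℝ → ℝ} {c : ℝ} (hh : PU h c) {P : DPar} (hP : P.OK) (N : ℕ) {B : ℝ}
    (hB : 0 ≤ B) : ∃ A₀ X₀ : ℝ, 1 ≤ A₀ ∧ 1 < X₀ ∧ ∀ X : ℝ, X₀ ≤ X →
    ∀ (a : Bd) (ps : List Pq) (i : ℕ), Fr X B N a ps i → ∀ (t₀ : Eis) (bs : List Pq),
      bs.length ≤ N + 2 → (∀ p ∈ bs, p.z ≤ B * Real.log X) → ∀ n m : Eis,
      b1 P h t₀ ps n ≠ 0 → alL h (bs.map (Pt P t₀)) m ≠ 0 → nm (n * m ^ 2) ≤ ⌊X ^ A₀⌋₊ := by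
  obtain ⟨R, H, hR0, hH1, hR, hH⟩ := bdd_PU hh
  have hER := Real.exp_pos R
  refine ⟨(1 + B) * ((8 + 6 * N : ℕ) : ℝ), 100 + Real.exp R, ?_, by linarith, ?_⟩
  · have : (1 : ℝ) ≤ ((8 + 6 * N : ℕ) : ℝ) := by exact_mod_cast (by omega : 1 ≤ 8 + 6 * N)
    nlinarith
  intro X hX a ps i hFr t₀ bs hbl hbz n m hn hm
  have hX1 : 1 ≤ X := by linarith
  have hX0 : 0 < X := by linarith
  have HY := hFr.toY (e0 := 0) (r := 0) (B' := 1 + B) (by linarith) (by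
    rw [Real.exp_zero]; linarith) (by linarith) (by linarith) (by simp; linarith)
  set Y : ℝ := X ^ (1 + B) with hY
  have hXY : X ≤ Y := by
    conv_lhs => rw [← Real.rpow_one X]
    exact Real.rpow_le_rpow_of_exponent_le hX1 (by linarith)
  have hY1 : 1 ≤ Y := by linarith
  have he2 : Real.exp (lz bs) ≤ Y ^ (N + 2) := exp_lz_le hY1 hbl fun p hp => by
    have h1 : p.z ≤ (1 + B) * Real.log X := (hbz p hp).trans
      (mul_le_mul_of_nonneg_right (by linarith) (Real.log_nonneg hX1))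
    rw [hY, Real.rpow_def_of_pos hX0, mul_comm]
    exact Real.exp_le_exp.2 h1
  have he1 := exp_am_le HY
  have hb₁ : Sz (b1 P h t₀ ps) (Real.exp R ^ N * Real.exp (lz (amL ps)))
      ((100 * Real.exp R * H) ^ N * Real.exp (lz (amL ps))) :=
    sz_side hP hR0 hR hH1 hH t₀ ((len_am ps).trans hFr.len)
  have hb₂ : Sz (alL h (bs.map (Pt P t₀))) (Real.exp R ^ (N + 2) * Real.exp (lz bs))
      ((100 * Real.exp R * H) ^ (N + 2) * Real.exp (lz bs)) :=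
    sz_side hP hR0 hR hH1 hH t₀ hbl
  have h3 := hb₁.le n hn
  have h4 := hb₂.le m hm
  have hRY : Real.exp R ≤ Y := by linarith
  refine Nat.le_floor ?_
  rw [nm_mul, nm_pow]
  push_cast
  calc (nm n : ℝ) * nm m ^ 2 ≤ (Real.exp R ^ N * Real.exp (lz (amL ps))) *
        (Real.exp R ^ (N + 2) * Real.exp (lz bs)) ^ 2 := by gcongr
    _ ≤ (Y ^ N * Y ^ N) * (Y ^ (N + 2) * Y ^ (N + 2)) ^ 2 := by gcongr
    _ = Y ^ (8 + 6 * N) := by
        rw [← pow_add, ← pow_add, ← pow_mul, ← pow_add]; congr 1; ring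
    _ = _ := by
        rw [hY]
        push_cast
        rw [← Real.rpow_natCast, ← Real.rpow_mul hX0.le]
        push_cast
        rfl

end Crest.Agent.R017.E4Us512
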