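import Crest.Agent.R017.E4Ub_164
import Crest.Agent.R017.E5L2_770

/-!
# Row 17, R8 / E4: the outer set in one dyadic class (helper699)

* `DyD` : all `q ∈ 𝒟` in one dyadic class
* `midF_bj` : `MidF` is at most the sum over the dyadic classes
* `ub_dyD` : the uniform bound for one dyadic class suffices
-/

set_option autoImplicit false

noncomputable section

open Finset Complex Filter Topology
open scoped ComplexConjugate

namespace Crest.Agent.R017.E4W699

open Crest.Agent.R012 Crest.Agent.R012.Eis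
open Crest.Agent.R012.Mob705 hiding pb mem_pb
open Crest.Agent.R017.Sx545 (Sm)
open Crest.Agent.R017.FE47 (SM)
open Crest.Agent.R017.B770 Crest.Agent.R017.Prov71
open Crest.Agent.R017.XT71 (Sys Win)
open Crest.Agent.R017.E5P571 (MS Gd mem_Gd PC BB)
open Crest.Agent.R017.E5B71
open Crest.Agent.R017.E5L770
open Crest.Agent.R017.E4U164 (MS_zero)

/-- the norm of `q` in the `j`-th dyadic window -/
def inQ (j : ℕ) (q : Eis) : Prop := (2 : ℝ) ^ j ≤ nm q ∧ (nm q : ℝ) < 2 ^ (j + 1)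

/-- the outer set lies in one dyadic class -/
def DyD (a : Bd) : Prop := ∃ j : ℕ, ∀ q ∈ a.𝒟, inQ j q

open Classical in
/-- the base with the outer set restricted to the class `j` -/
def bj (a : Bd) (j : ℕ) : Bd := { a with 𝒟 := a.𝒟.filter (inQ j) }

lemma dyD_bj (a : Bd) (j : ℕ) : DyD (bj a j) := ⟨j, fun q hq => by
  classical
  exact (Finset.mem_filter.mp hq).2⟩

lemma inQ_log {q : Eis} (hq : q ≠ 0) : inQ (Nat.log 2 (nm q)) q := by
  have h1 : nm q ≠ 0 := by
    have := nm_pos.2 hq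
    omega
  constructor
  · have := Nat.pow_log_le_self 2 h1
    exact_mod_cast this
  · have := Nat.lt_pow_succ_log_self (b := 2) one_lt_two (nm q)
    exact_mod_cast this

lemma sum_le_classes {D : Finset Eis} {f : Eis → ℝ} (hf : ∀ q ∈ D, 0 ≤ f q) {J : ℕ}
    (hJ : ∀ q ∈ D, f q ≠ 0 → ∃ j ∈ range J, inQ j q) [∀ j, DecidablePred (inQ j)] :
    ∑ q ∈ D, f q ≤ ∑ j ∈ range J, ∑ q ∈ D.filter (inQ j), f q := by
  simp_rw [Finset.sum_filter]
  rw [Finset.sum_comm]
  refine Finset.sum_le_sum fun q hq => ?_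
  by_cases h0 : f q = 0
  · rw [h0]
    exact Finset.sum_nonneg fun j _ => by split_ifs <;> exact le_rfl
  · obtain ⟨j, hj, hjq⟩ := hJ q hq h0
    refine le_trans (le_of_eq ?_) (Finset.single_le_sum
      (f := fun j => if inQ j q then f q else 0) (fun i _ => by
        show 0 ≤ if inQ i q then f q else 0
        split_ifs
        · exact hf q hq
        · exact le_rfl) hj)
    show f q = if inQ j q then f q else 0
    rw [if_pos hjq]

variable {Λ : Type*}

open Classical in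
/-- **the split of the outer set** -/
theorem midF_bj {π : Λ → DPar} {h : ℝ → ℝ} {Sf : SF Λ} {lam : Λ × Eis} {a : Bd} {ps : List Pq}
    {R : ℝ} (hU : ∀ y, R < y → (π lam.1).U y = 0) {J : ℕ}
    (hJ : ∀ q : Eis, q ≠ 0 → (nm q : ℝ) ^ 2 ≤ R * Real.exp a.l → Nat.log 2 (nm q) < J) :
    MidF π h Sf lam a ps ≤ ∑ j ∈ range J, MidF π h Sf lam (bj a j) ps := by
  have hnn : ∀ a', 0 ≤ MidF π h Sf lam a' ps := by
    intro a'
    unfold MidF
    split_ifs
    · exact Finset.sum_nonneg fun _ _ => Finset.sum_nonneg fun _ _ => norm_nonneg _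
    · exact le_rfl
  by_cases hcond : a.ok ∧ lam.2 ∈ SM (π lam.1).n ∧ a.okP (π lam.1)
  swap
  · have : MidF π h Sf lam a ps = 0 := by unfold MidF; rw [if_neg hcond]
    rw [this]
    exact Finset.sum_nonneg fun j _ => hnn _
  have hcj : ∀ j, (bj a j).ok ∧ lam.2 ∈ SM (π lam.1).n ∧ (bj a j).okP (π lam.1) := fun j =>
    ⟨hcond.1, hcond.2.1, hcond.2.2.1, hcond.2.2.2.1, fun q hq =>
      hcond.2.2.2.2 q (Finset.mem_filter.mp hq).1⟩
  set f : Eis → ℝ := fun q => ∑ g ∈ Gd (π lam.1).n a.d₃,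
      ‖MS (π lam.1).n (Wt (π lam.1) a) a.e (fun k => Sf.at lam a k *
        BB h ((bs2 a ps).map (Pt (π lam.1) lam.2)) ((amL ps).map (Pt (π lam.1) lam.2)) [] k)
          (q ^ 2 * g)‖ with hf
  have e1 : MidF π h Sf lam a ps = ∑ q ∈ a.𝒟.filter (fun q => IsCoprime q a.d₃), f q := by
    unfold MidF
    rw [if_pos hcond]
  have e2 : ∀ j, MidF π h Sf lam (bj a j) ps =
      ∑ q ∈ (a.𝒟.filter (fun q => IsCoprime q a.d₃)).filter (inQ j), f q := by
    intro j
    unfold MidF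
    rw [if_pos (hcj j)]
    have : (bj a j).𝒟.filter (fun q => IsCoprime q (bj a j).d₃) =
        (a.𝒟.filter (fun q => IsCoprime q a.d₃)).filter (inQ j) := by
      show (a.𝒟.filter (inQ j)).filter (fun q => IsCoprime q a.d₃) = _
      rw [Finset.filter_filter, Finset.filter_filter]
      exact Finset.filter_congr fun q _ => and_comm
    rw [this]
    rfl
  rw [e1, Finset.sum_congr rfl fun j _ => e2 j]
  refine sum_le_classes (fun q _ => Finset.sum_nonneg fun _ _ => norm_nonneg _) fun q hq hne => ?_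
  have hqp : IsPrim q := (hcond.2.2.2.2 q (Finset.mem_filter.mp hq).1).1.1
  refine ⟨Nat.log 2 (nm q), Finset.mem_range.mpr (hJ q hqp.ne_zero ?_), inQ_log hqp.ne_zero⟩
  by_contra hbig
  push Not at hbig
  apply hne
  refine Finset.sum_eq_zero fun g hg => ?_
  have hgm := (mem_Gd hcond.1.2.2).mp hg
  have hg0 : g ≠ 0 := hgm.1.1.ne_zero
  rw [norm_eq_zero]
  refine MS_zero fun k hk _ hd => ?_
  have hk0 : k ≠ 0 := hk.ne_zero
  have h1 : nm (q ^ 2 * g) ≤ nm k := by
    obtain ⟨m, rfl⟩ := hd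
    have hm : m ≠ 0 := right_ne_zero_of_mul hk0
    rw [nm_mul (q ^ 2 * g) m]
    exact Nat.le_mul_of_pos_right _ (nm_pos.2 hm)
  have h2 : (nm q : ℝ) ^ 2 ≤ nm k := by
    have h3 : nm (q ^ 2 * g) = nm q ^ 2 * nm g := by rw [nm_mul, pow_two, nm_mul, pow_two]
    have h4 : 1 ≤ nm g := nm_pos.2 hg0
    have h5 : nm q ^ 2 ≤ nm k := by
      calc nm q ^ 2 = nm q ^ 2 * 1 := (mul_one _).symm
        _ ≤ nm q ^ 2 * nm g := Nat.mul_le_mul_left _ h4
        _ ≤ nm k := h3 ▸ h1
    exact_mod_cast h5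
  have h3 : R < (nm k : ℝ) / Real.exp a.l := by
    rw [lt_div_iff₀ (Real.exp_pos _)]
    linarith
  unfold Wt SU770.DPar.wp
  rw [hU _ h3, mul_zero]

/-- **one dyadic class of the outer set suffices** -/
theorem ub_dyD {π : Λ → DPar} {h : ℝ → ℝ} (hP : ∀ lam, (π lam).OK) {Sf : ℕ → SF Λ}
    {Dom : Set ((Option (Fin 3 ⊕ Fin 5) → ℝ) × (Kd → ℝ))} {M : ℝ}
    (hM : ∀ q ∈ Dom, cκ (dn q.1) ≤ M)
    {al : Set ((Option (Fin 3 ⊕ Fin 5) → ℝ) × ℝ)}
    {E : (Option (Fin 3 ⊕ Fin 5) → ℝ) × (Kd → ℝ) → ℝ}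
    (H : UB (lev (Real.log 2) S5) Dq (fun lam a ps => by
      classical exact if DyD a.1 then MidF π h (Sf a.2) lam a.1 ps else 0) Dom al E) :
    UB (lev (Real.log 2) S5) Dq (fun lam a ps => MidF π h (Sf a.2) lam a.1 ps) Dom al E := by
  classical
  intro ε hε
  obtain ⟨δ, hδ, H1⟩ := H (ε / 2) (half_pos hε)
  refine ⟨δ, hδ, fun lam N B => ?_⟩
  obtain ⟨δ', hδ', X₀, hX₀, H2⟩ := H1 lam N B
  obtain ⟨R, hR1, hU⟩ : ∃ R : ℝ, 1 ≤ R ∧ ∀ y, R < y → (π lam.1).U y = 0 := by
    obtain ⟨C, hC⟩ := (hP lam.1).U.cpt.isBounded.exists_norm_le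
    refine ⟨max 1 C, le_max_left _ _, fun y hy => ?_⟩
    by_contra h0
    have h1 := hC y (subset_tsupport _ h0)
    rw [Real.norm_eq_abs] at h1
    have h2 := le_abs_self y
    have h3 := le_max_right 1 C
    linarith
  -- the number of classes
  obtain ⟨X₁, hX₁⟩ := eventually_atTop.1 (ev_levels ((|M| + δ) / (2 * Real.log 2))
    (Real.log R / (2 * Real.log 2) + 1) (half_pos hε))
  refine ⟨δ', hδ', max X₀ X₁, lt_of_lt_of_le hX₀ (le_max_left _ _), ?_⟩
  intro X hX a ps h1 h2 q hq hw hm hg hl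
  have hXX : X₀ ≤ X := (le_max_left _ _).trans hX
  have hX1 : 1 < X := hX₀.trans_le hXX
  have e1 := hX₁ X ((le_max_right _ _).trans hX)
  have hlog : 0 < Real.log X := Real.log_pos hX1
  have h2l : 0 < Real.log 2 := Real.log_pos one_lt_two
  have hR0 : 0 < R := by linarith
  -- the length of the family
  have hal : a.1.l ≤ (|M| + δ) * Real.log X := by
    have h3 := hw.ev (some (Sum.inl 0))
    have h4 : a.1.l / Real.log X - q.1 (some (Sum.inl 0)) ≤ δ := (le_abs_self _).trans h3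
    have h5 : q.1 (some (Sum.inl 0)) ≤ M := hM q hq
    have h6 : a.1.l / Real.log X ≤ |M| + δ := by have := le_abs_self M; linarith
    rwa [div_le_iff₀ hlog] at h6
  set y : ℝ := Real.log (R * Real.exp a.1.l) / (2 * Real.log 2) with hy
  set J : ℕ := ⌊y⌋₊ + 1 with hJdef
  have hK : 0 < R * Real.exp a.1.l := mul_pos hR0 (Real.exp_pos _)
  have hJ : ∀ q : Eis, q ≠ 0 → (nm q : ℝ) ^ 2 ≤ R * Real.exp a.1.l → Nat.log 2 (nm q) < J := by
    intro q hq0 hqK
    have h3 := (inQ_log hq0).1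
    have h4 : (1 : ℝ) ≤ nm q := by exact_mod_cast nm_pos.2 hq0
    have h5 : (Nat.log 2 (nm q) : ℝ) * Real.log 2 ≤ Real.log (nm q) := by
      have := Real.log_le_log (by positivity) h3
      rwa [Real.log_pow] at this
    have h6 : 2 * Real.log (nm q) ≤ Real.log (R * Real.exp a.1.l) := by
      have := Real.log_le_log (by positivity) hqK
      rwa [Real.log_pow, Nat.cast_ofNat] at this
    have h7 : (Nat.log 2 (nm q) : ℝ) ≤ y := by
      rw [hy, le_div_iff₀ (by positivity)]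
      nlinarith
    have h8 : Nat.log 2 (nm q) ≤ ⌊y⌋₊ := Nat.le_floor h7
    omega
  have hsum := midF_bj (h := h) (Sf := Sf a.2) (ps := ps) hU hJ
  have hJX : (J : ℝ) ≤ X ^ (ε / 2) := by
    refine le_trans ?_ e1
    have h3 : Real.log (R * Real.exp a.1.l) = Real.log R + a.1.l := by
      rw [Real.log_mul hR0.ne' (Real.exp_pos _).ne', Real.log_exp]
    have hLR : 0 ≤ Real.log R := Real.log_nonneg hR1
    have h4 : y ≤ (Real.log R + (|M| + δ) * Real.log X) / (2 * Real.log 2) := by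
      rw [hy, h3]
      exact div_le_div_of_nonneg_right (by linarith) (by positivity)
    have h5 : 0 ≤ (Real.log R + (|M| + δ) * Real.log X) / (2 * Real.log 2) := by positivity
    have h6 : ((⌊y⌋₊ : ℕ) : ℝ) ≤ (Real.log R + (|M| + δ) * Real.log X) / (2 * Real.log 2) := by
      rcases le_total 0 y with h7 | h7
      · exact (Nat.floor_le h7).trans h4
      · rw [Nat.floor_of_nonpos h7]; simpa using h5
    rw [hJdef]
    push_cast
    calc ((⌊y⌋₊ : ℕ) : ℝ) + 1 ≤ (Real.log R + (|M| + δ) * Real.log X) / (2 * Real.log 2) + 1 := by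
          linarith
      _ = _ := by ring
  have hX0 : 0 < X := by linarith
  calc MidF π h (Sf a.2) lam a.1 ps ≤ ∑ j ∈ range J, MidF π h (Sf a.2) lam (bj a.1 j) ps := hsum
    _ ≤ ∑ j ∈ range J, X ^ (E q + ε / 2) := by
        refine Finset.sum_le_sum fun j _ => ?_
        have h3 := H2 X hXX (bj a.1 j, a.2) ps h1 h2 q hq
          ⟨hw.ev, hw.g, hw.n, hw.s₁, hw.s₂⟩ hm hg hl
        simp only [if_pos (dyD_bj a.1 j)] at h3
        exact h3
    _ = (J : ℝ) * X ^ (E q + ε / 2) := by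
        rw [Finset.sum_const, card_range, nsmul_eq_mul]
    _ ≤ X ^ (ε / 2) * X ^ (E q + ε / 2) :=
        mul_le_mul_of_nonneg_right hJX (Real.rpow_nonneg hX0.le _)
    _ = X ^ (E q + ε) := by
        rw [← Real.rpow_add hX0]; congr 1; ring

end Crest.Agent.R017.E4W699
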