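import Crest.Agent.R017.E4zz_92

/-!
# Row 17, block C70, leaf E4 (x-side): the sum of the cells (helper92)

* `XF`       : the fixed data of a family of cells
* `XF.vec`   : the sizes of a cell
* `cls_sum`  : the sum over one class of cells
-/

set_option autoImplicit false
set_option linter.unusedVariables false
set_option maxHeartbeats 400000

noncomputable section

open Complex
open scoped ComplexConjugate

namespace Crest.Agent.R017.E4X92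

open Crest.Agent.R012 Crest.Agent.R012.Eis Crest.Agent.R012.MC
open Crest.Agent.R012.LS2 (S mem_S)
open Crest.Agent.R012.Div277 (dvs mem_dvs isPrim_of_mem_dvs dvd_of_mem_dvs tau tau_le_rpow)
open Crest.Agent.R017.CM106 (CS FS)
open Crest.Agent.R017.C70 (CbF)
open Crest.Agent.R017.PX764 (n6 th)
open Crest.Agent.R017.E3D579 (b0 bt bF)
open Crest.Agent.R017.E4579 (SupB bpt bco bpt_prim)
open Crest.Agent.R017.E4v92 (FF WW)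
open Crest.Agent.R017.E4z92 (OKs cZ QQ RQ norm_cZ_le As Ss)
open Crest.Agent.R017.E4zz92
open Crest.Agent.R017.E4F266 (IP)
open Crest.Agent.R017.E3q681 (TW AQ SA)
open Finset

/-! ### dyadic sizes -/

/-- the dyadic size -/
def lg (x : Eis) : ℕ := Nat.log 2 (nm x)

lemma pow_lg_le {x : Eis} (hx : x ≠ 0) : (2 : ℝ) ^ lg x ≤ nm x := by
  have := Nat.pow_log_le_self 2 (nm_pos.mpr hx).ne'
  unfold lg
  exact_mod_cast this

lemma le_pow_lg (x : Eis) : (nm x : ℝ) ≤ 2 * 2 ^ lg x := by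
  have h := (Nat.lt_pow_succ_log_self (b := 2) one_lt_two (nm x)).le
  unfold lg
  rw [pow_succ] at h
  calc (nm x : ℝ) ≤ ((2 ^ Nat.log 2 (nm x) * 2 : ℕ) : ℝ) := by exact_mod_cast h
    _ = _ := by push_cast; ring

lemma TW_mono {e X X' : ℝ} (b : Eis → ℂ) (h : X ≤ X') : TW e X b ≤ TW e X' b := by
  unfold E3q681.TW
  refine sum_le_sum_of_subset_of_nonneg (fun j hj => ?_) fun _ _ _ => by positivity
  obtain ⟨h1, h2⟩ := mem_primBall.mp hj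
  exact mem_primBall.mpr ⟨h1.trans (Nat.floor_mono h), h2⟩

/-! ### the data -/

/-- the fixed data -/
structure XF where
  (M c₀ g₁ g₂ F0 q R D q₁ q₂ e₀ : Eis)
  J : Finset (Eis × Eis)
  om : Eis × Eis → ℂ
  Om : ℝ → ℂ
  α : Eis → ℂ
  (gg g₀ : Eis → ℂ)
  Sf : Eis → Eis
  (V κ X Y : ℝ)

/-- the frame of the count -/
def XF.fr (x : XF) : Fr := ⟨x.F0, x.g₁, x.g₂, x.Sf, fun _ _ => x.R⟩

/-- the conductor -/
def XF.FFa (x : XF) (a : Tu) : Eis := FF (x.Sf a.q) x.c₀ x.g₁ a.ν (a.us * a.τ)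

/-- the length of the array at `δ` -/
def XF.nn (x : XF) (a : Tu) (δ : Eis) : ℝ :=
  x.V / (nm (x.FFa a) * (nm (x.g₂ * (a.w * (a.g * δ))) : ℝ) ^ 2 * (nm a.u * nm a.h))

/-- the coefficient of the array -/
def XF.cz (x : XF) (bm : Eis → ℂ) (k : ℂ) (κ' : Eis → ℂ) (a : Tu) (i : Eis × Eis) : ℂ :=
  cZ bm k x.M x.c₀ x.g₁ x.g₂ a.ν (x.Sf a.q) x.q₁ x.q₂ x.D x.R a.s x.q a.us a.u a.w a.τ x.g₀ κ'
    a.g a.h i

/-- the inner coefficient -/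
def XF.cf (x : XF) (a : Tu) (δ : Eis) : Eis → ℂ :=
  bF (a.h * a.u) 1 (b0 (fun m => x.α (x.g₂ * (a.w * (a.g * δ)) * m)) (x.g₂ * (a.w * (a.g * δ)))
    x.e₀ (x.FFa a))

/-- the array -/
def XF.ar (x : XF) (bm : Eis → ℂ) (k : ℂ) (κ' : Eis → ℂ) (a : Tu) (i : Eis × Eis) : Eis → ℂ :=
  SA x.g₀ (x.cz bm k κ' a i) (QQ x.c₀ x.g₁ a.us a.τ x.q₁ x.q₂ x.D a.s)
    (fun y => WW (x.Sf a.q) x.c₀ x.g₁ x.g₂ a.ν (a.us * a.τ) x.Om (a.w * (a.g * i.1))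
      (nm a.u * (nm a.h * y)))
    (RQ (x.Sf a.q) x.M a.ν a.u x.q a.s x.D (a.g * i.1) * (a.h * i.2) * a.h)
    (x.cf a i.1)

/-- the sizes -/
def XF.vec (x : XF) (a : Tu) (nδ nμ : ℕ) : Fin 12 → ℕ :=
  ![lg (x.Sf a.q), lg a.ν, lg (bpt (x.Sf a.q) a.ν), lg (PP (x.Sf a.q) x.g₁ a.ν (a.us * a.τ)),
    lg a.s, lg (a.us * a.τ), lg a.u, lg a.w, lg a.g, lg a.h, nδ, nμ]

/-- the divisor of a class -/
def XF.En (x : XF) (n : Fin 12 → ℕ) : ℝ := nm x.g₂ * (2 ^ n 7 * (2 ^ n 8 * 2 ^ n 10))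

/-- the frequency of a class -/
def XF.Jn (x : XF) (n : Fin 12 → ℕ) : ℝ := 2 ^ n 3 * (2 ^ n 9 * 2 ^ n 6)

/-- the length of a class -/
def XF.Nn (x : XF) (n : Fin 12 → ℕ) : ℝ := x.V / (nm x.c₀ * x.Jn n * x.En n ^ 2)

/-- the level of a class -/
def XF.Ln (x : XF) (cw : ℝ) (n : Fin 12 → ℕ) : ℝ := 8 * cw * x.V / (nm x.c₀ * x.En n ^ 2)

/-- the weight of a class -/
def XF.Base (x : XF) (n : Fin 12 → ℕ) : ℝ :=
  ((2 : ℝ) ^ n 0 * 2 ^ n 1) ^ (4 / 3 : ℝ) *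
    (nm x.c₀ * 2 ^ n 3 * x.En n ^ 2 / (nm x.g₁ * 2 ^ n 5)) ^ (1 / 3 : ℝ) / 2 ^ n 4

/-- the bound of the moments of a class; `A₀` : a fixed divisor of the frequencies -/
def XF.Mom (x : XF) (cw : ℝ) (A₀ : Eis) (n : Fin 12 → ℕ) (A1 A2 A3 : ℝ) : ℝ :=
  A1 * TSS x.α x.e₀ (x.c₀ * A₀) 1 (8 * x.En n) (x.Ln cw n / nm A₀) +
    A2 * TSS x.α x.e₀ (x.c₀ * A₀) (1 / 2) (8 * x.En n) (x.Ln cw n / nm A₀) +
      A3 * (x.En n * x.Jn n)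

lemma XF.cf_eq (x : XF) (a : Tu) : x.cf a a.δ = cb x.fr x.α x.e₀ x.c₀ a := by
  unfold XF.cf cb XF.FFa
  rw [FF_eq]
  rfl

section cls

variable {x : XF} {a : Tu} {n : Fin 12 → ℕ} {nδ nμ : ℕ}

/-- the data are nonzero -/
structure XF.OKx (x : XF) (cw : ℝ) : Prop where
  c0 : x.c₀ ≠ 0
  V0 : 0 < x.V
  VY : x.V ≤ x.Y
  Y1 : 1 ≤ x.Y
  cw1 : 1 ≤ cw
  g₁ : IsPrim x.g₁
  g₂ : IsPrim x.g₂
  F0 : x.F0 ≠ 0
  FY : (nm x.F0 : ℝ) ≤ x.Y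
  gY : (nm x.g₁ : ℝ) ≤ x.Y
  α : FS x.α
  R : IsPrim x.R

/-- the facts on a tuple of a class -/
structure XF.OKa (x : XF) (a : Tu) : Prop where
  hq : IsPrim a.q
  hqq : Squarefree a.q
  hS : IsPrim (x.Sf a.q)
  h1 : a.q ^ 2 ∣ x.Sf a.q
  h2 : x.Sf a.q ∣ a.q ^ 2 * x.F0
  hν : IsPrim a.ν
  hνY : (nm a.ν : ℝ) ≤ x.Y
  hs : OKs x.R a.s (x.Sf a.q) a.us a.u a.w
  hτ : IsPrim a.τ
  hτq : Squarefree a.τ
  hτS : SupB a.τ (x.Sf a.q)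
  husτ : IsCoprime a.us a.τ
  hg : IsPrim a.g
  hh : IsPrim a.h
  hδ : IsPrim a.δ
  hj : a.j = 1
  hc : a.c = 1
  hP : x.FFa a ≠ 0
  hn : 1 / 2 ≤ x.nn a a.δ

variable {cw : ℝ}

lemma nmpos' {y : Eis} (hy : y ≠ 0) : (0 : ℝ) < nm y := by exact_mod_cast nm_pos.mpr hy

lemma nm_ge_one' {y : Eis} (hy : y ≠ 0) : (1 : ℝ) ≤ nm y := by exact_mod_cast nm_pos.mpr hy

lemma XF.nm_FFa (x : XF) (a : Tu) :
    (nm (x.FFa a) : ℝ) = nm x.c₀ * nm (PP (x.Sf a.q) x.g₁ a.ν (a.us * a.τ)) := by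
  unfold XF.FFa
  rw [FF_eq, nm_mul]
  push_cast
  ring

lemma PP_ne (h : x.OKa a) : PP (x.Sf a.q) x.g₁ a.ν (a.us * a.τ) ≠ 0 := by
  intro h0
  apply h.hP
  unfold XF.FFa
  rw [FF_eq, h0, mul_zero]

/-- the product of the sizes is bounded -/
lemma sizes (hx : x.OKx cw) (h : x.OKa a) :
    (nm (x.FFa a) : ℝ) * (nm (a.e x.fr) : ℝ) ^ 2 * (nm a.u * nm a.h) ≤ 2 * x.V := by
  have h1 := h.hn
  unfold XF.nn at h1
  have e1 : x.g₂ * (a.w * (a.g * a.δ)) = a.e x.fr := rfl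
  rw [e1] at h1
  have h2 := nm_ge_one' h.hP
  have h3 : (1 : ℝ) ≤ nm (a.e x.fr) :=
    nm_ge_one' (hx.g₂.mul (h.hs.hw.mul (h.hg.mul h.hδ))).ne_zero
  have h4 := nm_ge_one' h.hs.hu.ne_zero
  have h5 := nm_ge_one' h.hh.ne_zero
  have h6 : (0 : ℝ) < nm (x.FFa a) * (nm (a.e x.fr) : ℝ) ^ 2 * (nm a.u * nm a.h) := by positivity
  rw [le_div_iff₀ h6] at h1
  linarith

lemma ok_of (hx : x.OKx cw) (h : x.OKa a) : a.OK x.fr (8 * cw * x.Y) := by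
  have h0 := sizes hx h
  have hc0 := nm_ge_one' hx.c0
  have hP := nm_ge_one' (PP_ne h)
  have he : (1 : ℝ) ≤ nm (a.e x.fr) :=
    nm_ge_one' (hx.g₂.mul (h.hs.hw.mul (h.hg.mul h.hδ))).ne_zero
  have hu := nm_ge_one' h.hs.hu.ne_zero
  have hh := nm_ge_one' h.hh.ne_zero
  have hF := x.nm_FFa a
  have hF1 := nm_ge_one' h.hP
  have hY := hx.Y1
  have hV := hx.VY
  have hcw := hx.cw1
  have hYY : 2 * x.V ≤ 8 * cw * x.Y := by nlinarith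
  refine ⟨h.hq, h.hqq, h.hS, h.h1, h.h2, h.hν, h.hs, hx.R, h.hτ, h.hτq, h.hτS, h.husτ, h.hg, h.hh,
    h.hδ, by rw [h.hj]; exact isPrim_one, PP_ne h, ?_, ?_, ?_⟩
  · have e1 : (nm (a.J x.fr) : ℝ) =
        nm (PP (x.Sf a.q) x.g₁ a.ν (a.us * a.τ)) * (nm a.h * nm a.u) := by
      unfold Tu.J XF.fr
      rw [h.hj, mul_one]
      simp only [nm_mul]
      push_cast
      ring
    refine le_trans ?_ hYY
    refine le_trans ?_ h0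
    rw [e1, hF]
    calc (nm (PP (x.Sf a.q) x.g₁ a.ν (a.us * a.τ)) : ℝ) * (nm a.h * nm a.u)
        = 1 * nm (PP (x.Sf a.q) x.g₁ a.ν (a.us * a.τ)) * 1 ^ 2 * (nm a.u * nm a.h) := by ring
      _ ≤ nm x.c₀ * nm (PP (x.Sf a.q) x.g₁ a.ν (a.us * a.τ)) * (nm (a.e x.fr) : ℝ) ^ 2 *
          (nm a.u * nm a.h) := by gcongr
  · refine le_trans ?_ hYY
    refine le_trans ?_ h0
    calc (nm (a.e x.fr) : ℝ) ≤ (nm (a.e x.fr) : ℝ) ^ 2 := le_self_pow₀ he (by norm_num)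
      _ = 1 * (nm (a.e x.fr) : ℝ) ^ 2 * (1 * 1) := by ring
      _ ≤ nm (x.FFa a) * (nm (a.e x.fr) : ℝ) ^ 2 * (nm a.u * nm a.h) := by gcongr
  · have h1 : (nm (bpt (x.Sf a.q) a.ν) : ℝ) ≤ nm a.ν := by
      exact_mod_cast Crest.Agent.R012.Div277.nm_le_of_dvd h.hν.ne_zero (E4579.bpt_dvd h.hS h.hν)
    refine (h1.trans h.hνY).trans ?_
    nlinarith

lemma fr_ok (hx : x.OKx cw) : x.fr.OK (8 * cw * x.Y) := by
  have hY := hx.Y1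
  have hcw := hx.cw1
  have : x.Y ≤ 8 * cw * x.Y := by nlinarith
  exact ⟨hx.F0, hx.g₁, hx.g₂, hx.FY.trans this, hx.gY.trans this⟩

/-- the size bounds in a class -/
structure Bd (x : XF) (a : Tu) (n : Fin 12 → ℕ) : Prop where
  e0 : lg (x.Sf a.q) = n 0
  e1 : lg a.ν = n 1
  e2 : lg (bpt (x.Sf a.q) a.ν) = n 2
  e3 : lg (PP (x.Sf a.q) x.g₁ a.ν (a.us * a.τ)) = n 3
  e4 : lg a.s = n 4
  e5 : lg (a.us * a.τ) = n 5
  e6 : lg a.u = n 6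
  e7 : lg a.w = n 7
  e8 : lg a.g = n 8
  e9 : lg a.h = n 9
  e10 : lg a.δ = n 10

lemma bd_of {nμ : ℕ} (h : x.vec a (lg a.δ) nμ = n) : Bd x a n := by
  subst h
  exact ⟨rfl, rfl, rfl, rfl, rfl, rfl, rfl, rfl, rfl, rfl, rfl⟩

lemma e_eq (x : XF) (a : Tu) : a.e x.fr = x.g₂ * (a.w * (a.g * a.δ)) := rfl

lemma nm_e (x : XF) (a : Tu) :
    (nm (a.e x.fr) : ℝ) = nm x.g₂ * (nm a.w * (nm a.g * nm a.δ)) := by
  rw [e_eq]
  simp only [nm_mul]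
  push_cast
  ring

lemma e_le (h : Bd x a n) : (nm (a.e x.fr) : ℝ) ≤ 8 * x.En n := by
  rw [nm_e]
  unfold XF.En
  have h7 := le_pow_lg a.w
  have h8 := le_pow_lg a.g
  have h10 := le_pow_lg a.δ
  rw [h.e7] at h7
  rw [h.e8] at h8
  rw [h.e10] at h10
  calc (nm x.g₂ : ℝ) * (nm a.w * (nm a.g * nm a.δ)) ≤
        nm x.g₂ * (2 * 2 ^ n 7 * (2 * 2 ^ n 8 * (2 * 2 ^ n 10))) := by gcongr
    _ = _ := by ring

lemma le_e (hx : x.OKx cw) (ha : x.OKa a) (h : Bd x a n) : x.En n ≤ nm (a.e x.fr) := by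
  rw [nm_e]
  unfold XF.En
  have h7 := pow_lg_le ha.hs.hw.ne_zero
  have h8 := pow_lg_le ha.hg.ne_zero
  have h10 := pow_lg_le ha.hδ.ne_zero
  rw [h.e7] at h7
  rw [h.e8] at h8
  rw [h.e10] at h10
  gcongr

lemma En_pos (hx : x.OKx cw) (n : Fin 12 → ℕ) : 0 < x.En n := by
  unfold XF.En
  have := nmpos' hx.g₂.ne_zero
  positivity

lemma Jn_pos (x : XF) (n : Fin 12 → ℕ) : 0 < x.Jn n := by unfold XF.Jn; positivity

lemma nm_J (ha : x.OKa a) : (nm (a.J x.fr) : ℝ) =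
    nm (PP (x.Sf a.q) x.g₁ a.ν (a.us * a.τ)) * (nm a.h * nm a.u) := by
  unfold Tu.J XF.fr
  rw [ha.hj, mul_one]
  simp only [nm_mul]
  push_cast
  ring

lemma J_le (ha : x.OKa a) (h : Bd x a n) : (nm (a.J x.fr) : ℝ) ≤ 8 * x.Jn n := by
  rw [nm_J ha]
  unfold XF.Jn
  have h3 := le_pow_lg (PP (x.Sf a.q) x.g₁ a.ν (a.us * a.τ))
  have h9 := le_pow_lg a.h
  have h6 := le_pow_lg a.u
  rw [h.e3] at h3
  rw [h.e9] at h9
  rw [h.e6] at h6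
  calc (nm (PP (x.Sf a.q) x.g₁ a.ν (a.us * a.τ)) : ℝ) * (nm a.h * nm a.u) ≤
        2 * 2 ^ n 3 * (2 * 2 ^ n 9 * (2 * 2 ^ n 6)) := by gcongr
    _ = _ := by ring

lemma nn_le (hx : x.OKx cw) (ha : x.OKa a) (h : Bd x a n) : x.nn a a.δ ≤ x.Nn n := by
  unfold XF.nn XF.Nn
  have hE := En_pos hx n
  have hJ := Jn_pos x n
  have hc := nmpos' hx.c0
  have e1 : x.g₂ * (a.w * (a.g * a.δ)) = a.e x.fr := rfl
  rw [e1, x.nm_FFa]
  have h3 := pow_lg_le (PP_ne ha)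
  have h9 := pow_lg_le ha.hh.ne_zero
  have h6 := pow_lg_le ha.hs.hu.ne_zero
  rw [h.e3] at h3
  rw [h.e9] at h9
  rw [h.e6] at h6
  have hle := le_e hx ha h
  refine div_le_div_of_nonneg_left hx.V0.le (by positivity) ?_
  unfold XF.Jn
  calc (nm x.c₀ : ℝ) * (2 ^ n 3 * (2 ^ n 9 * 2 ^ n 6)) * x.En n ^ 2
      ≤ nm x.c₀ * (nm (PP (x.Sf a.q) x.g₁ a.ν (a.us * a.τ)) * (nm a.h * nm a.u)) *
        (nm (a.e x.fr) : ℝ) ^ 2 := by gcongr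
    _ = _ := by ring

/-- the weight of a tuple -/
def XF.Wt (x : XF) (a : Tu) : ℝ :=
  ((nm (x.Sf a.q) : ℝ) * nm a.ν) ^ (4 / 3 : ℝ) *
    (n6 (x.g₁ * (a.us * a.τ)) * n6 a.u * n6 a.h) ^ 2 * x.nn a a.δ ^ (-(1 / 3) : ℝ) / nm a.s

lemma n6_sq (y : Eis) : n6 y ^ 2 = (nm y : ℝ) ^ (-(1 / 3) : ℝ) := by
  unfold PX764.n6
  rw [← Real.rpow_natCast, ← Real.rpow_mul (Nat.cast_nonneg _)]
  norm_num

/-- the weight, exactly -/
lemma Wt_eq (hx : x.OKx cw) (ha : x.OKa a) : x.Wt a = x.V ^ (-(1 / 3) : ℝ) *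
    (((nm (x.Sf a.q) : ℝ) * nm a.ν) ^ (4 / 3 : ℝ) *
      (nm x.c₀ * nm (PP (x.Sf a.q) x.g₁ a.ν (a.us * a.τ)) * (nm (a.e x.fr) : ℝ) ^ 2 /
        (nm x.g₁ * nm (a.us * a.τ))) ^ (1 / 3 : ℝ) / nm a.s) := by
  unfold XF.Wt XF.nn
  have e1 : x.g₂ * (a.w * (a.g * a.δ)) = a.e x.fr := rfl
  rw [e1, x.nm_FFa, mul_pow, mul_pow, n6_sq, n6_sq, n6_sq]
  have hc := nmpos' hx.c0
  have hP := nmpos' (PP_ne ha)
  have he : (0 : ℝ) < nm (a.e x.fr) :=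
    nmpos' (hx.g₂.mul (ha.hs.hw.mul (ha.hg.mul ha.hδ))).ne_zero
  have hu := nmpos' ha.hs.hu.ne_zero
  have hh := nmpos' ha.hh.ne_zero
  have hg := nmpos' hx.g₁.ne_zero
  have hσ := nmpos' (ha.hs.hus.mul ha.hτ).ne_zero
  have hV := hx.V0
  have hgσ : (nm (x.g₁ * (a.us * a.τ)) : ℝ) = nm x.g₁ * nm (a.us * a.τ) := by
    rw [nm_mul]; push_cast; ring
  rw [hgσ]
  set P : ℝ := ((nm (PP (x.Sf a.q) x.g₁ a.ν (a.us * a.τ)) : ℕ) : ℝ) with hPd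
  set c : ℝ := ((nm x.c₀ : ℕ) : ℝ) with hcd
  set e : ℝ := ((nm (a.e x.fr) : ℕ) : ℝ) with hed
  set u : ℝ := ((nm a.u : ℕ) : ℝ) with hud
  set h : ℝ := ((nm a.h : ℕ) : ℝ) with hhd
  set g : ℝ := ((nm x.g₁ : ℕ) : ℝ) with hgd
  set σ : ℝ := ((nm (a.us * a.τ) : ℕ) : ℝ) with hσd
  have key : (g * σ) ^ (-(1 / 3) : ℝ) * u ^ (-(1 / 3) : ℝ) * h ^ (-(1 / 3) : ℝ) *
      (x.V / (c * P * e ^ 2 * (u * h))) ^ (-(1 / 3) : ℝ) =
      x.V ^ (-(1 / 3) : ℝ) * (c * P * e ^ 2 / (g * σ)) ^ (1 / 3 : ℝ) := by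
    rw [← Real.mul_rpow (by positivity) hu.le, ← Real.mul_rpow (by positivity) hh.le,
      ← Real.mul_rpow (by positivity) (by positivity)]
    have e2 : g * σ * u * h * (x.V / (c * P * e ^ 2 * (u * h))) =
        x.V * (c * P * e ^ 2 / (g * σ))⁻¹ := by
      field_simp
    rw [e2, Real.mul_rpow hV.le (by positivity), Real.inv_rpow (by positivity),
      ← Real.rpow_neg (by positivity)]
    norm_num
  calc _ = ((nm (x.Sf a.q) : ℝ) * nm a.ν) ^ (4 / 3 : ℝ) * ((g * σ) ^ (-(1 / 3) : ℝ) *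
        u ^ (-(1 / 3) : ℝ) * h ^ (-(1 / 3) : ℝ) *
        (x.V / (c * P * e ^ 2 * (u * h))) ^ (-(1 / 3) : ℝ)) / nm a.s := by ring
    _ = _ := by rw [key]; ring

/-- **the weight of a class** -/
theorem Wt_le (hx : x.OKx cw) (ha : x.OKa a) (h : Bd x a n) :
    x.Wt a ≤ (4 : ℝ) ^ (4 / 3 : ℝ) * (128 : ℝ) ^ (1 / 3 : ℝ) *
      (x.V ^ (-(1 / 3) : ℝ) * x.Base n) := by
  rw [Wt_eq hx ha]
  have hV : 0 ≤ x.V ^ (-(1 / 3) : ℝ) := Real.rpow_nonneg hx.V0.le _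
  have hE := En_pos hx n
  have hc := nmpos' hx.c0
  have hg := nmpos' hx.g₁.ne_zero
  have h0 := le_pow_lg (x.Sf a.q)
  have h1 := le_pow_lg a.ν
  have h3 := le_pow_lg (PP (x.Sf a.q) x.g₁ a.ν (a.us * a.τ))
  have h4 := pow_lg_le ha.hs.hs.ne_zero
  have h5 := pow_lg_le (ha.hs.hus.mul ha.hτ).ne_zero
  rw [h.e0] at h0
  rw [h.e1] at h1
  rw [h.e3] at h3
  rw [h.e4] at h4
  rw [h.e5] at h5
  have he := e_le h
  have a1 : ((nm (x.Sf a.q) : ℝ) * nm a.ν) ^ (4 / 3 : ℝ) ≤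
      (4 : ℝ) ^ (4 / 3 : ℝ) * ((2 : ℝ) ^ n 0 * 2 ^ n 1) ^ (4 / 3 : ℝ) := by
    rw [← Real.mul_rpow (by norm_num) (by positivity)]
    refine Real.rpow_le_rpow (by positivity) ?_ (by norm_num)
    calc (nm (x.Sf a.q) : ℝ) * nm a.ν ≤ 2 * 2 ^ n 0 * (2 * 2 ^ n 1) := by gcongr
      _ = _ := by ring
  have a2 : (nm x.c₀ * nm (PP (x.Sf a.q) x.g₁ a.ν (a.us * a.τ)) * (nm (a.e x.fr) : ℝ) ^ 2 /
      (nm x.g₁ * nm (a.us * a.τ))) ^ (1 / 3 : ℝ) ≤ (128 : ℝ) ^ (1 / 3 : ℝ) *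
      (nm x.c₀ * 2 ^ n 3 * x.En n ^ 2 / (nm x.g₁ * 2 ^ n 5)) ^ (1 / 3 : ℝ) := by
    rw [← Real.mul_rpow (by norm_num) (by positivity)]
    refine Real.rpow_le_rpow (by positivity) ?_ (by norm_num)
    calc nm x.c₀ * nm (PP (x.Sf a.q) x.g₁ a.ν (a.us * a.τ)) * (nm (a.e x.fr) : ℝ) ^ 2 /
          (nm x.g₁ * nm (a.us * a.τ))
        ≤ nm x.c₀ * (2 * 2 ^ n 3) * (8 * x.En n) ^ 2 / (nm x.g₁ * 2 ^ n 5) := by gcongr
      _ = _ := by ring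
  unfold XF.Base
  calc x.V ^ (-(1 / 3) : ℝ) * (((nm (x.Sf a.q) : ℝ) * nm a.ν) ^ (4 / 3 : ℝ) *
      (nm x.c₀ * nm (PP (x.Sf a.q) x.g₁ a.ν (a.us * a.τ)) * (nm (a.e x.fr) : ℝ) ^ 2 /
        (nm x.g₁ * nm (a.us * a.τ))) ^ (1 / 3 : ℝ) / nm a.s)
      ≤ x.V ^ (-(1 / 3) : ℝ) * (((4 : ℝ) ^ (4 / 3 : ℝ) *
        ((2 : ℝ) ^ n 0 * 2 ^ n 1) ^ (4 / 3 : ℝ)) * ((128 : ℝ) ^ (1 / 3 : ℝ) *
        (nm x.c₀ * 2 ^ n 3 * x.En n ^ 2 / (nm x.g₁ * 2 ^ n 5)) ^ (1 / 3 : ℝ)) / 2 ^ n 4) := by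
        gcongr
    _ = _ := by ring

lemma En_one (hx : x.OKx cw) (n : Fin 12 → ℕ) : 1 ≤ x.En n := by
  unfold XF.En
  have h1 := nm_ge_one' hx.g₂.ne_zero
  have h2 : ∀ k : ℕ, (1 : ℝ) ≤ 2 ^ k := fun k => one_le_pow₀ (by norm_num)
  calc (1 : ℝ) = 1 * (1 * (1 * 1)) := by ring
    _ ≤ _ := by
        have := h2 (n 7); have := h2 (n 8); have := h2 (n 10)
        gcongr

lemma TW_nonneg' (e X : ℝ) (b : Eis → ℂ) : 0 ≤ TW e X b := E3q681.TW_nonneg e X b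

end cls

open Classical in
/-- **the sum of the moments over a class** -/
theorem mom_sum {ε : ℝ} (hε : 0 < ε) {cw : ℝ} (hcw : 1 ≤ cw) : ∃ C : ℝ, 0 ≤ C ∧
    ∀ (x : XF) (n : Fin 12 → ℕ) (T : Finset Tu) (Bs : Finset Eis) (A₀ : Eis) (A1 A2 A3 : ℝ),
    x.OKx cw → IsPrim A₀ → 0 ≤ A1 → 0 ≤ A2 → 0 ≤ A3 →
    (∀ a ∈ T, x.OKa a ∧ Bd x a n ∧ bpt (x.Sf a.q) a.ν ∈ Bs ∧
      A₀ ∣ PP (x.Sf a.q) x.g₁ a.ν (a.us * a.τ)) →
    ∑ a ∈ T, (A1 * TW 1 (cw * x.nn a a.δ) (x.cf a a.δ) +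
      A2 * TW (1 / 2) (cw * x.nn a a.δ) (x.cf a a.δ) + A3) ≤
        C * x.Y ^ ε * (Bs.card * x.Mom cw A₀ n A1 A2 A3) := by
  obtain ⟨C1, hC1, h1⟩ := tw_sumA hε
  obtain ⟨C2, hC2, h2⟩ := tcount hε
  have hcw0 : 0 < cw := by linarith
  refine ⟨(8 * cw) ^ ε * (C1 + C2 * (800 * 800)), by positivity, ?_⟩
  intro x n T Bs A₀ A1 A2 A3 hx hA₀ hA1 hA2 hA3 hT
  have hY := hx.Y1
  have hY0 : 0 < x.Y := by linarith
  have hV := hx.V0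
  have hE := En_one hx n
  have hE0 := En_pos hx n
  have hJ := Jn_pos x n
  have hc := nm_ge_one' hx.c0
  have hc0 := nmpos' hx.c0
  set Y1 : ℝ := 8 * cw * x.Y with hY1
  have hY11 : 1 ≤ Y1 := by rw [hY1]; nlinarith
  have hYε : Y1 ^ ε = (8 * cw) ^ ε * x.Y ^ ε := by
    rw [hY1, Real.mul_rpow (by positivity) hY0.le]
  have hYε0 : 0 ≤ Y1 ^ ε := by positivity
  have hL0 : 0 ≤ x.Ln cw n := by unfold XF.Ln; positivity
  have hLY : x.Ln cw n ≤ Y1 := by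
    unfold XF.Ln
    rw [div_le_iff₀ (by positivity), hY1]
    have hV2 := hx.VY
    have e1 : (1 : ℝ) ≤ nm x.c₀ * x.En n ^ 2 := by
      calc (1 : ℝ) = 1 * 1 ^ 2 := by ring
        _ ≤ _ := by gcongr
    calc 8 * cw * x.V ≤ 8 * cw * x.Y := by gcongr
      _ = 8 * cw * x.Y * 1 := by ring
      _ ≤ _ := by gcongr
  have hAJ : ∀ a ∈ T, A₀ ∣ a.J x.fr := by
    intro a ha
    obtain ⟨-, -, -, k4⟩ := hT a ha
    unfold Tu.J
    exact k4.mul_right _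
  have hTW : ∀ e : ℝ, ∑ a ∈ T, TW e (cw * x.nn a a.δ) (x.cf a a.δ) ≤
      C1 * Y1 ^ ε * (Bs.card * TSS x.α x.e₀ (x.c₀ * A₀) e (8 * x.En n) (x.Ln cw n / nm A₀)) := by
    intro e
    have h3 := h1 Y1 x.fr T x.α x.e₀ x.c₀ A₀ e (cw * x.Nn n) (8 * x.En n) (x.Ln cw n) Bs hY11
      (fr_ok hx) hx.α hA₀ (by unfold XF.Nn; positivity) (by positivity) hL0 hLY (fun a ha => by
        obtain ⟨k1, k2, k3, k4⟩ := hT a ha
        refine ⟨ok_of hx k1, k1.hj, k1.hc, k3, e_le k2, ?_, hAJ a ha⟩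
        have k3 := J_le k1 k2
        calc (nm (a.J x.fr) : ℝ) * (cw * x.Nn n) ≤ 8 * x.Jn n * (cw * x.Nn n) := by
              have : 0 ≤ cw * x.Nn n := by unfold XF.Nn; positivity
              gcongr
          _ = x.Ln cw n := by
              unfold XF.Nn XF.Ln
              field_simp)
    refine (sum_le_sum fun a ha => ?_).trans h3
    obtain ⟨k1, k2, -⟩ := hT a ha
    rw [x.cf_eq]
    refine TW_mono _ ?_
    have := nn_le hx k1 k2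
    gcongr
  -- the number of tuples
  have hcnt : (T.card : ℝ) ≤ C2 * Y1 ^ ε * (Bs.card * (800 * x.En n * (800 * x.Jn n))) := by
    have h3 := h2 Y1 x.fr T (Bs ×ˢ {1} ×ˢ primBall ⌊8 * x.En n⌋₊ ×ˢ primBall ⌊8 * x.Jn n⌋₊)
      (fun _ => 1) hY11 (fr_ok hx) (fun a ha => ok_of hx (hT a ha).1) (fun a ha => by
        obtain ⟨k1, k2, k3, -⟩ := hT a ha
        unfold tgt
        simp only [mem_product, mem_singleton, mem_primBall]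
        refine ⟨k3, k1.hc, ⟨Nat.le_floor (e_le k2), ?_⟩, Nat.le_floor (J_le k1 k2), ?_⟩
        · exact (ok_of hx k1).eprim (fr_ok hx)
        · exact (ok_of hx k1).Jprim (fr_ok hx)) (fun _ _ => zero_le_one)
    rw [sum_const, nsmul_eq_mul, mul_one, sum_const, nsmul_eq_mul, mul_one] at h3
    refine h3.trans (mul_le_mul_of_nonneg_left ?_ (by positivity))
    simp only [card_product, card_singleton]
    push_cast
    have g1 : ((primBall ⌊8 * x.En n⌋₊).card : ℝ) ≤ 800 * x.En n := by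
      have := Crest.Agent.R012.Lat277.card_primBall_le ⌊8 * x.En n⌋₊
      refine this.trans ?_
      have := Nat.floor_le (by positivity : 0 ≤ 8 * x.En n)
      linarith
    have g2 : ((primBall ⌊8 * x.Jn n⌋₊).card : ℝ) ≤ 800 * x.Jn n := by
      have := Crest.Agent.R012.Lat277.card_primBall_le ⌊8 * x.Jn n⌋₊
      refine this.trans ?_
      have := Nat.floor_le (by positivity : 0 ≤ 8 * x.Jn n)
      linarith
    calc (Bs.card : ℝ) * (1 * (((primBall ⌊8 * x.En n⌋₊).card : ℝ) *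
          ((primBall ⌊8 * x.Jn n⌋₊).card : ℝ)))
        ≤ Bs.card * (1 * (800 * x.En n * (800 * x.Jn n))) := by gcongr
      _ = _ := by ring
  rw [sum_add_distrib, sum_add_distrib, ← mul_sum, ← mul_sum, sum_const, nsmul_eq_mul]
  have t1 := hTW 1
  have t2 := hTW (1 / 2)
  unfold XF.Mom
  set U1 := TSS x.α x.e₀ (x.c₀ * A₀) 1 (8 * x.En n) (x.Ln cw n / nm A₀) with hU1
  set U2 := TSS x.α x.e₀ (x.c₀ * A₀) (1 / 2) (8 * x.En n) (x.Ln cw n / nm A₀) with hU2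
  have n1 : 0 ≤ U1 := TSS_nonneg _ _ _ _ _ _
  have n2 : 0 ≤ U2 := TSS_nonneg _ _ _ _ _ _
  calc A1 * ∑ a ∈ T, TW 1 (cw * x.nn a a.δ) (x.cf a a.δ) +
        A2 * ∑ a ∈ T, TW (1 / 2) (cw * x.nn a a.δ) (x.cf a a.δ) + T.card * A3
      ≤ A1 * (C1 * Y1 ^ ε * (Bs.card * U1)) + A2 * (C1 * Y1 ^ ε * (Bs.card * U2)) +
        C2 * Y1 ^ ε * (Bs.card * (800 * x.En n * (800 * x.Jn n))) * A3 := by gcongr
    _ = Y1 ^ ε * Bs.card * (C1 * (A1 * U1) + C1 * (A2 * U2) +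
        C2 * (800 * 800) * (A3 * (x.En n * x.Jn n))) := by ring
    _ ≤ Y1 ^ ε * Bs.card * ((C1 + C2 * (800 * 800)) * (A1 * U1) +
        (C1 + C2 * (800 * 800)) * (A2 * U2) +
        (C1 + C2 * (800 * 800)) * (A3 * (x.En n * x.Jn n))) := by
        have : 0 ≤ C2 * (800 * 800) := by positivity
        gcongr <;> linarith
    _ = _ := by rw [hYε]; ring

/-! ### the cells -/

open Classical in
/-- the decomposition of `R s` -/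
def dsf (R s S₀ : Eis) : Eis × Eis × Eis :=
  if h : ∃ z : Eis × Eis × Eis, OKs R s S₀ z.1 z.2.1 z.2.2 then h.choose else (1, 1, 1)

lemma dsf_spec {R s S₀ us u w : Eis} (h : OKs R s S₀ us u w) :
    OKs R s S₀ (dsf R s S₀).1 (dsf R s S₀).2.1 (dsf R s S₀).2.2 := by
  have hx : ∃ z : Eis × Eis × Eis, OKs R s S₀ z.1 z.2.1 z.2.2 := ⟨(us, u, w), h⟩
  unfold dsf
  rw [dif_pos hx]
  exact hx.choose_spec

/-- the tuple of a prefix and a divisor -/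
def XF.tu (x : XF) (qc : Eis → Eis) (o : Eis × Eis) (s τ g h δ : Eis) : Tu where
  q := qc o.1
  ν := o.2
  s := s
  us := (dsf x.R s o.1).1
  u := (dsf x.R s o.1).2.1
  w := (dsf x.R s o.1).2.2
  τ := τ
  g := g
  h := h
  δ := δ
  j := 1
  c := 1

open Classical in
/-- the indices of a prefix -/
def XF.gd (x : XF) (a : Tu) : Finset (Eis × Eis) :=
  (IP x.Y (S x.X) a.g a.h).filter
    (fun i => Squarefree (x.g₂ * (a.w * (a.g * i.1))) ∧ 1 / 2 ≤ x.nn a i.1)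

open Classical in
/-- the indices of a cell -/
def XF.cell (x : XF) (a : Tu) (nδ nμ : ℕ) : Finset (Eis × Eis) :=
  (x.gd a).filter (fun i => (lg i.1, lg i.2) = (nδ, nμ))

/-- the bound of an index -/
def XF.gb (x : XF) (cw : ℝ) (bm : Eis → ℂ) (k : ℂ) (κ' : Eis → ℂ) (a : Tu) (A1 A2 A3 : ℝ)
    (i : Eis × Eis) : ℝ :=
  ‖x.cz bm k κ' a i‖ ^ 2 * x.nn a i.1 ^ (-(1 / 3) : ℝ) *
    (A1 * TW 1 (cw * x.nn a i.1) (x.cf a i.1) + A2 * TW (1 / 2) (cw * x.nn a i.1) (x.cf a i.1) + A3)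

/-- **the bound of a cell** (helper681's block theorem) -/
def XF.CB (x : XF) (cw : ℝ) (bm : Eis → ℂ) (k : ℂ) (κ' : Eis → ℂ) (a : Tu) (nδ nμ : ℕ)
    (A1 A2 A3 : ℝ) : Prop :=
  ∑ b ∈ As x.M x.κ a.s, ‖AQ (x.cell a nδ nμ) (fun i => i.1 * i.2) (x.ar bm k κ' a) b‖ ^ 2 ≤
    x.κ / nm a.s ^ 2 * ∑ i ∈ x.cell a nδ nμ, x.gb cw bm k κ' a A1 A2 A3 i

section cell

variable {x : XF} {cw : ℝ} {bm κ' : Eis → ℂ} {k : ℂ} {a : Tu}

/-- the arrays outside the indices vanish -/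
lemma ar_zero (hOm : ∀ t : ℝ, x.Om t ≠ 0 → t ≤ 2 * x.V) (hV : 0 < x.V) (hc₀ : x.c₀ ≠ 0)
    (hg₂ : x.g₂ ≠ 0) (hw : a.w ≠ 0) (hg : a.g ≠ 0) (hu : a.u ≠ 0) (hh : a.h ≠ 0)
    {i : Eis × Eis} (hi : i.1 ≠ 0)
    (h : ¬ (Squarefree (x.g₂ * (a.w * (a.g * i.1))) ∧ 1 / 2 ≤ x.nn a i.1)) (n : Eis) :
    x.ar bm k κ' a i n = 0 := by
  by_contra h0
  obtain ⟨h1, h2, h3, h4⟩ := E3q681.SA_supp h0
  apply h
  unfold E4v92.WW at h4
  split_ifs at h4 with h5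
  · refine ⟨h5.1, ?_⟩
    have hF : x.FFa a ≠ 0 := E5b54.JC_ne_zero h5.2
    have h6 := hOm _ (fun h' => h4 (by rw [h', map_zero]))
    have hn1 := nm_ge_one' h1.ne_zero
    have n1 := nmpos' hF
    have n2 := nmpos' (mul_ne_zero hg₂ (mul_ne_zero hw (mul_ne_zero hg hi)))
    have n3 := nmpos' hu
    have n4 := nmpos' hh
    unfold XF.nn
    rw [le_div_iff₀ (by positivity)]
    have e1 : ((nm (FF (x.Sf a.q) x.c₀ x.g₁ a.ν (a.us * a.τ) *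
        (x.g₂ * (a.w * (a.g * i.1))) ^ 2) : ℕ) : ℝ) =
        nm (x.FFa a) * (nm (x.g₂ * (a.w * (a.g * i.1))) : ℝ) ^ 2 := by
      rw [nm_mul, nm_pow]
      push_cast
      rfl
    rw [e1] at h6
    have h7 : (nm (x.FFa a) : ℝ) * (nm (x.g₂ * (a.w * (a.g * i.1))) : ℝ) ^ 2 * (nm a.u * nm a.h) ≤
        2 * x.V := by
      refine le_trans ?_ h6
      calc (nm (x.FFa a) : ℝ) * (nm (x.g₂ * (a.w * (a.g * i.1))) : ℝ) ^ 2 * (nm a.u * nm a.h)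
          = nm (x.FFa a) * (nm (x.g₂ * (a.w * (a.g * i.1))) : ℝ) ^ 2 *
            (nm a.u * (nm a.h * 1)) := by ring
        _ ≤ _ := by gcongr
    linarith
  · exact absurd rfl h4

/-- **the sum over the moduli of a prefix** -/
theorem AQ_pre (hx : x.OKx cw) (hOm : ∀ t : ℝ, x.Om t ≠ 0 → t ≤ 2 * x.V) (hs : OKs x.R a.s
    (x.Sf a.q) a.us a.u a.w) (hg : IsPrim a.g) (hh : IsPrim a.h) (hY : 0 ≤ x.Y) (hκ : 0 ≤ x.κ)
    {N : ℕ} (hN : ∀ i ∈ x.gd a, lg i.1 < N ∧ lg i.2 < N) {A1 A2 A3 : ℕ → ℕ → ℝ}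
    (hc : ∀ nδ nμ, x.CB cw bm k κ' a nδ nμ (A1 nδ nμ) (A2 nδ nμ) (A3 nδ nμ)) :
    ∑ b ∈ As x.M x.κ a.s,
      ‖AQ (IP x.Y (S x.X) a.g a.h) (fun i => i.1 * i.2) (x.ar bm k κ' a) b‖ ^ 2 ≤
      (N : ℝ) ^ 2 * (x.κ / nm a.s ^ 2 * ∑ i ∈ x.gd a, x.gb cw bm k κ' a (A1 (lg i.1) (lg i.2))
        (A2 (lg i.1) (lg i.2)) (A3 (lg i.1) (lg i.2)) i) := by
  classical
  have h1 : ∀ b : Eis, AQ (IP x.Y (S x.X) a.g a.h) (fun i => i.1 * i.2) (x.ar bm k κ' a) b =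
      AQ (x.gd a) (fun i => i.1 * i.2) (x.ar bm k κ' a) b := by
    intro b
    unfold E3q681.AQ XF.gd
    rw [sum_filter]
    refine sum_congr rfl fun i hi => ?_
    split_ifs with h
    · rfl
    · have h2 : CS (x.ar bm k κ' a i) b = 0 := by
        have : x.ar bm k κ' a i = fun _ => 0 := by
          funext n
          exact ar_zero hOm hx.V0 hx.c0 hx.g₂.ne_zero hs.hw.ne_zero hg.ne_zero hs.hu.ne_zero
            hh.ne_zero (E4F266.IP_mem hY hi).1.ne_zero h n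
        rw [this, CS_zero']
      rw [h2, mul_zero]
  simp_rw [h1]
  set I := x.gd a with hI
  set cl : Eis × Eis → ℕ × ℕ := fun i => (lg i.1, lg i.2) with hcl
  have hcard : ((I.image cl).card : ℝ) ≤ (N : ℝ) ^ 2 := by
    have : I.image cl ⊆ range N ×ˢ range N := by
      intro c hc
      obtain ⟨i, hi, rfl⟩ := mem_image.mp hc
      obtain ⟨k1, k2⟩ := hN i hi
      exact mem_product.mpr ⟨mem_range.mpr k1, mem_range.mpr k2⟩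
    have h2 := card_le_card this
    rw [card_product, card_range] at h2
    have h3 : ((I.image cl).card : ℝ) ≤ ((N * N : ℕ) : ℝ) := by exact_mod_cast h2
    refine h3.trans (le_of_eq ?_)
    push_cast; ring
  have hκs : 0 ≤ x.κ / nm a.s ^ 2 := by positivity
  calc ∑ b ∈ As x.M x.κ a.s, ‖AQ I (fun i => i.1 * i.2) (x.ar bm k κ' a) b‖ ^ 2
      ≤ ∑ b ∈ As x.M x.κ a.s, (N : ℝ) ^ 2 * ∑ c ∈ I.image cl,
          ‖AQ (x.cell a c.1 c.2) (fun i => i.1 * i.2) (x.ar bm k κ' a) b‖ ^ 2 := by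
        refine sum_le_sum fun b _ => ?_
        refine (E4z92.AQ_cls I _ _ cl b).trans ?_
        exact mul_le_mul_of_nonneg_right hcard (sum_nonneg fun _ _ => by positivity)
    _ = (N : ℝ) ^ 2 * ∑ c ∈ I.image cl, ∑ b ∈ As x.M x.κ a.s,
          ‖AQ (x.cell a c.1 c.2) (fun i => i.1 * i.2) (x.ar bm k κ' a) b‖ ^ 2 := by
        rw [← mul_sum, sum_comm]
    _ ≤ (N : ℝ) ^ 2 * ∑ c ∈ I.image cl, x.κ / nm a.s ^ 2 * ∑ i ∈ I.filter (fun i => cl i = c),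
          x.gb cw bm k κ' a (A1 (lg i.1) (lg i.2)) (A2 (lg i.1) (lg i.2)) (A3 (lg i.1) (lg i.2)) i := by
        refine mul_le_mul_of_nonneg_left (sum_le_sum fun c _ => ?_) (by positivity)
        refine (hc c.1 c.2).trans (mul_le_mul_of_nonneg_left (le_of_eq ?_) hκs)
        unfold XF.cell
        refine sum_congr rfl fun i hi => ?_
        obtain ⟨-, h3⟩ := mem_filter.mp hi
        have h3' : (lg i.1, lg i.2) = c := h3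
        rw [← h3']
    _ = _ := by
        rw [← mul_sum, sum_fiberwise_of_maps_to (fun i hi => mem_image_of_mem cl hi)]

/-- the coefficient of an array -/
theorem norm_cz_le (hc₀ : GrB829.IsC x.c₀) (hg₁ : E4352.PrI x.M x.g₁) (hg₁q : Squarefree x.g₁)
    (hq1 : IsPrim x.q₁) (hq2 : IsPrim x.q₂) (hD : IsPrim x.D) (hg0 : Mode405.Mul1 x.g₀)
    (hs : OKs x.R a.s (x.Sf a.q) a.us a.u a.w) (hτ : IsPrim a.τ)
    (hτq : Squarefree (a.us * a.τ)) (hh : IsPrim a.h) {i : Eis × Eis}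
    (hi : IsPrim (a.g * i.1)) (hm : IsPrim (a.g * (a.h * i.2)))
    (hκ' : ‖κ' (x.g₂ * (a.w * (a.g * i.1)))‖ ≤ 1) :
    ‖x.cz bm k κ' a i‖ ≤ ‖bm (a.g * (a.h * i.2))‖ * (‖k‖ *
      ((n6 (x.g₁ * (a.us * a.τ)) * ‖th x.c₀‖) * n6 a.u * n6 a.h)) := by
  unfold XF.cz E4z92.cZ
  rw [norm_mul, norm_mul, norm_mul, norm_mul]
  have h1 : ‖E4F266.eP (fun _ => 1) (fun m => bm m * sy (a.s ^ 2) m) a.g a.h i‖ ≤
      ‖bm (a.g * (a.h * i.2))‖ := by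
    unfold E4F266.eP
    rw [one_mul, RCLike.norm_conj, norm_mul]
    exact mul_le_of_le_one_right (norm_nonneg _) (E4579.norm_sy_le' _ hm)
  have hx : IsPrim (a.s * (a.τ * (a.g * i.1) ^ 2)) := hs.hs.mul (hτ.mul (hi.pow 2))
  have h2 := E4v92.norm_cfS_le (Q := x.c₀ * x.g₁ * (a.us * a.τ)) (q₁ := x.q₁) (q₂ := x.q₂)
    (D := x.D) (R := x.R) (s := a.s) (q := x.q) (u := a.u) (w := a.w) (τ := a.τ)
    (χ := fun _ => 1) (g₀ := x.g₀) (ev := E4v92.eY x.M x.c₀ x.g₁ x.g₂ a.ν (a.us * a.τ) κ')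
    (Rr := fun _ => x.Sf a.q * x.M * a.ν) (δ := a.g * i.1)
    hq1 hq2 hD hs.hs hs.hu (by simp) (hg0.le _ hx)
  have h3 := (E4v92.norm_eY_le (M := x.M) (g₂ := x.g₂) (ν := a.ν) hc₀ hg₁ hg₁q (hs.hus.mul hτ)
    hτq κ' (a.w * (a.g * i.1))).trans
      (mul_le_mul_of_nonneg_right hκ' (mul_nonneg (E3D579.n6_nonneg _) (norm_nonneg _)))
  rw [one_mul] at h3
  have h4 : ‖sy 1 a.u‖ * ‖sy a.h a.u‖ ≤ 1 := by
    calc ‖sy 1 a.u‖ * ‖sy a.h a.u‖ ≤ 1 * 1 := mul_le_mul (E4579.norm_sy_le' _ hs.hu)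
          (E4579.norm_sy_le' _ hs.hu) (norm_nonneg _) zero_le_one
      _ = 1 := one_mul 1
  have h5 := E4z92.norm_cA_n6 (Q := QQ x.c₀ x.g₁ a.us a.τ x.q₁ x.q₂ x.D a.s)
    (R := RQ (x.Sf a.q) x.M a.ν a.u x.q a.s x.D (a.g * i.1)) (q := a.h * i.2) hg0 hh
  have n1 := E3D579.n6_nonneg a.u
  have n2 := E3D579.n6_nonneg a.h
  have n3 := E3D579.n6_nonneg (x.g₁ * (a.us * a.τ))
  have h6 := h2.trans (mul_le_mul_of_nonneg_right h3 n1)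
  refine mul_le_mul h1 (mul_le_mul_of_nonneg_left ?_ (norm_nonneg _)) (by positivity)
    (norm_nonneg _)
  calc _ ≤ (n6 (x.g₁ * (a.us * a.τ)) * ‖th x.c₀‖) * n6 a.u * n6 a.h * 1 := by
        refine mul_le_mul (mul_le_mul h6 h5 (norm_nonneg _) (by positivity))
          ((norm_mul _ _).le.trans h4) (norm_nonneg _) (by positivity)
    _ = _ := by ring

/-- a nonzero coefficient -/
lemma cz_ne (hR : E4352.PrI x.q x.R) (hs : OKs x.R a.s (x.Sf a.q) a.us a.u a.w)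
    {i : Eis × Eis} (h : x.cz bm k κ' a i ≠ 0) : IsCoprime a.us a.τ := by
  unfold XF.cz E4z92.cZ at h
  have h1 : E4v92.cfS (x.c₀ * x.g₁ * (a.us * a.τ)) x.q₁ x.q₂ x.D x.R a.s x.q a.u a.w a.τ
      (fun _ => 1) x.g₀ (E4v92.eY x.M x.c₀ x.g₁ x.g₂ a.ν (a.us * a.τ) κ')
      (fun _ => x.Sf a.q * x.M * a.ν) (a.g * i.1) ≠ 0 :=
    left_ne_zero_of_mul (left_ne_zero_of_mul (right_ne_zero_of_mul (right_ne_zero_of_mul h)))
  unfold E4v92.cfS at h1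
  split_ifs at h1 with h2
  · obtain ⟨c1, c2, c3, c4⟩ := h2
    have c5 : IsCoprime a.τ x.q := c1.of_mul_left_left.of_mul_left_right
    have c6 : IsCoprime a.τ a.s := c4.of_mul_right_left
    have c7 : IsCoprime a.τ x.R := by
      refine isCoprime_of_prime_dvd (fun h' => hR.1.ne_zero h'.2) fun p hp hpτ hpR => ?_
      exact hp.not_isUnit (c5.isUnit_of_dvd' hpτ (hR.2 p hp hpR))
    have c8 : IsCoprime a.τ (x.R * a.s) := c7.mul_right c6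
    refine (c8.of_isCoprime_of_dvd_right ?_).symm
    rw [hs.hRs]
    exact ⟨a.u * a.w ^ 2, by ring⟩
  · exact absurd rfl h1

end cell

/-! ### the number of classes -/

/-- the number of classes -/
def Nc (Y : ℝ) : ℕ := Nat.log 2 ⌊2 * Y ^ 2⌋₊ + 1

lemma lg_lt {Y : ℝ} {y : Eis} (h : (nm y : ℝ) ≤ 2 * Y ^ 2) : lg y < Nc Y := by
  unfold lg Nc
  refine Nat.lt_succ_of_le (Nat.log_mono_right (Nat.le_floor h))

lemma Nc_le {ε : ℝ} (hε : 0 < ε) : ∃ C : ℝ, 0 ≤ C ∧ ∀ Y : ℝ, 1 ≤ Y → (Nc Y : ℝ) ≤ C * Y ^ ε := by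
  have h2 : 0 < Real.log 2 := Real.log_pos (by norm_num)
  refine ⟨2 ^ (ε / 2) / (ε / 2) / Real.log 2 + 1, by positivity, ?_⟩
  intro Y hY
  have hY0 : 0 < Y := by linarith
  have hn1 : (1 : ℝ) ≤ 2 * Y ^ 2 := by nlinarith
  have hn : 1 ≤ ⌊2 * Y ^ 2⌋₊ := Nat.le_floor (by exact_mod_cast hn1)
  have hn0 : (0 : ℝ) < ⌊2 * Y ^ 2⌋₊ := by exact_mod_cast hn
  have h3 : (Nat.log 2 ⌊2 * Y ^ 2⌋₊ : ℝ) ≤ Real.log (2 * Y ^ 2) / Real.log 2 := by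
    refine (Real.natLog_le_logb _ _).trans ?_
    unfold Real.logb
    push_cast
    gcongr
    exact Nat.floor_le (by positivity)
  have h4 : Real.log (2 * Y ^ 2) ≤ (2 * Y ^ 2) ^ (ε / 2) / (ε / 2) :=
    Real.log_le_rpow_div (by positivity) (by positivity)
  have h5 : (2 * Y ^ 2) ^ (ε / 2) = 2 ^ (ε / 2) * Y ^ ε := by
    rw [Real.mul_rpow (by norm_num) (by positivity), ← Real.rpow_natCast Y 2,
      ← Real.rpow_mul hY0.le]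
    congr 2
    push_cast; ring
  have hYε : 1 ≤ Y ^ ε := Real.one_le_rpow hY hε.le
  unfold Nc
  push_cast
  calc (Nat.log 2 ⌊2 * Y ^ 2⌋₊ : ℝ) + 1 ≤ (2 ^ (ε / 2) * Y ^ ε) / (ε / 2) / Real.log 2 + 1 * Y ^ ε := by
        rw [← h5]
        have h6 : Real.log (2 * Y ^ 2) / Real.log 2 ≤ (2 * Y ^ 2) ^ (ε / 2) / (ε / 2) / Real.log 2 := by
          gcongr
        linarith
    _ = _ := by ring

end Crest.Agent.R017.E4X92
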