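import Crest.Agent.R017.E3q18_681
import Crest.Agent.R017.E4X_92

/-!
# Row 17, block C70, leaf E4 (x-side): the bound of a cell from the block theorem (helper681)

* `XC` : the sizes of a tuple
* `cell_XB` : **the bound of a cell (four terms) from `XBk`**
-/

set_option autoImplicit false
set_option linter.unusedVariables false
set_option maxHeartbeats 400000

noncomputable section

open Complex MeasureTheory
open scoped ComplexConjugate Classical ContDiff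

namespace Crest.Agent.R017.E4Xb681

open Crest.Agent.R012 Crest.Agent.R012.Eis Crest.Agent.R012.MC
open Crest.Agent.R012.LS2 (S mem_S bl mem_bl)
open Crest.Agent.R012.Div277 (dvs mem_dvs isPrim_of_mem_dvs dvd_of_mem_dvs tau tau_le_rpow)
open Crest.Agent.R012.Mob705 (mu pdiv mem_pdiv)
open Crest.Agent.R012.NonCube52 (Ker kv Good kc kc_spec kc_nm kv_ne_zero one_le_nmkv)
open Crest.Agent.R012.Weight600 (pw osc)
open Crest.Agent.R017.PX764 (n6 Gh)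
open Crest.Agent.R017.CM106 (CS TG FS)
open Crest.Agent.R017.E1551 (nmpos jb jb_pos nm_ge_one summable_wF)
open Crest.Agent.R017.BD829
open Crest.Agent.R017.E3P842
open Crest.Agent.R017.E3D579
open Crest.Agent.R017.E3Sd579
open Crest.Agent.R017.Mode405
open Crest.Agent.R017.Mps347 (PoHWp)
open Crest.Agent.R017.E3q681
open Crest.Agent.R017.E4v92 (FF WW)
open Crest.Agent.R017.E4z92 (OKs cZ QQ RQ As Ss mem_As)
open Crest.Agent.R017.E4zz92 (Tu PP)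
open Crest.Agent.R017.E4F266 (IP IP_mem)
open Crest.Agent.R017.E4X92
open Gauss880 (syG)

/-! ### the conjugate shift -/

lemma iter_conj_shift (f : ℝ → ℂ) (s : ℝ) (n : ℕ) (x : ℝ) :
    ‖iteratedDeriv n (fun u => conj (f (u + s))) x‖ = ‖iteratedDeriv n f (x + s)‖ := by
  have h1 : (fun u => conj (f (u + s))) = (Complex.conjLIE ∘ fun u => f (u + s)) := by
    funext u; simp
  rw [h1, ← norm_iteratedFDeriv_eq_norm_iteratedDeriv,
    LinearIsometryEquiv.norm_iteratedFDeriv_comp_left, norm_iteratedFDeriv_eq_norm_iteratedDeriv,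
    iteratedDeriv_comp_add_const]

lemma contDiff_conj_shift {f : ℝ → ℂ} (hf : ContDiff ℝ ∞ f) (s : ℝ) :
    ContDiff ℝ ∞ (fun u => conj (f (u + s))) := by
  have h1 : (fun u => conj (f (u + s))) = (Complex.conjCLE ∘ fun u => f (u + s)) := by
    funext u; simp
  rw [h1]
  exact Complex.conjCLE.contDiff.comp (hf.comp (contDiff_id.add contDiff_const))

/-! ### the character -/

lemma SA_char {g₀ χ : Eis → ℂ} {τ : ℝ} (hg : ∀ y, IsPrim y → g₀ y = χ y * pw τ (nm y)) (c : ℂ)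
    (Q : Eis) (om : ℝ → ℂ) (R : Eis) (b : Eis → ℂ) :
    SA g₀ c Q om R b = SA χ c Q (fun y => pw τ y * om y) R b := by
  funext n
  unfold SA Us uS
  by_cases h : IsPrim n ∧ Squarefree n ∧ IsCoprime n R
  · rw [if_pos h, if_pos h, hg n h.1]
    ring
  · rw [if_neg h, if_neg h]
    ring

/-! ### the inner coefficient -/

lemma b0_ne {α : Eis → ℂ} {e e₀ f m : Eis} (h : b0 (fun m => α (e * m)) e e₀ f m ≠ 0) :
    α (e * m) ≠ 0 ∧ Gh f m ≠ 0 := by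
  unfold b0 at h
  split_ifs at h with h1
  · have h2 := left_ne_zero_of_mul h
    have h3 := right_ne_zero_of_mul (right_ne_zero_of_mul h)
    exact ⟨fun h4 => h2 (by show conj (α (e * m)) = 0; rw [h4, map_zero]),
      fun h4 => h3 (by rw [h4, map_zero])⟩
  · exact absurd rfl h

lemma Gh_sqf {f m : Eis} (hm : IsPrim m) (h : Gh f m ≠ 0) : Squarefree m := by
  by_contra h1
  exact h (PX764.Gh_not_sqf hm h1)

/-! ### the real part -/

/-- the factor `(N² q / (K L))^{1/3}` -/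
def Th (K N q L : ℝ) : ℝ := (N ^ 2 * q / (K * L)) ^ (1 / 3 : ℝ)

section real

variable {K N q L m₀ mi Ni Nb Nbi : ℝ}

/-- the quality -/
lemma thR_eq (hK : 0 < K) (hN : 0 < N) (hL : 0 < L) (hm : 0 < m₀) :
    thR K (K * L / (5832 * N ^ 2)) (4 * N * m₀ ^ 2) m₀ = L * N ^ (-(1 / 2) : ℝ) / 729 := by
  unfold thR
  have e1 : (4 * N * m₀ ^ 2) ^ (3 / 2 : ℝ) = 8 * (N ^ (-(1 / 2) : ℝ) * N ^ 2) * m₀ ^ 3 := by
    rw [Real.mul_rpow (by positivity) (by positivity), Real.mul_rpow (by norm_num) hN.le]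
    have a1 : (4 : ℝ) ^ (3 / 2 : ℝ) = 8 := by
      have : (4 : ℝ) = 2 ^ (2 : ℝ) := by norm_num
      rw [this, ← Real.rpow_mul (by norm_num)]
      norm_num
    have a2 : (m₀ ^ 2) ^ (3 / 2 : ℝ) = m₀ ^ 3 := by
      rw [← Real.rpow_natCast, ← Real.rpow_mul hm.le, ← Real.rpow_natCast]
      norm_num
    have a3 : N ^ (3 / 2 : ℝ) = N ^ (-(1 / 2) : ℝ) * N ^ 2 := by
      rw [← Real.rpow_natCast N 2, ← Real.rpow_add hN]
      norm_num
    rw [a1, a2, a3]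
  rw [e1]
  field_simp
  norm_num

lemma H3_eq (hK : 0 < K) (hN : 0 < N) (hL : 0 < L) (hq : 0 ≤ q) :
    (K * L / (5832 * N ^ 2)) ^ (-(1 / 3) : ℝ) * q ^ (1 / 3 : ℝ) = 18 * Th K N q L := by
  unfold Th
  have h0 : 0 < K * L / (5832 * N ^ 2) := by positivity
  rw [Real.rpow_neg h0.le, ← Real.inv_rpow h0.le, ← Real.mul_rpow (by positivity) hq]
  have e1 : (K * L / (5832 * N ^ 2))⁻¹ * q = 5832 * (N ^ 2 * q / (K * L)) := by
    field_simp
  rw [e1, Real.mul_rpow (by norm_num) (by positivity)]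
  have e2 : (5832 : ℝ) ^ (1 / 3 : ℝ) = 18 := by
    have : (5832 : ℝ) = 18 ^ (3 : ℝ) := by norm_num
    rw [this, ← Real.rpow_mul (by norm_num)]
    norm_num
  rw [e2]

lemma Th_nonneg (hK : 0 < K) (hL : 0 < L) (hq : 0 ≤ q) : 0 ≤ Th K N q L := by
  unfold Th; positivity

/-- the factor of the linear part -/
lemma kap1_le (hK : 0 < K) (hN : 0 < N) (hL : 0 < L) (hq : 0 ≤ q) (hm : 0 < m₀)
    (hmi : mi ≤ 4 * m₀) : kap1 K (K * L / (5832 * N ^ 2)) (4 * N * m₀ ^ 2) m₀ mi q ≤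
      36 * Th K N q L * (1 + L * N ^ (-(1 / 2) : ℝ)) + 432 * (N * m₀ ^ 2 / K) +
        36 * (N * m₀ / K ^ (2 / 3 : ℝ)) := by
  unfold kap1
  rw [thR_eq hK hN hL hm]
  set y := L * N ^ (-(1 / 2) : ℝ) with hy
  have hy0 : 0 < y := by positivity
  have e0 := H3_eq hK hN hL hq
  have hTh := Th_nonneg (N := N) hK hL hq
  have e1 : (81 : ℝ) * (y / 729) ^ (2 / 3 : ℝ) = y ^ (2 / 3 : ℝ) := by
    rw [Real.div_rpow hy0.le (by norm_num)]
    have : (729 : ℝ) ^ (2 / 3 : ℝ) = 81 := by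
      have h : (729 : ℝ) = 9 ^ (3 : ℝ) := by norm_num
      rw [h, ← Real.rpow_mul (by norm_num)]
      norm_num
    rw [this]; field_simp
  have e2 : (729 : ℝ) * (y / 729) = y := by ring
  rw [e1, e2]
  have h1 : y ^ (2 / 3 : ℝ) ≤ 1 + y := by
    rcases le_total y 1 with h | h
    · have : y ^ (2 / 3 : ℝ) ≤ 1 := Real.rpow_le_one hy0.le h (by norm_num)
      linarith
    · have : y ^ (2 / 3 : ℝ) ≤ y ^ (1 : ℝ) := Real.rpow_le_rpow_of_exponent_le h (by norm_num)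
      rw [Real.rpow_one] at this
      linarith
  have a1 : (K * L / (5832 * N ^ 2)) ^ (-(1 / 3) : ℝ) * q ^ (1 / 3 : ℝ) *
      (1 + y ^ (2 / 3 : ℝ) + y) ≤ 36 * Th K N q L * (1 + y) := by
    rw [e0]
    calc 18 * Th K N q L * (1 + y ^ (2 / 3 : ℝ) + y) ≤ 18 * Th K N q L * (1 + (1 + y) + y) := by
          gcongr
      _ = _ := by ring
  have a2 : 27 * (4 * N * m₀ ^ 2) * mi / (m₀ * K) ≤ 432 * (N * m₀ ^ 2 / K) := by
    calc 27 * (4 * N * m₀ ^ 2) * mi / (m₀ * K) ≤ 27 * (4 * N * m₀ ^ 2) * (4 * m₀) / (m₀ * K) := by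
          gcongr
      _ = _ := by field_simp; ring
  have a3 : 9 * (4 * N * m₀ ^ 2) / (K ^ (2 / 3 : ℝ) * m₀) = 36 * (N * m₀ / K ^ (2 / 3 : ℝ)) := by
    have : 0 < K ^ (2 / 3 : ℝ) := by positivity
    field_simp; ring
  rw [a3]
  linarith

/-- the threshold -/
lemma Lst_le (hK : 0 < K) (hN : 0 < N) (hL : 0 < L) (hm : 0 < m₀)
    (h : Ni * mi ≤ 2 * N * m₀) :
    Lst K (K * L / (5832 * N ^ 2)) (4 * N * m₀ ^ 2) m₀ Ni mi ≤ L := by
  unfold Lst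
  calc 729 * Ni * mi * (4 * N * m₀ ^ 2) * (K * L / (5832 * N ^ 2)) / (K * m₀ ^ 3)
      = (Ni * mi) * (L / (2 * N * m₀)) := by field_simp; ring
    _ ≤ (2 * N * m₀) * (L / (2 * N * m₀)) := mul_le_mul_of_nonneg_right h (by positivity)
    _ = L := by field_simp

end real

/-! ### the cell -/

/-- the sizes of a tuple -/
structure XC (x : XF) (a : Tu) (Nα Rw : ℝ) : Prop where
  Y1 : 1 ≤ x.Y
  V0 : 0 < x.V
  VY : x.V ≤ x.Y
  κ0 : 0 < x.κ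
  κY : x.κ ≤ x.Y
  X0 : 0 ≤ x.X
  XY : x.X ≤ x.Y
  c0 : x.c₀ ≠ 0
  c0Y : (nm x.c₀ : ℝ) ≤ x.Y
  M0 : x.M ≠ 0
  MY : (nm x.M : ℝ) ≤ x.Y
  g1 : IsPrim x.g₁
  g1Y : (nm x.g₁ : ℝ) ≤ x.Y
  g2 : IsPrim x.g₂
  q1 : IsPrim x.q₁
  q1Y : (nm x.q₁ : ℝ) ≤ x.Y
  q2 : IsPrim x.q₂
  q2Y : (nm x.q₂ : ℝ) ≤ x.Y
  D : IsPrim x.D
  DY : (nm x.D : ℝ) ≤ x.Y
  q : x.q ≠ 0
  qY : (nm x.q : ℝ) ≤ x.Y
  α : FS x.α
  αY : ∀ n, x.α n ≠ 0 → (nm n : ℝ) ≤ x.Y
  αW : Win x.α (Real.log Nα) Rw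
  Nα0 : 0 < Nα
  NαY : Nα ≤ x.Y
  S : IsPrim (x.Sf a.q)
  SY : (nm (x.Sf a.q) : ℝ) ≤ x.Y
  ν : IsPrim a.ν
  νY : (nm a.ν : ℝ) ≤ x.Y
  hs : OKs x.R a.s (x.Sf a.q) a.us a.u a.w
  usY : (nm a.us : ℝ) ≤ x.Y
  τ : IsPrim a.τ
  τY : (nm a.τ : ℝ) ≤ x.Y
  g : IsPrim a.g
  h : IsPrim a.h
  hY : (nm a.h : ℝ) ≤ x.Y
  s2 : (nm a.s : ℝ) ^ 2 ≤ 2 * x.κ

/-- the length without `δ` -/
def Vp (x : XF) (a : Tu) : ℝ :=
  x.V / (nm (x.FFa a) * (nm (x.g₂ * (a.w * a.g)) : ℝ) ^ 2 * (nm a.u * nm a.h))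

/-- the length of the cell -/
def Nh (x : XF) (a : Tu) (nδ : ℕ) : ℝ := Vp x a / 4 ^ nδ

/-- the length of the inner coefficient before the dilation -/
def Nb0 (x : XF) (a : Tu) (Nα : ℝ) (δ : Eis) : ℝ :=
  Nα / nm (x.g₂ * (a.w * (a.g * δ)))

/-- the length of the inner coefficient -/
def Nbi (x : XF) (a : Tu) (Nα : ℝ) (δ : Eis) : ℝ :=
  Nα / nm (x.g₂ * (a.w * (a.g * δ))) * nm (a.h * a.u)

/-- the inner coefficient before the dilation -/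
def cb (x : XF) (a : Tu) (δ : Eis) : Eis → ℂ :=
  b0 (fun m => x.α (x.g₂ * (a.w * (a.g * δ)) * m)) (x.g₂ * (a.w * (a.g * δ))) x.e₀ (x.FFa a)

/-- the length of the inner coefficients of the cell -/
def Nbh (x : XF) (a : Tu) (Nα : ℝ) (nδ : ℕ) : ℝ :=
  Nα * nm (a.h * a.u) / (nm (x.g₂ * (a.w * a.g)) * (2 * 2 ^ nδ))

/-- the modulus of an index -/
def Ri (x : XF) (a : Tu) (i : Eis × Eis) : Eis :=
  RQ (x.Sf a.q) x.M a.ν a.u x.q a.s x.D (a.g * i.1) * (a.h * i.2) * a.h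

/-- the frequency -/
def Qa (x : XF) (a : Tu) : Eis := QQ x.c₀ x.g₁ a.us a.τ x.q₁ x.q₂ x.D a.s

/-- the bound of an index, four terms -/
def gb4 (x : XF) (cw : ℝ) (bm : Eis → ℂ) (k : ℂ) (κ' : Eis → ℂ) (a : Tu) (A0 A1 A2 A3 : ℝ)
    (i : Eis × Eis) : ℝ :=
  ‖x.cz bm k κ' a i‖ ^ 2 * x.nn a i.1 ^ (-(1 / 3) : ℝ) *
    (A0 * TD (cw * x.nn a i.1) (Ri x a i) (x.cf a i.1) +
      A1 * TW 1 (cw * x.nn a i.1) (x.cf a i.1) + A2 * TW (1 / 2) (cw * x.nn a i.1) (x.cf a i.1) + A3)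

/-- **the bound of a cell**, four terms -/
def CB4 (x : XF) (cw : ℝ) (bm : Eis → ℂ) (k : ℂ) (κ' : Eis → ℂ) (a : Tu) (nδ nμ : ℕ)
    (A0 A1 A2 A3 : ℝ) : Prop :=
  ∑ b ∈ As x.M x.κ a.s, ‖AQ (x.cell a nδ nμ) (fun i => i.1 * i.2) (x.ar bm k κ' a) b‖ ^ 2 ≤
    x.κ / nm a.s ^ 2 * ∑ i ∈ x.cell a nδ nμ, gb4 x cw bm k κ' a A0 A1 A2 A3 i

section cell

variable {x : XF} {a : Tu} {Nα Rw : ℝ}

lemma nn_eq (hx : XC x a Nα Rw) {δ : Eis} (hδ : δ ≠ 0) : x.nn a δ = Vp x a / (nm δ : ℝ) ^ 2 := by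
  unfold XF.nn Vp
  have e1 : (nm (x.g₂ * (a.w * (a.g * δ))) : ℝ) = nm (x.g₂ * (a.w * a.g)) * nm δ := by
    rw [← Nat.cast_mul, ← nm_mul]
    congr 2
    ring
  rw [e1, div_div]
  congr 1
  ring

/-- the factor `V / N` -/
lemma nn_A (hx : XC x a Nα Rw) (hF : x.FFa a ≠ 0) {δ : Eis} (hδ : IsPrim δ) :
    0 < (nm (x.FFa a) : ℝ) * (nm (x.g₂ * (a.w * (a.g * δ))) : ℝ) ^ 2 * (nm a.u * nm a.h) := by
  have h1 := nmpos hF
  have h2 := nmpos (hx.g2.mul (hx.hs.hw.mul (hx.g.mul hδ))).ne_zero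
  have h3 := nmpos hx.hs.hu.ne_zero
  have h4 := nmpos hx.h.ne_zero
  positivity

/-- **the window of an array** -/
lemma om_eq (hx : XC x a Nα Rw) (hF : x.FFa a ≠ 0) {h : ℝ → ℝ} {Om₀ : ℝ → ℂ} {τ₀ τg : ℝ}
    (hOm : ∀ t, 0 < t → x.Om t = ((h (Real.log t - Real.log x.V) : ℝ) : ℂ) *
      (Om₀ (Real.log t) * pw τ₀ t)) {δ : Eis} (hδ : IsPrim δ) {y : ℝ} (hy : 0 < y) :
    pw τg y * WW (x.Sf a.q) x.c₀ x.g₁ x.g₂ a.ν (a.us * a.τ) x.Om (a.w * (a.g * δ))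
      (nm a.u * (nm a.h * y)) =
    ((if Squarefree (x.g₂ * (a.w * (a.g * δ))) ∧ Crest.Agent.R017.C70.JC (x.FFa a) then 1 else 0) *
      pw (-τ₀) ((nm (x.FFa a) : ℝ) * (nm (x.g₂ * (a.w * (a.g * δ))) : ℝ) ^ 2 *
        (nm a.u * nm a.h))) *
      (((h (Real.log y - Real.log (x.nn a δ)) : ℝ) : ℂ) *
        (fun u => conj (Om₀ (u + Real.log ((nm (x.FFa a) : ℝ) *
          (nm (x.g₂ * (a.w * (a.g * δ))) : ℝ) ^ 2 * (nm a.u * nm a.h))))) (Real.log y) *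
        pw (τg - τ₀) y) := by
  have hA := nn_A hx hF hδ
  set A : ℝ := (nm (x.FFa a) : ℝ) * (nm (x.g₂ * (a.w * (a.g * δ))) : ℝ) ^ 2 * (nm a.u * nm a.h)
    with hAd
  have hV := hx.V0
  have e1 : ((nm (FF (x.Sf a.q) x.c₀ x.g₁ a.ν (a.us * a.τ) * (x.g₂ * (a.w * (a.g * δ))) ^ 2) : ℕ) :
      ℝ) * (nm a.u * (nm a.h * y)) = A * y := by
    rw [nm_mul, nm_pow, hAd]
    push_cast
    unfold XF.FFa
    ring
  have e2 : x.nn a δ = x.V / A := rfl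
  unfold WW
  by_cases hc : Squarefree (x.g₂ * (a.w * (a.g * δ))) ∧ Crest.Agent.R017.C70.JC (x.FFa a)
  · have hc' : Squarefree (x.g₂ * (a.w * (a.g * δ))) ∧
        Crest.Agent.R017.C70.JC (FF (x.Sf a.q) x.c₀ x.g₁ a.ν (a.us * a.τ)) := hc
    rw [if_pos hc, if_pos hc', e1, hOm _ (by positivity), e2]
    have e3 : Real.log (A * y) = Real.log y + Real.log A := by
      rw [Real.log_mul hA.ne' hy.ne']; ring
    have e4 : Real.log (A * y) - Real.log x.V = Real.log y - Real.log (x.V / A) := by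
      rw [e3, Real.log_div hV.ne' hA.ne']; ring
    rw [e4, e3, map_mul, map_mul, Complex.conj_ofReal, ← Weight600.pw_neg_left,
      Weight600.pw_mul hA.ne' hy.ne', one_mul]
    have e5 : pw (τg - τ₀) y = pw τg y * pw (-τ₀) y := by
      rw [← Weight600.pw_add_left, sub_eq_add_neg]
    rw [e5]
    ring
  · have hc' : ¬ (Squarefree (x.g₂ * (a.w * (a.g * δ))) ∧
        Crest.Agent.R017.C70.JC (FF (x.Sf a.q) x.c₀ x.g₁ a.ν (a.us * a.τ))) := hc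
    rw [if_neg hc, if_neg hc']
    ring

/-- the facts of an index -/
structure FI (x : XF) (a : Tu) (nδ nμ : ℕ) (i : Eis × Eis) : Prop where
  p1 : IsPrim i.1
  p2 : IsPrim i.2
  sq : Squarefree (i.1 * i.2)
  hsq : Squarefree (a.h * i.2)
  hμY : (nm (a.h * i.2) : ℝ) ≤ x.Y
  gX : (nm (a.g * i.1) : ℝ) ≤ x.Y
  gδ : IsPrim (a.g * i.1)
  Y1 : (nm i.1 : ℝ) ≤ x.Y
  Y2 : (nm i.2 : ℝ) ≤ x.Y
  nn : 1 / 2 ≤ x.nn a i.1
  a1 : (2 : ℝ) ^ nδ ≤ nm i.1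
  b1 : (nm i.1 : ℝ) ≤ 2 * 2 ^ nδ
  a2 : (2 : ℝ) ^ nμ ≤ nm i.2
  b2 : (nm i.2 : ℝ) ≤ 2 * 2 ^ nμ

lemma cell_FI (hx : XC x a Nα Rw) {nδ nμ : ℕ} {i : Eis × Eis} (hi : i ∈ x.cell a nδ nμ) :
    FI x a nδ nμ i := by
  unfold XF.cell XF.gd at hi
  obtain ⟨h1, h2⟩ := Finset.mem_filter.mp hi
  obtain ⟨h3, h4, h5⟩ := Finset.mem_filter.mp h1
  have hY : 0 ≤ x.Y := by linarith [hx.Y1]
  obtain ⟨p1, p2, sq, c1, c2, h6, h7, h8, h9⟩ := IP_mem hY h3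
  have e1 : lg i.1 = nδ := (Prod.mk.inj h2).1
  have e2 : lg i.2 = nμ := (Prod.mk.inj h2).2
  have g6 := (mem_S hx.X0).1 h6
  have g7 := (mem_S hY).1 h7
  have ng := nm_ge_one hx.g.ne_zero
  refine ⟨p1, p2, sq, g7.2.2.squarefree_of_dvd ⟨a.g, by ring⟩, ?_, g6.1.trans hx.XY, g6.2.1,
    ((mem_S hY).1 h8).1, ((mem_S hY).1 h9).1, h5, ?_, ?_, ?_, ?_⟩
  · refine le_trans ?_ g7.1
    rw [nm_mul a.g]; push_cast
    exact le_mul_of_one_le_left (Nat.cast_nonneg _) ng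
  · rw [← e1]; exact pow_lg_le p1.ne_zero
  · rw [← e1]; exact le_pow_lg i.1
  · rw [← e2]; exact pow_lg_le p2.ne_zero
  · rw [← e2]; exact le_pow_lg i.2

lemma FF_ne {nδ nμ : ℕ} {i : Eis × Eis} (h : FI x a nδ nμ i) : x.FFa a ≠ 0 := by
  intro h0
  have h1 := h.nn
  unfold XF.nn at h1
  rw [h0, nm_zero] at h1
  norm_num at h1

lemma Vp_pos (hx : XC x a Nα Rw) (hF : x.FFa a ≠ 0) : 0 < Vp x a := by
  unfold Vp
  have h1 := nmpos hF
  have h2 := nmpos (hx.g2.mul (hx.hs.hw.mul hx.g)).ne_zero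
  have h3 := nmpos hx.hs.hu.ne_zero
  have h4 := nmpos hx.h.ne_zero
  have := hx.V0
  positivity

lemma Vp_le (hx : XC x a Nα Rw) (hF : x.FFa a ≠ 0) : Vp x a ≤ x.Y := by
  refine le_trans ?_ hx.VY
  unfold Vp
  have h1 := nm_ge_one hF
  have h2 := nm_ge_one (hx.g2.mul (hx.hs.hw.mul hx.g)).ne_zero
  have h3 := nm_ge_one hx.hs.hu.ne_zero
  have h4 := nm_ge_one hx.h.ne_zero
  have := hx.V0
  refine div_le_self this.le ?_
  refine one_le_mul_of_one_le_of_one_le (one_le_mul_of_one_le_of_one_le h1 (one_le_pow₀ h2)) ?_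
  exact one_le_mul_of_one_le_of_one_le h3 h4

variable {nδ nμ : ℕ} {i : Eis × Eis}

lemma nn_le_Nh (hx : XC x a Nα Rw) (hi : FI x a nδ nμ i) : x.nn a i.1 ≤ Nh x a nδ := by
  have hV := Vp_pos hx (FF_ne hi)
  rw [nn_eq hx hi.p1.ne_zero]
  unfold Nh
  have e : (4 : ℝ) ^ nδ = (2 ^ nδ) ^ 2 := by
    rw [← pow_mul, mul_comm, pow_mul]; norm_num
  rw [e]
  have := hi.a1
  gcongr

lemma Nh_le_nn (hx : XC x a Nα Rw) (hi : FI x a nδ nμ i) : Nh x a nδ ≤ 4 * x.nn a i.1 := by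
  have hV := Vp_pos hx (FF_ne hi)
  have n1 := nmpos hi.p1.ne_zero
  rw [nn_eq hx hi.p1.ne_zero]
  unfold Nh
  have e : (4 : ℝ) ^ nδ = (2 ^ nδ) ^ 2 := by
    rw [← pow_mul, mul_comm, pow_mul]; norm_num
  rw [e]
  have h2 := hi.b1
  have h3 : (nm i.1 : ℝ) ^ 2 ≤ 4 * (2 ^ nδ) ^ 2 := by
    calc (nm i.1 : ℝ) ^ 2 ≤ (2 * 2 ^ nδ) ^ 2 := pow_le_pow_left₀ n1.le h2 2
      _ = _ := by ring
  rw [← mul_div_assoc, div_le_div_iff₀ (by positivity) (by positivity)]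
  calc Vp x a * (nm i.1 : ℝ) ^ 2 ≤ Vp x a * (4 * (2 ^ nδ) ^ 2) :=
        mul_le_mul_of_nonneg_left h3 hV.le
    _ = _ := by ring

lemma Nbh_le (hx : XC x a Nα Rw) (hi : FI x a nδ nμ i) : Nbh x a Nα nδ ≤ Nbi x a Nα i.1 := by
  unfold Nbh Nbi
  have e1 : (nm (x.g₂ * (a.w * (a.g * i.1))) : ℝ) = nm (x.g₂ * (a.w * a.g)) * nm i.1 := by
    rw [← Nat.cast_mul, ← nm_mul]
    congr 2
    ring
  have n1 := nmpos hi.p1.ne_zero
  have n2 := nmpos (hx.g2.mul (hx.hs.hw.mul hx.g)).ne_zero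
  have n3 := nmpos (hx.h.mul hx.hs.hu).ne_zero
  have hN := hx.Nα0
  rw [e1, div_mul_eq_mul_div]
  have := hi.b1
  gcongr

lemma Nbi_le (hx : XC x a Nα Rw) (hi : FI x a nδ nμ i) :
    Nbi x a Nα i.1 ≤ 2 * Nbh x a Nα nδ := by
  unfold Nbh Nbi
  have e1 : (nm (x.g₂ * (a.w * (a.g * i.1))) : ℝ) = nm (x.g₂ * (a.w * a.g)) * nm i.1 := by
    rw [← Nat.cast_mul, ← nm_mul]
    congr 2
    ring
  have n1 := nmpos hi.p1.ne_zero
  have n2 := nmpos (hx.g2.mul (hx.hs.hw.mul hx.g)).ne_zero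
  have n3 := nmpos (hx.h.mul hx.hs.hu).ne_zero
  have hN := hx.Nα0
  rw [e1, div_mul_eq_mul_div]
  have h1 := hi.a1
  have h2 : (0 : ℝ) < 2 ^ nδ := by positivity
  calc Nα * (nm (a.h * a.u) : ℝ) / (nm (x.g₂ * (a.w * a.g)) * nm i.1)
      ≤ Nα * (nm (a.h * a.u) : ℝ) / (nm (x.g₂ * (a.w * a.g)) * 2 ^ nδ) := by gcongr
    _ = _ := by field_simp

/-- the support of the inner coefficient -/
lemma cf_base (hx : XC x a Nα Rw) {δ : Eis} (hδ : IsPrim δ) {n : Eis}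
    (h : b0 (fun m => x.α (x.g₂ * (a.w * (a.g * δ)) * m)) (x.g₂ * (a.w * (a.g * δ)))
      x.e₀ (x.FFa a) n ≠ 0) : x.α (x.g₂ * (a.w * (a.g * δ)) * n) ≠ 0 ∧ IsPrim n ∧ Squarefree n := by
  obtain ⟨h1, h2⟩ := b0_ne h
  have he : IsPrim (x.g₂ * (a.w * (a.g * δ))) := hx.g2.mul (hx.hs.hw.mul (hx.g.mul hδ))
  have hn : IsPrim n := (hx.α.prim _ h1).of_mul_left he
  exact ⟨h1, hn, Gh_sqf hn h2⟩

lemma FS_base (hx : XC x a Nα Rw) {δ : Eis} (hδ : IsPrim δ) :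
    FS (b0 (fun m => x.α (x.g₂ * (a.w * (a.g * δ)) * m)) (x.g₂ * (a.w * (a.g * δ)))
      x.e₀ (x.FFa a)) :=
  FS_b0 (E4v92.FS_sub hx.α (hx.g2.mul (hx.hs.hw.mul (hx.g.mul hδ)))) _ _ _

lemma cb_win (hx : XC x a Nα Rw) {δ : Eis} (hδ : IsPrim δ) :
    Win (cb x a δ) (Real.log (Nb0 x a Nα δ)) Rw := by
  unfold cb Nb0
  have he : IsPrim (x.g₂ * (a.w * (a.g * δ))) := hx.g2.mul (hx.hs.hw.mul (hx.g.mul hδ))
  have ne := nmpos he.ne_zero
  intro n hn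
  obtain ⟨h1, h2, h3⟩ := cf_base hx hδ hn
  have h4 := hx.αW _ h1
  have nn := nmpos h2.ne_zero
  rw [nm_mul] at h4
  push_cast at h4
  rw [Real.log_mul ne.ne' nn.ne'] at h4
  rw [Real.log_div hx.Nα0.ne' ne.ne']
  have e : Real.log (nm n) - (Real.log Nα - Real.log (nm (x.g₂ * (a.w * (a.g * δ))))) =
      Real.log (nm (x.g₂ * (a.w * (a.g * δ)))) + Real.log (nm n) - Real.log Nα := by ring
  rw [e]
  exact h4

lemma cb_S (hx : XC x a Nα Rw) {δ : Eis} (hδ : IsPrim δ) {n : Eis}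
    (hn : cb x a δ n ≠ 0) : n ∈ S x.Y := by
  have he : IsPrim (x.g₂ * (a.w * (a.g * δ))) := hx.g2.mul (hx.hs.hw.mul (hx.g.mul hδ))
  have ne := nm_ge_one he.ne_zero
  have hY := hx.Y1
  have hY0 : 0 ≤ x.Y := by linarith
  obtain ⟨h1, h2, h3⟩ := cf_base hx hδ hn
  refine (mem_S hY0).2 ⟨?_, h2, h3⟩
  have h4 := hx.αY _ h1
  rw [nm_mul] at h4
  push_cast at h4
  exact le_trans (le_mul_of_one_le_left (Nat.cast_nonneg _) ne) h4

/-- the arrays vanish if `h` and `u` are not coprime -/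
lemma cz_zero {bm κ' : Eis → ℂ} {k : ℂ} (hu : IsPrim a.u) (h : ¬ IsCoprime a.h a.u)
    (i : Eis × Eis) : x.cz bm k κ' a i = 0 := by
  unfold XF.cz cZ
  rw [(syG.eq_zero a.h a.u hu).mpr h]
  ring

end cell

/-! ### the bound of a cell -/

/-- the parameter `Z` -/
def Zc (R₀ Y : ℝ) : ℝ := (Real.exp R₀ + 16) * Y ^ 12

variable {OK : ℝ → ℝ → Eis → Set Tst → Prop} {G : Eis → Prop} {ψ χ : Eis → ℂ} {w1 : ℝ → ℝ}
  {h : ℝ → ℝ}

lemma pdiv_card {I : Finset (Eis × Eis)} (hI : ∀ i ∈ I, IsPrim i.1 ∧ IsPrim i.2) {i : Eis × Eis}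
    (hi : i ∈ I) : (I.filter (fun j => j.1 * j.2 = i.1 * i.2)).card ≤ (pdiv (i.1 * i.2)).card := by
  obtain ⟨p1, p2⟩ := hI i hi
  refine Finset.card_le_card_of_injOn (fun j => j.1) ?_ ?_
  · intro j hj
    rw [Finset.mem_coe, Finset.mem_filter] at hj
    obtain ⟨h1, h2⟩ := hj
    rw [Finset.mem_coe, mem_pdiv (mul_ne_zero p1.ne_zero p2.ne_zero)]
    exact ⟨(hI j h1).1, ⟨j.2, h2.symm⟩⟩
  · intro j hj j' hj' h1
    rw [Finset.mem_coe, Finset.mem_filter] at hj hj'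
    have h2 : j.1 * j.2 = j'.1 * j'.2 := hj.2.trans hj'.2.symm
    have h1' : j.1 = j'.1 := h1
    rw [← h1'] at h2
    exact Prod.ext h1' (mul_left_cancel₀ (hI j hj.1).1.ne_zero h2)

set_option maxHeartbeats 8000000 in
/-- **the bound of a cell** -/
theorem cell_XB (hOK : OKW OK) (hχ : Mul1 χ) (hw1W : Wgt w1)
    (hP : PoHWp OK nfo G ψ χ (w6 w1)) {Rw : ℝ} (hRw : 0 ≤ Rw) (aS A : ℕ) (hA : 1 < A) {R₀ : ℝ}
    (hR₀ : 0 ≤ R₀) (hh : ContDiff ℝ ∞ h) (hhc : HasCompactSupport h)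
    (hw : ∀ x, w1 x ≠ 0 → 0 < x ∧ |Real.log x| ≤ R₀)
    (hw1 : ∀ x, 0 < x → h (Real.log x) ≠ 0 → w1 x = 1) {ε : ℝ} (hε : 0 < ε) :
    ∃ (C c cw : ℝ) (A' : ℕ), 0 ≤ C ∧ 1 ≤ c ∧ 1 ≤ cw ∧ 1 < A' ∧
      ∀ (x : XF) (a : Tu) (bm κ' : Eis → ℂ) (k : ℂ) (nδ nμ : ℕ) (Nα q L W1 Mb τ₀ τg : ℝ)
        (Om₀ : ℝ → ℂ), XC x a Nα Rw → (∀ y, IsPrim y → x.g₀ y = χ y * pw τg (nm y)) →
        (∀ t, 0 < t → x.Om t = ((h (Real.log t - Real.log x.V) : ℝ) : ℂ) *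
          (Om₀ (Real.log t) * pw τ₀ t)) → ContDiff ℝ ∞ Om₀ →
        (∀ n ≤ A' + 2, ∀ u, ‖iteratedDeriv n Om₀ u‖ ≤ Mb) → 0 ≤ Mb →
        0 < L → 0 ≤ W1 → 0 ≤ q →
        (∀ i ∈ x.cell a nδ nμ, x.cz bm k κ' a i ≠ 0 →
          (nk (Qa x a ^ 2) : ℝ) ≤ q ∧ q ≤ 16 * x.Y ^ 24 ∧
          (1 ≤ L → L * Real.exp Rw < Nbh x a Nα nδ ∧
            RXk (a.h * a.u) OK ψ aS A c (Zc R₀ x.Y ^ 3) (Nb0 x a Nα i.1)
              (8 * Nbh x a Nα nδ * L / Nh x a nδ) (Ri x a i) 1 (cb x a i.1) W1) ∧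
          GXk (a.h * a.u) G (Ri x a i) (cb x a i.1)) →
        CB4 x cw bm k κ' a nδ nμ
          (C * x.Y ^ ε * ((1 + |τg - τ₀|) ^ A' * Mb ^ 2))
          (C * x.Y ^ ε * ((1 + |τg - τ₀|) ^ A' * Mb ^ 2) *
            (36 * Th (x.κ / nm a.s ^ 2) (Nh x a nδ) q L *
                (1 + L * Nh x a nδ ^ (-(1 / 2) : ℝ)) +
              432 * (Nh x a nδ * (2 ^ nδ * 2 ^ nμ) ^ 2 / (x.κ / nm a.s ^ 2)) +
              36 * (Nh x a nδ * (2 ^ nδ * 2 ^ nμ) / (x.κ / nm a.s ^ 2) ^ (2 / 3 : ℝ))))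
          (C * x.Y ^ ε * ((1 + |τg - τ₀|) ^ A' * Mb ^ 2) *
            (36 * Th (x.κ / nm a.s ^ 2) (Nh x a nδ) q L * (L * Nh x a nδ ^ (-(1 / 2) : ℝ))))
          (C * x.Y ^ ε * ((1 + |τg - τ₀|) ^ A' * Mb ^ 2) *
            (18 * Th (x.κ / nm a.s ^ 2) (Nh x a nδ) q L *
              ((Real.sqrt L + Real.sqrt (L * Nh x a nδ / Nbh x a Nα nδ)) * W1))) := by
  obtain ⟨C₁, c, cw, A', hC₁, hc, hcw, hA', hmain⟩ := XBk hOK hχ hw1W hP hRw aS A hA hR₀ hh hhc hw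
    hw1 (ε := ε / 48) (by positivity)
  obtain ⟨Ct, hCt, hτ⟩ := tau_le_rpow (ε := ε / 8) (by positivity)
  have hCt0 : 0 ≤ Ct := by linarith
  set z0 : ℝ := Real.exp R₀ + 16 with hz0
  have hz0p : 0 < z0 := by positivity
  refine ⟨C₁ * Ct * z0 ^ (ε / 48), c, cw, A', by positivity, hc, hcw, hA', ?_⟩
  intro x a bm κ' k nδ nμ Nα q L W1 Mb τ₀ τg Om₀ hx hg hOm hOmC hOmB hMb hL hW1 hq00 hcell
  set I := (x.cell a nδ nμ).filter (fun i => x.cz bm k κ' a i ≠ 0) with hI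
  have har : ∀ i, x.cz bm k κ' a i = 0 → x.ar bm k κ' a i = fun _ => 0 := by
    intro i hz
    funext n
    unfold XF.ar SA
    rw [hz, zero_mul]
  have eAQ : ∀ b, AQ (x.cell a nδ nμ) (fun i => i.1 * i.2) (x.ar bm k κ' a) b =
      AQ I (fun i => i.1 * i.2) (x.ar bm k κ' a) b := by
    intro b
    unfold AQ
    rw [hI, Finset.sum_filter]
    refine Finset.sum_congr rfl fun i _ => ?_
    split_ifs with h1
    · rfl
    · rw [not_not] at h1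
      rw [har i h1, E4zz92.CS_zero', mul_zero]
  have eGB : ∀ A0 A1 A2 A3, ∑ i ∈ x.cell a nδ nμ, gb4 x cw bm k κ' a A0 A1 A2 A3 i =
      ∑ i ∈ I, gb4 x cw bm k κ' a A0 A1 A2 A3 i := by
    intro A0 A1 A2 A3
    rw [hI, Finset.sum_filter]
    refine Finset.sum_congr rfl fun i _ => ?_
    split_ifs with h1
    · rfl
    · rw [not_not] at h1
      unfold gb4
      rw [h1]
      simp
  unfold CB4
  rw [eGB]
  simp only [eAQ]
  by_cases hne : I.Nonempty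
  swap
  · rw [Finset.not_nonempty_iff_eq_empty] at hne
    unfold AQ
    rw [hne]
    simp
  obtain ⟨i₀, hi₀'⟩ := hne
  have hI0 : ∀ i ∈ I, i ∈ x.cell a nδ nμ ∧ x.cz bm k κ' a i ≠ 0 := fun i hi => by
    rw [hI, Finset.mem_filter] at hi; exact hi
  have hi₀ := (hI0 i₀ hi₀').1
  have hu : IsCoprime a.h a.u := by
    by_contra hu
    exact (hI0 i₀ hi₀').2 (cz_zero hx.hs.hu hu i₀)
  obtain ⟨hq0, hqY, -, -⟩ := hcell i₀ hi₀ (hI0 i₀ hi₀').2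
  have hLN : 1 ≤ L → L * Real.exp Rw < Nbh x a Nα nδ := fun h1 =>
    ((hcell i₀ hi₀ (hI0 i₀ hi₀').2).2.2.1 h1).1
  have hRX : 1 ≤ L → ∀ i ∈ I, RXk (a.h * a.u) OK ψ aS A c (Zc R₀ x.Y ^ 3)
      (Nb0 x a Nα i.1) (8 * Nbh x a Nα nδ * L / Nh x a nδ) (Ri x a i) 1 (cb x a i.1) W1 :=
    fun h1 i hi => ((hcell i (hI0 i hi).1 (hI0 i hi).2).2.2.1 h1).2
  have hGX : ∀ i ∈ I, GXk (a.h * a.u) G (Ri x a i) (cb x a i.1) := fun i hi =>
    (hcell i (hI0 i hi).1 (hI0 i hi).2).2.2.2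
  have f0 := cell_FI hx hi₀
  have hF := FF_ne f0
  have hY1 := hx.Y1
  have hY0 : 0 < x.Y := by linarith
  have hV0 := hx.V0
  have hVp := Vp_pos hx hF
  have hVpY := Vp_le hx hF
  have hhu : Squarefree (a.h * a.u) := by
    have h1 : Squarefree a.h := f0.hsq.squarefree_of_dvd ⟨i₀.2, rfl⟩
    have h2 : Squarefree a.u := hx.hs.huq.squarefree_of_dvd ⟨a.us, by ring⟩
    exact squarefree_mul_iff.mpr ⟨hu.isRelPrime, h1, h2⟩
  have fi : ∀ i ∈ I, FI x a nδ nμ i := fun i hi => cell_FI hx (hI0 i hi).1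
  have ns := nm_ge_one hx.hs.hs.ne_zero
  have ns0 : (0 : ℝ) < nm a.s := by linarith
  set K : ℝ := x.κ / nm a.s ^ 2 with hK
  have hK0 : 0 < K := by have := hx.κ0; positivity
  have hK2 : K⁻¹ ≤ 2 := by
    rw [inv_le_comm₀ hK0 (by norm_num), hK, le_div_iff₀ (by positivity)]
    have := hx.s2
    linarith
  set N : ℝ := Nh x a nδ with hN
  have hN0 : 0 < N := by rw [hN]; unfold Nh; positivity
  have h4p : (1 : ℝ) ≤ 4 ^ nδ := one_le_pow₀ (by norm_num)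
  have hNY : N ≤ x.Y := by
    refine le_trans ?_ hVpY
    rw [hN]; unfold Nh
    exact div_le_self hVp.le h4p
  set Nb : ℝ := Nbh x a Nα nδ with hNb
  have nhu0 := nmpos (hx.h.mul hx.hs.hu).ne_zero
  have hNb0 : 0 < Nb := by
    rw [hNb]; unfold Nbh
    have g1 := nmpos (hx.g2.mul (hx.hs.hw.mul hx.g)).ne_zero
    have g3 := hx.Nα0
    positivity
  set m₀ : ℝ := 2 ^ nδ * 2 ^ nμ with hm₀
  have hm0 : 0 < m₀ := by positivity
  have hm0Y : m₀ ≤ x.Y ^ 2 := by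
    calc m₀ ≤ nm i₀.1 * nm i₀.2 := mul_le_mul f0.a1 f0.a2 (by positivity) (Nat.cast_nonneg _)
      _ ≤ x.Y * x.Y := mul_le_mul f0.Y1 f0.Y2 (Nat.cast_nonneg _) hY0.le
      _ = x.Y ^ 2 := by ring
  set H : ℝ := K * L / (5832 * N ^ 2) with hH
  have hH0 : 0 < H := by positivity
  set Λ : ℝ := 4 * N * m₀ ^ 2 with hΛ
  have hΛ0 : 0 < Λ := by positivity
  set Z : ℝ := Zc R₀ x.Y with hZ
  have hexp : 0 < Real.exp R₀ := Real.exp_pos _
  have hYk : ∀ j : ℕ, j ≤ 12 → x.Y ^ j ≤ x.Y ^ 12 := fun j hj => pow_le_pow_right₀ hY1 hj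
  have hZk : ∀ j : ℕ, j ≤ 12 → 16 * x.Y ^ j ≤ Z := by
    intro j hj
    have h1 := hYk j hj
    have h2 : 0 ≤ x.Y ^ 12 := by positivity
    rw [hZ]; unfold Zc
    nlinarith
  have hZj : ∀ j : ℕ, j ≤ 12 → x.Y ^ j ≤ Z := by
    intro j hj
    have h1 := hZk j hj
    have h2 : 0 ≤ x.Y ^ j := by positivity
    linarith
  have hZ4 : ∀ j : ℕ, j ≤ 12 → 4 * x.Y ^ j ≤ Z := by
    intro j hj
    have h1 := hZk j hj
    have h2 : 0 ≤ x.Y ^ j := by positivity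
    linarith
  have hZ1 : 1 ≤ Z := by simpa using hZj 0 (by norm_num)
  have hZ0 : 0 < Z := by linarith
  have hZY : x.Y ≤ Z := by simpa using hZj 1 (by norm_num)
  have hZe : Real.exp R₀ * x.Y ≤ Z := by
    rw [hZ]; unfold Zc
    have h1 : x.Y ≤ x.Y ^ 12 := by simpa using hYk 1 (by norm_num)
    have h2 : 0 ≤ x.Y ^ 12 := by positivity
    nlinarith [mul_le_mul_of_nonneg_left h1 hexp.le]
  -- the index facts
  have nn0 : ∀ i ∈ I, 0 < x.nn a i.1 := fun i hi => by linarith [(fi i hi).nn]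
  have nnN : ∀ i ∈ I, x.nn a i.1 ≤ N := fun i hi => nn_le_Nh hx (fi i hi)
  have Nnn : ∀ i ∈ I, N ≤ 4 * x.nn a i.1 := fun i hi => Nh_le_nn hx (fi i hi)
  have NbI : ∀ i ∈ I, Nb ≤ Nbi x a Nα i.1 := fun i hi => Nbh_le hx (fi i hi)
  have INb : ∀ i ∈ I, Nbi x a Nα i.1 ≤ 2 * Nb := fun i hi => Nbi_le hx (fi i hi)
  have nmm : ∀ i : Eis × Eis, (nm (i.1 * i.2) : ℝ) = nm i.1 * nm i.2 := fun i => by
    rw [nm_mul]; push_cast; ring
  have hNm : ∀ i ∈ I, x.nn a i.1 * nm (i.1 * i.2) ≤ 2 * N * m₀ := by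
    intro i hi
    have f := fi i hi
    have n1 := nmpos f.p1.ne_zero
    have h1 : x.nn a i.1 * nm i.1 ≤ N * 2 ^ nδ := by
      rw [nn_eq hx f.p1.ne_zero, hN]
      unfold Nh
      have e : (4 : ℝ) ^ nδ = 2 ^ nδ * 2 ^ nδ := by
        rw [← mul_pow]; norm_num
      have e1 : Vp x a / (nm i.1 : ℝ) ^ 2 * nm i.1 = Vp x a / nm i.1 := by
        field_simp
      have e2 : Vp x a / 4 ^ nδ * 2 ^ nδ = Vp x a / 2 ^ nδ := by
        rw [e]; field_simp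
      rw [e1, e2]
      exact div_le_div_of_nonneg_left hVp.le (by positivity) f.a1
    rw [nmm]
    calc x.nn a i.1 * (nm i.1 * nm i.2) = (x.nn a i.1 * nm i.1) * nm i.2 := by ring
      _ ≤ (N * 2 ^ nδ) * (2 * 2 ^ nμ) := mul_le_mul h1 f.b2 (Nat.cast_nonneg _) (by positivity)
      _ = _ := by rw [hm₀]; ring
  have hLs : ∀ i ∈ I, Lst K H Λ m₀ (x.nn a i.1) (nm (i.1 * i.2)) ≤ L := fun i hi =>
    Lst_le hK0 hN0 hL hm0 (hNm i hi)
  have hLs0 : ∀ i ∈ I, 0 ≤ Lst K H Λ m₀ (x.nn a i.1) (nm (i.1 * i.2)) := by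
    intro i hi
    have := nn0 i hi
    unfold Lst; positivity
  have hmi4 : ∀ i ∈ I, (nm (i.1 * i.2) : ℝ) ≤ 4 * m₀ := by
    intro i hi
    have f := fi i hi
    rw [nmm]
    calc (nm i.1 : ℝ) * nm i.2 ≤ (2 * 2 ^ nδ) * (2 * 2 ^ nμ) :=
          mul_le_mul f.b1 f.b2 (Nat.cast_nonneg _) (by positivity)
      _ = _ := by rw [hm₀]; ring
  have hLL : L ≤ L * Real.exp Rw := le_mul_of_one_le_right hL.le (Real.one_le_exp hRw)
  have hu2 : (nm a.u : ℝ) ≤ 2 * x.Y := by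
    have h1 := f0.nn
    unfold XF.nn at h1
    have g1 := nm_ge_one hF
    have g2 := nm_ge_one (hx.g2.mul (hx.hs.hw.mul f0.gδ)).ne_zero
    have g3 := nm_ge_one hx.hs.hu.ne_zero
    have g4 := nm_ge_one hx.h.ne_zero
    have g5 : (nm a.u : ℝ) ≤ (nm (x.FFa a) : ℝ) * (nm (x.g₂ * (a.w * (a.g * i₀.1))) : ℝ) ^ 2 *
        (nm a.u * nm a.h) := by
      calc (nm a.u : ℝ) = 1 * 1 ^ 2 * (nm a.u * 1) := by ring
        _ ≤ _ := by gcongr
    rw [le_div_iff₀ (by linarith)] at h1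
    have := hx.VY
    linarith
  have hs2 : (nm a.s : ℝ) ^ 2 ≤ 2 * x.Y := hx.s2.trans (by linarith [hx.κY])
  have hs1 : (nm a.s : ℝ) ≤ 2 * x.Y := (le_self_pow₀ ns (by norm_num)).trans hs2
  have hNbiY : ∀ i ∈ I, Nbi x a Nα i.1 ≤ 2 * x.Y ^ 3 := by
    intro i hi
    have f := fi i hi
    unfold Nbi
    have ne := nm_ge_one (hx.g2.mul (hx.hs.hw.mul f.gδ)).ne_zero
    have h1 : Nα / nm (x.g₂ * (a.w * (a.g * i.1))) ≤ x.Y := (div_le_self hx.Nα0.le ne).trans hx.NαY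
    have h2 : (nm (a.h * a.u) : ℝ) ≤ x.Y * (2 * x.Y) := by
      rw [nm_mul]; push_cast
      exact mul_le_mul hx.hY hu2 (Nat.cast_nonneg _) hY0.le
    calc _ ≤ x.Y * (x.Y * (2 * x.Y)) := mul_le_mul h1 h2 (Nat.cast_nonneg _) hY0.le
      _ = _ := by ring
  -- the factors `A_i`
  set Af : Eis × Eis → ℝ := fun i => (nm (x.FFa a) : ℝ) *
    (nm (x.g₂ * (a.w * (a.g * i.1))) : ℝ) ^ 2 * (nm a.u * nm a.h) with hAf
  set omi : Eis × Eis → ℝ → ℂ := fun i y => pw τg y *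
    WW (x.Sf a.q) x.c₀ x.g₁ x.g₂ a.ν (a.us * a.τ) x.Om (a.w * (a.g * i.1))
      (nm a.u * (nm a.h * y)) with homi
  set κi : Eis × Eis → ℂ := fun i => (if Squarefree (x.g₂ * (a.w * (a.g * i.1))) ∧
    Crest.Agent.R017.C70.JC (x.FFa a) then 1 else 0) * pw (-τ₀) (Af i) with hκi
  set Omi : Eis × Eis → ℝ → ℂ := fun i u => conj (Om₀ (u + Real.log (Af i))) with hOmi
  have homE : ∀ i ∈ I, ∀ y, 0 < y → omi i y = κi i * (((h (Real.log y - Real.log (x.nn a i.1)) : ℝ) :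
      ℂ) * Omi i (Real.log y) * pw (τg - τ₀) y) := fun i hi y hy =>
    om_eq hx hF hOm (fi i hi).p1 hy
  have hVE : ∀ i, x.ar bm k κ' a i = SA χ (x.cz bm k κ' a i) (Qa x a) (omi i) (Ri x a i)
      (x.cf a i.1) := fun i => SA_char hg _ _ _ _ _
  have hhs : ∀ y, 0 < y → h (Real.log y) ≠ 0 → |Real.log y| ≤ R₀ := fun y hy h1 =>
    (hw y (by rw [hw1 y hy h1]; norm_num)).2
  have hRne : ∀ i ∈ I, Ri x a i ≠ 0 := by
    intro i hi
    have f := fi i hi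
    have e1 := hx.S.ne_zero
    have e2 := hx.M0
    have e3 := hx.ν.ne_zero
    have e4 := hx.hs.hu.ne_zero
    have e5 := hx.q
    have e6 := hx.hs.hs.ne_zero
    have e7 := hx.D.ne_zero
    have e8 := hx.g.ne_zero
    have e9 := hx.h.ne_zero
    have e10 := f.p1.ne_zero
    have e11 := f.p2.ne_zero
    unfold Ri RQ
    simp only [mul_ne_zero_iff]
    tauto
  have hmR : ∀ i : Eis × Eis, i.1 * i.2 ∣ Ri x a i := fun i =>
    ⟨x.Sf a.q * x.M * a.ν * a.u * (x.q * a.s * x.D * a.g * x.Sf a.q) * a.h * a.h, by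
      unfold Ri RQ; ring⟩
  have hRZ : ∀ i ∈ I, (nm (Ri x a i) : ℝ) ≤ 4 * x.Y ^ 11 := by
    intro i hi
    have f := fi i hi
    have e1 := hx.SY
    have e2 := hx.MY
    have e3 := hx.νY
    have e4 := hu2
    have e5 := hx.qY
    have e6 := hs1
    have e7 := hx.DY
    have e8 := f.gX
    have e9 := f.hμY
    have e10 := hx.hY
    unfold Ri RQ
    rw [nm_mul, nm_mul, nm_mul (x.Sf a.q * x.M * a.ν * a.u), nm_mul, nm_mul, nm_mul,
      nm_mul (x.q * a.s * x.D * (a.g * i.1)), nm_mul (x.q * a.s * x.D), nm_mul, nm_mul]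
    push_cast
    calc (nm (x.Sf a.q) : ℝ) * nm x.M * nm a.ν * nm a.u *
        (nm x.q * nm a.s * nm x.D * nm (a.g * i.1) * nm (x.Sf a.q)) * nm (a.h * i.2) * nm a.h
        ≤ x.Y * x.Y * x.Y * (2 * x.Y) * (x.Y * (2 * x.Y) * x.Y * x.Y * x.Y) * x.Y * x.Y := by gcongr
      _ = 4 * x.Y ^ 11 := by ring
  have hQZ : (nm (Qa x a) : ℝ) ≤ 4 * x.Y ^ 11 := by
    have e1 := hx.c0Y
    have e2 := hx.g1Y
    have e3 := hx.usY
    have e4 := hx.τY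
    have e5 := hx.q1Y
    have e6 := hx.q2Y
    have e7 := hx.DY
    have e8 := hs1
    unfold Qa QQ
    simp only [nm_mul, nm_pow]
    push_cast
    calc (nm x.c₀ : ℝ) * nm x.g₁ * (nm a.us * nm a.τ) *
        (nm x.q₁ * (nm x.q₂ : ℝ) ^ 2 * ((nm x.D : ℝ) ^ 2 * (nm a.s : ℝ) ^ 2))
        ≤ x.Y * x.Y * (x.Y * x.Y) * (x.Y * x.Y ^ 2 * (x.Y ^ 2 * (2 * x.Y) ^ 2)) := by gcongr
      _ = 4 * x.Y ^ 11 := by ring
  have hQne : Qa x a ≠ 0 := by
    have e1 := hx.c0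
    have e2 := hx.g1.ne_zero
    have e3 := hx.hs.hus.ne_zero
    have e4 := hx.τ.ne_zero
    have e5 := hx.q1.ne_zero
    have e6 := hx.q2.ne_zero
    have e7 := hx.D.ne_zero
    have e8 := hx.hs.hs.ne_zero
    unfold Qa QQ
    exact mul_ne_zero (mul_ne_zero (mul_ne_zero e1 e2) (mul_ne_zero e3 e4))
      (mul_ne_zero (mul_ne_zero e5 (pow_ne_zero _ e6)) (mul_ne_zero (pow_ne_zero _ e7)
        (pow_ne_zero _ e8)))
  set T : ℕ := ⌊Ct * x.Y ^ (ε / 4)⌋₊ with hT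
  have hTle : (T : ℝ) ≤ Ct * x.Y ^ (ε / 4) := Nat.floor_le (by positivity)
  have hNb0i : ∀ i ∈ I, 0 < Nb0 x a Nα i.1 ∧ Nb0 x a Nα i.1 ≤ x.Y := by
    intro i hi
    have f := fi i hi
    have ne := nm_ge_one (hx.g2.mul (hx.hs.hw.mul f.gδ)).ne_zero
    unfold Nb0
    exact ⟨div_pos hx.Nα0 (by linarith), (div_le_self hx.Nα0.le ne).trans hx.NαY⟩
  have hXD : XDk OK G ψ aS A A' c Rw h χ I T (fun i => x.nn a i.1) (fun i => Nb0 x a Nα i.1)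
      (fun _ => W1) (fun _ => q) (fun i => i.1 * i.2) (fun _ => Qa x a) (fun i => Ri x a i)
      (fun _ => 1) (fun _ => a.h * a.u) (x.ar bm k κ' a) (fun i => cb x a i.1) (x.cz bm k κ' a) κi
      omi Omi K H Λ m₀ Z Mb (τg - τ₀) := by
    refine
      { pi := ⟨hZ0.le, fun i hi => (fi i hi).p1.mul (fi i hi).p2, fun i hi => (fi i hi).sq, ?_, ?_⟩
        Z1 := hZ1
        K0 := hK0
        KZ := hK2.trans (by have := hZk 0 (by norm_num); simp at this; linarith)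
        H0 := hH0
        m0 := hm0
        ΛZ := ?_
        Mb0 := hMb
        N0 := nn0
        NZ := fun i hi => ((nnN i hi).trans hNY).trans hZY
        mZ := ?_
        mm := ?_
        NΛ := ?_
        hT := ?_
        VE := fun i _ => hVE i
        FSb := fun i hi => FS_base hx (fi i hi).p1
        bS := ?_
        Nb0 := fun i hi => (hNb0i i hi).1
        NbZ := fun i hi => (hNb0i i hi).2.trans hZY
        bW := fun i hi => cb_win hx (fi i hi).p1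
        κp := fun _ _ => hx.h.mul hx.hs.hu
        κs := fun _ _ => hhu
        κZ := ?_
        Q0 := fun _ _ => hQne
        QZ := fun _ _ => hQZ.trans (hZ4 11 (by norm_num))
        R0 := hRne
        RZ := fun i hi => (hRZ i hi).trans (hZ4 11 (by norm_num))
        ρR := ?_
        mR := fun i _ => hmR i
        LstZ := ?_
        q0 := fun _ _ => hq0
        qZ := ?_
        W0 := fun _ _ => hW1
        LN := ?_
        RX := ?_
        GX := hGX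
        κ1 := ?_
        OmC := fun i _ => contDiff_conj_shift hOmC _
        OmB := fun i _ n hn y => by
          rw [hOmi]; beta_reduce
          rw [iter_conj_shift]; exact hOmB n hn _
        omE := homE }
    · intro i hi n hn
      rw [hVE i] at hn
      obtain ⟨hp, hs, hcop, ho⟩ := SA_supp hn
      have nn' := nmpos hp.ne_zero
      rw [homE i hi (nm n) nn'] at ho
      have hhn : h (Real.log (nm n) - Real.log (x.nn a i.1)) ≠ 0 := by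
        intro h0
        rw [h0] at ho
        exact ho (by simp)
      have hNi := nn0 i hi
      have e2 : Real.log (nm n) - Real.log (x.nn a i.1) = Real.log (nm n / x.nn a i.1) :=
        (Real.log_div nn'.ne' hNi.ne').symm
      have h1 : |Real.log (nm n / x.nn a i.1)| ≤ R₀ := by
        refine hhs _ (by positivity) ?_
        rw [← e2]; exact hhn
      have h2 : (nm n : ℝ) / x.nn a i.1 ≤ Real.exp R₀ := by
        rw [← Real.log_le_iff_le_exp (by positivity)]; exact (abs_le.mp h1).2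
      rw [div_le_iff₀ hNi] at h2
      refine (mem_S hZ0.le).2 ⟨h2.trans ?_, hp, hs⟩
      exact (mul_le_mul_of_nonneg_left ((nnN i hi).trans hNY) hexp.le).trans hZe
    · intro i hi n hn
      rw [hVE i] at hn
      obtain ⟨hp, hs, hcop, ho⟩ := SA_supp hn
      exact IsCoprime.of_isCoprime_of_dvd_right hcop (hmR i)
    · have h1 : Λ ≤ 16 * x.Y ^ 5 := by
        calc Λ ≤ 4 * x.Y * (x.Y ^ 2) ^ 2 := by rw [hΛ]; gcongr
          _ = 4 * x.Y ^ 5 := by ring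
          _ ≤ 16 * x.Y ^ 5 := by
              have : 0 ≤ x.Y ^ 5 := by positivity
              linarith
      exact (h1.trans (hZk 5 (by norm_num))).trans (le_self_pow₀ hZ1 (by norm_num))
    · intro i hi
      have f := fi i hi
      beta_reduce
      rw [nmm]
      calc (nm i.1 : ℝ) * nm i.2 ≤ x.Y * x.Y := mul_le_mul f.Y1 f.Y2 (Nat.cast_nonneg _) hY0.le
        _ = x.Y ^ 2 := by ring
        _ ≤ Z := hZj 2 (by norm_num)
    · intro i hi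
      have f := fi i hi
      beta_reduce
      rw [nmm, hm₀]
      exact mul_le_mul f.a1 f.a2 (by positivity) (Nat.cast_nonneg _)
    · intro i hi
      have f := fi i hi
      have n1 := nmpos f.p1.ne_zero
      beta_reduce
      rw [nmm, nn_eq hx f.p1.ne_zero, hΛ, hN, hm₀]
      unfold Nh
      have e : (4 : ℝ) ^ nδ = (2 ^ nδ) ^ 2 := by
        rw [← pow_mul, mul_comm, pow_mul]; norm_num
      rw [e]
      have e1 : Vp x a / (nm i.1 : ℝ) ^ 2 * ((nm i.1 : ℝ) * nm i.2) ^ 2 =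
          Vp x a * (nm i.2 : ℝ) ^ 2 := by field_simp
      have e2 : 4 * (Vp x a / (2 ^ nδ) ^ 2) * ((2 : ℝ) ^ nδ * 2 ^ nμ) ^ 2 =
          Vp x a * (2 * 2 ^ nμ) ^ 2 := by field_simp; ring
      rw [e1, e2]
      have := f.b2
      gcongr
    · intro i hi
      have f := fi i hi
      refine Nat.le_floor ?_
      have h1 : ((I.filter (fun j => j.1 * j.2 = i.1 * i.2)).card : ℝ) ≤
          (pdiv (i.1 * i.2)).card := by
        exact_mod_cast pdiv_card (fun j hj => ⟨(fi j hj).p1, (fi j hj).p2⟩) hi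
      refine h1.trans ?_
      have hne : i.1 * i.2 ≠ 0 := mul_ne_zero f.p1.ne_zero f.p2.ne_zero
      rw [← dvs_eq_pdiv hne]
      refine (hτ _ hne).trans (mul_le_mul_of_nonneg_left ?_ hCt0)
      have h2 : (nm (i.1 * i.2) : ℝ) ≤ x.Y ^ 2 := by
        rw [nmm]
        calc (nm i.1 : ℝ) * nm i.2 ≤ x.Y * x.Y := mul_le_mul f.Y1 f.Y2 (Nat.cast_nonneg _) hY0.le
          _ = x.Y ^ 2 := by ring
      calc (nm (i.1 * i.2) : ℝ) ^ (ε / 8) ≤ (x.Y ^ 2) ^ (ε / 8) :=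
            Real.rpow_le_rpow (Nat.cast_nonneg _) h2 (by positivity)
        _ = x.Y ^ (ε / 4) := by
            rw [← Real.rpow_natCast, ← Real.rpow_mul hY0.le]
            congr 1; push_cast; ring
    · intro i hi n hn
      have h1 := cb_S hx (fi i hi).p1 hn
      rw [mem_S hY0.le] at h1
      exact (mem_S hZ0.le).2 ⟨h1.1.trans hZY, h1.2⟩
    · intro i hi
      rw [nm_mul]; push_cast
      calc (nm a.h : ℝ) * nm a.u ≤ x.Y * (2 * x.Y) :=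
            mul_le_mul hx.hY hu2 (Nat.cast_nonneg _) hY0.le
        _ = 2 * x.Y ^ 2 := by ring
        _ ≤ 4 * x.Y ^ 2 := by
            have : 0 ≤ x.Y ^ 2 := by positivity
            linarith
        _ ≤ Z := hZ4 2 (by norm_num)
    · intro i hi
      exact ⟨x.Sf a.q * x.M * a.ν * (x.q * a.s * x.D * (a.g * i.1) * x.Sf a.q) * i.2 * a.h, by
        unfold Ri RQ; ring⟩
    · intro i hi
      rcases le_total 1 L with h1L | h1L
      · refine ((hLs i hi).trans (hLL.trans (hLN h1L).le)).trans (((NbI i hi).trans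
          (hNbiY i hi)).trans ?_)
        have h3 := hZ4 3 (by norm_num)
        have : 0 ≤ x.Y ^ 3 := by positivity
        linarith
      · exact ((hLs i hi).trans h1L).trans hZ1
    · intro i hi
      calc q ≤ 16 * x.Y ^ 24 := hqY
        _ = (4 * x.Y ^ 12) ^ 2 := by ring
        _ ≤ Z ^ 2 := pow_le_pow_left₀ (by positivity) (hZ4 12 (by norm_num)) 2
    · intro i hi h1s
      calc _ ≤ L * Real.exp Rw := mul_le_mul_of_nonneg_right (hLs i hi) (Real.exp_pos _).le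
        _ < Nb := hLN (h1s.trans (hLs i hi))
        _ ≤ _ := NbI i hi
    · intro i hi h1s
      refine RXk.mono (hRX (h1s.trans (hLs i hi)) i hi) ?_
      have h1 := nn0 i hi
      have h2 := Nnn i hi
      have h3 := INb i hi
      have h4 := hLs i hi
      have h5 := hLs0 i hi
      have h6 := NbI i hi
      have h7 : Nbi x a Nα i.1 / x.nn a i.1 ≤ 2 * Nb / (N / 4) :=
        div_le_div₀ (by positivity) h3 (by positivity) (by linarith)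
      calc Nbi x a Nα i.1 / x.nn a i.1 * Lst K H Λ m₀ (x.nn a i.1) (nm (i.1 * i.2))
          ≤ 2 * Nb / (N / 4) * L := mul_le_mul h7 h4 h5 (by positivity)
        _ = 8 * Nb * L / N := by field_simp; ring
    · intro i hi
      rw [hκi]; beta_reduce
      rw [norm_mul, Weight600.norm_pw, mul_one]
      split_ifs <;> simp
  have hres := hmain hXD (As x.M x.κ a.s) (fun b hb => by
    obtain ⟨h1, h2, h3, h4, h5⟩ := mem_As hx.κ0.le hb
    exact ⟨h1, h4, h5⟩)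
  refine hres.trans ?_
  set M : ℝ := (1 + |τg - τ₀|) ^ A' * Mb ^ 2 with hM
  have hM0 : 0 ≤ M := by positivity
  -- the constant
  have hconst : C₁ * T * Z ^ (ε / 48) ≤ C₁ * Ct * z0 ^ (ε / 48) * x.Y ^ ε := by
    have e1 : Z ^ (ε / 48) = z0 ^ (ε / 48) * x.Y ^ (ε / 4) := by
      rw [hZ]; unfold Zc
      rw [← hz0, Real.mul_rpow hz0p.le (by positivity)]
      congr 1
      rw [← Real.rpow_natCast, ← Real.rpow_mul hY0.le]
      congr 1; push_cast; ring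
    have e2 : x.Y ^ (ε / 4) * x.Y ^ (ε / 4) ≤ x.Y ^ ε := by
      rw [← Real.rpow_add hY0]
      exact Real.rpow_le_rpow_of_exponent_le hY1 (by linarith)
    rw [e1]
    calc C₁ * T * (z0 ^ (ε / 48) * x.Y ^ (ε / 4)) ≤
        C₁ * (Ct * x.Y ^ (ε / 4)) * (z0 ^ (ε / 48) * x.Y ^ (ε / 4)) := by gcongr
      _ = C₁ * Ct * z0 ^ (ε / 48) * (x.Y ^ (ε / 4) * x.Y ^ (ε / 4)) := by ring
      _ ≤ _ := mul_le_mul_of_nonneg_left e2 (by positivity)
  set E : ℝ := C₁ * Ct * z0 ^ (ε / 48) * x.Y ^ ε * M with hE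
  have hE0 : 0 ≤ E := by positivity
  set Θ : ℝ := Th K N q L with hΘ
  have hΘ0 : 0 ≤ Θ := Th_nonneg hK0 hL hq00
  have hidx : ∀ i ∈ I, C₁ * T * Z ^ (ε / 48) * M * (‖x.cz bm k κ' a i‖ ^ 2 *
      x.nn a i.1 ^ (-(1 / 3) : ℝ) * XBj K H Λ m₀ (x.nn a i.1) (nm (i.1 * i.2)) q (Nbi x a Nα i.1) W1
        cw (Ri x a i) (x.cf a i.1)) ≤ gb4 x cw bm k κ' a E
        (E * (36 * Θ * (1 + L * N ^ (-(1 / 2) : ℝ)) + 432 * (N * m₀ ^ 2 / K) +
          36 * (N * m₀ / K ^ (2 / 3 : ℝ))))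
        (E * (36 * Θ * (L * N ^ (-(1 / 2) : ℝ))))
        (E * (18 * Θ * ((Real.sqrt L + Real.sqrt (L * N / Nb)) * W1))) i := by
    intro i hi
    have h1 := nn0 i hi
    have h2 := Nnn i hi
    have h3 := nnN i hi
    have h4 := hLs i hi
    have h5 := hLs0 i hi
    have h6 := NbI i hi
    have hNbi0 : 0 < Nbi x a Nα i.1 := lt_of_lt_of_le hNb0 h6
    set Ls := Lst K H Λ m₀ (x.nn a i.1) (nm (i.1 * i.2)) with hLsd
    have t1 := TW_nonneg 1 (cw * x.nn a i.1) (x.cf a i.1)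
    have t2 := TW_nonneg (1 / 2) (cw * x.nn a i.1) (x.cf a i.1)
    set T1 := TW 1 (cw * x.nn a i.1) (x.cf a i.1) with hT1
    set T2 := TW (1 / 2) (cw * x.nn a i.1) (x.cf a i.1) with hT2
    have k1 := kap1_le (K := K) (N := N) (q := q) (L := L) (m₀ := m₀) (mi := nm (i.1 * i.2)) hK0 hN0
      hL hq00 hm0 (hmi4 i hi)
    rw [← hH, ← hΛ, ← hΘ] at k1
    have k2 : Real.sqrt Ls ≤ Real.sqrt L := Real.sqrt_le_sqrt h4
    have k3 : Real.sqrt (Ls * x.nn a i.1 / Nbi x a Nα i.1) ≤ Real.sqrt (L * N / Nb) := by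
      refine Real.sqrt_le_sqrt ?_
      exact div_le_div₀ (by positivity) (mul_le_mul h4 h3 h1.le hL.le) hNb0 h6
    have k4 : x.nn a i.1 ^ (-(1 / 2) : ℝ) ≤ 2 * N ^ (-(1 / 2) : ℝ) := by
      calc x.nn a i.1 ^ (-(1 / 2) : ℝ) ≤ (N / 4) ^ (-(1 / 2) : ℝ) :=
            Real.rpow_le_rpow_of_nonpos (by positivity) (by linarith) (by norm_num)
        _ = 2 * N ^ (-(1 / 2) : ℝ) := by
            rw [Real.div_rpow hN0.le (by norm_num)]
            have : (4 : ℝ) ^ (-(1 / 2) : ℝ) = 1 / 2 := by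
              have h : (4 : ℝ) = 2 ^ (2 : ℝ) := by norm_num
              rw [h, ← Real.rpow_mul (by norm_num)]
              norm_num
            rw [this]; field_simp
    have k5 : Ls * x.nn a i.1 ^ (-(1 / 2) : ℝ) ≤ 2 * (L * N ^ (-(1 / 2) : ℝ)) := by
      calc Ls * x.nn a i.1 ^ (-(1 / 2) : ℝ) ≤ L * (2 * N ^ (-(1 / 2) : ℝ)) :=
            mul_le_mul h4 k4 (by positivity) hL.le
        _ = _ := by ring
    have e0 := H3_eq (K := K) (N := N) (L := L) (q := q) hK0 hN0 hL hq00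
    rw [← hH, ← hΘ] at e0
    have t0 := TD_nonneg (cw * x.nn a i.1) (Ri x a i) (x.cf a i.1)
    unfold XBj gb4
    rw [← hLsd, ← hT1, ← hT2, e0]
    set T0 := TD (cw * x.nn a i.1) (Ri x a i) (x.cf a i.1) with hT0
    have hcz : 0 ≤ ‖x.cz bm k κ' a i‖ ^ 2 * x.nn a i.1 ^ (-(1 / 3) : ℝ) := by positivity
    set kp := kap1 K H Λ m₀ (nm (i.1 * i.2)) q with hkp
    have hkp0 : 0 ≤ kp := by
      rw [hkp]; unfold kap1 thR; positivity
    set B1 := 36 * Θ * (1 + L * N ^ (-(1 / 2) : ℝ)) + 432 * (N * m₀ ^ 2 / K) +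
          36 * (N * m₀ / K ^ (2 / 3 : ℝ)) with hB1
    have hin : T0 + kp * T1 + 18 * Θ * ((Real.sqrt Ls +
        Real.sqrt (Ls * x.nn a i.1 / Nbi x a Nα i.1)) * W1 +
        Ls * x.nn a i.1 ^ (-(1 / 2) : ℝ) * T2) ≤
        T0 + B1 * T1 + 36 * Θ * (L * N ^ (-(1 / 2) : ℝ)) * T2 +
          18 * Θ * ((Real.sqrt L + Real.sqrt (L * N / Nb)) * W1) := by
      calc _ ≤ T0 + B1 * T1 + 18 * Θ * ((Real.sqrt L + Real.sqrt (L * N / Nb)) * W1 +
            2 * (L * N ^ (-(1 / 2) : ℝ)) * T2) := by gcongr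
        _ = _ := by ring
    have hin0 : 0 ≤ T0 + kp * T1 + 18 * Θ * ((Real.sqrt Ls +
        Real.sqrt (Ls * x.nn a i.1 / Nbi x a Nα i.1)) * W1 +
        Ls * x.nn a i.1 ^ (-(1 / 2) : ℝ) * T2) := by positivity
    have hEc : C₁ * T * Z ^ (ε / 48) * M ≤ E := mul_le_mul_of_nonneg_right hconst hM0
    calc C₁ * T * Z ^ (ε / 48) * M * (‖x.cz bm k κ' a i‖ ^ 2 * x.nn a i.1 ^ (-(1 / 3) : ℝ) *
        (T0 + kp * T1 + 18 * Θ * ((Real.sqrt Ls +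
        Real.sqrt (Ls * x.nn a i.1 / Nbi x a Nα i.1)) * W1 +
        Ls * x.nn a i.1 ^ (-(1 / 2) : ℝ) * T2)))
        ≤ E * (‖x.cz bm k κ' a i‖ ^ 2 * x.nn a i.1 ^ (-(1 / 3) : ℝ) *
        (T0 + B1 * T1 + 36 * Θ * (L * N ^ (-(1 / 2) : ℝ)) * T2 +
          18 * Θ * ((Real.sqrt L + Real.sqrt (L * N / Nb)) * W1))) := by
          refine mul_le_mul hEc (mul_le_mul_of_nonneg_left hin hcz) (by positivity) hE0
      _ = _ := by ring
  calc _ = C₁ * T * Z ^ (ε / 48) * M * (K * ∑ i ∈ I, ‖x.cz bm k κ' a i‖ ^ 2 *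
      x.nn a i.1 ^ (-(1 / 3) : ℝ) * XBj K H Λ m₀ (x.nn a i.1) (nm (i.1 * i.2)) q (Nbi x a Nα i.1) W1
        cw (Ri x a i) (x.cf a i.1)) := rfl
    _ = K * ∑ i ∈ I, C₁ * T * Z ^ (ε / 48) * M * (‖x.cz bm k κ' a i‖ ^ 2 *
      x.nn a i.1 ^ (-(1 / 3) : ℝ) * XBj K H Λ m₀ (x.nn a i.1) (nm (i.1 * i.2)) q (Nbi x a Nα i.1) W1
        cw (Ri x a i) (x.cf a i.1)) := by
        rw [← Finset.mul_sum]; ring
    _ ≤ K * ∑ i ∈ I, _ := mul_le_mul_of_nonneg_left (Finset.sum_le_sum hidx) hK0.le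
    _ = _ := rfl

end Crest.Agent.R017.E4Xb681
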