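import Crest.Agent.R017.E4X_92

/-!
# Row 17, block C70, leaf E4 (x-side): the total of the cells (helper92)

* `cls_sum` : the sum over one class
* `xtotal`  : `∑_o XMb ≤ C Y^ε #Bs #Ad Sx`
-/

set_option autoImplicit false
set_option linter.unusedVariables false
set_option maxHeartbeats 400000

noncomputable section

open Complex
open scoped ComplexConjugate

namespace Crest.Agent.R017.E4X92

open Crest.Agent.R012 Crest.Agent.R012.Eis Crest.Agent.R012.MC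
open Crest.Agent.R012.LS2 (S mem_S)
open Crest.Agent.R012.Div277 (dvs mem_dvs isPrim_of_mem_dvs dvd_of_mem_dvs tau tau_le_rpow)
open Crest.Agent.R017.CM106 (CS FS)
open Crest.Agent.R017.C70 (CbF)
open Crest.Agent.R017.PX764 (n6 th)
open Crest.Agent.R017.E3D579 (b0 bt bF)
open Crest.Agent.R017.E4352 (rd dvd_rd)
open Crest.Agent.R017.E4579 (SupB bpt bco bpt_prim)
open Crest.Agent.R017.E4v92 (FF WW)
open Crest.Agent.R017.E4z92 (OKs cZ QQ RQ norm_cZ_le As Ss XMb XMb_le mem_Ss Vz)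
open Crest.Agent.R017.E4zz92
open Crest.Agent.R017.E4F266 (IP IP_mem)
open Crest.Agent.R017.E3q681 (TW AQ SA)
open Finset

/-- the weight of the gcd classes -/
def wg (g h : Eis) : ℝ := max 1 ((nm g : ℝ) * nm h)

lemma wg_pos (g h : Eis) : 0 < wg g h := lt_of_lt_of_le one_pos (le_max_left _ _)

lemma wg_eq {g h : Eis} (hg : IsPrim g) (hh : IsPrim h) : wg g h = (nm g : ℝ) * nm h := by
  unfold wg
  refine max_eq_right ?_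
  have h1 := nm_ge_one' hg.ne_zero
  have h2 := nm_ge_one' hh.ne_zero
  nlinarith

/-- the hypotheses of the sum -/
structure XF.HO (x : XF) (cw : ℝ) (OO : Finset (Eis × Eis)) (v' bm : Eis × Eis → Eis → ℂ)
    (kk : Eis × Eis → ℂ) (κ' : Eis × Eis → Eis → ℂ) (qc : Eis → Eis) (Mb Ek : ℝ) : Prop where
  ok : x.OKx cw
  Om : ∀ t : ℝ, x.Om t ≠ 0 → t ≤ 2 * x.V
  κ0 : 0 < x.κ
  κY : x.κ ≤ x.Y
  X0 : 0 ≤ x.X
  XY : x.X ≤ x.Y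
  g0 : Mode405.Mul1 x.g₀
  q1 : IsPrim x.q₁
  q2 : IsPrim x.q₂
  D : IsPrim x.D
  c₀ : GrB829.IsC x.c₀
  g₁ : E4352.PrI x.M x.g₁
  g₁q : Squarefree x.g₁
  R : E4352.PrI x.q x.R
  o1 : ∀ o ∈ OO, IsPrim o.1 ∧ IsPrim o.2 ∧ (nm o.1 : ℝ) ≤ x.Y ∧ (nm o.2 : ℝ) ≤ x.Y
  oq : ∀ o ∈ OO, IsPrim (qc o.1) ∧ Squarefree (qc o.1) ∧ x.Sf (qc o.1) = o.1 ∧
    qc o.1 ^ 2 ∣ o.1 ∧ o.1 ∣ qc o.1 ^ 2 * x.F0
  hv : ∀ o ∈ OO, ∀ y, v' o y ≠ 0 → IsPrim y ∧ CbF y ∧ (nm y : ℝ) ≤ x.X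
  hvf : ∀ o ∈ OO, (Function.support (v' o)).Finite
  hb : ∀ o ∈ OO, ∀ m, bm o m ≠ 0 → m ∈ S x.Y
  hM : ∀ o ∈ OO, ∀ g ∈ S x.Y, ∀ h ∈ S x.Y, ∑ μ ∈ S x.Y, ‖bm o (g * (h * μ))‖ ^ 2 ≤
    Mb / ((nm g : ℝ) * nm h)
  Mb0 : 0 ≤ Mb
  Ek0 : 0 ≤ Ek
  hk : ∀ o ∈ OO, ‖kk o‖ ^ 2 ≤ Ek * ((nm o.1 : ℝ) * nm o.2) ^ (4 / 3 : ℝ)
  hκ' : ∀ o ∈ OO, ∀ d, IsPrim d → ‖κ' o d‖ ≤ 1

/-- the bound of a pair (tuple, divisor of the moved factor) -/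
def XF.GG (x : XF) (cw : ℝ) (bm : Eis × Eis → Eis → ℂ) (kk : Eis × Eis → ℂ)
    (κ' : Eis × Eis → Eis → ℂ) (A : Fin 3 → (Fin 12 → ℕ) → Eis → ℝ) (Af : Eis → Eis → Eis → Eis)
    (y : Tu × Eis) : ℝ :=
  wg y.1.g y.1.h / nm y.1.s * x.gb cw (bm (x.Sf y.1.q, y.1.ν)) (kk (x.Sf y.1.q, y.1.ν))
    (κ' (x.Sf y.1.q, y.1.ν)) y.1
    (A 0 (x.vec y.1 (lg y.1.δ) (lg y.2)) (Af y.1.q y.1.ν (y.1.us * y.1.τ)))
    (A 1 (x.vec y.1 (lg y.1.δ) (lg y.2)) (Af y.1.q y.1.ν (y.1.us * y.1.τ)))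
    (A 2 (x.vec y.1 (lg y.1.δ) (lg y.2)) (Af y.1.q y.1.ν (y.1.us * y.1.τ))) (y.1.δ, y.2)

/-- the number of a class -/
def XF.Phi (x : XF) (cw Mb Ek : ℝ) (A : Fin 3 → (Fin 12 → ℕ) → Eis → ℝ) (n : Fin 12 → ℕ)
    (A₀ : Eis) : ℝ :=
  x.κ * (Mb * Ek * ‖th x.c₀‖ ^ 2 * x.V ^ (-(1 / 3) : ℝ) * x.Base n *
    x.Mom cw A₀ n (A 0 n A₀) (A 1 n A₀) (A 2 n A₀))

section sum

variable {x : XF} {cw : ℝ} {OO : Finset (Eis × Eis)} {v' bm : Eis × Eis → Eis → ℂ}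
  {kk : Eis × Eis → ℂ} {κ' : Eis × Eis → Eis → ℂ} {qc : Eis → Eis} {Mb Ek : ℝ}
  {A : Fin 3 → (Fin 12 → ℕ) → Eis → ℝ} {Af : Eis → Eis → Eis → Eis}

/-- the constant -/
def K1 : ℝ := (4 : ℝ) ^ (4 / 3 : ℝ) * (128 : ℝ) ^ (1 / 3 : ℝ)

lemma K1_pos : 0 < K1 := by unfold K1; positivity

/-- the facts on a pair -/
structure XF.OKy (x : XF) (OO : Finset (Eis × Eis)) (y : Tu × Eis) : Prop where
  a : x.OKa y.1
  o : (x.Sf y.1.q, y.1.ν) ∈ OO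
  g : y.1.g ∈ S x.Y
  h : y.1.h ∈ S x.Y
  μ : y.2 ∈ S x.Y
  m : IsPrim (y.1.g * (y.1.h * y.2))

/-- the bound of a pair -/
lemma GG_le (H : x.HO cw OO v' bm kk κ' qc Mb Ek) {y : Tu × Eis} (hy : x.OKy OO y)
    {n : Fin 12 → ℕ} {A₀ : Eis} (hn : x.vec y.1 (lg y.1.δ) (lg y.2) = n)
    (hA₀ : Af y.1.q y.1.ν (y.1.us * y.1.τ) = A₀) (hA : ∀ j, 0 ≤ A j n A₀) :
    x.GG cw bm kk κ' A Af y ≤ (K1 * (Ek * ‖th x.c₀‖ ^ 2 * x.V ^ (-(1 / 3) : ℝ) * x.Base n)) *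
      ((A 0 n A₀ * TW 1 (cw * x.nn y.1 y.1.δ) (x.cf y.1 y.1.δ) +
        A 1 n A₀ * TW (1 / 2) (cw * x.nn y.1 y.1.δ) (x.cf y.1 y.1.δ) + A 2 n A₀) *
        (wg y.1.g y.1.h * ‖bm (x.Sf y.1.q, y.1.ν) (y.1.g * (y.1.h * y.2))‖ ^ 2)) := by
  obtain ⟨a, μ⟩ := y
  have hx := H.ok
  have ha := hy.a
  have ho := hy.o
  simp only at hn hA₀ ha ho ⊢
  unfold XF.GG
  simp only
  rw [hn, hA₀]
  unfold XF.gb
  simp only
  set T3 : ℝ := A 0 n A₀ * TW 1 (cw * x.nn a a.δ) (x.cf a a.δ) +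
        A 1 n A₀ * TW (1 / 2) (cw * x.nn a a.δ) (x.cf a a.δ) + A 2 n A₀ with hT3
  have hT30 : 0 ≤ T3 := by
    have h1 := hA 0
    have h2 := hA 1
    have h3 := hA 2
    have h4 := TW_nonneg' 1 (cw * x.nn a a.δ) (x.cf a a.δ)
    have h5 := TW_nonneg' (1 / 2) (cw * x.nn a a.δ) (x.cf a a.δ)
    positivity
  have hτq : Squarefree (a.us * a.τ) :=
    squarefree_mul_iff.mpr ⟨ha.husτ.isRelPrime, ha.hs.huq.of_mul_left, ha.hτq⟩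
  have hgδ : IsPrim (a.g * a.δ) := ha.hg.mul ha.hδ
  have hcz := norm_cz_le (x := x) (bm := bm (x.Sf a.q, a.ν)) (κ' := κ' (x.Sf a.q, a.ν))
    (k := kk (x.Sf a.q, a.ν)) (a := a) H.c₀ H.g₁ H.g₁q H.q1 H.q2 H.D H.g0 ha.hs ha.hτ hτq ha.hh
    (i := (a.δ, μ)) hgδ hy.m (H.hκ' _ ho _ (hx.g₂.mul (ha.hs.hw.mul hgδ)))
  simp only at hcz
  have hk := H.hk _ ho
  simp only at hk
  have hw0 : 0 ≤ wg a.g a.h := (wg_pos _ _).le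
  have hs0 := nmpos' ha.hs.hs.ne_zero
  have hnn : 0 ≤ x.nn a a.δ ^ (-(1 / 3) : ℝ) := by
    have := ha.hn
    exact Real.rpow_nonneg (by linarith) _
  have hWt := Wt_le hx ha (bd_of hn)
  have hth : 0 ≤ ‖th x.c₀‖ ^ 2 := by positivity
  set b2 : ℝ := ‖bm (x.Sf a.q, a.ν) (a.g * (a.h * μ))‖ with hb2
  have hb0 : 0 ≤ b2 := norm_nonneg _
  -- the square of the coefficient
  have h1 : ‖x.cz (bm (x.Sf a.q, a.ν)) (kk (x.Sf a.q, a.ν)) (κ' (x.Sf a.q, a.ν)) a (a.δ, μ)‖ ^ 2 ≤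
      b2 ^ 2 * (Ek * ((nm (x.Sf a.q) : ℝ) * nm a.ν) ^ (4 / 3 : ℝ)) *
        ((n6 (x.g₁ * (a.us * a.τ)) * n6 a.u * n6 a.h) ^ 2 * ‖th x.c₀‖ ^ 2) := by
    refine (pow_le_pow_left₀ (norm_nonneg _) hcz 2).trans ?_
    calc (b2 * (‖kk (x.Sf a.q, a.ν)‖ * ((n6 (x.g₁ * (a.us * a.τ)) * ‖th x.c₀‖) * n6 a.u *
          n6 a.h))) ^ 2 = b2 ^ 2 * ‖kk (x.Sf a.q, a.ν)‖ ^ 2 *
          ((n6 (x.g₁ * (a.us * a.τ)) * n6 a.u * n6 a.h) ^ 2 * ‖th x.c₀‖ ^ 2) := by ring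
      _ ≤ _ := by gcongr
  calc wg a.g a.h / nm a.s * (‖x.cz (bm (x.Sf a.q, a.ν)) (kk (x.Sf a.q, a.ν))
        (κ' (x.Sf a.q, a.ν)) a (a.δ, μ)‖ ^ 2 * x.nn a a.δ ^ (-(1 / 3) : ℝ) * T3)
      ≤ wg a.g a.h / nm a.s * ((b2 ^ 2 * (Ek * ((nm (x.Sf a.q) : ℝ) * nm a.ν) ^ (4 / 3 : ℝ)) *
        ((n6 (x.g₁ * (a.us * a.τ)) * n6 a.u * n6 a.h) ^ 2 * ‖th x.c₀‖ ^ 2)) *
          x.nn a a.δ ^ (-(1 / 3) : ℝ) * T3) := by
        gcongr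
    _ = Ek * ‖th x.c₀‖ ^ 2 * x.Wt a * (T3 * (wg a.g a.h * b2 ^ 2)) := by
        unfold XF.Wt
        ring
    _ ≤ Ek * ‖th x.c₀‖ ^ 2 * ((4 : ℝ) ^ (4 / 3 : ℝ) * (128 : ℝ) ^ (1 / 3 : ℝ) *
        (x.V ^ (-(1 / 3) : ℝ) * x.Base n)) * (T3 * (wg a.g a.h * b2 ^ 2)) := by
        have hE := H.Ek0
        gcongr
    _ = _ := by unfold K1; ring

open Classical in
/-- a sum over pairs -/
lemma sum_pairs {T : Finset (Tu × Eis)} {t : Tu → ℝ} {f : Tu → Eis → ℝ} {Y Mb : ℝ}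
    (ht : ∀ y ∈ T, 0 ≤ t y.1) (hf : ∀ a μ, 0 ≤ f a μ) (hT : ∀ y ∈ T, y.2 ∈ S Y)
    (hM : ∀ y ∈ T, ∑ μ ∈ S Y, f y.1 μ ≤ Mb) :
    ∑ y ∈ T, t y.1 * f y.1 y.2 ≤ Mb * ∑ a ∈ T.image Prod.fst, t a := by
  rw [← sum_fiberwise_of_maps_to (g := Prod.fst) (fun y hy => mem_image_of_mem Prod.fst hy),
    mul_sum]
  refine sum_le_sum fun a ha => ?_
  obtain ⟨y₀, hy₀, rfl⟩ := mem_image.mp ha
  have h1 : ∑ y ∈ T.filter (fun y => y.1 = y₀.1), t y.1 * f y.1 y.2 =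
      t y₀.1 * ∑ y ∈ T.filter (fun y => y.1 = y₀.1), f y₀.1 y.2 := by
    rw [mul_sum]
    refine sum_congr rfl fun y hy => ?_
    rw [(mem_filter.mp hy).2]
  rw [h1, mul_comm Mb]
  refine mul_le_mul_of_nonneg_left ?_ (ht y₀ hy₀)
  refine le_trans ?_ (hM y₀ hy₀)
  have hinj : Set.InjOn (fun y : Tu × Eis => y.2)
      ((T.filter (fun y => y.1 = y₀.1) : Finset (Tu × Eis)) : Set (Tu × Eis)) := by
    intro y hy y' hy' h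
    have h2 := (mem_filter.mp (mem_coe.mp hy)).2
    have h3 := (mem_filter.mp (mem_coe.mp hy')).2
    exact Prod.ext (h2.trans h3.symm) h
  have h4 : ∑ y ∈ T.filter (fun y => y.1 = y₀.1), f y₀.1 y.2 =
      ∑ μ ∈ (T.filter (fun y => y.1 = y₀.1)).image (fun y : Tu × Eis => y.2), f y₀.1 μ := by
    rw [sum_image hinj]
  rw [h4]
  refine sum_le_sum_of_subset_of_nonneg (fun μ hμ => ?_) fun μ _ _ => hf _ _
  obtain ⟨y, hy, rfl⟩ := mem_image.mp hμ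
  exact hT y (mem_filter.mp hy).1

end sum

open Classical in
/-- **the sum over a class** -/
theorem cls_sum {ε : ℝ} (hε : 0 < ε) {cw : ℝ} (hcw : 1 ≤ cw) : ∃ C : ℝ, 0 ≤ C ∧
    ∀ (x : XF) (OO : Finset (Eis × Eis)) (v' bm : Eis × Eis → Eis → ℂ) (kk : Eis × Eis → ℂ)
      (κ' : Eis × Eis → Eis → ℂ) (qc : Eis → Eis) (Mb Ek : ℝ)
      (A : Fin 3 → (Fin 12 → ℕ) → Eis → ℝ) (Af : Eis → Eis → Eis → Eis) (Bs : Finset Eis)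
      (T : Finset (Tu × Eis)) (n : Fin 12 → ℕ) (A₀ : Eis),
      x.HO cw OO v' bm kk κ' qc Mb Ek → IsPrim A₀ → (∀ j, 0 ≤ A j n A₀) →
      (∀ y ∈ T, x.OKy OO y ∧ x.vec y.1 (lg y.1.δ) (lg y.2) = n ∧
        Af y.1.q y.1.ν (y.1.us * y.1.τ) = A₀ ∧ bpt (x.Sf y.1.q) y.1.ν ∈ Bs ∧
        A₀ ∣ PP (x.Sf y.1.q) x.g₁ y.1.ν (y.1.us * y.1.τ)) →
      x.κ * ∑ y ∈ T, x.GG cw bm kk κ' A Af y ≤
        C * x.Y ^ ε * (Bs.card * x.Phi cw Mb Ek A n A₀) := by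
  obtain ⟨C, hC, h⟩ := mom_sum hε hcw
  refine ⟨K1 * C, mul_nonneg K1_pos.le hC, ?_⟩
  intro x OO v' bm kk κ' qc Mb Ek A Af Bs T n A₀ H hA₀ hA hT
  have hx := H.ok
  have hκ := H.κ0
  have hE := H.Ek0
  have hMb := H.Mb0
  have hV : 0 ≤ x.V ^ (-(1 / 3) : ℝ) := Real.rpow_nonneg hx.V0.le _
  have hK := K1_pos
  have hB : 0 ≤ x.Base n := by
    unfold XF.Base
    positivity
  set t : Tu → ℝ := fun a => A 0 n A₀ * TW 1 (cw * x.nn a a.δ) (x.cf a a.δ) +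
        A 1 n A₀ * TW (1 / 2) (cw * x.nn a a.δ) (x.cf a a.δ) + A 2 n A₀ with ht
  have ht0 : ∀ a, 0 ≤ t a := by
    intro a
    have h1 := hA 0
    have h2 := hA 1
    have h3 := hA 2
    have h4 := TW_nonneg' 1 (cw * x.nn a a.δ) (x.cf a a.δ)
    have h5 := TW_nonneg' (1 / 2) (cw * x.nn a a.δ) (x.cf a a.δ)
    rw [ht]
    positivity
  set f : Tu → Eis → ℝ := fun a μ =>
    wg a.g a.h * ‖bm (x.Sf a.q, a.ν) (a.g * (a.h * μ))‖ ^ 2 with hf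
  have hf0 : ∀ a μ, 0 ≤ f a μ := fun a μ => mul_nonneg (wg_pos _ _).le (by positivity)
  have e1 := sum_pairs (T := T) (t := t) (f := f) (Y := x.Y) (Mb := Mb) (fun y _ => ht0 y.1) hf0
    (fun y hy => (hT y hy).1.μ) (fun y hy => by
      obtain ⟨k1, -⟩ := hT y hy
      have h1 := H.hM _ k1.o _ k1.g _ k1.h
      rw [hf]
      simp only
      rw [← mul_sum, wg_eq k1.a.hg k1.a.hh]
      have g1 := nmpos' k1.a.hg.ne_zero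
      have g2 := nmpos' k1.a.hh.ne_zero
      calc (nm y.1.g : ℝ) * nm y.1.h * ∑ μ ∈ S x.Y,
            ‖bm (x.Sf y.1.q, y.1.ν) (y.1.g * (y.1.h * μ))‖ ^ 2
          ≤ (nm y.1.g : ℝ) * nm y.1.h * (Mb / ((nm y.1.g : ℝ) * nm y.1.h)) := by gcongr
        _ = Mb := by field_simp)
  have e2 := h x n (T.image Prod.fst) Bs A₀ (A 0 n A₀) (A 1 n A₀) (A 2 n A₀) hx hA₀ (hA 0) (hA 1)
    (hA 2) (fun a ha => by
      obtain ⟨y, hy, rfl⟩ := mem_image.mp ha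
      obtain ⟨k1, k2, k3, k4, k5⟩ := hT y hy
      exact ⟨k1.a, bd_of k2, k4, k5⟩)
  have e3 : ∑ y ∈ T, x.GG cw bm kk κ' A Af y ≤
      (K1 * (Ek * ‖th x.c₀‖ ^ 2 * x.V ^ (-(1 / 3) : ℝ) * x.Base n)) *
        ∑ y ∈ T, t y.1 * f y.1 y.2 := by
    rw [mul_sum]
    refine sum_le_sum fun y hy => ?_
    obtain ⟨k1, k2, k3, k4, k5⟩ := hT y hy
    exact GG_le H k1 k2 k3 hA
  unfold XF.Phi
  calc x.κ * ∑ y ∈ T, x.GG cw bm kk κ' A Af y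
      ≤ x.κ * ((K1 * (Ek * ‖th x.c₀‖ ^ 2 * x.V ^ (-(1 / 3) : ℝ) * x.Base n)) *
        (Mb * (C * x.Y ^ ε * (Bs.card * x.Mom cw A₀ n (A 0 n A₀) (A 1 n A₀) (A 2 n A₀))))) := by
        refine mul_le_mul_of_nonneg_left (e3.trans (mul_le_mul_of_nonneg_left ?_ (by positivity)))
          hκ.le
        exact e1.trans (mul_le_mul_of_nonneg_left e2 hMb)
    _ = _ := by ring

/-- the hypotheses on the cells -/
structure XF.HC (x : XF) (cw : ℝ) (OO : Finset (Eis × Eis)) (v' bm : Eis × Eis → Eis → ℂ)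
    (kk : Eis × Eis → ℂ) (κ' : Eis × Eis → Eis → ℂ) (qc : Eis → Eis) (Mb Ek : ℝ)
    (A : Fin 3 → (Fin 12 → ℕ) → Eis → ℝ) (Af : Eis → Eis → Eis → Eis) (Bs Ad : Finset Eis)
    (Cl : Tu → Prop) (Sx : ℝ) : Prop where
  arr : ∀ o ∈ OO, ∀ s ∈ Ss x.M x.κ, ∀ τ ∈ dvs (rd o.1), ∀ g ∈ S x.Y, ∀ h ∈ S x.Y,
    ∀ i ∈ IP x.Y (S x.X) g h, Cl (x.tu qc o s τ g h 1) →
      Vz (v' o) (bm o) o.1 s τ g h i = x.ar (bm o) (kk o) (κ' o) (x.tu qc o s τ g h 1) i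
  arr0 : ∀ o ∈ OO, ∀ s ∈ Ss x.M x.κ, ∀ τ ∈ dvs (rd o.1), ∀ g ∈ S x.Y, ∀ h ∈ S x.Y,
    ∀ i ∈ IP x.Y (S x.X) g h, ¬ Cl (x.tu qc o s τ g h 1) →
      Vz (v' o) (bm o) o.1 s τ g h i = fun _ => 0
  dec : ∀ o ∈ OO, ∀ s ∈ Ss x.M x.κ, ∀ τ ∈ dvs (rd o.1), ∀ g ∈ S x.Y, ∀ h ∈ S x.Y,
    Cl (x.tu qc o s τ g h 1) → ∃ us u w, OKs x.R s o.1 us u w
  cell : ∀ o ∈ OO, ∀ s ∈ Ss x.M x.κ, ∀ τ ∈ dvs (rd o.1), ∀ g ∈ S x.Y, ∀ h ∈ S x.Y,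
    ∀ a : Tu, a = x.tu qc o s τ g h 1 → Cl a → ∀ nδ nμ : ℕ,
    x.CB cw (bm o) (kk o) (κ' o) a nδ nμ
      (A 0 (x.vec a nδ nμ) (Af a.q a.ν (a.us * a.τ))) (A 1 (x.vec a nδ nμ) (Af a.q a.ν (a.us * a.τ)))
      (A 2 (x.vec a nδ nμ) (Af a.q a.ν (a.us * a.τ)))
  hA0 : ∀ j n A₀, 0 ≤ A j n A₀
  hBs : ∀ o ∈ OO, bpt o.1 o.2 ∈ Bs
  hAf : ∀ o ∈ OO, ∀ s ∈ Ss x.M x.κ, ∀ τ ∈ dvs (rd o.1), ∀ g ∈ S x.Y, ∀ h ∈ S x.Y,
    ∀ a : Tu, a = x.tu qc o s τ g h 1 → Cl a → IsPrim (Af a.q a.ν (a.us * a.τ)) ∧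
      Af a.q a.ν (a.us * a.τ) ∈ Ad ∧
        Af a.q a.ν (a.us * a.τ) ∣ PP (x.Sf a.q) x.g₁ a.ν (a.us * a.τ)
  hPhi : ∀ o ∈ OO, ∀ s ∈ Ss x.M x.κ, ∀ τ ∈ dvs (rd o.1), ∀ g ∈ S x.Y, ∀ h ∈ S x.Y,
    ∀ a : Tu, a = x.tu qc o s τ g h 1 → Cl a → ∀ i ∈ x.gd a, IsCoprime a.us a.τ →
      x.Phi cw Mb Ek A (x.vec a (lg i.1) (lg i.2)) (Af a.q a.ν (a.us * a.τ)) ≤ Sx
  Sx0 : 0 ≤ Sx

section tot

variable {x : XF} {cw : ℝ} {OO : Finset (Eis × Eis)} {v' bm : Eis × Eis → Eis → ℂ}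
  {kk : Eis × Eis → ℂ} {κ' : Eis × Eis → Eis → ℂ} {qc : Eis → Eis} {Mb Ek Sx : ℝ}
  {A : Fin 3 → (Fin 12 → ℕ) → Eis → ℝ} {Af : Eis → Eis → Eis → Eis} {Bs Ad : Finset Eis}
  {Cl : Tu → Prop}

/-- a nonempty index of a prefix gives a good tuple -/
lemma oky_of (H : x.HO cw OO v' bm kk κ' qc Mb Ek) {o : Eis × Eis} (ho : o ∈ OO) {s τ g h : Eis}
    (hs : s ∈ Ss x.M x.κ) (hτ : τ ∈ dvs (rd o.1)) (hg : g ∈ S x.Y) (hh : h ∈ S x.Y)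
    (hd : OKs x.R s o.1 (dsf x.R s o.1).1 (dsf x.R s o.1).2.1 (dsf x.R s o.1).2.2)
    {i : Eis × Eis} (hi : i ∈ x.gd (x.tu qc o s τ g h 1))
    (hc : IsCoprime (dsf x.R s o.1).1 τ) : x.OKy OO (x.tu qc o s τ g h i.1, i.2) := by
  classical
  have hx := H.ok
  have hY : 0 ≤ x.Y := by linarith [hx.Y1]
  obtain ⟨o1, o2, o3, o4⟩ := H.o1 o ho
  obtain ⟨p1, p2, p3, p4, p5⟩ := H.oq o ho
  unfold XF.gd at hi
  obtain ⟨hi1, hi2, hi3⟩ := mem_filter.mp hi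
  obtain ⟨j1, j2, j3, j4, j5, j6, j7, j8, j9⟩ := IP_mem hY hi1
  have hτp : IsPrim τ := isPrim_of_mem_dvs hτ
  have hτd := (dvd_rd o1.ne_zero hτp).mp (dvd_of_mem_dvs hτ)
  have hgp := ((mem_S hY).1 hg).2.1
  have hhp := ((mem_S hY).1 hh).2.1
  have e1 : x.Sf (x.tu qc o s τ g h i.1).q = o.1 := p3
  refine ⟨⟨p1, p2, by rw [e1]; exact o1, ?_, ?_, o2, o4, ?_, hτp, hτd.1, ?_, hc, hgp, hhp, j1, rfl, rfl,
    ?_, ?_⟩, ?_, hg, hh, j9, ?_⟩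
  · rw [e1]; exact p4
  · rw [e1]; exact p5
  · rw [e1]; exact hd
  · rw [e1]; exact hτd.2
  · intro h0
    have h1 : x.nn (x.tu qc o s τ g h 1) i.1 = x.nn (x.tu qc o s τ g h i.1) i.1 := rfl
    rw [h1] at hi3
    unfold XF.nn at hi3
    rw [h0, nm_zero] at hi3
    norm_num at hi3
  · exact hi3
  · show (x.Sf (x.tu qc o s τ g h i.1).q, (x.tu qc o s τ g h i.1).ν) ∈ OO
    rw [e1]
    exact ho
  · exact ((mem_S hY).1 j7).2.1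

/-- the sizes are bounded -/
lemma vec_lt (H : x.HO cw OO v' bm kk κ' qc Mb Ek) {y : Tu × Eis} (hy : x.OKy OO y)
    (hs : (nm y.1.s : ℝ) ≤ Real.sqrt (2 * x.κ)) (hδ : (nm y.1.δ : ℝ) ≤ x.Y)
    (j : Fin 12) : x.vec y.1 (lg y.1.δ) (lg y.2) j < Nc x.Y := by
  obtain ⟨a, μ⟩ := y
  have hx := H.ok
  have ha := hy.a
  have hY1 := hx.Y1
  have hY : 0 ≤ x.Y := by linarith
  have hV := hx.VY
  have hV0 := hx.V0
  have hYY : x.Y ≤ x.Y ^ 2 := le_self_pow₀ hY1 (by norm_num)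
  have h2V : 2 * x.V ≤ 2 * x.Y ^ 2 := by linarith
  simp only at ha hs hδ ⊢
  have hsz := sizes hx ha
  have hF := nm_ge_one' ha.hP
  have hP := nm_ge_one' (PP_ne ha)
  have hc0 := nm_ge_one' hx.c0
  have he : (1 : ℝ) ≤ nm (a.e x.fr) :=
    nm_ge_one' (hx.g₂.mul (ha.hs.hw.mul (ha.hg.mul ha.hδ))).ne_zero
  have hu := nm_ge_one' ha.hs.hu.ne_zero
  have hh := nm_ge_one' ha.hh.ne_zero
  obtain ⟨o1, o2, o3, o4⟩ := H.o1 _ hy.o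
  simp only at o1 o2 o3 o4
  have hS2 : (nm (x.Sf a.q) : ℝ) ≤ 2 * x.Y ^ 2 := by linarith
  have hν2 : (nm a.ν : ℝ) ≤ 2 * x.Y ^ 2 := by linarith
  have hb2 : (nm (bpt (x.Sf a.q) a.ν) : ℝ) ≤ 2 * x.Y ^ 2 := by
    refine le_trans ?_ hν2
    exact_mod_cast Crest.Agent.R012.Div277.nm_le_of_dvd ha.hν.ne_zero (E4579.bpt_dvd ha.hS ha.hν)
  have hP2 : (nm (PP (x.Sf a.q) x.g₁ a.ν (a.us * a.τ)) : ℝ) ≤ 2 * x.Y ^ 2 := by
    refine le_trans ?_ (hsz.trans h2V)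
    rw [x.nm_FFa]
    calc (nm (PP (x.Sf a.q) x.g₁ a.ν (a.us * a.τ)) : ℝ)
        = 1 * nm (PP (x.Sf a.q) x.g₁ a.ν (a.us * a.τ)) * 1 ^ 2 * (1 * 1) := by ring
      _ ≤ _ := by gcongr
  have hs2 : (nm a.s : ℝ) ≤ 2 * x.Y ^ 2 := by
    refine hs.trans ?_
    have hκ := H.κY
    have h1 : Real.sqrt (2 * x.κ) ≤ 2 * x.Y := by
      rw [show (2 * x.Y : ℝ) = Real.sqrt ((2 * x.Y) ^ 2) by rw [Real.sqrt_sq (by linarith)]]
      refine Real.sqrt_le_sqrt ?_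
      nlinarith
    linarith
  have hrd : (nm (rd (x.Sf a.q)) : ℝ) ≤ x.Y := by
    refine le_trans ?_ o3
    exact_mod_cast Crest.Agent.R012.Div277.nm_le_of_dvd o1.ne_zero (E4352.rd_dvd _)
  have hus : (nm a.us : ℝ) ≤ x.Y := by
    refine le_trans ?_ hrd
    exact_mod_cast Crest.Agent.R012.Div277.nm_le_of_dvd (E4352.rd_prim _).ne_zero
      ((dvd_rd o1.ne_zero ha.hs.hus).mpr ⟨ha.hs.huq.of_mul_left, ha.hs.husS⟩)
  have hτ : (nm a.τ : ℝ) ≤ x.Y := by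
    refine le_trans ?_ hrd
    exact_mod_cast Crest.Agent.R012.Div277.nm_le_of_dvd (E4352.rd_prim _).ne_zero
      ((dvd_rd o1.ne_zero ha.hτ).mpr ⟨ha.hτq, ha.hτS⟩)
  have hσ2 : (nm (a.us * a.τ) : ℝ) ≤ 2 * x.Y ^ 2 := by
    rw [nm_mul]
    push_cast
    calc (nm a.us : ℝ) * nm a.τ ≤ x.Y * x.Y := by gcongr
      _ ≤ 2 * x.Y ^ 2 := by nlinarith
  have hu2 : (nm a.u : ℝ) ≤ 2 * x.Y ^ 2 := by
    refine le_trans ?_ (hsz.trans h2V)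
    calc (nm a.u : ℝ) = 1 * 1 ^ 2 * (nm a.u * 1) := by ring
      _ ≤ _ := by gcongr
  have he2 : (nm (a.e x.fr) : ℝ) ≤ 2 * x.Y ^ 2 := by
    refine le_trans ?_ (hsz.trans h2V)
    calc (nm (a.e x.fr) : ℝ) ≤ (nm (a.e x.fr) : ℝ) ^ 2 := le_self_pow₀ he (by norm_num)
      _ = 1 * (nm (a.e x.fr) : ℝ) ^ 2 * (1 * 1) := by ring
      _ ≤ _ := by gcongr
  have hw2 : (nm a.w : ℝ) ≤ 2 * x.Y ^ 2 := by
    refine le_trans ?_ he2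
    exact_mod_cast Crest.Agent.R012.Div277.nm_le_of_dvd
      (hx.g₂.mul (ha.hs.hw.mul (ha.hg.mul ha.hδ))).ne_zero
      (show a.w ∣ a.e x.fr from ⟨x.g₂ * (a.g * a.δ), by rw [e_eq]; ring⟩)
  have hS' : ∀ {z : Eis}, z ∈ S x.Y → (nm z : ℝ) ≤ 2 * x.Y ^ 2 := fun {z} hz => by
    have := ((mem_S hY).1 hz).1
    linarith
  have hδ2 : (nm a.δ : ℝ) ≤ 2 * x.Y ^ 2 := by linarith
  unfold XF.vec
  fin_cases j
  · exact lg_lt hS2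
  · exact lg_lt hν2
  · exact lg_lt hb2
  · exact lg_lt hP2
  · exact lg_lt hs2
  · exact lg_lt hσ2
  · exact lg_lt hu2
  · exact lg_lt hw2
  · exact lg_lt (hS' hy.g)
  · exact lg_lt (hS' hy.h)
  · exact lg_lt hδ2
  · exact lg_lt (hS' hy.μ)

/-- the product of the index sets -/
def P6 (x : XF) (OO : Finset (Eis × Eis)) :
    Finset ((Eis × Eis) × Eis × Eis × Eis × Eis × (Eis × Eis)) :=
  OO ×ˢ Ss x.M x.κ ×ˢ primBall ⌊x.Y⌋₊ ×ˢ S x.Y ×ˢ S x.Y ×ˢ (S x.Y ×ˢ S x.Y)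

/-- the condition -/
def Cn (x : XF) (bm : Eis × Eis → Eis → ℂ) (kk : Eis × Eis → ℂ) (κ' : Eis × Eis → Eis → ℂ)
    (qc : Eis → Eis) (Cl : Tu → Prop) (p : (Eis × Eis) × Eis × Eis × Eis × Eis × (Eis × Eis)) :
    Prop :=
  p.2.2.1 ∈ dvs (rd p.1.1) ∧ Cl (x.tu qc p.1 p.2.1 p.2.2.1 p.2.2.2.1 p.2.2.2.2.1 1) ∧
    p.2.2.2.2.2 ∈ x.gd (x.tu qc p.1 p.2.1 p.2.2.1 p.2.2.2.1 p.2.2.2.2.1 1) ∧
    x.cz (bm p.1) (kk p.1) (κ' p.1) (x.tu qc p.1 p.2.1 p.2.2.1 p.2.2.2.1 p.2.2.2.2.1 1)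
      p.2.2.2.2.2 ≠ 0

/-- the pair of an index -/
def ph (x : XF) (qc : Eis → Eis) (p : (Eis × Eis) × Eis × Eis × Eis × Eis × (Eis × Eis)) :
    Tu × Eis :=
  (x.tu qc p.1 p.2.1 p.2.2.1 p.2.2.2.1 p.2.2.2.2.1 p.2.2.2.2.2.1, p.2.2.2.2.2.2)

lemma GG_nonneg (H : x.HO cw OO v' bm kk κ' qc Mb Ek) (hA : ∀ j n A₀, 0 ≤ A j n A₀)
    (y : Tu × Eis) : 0 ≤ x.GG cw bm kk κ' A Af y := by
  have hV := H.ok.V0
  unfold XF.GG XF.gb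
  have h1 := (wg_pos y.1.g y.1.h).le
  have h2 : 0 ≤ x.nn y.1 y.1.δ ^ (-(1 / 3) : ℝ) := by
    refine Real.rpow_nonneg ?_ _
    unfold XF.nn
    positivity
  simp only
  have h4 := TW_nonneg' 1 (cw * x.nn y.1 y.1.δ) (x.cf y.1 y.1.δ)
  have h5 := TW_nonneg' (1 / 2) (cw * x.nn y.1 y.1.δ) (x.cf y.1 y.1.δ)
  have a0 := hA 0 (x.vec y.1 (lg y.1.δ) (lg y.2)) (Af y.1.q y.1.ν (y.1.us * y.1.τ))
  have a1 := hA 1 (x.vec y.1 (lg y.1.δ) (lg y.2)) (Af y.1.q y.1.ν (y.1.us * y.1.τ))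
  have a2 := hA 2 (x.vec y.1 (lg y.1.δ) (lg y.2)) (Af y.1.q y.1.ν (y.1.us * y.1.τ))
  positivity

/-- the bound of an index is the bound of the pair -/
lemma GG_ph (H : x.HO cw OO v' bm kk κ' qc Mb Ek) {o : Eis × Eis} (ho : o ∈ OO) {s τ g h : Eis}
    {i : Eis × Eis} {a : Tu} (ha : a = x.tu qc o s τ g h 1) :
    x.GG cw bm kk κ' A Af (ph x qc (o, s, τ, g, h, i)) = wg g h / nm s *
      x.gb cw (bm o) (kk o) (κ' o) a (A 0 (x.vec a (lg i.1) (lg i.2)) (Af a.q a.ν (a.us * a.τ)))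
        (A 1 (x.vec a (lg i.1) (lg i.2)) (Af a.q a.ν (a.us * a.τ)))
        (A 2 (x.vec a (lg i.1) (lg i.2)) (Af a.q a.ν (a.us * a.τ))) i := by
  subst ha
  have e1 : x.Sf (qc o.1) = o.1 := (H.oq o ho).2.2.1
  have e2 : (x.Sf (x.tu qc o s τ g h i.1).q, (x.tu qc o s τ g h i.1).ν) = o := by
    show (x.Sf (qc o.1), o.2) = o
    rw [e1]
  unfold XF.GG ph
  simp only
  rw [e2]
  rfl

open Classical in
/-- **one outer index** -/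
theorem pre_o (H : x.HO cw OO v' bm kk κ' qc Mb Ek)
    (HC : x.HC cw OO v' bm kk κ' qc Mb Ek A Af Bs Ad Cl Sx) {o : Eis × Eis} (ho : o ∈ OO) :
    XMb x.M (v' o) (bm o) x.κ ≤ (∑ g ∈ S x.Y, ∑ h ∈ S x.Y, (wg g h)⁻¹) *
      ((dvs (rd o.1)).card : ℝ) * ((Nc x.Y : ℝ) ^ 2 * (x.κ *
        ∑ s ∈ Ss x.M x.κ, ∑ τ ∈ primBall ⌊x.Y⌋₊, ∑ g ∈ S x.Y, ∑ h ∈ S x.Y,
          ∑ i ∈ S x.Y ×ˢ S x.Y, if Cn x bm kk κ' qc Cl (o, s, τ, g, h, i) then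
            x.GG cw bm kk κ' A Af (ph x qc (o, s, τ, g, h, i)) else 0)) := by
  have hx := H.ok
  have hY1 := hx.Y1
  have hY : 0 ≤ x.Y := by linarith
  obtain ⟨o1, o2, o3, o4⟩ := H.o1 o ho
  have hκ := H.κ0
  refine (XMb_le H.κ0 H.X0 H.XY (H.hv o ho) (H.hvf o ho) (H.hb o ho) o1
    (w := wg) wg_pos).trans ?_
  refine mul_le_mul_of_nonneg_left ?_ (mul_nonneg (sum_nonneg fun g _ => sum_nonneg fun h _ =>
    (inv_pos.mpr (wg_pos g h)).le) (Nat.cast_nonneg _))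
  have hGG := GG_nonneg (Af := Af) H HC.hA0
  have hif : ∀ p, 0 ≤ (if Cn x bm kk κ' qc Cl p then
      x.GG cw bm kk κ' A Af (ph x qc p) else 0) := fun p => by
    split_ifs
    · exact hGG _
    · exact le_rfl
  rw [mul_sum, mul_sum]
  refine sum_le_sum fun s hs => ?_
  obtain ⟨hsp, -, -, -⟩ := mem_Ss hs
  have hs0 := nmpos' hsp.ne_zero
  -- the divisors of `rd S` are bounded
  have hsub : dvs (rd o.1) ⊆ primBall ⌊x.Y⌋₊ := by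
    intro τ hτ
    refine mem_primBall.mpr ⟨Nat.le_floor ?_, isPrim_of_mem_dvs hτ⟩
    refine le_trans ?_ o3
    have h1 := Crest.Agent.R012.Div277.nm_le_of_dvd (E4352.rd_prim _).ne_zero (dvd_of_mem_dvs hτ)
    have h2 := Crest.Agent.R012.Div277.nm_le_of_dvd o1.ne_zero (E4352.rd_dvd o.1)
    exact_mod_cast h1.trans h2
  have hmain : ∀ τ ∈ dvs (rd o.1), ∀ g ∈ S x.Y, ∀ h ∈ S x.Y,
      (nm s : ℝ) * (wg g h * ∑ a ∈ As x.M x.κ s, ‖AQ (IP x.Y (S x.X) g h) (fun i => i.1 * i.2)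
        (Vz (v' o) (bm o) o.1 s τ g h) a‖ ^ 2) ≤ (Nc x.Y : ℝ) ^ 2 * (x.κ *
        ∑ i ∈ S x.Y ×ˢ S x.Y, if Cn x bm kk κ' qc Cl (o, s, τ, g, h, i) then
          x.GG cw bm kk κ' A Af (ph x qc (o, s, τ, g, h, i)) else 0) := by
    intro τ hτ g hg h hh
    have hw := (wg_pos g h).le
    have hr0 : 0 ≤ (Nc x.Y : ℝ) ^ 2 * (x.κ *
        ∑ i ∈ S x.Y ×ˢ S x.Y, if Cn x bm kk κ' qc Cl (o, s, τ, g, h, i) then
          x.GG cw bm kk κ' A Af (ph x qc (o, s, τ, g, h, i)) else 0) :=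
      mul_nonneg (by positivity) (mul_nonneg hκ.le (sum_nonneg fun i _ => hif _))
    by_cases hCl : Cl (x.tu qc o s τ g h 1)
    swap
    · have h0 : ∀ a : Eis, AQ (IP x.Y (S x.X) g h) (fun i => i.1 * i.2)
          (Vz (v' o) (bm o) o.1 s τ g h) a = 0 := by
        intro a
        unfold E3q681.AQ
        refine sum_eq_zero fun i hi => ?_
        rw [HC.arr0 o ho s hs τ hτ g hg h hh i hi hCl, CS_zero', mul_zero]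
      simp_rw [h0]
      simp only [norm_zero, ne_eq, OfNat.ofNat_ne_zero, not_false_eq_true, zero_pow,
        sum_const_zero, mul_zero]
      exact hr0
    -- the main case
    obtain ⟨a, ha⟩ : ∃ a : Tu, a = x.tu qc o s τ g h 1 := ⟨_, rfl⟩
    obtain ⟨us, u, w, hd0⟩ := HC.dec o ho s hs τ hτ g hg h hh hCl
    have hd := dsf_spec hd0
    have hgp := ((mem_S hY).1 hg).2.1
    have hhp := ((mem_S hY).1 hh).2.1
    have e1 : x.Sf a.q = o.1 := by rw [ha]; exact (H.oq o ho).2.2.1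
    have hd' : OKs x.R a.s (x.Sf a.q) a.us a.u a.w := by rw [e1, ha]; exact hd
    have h1 : ∀ b : Eis, AQ (IP x.Y (S x.X) g h) (fun i => i.1 * i.2)
        (Vz (v' o) (bm o) o.1 s τ g h) b =
        AQ (IP x.Y (S x.X) a.g a.h) (fun i => i.1 * i.2) (x.ar (bm o) (kk o) (κ' o) a) b := by
      intro b
      have eg : a.g = g := by rw [ha]; rfl
      have eh : a.h = h := by rw [ha]; rfl
      rw [eg, eh]
      unfold E3q681.AQ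
      refine sum_congr rfl fun i hi => ?_
      rw [HC.arr o ho s hs τ hτ g hg h hh i hi hCl, ha]
    have h2 := AQ_pre (x := x) (cw := cw) (bm := bm o) (κ' := κ' o) (k := kk o) (a := a) hx H.Om
      hd' (by rw [ha]; exact hgp) (by rw [ha]; exact hhp) hY hκ.le (N := Nc x.Y) (fun i hi => by
        unfold XF.gd at hi
        obtain ⟨j1, j2, j3, j4, j5, j6, j7, j8, j9⟩ := IP_mem hY (mem_filter.mp hi).1
        have hY2 : x.Y ≤ 2 * x.Y ^ 2 := by nlinarith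
        exact ⟨lg_lt ((((mem_S hY).1 j8).1).trans hY2), lg_lt ((((mem_S hY).1 j9).1).trans hY2)⟩)
      (A1 := fun nδ nμ => A 0 (x.vec a nδ nμ) (Af a.q a.ν (a.us * a.τ)))
      (A2 := fun nδ nμ => A 1 (x.vec a nδ nμ) (Af a.q a.ν (a.us * a.τ)))
      (A3 := fun nδ nμ => A 2 (x.vec a nδ nμ) (Af a.q a.ν (a.us * a.τ)))
      (fun nδ nμ => HC.cell o ho s hs τ hτ g hg h hh a ha (by rw [ha]; exact hCl) nδ nμ)
    simp_rw [h1]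
    have es : a.s = s := by rw [ha]; rfl
    rw [es] at h2
    calc (nm s : ℝ) * (wg g h * ∑ b ∈ As x.M x.κ s,
          ‖AQ (IP x.Y (S x.X) a.g a.h) (fun i => i.1 * i.2) (x.ar (bm o) (kk o) (κ' o) a) b‖ ^ 2)
        ≤ (nm s : ℝ) * (wg g h * ((Nc x.Y : ℝ) ^ 2 * (x.κ / nm s ^ 2 * ∑ i ∈ x.gd a,
          x.gb cw (bm o) (kk o) (κ' o) a
          (A 0 (x.vec a (lg i.1) (lg i.2)) (Af a.q a.ν (a.us * a.τ)))
          (A 1 (x.vec a (lg i.1) (lg i.2)) (Af a.q a.ν (a.us * a.τ)))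
          (A 2 (x.vec a (lg i.1) (lg i.2)) (Af a.q a.ν (a.us * a.τ))) i))) := by gcongr
      _ = (Nc x.Y : ℝ) ^ 2 * (x.κ * ∑ i ∈ x.gd a, wg g h / nm s *
          x.gb cw (bm o) (kk o) (κ' o) a
          (A 0 (x.vec a (lg i.1) (lg i.2)) (Af a.q a.ν (a.us * a.τ)))
          (A 1 (x.vec a (lg i.1) (lg i.2)) (Af a.q a.ν (a.us * a.τ)))
          (A 2 (x.vec a (lg i.1) (lg i.2)) (Af a.q a.ν (a.us * a.τ))) i) := by
          rw [← mul_sum]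
          field_simp
      _ ≤ _ := by
          refine mul_le_mul_of_nonneg_left (mul_le_mul_of_nonneg_left ?_ hκ.le) (by positivity)
          have h3 : ∀ i ∈ x.gd a, wg g h / nm s * x.gb cw (bm o) (kk o) (κ' o) a
              (A 0 (x.vec a (lg i.1) (lg i.2)) (Af a.q a.ν (a.us * a.τ)))
              (A 1 (x.vec a (lg i.1) (lg i.2)) (Af a.q a.ν (a.us * a.τ)))
              (A 2 (x.vec a (lg i.1) (lg i.2)) (Af a.q a.ν (a.us * a.τ))) i =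
              if Cn x bm kk κ' qc Cl (o, s, τ, g, h, i) then
                x.GG cw bm kk κ' A Af (ph x qc (o, s, τ, g, h, i)) else 0 := by
            intro i hi
            rw [← GG_ph H ho ha]
            by_cases hcz : x.cz (bm o) (kk o) (κ' o) a i = 0
            · rw [if_neg]
              · rw [GG_ph H ho ha]
                unfold XF.gb
                rw [hcz]
                simp
              · rintro ⟨-, -, -, h4⟩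
                exact h4 (by rw [← ha]; exact hcz)
            · rw [if_pos]
              refine ⟨hτ, hCl, ?_, ?_⟩
              · rw [← ha]; exact hi
              · rw [← ha]; exact hcz
          rw [sum_congr rfl h3]
          refine sum_le_sum_of_subset_of_nonneg (fun i hi => ?_) fun i _ _ => hif _
          unfold XF.gd at hi
          obtain ⟨j1, j2, j3, j4, j5, j6, j7, j8, j9⟩ := IP_mem hY (mem_filter.mp hi).1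
          exact mem_product.mpr ⟨j8, j9⟩
  calc (nm s : ℝ) * ∑ τ ∈ dvs (rd o.1), ∑ g ∈ S x.Y, ∑ h ∈ S x.Y, wg g h *
        ∑ a ∈ As x.M x.κ s, ‖AQ (IP x.Y (S x.X) g h) (fun i => i.1 * i.2)
          (Vz (v' o) (bm o) o.1 s τ g h) a‖ ^ 2
      = ∑ τ ∈ dvs (rd o.1), ∑ g ∈ S x.Y, ∑ h ∈ S x.Y, (nm s : ℝ) * (wg g h *
        ∑ a ∈ As x.M x.κ s, ‖AQ (IP x.Y (S x.X) g h) (fun i => i.1 * i.2)
          (Vz (v' o) (bm o) o.1 s τ g h) a‖ ^ 2) := by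
        simp_rw [mul_sum]
    _ ≤ ∑ τ ∈ dvs (rd o.1), ∑ g ∈ S x.Y, ∑ h ∈ S x.Y, (Nc x.Y : ℝ) ^ 2 * (x.κ *
        ∑ i ∈ S x.Y ×ˢ S x.Y, if Cn x bm kk κ' qc Cl (o, s, τ, g, h, i) then
          x.GG cw bm kk κ' A Af (ph x qc (o, s, τ, g, h, i)) else 0) :=
        sum_le_sum fun τ hτ => sum_le_sum fun g hg => sum_le_sum fun h hh => hmain τ hτ g hg h hh
    _ ≤ ∑ τ ∈ primBall ⌊x.Y⌋₊, ∑ g ∈ S x.Y, ∑ h ∈ S x.Y, (Nc x.Y : ℝ) ^ 2 * (x.κ *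
        ∑ i ∈ S x.Y ×ˢ S x.Y, if Cn x bm kk κ' qc Cl (o, s, τ, g, h, i) then
          x.GG cw bm kk κ' A Af (ph x qc (o, s, τ, g, h, i)) else 0) :=
        sum_le_sum_of_subset_of_nonneg hsub fun τ _ _ => sum_nonneg fun g _ => sum_nonneg fun h _ =>
          mul_nonneg (by positivity) (mul_nonneg hκ.le (sum_nonneg fun i _ => hif _))
    _ = _ := by simp_rw [mul_sum]

/-- the pairs are different -/
lemma ph_inj (H : x.HO cw OO v' bm kk κ' qc Mb Ek) :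
    Set.InjOn (ph x qc) (P6 x OO : Set ((Eis × Eis) × Eis × Eis × Eis × Eis × (Eis × Eis))) := by
  rintro ⟨⟨S₁, ν₁⟩, s, τ, g, h, ⟨δ, μ⟩⟩ hp ⟨⟨S₂, ν₂⟩, s', τ', g', h', ⟨δ', μ'⟩⟩ hp' he
  unfold P6 at hp hp'
  simp only [coe_product, Set.mem_prod, mem_coe] at hp hp'
  unfold ph XF.tu at he
  simp only [Prod.mk.injEq, Tu.mk.injEq] at he
  obtain ⟨⟨m1, m2, m3, m4, m5, m6, m7, m8, m9, m10, m11⟩, m12⟩ := he
  have e1 : S₁ = S₂ := by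
    have h1 := (H.oq _ hp.1).2.2.1
    have h2 := (H.oq _ hp'.1).2.2.1
    simp only at h1 h2
    rw [← h1, ← h2, m1]
  simp only [Prod.mk.injEq]
  refine ⟨⟨e1, m2⟩, m3, m7, m8, m9, ?_, m12⟩
  simp_all

open Classical in
/-- the sum over the outer indices -/
lemma sum_P6 (H : x.HO cw OO v' bm kk κ' qc Mb Ek) (f : Tu × Eis → ℝ) :
    ∑ o ∈ OO, ∑ s ∈ Ss x.M x.κ, ∑ τ ∈ primBall ⌊x.Y⌋₊, ∑ g ∈ S x.Y, ∑ h ∈ S x.Y,
      ∑ i ∈ S x.Y ×ˢ S x.Y, (if Cn x bm kk κ' qc Cl (o, s, τ, g, h, i) then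
        f (ph x qc (o, s, τ, g, h, i)) else 0) =
      ∑ y ∈ ((P6 x OO).filter (Cn x bm kk κ' qc Cl)).image (ph x qc), f y := by
  rw [sum_image ((ph_inj H).mono (by
    intro p hp
    exact mem_coe.mpr (mem_filter.mp (mem_coe.mp hp)).1)), sum_filter]
  unfold P6
  rw [sum_product]
  refine sum_congr rfl fun o _ => ?_
  rw [sum_product]
  refine sum_congr rfl fun s _ => ?_
  rw [sum_product]
  refine sum_congr rfl fun τ _ => ?_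
  rw [sum_product]
  refine sum_congr rfl fun g _ => ?_
  rw [sum_product]

open Classical in
/-- the facts on a pair of the sum -/
lemma fact_y (H : x.HO cw OO v' bm kk κ' qc Mb Ek)
    (HC : x.HC cw OO v' bm kk κ' qc Mb Ek A Af Bs Ad Cl Sx) {y : Tu × Eis}
    (hy : y ∈ ((P6 x OO).filter (Cn x bm kk κ' qc Cl)).image (ph x qc)) :
    x.OKy OO y ∧ (nm y.1.s : ℝ) ≤ Real.sqrt (2 * x.κ) ∧ (nm y.1.δ : ℝ) ≤ x.Y ∧
      bpt (x.Sf y.1.q) y.1.ν ∈ Bs ∧ IsPrim (Af y.1.q y.1.ν (y.1.us * y.1.τ)) ∧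
      Af y.1.q y.1.ν (y.1.us * y.1.τ) ∈ Ad ∧
      Af y.1.q y.1.ν (y.1.us * y.1.τ) ∣ PP (x.Sf y.1.q) x.g₁ y.1.ν (y.1.us * y.1.τ) ∧
      x.Phi cw Mb Ek A (x.vec y.1 (lg y.1.δ) (lg y.2)) (Af y.1.q y.1.ν (y.1.us * y.1.τ)) ≤ Sx := by
  have hY : 0 ≤ x.Y := by linarith [H.ok.Y1]
  obtain ⟨⟨o, s, τ, g, h, i⟩, hp, rfl⟩ := mem_image.mp hy
  obtain ⟨hp1, hp2⟩ := mem_filter.mp hp
  obtain ⟨c1, c2, c3, c4⟩ := hp2
  unfold P6 at hp1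
  simp only [mem_product] at hp1
  obtain ⟨ho, hs, -, hg, hh, hi1, hi2⟩ := hp1
  simp only at c1 c2 c3 c4
  obtain ⟨us, u, w, hd0⟩ := HC.dec o ho s hs τ c1 g hg h hh c2
  have hd := dsf_spec hd0
  have e1 : x.Sf (qc o.1) = o.1 := (H.oq o ho).2.2.1
  have hd' : OKs x.R (x.tu qc o s τ g h 1).s (x.Sf (x.tu qc o s τ g h 1).q)
      (x.tu qc o s τ g h 1).us (x.tu qc o s τ g h 1).u (x.tu qc o s τ g h 1).w := by
    show OKs x.R s (x.Sf (qc o.1)) _ _ _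
    rw [e1]; exact hd
  have hc := cz_ne H.R hd' c4
  have hok := oky_of H ho hs c1 hg hh hd c3 hc
  obtain ⟨a1, a2, a3⟩ := HC.hAf o ho s hs τ c1 g hg h hh _ rfl c2
  have hPhi := HC.hPhi o ho s hs τ c1 g hg h hh _ rfl c2 i c3 hc
  refine ⟨hok, (mem_Ss hs).2.2.2, ((mem_S hY).1 hi1).1, ?_, a1, a2, a3, hPhi⟩
  show bpt (x.Sf (qc o.1)) o.2 ∈ Bs
  rw [e1]
  exact HC.hBs o ho

end tot

lemma sum_wg {ε : ℝ} (hε : 0 < ε) : ∃ C : ℝ, 0 ≤ C ∧ ∀ Y : ℝ, 1 ≤ Y →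
    ∑ g ∈ S Y, ∑ h ∈ S Y, (wg g h)⁻¹ ≤ (C * Y ^ ε) ^ 2 := by
  refine ⟨100 * (1 + 1 / ε), by positivity, ?_⟩
  intro Y hY
  have hY0 : 0 < Y := by linarith
  have h1 : ∑ g ∈ S Y, (nm g : ℝ)⁻¹ ≤ 100 * (1 + 1 / ε) * Y ^ ε := by
    have hsub : S Y ⊆ primBall ⌊Y⌋₊ := by
      intro g hg
      obtain ⟨k1, k2, k3⟩ := (mem_S hY0.le).1 hg
      exact mem_primBall.mpr ⟨Nat.le_floor k1, k2⟩
    refine (sum_le_sum_of_subset_of_nonneg hsub fun g _ _ => by positivity).trans ?_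
    have hT8 : ∑ g ∈ primBall ⌊Y⌋₊, (nm g : ℝ)⁻¹ ≤ 100 * (1 + Real.log ⌊Y⌋₊) := by
      have := Crest.Agent.R012.Div277.sum_inv_primBall_le ⌊Y⌋₊
      simpa [one_div] using this
    refine hT8.trans ?_
    have hn : 1 ≤ ⌊Y⌋₊ := Nat.le_floor (by exact_mod_cast hY)
    have h2 : Real.log ⌊Y⌋₊ ≤ Y ^ ε / ε := by
      refine (Real.log_le_log (by exact_mod_cast hn) (Nat.floor_le hY0.le)).trans ?_
      exact Real.log_le_rpow_div hY0.le hε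
    have h3 : 1 ≤ Y ^ ε := Real.one_le_rpow hY hε.le
    calc 100 * (1 + Real.log ⌊Y⌋₊) ≤ 100 * (1 * Y ^ ε + Y ^ ε / ε) := by linarith
      _ = _ := by ring
  have h0 : 0 ≤ ∑ g ∈ S Y, (nm g : ℝ)⁻¹ := sum_nonneg fun g _ => by positivity
  calc ∑ g ∈ S Y, ∑ h ∈ S Y, (wg g h)⁻¹ = (∑ g ∈ S Y, (nm g : ℝ)⁻¹) ^ 2 := by
        rw [pow_two, sum_mul_sum]
        refine sum_congr rfl fun g hg => sum_congr rfl fun h hh => ?_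
        rw [wg_eq ((mem_S hY0.le).1 hg).2.1 ((mem_S hY0.le).1 hh).2.1, mul_inv]
    _ ≤ _ := pow_le_pow_left₀ h0 h1 2

open Classical in
/-- **the total of the cells of the structured `x`-side** -/
theorem xtotal {ε : ℝ} (hε : 0 < ε) {cw : ℝ} (hcw : 1 ≤ cw) : ∃ C : ℝ, 0 ≤ C ∧
    ∀ (x : XF) (OO : Finset (Eis × Eis)) (v' bm : Eis × Eis → Eis → ℂ) (kk : Eis × Eis → ℂ)
      (κ' : Eis × Eis → Eis → ℂ) (qc : Eis → Eis) (Mb Ek : ℝ)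
      (A : Fin 3 → (Fin 12 → ℕ) → Eis → ℝ) (Af : Eis → Eis → Eis → Eis) (Bs Ad : Finset Eis)
      (Cl : Tu → Prop) (Sx : ℝ),
      x.HO cw OO v' bm kk κ' qc Mb Ek → x.HC cw OO v' bm kk κ' qc Mb Ek A Af Bs Ad Cl Sx →
      ∑ o ∈ OO, XMb x.M (v' o) (bm o) x.κ ≤ C * x.Y ^ ε * (Bs.card * Ad.card * Sx) := by
  set η := ε / 18 with hη
  have hη0 : 0 < η := by rw [hη]; positivity
  obtain ⟨C1, hC1, h1⟩ := sum_wg hη0
  obtain ⟨C2, hC2, h2⟩ := tau_le_rpow hη0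
  obtain ⟨C3, hC3, h3⟩ := Nc_le hη0
  obtain ⟨C4, hC4, h4⟩ := cls_sum hη0 hcw
  have hC20 : 0 ≤ C2 := by linarith
  refine ⟨C1 ^ 2 * C2 * C3 ^ 14 * C4, by positivity, ?_⟩
  intro x OO v' bm kk κ' qc Mb Ek A Af Bs Ad Cl Sx H HC
  have hx := H.ok
  have hY1 := hx.Y1
  have hY0 : 0 < x.Y := by linarith
  have hYη : 0 ≤ x.Y ^ η := by positivity
  have hκ := H.κ0
  have hSx := HC.Sx0
  set T := ((P6 x OO).filter (Cn x bm kk κ' qc Cl)).image (ph x qc) with hT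
  set N := Nc x.Y with hN
  have hGG := GG_nonneg (Af := Af) H HC.hA0
  -- the sum over the classes
  set PF : Finset ((Fin 12 → ℕ) × Eis) :=
    (Fintype.piFinset (fun _ : Fin 12 => range N)) ×ˢ Ad with hPF
  set key : Tu × Eis → (Fin 12 → ℕ) × Eis := fun y =>
    (x.vec y.1 (lg y.1.δ) (lg y.2), Af y.1.q y.1.ν (y.1.us * y.1.τ)) with hkey
  have hmap : ∀ y ∈ T, key y ∈ PF := by
    intro y hy
    obtain ⟨f1, f2, f3, f4, f5, f6, f7, f8⟩ := fact_y H HC hy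
    rw [hPF, mem_product]
    refine ⟨?_, f6⟩
    rw [Fintype.mem_piFinset]
    intro j
    exact mem_range.mpr (vec_lt H f1 f2 f3 j)
  have hcls : x.κ * ∑ y ∈ T, x.GG cw bm kk κ' A Af y ≤
      ((N : ℝ) ^ 12 * Ad.card) * (C4 * x.Y ^ η * (Bs.card * Sx)) := by
    rw [← sum_fiberwise_of_maps_to hmap, mul_sum]
    have hPFc : (PF.card : ℝ) = (N : ℝ) ^ 12 * Ad.card := by
      rw [hPF, card_product, Fintype.card_piFinset]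
      simp
    rw [← hPFc, ← nsmul_eq_mul]
    refine sum_le_card_nsmul _ _ _ fun c hc => ?_
    rcases (T.filter (fun y => key y = c)).eq_empty_or_nonempty with h0 | ⟨y₀, hy₀⟩
    · rw [h0, sum_empty, mul_zero]
      positivity
    obtain ⟨hy₀T, hy₀c⟩ := mem_filter.mp hy₀
    obtain ⟨f1, f2, f3, f4, f5, f6, f7, f8⟩ := fact_y H HC hy₀T
    obtain ⟨n, A₀⟩ := c
    rw [hkey] at hy₀c
    simp only [Prod.mk.injEq] at hy₀c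
    have h5 := h4 x OO v' bm kk κ' qc Mb Ek A Af Bs (T.filter (fun y => key y = (n, A₀))) n A₀ H
      (by rw [← hy₀c.2]; exact f5) (fun j => HC.hA0 j n A₀) (fun y hy => by
        obtain ⟨hyT, hyc⟩ := mem_filter.mp hy
        obtain ⟨k1, k2, k3, k4, k5, k6, k7, k8⟩ := fact_y H HC hyT
        rw [hkey] at hyc
        simp only [Prod.mk.injEq] at hyc
        refine ⟨k1, hyc.1, hyc.2, k4, ?_⟩
        rw [← hyc.2]; exact k7)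
    refine h5.trans ?_
    rw [hy₀c.1, hy₀c.2] at f8
    gcongr
  -- the outer indices
  have hout : ∑ o ∈ OO, XMb x.M (v' o) (bm o) x.κ ≤ (C1 * x.Y ^ η) ^ 2 * (C2 * x.Y ^ η) *
      ((N : ℝ) ^ 2 * (x.κ * ∑ y ∈ T, x.GG cw bm kk κ' A Af y)) := by
    rw [hT, ← sum_P6 H, mul_sum, mul_sum, mul_sum]
    refine sum_le_sum fun o ho => ?_
    refine (pre_o H HC ho).trans ?_
    obtain ⟨o1, o2, o3, o4⟩ := H.o1 o ho
    have g1 := h1 x.Y hY1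
    have g0 : 0 ≤ ∑ g ∈ S x.Y, ∑ h ∈ S x.Y, (wg g h)⁻¹ := sum_nonneg fun g _ =>
      sum_nonneg fun h _ => (inv_pos.mpr (wg_pos g h)).le
    have g2 : ((dvs (rd o.1)).card : ℝ) ≤ C2 * x.Y ^ η := by
      refine (h2 _ (E4352.rd_prim _).ne_zero).trans (mul_le_mul_of_nonneg_left ?_ hC20)
      refine Real.rpow_le_rpow (Nat.cast_nonneg _) (le_trans ?_ o3) hη0.le
      exact_mod_cast Crest.Agent.R012.Div277.nm_le_of_dvd o1.ne_zero (E4352.rd_dvd _)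
    refine mul_le_mul_of_nonneg_right (mul_le_mul g1 g2 (Nat.cast_nonneg _) (by positivity)) ?_
    refine mul_nonneg (by positivity) (mul_nonneg hκ.le (sum_nonneg fun s _ => sum_nonneg fun τ _ =>
      sum_nonneg fun g _ => sum_nonneg fun h _ => sum_nonneg fun i _ => ?_))
    split_ifs
    · exact hGG _
    · exact le_rfl
  have hNb := h3 x.Y hY1
  rw [← hN] at hNb
  calc ∑ o ∈ OO, XMb x.M (v' o) (bm o) x.κ
      ≤ (C1 * x.Y ^ η) ^ 2 * (C2 * x.Y ^ η) * ((N : ℝ) ^ 2 *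
        (((N : ℝ) ^ 12 * Ad.card) * (C4 * x.Y ^ η * (Bs.card * Sx)))) := by
        refine hout.trans ?_
        gcongr
    _ = (C1 * x.Y ^ η) ^ 2 * (C2 * x.Y ^ η) * ((N : ℝ) ^ 14 *
        (C4 * x.Y ^ η * (Bs.card * Ad.card * Sx))) := by ring
    _ ≤ (C1 * x.Y ^ η) ^ 2 * (C2 * x.Y ^ η) * ((C3 * x.Y ^ η) ^ 14 *
        (C4 * x.Y ^ η * (Bs.card * Ad.card * Sx))) := by gcongr
    _ = C1 ^ 2 * C2 * C3 ^ 14 * C4 * (x.Y ^ η) ^ 18 * (Bs.card * Ad.card * Sx) := by ring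
    _ = _ := by
        have : (x.Y ^ η) ^ 18 = x.Y ^ ε := by
          rw [← Real.rpow_natCast, ← Real.rpow_mul hY0.le]
          congr 1
          rw [hη]; push_cast; ring
        rw [this]

end Crest.Agent.R017.E4X92
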