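import Crest.Agent.R017.E3qx18_512
import Crest.Agent.R017.E4Xb_681

/-!
# Row 17, block C70, leaf E4 (x-side): the bound of a cell, two classes (helper939, after helper681)

* `cell_XBm` : **the bound of a cell (four terms) from `XBm`**, two numbers of the R-part
-/

set_option autoImplicit false
set_option linter.unusedVariables false
set_option maxHeartbeats 400000

noncomputable section

open Complex MeasureTheory
open scoped ComplexConjugate Classical ContDiff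

namespace Crest.Agent.R017.E4Xb939

open Crest.Agent.R012 Crest.Agent.R012.Eis Crest.Agent.R012.MC
open Crest.Agent.R012.LS2 (S mem_S bl mem_bl)
open Crest.Agent.R012.Div277 (dvs mem_dvs isPrim_of_mem_dvs dvd_of_mem_dvs tau tau_le_rpow)
open Crest.Agent.R012.Mob705 (mu pdiv mem_pdiv)
open Crest.Agent.R012.NonCube52 (Ker kv Good kc kc_spec kc_nm kv_ne_zero one_le_nmkv)
open Crest.Agent.R012.Weight600 (pw osc)
open Crest.Agent.R017.PX764 (n6 Gh)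
open Crest.Agent.R017.CM106 (CS TG FS)
open Crest.Agent.R017.E1551 (nmpos jb jb_pos nm_ge_one summable_wF)
open Crest.Agent.R017.BD829
open Crest.Agent.R017.E3P842
open Crest.Agent.R017.E3D579
open Crest.Agent.R017.E3Sd579
open Crest.Agent.R017.Mode405
open Crest.Agent.R017.E3q681
open Crest.Agent.R017.E4v92 (FF WW)
open Crest.Agent.R017.E4z92 (OKs cZ QQ RQ As Ss mem_As)
open Crest.Agent.R017.E4zz92 (Tu PP)
open Crest.Agent.R017.E4F266 (IP IP_mem)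
open Crest.Agent.R017.E4X92
open Crest.Agent.R017.E4Xb681
open Crest.Agent.R017.E3qx842
open Gauss880 (syG)

variable {χ : Eis → ℂ} {w1 : ℝ → ℝ} {h : ℝ → ℝ}

lemma RMk_mono {A' ε C₁ cw Rw : ℝ} {κ₁ : Eis} {Z Nb₀ ν ν' Lst Lst' : ℝ} {R ρ : Eis}
    {b₀ : Eis → ℂ} {W1 : Bool → ℝ} (h : RMk χ w1 A' ε C₁ cw Rw κ₁ Z Nb₀ ν' Lst' R ρ b₀ W1)
    (hν : ν ≤ ν') (hL : Lst ≤ Lst') : RMk χ w1 A' ε C₁ cw Rw κ₁ Z Nb₀ ν Lst R ρ b₀ W1 :=
  fun κ F y h1 h2 h3 h4 h5 k1 k2 Z' Lt Y g1 g2 g3 g4 g5 g6 g7 g8 g9 g10 g11 =>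
    h κ F y h1 h2 h3 h4 h5 k1 k2 Z' Lt Y g1 g2 g3 g4 g5 g6 g7 g8 (g9.trans hL) g10
      (fun h1 => (g11 h1).trans hν)

set_option maxHeartbeats 8000000 in
/-- **the bound of a cell** -/
theorem cell_XBm (hχ : Mul1 χ) (hw1W : Wgt w1) {Rw : ℝ} (hRw : 0 ≤ Rw) {R₀ : ℝ}
    (hR₀ : 0 ≤ R₀) (hh : ContDiff ℝ ∞ h) (hhc : HasCompactSupport h)
    (hw : ∀ x, w1 x ≠ 0 → 0 < x ∧ |Real.log x| ≤ R₀)
    (hw1 : ∀ x, 0 < x → h (Real.log x) ≠ 0 → w1 x = 1) {ε : ℝ} (hε : 0 < ε) :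
    ∃ ε1 : ℝ, 0 < ε1 ∧ ∀ {C₁ cw0 : ℝ}, 0 ≤ C₁ → 1 ≤ cw0 → ∀ {A' : ℕ}, 1 < A' →
    ∃ (C cw : ℝ), 0 ≤ C ∧ 1 ≤ cw ∧
      ∀ (x : XF) (a : Tu) (bm κ' : Eis → ℂ) (k : ℂ) (nδ nμ : ℕ) (Nα q L : ℝ) (W1 : Bool → ℝ) (Mb τ₀ τg : ℝ)
        (Om₀ : ℝ → ℂ), XC x a Nα Rw → (∀ y, IsPrim y → x.g₀ y = χ y * pw τg (nm y)) →
        (∀ t, 0 < t → x.Om t = ((h (Real.log t - Real.log x.V) : ℝ) : ℂ) *
          (Om₀ (Real.log t) * pw τ₀ t)) → ContDiff ℝ ∞ Om₀ →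
        (∀ n ≤ A' + 2, ∀ u, ‖iteratedDeriv n Om₀ u‖ ≤ Mb) → 0 ≤ Mb →
        0 < L → (∀ jj, 0 ≤ W1 jj) → 0 ≤ q →
        (∀ i ∈ x.cell a nδ nμ, x.cz bm k κ' a i ≠ 0 →
          (nk (Qa x a ^ 2) : ℝ) ≤ q ∧ q ≤ 16 * x.Y ^ 24 ∧
          (1 ≤ L → L * Real.exp Rw < Nbh x a Nα nδ) ∧
          RMk χ w1 A' ε1 C₁ cw0 Rw (a.h * a.u) (E4Xb681.Zc R₀ x.Y ^ 3) (Nb0 x a Nα i.1)
              (8 * Nbh x a Nα nδ * L / Nh x a nδ) L (Ri x a i) 1 (cb x a i.1) W1) →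
        CB4 x cw bm k κ' a nδ nμ
          (C * x.Y ^ ε * ((1 + |τg - τ₀|) ^ A' * Mb ^ 2))
          (C * x.Y ^ ε * ((1 + |τg - τ₀|) ^ A' * Mb ^ 2) *
            (36 * Th (x.κ / nm a.s ^ 2) (Nh x a nδ) q L *
                (1 + L * Nh x a nδ ^ (-(1 / 2) : ℝ)) +
              432 * (Nh x a nδ * (2 ^ nδ * 2 ^ nμ) ^ 2 / (x.κ / nm a.s ^ 2)) +
              36 * (Nh x a nδ * (2 ^ nδ * 2 ^ nμ) / (x.κ / nm a.s ^ 2) ^ (2 / 3 : ℝ))))
          (C * x.Y ^ ε * ((1 + |τg - τ₀|) ^ A' * Mb ^ 2) *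
            (36 * Th (x.κ / nm a.s ^ 2) (Nh x a nδ) q L * (L * Nh x a nδ ^ (-(1 / 2) : ℝ))))
          (C * x.Y ^ ε * ((1 + |τg - τ₀|) ^ A' * Mb ^ 2) *
            (18 * Th (x.κ / nm a.s ^ 2) (Nh x a nδ) q L *
              ((Real.sqrt L + Real.sqrt (L * Nh x a nδ / Nbh x a Nα nδ)) * W1 false +
                L ^ (1 / 3 : ℝ) * (Nh x a nδ / Nbh x a Nα nδ) ^ (2 / 3 : ℝ) * W1 true))) := by
  obtain ⟨ε0, hε0, hε0d⟩ : ∃ ε0 : ℝ, 0 < ε0 ∧ min (1 / 2) (ε / 48 / 1024) = ε0 :=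
    ⟨_, lt_min (by norm_num) (by positivity), rfl⟩
  refine ⟨ε0 / 20, by positivity, ?_⟩
  intro C₂ cw0 hC₂ hcw0 A' hA'
  obtain ⟨C₁, cw, hC₁, hcw, hmain⟩ := XBm hχ hw1W hRw hR₀ hh hhc hw hw1 (ε := ε / 48)
    (by positivity) hC₂ hcw0 hA'
  rw [hε0d] at hmain
  obtain ⟨Ct, hCt, hτ⟩ := tau_le_rpow (ε := ε / 8) (by positivity)
  have hCt0 : 0 ≤ Ct := by linarith
  set z0 : ℝ := Real.exp R₀ + 16 with hz0
  have hz0p : 0 < z0 := by positivity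
  refine ⟨C₁ * Ct * z0 ^ (ε / 48), cw, by positivity, hcw, ?_⟩
  intro x a bm κ' k nδ nμ Nα q L W1 Mb τ₀ τg Om₀ hx hg hOm hOmC hOmB hMb hL hW1 hq00 hcell
  set I := (x.cell a nδ nμ).filter (fun i => x.cz bm k κ' a i ≠ 0) with hI
  have har : ∀ i, x.cz bm k κ' a i = 0 → x.ar bm k κ' a i = fun _ => 0 := by
    intro i hz
    funext n
    unfold XF.ar SA
    rw [hz, zero_mul]
  have eAQ : ∀ b, AQ (x.cell a nδ nμ) (fun i => i.1 * i.2) (x.ar bm k κ' a) b =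
      AQ I (fun i => i.1 * i.2) (x.ar bm k κ' a) b := by
    intro b
    unfold AQ
    rw [hI, Finset.sum_filter]
    refine Finset.sum_congr rfl fun i _ => ?_
    split_ifs with h1
    · rfl
    · rw [not_not] at h1
      rw [har i h1, E4zz92.CS_zero', mul_zero]
  have eGB : ∀ A0 A1 A2 A3, ∑ i ∈ x.cell a nδ nμ, gb4 x cw bm k κ' a A0 A1 A2 A3 i =
      ∑ i ∈ I, gb4 x cw bm k κ' a A0 A1 A2 A3 i := by
    intro A0 A1 A2 A3
    rw [hI, Finset.sum_filter]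
    refine Finset.sum_congr rfl fun i _ => ?_
    split_ifs with h1
    · rfl
    · rw [not_not] at h1
      unfold gb4
      rw [h1]
      simp
  unfold CB4
  rw [eGB]
  simp only [eAQ]
  by_cases hne : I.Nonempty
  swap
  · rw [Finset.not_nonempty_iff_eq_empty] at hne
    unfold AQ
    rw [hne]
    simp
  obtain ⟨i₀, hi₀'⟩ := hne
  have hI0 : ∀ i ∈ I, i ∈ x.cell a nδ nμ ∧ x.cz bm k κ' a i ≠ 0 := fun i hi => by
    rw [hI, Finset.mem_filter] at hi; exact hi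
  have hi₀ := (hI0 i₀ hi₀').1
  have hu : IsCoprime a.h a.u := by
    by_contra hu
    exact (hI0 i₀ hi₀').2 (cz_zero hx.hs.hu hu i₀)
  obtain ⟨hq0, hqY, hLN, -⟩ := hcell i₀ hi₀ (hI0 i₀ hi₀').2
  have hRM : ∀ i ∈ I, RMk χ w1 A' (ε0 / 20) C₂ cw0 Rw (a.h * a.u) (E4Xb681.Zc R₀ x.Y ^ 3)
      (Nb0 x a Nα i.1) (8 * Nbh x a Nα nδ * L / Nh x a nδ) L (Ri x a i) 1 (cb x a i.1) W1 :=
    fun i hi => (hcell i (hI0 i hi).1 (hI0 i hi).2).2.2.2
  have f0 := cell_FI hx hi₀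
  have hF := FF_ne f0
  have hY1 := hx.Y1
  have hY0 : 0 < x.Y := by linarith
  have hV0 := hx.V0
  have hVp := Vp_pos hx hF
  have hVpY := Vp_le hx hF
  have hhu : Squarefree (a.h * a.u) := by
    have h1 : Squarefree a.h := f0.hsq.squarefree_of_dvd ⟨i₀.2, rfl⟩
    have h2 : Squarefree a.u := hx.hs.huq.squarefree_of_dvd ⟨a.us, by ring⟩
    exact squarefree_mul_iff.mpr ⟨hu.isRelPrime, h1, h2⟩
  have fi : ∀ i ∈ I, FI x a nδ nμ i := fun i hi => cell_FI hx (hI0 i hi).1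
  have ns := nm_ge_one hx.hs.hs.ne_zero
  have ns0 : (0 : ℝ) < nm a.s := by linarith
  set K : ℝ := x.κ / nm a.s ^ 2 with hK
  have hK0 : 0 < K := by have := hx.κ0; positivity
  have hK2 : K⁻¹ ≤ 2 := by
    rw [inv_le_comm₀ hK0 (by norm_num), hK, le_div_iff₀ (by positivity)]
    have := hx.s2
    linarith
  set N : ℝ := Nh x a nδ with hN
  have hN0 : 0 < N := by rw [hN]; unfold Nh; positivity
  have h4p : (1 : ℝ) ≤ 4 ^ nδ := one_le_pow₀ (by norm_num)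
  have hNY : N ≤ x.Y := by
    refine le_trans ?_ hVpY
    rw [hN]; unfold Nh
    exact div_le_self hVp.le h4p
  set Nb : ℝ := Nbh x a Nα nδ with hNb
  have nhu0 := nmpos (hx.h.mul hx.hs.hu).ne_zero
  have hNb0 : 0 < Nb := by
    rw [hNb]; unfold Nbh
    have g1 := nmpos (hx.g2.mul (hx.hs.hw.mul hx.g)).ne_zero
    have g3 := hx.Nα0
    positivity
  set m₀ : ℝ := 2 ^ nδ * 2 ^ nμ with hm₀
  have hm0 : 0 < m₀ := by positivity
  have hm0Y : m₀ ≤ x.Y ^ 2 := by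
    calc m₀ ≤ nm i₀.1 * nm i₀.2 := mul_le_mul f0.a1 f0.a2 (by positivity) (Nat.cast_nonneg _)
      _ ≤ x.Y * x.Y := mul_le_mul f0.Y1 f0.Y2 (Nat.cast_nonneg _) hY0.le
      _ = x.Y ^ 2 := by ring
  set H : ℝ := K * L / (5832 * N ^ 2) with hH
  have hH0 : 0 < H := by positivity
  set Λ : ℝ := 4 * N * m₀ ^ 2 with hΛ
  have hΛ0 : 0 < Λ := by positivity
  set Z : ℝ := E4Xb681.Zc R₀ x.Y with hZ
  have hexp : 0 < Real.exp R₀ := Real.exp_pos _
  have hYk : ∀ j : ℕ, j ≤ 12 → x.Y ^ j ≤ x.Y ^ 12 := fun j hj => pow_le_pow_right₀ hY1 hj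
  have hZk : ∀ j : ℕ, j ≤ 12 → 16 * x.Y ^ j ≤ Z := by
    intro j hj
    have h1 := hYk j hj
    have h2 : 0 ≤ x.Y ^ 12 := by positivity
    rw [hZ]; unfold E4Xb681.Zc
    nlinarith
  have hZj : ∀ j : ℕ, j ≤ 12 → x.Y ^ j ≤ Z := by
    intro j hj
    have h1 := hZk j hj
    have h2 : 0 ≤ x.Y ^ j := by positivity
    linarith
  have hZ4 : ∀ j : ℕ, j ≤ 12 → 4 * x.Y ^ j ≤ Z := by
    intro j hj
    have h1 := hZk j hj
    have h2 : 0 ≤ x.Y ^ j := by positivity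
    linarith
  have hZ1 : 1 ≤ Z := by simpa using hZj 0 (by norm_num)
  have hZ0 : 0 < Z := by linarith
  have hZY : x.Y ≤ Z := by simpa using hZj 1 (by norm_num)
  have hZe : Real.exp R₀ * x.Y ≤ Z := by
    rw [hZ]; unfold E4Xb681.Zc
    have h1 : x.Y ≤ x.Y ^ 12 := by simpa using hYk 1 (by norm_num)
    have h2 : 0 ≤ x.Y ^ 12 := by positivity
    nlinarith [mul_le_mul_of_nonneg_left h1 hexp.le]
  -- the index facts
  have nn0 : ∀ i ∈ I, 0 < x.nn a i.1 := fun i hi => by linarith [(fi i hi).nn]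
  have nnN : ∀ i ∈ I, x.nn a i.1 ≤ N := fun i hi => nn_le_Nh hx (fi i hi)
  have Nnn : ∀ i ∈ I, N ≤ 4 * x.nn a i.1 := fun i hi => Nh_le_nn hx (fi i hi)
  have NbI : ∀ i ∈ I, Nb ≤ Nbi x a Nα i.1 := fun i hi => Nbh_le hx (fi i hi)
  have INb : ∀ i ∈ I, Nbi x a Nα i.1 ≤ 2 * Nb := fun i hi => Nbi_le hx (fi i hi)
  have nmm : ∀ i : Eis × Eis, (nm (i.1 * i.2) : ℝ) = nm i.1 * nm i.2 := fun i => by
    rw [nm_mul]; push_cast; ring
  have hNm : ∀ i ∈ I, x.nn a i.1 * nm (i.1 * i.2) ≤ 2 * N * m₀ := by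
    intro i hi
    have f := fi i hi
    have n1 := nmpos f.p1.ne_zero
    have h1 : x.nn a i.1 * nm i.1 ≤ N * 2 ^ nδ := by
      rw [nn_eq hx f.p1.ne_zero, hN]
      unfold Nh
      have e : (4 : ℝ) ^ nδ = 2 ^ nδ * 2 ^ nδ := by
        rw [← mul_pow]; norm_num
      have e1 : Vp x a / (nm i.1 : ℝ) ^ 2 * nm i.1 = Vp x a / nm i.1 := by
        field_simp
      have e2 : Vp x a / 4 ^ nδ * 2 ^ nδ = Vp x a / 2 ^ nδ := by
        rw [e]; field_simp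
      rw [e1, e2]
      exact div_le_div_of_nonneg_left hVp.le (by positivity) f.a1
    rw [nmm]
    calc x.nn a i.1 * (nm i.1 * nm i.2) = (x.nn a i.1 * nm i.1) * nm i.2 := by ring
      _ ≤ (N * 2 ^ nδ) * (2 * 2 ^ nμ) := mul_le_mul h1 f.b2 (Nat.cast_nonneg _) (by positivity)
      _ = _ := by rw [hm₀]; ring
  have hLs : ∀ i ∈ I, Lst K H Λ m₀ (x.nn a i.1) (nm (i.1 * i.2)) ≤ L := fun i hi =>
    Lst_le hK0 hN0 hL hm0 (hNm i hi)
  have hLs0 : ∀ i ∈ I, 0 ≤ Lst K H Λ m₀ (x.nn a i.1) (nm (i.1 * i.2)) := by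
    intro i hi
    have := nn0 i hi
    unfold Lst; positivity
  have hmi4 : ∀ i ∈ I, (nm (i.1 * i.2) : ℝ) ≤ 4 * m₀ := by
    intro i hi
    have f := fi i hi
    rw [nmm]
    calc (nm i.1 : ℝ) * nm i.2 ≤ (2 * 2 ^ nδ) * (2 * 2 ^ nμ) :=
          mul_le_mul f.b1 f.b2 (Nat.cast_nonneg _) (by positivity)
      _ = _ := by rw [hm₀]; ring
  have hLL : L ≤ L * Real.exp Rw := le_mul_of_one_le_right hL.le (Real.one_le_exp hRw)
  have hu2 : (nm a.u : ℝ) ≤ 2 * x.Y := by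
    have h1 := f0.nn
    unfold XF.nn at h1
    have g1 := nm_ge_one hF
    have g2 := nm_ge_one (hx.g2.mul (hx.hs.hw.mul f0.gδ)).ne_zero
    have g3 := nm_ge_one hx.hs.hu.ne_zero
    have g4 := nm_ge_one hx.h.ne_zero
    have g5 : (nm a.u : ℝ) ≤ (nm (x.FFa a) : ℝ) * (nm (x.g₂ * (a.w * (a.g * i₀.1))) : ℝ) ^ 2 *
        (nm a.u * nm a.h) := by
      calc (nm a.u : ℝ) = 1 * 1 ^ 2 * (nm a.u * 1) := by ring
        _ ≤ _ := by gcongr
    rw [le_div_iff₀ (by linarith)] at h1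
    have := hx.VY
    linarith
  have hs2 : (nm a.s : ℝ) ^ 2 ≤ 2 * x.Y := hx.s2.trans (by linarith [hx.κY])
  have hs1 : (nm a.s : ℝ) ≤ 2 * x.Y := (le_self_pow₀ ns (by norm_num)).trans hs2
  have hNbiY : ∀ i ∈ I, Nbi x a Nα i.1 ≤ 2 * x.Y ^ 3 := by
    intro i hi
    have f := fi i hi
    unfold Nbi
    have ne := nm_ge_one (hx.g2.mul (hx.hs.hw.mul f.gδ)).ne_zero
    have h1 : Nα / nm (x.g₂ * (a.w * (a.g * i.1))) ≤ x.Y := (div_le_self hx.Nα0.le ne).trans hx.NαY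
    have h2 : (nm (a.h * a.u) : ℝ) ≤ x.Y * (2 * x.Y) := by
      rw [nm_mul]; push_cast
      exact mul_le_mul hx.hY hu2 (Nat.cast_nonneg _) hY0.le
    calc _ ≤ x.Y * (x.Y * (2 * x.Y)) := mul_le_mul h1 h2 (Nat.cast_nonneg _) hY0.le
      _ = _ := by ring
  -- the factors `A_i`
  set Af : Eis × Eis → ℝ := fun i => (nm (x.FFa a) : ℝ) *
    (nm (x.g₂ * (a.w * (a.g * i.1))) : ℝ) ^ 2 * (nm a.u * nm a.h) with hAf
  set omi : Eis × Eis → ℝ → ℂ := fun i y => pw τg y *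
    WW (x.Sf a.q) x.c₀ x.g₁ x.g₂ a.ν (a.us * a.τ) x.Om (a.w * (a.g * i.1))
      (nm a.u * (nm a.h * y)) with homi
  set κi : Eis × Eis → ℂ := fun i => (if Squarefree (x.g₂ * (a.w * (a.g * i.1))) ∧
    Crest.Agent.R017.C70.JC (x.FFa a) then 1 else 0) * pw (-τ₀) (Af i) with hκi
  set Omi : Eis × Eis → ℝ → ℂ := fun i u => conj (Om₀ (u + Real.log (Af i))) with hOmi
  have homE : ∀ i ∈ I, ∀ y, 0 < y → omi i y = κi i * (((h (Real.log y - Real.log (x.nn a i.1)) : ℝ) :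
      ℂ) * Omi i (Real.log y) * pw (τg - τ₀) y) := fun i hi y hy =>
    om_eq hx hF hOm (fi i hi).p1 hy
  have hVE : ∀ i, x.ar bm k κ' a i = SA χ (x.cz bm k κ' a i) (Qa x a) (omi i) (Ri x a i)
      (x.cf a i.1) := fun i => SA_char hg _ _ _ _ _
  have hhs : ∀ y, 0 < y → h (Real.log y) ≠ 0 → |Real.log y| ≤ R₀ := fun y hy h1 =>
    (hw y (by rw [hw1 y hy h1]; norm_num)).2
  have hRne : ∀ i ∈ I, Ri x a i ≠ 0 := by
    intro i hi
    have f := fi i hi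
    have e1 := hx.S.ne_zero
    have e2 := hx.M0
    have e3 := hx.ν.ne_zero
    have e4 := hx.hs.hu.ne_zero
    have e5 := hx.q
    have e6 := hx.hs.hs.ne_zero
    have e7 := hx.D.ne_zero
    have e8 := hx.g.ne_zero
    have e9 := hx.h.ne_zero
    have e10 := f.p1.ne_zero
    have e11 := f.p2.ne_zero
    unfold Ri RQ
    simp only [mul_ne_zero_iff]
    tauto
  have hmR : ∀ i : Eis × Eis, i.1 * i.2 ∣ Ri x a i := fun i =>
    ⟨x.Sf a.q * x.M * a.ν * a.u * (x.q * a.s * x.D * a.g * x.Sf a.q) * a.h * a.h, by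
      unfold Ri RQ; ring⟩
  have hRZ : ∀ i ∈ I, (nm (Ri x a i) : ℝ) ≤ 4 * x.Y ^ 11 := by
    intro i hi
    have f := fi i hi
    have e1 := hx.SY
    have e2 := hx.MY
    have e3 := hx.νY
    have e4 := hu2
    have e5 := hx.qY
    have e6 := hs1
    have e7 := hx.DY
    have e8 := f.gX
    have e9 := f.hμY
    have e10 := hx.hY
    unfold Ri RQ
    rw [nm_mul, nm_mul, nm_mul (x.Sf a.q * x.M * a.ν * a.u), nm_mul, nm_mul, nm_mul,
      nm_mul (x.q * a.s * x.D * (a.g * i.1)), nm_mul (x.q * a.s * x.D), nm_mul, nm_mul]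
    push_cast
    calc (nm (x.Sf a.q) : ℝ) * nm x.M * nm a.ν * nm a.u *
        (nm x.q * nm a.s * nm x.D * nm (a.g * i.1) * nm (x.Sf a.q)) * nm (a.h * i.2) * nm a.h
        ≤ x.Y * x.Y * x.Y * (2 * x.Y) * (x.Y * (2 * x.Y) * x.Y * x.Y * x.Y) * x.Y * x.Y := by gcongr
      _ = 4 * x.Y ^ 11 := by ring
  have hQZ : (nm (Qa x a) : ℝ) ≤ 4 * x.Y ^ 11 := by
    have e1 := hx.c0Y
    have e2 := hx.g1Y
    have e3 := hx.usY
    have e4 := hx.τY
    have e5 := hx.q1Y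
    have e6 := hx.q2Y
    have e7 := hx.DY
    have e8 := hs1
    unfold Qa QQ
    simp only [nm_mul, nm_pow]
    push_cast
    calc (nm x.c₀ : ℝ) * nm x.g₁ * (nm a.us * nm a.τ) *
        (nm x.q₁ * (nm x.q₂ : ℝ) ^ 2 * ((nm x.D : ℝ) ^ 2 * (nm a.s : ℝ) ^ 2))
        ≤ x.Y * x.Y * (x.Y * x.Y) * (x.Y * x.Y ^ 2 * (x.Y ^ 2 * (2 * x.Y) ^ 2)) := by gcongr
      _ = 4 * x.Y ^ 11 := by ring
  have hQne : Qa x a ≠ 0 := by
    have e1 := hx.c0
    have e2 := hx.g1.ne_zero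
    have e3 := hx.hs.hus.ne_zero
    have e4 := hx.τ.ne_zero
    have e5 := hx.q1.ne_zero
    have e6 := hx.q2.ne_zero
    have e7 := hx.D.ne_zero
    have e8 := hx.hs.hs.ne_zero
    unfold Qa QQ
    exact mul_ne_zero (mul_ne_zero (mul_ne_zero e1 e2) (mul_ne_zero e3 e4))
      (mul_ne_zero (mul_ne_zero e5 (pow_ne_zero _ e6)) (mul_ne_zero (pow_ne_zero _ e7)
        (pow_ne_zero _ e8)))
  set T : ℕ := ⌊Ct * x.Y ^ (ε / 4)⌋₊ with hT
  have hTle : (T : ℝ) ≤ Ct * x.Y ^ (ε / 4) := Nat.floor_le (by positivity)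
  have hNb0i : ∀ i ∈ I, 0 < Nb0 x a Nα i.1 ∧ Nb0 x a Nα i.1 ≤ x.Y := by
    intro i hi
    have f := fi i hi
    have ne := nm_ge_one (hx.g2.mul (hx.hs.hw.mul f.gδ)).ne_zero
    unfold Nb0
    exact ⟨div_pos hx.Nα0 (by linarith), (div_le_self hx.Nα0.le ne).trans hx.NαY⟩
  have hXD : XDm h χ w1 A' ε0 C₂ cw0 Rw I T (fun i => x.nn a i.1) (fun i => Nb0 x a Nα i.1)
      (fun _ => W1) (fun _ => q) (fun i => i.1 * i.2) (fun _ => Qa x a) (fun i => Ri x a i)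
      (fun _ => 1) (fun _ => a.h * a.u) (x.ar bm k κ' a) (fun i => cb x a i.1) (x.cz bm k κ' a) κi
      omi Omi K H Λ m₀ Z Mb (τg - τ₀) := by
    refine
      { pi := ⟨hZ0.le, fun i hi => (fi i hi).p1.mul (fi i hi).p2, fun i hi => (fi i hi).sq, ?_, ?_⟩
        Z1 := hZ1
        K0 := hK0
        KZ := hK2.trans (by have := hZk 0 (by norm_num); simp at this; linarith)
        H0 := hH0
        m0 := hm0
        ΛZ := ?_
        Mb0 := hMb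
        N0 := nn0
        NZ := fun i hi => ((nnN i hi).trans hNY).trans hZY
        mZ := ?_
        mm := ?_
        NΛ := ?_
        hT := ?_
        VE := fun i _ => hVE i
        FSb := fun i hi => FS_base hx (fi i hi).p1
        bS := ?_
        Nb0 := fun i hi => (hNb0i i hi).1
        NbZ := fun i hi => (hNb0i i hi).2.trans hZY
        κp := fun _ _ => hx.h.mul hx.hs.hu
        κs := fun _ _ => hhu
        κZ := ?_
        Q0 := fun _ _ => hQne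
        QZ := fun _ _ => hQZ.trans (hZ4 11 (by norm_num))
        R0 := hRne
        RZ := fun i hi => (hRZ i hi).trans (hZ4 11 (by norm_num))
        ρR := ?_
        mR := fun i _ => hmR i
        LstZ := ?_
        q0 := fun _ _ => hq0
        qZ := ?_
        W0 := fun _ _ => hW1
        LN := ?_
        RM := ?_
        κ1 := ?_
        OmC := fun i _ => contDiff_conj_shift hOmC _
        OmB := fun i _ n hn y => by
          rw [hOmi]; beta_reduce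
          rw [iter_conj_shift]; exact hOmB n hn _
        omE := homE }
    · intro i hi n hn
      rw [hVE i] at hn
      obtain ⟨hp, hs, hcop, ho⟩ := SA_supp hn
      have nn' := nmpos hp.ne_zero
      rw [homE i hi (nm n) nn'] at ho
      have hhn : h (Real.log (nm n) - Real.log (x.nn a i.1)) ≠ 0 := by
        intro h0
        rw [h0] at ho
        exact ho (by simp)
      have hNi := nn0 i hi
      have e2 : Real.log (nm n) - Real.log (x.nn a i.1) = Real.log (nm n / x.nn a i.1) :=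
        (Real.log_div nn'.ne' hNi.ne').symm
      have h1 : |Real.log (nm n / x.nn a i.1)| ≤ R₀ := by
        refine hhs _ (by positivity) ?_
        rw [← e2]; exact hhn
      have h2 : (nm n : ℝ) / x.nn a i.1 ≤ Real.exp R₀ := by
        rw [← Real.log_le_iff_le_exp (by positivity)]; exact (abs_le.mp h1).2
      rw [div_le_iff₀ hNi] at h2
      refine (mem_S hZ0.le).2 ⟨h2.trans ?_, hp, hs⟩
      exact (mul_le_mul_of_nonneg_left ((nnN i hi).trans hNY) hexp.le).trans hZe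
    · intro i hi n hn
      rw [hVE i] at hn
      obtain ⟨hp, hs, hcop, ho⟩ := SA_supp hn
      exact IsCoprime.of_isCoprime_of_dvd_right hcop (hmR i)
    · have h1 : Λ ≤ 16 * x.Y ^ 5 := by
        calc Λ ≤ 4 * x.Y * (x.Y ^ 2) ^ 2 := by rw [hΛ]; gcongr
          _ = 4 * x.Y ^ 5 := by ring
          _ ≤ 16 * x.Y ^ 5 := by
              have : 0 ≤ x.Y ^ 5 := by positivity
              linarith
      exact (h1.trans (hZk 5 (by norm_num))).trans (le_self_pow₀ hZ1 (by norm_num))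
    · intro i hi
      have f := fi i hi
      beta_reduce
      rw [nmm]
      calc (nm i.1 : ℝ) * nm i.2 ≤ x.Y * x.Y := mul_le_mul f.Y1 f.Y2 (Nat.cast_nonneg _) hY0.le
        _ = x.Y ^ 2 := by ring
        _ ≤ Z := hZj 2 (by norm_num)
    · intro i hi
      have f := fi i hi
      beta_reduce
      rw [nmm, hm₀]
      exact mul_le_mul f.a1 f.a2 (by positivity) (Nat.cast_nonneg _)
    · intro i hi
      have f := fi i hi
      have n1 := nmpos f.p1.ne_zero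
      beta_reduce
      rw [nmm, nn_eq hx f.p1.ne_zero, hΛ, hN, hm₀]
      unfold Nh
      have e : (4 : ℝ) ^ nδ = (2 ^ nδ) ^ 2 := by
        rw [← pow_mul, mul_comm, pow_mul]; norm_num
      rw [e]
      have e1 : Vp x a / (nm i.1 : ℝ) ^ 2 * ((nm i.1 : ℝ) * nm i.2) ^ 2 =
          Vp x a * (nm i.2 : ℝ) ^ 2 := by field_simp
      have e2 : 4 * (Vp x a / (2 ^ nδ) ^ 2) * ((2 : ℝ) ^ nδ * 2 ^ nμ) ^ 2 =
          Vp x a * (2 * 2 ^ nμ) ^ 2 := by field_simp; ring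
      rw [e1, e2]
      have := f.b2
      gcongr
    · intro i hi
      have f := fi i hi
      refine Nat.le_floor ?_
      have h1 : ((I.filter (fun j => j.1 * j.2 = i.1 * i.2)).card : ℝ) ≤
          (pdiv (i.1 * i.2)).card := by
        exact_mod_cast pdiv_card (fun j hj => ⟨(fi j hj).p1, (fi j hj).p2⟩) hi
      refine h1.trans ?_
      have hne : i.1 * i.2 ≠ 0 := mul_ne_zero f.p1.ne_zero f.p2.ne_zero
      rw [← dvs_eq_pdiv hne]
      refine (hτ _ hne).trans (mul_le_mul_of_nonneg_left ?_ hCt0)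
      have h2 : (nm (i.1 * i.2) : ℝ) ≤ x.Y ^ 2 := by
        rw [nmm]
        calc (nm i.1 : ℝ) * nm i.2 ≤ x.Y * x.Y := mul_le_mul f.Y1 f.Y2 (Nat.cast_nonneg _) hY0.le
          _ = x.Y ^ 2 := by ring
      calc (nm (i.1 * i.2) : ℝ) ^ (ε / 8) ≤ (x.Y ^ 2) ^ (ε / 8) :=
            Real.rpow_le_rpow (Nat.cast_nonneg _) h2 (by positivity)
        _ = x.Y ^ (ε / 4) := by
            rw [← Real.rpow_natCast, ← Real.rpow_mul hY0.le]
            congr 1; push_cast; ring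
    · intro i hi n hn
      have h1 := cb_S hx (fi i hi).p1 hn
      rw [mem_S hY0.le] at h1
      exact (mem_S hZ0.le).2 ⟨h1.1.trans hZY, h1.2⟩
    · intro i hi
      rw [nm_mul]; push_cast
      calc (nm a.h : ℝ) * nm a.u ≤ x.Y * (2 * x.Y) :=
            mul_le_mul hx.hY hu2 (Nat.cast_nonneg _) hY0.le
        _ = 2 * x.Y ^ 2 := by ring
        _ ≤ 4 * x.Y ^ 2 := by
            have : 0 ≤ x.Y ^ 2 := by positivity
            linarith
        _ ≤ Z := hZ4 2 (by norm_num)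
    · intro i hi
      exact ⟨x.Sf a.q * x.M * a.ν * (x.q * a.s * x.D * (a.g * i.1) * x.Sf a.q) * i.2 * a.h, by
        unfold Ri RQ; ring⟩
    · intro i hi
      rcases le_total 1 L with h1L | h1L
      · refine ((hLs i hi).trans (hLL.trans (hLN h1L).le)).trans (((NbI i hi).trans
          (hNbiY i hi)).trans ?_)
        have h3 := hZ4 3 (by norm_num)
        have : 0 ≤ x.Y ^ 3 := by positivity
        linarith
      · exact ((hLs i hi).trans h1L).trans hZ1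
    · intro i hi
      calc q ≤ 16 * x.Y ^ 24 := hqY
        _ = (4 * x.Y ^ 12) ^ 2 := by ring
        _ ≤ Z ^ 2 := pow_le_pow_left₀ (by positivity) (hZ4 12 (by norm_num)) 2
    · intro i hi h1s
      calc _ ≤ L * Real.exp Rw := mul_le_mul_of_nonneg_right (hLs i hi) (Real.exp_pos _).le
        _ < Nb := hLN (h1s.trans (hLs i hi))
        _ ≤ _ := NbI i hi
    · intro i hi
      refine RMk_mono (hRM i hi) ?_ (hLs i hi)
      have h1 := nn0 i hi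
      have h2 := Nnn i hi
      have h3 := INb i hi
      have h4 := hLs i hi
      have h5 := hLs0 i hi
      have h6 := NbI i hi
      have h7 : Nbi x a Nα i.1 / x.nn a i.1 ≤ 2 * Nb / (N / 4) :=
        div_le_div₀ (by positivity) h3 (by positivity) (by linarith)
      calc Nbi x a Nα i.1 / x.nn a i.1 * Lst K H Λ m₀ (x.nn a i.1) (nm (i.1 * i.2))
          ≤ 2 * Nb / (N / 4) * L := mul_le_mul h7 h4 h5 (by positivity)
        _ = 8 * Nb * L / N := by field_simp; ring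
    · intro i hi
      rw [hκi]; beta_reduce
      rw [norm_mul, Weight600.norm_pw, mul_one]
      split_ifs <;> simp
  have hres := hmain hXD (As x.M x.κ a.s) (fun b hb => by
    obtain ⟨h1, h2, h3, h4, h5⟩ := mem_As hx.κ0.le hb
    exact ⟨h1, h4, h5⟩)
  refine hres.trans ?_
  set M : ℝ := (1 + |τg - τ₀|) ^ A' * Mb ^ 2 with hM
  have hM0 : 0 ≤ M := by positivity
  -- the constant
  have hconst : C₁ * T * Z ^ (ε / 48) ≤ C₁ * Ct * z0 ^ (ε / 48) * x.Y ^ ε := by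
    have e1 : Z ^ (ε / 48) = z0 ^ (ε / 48) * x.Y ^ (ε / 4) := by
      rw [hZ]; unfold E4Xb681.Zc
      rw [← hz0, Real.mul_rpow hz0p.le (by positivity)]
      congr 1
      rw [← Real.rpow_natCast, ← Real.rpow_mul hY0.le]
      congr 1; push_cast; ring
    have e2 : x.Y ^ (ε / 4) * x.Y ^ (ε / 4) ≤ x.Y ^ ε := by
      rw [← Real.rpow_add hY0]
      exact Real.rpow_le_rpow_of_exponent_le hY1 (by linarith)
    rw [e1]
    calc C₁ * T * (z0 ^ (ε / 48) * x.Y ^ (ε / 4)) ≤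
        C₁ * (Ct * x.Y ^ (ε / 4)) * (z0 ^ (ε / 48) * x.Y ^ (ε / 4)) := by gcongr
      _ = C₁ * Ct * z0 ^ (ε / 48) * (x.Y ^ (ε / 4) * x.Y ^ (ε / 4)) := by ring
      _ ≤ _ := mul_le_mul_of_nonneg_left e2 (by positivity)
  set E : ℝ := C₁ * Ct * z0 ^ (ε / 48) * x.Y ^ ε * M with hE
  have hE0 : 0 ≤ E := by positivity
  set Θ : ℝ := Th K N q L with hΘ
  have hΘ0 : 0 ≤ Θ := Th_nonneg hK0 hL hq00
  have hx0 : ∀ i ∈ I, 0 < Lst K H Λ m₀ (x.nn a i.1) (nm (i.1 * i.2)) := by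
    intro i hi
    have g1 := nn0 i hi
    have f := fi i hi
    have g2 : (0 : ℝ) < nm (i.1 * i.2) := by
      rw [nmm]; exact mul_pos (nmpos f.p1.ne_zero) (nmpos f.p2.ne_zero)
    unfold Lst; positivity
  have hidx : ∀ i ∈ I, C₁ * T * Z ^ (ε / 48) * M * (‖x.cz bm k κ' a i‖ ^ 2 *
      x.nn a i.1 ^ (-(1 / 3) : ℝ) * XBjx K H Λ m₀ (x.nn a i.1) (nm (i.1 * i.2)) q (Nbi x a Nα i.1) W1
        cw (Ri x a i) (x.cf a i.1)) ≤ gb4 x cw bm k κ' a E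
        (E * (36 * Θ * (1 + L * N ^ (-(1 / 2) : ℝ)) + 432 * (N * m₀ ^ 2 / K) +
          36 * (N * m₀ / K ^ (2 / 3 : ℝ))))
        (E * (36 * Θ * (L * N ^ (-(1 / 2) : ℝ))))
        (E * (18 * Θ * ((Real.sqrt L + Real.sqrt (L * N / Nb)) * W1 false +
          L ^ (1 / 3 : ℝ) * (N / Nb) ^ (2 / 3 : ℝ) * W1 true))) i := by
    intro i hi
    have h1 := nn0 i hi
    have h2 := Nnn i hi
    have h3 := nnN i hi
    have h4 := hLs i hi
    have h5 := hLs0 i hi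
    have h6 := NbI i hi
    have hNbi0 : 0 < Nbi x a Nα i.1 := lt_of_lt_of_le hNb0 h6
    set Ls := Lst K H Λ m₀ (x.nn a i.1) (nm (i.1 * i.2)) with hLsd
    have t1 := TW_nonneg 1 (cw * x.nn a i.1) (x.cf a i.1)
    have t2 := TW_nonneg (1 / 2) (cw * x.nn a i.1) (x.cf a i.1)
    set T1 := TW 1 (cw * x.nn a i.1) (x.cf a i.1) with hT1
    set T2 := TW (1 / 2) (cw * x.nn a i.1) (x.cf a i.1) with hT2
    have k1 := kap1_le (K := K) (N := N) (q := q) (L := L) (m₀ := m₀) (mi := nm (i.1 * i.2)) hK0 hN0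
      hL hq00 hm0 (hmi4 i hi)
    rw [← hH, ← hΛ, ← hΘ] at k1
    have k2 : Real.sqrt Ls ≤ Real.sqrt L := Real.sqrt_le_sqrt h4
    have k3 : Real.sqrt (Ls * x.nn a i.1 / Nbi x a Nα i.1) ≤ Real.sqrt (L * N / Nb) := by
      refine Real.sqrt_le_sqrt ?_
      exact div_le_div₀ (by positivity) (mul_le_mul h4 h3 h1.le hL.le) hNb0 h6
    have k6 : Ls ^ (1 / 3 : ℝ) ≤ L ^ (1 / 3 : ℝ) := Real.rpow_le_rpow h5 h4 (by norm_num)
    have k7 : (x.nn a i.1 / Nbi x a Nα i.1) ^ (2 / 3 : ℝ) ≤ (N / Nb) ^ (2 / 3 : ℝ) :=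
      Real.rpow_le_rpow (by positivity) (div_le_div₀ hN0.le h3 hNb0 h6) (by norm_num)
    have k8 : Ls ^ (1 / 3 : ℝ) * (x.nn a i.1 / Nbi x a Nα i.1) ^ (2 / 3 : ℝ) ≤
        L ^ (1 / 3 : ℝ) * (N / Nb) ^ (2 / 3 : ℝ) := mul_le_mul k6 k7 (by positivity) (by positivity)
    have hWf := hW1 false
    have hWt := hW1 true
    have k4 : x.nn a i.1 ^ (-(1 / 2) : ℝ) ≤ 2 * N ^ (-(1 / 2) : ℝ) := by
      calc x.nn a i.1 ^ (-(1 / 2) : ℝ) ≤ (N / 4) ^ (-(1 / 2) : ℝ) :=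
            Real.rpow_le_rpow_of_nonpos (by positivity) (by linarith) (by norm_num)
        _ = 2 * N ^ (-(1 / 2) : ℝ) := by
            rw [Real.div_rpow hN0.le (by norm_num)]
            have : (4 : ℝ) ^ (-(1 / 2) : ℝ) = 1 / 2 := by
              have h : (4 : ℝ) = 2 ^ (2 : ℝ) := by norm_num
              rw [h, ← Real.rpow_mul (by norm_num)]
              norm_num
            rw [this]; field_simp
    have k5 : Ls * x.nn a i.1 ^ (-(1 / 2) : ℝ) ≤ 2 * (L * N ^ (-(1 / 2) : ℝ)) := by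
      calc Ls * x.nn a i.1 ^ (-(1 / 2) : ℝ) ≤ L * (2 * N ^ (-(1 / 2) : ℝ)) :=
            mul_le_mul h4 k4 (by positivity) hL.le
        _ = _ := by ring
    have e0 := H3_eq (K := K) (N := N) (L := L) (q := q) hK0 hN0 hL hq00
    rw [← hH, ← hΘ] at e0
    have t0 := TD_nonneg (cw * x.nn a i.1) (Ri x a i) (x.cf a i.1)
    unfold XBjx gb4
    rw [← hLsd, ← hT1, ← hT2, e0]
    set T0 := TD (cw * x.nn a i.1) (Ri x a i) (x.cf a i.1) with hT0
    have hcz : 0 ≤ ‖x.cz bm k κ' a i‖ ^ 2 * x.nn a i.1 ^ (-(1 / 3) : ℝ) := by positivity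
    set kp := kap1 K H Λ m₀ (nm (i.1 * i.2)) q with hkp
    have hkp0 : 0 ≤ kp := by
      rw [hkp]; unfold kap1 thR; positivity
    set B1 := 36 * Θ * (1 + L * N ^ (-(1 / 2) : ℝ)) + 432 * (N * m₀ ^ 2 / K) +
          36 * (N * m₀ / K ^ (2 / 3 : ℝ)) with hB1
    have hin : T0 + kp * T1 + 18 * Θ * ((Real.sqrt Ls +
        Real.sqrt (Ls * x.nn a i.1 / Nbi x a Nα i.1)) * W1 false +
        Ls ^ (1 / 3 : ℝ) * (x.nn a i.1 / Nbi x a Nα i.1) ^ (2 / 3 : ℝ) * W1 true +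
        Ls * x.nn a i.1 ^ (-(1 / 2) : ℝ) * T2) ≤
        T0 + B1 * T1 + 36 * Θ * (L * N ^ (-(1 / 2) : ℝ)) * T2 +
          18 * Θ * ((Real.sqrt L + Real.sqrt (L * N / Nb)) * W1 false +
          L ^ (1 / 3 : ℝ) * (N / Nb) ^ (2 / 3 : ℝ) * W1 true) := by
      calc _ ≤ T0 + B1 * T1 + 18 * Θ * ((Real.sqrt L + Real.sqrt (L * N / Nb)) * W1 false +
            L ^ (1 / 3 : ℝ) * (N / Nb) ^ (2 / 3 : ℝ) * W1 true +
            2 * (L * N ^ (-(1 / 2) : ℝ)) * T2) := by gcongr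
        _ = _ := by ring
    have hin0 : 0 ≤ T0 + kp * T1 + 18 * Θ * ((Real.sqrt Ls +
        Real.sqrt (Ls * x.nn a i.1 / Nbi x a Nα i.1)) * W1 false +
        Ls ^ (1 / 3 : ℝ) * (x.nn a i.1 / Nbi x a Nα i.1) ^ (2 / 3 : ℝ) * W1 true +
        Ls * x.nn a i.1 ^ (-(1 / 2) : ℝ) * T2) := by positivity
    have hEc : C₁ * T * Z ^ (ε / 48) * M ≤ E := mul_le_mul_of_nonneg_right hconst hM0
    calc C₁ * T * Z ^ (ε / 48) * M * (‖x.cz bm k κ' a i‖ ^ 2 * x.nn a i.1 ^ (-(1 / 3) : ℝ) *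
        (T0 + kp * T1 + 18 * Θ * ((Real.sqrt Ls +
        Real.sqrt (Ls * x.nn a i.1 / Nbi x a Nα i.1)) * W1 false +
        Ls ^ (1 / 3 : ℝ) * (x.nn a i.1 / Nbi x a Nα i.1) ^ (2 / 3 : ℝ) * W1 true +
        Ls * x.nn a i.1 ^ (-(1 / 2) : ℝ) * T2)))
        ≤ E * (‖x.cz bm k κ' a i‖ ^ 2 * x.nn a i.1 ^ (-(1 / 3) : ℝ) *
        (T0 + B1 * T1 + 36 * Θ * (L * N ^ (-(1 / 2) : ℝ)) * T2 +
          18 * Θ * ((Real.sqrt L + Real.sqrt (L * N / Nb)) * W1 false +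
          L ^ (1 / 3 : ℝ) * (N / Nb) ^ (2 / 3 : ℝ) * W1 true))) := by
          refine mul_le_mul hEc (mul_le_mul_of_nonneg_left hin hcz) (by positivity) hE0
      _ = _ := by ring
  calc _ = C₁ * T * Z ^ (ε / 48) * M * (K * ∑ i ∈ I, ‖x.cz bm k κ' a i‖ ^ 2 *
      x.nn a i.1 ^ (-(1 / 3) : ℝ) * XBjx K H Λ m₀ (x.nn a i.1) (nm (i.1 * i.2)) q (Nbi x a Nα i.1) W1
        cw (Ri x a i) (x.cf a i.1)) := rfl
    _ = K * ∑ i ∈ I, C₁ * T * Z ^ (ε / 48) * M * (‖x.cz bm k κ' a i‖ ^ 2 *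
      x.nn a i.1 ^ (-(1 / 3) : ℝ) * XBjx K H Λ m₀ (x.nn a i.1) (nm (i.1 * i.2)) q (Nbi x a Nα i.1) W1
        cw (Ri x a i) (x.cf a i.1)) := by
        rw [← Finset.mul_sum]; ring
    _ ≤ K * ∑ i ∈ I, _ := mul_le_mul_of_nonneg_left (Finset.sum_le_sum hidx) hK0.le
    _ = _ := rfl

end Crest.Agent.R017.E4Xb939
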