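import Crest.Agent.R017.E4Xb_92

/-!
# Row 17, block C70, leaf E4 (x-side): the total of the cells, keys `(d, r)` (helper92)

* `Ak (d, r) = d r²` divides the frequencies of the class; weight `N(r)`
* `xtotalD` : `∑_o XMb ≤ C Y^ε #Bs (∑_{(d, r)} N(r)⁻¹) Sx` if `N(r) Φ(n, (d, r)) ≤ Sx`
-/

set_option autoImplicit false
set_option linter.unusedVariables false
set_option maxHeartbeats 400000

noncomputable section

open Complex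
open scoped ComplexConjugate

namespace Crest.Agent.R017.E4X92

open Crest.Agent.R012 Crest.Agent.R012.Eis Crest.Agent.R012.MC
open Crest.Agent.R012.LS2 (S mem_S)
open Crest.Agent.R012.Div277 (dvs mem_dvs isPrim_of_mem_dvs dvd_of_mem_dvs tau tau_le_rpow)
open Crest.Agent.R017.CM106 (CS FS)
open Crest.Agent.R017.C70 (CbF)
open Crest.Agent.R017.PX764 (n6 th)
open Crest.Agent.R017.E3D579 (b0 bt bF)
open Crest.Agent.R017.E4352 (rd dvd_rd)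
open Crest.Agent.R017.E4579 (SupB bpt bco bpt_prim)
open Crest.Agent.R017.E4v92 (FF WW)
open Crest.Agent.R017.E4z92 (OKs cZ QQ RQ norm_cZ_le As Ss XMb XMb_le mem_Ss Vz)
open Crest.Agent.R017.E4zz92
open Crest.Agent.R017.E4F266 (IP IP_mem)
open Crest.Agent.R017.E3q681 (TW AQ SA)
open Finset

/-- the divisor of a key -/
def Ak (k : Eis × Eis) : Eis := k.1 * k.2 ^ 2

/-- the key of a cell -/
def XF.ky (x : XF) (Kf : (Fin 12 → ℕ) → Eis → Eis → Eis → Eis × Eis) (a : Tu) (nδ nμ : ℕ) :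
    Eis × Eis := Kf (x.vec a nδ nμ) a.q a.ν (a.us * a.τ)

/-- the bound of the moments of a class; `A₀` : a fixed divisor of the frequencies -/
def XF.MomD (x : XF) (cw : ℝ) (A₀ : Eis) (n : Fin 12 → ℕ) (A1 A2 A3 : ℝ) : ℝ :=
  A1 * TSS x.α x.e₀ (x.c₀ * A₀) 1 (8 * x.En n) (x.Ln cw n / nm A₀) +
    A2 * TSS x.α x.e₀ (x.c₀ * A₀) (1 / 2) (8 * x.En n) (x.Ln cw n / nm A₀) +
      A3 * (x.En n * (x.Jn n / nm A₀))

/-- the bound of a pair (tuple, divisor of the moved factor) -/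
def XF.GGD (x : XF) (cw : ℝ) (bm : Eis × Eis → Eis → ℂ) (kk : Eis × Eis → ℂ)
    (κ' : Eis × Eis → Eis → ℂ) (A : Fin 3 → (Fin 12 → ℕ) → Eis × Eis → ℝ) (Kf : (Fin 12 → ℕ) → Eis → Eis → Eis → Eis × Eis)
    (y : Tu × Eis) : ℝ :=
  wg y.1.g y.1.h / nm y.1.s * x.gb cw (bm (x.Sf y.1.q, y.1.ν)) (kk (x.Sf y.1.q, y.1.ν))
    (κ' (x.Sf y.1.q, y.1.ν)) y.1
    (A 0 (x.vec y.1 (lg y.1.δ) (lg y.2)) (x.ky Kf y.1 (lg y.1.δ) (lg y.2)))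
    (A 1 (x.vec y.1 (lg y.1.δ) (lg y.2)) (x.ky Kf y.1 (lg y.1.δ) (lg y.2)))
    (A 2 (x.vec y.1 (lg y.1.δ) (lg y.2)) (x.ky Kf y.1 (lg y.1.δ) (lg y.2))) (y.1.δ, y.2)

/-- the number of a class -/
def XF.PhiD (x : XF) (cw Mb Ek : ℝ) (A : Fin 3 → (Fin 12 → ℕ) → Eis × Eis → ℝ) (n : Fin 12 → ℕ)
    (k : Eis × Eis) : ℝ :=
  x.κ * (Mb * Ek * ‖th x.c₀‖ ^ 2 * x.V ^ (-(1 / 3) : ℝ) * x.Base n *
    x.MomD cw (Ak k) n (A 0 n k) (A 1 n k) (A 2 n k))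

open Classical in
/-- **the sum of the moments over a class** -/
theorem mom_sumD {ε : ℝ} (hε : 0 < ε) {cw : ℝ} (hcw : 1 ≤ cw) : ∃ C : ℝ, 0 ≤ C ∧
    ∀ (x : XF) (n : Fin 12 → ℕ) (T : Finset Tu) (Bs : Finset Eis) (A₀ : Eis) (A1 A2 A3 : ℝ),
    x.OKx cw → IsPrim A₀ → 0 ≤ A1 → 0 ≤ A2 → 0 ≤ A3 →
    (∀ a ∈ T, x.OKa a ∧ Bd x a n ∧ bpt (x.Sf a.q) a.ν ∈ Bs ∧
      A₀ ∣ PP (x.Sf a.q) x.g₁ a.ν (a.us * a.τ)) →
    ∑ a ∈ T, (A1 * TW 1 (cw * x.nn a a.δ) (x.cf a a.δ) +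
      A2 * TW (1 / 2) (cw * x.nn a a.δ) (x.cf a a.δ) + A3) ≤
        C * x.Y ^ ε * (Bs.card * x.MomD cw A₀ n A1 A2 A3) := by
  obtain ⟨C1, hC1, h1⟩ := tw_sumA hε
  obtain ⟨C2, hC2, h2⟩ := tcount hε
  have hcw0 : 0 < cw := by linarith
  refine ⟨(8 * cw) ^ ε * (C1 + C2 * (800 * 800)), by positivity, ?_⟩
  intro x n T Bs A₀ A1 A2 A3 hx hA₀ hA1 hA2 hA3 hT
  have hY := hx.Y1
  have hY0 : 0 < x.Y := by linarith
  have hV := hx.V0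
  have hE := En_one hx n
  have hE0 := En_pos hx n
  have hJ := Jn_pos x n
  have hc := nm_ge_one' hx.c0
  have hc0 := nmpos' hx.c0
  set Y1 : ℝ := 8 * cw * x.Y with hY1
  have hY11 : 1 ≤ Y1 := by rw [hY1]; nlinarith
  have hYε : Y1 ^ ε = (8 * cw) ^ ε * x.Y ^ ε := by
    rw [hY1, Real.mul_rpow (by positivity) hY0.le]
  have hYε0 : 0 ≤ Y1 ^ ε := by positivity
  have hL0 : 0 ≤ x.Ln cw n := by unfold XF.Ln; positivity
  have hLY : x.Ln cw n ≤ Y1 := by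
    unfold XF.Ln
    rw [div_le_iff₀ (by positivity), hY1]
    have hV2 := hx.VY
    have e1 : (1 : ℝ) ≤ nm x.c₀ * x.En n ^ 2 := by
      calc (1 : ℝ) = 1 * 1 ^ 2 := by ring
        _ ≤ _ := by gcongr
    calc 8 * cw * x.V ≤ 8 * cw * x.Y := by gcongr
      _ = 8 * cw * x.Y * 1 := by ring
      _ ≤ _ := by gcongr
  have hAJ : ∀ a ∈ T, A₀ ∣ a.J x.fr := by
    intro a ha
    obtain ⟨-, -, -, k4⟩ := hT a ha
    unfold Tu.J
    exact k4.mul_right _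
  have hTW : ∀ e : ℝ, ∑ a ∈ T, TW e (cw * x.nn a a.δ) (x.cf a a.δ) ≤
      C1 * Y1 ^ ε * (Bs.card * TSS x.α x.e₀ (x.c₀ * A₀) e (8 * x.En n) (x.Ln cw n / nm A₀)) := by
    intro e
    have h3 := h1 Y1 x.fr T x.α x.e₀ x.c₀ A₀ e (cw * x.Nn n) (8 * x.En n) (x.Ln cw n) Bs hY11
      (fr_ok hx) hx.α hA₀ (by unfold XF.Nn; positivity) (by positivity) hL0 hLY (fun a ha => by
        obtain ⟨k1, k2, k3, k4⟩ := hT a ha
        refine ⟨ok_of hx k1, k1.hj, k1.hc, k3, e_le k2, ?_, hAJ a ha⟩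
        have k3 := J_le k1 k2
        calc (nm (a.J x.fr) : ℝ) * (cw * x.Nn n) ≤ 8 * x.Jn n * (cw * x.Nn n) := by
              have : 0 ≤ cw * x.Nn n := by unfold XF.Nn; positivity
              gcongr
          _ = x.Ln cw n := by
              unfold XF.Nn XF.Ln
              field_simp)
    refine (sum_le_sum fun a ha => ?_).trans h3
    obtain ⟨k1, k2, -⟩ := hT a ha
    rw [x.cf_eq]
    refine TW_mono _ ?_
    have := nn_le hx k1 k2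
    gcongr
  -- the number of tuples
  have hA1' := nm_ge_one' hA₀.ne_zero
  have hA0' := nmpos' hA₀.ne_zero
  have hcnt : (T.card : ℝ) ≤
      C2 * Y1 ^ ε * (Bs.card * (800 * x.En n * (800 * (x.Jn n / nm A₀)))) := by
    have h3 := h2 Y1 x.fr T (Bs ×ˢ {1} ×ˢ primBall ⌊8 * x.En n⌋₊ ×ˢ
      (primBall ⌊8 * (x.Jn n / nm A₀)⌋₊).image (fun j => A₀ * j))
      (fun _ => 1) hY11 (fr_ok hx) (fun a ha => ok_of hx (hT a ha).1) (fun a ha => by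
        obtain ⟨k1, k2, k3, -⟩ := hT a ha
        unfold tgt
        simp only [mem_product, mem_singleton, mem_primBall]
        refine ⟨k3, k1.hc, ⟨Nat.le_floor (e_le k2), ?_⟩, ?_⟩
        · exact (ok_of hx k1).eprim (fr_ok hx)
        · obtain ⟨j, hj⟩ := hAJ a ha
          rw [mem_image]
          refine ⟨j, mem_primBall.mpr ⟨Nat.le_floor ?_, ?_⟩, hj.symm⟩
          · have h4 := J_le k1 k2
            rw [hj, nm_mul] at h4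
            push_cast at h4
            rw [← mul_div_assoc, le_div_iff₀ hA0']
            linarith
          · have h5 := (ok_of hx k1).Jprim (fr_ok hx)
            rw [hj] at h5
            exact h5.of_mul_left hA₀) (fun _ _ => zero_le_one)
    rw [sum_const, nsmul_eq_mul, mul_one, sum_const, nsmul_eq_mul, mul_one] at h3
    refine h3.trans (mul_le_mul_of_nonneg_left ?_ (by positivity))
    simp only [card_product, card_singleton]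
    push_cast
    have g0 : ((((primBall ⌊8 * (x.Jn n / nm A₀)⌋₊).image (fun j => A₀ * j)).card : ℕ) : ℝ) ≤
        ((primBall ⌊8 * (x.Jn n / nm A₀)⌋₊).card : ℝ) := by exact_mod_cast card_image_le
    have g1 : ((primBall ⌊8 * x.En n⌋₊).card : ℝ) ≤ 800 * x.En n := by
      have := Crest.Agent.R012.Lat277.card_primBall_le ⌊8 * x.En n⌋₊
      refine this.trans ?_
      have := Nat.floor_le (by positivity : 0 ≤ 8 * x.En n)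
      linarith
    have g2 : ((primBall ⌊8 * (x.Jn n / nm A₀)⌋₊).card : ℝ) ≤ 800 * (x.Jn n / nm A₀) := by
      have := Crest.Agent.R012.Lat277.card_primBall_le ⌊8 * (x.Jn n / nm A₀)⌋₊
      refine this.trans ?_
      have := Nat.floor_le (by positivity : 0 ≤ 8 * (x.Jn n / nm A₀))
      linarith
    have g3 := g0.trans g2
    calc (Bs.card : ℝ) * (1 * (((primBall ⌊8 * x.En n⌋₊).card : ℝ) *
          (((primBall ⌊8 * (x.Jn n / nm A₀)⌋₊).image (fun j => A₀ * j)).card : ℝ)))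
        ≤ Bs.card * (1 * (800 * x.En n * (800 * (x.Jn n / nm A₀)))) := by gcongr
      _ = _ := by ring
  rw [sum_add_distrib, sum_add_distrib, ← mul_sum, ← mul_sum, sum_const, nsmul_eq_mul]
  have t1 := hTW 1
  have t2 := hTW (1 / 2)
  unfold XF.MomD
  set U1 := TSS x.α x.e₀ (x.c₀ * A₀) 1 (8 * x.En n) (x.Ln cw n / nm A₀) with hU1
  set U2 := TSS x.α x.e₀ (x.c₀ * A₀) (1 / 2) (8 * x.En n) (x.Ln cw n / nm A₀) with hU2
  have n1 : 0 ≤ U1 := TSS_nonneg _ _ _ _ _ _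
  have n2 : 0 ≤ U2 := TSS_nonneg _ _ _ _ _ _
  calc A1 * ∑ a ∈ T, TW 1 (cw * x.nn a a.δ) (x.cf a a.δ) +
        A2 * ∑ a ∈ T, TW (1 / 2) (cw * x.nn a a.δ) (x.cf a a.δ) + T.card * A3
      ≤ A1 * (C1 * Y1 ^ ε * (Bs.card * U1)) + A2 * (C1 * Y1 ^ ε * (Bs.card * U2)) +
        C2 * Y1 ^ ε * (Bs.card * (800 * x.En n * (800 * (x.Jn n / nm A₀)))) * A3 := by gcongr
    _ = Y1 ^ ε * Bs.card * (C1 * (A1 * U1) + C1 * (A2 * U2) +
        C2 * (800 * 800) * (A3 * (x.En n * (x.Jn n / nm A₀)))) := by ring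
    _ ≤ Y1 ^ ε * Bs.card * ((C1 + C2 * (800 * 800)) * (A1 * U1) +
        (C1 + C2 * (800 * 800)) * (A2 * U2) +
        (C1 + C2 * (800 * 800)) * (A3 * (x.En n * (x.Jn n / nm A₀)))) := by
        have : 0 ≤ C2 * (800 * 800) := by positivity
        gcongr <;> linarith
    _ = _ := by rw [hYε]; ring

section sum

variable {x : XF} {cw : ℝ} {OO : Finset (Eis × Eis)} {v' bm : Eis × Eis → Eis → ℂ}
  {kk : Eis × Eis → ℂ} {κ' : Eis × Eis → Eis → ℂ} {qc : Eis → Eis} {Mb Ek : ℝ}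
  {A : Fin 3 → (Fin 12 → ℕ) → Eis × Eis → ℝ} {Kf : (Fin 12 → ℕ) → Eis → Eis → Eis → Eis × Eis}

/-- the bound of a pair -/
lemma GGD_le (H : x.HO cw OO v' bm kk κ' qc Mb Ek) {y : Tu × Eis} (hy : x.OKy OO y)
    {n : Fin 12 → ℕ} {A₀ : Eis × Eis} (hn : x.vec y.1 (lg y.1.δ) (lg y.2) = n)
    (hA₀ : x.ky Kf y.1 (lg y.1.δ) (lg y.2) = A₀) (hA : ∀ j, 0 ≤ A j n A₀) :
    x.GGD cw bm kk κ' A Kf y ≤ (K1 * (Ek * ‖th x.c₀‖ ^ 2 * x.V ^ (-(1 / 3) : ℝ) * x.Base n)) *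
      ((A 0 n A₀ * TW 1 (cw * x.nn y.1 y.1.δ) (x.cf y.1 y.1.δ) +
        A 1 n A₀ * TW (1 / 2) (cw * x.nn y.1 y.1.δ) (x.cf y.1 y.1.δ) + A 2 n A₀) *
        (wg y.1.g y.1.h * ‖bm (x.Sf y.1.q, y.1.ν) (y.1.g * (y.1.h * y.2))‖ ^ 2)) := by
  obtain ⟨a, μ⟩ := y
  have hx := H.ok
  have ha := hy.a
  have ho := hy.o
  simp only at hn hA₀ ha ho ⊢
  unfold XF.GGD
  simp only
  rw [hn, hA₀]
  unfold XF.gb
  simp only
  set T3 : ℝ := A 0 n A₀ * TW 1 (cw * x.nn a a.δ) (x.cf a a.δ) +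
        A 1 n A₀ * TW (1 / 2) (cw * x.nn a a.δ) (x.cf a a.δ) + A 2 n A₀ with hT3
  have hT30 : 0 ≤ T3 := by
    have h1 := hA 0
    have h2 := hA 1
    have h3 := hA 2
    have h4 := TW_nonneg' 1 (cw * x.nn a a.δ) (x.cf a a.δ)
    have h5 := TW_nonneg' (1 / 2) (cw * x.nn a a.δ) (x.cf a a.δ)
    positivity
  have hτq : Squarefree (a.us * a.τ) :=
    squarefree_mul_iff.mpr ⟨ha.husτ.isRelPrime, ha.hs.huq.of_mul_left, ha.hτq⟩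
  have hgδ : IsPrim (a.g * a.δ) := ha.hg.mul ha.hδ
  have hcz := norm_cz_le (x := x) (bm := bm (x.Sf a.q, a.ν)) (κ' := κ' (x.Sf a.q, a.ν))
    (k := kk (x.Sf a.q, a.ν)) (a := a) H.c₀ H.g₁ H.g₁q H.q1 H.q2 H.D H.g0 ha.hs ha.hτ hτq ha.hh
    (i := (a.δ, μ)) hgδ hy.m (H.hκ' _ ho _ (hx.g₂.mul (ha.hs.hw.mul hgδ)))
  simp only at hcz
  have hk := H.hk _ ho
  simp only at hk
  have hw0 : 0 ≤ wg a.g a.h := (wg_pos _ _).le
  have hs0 := nmpos' ha.hs.hs.ne_zero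
  have hnn : 0 ≤ x.nn a a.δ ^ (-(1 / 3) : ℝ) := by
    have := ha.hn
    exact Real.rpow_nonneg (by linarith) _
  have hWt := Wt_le hx ha (bd_of hn)
  have hth : 0 ≤ ‖th x.c₀‖ ^ 2 := by positivity
  set b2 : ℝ := ‖bm (x.Sf a.q, a.ν) (a.g * (a.h * μ))‖ with hb2
  have hb0 : 0 ≤ b2 := norm_nonneg _
  -- the square of the coefficient
  have h1 : ‖x.cz (bm (x.Sf a.q, a.ν)) (kk (x.Sf a.q, a.ν)) (κ' (x.Sf a.q, a.ν)) a (a.δ, μ)‖ ^ 2 ≤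
      b2 ^ 2 * (Ek * ((nm (x.Sf a.q) : ℝ) * nm a.ν) ^ (4 / 3 : ℝ)) *
        ((n6 (x.g₁ * (a.us * a.τ)) * n6 a.u * n6 a.h) ^ 2 * ‖th x.c₀‖ ^ 2) := by
    refine (pow_le_pow_left₀ (norm_nonneg _) hcz 2).trans ?_
    calc (b2 * (‖kk (x.Sf a.q, a.ν)‖ * ((n6 (x.g₁ * (a.us * a.τ)) * ‖th x.c₀‖) * n6 a.u *
          n6 a.h))) ^ 2 = b2 ^ 2 * ‖kk (x.Sf a.q, a.ν)‖ ^ 2 *
          ((n6 (x.g₁ * (a.us * a.τ)) * n6 a.u * n6 a.h) ^ 2 * ‖th x.c₀‖ ^ 2) := by ring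
      _ ≤ _ := by gcongr
  calc wg a.g a.h / nm a.s * (‖x.cz (bm (x.Sf a.q, a.ν)) (kk (x.Sf a.q, a.ν))
        (κ' (x.Sf a.q, a.ν)) a (a.δ, μ)‖ ^ 2 * x.nn a a.δ ^ (-(1 / 3) : ℝ) * T3)
      ≤ wg a.g a.h / nm a.s * ((b2 ^ 2 * (Ek * ((nm (x.Sf a.q) : ℝ) * nm a.ν) ^ (4 / 3 : ℝ)) *
        ((n6 (x.g₁ * (a.us * a.τ)) * n6 a.u * n6 a.h) ^ 2 * ‖th x.c₀‖ ^ 2)) *
          x.nn a a.δ ^ (-(1 / 3) : ℝ) * T3) := by
        gcongr
    _ = Ek * ‖th x.c₀‖ ^ 2 * x.Wt a * (T3 * (wg a.g a.h * b2 ^ 2)) := by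
        unfold XF.Wt
        ring
    _ ≤ Ek * ‖th x.c₀‖ ^ 2 * ((4 : ℝ) ^ (4 / 3 : ℝ) * (128 : ℝ) ^ (1 / 3 : ℝ) *
        (x.V ^ (-(1 / 3) : ℝ) * x.Base n)) * (T3 * (wg a.g a.h * b2 ^ 2)) := by
        have hE := H.Ek0
        gcongr
    _ = _ := by unfold K1; ring

end sum

open Classical in
/-- **the sum over a class** -/
theorem cls_sumD {ε : ℝ} (hε : 0 < ε) {cw : ℝ} (hcw : 1 ≤ cw) : ∃ C : ℝ, 0 ≤ C ∧
    ∀ (x : XF) (OO : Finset (Eis × Eis)) (v' bm : Eis × Eis → Eis → ℂ) (kk : Eis × Eis → ℂ)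
      (κ' : Eis × Eis → Eis → ℂ) (qc : Eis → Eis) (Mb Ek : ℝ)
      (A : Fin 3 → (Fin 12 → ℕ) → Eis × Eis → ℝ) (Kf : (Fin 12 → ℕ) → Eis → Eis → Eis → Eis × Eis) (Bs : Finset Eis)
      (T : Finset (Tu × Eis)) (n : Fin 12 → ℕ) (A₀ : Eis × Eis),
      x.HO cw OO v' bm kk κ' qc Mb Ek → IsPrim (Ak A₀) → (∀ j, 0 ≤ A j n A₀) →
      (∀ y ∈ T, x.OKy OO y ∧ x.vec y.1 (lg y.1.δ) (lg y.2) = n ∧
        x.ky Kf y.1 (lg y.1.δ) (lg y.2) = A₀ ∧ bpt (x.Sf y.1.q) y.1.ν ∈ Bs ∧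
        Ak A₀ ∣ PP (x.Sf y.1.q) x.g₁ y.1.ν (y.1.us * y.1.τ)) →
      x.κ * ∑ y ∈ T, x.GGD cw bm kk κ' A Kf y ≤
        C * x.Y ^ ε * (Bs.card * x.PhiD cw Mb Ek A n A₀) := by
  obtain ⟨C, hC, h⟩ := mom_sumD hε hcw
  refine ⟨K1 * C, mul_nonneg K1_pos.le hC, ?_⟩
  intro x OO v' bm kk κ' qc Mb Ek A Kf Bs T n A₀ H hA₀ hA hT
  have hx := H.ok
  have hκ := H.κ0
  have hE := H.Ek0
  have hMb := H.Mb0
  have hV : 0 ≤ x.V ^ (-(1 / 3) : ℝ) := Real.rpow_nonneg hx.V0.le _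
  have hK := K1_pos
  have hB : 0 ≤ x.Base n := by
    unfold XF.Base
    positivity
  set t : Tu → ℝ := fun a => A 0 n A₀ * TW 1 (cw * x.nn a a.δ) (x.cf a a.δ) +
        A 1 n A₀ * TW (1 / 2) (cw * x.nn a a.δ) (x.cf a a.δ) + A 2 n A₀ with ht
  have ht0 : ∀ a, 0 ≤ t a := by
    intro a
    have h1 := hA 0
    have h2 := hA 1
    have h3 := hA 2
    have h4 := TW_nonneg' 1 (cw * x.nn a a.δ) (x.cf a a.δ)
    have h5 := TW_nonneg' (1 / 2) (cw * x.nn a a.δ) (x.cf a a.δ)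
    rw [ht]
    positivity
  set f : Tu → Eis → ℝ := fun a μ =>
    wg a.g a.h * ‖bm (x.Sf a.q, a.ν) (a.g * (a.h * μ))‖ ^ 2 with hf
  have hf0 : ∀ a μ, 0 ≤ f a μ := fun a μ => mul_nonneg (wg_pos _ _).le (by positivity)
  have e1 := sum_pairs (T := T) (t := t) (f := f) (Y := x.Y) (Mb := Mb) (fun y _ => ht0 y.1) hf0
    (fun y hy => (hT y hy).1.μ) (fun y hy => by
      obtain ⟨k1, -⟩ := hT y hy
      have h1 := H.hM _ k1.o _ k1.g _ k1.h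
      rw [hf]
      simp only
      rw [← mul_sum, wg_eq k1.a.hg k1.a.hh]
      have g1 := nmpos' k1.a.hg.ne_zero
      have g2 := nmpos' k1.a.hh.ne_zero
      calc (nm y.1.g : ℝ) * nm y.1.h * ∑ μ ∈ S x.Y,
            ‖bm (x.Sf y.1.q, y.1.ν) (y.1.g * (y.1.h * μ))‖ ^ 2
          ≤ (nm y.1.g : ℝ) * nm y.1.h * (Mb / ((nm y.1.g : ℝ) * nm y.1.h)) := by gcongr
        _ = Mb := by field_simp)
  have e2 := h x n (T.image Prod.fst) Bs (Ak A₀) (A 0 n A₀) (A 1 n A₀) (A 2 n A₀) hx hA₀ (hA 0) (hA 1)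
    (hA 2) (fun a ha => by
      obtain ⟨y, hy, rfl⟩ := mem_image.mp ha
      obtain ⟨k1, k2, k3, k4, k5⟩ := hT y hy
      exact ⟨k1.a, bd_of k2, k4, k5⟩)
  have e3 : ∑ y ∈ T, x.GGD cw bm kk κ' A Kf y ≤
      (K1 * (Ek * ‖th x.c₀‖ ^ 2 * x.V ^ (-(1 / 3) : ℝ) * x.Base n)) *
        ∑ y ∈ T, t y.1 * f y.1 y.2 := by
    rw [mul_sum]
    refine sum_le_sum fun y hy => ?_
    obtain ⟨k1, k2, k3, k4, k5⟩ := hT y hy
    exact GGD_le H k1 k2 k3 hA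
  unfold XF.PhiD
  calc x.κ * ∑ y ∈ T, x.GGD cw bm kk κ' A Kf y
      ≤ x.κ * ((K1 * (Ek * ‖th x.c₀‖ ^ 2 * x.V ^ (-(1 / 3) : ℝ) * x.Base n)) *
        (Mb * (C * x.Y ^ ε * (Bs.card * x.MomD cw (Ak A₀) n (A 0 n A₀) (A 1 n A₀) (A 2 n A₀))))) := by
        refine mul_le_mul_of_nonneg_left (e3.trans (mul_le_mul_of_nonneg_left ?_ (by positivity)))
          hκ.le
        exact e1.trans (mul_le_mul_of_nonneg_left e2 hMb)
    _ = _ := by ring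

/-- the hypotheses on the cells -/
structure XF.HCD (x : XF) (cw : ℝ) (OO : Finset (Eis × Eis)) (v' bm : Eis × Eis → Eis → ℂ)
    (kk : Eis × Eis → ℂ) (κ' : Eis × Eis → Eis → ℂ) (qc : Eis → Eis) (Mb Ek : ℝ)
    (A : Fin 3 → (Fin 12 → ℕ) → Eis × Eis → ℝ) (Kf : (Fin 12 → ℕ) → Eis → Eis → Eis → Eis × Eis) (Bs : Finset Eis) (Ad : Finset (Eis × Eis))
    (Cl : Tu → Prop) (Sx : ℝ) : Prop where
  arr : ∀ o ∈ OO, ∀ s ∈ Ss x.M x.κ, ∀ τ ∈ dvs (rd o.1), ∀ g ∈ S x.Y, ∀ h ∈ S x.Y,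
    ∀ i ∈ IP x.Y (S x.X) g h, Cl (x.tu qc o s τ g h 1) →
      Vz (v' o) (bm o) o.1 s τ g h i = x.ar (bm o) (kk o) (κ' o) (x.tu qc o s τ g h 1) i
  arr0 : ∀ o ∈ OO, ∀ s ∈ Ss x.M x.κ, ∀ τ ∈ dvs (rd o.1), ∀ g ∈ S x.Y, ∀ h ∈ S x.Y,
    ∀ i ∈ IP x.Y (S x.X) g h, ¬ Cl (x.tu qc o s τ g h 1) →
      Vz (v' o) (bm o) o.1 s τ g h i = fun _ => 0
  dec : ∀ o ∈ OO, ∀ s ∈ Ss x.M x.κ, ∀ τ ∈ dvs (rd o.1), ∀ g ∈ S x.Y, ∀ h ∈ S x.Y,
    Cl (x.tu qc o s τ g h 1) → ∃ us u w, OKs x.R s o.1 us u w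
  cell : ∀ o ∈ OO, ∀ s ∈ Ss x.M x.κ, ∀ τ ∈ dvs (rd o.1), ∀ g ∈ S x.Y, ∀ h ∈ S x.Y,
    ∀ a : Tu, a = x.tu qc o s τ g h 1 → Cl a → ∀ nδ nμ : ℕ,
    x.CB cw (bm o) (kk o) (κ' o) a nδ nμ
      (A 0 (x.vec a nδ nμ) (x.ky Kf a nδ nμ)) (A 1 (x.vec a nδ nμ) (x.ky Kf a nδ nμ))
      (A 2 (x.vec a nδ nμ) (x.ky Kf a nδ nμ))
  hA0 : ∀ j n A₀, 0 ≤ A j n A₀
  hBs : ∀ o ∈ OO, bpt o.1 o.2 ∈ Bs
  hAf : ∀ o ∈ OO, ∀ s ∈ Ss x.M x.κ, ∀ τ ∈ dvs (rd o.1), ∀ g ∈ S x.Y, ∀ h ∈ S x.Y,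
    ∀ a : Tu, a = x.tu qc o s τ g h 1 → Cl a → ∀ nδ nμ : ℕ, IsPrim (Ak (x.ky Kf a nδ nμ)) ∧
      x.ky Kf a nδ nμ ∈ Ad ∧ Ak (x.ky Kf a nδ nμ) ∣ PP (x.Sf a.q) x.g₁ a.ν (a.us * a.τ)
  hPhi : ∀ o ∈ OO, ∀ s ∈ Ss x.M x.κ, ∀ τ ∈ dvs (rd o.1), ∀ g ∈ S x.Y, ∀ h ∈ S x.Y,
    ∀ a : Tu, a = x.tu qc o s τ g h 1 → Cl a → ∀ i ∈ x.gd a, IsCoprime a.us a.τ →
      x.cz (bm o) (kk o) (κ' o) a i ≠ 0 →
      (nm (x.ky Kf a (lg i.1) (lg i.2)).2 : ℝ) *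
        x.PhiD cw Mb Ek A (x.vec a (lg i.1) (lg i.2)) (x.ky Kf a (lg i.1) (lg i.2)) ≤ Sx
  hAd : ∀ k ∈ Ad, k.2 ≠ 0
  Sx0 : 0 ≤ Sx

section tot

variable {x : XF} {cw : ℝ} {OO : Finset (Eis × Eis)} {v' bm : Eis × Eis → Eis → ℂ}
  {kk : Eis × Eis → ℂ} {κ' : Eis × Eis → Eis → ℂ} {qc : Eis → Eis} {Mb Ek Sx : ℝ}
  {A : Fin 3 → (Fin 12 → ℕ) → Eis × Eis → ℝ} {Kf : (Fin 12 → ℕ) → Eis → Eis → Eis → Eis × Eis} {Bs : Finset Eis} {Ad : Finset (Eis × Eis)}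
  {Cl : Tu → Prop}

lemma GGD_nonneg (H : x.HO cw OO v' bm kk κ' qc Mb Ek) (hA : ∀ j n A₀, 0 ≤ A j n A₀)
    (y : Tu × Eis) : 0 ≤ x.GGD cw bm kk κ' A Kf y := by
  have hV := H.ok.V0
  unfold XF.GGD XF.gb
  have h1 := (wg_pos y.1.g y.1.h).le
  have h2 : 0 ≤ x.nn y.1 y.1.δ ^ (-(1 / 3) : ℝ) := by
    refine Real.rpow_nonneg ?_ _
    unfold XF.nn
    positivity
  simp only
  have h4 := TW_nonneg' 1 (cw * x.nn y.1 y.1.δ) (x.cf y.1 y.1.δ)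
  have h5 := TW_nonneg' (1 / 2) (cw * x.nn y.1 y.1.δ) (x.cf y.1 y.1.δ)
  have a0 := hA 0 (x.vec y.1 (lg y.1.δ) (lg y.2)) (x.ky Kf y.1 (lg y.1.δ) (lg y.2))
  have a1 := hA 1 (x.vec y.1 (lg y.1.δ) (lg y.2)) (x.ky Kf y.1 (lg y.1.δ) (lg y.2))
  have a2 := hA 2 (x.vec y.1 (lg y.1.δ) (lg y.2)) (x.ky Kf y.1 (lg y.1.δ) (lg y.2))
  positivity

/-- the bound of an index is the bound of the pair -/
lemma GGD_ph (H : x.HO cw OO v' bm kk κ' qc Mb Ek) {o : Eis × Eis} (ho : o ∈ OO) {s τ g h : Eis}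
    {i : Eis × Eis} {a : Tu} (ha : a = x.tu qc o s τ g h 1) :
    x.GGD cw bm kk κ' A Kf (ph x qc (o, s, τ, g, h, i)) = wg g h / nm s *
      x.gb cw (bm o) (kk o) (κ' o) a (A 0 (x.vec a (lg i.1) (lg i.2)) (x.ky Kf a (lg i.1) (lg i.2)))
        (A 1 (x.vec a (lg i.1) (lg i.2)) (x.ky Kf a (lg i.1) (lg i.2)))
        (A 2 (x.vec a (lg i.1) (lg i.2)) (x.ky Kf a (lg i.1) (lg i.2))) i := by
  subst ha
  have e1 : x.Sf (qc o.1) = o.1 := (H.oq o ho).2.2.1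
  have e2 : (x.Sf (x.tu qc o s τ g h i.1).q, (x.tu qc o s τ g h i.1).ν) = o := by
    show (x.Sf (qc o.1), o.2) = o
    rw [e1]
  unfold XF.GGD ph
  simp only
  rw [e2]
  rfl

open Classical in
/-- **one outer index** -/
theorem pre_oD (H : x.HO cw OO v' bm kk κ' qc Mb Ek)
    (HC : x.HCD cw OO v' bm kk κ' qc Mb Ek A Kf Bs Ad Cl Sx) {o : Eis × Eis} (ho : o ∈ OO) :
    XMb x.M (v' o) (bm o) x.κ ≤ (∑ g ∈ S x.Y, ∑ h ∈ S x.Y, (wg g h)⁻¹) *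
      ((dvs (rd o.1)).card : ℝ) * ((Nc x.Y : ℝ) ^ 2 * (x.κ *
        ∑ s ∈ Ss x.M x.κ, ∑ τ ∈ primBall ⌊x.Y⌋₊, ∑ g ∈ S x.Y, ∑ h ∈ S x.Y,
          ∑ i ∈ S x.Y ×ˢ S x.Y, if Cn x bm kk κ' qc Cl (o, s, τ, g, h, i) then
            x.GGD cw bm kk κ' A Kf (ph x qc (o, s, τ, g, h, i)) else 0)) := by
  have hx := H.ok
  have hY1 := hx.Y1
  have hY : 0 ≤ x.Y := by linarith
  obtain ⟨o1, o2, o3, o4⟩ := H.o1 o ho
  have hκ := H.κ0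
  refine (XMb_le H.κ0 H.X0 H.XY (H.hv o ho) (H.hvf o ho) (H.hb o ho) o1
    (w := wg) wg_pos).trans ?_
  refine mul_le_mul_of_nonneg_left ?_ (mul_nonneg (sum_nonneg fun g _ => sum_nonneg fun h _ =>
    (inv_pos.mpr (wg_pos g h)).le) (Nat.cast_nonneg _))
  have hGG := GGD_nonneg (Kf := Kf) H HC.hA0
  have hif : ∀ p, 0 ≤ (if Cn x bm kk κ' qc Cl p then
      x.GGD cw bm kk κ' A Kf (ph x qc p) else 0) := fun p => by
    split_ifs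
    · exact hGG _
    · exact le_rfl
  rw [mul_sum, mul_sum]
  refine sum_le_sum fun s hs => ?_
  obtain ⟨hsp, -, -, -⟩ := mem_Ss hs
  have hs0 := nmpos' hsp.ne_zero
  -- the divisors of `rd S` are bounded
  have hsub : dvs (rd o.1) ⊆ primBall ⌊x.Y⌋₊ := by
    intro τ hτ
    refine mem_primBall.mpr ⟨Nat.le_floor ?_, isPrim_of_mem_dvs hτ⟩
    refine le_trans ?_ o3
    have h1 := Crest.Agent.R012.Div277.nm_le_of_dvd (E4352.rd_prim _).ne_zero (dvd_of_mem_dvs hτ)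
    have h2 := Crest.Agent.R012.Div277.nm_le_of_dvd o1.ne_zero (E4352.rd_dvd o.1)
    exact_mod_cast h1.trans h2
  have hmain : ∀ τ ∈ dvs (rd o.1), ∀ g ∈ S x.Y, ∀ h ∈ S x.Y,
      (nm s : ℝ) * (wg g h * ∑ a ∈ As x.M x.κ s, ‖AQ (IP x.Y (S x.X) g h) (fun i => i.1 * i.2)
        (Vz (v' o) (bm o) o.1 s τ g h) a‖ ^ 2) ≤ (Nc x.Y : ℝ) ^ 2 * (x.κ *
        ∑ i ∈ S x.Y ×ˢ S x.Y, if Cn x bm kk κ' qc Cl (o, s, τ, g, h, i) then
          x.GGD cw bm kk κ' A Kf (ph x qc (o, s, τ, g, h, i)) else 0) := by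
    intro τ hτ g hg h hh
    have hw := (wg_pos g h).le
    have hr0 : 0 ≤ (Nc x.Y : ℝ) ^ 2 * (x.κ *
        ∑ i ∈ S x.Y ×ˢ S x.Y, if Cn x bm kk κ' qc Cl (o, s, τ, g, h, i) then
          x.GGD cw bm kk κ' A Kf (ph x qc (o, s, τ, g, h, i)) else 0) :=
      mul_nonneg (by positivity) (mul_nonneg hκ.le (sum_nonneg fun i _ => hif _))
    by_cases hCl : Cl (x.tu qc o s τ g h 1)
    swap
    · have h0 : ∀ a : Eis, AQ (IP x.Y (S x.X) g h) (fun i => i.1 * i.2)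
          (Vz (v' o) (bm o) o.1 s τ g h) a = 0 := by
        intro a
        unfold E3q681.AQ
        refine sum_eq_zero fun i hi => ?_
        rw [HC.arr0 o ho s hs τ hτ g hg h hh i hi hCl, CS_zero', mul_zero]
      simp_rw [h0]
      simp only [norm_zero, ne_eq, OfNat.ofNat_ne_zero, not_false_eq_true, zero_pow,
        sum_const_zero, mul_zero]
      exact hr0
    -- the main case
    obtain ⟨a, ha⟩ : ∃ a : Tu, a = x.tu qc o s τ g h 1 := ⟨_, rfl⟩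
    obtain ⟨us, u, w, hd0⟩ := HC.dec o ho s hs τ hτ g hg h hh hCl
    have hd := dsf_spec hd0
    have hgp := ((mem_S hY).1 hg).2.1
    have hhp := ((mem_S hY).1 hh).2.1
    have e1 : x.Sf a.q = o.1 := by rw [ha]; exact (H.oq o ho).2.2.1
    have hd' : OKs x.R a.s (x.Sf a.q) a.us a.u a.w := by rw [e1, ha]; exact hd
    have h1 : ∀ b : Eis, AQ (IP x.Y (S x.X) g h) (fun i => i.1 * i.2)
        (Vz (v' o) (bm o) o.1 s τ g h) b =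
        AQ (IP x.Y (S x.X) a.g a.h) (fun i => i.1 * i.2) (x.ar (bm o) (kk o) (κ' o) a) b := by
      intro b
      have eg : a.g = g := by rw [ha]; rfl
      have eh : a.h = h := by rw [ha]; rfl
      rw [eg, eh]
      unfold E3q681.AQ
      refine sum_congr rfl fun i hi => ?_
      rw [HC.arr o ho s hs τ hτ g hg h hh i hi hCl, ha]
    have h2 := AQ_pre (x := x) (cw := cw) (bm := bm o) (κ' := κ' o) (k := kk o) (a := a) hx H.Om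
      hd' (by rw [ha]; exact hgp) (by rw [ha]; exact hhp) hY hκ.le (N := Nc x.Y) (fun i hi => by
        unfold XF.gd at hi
        obtain ⟨j1, j2, j3, j4, j5, j6, j7, j8, j9⟩ := IP_mem hY (mem_filter.mp hi).1
        have hY2 : x.Y ≤ 2 * x.Y ^ 2 := by nlinarith
        exact ⟨lg_lt ((((mem_S hY).1 j8).1).trans hY2), lg_lt ((((mem_S hY).1 j9).1).trans hY2)⟩)
      (A1 := fun nδ nμ => A 0 (x.vec a nδ nμ) (x.ky Kf a nδ nμ))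
      (A2 := fun nδ nμ => A 1 (x.vec a nδ nμ) (x.ky Kf a nδ nμ))
      (A3 := fun nδ nμ => A 2 (x.vec a nδ nμ) (x.ky Kf a nδ nμ))
      (fun nδ nμ => HC.cell o ho s hs τ hτ g hg h hh a ha (by rw [ha]; exact hCl) nδ nμ)
    simp_rw [h1]
    have es : a.s = s := by rw [ha]; rfl
    rw [es] at h2
    calc (nm s : ℝ) * (wg g h * ∑ b ∈ As x.M x.κ s,
          ‖AQ (IP x.Y (S x.X) a.g a.h) (fun i => i.1 * i.2) (x.ar (bm o) (kk o) (κ' o) a) b‖ ^ 2)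
        ≤ (nm s : ℝ) * (wg g h * ((Nc x.Y : ℝ) ^ 2 * (x.κ / nm s ^ 2 * ∑ i ∈ x.gd a,
          x.gb cw (bm o) (kk o) (κ' o) a
          (A 0 (x.vec a (lg i.1) (lg i.2)) (x.ky Kf a (lg i.1) (lg i.2)))
          (A 1 (x.vec a (lg i.1) (lg i.2)) (x.ky Kf a (lg i.1) (lg i.2)))
          (A 2 (x.vec a (lg i.1) (lg i.2)) (x.ky Kf a (lg i.1) (lg i.2))) i))) := by gcongr
      _ = (Nc x.Y : ℝ) ^ 2 * (x.κ * ∑ i ∈ x.gd a, wg g h / nm s *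
          x.gb cw (bm o) (kk o) (κ' o) a
          (A 0 (x.vec a (lg i.1) (lg i.2)) (x.ky Kf a (lg i.1) (lg i.2)))
          (A 1 (x.vec a (lg i.1) (lg i.2)) (x.ky Kf a (lg i.1) (lg i.2)))
          (A 2 (x.vec a (lg i.1) (lg i.2)) (x.ky Kf a (lg i.1) (lg i.2))) i) := by
          rw [← mul_sum]
          field_simp
      _ ≤ _ := by
          refine mul_le_mul_of_nonneg_left (mul_le_mul_of_nonneg_left ?_ hκ.le) (by positivity)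
          have h3 : ∀ i ∈ x.gd a, wg g h / nm s * x.gb cw (bm o) (kk o) (κ' o) a
              (A 0 (x.vec a (lg i.1) (lg i.2)) (x.ky Kf a (lg i.1) (lg i.2)))
              (A 1 (x.vec a (lg i.1) (lg i.2)) (x.ky Kf a (lg i.1) (lg i.2)))
              (A 2 (x.vec a (lg i.1) (lg i.2)) (x.ky Kf a (lg i.1) (lg i.2))) i =
              if Cn x bm kk κ' qc Cl (o, s, τ, g, h, i) then
                x.GGD cw bm kk κ' A Kf (ph x qc (o, s, τ, g, h, i)) else 0 := by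
            intro i hi
            rw [← GGD_ph H ho ha]
            by_cases hcz : x.cz (bm o) (kk o) (κ' o) a i = 0
            · rw [if_neg]
              · rw [GGD_ph H ho ha]
                unfold XF.gb
                rw [hcz]
                simp
              · rintro ⟨-, -, -, h4⟩
                exact h4 (by rw [← ha]; exact hcz)
            · rw [if_pos]
              refine ⟨hτ, hCl, ?_, ?_⟩
              · rw [← ha]; exact hi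
              · rw [← ha]; exact hcz
          rw [sum_congr rfl h3]
          refine sum_le_sum_of_subset_of_nonneg (fun i hi => ?_) fun i _ _ => hif _
          unfold XF.gd at hi
          obtain ⟨j1, j2, j3, j4, j5, j6, j7, j8, j9⟩ := IP_mem hY (mem_filter.mp hi).1
          exact mem_product.mpr ⟨j8, j9⟩
  calc (nm s : ℝ) * ∑ τ ∈ dvs (rd o.1), ∑ g ∈ S x.Y, ∑ h ∈ S x.Y, wg g h *
        ∑ a ∈ As x.M x.κ s, ‖AQ (IP x.Y (S x.X) g h) (fun i => i.1 * i.2)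
          (Vz (v' o) (bm o) o.1 s τ g h) a‖ ^ 2
      = ∑ τ ∈ dvs (rd o.1), ∑ g ∈ S x.Y, ∑ h ∈ S x.Y, (nm s : ℝ) * (wg g h *
        ∑ a ∈ As x.M x.κ s, ‖AQ (IP x.Y (S x.X) g h) (fun i => i.1 * i.2)
          (Vz (v' o) (bm o) o.1 s τ g h) a‖ ^ 2) := by
        simp_rw [mul_sum]
    _ ≤ ∑ τ ∈ dvs (rd o.1), ∑ g ∈ S x.Y, ∑ h ∈ S x.Y, (Nc x.Y : ℝ) ^ 2 * (x.κ *
        ∑ i ∈ S x.Y ×ˢ S x.Y, if Cn x bm kk κ' qc Cl (o, s, τ, g, h, i) then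
          x.GGD cw bm kk κ' A Kf (ph x qc (o, s, τ, g, h, i)) else 0) :=
        sum_le_sum fun τ hτ => sum_le_sum fun g hg => sum_le_sum fun h hh => hmain τ hτ g hg h hh
    _ ≤ ∑ τ ∈ primBall ⌊x.Y⌋₊, ∑ g ∈ S x.Y, ∑ h ∈ S x.Y, (Nc x.Y : ℝ) ^ 2 * (x.κ *
        ∑ i ∈ S x.Y ×ˢ S x.Y, if Cn x bm kk κ' qc Cl (o, s, τ, g, h, i) then
          x.GGD cw bm kk κ' A Kf (ph x qc (o, s, τ, g, h, i)) else 0) :=
        sum_le_sum_of_subset_of_nonneg hsub fun τ _ _ => sum_nonneg fun g _ => sum_nonneg fun h _ =>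
          mul_nonneg (by positivity) (mul_nonneg hκ.le (sum_nonneg fun i _ => hif _))
    _ = _ := by simp_rw [mul_sum]

open Classical in
/-- the facts on a pair of the sum -/
lemma fact_yD (H : x.HO cw OO v' bm kk κ' qc Mb Ek)
    (HC : x.HCD cw OO v' bm kk κ' qc Mb Ek A Kf Bs Ad Cl Sx) {y : Tu × Eis}
    (hy : y ∈ ((P6 x OO).filter (Cn x bm kk κ' qc Cl)).image (ph x qc)) :
    x.OKy OO y ∧ (nm y.1.s : ℝ) ≤ Real.sqrt (2 * x.κ) ∧ (nm y.1.δ : ℝ) ≤ x.Y ∧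
      bpt (x.Sf y.1.q) y.1.ν ∈ Bs ∧ IsPrim (Ak (x.ky Kf y.1 (lg y.1.δ) (lg y.2))) ∧
      x.ky Kf y.1 (lg y.1.δ) (lg y.2) ∈ Ad ∧
      Ak (x.ky Kf y.1 (lg y.1.δ) (lg y.2)) ∣ PP (x.Sf y.1.q) x.g₁ y.1.ν (y.1.us * y.1.τ) ∧
      (nm (x.ky Kf y.1 (lg y.1.δ) (lg y.2)).2 : ℝ) *
      x.PhiD cw Mb Ek A (x.vec y.1 (lg y.1.δ) (lg y.2)) (x.ky Kf y.1 (lg y.1.δ) (lg y.2)) ≤ Sx := by
  have hY : 0 ≤ x.Y := by linarith [H.ok.Y1]
  obtain ⟨⟨o, s, τ, g, h, i⟩, hp, rfl⟩ := mem_image.mp hy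
  obtain ⟨hp1, hp2⟩ := mem_filter.mp hp
  obtain ⟨c1, c2, c3, c4⟩ := hp2
  unfold P6 at hp1
  simp only [mem_product] at hp1
  obtain ⟨ho, hs, -, hg, hh, hi1, hi2⟩ := hp1
  simp only at c1 c2 c3 c4
  obtain ⟨us, u, w, hd0⟩ := HC.dec o ho s hs τ c1 g hg h hh c2
  have hd := dsf_spec hd0
  have e1 : x.Sf (qc o.1) = o.1 := (H.oq o ho).2.2.1
  have hd' : OKs x.R (x.tu qc o s τ g h 1).s (x.Sf (x.tu qc o s τ g h 1).q)
      (x.tu qc o s τ g h 1).us (x.tu qc o s τ g h 1).u (x.tu qc o s τ g h 1).w := by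
    show OKs x.R s (x.Sf (qc o.1)) _ _ _
    rw [e1]; exact hd
  have hc := cz_ne H.R hd' c4
  have hok := oky_of H ho hs c1 hg hh hd c3 hc
  obtain ⟨a1, a2, a3⟩ := HC.hAf o ho s hs τ c1 g hg h hh _ rfl c2 (lg i.1) (lg i.2)
  have hPhi := HC.hPhi o ho s hs τ c1 g hg h hh _ rfl c2 i c3 hc c4
  refine ⟨hok, (mem_Ss hs).2.2.2, ((mem_S hY).1 hi1).1, ?_, a1, a2, a3, hPhi⟩
  show bpt (x.Sf (qc o.1)) o.2 ∈ Bs
  rw [e1]
  exact HC.hBs o ho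

end tot

open Classical in
/-- **the total of the cells of the structured `x`-side** -/
theorem xtotalD {ε : ℝ} (hε : 0 < ε) {cw : ℝ} (hcw : 1 ≤ cw) : ∃ C : ℝ, 0 ≤ C ∧
    ∀ (x : XF) (OO : Finset (Eis × Eis)) (v' bm : Eis × Eis → Eis → ℂ) (kk : Eis × Eis → ℂ)
      (κ' : Eis × Eis → Eis → ℂ) (qc : Eis → Eis) (Mb Ek : ℝ)
      (A : Fin 3 → (Fin 12 → ℕ) → Eis × Eis → ℝ) (Kf : (Fin 12 → ℕ) → Eis → Eis → Eis → Eis × Eis) (Bs : Finset Eis) (Ad : Finset (Eis × Eis))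
      (Cl : Tu → Prop) (Sx : ℝ),
      x.HO cw OO v' bm kk κ' qc Mb Ek → x.HCD cw OO v' bm kk κ' qc Mb Ek A Kf Bs Ad Cl Sx →
      ∑ o ∈ OO, XMb x.M (v' o) (bm o) x.κ ≤
        C * x.Y ^ ε * (Bs.card * (∑ k ∈ Ad, (nm k.2 : ℝ)⁻¹) * Sx) := by
  set η := ε / 18 with hη
  have hη0 : 0 < η := by rw [hη]; positivity
  obtain ⟨C1, hC1, h1⟩ := sum_wg hη0
  obtain ⟨C2, hC2, h2⟩ := tau_le_rpow hη0
  obtain ⟨C3, hC3, h3⟩ := Nc_le hη0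
  obtain ⟨C4, hC4, h4⟩ := cls_sumD hη0 hcw
  have hC20 : 0 ≤ C2 := by linarith
  refine ⟨C1 ^ 2 * C2 * C3 ^ 14 * C4, by positivity, ?_⟩
  intro x OO v' bm kk κ' qc Mb Ek A Kf Bs Ad Cl Sx H HC
  have hx := H.ok
  have hY1 := hx.Y1
  have hY0 : 0 < x.Y := by linarith
  have hYη : 0 ≤ x.Y ^ η := by positivity
  have hκ := H.κ0
  have hSx := HC.Sx0
  set T := ((P6 x OO).filter (Cn x bm kk κ' qc Cl)).image (ph x qc) with hT
  set N := Nc x.Y with hN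
  have hGG := GGD_nonneg (Kf := Kf) H HC.hA0
  -- the sum over the classes
  set PF : Finset ((Fin 12 → ℕ) × (Eis × Eis)) :=
    (Fintype.piFinset (fun _ : Fin 12 => range N)) ×ˢ Ad with hPF
  set Wr : ℝ := ∑ k ∈ Ad, (nm k.2 : ℝ)⁻¹ with hWr
  have hWr0 : 0 ≤ Wr := sum_nonneg fun k _ => by positivity
  set key : Tu × Eis → (Fin 12 → ℕ) × (Eis × Eis) := fun y =>
    (x.vec y.1 (lg y.1.δ) (lg y.2), x.ky Kf y.1 (lg y.1.δ) (lg y.2)) with hkey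
  have hmap : ∀ y ∈ T, key y ∈ PF := by
    intro y hy
    obtain ⟨f1, f2, f3, f4, f5, f6, f7, f8⟩ := fact_yD H HC hy
    rw [hPF, mem_product]
    refine ⟨?_, f6⟩
    rw [Fintype.mem_piFinset]
    intro j
    exact mem_range.mpr (vec_lt H f1 f2 f3 j)
  have hcls : x.κ * ∑ y ∈ T, x.GGD cw bm kk κ' A Kf y ≤
      (N : ℝ) ^ 12 * (C4 * x.Y ^ η * (Bs.card * Wr * Sx)) := by
    rw [← sum_fiberwise_of_maps_to hmap, mul_sum]
    have hb : ∀ c ∈ PF, x.κ * ∑ y ∈ T with key y = c, x.GGD cw bm kk κ' A Kf y ≤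
        C4 * x.Y ^ η * (Bs.card * ((nm c.2.2 : ℝ)⁻¹ * Sx)) := by
      intro c hc
      rcases (T.filter (fun y => key y = c)).eq_empty_or_nonempty with h0 | ⟨y₀, hy₀⟩
      · rw [h0, sum_empty, mul_zero]
        positivity
      obtain ⟨hy₀T, hy₀c⟩ := mem_filter.mp hy₀
      obtain ⟨f1, f2, f3, f4, f5, f6, f7, f8⟩ := fact_yD H HC hy₀T
      obtain ⟨n, A₀⟩ := c
      rw [hkey] at hy₀c
      simp only [Prod.mk.injEq] at hy₀c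
      have h5 := h4 x OO v' bm kk κ' qc Mb Ek A Kf Bs (T.filter (fun y => key y = (n, A₀))) n A₀ H
        (by rw [← hy₀c.2]; exact f5) (fun j => HC.hA0 j n A₀) (fun y hy => by
          obtain ⟨hyT, hyc⟩ := mem_filter.mp hy
          obtain ⟨k1, k2, k3, k4, k5, k6, k7, k8⟩ := fact_yD H HC hyT
          rw [hkey] at hyc
          simp only [Prod.mk.injEq] at hyc
          refine ⟨k1, hyc.1, hyc.2, k4, ?_⟩
          rw [← hyc.2]; exact k7)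
      refine h5.trans ?_
      rw [hy₀c.1, hy₀c.2] at f8
      rw [hy₀c.2] at f6
      have hr : (0 : ℝ) < nm A₀.2 := nmpos' (HC.hAd _ f6)
      have f9 : x.PhiD cw Mb Ek A n A₀ ≤ (nm A₀.2 : ℝ)⁻¹ * Sx := by
        rw [inv_mul_eq_div, le_div_iff₀ hr, mul_comm]
        exact f8
      gcongr
    refine (sum_le_sum hb).trans (le_of_eq ?_)
    rw [hPF, sum_product]
    dsimp only
    rw [sum_const, Fintype.card_piFinset]
    simp only [card_range, prod_const, card_univ, Fintype.card_fin, nsmul_eq_mul]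
    rw [← mul_sum, ← mul_sum, ← sum_mul, ← hWr]
    push_cast
    ring
  -- the outer indices
  have hout : ∑ o ∈ OO, XMb x.M (v' o) (bm o) x.κ ≤ (C1 * x.Y ^ η) ^ 2 * (C2 * x.Y ^ η) *
      ((N : ℝ) ^ 2 * (x.κ * ∑ y ∈ T, x.GGD cw bm kk κ' A Kf y)) := by
    rw [hT, ← sum_P6 H, mul_sum, mul_sum, mul_sum]
    refine sum_le_sum fun o ho => ?_
    refine (pre_oD H HC ho).trans ?_
    obtain ⟨o1, o2, o3, o4⟩ := H.o1 o ho
    have g1 := h1 x.Y hY1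
    have g0 : 0 ≤ ∑ g ∈ S x.Y, ∑ h ∈ S x.Y, (wg g h)⁻¹ := sum_nonneg fun g _ =>
      sum_nonneg fun h _ => (inv_pos.mpr (wg_pos g h)).le
    have g2 : ((dvs (rd o.1)).card : ℝ) ≤ C2 * x.Y ^ η := by
      refine (h2 _ (E4352.rd_prim _).ne_zero).trans (mul_le_mul_of_nonneg_left ?_ hC20)
      refine Real.rpow_le_rpow (Nat.cast_nonneg _) (le_trans ?_ o3) hη0.le
      exact_mod_cast Crest.Agent.R012.Div277.nm_le_of_dvd o1.ne_zero (E4352.rd_dvd _)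
    refine mul_le_mul_of_nonneg_right (mul_le_mul g1 g2 (Nat.cast_nonneg _) (by positivity)) ?_
    refine mul_nonneg (by positivity) (mul_nonneg hκ.le (sum_nonneg fun s _ => sum_nonneg fun τ _ =>
      sum_nonneg fun g _ => sum_nonneg fun h _ => sum_nonneg fun i _ => ?_))
    split_ifs
    · exact hGG _
    · exact le_rfl
  have hNb := h3 x.Y hY1
  rw [← hN] at hNb
  calc ∑ o ∈ OO, XMb x.M (v' o) (bm o) x.κ
      ≤ (C1 * x.Y ^ η) ^ 2 * (C2 * x.Y ^ η) * ((N : ℝ) ^ 2 *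
        ((N : ℝ) ^ 12 * (C4 * x.Y ^ η * (Bs.card * Wr * Sx)))) := by
        refine hout.trans ?_
        gcongr
    _ = (C1 * x.Y ^ η) ^ 2 * (C2 * x.Y ^ η) * ((N : ℝ) ^ 14 *
        (C4 * x.Y ^ η * (Bs.card * Wr * Sx))) := by ring
    _ ≤ (C1 * x.Y ^ η) ^ 2 * (C2 * x.Y ^ η) * ((C3 * x.Y ^ η) ^ 14 *
        (C4 * x.Y ^ η * (Bs.card * Wr * Sx))) := by gcongr
    _ = C1 ^ 2 * C2 * C3 ^ 14 * C4 * (x.Y ^ η) ^ 18 * (Bs.card * Wr * Sx) := by ring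
    _ = _ := by
        have : (x.Y ^ η) ^ 18 = x.Y ^ ε := by
          rw [← Real.rpow_natCast, ← Real.rpow_mul hY0.le]
          congr 1
          rw [hη]; push_cast; ring
        rw [this]

end Crest.Agent.R017.E4X92
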