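import Crest.Agent.R017.E4Xd_92

/-!
# Row 17, block C70, leaf E4 (x-side): the total of the cells, moduli with a condition (helper92)

* `XMbP` : the moment over the moduli with `Pk`
* `XF.HCE` : the hypotheses on the cells, only for the `s` with `Ps s` (`Pk (a s²) → Ps s`)
* `xtotalE` : `∑_o XMbP ≤ C Y^ε #Bs (∑_{(d, r)} N(r)⁻¹) Sx`
-/

set_option autoImplicit false
set_option linter.unusedVariables false
set_option maxHeartbeats 400000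

noncomputable section

open Complex
open scoped ComplexConjugate

namespace Crest.Agent.R017.E4X92

open Crest.Agent.R012 Crest.Agent.R012.Eis Crest.Agent.R012.MC
open Crest.Agent.R012.LS2 (S mem_S)
open Crest.Agent.R012.Div277 (dvs mem_dvs isPrim_of_mem_dvs dvd_of_mem_dvs tau tau_le_rpow)
open Crest.Agent.R017.CM106 (CS FS)
open Crest.Agent.R017.C70 (CbF)
open Crest.Agent.R017.PX764 (n6 th)
open Crest.Agent.R017.E3D579 (b0 bt bF)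
open Crest.Agent.R017.E4352 (rd dvd_rd Sd)
open Crest.Agent.R017.E4579 (SupB bpt bco bpt_prim)
open Crest.Agent.R017.E4v92 (FF WW Vt Vr_ne sum_Vr_sq)
open Crest.Agent.R017.E4z92 (OKs cZ QQ RQ norm_cZ_le As Ss XMΦ XMΦ_le mem_Ss mem_As Vz
  FP_eq_AQ)
open Crest.Agent.R017.E4zz92
open Crest.Agent.R017.E4F266 (IP IP_mem Fa fam_b_sq CS_sq)
open Crest.Agent.R017.E3q681 (TW AQ SA)
open Crest.Agent.R017.E4y92 (Dk Vr)
open Finset

open Classical in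
/-- the moment over the moduli with `Pk` -/
def XMbP (M : Eis) (v' bm : Eis → ℂ) (Pk : Eis → Prop) (κ : ℝ) : ℝ :=
  ∑ k ∈ (Dk M κ).filter Pk, (nm k : ℝ)⁻¹ * (‖Sd v' k‖ ^ 2 * ‖CS bm k‖ ^ 2)

open Classical in
lemma XMbP_eq (M : Eis) (v' bm : Eis → ℂ) (Pk : Eis → Prop) (κ : ℝ) :
    XMbP M v' bm Pk κ = XMΦ M v' (fun d => if Pk d then ‖CS bm d‖ ^ 2 else 0) κ := by
  unfold XMbP E4z92.XMΦ
  rw [sum_filter]
  refine sum_congr rfl fun k _ => ?_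
  by_cases h : Pk k
  · rw [if_pos h]
    simp only [if_pos h]
  · rw [if_neg h]
    simp only [if_neg h, mul_zero]

/-! ### the reduction -/

open Classical in
/-- **the moment over the moduli with `Pk`, reduced to the arrays** -/
theorem XMbP_le {M : Eis} {v' bm : Eis → ℂ} {κ X Y : ℝ} (hκ : 0 < κ) (hX : 0 ≤ X) (hXY : X ≤ Y)
    (hv : ∀ x, v' x ≠ 0 → IsPrim x ∧ CbF x ∧ (nm x : ℝ) ≤ X)
    (hvf : (Function.support v').Finite)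
    (hb : ∀ m, bm m ≠ 0 → m ∈ S Y) {S₀ : Eis} (hS : IsPrim S₀) {w : Eis → Eis → ℝ}
    (hw : ∀ g h, 0 < w g h) {Pk Ps : Eis → Prop} (hP : ∀ a s, Pk (a * s ^ 2) → Ps s) :
    XMbP M v' bm Pk κ ≤ (∑ g ∈ S Y, ∑ h ∈ S Y, (w g h)⁻¹) * ((dvs (rd S₀)).card : ℝ) *
      ∑ s ∈ (Ss M κ).filter Ps, (nm s : ℝ) * ∑ τ ∈ dvs (rd S₀), ∑ g ∈ S Y, ∑ h ∈ S Y, w g h *
        ∑ a ∈ As M κ s, ‖AQ (IP Y (S X) g h) (fun i => i.1 * i.2) (Vz v' bm S₀ s τ g h) a‖ ^ 2 := by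
  classical
  have hY : 0 ≤ Y := hX.trans hXY
  rw [XMbP_eq]
  have hΦ0 : ∀ d, 0 ≤ (if Pk d then ‖CS bm d‖ ^ 2 else 0 : ℝ) := fun d => by
    split_ifs
    · positivity
    · exact le_rfl
  refine (XMΦ_le hΦ0 hκ hX hv).trans ?_
  have hfil : ∑ s ∈ Ss M κ, (nm s : ℝ) * ∑ a ∈ As M κ s,
          ‖∑ δ ∈ S X, sy (δ ^ 2) a * CS (Vr v' s δ) a‖ ^ 2 *
            (if Pk (a * s ^ 2) then ‖CS bm (a * s ^ 2)‖ ^ 2 else 0) ≤
      ∑ s ∈ (Ss M κ).filter Ps, (nm s : ℝ) * ∑ a ∈ As M κ s,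
          ‖∑ δ ∈ S X, sy (δ ^ 2) a * CS (Vr v' s δ) a‖ ^ 2 * ‖CS bm (a * s ^ 2)‖ ^ 2 := by
    rw [sum_filter]
    refine sum_le_sum fun s _ => ?_
    split_ifs with hs
    · refine mul_le_mul_of_nonneg_left (sum_le_sum fun a _ => ?_) (Nat.cast_nonneg _)
      refine mul_le_mul_of_nonneg_left ?_ (by positivity)
      split_ifs
      · exact le_rfl
      · positivity
    · refine le_of_eq ?_
      rw [sum_eq_zero fun a _ => ?_, mul_zero]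
      rw [if_neg (fun h => hs (hP a s h)), mul_zero]
  refine hfil.trans ?_
  rw [mul_sum]
  refine sum_le_sum fun s hs => ?_
  replace hs := (mem_filter.mp hs).1
  obtain ⟨hsp, hsq, -, -⟩ := mem_Ss hs
  set Cw := ∑ g ∈ S Y, ∑ h ∈ S Y, (w g h)⁻¹ with hCw
  have hCw0 : 0 ≤ Cw := sum_nonneg fun g _ => sum_nonneg fun h _ => (inv_pos.mpr (hw g h)).le
  have hXY' : ∀ δ ∈ S X, δ ∈ S Y := fun δ hδ => by
    obtain ⟨h1, h2, h3⟩ := (mem_S hX).mp hδ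
    exact (mem_S hY).mpr ⟨h1.trans hXY, h2, h3⟩
  have hpt : ∀ a ∈ As M κ s,
      ‖∑ δ ∈ S X, sy (δ ^ 2) a * CS (Vr v' s δ) a‖ ^ 2 * ‖CS bm (a * s ^ 2)‖ ^ 2 ≤
      ((dvs (rd S₀)).card : ℝ) * ∑ τ ∈ dvs (rd S₀), Cw * ∑ g ∈ S Y, ∑ h ∈ S Y, w g h *
        ‖AQ (IP Y (S X) g h) (fun i => i.1 * i.2) (Vz v' bm S₀ s τ g h) a‖ ^ 2 := by
    intro a ha
    obtain ⟨hap, haq, has, -, -⟩ := mem_As hκ.le ha
    have h1 := sum_Vr_sq hX hS hsp hvf hap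
    have hbp : ∀ m, bm m ≠ 0 → IsPrim m := fun m hm => ((mem_S hY).mp (hb m hm)).2.1
    rw [CS_sq hbp a s]
    have hB0 : 0 ≤ ‖CS (fun m => bm m * sy (s ^ 2) m) a‖ ^ 2 := by positivity
    refine (mul_le_mul_of_nonneg_right h1 hB0).trans ?_
    rw [mul_assoc, sum_mul]
    refine mul_le_mul_of_nonneg_left (sum_le_sum fun τ hτ => ?_) (Nat.cast_nonneg _)
    have hτp := isPrim_of_mem_dvs hτ
    have e1 : ∑ δ ∈ S X, conj (sy a δ) * CS (Vt (Vr v' s δ) S₀ τ) a =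
        Fa (S X) (fun _ => 1) (fun δ => Vt (Vr v' s δ) S₀ τ) a := by
      unfold Fa
      exact sum_congr rfl fun δ _ => (one_mul _).symm
    rw [e1]
    have h2 := fam_b_sq hY hXY' (b := fun m => bm m * sy (s ^ 2) m)
      (fun m hm => hb m (left_ne_zero_of_mul hm))
      (V := fun δ => Vt (Vr v' s δ) S₀ τ) (fun δ hδ n hn => ?_) (fun _ => 1) hw hap
    · refine h2.trans (mul_le_mul_of_nonneg_left ?_ hCw0)
      refine sum_le_sum fun g _ => sum_le_sum fun h _ => mul_le_mul_of_nonneg_left ?_ (hw g h).le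
      split_ifs
      · rw [FP_eq_AQ]
      · positivity
    · have hδp := ((mem_S hX).mp hδ).2.1
      unfold Vt at hn
      split_ifs at hn with hc
      · obtain ⟨k1, k2, k3, k4, k5⟩ := Vr_ne hn
        have hnp : IsPrim n := k1.of_mul_left hτp
        refine (mem_S hY).mpr ⟨?_, hnp, k2.of_mul_right⟩
        have k6 := (hv _ k5).2.2
        refine le_trans ?_ (k6.trans hXY)
        have : nm n ≤ nm (s * (τ * n * δ ^ 2)) := Crest.Agent.R012.Div277.nm_le_of_dvd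
          (mul_ne_zero hsp.ne_zero (mul_ne_zero k1.ne_zero (pow_ne_zero 2 hδp.ne_zero)))
          ⟨s * τ * δ ^ 2, by ring⟩
        exact_mod_cast this
      · exact absurd rfl hn
  calc (nm s : ℝ) * ∑ a ∈ As M κ s,
        ‖∑ δ ∈ S X, sy (δ ^ 2) a * CS (Vr v' s δ) a‖ ^ 2 * ‖CS bm (a * s ^ 2)‖ ^ 2
      ≤ (nm s : ℝ) * ∑ a ∈ As M κ s, ((dvs (rd S₀)).card : ℝ) * ∑ τ ∈ dvs (rd S₀),
          Cw * ∑ g ∈ S Y, ∑ h ∈ S Y, w g h *
          ‖AQ (IP Y (S X) g h) (fun i => i.1 * i.2) (Vz v' bm S₀ s τ g h) a‖ ^ 2 :=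
        mul_le_mul_of_nonneg_left (sum_le_sum hpt) (Nat.cast_nonneg _)
    _ = _ := by
        have e2 : ∑ a ∈ As M κ s, ∑ τ ∈ dvs (rd S₀), ∑ g ∈ S Y, ∑ h ∈ S Y, w g h *
            ‖AQ (IP Y (S X) g h) (fun i => i.1 * i.2) (Vz v' bm S₀ s τ g h) a‖ ^ 2 =
            ∑ τ ∈ dvs (rd S₀), ∑ g ∈ S Y, ∑ h ∈ S Y, w g h * ∑ a ∈ As M κ s,
            ‖AQ (IP Y (S X) g h) (fun i => i.1 * i.2) (Vz v' bm S₀ s τ g h) a‖ ^ 2 := by
          rw [sum_comm]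
          refine sum_congr rfl fun τ _ => ?_
          rw [sum_comm]
          refine sum_congr rfl fun g _ => ?_
          rw [sum_comm]
          refine sum_congr rfl fun h _ => ?_
          rw [mul_sum]
        rw [← e2, ← mul_sum]
        simp_rw [← mul_sum]
        ring

/-- the hypotheses on the cells -/
structure XF.HCE (x : XF) (cw : ℝ) (OO : Finset (Eis × Eis)) (v' bm : Eis × Eis → Eis → ℂ)
    (kk : Eis × Eis → ℂ) (κ' : Eis × Eis → Eis → ℂ) (qc : Eis → Eis) (Mb Ek : ℝ)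
    (A : Fin 3 → (Fin 12 → ℕ) → Eis × Eis → ℝ) (Kf : (Fin 12 → ℕ) → Eis → Eis → Eis → Eis × Eis) (Bs : Finset Eis) (Ad : Finset (Eis × Eis))
    (Cl : Tu → Prop) (Ps : Eis → Prop) (Sx : ℝ) : Prop where
  clP : ∀ a, Cl a → Ps a.s
  arr : ∀ o ∈ OO, ∀ s ∈ Ss x.M x.κ, Ps s → ∀ τ ∈ dvs (rd o.1), ∀ g ∈ S x.Y, ∀ h ∈ S x.Y,
    ∀ i ∈ IP x.Y (S x.X) g h, Cl (x.tu qc o s τ g h 1) →
      Vz (v' o) (bm o) o.1 s τ g h i = x.ar (bm o) (kk o) (κ' o) (x.tu qc o s τ g h 1) i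
  arr0 : ∀ o ∈ OO, ∀ s ∈ Ss x.M x.κ, Ps s → ∀ τ ∈ dvs (rd o.1), ∀ g ∈ S x.Y, ∀ h ∈ S x.Y,
    ∀ i ∈ IP x.Y (S x.X) g h, ¬ Cl (x.tu qc o s τ g h 1) →
      Vz (v' o) (bm o) o.1 s τ g h i = fun _ => 0
  dec : ∀ o ∈ OO, ∀ s ∈ Ss x.M x.κ, Ps s → ∀ τ ∈ dvs (rd o.1), ∀ g ∈ S x.Y, ∀ h ∈ S x.Y,
    Cl (x.tu qc o s τ g h 1) → ∃ us u w, OKs x.R s o.1 us u w
  cell : ∀ o ∈ OO, ∀ s ∈ Ss x.M x.κ, Ps s → ∀ τ ∈ dvs (rd o.1), ∀ g ∈ S x.Y, ∀ h ∈ S x.Y,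
    ∀ a : Tu, a = x.tu qc o s τ g h 1 → Cl a → ∀ nδ nμ : ℕ,
    x.CB cw (bm o) (kk o) (κ' o) a nδ nμ
      (A 0 (x.vec a nδ nμ) (x.ky Kf a nδ nμ)) (A 1 (x.vec a nδ nμ) (x.ky Kf a nδ nμ))
      (A 2 (x.vec a nδ nμ) (x.ky Kf a nδ nμ))
  hA0 : ∀ j n A₀, 0 ≤ A j n A₀
  hBs : ∀ o ∈ OO, bpt o.1 o.2 ∈ Bs
  hAf : ∀ o ∈ OO, ∀ s ∈ Ss x.M x.κ, Ps s → ∀ τ ∈ dvs (rd o.1), ∀ g ∈ S x.Y, ∀ h ∈ S x.Y,
    ∀ a : Tu, a = x.tu qc o s τ g h 1 → Cl a → ∀ nδ nμ : ℕ, IsPrim (Ak (x.ky Kf a nδ nμ)) ∧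
      x.ky Kf a nδ nμ ∈ Ad ∧ Ak (x.ky Kf a nδ nμ) ∣ PP (x.Sf a.q) x.g₁ a.ν (a.us * a.τ)
  hPhi : ∀ o ∈ OO, ∀ s ∈ Ss x.M x.κ, Ps s → ∀ τ ∈ dvs (rd o.1), ∀ g ∈ S x.Y, ∀ h ∈ S x.Y,
    ∀ a : Tu, a = x.tu qc o s τ g h 1 → Cl a → ∀ i ∈ x.gd a, IsCoprime a.us a.τ →
      x.cz (bm o) (kk o) (κ' o) a i ≠ 0 →
      (nm (x.ky Kf a (lg i.1) (lg i.2)).2 : ℝ) *
        x.PhiD cw Mb Ek A (x.vec a (lg i.1) (lg i.2)) (x.ky Kf a (lg i.1) (lg i.2)) ≤ Sx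
  hAd : ∀ k ∈ Ad, k.2 ≠ 0
  Sx0 : 0 ≤ Sx

section tot

variable {x : XF} {cw : ℝ} {OO : Finset (Eis × Eis)} {v' bm : Eis × Eis → Eis → ℂ}
  {kk : Eis × Eis → ℂ} {κ' : Eis × Eis → Eis → ℂ} {qc : Eis → Eis} {Mb Ek Sx : ℝ}
  {A : Fin 3 → (Fin 12 → ℕ) → Eis × Eis → ℝ} {Kf : (Fin 12 → ℕ) → Eis → Eis → Eis → Eis × Eis} {Bs : Finset Eis} {Ad : Finset (Eis × Eis)}
  {Cl : Tu → Prop} {Ps : Eis → Prop}

open Classical in
/-- **one outer index** -/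
theorem pre_oE (H : x.HO cw OO v' bm kk κ' qc Mb Ek)
    (HC : x.HCE cw OO v' bm kk κ' qc Mb Ek A Kf Bs Ad Cl Ps Sx) {Pk : Eis → Prop}
    (hP : ∀ a s, Pk (a * s ^ 2) → Ps s) {o : Eis × Eis} (ho : o ∈ OO) :
    XMbP x.M (v' o) (bm o) Pk x.κ ≤ (∑ g ∈ S x.Y, ∑ h ∈ S x.Y, (wg g h)⁻¹) *
      ((dvs (rd o.1)).card : ℝ) * ((Nc x.Y : ℝ) ^ 2 * (x.κ *
        ∑ s ∈ Ss x.M x.κ, ∑ τ ∈ primBall ⌊x.Y⌋₊, ∑ g ∈ S x.Y, ∑ h ∈ S x.Y,
          ∑ i ∈ S x.Y ×ˢ S x.Y, if Cn x bm kk κ' qc Cl (o, s, τ, g, h, i) then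
            x.GGD cw bm kk κ' A Kf (ph x qc (o, s, τ, g, h, i)) else 0)) := by
  have hx := H.ok
  have hY1 := hx.Y1
  have hY : 0 ≤ x.Y := by linarith
  obtain ⟨o1, o2, o3, o4⟩ := H.o1 o ho
  have hκ := H.κ0
  refine (XMbP_le H.κ0 H.X0 H.XY (H.hv o ho) (H.hvf o ho) (H.hb o ho) o1
    (w := wg) wg_pos hP).trans ?_
  refine mul_le_mul_of_nonneg_left ?_ (mul_nonneg (sum_nonneg fun g _ => sum_nonneg fun h _ =>
    (inv_pos.mpr (wg_pos g h)).le) (Nat.cast_nonneg _))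
  have hGG := GGD_nonneg (Kf := Kf) H HC.hA0
  have hif : ∀ p, 0 ≤ (if Cn x bm kk κ' qc Cl p then
      x.GGD cw bm kk κ' A Kf (ph x qc p) else 0) := fun p => by
    split_ifs
    · exact hGG _
    · exact le_rfl
  rw [mul_sum, mul_sum]
  refine le_trans (sum_le_sum fun s hs => ?_) (sum_le_sum_of_subset_of_nonneg
    (filter_subset Ps _) fun s _ _ => mul_nonneg (by positivity) (mul_nonneg hκ.le
      (sum_nonneg fun τ _ => sum_nonneg fun g _ => sum_nonneg fun h _ => sum_nonneg fun i _ =>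
        hif _)))
  obtain ⟨hs, hPs⟩ := mem_filter.mp hs
  obtain ⟨hsp, -, -, -⟩ := mem_Ss hs
  have hs0 := nmpos' hsp.ne_zero
  -- the divisors of `rd S` are bounded
  have hsub : dvs (rd o.1) ⊆ primBall ⌊x.Y⌋₊ := by
    intro τ hτ
    refine mem_primBall.mpr ⟨Nat.le_floor ?_, isPrim_of_mem_dvs hτ⟩
    refine le_trans ?_ o3
    have h1 := Crest.Agent.R012.Div277.nm_le_of_dvd (E4352.rd_prim _).ne_zero (dvd_of_mem_dvs hτ)
    have h2 := Crest.Agent.R012.Div277.nm_le_of_dvd o1.ne_zero (E4352.rd_dvd o.1)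
    exact_mod_cast h1.trans h2
  have hmain : ∀ τ ∈ dvs (rd o.1), ∀ g ∈ S x.Y, ∀ h ∈ S x.Y,
      (nm s : ℝ) * (wg g h * ∑ a ∈ As x.M x.κ s, ‖AQ (IP x.Y (S x.X) g h) (fun i => i.1 * i.2)
        (Vz (v' o) (bm o) o.1 s τ g h) a‖ ^ 2) ≤ (Nc x.Y : ℝ) ^ 2 * (x.κ *
        ∑ i ∈ S x.Y ×ˢ S x.Y, if Cn x bm kk κ' qc Cl (o, s, τ, g, h, i) then
          x.GGD cw bm kk κ' A Kf (ph x qc (o, s, τ, g, h, i)) else 0) := by
    intro τ hτ g hg h hh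
    have hw := (wg_pos g h).le
    have hr0 : 0 ≤ (Nc x.Y : ℝ) ^ 2 * (x.κ *
        ∑ i ∈ S x.Y ×ˢ S x.Y, if Cn x bm kk κ' qc Cl (o, s, τ, g, h, i) then
          x.GGD cw bm kk κ' A Kf (ph x qc (o, s, τ, g, h, i)) else 0) :=
      mul_nonneg (by positivity) (mul_nonneg hκ.le (sum_nonneg fun i _ => hif _))
    by_cases hCl : Cl (x.tu qc o s τ g h 1)
    swap
    · have h0 : ∀ a : Eis, AQ (IP x.Y (S x.X) g h) (fun i => i.1 * i.2)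
          (Vz (v' o) (bm o) o.1 s τ g h) a = 0 := by
        intro a
        unfold E3q681.AQ
        refine sum_eq_zero fun i hi => ?_
        rw [HC.arr0 o ho s hs hPs τ hτ g hg h hh i hi hCl, CS_zero', mul_zero]
      simp_rw [h0]
      simp only [norm_zero, ne_eq, OfNat.ofNat_ne_zero, not_false_eq_true, zero_pow,
        sum_const_zero, mul_zero]
      exact hr0
    -- the main case
    obtain ⟨a, ha⟩ : ∃ a : Tu, a = x.tu qc o s τ g h 1 := ⟨_, rfl⟩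
    obtain ⟨us, u, w, hd0⟩ := HC.dec o ho s hs hPs τ hτ g hg h hh hCl
    have hd := dsf_spec hd0
    have hgp := ((mem_S hY).1 hg).2.1
    have hhp := ((mem_S hY).1 hh).2.1
    have e1 : x.Sf a.q = o.1 := by rw [ha]; exact (H.oq o ho).2.2.1
    have hd' : OKs x.R a.s (x.Sf a.q) a.us a.u a.w := by rw [e1, ha]; exact hd
    have h1 : ∀ b : Eis, AQ (IP x.Y (S x.X) g h) (fun i => i.1 * i.2)
        (Vz (v' o) (bm o) o.1 s τ g h) b =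
        AQ (IP x.Y (S x.X) a.g a.h) (fun i => i.1 * i.2) (x.ar (bm o) (kk o) (κ' o) a) b := by
      intro b
      have eg : a.g = g := by rw [ha]; rfl
      have eh : a.h = h := by rw [ha]; rfl
      rw [eg, eh]
      unfold E3q681.AQ
      refine sum_congr rfl fun i hi => ?_
      rw [HC.arr o ho s hs hPs τ hτ g hg h hh i hi hCl, ha]
    have h2 := AQ_pre (x := x) (cw := cw) (bm := bm o) (κ' := κ' o) (k := kk o) (a := a) hx H.Om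
      hd' (by rw [ha]; exact hgp) (by rw [ha]; exact hhp) hY hκ.le (N := Nc x.Y) (fun i hi => by
        unfold XF.gd at hi
        obtain ⟨j1, j2, j3, j4, j5, j6, j7, j8, j9⟩ := IP_mem hY (mem_filter.mp hi).1
        have hY2 : x.Y ≤ 2 * x.Y ^ 2 := by nlinarith
        exact ⟨lg_lt ((((mem_S hY).1 j8).1).trans hY2), lg_lt ((((mem_S hY).1 j9).1).trans hY2)⟩)
      (A1 := fun nδ nμ => A 0 (x.vec a nδ nμ) (x.ky Kf a nδ nμ))
      (A2 := fun nδ nμ => A 1 (x.vec a nδ nμ) (x.ky Kf a nδ nμ))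
      (A3 := fun nδ nμ => A 2 (x.vec a nδ nμ) (x.ky Kf a nδ nμ))
      (fun nδ nμ => HC.cell o ho s hs hPs τ hτ g hg h hh a ha (by rw [ha]; exact hCl) nδ nμ)
    simp_rw [h1]
    have es : a.s = s := by rw [ha]; rfl
    rw [es] at h2
    calc (nm s : ℝ) * (wg g h * ∑ b ∈ As x.M x.κ s,
          ‖AQ (IP x.Y (S x.X) a.g a.h) (fun i => i.1 * i.2) (x.ar (bm o) (kk o) (κ' o) a) b‖ ^ 2)
        ≤ (nm s : ℝ) * (wg g h * ((Nc x.Y : ℝ) ^ 2 * (x.κ / nm s ^ 2 * ∑ i ∈ x.gd a,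
          x.gb cw (bm o) (kk o) (κ' o) a
          (A 0 (x.vec a (lg i.1) (lg i.2)) (x.ky Kf a (lg i.1) (lg i.2)))
          (A 1 (x.vec a (lg i.1) (lg i.2)) (x.ky Kf a (lg i.1) (lg i.2)))
          (A 2 (x.vec a (lg i.1) (lg i.2)) (x.ky Kf a (lg i.1) (lg i.2))) i))) := by gcongr
      _ = (Nc x.Y : ℝ) ^ 2 * (x.κ * ∑ i ∈ x.gd a, wg g h / nm s *
          x.gb cw (bm o) (kk o) (κ' o) a
          (A 0 (x.vec a (lg i.1) (lg i.2)) (x.ky Kf a (lg i.1) (lg i.2)))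
          (A 1 (x.vec a (lg i.1) (lg i.2)) (x.ky Kf a (lg i.1) (lg i.2)))
          (A 2 (x.vec a (lg i.1) (lg i.2)) (x.ky Kf a (lg i.1) (lg i.2))) i) := by
          rw [← mul_sum]
          field_simp
      _ ≤ _ := by
          refine mul_le_mul_of_nonneg_left (mul_le_mul_of_nonneg_left ?_ hκ.le) (by positivity)
          have h3 : ∀ i ∈ x.gd a, wg g h / nm s * x.gb cw (bm o) (kk o) (κ' o) a
              (A 0 (x.vec a (lg i.1) (lg i.2)) (x.ky Kf a (lg i.1) (lg i.2)))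
              (A 1 (x.vec a (lg i.1) (lg i.2)) (x.ky Kf a (lg i.1) (lg i.2)))
              (A 2 (x.vec a (lg i.1) (lg i.2)) (x.ky Kf a (lg i.1) (lg i.2))) i =
              if Cn x bm kk κ' qc Cl (o, s, τ, g, h, i) then
                x.GGD cw bm kk κ' A Kf (ph x qc (o, s, τ, g, h, i)) else 0 := by
            intro i hi
            rw [← GGD_ph H ho ha]
            by_cases hcz : x.cz (bm o) (kk o) (κ' o) a i = 0
            · rw [if_neg]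
              · rw [GGD_ph H ho ha]
                unfold XF.gb
                rw [hcz]
                simp
              · rintro ⟨-, -, -, h4⟩
                exact h4 (by rw [← ha]; exact hcz)
            · rw [if_pos]
              refine ⟨hτ, hCl, ?_, ?_⟩
              · rw [← ha]; exact hi
              · rw [← ha]; exact hcz
          rw [sum_congr rfl h3]
          refine sum_le_sum_of_subset_of_nonneg (fun i hi => ?_) fun i _ _ => hif _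
          unfold XF.gd at hi
          obtain ⟨j1, j2, j3, j4, j5, j6, j7, j8, j9⟩ := IP_mem hY (mem_filter.mp hi).1
          exact mem_product.mpr ⟨j8, j9⟩
  calc (nm s : ℝ) * ∑ τ ∈ dvs (rd o.1), ∑ g ∈ S x.Y, ∑ h ∈ S x.Y, wg g h *
        ∑ a ∈ As x.M x.κ s, ‖AQ (IP x.Y (S x.X) g h) (fun i => i.1 * i.2)
          (Vz (v' o) (bm o) o.1 s τ g h) a‖ ^ 2
      = ∑ τ ∈ dvs (rd o.1), ∑ g ∈ S x.Y, ∑ h ∈ S x.Y, (nm s : ℝ) * (wg g h *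
        ∑ a ∈ As x.M x.κ s, ‖AQ (IP x.Y (S x.X) g h) (fun i => i.1 * i.2)
          (Vz (v' o) (bm o) o.1 s τ g h) a‖ ^ 2) := by
        simp_rw [mul_sum]
    _ ≤ ∑ τ ∈ dvs (rd o.1), ∑ g ∈ S x.Y, ∑ h ∈ S x.Y, (Nc x.Y : ℝ) ^ 2 * (x.κ *
        ∑ i ∈ S x.Y ×ˢ S x.Y, if Cn x bm kk κ' qc Cl (o, s, τ, g, h, i) then
          x.GGD cw bm kk κ' A Kf (ph x qc (o, s, τ, g, h, i)) else 0) :=
        sum_le_sum fun τ hτ => sum_le_sum fun g hg => sum_le_sum fun h hh => hmain τ hτ g hg h hh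
    _ ≤ ∑ τ ∈ primBall ⌊x.Y⌋₊, ∑ g ∈ S x.Y, ∑ h ∈ S x.Y, (Nc x.Y : ℝ) ^ 2 * (x.κ *
        ∑ i ∈ S x.Y ×ˢ S x.Y, if Cn x bm kk κ' qc Cl (o, s, τ, g, h, i) then
          x.GGD cw bm kk κ' A Kf (ph x qc (o, s, τ, g, h, i)) else 0) :=
        sum_le_sum_of_subset_of_nonneg hsub fun τ _ _ => sum_nonneg fun g _ => sum_nonneg fun h _ =>
          mul_nonneg (by positivity) (mul_nonneg hκ.le (sum_nonneg fun i _ => hif _))
    _ = _ := by simp_rw [mul_sum]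

open Classical in
/-- the facts on a pair of the sum -/
lemma fact_yE (H : x.HO cw OO v' bm kk κ' qc Mb Ek)
    (HC : x.HCE cw OO v' bm kk κ' qc Mb Ek A Kf Bs Ad Cl Ps Sx) {y : Tu × Eis}
    (hy : y ∈ ((P6 x OO).filter (Cn x bm kk κ' qc Cl)).image (ph x qc)) :
    x.OKy OO y ∧ (nm y.1.s : ℝ) ≤ Real.sqrt (2 * x.κ) ∧ (nm y.1.δ : ℝ) ≤ x.Y ∧
      bpt (x.Sf y.1.q) y.1.ν ∈ Bs ∧ IsPrim (Ak (x.ky Kf y.1 (lg y.1.δ) (lg y.2))) ∧
      x.ky Kf y.1 (lg y.1.δ) (lg y.2) ∈ Ad ∧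
      Ak (x.ky Kf y.1 (lg y.1.δ) (lg y.2)) ∣ PP (x.Sf y.1.q) x.g₁ y.1.ν (y.1.us * y.1.τ) ∧
      (nm (x.ky Kf y.1 (lg y.1.δ) (lg y.2)).2 : ℝ) *
      x.PhiD cw Mb Ek A (x.vec y.1 (lg y.1.δ) (lg y.2)) (x.ky Kf y.1 (lg y.1.δ) (lg y.2)) ≤ Sx := by
  have hY : 0 ≤ x.Y := by linarith [H.ok.Y1]
  obtain ⟨⟨o, s, τ, g, h, i⟩, hp, rfl⟩ := mem_image.mp hy
  obtain ⟨hp1, hp2⟩ := mem_filter.mp hp
  obtain ⟨c1, c2, c3, c4⟩ := hp2
  unfold P6 at hp1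
  simp only [mem_product] at hp1
  obtain ⟨ho, hs, -, hg, hh, hi1, hi2⟩ := hp1
  simp only at c1 c2 c3 c4
  have hPs : Ps s := HC.clP _ c2
  obtain ⟨us, u, w, hd0⟩ := HC.dec o ho s hs hPs τ c1 g hg h hh c2
  have hd := dsf_spec hd0
  have e1 : x.Sf (qc o.1) = o.1 := (H.oq o ho).2.2.1
  have hd' : OKs x.R (x.tu qc o s τ g h 1).s (x.Sf (x.tu qc o s τ g h 1).q)
      (x.tu qc o s τ g h 1).us (x.tu qc o s τ g h 1).u (x.tu qc o s τ g h 1).w := by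
    show OKs x.R s (x.Sf (qc o.1)) _ _ _
    rw [e1]; exact hd
  have hc := cz_ne H.R hd' c4
  have hok := oky_of H ho hs c1 hg hh hd c3 hc
  obtain ⟨a1, a2, a3⟩ := HC.hAf o ho s hs hPs τ c1 g hg h hh _ rfl c2 (lg i.1) (lg i.2)
  have hPhi := HC.hPhi o ho s hs hPs τ c1 g hg h hh _ rfl c2 i c3 hc c4
  refine ⟨hok, (mem_Ss hs).2.2.2, ((mem_S hY).1 hi1).1, ?_, a1, a2, a3, hPhi⟩
  show bpt (x.Sf (qc o.1)) o.2 ∈ Bs
  rw [e1]
  exact HC.hBs o ho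

end tot

open Classical in
/-- **the total of the cells of the structured `x`-side** -/
theorem xtotalE {ε : ℝ} (hε : 0 < ε) {cw : ℝ} (hcw : 1 ≤ cw) : ∃ C : ℝ, 0 ≤ C ∧
    ∀ (x : XF) (OO : Finset (Eis × Eis)) (v' bm : Eis × Eis → Eis → ℂ) (kk : Eis × Eis → ℂ)
      (κ' : Eis × Eis → Eis → ℂ) (qc : Eis → Eis) (Mb Ek : ℝ)
      (A : Fin 3 → (Fin 12 → ℕ) → Eis × Eis → ℝ) (Kf : (Fin 12 → ℕ) → Eis → Eis → Eis → Eis × Eis) (Bs : Finset Eis) (Ad : Finset (Eis × Eis))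
      (Cl : Tu → Prop) (Pk Ps : Eis → Prop) (Sx : ℝ),
      x.HO cw OO v' bm kk κ' qc Mb Ek → x.HCE cw OO v' bm kk κ' qc Mb Ek A Kf Bs Ad Cl Ps Sx →
      (∀ a s, Pk (a * s ^ 2) → Ps s) → ∑ o ∈ OO, XMbP x.M (v' o) (bm o) Pk x.κ ≤
        C * x.Y ^ ε * (Bs.card * (∑ k ∈ Ad, (nm k.2 : ℝ)⁻¹) * Sx) := by
  set η := ε / 18 with hη
  have hη0 : 0 < η := by rw [hη]; positivity
  obtain ⟨C1, hC1, h1⟩ := sum_wg hη0
  obtain ⟨C2, hC2, h2⟩ := tau_le_rpow hη0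
  obtain ⟨C3, hC3, h3⟩ := Nc_le hη0
  obtain ⟨C4, hC4, h4⟩ := cls_sumD hη0 hcw
  have hC20 : 0 ≤ C2 := by linarith
  refine ⟨C1 ^ 2 * C2 * C3 ^ 14 * C4, by positivity, ?_⟩
  intro x OO v' bm kk κ' qc Mb Ek A Kf Bs Ad Cl Pk Ps Sx H HC hP
  have hx := H.ok
  have hY1 := hx.Y1
  have hY0 : 0 < x.Y := by linarith
  have hYη : 0 ≤ x.Y ^ η := by positivity
  have hκ := H.κ0
  have hSx := HC.Sx0
  set T := ((P6 x OO).filter (Cn x bm kk κ' qc Cl)).image (ph x qc) with hT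
  set N := Nc x.Y with hN
  have hGG := GGD_nonneg (Kf := Kf) H HC.hA0
  -- the sum over the classes
  set PF : Finset ((Fin 12 → ℕ) × (Eis × Eis)) :=
    (Fintype.piFinset (fun _ : Fin 12 => range N)) ×ˢ Ad with hPF
  set Wr : ℝ := ∑ k ∈ Ad, (nm k.2 : ℝ)⁻¹ with hWr
  have hWr0 : 0 ≤ Wr := sum_nonneg fun k _ => by positivity
  set key : Tu × Eis → (Fin 12 → ℕ) × (Eis × Eis) := fun y =>
    (x.vec y.1 (lg y.1.δ) (lg y.2), x.ky Kf y.1 (lg y.1.δ) (lg y.2)) with hkey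
  have hmap : ∀ y ∈ T, key y ∈ PF := by
    intro y hy
    obtain ⟨f1, f2, f3, f4, f5, f6, f7, f8⟩ := fact_yE H HC hy
    rw [hPF, mem_product]
    refine ⟨?_, f6⟩
    rw [Fintype.mem_piFinset]
    intro j
    exact mem_range.mpr (vec_lt H f1 f2 f3 j)
  have hcls : x.κ * ∑ y ∈ T, x.GGD cw bm kk κ' A Kf y ≤
      (N : ℝ) ^ 12 * (C4 * x.Y ^ η * (Bs.card * Wr * Sx)) := by
    rw [← sum_fiberwise_of_maps_to hmap, mul_sum]
    have hb : ∀ c ∈ PF, x.κ * ∑ y ∈ T with key y = c, x.GGD cw bm kk κ' A Kf y ≤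
        C4 * x.Y ^ η * (Bs.card * ((nm c.2.2 : ℝ)⁻¹ * Sx)) := by
      intro c hc
      rcases (T.filter (fun y => key y = c)).eq_empty_or_nonempty with h0 | ⟨y₀, hy₀⟩
      · rw [h0, sum_empty, mul_zero]
        positivity
      obtain ⟨hy₀T, hy₀c⟩ := mem_filter.mp hy₀
      obtain ⟨f1, f2, f3, f4, f5, f6, f7, f8⟩ := fact_yE H HC hy₀T
      obtain ⟨n, A₀⟩ := c
      rw [hkey] at hy₀c
      simp only [Prod.mk.injEq] at hy₀c
      have h5 := h4 x OO v' bm kk κ' qc Mb Ek A Kf Bs (T.filter (fun y => key y = (n, A₀))) n A₀ H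
        (by rw [← hy₀c.2]; exact f5) (fun j => HC.hA0 j n A₀) (fun y hy => by
          obtain ⟨hyT, hyc⟩ := mem_filter.mp hy
          obtain ⟨k1, k2, k3, k4, k5, k6, k7, k8⟩ := fact_yE H HC hyT
          rw [hkey] at hyc
          simp only [Prod.mk.injEq] at hyc
          refine ⟨k1, hyc.1, hyc.2, k4, ?_⟩
          rw [← hyc.2]; exact k7)
      refine h5.trans ?_
      rw [hy₀c.1, hy₀c.2] at f8
      rw [hy₀c.2] at f6
      have hr : (0 : ℝ) < nm A₀.2 := nmpos' (HC.hAd _ f6)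
      have f9 : x.PhiD cw Mb Ek A n A₀ ≤ (nm A₀.2 : ℝ)⁻¹ * Sx := by
        rw [inv_mul_eq_div, le_div_iff₀ hr, mul_comm]
        exact f8
      gcongr
    refine (sum_le_sum hb).trans (le_of_eq ?_)
    rw [hPF, sum_product]
    dsimp only
    rw [sum_const, Fintype.card_piFinset]
    simp only [card_range, prod_const, card_univ, Fintype.card_fin, nsmul_eq_mul]
    rw [← mul_sum, ← mul_sum, ← sum_mul, ← hWr]
    push_cast
    ring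
  -- the outer indices
  have hout : ∑ o ∈ OO, XMbP x.M (v' o) (bm o) Pk x.κ ≤ (C1 * x.Y ^ η) ^ 2 * (C2 * x.Y ^ η) *
      ((N : ℝ) ^ 2 * (x.κ * ∑ y ∈ T, x.GGD cw bm kk κ' A Kf y)) := by
    rw [hT, ← sum_P6 H, mul_sum, mul_sum, mul_sum]
    refine sum_le_sum fun o ho => ?_
    refine (pre_oE H HC hP ho).trans ?_
    obtain ⟨o1, o2, o3, o4⟩ := H.o1 o ho
    have g1 := h1 x.Y hY1
    have g0 : 0 ≤ ∑ g ∈ S x.Y, ∑ h ∈ S x.Y, (wg g h)⁻¹ := sum_nonneg fun g _ =>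
      sum_nonneg fun h _ => (inv_pos.mpr (wg_pos g h)).le
    have g2 : ((dvs (rd o.1)).card : ℝ) ≤ C2 * x.Y ^ η := by
      refine (h2 _ (E4352.rd_prim _).ne_zero).trans (mul_le_mul_of_nonneg_left ?_ hC20)
      refine Real.rpow_le_rpow (Nat.cast_nonneg _) (le_trans ?_ o3) hη0.le
      exact_mod_cast Crest.Agent.R012.Div277.nm_le_of_dvd o1.ne_zero (E4352.rd_dvd _)
    refine mul_le_mul_of_nonneg_right (mul_le_mul g1 g2 (Nat.cast_nonneg _) (by positivity)) ?_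
    refine mul_nonneg (by positivity) (mul_nonneg hκ.le (sum_nonneg fun s _ => sum_nonneg fun τ _ =>
      sum_nonneg fun g _ => sum_nonneg fun h _ => sum_nonneg fun i _ => ?_))
    split_ifs
    · exact hGG _
    · exact le_rfl
  have hNb := h3 x.Y hY1
  rw [← hN] at hNb
  calc ∑ o ∈ OO, XMbP x.M (v' o) (bm o) Pk x.κ
      ≤ (C1 * x.Y ^ η) ^ 2 * (C2 * x.Y ^ η) * ((N : ℝ) ^ 2 *
        ((N : ℝ) ^ 12 * (C4 * x.Y ^ η * (Bs.card * Wr * Sx)))) := by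
        refine hout.trans ?_
        gcongr
    _ = (C1 * x.Y ^ η) ^ 2 * (C2 * x.Y ^ η) * ((N : ℝ) ^ 14 *
        (C4 * x.Y ^ η * (Bs.card * Wr * Sx))) := by ring
    _ ≤ (C1 * x.Y ^ η) ^ 2 * (C2 * x.Y ^ η) * ((C3 * x.Y ^ η) ^ 14 *
        (C4 * x.Y ^ η * (Bs.card * Wr * Sx))) := by gcongr
    _ = C1 ^ 2 * C2 * C3 ^ 14 * C4 * (x.Y ^ η) ^ 18 * (Bs.card * Wr * Sx) := by ring
    _ = _ := by
        have : (x.Y ^ η) ^ 18 = x.Y ^ ε := by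
          rw [← Real.rpow_natCast, ← Real.rpow_mul hY0.le]
          congr 1
          rw [hη]; push_cast; ring
        rw [this]

end Crest.Agent.R017.E4X92
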