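import Crest.Agent.R017.E4Xe_92

/-!
# Row 17, block C70, leaf E4 (x-side): the diagonal moment, divisors of one size (helper92)

* `TD` : the diagonal moment (square-free frequencies prime to `R`)
* `TSE`, `TSD` : the `T`-functionals at the divisors of `Es`; `TSD` : cube-free frequencies
* `tw_sumE`, `td_sum` : the sums over the cells
* `cbf_freq` : the frequencies of the diagonal are cube-free
-/

set_option autoImplicit false
set_option linter.unusedVariables false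
set_option maxHeartbeats 400000

noncomputable section

open Complex
open scoped ComplexConjugate

namespace Crest.Agent.R017.E4X92

open Crest.Agent.R012 Crest.Agent.R012.Eis Crest.Agent.R012.MC Crest.Agent.R012.GaussLoc283
open Crest.Agent.R012.LS2 (S mem_S)
open Crest.Agent.R012.Div277 (dvs mem_dvs isPrim_of_mem_dvs dvd_of_mem_dvs tau tau_le_rpow)
open Crest.Agent.R017.CM106 (CS FS)
open Crest.Agent.R017.C70 (CbF JC)
open Crest.Agent.R017.GrB829 (IsC)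
open Crest.Agent.R017.PX764 (n6 th)
open Crest.Agent.R017.E3D579 (b0 bt bF)
open Crest.Agent.R017.E4352 (rd dvd_rd Sd PrI)
open Crest.Agent.R017.E4579 (SupB bpt bco bpt_prim bco_prim bpt_mul_bco)
open Crest.Agent.R017.E4v92 (FF WW AA AA_spec)
open Crest.Agent.R017.E4zz92
open Crest.Agent.R017.E3q681 (TW AQ SA)
open Crest.Agent.R012.NonCube52 (kc)
open Finset

open Classical in
/-- the diagonal moment -/
def TD (X : ℝ) (R : Eis) (b : Eis → ℂ) : ℝ :=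
  ∑ n ∈ (S X).filter (fun n => IsCoprime n R), ‖CS b n‖ ^ 2

open Classical in
lemma TD_nonneg (X : ℝ) (R : Eis) (b : Eis → ℂ) : 0 ≤ TD X R b :=
  sum_nonneg fun _ _ => by positivity

open Classical in
lemma TD_mono {X X' : ℝ} {R R' : Eis} (b : Eis → ℂ) (hX0 : 0 ≤ X) (hX : X ≤ X') (hR : R' ∣ R) :
    TD X R b ≤ TD X' R' b := by
  unfold TD
  refine sum_le_sum_of_subset_of_nonneg (fun n hn => ?_) fun _ _ _ => by positivity
  obtain ⟨h1, h2⟩ := mem_filter.mp hn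
  obtain ⟨h3, h4⟩ := (mem_S hX0).mp h1
  exact mem_filter.mpr ⟨(mem_S (hX0.trans hX)).mpr ⟨h3.trans hX, h4⟩,
    h2.of_isCoprime_of_dvd_right hR⟩

/-- the `T`-functional, divisors in `Es` -/
def TSE (α : Eis → ℂ) (e₀ c₀ : Eis) (ex : ℝ) (Es : Finset Eis) (L : ℝ) : ℝ :=
  ∑ c ∈ primBall ⌊L⌋₊, (nm c : ℝ) ^ (-ex) * ∑ e ∈ Es,
    ∑ J ∈ primBall ⌊L / nm c ^ 3⌋₊, TT α e₀ c₀ e (J * c ^ 3)

lemma TSE_nonneg (α : Eis → ℂ) (e₀ c₀ : Eis) (ex : ℝ) (Es : Finset Eis) (L : ℝ) :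
    0 ≤ TSE α e₀ c₀ ex Es L := by
  unfold TSE
  refine sum_nonneg fun c _ => mul_nonneg (by positivity) (sum_nonneg fun e _ => sum_nonneg
    fun J _ => TT_nonneg _ _ _ _ _)

open Classical in
/-- the diagonal `T`-functional, divisors in `Es`, cube-free frequencies -/
def TSD (α : Eis → ℂ) (e₀ c₀ : Eis) (Es : Finset Eis) (L : ℝ) : ℝ :=
  ∑ e ∈ Es, ∑ J ∈ (primBall ⌊L⌋₊).filter CbF, TT α e₀ c₀ e J

lemma TSD_nonneg (α : Eis → ℂ) (e₀ c₀ : Eis) (Es : Finset Eis) (L : ℝ) :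
    0 ≤ TSD α e₀ c₀ Es L := by
  unfold TSD
  exact sum_nonneg fun e _ => sum_nonneg fun J _ => TT_nonneg _ _ _ _ _

open Classical in
/-- **the sum of the moments of the cells**, divisors in `Es` -/
theorem tw_sumE {ε : ℝ} (hε : 0 < ε) : ∃ C : ℝ, 0 ≤ C ∧ ∀ (Y : ℝ) (f : Fr) (T : Finset Tu)
    (α : Eis → ℂ) (e₀ c₀ A₀ : Eis) (ex X L : ℝ) (Es Bs : Finset Eis),
    1 ≤ Y → f.OK Y → FS α → IsPrim A₀ → 0 ≤ X → 0 ≤ L → L ≤ Y →
    (∀ a ∈ T, a.OK f Y ∧ a.j = 1 ∧ a.c = 1 ∧ bpt (f.Sf a.q) a.ν ∈ Bs ∧ a.e f ∈ Es ∧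
      nm (a.J f) * X ≤ L ∧ A₀ ∣ a.J f) →
    ∑ a ∈ T, TW ex X (cb f α e₀ c₀ a) ≤
      C * Y ^ ε * (Bs.card * TSE α e₀ (c₀ * A₀) ex Es (L / nm A₀)) := by
  obtain ⟨C, hC, h⟩ := tcount hε
  refine ⟨C, hC, ?_⟩
  intro Y f T α e₀ c₀ A₀ ex X L Es Bs hY hf hα hA₀ hX hL hLY hT
  have hA0 : (0 : ℝ) < nm A₀ := by exact_mod_cast nm_pos.mpr hA₀.ne_zero
  have hdec : ∀ j : Eis, ∃ z : Eis × Eis, IsPrim j → IsPrim z.1 ∧ IsPrim z.2 ∧
      j = z.1 * z.2 ^ 3 ∧ (nm (kc j).2 : ℝ) = nm z.2 := by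
    intro j
    by_cases hj : IsPrim j
    · obtain ⟨z, hz⟩ := exists_dec hj
      exact ⟨z, fun _ => hz⟩
    · exact ⟨(1, 1), fun h' => absurd h' hj⟩
  choose z hz using hdec
  -- the tuples
  set P := primBall ⌊X⌋₊ with hP
  set mk : Tu × Eis → Tu := fun y => { y.1 with j := (z y.2).1, c := (z y.2).2 } with hmk
  set T' := T ×ˢ P with hT'
  have hpr : ∀ y ∈ T', IsPrim y.2 ∧ (nm y.2 : ℝ) ≤ X := by
    intro y hy
    obtain ⟨h1, h2⟩ := mem_primBall.mp (mem_product.mp hy).2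
    exact ⟨h2, (Nat.le_floor_iff hX).mp h1⟩
  have hinj : Set.InjOn mk (T' : Set (Tu × Eis)) := by
    intro y hy y' hy' he
    have hy := mem_coe.mp hy
    have hy' := mem_coe.mp hy'
    obtain ⟨-, k1, k2, -⟩ := hT y.1 (mem_product.mp hy).1
    obtain ⟨-, k1', k2', -⟩ := hT y'.1 (mem_product.mp hy').1
    obtain ⟨a, j⟩ := y
    obtain ⟨a', j'⟩ := y'
    cases a
    cases a'
    simp only [hmk, Tu.mk.injEq] at he
    simp only at k1 k2 k1' k2'
    obtain ⟨m1, m2, m3, m4, m5, m6, m7, m8, m9, m10, m11, m12⟩ := he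
    have e1 := (hz j (hpr _ hy).1).2.2.1
    have e2 := (hz j' (hpr _ hy').1).2.2.1
    have e3 : j = j' := by rw [e1, e2, m11, m12]
    simp only [Prod.mk.injEq, Tu.mk.injEq]
    exact ⟨⟨m1, m2, m3, m4, m5, m6, m7, m8, m9, m10, k1.trans k1'.symm, k2.trans k2'.symm⟩, e3⟩
  set F : Eis × Eis × Eis × Eis → ℝ := fun x =>
    (nm x.2.1 : ℝ) ^ (-ex) * TT α e₀ c₀ x.2.2.1 (x.2.2.2 * x.2.1 ^ 3) with hF
  set B : Finset (Eis × Eis × Eis × Eis) := (Bs ×ˢ primBall ⌊L / nm A₀⌋₊ ×ˢ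
    Es ×ˢ primBall ⌊L⌋₊).filter
      (fun x => (nm x.2.2.2 : ℝ) ≤ L / nm x.2.1 ^ 3 ∧ A₀ ∣ x.2.2.2) with hB
  have hJe : ∀ y ∈ T', (mk y).J f * (mk y).c ^ 3 = y.1.J f * y.2 := by
    intro y hy
    obtain ⟨-, k1, k2, -⟩ := hT y.1 (mem_product.mp hy).1
    have e1 := (hz y.2 (hpr _ hy).1).2.2.1
    simp only [hmk, Tu.J]
    rw [k1]
    conv_rhs => rw [e1]
    ring
  have hJn : ∀ y ∈ T', (nm ((mk y).J f) : ℝ) * nm (mk y).c ^ 3 ≤ L := by
    intro y hy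
    obtain ⟨-, -, -, -, -, k6, -⟩ := hT y.1 (mem_product.mp hy).1
    have e1 := hJe y hy
    have e2 : (nm ((mk y).J f) : ℝ) * nm (mk y).c ^ 3 = nm (y.1.J f) * nm y.2 := by
      have := congrArg nm e1
      rw [nm_mul, nm_pow, nm_mul] at this
      exact_mod_cast this
    rw [e2]
    refine le_trans ?_ k6
    exact mul_le_mul_of_nonneg_left (hpr y hy).2 (Nat.cast_nonneg _)
  have hOK : ∀ y ∈ T', (mk y).OK f Y := by
    intro y hy
    obtain ⟨k, k1, k2, k3, k4, k5, k7⟩ := hT y.1 (mem_product.mp hy).1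
    obtain ⟨z1, z2, z3, z4⟩ := hz y.2 (hpr _ hy).1
    have n1 : (1 : ℝ) ≤ nm (mk y).c ^ 3 := by
      have : (1 : ℝ) ≤ nm (mk y).c := by
        exact_mod_cast nm_pos.mpr z2.ne_zero
      exact one_le_pow₀ this
    exact {
      hq := k.hq, hqq := k.hqq, hS := k.hS, h1 := k.h1, h2 := k.h2, hν := k.hν, hs := k.hs,
      hR := k.hR, hτ := k.hτ, hτq := k.hτq, hτS := k.hτS, husτ := k.husτ, hg := k.hg, hh := k.hh,
      hδ := k.hδ, hj := z1, hP := k.hP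
      hJY := by
        refine le_trans ?_ hLY
        refine le_trans ?_ (hJn y hy)
        exact le_mul_of_one_le_right (Nat.cast_nonneg _) n1
      heY := k.heY
      hbY := k.hbY }
  have hBm : ∀ a ∈ T'.image mk, tgt f a ∈ B := by
    intro a ha
    obtain ⟨y, hy, rfl⟩ := mem_image.mp ha
    obtain ⟨k, k1, k2, k3, k4, k5, k7⟩ := hT y.1 (mem_product.mp hy).1
    obtain ⟨z1, z2, z3, z4⟩ := hz y.2 (hpr _ hy).1
    have hc1 : (1 : ℝ) ≤ nm (mk y).c := by exact_mod_cast nm_pos.mpr z2.ne_zero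
    have hc3 : (nm (mk y).c : ℝ) ≤ nm (mk y).c ^ 3 := le_self_pow₀ hc1 (by norm_num)
    have hJ1 : (1 : ℝ) ≤ nm ((mk y).J f) := by
      exact_mod_cast nm_pos.mpr ((hOK y hy).Jprim hf).ne_zero
    have n3 := hJn y hy
    have hJA : A₀ ∣ (mk y).J f := by
      have e1 : (mk y).J f = y.1.J f * (z y.2).1 := by
        simp only [hmk, Tu.J]
        rw [k1]
        ring
      rw [e1]
      exact k7.mul_right _
    have hJA' : (nm A₀ : ℝ) ≤ nm ((mk y).J f) := by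
      exact_mod_cast Crest.Agent.R012.Div277.nm_le_of_dvd ((hOK y hy).Jprim hf).ne_zero hJA
    have n4 : (nm (mk y).c : ℝ) ≤ L / nm A₀ := by
      rw [le_div_iff₀ hA0]
      calc (nm (mk y).c : ℝ) * nm A₀ ≤ nm (mk y).c ^ 3 * nm ((mk y).J f) := by gcongr
        _ = nm ((mk y).J f) * nm (mk y).c ^ 3 := by ring
        _ ≤ L := n3
    have n5 : (nm ((mk y).J f) : ℝ) ≤ L := by
      refine le_trans ?_ n3
      exact le_mul_of_one_le_right (Nat.cast_nonneg _) (one_le_pow₀ hc1)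
    rw [hB, mem_filter]
    refine ⟨?_, ?_⟩
    · unfold tgt
      simp only [mem_product, mem_primBall]
      exact ⟨k3, ⟨Nat.le_floor n4, z2⟩, k4, Nat.le_floor n5, (hOK y hy).Jprim hf⟩
    · unfold tgt
      simp only
      rw [le_div_iff₀ (by positivity)]
      exact ⟨n3, hJA⟩
  have h1 := h Y f (T'.image mk) B F hY hf (fun a ha => by
    obtain ⟨y, hy, rfl⟩ := mem_image.mp ha
    exact hOK y hy) hBm (fun x _ => mul_nonneg (by positivity) (TT_nonneg _ _ _ _ _))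
  rw [sum_image hinj] at h1
  have h2 : ∑ a ∈ T, TW ex X (cb f α e₀ c₀ a) ≤ ∑ y ∈ T', F (tgt f (mk y)) := by
    rw [hT', sum_product]
    refine sum_le_sum fun a ha => ?_
    unfold E3q681.TW
    refine sum_le_sum fun j hj => ?_
    obtain ⟨k, k1, k2, k3, k4, k5, k7⟩ := hT a ha
    have hjp : IsPrim j := (mem_primBall.mp hj).2
    obtain ⟨z1, z2, z3, z4⟩ := hz j hjp
    have hmem : (a, j) ∈ T' := mem_product.mpr ⟨ha, hj⟩
    rw [z4]
    refine mul_le_mul_of_nonneg_left ?_ (by positivity)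
    unfold cb
    refine (CS_cell hα (k.eprim hf) (k.hh.mul k.hs.hu) hjp e₀ _).trans (le_of_eq ?_)
    unfold TT
    congr 2
    have e1 := hJe (a, j) hmem
    have e2 : (tgt f (mk (a, j))).2.2.2 * (tgt f (mk (a, j))).2.1 ^ 3 = a.J f * j := e1
    rw [e2]
    unfold Tu.J
    rw [k1]
    have e3 : (tgt f (mk (a, j))).2.2.1 = a.e f := rfl
    rw [e3]
    congr 1
    ring
  refine h2.trans (h1.trans (mul_le_mul_of_nonneg_left ?_ (by positivity)))
  -- the sum over the target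
  unfold TSE
  rw [hB, sum_filter, sum_product]
  calc _ = ∑ b ∈ Bs, ∑ x ∈ primBall ⌊L / nm A₀⌋₊ ×ˢ Es ×ˢ primBall ⌊L⌋₊,
        (if (nm x.2.2 : ℝ) ≤ L / nm x.1 ^ 3 ∧ A₀ ∣ x.2.2 then
          (nm x.1 : ℝ) ^ (-ex) * TT α e₀ c₀ x.2.1 (x.2.2 * x.1 ^ 3) else 0) := rfl
    _ = Bs.card * ∑ x ∈ primBall ⌊L / nm A₀⌋₊ ×ˢ Es ×ˢ primBall ⌊L⌋₊,
        (if (nm x.2.2 : ℝ) ≤ L / nm x.1 ^ 3 ∧ A₀ ∣ x.2.2 then
          (nm x.1 : ℝ) ^ (-ex) * TT α e₀ c₀ x.2.1 (x.2.2 * x.1 ^ 3) else 0) := by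
        rw [sum_const, nsmul_eq_mul]
    _ ≤ _ := by
        refine mul_le_mul_of_nonneg_left ?_ (Nat.cast_nonneg _)
        rw [sum_product]
        refine sum_le_sum fun c hc => ?_
        rw [sum_product, mul_sum]
        refine sum_le_sum fun e he => ?_
        rw [← sum_filter, mul_sum]
        have hinj2 : Set.InjOn (fun J : Eis => A₀ * J)
            ((primBall ⌊L / nm A₀ / nm c ^ 3⌋₊ : Finset Eis) : Set Eis) :=
          fun y _ y' _ h => mul_left_cancel₀ hA₀.ne_zero h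
        have hc0 : (0 : ℝ) < nm c := by
          exact_mod_cast nm_pos.mpr (mem_primBall.mp hc).2.ne_zero
        have hsub : (primBall ⌊L⌋₊).filter (fun J => (nm J : ℝ) ≤ L / nm c ^ 3 ∧ A₀ ∣ J) ⊆
            (primBall ⌊L / nm A₀ / nm c ^ 3⌋₊).image (fun J => A₀ * J) := by
          intro J hJ
          obtain ⟨h3, h4, J', rfl⟩ := mem_filter.mp hJ
          have hJp : IsPrim J' := (mem_primBall.mp h3).2.of_mul_left hA₀
          refine mem_image.mpr ⟨J', mem_primBall.mpr ⟨Nat.le_floor ?_, hJp⟩, rfl⟩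
          rw [nm_mul] at h4
          push_cast at h4
          rw [le_div_iff₀ (by positivity)] at h4
          rw [div_div, le_div_iff₀ (by positivity)]
          linarith
        refine (sum_le_sum_of_subset_of_nonneg hsub fun J _ _ =>
          mul_nonneg (by positivity) (TT_nonneg _ _ _ _ _)).trans ?_
        rw [sum_image hinj2]
        refine sum_le_sum fun J hJ => le_of_eq ?_
        congr 1
        unfold TT
        have e1 : c₀ * (A₀ * J * c ^ 3) = c₀ * A₀ * (J * c ^ 3) := by ring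
        rw [e1]

open Classical in
/-- **the sum of the diagonal moments of the cells** -/
theorem td_sum {ε : ℝ} (hε : 0 < ε) : ∃ C : ℝ, 0 ≤ C ∧ ∀ (Y : ℝ) (f : Fr) (T : Finset Tu)
    (α : Eis → ℂ) (e₀ c₀ A₀ : Eis) (X L : ℝ) (Es Bs : Finset Eis) (Ra : Tu → Eis),
    1 ≤ Y → f.OK Y → FS α → IsPrim A₀ → 0 ≤ X → 0 ≤ L → L ≤ Y →
    (∀ a ∈ T, a.OK f Y ∧ a.j = 1 ∧ a.c = 1 ∧ bpt (f.Sf a.q) a.ν ∈ Bs ∧ a.e f ∈ Es ∧
      nm (a.J f) * X ≤ L ∧ A₀ ∣ a.J f) →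
    (∀ a ∈ T, ∀ n, IsPrim n → Squarefree n → IsCoprime n (Ra a) → CbF (a.J f * n)) →
    ∑ a ∈ T, TD X (Ra a) (cb f α e₀ c₀ a) ≤
      C * Y ^ ε * (Bs.card * TSD α e₀ (c₀ * A₀) Es (L / nm A₀)) := by
  obtain ⟨C, hC, h⟩ := tcount hε
  refine ⟨C, hC, ?_⟩
  intro Y f T α e₀ c₀ A₀ X L Es Bs Ra hY hf hα hA₀ hX hL hLY hT hcb
  have hA0 : (0 : ℝ) < nm A₀ := by exact_mod_cast nm_pos.mpr hA₀.ne_zero
  set mk : Tu × Eis → Tu := fun y => { y.1 with j := y.2 } with hmk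
  set T' := (T ×ˢ S X).filter (fun y => IsCoprime y.2 (Ra y.1)) with hT'
  have hpr : ∀ y ∈ T', y.1 ∈ T ∧ IsPrim y.2 ∧ Squarefree y.2 ∧ (nm y.2 : ℝ) ≤ X ∧
      IsCoprime y.2 (Ra y.1) := by
    intro y hy
    obtain ⟨h1, h2⟩ := mem_filter.mp hy
    obtain ⟨h3, h4⟩ := mem_product.mp h1
    obtain ⟨h5, h6, h7⟩ := (mem_S hX).mp h4
    exact ⟨h3, h6, h7, h5, h2⟩
  have hinj : Set.InjOn mk (T' : Set (Tu × Eis)) := by
    intro y hy y' hy' he
    have hy := mem_coe.mp hy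
    have hy' := mem_coe.mp hy'
    obtain ⟨-, k1, k2, -⟩ := hT y.1 (hpr y hy).1
    obtain ⟨-, k1', k2', -⟩ := hT y'.1 (hpr y' hy').1
    obtain ⟨a, j⟩ := y
    obtain ⟨a', j'⟩ := y'
    cases a
    cases a'
    simp only [hmk, Tu.mk.injEq] at he
    simp only at k1 k2 k1' k2'
    obtain ⟨m1, m2, m3, m4, m5, m6, m7, m8, m9, m10, m11, m12⟩ := he
    simp only [Prod.mk.injEq, Tu.mk.injEq]
    exact ⟨⟨m1, m2, m3, m4, m5, m6, m7, m8, m9, m10, k1.trans k1'.symm, m12⟩, m11⟩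
  set F : Eis × Eis × Eis × Eis → ℝ := fun x => TT α e₀ c₀ x.2.2.1 x.2.2.2 with hF
  set B : Finset (Eis × Eis × Eis × Eis) := Bs ×ˢ {1} ×ˢ Es ×ˢ
    (primBall ⌊L⌋₊).filter (fun J => CbF J ∧ A₀ ∣ J) with hB
  have hJe : ∀ y ∈ T', (mk y).J f = y.1.J f * y.2 := by
    intro y hy
    obtain ⟨-, k1, k2, -⟩ := hT y.1 (hpr y hy).1
    simp only [hmk, Tu.J]
    rw [k1]
    ring
  have hJn : ∀ y ∈ T', (nm ((mk y).J f) : ℝ) ≤ L := by
    intro y hy
    obtain ⟨-, -, -, -, -, k6, -⟩ := hT y.1 (hpr y hy).1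
    rw [hJe y hy, nm_mul]
    push_cast
    refine le_trans ?_ k6
    exact mul_le_mul_of_nonneg_left (hpr y hy).2.2.2.1 (Nat.cast_nonneg _)
  have hOK : ∀ y ∈ T', (mk y).OK f Y := by
    intro y hy
    obtain ⟨k, k1, k2, k3, k4, k5, k7⟩ := hT y.1 (hpr y hy).1
    exact {
      hq := k.hq, hqq := k.hqq, hS := k.hS, h1 := k.h1, h2 := k.h2, hν := k.hν, hs := k.hs,
      hR := k.hR, hτ := k.hτ, hτq := k.hτq, hτS := k.hτS, husτ := k.husτ, hg := k.hg, hh := k.hh,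
      hδ := k.hδ, hj := (hpr y hy).2.1, hP := k.hP
      hJY := (hJn y hy).trans hLY
      heY := k.heY
      hbY := k.hbY }
  have hBm : ∀ a ∈ T'.image mk, tgt f a ∈ B := by
    intro a ha
    obtain ⟨y, hy, rfl⟩ := mem_image.mp ha
    obtain ⟨k, k1, k2, k3, k4, k5, k7⟩ := hT y.1 (hpr y hy).1
    obtain ⟨-, p1, p2, p3, p4⟩ := hpr y hy
    have hc := hcb y.1 (hpr y hy).1 y.2 p1 p2 p4
    rw [hB]
    unfold tgt
    simp only [mem_product, mem_singleton, mem_filter, mem_primBall]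
    refine ⟨k3, k2, k4, ⟨Nat.le_floor (hJn y hy), (hOK y hy).Jprim hf⟩, ?_, ?_⟩
    · rw [hJe y hy]; exact hc
    · rw [hJe y hy]; exact k7.mul_right _
  have h1 := h Y f (T'.image mk) B F hY hf (fun a ha => by
    obtain ⟨y, hy, rfl⟩ := mem_image.mp ha
    exact hOK y hy) hBm (fun x _ => TT_nonneg _ _ _ _ _)
  rw [sum_image hinj] at h1
  have h2 : ∑ a ∈ T, TD X (Ra a) (cb f α e₀ c₀ a) ≤ ∑ y ∈ T', F (tgt f (mk y)) := by
    rw [hT', sum_filter, sum_product]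
    refine sum_le_sum fun a ha => ?_
    unfold TD
    rw [sum_filter]
    refine sum_le_sum fun j hj => ?_
    split_ifs with hjc
    · obtain ⟨k, k1, k2, k3, k4, k5, k7⟩ := hT a ha
      have hjp : IsPrim j := ((mem_S hX).mp hj).2.1
      have hmem : (a, j) ∈ T' := mem_filter.mpr ⟨mem_product.mpr ⟨ha, hj⟩, hjc⟩
      unfold cb
      refine (CS_cell hα (k.eprim hf) (k.hh.mul k.hs.hu) hjp e₀ _).trans (le_of_eq ?_)
      have e1 := hJe (a, j) hmem
      have e2 : (tgt f (mk (a, j))).2.2.2 = a.J f * j := e1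
      have e3 : (tgt f (mk (a, j))).2.2.1 = a.e f := rfl
      rw [hF]
      simp only
      unfold TT
      rw [e2, e3]
      unfold Tu.J
      rw [k1]
      congr 3
      ring
    · exact le_rfl
  refine h2.trans (h1.trans (mul_le_mul_of_nonneg_left ?_ (by positivity)))
  -- the sum over the target
  unfold TSD
  rw [hB, sum_product]
  calc _ = ∑ b ∈ Bs, ∑ x ∈ ({1} : Finset Eis) ×ˢ Es ×ˢ
        (primBall ⌊L⌋₊).filter (fun J => CbF J ∧ A₀ ∣ J), TT α e₀ c₀ x.2.1 x.2.2 := rfl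
    _ = Bs.card * ∑ x ∈ ({1} : Finset Eis) ×ˢ Es ×ˢ
        (primBall ⌊L⌋₊).filter (fun J => CbF J ∧ A₀ ∣ J), TT α e₀ c₀ x.2.1 x.2.2 := by
        rw [sum_const, nsmul_eq_mul]
    _ ≤ _ := by
        refine mul_le_mul_of_nonneg_left ?_ (Nat.cast_nonneg _)
        rw [sum_product, sum_singleton]
        dsimp only
        rw [sum_product]
        refine sum_le_sum fun e he => ?_
        have hinj2 : Set.InjOn (fun J : Eis => A₀ * J)
            (((primBall ⌊L / nm A₀⌋₊).filter CbF : Finset Eis) : Set Eis) :=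
          fun y _ y' _ h => mul_left_cancel₀ hA₀.ne_zero h
        have hsub : (primBall ⌊L⌋₊).filter (fun J => CbF J ∧ A₀ ∣ J) ⊆
            ((primBall ⌊L / nm A₀⌋₊).filter CbF).image (fun J => A₀ * J) := by
          intro J hJ
          obtain ⟨h3, h4, J', rfl⟩ := mem_filter.mp hJ
          have hJp : IsPrim J' := (mem_primBall.mp h3).2.of_mul_left hA₀
          refine mem_image.mpr ⟨J', mem_filter.mpr ⟨mem_primBall.mpr ⟨Nat.le_floor ?_, hJp⟩,
            fun p hp hd => h4 p hp (hd.mul_left _)⟩, rfl⟩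
          have h5 := (Nat.le_floor_iff hL).mp (mem_primBall.mp h3).1
          rw [nm_mul] at h5
          push_cast at h5
          rw [le_div_iff₀ hA0]
          linarith
        refine (sum_le_sum_of_subset_of_nonneg hsub fun J _ _ => TT_nonneg _ _ _ _ _).trans ?_
        rw [sum_image hinj2]
        refine sum_le_sum fun J hJ => le_of_eq ?_
        unfold TT
        have e1 : c₀ * (A₀ * J) = c₀ * A₀ * J := by ring
        rw [e1]

/-! ### the frequencies of the diagonal -/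

lemma bco_dvd' {b x : Eis} (hb : IsPrim b) (hx : IsPrim x) : bco b x ∣ x :=
  ⟨bpt b x, by rw [mul_comm]; exact (bpt_mul_bco hb hx).symm⟩

lemma cop_isC {c p : Eis} (hc : IsC c) (h : IsCoprime p 3) : IsCoprime p c := by
  have hw : IsCoprime p w :=
    isCoprime_one_right.of_isCoprime_of_dvd_right (isUnit_iff_dvd_one.mp isUnit_w)
  rcases hc with rfl | rfl | rfl | rfl
  · exact isCoprime_one_right
  · exact h
  · exact h.mul_right hw
  · exact h.mul_right (hw.pow_right)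

/-- the primary part of a frequency is cube-free -/
lemma cbf_of_JC {c₀ P : Eis} (hP : IsPrim P) (h : JC (c₀ * P)) : CbF P := by
  obtain ⟨c, hc, j', hj', hcb, he⟩ := h
  intro p hp hd
  have hpP : p ∣ P := (dvd_pow_self p three_ne_zero).trans hd
  have h3 : IsCoprime p 3 := hP.isCoprime_three.of_isCoprime_of_dvd_left hpP
  have h4 : IsCoprime (p ^ 3) c := (cop_isC hc h3).pow_left
  have h5 : p ^ 3 ∣ c * j' := by rw [← he]; exact hd.mul_left _
  exact hcb p hp (h4.dvd_of_dvd_mul_left h5)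

/-- a product of coprime factors -/
lemma cbf_mul {P m : Eis} (hP : CbF P) (hm : Squarefree m) (hc : IsCoprime P m) :
    CbF (P * m) := by
  intro p hp hd
  by_cases h : p ∣ P
  · have h1 : IsCoprime (p ^ 3) m := (hc.of_isCoprime_of_dvd_left h).pow_left
    exact hP p hp (h1.dvd_of_dvd_mul_right hd)
  · have h1 : p ^ 3 ∣ m := hp.pow_dvd_of_dvd_mul_left 3 h hd
    have h2 : p * p ∣ m := (by exact ⟨p, by ring⟩ : p * p ∣ p ^ 3).trans h1
    exact hp.not_isUnit (hm p h2)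

/-- the primes of `AA` -/
lemma sup_AA {S₀ ρ₀ : Eis} (hS : IsPrim S₀) (hρ : IsPrim ρ₀) (hρS : SupB ρ₀ S₀)
    (h0 : AA S₀ ρ₀ ≠ 0) : SupB (AA S₀ ρ₀) S₀ := by
  obtain ⟨hJA, e, he, hA⟩ := AA_spec h0
  have hAp : IsPrim (AA S₀ ρ₀) := by
    have h1 : IsPrim (AA S₀ ρ₀ * S₀) := by
      rw [hA]; exact hρ.mul (he.pow 3)
    exact h1.of_mul_right hS
  have hcb : CbF (AA S₀ ρ₀) := cbf_of_JC (c₀ := 1) hAp (by rwa [one_mul])
  intro p hp hd
  by_contra hpS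
  have h1 : ¬ p ∣ ρ₀ := fun h => hpS (hρS p hp h)
  have h2 : p ∣ ρ₀ * e ^ 3 := by rw [← hA]; exact hd.mul_right _
  have h3 : p ∣ e := hp.dvd_of_dvd_pow ((hp.dvd_or_dvd h2).resolve_left h1)
  have h4 : p ^ 3 ∣ S₀ * AA S₀ ρ₀ := by
    rw [mul_comm, hA]
    exact (pow_dvd_pow_of_dvd h3 3).mul_left _
  exact hcb p hp (hp.pow_dvd_of_dvd_mul_left 3 hpS h4)

/-- **the frequencies of the diagonal are cube-free** -/
theorem cbf_freq {M S₀ g₁ ν σ c₀ h u n : Eis} (hS : IsPrim S₀) (hg₁ : PrI M g₁) (hν : IsPrim ν)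
    (hσ : IsPrim σ) (hσS : SupB σ S₀) (hJ : JC (FF S₀ c₀ g₁ ν σ)) (hc₀ : c₀ ≠ 0)
    (hu : Squarefree u) (huc : IsCoprime u (S₀ * M * ν)) (hh : Squarefree h)
    (hhc : IsCoprime h (S₀ * M * ν * u)) (hn : Squarefree n) (hnc : IsCoprime n (S₀ * M * ν * u * h)) :
    CbF (PP S₀ g₁ ν σ * (h * (u * n))) := by
  have hF0 : FF S₀ c₀ g₁ ν σ ≠ 0 := E5b54.JC_ne_zero hJ
  have hP0 : PP S₀ g₁ ν σ ≠ 0 := by
    intro h0
    apply hF0
    rw [FF_eq, h0, mul_zero]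
  have hPp := PP_prim hS hg₁.1 hν hσ hP0
  have hPc : CbF (PP S₀ g₁ ν σ) := cbf_of_JC (c₀ := c₀) hPp (by rw [← FF_eq]; exact hJ)
  -- the primes of `PP`
  have hA0 : AA S₀ (bpt S₀ g₁ * σ * bpt S₀ ν ^ 2) ≠ 0 := fun h => hP0 (by
    unfold PP; rw [h, zero_mul])
  have hρ : IsPrim (bpt S₀ g₁ * σ * bpt S₀ ν ^ 2) :=
    ((bpt_prim hS hg₁.1).mul hσ).mul ((bpt_prim hS hν).pow 2)
  have hρS : SupB (bpt S₀ g₁ * σ * bpt S₀ ν ^ 2) S₀ := by
    intro p hp hd
    rcases hp.dvd_or_dvd hd with h1 | h1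
    · rcases hp.dvd_or_dvd h1 with h2 | h2
      · exact E4579.bpt_sup hS hg₁.1 p hp h2
      · exact hσS p hp h2
    · exact E4579.bpt_sup hS hν p hp (hp.dvd_of_dvd_pow h1)
  have hsup := sup_AA hS hρ hρS hA0
  have hPd : ∀ p, Prime p → p ∣ PP S₀ g₁ ν σ → p ∣ S₀ * M * ν := by
    intro p hp hd
    unfold PP at hd
    rcases hp.dvd_or_dvd hd with h1 | h1
    · exact ((hsup p hp h1).mul_right _).mul_right _
    · rcases hp.dvd_or_dvd h1 with h2 | h2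
      · have h3 : p ∣ g₁ := h2.trans (bco_dvd' hS hg₁.1)
        exact ((hg₁.2 p hp h3).mul_left _).mul_right _
      · have h3 : p ∣ ν := (hp.dvd_of_dvd_pow h2).trans (bco_dvd' hS hν)
        exact h3.mul_left _
  have hcopP : ∀ y, IsCoprime y (S₀ * M * ν) → IsCoprime (PP S₀ g₁ ν σ) y := by
    intro y hy
    refine isCoprime_of_prime_dvd (fun h' => hPp.ne_zero h'.1) fun p hp h1 h2 => ?_
    exact hp.not_isUnit (hy.isUnit_of_dvd' h2 (hPd p hp h1))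
  have hh' : IsCoprime h (S₀ * M * ν) := hhc.of_mul_right_left
  have hhu : IsCoprime h u := hhc.of_mul_right_right
  have hn' : IsCoprime n (S₀ * M * ν * u) := hnc.of_mul_right_left
  have hnh : IsCoprime n h := hnc.of_mul_right_right
  have hnS : IsCoprime n (S₀ * M * ν) := hn'.of_mul_right_left
  have hnu : IsCoprime n u := hn'.of_mul_right_right
  refine cbf_mul hPc ?_ ?_
  · refine (squarefree_mul_iff).mpr ⟨(hhu.mul_right hnh.symm).isRelPrime, hh,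
      (squarefree_mul_iff).mpr ⟨hnu.symm.isRelPrime, hu, hn⟩⟩
  · exact (hcopP _ hh').mul_right ((hcopP _ huc).mul_right (hcopP _ hnS))

end Crest.Agent.R017.E4X92
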