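import Crest.Agent.R017.E4ay_783

/-!
# Row 17, C70/E4, exceptional class over the outer non-cubes: many scales (helper372)

* `E4Ly_smul`, `E4Ly_scale`, `E4Ly_zero`, `E4Ly_scales`
* `HM5_scale` : homogeneity of the polar terms
* `Apym`, `apym_dict` : the application for the original weight with one switch per scale
-/

set_option autoImplicit false
set_option linter.unusedVariables false

noncomputable section

open Complex
open scoped ComplexConjugate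

namespace Crest.Agent.R017.E4ap783

open Crest.Agent.R012 Crest.Agent.R012.Eis Crest.Agent.R012.GaussLoc283
open Crest.Agent.R012.Mob705 hiding pb mem_pb
open Crest.Agent.R012.Div277
open Crest.Agent.R017.Sx545 (Sm)
open Crest.Agent.R017.C70 Crest.Agent.R017.GrB829
open Crest.Agent.R017.E2440
open Crest.Agent.R017.A590
open Crest.Agent.R017.B770 (SW)
open Crest.Agent.R017.C590
open Crest.Agent.R017.End699 (HC)
open Crest.Agent.R017.E4352 (PrI SSm XF Dat4 WT tws TwC rd)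
open Crest.Agent.R017.E4D164
open Crest.Agent.R017.E4v5
open Crest.Agent.R017.E4LC858
open Crest.Agent.R017.E4X266 (cmp NT_sub' E4core7y E4dir7y PrC Mq1 Mq0 rngDC rngFC)
open Crest.Agent.R017.E4J352 (Tm JB rngD rngF gx ez dirZf qa_ok sum_Tq QB dcyFin)

section

variable {M f : Eis} {O : Type} [Fintype O] {c : O → Eis} {lam : O → ℝ} {v w : O → Eis → ℂ}
  {X : ℝ}

lemma JBmx {O : Type} {M f : Eis} {lam : O → ℝ} {v w : O → Eis → ℂ} {G : Eis → ℂ}
    {r r' : Tm O → Prop} {S S' : ℝ} (h : JB M f lam v w G r S) (hr : ∀ t, r' t → r t)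
    (hS : S ≤ S') : JB M f lam v w G r' S' := fun c 𝒥 h𝒥 =>
  (h c 𝒥 fun t ht => ⟨(h𝒥 t ht).1, (h𝒥 t ht).2.1, (h𝒥 t ht).2.2.1, hr t (h𝒥 t ht).2.2.2⟩).trans hS

lemma E4Ly_smul (M f : Eis) (χ : Eis → ℂ) (l : ℤ) (a : ℂ) (V : ℝ → ℂ) (K : ℝ)
    (c : O → Eis) (lam : O → ℝ) (v w : O → Eis → ℂ) :
    E4Ly M f χ l (fun y => a * V y) K c lam v w = a * E4Ly M f χ l V K c lam v w := by
  unfold E4Ly
  rw [Finset.mul_sum]
  refine Finset.sum_congr rfl fun o _ => ?_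
  rw [← tsum_mul_left]
  refine tsum_congr fun x => ?_
  rw [mul_left_comm a (v o x)]
  refine congrArg (v o x * ·) ?_
  rw [← tsum_mul_left]
  refine tsum_congr fun y => ?_
  rw [mul_left_comm a (w o y)]
  refine congrArg (w o y * ·) ?_
  rw [← C590.NT_smul]
  refine congrArg _ ?_
  funext k
  split_ifs
  · rw [mul_zero]
  · ring

lemma E4Ly_scale (M f : Eis) (χ : Eis → ℂ) (l : ℤ) (V : ℝ → ℂ) (K : ℝ)
    (c : O → Eis) (lam : O → ℝ) (v w : O → Eis → ℂ) (s : ℝ) :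
    E4Ly M f χ l (fun y => V (y * Real.exp s)) K c lam v w =
      E4Ly M f χ l V (K * Real.exp (-s)) c lam v w := by
  unfold E4Ly
  have e : ∀ (k : Eis) (o : O), nm k * lam o / K * Real.exp s =
      nm k * lam o / (K * Real.exp (-s)) := by
    intro k o
    rw [Real.exp_neg, ← div_eq_mul_inv, div_div_eq_mul_div]
    ring
  simp only [e]

lemma E4Ly_zero (hD : Dat4 M f lam v w X) (χ : Eis → ℂ) (l : ℤ) {V : ℝ → ℂ}
    (hV : ∀ y, 1 < y → V y = 0) {K : ℝ} (hK : 0 < K) (hK1 : K < 1) :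
    E4Ly M f χ l V K c lam v w = 0 := by
  have e : ∀ o (u M' : Eis), NT M' u (cutc c χ l V K lam o) = 0 := by
    intro o u M'
    have e1 : NT M' u (cutc c χ l V K lam o) = NT M' u (fun _ => 0) := by
      refine C590.NT_congr (fun k hk => ?_) _
      refine cutc_zero hD hK one_pos (fun y hy => hV y (by simpa using hy)) o k ?_
      have h2 : (1 : ℝ) ≤ nm k := one_le_nm hk.1.ne_zero
      have h3 : 0 < lam o := by linarith [(hD.lam1 o).1]
      have h4 : K * 1⁻¹ / lam o ≤ K := by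
        rw [inv_one, mul_one]
        exact div_le_self (by positivity) (hD.lam1 o).1
      linarith
    rw [e1]
    unfold NT DS
    simp
  rw [E4Ly_cutc]
  refine Finset.sum_eq_zero fun o _ => ?_
  simp only [e o, mul_zero, tsum_zero]

/-- the scales -/
lemma E4Ly_scales (hD : Dat4 M f lam v w X) (χ : Eis → ℂ) (l : ℤ) {V : ℝ → ℂ}
    (hV : ∀ y, 1 < y → V y = 0) {K : ℝ} (hK : 0 < K) (J : ℕ) :
    E4Ly M f χ l V K c lam v w =
      ∑ j ∈ Finset.range J, ((Real.exp j : ℝ) : ℂ) *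
        E4Ly M f χ l (cmp V 1) (K * Real.exp (-(j : ℝ))) c lam v w +
      E4Ly M f χ l (fun y => ((Real.exp J : ℝ) : ℂ) * V (y * Real.exp J)) K c lam v w := by
  induction J with
  | zero => simp
  | succ J ih =>
    rw [ih, Finset.sum_range_succ, add_assoc]
    congr 1
    have hE := Real.exp_pos (J : ℝ)
    have hE1 : 1 ≤ Real.exp (J : ℝ) := Real.one_le_exp (Nat.cast_nonneg _)
    set W : ℝ → ℂ := fun y => ((Real.exp J : ℝ) : ℂ) * V (y * Real.exp J) with hW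
    have hW1 : ∀ y, 1 < y → W y = 0 := by
      intro y hy
      rw [hW]
      simp only
      rw [hV _ (by nlinarith), mul_zero]
    rw [E4Ly_split hD χ l hW1 hK zero_le_one]
    have e1 : cmp W 1 = fun y => ((Real.exp J : ℝ) : ℂ) * cmp V 1 (y * Real.exp J) := by
      funext y
      rw [hW]
      unfold E4X266.cmp
      simp only
      rw [mul_right_comm y]
      ring
    have e2 : (fun y => ((Real.exp 1 : ℝ) : ℂ) * W (y * Real.exp 1)) =
        fun y => ((Real.exp (J + 1 : ℕ) : ℝ) : ℂ) * V (y * Real.exp (J + 1 : ℕ)) := by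
      funext y
      rw [hW]
      simp only
      rw [Nat.cast_add, Nat.cast_one, Real.exp_add, Complex.ofReal_mul]
      rw [show y * Real.exp 1 * Real.exp J = y * (Real.exp J * Real.exp 1) by ring]
      ring
    rw [e1, e2, E4Ly_smul, E4Ly_scale]

/-- homogeneity of the polar terms -/
lemma HM5_scale (hD : Dat4 M f lam v w X) {K T₀ : ℝ} (hK : 0 < K) {m : Eis} {Mn s : ℝ}
    (H : HM5 M f lam v w K T₀ (mtr (some m)) Mn) :
    HM5 M f lam v w (K * Real.exp (-s)) T₀ (mtr (some m))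
      (Real.exp (-(4 / 3) * s) * Mn) := by
  intro R Z q₁ q₃ F h1 h2 h3 h4 h5 h6 h7 h8 h9 h10 h11
  have h12 := H R Z q₁ q₃ F h1 h2 h3 h4 h5 h6 h7 h8 h9 h10 h11
  have hE := Real.exp_pos (-s)
  have hEE : Real.exp (-s) ^ (4 / 3 : ℝ) = Real.exp (-(4 / 3) * s) := by
    rw [← Real.exp_mul]
    congr 1
    ring
  have e : ∑ o, ∑' x : Eis, tws R (q₁ * q₃) (fun x => conj (sy x q₁)) (v o) x *
          ∑' y : Eis, tws Z (q₁ * q₃) (fun y => conj (sy y q₁)) (w o) y *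
            mtr (some m) (F * x * y) (K * Real.exp (-s) / (lam o * nm (q₁ ^ 2 * q₃ ^ 3))) =
      ((Real.exp (-(4 / 3) * s) : ℝ) : ℂ) *
      ∑ o, ∑' x : Eis, tws R (q₁ * q₃) (fun x => conj (sy x q₁)) (v o) x *
          ∑' y : Eis, tws Z (q₁ * q₃) (fun y => conj (sy y q₁)) (w o) y *
            mtr (some m) (F * x * y) (K / (lam o * nm (q₁ ^ 2 * q₃ ^ 3))) := by
    rw [Finset.mul_sum]
    refine Finset.sum_congr rfl fun o _ => ?_
    have hl : 0 < lam o := by linarith [(hD.lam1 o).1]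
    rw [← tsum_mul_left]
    refine tsum_congr fun x => ?_
    rw [mul_left_comm (((Real.exp (-(4 / 3) * s) : ℝ) : ℂ))]
    congr 1
    rw [← tsum_mul_left]
    refine tsum_congr fun y => ?_
    rw [mul_left_comm (((Real.exp (-(4 / 3) * s) : ℝ) : ℂ))]
    congr 1
    unfold mtr
    have h0 : 0 ≤ K / (lam o * nm (q₁ ^ 2 * q₃ ^ 3)) := by positivity
    rw [show K * Real.exp (-s) / (lam o * nm (q₁ ^ 2 * q₃ ^ 3)) =
      Real.exp (-s) * (K / (lam o * nm (q₁ ^ 2 * q₃ ^ 3))) by ring,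
      Real.mul_rpow hE.le h0, hEE, Complex.ofReal_mul]
    ring
  rw [e, norm_mul, Complex.norm_real, Real.norm_of_nonneg (Real.exp_pos _).le]
  calc _ = Real.exp (-(4 / 3) * s) * (((nm q₁ : ℝ) ^ (5 / 2 : ℝ) * (nm q₃ : ℝ) ^ 4) *
        ‖∑ o, ∑' x : Eis, tws R (q₁ * q₃) (fun x => conj (sy x q₁)) (v o) x *
          ∑' y : Eis, tws Z (q₁ * q₃) (fun y => conj (sy y q₁)) (w o) y *
            mtr (some m) (F * x * y) (K / (lam o * nm (q₁ ^ 2 * q₃ ^ 3)))‖) := by ring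
    _ ≤ _ := mul_le_mul_of_nonneg_left h12 (Real.exp_pos _).le

/-- the principal numbers of the scale `s` -/
lemma MpY_scale (hD : Dat4 M f lam v w X) {K : ℝ} (hK : 0 < K) {s hf : ℝ} (hs : 0 ≤ s)
    (hsf : s ≤ hf) :
    Real.exp s * MpY f c lam v w (K * Real.exp (-s)) 1 ≤
      Real.exp (1 / 3) * MpY f c lam v w K hf := by
  have hl : ∀ o, 0 < lam o := fun o => by linarith [(hD.lam1 o).1]
  have hq1 : ∀ o, 0 ≤ Mq1 (c o) f (v o) (w o) := fun o => mq1_nonneg _ _ _ _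
  have hq0 : ∀ o, 0 ≤ Mq0 (c o) f (v o) (w o) := fun o => mq0_nonneg _ _ _ _
  have e1 : ∀ (o : O) (p : ℝ), (K * Real.exp (-s) / lam o) ^ p =
      Real.exp (-(p * s)) * (K / lam o) ^ p := by
    intro o p
    have h0 : 0 ≤ K / lam o := div_nonneg hK.le (hl o).le
    rw [show K * Real.exp (-s) / lam o = Real.exp (-s) * (K / lam o) by ring,
      Real.mul_rpow (Real.exp_pos _).le h0, ← Real.exp_mul]
    congr 2
    ring
  unfold MpY
  simp only [e1]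
  set A := ∑ o, (K / lam o) ^ (4 / 3 : ℝ) * Mq1 (c o) f (v o) (w o) with hA
  set B := ∑ o, (K / lam o) ^ (2 / 3 : ℝ) * Mq0 (c o) f (v o) (w o) with hB
  have hA0 : 0 ≤ A := Finset.sum_nonneg fun o _ =>
    mul_nonneg (Real.rpow_nonneg (div_nonneg hK.le (hl o).le) _) (hq1 o)
  have hB0 : 0 ≤ B := Finset.sum_nonneg fun o _ =>
    mul_nonneg (Real.rpow_nonneg (div_nonneg hK.le (hl o).le) _) (hq0 o)
  have e2 : ∑ o, Real.exp (-(4 / 3 * s)) * (K / lam o) ^ (4 / 3 : ℝ) * Mq1 (c o) f (v o) (w o) =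
      Real.exp (-(4 / 3 * s)) * A := by
    rw [hA, Finset.mul_sum]
    exact Finset.sum_congr rfl fun o _ => by ring
  have e3 : ∑ o, Real.exp (-(2 / 3 * s)) * (K / lam o) ^ (2 / 3 : ℝ) * Mq0 (c o) f (v o) (w o) =
      Real.exp (-(2 / 3 * s)) * B := by
    rw [hB, Finset.mul_sum]
    exact Finset.sum_congr rfl fun o _ => by ring
  rw [e2, e3]
  have i1 : Real.exp s * Real.exp (-(4 / 3 * s)) ≤ Real.exp (1 / 3) := by
    rw [← Real.exp_add]
    exact Real.exp_le_exp.mpr (by linarith)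
  have i2 : Real.exp s * (Real.exp (1 / 3) * Real.exp (-(2 / 3 * s))) ≤
      Real.exp (1 / 3) * Real.exp (hf / 3) := by
    rw [← Real.exp_add, ← Real.exp_add, ← Real.exp_add]
    exact Real.exp_le_exp.mpr (by linarith)
  calc Real.exp s * (Real.exp (-(4 / 3 * s)) * A +
        Real.exp (1 / 3) * (Real.exp (-(2 / 3 * s)) * B)) =
      (Real.exp s * Real.exp (-(4 / 3 * s))) * A +
        (Real.exp s * (Real.exp (1 / 3) * Real.exp (-(2 / 3 * s)))) * B := by ring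
    _ ≤ Real.exp (1 / 3) * A + (Real.exp (1 / 3) * Real.exp (hf / 3)) * B := by gcongr
    _ = _ := by ring

end

open Classical in
/-- the conclusion for one character and the original weight, one switch per scale -/
def Apym (M : Eis) (χ : Eis → ℂ) (T : Finset ((Eis → ℂ) × ℤ)) (P : Finset Eis) (V : ℝ → ℂ)
    (ε A C J : ℝ) : Prop :=
  ∀ (τ hf : ℝ) (f : Eis) (O : Type) (_ : Fintype O) (c : O → Eis) (lam : O → ℝ)
    (v w : O → Eis → ℂ) (X K U : ℝ) (S Mn : ℝ),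
    Dat4 M f lam v w X → (∀ o, IsPrim (c o)) → (∀ o y, w o y ≠ 0 → IsCoprime (c o) (f * y)) →
    0 ≤ hf → Real.exp hf ≤ X → Real.exp 1 ≤ X → 1 ≤ K → K ≤ X → 0 < U → U ≤ X → 0 ≤ S →
    0 ≤ Mn → (∀ o x y, v o x ≠ 0 → w o y ≠ 0 → (nm (f * x * y) : ℝ) * lam o ^ 2 ≤ U) →
    (1 ≤ K * Real.exp (-hf) → JB M f lam v w (fun _ => 1)
      (rngDC c (fun _ _ _ _ _ => False) lam (K * Real.exp (-hf))) S) →
    (∀ s : ℝ, 0 ≤ s → s < hf →
      ∃ (sw : Eis → Eis → Eis → Eis → Eis → Prop) (T₀ : ℝ), 0 ≤ T₀ ∧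
        (∀ D0 D1 B R Z : Eis, sw D0 D1 B R Z → (nm D1 : ℝ) * nm (rd Z) ≤ 2 * T₀) ∧
        JB M f lam v w (fun _ => 1) (rngDC c sw lam (K * Real.exp (-s))) S ∧
        ∀ t ∈ T, ∀ ξ, JB M f lam v w (gx t.1 t.2 ξ)
          (rngFC c sw lam (Real.exp 1 * (U / (K * Real.exp (-s))) * X ^ ε))
          ((1 + |ξ|) ^ A * S)) →
    (0 < hf → ∀ m ∈ P, ∀ T₀ : ℝ, 0 ≤ T₀ → HM5 M f lam v w K T₀ (mtr (some m)) Mn) →
    ‖E4Ly M f χ 0 (fun y => (y : ℂ) ^ (I * τ) * V y) K c lam v w‖ ≤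
      C * X ^ ε * (1 + |τ|) ^ J * (K * S + X ^ (-A) + Mn +
        if 0 < hf then MpY f c lam v w K hf else 0)

lemma apym_of {M : Eis} {χ : Eis → ℂ} (hχ : ∀ k, Sm M k → ‖End699.tw χ 0 k‖ ≤ 1)
    {T : Finset ((Eis → ℂ) × ℤ)} {P : Finset Eis} {V : ℝ → ℂ} (hV : SW V)
    (hV1 : ∀ y, 1 < y → V y = 0) {B : ℝ} (hB0 : 0 ≤ B) (hB : ∀ y, ‖V y‖ ≤ B)
    {ε A C J : ℝ} (hε : 0 < ε) (hA : 0 ≤ A) (hC : 0 ≤ C) (hJ : 0 ≤ J) {C2 : ℝ} (hC2 : 0 ≤ C2)
    (H2 : ∀ (M f : Eis) (χ : Eis → ℂ) (l : ℤ) (V : ℝ → ℂ) (O : Type) (_ : Fintype O) (c : O → Eis)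
      (lam : O → ℝ) (v w : O → Eis → ℂ) (X K B h S : ℝ), Dat4 M f lam v w X →
      1 ≤ K → K ≤ X → 0 ≤ B → 0 ≤ h → 0 ≤ S → (∀ k, Sm M k → ‖End699.tw χ l k‖ ≤ 1) →
      (∀ y, ‖V y‖ ≤ B) → (∀ y, 1 < y → V y = 0) →
      (1 ≤ K * Real.exp (-h) → JB M f lam v w (fun _ => 1)
        (rngDC c (fun _ _ _ _ _ => False) lam (K * Real.exp (-h))) S) →
      ‖E4Ly M f χ l (fun y => ((Real.exp h : ℝ) : ℂ) * V (y * Real.exp h)) K c lam v w‖ ≤
        C2 * X ^ ε * (B * (K * S))) (H : Apy M χ T P V (ε / 2) (A + 3) C J)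
    {C3 : ℝ} (hC3 : 0 ≤ C3) (hlog : ∀ X : ℝ, 1 ≤ X → Real.log X + 1 ≤ C3 * X ^ (ε / 2)) :
    Apym M χ T P V ε A (C * C3 * Real.exp 1 + C2 * B) J := by
  classical
  intro τ hf f O _ c lam v w X K U S Mn hD c1 c2 g1 g2 g3 h1 h2 h3 h4 h5 h6 h7 h8 h9 h10
  have hX1 := hD.X1
  have hX0 : 0 < X := by linarith
  have hK : 0 < K := by linarith
  have hW1 : ∀ y : ℝ, 1 < y → (y : ℂ) ^ (I * τ) * V y = 0 := fun y hy => by rw [hV1 y hy, mul_zero]
  set N : ℕ := ⌈hf⌉₊ with hN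
  have hN1 : hf ≤ N := Nat.le_ceil _
  have hN2 : (N : ℝ) < hf + 1 := Nat.ceil_lt_add_one g1
  have hlogX : hf ≤ Real.log X := by
    rw [← Real.log_exp hf]
    exact Real.log_le_log (Real.exp_pos _) g2
  have hNC : (N : ℝ) ≤ C3 * X ^ (ε / 2) := by
    have := hlog X hX1
    linarith
  have h15 : 1 ≤ (1 + |τ|) ^ J := Real.one_le_rpow (by linarith [abs_nonneg τ]) hJ
  have hMp0 : 0 ≤ (if 0 < hf then MpY f c lam v w K hf else 0) := by
    split_ifs
    · exact mpY_nonneg hD h1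
    · exact le_rfl
  -- the last scale
  have k2 := H2 M f χ 0 (fun y => (y : ℂ) ^ (I * τ) * V y) O _ c lam v w X K B N S hD h1 h2
    hB0 (Nat.cast_nonneg _) h5 hχ (fun y => norm_tau hV hB τ y) hW1 (fun h => by
      have hle : K * Real.exp (-(N : ℝ)) ≤ K * Real.exp (-hf) :=
        mul_le_mul_of_nonneg_left (Real.exp_le_exp.mpr (by linarith)) hK.le
      exact JBmx (h8 (h.trans hle)) (fun t ht => ⟨⟨ht.1.1, ht.1.2.trans hle⟩, ht.2⟩) le_rfl)
  -- one scale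
  have k1 : ∀ j ∈ Finset.range N, ‖((Real.exp j : ℝ) : ℂ) * E4Ly M f χ 0
      (cmp (fun y => (y : ℂ) ^ (I * τ) * V y) 1) (K * Real.exp (-(j : ℝ))) c lam v w‖ ≤
      C * X ^ (ε / 2) * (1 + |τ|) ^ J * (Real.exp 1 * (K * S + X ^ (-A) + Mn +
        if 0 < hf then MpY f c lam v w K hf else 0)) := by
    intro j hj
    have hj1 : (j : ℝ) < hf := Nat.lt_ceil.mp (Finset.mem_range.mp hj)
    have hhf : 0 < hf := lt_of_le_of_lt (Nat.cast_nonneg _) hj1
    have hj0 : (0 : ℝ) ≤ j := Nat.cast_nonneg _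
    have hEj := Real.exp_pos (j : ℝ)
    have hEj1 : Real.exp (j : ℝ) ≤ X := (Real.exp_le_exp.mpr hj1.le).trans g2
    have hpos : 0 ≤ C * X ^ (ε / 2) * (1 + |τ|) ^ J * (Real.exp 1 * (K * S + X ^ (-A) + Mn +
        if 0 < hf then MpY f c lam v w K hf else 0)) := by
      have := abs_nonneg τ
      positivity
    rcases lt_or_ge (K * Real.exp (-(j : ℝ))) 1 with hK1 | hK1
    · rw [E4Ly_zero hD χ 0 (fun y hy => ?_) (by positivity) hK1, mul_zero, norm_zero]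
      · exact hpos
      · unfold E4X266.cmp
        have he1 : 1 ≤ Real.exp 1 := Real.one_le_exp zero_le_one
        have q1 := hW1 y hy
        have q2 := hW1 (y * Real.exp 1) (by nlinarith)
        simp only
        rw [q1, q2, mul_zero, sub_zero]
    · obtain ⟨sw, T₀, hT0, hsw, hJd, hJf⟩ := h9 j hj0 hj1
      have hKj : K * Real.exp (-(j : ℝ)) ≤ X := by
        refine le_trans (mul_le_of_le_one_right hK.le ?_) h2
        exact Real.exp_le_one_iff.mpr (by linarith)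
      have hXA : X ^ (ε / 2) ≤ X ^ ε := Real.rpow_le_rpow_of_exponent_le hX1 (by linarith)
      have hMj : 0 ≤ Real.exp (-(4 / 3) * (j : ℝ)) * Mn := by positivity
      have key := H τ 1 f O _ c lam v w X (K * Real.exp (-(j : ℝ))) U T₀ S
        (Real.exp (-(4 / 3) * (j : ℝ)) * Mn) sw hD c1 c2 zero_le_one ?_ hK1 hKj h3 h4 h5 hMj h7
        hsw hJd (fun t ht ξ => ?_) (fun m hm => HM5_scale hD hK (h10 hhf m hm T₀ hT0))
      · rw [norm_mul, Complex.norm_real, Real.norm_of_nonneg hEj.le]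
        have hM0 : 0 ≤ MpY f c lam v w (K * Real.exp (-(j : ℝ))) 1 := mpY_nonneg hD hK1
        have a1 : Real.exp (j : ℝ) * (K * Real.exp (-(j : ℝ)) * S) = K * S := by
          rw [Real.exp_neg]
          field_simp
        have a2 : Real.exp (j : ℝ) * X ^ (-(A + 3)) ≤ X ^ (-A) := by
          calc Real.exp (j : ℝ) * X ^ (-(A + 3)) ≤ X ^ (1 : ℝ) * X ^ (-(A + 3)) := by
                rw [Real.rpow_one]
                exact mul_le_mul_of_nonneg_right hEj1 (by positivity)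
            _ = X ^ (1 + -(A + 3)) := (Real.rpow_add hX0 _ _).symm
            _ ≤ X ^ (-A) := Real.rpow_le_rpow_of_exponent_le hX1 (by linarith)
        have a3 : Real.exp (j : ℝ) * (Real.exp (-(4 / 3) * (j : ℝ)) * Mn) ≤ Mn := by
          rw [← mul_assoc, ← Real.exp_add]
          exact mul_le_of_le_one_left h6 (Real.exp_le_one_iff.mpr (by linarith))
        have a4 := MpY_scale (c := c) hD hK hj0 hj1.le
        have e13 : Real.exp (1 / 3) ≤ Real.exp 1 := Real.exp_le_exp.mpr (by norm_num)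
        have hM1 : 0 ≤ MpY f c lam v w K hf := mpY_nonneg hD h1
        have e0 : 1 ≤ Real.exp 1 := Real.one_le_exp zero_le_one
        have a5 : Real.exp (j : ℝ) * (K * Real.exp (-(j : ℝ)) * S + X ^ (-(A + 3)) +
            Real.exp (-(4 / 3) * (j : ℝ)) * Mn + MpY f c lam v w (K * Real.exp (-(j : ℝ))) 1) ≤
            Real.exp 1 * (K * S + X ^ (-A) + Mn + MpY f c lam v w K hf) := by
          have b1 : 0 ≤ K * S + X ^ (-A) + Mn := by positivity
          have b2 : K * S + X ^ (-A) + Mn ≤ Real.exp 1 * (K * S + X ^ (-A) + Mn) :=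
            le_mul_of_one_le_left b1 e0
          have b3 : Real.exp (1 / 3) * MpY f c lam v w K hf ≤
              Real.exp 1 * MpY f c lam v w K hf := mul_le_mul_of_nonneg_right e13 hM1
          calc _ = Real.exp (j : ℝ) * (K * Real.exp (-(j : ℝ)) * S) +
                Real.exp (j : ℝ) * X ^ (-(A + 3)) +
                Real.exp (j : ℝ) * (Real.exp (-(4 / 3) * (j : ℝ)) * Mn) +
                Real.exp (j : ℝ) * MpY f c lam v w (K * Real.exp (-(j : ℝ))) 1 := by ring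
            _ ≤ _ := by linarith
        rw [if_pos hhf]
        calc Real.exp (j : ℝ) * _ ≤ Real.exp (j : ℝ) * (C * X ^ (ε / 2) * (1 + |τ|) ^ J *
              (K * Real.exp (-(j : ℝ)) * S + X ^ (-(A + 3)) +
            Real.exp (-(4 / 3) * (j : ℝ)) * Mn + MpY f c lam v w (K * Real.exp (-(j : ℝ))) 1)) :=
              mul_le_mul_of_nonneg_left key hEj.le
          _ = C * X ^ (ε / 2) * (1 + |τ|) ^ J * (Real.exp (j : ℝ) *
              (K * Real.exp (-(j : ℝ)) * S + X ^ (-(A + 3)) +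
            Real.exp (-(4 / 3) * (j : ℝ)) * Mn +
              MpY f c lam v w (K * Real.exp (-(j : ℝ))) 1)) := by ring
          _ ≤ _ := mul_le_mul_of_nonneg_left a5 (by have := abs_nonneg τ; positivity)
      · exact g3
      · refine JBmx (hJf t ht ξ) (fun t ht => ⟨⟨ht.1.1, ht.1.2.trans ?_⟩, ht.2⟩) ?_
        · gcongr
        · have hx1 : (1 : ℝ) ≤ 1 + |ξ| := by linarith [abs_nonneg ξ]
          exact mul_le_mul_of_nonneg_right
            (Real.rpow_le_rpow_of_exponent_le hx1 (by linarith)) h5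
  rw [E4Ly_scales hD χ 0 hW1 hK N]
  refine (norm_add_le _ _).trans ?_
  refine (add_le_add ((norm_sum_le _ _).trans (Finset.sum_le_sum k1)) k2).trans ?_
  rw [Finset.sum_const, Finset.card_range, nsmul_eq_mul]
  have hτ := abs_nonneg τ
  set Q : ℝ := K * S + X ^ (-A) + Mn + if 0 < hf then MpY f c lam v w K hf else 0 with hQ
  have hQ0 : 0 ≤ Q := by positivity
  have hKS : K * S ≤ Q := by
    have : 0 ≤ X ^ (-A) := by positivity
    rw [hQ]
    linarith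
  have hXX : X ^ (ε / 2) * X ^ (ε / 2) = X ^ ε := by
    rw [← Real.rpow_add hX0]
    congr 1
    ring
  have i1 : (N : ℝ) * (C * X ^ (ε / 2) * (1 + |τ|) ^ J * (Real.exp 1 * Q)) ≤
      (C * C3 * Real.exp 1) * X ^ ε * (1 + |τ|) ^ J * Q := by
    calc (N : ℝ) * (C * X ^ (ε / 2) * (1 + |τ|) ^ J * (Real.exp 1 * Q)) ≤
        (C3 * X ^ (ε / 2)) * (C * X ^ (ε / 2) * (1 + |τ|) ^ J * (Real.exp 1 * Q)) :=
          mul_le_mul_of_nonneg_right hNC (by positivity)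
      _ = (C * C3 * Real.exp 1) * (X ^ (ε / 2) * X ^ (ε / 2)) * (1 + |τ|) ^ J * Q := by ring
      _ = _ := by rw [hXX]
  have i2 : C2 * X ^ ε * (B * (K * S)) ≤ (C2 * B) * X ^ ε * (1 + |τ|) ^ J * Q := by
    calc C2 * X ^ ε * (B * (K * S)) = (C2 * B) * X ^ ε * 1 * (K * S) := by ring
      _ ≤ _ := by gcongr
  calc _ ≤ _ := add_le_add i1 i2
    _ = _ := by ring

lemma log_le {ε : ℝ} (hε : 0 < ε) : ∃ C3 : ℝ, 0 ≤ C3 ∧ ∀ X : ℝ, 1 ≤ X →
    Real.log X + 1 ≤ C3 * X ^ ε := by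
  refine ⟨1 / ε + 1, by positivity, fun X hX => ?_⟩
  have h1 : Real.log X ≤ X ^ ε / ε := Real.log_le_rpow_div (by linarith) hε
  have h2 : 1 ≤ X ^ ε := Real.one_le_rpow hX hε.le
  calc Real.log X + 1 ≤ X ^ ε / ε + X ^ ε := add_le_add h1 h2
    _ = _ := by ring

/-- **the application, many scales** : all characters `χ = conj ψ (c h / ·)` -/
theorem apym_all (H7 : E4core7y) {M : Eis} {ψ : Eis → ℂ} (hψ : HC M ψ)
    (hcs : ∃ m₀, PrI M m₀ ∧ ∀ b, Sm M b → conj (ψ b) = sy m₀ b) :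
    ∃ (T : Finset ((Eis → ℂ) × ℤ)) (P : Finset Eis), (∀ t ∈ T, TG7 M 0 t) ∧
      (∀ m ∈ P, PG M 0 m) ∧
      ∀ V : ℝ → ℂ, SW V → (∀ y, 1 < y → V y = 0) → ∀ ε A : ℝ, 0 < ε → 0 ≤ A →
        ∃ C J : ℝ, 0 ≤ C ∧ 0 ≤ J ∧ ∀ (χ : Eis → ℂ) (c h : Eis), IsC c → PrI M h →
          (∀ b, Sm M b → χ b = conj (ψ b) * (sy c b * sy h b)) → Apym M χ T P V ε A C J := by
  obtain ⟨T, P, h1, h2, H⟩ := apy_all H7 hψ hcs
  refine ⟨T, P, h1, h2, fun V hV hV1 ε A hε hA => ?_⟩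
  obtain ⟨C, J, hC0, hJ0, H1⟩ := H V hV hV1 (ε / 2) (A + 3) (by linarith) (by linarith)
  obtain ⟨C2, hC2, H2⟩ := second hε
  obtain ⟨C3, hC3, H3⟩ := log_le (half_pos hε)
  obtain ⟨B, hB0, hB⟩ := bdd_sw hV
  refine ⟨C * C3 * Real.exp 1 + C2 * B, J, by positivity, hJ0, fun χ c h hc hh hχ => ?_⟩
  refine apym_of (fun k hk => ?_) hV hV1 hB0 hB hε hA hC0 hJ0 hC2 H2 (H1 χ c h hc hh hχ) hC3 H3
  have a1 : ‖End699.tw ψ 0 k‖ ≤ 1 := A590.norm_tw_le' hψ 0 hk.1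
  have a2 : ‖sy c k‖ ≤ 1 := E2440.norm_sy_le1 hk.1
  have a3 : ‖sy h k‖ ≤ 1 := E2440.norm_sy_le1 hk.1
  unfold End699.tw at a1 ⊢
  rw [norm_mul] at a1
  rw [hχ k hk, norm_mul, norm_mul, norm_mul, RCLike.norm_conj]
  calc ‖ψ k‖ * (‖sy c k‖ * ‖sy h k‖) * ‖ang 0 k‖ = (‖ψ k‖ * ‖ang 0 k‖) * (‖sy c k‖ * ‖sy h k‖) := by
        ring
    _ ≤ 1 * (1 * 1) := by gcongr
    _ = 1 := by norm_num

/-- **the application, many scales, in the form of the dictionary** -/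
theorem apym_dict (H7 : E4core7y) {M : Eis} {ψ : Eis → ℂ} (hψ : HC M ψ)
    (hcs : ∃ m₀, PrI M m₀ ∧ ∀ b, Sm M b → conj (ψ b) = sy m₀ b) :
    ∃ (T : Finset ((Eis → ℂ) × ℤ)) (P : Finset Eis), (∀ t ∈ T, TG7 M 0 t) ∧
      (∀ m ∈ P, PG M 0 m) ∧
      ∀ V : ℝ → ℂ, SW V → (∀ y, 1 < y → V y = 0) → ∀ ε A : ℝ, 0 < ε → 0 ≤ A →
        ∃ C J : ℝ, 0 ≤ C ∧ 0 ≤ J ∧ ∀ E c₀ g z : Eis, IsPrim E → IsC c₀ → PrI M g → PrI M z →
          Apym M (psd (psE M ψ E) (c₀ * g * z)) T P V ε A C J := by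
  obtain ⟨T, P, h1, h2, H⟩ := apym_all H7 hψ hcs
  refine ⟨T, P, h1, h2, fun V hV hV1 ε A hε hA => ?_⟩
  obtain ⟨C, J, hC0, hJ0, H1⟩ := H V hV hV1 ε A hε hA
  refine ⟨C, J, hC0, hJ0, fun E c₀ g z hE hc hg hz => ?_⟩
  obtain ⟨h3, h4⟩ := psd_eq (c := c₀) (ψ := ψ) hψ.q0 hE hg hz
  exact H1 _ c₀ _ hc h3 h4

end Crest.Agent.R017.E4ap783
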