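import Crest.Agent.R017.E4Xf_372
import Crest.Agent.R017.E4az_372
import Crest.Agent.R017.E4Uh_164

/-!
# Row 17, exceptional class, StrUX, consumer of E4 : preliminaries (helper164)

* `E4Ly_smul`, `E4Ly_empty`, `mpY_scale`, `midX_caseD`, `JBm`
* `elf_le` : `ELf` of one summand from the nonempty classes
* `termX_le` : one class, from the many-scale application `Apym`
-/

set_option autoImplicit false

noncomputable section

open Finset Complex Filter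
open scoped ComplexConjugate ContDiff

namespace Crest.Agent.R017.E4X164

open Crest.Agent.R012 Crest.Agent.R012.Eis
open Crest.Agent.R012.Mob705 hiding pb mem_pb
open Crest.Agent.R012.LS2 (S mem_S)
open Crest.Agent.R017.Sx545 (Sm)
open Crest.Agent.R017.CM106 (FS)
open Crest.Agent.R017.C70 (OKJ)
open Crest.Agent.R017.E2440
open Crest.Agent.R017.End699 (HC)
open Crest.Agent.R017.E4352 (PrI rd Dat4 SSm)
open Crest.Agent.R017.E5k54 (PT alb)
open Crest.Agent.R017.E5P571 (MS Gd mem_Gd PC BB)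
open Crest.Agent.R017.DgA829 (lc lc_prim lc_dvd)
open Crest.Agent.R017.SSb54 (PTb mem_PTb PTb_sub)
open Crest.Agent.R017.E5B71
open Crest.Agent.R017.B770
open Crest.Agent.R017.FE47 (SM)
open Crest.Agent.R017.Prov71
open Crest.Agent.R017.E5L770
open Crest.Agent.R017.E5LX770 (SfEV SfE)
open Crest.Agent.R017.ExP960 hiding alX
open Crest.Agent.R017.E4D164 hiding E4L
open Crest.Agent.R017.E4v5 (HM5)
open Crest.Agent.R017.E4J352 (Tm JB rngD rngF gx)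
open Crest.Agent.R017.E4X266 (rngDC rngFC Mq1 Mq0)
open Crest.Agent.R017.E4ap783 (Cs PG mtr TG7 E4Ly MpY Apym mq1_nonneg mq0_nonneg)
open Crest.Agent.R017.E4U164 hiding E4L_smul
open Crest.Agent.R017.E4Df372

variable {Λ : Type*}

lemma E4Ly_smul (M f : Eis) (χ : Eis → ℂ) (l : ℤ) (a : ℂ) (V : ℝ → ℂ) (K : ℝ) {O : Type}
    [Fintype O] (c : O → Eis) (lam : O → ℝ) (v w : O → Eis → ℂ) :
    E4Ly M f χ l (fun y => a * V y) K c lam v w = a * E4Ly M f χ l V K c lam v w := by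
  unfold E4Ly
  rw [mul_sum]
  refine sum_congr rfl fun o _ => ?_
  rw [← tsum_mul_left]
  refine tsum_congr fun x => ?_
  rw [mul_left_comm a (v o x)]
  refine congrArg (v o x * ·) ?_
  rw [← tsum_mul_left]
  refine tsum_congr fun y => ?_
  rw [mul_left_comm a (w o y)]
  refine congrArg (w o y * ·) ?_
  rw [← NT_smul]
  refine congrArg _ ?_
  funext k
  split_ifs
  · rw [mul_zero]
  · ring

/-- no pair -/
lemma E4Ly_zero {M f : Eis} {χ : Eis → ℂ} {l : ℤ} {V : ℝ → ℂ} {K : ℝ} {O : Type}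
    [Fintype O] {c : O → Eis} {lam : O → ℝ} {v w : O → Eis → ℂ}
    (h : ∀ o x y, v o x ≠ 0 → w o y = 0) : E4Ly M f χ l V K c lam v w = 0 := by
  unfold E4Ly
  refine sum_eq_zero fun o _ => ?_
  refine (tsum_congr fun x => ?_).trans tsum_zero
  by_cases hx : v o x = 0
  · rw [hx, zero_mul]
  · rw [tsum_congr fun y => by rw [h o x y hx, zero_mul], tsum_zero, mul_zero]

/-- the masses at the scale `R K` -/
lemma mpY_scale {f : Eis} {O : Type} [Fintype O] {c : O → Eis} {lam : O → ℝ}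
    {v w : O → Eis → ℂ} {R K h : ℝ} (hR : 1 ≤ R) (hK : 0 ≤ K) (hl : ∀ o, 0 ≤ lam o) :
    MpY f c lam v w (R * K) h ≤ R ^ (4 / 3 : ℝ) * MpY f c lam v w K h := by
  have hR0 : 0 ≤ R := by linarith
  unfold MpY
  rw [mul_add]
  refine add_le_add (le_of_eq ?_) ?_
  · rw [mul_sum]
    refine sum_congr rfl fun o _ => ?_
    rw [mul_div_assoc, Real.mul_rpow hR0 (div_nonneg hK (hl o)), mul_assoc]
  · rw [mul_left_comm]
    refine mul_le_mul_of_nonneg_left ?_ (Real.exp_pos _).le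
    rw [mul_sum]
    refine sum_le_sum fun o _ => ?_
    rw [mul_div_assoc, Real.mul_rpow hR0 (div_nonneg hK (hl o)), mul_assoc]
    refine mul_le_mul_of_nonneg_right (Real.rpow_le_rpow_of_exponent_le hR (by norm_num)) ?_
    exact mul_nonneg (Real.rpow_nonneg (div_nonneg hK (hl o)) _) (mq0_nonneg _ _ _ _)

lemma midX_caseD {π : Λ → DPar} {h : ℝ → ℝ} {Sf : SFX Λ} {lam : Λ × Eis}
    (hD : (π lam.1).CaseD) (a : BdX) (ps : List Pq) : MidX π h Sf lam a ps = 0 := by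
  unfold MidX
  split_ifs with hc
  · refine sum_eq_zero fun q _ => sum_eq_zero fun g _ => ?_
    have h1 : ∀ k, Wt (π lam.1) a.toBd k = 0 := by
      intro k
      unfold Wt SU770.DPar.wp
      have h2 : (π lam.1).U = fun _ => 0 := hD
      rw [h2, mul_zero]
    unfold MS
    rw [norm_eq_zero]
    refine (tsum_congr fun k => ?_).trans tsum_zero
    rw [h1 k, zero_mul, zero_mul, ite_self]
  · rfl

lemma frLX_mono {A d β δ δ' δ₁ δ₁' B X : ℝ} {N : ℕ} {a : BdX × ℕ} {ps : List Pq}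
    {q : (Option IX5 → ℝ) × (Kd → ℝ)} (h : FrLX A d β δ δ' B X N a ps q) (hX : 1 ≤ X)
    (h1 : δ ≤ δ₁) (h2 : δ' ≤ δ₁') : FrLX A d β δ₁ δ₁' B X N a ps q where
  len := h.len
  lum p hp := (h.lum p hp).imp_right fun h3 => h3.trans h1
  dom := h.dom
  win := h.win.mono hX h1 le_rfl le_rfl h2
  mass t := (h.mass t).trans h1
  good := XG702.Good_mono hX h.good h2
  al := h.al
  lvl := h.lvl
  low := h.low

open Classical in
/-- **`ELf` of one summand from the nonempty classes** -/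
theorem elf_le {π : Λ → DPar} {h : ℝ → ℝ} {lam : Λ × Eis} (hP : (π lam.1).OK)
    {Jf : ℝ → ℝ → ℝ → Finset (Eis × Eis)} (hJf : ∀ l N z, OKJ (Jf l N z)) {a : BdX × ℕ}
    {ps : List Pq} {R : ℝ} {g : Eis} {β : Fin 3 → Eis} {e₀ t c₀ g' z : Eis} (ph : Eis → ℂ)
    (hs : ∀ q ∈ QK a.1.toBd (R * Real.exp a.1.l), IsPrim (sS g e₀ t q))
    (hE : fN (π lam.1).n₃ (a.1.e * ∏ i, β i) ≠ 0) (hg : PrI (π lam.1).n₃ g') {Nc : ℕ}
    (hN : ∀ q ∈ QK a.1.toBd (R * Real.exp a.1.l), nm (sS g e₀ t q) < 2 ^ Nc) (j : Fin 2)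
    (h₁ : FS (b1 (π lam.1) h lam.2 ps)) (h₂ : FS (b2X (π lam.1) h lam.2 a.1 ps j)) {Bb : ℝ}
    (hBb : 0 ≤ Bb)
    (H : ∀ m : Fin 2 → Fin 3 → ℕ, ∀ x : Dt,
      x = ⟨g, β, e₀, t, c₀, g', z, QK a.1.toBd (R * Real.exp a.1.l), ph, m⟩ →
      (x.I Jf (bl a)).Nonempty →
      ‖E4Ly (π lam.1).n₃ 1
        (psd (psE (π lam.1).n₃ (fun k => conj ((π lam.1).χ₃ k)) (x.E a.1.toBd))
        (x.c₀ * x.g' * x.z)) (-(π lam.1).l₃)
        (V1 (Vt (π lam.1).U a.1.τ R (R * Real.exp a.1.l))) (R * Real.exp a.1.l)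
        (O := x.O π lam Jf (bl a)) cD lD (vE π h lam Jf a x)
        (wE π h lam Jf a ps x j h₁ h₂)‖ ≤ Bb) :
    ‖ELf (π lam.1).n₃ (fun k => conj ((π lam.1).χ₃ k)) (π lam.1).l₃
      (PhF (fun k => ∃ w : Eis, k = w ^ 3)
        (Vt (π lam.1).U a.1.τ R (R * Real.exp a.1.l)) (R * Real.exp a.1.l))
      (R * Real.exp a.1.l) (QK a.1.toBd (R * Real.exp a.1.l)) (fun q => q ^ 2 * g) ph
      (J3 Jf a.1.toBd a.2) (fun e x => omL a.2 x * TE (alX (π lam.1) h lam.2 a.1 β) x e)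
      (b1 (π lam.1) h lam.2 ps) (b2X (π lam.1) h lam.2 a.1 ps j)
      (h₁.fin.toFinset ×ˢ h₂.fin.toFinset) (a.1.e * ∏ i, β i) e₀ t c₀ g' z‖ ≤
      (Nc : ℝ) ^ 6 * Bb := by
  rw [ELf_split hP.χ₃.q0 _ _ _ _ hs ph (okJ3 hJf a.1.toBd a.2) (omL a.2) _ _ _ hE _ hg hN]
  refine (norm_sum_le _ _).trans ?_
  have h3 : ∀ m ∈ Kl Nc, ‖E4Ly (π lam.1).n₃ 1
      (psd (psE (π lam.1).n₃ (fun k => conj ((π lam.1).χ₃ k)) (a.1.e * ∏ i, β i))
        (c₀ * g' * z)) (-(π lam.1).l₃)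
      (V1 (Vt (π lam.1).U a.1.τ R (R * Real.exp a.1.l))) (R * Real.exp a.1.l)
      (O := OD (π lam.1).n₃ (In (QK a.1.toBd (R * Real.exp a.1.l)) (J3 Jf a.1.toBd a.2) g e₀ t m)
        g e₀ t) cD lD
      (fun o => vX (π lam.1).n₃ (fun k => conj ((π lam.1).χ₃ k)) (π lam.1).l₃
        (In (QK a.1.toBd (R * Real.exp a.1.l)) (J3 Jf a.1.toBd a.2) g e₀ t m) (omL a.2) ph
        (a.1.e * ∏ i, β i) (alX (π lam.1) h lam.2 a.1 β) g e₀ t c₀ g' o)
      (fun o => wX (π lam.1).n₃ (b1 (π lam.1) h lam.2 ps) (b2X (π lam.1) h lam.2 a.1 ps j)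
        (h₁.fin.toFinset ×ˢ h₂.fin.toFinset) (a.1.e * ∏ i, β i) z o)‖ ≤ Bb := by
    intro m _
    rcases (In (QK a.1.toBd (R * Real.exp a.1.l)) (J3 Jf a.1.toBd a.2) g e₀ t
      m).eq_empty_or_nonempty with hI | hI
    · have h0 : OD (π lam.1).n₃ (In (QK a.1.toBd (R * Real.exp a.1.l)) (J3 Jf a.1.toBd a.2) g e₀ t
          m) g e₀ t = ∅ := by
        unfold OD OU
        rw [hI]
        simp
      have hO : IsEmpty (OD (π lam.1).n₃ (In (QK a.1.toBd (R * Real.exp a.1.l))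
          (J3 Jf a.1.toBd a.2) g e₀ t m) g e₀ t) := by
        rw [h0]
        infer_instance
      rw [E4Ly_zero (fun o => (hO.false o).elim), norm_zero]
      exact hBb
    · have h4 := H m ⟨g, β, e₀, t, c₀, g', z, QK a.1.toBd (R * Real.exp a.1.l), ph, m⟩ rfl hI
      unfold vE wE Dt.O Dt.E Dt.I at h4
      unfold In
      exact h4
  refine (sum_le_sum h3).trans (le_of_eq ?_)
  rw [sum_const, card_Kl, nsmul_eq_mul]
  push_cast
  ring

lemma exp_hE_le {P : DPar} {a : BdX × ℕ} {ps : List Pq} {x : Dt} {C0 Y : ℝ} (hC0 : 0 < C0)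
    (hY : 1 ≤ Y) (hU : 1 ≤ C0 * U0 P (bl a) ps x)
    (hl : 2 * a.1.l + Real.log C0 ≤ 3 * Real.log Y) : Real.exp (hE P a ps x) ≤ Y := by
  have hU0 : 0 < U0 P (bl a) ps x := by
    by_contra h0
    have := mul_nonpos_of_nonneg_of_nonpos hC0.le (not_lt.mp h0)
    linarith
  have h1 : 0 ≤ Real.log C0 + Real.log (U0 P (bl a) ps x) := by
    rw [← Real.log_mul hC0.ne' hU0.ne']
    exact Real.log_nonneg hU
  have h2 : hE P a ps x ≤ Real.log Y := by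
    unfold hE
    refine max_le (Real.log_nonneg hY) ?_
    linarith
  calc Real.exp (hE P a ps x) ≤ Real.exp (Real.log Y) := Real.exp_le_exp.mpr h2
    _ = Y := Real.exp_log (by linarith)

/-- **one class** -/
theorem termX_le {π : Λ → DPar} {h : ℝ → ℝ} {lam : Λ × Eis} (hP : (π lam.1).OK)
    {Jf : ℝ → ℝ → ℝ → Finset (Eis × Eis)} {a : BdX × ℕ} {ps : List Pq} {x : Dt} {j : Fin 2}
    {h₁ : FS (b1 (π lam.1) h lam.2 ps)} {h₂ : FS (b2X (π lam.1) h lam.2 a.1 ps j)}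
    {R εa As C J C0 Y S' Mn Pr : ℝ} (hR : 1 ≤ R) {T : Finset ((Eis → ℂ) × ℤ)} {Pm : Finset Eis}
    (hap : Apym (π lam.1).n₃ (psd (psE (π lam.1).n₃ (fun k => conj ((π lam.1).χ₃ k))
      (x.E a.1.toBd)) (x.c₀ * x.g' * x.z)) T Pm (VR (π lam.1).U R) εa As C J)
    (hs : SzDX π h C0 Y Jf lam a ps x j h₁ h₂) (hC0 : 0 < C0) (hC : 0 ≤ C)
    (hfN : IsPrim (fN (π lam.1).n₃ (x.E a.1.toBd)))
    (hYe : Real.exp 1 ≤ Y) (hK1 : 1 ≤ R * Real.exp a.1.l) (hKY : R * Real.exp a.1.l ≤ Y)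
    (hlY : 2 * a.1.l + Real.log C0 ≤ 3 * Real.log Y) (hS : 0 ≤ S') (hMn : 0 ≤ Mn) (hPr0 : 0 ≤ Pr)
    (hJ0 : 1 ≤ R * Real.exp a.1.l * Real.exp (-hE (π lam.1) a ps x) →
      JB (π lam.1).n₃ 1 lD (vE π h lam Jf a x) (wE π h lam Jf a ps x j h₁ h₂) (fun _ => 1)
        (rngDC cD (fun _ _ _ _ _ => False) lD
          (R * Real.exp a.1.l * Real.exp (-hE (π lam.1) a ps x))) S')
    (hJs : ∀ s : ℝ, 0 ≤ s → s < hE (π lam.1) a ps x →
      ∃ (sw : Eis → Eis → Eis → Eis → Eis → Prop) (T₀ : ℝ), 0 ≤ T₀ ∧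
      (∀ D0 D1 B R Z : Eis, sw D0 D1 B R Z → (nm D1 : ℝ) * nm (rd Z) ≤ 2 * T₀) ∧
      JB (π lam.1).n₃ 1 lD (vE π h lam Jf a x) (wE π h lam Jf a ps x j h₁ h₂) (fun _ => 1)
        (rngDC cD sw lD (R * Real.exp a.1.l * Real.exp (-s))) S' ∧
      ∀ t ∈ T, ∀ ξ : ℝ,
        JB (π lam.1).n₃ 1 lD (vE π h lam Jf a x) (wE π h lam Jf a ps x j h₁ h₂) (gx t.1 t.2 ξ)
          (rngFC cD sw lD (Real.exp 1 * (C0 * U0 (π lam.1) (bl a) ps x /
            (R * Real.exp a.1.l * Real.exp (-s))) * Y ^ εa)) ((1 + |ξ|) ^ As * S'))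
    (hM : 0 < hE (π lam.1) a ps x → ∀ m ∈ Pm, ∀ T₀ : ℝ, 0 ≤ T₀ →
      HM5 (π lam.1).n₃ 1 lD (vE π h lam Jf a x) (wE π h lam Jf a ps x j h₁ h₂)
        (R * Real.exp a.1.l) T₀ (mtr (some m)) Mn)
    (hPr : 0 < hE (π lam.1) a ps x → MpY 1 cD lD (vE π h lam Jf a x)
      (wE π h lam Jf a ps x j h₁ h₂) (Real.exp a.1.l) (hE (π lam.1) a ps x) ≤ Pr) :
    ‖E4Ly (π lam.1).n₃ 1 (psd (psE (π lam.1).n₃ (fun k => conj ((π lam.1).χ₃ k)) (x.E a.1.toBd))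
      (x.c₀ * x.g' * x.z)) 0
      (V1 (Vt (π lam.1).U a.1.τ R (R * Real.exp a.1.l))) (R * Real.exp a.1.l)
      (O := x.O π lam Jf (bl a)) cD lD (vE π h lam Jf a x) (wE π h lam Jf a ps x j h₁ h₂)‖ ≤
      C * Y ^ εa * (1 + |a.1.τ|) ^ J *
        (R * Real.exp a.1.l * S' + Y ^ (-As) + (Mn + R ^ (4 / 3 : ℝ) * Pr)) := by
  have hR0 : 0 < R := by linarith
  have hK : 0 < R * Real.exp a.1.l := by positivity
  have hY1 : 1 ≤ Y := hK1.trans hKY
  have hY0 : 0 < Y := by linarith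
  have hR43 : 0 ≤ R ^ (4 / 3 : ℝ) * Pr := mul_nonneg (Real.rpow_nonneg hR0.le _) hPr0
  by_cases hne : ∃ o x' y, vE π h lam Jf a x o x' ≠ 0 ∧ wE π h lam Jf a ps x j h₁ h₂ o y ≠ 0
  swap
  · rw [E4Ly_zero (fun o x' y hx => by
      by_contra hy
      exact hne ⟨o, x', y, hx, hy⟩), norm_zero]
    exact mul_nonneg (mul_nonneg (mul_nonneg hC (Real.rpow_nonneg hY0.le _)) (by positivity))
      (add_nonneg (add_nonneg (mul_nonneg hK.le hS) (Real.rpow_nonneg hY0.le _))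
        (add_nonneg hMn hR43))
  have hU1 : 1 ≤ C0 * U0 (π lam.1) (bl a) ps x := by
    obtain ⟨o, x', y, hx, hy⟩ := hne
    refine le_trans ?_ (hs.ub o x' y hx hy)
    have hx0 : x' ≠ 0 := ((hs.dat.hv o).2 x' hx).1.ne_zero
    have hy0 : y ≠ 0 := ((hs.dat.hw o).2 y hy).1.ne_zero
    have h1 : (1 : ℝ) ≤ nm (1 * x' * y) := by
      have := nm_pos.mpr (mul_ne_zero (mul_ne_zero one_ne_zero hx0) hy0)
      exact_mod_cast this
    have h2 := (hs.dat.lam1 o).1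
    have h3 : 1 ≤ lD o ^ 2 := one_le_pow₀ h2
    exact one_le_mul_of_one_le_of_one_le h1 h3
  have hhf := exp_hE_le (P := π lam.1) (a := a) (ps := ps) (x := x) hC0 hY1 hU1 hlY
  have hv : ∀ o, ¬ IsCoprime (cD o) (fN (π lam.1).n₃ (x.E a.1.toBd)) → ∀ x',
      vE π h lam Jf a x o x' = 0 := fun o ho x' => vX_cop hfN o ho x'
  rw [V1_Vt hP.U hR0 hK, E4Ly_smul, norm_mul]
  have e1 : ‖conj (((R * Real.exp a.1.l : ℝ) : ℂ) ^ (I * a.1.τ))‖ = 1 := by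
    rw [Complex.norm_conj, Complex.norm_cpow_eq_rpow_re_of_pos hK]
    simp
  rw [e1, one_mul, ← E4Ly_gte hv]
  have h1 := hap (-a.1.τ) (hE (π lam.1) a ps x) 1 (x.O π lam Jf (bl a)) inferInstance cD lD
    (vE π h lam Jf a x) (gte (fun o => IsCoprime (cD o) (fN (π lam.1).n₃ (x.E a.1.toBd)))
      (wE π h lam Jf a ps x j h₁ h₂)) Y (R * Real.exp a.1.l)
    (C0 * U0 (π lam.1) (bl a) ps x) S' Mn (dat_gte hs.dat) (fun o => (cD_prim o).1)
    (fun o y hy => by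
      rw [one_mul]
      exact wX_cop h₁ h₂ hfN o (gte_ne hy).1 (gte_ne hy).2)
    (hE_nonneg _ _ _ _) hhf hYe hK1 hKY (by linarith) hs.uY hS hMn
    (fun o x' y hx hy => hs.ub o x' y hx (gte_ne hy).2)
    (fun h2 => JB_gte hv (hJ0 h2))
    (fun s hs0 hs1 => by
      obtain ⟨sw, T₀, c1, c2, c3, c4⟩ := hJs s hs0 hs1
      exact ⟨sw, T₀, c1, c2, JB_gte hv c3, fun t ht ξ => JB_gte hv (c4 t ht ξ)⟩)
    (fun h2 m hm T₀ hT => HM5_gte hv (hM h2 m hm T₀ hT))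
  rw [abs_neg] at h1
  refine h1.trans ?_
  refine mul_le_mul_of_nonneg_left ?_
    (mul_nonneg (mul_nonneg hC (Real.rpow_nonneg hY0.le _)) (by positivity))
  have h5 : (if 0 < hE (π lam.1) a ps x then MpY 1 cD lD (vE π h lam Jf a x)
      (gte (fun o => IsCoprime (cD o) (fN (π lam.1).n₃ (x.E a.1.toBd)))
        (wE π h lam Jf a ps x j h₁ h₂)) (R * Real.exp a.1.l) (hE (π lam.1) a ps x) else 0) ≤
      R ^ (4 / 3 : ℝ) * Pr := by
    split_ifs with h6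
    · rw [MpY_gte hv]
      refine (mpY_scale hR (Real.exp_pos _).le (fun o => by
        have := (hs.dat.lam1 o).1
        linarith)).trans ?_
      exact mul_le_mul_of_nonneg_left (hPr h6) (Real.rpow_nonneg hR0.le _)
    · exact hR43
  linarith

end Crest.Agent.R017.E4X164
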