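import Crest.Agent.R017.E4Xg_164

/-!
# Row 17, exceptional class, StrUX from the list-level Props (helper164)

* `summandX_le`, `classX_le`
* `strBandX_of_JBUX` : `JBUX`, `MnUX`, `PrUX`, `SzUX` ⟹ the band of `e0` of `StrUX`
-/

set_option autoImplicit false

noncomputable section

open Finset Complex Filter
open scoped ComplexConjugate ContDiff

namespace Crest.Agent.R017.E4X164

open Crest.Agent.R012 Crest.Agent.R012.Eis
open Crest.Agent.R012.Mob705 hiding pb mem_pb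
open Crest.Agent.R012.LS2 (S mem_S)
open Crest.Agent.R017.Sx545 (Sm)
open Crest.Agent.R017.CM106 (FS)
open Crest.Agent.R017.C70 (OKJ)
open Crest.Agent.R017.E2440
open Crest.Agent.R017.End699 (HC)
open Crest.Agent.R017.E4352 (PrI rd Dat4 SSm)
open Crest.Agent.R017.E5k54 (PT alb)
open Crest.Agent.R017.E5P571 (MS Gd mem_Gd PC BB)
open Crest.Agent.R017.DgA829 (lc lc_prim lc_dvd)
open Crest.Agent.R017.SSb54 (PTb mem_PTb PTb_sub)
open Crest.Agent.R017.E5B71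
open Crest.Agent.R017.B770
open Crest.Agent.R017.FE47 (SM)
open Crest.Agent.R017.Prov71
open Crest.Agent.R017.E5L770
open Crest.Agent.R017.E5LX770 (SfEV SfE SqLX nLX_le midE_lev)
open Crest.Agent.R017.ExP960 hiding alX
open Crest.Agent.R017.E4D164 hiding E4L
open Crest.Agent.R017.E4v5 (HM5)
open Crest.Agent.R017.E4J352 (Tm JB rngD rngF gx)
open Crest.Agent.R017.E4X266 (rngDC rngFC Mq1 Mq0)
open Crest.Agent.R017.E4ap783 (Cs PG mtr TG7 E4Ly MpY Apym apym_dict mq1_nonneg mq0_nonneg)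
open Crest.Agent.R017.E4U164 hiding E4L_smul
open Crest.Agent.R017.E4Df372

variable {Λ : Type*}

/-! ### the target -/

lemma t5X_nonneg {θ A d β : ℝ} (hA : 0 ≤ A) (hθ : 7 / 8 ≤ θ)
    {q : (Option IX5 → ℝ) × (Kd → ℝ)} (hq : q ∈ SqLX A d β) :
    0 ≤ T5 θ (prQ (dn q.1, q.2)) := by
  have h : Nr5 A (prX (dn q.1)) q.2 := hq.1.1.toNr5
  have hκ := h.κ0
  have han := h.anti
  have hnear := h.near
  have hmo := h.w0 .mo
  have ham := h.w0 .am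
  unfold T5 Cone59.Tg prQ
  dsimp only at h hκ han hnear hmo ham ⊢
  set p := prX (dn q.1)
  have hN : 0 ≤ cN p := by
    unfold cN at hnear ⊢
    nlinarith [han.2.1, han.2.2.1, han.2.2.2, mul_nonneg hA (by linarith : (0:ℝ) ≤ cκ p)]
  have hM : 0 ≤ cM p := by
    unfold cN at hN
    unfold cM
    linarith [han.1, han.2.1, han.2.2.1, han.2.2.2]
  have h2 : (cκ p - 1) + (cN p + cM p + q.2 .mo - (2 - 2 * (1 / 3))) / 2 +
        (q.2 .am - 1 / 3) / 2 ≤ max ((cκ p - 1) + (cN p + cM p + q.2 .mo - (2 - 2 * (1 / 3))) / 2 +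
        (q.2 .am - 1 / 3) / 2)
    (max ((cκ p - 1) / 2 + 3 / 4 * (cN p + cM p + q.2 .mo - (2 - 2 * (1 / 3))) +
      1 / 4 * (q.2 .am - 1 / 3))
      ((cκ p - 1) / 6 + θ * (cN p + cM p + q.2 .mo - (2 - 2 * (1 / 3))) +
        θ * (q.2 .am - 1 / 3))) := le_max_left _ _
  refine le_trans ?_ (add_le_add_right h2 _)
  linarith

/-! ### one summand -/

/-- **one summand** -/
theorem summandX_le {π : Λ → DPar} {h : ℝ → ℝ} {lam : Λ × Eis} (hP : ∀ lam, (π lam).OK)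
    (hh : Bump h) {e0 r : ℝ} {Bf : ℝ → ℝ → ℝ → ℝ} {Jf : ℝ → ℝ → ℝ → Finset (Eis × Eis)}
    (hJf : ∀ l N z, OKJ (Jf l N z)) {a : BdX × ℕ} {ps : List Pq} (hokP : a.1.okP (π lam.1))
    (hd3 : a.1.d₃ ≠ 0) (hl3 : (π lam.1).l₃ = 0) {X A0 R εm : ℝ} (hX1 : 1 ≤ X) (hR : 0 < R)
    (hRX : R ≤ X ^ εm) (sz : SzFX π h e0 r R (X ^ A0) Bf Jf lam a ps) {C εa J As Tg H' : ℝ}
    (hC : 0 ≤ C) (hTg : 0 < Tg) (hτ : (1 + |a.1.τ|) ^ J ≤ H') (hH' : 0 ≤ H') {Nc : ℕ}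
    (hNc : X ^ A0 < 2 ^ Nc)
    (hTA : ∀ nr : ℝ, 0 < nr → nr ≤ X ^ A0 → (X ^ A0) ^ (-As) ≤ Tg / nr) (j : Fin 2)
    (Hx : ∀ x : Dt, x.OK (π lam.1) Bf e0 r εm X a.1.toBd → (x.I Jf (bl a)).Nonempty →
      ∀ (h₁ : FS (b1 (π lam.1) h lam.2 ps)) (h₂ : FS (b2X (π lam.1) h lam.2 a.1 ps j)),
      nrm x ≤ X ^ A0 ∧ ‖E4Ly (π lam.1).n₃ 1
        (psd (psE (π lam.1).n₃ (fun k => conj ((π lam.1).χ₃ k)) (x.E a.1.toBd))
          (x.c₀ * x.g' * x.z)) 0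
        (V1 (Vt (π lam.1).U a.1.τ R (R * Real.exp a.1.l))) (R * Real.exp a.1.l)
        (O := x.O π lam Jf (bl a)) cD lD (vE π h lam Jf a x) (wE π h lam Jf a ps x j h₁ h₂)‖ ≤
        C * (X ^ A0) ^ εa * (1 + |a.1.τ|) ^ J * (R * Real.exp a.1.l *
          (Tg / (nrm x * Real.exp (a.1.l / 3))) + (X ^ A0) ^ (-As) +
            Tg * Real.exp (2 / 3 * a.1.l) / nrm x))
    {ph : Eis → Eis → ℂ} (hph : ∀ g q, ‖ph g q‖ = 1) {g : Eis} (hg : g ∈ Gd (π lam.1).n a.1.d₃)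
    {β : Fin 3 → Eis} (hβ : β ∈ T3 Bf a.1.toBd r) {e₀ : Eis}
    (he₀ : e₀ ∈ S (Real.exp (e0 * a.1.l)))
    {t : Eis} (ht : t ∈ Gd (π lam.1).n (tS (a.1.e * ∏ i, β i))) {c₀ : Eis} (hc₀ : c₀ ∈ C4)
    {g' : Eis} {N₁ N₂ : ℕ} (hg' : g' ∈ MC (π lam.1).n₃ N₁) {z : Eis}
    (hz : z ∈ MC (π lam.1).n₃ N₂) :
    (nm (∏ i, β i) : ℝ) ^ (1 / 2 : ℝ) * (nm e₀ : ℝ) *
      ((R * Real.exp a.1.l : ℝ) ^ (-(2 / 3) : ℝ) *
      ‖ELf (π lam.1).n₃ (fun k => conj ((π lam.1).χ₃ k)) (π lam.1).l₃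
        (PhF (fun k => ∃ w : Eis, k = w ^ 3)
          (Vt (π lam.1).U a.1.τ R (R * Real.exp a.1.l)) (R * Real.exp a.1.l))
        (R * Real.exp a.1.l)
        (QK a.1.toBd (R * Real.exp a.1.l)) (fun q => q ^ 2 * g) (ph g) (J3 Jf a.1.toBd a.2)
        (fun e x => omL a.2 x * TE (alX (π lam.1) h lam.2 a.1 β) x e)
        (b1 (π lam.1) h lam.2 ps) (b2X (π lam.1) h lam.2 a.1 ps j)
        ((fs_b1 (t := lam.2) (ps := ps) (hP lam.1) hh).fin.toFinset ×ˢ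
          (fs_b2X (t := lam.2) (a := a.1) (ps := ps) (hP lam.1) hh j).fin.toFinset)
        (a.1.e * ∏ i, β i) e₀ t c₀ g' z‖) ≤
      (Nc : ℝ) ^ 6 * (C * (X ^ A0) ^ εa * H' *
        ((R ^ (1 / 3 : ℝ) + 1 + R ^ (-(2 / 3) : ℝ)) * Tg)) := by
  classical
  have hX0 : 0 < X := by linarith
  have hY0 : 0 < X ^ A0 := Real.rpow_pos_of_pos hX0 _
  have hM0 : (π lam.1).n₃ ≠ 0 := (hP lam.1).χ₃.q0
  have hgm := (mem_Gd hd3).mp hg
  have hβp : IsPrim (∏ i, β i) := T3_prim β hβ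
  have hEp : IsPrim (a.1.e * ∏ i, β i) := hokP.1.1.mul hβp
  have htS : tS (a.1.e * ∏ i, β i) ≠ 0 := (tS_prim hEp).ne_zero
  have htm := (mem_Gd htS).mp ht
  have he₀p : IsPrim e₀ := ((mem_S (Real.exp_pos _).le).mp he₀).2.1
  have he₀X : (nm e₀ : ℝ) ≤ Real.exp (e0 * a.1.l) := ((mem_S (Real.exp_pos _).le).mp he₀).1
  have hg'm := mem_MC.mp hg'
  have hzm := mem_MC.mp hz
  have hQ : ∀ q ∈ QK a.1.toBd (R * Real.exp a.1.l), IsPrim (sS g e₀ t q) := by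
    intro q hq
    have hq1 := (hokP.2.2 q (mem_QK.mp hq).1).1.1
    exact lc_prim (lc_prim ((hq1.pow 2).mul hgm.1.1) he₀p) htm.1.1
  have hN : ∀ q ∈ QK a.1.toBd (R * Real.exp a.1.l), nm (sS g e₀ t q) < 2 ^ Nc := by
    intro q hq
    have h1 := sz.sS g e₀ t hgm.1.1 hgm.2.2 he₀p htm.1.1 he₀X ⟨β, hβ, htm.2.2⟩ q hq
    exact_mod_cast h1.trans_lt hNc
  have hfN : fN (π lam.1).n₃ (a.1.e * ∏ i, β i) ≠ 0 := (fM_spec hM0 hEp).2.1.1.ne_zero
  have h1 : (0 : ℝ) < nm (∏ i, β i) := by exact_mod_cast nm_pos.mpr hβp.ne_zero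
  have h2 : (0 : ℝ) < nm e₀ := by exact_mod_cast nm_pos.mpr he₀p.ne_zero
  have hnr : 0 < (nm (∏ i, β i) : ℝ) ^ (1 / 2 : ℝ) * (nm e₀ : ℝ) := by positivity
  have hOK : ∀ m, (⟨g, β, e₀, t, c₀, g', z, QK a.1.toBd (R * Real.exp a.1.l), ph g, m⟩ : Dt).OK
      (π lam.1) Bf e0 r εm X a.1.toBd := fun m =>
    { g := hg
      β := hβ
      e₀ := he₀
      t := ht
      c₀ := hc₀
      g' := hg'm.2
      z := hzm.2
      Q := by
        intro q hq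
        have hq2 := mem_QK.mp hq
        refine ⟨(hokP.2.2 q hq2.1).1, (hokP.2.2 q hq2.1).2, hq2.2.1, hq2.2.2.trans ?_⟩
        exact mul_le_mul_of_nonneg_right hRX (Real.exp_pos _).le
      ph := fun q => (hph g q).le }
  have hneg : -(π lam.1).l₃ = 0 := by rw [hl3, neg_zero]
  set h₁ := fs_b1 (t := lam.2) (ps := ps) (hP lam.1) hh with hh₁
  set h₂ := fs_b2X (t := lam.2) (a := a.1) (ps := ps) (hP lam.1) hh j with hh₂
  have hcR : 0 ≤ (R ^ (1 / 3 : ℝ) + 1 + R ^ (-(2 / 3) : ℝ)) * Tg := by positivity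
  by_cases hne : ∃ m, ((⟨g, β, e₀, t, c₀, g', z, QK a.1.toBd (R * Real.exp a.1.l), ph g,
      m⟩ : Dt).I Jf (bl a)).Nonempty
  swap
  · have hel := elf_le (ps := ps) (c₀ := c₀) (z := z) (hP lam.1) hJf (ph g) hQ hfN hg'm.2 hN j
      h₁ h₂ (Bb := 0) le_rfl (by
        intro m x hx hI
        subst hx
        exact absurd ⟨m, hI⟩ hne)
    rw [mul_zero] at hel
    rw [le_antisymm hel (norm_nonneg _), mul_zero, mul_zero]
    exact mul_nonneg (by positivity) (mul_nonneg (mul_nonneg (mul_nonneg hC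
      (Real.rpow_nonneg hY0.le _)) hH') hcR)
  obtain ⟨m₀, hm₀⟩ := hne
  have hBb : 0 ≤ C * (X ^ A0) ^ εa * (1 + |a.1.τ|) ^ J * (R * Real.exp a.1.l *
      (Tg / ((nm (∏ i, β i) : ℝ) ^ (1 / 2 : ℝ) * (nm e₀ : ℝ) * Real.exp (a.1.l / 3))) +
        (X ^ A0) ^ (-As) + Tg * Real.exp (2 / 3 * a.1.l) /
          ((nm (∏ i, β i) : ℝ) ^ (1 / 2 : ℝ) * (nm e₀ : ℝ))) := by positivity
  have hel := elf_le (ps := ps) (c₀ := c₀) (z := z) (hP lam.1) hJf (ph g) hQ hfN hg'm.2 hN j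
    h₁ h₂ hBb (by
      intro m x hx hI
      subst hx
      rw [hneg]
      exact (Hx _ (hOK m) hI h₁ h₂).2)
  have hnrY : (nm (∏ i, β i) : ℝ) ^ (1 / 2 : ℝ) * (nm e₀ : ℝ) ≤ X ^ A0 :=
    (Hx _ (hOK m₀) hm₀ h₁ h₂).1
  have hnum := num_le (εa := εa) (H := (1 + |a.1.τ|) ^ J) (As := As) rfl hR sz.K1 hTg hnr hC
    (by positivity) hY0 (hTA _ hnr hnrY)
  exact num2 hnr (Real.rpow_nonneg (by positivity) _) (by positivity) hel hnum hC
    (Real.rpow_nonneg hY0.le _) hτ (by positivity) hTg.le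

/-- **one class, from the list-level facts** -/
theorem classX_le {π : Λ → DPar} {h : ℝ → ℝ} {lam : Λ × Eis} (hP : (π lam.1).OK)
    {Jf : ℝ → ℝ → ℝ → Finset (Eis × Eis)} {a : BdX × ℕ} {ps : List Pq}
    (hokP : a.1.okP (π lam.1)) {x : Dt} {X Y R C0 εJ εa As A' Tg C J e0 r εm : ℝ}
    {Bf : ℝ → ℝ → ℝ → ℝ} (hx : x.OK (π lam.1) Bf e0 r εm X a.1.toBd) (hR : 1 ≤ R) {j : Fin 2}
    {h₁ : FS (b1 (π lam.1) h lam.2 ps)} {h₂ : FS (b2X (π lam.1) h lam.2 a.1 ps j)}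
    (hs : SzDX π h C0 Y Jf lam a ps x j h₁ h₂) (hC0 : 0 < C0) (hC : 0 ≤ C)
    {T : Finset ((Eis → ℂ) × ℤ)} {Pm : Finset Eis}
    (Hap : ∀ E c₀ g z : Eis, IsPrim E → GrB829.IsC c₀ → PrI (π lam.1).n₃ g →
      PrI (π lam.1).n₃ z → Apym (π lam.1).n₃
        (psd (psE (π lam.1).n₃ (fun k => conj ((π lam.1).χ₃ k)) E) (c₀ * g * z)) T Pm
        (VR (π lam.1).U R) εa As C J)
    (hYe : Real.exp 1 ≤ Y) (hK1 : 1 ≤ R * Real.exp a.1.l) (hKY : R * Real.exp a.1.l ≤ Y)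
    (hlY : 2 * a.1.l + Real.log C0 ≤ 3 * Real.log Y) (hRJ : R ≤ X ^ εJ)
    (hdu : Real.exp 1 * (C0 / R) * Y ^ εa ≤ X ^ εJ) (hAs : A' ≤ As) (hTg : 0 < Tg)
    (hJ0 : 1 ≤ X ^ εJ * Real.exp a.1.l * Real.exp (-hE (π lam.1) a ps x) →
      JB (π lam.1).n₃ 1 lD (vE π h lam Jf a x) (wE π h lam Jf a ps x j h₁ h₂) (fun _ => 1)
        (rngDC cD (fun _ _ _ _ _ => False) lD
          (X ^ εJ * Real.exp a.1.l * Real.exp (-hE (π lam.1) a ps x)))
        (Tg / (nrm x * Real.exp (a.1.l / 3))))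
    (hJs : ∀ s : ℝ, 0 ≤ s → s < hE (π lam.1) a ps x →
      ∃ (sw : Eis → Eis → Eis → Eis → Eis → Prop) (T₀ : ℝ), 0 ≤ T₀ ∧
      (∀ D0 D1 B R Z : Eis, sw D0 D1 B R Z → (nm D1 : ℝ) * nm (rd Z) ≤ 2 * T₀) ∧
      JB (π lam.1).n₃ 1 lD (vE π h lam Jf a x) (wE π h lam Jf a ps x j h₁ h₂) (fun _ => 1)
        (rngDC cD sw lD (X ^ εJ * Real.exp a.1.l * Real.exp (-s)))
        (Tg / (nrm x * Real.exp (a.1.l / 3))) ∧
      ∀ t ∈ T, ∀ ξ : ℝ,
        JB (π lam.1).n₃ 1 lD (vE π h lam Jf a x) (wE π h lam Jf a ps x j h₁ h₂)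
          (gx t.1 t.2 ξ)
          (rngFC cD sw lD
            (X ^ εJ * (U0 (π lam.1) (bl a) ps x / (Real.exp a.1.l * Real.exp (-s)))))
          ((1 + |ξ|) ^ A' * (Tg / (nrm x * Real.exp (a.1.l / 3)))))
    (hM : 0 < hE (π lam.1) a ps x → ∀ m ∈ Pm, ∀ T₀ : ℝ, 0 ≤ T₀ →
      HM5 (π lam.1).n₃ 1 lD (vE π h lam Jf a x) (wE π h lam Jf a ps x j h₁ h₂)
        (R * Real.exp a.1.l) T₀ (mtr (some m)) (Tg * Real.exp (2 / 3 * a.1.l) / nrm x))
    (hPr : 0 < hE (π lam.1) a ps x →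
      MpY 1 cD lD (vE π h lam Jf a x) (wE π h lam Jf a ps x j h₁ h₂) (Real.exp a.1.l)
        (hE (π lam.1) a ps x) ≤ Tg * Real.exp (2 / 3 * a.1.l) / nrm x) :
    ‖E4Ly (π lam.1).n₃ 1 (psd (psE (π lam.1).n₃ (fun k => conj ((π lam.1).χ₃ k))
      (x.E a.1.toBd)) (x.c₀ * x.g' * x.z)) 0
      (V1 (Vt (π lam.1).U a.1.τ R (R * Real.exp a.1.l))) (R * Real.exp a.1.l)
      (O := x.O π lam Jf (bl a)) cD lD (vE π h lam Jf a x) (wE π h lam Jf a ps x j h₁ h₂)‖ ≤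
      C * Y ^ εa * (1 + |a.1.τ|) ^ J * (R * Real.exp a.1.l *
        ((1 + R ^ (4 / 3 : ℝ)) * Tg / (nrm x * Real.exp (a.1.l / 3))) + Y ^ (-As) +
          (1 + R ^ (4 / 3 : ℝ)) * Tg * Real.exp (2 / 3 * a.1.l) / nrm x) := by
  have hR0 : 0 < R := by linarith
  have hn0 := nrm_nonneg x
  have hS : 0 ≤ Tg / (nrm x * Real.exp (a.1.l / 3)) :=
    div_nonneg hTg.le (mul_nonneg hn0 (Real.exp_pos _).le)
  have hMn : 0 ≤ Tg * Real.exp (2 / 3 * a.1.l) / nrm x :=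
    div_nonneg (mul_nonneg hTg.le (Real.exp_pos _).le) hn0
  have hE : IsPrim (x.E a.1.toBd) := hokP.1.1.mul (T3_prim x.β hx.β)
  have hfN : IsPrim (fN (π lam.1).n₃ (x.E a.1.toBd)) := (fM_spec hP.χ₃.q0 hE).2.1.1
  have hY1 : 1 ≤ Y := hK1.trans hKY
  have hR43 : 0 ≤ R ^ (4 / 3 : ℝ) := Real.rpow_nonneg hR0.le _
  refine (termX_le (Pr := Tg * Real.exp (2 / 3 * a.1.l) / nrm x) hP hR
    (Hap _ _ _ _ hE (mem_C4.mp hx.c₀) hx.g' hx.z) hs hC0 hC hfN hYe hK1 hKY hlY hS hMn hMn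
    (fun h1 => ?_) (fun s hs0 hs1 => ?_) hM hPr).trans ?_
  · have hle : R * Real.exp a.1.l * Real.exp (-E4Df372.hE (π lam.1) a ps x) ≤
        X ^ εJ * Real.exp a.1.l * Real.exp (-E4Df372.hE (π lam.1) a ps x) := by gcongr
    exact JBm (hJ0 (h1.trans hle)) (fun t ht => ⟨⟨ht.1.1, ht.1.2.trans hle⟩, ht.2⟩) le_rfl
  · obtain ⟨sw, T₀, c1, c2, c3, c4⟩ := hJs s hs0 hs1
    have hle : R * Real.exp a.1.l * Real.exp (-s) ≤ X ^ εJ * Real.exp a.1.l * Real.exp (-s) := by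
      gcongr
    refine ⟨sw, T₀, c1, c2, JBm c3 (fun t ht => ⟨⟨ht.1.1, ht.1.2.trans hle⟩, ht.2⟩) le_rfl,
      fun t ht ξ => JBm (c4 t ht ξ) (fun t' ht' => ⟨⟨ht'.1.1, ht'.1.2.trans ?_⟩, ht'.2⟩) ?_⟩
    · refine mul_le_mul_of_nonneg_right ?_ (Nat.cast_nonneg _)
      have hu := hs.u0
      calc Real.exp 1 * (C0 * U0 (π lam.1) (bl a) ps x / (R * Real.exp a.1.l * Real.exp (-s))) *
            Y ^ εa = (Real.exp 1 * (C0 / R) * Y ^ εa) *
            (U0 (π lam.1) (bl a) ps x / (Real.exp a.1.l * Real.exp (-s))) := by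
            field_simp
        _ ≤ _ := mul_le_mul_of_nonneg_right hdu (div_nonneg hu.le (by positivity))
    · refine mul_le_mul_of_nonneg_right ?_ hS
      exact Real.rpow_le_rpow_of_exponent_le (by linarith [abs_nonneg ξ]) hAs
  · have h5 : 0 ≤ C * Y ^ εa * (1 + |a.1.τ|) ^ J :=
      mul_nonneg (mul_nonneg hC (Real.rpow_nonneg (by linarith) _)) (by positivity)
    refine mul_le_mul_of_nonneg_left (add_le_add (add_le_add ?_ le_rfl) (le_of_eq ?_)) h5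
    · refine mul_le_mul_of_nonneg_left ?_ (by positivity)
      refine div_le_div_of_nonneg_right ?_ (mul_nonneg hn0 (Real.exp_pos _).le)
      have := mul_nonneg hR43 hTg.le
      linarith
    · ring

/-- on the band all `e₀`, `β` are in the window -/
lemma xlowX_of {A d β δ δ' B X e0 r ε : ℝ} {N : ℕ} {a : BdX × ℕ} {ps : List Pq}
    {q : (Option IX5 → ℝ) × (Kd → ℝ)} {P : DPar} {Bf : ℕ → ℝ → ℝ → ℝ → ℝ} {x : Dt}
    (hfr : FrLX A d β δ δ' B X N a ps q) (hX : 1 < X)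
    (hx : x.OK P (Bf a.2) e0 r ε X a.1.toBd) (hok : a.1.ok) (hd : 0 < d)
    (hBf : ∀ i l N z, 0 ≤ l → 0 ≤ z → 2 * Bf i l N z ≤
      min (2 * N - l) (3 / 4 * N) + 9 / 4 * z - Real.log 2 * i + d / 2 * l)
    (he0 : 0 ≤ e0) (hδ : 8 * (e0 + 8) * δ ≤ d) (hδ1 : δ ≤ 1 / 2)
    (hb : 4 * e0 * cκ (prX (dn q.1)) ≤ low5 (prX (dn q.1)) - q.1 none + d / 2) :
    XLowX d X q x := by
  have hl : 0 < Real.log X := Real.log_pos hX
  have el : |a.1.l / Real.log X - cκ (prX (dn q.1))| ≤ δ :=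
    hfr.win.ev (some (.inl (.inl 0)))
  have hδ0 : 0 ≤ δ := (abs_nonneg _).trans el
  have heδ : 0 ≤ e0 * δ := mul_nonneg he0 hδ0
  have h3 : a.1.l ≤ (cκ (prX (dn q.1)) + δ) * Real.log X := by
    have := (abs_le.mp el).2
    rw [← div_le_iff₀ hl]
    linarith
  constructor
  · have hm := (mem_S (Real.exp_pos _).le).mp hx.e₀
    have h1 : (0 : ℝ) < nm x.e₀ := by exact_mod_cast nm_pos.mpr hm.2.1.ne_zero
    have h2 : Real.log (nm x.e₀) ≤ e0 * a.1.l := by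
      rw [← Real.log_exp (e0 * a.1.l)]
      exact Real.log_le_log h1 hm.1
    have h4 : e0 * a.1.l ≤ e0 * ((cκ (prX (dn q.1)) + δ) * Real.log X) :=
      mul_le_mul_of_nonneg_left h3 he0
    calc 4 * Real.log (nm x.e₀) ≤ (4 * e0 * cκ (prX (dn q.1)) + 4 * e0 * δ) * Real.log X := by
          linarith
      _ ≤ (low5 (prX (dn q.1)) - q.1 none + d) * Real.log X := by
          refine mul_le_mul_of_nonneg_right ?_ hl.le
          have : 4 * e0 * δ ≤ d / 2 := by linarith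
          linarith
  · have hn : Nr5 A (prX (dn q.1)) q.2 := hfr.dom.1.1.toNr5
    have hκ0 := hn.κ0
    have hκ1 := hn.κ1
    have ez : |a.1.z / Real.log X - cx' (prX (dn q.1))| ≤ δ :=
      hfr.win.ev (some (.inl (.inl 1)))
    have e2 : |(a.1.us 2).z / Real.log X - prX (dn q.1) (.inr 2)| ≤ δ :=
      hfr.win.ev (some (.inl (.inr 2)))
    have e3 : |(a.1.us 3).z / Real.log X - prX (dn q.1) (.inr 3)| ≤ δ :=
      hfr.win.ev (some (.inl (.inr 3)))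
    have e4 : |(a.1.us 4).z / Real.log X - prX (dn q.1) (.inr 4)| ≤ δ :=
      hfr.win.ev (some (.inl (.inr 4)))
    have e5 : |Real.log 2 * (a.2 : ℝ) / Real.log X - q.1 none| ≤ δ := hfr.win.ev none
    have hl0 : 0 ≤ a.1.l := by
      have h5 := (abs_le.mp el).1
      have h6 : 0 ≤ a.1.l / Real.log X := by linarith
      rw [le_div_iff₀ hl] at h6
      linarith
    have hm := (mem_PTb.mp hx.β)
    have h1 : (0 : ℝ) < nm (∏ i, x.β i) := by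
      exact_mod_cast nm_pos.mpr (T3_prim x.β hx.β).ne_zero
    have h2 : Real.log (nm (∏ i, x.β i)) ≤ Bf a.2 a.1.l (a3 a.1.toBd) a.1.z := by
      rw [← Real.log_exp (Bf a.2 a.1.l (a3 a.1.toBd) a.1.z)]
      exact Real.log_le_log h1 hm.2
    have h4 := hBf a.2 a.1.l (a3 a.1.toBd) a.1.z hl0 hok.1.2.1
    unfold a3 at h2 h4
    have m1 := min_le_left (2 * ((a.1.us 2).z + (a.1.us 3).z + (a.1.us 4).z) - a.1.l)
      (3 / 4 * ((a.1.us 2).z + (a.1.us 3).z + (a.1.us 4).z))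
    have m2 := min_le_right (2 * ((a.1.us 2).z + (a.1.us 3).z + (a.1.us 4).z) - a.1.l)
      (3 / 4 * ((a.1.us 2).z + (a.1.us 3).z + (a.1.us 4).z))
    have f1 := (div_mul_cancel₀ a.1.l hl.ne').symm
    have f2 := (div_mul_cancel₀ (a.1.us 2).z hl.ne').symm
    have f3 := (div_mul_cancel₀ (a.1.us 3).z hl.ne').symm
    have f4 := (div_mul_cancel₀ (a.1.us 4).z hl.ne').symm
    have f5 := (div_mul_cancel₀ a.1.z hl.ne').symm
    have f6 := (div_mul_cancel₀ (Real.log 2 * (a.2 : ℝ)) hl.ne').symm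
    obtain ⟨el1, el2⟩ := abs_le.mp el
    obtain ⟨ez1, ez2⟩ := abs_le.mp ez
    obtain ⟨e21, e22⟩ := abs_le.mp e2
    obtain ⟨e31, e32⟩ := abs_le.mp e3
    obtain ⟨e41, e42⟩ := abs_le.mp e4
    obtain ⟨e51, e52⟩ := abs_le.mp e5
    set L := Real.log X with hL
    set l' := a.1.l / L with hl'
    set u2 := (a.1.us 2).z / L with hu2
    set u3 := (a.1.us 3).z / L with hu3
    set u4 := (a.1.us 4).z / L with hu4
    set z' := a.1.z / L with hz'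
    set i' := Real.log 2 * (a.2 : ℝ) / L with hi'
    have hdl : d / 2 * l' ≤ d / 2 + d / 4 := by
      have : l' ≤ 1 + 1 / 2 := by linarith
      calc d / 2 * l' ≤ d / 2 * (1 + 1 / 2) := mul_le_mul_of_nonneg_left this (by linarith)
        _ = _ := by ring
    rcases le_total (2 * cN (prX (dn q.1)) - cκ (prX (dn q.1))) (3 / 4 * cN (prX (dn q.1)))
      with hc | hc
    · have g1 : 2 * Real.log (nm (∏ i, x.β i)) ≤
          (2 * (u2 + u3 + u4) - l' + 9 / 4 * z' - i' + d / 2 * l') * L := by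
        have : (2 * (u2 + u3 + u4) - l' + 9 / 4 * z' - i' + d / 2 * l') * L =
            2 * (u2 * L + u3 * L + u4 * L) - l' * L + 9 / 4 * (z' * L) - i' * L +
              d / 2 * (l' * L) := by ring
        rw [this, ← f1, ← f2, ← f3, ← f4, ← f5, ← f6]
        linarith
      refine g1.trans (mul_le_mul_of_nonneg_right ?_ hl.le)
      unfold low5
      rw [min_eq_left hc]
      unfold cN cu at *
      linarith
    · have g1 : 2 * Real.log (nm (∏ i, x.β i)) ≤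
          (3 / 4 * (u2 + u3 + u4) + 9 / 4 * z' - i' + d / 2 * l') * L := by
        have : (3 / 4 * (u2 + u3 + u4) + 9 / 4 * z' - i' + d / 2 * l') * L =
            3 / 4 * (u2 * L + u3 * L + u4 * L) + 9 / 4 * (z' * L) - i' * L +
              d / 2 * (l' * L) := by ring
        rw [this, ← f1, ← f2, ← f3, ← f4, ← f5, ← f6]
        linarith
      refine g1.trans (mul_le_mul_of_nonneg_right ?_ hl.le)
      unfold low5
      rw [min_eq_right hc]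
      unfold cN cu at *
      linarith

/-- the band -/
def SqBandX (A d β e0 : ℝ) : Set ((Option IX5 → ℝ) × (Kd → ℝ)) :=
  {q | q ∈ SqLowX A d β ∧ 4 * e0 * cκ (prX (dn q.1)) ≤ low5 (prX (dn q.1)) - q.1 none + d / 2}

/-- **the low levels of StrUX from the list-level Props** (gated functional), the band of `e0` -/
theorem strBandX_of_JBUX (H : E4X266.E4core7y) {π : Λ → DPar} {h : ℝ → ℝ}
    (hP : ∀ lam, (π lam).OK)
    (hl3 : ∀ lam, ¬ (π lam).CaseD → (π lam).l₃ = 0) (hh : Bump h) {θ A d β μ : ℝ}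
    (hA : 2 / 3 ≤ A) (hd : 0 < d) (hθ : 7 / 8 ≤ θ) {e0 r : ℝ} (he0 : 0 ≤ e0)
    {Bf : ℕ → ℝ → ℝ → ℝ → ℝ}
    (hBf : ∀ i l N z, 0 ≤ l → 0 ≤ z → 2 * Bf i l N z ≤
      min (2 * N - l) (3 / 4 * N) + 9 / 4 * z - Real.log 2 * i + d / 2 * l)
    {Jf : ℝ → ℝ → ℝ → Finset (Eis × Eis)} (hJf : ∀ l N z, OKJ (Jf l N z))
    (HJ : JBUX π h θ A d β μ e0 r Bf Jf) (HM : MnUX π h θ A d β μ e0 r Bf Jf)
    (HPr : PrUX π h θ A d β μ e0 r Bf Jf) (HS : SzUX π h A d β e0 r Bf Jf) :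
    UB (lev (Real.log 2) S5X) Dq
      (fun lam a ps => if a.2 < nL a.1.l (a3 a.1.toBd) a.1.z then
        MidX π h (SfEV π h e0 r (Bf a.2) Jf a.2) lam a.1 ps else 0)
      (SqBandX A d β e0) (alL ExP960.alX) fun q => T5 θ (prQ (dn q.1, q.2)) - μ := by
  intro ε hε
  have hε₁ : 0 < ε / 8 := by positivity
  set ε₁ : ℝ := ε / 8 with hε₁d
  obtain ⟨εJ, hεJ0, hεJ1, δJ, hδJ, HJ⟩ := HJ ε₁ hε₁
  obtain ⟨εM, hεM0, hεM1, δM, hδM, HM⟩ := HM ε₁ hε₁
  obtain ⟨εP, hεP0, hεP1, δP, hδP, HPr⟩ := HPr ε₁ hε₁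
  have hδ8 : 0 < d / (8 * (e0 + 8)) := by positivity
  set δ₀ : ℝ := min (min (min (min δJ δM) δP) (1 / 2)) (d / (8 * (e0 + 8))) with hδ₀d
  refine ⟨δ₀, by positivity, fun lam N B => ?_⟩
  by_cases hD : (π lam.1).CaseD
  · refine ⟨1, one_pos, 2, one_lt_two, fun X hX a ps _ _ q _ _ _ _ _ => ?_⟩
    beta_reduce
    rw [midX_caseD hD, ite_self]
    exact Real.rpow_nonneg (by linarith) _
  obtain ⟨R, hR1, hR2⟩ := Asm986.sw_bound (hP lam.1).U
  have hR : 0 < R := by linarith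
  have hU : ∀ y, R < y → (π lam.1).U y = 0 := by
    intro y hy
    by_contra h0
    exact absurd (hR2 y h0).2 (not_le.mpr hy)
  have hcs : ∃ m₀, PrI (π lam.1).n₃ m₀ ∧
      ∀ b, Sm (π lam.1).n₃ b → conj (conj ((π lam.1).χ₃ b)) = sy m₀ b := by
    rcases cs_of (hP lam.1) hD with h0 | h0
    · exact absurd (hl3 _ hD) h0
    · exact h0
  obtain ⟨T, Pm, hT, hPm, Hap⟩ := apym_dict H (hP lam.1).χ₃.conj hcs
  obtain ⟨A', hA'0, δJ', hδJ', XJ, hXJ, HJ⟩ := HJ lam N B T hD hT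
  obtain ⟨δM', hδM', XM, hXM, HM⟩ := HM lam N B R Pm hR hD hPm
  obtain ⟨δP', hδP', XP, hXP, HPr⟩ := HPr lam N B hD
  obtain ⟨A0, C0, XS, hA0, hC0, hXS, HS⟩ := HS lam N B R hR
  have hA0p : 0 < A0 := by linarith
  have hAs : 0 ≤ max A' (1 + |μ|) := hA'0.trans (le_max_left _ _)
  set As : ℝ := max A' (1 + |μ|) with hAsd
  have hεa : 0 < min ε₁ (εJ / 2) / A0 := by positivity
  set εa : ℝ := min ε₁ (εJ / 2) / A0 with hεad
  obtain ⟨C, J, hC, hJ0, Hap⟩ := Hap (VR (π lam.1).U R) (sw_VR (hP lam.1).U hR)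
    (VR_zero hR hU) εa As hεa hAs
  obtain ⟨Cs, hCs, Hs⟩ := sum_mid (Fin 3) (ε := ε₁ / A0) (by positivity)
  have hεm : 0 < min (min (min εJ εM) εP) 1 := by positivity
  set εm : ℝ := min (min (min εJ εM) εP) 1 with hεmd
  set δ' : ℝ := min (min (min δJ' δM') δP') (min 1 (ε₁ / (J + 1))) with hδ'd
  have hδ' : 0 < δ' := by positivity
  set R1 : ℝ := 1 + R ^ (4 / 3 : ℝ) with hR1d
  have hR10 : 0 < R1 := by positivity
  -- large `X`
  obtain ⟨X₁, hX₁⟩ := (((((ev_num (c := Real.exp 1 * (C0 / R)) (ε := εJ / 2)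
    (by positivity)).and
    (ev_num (c := R) hεm)).and (ev_levels (A0 / Real.log 2) 1 (ε := ε₁ / 6) (by positivity))).and
    (ev_num (c := 2 * (Cs * (‖(pC : ℂ)‖ * (C * ((R ^ (1 / 3 : ℝ) + 1 + R ^ (-(2 / 3) : ℝ)) *
      R1))))) hε₁)).and
    (eventually_ge_atTop (max (max (max XJ XM) XP) (max (max XS C0) (max 2 (Real.exp 1)))))
    ).exists_forall_of_atTop
  refine ⟨δ', hδ', max X₁ 2, lt_max_of_lt_right one_lt_two,
    fun X hX a ps hlen hlum q hdom hwin hmass hgood hal => ?_⟩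
  obtain ⟨⟨⟨⟨v1, v2⟩, v3⟩, v4⟩, v5⟩ := hX₁ X ((le_max_left _ _).trans hX)
  beta_reduce
  have hXJ' : XJ ≤ X :=
    ((le_max_left _ _).trans ((le_max_left _ _).trans (le_max_left _ _))).trans v5
  have hXM' : XM ≤ X :=
    ((le_max_right _ _).trans ((le_max_left _ _).trans (le_max_left _ _))).trans v5
  have hXP' : XP ≤ X := ((le_max_right _ _).trans (le_max_left _ _)).trans v5
  have hXS' : XS ≤ X :=
    ((le_max_left _ _).trans ((le_max_left _ _).trans (le_max_right _ _))).trans v5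
  have hXC0 : C0 ≤ X :=
    ((le_max_right _ _).trans ((le_max_left _ _).trans (le_max_right _ _))).trans v5
  have hX2 : 2 ≤ X :=
    ((le_max_left _ _).trans ((le_max_right _ _).trans (le_max_right _ _))).trans v5
  have hXe : Real.exp 1 ≤ X :=
    ((le_max_right _ _).trans ((le_max_right _ _).trans (le_max_right _ _))).trans v5
  have hX1 : 1 ≤ X := by linarith
  have hX0 : 0 < X := by linarith
  by_cases hlvl : a.2 < nL a.1.l (a3 a.1.toBd) a.1.z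
  swap
  · rw [if_neg hlvl]
    exact Real.rpow_nonneg hX0.le _
  rw [if_pos hlvl]
  by_cases hcond : a.1.ok ∧ lam.2 ∈ SM (π lam.1).n ∧ a.1.okP (π lam.1)
  swap
  · unfold MidX
    rw [if_neg hcond]
    exact Real.rpow_nonneg hX0.le _
  obtain ⟨hok, hSM, hokP⟩ := hcond
  have hfr : FrLX A d β δ₀ δ' B X N a ps q :=
    ⟨hlen, hlum, hdom.1.1, hwin, hmass, hgood, hal, hlvl, hdom.1.2⟩
  have hxl : ∀ x : Dt, x.OK (π lam.1) (Bf a.2) e0 r εm X a.1.toBd → XLowX d X q x :=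
    fun x hx => xlowX_of hfr (by linarith) hx hok hd hBf he0 (by
      have h1 : δ₀ ≤ d / (8 * (e0 + 8)) := min_le_right _ _
      rw [le_div_iff₀ (by positivity)] at h1
      linarith) ((min_le_left _ _).trans (min_le_right _ _)) hdom.2
  have hfrJ : FrLX A d β δJ δJ' B X N a ps q :=
    frLX_mono hfr hX1 ((min_le_left _ _).trans ((min_le_left _ _).trans ((min_le_left _ _).trans
      (min_le_left _ _)))) ((min_le_left _ _).trans ((min_le_left _ _).trans (min_le_left _ _)))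
  have hfrM : FrLX A d β δM δM' B X N a ps q :=
    frLX_mono hfr hX1 ((min_le_left _ _).trans ((min_le_left _ _).trans ((min_le_left _ _).trans
      (min_le_right _ _)))) ((min_le_left _ _).trans ((min_le_left _ _).trans (min_le_right _ _)))
  have hfrP : FrLX A d β δP δP' B X N a ps q :=
    frLX_mono hfr hX1 ((min_le_left _ _).trans ((min_le_left _ _).trans (min_le_right _ _)))
      ((min_le_left _ _).trans (min_le_right _ _))
  obtain ⟨sz, sd⟩ := HS X hXS' a ps q _ _ ((min_le_left _ _).trans (min_le_right _ _))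
    ((min_le_right _ _).trans (min_le_left _ _)) hfr hok hSM hokP
  set Y : ℝ := X ^ A0 with hYd
  have hY1 : 1 ≤ Y := Real.one_le_rpow hX1 hA0p.le
  have hY0 : 0 < Y := by linarith
  have hXY : X ≤ Y := by
    calc X = X ^ (1 : ℝ) := (Real.rpow_one X).symm
      _ ≤ Y := Real.rpow_le_rpow_of_exponent_le hX1 hA0
  have hYe : Real.exp 1 ≤ Y := hXe.trans hXY
  have hlY : 2 * a.1.l + Real.log C0 ≤ 3 * Real.log Y := by
    have h1 : Real.log (Real.exp a.1.l) ≤ Real.log Y := by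
      refine Real.log_le_log (Real.exp_pos _) (le_trans ?_ sz.KY)
      have := mul_le_mul_of_nonneg_right hR1 (Real.exp_pos a.1.l).le
      linarith
    rw [Real.log_exp] at h1
    have h2 : Real.log C0 ≤ Real.log Y := Real.log_le_log (by linarith) (hXC0.trans hXY)
    linarith
  set Tg : ℝ := X ^ (T5 θ (prQ (dn q.1, q.2)) - μ + ε₁) with hTgd
  have hTg : 0 < Tg := Real.rpow_pos_of_pos hX0 _
  -- the height
  have hτ : (1 + |a.1.τ|) ^ J ≤ X ^ ε₁ := by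
    have h1 : 1 + |a.1.τ| ≤ X ^ δ' := (le_max_left _ _).trans hwin.s₁
    have h2 : (1 + |a.1.τ|) ^ J ≤ (X ^ δ') ^ J :=
      Real.rpow_le_rpow (by positivity) h1 hJ0
    refine h2.trans ?_
    rw [← Real.rpow_mul hX0.le]
    refine Real.rpow_le_rpow_of_exponent_le hX1 ?_
    have h3 : δ' ≤ ε₁ / (J + 1) := (min_le_right _ _).trans (min_le_right _ _)
    have h4 : 0 < J + 1 := by linarith
    calc δ' * J ≤ ε₁ / (J + 1) * (J + 1) :=
          mul_le_mul h3 (by linarith) hJ0 (by positivity)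
      _ = ε₁ := by field_simp
  have hYa : Y ^ εa ≤ X ^ ε₁ := by
    rw [hYd, ← Real.rpow_mul hX0.le]
    refine Real.rpow_le_rpow_of_exponent_le hX1 ?_
    rw [hεad]
    have : A0 * (min ε₁ (εJ / 2) / A0) = min ε₁ (εJ / 2) := by field_simp
    rw [this]
    exact min_le_left _ _
  have hYa2 : Y ^ εa ≤ X ^ (εJ / 2) := by
    rw [hYd, ← Real.rpow_mul hX0.le]
    refine Real.rpow_le_rpow_of_exponent_le hX1 ?_
    rw [hεad]
    have : A0 * (min ε₁ (εJ / 2) / A0) = min ε₁ (εJ / 2) := by field_simp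
    rw [this]
    exact min_le_right _ _
  have hRJ : R ≤ X ^ εJ := v2.trans (Real.rpow_le_rpow_of_exponent_le hX1
    ((min_le_left _ _).trans ((min_le_left _ _).trans (min_le_left _ _))))
  have hdu : Real.exp 1 * (C0 / R) * Y ^ εa ≤ X ^ εJ := by
    calc Real.exp 1 * (C0 / R) * Y ^ εa ≤ X ^ (εJ / 2) * X ^ (εJ / 2) := by
          gcongr
      _ = X ^ εJ := by rw [← Real.rpow_add hX0]; congr 1; ring
  have hT5 : 0 ≤ T5 θ (prQ (dn q.1, q.2)) := t5X_nonneg (by linarith) hθ hdom.1.1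
  -- number of classes
  set Nc : ℕ := ⌊A0 / Real.log 2 * Real.log X⌋₊ + 1 with hNcd
  have hl2 : 0 < Real.log 2 := Real.log_pos (by norm_num)
  have hlX : 0 ≤ Real.log X := Real.log_nonneg hX1
  have hNc1 : (Nc : ℝ) ≤ A0 / Real.log 2 * Real.log X + 1 := by
    rw [hNcd]
    push_cast
    have := Nat.floor_le (show 0 ≤ A0 / Real.log 2 * Real.log X by positivity)
    linarith
  have hNc6 : (Nc : ℝ) ^ 6 ≤ X ^ ε₁ := by
    have h1 : (Nc : ℝ) ≤ X ^ (ε₁ / 6) := hNc1.trans v3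
    calc (Nc : ℝ) ^ 6 ≤ (X ^ (ε₁ / 6)) ^ 6 := pow_le_pow_left₀ (Nat.cast_nonneg _) h1 6
      _ = X ^ ε₁ := by
        rw [← Real.rpow_natCast, ← Real.rpow_mul hX0.le]
        congr 1
        push_cast
        ring
  have hNc2 : Y < 2 ^ Nc := by
    have h1 : A0 / Real.log 2 * Real.log X < Nc := by
      rw [hNcd]
      push_cast
      exact Nat.lt_floor_add_one _
    have h2 : A0 * Real.log X < Nc * Real.log 2 := by
      have := mul_lt_mul_of_pos_right h1 hl2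
      have h3 : A0 / Real.log 2 * Real.log X * Real.log 2 = A0 * Real.log X := by field_simp
      linarith
    have h3 : Y = Real.exp (A0 * Real.log X) := by
      rw [hYd, Real.rpow_def_of_pos hX0, mul_comm]
    have h4 : (2 : ℝ) ^ Nc = Real.exp (Nc * Real.log 2) := by
      rw [← Real.rpow_natCast, Real.rpow_def_of_pos (by norm_num), mul_comm]
    rw [h3, h4]
    exact Real.exp_lt_exp.mpr h2
  obtain ⟨ph, hph, hmid⟩ := midXV hh (hP lam.1) hR hU e0 r (Bf a.2) hJf a.2 a.1 ps sz.N₁ sz.N₂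
  refine hmid.trans ?_
  have hd3 : a.1.d₃ ≠ 0 := hok.base.2.2
  have hM0 : (π lam.1).n₃ ≠ 0 := (hP lam.1).χ₃.q0
  have hKp : 0 < R * Real.exp a.1.l := by positivity
  set cR : ℝ := R ^ (1 / 3 : ℝ) + 1 + R ^ (-(2 / 3) : ℝ) with hcRd
  have hcR : 0 < cR := by positivity
  set Tt : ℝ := (Nc : ℝ) ^ 6 * (C * Y ^ εa * X ^ ε₁ * (cR * (R1 * Tg))) with hTtd
  have hTt : 0 ≤ Tt := by positivity
  have key : ∀ j : Fin 2, ∑ g ∈ Gd (π lam.1).n a.1.d₃,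
      ‖(pC : ℂ)‖ * ∑ β ∈ T3 (Bf a.2) a.1.toBd r, ∑ e₀ ∈ S (Real.exp (e0 * a.1.l)),
        ∑ t ∈ Gd (π lam.1).n (tS (a.1.e * ∏ i, β i)),
        ∑ c₀ ∈ C4, ∑ g' ∈ MC (π lam.1).n₃ ⌊Y⌋₊, ∑ z ∈ MC (π lam.1).n₃ ⌊Y⌋₊,
          (R * Real.exp a.1.l : ℝ) ^ (-(2 / 3) : ℝ) *
          ‖ELf (π lam.1).n₃ (fun k => conj ((π lam.1).χ₃ k)) (π lam.1).l₃
            (PhF (fun k => ∃ w : Eis, k = w ^ 3)
              (Vt (π lam.1).U a.1.τ R (R * Real.exp a.1.l)) (R * Real.exp a.1.l))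
            (R * Real.exp a.1.l)
            (QK a.1.toBd (R * Real.exp a.1.l)) (fun q => q ^ 2 * g) (ph j g)
            (J3 Jf a.1.toBd a.2)
            (fun e x => omL a.2 x * TE (alX (π lam.1) h lam.2 a.1 β) x e)
            (b1 (π lam.1) h lam.2 ps) (b2X (π lam.1) h lam.2 a.1 ps j)
            ((fs_b1 (t := lam.2) (ps := ps) (hP lam.1) hh).fin.toFinset ×ˢ
              (fs_b2X (t := lam.2) (a := a.1) (ps := ps) (hP lam.1) hh j).fin.toFinset)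
            (a.1.e * ∏ i, β i) e₀ t c₀ g' z‖ ≤ Cs * Y ^ (ε₁ / A0) * (‖(pC : ℂ)‖ * Tt) := by
    intro j
    refine Hs Y Tt ‖(pC : ℂ)‖ (Real.exp (e0 * a.1.l)) (Y3 a.1.toBd r) ⌊Y⌋₊ ⌊Y⌋₊ (π lam.1).n
      (π lam.1).n₃ a.1.d₃ a.1.e (T3 (Bf a.2) a.1.toBd r)
      (fun g β e₀ t c₀ g' z => (R * Real.exp a.1.l : ℝ) ^ (-(2 / 3) : ℝ) *
          ‖ELf (π lam.1).n₃ (fun k => conj ((π lam.1).χ₃ k)) (π lam.1).l₃
            (PhF (fun k => ∃ w : Eis, k = w ^ 3)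
              (Vt (π lam.1).U a.1.τ R (R * Real.exp a.1.l)) (R * Real.exp a.1.l))
            (R * Real.exp a.1.l)
            (QK a.1.toBd (R * Real.exp a.1.l)) (fun q => q ^ 2 * g) (ph j g)
            (J3 Jf a.1.toBd a.2)
            (fun e x => omL a.2 x * TE (alX (π lam.1) h lam.2 a.1 β) x e)
            (b1 (π lam.1) h lam.2 ps) (b2X (π lam.1) h lam.2 a.1 ps j)
            ((fs_b1 (t := lam.2) (ps := ps) (hP lam.1) hh).fin.toFinset ×ˢ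
              (fs_b2X (t := lam.2) (a := a.1) (ps := ps) (hP lam.1) hh j).fin.toFinset)
            (a.1.e * ∏ i, β i) e₀ t c₀ g' z‖)
      (fun _ hβ => (mem_PTb.mp hβ).1) hY1 hTt (norm_nonneg _)
      (by rw [Fintype.card_fin]; exact sz.y3) sz.eY (Nat.floor_le hY0.le) (Nat.floor_le hY0.le)
      hM0 sz.n₃ hd3 sz.d₃ hokP.1.1 sz.eN ?_
    intro g hg β hβ e₀ he₀ t ht c₀ hc₀ g' hg' z hz
    refine summandX_le (As := As) hP hh hJf hokP hd3 (hl3 _ hD) hX1 hR v2 sz hC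
      (mul_pos hR10 hTg) hτ (Real.rpow_nonneg hX0.le _) hNc2
      (fun nr hnr hn => (hTA_le hX1 hA0 (le_max_right _ _) (e := T5 θ (prQ (dn q.1, q.2)) -
        μ + ε₁) (by linarith) hnr hn).trans ?_) j
      (fun x hx hI h₁ h₂ => ?_) (hph j) hg hβ he₀ ht hc₀ hg' hz
    · rw [← hTgd]
      refine div_le_div_of_nonneg_right ?_ hnr.le
      have : 0 ≤ R ^ (4 / 3 : ℝ) * Tg := by positivity
      rw [hR1d]
      linarith
    have hs := sd x (hx.mono hX1 (min_le_right _ _)) hI j h₁ h₂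
    obtain ⟨hJ0', hJs⟩ := HJ X hXJ' a ps q hfrJ hok hSM hokP x
      (hx.mono hX1 ((min_le_left _ _).trans ((min_le_left _ _).trans (min_le_left _ _))))
      (hxl x hx) hI j h₁ h₂
    have hM : 0 < hE (π lam.1) a ps x → ∀ m ∈ Pm, ∀ T₀ : ℝ, 0 ≤ T₀ →
        HM5 (π lam.1).n₃ 1 lD (vE π h lam Jf a x) (wE π h lam Jf a ps x j h₁ h₂)
        (R * Real.exp a.1.l) T₀ (mtr (some m)) (Tg * Real.exp (2 / 3 * a.1.l) / nrm x) :=
      fun h0 m hm T₀ hT0 => HM X hXM' a ps q hfrM hok hSM hokP x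
        (hx.mono hX1 ((min_le_left _ _).trans ((min_le_left _ _).trans (min_le_right _ _))))
        (hxl x hx) hI h0 j h₁ h₂ m hm T₀ hT0
    have hPr : 0 < hE (π lam.1) a ps x →
        MpY 1 cD lD (vE π h lam Jf a x) (wE π h lam Jf a ps x j h₁ h₂) (Real.exp a.1.l)
          (hE (π lam.1) a ps x) ≤ Tg * Real.exp (2 / 3 * a.1.l) / nrm x :=
      fun h0 => HPr X hXP' a ps q hfrP hok hSM hokP x
        (hx.mono hX1 ((min_le_left _ _).trans (min_le_right _ _))) (hxl x hx) hI h0 j h₁ h₂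
    exact ⟨hs.nrm, classX_le (hP lam.1) hokP hx hR1 hs (by linarith) hC Hap hYe sz.K1 sz.KY hlY
      hRJ hdu (le_max_left _ _) hTg hJ0' hJs hM hPr⟩
  refine (sum_le_sum fun j _ => key j).trans ?_
  rw [sum_const, card_univ, Fintype.card_fin, nsmul_eq_mul]
  have e1 : Y ^ (ε₁ / A0) = X ^ ε₁ := by
    rw [hYd, ← Real.rpow_mul hX0.le]
    congr 1
    field_simp
  have e2 : Tt ≤ X ^ ε₁ * (C * X ^ ε₁ * X ^ ε₁ * (cR * (R1 * Tg))) := by
    rw [hTtd]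
    gcongr
  have e3 : Tg = X ^ (T5 θ (prQ (dn q.1, q.2)) - μ) * X ^ ε₁ := by
    rw [hTgd, Real.rpow_add hX0]
  calc ((2 : ℕ) : ℝ) * (Cs * Y ^ (ε₁ / A0) * (‖(pC : ℂ)‖ * Tt))
      ≤ ((2 : ℕ) : ℝ) * (Cs * X ^ ε₁ * (‖(pC : ℂ)‖ *
          (X ^ ε₁ * (C * X ^ ε₁ * X ^ ε₁ * (cR * (R1 * Tg)))))) := by
        rw [e1]
        gcongr
    _ = (2 * (Cs * (‖(pC : ℂ)‖ * (C * (cR * R1))))) *
          (X ^ ε₁ * X ^ ε₁ * X ^ ε₁ * X ^ ε₁ * Tg) := by
        push_cast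
        ring
    _ ≤ X ^ ε₁ * (X ^ ε₁ * X ^ ε₁ * X ^ ε₁ * X ^ ε₁ * Tg) := by
        refine mul_le_mul_of_nonneg_right v4 (by positivity)
    _ = X ^ (T5 θ (prQ (dn q.1, q.2)) - μ) * X ^ (6 * ε₁) := by
        rw [e3]
        have h6 : X ^ (6 * ε₁) = X ^ ε₁ * X ^ ε₁ * X ^ ε₁ * X ^ ε₁ * X ^ ε₁ * X ^ ε₁ := by
          rw [← Real.rpow_add hX0, ← Real.rpow_add hX0, ← Real.rpow_add hX0,
            ← Real.rpow_add hX0, ← Real.rpow_add hX0]
          congr 1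
          ring
        rw [h6]
        ring
    _ ≤ X ^ (T5 θ (prQ (dn q.1, q.2)) - μ + ε) := by
        rw [← Real.rpow_add hX0]
        refine Real.rpow_le_rpow_of_exponent_le hX1 ?_
        rw [hε₁d]
        linarith

end Crest.Agent.R017.E4X164
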