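import Crest.Agent.R017.E4Xg_92
import Crest.Agent.R017.E4RGa_858

/-!
# Row 17, block C70, leaf E4 (x-side): the frequencies with a restricted cube part (helper92)

* `TSR` : the `T`-functional, cube parts `y c`, `y ∈ Ys`
* `tw_sumR` : the sum over the cells
* `dec_freq` : the cube part of a frequency
-/

set_option autoImplicit false
set_option linter.unusedVariables false
set_option maxHeartbeats 400000

noncomputable section

open Complex
open scoped ComplexConjugate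

namespace Crest.Agent.R017.E4X92

open Crest.Agent.R012 Crest.Agent.R012.Eis Crest.Agent.R012.MC Crest.Agent.R012.GaussLoc283
open Crest.Agent.R012.Mob705
open Crest.Agent.R012.LS2 (S mem_S)
open Crest.Agent.R012.Div277 (dvs mem_dvs isPrim_of_mem_dvs dvd_of_mem_dvs tau tau_le_rpow)
open Crest.Agent.R017.CM106 (CS FS)
open Crest.Agent.R017.C70 (CbF JC)
open Crest.Agent.R017.GrB829 (IsC)
open Crest.Agent.R017.PX764 (n6 th)
open Crest.Agent.R017.E3D579 (b0 bt bF CS_bF_zero FS_b0)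
open Crest.Agent.R017.E4352 (rd dvd_rd Sd PrI)
open Crest.Agent.R017.E4579 (SupB bpt bco bpt_prim bco_prim bpt_mul_bco)
open Crest.Agent.R017.E4v92 (FF WW AA AA_spec)
open Crest.Agent.R017.E4RG858 (pow_dvd_iff dvd_iff_mult mult_mul mult_pow mult_eq_zero fac)
open Crest.Agent.R017.E4zz92
open Crest.Agent.R017.E3q681 (TW AQ SA)
open Crest.Agent.R012.NonCube52 (kc)
open Finset

/-! ### multiplicities -/

lemma mult_sqf' {s p : Eis} (hs : Squarefree s) (hs0 : s ≠ 0) (hp : Prime p) :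
    multiplicity p s ≤ 1 := by
  by_contra h
  have h1 : 2 ≤ multiplicity p s := by omega
  rw [← pow_dvd_iff hp hs0, pow_two] at h1
  exact hp.not_isUnit (hs p h1)

lemma mult_cbf {s p : Eis} (hs : CbF s) (hs0 : s ≠ 0) (hp : Prime p) :
    multiplicity p s ≤ 2 := by
  by_contra h
  have h1 : 3 ≤ multiplicity p s := by omega
  rw [← pow_dvd_iff hp hs0] at h1
  exact hs p hp h1

lemma cbf_of_mult {s : Eis} (hs0 : s ≠ 0) (h : ∀ p, Prime p → multiplicity p s ≤ 2) :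
    CbF s := by
  intro p hp hd
  rw [pow_dvd_iff hp hs0] at hd
  have := h p hp
  omega

lemma CbF_sq {a b : Eis} (ha : IsPrim a) (hb : IsPrim b) (has : Squarefree a)
    (hbs : Squarefree b) (hc : IsCoprime a b) : CbF (a * b ^ 2) := by
  refine cbf_of_mult (mul_ne_zero ha.ne_zero (pow_ne_zero 2 hb.ne_zero)) fun p hp => ?_
  rw [mult_mul hp ha.ne_zero (pow_ne_zero 2 hb.ne_zero), mult_pow hp hb.ne_zero]
  have e1 := mult_sqf' has ha.ne_zero hp
  have e2 := mult_sqf' hbs hb.ne_zero hp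
  by_cases h : p ∣ b
  · have h' : ¬ p ∣ a := fun h2 => hp.not_isUnit (hc.isUnit_of_dvd' h2 h)
    rw [mult_eq_zero hp ha.ne_zero h']
    omega
  · rw [mult_eq_zero hp hb.ne_zero h]
    omega

/-- the decomposition of the frequency -/
lemma exists_dec' {j : Eis} (hj : IsPrim j) : ∃ z : Eis × Eis, IsPrim z.1 ∧ IsPrim z.2 ∧
    j = z.1 * z.2 ^ 3 ∧ (nm (kc j).2 : ℝ) = nm z.2 ∧ CbF z.1 := by
  obtain ⟨p1, p2, p3, s1, s2, hcc, he⟩ := GLS106.dec_spec hj
  refine ⟨((GLS106.dec j).1 * (GLS106.dec j).2.1 ^ 2, (GLS106.dec j).2.2), p1.mul (p2.pow 2), p3,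
    he, ?_, CbF_sq p1 p2 s1 s2 hcc⟩
  refine E3q681.nm_kc_of_dec hj.ne_zero (a := (GLS106.dec j).1) (b := (GLS106.dec j).2.1) ?_
  refine ⟨by norm_num, by norm_num, p1, p2, s1, s2, hcc, p3.ne_zero, ?_⟩
  rw [pow_zero, pow_zero, one_mul, one_mul]
  exact he

/-- no moment at the frequencies which are not coprime to the dilation -/
lemma CS_cell0 {α : Eis → ℂ} (hα : FS α) {e κ j : Eis} (he : IsPrim e) (hκ : IsPrim κ)
    (hc : ¬ IsCoprime j κ) {e₀ f₀ : Eis} :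
    ‖CS (bF κ 1 (b0 (fun m => α (e * m)) e e₀ f₀)) j‖ ^ 2 = 0 := by
  have ha : FS (fun m => α (e * m)) := E4v92.FS_sub hα he
  rcases b0_one (fun m => α (e * m)) e e₀ f₀ with h | h
  · rw [h, CS_bF_zero hκ (FS_b0 ha 1 e₀ f₀) hc, norm_zero, zero_pow two_ne_zero]
  · rw [h, bF_zero, CS_zero', norm_zero, zero_pow two_ne_zero]

/-! ### cube parts in a set -/

/-- the cube part lies in `Ys` -/
def YIn (Ys : Finset Eis) (N : Eis) : Prop :=
  ∃ y ∈ Ys, ∃ J, IsPrim y ∧ IsPrim J ∧ CbF J ∧ N = J * y ^ 3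

open Classical in
/-- the `T`-functional, divisors in `Es`, cube parts in `Ys` times cubes -/
def TSR (α : Eis → ℂ) (e₀ c₀ : Eis) (ex : ℝ) (Es Ys : Finset Eis) (L : ℝ) : ℝ :=
  ∑ c ∈ primBall ⌊L⌋₊, (nm c : ℝ) ^ (-ex) * ∑ e ∈ Es, ∑ y ∈ Ys,
    ∑ J ∈ (primBall ⌊L / nm c ^ 3 / nm y ^ 3⌋₊).filter CbF, TT α e₀ c₀ e (J * y ^ 3 * c ^ 3)

lemma TSR_nonneg (α : Eis → ℂ) (e₀ c₀ : Eis) (ex : ℝ) (Es Ys : Finset Eis) (L : ℝ) :
    0 ≤ TSR α e₀ c₀ ex Es Ys L := by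
  unfold TSR
  refine sum_nonneg fun c _ => mul_nonneg (by positivity) (sum_nonneg fun e _ => sum_nonneg
    fun y _ => sum_nonneg fun J _ => TT_nonneg _ _ _ _ _)

open Classical in
lemma yin_sum {α : Eis → ℂ} {e₀ c₀ e c : Eis} {Ys : Finset Eis} {L : ℝ}
    (hTT : ∀ J, 0 ≤ TT α e₀ c₀ e (J * c ^ 3)) (hL : 0 ≤ L) (hc0 : (0 : ℝ) < nm c) :
    ∑ J ∈ (primBall ⌊L⌋₊).filter (fun J => (nm J : ℝ) ≤ L / nm c ^ 3 ∧ YIn Ys J),
      TT α e₀ c₀ e (J * c ^ 3) ≤ ∑ y ∈ Ys,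
        ∑ J ∈ (primBall ⌊L / nm c ^ 3 / nm y ^ 3⌋₊).filter CbF,
          TT α e₀ c₀ e (J * y ^ 3 * c ^ 3) := by
  have hch : ∀ N : Eis, ∃ z : Eis × Eis, YIn Ys N → z.1 ∈ Ys ∧ IsPrim z.1 ∧ IsPrim z.2 ∧
      CbF z.2 ∧ N = z.2 * z.1 ^ 3 := by
    intro N
    by_cases h : YIn Ys N
    · obtain ⟨y, hy, J, h1, h2, h3, h4⟩ := h
      exact ⟨(y, J), fun _ => ⟨hy, h1, h2, h3, h4⟩⟩
    · exact ⟨(1, 1), fun h' => absurd h' h⟩
  choose z hz using hch
  set D := (primBall ⌊L⌋₊).filter (fun J => (nm J : ℝ) ≤ L / nm c ^ 3 ∧ YIn Ys J) with hD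
  set F : (_ : Eis) × Eis → ℝ := fun p => TT α e₀ c₀ e (p.2 * p.1 ^ 3 * c ^ 3) with hF
  have e1 : ∑ J ∈ D, TT α e₀ c₀ e (J * c ^ 3) =
      ∑ J ∈ D, F ⟨(z J).1, (z J).2⟩ := by
    refine sum_congr rfl fun J hJ => ?_
    rw [hF]
    simp only
    rw [← (hz J (mem_filter.mp hJ).2.2).2.2.2.2]
  have hinj : Set.InjOn (fun J : Eis => (⟨(z J).1, (z J).2⟩ : (_ : Eis) × Eis)) (D : Set Eis) := by
    intro J hJ J' hJ' he
    have h1 := (hz J (mem_filter.mp (mem_coe.mp hJ)).2.2).2.2.2.2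
    have h2 := (hz J' (mem_filter.mp (mem_coe.mp hJ')).2.2).2.2.2.2
    simp only [Sigma.mk.injEq, heq_eq_eq] at he
    rw [h1, h2, he.1, he.2]
  rw [e1, ← sum_image hinj (f := F)]
  rw [sum_sigma' Ys (fun y => (primBall ⌊L / nm c ^ 3 / nm y ^ 3⌋₊).filter CbF)
    (fun y J => TT α e₀ c₀ e (J * y ^ 3 * c ^ 3))]
  refine sum_le_sum_of_subset_of_nonneg (fun p hp => ?_) fun p _ _ => TT_nonneg _ _ _ _ _
  obtain ⟨J, hJ, rfl⟩ := mem_image.mp hp
  obtain ⟨h1, h2, h3⟩ := mem_filter.mp hJ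
  obtain ⟨k1, k2, k3, k4, k5⟩ := hz J h3
  have hy0 : (0 : ℝ) < nm (z J).1 := by exact_mod_cast nm_pos.mpr k2.ne_zero
  rw [mem_sigma]
  refine ⟨k1, mem_filter.mpr ⟨mem_primBall.mpr ⟨Nat.le_floor ?_, k3⟩, k4⟩⟩
  rw [le_div_iff₀ (by positivity)]
  refine le_trans (le_of_eq ?_) h2
  have h5 := congrArg nm k5
  rw [nm_mul, nm_pow] at h5
  simp only
  rw [h5]
  push_cast
  ring

/-! ### the cube part of a frequency -/

/-- **the cube part of a frequency** -/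
theorem dec_freq {P h u j : Eis} {Ys : Finset Eis} (hP : IsPrim P) (hPc : CbF P) (hh : IsPrim h)
    (hhs : Squarefree h) (hu : IsPrim u) (hus : Squarefree u) (hhu : IsCoprime h u)
    (hPh : IsCoprime P h) (hPu : IsCoprime P u) (hj : IsPrim j) (hjc : CbF j)
    (hjh : IsCoprime j (h * u)) (hY : ∀ y, IsPrim y → Squarefree y → y ∣ P → y ∈ Ys) :
    YIn Ys (P * (h * (u * 1)) * j) := by
  rw [mul_one]
  have hNp : IsPrim (P * (h * u) * j) := (hP.mul (hh.mul hu)).mul hj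
  obtain ⟨p1, p2, p3, s1, s2, hcc, he⟩ := GLS106.dec_spec hNp
  set N := P * (h * u) * j with hN
  set a := (GLS106.dec N).1 with ha
  set b := (GLS106.dec N).2.1 with hb
  set y := (GLS106.dec N).2.2 with hy
  have hhu0 := mul_ne_zero hh.ne_zero hu.ne_zero
  have hPhu : IsCoprime P (h * u) := hPh.mul_right hPu
  have hhus : Squarefree (h * u) := squarefree_mul_iff.mpr ⟨hhu.isRelPrime, hhs, hus⟩
  have hmN : ∀ p, Prime p → multiplicity p N =
      multiplicity p P + multiplicity p (h * u) + multiplicity p j := by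
    intro p hp
    rw [hN, mult_mul hp (mul_ne_zero hP.ne_zero hhu0) hj.ne_zero, mult_mul hp hP.ne_zero hhu0]
  have hmy : ∀ p, Prime p → 3 * multiplicity p y ≤ multiplicity p N := by
    intro p hp
    rw [he, mult_mul hp (mul_ne_zero p1.ne_zero (pow_ne_zero 2 p2.ne_zero))
      (pow_ne_zero 3 p3.ne_zero), mult_pow hp p3.ne_zero]
    omega
  -- the two bounds
  have hb1 : ∀ p, Prime p → multiplicity p (h * u) + multiplicity p j ≤ 2 := by
    intro p hp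
    have e1 := mult_sqf' hhus hhu0 hp
    have e2 := mult_cbf hjc hj.ne_zero hp
    by_cases h1 : p ∣ j
    · have h' : ¬ p ∣ h * u := fun h2 => hp.not_isUnit (hjh.isUnit_of_dvd' h1 h2)
      rw [mult_eq_zero hp hhu0 h']
      omega
    · rw [mult_eq_zero hp hj.ne_zero h1]
      omega
  have hmP : ∀ p, Prime p → multiplicity p P ≤ 2 := fun p hp => mult_cbf hPc hP.ne_zero hp
  refine ⟨y, hY y p3 ?_ ?_, a * b ^ 2, p3, p1.mul (p2.pow 2), CbF_sq p1 p2 s1 s2 hcc, he⟩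
  · -- squarefree
    rw [squarefree_iff_no_irreducibles p3.ne_zero]
    intro p hpi hd
    have hp : Prime p := hpi.prime
    have h1 : 2 ≤ multiplicity p y := by
      rw [← pow_dvd_iff hp p3.ne_zero, pow_two]; exact hd
    have h2 := hmy p hp
    have h3 := hmN p hp
    have h4 := hb1 p hp
    have h5 := hmP p hp
    omega
  · refine dvd_of_primes ?_ fun p hp hd => ?_
    · rw [squarefree_iff_no_irreducibles p3.ne_zero]
      intro p hpi hd
      have hp : Prime p := hpi.prime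
      have h1 : 2 ≤ multiplicity p y := by
        rw [← pow_dvd_iff hp p3.ne_zero, pow_two]; exact hd
      have h2 := hmy p hp
      have h3 := hmN p hp
      have h4 := hb1 p hp
      have h5 := hmP p hp
      omega
    · have h1 := (dvd_iff_mult hp p3.ne_zero).mp hd
      have h2 := hmy p hp
      have h3 := hmN p hp
      have h4 := hb1 p hp
      rw [dvd_iff_mult hp hP.ne_zero]
      omega

open Classical in
/-- **the sum of the moments of the cells**, divisors in `Es`, cube parts in `Ys` -/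
theorem tw_sumR {ε : ℝ} (hε : 0 < ε) : ∃ C : ℝ, 0 ≤ C ∧ ∀ (Y : ℝ) (f : Fr) (T : Finset Tu)
    (α : Eis → ℂ) (e₀ c₀ : Eis) (ex X L : ℝ) (Es Bs Ys : Finset Eis),
    1 ≤ Y → f.OK Y → FS α → 0 ≤ X → 0 ≤ L → L ≤ Y →
    (∀ a ∈ T, a.OK f Y ∧ a.j = 1 ∧ a.c = 1 ∧ bpt (f.Sf a.q) a.ν ∈ Bs ∧ a.e f ∈ Es ∧
      nm (a.J f) * X ≤ L ∧ (∀ j, IsPrim j → CbF j → IsCoprime j (a.h * a.u) → YIn Ys (a.J f * j))) →
    ∑ a ∈ T, TW ex X (cb f α e₀ c₀ a) ≤
      C * Y ^ ε * (Bs.card * TSR α e₀ c₀ ex Es Ys L) := by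
  obtain ⟨C, hC, h⟩ := tcount hε
  refine ⟨C, hC, ?_⟩
  intro Y f T α e₀ c₀ ex X L Es Bs Ys hY hf hα hX hL hLY hT
  have hdec : ∀ j : Eis, ∃ z : Eis × Eis, IsPrim j → IsPrim z.1 ∧ IsPrim z.2 ∧
      j = z.1 * z.2 ^ 3 ∧ (nm (kc j).2 : ℝ) = nm z.2 ∧ CbF z.1 := by
    intro j
    by_cases hj : IsPrim j
    · obtain ⟨z, hz⟩ := exists_dec' hj
      exact ⟨z, fun _ => hz⟩
    · exact ⟨(1, 1), fun h' => absurd h' hj⟩
  choose z hz using hdec
  -- the tuples
  set P := primBall ⌊X⌋₊ with hP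
  set mk : Tu × Eis → Tu := fun y => { y.1 with j := (z y.2).1, c := (z y.2).2 } with hmk
  set T' := (T ×ˢ P).filter (fun y => IsCoprime y.2 (y.1.h * y.1.u)) with hT'
  have hpr : ∀ y ∈ T', IsPrim y.2 ∧ (nm y.2 : ℝ) ≤ X := by
    intro y hy
    obtain ⟨h1, h2⟩ := mem_primBall.mp (mem_product.mp (mem_filter.mp hy).1).2
    exact ⟨h2, (Nat.le_floor_iff hX).mp h1⟩
  have hinj : Set.InjOn mk (T' : Set (Tu × Eis)) := by
    intro y hy y' hy' he
    have hy := mem_coe.mp hy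
    have hy' := mem_coe.mp hy'
    obtain ⟨-, k1, k2, -⟩ := hT y.1 (mem_product.mp (mem_filter.mp hy).1).1
    obtain ⟨-, k1', k2', -⟩ := hT y'.1 (mem_product.mp (mem_filter.mp hy').1).1
    obtain ⟨a, j⟩ := y
    obtain ⟨a', j'⟩ := y'
    cases a
    cases a'
    simp only [hmk, Tu.mk.injEq] at he
    simp only at k1 k2 k1' k2'
    obtain ⟨m1, m2, m3, m4, m5, m6, m7, m8, m9, m10, m11, m12⟩ := he
    have e1 := (hz j (hpr _ hy).1).2.2.1
    have e2 := (hz j' (hpr _ hy').1).2.2.1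
    have e3 : j = j' := by rw [e1, e2, m11, m12]
    simp only [Prod.mk.injEq, Tu.mk.injEq]
    exact ⟨⟨m1, m2, m3, m4, m5, m6, m7, m8, m9, m10, k1.trans k1'.symm, k2.trans k2'.symm⟩, e3⟩
  set F : Eis × Eis × Eis × Eis → ℝ := fun x =>
    (nm x.2.1 : ℝ) ^ (-ex) * TT α e₀ c₀ x.2.2.1 (x.2.2.2 * x.2.1 ^ 3) with hF
  set B : Finset (Eis × Eis × Eis × Eis) := (Bs ×ˢ primBall ⌊L⌋₊ ×ˢ
    Es ×ˢ primBall ⌊L⌋₊).filter
      (fun x => (nm x.2.2.2 : ℝ) ≤ L / nm x.2.1 ^ 3 ∧ YIn Ys x.2.2.2) with hB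
  have hJe : ∀ y ∈ T', (mk y).J f * (mk y).c ^ 3 = y.1.J f * y.2 := by
    intro y hy
    obtain ⟨-, k1, k2, -⟩ := hT y.1 (mem_product.mp (mem_filter.mp hy).1).1
    have e1 := (hz y.2 (hpr _ hy).1).2.2.1
    simp only [hmk, Tu.J]
    rw [k1]
    conv_rhs => rw [e1]
    ring
  have hJn : ∀ y ∈ T', (nm ((mk y).J f) : ℝ) * nm (mk y).c ^ 3 ≤ L := by
    intro y hy
    obtain ⟨-, -, -, -, -, k6, -⟩ := hT y.1 (mem_product.mp (mem_filter.mp hy).1).1
    have e1 := hJe y hy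
    have e2 : (nm ((mk y).J f) : ℝ) * nm (mk y).c ^ 3 = nm (y.1.J f) * nm y.2 := by
      have := congrArg nm e1
      rw [nm_mul, nm_pow, nm_mul] at this
      exact_mod_cast this
    rw [e2]
    refine le_trans ?_ k6
    exact mul_le_mul_of_nonneg_left (hpr y hy).2 (Nat.cast_nonneg _)
  have hOK : ∀ y ∈ T', (mk y).OK f Y := by
    intro y hy
    obtain ⟨k, k1, k2, k3, k4, k5, k7⟩ := hT y.1 (mem_product.mp (mem_filter.mp hy).1).1
    obtain ⟨z1, z2, z3, z4, z5⟩ := hz y.2 (hpr _ hy).1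
    have n1 : (1 : ℝ) ≤ nm (mk y).c ^ 3 := by
      have : (1 : ℝ) ≤ nm (mk y).c := by
        exact_mod_cast nm_pos.mpr z2.ne_zero
      exact one_le_pow₀ this
    exact {
      hq := k.hq, hqq := k.hqq, hS := k.hS, h1 := k.h1, h2 := k.h2, hν := k.hν, hs := k.hs,
      hR := k.hR, hτ := k.hτ, hτq := k.hτq, hτS := k.hτS, husτ := k.husτ, hg := k.hg, hh := k.hh,
      hδ := k.hδ, hj := z1, hP := k.hP
      hJY := by
        refine le_trans ?_ hLY
        refine le_trans ?_ (hJn y hy)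
        exact le_mul_of_one_le_right (Nat.cast_nonneg _) n1
      heY := k.heY
      hbY := k.hbY }
  have hBm : ∀ a ∈ T'.image mk, tgt f a ∈ B := by
    intro a ha
    obtain ⟨y, hy, rfl⟩ := mem_image.mp ha
    obtain ⟨k, k1, k2, k3, k4, k5, k7⟩ := hT y.1 (mem_product.mp (mem_filter.mp hy).1).1
    obtain ⟨z1, z2, z3, z4, z5⟩ := hz y.2 (hpr _ hy).1
    have hc1 : (1 : ℝ) ≤ nm (mk y).c := by exact_mod_cast nm_pos.mpr z2.ne_zero
    have hc3 : (nm (mk y).c : ℝ) ≤ nm (mk y).c ^ 3 := le_self_pow₀ hc1 (by norm_num)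
    have hJ1 : (1 : ℝ) ≤ nm ((mk y).J f) := by
      exact_mod_cast nm_pos.mpr ((hOK y hy).Jprim hf).ne_zero
    have n3 := hJn y hy
    have hJA : YIn Ys ((mk y).J f) := by
      have e1 : (mk y).J f = y.1.J f * (z y.2).1 := by
        simp only [hmk, Tu.J]
        rw [k1]
        ring
      rw [e1]
      refine k7 _ z1 z5 ?_
      have h7 := (mem_filter.mp hy).2
      rw [z3] at h7
      exact h7.of_mul_left_left
    have n4 : (nm (mk y).c : ℝ) ≤ L := by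
      calc (nm (mk y).c : ℝ) = nm (mk y).c * 1 := by ring
        _ ≤ nm (mk y).c ^ 3 * nm ((mk y).J f) := by gcongr
        _ = nm ((mk y).J f) * nm (mk y).c ^ 3 := by ring
        _ ≤ L := n3
    have n5 : (nm ((mk y).J f) : ℝ) ≤ L := by
      refine le_trans ?_ n3
      exact le_mul_of_one_le_right (Nat.cast_nonneg _) (one_le_pow₀ hc1)
    rw [hB, mem_filter]
    refine ⟨?_, ?_⟩
    · unfold tgt
      simp only [mem_product, mem_primBall]
      exact ⟨k3, ⟨Nat.le_floor n4, z2⟩, k4, Nat.le_floor n5, (hOK y hy).Jprim hf⟩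
    · unfold tgt
      simp only
      rw [le_div_iff₀ (by positivity)]
      exact ⟨n3, hJA⟩
  have h1 := h Y f (T'.image mk) B F hY hf (fun a ha => by
    obtain ⟨y, hy, rfl⟩ := mem_image.mp ha
    exact hOK y hy) hBm (fun x _ => mul_nonneg (by positivity) (TT_nonneg _ _ _ _ _))
  rw [sum_image hinj] at h1
  have h2 : ∑ a ∈ T, TW ex X (cb f α e₀ c₀ a) ≤ ∑ y ∈ T', F (tgt f (mk y)) := by
    rw [hT', sum_filter, sum_product]
    refine sum_le_sum fun a ha => ?_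
    unfold E3q681.TW
    refine sum_le_sum fun j hj => ?_
    obtain ⟨k, k1, k2, k3, k4, k5, k7⟩ := hT a ha
    have hjp : IsPrim j := (mem_primBall.mp hj).2
    obtain ⟨z1, z2, z3, z4, z5⟩ := hz j hjp
    split_ifs with hcj
    · have hmem : (a, j) ∈ T' := mem_filter.mpr ⟨mem_product.mpr ⟨ha, hj⟩, hcj⟩
      rw [z4]
      refine mul_le_mul_of_nonneg_left ?_ (by positivity)
      unfold cb
      refine (CS_cell hα (k.eprim hf) (k.hh.mul k.hs.hu) hjp e₀ _).trans (le_of_eq ?_)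
      unfold TT
      congr 2
      have e1 := hJe (a, j) hmem
      have e2 : (tgt f (mk (a, j))).2.2.2 * (tgt f (mk (a, j))).2.1 ^ 3 = a.J f * j := e1
      rw [e2]
      unfold Tu.J
      rw [k1]
      have e3 : (tgt f (mk (a, j))).2.2.1 = a.e f := rfl
      rw [e3]
      congr 1
      ring
    · unfold cb
      rw [CS_cell0 hα (k.eprim hf) (k.hh.mul k.hs.hu) hcj, mul_zero]
  refine h2.trans (h1.trans (mul_le_mul_of_nonneg_left ?_ (by positivity)))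
  -- the sum over the target
  unfold TSR
  rw [hB, sum_filter, sum_product]
  calc _ = ∑ b ∈ Bs, ∑ x ∈ primBall ⌊L⌋₊ ×ˢ Es ×ˢ primBall ⌊L⌋₊,
        (if (nm x.2.2 : ℝ) ≤ L / nm x.1 ^ 3 ∧ YIn Ys x.2.2 then
          (nm x.1 : ℝ) ^ (-ex) * TT α e₀ c₀ x.2.1 (x.2.2 * x.1 ^ 3) else 0) := rfl
    _ = Bs.card * ∑ x ∈ primBall ⌊L⌋₊ ×ˢ Es ×ˢ primBall ⌊L⌋₊,
        (if (nm x.2.2 : ℝ) ≤ L / nm x.1 ^ 3 ∧ YIn Ys x.2.2 then
          (nm x.1 : ℝ) ^ (-ex) * TT α e₀ c₀ x.2.1 (x.2.2 * x.1 ^ 3) else 0) := by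
        rw [sum_const, nsmul_eq_mul]
    _ ≤ _ := by
        refine mul_le_mul_of_nonneg_left ?_ (Nat.cast_nonneg _)
        rw [sum_product]
        refine sum_le_sum fun c hc => ?_
        rw [sum_product, mul_sum]
        refine sum_le_sum fun e he => ?_
        dsimp only
        rw [← sum_filter, ← mul_sum]
        refine mul_le_mul_of_nonneg_left ?_ (by positivity)
        have hc0 : (0 : ℝ) < nm c := by
          exact_mod_cast nm_pos.mpr (mem_primBall.mp hc).2.ne_zero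
        exact yin_sum (fun J => TT_nonneg _ _ _ _ _) hL hc0

end Crest.Agent.R017.E4X92
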