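import Crest.Agent.R017.E4Xh_681

/-!
# Row 17, block C70, leaf E4 (x-side), class E: the bounds of the cells in the sizes of the class,
two numbers (helper679)

Twin of helper681's `E4Xh_681` : the structured bound with the two classes of the natural
frequencies (`true` = cube class), numbers `W1 : Bool → ℝ`.

* `We` : the effective number; `AA x E Nα L (We x Nα L W n) n` has the last entry
  `E * (Th * ((√L + √(L N/Nb)) * W false + L^(1/3) (N/Nb)^(2/3) * W true))` (`AA_We`)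
* `CXB` : the bound of one cell, with an abstract R-part `RP`
* `cell_clsx` : **the bound of a cell**, numbers of the class
-/

set_option autoImplicit false
set_option linter.unusedVariables false
set_option maxHeartbeats 400000

noncomputable section

open Complex MeasureTheory
open scoped ComplexConjugate Classical ContDiff

namespace Crest.Agent.R017.E4Xhx679

open Crest.Agent.R012 Crest.Agent.R012.Eis Crest.Agent.R012.MC
open Crest.Agent.R012.LS2 (S mem_S bl mem_bl)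
open Crest.Agent.R012.Div277 (dvs mem_dvs isPrim_of_mem_dvs dvd_of_mem_dvs tau tau_le_rpow)
open Crest.Agent.R012.Mob705 (mu pdiv mem_pdiv)
open Crest.Agent.R012.NonCube52 (Ker kv Good kc kc_spec kc_nm kv_ne_zero one_le_nmkv)
open Crest.Agent.R012.Weight600 (pw osc)
open Crest.Agent.R017.PX764 (n6 Gh)
open Crest.Agent.R017.CM106 (CS TG FS)
open Crest.Agent.R017.E1551 (nmpos jb jb_pos nm_ge_one summable_wF)
open Crest.Agent.R017.BD829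
open Crest.Agent.R017.E3P842
open Crest.Agent.R017.E3D579
open Crest.Agent.R017.E3Sd579
open Crest.Agent.R017.Mode405
open Crest.Agent.R017.E3q681 hiding TD TD_nonneg
open Crest.Agent.R017.E4v92 (FF WW)
open Crest.Agent.R017.E4z92 (OKs cZ QQ RQ As Ss mem_As mem_Ss)
open Crest.Agent.R017.E4zz92 (Tu PP)
open Crest.Agent.R017.E4F266 (IP IP_mem)
open Crest.Agent.R017.E4352 (rd dvd_rd)
open Crest.Agent.R017.E4579 (SupB)
open Crest.Agent.R017.E4X92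
open Crest.Agent.R017.E4Xb681
open Gauss880 (syG)

/-! ### the effective number of a class -/

/-- the effective number -/
def We (x : XF) (Nα L : ℝ) (W : Bool → ℝ) (n : Fin 12 → ℕ) : ℝ :=
  W false + L ^ (1 / 3 : ℝ) * (x.Nn n / Nbn x Nα n) ^ (2 / 3 : ℝ) /
    (Real.sqrt L + Real.sqrt (L * x.Nn n / Nbn x Nα n)) * W true

lemma We_nonneg' {x : XF} {Nα L : ℝ} {W : Bool → ℝ} {n : Fin 12 → ℕ} (hL : 0 ≤ L)
    (hN : 0 ≤ x.Nn n / Nbn x Nα n) (hW : ∀ jj, 0 ≤ W jj) : 0 ≤ We x Nα L W n := by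
  have h1 := Real.sqrt_nonneg L
  have h2 := Real.sqrt_nonneg (L * x.Nn n / Nbn x Nα n)
  have h3 : 0 ≤ (x.Nn n / Nbn x Nα n) ^ (2 / 3 : ℝ) := Real.rpow_nonneg hN _
  have h4 : 0 ≤ L ^ (1 / 3 : ℝ) := Real.rpow_nonneg hL _
  have h5 := hW false
  have h6 := hW true
  unfold We
  positivity

lemma We_nonneg {x : XF} {Nα L : ℝ} (hV : 0 < x.V) (hc : x.c₀ ≠ 0) (hg : x.g₂ ≠ 0) (hN : 0 < Nα)
    (hL : 0 < L) {W : Bool → ℝ} (hW : ∀ jj, 0 ≤ W jj) (n : Fin 12 → ℕ) :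
    0 ≤ We x Nα L W n :=
  We_nonneg' hL.le (div_nonneg (Nn_pos hV hc hg n).le (Nbn_pos hN hg n).le) hW

/-- the factor of the effective number -/
lemma We_mul {x : XF} {Nα L : ℝ} (hL : 0 < L) (W : Bool → ℝ) {n : Fin 12 → ℕ} :
    (Real.sqrt L + Real.sqrt (L * x.Nn n / Nbn x Nα n)) * We x Nα L W n =
      (Real.sqrt L + Real.sqrt (L * x.Nn n / Nbn x Nα n)) * W false +
        L ^ (1 / 3 : ℝ) * (x.Nn n / Nbn x Nα n) ^ (2 / 3 : ℝ) * W true := by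
  have h1 := Real.sqrt_pos.mpr hL
  have h2 := Real.sqrt_nonneg (L * x.Nn n / Nbn x Nα n)
  have h3 : Real.sqrt L + Real.sqrt (L * x.Nn n / Nbn x Nα n) ≠ 0 := by positivity
  unfold We
  field_simp

/-- the last number of a class -/
lemma AA_We {x : XF} {E Nα L : ℝ} (W : Bool → ℝ) (n : Fin 12 → ℕ) (hL : 0 < L) :
    AA x E Nα L (We x Nα L W n) n 3 =
      E * (Th (Kc x n) (x.Nn n) (qn x n) L *
        ((Real.sqrt L + Real.sqrt (L * x.Nn n / Nbn x Nα n)) * W false +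
          L ^ (1 / 3 : ℝ) * (x.Nn n / Nbn x Nα n) ^ (2 / 3 : ℝ) * W true)) := by
  rw [← We_mul hL W]
  rfl

section real

variable {K K' N N' q L Nb Nb' : ℝ} {W : Bool → ℝ}

lemma A3x_cmp (hK : 0 < K') (hN : 0 < N) (hq : 0 ≤ q) (hL : 0 < L) (hW : ∀ jj, 0 ≤ W jj)
    (hNb' : 0 < Nb') (h1 : K' ≤ 4 * K) (h2 : N ≤ N') (h4 : Nb' ≤ 8 * Nb) :
    18 * Th K N (8 * q) L * ((Real.sqrt L + Real.sqrt (L * N / Nb)) * W false +
        L ^ (1 / 3 : ℝ) * (N / Nb) ^ (2 / 3 : ℝ) * W true) ≤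
      1728 * (Th K' N' q L * ((Real.sqrt L + Real.sqrt (L * N' / Nb')) * W false +
        L ^ (1 / 3 : ℝ) * (N' / Nb') ^ (2 / 3 : ℝ) * W true)) := by
  have a1 := Th_cmp hK hN hq hL h1 h2
  have t0 := Th_nonneg (N := N') hK hL hq
  have hK0 : 0 < K := by linarith
  have t1 := Th_nonneg (N := N) hK0 hL (show 0 ≤ 8 * q by positivity)
  have hNb : 0 < Nb := by linarith
  have hN'0 : 0 < N' := by linarith
  have b1 := A3_cmp hK hN hq hL (hW false) hNb' h1 h2 h4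
  have c1 : (N / Nb) ^ (2 / 3 : ℝ) ≤ 4 * (N' / Nb') ^ (2 / 3 : ℝ) := by
    have e : (4 : ℝ) = 8 ^ (2 / 3 : ℝ) := by
      have h : (8 : ℝ) = 2 ^ (3 : ℝ) := by norm_num
      rw [h, ← Real.rpow_mul (by norm_num)]
      norm_num
    rw [e, ← Real.mul_rpow (by norm_num) (by positivity)]
    refine Real.rpow_le_rpow (by positivity) ?_ (by norm_num)
    calc N / Nb ≤ N' / (Nb' / 8) := by
          have : Nb' / 8 ≤ Nb := by linarith
          gcongr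
      _ = 8 * (N' / Nb') := by field_simp
  have w1 := hW true
  have b2 : 18 * Th K N (8 * q) L * (L ^ (1 / 3 : ℝ) * (N / Nb) ^ (2 / 3 : ℝ) * W true) ≤
      1728 * (Th K' N' q L * (L ^ (1 / 3 : ℝ) * (N' / Nb') ^ (2 / 3 : ℝ) * W true)) := by
    calc 18 * Th K N (8 * q) L * (L ^ (1 / 3 : ℝ) * (N / Nb) ^ (2 / 3 : ℝ) * W true) ≤
          18 * (4 * Th K' N' q L) * (L ^ (1 / 3 : ℝ) * (4 * (N' / Nb') ^ (2 / 3 : ℝ)) * W true) := by
            gcongr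
      _ = 288 * (Th K' N' q L * (L ^ (1 / 3 : ℝ) * (N' / Nb') ^ (2 / 3 : ℝ) * W true)) := by ring
      _ ≤ _ := by
          have : 0 ≤ Th K' N' q L * (L ^ (1 / 3 : ℝ) * (N' / Nb') ^ (2 / 3 : ℝ) * W true) := by
            positivity
          linarith
  linarith

end real

/-! ### the bound of a cell, numbers of the class -/

/-- the type of the R-part of a cell : data, tuple, index, length, mesh, parameter, numbers -/
abbrev RPt : Type := XF → Tu → Eis × Eis → ℝ → ℝ → ℝ → (Bool → ℝ) → Prop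

/-- **the bound of one cell** (conclusion of the twin of `E4Xb681.cell_XB`) -/
def CXB (h : ℝ → ℝ) (χ : Eis → ℂ) (G : Eis → Prop) (Rw ε C cw : ℝ) (A' : ℕ) (RP : RPt) : Prop :=
  ∀ (x : XF) (a : Tu) (bm κ' : Eis → ℂ) (k : ℂ) (nδ nμ : ℕ) (Nα q L : ℝ) (W1 : Bool → ℝ)
    (Mb τ₀ τg : ℝ)
    (Om₀ : ℝ → ℂ), XC x a Nα Rw → (∀ y, IsPrim y → x.g₀ y = χ y * pw τg (nm y)) →
    (∀ t, 0 < t → x.Om t = ((h (Real.log t - Real.log x.V) : ℝ) : ℂ) *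
      (Om₀ (Real.log t) * pw τ₀ t)) → ContDiff ℝ ∞ Om₀ →
    (∀ n ≤ A' + 2, ∀ u, ‖iteratedDeriv n Om₀ u‖ ≤ Mb) → 0 ≤ Mb →
    0 < L → (∀ jj, 0 ≤ W1 jj) → 0 ≤ q →
    (∀ i ∈ x.cell a nδ nμ, x.cz bm k κ' a i ≠ 0 →
      (nk (Qa x a ^ 2) : ℝ) ≤ q ∧ q ≤ 16 * x.Y ^ 24 ∧
      (1 ≤ L → L * Real.exp Rw < Nbh x a Nα nδ) ∧
      RP x a i Nα (8 * Nbh x a Nα nδ * L / Nh x a nδ) L W1 ∧
      GXk (a.h * a.u) G (Ri x a i) (cb x a i.1)) →
    E4Xb681.CB4 x cw bm k κ' a nδ nμ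
      (C * x.Y ^ ε * ((1 + |τg - τ₀|) ^ A' * Mb ^ 2))
      (C * x.Y ^ ε * ((1 + |τg - τ₀|) ^ A' * Mb ^ 2) *
        (36 * Th (x.κ / nm a.s ^ 2) (Nh x a nδ) q L *
            (1 + L * Nh x a nδ ^ (-(1 / 2) : ℝ)) +
          432 * (Nh x a nδ * (2 ^ nδ * 2 ^ nμ) ^ 2 / (x.κ / nm a.s ^ 2)) +
          36 * (Nh x a nδ * (2 ^ nδ * 2 ^ nμ) / (x.κ / nm a.s ^ 2) ^ (2 / 3 : ℝ))))
      (C * x.Y ^ ε * ((1 + |τg - τ₀|) ^ A' * Mb ^ 2) *
        (36 * Th (x.κ / nm a.s ^ 2) (Nh x a nδ) q L * (L * Nh x a nδ ^ (-(1 / 2) : ℝ))))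
      (C * x.Y ^ ε * ((1 + |τg - τ₀|) ^ A' * Mb ^ 2) *
        (18 * Th (x.κ / nm a.s ^ 2) (Nh x a nδ) q L *
          ((Real.sqrt L + Real.sqrt (L * Nh x a nδ / Nbh x a Nα nδ)) * W1 false +
            L ^ (1 / 3 : ℝ) * (Nh x a nδ / Nbh x a Nα nδ) ^ (2 / 3 : ℝ) * W1 true)))

/-- the R-part is monotone in the mesh -/
def RPmono (RP : RPt) : Prop :=
  ∀ (x : XF) (a : Tu) (i : Eis × Eis) (Nα ν ν' L : ℝ) (W1 : Bool → ℝ), ν ≤ ν' →
    RP x a i Nα ν' L W1 → RP x a i Nα ν L W1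

/-- **the bound of a cell**, the numbers of the class -/
theorem cell_clsx {h : ℝ → ℝ} {χ : Eis → ℂ} {G : Eis → Prop} {Rw ε C cw : ℝ} {A' : ℕ} {RP : RPt}
    (hC : 0 ≤ C) (hmono : RPmono RP) (hcell : CXB h χ G Rw ε C cw A' RP) :
    ∀ (x : XF) (a : Tu) (bm κ' : Eis → ℂ) (k : ℂ) (nδ nμ : ℕ) (Nα L : ℝ) (W1 : Bool → ℝ)
      (Mo τ₀ τg : ℝ)
      (Om₀ : ℝ → ℂ), XC x a Nα Rw → (∀ y, IsPrim y → x.g₀ y = χ y * pw τg (nm y)) →
      (∀ t, 0 < t → x.Om t = ((h (Real.log t - Real.log x.V) : ℝ) : ℂ) *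
        (Om₀ (Real.log t) * pw τ₀ t)) → ContDiff ℝ ∞ Om₀ →
      (∀ n ≤ A' + 2, ∀ u, ‖iteratedDeriv n Om₀ u‖ ≤ Mo) → 0 ≤ Mo → 0 < L → (∀ jj, 0 ≤ W1 jj) →
      (∀ i ∈ x.cell a nδ nμ, x.cz bm k κ' a i ≠ 0 →
        (1 ≤ L → 8 * (L * Real.exp Rw) < Nbn x Nα (x.vec a nδ nμ)) ∧
        RP x a i Nα (2048 * (Nbn x Nα (x.vec a nδ nμ) * L / x.Nn (x.vec a nδ nμ))) L W1 ∧
        GXk (a.h * a.u) G (x.Rr a i) (cb x a i.1)) →
      x.CB4 cw bm k κ' a nδ nμ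
        (AA x (C * 1728 * x.Y ^ ε * ((1 + |τg - τ₀|) ^ A' * Mo ^ 2)) Nα L
          (We x Nα L W1 (x.vec a nδ nμ)) (x.vec a nδ nμ) 0)
        (AA x (C * 1728 * x.Y ^ ε * ((1 + |τg - τ₀|) ^ A' * Mo ^ 2)) Nα L
          (We x Nα L W1 (x.vec a nδ nμ)) (x.vec a nδ nμ) 1)
        (AA x (C * 1728 * x.Y ^ ε * ((1 + |τg - τ₀|) ^ A' * Mo ^ 2)) Nα L
          (We x Nα L W1 (x.vec a nδ nμ)) (x.vec a nδ nμ) 2)
        (AA x (C * 1728 * x.Y ^ ε * ((1 + |τg - τ₀|) ^ A' * Mo ^ 2)) Nα L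
          (We x Nα L W1 (x.vec a nδ nμ)) (x.vec a nδ nμ) 3) := by
  intro x a bm κ' k nδ nμ Nα L W1 Mo τ₀ τg Om₀ hx hg hOm hOmC hOmB hMo hL hW1 hRX
  have hY1 := hx.Y1
  have hY0 : 0 < x.Y := by linarith
  by_cases hne : (x.cell a nδ nμ).Nonempty
  swap
  · rw [Finset.not_nonempty_iff_eq_empty] at hne
    unfold XF.CB4 AQ
    rw [hne]
    simp
  obtain ⟨i₀, hi₀⟩ := hne
  have f0 := cell_FI hx hi₀
  have hF := FF_ne f0
  have hPP : PP (x.Sf a.q) x.g₁ a.ν (a.us * a.τ) ≠ 0 := by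
    intro h0
    apply hF
    unfold XF.FFa
    rw [E4zz92.FF_eq, h0, mul_zero]
  rw [AA_We W1 (x.vec a nδ nμ) hL]
  set n := x.vec a nδ nμ with hn
  obtain ⟨n1, n2⟩ := Nh_cmp (nδ := nδ) (nμ := nμ) hx f0 hPP
  obtain ⟨b1, b2⟩ := Nb_cmp (nδ := nδ) (nμ := nμ) hx
  obtain ⟨q1, q2⟩ := q_cmp (nδ := nδ) (nμ := nμ) hx
  have k1 := K_cmp (nδ := nδ) (nμ := nμ) hx
  rw [← hn] at n1 n2 b1 b2 q1 q2 k1
  have hVp := Vp_pos hx hF
  have hNh : 0 < Nh x a nδ := by unfold Nh; positivity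
  have hNn : 0 < x.Nn n := by linarith
  have hNb := Nbn_pos hx.Nα0 hx.g2.ne_zero n
  have hKc := Kc_pos hx.κ0 n
  have hq := qn_nonneg x n
  have hm := mn_pos n
  have hmn : (2 : ℝ) ^ nδ * 2 ^ nμ = mn n := rfl
  have hmain := hcell x a bm κ' k nδ nμ Nα (8 * qn x n) L W1 Mo τ₀ τg Om₀ hx hg hOm hOmC hOmB hMo hL
    hW1 (by positivity) (fun i hi hz => by
      obtain ⟨g1, g3, g2⟩ := hRX i hi hz
      refine ⟨q1, q2, fun h1L => ?_, hmono _ _ _ _ _ _ _ _ ?_ g3, g2⟩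
      · have := g1 h1L
        linarith
      calc 8 * Nbh x a Nα nδ * L / Nh x a nδ ≤ 8 * (2 * Nbn x Nα n) * L / (x.Nn n / 128) := by
            have : x.Nn n / 128 ≤ Nh x a nδ := by linarith
            gcongr
        _ = _ := by field_simp; ring)
  set E₀ : ℝ := C * x.Y ^ ε * ((1 + |τg - τ₀|) ^ A' * Mo ^ 2) with hE₀
  have hE₀0 : 0 ≤ E₀ := by positivity
  have eE : C * 1728 * x.Y ^ ε * ((1 + |τg - τ₀|) ^ A' * Mo ^ 2) = 1728 * E₀ := by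
    rw [hE₀]; ring
  rw [eE]
  refine CB4.mono hx.κ0.le (fun i hi => by linarith [(cell_FI hx hi).nn]) hmain ?_ ?_ ?_ ?_
  · show E₀ ≤ 1728 * E₀
    linarith
  · show _ ≤ 1728 * E₀ * _
    have := A1_cmp (L := L) (m₀ := mn n) hKc hNh hNn hq hL hm k1 n1 n2
    rw [hmn]
    calc _ ≤ E₀ * (1728 * _) := mul_le_mul_of_nonneg_left this hE₀0
      _ = _ := by ring
  · show _ ≤ 1728 * E₀ * _
    have := A2_cmp (L := L) hKc hNh hNn hq hL k1 n1 n2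
    calc _ ≤ E₀ * (1728 * _) := mul_le_mul_of_nonneg_left this hE₀0
      _ = _ := by ring
  · have := A3x_cmp (L := L) hKc hNh hq hL hW1 hNb k1 n1 b2
    calc _ ≤ E₀ * (1728 * _) := mul_le_mul_of_nonneg_left this hE₀0
      _ = _ := by ring

end Crest.Agent.R017.E4Xhx679
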