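import Crest.Agent.R017.E4Xh_92

/-!
# Row 17, block C70, leaf E4 (x-side): the total of the cells, restricted cube part (helper92)

* `XF.MomR`, `XF.PhiR` : the number of a class, cube parts in `Ys n d`; the `T`-terms once per
  `(n, d)`, the count per key `(d, r)`
* `xtotalR` : `∑_o XMbP ≤ C Y^ε #Bs (∑_{(d, r)} N(r)⁻¹) Sx`
-/
set_option autoImplicit false
set_option linter.unusedVariables false
set_option maxHeartbeats 400000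

noncomputable section

open Complex
open scoped ComplexConjugate

namespace Crest.Agent.R017.E4X92

open Crest.Agent.R012 Crest.Agent.R012.Eis Crest.Agent.R012.MC
open Crest.Agent.R012.LS2 (S mem_S)
open Crest.Agent.R012.Div277 (dvs mem_dvs isPrim_of_mem_dvs dvd_of_mem_dvs tau tau_le_rpow)
open Crest.Agent.R017.CM106 (CS FS)
open Crest.Agent.R017.C70 (CbF JC)
open Crest.Agent.R017.PX764 (n6 th)
open Crest.Agent.R017.E3D579 (b0 bt bF cK)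
open Crest.Agent.R017.E4352 (rd dvd_rd Sd PrI)
open Crest.Agent.R017.E4579 (SupB bpt bco bpt_prim)
open Crest.Agent.R017.E4v92 (FF WW AA AA_spec)
open Crest.Agent.R017.E4z92 (OKs cZ QQ RQ norm_cZ_le As Ss mem_Ss Vz)
open Crest.Agent.R017.E4zz92
open Crest.Agent.R017.E4F266 (IP IP_mem)
open Crest.Agent.R017.E3q681 (TW AQ SA)
open Finset

/-! ### the classes -/

/-- the cube part of the frequencies of a tuple -/
def YJ (x : XF) (Ys : Finset Eis) (a : Tu) : Prop :=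
  ∀ j, IsPrim j → CbF j → IsCoprime j (a.h * a.u) → YIn Ys (a.J x.fr * j)

/-- the bound of the moments of a class with key `k = (d, r)` -/
def XF.MomR (x : XF) (cw : ℝ) (k : Eis × Eis) (Ys : Finset Eis) (n : Fin 12 → ℕ)
    (A0 A1 A2 A3 : ℝ) : ℝ :=
  A0 * TSD x.α x.e₀ x.c₀ (x.Ee n) (x.Ln cw n) +
    A1 * TSR x.α x.e₀ x.c₀ 1 (x.Ee n) Ys (x.Ln cw n) +
      A2 * TSR x.α x.e₀ x.c₀ (1 / 2) (x.Ee n) Ys (x.Ln cw n) +
        nm k.2 * (A3 * (x.En n * (x.Jn n / nm (Ak k))))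

/-- the number of a class with key `k = (d, r)` -/
def XF.PhiR (x : XF) (cw Mb Ek : ℝ) (A : Fin 4 → (Fin 12 → ℕ) → Eis × Eis → ℝ)
    (Ys : (Fin 12 → ℕ) → Eis → Finset Eis) (n : Fin 12 → ℕ) (k : Eis × Eis) : ℝ :=
  x.κ * (Mb * Ek * ‖th x.c₀‖ ^ 2 * x.V ^ (-(1 / 3) : ℝ) * x.Base n *
    x.MomR cw k (Ys n k.1) n (A 0 n k) (A 1 n k) (A 2 n k) (A 3 n k))

open Classical in
/-- **the sum of the moments over a class** -/
theorem mom_sumT {ε : ℝ} (hε : 0 < ε) {cw : ℝ} (hcw : 1 ≤ cw) : ∃ C : ℝ, 0 ≤ C ∧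
    ∀ (x : XF) (n : Fin 12 → ℕ) (T : Finset Tu) (Bs Ys : Finset Eis) (A0 A1 A2 : ℝ),
    x.OKx cw → 0 ≤ A0 → 0 ≤ A1 → 0 ≤ A2 →
    (∀ a ∈ T, x.OKa a ∧ Bd x a n ∧ bpt (x.Sf a.q) a.ν ∈ Bs ∧ CJ x a ∧ YJ x Ys a) →
    ∑ a ∈ T, (A0 * TD (cw * x.nn a a.δ) (x.Ra a) (x.cf a a.δ) + A1 * TW 1 (cw * x.nn a a.δ) (x.cf a a.δ) +
      A2 * TW (1 / 2) (cw * x.nn a a.δ) (x.cf a a.δ)) ≤
        C * x.Y ^ ε * (Bs.card * (A0 * TSD x.α x.e₀ x.c₀ (x.Ee n) (x.Ln cw n) +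
          A1 * TSR x.α x.e₀ x.c₀ 1 (x.Ee n) Ys (x.Ln cw n) +
          A2 * TSR x.α x.e₀ x.c₀ (1 / 2) (x.Ee n) Ys (x.Ln cw n))) := by
  obtain ⟨C1, hC1, h1⟩ := tw_sumR hε
  obtain ⟨C0, hC0, h0⟩ := td_sum hε
  have hcw0 : 0 < cw := by linarith
  refine ⟨(8 * cw) ^ ε * (C0 + C1), by positivity, ?_⟩
  intro x n T Bs Ys A0 A1 A2 hx hA0 hA1 hA2 hT
  have hY := hx.Y1
  have hY0 : 0 < x.Y := by linarith
  have hV := hx.V0
  have hE := En_one hx n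
  have hE0 := En_pos hx n
  have hJ := Jn_pos x n
  have hc := nm_ge_one' hx.c0
  have hc0 := nmpos' hx.c0
  set Y1 : ℝ := 8 * cw * x.Y with hY1
  have hY11 : 1 ≤ Y1 := by rw [hY1]; nlinarith
  have hYε : Y1 ^ ε = (8 * cw) ^ ε * x.Y ^ ε := by
    rw [hY1, Real.mul_rpow (by positivity) hY0.le]
  have hYε0 : 0 ≤ Y1 ^ ε := by positivity
  have hL0 : 0 ≤ x.Ln cw n := by unfold XF.Ln; positivity
  have hLY : x.Ln cw n ≤ Y1 := by
    unfold XF.Ln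
    rw [div_le_iff₀ (by positivity), hY1]
    have hV2 := hx.VY
    have e1 : (1 : ℝ) ≤ nm x.c₀ * x.En n ^ 2 := by
      calc (1 : ℝ) = 1 * 1 ^ 2 := by ring
        _ ≤ _ := by gcongr
    calc 8 * cw * x.V ≤ 8 * cw * x.Y := by gcongr
      _ = 8 * cw * x.Y * 1 := by ring
      _ ≤ _ := by gcongr
  have hEe : ∀ a ∈ T, a.e x.fr ∈ x.Ee n := by
    intro a ha
    obtain ⟨k1, k2, -⟩ := hT a ha
    unfold XF.Ee
    rw [mem_filter, mem_primBall]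
    exact ⟨⟨Nat.le_floor (e_le k2), (ok_of hx k1).eprim (fr_ok hx)⟩, le_e hx k1 k2⟩
  have hTW : ∀ e : ℝ, ∑ a ∈ T, TW e (cw * x.nn a a.δ) (x.cf a a.δ) ≤
      C1 * Y1 ^ ε * (Bs.card * TSR x.α x.e₀ x.c₀ e (x.Ee n) Ys (x.Ln cw n)) := by
    intro e
    have h3 := h1 Y1 x.fr T x.α x.e₀ x.c₀ e (cw * x.Nn n) (x.Ln cw n) (x.Ee n) Bs Ys hY11
      (fr_ok hx) hx.α (by unfold XF.Nn; positivity) hL0 hLY (fun a ha => by
        obtain ⟨k1, k2, k3, k5, k6⟩ := hT a ha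
        refine ⟨ok_of hx k1, k1.hj, k1.hc, k3, hEe a ha, ?_, k6⟩
        have k3 := J_le k1 k2
        calc (nm (a.J x.fr) : ℝ) * (cw * x.Nn n) ≤ 8 * x.Jn n * (cw * x.Nn n) := by
              have : 0 ≤ cw * x.Nn n := by unfold XF.Nn; positivity
              gcongr
          _ = x.Ln cw n := by
              unfold XF.Nn XF.Ln
              field_simp)
    refine (sum_le_sum fun a ha => ?_).trans h3
    obtain ⟨k1, k2, -⟩ := hT a ha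
    rw [x.cf_eq]
    refine TW_mono _ ?_
    have := nn_le hx k1 k2
    gcongr
  have hTD : ∑ a ∈ T, TD (cw * x.nn a a.δ) (x.Ra a) (x.cf a a.δ) ≤
      C0 * Y1 ^ ε * (Bs.card * TSD x.α x.e₀ x.c₀ (x.Ee n) (x.Ln cw n)) := by
    have h3 := h0 Y1 x.fr T x.α x.e₀ x.c₀ 1 (cw * x.Nn n) (x.Ln cw n) (x.Ee n) Bs x.Ra hY11
      (fr_ok hx) hx.α isPrim_one (by unfold XF.Nn; positivity) hL0 hLY (fun a ha => by
        obtain ⟨k1, k2, k3, k5, k6⟩ := hT a ha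
        refine ⟨ok_of hx k1, k1.hj, k1.hc, k3, hEe a ha, ?_, one_dvd _⟩
        have k3 := J_le k1 k2
        calc (nm (a.J x.fr) : ℝ) * (cw * x.Nn n) ≤ 8 * x.Jn n * (cw * x.Nn n) := by
              have : 0 ≤ cw * x.Nn n := by unfold XF.Nn; positivity
              gcongr
          _ = x.Ln cw n := by
              unfold XF.Nn XF.Ln
              field_simp) (fun a ha => (hT a ha).2.2.2.1)
    rw [mul_one, nm_one, Nat.cast_one, div_one] at h3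
    refine (sum_le_sum fun a ha => ?_).trans h3
    obtain ⟨k1, k2, -⟩ := hT a ha
    rw [x.cf_eq]
    have hn0 : 0 ≤ x.nn a a.δ := le_trans (by norm_num) k1.hn
    refine TD_mono _ (by positivity) ?_ dvd_rfl
    have := nn_le hx k1 k2
    gcongr
  rw [sum_add_distrib, sum_add_distrib, ← mul_sum, ← mul_sum, ← mul_sum]
  have t1 := hTW 1
  have t2 := hTW (1 / 2)
  set U0 := TSD x.α x.e₀ x.c₀ (x.Ee n) (x.Ln cw n) with hU0
  set U1 := TSR x.α x.e₀ x.c₀ 1 (x.Ee n) Ys (x.Ln cw n) with hU1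
  set U2 := TSR x.α x.e₀ x.c₀ (1 / 2) (x.Ee n) Ys (x.Ln cw n) with hU2
  have n0 : 0 ≤ U0 := TSD_nonneg _ _ _ _ _
  have n1 : 0 ≤ U1 := TSR_nonneg _ _ _ _ _ _ _
  have n2 : 0 ≤ U2 := TSR_nonneg _ _ _ _ _ _ _
  calc A0 * ∑ a ∈ T, TD (cw * x.nn a a.δ) (x.Ra a) (x.cf a a.δ) +
        A1 * ∑ a ∈ T, TW 1 (cw * x.nn a a.δ) (x.cf a a.δ) +
        A2 * ∑ a ∈ T, TW (1 / 2) (cw * x.nn a a.δ) (x.cf a a.δ)
      ≤ A0 * (C0 * Y1 ^ ε * (Bs.card * U0)) + A1 * (C1 * Y1 ^ ε * (Bs.card * U1)) +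
        A2 * (C1 * Y1 ^ ε * (Bs.card * U2)) := by gcongr
    _ = Y1 ^ ε * Bs.card * (C0 * (A0 * U0) + C1 * (A1 * U1) + C1 * (A2 * U2)) := by ring
    _ ≤ Y1 ^ ε * Bs.card * ((C0 + C1) * (A0 * U0) + (C0 + C1) * (A1 * U1) +
        (C0 + C1) * (A2 * U2)) := by
        gcongr <;> linarith
    _ = _ := by rw [hYε]; ring

open Classical in
/-- **the number of the tuples of a class** -/
theorem cnt_sumR {ε : ℝ} (hε : 0 < ε) {cw : ℝ} (hcw : 1 ≤ cw) : ∃ C : ℝ, 0 ≤ C ∧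
    ∀ (x : XF) (n : Fin 12 → ℕ) (T : Finset Tu) (Bs : Finset Eis) (A₀ : Eis),
    x.OKx cw → IsPrim A₀ →
    (∀ a ∈ T, x.OKa a ∧ Bd x a n ∧ bpt (x.Sf a.q) a.ν ∈ Bs ∧
      A₀ ∣ PP (x.Sf a.q) x.g₁ a.ν (a.us * a.τ)) →
    (T.card : ℝ) ≤ C * x.Y ^ ε * (Bs.card * (x.En n * (x.Jn n / nm A₀))) := by
  obtain ⟨C2, hC2, h2⟩ := tcount hε
  have hcw0 : 0 < cw := by linarith
  refine ⟨(8 * cw) ^ ε * (C2 * (800 * 800)), by positivity, ?_⟩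
  intro x n T Bs A₀ hx hA₀ hT
  have hY := hx.Y1
  have hY0 : 0 < x.Y := by linarith
  have hE0 := En_pos hx n
  have hJ := Jn_pos x n
  set Y1 : ℝ := 8 * cw * x.Y with hY1
  have hY11 : 1 ≤ Y1 := by rw [hY1]; nlinarith
  have hYε : Y1 ^ ε = (8 * cw) ^ ε * x.Y ^ ε := by
    rw [hY1, Real.mul_rpow (by positivity) hY0.le]
  have hYε0 : 0 ≤ Y1 ^ ε := by positivity
  have hAJ : ∀ a ∈ T, A₀ ∣ a.J x.fr := by
    intro a ha
    obtain ⟨-, -, -, k4⟩ := hT a ha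
    unfold Tu.J
    exact k4.mul_right _
  -- the number of tuples
  have hA1' := nm_ge_one' hA₀.ne_zero
  have hA0' := nmpos' hA₀.ne_zero
  have hcnt : (T.card : ℝ) ≤
      C2 * Y1 ^ ε * (Bs.card * (800 * x.En n * (800 * (x.Jn n / nm A₀)))) := by
    have h3 := h2 Y1 x.fr T (Bs ×ˢ {1} ×ˢ primBall ⌊8 * x.En n⌋₊ ×ˢ
      (primBall ⌊8 * (x.Jn n / nm A₀)⌋₊).image (fun j => A₀ * j))
      (fun _ => 1) hY11 (fr_ok hx) (fun a ha => ok_of hx (hT a ha).1) (fun a ha => by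
        obtain ⟨k1, k2, k3, -⟩ := hT a ha
        unfold tgt
        simp only [mem_product, mem_singleton, mem_primBall]
        refine ⟨k3, k1.hc, ⟨Nat.le_floor (e_le k2), ?_⟩, ?_⟩
        · exact (ok_of hx k1).eprim (fr_ok hx)
        · obtain ⟨j, hj⟩ := hAJ a ha
          rw [mem_image]
          refine ⟨j, mem_primBall.mpr ⟨Nat.le_floor ?_, ?_⟩, hj.symm⟩
          · have h4 := J_le k1 k2
            rw [hj, nm_mul] at h4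
            push_cast at h4
            rw [← mul_div_assoc, le_div_iff₀ hA0']
            linarith
          · have h5 := (ok_of hx k1).Jprim (fr_ok hx)
            rw [hj] at h5
            exact h5.of_mul_left hA₀) (fun _ _ => zero_le_one)
    rw [sum_const, nsmul_eq_mul, mul_one, sum_const, nsmul_eq_mul, mul_one] at h3
    refine h3.trans (mul_le_mul_of_nonneg_left ?_ (by positivity))
    simp only [card_product, card_singleton]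
    push_cast
    have g0 : ((((primBall ⌊8 * (x.Jn n / nm A₀)⌋₊).image (fun j => A₀ * j)).card : ℕ) : ℝ) ≤
        ((primBall ⌊8 * (x.Jn n / nm A₀)⌋₊).card : ℝ) := by exact_mod_cast card_image_le
    have g1 : ((primBall ⌊8 * x.En n⌋₊).card : ℝ) ≤ 800 * x.En n := by
      have := Crest.Agent.R012.Lat277.card_primBall_le ⌊8 * x.En n⌋₊
      refine this.trans ?_
      have := Nat.floor_le (by positivity : 0 ≤ 8 * x.En n)
      linarith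
    have g2 : ((primBall ⌊8 * (x.Jn n / nm A₀)⌋₊).card : ℝ) ≤ 800 * (x.Jn n / nm A₀) := by
      have := Crest.Agent.R012.Lat277.card_primBall_le ⌊8 * (x.Jn n / nm A₀)⌋₊
      refine this.trans ?_
      have := Nat.floor_le (by positivity : 0 ≤ 8 * (x.Jn n / nm A₀))
      linarith
    have g3 := g0.trans g2
    calc (Bs.card : ℝ) * (1 * (((primBall ⌊8 * x.En n⌋₊).card : ℝ) *
          (((primBall ⌊8 * (x.Jn n / nm A₀)⌋₊).image (fun j => A₀ * j)).card : ℝ)))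
        ≤ Bs.card * (1 * (800 * x.En n * (800 * (x.Jn n / nm A₀)))) := by gcongr
      _ = _ := by ring
  refine hcnt.trans (le_of_eq ?_)
  rw [hYε]; ring

/-- the factor of a class -/
def XF.WR (x : XF) (Mb Ek : ℝ) (n : Fin 12 → ℕ) : ℝ :=
  x.κ * (Mb * Ek * ‖th x.c₀‖ ^ 2 * x.V ^ (-(1 / 3) : ℝ) * x.Base n)

/-- the `T`-part of a class -/
def XF.PT (x : XF) (cw Mb Ek : ℝ) (A : Fin 4 → (Fin 12 → ℕ) → Eis × Eis → ℝ)
    (Ys : (Fin 12 → ℕ) → Eis → Finset Eis) (n : Fin 12 → ℕ) (d : Eis) : ℝ :=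
  x.WR Mb Ek n * (A 0 n (d, 1) * TSD x.α x.e₀ x.c₀ (x.Ee n) (x.Ln cw n) +
    A 1 n (d, 1) * TSR x.α x.e₀ x.c₀ 1 (x.Ee n) (Ys n d) (x.Ln cw n) +
      A 2 n (d, 1) * TSR x.α x.e₀ x.c₀ (1 / 2) (x.Ee n) (Ys n d) (x.Ln cw n))

/-- the count part of a class -/
def XF.PR (x : XF) (Mb Ek : ℝ) (A : Fin 4 → (Fin 12 → ℕ) → Eis × Eis → ℝ) (n : Fin 12 → ℕ)
    (k : Eis × Eis) : ℝ :=
  x.WR Mb Ek n * (A 3 n k * (x.En n * (x.Jn n / nm (Ak k))))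

lemma PhiR_eq (x : XF) (cw Mb Ek : ℝ) (A : Fin 4 → (Fin 12 → ℕ) → Eis × Eis → ℝ)
    (Ys : (Fin 12 → ℕ) → Eis → Finset Eis) (n : Fin 12 → ℕ) (k : Eis × Eis)
    (hA : ∀ j, j ≠ 3 → A j n k = A j n (k.1, 1)) :
    x.PhiR cw Mb Ek A Ys n k = x.PT cw Mb Ek A Ys n k.1 + nm k.2 * x.PR Mb Ek A n k := by
  unfold XF.PhiR XF.PT XF.PR XF.MomR XF.WR
  rw [hA 0 (by decide), hA 1 (by decide), hA 2 (by decide)]
  ring

open Classical in
/-- **the sum over a class** -/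
theorem cls_sumR {ε : ℝ} (hε : 0 < ε) {cw : ℝ} (hcw : 1 ≤ cw) : ∃ C : ℝ, 0 ≤ C ∧
    ∀ (x : XF) (OO : Finset (Eis × Eis)) (v' bm : Eis × Eis → Eis → ℂ) (kk : Eis × Eis → ℂ)
      (κ' : Eis × Eis → Eis → ℂ) (qc : Eis → Eis) (Mb Ek : ℝ)
      (A : Fin 4 → (Fin 12 → ℕ) → Eis × Eis → ℝ) (Kf : (Fin 12 → ℕ) → Eis → Eis → Eis → Eis × Eis) (Bs : Finset Eis)
      (Ys : (Fin 12 → ℕ) → Eis → Finset Eis) (T : Finset (Tu × Eis)) (n : Fin 12 → ℕ) (d : Eis),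
      x.HO cw OO v' bm kk κ' qc Mb Ek → (∀ j k, 0 ≤ A j n k) →
      (∀ j, j ≠ 3 → ∀ r, A j n (d, r) = A j n (d, 1)) →
      (∀ y ∈ T, x.OKy OO y ∧ x.vec y.1 (lg y.1.δ) (lg y.2) = n ∧
        (x.ky Kf y.1 (lg y.1.δ) (lg y.2)).1 = d ∧ IsPrim (Ak (x.ky Kf y.1 (lg y.1.δ) (lg y.2))) ∧
        bpt (x.Sf y.1.q) y.1.ν ∈ Bs ∧
        Ak (x.ky Kf y.1 (lg y.1.δ) (lg y.2)) ∣ PP (x.Sf y.1.q) x.g₁ y.1.ν (y.1.us * y.1.τ) ∧
        CJ x y.1 ∧ YJ x (Ys n d) y.1) →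
      x.κ * ∑ y ∈ T, x.GGF cw bm kk κ' A Kf y ≤
        C * x.Y ^ ε * (Bs.card * (x.PT cw Mb Ek A Ys n d +
          ∑ k ∈ T.image (fun y => x.ky Kf y.1 (lg y.1.δ) (lg y.2)), x.PR Mb Ek A n k)) := by
  obtain ⟨C1, hC1, h1⟩ := mom_sumT hε hcw
  obtain ⟨C2, hC2, h2⟩ := cnt_sumR hε hcw
  have hK := K1_pos
  refine ⟨K1 * (C1 + C2), by positivity, ?_⟩
  intro x OO v' bm kk κ' qc Mb Ek A Kf Bs Ys T n d H hA hA3 hT
  have hx := H.ok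
  have hκ := H.κ0
  have hE := H.Ek0
  have hMb := H.Mb0
  have hY0 : 0 < x.Y := by linarith [hx.Y1]
  have hV : 0 ≤ x.V ^ (-(1 / 3) : ℝ) := Real.rpow_nonneg hx.V0.le _
  have hE0 := En_pos hx n
  have hJ := Jn_pos x n
  have hB : 0 ≤ x.Base n := by
    unfold XF.Base
    positivity
  set ka : Tu → Eis × Eis := fun a => Kf n a.q a.ν (a.us * a.τ) with hka
  have hky : ∀ y ∈ T, x.ky Kf y.1 (lg y.1.δ) (lg y.2) = ka y.1 := by
    intro y hy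
    obtain ⟨-, k2, -⟩ := hT y hy
    unfold XF.ky
    rw [k2]
  set t0 : Tu → ℝ := fun a => A 0 n (d, 1) * TD (cw * x.nn a a.δ) (x.Ra a) (x.cf a a.δ) +
        A 1 n (d, 1) * TW 1 (cw * x.nn a a.δ) (x.cf a a.δ) +
        A 2 n (d, 1) * TW (1 / 2) (cw * x.nn a a.δ) (x.cf a a.δ) with ht0
  set t : Tu → ℝ := fun a => t0 a + A 3 n (ka a) with ht
  have ht00 : ∀ a, 0 ≤ t a := by
    intro a
    have h1 := hA 0 (d, 1)
    have h2 := hA 1 (d, 1)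
    have h3 := hA 2 (d, 1)
    have h3' := hA 3 (ka a)
    have h6 := TD_nonneg (cw * x.nn a a.δ) (x.Ra a) (x.cf a a.δ)
    have h4 := TW_nonneg' 1 (cw * x.nn a a.δ) (x.cf a a.δ)
    have h5 := TW_nonneg' (1 / 2) (cw * x.nn a a.δ) (x.cf a a.δ)
    rw [ht, ht0]
    positivity
  set f : Tu → Eis → ℝ := fun a μ =>
    wg a.g a.h * ‖bm (x.Sf a.q, a.ν) (a.g * (a.h * μ))‖ ^ 2 with hf
  have hf0 : ∀ a μ, 0 ≤ f a μ := fun a μ => mul_nonneg (wg_pos _ _).le (by positivity)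
  have e1 := sum_pairs (T := T) (t := t) (f := f) (Y := x.Y) (Mb := Mb) (fun y _ => ht00 y.1) hf0
    (fun y hy => (hT y hy).1.μ) (fun y hy => by
      obtain ⟨k1, -⟩ := hT y hy
      have h1 := H.hM _ k1.o _ k1.g _ k1.h
      rw [hf]
      simp only
      rw [← mul_sum, wg_eq k1.a.hg k1.a.hh]
      have g1 := nmpos' k1.a.hg.ne_zero
      have g2 := nmpos' k1.a.hh.ne_zero
      calc (nm y.1.g : ℝ) * nm y.1.h * ∑ μ ∈ S x.Y,
            ‖bm (x.Sf y.1.q, y.1.ν) (y.1.g * (y.1.h * μ))‖ ^ 2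
          ≤ (nm y.1.g : ℝ) * nm y.1.h * (Mb / ((nm y.1.g : ℝ) * nm y.1.h)) := by gcongr
        _ = Mb := by field_simp)
  set T1 := T.image Prod.fst with hT1
  have e2 := h1 x n T1 Bs (Ys n d) (A 0 n (d, 1)) (A 1 n (d, 1)) (A 2 n (d, 1)) hx
    (hA 0 _) (hA 1 _) (hA 2 _) (fun a ha => by
      obtain ⟨y, hy, rfl⟩ := mem_image.mp ha
      obtain ⟨k1, k2, k3, k4, k5, k6, k7, k8⟩ := hT y hy
      exact ⟨k1.a, bd_of k2, k5, k7, k8⟩)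
  -- the count
  set KK := T.image (fun y => x.ky Kf y.1 (lg y.1.δ) (lg y.2)) with hKK
  have hmap : ∀ a ∈ T1, ka a ∈ KK := by
    intro a ha
    obtain ⟨y, hy, rfl⟩ := mem_image.mp ha
    rw [← hky y hy]
    exact mem_image_of_mem _ hy
  have e4 : ∑ a ∈ T1, A 3 n (ka a) ≤ C2 * x.Y ^ ε * (Bs.card * ∑ k ∈ KK,
      A 3 n k * (x.En n * (x.Jn n / nm (Ak k)))) := by
    rw [← sum_fiberwise_of_maps_to hmap, mul_sum, mul_sum]
    refine sum_le_sum fun k hk => ?_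
    obtain ⟨y₀, hy₀, hy₀k⟩ := mem_image.mp hk
    have e5 : ∑ a ∈ T1 with ka a = k, A 3 n (ka a) = (T1.filter (fun a => ka a = k)).card *
        A 3 n k := by
      rw [sum_congr rfl (fun a ha => by rw [(mem_filter.mp ha).2]), sum_const, nsmul_eq_mul]
    rw [e5]
    have hAk : IsPrim (Ak k) := by
      rw [← hy₀k]; exact (hT y₀ hy₀).2.2.2.1
    have e6 := h2 x n (T1.filter (fun a => ka a = k)) Bs (Ak k) hx hAk (fun a ha => by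
      obtain ⟨ha1, ha2⟩ := mem_filter.mp ha
      obtain ⟨y, hy, rfl⟩ := mem_image.mp ha1
      obtain ⟨k1, k2, k3, k4, k5, k6, k7, k8⟩ := hT y hy
      refine ⟨k1.a, bd_of k2, k5, ?_⟩
      rw [hky y hy, ha2] at k6
      exact k6)
    calc _ ≤ (C2 * x.Y ^ ε * (Bs.card * (x.En n * (x.Jn n / nm (Ak k))))) * A 3 n k :=
          mul_le_mul_of_nonneg_right e6 (hA 3 k)
      _ = _ := by ring
  have e3 : ∑ y ∈ T, x.GGF cw bm kk κ' A Kf y ≤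
      (K1 * (Ek * ‖th x.c₀‖ ^ 2 * x.V ^ (-(1 / 3) : ℝ) * x.Base n)) *
        ∑ y ∈ T, t y.1 * f y.1 y.2 := by
    rw [mul_sum]
    refine sum_le_sum fun y hy => ?_
    obtain ⟨k1, k2, k3, k4, k5, k6, k7, k8⟩ := hT y hy
    have h3 := GGF_le H k1 k2 (hky y hy) (fun j => hA j (ka y.1))
    have hd : ka y.1 = (d, (ka y.1).2) := by
      rw [← hky y hy, ← k3]
    rw [hd, hA3 0 (by decide), hA3 1 (by decide), hA3 2 (by decide), ← hd] at h3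
    exact h3
  have e7 : ∑ a ∈ T1, t a ≤ (C1 + C2) * x.Y ^ ε * (Bs.card *
      ((A 0 n (d, 1) * TSD x.α x.e₀ x.c₀ (x.Ee n) (x.Ln cw n) +
        A 1 n (d, 1) * TSR x.α x.e₀ x.c₀ 1 (x.Ee n) (Ys n d) (x.Ln cw n) +
        A 2 n (d, 1) * TSR x.α x.e₀ x.c₀ (1 / 2) (x.Ee n) (Ys n d) (x.Ln cw n)) +
      ∑ k ∈ KK, A 3 n k * (x.En n * (x.Jn n / nm (Ak k))))) := by
    rw [ht, sum_add_distrib]
    set U := A 0 n (d, 1) * TSD x.α x.e₀ x.c₀ (x.Ee n) (x.Ln cw n) +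
        A 1 n (d, 1) * TSR x.α x.e₀ x.c₀ 1 (x.Ee n) (Ys n d) (x.Ln cw n) +
        A 2 n (d, 1) * TSR x.α x.e₀ x.c₀ (1 / 2) (x.Ee n) (Ys n d) (x.Ln cw n) with hU
    set Q := ∑ k ∈ KK, A 3 n k * (x.En n * (x.Jn n / nm (Ak k))) with hQ
    have hU0 : 0 ≤ U := by
      have g1 := hA 0 (d, 1)
      have g2 := hA 1 (d, 1)
      have g3 := hA 2 (d, 1)
      have g4 := TSD_nonneg x.α x.e₀ x.c₀ (x.Ee n) (x.Ln cw n)
      have g5 := TSR_nonneg x.α x.e₀ x.c₀ 1 (x.Ee n) (Ys n d) (x.Ln cw n)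
      have g6 := TSR_nonneg x.α x.e₀ x.c₀ (1 / 2) (x.Ee n) (Ys n d) (x.Ln cw n)
      rw [hU]; positivity
    have hQ0 : 0 ≤ Q := sum_nonneg fun k _ => mul_nonneg (hA 3 k) (by positivity)
    have hYε0 : 0 ≤ x.Y ^ ε := by positivity
    calc _ ≤ C1 * x.Y ^ ε * (Bs.card * U) + C2 * x.Y ^ ε * (Bs.card * Q) := add_le_add e2 e4
      _ = C1 * (x.Y ^ ε * (Bs.card * U)) + C2 * (x.Y ^ ε * (Bs.card * Q)) := by ring
      _ ≤ (C1 + C2) * (x.Y ^ ε * (Bs.card * U)) + (C1 + C2) * (x.Y ^ ε * (Bs.card * Q)) := by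
          gcongr <;> linarith
      _ = _ := by ring
  unfold XF.PT XF.PR XF.WR
  calc x.κ * ∑ y ∈ T, x.GGF cw bm kk κ' A Kf y
      ≤ x.κ * ((K1 * (Ek * ‖th x.c₀‖ ^ 2 * x.V ^ (-(1 / 3) : ℝ) * x.Base n)) *
        (Mb * ∑ a ∈ T1, t a)) := by
        refine mul_le_mul_of_nonneg_left (e3.trans (mul_le_mul_of_nonneg_left e1 (by positivity)))
          hκ.le
    _ ≤ x.κ * ((K1 * (Ek * ‖th x.c₀‖ ^ 2 * x.V ^ (-(1 / 3) : ℝ) * x.Base n)) *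
        (Mb * ((C1 + C2) * x.Y ^ ε * (Bs.card *
      ((A 0 n (d, 1) * TSD x.α x.e₀ x.c₀ (x.Ee n) (x.Ln cw n) +
        A 1 n (d, 1) * TSR x.α x.e₀ x.c₀ 1 (x.Ee n) (Ys n d) (x.Ln cw n) +
        A 2 n (d, 1) * TSR x.α x.e₀ x.c₀ (1 / 2) (x.Ee n) (Ys n d) (x.Ln cw n)) +
      ∑ k ∈ KK, A 3 n k * (x.En n * (x.Jn n / nm (Ak k)))))))) := by gcongr
    _ = _ := by
        rw [← mul_sum]
        ring

/-- the hypotheses on the cells -/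
structure XF.HCR (x : XF) (cw : ℝ) (OO : Finset (Eis × Eis)) (v' bm : Eis × Eis → Eis → ℂ)
    (kk : Eis × Eis → ℂ) (κ' : Eis × Eis → Eis → ℂ) (qc : Eis → Eis) (Mb Ek : ℝ)
    (A : Fin 4 → (Fin 12 → ℕ) → Eis × Eis → ℝ) (Kf : (Fin 12 → ℕ) → Eis → Eis → Eis → Eis × Eis) (Bs : Finset Eis)
    (Ys : (Fin 12 → ℕ) → Eis → Finset Eis) (Ad : Finset (Eis × Eis))
    (Cl : Tu → Prop) (Ps : Eis → Prop) (Sx : ℝ) : Prop where
  clP : ∀ a, Cl a → Ps a.s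
  jc : ∀ a, Cl a → JC (x.FFa a)
  arr : ∀ o ∈ OO, ∀ s ∈ Ss x.M x.κ, Ps s → ∀ τ ∈ dvs (rd o.1), ∀ g ∈ S x.Y, ∀ h ∈ S x.Y,
    ∀ i ∈ IP x.Y (S x.X) g h, Cl (x.tu qc o s τ g h 1) →
      Vz (v' o) (bm o) o.1 s τ g h i = x.ar (bm o) (kk o) (κ' o) (x.tu qc o s τ g h 1) i
  arr0 : ∀ o ∈ OO, ∀ s ∈ Ss x.M x.κ, Ps s → ∀ τ ∈ dvs (rd o.1), ∀ g ∈ S x.Y, ∀ h ∈ S x.Y,
    ∀ i ∈ IP x.Y (S x.X) g h, ¬ Cl (x.tu qc o s τ g h 1) →
      Vz (v' o) (bm o) o.1 s τ g h i = fun _ => 0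
  dec : ∀ o ∈ OO, ∀ s ∈ Ss x.M x.κ, Ps s → ∀ τ ∈ dvs (rd o.1), ∀ g ∈ S x.Y, ∀ h ∈ S x.Y,
    Cl (x.tu qc o s τ g h 1) → ∃ us u w, OKs x.R s o.1 us u w
  cell : ∀ o ∈ OO, ∀ s ∈ Ss x.M x.κ, Ps s → ∀ τ ∈ dvs (rd o.1), ∀ g ∈ S x.Y, ∀ h ∈ S x.Y,
    ∀ a : Tu, a = x.tu qc o s τ g h 1 → Cl a → ∀ nδ nμ : ℕ,
    x.CB4 cw (bm o) (kk o) (κ' o) a nδ nμ
      (A 0 (x.vec a nδ nμ) (x.ky Kf a nδ nμ)) (A 1 (x.vec a nδ nμ) (x.ky Kf a nδ nμ))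
      (A 2 (x.vec a nδ nμ) (x.ky Kf a nδ nμ)) (A 3 (x.vec a nδ nμ) (x.ky Kf a nδ nμ))
  hA0 : ∀ j n A₀, 0 ≤ A j n A₀
  hBs : ∀ o ∈ OO, bpt o.1 o.2 ∈ Bs
  hAf : ∀ o ∈ OO, ∀ s ∈ Ss x.M x.κ, Ps s → ∀ τ ∈ dvs (rd o.1), ∀ g ∈ S x.Y, ∀ h ∈ S x.Y,
    ∀ a : Tu, a = x.tu qc o s τ g h 1 → Cl a → ∀ nδ nμ : ℕ, IsPrim (Ak (x.ky Kf a nδ nμ)) ∧
      x.ky Kf a nδ nμ ∈ Ad ∧ Ak (x.ky Kf a nδ nμ) ∣ PP (x.Sf a.q) x.g₁ a.ν (a.us * a.τ)
  hPhi : ∀ o ∈ OO, ∀ s ∈ Ss x.M x.κ, Ps s → ∀ τ ∈ dvs (rd o.1), ∀ g ∈ S x.Y, ∀ h ∈ S x.Y,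
    ∀ a : Tu, a = x.tu qc o s τ g h 1 → Cl a → ∀ i ∈ x.gd a, IsCoprime a.us a.τ →
      x.cz (bm o) (kk o) (κ' o) a i ≠ 0 →
      x.PhiR cw Mb Ek A Ys (x.vec a (lg i.1) (lg i.2)) (x.ky Kf a (lg i.1) (lg i.2)) ≤ Sx
  hYs : ∀ o ∈ OO, ∀ s ∈ Ss x.M x.κ, Ps s → ∀ τ ∈ dvs (rd o.1), ∀ g ∈ S x.Y, ∀ h ∈ S x.Y,
    ∀ a : Tu, a = x.tu qc o s τ g h 1 → Cl a → ∀ i ∈ x.gd a, IsCoprime a.us a.τ →
      x.cz (bm o) (kk o) (κ' o) a i ≠ 0 → ∀ y, IsPrim y → Squarefree y →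
        y ∣ PP (x.Sf a.q) x.g₁ a.ν (a.us * a.τ) → y ∈ Ys (x.vec a (lg i.1) (lg i.2)) (x.ky Kf a (lg i.1) (lg i.2)).1
  hA3 : ∀ j n d r, j ≠ 3 → A j n (d, r) = A j n (d, 1)
  hAd : ∀ k ∈ Ad, k.2 ≠ 0
  Sx0 : 0 ≤ Sx

/-- the facts on `PP` -/
lemma pp_facts {M S₀ g₁ ν σ c₀ : Eis} (hS : IsPrim S₀) (hg₁ : PrI M g₁) (hν : IsPrim ν)
    (hσ : IsPrim σ) (hσS : SupB σ S₀) (hJ : JC (FF S₀ c₀ g₁ ν σ)) (hc₀ : c₀ ≠ 0) :
    IsPrim (PP S₀ g₁ ν σ) ∧ CbF (PP S₀ g₁ ν σ) ∧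
      (∀ p, Prime p → p ∣ PP S₀ g₁ ν σ → p ∣ S₀ * M * ν) ∧
      (∀ y, IsCoprime y (S₀ * M * ν) → IsCoprime (PP S₀ g₁ ν σ) y) ∧ PP S₀ g₁ ν σ ≠ 0 := by
  have hF0 : FF S₀ c₀ g₁ ν σ ≠ 0 := E5b54.JC_ne_zero hJ
  have hP0 : PP S₀ g₁ ν σ ≠ 0 := by
    intro h0
    apply hF0
    rw [FF_eq, h0, mul_zero]
  have hPp := PP_prim hS hg₁.1 hν hσ hP0
  have hPc : CbF (PP S₀ g₁ ν σ) := cbf_of_JC (c₀ := c₀) hPp (by rw [← FF_eq]; exact hJ)
  have hA0 : AA S₀ (bpt S₀ g₁ * σ * bpt S₀ ν ^ 2) ≠ 0 := fun h => hP0 (by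
    unfold PP; rw [h, zero_mul])
  have hρ : IsPrim (bpt S₀ g₁ * σ * bpt S₀ ν ^ 2) :=
    ((bpt_prim hS hg₁.1).mul hσ).mul ((bpt_prim hS hν).pow 2)
  have hρS : SupB (bpt S₀ g₁ * σ * bpt S₀ ν ^ 2) S₀ := by
    intro p hp hd
    rcases hp.dvd_or_dvd hd with h1 | h1
    · rcases hp.dvd_or_dvd h1 with h2 | h2
      · exact E4579.bpt_sup hS hg₁.1 p hp h2
      · exact hσS p hp h2
    · exact E4579.bpt_sup hS hν p hp (hp.dvd_of_dvd_pow h1)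
  have hsup := sup_AA hS hρ hρS hA0
  have hPd : ∀ p, Prime p → p ∣ PP S₀ g₁ ν σ → p ∣ S₀ * M * ν := by
    intro p hp hd
    unfold PP at hd
    rcases hp.dvd_or_dvd hd with h1 | h1
    · exact ((hsup p hp h1).mul_right _).mul_right _
    · rcases hp.dvd_or_dvd h1 with h2 | h2
      · have h3 : p ∣ g₁ := h2.trans (bco_dvd' hS hg₁.1)
        exact ((hg₁.2 p hp h3).mul_left _).mul_right _
      · have h3 : p ∣ ν := (hp.dvd_of_dvd_pow h2).trans (bco_dvd' hS hν)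
        exact h3.mul_left _
  have hcopP : ∀ y, IsCoprime y (S₀ * M * ν) → IsCoprime (PP S₀ g₁ ν σ) y := by
    intro y hy
    refine isCoprime_of_prime_dvd (fun h' => hPp.ne_zero h'.1) fun p hp h1 h2 => ?_
    exact hp.not_isUnit (hy.isUnit_of_dvd' h2 (hPd p hp h1))
  exact ⟨hPp, hPc, hPd, hcopP, hP0⟩

section tot

variable {x : XF} {cw : ℝ} {OO : Finset (Eis × Eis)} {v' bm : Eis × Eis → Eis → ℂ}
  {kk : Eis × Eis → ℂ} {κ' : Eis × Eis → Eis → ℂ} {qc : Eis → Eis} {Mb Ek Sx : ℝ}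
  {A : Fin 4 → (Fin 12 → ℕ) → Eis × Eis → ℝ} {Kf : (Fin 12 → ℕ) → Eis → Eis → Eis → Eis × Eis} {Bs : Finset Eis} {Ys : (Fin 12 → ℕ) → Eis → Finset Eis} {Ad : Finset (Eis × Eis)}
  {Cl : Tu → Prop} {Ps : Eis → Prop}

open Classical in
/-- **one outer index** -/
theorem pre_oR (H : x.HO cw OO v' bm kk κ' qc Mb Ek)
    (HC : x.HCR cw OO v' bm kk κ' qc Mb Ek A Kf Bs Ys Ad Cl Ps Sx) {Pk : Eis → Prop}
    (hP : ∀ a s, Pk (a * s ^ 2) → Ps s) {o : Eis × Eis} (ho : o ∈ OO) :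
    XMbP x.M (v' o) (bm o) Pk x.κ ≤ (∑ g ∈ S x.Y, ∑ h ∈ S x.Y, (wg g h)⁻¹) *
      ((dvs (rd o.1)).card : ℝ) * ((Nc x.Y : ℝ) ^ 2 * (x.κ *
        ∑ s ∈ Ss x.M x.κ, ∑ τ ∈ primBall ⌊x.Y⌋₊, ∑ g ∈ S x.Y, ∑ h ∈ S x.Y,
          ∑ i ∈ S x.Y ×ˢ S x.Y, if Cn x bm kk κ' qc Cl (o, s, τ, g, h, i) then
            x.GGF cw bm kk κ' A Kf (ph x qc (o, s, τ, g, h, i)) else 0)) := by
  have hx := H.ok
  have hY1 := hx.Y1
  have hY : 0 ≤ x.Y := by linarith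
  obtain ⟨o1, o2, o3, o4⟩ := H.o1 o ho
  have hκ := H.κ0
  refine (XMbP_le H.κ0 H.X0 H.XY (H.hv o ho) (H.hvf o ho) (H.hb o ho) o1
    (w := wg) wg_pos hP).trans ?_
  refine mul_le_mul_of_nonneg_left ?_ (mul_nonneg (sum_nonneg fun g _ => sum_nonneg fun h _ =>
    (inv_pos.mpr (wg_pos g h)).le) (Nat.cast_nonneg _))
  have hGG := GGF_nonneg (Kf := Kf) H HC.hA0
  have hif : ∀ p, 0 ≤ (if Cn x bm kk κ' qc Cl p then
      x.GGF cw bm kk κ' A Kf (ph x qc p) else 0) := fun p => by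
    split_ifs
    · exact hGG _
    · exact le_rfl
  rw [mul_sum, mul_sum]
  refine le_trans (sum_le_sum fun s hs => ?_) (sum_le_sum_of_subset_of_nonneg
    (filter_subset Ps _) fun s _ _ => mul_nonneg (by positivity) (mul_nonneg hκ.le
      (sum_nonneg fun τ _ => sum_nonneg fun g _ => sum_nonneg fun h _ => sum_nonneg fun i _ =>
        hif _)))
  obtain ⟨hs, hPs⟩ := mem_filter.mp hs
  obtain ⟨hsp, -, -, -⟩ := mem_Ss hs
  have hs0 := nmpos' hsp.ne_zero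
  -- the divisors of `rd S` are bounded
  have hsub : dvs (rd o.1) ⊆ primBall ⌊x.Y⌋₊ := by
    intro τ hτ
    refine mem_primBall.mpr ⟨Nat.le_floor ?_, isPrim_of_mem_dvs hτ⟩
    refine le_trans ?_ o3
    have h1 := Crest.Agent.R012.Div277.nm_le_of_dvd (E4352.rd_prim _).ne_zero (dvd_of_mem_dvs hτ)
    have h2 := Crest.Agent.R012.Div277.nm_le_of_dvd o1.ne_zero (E4352.rd_dvd o.1)
    exact_mod_cast h1.trans h2
  have hmain : ∀ τ ∈ dvs (rd o.1), ∀ g ∈ S x.Y, ∀ h ∈ S x.Y,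
      (nm s : ℝ) * (wg g h * ∑ a ∈ As x.M x.κ s, ‖AQ (IP x.Y (S x.X) g h) (fun i => i.1 * i.2)
        (Vz (v' o) (bm o) o.1 s τ g h) a‖ ^ 2) ≤ (Nc x.Y : ℝ) ^ 2 * (x.κ *
        ∑ i ∈ S x.Y ×ˢ S x.Y, if Cn x bm kk κ' qc Cl (o, s, τ, g, h, i) then
          x.GGF cw bm kk κ' A Kf (ph x qc (o, s, τ, g, h, i)) else 0) := by
    intro τ hτ g hg h hh
    have hw := (wg_pos g h).le
    have hr0 : 0 ≤ (Nc x.Y : ℝ) ^ 2 * (x.κ *
        ∑ i ∈ S x.Y ×ˢ S x.Y, if Cn x bm kk κ' qc Cl (o, s, τ, g, h, i) then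
          x.GGF cw bm kk κ' A Kf (ph x qc (o, s, τ, g, h, i)) else 0) :=
      mul_nonneg (by positivity) (mul_nonneg hκ.le (sum_nonneg fun i _ => hif _))
    by_cases hCl : Cl (x.tu qc o s τ g h 1)
    swap
    · have h0 : ∀ a : Eis, AQ (IP x.Y (S x.X) g h) (fun i => i.1 * i.2)
          (Vz (v' o) (bm o) o.1 s τ g h) a = 0 := by
        intro a
        unfold E3q681.AQ
        refine sum_eq_zero fun i hi => ?_
        rw [HC.arr0 o ho s hs hPs τ hτ g hg h hh i hi hCl, CS_zero', mul_zero]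
      simp_rw [h0]
      simp only [norm_zero, ne_eq, OfNat.ofNat_ne_zero, not_false_eq_true, zero_pow,
        sum_const_zero, mul_zero]
      exact hr0
    -- the main case
    obtain ⟨a, ha⟩ : ∃ a : Tu, a = x.tu qc o s τ g h 1 := ⟨_, rfl⟩
    obtain ⟨us, u, w, hd0⟩ := HC.dec o ho s hs hPs τ hτ g hg h hh hCl
    have hd := dsf_spec hd0
    have hgp := ((mem_S hY).1 hg).2.1
    have hhp := ((mem_S hY).1 hh).2.1
    have e1 : x.Sf a.q = o.1 := by rw [ha]; exact (H.oq o ho).2.2.1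
    have hd' : OKs x.R a.s (x.Sf a.q) a.us a.u a.w := by rw [e1, ha]; exact hd
    have h1 : ∀ b : Eis, AQ (IP x.Y (S x.X) g h) (fun i => i.1 * i.2)
        (Vz (v' o) (bm o) o.1 s τ g h) b =
        AQ (IP x.Y (S x.X) a.g a.h) (fun i => i.1 * i.2) (x.ar (bm o) (kk o) (κ' o) a) b := by
      intro b
      have eg : a.g = g := by rw [ha]; rfl
      have eh : a.h = h := by rw [ha]; rfl
      rw [eg, eh]
      unfold E3q681.AQ
      refine sum_congr rfl fun i hi => ?_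
      rw [HC.arr o ho s hs hPs τ hτ g hg h hh i hi hCl, ha]
    have h2 := AQ_pre4 (x := x) (cw := cw) (bm := bm o) (κ' := κ' o) (k := kk o) (a := a) hx H.Om
      hd' (by rw [ha]; exact hgp) (by rw [ha]; exact hhp) hY hκ.le (N := Nc x.Y) (fun i hi => by
        unfold XF.gd at hi
        obtain ⟨j1, j2, j3, j4, j5, j6, j7, j8, j9⟩ := IP_mem hY (mem_filter.mp hi).1
        have hY2 : x.Y ≤ 2 * x.Y ^ 2 := by nlinarith
        exact ⟨lg_lt ((((mem_S hY).1 j8).1).trans hY2), lg_lt ((((mem_S hY).1 j9).1).trans hY2)⟩)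
      (A0 := fun nδ nμ => A 0 (x.vec a nδ nμ) (x.ky Kf a nδ nμ))
      (A1 := fun nδ nμ => A 1 (x.vec a nδ nμ) (x.ky Kf a nδ nμ))
      (A2 := fun nδ nμ => A 2 (x.vec a nδ nμ) (x.ky Kf a nδ nμ))
      (A3 := fun nδ nμ => A 3 (x.vec a nδ nμ) (x.ky Kf a nδ nμ))
      (fun nδ nμ => HC.cell o ho s hs hPs τ hτ g hg h hh a ha (by rw [ha]; exact hCl) nδ nμ)
    simp_rw [h1]
    have es : a.s = s := by rw [ha]; rfl
    rw [es] at h2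
    calc (nm s : ℝ) * (wg g h * ∑ b ∈ As x.M x.κ s,
          ‖AQ (IP x.Y (S x.X) a.g a.h) (fun i => i.1 * i.2) (x.ar (bm o) (kk o) (κ' o) a) b‖ ^ 2)
        ≤ (nm s : ℝ) * (wg g h * ((Nc x.Y : ℝ) ^ 2 * (x.κ / nm s ^ 2 * ∑ i ∈ x.gd a,
          x.gb4 cw (bm o) (kk o) (κ' o) a
          (A 0 (x.vec a (lg i.1) (lg i.2)) (x.ky Kf a (lg i.1) (lg i.2)))
          (A 1 (x.vec a (lg i.1) (lg i.2)) (x.ky Kf a (lg i.1) (lg i.2)))
          (A 2 (x.vec a (lg i.1) (lg i.2)) (x.ky Kf a (lg i.1) (lg i.2)))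
          (A 3 (x.vec a (lg i.1) (lg i.2)) (x.ky Kf a (lg i.1) (lg i.2))) i))) := by gcongr
      _ = (Nc x.Y : ℝ) ^ 2 * (x.κ * ∑ i ∈ x.gd a, wg g h / nm s *
          x.gb4 cw (bm o) (kk o) (κ' o) a
          (A 0 (x.vec a (lg i.1) (lg i.2)) (x.ky Kf a (lg i.1) (lg i.2)))
          (A 1 (x.vec a (lg i.1) (lg i.2)) (x.ky Kf a (lg i.1) (lg i.2)))
          (A 2 (x.vec a (lg i.1) (lg i.2)) (x.ky Kf a (lg i.1) (lg i.2)))
          (A 3 (x.vec a (lg i.1) (lg i.2)) (x.ky Kf a (lg i.1) (lg i.2))) i) := by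
          rw [← mul_sum]
          field_simp
      _ ≤ _ := by
          refine mul_le_mul_of_nonneg_left (mul_le_mul_of_nonneg_left ?_ hκ.le) (by positivity)
          have h3 : ∀ i ∈ x.gd a, wg g h / nm s * x.gb4 cw (bm o) (kk o) (κ' o) a
              (A 0 (x.vec a (lg i.1) (lg i.2)) (x.ky Kf a (lg i.1) (lg i.2)))
              (A 1 (x.vec a (lg i.1) (lg i.2)) (x.ky Kf a (lg i.1) (lg i.2)))
              (A 2 (x.vec a (lg i.1) (lg i.2)) (x.ky Kf a (lg i.1) (lg i.2)))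
              (A 3 (x.vec a (lg i.1) (lg i.2)) (x.ky Kf a (lg i.1) (lg i.2))) i =
              if Cn x bm kk κ' qc Cl (o, s, τ, g, h, i) then
                x.GGF cw bm kk κ' A Kf (ph x qc (o, s, τ, g, h, i)) else 0 := by
            intro i hi
            rw [← GGF_ph H ho ha]
            by_cases hcz : x.cz (bm o) (kk o) (κ' o) a i = 0
            · rw [if_neg]
              · rw [GGF_ph H ho ha]
                unfold XF.gb4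
                rw [hcz]
                simp
              · rintro ⟨-, -, -, h4⟩
                exact h4 (by rw [← ha]; exact hcz)
            · rw [if_pos]
              refine ⟨hτ, hCl, ?_, ?_⟩
              · rw [← ha]; exact hi
              · rw [← ha]; exact hcz
          rw [sum_congr rfl h3]
          refine sum_le_sum_of_subset_of_nonneg (fun i hi => ?_) fun i _ _ => hif _
          unfold XF.gd at hi
          obtain ⟨j1, j2, j3, j4, j5, j6, j7, j8, j9⟩ := IP_mem hY (mem_filter.mp hi).1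
          exact mem_product.mpr ⟨j8, j9⟩
  calc (nm s : ℝ) * ∑ τ ∈ dvs (rd o.1), ∑ g ∈ S x.Y, ∑ h ∈ S x.Y, wg g h *
        ∑ a ∈ As x.M x.κ s, ‖AQ (IP x.Y (S x.X) g h) (fun i => i.1 * i.2)
          (Vz (v' o) (bm o) o.1 s τ g h) a‖ ^ 2
      = ∑ τ ∈ dvs (rd o.1), ∑ g ∈ S x.Y, ∑ h ∈ S x.Y, (nm s : ℝ) * (wg g h *
        ∑ a ∈ As x.M x.κ s, ‖AQ (IP x.Y (S x.X) g h) (fun i => i.1 * i.2)
          (Vz (v' o) (bm o) o.1 s τ g h) a‖ ^ 2) := by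
        simp_rw [mul_sum]
    _ ≤ ∑ τ ∈ dvs (rd o.1), ∑ g ∈ S x.Y, ∑ h ∈ S x.Y, (Nc x.Y : ℝ) ^ 2 * (x.κ *
        ∑ i ∈ S x.Y ×ˢ S x.Y, if Cn x bm kk κ' qc Cl (o, s, τ, g, h, i) then
          x.GGF cw bm kk κ' A Kf (ph x qc (o, s, τ, g, h, i)) else 0) :=
        sum_le_sum fun τ hτ => sum_le_sum fun g hg => sum_le_sum fun h hh => hmain τ hτ g hg h hh
    _ ≤ ∑ τ ∈ primBall ⌊x.Y⌋₊, ∑ g ∈ S x.Y, ∑ h ∈ S x.Y, (Nc x.Y : ℝ) ^ 2 * (x.κ *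
        ∑ i ∈ S x.Y ×ˢ S x.Y, if Cn x bm kk κ' qc Cl (o, s, τ, g, h, i) then
          x.GGF cw bm kk κ' A Kf (ph x qc (o, s, τ, g, h, i)) else 0) :=
        sum_le_sum_of_subset_of_nonneg hsub fun τ _ _ => sum_nonneg fun g _ => sum_nonneg fun h _ =>
          mul_nonneg (by positivity) (mul_nonneg hκ.le (sum_nonneg fun i _ => hif _))
    _ = _ := by simp_rw [mul_sum]

open Classical in
/-- the facts on a pair of the sum -/
lemma fact_yR (H : x.HO cw OO v' bm kk κ' qc Mb Ek)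
    (HC : x.HCR cw OO v' bm kk κ' qc Mb Ek A Kf Bs Ys Ad Cl Ps Sx) {y : Tu × Eis}
    (hy : y ∈ ((P6 x OO).filter (Cn x bm kk κ' qc Cl)).image (ph x qc)) :
    x.OKy OO y ∧ (nm y.1.s : ℝ) ≤ Real.sqrt (2 * x.κ) ∧ (nm y.1.δ : ℝ) ≤ x.Y ∧
      bpt (x.Sf y.1.q) y.1.ν ∈ Bs ∧ IsPrim (Ak (x.ky Kf y.1 (lg y.1.δ) (lg y.2))) ∧
      x.ky Kf y.1 (lg y.1.δ) (lg y.2) ∈ Ad ∧
      Ak (x.ky Kf y.1 (lg y.1.δ) (lg y.2)) ∣ PP (x.Sf y.1.q) x.g₁ y.1.ν (y.1.us * y.1.τ) ∧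
      x.PhiR cw Mb Ek A Ys (x.vec y.1 (lg y.1.δ) (lg y.2)) (x.ky Kf y.1 (lg y.1.δ) (lg y.2)) ≤ Sx ∧
      CJ x y.1 ∧ YJ x (Ys (x.vec y.1 (lg y.1.δ) (lg y.2)) (x.ky Kf y.1 (lg y.1.δ) (lg y.2)).1) y.1 := by
  have hY : 0 ≤ x.Y := by linarith [H.ok.Y1]
  obtain ⟨⟨o, s, τ, g, h, i⟩, hp, rfl⟩ := mem_image.mp hy
  obtain ⟨hp1, hp2⟩ := mem_filter.mp hp
  obtain ⟨c1, c2, c3, c4⟩ := hp2
  unfold P6 at hp1
  simp only [mem_product] at hp1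
  obtain ⟨ho, hs, -, hg, hh, hi1, hi2⟩ := hp1
  simp only at c1 c2 c3 c4
  have hPs : Ps s := HC.clP _ c2
  obtain ⟨us, u, w, hd0⟩ := HC.dec o ho s hs hPs τ c1 g hg h hh c2
  have hd := dsf_spec hd0
  have e1 : x.Sf (qc o.1) = o.1 := (H.oq o ho).2.2.1
  have hd' : OKs x.R (x.tu qc o s τ g h 1).s (x.Sf (x.tu qc o s τ g h 1).q)
      (x.tu qc o s τ g h 1).us (x.tu qc o s τ g h 1).u (x.tu qc o s τ g h 1).w := by
    show OKs x.R s (x.Sf (qc o.1)) _ _ _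
    rw [e1]; exact hd
  have hc := cz_ne H.R hd' c4
  have hok := oky_of H ho hs c1 hg hh hd c3 hc
  obtain ⟨a1, a2, a3⟩ := HC.hAf o ho s hs hPs τ c1 g hg h hh _ rfl c2 (lg i.1) (lg i.2)
  have hPhi := HC.hPhi o ho s hs hPs τ c1 g hg h hh _ rfl c2 i c3 hc c4
  have hCJ : CJ x (x.tu qc o s τ g h i.1) := by
    obtain ⟨f1, f2, f3, f4⟩ := cz_facts c4
    have hJC := HC.jc _ c2
    have hS := hok.a.hS
    have hσ := hok.a.hs.hus.mul hok.a.hτ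
    have hσS : SupB ((x.tu qc o s τ g h i.1).us * (x.tu qc o s τ g h i.1).τ)
        (x.Sf (x.tu qc o s τ g h i.1).q) := hok.a.hs.husS.mul hok.a.hτS
    intro n n1 n2 n3
    have key := cbf_freq (n := n) hS H.g₁ hok.a.hν hσ hσS hJC H.c₀.ne_zero f1 f2 f3 f4 n2 n3
    have e3 : (x.tu qc o s τ g h i.1).J x.fr * n =
        PP (x.Sf (x.tu qc o s τ g h i.1).q) x.g₁ (x.tu qc o s τ g h i.1).ν
          ((x.tu qc o s τ g h i.1).us * (x.tu qc o s τ g h i.1).τ) *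
          ((x.tu qc o s τ g h i.1).h * ((x.tu qc o s τ g h i.1).u * n)) := by
      show PP _ _ _ _ * (_ * (_ * 1)) * n = _
      rw [mul_one]
      show PP _ x.fr.g₁ _ _ * _ * n = _
      unfold XF.fr
      simp only
      ring
    rw [e3]
    exact key
  have hYJ : YJ x (Ys (x.vec (x.tu qc o s τ g h i.1) (lg i.1) (lg i.2))
      (x.ky Kf (x.tu qc o s τ g h i.1) (lg i.1) (lg i.2)).1)
      (x.tu qc o s τ g h i.1) := by
    obtain ⟨f1, f2, f3, f4⟩ := cz_facts c4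
    have hJC := HC.jc _ c2
    have hS := hok.a.hS
    have hσ := hok.a.hs.hus.mul hok.a.hτ
    have hσS : SupB ((x.tu qc o s τ g h i.1).us * (x.tu qc o s τ g h i.1).τ)
        (x.Sf (x.tu qc o s τ g h i.1).q) := hok.a.hs.husS.mul hok.a.hτS
    obtain ⟨g1, g2, g3, g4, g5⟩ := pp_facts hS H.g₁ hok.a.hν hσ hσS hJC H.c₀.ne_zero
    have hYs := HC.hYs o ho s hs hPs τ c1 g hg h hh _ rfl c2 i c3 hc c4
    intro j j1 j2 j3
    exact dec_freq g1 g2 hok.a.hh f3 hok.a.hs.hu f1 f4.of_mul_right_right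
      (g4 _ f4.of_mul_right_left) (g4 _ f2) j1 j2 j3 hYs
  refine ⟨hok, (mem_Ss hs).2.2.2, ((mem_S hY).1 hi1).1, ?_, a1, a2, a3, hPhi, hCJ, hYJ⟩
  show bpt (x.Sf (qc o.1)) o.2 ∈ Bs
  rw [e1]
  exact HC.hBs o ho

end tot

open Classical in
/-- **the total of the cells of the structured `x`-side** -/
theorem xtotalR {ε : ℝ} (hε : 0 < ε) {cw : ℝ} (hcw : 1 ≤ cw) : ∃ C : ℝ, 0 ≤ C ∧
    ∀ (x : XF) (OO : Finset (Eis × Eis)) (v' bm : Eis × Eis → Eis → ℂ) (kk : Eis × Eis → ℂ)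
      (κ' : Eis × Eis → Eis → ℂ) (qc : Eis → Eis) (Mb Ek : ℝ)
      (A : Fin 4 → (Fin 12 → ℕ) → Eis × Eis → ℝ) (Kf : (Fin 12 → ℕ) → Eis → Eis → Eis → Eis × Eis) (Bs : Finset Eis) (Ys : (Fin 12 → ℕ) → Eis → Finset Eis)
      (Ad : Finset (Eis × Eis)) (Cl : Tu → Prop) (Pk Ps : Eis → Prop) (Sx : ℝ),
      x.HO cw OO v' bm kk κ' qc Mb Ek → x.HCR cw OO v' bm kk κ' qc Mb Ek A Kf Bs Ys Ad Cl Ps Sx →
      (∀ a s, Pk (a * s ^ 2) → Ps s) → ∑ o ∈ OO, XMbP x.M (v' o) (bm o) Pk x.κ ≤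
        C * x.Y ^ ε * (Bs.card * ((Ad.image Prod.fst).card + ∑ k ∈ Ad, (nm k.2 : ℝ)⁻¹) * Sx) := by
  set η := ε / 18 with hη
  have hη0 : 0 < η := by rw [hη]; positivity
  obtain ⟨C1, hC1, h1⟩ := sum_wg hη0
  obtain ⟨C2, hC2, h2⟩ := tau_le_rpow hη0
  obtain ⟨C3, hC3, h3⟩ := Nc_le hη0
  obtain ⟨C4, hC4, h4⟩ := cls_sumR hη0 hcw
  have hC20 : 0 ≤ C2 := by linarith
  refine ⟨C1 ^ 2 * C2 * C3 ^ 14 * C4, by positivity, ?_⟩
  intro x OO v' bm kk κ' qc Mb Ek A Kf Bs Ys Ad Cl Pk Ps Sx H HC hP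
  have hx := H.ok
  have hY1 := hx.Y1
  have hY0 : 0 < x.Y := by linarith
  have hYη : 0 ≤ x.Y ^ η := by positivity
  have hκ := H.κ0
  have hSx := HC.Sx0
  set T := ((P6 x OO).filter (Cn x bm kk κ' qc Cl)).image (ph x qc) with hT
  set N := Nc x.Y with hN
  have hGG := GGF_nonneg (Kf := Kf) H HC.hA0
  -- the sum over the classes
  set AD := Ad.image Prod.fst with hAD
  set PF : Finset ((Fin 12 → ℕ) × Eis) :=
    (Fintype.piFinset (fun _ : Fin 12 => range N)) ×ˢ AD with hPF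
  set Wr : ℝ := AD.card + ∑ k ∈ Ad, (nm k.2 : ℝ)⁻¹ with hWr
  have hWr0 : 0 ≤ Wr := add_nonneg (Nat.cast_nonneg _) (sum_nonneg fun k _ => by positivity)
  set key : Tu × Eis → (Fin 12 → ℕ) × Eis := fun y =>
    (x.vec y.1 (lg y.1.δ) (lg y.2), (x.ky Kf y.1 (lg y.1.δ) (lg y.2)).1) with hkey
  have hmap : ∀ y ∈ T, key y ∈ PF := by
    intro y hy
    obtain ⟨f1, f2, f3, f4, f5, f6, f7, f8, f9', f10'⟩ := fact_yR H HC hy
    rw [hPF, mem_product]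
    refine ⟨?_, mem_image_of_mem _ f6⟩
    rw [Fintype.mem_piFinset]
    intro j
    exact mem_range.mpr (vec_lt H f1 f2 f3 j)
  have hMbE : ∀ n, 0 ≤ x.WR Mb Ek n := by
    intro n
    have h1 := H.Mb0
    have h2 := H.Ek0
    have h3 := En_pos hx n
    have h4 := Jn_pos x n
    have hV : 0 ≤ x.V ^ (-(1 / 3) : ℝ) := Real.rpow_nonneg hx.V0.le _
    have hB : 0 ≤ x.Base n := by
      unfold XF.Base
      positivity
    unfold XF.WR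
    positivity
  have hPT0 : ∀ n d, 0 ≤ x.PT cw Mb Ek A Ys n d := by
    intro n d
    have g1 := HC.hA0 0 n (d, 1)
    have g2 := HC.hA0 1 n (d, 1)
    have g3 := HC.hA0 2 n (d, 1)
    have g4 := TSD_nonneg x.α x.e₀ x.c₀ (x.Ee n) (x.Ln cw n)
    have g5 := TSR_nonneg x.α x.e₀ x.c₀ 1 (x.Ee n) (Ys n d) (x.Ln cw n)
    have g6 := TSR_nonneg x.α x.e₀ x.c₀ (1 / 2) (x.Ee n) (Ys n d) (x.Ln cw n)
    have g7 := hMbE n
    unfold XF.PT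
    positivity
  have hPR0 : ∀ n k, 0 ≤ x.PR Mb Ek A n k := by
    intro n k
    have g1 := HC.hA0 3 n k
    have g7 := hMbE n
    have h3 := En_pos hx n
    have h4 := Jn_pos x n
    unfold XF.PR
    positivity
  have hcls : x.κ * ∑ y ∈ T, x.GGF cw bm kk κ' A Kf y ≤
      (N : ℝ) ^ 12 * (C4 * x.Y ^ η * (Bs.card * Wr * Sx)) := by
    rw [← sum_fiberwise_of_maps_to hmap, mul_sum]
    obtain ⟨Wd, hWd⟩ : ∃ Wd : Eis → ℝ, ∀ d, Wd d = ∑ k ∈ Ad with k.1 = d, (nm k.2 : ℝ)⁻¹ :=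
      ⟨_, fun _ => rfl⟩
    have hb : ∀ c ∈ PF, x.κ * ∑ y ∈ T with key y = c, x.GGF cw bm kk κ' A Kf y ≤
        C4 * x.Y ^ η * (Bs.card * ((1 + Wd c.2) * Sx)) := by
      intro c hc
      rcases (T.filter (fun y => key y = c)).eq_empty_or_nonempty with h0 | ⟨y₀, hy₀⟩
      · rw [h0, sum_empty, mul_zero]
        have : 0 ≤ Wd c.2 := by rw [hWd]; exact sum_nonneg fun k _ => by positivity
        positivity
      obtain ⟨hy₀T, hy₀c⟩ := mem_filter.mp hy₀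
      obtain ⟨f1, f2, f3, f4, f5, f6, f7, f8, f9', f10'⟩ := fact_yR H HC hy₀T
      obtain ⟨n, d⟩ := c
      rw [hkey] at hy₀c
      simp only [Prod.mk.injEq] at hy₀c
      have h5 := h4 x OO v' bm kk κ' qc Mb Ek A Kf Bs Ys (T.filter (fun y => key y = (n, d))) n d H
        (fun j k => HC.hA0 j n k) (fun j hj r => HC.hA3 j n d r hj) (fun y hy => by
          obtain ⟨hyT, hyc⟩ := mem_filter.mp hy
          obtain ⟨k1, k2, k3, k4, k5, k6, k7, k8, k9, k10⟩ := fact_yR H HC hyT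
          rw [hkey] at hyc
          simp only [Prod.mk.injEq] at hyc
          refine ⟨k1, hyc.1, hyc.2, k5, k4, k7, k9, ?_⟩
          rw [← hyc.1, ← hyc.2]; exact k10)
      refine h5.trans ?_
      have hA3' : ∀ y ∈ T, ∀ j, j ≠ 3 → A j (x.vec y.1 (lg y.1.δ) (lg y.2))
          (x.ky Kf y.1 (lg y.1.δ) (lg y.2)) = A j (x.vec y.1 (lg y.1.δ) (lg y.2))
          ((x.ky Kf y.1 (lg y.1.δ) (lg y.2)).1, 1) := by
        intro y _ j hj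
        exact HC.hA3 j _ (x.ky Kf y.1 (lg y.1.δ) (lg y.2)).1 (x.ky Kf y.1 (lg y.1.δ) (lg y.2)).2 hj
      -- the `T`-part
      have g1 : x.PT cw Mb Ek A Ys n d ≤ Sx := by
        rw [PhiR_eq x cw Mb Ek A Ys _ _ (hA3' y₀ hy₀T)] at f8
        have h6 := hPR0 (x.vec y₀.1 (lg y₀.1.δ) (lg y₀.2)) (x.ky Kf y₀.1 (lg y₀.1.δ) (lg y₀.2))
        have h7 : 0 ≤ (nm (x.ky Kf y₀.1 (lg y₀.1.δ) (lg y₀.2)).2 : ℝ) *
          x.PR Mb Ek A (x.vec y₀.1 (lg y₀.1.δ) (lg y₀.2))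
            (x.ky Kf y₀.1 (lg y₀.1.δ) (lg y₀.2)) := by positivity
        rw [hy₀c.1, hy₀c.2] at f8
        rw [hy₀c.1] at h7
        linarith
      -- the count part
      have g2 : ∑ k ∈ (T.filter (fun y => key y = (n, d))).image
          (fun y => x.ky Kf y.1 (lg y.1.δ) (lg y.2)), x.PR Mb Ek A n k ≤
          Wd d * Sx := by
        rw [hWd, sum_mul]
        refine (sum_le_sum fun k hk => ?_).trans (sum_le_sum_of_subset_of_nonneg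
          (f := fun k : Eis × Eis => (nm k.2 : ℝ)⁻¹ * Sx) (fun k hk => ?_)
          fun k _ _ => by positivity)
        · obtain ⟨y, hy, rfl⟩ := mem_image.mp hk
          obtain ⟨hyT, hyc⟩ := mem_filter.mp hy
          obtain ⟨k1, k2, k3, k4, k5, k6, k7, k8, k9, k10⟩ := fact_yR H HC hyT
          rw [hkey] at hyc
          simp only [Prod.mk.injEq] at hyc
          rw [PhiR_eq x cw Mb Ek A Ys _ _ (hA3' y hyT)] at k8
          have h6 := hPT0 (x.vec y.1 (lg y.1.δ) (lg y.2)) (x.ky Kf y.1 (lg y.1.δ) (lg y.2)).1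
          have hr : (0 : ℝ) < nm (x.ky Kf y.1 (lg y.1.δ) (lg y.2)).2 := nmpos' (HC.hAd _ k6)
          rw [inv_mul_eq_div, le_div_iff₀ hr, mul_comm]
          rw [hyc.1] at k8 h6
          linarith
        · obtain ⟨y, hy, rfl⟩ := mem_image.mp hk
          obtain ⟨hyT, hyc⟩ := mem_filter.mp hy
          obtain ⟨k1, k2, k3, k4, k5, k6, k7, k8, k9, k10⟩ := fact_yR H HC hyT
          rw [hkey] at hyc
          simp only [Prod.mk.injEq] at hyc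
          exact mem_filter.mpr ⟨k6, hyc.2⟩
      refine mul_le_mul_of_nonneg_left (mul_le_mul_of_nonneg_left ?_ (Nat.cast_nonneg _))
        (by positivity)
      rw [add_mul, one_mul]
      exact add_le_add g1 g2
    refine (sum_le_sum hb).trans (le_of_eq ?_)
    have hfib : ∑ d ∈ AD, Wd d = ∑ k ∈ Ad, (nm k.2 : ℝ)⁻¹ := by
      rw [sum_congr rfl (fun d _ => hWd d)]
      exact sum_fiberwise_of_maps_to (fun k hk => mem_image_of_mem _ hk) _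
    rw [hPF, sum_product]
    dsimp only
    rw [sum_const, Fintype.card_piFinset]
    simp only [card_range, prod_const, card_univ, Fintype.card_fin, nsmul_eq_mul]
    rw [← mul_sum, ← mul_sum, ← sum_mul, sum_add_distrib, sum_const, nsmul_eq_mul, hfib, mul_one,
      ← hWr]
    push_cast
    ring
  -- the outer indices
  have hout : ∑ o ∈ OO, XMbP x.M (v' o) (bm o) Pk x.κ ≤ (C1 * x.Y ^ η) ^ 2 * (C2 * x.Y ^ η) *
      ((N : ℝ) ^ 2 * (x.κ * ∑ y ∈ T, x.GGF cw bm kk κ' A Kf y)) := by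
    rw [hT, ← sum_P6 H, mul_sum, mul_sum, mul_sum]
    refine sum_le_sum fun o ho => ?_
    refine (pre_oR H HC hP ho).trans ?_
    obtain ⟨o1, o2, o3, o4⟩ := H.o1 o ho
    have g1 := h1 x.Y hY1
    have g0 : 0 ≤ ∑ g ∈ S x.Y, ∑ h ∈ S x.Y, (wg g h)⁻¹ := sum_nonneg fun g _ =>
      sum_nonneg fun h _ => (inv_pos.mpr (wg_pos g h)).le
    have g2 : ((dvs (rd o.1)).card : ℝ) ≤ C2 * x.Y ^ η := by
      refine (h2 _ (E4352.rd_prim _).ne_zero).trans (mul_le_mul_of_nonneg_left ?_ hC20)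
      refine Real.rpow_le_rpow (Nat.cast_nonneg _) (le_trans ?_ o3) hη0.le
      exact_mod_cast Crest.Agent.R012.Div277.nm_le_of_dvd o1.ne_zero (E4352.rd_dvd _)
    refine mul_le_mul_of_nonneg_right (mul_le_mul g1 g2 (Nat.cast_nonneg _) (by positivity)) ?_
    refine mul_nonneg (by positivity) (mul_nonneg hκ.le (sum_nonneg fun s _ => sum_nonneg fun τ _ =>
      sum_nonneg fun g _ => sum_nonneg fun h _ => sum_nonneg fun i _ => ?_))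
    split_ifs
    · exact hGG _
    · exact le_rfl
  have hNb := h3 x.Y hY1
  rw [← hN] at hNb
  calc ∑ o ∈ OO, XMbP x.M (v' o) (bm o) Pk x.κ
      ≤ (C1 * x.Y ^ η) ^ 2 * (C2 * x.Y ^ η) * ((N : ℝ) ^ 2 *
        ((N : ℝ) ^ 12 * (C4 * x.Y ^ η * (Bs.card * Wr * Sx)))) := by
        refine hout.trans ?_
        gcongr
    _ = (C1 * x.Y ^ η) ^ 2 * (C2 * x.Y ^ η) * ((N : ℝ) ^ 14 *
        (C4 * x.Y ^ η * (Bs.card * Wr * Sx))) := by ring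
    _ ≤ (C1 * x.Y ^ η) ^ 2 * (C2 * x.Y ^ η) * ((C3 * x.Y ^ η) ^ 14 *
        (C4 * x.Y ^ η * (Bs.card * Wr * Sx))) := by gcongr
    _ = C1 ^ 2 * C2 * C3 ^ 14 * C4 * (x.Y ^ η) ^ 18 * (Bs.card * Wr * Sx) := by ring
    _ = _ := by
        have : (x.Y ^ η) ^ 18 = x.Y ^ ε := by
          rw [← Real.rpow_natCast, ← Real.rpow_mul hY0.le]
          congr 1
          rw [hη]; push_cast; ring
        rw [this]

end Crest.Agent.R017.E4X92
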