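import Crest.Agent.R017.E4Xhx_679
import Crest.Agent.R017.E4Xk_681

/-!
# Row 17, block C70, leaf E4 (x-side), class E: the field `cell` at a character, two numbers
(helper679)

Twin of helper681's `E4Xk_681`.

* `cell_gxx` : **the field `cell` of `XF.HCF`**, data with `g₀ y = χ y * pw ξ (nm y)` on primaries
  and the window `wL i`; the numbers are `AA` at the effective number `We x Nα (L n) (W1 n k) n`
-/

set_option autoImplicit false
set_option linter.unusedVariables false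
set_option maxHeartbeats 400000

noncomputable section

open Complex MeasureTheory
open scoped ComplexConjugate Classical ContDiff

namespace Crest.Agent.R017.E4Xkx679

open Crest.Agent.R012 Crest.Agent.R012.Eis Crest.Agent.R012.MC
open Crest.Agent.R012.LS2 (S mem_S bl mem_bl)
open Crest.Agent.R012.Div277 (dvs mem_dvs isPrim_of_mem_dvs dvd_of_mem_dvs tau tau_le_rpow)
open Crest.Agent.R012.Mob705 (mu pdiv mem_pdiv)
open Crest.Agent.R012.Weight600 (pw osc)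
open Crest.Agent.R017.PX764 (n6 Gh)
open Crest.Agent.R017.CM106 (CS TG FS)
open Crest.Agent.R017.E1551 (nmpos jb jb_pos nm_ge_one summable_wF)
open Crest.Agent.R017.BD829
open Crest.Agent.R017.E3P842
open Crest.Agent.R017.E3D579
open Crest.Agent.R017.E3Sd579
open Crest.Agent.R017.Mode405
open Crest.Agent.R017.E3q681 hiding TD TD_nonneg
open Crest.Agent.R017.E4v92 (FF WW)
open Crest.Agent.R017.E4z92 (OKs cZ QQ RQ As Ss mem_As mem_Ss)
open Crest.Agent.R017.E4zz92 (Tu PP)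
open Crest.Agent.R017.E4F266 (IP IP_mem)
open Crest.Agent.R017.E4352 (rd dvd_rd)
open Crest.Agent.R017.E4579 (SupB)
open Crest.Agent.R017.E4X92
open Crest.Agent.R017.End699 (HC tw)
open Crest.Agent.R017.FE47 (hD contDiff_hD hasCompactSupport_hD hD_supp)
open Crest.Agent.R017.E4Xb681
open Crest.Agent.R017.E4Xhx679
open Gauss880 (syG)

/-- **the field `cell` of `XF.HCF`**, two numbers, any character `χ` with the support condition
`IsCoprime n Mη` -/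
theorem cell_gxx {χ : Eis → ℂ} {Mη : Eis} {Rw ε C cw : ℝ} {A' : ℕ} {RP : RPt}
    (hC : 0 ≤ C) (hmono : RPmono RP)
    (hcell : CXB hD χ (fun n => IsCoprime n Mη) Rw ε C cw A' RP) :
    ∀ (x : XF) (l : ℕ) (ξ : ℝ) (OO : Finset (Eis × Eis)) (v' bm : Eis × Eis → Eis → ℂ)
      (kk : Eis × Eis → ℂ) (κ' : Eis × Eis → Eis → ℂ) (qc : Eis → Eis) (Mb Ek Nα : ℝ)
      (Kf : (Fin 12 → ℕ) → Eis → Eis → Eis → Eis × Eis)
      (L : (Fin 12 → ℕ) → ℝ) (W1 : (Fin 12 → ℕ) → Eis × Eis → Bool → ℝ) (Cl : Tu → Prop)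
      (Ps : Eis → Prop),
      x.V = 2 ^ l → (∀ y, IsPrim y → x.g₀ y = χ y * pw ξ (nm y)) →
      x.Om = (fun t => ((E5L770.wL l (Real.log t) : ℝ) : ℂ)) →
      x.HO cw OO v' bm kk κ' qc Mb Ek → XS x Nα Rw →
      (∀ n, IsCoprime n x.M → IsCoprime n Mη) → (∀ n, x.α n ≠ 0 → IsCoprime n Mη) →
      (∀ n, 0 < L n) → (∀ n k jj, 0 ≤ W1 n k jj) →
      (∀ o ∈ OO, ∀ s ∈ Ss x.M x.κ, Ps s → ∀ τ ∈ dvs (rd o.1), ∀ g ∈ S x.Y, ∀ h ∈ S x.Y,
        Cl (x.tu qc o s τ g h 1) → ∃ us u w, OKs x.R s o.1 us u w) →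
      (∀ o ∈ OO, ∀ s ∈ Ss x.M x.κ, Ps s → ∀ τ ∈ dvs (rd o.1), ∀ g ∈ S x.Y, ∀ h ∈ S x.Y,
        ∀ a : Tu, a = x.tu qc o s τ g h 1 → Cl a → XC x a Nα Rw → ∀ nδ nμ : ℕ,
        ∀ i ∈ x.cell a nδ nμ, x.cz (bm o) (kk o) (κ' o) a i ≠ 0 →
        (1 ≤ L (x.vec a nδ nμ) →
          8 * (L (x.vec a nδ nμ) * Real.exp Rw) < Nbn x Nα (x.vec a nδ nμ)) ∧
        RP x a i Nα
          (2048 * (Nbn x Nα (x.vec a nδ nμ) * L (x.vec a nδ nμ) / x.Nn (x.vec a nδ nμ)))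
          (L (x.vec a nδ nμ)) (W1 (x.vec a nδ nμ) (x.ky Kf a nδ nμ))) →
      ∀ o ∈ OO, ∀ s ∈ Ss x.M x.κ, Ps s → ∀ τ ∈ dvs (rd o.1), ∀ g ∈ S x.Y, ∀ h ∈ S x.Y,
        ∀ a : Tu, a = x.tu qc o s τ g h 1 → Cl a → ∀ nδ nμ : ℕ,
        x.CB4 cw (bm o) (kk o) (κ' o) a nδ nμ
          (AA x (C * 1728 * x.Y ^ ε * (1 + |ξ|) ^ A') Nα (L (x.vec a nδ nμ))
            (We x Nα (L (x.vec a nδ nμ)) (W1 (x.vec a nδ nμ) (x.ky Kf a nδ nμ))
              (x.vec a nδ nμ)) (x.vec a nδ nμ) 0)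
          (AA x (C * 1728 * x.Y ^ ε * (1 + |ξ|) ^ A') Nα (L (x.vec a nδ nμ))
            (We x Nα (L (x.vec a nδ nμ)) (W1 (x.vec a nδ nμ) (x.ky Kf a nδ nμ))
              (x.vec a nδ nμ)) (x.vec a nδ nμ) 1)
          (AA x (C * 1728 * x.Y ^ ε * (1 + |ξ|) ^ A') Nα (L (x.vec a nδ nμ))
            (We x Nα (L (x.vec a nδ nμ)) (W1 (x.vec a nδ nμ) (x.ky Kf a nδ nμ))
              (x.vec a nδ nμ)) (x.vec a nδ nμ) 2)
          (AA x (C * 1728 * x.Y ^ ε * (1 + |ξ|) ^ A') Nα (L (x.vec a nδ nμ))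
            (We x Nα (L (x.vec a nδ nμ)) (W1 (x.vec a nδ nμ) (x.ky Kf a nδ nμ))
              (x.vec a nδ nμ)) (x.vec a nδ nμ) 3) := by
  intro x l ξ OO v' bm kk κ' qc Mb Ek Nα Kf L W1 Cl Ps hV hg₀ hOm H hS hM hα hL hW1 hdec hRX
    o ho s hs hPs τ hτ g hg' h' hh' a ha hCl nδ nμ
  have hlV : Real.log x.V = Real.log 2 * l := by
    rw [hV, Real.log_pow]; ring
  have hXC : XC x a Nα Rw := by
    rw [ha]
    rw [ha] at hCl
    exact XC_of H hS ho hs hτ hg' hh' (hdec o ho s hs hPs τ hτ g hg' h' hh' hCl)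
  have hmain := cell_clsx hC hmono hcell x a (bm o) (κ' o) (kk o) nδ nμ Nα (L (x.vec a nδ nμ))
    (W1 (x.vec a nδ nμ) (x.ky Kf a nδ nμ)) 1 0 ξ (fun _ => 1) hXC hg₀
    (fun t ht => by
      rw [hOm, hlV]
      unfold E5L770.wL pw osc
      simp)
    contDiff_const
    (fun n hn u => by
      rcases Nat.eq_zero_or_pos n with h0 | h0
      · subst h0; simp
      · rw [iteratedDeriv_const]
        simp [h0.ne'])
    zero_le_one (hL _) (hW1 _ _)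
    (fun i hi hz => by
      obtain ⟨r1, r2⟩ := hRX o ho s hs hPs τ hτ g hg' h' hh' a ha hCl hXC nδ nμ i hi hz
      refine ⟨r1, r2, ?_⟩
      obtain ⟨k1, k2, k3, k4⟩ := cz_facts hz
      have f := cell_FI hXC hi
      refine GXk_of hXC hM hα ?_ ?_ f.p1
      · exact k2.of_mul_right_left.of_mul_right_right
      · exact k4.of_mul_right_left.of_mul_right_left.of_mul_right_right)
  have e : (1 + |ξ - 0|) ^ A' * (1 : ℝ) ^ 2 = (1 + |ξ|) ^ A' := by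
    rw [sub_zero]; ring
  rw [e] at hmain
  exact hmain

end Crest.Agent.R017.E4Xkx679
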