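import Crest.Agent.R017.XLgB_347
import Crest.Agent.R017.E4Xkx_679

/-!
# Row 17, block C70, leaf E4 (x-side), class E: the cells of a block, two numbers (helper679)

* `RXCx` : the R-part of the cells with two numbers (`true` = cube class), twin of `XLg347.RXC`
* `cells_of_rxx` : **helper92's `Cells` from `RXCx`**, twin of `XLg347.cells_of_rx`; the numbers are
  `AA` at the effective number `We`
-/

set_option autoImplicit false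
set_option linter.unusedVariables false
set_option maxHeartbeats 400000

noncomputable section

open Complex MeasureTheory Finset
open scoped ComplexConjugate

namespace Crest.Agent.R017.XLgX679

open Crest.Agent.R012 Crest.Agent.R012.Eis Crest.Agent.R012.Mob705
open Crest.Agent.R012.LS2 (S mem_S)
open Crest.Agent.R012.Div277 (dvs mem_dvs isPrim_of_mem_dvs dvd_of_mem_dvs nm_le_of_dvd)
open Crest.Agent.R017.CM106 (CS TG FS)
open Crest.Agent.R017.FE47 (PU)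
open Crest.Agent.R017.End699 (HC)
open Crest.Agent.R017.B770 (DPar)
open Crest.Agent.R017.Sup271 (NPm)
open Crest.Agent.R017.Prov71
open Crest.Agent.R017.C70 (CbF JC)
open Crest.Agent.R017.HP842 (Pc pc)
open Crest.Agent.R017.GrB829 (IsC)
open Crest.Agent.R017.E5k54 (alb)
open Crest.Agent.R017.E5B71 (Pt)
open Crest.Agent.R017.TEM792 (LD nL)
open Crest.Agent.R017.E4352 (PrI rd dvd_rd)
open Crest.Agent.R017.E4579 (SupB bpt bco bpt_prim bco_prim bpt_mul_bco bpt_sup bco_cop)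
open Crest.Agent.R017.E4v92 (FF)
open Crest.Agent.R017.E4z92 (OKs Ss mem_Ss)
open Crest.Agent.R017.E4zc92
open Crest.Agent.R017.E4U164 (pS)
open Crest.Agent.R017.E4zf92 (PC)
open Crest.Agent.R017.E4zz92
open Crest.Agent.R017.E4X92
open Crest.Agent.R017.E4zg92 hiding XC
open Crest.Agent.R017.E4Xb681 (XC cb Nb0 Zc XS AA Nbn)
open Crest.Agent.R012.Weight600 (pw)
open Crest.Agent.R017.FE47 (hD)
open Crest.Agent.R017.E4Xhx679
open Crest.Agent.R017.E4Xkx679 (cell_gxx)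
open Crest.Agent.R017.XLg347 (tf_gain gk gk_le)
open Crest.Agent.R017.Str699 (pS_prim)

/-- **the R-part of the cells**, two numbers `Wf jj n G L` at the class `n`, the gain `G`, the
parameter `L` -/
def RXCx (RP : RPt) (x : XF) (Nα Rw : ℝ) (Wf : Bool → (Fin 12 → ℕ) → ℝ → ℝ → ℝ) : Prop :=
  ∀ a : Tu, XC x a Nα Rw → SupB (a.us * a.τ) (x.Sf a.q) → JC (x.FFa a) →
    ∀ (nδ nμ : ℕ) (i : Eis × Eis), i ∈ x.cell a nδ nμ →
    ∀ A₁ : Eis, Squarefree A₁ → A₁ ^ 2 ∣ PP (x.Sf a.q) x.g₁ a.ν (a.us * a.τ) →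
    ∀ (G L : ℝ) (W1 : Bool → ℝ), 0 < G → G ≤ (nm A₁ : ℝ) ^ 3 → 0 < L →
      (1 ≤ L → 8 * (L * Real.exp Rw) < Nbn x Nα (x.vec a nδ nμ)) → (∀ jj, 0 ≤ W1 jj) →
      (1 ≤ L → ∀ jj, Wf jj (x.vec a nδ nμ) G L ≤ W1 jj) →
      RP x a i Nα (2048 * (Nbn x Nα (x.vec a nδ nμ) * L / x.Nn (x.vec a nδ nμ))) L W1

/-- **the cells of a block from the R-part `RXCx`** (class E) -/
theorem cells_of_rxx {χ : Eis → ℂ} {Mη : Eis} {Rw ε C cw : ℝ} {A' : ℕ} {RP : RPt}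
    (hC : 0 ≤ C) (hmono : RPmono RP)
    (hcell : CXB hD χ (fun n => IsCoprime n Mη) Rw ε C cw A' RP) :
    ∀ (d : XD) (OO : Finset (Eis × Eis)) (m : Fin 2 → Fin 3 → ℕ) (β₀ s₁ : Eis) (l : ℕ)
      (ξ Nα : ℝ), E4zg92.XC d OO m β₀ → d.x.V = 2 ^ l →
      (∀ y, IsPrim y → d.x.g₀ y = χ y * pw ξ (nm y)) →
      d.x.Om = (fun t => ((E5L770.wL l (Real.log t) : ℝ) : ℂ)) → XS d.x Nα Rw →
      (∀ n, IsCoprime n d.x.M → IsCoprime n Mη) → (∀ n, d.x.α n ≠ 0 → IsCoprime n Mη) →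
    ∀ (Wf : Bool → (Fin 12 → ℕ) → ℝ → ℝ → ℝ) (L : (Fin 12 → ℕ) → ℝ)
      (W1 : (Fin 12 → ℕ) → Eis × Eis → Bool → ℝ),
      RXCx RP d.x Nα Rw Wf →
      (∀ n, 0 < L n) → (∀ n k jj, 0 ≤ W1 n k jj) →
      (∀ n, 1 ≤ L n → 8 * (L n * Real.exp Rw) < Nbn d.x Nα n) →
      (∀ n k, 1 ≤ L n → ∀ jj, Wf jj n (gk m k) (L n) ≤ W1 n k jj) →
    ∀ (bm : Eis × Eis → Eis → ℂ) (Mb Ek : ℝ),
      d.x.HO cw OO (vC d.x d.P d.kk d.κ') bm d.kk d.κ' d.qc Mb Ek →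
      Cells d cw OO bm
        (fun i n k => AA d.x (C * 1728 * d.x.Y ^ ε * (1 + |ξ|) ^ A') Nα (L n)
          (We d.x Nα (L n) (W1 n k) n) n i) s₁ := by
  intro d OO m β₀ s₁ l ξ Nα hXC hV hg₀ hOm hS hcM hαc Wf L W1 H3 hL hW1 hLN hWb bm Mb Ek HO
  refine cell_gxx hC hmono hcell d.x l ξ OO (vC d.x d.P d.kk d.κ') bm d.kk d.κ' d.qc Mb Ek Nα d.Kf
    L W1 (ClS d.x d.P s₁) (PsF d.x.F0 s₁) hV hg₀ hOm HO hS hcM hαc hL hW1
    (fun o ho s hs hPs τ hτ g hg h hh hc => dec_of (hd_of hXC.h hXC.ho) ho hc.1) ?_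
  intro o ho s' hs' hPs τ hτ g hg h' hh' a ha hCl hx nδ nμ i hi hcz
  refine ⟨hLN _, ?_⟩
  have e1 : d.x.Sf a.q = o.1 := by rw [ha]; exact (qc_spec hXC.ho ho).2
  have e3 : a.τ = τ := by rw [ha]; rfl
  have hSo := o1_prim hXC.h hXC.ho ho
  have hσS : SupB (a.us * a.τ) (d.x.Sf a.q) := by
    refine hx.hs.husS.mul ?_
    rw [e1, e3]
    exact ((dvd_rd hSo.ne_zero (isPrim_of_mem_dvs hτ)).mp (dvd_of_mem_dvs hτ)).2
  obtain ⟨⟨hdec, hPC, hJ⟩, -⟩ := hCl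
  -- the gain
  obtain ⟨A₁, q1, q2, q3, q4⟩ : ∃ A₁ : Eis, Squarefree A₁ ∧
      A₁ ^ 2 ∣ PP (d.x.Sf a.q) d.x.g₁ a.ν (a.us * a.τ) ∧ 0 < gk m (d.x.ky d.Kf a nδ nμ) ∧
      gk m (d.x.ky d.Kf a nδ nμ) ≤ (nm A₁ : ℝ) ^ 3 := by
    by_cases hT : TF (d.sf a.q) d.c₀ d.g₁ a.ν (a.us * a.τ)
    · obtain ⟨t1, t2⟩ := tf_gain hT
      have ek : d.x.ky d.Kf a nδ nμ = (pS 0 1 (d.sf a.q) (FF (d.sf a.q) d.c₀ d.g₁ a.ν
          (a.us * a.τ)) * pS 0 2 (d.sf a.q) (FF (d.sf a.q) d.c₀ d.g₁ a.ν (a.us * a.τ)) ^ 2,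
          bco (d.sf a.q) a.ν * pS 1 2 (d.sf a.q) (FF (d.sf a.q) d.c₀ d.g₁ a.ν (a.us * a.τ))) := by
        unfold XF.ky XD.Kf
        rw [if_pos hT]
      have q0 : ∀ b c, IsPrim (pS b c (d.sf a.q) (FF (d.sf a.q) d.c₀ d.g₁ a.ν (a.us * a.τ))) :=
        fun b c => pS_prim b c _ _
      have hco := bco_prim hT.hS hT.hν
      have h3 : PC m (d.sf a.q) (FF (d.sf a.q) d.c₀ d.g₁ a.ν (a.us * a.τ)) := by
        have h4 := hPC
        rw [hXC.P] at h4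
        exact h4
      obtain ⟨g1, g2⟩ := gk_le (m := m)
        (e := pS 0 1 (d.sf a.q) (FF (d.sf a.q) d.c₀ d.g₁ a.ν (a.us * a.τ)) *
          pS 0 2 (d.sf a.q) (FF (d.sf a.q) d.c₀ d.g₁ a.ν (a.us * a.τ)) ^ 2)
        (hco.mul (q0 1 2)).ne_zero (h3 0 2).1
      rw [ek]
      exact ⟨_, t1, t2, g1, g2⟩
    · have ek : d.x.ky d.Kf a nδ nμ = (1, 1) := by
        unfold XF.ky XD.Kf
        rw [if_neg hT]
      refine ⟨1, squarefree_one, by rw [one_pow]; exact one_dvd _, ?_, ?_⟩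
      · rw [ek]
        unfold gk
        rw [if_pos rfl]
        exact zero_lt_one
      · rw [ek]
        unfold gk
        rw [if_pos rfl, nm_one]
        norm_num
  exact H3 a hx hσS hJ nδ nμ i hi A₁ q1 q2 _ _ _ q3 q4 (hL _) (hLN _) (hW1 _ _) (hWb _ _)

end Crest.Agent.R017.XLgX679
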