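import Crest.Agent.R017.E4Xbm_939
import Crest.Agent.R017.XLgX_679

/-!
# Row 17, block C70, leaf E4 (x-side), class E: the abstract R-part at the modes `RMk` (helper679)

* `RPm` : the R-part `RMk` of a cell;  `rpm_mono`
* `cxb_of` : **`CXB` from helper939's `cell_XBm`**, at the fixed window of the levels
* `Rg`, `rg_mono`, `cxb_g` : the support condition inside the R-part
-/

set_option autoImplicit false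
set_option linter.unusedVariables false
set_option maxHeartbeats 400000

noncomputable section

open Complex MeasureTheory Finset
open scoped ComplexConjugate

namespace Crest.Agent.R017.E4Xmx679

open Crest.Agent.R012 Crest.Agent.R012.Eis Crest.Agent.R012.MC
open Crest.Agent.R012.Weight600 (pw)
open Crest.Agent.R017.BD829
open Crest.Agent.R017.E3P842
open Crest.Agent.R017.E3D579
open Crest.Agent.R017.E3Sd579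
open Crest.Agent.R017.Mode405
open Crest.Agent.R017.E4zz92 (Tu PP)
open Crest.Agent.R017.E4X92
open Crest.Agent.R017.FE47 (hD contDiff_hD hasCompactSupport_hD)
open Crest.Agent.R017.E4Xb681 (XC cb Nb0 Zc exists_wD)
open Crest.Agent.R017.E3qx842 (RMk)
open Crest.Agent.R017.E4Xhx679

/-- the R-part `RMk` of a cell -/
def RPm (χ : Eis → ℂ) (w1 : ℝ → ℝ) (A' : ℕ) (ε1 C₁ cw0 Rw : ℝ) : RPt :=
  fun x a i Nα ν L W1 => RMk χ w1 A' ε1 C₁ cw0 Rw (a.h * a.u) (Zc 3 x.Y ^ 3) (Nb0 x a Nα i.1) ν L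
    (x.Rr a i) 1 (cb x a i.1) W1

lemma rmk_mono {χ : Eis → ℂ} {w1 : ℝ → ℝ} {A' ε C₁ cw Rw : ℝ} {κ₁ : Eis} {Z Nb₀ ν ν' Lst : ℝ}
    {R ρ : Eis} {b₀ : Eis → ℂ} {W1 : Bool → ℝ} (hν : ν ≤ ν')
    (h : RMk χ w1 A' ε C₁ cw Rw κ₁ Z Nb₀ ν' Lst R ρ b₀ W1) :
    RMk χ w1 A' ε C₁ cw Rw κ₁ Z Nb₀ ν Lst R ρ b₀ W1 := by
  intro κ F y h1 h2 h3 h4 h5 k1 k2 Z' Lt Y g1 g2 g3 g4 g5 g6 g7 g8 g9 g10 g11
  exact h κ F y h1 h2 h3 h4 h5 k1 k2 Z' Lt Y g1 g2 g3 g4 g5 g6 g7 g8 g9 g10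
    (fun h0 => (g11 h0).trans hν)

lemma rpm_mono (χ : Eis → ℂ) (w1 : ℝ → ℝ) (A' : ℕ) (ε1 C₁ cw0 Rw : ℝ) :
    RPmono (RPm χ w1 A' ε1 C₁ cw0 Rw) := by
  intro x a i Nα ν ν' L W1 hν h
  exact rmk_mono hν h

/-- **`CXB` at the modes** -/
theorem cxb_of {χ : Eis → ℂ} (hχ : Mul1 χ) (G : Eis → Prop) {Rw : ℝ} (hRw : 0 ≤ Rw) {ε : ℝ} (hε : 0 < ε) :
    ∃ w1 : ℝ → ℝ, Wgt w1 ∧ (∀ x, w1 x ≠ 0 → 0 < x ∧ |Real.log x| ≤ 3) ∧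
      ∃ ε1 : ℝ, 0 < ε1 ∧ ∀ {C₁ cw0 : ℝ}, 0 ≤ C₁ → 1 ≤ cw0 → ∀ {A' : ℕ}, 1 < A' →
      ∃ C cw : ℝ, 0 ≤ C ∧ 1 ≤ cw ∧ CXB hD χ G Rw ε C cw A' (RPm χ w1 A' ε1 C₁ cw0 Rw) := by
  obtain ⟨w1, hw1, hw, hw1h⟩ := exists_wD
  obtain ⟨ε1, hε1, H⟩ := E4Xb939.cell_XBm hχ hw1 hRw (R₀ := 3) (by norm_num) contDiff_hD
    hasCompactSupport_hD hw hw1h hε
  refine ⟨w1, hw1, hw, ε1, hε1, ?_⟩
  intro C₁ cw0 hC₁ hcw0 A' hA'
  obtain ⟨C, cw, hC, hcw, H2⟩ := H hC₁ hcw0 hA'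
  refine ⟨C, cw, hC, hcw, ?_⟩
  intro x a bm κ' k nδ nμ Nα q L W1 Mb τ₀ τg Om₀ h1 h2 h3 h4 h5 h6 h7 h8 h9 h10
  refine H2 x a bm κ' k nδ nμ Nα q L W1 Mb τ₀ τg Om₀ h1 h2 h3 h4 h5 h6 h7 h8 h9
    (fun i hi hz => ?_)
  obtain ⟨a1, a2, a3, a4, -⟩ := h10 i hi hz
  exact ⟨a1, a2, a3, a4⟩

/-! ### the support condition inside the R-part -/

/-- the R-part under the support condition -/
def Rg (G : Eis → Prop) (RP : RPt) : RPt :=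
  fun x a i Nα ν L W1 => E3q681.GXk (a.h * a.u) G (x.Rr a i) (cb x a i.1) → RP x a i Nα ν L W1

lemma rg_mono {G : Eis → Prop} {RP : RPt} (h : RPmono RP) : RPmono (Rg G RP) := by
  intro x a i Nα ν ν' L W1 hν h1 h2
  exact h x a i Nα ν ν' L W1 hν (h1 h2)

/-- `CXB` with the support condition inside the R-part -/
lemma cxb_g {h : ℝ → ℝ} {χ : Eis → ℂ} {G : Eis → Prop} {Rw ε C cw : ℝ} {A' : ℕ} {RP : RPt}
    (H : CXB h χ G Rw ε C cw A' RP) : CXB h χ G Rw ε C cw A' (Rg G RP) := by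
  intro x a bm κ' k nδ nμ Nα q L W1 Mb τ₀ τg Om₀ h1 h2 h3 h4 h5 h6 h7 h8 h9 h10
  refine H x a bm κ' k nδ nμ Nα q L W1 Mb τ₀ τg Om₀ h1 h2 h3 h4 h5 h6 h7 h8 h9
    (fun i hi hz => ?_)
  obtain ⟨a1, a2, a3, a4, a5⟩ := h10 i hi hz
  exact ⟨a1, a2, a3, a4 a5, a5⟩

end Crest.Agent.R017.E4Xmx679
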