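import Crest.Agent.R017.PsiEx_545
import Crest.Agent.R017.BoxDefs_271
import Crest.Agent.R017.E4v7y_266

/-!
# Row 17, exceptional class: non-cubes are non-principal frequencies (helper372)

* `cube_of_mul` : `a k` a cube, `k` prime to `a` and primary: `k` is a cube
* `npm_noncube`, `npk_noncube`, `np2_noncube` : every `k` prime to `n`, not a cube
* `freq_noncube` : from `¬ PrC` to the frequency of the `y`-side
-/

set_option autoImplicit false

noncomputable section

open Complex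
open scoped ComplexConjugate

namespace Crest.Agent.R017.E4Df372

open Crest.Agent.R012 Crest.Agent.R012.Eis Crest.Agent.R012.Mob705
open Crest.Agent.R012.PSer47 (IsChar)
open Crest.Agent.R012.Char766
open Crest.Agent.R017.Sx545 (Sm)
open Crest.Agent.R017.End699
open Crest.Agent.R017.Sup271
open Crest.Agent.R017.B770
open Crest.Agent.R017.E4X266 (PrC)

/-- `a k` a cube, `k` primary and prime to `a` : `k` is a cube -/
lemma cube_of_mul {a k : Eis} (hk : IsPrim k) (hak : IsCoprime a k)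
    (h : ∃ z : Eis, a * k = z ^ 3) : ∃ z : Eis, k = z ^ 3 := by
  obtain ⟨z, hz⟩ := h
  obtain ⟨d, u, hd⟩ := exists_associated_pow_of_mul_eq_pow'  hak.symm (by rw [mul_comm]; exact hz :
    k * a = z ^ 3)
  have hdl : ¬ lam ∣ d := by
    intro hl
    refine hk.not_lam_dvd ?_
    rw [← hd]
    exact (hl.trans (dvd_pow_self d three_ne_zero)).mul_right _
  obtain ⟨v, hv⟩ := exists_unit_mul_isPrim hdl
  refine ⟨v * d, IsPrim.eq_of_associated hk (hv.pow 3) ?_⟩
  rw [← hd]
  refine ⟨u⁻¹ * v ^ 3, ?_⟩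
  rw [mul_pow]
  push_cast
  have : (u : Eis) * ((u⁻¹ : Eisˣ) : Eis) = 1 := by simp
  calc d ^ 3 * (u : Eis) * (((u⁻¹ : Eisˣ) : Eis) * (v : Eis) ^ 3) =
      ((u : Eis) * ((u⁻¹ : Eisˣ) : Eis)) * ((v : Eis) ^ 3 * d ^ 3) := by ring
    _ = _ := by rw [this, one_mul]

lemma cop_of_pp {n a k : Eis} (hk : Sm n k) (ha : ∀ p, Mob705.IsPP p → p ∣ a → p ∣ n) :
    IsCoprime a k := by
  rw [isCoprime_comm, isCoprime_iff_pp hk.1]
  intro p hp hpk hpa
  exact hp.prime.not_unit (hk.2.isUnit_of_dvd' hpk (ha p hp hpa))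

/-- **non-principality at the non-cubes**, Möbius side -/
theorem npm_noncube {n : Eis} {ψ : Eis → ℂ} (l : ℤ) (h : HC n ψ) {k : Eis} (hk : Sm n k)
    (hc : ¬ ∃ z : Eis, k = z ^ 3) : NPm n ψ l k := by
  by_contra hn
  have hk0 := hk.1.ne_zero
  obtain ⟨-, k0, h0, h1, h2⟩ := PsiEx545.psi_form h hk0 hn
  unfold NPm NP at hn
  push Not at hn
  have hcop : IsCoprime (k0 ^ 2) k := (cop_of_pp hk h1).pow_left
  have hnc : ¬ ∃ z : Eis, k0 ^ 2 * k = z ^ 3 := fun h' => hc (cube_of_mul hk.1 hcop h')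
  have hQ : n * (9 * k) ≠ 0 := by
    refine mul_ne_zero h.q0 (mul_ne_zero ?_ hk0)
    exact_mod_cast (by norm_num : (9 : ℕ) ≠ 0)
  obtain ⟨a, ha, haQ, hca, hne, -⟩ := exists_test_sy (mul_ne_zero (pow_ne_zero 2 h0) hk0) hnc hQ
  refine hne ?_
  have han : IsCoprime a n := haQ.of_mul_right_left
  have e1 := hn.2 a ha haQ
  have e2 : ψ a = conj (sy k0 a) := h2 a ha han
  have hc0 : IsCoprime k0 a := (hca.of_mul_left_left).of_isCoprime_of_dvd_left
    (dvd_pow_self k0 two_ne_zero)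
  have h3 : sy k0 a * conj (sy k0 a) = 1 := by
    rw [Complex.mul_conj, Complex.normSq_eq_norm_sq, norm_sy ha hc0]
    norm_num
  have h4 := sy_cube ha hc0
  have h5 : sy (k0 ^ 2) a = conj (sy k0 a) := by
    rw [pow_two, sy_mul_left ha]
    calc sy k0 a * sy k0 a = sy k0 a * sy k0 a * (sy k0 a * conj (sy k0 a)) := by
          rw [h3, mul_one]
      _ = sy k0 a ^ 3 * conj (sy k0 a) := by ring
      _ = _ := by rw [h4, one_mul]
  rw [sy_mul_left ha, h5, ← e2]
  exact e1

/-- the conjugate character -/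
lemma hc_conj {n : Eis} {φ : Eis → ℂ} (h : HC n φ) : HC n (fun b => conj (φ b)) where
  q0 := h.q0
  three := h.three
  char :=
    { one := by rw [h.char.one, map_one]
      mul := fun a b ha hb => by rw [h.char.mul a b ha hb, map_mul]
      norm := fun a ha => by
        rcases h.char.norm a ha with h1 | h1
        · exact Or.inl (by rw [h1, map_zero])
        · exact Or.inr (by rw [RCLike.norm_conj, h1]) }
  per a b ha hb hd := by rw [h.per a b ha hb hd]
  van a ha hc := by rw [h.van a ha hc, map_zero]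

/-- **non-principality at the non-cubes**, amplifier side -/
theorem npk_noncube {n : Eis} {φ : Eis → ℂ} (l : ℤ) (h : HC n φ) {k : Eis} (hk : Sm n k)
    (hc : ¬ ∃ z : Eis, k = z ^ 3) : NPk n φ l k := by
  have h1 := npm_noncube (-l) (hc_conj h) hk hc
  unfold NPm NP at h1
  unfold NPk NP
  rcases h1 with h1 | ⟨a, h2, h3, h4⟩
  · exact Or.inl (neg_ne_zero.mp h1)
  · refine Or.inr ⟨a, h2, h3, fun h5 => h4 ?_⟩
    have h6 := congrArg conj h5
    rw [map_mul, Complex.conj_conj, map_one] at h6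
    exact h6

/-- **non-principality at the non-cubes** -/
theorem np2_noncube {P : DPar} (hP : P.OK) {k : Eis} (hk : Sm P.n k)
    (hc : ¬ ∃ z : Eis, k = z ^ 3) : P.NP2 k :=
  ⟨npk_noncube P.l₁ hP.φ hk hc, npm_noncube P.l₂ hP.ψ hk hc⟩

/-- the frequency of the `y`-side is not a cube -/
lemma freq_noncube {c D0 D1 b k kn e : Eis} (h : ¬ PrC c (D0 * D1) (b * k))
    (he : c * (b * k * (D0 * D1) ^ 2) = kn * e ^ 3) : ¬ ∃ z : Eis, kn = z ^ 3 := by
  rintro ⟨z, rfl⟩
  exact h ⟨z * e, by rw [he]; ring⟩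

end Crest.Agent.R017.E4Df372
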