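import Crest.Agent.R017.E4o_502

/-!
# Row 17, C70/E4: the opening, regrouped (helper502)

`D = D0 D1`, `D0 ∣ f`, `(D1, f) = 1` : `D1` is part of the outer index, `R`, `Z` are composed of
primes of `B` only.

`open2` (theorem) : the exact identity.
-/

set_option autoImplicit false
set_option linter.unusedVariables false

noncomputable section

open Complex
open scoped ComplexConjugate

namespace Crest.Agent.R017.E4o502

open Crest.Agent.R012 Crest.Agent.R012.Eis Crest.Agent.R012.Mob705 Crest.Agent.R012.Gauss880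
open Crest.Agent.R012.GaussLoc283
open Crest.Agent.R012.Div277
open Crest.Agent.R017.Sx545 Crest.Agent.R017.CM106 Crest.Agent.R017.C70 Crest.Agent.R017.C590
open Crest.Agent.R017.B770 Crest.Agent.R017.E2440
open Crest.Agent.R017.E4352 Crest.Agent.R017.NT47
open Crest.Agent.R017.E4579 (bpt bco SupB)

/-- `x`-side at `D` -/
def vD (D : Eis) (v : Eis → ℂ) : Eis → ℂ := tws 1 D (fun x => conj (sy x D)) v

/-- `y`-side at `D`, shortened by `D1` -/
def wD (D D1 : Eis) (w : Eis → ℂ) : Eis → ℂ := tws D1 D (fun y => conj (sy y D)) w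

/-- admissible `D = D0 D1` -/
def GoodD (M f D0 D1 : Eis) : Prop :=
  D0 ∣ f ∧ Squarefree (D0 * D1) ∧ Sm M (D0 * D1) ∧ IsCoprime D1 f ∧ IsCoprime (f / D0) D0

/-- admissible `B` for `(x, y)` -/
def GB (M f' D B x y : Eis) : Prop :=
  Squarefree B ∧ Sm M B ∧ IsCoprime B D ∧ B ^ 3 ∣ f' * x * y ∧
    ∀ p : Eis, Prime p → p ∣ B → p ∣ f' * y

open Classical in
/-- the term of `B` -/
def E3 (M f' : Eis) (φ : Eis → ℂ) (x y D B : Eis) : ℂ :=
  if GB M f' D B x y then
    ((muE B : ℂ) * (nm B : ℂ) ^ 3) *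
      NT M (f' * x * y / B ^ 3) (fun k => φ (D ^ 2 * B ^ 3 * k))
  else 0

lemma GG_split {M f' D0 D1 B x y : Eis} (hf' : IsPrim f') (hD0 : IsPrim D0) (hD1 : IsPrim D1)
    (hB : IsPrim B) (h1f : IsCoprime D1 (D0 * f')) :
    GG M (D0 * f') x (D1 * y) (D0 * D1) B ↔
      (GoodD M (D0 * f') D0 D1 ∧ IsCoprime x (D0 * D1) ∧ IsCoprime y (D0 * D1)) ∧
        GB M f' (D0 * D1) B x y := by
  have hD : IsPrim (D0 * D1) := hD0.mul hD1
  have hB3 : B ^ 3 ≠ 0 := pow_ne_zero 3 hB.ne_zero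
  have hDn : D0 * D1 ≠ 0 := hD.ne_zero
  have e0 : D0 * f' * x * (D1 * y) = (D0 * D1) * (f' * x * y) := by ring
  have ef : D0 * f' / D0 = f' := div_eq' hD0.ne_zero rfl
  unfold GG GoodD GB
  rw [ef]
  constructor
  · rintro ⟨h1, h2, h3, h4, h5, ⟨c, hc⟩, h7, h8⟩
    have hc' : f' * x * y = B ^ 3 * c := by
      apply mul_left_cancel₀ hDn
      rw [← e0, hc]; ring
    rw [div_eq' (mul_ne_zero hDn hB3) hc] at h7
    have h9 : IsCoprime (f' * x * y) (D0 * D1) := by
      rw [hc']; exact (h3.symm.pow_left).mul_left h7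
    refine ⟨⟨⟨dvd_mul_right _ _, h1, h4, h1f, h9.of_mul_left_left.of_mul_left_left.of_mul_right_left⟩,
      h9.of_mul_left_left.of_mul_left_right, h9.of_mul_left_right⟩, h2, h5, h3.symm, ⟨c, hc'⟩, ?_⟩
    intro p hp hpB
    have h10 := h8 p hp (hpB.mul_left _)
    have h11 : p ∣ (D0 * D1) * (f' * y) := by
      have : (D0 * D1) * (f' * y) = D0 * f' * (D1 * y) := by ring
      rw [this]; exact h10
    rcases hp.dvd_or_dvd h11 with h | h
    · exact absurd (h3.isUnit_of_dvd' h hpB) hp.not_isUnit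
    · exact h
  · rintro ⟨⟨⟨-, h1, h4, -, h5⟩, hx, hy⟩, h2, h6, h3, ⟨c, hc⟩, h8⟩
    have h9 : IsCoprime f' (D0 * D1) :=
      h5.mul_right (h1f.of_mul_right_right).symm
    have h10 : IsCoprime (f' * x * y) (D0 * D1) := (h9.mul_left hx).mul_left hy
    have h11 : IsCoprime c (D0 * D1) := by
      rw [hc] at h10; exact h10.of_mul_left_right
    have hc' : D0 * f' * x * (D1 * y) = D0 * D1 * B ^ 3 * c := by rw [e0, hc]; ring
    refine ⟨h1, h2, h3.symm, h4, h6, ⟨c, hc'⟩, ?_, ?_⟩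
    · rw [div_eq' (mul_ne_zero hDn hB3) hc']; exact h11
    · intro p hp hpd
      rcases hp.dvd_or_dvd hpd with h | h
      · rcases hp.dvd_or_dvd h with h | h
        · exact (h.mul_right f').mul_right _
        · exact (h.mul_right y).mul_left _
      · have h12 := h8 p hp h
        have : D0 * f' * (D1 * y) = (D0 * D1) * (f' * y) := by ring
        rw [this]; exact h12.mul_left _

open Classical in
lemma EE_split {M f' D0 D1 B x y : Eis} {φ : Eis → ℂ} (hf' : IsPrim f') (hD0 : IsPrim D0)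
    (hD1 : IsPrim D1) (hB : IsPrim B) (h1f : IsCoprime D1 (D0 * f')) :
    EE M (D0 * f') φ x (D1 * y) (D0 * D1) B =
      if GoodD M (D0 * f') D0 D1 ∧ IsCoprime x (D0 * D1) ∧ IsCoprime y (D0 * D1) then
        (cB (D0 * D1) * conj (sy f' (D0 * D1))) * (conj (sy x (D0 * D1)) *
          (conj (sy y (D0 * D1)) * E3 M f' φ x y (D0 * D1) B)) else 0 := by
  have hD : IsPrim (D0 * D1) := hD0.mul hD1
  have hB3 : B ^ 3 ≠ 0 := pow_ne_zero 3 hB.ne_zero
  have hDn : D0 * D1 ≠ 0 := hD.ne_zero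
  have e0 : D0 * f' * x * (D1 * y) = (D0 * D1) * (f' * x * y) := by ring
  have key := GG_split (M := M) (x := x) (y := y) hf' hD0 hD1 hB h1f
  unfold EE E3
  by_cases h : GoodD M (D0 * f') D0 D1 ∧ IsCoprime x (D0 * D1) ∧ IsCoprime y (D0 * D1)
  · by_cases h' : GB M f' (D0 * D1) B x y
    · rw [if_pos (key.mpr ⟨h, h'⟩), if_pos h, if_pos h']
      obtain ⟨c, hc⟩ := h'.2.2.2.1
      have hc' : D0 * f' * x * (D1 * y) = D0 * D1 * B ^ 3 * c := by rw [e0, hc]; ring
      rw [div_eq' (mul_ne_zero hDn hB3) hc', div_eq' hB3 hc]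
      have e1 : sy c (D0 * D1) = sy f' (D0 * D1) * sy x (D0 * D1) * sy y (D0 * D1) := by
        rw [← syAx.mul_left f' x _ hD, ← syAx.mul_left (f' * x) y _ hD, hc, mul_comm (B ^ 3) c]
        exact (sy_cube_one hD h'.2.2.1 c).symm
      rw [e1]
      simp only [map_mul]
      ring
    · rw [if_neg (fun h'' => h' (key.mp h'').2), if_pos h, if_neg h']
      simp
  · rw [if_neg (fun h'' => h (key.mp h'').1), if_neg h]

/-- `D1` divides `y` -/
lemma dvd_of_GG {M f x y D B D1 : Eis} (h : GG M f x y D B) (hD1 : IsPrim D1) (hd : D1 ∣ D)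
    (hc : IsCoprime D1 f) : D1 ∣ y := by
  have hs : Squarefree D1 := h.1.squarefree_of_dvd hd
  by_cases hy : y = 0
  · rw [hy]; exact dvd_zero _
  rw [← prod_pp hD1 hs]
  refine (ppSet_pp D1).prod_dvd.mpr fun p hp => ?_
  have hp1 := isPP_of_mem_pp hp
  have h1 : p ∣ D1 := dvd_of_mem_pp hp
  rcases hp1.prime.dvd_or_dvd (h.2.2.2.2.2.2.2 p hp1.prime ((h1.trans hd).mul_right B)) with h2 | h2
  · exact absurd (hc.isUnit_of_dvd' h1 h2) hp1.prime.not_isUnit
  · exact h2

open Classical in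
/-- splitting of `D` -/
lemma sum_split {M f x y B : Eis} {φ : Eis → ℂ} {N : ℕ} (hf : Sm M f) (hy : Sm M y)
    (hfN : nm f ≤ N) (hyN : nm y ≤ N) :
    ∑ D ∈ primBall (N ^ 2), EE M f φ x y D B =
      ∑ D0 ∈ primBall N, ∑ D1 ∈ primBall N,
        if D0 ∣ f ∧ IsCoprime D1 f then EE M f φ x y (D0 * D1) B else 0 := by
  have hfp := hf.prim
  rw [← Finset.sum_product', ← Finset.sum_filter]
  symm
  refine Finset.sum_bij_ne_zero (fun z _ _ => z.1 * z.2) ?_ ?_ ?_ ?_
  · intro z hz _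
    rw [Finset.mem_filter, Finset.mem_product, mem_primBall, mem_primBall] at hz
    rw [mem_primBall, nm_mul]
    exact ⟨by rw [pow_two]; exact Nat.mul_le_mul hz.1.1.1 hz.1.2.1, hz.1.1.2.mul hz.1.2.2⟩
  · intro z hz _ z' hz' _ he
    rw [Finset.mem_filter, Finset.mem_product, mem_primBall, mem_primBall] at hz hz'
    have s1 : SupB z.1 f := fun p _ hp => hp.trans hz.2.1
    have s2 : SupB z'.1 f := fun p _ hp => hp.trans hz'.2.1
    obtain ⟨h1, h2⟩ := E4579.bp_unique hz.1.1.2 hz'.1.1.2 s1 s2 hz.2.2 hz'.2.2 he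
    exact Prod.ext h1 h2
  · intro D hD hne
    rw [mem_primBall] at hD
    have hG : GG M f x y D B := by
      by_contra h
      apply hne
      unfold EE
      rw [if_neg h]
    have hp0 := E4579.bpt_prim hfp hD.2
    have hp1 := E4579.bco_prim hfp hD.2
    have he := E4579.bpt_mul_bco hfp hD.2
    have hs0 : Squarefree (bpt f D) := hG.1.squarefree_of_dvd ⟨_, he.symm⟩
    have hd0 : bpt f D ∣ f := ((dvd_rd hfp.ne_zero hp0).mpr
      ⟨hs0, E4579.bpt_sup hfp hD.2⟩).trans (rd_dvd f)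
    have hc1 : IsCoprime (bco f D) f := E4579.bco_cop hfp hD.2
    have hd1 : bco f D ∣ y := dvd_of_GG hG hp1 ⟨bpt f D, by rw [mul_comm]; exact he.symm⟩ hc1
    refine ⟨(bpt f D, bco f D), ?_, ?_, he⟩
    · rw [Finset.mem_filter, Finset.mem_product, mem_primBall, mem_primBall]
      exact ⟨⟨⟨(nm_le_of_dvd hfp.ne_zero hd0).trans hfN, hp0⟩,
        (nm_le_of_dvd hy.ne_zero hd1).trans hyN, hp1⟩, hd0, hc1⟩
    · simp only
      rw [he]
      exact hne
  · intro z _ _
    rfl

/-- shortened sequences stay in the class -/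
lemma ssm_tws {M R q : Eis} {g c : Eis → ℂ} (hc : SSm M c) (hR : IsPrim R) : SSm M (tws R q g c) where
  fin := by
    classical
    have hinj : Function.Injective fun y : Eis => R * y := fun a b h =>
      mul_left_cancel₀ hR.ne_zero h
    refine (hc.fin.preimage hinj.injOn).subset fun y hy => ?_
    rw [Function.mem_support] at hy
    rw [Set.mem_preimage, Function.mem_support]
    intro h0
    apply hy
    unfold tws
    rw [h0]
    simp
  sm := by
    classical
    intro y hy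
    have h1 : c (R * y) ≠ 0 := by
      intro h0
      apply hy
      unfold tws
      rw [h0]
      simp
    exact (hc.sm _ h1).of_mul_left hR

lemma bd_tws {M R q : Eis} {g c : Eis → ℂ} (hc : SSm M c) (hR : IsPrim R) {N : ℕ}
    (hN : ∀ x, c x ≠ 0 → nm x ≤ N) : ∀ x, tws R q g c x ≠ 0 → nm x ≤ N := by
  classical
  intro y hy
  have h1 : c (R * y) ≠ 0 := by
    intro h0
    apply hy
    unfold tws
    rw [h0]
    simp
  exact (nm_le_of_dvd (hc.sm _ h1).ne_zero (dvd_mul_left y R)).trans (hN _ h1)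

open Classical in
lemma GB_iff {M f' D B R Z x y : Eis} (hB : IsPrim B)
    (hx : IsCoprime x B) (hy : IsCoprime y B) :
    GB M f' D B (R * x) (Z * y) ↔ GB M f' D B R Z := by
  have hxy : IsCoprime (x * y) B := hx.mul_left hy
  have h3 : IsCoprime (B ^ 3) (x * y) := hxy.symm.pow_left
  have e0 : f' * (R * x) * (Z * y) = f' * R * Z * (x * y) := by ring
  have hdvd : B ^ 3 ∣ f' * (R * x) * (Z * y) ↔ B ^ 3 ∣ f' * R * Z := by
    rw [e0]
    exact ⟨fun h => h3.dvd_of_dvd_mul_right h, fun h => h.mul_right _⟩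
  have hp : (∀ p : Eis, Prime p → p ∣ B → p ∣ f' * (Z * y)) ↔
      ∀ p : Eis, Prime p → p ∣ B → p ∣ f' * Z := by
    refine forall_congr' fun p => forall_congr' fun hp => forall_congr' fun hpd => ?_
    rw [← mul_assoc]
    refine ⟨fun h => ?_, fun h => h.mul_right _⟩
    rcases hp.dvd_or_dvd h with h | h
    · exact h
    · exact absurd (hy.isUnit_of_dvd' h hpd) hp.not_isUnit
  unfold GB
  rw [hdvd, hp]

open Classical in
lemma E3_val {M f' D B R Z x y : Eis} {φ : Eis → ℂ} (hB : IsPrim B)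
    (hx : IsCoprime x B) (hy : IsCoprime y B) :
    E3 M f' φ (R * x) (Z * y) D B = if GB M f' D B R Z then
      ((muE B : ℂ) * (nm B : ℂ) ^ 3) *
        NT M (f' * R * Z / B ^ 3 * x * y) (fun k => φ (D ^ 2 * B ^ 3 * k)) else 0 := by
  have hB3 : B ^ 3 ≠ 0 := pow_ne_zero 3 hB.ne_zero
  unfold E3
  by_cases h : GB M f' D B R Z
  · rw [if_pos ((GB_iff hB hx hy).mpr h), if_pos h]
    obtain ⟨w, hw⟩ := h.2.2.2.1
    have e1 : f' * (R * x) * (Z * y) / B ^ 3 = w * x * y :=
      div_eq' hB3 (by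
        rw [show f' * (R * x) * (Z * y) = f' * R * Z * (x * y) by ring, hw]; ring)
    rw [e1, div_eq' hB3 hw]
  · rw [if_neg (fun h' => h ((GB_iff hB hx hy).mp h')), if_neg h]

open Classical in
/-- the `B`-step for general sequences -/
lemma open_B {M f' D B : Eis} {V W φ : Eis → ℂ} {N : ℕ} (hB : IsPrim B) (hV : SSm M V)
    (hW : SSm M W) (hVN : ∀ x, V x ≠ 0 → nm x ≤ N) (hWN : ∀ y, W y ≠ 0 → nm y ≤ N) :
    ∑ x ∈ primBall N, ∑ y ∈ primBall N, V x * (W y * E3 M f' φ x y D B) =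
      ∑ R ∈ (primBall N).filter (fun R => PrI B R),
        ∑ Z ∈ (primBall N).filter (fun Z => PrI B Z),
          if GB M f' D B R Z then
            ((muE B : ℂ) * (nm B : ℂ) ^ 3) *
              ∑' x : Eis, tws R B (fun _ => 1) V x * ∑' y : Eis, tws Z B (fun _ => 1) W y *
                NT M (f' * R * Z / B ^ 3 * x * y) (fun k => φ (D ^ 2 * B ^ 3 * k))
          else 0 := by
  rw [sum_bp hB N]
  refine Finset.sum_congr rfl fun R hR => ?_
  have hRp : IsPrim R := (mem_primBall.mp (Finset.mem_filter.mp hR).1).2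
  have e3 : ∀ x ∈ primBall N, (if IsCoprime x B ∧ nm (R * x) ≤ N then
      ∑ y ∈ primBall N, V (R * x) * (W y * E3 M f' φ (R * x) y D B) else 0) =
      ∑ Z ∈ (primBall N).filter (fun Z => PrI B Z), ∑ y ∈ primBall N,
        (if IsCoprime x B ∧ nm (R * x) ≤ N then
          (if IsCoprime y B ∧ nm (Z * y) ≤ N then
            V (R * x) * (W (Z * y) * E3 M f' φ (R * x) (Z * y) D B) else 0) else 0) := by
    intro x _
    by_cases h : IsCoprime x B ∧ nm (R * x) ≤ N
    · simp only [if_pos h]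
      exact sum_bp hB N (fun y => V (R * x) * (W y * E3 M f' φ (R * x) y D B))
    · simp only [if_neg h, Finset.sum_const_zero]
  rw [Finset.sum_congr rfl e3, Finset.sum_comm]
  refine Finset.sum_congr rfl fun Z hZ => ?_
  have hZp : IsPrim Z := (mem_primBall.mp (Finset.mem_filter.mp hZ).1).2
  rw [tsum_tws hV hVN hRp]
  by_cases hG : GB M f' D B R Z
  · rw [if_pos hG, Finset.mul_sum]
    refine Finset.sum_congr rfl fun x _ => ?_
    rw [tsum_tws hW hWN hZp, Finset.mul_sum, Finset.mul_sum]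
    refine Finset.sum_congr rfl fun y _ => ?_
    by_cases hx : IsCoprime x B
    swap
    · rw [if_neg (fun h : IsCoprime x B ∧ nm (R * x) ≤ N => hx h.1)]
      unfold tws
      rw [if_neg hx]
      simp
    by_cases hy : IsCoprime y B
    swap
    · rw [if_neg (fun h : IsCoprime y B ∧ nm (Z * y) ≤ N => hy h.1)]
      unfold tws
      rw [if_neg hy]
      simp
    by_cases hvx : V (R * x) = 0
    · unfold tws
      rw [hvx]
      simp
    by_cases hwy : W (Z * y) = 0
    · unfold tws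
      rw [hwy]
      simp
    rw [if_pos ⟨hx, hVN _ hvx⟩, if_pos ⟨hy, hWN _ hwy⟩, E3_val hB hx hy, if_pos hG]
    unfold tws
    rw [if_pos hx, if_pos hy]
    ring
  · rw [if_neg hG]
    refine Finset.sum_eq_zero fun x _ => Finset.sum_eq_zero fun y _ => ?_
    by_cases hx : IsCoprime x B ∧ nm (R * x) ≤ N
    swap
    · rw [if_neg hx]
    by_cases hy : IsCoprime y B ∧ nm (Z * y) ≤ N
    swap
    · rw [if_pos hx, if_neg hy]
    rw [if_pos hx, if_pos hy, E3_val hB hx.1 hy.1, if_neg hG]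
    ring

open Classical in
/-- the `D`-step -/
lemma open_D {M f D0 D1 B : Eis} {v w φ : Eis → ℂ} {N : ℕ} (hf : Sm M f) (hv : SSm M v)
    (hw : SSm M w) (hwN : ∀ y, w y ≠ 0 → nm y ≤ N)
    (hD0 : IsPrim D0) (hD1 : IsPrim D1) (hB : IsPrim B) (hd : D0 ∣ f) (hc : IsCoprime D1 f) :
    ∑ x ∈ primBall N, ∑ y ∈ primBall N, v x * (w y * EE M f φ x y (D0 * D1) B) =
      if GoodD M f D0 D1 then (cB (D0 * D1) * conj (sy (f / D0) (D0 * D1))) *
        ∑ x ∈ primBall N, ∑ y ∈ primBall N, vD (D0 * D1) v x * (wD (D0 * D1) D1 w y *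
          E3 M (f / D0) φ x y (D0 * D1) B) else 0 := by
  obtain ⟨f', rfl⟩ := hd
  have hfp : IsPrim f' := hf.prim.of_mul_left hD0
  have ef : D0 * f' / D0 = f' := div_eq' hD0.ne_zero rfl
  rw [ef]
  -- `D1 ∣ y`
  have e1 : ∀ x ∈ primBall N, ∑ y ∈ primBall N, v x * (w y * EE M (D0 * f') φ x y (D0 * D1) B) =
      ∑ y ∈ primBall N, if nm (D1 * y) ≤ N then
        v x * (w (D1 * y) * EE M (D0 * f') φ x (D1 * y) (D0 * D1) B) else 0 := by
    intro x _
    rw [← Finset.sum_filter]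
    symm
    refine Finset.sum_bij_ne_zero (fun y _ _ => D1 * y) ?_ ?_ ?_ ?_
    · intro y hy _
      rw [Finset.mem_filter, mem_primBall] at hy
      exact mem_primBall.mpr ⟨hy.2, hD1.mul hy.1.2⟩
    · intro y _ _ y' _ _ h
      exact mul_left_cancel₀ hD1.ne_zero h
    · intro y hy hne
      have hyp := mem_primBall.mp hy
      have hG : GG M (D0 * f') x y (D0 * D1) B := by
        by_contra h
        apply hne
        unfold EE
        rw [if_neg h]
        simp
      obtain ⟨y', rfl⟩ := dvd_of_GG hG hD1 (dvd_mul_left D1 D0) hc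
      refine ⟨y', ?_, hne, rfl⟩
      rw [Finset.mem_filter, mem_primBall]
      exact ⟨⟨(nm_le_of_dvd hyp.2.ne_zero (dvd_mul_left y' D1)).trans hyp.1,
        hyp.2.of_mul_left hD1⟩, hyp.1⟩
    · intro y _ _
      rfl
  rw [Finset.sum_congr rfl e1]
  by_cases hG : GoodD M (D0 * f') D0 D1
  · rw [if_pos hG, Finset.mul_sum]
    refine Finset.sum_congr rfl fun x _ => ?_
    rw [Finset.mul_sum]
    refine Finset.sum_congr rfl fun y _ => ?_
    rw [EE_split hfp hD0 hD1 hB hc]
    by_cases hx : IsCoprime x (D0 * D1)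
    swap
    · rw [if_neg (fun h : GoodD M (D0 * f') D0 D1 ∧ IsCoprime x (D0 * D1) ∧
        IsCoprime y (D0 * D1) => hx h.2.1)]
      unfold vD tws
      rw [if_neg hx]
      simp
    by_cases hy : IsCoprime y (D0 * D1)
    swap
    · rw [if_neg (fun h : GoodD M (D0 * f') D0 D1 ∧ IsCoprime x (D0 * D1) ∧
        IsCoprime y (D0 * D1) => hy h.2.2)]
      unfold wD tws
      rw [if_neg hy]
      simp
    by_cases hwy : w (D1 * y) = 0
    · unfold wD tws
      rw [hwy]
      simp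
    rw [if_pos (hwN _ hwy), if_pos ⟨hG, hx, hy⟩]
    unfold vD wD tws
    rw [if_pos hx, if_pos hy, one_mul]
    ring
  · rw [if_neg hG]
    refine Finset.sum_eq_zero fun x _ => Finset.sum_eq_zero fun y _ => ?_
    rw [EE_split hfp hD0 hD1 hB hc, if_neg (fun h : GoodD M (D0 * f') D0 D1 ∧
        IsCoprime x (D0 * D1) ∧ IsCoprime y (D0 * D1) => hG h.1)]
    simp

open Classical in
/-- **LOpen2** : the opening with `D` in the outer index -/
theorem open2 {M f : Eis} {v w φ : Eis → ℂ} {N : ℕ} (hf : Sm M f) (hv : SSm M v) (hw : SSm M w)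
    (hvN : ∀ x, v x ≠ 0 → nm x ≤ N) (hwN : ∀ y, w y ≠ 0 → nm y ≤ N) (hfN : nm f ≤ N)
    (hφ : Dcy φ) :
    ∑' x : Eis, v x * ∑' y : Eis, w y * NT (M * (f * y)) (f * x * y) φ =
      ∑ D0 ∈ primBall N, ∑ D1 ∈ primBall N,
        if GoodD M f D0 D1 then (cB (D0 * D1) * conj (sy (f / D0) (D0 * D1))) *
          ∑ B ∈ primBall (N ^ 2), ∑ R ∈ (primBall N).filter (fun R => PrI B R),
            ∑ Z ∈ (primBall N).filter (fun Z => PrI B Z),
              if GB M (f / D0) (D0 * D1) B R Z then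
                ((muE B : ℂ) * (nm B : ℂ) ^ 3) *
                  ∑' x : Eis, tws R B (fun _ => 1) (vD (D0 * D1) v) x *
                    ∑' y : Eis, tws Z B (fun _ => 1) (wD (D0 * D1) D1 w) y *
                      NT M (f / D0 * R * Z / B ^ 3 * x * y)
                        (fun k => φ ((D0 * D1) ^ 2 * B ^ 3 * k))
              else 0
        else 0 := by
  have e1 : ∑' x : Eis, v x * ∑' y : Eis, w y * NT (M * (f * y)) (f * x * y) φ =
      ∑ x ∈ primBall N, ∑ y ∈ primBall N, ∑ D0 ∈ primBall N, ∑ D1 ∈ primBall N,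
        ∑ B ∈ primBall (N ^ 2), if D0 ∣ f ∧ IsCoprime D1 f then
          v x * (w y * EE M f φ x y (D0 * D1) B) else 0 := by
    rw [tsum_SSm hv hvN]
    refine Finset.sum_congr rfl fun x _ => ?_
    by_cases hx0 : v x = 0
    · rw [hx0, zero_mul]
      symm
      refine Finset.sum_eq_zero fun y _ => Finset.sum_eq_zero fun D0 _ =>
        Finset.sum_eq_zero fun D1 _ => Finset.sum_eq_zero fun B _ => ?_
      rw [zero_mul, ite_self]
    rw [tsum_SSm hw hwN, Finset.mul_sum]
    refine Finset.sum_congr rfl fun y _ => ?_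
    by_cases hy0 : w y = 0
    · rw [hy0, zero_mul, mul_zero]
      symm
      refine Finset.sum_eq_zero fun D0 _ =>
        Finset.sum_eq_zero fun D1 _ => Finset.sum_eq_zero fun B _ => ?_
      rw [zero_mul, mul_zero, ite_self]
    rw [open1 hf (hv.sm x hx0) (hw.sm y hy0) hfN (hwN y hy0) hφ, Finset.sum_comm]
    have h2 : ∑ B ∈ primBall (N ^ 2), ∑ D ∈ primBall (N ^ 2), EE M f φ x y D B =
        ∑ D0 ∈ primBall N, ∑ D1 ∈ primBall N, ∑ B ∈ primBall (N ^ 2),
          if D0 ∣ f ∧ IsCoprime D1 f then EE M f φ x y (D0 * D1) B else 0 := by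
      rw [Finset.sum_congr rfl fun B _ => sum_split hf (hw.sm y hy0) hfN (hwN y hy0),
        Finset.sum_comm]
      refine Finset.sum_congr rfl fun D0 _ => ?_
      rw [Finset.sum_comm]
    rw [h2]
    simp only [Finset.mul_sum]
    refine Finset.sum_congr rfl fun D0 _ => Finset.sum_congr rfl fun D1 _ =>
      Finset.sum_congr rfl fun B _ => ?_
    split_ifs
    · rfl
    · ring
  have e2 : ∑ x ∈ primBall N, ∑ y ∈ primBall N, ∑ D0 ∈ primBall N, ∑ D1 ∈ primBall N,
        ∑ B ∈ primBall (N ^ 2), (if D0 ∣ f ∧ IsCoprime D1 f then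
          v x * (w y * EE M f φ x y (D0 * D1) B) else 0) =
      ∑ D0 ∈ primBall N, ∑ D1 ∈ primBall N, ∑ B ∈ primBall (N ^ 2),
        if D0 ∣ f ∧ IsCoprime D1 f then
          ∑ x ∈ primBall N, ∑ y ∈ primBall N, v x * (w y * EE M f φ x y (D0 * D1) B) else 0 := by
    have h1 : ∀ x ∈ primBall N, ∑ y ∈ primBall N, ∑ D0 ∈ primBall N, ∑ D1 ∈ primBall N,
        ∑ B ∈ primBall (N ^ 2), (if D0 ∣ f ∧ IsCoprime D1 f then
          v x * (w y * EE M f φ x y (D0 * D1) B) else 0) =
        ∑ D0 ∈ primBall N, ∑ D1 ∈ primBall N, ∑ B ∈ primBall (N ^ 2),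
          ∑ y ∈ primBall N, (if D0 ∣ f ∧ IsCoprime D1 f then
            v x * (w y * EE M f φ x y (D0 * D1) B) else 0) := by
      intro x _
      rw [Finset.sum_comm]
      refine Finset.sum_congr rfl fun D0 _ => ?_
      rw [Finset.sum_comm]
      refine Finset.sum_congr rfl fun D1 _ => ?_
      rw [Finset.sum_comm]
    rw [Finset.sum_congr rfl h1, Finset.sum_comm]
    refine Finset.sum_congr rfl fun D0 _ => ?_
    rw [Finset.sum_comm]
    refine Finset.sum_congr rfl fun D1 _ => ?_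
    rw [Finset.sum_comm]
    refine Finset.sum_congr rfl fun B _ => ?_
    split_ifs
    · rfl
    · simp
  rw [e1, e2]
  refine Finset.sum_congr rfl fun D0 hD0 => Finset.sum_congr rfl fun D1 hD1 => ?_
  have hD0p := (mem_primBall.mp hD0).2
  have hD1p := (mem_primBall.mp hD1).2
  by_cases hG : GoodD M f D0 D1
  · have hd : D0 ∣ f := hG.1
    have hc : IsCoprime D1 f := hG.2.2.2.1
    rw [if_pos hG, Finset.mul_sum]
    refine Finset.sum_congr rfl fun B hB => ?_
    have hBp := (mem_primBall.mp hB).2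
    have hV : SSm M (vD (D0 * D1) v) := ssm_tws hv isPrim_one
    have hW : SSm M (wD (D0 * D1) D1 w) := ssm_tws hw hD1p
    have hVN : ∀ x, vD (D0 * D1) v x ≠ 0 → nm x ≤ N := bd_tws hv isPrim_one hvN
    have hWN : ∀ y, wD (D0 * D1) D1 w y ≠ 0 → nm y ≤ N := bd_tws hw hD1p hwN
    rw [if_pos ⟨hd, hc⟩, open_D hf hv hw hwN hD0p hD1p hBp hd hc, if_pos hG,
      open_B hBp hV hW hVN hWN]
  · rw [if_neg hG]
    refine Finset.sum_eq_zero fun B hB => ?_
    have hBp := (mem_primBall.mp hB).2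
    split_ifs with h
    · rw [open_D hf hv hw hwN hD0p hD1p hBp h.1 h.2, if_neg hG]
    · rfl

end Crest.Agent.R017.E4o502
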