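import Crest.Agent.R017.E4d_164
import Crest.Agent.R017.E4o2_502

/-!
# Row 17, C70/E4: the y-side dictionary, combinatorial half (helper679)

* `LM P` : the pairs `(l, m)` of primary elements with `l m² = P`
* `Y1` : `CS (tws Z q g (wD D D (ww M b₁ b₂ L z ν))) d` is a finite sum over `LM (z Z)` of products
  `CS (tws (D l) (M q) g b₁) k · conj CS (tws m (M q) (conj g)² b₂) k`, `k = d ν D²`
* `Y1s` : with symbols in the twist: `k = d ν D² q₁ q₂²`
* `Y1t` : for `g` in the class `TwC`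
-/

set_option autoImplicit false

noncomputable section

open Finset Complex
open scoped ComplexConjugate

namespace Crest.Agent.R017.E4Y679

open Crest.Agent.R012 Crest.Agent.R012.Eis Crest.Agent.R012.GaussLoc283
open Crest.Agent.R012.Mob705 hiding pb mem_pb
open Crest.Agent.R012.Div277
open Crest.Agent.R017.Sx545 (Sm)
open Crest.Agent.R017.CM106
open Crest.Agent.R017.End699 (HC)
open Crest.Agent.R017.E4352 (SSm PrI tws TwC)
open Crest.Agent.R017.E4579 (bpt bco)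
open Crest.Agent.R017.E4K164 (rd)
open Crest.Agent.R017.E4D164
open Crest.Agent.R017.E4o502 (wD)

/-! ### tools -/

/-- multiplicative on primary elements -/
def MuP (g : Eis → ℂ) : Prop := ∀ a b : Eis, IsPrim a → IsPrim b → g (a * b) = g a * g b

lemma MuP.sq {g : Eis → ℂ} (h : MuP g) {a b : Eis} (ha : IsPrim a) (hb : IsPrim b) :
    g (a * b ^ 2) = g a * g b ^ 2 := by
  rw [h a (b ^ 2) ha (hb.pow 2), pow_two b, h b b hb hb]
  ring

open Classical in
/-- the pairs `(l, m)` with `l m² = P` -/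
def LM (P : Eis) : Finset (Eis × Eis) := (dvs P ×ˢ dvs P).filter (fun x => x.1 * x.2 ^ 2 = P)

lemma mem_LM {P : Eis} (hP : P ≠ 0) {x : Eis × Eis} :
    x ∈ LM P ↔ IsPrim x.1 ∧ IsPrim x.2 ∧ x.1 * x.2 ^ 2 = P := by
  classical
  unfold LM
  rw [Finset.mem_filter, Finset.mem_product, mem_dvs hP, mem_dvs hP]
  constructor
  · rintro ⟨⟨h1, h2⟩, h3⟩
    exact ⟨h1.1, h2.1, h3⟩
  · rintro ⟨h1, h2, h3⟩
    refine ⟨⟨⟨h1, ?_⟩, ⟨h2, ?_⟩⟩, h3⟩
    · rw [← h3]; exact dvd_mul_right _ _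
    · rw [← h3]; exact dvd_mul_of_dvd_right (dvd_pow_self _ two_ne_zero) _

/-- few pairs -/
lemma card_LM {P : Eis} (hP : P ≠ 0) : (LM P).card ≤ tau P := by
  classical
  unfold tau
  refine Finset.card_le_card_of_injOn (fun x => x.2) ?_ ?_
  · intro x hx
    obtain ⟨h1, h2, h3⟩ := (mem_LM hP).mp (Finset.mem_coe.mp hx)
    rw [Finset.mem_coe, mem_dvs hP]
    refine ⟨h2, ?_⟩
    rw [← h3]
    exact dvd_mul_of_dvd_right (dvd_pow_self _ two_ne_zero) _
  · intro x hx y hy hxy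
    obtain ⟨h1, h2, h3⟩ := (mem_LM hP).mp (Finset.mem_coe.mp hx)
    obtain ⟨g1, g2, g3⟩ := (mem_LM hP).mp (Finset.mem_coe.mp hy)
    have hxy' : x.2 = y.2 := hxy
    refine Prod.ext (mul_right_cancel₀ (pow_ne_zero 2 h2.ne_zero) ?_) hxy'
    rw [h3, hxy', g3]

open Classical in
/-- value at the unique solution -/
def at1 (S : Eis → Prop) (f : Eis → ℂ) : ℂ := ∑' x, if S x then f x else 0

lemma at1_eq {S : Eis → Prop} {f : Eis → ℂ} {x : Eis} (h : S x) (hu : ∀ y, S y → y = x) :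
    at1 S f = f x := by
  classical
  unfold at1
  rw [tsum_eq_single x]
  · rw [if_pos h]
  · intro y hy
    rw [if_neg (fun h' => hy (hu y h'))]

lemma at1_zero {S : Eis → Prop} {f : Eis → ℂ} (h : ∀ x, ¬ S x) : at1 S f = 0 := by
  classical
  unfold at1
  rw [tsum_congr (fun x => if_neg (h x)), tsum_zero]

open Classical in
/-- regrouping over the index set -/
lemma tsum_idx {A : Type*} (L : Finset A) (a : A → ℂ) (S : A → Eis → Prop) (f : Eis → ℂ)
    (hu : ∀ i ∈ L, ∀ x y, S i x → S i y → x = y) :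
    (∑' x : Eis, ∑ i ∈ L, if S i x then a i * f x else 0) = ∑ i ∈ L, a i * at1 (S i) f := by
  rw [Summable.tsum_finsetSum]
  · refine Finset.sum_congr rfl fun i _ => ?_
    unfold at1
    rw [← tsum_mul_left]
    refine tsum_congr fun x => ?_
    split_ifs
    · rfl
    · rw [mul_zero]
  · intro i hi
    refine summable_of_hasFiniteSupport (Set.Subsingleton.finite ?_)
    intro x hx y hy
    have h1 : S i x := by
      by_contra h
      exact hx (if_neg h)
    have h2 : S i y := by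
      by_contra h
      exact hy (if_neg h)
    exact hu i hi x y h1 h2

/-- the character side of a shortened sequence as a sum over the support -/
lemma CS_tws {P Q k : Eis} (hP : P ≠ 0) (g : Eis → ℂ) {b : Eis → ℂ} (hb : FS b) :
    CS (tws P Q g b) k = ∑ n ∈ hb.fin.toFinset,
      b n * at1 (fun x => n = P * x ∧ IsCoprime x Q) (fun x => g x * sy k x) := by
  classical
  rw [← tsum_idx hb.fin.toFinset b (fun n x => n = P * x ∧ IsCoprime x Q) (fun x => g x * sy k x)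
    (fun n _ x y hx hy => mul_left_cancel₀ hP (hx.1.symm.trans hy.1))]
  unfold CS
  refine tsum_congr fun x => ?_
  unfold tws
  by_cases hx : IsCoprime x Q
  · rw [if_pos hx]
    by_cases h0 : b (P * x) = 0
    · rw [h0, mul_zero, zero_mul]
      symm
      refine Finset.sum_eq_zero fun n hn => ?_
      rw [if_neg]
      rintro ⟨h1, -⟩
      rw [Set.Finite.mem_toFinset, h1] at hn
      exact hn h0
    · rw [Finset.sum_eq_single_of_mem (P * x) ((Set.Finite.mem_toFinset _).mpr h0)]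
      · rw [if_pos ⟨rfl, hx⟩]
        ring
      · intro n _ hn
        rw [if_neg (fun h => hn h.1)]
  · rw [if_neg hx, zero_mul]
    symm
    exact Finset.sum_eq_zero fun n _ => if_neg (fun h => hx h.2)

lemma conj_of_cube {c : ℂ} (h : c ^ 3 = 1) : conj c = c ^ 2 := by
  have h1 : ‖c‖ = 1 := by
    have h2 : ‖c‖ ^ 3 = 1 := by rw [← norm_pow, h, norm_one]
    exact (pow_eq_one_iff_of_nonneg (norm_nonneg c) (by norm_num)).mp h2
  have h3 : c * conj c = 1 := by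
    rw [Complex.mul_conj, Complex.normSq_eq_norm_sq, h1]; norm_num
  calc conj c = c ^ 3 * conj c := by rw [h, one_mul]
    _ = c ^ 2 * (c * conj c) := by ring
    _ = c ^ 2 := by rw [h3, mul_one]

/-- `sy² = conj sy` -/
lemma sy_sq {x c : Eis} (hc : IsPrim c) : conj (sy x c) = sy x c ^ 2 := by
  by_cases h : IsCoprime x c
  · exact conj_of_cube (syAx.cube x c hc h)
  · rw [(syAx.eq_zero x c hc).mpr h]
    simp

lemma sy_sqr {x c : Eis} (hc : IsPrim c) : sy x (c ^ 2) = sy x c ^ 2 := by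
  rw [pow_two, syAx.mul_right x c c hc hc]; ring

lemma sy_sql {x c : Eis} (hc : IsPrim c) : sy (x ^ 2) c = sy x c ^ 2 := by
  rw [pow_two, syAx.mul_left x x c hc]; ring

/-! ### supports -/

lemma PrI.mono {M q z : Eis} (h : PrI M z) : PrI (M * q) z :=
  ⟨h.1, fun p hp hd => (h.2 p hp hd).mul_right q⟩

lemma PrI.mono' {M q z : Eis} (h : PrI q z) : PrI (M * q) z :=
  ⟨h.1, fun p hp hd => (h.2 p hp hd).mul_left M⟩

lemma PrI.mul {Q a b : Eis} (ha : PrI Q a) (hb : PrI Q b) : PrI Q (a * b) :=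
  ⟨ha.1.mul hb.1, fun p hp hd => (hp.dvd_or_dvd hd).elim (ha.2 p hp) (hb.2 p hp)⟩

lemma PrI.sq {Q a : Eis} (ha : PrI Q a) : PrI Q (a ^ 2) := by
  rw [pow_two]; exact PrI.mul ha ha

lemma PrI.dvd {Q a b : Eis} (ha : PrI Q a) (hb : IsPrim b) (h : b ∣ a) : PrI Q b :=
  ⟨hb, fun p hp hd => ha.2 p hp (hd.trans h)⟩

lemma Sm.mul {Q a b : Eis} (ha : Sm Q a) (hb : Sm Q b) : Sm Q (a * b) :=
  ⟨ha.1.mul hb.1, ha.2.mul_left hb.2⟩

lemma Sm.sq {Q a : Eis} (ha : Sm Q a) : Sm Q (a ^ 2) := ⟨ha.1.pow 2, ha.2.pow_left⟩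

/-- the `D`-part sits in `n` -/
lemma dvd_of_eq {D y a b : Eis} (hD : IsPrim D) (hDs : Squarefree D) (hy : IsCoprime y D)
    (h : D * y = a * b ^ 2) : D ∣ a := by
  have hc : IsCoprime D b := by
    by_contra hc
    obtain ⟨p, hp, ⟨D', hD'⟩, ⟨b', hb'⟩⟩ := exists_common_pp hD hc
    have h1 : D' * y = a * (p * b' ^ 2) := by
      apply mul_left_cancel₀ hp.prime.ne_zero
      calc p * (D' * y) = D * y := by rw [hD']; ring
        _ = a * b ^ 2 := h
        _ = p * (a * (p * b' ^ 2)) := by rw [hb']; ring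
    have h2 : p ∣ D' * y := by
      rw [h1]
      exact (dvd_mul_right p _).mul_left a
    rcases hp.prime.dvd_or_dvd h2 with h3 | h3
    · apply hp.prime.not_isUnit
      apply hDs p
      rw [hD']
      exact mul_dvd_mul_left p h3
    · apply hp.prime.not_isUnit
      apply hy.isUnit_of_dvd' h3
      rw [hD']
      exact dvd_mul_right _ _
  exact (hc.pow_right (n := 2)).dvd_of_dvd_mul_right (Dvd.intro _ h)

/-! ### one pair -/

/-- the condition on `y` -/
def SY (M q D z Z n m y : Eis) : Prop :=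
  IsCoprime y q ∧ IsCoprime (Z * y) D ∧ Sm M (D * (Z * y)) ∧ n * m ^ 2 = z * (D * (Z * y))

theorem pair {M q D z Z n m ν d : Eis} {g : Eis → ℂ} (hM : M ≠ 0) (hq : Sm M q)
    (hz : PrI M z) (hZ : PrI q Z) (hD : Sm M D) (hDs : Squarefree D) (hDq : IsCoprime D q)
    (hg : MuP g) (hn : IsPrim n) (hm : IsPrim m) :
    (sy ν n * conj (sy ν m)) * at1 (SY M q D z Z n m)
        (fun y => g y * conj (sy (Z * y) D) * sy d y) =
      conj (sy Z D) * ∑ x ∈ LM (z * Z), (sy ν (D * x.1) * conj (sy ν x.2)) *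
        (at1 (fun t => n = D * x.1 * t ∧ IsCoprime t (M * q))
            (fun t => g t * sy (d * ν * D ^ 2) t) *
          conj (at1 (fun t => m = x.2 * t ∧ IsCoprime t (M * q))
            (fun t => conj (g t) ^ 2 * sy (d * ν * D ^ 2) t))) := by
  classical
  set Q := M * q with hQd
  have hQ : Q ≠ 0 := mul_ne_zero hM hq.1.ne_zero
  obtain ⟨n1, n2, n3⟩ := mpt_spec hQ hn
  obtain ⟨m1, m2, m3⟩ := mpt_spec hQ hm
  have hzZ : PrI Q (z * Z) := PrI.mul (PrI.mono hz) (PrI.mono' hZ)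
  have hDQ : Sm Q D := ⟨hD.1, hD.2.mul_right hDq⟩
  have hP0 : z * Z ≠ 0 := hzZ.1.ne_zero
  have hZM : Sm M Z := by
    refine ⟨hZ.1, ?_⟩
    by_contra h
    obtain ⟨p, hp, h1, h2⟩ := exists_common_pp hZ.1 h
    exact hp.prime.not_isUnit (hq.2.isUnit_of_dvd' (hZ.2 p hp.prime h1) h2)
  have hZD : IsCoprime Z D := by
    by_contra h
    obtain ⟨p, hp, h1, h2⟩ := exists_common_pp hZ.1 h
    exact hp.prime.not_isUnit (hDq.isUnit_of_dvd' h2 (hZ.2 p hp.prime h1))
  set gn := bpt (rd Q) n with hgn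
  set n' := bco (rd Q) n with hn'
  set gm := bpt (rd Q) m with hgm
  set m' := bco (rd Q) m with hm'
  have U1 : ∀ x t : Eis, PrI Q x → n = D * x * t → IsCoprime t Q → x = gn ∧ D * t = n' := by
    intro x t hx h ht
    have ht' : IsPrim t := by
      have h1 : IsPrim (D * x * t) := by rw [← h]; exact hn
      exact h1.of_mul_left (hD.1.mul hx.1)
    exact mpt_unique hQ hn hx (Sm.mul hDQ ⟨ht', ht⟩) (by rw [h]; ring)
  have U2 : ∀ x t : Eis, PrI Q x → m = x * t → IsCoprime t Q → x = gm ∧ t = m' := by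
    intro x t hx h ht
    have ht' : IsPrim t := by
      have h1 : IsPrim (x * t) := by rw [← h]; exact hm
      exact h1.of_mul_left hx.1
    exact mpt_unique hQ hm hx ⟨ht', ht⟩ h
  have U3 : ∀ y, SY M q D z Z n m y → z * Z = gn * gm ^ 2 ∧ D * y = n' * m' ^ 2 ∧
      IsCoprime y D := by
    rintro y ⟨h1, h2, h3, h4⟩
    have hyp : IsPrim y := (h3.1.of_mul_left hD.1).of_mul_left hZ.1
    have hyQ : Sm Q y :=
      ⟨hyp, (h3.2.of_mul_left_right.of_mul_left_right).mul_right h1⟩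
    have hnm : IsPrim (n * m ^ 2) := hn.mul (hm.pow 2)
    obtain ⟨e1, e2⟩ := mpt_unique hQ hnm hzZ (Sm.mul hDQ hyQ)
      (show n * m ^ 2 = (z * Z) * (D * y) by rw [h4]; ring)
    obtain ⟨e3, e4⟩ := mpt_unique hQ hnm (PrI.mul n1 (PrI.sq m1)) (Sm.mul n2 (Sm.sq m2))
      (show n * m ^ 2 = (gn * gm ^ 2) * (n' * m' ^ 2) by
        calc n * m ^ 2 = (gn * n') * (gm * m') ^ 2 := by rw [← n3, ← m3]
          _ = _ := by ring)
    exact ⟨e1.trans e3.symm, e2.trans e4.symm, h2.of_mul_left_right⟩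
  have hdv : ∀ x ∈ LM (z * Z), PrI Q x.1 ∧ PrI Q x.2 := by
    intro x hx
    obtain ⟨h1, h2, h3⟩ := (mem_LM hP0).mp hx
    refine ⟨PrI.dvd hzZ h1 ?_, PrI.dvd hzZ h2 ?_⟩
    · rw [← h3]; exact dvd_mul_right _ _
    · rw [← h3]; exact dvd_mul_of_dvd_right (dvd_pow_self _ two_ne_zero) _
  -- the terms with `x ≠ (gn, gm)` or `D ∤ n'` vanish
  have Z1 : ∀ x ∈ LM (z * Z), ∀ F : Eis → ℂ, x.1 ≠ gn ∨ ¬ D ∣ n' →
      at1 (fun t => n = D * x.1 * t ∧ IsCoprime t Q) F = 0 := by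
    intro x hx F h
    refine at1_zero fun t ht => ?_
    obtain ⟨h1, h2⟩ := U1 x.1 t (hdv x hx).1 ht.1 ht.2
    rcases h with h | h
    · exact h h1
    · exact h ⟨t, h2.symm⟩
  have Z2 : ∀ x ∈ LM (z * Z), ∀ F : Eis → ℂ, x.2 ≠ gm →
      at1 (fun t => m = x.2 * t ∧ IsCoprime t Q) F = 0 := by
    intro x hx F h
    refine at1_zero fun t ht => ?_
    exact h (U2 x.2 t (hdv x hx).2 ht.1 ht.2).1
  by_cases hDn : D ∣ n'
  swap
  · rw [at1_zero, mul_zero, Finset.sum_eq_zero, mul_zero]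
    · intro x hx
      rw [Z1 x hx _ (Or.inr hDn)]
      ring
    · intro y hy
      obtain ⟨-, h2, h3⟩ := U3 y hy
      exact hDn (dvd_of_eq hD.1 hDs h3 h2)
  by_cases hgg : gn * gm ^ 2 = z * Z
  swap
  · rw [at1_zero, mul_zero, Finset.sum_eq_zero, mul_zero]
    · intro x hx
      by_cases h1 : x.1 = gn
      · by_cases h2 : x.2 = gm
        · exfalso
          apply hgg
          rw [← h1, ← h2]
          exact ((mem_LM hP0).mp hx).2.2
        · rw [Z2 x hx _ h2]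
          simp
      · rw [Z1 x hx _ (Or.inl h1)]
        ring
    · intro y hy
      exact hgg (U3 y hy).1.symm
  obtain ⟨n'', hn''⟩ := hDn
  have np : IsPrim n'' := by
    have h1 : IsPrim (D * n'') := by rw [← hn'']; exact n2.1
    exact h1.of_mul_left hD.1
  have nQ : IsCoprime n'' Q := by
    have h1 : IsCoprime (D * n'') Q := by rw [← hn'']; exact n2.2
    exact h1.of_mul_left_right
  have hmem : (gn, gm) ∈ LM (z * Z) := (mem_LM hP0).mpr ⟨n1.1, m1.1, hgg⟩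
  have A1 : at1 (fun t => n = D * gn * t ∧ IsCoprime t Q)
      (fun t => g t * sy (d * ν * D ^ 2) t) = g n'' * sy (d * ν * D ^ 2) n'' := by
    refine at1_eq ⟨?_, nQ⟩ ?_
    · rw [n3, hn'']; ring
    · intro t ht
      have := (U1 gn t n1 ht.1 ht.2).2
      rw [hn''] at this
      exact mul_left_cancel₀ hD.1.ne_zero this
  have A2 : at1 (fun t => m = gm * t ∧ IsCoprime t Q)
      (fun t => conj (g t) ^ 2 * sy (d * ν * D ^ 2) t) =
        conj (g m') ^ 2 * sy (d * ν * D ^ 2) m' :=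
    at1_eq ⟨m3, m2.2⟩ fun t ht => (U2 gm t m1 ht.1 ht.2).2
  rw [Finset.sum_eq_single_of_mem _ hmem]
  swap
  · intro x hx hne
    by_cases h1 : x.1 = gn
    · have h2 : x.2 ≠ gm := fun h2 => hne (Prod.ext h1 h2)
      rw [Z2 x hx _ h2]
      simp
    · rw [Z1 x hx _ (Or.inl h1)]
      ring
  show _ = conj (sy Z D) * ((sy ν (D * gn) * conj (sy ν gm)) *
    (at1 (fun t => n = D * gn * t ∧ IsCoprime t Q) (fun t => g t * sy (d * ν * D ^ 2) t) *
      conj (at1 (fun t => m = gm * t ∧ IsCoprime t Q)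
        (fun t => conj (g t) ^ 2 * sy (d * ν * D ^ 2) t))))
  rw [A1, A2]
  have mp := m2.1
  have ek : ∀ c : Eis, IsPrim c → sy (d * ν * D ^ 2) c = sy d c * sy ν c * sy D c ^ 2 := by
    intro c hc
    rw [syAx.mul_left _ _ _ hc, syAx.mul_left _ _ _ hc, sy_sql hc]
  by_cases hyD : IsCoprime (n'' * m' ^ 2) D
  swap
  · rw [at1_zero, mul_zero]
    · have h1 : sy D n'' = 0 ∨ sy D m' = 0 := by
        by_contra h
        push Not at h
        apply hyD
        have c1 : IsCoprime D n'' := by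
          by_contra h'
          exact h.1 ((syAx.eq_zero _ _ np).mpr h')
        have c2 : IsCoprime D m' := by
          by_contra h'
          exact h.2 ((syAx.eq_zero _ _ mp).mpr h')
        exact c1.symm.mul_left c2.symm.pow_left
      rw [ek _ np, ek _ mp]
      rcases h1 with h1 | h1 <;> rw [h1] <;> simp
    · intro y hy
      obtain ⟨-, h2, h3⟩ := U3 y hy
      apply hyD
      have : y = n'' * m' ^ 2 := by
        apply mul_left_cancel₀ hD.1.ne_zero
        rw [h2, hn'']; ring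
      rw [← this]; exact h3
  have hyp : IsPrim (n'' * m' ^ 2) := np.mul (mp.pow 2)
  have hyQ : IsCoprime (n'' * m' ^ 2) Q := nQ.mul_left m2.2.pow_left
  have B : at1 (SY M q D z Z n m) (fun y => g y * conj (sy (Z * y) D) * sy d y) =
      g (n'' * m' ^ 2) * conj (sy (Z * (n'' * m' ^ 2)) D) * sy d (n'' * m' ^ 2) := by
    refine at1_eq ⟨hyQ.of_mul_right_right, hZD.mul_left hyD,
      Sm.mul hD (Sm.mul hZM ⟨hyp, hyQ.of_mul_right_left⟩), ?_⟩ ?_
    · calc n * m ^ 2 = (gn * n') * (gm * m') ^ 2 := by rw [← n3, ← m3]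
        _ = (gn * gm ^ 2) * (n' * m' ^ 2) := by ring
        _ = _ := by rw [hgg, hn'']; ring
    · intro y hy
      obtain ⟨-, h2, -⟩ := U3 y hy
      apply mul_left_cancel₀ hD.1.ne_zero
      rw [h2, hn'']; ring
  rw [B, ek _ np, ek _ mp, hg.sq np mp, syAx.mul_left _ _ _ hD.1, syAx.mul_left _ _ _ hD.1,
    sy_sql hD.1, syAx.mul_right _ _ _ np (mp.pow 2), sy_sqr mp, syAx.recip n'' D np hD.1,
    syAx.recip m' D mp hD.1, syAx.mul_right _ _ _ hD.1 n1.1]
  have en : sy ν n = sy ν gn * (sy ν D * sy ν n'') := by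
    conv_lhs => rw [n3, hn'']
    rw [syAx.mul_right _ _ _ n1.1 (hD.1.mul np), syAx.mul_right _ _ _ hD.1 np]
  have em : sy ν m = sy ν gm * sy ν m' := by
    conv_lhs => rw [m3]
    rw [syAx.mul_right _ _ _ m1.1 mp]
  rw [en, em]
  have cn := sy_sq (x := D) np
  have cm := sy_sq (x := d) mp
  simp only [map_mul, map_pow, Complex.conj_conj]
  rw [cn, cm]
  ring

/-! ### the dictionary -/

open Classical in
/-- **(Y1)** -/
theorem Y1 {M q D z Z ν d : Eis} {g : Eis → ℂ} (hM : M ≠ 0) (hq : Sm M q)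
    (hz : PrI M z) (hZ : PrI q Z) (hD : Sm M D) (hDs : Squarefree D) (hDq : IsCoprime D q)
    (hg : MuP g) {b₁ b₂ : Eis → ℂ} (h₁ : FS b₁) (h₂ : FS b₂) :
    CS (tws Z q g (wD D D (ww M b₁ b₂ (h₁.fin.toFinset ×ˢ h₂.fin.toFinset) z ν))) d =
      conj (sy Z D) * ∑ x ∈ LM (z * Z), (sy ν (D * x.1) * conj (sy ν x.2)) *
        (CS (tws (D * x.1) (M * q) g b₁) (d * ν * D ^ 2) *
          conj (CS (tws x.2 (M * q) (fun t => conj (g t) ^ 2) b₂) (d * ν * D ^ 2))) := by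
  set L := h₁.fin.toFinset ×ˢ h₂.fin.toFinset with hL
  have hzZ : z * Z ≠ 0 := (hz.1.mul hZ.1).ne_zero
  have e1 : CS (tws Z q g (wD D D (ww M b₁ b₂ L z ν))) d =
      ∑ i ∈ L, cb b₁ b₂ ν i * at1 (SY M q D z Z i.1 i.2)
        (fun y => g y * conj (sy (Z * y) D) * sy d y) := by
    rw [← tsum_idx L (cb b₁ b₂ ν) (fun i => SY M q D z Z i.1 i.2)
      (fun y => g y * conj (sy (Z * y) D) * sy d y)]
    · unfold CS
      refine tsum_congr fun y => ?_
      unfold SY tws wD tws ww pu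
      by_cases c1 : IsCoprime y q
      swap
      · rw [if_neg c1, zero_mul]
        symm
        exact Finset.sum_eq_zero fun i _ => if_neg (fun h => c1 h.1)
      rw [if_pos c1]
      by_cases c2 : IsCoprime (Z * y) D
      swap
      · rw [if_neg c2, mul_zero, zero_mul]
        symm
        exact Finset.sum_eq_zero fun i _ => if_neg (fun h => c2 h.2.1)
      rw [if_pos c2]
      by_cases c3 : Sm M (D * (Z * y))
      swap
      · rw [if_neg c3, mul_zero, mul_zero, zero_mul]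
        symm
        exact Finset.sum_eq_zero fun i _ => if_neg (fun h => c3 h.2.2.1)
      rw [if_pos c3, Finset.sum_filter, Finset.mul_sum, Finset.mul_sum, Finset.sum_mul]
      refine Finset.sum_congr rfl fun i _ => ?_
      by_cases c4 : i.1 * i.2 ^ 2 = z * (D * (Z * y))
      · rw [if_pos c4, if_pos ⟨c1, c2, c3, c4⟩]
        ring
      · rw [if_neg c4, if_neg (fun h => c4 h.2.2.2)]
        ring
    · rintro i - x y ⟨-, -, -, hx⟩ ⟨-, -, -, hy⟩
      have h1 : z * D * Z ≠ 0 := mul_ne_zero (mul_ne_zero hz.1.ne_zero hD.1.ne_zero) hZ.1.ne_zero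
      apply mul_left_cancel₀ h1
      calc z * D * Z * x = z * (D * (Z * x)) := by ring
        _ = z * (D * (Z * y)) := hx.symm.trans hy
        _ = z * D * Z * y := by ring
  rw [e1, hL, Finset.sum_product]
  have e2 : ∀ x ∈ LM (z * Z), (sy ν (D * x.1) * conj (sy ν x.2)) *
        (CS (tws (D * x.1) (M * q) g b₁) (d * ν * D ^ 2) *
          conj (CS (tws x.2 (M * q) (fun t => conj (g t) ^ 2) b₂) (d * ν * D ^ 2))) =
      ∑ n ∈ h₁.fin.toFinset, ∑ m ∈ h₂.fin.toFinset, (b₁ n * conj (b₂ m)) *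
        ((sy ν (D * x.1) * conj (sy ν x.2)) *
          (at1 (fun t => n = D * x.1 * t ∧ IsCoprime t (M * q))
            (fun t => g t * sy (d * ν * D ^ 2) t) *
          conj (at1 (fun t => m = x.2 * t ∧ IsCoprime t (M * q))
            (fun t => conj (g t) ^ 2 * sy (d * ν * D ^ 2) t)))) := by
    intro x hx
    obtain ⟨x1, x2, -⟩ := (mem_LM hzZ).mp hx
    rw [CS_tws (hD.1.mul x1).ne_zero g h₁, CS_tws x2.ne_zero _ h₂, map_sum, Finset.sum_mul_sum,
      Finset.mul_sum]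
    refine Finset.sum_congr rfl fun n _ => ?_
    rw [Finset.mul_sum]
    refine Finset.sum_congr rfl fun m _ => ?_
    rw [map_mul]
    ring
  rw [Finset.sum_congr rfl e2]
  conv_rhs => rw [Finset.sum_comm]
  rw [Finset.mul_sum]
  refine Finset.sum_congr rfl fun n hn => ?_
  conv_rhs => rw [Finset.sum_comm]
  rw [Finset.mul_sum]
  refine Finset.sum_congr rfl fun m hm => ?_
  rw [← Finset.mul_sum]
  have hn' : IsPrim n := h₁.prim _ ((Set.Finite.mem_toFinset _).mp hn)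
  have hm' : IsPrim m := h₂.prim _ ((Set.Finite.mem_toFinset _).mp hm)
  have := pair (ν := ν) (d := d) hM hq hz hZ hD hDs hDq hg hn' hm'
  calc cb b₁ b₂ ν (n, m) * at1 (SY M q D z Z n m)
        (fun y => g y * conj (sy (Z * y) D) * sy d y) =
      (b₁ n * conj (b₂ m)) * ((sy ν n * conj (sy ν m)) * at1 (SY M q D z Z n m)
        (fun y => g y * conj (sy (Z * y) D) * sy d y)) := by
        unfold cb; ring
    _ = _ := by rw [this]; ring

/-! ### the symbols go into the frequency -/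

lemma sy_four {x c : Eis} (hc : IsPrim c) : sy x c ^ 4 = sy x c := by
  by_cases h : IsCoprime x c
  · calc sy x c ^ 4 = sy x c ^ 3 * sy x c := by ring
      _ = sy x c := by rw [syAx.cube x c hc h, one_mul]
  · rw [(syAx.eq_zero x c hc).mpr h]
    simp

lemma CS_sym {P Q k q₁ q₂ : Eis} (hP : IsPrim P) (h1 : IsPrim q₁) (h2 : IsPrim q₂)
    (G : Eis → ℂ) {b : Eis → ℂ} (hb : FS b) :
    CS (tws P Q (fun y => sy y q₁ * conj (sy y q₂) * G y) b) k =
      CS (tws P Q G b) (k * q₁ * q₂ ^ 2) := by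
  unfold CS
  refine tsum_congr fun y => ?_
  unfold tws
  by_cases hy : IsCoprime y Q
  swap
  · rw [if_neg hy, if_neg hy, zero_mul, zero_mul]
  rw [if_pos hy, if_pos hy]
  by_cases h0 : b (P * y) = 0
  · rw [h0]; ring
  have hyp : IsPrim y := (hb.prim _ h0).of_mul_left hP
  beta_reduce
  rw [syAx.mul_left _ _ _ hyp, syAx.mul_left _ _ _ hyp, sy_sql hyp, syAx.recip y q₁ hyp h1,
    syAx.recip y q₂ hyp h2, sy_sq hyp]
  ring

lemma CS_sym2 {P Q k q₁ q₂ : Eis} (hP : IsPrim P) (h1 : IsPrim q₁) (h2 : IsPrim q₂)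
    (G : Eis → ℂ) {b : Eis → ℂ} (hb : FS b) :
    CS (tws P Q (fun y => conj (sy y q₁ * conj (sy y q₂) * G y) ^ 2) b) k =
      CS (tws P Q (fun y => conj (G y) ^ 2) b) (k * q₁ * q₂ ^ 2) := by
  unfold CS
  refine tsum_congr fun y => ?_
  unfold tws
  by_cases hy : IsCoprime y Q
  swap
  · rw [if_neg hy, if_neg hy, zero_mul, zero_mul]
  rw [if_pos hy, if_pos hy]
  by_cases h0 : b (P * y) = 0
  · rw [h0]; ring
  have hyp : IsPrim y := (hb.prim _ h0).of_mul_left hP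
  beta_reduce
  rw [syAx.mul_left _ _ _ hyp, syAx.mul_left _ _ _ hyp, sy_sql hyp, syAx.recip y q₁ hyp h1,
    syAx.recip y q₂ hyp h2]
  simp only [map_mul, Complex.conj_conj]
  rw [sy_sq (x := q₁) hyp]
  calc (sy q₁ y ^ 2 * sy q₂ y * conj (G y)) ^ 2 * b (P * y) * sy k y =
      (conj (G y) ^ 2 * b (P * y)) * (sy k y * sy q₁ y ^ 4 * sy q₂ y ^ 2) := by ring
    _ = _ := by rw [sy_four hyp]

open Classical in
/-- **(Y1) with symbols** : `k = d ν D² q₁ q₂²` -/
theorem Y1s {M q D z Z ν d q₁ q₂ : Eis} {G : Eis → ℂ} (hM : M ≠ 0) (hq : Sm M q)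
    (hz : PrI M z) (hZ : PrI q Z) (hD : Sm M D) (hDs : Squarefree D) (hDq : IsCoprime D q)
    (h1 : IsPrim q₁) (h2 : IsPrim q₂) (hG : MuP G) {b₁ b₂ : Eis → ℂ} (h₁ : FS b₁) (h₂ : FS b₂) :
    CS (tws Z q (fun y => sy y q₁ * conj (sy y q₂) * G y)
        (wD D D (ww M b₁ b₂ (h₁.fin.toFinset ×ˢ h₂.fin.toFinset) z ν))) d =
      conj (sy Z D) * ∑ x ∈ LM (z * Z), (sy ν (D * x.1) * conj (sy ν x.2)) *
        (CS (tws (D * x.1) (M * q) G b₁) (d * ν * D ^ 2 * q₁ * q₂ ^ 2) *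
          conj (CS (tws x.2 (M * q) (fun t => conj (G t) ^ 2) b₂)
            (d * ν * D ^ 2 * q₁ * q₂ ^ 2))) := by
  have hg : MuP (fun y => sy y q₁ * conj (sy y q₂) * G y) := by
    intro a b ha hb
    simp only
    rw [syAx.mul_left _ _ _ h1, syAx.mul_left _ _ _ h2, hG a b ha hb, map_mul]
    ring
  have hzZ : z * Z ≠ 0 := (hz.1.mul hZ.1).ne_zero
  rw [Y1 hM hq hz hZ hD hDs hDq hg h₁ h₂]
  congr 1
  refine Finset.sum_congr rfl fun x hx => ?_
  obtain ⟨x1, x2, -⟩ := (mem_LM hzZ).mp hx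
  rw [CS_sym (hD.1.mul x1) h1 h2 G h₁, CS_sym2 x2 h1 h2 G h₂]

lemma conj_nm_cpow {y : Eis} (hy : y ≠ 0) (ξ : ℝ) :
    conj ((nm y : ℂ) ^ (I * ξ)) ^ 2 = (nm y : ℂ) ^ (-(2 * (I * ξ))) := by
  have h0 : (nm y : ℂ) ≠ 0 := by
    exact_mod_cast (nm_pos.mpr hy).ne'
  have h1 : conj ((nm y : ℂ) ^ (I * ξ)) = (nm y : ℂ) ^ (-(I * ξ)) := by
    have h2 := Complex.conj_cpow (nm y : ℂ) (-(I * ξ)) (by
      rw [Complex.natCast_arg]; exact Real.pi_pos.ne)
    rw [Complex.conj_natCast] at h2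
    rw [h2]
    congr 2
    simp
  rw [h1, pow_two, ← Complex.cpow_add _ _ h0]
  congr 1
  ring

lemma MuP_tw {M' : Eis} {η : Eis → ℂ} (hη : HC M' η) (j : ℤ) (ξ : ℝ) :
    MuP (fun y => End699.tw η j y * (nm y : ℂ) ^ (I * ξ)) := by
  intro a b ha hb
  simp only
  rw [tw_mul hη j ha hb, nm_mul, Nat.cast_mul, Complex.natCast_mul_natCast_cpow]
  ring

open Classical in
/-- **(Y1) for the class `TwC`** -/
theorem Y1t {M q D z Z M' : Eis} {J : ℤ} {ξ : ℝ} {g : Eis → ℂ} (hM : M ≠ 0) (hq : Sm M q)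
    (hz : PrI M z) (hZ : PrI q Z) (hD : Sm M D) (hDs : Squarefree D) (hDq : IsCoprime D q)
    (hg : TwC M' J q ξ g) {b₁ b₂ : Eis → ℂ} (h₁ : FS b₁) (h₂ : FS b₂) :
    ∃ (q₁ q₂ : Eis) (η : Eis → ℂ) (j : ℤ), IsPrim q₁ ∧ IsPrim q₂ ∧
      (∀ p : Eis, Prime p → p ∣ q₁ * q₂ → p ∣ q) ∧ HC M' η ∧ (j = 0 ∨ j = J) ∧
      ∀ ν d : Eis, CS (tws Z q g
        (wD D D (ww M b₁ b₂ (h₁.fin.toFinset ×ˢ h₂.fin.toFinset) z ν))) d =
      conj (sy Z D) * ∑ x ∈ LM (z * Z), (sy ν (D * x.1) * conj (sy ν x.2)) *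
        (CS (tws (D * x.1) (M * q) (fun y => End699.tw η j y * (nm y : ℂ) ^ (I * ξ)) b₁)
            (d * ν * D ^ 2 * q₁ * q₂ ^ 2) *
          conj (CS (tws x.2 (M * q)
              (fun y => conj (End699.tw η j y) ^ 2 * (nm y : ℂ) ^ (-(2 * (I * ξ)))) b₂)
            (d * ν * D ^ 2 * q₁ * q₂ ^ 2))) := by
  obtain ⟨q₁, q₂, η, j, h1, h2, h3, h4, h5, h6⟩ := hg
  refine ⟨q₁, q₂, η, j, h1, h2, h3, h4, h5, fun ν d => ?_⟩
  have e1 : g = fun y => sy y q₁ * conj (sy y q₂) *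
      (End699.tw η j y * (nm y : ℂ) ^ (I * ξ)) := by
    funext y
    rw [h6 y]; ring
  have hzZ : z * Z ≠ 0 := (hz.1.mul hZ.1).ne_zero
  rw [e1, Y1s hM hq hz hZ hD hDs hDq h1 h2 (MuP_tw h4 j ξ) h₁ h₂]
  congr 1
  refine Finset.sum_congr rfl fun x hx => ?_
  obtain ⟨x1, x2, -⟩ := (mem_LM hzZ).mp hx
  congr 3
  unfold CS
  refine tsum_congr fun y => ?_
  unfold tws
  by_cases hy : IsCoprime y (M * q)
  swap
  · rw [if_neg hy, if_neg hy]
  rw [if_pos hy, if_pos hy]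
  by_cases h0 : b₂ (x.2 * y) = 0
  · rw [h0]; ring
  have hyp : IsPrim y := (h₂.prim _ h0).of_mul_left x2
  simp only [map_mul, mul_pow]
  rw [conj_nm_cpow hyp.ne_zero]

end Crest.Agent.R017.E4Y679
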