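import Crest.Agent.R017.E4Yb_792

/-!
# Row 17, E4: (Yb), family form (helper792)

* `WM2` : joint moment of two families
* `joint2` : pairs `(D, K)`: `∑ ‖CS (sub (al h s₁) D) K‖² ‖CS (al h s₂) K‖²`
* `Yb_fam` : `∑_e (∑_{(l,m)} ‖A_l‖ ‖B_m‖)²`
-/

set_option autoImplicit false
set_option linter.unusedSectionVars false
set_option linter.unusedVariables false

noncomputable section

open Complex
open scoped ComplexConjugate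

namespace Crest.Agent.R017.E4Yb792

open Crest.Agent.R012 Crest.Agent.R012.Eis Crest.Agent.R012.LS2 Crest.Agent.R012.Gauss880
open Crest.Agent.R012.Div277 (tau dvs mem_dvs tau_le_rpow)
open Crest.Agent.R012.PSer47 (IsChar)
open Crest.Agent.R012.Weight600 (osc norm_osc osc_add_right osc_add_left osc_ne_zero)
open Crest.Agent.R017.CM106 Crest.Agent.R017.HP842 Crest.Agent.R017.FE47
open Crest.Agent.R017.End699 Crest.Agent.R017.XC858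
open Crest.Agent.R017.HSep813 (gw norm_gw_le MF sep_list)
open Crest.Agent.R017.B770
open Crest.Agent.R017.Prov71
open Crest.Agent.R017.Rough381
open Crest.Agent.R017.E4J792

variable {ι₁ ι₂ : Type} [Fintype ι₁] [DecidableEq ι₁] [Fintype ι₂] [DecidableEq ι₂]

open Classical in
/-- the weight of a family over the `K` with `Q K` -/
def wQ {ι : Type} [Fintype ι] (Q : Eis → Prop) (h : ℝ → ℝ) (s : ι → Pc) (K : Eis) : ℝ :=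
  if Q K then ∏ i, ‖CS (pc h (s i)) K‖ ^ 2 else 0

lemma wQ_nonneg {ι : Type} [Fintype ι] (Q : Eis → Prop) (h : ℝ → ℝ) (s : ι → Pc) (K : Eis) :
    0 ≤ wQ Q h s K := by
  unfold wQ
  split_ifs
  · exact Finset.prod_nonneg fun _ _ => by positivity
  · exact le_rfl

open Classical in
/-- joint moment of two families -/
def WM2 (Q : Eis → Prop) (h : ℝ → ℝ) (Λ : ℝ) (s₁ : ι₁ → Pc) (s₂ : ι₂ → Pc) : ℝ :=
  ∑ K ∈ (bl Λ).filter Q, (∏ i, ‖CS (pc h (s₁ i)) K‖ ^ 2) * ∏ i, ‖CS (pc h (s₂ i)) K‖ ^ 2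

lemma WM_wQ₁ (Q : Eis → Prop) (h : ℝ → ℝ) (Λ : ℝ) (s₁ : ι₁ → Pc) (s₂ : ι₂ → Pc) :
    WM h (wQ Q h s₁) Λ s₂ = WM2 Q h Λ s₁ s₂ := by
  classical
  unfold WM WM2
  rw [Finset.sum_filter]
  refine Finset.sum_congr rfl fun K _ => ?_
  unfold wQ
  split_ifs
  · rfl
  · rw [zero_mul]

lemma Tu_one_n {ι : Type} [Fintype ι] {x : ι → Eis} {n : ι → ℕ}
    (hx : ∀ i, IsPrim (x i) ∧ (n i : ℝ) ≤ Real.log (nm (x i)) ∧
        Real.log (nm (x i)) < n i + 1) (h1 : ∏ i, x i = 1) (i : ι) : n i = 0 := by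
  classical
  have h2 : x i = 1 := by
    refine eq_one_of_isUnit (hx i).1 (isUnit_of_dvd_one ?_)
    rw [← h1]
    exact Finset.dvd_prod_of_mem _ (Finset.mem_univ i)
  have h3 := (hx i).2.1
  rw [h2, nm_one, Nat.cast_one, Real.log_one] at h3
  exact_mod_cast le_antisymm h3 (Nat.cast_nonneg _)

/-- **two families** -/
theorem joint2 {h : ℝ → ℝ} {c : ℝ} (hpu : PU h c) {R : ℝ} (hR0 : 0 ≤ R)
    (hR : ∀ u, cx h u ≠ 0 → |u| ≤ R) (M : ℝ) : ∃ C : ℝ, 1 ≤ C ∧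
    ∀ (ι₁ ι₂ : Type) [Fintype ι₁] [DecidableEq ι₁] [Fintype ι₂] [DecidableEq ι₂]
    (s₁ : ι₁ → Pc) (s₂ : ι₂ → Pc), (∀ i, (s₁ i).OK) → (∀ i, (s₂ i).OK) →
    ∀ (Q : Eis → Prop) (Λ X : ℝ), 0 ≤ Λ → 1 ≤ X →
    ∀ J : Finset (Eis × Eis), (∀ p ∈ J, IsPrim p.1 ∧ p.1 ∣ p.2 ∧ p.2 ∈ bl Λ ∧ Q p.2 ∧
      (nm p.1 : ℝ) ≤ X) →
    ∀ B D : ℝ, 0 ≤ B → 0 ≤ D → (∀ j ∈ bl Λ, (tau j : ℝ) ^ Fintype.card ι₁ ≤ D) →
    (∀ j ∈ bl Λ, (tau j : ℝ) ^ Fintype.card ι₂ ≤ D) →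
    (∀ (b : ι₁ → Bool) (n : ι₁ → ℕ) (Y t : ι₁ → ℝ),
      (∃ x : ι₁ → Eis, (∀ i, IsPrim (x i) ∧ (n i : ℝ) ≤ Real.log (nm (x i)) ∧
        Real.log (nm (x i)) < n i + 1) ∧ ∃ p ∈ J, ∏ i, x i = p.1) →
      (∀ i, 1 ≤ Y i ∧ |Real.log (Y i) - (Real.log (s₁ i).Y - n i)| ≤ 2 * R + 1) →
      ∀ (b' : ι₂ → Bool) (Y' t' : ι₂ → ℝ),
      (∀ i, 1 ≤ Y' i ∧ |Real.log (Y' i) - Real.log (s₂ i).Y| ≤ 2 * R + 1) →
      WM2 Q h Λ (cellP s₁ (vk s₁ b) Y t) (cellP s₂ (vk s₂ b') Y' t') ≤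
        B * ((∏ i, (1 + |t i - (s₁ i).t|) ^ M) * ∏ i, (1 + |t' i - (s₂ i).t|) ^ M)) →
    ∑ p ∈ J, ‖CS (CM106.sub (al h s₁) p.1) p.2‖ ^ 2 * ‖CS (al h s₂) p.2‖ ^ 2 ≤
      (C * (Real.log X + 1)) ^ Fintype.card ι₁ * (C * (Real.log X + 1)) ^ Fintype.card ι₂ *
        (D ^ 4 * B) := by
  classical
  obtain ⟨C, hC, H⟩ := joint_fam hpu hR0 hR M
  refine ⟨C, hC, ?_⟩
  intro ι₁ ι₂ _ _ _ _ s₁ s₂ hs₁ hs₂ Q Λ X hΛ hX J hJ B D hB hD hτ₁ hτ₂ hyp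
  have hlog0 : 0 ≤ Real.log X := Real.log_nonneg hX
  set L := C * (Real.log X + 1) with hL
  have hL0 : 0 ≤ L := by positivity
  have hn0 : ∀ K ∈ bl Λ, K ≠ 0 := fun K hK => ((mem_bl hΛ).1 hK).1
  have key := H ι₁ s₁ hs₁ (wQ Q h s₂) (wQ_nonneg Q h s₂) Λ X hΛ hX J
    (fun p hp => by
      obtain ⟨h1, h2, h3, h4, h5⟩ := hJ p hp
      exact ⟨h1, h2, h3, hn0 _ h3, h5⟩)
    (L ^ Fintype.card ι₂ * (D * (D * B))) D (by positivity) hD hτ₁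
    (by
      intro b n Y t hx hY
      have hT : 0 ≤ ∏ i, (1 + |t i - (s₁ i).t|) ^ M :=
        Finset.prod_nonneg fun i _ => by positivity
      set J₂ : Finset (Eis × Eis) := ((bl Λ).filter Q).image (fun K => ((1 : Eis), K)) with hJ₂
      set s₁' := cellP s₁ (vk s₁ b) Y t with hs₁'
      have key2 := H ι₂ s₂ hs₂ (wQ Q h s₁') (wQ_nonneg Q h s₁') Λ X hΛ hX J₂
        (by
          intro p hp
          rw [hJ₂, Finset.mem_image] at hp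
          obtain ⟨K, hK, rfl⟩ := hp
          rw [Finset.mem_filter] at hK
          refine ⟨isPrim_one, one_dvd _, hK.1, hn0 _ hK.1, ?_⟩
          rw [nm_one, Nat.cast_one]
          exact hX)
        (B * ∏ i, (1 + |t i - (s₁ i).t|) ^ M) D (mul_nonneg hB hT) hD hτ₂
        (by
          intro b' n' Y' t' hx' hY'
          obtain ⟨x', hx', p, hp, hxp⟩ := hx'
          rw [hJ₂, Finset.mem_image] at hp
          obtain ⟨K, hK, rfl⟩ := hp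
          have hn' := Tu_one_n hx' hxp
          rw [WM_wQ₁]
          have h1 := hyp b n Y t hx hY b' Y' t' (fun i => by
            have h2 := hY' i
            rw [hn' i, Nat.cast_zero, sub_zero] at h2
            exact h2)
          refine h1.trans (le_of_eq (by ring)))
      have e1 : WM h (wQ Q h s₂) Λ s₁' = ∑ p ∈ J₂, wQ Q h s₁' p.2 *
          ‖CS (CM106.sub (al h s₂) p.1) p.2‖ ^ 2 := by
        have e2 : WM h (wQ Q h s₂) Λ s₁' = WM2 Q h Λ s₁' s₂ := by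
          rw [WM_wQ₁]
          unfold WM2
          exact Finset.sum_congr rfl fun K _ => mul_comm _ _
        rw [e2, hJ₂, Finset.sum_image (fun a _ b _ hab => (Prod.ext_iff.1 hab).2)]
        unfold WM2
        refine Finset.sum_congr rfl fun K hK => ?_
        have e3 : CM106.sub (al h s₂) 1 = al h s₂ := by
          funext n; unfold CM106.sub; rw [one_mul]
        simp only
        rw [e3, CS_al hR hs₂, norm_prod, ← Finset.prod_pow]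
        unfold wQ
        rw [if_pos (Finset.mem_filter.1 hK).2]
      rw [e1]
      refine key2.trans (le_of_eq ?_)
      ring)
  refine le_trans (le_of_eq ?_) (key.trans (le_of_eq ?_))
  · refine Finset.sum_congr rfl fun p hp => ?_
    rw [CS_al hR hs₂, norm_prod, ← Finset.prod_pow]
    unfold wQ
    rw [if_pos (hJ p hp).2.2.2.1, mul_comm]
  · ring

/-- Cauchy–Schwarz over the pairs -/
lemma sq_sum_mul_le {β : Type*} (S : Finset β) (a b : β → ℝ) :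
    (∑ p ∈ S, a p * b p) ^ 2 ≤ S.card * ∑ p ∈ S, a p ^ 2 * b p ^ 2 := by
  refine (sq_sum_le_card_mul_sum_sq).trans (le_of_eq ?_)
  congr 1
  exact Finset.sum_congr rfl fun p _ => by ring

/-- bounded multiplicity -/
lemma sum_mult_le {α β : Type*} [DecidableEq β] (E : Finset α) (f : α → β) (G : β → ℝ)
    (hG : ∀ p, 0 ≤ G p) {T : ℝ} (hT : ∀ p, ((E.filter (fun e => f e = p)).card : ℝ) ≤ T) :
    ∑ e ∈ E, G (f e) ≤ T * ∑ p ∈ E.image f, G p := by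
  rw [← Finset.sum_fiberwise_of_maps_to (fun e he => Finset.mem_image_of_mem f he)
    (fun e => G (f e)), Finset.mul_sum]
  refine Finset.sum_le_sum fun p _ => ?_
  have e1 : ∀ e ∈ E.filter (fun e => f e = p), G (f e) = G p := by
    intro e he
    rw [(Finset.mem_filter.1 he).2]
  rw [Finset.sum_congr rfl e1, Finset.sum_const, nsmul_eq_mul]
  exact mul_le_mul_of_nonneg_right (hT p) (hG p)

set_option maxHeartbeats 1000000 in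
/-- **(Yb), family form** -/
theorem Yb_fam {h : ℝ → ℝ} {c : ℝ} (hpu : PU h c) {R : ℝ} (hR0 : 0 ≤ R)
    (hR : ∀ u, cx h u ≠ 0 → |u| ≤ R) (M : ℝ) : ∃ C : ℝ, 1 ≤ C ∧
    ∀ (ι₁ ι₂ : Type) [Fintype ι₁] [DecidableEq ι₁] [Fintype ι₂] [DecidableEq ι₂]
    (s₁ : ι₁ → Pc) (s₂ : ι₂ → Pc), (∀ i, (s₁ i).OK) → (∀ i, (s₂ i).OK) →
    ∀ (θ₁ θ₂ : Eis → ℂ), IsChar θ₁ → IsChar θ₂ → ∀ (ξ₁ ξ₂ : ℝ) (Q : Eis → Prop) (Λ X : ℝ),
    0 ≤ Λ → 1 ≤ X →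
    ∀ (α : Type) (E : Finset α) (Df Kf : α → Eis), (∀ e ∈ E, IsPrim (Df e) ∧ Df e ∣ Kf e ∧
      Kf e ∈ bl Λ ∧ Q (Kf e) ∧ (nm (Df e) : ℝ) ≤ X ∧ θ₁ (Df e) ≠ 0) →
    ∀ LM : Finset (Eis × Eis), (∀ p ∈ LM, IsPrim p.1 ∧ IsPrim p.2 ∧
      (∀ n, IsPrim n → θ₁ n ≠ 0 → IsCoprime p.1 n) ∧
      ∀ n, IsPrim n → θ₂ n ≠ 0 → IsCoprime p.2 n) →
    ∀ B T : ℝ, 0 ≤ B → 0 ≤ T → (∀ j ∈ bl Λ, (tau j : ℝ) ^ Fintype.card ι₁ ≤ T) →
    (∀ j ∈ bl Λ, (tau j : ℝ) ^ Fintype.card ι₂ ≤ T) →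
    (LM.card : ℝ) ≤ T → (∀ p ∈ LM, ((Tu ι₁ p.1).card : ℝ) ≤ T ∧ ((Tu ι₂ p.2).card : ℝ) ≤ T) →
    (∀ p, (open Classical in ((E.filter (fun e => (Df e, Kf e) = p)).card : ℝ)) ≤ T) →
    (∀ p ∈ LM, ∀ x ∈ Tu ι₁ p.1, ∀ x' ∈ Tu ι₂ p.2,
      ∀ (b : ι₁ → Bool) (n : ι₁ → ℕ) (Y t : ι₁ → ℝ),
      (∃ y : ι₁ → Eis, (∀ i, IsPrim (y i) ∧ (n i : ℝ) ≤ Real.log (nm (y i)) ∧
        Real.log (nm (y i)) < n i + 1) ∧ ∃ e ∈ E, ∏ i, y i = Df e) →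
      (∀ i, 1 ≤ Y i ∧ |Real.log (Y i) - (Real.log ((s₁ i).Y / nm (x i)) - n i)| ≤ 2 * R + 1) →
      ∀ (b' : ι₂ → Bool) (Y' t' : ι₂ → ℝ),
      (∀ i, 1 ≤ Y' i ∧ |Real.log (Y' i) - Real.log ((s₂ i).Y / nm (x' i))| ≤ 2 * R + 1) →
      WM2 Q h Λ (cellP (tS θ₁ ξ₁ s₁ x) (vk (tS θ₁ ξ₁ s₁ x) b) Y t)
        (cellP (tS θ₂ ξ₂ s₂ x') (vk (tS θ₂ ξ₂ s₂ x') b') Y' t') ≤
        B * ((∏ i, (1 + |t i - ((s₁ i).t + ξ₁)|) ^ M) *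
          ∏ i, (1 + |t' i - ((s₂ i).t + ξ₂)|) ^ M)) →
    ∑ e ∈ E, (∑ p ∈ LM, ‖CS (fac θ₁ ξ₁ (al h s₁) (Df e * p.1)) (Kf e)‖ *
      ‖CS (fac θ₂ ξ₂ (al h s₂) p.2) (Kf e)‖) ^ 2 ≤
      (C * (Real.log X + 1)) ^ Fintype.card ι₁ * (C * (Real.log X + 1)) ^ Fintype.card ι₂ *
        (T ^ 11 * B) := by
  classical
  obtain ⟨C, hC, H⟩ := joint2 hpu hR0 hR M
  refine ⟨C, hC, ?_⟩
  intro ι₁ ι₂ _ _ _ _ s₁ s₂ hs₁ hs₂ θ₁ θ₂ hθ₁ hθ₂ ξ₁ ξ₂ Q Λ X hΛ hX α E Df Kf hE LM hLM B T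
    hB hT hτ₁ hτ₂ hcard hTu hmult hyp
  have hlog0 : 0 ≤ Real.log X := Real.log_nonneg hX
  set L := (C * (Real.log X + 1)) ^ Fintype.card ι₁ * (C * (Real.log X + 1)) ^ Fintype.card ι₂
    with hL
  have hL0 : 0 ≤ L := by positivity
  -- the terms
  set G : (Eis × Eis) → (ι₁ → Eis) → (ι₂ → Eis) → ℝ := fun q x x' =>
    ‖CS (CM106.sub (al h (tS θ₁ ξ₁ s₁ x)) q.1) q.2‖ ^ 2 *
      ‖CS (al h (tS θ₂ ξ₂ s₂ x')) q.2‖ ^ 2 with hG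
  have hG0 : ∀ q x x', 0 ≤ G q x x' := fun q x x' => by positivity
  have e1 : ∀ e ∈ E, (∑ p ∈ LM, ‖CS (fac θ₁ ξ₁ (al h s₁) (Df e * p.1)) (Kf e)‖ *
      ‖CS (fac θ₂ ξ₂ (al h s₂) p.2) (Kf e)‖) ^ 2 ≤
      T * ∑ p ∈ LM, (T * T) * ∑ x ∈ Tu ι₁ p.1, ∑ x' ∈ Tu ι₂ p.2, G (Df e, Kf e) x x' := by
    intro e he
    obtain ⟨h1, h2, h3, h4, h5, h6⟩ := hE e he
    refine (sq_sum_mul_le _ _ _).trans ?_
    have h7 : 0 ≤ ∑ p ∈ LM, ‖CS (fac θ₁ ξ₁ (al h s₁) (Df e * p.1)) (Kf e)‖ ^ 2 *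
        ‖CS (fac θ₂ ξ₂ (al h s₂) p.2) (Kf e)‖ ^ 2 := Finset.sum_nonneg fun _ _ => by positivity
    refine (mul_le_mul_of_nonneg_right hcard h7).trans ?_
    refine mul_le_mul_of_nonneg_left (Finset.sum_le_sum fun p hp => ?_) hT
    obtain ⟨g1, g2, g3, g4⟩ := hLM p hp
    have a1 := CS_fac hR hθ₁ ξ₁ hs₁ g1 h1 h6 g3 (Kf e)
    have a2 := CS_fac_one hR hθ₂ ξ₂ hs₂ g2 g4 (Kf e)
    have b1 : 0 ≤ ∑ x ∈ Tu ι₁ p.1, ‖CS (CM106.sub (al h (tS θ₁ ξ₁ s₁ x)) (Df e)) (Kf e)‖ ^ 2 :=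
      Finset.sum_nonneg fun _ _ => by positivity
    have b2 : 0 ≤ ∑ x ∈ Tu ι₂ p.2, ‖CS (al h (tS θ₂ ξ₂ s₂ x)) (Kf e)‖ ^ 2 :=
      Finset.sum_nonneg fun _ _ => by positivity
    have a1' := a1.trans (mul_le_mul_of_nonneg_right (hTu p hp).1 b1)
    have a2' := a2.trans (mul_le_mul_of_nonneg_right (hTu p hp).2 b2)
    refine (mul_le_mul a1' a2' (by positivity) (mul_nonneg hT b1)).trans (le_of_eq ?_)
    have e5 : (∑ x ∈ Tu ι₁ p.1, ‖CS (CM106.sub (al h (tS θ₁ ξ₁ s₁ x)) (Df e)) (Kf e)‖ ^ 2) *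
        ∑ x ∈ Tu ι₂ p.2, ‖CS (al h (tS θ₂ ξ₂ s₂ x)) (Kf e)‖ ^ 2 =
        ∑ x ∈ Tu ι₁ p.1, ∑ x' ∈ Tu ι₂ p.2, G (Df e, Kf e) x x' := by
      rw [Finset.sum_mul_sum]
    rw [← e5]
    ring
  -- each `(p, x, x')`
  have e2 : ∀ p ∈ LM, ∀ x ∈ Tu ι₁ p.1, ∀ x' ∈ Tu ι₂ p.2,
      ∑ e ∈ E, G (Df e, Kf e) x x' ≤ T * (L * (T ^ 4 * B)) := by
    intro p hp x hx x' hx'
    obtain ⟨g1, g2, g3, g4⟩ := hLM p hp
    have hx1 := (mem_Tu.1 hx).1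
    have hx2 := (mem_Tu.1 hx').1
    have hm : ∀ q, ((E.filter (fun e => (Df e, Kf e) = q)).card : ℝ) ≤ T := fun q => by
      refine le_trans (le_of_eq ?_) (hmult q)
      congr
    refine (sum_mult_le E (fun e => (Df e, Kf e)) (fun q => G q x x') (fun q => hG0 q x x')
      hm).trans ?_
    refine mul_le_mul_of_nonneg_left ?_ hT
    have key := H ι₁ ι₂ (tS θ₁ ξ₁ s₁ x) (tS θ₂ ξ₂ s₂ x')
      (fun i => tP_OK hθ₁ ξ₁ (hs₁ i) (hx1 i)) (fun i => tP_OK hθ₂ ξ₂ (hs₂ i) (hx2 i)) Q Λ X hΛ hX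
      (E.image fun e => (Df e, Kf e))
      (by
        intro q hq
        rw [Finset.mem_image] at hq
        obtain ⟨e, he, rfl⟩ := hq
        obtain ⟨h1, h2, h3, h4, h5, h6⟩ := hE e he
        exact ⟨h1, h2, h3, h4, h5⟩)
      B T hB hT hτ₁ hτ₂
      (by
        intro b n Y t hy hY b' Y' t' hY'
        obtain ⟨y, hy, q, hq, hyq⟩ := hy
        rw [Finset.mem_image] at hq
        obtain ⟨e, he, rfl⟩ := hq
        exact hyp p hp x hx x' hx' b n Y t ⟨y, hy, e, he, hyq⟩ hY b' Y' t' hY')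
    exact key
  have e3 : ∑ e ∈ E, (T * ∑ p ∈ LM, (T * T) * ∑ x ∈ Tu ι₁ p.1, ∑ x' ∈ Tu ι₂ p.2,
      G (Df e, Kf e) x x') = T * ∑ p ∈ LM, (T * T) * ∑ x ∈ Tu ι₁ p.1, ∑ x' ∈ Tu ι₂ p.2,
      ∑ e ∈ E, G (Df e, Kf e) x x' := by
    rw [← Finset.mul_sum, Finset.sum_comm]
    congr 1
    refine Finset.sum_congr rfl fun p _ => ?_
    rw [← Finset.mul_sum, Finset.sum_comm]
    congr 1
    refine Finset.sum_congr rfl fun x _ => ?_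
    rw [Finset.sum_comm]
  refine (Finset.sum_le_sum e1).trans ?_
  rw [e3]
  have hK0 : 0 ≤ T * (L * (T ^ 4 * B)) := by positivity
  have e4 : ∀ p ∈ LM, (T * T) * ∑ x ∈ Tu ι₁ p.1, ∑ x' ∈ Tu ι₂ p.2,
      ∑ e ∈ E, G (Df e, Kf e) x x' ≤ (T * T) * (T * (T * (T * (L * (T ^ 4 * B))))) := by
    intro p hp
    refine mul_le_mul_of_nonneg_left ?_ (mul_nonneg hT hT)
    calc ∑ x ∈ Tu ι₁ p.1, ∑ x' ∈ Tu ι₂ p.2, ∑ e ∈ E, G (Df e, Kf e) x x'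
        ≤ ∑ x ∈ Tu ι₁ p.1, ∑ x' ∈ Tu ι₂ p.2, T * (L * (T ^ 4 * B)) :=
          Finset.sum_le_sum fun x hx => Finset.sum_le_sum fun x' hx' => e2 p hp x hx x' hx'
      _ = (Tu ι₁ p.1).card * ((Tu ι₂ p.2).card * (T * (L * (T ^ 4 * B)))) := by
          simp only [Finset.sum_const, nsmul_eq_mul]
      _ ≤ T * (T * (T * (L * (T ^ 4 * B)))) := by
          refine mul_le_mul (hTu p hp).1 ?_ (by positivity) hT
          exact mul_le_mul_of_nonneg_right (hTu p hp).2 hK0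
  calc T * ∑ p ∈ LM, (T * T) * ∑ x ∈ Tu ι₁ p.1, ∑ x' ∈ Tu ι₂ p.2,
        ∑ e ∈ E, G (Df e, Kf e) x x'
      ≤ T * ∑ p ∈ LM, (T * T) * (T * (T * (T * (L * (T ^ 4 * B))))) :=
        mul_le_mul_of_nonneg_left (Finset.sum_le_sum e4) hT
    _ = T * (LM.card * ((T * T) * (T * (T * (T * (L * (T ^ 4 * B))))))) := by
        rw [Finset.sum_const, nsmul_eq_mul]
    _ ≤ T * (T * ((T * T) * (T * (T * (T * (L * (T ^ 4 * B))))))) := by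
        refine mul_le_mul_of_nonneg_left (mul_le_mul_of_nonneg_right hcard ?_) hT
        positivity
    _ = L * (T ^ 11 * B) := by ring

end Crest.Agent.R017.E4Yb792
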