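import Crest.Agent.R017.E4Yb2_792
import Crest.Agent.R017.E4Y_679
import Crest.Agent.R017.E4U1_699

/-!
# Row 17, E4: (Yb), the identity with the factors `fac` (helper792)

* `twc_red` : the symbols of a twist reduced to squarefree coprime `q₁`, `q₂`
* `Yid`, `Yid_le` : 679's `Y1s` in terms of `fac`
* `divs_pow` : divisor bounds
-/

set_option autoImplicit false
set_option linter.unusedSectionVars false
set_option linter.unusedVariables false

noncomputable section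

open Complex
open scoped ComplexConjugate

namespace Crest.Agent.R017.E4Yb792

open Crest.Agent.R012 Crest.Agent.R012.Eis Crest.Agent.R012.LS2
open Crest.Agent.R012.GaussLoc283
open Crest.Agent.R012.Div277 (tau dvs mem_dvs tau_le_rpow)
open Crest.Agent.R012.PSer47 (IsChar)
open Crest.Agent.R012.Mob705 (exists_common_pp)
open Crest.Agent.R012.Weight600 (osc norm_osc osc_add_right osc_add_left osc_ne_zero)
open Crest.Agent.R017.CM106 Crest.Agent.R017.HP842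
open Crest.Agent.R017.XC858
open Crest.Agent.R017.End699 (HC prin0)
open Crest.Agent.R017.B770
open Crest.Agent.R017.Prov71
open Crest.Agent.R017.Rough381
open Crest.Agent.R017.E4J792
open Crest.Agent.R017.E4352 (TwC PrI tws)
open Crest.Agent.R017.Sx545 (Sm)
open Crest.Agent.R017.E4Y679 (LM mem_LM card_LM MuP Y1s MuP_tw sy_sq sy_sqr)
open Crest.Agent.R017.E4o502 (wD)
open Crest.Agent.R017.E4D164 (ww pu)

/-! ### the twist -/

/-- **reduction of the symbols** -/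
theorem twc_red {M' q : Eis} {J : ℤ} {ξ : ℝ} {g : Eis → ℂ} (hg : TwC M' J q ξ g) :
    ∃ (q₁ q₂ : Eis) (η : Eis → ℂ) (j : ℤ), IsPrim q₁ ∧ IsPrim q₂ ∧ Squarefree q₁ ∧
      Squarefree q₂ ∧ IsCoprime q₁ q₂ ∧ (∀ p : Eis, Prime p → p ∣ q₁ * q₂ → p ∣ q) ∧ HC M' η ∧
      (j = 0 ∨ j = J) ∧ ∀ y, IsPrim y → IsCoprime y q →
        g y = sy y q₁ * conj (sy y q₂) * (End699.tw η j y * (nm y : ℂ) ^ (I * ξ)) := by
  obtain ⟨a, b, η, j, ha, hb, hp, hη, hj, hgy⟩ := hg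
  obtain ⟨k1, k2, m, h1, h2, h3, s1, s2, hc, he⟩ :=
    Char766.exists_prim_cubic_decomp (ha.mul (hb.pow 2))
  have hpq : ∀ p : Eis, Prime p → p ∣ k1 * k2 ^ 2 * m ^ 3 → p ∣ q := by
    intro p hpp hd
    rw [← he] at hd
    apply hp p hpp
    rcases hpp.dvd_or_dvd hd with h | h
    · exact h.mul_right _
    · exact (hpp.dvd_of_dvd_pow h).mul_left _
  refine ⟨k1, k2, η, j, h1, h2, s1, s2, hc, ?_, hη, hj, ?_⟩
  · intro p hpp hd
    apply hpq p hpp
    rcases hpp.dvd_or_dvd hd with h | h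
    · exact (h.mul_right _).mul_right _
    · exact ((dvd_pow h two_ne_zero).mul_left _).mul_right _
  intro y hy hyq
  have hym : IsCoprime y m := by
    by_contra h0
    obtain ⟨p, hpp, hpy, hpm⟩ := exists_common_pp hy h0
    refine hpp.prime.not_isUnit (hyq.isUnit_of_dvd' hpy (hpq p hpp.prime ?_))
    exact (dvd_pow hpm (by norm_num)).mul_left _
  have e1 : sy y a * conj (sy y b) = sy y k1 * conj (sy y k2) := by
    have e2 : sy y (a * b ^ 2) = sy y a * conj (sy y b) := by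
      rw [syAx.mul_right _ _ _ ha (hb.pow 2), sy_sqr hb, sy_sq hb]
    have e3 : sy y (k1 * k2 ^ 2 * m ^ 3) = sy y k1 * conj (sy y k2) := by
      rw [syAx.mul_right _ _ _ (h1.mul (h2.pow 2)) (h3.pow 3),
        syAx.mul_right _ _ _ h1 (h2.pow 2), sy_sqr h2, sy_sq h2]
      have e4 : sy y (m ^ 3) = 1 := by
        rw [show m ^ 3 = m * (m * m) by ring, syAx.mul_right _ _ _ h3 (h3.mul h3),
          syAx.mul_right _ _ _ h3 h3]
        have := syAx.cube y m h3 hym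
        rw [show sy y m * (sy y m * sy y m) = sy y m ^ 3 by ring, this]
      rw [e4, mul_one]
    rw [← e2, he, e3]
  rw [hgy y, e1]
  ring

/-- the first character -/
def th1 (M q : Eis) (η : Eis → ℂ) (j : ℤ) (n : Eis) : ℂ := prin0 (M * q) n * End699.tw η j n

/-- the second character -/
def th2 (M q : Eis) (η : Eis → ℂ) (j : ℤ) (n : Eis) : ℂ :=
  prin0 (M * q) n * (conj (End699.tw η j n) * conj (End699.tw η j n))

lemma isChar_th1 {M q M' : Eis} {η : Eis → ℂ} (hη : HC M' η) (j : ℤ) : IsChar (th1 M q η j) :=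
  (prin0_isChar _).mul' (hη.isChar_tw j)

lemma isChar_th2 {M q M' : Eis} {η : Eis → ℂ} (hη : HC M' η) (j : ℤ) : IsChar (th2 M q η j) :=
  (prin0_isChar _).mul' ((hη.isChar_tw j).conj.mul' (hη.isChar_tw j).conj)

lemma prin0_ne {q n : Eis} (h : prin0 q n ≠ 0) : IsCoprime n q := by
  unfold prin0 at h
  split_ifs at h with h1
  · exact h1
  · exact absurd rfl h

lemma cpow_osc {n : Eis} (hn : n ≠ 0) (ξ : ℝ) :
    (nm n : ℂ) ^ (I * ξ) = osc ξ (Real.log (nm n)) := by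
  have h0 : (nm n : ℂ) ≠ 0 := by exact_mod_cast (nm_pos.2 hn).ne'
  rw [Complex.cpow_def_of_ne_zero h0]
  unfold osc
  congr 1
  rw [← Complex.ofReal_natCast, ← Complex.ofReal_log (Nat.cast_nonneg _)]
  push_cast
  ring

lemma conj_cpow_osc {n : Eis} (hn : n ≠ 0) (ξ : ℝ) :
    conj ((nm n : ℂ) ^ (I * ξ)) ^ 2 = osc (-2 * ξ) (Real.log (nm n)) := by
  rw [cpow_osc hn, ← Weight600.osc_neg_left, pow_two, ← osc_add_left]
  congr 1
  ring

lemma CS_tws1 {M q : Eis} (η : Eis → ℂ) (j : ℤ) (ξ : ℝ) {b : Eis → ℂ} (hb : FS b) {P : Eis}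
    (hP : IsPrim P) (K : Eis) :
    CS (tws P (M * q) (fun y => End699.tw η j y * (nm y : ℂ) ^ (I * ξ)) b) K =
      CS (fac (th1 M q η j) ξ b P) K := by
  unfold CS
  refine tsum_congr fun y => ?_
  congr 1
  unfold tws fac tw th1 prin0
  by_cases h0 : b (P * y) = 0
  · rw [h0]; simp
  have hy : IsPrim y := (hb.prim _ h0).of_mul_left hP
  split_ifs
  · beta_reduce
    rw [cpow_osc hy.ne_zero]; ring
  · ring

lemma CS_tws2 {M q : Eis} (η : Eis → ℂ) (j : ℤ) (ξ : ℝ) {b : Eis → ℂ} (hb : FS b) {P : Eis}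
    (hP : IsPrim P) (K : Eis) :
    CS (tws P (M * q) (fun y => conj (End699.tw η j y * (nm y : ℂ) ^ (I * ξ)) ^ 2) b) K =
      CS (fac (th2 M q η j) (-2 * ξ) b P) K := by
  unfold CS
  refine tsum_congr fun y => ?_
  congr 1
  unfold tws fac tw th2 prin0
  by_cases h0 : b (P * y) = 0
  · rw [h0]; simp
  have hy : IsPrim y := (hb.prim _ h0).of_mul_left hP
  split_ifs
  · beta_reduce
    rw [map_mul, mul_pow, conj_cpow_osc hy.ne_zero]; ring
  · ring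

lemma CS_tws_congr {Z q d : Eis} {g g' W : Eis → ℂ}
    (h : ∀ y, IsPrim y → IsCoprime y q → g y = g' y) (hW : ∀ y, W (Z * y) ≠ 0 → IsPrim y) :
    CS (tws Z q g W) d = CS (tws Z q g' W) d := by
  unfold CS
  refine tsum_congr fun y => ?_
  congr 1
  unfold tws
  by_cases h0 : W (Z * y) = 0
  · rw [h0]; simp
  split_ifs with hc
  · rw [h y (hW y h0) hc]
  · rfl

/-- **the identity** -/
theorem Yid {M q D z Z ν d q₁ q₂ M' : Eis} {η : Eis → ℂ} {j : ℤ} {ξ : ℝ} {g : Eis → ℂ}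
    (hM : M ≠ 0) (hq : Sm M q) (hz : PrI M z) (hZ : PrI q Z) (hD : Sm M D) (hDs : Squarefree D)
    (hDq : IsCoprime D q) (h1 : IsPrim q₁) (h2 : IsPrim q₂) (hη : HC M' η)
    (hg : ∀ y, IsPrim y → IsCoprime y q →
        g y = sy y q₁ * conj (sy y q₂) * (End699.tw η j y * (nm y : ℂ) ^ (I * ξ)))
    {b₁ b₂ : Eis → ℂ} (h₁ : FS b₁) (h₂ : FS b₂) :
    CS (tws Z q g (wD D D (ww M b₁ b₂ (h₁.fin.toFinset ×ˢ h₂.fin.toFinset) z ν))) d =
      conj (sy Z D) * ∑ x ∈ LM (z * Z), (sy ν (D * x.1) * conj (sy ν x.2)) *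
        (CS (fac (th1 M q η j) ξ b₁ (D * x.1)) (d * ν * D ^ 2 * q₁ * q₂ ^ 2) *
          conj (CS (fac (th2 M q η j) (-2 * ξ) b₂ x.2) (d * ν * D ^ 2 * q₁ * q₂ ^ 2))) := by
  have hzZ : z * Z ≠ 0 := (hz.1.mul hZ.1).ne_zero
  rw [CS_tws_congr hg, Y1s hM hq hz hZ hD hDs hDq h1 h2 (MuP_tw hη j ξ) h₁ h₂]
  · congr 1
    refine Finset.sum_congr rfl fun x hx => ?_
    obtain ⟨x1, x2, -⟩ := (mem_LM hzZ).mp hx
    rw [CS_tws1 η j ξ h₁ (hD.1.mul x1), CS_tws2 η j ξ h₂ x2]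
  · intro y hy
    unfold E4o502.wD tws at hy
    split_ifs at hy with hc
    · have h3 : ww M b₁ b₂ (h₁.fin.toFinset ×ˢ h₂.fin.toFinset) z ν (D * (Z * y)) ≠ 0 :=
        right_ne_zero_of_mul hy
      have h4 := (E4D164.pu_ne h3).1
      exact (h4.1.of_mul_left hD.1).of_mul_left hZ.1
    · exact absurd rfl hy

theorem Yid_le {M q D z Z ν d q₁ q₂ M' : Eis} {η : Eis → ℂ} {j : ℤ} {ξ : ℝ} {g : Eis → ℂ}
    (hM : M ≠ 0) (hq : Sm M q) (hz : PrI M z) (hZ : PrI q Z) (hD : Sm M D) (hDs : Squarefree D)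
    (hDq : IsCoprime D q) (h1 : IsPrim q₁) (h2 : IsPrim q₂) (hη : HC M' η)
    (hg : ∀ y, IsPrim y → IsCoprime y q →
        g y = sy y q₁ * conj (sy y q₂) * (End699.tw η j y * (nm y : ℂ) ^ (I * ξ)))
    {b₁ b₂ : Eis → ℂ} (h₁ : FS b₁) (h₂ : FS b₂) :
    ‖CS (tws Z q g (wD D D (ww M b₁ b₂ (h₁.fin.toFinset ×ˢ h₂.fin.toFinset) z ν))) d‖ ≤
      ∑ x ∈ LM (z * Z),
        ‖CS (fac (th1 M q η j) ξ b₁ (D * x.1)) (d * ν * D ^ 2 * q₁ * q₂ ^ 2)‖ *
          ‖CS (fac (th2 M q η j) (-2 * ξ) b₂ x.2) (d * ν * D ^ 2 * q₁ * q₂ ^ 2)‖ := by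
  have hzZ : z * Z ≠ 0 := (hz.1.mul hZ.1).ne_zero
  rw [Yid hM hq hz hZ hD hDs hDq h1 h2 hη hg h₁ h₂, norm_mul, RCLike.norm_conj]
  have e1 : ‖sy Z D‖ ≤ 1 := Char766.norm_sy_le hD.1
  refine (mul_le_of_le_one_left (norm_nonneg _) e1).trans ?_
  refine (norm_sum_le _ _).trans (Finset.sum_le_sum fun x hx => ?_)
  obtain ⟨x1, x2, -⟩ := (mem_LM hzZ).mp hx
  rw [norm_mul, norm_mul, norm_mul, RCLike.norm_conj, RCLike.norm_conj]
  have e2 : ‖sy ν (D * x.1)‖ ≤ 1 := Char766.norm_sy_le (hD.1.mul x1)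
  have e3 : ‖sy ν x.2‖ ≤ 1 := Char766.norm_sy_le x2
  refine mul_le_of_le_one_left (by positivity) ?_
  exact mul_le_one₀ e2 (norm_nonneg _) e3

/-! ### divisor bounds -/

/-- powers of the divisor function up to `X ^ B` -/
lemma divs_pow (N : ℕ) {ε : ℝ} (hε : 0 < ε) {B : ℝ} (hB : 0 ≤ B) : ∃ C : ℝ, 1 ≤ C ∧
    ∀ X : ℝ, 1 ≤ X → ∀ j : Eis, j ≠ 0 → (nm j : ℝ) ≤ X ^ B → ∀ n : ℕ, n ≤ N →
      (tau j : ℝ) ^ n ≤ C * X ^ ε := by
  set η := ε / (((N : ℝ) + 1) * (B + 1)) with hη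
  have hN0 : (0 : ℝ) ≤ N := Nat.cast_nonneg _
  have hη0 : 0 < η := by positivity
  obtain ⟨C₂, hC₂, hτ⟩ := tau_le_rpow hη0
  refine ⟨C₂ ^ N, one_le_pow₀ hC₂, ?_⟩
  intro X hX j hj hjX n hn
  have hX0 : (0 : ℝ) < X := by linarith
  have hj1 : (1 : ℝ) ≤ nm j := by exact_mod_cast nm_pos.2 hj
  have h5 : (tau j : ℝ) ≤ C₂ * (nm j : ℝ) ^ η := hτ j hj
  have h6 : (1 : ℝ) ≤ C₂ * (nm j : ℝ) ^ η := by
    have := Real.one_le_rpow hj1 hη0.le
    nlinarith
  calc (tau j : ℝ) ^ n ≤ (C₂ * (nm j : ℝ) ^ η) ^ n :=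
        pow_le_pow_left₀ (Nat.cast_nonneg _) h5 n
    _ ≤ (C₂ * (nm j : ℝ) ^ η) ^ N := pow_le_pow_right₀ h6 hn
    _ = C₂ ^ N * (nm j : ℝ) ^ (η * N) := by
        rw [mul_pow, ← Real.rpow_natCast ((nm j : ℝ) ^ η), ← Real.rpow_mul (by positivity)]
    _ ≤ C₂ ^ N * (X ^ B) ^ (η * N) := by
        refine mul_le_mul_of_nonneg_left ?_ (by positivity)
        exact Real.rpow_le_rpow (by positivity) hjX (by positivity)
    _ = C₂ ^ N * X ^ (B * (η * N)) := by rw [← Real.rpow_mul hX0.le]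
    _ ≤ C₂ ^ N * X ^ ε := by
        refine mul_le_mul_of_nonneg_left ?_ (by positivity)
        refine Real.rpow_le_rpow_of_exponent_le hX ?_
        have e1 : B * (η * N) = ε * ((B / (B + 1)) * (N / (N + 1))) := by
          rw [hη]
          have h1 : ((N : ℝ) + 1) ≠ 0 := by positivity
          have h2 : (B + 1) ≠ 0 := by positivity
          field_simp
        rw [e1]
        have e2 : (N : ℝ) / (N + 1) ≤ 1 := by
          rw [div_le_one (by positivity)]; linarith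
        have e3 : B / (B + 1) ≤ 1 := by
          rw [div_le_one (by positivity)]; linarith
        have e4 : (B / (B + 1)) * ((N : ℝ) / (N + 1)) ≤ 1 :=
          mul_le_one₀ e3 (by positivity) e2
        nlinarith

end Crest.Agent.R017.E4Yb792
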