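import Crest.Agent.R017.E4Yb3_792

/-!
# Row 17, E4: (Yb), list form (helper792)

* `shf` : the pieces with the modulus `d · M q` and the height shifted
* `Yb_list` : the second moment of the `y`-side (`E4U699.YMo` of `wF`) in the moments
  `RQ Q h (log (2 κ a² nm q₁ nm q₂²))` of the children lists
-/

set_option autoImplicit false
set_option linter.unusedSectionVars false
set_option linter.unusedVariables false

noncomputable section

open Complex
open scoped ComplexConjugate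

namespace Crest.Agent.R017.E4Yb792

open Crest.Agent.R012 Crest.Agent.R012.Eis Crest.Agent.R012.LS2
open Crest.Agent.R012.GaussLoc283
open Crest.Agent.R012.Div277 (tau dvs mem_dvs tau_le_rpow)
open Crest.Agent.R012.PSer47 (IsChar)
open Crest.Agent.R012.Mob705 (exists_common_pp)
open Crest.Agent.R012.Weight600 (osc norm_osc osc_add_right osc_add_left osc_ne_zero)
open Crest.Agent.R017.CM106 Crest.Agent.R017.HP842
open Crest.Agent.R017.FE47 (cx)
open Crest.Agent.R017.XC858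
open Crest.Agent.R017.End699 (HC prin0)
open Crest.Agent.R017.HSep813 (gw)
open Crest.Agent.R017.B770
open Crest.Agent.R017.Prov71
open Crest.Agent.R017.Rough381
open Crest.Agent.R017.E4J792
open Crest.Agent.R017.E4352 (TwC PrI tws)
open Crest.Agent.R017.Sx545 (Sm)
open Crest.Agent.R017.E4Y679 (LM mem_LM card_LM MuP Y1s MuP_tw sy_sq sy_sqr)
open Crest.Agent.R017.E4o502 (wD)
open Crest.Agent.R017.E4D164 (ww pu)
open Crest.Agent.R017.E4v5 (lamD wF DSet)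
open Crest.Agent.R017.E4U699 (DK YMo)

variable {ι : Type} [Fintype ι] [DecidableEq ι]

/-! ### supports -/

lemma pc_supp {h : ℝ → ℝ} {R : ℝ} (hR : ∀ u, cx h u ≠ 0 → |u| ≤ R) {P : Pc} (hY : 0 < P.Y)
    {b : Eis} (hb : pc h P b ≠ 0) : (nm b : ℝ) ≤ P.Y * Real.exp R := by
  classical
  unfold pc at hb
  split_ifs at hb with hp
  · have h1 : gw h P.Y P.t b ≠ 0 := right_ne_zero_of_mul hb
    unfold gw at h1
    have h2 := hR _ (right_ne_zero_of_mul h1)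
    have h3 : (0 : ℝ) < nm b := by exact_mod_cast nm_pos.2 hp.ne_zero
    have h4 : Real.log (nm b) ≤ Real.log P.Y + R := by
      have := (abs_le.1 h2).2
      linarith
    calc (nm b : ℝ) = Real.exp (Real.log (nm b)) := (Real.exp_log h3).symm
      _ ≤ Real.exp (Real.log P.Y + R) := Real.exp_le_exp.2 h4
      _ = P.Y * Real.exp R := by rw [Real.exp_add, Real.exp_log hY]
  · exact absurd rfl hb

lemma al_supp {h : ℝ → ℝ} {R : ℝ} (hR : ∀ u, cx h u ≠ 0 → |u| ≤ R) {s : ι → Pc}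
    (hs : ∀ i, (s i).OK) {L : ℝ} (hL : 1 ≤ L) (hsL : ∀ i, (s i).Y * Real.exp R ≤ L) {N : ℕ}
    (hN : Fintype.card ι ≤ N) {b : Eis} (hb : al h s b ≠ 0) : (nm b : ℝ) ≤ L ^ N := by
  classical
  unfold al cv at hb
  obtain ⟨x, hx, hx0⟩ := Finset.exists_ne_zero_of_sum_ne_zero hb
  rw [mem_Tu] at hx
  have h1 : ∀ i, (nm (x i) : ℝ) ≤ L := fun i => by
    have h2 : pc h (s i) (x i) ≠ 0 := fun h0 => hx0 (Finset.prod_eq_zero (Finset.mem_univ i) h0)
    exact (pc_supp hR (hs i).Y0 h2).trans (hsL i)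
  rw [← hx.2, HP842.nm_prod_cast]
  calc ∏ i, (nm (x i) : ℝ) ≤ ∏ _i : ι, L :=
        Finset.prod_le_prod (fun i _ => Nat.cast_nonneg _) fun i _ => h1 i
    _ = L ^ Fintype.card ι := by rw [Finset.prod_const, Finset.card_univ]
    _ ≤ L ^ N := pow_le_pow_right₀ hL hN

lemma fac_supp {θ : Eis → ℂ} {ξ : ℝ} {b : Eis → ℂ} {P K : Eis} {L : ℝ}
    (hb : ∀ n, b n ≠ 0 → IsPrim n ∧ (nm n : ℝ) ≤ L) (hP : IsPrim P)
    (h : CS (fac θ ξ b P) K ≠ 0) : (nm P : ℝ) ≤ L := by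
  have h1 : ∃ n, fac θ ξ b P n ≠ 0 := by
    by_contra h0
    push Not at h0
    apply h
    unfold CS
    simp [h0]
  obtain ⟨n, hn⟩ := h1
  unfold fac at hn
  obtain ⟨h2, h3⟩ := hb _ (right_ne_zero_of_mul hn)
  have h4 : IsPrim n := h2.of_mul_left hP
  have h5 : (1 : ℝ) ≤ nm n := by exact_mod_cast nm_pos.2 h4.ne_zero
  rw [nm_mul, Nat.cast_mul] at h3
  have h6 : (0 : ℝ) ≤ nm P := Nat.cast_nonneg _
  nlinarith

/-! ### characters -/

lemma pc_congr (h : ℝ → ℝ) {P P' : Pc} (hu : P.u = P'.u) (hY : P.Y = P'.Y) (ht : P.t = P'.t)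
    (hψ : ∀ b, IsPrim b → P.ψ b = P'.ψ b) : pc h P = pc h P' := by
  funext b
  unfold pc
  split_ifs with hb
  · rw [hu, hY, ht, hψ b hb]
  · rfl

lemma prin0_mul' (a b n : Eis) : prin0 (a * b) n = prin0 a n * prin0 b n := by
  unfold prin0
  by_cases ha : IsCoprime n a
  · by_cases hb : IsCoprime n b
    · rw [if_pos (ha.mul_right hb), if_pos ha, if_pos hb, one_mul]
    · rw [if_neg (fun h => hb h.of_mul_right_right), if_neg hb, mul_zero]
  · rw [if_neg (fun h => ha h.of_mul_right_left), if_neg ha, zero_mul]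

/-- the base pieces of the children -/
def shf (m₀ : Eis) (h0 : m₀ ≠ 0) (ξ : ℝ) (p : Pq) : Pq :=
  ⟨p.kd, p.u, p.d * m₀, mul_ne_zero p.d0 h0, p.z, p.t + ξ⟩

lemma forall₂_ofFn' {R : Pq → Pq → Prop} (ps : List Pq) (g : Fin ps.length → Pq)
    (hg : ∀ i, R (g i) (ps.get i)) : List.Forall₂ R (List.ofFn g) ps := by
  rw [List.forall₂_iff_get]
  refine ⟨by simp, fun i h1 h2 => ?_⟩
  have := hg ⟨i, h2⟩
  simpa using this

lemma forall₂_shf {r : ℝ} (m₀ : Eis) (h0 : m₀ ≠ 0) (ξ : ℝ) (ps : List Pq)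
    (g : Fin ps.length → Pq) (hg : ∀ i, Ch r (g i) (shf m₀ h0 ξ (ps.get i))) :
    List.Forall₂ (Ch r) (List.ofFn g) (ps.map (shf m₀ h0 ξ)) := by
  rw [List.forall₂_map_right_iff]
  exact forall₂_ofFn' ps g hg

lemma cst_shf (m₀ : Eis) (h0 : m₀ ≠ 0) (ξ : ℝ) (ps : List Pq) (g : Fin ps.length → Pq) :
    cst (List.ofFn g) (ps.map (shf m₀ h0 ξ)) = ∏ i, (1 + |(g i).t - ((ps.get i).t + ξ)|) := by
  unfold cst
  have : List.zipWith (fun p' p : Pq => 1 + |p'.t - p.t|) (List.ofFn g)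
      (ps.map (shf m₀ h0 ξ)) = List.ofFn (fun i => 1 + |(g i).t - ((ps.get i).t + ξ)|) := by
    apply List.ext_get
    · simp
    · intro n h1 h2
      simp [shf]
  rw [this, List.prod_ofFn]

lemma alL_get (h : ℝ → ℝ) (P : DPar) (ps : List Pq) :
    alL h (ps.map (Pq.pc P)) = al h (fun i : Fin ps.length => (ps.get i).pc P) := by
  have : ps.map (Pq.pc P) = List.ofFn (fun i : Fin ps.length => (ps.get i).pc P) := by
    conv_lhs => rw [← List.ofFn_get ps]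
    rw [List.map_ofFn]
    rfl
  rw [this, ← al_eq]

/-- the character of a child -/
lemma child_pc (h : ℝ → ℝ) {P P' : DPar} {θ : Eis → ℂ} {χ : Eis → ℂ} {m₀ : Eis} (h0 : m₀ ≠ 0)
    (ξ : ℝ) (hθ : ∀ b, θ b = prin0 m₀ b * χ b) (p : Pq)
    (hc : ∀ b, IsPrim b → chK P' p.kd b = chK P p.kd b * χ b) (v : UT) {Y : ℝ} (hY : 0 < Y)
    (t : ℝ) : pc h ((mkc (shf m₀ h0 ξ p) v Y t).pc P') =
      pc h ⟨v, fun b => (p.pc P).ψ b * θ b, Y, t⟩ := by
  rw [mkc_pc P' _ v hY t]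
  refine pc_congr h rfl rfl rfl fun b hb => ?_
  show chK P' p.kd b * prin0 (p.d * m₀) b = chK P p.kd b * prin0 p.d b * θ b
  rw [hc b hb, prin0_mul', hθ]
  ring

lemma RQ_append_ofFn (Q : Eis → Prop) (h : ℝ → ℝ) {Λ : ℝ} (hΛ : 0 < Λ) (P₁ P₂ : DPar)
    {n₁ n₂ : ℕ} (g₁ : Fin n₁ → Pq) (g₂ : Fin n₂ → Pq) (s₁ : Fin n₁ → Pc) (s₂ : Fin n₂ → Pc)
    (h₁ : ∀ i, pc h ((g₁ i).pc P₁) = pc h (s₁ i)) (h₂ : ∀ i, pc h ((g₂ i).pc P₂) = pc h (s₂ i)) :
    RQ Q h (Real.log Λ) ((List.ofFn g₁).map (Pq.pc P₁) ++ (List.ofFn g₂).map (Pq.pc P₂)) =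
      WM2 Q h Λ s₁ s₂ := by
  classical
  unfold RQ WM2
  rw [Real.exp_log hΛ]
  refine Finset.sum_congr ?_ fun k _ => ?_
  · congr
  rw [List.map_append, List.prod_append, List.map_ofFn, List.map_ofFn, List.map_ofFn,
    List.map_ofFn, List.prod_ofFn, List.prod_ofFn]
  congr 1
  · refine Finset.prod_congr rfl fun i _ => ?_
    show ‖CS (pc h ((g₁ i).pc P₁)) k‖ ^ 2 = _
    rw [h₁]
  · refine Finset.prod_congr rfl fun i _ => ?_
    show ‖CS (pc h ((g₂ i).pc P₂)) k‖ ^ 2 = _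
    rw [h₂]

/-! ### lengths -/

lemma sum_bd {n N : ℕ} (hn : n ≤ N) {c : ℝ} (hc : 0 ≤ c) (f : Fin n → ℝ)
    (hf : ∀ i, |f i| ≤ c) : |∑ i, f i| ≤ N * c := by
  refine (Finset.abs_sum_le_sum_abs _ _).trans ?_
  refine (Finset.sum_le_sum fun i _ => hf i).trans ?_
  rw [Finset.sum_const, Finset.card_univ, Fintype.card_fin, nsmul_eq_mul]
  exact mul_le_mul_of_nonneg_right (by exact_mod_cast hn) hc

lemma log_nm_prod {n : ℕ} {x : Fin n → Eis} (hx : ∀ i, IsPrim (x i)) {l : Eis}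
    (h : ∏ i, x i = l) : Real.log (nm l) = ∑ i, Real.log (nm (x i)) := by
  have hxpos : ∀ i, (0 : ℝ) < nm (x i) := fun i => by
    exact_mod_cast nm_pos.2 (hx i).ne_zero
  rw [← h, HP842.nm_prod_cast, Real.log_prod fun i _ => (hxpos i).ne']

end Crest.Agent.R017.E4Yb792
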