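import Crest.Agent.R017.E4Yb4_792

/-!
# Row 17, E4: (Yb), list form (helper792)

* `Yb_list` : the second moment of the `y`-side (`E4U699.YMo` of `wF`) in the moments
  `RQ Q h (log (2 κ a² nm q₁ nm q₂²))` of the children lists
-/

set_option autoImplicit false
set_option linter.unusedSectionVars false
set_option linter.unusedVariables false

noncomputable section

open Complex
open scoped ComplexConjugate

namespace Crest.Agent.R017.E4Yb792

open Crest.Agent.R012 Crest.Agent.R012.Eis Crest.Agent.R012.LS2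
open Crest.Agent.R012.GaussLoc283
open Crest.Agent.R012.Div277 (tau dvs mem_dvs tau_le_rpow)
open Crest.Agent.R012.PSer47 (IsChar)
open Crest.Agent.R012.Mob705 (exists_common_pp)
open Crest.Agent.R012.Weight600 (osc norm_osc osc_add_right osc_add_left osc_ne_zero)
open Crest.Agent.R017.CM106 Crest.Agent.R017.HP842
open Crest.Agent.R017.FE47 (cx PU)
open Crest.Agent.R017.XC858
open Crest.Agent.R017.End699 (HC prin0)
open Crest.Agent.R017.HSep813 (gw)
open Crest.Agent.R017.B770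
open Crest.Agent.R017.Prov71
open Crest.Agent.R017.Rough381
open Crest.Agent.R017.E4J792
open Crest.Agent.R017.E4352 (TwC PrI tws)
open Crest.Agent.R017.Sx545 (Sm)
open Crest.Agent.R017.E4Y679 (LM mem_LM card_LM MuP Y1s MuP_tw sy_sq sy_sqr)
open Crest.Agent.R017.E4o502 (wD)
open Crest.Agent.R017.E4D164 (ww pu)
open Crest.Agent.R017.E4v5 (lamD wF DSet)
open Crest.Agent.R017.E4U699 (DK YMo)

/-- the outer parameters `(s, ν)` with weight `nm (s ν)` -/
def lamO {OO : Finset (Eis × Eis)} (o : {o : Eis × Eis // o ∈ OO}) : ℝ := nm (o.1.1 * o.1.2)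

/-- the `y`-side (`E4D164.wI`) -/
def wO (M : Eis) (b₁ b₂ : Eis → ℂ) (L : Finset (Eis × Eis)) (z : Eis) {OO : Finset (Eis × Eis)}
    (o : {o : Eis × Eis // o ∈ OO}) : Eis → ℂ := ww M b₁ b₂ L z (o.1.1 * o.1.2)

/-- the frequency -/
def KK (q₁ q₂ s ν D d : Eis) : Eis := d * (s * ν) * D ^ 2 * q₁ * q₂ ^ 2

lemma KK_bound {q₁ q₂ s ν D d : Eis} (hs : IsPrim s) (hν : IsPrim ν) (hD : IsPrim D)
    {κ a : ℝ} (ha : 0 < a)
    (hd : (nm d : ℝ) ≤ 2 * (κ / ((nm (s * ν) : ℝ) * (nm D / a) ^ 2))) :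
    (nm (KK q₁ q₂ s ν D d) : ℝ) ≤ 2 * κ * a ^ 2 * (nm q₁ * nm q₂ ^ 2) := by
  have h1 : (0 : ℝ) < nm (s * ν) := by exact_mod_cast nm_pos.2 (hs.mul hν).ne_zero
  have h2 : (0 : ℝ) < nm D := by exact_mod_cast nm_pos.2 hD.ne_zero
  unfold KK
  rw [nm_mul, nm_mul, nm_mul, nm_mul, pow_two D, pow_two q₂, nm_mul D D, nm_mul q₂ q₂]
  push_cast
  have h3 : (nm d : ℝ) * ((nm (s * ν) : ℝ) * (nm D / a) ^ 2) ≤ 2 * κ := by
    have h4 : 0 < (nm (s * ν) : ℝ) * ((nm D : ℝ) / a) ^ 2 := by positivity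
    rw [← mul_div_assoc, le_div_iff₀ h4] at hd
    exact hd
  have h5 : (nm d : ℝ) * nm (s * ν) * (nm D * nm D) ≤ 2 * κ * a ^ 2 := by
    have e : (nm d : ℝ) * nm (s * ν) * (nm D * nm D) =
        ((nm d : ℝ) * ((nm (s * ν) : ℝ) * (nm D / a) ^ 2)) * a ^ 2 := by
      field_simp
    rw [e]
    exact mul_le_mul_of_nonneg_right h3 (by positivity)
  calc (nm d : ℝ) * nm (s * ν) * (nm D * nm D) * nm q₁ * (nm q₂ * nm q₂)
      = ((nm d : ℝ) * nm (s * ν) * (nm D * nm D)) * (nm q₁ * (nm q₂ * nm q₂)) := by ring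
    _ ≤ (2 * κ * a ^ 2) * (nm q₁ * (nm q₂ * nm q₂)) :=
        mul_le_mul_of_nonneg_right h5 (by positivity)
    _ = _ := by ring

lemma log_pow_le' {ε : ℝ} (hε : 0 < ε) (N : ℕ) {B c : ℝ} (hB : 0 ≤ B) (hc : 1 ≤ c) :
    ∃ C : ℝ, 1 ≤ C ∧ ∀ X : ℝ, 1 ≤ X → ∀ n : ℕ, n ≤ N →
      (c * (Real.log (X ^ B) + 1)) ^ n ≤ C * X ^ ε := by
  obtain ⟨C₃, hC₃, hlog⟩ := log_pow_le (ε := ε) hε N (zero_le_one (α := ℝ))
  refine ⟨(c * (B + 1)) ^ N * C₃,
    one_le_mul_of_one_le_of_one_le (one_le_pow₀ (one_le_mul_of_one_le_of_one_le hc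
      (by linarith))) hC₃, ?_⟩
  intro X hX n hn
  have hX0 : 0 < X := by linarith
  have hl : 0 ≤ Real.log X := Real.log_nonneg hX
  have h1 : Real.log (X ^ B) = B * Real.log X := Real.log_rpow hX0 B
  have h2 : 1 ≤ c * (Real.log (X ^ B) + 1) := by
    rw [h1]
    exact one_le_mul_of_one_le_of_one_le hc (by nlinarith)
  have h3 : c * (Real.log (X ^ B) + 1) ≤ (c * (B + 1)) * (Real.log X + 1) := by
    rw [h1, mul_assoc]
    refine mul_le_mul_of_nonneg_left ?_ (by linarith)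
    nlinarith
  calc (c * (Real.log (X ^ B) + 1)) ^ n ≤ (c * (Real.log (X ^ B) + 1)) ^ N :=
        pow_le_pow_right₀ h2 hn
    _ ≤ ((c * (B + 1)) * (Real.log X + 1)) ^ N := pow_le_pow_left₀ (by linarith) h3 N
    _ = (c * (B + 1)) ^ N * (Real.log X + 1) ^ N := by rw [mul_pow]
    _ ≤ (c * (B + 1)) ^ N * (C₃ * X ^ ε) := by
        refine mul_le_mul_of_nonneg_left (hlog X hX) ?_
        exact pow_nonneg (by nlinarith) _
    _ = _ := by ring

set_option maxHeartbeats 2000000 in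
/-- **(Yb), list form** -/
theorem Yb_list {h : ℝ → ℝ} {c : ℝ} (hpu : PU h c) (N : ℕ) {ε : ℝ} (hε : 0 < ε) {B₀ : ℝ}
    (hB₀ : 0 ≤ B₀) (M₁ : ℝ) : ∃ C r : ℝ, 1 ≤ C ∧ 0 ≤ r ∧ ∀ X : ℝ, 3 ≤ X →
    ∀ (P P₁ P₂ : DPar), (∀ k : Kd, IsChar (chK P k)) →
    ∀ ps₁ ps₂ : List Pq, ps₁.length ≤ N → ps₂.length ≤ N →
    (∀ p ∈ ps₁, p.z ≤ B₀ * Real.log X) → (∀ p ∈ ps₂, p.z ≤ B₀ * Real.log X) →
    ∀ (M M' f q z Z q₁ q₂ : Eis) (η : Eis → ℂ) (j : ℤ) (ξ : ℝ) (g : Eis → ℂ) (hMq : M * q ≠ 0),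
    Sm M q → PrI M z → PrI q Z → IsPrim q₁ → IsPrim q₂ → HC M' η →
    (∀ p : Eis, Prime p → p ∣ M' → p ∣ M) →
    (∀ y, IsPrim y → IsCoprime y q →
      g y = sy y q₁ * conj (sy y q₂) * (End699.tw η j y * (nm y : ℂ) ^ (I * ξ))) →
    (∀ p ∈ ps₁, ∀ b, IsPrim b → chK P₁ p.kd b = chK P p.kd b * End699.tw η j b) →
    (∀ p ∈ ps₂, ∀ b, IsPrim b → chK P₂ p.kd b = chK P p.kd b *
      (conj (End699.tw η j b) * conj (End699.tw η j b))) →
    ∀ (h₁ : FS (alL h (ps₁.map (Pq.pc P)))) (h₂ : FS (alL h (ps₂.map (Pq.pc P))))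
      (OO : Finset (Eis × Eis)), (∀ o ∈ OO, IsPrim o.1 ∧ IsPrim o.2) →
    ∀ (κ a : ℝ) (𝒟 : Finset Eis), 0 < κ → 1 ≤ a → a ≤ X ^ B₀ →
      2 * κ * a ^ 2 * (nm q₁ * nm q₂ ^ 2) ≤ X ^ B₀ → DSet M q f a 𝒟 →
    ∀ Q : Eis → Prop, (∀ o ∈ OO, ∀ D ∈ 𝒟, ∀ d, IsPrim d →
      (nm (KK q₁ q₂ o.1 o.2 D d) : ℝ) ≤ 2 * κ * a ^ 2 * (nm q₁ * nm q₂ ^ 2) →
      Q (KK q₁ q₂ o.1 o.2 D d)) →
    ∀ Bd : ℝ, 0 ≤ Bd →
    (∀ l m : Eis, IsPrim l → IsPrim m → l * m ^ 2 = z * Z → ∀ ps₁' ps₂' : List Pq,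
      List.Forall₂ (Ch r) ps₁' (ps₁.map (shf (M * q) hMq ξ)) →
      List.Forall₂ (Ch r) ps₂' (ps₂.map (shf (M * q) hMq (-2 * ξ))) →
      |Ls ps₁ - Ls ps₁' - (Real.log (nm l) + Real.log a)| ≤ r →
      |Ls ps₂ - Ls ps₂' - Real.log (nm m)| ≤ r →
      RQ Q h (Real.log (2 * κ * a ^ 2 * (nm q₁ * nm q₂ ^ 2)))
        (ps₁'.map (Pq.pc P₁) ++ ps₂'.map (Pq.pc P₂)) ≤
        Bd * (cst ps₁' (ps₁.map (shf (M * q) hMq ξ)) *
          cst ps₂' (ps₂.map (shf (M * q) hMq (-2 * ξ)))) ^ M₁) →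
    YMo M (lamD (𝒟 := 𝒟) a (lamO (OO := OO))) q Z g
      (wF (wO M (alL h (ps₁.map (Pq.pc P))) (alL h (ps₂.map (Pq.pc P)))
        (h₁.fin.toFinset ×ˢ h₂.fin.toFinset) z)) κ ≤ C * X ^ ε * Bd := by
  classical
  obtain ⟨R₀, hR₀⟩ := bump_of_cs hpu.cs
  set R := max R₀ 0 with hRd
  have hR0 : 0 ≤ R := le_max_right _ _
  have hR : ∀ u, cx h u ≠ 0 → |u| ≤ R := fun u hu => (hR₀ u hu).trans (le_max_left _ _)
  obtain ⟨C₁, hC₁, H⟩ := Yb_fam hpu hR0 hR M₁
  set B₁ : ℝ := N * (B₀ + R) with hB₁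
  have hN0 : (0 : ℝ) ≤ N := Nat.cast_nonneg _
  have hB₁0 : 0 ≤ B₁ := by positivity
  obtain ⟨C₂, hC₂, hτ⟩ := divs_pow (N + 2) (ε := ε / 22) (by linarith)
    (B := B₀ + 3 * B₁) (by positivity)
  obtain ⟨C₃, hC₃, hlog⟩ := log_pow_le' (ε := ε / 4) (by linarith) N
    (B := B₀ + 1) (by linarith) hC₁
  set r : ℝ := N * (2 * R + 2) + (2 * R + 2) with hr
  have hr0 : 0 ≤ r := by positivity
  refine ⟨C₃ * C₃ * C₂ ^ 11, r, ?_, hr0, ?_⟩
  · exact one_le_mul_of_one_le_of_one_le (one_le_mul_of_one_le_of_one_le hC₃ hC₃)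
      (one_le_pow₀ hC₂)
  intro X hX P P₁ P₂ hP ps₁ ps₂ hlen₁ hlen₂ hz₁ hz₂ M M' f q z Z q₁ q₂ η j ξ g hMq hq hz hZ hq₁
    hq₂ hη hM' hg hc₁ hc₂ h₁ h₂ OO hOO κ a 𝒟 hκ ha haX hΛX hD𝒟 Q hQ Bd hBd hyp
  have hX1 : (1 : ℝ) ≤ X := by linarith
  have hX0 : (0 : ℝ) < X := by linarith
  have hM0 : M ≠ 0 := left_ne_zero_of_mul hMq
  have hzZ : z * Z ≠ 0 := (hz.1.mul hZ.1).ne_zero
  set Λ : ℝ := 2 * κ * a ^ 2 * (nm q₁ * nm q₂ ^ 2) with hΛd
  have hnq₁ : (1 : ℝ) ≤ nm q₁ := by exact_mod_cast nm_pos.2 hq₁.ne_zero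
  have hnq₂ : (1 : ℝ) ≤ nm q₂ := by exact_mod_cast nm_pos.2 hq₂.ne_zero
  have hΛ : 0 < Λ := by positivity
  set s₁ : Fin ps₁.length → Pc := fun i => (ps₁.get i).pc P with hs₁
  set s₂ : Fin ps₂.length → Pc := fun i => (ps₂.get i).pc P with hs₂
  have hok : ∀ p : Pq, (p.pc P).OK := fun p => ⟨(hP _).mul' (HP842.prin0_isChar _), Real.exp_pos _⟩
  have hs₁OK : ∀ i, (s₁ i).OK := fun i => hok _
  have hs₂OK : ∀ i, (s₂ i).OK := fun i => hok _
  have hb₁ : alL h (ps₁.map (Pq.pc P)) = al h s₁ := alL_get h P ps₁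
  have hb₂ : alL h (ps₂.map (Pq.pc P)) = al h s₂ := alL_get h P ps₂
  -- supports
  have hXe : Real.exp 1 ≤ X := Real.exp_one_lt_d9.le.trans (by linarith)
  have hXB : ∀ y : ℝ, 0 ≤ y → Real.exp y ≤ X ^ y := by
    intro y hy
    calc Real.exp y = (Real.exp 1) ^ y := by rw [← Real.exp_mul, one_mul]
      _ ≤ X ^ y := Real.rpow_le_rpow (Real.exp_pos _).le hXe hy
  set L : ℝ := X ^ (B₀ + R) with hLd
  have hL1 : 1 ≤ L := Real.one_le_rpow hX1 (by linarith)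
  have hYL : ∀ p : Pq, p.z ≤ B₀ * Real.log X → (p.pc P).Y * Real.exp R ≤ L := by
    intro p hp
    show Real.exp p.z * Real.exp R ≤ L
    rw [hLd, Real.rpow_add hX0]
    refine mul_le_mul ?_ (hXB R hR0) (Real.exp_pos _).le (by positivity)
    rw [Real.rpow_def_of_pos hX0]
    exact Real.exp_le_exp.2 (by linarith)
  have hLN : L ^ N = X ^ B₁ := by
    rw [hLd, ← Real.rpow_natCast (X ^ (B₀ + R)) N, ← Real.rpow_mul hX0.le, hB₁, mul_comm (N : ℝ)]
  have hsupp₁ : ∀ n, al h s₁ n ≠ 0 → IsPrim n ∧ (nm n : ℝ) ≤ X ^ B₁ := by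
    intro n hn
    refine ⟨(FS_al hR hs₁OK).prim n hn, ?_⟩
    rw [← hLN]
    exact al_supp hR hs₁OK hL1 (fun i => hYL _ (hz₁ _ (List.get_mem _ _)))
      (by rw [Fintype.card_fin]; exact hlen₁) hn
  have hsupp₂ : ∀ n, al h s₂ n ≠ 0 → IsPrim n ∧ (nm n : ℝ) ≤ X ^ B₁ := by
    intro n hn
    refine ⟨(FS_al hR hs₂OK).prim n hn, ?_⟩
    rw [← hLN]
    exact al_supp hR hs₂OK hL1 (fun i => hYL _ (hz₂ _ (List.get_mem _ _)))
      (by rw [Fintype.card_fin]; exact hlen₂) hn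
  -- characters
  have hθ₁ := isChar_th1 (M := M) (q := q) hη j
  have hθ₂ := isChar_th2 (M := M) (q := q) hη j
  -- the index set
  set E : Finset (Σ _ : {o : Eis × Eis // o ∈ OO} × {d : Eis // d ∈ 𝒟}, Eis) :=
    Finset.univ.sigma fun i => DK M (κ / lamD (𝒟 := 𝒟) a (lamO (OO := OO)) i) with hEd
  set Df : (Σ _ : {o : Eis × Eis // o ∈ OO} × {d : Eis // d ∈ 𝒟}, Eis) → Eis :=
    fun e => e.1.2.1 with hDf
  set Kf : (Σ _ : {o : Eis × Eis // o ∈ OO} × {d : Eis // d ∈ 𝒟}, Eis) → Eis :=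
    fun e => KK q₁ q₂ e.1.1.1.1 e.1.1.1.2 e.1.2.1 e.2 with hKf
  have hEm : ∀ e ∈ E, IsPrim e.2 ∧ (nm e.2 : ℝ) ≤
      2 * (κ / ((nm (e.1.1.1.1 * e.1.1.1.2) : ℝ) * (nm e.1.2.1 / a) ^ 2)) := by
    intro e he
    rw [hEd, Finset.mem_sigma] at he
    have h3 := he.2
    unfold E4U699.DK at h3
    rw [Finset.mem_filter, mem_primBall] at h3
    refine ⟨h3.1.2, ?_⟩
    have h5 : (nm e.2 : ℝ) ≤ ⌊2 * (κ / lamD (𝒟 := 𝒟) a (lamO (OO := OO)) e.1)⌋₊ := by
      exact_mod_cast h3.1.1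
    refine h5.trans (Nat.floor_le ?_)
    have h6 : 0 ≤ lamD (𝒟 := 𝒟) a (lamO (OO := OO)) e.1 := by
      unfold lamD lamO; positivity
    positivity
  have hKne : ∀ e ∈ E, Kf e ≠ 0 := by
    intro e he
    obtain ⟨g1, g2⟩ := hOO _ e.1.1.2
    have g3 := (hD𝒟 _ e.1.2.2).2.1.1
    have g4 := (hEm e he).1
    exact mul_ne_zero (mul_ne_zero (mul_ne_zero (mul_ne_zero g4.ne_zero
      (g1.mul g2).ne_zero) (pow_ne_zero 2 g3.ne_zero)) hq₁.ne_zero) (pow_ne_zero 2 hq₂.ne_zero)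
  have hKle : ∀ e ∈ E, (nm (Kf e) : ℝ) ≤ Λ := by
    intro e he
    obtain ⟨g1, g2⟩ := hOO _ e.1.1.2
    exact KK_bound g1 g2 (hD𝒟 _ e.1.2.2).2.1.1 (by linarith) (hEm e he).2
  have hXB₀ : X ^ B₀ ≤ X ^ (B₀ + 3 * B₁) :=
    Real.rpow_le_rpow_of_exponent_le hX1 (by linarith)
  have hXB1 : X ^ B₁ ≤ X ^ (B₀ + 3 * B₁) :=
    Real.rpow_le_rpow_of_exponent_le hX1 (by linarith)
  have hE : ∀ e ∈ E, IsPrim (Df e) ∧ Df e ∣ Kf e ∧ Kf e ∈ bl Λ ∧ Q (Kf e) ∧
      (nm (Df e) : ℝ) ≤ X ^ (B₀ + 1) ∧ th1 M q η j (Df e) ≠ 0 := by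
    intro e he
    obtain ⟨g1, g2⟩ := hOO _ e.1.1.2
    obtain ⟨d1, d2, d3, d4, d5, d6⟩ := hD𝒟 _ e.1.2.2
    refine ⟨d2.1, ?_, ?_, ?_, ?_, ?_⟩
    · show e.1.2.1 ∣ KK q₁ q₂ e.1.1.1.1 e.1.1.1.2 e.1.2.1 e.2
      exact ⟨e.2 * (e.1.1.1.1 * e.1.1.1.2) * e.1.2.1 * q₁ * q₂ ^ 2, by unfold KK; ring⟩
    · rw [mem_bl hΛ.le]
      exact ⟨hKne e he, hKle e he⟩
    · exact hQ _ e.1.1.2 _ e.1.2.2 _ (hEm e he).1 (hKle e he)
    · show (nm e.1.2.1 : ℝ) ≤ _
      rw [Real.rpow_add hX0, Real.rpow_one]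
      have : (0 : ℝ) ≤ X ^ B₀ := by positivity
      nlinarith
    · show th1 M q η j e.1.2.1 ≠ 0
      unfold th1
      have c1 : IsCoprime e.1.2.1 (M * q) := d2.2.mul_right d3
      have c2 : IsCoprime e.1.2.1 M' := by
        by_contra h0
        obtain ⟨p, hp, hp1, hp2⟩ := exists_common_pp d2.1 h0
        exact hp.prime.not_isUnit (d2.2.isUnit_of_dvd' hp1 (hM' p hp.prime hp2))
      have c3 : prin0 (M * q) e.1.2.1 = 1 := by unfold prin0; rw [if_pos c1]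
      rw [c3, one_mul]
      unfold End699.tw
      refine mul_ne_zero (hη.ne_zero d2.1 c2) ?_
      intro h0
      have := MSgen49.norm_ang_le j e.1.2.1 d2.1.ne_zero
      rw [h0, norm_zero] at this
      exact zero_ne_one this
  -- the pairs
  set LM' := (LM (z * Z)).filter fun x => (nm x.1 : ℝ) ≤ X ^ B₁ ∧ (nm x.2 : ℝ) ≤ X ^ B₁
    with hLM'
  have hMqz : ∀ p : Eis, Prime p → p ∣ z * Z → p ∣ M * q := by
    intro p hp hd
    rcases hp.dvd_or_dvd hd with h | h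
    · exact (hz.2 p hp h).mul_right _
    · exact (hZ.2 p hp h).mul_left _
  have hcop : ∀ x n : Eis, IsPrim x → x ∣ z * Z → IsPrim n → IsCoprime n (M * q) →
      IsCoprime x n := by
    intro x n hx hxd hn hc
    by_contra h0
    obtain ⟨p, hp, hp1, hp2⟩ := exists_common_pp hx h0
    exact hp.prime.not_isUnit (hc.isUnit_of_dvd' hp2 (hMqz p hp.prime (hp1.trans hxd)))
  have hLMp : ∀ p ∈ LM', IsPrim p.1 ∧ IsPrim p.2 ∧
      (∀ n, IsPrim n → th1 M q η j n ≠ 0 → IsCoprime p.1 n) ∧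
      ∀ n, IsPrim n → th2 M q η j n ≠ 0 → IsCoprime p.2 n := by
    intro p hp
    rw [hLM', Finset.mem_filter] at hp
    obtain ⟨x1, x2, x3⟩ := (mem_LM hzZ).mp hp.1
    refine ⟨x1, x2, fun n hn hθ => ?_, fun n hn hθ => ?_⟩
    · exact hcop _ _ x1 (x3 ▸ dvd_mul_right _ _) hn (prin0_ne (left_ne_zero_of_mul hθ))
    · refine hcop _ _ x2 (x3 ▸ ?_) hn (prin0_ne (left_ne_zero_of_mul hθ))
      exact (dvd_pow_self _ two_ne_zero).mul_left _
  -- the divisor bound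
  set T : ℝ := C₂ * X ^ (ε / 22) with hTd
  have hT0 : 0 ≤ T := by positivity
  have hbl : ∀ j' ∈ bl Λ, ∀ n ≤ N + 2, (tau j' : ℝ) ^ n ≤ T := by
    intro j' hj' n hn
    have h3 := (mem_bl hΛ.le).1 hj'
    exact hτ X hX1 j' h3.1 ((h3.2.trans hΛX).trans hXB₀) n hn
  have hLMb : ∀ p ∈ LM', (nm p.1 : ℝ) ≤ X ^ B₁ ∧ (nm p.2 : ℝ) ≤ X ^ B₁ := fun p hp => by
    rw [hLM', Finset.mem_filter] at hp
    exact hp.2
  have hLMcard : (LM'.card : ℝ) ≤ T := by
    by_cases h0 : LM'.Nonempty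
    · obtain ⟨p, hp⟩ := h0
      obtain ⟨b1, b2⟩ := hLMb p hp
      have hp' := hp
      rw [hLM', Finset.mem_filter] at hp'
      obtain ⟨x1, x2, x3⟩ := (mem_LM hzZ).mp hp'.1
      have h3 : (nm (z * Z) : ℝ) ≤ X ^ (B₀ + 3 * B₁) := by
        rw [← x3, nm_mul, pow_two, nm_mul]
        push_cast
        have e1 : X ^ (B₀ + 3 * B₁) = X ^ B₀ * (X ^ B₁ * (X ^ B₁ * X ^ B₁)) := by
          rw [← Real.rpow_add hX0, ← Real.rpow_add hX0, ← Real.rpow_add hX0]
          congr 1; ring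
        rw [e1]
        have h4 : (1 : ℝ) ≤ X ^ B₀ := Real.one_le_rpow hX1 hB₀
        have h5 : (nm p.1 : ℝ) * (nm p.2 * nm p.2) ≤ X ^ B₁ * (X ^ B₁ * X ^ B₁) := by
          gcongr
        have h6 : (0 : ℝ) ≤ X ^ B₁ * (X ^ B₁ * X ^ B₁) := by positivity
        nlinarith
      have h4 := hτ X hX1 (z * Z) hzZ h3 1 (by omega)
      rw [pow_one] at h4
      refine le_trans ?_ h4
      have h5 : LM'.card ≤ tau (z * Z) :=
        (Finset.card_filter_le _ _).trans (card_LM hzZ)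
      exact_mod_cast h5
    · rw [Finset.not_nonempty_iff_eq_empty] at h0
      rw [h0, Finset.card_empty, Nat.cast_zero]
      exact hT0
  have hTu : ∀ p ∈ LM', ((Tu (Fin ps₁.length) p.1).card : ℝ) ≤ T ∧
      ((Tu (Fin ps₂.length) p.2).card : ℝ) ≤ T := by
    intro p hp
    obtain ⟨b1, b2⟩ := hLMb p hp
    obtain ⟨x1, x2, -, -⟩ := hLMp p hp
    constructor
    · have h3 : ((Tu (Fin ps₁.length) p.1).card : ℝ) ≤ (tau p.1 : ℝ) ^ ps₁.length := by
        have := card_Tu_le (ι := Fin ps₁.length) p.1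
        rw [Fintype.card_fin] at this
        exact_mod_cast this
      exact h3.trans (hτ X hX1 p.1 x1.ne_zero (b1.trans hXB1) _ (by omega))
    · have h3 : ((Tu (Fin ps₂.length) p.2).card : ℝ) ≤ (tau p.2 : ℝ) ^ ps₂.length := by
        have := card_Tu_le (ι := Fin ps₂.length) p.2
        rw [Fintype.card_fin] at this
        exact_mod_cast this
      exact h3.trans (hτ X hX1 p.2 x2.ne_zero (b2.trans hXB1) _ (by omega))
  have hmult : ∀ p : Eis × Eis, ((E.filter (fun e => (Df e, Kf e) = p)).card : ℝ) ≤ T := by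
    intro p
    by_cases h0 : (E.filter (fun e => (Df e, Kf e) = p)).Nonempty
    swap
    · rw [Finset.not_nonempty_iff_eq_empty] at h0
      rw [h0, Finset.card_empty, Nat.cast_zero]
      exact hT0
    obtain ⟨e₀, he₀⟩ := h0
    rw [Finset.mem_filter] at he₀
    have hK0 : p.2 = Kf e₀ := by rw [← he₀.2]
    have hp2 : p.2 ∈ bl Λ := by rw [hK0]; exact (hE e₀ he₀.1).2.2.1
    have h3 := hbl p.2 hp2 2 (by omega)
    refine le_trans ?_ h3
    have h4 : (E.filter (fun e => (Df e, Kf e) = p)).card ≤ (dvs p.2 ×ˢ dvs p.2).card := by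
      refine Finset.card_le_card_of_injOn (fun e => (e.1.1.1.1, e.1.1.1.2)) ?_ ?_
      · intro e he
        have he' := Finset.mem_filter.1 (Finset.mem_coe.1 he)
        have hK : p.2 = Kf e := by rw [← he'.2]
        obtain ⟨g1, g2⟩ := hOO _ e.1.1.2
        have hKn := hKne e he'.1
        rw [Finset.mem_coe, Finset.mem_product, hK, mem_dvs hKn, mem_dvs hKn]
        refine ⟨⟨g1, ?_⟩, ⟨g2, ?_⟩⟩
        · exact ⟨e.2 * e.1.1.1.2 * e.1.2.1 ^ 2 * q₁ * q₂ ^ 2, by rw [hKf]; unfold KK; ring⟩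
        · exact ⟨e.2 * e.1.1.1.1 * e.1.2.1 ^ 2 * q₁ * q₂ ^ 2, by rw [hKf]; unfold KK; ring⟩
      · intro e he e' he' hee
        have he1 := Finset.mem_filter.1 (Finset.mem_coe.1 he)
        have he2 := Finset.mem_filter.1 (Finset.mem_coe.1 he')
        obtain ⟨⟨⟨o, ho⟩, ⟨D, hD⟩⟩, d⟩ := e
        obtain ⟨⟨⟨o', ho'⟩, ⟨D', hD'⟩⟩, d'⟩ := e'
        obtain ⟨s, ν⟩ := o
        obtain ⟨s', ν'⟩ := o'
        have hpe : (D, KK q₁ q₂ s ν D d) = (D', KK q₁ q₂ s' ν' D' d') := he1.2.trans he2.2.symm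
        rw [Prod.ext_iff] at hpe
        obtain ⟨hDD, hKK⟩ := hpe
        simp only at hDD hKK
        have hee' : (s, ν) = (s', ν') := hee
        obtain ⟨rfl, rfl⟩ := Prod.ext_iff.1 hee'
        subst hDD
        simp only at hKK
        have hd : d = d' := by
          unfold KK at hKK
          obtain ⟨g1, g2⟩ := hOO _ ho
          have g3 := (hD𝒟 _ hD).2.1.1
          have hne : (s * ν) * D ^ 2 * q₁ * q₂ ^ 2 ≠ 0 :=
            mul_ne_zero (mul_ne_zero (mul_ne_zero (g1.mul g2).ne_zero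
              (pow_ne_zero 2 g3.ne_zero)) hq₁.ne_zero) (pow_ne_zero 2 hq₂.ne_zero)
          apply mul_right_cancel₀ hne
          calc d * (s * ν * D ^ 2 * q₁ * q₂ ^ 2) = d * (s * ν) * D ^ 2 * q₁ * q₂ ^ 2 := by ring
            _ = d' * (s * ν) * D ^ 2 * q₁ * q₂ ^ 2 := hKK
            _ = _ := by ring
        subst hd
        rfl
    rw [Finset.card_product, ← pow_two] at h4
    exact_mod_cast h4
  -- the estimate
  have key := H (Fin ps₁.length) (Fin ps₂.length) s₁ s₂ hs₁OK hs₂OK (th1 M q η j)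
    (th2 M q η j) hθ₁ hθ₂ ξ (-2 * ξ) Q Λ (X ^ (B₀ + 1)) hΛ.le
    (Real.one_le_rpow hX1 (by linarith)) _ E Df Kf hE LM' hLMp Bd T hBd hT0
    (by
      intro j' hj'
      rw [Fintype.card_fin]
      exact hbl j' hj' _ (by omega))
    (by
      intro j' hj'
      rw [Fintype.card_fin]
      exact hbl j' hj' _ (by omega))
    hLMcard hTu
    (by
      intro p
      refine le_trans (le_of_eq ?_) (hmult p)
      congr)
    (by
      intro p hp x hx x' hx' b n Y t hy hY b' Y' t' hY'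
      obtain ⟨y, hy, e, he, hye⟩ := hy
      rw [mem_Tu] at hx hx'
      have hp' := hp
      rw [hLM', Finset.mem_filter] at hp'
      obtain ⟨x1, x2, x3⟩ := (mem_LM hzZ).mp hp'.1
      obtain ⟨d1, d2, d3, d4, d5, d6⟩ := hD𝒟 _ e.1.2.2
      have hYp : ∀ i, 0 < Y i := fun i => by have := (hY i).1; linarith
      have hYp' : ∀ i, 0 < Y' i := fun i => by have := (hY' i).1; linarith
      set v₁ := vk (tS (th1 M q η j) ξ s₁ x) b with hv₁
      set v₂ := vk (tS (th2 M q η j) (-2 * ξ) s₂ x') b' with hv₂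
      set g₁ : Fin ps₁.length → Pq := fun i => mkc (shf (M * q) hMq ξ (ps₁.get i)) (v₁ i) (Y i) (t i)
        with hg₁
      set g₂ : Fin ps₂.length → Pq :=
        fun i => mkc (shf (M * q) hMq (-2 * ξ) (ps₂.get i)) (v₂ i) (Y' i) (t' i) with hg₂
      -- lengths
      have hlx : ∀ i, 0 ≤ Real.log (nm (x i)) := fun i =>
        Real.log_nonneg (by exact_mod_cast nm_pos.2 (hx.1 i).ne_zero)
      have hlx' : ∀ i, 0 ≤ Real.log (nm (x' i)) := fun i =>
        Real.log_nonneg (by exact_mod_cast nm_pos.2 (hx'.1 i).ne_zero)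
      have hnx : ∀ i, (nm (x i) : ℝ) ≠ 0 := fun i => by
        exact_mod_cast (nm_pos.2 (hx.1 i).ne_zero).ne'
      have hnx' : ∀ i, (nm (x' i) : ℝ) ≠ 0 := fun i => by
        exact_mod_cast (nm_pos.2 (hx'.1 i).ne_zero).ne'
      have hlogY : ∀ i, |Real.log (Y i) - ((ps₁.get i).z - Real.log (nm (x i)) - n i)| ≤
          2 * R + 1 := by
        intro i
        have h3 := (hY i).2
        have e1 : Real.log ((s₁ i).Y / nm (x i)) = (ps₁.get i).z - Real.log (nm (x i)) := by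
          rw [Real.log_div (hs₁OK i).Y0.ne' (hnx i)]
          congr 1
          exact Real.log_exp _
        rw [e1] at h3
        exact h3
      have hlogY' : ∀ i, |Real.log (Y' i) - ((ps₂.get i).z - Real.log (nm (x' i)))| ≤
          2 * R + 1 := by
        intro i
        have h3 := (hY' i).2
        have e1 : Real.log ((s₂ i).Y / nm (x' i)) = (ps₂.get i).z - Real.log (nm (x' i)) := by
          rw [Real.log_div (hs₂OK i).Y0.ne' (hnx' i)]
          congr 1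
          exact Real.log_exp _
        rw [e1] at h3
        exact h3
      have hch₁ : List.Forall₂ (Ch r) (List.ofFn g₁) (ps₁.map (shf (M * q) hMq ξ)) := by
        refine forall₂_shf (M * q) hMq ξ ps₁ g₁ fun i => ⟨rfl, rfl, ?_, ?_, ?_⟩
        · intro hu
          have hu' : (ps₁.get i).u = .one := hu
          show vk (tS (th1 M q η j) ξ s₁ x) b i = .one
          have e1 : (tS (th1 M q η j) ξ s₁ x i).u = .one := by
            show UT.sub (ps₁.get i).u (x i) = .one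
            unfold UT.sub
            rw [hu']
            simp
          unfold vk
          rw [e1]
          simp
        · exact Real.log_nonneg (hY i).1
        · show Real.log (Y i) ≤ (ps₁.get i).z + r
          have h3 := (abs_le.1 (hlogY i)).2
          have h4 := hlx i
          have h5 : (0 : ℝ) ≤ n i := Nat.cast_nonneg _
          have h6 : 0 ≤ (N : ℝ) * (2 * R + 2) := by positivity
          rw [hr]
          linarith
      have hch₂ : List.Forall₂ (Ch r) (List.ofFn g₂) (ps₂.map (shf (M * q) hMq (-2 * ξ))) := by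
        refine forall₂_shf (M * q) hMq (-2 * ξ) ps₂ g₂ fun i => ⟨rfl, rfl, ?_, ?_, ?_⟩
        · intro hu
          have hu' : (ps₂.get i).u = .one := hu
          show vk (tS (th2 M q η j) (-2 * ξ) s₂ x') b' i = .one
          have e1 : (tS (th2 M q η j) (-2 * ξ) s₂ x' i).u = .one := by
            show UT.sub (ps₂.get i).u (x' i) = .one
            unfold UT.sub
            rw [hu']
            simp
          unfold vk
          rw [e1]
          simp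
        · exact Real.log_nonneg (hY' i).1
        · show Real.log (Y' i) ≤ (ps₂.get i).z + r
          have h3 := (abs_le.1 (hlogY' i)).2
          have h4 := hlx' i
          have h6 : 0 ≤ (N : ℝ) * (2 * R + 2) := by positivity
          rw [hr]
          linarith
      have hls₁ : |Ls ps₁ - Ls (List.ofFn g₁) - (Real.log (nm p.1) + Real.log a)| ≤ r := by
        rw [Ls_ofFn, Ls_get ps₁, log_nm_prod hx.1 hx.2]
        have h3 := sum_bd hlen₁ (c := 2 * R + 1) (by linarith)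
          (fun i => Real.log (Y i) - ((ps₁.get i).z - Real.log (nm (x i)) - n i)) hlogY
        have h4 : Real.log (nm e.1.2.1) = ∑ i, Real.log (nm (y i)) :=
          log_nm_prod (fun i => (hy i).1) hye
        have h5 : ∑ i, (n i : ℝ) ≤ Real.log (nm e.1.2.1) := by
          rw [h4]; exact Finset.sum_le_sum fun i _ => (hy i).2.1
        have h6 : Real.log (nm e.1.2.1) ≤ ∑ i, (n i : ℝ) + ps₁.length := by
          rw [h4]
          calc ∑ i, Real.log (nm (y i)) ≤ ∑ i, ((n i : ℝ) + 1) :=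
                Finset.sum_le_sum fun i _ => (hy i).2.2.le
            _ = _ := by
                rw [Finset.sum_add_distrib, Finset.sum_const, Finset.card_univ,
                  Fintype.card_fin, nsmul_eq_mul, mul_one]
        have h7 : Real.log a ≤ Real.log (nm e.1.2.1) := Real.log_le_log (by linarith) d5
        have h8 : Real.log (nm e.1.2.1) ≤ 1 + Real.log a := by
          have h9 : Real.log (nm e.1.2.1) ≤ Real.log (2 * a) :=
            Real.log_le_log (by linarith) d6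
          rw [Real.log_mul two_ne_zero (by linarith)] at h9
          have := Real.log_two_lt_d9
          linarith
        have h10 : (ps₁.length : ℝ) ≤ N := by exact_mod_cast hlen₁
        have e2 : ∑ i, (Real.log (Y i) - ((ps₁.get i).z - Real.log (nm (x i)) - n i)) =
            ∑ i, Real.log (Y i) - (∑ i, (ps₁.get i).z) + ∑ i, Real.log (nm (x i)) +
              ∑ i, (n i : ℝ) := by
          rw [← Finset.sum_sub_distrib, ← Finset.sum_add_distrib, ← Finset.sum_add_distrib]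
          exact Finset.sum_congr rfl fun i _ => by ring
        rw [e2] at h3
        have e3 : ∑ i, (g₁ i).z = ∑ i, Real.log (Y i) := rfl
        rw [e3, hr]
        rw [abs_le] at h3 ⊢
        have e4 : (N : ℝ) * (2 * R + 2) = N * (2 * R + 1) + N := by ring
        rw [e4]
        constructor <;> linarith [h3.1, h3.2]
      have hls₂ : |Ls ps₂ - Ls (List.ofFn g₂) - Real.log (nm p.2)| ≤ r := by
        rw [Ls_ofFn, Ls_get ps₂, log_nm_prod hx'.1 hx'.2]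
        have h3 := sum_bd hlen₂ (c := 2 * R + 1) (by linarith)
          (fun i => Real.log (Y' i) - ((ps₂.get i).z - Real.log (nm (x' i)))) hlogY'
        have e2 : ∑ i, (Real.log (Y' i) - ((ps₂.get i).z - Real.log (nm (x' i)))) =
            ∑ i, Real.log (Y' i) - (∑ i, (ps₂.get i).z) + ∑ i, Real.log (nm (x' i)) := by
          rw [← Finset.sum_sub_distrib, ← Finset.sum_add_distrib]
          exact Finset.sum_congr rfl fun i _ => by ring
        rw [e2] at h3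
        have e3 : ∑ i, (g₂ i).z = ∑ i, Real.log (Y' i) := rfl
        rw [e3, hr]
        rw [abs_le] at h3 ⊢
        have e4 : (N : ℝ) * (2 * R + 2) = N * (2 * R + 1) + N := by ring
        rw [e4]
        constructor <;> linarith [h3.1, h3.2]
      have h3 := hyp p.1 p.2 x1 x2 x3 (List.ofFn g₁) (List.ofFn g₂) hch₁ hch₂ hls₁ hls₂
      rw [RQ_append_ofFn Q h hΛ P₁ P₂ g₁ g₂ (cellP (tS (th1 M q η j) ξ s₁ x) v₁ Y t)
        (cellP (tS (th2 M q η j) (-2 * ξ) s₂ x') v₂ Y' t')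
        (fun i => child_pc h hMq ξ (fun b => rfl) (ps₁.get i)
          (hc₁ _ (List.get_mem _ _)) (v₁ i) (hYp i) (t i))
        (fun i => child_pc h hMq (-2 * ξ) (fun b => rfl) (ps₂.get i)
          (hc₂ _ (List.get_mem _ _)) (v₂ i) (hYp' i) (t' i))] at h3
      refine h3.trans (le_of_eq ?_)
      rw [cst_shf, cst_shf]
      rw [Real.mul_rpow (Finset.prod_nonneg fun i _ => by positivity)
        (Finset.prod_nonneg fun i _ => by positivity),
        Real.finsetProd_rpow _ _ fun i _ => by positivity,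
        Real.finsetProd_rpow _ _ fun i _ => by positivity]
      rfl)
  -- the left side
  have hleft : YMo M (lamD (𝒟 := 𝒟) a (lamO (OO := OO))) q Z g
      (wF (wO M (alL h (ps₁.map (Pq.pc P))) (alL h (ps₂.map (Pq.pc P)))
        (h₁.fin.toFinset ×ˢ h₂.fin.toFinset) z)) κ ≤
      ∑ e ∈ E, (∑ p ∈ LM', ‖CS (fac (th1 M q η j) ξ (al h s₁) (Df e * p.1)) (Kf e)‖ *
        ‖CS (fac (th2 M q η j) (-2 * ξ) (al h s₂) p.2) (Kf e)‖) ^ 2 := by
    unfold E4U699.YMo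
    rw [hEd, Finset.sum_sigma]
    refine Finset.sum_le_sum fun i _ => Finset.sum_le_sum fun d hd => ?_
    refine pow_le_pow_left₀ (norm_nonneg _) ?_ 2
    obtain ⟨d1, d2, d3, d4, d5, d6⟩ := hD𝒟 _ i.2.2
    have h3 := Yid_le (ν := i.1.1.1 * i.1.1.2) (d := d) hM0 hq hz hZ d2 d1 d3 hq₁ hq₂ hη hg h₁ h₂
    refine h3.trans (le_of_eq ?_)
    rw [hb₁, hb₂]
    symm
    rw [hLM', Finset.sum_filter]
    refine Finset.sum_congr rfl fun p hp => ?_
    obtain ⟨x1, x2, x3⟩ := (mem_LM hzZ).mp hp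
    split_ifs with hpb
    · rfl
    · by_cases e1 : CS (fac (th1 M q η j) ξ (al h s₁) (i.2.1 * p.1))
          (d * (i.1.1.1 * i.1.1.2) * i.2.1 ^ 2 * q₁ * q₂ ^ 2) = 0
      · rw [e1, norm_zero, zero_mul]
      by_cases e2 : CS (fac (th2 M q η j) (-2 * ξ) (al h s₂) p.2)
          (d * (i.1.1.1 * i.1.1.2) * i.2.1 ^ 2 * q₁ * q₂ ^ 2) = 0
      · rw [e2, norm_zero, mul_zero]
      exfalso
      apply hpb
      constructor
      · have h5 := fac_supp hsupp₁ (d2.1.mul x1) e1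
        rw [nm_mul, Nat.cast_mul] at h5
        have h6 : (1 : ℝ) ≤ nm i.2.1 := by exact_mod_cast nm_pos.2 d2.1.ne_zero
        have h7 : (0 : ℝ) ≤ nm p.1 := Nat.cast_nonneg _
        nlinarith
      · exact fac_supp hsupp₂ x2 e2
  refine (hleft.trans key).trans ?_
  rw [Fintype.card_fin, Fintype.card_fin]
  have k1 := hlog X hX1 ps₁.length hlen₁
  have k2 := hlog X hX1 ps₂.length hlen₂
  have k3 : 0 ≤ T ^ 11 * Bd := by positivity
  have hlb : 0 ≤ C₁ * (Real.log (X ^ (B₀ + 1)) + 1) := by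
    have : 0 ≤ Real.log (X ^ (B₀ + 1)) := Real.log_nonneg (Real.one_le_rpow hX1 (by linarith))
    positivity
  calc (C₁ * (Real.log (X ^ (B₀ + 1)) + 1)) ^ ps₁.length *
        (C₁ * (Real.log (X ^ (B₀ + 1)) + 1)) ^ ps₂.length * (T ^ 11 * Bd)
      ≤ (C₃ * X ^ (ε / 4)) * (C₃ * X ^ (ε / 4)) * (T ^ 11 * Bd) := by
        refine mul_le_mul_of_nonneg_right ?_ k3
        exact mul_le_mul k1 k2 (pow_nonneg hlb _) (by positivity)
    _ = C₃ * C₃ * C₂ ^ 11 * X ^ ε * Bd := by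
        rw [hTd, mul_pow, ← Real.rpow_natCast (X ^ (ε / 22)) 11, ← Real.rpow_mul hX0.le]
        have e1 : X ^ ε = X ^ (ε / 4) * X ^ (ε / 4) * X ^ (ε / 22 * ((11 : ℕ) : ℝ)) := by
          rw [← Real.rpow_add hX0, ← Real.rpow_add hX0]
          congr 1
          push_cast
          ring
        rw [e1]
        ring

end Crest.Agent.R017.E4Yb792
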