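import Crest.Agent.R017.E4J2_792

/-!
# Row 17, E4: (Yb), the joint moments of the `y`-side (helper792)

* `tP`, `tS` : pieces shortened by `x`, twisted by a character and a height
* `CS_fac` : the factor `n ↦ θ n nm n^{iξ} b (D l n)` is a sum over the factorizations of `l`
* `Yb_fam` : family form: `∑_e (∑_{(l,m)} ‖A_l‖ ‖B_m‖)²` in joint moments of the children
-/

set_option autoImplicit false
set_option linter.unusedSectionVars false
set_option linter.unusedVariables false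

noncomputable section

open Complex
open scoped ComplexConjugate

namespace Crest.Agent.R017.E4Yb792

open Crest.Agent.R012 Crest.Agent.R012.Eis Crest.Agent.R012.LS2 Crest.Agent.R012.Gauss880
open Crest.Agent.R012.Div277 (tau dvs mem_dvs tau_le_rpow)
open Crest.Agent.R012.PSer47 (IsChar)
open Crest.Agent.R012.Weight600 (osc norm_osc osc_add_right osc_add_left osc_ne_zero)
open Crest.Agent.R017.CM106 Crest.Agent.R017.HP842 Crest.Agent.R017.FE47
open Crest.Agent.R017.End699 Crest.Agent.R017.XC858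
open Crest.Agent.R017.HSep813 (gw norm_gw_le MF sep_list)
open Crest.Agent.R017.B770
open Crest.Agent.R017.Prov71
open Crest.Agent.R017.Rough381
open Crest.Agent.R017.E4J792

variable {ι : Type} [Fintype ι] [DecidableEq ι]

/-! ### twisted pieces -/

/-- the piece shortened by `x`, twisted by `θ` and the height `ξ` -/
def tP (θ : Eis → ℂ) (ξ : ℝ) (P : Pc) (x : Eis) : Pc :=
  ⟨P.u.sub x, fun b => P.ψ b * θ b, P.Y / nm x, P.t + ξ⟩

/-- families -/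
def tS (θ : Eis → ℂ) (ξ : ℝ) (s : ι → Pc) (x : ι → Eis) : ι → Pc := fun i => tP θ ξ (s i) (x i)

lemma tP_OK {θ : Eis → ℂ} (hθ : IsChar θ) (ξ : ℝ) {P : Pc} (hP : P.OK) {x : Eis}
    (hx : IsPrim x) : (tP θ ξ P x).OK where
  ch := hP.ch.mul' hθ
  Y0 := (sh_OK hP hx).Y0

lemma pc_tP (h : ℝ → ℝ) (θ : Eis → ℂ) (ξ : ℝ) (P : Pc) (x b : Eis) :
    pc h (tP θ ξ P x) b = θ b * osc ξ (Real.log (nm b)) * pc h (sh P x) b := by
  unfold pc
  split_ifs with hb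
  · show uv (P.u.sub x) b * (P.ψ b * θ b) * gw h (P.Y / nm x) (P.t + ξ) b =
      θ b * osc ξ (Real.log (nm b)) * (uv (P.u.sub x) b * P.ψ b * gw h (P.Y / nm x) P.t b)
    unfold gw
    rw [osc_add_left]
    ring
  · rw [mul_zero]

lemma mul_prod {F : Eis → ℂ} (h1 : F 1 = 1)
    (hF : ∀ a b, IsPrim a → IsPrim b → F (a * b) = F a * F b) {y : ι → Eis}
    (hy : ∀ i, IsPrim (y i)) (s : Finset ι) : F (∏ i ∈ s, y i) = ∏ i ∈ s, F (y i) := by
  classical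
  induction s using Finset.induction_on with
  | empty => simpa using h1
  | insert a s ha ih =>
    rw [Finset.prod_insert ha, Finset.prod_insert ha, hF _ _ (hy a) (isPrim_prod hy), ih]

/-- the multiplicative twist -/
def tw (θ : Eis → ℂ) (ξ : ℝ) (n : Eis) : ℂ := θ n * osc ξ (Real.log (nm n))

lemma tw_one {θ : Eis → ℂ} (hθ : IsChar θ) (ξ : ℝ) : tw θ ξ 1 = 1 := by
  unfold tw
  rw [hθ.one, nm_one]
  simp [osc]

lemma tw_mul {θ : Eis → ℂ} (hθ : IsChar θ) (ξ : ℝ) {a b : Eis} (ha : IsPrim a) (hb : IsPrim b) :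
    tw θ ξ (a * b) = tw θ ξ a * tw θ ξ b := by
  unfold tw
  have h1 : (nm a : ℝ) ≠ 0 := by exact_mod_cast (nm_pos.2 ha.ne_zero).ne'
  have h2 : (nm b : ℝ) ≠ 0 := by exact_mod_cast (nm_pos.2 hb.ne_zero).ne'
  rw [hθ.mul a b ha hb, nm_mul, Nat.cast_mul, Real.log_mul h1 h2, osc_add_right]
  ring

lemma norm_tw_le {θ : Eis → ℂ} (hθ : IsChar θ) (ξ : ℝ) {a : Eis} (ha : IsPrim a) :
    ‖tw θ ξ a‖ ≤ 1 := by
  unfold tw
  rw [norm_mul, norm_osc, mul_one]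
  exact hθ.norm_le ha

lemma norm_tw_inv {θ : Eis → ℂ} (hθ : IsChar θ) (ξ : ℝ) {a : Eis} (ha : IsPrim a)
    (h0 : θ a ≠ 0) : ‖(tw θ ξ a)⁻¹‖ = 1 := by
  unfold tw
  rw [norm_inv, norm_mul, norm_osc, mul_one]
  rcases hθ.norm a ha with h | h
  · exact absurd h h0
  · rw [h, inv_one]

lemma tw_ne {θ : Eis → ℂ} (ξ : ℝ) {a : Eis} (h0 : θ a ≠ 0) : tw θ ξ a ≠ 0 :=
  mul_ne_zero h0 (osc_ne_zero _ _)

/-- the twisted family -/
lemma al_tS (h : ℝ → ℝ) {θ : Eis → ℂ} (hθ : IsChar θ) (ξ : ℝ) (s : ι → Pc) (x : ι → Eis)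
    (n : Eis) : al h (tS θ ξ s x) n = tw θ ξ n * al h (shS s x) n := by
  classical
  unfold al cv
  rw [Finset.mul_sum]
  refine Finset.sum_congr rfl fun y hy => ?_
  rw [mem_Tu] at hy
  rw [← hy.2, mul_prod (tw_one hθ ξ) (fun a b ha hb => tw_mul hθ ξ ha hb) hy.1,
    ← Finset.prod_mul_distrib]
  refine Finset.prod_congr rfl fun i _ => ?_
  exact pc_tP h θ ξ (s i) (x i) (y i)

lemma al_shS (h : ℝ → ℝ) (s : ι → Pc) {x : ι → Eis} {n : Eis}
    (hc : IsCoprime (∏ i, x i) n) : al h (shS s x) n = al h (ssub s x) n := by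
  classical
  unfold al cv
  refine Finset.sum_congr rfl fun y hy => ?_
  rw [mem_Tu] at hy
  refine Finset.prod_congr rfl fun i _ => ?_
  have h1 : IsCoprime (x i) (y i) :=
    (hc.of_isCoprime_of_dvd_left (Finset.dvd_prod_of_mem _ (Finset.mem_univ i))
      ).of_isCoprime_of_dvd_right (hy.2 ▸ Finset.dvd_prod_of_mem _ (Finset.mem_univ i))
  exact (pc_sub_rough (s i) h1).symm

/-- the factor -/
def fac (θ : Eis → ℂ) (ξ : ℝ) (b : Eis → ℂ) (a n : Eis) : ℂ := tw θ ξ n * b (a * n)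

theorem fac_eq {h : ℝ → ℝ} {θ : Eis → ℂ} (hθ : IsChar θ) (ξ : ℝ) {s : ι → Pc}
    (hs : ∀ i, (s i).OK) {l D : Eis} (hl : IsPrim l) (hD : IsPrim D) (hθD : θ D ≠ 0)
    (hθl : ∀ n, IsPrim n → θ n ≠ 0 → IsCoprime l n) (n : Eis) :
    fac θ ξ (al h s) (D * l) n =
      ∑ x ∈ Tu ι l, (scS s x * (tw θ ξ D)⁻¹) * CM106.sub (al h (tS θ ξ s x)) D n := by
  classical
  by_cases hn : IsPrim n
  swap
  · have h1 : fac θ ξ (al h s) (D * l) n = 0 := by
      unfold fac al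
      rw [cv_not_prim (fun h0 => hn (h0.of_mul_left (hD.mul hl))), mul_zero]
    rw [h1]
    symm
    refine Finset.sum_eq_zero fun x _ => ?_
    unfold CM106.sub al
    rw [cv_not_prim (fun h0 => hn (h0.of_mul_left hD)), mul_zero]
  have hT : ∀ x, CM106.sub (al h (tS θ ξ s x)) D n =
      tw θ ξ D * (tw θ ξ n * al h (shS s x) (D * n)) := by
    intro x
    show al h (tS θ ξ s x) (D * n) = _
    rw [al_tS h hθ, tw_mul hθ ξ hD hn, mul_assoc]
  by_cases h0 : θ n = 0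
  · have h1 : tw θ ξ n = 0 := by unfold tw; rw [h0, zero_mul]
    unfold fac
    rw [h1, zero_mul]
    symm
    refine Finset.sum_eq_zero fun x _ => ?_
    rw [hT, h1]
    ring
  have hcD : IsCoprime l (D * n) := (hθl D hD hθD).mul_right (hθl n hn h0)
  have e1 : al h s (D * l * n) = ∑ x ∈ Tu ι l, scS s x * al h (ssub s x) (D * n) := by
    have e0 : D * l * n = l * (D * n) := by ring
    rw [e0]
    show cv (fun i => pc h (s i)) (l * (D * n)) = _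
    rw [cv_mul _ hl (hD.mul hn) hcD]
    refine Finset.sum_congr rfl fun x hx => ?_
    rw [mem_Tu] at hx
    rw [cv_sub_pc hs hx.1]
  unfold fac
  rw [e1, Finset.mul_sum]
  refine Finset.sum_congr rfl fun x hx => ?_
  rw [mem_Tu] at hx
  rw [hT, al_shS h s (by rw [hx.2]; exact hcD)]
  have h2 : tw θ ξ D ≠ 0 := tw_ne ξ hθD
  field_simp

lemma FS_al {h : ℝ → ℝ} {R : ℝ} (hR : ∀ u, cx h u ≠ 0 → |u| ≤ R) {s : ι → Pc}
    (hs : ∀ i, (s i).OK) : FS (al h s) := by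
  unfold al
  exact FS_cv fun i => FS_pc hR (hs i)

theorem CS_fac {h : ℝ → ℝ} {R : ℝ} (hR : ∀ u, cx h u ≠ 0 → |u| ≤ R) {θ : Eis → ℂ}
    (hθ : IsChar θ) (ξ : ℝ) {s : ι → Pc}
    (hs : ∀ i, (s i).OK) {l D : Eis} (hl : IsPrim l) (hD : IsPrim D) (hθD : θ D ≠ 0)
    (hθl : ∀ n, IsPrim n → θ n ≠ 0 → IsCoprime l n) (K : Eis) :
    ‖CS (fac θ ξ (al h s) (D * l)) K‖ ^ 2 ≤
      (Tu ι l).card * ∑ x ∈ Tu ι l, ‖CS (CM106.sub (al h (tS θ ξ s x)) D) K‖ ^ 2 := by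
  classical
  have e1 : CS (fac θ ξ (al h s) (D * l)) K =
      ∑ x ∈ Tu ι l, (scS s x * (tw θ ξ D)⁻¹) * CS (CM106.sub (al h (tS θ ξ s x)) D) K := by
    unfold CS
    simp_rw [fac_eq hθ ξ hs hl hD hθD hθl, Finset.sum_mul, mul_assoc]
    rw [Summable.tsum_finsetSum]
    · refine Finset.sum_congr rfl fun x _ => ?_
      rw [tsum_mul_left, tsum_mul_left]
    · intro x hx
      rw [mem_Tu] at hx
      have h1 : FS (CM106.sub (al h (tS θ ξ s x)) D) :=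
        (FS_al hR fun i => tP_OK hθ ξ (hs i) (hx.1 i)).sub hD
      exact ((h1.summable fun n => sy K n).mul_left _).mul_left _
  rw [e1]
  have h2 : ‖∑ x ∈ Tu ι l, (scS s x * (tw θ ξ D)⁻¹) *
      CS (CM106.sub (al h (tS θ ξ s x)) D) K‖ ≤
      ∑ x ∈ Tu ι l, ‖CS (CM106.sub (al h (tS θ ξ s x)) D) K‖ := by
    refine (norm_sum_le _ _).trans (Finset.sum_le_sum fun x hx => ?_)
    rw [mem_Tu] at hx
    rw [norm_mul, norm_mul, norm_tw_inv hθ ξ hD hθD, mul_one]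
    exact mul_le_of_le_one_left (norm_nonneg _) (norm_scS_le hs hx.1)
  refine (pow_le_pow_left₀ (norm_nonneg _) h2 2).trans ?_
  exact sq_sum_le_card_mul_sum_sq

theorem CS_fac_one {h : ℝ → ℝ} {R : ℝ} (hR : ∀ u, cx h u ≠ 0 → |u| ≤ R) {θ : Eis → ℂ}
    (hθ : IsChar θ) (ξ : ℝ) {s : ι → Pc}
    (hs : ∀ i, (s i).OK) {l : Eis} (hl : IsPrim l)
    (hθl : ∀ n, IsPrim n → θ n ≠ 0 → IsCoprime l n) (K : Eis) :
    ‖CS (fac θ ξ (al h s) l) K‖ ^ 2 ≤
      (Tu ι l).card * ∑ x ∈ Tu ι l, ‖CS (al h (tS θ ξ s x)) K‖ ^ 2 := by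
  have h1 := CS_fac hR hθ ξ hs hl isPrim_one (by rw [hθ.one]; exact one_ne_zero) hθl K
  rw [one_mul] at h1
  have e : ∀ f : Eis → ℂ, CM106.sub f 1 = f := fun f => by
    funext n; unfold CM106.sub; rw [one_mul]
  simp only [e] at h1
  exact h1

lemma CS_al {h : ℝ → ℝ} {R : ℝ} (hR : ∀ u, cx h u ≠ 0 → |u| ≤ R) {s : ι → Pc}
    (hs : ∀ i, (s i).OK) (K : Eis) : CS (al h s) K = ∏ i, CS (pc h (s i)) K := by
  unfold al
  exact CS_cv (fun i => FS_pc hR (hs i)) K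

end Crest.Agent.R017.E4Yb792
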