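import Crest.Agent.R017.E4Yb2_792

/-!
# Row 17, E4: joint moments of shortened sequences, general index sets (helper792)

* `cell_gen`, `fam_gen` : a sum over a finite set of `(K, x)` of the moments of the pieces shortened
  by `x` (only the multiplicity of `K` is used)
* `CS_facK` : the factor `fac θ ξ (al h s) P` at a frequency `K` which sees only `n` prime to `P`
* `joint_gen` : two factors, arbitrary finite index set `e ↦ (P_e, m_e, K_e)`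
-/

set_option autoImplicit false
set_option linter.unusedSectionVars false
set_option linter.unusedVariables false

noncomputable section

open Complex
open scoped ComplexConjugate

namespace Crest.Agent.R017.E4Yb792

open Crest.Agent.R012 Crest.Agent.R012.Eis Crest.Agent.R012.LS2 Crest.Agent.R012.Gauss880
open Crest.Agent.R012.Div277 (tau dvs mem_dvs tau_le_rpow)
open Crest.Agent.R012.PSer47 (IsChar)
open Crest.Agent.R012.Weight600 (osc norm_osc osc_add_right osc_add_left osc_ne_zero)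
open Crest.Agent.R017.CM106 Crest.Agent.R017.HP842 Crest.Agent.R017.FE47
open Crest.Agent.R017.End699 Crest.Agent.R017.XC858
open Crest.Agent.R017.HSep813 (gw norm_gw_le MF sep_list)
open Crest.Agent.R017.B770
open Crest.Agent.R017.Prov71
open Crest.Agent.R017.Rough381
open Crest.Agent.R017.E4J792

/-- grouping by the frequency -/
lemma merge_gen {α : Type*} {Λ : ℝ} (S : Finset α) (Kf : α → Eis) (hK : ∀ σ ∈ S, Kf σ ∈ bl Λ)
    {T : ℝ} (hT : ∀ K, (open Classical in ((S.filter (fun σ => Kf σ = K)).card : ℝ)) ≤ T)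
    (F : Eis → ℝ) (hF : ∀ k, 0 ≤ F k) :
    ∑ σ ∈ S, F (Kf σ) ≤ T * ∑ k ∈ bl Λ, F k := by
  classical
  rw [← Finset.sum_fiberwise_of_maps_to hK (fun σ => F (Kf σ)), Finset.mul_sum]
  refine Finset.sum_le_sum fun k _ => ?_
  have e1 : ∀ σ ∈ S.filter (fun σ => Kf σ = k), F (Kf σ) = F k := by
    intro σ hσ
    rw [(Finset.mem_filter.1 hσ).2]
  rw [Finset.sum_congr rfl e1, Finset.sum_const, nsmul_eq_mul]
  refine mul_le_mul_of_nonneg_right ?_ (hF k)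
  refine le_trans (le_of_eq ?_) (hT k)
  congr

/-- **one cell** -/
theorem cell_gen {h : ℝ → ℝ} {c : ℝ} (hpu : PU h c) {R : ℝ} (hR0 : 0 ≤ R)
    (hR : ∀ u, cx h u ≠ 0 → |u| ≤ R) (M : ℝ) : ∃ C : ℝ, 0 ≤ C ∧
    ∀ (ι : Type) [Fintype ι] [DecidableEq ι] (s : ι → Pc), (∀ i, (s i).OK) →
    ∀ (w : Eis → ℝ), (∀ k, 0 ≤ w k) → ∀ Λ : ℝ, 0 ≤ Λ →
    ∀ (v : ι → UT) (n : ι → ℕ) (α : Type) (S : Finset α) (Kf : α → Eis) (xf : α → ι → Eis),
    (∀ σ ∈ S, Kf σ ∈ bl Λ ∧ (∀ i, IsPrim (xf σ i)) ∧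
      ∀ i, |Real.log (nm (xf σ i)) - n i| ≤ 1) →
    ∀ B T : ℝ, 0 ≤ B → 0 ≤ T →
    (∀ K, (open Classical in ((S.filter (fun σ => Kf σ = K)).card : ℝ)) ≤ T) →
    (∀ Y t : ι → ℝ, (∀ i, 1 ≤ Y i ∧ |Real.log (Y i) - (Real.log (s i).Y - n i)| ≤ 2 * R + 1) →
      WM h w Λ (cellP s v Y t) ≤ B * ∏ i, (1 + |t i - (s i).t|) ^ M) →
    ∑ σ ∈ S, w (Kf σ) * ∏ i, ‖CS (pc h (cellP s v (fun i => (s i).Y / nm (xf σ i))
      (fun i => (s i).t) i)) (Kf σ)‖ ^ 2 ≤ C ^ Fintype.card ι * (T * B) := by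
  classical
  obtain ⟨C, hC, H⟩ := sep_list hpu hR0 hR (ρ := 1) zero_le_one M
  refine ⟨C, hC, ?_⟩
  intro ι _ _ s hs w hw Λ hΛ0 v n α S Kf xf hS B T hB hT hmult hyp
  obtain ⟨X, hX⟩ : ∃ X : ℕ, ∀ i, (s i).Y * Real.exp (2 * R + 1) * Real.exp R ≤ X := by
    refine ⟨⌈∑ i, (s i).Y * Real.exp (2 * R + 1) * Real.exp R⌉₊, fun i => ?_⟩
    refine le_trans ?_ (Nat.le_ceil _)
    exact Finset.single_le_sum (f := fun i => (s i).Y * Real.exp (2 * R + 1) * Real.exp R)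
      (fun i _ => by have := (hs i).Y0; positivity) (Finset.mem_univ i)
  have h1R : (1 : ℝ) ≤ Real.exp (2 * R + 1) := Real.one_le_exp (by linarith)
  have hTb : ∀ b ∈ Fintype.piFinset (fun _ : ι => primBall X), ∀ i, b i ≠ 0 := by
    intro b hb i
    rw [Fintype.mem_piFinset] at hb
    exact (mem_primBall.1 (hb i)).2.ne_zero
  have hYX : ∀ (Y : ι → ℝ), (∀ i, 0 < Y i ∧
      |Real.log (Y i) - (Real.log (s i).Y - n i)| ≤ 2 * R + 1) →
      ∀ i, Y i * Real.exp R ≤ X := by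
    intro Y hY i
    refine le_trans ?_ (hX i)
    refine mul_le_mul_of_nonneg_right ?_ (Real.exp_pos _).le
    obtain ⟨h1, h2⟩ := hY i
    have h3 := (abs_le.1 h2).2
    have h4 : (0 : ℝ) ≤ n i := Nat.cast_nonneg _
    calc Y i = Real.exp (Real.log (Y i)) := (Real.exp_log h1).symm
      _ ≤ Real.exp (Real.log (s i).Y + (2 * R + 1)) := Real.exp_le_exp.2 (by linarith)
      _ = (s i).Y * Real.exp (2 * R + 1) := by rw [Real.exp_add, Real.exp_log (hs i).Y0]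
  have key := H ι α S (Fintype.piFinset fun _ : ι => primBall X) hTb
    (fun σ => phc w s v (Kf σ)) (fun σ i => (s i).Y / nm (xf σ i))
    (fun i => Real.log (s i).Y - n i) (fun i => (s i).t) (T * B) (mul_nonneg hT hB)
    (by
      intro σ hσ i
      obtain ⟨_, h3, h6⟩ := hS σ hσ
      have h7 : (0 : ℝ) < nm (xf σ i) := by exact_mod_cast nm_pos.2 (h3 i).ne_zero
      show |Real.log ((s i).Y / nm (xf σ i)) - (Real.log (s i).Y - n i)| ≤ 1
      rw [Real.log_div (hs i).Y0.ne' h7.ne']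
      have h8 := h6 i
      have h9 : Real.log (s i).Y - Real.log (nm (xf σ i)) - (Real.log (s i).Y - n i) =
          -(Real.log (nm (xf σ i)) - n i) := by ring
      rw [h9, abs_neg]
      exact h8)
    (by
      intro m τ hm
      have hY : ∀ i, 0 < Real.exp (c * m i) ∧
          |Real.log (Real.exp (c * m i)) - (Real.log (s i).Y - n i)| ≤ 2 * R + 1 := by
        intro i
        refine ⟨Real.exp_pos _, ?_⟩
        rw [Real.log_exp]
        exact hm i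
      set s' : ι → Pc := cellP s v (fun i => Real.exp (c * m i)) (fun i => (s i).t + τ i)
        with hs'
      have e1 : ∀ σ ∈ S, ‖MF h (Fintype.piFinset fun _ : ι => primBall X)
          (phc w s v (Kf σ)) (fun i => Real.exp (c * m i))
          (fun i => (s i).t + τ i)‖ ^ 2 = w (Kf σ) * ∏ i, ‖CS (pc h (s' i)) (Kf σ)‖ ^ 2 := by
        intro σ _
        rw [norm_MF_phc hR hw s v (Kf σ) (fun i => (hY i).1) (hYX _ hY)]
      rw [Finset.sum_congr rfl e1]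
      have hFn : ∀ k, 0 ≤ w k * ∏ i, ‖CS (pc h (s' i)) k‖ ^ 2 := fun k =>
        mul_nonneg (hw k) (Finset.prod_nonneg fun _ _ => by positivity)
      refine (merge_gen S Kf (fun σ hσ => (hS σ hσ).1) hmult
        (fun k => w k * ∏ i, ‖CS (pc h (s' i)) k‖ ^ 2) hFn).trans ?_
      have h8 := hyp (fun i => Real.exp (c * m i)) (fun i => (s i).t + τ i)
        (fun i => ⟨Real.one_le_exp (mul_nonneg hpu.cpos.le (Nat.cast_nonneg _)), (hY i).2⟩)
      have h9 : ∏ i, (1 + |(s i).t + τ i - (s i).t|) ^ M = ∏ i, (1 + |τ i|) ^ M := by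
        refine Finset.prod_congr rfl fun i _ => ?_
        rw [add_sub_cancel_left]
      rw [h9] at h8
      calc T * WM h w Λ s' ≤ T * (B * ∏ i, (1 + |τ i|) ^ M) := mul_le_mul_of_nonneg_left h8 hT
        _ = T * B * ∏ i, (1 + |τ i|) ^ M := by ring)
  refine le_trans (le_of_eq ?_) key
  refine Finset.sum_congr rfl fun σ hσ => ?_
  obtain ⟨_, h3, h6⟩ := hS σ hσ
  rw [norm_MF_phc hR hw s v (Kf σ) ?_ ?_]
  · intro i
    have h7 : (0 : ℝ) < nm (xf σ i) := by exact_mod_cast nm_pos.2 (h3 i).ne_zero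
    exact div_pos (hs i).Y0 h7
  · intro i
    have h7 : (1 : ℝ) ≤ nm (xf σ i) := by exact_mod_cast nm_pos.2 (h3 i).ne_zero
    have hYi := (hs i).Y0
    refine le_trans ?_ (hX i)
    refine mul_le_mul_of_nonneg_right ?_ (Real.exp_pos _).le
    calc (s i).Y / nm (xf σ i) ≤ (s i).Y := div_le_self hYi.le h7
      _ = (s i).Y * 1 := (mul_one _).symm
      _ ≤ _ := mul_le_mul_of_nonneg_left h1R hYi.le

/-- **all cells** -/
theorem fam_gen {h : ℝ → ℝ} {c : ℝ} (hpu : PU h c) {R : ℝ} (hR0 : 0 ≤ R)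
    (hR : ∀ u, cx h u ≠ 0 → |u| ≤ R) (M : ℝ) : ∃ C : ℝ, 1 ≤ C ∧
    ∀ (ι : Type) [Fintype ι] [DecidableEq ι] (s : ι → Pc), (∀ i, (s i).OK) →
    ∀ (w : Eis → ℝ), (∀ k, 0 ≤ w k) → ∀ (Λ X : ℝ), 0 ≤ Λ → 1 ≤ X →
    ∀ (α : Type) (S : Finset α) (Kf : α → Eis) (xf : α → ι → Eis),
    (∀ σ ∈ S, Kf σ ∈ bl Λ ∧ ∀ i, IsPrim (xf σ i) ∧ (nm (xf σ i) : ℝ) ≤ X) →
    ∀ B T : ℝ, 0 ≤ B → 0 ≤ T →
    (∀ K, (open Classical in ((S.filter (fun σ => Kf σ = K)).card : ℝ)) ≤ T) →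
    (∀ (b : ι → Bool) (n : ι → ℕ) (Y t : ι → ℝ),
      (∃ σ ∈ S, ∀ i, (n i : ℝ) ≤ Real.log (nm (xf σ i)) ∧
        Real.log (nm (xf σ i)) < n i + 1) →
      (∀ i, 1 ≤ Y i ∧ |Real.log (Y i) - (Real.log (s i).Y - n i)| ≤ 2 * R + 1) →
      WM h w Λ (cellP s (vk s b) Y t) ≤ B * ∏ i, (1 + |t i - (s i).t|) ^ M) →
    ∑ σ ∈ S, w (Kf σ) * ∏ i, ‖CS (pc h (sh (s i) (xf σ i))) (Kf σ)‖ ^ 2 ≤
      (C * (Real.log X + 1)) ^ Fintype.card ι * (T * B) := by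
  classical
  obtain ⟨C, hC, H⟩ := cell_gen hpu hR0 hR M
  refine ⟨2 * (C + 1), by linarith, ?_⟩
  intro ι _ _ s hs w hw Λ X hΛ hX α S Kf xf hS B T hB hT hmult hyp
  set k := Fintype.card ι with hk
  have hlog0 : 0 ≤ Real.log X := Real.log_nonneg hX
  set N := ⌊Real.log X⌋₊ with hN
  have hNle : (N : ℝ) ≤ Real.log X := Nat.floor_le hlog0
  set Gm : α → ℝ := fun σ => w (Kf σ) * ∏ i, ‖CS (pc h (sh (s i) (xf σ i))) (Kf σ)‖ ^ 2 with hGm
  have hGe : ∀ σ, Gm σ = w (Kf σ) * ∏ i, ‖CS (pc h (cellP s (vk s (key (xf σ)).1)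
      (fun i => (s i).Y / nm (xf σ i)) (fun i => (s i).t) i)) (Kf σ)‖ ^ 2 := by
    intro σ
    rw [hGm, ← shS_eq s (xf σ)]
    rfl
  set Cs : Finset ((ι → Bool) × (ι → ℕ)) :=
    Finset.univ ×ˢ Fintype.piFinset (fun _ : ι => Finset.range (N + 1)) with hCs
  have hcard : (Cs.card : ℝ) ≤ (2 * (Real.log X + 1)) ^ k := by
    rw [hCs, Finset.card_product, Finset.card_univ, Fintype.card_piFinset]
    simp only [Fintype.card_fun, Fintype.card_bool, Finset.card_range, Finset.prod_const,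
      Finset.card_univ]
    push_cast
    rw [← hk, ← mul_pow]
    have : (2 * ((N : ℝ) + 1)) ≤ 2 * (Real.log X + 1) := by linarith
    exact pow_le_pow_left₀ (by positivity) this k
  have hmaps : ∀ σ ∈ S, key (xf σ) ∈ Cs := by
    intro σ hσ
    obtain ⟨_, hx⟩ := hS σ hσ
    rw [hCs, Finset.mem_product, Fintype.mem_piFinset]
    refine ⟨Finset.mem_univ _, fun i => ?_⟩
    rw [Finset.mem_range, Nat.lt_succ_iff]
    show ⌊Real.log (nm (xf σ i))⌋₊ ≤ N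
    refine Nat.floor_le_floor (Real.log_le_log ?_ (hx i).2)
    exact_mod_cast nm_pos.2 (hx i).1.ne_zero
  have hcell : ∀ c ∈ Cs, ∑ σ ∈ S.filter (fun σ => key (xf σ) = c), Gm σ ≤
      (C + 1) ^ k * (T * B) := by
    intro c hc
    rcases (S.filter (fun σ => key (xf σ) = c)).eq_empty_or_nonempty with hemp | hne
    · rw [hemp, Finset.sum_empty]
      have : 0 ≤ C + 1 := by linarith
      positivity
    have e3 : ∑ σ ∈ S.filter (fun σ => key (xf σ) = c), Gm σ =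
        ∑ σ ∈ S.filter (fun σ => key (xf σ) = c), w (Kf σ) *
          ∏ i, ‖CS (pc h (cellP s (vk s c.1) (fun i => (s i).Y / nm (xf σ i))
            (fun i => (s i).t) i)) (Kf σ)‖ ^ 2 := by
      refine Finset.sum_congr rfl fun σ hσ => ?_
      rw [hGe, (Finset.mem_filter.1 hσ).2]
    have hnn : ∀ σ ∈ S.filter (fun σ => key (xf σ) = c), ∀ i, (c.2 i : ℝ) ≤
        Real.log (nm (xf σ i)) ∧ Real.log (nm (xf σ i)) < c.2 i + 1 := by
      intro σ hσ i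
      obtain ⟨hz0, hz3⟩ := Finset.mem_filter.1 hσ
      have h1 : c.2 i = ⌊Real.log (nm (xf σ i))⌋₊ := by rw [← hz3]; rfl
      rw [h1]
      exact log_floor ((hS σ hz0).2 i).1
    rw [e3]
    have h4 : C ^ k * (T * B) ≤ (C + 1) ^ k * (T * B) :=
      mul_le_mul_of_nonneg_right (pow_le_pow_left₀ hC (by linarith) k) (mul_nonneg hT hB)
    refine (H ι s hs w hw Λ hΛ (vk s c.1) c.2 α (S.filter (fun σ => key (xf σ) = c)) Kf xf ?_
      B T hB hT ?_ ?_).trans h4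
    · intro σ hσ
      obtain ⟨hz0, hz3⟩ := Finset.mem_filter.1 hσ
      refine ⟨(hS σ hz0).1, fun i => ((hS σ hz0).2 i).1, fun i => ?_⟩
      have := hnn σ hσ i
      rw [abs_le]
      constructor <;> linarith [this.1, this.2]
    · intro K
      refine le_trans ?_ (hmult K)
      exact_mod_cast Finset.card_le_card (Finset.filter_subset_filter _ (Finset.filter_subset _ _))
    · intro Y t hY
      obtain ⟨σ, hσ⟩ := hne
      exact hyp c.1 c.2 Y t ⟨σ, (Finset.mem_filter.1 hσ).1, hnn σ hσ⟩ hY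
  calc ∑ σ ∈ S, Gm σ = ∑ c ∈ Cs, ∑ σ ∈ S.filter (fun σ => key (xf σ) = c), Gm σ := by
        rw [Finset.sum_fiberwise_of_maps_to hmaps]
    _ ≤ ∑ c ∈ Cs, (C + 1) ^ k * (T * B) := Finset.sum_le_sum hcell
    _ = Cs.card * ((C + 1) ^ k * (T * B)) := by rw [Finset.sum_const, nsmul_eq_mul]
    _ ≤ (2 * (Real.log X + 1)) ^ k * ((C + 1) ^ k * (T * B)) := by
        refine mul_le_mul_of_nonneg_right hcard ?_
        have : 0 ≤ C + 1 := by linarith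
        positivity
    _ = _ := by
        have e5 : (2 * (C + 1) * (Real.log X + 1)) ^ k =
            (2 * (Real.log X + 1)) ^ k * (C + 1) ^ k := by
          rw [← mul_pow]; congr 1; ring
        rw [e5]
        ring

/-! ### the factor -/

section

variable {ι : Type} [Fintype ι] [DecidableEq ι]

/-- the factor at a frequency which sees only the `n` prime to `P` -/
theorem CS_facK {h : ℝ → ℝ} {R : ℝ} (hR : ∀ u, cx h u ≠ 0 → |u| ≤ R) {θ : Eis → ℂ}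
    (hθ : IsChar θ) (ξ : ℝ) {s : ι → Pc} (hs : ∀ i, (s i).OK) {P K : Eis} (hP : IsPrim P)
    (hθP : ∀ n, IsPrim n → θ n ≠ 0 → IsCoprime K n → IsCoprime P n) :
    ‖CS (fac θ ξ (al h s) P) K‖ ^ 2 ≤ (Tu ι P).card *
      ∑ x ∈ Tu ι P, ∏ i, ‖CS (pc h (tP θ ξ (s i) (x i))) K‖ ^ 2 := by
  classical
  have e1 : CS (fac θ ξ (al h s) P) K =
      ∑ x ∈ Tu ι P, scS s x * CS (al h (tS θ ξ s x)) K := by
    have e2 : ∀ n, fac θ ξ (al h s) P n * sy K n =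
        ∑ x ∈ Tu ι P, scS s x * (al h (tS θ ξ s x) n * sy K n) := by
      intro n
      by_cases hn : IsPrim n
      swap
      · have h1 : fac θ ξ (al h s) P n = 0 := by
          unfold fac al
          rw [cv_not_prim (fun h0 => hn (h0.of_mul_left hP)), mul_zero]
        rw [h1, zero_mul]
        symm
        refine Finset.sum_eq_zero fun x _ => ?_
        unfold al
        rw [cv_not_prim hn, zero_mul, mul_zero]
      by_cases hK : IsCoprime K n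
      swap
      · rw [(syG.eq_zero K n hn).2 hK, mul_zero]
        symm
        refine Finset.sum_eq_zero fun x _ => ?_
        ring
      by_cases h0 : θ n = 0
      · have h1 : tw θ ξ n = 0 := by unfold tw; rw [h0, zero_mul]
        unfold fac
        rw [h1, zero_mul, zero_mul]
        symm
        refine Finset.sum_eq_zero fun x _ => ?_
        rw [al_tS h hθ, h1]
        ring
      have hc := hθP n hn h0 hK
      have e3 : al h s (P * n) = ∑ x ∈ Tu ι P, scS s x * al h (ssub s x) n := by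
        show cv (fun i => pc h (s i)) (P * n) = _
        rw [cv_mul _ hP hn hc]
        refine Finset.sum_congr rfl fun x hx => ?_
        rw [mem_Tu] at hx
        rw [cv_sub_pc hs hx.1]
      unfold fac
      rw [e3, Finset.mul_sum, Finset.sum_mul]
      refine Finset.sum_congr rfl fun x hx => ?_
      rw [mem_Tu] at hx
      rw [al_tS h hθ, al_shS h s (by rw [hx.2]; exact hc)]
      ring
    unfold CS
    simp_rw [e2]
    rw [Summable.tsum_finsetSum]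
    · refine Finset.sum_congr rfl fun x _ => ?_
      rw [tsum_mul_left]
    · intro x hx
      rw [mem_Tu] at hx
      have h1 : FS (al h (tS θ ξ s x)) := FS_al hR fun i => tP_OK hθ ξ (hs i) (hx.1 i)
      exact (h1.summable fun n => sy K n).mul_left _
  rw [e1]
  have h2 : ‖∑ x ∈ Tu ι P, scS s x * CS (al h (tS θ ξ s x)) K‖ ≤
      ∑ x ∈ Tu ι P, ‖CS (al h (tS θ ξ s x)) K‖ := by
    refine (norm_sum_le _ _).trans (Finset.sum_le_sum fun x hx => ?_)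
    rw [mem_Tu] at hx
    rw [norm_mul]
    exact mul_le_of_le_one_left (norm_nonneg _) (norm_scS_le hs hx.1)
  refine (pow_le_pow_left₀ (norm_nonneg _) h2 2).trans (sq_sum_le_card_mul_sum_sq.trans
    (le_of_eq ?_))
  congr 1
  refine Finset.sum_congr rfl fun x hx => ?_
  rw [mem_Tu] at hx
  rw [CS_al hR (s := tS θ ξ s x) (fun i => tP_OK hθ ξ (hs i) (hx.1 i)), norm_prod,
    ← Finset.prod_pow]
  rfl

end

/-- the twisted piece -/
def tw0 (θ : Eis → ℂ) (ξ : ℝ) (P : Pc) : Pc := ⟨P.u, fun b => P.ψ b * θ b, P.Y, P.t + ξ⟩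

lemma sh_tw0 (θ : Eis → ℂ) (ξ : ℝ) (P : Pc) (x : Eis) : sh (tw0 θ ξ P) x = tP θ ξ P x := rfl

lemma tw0_OK {θ : Eis → ℂ} (hθ : IsChar θ) (ξ : ℝ) {P : Pc} (hP : P.OK) : (tw0 θ ξ P).OK where
  ch := hP.ch.mul' hθ
  Y0 := hP.Y0

set_option maxHeartbeats 1000000 in
/-- **two factors, arbitrary finite index sets** -/
theorem joint_gen {h : ℝ → ℝ} {c : ℝ} (hpu : PU h c) {R : ℝ} (hR0 : 0 ≤ R)
    (hR : ∀ u, cx h u ≠ 0 → |u| ≤ R) (M : ℝ) : ∃ C : ℝ, 1 ≤ C ∧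
    ∀ (ι₁ ι₂ : Type) [Fintype ι₁] [DecidableEq ι₁] [Fintype ι₂] [DecidableEq ι₂]
    (s₁ : ι₁ → Pc) (s₂ : ι₂ → Pc), (∀ i, (s₁ i).OK) → (∀ i, (s₂ i).OK) →
    ∀ (θ₁ θ₂ : Eis → ℂ), IsChar θ₁ → IsChar θ₂ → ∀ (ξ₁ ξ₂ : ℝ) (Q : Eis → Prop) (Λ X : ℝ),
    0 ≤ Λ → 1 ≤ X →
    ∀ (α : Type) (E : Finset α) (Pf mf Kf : α → Eis), (∀ e ∈ E, IsPrim (Pf e) ∧ IsPrim (mf e) ∧
      Kf e ∈ bl Λ ∧ Q (Kf e) ∧ (nm (Pf e) : ℝ) ≤ X ∧ (nm (mf e) : ℝ) ≤ X ∧
      (∀ n, IsPrim n → θ₁ n ≠ 0 → IsCoprime (Kf e) n → IsCoprime (Pf e) n) ∧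
      ∀ n, IsPrim n → θ₂ n ≠ 0 → IsCoprime (Kf e) n → IsCoprime (mf e) n) →
    ∀ B T : ℝ, 0 ≤ B → 0 ≤ T →
    (∀ e ∈ E, (tau (Pf e) : ℝ) ^ Fintype.card ι₁ ≤ T ∧ (tau (mf e) : ℝ) ^ Fintype.card ι₂ ≤ T) →
    (∀ K, (open Classical in ((E.filter (fun e => Kf e = K)).card : ℝ)) ≤ T) →
    (∀ e ∈ E, ∀ x ∈ Tu ι₁ (Pf e), ∀ x' ∈ Tu ι₂ (mf e),
      ∀ (b : ι₁ → Bool) (n : ι₁ → ℕ) (Y t : ι₁ → ℝ),
      (∀ i, (n i : ℝ) ≤ Real.log (nm (x i)) ∧ Real.log (nm (x i)) < n i + 1) →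
      (∀ i, 1 ≤ Y i ∧ |Real.log (Y i) - (Real.log (s₁ i).Y - n i)| ≤ 2 * R + 1) →
      ∀ (b' : ι₂ → Bool) (n' : ι₂ → ℕ) (Y' t' : ι₂ → ℝ),
      (∀ i, (n' i : ℝ) ≤ Real.log (nm (x' i)) ∧ Real.log (nm (x' i)) < n' i + 1) →
      (∀ i, 1 ≤ Y' i ∧ |Real.log (Y' i) - (Real.log (s₂ i).Y - n' i)| ≤ 2 * R + 1) →
      WM2 Q h Λ (cellP (fun i => tw0 θ₁ ξ₁ (s₁ i)) (vk s₁ b) Y t)
        (cellP (fun i => tw0 θ₂ ξ₂ (s₂ i)) (vk s₂ b') Y' t') ≤
        B * ((∏ i, (1 + |t i - ((s₁ i).t + ξ₁)|) ^ M) *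
          ∏ i, (1 + |t' i - ((s₂ i).t + ξ₂)|) ^ M)) →
    ∑ e ∈ E, ‖CS (fac θ₁ ξ₁ (al h s₁) (Pf e)) (Kf e)‖ ^ 2 *
      ‖CS (fac θ₂ ξ₂ (al h s₂) (mf e)) (Kf e)‖ ^ 2 ≤
      (C * (Real.log X + 1)) ^ (Fintype.card ι₁ + Fintype.card ι₂) * (T ^ 5 * B) := by
  classical
  obtain ⟨C, hC, H⟩ := fam_gen hpu hR0 hR M
  refine ⟨C, hC, ?_⟩
  intro ι₁ ι₂ _ _ _ _ s₁ s₂ hs₁ hs₂ θ₁ θ₂ hθ₁ hθ₂ ξ₁ ξ₂ Q Λ X hΛ hX α E Pf mf Kf hE B T hB hT
    hτ hmult hyp
  set s : ι₁ ⊕ ι₂ → Pc := Sum.elim (fun i => tw0 θ₁ ξ₁ (s₁ i)) (fun i => tw0 θ₂ ξ₂ (s₂ i)) with hs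
  have hsOK : ∀ i, (s i).OK := by
    rintro (i | i)
    · exact tw0_OK hθ₁ ξ₁ (hs₁ i)
    · exact tw0_OK hθ₂ ξ₂ (hs₂ i)
  set w : Eis → ℝ := fun K => if Q K then 1 else 0 with hw
  have hw0 : ∀ k, 0 ≤ w k := fun k => by rw [hw]; simp only; split_ifs <;> norm_num
  set S : Finset (Σ _ : α, (ι₁ → Eis) × (ι₂ → Eis)) :=
    E.sigma fun e => Tu ι₁ (Pf e) ×ˢ Tu ι₂ (mf e) with hS
  have hSm : ∀ σ ∈ S, σ.1 ∈ E ∧ σ.2.1 ∈ Tu ι₁ (Pf σ.1) ∧ σ.2.2 ∈ Tu ι₂ (mf σ.1) := by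
    intro σ hσ
    rw [hS, Finset.mem_sigma, Finset.mem_product] at hσ
    exact ⟨hσ.1, hσ.2.1, hσ.2.2⟩
  set xf : (Σ _ : α, (ι₁ → Eis) × (ι₂ → Eis)) → (ι₁ ⊕ ι₂) → Eis :=
    fun σ => Sum.elim σ.2.1 σ.2.2 with hxf
  have hTuc : ∀ e ∈ E, ((Tu ι₁ (Pf e)).card : ℝ) ≤ T ∧ ((Tu ι₂ (mf e)).card : ℝ) ≤ T := by
    intro e he
    obtain ⟨h1, h2⟩ := hτ e he
    constructor
    · refine le_trans ?_ h1
      exact_mod_cast card_Tu_le (ι := ι₁) (Pf e)
    · refine le_trans ?_ h2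
      exact_mod_cast card_Tu_le (ι := ι₂) (mf e)
  -- step 1
  have e1 : ∀ e ∈ E, ‖CS (fac θ₁ ξ₁ (al h s₁) (Pf e)) (Kf e)‖ ^ 2 *
      ‖CS (fac θ₂ ξ₂ (al h s₂) (mf e)) (Kf e)‖ ^ 2 ≤
      (T * T) * ∑ y ∈ Tu ι₁ (Pf e) ×ˢ Tu ι₂ (mf e), w (Kf e) *
        ∏ i, ‖CS (pc h (sh (s i) (xf ⟨e, y⟩ i))) (Kf e)‖ ^ 2 := by
    intro e he
    obtain ⟨h1, h2, h3, h4, h5, h6, h7, h8⟩ := hE e he
    have a1 := CS_facK hR hθ₁ ξ₁ hs₁ h1 h7
    have a2 := CS_facK hR hθ₂ ξ₂ hs₂ h2 h8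
    have b1 : 0 ≤ ∑ x ∈ Tu ι₁ (Pf e), ∏ i, ‖CS (pc h (tP θ₁ ξ₁ (s₁ i) (x i))) (Kf e)‖ ^ 2 :=
      Finset.sum_nonneg fun _ _ => Finset.prod_nonneg fun _ _ => by positivity
    have b2 : 0 ≤ ∑ x ∈ Tu ι₂ (mf e), ∏ i, ‖CS (pc h (tP θ₂ ξ₂ (s₂ i) (x i))) (Kf e)‖ ^ 2 :=
      Finset.sum_nonneg fun _ _ => Finset.prod_nonneg fun _ _ => by positivity
    have a1' := a1.trans (mul_le_mul_of_nonneg_right (hTuc e he).1 b1)
    have a2' := a2.trans (mul_le_mul_of_nonneg_right (hTuc e he).2 b2)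
    refine (mul_le_mul a1' a2' (by positivity) (mul_nonneg hT b1)).trans (le_of_eq ?_)
    have e5 : (∑ x ∈ Tu ι₁ (Pf e), ∏ i, ‖CS (pc h (tP θ₁ ξ₁ (s₁ i) (x i))) (Kf e)‖ ^ 2) *
        ∑ x ∈ Tu ι₂ (mf e), ∏ i, ‖CS (pc h (tP θ₂ ξ₂ (s₂ i) (x i))) (Kf e)‖ ^ 2 =
        ∑ y ∈ Tu ι₁ (Pf e) ×ˢ Tu ι₂ (mf e), w (Kf e) *
        ∏ i, ‖CS (pc h (sh (s i) (xf ⟨e, y⟩ i))) (Kf e)‖ ^ 2 := by
      rw [Finset.sum_mul_sum, Finset.sum_product]
      refine Finset.sum_congr rfl fun x _ => Finset.sum_congr rfl fun x' _ => ?_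
      rw [Fintype.prod_sum_type]
      have e6 : w (Kf e) = 1 := by rw [hw]; simp only; rw [if_pos h4]
      rw [e6, one_mul]
      rfl
    rw [← e5]
    ring
  -- step 2
  have key := H (ι₁ ⊕ ι₂) s hsOK w hw0 Λ X hΛ hX _ S (fun σ => Kf σ.1) xf
    (by
      intro σ hσ
      obtain ⟨g1, g2, g3⟩ := hSm σ hσ
      obtain ⟨h1, h2, h3, h4, h5, h6, h7, h8⟩ := hE σ.1 g1
      rw [mem_Tu] at g2 g3
      refine ⟨h3, ?_⟩
      rintro (i | i)
      · refine ⟨g2.1 i, ?_⟩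
        have h9 : σ.2.1 i ∣ Pf σ.1 :=
          (Finset.dvd_prod_of_mem σ.2.1 (Finset.mem_univ i)).trans (g2.2 ▸ dvd_refl _)
        have h10 : (nm (σ.2.1 i) : ℝ) ≤ nm (Pf σ.1) := by
          exact_mod_cast Leg381.nm_le_of_dvd' h1.ne_zero h9
        exact h10.trans h5
      · refine ⟨g3.1 i, ?_⟩
        have h9 : σ.2.2 i ∣ mf σ.1 :=
          (Finset.dvd_prod_of_mem σ.2.2 (Finset.mem_univ i)).trans (g3.2 ▸ dvd_refl _)
        have h10 : (nm (σ.2.2 i) : ℝ) ≤ nm (mf σ.1) := by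
          exact_mod_cast Leg381.nm_le_of_dvd' h2.ne_zero h9
        exact h10.trans h6)
    B (T * (T * T)) hB (by positivity)
    (by
      intro K
      have e2 : S.filter (fun σ => Kf σ.1 = K) =
          (E.filter (fun e => Kf e = K)).sigma fun e => Tu ι₁ (Pf e) ×ˢ Tu ι₂ (mf e) := by
        ext σ
        rw [Finset.mem_filter, hS, Finset.mem_sigma, Finset.mem_sigma, Finset.mem_filter]
        tauto
      have e3 : ((S.filter (fun σ => Kf σ.1 = K)).card : ℝ) =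
          ∑ e ∈ E.filter (fun e => Kf e = K), ((Tu ι₁ (Pf e)).card : ℝ) * (Tu ι₂ (mf e)).card := by
        rw [e2, Finset.card_sigma]
        push_cast
        refine Finset.sum_congr rfl fun e _ => ?_
        rw [Finset.card_product]
        push_cast
        rfl
      refine le_trans (le_of_eq ?_) ((le_of_eq e3).trans ?_)
      · congr
      · calc ∑ e ∈ E.filter (fun e => Kf e = K), ((Tu ι₁ (Pf e)).card : ℝ) * (Tu ι₂ (mf e)).card
            ≤ ∑ e ∈ E.filter (fun e => Kf e = K), T * T := by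
              refine Finset.sum_le_sum fun e he => ?_
              obtain ⟨c1, c2⟩ := hTuc e (Finset.mem_filter.1 he).1
              exact mul_le_mul c1 c2 (Nat.cast_nonneg _) hT
          _ = (E.filter (fun e => Kf e = K)).card * (T * T) := by
              rw [Finset.sum_const, nsmul_eq_mul]
          _ ≤ T * (T * T) := by
              refine mul_le_mul_of_nonneg_right ?_ (by positivity)
              refine le_trans (le_of_eq ?_) (hmult K)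
              congr)
    (by
      intro b n Y t hx hY
      obtain ⟨σ, hσ, hn⟩ := hx
      obtain ⟨g1, g2, g3⟩ := hSm σ hσ
      have h1 := hyp σ.1 g1 σ.2.1 g2 σ.2.2 g3 (fun i => b (.inl i)) (fun i => n (.inl i))
        (fun i => Y (.inl i)) (fun i => t (.inl i)) (fun i => hn (.inl i)) (fun i => hY (.inl i))
        (fun i => b (.inr i)) (fun i => n (.inr i)) (fun i => Y (.inr i)) (fun i => t (.inr i))
        (fun i => hn (.inr i)) (fun i => hY (.inr i))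
      have e2 : WM h w Λ (cellP s (vk s b) Y t) =
          WM2 Q h Λ (cellP (fun i => tw0 θ₁ ξ₁ (s₁ i)) (vk s₁ fun i => b (.inl i))
            (fun i => Y (.inl i)) fun i => t (.inl i))
          (cellP (fun i => tw0 θ₂ ξ₂ (s₂ i)) (vk s₂ fun i => b (.inr i))
            (fun i => Y (.inr i)) fun i => t (.inr i)) := by
        unfold WM WM2
        rw [Finset.sum_filter]
        refine Finset.sum_congr rfl fun K _ => ?_
        rw [hw]
        simp only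
        split_ifs
        · rw [one_mul, Fintype.prod_sum_type]
          rfl
        · rw [zero_mul]
      rw [e2, Fintype.prod_sum_type]
      exact h1)
  calc ∑ e ∈ E, ‖CS (fac θ₁ ξ₁ (al h s₁) (Pf e)) (Kf e)‖ ^ 2 *
      ‖CS (fac θ₂ ξ₂ (al h s₂) (mf e)) (Kf e)‖ ^ 2
      ≤ ∑ e ∈ E, (T * T) * ∑ y ∈ Tu ι₁ (Pf e) ×ˢ Tu ι₂ (mf e), w (Kf e) *
        ∏ i, ‖CS (pc h (sh (s i) (xf ⟨e, y⟩ i))) (Kf e)‖ ^ 2 := Finset.sum_le_sum e1
    _ = (T * T) * ∑ σ ∈ S, w (Kf σ.1) *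
        ∏ i, ‖CS (pc h (sh (s i) (xf σ i))) (Kf σ.1)‖ ^ 2 := by
        rw [← Finset.mul_sum, hS, Finset.sum_sigma]
    _ ≤ (T * T) * ((C * (Real.log X + 1)) ^ Fintype.card (ι₁ ⊕ ι₂) * ((T * (T * T)) * B)) :=
        mul_le_mul_of_nonneg_left key (mul_nonneg hT hT)
    _ = _ := by
        rw [Fintype.card_sum]
        ring

end Crest.Agent.R017.E4Yb792
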