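import Crest.Agent.R017.E4Y_679

/-!
# Row 17, C70/E4: the y-side dictionary with `D = D0 D1` (helper679)

* `Y1g` : `CS (tws Z q g (wD D D1 (ww M b₁ b₂ L z ν))) d`, `D1 ∣ D`, frequency `d ν D²`
* `Y1gs` : with symbols `q₁`, `q₂` in the twist
* `Y1g_mul`, `Y1gs_mul` : the literal forms with `D = D0 * D1`
-/

set_option autoImplicit false

noncomputable section

open Finset Complex
open scoped ComplexConjugate

namespace Crest.Agent.R017.E4Y679

open Crest.Agent.R012 Crest.Agent.R012.Eis Crest.Agent.R012.GaussLoc283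
open Crest.Agent.R012.Mob705 hiding pb mem_pb
open Crest.Agent.R012.Div277
open Crest.Agent.R017.Sx545 (Sm)
open Crest.Agent.R017.CM106
open Crest.Agent.R017.End699 (HC)
open Crest.Agent.R017.E4352 (SSm PrI tws TwC)
open Crest.Agent.R017.E4579 (bpt bco)
open Crest.Agent.R017.E4K164 (rd)
open Crest.Agent.R017.E4D164
open Crest.Agent.R017.E4o502 (wD)

/-- the condition on `y` -/
def SYg (M q D E z Z n m y : Eis) : Prop :=
  IsCoprime y q ∧ IsCoprime (Z * y) D ∧ Sm M (E * (Z * y)) ∧ n * m ^ 2 = z * (E * (Z * y))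

theorem pairg {M q D E z Z n m ν d : Eis} {g : Eis → ℂ} (hM : M ≠ 0) (hq : Sm M q)
    (hz : PrI M z) (hZ : PrI q Z) (hD : Sm M D) (hE : IsPrim E) (hED : E ∣ D)
    (hEs : Squarefree E) (hDq : IsCoprime D q)
    (hg : MuP g) (hn : IsPrim n) (hm : IsPrim m) :
    (sy ν n * conj (sy ν m)) * at1 (SYg M q D E z Z n m)
        (fun y => g y * conj (sy (Z * y) D) * sy d y) =
      conj (sy Z D) * ∑ x ∈ LM (z * Z), (sy ν (E * x.1) * conj (sy ν x.2)) *
        (at1 (fun t => n = E * x.1 * t ∧ IsCoprime t (M * q))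
            (fun t => g t * sy (d * ν * D ^ 2) t) *
          conj (at1 (fun t => m = x.2 * t ∧ IsCoprime t (M * q))
            (fun t => conj (g t) ^ 2 * sy (d * ν * D ^ 2) t))) := by
  classical
  set Q := M * q with hQd
  have hQ : Q ≠ 0 := mul_ne_zero hM hq.1.ne_zero
  obtain ⟨n1, n2, n3⟩ := mpt_spec hQ hn
  obtain ⟨m1, m2, m3⟩ := mpt_spec hQ hm
  have hzZ : PrI Q (z * Z) := PrI.mul (PrI.mono hz) (PrI.mono' hZ)
  have hEM : Sm M E := ⟨hE, hD.2.of_isCoprime_of_dvd_left hED⟩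
  have hEQ : Sm Q E := ⟨hE, hEM.2.mul_right (hDq.of_isCoprime_of_dvd_left hED)⟩
  have hP0 : z * Z ≠ 0 := hzZ.1.ne_zero
  have hZM : Sm M Z := by
    refine ⟨hZ.1, ?_⟩
    by_contra h
    obtain ⟨p, hp, h1, h2⟩ := exists_common_pp hZ.1 h
    exact hp.prime.not_isUnit (hq.2.isUnit_of_dvd' (hZ.2 p hp.prime h1) h2)
  have hZD : IsCoprime Z D := by
    by_contra h
    obtain ⟨p, hp, h1, h2⟩ := exists_common_pp hZ.1 h
    exact hp.prime.not_isUnit (hDq.isUnit_of_dvd' h2 (hZ.2 p hp.prime h1))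
  set gn := bpt (rd Q) n with hgn
  set n' := bco (rd Q) n with hn'
  set gm := bpt (rd Q) m with hgm
  set m' := bco (rd Q) m with hm'
  have U1 : ∀ x t : Eis, PrI Q x → n = E * x * t → IsCoprime t Q → x = gn ∧ E * t = n' := by
    intro x t hx h ht
    have ht' : IsPrim t := by
      have h1 : IsPrim (E * x * t) := by rw [← h]; exact hn
      exact h1.of_mul_left (hE.mul hx.1)
    exact mpt_unique hQ hn hx (Sm.mul hEQ ⟨ht', ht⟩) (by rw [h]; ring)
  have U2 : ∀ x t : Eis, PrI Q x → m = x * t → IsCoprime t Q → x = gm ∧ t = m' := by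
    intro x t hx h ht
    have ht' : IsPrim t := by
      have h1 : IsPrim (x * t) := by rw [← h]; exact hm
      exact h1.of_mul_left hx.1
    exact mpt_unique hQ hm hx ⟨ht', ht⟩ h
  have U3 : ∀ y, SYg M q D E z Z n m y → z * Z = gn * gm ^ 2 ∧ E * y = n' * m' ^ 2 ∧
      IsCoprime y D := by
    rintro y ⟨h1, h2, h3, h4⟩
    have hyp : IsPrim y := (h3.1.of_mul_left hE).of_mul_left hZ.1
    have hyQ : Sm Q y :=
      ⟨hyp, (h3.2.of_mul_left_right.of_mul_left_right).mul_right h1⟩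
    have hnm : IsPrim (n * m ^ 2) := hn.mul (hm.pow 2)
    obtain ⟨e1, e2⟩ := mpt_unique hQ hnm hzZ (Sm.mul hEQ hyQ)
      (show n * m ^ 2 = (z * Z) * (E * y) by rw [h4]; ring)
    obtain ⟨e3, e4⟩ := mpt_unique hQ hnm (PrI.mul n1 (PrI.sq m1)) (Sm.mul n2 (Sm.sq m2))
      (show n * m ^ 2 = (gn * gm ^ 2) * (n' * m' ^ 2) by
        calc n * m ^ 2 = (gn * n') * (gm * m') ^ 2 := by rw [← n3, ← m3]
          _ = _ := by ring)
    exact ⟨e1.trans e3.symm, e2.trans e4.symm, h2.of_mul_left_right⟩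
  have hdv : ∀ x ∈ LM (z * Z), PrI Q x.1 ∧ PrI Q x.2 := by
    intro x hx
    obtain ⟨h1, h2, h3⟩ := (mem_LM hP0).mp hx
    refine ⟨PrI.dvd hzZ h1 ?_, PrI.dvd hzZ h2 ?_⟩
    · rw [← h3]; exact dvd_mul_right _ _
    · rw [← h3]; exact dvd_mul_of_dvd_right (dvd_pow_self _ two_ne_zero) _
  -- the terms with `x ≠ (gn, gm)` or `E ∤ n'` vanish
  have Z1 : ∀ x ∈ LM (z * Z), ∀ F : Eis → ℂ, x.1 ≠ gn ∨ ¬ E ∣ n' →
      at1 (fun t => n = E * x.1 * t ∧ IsCoprime t Q) F = 0 := by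
    intro x hx F h
    refine at1_zero fun t ht => ?_
    obtain ⟨h1, h2⟩ := U1 x.1 t (hdv x hx).1 ht.1 ht.2
    rcases h with h | h
    · exact h h1
    · exact h ⟨t, h2.symm⟩
  have Z2 : ∀ x ∈ LM (z * Z), ∀ F : Eis → ℂ, x.2 ≠ gm →
      at1 (fun t => m = x.2 * t ∧ IsCoprime t Q) F = 0 := by
    intro x hx F h
    refine at1_zero fun t ht => ?_
    exact h (U2 x.2 t (hdv x hx).2 ht.1 ht.2).1
  by_cases hDn : E ∣ n'
  swap
  · rw [at1_zero, mul_zero, Finset.sum_eq_zero, mul_zero]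
    · intro x hx
      rw [Z1 x hx _ (Or.inr hDn)]
      ring
    · intro y hy
      obtain ⟨-, h2, h3⟩ := U3 y hy
      exact hDn (dvd_of_eq hE hEs (h3.of_isCoprime_of_dvd_right hED) h2)
  by_cases hgg : gn * gm ^ 2 = z * Z
  swap
  · rw [at1_zero, mul_zero, Finset.sum_eq_zero, mul_zero]
    · intro x hx
      by_cases h1 : x.1 = gn
      · by_cases h2 : x.2 = gm
        · exfalso
          apply hgg
          rw [← h1, ← h2]
          exact ((mem_LM hP0).mp hx).2.2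
        · rw [Z2 x hx _ h2]
          simp
      · rw [Z1 x hx _ (Or.inl h1)]
        ring
    · intro y hy
      exact hgg (U3 y hy).1.symm
  obtain ⟨n'', hn''⟩ := hDn
  have np : IsPrim n'' := by
    have h1 : IsPrim (E * n'') := by rw [← hn'']; exact n2.1
    exact h1.of_mul_left hE
  have nQ : IsCoprime n'' Q := by
    have h1 : IsCoprime (E * n'') Q := by rw [← hn'']; exact n2.2
    exact h1.of_mul_left_right
  have hmem : (gn, gm) ∈ LM (z * Z) := (mem_LM hP0).mpr ⟨n1.1, m1.1, hgg⟩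
  have A1 : at1 (fun t => n = E * gn * t ∧ IsCoprime t Q)
      (fun t => g t * sy (d * ν * D ^ 2) t) = g n'' * sy (d * ν * D ^ 2) n'' := by
    refine at1_eq ⟨?_, nQ⟩ ?_
    · rw [n3, hn'']; ring
    · intro t ht
      have := (U1 gn t n1 ht.1 ht.2).2
      rw [hn''] at this
      exact mul_left_cancel₀ hE.ne_zero this
  have A2 : at1 (fun t => m = gm * t ∧ IsCoprime t Q)
      (fun t => conj (g t) ^ 2 * sy (d * ν * D ^ 2) t) =
        conj (g m') ^ 2 * sy (d * ν * D ^ 2) m' :=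
    at1_eq ⟨m3, m2.2⟩ fun t ht => (U2 gm t m1 ht.1 ht.2).2
  rw [Finset.sum_eq_single_of_mem _ hmem]
  swap
  · intro x hx hne
    by_cases h1 : x.1 = gn
    · have h2 : x.2 ≠ gm := fun h2 => hne (Prod.ext h1 h2)
      rw [Z2 x hx _ h2]
      simp
    · rw [Z1 x hx _ (Or.inl h1)]
      ring
  show _ = conj (sy Z D) * ((sy ν (E * gn) * conj (sy ν gm)) *
    (at1 (fun t => n = E * gn * t ∧ IsCoprime t Q) (fun t => g t * sy (d * ν * D ^ 2) t) *
      conj (at1 (fun t => m = gm * t ∧ IsCoprime t Q)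
        (fun t => conj (g t) ^ 2 * sy (d * ν * D ^ 2) t))))
  rw [A1, A2]
  have mp := m2.1
  have ek : ∀ c : Eis, IsPrim c → sy (d * ν * D ^ 2) c = sy d c * sy ν c * sy D c ^ 2 := by
    intro c hc
    rw [syAx.mul_left _ _ _ hc, syAx.mul_left _ _ _ hc, sy_sql hc]
  by_cases hyD : IsCoprime (n'' * m' ^ 2) D
  swap
  · rw [at1_zero, mul_zero]
    · have h1 : sy D n'' = 0 ∨ sy D m' = 0 := by
        by_contra h
        push Not at h
        apply hyD
        have c1 : IsCoprime D n'' := by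
          by_contra h'
          exact h.1 ((syAx.eq_zero _ _ np).mpr h')
        have c2 : IsCoprime D m' := by
          by_contra h'
          exact h.2 ((syAx.eq_zero _ _ mp).mpr h')
        exact c1.symm.mul_left c2.symm.pow_left
      rw [ek _ np, ek _ mp]
      rcases h1 with h1 | h1 <;> rw [h1] <;> simp
    · intro y hy
      obtain ⟨-, h2, h3⟩ := U3 y hy
      apply hyD
      have : y = n'' * m' ^ 2 := by
        apply mul_left_cancel₀ hE.ne_zero
        rw [h2, hn'']; ring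
      rw [← this]; exact h3
  have hyp : IsPrim (n'' * m' ^ 2) := np.mul (mp.pow 2)
  have hyQ : IsCoprime (n'' * m' ^ 2) Q := nQ.mul_left m2.2.pow_left
  have B : at1 (SYg M q D E z Z n m) (fun y => g y * conj (sy (Z * y) D) * sy d y) =
      g (n'' * m' ^ 2) * conj (sy (Z * (n'' * m' ^ 2)) D) * sy d (n'' * m' ^ 2) := by
    refine at1_eq ⟨hyQ.of_mul_right_right, hZD.mul_left hyD,
      Sm.mul hEM (Sm.mul hZM ⟨hyp, hyQ.of_mul_right_left⟩), ?_⟩ ?_
    · calc n * m ^ 2 = (gn * n') * (gm * m') ^ 2 := by rw [← n3, ← m3]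
        _ = (gn * gm ^ 2) * (n' * m' ^ 2) := by ring
        _ = _ := by rw [hgg, hn'']; ring
    · intro y hy
      obtain ⟨-, h2, -⟩ := U3 y hy
      apply mul_left_cancel₀ hE.ne_zero
      rw [h2, hn'']; ring
  rw [B, ek _ np, ek _ mp, hg.sq np mp, syAx.mul_left _ _ _ hD.1, syAx.mul_left _ _ _ hD.1,
    sy_sql hD.1, syAx.mul_right _ _ _ np (mp.pow 2), sy_sqr mp, syAx.recip n'' D np hD.1,
    syAx.recip m' D mp hD.1, syAx.mul_right _ _ _ hE n1.1]
  have en : sy ν n = sy ν gn * (sy ν E * sy ν n'') := by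
    conv_lhs => rw [n3, hn'']
    rw [syAx.mul_right _ _ _ n1.1 (hE.mul np), syAx.mul_right _ _ _ hE np]
  have em : sy ν m = sy ν gm * sy ν m' := by
    conv_lhs => rw [m3]
    rw [syAx.mul_right _ _ _ m1.1 mp]
  rw [en, em]
  have cn := sy_sq (x := D) np
  have cm := sy_sq (x := d) mp
  simp only [map_mul, map_pow, Complex.conj_conj]
  rw [cn, cm]
  ring

open Classical in
/-- **(Y1), `D1 = E ∣ D`** -/
theorem Y1g' {M q D E z Z ν d : Eis} {g : Eis → ℂ} (hM : M ≠ 0) (hq : Sm M q)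
    (hz : PrI M z) (hZ : PrI q Z) (hD : Sm M D) (hE : IsPrim E) (hED : E ∣ D)
    (hEs : Squarefree E) (hDq : IsCoprime D q)
    (hg : MuP g) {b₁ b₂ : Eis → ℂ} (h₁ : FS b₁) (h₂ : FS b₂) :
    CS (tws Z q g (wD D E (ww M b₁ b₂ (h₁.fin.toFinset ×ˢ h₂.fin.toFinset) z ν))) d =
      conj (sy Z D) * ∑ x ∈ LM (z * Z), (sy ν (E * x.1) * conj (sy ν x.2)) *
        (CS (tws (E * x.1) (M * q) g b₁) (d * ν * D ^ 2) *
          conj (CS (tws x.2 (M * q) (fun t => conj (g t) ^ 2) b₂) (d * ν * D ^ 2))) := by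
  set L := h₁.fin.toFinset ×ˢ h₂.fin.toFinset with hL
  have hzZ : z * Z ≠ 0 := (hz.1.mul hZ.1).ne_zero
  have e1 : CS (tws Z q g (wD D E (ww M b₁ b₂ L z ν))) d =
      ∑ i ∈ L, cb b₁ b₂ ν i * at1 (SYg M q D E z Z i.1 i.2)
        (fun y => g y * conj (sy (Z * y) D) * sy d y) := by
    rw [← tsum_idx L (cb b₁ b₂ ν) (fun i => SYg M q D E z Z i.1 i.2)
      (fun y => g y * conj (sy (Z * y) D) * sy d y)]
    · unfold CS
      refine tsum_congr fun y => ?_
      unfold SYg tws wD tws ww pu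
      by_cases c1 : IsCoprime y q
      swap
      · rw [if_neg c1, zero_mul]
        symm
        exact Finset.sum_eq_zero fun i _ => if_neg (fun h => c1 h.1)
      rw [if_pos c1]
      by_cases c2 : IsCoprime (Z * y) D
      swap
      · rw [if_neg c2, mul_zero, zero_mul]
        symm
        exact Finset.sum_eq_zero fun i _ => if_neg (fun h => c2 h.2.1)
      rw [if_pos c2]
      by_cases c3 : Sm M (E * (Z * y))
      swap
      · rw [if_neg c3, mul_zero, mul_zero, zero_mul]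
        symm
        exact Finset.sum_eq_zero fun i _ => if_neg (fun h => c3 h.2.2.1)
      rw [if_pos c3, Finset.sum_filter, Finset.mul_sum, Finset.mul_sum, Finset.sum_mul]
      refine Finset.sum_congr rfl fun i _ => ?_
      by_cases c4 : i.1 * i.2 ^ 2 = z * (E * (Z * y))
      · rw [if_pos c4, if_pos ⟨c1, c2, c3, c4⟩]
        ring
      · rw [if_neg c4, if_neg (fun h => c4 h.2.2.2)]
        ring
    · rintro i - x y ⟨-, -, -, hx⟩ ⟨-, -, -, hy⟩
      have h1 : z * E * Z ≠ 0 := mul_ne_zero (mul_ne_zero hz.1.ne_zero hE.ne_zero) hZ.1.ne_zero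
      apply mul_left_cancel₀ h1
      calc z * E * Z * x = z * (E * (Z * x)) := by ring
        _ = z * (E * (Z * y)) := hx.symm.trans hy
        _ = z * E * Z * y := by ring
  rw [e1, hL, Finset.sum_product]
  have e2 : ∀ x ∈ LM (z * Z), (sy ν (E * x.1) * conj (sy ν x.2)) *
        (CS (tws (E * x.1) (M * q) g b₁) (d * ν * D ^ 2) *
          conj (CS (tws x.2 (M * q) (fun t => conj (g t) ^ 2) b₂) (d * ν * D ^ 2))) =
      ∑ n ∈ h₁.fin.toFinset, ∑ m ∈ h₂.fin.toFinset, (b₁ n * conj (b₂ m)) *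
        ((sy ν (E * x.1) * conj (sy ν x.2)) *
          (at1 (fun t => n = E * x.1 * t ∧ IsCoprime t (M * q))
            (fun t => g t * sy (d * ν * D ^ 2) t) *
          conj (at1 (fun t => m = x.2 * t ∧ IsCoprime t (M * q))
            (fun t => conj (g t) ^ 2 * sy (d * ν * D ^ 2) t)))) := by
    intro x hx
    obtain ⟨x1, x2, -⟩ := (mem_LM hzZ).mp hx
    rw [CS_tws (hE.mul x1).ne_zero g h₁, CS_tws x2.ne_zero _ h₂, map_sum, Finset.sum_mul_sum,
      Finset.mul_sum]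
    refine Finset.sum_congr rfl fun n _ => ?_
    rw [Finset.mul_sum]
    refine Finset.sum_congr rfl fun m _ => ?_
    rw [map_mul]
    ring
  rw [Finset.sum_congr rfl e2]
  conv_rhs => rw [Finset.sum_comm]
  rw [Finset.mul_sum]
  refine Finset.sum_congr rfl fun n hn => ?_
  conv_rhs => rw [Finset.sum_comm]
  rw [Finset.mul_sum]
  refine Finset.sum_congr rfl fun m hm => ?_
  rw [← Finset.mul_sum]
  have hn' : IsPrim n := h₁.prim _ ((Set.Finite.mem_toFinset _).mp hn)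
  have hm' : IsPrim m := h₂.prim _ ((Set.Finite.mem_toFinset _).mp hm)
  have := pairg (ν := ν) (d := d) hM hq hz hZ hD hE hED hEs hDq hg hn' hm'
  calc cb b₁ b₂ ν (n, m) * at1 (SYg M q D E z Z n m)
        (fun y => g y * conj (sy (Z * y) D) * sy d y) =
      (b₁ n * conj (b₂ m)) * ((sy ν n * conj (sy ν m)) * at1 (SYg M q D E z Z n m)
        (fun y => g y * conj (sy (Z * y) D) * sy d y)) := by
        unfold cb; ring
    _ = _ := by rw [this]; ring

open Classical in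
/-- **(Y1) with symbols, `D1 = E ∣ D`** : `k = d ν D² q₁ q₂²` -/
theorem Y1gs' {M q D E z Z ν d q₁ q₂ : Eis} {G : Eis → ℂ} (hM : M ≠ 0) (hq : Sm M q)
    (hz : PrI M z) (hZ : PrI q Z) (hD : Sm M D) (hE : IsPrim E) (hED : E ∣ D)
    (hEs : Squarefree E) (hDq : IsCoprime D q)
    (h1 : IsPrim q₁) (h2 : IsPrim q₂) (hG : MuP G) {b₁ b₂ : Eis → ℂ} (h₁ : FS b₁) (h₂ : FS b₂) :
    CS (tws Z q (fun y => sy y q₁ * conj (sy y q₂) * G y)
        (wD D E (ww M b₁ b₂ (h₁.fin.toFinset ×ˢ h₂.fin.toFinset) z ν))) d =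
      conj (sy Z D) * ∑ x ∈ LM (z * Z), (sy ν (E * x.1) * conj (sy ν x.2)) *
        (CS (tws (E * x.1) (M * q) G b₁) (d * ν * D ^ 2 * q₁ * q₂ ^ 2) *
          conj (CS (tws x.2 (M * q) (fun t => conj (G t) ^ 2) b₂)
            (d * ν * D ^ 2 * q₁ * q₂ ^ 2))) := by
  have hg : MuP (fun y => sy y q₁ * conj (sy y q₂) * G y) := by
    intro a b ha hb
    simp only
    rw [syAx.mul_left _ _ _ h1, syAx.mul_left _ _ _ h2, hG a b ha hb, map_mul]
    ring
  have hzZ : z * Z ≠ 0 := (hz.1.mul hZ.1).ne_zero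
  rw [Y1g' hM hq hz hZ hD hE hED hEs hDq hg h₁ h₂]
  congr 1
  refine Finset.sum_congr rfl fun x hx => ?_
  obtain ⟨x1, x2, -⟩ := (mem_LM hzZ).mp hx
  rw [CS_sym (hE.mul x1) h1 h2 G h₁, CS_sym2 x2 h1 h2 G h₂]

lemma prim_right {a b : Eis} (hab : IsPrim (a * b)) (ha : IsPrim a) : IsPrim b :=
  hab.of_mul_left ha

open Classical in
/-- **Y1g**, literal form, `D = D0 D1` -/
theorem Y1g {M q D0 D1 z Z ν d : Eis} {g : Eis → ℂ} (hM : M ≠ 0) (hq : Sm M q)
    (hz : PrI M z) (hZ : PrI q Z) (hD1p : IsPrim D1) (hD : Sm M (D0 * D1))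
    (hDs : Squarefree (D0 * D1)) (hDq : IsCoprime (D0 * D1) q)
    (hg : MuP g) {b₁ b₂ : Eis → ℂ} (h₁ : FS b₁) (h₂ : FS b₂) :
    CS (tws Z q g (wD (D0 * D1) D1
        (ww M b₁ b₂ (h₁.fin.toFinset ×ˢ h₂.fin.toFinset) z ν))) d =
      conj (sy Z (D0 * D1)) * ∑ x ∈ LM (z * Z), (sy ν (D1 * x.1) * conj (sy ν x.2)) *
        (CS (tws (D1 * x.1) (M * q) g b₁) (d * ν * (D0 * D1) ^ 2) *
          conj (CS (tws x.2 (M * q) (fun t => conj (g t) ^ 2) b₂) (d * ν * (D0 * D1) ^ 2))) :=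
  Y1g' hM hq hz hZ hD hD1p (dvd_mul_left _ _) (hDs.squarefree_of_dvd (dvd_mul_left _ _)) hDq hg
    h₁ h₂

open Classical in
/-- **Y1gs**, literal form, `D = D0 D1`, symbols `q₁`, `q₂` -/
theorem Y1gs {M q D0 D1 z Z ν d q₁ q₂ : Eis} {G : Eis → ℂ} (hM : M ≠ 0) (hq : Sm M q)
    (hz : PrI M z) (hZ : PrI q Z) (hD1p : IsPrim D1) (hD : Sm M (D0 * D1))
    (hDs : Squarefree (D0 * D1)) (hDq : IsCoprime (D0 * D1) q)
    (h1 : IsPrim q₁) (h2 : IsPrim q₂) (hG : MuP G) {b₁ b₂ : Eis → ℂ} (h₁ : FS b₁) (h₂ : FS b₂) :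
    CS (tws Z q (fun y => sy y q₁ * conj (sy y q₂) * G y)
        (wD (D0 * D1) D1 (ww M b₁ b₂ (h₁.fin.toFinset ×ˢ h₂.fin.toFinset) z ν))) d =
      conj (sy Z (D0 * D1)) * ∑ x ∈ LM (z * Z), (sy ν (D1 * x.1) * conj (sy ν x.2)) *
        (CS (tws (D1 * x.1) (M * q) G b₁) (d * ν * (D0 * D1) ^ 2 * q₁ * q₂ ^ 2) *
          conj (CS (tws x.2 (M * q) (fun t => conj (G t) ^ 2) b₂)
            (d * ν * (D0 * D1) ^ 2 * q₁ * q₂ ^ 2))) :=
  Y1gs' hM hq hz hZ hD hD1p (dvd_mul_left _ _) (hDs.squarefree_of_dvd (dvd_mul_left _ _)) hDq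
    h1 h2 hG h₁ h₂

end Crest.Agent.R017.E4Y679
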