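import Crest.Agent.R017.Sx3a_545

/-!
# Row 17: local expansion of double sums `Σ_a Σ_c` (part supported on common primes)

For `a, c ∈ Sm m` there are unique `t, e, a', b ∈ Sm m` with
`a = t a'`, `c = e b`, `rad t = rad e`, `(a', e) = (b, e) = 1`, `(b, a') = 1`
(`t, e` : the parts of `a, c` supported on the common primes).
`tsum_expand` : the corresponding identity of absolutely convergent double sums.
-/

set_option autoImplicit false

noncomputable section

namespace Crest.Agent.R017.Sx545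

open Crest.Agent.R012 Crest.Agent.R012.Eis Crest.Agent.R012.Mob705

variable {m : Eis}

/-- every prime factor of `e` divides `a`. -/
def Supp (e a : Eis) : Prop := ∀ p, Prime p → p ∣ e → p ∣ a

lemma Supp.refl (e : Eis) : Supp e e := fun _ _ h => h

lemma supp_one (a : Eis) : Supp 1 a := fun p hp h => absurd (isUnit_of_dvd_one h) hp.not_isUnit

lemma Supp.isCoprime {e a b : Eis} (h : Supp e a) (he : e ≠ 0) (hb : IsCoprime b a) :
    IsCoprime b e := by
  refine isCoprime_of_prime_dvd (fun h' => he h'.2) (fun p hp hpb hpe => ?_)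
  exact hp.not_isUnit (hb.isUnit_of_dvd' hpb (h p hp hpe))

lemma isCoprime_iff_prime {a b : Eis} (ha : a ≠ 0) :
    IsCoprime a b ↔ ∀ p, Prime p → p ∣ a → ¬ p ∣ b := by
  constructor
  · intro h p hp h1 h2
    exact hp.not_isUnit (h.isUnit_of_dvd' h1 h2)
  · intro h
    exact isCoprime_of_prime_dvd (fun h' => ha h'.1) (fun p hp h1 h2 => h p hp h1 h2)

/-- existence of the decomposition `c = e b`, `e` supported on the primes of `a`, `(b,a) = 1`. -/
lemma exists_part (a : Eis) {c : Eis} (hc : Sm m c) :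
    ∃ e b, c = e * b ∧ Sm m e ∧ Sm m b ∧ Supp e a ∧ IsCoprime b a := by
  refine Sm.induction_coprime (m := m) (P := fun c => ∃ e b, c = e * b ∧ Sm m e ∧ Sm m b ∧
    Supp e a ∧ IsCoprime b a) ?_ ?_ c hc
  · exact ⟨1, 1, by ring, Sm.one m, Sm.one m, supp_one a, isCoprime_one_left⟩
  · rintro p k b0 hp hpp hk hb0 hpb0 ⟨e, b, rfl, he, hb, hea, hba⟩
    by_cases hpa : p ∣ a
    · refine ⟨p ^ k * e, b, by ring, (hp.pow k).mul he, hb, ?_, hba⟩
      intro q hq hqe
      rcases hq.dvd_or_dvd hqe with h | h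
      · have h1 : q ∣ p := hq.dvd_of_dvd_pow h
        exact h1.trans hpa
      · exact hea q hq h
    · refine ⟨e, p ^ k * b, by ring, he, (hp.pow k).mul hb, hea, ?_⟩
      refine IsCoprime.mul_left ?_ hba
      exact (hpp.irreducible.coprime_iff_not_dvd.mpr hpa).pow_left

/-- uniqueness. -/
lemma part_unique {a e b e' b' : Eis} (he : Sm m e) (hb : Sm m b) (he' : Sm m e')
    (hea : Supp e a) (hba : IsCoprime b a) (hea' : Supp e' a) (hba' : IsCoprime b' a)
    (h : e * b = e' * b') : e = e' ∧ b = b' := by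
  have h1 : IsCoprime b' e := hea.isCoprime he.ne_zero hba'
  have h2 : IsCoprime b e' := hea'.isCoprime he'.ne_zero hba
  have h3 : e ∣ e' := h1.symm.dvd_of_dvd_mul_right (h ▸ dvd_mul_right e b)
  have h4 : e' ∣ e := h2.symm.dvd_of_dvd_mul_right (h ▸ dvd_mul_right e' b')
  have h5 : e = e' := he.prim.eq_of_associated he'.prim (associated_of_dvd_dvd h3 h4)
  refine ⟨h5, ?_⟩
  subst h5
  exact mul_left_cancel₀ he.ne_zero h

/-- the index condition of the expansion. -/
structure Adm (m t e a' b : Eis) : Prop where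
  ht : Sm m t
  he : Sm m e
  ha : Sm m a'
  hb : Sm m b
  te : Supp t e
  et : Supp e t
  ae : IsCoprime a' e
  be : IsCoprime b e
  ab : IsCoprime a' b

namespace Adm

variable {t e a' b : Eis}

lemma at' (h : Adm m t e a' b) : IsCoprime a' t := h.te.isCoprime h.ht.ne_zero h.ae
lemma bt (h : Adm m t e a' b) : IsCoprime b t := h.te.isCoprime h.ht.ne_zero h.be
lemma sa (h : Adm m t e a' b) : Sm m (t * a') := h.ht.mul h.ha
lemma sc (h : Adm m t e a' b) : Sm m (e * b) := h.he.mul h.hb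

/-- `e` is the part of `c = e b` supported on `a = t a'`. -/
lemma e_supp (h : Adm m t e a' b) : Supp e (t * a') := fun p hp hpe =>
  (h.et p hp hpe).mul_right a'
lemma b_cop (h : Adm m t e a' b) : IsCoprime b (t * a') := h.bt.mul_right h.ab.symm

end Adm

lemma exists_adm {a c : Eis} (ha : Sm m a) (hc : Sm m c) :
    ∃ t e a' b, Adm m t e a' b ∧ a = t * a' ∧ c = e * b := by
  obtain ⟨e, b, rfl, he, hb, hea, hba⟩ := exists_part (m := m) a hc
  obtain ⟨t, a', rfl, ht, ha', hte, hae⟩ := exists_part (m := m) e ha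
  refine ⟨t, e, a', b, ⟨ht, he, ha', hb, hte, ?_, hae, ?_, ?_⟩, rfl, rfl⟩
  · intro p hp hpe
    rcases hp.dvd_or_dvd (hea p hp hpe) with h | h
    · exact h
    · exact absurd (hae.isUnit_of_dvd' h hpe) hp.not_isUnit
  · exact hea.isCoprime he.ne_zero hba
  · exact (hba.of_mul_right_right).symm

lemma adm_unique {t e a' b t1 e1 a1 b1 : Eis} (h : Adm m t e a' b) (h1 : Adm m t1 e1 a1 b1)
    (hA : t * a' = t1 * a1) (hC : e * b = e1 * b1) : t = t1 ∧ e = e1 ∧ a' = a1 ∧ b = b1 := by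
  have h2 := part_unique h.he h.hb h1.he h.e_supp h.b_cop (hA ▸ h1.e_supp) (hA ▸ h1.b_cop) hC
  obtain ⟨rfl, rfl⟩ := h2
  have h3 := part_unique h.ht h.ha h1.ht h.te h.ae h1.te h1.ae hA
  exact ⟨h3.1, rfl, h3.2, rfl⟩

/-- the index set, `x = ((t, e), (a', b))` -/
def AdmSet (m : Eis) : Set ((Eis × Eis) × (Eis × Eis)) := {x | Adm m x.1.1 x.1.2 x.2.1 x.2.2}

/-- the map `((t,e),(a',b)) ↦ (t a', e b)`. -/
def admMap (x : (Eis × Eis) × (Eis × Eis)) : Eis × Eis := (x.1.1 * x.2.1, x.1.2 * x.2.2)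

/-- the set of pairs -/
def SS (m : Eis) : Set (Eis × Eis) := {x | Sm m x.1 ∧ Sm m x.2}

/-- the pairs `(t, e)` with the same prime factors -/
def RR (m : Eis) : Set (Eis × Eis) := {x | Sm m x.1 ∧ Sm m x.2 ∧ Supp x.1 x.2 ∧ Supp x.2 x.1}

lemma admMap_injOn : Set.InjOn admMap (AdmSet m) := by
  rintro ⟨⟨t, e⟩, ⟨a', b⟩⟩ h ⟨⟨t1, e1⟩, ⟨a1, b1⟩⟩ h1 heq
  simp only [admMap, Prod.mk.injEq] at heq
  obtain ⟨h2, h3, h4, h5⟩ := adm_unique h h1 heq.1 heq.2
  simp only at h2 h3 h4 h5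
  subst h2 h3 h4 h5
  rfl

lemma admMap_image : admMap '' (AdmSet m) = SS m := by
  ext ⟨a, c⟩
  constructor
  · rintro ⟨⟨⟨t, e⟩, ⟨a', b⟩⟩, h, heq⟩
    simp only [admMap, Prod.mk.injEq] at heq
    rw [← heq.1, ← heq.2]
    exact ⟨Adm.sa h, Adm.sc h⟩
  · rintro ⟨ha, hc⟩
    obtain ⟨t, e, a', b, h, h1, h2⟩ := exists_adm ha hc
    exact ⟨((t, e), (a', b)), h, Prod.ext h1.symm h2.symm⟩

/-- the equivalence of the index sets -/
def admEquiv (m : Eis) : AdmSet m ≃ SS m :=
  (Equiv.Set.imageOfInjOn admMap (AdmSet m) admMap_injOn).trans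
    (Equiv.setCongr admMap_image)

lemma admEquiv_apply (x : AdmSet m) : ((admEquiv m x : SS m) : Eis × Eis) = admMap x := rfl

open Classical in
/-- **the expansion**, general form. -/
theorem summable_expand {F : Eis × Eis → ℂ} (hF : Summable fun x => if x ∈ SS m then F x else 0) :
    Summable (fun x : (Eis × Eis) × (Eis × Eis) => if x ∈ AdmSet m then F (admMap x) else 0) := by
  have h1 : Summable (fun x : SS m => F x) := by
    have := hF.subtype (SS m)
    refine this.congr fun x => ?_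
    simp
  have h2 : Summable (fun x : AdmSet m => F (admMap x)) := by
    have := ((admEquiv m).summable_iff (f := fun x : SS m => F x)).mpr h1
    exact this
  have h3 := summable_subtype_iff_indicator (s := AdmSet m) (f := fun x => F (admMap x))
  have h4 := h3.mp h2
  refine h4.congr fun x => ?_
  simp [Set.indicator_apply]

open Classical in
theorem tsum_expand (F : Eis × Eis → ℂ) :
    ∑' x : Eis × Eis, (if x ∈ SS m then F x else 0) =
      ∑' x : (Eis × Eis) × (Eis × Eis), if x ∈ AdmSet m then F (admMap x) else 0 := by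
  have h1 : ∑' x : Eis × Eis, (if x ∈ SS m then F x else 0) = ∑' x : SS m, F x := by
    rw [tsum_subtype (SS m) F]
    refine tsum_congr fun x => ?_
    simp [Set.indicator_apply]
  have h2 : ∑' x : (Eis × Eis) × (Eis × Eis), (if x ∈ AdmSet m then F (admMap x) else 0) =
      ∑' x : AdmSet m, F (admMap x) := by
    rw [tsum_subtype (AdmSet m) (fun x => F (admMap x))]
    refine tsum_congr fun x => ?_
    simp [Set.indicator_apply]
  rw [h1, h2]
  exact ((admEquiv m).tsum_eq (fun x : SS m => F x)).symm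

/-! ### application to Gauss sums -/

variable {n : ℕ} {σ : Eis → Eis → ℂ}

/-- the twist of the expansion -/
def twE (σ : Eis → Eis → ℂ) (q : ℕ) (t e a' b : Eis) : ℂ :=
  (starRingEnd ℂ) (σ a' e) ^ q * (σ b e * σ e b) * (starRingEnd ℂ) (σ t b) ^ q *
    (starRingEnd ℂ) (σ a' b) ^ q

namespace Res

variable (H : Res n m σ)
include H

/-- the value of the Gauss sum at a decomposed pair. -/
theorem gR_adm (r : Eis) (q : ℕ) {t e a' b : Eis} (h : Adm m t e a' b) :
    gR σ (r * (t * a') ^ q) (e * b) = gR σ (r * t ^ q) e * twE σ q t e a' b * gR σ r b := by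
  have h1 : gR σ (r * (t * a') ^ q) e = (starRingEnd ℂ) (σ a' e) ^ q * gR σ (r * t ^ q) e := by
    have e1 : r * (t * a') ^ q = r * t ^ q * a' ^ q := by ring
    rw [e1, H.gR_mul_left h.he _ (h.ae.pow_left), H.pow_left a' h.he, map_pow]
  have h2 : gR σ (r * (t * a') ^ q) b =
      (starRingEnd ℂ) (σ t b) ^ q * (starRingEnd ℂ) (σ a' b) ^ q * gR σ r b := by
    have hc : IsCoprime (t * a') b := IsCoprime.mul_left h.bt.symm h.ab
    rw [H.gR_mul_left h.hb _ hc.pow_left, H.pow_left _ h.hb, H.mul_left _ _ _ h.hb, mul_pow,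
      map_mul, map_pow, map_pow]
  rw [H.gR_crt h.he h.hb h.be.symm, h1, h2]
  unfold twE
  ring

/-- the twist vanishes outside the index set. -/
lemma twE_eq_zero {q : ℕ} (hq : q ≠ 0) {t e a' b : Eis} (he : Sm m e)
    (hb : Sm m b) (h : ¬ (IsCoprime a' e ∧ IsCoprime b e ∧ IsCoprime a' b)) :
    twE σ q t e a' b = 0 := by
  unfold twE
  by_cases h1 : IsCoprime a' e
  · by_cases h2 : IsCoprime b e
    · by_cases h3 : IsCoprime a' b
      · exact absurd ⟨h1, h2, h3⟩ h
      · rw [(H.eq_zero a' b hb).mpr h3, map_zero, zero_pow hq, mul_zero]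
    · rw [(H.eq_zero b e he).mpr h2]; ring
  · rw [(H.eq_zero a' e he).mpr h1, map_zero, zero_pow hq]; ring

open Classical in
/-- pointwise form of the expansion. -/
lemma expand_term (r : Eis) {q : ℕ} (hq : q ≠ 0) (Φ : Eis → Eis → ℂ)
    (x : (Eis × Eis) × (Eis × Eis)) :
    (if x ∈ AdmSet m then gR σ (r * (admMap x).1 ^ q) (admMap x).2 * Φ (admMap x).1 (admMap x).2
      else 0) =
    (if x.1 ∈ RR m then gR σ (r * x.1.1 ^ q) x.1.2 * (if x.2 ∈ SS m then
      twE σ q x.1.1 x.1.2 x.2.1 x.2.2 * gR σ r x.2.2 * Φ (x.1.1 * x.2.1) (x.1.2 * x.2.2) else 0)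
      else 0) := by
  obtain ⟨⟨t, e⟩, ⟨a', b⟩⟩ := x
  by_cases h : ((t, e), (a', b)) ∈ AdmSet m
  · have h' : Adm m t e a' b := h
    have h1 : (t, e) ∈ RR m := ⟨h'.ht, h'.he, h'.te, h'.et⟩
    have h2 : (a', b) ∈ SS m := ⟨h'.ha, h'.hb⟩
    rw [if_pos h]
    simp only [if_pos h1, if_pos h2, admMap]
    rw [H.gR_adm r q h']; ring
  · rw [if_neg h]
    simp only
    by_cases h1 : (t, e) ∈ RR m
    · rw [if_pos h1]
      by_cases h2 : (a', b) ∈ SS m
      · rw [if_pos h2]
        have h3 : ¬ (IsCoprime a' e ∧ IsCoprime b e ∧ IsCoprime a' b) := by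
          rintro ⟨h4, h5, h6⟩
          exact h ⟨h1.1, h1.2.1, h2.1, h2.2, h1.2.2.1, h1.2.2.2, h4, h5, h6⟩
        rw [H.twE_eq_zero hq h1.2.1 h2.2 h3]; ring
      · rw [if_neg h2, mul_zero]
    · rw [if_neg h1]

open Classical in
/-- **local expansion of natural sums of Gauss sums** (all frequencies `r a^q`, `a ∈ Sm m`). -/
theorem expand (r : Eis) {q : ℕ} (hq : q ≠ 0) (Φ : Eis → Eis → ℂ)
    (hs : Summable fun x : Eis × Eis =>
      if x ∈ SS m then gR σ (r * x.1 ^ q) x.2 * Φ x.1 x.2 else 0) :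
    ∑' x : Eis × Eis, (if x ∈ SS m then gR σ (r * x.1 ^ q) x.2 * Φ x.1 x.2 else 0) =
      ∑' te : Eis × Eis, if te ∈ RR m then gR σ (r * te.1 ^ q) te.2 *
        (∑' ab : Eis × Eis, if ab ∈ SS m then
          twE σ q te.1 te.2 ab.1 ab.2 * gR σ r ab.2 * Φ (te.1 * ab.1) (te.2 * ab.2) else 0)
        else 0 := by
  have h1 := summable_expand (F := fun x => gR σ (r * x.1 ^ q) x.2 * Φ x.1 x.2) hs
  rw [tsum_expand (F := fun x => gR σ (r * x.1 ^ q) x.2 * Φ x.1 x.2)]
  have h2 : ∀ x, (if x ∈ AdmSet m then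
      (fun x : Eis × Eis => gR σ (r * x.1 ^ q) x.2 * Φ x.1 x.2) (admMap x) else 0) =
      (if x.1 ∈ RR m then gR σ (r * x.1.1 ^ q) x.1.2 * (if x.2 ∈ SS m then
        twE σ q x.1.1 x.1.2 x.2.1 x.2.2 * gR σ r x.2.2 * Φ (x.1.1 * x.2.1) (x.1.2 * x.2.2) else 0)
        else 0) := fun x => H.expand_term r hq Φ x
  rw [tsum_congr h2]
  have h3 := h1.congr (fun x => (h2 x))
  rw [Summable.tsum_prod h3]
  refine tsum_congr fun te => ?_
  by_cases h : te ∈ RR m
  · simp only [if_pos h]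
    rw [tsum_mul_left]
  · simp [h]

open Classical in
/-- summability of the expanded family. -/
theorem summable_expand' (r : Eis) {q : ℕ} (hq : q ≠ 0) (Φ : Eis → Eis → ℂ)
    (hs : Summable fun x : Eis × Eis =>
      if x ∈ SS m then gR σ (r * x.1 ^ q) x.2 * Φ x.1 x.2 else 0) :
    Summable fun x : (Eis × Eis) × (Eis × Eis) =>
      (if x.1 ∈ RR m then gR σ (r * x.1.1 ^ q) x.1.2 * (if x.2 ∈ SS m then
        twE σ q x.1.1 x.1.2 x.2.1 x.2.2 * gR σ r x.2.2 * Φ (x.1.1 * x.2.1) (x.1.2 * x.2.2) else 0)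
        else 0) :=
  (summable_expand (F := fun x => gR σ (r * x.1 ^ q) x.2 * Φ x.1 x.2) hs).congr
    (fun x => (H.expand_term r hq Φ x))

end Res

end Crest.Agent.R017.Sx545
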