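import Crest.Agent.R017.E4Yk_792
import Crest.Agent.R017.Sx3b_545

/-!
# Row 17, E4 v6: the `y`-side with the fixed symbol `f` in `y` (helper792)

* `norm_mulw_le` : `CS` of `tws Z q g (wD D D1 (mulw f W))` in terms of
  `tws (Z / f2) q g (wD D (D1 / f1) W)`, `f = f1 f2 f3`
* `YG_mulw` : the list form with `mulw f`
-/

set_option autoImplicit false
set_option linter.unusedSectionVars false
set_option linter.unusedVariables false

noncomputable section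

open Complex
open scoped ComplexConjugate

namespace Crest.Agent.R017.E4Yb792

open Crest.Agent.R012 Crest.Agent.R012.Eis Crest.Agent.R012.LS2
open Crest.Agent.R012.GaussLoc283
open Crest.Agent.R012.Gauss880 (syG)
open Crest.Agent.R012.Div277 (tau dvs mem_dvs tau_le_rpow)
open Crest.Agent.R012.PSer47 (IsChar)
open Crest.Agent.R012.Mob705 (exists_common_pp)
open Crest.Agent.R017.CM106 Crest.Agent.R017.HP842
open Crest.Agent.R017.FE47 (cx PU)
open Crest.Agent.R017.XC858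
open Crest.Agent.R017.End699 (HC prin0)
open Crest.Agent.R017.B770
open Crest.Agent.R017.Prov71
open Crest.Agent.R017.Rough381
open Crest.Agent.R017.E4J792
open Crest.Agent.R017.E4352 (TwC PrI tws)
open Crest.Agent.R017.Sx545 (Sm)
open Crest.Agent.R017.E4o502 (wD)
open Crest.Agent.R017.E4Y679 (LM mem_LM card_LM MuP MuP_tw)
open Crest.Agent.R017.E4D164 (ww pu mulw mulw_mul mulw_ne)

/-- **the fixed symbol** -/
theorem norm_mulw_le {M f q D D1 Z k : Eis} {g W : Eis → ℂ} (hf : Sm M f) (hD : IsPrim D)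
    (hD1 : IsPrim D1) (hdv : D1 ∣ D) (hDq : IsCoprime D q) (hZ : PrI q Z)
    (hg : ∀ a b, IsPrim a → IsPrim b → IsCoprime a q → IsCoprime b q → g (a * b) = g a * g b)
    (hg1 : ∀ a, IsPrim a → IsCoprime a q → ‖g a‖ ≤ 1) (hW : ∀ y, W y ≠ 0 → IsPrim y) :
    CS (tws Z q g (wD D D1 (mulw f W))) k = 0 ∨ ∃ f1 f2 f3 D1' Z' : Eis, f = f1 * f2 * f3 ∧
      Sm M f1 ∧ Sm M f2 ∧ Sm M f3 ∧ D1 = f1 * D1' ∧ Z = f2 * Z' ∧ IsCoprime f3 D1 ∧
      IsCoprime f3 q ∧ PrI q f2 ∧ PrI D1 f1 ∧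
      ‖CS (tws Z q g (wD D D1 (mulw f W))) k‖ ≤ ‖CS (tws Z' q g (wD D D1' W)) k‖ := by
  classical
  obtain ⟨f1, f', rfl, hf1, hf', hs1, hc1⟩ := Sx545.exists_part D1 hf
  obtain ⟨f2, f3, rfl, hf2, hf3, hs2, hc2⟩ := Sx545.exists_part q hf'
  have hf0 : f1 * (f2 * f3) ≠ 0 := hf.ne_zero
  have hD1q : IsCoprime D1 q := hDq.of_isCoprime_of_dvd_left hdv
  have hZ0 : Z ≠ 0 := hZ.1.ne_zero
  have hD10 : D1 ≠ 0 := hD1.ne_zero
  -- vanishing
  have hkey : ∀ y, tws Z q g (wD D D1 (mulw (f1 * (f2 * f3)) W)) y ≠ 0 →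
      IsCoprime y q ∧ IsCoprime (Z * y) D ∧ f1 ∣ D1 ∧ f2 ∣ Z ∧ f3 ∣ y := by
    intro y hy
    unfold tws at hy
    split_ifs at hy with h1
    · have h2 := right_ne_zero_of_mul hy
      unfold E4o502.wD tws at h2
      split_ifs at h2 with h3
      · have h4 := right_ne_zero_of_mul h2
        obtain ⟨t, ht, hWt⟩ := mulw_ne hf0 h4
        have hd : f1 * (f2 * f3) ∣ D1 * (Z * y) := ⟨t, ht⟩
        refine ⟨h1, h3, ?_, ?_, ?_⟩
        · -- f1
          have c1 : IsCoprime f1 (Z * y) := by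
            have : IsCoprime (Z * y) D1 := h3.of_isCoprime_of_dvd_right hdv
            exact E4D164.cop_PrI (M := D1) (g := f1) ⟨hf1.1, hs1⟩ this
          exact c1.dvd_of_dvd_mul_right ((dvd_mul_right _ _).trans hd)
        · have c1 : IsCoprime f2 (D1 * y) := by
            have : IsCoprime (D1 * y) q := hD1q.mul_left h1
            exact E4D164.cop_PrI (M := q) (g := f2) ⟨hf2.1, hs2⟩ this
          have hd' : f2 ∣ Z * (D1 * y) := by
            have : f2 ∣ D1 * (Z * y) := ((dvd_mul_right _ _).mul_left _).trans hd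
            rwa [show D1 * (Z * y) = Z * (D1 * y) by ring] at this
          exact c1.dvd_of_dvd_mul_right hd'
        · have c1 : IsCoprime f3 (D1 * Z) := by
            refine IsCoprime.mul_right (hc1.of_mul_left_right) ?_
            exact (E4D164.cop_PrI (M := q) (g := Z) hZ hc2).symm
          have hd' : f3 ∣ (D1 * Z) * y := by
            have : f3 ∣ D1 * (Z * y) := ((dvd_mul_left _ _).mul_left _).trans hd
            rwa [← mul_assoc] at this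
          exact c1.dvd_of_dvd_mul_left hd'
      · exact absurd rfl h2
    · exact absurd rfl hy
  by_cases hall : ∀ y, tws Z q g (wD D D1 (mulw (f1 * (f2 * f3)) W)) y = 0
  · left
    unfold CS
    simp [hall]
  push Not at hall
  obtain ⟨y₀, hy₀⟩ := hall
  obtain ⟨-, -, ⟨D1', rfl⟩, ⟨Z', rfl⟩, -⟩ := hkey y₀ hy₀
  right
  refine ⟨f1, f2, f3, D1', Z', by ring, hf1, hf2, hf3, rfl, rfl, hc1.of_mul_left_right,
    hc2, ⟨hf2.1, hs2⟩, ⟨hf1.1, hs1⟩, ?_⟩
  have hD1' : IsPrim D1' := hD1.of_mul_left hf1.1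
  have hZ' : IsPrim Z' := hZ.1.of_mul_left hf2.1
  set κ : ℂ := if IsCoprime f3 q ∧ IsCoprime (f2 * f3) D then g f3 * conj (sy (f2 * f3) D) else 0
    with hκ
  have hκ1 : ‖κ‖ ≤ 1 := by
    rw [hκ]
    split_ifs with h
    · rw [norm_mul, RCLike.norm_conj]
      exact mul_le_one₀ (hg1 _ hf3.1 h.1) (norm_nonneg _) (Char766.norm_sy_le hD)
    · rw [norm_zero]; exact zero_le_one
  have hval : ∀ y, tws (f2 * Z') q g (wD D (f1 * D1') (mulw (f1 * (f2 * f3)) W)) (f3 * y) =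
      κ * tws Z' q g (wD D D1' W) y := by
    intro y
    have e0 : f1 * D1' * (f2 * Z' * (f3 * y)) = f1 * (f2 * f3) * (D1' * (Z' * y)) := by ring
    by_cases hWy : W (D1' * (Z' * y)) = 0
    · have l : tws (f2 * Z') q g (wD D (f1 * D1') (mulw (f1 * (f2 * f3)) W)) (f3 * y) = 0 := by
        unfold tws E4o502.wD tws
        rw [e0, mulw_mul hf0, hWy]
        simp
      have r : tws Z' q g (wD D D1' W) y = 0 := by
        unfold tws E4o502.wD tws
        rw [hWy]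
        simp
      rw [l, r, mul_zero]
    have hyp : IsPrim y := ((hW _ hWy).of_mul_left hD1').of_mul_left hZ'
    unfold tws E4o502.wD tws
    rw [e0, mulw_mul hf0]
    have i1 : IsCoprime (f3 * y) q ↔ IsCoprime f3 q ∧ IsCoprime y q :=
      IsCoprime.mul_left_iff
    have i2 : IsCoprime (f2 * Z' * (f3 * y)) D ↔ IsCoprime (f2 * f3) D ∧ IsCoprime (Z' * y) D := by
      rw [show f2 * Z' * (f3 * y) = (f2 * f3) * (Z' * y) by ring]
      exact IsCoprime.mul_left_iff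
    by_cases hy : IsCoprime y q
    · rw [if_pos hy]
      by_cases h3 : IsCoprime f3 q
      · rw [if_pos (i1.2 ⟨h3, hy⟩), hg _ _ hf3.1 hyp h3 hy]
        by_cases h4 : IsCoprime (Z' * y) D
        · rw [if_pos h4]
          by_cases h5 : IsCoprime (f2 * f3) D
          · rw [if_pos (i2.2 ⟨h5, h4⟩), hκ, if_pos ⟨h3, h5⟩]
            rw [show f2 * Z' * (f3 * y) = (f2 * f3) * (Z' * y) by ring]
            beta_reduce
            rw [syAx.mul_left (f2 * f3) (Z' * y) D hD, map_mul]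
            ring
          · rw [if_neg (fun h => h5 (i2.1 h).1), hκ, if_neg (fun h => h5 h.2)]
            ring
        · rw [if_neg h4, if_neg (fun h => h4 (i2.1 h).2)]
          ring
      · rw [if_neg (fun h => h3 (i1.1 h).1), hκ, if_neg (fun h => h3 h.1)]
        ring
    · rw [if_neg hy, if_neg (fun h => hy (i1.1 h).2)]
      ring
  have hcs : CS (tws (f2 * Z') q g (wD D (f1 * D1') (mulw (f1 * (f2 * f3)) W))) k =
      κ * sy k f3 * CS (tws Z' q g (wD D D1' W)) k := by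
    have hinj : Function.Injective (fun y : Eis => f3 * y) := mul_right_injective₀ hf3.ne_zero
    unfold CS
    rw [← hinj.tsum_eq (f := fun Y => tws (f2 * Z') q g (wD D (f1 * D1')
      (mulw (f1 * (f2 * f3)) W)) Y * sy k Y), ← tsum_mul_left]
    · refine tsum_congr fun y => ?_
      rw [hval y]
      by_cases hWy : W (D1' * (Z' * y)) = 0
      · have r : tws Z' q g (wD D D1' W) y = 0 := by
          unfold tws E4o502.wD tws
          rw [hWy]
          simp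
        rw [r]
        ring
      have hyp : IsPrim y := ((hW _ hWy).of_mul_left hD1').of_mul_left hZ'
      rw [syAx.mul_right _ _ _ hf3.1 hyp]
      ring
    · intro Y hY
      have h1 := left_ne_zero_of_mul (Function.mem_support.mp hY)
      obtain ⟨-, -, -, -, ⟨y, rfl⟩⟩ := hkey Y h1
      exact ⟨y, rfl⟩
  rw [hcs, norm_mul, norm_mul]
  refine mul_le_of_le_one_left (norm_nonneg _) ?_
  exact mul_le_one₀ hκ1 (norm_nonneg _) (Char766.norm_sy_le hf3.1)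

lemma norm_tw1 {M' : Eis} {η : Eis → ℂ} (hη : HC M' η) (j : ℤ) {y : Eis} (hy : IsPrim y) :
    ‖End699.tw η j y‖ ≤ 1 := (hη.isChar_tw j).norm_le hy

set_option maxHeartbeats 2000000 in
/-- **the `y`-side with the fixed symbol, list form, arbitrary finite index set** -/
theorem YG_mulw {h : ℝ → ℝ} {c : ℝ} (hpu : PU h c) (N : ℕ) {ε : ℝ} (hε : 0 < ε) {B₀ : ℝ}
    (hB₀ : 0 ≤ B₀) (M₁ : ℝ) : ∃ C r : ℝ, 1 ≤ C ∧ 0 ≤ r ∧ ∀ X : ℝ, 3 ≤ X →
    ∀ (P P₁ P₂ : DPar), (∀ k : Kd, IsChar (chK P k)) →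
    ∀ ps₁ ps₂ : List Pq, ps₁.length ≤ N → ps₂.length ≤ N →
    (∀ p ∈ ps₁, p.z ≤ B₀ * Real.log X) → (∀ p ∈ ps₂, p.z ≤ B₀ * Real.log X) →
    ∀ (M M' B z f : Eis) (η : Eis → ℂ) (j : ℤ) (ξ : ℝ) (hMB : M * B ≠ 0), Sm M f →
    PrI M z → HC M' η → (∀ p : Eis, Prime p → p ∣ M' → p ∣ M) →
    (∀ p ∈ ps₁, ∀ b, IsPrim b → chK P₁ p.kd b = chK P p.kd b * End699.tw η j b) →
    (∀ p ∈ ps₂, ∀ b, IsPrim b → chK P₂ p.kd b = chK P p.kd b *
      (conj (End699.tw η j b) * conj (End699.tw η j b))) →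
    ∀ (h₁ : FS (alL h (ps₁.map (Pq.pc P)))) (h₂ : FS (alL h (ps₂.map (Pq.pc P))))
      (α : Type) (E : Finset α) (nu D D1 bb Zt k : α → Eis) (g : α → Eis → ℂ),
    (∀ e ∈ E, IsPrim (nu e) ∧ Sm M (D e) ∧ IsPrim (D1 e) ∧ D1 e ∣ D e ∧ Squarefree (D1 e) ∧
      IsCoprime (D e) (B * bb e) ∧ Sm M (B * bb e) ∧ IsPrim (bb e) ∧ PrI (B * bb e) (Zt e) ∧
      k e ≠ 0) →
    (∀ e ∈ E, ∀ y, IsPrim y → IsCoprime y (B * bb e) →
      g e y = sy y (bb e) * (End699.tw η j y * (nm y : ℂ) ^ (I * ξ))) →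
    ∀ Λ : ℝ, Λ ≤ X ^ B₀ → (∀ e ∈ E, (nm (KG (bb e) (nu e) (D e) (k e)) : ℝ) ≤ Λ) →
    ∀ Q : Eis → Prop, (∀ e ∈ E, Q (KG (bb e) (nu e) (D e) (k e))) →
    ∀ T₀ : ℝ, 1 ≤ T₀ → (∀ K, (open Classical in
      ((E.filter (fun e => KG (bb e) (nu e) (D e) (k e) = K)).card : ℝ)) ≤ T₀) →
    ∀ Bd : ℝ, 0 ≤ Bd →
    (∀ e ∈ E, ∀ f1 f2 f3 D1' Z' : Eis, f = f1 * f2 * f3 → Sm M f1 → Sm M f2 → Sm M f3 →
      D1 e = f1 * D1' → Zt e = f2 * Z' → IsCoprime f3 (D1 e) → IsCoprime f3 (B * bb e) →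
      PrI (B * bb e) f2 →
      ∀ l m : Eis, IsPrim l → IsPrim m → l * m ^ 2 = z * Z' →
      ∀ ps₁' ps₂' : List Pq,
      List.Forall₂ (Ch r) ps₁' (ps₁.map (shf (M * B) hMB ξ)) →
      List.Forall₂ (Ch r) ps₂' (ps₂.map (shf (M * B) hMB (-2 * ξ))) →
      |Ls ps₁ - Ls ps₁' - (Real.log (nm l) + Real.log (nm D1'))| ≤ r →
      |Ls ps₂ - Ls ps₂' - Real.log (nm m)| ≤ r →
      RQ Q h (Real.log Λ) (ps₁'.map (Pq.pc P₁) ++ ps₂'.map (Pq.pc P₂)) ≤
        Bd * (cst ps₁' (ps₁.map (shf (M * B) hMB ξ)) *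
          cst ps₂' (ps₂.map (shf (M * B) hMB (-2 * ξ)))) ^ M₁) →
    ∑ e ∈ E, ‖CS (tws (Zt e) (B * bb e) (g e) (wD (D e) (D1 e) (mulw f
        (ww M (alL h (ps₁.map (Pq.pc P))) (alL h (ps₂.map (Pq.pc P)))
          (h₁.fin.toFinset ×ˢ h₂.fin.toFinset) z (nu e))))) (k e)‖ ^ 2 ≤
      C * X ^ ε * T₀ ^ 5 * Bd := by
  classical
  obtain ⟨C, r, hC, hr, H⟩ := YG_list hpu N hε hB₀ M₁
  refine ⟨C, r, hC, hr, ?_⟩
  intro X hX P P₁ P₂ hP ps₁ ps₂ hlen₁ hlen₂ hz₁ hz₂ M M' B z f η j ξ hMB hf hz hη hM' hc₁ hc₂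
    h₁ h₂ α E nu D D1 bb Zt k g hE hg Λ hΛX hKle Q hQ T₀ hT₀ hmult Bd hBd hyp
  set b₁ := alL h (ps₁.map (Pq.pc P)) with hb₁
  set b₂ := alL h (ps₂.map (Pq.pc P)) with hb₂
  set W : Eis → Eis → ℂ := fun ν => ww M b₁ b₂ (h₁.fin.toFinset ×ˢ h₂.fin.toFinset) z ν with hW
  set G : α → ℂ := fun e => CS (tws (Zt e) (B * bb e) (g e) (wD (D e) (D1 e) (mulw f
        (W (nu e))))) (k e) with hG
  set E₁ : Finset α := E.filter (fun e => G e ≠ 0) with hE₁
  have hch : ∀ e : α, ∃ D1' Z' : Eis, e ∈ E₁ → ∃ f1 f2 f3 : Eis, f = f1 * f2 * f3 ∧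
      Sm M f1 ∧ Sm M f2 ∧ Sm M f3 ∧ D1 e = f1 * D1' ∧ Zt e = f2 * Z' ∧ IsCoprime f3 (D1 e) ∧
      IsCoprime f3 (B * bb e) ∧ PrI (B * bb e) f2 ∧
      ‖G e‖ ≤ ‖CS (tws Z' (B * bb e) (g e) (wD (D e) D1' (W (nu e)))) (k e)‖ := by
    intro e
    by_cases he : e ∈ E₁
    · obtain ⟨he1, he2⟩ := Finset.mem_filter.1 he
      obtain ⟨a1, a2, a3, a4, a5, a6, a7, a8, a9, a10⟩ := hE e he1
      rcases norm_mulw_le (k := k e) (g := g e) (W := W (nu e)) hf a2.1 a3 a4 a6 a9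
        (fun a b ha hb hca hcb => by
          rw [hg e he1 _ (ha.mul hb) (hca.mul_left hcb), hg e he1 a ha hca, hg e he1 b hb hcb,
            syAx.mul_left a b _ a8]
          have h3 := MuP_tw hη j ξ a b ha hb
          beta_reduce at h3
          rw [h3]
          ring)
        (fun a ha hca => by
          rw [hg e he1 a ha hca, norm_mul, norm_mul]
          have h3 : ‖((nm a : ℕ) : ℂ) ^ (I * (ξ : ℂ))‖ = 1 := by
            rw [cpow_osc ha.ne_zero]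
            exact Weight600.norm_osc _ _
          rw [h3, mul_one]
          exact mul_le_one₀ (Char766.norm_sy_le a8) (norm_nonneg _) (norm_tw1 hη j ha))
        (fun y hy => (E4D164.pu_ne hy).1.1) with h0 | ⟨f1, f2, f3, D1', Z', r1, r2, r3, r4, r5, r6, r7, r8, r9, r10, r11⟩
      · exact absurd h0 he2
      · exact ⟨D1', Z', fun _ => ⟨f1, f2, f3, r1, r2, r3, r4, r5, r6, r7, r8, r9, r11⟩⟩
    · exact ⟨1, 1, fun h => absurd h he⟩
  choose D1' Z' hDZ using hch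
  have hsub : ∀ e ∈ E₁, e ∈ E := fun e he => (Finset.mem_filter.1 he).1
  have h3 : ∑ e ∈ E, ‖G e‖ ^ 2 ≤ ∑ e ∈ E₁,
      ‖CS (tws (Z' e) (B * bb e) (g e) (wD (D e) (D1' e) (W (nu e)))) (k e)‖ ^ 2 := by
    rw [hE₁, Finset.sum_filter]
    refine Finset.sum_le_sum fun e he => ?_
    split_ifs with h0
    · obtain ⟨f1, f2, f3, -, -, -, -, -, -, -, -, -, r11⟩ :=
        hDZ e (Finset.mem_filter.2 ⟨he, h0⟩)
      exact pow_le_pow_left₀ (norm_nonneg _) r11 2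
    · rw [not_not.1 h0, norm_zero]
      norm_num
  refine h3.trans ?_
  refine H X hX P P₁ P₂ hP ps₁ ps₂ hlen₁ hlen₂ hz₁ hz₂ M M' B z η j ξ hMB hz hη hM' hc₁ hc₂
    h₁ h₂ α E₁ nu D D1' bb Z' k g ?_ (fun e he => hg e (hsub e he)) Λ hΛX
    (fun e he => hKle e (hsub e he)) Q (fun e he => hQ e (hsub e he)) T₀ hT₀ ?_ Bd hBd ?_
  · intro e he
    obtain ⟨a1, a2, a3, a4, a5, a6, a7, a8, a9, a10⟩ := hE e (hsub e he)
    obtain ⟨f1, f2, f3, r1, r2, r3, r4, r5, r6, r7, r8, r9, r10⟩ := hDZ e he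
    have d1 : D1' e ∣ D1 e := ⟨f1, by rw [r5]; ring⟩
    refine ⟨a1, a2, ?_, d1.trans a4, a5.squarefree_of_dvd d1, a6, a7, a8, ⟨?_, ?_⟩, a10⟩
    · rw [r5] at a3; exact a3.of_mul_left r2.1
    · have := a9.1
      rw [r6] at this
      exact this.of_mul_left r3.1
    · intro p hp hd
      exact a9.2 p hp (hd.trans ⟨f2, by rw [r6]; ring⟩)
  · intro K
    refine le_trans ?_ (hmult K)
    have : (E₁.filter (fun e => KG (bb e) (nu e) (D e) (k e) = K)) ⊆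
        (E.filter (fun e => KG (bb e) (nu e) (D e) (k e) = K)) :=
      Finset.filter_subset_filter _ (Finset.filter_subset _ _)
    have h5 := Finset.card_le_card this
    refine le_trans (le_of_eq ?_) (le_trans (Nat.cast_le (α := ℝ).2 h5) (le_of_eq ?_))
    · congr
    · congr
  · intro e he l m hl hm hlm ps₁' ps₂' c1 c2 l1 l2
    obtain ⟨f1, f2, f3, r1, r2, r3, r4, r5, r6, r7, r8, r9, r10⟩ := hDZ e he
    exact hyp e (hsub e he) f1 f2 f3 (D1' e) (Z' e) r1 r2 r3 r4 r5 r6 r7 r8 r9 l m hl hm hlm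
      ps₁' ps₂' c1 c2 l1 l2

end Crest.Agent.R017.E4Yb792
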