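import Crest.Agent.R017.E4Yb5_792
import Crest.Agent.R017.E4Yg_792
import Crest.Agent.R017.E4Yh_679
import Crest.Agent.R017.E4q_164

/-!
# Row 17, E4 v6: the `y`-side, list form over arbitrary finite index sets (helper792)

* `KG` : the frequency `k ν D² b`
* `YidG_le` : the identity with `D = D0 D1` (679's `Y1gs'`), coprimality to `b` absorbed
* `YG_list` : the second moment of the `y`-side over an arbitrary finite index set
* `norm_mulw_le` : the fixed symbol `f` in `y` (164's `mulw`)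
* `YG_mulw` : list form with the fixed symbol
-/

set_option autoImplicit false
set_option linter.unusedSectionVars false
set_option linter.unusedVariables false

noncomputable section

open Complex
open scoped ComplexConjugate

namespace Crest.Agent.R017.E4Yb792

open Crest.Agent.R012 Crest.Agent.R012.Eis Crest.Agent.R012.LS2
open Crest.Agent.R012.GaussLoc283
open Crest.Agent.R012.Gauss880 (syG)
open Crest.Agent.R012.Div277 (tau dvs mem_dvs tau_le_rpow)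
open Crest.Agent.R012.PSer47 (IsChar)
open Crest.Agent.R012.Mob705 (exists_common_pp)
open Crest.Agent.R012.Weight600 (osc norm_osc osc_add_right osc_add_left osc_ne_zero)
open Crest.Agent.R017.CM106 Crest.Agent.R017.HP842
open Crest.Agent.R017.FE47 (cx PU)
open Crest.Agent.R017.XC858
open Crest.Agent.R017.End699 (HC prin0)
open Crest.Agent.R017.B770
open Crest.Agent.R017.Prov71
open Crest.Agent.R017.Rough381
open Crest.Agent.R017.E4J792
open Crest.Agent.R017.E4352 (TwC PrI tws)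
open Crest.Agent.R017.Sx545 (Sm)
open Crest.Agent.R017.E4Y679 (LM mem_LM card_LM MuP Y1gs' MuP_tw)
open Crest.Agent.R017.E4o502 (wD)
open Crest.Agent.R017.E4D164 (ww pu)

/-- the frequency -/
def KG (b ν D k : Eis) : Eis := k * ν * D ^ 2 * b

lemma dvd_KG_b (b ν D k : Eis) : b ∣ KG b ν D k := ⟨k * ν * D ^ 2, by unfold KG; ring⟩

lemma dvd_KG_D (b ν D k : Eis) : D ∣ KG b ν D k := ⟨k * ν * D * b, by unfold KG; ring⟩

/-- the modulus: coprimality to `b ∣ K` is automatic -/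
lemma CS_fac_mod {θ θ' : Eis → ℂ} {ξ : ℝ} {c : Eis → ℂ} (hc : FS c) {P K : Eis} (hP : IsPrim P)
    (h : ∀ n, IsPrim n → IsCoprime K n → θ n = θ' n) :
    CS (fac θ ξ c P) K = CS (fac θ' ξ c P) K := by
  unfold CS
  refine tsum_congr fun y => ?_
  by_cases h0 : c (P * y) = 0
  · unfold fac tw; rw [h0]; simp
  have hy : IsPrim y := (hc.prim _ h0).of_mul_left hP
  by_cases hK : IsCoprime K y
  · unfold fac tw; rw [h y hy hK]
  · rw [(syG.eq_zero K y hy).2 hK, mul_zero, mul_zero]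

lemma prin0_mod {M B b K n : Eis} (hb : b ∣ K) (hK : IsCoprime K n) :
    prin0 (M * (B * b)) n = prin0 (M * B) n := by
  have h1 : IsCoprime n b := (hK.of_isCoprime_of_dvd_left hb).symm
  rw [show M * (B * b) = (M * B) * b by ring, prin0_mul']
  have e : prin0 b n = 1 := by unfold prin0; rw [if_pos h1]
  rw [e, mul_one]

theorem YidG_le {M B b D E z Z ν d M' : Eis} {η : Eis → ℂ} {j : ℤ} {ξ : ℝ} {g : Eis → ℂ}
    (hM : M ≠ 0) (hq : Sm M (B * b)) (hz : PrI M z) (hZ : PrI (B * b) Z) (hD : Sm M D)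
    (hE : IsPrim E) (hED : E ∣ D) (hEs : Squarefree E) (hDq : IsCoprime D (B * b))
    (hb : IsPrim b) (hη : HC M' η)
    (hg : ∀ y, IsPrim y → IsCoprime y (B * b) →
        g y = sy y b * (End699.tw η j y * (nm y : ℂ) ^ (I * ξ)))
    {b₁ b₂ : Eis → ℂ} (h₁ : FS b₁) (h₂ : FS b₂) :
    ‖CS (tws Z (B * b) g (wD D E (ww M b₁ b₂ (h₁.fin.toFinset ×ˢ h₂.fin.toFinset) z ν))) d‖ ≤
      ∑ x ∈ LM (z * Z),
        ‖CS (fac (th1 M B η j) ξ b₁ (E * x.1)) (KG b ν D d)‖ *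
          ‖CS (fac (th2 M B η j) (-2 * ξ) b₂ x.2) (KG b ν D d)‖ := by
  have hzZ : z * Z ≠ 0 := (hz.1.mul hZ.1).ne_zero
  have hg' : ∀ y, IsPrim y → IsCoprime y (B * b) →
      g y = sy y b * conj (sy y 1) * (End699.tw η j y * (nm y : ℂ) ^ (I * ξ)) := by
    intro y hy hc
    rw [hg y hy hc]
    have : sy y (1 : Eis) = 1 := syAx.one_right y
    rw [this, map_one, mul_one]
  rw [CS_tws_congr hg', Y1gs' hM hq hz hZ hD hE hED hEs hDq hb isPrim_one (MuP_tw hη j ξ) h₁ h₂,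
    norm_mul, RCLike.norm_conj]
  · have e1 : ‖sy Z D‖ ≤ 1 := Char766.norm_sy_le hD.1
    refine (mul_le_of_le_one_left (norm_nonneg _) e1).trans ?_
    refine (norm_sum_le _ _).trans (Finset.sum_le_sum fun x hx => ?_)
    obtain ⟨x1, x2, -⟩ := (mem_LM hzZ).mp hx
    rw [norm_mul, norm_mul, norm_mul, RCLike.norm_conj, RCLike.norm_conj]
    have e2 : ‖sy ν (E * x.1)‖ ≤ 1 := Char766.norm_sy_le (hE.mul x1)
    have e3 : ‖sy ν x.2‖ ≤ 1 := Char766.norm_sy_le x2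
    have e4 : d * ν * D ^ 2 * b * 1 ^ 2 = KG b ν D d := by unfold KG; ring
    rw [e4, CS_tws1 η j ξ h₁ (hE.mul x1), CS_tws2 η j ξ h₂ x2,
      CS_fac_mod (θ' := th1 M B η j) h₁ (hE.mul x1) fun n _ hn => by
        unfold th1; rw [prin0_mod (dvd_KG_b b ν D d) hn],
      CS_fac_mod (θ' := th2 M B η j) h₂ x2 fun n _ hn => by
        unfold th2; rw [prin0_mod (dvd_KG_b b ν D d) hn]]
    refine mul_le_of_le_one_left (by positivity) ?_
    exact mul_le_one₀ e2 (norm_nonneg _) e3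
  · intro y hy
    unfold E4o502.wD tws at hy
    split_ifs at hy with hc
    · have h3 : ww M b₁ b₂ (h₁.fin.toFinset ×ˢ h₂.fin.toFinset) z ν (E * (Z * y)) ≠ 0 :=
        right_ne_zero_of_mul hy
      have h4 := (E4D164.pu_ne h3).1
      exact (h4.1.of_mul_left hE).of_mul_left hZ.1
    · exact absurd rfl hy


set_option maxHeartbeats 2000000 in
/-- **the `y`-side, list form, arbitrary finite index set** -/
theorem YG_list {h : ℝ → ℝ} {c : ℝ} (hpu : PU h c) (N : ℕ) {ε : ℝ} (hε : 0 < ε) {B₀ : ℝ}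
    (hB₀ : 0 ≤ B₀) (M₁ : ℝ) : ∃ C r : ℝ, 1 ≤ C ∧ 0 ≤ r ∧ ∀ X : ℝ, 3 ≤ X →
    ∀ (P P₁ P₂ : DPar), (∀ k : Kd, IsChar (chK P k)) →
    ∀ ps₁ ps₂ : List Pq, ps₁.length ≤ N → ps₂.length ≤ N →
    (∀ p ∈ ps₁, p.z ≤ B₀ * Real.log X) → (∀ p ∈ ps₂, p.z ≤ B₀ * Real.log X) →
    ∀ (M M' B z : Eis) (η : Eis → ℂ) (j : ℤ) (ξ : ℝ) (hMB : M * B ≠ 0),
    PrI M z → HC M' η → (∀ p : Eis, Prime p → p ∣ M' → p ∣ M) →
    (∀ p ∈ ps₁, ∀ b, IsPrim b → chK P₁ p.kd b = chK P p.kd b * End699.tw η j b) →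
    (∀ p ∈ ps₂, ∀ b, IsPrim b → chK P₂ p.kd b = chK P p.kd b *
      (conj (End699.tw η j b) * conj (End699.tw η j b))) →
    ∀ (h₁ : FS (alL h (ps₁.map (Pq.pc P)))) (h₂ : FS (alL h (ps₂.map (Pq.pc P))))
      (α : Type) (E : Finset α) (nu D D1 bb Zt k : α → Eis) (g : α → Eis → ℂ),
    (∀ e ∈ E, IsPrim (nu e) ∧ Sm M (D e) ∧ IsPrim (D1 e) ∧ D1 e ∣ D e ∧ Squarefree (D1 e) ∧
      IsCoprime (D e) (B * bb e) ∧ Sm M (B * bb e) ∧ IsPrim (bb e) ∧ PrI (B * bb e) (Zt e) ∧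
      k e ≠ 0) →
    (∀ e ∈ E, ∀ y, IsPrim y → IsCoprime y (B * bb e) →
      g e y = sy y (bb e) * (End699.tw η j y * (nm y : ℂ) ^ (I * ξ))) →
    ∀ Λ : ℝ, Λ ≤ X ^ B₀ → (∀ e ∈ E, (nm (KG (bb e) (nu e) (D e) (k e)) : ℝ) ≤ Λ) →
    ∀ Q : Eis → Prop, (∀ e ∈ E, Q (KG (bb e) (nu e) (D e) (k e))) →
    ∀ T₀ : ℝ, 1 ≤ T₀ → (∀ K, (open Classical in
      ((E.filter (fun e => KG (bb e) (nu e) (D e) (k e) = K)).card : ℝ)) ≤ T₀) →
    ∀ Bd : ℝ, 0 ≤ Bd →
    (∀ e ∈ E, ∀ l m : Eis, IsPrim l → IsPrim m → l * m ^ 2 = z * Zt e →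
      ∀ ps₁' ps₂' : List Pq,
      List.Forall₂ (Ch r) ps₁' (ps₁.map (shf (M * B) hMB ξ)) →
      List.Forall₂ (Ch r) ps₂' (ps₂.map (shf (M * B) hMB (-2 * ξ))) →
      |Ls ps₁ - Ls ps₁' - (Real.log (nm l) + Real.log (nm (D1 e)))| ≤ r →
      |Ls ps₂ - Ls ps₂' - Real.log (nm m)| ≤ r →
      RQ Q h (Real.log Λ) (ps₁'.map (Pq.pc P₁) ++ ps₂'.map (Pq.pc P₂)) ≤
        Bd * (cst ps₁' (ps₁.map (shf (M * B) hMB ξ)) *
          cst ps₂' (ps₂.map (shf (M * B) hMB (-2 * ξ)))) ^ M₁) →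
    ∑ e ∈ E, ‖CS (tws (Zt e) (B * bb e) (g e) (wD (D e) (D1 e)
        (ww M (alL h (ps₁.map (Pq.pc P))) (alL h (ps₂.map (Pq.pc P)))
          (h₁.fin.toFinset ×ˢ h₂.fin.toFinset) z (nu e)))) (k e)‖ ^ 2 ≤
      C * X ^ ε * T₀ ^ 5 * Bd := by
  classical
  obtain ⟨R₀, hR₀⟩ := bump_of_cs hpu.cs
  set R := max R₀ 0 with hRd
  have hR0 : 0 ≤ R := le_max_right _ _
  have hR : ∀ u, cx h u ≠ 0 → |u| ≤ R := fun u hu => (hR₀ u hu).trans (le_max_left _ _)
  obtain ⟨C₁, hC₁, H⟩ := joint_gen hpu hR0 hR M₁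
  set B₁ : ℝ := N * (B₀ + R) with hB₁
  have hN0 : (0 : ℝ) ≤ N := Nat.cast_nonneg _
  have hB₁0 : 0 ≤ B₁ := by positivity
  obtain ⟨C₂, hC₂, hτ⟩ := divs_pow (N + 2) (ε := ε / 22) (by linarith)
    (B := B₀ + 3 * B₁) (by positivity)
  obtain ⟨C₃, hC₃, hlog⟩ := log_pow_le' (ε := ε / 8) (by linarith) (N + N)
    (B := B₀ + B₁) (by linarith) hC₁
  set r : ℝ := N * (2 * R + 2) + (2 * R + 2) with hr
  have hr0 : 0 ≤ r := by positivity
  refine ⟨C₃ * C₂ ^ 11, r, ?_, hr0, ?_⟩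
  · exact one_le_mul_of_one_le_of_one_le hC₃ (one_le_pow₀ hC₂)
  intro X hX P P₁ P₂ hP ps₁ ps₂ hlen₁ hlen₂ hz₁ hz₂ M M' B z η j ξ hMB hz hη hM' hc₁ hc₂
    h₁ h₂ α E nu D D1 bb Zt k g hE hg Λ hΛX hKle Q hQ T₀ hT₀ hmult Bd hBd hyp
  by_cases hEe : E = ∅
  · subst hEe
    rw [Finset.sum_empty]
    positivity
  obtain ⟨e₀, he₀⟩ := Finset.nonempty_iff_ne_empty.2 hEe
  have hX1 : (1 : ℝ) ≤ X := by linarith
  have hX0 : (0 : ℝ) < X := by linarith
  have hM0 : M ≠ 0 := left_ne_zero_of_mul hMB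
  have hKne : ∀ e ∈ E, KG (bb e) (nu e) (D e) (k e) ≠ 0 := by
    intro e he
    obtain ⟨a1, a2, a3, a4, a5, a6, a7, a8, a9, a10⟩ := hE e he
    unfold KG
    exact mul_ne_zero (mul_ne_zero (mul_ne_zero a10 a1.ne_zero) (pow_ne_zero 2 a2.1.ne_zero))
      a8.ne_zero
  have hΛ1 : 1 ≤ Λ := by
    have h3 := hKle e₀ he₀
    have h4 : (1 : ℝ) ≤ nm (KG (bb e₀) (nu e₀) (D e₀) (k e₀)) := by
      exact_mod_cast nm_pos.2 (hKne e₀ he₀)
    linarith
  have hΛ : 0 < Λ := by linarith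
  set s₁ : Fin ps₁.length → Pc := fun i => (ps₁.get i).pc P with hs₁
  set s₂ : Fin ps₂.length → Pc := fun i => (ps₂.get i).pc P with hs₂
  have hok : ∀ p : Pq, (p.pc P).OK := fun p => ⟨(hP _).mul' (HP842.prin0_isChar _), Real.exp_pos _⟩
  have hs₁OK : ∀ i, (s₁ i).OK := fun i => hok _
  have hs₂OK : ∀ i, (s₂ i).OK := fun i => hok _
  have hb₁ : alL h (ps₁.map (Pq.pc P)) = al h s₁ := alL_get h P ps₁
  have hb₂ : alL h (ps₂.map (Pq.pc P)) = al h s₂ := alL_get h P ps₂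
  -- supports
  have hXe : Real.exp 1 ≤ X := Real.exp_one_lt_d9.le.trans (by linarith)
  have hXB : ∀ y : ℝ, 0 ≤ y → Real.exp y ≤ X ^ y := by
    intro y hy
    calc Real.exp y = (Real.exp 1) ^ y := by rw [← Real.exp_mul, one_mul]
      _ ≤ X ^ y := Real.rpow_le_rpow (Real.exp_pos _).le hXe hy
  set L : ℝ := X ^ (B₀ + R) with hLd
  have hL1 : 1 ≤ L := Real.one_le_rpow hX1 (by linarith)
  have hYL : ∀ p : Pq, p.z ≤ B₀ * Real.log X → (p.pc P).Y * Real.exp R ≤ L := by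
    intro p hp
    show Real.exp p.z * Real.exp R ≤ L
    rw [hLd, Real.rpow_add hX0]
    refine mul_le_mul ?_ (hXB R hR0) (Real.exp_pos _).le (by positivity)
    rw [Real.rpow_def_of_pos hX0]
    exact Real.exp_le_exp.2 (by linarith)
  have hLN : L ^ N = X ^ B₁ := by
    rw [hLd, ← Real.rpow_natCast (X ^ (B₀ + R)) N, ← Real.rpow_mul hX0.le, hB₁, mul_comm (N : ℝ)]
  have hsupp₁ : ∀ n, al h s₁ n ≠ 0 → IsPrim n ∧ (nm n : ℝ) ≤ X ^ B₁ := by
    intro n hn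
    refine ⟨(FS_al hR hs₁OK).prim n hn, ?_⟩
    rw [← hLN]
    exact al_supp hR hs₁OK hL1 (fun i => hYL _ (hz₁ _ (List.get_mem _ _)))
      (by rw [Fintype.card_fin]; exact hlen₁) hn
  have hsupp₂ : ∀ n, al h s₂ n ≠ 0 → IsPrim n ∧ (nm n : ℝ) ≤ X ^ B₁ := by
    intro n hn
    refine ⟨(FS_al hR hs₂OK).prim n hn, ?_⟩
    rw [← hLN]
    exact al_supp hR hs₂OK hL1 (fun i => hYL _ (hz₂ _ (List.get_mem _ _)))
      (by rw [Fintype.card_fin]; exact hlen₂) hn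
  -- characters
  have hθ₁ := isChar_th1 (M := M) (q := B) hη j
  have hθ₂ := isChar_th2 (M := M) (q := B) hη j
  -- the index set
  set Kf : α → Eis := fun e => KG (bb e) (nu e) (D e) (k e) with hKf
  set LMe : α → Finset (Eis × Eis) := fun e => (LM (z * Zt e)).filter fun x =>
    (nm (D1 e * x.1) : ℝ) ≤ X ^ B₁ ∧ (nm x.2 : ℝ) ≤ X ^ B₁ with hLMe
  have hzZ : ∀ e ∈ E, z * Zt e ≠ 0 := fun e he => (hz.1.mul (hE e he).2.2.2.2.2.2.2.2.1.1).ne_zero
  have hLMm : ∀ e ∈ E, ∀ x ∈ LMe e, IsPrim x.1 ∧ IsPrim x.2 ∧ x.1 * x.2 ^ 2 = z * Zt e ∧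
      (nm (D1 e * x.1) : ℝ) ≤ X ^ B₁ ∧ (nm x.2 : ℝ) ≤ X ^ B₁ := by
    intro e he x hx
    rw [hLMe, Finset.mem_filter] at hx
    obtain ⟨x1, x2, x3⟩ := (mem_LM (hzZ e he)).mp hx.1
    exact ⟨x1, x2, x3, hx.2⟩
  set E' : Finset (Σ _ : α, Eis × Eis) := E.sigma LMe with hE'
  have hE'm : ∀ σ ∈ E', σ.1 ∈ E ∧ σ.2 ∈ LMe σ.1 := by
    intro σ hσ
    rw [hE', Finset.mem_sigma] at hσ
    exact hσ
  have hXB₀ : X ^ B₀ ≤ X ^ (B₀ + 3 * B₁) :=
    Real.rpow_le_rpow_of_exponent_le hX1 (by linarith)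
  have hXB1 : X ^ B₁ ≤ X ^ (B₀ + 3 * B₁) :=
    Real.rpow_le_rpow_of_exponent_le hX1 (by linarith)
  have hXB1' : X ^ B₁ ≤ X ^ (B₀ + B₁) :=
    Real.rpow_le_rpow_of_exponent_le hX1 (by linarith)
  -- the divisor bound
  set T : ℝ := C₂ * X ^ (ε / 22) with hTd
  have hT0 : 0 ≤ T := by positivity
  have hT1 : 1 ≤ T := one_le_mul_of_one_le_of_one_le hC₂ (Real.one_le_rpow hX1 (by positivity))
  have hnm1 : ∀ {n : Eis}, n ≠ 0 → (1 : ℝ) ≤ nm n := fun {n} hn => by exact_mod_cast nm_pos.2 hn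
  have hcardLM : ∀ e ∈ E, ((LMe e).card : ℝ) ≤ T := by
    intro e he
    by_cases h0 : (LMe e).Nonempty
    · obtain ⟨p, hp⟩ := h0
      obtain ⟨x1, x2, x3, b1, b2⟩ := hLMm e he p hp
      have b1' : (nm p.1 : ℝ) ≤ X ^ B₁ := by
        rw [nm_mul, Nat.cast_mul] at b1
        have h5 := hnm1 (hE e he).2.2.1.ne_zero
        have h6 : (0 : ℝ) ≤ nm p.1 := Nat.cast_nonneg _
        nlinarith
      have h3 : (nm (z * Zt e) : ℝ) ≤ X ^ (B₀ + 3 * B₁) := by
        rw [← x3, nm_mul, pow_two, nm_mul]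
        push_cast
        have e1 : X ^ (B₀ + 3 * B₁) = X ^ B₀ * (X ^ B₁ * (X ^ B₁ * X ^ B₁)) := by
          rw [← Real.rpow_add hX0, ← Real.rpow_add hX0, ← Real.rpow_add hX0]
          congr 1; ring
        rw [e1]
        have h4 : (1 : ℝ) ≤ X ^ B₀ := Real.one_le_rpow hX1 hB₀
        have h5 : (nm p.1 : ℝ) * (nm p.2 * nm p.2) ≤ X ^ B₁ * (X ^ B₁ * X ^ B₁) := by
          gcongr
        have h6 : (0 : ℝ) ≤ X ^ B₁ * (X ^ B₁ * X ^ B₁) := by positivity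
        nlinarith
      have h4 := hτ X hX1 (z * Zt e) (hzZ e he) h3 1 (by omega)
      rw [pow_one] at h4
      refine le_trans ?_ h4
      have h5 : (LMe e).card ≤ tau (z * Zt e) :=
        (Finset.card_filter_le _ _).trans (card_LM (hzZ e he))
      exact_mod_cast h5
    · rw [Finset.not_nonempty_iff_eq_empty] at h0
      rw [h0, Finset.card_empty, Nat.cast_zero]
      exact hT0
  have hMBz : ∀ e ∈ E, ∀ n, IsPrim n → IsCoprime (Kf e) n → IsCoprime n (M * B) →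
      ∀ x, IsPrim x → x ∣ z * Zt e → IsCoprime x n := by
    intro e he n hn hK hc x hx hxd
    by_contra h0
    obtain ⟨p, hp, hp1, hp2⟩ := exists_common_pp hx h0
    have hpu : ¬ IsUnit p := hp.prime.not_isUnit
    rcases hp.prime.dvd_or_dvd (hp1.trans hxd) with h | h
    · exact hpu ((hc.of_mul_right_left).isUnit_of_dvd' hp2 (hz.2 p hp.prime h))
    · have h4 := (hE e he).2.2.2.2.2.2.2.2.1.2 p hp.prime h
      rcases hp.prime.dvd_or_dvd h4 with h5 | h5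
      · exact hpu ((hc.of_mul_right_right).isUnit_of_dvd' hp2 h5)
      · exact hpu (hK.isUnit_of_dvd' (h5.trans (dvd_KG_b _ _ _ _)) hp2)
  have hcopD : ∀ e ∈ E, ∀ n, IsCoprime (Kf e) n → IsCoprime (D1 e) n := by
    intro e he n hK
    exact hK.of_isCoprime_of_dvd_left ((hE e he).2.2.2.1.trans (dvd_KG_D _ _ _ _))
  have hdl : ∀ {x : Eis × Eis} {e : α}, x.1 * x.2 ^ 2 = z * Zt e → x.1 ∣ z * Zt e :=
    fun {x e} h3 => h3 ▸ dvd_mul_right _ _
  have hdm : ∀ {x : Eis × Eis} {e : α}, x.1 * x.2 ^ 2 = z * Zt e → x.2 ∣ z * Zt e :=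
    fun {x e} h3 => h3 ▸ (dvd_pow_self _ two_ne_zero).mul_left _
  -- the estimate
  have key := H (Fin ps₁.length) (Fin ps₂.length) s₁ s₂ hs₁OK hs₂OK (th1 M B η j)
    (th2 M B η j) hθ₁ hθ₂ ξ (-2 * ξ) Q Λ (X ^ (B₀ + B₁)) hΛ.le
    (Real.one_le_rpow hX1 (by linarith)) _ E' (fun σ => D1 σ.1 * σ.2.1) (fun σ => σ.2.2)
    (fun σ => Kf σ.1)
    (by
      intro σ hσ
      obtain ⟨g1, g2⟩ := hE'm σ hσ
      obtain ⟨x1, x2, x3, x4, x5⟩ := hLMm σ.1 g1 σ.2 g2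
      have hD1 := (hE σ.1 g1).2.2.1
      refine ⟨hD1.mul x1, x2, ?_, hQ _ g1, x4.trans hXB1', x5.trans hXB1', ?_, ?_⟩
      · rw [mem_bl hΛ.le]
        exact ⟨hKne _ g1, hKle _ g1⟩
      · intro n hn hθ hK
        have hc := prin0_ne (left_ne_zero_of_mul hθ)
        exact (hcopD _ g1 n hK).mul_left (hMBz _ g1 n hn hK hc _ x1 (hdl x3))
      · intro n hn hθ hK
        have hc := prin0_ne (left_ne_zero_of_mul hθ)
        exact hMBz _ g1 n hn hK hc _ x2 (hdm x3))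
    Bd (T * T₀) hBd (by positivity)
    (by
      intro σ hσ
      obtain ⟨g1, g2⟩ := hE'm σ hσ
      obtain ⟨x1, x2, x3, x4, x5⟩ := hLMm σ.1 g1 σ.2 g2
      have hD1 := (hE σ.1 g1).2.2.1
      rw [Fintype.card_fin, Fintype.card_fin]
      have hTT : T ≤ T * T₀ := le_mul_of_one_le_right hT0 hT₀
      exact ⟨(hτ X hX1 _ (hD1.mul x1).ne_zero (x4.trans hXB1) _ (by omega)).trans hTT,
        (hτ X hX1 _ x2.ne_zero (x5.trans hXB1) _ (by omega)).trans hTT⟩)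
    (by
      intro K
      have h3 : (E'.filter (fun σ => Kf σ.1 = K)).card ≤
          ∑ e ∈ E.filter (fun e => Kf e = K), (LMe e).card := by
        rw [← Finset.card_sigma]
        refine Finset.card_le_card fun σ hσ => ?_
        rw [Finset.mem_filter, hE', Finset.mem_sigma] at hσ
        rw [Finset.mem_sigma, Finset.mem_filter]
        exact ⟨⟨hσ.1.1, hσ.2⟩, hσ.1.2⟩
      have h4 : ((E'.filter (fun σ => Kf σ.1 = K)).card : ℝ) ≤
          ((E.filter (fun e => Kf e = K)).card : ℝ) * T := by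
        calc ((E'.filter (fun σ => Kf σ.1 = K)).card : ℝ)
            ≤ ∑ e ∈ E.filter (fun e => Kf e = K), ((LMe e).card : ℝ) := by exact_mod_cast h3
          _ ≤ ∑ e ∈ E.filter (fun e => Kf e = K), T :=
              Finset.sum_le_sum fun e he => hcardLM e (Finset.mem_filter.1 he).1
          _ = _ := by rw [Finset.sum_const, nsmul_eq_mul]
      have h5 : ((E.filter (fun e => Kf e = K)).card : ℝ) ≤ T₀ := by
        refine le_trans (le_of_eq ?_) (hmult K)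
        congr
      have h6 : ((E'.filter (fun σ => Kf σ.1 = K)).card : ℝ) ≤ T * T₀ := by
        calc ((E'.filter (fun σ => Kf σ.1 = K)).card : ℝ)
            ≤ ((E.filter (fun e => Kf e = K)).card : ℝ) * T := h4
          _ ≤ T₀ * T := mul_le_mul_of_nonneg_right h5 hT0
          _ = _ := mul_comm _ _
      refine le_trans (le_of_eq ?_) h6
      congr)
    (by
      intro σ hσ x hx x' hx' b n Y t hn hY b' n' Y' t' hn' hY'
      obtain ⟨g1, g2⟩ := hE'm σ hσ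
      obtain ⟨x1, x2, x3, x4, x5⟩ := hLMm σ.1 g1 σ.2 g2
      have hD1 := (hE σ.1 g1).2.2.1
      rw [mem_Tu] at hx hx'
      have hYp : ∀ i, 0 < Y i := fun i => by have := (hY i).1; linarith
      have hYp' : ∀ i, 0 < Y' i := fun i => by have := (hY' i).1; linarith
      set v₁ := vk s₁ b with hv₁
      set v₂ := vk s₂ b' with hv₂
      set g₁ : Fin ps₁.length → Pq := fun i => mkc (shf (M * B) hMB ξ (ps₁.get i)) (v₁ i) (Y i) (t i)
        with hg₁
      set g₂ : Fin ps₂.length → Pq :=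
        fun i => mkc (shf (M * B) hMB (-2 * ξ) (ps₂.get i)) (v₂ i) (Y' i) (t' i) with hg₂
      -- lengths
      have hlogY : ∀ i, |Real.log (Y i) - ((ps₁.get i).z - n i)| ≤ 2 * R + 1 := by
        intro i
        have h3 := (hY i).2
        have e1 : Real.log (s₁ i).Y = (ps₁.get i).z := Real.log_exp _
        rw [e1] at h3
        exact h3
      have hlogY' : ∀ i, |Real.log (Y' i) - ((ps₂.get i).z - n' i)| ≤ 2 * R + 1 := by
        intro i
        have h3 := (hY' i).2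
        have e1 : Real.log (s₂ i).Y = (ps₂.get i).z := Real.log_exp _
        rw [e1] at h3
        exact h3
      have hch₁ : List.Forall₂ (Ch r) (List.ofFn g₁) (ps₁.map (shf (M * B) hMB ξ)) := by
        refine forall₂_shf (M * B) hMB ξ ps₁ g₁ fun i => ⟨rfl, rfl, ?_, ?_, ?_⟩
        · intro hu
          have hu' : (ps₁.get i).u = .one := hu
          show vk s₁ b i = .one
          have e1 : (s₁ i).u = .one := hu'
          unfold vk
          rw [e1]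
          simp
        · exact Real.log_nonneg (hY i).1
        · show Real.log (Y i) ≤ (ps₁.get i).z + r
          have h3 := (abs_le.1 (hlogY i)).2
          have h5 : (0 : ℝ) ≤ n i := Nat.cast_nonneg _
          have h6 : 0 ≤ (N : ℝ) * (2 * R + 2) := by positivity
          rw [hr]
          linarith
      have hch₂ : List.Forall₂ (Ch r) (List.ofFn g₂) (ps₂.map (shf (M * B) hMB (-2 * ξ))) := by
        refine forall₂_shf (M * B) hMB (-2 * ξ) ps₂ g₂ fun i => ⟨rfl, rfl, ?_, ?_, ?_⟩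
        · intro hu
          have hu' : (ps₂.get i).u = .one := hu
          show vk s₂ b' i = .one
          have e1 : (s₂ i).u = .one := hu'
          unfold vk
          rw [e1]
          simp
        · exact Real.log_nonneg (hY' i).1
        · show Real.log (Y' i) ≤ (ps₂.get i).z + r
          have h3 := (abs_le.1 (hlogY' i)).2
          have h5 : (0 : ℝ) ≤ n' i := Nat.cast_nonneg _
          have h6 : 0 ≤ (N : ℝ) * (2 * R + 2) := by positivity
          rw [hr]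
          linarith
      have hlen : ∀ {m : ℕ} (hm : m ≤ N) (zz lY lx nn : Fin m → ℝ) (Lx : ℝ),
          (∀ i, |lY i - (zz i - nn i)| ≤ 2 * R + 1) →
          (∀ i, nn i ≤ lx i ∧ lx i < nn i + 1) → Lx = ∑ i, lx i →
          |∑ i, zz i - ∑ i, lY i - Lx| ≤ r := by
        intro m hm zz lY lx nn Lx h3 h4 h5
        have h6 := sum_bd hm (c := 2 * R + 2) (by linarith)
          (fun i => zz i - lY i - lx i) (fun i => by
            have h7 := abs_le.1 (h3 i)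
            have h8 := h4 i
            rw [abs_le]
            constructor <;> linarith [h7.1, h7.2, h8.1, h8.2])
        have e2 : ∑ i, (zz i - lY i - lx i) = ∑ i, zz i - ∑ i, lY i - Lx := by
          rw [h5, Finset.sum_sub_distrib, Finset.sum_sub_distrib]
        rw [e2] at h6
        refine h6.trans ?_
        rw [hr]
        linarith
      have hls₁ : |Ls ps₁ - Ls (List.ofFn g₁) -
          (Real.log (nm σ.2.1) + Real.log (nm (D1 σ.1)))| ≤ r := by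
        rw [Ls_ofFn, Ls_get ps₁]
        have e0 : Real.log (nm σ.2.1) + Real.log (nm (D1 σ.1)) =
            ∑ i, Real.log (nm (x i)) := by
          rw [← log_nm_prod hx.1 hx.2, nm_mul, Nat.cast_mul, Real.log_mul, add_comm]
          · exact_mod_cast (nm_pos.2 hD1.ne_zero).ne'
          · exact_mod_cast (nm_pos.2 x1.ne_zero).ne'
        exact hlen hlen₁ _ (fun i => Real.log (Y i)) (fun i => Real.log (nm (x i)))
          (fun i => (n i : ℝ)) _ hlogY hn e0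
      have hls₂ : |Ls ps₂ - Ls (List.ofFn g₂) - Real.log (nm σ.2.2)| ≤ r := by
        rw [Ls_ofFn, Ls_get ps₂]
        exact hlen hlen₂ _ (fun i => Real.log (Y' i)) (fun i => Real.log (nm (x' i)))
          (fun i => (n' i : ℝ)) _ hlogY' hn' (log_nm_prod hx'.1 hx'.2)
      have h3 := hyp σ.1 g1 σ.2.1 σ.2.2 x1 x2 x3 (List.ofFn g₁) (List.ofFn g₂) hch₁ hch₂
        hls₁ hls₂
      rw [RQ_append_ofFn Q h hΛ P₁ P₂ g₁ g₂
        (cellP (fun i => tw0 (th1 M B η j) ξ (s₁ i)) v₁ Y t)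
        (cellP (fun i => tw0 (th2 M B η j) (-2 * ξ) (s₂ i)) v₂ Y' t')
        (fun i => child_pc h hMB ξ (fun b => rfl) (ps₁.get i)
          (hc₁ _ (List.get_mem _ _)) (v₁ i) (hYp i) (t i))
        (fun i => child_pc h hMB (-2 * ξ) (fun b => rfl) (ps₂.get i)
          (hc₂ _ (List.get_mem _ _)) (v₂ i) (hYp' i) (t' i))] at h3
      refine h3.trans (le_of_eq ?_)
      rw [cst_shf, cst_shf]
      rw [Real.mul_rpow (Finset.prod_nonneg fun i _ => by positivity)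
        (Finset.prod_nonneg fun i _ => by positivity),
        Real.finsetProd_rpow _ _ fun i _ => by positivity,
        Real.finsetProd_rpow _ _ fun i _ => by positivity]
      rfl)
  -- the left side
  have hleft : ∀ e ∈ E, ‖CS (tws (Zt e) (B * bb e) (g e) (wD (D e) (D1 e)
        (ww M (alL h (ps₁.map (Pq.pc P))) (alL h (ps₂.map (Pq.pc P)))
          (h₁.fin.toFinset ×ˢ h₂.fin.toFinset) z (nu e)))) (k e)‖ ^ 2 ≤
      T * ∑ p ∈ LMe e, (‖CS (fac (th1 M B η j) ξ (al h s₁) (D1 e * p.1)) (Kf e)‖ ^ 2 *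
        ‖CS (fac (th2 M B η j) (-2 * ξ) (al h s₂) p.2) (Kf e)‖ ^ 2) := by
    intro e he
    obtain ⟨a1, a2, a3, a4, a5, a6, a7, a8, a9, a10⟩ := hE e he
    have h3 := YidG_le (ν := nu e) (d := k e) hM0 a7 hz a9 a2 a3 a4 a5 a6 a8 hη (hg e he) h₁ h₂
    have h4 : ∑ x ∈ LM (z * Zt e),
        ‖CS (fac (th1 M B η j) ξ (alL h (ps₁.map (Pq.pc P))) (D1 e * x.1))
            (KG (bb e) (nu e) (D e) (k e))‖ *
          ‖CS (fac (th2 M B η j) (-2 * ξ) (alL h (ps₂.map (Pq.pc P))) x.2)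
            (KG (bb e) (nu e) (D e) (k e))‖ =
        ∑ p ∈ LMe e, ‖CS (fac (th1 M B η j) ξ (al h s₁) (D1 e * p.1)) (Kf e)‖ *
          ‖CS (fac (th2 M B η j) (-2 * ξ) (al h s₂) p.2) (Kf e)‖ := by
      rw [hb₁, hb₂, hLMe, Finset.sum_filter]
      refine Finset.sum_congr rfl fun p hp => ?_
      obtain ⟨x1, x2, x3⟩ := (mem_LM (hzZ e he)).mp hp
      split_ifs with hpb
      · rfl
      · by_cases e1 : CS (fac (th1 M B η j) ξ (al h s₁) (D1 e * p.1))
            (KG (bb e) (nu e) (D e) (k e)) = 0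
        · rw [e1, norm_zero, zero_mul]
        by_cases e2 : CS (fac (th2 M B η j) (-2 * ξ) (al h s₂) p.2)
            (KG (bb e) (nu e) (D e) (k e)) = 0
        · rw [e2, norm_zero, mul_zero]
        exact absurd ⟨fac_supp hsupp₁ (a3.mul x1) e1, fac_supp hsupp₂ x2 e2⟩ hpb
    rw [h4] at h3
    refine (pow_le_pow_left₀ (norm_nonneg _) h3 2).trans ?_
    refine sq_sum_le_card_mul_sum_sq.trans ?_
    refine mul_le_mul (hcardLM e he) (le_of_eq ?_) (Finset.sum_nonneg fun _ _ => by positivity)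
      hT0
    exact Finset.sum_congr rfl fun p _ => by rw [mul_pow]
  have hsum : ∑ e ∈ E, T * ∑ p ∈ LMe e,
      (‖CS (fac (th1 M B η j) ξ (al h s₁) (D1 e * p.1)) (Kf e)‖ ^ 2 *
        ‖CS (fac (th2 M B η j) (-2 * ξ) (al h s₂) p.2) (Kf e)‖ ^ 2) =
      T * ∑ σ ∈ E', ‖CS (fac (th1 M B η j) ξ (al h s₁) (D1 σ.1 * σ.2.1)) (Kf σ.1)‖ ^ 2 *
        ‖CS (fac (th2 M B η j) (-2 * ξ) (al h s₂) σ.2.2) (Kf σ.1)‖ ^ 2 := by
    rw [← Finset.mul_sum, hE', Finset.sum_sigma]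
  refine (Finset.sum_le_sum hleft).trans ?_
  rw [hsum]
  refine (mul_le_mul_of_nonneg_left key hT0).trans ?_
  rw [Fintype.card_fin, Fintype.card_fin]
  have k1 := hlog X hX1 (ps₁.length + ps₂.length) (by omega)
  have k3 : 0 ≤ (T * T₀) ^ 5 * Bd := by positivity
  have hXε : (1 : ℝ) ≤ X ^ (ε / 22) := Real.one_le_rpow hX1 (by positivity)
  calc T * ((C₁ * (Real.log (X ^ (B₀ + B₁)) + 1)) ^ (ps₁.length + ps₂.length) *
        ((T * T₀) ^ 5 * Bd))
      ≤ T * ((C₃ * X ^ (ε / 8)) * ((T * T₀) ^ 5 * Bd)) := by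
        refine mul_le_mul_of_nonneg_left ?_ hT0
        exact mul_le_mul_of_nonneg_right k1 k3
    _ = C₃ * X ^ (ε / 8) * T ^ 6 * (T₀ ^ 5 * Bd) := by ring
    _ ≤ C₃ * X ^ (ε / 8) * T ^ 11 * (T₀ ^ 5 * Bd) := by
        have : T ^ 6 ≤ T ^ 11 := pow_le_pow_right₀ hT1 (by norm_num)
        gcongr
    _ = C₃ * C₂ ^ 11 * (X ^ (ε / 8) * (X ^ (ε / 22)) ^ 11) * (T₀ ^ 5 * Bd) := by
        rw [hTd, mul_pow]; ring
    _ = C₃ * C₂ ^ 11 * X ^ (ε / 8 + ε / 2) * (T₀ ^ 5 * Bd) := by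
        rw [← Real.rpow_natCast (X ^ (ε / 22)) 11, ← Real.rpow_mul hX0.le,
          ← Real.rpow_add hX0]
        congr 3
        push_cast; ring
    _ ≤ C₃ * C₂ ^ 11 * X ^ ε * (T₀ ^ 5 * Bd) := by
        have : X ^ (ε / 8 + ε / 2) ≤ X ^ ε :=
          Real.rpow_le_rpow_of_exponent_le hX1 (by linarith)
        gcongr
    _ = _ := by ring

end Crest.Agent.R017.E4Yb792
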