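import Crest.Agent.R017.E4Yk2_792

/-!
# Row 17, E4 v7: the moved mass (helper792)

* `move_gen` : Cauchy's inequality cell by cell, a subset of the pieces moved to the other side
* `YG_move` : list form: `Σ W ‖ys‖` with a moved sublist per pattern of shortenings
-/

set_option autoImplicit false
set_option linter.unusedSectionVars false
set_option linter.unusedVariables false

noncomputable section

open Complex
open scoped ComplexConjugate

namespace Crest.Agent.R017.E4Yb792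

open Crest.Agent.R012 Crest.Agent.R012.Eis Crest.Agent.R012.LS2
open Crest.Agent.R012.GaussLoc283
open Crest.Agent.R012.Gauss880 (syG)
open Crest.Agent.R012.Div277 (tau dvs mem_dvs tau_le_rpow)
open Crest.Agent.R012.PSer47 (IsChar)
open Crest.Agent.R012.Mob705 (exists_common_pp)
open Crest.Agent.R017.CM106 Crest.Agent.R017.HP842
open Crest.Agent.R017.FE47 (cx PU)
open Crest.Agent.R017.XC858
open Crest.Agent.R017.End699 (HC prin0)
open Crest.Agent.R017.B770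
open Crest.Agent.R017.Prov71
open Crest.Agent.R017.Rough381
open Crest.Agent.R017.E4J792
open Crest.Agent.R017.E4352 (TwC PrI tws)
open Crest.Agent.R017.Sx545 (Sm)
open Crest.Agent.R017.E4o502 (wD)
open Crest.Agent.R017.E4D164 (ww pu mulw mulw_mul mulw_ne)
open Crest.Agent.R017.E4Y679 (LM mem_LM card_LM MuP MuP_tw)

/-- a maximal element in each fibre -/
lemma sum_fib_le {α β : Type} [Inhabited β] (E : Finset α) (Y : α → Finset β)
    (F : α → β → ℝ) (hF : ∀ e b, 0 ≤ F e b) {T : ℝ} (hT : ∀ e ∈ E, ((Y e).card : ℝ) ≤ T)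
    (A : Finset (Σ _ : α, β)) (hA : ∀ σ ∈ A, σ.1 ∈ E ∧ σ.2 ∈ Y σ.1) :
    ∃ (E' : Finset α) (y : α → β), E' ⊆ E ∧ (∀ e ∈ E', (⟨e, y e⟩ : Σ _ : α, β) ∈ A) ∧
      ∑ σ ∈ A, F σ.1 σ.2 ≤ T * ∑ e ∈ E', F e (y e) := by
  classical
  set E' : Finset α := E.filter (fun e => ∃ b, (⟨e, b⟩ : Σ _ : α, β) ∈ A) with hE'
  have hch : ∀ e : α, ∃ b : β, e ∈ E' → (⟨e, b⟩ : Σ _ : α, β) ∈ A ∧
      ∀ b', (⟨e, b'⟩ : Σ _ : α, β) ∈ A → F e b' ≤ F e b := by
    intro e
    by_cases he : e ∈ E'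
    · obtain ⟨he1, b₀, hb₀⟩ := Finset.mem_filter.1 he
      have hne : ((Y e).filter fun b => (⟨e, b⟩ : Σ _ : α, β) ∈ A).Nonempty :=
        ⟨b₀, Finset.mem_filter.2 ⟨(hA _ hb₀).2, hb₀⟩⟩
      obtain ⟨b, hb, hmax⟩ := Finset.exists_max_image _ (F e) hne
      refine ⟨b, fun _ => ⟨(Finset.mem_filter.1 hb).2, fun b' hb' => ?_⟩⟩
      exact hmax b' (Finset.mem_filter.2 ⟨(hA _ hb').2, hb'⟩)
    · exact ⟨default, fun h => absurd h he⟩
  choose y hy using hch
  refine ⟨E', y, Finset.filter_subset _ _, fun e he => (hy e he).1, ?_⟩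
  have hsub : A ⊆ E'.sigma fun e => (Y e).filter fun b => (⟨e, b⟩ : Σ _ : α, β) ∈ A := by
    intro σ hσ
    obtain ⟨h1, h2⟩ := hA σ hσ
    rw [Finset.mem_sigma, Finset.mem_filter, Finset.mem_filter]
    exact ⟨⟨h1, σ.2, hσ⟩, h2, hσ⟩
  calc ∑ σ ∈ A, F σ.1 σ.2
      ≤ ∑ σ ∈ E'.sigma fun e => (Y e).filter fun b => (⟨e, b⟩ : Σ _ : α, β) ∈ A,
          F σ.1 σ.2 := Finset.sum_le_sum_of_subset_of_nonneg hsub fun _ _ _ => hF _ _
    _ = ∑ e ∈ E', ∑ b ∈ (Y e).filter (fun b => (⟨e, b⟩ : Σ _ : α, β) ∈ A), F e b := by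
        rw [Finset.sum_sigma]
    _ ≤ ∑ e ∈ E', T * F e (y e) := by
        refine Finset.sum_le_sum fun e he => ?_
        obtain ⟨h1, h2⟩ := hy e he
        calc ∑ b ∈ (Y e).filter (fun b => (⟨e, b⟩ : Σ _ : α, β) ∈ A), F e b
            ≤ ∑ b ∈ (Y e).filter (fun b => (⟨e, b⟩ : Σ _ : α, β) ∈ A), F e (y e) :=
              Finset.sum_le_sum fun b hb => h2 b (Finset.mem_filter.1 hb).2
          _ = (((Y e).filter (fun b => (⟨e, b⟩ : Σ _ : α, β) ∈ A)).card : ℝ) * F e (y e) := by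
              rw [Finset.sum_const, nsmul_eq_mul]
          _ ≤ T * F e (y e) := by
              refine mul_le_mul_of_nonneg_right ?_ (hF _ _)
              refine le_trans ?_ (hT e (Finset.mem_filter.1 he).1)
              exact_mod_cast Finset.card_filter_le _ _
    _ = _ := by rw [Finset.mul_sum]

/-- **Cauchy's inequality cell by cell** -/
theorem move_gen {h : ℝ → ℝ} {c : ℝ} (hpu : PU h c) {R : ℝ} (hR0 : 0 ≤ R)
    (hR : ∀ u, cx h u ≠ 0 → |u| ≤ R) (M : ℝ) : ∃ C : ℝ, 1 ≤ C ∧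
    ∀ (ι : Type) [Fintype ι] [DecidableEq ι] (s : ι → Pc), (∀ i, (s i).OK) →
    ∀ (Q : Eis → Prop) (Λ X : ℝ), 0 ≤ Λ → 1 ≤ X →
    ∀ (α : Type) (S : Finset α) (Kf : α → Eis) (xf : α → ι → Eis) (W : α → ℝ),
    (∀ σ ∈ S, 0 ≤ W σ) →
    (∀ σ ∈ S, (Kf σ ∈ bl Λ ∧ Q (Kf σ)) ∧ ∀ i, IsPrim (xf σ i) ∧ (nm (xf σ i) : ℝ) ≤ X) →
    ∀ S₀ T : ℝ, 0 ≤ S₀ → 0 ≤ T →
    (∀ K, (open Classical in ((S.filter (fun σ => Kf σ = K)).card : ℝ)) ≤ T) →
    (∀ n : ι → ℕ, (∃ σ ∈ S, ∀ i, (n i : ℝ) ≤ Real.log (nm (xf σ i)) ∧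
        Real.log (nm (xf σ i)) < n i + 1) →
      ∃ (mv : Finset ι) (Sx Bd : ℝ), 0 ≤ Sx ∧ 0 ≤ Bd ∧ Sx * Bd ≤ S₀ ^ 2 ∧
        (∀ A ⊆ S, (∀ σ ∈ A, ∀ i, (n i : ℝ) ≤ Real.log (nm (xf σ i)) ∧
            Real.log (nm (xf σ i)) < n i + 1) →
          ∑ σ ∈ A, W σ ^ 2 * ∏ i ∈ mv, ‖CS (pc h (sh (s i) (xf σ i))) (Kf σ)‖ ^ 2 ≤ Sx) ∧
        ∀ (b : ι → Bool) (Y t : ι → ℝ),
          (∀ i, i ∉ mv → 1 ≤ Y i ∧ |Real.log (Y i) - (Real.log (s i).Y - n i)| ≤ 2 * R + 1) →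
          ∑ k ∈ (open Classical in (bl Λ).filter Q), ∏ i ∈ mvᶜ,
            ‖CS (pc h (cellP s (vk s b) Y t i)) k‖ ^ 2 ≤
            Bd * ∏ i ∈ mvᶜ, (1 + |t i - (s i).t|) ^ M) →
    ∑ σ ∈ S, W σ * ∏ i, ‖CS (pc h (sh (s i) (xf σ i))) (Kf σ)‖ ≤
      (C * (Real.log X + 1)) ^ (2 * Fintype.card ι) * (Real.sqrt T * S₀) := by
  classical
  obtain ⟨C, hC, H⟩ := fam_gen hpu hR0 hR M
  refine ⟨C, hC, ?_⟩
  intro ι _ _ s hs Q Λ X hΛ hX α S Kf xf W hW hS S₀ T hS₀ hT hmult hyp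
  set k := Fintype.card ι with hk
  have hlog0 : 0 ≤ Real.log X := Real.log_nonneg hX
  set N := ⌊Real.log X⌋₊ with hN
  have hNle : (N : ℝ) ≤ Real.log X := Nat.floor_le hlog0
  set L : ℝ := C * (Real.log X + 1) with hL
  have hL1 : 1 ≤ L := one_le_mul_of_one_le_of_one_le hC (by linarith)
  set Cs : Finset (ι → ℕ) := Fintype.piFinset (fun _ : ι => Finset.range (N + 1)) with hCs
  have hcard : (Cs.card : ℝ) ≤ L ^ k := by
    rw [hCs, Fintype.card_piFinset]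
    simp only [Finset.card_range, Finset.prod_const, Finset.card_univ]
    push_cast
    rw [← hk]
    refine pow_le_pow_left₀ (by positivity) ?_ k
    rw [hL]
    nlinarith
  set kx : α → ι → ℕ := fun σ i => ⌊Real.log (nm (xf σ i))⌋₊ with hkx
  have hmaps : ∀ σ ∈ S, kx σ ∈ Cs := by
    intro σ hσ
    obtain ⟨_, hx⟩ := hS σ hσ
    rw [hCs, Fintype.mem_piFinset]
    intro i
    rw [Finset.mem_range, Nat.lt_succ_iff]
    refine Nat.floor_le_floor (Real.log_le_log ?_ (hx i).2)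
    exact_mod_cast nm_pos.2 (hx i).1.ne_zero
  set w : Eis → ℝ := fun K => if Q K then 1 else 0 with hw
  have hw0 : ∀ k, 0 ≤ w k := fun k => by rw [hw]; simp only; split_ifs <;> norm_num
  have hcell : ∀ n ∈ Cs, ∑ σ ∈ S.filter (fun σ => kx σ = n),
      W σ * ∏ i, ‖CS (pc h (sh (s i) (xf σ i))) (Kf σ)‖ ≤ L ^ k * (Real.sqrt T * S₀) := by
    intro n hn
    rcases (S.filter (fun σ => kx σ = n)).eq_empty_or_nonempty with hemp | hne
    · rw [hemp, Finset.sum_empty]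
      positivity
    have hnn : ∀ σ ∈ S.filter (fun σ => kx σ = n), ∀ i, (n i : ℝ) ≤
        Real.log (nm (xf σ i)) ∧ Real.log (nm (xf σ i)) < n i + 1 := by
      intro σ hσ i
      obtain ⟨hz0, hz3⟩ := Finset.mem_filter.1 hσ
      have h1 : n i = ⌊Real.log (nm (xf σ i))⌋₊ := by rw [← hz3]
      rw [h1]
      exact log_floor ((hS σ hz0).2 i).1
    obtain ⟨σ₀, hσ₀⟩ := hne
    obtain ⟨mv, Sx, Bd, hSx, hBd, hSB, hx, hy⟩ := hyp n
      ⟨σ₀, (Finset.mem_filter.1 hσ₀).1, hnn σ₀ hσ₀⟩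
    have hx' := hx (S.filter (fun σ => kx σ = n)) (Finset.filter_subset _ _) hnn
    -- the rest
    have hrest : ∑ σ ∈ S.filter (fun σ => kx σ = n),
        ∏ i : {i // i ∉ mv}, ‖CS (pc h (sh (s i.1) (xf σ i.1))) (Kf σ)‖ ^ 2 ≤
        L ^ (2 * k) * (T * Bd) := by
      have h1 := H {i // i ∉ mv} (fun i => s i.1) (fun i => hs i.1) w hw0 Λ X hΛ hX α
        (S.filter (fun σ => kx σ = n)) Kf (fun σ i => xf σ i.1)
        (fun σ hσ => ⟨((hS σ (Finset.mem_filter.1 hσ).1).1).1,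
          fun i => (hS σ (Finset.mem_filter.1 hσ).1).2 i.1⟩) Bd T hBd hT
        (by
          intro K
          refine le_trans ?_ (hmult K)
          exact_mod_cast Finset.card_le_card
            (Finset.filter_subset_filter _ (Finset.filter_subset _ _)))
        (by
          intro b n' Y t hn' hY
          obtain ⟨σ, hσ, hσn⟩ := hn'
          have hnn' : ∀ i : {i // i ∉ mv}, n' i = n i.1 := by
            intro i
            have h2 := hσn i
            have h3 := hnn σ hσ i.1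
            have h4 : (n' i : ℝ) < n i.1 + 1 := by linarith [h2.1, h3.2]
            have h5 : (n i.1 : ℝ) < n' i + 1 := by linarith [h2.2, h3.1]
            have h6 : n' i < n i.1 + 1 := by exact_mod_cast h4
            have h7 : n i.1 < n' i + 1 := by exact_mod_cast h5
            omega
          have h8 := hy (fun i => if h : i ∉ mv then b ⟨i, h⟩ else false)
            (fun i => if h : i ∉ mv then Y ⟨i, h⟩ else 1)
            (fun i => if h : i ∉ mv then t ⟨i, h⟩ else 0) (fun i hi => by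
            have := hY ⟨i, hi⟩
            rw [hnn' ⟨i, hi⟩] at this
            simp only [dif_pos hi]
            exact this)
          have hco : ∀ F : ι → ℝ, ∏ i ∈ mvᶜ, F i = ∏ i : {i // i ∉ mv}, F i.1 := fun F =>
            Finset.prod_subtype (M := ℝ) mvᶜ (p := fun i => i ∉ mv)
              (fun _ => Finset.mem_compl) F
          have e7 : ∀ i : {i // i ∉ mv}, cellP s
              (vk s (fun i => if h : i ∉ mv then b ⟨i, h⟩ else false))
              (fun i => if h : i ∉ mv then Y ⟨i, h⟩ else 1)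
              (fun i => if h : i ∉ mv then t ⟨i, h⟩ else 0) i.1 =
              cellP (fun i : {i // i ∉ mv} => s i.1)
                (vk (fun i : {i // i ∉ mv} => s i.1) b) Y t i := by
            intro i
            unfold cellP vk
            simp only [dif_pos i.2]
          refine le_trans (le_of_eq ?_) (h8.trans (le_of_eq ?_))
          · unfold WM
            rw [Finset.sum_filter]
            refine Finset.sum_congr rfl fun K _ => ?_
            rw [hw]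
            simp only
            split_ifs
            · rw [one_mul, hco]
              refine Finset.prod_congr rfl fun i _ => ?_
              rw [e7]
            · rw [zero_mul]
          · rw [hco]
            congr 1
            refine Finset.prod_congr rfl fun i _ => ?_
            simp only [dif_pos i.2])
      have h2 : ∑ σ ∈ S.filter (fun σ => kx σ = n),
          ∏ i : {i // i ∉ mv}, ‖CS (pc h (sh (s i.1) (xf σ i.1))) (Kf σ)‖ ^ 2 =
          ∑ σ ∈ S.filter (fun σ => kx σ = n), w (Kf σ) *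
          ∏ i : {i // i ∉ mv}, ‖CS (pc h (sh (s i.1) (xf σ i.1))) (Kf σ)‖ ^ 2 := by
        refine Finset.sum_congr rfl fun σ hσ => ?_
        rw [hw]
        simp only
        rw [if_pos ((hS σ (Finset.mem_filter.1 hσ).1).1).2, one_mul]
      rw [h2]
      refine h1.trans ?_
      refine mul_le_mul_of_nonneg_right ?_ (mul_nonneg hT hBd)
      refine pow_le_pow_right₀ hL1 ?_
      have h3 : Fintype.card {i // i ∉ mv} ≤ Fintype.card ι := Fintype.card_subtype_le _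
      omega
    -- Cauchy
    have hsplit : ∀ σ, ∏ i, ‖CS (pc h (sh (s i) (xf σ i))) (Kf σ)‖ =
        (∏ i ∈ mv, ‖CS (pc h (sh (s i) (xf σ i))) (Kf σ)‖) *
          ∏ i : {i // i ∉ mv}, ‖CS (pc h (sh (s i.1) (xf σ i.1))) (Kf σ)‖ := by
      intro σ
      have h1 := Fintype.prod_subtype_mul_prod_subtype (fun i => i ∈ mv)
        (fun i => ‖CS (pc h (sh (s i) (xf σ i))) (Kf σ)‖)
      rw [← h1]
      congr 1
      exact (Finset.prod_subtype (M := ℝ) mv (p := fun i => i ∈ mv) (fun _ => Iff.rfl)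
        (fun i => ‖CS (pc h (sh (s i) (xf σ i))) (Kf σ)‖)).symm
    have hcs := Finset.sum_mul_sq_le_sq_mul_sq (S.filter (fun σ => kx σ = n))
      (fun σ => W σ * ∏ i ∈ mv, ‖CS (pc h (sh (s i) (xf σ i))) (Kf σ)‖)
      (fun σ => ∏ i : {i // i ∉ mv}, ‖CS (pc h (sh (s i.1) (xf σ i.1))) (Kf σ)‖)
    have e1 : ∀ σ, (W σ * ∏ i ∈ mv, ‖CS (pc h (sh (s i) (xf σ i))) (Kf σ)‖) ^ 2 =
        W σ ^ 2 * ∏ i ∈ mv, ‖CS (pc h (sh (s i) (xf σ i))) (Kf σ)‖ ^ 2 := by
      intro σ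
      rw [mul_pow, Finset.prod_pow]
    have e2 : ∀ σ, (∏ i : {i // i ∉ mv}, ‖CS (pc h (sh (s i.1) (xf σ i.1))) (Kf σ)‖) ^ 2 =
        ∏ i : {i // i ∉ mv}, ‖CS (pc h (sh (s i.1) (xf σ i.1))) (Kf σ)‖ ^ 2 := by
      intro σ
      rw [Finset.prod_pow]
    simp only [e1, e2] at hcs
    have e3 : ∑ σ ∈ S.filter (fun σ => kx σ = n),
        W σ * ∏ i, ‖CS (pc h (sh (s i) (xf σ i))) (Kf σ)‖ =
        ∑ σ ∈ S.filter (fun σ => kx σ = n),
          (W σ * ∏ i ∈ mv, ‖CS (pc h (sh (s i) (xf σ i))) (Kf σ)‖) *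
            ∏ i : {i // i ∉ mv}, ‖CS (pc h (sh (s i.1) (xf σ i.1))) (Kf σ)‖ := by
      refine Finset.sum_congr rfl fun σ _ => ?_
      rw [hsplit σ]
      ring
    rw [e3]
    refine abs_le_of_sq_le_sq' ?_ (by positivity) |>.2
    refine hcs.trans ?_
    have hn1 : 0 ≤ ∑ σ ∈ S.filter (fun σ => kx σ = n),
        W σ ^ 2 * ∏ i ∈ mv, ‖CS (pc h (sh (s i) (xf σ i))) (Kf σ)‖ ^ 2 :=
      Finset.sum_nonneg fun _ _ => mul_nonneg (sq_nonneg _)
        (Finset.prod_nonneg fun _ _ => by positivity)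
    calc _ ≤ Sx * (L ^ (2 * k) * (T * Bd)) := mul_le_mul hx' hrest
          (Finset.sum_nonneg fun _ _ => Finset.prod_nonneg fun _ _ => by positivity) hSx
      _ = L ^ (2 * k) * (T * (Sx * Bd)) := by ring
      _ ≤ L ^ (2 * k) * (T * S₀ ^ 2) := by gcongr
      _ = (L ^ k * (Real.sqrt T * S₀)) ^ 2 := by
          rw [mul_pow (L ^ k), mul_pow (Real.sqrt T), Real.sq_sqrt hT, ← pow_mul, mul_comm k 2]
  calc ∑ σ ∈ S, W σ * ∏ i, ‖CS (pc h (sh (s i) (xf σ i))) (Kf σ)‖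
      = ∑ n ∈ Cs, ∑ σ ∈ S.filter (fun σ => kx σ = n),
        W σ * ∏ i, ‖CS (pc h (sh (s i) (xf σ i))) (Kf σ)‖ := by
        rw [Finset.sum_fiberwise_of_maps_to hmaps]
    _ ≤ ∑ n ∈ Cs, L ^ k * (Real.sqrt T * S₀) := Finset.sum_le_sum hcell
    _ = Cs.card * (L ^ k * (Real.sqrt T * S₀)) := by rw [Finset.sum_const, nsmul_eq_mul]
    _ ≤ L ^ k * (L ^ k * (Real.sqrt T * S₀)) :=
        mul_le_mul_of_nonneg_right hcard (by positivity)
    _ = L ^ (2 * k) * (Real.sqrt T * S₀) := by rw [two_mul, pow_add]; ring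

end Crest.Agent.R017.E4Yb792
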