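import Crest.Agent.R017.E4Ym_792

/-!
# Row 17, E4 v7: the moved mass, list form (helper792)

* `CS_facK1` : a factor is bounded by the sum over the decompositions
* `rst ps mv` : the pieces which are not moved
* `YG_move` : `Σ W ‖ys‖` with a moved sublist per pattern of shortenings
-/

set_option autoImplicit false
set_option linter.unusedSectionVars false
set_option linter.unusedVariables false

noncomputable section

open Complex
open scoped ComplexConjugate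

namespace Crest.Agent.R017.E4Yb792

open Crest.Agent.R012 Crest.Agent.R012.Eis Crest.Agent.R012.LS2
open Crest.Agent.R012.GaussLoc283
open Crest.Agent.R012.Gauss880 (syG)
open Crest.Agent.R012.Div277 (tau dvs mem_dvs tau_le_rpow)
open Crest.Agent.R012.PSer47 (IsChar)
open Crest.Agent.R012.Mob705 (exists_common_pp)
open Crest.Agent.R017.CM106 Crest.Agent.R017.HP842
open Crest.Agent.R017.FE47 (cx PU)
open Crest.Agent.R017.XC858
open Crest.Agent.R017.End699 (HC prin0)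
open Crest.Agent.R017.B770
open Crest.Agent.R017.Prov71
open Crest.Agent.R017.Rough381
open Crest.Agent.R017.E4J792
open Crest.Agent.R017.E4352 (TwC PrI tws)
open Crest.Agent.R017.Sx545 (Sm)
open Crest.Agent.R017.E4o502 (wD)
open Crest.Agent.R017.E4D164 (ww pu mulw mulw_mul mulw_ne)
open Crest.Agent.R017.E4Y679 (LM mem_LM card_LM MuP MuP_tw)

section

variable {ι : Type} [Fintype ι] [DecidableEq ι]

/-- a factor at a frequency which sees only the `n` prime to `P` -/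
theorem CS_facK1 {h : ℝ → ℝ} {R : ℝ} (hR : ∀ u, cx h u ≠ 0 → |u| ≤ R) {θ : Eis → ℂ}
    (hθ : IsChar θ) (ξ : ℝ) {s : ι → Pc} (hs : ∀ i, (s i).OK) {P K : Eis} (hP : IsPrim P)
    (hθP : ∀ n, IsPrim n → θ n ≠ 0 → IsCoprime K n → IsCoprime P n) :
    ‖CS (fac θ ξ (al h s) P) K‖ ≤
      ∑ x ∈ Tu ι P, ∏ i, ‖CS (pc h (tP θ ξ (s i) (x i))) K‖ := by
  classical
  have e1 : CS (fac θ ξ (al h s) P) K =
      ∑ x ∈ Tu ι P, scS s x * CS (al h (tS θ ξ s x)) K := by
    have e2 : ∀ n, fac θ ξ (al h s) P n * sy K n =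
        ∑ x ∈ Tu ι P, scS s x * (al h (tS θ ξ s x) n * sy K n) := by
      intro n
      by_cases hn : IsPrim n
      swap
      · have h1 : fac θ ξ (al h s) P n = 0 := by
          unfold fac al
          rw [cv_not_prim (fun h0 => hn (h0.of_mul_left hP)), mul_zero]
        rw [h1, zero_mul]
        symm
        refine Finset.sum_eq_zero fun x _ => ?_
        unfold al
        rw [cv_not_prim hn, zero_mul, mul_zero]
      by_cases hK : IsCoprime K n
      swap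
      · rw [(syG.eq_zero K n hn).2 hK, mul_zero]
        symm
        refine Finset.sum_eq_zero fun x _ => ?_
        ring
      by_cases h0 : θ n = 0
      · have h1 : tw θ ξ n = 0 := by unfold tw; rw [h0, zero_mul]
        unfold fac
        rw [h1, zero_mul, zero_mul]
        symm
        refine Finset.sum_eq_zero fun x _ => ?_
        rw [al_tS h hθ, h1]
        ring
      have hc := hθP n hn h0 hK
      have e3 : al h s (P * n) = ∑ x ∈ Tu ι P, scS s x * al h (ssub s x) n := by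
        show cv (fun i => pc h (s i)) (P * n) = _
        rw [cv_mul _ hP hn hc]
        refine Finset.sum_congr rfl fun x hx => ?_
        rw [mem_Tu] at hx
        rw [cv_sub_pc hs hx.1]
      unfold fac
      rw [e3, Finset.mul_sum, Finset.sum_mul]
      refine Finset.sum_congr rfl fun x hx => ?_
      rw [mem_Tu] at hx
      rw [al_tS h hθ, al_shS h s (by rw [hx.2]; exact hc)]
      ring
    unfold CS
    simp_rw [e2]
    rw [Summable.tsum_finsetSum]
    · refine Finset.sum_congr rfl fun x _ => ?_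
      rw [tsum_mul_left]
    · intro x hx
      rw [mem_Tu] at hx
      have h1 : FS (al h (tS θ ξ s x)) := FS_al hR fun i => tP_OK hθ ξ (hs i) (hx.1 i)
      exact (h1.summable fun n => sy K n).mul_left _
  rw [e1]
  refine (norm_sum_le _ _).trans (Finset.sum_le_sum fun x hx => ?_)
  rw [mem_Tu] at hx
  rw [norm_mul]
  refine (mul_le_of_le_one_left (norm_nonneg _) (norm_scS_le hs hx.1)).trans (le_of_eq ?_)
  rw [CS_al hR (s := tS θ ξ s x) (fun i => tP_OK hθ ξ (hs i) (hx.1 i)), norm_prod]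
  rfl

end

/-! ### lists -/

/-- the pieces which are not moved -/
def rst (ps : List Pq) (mv : Finset (Fin ps.length)) : List Pq :=
  ((List.finRange ps.length).filter (fun i => i ∉ mv)).map ps.get

lemma rst_empty (ps : List Pq) : rst ps ∅ = ps := by
  unfold rst
  have : (List.finRange ps.length).filter (fun i => i ∉ (∅ : Finset (Fin ps.length))) =
      List.finRange ps.length := by
    rw [List.filter_eq_self]
    simp
  rw [this]
  exact List.map_get_finRange ps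

lemma prod_rst {n : ℕ} (mv : Finset (Fin n)) (f : Fin n → ℝ) :
    (((List.finRange n).filter (fun i => i ∉ mv)).map f).prod = ∏ i ∈ mvᶜ, f i := by
  classical
  rw [← List.prod_toFinset f ((List.nodup_finRange n).filter _)]
  refine Finset.prod_congr ?_ fun _ _ => rfl
  ext i
  simp

lemma sum_rst {n : ℕ} (mv : Finset (Fin n)) (f : Fin n → ℝ) :
    (((List.finRange n).filter (fun i => i ∉ mv)).map f).sum = ∑ i ∈ mvᶜ, f i := by
  classical
  rw [← List.sum_toFinset f ((List.nodup_finRange n).filter _)]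
  refine Finset.sum_congr ?_ fun _ _ => rfl
  ext i
  simp

lemma forall₂_rst {r : ℝ} (m₀ : Eis) (h0 : m₀ ≠ 0) (ξ : ℝ) (ps : List Pq)
    (mv : Finset (Fin ps.length)) (g : Fin ps.length → Pq)
    (hg : ∀ i, i ∉ mv → Ch r (g i) (shf m₀ h0 ξ (ps.get i))) :
    List.Forall₂ (Ch r) (((List.finRange ps.length).filter (fun i => i ∉ mv)).map g)
      ((rst ps mv).map (shf m₀ h0 ξ)) := by
  unfold rst
  rw [List.map_map, List.forall₂_map_left_iff, List.forall₂_map_right_iff, List.forall₂_same]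
  intro i hi
  rw [List.mem_filter] at hi
  exact hg i (by simpa using hi.2)

lemma cst_rst (m₀ : Eis) (h0 : m₀ ≠ 0) (ξ : ℝ) (ps : List Pq) (mv : Finset (Fin ps.length))
    (g : Fin ps.length → Pq) :
    cst (((List.finRange ps.length).filter (fun i => i ∉ mv)).map g)
      ((rst ps mv).map (shf m₀ h0 ξ)) = ∏ i ∈ mvᶜ, (1 + |(g i).t - ((ps.get i).t + ξ)|) := by
  unfold cst rst
  rw [List.map_map, List.zipWith_map, List.zipWith_self, ← prod_rst]
  rfl

lemma Ls_rst (ps : List Pq) (mv : Finset (Fin ps.length)) :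
    Ls (rst ps mv) = ∑ i ∈ mvᶜ, (ps.get i).z := by
  unfold Ls rst
  rw [List.map_map, ← sum_rst]
  rfl

lemma Ls_mapg {n : ℕ} (mv : Finset (Fin n)) (g : Fin n → Pq) :
    Ls (((List.finRange n).filter (fun i => i ∉ mv)).map g) = ∑ i ∈ mvᶜ, (g i).z := by
  unfold Ls
  rw [List.map_map, ← sum_rst]
  rfl

lemma RQ_rst (Q : Eis → Prop) (h : ℝ → ℝ) {Λ : ℝ} (hΛ : 0 < Λ) (P₁ P₂ : DPar)
    {n₁ n₂ : ℕ} (mv₁ : Finset (Fin n₁)) (mv₂ : Finset (Fin n₂)) (g₁ : Fin n₁ → Pq)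
    (g₂ : Fin n₂ → Pq) (s₁ : Fin n₁ → Pc) (s₂ : Fin n₂ → Pc)
    (h₁ : ∀ i, i ∉ mv₁ → pc h ((g₁ i).pc P₁) = pc h (s₁ i))
    (h₂ : ∀ i, i ∉ mv₂ → pc h ((g₂ i).pc P₂) = pc h (s₂ i)) :
    RQ Q h (Real.log Λ)
      ((((List.finRange n₁).filter (fun i => i ∉ mv₁)).map g₁).map (Pq.pc P₁) ++
        (((List.finRange n₂).filter (fun i => i ∉ mv₂)).map g₂).map (Pq.pc P₂)) =
      ∑ k ∈ (open Classical in (bl Λ).filter Q), (∏ i ∈ mv₁ᶜ, ‖CS (pc h (s₁ i)) k‖ ^ 2) *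
        ∏ i ∈ mv₂ᶜ, ‖CS (pc h (s₂ i)) k‖ ^ 2 := by
  classical
  unfold RQ
  rw [Real.exp_log hΛ]
  refine Finset.sum_congr ?_ fun k _ => ?_
  · congr
  rw [List.map_append, List.prod_append, List.map_map, List.map_map, List.map_map, List.map_map]
  congr 1
  · have e1 : ∏ i ∈ mv₁ᶜ, ‖CS (pc h (s₁ i)) k‖ ^ 2 =
        ∏ i ∈ mv₁ᶜ, ‖CS (pc h ((g₁ i).pc P₁)) k‖ ^ 2 :=
      Finset.prod_congr rfl fun i hi => by rw [h₁ i (Finset.mem_compl.1 hi)]
    rw [e1, ← prod_rst]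
    rfl
  · have e1 : ∏ i ∈ mv₂ᶜ, ‖CS (pc h (s₂ i)) k‖ ^ 2 =
        ∏ i ∈ mv₂ᶜ, ‖CS (pc h ((g₂ i).pc P₂)) k‖ ^ 2 :=
      Finset.prod_congr rfl fun i hi => by rw [h₂ i (Finset.mem_compl.1 hi)]
    rw [e1, ← prod_rst]
    rfl

lemma prod_compl_disjSum {n₁ n₂ : ℕ} (mv₁ : Finset (Fin n₁)) (mv₂ : Finset (Fin n₂))
    (f : Fin n₁ ⊕ Fin n₂ → ℝ) :
    ∏ i ∈ (mv₁.disjSum mv₂)ᶜ, f i = (∏ i ∈ mv₁ᶜ, f (.inl i)) * ∏ i ∈ mv₂ᶜ, f (.inr i) := by
  classical
  have : (mv₁.disjSum mv₂)ᶜ = mv₁ᶜ.disjSum mv₂ᶜ := by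
    ext x
    rcases x with x | x
    · rw [Finset.mem_compl, Finset.inl_mem_disjSum, Finset.inl_mem_disjSum, Finset.mem_compl]
    · rw [Finset.mem_compl, Finset.inr_mem_disjSum, Finset.inr_mem_disjSum, Finset.mem_compl]
  rw [this, Finset.prod_disjSum]

set_option maxHeartbeats 4000000 in
/-- **the moved mass**, without the fixed symbol -/
theorem YG_move0 {h : ℝ → ℝ} {c : ℝ} (hpu : PU h c) (N : ℕ) {ε : ℝ} (hε : 0 < ε) {B₀ : ℝ}
    (hB₀ : 0 ≤ B₀) (M₁ : ℝ) : ∃ C r : ℝ, 1 ≤ C ∧ 0 ≤ r ∧ ∀ X : ℝ, 3 ≤ X →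
    ∀ (P P₁ P₂ : DPar), (∀ k : Kd, IsChar (chK P k)) →
    ∀ ps₁ ps₂ : List Pq, ps₁.length ≤ N → ps₂.length ≤ N →
    (∀ p ∈ ps₁, p.z ≤ B₀ * Real.log X) → (∀ p ∈ ps₂, p.z ≤ B₀ * Real.log X) →
    ∀ (M M' B z : Eis) (η : Eis → ℂ) (j : ℤ) (ξ : ℝ) (hMB : M * B ≠ 0),
    PrI M z → HC M' η → (∀ p : Eis, Prime p → p ∣ M' → p ∣ M) →
    (∀ p ∈ ps₁, ∀ b, IsPrim b → chK P₁ p.kd b = chK P p.kd b * End699.tw η j b) →
    (∀ p ∈ ps₂, ∀ b, IsPrim b → chK P₂ p.kd b = chK P p.kd b *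
      (conj (End699.tw η j b) * conj (End699.tw η j b))) →
    ∀ (h₁ : FS (alL h (ps₁.map (Pq.pc P)))) (h₂ : FS (alL h (ps₂.map (Pq.pc P))))
      (α : Type) (E : Finset α) (nu D D1 bb Zt k : α → Eis) (g : α → Eis → ℂ),
    (∀ e ∈ E, IsPrim (nu e) ∧ Sm M (D e) ∧ IsPrim (D1 e) ∧ D1 e ∣ D e ∧ Squarefree (D1 e) ∧
      IsCoprime (D e) (B * bb e) ∧ Sm M (B * bb e) ∧ IsPrim (bb e) ∧ PrI (B * bb e) (Zt e) ∧
      k e ≠ 0) →
    (∀ e ∈ E, ∀ y, IsPrim y → IsCoprime y (B * bb e) →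
      g e y = sy y (bb e) * (End699.tw η j y * (nm y : ℂ) ^ (I * ξ))) →
    ∀ Λ : ℝ, Λ ≤ X ^ B₀ → (∀ e ∈ E, (nm (KG (bb e) (nu e) (D e) (k e)) : ℝ) ≤ Λ) →
    ∀ Q : Eis → Prop, (∀ e ∈ E, Q (KG (bb e) (nu e) (D e) (k e))) →
    ∀ T₀ : ℝ, 1 ≤ T₀ → (∀ K, (open Classical in
      ((E.filter (fun e => KG (bb e) (nu e) (D e) (k e) = K)).card : ℝ)) ≤ T₀) →
    ∀ Wx : α → ℝ, (∀ e ∈ E, 0 ≤ Wx e) → ∀ S₀ : ℝ, 0 ≤ S₀ →
    (∀ e ∈ E, ∀ l m : Eis, IsPrim l → IsPrim m → l * m ^ 2 = z * Zt e →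
      ∀ (n₁ : Fin ps₁.length → ℕ) (n₂ : Fin ps₂.length → ℕ),
      |∑ i, (n₁ i : ℝ) - (Real.log (nm l) + Real.log (nm (D1 e)))| ≤ r →
      |∑ i, (n₂ i : ℝ) - Real.log (nm m)| ≤ r →
      ∃ (mv₁ : Finset (Fin ps₁.length)) (mv₂ : Finset (Fin ps₂.length)) (Sx Bd : ℝ),
        0 ≤ Sx ∧ 0 ≤ Bd ∧ Sx * Bd ≤ S₀ ^ 2 ∧
        (∀ E' ⊆ E, ∀ (x₁ : α → Fin ps₁.length → Eis) (x₂ : α → Fin ps₂.length → Eis),
          (∀ e ∈ E', (∀ i, IsPrim (x₁ e i) ∧ (n₁ i : ℝ) ≤ Real.log (nm (x₁ e i)) ∧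
              Real.log (nm (x₁ e i)) < n₁ i + 1) ∧
            (∀ i, IsPrim (x₂ e i) ∧ (n₂ i : ℝ) ≤ Real.log (nm (x₂ e i)) ∧
              Real.log (nm (x₂ e i)) < n₂ i + 1) ∧
            (∏ i, x₁ e i) * (∏ i, x₂ e i) ^ 2 = D1 e * (z * Zt e)) →
          ∑ e ∈ E', Wx e ^ 2 *
            ((∏ i ∈ mv₁, ‖CS (pc h (tP (th1 M B η j) ξ ((ps₁.get i).pc P) (x₁ e i)))
                (KG (bb e) (nu e) (D e) (k e))‖ ^ 2) *
              ∏ i ∈ mv₂, ‖CS (pc h (tP (th2 M B η j) (-2 * ξ) ((ps₂.get i).pc P) (x₂ e i)))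
                (KG (bb e) (nu e) (D e) (k e))‖ ^ 2) ≤ Sx) ∧
        (∀ ps₁' ps₂' : List Pq,
          List.Forall₂ (Ch r) ps₁' ((rst ps₁ mv₁).map (shf (M * B) hMB ξ)) →
          List.Forall₂ (Ch r) ps₂' ((rst ps₂ mv₂).map (shf (M * B) hMB (-2 * ξ))) →
          |Ls (rst ps₁ mv₁) - Ls ps₁' - ∑ i ∈ mv₁ᶜ, (n₁ i : ℝ)| ≤ r →
          |Ls (rst ps₂ mv₂) - Ls ps₂' - ∑ i ∈ mv₂ᶜ, (n₂ i : ℝ)| ≤ r →
          RQ Q h (Real.log Λ) (ps₁'.map (Pq.pc P₁) ++ ps₂'.map (Pq.pc P₂)) ≤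
            Bd * (cst ps₁' ((rst ps₁ mv₁).map (shf (M * B) hMB ξ)) *
              cst ps₂' ((rst ps₂ mv₂).map (shf (M * B) hMB (-2 * ξ)))) ^ M₁)) →
    ∑ e ∈ E, Wx e * ‖CS (tws (Zt e) (B * bb e) (g e) (wD (D e) (D1 e)
        (ww M (alL h (ps₁.map (Pq.pc P))) (alL h (ps₂.map (Pq.pc P)))
          (h₁.fin.toFinset ×ˢ h₂.fin.toFinset) z (nu e)))) (k e)‖ ≤
      C * X ^ ε * T₀ * S₀ := by
  classical
  obtain ⟨R₀, hR₀⟩ := bump_of_cs hpu.cs
  set R := max R₀ 0 with hRd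
  have hR0 : 0 ≤ R := le_max_right _ _
  have hR : ∀ u, cx h u ≠ 0 → |u| ≤ R := fun u hu => (hR₀ u hu).trans (le_max_left _ _)
  obtain ⟨C₁, hC₁, H⟩ := move_gen hpu hR0 hR M₁
  set B₁ : ℝ := N * (B₀ + R) with hB₁
  have hN0 : (0 : ℝ) ≤ N := Nat.cast_nonneg _
  have hB₁0 : 0 ≤ B₁ := by positivity
  obtain ⟨C₂, hC₂, hτ⟩ := divs_pow (N + 2) (ε := ε / 22) (by linarith)
    (B := B₀ + 3 * B₁) (by positivity)
  obtain ⟨C₃, hC₃, hlog⟩ := log_pow_le' (ε := ε / 8) (by linarith) (2 * (N + N))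
    (B := B₀ + B₁) (by linarith) hC₁
  set r : ℝ := N * (2 * R + 2) + (2 * R + 2) with hr
  have hr0 : 0 ≤ r := by positivity
  refine ⟨C₃ * C₂ ^ 4, r, ?_, hr0, ?_⟩
  · exact one_le_mul_of_one_le_of_one_le hC₃ (one_le_pow₀ hC₂)
  intro X hX P P₁ P₂ hP ps₁ ps₂ hlen₁ hlen₂ hz₁ hz₂ M M' B z η j ξ hMB hz hη hM' hc₁ hc₂
    h₁ h₂ α E nu D D1 bb Zt k g hE hg Λ hΛX hKle Q hQ T₀ hT₀ hmult Wx hWx S₀ hS₀ hyp
  by_cases hEe : E = ∅
  · subst hEe
    rw [Finset.sum_empty]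
    positivity
  obtain ⟨e₀, he₀⟩ := Finset.nonempty_iff_ne_empty.2 hEe
  have hX1 : (1 : ℝ) ≤ X := by linarith
  have hX0 : (0 : ℝ) < X := by linarith
  have hM0 : M ≠ 0 := left_ne_zero_of_mul hMB
  have hKne : ∀ e ∈ E, KG (bb e) (nu e) (D e) (k e) ≠ 0 := by
    intro e he
    obtain ⟨a1, a2, a3, a4, a5, a6, a7, a8, a9, a10⟩ := hE e he
    unfold KG
    exact mul_ne_zero (mul_ne_zero (mul_ne_zero a10 a1.ne_zero) (pow_ne_zero 2 a2.1.ne_zero))
      a8.ne_zero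
  have hΛ1 : 1 ≤ Λ := by
    have h3 := hKle e₀ he₀
    have h4 : (1 : ℝ) ≤ nm (KG (bb e₀) (nu e₀) (D e₀) (k e₀)) := by
      exact_mod_cast nm_pos.2 (hKne e₀ he₀)
    linarith
  have hΛ : 0 < Λ := by linarith
  set s₁ : Fin ps₁.length → Pc := fun i => (ps₁.get i).pc P with hs₁
  set s₂ : Fin ps₂.length → Pc := fun i => (ps₂.get i).pc P with hs₂
  have hok : ∀ p : Pq, (p.pc P).OK := fun p => ⟨(hP _).mul' (HP842.prin0_isChar _), Real.exp_pos _⟩
  have hs₁OK : ∀ i, (s₁ i).OK := fun i => hok _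
  have hs₂OK : ∀ i, (s₂ i).OK := fun i => hok _
  have hb₁ : alL h (ps₁.map (Pq.pc P)) = al h s₁ := alL_get h P ps₁
  have hb₂ : alL h (ps₂.map (Pq.pc P)) = al h s₂ := alL_get h P ps₂
  -- supports
  have hXe : Real.exp 1 ≤ X := Real.exp_one_lt_d9.le.trans (by linarith)
  have hXB : ∀ y : ℝ, 0 ≤ y → Real.exp y ≤ X ^ y := by
    intro y hy
    calc Real.exp y = (Real.exp 1) ^ y := by rw [← Real.exp_mul, one_mul]
      _ ≤ X ^ y := Real.rpow_le_rpow (Real.exp_pos _).le hXe hy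
  set L : ℝ := X ^ (B₀ + R) with hLd
  have hL1 : 1 ≤ L := Real.one_le_rpow hX1 (by linarith)
  have hYL : ∀ p : Pq, p.z ≤ B₀ * Real.log X → (p.pc P).Y * Real.exp R ≤ L := by
    intro p hp
    show Real.exp p.z * Real.exp R ≤ L
    rw [hLd, Real.rpow_add hX0]
    refine mul_le_mul ?_ (hXB R hR0) (Real.exp_pos _).le (by positivity)
    rw [Real.rpow_def_of_pos hX0]
    exact Real.exp_le_exp.2 (by linarith)
  have hLN : L ^ N = X ^ B₁ := by
    rw [hLd, ← Real.rpow_natCast (X ^ (B₀ + R)) N, ← Real.rpow_mul hX0.le, hB₁, mul_comm (N : ℝ)]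
  have hsupp₁ : ∀ n, al h s₁ n ≠ 0 → IsPrim n ∧ (nm n : ℝ) ≤ X ^ B₁ := by
    intro n hn
    refine ⟨(FS_al hR hs₁OK).prim n hn, ?_⟩
    rw [← hLN]
    exact al_supp hR hs₁OK hL1 (fun i => hYL _ (hz₁ _ (List.get_mem _ _)))
      (by rw [Fintype.card_fin]; exact hlen₁) hn
  have hsupp₂ : ∀ n, al h s₂ n ≠ 0 → IsPrim n ∧ (nm n : ℝ) ≤ X ^ B₁ := by
    intro n hn
    refine ⟨(FS_al hR hs₂OK).prim n hn, ?_⟩
    rw [← hLN]
    exact al_supp hR hs₂OK hL1 (fun i => hYL _ (hz₂ _ (List.get_mem _ _)))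
      (by rw [Fintype.card_fin]; exact hlen₂) hn
  -- characters
  have hθ₁ := isChar_th1 (M := M) (q := B) hη j
  have hθ₂ := isChar_th2 (M := M) (q := B) hη j
  -- the index set
  set Kf : α → Eis := fun e => KG (bb e) (nu e) (D e) (k e) with hKf
  set LMe : α → Finset (Eis × Eis) := fun e => (LM (z * Zt e)).filter fun x =>
    (nm (D1 e * x.1) : ℝ) ≤ X ^ B₁ ∧ (nm x.2 : ℝ) ≤ X ^ B₁ with hLMe
  have hzZ : ∀ e ∈ E, z * Zt e ≠ 0 := fun e he => (hz.1.mul (hE e he).2.2.2.2.2.2.2.2.1.1).ne_zero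
  have hLMm : ∀ e ∈ E, ∀ x ∈ LMe e, IsPrim x.1 ∧ IsPrim x.2 ∧ x.1 * x.2 ^ 2 = z * Zt e ∧
      (nm (D1 e * x.1) : ℝ) ≤ X ^ B₁ ∧ (nm x.2 : ℝ) ≤ X ^ B₁ := by
    intro e he x hx
    rw [hLMe, Finset.mem_filter] at hx
    obtain ⟨x1, x2, x3⟩ := (mem_LM (hzZ e he)).mp hx.1
    exact ⟨x1, x2, x3, hx.2⟩
  have hXB₀ : X ^ B₀ ≤ X ^ (B₀ + 3 * B₁) :=
    Real.rpow_le_rpow_of_exponent_le hX1 (by linarith)
  have hXB1 : X ^ B₁ ≤ X ^ (B₀ + 3 * B₁) :=
    Real.rpow_le_rpow_of_exponent_le hX1 (by linarith)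
  have hXB1' : X ^ B₁ ≤ X ^ (B₀ + B₁) :=
    Real.rpow_le_rpow_of_exponent_le hX1 (by linarith)
  -- the divisor bound
  set T : ℝ := C₂ * X ^ (ε / 22) with hTd
  have hT0 : 0 ≤ T := by positivity
  have hT1 : 1 ≤ T := one_le_mul_of_one_le_of_one_le hC₂ (Real.one_le_rpow hX1 (by positivity))
  have hnm1 : ∀ {n : Eis}, n ≠ 0 → (1 : ℝ) ≤ nm n := fun {n} hn => by exact_mod_cast nm_pos.2 hn
  have hcardLM : ∀ e ∈ E, ((LMe e).card : ℝ) ≤ T := by
    intro e he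
    by_cases h0 : (LMe e).Nonempty
    · obtain ⟨p, hp⟩ := h0
      obtain ⟨x1, x2, x3, b1, b2⟩ := hLMm e he p hp
      have b1' : (nm p.1 : ℝ) ≤ X ^ B₁ := by
        rw [nm_mul, Nat.cast_mul] at b1
        have h5 := hnm1 (hE e he).2.2.1.ne_zero
        have h6 : (0 : ℝ) ≤ nm p.1 := Nat.cast_nonneg _
        nlinarith
      have h3 : (nm (z * Zt e) : ℝ) ≤ X ^ (B₀ + 3 * B₁) := by
        rw [← x3, nm_mul, pow_two, nm_mul]
        push_cast
        have e1 : X ^ (B₀ + 3 * B₁) = X ^ B₀ * (X ^ B₁ * (X ^ B₁ * X ^ B₁)) := by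
          rw [← Real.rpow_add hX0, ← Real.rpow_add hX0, ← Real.rpow_add hX0]
          congr 1; ring
        rw [e1]
        have h4 : (1 : ℝ) ≤ X ^ B₀ := Real.one_le_rpow hX1 hB₀
        have h5 : (nm p.1 : ℝ) * (nm p.2 * nm p.2) ≤ X ^ B₁ * (X ^ B₁ * X ^ B₁) := by
          gcongr
        have h6 : (0 : ℝ) ≤ X ^ B₁ * (X ^ B₁ * X ^ B₁) := by positivity
        nlinarith
      have h4 := hτ X hX1 (z * Zt e) (hzZ e he) h3 1 (by omega)
      rw [pow_one] at h4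
      refine le_trans ?_ h4
      have h5 : (LMe e).card ≤ tau (z * Zt e) :=
        (Finset.card_filter_le _ _).trans (card_LM (hzZ e he))
      exact_mod_cast h5
    · rw [Finset.not_nonempty_iff_eq_empty] at h0
      rw [h0, Finset.card_empty, Nat.cast_zero]
      exact hT0
  have hMBz : ∀ e ∈ E, ∀ n, IsPrim n → IsCoprime (Kf e) n → IsCoprime n (M * B) →
      ∀ x, IsPrim x → x ∣ z * Zt e → IsCoprime x n := by
    intro e he n hn hK hc x hx hxd
    by_contra h0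
    obtain ⟨p, hp, hp1, hp2⟩ := exists_common_pp hx h0
    have hpu : ¬ IsUnit p := hp.prime.not_isUnit
    rcases hp.prime.dvd_or_dvd (hp1.trans hxd) with h | h
    · exact hpu ((hc.of_mul_right_left).isUnit_of_dvd' hp2 (hz.2 p hp.prime h))
    · have h4 := (hE e he).2.2.2.2.2.2.2.2.1.2 p hp.prime h
      rcases hp.prime.dvd_or_dvd h4 with h5 | h5
      · exact hpu ((hc.of_mul_right_right).isUnit_of_dvd' hp2 h5)
      · exact hpu (hK.isUnit_of_dvd' (h5.trans (dvd_KG_b _ _ _ _)) hp2)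
  have hcopD : ∀ e ∈ E, ∀ n, IsCoprime (Kf e) n → IsCoprime (D1 e) n := by
    intro e he n hK
    exact hK.of_isCoprime_of_dvd_left ((hE e he).2.2.2.1.trans (dvd_KG_D _ _ _ _))
  have hdl : ∀ {x : Eis × Eis} {e : α}, x.1 * x.2 ^ 2 = z * Zt e → x.1 ∣ z * Zt e :=
    fun {x e} h3 => h3 ▸ dvd_mul_right _ _
  have hdm : ∀ {x : Eis × Eis} {e : α}, x.1 * x.2 ^ 2 = z * Zt e → x.2 ∣ z * Zt e :=
    fun {x e} h3 => h3 ▸ (dvd_pow_self _ two_ne_zero).mul_left _
  -- the inner index set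
  set Y : α → Finset (Σ _ : Eis × Eis, (Fin ps₁.length → Eis) × (Fin ps₂.length → Eis)) :=
    fun e => (LMe e).sigma fun p => Tu (Fin ps₁.length) (D1 e * p.1) ×ˢ Tu (Fin ps₂.length) p.2
    with hYd
  have hYm : ∀ e ∈ E, ∀ y ∈ Y e, y.1 ∈ LMe e ∧ ((∀ i, IsPrim (y.2.1 i)) ∧
      ∏ i, y.2.1 i = D1 e * y.1.1) ∧ (∀ i, IsPrim (y.2.2 i)) ∧ ∏ i, y.2.2 i = y.1.2 := by
    intro e he y hy
    rw [hYd, Finset.mem_sigma, Finset.mem_product, mem_Tu, mem_Tu] at hy
    exact hy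
  have hcardY : ∀ e ∈ E, ((Y e).card : ℝ) ≤ T ^ 3 := by
    intro e he
    have h3 : ((Y e).card : ℝ) = ∑ p ∈ LMe e, ((Tu (Fin ps₁.length) (D1 e * p.1)).card : ℝ) *
        (Tu (Fin ps₂.length) p.2).card := by
      rw [hYd, Finset.card_sigma]
      push_cast
      refine Finset.sum_congr rfl fun p _ => ?_
      rw [Finset.card_product]
      push_cast
      rfl
    rw [h3]
    calc ∑ p ∈ LMe e, ((Tu (Fin ps₁.length) (D1 e * p.1)).card : ℝ) *
          (Tu (Fin ps₂.length) p.2).card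
        ≤ ∑ p ∈ LMe e, T * T := by
          refine Finset.sum_le_sum fun p hp => ?_
          obtain ⟨x1, x2, x3, b1, b2⟩ := hLMm e he p hp
          have h4 : ((Tu (Fin ps₁.length) (D1 e * p.1)).card : ℝ) ≤
              (tau (D1 e * p.1) : ℝ) ^ ps₁.length := by
            have := card_Tu_le (ι := Fin ps₁.length) (D1 e * p.1)
            rw [Fintype.card_fin] at this
            exact_mod_cast this
          have h5 : ((Tu (Fin ps₂.length) p.2).card : ℝ) ≤ (tau p.2 : ℝ) ^ ps₂.length := by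
            have := card_Tu_le (ι := Fin ps₂.length) p.2
            rw [Fintype.card_fin] at this
            exact_mod_cast this
          exact mul_le_mul (h4.trans (hτ X hX1 _ ((hE e he).2.2.1.mul x1).ne_zero
            (b1.trans hXB1) _ (by omega))) (h5.trans (hτ X hX1 _ x2.ne_zero
            (b2.trans hXB1) _ (by omega))) (Nat.cast_nonneg _) hT0
      _ = (LMe e).card * (T * T) := by rw [Finset.sum_const, nsmul_eq_mul]
      _ ≤ T * (T * T) := mul_le_mul_of_nonneg_right (hcardLM e he) (by positivity)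
      _ = T ^ 3 := by ring
  set S : Finset (Σ _ : α, Σ _ : Eis × Eis, (Fin ps₁.length → Eis) × (Fin ps₂.length → Eis)) :=
    E.sigma Y with hSd
  have hSm : ∀ σ ∈ S, σ.1 ∈ E ∧ σ.2 ∈ Y σ.1 := by
    intro σ hσ
    rw [hSd, Finset.mem_sigma] at hσ
    exact hσ
  set s : Fin ps₁.length ⊕ Fin ps₂.length → Pc :=
    Sum.elim (fun i => tw0 (th1 M B η j) ξ (s₁ i)) (fun i => tw0 (th2 M B η j) (-2 * ξ) (s₂ i))
    with hs
  have hsOK : ∀ i, (s i).OK := by
    rintro (i | i)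
    · exact tw0_OK hθ₁ ξ (hs₁OK i)
    · exact tw0_OK hθ₂ (-2 * ξ) (hs₂OK i)
  set xf : (Σ _ : α, Σ _ : Eis × Eis, (Fin ps₁.length → Eis) × (Fin ps₂.length → Eis)) →
      (Fin ps₁.length ⊕ Fin ps₂.length) → Eis := fun σ => Sum.elim σ.2.2.1 σ.2.2.2 with hxf
  -- pointwise
  have hleft : ∀ e ∈ E, ‖CS (tws (Zt e) (B * bb e) (g e) (wD (D e) (D1 e)
        (ww M (alL h (ps₁.map (Pq.pc P))) (alL h (ps₂.map (Pq.pc P)))
          (h₁.fin.toFinset ×ˢ h₂.fin.toFinset) z (nu e)))) (k e)‖ ≤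
      ∑ y ∈ Y e, ∏ i, ‖CS (pc h (sh (s i) (xf ⟨e, y⟩ i))) (Kf e)‖ := by
    intro e he
    obtain ⟨a1, a2, a3, a4, a5, a6, a7, a8, a9, a10⟩ := hE e he
    have h3 := YidG_le (ν := nu e) (d := k e) hM0 a7 hz a9 a2 a3 a4 a5 a6 a8 hη (hg e he) h₁ h₂
    have h4 : ∑ x ∈ LM (z * Zt e),
        ‖CS (fac (th1 M B η j) ξ (alL h (ps₁.map (Pq.pc P))) (D1 e * x.1))
            (KG (bb e) (nu e) (D e) (k e))‖ *
          ‖CS (fac (th2 M B η j) (-2 * ξ) (alL h (ps₂.map (Pq.pc P))) x.2)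
            (KG (bb e) (nu e) (D e) (k e))‖ =
        ∑ p ∈ LMe e, ‖CS (fac (th1 M B η j) ξ (al h s₁) (D1 e * p.1)) (Kf e)‖ *
          ‖CS (fac (th2 M B η j) (-2 * ξ) (al h s₂) p.2) (Kf e)‖ := by
      rw [hb₁, hb₂, hLMe, Finset.sum_filter]
      refine Finset.sum_congr rfl fun p hp => ?_
      obtain ⟨x1, x2, x3⟩ := (mem_LM (hzZ e he)).mp hp
      split_ifs with hpb
      · rfl
      · by_cases e1 : CS (fac (th1 M B η j) ξ (al h s₁) (D1 e * p.1))
            (KG (bb e) (nu e) (D e) (k e)) = 0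
        · rw [e1, norm_zero, zero_mul]
        by_cases e2 : CS (fac (th2 M B η j) (-2 * ξ) (al h s₂) p.2)
            (KG (bb e) (nu e) (D e) (k e)) = 0
        · rw [e2, norm_zero, mul_zero]
        exact absurd ⟨fac_supp hsupp₁ (a3.mul x1) e1, fac_supp hsupp₂ x2 e2⟩ hpb
    rw [h4] at h3
    refine h3.trans ?_
    rw [hYd, Finset.sum_sigma]
    refine Finset.sum_le_sum fun p hp => ?_
    obtain ⟨x1, x2, x3, b1, b2⟩ := hLMm e he p hp
    have g1 := CS_facK1 hR hθ₁ ξ hs₁OK (P := D1 e * p.1) (K := Kf e) (a3.mul x1)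
      (fun n hn hθ hK => (hcopD e he n hK).mul_left
        (hMBz e he n hn hK (prin0_ne (left_ne_zero_of_mul hθ)) _ x1 (hdl x3)))
    have g2 := CS_facK1 hR hθ₂ (-2 * ξ) hs₂OK (P := p.2) (K := Kf e) x2
      (fun n hn hθ hK =>
        hMBz e he n hn hK (prin0_ne (left_ne_zero_of_mul hθ)) _ x2 (hdm x3))
    refine (mul_le_mul g1 g2 (norm_nonneg _) (Finset.sum_nonneg fun _ _ =>
      Finset.prod_nonneg fun _ _ => norm_nonneg _)).trans (le_of_eq ?_)
    rw [Finset.sum_mul_sum, Finset.sum_product]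
    refine Finset.sum_congr rfl fun x _ => Finset.sum_congr rfl fun x' _ => ?_
    rw [Fintype.prod_sum_type]
    rfl
  -- the estimate
  have key := H (Fin ps₁.length ⊕ Fin ps₂.length) s hsOK Q Λ (X ^ (B₀ + B₁)) hΛ.le
    (Real.one_le_rpow hX1 (by linarith)) _ S (fun σ => Kf σ.1) xf (fun σ => Wx σ.1)
    (fun σ hσ => hWx _ (hSm σ hσ).1)
    (by
      intro σ hσ
      obtain ⟨g1, g2⟩ := hSm σ hσ
      obtain ⟨y1, ⟨y2, y3⟩, y4, y5⟩ := hYm σ.1 g1 σ.2 g2
      obtain ⟨x1, x2, x3, b1, b2⟩ := hLMm σ.1 g1 σ.2.1 y1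
      refine ⟨⟨?_, hQ _ g1⟩, ?_⟩
      · rw [mem_bl hΛ.le]
        exact ⟨hKne _ g1, hKle _ g1⟩
      rintro (i | i)
      · refine ⟨y2 i, ?_⟩
        have h9 : σ.2.2.1 i ∣ D1 σ.1 * σ.2.1.1 :=
          (Finset.dvd_prod_of_mem σ.2.2.1 (Finset.mem_univ i)).trans (y3 ▸ dvd_refl _)
        have h10 : (nm (σ.2.2.1 i) : ℝ) ≤ nm (D1 σ.1 * σ.2.1.1) := by
          exact_mod_cast Leg381.nm_le_of_dvd' ((hE σ.1 g1).2.2.1.mul x1).ne_zero h9
        exact (h10.trans b1).trans hXB1'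
      · refine ⟨y4 i, ?_⟩
        have h9 : σ.2.2.2 i ∣ σ.2.1.2 :=
          (Finset.dvd_prod_of_mem σ.2.2.2 (Finset.mem_univ i)).trans (y5 ▸ dvd_refl _)
        have h10 : (nm (σ.2.2.2 i) : ℝ) ≤ nm σ.2.1.2 := by
          exact_mod_cast Leg381.nm_le_of_dvd' x2.ne_zero h9
        exact (h10.trans b2).trans hXB1')
    (T ^ 2 * S₀) (T₀ * T ^ 3) (by positivity) (by positivity)
    (by
      intro K
      have h3 : (S.filter (fun σ => Kf σ.1 = K)).card ≤
          ∑ e ∈ E.filter (fun e => Kf e = K), (Y e).card := by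
        rw [← Finset.card_sigma]
        refine Finset.card_le_card fun σ hσ => ?_
        rw [Finset.mem_filter, hSd, Finset.mem_sigma] at hσ
        rw [Finset.mem_sigma, Finset.mem_filter]
        exact ⟨⟨hσ.1.1, hσ.2⟩, hσ.1.2⟩
      have h5 : ((E.filter (fun e => Kf e = K)).card : ℝ) ≤ T₀ := by
        refine le_trans (le_of_eq ?_) (hmult K)
        congr
      have h6 : ((S.filter (fun σ => Kf σ.1 = K)).card : ℝ) ≤ T₀ * T ^ 3 := by
        calc ((S.filter (fun σ => Kf σ.1 = K)).card : ℝ)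
            ≤ ∑ e ∈ E.filter (fun e => Kf e = K), ((Y e).card : ℝ) := by exact_mod_cast h3
          _ ≤ ∑ e ∈ E.filter (fun e => Kf e = K), T ^ 3 :=
              Finset.sum_le_sum fun e he => hcardY e (Finset.mem_filter.1 he).1
          _ = ((E.filter (fun e => Kf e = K)).card : ℝ) * T ^ 3 := by
              rw [Finset.sum_const, nsmul_eq_mul]
          _ ≤ T₀ * T ^ 3 := mul_le_mul_of_nonneg_right h5 (by positivity)
      refine le_trans (le_of_eq ?_) h6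
      congr)
    (by
      intro n hn
      obtain ⟨σ, hσ, hσn⟩ := hn
      obtain ⟨g1, g2⟩ := hSm σ hσ
      obtain ⟨y1, ⟨y2, y3⟩, y4, y5⟩ := hYm σ.1 g1 σ.2 g2
      obtain ⟨x1, x2, x3, b1, b2⟩ := hLMm σ.1 g1 σ.2.1 y1
      have hNr : (N : ℝ) ≤ r := by rw [hr]; nlinarith
      have hD1 := (hE σ.1 g1).2.2.1
      have hsn : ∀ {m : ℕ} (hm : m ≤ N) (nn : Fin m → ℕ) (lx : Fin m → ℝ) (Lx : ℝ),
          (∀ i, (nn i : ℝ) ≤ lx i ∧ lx i < nn i + 1) → Lx = ∑ i, lx i →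
          |∑ i, (nn i : ℝ) - Lx| ≤ r := by
        intro m hm nn lx Lx h3 h4
        have h5 := sum_bd hm (c := 1) zero_le_one (fun i => (nn i : ℝ) - lx i) (fun i => by
          have := h3 i
          rw [abs_le]
          constructor <;> linarith [this.1, this.2])
        rw [Finset.sum_sub_distrib, ← h4] at h5
        refine h5.trans ?_
        rw [mul_one]
        exact hNr
      have hn₁ : |∑ i, (n (.inl i) : ℝ) -
          (Real.log (nm σ.2.1.1) + Real.log (nm (D1 σ.1)))| ≤ r := by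
        refine hsn hlen₁ (fun i => n (.inl i)) (fun i => Real.log (nm (σ.2.2.1 i))) _
          (fun i => hσn (.inl i)) ?_
        rw [← log_nm_prod y2 y3, nm_mul, Nat.cast_mul, Real.log_mul, add_comm]
        · exact_mod_cast (nm_pos.2 hD1.ne_zero).ne'
        · exact_mod_cast (nm_pos.2 x1.ne_zero).ne'
      have hn₂ : |∑ i, (n (.inr i) : ℝ) - Real.log (nm σ.2.1.2)| ≤ r :=
        hsn hlen₂ (fun i => n (.inr i)) (fun i => Real.log (nm (σ.2.2.2 i))) _
          (fun i => hσn (.inr i)) (log_nm_prod y4 y5)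
      obtain ⟨mv₁, mv₂, Sx, Bd, hSx, hBd, hSB, hx, hy⟩ := hyp σ.1 g1 σ.2.1.1 σ.2.1.2 x1 x2 x3
        (fun i => n (.inl i)) (fun i => n (.inr i)) hn₁ hn₂
      refine ⟨mv₁.disjSum mv₂, T ^ 3 * Sx, Bd, by positivity, hBd, ?_, ?_, ?_⟩
      · calc T ^ 3 * Sx * Bd = T ^ 3 * (Sx * Bd) := by ring
          _ ≤ T ^ 3 * S₀ ^ 2 := mul_le_mul_of_nonneg_left hSB (by positivity)
          _ ≤ T ^ 4 * S₀ ^ 2 := by
              have : T ^ 3 ≤ T ^ 4 := pow_le_pow_right₀ hT1 (by norm_num)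
              gcongr
          _ = (T ^ 2 * S₀) ^ 2 := by ring
      · -- the x-side
        intro A hA hAn
        have : Inhabited (Σ _ : Eis × Eis, (Fin ps₁.length → Eis) × (Fin ps₂.length → Eis)) :=
          ⟨⟨default, default⟩⟩
        obtain ⟨E', y, hE'E, hyA, hsum⟩ := sum_fib_le E Y
          (fun e y => Wx e ^ 2 * ∏ i ∈ mv₁.disjSum mv₂,
            ‖CS (pc h (sh (s i) (xf ⟨e, y⟩ i))) (Kf e)‖ ^ 2)
          (fun e y => mul_nonneg (sq_nonneg _) (Finset.prod_nonneg fun _ _ => by positivity))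
          hcardY A (fun σ hσ => hSm σ (hA hσ))
        refine le_trans (le_of_eq ?_) (hsum.trans ?_)
        · rfl
        refine mul_le_mul_of_nonneg_left ?_ (by positivity)
        refine le_trans (le_of_eq ?_) (hx E' hE'E (fun e => (y e).2.1) (fun e => (y e).2.2) ?_)
        · refine Finset.sum_congr rfl fun e _ => ?_
          rw [Finset.prod_disjSum]
          rfl
        · intro e he
          have hyS := hA (hyA e he)
          obtain ⟨u1, u2⟩ := hSm _ hyS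
          obtain ⟨w1, ⟨w2, w3⟩, w4, w5⟩ := hYm _ u1 _ u2
          obtain ⟨v1, v2, v3, v4, v5⟩ := hLMm _ u1 _ w1
          have hnn := hAn _ (hyA e he)
          refine ⟨fun i => ⟨w2 i, hnn (.inl i)⟩, fun i => ⟨w4 i, hnn (.inr i)⟩, ?_⟩
          rw [w3, w5, mul_assoc, v3]
      · -- the y-side
        intro b Yv t hYv
        have hYv₁ : ∀ i, i ∉ mv₁ → 1 ≤ Yv (.inl i) ∧
            |Real.log (Yv (.inl i)) - ((ps₁.get i).z - n (.inl i))| ≤ 2 * R + 1 := by
          intro i hi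
          have h3 := hYv (.inl i) (by rw [Finset.inl_mem_disjSum]; exact hi)
          have e1 : Real.log (s (.inl i)).Y = (ps₁.get i).z := Real.log_exp _
          rw [e1] at h3
          exact h3
        have hYv₂ : ∀ i, i ∉ mv₂ → 1 ≤ Yv (.inr i) ∧
            |Real.log (Yv (.inr i)) - ((ps₂.get i).z - n (.inr i))| ≤ 2 * R + 1 := by
          intro i hi
          have h3 := hYv (.inr i) (by rw [Finset.inr_mem_disjSum]; exact hi)
          have e1 : Real.log (s (.inr i)).Y = (ps₂.get i).z := Real.log_exp _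
          rw [e1] at h3
          exact h3
        set v := vk s b with hv
        set g₁ : Fin ps₁.length → Pq := fun i =>
          mkc (shf (M * B) hMB ξ (ps₁.get i)) (v (.inl i)) (Yv (.inl i)) (t (.inl i)) with hg₁
        set g₂ : Fin ps₂.length → Pq := fun i =>
          mkc (shf (M * B) hMB (-2 * ξ) (ps₂.get i)) (v (.inr i)) (Yv (.inr i)) (t (.inr i))
          with hg₂
        have hch₁ := forall₂_rst (r := r) (M * B) hMB ξ ps₁ mv₁ g₁ (fun i hi => by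
          refine ⟨rfl, rfl, ?_, ?_, ?_⟩
          · intro hu
            have hu' : (ps₁.get i).u = .one := hu
            show vk s b (.inl i) = .one
            have e1 : (s (.inl i)).u = .one := hu'
            unfold vk
            rw [e1]
            simp
          · exact Real.log_nonneg (hYv₁ i hi).1
          · show Real.log (Yv (.inl i)) ≤ (ps₁.get i).z + r
            have h3 := (abs_le.1 (hYv₁ i hi).2).2
            have h5 : (0 : ℝ) ≤ n (.inl i) := Nat.cast_nonneg _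
            have h6 : 0 ≤ (N : ℝ) * (2 * R + 2) := by positivity
            rw [hr]
            linarith)
        have hch₂ := forall₂_rst (r := r) (M * B) hMB (-2 * ξ) ps₂ mv₂ g₂ (fun i hi => by
          refine ⟨rfl, rfl, ?_, ?_, ?_⟩
          · intro hu
            have hu' : (ps₂.get i).u = .one := hu
            show vk s b (.inr i) = .one
            have e1 : (s (.inr i)).u = .one := hu'
            unfold vk
            rw [e1]
            simp
          · exact Real.log_nonneg (hYv₂ i hi).1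
          · show Real.log (Yv (.inr i)) ≤ (ps₂.get i).z + r
            have h3 := (abs_le.1 (hYv₂ i hi).2).2
            have h5 : (0 : ℝ) ≤ n (.inr i) := Nat.cast_nonneg _
            have h6 : 0 ≤ (N : ℝ) * (2 * R + 2) := by positivity
            rw [hr]
            linarith)
        have hlen : ∀ {m : ℕ} (hm : m ≤ N) (mv : Finset (Fin m)) (zz lY nn : Fin m → ℝ),
            (∀ i, i ∉ mv → |lY i - (zz i - nn i)| ≤ 2 * R + 1) →
            |∑ i ∈ mvᶜ, zz i - ∑ i ∈ mvᶜ, lY i - ∑ i ∈ mvᶜ, nn i| ≤ r := by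
          intro m hm mv zz lY nn h3
          rw [← Finset.sum_sub_distrib, ← Finset.sum_sub_distrib]
          have h4 := (Finset.abs_sum_le_sum_abs (fun i => zz i - lY i - nn i) mvᶜ).trans
            (Finset.sum_le_sum fun i hi => (by
              have h7 := abs_le.1 (h3 i (Finset.mem_compl.1 hi))
              rw [abs_le]
              constructor <;> linarith [h7.1, h7.2] : |zz i - lY i - nn i| ≤ 2 * R + 1))
          refine h4.trans ?_
          rw [Finset.sum_const, nsmul_eq_mul]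
          have h8 : ((mvᶜ).card : ℝ) ≤ N := by
            have h9 : (mvᶜ).card ≤ m := (Finset.card_le_univ _).trans (by rw [Fintype.card_fin])
            exact_mod_cast h9.trans hm
          rw [hr]
          nlinarith
        have h3 := hy _ _ hch₁ hch₂
          (by
            rw [Ls_rst, Ls_mapg]
            exact hlen hlen₁ mv₁ _ (fun i => Real.log (Yv (.inl i))) _
              (fun i hi => (hYv₁ i hi).2))
          (by
            rw [Ls_rst, Ls_mapg]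
            exact hlen hlen₂ mv₂ _ (fun i => Real.log (Yv (.inr i))) _
              (fun i hi => (hYv₂ i hi).2))
        rw [RQ_rst Q h hΛ P₁ P₂ mv₁ mv₂ g₁ g₂ (fun i => cellP s v Yv t (.inl i))
          (fun i => cellP s v Yv t (.inr i))
          (fun i hi => child_pc h hMB ξ (fun b => rfl) (ps₁.get i)
            (hc₁ _ (List.get_mem _ _)) (v (.inl i)) (by have := (hYv₁ i hi).1; linarith)
            (t (.inl i)))
          (fun i hi => child_pc h hMB (-2 * ξ) (fun b => rfl) (ps₂.get i)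
            (hc₂ _ (List.get_mem _ _)) (v (.inr i)) (by have := (hYv₂ i hi).1; linarith)
            (t (.inr i)))] at h3
        refine le_trans (le_of_eq ?_) (h3.trans (le_of_eq ?_))
        · refine Finset.sum_congr rfl fun K _ => ?_
          rw [prod_compl_disjSum]
        · rw [cst_rst, cst_rst, prod_compl_disjSum]
          rw [Real.mul_rpow (Finset.prod_nonneg fun i _ => by positivity)
            (Finset.prod_nonneg fun i _ => by positivity),
            Real.finsetProd_rpow _ _ fun i _ => by positivity,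
            Real.finsetProd_rpow _ _ fun i _ => by positivity]
          rfl)
  -- the end
  have hsum : ∑ e ∈ E, Wx e * ‖CS (tws (Zt e) (B * bb e) (g e) (wD (D e) (D1 e)
        (ww M (alL h (ps₁.map (Pq.pc P))) (alL h (ps₂.map (Pq.pc P)))
          (h₁.fin.toFinset ×ˢ h₂.fin.toFinset) z (nu e)))) (k e)‖ ≤
      ∑ σ ∈ S, Wx σ.1 * ∏ i, ‖CS (pc h (sh (s i) (xf σ i))) (Kf σ.1)‖ := by
    rw [hSd, Finset.sum_sigma]
    refine Finset.sum_le_sum fun e he => ?_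
    refine (mul_le_mul_of_nonneg_left (hleft e he) (hWx e he)).trans (le_of_eq ?_)
    rw [Finset.mul_sum]
  refine (hsum.trans key).trans ?_
  rw [Fintype.card_sum, Fintype.card_fin, Fintype.card_fin]
  have k1 := hlog X hX1 (2 * (ps₁.length + ps₂.length)) (by omega)
  have hsq : Real.sqrt (T₀ * T ^ 3) ≤ T₀ * T ^ 2 := by
    rw [Real.sqrt_le_left (by positivity)]
    calc T₀ * T ^ 3 ≤ T₀ ^ 2 * T ^ 4 := by
          have a1 : T₀ ≤ T₀ ^ 2 := by nlinarith
          have a2 : T ^ 3 ≤ T ^ 4 := pow_le_pow_right₀ hT1 (by norm_num)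
          exact mul_le_mul a1 a2 (by positivity) (by positivity)
      _ = (T₀ * T ^ 2) ^ 2 := by ring
  calc (C₁ * (Real.log (X ^ (B₀ + B₁)) + 1)) ^ (2 * (ps₁.length + ps₂.length)) *
        (Real.sqrt (T₀ * T ^ 3) * (T ^ 2 * S₀))
      ≤ (C₃ * X ^ (ε / 8)) * (T₀ * T ^ 2 * (T ^ 2 * S₀)) := by
        refine mul_le_mul k1 (mul_le_mul_of_nonneg_right hsq (by positivity))
          (by positivity) (by positivity)
    _ = C₃ * C₂ ^ 4 * (X ^ (ε / 8) * (X ^ (ε / 22)) ^ 4) * (T₀ * S₀) := by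
        rw [hTd]; ring
    _ = C₃ * C₂ ^ 4 * X ^ (ε / 8 + ε / 22 * 4) * (T₀ * S₀) := by
        rw [← Real.rpow_natCast (X ^ (ε / 22)) 4, ← Real.rpow_mul hX0.le,
          ← Real.rpow_add hX0]
        congr 3
    _ ≤ C₃ * C₂ ^ 4 * X ^ ε * (T₀ * S₀) := by
        have : X ^ (ε / 8 + ε / 22 * 4) ≤ X ^ ε :=
          Real.rpow_le_rpow_of_exponent_le hX1 (by linarith)
        gcongr
    _ = _ := by ring

end Crest.Agent.R017.E4Yb792
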