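import Crest.Agent.R017.E4Yn_792

/-!
# Row 17, E4 v7: the moved mass with the fixed symbol in `y` (helper792)

* `YG_move` : `Σ W ‖ys‖` for `wD D D1 (mulw f (ww ..))`
-/

set_option autoImplicit false
set_option linter.unusedSectionVars false
set_option linter.unusedVariables false

noncomputable section

open Complex
open scoped ComplexConjugate

namespace Crest.Agent.R017.E4Yb792

open Crest.Agent.R012 Crest.Agent.R012.Eis Crest.Agent.R012.LS2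
open Crest.Agent.R012.GaussLoc283
open Crest.Agent.R012.PSer47 (IsChar)
open Crest.Agent.R017.CM106 Crest.Agent.R017.HP842
open Crest.Agent.R017.FE47 (cx PU)
open Crest.Agent.R017.XC858
open Crest.Agent.R017.End699 (HC prin0)
open Crest.Agent.R017.B770
open Crest.Agent.R017.Prov71
open Crest.Agent.R017.Rough381
open Crest.Agent.R017.E4352 (TwC PrI tws)
open Crest.Agent.R017.Sx545 (Sm)
open Crest.Agent.R017.E4o502 (wD)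
open Crest.Agent.R017.E4D164 (ww pu mulw mulw_mul mulw_ne)
open Crest.Agent.R017.E4Y679 (LM mem_LM card_LM MuP MuP_tw)

/-- **reduction of the fixed symbol**: one choice of `D1'`, `Z'` per index -/
theorem choose_mulw {M M' B z f : Eis} {η : Eis → ℂ} {j : ℤ} {ξ : ℝ} (hf : Sm M f)
    (hη : HC M' η) {α : Type} (E : Finset α) (D D1 bb Zt k : α → Eis) (g : α → Eis → ℂ)
    (W : α → Eis → ℂ) (hW : ∀ e y, W e y ≠ 0 → IsPrim y)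
    (hE : ∀ e ∈ E, IsPrim (D e) ∧ IsPrim (D1 e) ∧ D1 e ∣ D e ∧
      IsCoprime (D e) (B * bb e) ∧ IsPrim (bb e) ∧ PrI (B * bb e) (Zt e))
    (hg : ∀ e ∈ E, ∀ y, IsPrim y → IsCoprime y (B * bb e) →
      g e y = sy y (bb e) * (End699.tw η j y * (nm y : ℂ) ^ (I * ξ))) :
    ∃ D1' Z' : α → Eis, ∀ e ∈ E,
      CS (tws (Zt e) (B * bb e) (g e) (wD (D e) (D1 e) (mulw f (W e)))) (k e) ≠ 0 →
      (∃ f1 f2 f3 : Eis, f = f1 * f2 * f3 ∧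
      Sm M f1 ∧ Sm M f2 ∧ Sm M f3 ∧ D1 e = f1 * D1' e ∧ Zt e = f2 * Z' e ∧
      IsCoprime f3 (D1 e) ∧ IsCoprime f3 (B * bb e) ∧ PrI (B * bb e) f2) ∧
      ‖CS (tws (Zt e) (B * bb e) (g e) (wD (D e) (D1 e) (mulw f (W e)))) (k e)‖ ≤
        ‖CS (tws (Z' e) (B * bb e) (g e) (wD (D e) (D1' e) (W e))) (k e)‖ := by
  classical
  have hch : ∀ e : α, ∃ D1' Z' : Eis, e ∈ E →
      CS (tws (Zt e) (B * bb e) (g e) (wD (D e) (D1 e) (mulw f (W e)))) (k e) ≠ 0 →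
      (∃ f1 f2 f3 : Eis, f = f1 * f2 * f3 ∧
      Sm M f1 ∧ Sm M f2 ∧ Sm M f3 ∧ D1 e = f1 * D1' ∧ Zt e = f2 * Z' ∧
      IsCoprime f3 (D1 e) ∧ IsCoprime f3 (B * bb e) ∧ PrI (B * bb e) f2) ∧
      ‖CS (tws (Zt e) (B * bb e) (g e) (wD (D e) (D1 e) (mulw f (W e)))) (k e)‖ ≤
        ‖CS (tws Z' (B * bb e) (g e) (wD (D e) D1' (W e))) (k e)‖ := by
    intro e
    by_cases he1 : e ∈ E
    swap
    · exact ⟨1, 1, fun h => absurd h he1⟩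
    obtain ⟨a1, a2, a3, a4, a5, a6⟩ := hE e he1
    rcases norm_mulw_le (k := k e) (g := g e) (W := W e) hf a1 a2 a3 a4 a6
      (fun a b ha hb hca hcb => by
        rw [hg e he1 _ (ha.mul hb) (hca.mul_left hcb), hg e he1 a ha hca, hg e he1 b hb hcb,
          syAx.mul_left a b _ a5]
        have h3 := MuP_tw hη j ξ a b ha hb
        beta_reduce at h3
        rw [h3]
        ring)
      (fun a ha hca => by
        rw [hg e he1 a ha hca, norm_mul, norm_mul]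
        have h3 : ‖((nm a : ℕ) : ℂ) ^ (I * (ξ : ℂ))‖ = 1 := by
          rw [cpow_osc ha.ne_zero]
          exact Weight600.norm_osc _ _
        rw [h3, mul_one]
        exact mul_le_one₀ (Char766.norm_sy_le a5) (norm_nonneg _) (norm_tw1 hη j ha))
      (hW e) with h0 | ⟨f1, f2, f3, D1', Z', r1, r2, r3, r4, r5, r6, r7, r8, r9, r10, r11⟩
    · exact ⟨1, 1, fun _ h => absurd h0 h⟩
    · exact ⟨D1', Z', fun _ _ => ⟨⟨f1, f2, f3, r1, r2, r3, r4, r5, r6, r7, r8, r9⟩, r11⟩⟩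
  choose D1' Z' hDZ using hch
  exact ⟨D1', Z', hDZ⟩

set_option maxHeartbeats 2000000 in
/-- **the moved mass**, with the fixed symbol in `y` -/
theorem YG_move {h : ℝ → ℝ} {c : ℝ} (hpu : PU h c) (N : ℕ) {ε : ℝ} (hε : 0 < ε) {B₀ : ℝ}
    (hB₀ : 0 ≤ B₀) (M₁ : ℝ) : ∃ C r : ℝ, 1 ≤ C ∧ 0 ≤ r ∧ ∀ X : ℝ, 3 ≤ X →
    ∀ (P P₁ P₂ : DPar), (∀ k : Kd, IsChar (chK P k)) →
    ∀ ps₁ ps₂ : List Pq, ps₁.length ≤ N → ps₂.length ≤ N →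
    (∀ p ∈ ps₁, p.z ≤ B₀ * Real.log X) → (∀ p ∈ ps₂, p.z ≤ B₀ * Real.log X) →
    ∀ (M M' B z f : Eis) (η : Eis → ℂ) (j : ℤ) (ξ : ℝ) (hMB : M * B ≠ 0), Sm M f →
    PrI M z → HC M' η → (∀ p : Eis, Prime p → p ∣ M' → p ∣ M) →
    (∀ p ∈ ps₁, ∀ b, IsPrim b → chK P₁ p.kd b = chK P p.kd b * End699.tw η j b) →
    (∀ p ∈ ps₂, ∀ b, IsPrim b → chK P₂ p.kd b = chK P p.kd b *
      (conj (End699.tw η j b) * conj (End699.tw η j b))) →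
    ∀ (h₁ : FS (alL h (ps₁.map (Pq.pc P)))) (h₂ : FS (alL h (ps₂.map (Pq.pc P))))
      (α : Type) (E : Finset α) (nu D D1 bb Zt k : α → Eis) (g : α → Eis → ℂ),
    (∀ e ∈ E, IsPrim (nu e) ∧ Sm M (D e) ∧ IsPrim (D1 e) ∧ D1 e ∣ D e ∧ Squarefree (D1 e) ∧
      IsCoprime (D e) (B * bb e) ∧ Sm M (B * bb e) ∧ IsPrim (bb e) ∧ PrI (B * bb e) (Zt e) ∧
      k e ≠ 0) →
    (∀ e ∈ E, ∀ y, IsPrim y → IsCoprime y (B * bb e) →
      g e y = sy y (bb e) * (End699.tw η j y * (nm y : ℂ) ^ (I * ξ))) →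
    ∀ Λ : ℝ, Λ ≤ X ^ B₀ → (∀ e ∈ E, (nm (KG (bb e) (nu e) (D e) (k e)) : ℝ) ≤ Λ) →
    ∀ Q : Eis → Prop, (∀ e ∈ E, Q (KG (bb e) (nu e) (D e) (k e))) →
    ∀ T₀ : ℝ, 1 ≤ T₀ → (∀ K, (open Classical in
      ((E.filter (fun e => KG (bb e) (nu e) (D e) (k e) = K)).card : ℝ)) ≤ T₀) →
    ∀ Wx : α → ℝ, (∀ e ∈ E, 0 ≤ Wx e) → ∀ S₀ : ℝ, 0 ≤ S₀ →
    (∀ e ∈ E, ∀ f1 f2 f3 D1' Z' : Eis, f = f1 * f2 * f3 → Sm M f1 → Sm M f2 → Sm M f3 →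
      D1 e = f1 * D1' → Zt e = f2 * Z' → IsCoprime f3 (D1 e) → IsCoprime f3 (B * bb e) →
      PrI (B * bb e) f2 →
      ∀ l m : Eis, IsPrim l → IsPrim m → l * m ^ 2 = z * Z' →
      ∀ (n₁ : Fin ps₁.length → ℕ) (n₂ : Fin ps₂.length → ℕ),
      |∑ i, (n₁ i : ℝ) - (Real.log (nm l) + Real.log (nm D1'))| ≤ r →
      |∑ i, (n₂ i : ℝ) - Real.log (nm m)| ≤ r →
      ∃ (mv₁ : Finset (Fin ps₁.length)) (mv₂ : Finset (Fin ps₂.length)) (Sx Bd : ℝ),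
        0 ≤ Sx ∧ 0 ≤ Bd ∧ Sx * Bd ≤ S₀ ^ 2 ∧
        (∀ E' ⊆ E, ∀ (x₁ : α → Fin ps₁.length → Eis) (x₂ : α → Fin ps₂.length → Eis),
          (∀ e ∈ E', (∀ i, IsPrim (x₁ e i) ∧ (n₁ i : ℝ) ≤ Real.log (nm (x₁ e i)) ∧
              Real.log (nm (x₁ e i)) < n₁ i + 1) ∧
            (∀ i, IsPrim (x₂ e i) ∧ (n₂ i : ℝ) ≤ Real.log (nm (x₂ e i)) ∧
              Real.log (nm (x₂ e i)) < n₂ i + 1) ∧
            (∏ i, x₁ e i) * (∏ i, x₂ e i) ^ 2 ∣ D1 e * (z * Zt e)) →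
          ∑ e ∈ E', Wx e ^ 2 *
            ((∏ i ∈ mv₁, ‖CS (pc h (tP (th1 M B η j) ξ ((ps₁.get i).pc P) (x₁ e i)))
                (KG (bb e) (nu e) (D e) (k e))‖ ^ 2) *
              ∏ i ∈ mv₂, ‖CS (pc h (tP (th2 M B η j) (-2 * ξ) ((ps₂.get i).pc P) (x₂ e i)))
                (KG (bb e) (nu e) (D e) (k e))‖ ^ 2) ≤ Sx) ∧
        (∀ ps₁' ps₂' : List Pq,
          List.Forall₂ (Ch r) ps₁' ((rst ps₁ mv₁).map (shf (M * B) hMB ξ)) →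
          List.Forall₂ (Ch r) ps₂' ((rst ps₂ mv₂).map (shf (M * B) hMB (-2 * ξ))) →
          |Ls (rst ps₁ mv₁) - Ls ps₁' - ∑ i ∈ mv₁ᶜ, (n₁ i : ℝ)| ≤ r →
          |Ls (rst ps₂ mv₂) - Ls ps₂' - ∑ i ∈ mv₂ᶜ, (n₂ i : ℝ)| ≤ r →
          RQ Q h (Real.log Λ) (ps₁'.map (Pq.pc P₁) ++ ps₂'.map (Pq.pc P₂)) ≤
            Bd * (cst ps₁' ((rst ps₁ mv₁).map (shf (M * B) hMB ξ)) *
              cst ps₂' ((rst ps₂ mv₂).map (shf (M * B) hMB (-2 * ξ)))) ^ M₁)) →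
    ∑ e ∈ E, Wx e * ‖CS (tws (Zt e) (B * bb e) (g e) (wD (D e) (D1 e) (mulw f
        (ww M (alL h (ps₁.map (Pq.pc P))) (alL h (ps₂.map (Pq.pc P)))
          (h₁.fin.toFinset ×ˢ h₂.fin.toFinset) z (nu e))))) (k e)‖ ≤
      C * X ^ ε * T₀ * S₀ := by
  classical
  obtain ⟨C, r, hC, hr, H⟩ := YG_move0 hpu N hε hB₀ M₁
  refine ⟨C, r, hC, hr, ?_⟩
  intro X hX P P₁ P₂ hP ps₁ ps₂ hlen₁ hlen₂ hz₁ hz₂ M M' B z f η j ξ hMB hf hz hη hM' hc₁ hc₂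
    h₁ h₂ α E nu D D1 bb Zt k g hE hg Λ hΛX hKle Q hQ T₀ hT₀ hmult Wx hWx S₀ hS₀ hyp
  set b₁ := alL h (ps₁.map (Pq.pc P)) with hb₁
  set b₂ := alL h (ps₂.map (Pq.pc P)) with hb₂
  set W : α → Eis → ℂ :=
    fun e => ww M b₁ b₂ (h₁.fin.toFinset ×ˢ h₂.fin.toFinset) z (nu e) with hW
  set G : α → ℂ := fun e => CS (tws (Zt e) (B * bb e) (g e) (wD (D e) (D1 e) (mulw f
        (W e)))) (k e) with hG
  obtain ⟨D1', Z', hDZ⟩ := choose_mulw (B := B) (z := z) hf hη E D D1 bb Zt k g W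
    (fun e y hy => (E4D164.pu_ne hy).1.1)
    (fun e he => by
      obtain ⟨a1, a2, a3, a4, a5, a6, a7, a8, a9, a10⟩ := hE e he
      exact ⟨a2.1, a3, a4, a6, a8, a9⟩) hg
  set E₁ : Finset α := E.filter (fun e => G e ≠ 0) with hE₁
  have hsub : ∀ e ∈ E₁, e ∈ E := fun e he => (Finset.mem_filter.1 he).1
  have hsub' : E₁ ⊆ E := Finset.filter_subset _ _
  have h3 : ∑ e ∈ E, Wx e * ‖G e‖ ≤ ∑ e ∈ E₁, Wx e *
      ‖CS (tws (Z' e) (B * bb e) (g e) (wD (D e) (D1' e) (W e))) (k e)‖ := by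
    rw [hE₁, Finset.sum_filter]
    refine Finset.sum_le_sum fun e he => ?_
    split_ifs with h0
    · exact mul_le_mul_of_nonneg_left (hDZ e he h0).2 (hWx e he)
    · rw [not_not.1 h0, norm_zero, mul_zero]
  refine h3.trans ?_
  refine H X hX P P₁ P₂ hP ps₁ ps₂ hlen₁ hlen₂ hz₁ hz₂ M M' B z η j ξ hMB hz hη hM' hc₁ hc₂
    h₁ h₂ α E₁ nu D D1' bb Z' k g ?_ (fun e he => hg e (hsub e he)) Λ hΛX
    (fun e he => hKle e (hsub e he)) Q (fun e he => hQ e (hsub e he)) T₀ hT₀ ?_ Wx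
    (fun e he => hWx e (hsub e he)) S₀ hS₀ ?_
  · intro e he
    obtain ⟨a1, a2, a3, a4, a5, a6, a7, a8, a9, a10⟩ := hE e (hsub e he)
    obtain ⟨⟨f1, f2, f3, r1, r2, r3, r4, r5, r6, r7, r8, r9⟩, -⟩ :=
      hDZ e (hsub e he) (Finset.mem_filter.1 he).2
    have d1 : D1' e ∣ D1 e := ⟨f1, by rw [r5]; ring⟩
    refine ⟨a1, a2, ?_, d1.trans a4, a5.squarefree_of_dvd d1, a6, a7, a8, ⟨?_, ?_⟩, a10⟩
    · rw [r5] at a3; exact a3.of_mul_left r2.1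
    · have := a9.1
      rw [r6] at this
      exact this.of_mul_left r3.1
    · intro p hp hd
      exact a9.2 p hp (hd.trans ⟨f2, by rw [r6]; ring⟩)
  · intro K
    refine le_trans ?_ (hmult K)
    have : (E₁.filter (fun e => KG (bb e) (nu e) (D e) (k e) = K)) ⊆
        (E.filter (fun e => KG (bb e) (nu e) (D e) (k e) = K)) :=
      Finset.filter_subset_filter _ (Finset.filter_subset _ _)
    have h5 := Finset.card_le_card this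
    refine le_trans (le_of_eq ?_) (le_trans (Nat.cast_le (α := ℝ).2 h5) (le_of_eq ?_))
    · congr
    · congr
  · intro e he l m hl hm hlm n₁ n₂ hn₁ hn₂
    obtain ⟨⟨f1, f2, f3, r1, r2, r3, r4, r5, r6, r7, r8, r9⟩, -⟩ :=
      hDZ e (hsub e he) (Finset.mem_filter.1 he).2
    obtain ⟨mv₁, mv₂, Sx, Bd, hSx, hBd, hSB, hx, hy⟩ := hyp e (hsub e he) f1 f2 f3 (D1' e)
      (Z' e) r1 r2 r3 r4 r5 r6 r7 r8 r9 l m hl hm hlm n₁ n₂ hn₁ hn₂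
    refine ⟨mv₁, mv₂, Sx, Bd, hSx, hBd, hSB, ?_, hy⟩
    intro E' hE' x₁ x₂ hxx
    refine hx E' (hE'.trans hsub') x₁ x₂ fun e' he' => ?_
    obtain ⟨t1, t2, t3⟩ := hxx e' he'
    refine ⟨t1, t2, ?_⟩
    rw [t3]
    obtain ⟨⟨f1, f2, f3, r1, r2, r3, r4, r5, r6, r7, r8, r9⟩, -⟩ :=
      hDZ e' (hsub e' (hE' he')) (Finset.mem_filter.1 (hE' he')).2
    rw [r5, r6]
    exact ⟨f1 * f2, by ring⟩

end Crest.Agent.R017.E4Yb792
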