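import Crest.Agent.R017.E2d_440

/-!
# Row 17, block C70, leaf E4, part a (helper164): the k-side, one prime

For EVERY frequency `u` and every prime `p ∤ M`

  `NT (M p) u φ = NT M (u p³) φ - N(p)³ NT M u (φ (p³ ·))`.
-/

set_option autoImplicit false

noncomputable section

open Complex
open scoped ComplexConjugate

namespace Crest.Agent.R017.E4164

open Crest.Agent.R012 Crest.Agent.R012.Eis Crest.Agent.R012.GaussLoc283
open Crest.Agent.R012.Mob705 Crest.Agent.R012.Div277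
open Crest.Agent.R017.Sx545 (Sm)
open Crest.Agent.R017.PX764 (th Gh n6)
open Crest.Agent.R017.E2440

variable {M p u : Eis}

/-! ### prime powers -/

/-- `gs (u p³) (p^(v+3)) = q³ gs u (p^v)` for `v ≥ 1` -/
lemma gs_pow_shift (hp : IsPrim p) (u : Eis) (k : ℕ) :
    gs (u * p ^ 3) (p ^ (k + 3 + 1)) = (nm p : ℂ) ^ 3 * gs u (p ^ (k + 1)) := by
  by_cases h : p ^ k ∣ u
  · obtain ⟨s, rfl⟩ := h
    have e1 : p ^ k * s * p ^ 3 = s * p ^ (k + 3) := by ring
    have e2 : p ^ k * s = s * p ^ k := by ring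
    rw [e1, e2, gs_pow syAx s hp (k + 3), gs_pow syAx s hp k,
      show k + 3 + 1 = k + 1 + 2 + 1 by ring]
    have e3 : tw (k + 1 + 2 + 1) s p = tw (k + 1) s p := tw_add_three syAx k s hp
    rw [e3]
    ring
  · have h2 : ¬ p ^ (k + 3) ∣ u * p ^ 3 := by
      intro h3
      apply h
      rw [pow_add] at h3
      exact (mul_dvd_mul_iff_right (pow_ne_zero 3 hp.ne_zero)).mp h3
    rw [gs_pow_of_not_dvd syAx hp h, gs_pow_of_not_dvd syAx hp h2, mul_zero]

/-- `p ∣ d` : `gs (u p³) (p³ d) = q³ gs u d` -/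
lemma gs_p3_of_dvd (hp : IsPrim p) (hpp : Prime p) (u : Eis) {d : Eis} (hd : IsPrim d)
    (hpd : p ∣ d) : gs (u * p ^ 3) (p ^ 3 * d) = (nm p : ℂ) ^ 3 * gs u d := by
  have hfin : FiniteMultiplicity p d := FiniteMultiplicity.of_prime_left hpp hd.ne_zero
  obtain ⟨c, hc, hnc⟩ := hfin.exists_eq_pow_mul_and_not_dvd
  set m := multiplicity p d with hm
  have hcp : IsPrim c := (hc ▸ hd : IsPrim (p ^ m * c)).of_mul_left (hp.pow m)
  have hm1 : m ≠ 0 := by
    intro h0
    rw [h0, pow_zero, one_mul] at hc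
    exact hnc (hc ▸ hpd)
  obtain ⟨k, hk⟩ : ∃ k, m = k + 1 := ⟨m - 1, by omega⟩
  have hcop : IsCoprime c p := (cop_iff hpp c).mpr hnc
  have e1 : p ^ 3 * d = p ^ (k + 3 + 1) * c := by rw [hc, hk]; ring
  have e2 : u * p ^ 3 * p ^ (k + 3 + 1) = (u * p ^ (k + 1)) * (p ^ 2) ^ 3 := by ring
  have e3 : d = p ^ (k + 1) * c := by rw [← hk]; exact hc
  rw [e1, gs_mul' syAx (u * p ^ 3) (hp.pow _) hcp hcop.symm.pow_left, e2,
    gs_cube_left syAx (u * p ^ (k + 1)) hcp (hcop.symm.pow_left), gs_pow_shift hp u k,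
    e3, gs_mul' syAx u (hp.pow _) hcp hcop.symm.pow_left]
  ring

lemma gs_p3_of_not_dvd (hp : IsPrim p) (hpp : Prime p) (u : Eis) {d : Eis} (hd : IsPrim d)
    (hpd : IsCoprime d p) :
    gs (u * p ^ 3) (p ^ 3 * d) = ((nm p : ℂ) ^ 3 - (nm p : ℂ) ^ 2) * gs u d := by
  have e2 : u * p ^ 3 * p ^ 3 = u * (p ^ 2) ^ 3 := by ring
  have e3 : gs (u * p ^ 3) (p ^ 3) = (nm p : ℂ) ^ 2 * (nm p - 1) := by
    have := gs_table_le syAx (r := u) hp hpp (a := 3) (k := 2) le_rfl
    rw [this, if_pos (by norm_num)]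
  rw [gs_mul' syAx (u * p ^ 3) (hp.pow _) hd hpd.symm.pow_left, e2,
    gs_cube_left syAx u hd (hpd.symm.pow_left), e3]
  ring

lemma gs_p3_one (hp : IsPrim p) (hpp : Prime p) (u : Eis) : gs (u * p ^ 3) (p ^ 1) = 0 := by
  have := gs_table_le syAx (r := u) hp hpp (a := 3) (k := 0) (by norm_num)
  rw [this, if_neg (by norm_num)]

lemma gs_p3_two (hp : IsPrim p) (hpp : Prime p) (u : Eis) : gs (u * p ^ 3) (p ^ 2) = 0 := by
  have := gs_table_le syAx (r := u) hp hpp (a := 3) (k := 1) (by norm_num)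
  rw [this, if_neg (by norm_num)]

/-! ### inner sums -/

lemma DS_cube (hpM : IsPrim p) (u : Eis) (ψ : Eis → ℂ) :
    DS (M * p) (u * p ^ 3) ψ = DS (M * p) u ψ := by
  classical
  unfold DS
  refine tsum_congr fun d => ?_
  split_ifs with hd
  · rw [gs_cube_left syAx u hd.1 (hd.2.of_mul_right_right.symm)]
  · rfl

lemma DS_p3 (hp : Sm M p) (hpp : Prime p) (u : Eis) {ψ : Eis → ℂ} (hψ : Dcy ψ) :
    DS M (u * p ^ 3) ψ = DS (M * p) u ψ + ((nm p : ℂ) ^ 3 * DS M u (fun d => ψ (p ^ 3 * d)) -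
      (nm p : ℂ) ^ 2 * DS (M * p) u (fun d => ψ (p ^ 3 * d))) := by
  classical
  have hs := summable_DS (M := M) (u := u * p ^ 3) hψ
  have hs1 := summable_dil hp hs
  have hs2 := summable_dil hp hs1
  have h1 : DS M (u * p ^ 3) ψ = _ := sum_split hp hpp hs
  have h2 := sum_split hp hpp hs1
  have h3 := sum_split hp hpp hs2
  rw [h1, h2, h3]
  have z1 : ∀ d, (if Sm (M * p) d then conj (gs (u * p ^ 3) (p * d)) * ψ (p * d) else 0) = 0 := by
    intro d
    split_ifs with hd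
    · rw [sm_mul_right] at hd
      have := gs_pow_mul_eq_zero (u := u * p ^ 3) (j := 1) hp.prim hd.1.prim hd.2
        (gs_p3_one hp.prim hpp u)
      rw [pow_one] at this
      rw [this]; simp
    · rfl
  have z2 : ∀ d, (if Sm (M * p) d then conj (gs (u * p ^ 3) (p * (p * d))) * ψ (p * (p * d))
      else 0) = 0 := by
    intro d
    split_ifs with hd
    · rw [sm_mul_right] at hd
      have := gs_pow_mul_eq_zero (u := u * p ^ 3) (j := 2) hp.prim hd.1.prim hd.2
        (gs_p3_two hp.prim hpp u)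
      have e : p * (p * d) = p ^ 2 * d := by ring
      rw [e, this]; simp
    · rfl
  rw [tsum_congr z1, tsum_congr z2, tsum_zero, zero_add, zero_add]
  have e0 : DS (M * p) (u * p ^ 3) ψ = DS (M * p) u ψ := DS_cube hp.prim u ψ
  have e0' : (∑' d, if Sm (M * p) d then conj (gs (u * p ^ 3) d) * ψ d else 0) =
      DS (M * p) u ψ := e0
  rw [e0']
  congr 1
  have hψ3 : Dcy (fun d => ψ (p ^ 3 * d)) := hψ.dil (pow_ne_zero 3 hp.ne_zero)
  have t1 := (summable_DS (M := M) (u := u) hψ3).mul_left ((nm p : ℂ) ^ 3)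
  have t2 := (summable_DS (M := M * p) (u := u) hψ3).mul_left ((nm p : ℂ) ^ 2)
  unfold DS
  rw [← tsum_mul_left, ← tsum_mul_left, ← t1.tsum_sub t2]
  refine tsum_congr fun d => ?_
  have e : p * (p * (p * d)) = p ^ 3 * d := by ring
  rw [e]
  by_cases hd : Sm M d
  · by_cases hpd : p ∣ d
    · have h5 : ¬ Sm (M * p) d := by
        rw [sm_mul_right]
        exact fun h => (cop_iff hpp d).mp h.2 hpd
      rw [if_pos hd, if_pos hd, if_neg h5, gs_p3_of_dvd hp.prim hpp u hd.prim hpd]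
      simp only [map_mul, map_pow, map_natCast]
      ring
    · have h4 : IsCoprime d p := (cop_iff hpp d).mpr hpd
      have h5 : Sm (M * p) d := by rw [sm_mul_right]; exact ⟨hd, h4⟩
      rw [if_pos hd, if_pos hd, if_pos h5, gs_p3_of_not_dvd hp.prim hpp u hd.prim h4]
      simp only [map_mul, map_sub, map_pow, map_natCast]
      ring
  · have h5 : ¬ Sm (M * p) d := by
      rw [sm_mul_right]
      exact fun h => hd h.1
    rw [if_neg hd, if_neg hd, if_neg h5]
    ring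

lemma NT_cube (hpM : IsPrim p) (u : Eis) (φ : Eis → ℂ) :
    NT (M * p) (u * p ^ 3) φ = NT (M * p) u φ := by
  classical
  unfold NT
  refine tsum_congr fun e => ?_
  split_ifs with he
  · rw [DS_cube hpM]
  · rfl

/-- **one prime, all frequencies** -/
theorem NT_rem3 (hp : Sm M p) (hpp : Prime p) (u : Eis) {φ : Eis → ℂ} (hφ : Dcy φ) :
    NT (M * p) u φ = NT M (u * p ^ 3) φ - (nm p : ℂ) ^ 3 * NT M u (fun k => φ (p ^ 3 * k)) := by
  classical
  obtain ⟨C, hC0, hC⟩ := hφ.nonneg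
  have hp0 := hp.ne_zero
  have hφ3 : Dcy (fun k => φ (p ^ 3 * k)) := hφ.dil (pow_ne_zero 3 hp0)
  -- the telescoped sum
  have htele := tele hp hpp (C := C * K0) (mul_nonneg hC0 K0_nonneg)
    (A := fun e => DS (M * p) u (fun d => φ (d * e ^ 3)))
    (fun e he => norm_DS_cube_le hC0 hC e he)
  have e1 : NT (M * p) u φ = ∑' e, (if Sm (M * p) e then (nm e : ℂ) ^ 2 *
      DS (M * p) u (fun d => φ (d * e ^ 3)) else 0) := rfl
  rw [e1, ← htele]
  have s1 := summable_NT (M := M) (u := u * p ^ 3) hφ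
  have s2 := (summable_NT (M := M) (u := u) hφ3).mul_left ((nm p : ℂ) ^ 3)
  unfold NT
  rw [← tsum_mul_left, ← s1.tsum_sub s2]
  refine tsum_congr fun e => ?_
  split_ifs with he
  · rw [DS_p3 hp hpp u (hφ.cube he.ne_zero)]
    have h3 : (fun d => φ (p ^ 3 * (d * e ^ 3))) = (fun d => φ (p ^ 3 * d * e ^ 3)) := by
      funext d; congr 1; ring
    have h4 : (fun d => φ (d * (p * e) ^ 3)) = (fun d => φ (p ^ 3 * d * e ^ 3)) := by
      funext d; congr 1; ring
    simp only [h3, h4]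
    ring
  · simp

end Crest.Agent.R017.E4164
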