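import Crest.Agent.R017.NT3_47

/-!
# Row 17, E4: one pair of twists against the theta coefficients, all gcds (helper47)

* `NT_congr`, `exists_rad` : the modulus of `NT` counts only through its primes
* `star` : `Σ_{k prim} th (c ρ k) (k over m) conj (k over F) φ k =
   th (c ρ) NT (m F) (c ρ m F²) (N^(-2/3) φ)`, `m`, `F` arbitrary primary, `ρ` squarefree
* `star_full` : the right side as a finite sum of complete series `NT 1`
* `star_nu` : `j = u ν²`: `k = ν k₁`
-/

set_option autoImplicit false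
set_option linter.unusedVariables false

noncomputable section

open Complex
open scoped ComplexConjugate

namespace Crest.Agent.R017.NT47

open Crest.Agent.R012 Crest.Agent.R012.Eis Crest.Agent.R012.GaussLoc283
open Crest.Agent.R012.Mob705 Crest.Agent.R012.Div277
open Crest.Agent.R017.Sx545 (Sm)
open Crest.Agent.R017.E2440
open Crest.Agent.R017.PX764 (th Gh n6)

/-- the modulus counts only through the coprimality it defines -/
lemma NT_congr {M M' : Eis} (h : ∀ d, IsPrim d → (IsCoprime d M ↔ IsCoprime d M')) (u : Eis)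
    (φ : Eis → ℂ) : NT M u φ = NT M' u φ := by
  have hS : ∀ d, Sm M d ↔ Sm M' d := fun d =>
    ⟨fun hd => ⟨hd.1, (h d hd.1).mp hd.2⟩, fun hd => ⟨hd.1, (h d hd.1).mpr hd.2⟩⟩
  unfold NT DS
  refine tsum_congr fun e => ?_
  by_cases he : Sm M e
  · rw [if_pos he, if_pos ((hS e).mp he)]
    congr 1
    refine tsum_congr fun d => ?_
    by_cases hd : Sm M d
    · rw [if_pos hd, if_pos ((hS d).mp hd)]
    · rw [if_neg hd, if_neg (fun h' => hd ((hS d).mpr h'))]
  · rw [if_neg he, if_neg (fun h' => he ((hS e).mpr h'))]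

/-- the radical -/
def rd (n : Eis) : Eis := ∏ p ∈ pp n, p

lemma rd_prim (n : Eis) : IsPrim (rd n) := (ppSet_pp n).isPrim_prod

lemma rd_sqf (n : Eis) : Squarefree (rd n) := (ppSet_pp n).squarefree_prod

lemma rd_dvd (n : Eis) : rd n ∣ n := prod_pp_dvd n

lemma pp_dvd_rd {n p : Eis} (hn : n ≠ 0) (hp : IsPP p) : p ∣ rd n ↔ p ∣ n := by
  unfold rd
  rw [(ppSet_pp n).dvd_prod hp, mem_pp hn]
  exact ⟨fun h => h.2, fun h => ⟨hp, h⟩⟩

lemma cop_rd {n d : Eis} (hn : n ≠ 0) (hd : IsPrim d) : IsCoprime d (rd n) ↔ IsCoprime d n := by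
  rw [isCoprime_iff_pp hd, isCoprime_iff_pp hd]
  constructor
  · intro h p hp hpd hpn
    exact h p hp hpd ((pp_dvd_rd hn hp).mpr hpn)
  · intro h p hp hpd hpn
    exact h p hp hpd ((pp_dvd_rd hn hp).mp hpn)

/-- **(★)** one pair of twists against the theta coefficients -/
theorem star {c ρ m F : Eis} (hc : NoP 1 c) (hρ : IsPrim ρ) (hρs : Squarefree ρ)
    (hm : IsPrim m) (hF : IsPrim F) {φ : Eis → ℂ} (hφ : Dcy φ) :
    open Classical in
    (∑' k : Eis, if IsPrim k then th (c * ρ * k) * (sy k m * conj (sy k F) * φ k) else 0) =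
      th (c * ρ) * NT (m * F) (c * ρ * (m * F ^ 2)) (fun k => n23 k * φ k) := by
  classical
  have hq : IsPrim (m * F ^ 2) := hm.mul (hF.pow 2)
  have hdM : ∀ d, IsCoprime d (m * F) → IsCoprime d (m * F ^ 2) := by
    intro d hd
    exact hd.of_mul_right_left.mul_right hd.of_mul_right_right.pow_right
  have hψ : Dcy (fun k => sy k (m * F ^ 2) * φ k) :=
    hφ.mul_bdd (B := 1) fun k _ => norm_sy_le1 hq
  have e1 : (∑' k : Eis, if IsPrim k then th (c * ρ * k) * (sy k m * conj (sy k F) * φ k) else 0)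
      = TS (m * F) (c * ρ) (fun k => sy k (m * F ^ 2) * φ k) := by
    unfold TS
    refine tsum_congr fun k => ?_
    by_cases hk : IsPrim k
    · rw [if_pos hk]
      by_cases hkn : IsCoprime k m
      · by_cases hkν : IsCoprime k F
        · have hS : Sm (m * F) k := ⟨hk, hkn.mul_right hkν⟩
          rw [if_pos hS]
          show _ = th (c * ρ * k) * (sy k (m * F ^ 2) * φ k)
          rw [sy_conj_sq hF hkν, syAx.mul_right _ _ _ hm (hF.pow 2), pow_two,
            syAx.mul_right _ _ _ hF hF]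
        · rw [if_neg (fun h => hkν h.2.of_mul_right_right), (syAx.eq_zero _ _ hF).mpr hkν]
          simp
      · rw [if_neg (fun h => hkn h.2.of_mul_right_left), (syAx.eq_zero _ _ hm).mpr hkn]
        simp
    · rw [if_neg hk, if_neg (fun h => hk h.1)]
  have e2 := THs_all hc hρ hρs (m * F) _ hψ
  have e3 : (fun k => n23 k * (sy k (m * F ^ 2) * φ k)) =
      fun k => sy k (m * F ^ 2) * (n23 k * φ k) := by
    funext k; ring
  rw [e1, e2, e3, NT_tw hq hdM]

/-- **(★) with the coprimality removed** : a finite sum of complete natural series -/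
theorem star_full {c ρ m F : Eis} (hc : NoP 1 c) (hρ : IsPrim ρ) (hρs : Squarefree ρ)
    (hm : IsPrim m) (hF : IsPrim F) {φ : Eis → ℂ} (hφ : Dcy φ) :
    open Classical in
    (∑' k : Eis, if IsPrim k then th (c * ρ * k) * (sy k m * conj (sy k F) * φ k) else 0) =
      th (c * ρ) * ∑ D ∈ dvs (rd (m * F)), ∑ B ∈ (dvs (rd (m * F))).filter
        (fun B => B ^ 3 ∣ c * ρ * (m * F ^ 2)),
        cB D * conj (sy (c * ρ * (m * F ^ 2) / D) D) * ((muE B : ℂ) * (nm B : ℂ) ^ 3) *
          NT 1 (c * ρ * (m * F ^ 2) / (D * B ^ 3))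
            (fun k => n23 (D ^ 2 * B ^ 3 * k) * φ (D ^ 2 * B ^ 3 * k)) := by
  classical
  have hmF0 : m * F ≠ 0 := (hm.mul hF).ne_zero
  have hu : c * ρ * (m * F ^ 2) ≠ 0 :=
    mul_ne_zero (mul_ne_zero hc.1 hρ.ne_zero) (hm.mul (hF.pow 2)).ne_zero
  have hr1 : rd (m * F) ∣ c * ρ * (m * F ^ 2) :=
    (rd_dvd _).trans ⟨c * ρ * F, by ring⟩
  have e0 : NT (m * F) (c * ρ * (m * F ^ 2)) (fun k => n23 k * φ k) =
      NT (1 * rd (m * F)) (c * ρ * (m * F ^ 2)) (fun k => n23 k * φ k) := by
    refine NT_congr (fun d hd => ?_) _ _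
    rw [one_mul]
    exact (cop_rd hmF0 hd).symm
  rw [star hc hρ hρs hm hF hφ, e0, NT_full (rd_sqf _) ⟨rd_prim _, isCoprime_one_right⟩ hu hr1
    hφ.n23]

/-- the square part of `j` goes into `k` -/
theorem star_nu {u ν : Eis} (hν : IsPrim ν) (hνs : Squarefree ν) (huν : IsCoprime u ν)
    (A : Eis → ℂ) :
    open Classical in
    (∑' k : Eis, if IsPrim k then th (u * ν ^ 2 * k) * A k else 0) =
      ∑' k : Eis, if IsPrim k then th (u * k) * A (ν * k) else 0 := by
  classical
  have hν0 := hν.ne_zero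
  have hz : ∀ k, IsPrim k → ¬ ν ∣ k → th (u * ν ^ 2 * k) = 0 := by
    intro k hk hνk
    have : ∃ p, IsPP p ∧ p ∣ ν ∧ ¬ p ∣ k := by
      by_contra hcon
      push Not at hcon
      apply hνk
      rw [← prod_pp hν hνs, (ppSet_pp ν).prod_dvd]
      intro p hp
      rw [mem_pp hν0] at hp
      exact hcon p hp.1 hp.2
    obtain ⟨p, hp, ⟨ν', rfl⟩, hpk⟩ := this
    have hpν' : ¬ p ∣ ν' := fun h => hp.prime.not_isUnit (hνs p (mul_dvd_mul_left p h))
    have hpu : ¬ p ∣ u := fun h => hp.prime.not_isUnit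
      (huν.isUnit_of_dvd' h (dvd_mul_right _ _))
    have e : u * (p * ν') ^ 2 * k = (u * ν' ^ 2 * k) * p ^ 2 := by ring
    rw [e]
    refine PX764.th_two hp.prime hp.isPrim (fun h => ?_)
    rcases hp.prime.dvd_or_dvd h with h | h
    · rcases hp.prime.dvd_or_dvd h with h | h
      · exact hpu h
      · exact hpν' (hp.prime.dvd_of_dvd_pow h)
    · exact hpk h
  have hinj : Function.Injective (fun k : Eis => ν * k) := fun a b h => mul_left_cancel₀ hν0 h
  have hsup : Function.support (fun k : Eis => if IsPrim k then th (u * ν ^ 2 * k) * A k else 0) ⊆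
      Set.range (fun k : Eis => ν * k) := by
    intro k hk
    rw [Function.mem_support] at hk
    by_contra hcon
    apply hk
    split_ifs with h
    · rw [hz k h (fun ⟨y, hy⟩ => hcon ⟨y, hy.symm⟩), zero_mul]
    · rfl
  rw [← hinj.tsum_eq hsup]
  refine tsum_congr fun k => ?_
  by_cases hk : IsPrim k
  · rw [if_pos (hν.mul hk), if_pos hk]
    have e : u * ν ^ 2 * (ν * k) = (u * k) * ν ^ 3 := by ring
    rw [e, PX764.th_cube_all hν0]
  · rw [if_neg hk, if_neg (fun h => hk (h.of_mul_left hν))]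

end Crest.Agent.R017.NT47
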