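import Crest.Agent.R017.E2d_440

/-!
# Row 17, C70 / E4 (helper858): removal of primes from natural cubic series, all valuations

* `gs_p3` : `gs (h p³) (p^(j+3)) = q³ gs h (p^j)`, `j ≥ 1`, any `h`
* `NT_cub` : `NT (M p) (h p³) φ = NT (M p) h φ`
* `NT_rem3` : `NT (M p) (h p³) φ = NT M (h p³) φ - q³ NT M h (φ (p³ ·))`, any `h`
* `NT_rmv0`, `NT_rmv3` : the same for squarefree moduli (`NT_rmv`, `NT_rmv2` : helper440)
-/

set_option autoImplicit false
set_option linter.unusedVariables false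
set_option linter.unusedSectionVars false

noncomputable section

open Complex
open scoped ComplexConjugate

namespace Crest.Agent.R017.E4858

open Crest.Agent.R012 Crest.Agent.R012.Eis Crest.Agent.R012.GaussLoc283
open Crest.Agent.R012.Mob705 Crest.Agent.R012.Div277
open Crest.Agent.R017.Sx545 (Sm)
open Crest.Agent.R017.E2440

/-! ### local facts -/

/-- `gs (h p³) (p^(j+3)) = q³ gs h (p^j)` -/
theorem gs_p3 {h p : Eis} (hp : IsPrim p) (hpp : Prime p) {j : ℕ} (hj : 1 ≤ j) :
    gs (h * p ^ 3) (p ^ (j + 3)) = (nm p : ℂ) ^ 3 * gs h (p ^ j) := by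
  obtain ⟨i, rfl⟩ : ∃ i, j = i + 1 := ⟨j - 1, by omega⟩
  by_cases hd : p ^ i ∣ h
  · obtain ⟨s, rfl⟩ := hd
    have e1 : p ^ i * s * p ^ 3 = s * p ^ (i + 3) := by ring
    have e2 : p ^ i * s = s * p ^ i := by ring
    have e3 : i + 1 + 3 = (i + 3) + 1 := by ring
    rw [e1, e2, e3, gs_pow syAx s hp (i + 3), gs_pow syAx s hp i]
    have e4 : tw (i + 3 + 1) s p = tw (i + 1) s p := by
      have := tw_add_three syAx i s hp
      rw [show i + 3 + 1 = i + 1 + 3 by ring]
      exact this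
    rw [e4]
    ring
  · have h1 : ¬ p ^ (i + 3) ∣ h * p ^ 3 := by
      intro h2
      apply hd
      rw [pow_add, mul_comm (p ^ i), mul_comm h] at h2
      exact (mul_dvd_mul_iff_left (pow_ne_zero 3 hpp.ne_zero)).mp h2
    rw [show i + 1 + 3 = (i + 3) + 1 by ring, gs_pow_of_not_dvd syAx hp h1,
      gs_pow_of_not_dvd syAx hp hd, mul_zero]

theorem gs_p3_one {h p : Eis} (hp : IsPrim p) (hpp : Prime p) : gs (h * p ^ 3) p = 0 :=
  gs_prime_of_dvd syAx hp hpp ((dvd_pow_self p (by norm_num)).mul_left h)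

theorem gs_p3_two {h p : Eis} (hp : IsPrim p) (hpp : Prime p) : gs (h * p ^ 3) (p ^ 2) = 0 := by
  have := gs_table_le syAx (r := h) hp hpp (a := 3) (k := 1) (by omega)
  simpa using this

theorem gs_p3_three {h p : Eis} (hp : IsPrim p) (hpp : Prime p) :
    gs (h * p ^ 3) (p ^ 3) = (nm p : ℂ) ^ 3 - (nm p : ℂ) ^ 2 := by
  have := gs_table_le syAx (r := h) hp hpp (a := 3) (k := 2) (by omega)
  rw [if_pos (by norm_num)] at this
  rw [show (3 : ℕ) = 2 + 1 by norm_num] at this ⊢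
  rw [this]
  ring

section one

variable {M p : Eis}

/-- `p ∣ d` : `gs (h p³) (p³ d) = q³ gs h d` -/
lemma gs_p3_mul_dvd (hp : IsPrim p) (hpp : Prime p) (h : Eis) {d : Eis} (hd : IsPrim d)
    (hpd : p ∣ d) : gs (h * p ^ 3) (p ^ 3 * d) = (nm p : ℂ) ^ 3 * gs h d := by
  have hfin : FiniteMultiplicity p d := FiniteMultiplicity.of_prime_left hpp hd.ne_zero
  obtain ⟨c, hc, hnc⟩ := hfin.exists_eq_pow_mul_and_not_dvd
  set m := multiplicity p d with hm
  have hcp : IsPrim c := (hc ▸ hd : IsPrim (p ^ m * c)).of_mul_left (hp.pow m)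
  have hcop : IsCoprime c p := (cop_iff hpp c).mpr hnc
  have hm1 : 1 ≤ m := by
    rcases Nat.eq_zero_or_pos m with h0 | h0
    · exfalso
      rw [h0, pow_zero, one_mul] at hc
      exact hnc (hc ▸ hpd)
    · exact h0
  have e1 : p ^ 3 * d = p ^ (m + 3) * c := by rw [hc]; ring
  have e2 : d = p ^ m * c := hc
  rw [e1, gs_mul' syAx _ (hp.pow _) hcp (hcop.symm.pow_left), gs_p3 hp hpp hm1]
  conv_rhs => rw [e2, gs_mul' syAx _ (hp.pow m) hcp (hcop.symm.pow_left)]
  have e3 : h * p ^ 3 * p ^ (m + 3) = ((h * p ^ m) * p ^ 3) * p ^ 3 := by ring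
  rw [e3, gs_cube_left syAx _ hcp hcop.symm, gs_cube_left syAx _ hcp hcop.symm]
  ring

/-- `p ∤ d` : `gs (h p³) (p³ d) = (q³ - q²) gs h d` -/
lemma gs_p3_mul_cop (hp : IsPrim p) (hpp : Prime p) (h : Eis) {d : Eis} (hd : IsPrim d)
    (hpd : IsCoprime d p) :
    gs (h * p ^ 3) (p ^ 3 * d) = ((nm p : ℂ) ^ 3 - (nm p : ℂ) ^ 2) * gs h d := by
  rw [gs_mul' syAx _ (hp.pow _) hd (hpd.symm.pow_left), gs_p3_three hp hpp,
    gs_cube_left syAx _ hd hpd.symm, gs_cube_left syAx _ hd hpd.symm]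

lemma gs_p3_cop (hp : IsPrim p) (h : Eis) {d : Eis} (hd : IsPrim d) (hpd : IsCoprime d p) :
    gs (h * p ^ 3) d = gs h d := gs_cube_left syAx _ hd hpd.symm

theorem DS_cub (hp : Sm M p) (h : Eis) (ψ : Eis → ℂ) :
    DS (M * p) (h * p ^ 3) ψ = DS (M * p) h ψ := by
  classical
  unfold DS
  refine tsum_congr fun d => ?_
  split_ifs with hd
  · rw [sm_mul_right] at hd
    rw [gs_p3_cop hp.prim h hd.1.prim hd.2]
  · rfl

theorem NT_cub (hp : Sm M p) (h : Eis) (φ : Eis → ℂ) :
    NT (M * p) (h * p ^ 3) φ = NT (M * p) h φ := by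
  classical
  unfold NT
  refine tsum_congr fun e => ?_
  rw [DS_cub hp]

lemma DS_p3 (hp : Sm M p) (hpp : Prime p) (h : Eis) {ψ : Eis → ℂ} (hψ : Dcy ψ) :
    DS M (h * p ^ 3) ψ = (DS (M * p) h ψ - (nm p : ℂ) ^ 2 *
      DS (M * p) h (fun d => ψ (p ^ 3 * d))) + (nm p : ℂ) ^ 3 * DS M h (fun d => ψ (p ^ 3 * d)) := by
  classical
  have hp0 := hp.ne_zero
  have hs := summable_DS (M := M) (u := h * p ^ 3) hψ
  have hs1 := summable_dil hp hs
  have hs2 := summable_dil hp hs1
  have hs3 := summable_dil hp hs2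
  have h1 : DS M (h * p ^ 3) ψ = _ := sum_split hp hpp hs
  have h2 := sum_split hp hpp hs1
  have h3 := sum_split hp hpp hs2
  rw [h1, h2, h3]
  have z1 : ∀ d, (if Sm (M * p) d then conj (gs (h * p ^ 3) (p * d)) * ψ (p * d) else 0) = 0 := by
    intro d
    split_ifs with hd
    · rw [sm_mul_right] at hd
      have := gs_pow_mul_eq_zero (u := h * p ^ 3) (j := 1) hp.prim hd.1.prim hd.2
        (by rw [pow_one]; exact gs_p3_one hp.prim hpp)
      rw [pow_one] at this
      rw [this]; simp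
    · rfl
  have z2 : ∀ d, (if Sm (M * p) d then conj (gs (h * p ^ 3) (p * (p * d))) * ψ (p * (p * d))
      else 0) = 0 := by
    intro d
    split_ifs with hd
    · rw [sm_mul_right] at hd
      have := gs_pow_mul_eq_zero (u := h * p ^ 3) (j := 2) hp.prim hd.1.prim hd.2
        (gs_p3_two hp.prim hpp)
      have e : p * (p * d) = p ^ 2 * d := by ring
      rw [e, this]; simp
    · rfl
  rw [tsum_congr z1, tsum_congr z2, tsum_zero, zero_add, zero_add]
  -- the terms divisible by `p³`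
  have hψ3 : Dcy (fun d => ψ (p ^ 3 * d)) := hψ.dil (pow_ne_zero 3 hp0)
  have hs4 := summable_DS (M := M) (u := h) hψ3
  have h5 : DS M h (fun d => ψ (p ^ 3 * d)) = _ := sum_split hp hpp hs4
  have h6 := sum_split hp hpp hs3
  rw [h5]
  have e1 : (∑' d, if Sm M d then conj (gs (h * p ^ 3) (p * (p * (p * d)))) *
      ψ (p * (p * (p * d))) else 0) =
      (∑' d, if Sm (M * p) d then conj (gs (h * p ^ 3) (p * (p * (p * d)))) *
        ψ (p * (p * (p * d))) else 0) +
      ∑' d, if Sm M d then conj (gs (h * p ^ 3) (p * (p * (p * (p * d))))) *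
        ψ (p * (p * (p * (p * d)))) else 0 := h6
  rw [e1]
  have e2 : (∑' d, if Sm (M * p) d then conj (gs (h * p ^ 3) (p * (p * (p * d)))) *
      ψ (p * (p * (p * d))) else 0) =
      ((nm p : ℂ) ^ 3 - (nm p : ℂ) ^ 2) * DS (M * p) h (fun d => ψ (p ^ 3 * d)) := by
    unfold DS
    rw [← tsum_mul_left]
    refine tsum_congr fun d => ?_
    split_ifs with hd
    · rw [sm_mul_right] at hd
      have e : p * (p * (p * d)) = p ^ 3 * d := by ring
      rw [e, gs_p3_mul_cop hp.prim hpp h hd.1.prim hd.2]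
      simp only [map_mul, map_sub, map_pow, map_natCast]
      ring
    · simp
  have e3 : (∑' d, if Sm M d then conj (gs (h * p ^ 3) (p * (p * (p * (p * d))))) *
        ψ (p * (p * (p * (p * d)))) else 0) =
      (nm p : ℂ) ^ 3 * ∑' d, (if Sm M d then conj (gs h (p * d)) * ψ (p ^ 3 * (p * d)) else 0) := by
    rw [← tsum_mul_left]
    refine tsum_congr fun d => ?_
    split_ifs with hd
    · have e : p * (p * (p * (p * d))) = p ^ 3 * (p * d) := by ring
      rw [e, gs_p3_mul_dvd hp.prim hpp h (hp.prim.mul hd.prim) (dvd_mul_right p d)]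
      simp only [map_mul, map_pow, map_natCast]
      ring
    · simp
  rw [e2, e3]
  have e4 : (∑' d, if Sm (M * p) d then conj (gs (h * p ^ 3) d) * ψ d else 0) =
      DS (M * p) h ψ := DS_cub hp h ψ
  have e5 : DS (M * p) h (fun d => ψ (p ^ 3 * d)) =
      ∑' d, if Sm (M * p) d then conj (gs h d) * ψ (p ^ 3 * d) else 0 := rfl
  rw [e4, ← e5]
  ring

/-- `NT M (h p³) φ = NT (M p) h φ + q³ NT M h (φ (p³ ·))` -/
theorem NT_step3 (hp : Sm M p) (hpp : Prime p) (h : Eis) {φ : Eis → ℂ} (hφ : Dcy φ) :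
    NT M (h * p ^ 3) φ = NT (M * p) h φ + (nm p : ℂ) ^ 3 * NT M h (fun k => φ (p ^ 3 * k)) := by
  classical
  obtain ⟨C, hC0, hC⟩ := hφ.nonneg
  have hp0 := hp.ne_zero
  have hs1 := summable_NT (M := M) (u := h * p ^ 3) hφ
  have hs2 := (summable_NT (M := M) (u := h) (hφ.dil (pow_ne_zero 3 hp0))).mul_left ((nm p : ℂ) ^ 3)
  have e1 : NT M (h * p ^ 3) φ - (nm p : ℂ) ^ 3 * NT M h (fun k => φ (p ^ 3 * k)) =
      ∑' e, (if Sm M e then (nm e : ℂ) ^ 2 *
        (DS (M * p) h (fun d => φ (d * e ^ 3)) - (nm p : ℂ) ^ 2 *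
          DS (M * p) h (fun d => φ (d * (p * e) ^ 3))) else 0) := by
    unfold NT
    rw [← tsum_mul_left, ← hs1.tsum_sub hs2]
    refine tsum_congr fun e => ?_
    split_ifs with he
    · rw [DS_p3 hp hpp h (hφ.cube he.ne_zero)]
      have h3 : (fun d => φ (p ^ 3 * d * e ^ 3)) = (fun d => φ (d * (p * e) ^ 3)) := by
        funext d; congr 1; ring
      have h4 : (fun d => φ (p ^ 3 * d * e ^ 3)) = (fun d => φ (p ^ 3 * (d * e ^ 3))) := by
        funext d; congr 1; ring
      rw [← h4]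
      simp only [h3]
      ring
    · simp
  have e2 : NT M (h * p ^ 3) φ = (NT M (h * p ^ 3) φ -
      (nm p : ℂ) ^ 3 * NT M h (fun k => φ (p ^ 3 * k))) +
      (nm p : ℂ) ^ 3 * NT M h (fun k => φ (p ^ 3 * k)) := by ring
  rw [e2, e1, tele hp hpp (C := C * K0) (mul_nonneg hC0 K0_nonneg)
    (A := fun e => DS (M * p) h (fun d => φ (d * e ^ 3)))
    (fun e he => norm_DS_cube_le hC0 hC e he)]
  rfl

/-- **removal of a prime at a frequency divisible by `p³`** -/
theorem NT_rem3 (hp : Sm M p) (hpp : Prime p) (h : Eis) {φ : Eis → ℂ} (hφ : Dcy φ) :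
    NT (M * p) (h * p ^ 3) φ = NT M (h * p ^ 3) φ -
      (nm p : ℂ) ^ 3 * NT M h (fun k => φ (p ^ 3 * k)) := by
  rw [NT_cub hp, NT_step3 hp hpp h hφ]
  ring

end one

/-! ### squarefree moduli -/

/-- the coefficient of the removal at frequencies prime to the modulus -/
def cA (B : Eis) : ℂ := (muE B : ℂ) * (((Real.sqrt (nm B) : ℝ) : ℂ) * conj (G B))

lemma cA_one : cA 1 = 1 := by
  unfold cA
  rw [muE_one, nm_one, G_one']
  simp

/-- `cA (p B) sy h (p B) = - cA B sy (h p) B c0 p h` -/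
lemma cA_step {p B h : Eis} (hp : IsPrim p) (hpp : Prime p) (hB : IsPrim B) (hpB : ¬ p ∣ B) :
    cA (p * B) * sy h (p * B) = -(cA B * sy (h * p) B * c0 p h) := by
  have hcop : IsCoprime p B := ((hpp.irreducible).coprime_iff_not_dvd).mpr hpB
  unfold cA c0
  rw [muE_mul hpp.ne_zero hB.ne_zero hcop, muE_prime hpp, Gauss880.G_mul_all Gauss880.syG hp hB,
    syAx.mul_right h p B hp hB, syAx.mul_left h p B hB, nm_mul]
  have h1 : Real.sqrt ((nm p * nm B : ℕ) : ℝ) = Real.sqrt (nm p) * Real.sqrt (nm B) := by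
    rw [Nat.cast_mul, Real.sqrt_mul (Nat.cast_nonneg _)]
  rw [h1]
  simp only [map_mul, Complex.conj_conj]
  push_cast
  ring

/-- **removal of a squarefree modulus prime to the frequency** -/
theorem NT_rmv0 : ∀ (N : ℕ) (n : Eis), nm n ≤ N → Squarefree n → ∀ (M v : Eis), Sm M n →
    IsCoprime v n → ∀ φ : Eis → ℂ, Dcy φ →
    NT (M * n) v φ = ∑ x ∈ prs n, cA x.1 * sy v x.1 *
      NT M (v * x.1) (fun k => φ (x.1 * k)) := by
  intro N
  induction N with
  | zero =>
    intro n hn _ M v hM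
    have := nm_pos.mpr hM.ne_zero
    omega
  | succ N ih =>
    intro n hn hsq M v hM hv φ hφ
    by_cases h1 : n = 1
    · subst h1
      rw [prs_one, Finset.sum_singleton, cA_one, syAx.one_right]
      simp
    · obtain ⟨p, hp, hpn⟩ := exists_pp_dvd_of_isPrim hM.prim h1
      obtain ⟨m, rfl⟩ := hpn
      have hp1 := hp.isPrim
      have hpp := hp.prime
      have hp0 := hpp.ne_zero
      have hm1 : IsPrim m := hM.prim.of_mul_left hp1
      have hmS : Sm M m := hM.of_mul_left hp1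
      have hpS : Sm M p := hM.of_dvd hp1 (dvd_mul_right _ _)
      have hsm : Squarefree m := hsq.of_mul_right
      have hpm : ¬ p ∣ m := by
        intro h
        exact hpp.not_isUnit (hsq p (mul_dvd_mul_left p h))
      have hcop : IsCoprime p m := ((hpp.irreducible).coprime_iff_not_dvd).mpr hpm
      have hnm : nm m ≤ N := by
        have h2 : nm (p * m) = nm p * nm m := nm_mul _ _
        have h3 := hp.four_le_nm
        have h4 := nm_pos.mpr hm1.ne_zero
        have h5 : 4 * nm m ≤ nm p * nm m := Nat.mul_le_mul_right _ h3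
        omega
      have hvm : IsCoprime v m := hv.of_mul_right_right
      have hvp : IsCoprime v p := hv.of_mul_right_left
      have hMm : Sm (M * p) m := ⟨hm1, hmS.2.mul_right hcop.symm⟩
      have e1 : M * (p * m) = (M * p) * m := by ring
      rw [e1, ih m hnm hsm (M * p) v hMm hvm φ hφ, sum_prs_p hp1 hpp hm1 hpm]
      refine Finset.sum_congr rfl fun x hx => ?_
      obtain ⟨hx1, hx2, hx3⟩ := (mem_prs hm1).mp hx
      have hpx1 : ¬ p ∣ x.1 := fun h => hpm (hx3 ▸ h.mul_right _)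
      have hφ2 : Dcy (fun k => φ (x.1 * k)) := hφ.dil hx1.ne_zero
      simp only
      have hpvx : ¬ p ∣ v * x.1 := by
        intro h
        rcases hpp.dvd_or_dvd h with h | h
        · exact hpp.not_isUnit (hvp.symm.isUnit_of_dvd' dvd_rfl h)
        · exact hpx1 h
      have e5 : (fun k => φ (p * x.1 * k)) = fun k => φ (x.1 * (p * k)) := by
        funext k; congr 1; ring
      have e6 : v * (p * x.1) = v * x.1 * p := by ring
      rw [NT_rem0 hpS hpp hpvx hφ2, cA_step hp1 hpp hx1 hpx1, e5, e6]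
      -- `c0 p (v x) sy v x = sy (v p) x c0 p v`
      have e7 : sy v x.1 * c0 p (v * x.1) = sy (v * p) x.1 * c0 p v := by
        unfold c0
        rw [syAx.mul_left v x.1 p hp1, syAx.mul_left v p x.1 hx1, syAx.recip x.1 p hx1 hp1]
        ring
      calc cA x.1 * sy v x.1 * (NT M (v * x.1) (fun k => φ (x.1 * k)) -
            c0 p (v * x.1) * NT M (v * x.1 * p) fun k => φ (x.1 * (p * k)))
          = cA x.1 * sy v x.1 * NT M (v * x.1) (fun k => φ (x.1 * k)) -
            cA x.1 * (sy v x.1 * c0 p (v * x.1)) *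
              NT M (v * x.1 * p) (fun k => φ (x.1 * (p * k))) := by ring
        _ = _ := by rw [e7]; ring

/-- **removal of a squarefree modulus, frequency divisible by its cube** -/
theorem NT_rmv3 : ∀ (N : ℕ) (n : Eis), nm n ≤ N → Squarefree n → ∀ (M h : Eis), Sm M n →
    ∀ φ : Eis → ℂ, Dcy φ →
    NT (M * n) (h * n ^ 3) φ = ∑ x ∈ prs n, ((muE x.1 : ℂ) * (nm x.1 : ℂ) ^ 3) *
      NT M (h * x.2 ^ 3) (fun k => φ (x.1 ^ 3 * k)) := by
  intro N
  induction N with
  | zero =>
    intro n hn _ M v hM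
    have := nm_pos.mpr hM.ne_zero
    omega
  | succ N ih =>
    intro n hn hsq M h hM φ hφ
    by_cases h1 : n = 1
    · subst h1
      rw [prs_one, Finset.sum_singleton]
      simp only [muE_one, nm_one]
      simp
    · obtain ⟨p, hp, hpn⟩ := exists_pp_dvd_of_isPrim hM.prim h1
      obtain ⟨m, rfl⟩ := hpn
      have hp1 := hp.isPrim
      have hpp := hp.prime
      have hp0 := hpp.ne_zero
      have hm1 : IsPrim m := hM.prim.of_mul_left hp1
      have hmS : Sm M m := hM.of_mul_left hp1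
      have hpS : Sm M p := hM.of_dvd hp1 (dvd_mul_right _ _)
      have hsm : Squarefree m := hsq.of_mul_right
      have hpm : ¬ p ∣ m := by
        intro h
        exact hpp.not_isUnit (hsq p (mul_dvd_mul_left p h))
      have hcop : IsCoprime p m := ((hpp.irreducible).coprime_iff_not_dvd).mpr hpm
      have hnm : nm m ≤ N := by
        have h2 : nm (p * m) = nm p * nm m := nm_mul _ _
        have h3 := hp.four_le_nm
        have h4 := nm_pos.mpr hm1.ne_zero
        have h5 : 4 * nm m ≤ nm p * nm m := Nat.mul_le_mul_right _ h3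
        omega
      have hMm : Sm (M * p) m := ⟨hm1, hmS.2.mul_right hcop.symm⟩
      have e1 : M * (p * m) = (M * p) * m := by ring
      have e2 : h * (p * m) ^ 3 = (h * p ^ 3) * m ^ 3 := by ring
      rw [e1, e2, ih m hnm hsm (M * p) (h * p ^ 3) hMm φ hφ, sum_prs_p hp1 hpp hm1 hpm]
      refine Finset.sum_congr rfl fun x hx => ?_
      obtain ⟨hx1, hx2, hx3⟩ := (mem_prs hm1).mp hx
      have hpx1 : ¬ p ∣ x.1 := fun h => hpm (hx3 ▸ h.mul_right _)
      have hcx : IsCoprime p x.1 := ((hpp.irreducible).coprime_iff_not_dvd).mpr hpx1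
      have hφ2 : Dcy (fun k => φ (x.1 ^ 3 * k)) := hφ.dil (pow_ne_zero 3 hx1.ne_zero)
      simp only
      have e3 : h * p ^ 3 * x.2 ^ 3 = (h * x.2 ^ 3) * p ^ 3 := by ring
      have e4 : h * (p * x.2) ^ 3 = (h * x.2 ^ 3) * p ^ 3 := by ring
      have e5 : (fun k => φ ((p * x.1) ^ 3 * k)) = fun k => φ (x.1 ^ 3 * (p ^ 3 * k)) := by
        funext k; congr 1; ring
      rw [e3, e4, e5, NT_rem3 hpS hpp (h * x.2 ^ 3) hφ2, muE_mul hpp.ne_zero hx1.ne_zero hcx,
        muE_prime hpp, nm_mul]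
      push_cast
      ring

end Crest.Agent.R017.E4858
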