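import Crest.Agent.R017.E4o2_502

/-!
# Row 17, C70/E4, version 5 (joint form: the `D`-part of the removal is in the outer index)

Definitions and literal leaves (helper47, text of helper502 / helper54 / helper939):

* the opening, `D0 ∣ f`, `(D1, f) = 1`, `D1 ∣ Z` is `E4o502.open2` (helper502)
* `lamD`, `vF`, `wF` : the family over `O × 𝒟`
* `HPd`, `HP5` : block hypotheses, `HM5` : polar term (with phase), `Num5` : numeric condition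
* `E4dir` : absolute version (everything direct), `E4core5`
-/

set_option autoImplicit false

noncomputable section

open Complex
open scoped ComplexConjugate

namespace Crest.Agent.R017.E4v5

open Crest.Agent.R012 Crest.Agent.R012.Eis Crest.Agent.R012.Mob705 Crest.Agent.R012.Gauss880
open Crest.Agent.R012.Div277
open Crest.Agent.R017.Sx545 Crest.Agent.R017.CM106 Crest.Agent.R017.C70 Crest.Agent.R017.C590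
open Crest.Agent.R017.End699 Crest.Agent.R017.B770 Crest.Agent.R017.Sx440
open Crest.Agent.R017.E2440 Crest.Agent.R017.E4352
open Crest.Agent.R017.E4o502 (vD wD GoodD GB)

section family

variable {O : Type} {𝒟 : Finset Eis}

/-- outer weights of the family over `(o, D)` -/
def lamD (a : ℝ) (lam : O → ℝ) (i : O × {d : Eis // d ∈ 𝒟}) : ℝ := lam i.1 * (nm i.2.1 / a) ^ 2

/-- `x`-side of the family -/
def vF (v : O → Eis → ℂ) (i : O × {d : Eis // d ∈ 𝒟}) : Eis → ℂ := vD i.2.1 (v i.1)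

/-- `y`-side of the family -/
def wF (w : O → Eis → ℂ) (i : O × {d : Eis // d ∈ 𝒟}) : Eis → ℂ := wD i.2.1 i.2.1 (w i.1)

end family

/-- the sets of `D` -/
def DSet (M q f : Eis) (a : ℝ) (𝒟 : Finset Eis) : Prop :=
  ∀ d ∈ 𝒟, Squarefree d ∧ Sm M d ∧ IsCoprime d q ∧ IsCoprime d f ∧ a ≤ nm d ∧ (nm d : ℝ) ≤ 2 * a

/-- block hypothesis, twists `sy(·, q₁) conj sy(·, q₂)` only -/
def HPd (M f : Eis) {O : Type} [Fintype O] (lam : O → ℝ) (v w : O → Eis → ℂ)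
    (Bd : ℝ → ℝ → ℝ → ℝ) : Prop :=
  ∀ (q R Z q₁ q₂ : Eis) (κ a : ℝ) (𝒟 : Finset Eis), Sm M q → PrI q R → PrI q Z → PrI q q₁ →
    PrI q q₂ → (∀ p : Eis, Prime p → p ∣ q → p ∣ f * R * Z) → 0 < κ → 1 ≤ a → DSet M q f a 𝒟 →
    PBo M (lamD (𝒟 := 𝒟) a lam) q R Z (fun y => sy y q₁ * conj (sy y q₂)) (vF v) (wF w) κ ≤
      Bd κ a (nm (rd Z))

/-- block hypothesis -/
def HP5 (M f M' : Eis) (j : ℤ) (A : ℝ) {O : Type} [Fintype O] (lam : O → ℝ) (v w : O → Eis → ℂ)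
    (Bd : ℝ → ℝ → ℝ → ℝ) : Prop :=
  ∀ (q R Z : Eis) (g : Eis → ℂ) (ξ κ a : ℝ) (𝒟 : Finset Eis), Sm M q → PrI q R → PrI q Z →
    (∀ p : Eis, Prime p → p ∣ q → p ∣ f * R * Z) → TwC M' j q ξ g → 0 < κ → 1 ≤ a →
    DSet M q f a 𝒟 →
    PBo M (lamD (𝒟 := 𝒟) a lam) q R Z g (vF v) (wF w) κ ≤ (1 + |ξ|) ^ A * Bd κ a (nm (rd Z))

/-- the bound function : nonnegative, antitone in the shortening -/
def BdC5 (Bd : ℝ → ℝ → ℝ → ℝ) : Prop := ∀ a, BdC (fun κ z => Bd κ a z)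

/-- numeric condition; `lim a₀ a₁ a₃` the bound for `κ b₁² b₃³` -/
def Num5 (f : Eis) (lim : ℝ → ℝ → ℝ → ℝ) (Bd : ℝ → ℝ → ℝ → ℝ) (S : ℝ) : Prop :=
  ∀ a₀ a₁ a₃ b₁ b₃ κ : ℝ, 1 ≤ a₀ → a₀ ≤ nm (rd f) → 1 ≤ a₁ → 1 ≤ a₃ → 1 ≤ b₁ → 1 ≤ b₃ →
    1 / 4 ≤ κ → κ * b₁ ^ 2 * b₃ ^ 3 ≤ lim a₀ a₁ a₃ →
    a₀ ^ (-(1 / 2) : ℝ) * (a₁ ^ (-(1 / 2) : ℝ) * a₃ * b₁ ^ (1 / 2 : ℝ) * b₃ *
      κ ^ (-(1 / 2) : ℝ) * Bd κ a₁ (a₃ * (b₁ * b₃))) ≤ S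

/-- **absolute version**: everything direct, no functional equation -/
def E4dir : Prop :=
  ∀ ε : ℝ, 0 < ε → ∃ C : ℝ, 0 ≤ C ∧
    ∀ (M f : Eis) (O : Type) (_ : Fintype O) (lam : O → ℝ) (v w : O → Eis → ℂ) (X K B : ℝ)
      (φ : O → Eis → ℂ) (Bd : ℝ → ℝ → ℝ → ℝ) (S : ℝ), Dat4 M f lam v w X → 1 ≤ K → K ≤ X →
      0 ≤ B → 0 ≤ S → BdC5 Bd → (∀ o k, Sm M k → ‖φ o k‖ ≤ B) →
      (∀ o k, K / lam o < nm k → φ o k = 0) → HPd M f lam v w Bd →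
      Num5 f (fun a₀ a₁ a₃ => K / (a₀ ^ 2 * a₁ ^ 2 * a₃ ^ 3)) Bd S →
      ‖∑ o, ∑' x : Eis, v o x * ∑' y : Eis, w o y * NT (M * (f * y)) (f * x * y) (φ o)‖ ≤
        C * X ^ ε * (B * (K * S))

/-- functional equation for one weight, with complex main term -/
def Law5 {ι : Type} [Fintype ι] (M : Eis) (ψ : Eis → ℂ) (l : ℤ) (D : Dt3 ι) (V : ℝ → ℂ)
    (W : ι → ℝ → ℂ) (mt : Eis → ℝ → ℂ) : Prop :=
  ∀ u : Eis, Sm M u → ∀ Q : ℝ, 0 < Q →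
    N3 M (End699.tw ψ l) u V Q = mt u Q + (Q : ℂ) * ∑ i, D.κ i * End699.tw (D.η i) D.j u *
      D3 M (End699.tw (D.ψ' i) D.l') u (W i) (D.ρ i * nm u / Q)

/-- polar term, with phase -/
def HM5 (M f : Eis) {O : Type} [Fintype O] (lam : O → ℝ) (v w : O → Eis → ℂ) (K T₀ : ℝ)
    (mt : Eis → ℝ → ℂ) (Mn : ℝ) : Prop :=
  ∀ R Z q₁ q₃ F : Eis, Sm M q₁ → Sm M q₃ → Squarefree q₁ → Squarefree q₃ →
    IsCoprime q₁ q₃ → (nm (rd Z) : ℝ) ≤ 2 * T₀ → f * R * Z = q₁ * q₃ ^ 3 * F → IsCoprime F q₁ →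
    Sm M F → PrI (q₁ * q₃) R → PrI (q₁ * q₃) Z →
      ((nm q₁ : ℝ) ^ (5 / 2 : ℝ) * (nm q₃ : ℝ) ^ 4) *
        ‖∑ o, ∑' x : Eis, tws R (q₁ * q₃) (fun x => conj (sy x q₁)) (v o) x *
          ∑' y : Eis, tws Z (q₁ * q₃) (fun y => conj (sy y q₁)) (w o) y *
            mt (F * x * y) (K / (lam o * nm (q₁ ^ 2 * q₃ ^ 3)))‖ ≤ Mn

/-- **E4core**, joint form -/
def E4core5 : Prop :=
  ∀ (M : Eis) (ψ : Eis → ℂ) (l : ℤ) (ι : Type) (_ : Fintype ι) (D : Dt3 ι), HC M ψ → D.OK M →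
  ∀ ε A : ℝ, 0 < ε → 0 ≤ A → ∃ (C : ℝ) (m₀ N₀ : ℕ), 0 ≤ C ∧
    ∀ (V : ℝ → ℂ) (W : ι → ℝ → ℂ) (mt : Eis → ℝ → ℂ) (B : ℝ), 0 ≤ B → Law5 M ψ l D V W mt →
      (∀ i, WT m₀ N₀ B (W i)) → (∀ y, ‖V y‖ ≤ B) → (∀ y, 1 < y → V y = 0) →
    ∀ (f : Eis) (O : Type) (_ : Fintype O) (lam : O → ℝ) (v w : O → Eis → ℂ)
      (X K U T₀ : ℝ) (Bd : ℝ → ℝ → ℝ → ℝ) (S Mn : ℝ), Dat4 M f lam v w X →
      1 ≤ K → K ≤ X → 0 < U → U ≤ X → 0 ≤ T₀ → T₀ ≤ X → 0 ≤ S → 0 ≤ Mn → BdC5 Bd →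
      (∀ o x y, v o x ≠ 0 → w o y ≠ 0 → (nm (f * x * y) : ℝ) * lam o ^ 2 ≤ U) →
      HP5 M f D.M' D.j A lam v w Bd →
      Num5 f (fun a₀ a₁ a₃ => (if a₁ * a₃ ≤ T₀ then 8 * (U / K) * (a₀ * a₁) else
        K / (a₀ ^ 2 * a₁ ^ 2 * a₃ ^ 3)) * X ^ ε) Bd S →
      HM5 M f lam v w K T₀ mt Mn →
      ‖∑ o, ∑' x : Eis, v o x * ∑' y : Eis, w o y *
        NT (M * (f * y)) (f * x * y)
          (fun k => End699.tw ψ l k * V (nm k * lam o / K))‖ ≤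
        C * X ^ ε * (B * (K * S + X ^ (-A)) + Mn)

end Crest.Agent.R017.E4v5
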