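import Crest.Agent.R017.E4s_164
import Crest.Agent.R017.E4Law5_266
import Crest.Agent.R017.E4v5_47

/-!
# Row 17, C70/E4, application of `E4core5`, part A: the characters (helper783)

`M` the modulus of `ψ`, `N = 27 M`.

* `chr N ψ c h` : the character `conj (ψ b) (c h / b)`, `IsC c`, `h` composed of primes of `M`
* `hc_chr` : it is a Hecke character modulo `N`
* `RC M` : finitely many `h`;  `exists_RC` : reduction modulo cubes
-/

set_option autoImplicit false

noncomputable section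

open Complex
open scoped ComplexConjugate

namespace Crest.Agent.R017.E4ap783

open Crest.Agent.R012 Crest.Agent.R012.Eis Crest.Agent.R012.GaussLoc283
open Crest.Agent.R012.Mob705 hiding pb mem_pb
open Crest.Agent.R012.Div277
open Crest.Agent.R017.Sx545 (Sm)
open Crest.Agent.R017.C70 Crest.Agent.R017.GrB829
open Crest.Agent.R017.E2440
open Crest.Agent.R017.A590
open Crest.Agent.R017.End699 (HC)
open Crest.Agent.R017.E4352 (PrI)
open Crest.Agent.R017.E4D164

/-! ### same primes -/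

/-- `M` and `N` have the same primary prime-to-`M` elements -/
lemma sm_27 {M : Eis} (h3 : (3 : Eis) ∣ M) : Sm (27 * M) = Sm M := by
  funext b
  refine propext ⟨fun h => ⟨h.1, h.2.of_mul_right_right⟩, fun h => ⟨h.1, ?_⟩⟩
  refine IsCoprime.mul_right ?_ h.2
  have h1 : IsCoprime b 3 := h.2.of_isCoprime_of_dvd_right h3
  rw [show (27 : Eis) = 3 ^ 3 by norm_num]
  exact h1.pow_right

lemma hc_27 {M : Eis} {ψ : Eis → ℂ} (hψ : HC M ψ) : HC (27 * M) ψ where
  q0 := mul_ne_zero (by decide) hψ.q0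
  three := ⟨9 * M, by ring⟩
  char := hψ.char
  per a b ha hb hab := hψ.per a b ha hb ((dvd_mul_left _ _).trans hab)
  van a ha hc := by
    refine hψ.van a ha fun h => hc ?_
    have : Sm M a := ⟨ha, h⟩
    rw [← sm_27 hψ.three] at this
    exact this.2

lemma pri_27 {M h : Eis} (hh : PrI M h) : PrI (27 * M) h :=
  ⟨hh.1, fun p hp hd => (hh.2 p hp hd).mul_left _⟩

lemma cop_pri {M h b : Eis} (hh : PrI M h) (hb : Sm M b) : IsCoprime h b := cop_PrI hh hb.2

lemma isc_dvd {c : Eis} (hc : IsC c) : c ∣ 3 := by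
  rcases hc with h | h | h | h
  · rw [h]; exact one_dvd _
  · rw [h]
  · rw [h]; exact ⟨w ^ 2, by linear_combination (-3 : Eis) * w_cube⟩
  · rw [h]; exact ⟨w, by linear_combination (-3 : Eis) * w_cube⟩

/-! ### the characters -/

lemma uni_c {c N : Eis} (hc : IsC c) (h27 : (27 : Eis) ∣ N) : Uni N (sy c) :=
  (E4L266.uni_sy (isc_dvd hc)).mono h27

lemma uni_h {h N : Eis} (hh : PrI N h) : Uni N (sy h) where
  one := syAx.one_right h
  mul a b ha hb := syAx.mul_right h a b ha.1 hb.1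
  norm a ha := syAx.norm_eq_one ha.1 (cop_pri hh ha)
  per a b ha hb hab := by
    rw [syAx.recip h a hh.1 ha.1, syAx.recip h b hh.1 hb.1]
    exact per_PrI _ h le_rfl hh a b hab

/-- the character `conj ψ(b) (c h / b)` -/
def chr (N : Eis) (ψ : Eis → ℂ) (c h : Eis) : Eis → ℂ :=
  Rst N (fun b => conj (ψ b) * (sy c b * sy h b))

lemma uni_chr {N c h : Eis} {ψ : Eis → ℂ} (h27 : (27 : Eis) ∣ N) (hψ : HC N ψ) (hc : IsC c)
    (hh : PrI N h) : Uni N (fun b => conj (ψ b) * (sy c b * sy h b)) :=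
  (uni_of_HC hψ).conj'.mul' ((uni_c hc h27).mul' (uni_h hh))

theorem hc_chr {N c h : Eis} {ψ : Eis → ℂ} (h27 : (27 : Eis) ∣ N) (hψ : HC N ψ) (hc : IsC c)
    (hh : PrI N h) : HC N (chr N ψ c h) :=
  hc_rst hψ.q0 hψ.three (uni_chr h27 hψ hc hh)

lemma chr_of {N c h b : Eis} {ψ : Eis → ℂ} (hb : Sm N b) :
    chr N ψ c h b = conj (ψ b) * (sy c b * sy h b) := Rst_of hb.2

/-! ### reduction modulo cubes -/

open Classical in
/-- the representatives -/
def RC (M : Eis) : Finset Eis := (primBall (nm M ^ 2)).filter (fun h => PrI M h)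

lemma mem_RC {M h : Eis} : h ∈ RC M ↔ nm h ≤ nm M ^ 2 ∧ PrI M h := by
  classical
  unfold RC
  rw [Finset.mem_filter, mem_primBall]
  exact ⟨fun h => ⟨h.1.1, h.2⟩, fun h => ⟨⟨h.1, h.2.1⟩, h.2⟩⟩

lemma dvd_of_sqf {N : Eis} {m : Eis} : Squarefree m → (∀ p : Eis, Prime p → p ∣ m → p ∣ N) →
    m ∣ N := by
  refine UniqueFactorizationMonoid.induction_on_prime
    (P := fun m => Squarefree m → (∀ p : Eis, Prime p → p ∣ m → p ∣ N) → m ∣ N) m ?_ ?_ ?_
  · intro h
    exact absurd h not_squarefree_zero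
  · intro u hu _ _
    exact hu.dvd
  · intro a p ha hp ih hsf hdv
    have h1 : Squarefree a := hsf.squarefree_of_dvd (dvd_mul_left _ _)
    have h2 : ¬ p ∣ a := by
      rintro ⟨b, rfl⟩
      exact hp.not_isUnit (hsf p ⟨b, by ring⟩)
    have h3 : IsCoprime p a := hp.irreducible.coprime_iff_not_dvd.mpr h2
    exact h3.mul_dvd (hdv p hp (dvd_mul_right _ _))
      (ih h1 fun q hq hqa => hdv q hq (hqa.mul_left _))

/-- **reduction modulo cubes** -/
theorem exists_RC {M h : Eis} (hM : M ≠ 0) (hh : PrI M h) :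
    ∃ h' ∈ RC M, ∀ b, Sm M b → sy h b = sy h' b := by
  obtain ⟨s1, s2, s3, s4, s5, s6, s7⟩ := sd_spec hh.1
  set r := (sd h).1
  set ν := (sd h).2.1
  set e := (sd h).2.2
  have hr : ∀ p : Eis, Prime p → p ∣ r → p ∣ M := fun p hp hd => hh.2 p hp (by
    rw [s7]; exact (hd.mul_right _).mul_right _)
  have hν : ∀ p : Eis, Prime p → p ∣ ν → p ∣ M := fun p hp hd => hh.2 p hp (by
    rw [s7]; exact (((hd.trans (dvd_pow_self ν (by norm_num))).mul_left _)).mul_right _)
  have he : PrI M e := ⟨s6, fun p hp hd => hh.2 p hp (by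
    rw [s7]; exact (hd.trans (dvd_pow_self e (by norm_num))).mul_left _)⟩
  have hp : IsPrim (r * ν ^ 2) := s1.mul (s3.pow 2)
  refine ⟨r * ν ^ 2, mem_RC.mpr ⟨?_, hp, fun p hp hd => ?_⟩, fun b hb => ?_⟩
  · have h1 : r * ν ∣ M := s5.mul_dvd (dvd_of_sqf s2 hr) (dvd_of_sqf s4 hν)
    have h2 : r * ν ^ 2 ∣ M * M := by
      rw [show r * ν ^ 2 = (r * ν) * ν by ring]
      exact mul_dvd_mul h1 (dvd_of_sqf s4 hν)
    have := nm_le_of_dvd (mul_ne_zero hM hM) h2
    rwa [nm_mul M M, ← pow_two] at this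
  · rcases hp.dvd_or_dvd hd with h1 | h1
    · exact hr p hp h1
    · exact hν p hp (hp.dvd_of_dvd_pow h1)
  · conv_lhs => rw [s7]
    rw [syAx.mul_left _ _ _ hb.1]
    have hc : IsCoprime e b := cop_pri he hb
    have : sy (e ^ 3) b = 1 := by
      rw [show e ^ 3 = e * (e * e) by ring, syAx.mul_left _ _ _ hb.1, syAx.mul_left _ _ _ hb.1]
      have := syAx.cube e b hb.1 hc
      rw [← this]
      ring
    rw [this, mul_one]

end Crest.Agent.R017.E4ap783
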