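import Crest.Agent.R017.E4v6_47

/-!
# Row 17, C70/E4, joint form: the functional-equation half at fixed data, statement (helper502)
-/

set_option autoImplicit false

noncomputable section

open Complex
open scoped ComplexConjugate

namespace Crest.Agent.R017.E4fe502

open Crest.Agent.R012 Crest.Agent.R012.Eis Crest.Agent.R012.Mob705 Crest.Agent.R012.Gauss880
open Crest.Agent.R012.Div277
open Crest.Agent.R017.Sx545 Crest.Agent.R017.CM106 Crest.Agent.R017.C70 Crest.Agent.R017.C590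
open Crest.Agent.R017.End699 Crest.Agent.R017.B770 Crest.Agent.R017.Sx440
open Crest.Agent.R017.E2440 Crest.Agent.R017.E4352 Crest.Agent.R017.E4v5

/-- **the functional-equation half** at fixed data `(D0, j, B, R, Z)` -/
def FeF : Prop :=
  ∀ (M : Eis) (ψ : Eis → ℂ) (l : ℤ) (ι : Type) (_ : Fintype ι) (D : Dt3 ι), HC M ψ → D.OK M →
  ∀ ε A : ℝ, 0 < ε → 0 ≤ A → ∃ (C : ℝ) (m₀ N₀ : ℕ), 0 ≤ C ∧
    ∀ (V : ℝ → ℂ) (W : ι → ℝ → ℂ) (mt : Eis → ℝ → ℂ) (B' : ℝ), 0 ≤ B' → Law5 M ψ l D V W mt →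
      (∀ i, WT m₀ N₀ B' (W i)) →
    ∀ (f : Eis) (O : Type) (_ : Fintype O) (lam : O → ℝ) (v w : O → Eis → ℂ)
      (X K U T₀ : ℝ) (Bd : ℝ → ℝ → ℝ → ℝ) (S Mn : ℝ) (D0 B R Z : Eis) (j : ℕ),
      Dat4 M f lam v w X → 1 ≤ K → K ≤ X → 0 < U → U ≤ X → 0 ≤ S → 0 ≤ Mn → BdC5 Bd →
      (∀ o x y, v o x ≠ 0 → w o y ≠ 0 → (nm (f * x * y) : ℝ) * lam o ^ 2 ≤ U) →
      HP5 M f D.M' D.j A lam v w Bd → HM5 M f lam v w K T₀ mt Mn →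
      IsPrim D0 → D0 ∣ f → Squarefree D0 → nm B ≤ ⌊X⌋₊ ^ 2 → nm R ≤ ⌊X⌋₊ → nm Z ≤ ⌊X⌋₊ →
      (2 : ℝ) ^ j ≤ X → GB' M (f / D0) D0 B R Z → (2 : ℝ) ^ j * nm (rd Z) ≤ T₀ →
      Numf (nm D0) (2 ^ j) (nm (rd Z)) (8 * (U / K) * (nm D0 * 2 ^ j) * X ^ ε) Bd S →
      (nm B : ℝ) ^ 3 * ‖TT M f v w (fun o k => End699.tw ψ l k * V (nm k * lam o / K)) ⌊X⌋₊
          D0 B R Z j‖ ≤
        C * X ^ ε * (B' * (K * S + X ^ (-A))) / nm (rd Z) +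
          ∑ D1 ∈ DJ M f D0 B ⌊X⌋₊ j, Mn / (nm (D0 * D1) * nm B)

end Crest.Agent.R017.E4fe502
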