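import Crest.Agent.R017.E4sum_176
import Crest.Agent.R017.E4feD_502

/-!
# Row 17, C70/E4: the final assembly of `E4core5` and `E4dir` (helper176)

* `e4dir_of : DirF → E4dir`
* `e4core5_of : DirF → FeF → E4core5`
-/

set_option autoImplicit false

noncomputable section

open Complex Finset
open scoped ComplexConjugate

namespace Crest.Agent.R017.E4asm176

open Crest.Agent.R012 Crest.Agent.R012.Eis Crest.Agent.R012.Mob705 Crest.Agent.R012.Gauss880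
open Crest.Agent.R012.Div277
open Crest.Agent.R017.Sx545 Crest.Agent.R017.CM106 Crest.Agent.R017.C70 Crest.Agent.R017.C590
open Crest.Agent.R017.End699 Crest.Agent.R017.B770 Crest.Agent.R017.Sx440
open Crest.Agent.R017.E2440 Crest.Agent.R017.E4352 Crest.Agent.R017.E4v5
open Crest.Agent.R017.E4o502 (vD wD GoodD GB)
open Crest.Agent.R017.E4fe502 (FeF)

/-! ### tools -/

lemma dcy_fin {φ : Eis → ℂ} {N : ℝ} (h : ∀ k, N < nm k → φ k = 0) : Dcy φ := by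
  obtain ⟨S, hS⟩ : ∃ S : Finset Eis, S = nz ⌊N⌋₊ := ⟨_, rfl⟩
  have hnn : (0 : ℝ) ≤ ∑ k ∈ S, ‖φ k‖ * (nm k : ℝ) ^ 3 :=
    sum_nonneg fun k _ => mul_nonneg (norm_nonneg _) (pow_nonneg (Nat.cast_nonneg _) 3)
  refine ⟨∑ k ∈ S, ‖φ k‖ * (nm k : ℝ) ^ 3, fun k hk => ?_⟩
  have hk1 : (1 : ℝ) ≤ nm k := one_le_nm hk
  have h3 : (0 : ℝ) < (nm k : ℝ) ^ 3 := pow_pos (by linarith) 3
  by_cases hN : N < nm k
  · rw [h k hN, norm_zero]
    exact mul_nonneg hnn (inv_nonneg.mpr h3.le)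
  · have hmem : k ∈ S := by
      rw [hS]
      exact mem_nz.mpr ⟨hk, Nat.le_floor (not_lt.mp hN)⟩
    have h1 : ‖φ k‖ * (nm k : ℝ) ^ 3 ≤ ∑ k ∈ S, ‖φ k‖ * (nm k : ℝ) ^ 3 :=
      single_le_sum (f := fun k : Eis => ‖φ k‖ * (nm k : ℝ) ^ 3)
        (fun k _ => mul_nonneg (norm_nonneg _) (pow_nonneg (Nat.cast_nonneg _) 3)) hmem
    calc ‖φ k‖ = (‖φ k‖ * (nm k : ℝ) ^ 3) * ((nm k : ℝ) ^ 3)⁻¹ := by
          rw [mul_assoc, mul_inv_cancel₀ h3.ne', mul_one]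
      _ ≤ _ := mul_le_mul_of_nonneg_right h1 (inv_nonneg.mpr h3.le)

lemma norm_tw_le {q : Eis} {χ : Eis → ℂ} (h : HC q χ) (l : ℤ) {k : Eis} (hk : IsPrim k) :
    ‖End699.tw χ l k‖ ≤ 1 := (h.isChar_tw l).norm_le hk

/-- admissible squarefree `D0 ∣ f` divides the radical -/
lemma nm_le_rd {D0 f : Eis} (hf : IsPrim f) (h0 : IsPrim D0) (hd : D0 ∣ f) (hs : Squarefree D0) :
    nm D0 ≤ nm (E4352.rd f) :=
  nm_le_of_dvd (E4352.rd_prim f).ne_zero ((E4352.dvd_rd hf.ne_zero h0).mpr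
    ⟨hs, fun _ _ hp => hp.trans hd⟩)

lemma numf_of {f D0 Z : Eis} {lim : ℝ → ℝ → ℝ → ℝ} {Bd : ℝ → ℝ → ℝ → ℝ} {S L : ℝ} {j : ℕ}
    (h : Num5 f lim Bd S) (hf : IsPrim f) (h0 : IsPrim D0) (hd : D0 ∣ f) (hs : Squarefree D0)
    (hL : L ≤ lim (nm D0) (2 ^ j) (nm (E4352.rd Z))) :
    Numf (nm D0) (2 ^ j) (nm (E4352.rd Z)) L Bd S := by
  intro b₁ b₃ κ h1 h3 hκ hb
  refine h (nm D0) (2 ^ j) (nm (E4352.rd Z)) b₁ b₃ κ ?_ ?_ (one_le_pow₀ (by norm_num)) ?_ h1 h3 hκ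
    (hb.trans hL)
  · exact one_le_nm h0.ne_zero
  · exact_mod_cast nm_le_rd hf h0 hd hs
  · exact one_le_nm (E4352.rd_prim Z).ne_zero

lemma tws_congr {M q R : Eis} {g g' c : Eis → ℂ} (hc : ∀ x, c x ≠ 0 → Sm M x)
    (h : ∀ y, Sm M (R * y) → g y = g' y) : E4352.tws R q g c = E4352.tws R q g' c := by
  funext y
  unfold E4352.tws
  by_cases h0 : c (R * y) = 0
  · simp [h0]
  · rw [h y (hc _ h0)]

lemma sm_rad {M M' : Eis} (hrad : ∀ p : Eis, Prime p → p ∣ M' → p ∣ M) {b : Eis}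
    (hb : Sm M b) : Sm M' b := by
  refine ⟨hb.1, ?_⟩
  have hb0 := hb.1.ne_zero
  refine isCoprime_of_prime_dvd (fun h => hb0 h.1) fun p hp hpb hpM => ?_
  exact hp.not_isUnit (hb.2.isUnit_of_dvd' hpb (hrad p hp hpM))

lemma sm_vF {M : Eis} {O : Type} {𝒟 : Finset Eis} {v : O → Eis → ℂ}
    (hv : ∀ o x, v o x ≠ 0 → Sm M x) (i : O × {d : Eis // d ∈ 𝒟}) (x : Eis)
    (hx : vF v i x ≠ 0) : Sm M x := by
  unfold vF vD E4352.tws at hx
  split_ifs at hx with h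
  · have := right_ne_zero_of_mul hx
    rw [one_mul] at this
    exact hv _ _ this
  · exact absurd rfl hx

lemma cop_wF {M M' : Eis} (hrad : ∀ p : Eis, Prime p → p ∣ M' → p ∣ M) {O : Type}
    {𝒟 : Finset Eis} {w : O → Eis → ℂ}
    (hw : ∀ o x, w o x ≠ 0 → Sm M x) (i : O × {d : Eis // d ∈ 𝒟}) (x : Eis)
    (hx : wF w i x ≠ 0) : IsCoprime x M' := by
  unfold wF wD E4352.tws at hx
  split_ifs at hx with h
  · have := right_ne_zero_of_mul hx
    exact (sm_rad hrad (hw _ _ this)).2.of_mul_left_right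
  · exact absurd rfl hx

/-- `HP5` implies `HPd` -/
lemma hpd_of {M M' f : Eis} {J : ℤ} {A : ℝ} {O : Type} [Fintype O] {lam : O → ℝ}
    {v w : O → Eis → ℂ} {Bd : ℝ → ℝ → ℝ → ℝ} (h : HP5 M f M' J A lam v w Bd) (h0 : M' ≠ 0)
    (h3 : (3 : Eis) ∣ M') (hrad : ∀ p : Eis, Prime p → p ∣ M' → p ∣ M)
    (hv : ∀ o x, v o x ≠ 0 → Sm M x) (hw : ∀ o x, w o x ≠ 0 → Sm M x) :
    HPd M f lam v w Bd := by
  intro q R Z q₁ q₂ κ a 𝒟 hq hR hZ h1 h2 hp hκ ha hD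
  have hT : TwC M' J q 0 (fun y => sy y q₁ * conj (sy y q₂) * End699.tw (prin0 M') 0 y *
      (nm y : ℂ) ^ (I * ((0 : ℝ) : ℂ))) := by
    refine ⟨q₁, q₂, prin0 M', 0, h1.1, h2.1, ?_, hc_prin0 h0 h3, Or.inl rfl, fun y => rfl⟩
    intro p hp' hd
    rcases hp'.dvd_or_dvd hd with h4 | h4
    · exact h1.2 p hp' h4
    · exact h2.2 p hp' h4
  have h5 := h q R Z _ 0 κ a 𝒟 hq hR hZ hp hT hκ ha hD
  rw [abs_zero, add_zero, Real.one_rpow, one_mul] at h5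
  refine le_trans (le_of_eq ?_) h5
  have hone : ∀ y, IsCoprime y M' → sy y q₁ * conj (sy y q₂) =
      sy y q₁ * conj (sy y q₂) * End699.tw (prin0 M') 0 y * (nm y : ℂ) ^ (I * ((0 : ℝ) : ℂ)) := by
    intro y hy
    have e1 : End699.tw (prin0 M') 0 y = 1 := by
      unfold End699.tw prin0 ang
      rw [if_pos hy, zpow_zero, mul_one]
    rw [e1, ofReal_zero, mul_zero, cpow_zero, mul_one, mul_one]
  have eV : ∀ i : O × {d : Eis // d ∈ 𝒟},
      E4352.tws R q (fun y => sy y q₁ * conj (sy y q₂)) (vF v i) =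
      E4352.tws R q (fun y => sy y q₁ * conj (sy y q₂) * End699.tw (prin0 M') 0 y *
        (nm y : ℂ) ^ (I * ((0 : ℝ) : ℂ))) (vF v i) := by
    intro i
    funext y
    unfold E4352.tws
    by_cases h6 : vF v i (R * y) = 0
    · simp [h6]
    · have h7 := (sm_rad hrad (sm_vF hv i _ h6)).2.of_mul_left_right
      split_ifs with h8
      · beta_reduce
        rw [← hone y h7]
      · rfl
  have eW : ∀ i : O × {d : Eis // d ∈ 𝒟},
      E4352.tws Z q (fun y => sy y q₁ * conj (sy y q₂)) (wF w i) =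
      E4352.tws Z q (fun y => sy y q₁ * conj (sy y q₂) * End699.tw (prin0 M') 0 y *
        (nm y : ℂ) ^ (I * ((0 : ℝ) : ℂ))) (wF w i) := by
    intro i
    funext y
    unfold E4352.tws
    by_cases h6 : wF w i (Z * y) = 0
    · simp [h6]
    · have h7 := (cop_wF hrad hw i _ h6).of_mul_left_right
      split_ifs with h8
      · beta_reduce
        rw [← hone y h7]
      · rfl
  unfold PBo PB
  refine sum_congr rfl fun i _ => ?_
  rw [eV i, eW i]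

/-! ### the two theorems -/

theorem e4dir_of (hD : DirF) : E4dir := by
  intro ε hε
  obtain ⟨C1, h10, h1⟩ := E4sum176.sumAll (ε / 2) (by linarith)
  obtain ⟨C2, h20, h2⟩ := hD (ε / 2) (by linarith)
  refine ⟨C1 * C2, by positivity, ?_⟩
  intro M f O _ lam v w X K B φ Bd S hDat hK1 hKX hB hS hBd hφ1 hφ0 hP hN
  have hX0 : (0 : ℝ) < X := by linarith [hDat.X1]
  have hK0 : 0 < K := by linarith
  have hf : IsPrim f := hDat.hf.1.prim
  have hdc : ∀ o, Dcy (φ o) := fun o => dcy_fin (hφ0 o)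
  have hY : 0 ≤ C2 * X ^ (ε / 2) * (B * (K * S)) := by positivity
  have h3 := h1 M f O _ lam v w φ X (C2 * X ^ (ε / 2) * (B * (K * S))) 0 hDat hdc hY le_rfl (by
    intro D0 B' R Z j k1 k2 k3 k4 k5 k6 k7 k8
    have h4 := h2 M f O _ lam v w X K B φ Bd S D0 B' R Z j hDat hK0 hKX hB hS hBd hφ1 hφ0 hP
      k1 k2 k3 k4 k5 k6 k7 k8 (numf_of hN hf k1 k2 k3 le_rfl)
    refine h4.trans (le_of_eq ?_)
    simp)
  refine h3.trans (le_of_eq ?_)
  have e : X ^ ε = X ^ (ε / 2) * X ^ (ε / 2) := by rw [← Real.rpow_add hX0]; congr 1; ring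
  rw [e]; ring

theorem e4core5_of (hD : DirF) (hF : FeF) : E4core5 := by
  intro M ψ l ι _ D hψ hOK ε A hε hA
  obtain ⟨C1, h10, h1⟩ := E4sum176.sumAll (ε / 2) (by linarith)
  obtain ⟨C2, h20, h2⟩ := hD (ε / 2) (by linarith)
  obtain ⟨C3, m₀, N₀, h30, h3⟩ := hF M ψ l ι _ D hψ hOK (ε / 2) A (by linarith) hA
  refine ⟨C1 * (C2 + C3 + 1), m₀, N₀, by positivity, ?_⟩
  intro V W mt B hB hLaw hW hVB hV1 f O _ lam v w X K U T₀ Bd S Mn hDat hK1 hKX hU hUX hT hTX hS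
    hMn hBd hUU hP hN hM
  have hX1 : 1 ≤ X := hDat.X1
  have hX0 : (0 : ℝ) < X := by linarith
  have hK0 : 0 < K := by linarith
  have hf : IsPrim f := hDat.hf.1.prim
  have hE : (1 : ℝ) ≤ X ^ (ε / 2) := Real.one_le_rpow hX1 (by linarith)
  have hE2 : X ^ (ε / 2) ≤ X ^ ε := Real.rpow_le_rpow_of_exponent_le hX1 (by linarith)
  have hE3 : (1 : ℝ) ≤ X ^ ε := hE.trans hE2
  set φ : O → Eis → ℂ := fun o k => End699.tw ψ l k * V (nm k * lam o / K) with hφ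
  have hlam0 : ∀ o, 0 < lam o := fun o => by linarith [(hDat.lam1 o).1]
  have hφ0 : ∀ o k, K / lam o < nm k → φ o k = 0 := by
    intro o k hk
    rw [hφ]
    simp only
    rw [hV1, mul_zero]
    rw [lt_div_iff₀ hK0, one_mul]
    exact (div_lt_iff₀ (hlam0 o)).mp hk
  have hφ1 : ∀ o k, Sm M k → ‖φ o k‖ ≤ B := by
    intro o k hk
    rw [hφ]
    simp only
    rw [norm_mul]
    calc ‖End699.tw ψ l k‖ * ‖V (nm k * lam o / K)‖ ≤ 1 * B :=
          mul_le_mul (norm_tw_le hψ l hk.prim) (hVB _) (norm_nonneg _) zero_le_one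
      _ = B := one_mul B
  have hdc : ∀ o, Dcy (φ o) := fun o => dcy_fin (hφ0 o)
  have h3M : (3 : Eis) ∣ D.M' := hψ.three.trans hOK.dvd
  have hPd : HPd M f lam v w Bd := hpd_of hP hOK.ne h3M hOK.rad
    (fun o x hx => (hDat.hv o).sm x hx) (fun o x hx => (hDat.hw o).sm x hx)
  have hXA : 0 ≤ X ^ (-A) := by positivity
  set T := B * (K * S + X ^ (-A)) with hTdef
  have hT0 : 0 ≤ T := by positivity
  have hBKS : B * (K * S) ≤ T := by
    rw [hTdef]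
    refine mul_le_mul_of_nonneg_left ?_ hB
    linarith
  have hY : 0 ≤ (C2 + C3) * X ^ (ε / 2) * T := by positivity
  have h4 := h1 M f O _ lam v w φ X ((C2 + C3) * X ^ (ε / 2) * T) Mn hDat hdc hY hMn (by
    intro D0 B' R Z j k1 k2 k3 k4 k5 k6 k7 k8
    have hrd : (0 : ℝ) < nm (E4352.rd Z) := by
      exact_mod_cast nm_pos.mpr (E4352.rd_prim Z).ne_zero
    have hD01 : (0 : ℝ) < nm D0 := by exact_mod_cast nm_pos.mpr k1.ne_zero
    have hMs : 0 ≤ ∑ D1 ∈ DJ M f D0 B' ⌊X⌋₊ j, Mn / (nm (D0 * D1) * nm B' : ℝ) :=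
      sum_nonneg fun _ _ => by positivity
    by_cases hc : (2 : ℝ) ^ j * nm (E4352.rd Z) ≤ T₀
    · have hnum : Numf (nm D0) (2 ^ j) (nm (E4352.rd Z))
          (8 * (U / K) * (nm D0 * 2 ^ j) * X ^ (ε / 2)) Bd S := by
        refine numf_of hN hf k1 k2 k3 ?_
        rw [if_pos hc]
        have : 0 ≤ 8 * (U / K) * ((nm D0 : ℝ) * 2 ^ j) := by positivity
        exact mul_le_mul_of_nonneg_left hE2 this
      have h5 := h3 V W mt B hB hLaw hW f O _ lam v w X K U T₀ Bd S Mn D0 B' R Z j hDat hK1 hKX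
        hU hUX hS hMn hBd hUU hP hM k1 k2 k3 k4 k5 k6 k7 k8 hc hnum
      refine h5.trans ?_
      refine add_le_add ?_ le_rfl
      refine div_le_div_of_nonneg_right ?_ hrd.le
      have : C3 * X ^ (ε / 2) ≤ (C2 + C3) * X ^ (ε / 2) := by gcongr; linarith
      exact mul_le_mul_of_nonneg_right this hT0
    · have hnum : Numf (nm D0) (2 ^ j) (nm (E4352.rd Z))
          (K / ((nm D0 : ℝ) ^ 2 * (2 ^ j) ^ 2 * (nm (E4352.rd Z) : ℝ) ^ 3)) Bd S := by
        refine numf_of hN hf k1 k2 k3 ?_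
        rw [if_neg hc]
        have : 0 ≤ K / ((nm D0 : ℝ) ^ 2 * (2 ^ j) ^ 2 * (nm (E4352.rd Z) : ℝ) ^ 3) := by
          positivity
        exact le_mul_of_one_le_right this hE3
      have h5 := h2 M f O _ lam v w X K B φ Bd S D0 B' R Z j hDat hK0 hKX hB hS hBd hφ1 hφ0 hPd
        k1 k2 k3 k4 k5 k6 k7 k8 hnum
      refine h5.trans ?_
      refine le_add_of_le_of_nonneg ?_ hMs
      refine div_le_div_of_nonneg_right ?_ hrd.le
      have g1 : C2 * X ^ (ε / 2) ≤ (C2 + C3) * X ^ (ε / 2) := by gcongr; linarith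
      exact mul_le_mul g1 hBKS (by positivity) (by positivity))
  refine h4.trans ?_
  have e : X ^ ε = X ^ (ε / 2) * X ^ (ε / 2) := by rw [← Real.rpow_add hX0]; congr 1; ring
  calc C1 * X ^ (ε / 2) * ((C2 + C3) * X ^ (ε / 2) * T + Mn)
      ≤ C1 * X ^ (ε / 2) * ((C2 + C3 + 1) * X ^ (ε / 2) * (T + Mn)) := by
        refine mul_le_mul_of_nonneg_left ?_ (by positivity)
        have g1 : (C2 + C3) * X ^ (ε / 2) * T ≤ (C2 + C3 + 1) * X ^ (ε / 2) * T :=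
          mul_le_mul_of_nonneg_right (mul_le_mul_of_nonneg_right (by linarith) (by linarith)) hT0
        have g2 : Mn ≤ (C2 + C3 + 1) * X ^ (ε / 2) * Mn := by
          refine le_mul_of_one_le_left hMn ?_
          nlinarith
        nlinarith
    _ = _ := by rw [e]; ring

end Crest.Agent.R017.E4asm176
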