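import Crest.Agent.R017.E4fan_47

/-!
# Row 17, C70/E4, joint form (helper47): the direct half at fixed data, `dirF : DirF`
-/

set_option autoImplicit false
set_option linter.unusedVariables false
set_option linter.unusedSectionVars false

noncomputable section

open Complex
open scoped ComplexConjugate

namespace Crest.Agent.R017.E4v5

open Crest.Agent.R012 Crest.Agent.R012.Eis Crest.Agent.R012.Mob705 Crest.Agent.R012.Gauss880
open Crest.Agent.R012.GaussLoc283 (syAx)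
open Crest.Agent.R012.Div277
open Crest.Agent.R017.Sx545 Crest.Agent.R017.CM106 Crest.Agent.R017.C70 Crest.Agent.R017.C590
open Crest.Agent.R017.B770 Crest.Agent.R017.Sx440
open Crest.Agent.R017.E2440 Crest.Agent.R017.E4352
open Crest.Agent.R017.E4o502 (vD wD GoodD GB ssm_tws bd_tws)

lemma NT_cmul (M u : Eis) (c : ℂ) (φ : Eis → ℂ) :
    NT M u (fun k => c * φ k) = c * NT M u φ := by
  classical
  have hDS : ∀ e : Eis, DS M u (fun d => c * φ (d * e ^ 3)) = c * DS M u (fun d => φ (d * e ^ 3)) := by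
    intro e
    unfold DS
    rw [← tsum_mul_left]
    refine tsum_congr fun d => ?_
    split_ifs
    · ring
    · simp
  unfold NT
  rw [← tsum_mul_left]
  refine tsum_congr fun e => ?_
  split_ifs with h
  · rw [hDS]; ring
  · simp

lemma norm_cB_le {D : Eis} (hD : IsPrim D) : ‖cB D‖ ≤ nm D * Real.sqrt (nm D) := by
  unfold cB
  rw [norm_mul, norm_mul, norm_mul, Complex.norm_natCast, Complex.norm_real,
    Real.norm_of_nonneg (Real.sqrt_nonneg _)]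
  have h1 := norm_muE_le D
  have h2 := Gauss880.norm_G_le Gauss880.syG hD
  have h3 : (0 : ℝ) ≤ (nm D : ℝ) * Real.sqrt (nm D) := by positivity
  calc ‖(muE D : ℂ)‖ * ((nm D : ℝ) * Real.sqrt (nm D)) * ‖G D‖
      ≤ 1 * ((nm D : ℝ) * Real.sqrt (nm D)) * 1 := by gcongr
    _ = _ := by ring

lemma rd_le {B Z : Eis} (hB : IsPrim B) (h : PrI B Z) : (nm (rd Z) : ℝ) ≤ nm B := by
  have h1 : rd Z ∣ rd B := (dvd_rd hB.ne_zero (rd_prim Z)).mpr
    ⟨rd_sqf Z, fun p hp hpd => h.2 p hp (hpd.trans (rd_dvd Z))⟩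
  have h2 := nm_le_of_dvd hB.ne_zero (h1.trans (rd_dvd B))
  exact_mod_cast h2

section

variable {M f : Eis} {O : Type} [Fintype O] {lam : O → ℝ} {v w φ : O → Eis → ℂ}
variable {D0 B R Z : Eis} {a X : ℝ} {𝒟 : Finset Eis}

/-- the coefficient at `D1` -/
def cc (f D0 D1 : Eis) : ℂ := cB (D0 * D1) * conj (sy (f / D0) (D0 * D1))

lemma norm_cc_le (hD0 : IsPrim D0) {d : Eis} (hd : IsPrim d) (ha : 0 ≤ a)
    (hda : (nm d : ℝ) ≤ 2 * a) :
    ‖cc f D0 d‖ ≤ 3 * (nm D0 * Real.sqrt (nm D0)) * (a * Real.sqrt a) := by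
  unfold cc
  rw [norm_mul, RCLike.norm_conj]
  have h1 := norm_cB_le (hD0.mul hd)
  have h2 := Gauss880.norm_sy_le Gauss880.syG (hD0.mul hd) (x := f / D0)
  have h3 : Real.sqrt (nm (D0 * d)) = Real.sqrt (nm D0) * Real.sqrt (nm d) := by
    rw [nm_mul, Nat.cast_mul, Real.sqrt_mul (Nat.cast_nonneg _)]
  have h4 : Real.sqrt (nm d) ≤ 3 / 2 * Real.sqrt a := by
    rw [show (3 / 2 : ℝ) = Real.sqrt (9 / 4) by
      rw [show (9 / 4 : ℝ) = (3 / 2) ^ 2 by norm_num, Real.sqrt_sq (by norm_num)],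
      ← Real.sqrt_mul (by norm_num)]
    exact Real.sqrt_le_sqrt (by linarith)
  have h5 : 0 ≤ Real.sqrt (nm d) := Real.sqrt_nonneg _
  have h6 : 0 ≤ Real.sqrt (nm D0) := Real.sqrt_nonneg _
  have h7 : 0 ≤ Real.sqrt a := Real.sqrt_nonneg _
  have h8 : (0 : ℝ) ≤ nm d := Nat.cast_nonneg _
  have h9 : (0 : ℝ) ≤ nm D0 := Nat.cast_nonneg _
  calc ‖cB (D0 * d)‖ * ‖sy (f / D0) (D0 * d)‖
      ≤ ((nm (D0 * d) : ℝ) * Real.sqrt (nm (D0 * d))) * 1 := by gcongr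
    _ = (nm D0 * Real.sqrt (nm D0)) * (nm d * Real.sqrt (nm d)) := by
        rw [h3, nm_mul, Nat.cast_mul]; ring
    _ ≤ (nm D0 * Real.sqrt (nm D0)) * ((2 * a) * (3 / 2 * Real.sqrt a)) := by gcongr
    _ = _ := by ring

lemma TT_eq (M f : Eis) (v w φ : O → Eis → ℂ) (N : ℕ) (D0 B R Z : Eis) (j : ℕ) {Γ : ℂ}
    (hΓ : Γ ≠ 0) :
    TT M f v w φ N D0 B R Z j = Γ * ∑ i : O × {d : Eis // d ∈ DJ M f D0 B N j},
      ∑' x : Eis, vG D0 B R v i x * ∑' y : Eis, wG D0 B Z w i y *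
        NT M (f / D0 * R * Z / B ^ 3 * x * y)
          (fun k => (cc f D0 i.2.1 / Γ) * φ i.1 ((D0 * i.2.1) ^ 2 * B ^ 3 * k)) := by
  classical
  have e1 : ∀ (o : O) (d : Eis),
      ∑' x : Eis, tws R B (fun _ => 1) (vD (D0 * d) (v o)) x *
        ∑' y : Eis, tws Z B (fun _ => 1) (wD (D0 * d) d (w o)) y *
          NT M (f / D0 * R * Z / B ^ 3 * x * y)
            (fun k => (cc f D0 d / Γ) * φ o ((D0 * d) ^ 2 * B ^ 3 * k)) =
      (cc f D0 d / Γ) * ∑' x : Eis, tws R B (fun _ => 1) (vD (D0 * d) (v o)) x *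
        ∑' y : Eis, tws Z B (fun _ => 1) (wD (D0 * d) d (w o)) y *
          NT M (f / D0 * R * Z / B ^ 3 * x * y) (fun k => φ o ((D0 * d) ^ 2 * B ^ 3 * k)) := by
    intro o d
    rw [← tsum_mul_left]
    refine tsum_congr fun x => ?_
    have e2 : ∑' y : Eis, tws Z B (fun _ => 1) (wD (D0 * d) d (w o)) y *
          NT M (f / D0 * R * Z / B ^ 3 * x * y)
            (fun k => (cc f D0 d / Γ) * φ o ((D0 * d) ^ 2 * B ^ 3 * k)) =
        (cc f D0 d / Γ) * ∑' y : Eis, tws Z B (fun _ => 1) (wD (D0 * d) d (w o)) y *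
          NT M (f / D0 * R * Z / B ^ 3 * x * y) (fun k => φ o ((D0 * d) ^ 2 * B ^ 3 * k)) := by
      rw [← tsum_mul_left]
      refine tsum_congr fun y => ?_
      rw [NT_cmul]
      ring
    rw [e2]
    ring
  unfold TT vG wG
  rw [Fintype.sum_prod_type, Finset.sum_comm]
  rw [Finset.mul_sum, ← Finset.sum_coe_sort (DJ M f D0 B N j)]
  refine Finset.sum_congr rfl fun d _ => ?_
  simp only [e1]
  rw [← Finset.mul_sum, ← mul_assoc, mul_div_cancel₀ _ hΓ]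
  rfl

end

lemma two_sqrt_alg {K S n a c s t : ℝ} (hn : 0 < n) (ha : 0 < a) (hc : 0 < c) (hs : s * s = n)
    (ht : t * t = a) (b : ℝ) (hb : 0 < b) :
    b * (3 * (n * s) * (a * t) * (K / (n ^ 2 * a ^ 2 * b) * (S * (s * t) / c))) =
      3 * (K * S) / c := by
  have hs0 : s ≠ 0 := by rintro rfl; simp at hs; linarith
  have ht0 : t ≠ 0 := by rintro rfl; simp at ht; linarith
  subst hs
  subst ht
  field_simp

/-- **the direct half** -/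
theorem dirF : DirF := by
  classical
  intro ε hε
  obtain ⟨C, hC0, hC⟩ := E4Bf783.lBp' (ε / 12) (by positivity)
  refine ⟨3 * C, by positivity, ?_⟩
  intro M f O _ lam v w X K B' φ Bd S D0 B R Z j hdat hK hKX hB' hS hBd hφB hφ0 hHP hD0 hD0f hD0s
    hBn hRn hZn hjX G hnum
  have hX1 := hdat.X1
  have hX0 : 0 < X := by linarith
  have hB := G.2.1
  have hlam : ∀ o, 1 ≤ lam o := fun o => (hdat.lam1 o).1
  have hlam0 : ∀ o, 0 < lam o := fun o => lt_of_lt_of_le one_pos (hlam o)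
  set a : ℝ := (2 : ℝ) ^ j with ha_def
  have ha : 1 ≤ a := one_le_pow₀ (by norm_num)
  have ha0 : 0 < a := by linarith
  have hDO : DOk M f D0 B a X (DJ M f D0 B ⌊X⌋₊ j) := DJ_ok M f D0 B X j hD0
  set 𝒟 := DJ M f D0 B ⌊X⌋₊ j with h𝒟
  have hn1 : (1 : ℝ) ≤ nm D0 := one_le_nm hD0.ne_zero
  have hn0 : (0 : ℝ) < nm D0 := by linarith
  have hb1 : (1 : ℝ) ≤ nm B := one_le_nm hB.ne_zero
  have hb0 : (0 : ℝ) < (nm B : ℝ) ^ 3 := by positivity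
  have hc1 : (1 : ℝ) ≤ nm (rd Z) := one_le_nm_rd Z
  have hc0 : (0 : ℝ) < nm (rd Z) := by linarith
  have hcb : (nm (rd Z) : ℝ) ≤ nm B := rd_le hB.prim G.2.2.2.2.1
  set s : ℝ := Real.sqrt (nm D0) with hs
  set t : ℝ := Real.sqrt a with ht
  have hss : s * s = nm D0 := Real.mul_self_sqrt hn0.le
  have htt : t * t = a := Real.mul_self_sqrt ha0.le
  have hs0 : 0 < s := Real.sqrt_pos.mpr hn0
  have ht0 : 0 < t := Real.sqrt_pos.mpr ha0
  set Γ : ℝ := 3 * (nm D0 * s) * (a * t) with hΓ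
  have hΓ0 : 0 < Γ := by positivity
  have hΓc : (Γ : ℂ) ≠ 0 := by exact_mod_cast hΓ0.ne'
  set K' : ℝ := K / ((nm D0 : ℝ) ^ 2 * a ^ 2 * (nm B : ℝ) ^ 3) with hK'
  have hK'0 : 0 < K' := by positivity
  have hden : 1 ≤ (nm D0 : ℝ) ^ 2 * a ^ 2 * (nm B : ℝ) ^ 3 := by
    have h1 := one_le_pow₀ hn1 (n := 2)
    have h2 := one_le_pow₀ ha (n := 2)
    have h3 := one_le_pow₀ hb1 (n := 3)
    exact one_le_mul_of_one_le_of_one_le (one_le_mul_of_one_le_of_one_le h1 h2) h3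
  have hK'K : K' ≤ K := div_le_self hK.le hden
  have hXX : X ≤ X ^ 12 := by
    calc X = X ^ 1 := (pow_one X).symm
      _ ≤ X ^ 12 := pow_le_pow_right₀ hX1 (by norm_num)
  set S' : ℝ := S * (s * t) / nm (rd Z) with hS'
  have hS'0 : 0 ≤ S' := by positivity
  set Bd' : ℝ → ℝ → ℝ := fun κ z => Bd κ a (nm (rd Z) * z) with hBd'
  have hBdC : BdC Bd' := by
    refine ⟨fun κ z => (hBd a).nn _ _, fun κ z z' hz hzz => ?_⟩
    refine (hBd a).anti κ _ _ ?_ ?_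
    · exact one_le_mul_of_one_le_of_one_le hc1 hz
    · exact mul_le_mul_of_nonneg_left hzz hc0.le
  set φ' : O × {d : Eis // d ∈ 𝒟} → Eis → ℂ := fun i k =>
    (cc f D0 i.2.1 / (Γ : ℂ)) * φ i.1 ((D0 * i.2.1) ^ 2 * B ^ 3 * k) with hφ'
  have hD0S : Sm M D0 := hdat.hf.1.of_dvd hD0 hD0f
  have hφ'B : ∀ i k, Sm M k → ‖φ' i k‖ ≤ B' := by
    rintro ⟨o, d, hd⟩ k hk
    have hdS := hDO.sm d hd
    have h1 : ‖cc f D0 d / (Γ : ℂ)‖ ≤ 1 := by
      rw [norm_div, Complex.norm_real, Real.norm_of_nonneg hΓ0.le, div_le_one hΓ0]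
      exact norm_cc_le hD0 hdS.prim ha0.le (hDO.hi d hd)
    have h2 := hφB o ((D0 * d) ^ 2 * B ^ 3 * k) ((((hD0S.mul hdS).pow 2).mul (hB.pow 3)).mul hk)
    simp only [hφ']
    rw [norm_mul]
    calc ‖cc f D0 d / (Γ : ℂ)‖ * ‖φ o ((D0 * d) ^ 2 * B ^ 3 * k)‖ ≤ 1 * B' :=
          mul_le_mul h1 h2 (norm_nonneg _) zero_le_one
      _ = B' := one_mul _
  have hφ'0 : ∀ i k, K' / (lamD (𝒟 := 𝒟) a lam i) < nm k → φ' i k = 0 := by
    rintro ⟨o, d, hd⟩ k hk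
    have hdS := hDO.sm d hd
    have hd1 : (1 : ℝ) ≤ nm d := one_le_nm hdS.ne_zero
    have hl := hlam0 o
    simp only [hφ']
    rw [hφ0 o _ ?_, mul_zero]
    unfold lamD at hk
    simp only at hk
    rw [div_lt_iff₀ (by positivity)] at hk ⊢
    rw [nm_mul, nm_mul, nm_pow, nm_pow, nm_mul]
    push_cast
    rw [hK', div_lt_iff₀ (by positivity)] at hk
    refine lt_of_lt_of_eq hk ?_
    field_simp
  have hnum' : ∀ b₁ b₃ κ : ℝ, 1 ≤ b₁ → 1 ≤ b₃ → 1 / 4 ≤ κ → κ * b₁ ^ 2 * b₃ ^ 3 ≤ K' →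
      b₁ ^ (1 / 2 : ℝ) * b₃ * κ ^ (-(1 / 2) : ℝ) * Bd' κ (b₁ * b₃) ≤ S' := by
    intro b₁ b₃ κ h1 h3 h4 h5
    have h6 : κ * b₁ ^ 2 * b₃ ^ 3 ≤ K / ((nm D0 : ℝ) ^ 2 * a ^ 2 * (nm (rd Z) : ℝ) ^ 3) := by
      refine h5.trans ?_
      rw [hK']
      gcongr
    have h7 := hnum b₁ b₃ κ h1 h3 h4 h6
    have e1 : (nm D0 : ℝ) ^ (-(1 / 2) : ℝ) = s⁻¹ := by
      rw [Real.rpow_neg hn0.le, ← Real.sqrt_eq_rpow]
    have e2 : a ^ (-(1 / 2) : ℝ) = t⁻¹ := by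
      rw [Real.rpow_neg ha0.le, ← Real.sqrt_eq_rpow]
    rw [e1, e2] at h7
    rw [hS', le_div_iff₀ hc0]
    simp only [hBd']
    have e3 : s⁻¹ * (t⁻¹ * (nm (rd Z) : ℝ) * b₁ ^ (1 / 2 : ℝ) * b₃ * κ ^ (-(1 / 2) : ℝ) *
        Bd κ a (nm (rd Z) * (b₁ * b₃))) = (b₁ ^ (1 / 2 : ℝ) * b₃ * κ ^ (-(1 / 2) : ℝ) *
        Bd κ a (nm (rd Z) * (b₁ * b₃)) * (nm (rd Z) : ℝ)) / (s * t) := by
      field_simp
    rw [e3, div_le_iff₀ (by positivity)] at h7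
    exact h7
  have hmain := hC M (f / D0 * R * Z / B ^ 3) (O × {d : Eis // d ∈ 𝒟}) _
    (lamD (𝒟 := 𝒟) a lam) (vG D0 B R v) (wG D0 B Z w) (X ^ 12) K' B' φ' Bd' S'
    (fam_dat hdat hD0 hD0f G hDO ha hRn hZn) hK'0 ((hK'K.trans hKX).trans hXX) hB' hS'0 hBdC
    hφ'B hφ'0
    (fun b R' Z' κ hb hR' hZ' hbf hκ => fam_hpd hHP hBd (fun o => (hlam0 o).le) hdat.hf.1 hD0 hD0f
      G hDO ha b R' Z' κ hb hR' hZ' hbf hκ) hnum'
  have hXe : (X ^ 12 : ℝ) ^ (ε / 12) = X ^ ε := by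
    rw [← Real.rpow_natCast X 12, ← Real.rpow_mul hX0.le]
    congr 1; push_cast; ring
  rw [hXe] at hmain
  rw [TT_eq M f v w φ ⌊X⌋₊ D0 B R Z j hΓc, norm_mul, Complex.norm_real,
    Real.norm_of_nonneg hΓ0.le]
  calc (nm B : ℝ) ^ 3 * (Γ * ‖∑ i : O × {d : Eis // d ∈ DJ M f D0 B ⌊X⌋₊ j},
      ∑' x : Eis, vG D0 B R v i x * ∑' y : Eis, wG D0 B Z w i y *
        NT M (f / D0 * R * Z / B ^ 3 * x * y)
          (fun k => (cc f D0 i.2.1 / (Γ : ℂ)) * φ i.1 ((D0 * i.2.1) ^ 2 * B ^ 3 * k))‖)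
      ≤ (nm B : ℝ) ^ 3 * (Γ * (C * X ^ ε * B' * K' * S')) := by
        refine mul_le_mul_of_nonneg_left (mul_le_mul_of_nonneg_left ?_ hΓ0.le) hb0.le
        exact hmain
    _ = C * X ^ ε * B' * ((nm B : ℝ) ^ 3 * (Γ * (K' * S'))) := by ring
    _ = C * X ^ ε * B' * (3 * (K * S) / nm (rd Z)) := by
        rw [hΓ, hK', hS', two_sqrt_alg hn0 ha0 hc0 hss htt _ hb0]
    _ = 3 * C * X ^ ε * (B' * (K * S)) / nm (rd Z) := by ring

end Crest.Agent.R017.E4v5
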