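import Crest.Agent.R017.E4fe2_502
import Crest.Agent.R017.E4feD_502
import Crest.Agent.R017.E4dirF_47

/-!
# Row 17, C70/E4, joint form: the functional-equation half, part 3 (helper502)

`feF : FeF`
-/

set_option autoImplicit false
set_option linter.unusedVariables false
set_option linter.unusedSectionVars false

noncomputable section

open Complex
open scoped ComplexConjugate

namespace Crest.Agent.R017.E4fe502

open Crest.Agent.R012 Crest.Agent.R012.Eis Crest.Agent.R012.Mob705 Crest.Agent.R012.Gauss880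
open Crest.Agent.R012.Div277
open Crest.Agent.R012.GaussLoc283
open Crest.Agent.R017.Sx545 Crest.Agent.R017.CM106 Crest.Agent.R017.C70 Crest.Agent.R017.C590
open Crest.Agent.R017.End699 Crest.Agent.R017.B770 Crest.Agent.R017.Sx440
open Crest.Agent.R017.E2440 Crest.Agent.R017.E4352
open Crest.Agent.R017.E4o502 Crest.Agent.R017.E4v5

/-! ### weights -/

lemma wt_mono {m₀ N₀ m₁ N₁ : ℕ} {B : ℝ} {W : ℝ → ℂ} (hB : 0 ≤ B) (h : WT m₀ N₀ B W)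
    (hm : m₁ ≤ m₀) (hN : N₁ ≤ N₀) : WT m₁ N₁ B W := by
  refine ⟨h.smooth, fun m hm' y hy => (h.dec m (hm'.trans hm) y hy).trans ?_⟩
  refine mul_le_mul_of_nonneg_left ?_ hB
  rcases le_or_gt 1 y with h1 | h1
  · refine min_le_min le_rfl ?_
    have h2 : y ^ N₁ ≤ y ^ N₀ := pow_le_pow_right₀ h1 hN
    gcongr
  · have h2 : 1 ≤ (y ^ N₁)⁻¹ := by
      rw [one_le_inv₀ (by positivity)]
      exact pow_le_one₀ hy.le h1.le
    rw [min_eq_left h2]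
    exact min_le_left _ _

/-! ### scaling of the `y`-side -/

section

variable {M f D0 B R Z : Eis} {O : Type} [Fintype O] {lam : O → ℝ} {v w : O → Eis → ℂ}

lemma tws_const {R' q : Eis} {g c c' : Eis → ℂ} {u : ℂ} (h : ∀ y, c y = u * c' y) (y : Eis) :
    E4352.tws R' q g c y = u * E4352.tws R' q g c' y := by
  classical
  unfold E4352.tws
  split_ifs
  · rw [h]; ring
  · simp

lemma PB_scale {q R' Z' : Eis} {g c d d' : Eis → ℂ} {u : ℂ} (hu : ‖u‖ ≤ 1)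
    (h : ∀ y, d y = u * d' y) (κ : ℝ) : PB M q R' Z' g c d κ ≤ PB M q R' Z' g c d' κ := by
  classical
  unfold PB
  refine Finset.sum_le_sum fun k _ => ?_
  have e2 := CS_const (fun y => tws_const (R' := Z') (q := q) (g := g) h y) k
  rw [e2, norm_mul]
  have n2 := norm_nonneg (CS (E4352.tws Z' q g d') k)
  gcongr
  exact mul_le_of_le_one_left n2 hu

lemma wn_scale (hd : Dta M f D0 B R Z) {ψ : Eis → ℂ} {l : ℤ} (hψ : HC M ψ) {N j : ℕ}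
    (z : O × {d : Eis // d ∈ DJ M f D0 B N j}) :
    ‖cf' f D0 B ψ l z.2.1 / (Gam D0 j : ℂ)‖ ≤ 1 := by
  have hΓ := Gam_pos hd.pD.ne_zero j
  rw [norm_div, Complex.norm_real, Real.norm_of_nonneg hΓ.le, div_le_one hΓ]
  exact (norm_cf hd hψ z.2.2).2

lemma PBo_wn (hd : Dta M f D0 B R Z) {ψ : Eis → ℂ} {l : ℤ} (hψ : HC M ψ) {N j : ℕ}
    (hlam : ∀ z : O × {d : Eis // d ∈ DJ M f D0 B N j}, 0 ≤ lamD (2 ^ j) lam z)
    {q R' Z' : Eis} {g : Eis → ℂ} {c : O × {d : Eis // d ∈ DJ M f D0 B N j} → Eis → ℂ} (κ : ℝ) :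
    PBo M (lamD (𝒟 := DJ M f D0 B N j) (2 ^ j) lam) q R' Z' g c
        (wn f D0 B Z ψ l j w (DJ M f D0 B N j)) κ ≤
      PBo M (lamD (𝒟 := DJ M f D0 B N j) (2 ^ j) lam) q R' Z' g c
        (wG D0 B Z w) κ := by
  unfold PBo
  refine Finset.sum_le_sum fun z _ => ?_
  refine mul_le_mul_of_nonneg_left ?_ (Real.rpow_nonneg (hlam z) _)
  exact PB_scale (wn_scale hd hψ z) (fun y => rfl) _

lemma wn_ne {ψ : Eis → ℂ} {l : ℤ} {j : ℕ} {𝒟 : Finset Eis}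
    {z : O × {d : Eis // d ∈ 𝒟}} {y : Eis} (h : wn f D0 B Z ψ l j w 𝒟 z y ≠ 0) :
    wG D0 B Z w z y ≠ 0 := by
  intro h0
  apply h
  unfold wn
  have : ww D0 B Z w 𝒟 z y = 0 := h0
  rw [this, mul_zero]

lemma dat_wn (hd : Dta M f D0 B R Z) {ψ : Eis → ℂ} {l : ℤ} (hψ : HC M ψ) {N j : ℕ} {X : ℝ}
    {F : Eis} {c : O × {d : Eis // d ∈ DJ M f D0 B N j} → Eis → ℂ}
    (H : Dat4 M F (lamD (𝒟 := DJ M f D0 B N j) (2 ^ j) lam) c (wG D0 B Z w) X) :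
    Dat4 M F (lamD (𝒟 := DJ M f D0 B N j) (2 ^ j) lam) c
      (wn f D0 B Z ψ l j w (DJ M f D0 B N j)) X := by
  refine ⟨H.X1, H.card, H.lam1, H.hf, H.hv, fun z => ?_, H.vx, fun z y hy => H.wy z y (wn_ne hy),
    H.vb, fun z y => ?_⟩
  · refine ⟨(H.hw z).fin.subset fun y hy => ?_, fun y hy => (H.hw z).sm y (wn_ne hy)⟩
    exact wn_ne hy
  · have h1 := wn_scale hd hψ (l := l) z
    have h2 := H.wb z y
    have e : wn f D0 B Z ψ l j w (DJ M f D0 B N j) z y =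
      (cf' f D0 B ψ l z.2.1 / (Gam D0 j : ℂ)) * wG D0 B Z w z y := rfl
    rw [e, norm_mul]
    have h3 := norm_nonneg (wG D0 B Z w z y)
    calc _ ≤ 1 * ‖wG D0 B Z w z y‖ := mul_le_mul_of_nonneg_right h1 h3
      _ ≤ X := by rw [one_mul]; exact h2

end

/-! ### the length condition -/

section

variable {M f D0 B R Z : Eis} {O : Type} [Fintype O] {lam : O → ℝ} {v w : O → Eis → ℂ}

/-- the dual length -/
def Kd (X U K : ℝ) (D0 : Eis) (j : ℕ) : ℝ := min 8 (X ^ 3) * (U / K) * (nm D0 * 2 ^ j)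

lemma len_cond (hd : Dta M f D0 B R Z) {ψ : Eis → ℂ} {l : ℤ} {j : ℕ} {X U K : ℝ}
    (hX : 1 ≤ X) (hU : 0 < U) (hK : 0 < K) (hlam : ∀ o, 0 < lam o)
    (H : ∀ o x y, v o x ≠ 0 → w o y ≠ 0 → (nm (f * x * y) : ℝ) * lam o ^ 2 ≤ U)
    (z : O × {d : Eis // d ∈ DJ M f D0 B ⌊X⌋₊ j}) (x y : Eis) (hx : vG D0 B R v z x ≠ 0)
    (hy : wn f D0 B Z ψ l j w (DJ M f D0 B ⌊X⌋₊ j) z y ≠ 0) :
    (nm (FF f D0 B R Z * x * y) : ℝ) * (lamD (2 ^ j) lam z) ^ 2 ≤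
      Kd X U K D0 j * QQ K D0 B j := by
  obtain ⟨o, d, hdm⟩ := z
  obtain ⟨h1, h2, h3, h4, h5, h6⟩ := mem_DJ hdm
  have hx' : v o (1 * (R * x)) ≠ 0 := tws_ne (tws_ne hx)
  have hy' : w o (d * (Z * y)) ≠ 0 := tws_ne (tws_ne (wn_ne hy))
  rw [one_mul] at hx'
  have key := H o _ _ hx' hy'
  have e1 : f * (R * x) * (d * (Z * y)) = D0 * d * B ^ 3 * (FF f D0 B R Z * x * y) := by
    have a1 := hd.hFF
    have a2 := hd.f'
    calc f * (R * x) * (d * (Z * y)) = (D0 * (f / D0)) * (R * x) * (d * (Z * y)) := by rw [a2]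
      _ = D0 * d * (f / D0 * R * Z) * x * y := by ring
      _ = _ := by rw [a1]; ring
  rw [e1] at key
  have hD0 : (0 : ℝ) < nm D0 := by exact_mod_cast nm_pos.mpr hd.pD.ne_zero
  have hB : (0 : ℝ) < nm B := by exact_mod_cast nm_pos.mpr hd.hB.ne_zero
  have hdp : (0 : ℝ) < nm d := by exact_mod_cast nm_pos.mpr h1.ne_zero
  have hl := hlam o
  have e2 : (nm (D0 * d * B ^ 3 * (FF f D0 B R Z * x * y)) : ℝ) =
      nm D0 * nm d * (nm B : ℝ) ^ 3 * nm (FF f D0 B R Z * x * y) := by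
    rw [nm_mul (D0 * d * B ^ 3), nm_mul (D0 * d), nm_mul D0, nm_pow]
    push_cast
    ring
  rw [e2] at key
  set n : ℝ := (nm (FF f D0 B R Z * x * y) : ℝ) with hn
  have hn0 : 0 ≤ n := Nat.cast_nonneg _
  set a : ℝ := (2 : ℝ) ^ j with ha
  have ha1 : 1 ≤ a := one_le_pow₀ (by norm_num)
  have ha0 : 0 < a := by linarith
  -- `(nm d / a)^3 ≤ min 8 X^3`
  have h7 : (nm d / a : ℝ) ≤ 2 := by
    rw [div_le_iff₀ ha0]
    rw [pow_succ] at h6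
    linarith
  have h8 : (nm d / a : ℝ) ≤ X := by
    refine (div_le_self hdp.le ha1).trans ?_
    calc (nm d : ℝ) ≤ (⌊X⌋₊ : ℝ) := by exact_mod_cast h2
      _ ≤ X := Nat.floor_le (by linarith)
  have h0 : (0 : ℝ) ≤ nm d / a := by positivity
  have h9 : (nm d / a : ℝ) ^ 3 ≤ min 8 (X ^ 3) := by
    refine le_min ?_ (pow_le_pow_left₀ h0 h8 3)
    calc (nm d / a : ℝ) ^ 3 ≤ 2 ^ 3 := pow_le_pow_left₀ h0 h7 3
      _ = 8 := by norm_num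
  have e3 : Kd X U K D0 j * QQ K D0 B j =
      min 8 (X ^ 3) * (U / (nm D0 * a * (nm B : ℝ) ^ 3)) := by
    unfold Kd QQ
    rw [← ha]
    field_simp
  have e4 : n * (lamD a lam (⟨o, ⟨d, hdm⟩⟩ : O × {d : Eis // d ∈ DJ M f D0 B ⌊X⌋₊ j})) ^ 2 =
      (nm d / a : ℝ) ^ 3 * ((nm D0 * nm d * (nm B : ℝ) ^ 3 * n * lam o ^ 2) /
        (nm D0 * a * (nm B : ℝ) ^ 3)) := by
    unfold lamD
    field_simp
  rw [e3, e4]
  have h10 : (nm D0 * nm d * (nm B : ℝ) ^ 3 * n * lam o ^ 2) /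
        (nm D0 * a * (nm B : ℝ) ^ 3) ≤ U / (nm D0 * a * (nm B : ℝ) ^ 3) := by
    gcongr
  have h11 : 0 ≤ U / (nm D0 * a * (nm B : ℝ) ^ 3) := by positivity
  calc (nm d / a : ℝ) ^ 3 * ((nm D0 * nm d * (nm B : ℝ) ^ 3 * n * lam o ^ 2) /
        (nm D0 * a * (nm B : ℝ) ^ 3)) ≤ (nm d / a : ℝ) ^ 3 *
        (U / (nm D0 * a * (nm B : ℝ) ^ 3)) := by gcongr
    _ ≤ _ := mul_le_mul_of_nonneg_right h9 h11

end

/-! ### `feF` -/

/-- powers -/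
lemma pow_id {n a b K S c : ℝ} (hn : 0 < n) (ha : 0 < a) (hb : 0 < b) (hc : 0 < c) :
    b * ((n * (a * 2)) ^ (3 / 2 : ℝ) * (K / (n ^ 2 * a ^ 2 * b) *
      (S * (Real.sqrt n * Real.sqrt a) / c))) = 2 ^ (3 / 2 : ℝ) * (K * S) / c := by
  have h3 : ∀ t : ℝ, 0 < t → t ^ (3 / 2 : ℝ) = t * Real.sqrt t := by
    intro t ht
    rw [show (3 / 2 : ℝ) = 1 + 1 / 2 by norm_num, Real.rpow_add ht, Real.rpow_one,
      ← Real.sqrt_eq_rpow]
  have e1 : (n * (a * 2)) ^ (3 / 2 : ℝ) = (n * Real.sqrt n) * ((a * Real.sqrt a) *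
      2 ^ (3 / 2 : ℝ)) := by
    rw [Real.mul_rpow hn.le (by positivity), Real.mul_rpow ha.le (by norm_num), h3 n hn, h3 a ha]
  rw [e1]
  have hs : Real.sqrt n * Real.sqrt n = n := Real.mul_self_sqrt hn.le
  have ht : Real.sqrt a * Real.sqrt a = a := Real.mul_self_sqrt ha.le
  have e2 : b * ((n * Real.sqrt n) * ((a * Real.sqrt a) * 2 ^ (3 / 2 : ℝ)) *
      (K / (n ^ 2 * a ^ 2 * b) * (S * (Real.sqrt n * Real.sqrt a) / c))) =
      b * (n * a * 2 ^ (3 / 2 : ℝ) * (K / (n ^ 2 * a ^ 2 * b) *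
        (S * ((Real.sqrt n * Real.sqrt n) * (Real.sqrt a * Real.sqrt a)) / c))) := by ring
  rw [e2, hs, ht]
  field_simp

theorem feF : FeF := by
  classical
  intro M ψ l ι _ D hψ hOK ε A hε hA
  have hex : ∀ i : ι, _ := fun i => E4Bf783.lBd' M D.M' D.j (D.η i) (D.ψ' i) D.l' (D.ρ i)
    (hOK.η i) (hOK.ψ' i) hOK.dvd hOK.ne hOK.rad (hOK.ρ i) (ε / 12) (A + 1) (by positivity)
    (by linarith)
  choose Cb mb Nb hCb0 hCb using hex
  have hCn : 0 ≤ ∑ i, Cb i := Finset.sum_nonneg fun i _ => hCb0 i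
  have hκn : 0 ≤ ∑ i, ‖D.κ i‖ := Finset.sum_nonneg fun i _ => norm_nonneg _
  have h232 : (0 : ℝ) < 2 ^ (3 / 2 : ℝ) := by positivity
  refine ⟨(∑ i, ‖D.κ i‖) * (∑ i, Cb i) * 2 ^ (3 / 2 : ℝ), Finset.univ.sup mb, Finset.univ.sup Nb,
    by positivity, ?_⟩
  intro V W mt B' hB' hL hWT f O _ lam v w X K U T₀ Bd S Mn D0 B R Z j hdat hK1 hKX hU hUX hS hMn
    hBd hlen hHP hHM hD0 hD0f hD0s hBn hRn hZn hjX G hTj hnum
  have hX1 := hdat.X1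
  have hX0 : 0 < X := by linarith
  have hK : 0 < K := by linarith
  have hd : Dta M f D0 B R Z := ⟨hdat.hf.1, hD0, hD0f, hD0s, G⟩
  have hB := G.2.1
  have hlam : ∀ o, 1 ≤ lam o := fun o => (hdat.lam1 o).1
  have hlam0 : ∀ o, 0 < lam o := fun o => lt_of_lt_of_le one_pos (hlam o)
  set a : ℝ := (2 : ℝ) ^ j with ha_def
  have ha : 1 ≤ a := one_le_pow₀ (by norm_num)
  have ha0 : 0 < a := by linarith
  have hDO : DOk M f D0 B a X (DJ M f D0 B ⌊X⌋₊ j) := DJ_ok M f D0 B X j hD0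
  set 𝒟 := DJ M f D0 B ⌊X⌋₊ j with h𝒟
  have hn1 : (1 : ℝ) ≤ nm D0 := one_le_nm hD0.ne_zero
  have hn0 : (0 : ℝ) < nm D0 := by linarith
  have hnX : (nm D0 : ℝ) ≤ X := by
    have := nm_le_of_dvd hdat.hf.1.ne_zero hD0f
    exact le_trans (by exact_mod_cast this) hdat.hf.2
  have hb1 : (1 : ℝ) ≤ nm B := one_le_nm hB.ne_zero
  have hb0 : (0 : ℝ) < nm B := by linarith
  have hfl : (⌊X⌋₊ : ℝ) ≤ X := Nat.floor_le (by linarith)
  have hbX : (nm B : ℝ) ≤ X ^ 2 := by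
    calc (nm B : ℝ) ≤ ((⌊X⌋₊ ^ 2 : ℕ) : ℝ) := by exact_mod_cast hBn
      _ = (⌊X⌋₊ : ℝ) ^ 2 := by push_cast; ring
      _ ≤ X ^ 2 := by gcongr
  have hc1 : (1 : ℝ) ≤ nm (rd Z) := one_le_nm_rd Z
  have hc0 : (0 : ℝ) < nm (rd Z) := by linarith
  have hcX : (nm (rd Z) : ℝ) ≤ X := by
    have h1 := nm_le_of_dvd hd.hZ.ne_zero (rd_dvd Z)
    calc (nm (rd Z) : ℝ) ≤ nm Z := by exact_mod_cast h1
      _ ≤ (⌊X⌋₊ : ℝ) := by exact_mod_cast hZn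
      _ ≤ X := hfl
  -- data for the dual bound
  have hQden : 1 ≤ (nm D0 : ℝ) ^ 2 * a ^ 2 * (nm B : ℝ) ^ 3 :=
    one_le_mul_of_one_le_of_one_le (one_le_mul_of_one_le_of_one_le (one_le_pow₀ hn1)
      (one_le_pow₀ ha)) (one_le_pow₀ hb1)
  have hQ0 : 0 < QQ K D0 B j := by unfold QQ; positivity
  have hX12 : X ≤ X ^ 12 := by
    calc X = X ^ 1 := (pow_one X).symm
      _ ≤ X ^ 12 := pow_le_pow_right₀ hX1 (by norm_num)
  have hQX : QQ K D0 B j ≤ X ^ 12 := by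
    unfold QQ
    exact ((div_le_self hK.le hQden).trans hKX).trans hX12
  have hQl : (X ^ 12)⁻¹ ≤ QQ K D0 B j := by
    unfold QQ
    rw [← ha_def, inv_eq_one_div, div_le_div_iff₀ (by positivity) (by positivity), one_mul]
    calc (nm D0 : ℝ) ^ 2 * a ^ 2 * (nm B : ℝ) ^ 3 ≤ X ^ 2 * X ^ 2 * (X ^ 2) ^ 3 := by gcongr
      _ = 1 * X ^ 10 := by ring
      _ ≤ K * X ^ 12 := by
        gcongr
        norm_num
  have hmin0 : (0 : ℝ) < min 8 (X ^ 3) := lt_min (by norm_num) (by positivity)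
  have hKd0 : 0 < Kd X U K D0 j := by unfold Kd; positivity
  have hKdX : Kd X U K D0 j ≤ X ^ 12 := by
    unfold Kd
    have h1 : min 8 (X ^ 3) ≤ X ^ 3 := min_le_right _ _
    have h2 : U / K ≤ X := (div_le_self hU.le hK1).trans hUX
    have h3 : 0 ≤ U / K := by positivity
    calc min 8 (X ^ 3) * (U / K) * ((nm D0 : ℝ) * 2 ^ j) ≤ X ^ 3 * X * (X * X) := by gcongr
      _ = X ^ 6 := by ring
      _ ≤ X ^ 12 := pow_le_pow_right₀ hX1 (by norm_num)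
  set s : ℝ := Real.sqrt (nm D0) with hs
  set t : ℝ := Real.sqrt a with ht
  have hs0 : 0 < s := Real.sqrt_pos.mpr hn0
  have ht0 : 0 < t := Real.sqrt_pos.mpr ha0
  set S' : ℝ := S * (s * t) / nm (rd Z) with hS'
  have hS'0 : 0 ≤ S' := by positivity
  set Bd' : ℝ → ℝ → ℝ := fun κ z => Bd κ a (nm (rd Z) * z) with hBd'
  have hBdC : BdC Bd' := by
    refine ⟨fun κ z => (hBd a).nn _ _, fun κ z z' hz hzz => ?_⟩
    refine (hBd a).anti κ _ _ ?_ ?_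
    · exact one_le_mul_of_one_le_of_one_le hc1 hz
    · exact mul_le_mul_of_nonneg_left hzz hc0.le
  have hXe : (X ^ 12 : ℝ) ^ (ε / 12) = X ^ ε := by
    rw [← Real.rpow_natCast X 12, ← Real.rpow_mul hX0.le]
    congr 1; push_cast; ring
  have hnum' : ∀ b₁ b₃ κ : ℝ, 1 ≤ b₁ → 1 ≤ b₃ → 1 / 4 ≤ κ →
      κ * b₁ ^ 2 * b₃ ^ 3 ≤ Kd X U K D0 j * (X ^ 12 : ℝ) ^ (ε / 12) →
      b₁ ^ (1 / 2 : ℝ) * b₃ * κ ^ (-(1 / 2) : ℝ) * Bd' κ (b₁ * b₃) ≤ S' := by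
    intro b₁ b₃ κ h1 h3 h4 h5
    rw [hXe] at h5
    have h6 : κ * b₁ ^ 2 * b₃ ^ 3 ≤ 8 * (U / K) * (nm D0 * a) * X ^ ε := by
      refine h5.trans ?_
      unfold Kd
      have : min 8 (X ^ 3) ≤ 8 := min_le_left _ _
      gcongr
    have h7 := hnum b₁ b₃ κ h1 h3 h4 h6
    have e1 : (nm D0 : ℝ) ^ (-(1 / 2) : ℝ) = s⁻¹ := by
      rw [Real.rpow_neg hn0.le, ← Real.sqrt_eq_rpow]
    have e2 : a ^ (-(1 / 2) : ℝ) = t⁻¹ := by
      rw [Real.rpow_neg ha0.le, ← Real.sqrt_eq_rpow]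
    rw [e1, e2] at h7
    rw [hS', le_div_iff₀ hc0]
    simp only [hBd']
    have e3 : s⁻¹ * (t⁻¹ * (nm (rd Z) : ℝ) * b₁ ^ (1 / 2 : ℝ) * b₃ * κ ^ (-(1 / 2) : ℝ) *
        Bd κ a (nm (rd Z) * (b₁ * b₃))) = (b₁ ^ (1 / 2 : ℝ) * b₃ * κ ^ (-(1 / 2) : ℝ) *
        Bd κ a (nm (rd Z) * (b₁ * b₃)) * (nm (rd Z) : ℝ)) / (s * t) := by
      field_simp
    rw [e3, div_le_iff₀ (by positivity)] at h7
    exact h7
  have hlamD0 : ∀ z : O × {d : Eis // d ∈ 𝒟}, 0 ≤ lamD (2 ^ j) lam z := by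
    rintro ⟨o, d, hdm⟩
    have := hlam0 o
    unfold lamD
    positivity
  have hdat' := dat_wn hd hψ (l := l) (fam_dat hdat hD0 hD0f G hDO ha hRn hZn)
  set T : ℝ := (∑ i, Cb i) * (X ^ 12 : ℝ) ^ (ε / 12) * B' *
    (QQ K D0 B j * S' + (X ^ 12 : ℝ) ^ (-(A + 1))) with hT
  have hsum0 : 0 ≤ QQ K D0 B j * S' + (X ^ 12 : ℝ) ^ (-(A + 1)) := by positivity
  have hdual : ∀ i, ‖∑ z : O × {d : Eis // d ∈ DJ M f D0 B ⌊X⌋₊ j},
      Bi (vv D0 B R v _ z) (wn f D0 B Z ψ l j w _ z)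
        (dG M D W i (FF f D0 B R Z) (QQ K D0 B j / lamD (2 ^ j) lam z))‖ ≤ T := by
    intro i
    have key := hCb i (FF f D0 B R Z) (O × {d : Eis // d ∈ 𝒟}) _ (lamD (2 ^ j) lam)
      (vG D0 B R v) (wn f D0 B Z ψ l j w 𝒟) (X ^ 12) (QQ K D0 B j) (Kd X U K D0 j) B' (W i) Bd' S'
      hdat' hQl hQX hKd0 hKdX hB' hS'0 hBdC
      (wt_mono hB' (hWT i) (Finset.le_sup (Finset.mem_univ i))
        (Finset.le_sup (Finset.mem_univ i)))
      (fun z x y hx hy => len_cond hd hX1 hU hK hlam0 hlen z x y hx hy)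
      (fun b R' Z' g ξ κ hb hR' hZ' hbf hg hκ => ?_) hnum'
    · refine key.trans ?_
      rw [hT]
      have h1 : Cb i ≤ ∑ i, Cb i :=
        Finset.single_le_sum (f := Cb) (fun i _ => hCb0 i) (Finset.mem_univ i)
      gcongr
    · refine (PBo_wn hd hψ hlamD0 κ).trans ?_
      refine (fam_hp5 hHP hBd (fun o => (hlam0 o).le) hdat.hf.1 hD0 hD0f
        G hDO ha b R' Z' g ξ κ hb hR' hZ' hbf hg hκ).trans ?_
      have h1 : (1 : ℝ) ≤ 1 + |ξ| := by linarith [abs_nonneg ξ]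
      have h2 : (1 + |ξ|) ^ A ≤ (1 + |ξ|) ^ (A + 1) :=
        Real.rpow_le_rpow_of_exponent_le h1 (by linarith)
      exact mul_le_mul_of_nonneg_right h2 ((hBd a).nn _ _)
  have main := tt_le hψ hL hd hdat.hv hdat.hw hlam0 hK hHM hTj hdual
  refine main.trans (add_le_add ?_ le_rfl)
  rw [hT, hXe]
  -- the size of the dual part
  have hb30 : (0 : ℝ) < (nm B : ℝ) ^ 3 := by positivity
  have hG : Gam D0 j = ((nm D0 : ℝ) * (a * 2)) ^ (3 / 2 : ℝ) := by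
    unfold Gam
    rw [pow_succ]
  have e1 : (nm B : ℝ) ^ 3 * (Gam D0 j * (QQ K D0 B j * S')) =
      2 ^ (3 / 2 : ℝ) * (K * S) / nm (rd Z) := by
    rw [hG, hS']
    unfold QQ
    exact pow_id hn0 ha0 hb30 hc0
  have e2 : (nm B : ℝ) ^ 3 * (Gam D0 j * (X ^ 12 : ℝ) ^ (-(A + 1))) ≤
      2 ^ (3 / 2 : ℝ) * X ^ (-A) / nm (rd Z) := by
    have h1 : Gam D0 j ≤ 2 ^ (3 / 2 : ℝ) * X ^ 3 := by
      rw [hG]
      calc ((nm D0 : ℝ) * (a * 2)) ^ (3 / 2 : ℝ) ≤ (2 * X ^ 2) ^ (3 / 2 : ℝ) := by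
            refine Real.rpow_le_rpow (by positivity) ?_ (by norm_num)
            calc (nm D0 : ℝ) * (a * 2) ≤ X * (X * 2) := by gcongr
              _ = 2 * X ^ 2 := by ring
        _ = 2 ^ (3 / 2 : ℝ) * X ^ 3 := by
            rw [Real.mul_rpow (by norm_num) (by positivity), ← Real.rpow_natCast X 2,
              ← Real.rpow_mul hX0.le]
            norm_num
    have h2 : (X ^ 12 : ℝ) ^ (-(A + 1)) ≤ X ^ (-A) * (X ^ 10)⁻¹ := by
      have e3 : (X ^ 12 : ℝ) ^ (-(A + 1)) = X ^ (-(12 * (A + 1))) := by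
        rw [← Real.rpow_natCast X 12, ← Real.rpow_mul hX0.le]
        congr 1; push_cast; ring
      have e4 : X ^ (-A) * (X ^ 10)⁻¹ = X ^ (-A - 10) := by
        rw [Real.rpow_sub hX0, div_eq_mul_inv]
        congr 2
        exact_mod_cast (Real.rpow_natCast X 10).symm
      rw [e3, e4]
      exact Real.rpow_le_rpow_of_exponent_le hX1 (by linarith)
    rw [le_div_iff₀ hc0]
    have hXA : 0 < X ^ (-A) := Real.rpow_pos_of_pos hX0 _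
    have hGp := Gam_pos hD0.ne_zero j
    calc (nm B : ℝ) ^ 3 * (Gam D0 j * (X ^ 12 : ℝ) ^ (-(A + 1))) * nm (rd Z)
        ≤ (X ^ 2) ^ 3 * (2 ^ (3 / 2 : ℝ) * X ^ 3 * (X ^ (-A) * (X ^ 10)⁻¹)) * X := by gcongr
      _ = 2 ^ (3 / 2 : ℝ) * X ^ (-A) := by field_simp
  have hXε : 0 < X ^ ε := Real.rpow_pos_of_pos hX0 _
  calc (nm B : ℝ) ^ 3 * (Gam D0 j * ((∑ i, ‖D.κ i‖) * ((∑ i, Cb i) * X ^ ε * B' *
        (QQ K D0 B j * S' + (X ^ 12 : ℝ) ^ (-(A + 1))))))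
      = ((∑ i, ‖D.κ i‖) * (∑ i, Cb i) * X ^ ε * B') *
        ((nm B : ℝ) ^ 3 * (Gam D0 j * (QQ K D0 B j * S')) +
          (nm B : ℝ) ^ 3 * (Gam D0 j * (X ^ 12 : ℝ) ^ (-(A + 1)))) := by ring
    _ ≤ ((∑ i, ‖D.κ i‖) * (∑ i, Cb i) * X ^ ε * B') *
        (2 ^ (3 / 2 : ℝ) * (K * S) / nm (rd Z) + 2 ^ (3 / 2 : ℝ) * X ^ (-A) / nm (rd Z)) := by
        rw [e1]
        gcongr
    _ = _ := by ring

end Crest.Agent.R017.E4fe502
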