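import Crest.Agent.R017.E4apA_783
import Crest.Agent.R017.E4asm_176
import Crest.Agent.R017.E4fe3_502
import Crest.Agent.R017.E4dirF_47

/-!
# Row 17, C70/E4, application of `E4core5`, part B (helper783)

* `e4core5`, `e4dir` : unconditional
* `HL N χ l m` : functional equations of `(χ, l)`, main term at `m : Option Eis`
* `ap_class` : one character
* `Law5C` : the functional equation for all cubic characters
* `ap_all` : all characters `conj ψ (c h / ·)`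
-/

set_option autoImplicit false

noncomputable section

open Complex
open scoped ComplexConjugate

namespace Crest.Agent.R017.E4ap783

open Crest.Agent.R012 Crest.Agent.R012.Eis Crest.Agent.R012.GaussLoc283
open Crest.Agent.R012.Mob705 hiding pb mem_pb
open Crest.Agent.R012.Div277
open Crest.Agent.R017.Sx545 (Sm)
open Crest.Agent.R017.C70 Crest.Agent.R017.GrB829
open Crest.Agent.R017.E2440
open Crest.Agent.R017.A590
open Crest.Agent.R017.B770 (SW)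
open Crest.Agent.R017.C590
open Crest.Agent.R017.End699 (HC)
open Crest.Agent.R017.E4352 (PrI SSm XF Dat4 WT tws PBo PB TwC rd)
open Crest.Agent.R017.E4D164
open Crest.Agent.R017.E4v5

theorem e4dir : E4dir := E4asm176.e4dir_of dirF

theorem e4core5 : E4core5 := E4asm176.e4core5_of dirF E4fe502.feF

/-! ### one character -/

/-- main term (`none` : no pole) -/
def mtr (m : Option Eis) (u : Eis) (Q : ℝ) : ℂ :=
  match m with
  | none => 0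
  | some m => conj (PX764.rho (m * u)) * ((Q ^ (4 / 3 : ℝ) : ℝ) : ℂ)

/-- functional equations for `(χ, l)` with main term at `m` -/
def HL (N : Eis) (χ : Eis → ℂ) (l : ℤ) (m : Option Eis) : Prop :=
  ∃ (ι : Type) (_ : Fintype ι) (D : Dt3 ι), D.OK N ∧ ∀ V : ℝ → ℂ, SW V →
    ∃ mc : ℝ → ℂ, (∃ C : ℝ, 0 ≤ C ∧ ∀ τ, ‖mc τ‖ ≤ C) ∧ ∃ W : ι → ℝ → ℝ → ℂ,
      (∀ τ : ℝ, Law5 N χ l D (fun y => (y : ℂ) ^ (I * τ) * V y) (fun i => W i τ)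
        (fun u Q => mc τ * mtr m u Q)) ∧
      ∀ m₀ N₀ : ℕ, ∃ C A : ℝ, 0 ≤ C ∧ ∀ τ i, WT m₀ N₀ (C * (1 + |τ|) ^ A) (W i τ)

lemma bdd_sw {V : ℝ → ℂ} (hV : SW V) : ∃ B : ℝ, 0 ≤ B ∧ ∀ y, ‖V y‖ ≤ B := by
  obtain ⟨B, hB⟩ := hV.cpt.exists_bound_of_continuous hV.smooth.continuous
  exact ⟨B, (norm_nonneg _).trans (hB 0), hB⟩

lemma norm_tau {V : ℝ → ℂ} (hV : SW V) {B : ℝ} (hB : ∀ y, ‖V y‖ ≤ B) (τ y : ℝ) :
    ‖(y : ℂ) ^ (I * τ) * V y‖ ≤ B := by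
  have hB0 : 0 ≤ B := (norm_nonneg _).trans (hB 0)
  rcases le_or_gt y 0 with hy | hy
  · have : V y = 0 := by
      apply image_eq_zero_of_notMem_tsupport
      intro h
      exact absurd (hV.supp h) (not_lt.mpr hy)
    rw [this, mul_zero, norm_zero]
    exact hB0
  · rw [norm_mul, Complex.norm_cpow_eq_rpow_re_of_pos hy]
    have : (I * (τ : ℂ)).re = 0 := by simp
    rw [this, Real.rpow_zero, one_mul]
    exact hB y

lemma WT.mono' {m₀ N₀ : ℕ} {B B' : ℝ} {W : ℝ → ℂ} (h : WT m₀ N₀ B W) (hB : B ≤ B') :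
    WT m₀ N₀ B' W where
  smooth := h.smooth
  dec m hm y hy := (h.dec m hm y hy).trans
    (mul_le_mul_of_nonneg_right hB (le_min zero_le_one (by positivity)))

lemma HM5.cmul {M f : Eis} {O : Type} [Fintype O] {lam : O → ℝ} {v w : O → Eis → ℂ} {K T₀ : ℝ}
    {mt : Eis → ℝ → ℂ} {Mn : ℝ} (h : HM5 M f lam v w K T₀ mt Mn) (c : ℂ) {C : ℝ}
    (hc : ‖c‖ ≤ C) : HM5 M f lam v w K T₀ (fun u Q => c * mt u Q) (C * Mn) := by
  intro R Z q₁ q₃ F h1 h2 h3 h4 h5 h6 h7 h8 h9 h10 h11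
  have h0 := h R Z q₁ q₃ F h1 h2 h3 h4 h5 h6 h7 h8 h9 h10 h11
  have e : (∑ o, ∑' x : Eis, tws R (q₁ * q₃) (fun x => conj (sy x q₁)) (v o) x *
      ∑' y : Eis, tws Z (q₁ * q₃) (fun y => conj (sy y q₁)) (w o) y *
        (c * mt (F * x * y) (K / (lam o * nm (q₁ ^ 2 * q₃ ^ 3))))) =
      c * ∑ o, ∑' x : Eis, tws R (q₁ * q₃) (fun x => conj (sy x q₁)) (v o) x *
        ∑' y : Eis, tws Z (q₁ * q₃) (fun y => conj (sy y q₁)) (w o) y *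
          mt (F * x * y) (K / (lam o * nm (q₁ ^ 2 * q₃ ^ 3))) := by
    rw [Finset.mul_sum]
    refine Finset.sum_congr rfl fun o _ => ?_
    rw [← tsum_mul_left]
    refine tsum_congr fun x => ?_
    have : (∑' y : Eis, tws Z (q₁ * q₃) (fun y => conj (sy y q₁)) (w o) y *
        (c * mt (F * x * y) (K / (lam o * nm (q₁ ^ 2 * q₃ ^ 3))))) =
        c * ∑' y : Eis, tws Z (q₁ * q₃) (fun y => conj (sy y q₁)) (w o) y *
          mt (F * x * y) (K / (lam o * nm (q₁ ^ 2 * q₃ ^ 3))) := by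
      rw [← tsum_mul_left]
      exact tsum_congr fun y => by ring
    rw [this]
    ring
  beta_reduce
  rw [e, norm_mul]
  calc _ = ‖c‖ * (((nm q₁ : ℝ) ^ (5 / 2 : ℝ) * (nm q₃ : ℝ) ^ 4) * _) := by ring
    _ ≤ C * Mn := mul_le_mul hc h0 (by positivity) ((norm_nonneg _).trans hc)

/-- the dual datum: modulus and frequency -/
def TG (M : Eis) (t : Eis × ℤ) : Prop :=
  t.1 ≠ 0 ∧ M ∣ t.1 ∧ ∀ p : Eis, Prime p → p ∣ t.1 → p ∣ M

/-- the conclusion for one character; `T` dual data, `P` polar data -/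
def ApS (M : Eis) (χ : Eis → ℂ) (l : ℤ) (T : Finset (Eis × ℤ)) (P : Finset Eis) (V : ℝ → ℂ)
    (ε A C J : ℝ) : Prop :=
  ∀ (τ : ℝ) (f : Eis) (O : Type) (_ : Fintype O) (lam : O → ℝ) (v w : O → Eis → ℂ)
    (X K U T₀ : ℝ) (Bd : ℝ → ℝ → ℝ → ℝ) (S Mn : ℝ), Dat4 M f lam v w X →
    1 ≤ K → K ≤ X → 0 < U → U ≤ X → 0 ≤ T₀ → T₀ ≤ X → 0 ≤ S → 0 ≤ Mn → BdC5 Bd →
    (∀ o x y, v o x ≠ 0 → w o y ≠ 0 → (nm (f * x * y) : ℝ) * lam o ^ 2 ≤ U) →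
    (∀ t ∈ T, HP5 M f t.1 t.2 A lam v w Bd) →
    Num5 f (fun a₀ a₁ a₃ => (if a₁ * a₃ ≤ T₀ then 8 * (U / K) * (a₀ * a₁) else
      K / (a₀ ^ 2 * a₁ ^ 2 * a₃ ^ 3)) * X ^ ε) Bd S →
    (∀ m ∈ P, HM5 M f lam v w K T₀ (mtr (some m)) Mn) →
    ‖E4L M f χ l (fun y => (y : ℂ) ^ (I * τ) * V y) K lam v w‖ ≤
      C * X ^ ε * (1 + |τ|) ^ J * (K * S + X ^ (-A) + Mn)

lemma ApS.mono {M : Eis} {χ : Eis → ℂ} {l : ℤ} {T T' : Finset (Eis × ℤ)} {P P' : Finset Eis}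
    {V : ℝ → ℂ} {ε A C J C' J' : ℝ} (h : ApS M χ l T P V ε A C J) (hT : T ⊆ T') (hP : P ⊆ P')
    (hC : C ≤ C') (hC0 : 0 ≤ C) (hJ : J ≤ J') : ApS M χ l T' P' V ε A C' J' := by
  intro τ f O iO lam v w X K U T₀ Bd S Mn hD h1 h2 h3 h4 h5 h6 h7 h8 h9 h10 h11 h12 h13
  have hX1 : 1 ≤ X := hD.X1
  have h14 : (0 : ℝ) ≤ K * S + X ^ (-A) + Mn := by positivity
  have h15 : (1 + |τ|) ^ J ≤ (1 + |τ|) ^ J' :=
    Real.rpow_le_rpow_of_exponent_le (by linarith [abs_nonneg τ]) hJ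
  have h16 : (0 : ℝ) ≤ X ^ ε := by positivity
  have h17 : (0 : ℝ) ≤ (1 + |τ|) ^ J := by have := abs_nonneg τ; positivity
  refine (h τ f O iO lam v w X K U T₀ Bd S Mn hD h1 h2 h3 h4 h5 h6 h7 h8 h9 h10
    (fun t ht => h11 t (hT ht)) h12 (fun m hm => h13 m (hP hm))).trans ?_
  gcongr
  exact mul_nonneg (hC0.trans hC) h16

/-- **one character** -/
theorem ap_class {N : Eis} {χ : Eis → ℂ} {l : ℤ} {m : Option Eis} (hχ : HC N χ)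
    (hL : HL N χ l m) : ∃ t : Eis × ℤ, TG N t ∧ ∀ V : ℝ → ℂ, SW V → (∀ y, 1 < y → V y = 0) →
      ∀ ε A : ℝ, 0 < ε → 0 ≤ A → ∃ C J : ℝ, 0 ≤ C ∧ 0 ≤ J ∧
        ApS N χ l {t} m.toFinset V ε A C J := by
  obtain ⟨ι, iι, D, hD, hFE⟩ := hL
  refine ⟨(D.M', D.j), ⟨hD.ne, hD.dvd, hD.rad⟩, fun V hV hV1 ε A hε hA => ?_⟩
  obtain ⟨C, m₀, N₀, hC, H⟩ := e4core5 N χ l ι iι D hχ hD ε A hε hA
  obtain ⟨mc, ⟨Cm, hCm, hmc⟩, W, hlaw, hwt⟩ := hFE V hV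
  obtain ⟨C2, A2, hC2, hW⟩ := hwt m₀ N₀
  obtain ⟨B0, hB0, hB⟩ := bdd_sw hV
  refine ⟨C * (C2 + B0 + Cm), max A2 0, by positivity, le_max_right _ _, ?_⟩
  intro τ f O iO lam v w X K U T₀ Bd S Mn hDat h1 h2 h3 h4 h5 h6 h7 h8 h9 h10 h11 h12 h13
  set J := max A2 0 with hJ
  have ht1 : 1 ≤ 1 + |τ| := by linarith [abs_nonneg τ]
  have hJ1 : 1 ≤ (1 + |τ|) ^ J := Real.one_le_rpow ht1 (le_max_right _ _)
  have hJ2 : (1 + |τ|) ^ A2 ≤ (1 + |τ|) ^ J :=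
    Real.rpow_le_rpow_of_exponent_le ht1 (le_max_left _ _)
  set B := (C2 + B0) * (1 + |τ|) ^ J with hBdef
  have hB1 : 0 ≤ B := by positivity
  have hX1 : 1 ≤ X := hDat.X1
  have hM : HM5 N f lam v w K T₀ (fun u Q => mc τ * mtr m u Q) (Cm * Mn) := by
    rcases m with _ | m
    · intro R Z q₁ q₃ F g1 g2 g3 g4 g5 g6 g7 g8 g9 g10 g11
      have e : (∑ o, ∑' x : Eis, tws R (q₁ * q₃) (fun x => conj (sy x q₁)) (v o) x *
          ∑' y : Eis, tws Z (q₁ * q₃) (fun y => conj (sy y q₁)) (w o) y *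
            (mc τ * mtr none (F * x * y) (K / (lam o * nm (q₁ ^ 2 * q₃ ^ 3))))) = 0 := by
        simp [mtr]
      beta_reduce
      rw [e, norm_zero, mul_zero]
      positivity
    · exact HM5.cmul (h13 m (by simp)) (mc τ) (hmc τ)
  have h0 := H (fun y => (y : ℂ) ^ (I * τ) * V y) (fun i => W i τ) (fun u Q => mc τ * mtr m u Q)
    B hB1 (hlaw τ) (fun i => WT.mono' (hW τ i) ?_) (fun y => ?_) (fun y hy => ?_) f O iO lam v w
    X K U T₀ Bd S (Cm * Mn) hDat h1 h2 h3 h4 h5 h6 h7 (by positivity) h9 h10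
    (h11 (D.M', D.j) (by simp)) h12 hM
  · refine h0.trans ?_
    have h14 : (0 : ℝ) ≤ X ^ ε := by positivity
    have h15 : (0 : ℝ) ≤ X ^ (-A) := by positivity
    have h16 : 0 ≤ K * S := by positivity
    have hJ0 : 0 ≤ (1 + |τ|) ^ J := by positivity
    have e1 : Cm * Mn ≤ Cm * Mn * (1 + |τ|) ^ J := le_mul_of_one_le_right (by positivity) hJ1
    have e2 : B * (K * S + X ^ (-A)) + Cm * Mn ≤
        (C2 + B0 + Cm) * (1 + |τ|) ^ J * (K * S + X ^ (-A) + Mn) := by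
      rw [hBdef]
      nlinarith [mul_nonneg (mul_nonneg (add_nonneg hC2 hB0) hJ0) h8,
        mul_nonneg (mul_nonneg hCm hJ0) (add_nonneg h16 h15)]
    calc C * X ^ ε * (B * (K * S + X ^ (-A)) + Cm * Mn)
        ≤ C * X ^ ε * ((C2 + B0 + Cm) * (1 + |τ|) ^ J * (K * S + X ^ (-A) + Mn)) :=
          mul_le_mul_of_nonneg_left e2 (by positivity)
      _ = _ := by ring
  · rw [hBdef]
    calc C2 * (1 + |τ|) ^ A2 ≤ C2 * (1 + |τ|) ^ J := by gcongr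
      _ ≤ _ := by gcongr; linarith
  · refine (norm_tau hV hB τ y).trans ?_
    rw [hBdef]
    calc B0 = B0 * 1 := (mul_one _).symm
      _ ≤ (C2 + B0) * (1 + |τ|) ^ J := mul_le_mul (by linarith) hJ1 zero_le_one (by positivity)
  · rw [hV1 y hy, mul_zero]

/-! ### the classes -/

/-- **the functional equation for all cubic characters** -/
def Law5C : Prop :=
  ∀ {M : Eis}, M ≠ 0 → (9 : Eis) ∣ M → ∀ {σ h : Eis}, IsC σ → PrI M h → ∀ {ψ : Eis → ℂ},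
    (∀ b, Sm M b → ψ b = sy (σ * h) b) →
    ∃ (ι : Type) (_ : Fintype ι) (D : Dt3 ι), D.OK M ∧ ∀ V : ℝ → ℂ, SW V →
      ∃ mc : ℝ → ℂ, (∀ A : ℕ, ∃ C : ℝ, 0 ≤ C ∧ ∀ τ, ‖mc τ‖ ≤ C * ((1 + |τ|) ^ A)⁻¹) ∧
        ∃ W : ι → ℝ → ℝ → ℂ,
          (∀ τ : ℝ, Law5 M ψ 0 D (fun y => (y : ℂ) ^ (I * τ) * V y) (fun i => W i τ)
            (fun u Q => mc τ * conj (PX764.rho (σ * h * u)) * ((Q ^ (4 / 3 : ℝ) : ℝ) : ℂ))) ∧
          ∀ m₁ N₀ : ℕ, ∃ C A : ℝ, 0 ≤ C ∧ ∀ τ i, WT m₁ N₀ (C * (1 + |τ|) ^ A) (W i τ)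

/-- the class of the data -/
def Cs (M : Eis) (ψ : Eis → ℂ) (l : ℤ) : Prop :=
  l ≠ 0 ∨ ∃ m₀, PrI M m₀ ∧ ∀ b, Sm M b → conj (ψ b) = sy m₀ b

/-- the polar data -/
def PG (M : Eis) (l : ℤ) (m : Eis) : Prop := l = 0 ∧ ∃ σ h, IsC σ ∧ PrI M h ∧ m = σ * h

lemma pri_mul {M a b : Eis} (ha : PrI M a) (hb : PrI M b) : PrI M (a * b) :=
  ⟨ha.1.mul hb.1, fun p hp hd => (hp.dvd_or_dvd hd).elim (ha.2 p hp) (hb.2 p hp)⟩

theorem hl_chr (hC : Law5C) {N : Eis} (h27 : (27 : Eis) ∣ N) {ψ : Eis → ℂ} (hψ : HC N ψ) {l : ℤ}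
    (hcs : Cs N ψ l) {c h : Eis} (hc : IsC c) (hh : PrI N h) :
    ∃ m : Option Eis, (∀ x ∈ m.toFinset, PG N l x) ∧ HL N (chr N ψ c h) (-l) m := by
  have h9 : (9 : Eis) ∣ N := Dvd.dvd.trans ⟨3, by norm_num⟩ h27
  have hχ := hc_chr h27 hψ hc hh
  by_cases hl : l = 0
  · subst hl
    obtain ⟨m₀, hm₀, hm⟩ : ∃ m₀, PrI N m₀ ∧ ∀ b, Sm N b → conj (ψ b) = sy m₀ b := by
      rcases hcs with h0 | h0
      · exact absurd rfl h0
      · exact h0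
    refine ⟨some (c * (m₀ * h)), fun x hx => ?_, ?_⟩
    · rw [Option.mem_toFinset, Option.mem_some_iff] at hx
      exact ⟨rfl, c, m₀ * h, hc, pri_mul hm₀ hh, hx.symm⟩
    · obtain ⟨ι, iι, D, hD, H⟩ := hC hψ.q0 h9 hc (pri_mul hm₀ hh) (ψ := chr N ψ c h) fun b hb => by
        rw [chr_of hb, hm b hb, syAx.mul_left _ _ _ hb.1, syAx.mul_left _ _ _ hb.1]
        ring
      rw [neg_zero]
      refine ⟨ι, iι, D, hD, fun V hV => ?_⟩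
      obtain ⟨mc, hmc, W, hlaw, hwt⟩ := H V hV
      obtain ⟨C, hC0, hC1⟩ := hmc 0
      refine ⟨mc, ⟨C, hC0, fun τ => by simpa using hC1 τ⟩, W, fun τ => ?_, hwt⟩
      intro u hu Q hQ
      rw [hlaw τ u hu Q hQ]
      simp only [mtr]
      ring
  · refine ⟨none, fun x hx => by simp at hx, ?_⟩
    obtain ⟨ι, iι, D, hD, H⟩ := E4L266.law5_R h9 hχ (l := -l) (Or.inl (neg_ne_zero.mpr hl))
    refine ⟨ι, iι, D, hD, fun V hV => ?_⟩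
    obtain ⟨W, hlaw, hwt⟩ := H V hV
    refine ⟨fun _ => 0, ⟨0, le_rfl, fun τ => by simp⟩, W, fun τ => ?_, hwt⟩
    intro u hu Q hQ
    rw [hlaw τ u hu Q hQ]
    simp only [mtr]
    ring

end Crest.Agent.R017.E4ap783
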