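import Crest.Agent.R017.E4apB_783

/-!
# Row 17, C70/E4, application of `E4core5`, part C (helper783)

* `ap_all` : `‖E4L‖` for all characters `χ = conj ψ (c h / ·)` on `Sm M`, hypotheses `HP5`, `Num5`, `HM5`
* `ap_dir` : the same without functional equation
-/

set_option autoImplicit false

noncomputable section

open Complex
open scoped ComplexConjugate

namespace Crest.Agent.R017.E4ap783

open Crest.Agent.R012 Crest.Agent.R012.Eis Crest.Agent.R012.GaussLoc283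
open Crest.Agent.R012.Mob705 hiding pb mem_pb
open Crest.Agent.R012.Div277
open Crest.Agent.R017.Sx545 (Sm)
open Crest.Agent.R017.C70 Crest.Agent.R017.GrB829
open Crest.Agent.R017.E2440
open Crest.Agent.R017.A590
open Crest.Agent.R017.B770 (SW)
open Crest.Agent.R017.C590
open Crest.Agent.R017.End699 (HC)
open Crest.Agent.R017.E4352 (PrI SSm XF Dat4 WT tws PBo PB TwC rd)
open Crest.Agent.R017.E4D164
open Crest.Agent.R017.E4v5

/-! ### change of the modulus -/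

section modulus

variable {M f : Eis} {O : Type} [Fintype O] {lam : O → ℝ} {v w : O → Eis → ℂ}

lemma sm_sub {M a b : Eis} (h : Sm (M * a) b) : Sm M b := ⟨h.1, h.2.of_mul_right_left⟩

lemma E4L_eq (h3 : (3 : Eis) ∣ M) {χ χ' : Eis → ℂ} (hχ : ∀ b, Sm M b → χ b = χ' b) (l : ℤ)
    (V : ℝ → ℂ) (K : ℝ) : E4L M f χ l V K lam v w = E4L (27 * M) f χ' l V K lam v w := by
  unfold E4L
  refine Finset.sum_congr rfl fun o _ => tsum_congr fun x => ?_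
  congr 1
  refine tsum_congr fun y => ?_
  congr 1
  have e : Sm (27 * M * (f * y)) = Sm (M * (f * y)) := by
    rw [mul_assoc]
    exact sm_27 (h3.mul_right _)
  have e2 : NT (27 * M * (f * y)) (f * x * y) (fun k => End699.tw χ' l k * V (nm k * lam o / K)) =
      NT (M * (f * y)) (f * x * y) (fun k => End699.tw χ' l k * V (nm k * lam o / K)) := by
    unfold NT DS
    rw [e]
  rw [e2]
  refine C590.NT_congr (fun k hk => ?_) _
  have : End699.tw χ l k = End699.tw χ' l k := by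
    unfold End699.tw
    rw [hχ k (sm_sub hk)]
  rw [this]

lemma dat_27 (h3 : (3 : Eis) ∣ M) {X : ℝ} (h : Dat4 M f lam v w X) : Dat4 (27 * M) f lam v w X :=
  { X1 := h.X1
    card := h.card
    lam1 := h.lam1
    hf := by rw [sm_27 h3]; exact h.hf
    hv := fun o => ⟨(h.hv o).fin, by rw [sm_27 h3]; exact (h.hv o).sm⟩
    hw := fun o => ⟨(h.hw o).fin, by rw [sm_27 h3]; exact (h.hw o).sm⟩
    vx := h.vx
    wy := h.wy
    vb := h.vb
    wb := h.wb }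

lemma hp_27 (h3 : (3 : Eis) ∣ M) {M' : Eis} {j : ℤ} {A : ℝ} {Bd : ℝ → ℝ → ℝ → ℝ}
    (h : HP5 M f M' j A lam v w Bd) : HP5 (27 * M) f M' j A lam v w Bd := by
  have e := sm_27 h3
  intro q R Z g ξ κ a 𝒟 h1 h2 h3' h4 h5 h6 h7 h8
  unfold DSet at h8
  rw [e] at h1
  rw [e] at h8
  have := h q R Z g ξ κ a 𝒟 h1 h2 h3' h4 h5 h6 h7 h8
  unfold PBo PB at this ⊢
  rw [e]
  exact this

lemma hm_27 (h3 : (3 : Eis) ∣ M) {K T₀ : ℝ} {mt : Eis → ℝ → ℂ} {Mn : ℝ}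
    (h : HM5 M f lam v w K T₀ mt Mn) : HM5 (27 * M) f lam v w K T₀ mt Mn := by
  have e := sm_27 h3
  unfold HM5 at h ⊢
  rw [e]
  exact h

end modulus

lemma cs_27 {M : Eis} (h3 : (3 : Eis) ∣ M) {ψ : Eis → ℂ} {l : ℤ} (h : Cs M ψ l) :
    Cs (27 * M) ψ l := by
  rcases h with h | ⟨m₀, h1, h2⟩
  · exact Or.inl h
  · exact Or.inr ⟨m₀, pri_27 h1, fun b hb => h2 b (by rwa [sm_27 h3] at hb)⟩

lemma prime_27 {M p : Eis} (h3 : (3 : Eis) ∣ M) (hp : Prime p) (hd : p ∣ 27 * M) : p ∣ M := by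
  rcases hp.dvd_or_dvd hd with h | h
  · rw [show (27 : Eis) = 3 ^ 3 by norm_num] at h
    exact (hp.dvd_of_dvd_pow h).trans h3
  · exact h

lemma tg_27 {M : Eis} (h3 : (3 : Eis) ∣ M) {t : Eis × ℤ} (h : TG (27 * M) t) : TG M t :=
  ⟨h.1, (dvd_mul_left _ _).trans h.2.1, fun p hp hd => prime_27 h3 hp (h.2.2 p hp hd)⟩

lemma pri_of_27 {M h : Eis} (h3 : (3 : Eis) ∣ M) (hh : PrI (27 * M) h) : PrI M h :=
  ⟨hh.1, fun p hp hd => prime_27 h3 hp (hh.2 p hp hd)⟩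

lemma pg_27 {M : Eis} (h3 : (3 : Eis) ∣ M) {l : ℤ} {m : Eis} (h : PG (27 * M) l m) : PG M l m := by
  obtain ⟨h1, σ, g, h2, h4, h5⟩ := h
  exact ⟨h1, σ, g, h2, pri_of_27 h3 h4, h5⟩

/-- **the application** : all characters `χ = conj ψ (c h / ·)`; `T` finitely many dual data, `P`
finitely many polar data (empty if `l ≠ 0`) -/
theorem ap_all (hC : Law5C) {M : Eis} {ψ : Eis → ℂ} (hψ : HC M ψ) {l : ℤ} (hcs : Cs M ψ l) :
    ∃ (T : Finset (Eis × ℤ)) (P : Finset Eis), (∀ t ∈ T, TG M t) ∧ (∀ m ∈ P, PG M l m) ∧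
      ∀ V : ℝ → ℂ, SW V → (∀ y, 1 < y → V y = 0) → ∀ ε A : ℝ, 0 < ε → 0 ≤ A →
        ∃ C J : ℝ, 0 ≤ C ∧ 0 ≤ J ∧ ∀ (χ : Eis → ℂ) (c h : Eis), IsC c → PrI M h →
          (∀ b, Sm M b → χ b = conj (ψ b) * (sy c b * sy h b)) → ApS M χ (-l) T P V ε A C J := by
  classical
  have h3 := hψ.three
  set N : Eis := 27 * M with hN
  have hψN : HC N ψ := hc_27 hψ
  have h27 : (27 : Eis) ∣ N := dvd_mul_right _ _
  have hcsN : Cs N ψ l := cs_27 h3 hcs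
  set S : Finset (Eis × Eis) := C4 ×ˢ RC M with hS
  have hSm : ∀ q ∈ S, IsC q.1 ∧ PrI M q.2 := fun q hq => by
    rw [hS, Finset.mem_product] at hq
    exact ⟨mem_C4.mp hq.1, (mem_RC.mp hq.2).2⟩
  have key : ∀ q ∈ S, ∃ (t : Eis × ℤ) (m : Option Eis), TG N t ∧ (∀ x ∈ m.toFinset, PG N l x) ∧
      ∀ V : ℝ → ℂ, SW V → (∀ y, 1 < y → V y = 0) → ∀ ε A : ℝ, 0 < ε → 0 ≤ A →
        ∃ C J : ℝ, 0 ≤ C ∧ 0 ≤ J ∧ ApS N (chr N ψ q.1 q.2) (-l) {t} m.toFinset V ε A C J := by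
    intro q hq
    obtain ⟨h1, h2⟩ := hSm q hq
    obtain ⟨m, hm, hL⟩ := hl_chr hC h27 hψN hcsN h1 (pri_27 h2)
    obtain ⟨t, ht, H⟩ := ap_class (hc_chr h27 hψN h1 (pri_27 h2)) hL
    exact ⟨t, m, ht, hm, H⟩
  choose! t m ht hm H using key
  refine ⟨S.image t, S.biUnion (fun q => (m q).toFinset), fun x hx => ?_, fun x hx => ?_,
    fun V hV hV1 ε A hε hA => ?_⟩
  · obtain ⟨q, hq, rfl⟩ := Finset.mem_image.mp hx
    exact tg_27 h3 (ht q hq)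
  · obtain ⟨q, hq, h1⟩ := Finset.mem_biUnion.mp hx
    exact pg_27 h3 (hm q hq x h1)
  · have key2 : ∀ q ∈ S, ∃ C J : ℝ, 0 ≤ C ∧ 0 ≤ J ∧
        ApS N (chr N ψ q.1 q.2) (-l) {t q} (m q).toFinset V ε A C J := fun q hq =>
      H q hq V hV hV1 ε A hε hA
    choose! C J hC0 hJ0 HA using key2
    refine ⟨∑ q ∈ S, C q, ∑ q ∈ S, J q, Finset.sum_nonneg hC0, Finset.sum_nonneg hJ0, ?_⟩
    intro χ c h hc hh hχ
    obtain ⟨h', hh', hred⟩ := exists_RC hψ.q0 hh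
    have hq : (c, h') ∈ S := by
      rw [hS, Finset.mem_product]
      exact ⟨mem_C4.mpr hc, hh'⟩
    have h1 := (HA (c, h') hq).mono (T' := S.image t) (P' := S.biUnion fun q => (m q).toFinset)
      (C' := ∑ q ∈ S, C q) (J' := ∑ q ∈ S, J q)
      (Finset.singleton_subset_iff.mpr (Finset.mem_image_of_mem _ hq))
      (Finset.subset_biUnion_of_mem (fun q => (m q).toFinset) hq)
      (Finset.single_le_sum hC0 hq) (hC0 _ hq) (Finset.single_le_sum hJ0 hq)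
    have hχ' : ∀ b, Sm M b → χ b = chr N ψ c h' b := by
      intro b hb
      have hb' : Sm N b := by rw [hN, sm_27 h3]; exact hb
      rw [hχ b hb, chr_of hb', hred b hb]
    intro τ f O iO lam v w X K U T₀ Bd Sx Mn hD g1 g2 g3 g4 g5 g6 g7 g8 g9 g10 g11 g12 g13
    rw [E4L_eq h3 hχ']
    exact h1 τ f O iO lam v w X K U T₀ Bd Sx Mn (dat_27 h3 hD) g1 g2 g3 g4 g5 g6 g7 g8 g9 g10
      (fun t ht => hp_27 h3 (g11 t ht)) g12 (fun m hm => hm_27 h3 (g13 m hm))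

/-- the character of 164's dictionary -/
lemma psd_eq {M E c g z : Eis} {ψ : Eis → ℂ} (hM : M ≠ 0) (hE : IsPrim E) (hg : PrI M g)
    (hz : PrI M z) : PrI M (fM M E * g * z) ∧ ∀ b, Sm M b →
      psd (psE M ψ E) (c * g * z) b = conj (ψ b) * (sy c b * sy (fM M E * g * z) b) := by
  obtain ⟨h1, -, -⟩ := fM_spec hM hE
  refine ⟨pri_mul (pri_mul h1 hg) hz, fun b hb => ?_⟩
  unfold psd psE
  rw [map_mul, Complex.conj_conj, syAx.mul_left _ _ _ hb.1, syAx.mul_left _ _ _ hb.1,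
    syAx.mul_left _ _ _ hb.1, syAx.mul_left _ _ _ hb.1, ← syAx.recip (fM M E) b h1.1 hb.1]
  ring

/-- **the application, in the form of the dictionary** -/
theorem ap_dict (hC : Law5C) {M : Eis} {ψ : Eis → ℂ} (hψ : HC M ψ) {l : ℤ} (hcs : Cs M ψ l) :
    ∃ (T : Finset (Eis × ℤ)) (P : Finset Eis), (∀ t ∈ T, TG M t) ∧ (∀ m ∈ P, PG M l m) ∧
      ∀ V : ℝ → ℂ, SW V → (∀ y, 1 < y → V y = 0) → ∀ ε A : ℝ, 0 < ε → 0 ≤ A →
        ∃ C J : ℝ, 0 ≤ C ∧ 0 ≤ J ∧ ∀ E c₀ g z : Eis, IsPrim E → IsC c₀ → PrI M g → PrI M z →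
          ApS M (psd (psE M ψ E) (c₀ * g * z)) (-l) T P V ε A C J := by
  obtain ⟨T, P, h1, h2, H⟩ := ap_all hC hψ hcs
  refine ⟨T, P, h1, h2, fun V hV hV1 ε A hε hA => ?_⟩
  obtain ⟨C, J, hC0, hJ0, H1⟩ := H V hV hV1 ε A hε hA
  refine ⟨C, J, hC0, hJ0, fun E c₀ g z hE hc hg hz => ?_⟩
  obtain ⟨h3, h4⟩ := psd_eq (c := c₀) (ψ := ψ) hψ.q0 hE hg hz
  exact H1 _ c₀ _ hc h3 h4

/-! ### the direct version -/

/-- **no functional equation** : any character -/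
theorem ap_dir (ε : ℝ) (hε : 0 < ε) : ∃ C : ℝ, 0 ≤ C ∧
    ∀ (M : Eis) (χ : Eis → ℂ) (l : ℤ) (V : ℝ → ℂ) (B : ℝ), (∀ b, IsPrim b → ‖χ b‖ ≤ 1) →
      (∀ y, ‖V y‖ ≤ B) → (∀ y, 1 < y → V y = 0) →
    ∀ (f : Eis) (O : Type) (_ : Fintype O) (lam : O → ℝ) (v w : O → Eis → ℂ) (X K : ℝ)
      (Bd : ℝ → ℝ → ℝ → ℝ) (S : ℝ), Dat4 M f lam v w X → 1 ≤ K → K ≤ X → 0 ≤ S → BdC5 Bd →
      HPd M f lam v w Bd →
      Num5 f (fun a₀ a₁ a₃ => K / (a₀ ^ 2 * a₁ ^ 2 * a₃ ^ 3)) Bd S →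
      ‖E4L M f χ l V K lam v w‖ ≤ C * X ^ ε * (B * (K * S)) := by
  obtain ⟨C, hC, H⟩ := e4dir ε hε
  refine ⟨C, hC, ?_⟩
  intro M χ l V B hχ hB hV f O iO lam v w X K Bd S hD h1 h2 h3 h4 h5 h6
  have hB0 : 0 ≤ B := (norm_nonneg _).trans (hB 0)
  refine H M f O iO lam v w X K B (fun o k => End699.tw χ l k * V (nm k * lam o / K)) Bd S hD h1 h2
    hB0 h3 h4 (fun o k hk => ?_) (fun o k hk => ?_) h5 h6
  · rw [norm_mul]
    have e1 : ‖End699.tw χ l k‖ ≤ 1 := by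
      unfold End699.tw
      rw [norm_mul]
      have hk0 := hk.1.ne_zero
      have h7 : ‖ang l k‖ ≤ 1 := by
        rcases PSer47.ang_isChar l with ⟨-, -, h8⟩
        rcases h8 k hk.1 with h9 | h9
        · rw [h9, norm_zero]; exact zero_le_one
        · rw [h9]
      exact mul_le_one₀ (hχ k hk.1) (norm_nonneg _) h7
    calc _ ≤ 1 * B := mul_le_mul e1 (hB _) (norm_nonneg _) zero_le_one
      _ = B := one_mul B
  · have hl := (hD.lam1 o).1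
    have hK : 0 < K := by linarith
    have : 1 < (nm k : ℝ) * lam o / K := by
      rw [one_lt_div hK]
      rwa [div_lt_iff₀ (by linarith)] at hk
    rw [hV _ this, mul_zero]

end Crest.Agent.R017.E4ap783
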