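import Crest.Agent.R017.E4aq_783
import Crest.Agent.R017.E4v7d_352

/-!
# Row 17, C70/E4, application of `e4core7`, unconditional (helper783)
-/

set_option autoImplicit false

noncomputable section

open Complex
open scoped ComplexConjugate

namespace Crest.Agent.R017.E4ap783

open Crest.Agent.R012 Crest.Agent.R012.Eis Crest.Agent.R012.GaussLoc283
open Crest.Agent.R012.Div277
open Crest.Agent.R017.Sx545 (Sm)
open Crest.Agent.R017.C70 Crest.Agent.R017.GrB829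
open Crest.Agent.R017.B770 (SW)
open Crest.Agent.R017.End699 (HC)
open Crest.Agent.R017.E4352 (PrI Dat4)
open Crest.Agent.R017.E4D164
open Crest.Agent.R017.E4J352 (Tm JB rngD)

/-- **all characters `conj ψ (c h / ·)`** -/
theorem ap7_all' {M : Eis} {ψ : Eis → ℂ} (hψ : HC M ψ) {l : ℤ} (hcs : Cs M ψ l) :
    ∃ (T : Finset ((Eis → ℂ) × ℤ)) (P : Finset Eis), (∀ t ∈ T, TG7 M (-l) t) ∧
      (∀ m ∈ P, PG M l m) ∧
      ∀ V : ℝ → ℂ, SW V → (∀ y, 1 < y → V y = 0) → ∀ ε A : ℝ, 0 < ε → 0 ≤ A →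
        ∃ C J : ℝ, 0 ≤ C ∧ 0 ≤ J ∧ ∀ (χ : Eis → ℂ) (c h : Eis), IsC c → PrI M h →
          (∀ b, Sm M b → χ b = conj (ψ b) * (sy c b * sy h b)) → Ap7 M χ (-l) T P V ε A C J :=
  ap7_all E4J352.e4core7 hψ hcs

/-- **the form of the dictionary** -/
theorem ap7_dict' {M : Eis} {ψ : Eis → ℂ} (hψ : HC M ψ) {l : ℤ} (hcs : Cs M ψ l) :
    ∃ (T : Finset ((Eis → ℂ) × ℤ)) (P : Finset Eis), (∀ t ∈ T, TG7 M (-l) t) ∧
      (∀ m ∈ P, PG M l m) ∧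
      ∀ V : ℝ → ℂ, SW V → (∀ y, 1 < y → V y = 0) → ∀ ε A : ℝ, 0 < ε → 0 ≤ A →
        ∃ C J : ℝ, 0 ≤ C ∧ 0 ≤ J ∧ ∀ E c₀ g z : Eis, IsPrim E → IsC c₀ → PrI M g → PrI M z →
          Ap7 M (psd (psE M ψ E) (c₀ * g * z)) (-l) T P V ε A C J :=
  ap7_dict E4J352.e4core7 hψ hcs

/-- **no functional equation** -/
theorem ap7_dir' (ε : ℝ) (hε : 0 < ε) : ∃ C : ℝ, 0 ≤ C ∧
    ∀ (M : Eis) (χ : Eis → ℂ) (l : ℤ) (V : ℝ → ℂ) (B : ℝ), (∀ b, IsPrim b → ‖χ b‖ ≤ 1) →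
      (∀ y, ‖V y‖ ≤ B) → (∀ y, 1 < y → V y = 0) →
    ∀ (f : Eis) (O : Type) (_ : Fintype O) (lam : O → ℝ) (v w : O → Eis → ℂ) (X K : ℝ)
      (S : ℝ), Dat4 M f lam v w X → 1 ≤ K → K ≤ X → 0 ≤ S →
      JB M f lam v w (fun _ => 1) (rngD (fun _ _ _ _ _ => False) lam K) S →
      ‖E4L M f χ l V K lam v w‖ ≤ C * X ^ ε * (B * (K * S)) :=
  ap7_dir E4J352.e4dir7 ε hε

end Crest.Agent.R017.E4ap783
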