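import Crest.Agent.R017.E4a_352

/-!
# Row 17, C70/E4: composition of the twists in the block hypothesis (helper352)
-/

set_option autoImplicit false

noncomputable section

open Complex
open scoped ComplexConjugate

namespace Crest.Agent.R017.E4352

open Crest.Agent.R012 Crest.Agent.R012.Eis Crest.Agent.R012.Mob705 Crest.Agent.R012.Gauss880
open Crest.Agent.R012.GaussLoc283
open Crest.Agent.R012.Div277
open Crest.Agent.R017.Sx545 Crest.Agent.R017.CM106 Crest.Agent.R017.C70 Crest.Agent.R017.C590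
open Crest.Agent.R017.B770 Crest.Agent.R017.E2440 Crest.Agent.R017.End699
open Crest.Agent.R017.E4579 (bpt bco SupB)

/-! ### the principal character -/

open Classical in
/-- principal character -/
def prc (q : Eis) (b : Eis) : ℂ := if IsCoprime b q then 1 else 0

lemma prc_HC {q : Eis} (hq : q ≠ 0) (h3 : (3 : Eis) ∣ q) : HC q (prc q) where
  q0 := hq
  three := h3
  char :=
    { one := by unfold prc; rw [if_pos isCoprime_one_left]
      mul := by
        intro a b _ _
        unfold prc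
        by_cases ha : IsCoprime a q
        · by_cases hb : IsCoprime b q
          · rw [if_pos ha, if_pos hb, if_pos (ha.mul_left hb), mul_one]
          · rw [if_pos ha, if_neg hb, if_neg (fun h => hb h.of_mul_left_right), mul_zero]
        · rw [if_neg ha, if_neg (fun h => ha h.of_mul_left_left), zero_mul]
      norm := by
        intro a _
        unfold prc
        split_ifs
        · right; exact norm_one
        · left; rfl }
  per := by
    intro a b _ _ h
    obtain ⟨c, hc⟩ := h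
    have e : a = b + q * c := by rw [← hc]; ring
    have h1 : IsCoprime a q ↔ IsCoprime b q := by
      rw [e]
      exact IsCoprime.add_mul_left_left_iff
    unfold prc
    by_cases h2 : IsCoprime b q
    · rw [if_pos h2, if_pos (h1.mpr h2)]
    · rw [if_neg h2, if_neg (fun h3 => h2 (h1.mp h3))]
  van := by
    intro a _ h
    unfold prc
    rw [if_neg h]

/-! ### blocks -/

variable {M : Eis} {t R b R' Z Z' : Eis} {g₀ g v w : Eis → ℂ}

lemma Sd_smul (a : ℂ) (c : Eis → ℂ) (d : Eis) : Sd (fun x => a * c x) d = a * Sd c d := by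
  unfold Sd
  rw [← tsum_mul_left]
  exact tsum_congr fun x => by ring

lemma CS_smul' (a : ℂ) (c : Eis → ℂ) (d : Eis) : CS (fun x => a * c x) d = a * CS c d := by
  unfold CS
  rw [← tsum_mul_left]
  exact tsum_congr fun x => by ring

lemma Sd_zero (d : Eis) : Sd (fun _ => 0) d = 0 := by
  unfold Sd; simp

lemma CS_zero' (d : Eis) : CS (fun _ => 0) d = 0 := by
  unfold CS; simp

lemma PB_nonneg (M q R Z : Eis) (g v w : Eis → ℂ) (κ : ℝ) : 0 ≤ PB M q R Z g v w κ := by
  unfold PB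
  exact Finset.sum_nonneg fun d _ => by positivity

lemma PBo_nonneg (M : Eis) {O : Type} [Fintype O] {lam : O → ℝ} (hl : ∀ o, 1 ≤ lam o)
    (q R Z : Eis) (g : Eis → ℂ) (v w : O → Eis → ℂ) (κ : ℝ) : 0 ≤ PBo M lam q R Z g v w κ := by
  unfold PBo
  refine Finset.sum_nonneg fun o _ => mul_nonneg (Real.rpow_nonneg ?_ _) (PB_nonneg _ _ _ _ _ _ _ _)
  linarith [hl o]

lemma PB_congr {q : Eis} {g g' : Eis → ℂ} (h1 : ∀ y, v (R * y) ≠ 0 → g y = g' y)
    (h2 : ∀ y, w (Z * y) ≠ 0 → g y = g' y) (κ : ℝ) :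
    PB M q R Z g v w κ = PB M q R Z g' v w κ := by
  have e1 : tws R q g v = tws R q g' v := by
    funext y
    unfold tws
    by_cases h : v (R * y) = 0
    · rw [h]; simp
    · rw [h1 y h]
  have e2 : tws Z q g w = tws Z q g' w := by
    funext y
    unfold tws
    by_cases h : w (Z * y) = 0
    · rw [h]; simp
    · rw [h2 y h]
  unfold PB
  rw [e1, e2]

lemma PB_comp (hg : ∀ x y, g₀ (x * y) = g₀ x * g₀ y) (hn : ∀ x, ‖g₀ x‖ ≤ 1)
    (h1 : IsCoprime R' t) (h2 : IsCoprime Z' t) (κ : ℝ) :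
    PB M b R' Z' g (tws R t g₀ v) (tws Z t g₀ w) κ ≤
      PB M (t * b) (R * R') (Z * Z') (fun y => g y * g₀ y) v w κ := by
  have e1 : tws R' b g (tws R t g₀ v) =
      fun x => g₀ R' * tws (R * R') (t * b) (fun y => g y * g₀ y) v x :=
    funext fun x => tws_tws hg h1 x
  have e2 : tws Z' b g (tws Z t g₀ w) =
      fun x => g₀ Z' * tws (Z * Z') (t * b) (fun y => g y * g₀ y) w x :=
    funext fun x => tws_tws hg h2 x
  unfold PB
  rw [e1, e2]
  refine Finset.sum_le_sum fun d _ => ?_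
  rw [Sd_smul, CS_smul', norm_mul, norm_mul]
  have a1 := hn R'
  have a2 := hn Z'
  gcongr
  · exact mul_le_of_le_one_left (norm_nonneg _) a1
  · exact mul_le_of_le_one_left (norm_nonneg _) a2

lemma PB_comp_zero (h : ¬ (IsCoprime R' t ∧ IsCoprime Z' t)) (κ : ℝ) :
    PB M b R' Z' g (tws R t g₀ v) (tws Z t g₀ w) κ = 0 := by
  unfold PB
  refine Finset.sum_eq_zero fun d _ => ?_
  by_cases h1 : IsCoprime R' t
  · have h2 : ¬ IsCoprime Z' t := fun h' => h ⟨h1, h'⟩
    have e : tws Z' b g (tws Z t g₀ w) = fun _ => 0 := funext fun x => tws_tws_zero h2 x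
    rw [e, CS_zero', norm_zero, mul_zero]
  · have e : tws R' b g (tws R t g₀ v) = fun _ => 0 := funext fun x => tws_tws_zero h1 x
    rw [e, Sd_zero, norm_zero, mul_zero, zero_mul]

/-- the twist of the opening -/
def cj (D : Eis) (x : Eis) : ℂ := conj (sy x D)

lemma cj_mul {D : Eis} (hD : IsPrim D) (x y : Eis) : cj D (x * y) = cj D x * cj D y := by
  unfold cj
  rw [syAx.mul_left x y D hD, map_mul]

lemma cj_le {D : Eis} (hD : IsPrim D) (x : Eis) : ‖cj D x‖ ≤ 1 := by
  unfold cj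
  rw [RCLike.norm_conj]
  exact norm_sy_le' hD

lemma TwC_comp {M' : Eis} {J : ℤ} {ξ : ℝ} {D : Eis} (hD : IsPrim D) (hDt : D ∣ t)
    (h : TwC M' J b ξ g) : TwC M' J (t * b) ξ (fun y => g y * cj D y) := by
  obtain ⟨q₁, q₂, η, j, h1, h2, h3, h4, h5, h6⟩ := h
  refine ⟨q₁, q₂ * D, η, j, h1, h2.mul hD, ?_, h4, h5, ?_⟩
  · intro p hp hpd
    have h7 : p ∣ (q₁ * q₂) * D := by rwa [mul_assoc]
    rcases hp.dvd_or_dvd h7 with h | h
    · exact (h3 p hp h).mul_left _
    · exact (h.trans hDt).mul_right _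
  · intro y
    show g y * cj D y = _
    rw [h6 y, syAx.mul_right y q₂ D h2 hD, map_mul]
    unfold cj
    ring

lemma cop_of_PrI {t Z Z' : Eis} (hZ : PrI t Z) (h : IsCoprime Z' t) : IsCoprime Z Z' :=
  SupB.cop hZ.1 hZ.2 h

variable {f F D : Eis} {O : Type} [Fintype O] {lam : O → ℝ} {vv ww : O → Eis → ℂ} {M' : Eis}
  {J : ℤ} {A : ℝ} {Bd : ℝ → ℝ → ℝ}

/-- composition of the block hypothesis -/
lemma HP_comp (hl : ∀ o, 1 ≤ lam o) (hBd : BdC Bd) (hD : IsPrim D) (hDt : D ∣ t) (ht : Sm M t)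
    (hR : PrI t R) (hZ : PrI t Z) (htf : ∀ p : Eis, Prime p → p ∣ t → p ∣ f * Z)
    (hF : F ∣ f * R * Z)
    (HP : ∀ q R Z g ξ κ, Sm M q → PrI q R → PrI q Z →
        (∀ p : Eis, Prime p → p ∣ q → p ∣ f * R * Z) → TwC M' J q ξ g → 0 < κ →
        PBo M lam q R Z g vv ww κ ≤ (1 + |ξ|) ^ A * Bd κ (nm (rd Z)))
    (b R' Z' : Eis) (g : Eis → ℂ) (ξ κ : ℝ) (hb : Sm M b) (hR' : PrI b R') (hZ' : PrI b Z')
    (hbF : ∀ p : Eis, Prime p → p ∣ b → p ∣ F * R' * Z') (hg : TwC M' J b ξ g) (hκ : 0 < κ) :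
    PBo M lam b R' Z' g (fun o => tws R t (cj D) (vv o)) (fun o => tws Z t (cj D) (ww o)) κ ≤
      (1 + |ξ|) ^ A * Bd κ (nm (rd Z) * nm (rd Z')) := by
  by_cases hc : IsCoprime R' t ∧ IsCoprime Z' t
  · have h1 : PBo M lam b R' Z' g (fun o => tws R t (cj D) (vv o))
        (fun o => tws Z t (cj D) (ww o)) κ ≤
        PBo M lam (t * b) (R * R') (Z * Z') (fun y => g y * cj D y) vv ww κ := by
      unfold PBo
      refine Finset.sum_le_sum fun o _ => ?_
      refine mul_le_mul_of_nonneg_left (PB_comp (cj_mul hD) (cj_le hD) hc.1 hc.2 _)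
        (Real.rpow_nonneg ?_ _)
      linarith [hl o]
    refine h1.trans ?_
    have h2 := HP (t * b) (R * R') (Z * Z') (fun y => g y * cj D y) ξ κ (ht.mul hb)
      ⟨hR.1.mul hR'.1, ?_⟩ ⟨hZ.1.mul hZ'.1, ?_⟩ ?_ (TwC_comp hD hDt hg) hκ
    · have h3 : (nm (rd (Z * Z')) : ℝ) = nm (rd Z) * nm (rd Z') :=
        nm_rd_mul hZ.1.ne_zero hZ'.1.ne_zero (cop_of_PrI hZ hc.2)
      rwa [h3] at h2
    · intro p hp hpd
      rcases hp.dvd_or_dvd hpd with h | h
      · exact (hR.2 p hp h).mul_right _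
      · exact (hR'.2 p hp h).mul_left _
    · intro p hp hpd
      rcases hp.dvd_or_dvd hpd with h | h
      · exact (hZ.2 p hp h).mul_right _
      · exact (hZ'.2 p hp h).mul_left _
    · intro p hp hpd
      rcases hp.dvd_or_dvd hpd with h | h
      · refine (htf p hp h).trans ⟨R * R' * Z', by ring⟩
      · have h3 := hbF p hp h
        have h4 : F * R' * Z' ∣ f * (R * R') * (Z * Z') := by
          obtain ⟨c, hc⟩ := hF
          exact ⟨c, by
            calc f * (R * R') * (Z * Z') = (f * R * Z) * (R' * Z') := by ring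
              _ = _ := by rw [hc]; ring⟩
        exact h3.trans h4
  · have h1 : PBo M lam b R' Z' g (fun o => tws R t (cj D) (vv o))
        (fun o => tws Z t (cj D) (ww o)) κ = 0 := by
      unfold PBo
      refine Finset.sum_eq_zero fun o _ => ?_
      rw [PB_comp_zero hc, mul_zero]
    rw [h1]
    exact mul_nonneg (Real.rpow_nonneg (by positivity) _) (hBd.nn _ _)

/-- the primal form of the block hypothesis -/
lemma HP_primal {v w : O → Eis → ℂ} (hM' : M' ≠ 0) (h3 : (3 : Eis) ∣ M')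
    (hrad : ∀ p : Eis, Prime p → p ∣ M' → p ∣ M) (hv : ∀ o, SSm M (v o)) (hw : ∀ o, SSm M (w o))
    {B' : ℝ → ℝ → ℝ}
    (HP : ∀ b R Z g ξ κ, Sm M b → PrI b R → PrI b Z →
        (∀ p : Eis, Prime p → p ∣ b → p ∣ F * R * Z) → TwC M' J b ξ g → 0 < κ →
        PBo M lam b R Z g v w κ ≤ (1 + |ξ|) ^ A * B' κ (nm (rd Z)))
    (b R' Z' : Eis) (κ : ℝ) (hb : Sm M b) (hR' : PrI b R') (hZ' : PrI b Z')
    (hbF : ∀ p : Eis, Prime p → p ∣ b → p ∣ F * R' * Z') (hκ : 0 < κ) :
    PBo M lam b R' Z' (fun y => sy y b) v w κ ≤ B' κ (nm (rd Z')) := by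
  have hcop : ∀ y, Sm M y → IsCoprime y M' := by
    intro y hy
    refine cop_of_primes hy.prim fun p hp h1 h2 => ?_
    exact hp.not_isUnit (hy.cop.isUnit_of_dvd' h1 (hrad p hp h2))
  have key : ∀ (c : Eis → ℂ) (R : Eis), SSm M c → IsPrim R → ∀ y, c (R * y) ≠ 0 →
      sy y b = sy y b * conj (sy y 1) * End699.tw (prc M') 0 y * (nm y : ℂ) ^ (I * (0 : ℝ)) := by
    intro c R hc hR y hy
    have h1 := hc.sm _ hy
    have h2 : Sm M y := h1.of_mul_left hR
    unfold End699.tw prc ang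
    rw [if_pos (hcop y h2), syAx.one_right]
    simp
  have e : PBo M lam b R' Z' (fun y => sy y b) v w κ = PBo M lam b R' Z'
      (fun y => sy y b * conj (sy y 1) * End699.tw (prc M') 0 y * (nm y : ℂ) ^ (I * (0 : ℝ)))
      v w κ := by
    unfold PBo
    refine Finset.sum_congr rfl fun o _ => ?_
    rw [PB_congr (key (v o) R' (hv o) hR'.1) (key (w o) Z' (hw o) hZ'.1)]
  rw [e]
  refine (HP b R' Z' _ 0 κ hb hR' hZ' hbF ?_ hκ).trans ?_
  · refine ⟨b, 1, prc M', 0, hb.prim, isPrim_one, ?_, prc_HC hM' h3, Or.inl rfl, fun y => rfl⟩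
    intro p _ hp
    rwa [mul_one] at hp
  · simp

end Crest.Agent.R017.E4352
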