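import Crest.Agent.R017.E4sum_176

/-!
# Row 17, C70/E4: weighted count of the data `(D0, D1, B, R, Z)` (helper176)
-/

set_option autoImplicit false

noncomputable section

open Finset

namespace Crest.Agent.R017.E4sum176

open Crest.Agent.R012 Crest.Agent.R012.Eis Crest.Agent.R012.Mob705
open Crest.Agent.R012.Div277
open Crest.Agent.R017.E4352

set_option maxHeartbeats 1000000 in
open Classical in
/-- `Σ_{D0, D1, B, R, Z} 1 / (N(D0 D1) N(B)) ≤ C X^ε` -/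
theorem cnt2 (ε : ℝ) (hε : 0 < ε) : ∃ C : ℝ, 0 ≤ C ∧ ∀ (X : ℝ) (N : ℕ), 1 ≤ X → (N : ℝ) ≤ X →
    ∑ D0 ∈ primBall N, ∑ D1 ∈ primBall N, ∑ B ∈ primBall (N ^ 2),
      ∑ _R ∈ (primBall N).filter (fun R => PrI B R),
        ∑ _Z ∈ (primBall N).filter (fun Z => PrI B Z),
          ((nm (D0 * D1) : ℝ) * nm B)⁻¹ ≤ C * X ^ ε := by
  obtain ⟨C2, h20, h2⟩ := E4401.lCnt (ε / 10) (by linarith)
  obtain ⟨C3, h30, h3⟩ := E4cnt92.s1 (ε / 5) (by linarith)
  refine ⟨C3 * C3 * (C2 * C2 * C3), by positivity, fun X N hX hN => ?_⟩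
  have hX0 : (0 : ℝ) < X := by linarith
  have hX2 : (1 : ℝ) ≤ X ^ 2 := one_le_pow₀ hX
  have hXX : X ≤ X ^ 2 := by nlinarith
  have hN2 : ((N ^ 2 : ℕ) : ℝ) ≤ X ^ 2 := by push_cast; gcongr
  have hN4 : ((N ^ 2 : ℕ) : ℝ) ≤ X ^ 4 := hN2.trans (pow_le_pow_right₀ hX (by norm_num))
  have hN4' : (N : ℝ) ≤ X ^ 4 := hN.trans (le_self_pow₀ hX (by norm_num))
  have e2 : (X ^ 2) ^ (ε / 10) = X ^ (ε / 5) := by
    rw [← Real.rpow_natCast X 2, ← Real.rpow_mul hX0.le]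
    congr 1; push_cast; ring
  have hA : (0 : ℝ) ≤ X ^ (ε / 5) := by positivity
  have hcard : ∀ B ∈ primBall (N ^ 2),
      (((primBall N).filter fun R => PrI B R).card : ℝ) ≤ C2 * X ^ (ε / 5) := by
    intro B hB
    rw [mem_primBall] at hB
    have hBX : (nm B : ℝ) ≤ X ^ 2 := le_trans (by exact_mod_cast hB.1) hN2
    have := h2 B (X ^ 2) hX2 hB.2.ne_zero hBX
    rw [e2] at this
    refine le_trans ?_ this
    norm_cast
    refine card_le_card fun R hR => ?_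
    rw [mem_filter, mem_primBall] at hR ⊢
    refine ⟨⟨?_, hR.1.2⟩, hR.2⟩
    apply Nat.le_floor
    exact (le_trans (by exact_mod_cast hR.1.1) hN).trans hXX
  have hB : ∑ B ∈ primBall (N ^ 2), ∑ _R ∈ (primBall N).filter (fun R => PrI B R),
        ∑ _Z ∈ (primBall N).filter (fun Z => PrI B Z), ((nm B : ℝ))⁻¹ ≤
      (C2 * X ^ (ε / 5)) * ((C2 * X ^ (ε / 5)) * (C3 * X ^ (ε / 5))) := by
    calc _ ≤ ∑ B ∈ primBall (N ^ 2), (C2 * X ^ (ε / 5)) * ((C2 * X ^ (ε / 5)) *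
          ((nm B : ℝ))⁻¹) := by
          refine sum_le_sum fun B hB => ?_
          simp only [sum_const, nsmul_eq_mul]
          have h5 := hcard B hB
          gcongr
      _ = (C2 * X ^ (ε / 5)) * ((C2 * X ^ (ε / 5)) * ∑ B ∈ primBall (N ^ 2),
          ((nm B : ℝ))⁻¹) := by
          rw [← mul_sum, ← mul_sum]
      _ ≤ _ := by
          have := h3 X hX (N ^ 2) hN4
          gcongr
  have hall : ∑ D0 ∈ primBall N, ∑ D1 ∈ primBall N, ∑ B ∈ primBall (N ^ 2),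
      ∑ _R ∈ (primBall N).filter (fun R => PrI B R),
        ∑ _Z ∈ (primBall N).filter (fun Z => PrI B Z),
          ((nm (D0 * D1) : ℝ) * nm B)⁻¹ =
      (∑ D0 ∈ primBall N, ((nm D0 : ℝ))⁻¹) * ((∑ D1 ∈ primBall N, ((nm D1 : ℝ))⁻¹) *
        ∑ B ∈ primBall (N ^ 2), ∑ _R ∈ (primBall N).filter (fun R => PrI B R),
          ∑ _Z ∈ (primBall N).filter (fun Z => PrI B Z), ((nm B : ℝ))⁻¹) := by
    rw [sum_mul]
    refine sum_congr rfl fun D0 _ => ?_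
    rw [sum_mul, mul_sum]
    refine sum_congr rfl fun D1 _ => ?_
    rw [mul_sum, mul_sum]
    refine sum_congr rfl fun B _ => ?_
    rw [mul_sum, mul_sum]
    refine sum_congr rfl fun R _ => ?_
    rw [mul_sum, mul_sum]
    refine sum_congr rfl fun Z _ => ?_
    rw [nm_mul, Nat.cast_mul, mul_inv, mul_inv, mul_assoc]
  rw [hall]
  have h4 := h3 X hX N hN4'
  have hS0 : (0 : ℝ) ≤ ∑ D1 ∈ primBall N, ((nm D1 : ℝ))⁻¹ := sum_nonneg fun _ _ => by positivity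
  have hB0 : (0 : ℝ) ≤ ∑ B ∈ primBall (N ^ 2), ∑ _R ∈ (primBall N).filter (fun R => PrI B R),
        ∑ _Z ∈ (primBall N).filter (fun Z => PrI B Z), ((nm B : ℝ))⁻¹ :=
    sum_nonneg fun _ _ => sum_nonneg fun _ _ => sum_nonneg fun _ _ => by positivity
  have gen : ∀ s t K L : ℝ, 0 ≤ s → 0 ≤ t → s ≤ K → t ≤ L → s * (s * t) ≤ K * (K * L) := by
    intro s t K L hs ht hK hL
    have hK0 := hs.trans hK
    exact mul_le_mul hK (mul_le_mul hK hL ht hK0) (mul_nonneg hs ht) hK0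
  refine (gen _ _ _ _ hS0 hB0 h4 hB).trans (le_of_eq ?_)
  have e5 : (X ^ (ε / 5)) ^ 5 = X ^ ε := by
    rw [← Real.rpow_natCast (X ^ (ε / 5)) 5, ← Real.rpow_mul hX0.le]
    congr 1; push_cast; ring
  rw [← e5]
  ring

end Crest.Agent.R017.E4sum176
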