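import Crest.Agent.R017.E4g_352

/-!
# Row 17, C70/E4: assembly of `E4core` (helper352)
-/

set_option autoImplicit false

noncomputable section

open Complex
open scoped ComplexConjugate

namespace Crest.Agent.R017.E4352

open Crest.Agent.R012 Crest.Agent.R012.Eis Crest.Agent.R012.Mob705 Crest.Agent.R012.Gauss880
open Crest.Agent.R012.GaussLoc283
open Crest.Agent.R012.Div277
open Crest.Agent.R017.Sx545 Crest.Agent.R017.CM106 Crest.Agent.R017.C70 Crest.Agent.R017.C590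
open Crest.Agent.R017.B770 Crest.Agent.R017.E2440 Crest.Agent.R017.End699
open Crest.Agent.R017.E4579 (bpt bco SupB)

open Classical in
/-- **counting 2** -/
def LS1 : Prop :=
  ∀ ε : ℝ, 0 < ε → ∃ C : ℝ, 0 ≤ C ∧ ∀ (f : Eis) (X : ℝ) (N : ℕ), 1 ≤ X → IsPrim f →
    (nm f : ℝ) ≤ X → (N : ℝ) ≤ X ^ 4 →
    ∑ D ∈ (primBall N).filter Squarefree, (nm (bco f D) : ℝ)⁻¹ ≤ C * X ^ ε

lemma dcy_of_zero {φ : Eis → ℂ} {B L : ℝ} (hB0 : 0 ≤ B) (hL0 : 0 ≤ L)
    (hφ : ∀ k, k ≠ 0 → φ k = 0 ∨ (‖φ k‖ ≤ B ∧ (nm k : ℝ) ≤ L)) : Dcy φ := by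
  refine ⟨B * L ^ 3, fun k hk => ?_⟩
  have h1 := one_le_nm hk
  rcases hφ k hk with h | ⟨h, h2⟩
  · rw [h, norm_zero]; positivity
  · have h3 : ((nm k : ℝ) ^ 3) ≤ L ^ 3 := by gcongr
    calc ‖φ k‖ ≤ B := h
      _ = B * ((nm k : ℝ) ^ 3) * ((nm k : ℝ) ^ 3)⁻¹ := by
          field_simp
      _ ≤ B * L ^ 3 * ((nm k : ℝ) ^ 3)⁻¹ := by gcongr

/-- a primary version of the weight, to have decay everywhere -/
def prw (φ : Eis → ℂ) (k : Eis) : ℂ := by
  classical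
  exact if IsPrim k then φ k else 0

lemma prw_eq {φ : Eis → ℂ} {k : Eis} (hk : IsPrim k) : prw φ k = φ k := by
  unfold prw; rw [if_pos hk]

open Classical in
lemma card_PrI_le {Cc ε₁ : ℝ} (hCc : ∀ (q : Eis) (X : ℝ), 1 ≤ X → q ≠ 0 → (nm q : ℝ) ≤ X →
      (((primBall ⌊X⌋₊).filter fun R => PrI q R).card : ℝ) ≤ Cc * X ^ ε₁)
    {X : ℝ} (hX : 1 ≤ X) {q : Eis} (hq : q ≠ 0) (hqX : (nm q : ℝ) ≤ X ^ 4) :
    (((primBall ⌊X⌋₊).filter fun R => PrI q R).card : ℝ) ≤ Cc * (X ^ 4) ^ ε₁ := by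
  have h4 : 1 ≤ X ^ 4 := one_le_pow₀ hX
  refine le_trans ?_ (hCc q (X ^ 4) h4 hq hqX)
  have : (primBall ⌊X⌋₊).filter (fun R => PrI q R) ⊆
      (primBall ⌊X ^ 4⌋₊).filter (fun R => PrI q R) := by
    intro R hR
    rw [Finset.mem_filter, mem_primBall] at hR ⊢
    refine ⟨⟨hR.1.1.trans (Nat.floor_le_floor ?_), hR.1.2⟩, hR.2⟩
    exact le_self_pow₀ hX (by norm_num)
  exact_mod_cast Finset.card_le_card this

theorem e4core (hO : LOpen) (hp : LBp) (hd : LBd) (hc : LCnt) (hs : LS1) : E4core := by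
  classical
  intro M ψ l ι _ D hψ hD ε A hε hA
  -- constants
  set ε₁ : ℝ := ε / 24 with hε₁d
  have hε₁ : 0 < ε₁ := by rw [hε₁d]; positivity
  obtain ⟨Cp, hCp0, HPr⟩ := hp ε₁ hε₁
  have hdi : ∀ i, ∃ (C : ℝ) (m₀ N₀ : ℕ), 0 ≤ C ∧
      ∀ (f : Eis) (O : Type) (_ : Fintype O) (lam : O → ℝ) (v w : O → Eis → ℂ)
      (X Q Kd B : ℝ)
      (W : ℝ → ℂ) (Bd : ℝ → ℝ → ℝ) (S : ℝ), Dat4 M f lam v w X → X⁻¹ ≤ Q → Q ≤ X → 0 < Kd →
      Kd ≤ X → 0 ≤ B → 0 ≤ S → BdC Bd → WT m₀ N₀ B W →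
      (∀ o x y, v o x ≠ 0 → w o y ≠ 0 → (nm (f * x * y) : ℝ) * lam o ^ 2 ≤ Kd * Q) →
      (∀ b R Z g ξ κ, Sm M b → PrI b R → PrI b Z →
        (∀ p : Eis, Prime p → p ∣ b → p ∣ f * R * Z) → TwC D.M' D.j b ξ g → 0 < κ →
        PBo M lam b R Z g v w κ ≤ (1 + |ξ|) ^ (A + 4) * Bd κ (nm (rd Z))) →
      (∀ b₁ b₃ κ : ℝ, 1 ≤ b₁ → 1 ≤ b₃ → 1 / 4 ≤ κ → κ * b₁ ^ 2 * b₃ ^ 3 ≤ Kd * X ^ ε₁ →
        b₁ ^ (1 / 2 : ℝ) * b₃ * κ ^ (-(1 / 2) : ℝ) * Bd κ (b₁ * b₃) ≤ S) →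
      ‖∑ o, ∑' x : Eis, v o x * ∑' y : Eis, w o y * (((Q / lam o : ℝ) : ℂ) *
        (End699.tw (D.η i) D.j (f * x * y) *
          D3 M (End699.tw (D.ψ' i) D.l') (f * x * y) W
            (D.ρ i * nm (f * x * y) / (Q / lam o))))‖ ≤
        C * X ^ ε₁ * B * (Q * S + X ^ (-(A + 4))) := fun i =>
    hd M D.M' D.j (D.η i) (D.ψ' i) D.l' (D.ρ i) (hD.η i) (hD.ψ' i) hD.dvd hD.ne hD.rad (hD.ρ i)
      ε₁ (A + 4) hε₁ (by linarith)
  choose Ci mi Ni hCi HDu using hdi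
  obtain ⟨Cc, hCc0, hCc⟩ := hc ε₁ hε₁
  obtain ⟨Cs, hCs0, hCs⟩ := hs ε₁ hε₁
  set C₁ : ℝ := (∑ i, ‖D.κ i‖ * Ci i) + Cp with hC₁
  have hC₁0 : 0 ≤ C₁ := add_nonneg (Finset.sum_nonneg fun i _ =>
    mul_nonneg (norm_nonneg _) (hCi i)) hCp0
  refine ⟨Cs ^ 2 * Cc ^ 2 * (C₁ + 1), Finset.univ.sup mi, Finset.univ.sup Ni, by positivity, ?_⟩
  intro V W mt B hB hLaw hWT hVB hV1 f O _ lam v w X K U T₀ Bd S Mn hdat hK1 hKX hU hUX hT1 hTX
    hS hMn hBd hnm HP hnum HM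
  have hX1 := hdat.X1
  have hX0 : 0 < X := by linarith
  have hK0 : 0 < K := by linarith
  have hf := hdat.hf.1
  set N : ℕ := ⌊X⌋₊ with hN
  have hNX : (N : ℝ) ≤ X := Nat.floor_le hX0.le
  have hN2X : ((N ^ 2 : ℕ) : ℝ) ≤ X ^ 2 := by push_cast; gcongr
  -- the weights
  set φ : O → Eis → ℂ := fun o k => End699.tw ψ l k * V (nm k * lam o / K) with hφ
  have hlam : ∀ o, 0 < lam o := fun o => by linarith [(hdat.lam1 o).1]
  have hdcy : ∀ o, Dcy (prw (φ o)) := by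
    intro o
    refine dcy_of_zero (L := K / lam o) hB (div_pos hK0 (hlam o)).le fun k hk => ?_
    by_cases h : IsPrim k
    · rw [prw_eq h]
      by_cases h1 : 1 < (nm k : ℝ) * lam o / K
      · left
        show End699.tw ψ l k * V (nm k * lam o / K) = 0
        rw [hV1 _ h1, mul_zero]
      · right
        push Not at h1
        refine ⟨?_, ?_⟩
        · show ‖End699.tw ψ l k * V (nm k * lam o / K)‖ ≤ B
          rw [norm_mul]
          calc _ ≤ 1 * B := mul_le_mul ((hψ.isChar_tw l).norm_le h) (hVB _) (norm_nonneg _)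
                zero_le_one
            _ = B := one_mul B
        · rw [div_le_one hK0] at h1
          rw [le_div_iff₀ (hlam o)]
          exact h1
    · left
      unfold prw
      rw [if_neg h]
  -- the opening
  set Tm : O → Eis → Eis → Eis → Eis → ℂ := fun o D B R Z =>
    ∑' x : Eis, tws R (D * B) (cj D) (v o) x * ∑' y : Eis, tws Z (D * B) (cj D) (w o) y *
      NT M (f * R * Z / (D * B ^ 3) * x * y) (fun k => End699.tw ψ l (D ^ 2 * B ^ 3 * k) *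
            V (nm (D ^ 2 * B ^ 3 * k) * lam o / K)) with hTm
  have hopen : ∀ o, ∑' x : Eis, v o x * ∑' y : Eis, w o y *
        NT (M * (f * y)) (f * x * y) (fun k => End699.tw ψ l k * V (nm k * lam o / K)) =
      ∑ D ∈ primBall (N ^ 2), ∑ B ∈ primBall (N ^ 2),
        ∑ R ∈ (primBall N).filter (fun R => PrI (D * B) R),
          ∑ Z ∈ (primBall N).filter (fun Z => PrI (D * B) Z),
            if Good M f D B R Z then cc D B (f * R * Z / (D * B ^ 3)) * Tm o D B R Z else 0 := by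
    intro o
    have e1 : ∀ x y, NT (M * (f * y)) (f * x * y)
        (fun k => End699.tw ψ l k * V (nm k * lam o / K)) =
        NT (M * (f * y)) (f * x * y) (prw (φ o)) := fun x y =>
      NT_congr_phi fun k hk => (prw_eq (φ := φ o) hk.prim).symm
    simp_rw [e1]
    rw [hO M f (v o) (w o) (prw (φ o)) N hf (hdat.hv o) (hdat.hw o)
      (fun x hx => Nat.le_floor (hdat.vx o x hx).2) (fun y hy => Nat.le_floor (hdat.wy o y hy))
      (Nat.le_floor hdat.hf.2) (hdcy o)]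
    refine Finset.sum_congr rfl fun D hD => Finset.sum_congr rfl fun B hB => ?_
    refine Finset.sum_congr rfl fun R _ => Finset.sum_congr rfl fun Z _ => ?_
    rw [mem_primBall] at hD hB
    split_ifs with hG
    · have e2 : ∀ x y, NT M (f * R * Z / (D * B ^ 3) * x * y)
          (fun k => prw (φ o) (D ^ 2 * B ^ 3 * k)) =
          NT M (f * R * Z / (D * B ^ 3) * x * y) (fun k => End699.tw ψ l (D ^ 2 * B ^ 3 * k) *
            V (nm (D ^ 2 * B ^ 3 * k) * lam o / K)) := fun x y =>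
        NT_congr_phi fun k hk =>
          prw_eq (φ := φ o) (((hD.2.pow 2).mul (hB.2.pow 3)).mul hk.prim)
      simp_rw [e2]
      rfl
    · rfl
  -- exchange
  have hex : ∑ o, ∑' x : Eis, v o x * ∑' y : Eis, w o y *
        NT (M * (f * y)) (f * x * y) (fun k => End699.tw ψ l k * V (nm k * lam o / K)) =
      ∑ D ∈ primBall (N ^ 2), ∑ B ∈ primBall (N ^ 2),
        ∑ R ∈ (primBall N).filter (fun R => PrI (D * B) R),
          ∑ Z ∈ (primBall N).filter (fun Z => PrI (D * B) Z),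
            if Good M f D B R Z then cc D B (f * R * Z / (D * B ^ 3)) * ∑ o, Tm o D B R Z
            else 0 := by
    rw [Finset.sum_congr rfl fun o _ => hopen o, Finset.sum_comm]
    refine Finset.sum_congr rfl fun D _ => ?_
    rw [Finset.sum_comm]
    refine Finset.sum_congr rfl fun B _ => ?_
    rw [Finset.sum_comm]
    refine Finset.sum_congr rfl fun R _ => ?_
    rw [Finset.sum_comm]
    refine Finset.sum_congr rfl fun Z _ => ?_
    split_ifs with hG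
    · rw [Finset.mul_sum]
    · simp
  -- the terms
  set T : ℝ := C₁ * X ^ (12 * ε₁) * B * (K * S + X ^ (-A)) + Mn with hT
  have hT0 : 0 ≤ T := by
    rw [hT]
    have := Real.rpow_nonneg hX0.le (-A)
    positivity
  have HP' : ∀ q R Z g ξ κ, Sm M q → PrI q R → PrI q Z →
      (∀ p : Eis, Prime p → p ∣ q → p ∣ f * R * Z) → TwC D.M' D.j q ξ g → 0 < κ →
      PBo M lam q R Z g v w κ ≤ (1 + |ξ|) ^ (A + 4) * Bd κ (nm (rd Z)) := by
    intro q R Z g ξ κ h1 h2 h3 h4 h5 h6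
    refine (HP q R Z g ξ κ h1 h2 h3 h4 h5 h6).trans ?_
    refine mul_le_mul_of_nonneg_right ?_ (hBd.nn _ _)
    exact Real.rpow_le_rpow_of_exponent_le (by linarith [abs_nonneg ξ]) (by linarith)
  have hnum' : ∀ a₀ a₁ a₃ b₁ b₃ κ : ℝ, 1 ≤ a₀ → a₀ ≤ nm (rd f) → 1 ≤ a₁ → 1 ≤ a₃ → 1 ≤ b₁ →
        1 ≤ b₃ → 1 / 4 ≤ κ →
        κ * b₁ ^ 2 * b₃ ^ 3 ≤
          (if a₁ * a₃ ≤ T₀ then U / K * (a₀ * a₁) else K / (a₀ ^ 2 * a₁ ^ 2 * a₃ ^ 3)) *
            X ^ (12 * ε₁) →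
        a₀ ^ (-(1 / 2) : ℝ) * (a₁ ^ (1 / 2 : ℝ) * a₃ * b₁ ^ (1 / 2 : ℝ) * b₃ *
          κ ^ (-(1 / 2) : ℝ) * Bd κ (a₁ * a₃ * (b₁ * b₃))) ≤ S := by
    intro a₀ a₁ a₃ b₁ b₃ κ h0 h0f h1 h2 h3 h4 h5 h6
    refine hnum a₀ a₁ a₃ b₁ b₃ κ h0 h0f h1 h2 h3 h4 h5 (h6.trans ?_)
    refine mul_le_mul_of_nonneg_left
      (Real.rpow_le_rpow_of_exponent_le hX1 (by rw [hε₁d]; linarith)) ?_
    split_ifs <;> positivity
  have hterm : ∀ D' ∈ (primBall (N ^ 2)), ∀ B' ∈ (primBall (N ^ 2)),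
      ∀ R ∈ (primBall N).filter (fun R => PrI (D' * B') R),
      ∀ Z ∈ (primBall N).filter (fun Z => PrI (D' * B') Z),
      ‖if Good M f D' B' R Z then cc D' B' (f * R * Z / (D' * B' ^ 3)) * ∑ o, Tm o D' B' R Z
            else 0‖ ≤ if Squarefree D' ∧ Squarefree B' then
        ((nm (bco f D') : ℝ)⁻¹ * (nm (bco f B') : ℝ)⁻¹) * T else 0 := by
    intro D' hD' B' hB' R hR Z hZ
    rw [mem_primBall] at hD' hB'
    rw [Finset.mem_filter, mem_primBall] at hR hZ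
    by_cases hG : Good M f D' B' R Z
    · rw [if_pos hG, if_pos ⟨hG.1, hG.2.1⟩]
      have hD2 : (nm D' : ℝ) ≤ X ^ 2 := le_trans (by exact_mod_cast hD'.1) hN2X
      have hB2 : (nm B' : ℝ) ≤ X ^ 2 := le_trans (by exact_mod_cast hB'.1) hN2X
      have hR2 : (nm R : ℝ) ≤ X := le_trans (by exact_mod_cast hR.1.1) hNX
      have hZ2 : (nm Z : ℝ) ≤ X := le_trans (by exact_mod_cast hZ.1.1) hNX
      exact good_term hε₁ le_rfl hA hCi hCp0 hψ hD HPr HDu hB hLaw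
        (fun i => (hWT i).mono hB (Finset.le_sup (Finset.mem_univ i))
          (Finset.le_sup (Finset.mem_univ i))) hVB hV1 hdat hK1 hKX hU hUX hS hMn hBd hnm HP'
        hnum' HM hD2 hB2 hR2 hZ2 hR.2 hZ.2 hG
    · rw [if_neg hG, norm_zero]
      split_ifs <;> positivity
  -- the sum
  have hX4 : (X ^ 4) ^ ε₁ = X ^ (4 * ε₁) := by
    rw [← Real.rpow_natCast, ← Real.rpow_mul hX0.le]
    norm_num
  have hcard : ∀ D' ∈ (primBall (N ^ 2)), ∀ B' ∈ (primBall (N ^ 2)),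
      (((primBall N).filter (fun R => PrI (D' * B') R)).card : ℝ) ≤ Cc * X ^ (4 * ε₁) := by
    intro D' hD' B' hB'
    rw [mem_primBall] at hD' hB'
    rw [← hX4]
    refine card_PrI_le hCc hX1 (mul_ne_zero hD'.2.ne_zero hB'.2.ne_zero) ?_
    rw [nm_mul]; push_cast
    calc (nm D' : ℝ) * nm B' ≤ X ^ 2 * X ^ 2 := by
          have h1 : (nm D' : ℝ) ≤ X ^ 2 := le_trans (by exact_mod_cast hD'.1) hN2X
          have h2 : (nm B' : ℝ) ≤ X ^ 2 := le_trans (by exact_mod_cast hB'.1) hN2X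
          gcongr
      _ = X ^ 4 := by ring
  have hS1 : ∑ D' ∈ (primBall (N ^ 2)).filter Squarefree, (nm (bco f D') : ℝ)⁻¹ ≤
      Cs * X ^ ε₁ := by
    refine hCs f X (N ^ 2) hX1 hf.prim hdat.hf.2 (hN2X.trans ?_)
    exact pow_le_pow_right₀ hX1 (by norm_num)
  rw [hex]
  have hsum : ‖∑ D ∈ primBall (N ^ 2), ∑ B ∈ primBall (N ^ 2),
        ∑ R ∈ (primBall N).filter (fun R => PrI (D * B) R),
          ∑ Z ∈ (primBall N).filter (fun Z => PrI (D * B) Z),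
            if Good M f D B R Z then cc D B (f * R * Z / (D * B ^ 3)) * ∑ o, Tm o D B R Z
            else 0‖ ≤ ∑ D' ∈ (primBall (N ^ 2)).filter Squarefree,
              ∑ B' ∈ (primBall (N ^ 2)).filter Squarefree,
              ((Cc * X ^ (4 * ε₁)) * (Cc * X ^ (4 * ε₁))) *
                (((nm (bco f D') : ℝ)⁻¹ * (nm (bco f B') : ℝ)⁻¹) * T) := by
    refine (norm_sum_le _ _).trans ?_
    rw [Finset.sum_filter]
    refine Finset.sum_le_sum fun D' hD' => ?_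
    refine (norm_sum_le _ _).trans ?_
    have hin : ∀ B' ∈ primBall (N ^ 2), ‖∑ R ∈ (primBall N).filter (fun R => PrI (D' * B') R),
          ∑ Z ∈ (primBall N).filter (fun Z => PrI (D' * B') Z),
            if Good M f D' B' R Z then cc D' B' (f * R * Z / (D' * B' ^ 3)) *
              ∑ o, Tm o D' B' R Z else 0‖ ≤ if Squarefree D' ∧ Squarefree B' then
          ((Cc * X ^ (4 * ε₁)) * (Cc * X ^ (4 * ε₁))) *
                (((nm (bco f D') : ℝ)⁻¹ * (nm (bco f B') : ℝ)⁻¹) * T) else 0 := by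
      intro B' hB'
      have hb1 := hcard D' hD' B' hB'
      set q : ℝ := if Squarefree D' ∧ Squarefree B' then
        ((nm (bco f D') : ℝ)⁻¹ * (nm (bco f B') : ℝ)⁻¹) * T else 0 with hq
      have hq0 : 0 ≤ q := by rw [hq]; split_ifs <;> positivity
      have hb2 : ‖∑ R ∈ (primBall N).filter (fun R => PrI (D' * B') R),
          ∑ Z ∈ (primBall N).filter (fun Z => PrI (D' * B') Z),
            if Good M f D' B' R Z then cc D' B' (f * R * Z / (D' * B' ^ 3)) *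
              ∑ o, Tm o D' B' R Z else 0‖ ≤
          ∑ R ∈ (primBall N).filter (fun R => PrI (D' * B') R),
          ∑ Z ∈ (primBall N).filter (fun Z => PrI (D' * B') Z), q :=
        (norm_sum_le _ _).trans (Finset.sum_le_sum fun R hR => (norm_sum_le _ _).trans
          (Finset.sum_le_sum fun Z hZ => hterm D' hD' B' hB' R hR Z hZ))
      refine hb2.trans ?_
      rw [Finset.sum_const, Finset.sum_const, nsmul_eq_mul, nsmul_eq_mul]
      calc _ ≤ (Cc * X ^ (4 * ε₁)) * ((Cc * X ^ (4 * ε₁)) * q) := by gcongr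
        _ = _ := by
            rw [hq]
            split_ifs <;> ring
    refine (Finset.sum_le_sum hin).trans (le_of_eq ?_)
    by_cases hsD : Squarefree D'
    · rw [if_pos hsD, Finset.sum_filter]
      refine Finset.sum_congr rfl fun B' _ => ?_
      simp only [hsD, true_and]
    · rw [if_neg hsD]
      refine Finset.sum_eq_zero fun B' _ => ?_
      rw [if_neg (fun h => hsD h.1)]
  refine hsum.trans ?_
  have hfin : ∑ D' ∈ (primBall (N ^ 2)).filter Squarefree,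
              ∑ B' ∈ (primBall (N ^ 2)).filter Squarefree,
              ((Cc * X ^ (4 * ε₁)) * (Cc * X ^ (4 * ε₁))) *
                (((nm (bco f D') : ℝ)⁻¹ * (nm (bco f B') : ℝ)⁻¹) * T) =
      ((Cc * X ^ (4 * ε₁)) * (Cc * X ^ (4 * ε₁))) * T *
        ((∑ D' ∈ (primBall (N ^ 2)).filter Squarefree, (nm (bco f D') : ℝ)⁻¹) *
          (∑ D' ∈ (primBall (N ^ 2)).filter Squarefree, (nm (bco f D') : ℝ)⁻¹)) := by
    rw [Finset.sum_mul_sum, Finset.mul_sum]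
    refine Finset.sum_congr rfl fun D' _ => ?_
    rw [Finset.mul_sum]
    refine Finset.sum_congr rfl fun B' _ => ?_
    ring
  rw [hfin]
  have hS10 : 0 ≤ ∑ D' ∈ (primBall (N ^ 2)).filter Squarefree, (nm (bco f D') : ℝ)⁻¹ :=
    Finset.sum_nonneg fun _ _ => by positivity
  have hXA : 0 ≤ X ^ (-A) := Real.rpow_nonneg hX0.le _
  have hXp : ∀ e : ℝ, 0 < X ^ e := fun e => Real.rpow_pos_of_pos hX0 e
  have hTle : T ≤ X ^ (12 * ε₁) * ((C₁ + 1) * (B * (K * S + X ^ (-A)) + Mn)) := by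
    have h1 : 1 ≤ X ^ (12 * ε₁) := Real.one_le_rpow hX1 (by positivity)
    have h2 : 0 ≤ B * (K * S + X ^ (-A)) := by positivity
    have h3 : Mn ≤ X ^ (12 * ε₁) * Mn := by nlinarith
    have h4 : C₁ * X ^ (12 * ε₁) * B * (K * S + X ^ (-A)) + X ^ (12 * ε₁) * Mn ≤
        X ^ (12 * ε₁) * ((C₁ + 1) * (B * (K * S + X ^ (-A)) + Mn)) := by
      have h5 : 0 ≤ X ^ (12 * ε₁) * (B * (K * S + X ^ (-A))) := by positivity
      have h6 : 0 ≤ X ^ (12 * ε₁) * (C₁ * Mn) := by positivity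
      nlinarith
    rw [hT]
    linarith
  calc ((Cc * X ^ (4 * ε₁)) * (Cc * X ^ (4 * ε₁))) * T *
        ((∑ D' ∈ (primBall (N ^ 2)).filter Squarefree, (nm (bco f D') : ℝ)⁻¹) *
          (∑ D' ∈ (primBall (N ^ 2)).filter Squarefree, (nm (bco f D') : ℝ)⁻¹))
      ≤ ((Cc * X ^ (4 * ε₁)) * (Cc * X ^ (4 * ε₁))) *
          (X ^ (12 * ε₁) * ((C₁ + 1) * (B * (K * S + X ^ (-A)) + Mn))) *
          ((Cs * X ^ ε₁) * (Cs * X ^ ε₁)) := by
        have := (hXp (4 * ε₁)).le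
        have := (hXp (12 * ε₁)).le
        have := (hXp ε₁).le
        gcongr
    _ = Cs ^ 2 * Cc ^ 2 * (C₁ + 1) * (X ^ (4 * ε₁) * X ^ (4 * ε₁) * X ^ (12 * ε₁) * X ^ ε₁ *
          X ^ ε₁) * (B * (K * S + X ^ (-A)) + Mn) := by ring
    _ ≤ Cs ^ 2 * Cc ^ 2 * (C₁ + 1) * X ^ ε * (B * (K * S + X ^ (-A)) + Mn) := by
        have h1 : X ^ (4 * ε₁) * X ^ (4 * ε₁) * X ^ (12 * ε₁) * X ^ ε₁ * X ^ ε₁ ≤ X ^ ε := by
          rw [← Real.rpow_add hX0, ← Real.rpow_add hX0, ← Real.rpow_add hX0, ← Real.rpow_add hX0]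
          exact Real.rpow_le_rpow_of_exponent_le hX1 (by rw [hε₁d]; linarith)
        gcongr

end Crest.Agent.R017.E4352
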