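import Crest.Agent.R017.E4asm_176
import Crest.Agent.R017.E4fe3_502

/-!
# Row 17, C70/E4, joint form: `E4core5` and `E4dir` (helper502, helper47, helper176, helper783)
-/

set_option autoImplicit false

noncomputable section

namespace Crest.Agent.R017.E4fe502

/-- **`E4dir`** -/
theorem e4dir : E4v5.E4dir := E4asm176.e4dir_of E4v5.dirF

/-- **`E4core5`** -/
theorem e4core5 : E4v5.E4core5 := E4asm176.e4core5_of E4v5.dirF feF

end Crest.Agent.R017.E4fe502
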