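import Crest.Agent.R017.PX2_764
import Crest.Agent.R017.P3th_283

/-!
# Row 17, exceptional class, X6 part (D) (helper502): the dual side back to character sums

`th (l u)` for squarefree primary `u` and arbitrary `l ≠ 0`:

* `th_gcd` : `l = g l₁`, `u = g u₁`, `(l₁, u₁) = 1`: `th (l u) = 0` unless `g ∣ l₁`
* `th_gcd_sq` : `th (g² l₂ · g u₁) = n6 u₁ conj (Gh l₂ u₁) th l₂` if `(l₂, u₁) = 1`
* `dual_point` (D3): the finite sums `∑ m, c m th (l m b)` in terms of `Tc X (c (g₁ ·)) (l'' b')`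
* `dual_sum` (D2): `∑' l, W l th (l u)` over the divisors of `u`
* `dual_abs` (D4): the absolute version of (D3) summed over `l`
-/

set_option autoImplicit false

noncomputable section

open Finset
open scoped ComplexConjugate

namespace Crest.Agent.R017.X6D502

open Crest.Agent.R012 Crest.Agent.R012.Eis Crest.Agent.R012.Gauss880
open Crest.Agent.R012.LS2 Crest.Agent.R012.Div277
open Crest.Agent.R017.PX764

/-! ### primary greatest common divisors -/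

/-- the primary gcd of a nonzero element and a primary element -/
lemma exists_gcd (l : Eis) {u : Eis} (hu : IsPrim u) :
    ∃ g l₁ u₁ : Eis, IsPrim g ∧ IsPrim u₁ ∧ l = g * l₁ ∧ u = g * u₁ ∧ IsCoprime l₁ u₁ := by
  set g0 := EuclideanDomain.gcd l u with hg
  have hg1 : g0 ∣ l := EuclideanDomain.gcd_dvd_left _ _
  have hg2 : g0 ∣ u := EuclideanDomain.gcd_dvd_right _ _
  have hgl : ¬ lam ∣ g0 := fun h => hu.not_lam_dvd (h.trans hg2)
  set e := prim g0 with he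
  have hep : IsPrim e := prim_isPrim hgl
  have hass : Associated g0 e := prim_associated g0
  obtain ⟨k1, hk1⟩ : e ∣ l := hass.symm.dvd.trans hg1
  obtain ⟨k2, hk2⟩ : e ∣ u := hass.symm.dvd.trans hg2
  have hp2 : IsPrim k2 := IsPrim.of_mul_left (hk2 ▸ hu) hep
  refine ⟨e, k1, k2, hep, hp2, hk1, hk2, ?_⟩
  have hbez := EuclideanDomain.gcd_eq_gcd_ab l u
  rw [← hg] at hbez
  obtain ⟨v, hv⟩ := hass
  refine ⟨v * EuclideanDomain.gcdA l u, v * EuclideanDomain.gcdB l u, ?_⟩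
  apply mul_left_cancel₀ hep.ne_zero
  calc e * (v * EuclideanDomain.gcdA l u * k1 + v * EuclideanDomain.gcdB l u * k2)
      = v * (e * k1 * EuclideanDomain.gcdA l u + e * k2 * EuclideanDomain.gcdB l u) := by
        ring
    _ = v * (l * EuclideanDomain.gcdA l u + u * EuclideanDomain.gcdB l u) := by
        rw [← hk1, ← hk2]
    _ = e * 1 := by rw [← hbez, mul_comm, hv, mul_one]

/-- uniqueness of the primary gcd -/
lemma gcd_unique {g l₁ u₁ g' l₁' u₁' : Eis} (hg : IsPrim g) (hg' : IsPrim g')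
    (h1 : g * l₁ = g' * l₁') (h2 : g * u₁ = g' * u₁') (hc : IsCoprime l₁ u₁)
    (hc' : IsCoprime l₁' u₁') : g = g' ∧ l₁ = l₁' ∧ u₁ = u₁' := by
  have d1 : g ∣ g' := by
    obtain ⟨a, b, hab⟩ := hc'
    refine ⟨a * l₁ + b * u₁, ?_⟩
    linear_combination (-a) * h1 - b * h2 - g' * hab
  have d2 : g' ∣ g := by
    obtain ⟨a, b, hab⟩ := hc
    refine ⟨a * l₁' + b * u₁', ?_⟩
    linear_combination a * h1 + b * h2 - g * hab
  have hee : g = g' := hg.eq_of_associated hg' (associated_of_dvd_dvd d1 d2)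
  subst hee
  exact ⟨rfl, mul_left_cancel₀ hg.ne_zero h1, mul_left_cancel₀ hg.ne_zero h2⟩

/-- a squarefree primary element all of whose primary prime divisors divide `l` divides `l` -/
lemma dvd_of_primes {g : Eis} (hg : IsPrim g) : Squarefree g → ∀ l : Eis,
    (∀ p, Prime p → IsPrim p → p ∣ g → p ∣ l) → g ∣ l := by
  refine Sym645.prim_induction ?_ ?_ hg
  · intro _ l _
    exact one_dvd _
  · intro p b hp hpp hb ih hsf l hl
    have hsb : Squarefree b := hsf.of_mul_right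
    have hpb : ¬ p ∣ b := by
      intro h
      obtain ⟨t, rfl⟩ := h
      exact hp.not_isUnit (hsf p ⟨t, by ring⟩)
    have hcop : IsCoprime p b := hp.irreducible.coprime_iff_not_dvd.2 hpb
    have h1 : p ∣ l := hl p hp hpp ⟨b, rfl⟩
    have h2 : b ∣ l := ih hsb l (fun q hq hqp hqb => hl q hq hqp (hqb.mul_left p))
    exact hcop.mul_dvd h1 h2

/-! ### (D1) -/

/-- vanishing unless `g² ∣ l` -/
theorem th_gcd {g l₁ u₁ : Eis} (hg : IsPrim g) (hs : Squarefree (g * u₁))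
    (hd : ¬ g ∣ l₁) : th ((g * l₁) * (g * u₁)) = 0 := by
  have hsg : Squarefree g := hs.of_mul_left
  have hgu : IsCoprime g u₁ := by
    have := (squarefree_mul_iff.mp hs).1
    exact this.isCoprime
  -- a primary prime divisor of `g` which does not divide `l₁`
  obtain ⟨p, hp, hpp, hpg, hpl⟩ : ∃ p, Prime p ∧ IsPrim p ∧ p ∣ g ∧ ¬ p ∣ l₁ := by
    by_contra hcon
    push Not at hcon
    exact hd (dvd_of_primes hg hsg l₁ hcon)
  obtain ⟨t, rfl⟩ := hpg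
  have hpt : ¬ p ∣ t := by
    intro h
    obtain ⟨s, rfl⟩ := h
    exact hp.not_isUnit (hsg p ⟨s, by ring⟩)
  have hpu : ¬ p ∣ u₁ := fun h =>
    hp.not_isUnit (hgu.isUnit_of_dvd' ⟨t, rfl⟩ h)
  have e1 : (p * t * l₁) * (p * t * u₁) = (t * t * l₁ * u₁) * p ^ 2 := by ring
  rw [e1]
  refine th_two hp hpp ?_
  intro h
  rcases hp.dvd_or_dvd h with h | h
  · rcases hp.dvd_or_dvd h with h | h
    · rcases hp.dvd_or_dvd h with h | h
      · exact hpt h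
      · exact hpt h
    · exact hpl h
  · exact hpu h

/-- the value for `g² ∣ l` -/
theorem th_gcd_sq {g l₂ u₁ : Eis} (hg : IsPrim g) (hu₁ : IsPrim u₁) (hs : Squarefree u₁)
    (hc : IsCoprime l₂ u₁) :
    th ((g ^ 2 * l₂) * (g * u₁)) = conj (Gh l₂ u₁) * (n6 u₁ : ℂ) * th l₂ := by
  have e1 : (g ^ 2 * l₂) * (g * u₁) = (l₂ * u₁) * g ^ 3 := by ring
  rw [e1, th_cube hg, th_mul hu₁ hs hc]

/-! ### (D3): one frequency `l`, a finite sum over `m` -/

/-- the dual character sum, coefficients `c m n6 m conj (Gh f m)` -/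
def Tc (X : ℝ) (c : Eis → ℂ) (f : Eis) : ℂ := ∑ m ∈ S X, c m * (n6 m : ℂ) * conj (Gh f m)

/-- coefficients supported on elements prime to `b` -/
def SuppC (c : Eis → ℂ) (b : Eis) : Prop := ∀ m, c m ≠ 0 → IsCoprime m b

/-- the contribution of one `m` -/
lemma th_point {l b m g₂ b' l' : Eis} (hg₂ : IsPrim g₂)
    (hlg : l = g₂ * l') (hbg : b = g₂ * b') (hcop : IsCoprime l' b') (hsb : Squarefree b)
    (hsm : Squarefree m) (hmb : IsCoprime m b) {g₁ l₁ m₁ : Eis} (hg₁ : IsPrim g₁)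
    (hm₁ : IsPrim m₁) (hlg₁ : l = g₁ * l₁) (hmg₁ : m = g₁ * m₁) (hc₁ : IsCoprime l₁ m₁) :
    (¬ (g₁ * g₂) ^ 2 ∣ l → th (l * m * b) = 0) ∧
    (∀ l₂, l = (g₁ * g₂) ^ 2 * l₂ →
      IsCoprime (l₂ * b') m₁ ∧
      th (l * m * b) = conj (Gh (l₂ * b') m₁) * (n6 m₁ : ℂ) * th (l₂ * b')) := by
  have hsmb : Squarefree (m * b) := by
    rw [squarefree_mul_iff]; exact ⟨hmb.isRelPrime, hsm, hsb⟩
  have hg0 : IsPrim (g₁ * g₂) := hg₁.mul hg₂
  have hg₁m : g₁ ∣ m := ⟨m₁, hmg₁⟩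
  have hg₂b : g₂ ∣ b := ⟨b', hbg⟩
  have hcg : IsCoprime g₁ g₂ := (hmb.of_isCoprime_of_dvd_left hg₁m).of_isCoprime_of_dvd_right hg₂b
  have hcm₁b : IsCoprime m₁ b := hmb.of_isCoprime_of_dvd_left ⟨g₁, by rw [hmg₁]; ring⟩
  have hcg₁b : IsCoprime g₁ b := hmb.of_isCoprime_of_dvd_left hg₁m
  have hg₁m₁ : IsCoprime g₁ m₁ := by
    rw [hmg₁] at hsm
    exact (squarefree_mul_iff.mp hsm).1.isCoprime
  have hg₂b' : IsCoprime g₂ b' := by
    rw [hbg] at hsb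
    exact (squarefree_mul_iff.mp hsb).1.isCoprime
  -- `l = g₁ g₂ q`
  obtain ⟨q, hq⟩ : g₁ * g₂ ∣ l := hcg.mul_dvd ⟨l₁, hlg₁⟩ ⟨l', hlg⟩
  have hl₁ : l₁ = g₂ * q := by
    apply mul_left_cancel₀ hg₁.ne_zero
    rw [← hlg₁, hq]; ring
  have hl' : l' = g₁ * q := by
    apply mul_left_cancel₀ hg₂.ne_zero
    rw [← hlg, hq]; ring
  have hqm₁ : IsCoprime q m₁ := by
    rw [hl₁] at hc₁; exact hc₁.of_mul_left_right
  have hqb' : IsCoprime q b' := by
    rw [hl'] at hcop; exact hcop.of_mul_left_right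
  have hqu : IsCoprime q (m₁ * b') := hqm₁.mul_right hqb'
  have hsu : Squarefree ((g₁ * g₂) * (m₁ * b')) := by
    have : (g₁ * g₂) * (m₁ * b') = m * b := by rw [hmg₁, hbg]; ring
    rw [this]; exact hsmb
  have heq : l * m * b = ((g₁ * g₂) * q) * ((g₁ * g₂) * (m₁ * b')) := by
    rw [hq, hmg₁, hbg]; ring
  constructor
  · intro hnd
    rw [heq]
    refine th_gcd hg0 hsu ?_
    rintro ⟨s, hs⟩
    exact hnd ⟨s, by rw [hq, hs]; ring⟩
  · intro l₂ hl₂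
    have hq2 : q = (g₁ * g₂) * l₂ := by
      apply mul_left_cancel₀ hg0.ne_zero
      rw [← hq, hl₂]; ring
    have hc2 : IsCoprime l₂ m₁ := by
      rw [hq2] at hqm₁; exact hqm₁.of_mul_left_right
    have hc3 : IsCoprime (l₂ * b') m₁ := by
      refine IsCoprime.mul_left hc2 ?_
      exact (hcm₁b.of_isCoprime_of_dvd_right ⟨g₂, by rw [hbg]; ring⟩).symm
    refine ⟨hc3, ?_⟩
    have hsm₁ : Squarefree m₁ := by
      rw [hmg₁] at hsm; exact hsm.of_mul_right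
    have e1 : l * m * b = (l₂ * b' * m₁) * (g₁ * g₂) ^ 3 := by
      rw [hl₂, hmg₁, hbg]; ring
    rw [e1, th_cube hg0, th_mul hm₁ hsm₁ hc3]


lemma prim_mul_iff {a b : Eis} (ha : IsPrim a) : IsPrim (a * b) ↔ IsPrim b :=
  ⟨fun h => IsPrim.of_mul_left h ha, fun h => ha.mul h⟩

lemma dvd_sq_eq {g l : Eis} (hg : g ≠ 0) (h : g ^ 2 ∣ l) : l = g ^ 2 * (l / g ^ 2) := by
  obtain ⟨t, rfl⟩ := h
  rw [mul_div_cancel_left₀ _ (pow_ne_zero 2 hg)]

open Classical in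
/-- **(D3)** the sum over `m` at one frequency `l`; the new frequency `l / (g₁ g₂)²` is prime
to `b'`. -/
theorem dual_point' {X : ℝ} (hX : 0 ≤ X) {c : Eis → ℂ} (hS : ∀ h, c h ≠ 0 → h ∈ S X) {b : Eis}
    (hb : IsPrim b) (hsb : Squarefree b) (hc : SuppC c b) (l : Eis) :
    ∃ g₂ b', IsPrim g₂ ∧ IsPrim b' ∧ b = g₂ * b' ∧
      (∀ g₁ t : Eis, l = (g₁ * g₂) ^ 2 * t → IsCoprime t b') ∧
      ∑ m ∈ S X, c m * th (l * m * b) =
        ∑ g₁ ∈ S X, if (g₁ * g₂) ^ 2 ∣ l then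
          th ((l / (g₁ * g₂) ^ 2) * b') *
            Tc X (fun m => c (g₁ * m)) ((l / (g₁ * g₂) ^ 2) * b') else 0 := by
  obtain ⟨g₂, l', b', hg₂, hb', hlg, hbg, hcop⟩ := exists_gcd l hb
  refine ⟨g₂, b', hg₂, hb', hbg, ?_, ?_⟩
  · intro g₁ t ht
    have e1 : l' = g₁ ^ 2 * g₂ * t := by
      apply mul_left_cancel₀ hg₂.ne_zero
      rw [← hlg, ht]; ring
    rw [e1] at hcop
    exact hcop.of_mul_left_right
  set F : Eis → Eis → ℂ := fun g₁ m₁ => if (g₁ * g₂) ^ 2 ∣ l then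
    th ((l / (g₁ * g₂) ^ 2) * b') * (c (g₁ * m₁) * (n6 m₁ : ℂ) *
      conj (Gh ((l / (g₁ * g₂) ^ 2) * b') m₁)) else 0 with hF
  have hR : ∑ g₁ ∈ S X, (if (g₁ * g₂) ^ 2 ∣ l then
          th ((l / (g₁ * g₂) ^ 2) * b') *
            Tc X (fun m => c (g₁ * m)) ((l / (g₁ * g₂) ^ 2) * b') else 0) =
      ∑ m ∈ S X, ∑ g₁ ∈ S X, ∑ m₁ ∈ S X, if g₁ * m₁ = m then F g₁ m₁ else 0 := by
    rw [Finset.sum_comm]
    refine Finset.sum_congr rfl (fun g₁ _ => ?_)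
    rw [Finset.sum_comm]
    have h1 : ∀ m₁ ∈ S X, ∑ m ∈ S X, (if g₁ * m₁ = m then F g₁ m₁ else 0) = F g₁ m₁ := by
      intro m₁ _
      rw [Finset.sum_ite_eq]
      split_ifs with h
      · rfl
      · have : c (g₁ * m₁) = 0 := by
          by_contra hne; exact h (hS _ hne)
        rw [hF]
        simp only [this]
        split_ifs <;> simp
    rw [Finset.sum_congr rfl h1, hF]
    by_cases hd : (g₁ * g₂) ^ 2 ∣ l
    · simp only [if_pos hd]
      unfold Tc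
      rw [Finset.mul_sum]
    · simp only [if_neg hd]
      rw [Finset.sum_const_zero]
  rw [hR]
  refine Finset.sum_congr rfl (fun m hm => ?_)
  obtain ⟨hmX, hmp, hms⟩ := (mem_S hX).1 hm
  by_cases hcm : c m = 0
  · rw [hcm, zero_mul]
    symm
    refine Finset.sum_eq_zero (fun g₁ _ => Finset.sum_eq_zero (fun m₁ _ => ?_))
    split_ifs with h
    · rw [hF]
      simp only [h, hcm]
      split_ifs <;> simp
    · rfl
  have hmb : IsCoprime m b := hc m hcm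
  obtain ⟨g₁, l₁, m₁, hg₁, hm₁, hlg₁, hmg₁, hc₁⟩ := exists_gcd l hmp
  have hP := th_point hg₂ hlg hbg hcop hsb hms hmb hg₁ hm₁ hlg₁ hmg₁ hc₁
  have hg₁S : g₁ ∈ S X := by
    refine (mem_S hX).2 ⟨?_, hg₁, ?_⟩
    · refine le_trans ?_ hmX
      exact_mod_cast nm_le_of_dvd hmp.ne_zero ⟨m₁, hmg₁⟩
    · rw [hmg₁] at hms; exact hms.of_mul_left
  have hm₁S : m₁ ∈ S X := by
    refine (mem_S hX).2 ⟨?_, hm₁, ?_⟩
    · refine le_trans ?_ hmX
      exact_mod_cast nm_le_of_dvd hmp.ne_zero ⟨g₁, by rw [hmg₁]; ring⟩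
    · rw [hmg₁] at hms; exact hms.of_mul_right
  -- only the pair `(g₁, m₁)` contributes
  have hone : ∀ g ∈ S X, ∀ k ∈ S X, (g, k) ≠ (g₁, m₁) →
      (if g * k = m then F g k else 0) = 0 := by
    intro g hg k hk hne
    obtain ⟨_, hgp, _⟩ := (mem_S hX).1 hg
    obtain ⟨_, hkp, _⟩ := (mem_S hX).1 hk
    split_ifs with h
    · rw [hF]
      simp only
      split_ifs with hd
      · obtain ⟨t, ht⟩ := hd
        have hne0 : (g * g₂) ^ 2 ≠ 0 := pow_ne_zero 2 (hgp.mul hg₂).ne_zero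
        have e1 : l / (g * g₂) ^ 2 = t := by rw [ht, mul_div_cancel_left₀ _ hne0]
        rw [e1]
        by_cases hcc : IsCoprime (t * b') k
        · exfalso
          apply hne
          have hgk : IsCoprime g k := by
            rw [← h] at hms
            exact (squarefree_mul_iff.mp hms).1.isCoprime
          have hg₂k : IsCoprime g₂ k := by
            have h1 : IsCoprime k b := hmb.of_isCoprime_of_dvd_left ⟨g, by rw [← h]; ring⟩
            exact (h1.of_isCoprime_of_dvd_right ⟨b', hbg⟩).symm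
          have htk : IsCoprime t k := hcc.of_mul_left_left
          have h2 : IsCoprime (g * g₂ ^ 2 * t) k :=
            ((hgk.mul_left (hg₂k.pow_left)).mul_left htk)
          have h3 := gcd_unique hgp hg₁ (l₁ := g * g₂ ^ 2 * t) (u₁ := k) (l₁' := l₁) (u₁' := m₁)
            (by rw [← hlg₁, ht]; ring) (by rw [h, hmg₁]) h2 hc₁
          rw [h3.1, h3.2.2]
        · rw [Gh_zero hkp hcc]; simp
      · rfl
    · rfl
  rw [Finset.sum_eq_single g₁ (fun g hg hgne => Finset.sum_eq_zero (fun k hk =>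
      hone g hg k hk (fun he => hgne (congrArg Prod.fst he)))) (fun h => absurd hg₁S h),
    Finset.sum_eq_single m₁ (fun k hk hkne => hone g₁ hg₁S k hk
      (fun he => hkne (congrArg Prod.snd he))) (fun h => absurd hm₁S h), if_pos hmg₁.symm]
  rw [hF]
  simp only
  by_cases hd : (g₁ * g₂) ^ 2 ∣ l
  · rw [if_pos hd]
    have e1 := dvd_sq_eq (hg₁.mul hg₂).ne_zero hd
    obtain ⟨_, h2⟩ := hP.2 _ e1
    rw [h2, ← hmg₁]; ring
  · rw [if_neg hd, hP.1 hd, mul_zero]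

open Classical in
/-- **(D3)** the sum over `m` at one frequency `l`. -/
theorem dual_point {X : ℝ} (hX : 0 ≤ X) {c : Eis → ℂ} (hS : ∀ h, c h ≠ 0 → h ∈ S X) {b : Eis}
    (hb : IsPrim b) (hsb : Squarefree b) (hc : SuppC c b) (l : Eis) :
    ∃ g₂ b', IsPrim g₂ ∧ IsPrim b' ∧ b = g₂ * b' ∧
      ∑ m ∈ S X, c m * th (l * m * b) =
        ∑ g₁ ∈ S X, if (g₁ * g₂) ^ 2 ∣ l then
          th ((l / (g₁ * g₂) ^ 2) * b') *
            Tc X (fun m => c (g₁ * m)) ((l / (g₁ * g₂) ^ 2) * b') else 0 := by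
  obtain ⟨g₂, b', h1, h2, h3, -, h5⟩ := dual_point' hX hS hb hsb hc l
  exact ⟨g₂, b', h1, h2, h3, h5⟩

/-! ### (D4): the absolute version summed over `l` -/

lemma norm_Gh_le {h a : Eis} (ha : IsPrim a) : ‖Gh h a‖ ≤ 1 := by
  by_cases hs : Squarefree a
  · by_cases hc : IsCoprime h a
    · exact (norm_Gh_one ha hs hc).le
    · rw [Gh_zero ha hc]; simp
  · rw [Gh_not_sqf ha hs]; simp

lemma norm_Tc_le {X : ℝ} (hX : 0 ≤ X) (c : Eis → ℂ) (f : Eis) :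
    ‖Tc X c f‖ ≤ ∑ m ∈ S X, ‖c m‖ := by
  unfold Tc
  refine (norm_sum_le _ _).trans (Finset.sum_le_sum (fun m hm => ?_))
  obtain ⟨_, hmp, _⟩ := (mem_S hX).1 hm
  rw [norm_mul, norm_mul, RCLike.norm_conj, Complex.norm_real, Real.norm_eq_abs,
    abs_of_pos (n6_pos hmp.ne_zero)]
  have h1 := n6_le_one hmp.ne_zero
  have h2 := norm_Gh_le (h := f) hmp
  have h0 := (n6_pos hmp.ne_zero).le
  calc ‖c m‖ * n6 m * ‖Gh f m‖ ≤ ‖c m‖ * 1 * 1 := by gcongr
    _ = ‖c m‖ := by ring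

open Classical in
/-- change of variables `l = g² l'` in a sum over `l`. -/
lemma tsum_sq {g : Eis} (hg : g ≠ 0) (V H : Eis → ℝ) :
    ∑' l : Eis, (if l = 0 then 0 else V l * (if g ^ 2 ∣ l then H (l / g ^ 2) else 0)) =
      ∑' l : Eis, if l = 0 then 0 else V (g ^ 2 * l) * H l := by
  have hg2 : g ^ 2 ≠ 0 := pow_ne_zero 2 hg
  have hinj : Function.Injective (fun l : Eis => g ^ 2 * l) := fun a b h =>
    mul_left_cancel₀ hg2 h
  set F : Eis → ℝ := fun l : Eis => if l = 0 then (0 : ℝ) else V l *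
        (if g ^ 2 ∣ l then H (l / g ^ 2) else 0) with hF
  have h1 : ∀ l : Eis, (if l = 0 then (0 : ℝ) else V (g ^ 2 * l) * H l) = F (g ^ 2 * l) := by
    intro l
    rw [hF]
    simp only [mul_eq_zero, hg2, false_or, dvd_mul_right, if_true,
      mul_div_cancel_left₀ _ hg2]
  have h2 : ∑' l : Eis, F (g ^ 2 * l) = ∑' l : Eis, F l := by
    refine hinj.tsum_eq (f := F) ?_
    intro l hl
    rw [Function.mem_support] at hl
    by_cases hd : g ^ 2 ∣ l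
    · obtain ⟨t, rfl⟩ := hd
      exact ⟨t, rfl⟩
    · exfalso; apply hl
      rw [hF]
      simp only [if_neg hd, mul_zero]
      split_ifs <;> rfl
  rw [tsum_congr h1, h2]

open Classical in
lemma summable_sq {g : Eis} (hg : g ≠ 0) {V : Eis → ℝ} (hV : ∀ l, 0 ≤ V l) (hVs : Summable V)
    {H : Eis → ℝ} {B : ℝ} (hH : ∀ l, 0 ≤ H l) (hHB : ∀ l, H l ≤ B) :
    Summable (fun l : Eis => if l = 0 then 0 else V l * (if g ^ 2 ∣ l then H (l / g ^ 2) else 0)) ∧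
    Summable (fun l : Eis => if l = 0 then 0 else V (g ^ 2 * l) * H l) := by
  have hg2 : g ^ 2 ≠ 0 := pow_ne_zero 2 hg
  have hB : 0 ≤ B := (hH 0).trans (hHB 0)
  have hinj : Function.Injective (fun l : Eis => g ^ 2 * l) := fun a b h =>
    mul_left_cancel₀ hg2 h
  constructor
  · refine Summable.of_nonneg_of_le (fun l => ?_) (fun l => ?_) (hVs.mul_right B)
    · split_ifs
      · exact le_rfl
      · exact mul_nonneg (hV l) (hH _)
      · rw [mul_zero]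
    · split_ifs
      · exact mul_nonneg (hV l) hB
      · exact mul_le_mul_of_nonneg_left (hHB _) (hV l)
      · rw [mul_zero]; exact mul_nonneg (hV l) hB
  · refine Summable.of_nonneg_of_le (fun l => ?_) (fun l => ?_)
      ((hVs.comp_injective hinj).mul_right B)
    · split_ifs
      · exact le_rfl
      · exact mul_nonneg (hV _) (hH _)
    · split_ifs
      · exact mul_nonneg (hV _) hB
      · exact mul_le_mul_of_nonneg_left (hHB _) (hV _)

open Classical in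
/-- **(D4)** -/
theorem dual_abs {X : ℝ} (hX : 0 ≤ X) {c : Eis → ℂ} (hS : ∀ h, c h ≠ 0 → h ∈ S X) {b : Eis}
    (hb : IsPrim b) (hsb : Squarefree b) (hc : SuppC c b) {V : Eis → ℝ} (hV : ∀ l, 0 ≤ V l)
    (hVs : Summable V) :
    ∑' l : Eis, (if l = 0 then 0 else V l * ‖∑ m ∈ S X, c m * th (l * m * b)‖) ≤
      ∑ g₂ ∈ dvs b, ∑ g₁ ∈ S X, ∑' l : Eis, if l = 0 then 0 else
        V ((g₁ * g₂) ^ 2 * l) * ‖Tc X (fun m => c (g₁ * m)) (l * (b / g₂))‖ := by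
  set H : Eis → Eis → Eis → ℝ := fun g₂ g₁ l =>
    ‖Tc X (fun m => c (g₁ * m)) (l * (b / g₂))‖ with hH
  set B : Eis → ℝ := fun g₁ => ∑ m ∈ S X, ‖c (g₁ * m)‖ with hBdef
  have hHn : ∀ g₂ g₁ l, 0 ≤ H g₂ g₁ l := fun _ _ _ => norm_nonneg _
  have hHB : ∀ g₂ g₁ l, H g₂ g₁ l ≤ B g₁ := fun g₂ g₁ l => norm_Tc_le hX _ _
  have hne : ∀ g₂ ∈ dvs b, ∀ g₁ ∈ S X, g₁ * g₂ ≠ 0 := fun g₂ h2 g₁ h1 =>
    (((mem_S hX).1 h1).2.1.mul (isPrim_of_mem_dvs h2)).ne_zero
  have hB0 : 0 ≤ ∑ g₂ ∈ dvs b, ∑ g₁ ∈ S X, B g₁ :=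
    Finset.sum_nonneg fun _ _ => Finset.sum_nonneg fun g₁ _ =>
      Finset.sum_nonneg fun _ _ => norm_nonneg _
  -- pointwise
  have hpt : ∀ l : Eis, l ≠ 0 → ‖∑ m ∈ S X, c m * th (l * m * b)‖ ≤
      ∑ g₂ ∈ dvs b, ∑ g₁ ∈ S X, (if (g₁ * g₂) ^ 2 ∣ l then H g₂ g₁ (l / (g₁ * g₂) ^ 2) else 0) := by
    intro l hl
    obtain ⟨g₂, b', hg₂, hb', hbg, he⟩ := dual_point hX hS hb hsb hc l
    have hmem : g₂ ∈ dvs b := (mem_dvs hb.ne_zero).2 ⟨hg₂, ⟨b', hbg⟩⟩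
    have hb'e : b / g₂ = b' := by rw [hbg, mul_div_cancel_left₀ _ hg₂.ne_zero]
    rw [he]
    refine le_trans ?_ (Finset.single_le_sum (f := fun g₂ => ∑ g₁ ∈ S X,
      (if (g₁ * g₂) ^ 2 ∣ l then H g₂ g₁ (l / (g₁ * g₂) ^ 2) else 0)) (fun g _ => ?_) hmem)
    · refine (norm_sum_le _ _).trans (Finset.sum_le_sum (fun g₁ hg₁ => ?_))
      split_ifs with hd
      · rw [norm_mul, hH]
        simp only
        rw [hb'e]
        have hg0 := hne g₂ hmem g₁ hg₁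
        have hq : l / (g₁ * g₂) ^ 2 ≠ 0 := by
          intro h0
          have := dvd_sq_eq hg0 hd
          rw [h0, mul_zero] at this
          exact hl this
        have h1 := P3all283.norm_th_le (mul_ne_zero hq hb'.ne_zero)
        calc _ ≤ 1 * ‖Tc X (fun m => c (g₁ * m)) ((l / (g₁ * g₂) ^ 2) * b')‖ := by
              gcongr
          _ = _ := one_mul _
      · simp
    · refine Finset.sum_nonneg (fun g₁ _ => ?_)
      split_ifs
      · exact hHn _ _ _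
      · exact le_rfl
  -- sum over `l`
  have hsum : ∀ g₂ ∈ dvs b, ∀ g₁ ∈ S X, Summable (fun l : Eis => if l = 0 then 0 else
      V l * (if (g₁ * g₂) ^ 2 ∣ l then H g₂ g₁ (l / (g₁ * g₂) ^ 2) else 0)) := fun g₂ h2 g₁ h1 =>
    (summable_sq (hne g₂ h2 g₁ h1) hV hVs (hHn g₂ g₁) (hHB g₂ g₁)).1
  have hsum2 : Summable (fun l : Eis => ∑ g₂ ∈ dvs b, ∑ g₁ ∈ S X, (if l = 0 then 0 else
      V l * (if (g₁ * g₂) ^ 2 ∣ l then H g₂ g₁ (l / (g₁ * g₂) ^ 2) else 0))) :=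
    summable_sum fun g₂ h2 => summable_sum fun g₁ h1 => hsum g₂ h2 g₁ h1
  have hle : ∀ l : Eis, (if l = 0 then 0 else V l * ‖∑ m ∈ S X, c m * th (l * m * b)‖) ≤
      ∑ g₂ ∈ dvs b, ∑ g₁ ∈ S X, (if l = 0 then 0 else
      V l * (if (g₁ * g₂) ^ 2 ∣ l then H g₂ g₁ (l / (g₁ * g₂) ^ 2) else 0)) := by
    intro l
    by_cases hl : l = 0
    · simp [hl]
    · simp only [if_neg hl]
      refine (mul_le_mul_of_nonneg_left (hpt l hl) (hV l)).trans (le_of_eq ?_)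
      rw [Finset.mul_sum]
      exact Finset.sum_congr rfl fun g₂ _ => by rw [Finset.mul_sum]
  have hsum1 : Summable (fun l : Eis => if l = 0 then 0 else
      V l * ‖∑ m ∈ S X, c m * th (l * m * b)‖) :=
    Summable.of_nonneg_of_le (fun l => by
      split_ifs
      · exact le_rfl
      · exact mul_nonneg (hV l) (norm_nonneg _)) hle hsum2
  refine (Summable.tsum_le_tsum hle hsum1 hsum2).trans (le_of_eq ?_)
  have hsum3 : ∀ g₂ ∈ dvs b, Summable (fun l : Eis => ∑ g₁ ∈ S X, (if l = 0 then 0 else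
      V l * (if (g₁ * g₂) ^ 2 ∣ l then H g₂ g₁ (l / (g₁ * g₂) ^ 2) else 0))) :=
    fun g₂ h2 => summable_sum fun g₁ h1 => hsum g₂ h2 g₁ h1
  rw [Summable.tsum_finsetSum hsum3]
  refine Finset.sum_congr rfl (fun g₂ h2 => ?_)
  rw [Summable.tsum_finsetSum (hsum g₂ h2)]
  refine Finset.sum_congr rfl (fun g₁ h1 => ?_)
  exact tsum_sq (hne g₂ h2 g₁ h1) V (H g₂ g₁)

open Classical in
/-- **(D4')** the same with the factor `‖th‖` kept -/
theorem dual_abs' {X : ℝ} (hX : 0 ≤ X) {c : Eis → ℂ} (hS : ∀ h, c h ≠ 0 → h ∈ S X) {b : Eis}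
    (hb : IsPrim b) (hsb : Squarefree b) (hc : SuppC c b) {V : Eis → ℝ} (hV : ∀ l, 0 ≤ V l)
    (hVs : Summable V) :
    ∑' l : Eis, (if l = 0 then 0 else V l * ‖∑ m ∈ S X, c m * th (l * m * b)‖) ≤
      ∑ g₂ ∈ dvs b, ∑ g₁ ∈ S X, ∑' l : Eis, if l = 0 then 0 else
        V ((g₁ * g₂) ^ 2 * l) * (‖th (l * (b / g₂))‖ *
          ‖Tc X (fun m => c (g₁ * m)) (l * (b / g₂))‖) := by
  set H : Eis → Eis → Eis → ℝ := fun g₂ g₁ l => if l = 0 then 0 else
    ‖th (l * (b / g₂))‖ * ‖Tc X (fun m => c (g₁ * m)) (l * (b / g₂))‖ with hH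
  set B : Eis → ℝ := fun g₁ => ∑ m ∈ S X, ‖c (g₁ * m)‖ with hBdef
  have hBn : ∀ g₁, 0 ≤ B g₁ := fun g₁ => Finset.sum_nonneg fun _ _ => norm_nonneg _
  have hb2 : ∀ g₂ ∈ dvs b, b / g₂ ≠ 0 := by
    intro g₂ h2 h0
    obtain ⟨hgp, v, hv⟩ := (mem_dvs hb.ne_zero).1 h2
    rw [hv, mul_div_cancel_left₀ _ hgp.ne_zero] at h0
    rw [h0, mul_zero] at hv
    exact hb.ne_zero hv
  have hHn : ∀ g₂ g₁ l, 0 ≤ H g₂ g₁ l := by
    intro g₂ g₁ l
    rw [hH]
    simp only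
    split_ifs
    · exact le_rfl
    · exact mul_nonneg (norm_nonneg _) (norm_nonneg _)
  have hHB : ∀ g₂ ∈ dvs b, ∀ g₁ l, H g₂ g₁ l ≤ B g₁ := by
    intro g₂ h2 g₁ l
    rw [hH]
    simp only
    split_ifs with hl
    · exact hBn g₁
    · have h1 := P3all283.norm_th_le (mul_ne_zero hl (hb2 g₂ h2))
      have h3 := norm_Tc_le hX (fun m => c (g₁ * m)) (l * (b / g₂))
      calc _ ≤ 1 * ‖Tc X (fun m => c (g₁ * m)) (l * (b / g₂))‖ := by gcongr
        _ = ‖Tc X (fun m => c (g₁ * m)) (l * (b / g₂))‖ := one_mul _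
        _ ≤ B g₁ := h3
  have hne : ∀ g₂ ∈ dvs b, ∀ g₁ ∈ S X, g₁ * g₂ ≠ 0 := fun g₂ h2 g₁ h1 =>
    (((mem_S hX).1 h1).2.1.mul (isPrim_of_mem_dvs h2)).ne_zero
  -- pointwise
  have hpt : ∀ l : Eis, l ≠ 0 → ‖∑ m ∈ S X, c m * th (l * m * b)‖ ≤
      ∑ g₂ ∈ dvs b, ∑ g₁ ∈ S X, (if (g₁ * g₂) ^ 2 ∣ l then H g₂ g₁ (l / (g₁ * g₂) ^ 2) else 0) := by
    intro l hl
    obtain ⟨g₂, b', hg₂, hb', hbg, he⟩ := dual_point hX hS hb hsb hc l
    have hmem : g₂ ∈ dvs b := (mem_dvs hb.ne_zero).2 ⟨hg₂, ⟨b', hbg⟩⟩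
    have hb'e : b / g₂ = b' := by rw [hbg, mul_div_cancel_left₀ _ hg₂.ne_zero]
    rw [he]
    refine le_trans ?_ (Finset.single_le_sum (f := fun g₂ => ∑ g₁ ∈ S X,
      (if (g₁ * g₂) ^ 2 ∣ l then H g₂ g₁ (l / (g₁ * g₂) ^ 2) else 0)) (fun g _ => ?_) hmem)
    · refine (norm_sum_le _ _).trans (Finset.sum_le_sum (fun g₁ hg₁ => ?_))
      split_ifs with hd
      · have hg0 := hne g₂ hmem g₁ hg₁
        have hq : l / (g₁ * g₂) ^ 2 ≠ 0 := by
          intro h0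
          have := dvd_sq_eq hg0 hd
          rw [h0, mul_zero] at this
          exact hl this
        rw [norm_mul, hH]
        simp only
        rw [if_neg hq, hb'e]
      · simp
    · refine Finset.sum_nonneg (fun g₁ _ => ?_)
      split_ifs
      · exact hHn _ _ _
      · exact le_rfl
  -- sum over `l`
  have hsq : ∀ g₂ ∈ dvs b, ∀ g₁ ∈ S X, _ := fun g₂ h2 g₁ h1 =>
    summable_sq (hne g₂ h2 g₁ h1) hV hVs (hHn g₂ g₁) (hHB g₂ h2 g₁)
  have hsum : ∀ g₂ ∈ dvs b, ∀ g₁ ∈ S X, Summable (fun l : Eis => if l = 0 then 0 else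
      V l * (if (g₁ * g₂) ^ 2 ∣ l then H g₂ g₁ (l / (g₁ * g₂) ^ 2) else 0)) := fun g₂ h2 g₁ h1 =>
    (hsq g₂ h2 g₁ h1).1
  have hsum2 : Summable (fun l : Eis => ∑ g₂ ∈ dvs b, ∑ g₁ ∈ S X, (if l = 0 then 0 else
      V l * (if (g₁ * g₂) ^ 2 ∣ l then H g₂ g₁ (l / (g₁ * g₂) ^ 2) else 0))) :=
    summable_sum fun g₂ h2 => summable_sum fun g₁ h1 => hsum g₂ h2 g₁ h1
  have hle : ∀ l : Eis, (if l = 0 then 0 else V l * ‖∑ m ∈ S X, c m * th (l * m * b)‖) ≤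
      ∑ g₂ ∈ dvs b, ∑ g₁ ∈ S X, (if l = 0 then 0 else
      V l * (if (g₁ * g₂) ^ 2 ∣ l then H g₂ g₁ (l / (g₁ * g₂) ^ 2) else 0)) := by
    intro l
    by_cases hl : l = 0
    · simp [hl]
    · simp only [if_neg hl]
      refine (mul_le_mul_of_nonneg_left (hpt l hl) (hV l)).trans (le_of_eq ?_)
      rw [Finset.mul_sum]
      exact Finset.sum_congr rfl fun g₂ _ => by rw [Finset.mul_sum]
  have hsum1 : Summable (fun l : Eis => if l = 0 then 0 else
      V l * ‖∑ m ∈ S X, c m * th (l * m * b)‖) :=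
    Summable.of_nonneg_of_le (fun l => by
      split_ifs
      · exact le_rfl
      · exact mul_nonneg (hV l) (norm_nonneg _)) hle hsum2
  refine (Summable.tsum_le_tsum hle hsum1 hsum2).trans (le_of_eq ?_)
  have hsum3 : ∀ g₂ ∈ dvs b, Summable (fun l : Eis => ∑ g₁ ∈ S X, (if l = 0 then 0 else
      V l * (if (g₁ * g₂) ^ 2 ∣ l then H g₂ g₁ (l / (g₁ * g₂) ^ 2) else 0))) :=
    fun g₂ h2 => summable_sum fun g₁ h1 => hsum g₂ h2 g₁ h1
  rw [Summable.tsum_finsetSum hsum3]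
  refine Finset.sum_congr rfl (fun g₂ h2 => ?_)
  rw [Summable.tsum_finsetSum (hsum g₂ h2)]
  refine Finset.sum_congr rfl (fun g₁ h1 => ?_)
  rw [tsum_sq (hne g₂ h2 g₁ h1) V (H g₂ g₁)]
  refine tsum_congr (fun l => ?_)
  by_cases hl : l = 0
  · simp [hl]
  · rw [if_neg hl, if_neg hl, hH]
    simp only
    rw [if_neg hl]

lemma n6_nonneg (a : Eis) : 0 ≤ n6 a := by unfold n6; positivity

open Classical in
/-- **(D4'')** the same with the factor `n6 (b / g₂) ‖th l‖` -/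
theorem dual_abs2 {X : ℝ} (hX : 0 ≤ X) {c : Eis → ℂ} (hS : ∀ h, c h ≠ 0 → h ∈ S X) {b : Eis}
    (hb : IsPrim b) (hsb : Squarefree b) (hc : SuppC c b) {V : Eis → ℝ} (hV : ∀ l, 0 ≤ V l)
    (hVs : Summable V) :
    ∑' l : Eis, (if l = 0 then 0 else V l * ‖∑ m ∈ S X, c m * th (l * m * b)‖) ≤
      ∑ g₂ ∈ dvs b, ∑ g₁ ∈ S X, ∑' l : Eis, if l = 0 then 0 else
        V ((g₁ * g₂) ^ 2 * l) * (n6 (b / g₂) * ‖th l‖ *
          ‖Tc X (fun m => c (g₁ * m)) (l * (b / g₂))‖) := by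
  set H : Eis → Eis → Eis → ℝ := fun g₂ g₁ l => if l = 0 then 0 else
    n6 (b / g₂) * ‖th l‖ * ‖Tc X (fun m => c (g₁ * m)) (l * (b / g₂))‖ with hH
  set B : Eis → ℝ := fun g₁ => ∑ m ∈ S X, ‖c (g₁ * m)‖ with hBdef
  have hBn : ∀ g₁, 0 ≤ B g₁ := fun g₁ => Finset.sum_nonneg fun _ _ => norm_nonneg _
  have hb2 : ∀ g₂ ∈ dvs b, b / g₂ ≠ 0 := by
    intro g₂ h2 h0
    obtain ⟨hgp, v, hv⟩ := (mem_dvs hb.ne_zero).1 h2
    rw [hv, mul_div_cancel_left₀ _ hgp.ne_zero] at h0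
    rw [h0, mul_zero] at hv
    exact hb.ne_zero hv
  have hHn : ∀ g₂ g₁ l, 0 ≤ H g₂ g₁ l := by
    intro g₂ g₁ l
    rw [hH]
    simp only
    split_ifs
    · exact le_rfl
    · exact mul_nonneg (mul_nonneg (n6_nonneg _) (norm_nonneg _)) (norm_nonneg _)
  have hHB : ∀ g₂ ∈ dvs b, ∀ g₁ l, H g₂ g₁ l ≤ B g₁ := by
    intro g₂ h2 g₁ l
    rw [hH]
    simp only
    split_ifs with hl
    · exact hBn g₁
    · have h1 := P3all283.norm_th_le hl
      have h4 := n6_le_one (hb2 g₂ h2)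
      have h5 := n6_nonneg (b / g₂)
      have h3 := norm_Tc_le hX (fun m => c (g₁ * m)) (l * (b / g₂))
      calc _ ≤ 1 * 1 * ‖Tc X (fun m => c (g₁ * m)) (l * (b / g₂))‖ := by gcongr
        _ = ‖Tc X (fun m => c (g₁ * m)) (l * (b / g₂))‖ := by ring
        _ ≤ B g₁ := h3
  have hne : ∀ g₂ ∈ dvs b, ∀ g₁ ∈ S X, g₁ * g₂ ≠ 0 := fun g₂ h2 g₁ h1 =>
    (((mem_S hX).1 h1).2.1.mul (isPrim_of_mem_dvs h2)).ne_zero
  -- pointwise
  have hpt : ∀ l : Eis, l ≠ 0 → ‖∑ m ∈ S X, c m * th (l * m * b)‖ ≤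
      ∑ g₂ ∈ dvs b, ∑ g₁ ∈ S X, (if (g₁ * g₂) ^ 2 ∣ l then H g₂ g₁ (l / (g₁ * g₂) ^ 2) else 0) := by
    intro l hl
    obtain ⟨g₂, b', hg₂, hb', hbg, hcop, he⟩ := dual_point' hX hS hb hsb hc l
    have hsb' : Squarefree b' := by rw [hbg] at hsb; exact hsb.of_mul_right
    have hmem : g₂ ∈ dvs b := (mem_dvs hb.ne_zero).2 ⟨hg₂, ⟨b', hbg⟩⟩
    have hb'e : b / g₂ = b' := by rw [hbg, mul_div_cancel_left₀ _ hg₂.ne_zero]
    rw [he]
    refine le_trans ?_ (Finset.single_le_sum (f := fun g₂ => ∑ g₁ ∈ S X,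
      (if (g₁ * g₂) ^ 2 ∣ l then H g₂ g₁ (l / (g₁ * g₂) ^ 2) else 0)) (fun g _ => ?_) hmem)
    · refine (norm_sum_le _ _).trans (Finset.sum_le_sum (fun g₁ hg₁ => ?_))
      split_ifs with hd
      · have hg0 := hne g₂ hmem g₁ hg₁
        have hq : l / (g₁ * g₂) ^ 2 ≠ 0 := by
          intro h0
          have := dvd_sq_eq hg0 hd
          rw [h0, mul_zero] at this
          exact hl this
        have hcc : IsCoprime (l / (g₁ * g₂) ^ 2) b' := hcop g₁ _ (dvd_sq_eq hg0 hd)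
        have hth : ‖th ((l / (g₁ * g₂) ^ 2) * b')‖ = n6 b' * ‖th (l / (g₁ * g₂) ^ 2)‖ := by
          rw [th_mul hb' hsb' hcc, norm_mul, norm_mul, RCLike.norm_conj, Complex.norm_real,
            Real.norm_eq_abs, abs_of_nonneg (n6_nonneg _), norm_Gh_one hb' hsb' hcc, one_mul]
        rw [norm_mul, hH]
        simp only
        rw [if_neg hq, hb'e, hth]
      · simp
    · refine Finset.sum_nonneg (fun g₁ _ => ?_)
      split_ifs
      · exact hHn _ _ _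
      · exact le_rfl
  -- sum over `l`
  have hsq : ∀ g₂ ∈ dvs b, ∀ g₁ ∈ S X, _ := fun g₂ h2 g₁ h1 =>
    summable_sq (hne g₂ h2 g₁ h1) hV hVs (hHn g₂ g₁) (hHB g₂ h2 g₁)
  have hsum : ∀ g₂ ∈ dvs b, ∀ g₁ ∈ S X, Summable (fun l : Eis => if l = 0 then 0 else
      V l * (if (g₁ * g₂) ^ 2 ∣ l then H g₂ g₁ (l / (g₁ * g₂) ^ 2) else 0)) := fun g₂ h2 g₁ h1 =>
    (hsq g₂ h2 g₁ h1).1
  have hsum2 : Summable (fun l : Eis => ∑ g₂ ∈ dvs b, ∑ g₁ ∈ S X, (if l = 0 then 0 else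
      V l * (if (g₁ * g₂) ^ 2 ∣ l then H g₂ g₁ (l / (g₁ * g₂) ^ 2) else 0))) :=
    summable_sum fun g₂ h2 => summable_sum fun g₁ h1 => hsum g₂ h2 g₁ h1
  have hle : ∀ l : Eis, (if l = 0 then 0 else V l * ‖∑ m ∈ S X, c m * th (l * m * b)‖) ≤
      ∑ g₂ ∈ dvs b, ∑ g₁ ∈ S X, (if l = 0 then 0 else
      V l * (if (g₁ * g₂) ^ 2 ∣ l then H g₂ g₁ (l / (g₁ * g₂) ^ 2) else 0)) := by
    intro l
    by_cases hl : l = 0
    · simp [hl]
    · simp only [if_neg hl]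
      refine (mul_le_mul_of_nonneg_left (hpt l hl) (hV l)).trans (le_of_eq ?_)
      rw [Finset.mul_sum]
      exact Finset.sum_congr rfl fun g₂ _ => by rw [Finset.mul_sum]
  have hsum1 : Summable (fun l : Eis => if l = 0 then 0 else
      V l * ‖∑ m ∈ S X, c m * th (l * m * b)‖) :=
    Summable.of_nonneg_of_le (fun l => by
      split_ifs
      · exact le_rfl
      · exact mul_nonneg (hV l) (norm_nonneg _)) hle hsum2
  refine (Summable.tsum_le_tsum hle hsum1 hsum2).trans (le_of_eq ?_)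
  have hsum3 : ∀ g₂ ∈ dvs b, Summable (fun l : Eis => ∑ g₁ ∈ S X, (if l = 0 then 0 else
      V l * (if (g₁ * g₂) ^ 2 ∣ l then H g₂ g₁ (l / (g₁ * g₂) ^ 2) else 0))) :=
    fun g₂ h2 => summable_sum fun g₁ h1 => hsum g₂ h2 g₁ h1
  rw [Summable.tsum_finsetSum hsum3]
  refine Finset.sum_congr rfl (fun g₂ h2 => ?_)
  rw [Summable.tsum_finsetSum (hsum g₂ h2)]
  refine Finset.sum_congr rfl (fun g₁ h1 => ?_)
  rw [tsum_sq (hne g₂ h2 g₁ h1) V (H g₂ g₁)]
  refine tsum_congr (fun l => ?_)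
  by_cases hl : l = 0
  · simp [hl]
  · rw [if_neg hl, if_neg hl, hH]
    simp only
    rw [if_neg hl]

/-! ### (D1), (D2) -/

open Classical in
/-- **(D1)** `th (l u)` as a sum over the primary divisors of `u` (one term). -/
theorem th_dvs {l u : Eis} (hu : IsPrim u) (hs : Squarefree u) :
    th (l * u) = ∑ g ∈ dvs u, if g ^ 2 ∣ l then
      (n6 (u / g) : ℂ) * conj (Gh (l / g ^ 2) (u / g)) * th (l / g ^ 2) else 0 := by
  obtain ⟨g, l₁, u₁, hg, hu₁, hlg, hug, hc⟩ := exists_gcd l hu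
  have hmem : g ∈ dvs u := (mem_dvs hu.ne_zero).2 ⟨hg, ⟨u₁, hug⟩⟩
  have hsu : Squarefree u₁ := by rw [hug] at hs; exact hs.of_mul_right
  have hgu : IsCoprime g u₁ := by
    rw [hug] at hs; exact (squarefree_mul_iff.mp hs).1.isCoprime
  rw [Finset.sum_eq_single g]
  · have e1 : u / g = u₁ := by rw [hug, mul_div_cancel_left₀ _ hg.ne_zero]
    rw [e1]
    by_cases hd : g ^ 2 ∣ l
    · rw [if_pos hd]
      obtain ⟨t, ht⟩ := hd
      have e2 : l / g ^ 2 = t := by rw [ht, mul_div_cancel_left₀ _ (pow_ne_zero 2 hg.ne_zero)]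
      have e3 : l₁ = g * t := by
        apply mul_left_cancel₀ hg.ne_zero
        rw [← hlg, ht]; ring
      have htu : IsCoprime t u₁ := by rw [e3] at hc; exact hc.of_mul_left_right
      rw [e2, ht, hug, th_gcd_sq hg hu₁ hsu htu]
      ring
    · rw [if_neg hd, hlg, hug]
      refine th_gcd hg (by rw [← hug]; exact hs) ?_
      rintro ⟨t, ht⟩
      exact hd ⟨t, by rw [hlg, ht]; ring⟩
  · intro k hk hne
    obtain ⟨hkp, v, hv⟩ := (mem_dvs hu.ne_zero).1 hk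
    split_ifs with hd
    · obtain ⟨t, ht⟩ := hd
      have e1 : u / k = v := by rw [hv, mul_div_cancel_left₀ _ hkp.ne_zero]
      have e2 : l / k ^ 2 = t := by rw [ht, mul_div_cancel_left₀ _ (pow_ne_zero 2 hkp.ne_zero)]
      have hvp : IsPrim v := IsPrim.of_mul_left (hv ▸ hu) hkp
      have hkv : IsCoprime k v := by
        rw [hv] at hs; exact (squarefree_mul_iff.mp hs).1.isCoprime
      rw [e1, e2]
      by_cases hcc : IsCoprime t v
      · exfalso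
        apply hne
        exact (gcd_unique hkp hg (l₁ := k * t) (u₁ := v) (l₁' := l₁) (u₁' := u₁)
          (by rw [← hlg, ht]; ring) (by rw [← hug, hv]) (hkv.mul_left hcc) hc).1
      · rw [Gh_zero hvp hcc]; simp
    · rfl
  · intro h; exact absurd hmem h

lemma norm_th_le_one {h : Eis} (hh : h ≠ 0) : ‖th h‖ ≤ 1 := P3all283.norm_th_le hh

open Classical in
/-- change of variables, complex version -/
lemma tsum_sqC {g : Eis} (hg : g ≠ 0) (V H : Eis → ℂ) :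
    ∑' l : Eis, (if l = 0 then 0 else V l * (if g ^ 2 ∣ l then H (l / g ^ 2) else 0)) =
      ∑' l : Eis, if l = 0 then 0 else V (g ^ 2 * l) * H l := by
  have hg2 : g ^ 2 ≠ 0 := pow_ne_zero 2 hg
  have hinj : Function.Injective (fun l : Eis => g ^ 2 * l) := fun a b h =>
    mul_left_cancel₀ hg2 h
  set F : Eis → ℂ := fun l : Eis => if l = 0 then (0 : ℂ) else V l *
        (if g ^ 2 ∣ l then H (l / g ^ 2) else 0) with hF
  have h1 : ∀ l : Eis, (if l = 0 then (0 : ℂ) else V (g ^ 2 * l) * H l) = F (g ^ 2 * l) := by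
    intro l
    rw [hF]
    simp only [mul_eq_zero, hg2, false_or, dvd_mul_right, if_true,
      mul_div_cancel_left₀ _ hg2]
  have h2 : ∑' l : Eis, F (g ^ 2 * l) = ∑' l : Eis, F l := by
    refine hinj.tsum_eq (f := F) ?_
    intro l hl
    rw [Function.mem_support] at hl
    by_cases hd : g ^ 2 ∣ l
    · obtain ⟨t, rfl⟩ := hd
      exact ⟨t, rfl⟩
    · exfalso; apply hl
      rw [hF]
      simp only [if_neg hd, mul_zero]
      split_ifs <;> rfl
  rw [tsum_congr h1, h2]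

open Classical in
/-- **(D2)** -/
theorem dual_sum {u : Eis} (hu : IsPrim u) (hs : Squarefree u) {W : Eis → ℂ}
    (hW : Summable (fun l => ‖W l‖)) :
    ∑' l : Eis, (if l = 0 then 0 else W l * th (l * u)) =
      ∑ g ∈ dvs u, ∑' l : Eis, if l = 0 then 0 else
        W (g ^ 2 * l) * ((n6 (u / g) : ℂ) * conj (Gh l (u / g)) * th l) := by
  set H : Eis → Eis → ℂ := fun g l => (n6 (u / g) : ℂ) * conj (Gh l (u / g)) * th l with hH
  have hHb : ∀ g ∈ dvs u, ∀ l : Eis, l ≠ 0 → ‖H g l‖ ≤ 1 := by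
    intro g hg l hl
    obtain ⟨hgp, v, hv⟩ := (mem_dvs hu.ne_zero).1 hg
    have e1 : u / g = v := by rw [hv, mul_div_cancel_left₀ _ hgp.ne_zero]
    have hvp : IsPrim v := IsPrim.of_mul_left (hv ▸ hu) hgp
    rw [hH]
    simp only
    rw [e1, norm_mul, norm_mul, RCLike.norm_conj, Complex.norm_real, Real.norm_eq_abs,
      abs_of_pos (n6_pos hvp.ne_zero)]
    have h1 := n6_le_one hvp.ne_zero
    have h2 := norm_Gh_le (h := l) hvp
    have h0 := (n6_pos hvp.ne_zero).le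
    have h3 := norm_th_le_one hl
    calc n6 v * ‖Gh l v‖ * ‖th l‖ ≤ 1 * 1 * 1 := by gcongr
      _ = 1 := by norm_num
  have hsum : ∀ g ∈ dvs u, Summable (fun l : Eis => if l = 0 then (0 : ℂ) else
      W l * (if g ^ 2 ∣ l then H g (l / g ^ 2) else 0)) := by
    intro g hg
    refine Summable.of_norm_bounded hW (fun l => ?_)
    split_ifs with h1 h2
    · rw [norm_zero]; exact norm_nonneg _
    · rw [norm_mul]
      have hgp := isPrim_of_mem_dvs hg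
      have hq : l / g ^ 2 ≠ 0 := by
        intro h0
        have := dvd_sq_eq hgp.ne_zero h2
        rw [h0, mul_zero] at this
        exact h1 this
      calc ‖W l‖ * ‖H g (l / g ^ 2)‖ ≤ ‖W l‖ * 1 := by
            gcongr; exact hHb g hg _ hq
        _ = ‖W l‖ := mul_one _
    · rw [mul_zero, norm_zero]; exact norm_nonneg _
  have hpt : ∀ l : Eis, (if l = 0 then (0 : ℂ) else W l * th (l * u)) =
      ∑ g ∈ dvs u, if l = 0 then (0 : ℂ) else
        W l * (if g ^ 2 ∣ l then H g (l / g ^ 2) else 0) := by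
    intro l
    by_cases hl : l = 0
    · simp [hl]
    · simp only [if_neg hl]
      rw [th_dvs hu hs, Finset.mul_sum]
  rw [tsum_congr hpt, Summable.tsum_finsetSum hsum]
  refine Finset.sum_congr rfl (fun g hg => ?_)
  exact tsum_sqC (isPrim_of_mem_dvs hg).ne_zero W (H g)

end Crest.Agent.R017.X6D502
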