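import Crest.Agent.R017.CM1_106
import Crest.Agent.R017.X6D_502
import Crest.Agent.R012.PsiRel_283
import Crest.Agent.R012.BilG_811
import Crest.Agent.R017.Sx3a_545

/-!
# Row 17, block C70, leaf E2, input (H1) (helper401): bilinear bound for natural Gauss sum series

Part a: structure of `gs (κ F E) d` for squarefree primary divisors `E`, `F` of `d`.
-/

set_option autoImplicit false

noncomputable section

open Finset
open scoped ComplexConjugate

namespace Crest.Agent.R017.H1401

open Crest.Agent.R012 Crest.Agent.R012.Eis Crest.Agent.R012.LS2 Crest.Agent.R012.GaussLoc283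
open Crest.Agent.R012.Div277 (tau dvs mem_dvs tau_le_rpow)
open Crest.Agent.R017.CM106
open Crest.Agent.R017.Sx545 (Sm)

/-- splitting off a prime from a squarefree divisor -/
lemma split_sqf {p b E : Eis} {j : ℕ} (hp : Prime p) (hpp : IsPrim p) (hE : IsPrim E)
    (hs : Squarefree E) (hd : E ∣ p ^ j * b) :
    (E ∣ b ∧ ¬ p ∣ E) ∨ ∃ E', E = p * E' ∧ IsPrim E' ∧ Squarefree E' ∧ E' ∣ b ∧ ¬ p ∣ E' := by
  by_cases h : p ∣ E
  · obtain ⟨E', rfl⟩ := h
    have hE' : IsPrim E' := hE.of_mul_left hpp
    have hs' : Squarefree E' := hs.of_mul_right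
    have hn : ¬ p ∣ E' := by
      rintro ⟨t, rfl⟩
      exact hp.not_isUnit (hs p ⟨t, by ring⟩)
    refine Or.inr ⟨E', rfl, hE', hs', ?_, hn⟩
    have h1 : E' ∣ p ^ j * b := (dvd_mul_left E' p).trans hd
    have hc : IsCoprime E' (p ^ j) := ((isCoprime_iff_not_dvd hp E').mpr hn).pow_right
    exact hc.dvd_of_dvd_mul_left h1
  · have hc : IsCoprime E (p ^ j) := ((isCoprime_iff_not_dvd hp E).mpr h).pow_right
    exact Or.inl ⟨hc.dvd_of_dvd_mul_left hd, h⟩

lemma isPrim_one' : IsPrim (1 : Eis) := isPrim_one

lemma eq_one_of_dvd_one {E : Eis} (hE : IsPrim E) (h : E ∣ 1) : E = 1 :=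
  hE.eq_of_associated isPrim_one (associated_of_dvd_dvd h (one_dvd _))

/-- the output of the structure theorem -/
def Str (κ d E F : Eis) : Prop :=
  ∃ x y z m : Eis, IsPrim x ∧ IsPrim y ∧ IsPrim z ∧ IsPrim m ∧ Squarefree (m * (x * (y * z))) ∧
    E = x * y ∧ F = z * y ∧ d = m * (x ^ 2 * z ^ 2 * y ^ 3) ∧
    ‖gs (κ * (F * E)) d‖ ^ 2 ≤ (nm m : ℝ) * (nm x : ℝ) ^ 3 * (nm z : ℝ) ^ 3 * (nm y : ℝ) ^ 4

lemma sqf_cons {p t : Eis} (hp : Prime p) (ht : Squarefree t) (h : ¬ p ∣ t) :
    Squarefree (p * t) := by
  rw [squarefree_mul_iff]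
  exact ⟨((isCoprime_iff_not_dvd hp t).mpr h).symm.isRelPrime, hp.squarefree, ht⟩

theorem gs_str {d : Eis} (hd : IsPrim d) : ∀ κ E F : Eis, IsCoprime κ d → IsPrim E →
    Squarefree E → E ∣ d → IsPrim F → Squarefree F → F ∣ d → gs (κ * (F * E)) d ≠ 0 →
    Str κ d E F := by
  have key : ∀ c, Sm 1 c → ∀ κ E F : Eis, IsCoprime κ c → IsPrim E →
      Squarefree E → E ∣ c → IsPrim F → Squarefree F → F ∣ c → gs (κ * (F * E)) c ≠ 0 →
      Str κ c E F := by
    refine Sm.induction_coprime (m := 1) ?_ ?_
    · intro κ E F _ hE _ hEd hF _ hFd _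
      have e1 := eq_one_of_dvd_one hE hEd
      have e2 := eq_one_of_dvd_one hF hFd
      subst e1 e2
      refine ⟨1, 1, 1, 1, isPrim_one, isPrim_one, isPrim_one, isPrim_one, ?_, by ring, by ring,
        by ring, ?_⟩
      · rw [mul_one, mul_one, mul_one]; exact squarefree_one
      · rw [gs_one_right syAx]; simp [nm_one]
    · intro p j b hpS hpp hj hbS hpb ih κ E F hκ hE hEs hEd hF hFs hFd hne
      have hp := hpS.prim
      have hb := hbS.prim
      have hκp : ¬ p ∣ κ := by
        intro hd
        have h1 : IsCoprime κ p := hκ.of_isCoprime_of_dvd_right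
          (dvd_mul_of_dvd_left (dvd_pow_self p (by omega)) b)
        exact (isCoprime_iff_not_dvd hpp κ).mp h1 hd
      have hκb : IsCoprime κ b := hκ.of_isCoprime_of_dvd_right (dvd_mul_left b _)
      have hpb' : IsCoprime p b := ((isCoprime_iff_not_dvd hpp b).mpr hpb).symm
      have hpjb : IsCoprime (p ^ j) b := hpb'.pow_left
      have hmul : gs (κ * (F * E)) (p ^ j * b) =
          gs (κ * (F * E)) (p ^ j) * gs (κ * (F * E) * p ^ j) b :=
        gs_mul' syAx _ (hp.pow j) hb hpjb
      rw [hmul] at hne
      have hne1 : gs (κ * (F * E)) (p ^ j) ≠ 0 := left_ne_zero_of_mul hne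
      have hne2 : gs (κ * (F * E) * p ^ j) b ≠ 0 := right_ne_zero_of_mul hne
      rcases split_sqf hpp hp hE hEs hEd with ⟨hEb, hpE⟩ | ⟨E', rfl, hE', hEs', hEb, hpE⟩
      · rcases split_sqf hpp hp hF hFs hFd with ⟨hFb, hpF⟩ | ⟨F', rfl, hF', hFs', hFb, hpF⟩
        · -- (0,0)
          have hnd : ¬ p ∣ κ * (F * E) := fun h => by
            rcases hpp.dvd_or_dvd h with h | h
            · exact hκp h
            · rcases hpp.dvd_or_dvd h with h | h
              · exact hpF h
              · exact hpE h
          have hj1 : j = 1 := by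
            by_contra hc
            exact hne1 (gs_pow_ge_two syAx hp hpp hnd (by omega))
          subst hj1
          have hre : κ * (F * E) * p ^ 1 = (κ * p) * (F * E) := by ring
          rw [hre] at hne2
          obtain ⟨x, y, z, m, hx, hy, hz, hm, hsq, e1, e2, e3, hn⟩ :=
            ih (κ * p) E F (hκb.mul_left hpb') hE hEs hEb hF hFs hFb hne2
          have hpm : ¬ p ∣ m * (x * (y * z)) := by
            intro h
            have h2 : m * (x * (y * z)) ∣ b := by
              rw [e3]; exact ⟨x * z * y ^ 2, by ring⟩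
            exact hpb (h.trans h2)
          refine ⟨x, y, z, p * m, hx, hy, hz, hp.mul hm, ?_, e1, e2, ?_, ?_⟩
          · rw [mul_assoc]; exact sqf_cons hpp hsq hpm
          · rw [e3]; ring
          · rw [hmul, norm_mul, mul_pow, hre, pow_one, norm_gs_prime_sq syAx hp hpp hnd, nm_mul]
            push_cast
            calc (nm p : ℝ) * ‖gs (κ * p * (F * E)) b‖ ^ 2 ≤ (nm p : ℝ) *
                  ((nm m : ℝ) * (nm x : ℝ) ^ 3 * (nm z : ℝ) ^ 3 * (nm y : ℝ) ^ 4) := by gcongr
              _ = _ := by ring
        · -- (0,1): `z`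
          have hnd : ¬ p ∣ κ * (F' * E) := fun h => by
            rcases hpp.dvd_or_dvd h with h | h
            · exact hκp h
            · rcases hpp.dvd_or_dvd h with h | h
              · exact hpF h
              · exact hpE h
          have hu : κ * (p * F' * E) = κ * (F' * E) * p := by ring
          have hj2 : j = 2 := by
            by_contra hc
            rcases Nat.lt_or_ge j 2 with h | h
            · have : j = 1 := by omega
              subst this
              apply hne1
              rw [hu, pow_one]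
              exact gs_mul_p_prime syAx hp hpp
            · apply hne1
              rw [hu]
              exact gs_p_pow_ge_three syAx hp hpp hnd (by omega)
          subst hj2
          have hre : κ * (p * F' * E) * p ^ 2 = (κ * p ^ 3) * (F' * E) := by ring
          rw [hre] at hne2
          obtain ⟨x, y, z, m, hx, hy, hz, hm, hsq, e1, e2, e3, hn⟩ :=
            ih (κ * p ^ 3) E F' (hκb.mul_left hpb'.pow_left) hE hEs hEb hF' hFs' hFb hne2
          have hpm : ¬ p ∣ m * (x * (y * z)) := by
            intro h
            have h2 : m * (x * (y * z)) ∣ b := by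
              rw [e3]; exact ⟨x * z * y ^ 2, by ring⟩
            exact hpb (h.trans h2)
          refine ⟨x, y, p * z, m, hx, hy, hp.mul hz, hm, ?_, e1, ?_, ?_, ?_⟩
          · have : m * (x * (y * (p * z))) = p * (m * (x * (y * z))) := by ring
            rw [this]; exact sqf_cons hpp hsq hpm
          · rw [e2]; ring
          · rw [e3]; ring
          · rw [hmul, norm_mul, mul_pow, hre, hu, gs_p_sq syAx hp, norm_mul, RCLike.norm_conj,
              mul_pow, norm_gs_prime_sq syAx hp hpp hnd, nm_mul, Complex.norm_natCast]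
            push_cast
            calc (nm p : ℝ) ^ 2 * (nm p : ℝ) * ‖gs (κ * p ^ 3 * (F' * E)) b‖ ^ 2 ≤
                  (nm p : ℝ) ^ 2 * (nm p : ℝ) *
                  ((nm m : ℝ) * (nm x : ℝ) ^ 3 * (nm z : ℝ) ^ 3 * (nm y : ℝ) ^ 4) := by gcongr
              _ = _ := by ring
      · rcases split_sqf hpp hp hF hFs hFd with ⟨hFb, hpF⟩ | ⟨F', rfl, hF', hFs', hFb, hpF⟩
        · -- (1,0): `x`
          have hnd : ¬ p ∣ κ * (F * E') := fun h => by
            rcases hpp.dvd_or_dvd h with h | h
            · exact hκp h
            · rcases hpp.dvd_or_dvd h with h | h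
              · exact hpF h
              · exact hpE h
          have hu : κ * (F * (p * E')) = κ * (F * E') * p := by ring
          have hj2 : j = 2 := by
            by_contra hc
            rcases Nat.lt_or_ge j 2 with h | h
            · have : j = 1 := by omega
              subst this
              apply hne1
              rw [hu, pow_one]
              exact gs_mul_p_prime syAx hp hpp
            · apply hne1
              rw [hu]
              exact gs_p_pow_ge_three syAx hp hpp hnd (by omega)
          subst hj2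
          have hre : κ * (F * (p * E')) * p ^ 2 = (κ * p ^ 3) * (F * E') := by ring
          rw [hre] at hne2
          obtain ⟨x, y, z, m, hx, hy, hz, hm, hsq, e1, e2, e3, hn⟩ :=
            ih (κ * p ^ 3) E' F (hκb.mul_left hpb'.pow_left) hE' hEs' hEb hF hFs hFb hne2
          have hpm : ¬ p ∣ m * (x * (y * z)) := by
            intro h
            have h2 : m * (x * (y * z)) ∣ b := by
              rw [e3]; exact ⟨x * z * y ^ 2, by ring⟩
            exact hpb (h.trans h2)
          refine ⟨p * x, y, z, m, hp.mul hx, hy, hz, hm, ?_, ?_, e2, ?_, ?_⟩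
          · have : m * (p * x * (y * z)) = p * (m * (x * (y * z))) := by ring
            rw [this]; exact sqf_cons hpp hsq hpm
          · rw [e1]; ring
          · rw [e3]; ring
          · rw [hmul, norm_mul, mul_pow, hre, hu, gs_p_sq syAx hp, norm_mul, RCLike.norm_conj,
              mul_pow, norm_gs_prime_sq syAx hp hpp hnd, nm_mul, Complex.norm_natCast]
            push_cast
            calc (nm p : ℝ) ^ 2 * (nm p : ℝ) * ‖gs (κ * p ^ 3 * (F * E')) b‖ ^ 2 ≤
                  (nm p : ℝ) ^ 2 * (nm p : ℝ) *
                  ((nm m : ℝ) * (nm x : ℝ) ^ 3 * (nm z : ℝ) ^ 3 * (nm y : ℝ) ^ 4) := by gcongr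
              _ = _ := by ring
        · -- (1,1): `y`
          have hnd : ¬ p ∣ κ * (F' * E') := fun h => by
            rcases hpp.dvd_or_dvd h with h | h
            · exact hκp h
            · rcases hpp.dvd_or_dvd h with h | h
              · exact hpF h
              · exact hpE h
          have hu : κ * (p * F' * (p * E')) = κ * (F' * E') * p ^ 2 := by ring
          have hj3 : j = 3 := by
            by_contra hc
            apply hne1
            rw [hu]
            rcases Nat.lt_or_ge j 3 with h | h
            · have : j = 1 ∨ j = 2 := by omega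
              rcases this with rfl | rfl
              · rw [pow_one]; exact gs_sq_p syAx hp hpp
              · exact gs_sq_sq syAx hp hpp
            · exact gs_sq_pow_ge_four syAx hp hpp hnd (by omega)
          subst hj3
          have hre : κ * (p * F' * (p * E')) * p ^ 3 = (κ * p ^ 5) * (F' * E') := by ring
          rw [hre] at hne2
          obtain ⟨x, y, z, m, hx, hy, hz, hm, hsq, e1, e2, e3, hn⟩ :=
            ih (κ * p ^ 5) E' F' (hκb.mul_left hpb'.pow_left) hE' hEs' hEb hF' hFs' hFb hne2
          have hpm : ¬ p ∣ m * (x * (y * z)) := by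
            intro h
            have h2 : m * (x * (y * z)) ∣ b := by
              rw [e3]; exact ⟨x * z * y ^ 2, by ring⟩
            exact hpb (h.trans h2)
          refine ⟨x, p * y, z, m, hx, hp.mul hy, hz, hm, ?_, ?_, ?_, ?_, ?_⟩
          · have : m * (x * (p * y * z)) = p * (m * (x * (y * z))) := by ring
            rw [this]; exact sqf_cons hpp hsq hpm
          · rw [e1]; ring
          · rw [e2]; ring
          · rw [e3]; ring
          · rw [hmul, norm_mul, mul_pow, hre, hu, gs_sq_cube syAx hp hpp hnd, norm_neg, norm_pow,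
              Complex.norm_natCast, nm_mul]
            push_cast
            calc ((nm p : ℝ) ^ 2) ^ 2 * ‖gs (κ * p ^ 5 * (F' * E')) b‖ ^ 2 ≤
                  ((nm p : ℝ) ^ 2) ^ 2 *
                  ((nm m : ℝ) * (nm x : ℝ) ^ 3 * (nm z : ℝ) ^ 3 * (nm y : ℝ) ^ 4) := by gcongr
              _ = _ := by ring
  exact key d (Sx545.sm_one_iff.mpr hd)

end Crest.Agent.R017.H1401
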