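import Crest.Agent.R017.E1k_146
import Crest.Agent.R017.CT0_590
import Crest.Agent.R017.NSxA_545
import Crest.Agent.R017.CM1_106
import Crest.Agent.R017.H1a_401
import Crest.Agent.R017.E1i_551

/-!
# Row 17, block C70, leaf E4, dual side (helper401), part 1: the kernel and the Gauss sums

* `rd_kernel` : `W τ (exp (x₀ + u)) = ∫ k t * osc t u`, `|u| ≤ R`
* `gs_split` : `conj gs ((g x)(h y)) (b d)` for `b`, `d` coprime, `d` squarefree, `x`, `y` prime to `b`
-/

set_option autoImplicit false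

noncomputable section

open Complex MeasureTheory
open scoped ComplexConjugate ContDiff

namespace Crest.Agent.R017.E4401

open Crest.Agent.R012 Crest.Agent.R012.Eis Crest.Agent.R012.GaussLoc283
open Crest.Agent.R012.Weight600 (osc norm_osc)
open Crest.Agent.R017.B770 (RD)
open Crest.Agent.R017.E1551 (jb jb_pos kernel_of_contDiff)

/-- decay on the logarithmic scale -/
def eB (B : ℕ) (x : ℝ) : ℝ := Real.exp (-(B * |x|))

lemma eB_pos (B : ℕ) (x : ℝ) : 0 < eB B x := Real.exp_pos _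

lemma eB_le_one (B : ℕ) (x : ℝ) : eB B x ≤ 1 := by
  unfold eB
  rw [Real.exp_le_one_iff]
  have : 0 ≤ (B : ℝ) * |x| := by positivity
  linarith

lemma eB_shift (B : ℕ) {x y R : ℝ} (h : |x - y| ≤ R) : eB B x ≤ Real.exp (B * R) * eB B y := by
  unfold eB
  rw [← Real.exp_add]
  apply Real.exp_le_exp.mpr
  have h1 : |y| ≤ |x| + R := by
    have := abs_sub_abs_le_abs_sub y x
    rw [abs_sub_comm] at this
    linarith
  have h2 : (B : ℝ) * |y| ≤ B * (|x| + R) := mul_le_mul_of_nonneg_left h1 (Nat.cast_nonneg _)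
  linarith

lemma min_pow_eq (B : ℕ) (x : ℝ) :
    min (Real.exp x ^ B) ((Real.exp x ^ B)⁻¹) = eB B x := by
  unfold eB
  rw [← Real.exp_nat_mul, ← Real.exp_neg]
  rcases le_total 0 x with h | h
  · rw [abs_of_nonneg h, min_eq_right]
    apply Real.exp_le_exp.mpr
    have : 0 ≤ (B : ℝ) * x := by positivity
    linarith
  · rw [abs_of_nonpos h, min_eq_left]
    · congr 1; ring
    · apply Real.exp_le_exp.mpr
      have : (B : ℝ) * x ≤ 0 := mul_nonpos_of_nonneg_of_nonpos (Nat.cast_nonneg _) h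
      linarith

/-- **the separated kernel** -/
theorem rd_kernel {W : ℝ → ℝ → ℂ} (hW : RD W) {R : ℝ} (hR : 0 ≤ R) (A B : ℕ) :
    ∃ C J : ℝ, 0 ≤ C ∧ 0 ≤ J ∧ ∀ τ x0 : ℝ, ∃ k : ℝ → ℂ, Continuous k ∧ Integrable k ∧
      (∀ t, ‖k t‖ ≤ C * (1 + |τ|) ^ J * eB B x0 * jb A t) ∧
      ∀ u, |u| ≤ R → W τ (Real.exp (x0 + u)) = ∫ t, k t * osc t u := by
  obtain ⟨D, hD, hker⟩ := kernel_of_contDiff R hR A
  choose Cn An hCn hdec using fun n => hW.dec n B
  set J : ℝ := ∑ n ∈ Finset.range (A + 1), |An n| with hJ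
  set C0 : ℝ := ∑ n ∈ Finset.range (A + 1), Cn n with hC0
  have hJ0 : 0 ≤ J := Finset.sum_nonneg fun _ _ => abs_nonneg _
  have hC00 : 0 ≤ C0 := Finset.sum_nonneg fun n _ => hCn n
  refine ⟨D * (C0 * Real.exp (B * (R + 1))), J, by positivity, hJ0, fun τ x0 => ?_⟩
  have h1τ : (1 : ℝ) ≤ 1 + |τ| := by linarith [abs_nonneg τ]
  have hsm : ContDiff ℝ ∞ (fun x : ℝ => W τ (Real.exp x)) :=
    (hW.smooth τ).comp_contDiff Real.contDiff_exp (fun x => Real.exp_pos x)
  have hG : ContDiff ℝ ∞ (fun u : ℝ => W τ (Real.exp (x0 + u))) :=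
    hsm.comp (contDiff_const.add contDiff_id)
  obtain ⟨k, h1, h2, h3, h4⟩ := hker (fun u => W τ (Real.exp (x0 + u)))
    (C0 * (1 + |τ|) ^ J * (Real.exp (B * (R + 1)) * eB B x0))
    (mul_nonneg (by positivity) (mul_nonneg (Real.exp_pos _).le (eB_pos _ _).le)) hG
    (fun n hn u hu => by
      have e1 : iteratedDeriv n (fun u : ℝ => W τ (Real.exp (x0 + u))) u =
          iteratedDeriv n (fun x : ℝ => W τ (Real.exp x)) (x0 + u) := by
        have := congrFun (iteratedDeriv_comp_const_add n (fun x : ℝ => W τ (Real.exp x)) x0) u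
        simpa using this
      rw [e1]
      have h5 := hdec n τ (Real.exp (x0 + u)) (Real.exp_pos _)
      rw [Real.log_exp, min_pow_eq] at h5
      refine h5.trans ?_
      have hnA : n ∈ Finset.range (A + 1) := Finset.mem_range.mpr (by omega)
      have h6 : Cn n ≤ C0 := Finset.single_le_sum (f := fun n => Cn n) (fun i _ => hCn i) hnA
      have h7 : (1 + |τ|) ^ An n ≤ (1 + |τ|) ^ J := by
        apply Real.rpow_le_rpow_of_exponent_le h1τ
        exact (le_abs_self _).trans
          (Finset.single_le_sum (f := fun n => |An n|) (fun i _ => abs_nonneg _) hnA)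
      have h8 : eB B (x0 + u) ≤ Real.exp (B * (R + 1)) * eB B x0 :=
        eB_shift B (by rw [add_sub_cancel_left]; exact hu)
      exact mul_le_mul (mul_le_mul h6 h7 (by positivity) hC00) h8 (eB_pos _ _).le (by positivity))
  refine ⟨k, h1, h2, fun t => ?_, h4⟩
  have h5 := h3 t
  have h6 : (0 : ℝ) < (1 + |t|) ^ A := by positivity
  have h7 : jb A t = ((1 + |t|) ^ A)⁻¹ := by
    unfold jb
    rw [Real.rpow_neg (by positivity), Real.rpow_natCast]
  rw [h7, ← div_eq_mul_inv, le_div_iff₀ h6]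
  refine h5.trans (le_of_eq (by ring))

/-- the Gauss sums at `b d` -/
lemma gs_split {g h x y b d : Eis} (hb : IsPrim b) (hd : IsPrim d) (hds : Squarefree d)
    (hbd : IsCoprime b d) (hx : IsCoprime x b) (hy : IsCoprime y b) :
    conj (gs ((g * x) * (h * y)) (b * d)) =
      (conj (gs (g * h) b) * ((Real.sqrt (nm d) : ℝ) * conj (G d)) * sy (g * h * b) d) *
        ((sy x b * sy x d) * (sy y b * sy y d)) := by
  have e1 : (g * x) * (h * y) = (g * h) * x * y := by ring
  rw [e1, gs_mul' syAx _ hb hd hbd, gs_mul_left syAx _ hb hy, gs_mul_left syAx _ hb hx,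
    Gauss880.gs_eq_G Gauss880.syG hd hds]
  have e2 : sy (g * h * x * y * b) d = sy (g * h * b) d * sy x d * sy y d := by
    rw [show g * h * x * y * b = (g * h * b) * x * y by ring, syAx.mul_left _ _ _ hd,
      syAx.mul_left _ _ _ hd]
  simp only [map_mul, Complex.conj_conj, Complex.conj_ofReal]
  rw [e2]
  ring

end Crest.Agent.R017.E4401
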