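import Crest.Agent.R017.E4d2_401

/-!
# Row 17, block C70, leaf E4, dual side (helper401), part 3: the pointwise bound

* `tb b g t A` : `x ↦ [(x, b) = 1] A(g x) (b/x) N(x)^{it}`
* `TD` : the coefficient at `d` ; `TD_le` : the bound at `b d`
-/

set_option autoImplicit false

noncomputable section

open Complex MeasureTheory
open scoped ComplexConjugate ContDiff

namespace Crest.Agent.R017.E4401

open Crest.Agent.R012 Crest.Agent.R012.Eis Crest.Agent.R012.GaussLoc283 Crest.Agent.R012.Mob705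
open Crest.Agent.R012.Weight600 (osc norm_osc pw norm_pw osc_add_right continuous_pw_left)
open Crest.Agent.R017.B770 (RD)
open Crest.Agent.R017.E1551 (jb jb_pos jb_neg continuous_jb integrable_jb)
open Crest.Agent.R017.CM106 (CS)

open Classical in
/-- the extracted, twisted sequence -/
def tb (b g : Eis) (t : ℝ) (A : Eis → ℂ) (x : Eis) : ℂ :=
  (if IsCoprime x b then A (g * x) else 0) * (sy b x * pw t (nm x))

/-- windows -/
def Wn (A : Eis → ℂ) (X R : ℝ) : Prop :=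
  ∀ x, A x ≠ 0 → IsPrim x ∧ X ≤ nm x ∧ (nm x : ℝ) ≤ Real.exp R * X

lemma Wn.mem {A : Eis → ℂ} {X R : ℝ} (h : Wn A X R) (x : Eis) (hx : A x ≠ 0) :
    x ∈ primBall ⌊Real.exp R * X⌋₊ := by
  obtain ⟨h1, h2, h3⟩ := h x hx
  rw [mem_primBall]
  exact ⟨Nat.le_floor h3, h1⟩

open Classical in
lemma CS_tb {b g d : Eis} {t : ℝ} {A : Eis → ℂ} {X : ℕ} (hA : ∀ x, A x ≠ 0 → x ∈ primBall X)
    (hg : IsPrim g) : CS (tb b g t A) d = ∑ x ∈ primBall X,
      (if IsCoprime x b then A (g * x) else 0) * (sy b x * pw t (nm x)) * sy d x := by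
  unfold CS tb
  rw [tsum_eq_sum (s := primBall X)]
  intro x hx
  have h1 : A (g * x) = 0 := by
    by_contra h
    apply hx
    have h2 := mem_primBall.mp (hA _ h)
    rw [mem_primBall]
    have h3 : IsPrim x := h2.2.of_mul_left hg
    refine ⟨?_, h3⟩
    have h4 : nm x ≤ nm (g * x) := by
      rw [nm_mul]
      exact Nat.le_mul_of_pos_left _ (nm_pos.mpr hg.ne_zero)
    exact h4.trans h2.1
  rw [h1]
  simp

lemma continuous_CS_tb {b g d : Eis} {A : Eis → ℂ} {X : ℕ} (hA : ∀ x, A x ≠ 0 → x ∈ primBall X)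
    (hg : IsPrim g) : Continuous fun t => CS (tb b g t A) d := by
  classical
  have : (fun t => CS (tb b g t A) d) = fun t => ∑ x ∈ primBall X,
      (if IsCoprime x b then A (g * x) else 0) * (sy b x * pw t (nm x)) * sy d x := by
    funext t; exact CS_tb hA hg
  rw [this]
  refine continuous_finsetSum _ fun x _ => ?_
  exact (continuous_const.mul (continuous_const.mul (continuous_pw_left _))).mul continuous_const

lemma norm_CS_tb_le {b g d : Eis} {t : ℝ} {A : Eis → ℂ} {X : ℕ}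
    (hA : ∀ x, A x ≠ 0 → x ∈ primBall X) (hg : IsPrim g) :
    ‖CS (tb b g t A) d‖ ≤ ∑ x ∈ primBall X, ‖A (g * x)‖ := by
  classical
  rw [CS_tb hA hg]
  refine (norm_sum_le _ _).trans (Finset.sum_le_sum fun x hx => ?_)
  have hxp : IsPrim x := (mem_primBall.mp hx).2
  rw [norm_mul, norm_mul, norm_mul, norm_pw, mul_one]
  have h1 : ‖(if IsCoprime x b then A (g * x) else 0 : ℂ)‖ ≤ ‖A (g * x)‖ := by
    split_ifs
    · exact le_rfl
    · rw [norm_zero]; exact norm_nonneg _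
  have h2 : ‖sy b x‖ ≤ 1 := CM106.norm_sy_le' hxp
  have h3 : ‖sy d x‖ ≤ 1 := CM106.norm_sy_le' hxp
  calc _ ≤ ‖A (g * x)‖ * 1 * 1 := by gcongr
    _ = _ := by ring

/-- the coefficient at `d` -/
def TD (W : ℝ → ℂ) (A B : Eis → ℂ) (X Y : ℕ) (ρ Q : ℝ) (d : Eis) : ℂ :=
  ∑ x ∈ primBall X, A x * ∑ y ∈ primBall Y, B y *
    (conj (gs (x * y) d) * W (nm d / (ρ * nm (x * y) / Q)))

/-- the mean value -/
def EI (A0 : ℕ) (b g h : Eis) (A B : Eis → ℂ) (d : Eis) : ℝ :=
  ∫ t, jb A0 t * (‖CS (tb b g t A) d‖ * ‖CS (tb b h t B) d‖)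

lemma integrable_EI {A0 : ℕ} (hA0 : 2 ≤ A0) {b g h d : Eis} {A B : Eis → ℂ} {X Y : ℕ}
    (hA : ∀ x, A x ≠ 0 → x ∈ primBall X) (hB : ∀ x, B x ≠ 0 → x ∈ primBall Y)
    (hg : IsPrim g) (hh : IsPrim h) :
    Integrable fun t => jb A0 t * (‖CS (tb b g t A) d‖ * ‖CS (tb b h t B) d‖) := by
  have hA1 : (1 : ℝ) < (A0 : ℝ) := by exact_mod_cast (by omega : 1 < A0)
  refine E1551.integrable_jb_mul hA1 ?_ (B := (∑ x ∈ primBall X, ‖A (g * x)‖) *
    ∑ x ∈ primBall Y, ‖B (h * x)‖) fun t => ?_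
  · exact ((continuous_CS_tb hA hg).norm).mul (continuous_CS_tb hB hh).norm
  · rw [abs_of_nonneg (by positivity)]
    exact mul_le_mul (norm_CS_tb_le hA hg) (norm_CS_tb_le hB hh) (norm_nonneg _)
      (Finset.sum_nonneg fun _ _ => norm_nonneg _)

end Crest.Agent.R017.E4401
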