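import Crest.Agent.R017.E4d3_401

/-!
# Row 17, block C70, leaf E4, dual side (helper401), part 4: `TD_le`
-/

set_option autoImplicit false

noncomputable section

open Complex MeasureTheory
open scoped ComplexConjugate ContDiff

namespace Crest.Agent.R017.E4401

open Crest.Agent.R012 Crest.Agent.R012.Eis Crest.Agent.R012.GaussLoc283 Crest.Agent.R012.Mob705
open Crest.Agent.R012.Weight600 (osc norm_osc pw norm_pw osc_add_right osc_neg_left osc_neg_right
  continuous_pw_left continuous_osc_left)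
open Crest.Agent.R017.B770 (RD)
open Crest.Agent.R017.E1551 (jb jb_pos jb_neg continuous_jb integrable_jb)
open Crest.Agent.R017.CM106 (CS)

/-- the argument of the kernel on the logarithmic scale -/
lemma arg_eq {n1 n2 a1 a2 ρ Q X Y : ℝ} (h1 : 0 < n1) (h2 : 0 < n2) (h3 : 0 < a1) (h4 : 0 < a2)
    (hρ : 0 < ρ) (hQ : 0 < Q) (hX : 0 < X) (hY : 0 < Y) :
    n1 * n2 / (ρ * (a1 * a2) / Q) = Real.exp ((Real.log n1 + Real.log n2 +
      Real.log (Q / (ρ * X * Y))) + (-(Real.log a1 - Real.log X) + -(Real.log a2 - Real.log Y))) := by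
  have e : (Real.log n1 + Real.log n2 +
      Real.log (Q / (ρ * X * Y))) + (-(Real.log a1 - Real.log X) + -(Real.log a2 - Real.log Y)) =
      Real.log (n1 * n2 / (ρ * (a1 * a2) / Q)) := by
    rw [Real.log_div (by positivity) (by positivity), Real.log_div (by positivity) (by positivity),
      Real.log_div (by positivity) (by positivity),
      Real.log_mul (by positivity) (by positivity), Real.log_mul (by positivity) (by positivity),
      Real.log_mul (by positivity) (by positivity), Real.log_mul (by positivity) (by positivity),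
      Real.log_mul (by positivity) (by positivity)]
    ring
  rw [e, Real.exp_log (by positivity)]

/-- the double sum against the kernel -/
lemma sum_kernel {ι κ : Type*} (s : Finset ι) (s' : Finset κ) {k : ℝ → ℂ} (hk : Integrable k)
    (c : ℝ → ℂ) (hc : Continuous c) (hc1 : ∀ t, ‖c t‖ ≤ 1) (f : ι → ℝ → ℂ) (g : κ → ℝ → ℂ)
    (hf : ∀ i ∈ s, Continuous (f i)) (hg : ∀ j ∈ s', Continuous (g j)) (Bf : ι → ℝ) (Bg : κ → ℝ)
    (hBf : ∀ i ∈ s, ∀ t, ‖f i t‖ ≤ Bf i) (hBg : ∀ j ∈ s', ∀ t, ‖g j t‖ ≤ Bg j) :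
    ∑ i ∈ s, ∑ j ∈ s', ∫ t, k t * (c t * (f i t * g j t)) =
      ∫ t, k t * (c t * ((∑ i ∈ s, f i t) * ∑ j ∈ s', g j t)) := by
  have hint : ∀ i ∈ s, ∀ j ∈ s', Integrable fun t => k t * (c t * (f i t * g j t)) := by
    intro i hi j hj
    have h1 : Integrable fun t => (c t * (f i t * g j t)) * k t := by
      refine hk.bdd_mul (c := 1 * (Bf i * Bg j)) ?_ ?_
      · exact (hc.mul ((hf i hi).mul (hg j hj))).aestronglyMeasurable
      · refine Filter.Eventually.of_forall fun t => ?_
        rw [norm_mul, norm_mul]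
        exact mul_le_mul (hc1 t) (mul_le_mul (hBf i hi t) (hBg j hj t) (norm_nonneg _)
          ((norm_nonneg _).trans (hBf i hi t))) (by positivity) zero_le_one
    refine h1.congr (Filter.Eventually.of_forall fun t => ?_)
    simp only
    ring
  have e1 : ∀ i ∈ s, ∑ j ∈ s', ∫ t, k t * (c t * (f i t * g j t)) =
      ∫ t, ∑ j ∈ s', k t * (c t * (f i t * g j t)) := fun i hi =>
    (integral_finsetSum s' fun j hj => hint i hi j hj).symm
  rw [Finset.sum_congr rfl e1, ← integral_finsetSum s fun i hi =>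
    integrable_finsetSum s' fun j hj => hint i hi j hj]
  congr 1
  funext t
  rw [Finset.sum_mul_sum, Finset.mul_sum, Finset.mul_sum]
  refine Finset.sum_congr rfl fun i _ => ?_
  rw [Finset.mul_sum, Finset.mul_sum]

set_option maxHeartbeats 800000 in
/-- **the pointwise bound** -/
theorem TD_le {W : ℝ → ℝ → ℂ} (hW : RD W) {R : ℝ} (hR : 0 ≤ R) {A0 : ℕ} (hA0 : 2 ≤ A0)
    (B0 : ℕ) : ∃ C J : ℝ, 0 ≤ C ∧ 0 ≤ J ∧ ∀ X Y : ℝ, 0 < X → 0 < Y → ∀ A B : Eis → ℂ,
      Wn A X R → Wn B Y R → ∀ ρ Q : ℝ, 0 < ρ → 0 < Q → ∀ τ : ℝ, ∀ b d : Eis, IsPrim b →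
      IsPrim d → Squarefree d → IsCoprime b d →
      ‖TD (W τ) A B ⌊Real.exp R * X⌋₊ ⌊Real.exp R * Y⌋₊ ρ Q (b * d)‖ ≤
        Real.sqrt (nm d) * ∑ g ∈ bs b ⌊Real.exp R * X⌋₊, ∑ h ∈ bs b ⌊Real.exp R * Y⌋₊,
          ‖gs (g * h) b‖ * (C * (1 + |τ|) ^ J *
            eB B0 (Real.log (nm b) + Real.log (nm d) + Real.log (Q / (ρ * X * Y))) *
            EI A0 b g h A B d) := by
  classical
  obtain ⟨C, J, hC, hJ, hk⟩ := rd_kernel hW (R := 2 * R) (by positivity) A0 B0
  refine ⟨C, J, hC, hJ, fun X Y hX hY A B hwA hwB ρ Q hρ hQ τ b d hb hd hds hbd => ?_⟩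
  set X' := ⌊Real.exp R * X⌋₊
  set Y' := ⌊Real.exp R * Y⌋₊
  set x0 : ℝ := Real.log (nm b) + Real.log (nm d) + Real.log (Q / (ρ * X * Y)) with hx0
  obtain ⟨k, k1, k2, k3, k4⟩ := hk τ x0
  have hA : ∀ x, A x ≠ 0 → x ∈ primBall X' := hwA.mem
  have hB : ∀ x, B x ≠ 0 → x ∈ primBall Y' := hwB.mem
  have hnb : (0 : ℝ) < nm b := by exact_mod_cast nm_pos.mpr hb.ne_zero
  have hnd : (0 : ℝ) < nm d := by exact_mod_cast nm_pos.mpr hd.ne_zero
  set Gf : Eis → Eis → ℂ := fun x y =>
    conj (gs (x * y) (b * d)) * W τ (nm (b * d) / (ρ * nm (x * y) / Q)) with hGf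
  have e1 : TD (W τ) A B X' Y' ρ Q (b * d) = ∑ g ∈ bs b X', ∑ h ∈ bs b Y',
      ∑ x ∈ primBall X', ∑ y ∈ primBall Y', (if IsCoprime x b then A (g * x) else 0) *
        ((if IsCoprime y b then B (h * y) else 0) * Gf (g * x) (h * y)) := by
    unfold TD
    rw [sum_bs b hA (fun x => ∑ y ∈ primBall Y', B y * Gf x y)]
    refine Finset.sum_congr rfl fun g hg => ?_
    refine Eq.trans ?_ Finset.sum_comm
    refine Finset.sum_congr rfl fun x hx => ?_
    rw [sum_bs b hB (fun y => Gf (g * x) y), Finset.mul_sum]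
    refine Finset.sum_congr rfl fun h hh => ?_
    rw [Finset.mul_sum]
  rw [e1, Finset.mul_sum]
  refine (norm_sum_le _ _).trans (Finset.sum_le_sum fun g hg => ?_)
  rw [Finset.mul_sum]
  refine (norm_sum_le _ _).trans (Finset.sum_le_sum fun h hh => ?_)
  have hgp : IsPrim g := (mem_bs.mp hg).1.2
  have hhp : IsPrim h := (mem_bs.mp hh).1.2
  have hng : (0 : ℝ) < nm g := by exact_mod_cast nm_pos.mpr hgp.ne_zero
  have hnh : (0 : ℝ) < nm h := by exact_mod_cast nm_pos.mpr hhp.ne_zero
  set c0 : ℂ := conj (gs (g * h) b) * ((Real.sqrt (nm d) : ℝ) * conj (G d)) *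
    sy (g * h * b) d with hc0
  set cc : ℝ → ℂ := fun t => osc t (Real.log X + Real.log Y - Real.log (nm g) -
    Real.log (nm h)) with hcc
  set fx : Eis → ℝ → ℂ := fun x t => (if IsCoprime x b then A (g * x) else 0) *
    (sy b x * pw (-t) (nm x)) * sy d x with hfx
  set fy : Eis → ℝ → ℂ := fun y t => (if IsCoprime y b then B (h * y) else 0) *
    (sy b y * pw (-t) (nm y)) * sy d y with hfy
  have hfxc : ∀ x, Continuous (fx x) := fun x =>
    (continuous_const.mul (continuous_const.mul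
      ((continuous_pw_left _).comp continuous_neg))).mul continuous_const
  have hfyc : ∀ x, Continuous (fy x) := fun x =>
    (continuous_const.mul (continuous_const.mul
      ((continuous_pw_left _).comp continuous_neg))).mul continuous_const
  have hccc : Continuous cc := continuous_osc_left _
  have e2 : ∀ x ∈ primBall X', ∀ y ∈ primBall Y',
      (if IsCoprime x b then A (g * x) else 0) *
        ((if IsCoprime y b then B (h * y) else 0) * Gf (g * x) (h * y)) =
      c0 * ∫ t, k t * (cc t * (fx x t * fy y t)) := by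
    intro x hx y hy
    have hxp : IsPrim x := (mem_primBall.mp hx).2
    have hyp : IsPrim y := (mem_primBall.mp hy).2
    by_cases h1 : (if IsCoprime x b then A (g * x) else 0 : ℂ) = 0
    · simp only [hfx]
      rw [h1]
      simp
    by_cases h2 : (if IsCoprime y b then B (h * y) else 0 : ℂ) = 0
    · simp only [hfy]
      rw [h2]
      simp
    have hxc : IsCoprime x b := by
      by_contra hh
      rw [if_neg hh] at h1
      exact h1 rfl
    have hyc : IsCoprime y b := by
      by_contra hh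
      rw [if_neg hh] at h2
      exact h2 rfl
    rw [if_pos hxc] at h1
    rw [if_pos hyc] at h2
    obtain ⟨-, w1, w2⟩ := hwA _ h1
    obtain ⟨-, w3, w4⟩ := hwB _ h2
    have hnx : (0 : ℝ) < nm x := by exact_mod_cast nm_pos.mpr hxp.ne_zero
    have hny : (0 : ℝ) < nm y := by exact_mod_cast nm_pos.mpr hyp.ne_zero
    have hngx : (0 : ℝ) < nm (g * x) := by rw [nm_mul]; push_cast; positivity
    have hnhy : (0 : ℝ) < nm (h * y) := by rw [nm_mul]; push_cast; positivity
    set u : ℝ := -(Real.log (nm (g * x)) - Real.log X) + -(Real.log (nm (h * y)) - Real.log Y)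
      with hu
    have hlog : ∀ {v V : ℝ}, 0 < V → V ≤ v → v ≤ Real.exp R * V →
        0 ≤ Real.log v - Real.log V ∧ Real.log v - Real.log V ≤ R := by
      intro v V hV h1 h2
      have h3 := Real.log_le_log hV h1
      have h4 := Real.log_le_log (hV.trans_le h1) h2
      rw [Real.log_mul (Real.exp_pos _).ne' hV.ne', Real.log_exp] at h4
      constructor <;> linarith
    have hux := hlog hX w1 w2
    have huy := hlog hY w3 w4
    have hu1 : |u| ≤ 2 * R := by
      rw [abs_le]
      constructor <;> linarith [hux.1, hux.2, huy.1, huy.2]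
    have hW1 : W τ (nm (b * d) / (ρ * nm ((g * x) * (h * y)) / Q)) = ∫ t, k t * osc t u := by
      rw [← k4 u hu1, nm_mul b d, nm_mul (g * x) (h * y)]
      push_cast
      rw [arg_eq hnb hnd hngx hnhy hρ hQ hX hY]
    have hosc : ∀ t, osc t u = cc t * (pw (-t) (nm x) * pw (-t) (nm y)) := by
      intro t
      simp only [hcc]
      unfold pw
      rw [osc_neg_left, osc_neg_left, ← osc_neg_right, ← osc_neg_right, ← osc_add_right,
        ← osc_add_right]
      congr 1
      rw [hu, nm_mul, nm_mul]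
      push_cast
      rw [Real.log_mul hng.ne' hnx.ne', Real.log_mul hnh.ne' hny.ne']
      ring
    simp only [hGf, hfx, hfy]
    rw [hW1, gs_split hb hd hds hbd hxc hyc, if_pos hxc, if_pos hyc, ← integral_const_mul,
      ← integral_const_mul, ← integral_const_mul, ← integral_const_mul]
    congr 1
    funext t
    rw [hosc t, syAx.recip x b hxp hb, syAx.recip x d hxp hd, syAx.recip y b hyp hb,
      syAx.recip y d hyp hd, hc0]
    ring
  rw [Finset.sum_congr rfl fun x hx => Finset.sum_congr rfl fun y hy => e2 x hx y hy]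
  have e3 : ∑ x ∈ primBall X', ∑ y ∈ primBall Y', c0 * ∫ t, k t * (cc t * (fx x t * fy y t)) =
      c0 * ∫ t, k t * (cc t * (CS (tb b g (-t) A) d * CS (tb b h (-t) B) d)) := by
    simp only [← Finset.mul_sum]
    congr 1
    rw [sum_kernel (primBall X') (primBall Y') k2 cc hccc (fun t => (norm_osc _ _).le) fx fy
      (fun i _ => hfxc i) (fun i _ => hfyc i) (fun x => ‖A (g * x)‖) (fun y => ‖B (h * y)‖)]
    · congr 1
      funext t
      rw [CS_tb hA hgp, CS_tb hB hhp]
    · intro x hx t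
      simp only [hfx]
      have hxp : IsPrim x := (mem_primBall.mp hx).2
      rw [norm_mul, norm_mul, norm_mul, norm_pw, mul_one]
      have h1 : ‖(if IsCoprime x b then A (g * x) else 0 : ℂ)‖ ≤ ‖A (g * x)‖ := by
        split_ifs
        · exact le_rfl
        · rw [norm_zero]; exact norm_nonneg _
      have h2 : ‖sy b x‖ ≤ 1 := CM106.norm_sy_le' hxp
      have h3 : ‖sy d x‖ ≤ 1 := CM106.norm_sy_le' hxp
      calc _ ≤ ‖A (g * x)‖ * 1 * 1 := by gcongr
        _ = _ := by ring
    · intro x hx t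
      simp only [hfy]
      have hxp : IsPrim x := (mem_primBall.mp hx).2
      rw [norm_mul, norm_mul, norm_mul, norm_pw, mul_one]
      have h1 : ‖(if IsCoprime x b then B (h * x) else 0 : ℂ)‖ ≤ ‖B (h * x)‖ := by
        split_ifs
        · exact le_rfl
        · rw [norm_zero]; exact norm_nonneg _
      have h2 : ‖sy b x‖ ≤ 1 := CM106.norm_sy_le' hxp
      have h3 : ‖sy d x‖ ≤ 1 := CM106.norm_sy_le' hxp
      calc _ ≤ ‖B (h * x)‖ * 1 * 1 := by gcongr
        _ = _ := by ring
  rw [e3, norm_mul]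
  have hc0n : ‖c0‖ ≤ Real.sqrt (nm d) * ‖gs (g * h) b‖ := by
    rw [hc0, norm_mul, norm_mul, norm_mul, RCLike.norm_conj, RCLike.norm_conj, Complex.norm_real,
      Real.norm_of_nonneg (Real.sqrt_nonneg _)]
    have h1 : ‖G d‖ ≤ 1 := Gauss880.norm_G_le Gauss880.syG hd
    have h2 : ‖sy (g * h * b) d‖ ≤ 1 := CM106.norm_sy_le' hd
    calc _ ≤ ‖gs (g * h) b‖ * (Real.sqrt (nm d) * 1) * 1 := by gcongr
      _ = _ := by ring
  set K0 : ℝ := C * (1 + |τ|) ^ J * eB B0 x0 with hK0
  have hK00 : 0 ≤ K0 := by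
    rw [hK0]
    exact mul_nonneg (mul_nonneg hC (by positivity)) (eB_pos _ _).le
  have hint : ‖∫ t, k t * (cc t * (CS (tb b g (-t) A) d * CS (tb b h (-t) B) d))‖ ≤
      K0 * EI A0 b g h A B d := by
    have e4 : EI A0 b g h A B d =
        ∫ t, jb A0 t * (‖CS (tb b g (-t) A) d‖ * ‖CS (tb b h (-t) B) d‖) := by
      unfold EI
      rw [← integral_neg_eq_self]
      simp only [jb_neg]
    have hi : Integrable fun t =>
        jb A0 t * (‖CS (tb b g (-t) A) d‖ * ‖CS (tb b h (-t) B) d‖) := by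
      have := (integrable_EI (d := d) (b := b) hA0 hA hB hgp hhp).comp_neg
      simpa only [jb_neg] using this
    rw [e4, ← integral_const_mul]
    refine norm_integral_le_of_norm_le (hi.const_mul K0) (Filter.Eventually.of_forall fun t => ?_)
    rw [norm_mul, norm_mul, norm_mul]
    have h1 : ‖cc t‖ = 1 := norm_osc _ _
    rw [h1, one_mul]
    calc ‖k t‖ * (‖CS (tb b g (-t) A) d‖ * ‖CS (tb b h (-t) B) d‖)
        ≤ (K0 * jb A0 t) * (‖CS (tb b g (-t) A) d‖ * ‖CS (tb b h (-t) B) d‖) :=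
          mul_le_mul_of_nonneg_right (k3 t) (by positivity)
      _ = _ := by ring
  have hEI : 0 ≤ EI A0 b g h A B d := integral_nonneg fun t =>
    mul_nonneg (jb_pos _ _).le (by positivity)
  calc ‖c0‖ * ‖∫ t, k t * (cc t * (CS (tb b g (-t) A) d * CS (tb b h (-t) B) d))‖
      ≤ (Real.sqrt (nm d) * ‖gs (g * h) b‖) * (K0 * EI A0 b g h A B d) :=
        mul_le_mul hc0n hint (norm_nonneg _) (by positivity)
    _ = _ := by ring

end Crest.Agent.R017.E4401
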