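import Crest.Agent.R017.E4d4_401
import Crest.Agent.R012.GLS_106

/-!
# Row 17, block C70, leaf E4, dual side (helper401), part 5: the blocks
-/

set_option autoImplicit false

noncomputable section

open Complex MeasureTheory
open scoped ComplexConjugate ContDiff

namespace Crest.Agent.R017.E4401

open Crest.Agent.R012 Crest.Agent.R012.Eis Crest.Agent.R012.GaussLoc283 Crest.Agent.R012.Mob705
open Crest.Agent.R012.LS2 (S mem_S)
open Crest.Agent.R012.Weight600 (osc norm_osc pw norm_pw)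
open Crest.Agent.R017.B770 (RD)
open Crest.Agent.R017.Sx545 (Sm)
open Crest.Agent.R017.Asm986 (Pf)
open Crest.Agent.R017.E1551 (jb jb_pos jb_neg continuous_jb integrable_jb)
open Crest.Agent.R017.CM106 (CS)

open Classical in
/-- the blocks: squarefree primary `d` prime to `M b`, `e^n ≤ N(d) ≤ e^{n+1}` -/
def blk (M b : Eis) (n : ℕ) : Finset Eis :=
  (S (Real.exp (n + 1))).filter (fun d => Real.exp n ≤ nm d ∧ Sm (M * b) d)

lemma mem_blk {M b d : Eis} {n : ℕ} : d ∈ blk M b n ↔ ((nm d : ℝ) ≤ Real.exp (n + 1) ∧ IsPrim d ∧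
    Squarefree d) ∧ Real.exp n ≤ nm d ∧ Sm (M * b) d := by
  classical
  unfold blk
  rw [Finset.mem_filter, mem_S (Real.exp_pos _).le]

/-- the second moments -/
def VB (M b : Eis) (n : ℕ) (α : Eis → ℂ) : ℝ := ∑ d ∈ blk M b n, ‖CS α d‖ ^ 2

lemma VB_nonneg (M b : Eis) (n : ℕ) (α : Eis → ℂ) : 0 ≤ VB M b n α :=
  Finset.sum_nonneg fun _ _ => by positivity

/-- the mean value over a block -/
def EV (A0 : ℕ) (M b : Eis) (n : ℕ) (g h : Eis) (A B : Eis → ℂ) : ℝ :=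
  ∫ t, jb A0 t * (Real.sqrt (VB M b n (tb b g t A)) * Real.sqrt (VB M b n (tb b h t B)))

lemma continuous_VB {M b g : Eis} {n : ℕ} {A : Eis → ℂ} {X : ℕ}
    (hA : ∀ x, A x ≠ 0 → x ∈ primBall X) (hg : IsPrim g) :
    Continuous fun t => VB M b n (tb b g t A) := by
  unfold VB
  exact continuous_finsetSum _ fun d _ => ((continuous_CS_tb hA hg).norm).pow 2

lemma VB_le {M b g : Eis} {n : ℕ} {A : Eis → ℂ} {X : ℕ} {t : ℝ}
    (hA : ∀ x, A x ≠ 0 → x ∈ primBall X) (hg : IsPrim g) :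
    VB M b n (tb b g t A) ≤ (16 * Real.exp (n + 1)) * (∑ x ∈ primBall X, ‖A (g * x)‖) ^ 2 := by
  unfold VB
  have h1 : ((blk M b n).card : ℝ) ≤ 16 * Real.exp (n + 1) := by
    refine le_trans ?_ (GLS106.card_S_le (Real.one_le_exp (by positivity : (0 : ℝ) ≤ n + 1)))
    have : (blk M b n).card ≤ (S (Real.exp (n + 1))).card := by
      classical
      unfold blk
      exact Finset.card_filter_le _ _
    exact_mod_cast this
  calc ∑ d ∈ blk M b n, ‖CS (tb b g t A) d‖ ^ 2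
      ≤ ∑ d ∈ blk M b n, (∑ x ∈ primBall X, ‖A (g * x)‖) ^ 2 :=
        Finset.sum_le_sum fun d _ => pow_le_pow_left₀ (norm_nonneg _) (norm_CS_tb_le hA hg) 2
    _ = (blk M b n).card * (∑ x ∈ primBall X, ‖A (g * x)‖) ^ 2 := by
        rw [Finset.sum_const, nsmul_eq_mul]
    _ ≤ _ := mul_le_mul_of_nonneg_right h1 (by positivity)

lemma integrable_EV {A0 : ℕ} (hA0 : 2 ≤ A0) {M b g h : Eis} {n : ℕ} {A B : Eis → ℂ} {X Y : ℕ}
    (hA : ∀ x, A x ≠ 0 → x ∈ primBall X) (hB : ∀ x, B x ≠ 0 → x ∈ primBall Y)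
    (hg : IsPrim g) (hh : IsPrim h) :
    Integrable (fun t => jb A0 t *
      (Real.sqrt (VB M b n (tb b g t A)) * Real.sqrt (VB M b n (tb b h t B)))) ∧
    EV A0 M b n g h A B ≤ (∫ t, jb A0 t) * ((16 * Real.exp (n + 1)) *
      ((∑ x ∈ primBall X, ‖A (g * x)‖) * ∑ x ∈ primBall Y, ‖B (h * x)‖)) := by
  have hA1 : (1 : ℝ) < (A0 : ℝ) := by exact_mod_cast (by omega : 1 < A0)
  set a : ℝ := ∑ x ∈ primBall X, ‖A (g * x)‖
  set c : ℝ := ∑ x ∈ primBall Y, ‖B (h * x)‖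
  have ha : 0 ≤ a := Finset.sum_nonneg fun _ _ => norm_nonneg _
  have hc : 0 ≤ c := Finset.sum_nonneg fun _ _ => norm_nonneg _
  set E : ℝ := 16 * Real.exp (n + 1)
  have hE : 0 ≤ E := by positivity
  have hb : ∀ t, Real.sqrt (VB M b n (tb b g t A)) * Real.sqrt (VB M b n (tb b h t B)) ≤
      E * (a * c) := by
    intro t
    have h1 : Real.sqrt (VB M b n (tb b g t A)) ≤ Real.sqrt (E * a ^ 2) :=
      Real.sqrt_le_sqrt (VB_le hA hg)
    have h2 : Real.sqrt (VB M b n (tb b h t B)) ≤ Real.sqrt (E * c ^ 2) :=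
      Real.sqrt_le_sqrt (VB_le hB hh)
    refine (mul_le_mul h1 h2 (Real.sqrt_nonneg _) (Real.sqrt_nonneg _)).trans (le_of_eq ?_)
    rw [Real.sqrt_mul hE, Real.sqrt_mul hE, Real.sqrt_sq ha, Real.sqrt_sq hc]
    have := Real.mul_self_sqrt hE
    linear_combination (a * c) * this
  have hi : Integrable (fun t => jb A0 t *
      (Real.sqrt (VB M b n (tb b g t A)) * Real.sqrt (VB M b n (tb b h t B)))) := by
    refine E1551.integrable_jb_mul hA1 ?_ (B := E * (a * c)) fun t => ?_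
    · exact (Real.continuous_sqrt.comp (continuous_VB hA hg)).mul
        (Real.continuous_sqrt.comp (continuous_VB hB hh))
    · rw [abs_of_nonneg (by positivity)]
      exact hb t
  refine ⟨hi, ?_⟩
  unfold EV
  rw [← integral_mul_const]
  exact integral_mono hi ((integrable_jb hA1).mul_const _) fun t =>
    mul_le_mul_of_nonneg_left (hb t) (jb_pos _ _).le

lemma EV_nonneg (A0 : ℕ) (M b : Eis) (n : ℕ) (g h : Eis) (A B : Eis → ℂ) :
    0 ≤ EV A0 M b n g h A B :=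
  integral_nonneg fun t => mul_nonneg (jb_pos _ _).le (by positivity)

/-- Cauchy over a block -/
lemma sum_EI_le {A0 : ℕ} (hA0 : 2 ≤ A0) {M b g h : Eis} {n : ℕ} {A B : Eis → ℂ} {X Y : ℕ}
    (hA : ∀ x, A x ≠ 0 → x ∈ primBall X) (hB : ∀ x, B x ≠ 0 → x ∈ primBall Y)
    (hg : IsPrim g) (hh : IsPrim h) :
    ∑ d ∈ blk M b n, EI A0 b g h A B d ≤ EV A0 M b n g h A B := by
  unfold EI EV
  rw [← integral_finsetSum _ fun d _ => integrable_EI hA0 hA hB hg hh]
  refine integral_mono (integrable_finsetSum _ fun d _ => integrable_EI hA0 hA hB hg hh)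
    (integrable_EV hA0 hA hB hg hh).1 fun t => ?_
  simp only
  rw [← Finset.mul_sum]
  exact mul_le_mul_of_nonneg_left (Real.sum_mul_le_sqrt_mul_sqrt _ _ _) (jb_pos _ _).le

/-- the factor of a block -/
def En (B0 : ℕ) (b : Eis) (L : ℝ) (n : ℕ) : ℝ :=
  Real.exp (-(n : ℝ) / 2) * eB B0 (Real.log (nm b) + n + L)

lemma En_nonneg (B0 : ℕ) (b : Eis) (L : ℝ) (n : ℕ) : 0 ≤ En B0 b L n :=
  mul_nonneg (Real.exp_pos _).le (eB_pos _ _).le

/-- the coefficient at the Gauss sum -/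
def Cgs (b g h : Eis) : ℝ := ‖gs (g * h) b‖ / nm b

lemma Cgs_nonneg (b g h : Eis) : 0 ≤ Cgs b g h := by unfold Cgs; positivity

lemma summable_En {A0 : ℕ} (hA0 : 2 ≤ A0) {B0 : ℕ} (hB0 : 1 ≤ B0) {M b g h : Eis} (L : ℝ)
    {A B : Eis → ℂ} {X Y : ℕ}
    (hA : ∀ x, A x ≠ 0 → x ∈ primBall X) (hB : ∀ x, B x ≠ 0 → x ∈ primBall Y)
    (hg : IsPrim g) (hh : IsPrim h) :
    Summable fun n : ℕ => En B0 b L n * EV A0 M b n g h A B := by
  set a : ℝ := ∑ x ∈ primBall X, ‖A (g * x)‖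
  set c : ℝ := ∑ x ∈ primBall Y, ‖B (h * x)‖
  have ha : 0 ≤ a := Finset.sum_nonneg fun _ _ => norm_nonneg _
  have hc : 0 ≤ c := Finset.sum_nonneg fun _ _ => norm_nonneg _
  have hJ : 0 ≤ ∫ t, jb A0 t := integral_nonneg fun t => (jb_pos _ _).le
  set D : ℝ := Real.log (nm b) + L with hD
  set K : ℝ := Real.exp (B0 * |D|) * ((∫ t, jb A0 t) * ((16 * Real.exp 1) * (a * c))) with hK
  have hK0 : 0 ≤ K := by positivity
  have hs : Summable fun n : ℕ => K * Real.exp (-(1 / 2)) ^ n := by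
    refine (summable_geometric_of_lt_one (Real.exp_pos _).le ?_).mul_left K
    rw [Real.exp_lt_one_iff]; norm_num
  refine Summable.of_nonneg_of_le (fun n => mul_nonneg (En_nonneg _ _ _ _) (EV_nonneg _ _ _ _ _ _ _ _))
    (fun n => ?_) hs
  have h1 : En B0 b L n ≤ Real.exp (-(n : ℝ) / 2) * (Real.exp (B0 * |D|) * Real.exp (-(n : ℝ))) := by
    unfold En
    refine mul_le_mul_of_nonneg_left ?_ (Real.exp_pos _).le
    have h2 := eB_shift B0 (x := Real.log (nm b) + n + L) (y := (n : ℝ)) (R := |D|) (by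
      rw [show Real.log (nm b) + n + L - n = D by rw [hD]; ring])
    refine h2.trans (mul_le_mul_of_nonneg_left ?_ (Real.exp_pos _).le)
    unfold eB
    apply Real.exp_le_exp.mpr
    rw [abs_of_nonneg (Nat.cast_nonneg n)]
    have : (1 : ℝ) ≤ B0 := by exact_mod_cast hB0
    have hn : (0 : ℝ) ≤ n := Nat.cast_nonneg n
    nlinarith
  have h3 := (integrable_EV (M := M) (b := b) (n := n) hA0 hA hB hg hh).2
  have e1 : Real.exp (-(1 / 2)) ^ n = Real.exp (-(n : ℝ) / 2) := by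
    rw [← Real.exp_nat_mul]; congr 1; ring
  have e2 : Real.exp (n + 1 : ℝ) = Real.exp n * Real.exp 1 := Real.exp_add _ _
  have e3 : Real.exp (-(n : ℝ)) * Real.exp n = 1 := by rw [← Real.exp_add]; simp
  calc En B0 b L n * EV A0 M b n g h A B
      ≤ (Real.exp (-(n : ℝ) / 2) * (Real.exp (B0 * |D|) * Real.exp (-(n : ℝ)))) *
        ((∫ t, jb A0 t) * ((16 * Real.exp (n + 1)) * (a * c))) :=
        mul_le_mul h1 h3 (EV_nonneg _ _ _ _ _ _ _ _) (by positivity)
    _ = K * Real.exp (-(1 / 2)) ^ n := by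
        rw [e1, e2, hK]
        linear_combination (Real.exp (-(n : ℝ) / 2) * Real.exp (B0 * |D|) *
          ((∫ t, jb A0 t) * (16 * Real.exp 1 * (a * c)))) * e3

end Crest.Agent.R017.E4401
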