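import Crest.Agent.R017.E4d5_401

/-!
# Row 17, block C70, leaf E4, dual side (helper401), part 6: the theorem

`dual_le` : `‖∑_x ∑_y A x B y D3 M χ (x y) (W τ) (ρ N(x y)/Q)‖ ≤ C (1+|τ|)^J RH`
-/

set_option autoImplicit false

noncomputable section

open Complex MeasureTheory
open scoped ComplexConjugate ContDiff

namespace Crest.Agent.R017.E4401

open Crest.Agent.R012 Crest.Agent.R012.Eis Crest.Agent.R012.GaussLoc283 Crest.Agent.R012.Mob705
open Crest.Agent.R012.Div277 (nm_le_of_dvd)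
open Crest.Agent.R012.LS2 (S mem_S)
open Crest.Agent.R017.B770 (RD)
open Crest.Agent.R017.Sx545 (Sm)
open Crest.Agent.R017.Asm986 (Pf)
open Crest.Agent.R017.NSx545 (exists_pfsf pfsf_unique)
open Crest.Agent.R017.E1551 (jb jb_pos)
open Crest.Agent.R017.CM106 (CS)

open Classical in
/-- the powerful parts -/
def PB (M : Eis) (N : ℕ) : Finset Eis := (primBall N).filter (fun b => Pf b ∧ Sm M b)

lemma mem_PB {M b : Eis} {N : ℕ} : b ∈ PB M N ↔ (nm b ≤ N ∧ IsPrim b) ∧ Pf b ∧ Sm M b := by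
  classical
  unfold PB
  rw [Finset.mem_filter, mem_primBall]

/-- **the right side** -/
def RH (A0 B0 : ℕ) (M : Eis) (L : ℝ) (X Y : ℕ) (A B : Eis → ℂ) : ℝ :=
  ∑ b ∈ PB M ((X * Y) ^ 2), ∑ g ∈ bs b X, ∑ h ∈ bs b Y,
    Cgs b g h * ∑' n : ℕ, En B0 b L n * EV A0 M b n g h A B

/-- the hypothesis on `TD` -/
def TDB (A0 B0 : ℕ) (K : ℝ) (W : ℝ → ℂ) (A B : Eis → ℂ) (X Y : ℕ) (ρ Q L : ℝ) : Prop :=
  ∀ b d : Eis, IsPrim b → IsPrim d → Squarefree d → IsCoprime b d →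
      ‖TD W A B X Y ρ Q (b * d)‖ ≤
        Real.sqrt (nm d) * ∑ g ∈ bs b X, ∑ h ∈ bs b Y,
          ‖gs (g * h) b‖ * (K * eB B0 (Real.log (nm b) + Real.log (nm d) + L) *
            EI A0 b g h A B d)

lemma EI_nonneg (A0 : ℕ) (b g h : Eis) (A B : Eis → ℂ) (d : Eis) : 0 ≤ EI A0 b g h A B d :=
  integral_nonneg fun t => mul_nonneg (jb_pos _ _).le (by positivity)

open Classical in
/-- the terms -/
def Fd (M : Eis) (W : ℝ → ℂ) (A B : Eis → ℂ) (X Y : ℕ) (ρ Q : ℝ) (d : Eis) : ℝ :=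
  if Sm M d then (nm d : ℝ)⁻¹ * ‖TD W A B X Y ρ Q d‖ else 0

lemma Fd_nonneg (M : Eis) (W : ℝ → ℂ) (A B : Eis → ℂ) (X Y : ℕ) (ρ Q : ℝ) (d : Eis) :
    0 ≤ Fd M W A B X Y ρ Q d := by
  unfold Fd
  split_ifs
  · positivity
  · exact le_rfl

variable {A0 B0 : ℕ} {K : ℝ} {W : ℝ → ℂ} {A B : Eis → ℂ} {X Y : ℕ} {ρ Q L : ℝ} {M : Eis}

lemma block_le (hA0 : 2 ≤ A0) (hK : 0 ≤ K) (hA : ∀ x, A x ≠ 0 → x ∈ primBall X)
    (hB : ∀ x, B x ≠ 0 → x ∈ primBall Y) (H : TDB A0 B0 K W A B X Y ρ Q L) {b : Eis}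
    (hb : IsPrim b) (n : ℕ) :
    ∑ d ∈ blk M b n, Fd M W A B X Y ρ Q (b * d) ≤
      K * Real.exp B0 * ∑ g ∈ bs b X, ∑ h ∈ bs b Y,
        Cgs b g h * (En B0 b L n * EV A0 M b n g h A B) := by
  classical
  have hnb : (0 : ℝ) < nm b := by exact_mod_cast nm_pos.mpr hb.ne_zero
  have h1 : ∀ d ∈ blk M b n, Fd M W A B X Y ρ Q (b * d) ≤ ∑ g ∈ bs b X, ∑ h ∈ bs b Y,
      Cgs b g h * (K * Real.exp B0 * En B0 b L n) * EI A0 b g h A B d := by
    intro d hd
    obtain ⟨⟨h1, h2, h3⟩, h4, h5⟩ := mem_blk.mp hd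
    have hnd : (0 : ℝ) < nm d := by exact_mod_cast nm_pos.mpr h2.ne_zero
    have hbd : IsCoprime b d := (IsCoprime.of_mul_right_right h5.2).symm
    have h6 : Fd M W A B X Y ρ Q (b * d) ≤ (nm (b * d) : ℝ)⁻¹ * ‖TD W A B X Y ρ Q (b * d)‖ := by
      unfold Fd
      split_ifs
      · exact le_rfl
      · positivity
    refine h6.trans ?_
    have h7 := H b d hb h2 h3 hbd
    refine (mul_le_mul_of_nonneg_left h7 (by positivity)).trans ?_
    rw [Finset.mul_sum, Finset.mul_sum]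
    refine Finset.sum_le_sum fun g hg => ?_
    rw [Finset.mul_sum, Finset.mul_sum]
    refine Finset.sum_le_sum fun h hh => ?_
    have hlog1 : (n : ℝ) ≤ Real.log (nm d) := (Real.le_log_iff_exp_le hnd).mpr h4
    have hlog2 : Real.log (nm d) ≤ n + 1 := (Real.log_le_iff_le_exp hnd).mpr h1
    have e1 : eB B0 (Real.log (nm b) + Real.log (nm d) + L) ≤
        Real.exp B0 * eB B0 (Real.log (nm b) + n + L) := by
      have := eB_shift B0 (x := Real.log (nm b) + Real.log (nm d) + L)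
        (y := Real.log (nm b) + n + L) (R := 1) (by
          rw [abs_le]; constructor <;> linarith)
      rwa [mul_one] at this
    have e2 : (nm d : ℝ)⁻¹ * Real.sqrt (nm d) ≤ Real.exp (-(n : ℝ) / 2) := by
      have h8 : (nm d : ℝ)⁻¹ * Real.sqrt (nm d) = Real.exp (-(Real.log (nm d)) / 2) := by
        rw [Real.sqrt_eq_rpow, Real.rpow_def_of_pos hnd]
        conv_lhs => rw [← Real.exp_log hnd]
        rw [← Real.exp_neg, ← Real.exp_add, Real.log_exp]
        congr 1; ring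
      rw [h8]
      apply Real.exp_le_exp.mpr
      linarith
    have hEI := EI_nonneg A0 b g h A B d
    have e3 : (nm (b * d) : ℝ)⁻¹ * (Real.sqrt (nm d) * (‖gs (g * h) b‖ *
        (K * eB B0 (Real.log (nm b) + Real.log (nm d) + L) * EI A0 b g h A B d))) =
        Cgs b g h * (K * (((nm d : ℝ)⁻¹ * Real.sqrt (nm d)) *
          eB B0 (Real.log (nm b) + Real.log (nm d) + L))) * EI A0 b g h A B d := by
      unfold Cgs
      rw [nm_mul]
      push_cast
      rw [mul_inv]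
      ring
    rw [e3]
    refine mul_le_mul_of_nonneg_right ?_ hEI
    refine mul_le_mul_of_nonneg_left ?_ (Cgs_nonneg _ _ _)
    unfold En
    calc K * (((nm d : ℝ)⁻¹ * Real.sqrt (nm d)) *
          eB B0 (Real.log (nm b) + Real.log (nm d) + L))
        ≤ K * (Real.exp (-(n : ℝ) / 2) * (Real.exp B0 * eB B0 (Real.log (nm b) + n + L))) :=
          mul_le_mul_of_nonneg_left (mul_le_mul e2 e1 (eB_pos _ _).le (Real.exp_pos _).le) hK
      _ = _ := by ring
  refine (Finset.sum_le_sum h1).trans ?_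
  rw [Finset.sum_comm, Finset.mul_sum]
  refine Finset.sum_le_sum fun g hg => ?_
  rw [Finset.sum_comm, Finset.mul_sum]
  refine Finset.sum_le_sum fun h hh => ?_
  rw [← Finset.mul_sum]
  have hgp : IsPrim g := (mem_bs.mp hg).1.2
  have hhp : IsPrim h := (mem_bs.mp hh).1.2
  have h2 := sum_EI_le (M := M) (b := b) (n := n) hA0 hA hB hgp hhp
  calc Cgs b g h * (K * Real.exp B0 * En B0 b L n) * ∑ d ∈ blk M b n, EI A0 b g h A B d
      ≤ Cgs b g h * (K * Real.exp B0 * En B0 b L n) * EV A0 M b n g h A B := by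
        refine mul_le_mul_of_nonneg_left h2 ?_
        exact mul_nonneg (Cgs_nonneg _ _ _) (mul_nonneg (by positivity) (En_nonneg _ _ _ _))
    _ = _ := by ring

/-- `TD ≠ 0` bounds the powerful part -/
lemma pf_bd (H : TDB A0 B0 K W A B X Y ρ Q L) {b d : Eis} (hb : IsPrim b) (hpf : Pf b)
    (hd : IsPrim d) (hds : Squarefree d) (hbd : IsCoprime b d)
    (h0 : TD W A B X Y ρ Q (b * d) ≠ 0) : nm b ≤ (X * Y) ^ 2 := by
  by_contra hcon
  push Not at hcon
  have h1 := H b d hb hd hds hbd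
  have h2 : ∑ g ∈ bs b X, ∑ h ∈ bs b Y,
      ‖gs (g * h) b‖ * (K * eB B0 (Real.log (nm b) + Real.log (nm d) + L) *
        EI A0 b g h A B d) = 0 := by
    refine Finset.sum_eq_zero fun g hg => Finset.sum_eq_zero fun h hh => ?_
    obtain ⟨⟨g1, g2⟩, -⟩ := mem_bs.mp hg
    obtain ⟨⟨h1, h2⟩, -⟩ := mem_bs.mp hh
    have h3 : gs (g * h) b = 0 := by
      by_contra h4
      have h5 := dvd_sq_of_gs _ le_rfl hb hpf h4
      have h6 : nm b ≤ nm ((g * h) ^ 2) :=
        nm_le_of_dvd (pow_ne_zero 2 (mul_ne_zero g2.ne_zero h2.ne_zero)) h5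
      rw [nm_pow, nm_mul] at h6
      have h7 : (nm g * nm h) ^ 2 ≤ (X * Y) ^ 2 :=
        Nat.pow_le_pow_left (Nat.mul_le_mul g1 h1) 2
      omega
    rw [h3, norm_zero, zero_mul]
  rw [h2, mul_zero] at h1
  exact h0 (norm_le_zero_iff.mp h1)

theorem sum_Fd_le (hA0 : 2 ≤ A0) (hB0 : 1 ≤ B0) (hK : 0 ≤ K)
    (hA : ∀ x, A x ≠ 0 → x ∈ primBall X)
    (hB : ∀ x, B x ≠ 0 → x ∈ primBall Y) (H : TDB A0 B0 K W A B X Y ρ Q L) (s : Finset Eis) :
    ∑ d ∈ s, Fd M W A B X Y ρ Q d ≤ K * Real.exp B0 * RH A0 B0 M L X Y A B := by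
  classical
  set N : ℕ := s.sup nm + 1 with hN
  set P : Finset (Eis × Eis) := (PB M ((X * Y) ^ 2) ×ˢ S (Real.exp N)).filter
    (fun q => Real.log (nm q.2) < N ∧ Sm (M * q.1) q.2) with hP
  have hmP : ∀ q, q ∈ P ↔ (q.1 ∈ PB M ((X * Y) ^ 2) ∧ q.2 ∈ S (Real.exp N)) ∧
      Real.log (nm q.2) < N ∧ Sm (M * q.1) q.2 := by
    intro q
    rw [hP, Finset.mem_filter, Finset.mem_product]
  -- every nonzero term has the form `b d`
  have h1 : ∀ d ∈ s, Fd M W A B X Y ρ Q d ≠ 0 → ∃ q ∈ P, q.1 * q.2 = d := by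
    intro d hd hd0
    have h2 : Sm M d := by
      by_contra h
      apply hd0
      unfold Fd
      rw [if_neg h]
    have h3 : TD W A B X Y ρ Q d ≠ 0 := by
      intro h
      apply hd0
      unfold Fd
      rw [if_pos h2, h, norm_zero, mul_zero]
    obtain ⟨u, v, hu, hv, rfl, hpf, hsf, hco⟩ := exists_pfsf _ le_rfl h2.1
    have hub : nm u ≤ (X * Y) ^ 2 := pf_bd H hu hpf hv hsf hco h3
    have hnv : nm v ≤ s.sup nm := (nm_le_of_dvd h2.ne_zero (dvd_mul_left _ _)).trans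
      (Finset.le_sup (f := nm) hd)
    have hv0 : (0 : ℝ) < nm v := by exact_mod_cast nm_pos.mpr hv.ne_zero
    have hvN : (nm v : ℝ) + 1 ≤ N := by
      rw [hN]; push_cast
      have : (nm v : ℝ) ≤ (s.sup nm : ℕ) := by exact_mod_cast hnv
      linarith
    have hlog : Real.log (nm v) < N := by
      have := Real.log_le_sub_one_of_pos hv0
      linarith
    refine ⟨(u, v), ?_, rfl⟩
    rw [hmP]
    refine ⟨⟨mem_PB.mpr ⟨⟨hub, hu⟩, hpf, hu, (h2.2.of_mul_left_left)⟩, ?_⟩, hlog, hv, ?_⟩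
    · rw [mem_S (Real.exp_pos _).le]
      exact ⟨((Real.log_le_iff_le_exp hv0).mp hlog.le), hv, hsf⟩
    · exact (h2.2.of_mul_left_right).mul_right hco.symm
  have h2 : ∑ d ∈ s, Fd M W A B X Y ρ Q d ≤ ∑ q ∈ P, Fd M W A B X Y ρ Q (q.1 * q.2) := by
    have e1 : ∑ d ∈ s, Fd M W A B X Y ρ Q d =
        ∑ d ∈ s.filter (fun d => Fd M W A B X Y ρ Q d ≠ 0), Fd M W A B X Y ρ Q d :=
      (Finset.sum_filter_ne_zero s).symm
    rw [e1]
    have h3 : ∀ d : Eis, ∃ q : Eis × Eis, d ∈ s.filter (fun d => Fd M W A B X Y ρ Q d ≠ 0) →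
        q ∈ P ∧ q.1 * q.2 = d := by
      intro d
      by_cases hd : d ∈ s.filter (fun d => Fd M W A B X Y ρ Q d ≠ 0)
      · obtain ⟨q, hq, hq2⟩ := h1 d (Finset.mem_filter.mp hd).1 (Finset.mem_filter.mp hd).2
        exact ⟨q, fun _ => ⟨hq, hq2⟩⟩
      · exact ⟨(0, 0), fun h => absurd h hd⟩
    choose f hf using h3
    have hinj : Set.InjOn f (s.filter (fun d => Fd M W A B X Y ρ Q d ≠ 0) : Finset Eis) := by
      intro a ha b hb hab
      rw [← (hf a ha).2, ← (hf b hb).2, hab]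
    calc ∑ d ∈ s.filter (fun d => Fd M W A B X Y ρ Q d ≠ 0), Fd M W A B X Y ρ Q d
        = ∑ d ∈ s.filter (fun d => Fd M W A B X Y ρ Q d ≠ 0),
            Fd M W A B X Y ρ Q ((f d).1 * (f d).2) :=
          Finset.sum_congr rfl fun d hd => by rw [(hf d hd).2]
      _ = ∑ q ∈ (s.filter (fun d => Fd M W A B X Y ρ Q d ≠ 0)).image f,
            Fd M W A B X Y ρ Q (q.1 * q.2) :=
          (Finset.sum_image (f := fun q : Eis × Eis => Fd M W A B X Y ρ Q (q.1 * q.2)) hinj).symm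
      _ ≤ _ := by
          refine Finset.sum_le_sum_of_subset_of_nonneg ?_ (fun q _ _ => Fd_nonneg _ _ _ _ _ _ _ _ _)
          intro q hq
          rw [Finset.mem_image] at hq
          obtain ⟨d, hd, rfl⟩ := hq
          exact (hf d hd).1
  refine h2.trans ?_
  have h3 : ∑ q ∈ P, Fd M W A B X Y ρ Q (q.1 * q.2) ≤ ∑ b ∈ PB M ((X * Y) ^ 2),
      ∑ n ∈ Finset.range N, ∑ d ∈ blk M b n, Fd M W A B X Y ρ Q (b * d) := by
    rw [hP, Finset.sum_filter, Finset.sum_product]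
    refine Finset.sum_le_sum fun b hb => ?_
    rw [← Finset.sum_filter]
    have hmap : ∀ d ∈ (S (Real.exp N)).filter (fun d => Real.log (nm d) < N ∧ Sm (M * b) d),
        ⌊Real.log (nm d)⌋₊ ∈ Finset.range N := by
      intro d hd
      rw [Finset.mem_filter] at hd
      rw [Finset.mem_range]
      have h4 := (mem_S (Real.exp_pos _).le).mp hd.1
      have h5 : (1 : ℝ) ≤ nm d := by exact_mod_cast nm_pos.mpr h4.2.1.ne_zero
      exact (Nat.floor_lt (Real.log_nonneg h5)).mpr hd.2.1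
    rw [← Finset.sum_fiberwise_of_maps_to hmap]
    refine Finset.sum_le_sum fun n hn => ?_
    refine Finset.sum_le_sum_of_subset_of_nonneg ?_ (fun q _ _ => Fd_nonneg _ _ _ _ _ _ _ _ _)
    intro d hd
    rw [Finset.mem_filter, Finset.mem_filter] at hd
    obtain ⟨⟨h4, h5, h6⟩, h7⟩ := hd
    have h8 := (mem_S (Real.exp_pos _).le).mp h4
    have h9 : (1 : ℝ) ≤ nm d := by exact_mod_cast nm_pos.mpr h8.2.1.ne_zero
    have h10 : (0 : ℝ) < nm d := by linarith
    have h11 := Nat.floor_le (Real.log_nonneg h9)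
    have h12 := Nat.lt_floor_add_one (Real.log (nm d))
    rw [h7] at h11 h12
    rw [mem_blk]
    refine ⟨⟨?_, h8.2.1, h8.2.2⟩, ?_, h6⟩
    · exact (Real.log_le_iff_le_exp h10).mp h12.le
    · exact (Real.le_log_iff_exp_le h10).mp h11
  refine h3.trans ?_
  unfold RH
  rw [Finset.mul_sum]
  refine Finset.sum_le_sum fun b hb => ?_
  have hbp : IsPrim b := (mem_PB.mp hb).1.2
  have hKe : 0 ≤ K * Real.exp B0 := by positivity
  calc ∑ n ∈ Finset.range N, ∑ d ∈ blk M b n, Fd M W A B X Y ρ Q (b * d)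
      ≤ ∑ n ∈ Finset.range N, K * Real.exp B0 * ∑ g ∈ bs b X, ∑ h ∈ bs b Y,
        Cgs b g h * (En B0 b L n * EV A0 M b n g h A B) :=
        Finset.sum_le_sum fun n _ => block_le hA0 hK hA hB H hbp n
    _ = K * Real.exp B0 * ∑ g ∈ bs b X, ∑ h ∈ bs b Y,
        Cgs b g h * ∑ n ∈ Finset.range N, En B0 b L n * EV A0 M b n g h A B := by
        rw [← Finset.mul_sum]
        congr 1
        rw [Finset.sum_comm]
        refine Finset.sum_congr rfl fun g _ => ?_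
        rw [Finset.sum_comm]
        refine Finset.sum_congr rfl fun h _ => ?_
        rw [Finset.mul_sum]
    _ ≤ _ := by
        refine mul_le_mul_of_nonneg_left ?_ hKe
        refine Finset.sum_le_sum fun g hg => Finset.sum_le_sum fun h hh => ?_
        refine mul_le_mul_of_nonneg_left ?_ (Cgs_nonneg _ _ _)
        have hgp : IsPrim g := (mem_bs.mp hg).1.2
        have hhp : IsPrim h := (mem_bs.mp hh).1.2
        exact (summable_En hA0 hB0 L hA hB hgp hhp).sum_le_tsum _ fun n _ =>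
          mul_nonneg (En_nonneg _ _ _ _) (EV_nonneg _ _ _ _ _ _ _ _)

end Crest.Agent.R017.E4401
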