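import Crest.Agent.R017.E4d6_401

/-!
# Row 17, block C70, leaf E4, dual side (helper401), part 7: the theorem

`dual_le` : `‖∑_x ∑_y A x B y D3 M χ (x y) (W τ) (ρ N(x y)/Q)‖ ≤ C (1+|τ|)^J RH`
-/

set_option autoImplicit false

noncomputable section

open Complex MeasureTheory
open scoped ComplexConjugate ContDiff

namespace Crest.Agent.R017.E4401

open Crest.Agent.R012 Crest.Agent.R012.Eis Crest.Agent.R012.GaussLoc283 Crest.Agent.R012.Mob705
open Crest.Agent.R017.B770 (RD)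
open Crest.Agent.R017.Sx545 (Sm)
open Crest.Agent.R017.E2440 (DS Dcy summable_DS)
open Crest.Agent.R017.C590 (D3)

/-- decay of the dual weights -/
lemma rd_dcy {W : ℝ → ℝ → ℂ} (hW : RD W) (τ : ℝ) {χ : Eis → ℂ} (hχ : ∀ d, ‖χ d‖ ≤ 1) {Z : ℝ}
    (hZ : 0 < Z) : Dcy (fun d => χ d * (nm d : ℂ)⁻¹ * W τ (nm d / Z)) := by
  obtain ⟨C, A, hC, h⟩ := hW.dec 0 2
  refine ⟨C * (1 + |τ|) ^ A * Z ^ 2, fun k hk => ?_⟩
  have hn : (0 : ℝ) < nm k := by exact_mod_cast nm_pos.mpr hk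
  have h1 := h τ ((nm k : ℝ) / Z) (by positivity)
  rw [iteratedDeriv_zero, Real.exp_log (by positivity)] at h1
  have h2 : ‖W τ ((nm k : ℝ) / Z)‖ ≤ C * (1 + |τ|) ^ A * (((nm k : ℝ) / Z) ^ 2)⁻¹ :=
    h1.trans (mul_le_mul_of_nonneg_left (min_le_right _ _) (by positivity))
  rw [norm_mul, norm_mul, norm_inv, Complex.norm_natCast]
  calc ‖χ k‖ * (nm k : ℝ)⁻¹ * ‖W τ ((nm k : ℝ) / Z)‖
      ≤ 1 * (nm k : ℝ)⁻¹ * (C * (1 + |τ|) ^ A * (((nm k : ℝ) / Z) ^ 2)⁻¹) := by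
        gcongr
        exact hχ k
    _ = C * (1 + |τ|) ^ A * Z ^ 2 * ((nm k : ℝ) ^ 3)⁻¹ := by
        field_simp

/-- **the dual bilinear bound** -/
theorem dual_le {W : ℝ → ℝ → ℂ} (hW : RD W) {R : ℝ} (hR : 0 ≤ R) {A0 : ℕ} (hA0 : 2 ≤ A0)
    {B0 : ℕ} (hB0 : 1 ≤ B0) : ∃ C J : ℝ, 0 ≤ C ∧ 0 ≤ J ∧ ∀ (M : Eis) (χ : Eis → ℂ),
      (∀ d, ‖χ d‖ ≤ 1) → ∀ X Y : ℝ, 0 < X → 0 < Y → ∀ A B : Eis → ℂ, Wn A X R → Wn B Y R →
      ∀ ρ Q : ℝ, 0 < ρ → 0 < Q → ∀ τ : ℝ,
      ‖∑' x : Eis, ∑' y : Eis, A x * B y * D3 M χ (x * y) (W τ) (ρ * nm (x * y) / Q)‖ ≤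
        C * (1 + |τ|) ^ J * RH A0 B0 M (Real.log (Q / (ρ * X * Y))) ⌊Real.exp R * X⌋₊
          ⌊Real.exp R * Y⌋₊ A B := by
  classical
  obtain ⟨C, J, hC, hJ, hTD⟩ := TD_le hW hR hA0 B0
  refine ⟨C * Real.exp B0, J, by positivity, hJ,
    fun M χ hχ X Y hX hY A B hwA hwB ρ Q hρ hQ τ => ?_⟩
  set X' := ⌊Real.exp R * X⌋₊
  set Y' := ⌊Real.exp R * Y⌋₊
  set L := Real.log (Q / (ρ * X * Y)) with hL
  have hA : ∀ x, A x ≠ 0 → x ∈ primBall X' := hwA.mem
  have hB : ∀ x, B x ≠ 0 → x ∈ primBall Y' := hwB.mem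
  have hH : TDB A0 B0 (C * (1 + |τ|) ^ J) (W τ) A B X' Y' ρ Q L :=
    fun b d hb hd hds hbd => hTD X Y hX hY A B hwA hwB ρ Q hρ hQ τ b d hb hd hds hbd
  have hK : 0 ≤ C * (1 + |τ|) ^ J := by positivity
  have hsum := fun s => sum_Fd_le (M := M) hA0 hB0 hK hA hB hH s
  have hRH : 0 ≤ C * (1 + |τ|) ^ J * Real.exp B0 * RH A0 B0 M L X' Y' A B := by
    have := hsum ∅
    rwa [Finset.sum_empty] at this
  have hFs : Summable (Fd M (W τ) A B X' Y' ρ Q) :=
    summable_of_sum_le (fun d => Fd_nonneg _ _ _ _ _ _ _ _ _) hsum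
  have hFt : ∑' d, Fd M (W τ) A B X' Y' ρ Q d ≤
      C * (1 + |τ|) ^ J * Real.exp B0 * RH A0 B0 M L X' Y' A B :=
    hFs.tsum_le_of_sum_le hsum
  -- the identity
  have e1 : ∑' x : Eis, ∑' y : Eis, A x * B y * D3 M χ (x * y) (W τ) (ρ * nm (x * y) / Q) =
      ∑ x ∈ primBall X', ∑ y ∈ primBall Y',
        A x * B y * D3 M χ (x * y) (W τ) (ρ * nm (x * y) / Q) := by
    rw [tsum_eq_sum (s := primBall X')]
    · refine Finset.sum_congr rfl fun x hx => ?_
      rw [tsum_eq_sum (s := primBall Y')]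
      intro y hy
      have : B y = 0 := by
        by_contra h; exact hy (hB y h)
      rw [this, mul_zero, zero_mul]
    · intro x hx
      have : A x = 0 := by
        by_contra h; exact hx (hA x h)
      simp only [this, zero_mul, tsum_zero]
  set f : Eis → Eis → Eis → ℂ := fun x y d => if Sm M d then
    conj (gs (x * y) d) * (χ d * (nm d : ℂ)⁻¹ * W τ (nm d / (ρ * nm (x * y) / Q))) else 0 with hf
  have hfs : ∀ x ∈ primBall X', ∀ y ∈ primBall Y', Summable (f x y) := by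
    intro x hx y hy
    have hx0 : (0 : ℝ) < nm x := by exact_mod_cast nm_pos.mpr (mem_primBall.mp hx).2.ne_zero
    have hy0 : (0 : ℝ) < nm y := by exact_mod_cast nm_pos.mpr (mem_primBall.mp hy).2.ne_zero
    have hZ : 0 < ρ * nm (x * y) / Q := by rw [nm_mul]; push_cast; positivity
    exact summable_DS (M := M) (u := x * y) (rd_dcy hW τ hχ hZ)
  have e2 : ∑ x ∈ primBall X', ∑ y ∈ primBall Y',
        A x * B y * D3 M χ (x * y) (W τ) (ρ * nm (x * y) / Q) =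
      ∑' d : Eis, (if Sm M d then χ d * ((nm d : ℂ)⁻¹ * TD (W τ) A B X' Y' ρ Q d) else 0) := by
    have e3 : ∀ x ∈ primBall X', ∑ y ∈ primBall Y',
        A x * B y * D3 M χ (x * y) (W τ) (ρ * nm (x * y) / Q) =
        ∑' d, ∑ y ∈ primBall Y', A x * B y * f x y d := by
      intro x hx
      rw [Summable.tsum_finsetSum fun y hy => (hfs x hx y hy).mul_left _]
      refine Finset.sum_congr rfl fun y hy => ?_
      rw [tsum_mul_left]
      rfl
    rw [Finset.sum_congr rfl e3, ← Summable.tsum_finsetSum fun x hx =>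
      summable_sum fun y hy => (hfs x hx y hy).mul_left _]
    refine tsum_congr fun d => ?_
    simp only [hf]
    by_cases hd : Sm M d
    · simp only [if_pos hd]
      unfold TD
      simp only [Finset.mul_sum]
      refine Finset.sum_congr rfl fun x _ => Finset.sum_congr rfl fun y _ => ?_
      ring
    · simp only [if_neg hd, mul_zero, Finset.sum_const_zero]
  rw [e1, e2]
  refine (norm_tsum_le_tsum_norm ?_).trans ?_
  · refine Summable.of_norm_bounded hFs fun d => ?_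
    rw [norm_norm]
    unfold Fd
    split_ifs
    · rw [norm_mul, norm_mul, norm_inv, Complex.norm_natCast]
      calc ‖χ d‖ * ((nm d : ℝ)⁻¹ * ‖TD (W τ) A B X' Y' ρ Q d‖)
          ≤ 1 * ((nm d : ℝ)⁻¹ * ‖TD (W τ) A B X' Y' ρ Q d‖) :=
            mul_le_mul_of_nonneg_right (hχ d) (by positivity)
        _ = _ := one_mul _
    · rw [norm_zero]
  · have h5 : ∑' d : Eis, ‖(if Sm M d then χ d * ((nm d : ℂ)⁻¹ * TD (W τ) A B X' Y' ρ Q d)
        else 0)‖ ≤ ∑' d, Fd M (W τ) A B X' Y' ρ Q d := by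
      refine Summable.tsum_le_tsum (fun d => ?_) ?_ hFs
      · unfold Fd
        split_ifs
        · rw [norm_mul, norm_mul, norm_inv, Complex.norm_natCast]
          calc ‖χ d‖ * ((nm d : ℝ)⁻¹ * ‖TD (W τ) A B X' Y' ρ Q d‖)
              ≤ 1 * ((nm d : ℝ)⁻¹ * ‖TD (W τ) A B X' Y' ρ Q d‖) :=
                mul_le_mul_of_nonneg_right (hχ d) (by positivity)
            _ = _ := one_mul _
        · rw [norm_zero]
      · refine Summable.of_norm_bounded hFs fun d => ?_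
        rw [norm_norm]
        unfold Fd
        split_ifs
        · rw [norm_mul, norm_mul, norm_inv, Complex.norm_natCast]
          calc ‖χ d‖ * ((nm d : ℝ)⁻¹ * ‖TD (W τ) A B X' Y' ρ Q d‖)
              ≤ 1 * ((nm d : ℝ)⁻¹ * ‖TD (W τ) A B X' Y' ρ Q d‖) :=
                mul_le_mul_of_nonneg_right (hχ d) (by positivity)
            _ = _ := one_mul _
        · rw [norm_zero]
    refine (h5.trans hFt).trans (le_of_eq (by ring))

end Crest.Agent.R017.E4401
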