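import Crest.Agent.R017.E4k_164
import Crest.Agent.R017.E4L_47
import Crest.Agent.R017.E4d_579
import Crest.Agent.R017.E4defs_352
import Crest.Agent.R017.EndQ_699

/-!
# Row 17, C70, leaf E4: the k-side dictionary (helper164)

`M` the modulus of the Hecke character `ψ`; `J` admissible, `c` supported on `(δ, j) = 1`;
`j = c₀ r ν²`, `r δ² = g x`, `l m² = z y` with `g`, `z` composed of primes of `M`, `x`, `y` prime to `M`.

* `NT_dict` : one frequency
* `E4L` : the left side of `E4352.E4core`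
* `dict` : `Σ_k tw ψ l k V(nm k/K) conj (sy k f) (Σ_{x ∈ J} c x sy k δ conj th(j k)) conj (CS b₁ k) CS b₂ k`
  is a finite sum over `c₀, g, z` of conjugates of `K^{-2/3} E4L`
-/

set_option autoImplicit false

noncomputable section

open Finset Complex
open scoped ComplexConjugate

namespace Crest.Agent.R017.E4D164

open Crest.Agent.R012 Crest.Agent.R012.Eis Crest.Agent.R012.GaussLoc283
open Crest.Agent.R012.Mob705 hiding pb mem_pb
open Crest.Agent.R012.Div277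
open Crest.Agent.R017.Sx545 (Sm)
open Crest.Agent.R017.CM106
open Crest.Agent.R017.PX764 (th Gh n6)
open Crest.Agent.R017.C70 Crest.Agent.R017.GrB829 Crest.Agent.R017.GrD829
open Crest.Agent.R017.E3A164
open Crest.Agent.R017.E2440
open Crest.Agent.R017.End699 (HC)
open Crest.Agent.R017.E4352 (SSm nf PrI XF Dat4)
open Crest.Agent.R017.E4579 (bpt bco)
open Crest.Agent.R017.E4K164 (dc dc_spec Uk e4k rd rd_prim)

/-! ### small lemmas -/

/-- finitely supported functions decrease rapidly -/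
lemma dcy_fin {φ : Eis → ℂ} (h : (Function.support φ).Finite) : Dcy φ := by
  classical
  refine ⟨∑ k ∈ h.toFinset, ‖φ k‖ * (nm k : ℝ) ^ 3, fun k hk => ?_⟩
  have hn := one_le_nm hk
  by_cases h0 : φ k = 0
  · rw [h0, norm_zero]
    exact mul_nonneg (Finset.sum_nonneg fun _ _ => by positivity) (by positivity)
  · have h1 : ‖φ k‖ * (nm k : ℝ) ^ 3 ≤ ∑ k ∈ h.toFinset, ‖φ k‖ * (nm k : ℝ) ^ 3 :=
      Finset.single_le_sum (f := fun k => ‖φ k‖ * (nm k : ℝ) ^ 3) (fun _ _ => by positivity)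
        (h.mem_toFinset.mpr h0)
    rw [← div_eq_mul_inv, le_div_iff₀ (by positivity)]
    exact h1

lemma fin_le (Y : ℝ) : {k : Eis | (nm k : ℝ) ≤ Y}.Finite := by
  refine (ball ⌊Y⌋₊).finite_toSet.subset fun k hk => ?_
  rw [Set.mem_ofPred_eq] at hk
  rw [Finset.mem_coe, mem_ball]
  exact Nat.le_floor hk

lemma nf_mulc {u g k : Eis} (_hk : IsPrim k) (hgk : IsCoprime g k) :
    nf (u * g) k = nf u k * sy g k := by
  classical
  unfold nf
  rw [Finset.sum_mul]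
  refine Finset.sum_congr rfl fun x hx => ?_
  rw [Finset.mem_filter, Finset.mem_product, mem_primBall, mem_primBall] at hx
  obtain ⟨⟨h1, h2⟩, h3⟩ := hx
  have hd2 : x.2 ∣ k := by rw [← h3]; exact dvd_mul_right _ _
  have hd1 : x.1 ∣ k := by
    rw [← h3]; exact dvd_mul_of_dvd_right (dvd_pow_self _ (by norm_num)) _
  have hc2 : IsCoprime g x.2 := hgk.of_isCoprime_of_dvd_right hd2
  have hc1 : IsCoprime g x.1 := hgk.of_isCoprime_of_dvd_right hd1
  have e1 : gs (u * g) x.2 = conj (sy g x.2) * gs u x.2 :=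
    Gauss880.gs_mul_of_coprime Gauss880.syG h2.2 u hc2
  have e2 : sy g k = sy g x.2 := by
    rw [← h3, syAx.mul_right _ _ _ h2.2 (h1.2.pow 3)]
    have e3 : sy g (x.1 ^ 3) = 1 := by
      rw [show x.1 ^ 3 = x.1 * (x.1 * x.1) by ring, syAx.mul_right _ _ _ h1.2 (h1.2.mul h1.2),
        syAx.mul_right _ _ _ h1.2 h1.2]
      have := syAx.cube g x.1 h1.2 hc1
      rw [show sy g x.1 * (sy g x.1 * sy g x.1) = sy g x.1 ^ 3 by ring, this]
    rw [e3, mul_one]
  rw [e1, e2, map_mul, Complex.conj_conj]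
  ring

lemma cop_IsC {c k : Eis} (hc : IsC c) (hk : IsPrim k) : IsCoprime c k := by
  have h3 : IsCoprime (3 : Eis) k := hk.isCoprime_three.symm
  have hw : IsUnit w := by
    have : w * w ^ 2 = 1 := by
      have := w_cube
      linear_combination this
    exact IsUnit.of_mul_eq_one _ this
  have hw1 : IsCoprime w k := isCoprime_of_isUnit hw k
  rcases hc with h | h | h | h
  · rw [h]; exact isCoprime_one_left
  · rw [h]; exact h3
  · rw [h]; exact h3.mul_left hw1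
  · rw [h]; exact h3.mul_left hw1.pow_left

lemma cop_PrI {M g k : Eis} (hg : PrI M g) (hk : IsCoprime k M) : IsCoprime g k := by
  rw [isCoprime_iff_pp hg.1]
  intro p hp h1 h2
  exact hp.prime.not_isUnit (hk.isUnit_of_dvd' h2 (hg.2 p hp.prime h1))

/-- the dual weight -/
def V1 (V : ℝ → ℂ) (y : ℝ) : ℂ := ((y ^ (-(2 / 3) : ℝ) : ℝ) : ℂ) * conj (V y)

/-- the dual character -/
def psd (ψ : Eis → ℂ) (h k : Eis) : ℂ := conj (ψ k) * sy h k

/-- the weight on the `k`-side -/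
def Wk (ψ : Eis → ℂ) (l : ℤ) (f : Eis) (V : ℝ → ℂ) (K : ℝ) (k : Eis) : ℂ :=
  End699.tw ψ l k * V (nm k / K) * conj (sy k f)

lemma dcy_Wk (ψ : Eis → ℂ) (l : ℤ) (f : Eis) {V : ℝ → ℂ} {K : ℝ} (hK : 0 < K)
    (hV : ∀ y, 1 < y → V y = 0) : Dcy (Wk ψ l f V K) := by
  refine dcy_fin ((fin_le K).subset fun k hk => ?_)
  rw [Set.mem_ofPred_eq]
  by_contra h
  apply hk
  unfold Wk
  rw [hV _ ((one_lt_div hK).mpr (not_le.mp h))]
  ring

lemma tw_mul {M : Eis} {ψ : Eis → ℂ} (hψ : HC M ψ) (l : ℤ) {a b : Eis} (ha : IsPrim a)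
    (hb : IsPrim b) : End699.tw ψ l (a * b) = End699.tw ψ l a * End699.tw ψ l b := by
  unfold End699.tw
  rw [hψ.char.mul a b ha hb, (PSer47.ang_isChar l).mul a b ha hb]
  ring

/-! ### one frequency -/

open Classical in
theorem NT_dict {M : Eis} {ψ : Eis → ℂ} (hψ : HC M ψ) (l : ℤ) {V : ℝ → ℂ} {K : ℝ} (hK : 0 < K)
    (hV : ∀ y, 1 < y → V y = 0) {c r δ n m ν f g z X Y : Eis} (hc : IsC c) (hr : IsPrim r)
    (hδ : IsPrim δ) (hδs : Squarefree δ) (hrδ : IsCoprime r δ)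
    (hn : IsPrim n) (hm : IsPrim m) (hν : IsPrim ν) (hf : Sm M f) (hg : PrI M g) (hz : PrI M z)
    (hX : r * δ ^ 2 = g * X) (hXM : Sm M X) (hY : n * m ^ 2 = z * Y) (hYM : Sm M Y) :
    NT (n * (m * δ)) (c * r * (n * (m * δ) ^ 2))
        (fun k => n23 k * conj (Wk ψ l f V K (ν * k))) =
      conj (End699.tw ψ l ν) * sy ν f * (((K : ℝ) ^ (-(2 / 3) : ℝ) : ℝ) : ℂ) *
        (((nm ν : ℝ) ^ (2 / 3 : ℝ) : ℝ) : ℂ) *
        NT (M * (f * Y)) (f * X * Y)
          (fun k => End699.tw (psd ψ (c * g * z)) (-l) k * V1 V (nm k * nm ν / K)) := by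
  have hν1 := one_le_nm hν.ne_zero
  have d1 : Dcy (fun k => n23 k * conj (Wk ψ l f V K (ν * k))) :=
    (E4K164.Dcy.cj ((dcy_Wk ψ l f hK hV).dil hν.ne_zero)).n23
  have d2 : Dcy (fun k => End699.tw (psd ψ (c * g * z)) (-l) k * V1 V (nm k * nm ν / K)) := by
    refine dcy_fin ((fin_le K).subset fun k hk => ?_)
    rw [Set.mem_ofPred_eq]
    by_contra h
    apply hk
    have h1 : 1 < (nm k : ℝ) * nm ν / K := by
      rw [one_lt_div hK]
      push Not at h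
      nlinarith
    show _ * V1 V ((nm k : ℝ) * nm ν / K) = 0
    unfold V1
    rw [hV _ h1]
    simp
  rw [← (NT47.NT_hasSum d1).tsum_eq, ← (NT47.NT_hasSum d2).tsum_eq, ← tsum_mul_left]
  refine tsum_congr fun k => ?_
  by_cases hk : IsPrim k
  swap
  · rw [if_neg (fun h => hk h.1), if_neg (fun h => hk h.1), mul_zero]
  have hW : Wk ψ l f V K (ν * k) = End699.tw ψ l ν * End699.tw ψ l k * V (nm k * nm ν / K) *
      (conj (sy ν f) * conj (sy k f)) := by
    unfold Wk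
    rw [tw_mul hψ l hν hk, syAx.mul_left _ _ _ hf.1, nm_mul, Nat.cast_mul, map_mul,
      mul_comm (nm ν : ℝ) (nm k : ℝ)]
  by_cases hkM : IsCoprime k M
  swap
  · rw [if_neg (fun h : Sm (M * (f * Y)) k => hkM h.2.of_mul_right_left), mul_zero, hW]
    have : End699.tw ψ l k = 0 := by unfold End699.tw; rw [hψ.van k hk hkM, zero_mul]
    rw [this]
    simp
  by_cases hkf : IsCoprime k f
  swap
  · rw [if_neg (fun h : Sm (M * (f * Y)) k => hkf h.2.of_mul_right_right.of_mul_right_left),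
      mul_zero, hW, (syAx.eq_zero k f hf.1).mpr hkf]
    simp
  have hgk := cop_PrI hg hkM
  have hzk := cop_PrI hz hkM
  by_cases hkY : IsCoprime k Y
  swap
  · have h1 : ¬ Sm (n * (m * δ)) k := by
      intro h
      apply hkY
      have h2 : IsCoprime k (n * m ^ 2) :=
        h.2.of_mul_right_left.mul_right h.2.of_mul_right_right.of_mul_right_left.pow_right
      rw [hY] at h2
      exact h2.of_mul_right_right
    rw [if_neg h1, if_neg (fun h : Sm (M * (f * Y)) k =>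
      hkY h.2.of_mul_right_right.of_mul_right_right), mul_zero]
  have hknm : IsCoprime k (n * m ^ 2) := by
    rw [hY]; exact hzk.symm.mul_right hkY
  have hkn : IsCoprime k n := hknm.of_mul_right_left
  have hkm : IsCoprime k m := by
    have := hknm.of_mul_right_right
    rw [pow_two] at this
    exact this.of_mul_right_left
  have hS2 : Sm (M * (f * Y)) k := ⟨hk, hkM.mul_right (hkf.mul_right hkY)⟩
  rw [if_pos hS2]
  by_cases hkδ : IsCoprime k δ
  swap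
  · rw [if_neg (fun h : Sm (n * (m * δ)) k => hkδ h.2.of_mul_right_right.of_mul_right_right)]
    obtain ⟨p, hp, hpk, hpδ⟩ := exists_common_pp hk hkδ
    obtain ⟨δ', rfl⟩ := hpδ
    have hpg : IsCoprime (p ^ 2) g :=
      (hgk.symm.of_isCoprime_of_dvd_left hpk).pow_left
    have hd : p ^ 2 ∣ g * X := by
      rw [← hX]
      exact ⟨r * δ' ^ 2, by ring⟩
    obtain ⟨X', hX'⟩ := hpg.dvd_of_dvd_mul_left hd
    have e1 : g * X' = r * δ' ^ 2 := by
      have h1 : p ^ 2 * (g * X') = p ^ 2 * (r * δ' ^ 2) := by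
        have : p ^ 2 * (g * X') = g * X := by rw [hX']; ring
        rw [this, ← hX]; ring
      exact mul_left_cancel₀ (pow_ne_zero 2 hp.prime.ne_zero) h1
    have hpr : ¬ p ∣ r := fun h =>
      hp.prime.not_isUnit (hrδ.isUnit_of_dvd' h (dvd_mul_right _ _))
    have hpδ' : ¬ p ∣ δ' := fun h => by
      apply hp.prime.not_isUnit
      exact hδs p (mul_dvd_mul_left p h)
    have hpX' : ¬ p ∣ X' := by
      intro h
      have h2 : p ∣ r * δ' ^ 2 := by rw [← e1]; exact h.mul_left _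
      rcases hp.prime.dvd_or_dvd h2 with h3 | h3
      · exact hpr h3
      · exact hpδ' (hp.prime.dvd_of_dvd_pow h3)
    have hpf : ¬ p ∣ f := fun h => hp.prime.not_isUnit (hkf.isUnit_of_dvd' hpk h)
    have hpY : ¬ p ∣ Y := fun h => hp.prime.not_isUnit (hkY.isUnit_of_dvd' hpk h)
    have e2 : f * X * Y = (f * X' * Y) * p ^ 2 := by rw [hX']; ring
    have hh : ¬ p ∣ f * X' * Y := by
      intro h
      rcases hp.prime.dvd_or_dvd h with h | h
      · rcases hp.prime.dvd_or_dvd h with h | h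
        · exact hpf h
        · exact hpX' h
      · exact hpY h
    rw [e2, NT47.nf_two hp hh hk hpk]
    simp
  have hS1 : Sm (n * (m * δ)) k := ⟨hk, hkn.mul_right (hkm.mul_right hkδ)⟩
  rw [if_pos hS1]
  have hcop : IsCoprime (c * g * z) k := ((cop_IsC hc hk).mul_left hgk).mul_left hzk
  have e1 : c * r * (n * (m * δ) ^ 2) = (X * Y) * (c * g * z) := by
    linear_combination c * n * m ^ 2 * hX + c * (g * X) * hY
  have e2 : f * X * Y = (X * Y) * f := by ring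
  have e3 : n23 k = (((K : ℝ) ^ (-(2 / 3) : ℝ) : ℝ) : ℂ) * (((nm ν : ℝ) ^ (2 / 3 : ℝ) : ℝ) : ℂ) *
      ((((nm k : ℝ) * nm ν / K) ^ (-(2 / 3) : ℝ) : ℝ) : ℂ) := by
    unfold n23
    rw [← Complex.ofReal_mul, ← Complex.ofReal_mul]
    congr 1
    have hk1 := one_le_nm hk.ne_zero
    rw [Real.div_rpow (by positivity) hK.le, Real.mul_rpow (by positivity) (by positivity)]
    have h1 : (nm ν : ℝ) ^ (2 / 3 : ℝ) * (nm ν : ℝ) ^ (-(2 / 3) : ℝ) = 1 := by
      rw [← Real.rpow_add (by linarith)]; norm_num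
    have h2 : (K : ℝ) ^ (-(2 / 3) : ℝ) ≠ 0 := (Real.rpow_pos_of_pos hK _).ne'
    calc (nm k : ℝ) ^ (-(2 / 3) : ℝ) = (nm k : ℝ) ^ (-(2 / 3) : ℝ) *
          ((nm ν : ℝ) ^ (2 / 3 : ℝ) * (nm ν : ℝ) ^ (-(2 / 3) : ℝ)) *
          ((K : ℝ) ^ (-(2 / 3) : ℝ) / (K : ℝ) ^ (-(2 / 3) : ℝ)) := by
          rw [h1, div_self h2]; ring
      _ = _ := by ring
  have e4 : conj (End699.tw ψ l k) * sy (c * g * z) k =
      End699.tw (psd ψ (c * g * z)) (-l) k := by
    unfold End699.tw psd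
    rw [End699.ang_neg_conj l hk.ne_zero, map_mul]
    ring
  rw [e1, e2, nf_mulc hk hcop, nf_mulc hk hkf.symm, hW, ← syAx.recip k f hk hf.1, ← e4]
  unfold V1
  rw [e3]
  simp only [map_mul, Complex.conj_conj]
  ring

/-! ### regrouping by the `M`-part -/

open Classical in
/-- the primary elements composed of primes of `M` -/
def MC (M : Eis) (N : ℕ) : Finset Eis := (primBall N).filter (fun g => PrI M g)

open Classical in
lemma mem_MC {M g : Eis} {N : ℕ} : g ∈ MC M N ↔ nm g ≤ N ∧ PrI M g := by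
  unfold MC
  rw [Finset.mem_filter, mem_primBall]
  exact ⟨fun h => ⟨h.1.1, h.2⟩, fun h => ⟨⟨h.1, h.2.1⟩, h.2⟩⟩

/-- decomposition with respect to `M` -/
lemma mpt_spec {M x : Eis} (hM : M ≠ 0) (hx : IsPrim x) : PrI M (bpt (rd M) x) ∧
    Sm M (bco (rd M) x) ∧ x = bpt (rd M) x * bco (rd M) x := by
  have hb := rd_prim M
  refine ⟨⟨E4579.bpt_prim hb hx, fun p hp hd => ?_⟩, ⟨E4579.bco_prim hb hx, ?_⟩,
    (E4579.bpt_mul_bco hb hx).symm⟩
  · exact (E4579.bpt_sup hb hx p hp hd).trans (prod_pp_dvd M)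
  · exact (NT47.cop_rd hM (E4579.bco_prim hb hx)).mp (E4579.bco_cop hb hx)

lemma mpt_unique {M x g y : Eis} (hM : M ≠ 0) (hx : IsPrim x) (hg : PrI M g) (hy : Sm M y)
    (h : x = g * y) : g = bpt (rd M) x ∧ y = bco (rd M) x := by
  obtain ⟨h1, h2, h3⟩ := mpt_spec hM hx
  have hb := rd_prim M
  have hs : ∀ {P : Eis}, PrI M P → E4579.SupB P (rd M) := by
    intro P hP p hp hd
    obtain ⟨q, hq, hqp⟩ := exists_isPrim_associated (x := p)
      (fun h3 => hP.1.not_lam_dvd (h3.trans hd))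
    have hqP : IsPP q := ⟨hq, hqp.prime_iff.mp hp⟩
    have hqM : q ∣ M := (hqp.symm.dvd.trans (hP.2 p hp hd))
    exact hqp.dvd.trans ((NT47.pp_dvd_rd hM hqP).mpr hqM)
  exact E4579.bp_unique hg.1 h1.1 (hs hg) (hs h1)
    ((NT47.cop_rd hM hy.1).mpr hy.2) ((NT47.cop_rd hM h2.1).mpr h2.2) (h.symm.trans h3)

open Classical in
/-- the pushed-forward sequence at the `M`-part `g` -/
def pu {A : Type*} (M : Eis) (I : Finset A) (X : A → Eis) (a : A → ℂ) (g x : Eis) : ℂ :=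
  if Sm M x then ∑ i ∈ I.filter (fun i => X i = g * x), a i else 0

lemma pu_ne {A : Type*} {M : Eis} {I : Finset A} {X : A → Eis} {a : A → ℂ} {g x : Eis}
    (h : pu M I X a g x ≠ 0) : Sm M x ∧ ∃ i ∈ I, X i = g * x ∧ a i ≠ 0 := by
  classical
  unfold pu at h
  split_ifs at h with h1
  · refine ⟨h1, ?_⟩
    obtain ⟨i, hi, h2⟩ := exists_ne_zero_of_sum_ne_zero h
    rw [Finset.mem_filter] at hi
    exact ⟨i, hi.1, hi.2, h2⟩
  · exact absurd rfl h

lemma pu_fin {A : Type*} {M : Eis} (hM : M ≠ 0) {I : Finset A} {X : A → Eis}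
    (hX : ∀ i ∈ I, IsPrim (X i)) {a : A → ℂ} {g : Eis} (hg : PrI M g) {x : Eis}
    (h : pu M I X a g x ≠ 0) : x ∈ I.image (fun i => bco (rd M) (X i)) := by
  classical
  obtain ⟨h1, i, hi, h2, -⟩ := pu_ne h
  rw [Finset.mem_image]
  exact ⟨i, hi, ((mpt_unique hM (hX i hi) hg h1 h2).2).symm⟩

open Classical in
theorem push {A : Type*} {M : Eis} (hM : M ≠ 0) {I : Finset A} {X : A → Eis}
    (hX : ∀ i ∈ I, IsPrim (X i)) {N : ℕ} (hN : ∀ i ∈ I, nm (X i) ≤ N) (a : A → ℂ)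
    (F : Eis → Eis → ℂ) :
    ∑ g ∈ MC M N, ∑' x : Eis, pu M I X a g x * F g x =
      ∑ i ∈ I, a i * F (bpt (rd M) (X i)) (bco (rd M) (X i)) := by
  set T := I.image (fun i => bco (rd M) (X i)) with hT
  have e1 : ∀ g ∈ MC M N, (∑' x : Eis, pu M I X a g x * F g x) =
      ∑ i ∈ I, ∑ x ∈ T, if Sm M x ∧ X i = g * x then a i * F g x else 0 := by
    intro g hg
    rw [tsum_eq_sum (s := T) (fun x hx => ?_)]
    · rw [Finset.sum_comm]
      refine Finset.sum_congr rfl fun x _ => ?_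
      unfold pu
      split_ifs with h1
      · rw [Finset.sum_filter, Finset.sum_mul]
        refine Finset.sum_congr rfl fun i _ => ?_
        by_cases h2 : X i = g * x
        · rw [if_pos h2, if_pos ⟨h1, h2⟩]
        · rw [if_neg h2, if_neg (fun h => h2 h.2), zero_mul]
      · rw [zero_mul]
        symm
        exact Finset.sum_eq_zero fun i _ => if_neg (fun h => h1 h.1)
    · have : pu M I X a g x = 0 := by
        by_contra h
        exact hx (pu_fin hM hX (mem_MC.mp hg).2 h)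
      rw [this, zero_mul]
  rw [Finset.sum_congr rfl e1, Finset.sum_comm]
  refine Finset.sum_congr rfl fun i hi => ?_
  obtain ⟨h1, h2, h3⟩ := mpt_spec hM (hX i hi)
  have hgm : bpt (rd M) (X i) ∈ MC M N := by
    refine mem_MC.mpr ⟨(nm_le_of_dvd (hX i hi).ne_zero ?_).trans (hN i hi), h1⟩
    exact ⟨_, h3⟩
  rw [Finset.sum_eq_single_of_mem _ hgm]
  · rw [Finset.sum_eq_single_of_mem (bco (rd M) (X i))]
    · rw [if_pos ⟨h2, h3⟩]
    · exact Finset.mem_image_of_mem (fun i => bco (rd M) (X i)) hi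
    · intro x _ hx
      rw [if_neg]
      rintro ⟨h4, h5⟩
      exact hx (mpt_unique hM (hX i hi) h1 h4 h5).2
  · intro g hg hne
    refine Finset.sum_eq_zero fun x _ => if_neg ?_
    rintro ⟨h4, h5⟩
    exact hne (mpt_unique hM (hX i hi) (mem_MC.mp hg).2 h4 h5).1

/-! ### the dictionary -/

/-- the left side of `E4core` -/
def E4L (M f : Eis) (ψ : Eis → ℂ) (l : ℤ) (V : ℝ → ℂ) (K : ℝ) {O : Type} [Fintype O]
    (lam : O → ℝ) (v w : O → Eis → ℂ) : ℂ :=
  ∑ o, ∑' x : Eis, v o x * ∑' y : Eis, w o y *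
    NT (M * (f * y)) (f * x * y) (fun k => End699.tw ψ l k * V (nm k * lam o / K))

/-- the constants -/
def C4 : Finset Eis := by
  classical
  exact {1, 3, 3 * w, 3 * w ^ 2}

lemma mem_C4 {c : Eis} : c ∈ C4 ↔ IsC c := by
  classical
  unfold C4 IsC
  simp

/-- the frequency `r δ²` of the `x`-side -/
def jX (x : Eis × Eis) : Eis := (dc x.2).2.1 * x.1 ^ 2

open Classical in
/-- the indices with `j = c₀ r ν²` -/
def JI (J : Finset (Eis × Eis)) (c₀ ν : Eis) : Finset (Eis × Eis) :=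
  J.filter (fun x => (dc x.2).1 = c₀ ∧ (dc x.2).2.2 = ν)

/-- the coefficient of the `x`-side -/
def ca (ψ : Eis → ℂ) (l : ℤ) (f : Eis) (c : Eis × Eis → ℂ) (x : Eis × Eis) : ℂ :=
  conj (c x) * (conj (sy (dc x.2).2.2 x.1) * th ((dc x.2).1 * (dc x.2).2.1)) *
    (conj (End699.tw ψ l (dc x.2).2.2) * sy (dc x.2).2.2 f *
      (((nm (dc x.2).2.2 : ℝ) ^ (2 / 3 : ℝ) : ℝ) : ℂ))

/-- the coefficient of the `y`-side -/
def cb (b₁ b₂ : Eis → ℂ) (ν : Eis) (p : Eis × Eis) : ℂ :=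
  b₁ p.1 * conj (b₂ p.2) * (sy ν p.1 * conj (sy ν p.2))

/-- the `x`-side sequence -/
def vv (M : Eis) (ψ : Eis → ℂ) (l : ℤ) (f : Eis) (J : Finset (Eis × Eis)) (c : Eis × Eis → ℂ)
    (c₀ g ν : Eis) : Eis → ℂ := pu M (JI J c₀ ν) jX (ca ψ l f c) g

/-- the `y`-side sequence -/
def ww (M : Eis) (b₁ b₂ : Eis → ℂ) (L : Finset (Eis × Eis)) (z ν : Eis) : Eis → ℂ :=
  pu M L (fun p => p.1 * p.2 ^ 2) (cb b₁ b₂ ν) z

open Classical in
/-- the outer parameter -/
def NU (M : Eis) (J : Finset (Eis × Eis)) : Finset Eis :=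
  (J.image (fun x => (dc x.2).2.2)).filter (fun ν => Sm M ν)

open Classical in
theorem dict {M : Eis} {ψ : Eis → ℂ} (hψ : HC M ψ) (l : ℤ) {V : ℝ → ℂ} {K : ℝ} (hK : 0 < K)
    (hV : ∀ y, 1 < y → V y = 0) {J : Finset (Eis × Eis)} (hJ : OKJ J) {c : Eis × Eis → ℂ}
    (hc : ∀ x ∈ J, c x ≠ 0 → IsCoprime x.2 x.1) {b₁ b₂ : Eis → ℂ} (h₁ : FS b₁) (h₂ : FS b₂)
    {f : Eis} (hf : Sm M f) {N₁ N₂ : ℕ} (hN₁ : ∀ x ∈ J, nm (jX x) ≤ N₁)
    (hN₂ : ∀ n m, b₁ n ≠ 0 → b₂ m ≠ 0 → nm (n * m ^ 2) ≤ N₂) :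
    (∑' k : Eis, if IsPrim k then
      Wk ψ l f V K k * ((∑ x ∈ J, c x * (sy k x.1 * conj (th (x.2 * k)))) *
        (conj (CS b₁ k) * CS b₂ k)) else 0) =
      ∑ c₀ ∈ C4, ∑ g ∈ MC M N₁, ∑ z ∈ MC M N₂,
        conj ((((K : ℝ) ^ (-(2 / 3) : ℝ) : ℝ) : ℂ) *
          E4L M f (psd ψ (c₀ * g * z)) (-l) (V1 V) K (O := NU M J) (fun o => (nm o.1 : ℝ))
            (fun o => vv M ψ l f J c c₀ g o.1)
            (fun o => ww M b₁ b₂ (h₁.fin.toFinset ×ˢ h₂.fin.toFinset) z o.1)) := by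
  have hM := hψ.q0
  set L := h₁.fin.toFinset ×ˢ h₂.fin.toFinset with hL
  have hLm : ∀ p ∈ L, b₁ p.1 ≠ 0 ∧ b₂ p.2 ≠ 0 := by
    intro p hp
    rw [hL, Finset.mem_product, Set.Finite.mem_toFinset, Set.Finite.mem_toFinset] at hp
    exact hp
  have hLp : ∀ p ∈ L, IsPrim (p.1 * p.2 ^ 2) := fun p hp =>
    (h₁.prim _ (hLm p hp).1).mul ((h₂.prim _ (hLm p hp).2).pow 2)
  have hLN : ∀ p ∈ L, nm (p.1 * p.2 ^ 2) ≤ N₂ := fun p hp => hN₂ _ _ (hLm p hp).1 (hLm p hp).2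
  have hJp : ∀ x ∈ J, IsPrim (jX x) := by
    intro x hx
    obtain ⟨-, h2, -⟩ := dc_spec (hJ.jc x hx)
    exact h2.mul ((hJ.prim x hx).pow 2)
  set κ : ℂ := (((K : ℝ) ^ (-(2 / 3) : ℝ) : ℝ) : ℂ) with hκ
  set H : Eis → Eis → Eis → Eis → Eis → Eis → ℂ := fun c₀ g z ν X Y =>
    NT (M * (f * Y)) (f * X * Y)
      (fun k => End699.tw (psd ψ (c₀ * g * z)) (-l) k * V1 V (nm k * nm ν / K)) with hH
  -- the total on the index set
  set R : Eis × Eis → ℂ := fun x => ca ψ l f c x * ∑ p ∈ L, cb b₁ b₂ (dc x.2).2.2 p *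
    H (dc x.2).1 (bpt (rd M) (jX x)) (bpt (rd M) (p.1 * p.2 ^ 2)) (dc x.2).2.2
      (bco (rd M) (jX x)) (bco (rd M) (p.1 * p.2 ^ 2)) with hR
  have key : ∀ x ∈ J, c x * ∑ n ∈ h₁.fin.toFinset, ∑ m ∈ h₂.fin.toFinset,
      conj (b₁ n) * b₂ m * Uk (Wk ψ l f V K) x n m = conj (κ * R x) := by
    intro x hx
    by_cases hcx : c x = 0
    · rw [hR]
      simp only [ca, hcx]
      simp
    obtain ⟨s1, s2, s3, s4, s5, s6, s7⟩ := dc_spec (hJ.jc x hx)
    have hδ := hJ.prim x hx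
    have hjδ := hc x hx hcx
    have hrδ : IsCoprime (dc x.2).2.1 x.1 := by
      refine hjδ.of_isCoprime_of_dvd_left ?_
      conv_rhs => rw [s7]
      exact ⟨(dc x.2).1 * (dc x.2).2.2 ^ 2, by ring⟩
    obtain ⟨g1, g2, g3⟩ := mpt_spec hM (hJp x hx)
    have e1 : κ * R x = ∑ p ∈ L, κ * (ca ψ l f c x * (cb b₁ b₂ (dc x.2).2.2 p *
        H (dc x.2).1 (bpt (rd M) (jX x)) (bpt (rd M) (p.1 * p.2 ^ 2)) (dc x.2).2.2
          (bco (rd M) (jX x)) (bco (rd M) (p.1 * p.2 ^ 2)))) := by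
      rw [hR]
      simp only
      rw [Finset.mul_sum, Finset.mul_sum]
    rw [e1, map_sum, hL, Finset.sum_product, Finset.mul_sum]
    refine Finset.sum_congr rfl fun n hn => ?_
    rw [Finset.mul_sum]
    refine Finset.sum_congr rfl fun m hm => ?_
    have hp : (n, m) ∈ L := by rw [hL]; exact Finset.mem_product.mpr ⟨hn, hm⟩
    have hnp := h₁.prim _ (hLm _ hp).1
    have hmp := h₂.prim _ (hLm _ hp).2
    obtain ⟨z1, z2, z3⟩ := mpt_spec hM (hLp _ hp)
    have hNT := NT_dict hψ l hK hV s1 s2 hδ (hJ.sqf x hx) hrδ hnp hmp s4 hf g1 z1 g3 g2 z3 z2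
    unfold Uk
    rw [hNT, hH]
    simp only [ca, cb, map_mul, Complex.conj_conj, Complex.conj_ofReal, hκ]
    ring
  rw [e4k hJ c h₁ h₂ (dcy_Wk ψ l f hK hV), Finset.sum_congr rfl key]
  -- the right side
  have st1 : ∀ c₀ ∈ C4, ∀ o : NU M J, ∑ g ∈ MC M N₁, ∑ z ∈ MC M N₂,
      ∑' X : Eis, vv M ψ l f J c c₀ g o.1 X * ∑' Y : Eis, ww M b₁ b₂ L z o.1 Y *
        H c₀ g z o.1 X Y = ∑ x ∈ JI J c₀ o.1, R x := by
    intro c₀ _ o
    have hI : ∀ x ∈ JI J c₀ o.1, x ∈ J ∧ (dc x.2).1 = c₀ ∧ (dc x.2).2.2 = o.1 := by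
      intro x hx
      unfold JI at hx
      rw [Finset.mem_filter] at hx
      exact hx
    have e2 : ∀ g ∈ MC M N₁, (∑ z ∈ MC M N₂, ∑' X : Eis, vv M ψ l f J c c₀ g o.1 X *
        ∑' Y : Eis, ww M b₁ b₂ L z o.1 Y * H c₀ g z o.1 X Y) =
        ∑' X : Eis, pu M (JI J c₀ o.1) jX (ca ψ l f c) g X *
          (∑ p ∈ L, cb b₁ b₂ o.1 p * H c₀ g (bpt (rd M) (p.1 * p.2 ^ 2)) o.1 X
            (bco (rd M) (p.1 * p.2 ^ 2))) := by
      intro g hg
      have hfin : (Function.support (vv M ψ l f J c c₀ g o.1)).Finite := by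
        refine ((JI J c₀ o.1).image (fun i => bco (rd M) (jX i))).finite_toSet.subset
          fun x hx => ?_
        exact Finset.mem_coe.mpr (pu_fin hM (fun i hi => hJp i (hI i hi).1) (mem_MC.mp hg).2 hx)
      rw [← Summable.tsum_finsetSum (fun z _ => summable_of_hasFiniteSupport
        (hfin.subset fun X hX => left_ne_zero_of_mul hX))]
      refine tsum_congr fun X => ?_
      rw [← Finset.mul_sum]
      congr 1
      exact push hM hLp hLN (cb b₁ b₂ o.1) (fun z Y => H c₀ g z o.1 X Y)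
    rw [Finset.sum_congr rfl e2,
      push hM (fun i hi => hJp i (hI i hi).1) (fun i hi => hN₁ i (hI i hi).1) (ca ψ l f c)
        (fun g X => ∑ p ∈ L, cb b₁ b₂ o.1 p * H c₀ g (bpt (rd M) (p.1 * p.2 ^ 2)) o.1 X
            (bco (rd M) (p.1 * p.2 ^ 2)))]
    refine Finset.sum_congr rfl fun x hx => ?_
    obtain ⟨-, h5, h6⟩ := hI x hx
    rw [hR]
    simp only [h5, h6]
  have st2 : ∑ x ∈ J, R x = ∑ c₀ ∈ C4, ∑ o : NU M J, ∑ x ∈ JI J c₀ o.1, R x := by
    have e3 : ∀ c₀ ∈ C4, (∑ o : NU M J, ∑ x ∈ JI J c₀ o.1, R x) =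
        ∑ x ∈ J, ∑ ν ∈ NU M J, if (dc x.2).1 = c₀ ∧ (dc x.2).2.2 = ν then R x else 0 := by
      intro c₀ _
      rw [Finset.sum_coe_sort (NU M J) (fun ν => ∑ x ∈ JI J c₀ ν, R x), Finset.sum_comm]
      refine Finset.sum_congr rfl fun ν _ => ?_
      unfold JI
      rw [Finset.sum_filter]
    rw [Finset.sum_congr rfl e3, Finset.sum_comm]
    refine Finset.sum_congr rfl fun x hx => ?_
    obtain ⟨s1, s2, s3, s4, s5, s6, s7⟩ := dc_spec (hJ.jc x hx)
    rw [Finset.sum_eq_single_of_mem (dc x.2).1 (mem_C4.mpr s1)]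
    · by_cases hν : IsCoprime (dc x.2).2.2 M
      · rw [Finset.sum_eq_single_of_mem (dc x.2).2.2]
        · rw [if_pos ⟨rfl, rfl⟩]
        · unfold NU
          rw [Finset.mem_filter]
          exact ⟨Finset.mem_image_of_mem (fun x : Eis × Eis => (dc x.2).2.2) hx, s4, hν⟩
        · intro ν _ h
          rw [if_neg (fun h' => h h'.2.symm)]
      · have h0 : R x = 0 := by
          rw [hR]
          simp only [ca, End699.tw, hψ.van _ s4 hν]
          simp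
        rw [h0]
        symm
        refine Finset.sum_eq_zero fun ν _ => ?_
        split_ifs <;> rfl
    · intro c₀ _ h
      refine Finset.sum_eq_zero fun ν _ => ?_
      rw [if_neg (fun h' => h h'.1.symm)]
  have st3 : ∑ c₀ ∈ C4, ∑ g ∈ MC M N₁, ∑ z ∈ MC M N₂,
      conj (κ * E4L M f (psd ψ (c₀ * g * z)) (-l) (V1 V) K (O := NU M J)
        (fun o => (nm o.1 : ℝ)) (fun o => vv M ψ l f J c c₀ g o.1)
        (fun o => ww M b₁ b₂ L z o.1)) =
      conj (κ * ∑ c₀ ∈ C4, ∑ o : NU M J, ∑ g ∈ MC M N₁, ∑ z ∈ MC M N₂,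
        ∑' X : Eis, vv M ψ l f J c c₀ g o.1 X * ∑' Y : Eis, ww M b₁ b₂ L z o.1 Y *
          H c₀ g z o.1 X Y) := by
    simp_rw [← map_sum, ← Finset.mul_sum]
    congr 2
    refine Finset.sum_congr rfl fun c₀ _ => ?_
    unfold E4L
    rw [Finset.sum_congr rfl (fun g _ => Finset.sum_comm), Finset.sum_comm]
  rw [st3, Finset.sum_congr rfl (fun c₀ hc₀ => Finset.sum_congr rfl fun o _ => st1 c₀ hc₀ o),
    ← st2, ← map_sum, ← Finset.mul_sum]

end Crest.Agent.R017.E4D164
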