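import Crest.Agent.R017.E4s_164

/-!
# Row 17, exceptional class, StrUX: the k-side dictionary with a weight on the outer `k` (helper372)

helper164's `E4d`, `E4e` with `V (nm k / K)` replaced by an arbitrary `Φ k`, `Φ k = 0` for `nm k > K`
(a function of the outer `k`, not only of its norm: helper974's filter of the outer cubes).

* `Wf` : the weight;  `V1f` : the dual weight
* `NT_dictf` : one frequency
* `E4Lf` : the left side of helper266's `E4core7x`, inner weight `Φ1 (cO o * k)`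
* `dictIf` : the joint dictionary
-/

set_option autoImplicit false

noncomputable section

open Finset Complex
open scoped ComplexConjugate

namespace Crest.Agent.R017.E4Df372

open Crest.Agent.R012 Crest.Agent.R012.Eis Crest.Agent.R012.GaussLoc283
open Crest.Agent.R012.Mob705 hiding pb mem_pb
open Crest.Agent.R012.Div277
open Crest.Agent.R017.Sx545 (Sm)
open Crest.Agent.R017.CM106
open Crest.Agent.R017.PX764 (th Gh n6)
open Crest.Agent.R017.C70 Crest.Agent.R017.GrB829 Crest.Agent.R017.GrD829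
open Crest.Agent.R017.E3A164
open Crest.Agent.R017.E2440
open Crest.Agent.R017.End699 (HC)
open Crest.Agent.R017.E4352 (SSm nf PrI XF Dat4)
open Crest.Agent.R017.E4579 (bpt bco)
open Crest.Agent.R017.E4K164 (dc dc_spec Uk e4k rd rd_prim e4k_one CS_tk FS_tw sum_supp)
open Crest.Agent.R017.E4D164 hiding E4L

/-- the weight on the `k`-side -/
def Wf (ψ : Eis → ℂ) (l : ℤ) (f : Eis) (Φ : Eis → ℂ) (k : Eis) : ℂ :=
  End699.tw ψ l k * Φ k * conj (sy k f)

/-- the dual weight -/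
def V1f (Φ : Eis → ℂ) (K : ℝ) (k : Eis) : ℂ :=
  ((((nm k : ℝ) / K) ^ (-(2 / 3) : ℝ) : ℝ) : ℂ) * conj (Φ k)

lemma dcy_Wf (ψ : Eis → ℂ) (l : ℤ) (f : Eis) {Φ : Eis → ℂ} {K : ℝ}
    (hΦ : ∀ k, K < nm k → Φ k = 0) : Dcy (Wf ψ l f Φ) := by
  refine dcy_fin ((fin_le K).subset fun k hk => ?_)
  rw [Set.mem_ofPred_eq]
  by_contra h
  apply hk
  unfold Wf
  rw [hΦ _ (not_le.mp h)]
  ring

/-! ### one frequency -/

open Classical in
theorem NT_dictf {M : Eis} {ψ : Eis → ℂ} (hψ : HC M ψ) (l : ℤ) {Φ : Eis → ℂ} {K : ℝ} (hK : 0 < K)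
    (hΦ : ∀ k, K < nm k → Φ k = 0) {c r δ n m ν f g z X Y : Eis} (hc : IsC c) (hr : IsPrim r)
    (hδ : IsPrim δ) (hδs : Squarefree δ) (hrδ : IsCoprime r δ)
    (hn : IsPrim n) (hm : IsPrim m) (hν : IsPrim ν) (hf : Sm M f) (hg : PrI M g) (hz : PrI M z)
    (hX : r * δ ^ 2 = g * X) (hXM : Sm M X) (hY : n * m ^ 2 = z * Y) (hYM : Sm M Y) :
    NT (n * (m * δ)) (c * r * (n * (m * δ) ^ 2))
        (fun k => n23 k * conj (Wf ψ l f Φ (ν * k))) =
      conj (End699.tw ψ l ν) * sy ν f * (((K : ℝ) ^ (-(2 / 3) : ℝ) : ℝ) : ℂ) *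
        (((nm ν : ℝ) ^ (2 / 3 : ℝ) : ℝ) : ℂ) *
        NT (M * (f * Y)) (f * X * Y)
          (fun k => End699.tw (psd ψ (c * g * z)) (-l) k * V1f Φ K (ν * k)) := by
  have hν1 := one_le_nm hν.ne_zero
  have d1 : Dcy (fun k => n23 k * conj (Wf ψ l f Φ (ν * k))) :=
    (E4K164.Dcy.cj ((dcy_Wf ψ l f hΦ).dil hν.ne_zero)).n23
  have d2 : Dcy (fun k => End699.tw (psd ψ (c * g * z)) (-l) k * V1f Φ K (ν * k)) := by
    refine dcy_fin ((fin_le K).subset fun k hk => ?_)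
    rw [Set.mem_ofPred_eq]
    by_contra h
    apply hk
    have h1 : K < (nm (ν * k) : ℝ) := by
      rw [nm_mul, Nat.cast_mul]
      push Not at h
      nlinarith
    show _ * V1f Φ K (ν * k) = 0
    unfold V1f
    rw [hΦ _ h1]
    simp
  rw [← (NT47.NT_hasSum d1).tsum_eq, ← (NT47.NT_hasSum d2).tsum_eq, ← tsum_mul_left]
  refine tsum_congr fun k => ?_
  by_cases hk : IsPrim k
  swap
  · rw [if_neg (fun h => hk h.1), if_neg (fun h => hk h.1), mul_zero]
  have hW : Wf ψ l f Φ (ν * k) = End699.tw ψ l ν * End699.tw ψ l k * Φ (ν * k) *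
      (conj (sy ν f) * conj (sy k f)) := by
    unfold Wf
    rw [tw_mul hψ l hν hk, syAx.mul_left _ _ _ hf.1, map_mul]
  by_cases hkM : IsCoprime k M
  swap
  · rw [if_neg (fun h : Sm (M * (f * Y)) k => hkM h.2.of_mul_right_left), mul_zero, hW]
    have : End699.tw ψ l k = 0 := by unfold End699.tw; rw [hψ.van k hk hkM, zero_mul]
    rw [this]
    simp
  by_cases hkf : IsCoprime k f
  swap
  · rw [if_neg (fun h : Sm (M * (f * Y)) k => hkf h.2.of_mul_right_right.of_mul_right_left),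
      mul_zero, hW, (syAx.eq_zero k f hf.1).mpr hkf]
    simp
  have hgk := cop_PrI hg hkM
  have hzk := cop_PrI hz hkM
  by_cases hkY : IsCoprime k Y
  swap
  · have h1 : ¬ Sm (n * (m * δ)) k := by
      intro h
      apply hkY
      have h2 : IsCoprime k (n * m ^ 2) :=
        h.2.of_mul_right_left.mul_right h.2.of_mul_right_right.of_mul_right_left.pow_right
      rw [hY] at h2
      exact h2.of_mul_right_right
    rw [if_neg h1, if_neg (fun h : Sm (M * (f * Y)) k =>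
      hkY h.2.of_mul_right_right.of_mul_right_right), mul_zero]
  have hknm : IsCoprime k (n * m ^ 2) := by
    rw [hY]; exact hzk.symm.mul_right hkY
  have hkn : IsCoprime k n := hknm.of_mul_right_left
  have hkm : IsCoprime k m := by
    have := hknm.of_mul_right_right
    rw [pow_two] at this
    exact this.of_mul_right_left
  have hS2 : Sm (M * (f * Y)) k := ⟨hk, hkM.mul_right (hkf.mul_right hkY)⟩
  rw [if_pos hS2]
  by_cases hkδ : IsCoprime k δ
  swap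
  · rw [if_neg (fun h : Sm (n * (m * δ)) k => hkδ h.2.of_mul_right_right.of_mul_right_right)]
    obtain ⟨p, hp, hpk, hpδ⟩ := exists_common_pp hk hkδ
    obtain ⟨δ', rfl⟩ := hpδ
    have hpg : IsCoprime (p ^ 2) g :=
      (hgk.symm.of_isCoprime_of_dvd_left hpk).pow_left
    have hd : p ^ 2 ∣ g * X := by
      rw [← hX]
      exact ⟨r * δ' ^ 2, by ring⟩
    obtain ⟨X', hX'⟩ := hpg.dvd_of_dvd_mul_left hd
    have e1 : g * X' = r * δ' ^ 2 := by
      have h1 : p ^ 2 * (g * X') = p ^ 2 * (r * δ' ^ 2) := by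
        have : p ^ 2 * (g * X') = g * X := by rw [hX']; ring
        rw [this, ← hX]; ring
      exact mul_left_cancel₀ (pow_ne_zero 2 hp.prime.ne_zero) h1
    have hpr : ¬ p ∣ r := fun h =>
      hp.prime.not_isUnit (hrδ.isUnit_of_dvd' h (dvd_mul_right _ _))
    have hpδ' : ¬ p ∣ δ' := fun h => by
      apply hp.prime.not_isUnit
      exact hδs p (mul_dvd_mul_left p h)
    have hpX' : ¬ p ∣ X' := by
      intro h
      have h2 : p ∣ r * δ' ^ 2 := by rw [← e1]; exact h.mul_left _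
      rcases hp.prime.dvd_or_dvd h2 with h3 | h3
      · exact hpr h3
      · exact hpδ' (hp.prime.dvd_of_dvd_pow h3)
    have hpf : ¬ p ∣ f := fun h => hp.prime.not_isUnit (hkf.isUnit_of_dvd' hpk h)
    have hpY : ¬ p ∣ Y := fun h => hp.prime.not_isUnit (hkY.isUnit_of_dvd' hpk h)
    have e2 : f * X * Y = (f * X' * Y) * p ^ 2 := by rw [hX']; ring
    have hh : ¬ p ∣ f * X' * Y := by
      intro h
      rcases hp.prime.dvd_or_dvd h with h | h
      · rcases hp.prime.dvd_or_dvd h with h | h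
        · exact hpf h
        · exact hpX' h
      · exact hpY h
    rw [e2, NT47.nf_two hp hh hk hpk]
    simp
  have hS1 : Sm (n * (m * δ)) k := ⟨hk, hkn.mul_right (hkm.mul_right hkδ)⟩
  rw [if_pos hS1]
  have hcop : IsCoprime (c * g * z) k := ((cop_IsC hc hk).mul_left hgk).mul_left hzk
  have e1 : c * r * (n * (m * δ) ^ 2) = (X * Y) * (c * g * z) := by
    linear_combination c * n * m ^ 2 * hX + c * (g * X) * hY
  have e2 : f * X * Y = (X * Y) * f := by ring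
  have e3 : n23 k = (((K : ℝ) ^ (-(2 / 3) : ℝ) : ℝ) : ℂ) * (((nm ν : ℝ) ^ (2 / 3 : ℝ) : ℝ) : ℂ) *
      ((((nm (ν * k) : ℝ) / K) ^ (-(2 / 3) : ℝ) : ℝ) : ℂ) := by
    unfold n23
    rw [nm_mul, Nat.cast_mul, mul_comm (nm ν : ℝ) (nm k : ℝ)]
    rw [← Complex.ofReal_mul, ← Complex.ofReal_mul]
    congr 1
    have hk1 := one_le_nm hk.ne_zero
    rw [Real.div_rpow (by positivity) hK.le, Real.mul_rpow (by positivity) (by positivity)]
    have h1 : (nm ν : ℝ) ^ (2 / 3 : ℝ) * (nm ν : ℝ) ^ (-(2 / 3) : ℝ) = 1 := by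
      rw [← Real.rpow_add (by linarith)]; norm_num
    have h2 : (K : ℝ) ^ (-(2 / 3) : ℝ) ≠ 0 := (Real.rpow_pos_of_pos hK _).ne'
    calc (nm k : ℝ) ^ (-(2 / 3) : ℝ) = (nm k : ℝ) ^ (-(2 / 3) : ℝ) *
          ((nm ν : ℝ) ^ (2 / 3 : ℝ) * (nm ν : ℝ) ^ (-(2 / 3) : ℝ)) *
          ((K : ℝ) ^ (-(2 / 3) : ℝ) / (K : ℝ) ^ (-(2 / 3) : ℝ)) := by
          rw [h1, div_self h2]; ring
      _ = _ := by ring
  have e4 : conj (End699.tw ψ l k) * sy (c * g * z) k =
      End699.tw (psd ψ (c * g * z)) (-l) k := by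
    unfold End699.tw psd
    rw [End699.ang_neg_conj l hk.ne_zero, map_mul]
    ring
  rw [e1, e2, nf_mulc hk hcop, nf_mulc hk hkf.symm, hW, ← syAx.recip k f hk hf.1, ← e4]
  unfold V1f
  rw [e3]
  simp only [map_mul, Complex.conj_conj]
  ring

/-- the left side of `E4core7x`, with a function of the outer `k` -/
def E4Lf (M f : Eis) (ψ : Eis → ℂ) (l : ℤ) (Φ1 : Eis → ℂ) {O : Type} [Fintype O]
    (cO : O → Eis) (v w : O → Eis → ℂ) : ℂ :=
  ∑ o, ∑' x : Eis, v o x * ∑' y : Eis, w o y *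
    NT (M * (f * y)) (f * x * y) (fun k => End699.tw ψ l k * Φ1 (cO o * k))

variable {A : Type*}

open Classical in
theorem dictIf {M : Eis} {ψ : Eis → ℂ} (hψ : HC M ψ) (l : ℤ) {Φ : Eis → ℂ} {K : ℝ} (hK : 0 < K)
    (hΦ : ∀ k, K < nm k → Φ k = 0) {I : Finset A} {s δ j : A → Eis} {c : A → ℂ}
    (hI : OKI I s δ j c) {b₁ b₂ : Eis → ℂ} (h₁ : FS b₁) (h₂ : FS b₂)
    {f : Eis} (hf : Sm M f) {N₁ N₂ : ℕ} (hN₁ : ∀ i ∈ I, nm (XI δ j i) ≤ N₁)
    (hN₂ : ∀ n m, b₁ n ≠ 0 → b₂ m ≠ 0 → nm (n * m ^ 2) ≤ N₂) :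
    (∑ i ∈ I, c i * ∑' k : Eis, if IsPrim k then Wf ψ l f Φ (s i * k) *
      ((sy k (δ i) * conj (th (j i * k))) *
        (conj (CS b₁ (s i * k)) * CS b₂ (s i * k))) else 0) =
      ∑ c₀ ∈ C4, ∑ g ∈ MC M N₁, ∑ z ∈ MC M N₂,
        conj ((((K : ℝ) ^ (-(2 / 3) : ℝ) : ℝ) : ℂ) *
          E4Lf M f (psd ψ (c₀ * g * z)) (-l) (V1f Φ K) (O := OU M I s j)
            (fun o => o.1.1 * o.1.2)
            (fun o => vI M ψ l f I s δ j c c₀ g o.1)
            (fun o => wI M b₁ b₂ (h₁.fin.toFinset ×ˢ h₂.fin.toFinset) z o.1)) := by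
  have hM := hψ.q0
  set L := h₁.fin.toFinset ×ˢ h₂.fin.toFinset with hL
  have hLm : ∀ p ∈ L, b₁ p.1 ≠ 0 ∧ b₂ p.2 ≠ 0 := by
    intro p hp
    rw [hL, Finset.mem_product, Set.Finite.mem_toFinset, Set.Finite.mem_toFinset] at hp
    exact hp
  have hLp : ∀ p ∈ L, IsPrim (p.1 * p.2 ^ 2) := fun p hp =>
    (h₁.prim _ (hLm p hp).1).mul ((h₂.prim _ (hLm p hp).2).pow 2)
  have hLN : ∀ p ∈ L, nm (p.1 * p.2 ^ 2) ≤ N₂ := fun p hp => hN₂ _ _ (hLm p hp).1 (hLm p hp).2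
  have hJp : ∀ i ∈ I, IsPrim (XI δ j i) := by
    intro i hi
    obtain ⟨-, h2, -⟩ := dc_spec (hI.jc i hi)
    exact h2.mul ((hI.prim i hi).pow 2)
  set κ : ℂ := (((K : ℝ) ^ (-(2 / 3) : ℝ) : ℝ) : ℂ) with hκ
  set H : Eis → Eis → Eis → Eis → Eis → Eis → ℂ := fun c₀ g z ν X Y =>
    NT (M * (f * Y)) (f * X * Y)
      (fun k => End699.tw (psd ψ (c₀ * g * z)) (-l) k * V1f Φ K (ν * k)) with hH
  set R : A → ℂ := fun i => cI ψ l f s δ j c i * ∑ p ∈ L, cb b₁ b₂ (s i * (dc (j i)).2.2) p *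
    H (dc (j i)).1 (bpt (rd M) (XI δ j i)) (bpt (rd M) (p.1 * p.2 ^ 2)) (s i * (dc (j i)).2.2)
      (bco (rd M) (XI δ j i)) (bco (rd M) (p.1 * p.2 ^ 2)) with hR
  have key : ∀ i ∈ I, c i * (∑' k : Eis, if IsPrim k then Wf ψ l f Φ (s i * k) *
      ((sy k (δ i) * conj (th (j i * k))) *
        (conj (CS b₁ (s i * k)) * CS b₂ (s i * k))) else 0) = conj (κ * R i) := by
    intro i hi
    by_cases hcx : c i = 0
    · rw [hR]
      simp only [cI, hcx]
      simp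
    obtain ⟨s1, s2, s3, s4, s5, s6, s7⟩ := dc_spec (hI.jc i hi)
    have hδ := hI.prim i hi
    have hsi := hI.s i hi
    have hjδ := hI.cop i hi hcx
    have hrδ : IsCoprime (dc (j i)).2.1 (δ i) := by
      refine hjδ.of_isCoprime_of_dvd_left ?_
      conv_rhs => rw [s7]
      exact ⟨(dc (j i)).1 * (dc (j i)).2.2 ^ 2, by ring⟩
    obtain ⟨g1, g2, g3⟩ := mpt_spec hM (hJp i hi)
    rw [one_s hδ (hI.sqf i hi) (hI.jc i hi) hsi h₁ h₂ (dcy_Wf ψ l f hΦ)]
    have e1 : κ * R i = ∑ p ∈ L, κ * (cI ψ l f s δ j c i * (cb b₁ b₂ (s i * (dc (j i)).2.2) p *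
        H (dc (j i)).1 (bpt (rd M) (XI δ j i)) (bpt (rd M) (p.1 * p.2 ^ 2))
          (s i * (dc (j i)).2.2) (bco (rd M) (XI δ j i)) (bco (rd M) (p.1 * p.2 ^ 2)))) := by
      rw [hR]
      simp only
      rw [Finset.mul_sum, Finset.mul_sum]
    rw [e1, map_sum, hL, Finset.sum_product, Finset.mul_sum]
    refine Finset.sum_congr rfl fun n hn => ?_
    rw [Finset.mul_sum]
    refine Finset.sum_congr rfl fun m hm => ?_
    have hp : (n, m) ∈ L := by rw [hL]; exact Finset.mem_product.mpr ⟨hn, hm⟩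
    have hnp := h₁.prim _ (hLm _ hp).1
    have hmp := h₂.prim _ (hLm _ hp).2
    obtain ⟨z1, z2, z3⟩ := mpt_spec hM (hLp _ hp)
    have hNT := NT_dictf hψ l hK hΦ s1 s2 hδ (hI.sqf i hi) hrδ hnp hmp (hsi.mul s4) hf g1 z1
      g3 g2 z3 z2
    have hNT' : NT (n * (m * δ i)) ((dc (j i)).1 * (dc (j i)).2.1 * (n * (m * δ i) ^ 2))
        (fun k => n23 k * conj (Wf ψ l f Φ (s i * ((dc (j i)).2.2 * k)))) =
        NT (n * (m * δ i)) ((dc (j i)).1 * (dc (j i)).2.1 * (n * (m * δ i) ^ 2))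
        (fun k => n23 k * conj (Wf ψ l f Φ (s i * (dc (j i)).2.2 * k))) := by
      simp only [mul_assoc]
    unfold Uk
    simp only
    rw [hNT', hNT, hH]
    simp only [cI, cb, map_mul, Complex.conj_conj, Complex.conj_ofReal, hκ,
      syAx.mul_left _ _ _ hnp, syAx.mul_left _ _ _ hmp]
    ring
  rw [Finset.sum_congr rfl key]
  have st1 : ∀ c₀ ∈ C4, ∀ o : OU M I s j, ∑ g ∈ MC M N₁, ∑ z ∈ MC M N₂,
      ∑' X : Eis, vI M ψ l f I s δ j c c₀ g o.1 X * ∑' Y : Eis, wI M b₁ b₂ L z o.1 Y *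
        H c₀ g z (o.1.1 * o.1.2) X Y = ∑ i ∈ II I s j c₀ o.1, R i := by
    intro c₀ _ o
    have hII : ∀ i ∈ II I s j c₀ o.1, i ∈ I ∧ (dc (j i)).1 = c₀ ∧ s i = o.1.1 ∧
        (dc (j i)).2.2 = o.1.2 := by
      intro i hi
      unfold II at hi
      rw [Finset.mem_filter] at hi
      exact hi
    have e2 : ∀ g ∈ MC M N₁, (∑ z ∈ MC M N₂, ∑' X : Eis, vI M ψ l f I s δ j c c₀ g o.1 X *
        ∑' Y : Eis, wI M b₁ b₂ L z o.1 Y * H c₀ g z (o.1.1 * o.1.2) X Y) =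
        ∑' X : Eis, pu M (II I s j c₀ o.1) (XI δ j) (cI ψ l f s δ j c) g X *
          (∑ p ∈ L, cb b₁ b₂ (o.1.1 * o.1.2) p * H c₀ g (bpt (rd M) (p.1 * p.2 ^ 2))
            (o.1.1 * o.1.2) X (bco (rd M) (p.1 * p.2 ^ 2))) := by
      intro g hg
      have hfin : (Function.support (vI M ψ l f I s δ j c c₀ g o.1)).Finite := by
        refine ((II I s j c₀ o.1).image (fun i => bco (rd M) (XI δ j i))).finite_toSet.subset
          fun x hx => ?_
        exact Finset.mem_coe.mpr (pu_fin hM (fun i hi => hJp i (hII i hi).1) (mem_MC.mp hg).2 hx)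
      rw [← Summable.tsum_finsetSum (fun z _ => summable_of_hasFiniteSupport
        (hfin.subset fun X hX => left_ne_zero_of_mul hX))]
      refine tsum_congr fun X => ?_
      rw [← Finset.mul_sum]
      congr 1
      exact push hM hLp hLN (cb b₁ b₂ (o.1.1 * o.1.2)) (fun z Y => H c₀ g z (o.1.1 * o.1.2) X Y)
    rw [Finset.sum_congr rfl e2,
      push hM (fun i hi => hJp i (hII i hi).1) (fun i hi => hN₁ i (hII i hi).1)
        (cI ψ l f s δ j c)
        (fun g X => ∑ p ∈ L, cb b₁ b₂ (o.1.1 * o.1.2) p *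
          H c₀ g (bpt (rd M) (p.1 * p.2 ^ 2)) (o.1.1 * o.1.2) X
            (bco (rd M) (p.1 * p.2 ^ 2)))]
    refine Finset.sum_congr rfl fun i hi => ?_
    obtain ⟨-, h5, h6, h7⟩ := hII i hi
    rw [hR]
    simp only [h5, h6, h7]
  have st2 : ∑ i ∈ I, R i = ∑ c₀ ∈ C4, ∑ o : OU M I s j, ∑ i ∈ II I s j c₀ o.1, R i := by
    have e3 : ∀ c₀ ∈ C4, (∑ o : OU M I s j, ∑ i ∈ II I s j c₀ o.1, R i) =
        ∑ i ∈ I, ∑ o ∈ OU M I s j,
          if (dc (j i)).1 = c₀ ∧ s i = o.1 ∧ (dc (j i)).2.2 = o.2 then R i else 0 := by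
      intro c₀ _
      rw [Finset.sum_coe_sort (OU M I s j) (fun o => ∑ i ∈ II I s j c₀ o, R i), Finset.sum_comm]
      refine Finset.sum_congr rfl fun o _ => ?_
      unfold II
      rw [Finset.sum_filter]
    rw [Finset.sum_congr rfl e3, Finset.sum_comm]
    refine Finset.sum_congr rfl fun i hi => ?_
    obtain ⟨s1, s2, s3, s4, s5, s6, s7⟩ := dc_spec (hI.jc i hi)
    rw [Finset.sum_eq_single_of_mem (dc (j i)).1 (mem_C4.mpr s1)]
    · by_cases hν : IsCoprime (s i * (dc (j i)).2.2) M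
      · rw [Finset.sum_eq_single_of_mem (s i, (dc (j i)).2.2)]
        · rw [if_pos ⟨rfl, rfl, rfl⟩]
        · unfold OU
          rw [Finset.mem_filter]
          exact ⟨Finset.mem_image_of_mem (fun i => (s i, (dc (j i)).2.2)) hi,
            (hI.s i hi).mul s4, hν⟩
        · intro o _ h
          rw [if_neg]
          rintro ⟨-, h1, h2⟩
          exact h (Prod.ext h1.symm h2.symm)
      · have h0 : R i = 0 := by
          rw [hR]
          simp only [cI, End699.tw, hψ.van _ ((hI.s i hi).mul s4) hν]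
          simp
        rw [h0]
        symm
        refine Finset.sum_eq_zero fun o _ => ?_
        split_ifs <;> rfl
    · intro c₀ _ h
      refine Finset.sum_eq_zero fun o _ => ?_
      rw [if_neg (fun h' => h h'.1.symm)]
  have st3 : ∑ c₀ ∈ C4, ∑ g ∈ MC M N₁, ∑ z ∈ MC M N₂,
      conj (κ * E4Lf M f (psd ψ (c₀ * g * z)) (-l) (V1f Φ K) (O := OU M I s j)
        (fun o => o.1.1 * o.1.2) (fun o => vI M ψ l f I s δ j c c₀ g o.1)
        (fun o => wI M b₁ b₂ L z o.1)) =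
      conj (κ * ∑ c₀ ∈ C4, ∑ o : OU M I s j, ∑ g ∈ MC M N₁, ∑ z ∈ MC M N₂,
        ∑' X : Eis, vI M ψ l f I s δ j c c₀ g o.1 X * ∑' Y : Eis, wI M b₁ b₂ L z o.1 Y *
          H c₀ g z (o.1.1 * o.1.2) X Y) := by
    simp_rw [← map_sum, ← Finset.mul_sum]
    congr 2
    refine Finset.sum_congr rfl fun c₀ _ => ?_
    unfold E4Lf
    rw [Finset.sum_congr rfl (fun g _ => Finset.sum_comm), Finset.sum_comm]
  rw [st3, Finset.sum_congr rfl (fun c₀ hc₀ => Finset.sum_congr rfl fun o _ => st1 c₀ hc₀ o),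
    ← st2, ← map_sum, ← Finset.mul_sum]

end Crest.Agent.R017.E4Df372
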