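import Crest.Agent.R017.E4k_164
import Crest.Agent.R017.DgD_829

/-!
# Row 17, block C70, leaf E4: opening of the structured function (helper164)

* `dc_mul`  : `dc (j t) = (c, r t, ν)` for `(j, t) = 1`
* `StG`     : the truncated structured function with arbitrary coefficients `T x e`
* `e4_open` : `Σ_k φ(k) StG(k) conj (CS b₁ k) CS b₂ k` as a finite sum over `t`, `x`, `l`, `m`
* `St_eq`   : `C70.St` is `StG` with the coefficients `TT Y (aj α δ j) e`
-/

set_option autoImplicit false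

noncomputable section

open Finset
open scoped ComplexConjugate

namespace Crest.Agent.R017.E4K164

open Crest.Agent.R012 Crest.Agent.R012.Eis Crest.Agent.R012.GaussLoc283
open Crest.Agent.R012.Mob705 hiding pb mem_pb
open Crest.Agent.R012.Div277
open Crest.Agent.R012.LS2 (S mem_S)
open Crest.Agent.R017.Sx545 (Sm)
open Crest.Agent.R017.CM106
open Crest.Agent.R017.PX764 (th Gh n6)
open Crest.Agent.R017.C70 Crest.Agent.R017.GrB829 Crest.Agent.R017.GrD829
open Crest.Agent.R017.E3A164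
open Crest.Agent.R017.E2440

/-- uniqueness of the decomposition -/
lemma dc_unique {c r ν : Eis} (hc : IsC c) (hr : IsPrim r) (hrs : Squarefree r) (hν : IsPrim ν)
    (hνs : Squarefree ν) (hrν : IsCoprime r ν) : dc (c * r * ν ^ 2) = (c, r, ν) := by
  have hj : JC (c * r * ν ^ 2) :=
    ⟨c, hc, r * ν ^ 2, hr.mul (hν.pow 2), GrE579.cbF_dec hrs hνs hrν, by ring⟩
  obtain ⟨h1, h2, h3, h4, h5, h6, h7⟩ := dc_spec hj
  have h8 : fq 1 (dc (c * r * ν ^ 2)).1 (dc (c * r * ν ^ 2)).2.2 (dc (c * r * ν ^ 2)).2.1 =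
      fq 1 c ν r := by
    unfold fq
    linear_combination -h7
  obtain ⟨e1, e2, e3⟩ := fq_inj isPrim_one h1 hc h4 h2 h3 hν hr hrs h8
  exact Prod.ext e1 (Prod.ext e3 e2)

lemma dc_mul {j t : Eis} (hj : JC j) (ht : IsPrim t) (hts : Squarefree t) (hjt : IsCoprime j t) :
    dc (j * t) = ((dc j).1, (dc j).2.1 * t, (dc j).2.2) := by
  obtain ⟨h1, h2, h3, h4, h5, h6, h7⟩ := dc_spec hj
  have hrt : IsCoprime (dc j).2.1 t := by
    refine hjt.of_isCoprime_of_dvd_left ?_
    conv_rhs => rw [h7]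
    exact ⟨(dc j).1 * (dc j).2.2 ^ 2, by ring⟩
  have hνt : IsCoprime (dc j).2.2 t := by
    refine hjt.of_isCoprime_of_dvd_left ?_
    conv_rhs => rw [h7]
    exact ⟨(dc j).1 * (dc j).2.1 * (dc j).2.2, by ring⟩
  have e : j * t = (dc j).1 * ((dc j).2.1 * t) * (dc j).2.2 ^ 2 := by
    conv_lhs => rw [h7]
    ring
  rw [e]
  refine dc_unique h1 (h2.mul ht) ?_ h4 h5 (h6.mul_left hνt.symm)
  exact (squarefree_mul_iff.mpr ⟨hrt.isRelPrime, h3, hts⟩)

/-! ### the opening -/

/-- the truncated structured function, arbitrary coefficients -/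
def StG (E0 : ℝ) (J : Finset (Eis × Eis)) (om : Eis × Eis → ℂ) (T : Eis × Eis → Eis → ℂ)
    (k : Eis) : ℂ := by
  classical
  exact ∑ x ∈ J, om x * (sy k x.1 * conj (th (x.2 * k)) *
    ∑ e ∈ (S E0).filter (fun e => e ∣ k), (mu e : ℂ) * T x e)

/-- reindexing by multiples -/
lemma tsum_mult' {e : Eis} (he : IsPrim e) (g : Eis → ℂ) :
    open Classical in
    (∑' k : Eis, if IsPrim k ∧ e ∣ k then g k else 0) =
      ∑' k : Eis, if IsPrim k then g (e * k) else 0 := by
  classical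
  have hinj : Function.Injective (fun k : Eis => e * k) := fun x y h =>
    mul_left_cancel₀ he.ne_zero h
  have hsup : Function.support (fun k : Eis => if IsPrim k ∧ e ∣ k then g k else 0) ⊆
      Set.range (fun k : Eis => e * k) := by
    intro k hk
    rw [Function.mem_support] at hk
    have : IsPrim k ∧ e ∣ k := by
      by_contra h
      exact hk (if_neg h)
    obtain ⟨r, hr⟩ := this.2
    exact ⟨r, hr.symm⟩
  rw [← hinj.tsum_eq hsup]
  refine tsum_congr fun k => ?_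
  have : (IsPrim (e * k) ∧ e ∣ e * k) ↔ IsPrim k :=
    ⟨fun h => h.1.of_mul_left he, fun h => ⟨he.mul h, dvd_mul_right _ _⟩⟩
  simp only [this]

/-- multiplication of the family variable by `t` -/
lemma CS_tk {b : Eis → ℂ} (hb : FS b) (t k : Eis) :
    CS b (t * k) = CS (fun l => b l * sy t l) k := by
  unfold CS
  refine tsum_congr fun l => ?_
  by_cases h : b l = 0
  · show b l * _ = (b l * sy t l) * sy k l
    rw [h]
    ring
  · rw [syAx.mul_left t k l (hb.prim l h)]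
    ring

lemma FS_tw {b : Eis → ℂ} (hb : FS b) (t : Eis) : FS (fun l => b l * sy t l) where
  fin := hb.fin.subset fun l hl => left_ne_zero_of_mul hl
  prim := fun l hl => hb.prim l (left_ne_zero_of_mul hl)

lemma sum_supp {b : Eis → ℂ} {b' : Eis → ℂ} (hb : FS b) (hb' : FS b')
    (h : ∀ l, b' l ≠ 0 → b l ≠ 0) (F : Eis → ℂ) (hF : ∀ l, b' l = 0 → F l = 0) :
    ∑ l ∈ hb'.fin.toFinset, F l = ∑ l ∈ hb.fin.toFinset, F l := by
  refine sum_subset (fun l hl => ?_) fun l _ hl => ?_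
  · rw [Set.Finite.mem_toFinset] at hl ⊢
    exact h l hl
  · apply hF
    by_contra h0
    exact hl ((Set.Finite.mem_toFinset _).mpr h0)

open Classical in
/-- one index `x` -/
theorem e4k_one {x : Eis × Eis} (hx : IsPrim x.1) (hxs : Squarefree x.1) (hj : JC x.2)
    {b₁ b₂ : Eis → ℂ} (h₁ : FS b₁) (h₂ : FS b₂) {φ : Eis → ℂ} (hφ : Dcy φ) :
    (∑' k : Eis, if IsPrim k then
      φ k * ((sy k x.1 * conj (th (x.2 * k))) * (conj (CS b₁ k) * CS b₂ k)) else 0) =
      ∑ l ∈ h₁.fin.toFinset, ∑ m ∈ h₂.fin.toFinset, conj (b₁ l) * b₂ m * Uk φ x l m := by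
  have hJ : OKJ {x} :=
    ⟨fun y hy => by rw [Finset.mem_singleton.mp hy]; exact hx,
      fun y hy => by rw [Finset.mem_singleton.mp hy]; exact hxs,
      fun y hy => by rw [Finset.mem_singleton.mp hy]; exact hj⟩
  have h := e4k hJ (fun _ => 1) h₁ h₂ hφ
  simp only [sum_singleton, one_mul] at h
  exact h

open Classical in
lemma norm_CS_le' {b : Eis → ℂ} (hb : FS b) (k : Eis) : ‖CS b k‖ ≤ ∑ l ∈ hb.fin.toFinset, ‖b l‖ := by
  have e : CS b k = ∑ l ∈ hb.fin.toFinset, b l * sy k l := by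
    unfold CS
    refine tsum_eq_sum fun l hl => ?_
    have : b l = 0 := by
      by_contra h
      exact hl ((Set.Finite.mem_toFinset _).mpr h)
    rw [this, zero_mul]
  rw [e]
  refine (norm_sum_le _ _).trans (sum_le_sum fun l hl => ?_)
  rw [norm_mul]
  have h1 : ‖sy k l‖ ≤ 1 := norm_sy_le1 (hb.prim l ((Set.Finite.mem_toFinset _).mp hl))
  calc ‖b l‖ * ‖sy k l‖ ≤ ‖b l‖ * 1 := by gcongr
    _ = ‖b l‖ := mul_one _

open Classical in
/-- **the opening of the structured function in E4** -/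
theorem e4_open {J : Finset (Eis × Eis)} (hJ : OKJ J) (om : Eis × Eis → ℂ)
    {T : Eis × Eis → Eis → ℂ} (hT : ∀ x ∈ J, ∀ e, T x e ≠ 0 → IsCoprime x.2 e) {E0 : ℝ}
    (hE0 : 0 ≤ E0) {b₁ b₂ : Eis → ℂ} (h₁ : FS b₁) (h₂ : FS b₂) {φ : Eis → ℂ} (hφ : Dcy φ) :
    (∑' k : Eis, if IsPrim k then
      φ k * (StG E0 J om T k * (conj (CS b₁ k) * CS b₂ k)) else 0) =
      ∑ t ∈ S E0, (mu t : ℂ) * ∑ x ∈ J.filter (fun x => IsCoprime x.2 t),
        (om x * sy t x.1 * T x t) * ∑ l ∈ h₁.fin.toFinset, ∑ m ∈ h₂.fin.toFinset,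
          conj (b₁ l * sy t l) * (b₂ m * sy t m) *
            Uk (fun k => φ (t * k)) (x.1, x.2 * t) l m := by
  -- pointwise
  have e1 : ∀ k : Eis, (if IsPrim k then
      φ k * (StG E0 J om T k * (conj (CS b₁ k) * CS b₂ k)) else 0) =
      ∑ t ∈ S E0, ∑ x ∈ J.filter (fun x => IsCoprime x.2 t),
        ((mu t : ℂ) * (om x * T x t)) * (if IsPrim k ∧ t ∣ k then
          φ k * ((sy k x.1 * conj (th (x.2 * k))) * (conj (CS b₁ k) * CS b₂ k)) else 0) := by
    intro k
    by_cases hk : IsPrim k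
    · rw [if_pos hk]
      unfold StG
      rw [sum_mul, mul_sum]
      have e2 : ∀ x ∈ J, φ k * (om x * (sy k x.1 * conj (th (x.2 * k)) *
          ∑ e ∈ (S E0).filter (fun e => e ∣ k), (mu e : ℂ) * T x e) *
            (conj (CS b₁ k) * CS b₂ k)) =
          ∑ t ∈ S E0, if IsCoprime x.2 t then ((mu t : ℂ) * (om x * T x t)) *
            (if IsPrim k ∧ t ∣ k then φ k * ((sy k x.1 * conj (th (x.2 * k))) *
              (conj (CS b₁ k) * CS b₂ k)) else 0) else 0 := by
        intro x hx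
        rw [sum_filter, mul_sum, mul_sum, sum_mul, mul_sum]
        refine sum_congr rfl fun t _ => ?_
        by_cases ht : t ∣ k
        · rw [if_pos ht]
          by_cases h0 : T x t = 0
          · rw [h0]; simp
          · rw [if_pos (hT x hx t h0), if_pos (⟨hk, ht⟩ : IsPrim k ∧ t ∣ k)]
            ring
        · have hn : ¬ (IsPrim k ∧ t ∣ k) := fun h => ht h.2
          rw [if_neg ht, if_neg hn]
          simp
      rw [sum_congr rfl e2, sum_comm]
      refine sum_congr rfl fun t _ => ?_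
      rw [sum_filter]
    · rw [if_neg hk]
      symm
      refine sum_eq_zero fun t _ => sum_eq_zero fun x _ => ?_
      rw [if_neg (fun h => hk h.1), mul_zero]
  have hs0 : ∀ t ∈ S E0, ∀ x ∈ J, Summable (fun k : Eis => if IsPrim k ∧ t ∣ k then
      φ k * ((sy k x.1 * conj (th (x.2 * k))) * (conj (CS b₁ k) * CS b₂ k)) else 0) := by
    intro t _ x hx
    have h := summable_prim hφ (g := fun k => (sy k x.1 * conj (th (x.2 * k))) *
      (conj (CS b₁ k) * CS b₂ k)) (B := (1 * Bth) * ((∑ l ∈ h₁.fin.toFinset, ‖b₁ l‖) *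
        (∑ l ∈ h₂.fin.toFinset, ‖b₂ l‖))) (fun k hk => by
      rw [norm_mul, norm_mul, norm_mul, RCLike.norm_conj, RCLike.norm_conj]
      have g1 : ‖sy k x.1‖ ≤ 1 := norm_sy_le1 (hJ.prim x hx)
      have g2 : ‖th (x.2 * k)‖ ≤ Bth :=
        E2440.norm_th_le (mul_ne_zero (jc_ne_zero (hJ.jc x hx)) hk)
      have g3 := norm_CS_le' h₁ k
      have g4 := norm_CS_le' h₂ k
      have g5 := Bth_nonneg
      have g6 : (0 : ℝ) ≤ ∑ l ∈ h₁.fin.toFinset, ‖b₁ l‖ := sum_nonneg fun _ _ => norm_nonneg _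
      gcongr)
    refine Summable.of_norm_bounded h.norm fun k => ?_
    by_cases hk : IsPrim k
    · by_cases ht : t ∣ k
      · rw [if_pos ⟨hk, ht⟩, if_pos hk]
      · rw [if_neg (fun h => ht h.2), norm_zero]; exact norm_nonneg _
    · rw [if_neg (fun h => hk h.1), norm_zero]; exact norm_nonneg _
  rw [tsum_congr e1, Summable.tsum_finsetSum (fun t ht => summable_sum fun x hx =>
    (hs0 t ht x (mem_filter.mp hx).1).mul_left _)]
  refine sum_congr rfl fun t ht => ?_
  rw [Summable.tsum_finsetSum (fun x hx => (hs0 t ht x (mem_filter.mp hx).1).mul_left _), mul_sum]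
  refine sum_congr rfl fun x hx => ?_
  obtain ⟨hxJ, hxt⟩ := mem_filter.mp hx
  obtain ⟨-, htp, hts⟩ := (mem_S hE0).mp ht
  rw [tsum_mul_left]
  have e3' := tsum_mult' htp (fun k => φ k * ((sy k x.1 * conj (th (x.2 * k))) *
    (conj (CS b₁ k) * CS b₂ k)))
  have hx1 := hJ.prim x hxJ
  have hjt : JC (x.2 * t) := GrE579.jc_mul (hJ.jc x hxJ) htp (GrE579.cbF_of_sqf hts) hxt
  have h₁t := FS_tw h₁ t
  have h₂t := FS_tw h₂ t
  have e4 : (∑' k : Eis, if IsPrim k then
      φ (t * k) * ((sy (t * k) x.1 * conj (th (x.2 * (t * k)))) *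
        (conj (CS b₁ (t * k)) * CS b₂ (t * k))) else 0) =
      sy t x.1 * ∑' k : Eis, if IsPrim k then φ (t * k) *
        ((sy k x.1 * conj (th (x.2 * t * k))) *
        (conj (CS (fun l => b₁ l * sy t l) k) * CS (fun l => b₂ l * sy t l) k)) else 0 := by
    rw [← tsum_mul_left]
    refine tsum_congr fun k => ?_
    split_ifs with hk
    · rw [CS_tk h₁, CS_tk h₂, syAx.mul_left t k x.1 hx1, ← mul_assoc x.2 t k]
      ring
    · simp
  have e5 := e4k_one (x := (x.1, x.2 * t)) hx1 (hJ.sqf x hxJ) hjt h₁t h₂t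
    (hφ.dil htp.ne_zero)
  simp only at e5
  rw [e3', e4, e5]
  have e6 : ∑ l ∈ h₁t.fin.toFinset, ∑ m ∈ h₂t.fin.toFinset,
      conj (b₁ l * sy t l) * (b₂ m * sy t m) * Uk (fun k => φ (t * k)) (x.1, x.2 * t) l m =
      ∑ l ∈ h₁.fin.toFinset, ∑ m ∈ h₂.fin.toFinset,
      conj (b₁ l * sy t l) * (b₂ m * sy t m) * Uk (fun k => φ (t * k)) (x.1, x.2 * t) l m := by
    rw [sum_supp h₁ h₁t (fun l hl => left_ne_zero_of_mul hl) _ (fun l hl => ?_)]
    · refine sum_congr rfl fun l _ => ?_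
      rw [sum_supp h₂ h₂t (fun m hm => left_ne_zero_of_mul hm) _ (fun m hm => ?_)]
      have hm' : b₂ m * sy t m = 0 := hm
      rw [hm']
      ring
    · have hl' : b₁ l * sy t l = 0 := hl
      refine sum_eq_zero fun m _ => ?_
      rw [hl']
      simp
  rw [e6]
  ring

/-! ### `C70.St` -/

open Classical in
theorem St_eq {J : Finset (Eis × Eis)} (hJ : OKJ J) (om : Eis × Eis → ℂ) {α : Eis → ℂ} {Y : ℝ}
    (hY : 0 ≤ Y) (hα : DgB829.Sup α Y) {k : Eis} (hk : IsPrim k) :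
    St J om α k = StG Y J om (fun x e => DgB829.TT Y (DgB829.aj α x.1 x.2) e) k := by
  unfold St StG
  refine sum_congr rfl fun x hx => ?_
  by_cases hkd : IsCoprime k x.1
  · rw [DgB829.Tj_eq hY hα (hJ.prim x hx) hk hkd]
    unfold DgB829.DT
    rw [sum_filter]
  · rw [(syAx.eq_zero k x.1 (hJ.prim x hx)).mpr hkd]
    simp

lemma TT_cop {α : Eis → ℂ} {Y : ℝ} (x : Eis × Eis) (e : Eis)
    (h : DgB829.TT Y (DgB829.aj α x.1 x.2) e ≠ 0) : IsCoprime x.2 e := by
  unfold DgB829.TT at h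
  obtain ⟨m, -, hm⟩ := exists_ne_zero_of_sum_ne_zero h
  split_ifs at hm with h1
  · unfold DgB829.aj at hm
    split_ifs at hm with h2
    · exact h2.of_mul_right_right.of_isCoprime_of_dvd_right h1
    · exact absurd rfl hm
  · exact absurd rfl hm

end Crest.Agent.R017.E4K164
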