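import Crest.Agent.R017.E4d_164
import Crest.Agent.R017.E4o_164

/-!
# Row 17, C70, leaf E4: the joint k-side dictionary (helper164)

`I` finite, `i ↦ (s, δ, j)`, coefficients `c i`; outer parameter `o = (s, ν)`, `lam = nm s nm ν`:

* `dictI` : `Σ_i c i Σ_k G(s k) sy k δ conj th(j k)`, `G k = Wk k conj (CS b₁ k) CS b₂ k`, is the sum over
  `c₀, g, z` of conjugates of `K^{-2/3} E4L`
-/

set_option autoImplicit false

noncomputable section

open Finset Complex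
open scoped ComplexConjugate

namespace Crest.Agent.R017.E4D164

open Crest.Agent.R012 Crest.Agent.R012.Eis Crest.Agent.R012.GaussLoc283
open Crest.Agent.R012.Mob705 hiding pb mem_pb
open Crest.Agent.R012.Div277
open Crest.Agent.R017.Sx545 (Sm)
open Crest.Agent.R017.CM106
open Crest.Agent.R017.PX764 (th Gh n6)
open Crest.Agent.R017.C70 Crest.Agent.R017.GrB829 Crest.Agent.R017.GrD829
open Crest.Agent.R017.E3A164
open Crest.Agent.R017.E2440
open Crest.Agent.R017.End699 (HC)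
open Crest.Agent.R017.E4352 (SSm nf PrI XF Dat4)
open Crest.Agent.R017.E4579 (bpt bco)
open Crest.Agent.R017.E4K164 (dc dc_spec Uk e4k rd rd_prim e4k_one CS_tk FS_tw sum_supp)

open Classical in
/-- one index, `k = s k₁` -/
theorem one_s {δ j : Eis} (hδ : IsPrim δ) (hδs : Squarefree δ) (hj : JC j) {s : Eis}
    (hs : IsPrim s) {b₁ b₂ : Eis → ℂ} (h₁ : FS b₁) (h₂ : FS b₂) {φ : Eis → ℂ} (hφ : Dcy φ) :
    (∑' k : Eis, if IsPrim k then φ (s * k) * ((sy k δ * conj (th (j * k))) *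
      (conj (CS b₁ (s * k)) * CS b₂ (s * k))) else 0) =
      ∑ n ∈ h₁.fin.toFinset, ∑ m ∈ h₂.fin.toFinset,
        conj (b₁ n * sy s n) * (b₂ m * sy s m) * Uk (fun k => φ (s * k)) (δ, j) n m := by
  have h₁t := FS_tw h₁ s
  have h₂t := FS_tw h₂ s
  have e5 := e4k_one (x := (δ, j)) hδ hδs hj h₁t h₂t (hφ.dil hs.ne_zero)
  simp only at e5
  have e4 : (∑' k : Eis, if IsPrim k then φ (s * k) * ((sy k δ * conj (th (j * k))) *
      (conj (CS b₁ (s * k)) * CS b₂ (s * k))) else 0) =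
      ∑' k : Eis, if IsPrim k then φ (s * k) *
        ((sy k δ * conj (th (j * k))) *
        (conj (CS (fun l => b₁ l * sy s l) k) * CS (fun l => b₂ l * sy s l) k)) else 0 := by
    refine tsum_congr fun k => ?_
    split_ifs with hk
    · rw [CS_tk h₁, CS_tk h₂]
    · rfl
  rw [e4, e5]
  rw [sum_supp h₁ h₁t (fun l hl => left_ne_zero_of_mul hl) _ (fun l hl => ?_)]
  · refine Finset.sum_congr rfl fun l _ => ?_
    rw [sum_supp h₂ h₂t (fun m hm => left_ne_zero_of_mul hm) _ (fun m hm => ?_)]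
    have hm' : b₂ m * sy s m = 0 := hm
    rw [hm']
    ring
  · have hl' : b₁ l * sy s l = 0 := hl
    refine Finset.sum_eq_zero fun m _ => ?_
    rw [hl']
    simp

variable {A : Type*}

/-- admissible index families -/
structure OKI (I : Finset A) (s δ j : A → Eis) (c : A → ℂ) : Prop where
  s : ∀ i ∈ I, IsPrim (s i)
  prim : ∀ i ∈ I, IsPrim (δ i)
  sqf : ∀ i ∈ I, Squarefree (δ i)
  jc : ∀ i ∈ I, JC (j i)
  cop : ∀ i ∈ I, c i ≠ 0 → IsCoprime (j i) (δ i)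

/-- the frequency `r δ²` -/
def XI (δ j : A → Eis) (i : A) : Eis := (dc (j i)).2.1 * δ i ^ 2

open Classical in
/-- the indices with parameters `c₀`, `(s, ν)` -/
def II (I : Finset A) (s j : A → Eis) (c₀ : Eis) (o : Eis × Eis) : Finset A :=
  I.filter (fun i => (dc (j i)).1 = c₀ ∧ s i = o.1 ∧ (dc (j i)).2.2 = o.2)

/-- the coefficient of the `x`-side -/
def cI (ψ : Eis → ℂ) (l : ℤ) (f : Eis) (s δ j : A → Eis) (c : A → ℂ) (i : A) : ℂ :=
  conj (c i) * (conj (sy (dc (j i)).2.2 (δ i)) * th ((dc (j i)).1 * (dc (j i)).2.1)) *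
    (conj (End699.tw ψ l (s i * (dc (j i)).2.2)) * sy (s i * (dc (j i)).2.2) f *
      (((nm (s i * (dc (j i)).2.2) : ℝ) ^ (2 / 3 : ℝ) : ℝ) : ℂ))

/-- the `x`-side sequence -/
def vI (M : Eis) (ψ : Eis → ℂ) (l : ℤ) (f : Eis) (I : Finset A) (s δ j : A → Eis) (c : A → ℂ)
    (c₀ g : Eis) (o : Eis × Eis) : Eis → ℂ := pu M (II I s j c₀ o) (XI δ j) (cI ψ l f s δ j c) g

/-- the `y`-side sequence -/
def wI (M : Eis) (b₁ b₂ : Eis → ℂ) (L : Finset (Eis × Eis)) (z : Eis) (o : Eis × Eis) : Eis → ℂ :=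
  ww M b₁ b₂ L z (o.1 * o.2)

open Classical in
/-- the outer parameters -/
def OU (M : Eis) (I : Finset A) (s j : A → Eis) : Finset (Eis × Eis) :=
  (I.image (fun i => (s i, (dc (j i)).2.2))).filter (fun o => Sm M (o.1 * o.2))

open Classical in
theorem dictI {M : Eis} {ψ : Eis → ℂ} (hψ : HC M ψ) (l : ℤ) {V : ℝ → ℂ} {K : ℝ} (hK : 0 < K)
    (hV : ∀ y, 1 < y → V y = 0) {I : Finset A} {s δ j : A → Eis} {c : A → ℂ}
    (hI : OKI I s δ j c) {b₁ b₂ : Eis → ℂ} (h₁ : FS b₁) (h₂ : FS b₂)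
    {f : Eis} (hf : Sm M f) {N₁ N₂ : ℕ} (hN₁ : ∀ i ∈ I, nm (XI δ j i) ≤ N₁)
    (hN₂ : ∀ n m, b₁ n ≠ 0 → b₂ m ≠ 0 → nm (n * m ^ 2) ≤ N₂) :
    (∑ i ∈ I, c i * ∑' k : Eis, if IsPrim k then Wk ψ l f V K (s i * k) *
      ((sy k (δ i) * conj (th (j i * k))) *
        (conj (CS b₁ (s i * k)) * CS b₂ (s i * k))) else 0) =
      ∑ c₀ ∈ C4, ∑ g ∈ MC M N₁, ∑ z ∈ MC M N₂,
        conj ((((K : ℝ) ^ (-(2 / 3) : ℝ) : ℝ) : ℂ) *
          E4L M f (psd ψ (c₀ * g * z)) (-l) (V1 V) K (O := OU M I s j)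
            (fun o => (nm (o.1.1 * o.1.2) : ℝ))
            (fun o => vI M ψ l f I s δ j c c₀ g o.1)
            (fun o => wI M b₁ b₂ (h₁.fin.toFinset ×ˢ h₂.fin.toFinset) z o.1)) := by
  have hM := hψ.q0
  set L := h₁.fin.toFinset ×ˢ h₂.fin.toFinset with hL
  have hLm : ∀ p ∈ L, b₁ p.1 ≠ 0 ∧ b₂ p.2 ≠ 0 := by
    intro p hp
    rw [hL, Finset.mem_product, Set.Finite.mem_toFinset, Set.Finite.mem_toFinset] at hp
    exact hp
  have hLp : ∀ p ∈ L, IsPrim (p.1 * p.2 ^ 2) := fun p hp =>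
    (h₁.prim _ (hLm p hp).1).mul ((h₂.prim _ (hLm p hp).2).pow 2)
  have hLN : ∀ p ∈ L, nm (p.1 * p.2 ^ 2) ≤ N₂ := fun p hp => hN₂ _ _ (hLm p hp).1 (hLm p hp).2
  have hJp : ∀ i ∈ I, IsPrim (XI δ j i) := by
    intro i hi
    obtain ⟨-, h2, -⟩ := dc_spec (hI.jc i hi)
    exact h2.mul ((hI.prim i hi).pow 2)
  set κ : ℂ := (((K : ℝ) ^ (-(2 / 3) : ℝ) : ℝ) : ℂ) with hκ
  set H : Eis → Eis → Eis → Eis → Eis → Eis → ℂ := fun c₀ g z ν X Y =>
    NT (M * (f * Y)) (f * X * Y)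
      (fun k => End699.tw (psd ψ (c₀ * g * z)) (-l) k * V1 V (nm k * nm ν / K)) with hH
  set R : A → ℂ := fun i => cI ψ l f s δ j c i * ∑ p ∈ L, cb b₁ b₂ (s i * (dc (j i)).2.2) p *
    H (dc (j i)).1 (bpt (rd M) (XI δ j i)) (bpt (rd M) (p.1 * p.2 ^ 2)) (s i * (dc (j i)).2.2)
      (bco (rd M) (XI δ j i)) (bco (rd M) (p.1 * p.2 ^ 2)) with hR
  have key : ∀ i ∈ I, c i * (∑' k : Eis, if IsPrim k then Wk ψ l f V K (s i * k) *
      ((sy k (δ i) * conj (th (j i * k))) *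
        (conj (CS b₁ (s i * k)) * CS b₂ (s i * k))) else 0) = conj (κ * R i) := by
    intro i hi
    by_cases hcx : c i = 0
    · rw [hR]
      simp only [cI, hcx]
      simp
    obtain ⟨s1, s2, s3, s4, s5, s6, s7⟩ := dc_spec (hI.jc i hi)
    have hδ := hI.prim i hi
    have hsi := hI.s i hi
    have hjδ := hI.cop i hi hcx
    have hrδ : IsCoprime (dc (j i)).2.1 (δ i) := by
      refine hjδ.of_isCoprime_of_dvd_left ?_
      conv_rhs => rw [s7]
      exact ⟨(dc (j i)).1 * (dc (j i)).2.2 ^ 2, by ring⟩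
    obtain ⟨g1, g2, g3⟩ := mpt_spec hM (hJp i hi)
    rw [one_s hδ (hI.sqf i hi) (hI.jc i hi) hsi h₁ h₂ (dcy_Wk ψ l f hK hV)]
    have e1 : κ * R i = ∑ p ∈ L, κ * (cI ψ l f s δ j c i * (cb b₁ b₂ (s i * (dc (j i)).2.2) p *
        H (dc (j i)).1 (bpt (rd M) (XI δ j i)) (bpt (rd M) (p.1 * p.2 ^ 2))
          (s i * (dc (j i)).2.2) (bco (rd M) (XI δ j i)) (bco (rd M) (p.1 * p.2 ^ 2)))) := by
      rw [hR]
      simp only
      rw [Finset.mul_sum, Finset.mul_sum]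
    rw [e1, map_sum, hL, Finset.sum_product, Finset.mul_sum]
    refine Finset.sum_congr rfl fun n hn => ?_
    rw [Finset.mul_sum]
    refine Finset.sum_congr rfl fun m hm => ?_
    have hp : (n, m) ∈ L := by rw [hL]; exact Finset.mem_product.mpr ⟨hn, hm⟩
    have hnp := h₁.prim _ (hLm _ hp).1
    have hmp := h₂.prim _ (hLm _ hp).2
    obtain ⟨z1, z2, z3⟩ := mpt_spec hM (hLp _ hp)
    have hNT := NT_dict hψ l hK hV s1 s2 hδ (hI.sqf i hi) hrδ hnp hmp (hsi.mul s4) hf g1 z1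
      g3 g2 z3 z2
    have hNT' : NT (n * (m * δ i)) ((dc (j i)).1 * (dc (j i)).2.1 * (n * (m * δ i) ^ 2))
        (fun k => n23 k * conj (Wk ψ l f V K (s i * ((dc (j i)).2.2 * k)))) =
        NT (n * (m * δ i)) ((dc (j i)).1 * (dc (j i)).2.1 * (n * (m * δ i) ^ 2))
        (fun k => n23 k * conj (Wk ψ l f V K (s i * (dc (j i)).2.2 * k))) := by
      simp only [mul_assoc]
    unfold Uk
    simp only
    rw [hNT', hNT, hH]
    simp only [cI, cb, map_mul, Complex.conj_conj, Complex.conj_ofReal, hκ,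
      syAx.mul_left _ _ _ hnp, syAx.mul_left _ _ _ hmp]
    ring
  rw [Finset.sum_congr rfl key]
  have st1 : ∀ c₀ ∈ C4, ∀ o : OU M I s j, ∑ g ∈ MC M N₁, ∑ z ∈ MC M N₂,
      ∑' X : Eis, vI M ψ l f I s δ j c c₀ g o.1 X * ∑' Y : Eis, wI M b₁ b₂ L z o.1 Y *
        H c₀ g z (o.1.1 * o.1.2) X Y = ∑ i ∈ II I s j c₀ o.1, R i := by
    intro c₀ _ o
    have hII : ∀ i ∈ II I s j c₀ o.1, i ∈ I ∧ (dc (j i)).1 = c₀ ∧ s i = o.1.1 ∧
        (dc (j i)).2.2 = o.1.2 := by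
      intro i hi
      unfold II at hi
      rw [Finset.mem_filter] at hi
      exact hi
    have e2 : ∀ g ∈ MC M N₁, (∑ z ∈ MC M N₂, ∑' X : Eis, vI M ψ l f I s δ j c c₀ g o.1 X *
        ∑' Y : Eis, wI M b₁ b₂ L z o.1 Y * H c₀ g z (o.1.1 * o.1.2) X Y) =
        ∑' X : Eis, pu M (II I s j c₀ o.1) (XI δ j) (cI ψ l f s δ j c) g X *
          (∑ p ∈ L, cb b₁ b₂ (o.1.1 * o.1.2) p * H c₀ g (bpt (rd M) (p.1 * p.2 ^ 2))
            (o.1.1 * o.1.2) X (bco (rd M) (p.1 * p.2 ^ 2))) := by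
      intro g hg
      have hfin : (Function.support (vI M ψ l f I s δ j c c₀ g o.1)).Finite := by
        refine ((II I s j c₀ o.1).image (fun i => bco (rd M) (XI δ j i))).finite_toSet.subset
          fun x hx => ?_
        exact Finset.mem_coe.mpr (pu_fin hM (fun i hi => hJp i (hII i hi).1) (mem_MC.mp hg).2 hx)
      rw [← Summable.tsum_finsetSum (fun z _ => summable_of_hasFiniteSupport
        (hfin.subset fun X hX => left_ne_zero_of_mul hX))]
      refine tsum_congr fun X => ?_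
      rw [← Finset.mul_sum]
      congr 1
      exact push hM hLp hLN (cb b₁ b₂ (o.1.1 * o.1.2)) (fun z Y => H c₀ g z (o.1.1 * o.1.2) X Y)
    rw [Finset.sum_congr rfl e2,
      push hM (fun i hi => hJp i (hII i hi).1) (fun i hi => hN₁ i (hII i hi).1)
        (cI ψ l f s δ j c)
        (fun g X => ∑ p ∈ L, cb b₁ b₂ (o.1.1 * o.1.2) p *
          H c₀ g (bpt (rd M) (p.1 * p.2 ^ 2)) (o.1.1 * o.1.2) X
            (bco (rd M) (p.1 * p.2 ^ 2)))]
    refine Finset.sum_congr rfl fun i hi => ?_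
    obtain ⟨-, h5, h6, h7⟩ := hII i hi
    rw [hR]
    simp only [h5, h6, h7]
  have st2 : ∑ i ∈ I, R i = ∑ c₀ ∈ C4, ∑ o : OU M I s j, ∑ i ∈ II I s j c₀ o.1, R i := by
    have e3 : ∀ c₀ ∈ C4, (∑ o : OU M I s j, ∑ i ∈ II I s j c₀ o.1, R i) =
        ∑ i ∈ I, ∑ o ∈ OU M I s j,
          if (dc (j i)).1 = c₀ ∧ s i = o.1 ∧ (dc (j i)).2.2 = o.2 then R i else 0 := by
      intro c₀ _
      rw [Finset.sum_coe_sort (OU M I s j) (fun o => ∑ i ∈ II I s j c₀ o, R i), Finset.sum_comm]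
      refine Finset.sum_congr rfl fun o _ => ?_
      unfold II
      rw [Finset.sum_filter]
    rw [Finset.sum_congr rfl e3, Finset.sum_comm]
    refine Finset.sum_congr rfl fun i hi => ?_
    obtain ⟨s1, s2, s3, s4, s5, s6, s7⟩ := dc_spec (hI.jc i hi)
    rw [Finset.sum_eq_single_of_mem (dc (j i)).1 (mem_C4.mpr s1)]
    · by_cases hν : IsCoprime (s i * (dc (j i)).2.2) M
      · rw [Finset.sum_eq_single_of_mem (s i, (dc (j i)).2.2)]
        · rw [if_pos ⟨rfl, rfl, rfl⟩]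
        · unfold OU
          rw [Finset.mem_filter]
          exact ⟨Finset.mem_image_of_mem (fun i => (s i, (dc (j i)).2.2)) hi,
            (hI.s i hi).mul s4, hν⟩
        · intro o _ h
          rw [if_neg]
          rintro ⟨-, h1, h2⟩
          exact h (Prod.ext h1.symm h2.symm)
      · have h0 : R i = 0 := by
          rw [hR]
          simp only [cI, End699.tw, hψ.van _ ((hI.s i hi).mul s4) hν]
          simp
        rw [h0]
        symm
        refine Finset.sum_eq_zero fun o _ => ?_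
        split_ifs <;> rfl
    · intro c₀ _ h
      refine Finset.sum_eq_zero fun o _ => ?_
      rw [if_neg (fun h' => h h'.1.symm)]
  have st3 : ∑ c₀ ∈ C4, ∑ g ∈ MC M N₁, ∑ z ∈ MC M N₂,
      conj (κ * E4L M f (psd ψ (c₀ * g * z)) (-l) (V1 V) K (O := OU M I s j)
        (fun o => (nm (o.1.1 * o.1.2) : ℝ)) (fun o => vI M ψ l f I s δ j c c₀ g o.1)
        (fun o => wI M b₁ b₂ L z o.1)) =
      conj (κ * ∑ c₀ ∈ C4, ∑ o : OU M I s j, ∑ g ∈ MC M N₁, ∑ z ∈ MC M N₂,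
        ∑' X : Eis, vI M ψ l f I s δ j c c₀ g o.1 X * ∑' Y : Eis, wI M b₁ b₂ L z o.1 Y *
          H c₀ g z (o.1.1 * o.1.2) X Y) := by
    simp_rw [← map_sum, ← Finset.mul_sum]
    congr 2
    refine Finset.sum_congr rfl fun c₀ _ => ?_
    unfold E4L
    rw [Finset.sum_congr rfl (fun g _ => Finset.sum_comm), Finset.sum_comm]
  rw [st3, Finset.sum_congr rfl (fun c₀ hc₀ => Finset.sum_congr rfl fun o _ => st1 c₀ hc₀ o),
    ← st2, ← map_sum, ← Finset.mul_sum]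

end Crest.Agent.R017.E4D164
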