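import Crest.Agent.R017.E4c_352

/-!
# Row 17, C70/E4: one term of the opening after the functional equation (helper352)
-/

set_option autoImplicit false

noncomputable section

open Complex
open scoped ComplexConjugate

namespace Crest.Agent.R017.E4352

open Crest.Agent.R012 Crest.Agent.R012.Eis Crest.Agent.R012.Mob705 Crest.Agent.R012.Gauss880
open Crest.Agent.R012.GaussLoc283
open Crest.Agent.R012.Div277
open Crest.Agent.R017.Sx545 Crest.Agent.R017.CM106 Crest.Agent.R017.C70 Crest.Agent.R017.C590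
open Crest.Agent.R017.B770 Crest.Agent.R017.E2440 Crest.Agent.R017.End699
open Crest.Agent.R017.E4579 (bpt bco SupB)

variable {M : Eis} {ψ : Eis → ℂ} {l : ℤ} {ι : Type} [Fintype ι] {D : Dt3 ι} {V : ℝ → ℂ}
  {W : ι → ℝ → ℂ} {mt : Eis → ℝ → ℝ}

/-- the dual expression for the index `i` -/
def DE (M : Eis) (D : Dt3 ι) (W : ι → ℝ → ℂ) (i : ι) {O : Type} [Fintype O] (lam : O → ℝ)
    (v w : O → Eis → ℂ) (F : Eis) (Q : ℝ) : ℂ :=
  ∑ o, ∑' x : Eis, v o x * ∑' y : Eis, w o y * (((Q / lam o : ℝ) : ℂ) *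
    (End699.tw (D.η i) D.j (F * x * y) *
      D3 M (End699.tw (D.ψ' i) D.l') (F * x * y) (W i) (D.ρ i * nm (F * x * y) / (Q / lam o))))

lemma NT_pull (hψ : HC M ψ) {E : Eis} (hE : IsPrim E) {K L : ℝ} (hK : 0 < K) (hL : 0 < L)
    (u : Eis) :
    NT M u (fun k => End699.tw ψ l (E * k) * V (nm (E * k) * L / K)) =
      End699.tw ψ l E * N3 M (End699.tw ψ l) u V ((K / nm E) / L) := by
  unfold N3
  rw [← NT_smul]
  refine NT_congr_phi fun k hk => ?_
  rw [(hψ.isChar_tw l).mul E k hE hk.prim, nm_mul]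
  have hE0 : (0 : ℝ) < nm E := by exact_mod_cast nm_pos.mpr hE.ne_zero
  have e : ((nm E * nm k : ℕ) : ℝ) * L / K = nm k / ((K / nm E) / L) := by
    push_cast
    field_simp
  rw [e]
  ring

/-- **one term, after the functional equation** -/
lemma dual_term (hψ : HC M ψ) (hLaw : Law M ψ l D V W mt) {O : Type} [Fintype O] {lam : O → ℝ}
    (hl : ∀ o, 1 ≤ lam o) {v w : O → Eis → ℂ} (hv : ∀ o, SSm M (v o)) (hw : ∀ o, SSm M (w o))
    {N : ℕ} (hvN : ∀ o x, v o x ≠ 0 → nm x ≤ N) (hwN : ∀ o x, w o x ≠ 0 → nm x ≤ N)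
    {E F : Eis} (hE : IsPrim E) (hF : Sm M F) {K : ℝ} (hK : 0 < K) :
    ‖∑ o, ∑' x : Eis, v o x * ∑' y : Eis, w o y *
        NT M (F * x * y) (fun k => End699.tw ψ l (E * k) * V (nm (E * k) * lam o / K))‖ ≤
      ∑ i, ‖D.κ i‖ * ‖DE M D W i lam v w F (K / nm E)‖ +
        ∑ o, ∑' x : Eis, ‖v o x‖ * ∑' y : Eis, ‖w o y‖ * mt (F * x * y) (K / (lam o * nm E)) := by
  have hE0 : (0 : ℝ) < nm E := by exact_mod_cast nm_pos.mpr hE.ne_zero
  have a1 : ‖End699.tw ψ l E‖ ≤ 1 := (hψ.isChar_tw l).norm_le hE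
  set Q : ℝ := K / nm E with hQ
  have hQ0 : 0 < Q := by rw [hQ]; positivity
  have hlam : ∀ o, 0 < lam o := fun o => by linarith [hl o]
  -- finite sums
  have e1 : ∑ o, ∑' x : Eis, v o x * ∑' y : Eis, w o y *
        NT M (F * x * y) (fun k => End699.tw ψ l (E * k) * V (nm (E * k) * lam o / K)) =
      ∑ o, ∑ x ∈ primBall N, v o x * ∑ y ∈ primBall N, w o y *
        (End699.tw ψ l E * N3 M (End699.tw ψ l) (F * x * y) V (Q / lam o)) := by
    refine Finset.sum_congr rfl fun o _ => ?_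
    rw [tsum_SSm (hv o) (hvN o)]
    refine Finset.sum_congr rfl fun x _ => ?_
    rw [tsum_SSm (hw o) (hwN o)]
    congr 1
    refine Finset.sum_congr rfl fun y _ => ?_
    rw [NT_pull hψ hE hK (hlam o)]
  have e2 : ∀ i, DE M D W i lam v w F Q = ∑ o, ∑ x ∈ primBall N, v o x * ∑ y ∈ primBall N, w o y *
      (((Q / lam o : ℝ) : ℂ) * (End699.tw (D.η i) D.j (F * x * y) *
      D3 M (End699.tw (D.ψ' i) D.l') (F * x * y) (W i) (D.ρ i * nm (F * x * y) / (Q / lam o)))) := by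
    intro i
    unfold DE
    refine Finset.sum_congr rfl fun o _ => ?_
    rw [tsum_SSm (hv o) (hvN o)]
    refine Finset.sum_congr rfl fun x _ => ?_
    rw [tsum_SSm (hw o) (hwN o)]
  have e3 : ∑ o, ∑' x : Eis, ‖v o x‖ * ∑' y : Eis, ‖w o y‖ *
      mt (F * x * y) (K / (lam o * nm E)) = ∑ o, ∑ x ∈ primBall N, ‖v o x‖ *
        ∑ y ∈ primBall N, ‖w o y‖ * mt (F * x * y) (Q / lam o) := by
    refine Finset.sum_congr rfl fun o _ => ?_
    rw [tsum_SSmR (hv o) (hvN o)]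
    refine Finset.sum_congr rfl fun x _ => ?_
    rw [tsum_SSmR (hw o) (hwN o)]
    have : K / (lam o * nm E) = Q / lam o := by
      rw [hQ]
      have := hlam o
      field_simp
    rw [this]
  -- the error
  set Er : O → Eis → Eis → ℂ := fun o x y => N3 M (End699.tw ψ l) (F * x * y) V (Q / lam o) -
    ((Q / lam o : ℝ) : ℂ) * ∑ i, D.κ i * End699.tw (D.η i) D.j (F * x * y) *
      D3 M (End699.tw (D.ψ' i) D.l') (F * x * y) (W i) (D.ρ i * nm (F * x * y) / (Q / lam o))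
    with hEr
  have e4 : ∑ o, ∑ x ∈ primBall N, v o x * ∑ y ∈ primBall N, w o y *
        (End699.tw ψ l E * N3 M (End699.tw ψ l) (F * x * y) V (Q / lam o)) =
      End699.tw ψ l E * (∑ i, D.κ i * DE M D W i lam v w F Q +
        ∑ o, ∑ x ∈ primBall N, v o x * ∑ y ∈ primBall N, w o y * Er o x y) := by
    simp_rw [e2, Finset.mul_sum]
    rw [Finset.sum_comm (s := Finset.univ (α := ι)), ← Finset.sum_add_distrib, Finset.mul_sum]
    refine Finset.sum_congr rfl fun o _ => ?_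
    rw [Finset.sum_comm (s := Finset.univ (α := ι)), ← Finset.sum_add_distrib, Finset.mul_sum]
    refine Finset.sum_congr rfl fun x _ => ?_
    rw [Finset.sum_comm (s := Finset.univ (α := ι)), ← Finset.sum_add_distrib, Finset.mul_sum]
    refine Finset.sum_congr rfl fun y _ => ?_
    rw [hEr]
    simp only [Finset.mul_sum, mul_sub]
    rw [mul_add, mul_sub, Finset.mul_sum, Finset.mul_sum]
    have : ∀ i, End699.tw ψ l E * (D.κ i * (v o x * (w o y * (((Q / lam o : ℝ) : ℂ) *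
        (End699.tw (D.η i) D.j (F * x * y) * D3 M (End699.tw (D.ψ' i) D.l') (F * x * y) (W i)
          (D.ρ i * nm (F * x * y) / (Q / lam o))))))) = End699.tw ψ l E * (v o x * (w o y *
        (((Q / lam o : ℝ) : ℂ) * (D.κ i * End699.tw (D.η i) D.j (F * x * y) *
          D3 M (End699.tw (D.ψ' i) D.l') (F * x * y) (W i)
          (D.ρ i * nm (F * x * y) / (Q / lam o)))))) := fun i => by ring
    rw [Finset.sum_congr rfl fun i _ => this i]
    simp only [← Finset.mul_sum]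
    ring
  rw [e1, e4, norm_mul, e3]
  have h5 : ‖∑ i, D.κ i * DE M D W i lam v w F Q‖ ≤ ∑ i, ‖D.κ i‖ * ‖DE M D W i lam v w F Q‖ :=
    (norm_sum_le _ _).trans (Finset.sum_le_sum fun i _ => by rw [norm_mul])
  have h6 : ‖∑ o, ∑ x ∈ primBall N, v o x * ∑ y ∈ primBall N, w o y * Er o x y‖ ≤
      ∑ o, ∑ x ∈ primBall N, ‖v o x‖ * ∑ y ∈ primBall N, ‖w o y‖ *
        mt (F * x * y) (Q / lam o) := by
    refine (norm_sum_le _ _).trans (Finset.sum_le_sum fun o _ => ?_)
    refine (norm_sum_le _ _).trans (Finset.sum_le_sum fun x _ => ?_)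
    rw [norm_mul]
    by_cases hx : v o x = 0
    · rw [hx, norm_zero, zero_mul, zero_mul]
    refine mul_le_mul_of_nonneg_left ?_ (norm_nonneg _)
    refine (norm_sum_le _ _).trans (Finset.sum_le_sum fun y _ => ?_)
    rw [norm_mul]
    by_cases hy : w o y = 0
    · rw [hy, norm_zero, zero_mul, zero_mul]
    refine mul_le_mul_of_nonneg_left ?_ (norm_nonneg _)
    exact hLaw (F * x * y) ((hF.mul ((hv o).sm x hx)).mul ((hw o).sm y hy)) (Q / lam o)
      (div_pos hQ0 (hlam o))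
  calc ‖End699.tw ψ l E‖ * ‖∑ i, D.κ i * DE M D W i lam v w F Q +
        ∑ o, ∑ x ∈ primBall N, v o x * ∑ y ∈ primBall N, w o y * Er o x y‖
      ≤ 1 * ‖∑ i, D.κ i * DE M D W i lam v w F Q +
        ∑ o, ∑ x ∈ primBall N, v o x * ∑ y ∈ primBall N, w o y * Er o x y‖ :=
        mul_le_mul_of_nonneg_right a1 (norm_nonneg _)
    _ ≤ _ := by
        rw [one_mul]
        exact (norm_add_le _ _).trans (add_le_add h5 h6)

end Crest.Agent.R017.E4352
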