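import Crest.Agent.R017.FE7_47
import Crest.Agent.R012.GaussInst_880
import Crest.Agent.R012.Char_766

/-!
# Row 17: functional equation of the smooth family sums (8)

`pu0`: a partition of unity. `PV`: Pólya–Vinogradov with rapid decay beyond the conductor.
`FE_ms`: mean-square form of the functional equation, arbitrary nonnegative weights.
`kap h₁ h₂`: the primitive cubic characters `b ↦ (b/h₁)₃ conj (b/h₂)₃`.
-/

set_option autoImplicit false

noncomputable section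

open Complex MeasureTheory Filter Topology
open scoped SchwartzMap ContDiff

namespace Crest.Agent.R017.FE47

open Crest.Agent.R012 Crest.Agent.R012.Eis Crest.Agent.R012.Po581 Crest.Agent.R012.Gauss880
open Crest.Agent.R012.PSer47
open Crest.Agent.R012.Weight600 (osc norm_osc)
open Crest.Agent.R017.End699

/-! ### a partition of unity -/

/-- the standard piece -/
def h00 : ℝ → ℝ := Weight600.cutL (-1) 0 (1 / 2)

theorem pu0 : PU h00 1 where
  cpos := one_pos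
  cd := Weight600.contDiff_cutL
  cs := Weight600.hasCompactSupport_cutL (by norm_num) (by norm_num)
  one v hv := by
    have key : ∀ n : ℕ, h00 (v - 1 * n) =
        Weight600.Phi ((v - n + 1) / (1 / 2)) - Weight600.Phi ((v - ((n + 1 : ℕ) : ℝ) + 1) / (1 / 2)) := by
      intro n
      unfold h00 Weight600.cutL
      push_cast
      congr 2 <;> ring
    have hN : ∀ n : ℕ, n ∉ Finset.range (⌈v⌉₊ + 2) → h00 (v - 1 * n) = 0 := by
      intro n hn
      rw [Finset.mem_range, not_lt] at hn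
      have h1 : v ≤ ⌈v⌉₊ := Nat.le_ceil v
      have h2 : ((⌈v⌉₊ + 2 : ℕ) : ℝ) ≤ n := by exact_mod_cast hn
      push_cast at h2
      unfold h00
      apply Weight600.cutL_eq_zero_left (by norm_num) (by norm_num)
      linarith
    rw [tsum_eq_sum hN, Finset.sum_congr rfl fun n _ => key n, Finset.sum_range_sub'
      (fun n : ℕ => Weight600.Phi ((v - n + 1) / (1 / 2)))]
    have h1 : v ≤ ⌈v⌉₊ := Nat.le_ceil v
    rw [Weight600.Phi_of_ge, Weight600.Phi_of_le]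
    · ring
    · rw [div_le_iff₀ (by norm_num)]; push_cast; linarith
    · rw [le_div_iff₀ (by norm_num)]; push_cast; linarith

/-- The constant of the modulus `M`. -/
def cM (A : ℕ) (ε : ℝ) (M : Eis) : ℝ := (3 * nm M) ^ (A + 1) * UM ε M

lemma cM_nonneg (A : ℕ) (ε : ℝ) (M : Eis) : 0 ≤ cM A ε M :=
  mul_nonneg (by positivity) (UM_nonneg _ _)

/-- **Pólya–Vinogradov** with rapid decay beyond the conductor (U2). -/
theorem PV {w : ℝ → ℂ} (hw1 : ContDiff ℝ ∞ w) (hw2 : HasCompactSupport w) (l : ℤ) (A : ℕ) :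
    ∃ (C : ℝ) (J : ℕ), 0 ≤ C ∧ ∀ (M : Eis) (χ : Eis → ℂ), HC M χ →
      ∀ (c₁ : Eis) (κ : Eis → ℂ), IsPrim c₁ → IsCoprime c₁ M → IsCh c₁ κ → Primitive c₁ κ →
      κ 0 = 0 → ∀ k t : ℝ,
      ‖PS w (XK χ κ l) k t‖ ≤ C * (1 + |t|) ^ J * cM (A + 2) (1 / 2) M *
        (Real.sqrt (nm c₁) * ((1 + Real.exp k / nm c₁) ^ A)⁻¹) := by
  obtain ⟨C, J, hC, hF⟩ := FE_major hw1 hw2 l pu0 (A := A + 2) (K := 2) (by omega) le_rfl
    (ε := 1 / 2) (by norm_num) (by norm_num)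
  obtain ⟨C1, hC1, hT⟩ := TN_le pu0.cd.continuous pu0.cs (K := 2) le_rfl
  obtain ⟨B, hB, hsum⟩ := scale_sum (δ := min (1 / 2) (1 - 1 / 2)) (c := 1) (by norm_num) one_pos
  refine ⟨C * C1 * B, J, by positivity, fun M χ hχ c₁ κ hc₁ hcop hκ hp hκ0 k t => ?_⟩
  have hΞ := norm_XK_le hχ hc₁.ne_zero hκ l
  have hc0 : (0 : ℝ) < nm c₁ := by
    have := nm_pos.mpr hc₁.ne_zero
    exact_mod_cast this
  have hsc : (0 : ℝ) < Real.sqrt (nm c₁) := Real.sqrt_pos.mpr hc0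
  have hs2 : Real.sqrt (nm c₁) * Real.sqrt (nm c₁) = nm c₁ := Real.mul_self_sqrt hc0.le
  set s := k - Real.log (nm c₁) with hs
  have hes : Real.exp s = Real.exp k / nm c₁ := by rw [hs, Real.exp_sub, Real.exp_log hc0]
  have hshift : ∀ n : ℕ, Real.exp (1 * n + k) / nm c₁ = Real.exp (1 * n + s) := by
    intro n
    rw [hs, ← add_sub_assoc, Real.exp_sub, Real.exp_log hc0]
  have h1 := hF M χ hχ c₁ κ hc₁ hcop hκ hp hκ0 k t
  simp only [hshift] at h1
  have hS := summable_wz pu0.cd.continuous pu0.cs one_pos (ε := 1 / 2) (by norm_num) (by norm_num)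
    (A := A + 2) (K := 2) (by omega) le_rfl hΞ s
  have h2 : ∑' n : ℕ, wz (1 / 2) (A + 2) (Real.exp (1 * n + s)) * TN h00 (XK χ κ l) 2 (1 * n) ≤
      C1 * (Real.exp (-s) * ((1 + Real.exp s) ^ A)⁻¹) * B := by
    have h3 : ∀ n : ℕ, wz (1 / 2) (A + 2) (Real.exp (1 * n + s)) * TN h00 (XK χ κ l) 2 (1 * n) ≤
        (C1 * (Real.exp (-s) * ((1 + Real.exp s) ^ A)⁻¹)) *
          Real.exp (-(min (1 / 2) (1 - 1 / 2) * |1 * n + s|)) := by
      intro n
      calc wz (1 / 2) (A + 2) (Real.exp (1 * n + s)) * TN h00 (XK χ κ l) 2 (1 * n)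
          ≤ wz (1 / 2) (A + 2) (Real.exp (1 * n + s)) * (C1 * Real.exp (1 * n)) :=
            mul_le_mul_of_nonneg_left (hT _ hΞ _) (wz_nonneg (Real.exp_pos _).le)
        _ = C1 * (wz (1 / 2) (A + 2) (Real.exp (1 * n + s)) * Real.exp (1 * n)) := by ring
        _ ≤ C1 * ((Real.exp (-s) * ((1 + Real.exp s) ^ (A + 2 - 1))⁻¹) *
              Real.exp (-(min (1 / 2) (1 - 1 / 2) * |1 * n + s|))) :=
            mul_le_mul_of_nonneg_left (wz_exp_le (by norm_num) (by norm_num) (by omega) one_pos s n)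
              hC1
        _ ≤ C1 * ((Real.exp (-s) * ((1 + Real.exp s) ^ A)⁻¹) *
              Real.exp (-(min (1 / 2) (1 - 1 / 2) * |1 * n + s|))) := by
            have hx : 1 ≤ 1 + Real.exp s := by linarith [Real.exp_pos s]
            gcongr
            omega
        _ = _ := by ring
    calc _ ≤ ∑' n : ℕ, (C1 * (Real.exp (-s) * ((1 + Real.exp s) ^ A)⁻¹)) *
          Real.exp (-(min (1 / 2) (1 - 1 / 2) * |1 * n + s|)) :=
          hS.tsum_le_tsum h3 ((hsum s).1.mul_left _)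
      _ = (C1 * (Real.exp (-s) * ((1 + Real.exp s) ^ A)⁻¹)) *
          ∑' n : ℕ, Real.exp (-(min (1 / 2) (1 - 1 / 2) * |1 * n + s|)) := by rw [tsum_mul_left]
      _ ≤ _ := by
          gcongr
          exact (hsum s).2
  have hcM := cM_nonneg (A + 2) (1 / 2) M
  refine h1.trans ?_
  have hcM' : (3 * (nm M : ℝ)) ^ (A + 2 + 1) * UM (1 / 2) M = cM (A + 2) (1 / 2) M := rfl
  rw [hcM']
  calc C * (1 + |t|) ^ J * cM (A + 2) (1 / 2) M * (Real.exp k / Real.sqrt (nm c₁)) *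
        ∑' n : ℕ, wz (1 / 2) (A + 2) (Real.exp (1 * n + s)) * TN h00 (XK χ κ l) 2 (1 * n)
      ≤ C * (1 + |t|) ^ J * cM (A + 2) (1 / 2) M * (Real.exp k / Real.sqrt (nm c₁)) *
        (C1 * (Real.exp (-s) * ((1 + Real.exp s) ^ A)⁻¹) * B) := by gcongr
    _ = _ := by
        rw [Real.exp_neg, hes]
        have hek : Real.exp k ≠ 0 := (Real.exp_pos k).ne'
        have e : Real.exp k / Real.sqrt (nm c₁) * (Real.exp k / nm c₁)⁻¹ = Real.sqrt (nm c₁) := by
          rw [inv_div, div_mul_div_comm, mul_comm (Real.exp k), mul_div_mul_right _ _ hek,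
            div_eq_iff hsc.ne', hs2]
        calc C * (1 + |t|) ^ J * cM (A + 2) (1 / 2) M * (Real.exp k / Real.sqrt (nm c₁)) *
            (C1 * ((Real.exp k / nm c₁)⁻¹ * ((1 + Real.exp k / nm c₁) ^ A)⁻¹) * B) =
            C * (1 + |t|) ^ J * cM (A + 2) (1 / 2) M * C1 * B * ((1 + Real.exp k / nm c₁) ^ A)⁻¹ *
            (Real.exp k / Real.sqrt (nm c₁) * (Real.exp k / nm c₁)⁻¹) := by ring
          _ = _ := by rw [e]; ring

/-! ### mean squares -/

lemma wz_anti {ε : ℝ} (hε : 0 < ε) (A : ℕ) {z z' : ℝ} (hz : 0 < z) (h : z ≤ z') :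
    wz ε A z' ≤ wz ε A z := by
  unfold wz
  have hz' : 0 < z' := lt_of_lt_of_le hz h
  have h1 : z' ^ (-ε) ≤ z ^ (-ε) := Real.rpow_le_rpow_of_nonpos hz h (by linarith)
  gcongr

lemma summable_wz' {c ε : ℝ} (hc : 0 < c) (hε : 0 < ε) (A : ℕ) (s : ℝ) :
    Summable (fun n : ℕ => wz ε A (Real.exp (c * n + s))) ∧
      ∑' n : ℕ, wz ε A (Real.exp (c * n + s)) ≤ Real.exp (-(s * ε)) * (1 - Real.exp (-(c * ε)))⁻¹ := by
  have hr1 : Real.exp (-(c * ε)) < 1 := Real.exp_lt_one_iff.mpr (by linarith [mul_pos hc hε])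
  have hg := (summable_geometric_of_lt_one (Real.exp_pos (-(c * ε))).le hr1).mul_left
    (Real.exp (-(s * ε)))
  have hle : ∀ n : ℕ, wz ε A (Real.exp (c * n + s)) ≤
      Real.exp (-(s * ε)) * Real.exp (-(c * ε)) ^ n := by
    intro n
    unfold wz
    have h1 : Real.exp (c * n + s) ^ (-ε) = Real.exp (-(s * ε)) * Real.exp (-(c * ε)) ^ n := by
      rw [← Real.exp_mul, ← Real.exp_nat_mul, ← Real.exp_add]
      congr 1; ring
    rw [h1]
    have h2 : ((1 + Real.exp (c * n + s)) ^ A)⁻¹ ≤ 1 := by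
      apply inv_le_one_of_one_le₀
      apply one_le_pow₀
      linarith [Real.exp_pos (c * n + s)]
    calc _ ≤ Real.exp (-(s * ε)) * Real.exp (-(c * ε)) ^ n * 1 := by gcongr
      _ = _ := mul_one _
  have hs : Summable (fun n : ℕ => wz ε A (Real.exp (c * n + s))) :=
    Summable.of_nonneg_of_le (fun _ => wz_nonneg (Real.exp_pos _).le) hle hg
  refine ⟨hs, (hs.tsum_le_tsum hle hg).trans ?_⟩
  rw [tsum_mul_left, tsum_geometric_of_lt_one (Real.exp_pos _).le hr1]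

/-- averaged square of the smooth sums -/
def TN2 (h : ℝ → ℝ) (Ξ : Eis → ℂ) (K : ℕ) (κ : ℝ) : ℝ :=
  ∫ t : ℝ, ((1 + |t|) ^ K)⁻¹ * ‖PS (cx h) Ξ κ t‖ ^ 2

lemma TN2_nonneg (h : ℝ → ℝ) (Ξ : Eis → ℂ) (K : ℕ) (κ : ℝ) : 0 ≤ TN2 h Ξ K κ :=
  integral_nonneg fun _ => by positivity

lemma integrable_TN2 {h : ℝ → ℝ} (hc : Continuous h) (hs : HasCompactSupport h) {K : ℕ}
    (hK : 2 ≤ K) {Ξ : Eis → ℂ} (hΞ : ∀ b, IsPrim b → ‖Ξ b‖ ≤ 1) (κ : ℝ) :
    Integrable (fun t : ℝ => ((1 + |t|) ^ K)⁻¹ * ‖PS (cx h) Ξ κ t‖ ^ 2) := by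
  have hcx : Continuous (cx h) := Complex.continuous_ofReal.comp hc
  obtain ⟨C, hC, hb⟩ := norm_PS_le hcx (cs_cx hs)
  refine (integrable_wt hK).mul_bdd (c := (C * Real.exp κ) ^ 2)
    ((continuous_PS (cs_cx hs) Ξ κ).norm.pow 2).aestronglyMeasurable
    (Eventually.of_forall fun t => ?_)
  rw [Real.norm_of_nonneg (by positivity)]
  gcongr
  exact hb Ξ hΞ κ t

lemma TN2_le {h : ℝ → ℝ} (hc : Continuous h) (hs : HasCompactSupport h) {K : ℕ} (hK : 2 ≤ K) :
    ∃ C : ℝ, 0 ≤ C ∧ ∀ Ξ : Eis → ℂ, (∀ b, IsPrim b → ‖Ξ b‖ ≤ 1) → ∀ κ : ℝ,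
      TN2 h Ξ K κ ≤ C * Real.exp (2 * κ) := by
  have hcx : Continuous (cx h) := Complex.continuous_ofReal.comp hc
  obtain ⟨C, hC, hb⟩ := norm_PS_le hcx (cs_cx hs)
  have hw : 0 ≤ ∫ t : ℝ, ((1 + |t|) ^ K)⁻¹ := integral_nonneg fun _ => by positivity
  refine ⟨(∫ t : ℝ, ((1 + |t|) ^ K)⁻¹) * C ^ 2, by positivity, fun Ξ hΞ κ => ?_⟩
  unfold TN2
  calc ∫ t : ℝ, ((1 + |t|) ^ K)⁻¹ * ‖PS (cx h) Ξ κ t‖ ^ 2
      ≤ ∫ t : ℝ, ((1 + |t|) ^ K)⁻¹ * (C * Real.exp κ) ^ 2 := by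
        apply integral_mono (integrable_TN2 hc hs hK hΞ κ) ((integrable_wt hK).mul_const _)
        intro t
        have := hb Ξ hΞ κ t
        beta_reduce
        gcongr
    _ = (∫ t : ℝ, ((1 + |t|) ^ K)⁻¹) * C ^ 2 * Real.exp (2 * κ) := by
        rw [integral_mul_const, mul_pow, ← Real.exp_nat_mul]
        push_cast
        ring

lemma summable_wz2 {h : ℝ → ℝ} (hcn : Continuous h) (hs : HasCompactSupport h) {c : ℝ} (hc0 : 0 < c)
    {ε : ℝ} (hε : 0 < ε) {A K : ℕ} (hA : 2 ≤ A) (hK : 2 ≤ K) {Ξ : Eis → ℂ}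
    (hΞ : ∀ b, IsPrim b → ‖Ξ b‖ ≤ 1) (s : ℝ) :
    Summable (fun n : ℕ => wz ε A (Real.exp (c * n + s)) * TN2 h Ξ K (c * n)) := by
  obtain ⟨C, hC, hb⟩ := TN2_le hcn hs hK
  have hr1 : Real.exp (-(c * ε)) < 1 := Real.exp_lt_one_iff.mpr (by linarith [mul_pos hc0 hε])
  refine Summable.of_nonneg_of_le (fun n => mul_nonneg (wz_nonneg (Real.exp_pos _).le)
    (TN2_nonneg _ _ _ _)) (fun n => ?_) ((summable_geometric_of_lt_one
      (Real.exp_pos (-(c * ε))).le hr1).mul_left (C * Real.exp (-(s * ε)) * Real.exp (-(2 * s))))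
  have h1 : wz ε A (Real.exp (c * n + s)) ≤
      Real.exp (-(s * ε)) * Real.exp (-(c * ε)) ^ n * Real.exp (-(2 * (c * n + s))) := by
    unfold wz
    have h1 : Real.exp (c * n + s) ^ (-ε) = Real.exp (-(s * ε)) * Real.exp (-(c * ε)) ^ n := by
      rw [← Real.exp_mul, ← Real.exp_nat_mul, ← Real.exp_add]
      congr 1; ring
    rw [h1]
    have h2 : ((1 + Real.exp (c * n + s)) ^ A)⁻¹ ≤ Real.exp (-(2 * (c * n + s))) := by
      rw [Real.exp_neg]
      apply inv_anti₀ (Real.exp_pos _)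
      have h3 : 1 ≤ 1 + Real.exp (c * n + s) := by linarith [Real.exp_pos (c * n + s)]
      calc Real.exp (2 * (c * n + s)) = Real.exp (c * n + s) ^ 2 := by
            rw [← Real.exp_nat_mul]; congr 1
        _ ≤ (1 + Real.exp (c * n + s)) ^ 2 := by gcongr; linarith
        _ ≤ (1 + Real.exp (c * n + s)) ^ A := pow_le_pow_right₀ h3 hA
    gcongr
  calc wz ε A (Real.exp (c * n + s)) * TN2 h Ξ K (c * n)
      ≤ (Real.exp (-(s * ε)) * Real.exp (-(c * ε)) ^ n * Real.exp (-(2 * (c * n + s)))) *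
        (C * Real.exp (2 * (c * n))) :=
        mul_le_mul h1 (hb Ξ hΞ _) (TN2_nonneg _ _ _ _) (by positivity)
    _ = C * Real.exp (-(s * ε)) * Real.exp (-(c * ε)) ^ n *
        (Real.exp (-(2 * (c * n + s))) * Real.exp (2 * (c * n))) := by ring
    _ = _ := by
        rw [← Real.exp_add]
        have : -(2 * (c * n + s)) + 2 * (c * n) = -(2 * s) := by ring
        rw [this]; ring

lemma sq_le_of_forall {T X Y : ℝ} (hT : 0 ≤ T) (hX : 0 ≤ X)
    (h : ∀ θ : ℝ, 0 < θ → 2 * T ≤ θ * X + θ⁻¹ * Y) : T ^ 2 ≤ X * Y := by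
  rcases hT.eq_or_lt with h0 | h0
  · rw [← h0]
    have h1 := h 1 one_pos
    have hY : 0 ≤ Y ∨ Y < 0 := le_or_gt 0 Y
    rcases hY with hY | hY
    · simpa using mul_nonneg hX hY
    · exfalso
      -- choose a small `θ`
      have hθ : 0 < Real.sqrt (-Y / (X + 1)) := Real.sqrt_pos.mpr (by
        apply div_pos (by linarith) (by linarith))
      set θ := Real.sqrt (-Y / (X + 1)) with hθd
      have h2 := h θ hθ
      have h3 : θ * θ = -Y / (X + 1) := Real.mul_self_sqrt (by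
        apply div_nonneg (by linarith) (by linarith))
      have h4 : θ * (X + 1) = θ⁻¹ * (-Y) := by
        field_simp
        have h5 : θ ^ 2 * (X + 1) = -Y := by
          rw [sq, h3]; field_simp
        linarith
      rw [← h0] at h2
      nlinarith
  · rcases hX.eq_or_lt with hX0 | hX0
    · exfalso
      have hY : 0 < Y := by
        have := h 1 one_pos
        rw [← hX0] at this
        simp at this
        linarith
      have h2 := h (Y / T) (div_pos hY h0)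
      rw [← hX0] at h2
      have h3 : (Y / T)⁻¹ * Y = T := by field_simp
      rw [h3] at h2
      linarith
    · have h2 := h (T / X) (div_pos h0 hX0)
      have h3 : T / X * X = T := by field_simp
      have h4 : (T / X)⁻¹ * Y = X * Y / T := by field_simp
      rw [h3, h4] at h2
      have h5 : T ≤ X * Y / T := by linarith
      rw [le_div_iff₀ h0] at h5
      rw [sq]; exact h5

/-- Cauchy–Schwarz over scales and heights. -/
lemma sq_sum_le {h : ℝ → ℝ} (hcn : Continuous h) (hs : HasCompactSupport h) {c : ℝ} (hc0 : 0 < c)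
    {ε : ℝ} (hε : 0 < ε) (hε1 : ε < 1) {A K : ℕ} (hA : 2 ≤ A) (hK : 2 ≤ K) {Ξ : Eis → ℂ}
    (hΞ : ∀ b, IsPrim b → ‖Ξ b‖ ≤ 1) (s : ℝ) :
    (∑' n : ℕ, wz ε A (Real.exp (c * n + s)) * TN h Ξ K (c * n)) ^ 2 ≤
      ((∑' n : ℕ, wz ε A (Real.exp (c * n + s))) * ∫ t : ℝ, ((1 + |t|) ^ K)⁻¹) *
      ∑' n : ℕ, wz ε A (Real.exp (c * n + s)) * TN2 h Ξ K (c * n) := by
  have hW := fun n : ℕ => wz_nonneg (ε := ε) (A := A) (Real.exp_pos (c * n + s)).le
  have hS1 := summable_wz hcn hs hc0 hε hε1 (A := A) (by omega) hK hΞ s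
  have hS2 := summable_wz2 hcn hs hc0 hε hA hK hΞ s
  have hS0 := (summable_wz' hc0 hε A s).1
  have hI : 0 ≤ ∫ t : ℝ, ((1 + |t|) ^ K)⁻¹ := integral_nonneg fun _ => by positivity
  refine sq_le_of_forall (tsum_nonneg fun n => mul_nonneg (hW n) (TN_nonneg _ _ _ _))
    (mul_nonneg (tsum_nonneg hW) hI) fun θ hθ => ?_
  have hpt : ∀ n : ℕ, 2 * TN h Ξ K (c * n) ≤ θ * (∫ t : ℝ, ((1 + |t|) ^ K)⁻¹) +
      θ⁻¹ * TN2 h Ξ K (c * n) := by
    intro n
    unfold TN TN2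
    rw [← integral_const_mul, ← integral_const_mul, ← integral_const_mul, ← integral_add
      ((integrable_wt hK).const_mul _) ((integrable_TN2 hcn hs hK hΞ _).const_mul _)]
    apply integral_mono ((integrable_TN hcn hs hK hΞ _).const_mul _)
      (((integrable_wt hK).const_mul _).add ((integrable_TN2 hcn hs hK hΞ _).const_mul _))
    intro t
    simp only [Pi.add_apply]
    have h1 : 0 ≤ ((1 + |t|) ^ K)⁻¹ := by positivity
    set x := ‖PS (cx h) Ξ (c * n) t‖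
    have h2 : 2 * x ≤ θ + θ⁻¹ * x ^ 2 := by
      have h3 : 0 ≤ θ⁻¹ * (θ - x) ^ 2 := by positivity
      have h4 : θ⁻¹ * (θ - x) ^ 2 = θ - 2 * x + θ⁻¹ * x ^ 2 := by field_simp; ring
      linarith
    nlinarith [mul_le_mul_of_nonneg_left h2 h1]
  calc 2 * ∑' n : ℕ, wz ε A (Real.exp (c * n + s)) * TN h Ξ K (c * n)
      = ∑' n : ℕ, 2 * (wz ε A (Real.exp (c * n + s)) * TN h Ξ K (c * n)) := by rw [tsum_mul_left]
    _ ≤ ∑' n : ℕ, (θ * ((∫ t : ℝ, ((1 + |t|) ^ K)⁻¹) * wz ε A (Real.exp (c * n + s))) +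
          θ⁻¹ * (wz ε A (Real.exp (c * n + s)) * TN2 h Ξ K (c * n))) := by
        refine (hS1.mul_left 2).tsum_le_tsum (fun n => ?_)
          (((hS0.mul_left _).mul_left θ).add (hS2.mul_left θ⁻¹))
        have := mul_le_mul_of_nonneg_left (hpt n) (hW n)
        nlinarith [this]
    _ = θ * ((∑' n : ℕ, wz ε A (Real.exp (c * n + s))) * ∫ t : ℝ, ((1 + |t|) ^ K)⁻¹) +
        θ⁻¹ * ∑' n : ℕ, wz ε A (Real.exp (c * n + s)) * TN2 h Ξ K (c * n) := by
        rw [Summable.tsum_add ((hS0.mul_left _).mul_left θ) (hS2.mul_left θ⁻¹), tsum_mul_left,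
          tsum_mul_left, tsum_mul_left]
        ring

end Crest.Agent.R017.FE47
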