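import Crest.Agent.R017.BDefs2_770
import Crest.Agent.R017.FE8_47

/-!
# Row 17, section B, L7 (part A): separation of the weights

* `RF`, `RF.sep` : Fourier separation of a rapidly decreasing family of weights cut off at a scale
* `SW.rep` : Mellin representation of a weight in `SW`
-/

set_option autoImplicit false

noncomputable section

open MeasureTheory Complex Set Filter
open scoped ComplexConjugate ContDiff

namespace Crest.Agent.R017.L747

open Crest.Agent.R012 Crest.Agent.R012.Eis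
open Crest.Agent.R012.Weight600 (osc norm_osc ker ker_deriv norm_ker_le inversion_smooth)
open Crest.Agent.R017.End699 Crest.Agent.R017.B770 Crest.Agent.R017.FE47

/-- smooth in logarithmic scale, exponentially decreasing with all derivatives, polynomially in
the height -/
structure RF (F : ℝ → ℝ → ℂ) : Prop where
  cd : ∀ τ, ContDiff ℝ ∞ (F τ)
  dec : ∀ m N : ℕ, ∃ C A : ℝ, 0 ≤ C ∧ ∀ τ x,
    ‖iteratedDeriv m (F τ) x‖ ≤ C * (1 + |τ|) ^ A * Real.exp (-(N * |x|))

lemma one_le_T (τ : ℝ) : (1 : ℝ) ≤ 1 + |τ| := by linarith [abs_nonneg τ]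

theorem _root_.Crest.Agent.R017.B770.RD.rf {W : ℝ → ℝ → ℂ} (h : RD W) :
    RF (fun τ x => W τ (Real.exp x)) where
  cd τ := (h.smooth τ).comp_contDiff Real.contDiff_exp fun x => Real.exp_pos x
  dec m N := by
    obtain ⟨C, A, hC, hb⟩ := h.dec m N
    refine ⟨C, A, hC, fun τ x => ?_⟩
    have h1 := hb τ (Real.exp x) (Real.exp_pos x)
    rw [Real.log_exp] at h1
    refine h1.trans (le_of_eq ?_)
    congr 1
    rw [← Real.exp_nat_mul, ← Real.exp_neg]
    rcases le_total 0 x with hx | hx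
    · rw [abs_of_nonneg hx, min_eq_right]
      apply Real.exp_le_exp.mpr
      have : 0 ≤ (N : ℝ) * x := by positivity
      linarith
    · rw [abs_of_nonpos hx, min_eq_left]
      · congr 1; ring
      · apply Real.exp_le_exp.mpr
        have : (N : ℝ) * x ≤ 0 := mul_nonpos_of_nonneg_of_nonpos (by positivity) hx
        linarith

lemma RF.deriv {F : ℝ → ℝ → ℂ} (h : RF F) : RF (fun τ => deriv (F τ)) where
  cd τ := (contDiff_infty_iff_deriv.mp (h.cd τ)).2
  dec m N := by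
    obtain ⟨C, A, hC, hb⟩ := h.dec (m + 1) N
    refine ⟨C, A, hC, fun τ x => ?_⟩
    rw [← iteratedDeriv_succ']
    exact hb τ x

lemma RF.bd {F : ℝ → ℝ → ℂ} (h : RF F) (N : ℕ) : ∃ C A : ℝ, 0 ≤ C ∧ 0 ≤ A ∧ ∀ τ x,
    ‖F τ x‖ ≤ C * (1 + |τ|) ^ A * Real.exp (-(N * |x|)) := by
  obtain ⟨C, A, hC, hb⟩ := h.dec 0 N
  refine ⟨C, max A 0, hC, le_max_right _ _, fun τ x => ?_⟩
  have h1 := hb τ x
  rw [iteratedDeriv_zero] at h1
  refine h1.trans ?_
  gcongr
  · exact one_le_T τ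
  · exact le_max_left _ _

/-- the localised weight -/
def loc (χ : ℝ → ℂ) (F : ℝ → ℂ) (s v : ℝ) : ℂ := χ v * F (v + s)

lemma contDiff_loc {χ : ℝ → ℂ} (h1 : ContDiff ℝ ∞ χ) {F : ℝ → ℂ} (hF : ContDiff ℝ ∞ F) (s : ℝ) :
    ContDiff ℝ ∞ (loc χ F s) := h1.mul (hF.comp (contDiff_id.add contDiff_const))

lemma hasCompactSupport_loc {χ : ℝ → ℂ} (h2 : HasCompactSupport χ) (F : ℝ → ℂ) (s : ℝ) :
    HasCompactSupport (loc χ F s) := h2.mul_right

lemma integrable_loc {χ : ℝ → ℂ} (h1 : ContDiff ℝ ∞ χ) (h2 : HasCompactSupport χ) {F : ℝ → ℂ}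
    (hF : ContDiff ℝ ∞ F) (s : ℝ) : Integrable (loc χ F s) :=
  (contDiff_loc h1 hF s).continuous.integrable_of_hasCompactSupport (hasCompactSupport_loc h2 F s)

lemma deriv_loc {χ : ℝ → ℂ} (h1 : ContDiff ℝ ∞ χ) {F : ℝ → ℂ} (hF : ContDiff ℝ ∞ F) (s v : ℝ) :
    deriv (loc χ F s) v = loc (deriv χ) F s v + loc χ (deriv F) s v := by
  have e1 : HasDerivAt χ (deriv χ v) v := (h1.differentiable (by simp) v).hasDerivAt
  have e2 : HasDerivAt (fun v => F (v + s)) (deriv F (v + s)) v :=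
    ((hF.differentiable (by simp) (v + s)).hasDerivAt).comp_add_const v s
  have e3 := e1.mul e2
  exact e3.deriv

lemma ker_loc_bound (N k : ℕ) : ∀ χ : ℝ → ℂ, ContDiff ℝ ∞ χ → HasCompactSupport χ →
    ∀ F : ℝ → ℝ → ℂ, RF F → ∃ C A : ℝ, 0 ≤ C ∧ 0 ≤ A ∧ ∀ τ s t : ℝ,
      |t| ^ k * ‖ker (loc χ (F τ) s) t‖ ≤ C * (1 + |τ|) ^ A * Real.exp (-(N * |s|)) := by
  induction k with
  | zero =>
    intro χ h1 h2 F hF
    obtain ⟨C, A, hC, hA, hd⟩ := hF.bd N
    obtain ⟨R, hR0, hR⟩ := exists_R h2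
    have hχi : Integrable χ := h1.continuous.integrable_of_hasCompactSupport h2
    refine ⟨(∫ u, ‖χ u‖) * (C * Real.exp (N * R)), A, by positivity, hA, fun τ s t => ?_⟩
    have hb : ∀ v, ‖loc χ (F τ) s v‖ ≤
        ‖χ v‖ * (C * Real.exp (N * R) * (1 + |τ|) ^ A * Real.exp (-(N * |s|))) := by
      intro v
      by_cases hv : χ v = 0
      · simp [loc, hv]
      · have hvR := hR v hv
        unfold loc
        rw [norm_mul]
        have h4 : Real.exp (-(N * |v + s|)) ≤ Real.exp (N * R) * Real.exp (-(N * |s|)) := by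
          rw [← Real.exp_add]
          apply Real.exp_le_exp.mpr
          have h5 : |s| ≤ |v + s| + |v| := by
            have := abs_sub (v + s) v
            simpa using this
          have h6 : (N : ℝ) * |s| ≤ N * (|v + s| + R) := by
            gcongr
            linarith
          linarith
        calc ‖χ v‖ * ‖F τ (v + s)‖
            ≤ ‖χ v‖ * (C * (1 + |τ|) ^ A * (Real.exp (N * R) * Real.exp (-(N * |s|)))) := by
              gcongr
              exact (hd τ (v + s)).trans (by gcongr)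
          _ = _ := by ring
    have hk : ‖ker (loc χ (F τ) s) t‖ ≤ ∫ v, ‖loc χ (F τ) s v‖ := by
      refine (norm_ker_le _ t).trans ?_
      have h6 : 1 / (2 * Real.pi) ≤ 1 := by
        rw [div_le_one (by positivity)]
        nlinarith [Real.pi_gt_three]
      exact mul_le_of_le_one_left (by positivity) h6
    rw [pow_zero, one_mul]
    calc ‖ker (loc χ (F τ) s) t‖
        ≤ ∫ v, ‖loc χ (F τ) s v‖ := hk
      _ ≤ ∫ v, ‖χ v‖ * (C * Real.exp (N * R) * (1 + |τ|) ^ A * Real.exp (-(N * |s|))) := by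
          apply integral_mono
          · exact (integrable_loc h1 h2 (hF.cd τ) s).norm
          · exact hχi.norm.mul_const _
          · exact hb
      _ = _ := by rw [integral_mul_const]; ring
  | succ k ih =>
    intro χ h1 h2 F hF
    obtain ⟨C1, A1, hC1, hA1, b1⟩ := ih _ (contDiff_deriv' h1) h2.deriv F hF
    obtain ⟨C2, A2, hC2, hA2, b2⟩ := ih _ h1 h2 _ hF.deriv
    refine ⟨C1 + C2, max A1 A2, by positivity, hA1.trans (le_max_left _ _), fun τ s t => ?_⟩
    have hw := contDiff_loc h1 (hF.cd τ) s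
    have h3 : ker (deriv (loc χ (F τ) s)) t = (I * t) * ker (loc χ (F τ) s) t := by
      refine ker_deriv (integrable_loc h1 h2 (hF.cd τ) s) (hw.differentiable (by simp)) ?_ t
      exact (contDiff_deriv' hw).continuous.integrable_of_hasCompactSupport
        (hasCompactSupport_loc h2 _ s).deriv
    have h4 : ker (deriv (loc χ (F τ) s)) t =
        ker (loc (deriv χ) (F τ) s) t + ker (loc χ (deriv (F τ)) s) t := by
      rw [← ker_add (integrable_loc (contDiff_deriv' h1) h2.deriv (hF.cd τ) s)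
        (integrable_loc h1 h2 (hF.deriv.cd τ) s)]
      exact ker_congr (fun v => deriv_loc h1 (hF.cd τ) s v) t
    have h5 : |t| * ‖ker (loc χ (F τ) s) t‖ ≤
        ‖ker (loc (deriv χ) (F τ) s) t‖ + ‖ker (loc χ (deriv (F τ)) s) t‖ := by
      have h6 : ‖(I * t) * ker (loc χ (F τ) s) t‖ = |t| * ‖ker (loc χ (F τ) s) t‖ := by
        rw [norm_mul, norm_mul, norm_I, one_mul, Complex.norm_real, Real.norm_eq_abs]
      rw [← h6, ← h3, h4]
      exact norm_add_le _ _
    have b1' := b1 τ s t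
    have b2' := b2 τ s t
    calc |t| ^ (k + 1) * ‖ker (loc χ (F τ) s) t‖
        = |t| ^ k * (|t| * ‖ker (loc χ (F τ) s) t‖) := by ring
      _ ≤ |t| ^ k * (‖ker (loc (deriv χ) (F τ) s) t‖ + ‖ker (loc χ (deriv (F τ)) s) t‖) := by
          gcongr
      _ = |t| ^ k * ‖ker (loc (deriv χ) (F τ) s) t‖ +
            |t| ^ k * ‖ker (loc χ (deriv (F τ)) s) t‖ := by ring
      _ ≤ C1 * (1 + |τ|) ^ A1 * Real.exp (-(N * |s|)) +
            C2 * (1 + |τ|) ^ A2 * Real.exp (-(N * |s|)) := add_le_add b1' b2'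
      _ ≤ C1 * (1 + |τ|) ^ (max A1 A2) * Real.exp (-(N * |s|)) +
            C2 * (1 + |τ|) ^ (max A1 A2) * Real.exp (-(N * |s|)) := by
          gcongr C1 * ?_ * _ + C2 * ?_ * _
          · exact Real.rpow_le_rpow_of_exponent_le (one_le_T τ) (le_max_left _ _)
          · exact Real.rpow_le_rpow_of_exponent_le (one_le_T τ) (le_max_right _ _)
      _ = _ := by ring

lemma pow_one_add_le (K : ℕ) {t : ℝ} (ht : 0 ≤ t) : (1 + t) ^ K ≤ 2 ^ K * (1 + t ^ K) := by
  rcases le_total t 1 with h | h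
  · calc (1 + t) ^ K ≤ (1 + 1) ^ K := by gcongr
      _ = 2 ^ K * 1 := by norm_num
      _ ≤ 2 ^ K * (1 + t ^ K) := by
        gcongr; linarith [pow_nonneg ht K]
  · calc (1 + t) ^ K ≤ (t + t) ^ K := by gcongr
      _ = 2 ^ K * t ^ K := by rw [← mul_pow]; congr 1; ring
      _ ≤ 2 ^ K * (1 + t ^ K) := by gcongr; linarith

/-- **Separation of variables** for a rapidly decreasing family at a scale `s`. -/
theorem RF.sep {F : ℝ → ℝ → ℂ} (hF : RF F) {χ : ℝ → ℂ} (h1 : ContDiff ℝ ∞ χ)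
    (h2 : HasCompactSupport χ) (N K : ℕ) : ∃ C A : ℝ, 0 ≤ C ∧ 0 ≤ A ∧ ∀ τ s : ℝ, ∃ κ : ℝ → ℂ,
      Continuous κ ∧ Integrable κ ∧
      (∀ t, ‖κ t‖ ≤ C * (1 + |τ|) ^ A * Real.exp (-(N * |s|)) * ((1 + |t|) ^ K)⁻¹) ∧
      ∀ v, ∫ t, κ t * osc t v = χ v * F τ (v + s) := by
  obtain ⟨C0, A0, hC0, hA0, b0⟩ := ker_loc_bound N 0 χ h1 h2 F hF
  obtain ⟨C1, A1, hC1, hA1, b1⟩ := ker_loc_bound N K χ h1 h2 F hF
  refine ⟨2 ^ K * (C0 + C1), max A0 A1, by positivity, hA0.trans (le_max_left _ _),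
    fun τ s => ?_⟩
  refine ⟨ker (loc χ (F τ) s), Weight600.continuous_ker (integrable_loc h1 h2 (hF.cd τ) s),
    Weight600.ker_integrable (contDiff_loc h1 (hF.cd τ) s) (hasCompactSupport_loc h2 _ s),
    fun t => ?_, fun v => ?_⟩
  · have hb0 := b0 τ s t
    have hb1 := b1 τ s t
    rw [pow_zero, one_mul] at hb0
    have hT : 0 < (1 + |t|) ^ K := by positivity
    rw [← div_eq_mul_inv, le_div_iff₀ hT]
    set n := ‖ker (loc χ (F τ) s) t‖
    calc n * (1 + |t|) ^ K ≤ n * (2 ^ K * (1 + |t| ^ K)) := by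
          gcongr
          exact pow_one_add_le K (abs_nonneg t)
      _ = 2 ^ K * (n + |t| ^ K * n) := by ring
      _ ≤ 2 ^ K * (C0 * (1 + |τ|) ^ A0 * Real.exp (-(N * |s|)) +
            C1 * (1 + |τ|) ^ A1 * Real.exp (-(N * |s|))) := by gcongr
      _ ≤ 2 ^ K * (C0 * (1 + |τ|) ^ (max A0 A1) * Real.exp (-(N * |s|)) +
            C1 * (1 + |τ|) ^ (max A0 A1) * Real.exp (-(N * |s|))) := by
          gcongr 2 ^ K * (C0 * ?_ * _ + C1 * ?_ * _)
          · exact Real.rpow_le_rpow_of_exponent_le (one_le_T τ) (le_max_left _ _)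
          · exact Real.rpow_le_rpow_of_exponent_le (one_le_T τ) (le_max_right _ _)
      _ = _ := by ring
  · rw [inversion_smooth (contDiff_loc h1 (hF.cd τ) s) (hasCompactSupport_loc h2 _ s)]
    rfl

/-! ### weights in `SW` -/

lemma SW.bound {V : ℝ → ℂ} (h : SW V) : ∃ R : ℝ, 0 < R ∧ ∀ y, V y ≠ 0 → 0 < y ∧ |Real.log y| ≤ R := by
  have hs := h.supp
  by_cases hne : (tsupport V).Nonempty
  · obtain ⟨a, ha, hamin⟩ := h.cpt.isCompact.exists_isMinOn hne continuousOn_id
    obtain ⟨b, hb, hbmax⟩ := h.cpt.isCompact.exists_isMaxOn hne continuousOn_id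
    have ha0 : 0 < a := hs ha
    have hb0 : 0 < b := hs hb
    refine ⟨|Real.log a| + |Real.log b| + 1, by positivity, fun y hy => ?_⟩
    have hy' : y ∈ tsupport V := subset_tsupport _ hy
    have h1 : a ≤ y := hamin hy'
    have h2 : y ≤ b := hbmax hy'
    have hy0 : 0 < y := lt_of_lt_of_le ha0 h1
    refine ⟨hy0, abs_le.mpr ⟨?_, ?_⟩⟩
    · have := Real.log_le_log ha0 h1
      have h3 := neg_abs_le (Real.log a)
      have h4 := abs_nonneg (Real.log b)
      linarith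
    · have := Real.log_le_log hy0 h2
      have h3 := le_abs_self (Real.log b)
      have h4 := abs_nonneg (Real.log a)
      linarith
  · refine ⟨1, one_pos, fun y hy => ?_⟩
    exact absurd ⟨y, subset_tsupport _ hy⟩ hne

/-- the weight in logarithmic scale -/
def lg (V : ℝ → ℂ) (u : ℝ) : ℂ := V (Real.exp u)

lemma SW.cd_lg {V : ℝ → ℂ} (h : SW V) : ContDiff ℝ ∞ (lg V) := h.smooth.comp Real.contDiff_exp

lemma SW.cs_lg {V : ℝ → ℂ} (h : SW V) : HasCompactSupport (lg V) := by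
  obtain ⟨R, hR0, hR⟩ := SW.bound h
  refine HasCompactSupport.intro (isCompact_Icc (a := -R) (b := R)) fun u hu => ?_
  by_contra hne
  have h1 := (hR _ hne).2
  rw [Real.log_exp] at h1
  exact hu (abs_le.mp h1)

/-- Mellin representation -/
lemma SW.rep {V : ℝ → ℂ} (h : SW V) {y : ℝ} (hy : 0 < y) :
    ∫ t, ker (lg V) t * osc t (Real.log y) = V y := by
  rw [inversion_smooth (SW.cd_lg h) (SW.cs_lg h)]
  unfold lg
  rw [Real.exp_log hy]

/-- `V₁(y) = y^{-1/2} V(y)` -/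
def hf (V : ℝ → ℂ) (y : ℝ) : ℂ := ((y ^ (-(1 / 2) : ℝ) : ℝ) : ℂ) * V y

lemma SW.hf {V : ℝ → ℂ} (h : SW V) : SW (hf V) where
  smooth := by
    obtain ⟨R, hR0, hR⟩ := SW.bound h
    rw [contDiff_iff_contDiffAt]
    intro y
    rcases lt_or_ge 0 y with hy | hy
    · refine ContDiffAt.mul ?_ h.smooth.contDiffAt
      exact Complex.ofRealCLM.contDiff.contDiffAt.comp y
        (Real.contDiffAt_rpow_const_of_ne hy.ne')
    · have h1 : y ∉ tsupport V := fun hh => absurd (h.supp hh) (not_lt.mpr hy)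
      have h2 : V =ᶠ[nhds y] 0 := notMem_tsupport_iff_eventuallyEq.mp h1
      have h3 : L747.hf V =ᶠ[nhds y] fun _ => 0 := by
        filter_upwards [h2] with z hz
        simp [L747.hf, hz]
      exact contDiffAt_const.congr_of_eventuallyEq h3
  cpt := h.cpt.mul_left
  supp := (tsupport_mul_subset_right).trans h.supp

end Crest.Agent.R017.L747
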