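import Crest.Agent.R017.F1Tw_541
import Crest.Agent.R017.L7A_47
import Crest.Agent.R017.Sup_271
import Crest.Agent.R017.E1b_551
import Crest.Agent.R017.E2c_440

/-!
# Row 17, E4, the FE step (helper266), case R

For `9 ∣ M`, `ψ` a Hecke character mod `M` without pole, the natural cubic series at EVERY frequency
`u ≠ 0`: write `u = f g³ b`, `f ∈ clsF M` (finite), `g ∈ SM M`, `b ∈ Sm M` (`exists_cls`). Then
`fe_cls` gives the functional equation with data depending only on `f`.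
-/

set_option autoImplicit false

noncomputable section

open Complex
open scoped ComplexConjugate ContDiff

namespace Crest.Agent.R017.E4F266

open Crest.Agent.R012 Crest.Agent.R012.Eis
open Crest.Agent.R012.GaussLoc283 (syAx)
open Crest.Agent.R017.Sx545 (Sm)
open Crest.Agent.R017.End699 (HC tw)
open Crest.Agent.R017.B770 (SW RD)
open Crest.Agent.R017.E2440 (NT DS n23)
open Crest.Agent.R017.C590
open Crest.Agent.R017.FE47 (SM)

/-! ### classes -/

open Classical in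
/-- the finite set of classes -/
def clsF (M : Eis) : Finset Eis := (ball (nm (M ^ 2))).filter (fun f => f ∈ SM M)

lemma clsF_sm {M f : Eis} (h : f ∈ clsF M) : f ∈ SM M := by
  classical
  unfold clsF at h
  exact (Finset.mem_filter.mp h).2

lemma cf_dvd {M f : Eis} (hf : f ∈ SM M) (hc : E1551.CF f) : f ∣ M ^ 2 := by
  rw [UniqueFactorizationMonoid.dvd_iff_emultiplicity_le hf.1]
  intro p hp
  by_cases hpf : p ∣ f
  · have h1 : emultiplicity p f < 3 := by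
      have := emultiplicity_lt_iff_not_dvd.mpr (hc.2 p hp)
      exact_mod_cast this
    have h2 : (2 : ℕ) ≤ emultiplicity p (M ^ 2) :=
      le_emultiplicity_of_pow_dvd (pow_dvd_pow_of_dvd (hf.2 p hp hpf) 2)
    have h3 : emultiplicity p f ≤ 2 := Order.le_of_lt_add_one (by
      have e : (2 : ℕ∞) + 1 = 3 := by norm_num
      rw [e]; exact h1)
    exact h3.trans (by exact_mod_cast h2)
  · rw [emultiplicity_eq_zero.mpr hpf]
    exact zero_le

theorem exists_cls {M : Eis} (h3 : (3 : Eis) ∣ M) (hM : M ≠ 0) {u : Eis} (hu : u ≠ 0) :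
    ∃ f ∈ clsF M, ∃ g ∈ SM M, ∃ b, Sm M b ∧ u = f * g ^ 3 * b := by
  classical
  obtain ⟨e, he, b, hb, rfl⟩ := FE47.exists_decomp h3 hu
  obtain ⟨f, g, hfg, hcf, hg⟩ := E1551.exists_cf he.1
  have hf : f ∈ SM M := ⟨hcf.1, fun p hp h => he.2 p hp (hfg ▸ h.mul_right _)⟩
  have hg' : g ∈ SM M := ⟨hg, fun p hp h => he.2 p hp
    (hfg ▸ (h.trans (dvd_pow_self g (by norm_num))).mul_left _)⟩
  refine ⟨f, ?_, g, hg', b, hb, by rw [hfg]⟩
  unfold clsF
  rw [Finset.mem_filter]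
  refine ⟨?_, hf⟩
  rw [mem_ball]
  obtain ⟨c, hc⟩ := cf_dvd hf hcf
  rw [hc, nm_mul]
  have hc0 : c ≠ 0 := by
    rintro rfl
    rw [mul_zero] at hc
    exact hM (pow_eq_zero_iff (by norm_num) |>.mp hc)
  exact Nat.le_mul_of_pos_right _ (nm_pos.mpr hc0)

/-! ### weights -/

/-- `y^{-2/3} V(y)` -/
def v23 (V : ℝ → ℂ) (y : ℝ) : ℂ := ((y ^ (-(2 / 3 : ℝ)) : ℝ) : ℂ) * V y

lemma sw_v23 {V : ℝ → ℂ} (h : SW V) : SW (v23 V) where
  smooth := by
    obtain ⟨R, hR0, hR⟩ := L747.SW.bound h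
    rw [contDiff_iff_contDiffAt]
    intro y
    rcases lt_or_ge 0 y with hy | hy
    · refine ContDiffAt.mul ?_ h.smooth.contDiffAt
      exact Complex.ofRealCLM.contDiff.contDiffAt.comp y
        (Real.contDiffAt_rpow_const_of_ne hy.ne')
    · have h1 : y ∉ tsupport V := fun hh => absurd (h.supp hh) (not_lt.mpr hy)
      have h2 : V =ᶠ[nhds y] 0 := notMem_tsupport_iff_eventuallyEq.mp h1
      have h3 : v23 V =ᶠ[nhds y] fun _ => 0 := by
        filter_upwards [h2] with z hz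
        simp [v23, hz]
      exact contDiffAt_const.congr_of_eventuallyEq h3
  cpt := h.cpt.mul_left
  supp := (tsupport_mul_subset_right).trans h.supp

/-- the weight in `k` -/
def kw (ψ : Eis → ℂ) (l : ℤ) (V : ℝ → ℂ) (τ K : ℝ) (k : Eis) : ℂ :=
  tw ψ l k * (((nm k / K : ℝ) : ℂ) ^ (I * τ) * V (nm k / K))

lemma n23_eq {k : Eis} (hk : k ≠ 0) {K : ℝ} (hK : 0 < K) :
    n23 k = ((K ^ (-(2 / 3 : ℝ)) : ℝ) : ℂ) * (((nm k / K : ℝ) ^ (-(2 / 3 : ℝ)) : ℝ) : ℂ) := by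
  have hk0 : (0 : ℝ) < nm k := by exact_mod_cast nm_pos.mpr hk
  unfold n23
  rw [← Complex.ofReal_mul, ← Real.mul_rpow hK.le (by positivity), mul_div_cancel₀ _ hK.ne']

lemma NT_kw {M : Eis} (u : Eis) (ψ : Eis → ℂ) (l : ℤ) (V : ℝ → ℂ) (τ : ℝ) {K : ℝ} (hK : 0 < K) :
    NT M u (fun k => n23 k * kw ψ l V τ K k) =
      ((K ^ (-(2 / 3 : ℝ)) : ℝ) : ℂ) *
        N3 M (tw ψ l) u (fun y => (y : ℂ) ^ (I * τ) * v23 V y) K := by
  unfold N3
  rw [← NT_smul]
  refine NT_congr (fun k hk => ?_) u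
  rw [n23_eq hk.ne_zero hK]
  unfold kw v23
  ring

/-! ### shift of the frequency -/

lemma sy_cop {M f d : Eis} (hf : f ∈ SM M) (hd : Sm M d) : IsCoprime f d :=
  (SM.coprime hf hd.2).symm

lemma gs_cls {M f g b d : Eis} (hf : f ∈ SM M) (hg : g ∈ SM M) (hd : Sm M d) :
    conj (gs (f * g ^ 3 * b) d) = sy f d * conj (gs b d) := by
  have h1 : IsCoprime (f * g ^ 3) d :=
    (sy_cop hf hd).mul_left (sy_cop hg hd).pow_left
  rw [show f * g ^ 3 * b = b * (f * g ^ 3) by ring,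
    Gauss880.gs_mul_of_coprime Gauss880.syG hd.1 b h1, map_mul, Complex.conj_conj,
    syAx.mul_left _ _ _ hd.1, show g ^ 3 = g * (g * g) by ring, syAx.mul_left _ _ _ hd.1,
    syAx.mul_left _ _ _ hd.1]
  have := syAx.cube g d hd.1 (sy_cop hg hd)
  rw [show sy g d * (sy g d * sy g d) = sy g d ^ 3 by ring, this, mul_one]

lemma sy_cube_right {M f d e : Eis} (hf : f ∈ SM M) (hd : Sm M d) (he : Sm M e) :
    sy f (d * e ^ 3) = sy f d := by
  rw [syAx.mul_right f d (e ^ 3) hd.1 (he.1.pow 3), syAx.pow_right f he.1 3,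
    syAx.cube f e he.1 (sy_cop hf he), mul_one]

lemma NT_cls {M f g b : Eis} (hf : f ∈ SM M) (hg : g ∈ SM M) (φ : Eis → ℂ) :
    NT M (f * g ^ 3 * b) φ = NT M b (fun k => sy f k * φ k) := by
  classical
  unfold NT
  refine tsum_congr fun e => ?_
  split_ifs with he
  · congr 1
    unfold DS
    refine tsum_congr fun d => ?_
    split_ifs with hd
    · beta_reduce
      rw [gs_cls hf hg hd, sy_cube_right hf hd he]
      ring
    · rfl
  · rfl

lemma sm_cls {M f : Eis} (h9 : (9 : Eis) ∣ M) (hf : f ∈ SM M) :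
    Sm (M * (9 * f)) = Sm M := by
  funext d
  apply propext
  constructor
  · intro h
    exact ⟨h.1, h.2.of_mul_right_left⟩
  · intro h
    refine ⟨h.1, h.2.mul_right (IsCoprime.mul_right ?_ (SM.coprime hf h.2))⟩
    exact h.2.of_isCoprime_of_dvd_right h9

lemma NT_mod {M M' : Eis} (h : Sm M' = Sm M) (u : Eis) (φ : Eis → ℂ) : NT M' u φ = NT M u φ := by
  unfold NT DS
  rw [h]

lemma DS_mod {M M' : Eis} (h : Sm M' = Sm M) (u : Eis) (φ : Eis → ℂ) : DS M' u φ = DS M u φ := by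
  unfold DS
  rw [h]

lemma noPole_cls {M f : Eis} {ψ : Eis → ℂ} {l : ℤ} (h9 : (9 : Eis) ∣ M) (hf : f ∈ SM M)
    (h : NoPole M ψ l) : NoPole (M * (9 * f)) (fun b => ψ b * sy f b) l := by
  rcases h with h | ⟨b, hb, hb3⟩
  · exact Or.inl h
  · refine Or.inr ⟨b, by rw [sm_cls h9 hf]; exact hb, ?_⟩
    rw [mul_pow, syAx.cube f b hb.1 (sy_cop hf hb), mul_one]
    exact hb3

/-- **the FE step, case R**, at the frequencies `f g³ b`, `f` a fixed class -/
theorem fe_cls {M : Eis} (h9 : (9 : Eis) ∣ M) {ψ : Eis → ℂ} (hψ : HC M ψ) {l : ℤ}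
    (hl : NoPole M ψ l) {f : Eis} (hf : f ∈ SM M) :
    ∃ (ι : Type) (_ : Fintype ι) (D : Dt3 ι), D.OK (M * (9 * f)) ∧
      ∀ V : ℝ → ℂ, SW V → ∃ W : ι → ℝ → ℝ → ℂ, (∀ i, RD (W i)) ∧
        ∀ g ∈ SM M, ∀ b, Sm M b → ∀ K : ℝ, 0 < K → ∀ τ : ℝ,
          NT M (f * g ^ 3 * b) (fun k => n23 k * kw ψ l V τ K k) =
            ((K ^ (1 / 3 : ℝ) : ℝ) : ℂ) * ∑ i, D.κ i * tw (D.η i) D.j b *
              DS M b (fun d => tw (D.ψ' i) D.l' d * (nm d : ℂ)⁻¹ *
                W i τ (nm d / (D.ρ i * nm b / K))) := by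
  have hM9 : (9 : Eis) ∣ M * (9 * f) := h9.mul_right _
  have hHC : HC (M * (9 * f)) (fun b => ψ b * sy f b) := Sup271.HC.mul_sy hψ hf.1
  obtain ⟨ι, hι, D, hD, hFE⟩ := Tw3.f1tw hM9 hHC (noPole_cls h9 hf hl)
  have hS := sm_cls h9 hf
  refine ⟨ι, hι, D, hD, fun V hV => ?_⟩
  obtain ⟨W, hW, hE⟩ := hFE (v23 V) (sw_v23 hV)
  refine ⟨W, hW, fun g hg b hb K hK τ => ?_⟩
  have e1 : (fun k => sy f k * (n23 k * kw ψ l V τ K k)) =
      fun k => n23 k * kw (fun b => ψ b * sy f b) l V τ K k := by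
    funext k
    unfold kw tw
    ring
  have hb' : Sm (M * (9 * f)) b := by rw [hS]; exact hb
  rw [NT_cls hf hg, e1, NT_kw b _ l V τ hK]
  have h1 := hE b hb' K hK τ
  have h2 : N3 M (tw (fun b => ψ b * sy f b) l) b (fun y => (y : ℂ) ^ (I * τ) * v23 V y) K =
      N3 (M * (9 * f)) (tw (fun b => ψ b * sy f b) l) b
        (fun y => (y : ℂ) ^ (I * τ) * v23 V y) K := by
    unfold N3
    rw [NT_mod hS]
  rw [h2, h1, ← mul_assoc]
  congr 1
  · have h3 : K ^ (1 / 3 : ℝ) = K ^ (-(2 / 3 : ℝ)) * K := by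
      rw [← Real.rpow_add_one hK.ne']
      norm_num
    rw [h3]
    push_cast
    ring
  · refine Finset.sum_congr rfl fun i _ => ?_
    congr 1
    unfold D3
    rw [DS_mod hS]

end Crest.Agent.R017.E4F266
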