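import Crest.Agent.R017.E4v6_47
import Crest.Agent.R017.E4Bf_783

/-!
# Row 17, C70/E4, joint form (helper47): the family at fixed data

* `fam_le` : the block of the family is at most the block of `HPd` / `HP5`
* `fam_hpd`, `fam_hp5` : the hypothesis of `LBp` / `LBd` for the family
* `fam_dat` : `Dat4` for the family
-/

set_option autoImplicit false
set_option linter.unusedVariables false
set_option linter.unusedSectionVars false

noncomputable section

open Complex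
open scoped ComplexConjugate

namespace Crest.Agent.R017.E4v5

open Crest.Agent.R012 Crest.Agent.R012.Eis Crest.Agent.R012.Mob705 Crest.Agent.R012.Gauss880
open Crest.Agent.R012.GaussLoc283 (syAx)
open Crest.Agent.R012.Div277
open Crest.Agent.R017.Sx545 Crest.Agent.R017.CM106 Crest.Agent.R017.C70 Crest.Agent.R017.C590
open Crest.Agent.R017.End699 Crest.Agent.R017.B770 Crest.Agent.R017.Sx440
open Crest.Agent.R017.E2440 Crest.Agent.R017.E4352
open Crest.Agent.R017.E4o502 (vD wD GoodD GB)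

/-! ### composition of the shortenings -/

open Classical in
lemma comp_tws {b R' B R D0 d d1 : Eis} {g c : Eis → ℂ} (hD0 : IsPrim D0) (hd : IsPrim d) :
    ∃ u : ℂ, ‖u‖ ≤ 1 ∧ (¬ IsCoprime R' B → u = 0) ∧ ∀ x,
      tws R' b g (tws R B (fun _ => 1) (tws d1 (D0 * d) (fun x => conj (sy x (D0 * d))) c)) x =
      u * tws (R * R') (b * B * D0) (fun x => g x * conj (sy x D0))
        (tws d1 d (fun x => conj (sy x d)) c) x := by
  by_cases h : IsCoprime R' B ∧ IsCoprime (R * R') D0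
  · refine ⟨conj (sy (R * R') D0), ?_, fun h' => absurd h.1 h', fun x => ?_⟩
    · rw [RCLike.norm_conj]; exact norm_sy_le Gauss880.syG hD0
    have h1 : IsCoprime x (b * B * D0) ↔ (IsCoprime x b ∧ IsCoprime x B) ∧ IsCoprime x D0 := by
      rw [IsCoprime.mul_right_iff, IsCoprime.mul_right_iff]
    have h2 : IsCoprime (R' * x) B ↔ IsCoprime x B :=
      ⟨fun h' => h'.of_mul_left_right, fun h' => h.1.mul_left h'⟩
    have e0 : R * (R' * x) = R * R' * x := by ring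
    have h3 : IsCoprime (R * R' * x) (D0 * d) ↔ IsCoprime x D0 ∧ IsCoprime (R * R' * x) d := by
      rw [IsCoprime.mul_right_iff]
      exact ⟨fun h' => ⟨h'.1.of_mul_left_right, h'.2⟩, fun h' => ⟨h.2.mul_left h'.1, h'.2⟩⟩
    have e1 : sy (R * R' * x) (D0 * d) = sy (R * R') D0 * sy x D0 * sy (R * R' * x) d := by
      rw [syAx.mul_right _ _ _ hD0 hd, syAx.mul_left (R * R') x D0 hD0]
    unfold E4352.tws
    beta_reduce
    rw [h2, e0, h3, h1, e1]
    by_cases c1 : IsCoprime x b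
    · by_cases c2 : IsCoprime x B
      · by_cases c3 : IsCoprime x D0
        · by_cases c4 : IsCoprime (R * R' * x) d
          · simp only [c1, c2, c3, c4, and_self, if_true, map_mul]
            ring
          · simp [c1, c2, c3, c4]
        · simp [c1, c2, c3]
      · simp [c1, c2]
    · simp [c1]
  · refine ⟨0, by simp, fun _ => rfl, fun x => ?_⟩
    rw [zero_mul]
    unfold E4352.tws
    by_cases c1 : IsCoprime x b
    · by_cases c2 : IsCoprime (R' * x) B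
      · by_cases c3 : IsCoprime (R * (R' * x)) (D0 * d)
        · exfalso
          apply h
          refine ⟨c2.of_mul_left_left, ?_⟩
          have : IsCoprime (R * R' * x) (D0 * d) := by rwa [mul_assoc]
          exact this.of_mul_left_left.of_mul_right_left
        · simp [c3]
      · simp [c2]
    · simp [c1]

open Classical in
/-- the terms vanish when `d` is not coprime to `R'` -/
lemma tws_zero {b R' B R D0 d d1 : Eis} {g c : Eis → ℂ} (h : ¬ IsCoprime R' d) (x : Eis) :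
    tws R' b g (tws R B (fun _ => 1) (tws d1 (D0 * d) (fun x => conj (sy x (D0 * d))) c)) x = 0 := by
  unfold E4352.tws
  by_cases c3 : IsCoprime (R * (R' * x)) (D0 * d)
  · exfalso
    apply h
    exact (c3.of_mul_right_right).of_mul_left_right.of_mul_left_left
  · simp [c3]

lemma Sd_const {u : ℂ} {c c' : Eis → ℂ} (h : ∀ x, c x = u * c' x) (k : Eis) :
    Sd c k = u * Sd c' k := by
  unfold Sd
  rw [← tsum_mul_left]
  exact tsum_congr fun x => by rw [h]; ring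

lemma CS_const {u : ℂ} {c c' : Eis → ℂ} (h : ∀ x, c x = u * c' x) (k : Eis) :
    CS c k = u * CS c' k := by
  unfold CS
  rw [← tsum_mul_left]
  exact tsum_congr fun x => by rw [h]; ring

section fam

variable {M f : Eis} {O : Type} [Fintype O] {lam : O → ℝ} {v w : O → Eis → ℂ}

/-- the `x`-side of the family at fixed data -/
def vG (D0 B R : Eis) (v : O → Eis → ℂ) {𝒟 : Finset Eis} (i : O × {d : Eis // d ∈ 𝒟}) :
    Eis → ℂ :=
  tws R B (fun _ => 1) (vD (D0 * i.2.1) (v i.1))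

/-- the `y`-side of the family at fixed data -/
def wG (D0 B Z : Eis) (w : O → Eis → ℂ) {𝒟 : Finset Eis} (i : O × {d : Eis // d ∈ 𝒟}) :
    Eis → ℂ :=
  tws Z B (fun _ => 1) (wD (D0 * i.2.1) i.2.1 (w i.1))

open Classical in
/-- `PBo` over `O × 𝒟` as a double sum -/
lemma PBo_fam {a : ℝ} {𝒟 : Finset Eis} {q R Z : Eis} {g : Eis → ℂ} {κ : ℝ}
    (V W : O → Eis → Eis → ℂ) :
    PBo M (lamD (𝒟 := 𝒟) a lam) q R Z g (fun i => V i.1 i.2.1) (fun i => W i.1 i.2.1) κ =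
      ∑ o, ∑ d ∈ 𝒟, (lam o * (nm d / a) ^ 2) ^ (-(1 / 2) : ℝ) *
        PB M q R Z g (V o d) (W o d) (κ / (lam o * (nm d / a) ^ 2)) := by
  unfold PBo lamD
  rw [Fintype.sum_prod_type]
  refine Finset.sum_congr rfl fun o _ => ?_
  rw [← Finset.sum_coe_sort 𝒟]

/-- one block -/
lemma PB_le_fam {b R' Z' B R Z D0 d : Eis} {g : Eis → ℂ} (hD0 : IsPrim D0) (hd : IsPrim d)
    (v w : Eis → ℂ) (κ : ℝ) :
    PB M b R' Z' g (tws R B (fun _ => 1) (vD (D0 * d) v))
        (tws Z B (fun _ => 1) (wD (D0 * d) d w)) κ ≤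
      PB M (b * B * D0) (R * R') (Z * Z') (fun y => g y * conj (sy y D0)) (vD d v) (wD d d w) κ := by
  classical
  obtain ⟨u1, hu1, -, h1⟩ := comp_tws (b := b) (R' := R') (B := B) (R := R) (d1 := 1) (g := g)
    (c := v) hD0 hd
  obtain ⟨u2, hu2, -, h2⟩ := comp_tws (b := b) (R' := Z') (B := B) (R := Z) (d1 := d) (g := g)
    (c := w) hD0 hd
  unfold PB
  refine Finset.sum_le_sum fun k _ => ?_
  have e1 := Sd_const h1 k
  have e2 := CS_const h2 k
  unfold vD wD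
  rw [e1, e2, norm_mul, norm_mul]
  have n1 := norm_nonneg (Sd (tws (R * R') (b * B * D0) (fun x => g x * conj (sy x D0))
    (tws 1 d (fun x => conj (sy x d)) v)) k)
  have n2 := norm_nonneg (CS (tws (Z * Z') (b * B * D0) (fun x => g x * conj (sy x D0))
    (tws d d (fun x => conj (sy x d)) w)) k)
  gcongr
  · exact mul_le_of_le_one_left n1 hu1
  · exact mul_le_of_le_one_left n2 hu2

lemma PB_nonneg {q R Z : Eis} {g v w : Eis → ℂ} {κ : ℝ} : 0 ≤ PB M q R Z g v w κ := by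
  classical
  unfold PB
  exact Finset.sum_nonneg fun k _ => by positivity

/-- the block vanishes if one side does -/
lemma PB_zero_v {b R' Z' : Eis} {g v w : Eis → ℂ} (h : ∀ x, tws R' b g v x = 0) (κ : ℝ) :
    PB M b R' Z' g v w κ = 0 := by
  classical
  unfold PB
  refine Finset.sum_eq_zero fun k _ => ?_
  have : Sd (tws R' b g v) k = 0 := by
    rw [Sd_const (u := 0) (c' := fun _ => 0) (fun x => by rw [h, zero_mul]) k, zero_mul]
  rw [this, norm_zero, mul_zero, zero_mul]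

lemma PB_zero_w {b R' Z' : Eis} {g v w : Eis → ℂ} (h : ∀ x, tws Z' b g w x = 0) (κ : ℝ) :
    PB M b R' Z' g v w κ = 0 := by
  classical
  unfold PB
  refine Finset.sum_eq_zero fun k _ => ?_
  have : CS (tws Z' b g w) k = 0 := by
    rw [CS_const (u := 0) (c' := fun _ => 0) (fun x => by rw [h, zero_mul]) k, zero_mul]
  rw [this, norm_zero, mul_zero]

open Classical in
/-- **the block of the family** -/
theorem fam_le {b R' Z' B R Z D0 f'' : Eis} {g : Eis → ℂ} {a κ : ℝ} {𝒟 : Finset Eis}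
    (hlam : ∀ o, 0 ≤ lam o) (hD0 : IsPrim D0) (hd : ∀ d ∈ 𝒟, IsPrim d ∧ IsCoprime d f'')
    (hbf : ∀ p : Eis, Prime p → p ∣ b → p ∣ f'' * R' * Z') (hb : IsPrim b) :
    PBo M (lamD (𝒟 := 𝒟) a lam) b R' Z' g (vG D0 B R v) (wG D0 B Z w) κ ≤
      PBo M (lamD (𝒟 := 𝒟.filter (fun d => IsCoprime d b)) a lam) (b * B * D0) (R * R') (Z * Z')
        (fun y => g y * conj (sy y D0)) (vF v) (wF w) κ := by
  have e1 := PBo_fam (M := M) (lam := lam) (a := a) (𝒟 := 𝒟) (q := b) (R := R') (Z := Z') (g := g)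
    (κ := κ) (fun o d => tws R B (fun _ => 1) (vD (D0 * d) (v o)))
    (fun o d => tws Z B (fun _ => 1) (wD (D0 * d) d (w o)))
  have e2 := PBo_fam (M := M) (lam := lam) (a := a) (𝒟 := 𝒟.filter (fun d => IsCoprime d b))
    (q := b * B * D0) (R := R * R') (Z := Z * Z') (g := fun y => g y * conj (sy y D0))
    (κ := κ) (fun o d => vD d (v o)) (fun o d => wD d d (w o))
  unfold vG wG vF wF
  rw [e1, e2]
  refine Finset.sum_le_sum fun o _ => ?_
  rw [← Finset.sum_filter_add_sum_filter_not 𝒟 (fun d => IsCoprime d b)]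
  have hz : ∑ d ∈ 𝒟 with ¬ IsCoprime d b, (lam o * (nm d / a) ^ 2) ^ (-(1 / 2) : ℝ) *
      PB M b R' Z' g (tws R B (fun _ => 1) (vD (D0 * d) (v o)))
        (tws Z B (fun _ => 1) (wD (D0 * d) d (w o))) (κ / (lam o * (nm d / a) ^ 2)) = 0 := by
    refine Finset.sum_eq_zero fun d hdm => ?_
    rw [Finset.mem_filter] at hdm
    obtain ⟨hdp, hdf⟩ := hd d hdm.1
    -- a common prime
    have hex : ∃ p : Eis, Prime p ∧ p ∣ d ∧ p ∣ b := by
      by_contra hcon
      push Not at hcon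
      exact hdm.2 ((cop_iff_primes hdp).mpr hcon)
    obtain ⟨p, hp, hpd, hpb⟩ := hex
    have hpf : ¬ p ∣ f'' := fun h => hp.not_isUnit (hdf.isUnit_of_dvd' hpd h)
    have hcase : p ∣ R' ∨ p ∣ Z' := by
      rcases hp.dvd_or_dvd (hbf p hp hpb) with h | h
      · rcases hp.dvd_or_dvd h with h | h
        · exact absurd h hpf
        · exact Or.inl h
      · exact Or.inr h
    rcases hcase with h | h
    · have hR : ¬ IsCoprime R' d := fun hc => hp.not_isUnit (hc.isUnit_of_dvd' h hpd)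
      have hz : ∀ x, tws R' b g (tws R B (fun _ => 1) (vD (D0 * d) (v o))) x = 0 :=
        fun x => tws_zero (d1 := 1) hR x
      rw [PB_zero_v hz, mul_zero]
    · have hR : ¬ IsCoprime Z' d := fun hc => hp.not_isUnit (hc.isUnit_of_dvd' h hpd)
      have hz : ∀ x, tws Z' b g (tws Z B (fun _ => 1) (wD (D0 * d) d (w o))) x = 0 :=
        fun x => tws_zero (d1 := d) hR x
      rw [PB_zero_w hz, mul_zero]
  rw [hz, add_zero]
  refine Finset.sum_le_sum fun d hdm => ?_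
  rw [Finset.mem_filter] at hdm
  have hl : 0 ≤ lam o * (nm d / a) ^ 2 := mul_nonneg (hlam o) (by positivity)
  exact mul_le_mul_of_nonneg_left (PB_le_fam hD0 (hd d hdm.1).1 _ _ _)
    (Real.rpow_nonneg hl _)

open Classical in
/-- the family block vanishes when `Z'` is not coprime to `B` -/
theorem fam_zero {b R' Z' B R Z D0 : Eis} {g : Eis → ℂ} {a κ : ℝ} {𝒟 : Finset Eis}
    (hD0 : IsPrim D0) (hd : ∀ d ∈ 𝒟, IsPrim d) (h : ¬ IsCoprime Z' B) :
    PBo M (lamD (𝒟 := 𝒟) a lam) b R' Z' g (vG D0 B R v) (wG D0 B Z w) κ = 0 := by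
  have e1 := PBo_fam (M := M) (lam := lam) (a := a) (𝒟 := 𝒟) (q := b) (R := R') (Z := Z') (g := g)
    (κ := κ) (fun o d => tws R B (fun _ => 1) (vD (D0 * d) (v o)))
    (fun o d => tws Z B (fun _ => 1) (wD (D0 * d) d (w o)))
  unfold vG wG
  rw [e1]
  refine Finset.sum_eq_zero fun o _ => Finset.sum_eq_zero fun d hdm => ?_
  obtain ⟨u2, -, h0, h2⟩ := comp_tws (b := b) (R' := Z') (B := B) (R := Z) (d1 := d) (g := g)
    (c := w o) hD0 (hd d hdm)
  have hz : ∀ x, tws Z' b g (tws Z B (fun _ => 1) (wD (D0 * d) d (w o))) x = 0 := by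
    intro x
    have := h2 x
    rw [h0 h, zero_mul] at this
    exact this
  rw [PB_zero_w hz, mul_zero]

end fam

/-! ### fixed data -/

/-- admissible sets of `D1` at fixed data -/
structure DOk (M f D0 B : Eis) (a X : ℝ) (𝒟 : Finset Eis) : Prop where
  sq : ∀ d ∈ 𝒟, Squarefree d
  sm : ∀ d ∈ 𝒟, Sm M d
  cf : ∀ d ∈ 𝒟, IsCoprime d f
  cB : ∀ d ∈ 𝒟, IsCoprime d B
  cD : ∀ d ∈ 𝒟, IsCoprime d D0
  lo : ∀ d ∈ 𝒟, a ≤ nm d
  hi : ∀ d ∈ 𝒟, (nm d : ℝ) ≤ 2 * a
  le : ∀ d ∈ 𝒟, nm d ≤ ⌊X⌋₊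

lemma DJ_ok (M f D0 B : Eis) (X : ℝ) (j : ℕ) (hD0 : IsPrim D0) :
    DOk M f D0 B (2 ^ j) X (DJ M f D0 B ⌊X⌋₊ j) := by
  classical
  have hmem : ∀ d ∈ DJ M f D0 B ⌊X⌋₊ j, ((nm d ≤ ⌊X⌋₊ ∧ IsPrim d) ∧
      (GoodD M f D0 d ∧ IsCoprime B (D0 * d)) ∧ (2 : ℝ) ^ j ≤ nm d ∧ (nm d : ℝ) < 2 ^ (j + 1)) := by
    intro d hd
    unfold DJ at hd
    rw [Finset.mem_filter, mem_primBall] at hd
    exact hd
  refine ⟨?_, ?_, ?_, ?_, ?_, ?_, ?_, ?_⟩
  · intro d hd
    obtain ⟨⟨h1, h2⟩, ⟨⟨g1, g2, g3, g4, g5⟩, h3⟩, h4, h5⟩ := hmem d hd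
    exact g2.squarefree_of_dvd (dvd_mul_left _ _)
  · intro d hd
    obtain ⟨⟨h1, h2⟩, ⟨⟨g1, g2, g3, g4, g5⟩, h3⟩, h4, h5⟩ := hmem d hd
    exact g3.of_dvd h2 (dvd_mul_left _ _)
  · intro d hd
    obtain ⟨⟨h1, h2⟩, ⟨⟨g1, g2, g3, g4, g5⟩, h3⟩, h4, h5⟩ := hmem d hd
    exact g4
  · intro d hd
    obtain ⟨⟨h1, h2⟩, ⟨⟨g1, g2, g3, g4, g5⟩, h3⟩, h4, h5⟩ := hmem d hd
    exact h3.of_mul_right_right.symm
  · intro d hd
    obtain ⟨⟨h1, h2⟩, ⟨⟨g1, g2, g3, g4, g5⟩, h3⟩, h4, h5⟩ := hmem d hd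
    refine (cop_iff_primes h2).mpr fun p hp hpd hpD => ?_
    have h6 : p * p ∣ D0 * d := mul_dvd_mul hpD hpd
    exact hp.not_isUnit (g2 p h6)
  · intro d hd
    exact (hmem d hd).2.2.1
  · intro d hd
    have := (hmem d hd).2.2.2
    rw [pow_succ] at this
    linarith
  · intro d hd
    exact (hmem d hd).1.1

lemma sm_of_prI {M B R : Eis} (hB : Sm M B) (h : PrI B R) : Sm M R := by
  refine ⟨h.1, ?_⟩
  refine (cop_iff_primes h.1).mpr fun p hp hpR hpM => ?_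
  exact hp.not_isUnit (hB.2.isUnit_of_dvd' (h.2 p hp hpR) hpM)

section

variable {M f : Eis} {O : Type} [Fintype O] {lam : O → ℝ} {v w : O → Eis → ℂ}
variable {Bd : ℝ → ℝ → ℝ → ℝ} {D0 B R Z : Eis} {a X : ℝ} {𝒟 : Finset Eis}

/-- `f''` -/
lemma ff_spec (hB : IsPrim B) (G : GB' M (f / D0) D0 B R Z) :
    (f / D0 * R * Z / B ^ 3) * B ^ 3 = f / D0 * R * Z := by
  obtain ⟨c, hc⟩ := G.2.2.2.2.2.1
  have h3 : B ^ 3 ≠ 0 := pow_ne_zero 3 hB.ne_zero
  rw [NT47.div_eq' h3 hc, hc]; ring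

lemma div_spec (hD0 : IsPrim D0) (h : D0 ∣ f) : D0 * (f / D0) = f := by
  obtain ⟨c, rfl⟩ := h
  rw [NT47.div_eq' hD0.ne_zero rfl]

lemma sm_fdiv (hf : Sm M f) (hD0 : IsPrim D0) (h : D0 ∣ f) : Sm M (f / D0) := by
  have e := div_spec hD0 h
  have : Sm M (D0 * (f / D0)) := by rw [e]; exact hf
  exact this.of_mul_left hD0

lemma sm_ff (hf : Sm M f) (hD0 : IsPrim D0) (h : D0 ∣ f) (G : GB' M (f / D0) D0 B R Z) :
    Sm M (f / D0 * R * Z / B ^ 3) := by
  have hB := G.2.1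
  have e := ff_spec hB.prim G
  have h1 : Sm M (f / D0 * R * Z) :=
    ((sm_fdiv hf hD0 h).mul (sm_of_prI hB G.2.2.2.1)).mul (sm_of_prI hB G.2.2.2.2.1)
  have h2 : Sm M (B ^ 3 * (f / D0 * R * Z / B ^ 3)) := by rw [mul_comm, e]; exact h1
  exact h2.of_mul_left (hB.prim.pow 3)

/-- `d` is coprime to `f''` -/
lemma cop_ff (hD : DOk M f D0 B a X 𝒟) (hD0 : IsPrim D0) (h : D0 ∣ f)
    (G : GB' M (f / D0) D0 B R Z) {d : Eis} (hd : d ∈ 𝒟) :
    IsCoprime d (f / D0 * R * Z / B ^ 3) := by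
  have hB := G.2.1
  have e := ff_spec hB.prim G
  have hR : IsCoprime d R := by
    refine (cop_iff_primes (hD.sm d hd).prim).mpr fun p hp hpd hpR => ?_
    exact hp.not_isUnit ((hD.cB d hd).isUnit_of_dvd' hpd (G.2.2.2.1.2 p hp hpR))
  have hZ : IsCoprime d Z := by
    refine (cop_iff_primes (hD.sm d hd).prim).mpr fun p hp hpd hpZ => ?_
    exact hp.not_isUnit ((hD.cB d hd).isUnit_of_dvd' hpd (G.2.2.2.2.1.2 p hp hpZ))
  have hfd : IsCoprime d (f / D0) := by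
    have e2 := div_spec hD0 h
    have h1 := hD.cf d hd
    rw [← e2] at h1
    exact h1.of_mul_right_right
  have h1 : IsCoprime d ((f / D0 * R * Z / B ^ 3) * B ^ 3) := by
    rw [e]; exact (hfd.mul_right hR).mul_right hZ
  exact h1.of_mul_right_left

lemma twC_mul {M' : Eis} {J : ℤ} {b : Eis} {ξ : ℝ} {g : Eis → ℂ} (hD0 : IsPrim D0)
    (h : TwC M' J b ξ g) : TwC M' J (b * B * D0) ξ (fun y => g y * conj (sy y D0)) := by
  obtain ⟨q₁, q₂, η, j, h1, h2, hp, hη, hj, hg⟩ := h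
  refine ⟨q₁, q₂ * D0, η, j, h1, h2.mul hD0, ?_, hη, hj, fun y => ?_⟩
  · intro p hp' hpd
    have : p ∣ (q₁ * q₂) * D0 := by rwa [← mul_assoc] at hpd
    rcases hp'.dvd_or_dvd this with h3 | h3
    · exact ((hp p hp' h3).mul_right B).mul_right D0
    · exact h3.mul_left _
  · beta_reduce
    rw [hg, syAx.mul_right y q₂ D0 h2 hD0, map_mul]
    ring

/-- side conditions of the block at `(b B D0, R R', Z Z')` -/
lemma side (hf : Sm M f) (hD0 : IsPrim D0) (hD0f : D0 ∣ f) (G : GB' M (f / D0) D0 B R Z)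
    {b R' Z' : Eis} (hb : Sm M b) (hR' : PrI b R') (hZ' : PrI b Z')
    (hbf : ∀ p : Eis, Prime p → p ∣ b → p ∣ (f / D0 * R * Z / B ^ 3) * R' * Z') :
    Sm M (b * B * D0) ∧ PrI (b * B * D0) (R * R') ∧ PrI (b * B * D0) (Z * Z') ∧
      ∀ p : Eis, Prime p → p ∣ b * B * D0 → p ∣ f * (R * R') * (Z * Z') := by
  have hB := G.2.1
  have hR := G.2.2.2.1
  have hZ := G.2.2.2.2.1
  have e := ff_spec hB.prim G
  have e2 := div_spec hD0 hD0f
  have hfdf : f / D0 ∣ f := ⟨D0, by rw [mul_comm]; exact e2.symm⟩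
  have hD0S : Sm M D0 := hf.of_dvd hD0 hD0f
  refine ⟨(hb.mul hB).mul hD0S, ⟨hR.1.mul hR'.1, fun p hp hpd => ?_⟩,
    ⟨hZ.1.mul hZ'.1, fun p hp hpd => ?_⟩, fun p hp hpd => ?_⟩
  · rcases hp.dvd_or_dvd hpd with h | h
    · exact ((hR.2 p hp h).mul_left b).mul_right D0
    · exact ((hR'.2 p hp h).mul_right B).mul_right D0
  · rcases hp.dvd_or_dvd hpd with h | h
    · exact ((hZ.2 p hp h).mul_left b).mul_right D0
    · exact ((hZ'.2 p hp h).mul_right B).mul_right D0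
  · rcases hp.dvd_or_dvd hpd with h | h
    · rcases hp.dvd_or_dvd h with h | h
      · -- `p ∣ b`
        have h1 := hbf p hp h
        have h2 : (f / D0 * R * Z / B ^ 3) * R' * Z' ∣ (f / D0 * R * Z) * R' * Z' := by
          have h5 : (f / D0 * R * Z / B ^ 3) ∣ f / D0 * R * Z := ⟨B ^ 3, e.symm⟩
          exact mul_dvd_mul_right (mul_dvd_mul_right h5 _) _
        refine (h1.trans h2).trans ?_
        have h3 : (f / D0 * R * Z) * R' * Z' = (f / D0) * (R * R' * (Z * Z')) := by ring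
        have h4 : f * (R * R') * (Z * Z') = f * (R * R' * (Z * Z')) := by ring
        rw [h3, h4]
        exact mul_dvd_mul_right hfdf _
      · -- `p ∣ B`
        have h1 := G.2.2.2.2.2.2 p hp h
        refine h1.trans ?_
        have h3 : f * (R * R') * (Z * Z') = (f * Z) * (R * R' * Z') := by ring
        rw [h3]
        exact (mul_dvd_mul_right hfdf Z).mul_right _
    · exact ((h.trans hD0f).mul_right _).mul_right _

lemma rd_ZZ (G : GB' M (f / D0) D0 B R Z) {Z' : Eis} (hZ' : IsPrim Z') (h : IsCoprime Z' B) :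
    (nm (rd (Z * Z')) : ℝ) = nm (rd Z) * nm (rd Z') := by
  have hZ := G.2.2.2.2.1
  refine nm_rd_mul hZ.1.ne_zero hZ'.ne_zero ?_
  refine (cop_iff_primes hZ.1).mpr fun p hp hpZ hpZ' => ?_
  exact hp.not_isUnit (h.isUnit_of_dvd' hpZ' (hZ.2 p hp hpZ))

lemma dset_filter (hD : DOk M f D0 B a X 𝒟) {b : Eis} [DecidablePred fun d => IsCoprime d b] :
    DSet M (b * B * D0) f a (𝒟.filter (fun d => IsCoprime d b)) := by
  intro d hd
  rw [Finset.mem_filter] at hd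
  exact ⟨hD.sq d hd.1, hD.sm d hd.1, (hd.2.mul_right (hD.cB d hd.1)).mul_right (hD.cD d hd.1),
    hD.cf d hd.1, hD.lo d hd.1, hD.hi d hd.1⟩

/-- **the hypothesis of `LBp` for the family** -/
theorem fam_hpd (hHP : HPd M f lam v w Bd) (hBd : BdC5 Bd) (hlam : ∀ o, 0 ≤ lam o)
    (hf : Sm M f) (hD0 : IsPrim D0) (hD0f : D0 ∣ f) (G : GB' M (f / D0) D0 B R Z)
    (hD : DOk M f D0 B a X 𝒟) (ha : 1 ≤ a) (b R' Z' : Eis) (κ : ℝ) (hb : Sm M b)
    (hR' : PrI b R') (hZ' : PrI b Z')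
    (hbf : ∀ p : Eis, Prime p → p ∣ b → p ∣ (f / D0 * R * Z / B ^ 3) * R' * Z') (hκ : 0 < κ) :
    PBo M (lamD (𝒟 := 𝒟) a lam) b R' Z' (fun y => sy y b) (vG D0 B R v) (wG D0 B Z w) κ ≤
      Bd κ a (nm (rd Z) * nm (rd Z')) := by
  classical
  by_cases hZB : IsCoprime Z' B
  · obtain ⟨s1, s2, s3, s4⟩ := side hf hD0 hD0f G hb hR' hZ' hbf
    have h1 := fam_le (M := M) (lam := lam) (v := v) (w := w) (R' := R') (Z' := Z') (B := B)
      (R := R) (Z := Z) (g := fun y => sy y b) (a := a) (κ := κ) hlam hD0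
      (fun d hd => ⟨(hD.sm d hd).prim, cop_ff hD hD0 hD0f G hd⟩) hbf hb.prim
    have h2 := hHP (b * B * D0) (R * R') (Z * Z') b D0 κ a
      (𝒟.filter (fun d => IsCoprime d b)) s1 s2 s3
      ⟨hb.prim, fun p hp h => (h.mul_right B).mul_right D0⟩
      ⟨hD0, fun p hp h => h.mul_left _⟩ s4 hκ ha (dset_filter hD)
    rw [rd_ZZ G hZ'.1 hZB] at h2
    exact h1.trans h2
  · rw [fam_zero hD0 (fun d hd => (hD.sm d hd).prim) hZB]
    exact (hBd a).nn _ _

/-- **the hypothesis of `LBd` for the family** -/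
theorem fam_hp5 {M' : Eis} {J : ℤ} {A : ℝ} (hHP : HP5 M f M' J A lam v w Bd) (hBd : BdC5 Bd)
    (hlam : ∀ o, 0 ≤ lam o)
    (hf : Sm M f) (hD0 : IsPrim D0) (hD0f : D0 ∣ f) (G : GB' M (f / D0) D0 B R Z)
    (hD : DOk M f D0 B a X 𝒟) (ha : 1 ≤ a) (b R' Z' : Eis) (g : Eis → ℂ) (ξ κ : ℝ) (hb : Sm M b)
    (hR' : PrI b R') (hZ' : PrI b Z')
    (hbf : ∀ p : Eis, Prime p → p ∣ b → p ∣ (f / D0 * R * Z / B ^ 3) * R' * Z')
    (hg : TwC M' J b ξ g) (hκ : 0 < κ) :
    PBo M (lamD (𝒟 := 𝒟) a lam) b R' Z' g (vG D0 B R v) (wG D0 B Z w) κ ≤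
      (1 + |ξ|) ^ A * Bd κ a (nm (rd Z) * nm (rd Z')) := by
  classical
  by_cases hZB : IsCoprime Z' B
  · obtain ⟨s1, s2, s3, s4⟩ := side hf hD0 hD0f G hb hR' hZ' hbf
    have h1 := fam_le (M := M) (lam := lam) (v := v) (w := w) (R' := R') (Z' := Z') (B := B)
      (R := R) (Z := Z) (g := g) (a := a) (κ := κ) hlam hD0
      (fun d hd => ⟨(hD.sm d hd).prim, cop_ff hD hD0 hD0f G hd⟩) hbf hb.prim
    have h2 := hHP (b * B * D0) (R * R') (Z * Z') (fun y => g y * conj (sy y D0)) ξ κ a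
      (𝒟.filter (fun d => IsCoprime d b)) s1 s2 s3 s4 (twC_mul hD0 hg) hκ ha (dset_filter hD)
    rw [rd_ZZ G hZ'.1 hZB] at h2
    exact h1.trans h2
  · rw [fam_zero hD0 (fun d hd => (hD.sm d hd).prim) hZB]
    exact mul_nonneg (Real.rpow_nonneg (by positivity) _) ((hBd a).nn _ _)

end

end Crest.Agent.R017.E4v5
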