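import Crest.Agent.R017.E4v6_47
import Crest.Agent.R017.AS5_590
import Crest.Agent.R017.CT1_590

/-!
# Row 17, C70/E4, joint form: the functional-equation half, part 1 (helper502)

* `Bi a b G = ∑' x, a x ∑' y, b y G x y` and its linearity
* `law_bi` : the functional equation inside `Bi`
* `n3_id` : `NT` at `k ↦ c k` as `N3`
* `mt_le` : the polar part at fixed data from `HM5`
-/

set_option autoImplicit false
set_option linter.unusedVariables false

noncomputable section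

open Complex
open scoped ComplexConjugate

namespace Crest.Agent.R017.E4fe502

open Crest.Agent.R012 Crest.Agent.R012.Eis Crest.Agent.R012.Mob705 Crest.Agent.R012.Gauss880
open Crest.Agent.R012.Div277
open Crest.Agent.R012.GaussLoc283
open Crest.Agent.R017.Sx545 Crest.Agent.R017.CM106 Crest.Agent.R017.C70 Crest.Agent.R017.C590
open Crest.Agent.R017.End699 Crest.Agent.R017.B770 Crest.Agent.R017.Sx440
open Crest.Agent.R017.E2440 Crest.Agent.R017.E4352 Crest.Agent.R017.NT47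
open Crest.Agent.R017.E4o502 Crest.Agent.R017.E4v5

/-! ### bilinear sums -/

/-- `∑' x, a x ∑' y, b y G x y` -/
def Bi (a b : Eis → ℂ) (G : Eis → Eis → ℂ) : ℂ := ∑' x : Eis, a x * ∑' y : Eis, b y * G x y

lemma tsum_ss {M : Eis} {a : Eis → ℂ} (ha : SSm M a) (F : Eis → ℂ) :
    ∑' x, a x * F x = ∑ x ∈ ha.fin.toFinset, a x * F x := by
  refine tsum_eq_sum fun x hx => ?_
  have : a x = 0 := by
    by_contra h
    exact hx (ha.fin.mem_toFinset.mpr h)
  rw [this, zero_mul]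

section

variable {M : Eis} {a b : Eis → ℂ}

lemma bi_fin (ha : SSm M a) (hb : SSm M b) (G : Eis → Eis → ℂ) :
    Bi a b G = ∑ x ∈ ha.fin.toFinset, ∑ y ∈ hb.fin.toFinset, a x * (b y * G x y) := by
  unfold Bi
  rw [tsum_ss ha]
  refine Finset.sum_congr rfl fun x _ => ?_
  rw [tsum_ss hb, Finset.mul_sum]

lemma bi_congr (ha : SSm M a) (hb : SSm M b) {G G' : Eis → Eis → ℂ}
    (h : ∀ x y, a x ≠ 0 → b y ≠ 0 → G x y = G' x y) : Bi a b G = Bi a b G' := by
  rw [bi_fin ha hb, bi_fin ha hb]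
  refine Finset.sum_congr rfl fun x hx => Finset.sum_congr rfl fun y hy => ?_
  rw [h x y (ha.fin.mem_toFinset.mp hx) (hb.fin.mem_toFinset.mp hy)]

lemma bi_add (ha : SSm M a) (hb : SSm M b) (G G' : Eis → Eis → ℂ) :
    Bi a b (fun x y => G x y + G' x y) = Bi a b G + Bi a b G' := by
  rw [bi_fin ha hb, bi_fin ha hb, bi_fin ha hb, ← Finset.sum_add_distrib]
  refine Finset.sum_congr rfl fun x _ => ?_
  rw [← Finset.sum_add_distrib]
  refine Finset.sum_congr rfl fun y _ => ?_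
  ring

lemma bi_smul (a b : Eis → ℂ) (c : ℂ) (G : Eis → Eis → ℂ) :
    Bi a b (fun x y => c * G x y) = c * Bi a b G := by
  unfold Bi
  rw [← tsum_mul_left]
  refine tsum_congr fun x => ?_
  have : ∑' y, b y * (c * G x y) = c * ∑' y, b y * G x y := by
    rw [← tsum_mul_left]
    exact tsum_congr fun y => by ring
  rw [this]; ring

lemma bi_left (a b : Eis → ℂ) (c : ℂ) (G : Eis → Eis → ℂ) :
    Bi (fun x => c * a x) b G = c * Bi a b G := by
  unfold Bi
  rw [← tsum_mul_left]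
  exact tsum_congr fun x => by ring

lemma bi_right (a b : Eis → ℂ) (c : ℂ) (G : Eis → Eis → ℂ) :
    Bi a (fun y => c * b y) G = c * Bi a b G := by
  rw [← bi_smul]
  unfold Bi
  refine tsum_congr fun x => ?_
  congr 1
  exact tsum_congr fun y => by ring

lemma bi_sum {κ : Type*} (s : Finset κ) (ha : SSm M a) (hb : SSm M b) (G : κ → Eis → Eis → ℂ) :
    Bi a b (fun x y => ∑ i ∈ s, G i x y) = ∑ i ∈ s, Bi a b (G i) := by
  have e : ∀ i ∈ s, Bi a b (G i) =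
      ∑ x ∈ ha.fin.toFinset, ∑ y ∈ hb.fin.toFinset, a x * (b y * G i x y) :=
    fun i _ => bi_fin ha hb (G i)
  have e2 : ∑ i ∈ s, ∑ x ∈ ha.fin.toFinset, ∑ y ∈ hb.fin.toFinset, a x * (b y * G i x y) =
      ∑ x ∈ ha.fin.toFinset, ∑ y ∈ hb.fin.toFinset, ∑ i ∈ s, a x * (b y * G i x y) := by
    rw [Finset.sum_comm]
    refine Finset.sum_congr rfl fun x _ => ?_
    rw [Finset.sum_comm]
  rw [bi_fin ha hb, Finset.sum_congr rfl e, e2]
  refine Finset.sum_congr rfl fun x _ => Finset.sum_congr rfl fun y _ => ?_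
  rw [Finset.mul_sum, Finset.mul_sum]

/-- the functional equation inside the bilinear sum -/
lemma law_bi {ι : Type} [Fintype ι] {ψ : Eis → ℂ} {l : ℤ} {D : Dt3 ι} {V : ℝ → ℂ}
    {W : ι → ℝ → ℂ} {mt : Eis → ℝ → ℂ} (hL : Law5 M ψ l D V W mt) {F : Eis} (hF : Sm M F)
    (ha : SSm M a) (hb : SSm M b) {Q : ℝ} (hQ : 0 < Q) :
    Bi a b (fun x y => N3 M (End699.tw ψ l) (F * x * y) V Q) =
      Bi a b (fun x y => mt (F * x * y) Q) +
      ∑ i, D.κ i * Bi a b (fun x y => (Q : ℂ) * (End699.tw (D.η i) D.j (F * x * y) *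
        D3 M (End699.tw (D.ψ' i) D.l') (F * x * y) (W i) (D.ρ i * nm (F * x * y) / Q))) := by
  rw [bi_congr ha hb (G' := fun x y => mt (F * x * y) Q + ∑ i, D.κ i *
      ((Q : ℂ) * (End699.tw (D.η i) D.j (F * x * y) *
        D3 M (End699.tw (D.ψ' i) D.l') (F * x * y) (W i) (D.ρ i * nm (F * x * y) / Q))))]
  · rw [bi_add ha hb (fun x y => mt (F * x * y) Q), bi_sum _ ha hb]
    congr 1
    refine Finset.sum_congr rfl fun i _ => ?_
    rw [bi_smul]
  · intro x y hx hy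
    rw [hL _ ((hF.mul (ha.sm x hx)).mul (hb.sm y hy)) Q hQ, Finset.mul_sum]
    congr 1
    refine Finset.sum_congr rfl fun i _ => ?_
    ring

end

/-! ### dilation -/

lemma n3_id {M ψ'' : Eis} {ψ : Eis → ℂ} {l : ℤ} (hψ : HC M ψ) {c : Eis} (hc : IsPrim c) (u : Eis)
    (V : ℝ → ℂ) {K lam : ℝ} (hK : 0 < K) (hlam : 0 < lam) :
    NT M u (fun k => End699.tw ψ l (c * k) * V (nm (c * k) * lam / K)) =
      End699.tw ψ l c * N3 M (End699.tw ψ l) u V (K / (lam * nm c)) := by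
  unfold N3
  rw [← C590.NT_smul]
  refine C590.NT_congr (fun k hk => ?_) u
  have hn : (nm c : ℝ) ≠ 0 := by exact_mod_cast (nm_pos.mpr hc.ne_zero).ne'
  have e : (nm (c * k) : ℝ) * lam / K = nm k / (K / (lam * nm c)) := by
    rw [nm_mul]
    push_cast
    field_simp
  rw [A590.tw_mul hψ l hc hk.prim, e, mul_assoc]

/-! ### sequences at `(D, B, R)` -/

lemma tws_vD {D B R : Eis} {v : Eis → ℂ} (hD : IsPrim D) (hR : IsCoprime R D) (x : Eis) :
    tws R B (fun _ => 1) (vD D v) x =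
      conj (sy R D) * tws R (D * B) (fun x => conj (sy x D)) v x := by
  classical
  unfold vD E4352.tws
  by_cases h1 : IsCoprime x B
  · rw [if_pos h1]
    by_cases h2 : IsCoprime x D
    · rw [if_pos (hR.mul_left h2), if_pos (h2.mul_right h1)]
      simp only
      rw [syAx.mul_left R x D hD, map_mul, one_mul]
      ring
    · rw [if_neg (fun h : IsCoprime (R * x) D => h2 h.of_mul_left_right),
        if_neg (fun h : IsCoprime x (D * B) => h2 h.of_mul_right_left)]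
      ring
  · rw [if_neg h1, if_neg (fun h : IsCoprime x (D * B) => h1 h.of_mul_right_right), mul_zero]

lemma tws_wD {D D1 B Z : Eis} {w : Eis → ℂ} (hD : IsPrim D) (hZ : IsCoprime Z D) (y : Eis) :
    tws Z B (fun _ => 1) (wD D D1 w) y =
      conj (sy Z D) * tws (D1 * Z) (D * B) (fun y => conj (sy y D)) w y := by
  classical
  unfold wD E4352.tws
  by_cases h1 : IsCoprime y B
  · rw [if_pos h1]
    by_cases h2 : IsCoprime y D
    · rw [if_pos (hZ.mul_left h2), if_pos (h2.mul_right h1)]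
      simp only
      rw [syAx.mul_left Z y D hD, map_mul, mul_assoc D1 Z y]
      ring
    · rw [if_neg (fun h : IsCoprime (Z * y) D => h2 h.of_mul_left_right),
        if_neg (fun h : IsCoprime y (D * B) => h2 h.of_mul_right_left)]
      ring
  · rw [if_neg h1, if_neg (fun h : IsCoprime y (D * B) => h1 h.of_mul_right_right), mul_zero]

lemma norm_cB {D : Eis} (hD : IsPrim D) (hs : Squarefree D) :
    ‖cB D‖ ≤ (nm D : ℝ) ^ (3 / 2 : ℝ) := by
  have hN : (0 : ℝ) < nm D := by exact_mod_cast nm_pos.mpr hD.ne_zero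
  unfold cB
  rw [norm_mul, norm_mul, norm_mul, Complex.norm_real,
    Gauss880.norm_G Gauss880.syG hD hs, mul_one]
  have h1 : ‖(muE D : ℂ)‖ = 1 := by
    have h2 := abs_muE_of_squarefree hs
    have h3 : ‖(muE D : ℂ)‖ = ((|muE D| : ℤ) : ℝ) := by
      rw [Complex.norm_intCast, Int.cast_abs]
    rw [h3, h2]; simp
  rw [h1, one_mul, Complex.norm_natCast, Real.norm_of_nonneg (Real.sqrt_nonneg _),
    Real.sqrt_eq_rpow]
  have e1 : (nm D : ℝ) * (nm D : ℝ) ^ (1 / 2 : ℝ) = (nm D : ℝ) ^ (1 + 1 / 2 : ℝ) := by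
    rw [Real.rpow_add hN, Real.rpow_one]
  rw [e1]
  apply le_of_eq
  congr 1
  norm_num

/-! ### the fixed data -/

/-- the fixed data -/
structure Dta (M f D0 B R Z : Eis) : Prop where
  sf : Sm M f
  pD : IsPrim D0
  dvd : D0 ∣ f
  sq : Squarefree D0
  gb : GB' M (f / D0) D0 B R Z

section

variable {M f D0 B R Z : Eis}

lemma Dta.f' (h : Dta M f D0 B R Z) : D0 * (f / D0) = f := by
  obtain ⟨c, hc⟩ := h.dvd
  rw [div_eq' h.pD.ne_zero hc, hc]

lemma Dta.hf' (h : Dta M f D0 B R Z) : Sm M (f / D0) := by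
  have := h.f'
  have h1 : Sm M (D0 * (f / D0)) := by rw [this]; exact h.sf
  exact h1.of_mul_left h.pD

lemma Dta.hB (h : Dta M f D0 B R Z) : Sm M B := h.gb.2.1

lemma Dta.hR (h : Dta M f D0 B R Z) : IsPrim R := h.gb.2.2.2.1.1

lemma Dta.hZ (h : Dta M f D0 B R Z) : IsPrim Z := h.gb.2.2.2.2.1.1

lemma Dta.sR (h : Dta M f D0 B R Z) : Sm M R :=
  ⟨h.hR, cop_of_primes h.hR fun p hp hpR hpM =>
    hp.not_isUnit (h.hB.2.isUnit_of_dvd' (h.gb.2.2.2.1.2 p hp hpR) hpM)⟩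

lemma Dta.sZ (h : Dta M f D0 B R Z) : Sm M Z :=
  ⟨h.hZ, cop_of_primes h.hZ fun p hp hpR hpM =>
    hp.not_isUnit (h.hB.2.isUnit_of_dvd' (h.gb.2.2.2.2.1.2 p hp hpR) hpM)⟩

/-- the frequency factor -/
def FF (f D0 B R Z : Eis) : Eis := f / D0 * R * Z / B ^ 3

lemma Dta.hFF (h : Dta M f D0 B R Z) : f / D0 * R * Z = B ^ 3 * FF f D0 B R Z := by
  obtain ⟨c, hc⟩ := h.gb.2.2.2.2.2.1
  unfold FF
  rw [div_eq' (pow_ne_zero 3 h.hB.ne_zero) hc, hc]

lemma Dta.sFF (h : Dta M f D0 B R Z) : Sm M (FF f D0 B R Z) := by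
  have h1 : Sm M (f / D0 * R * Z) := (h.hf'.mul h.sR).mul h.sZ
  rw [h.hFF] at h1
  exact h1.of_mul_left (h.hB.prim.pow 3)

/-- `FF` is prime to `D = D0 D1` -/
lemma Dta.copFF (h : Dta M f D0 B R Z) {D1 : Eis} (hg : GoodD M f D0 D1)
    (hc : IsCoprime B (D0 * D1)) :
    IsCoprime (f / D0) (D0 * D1) ∧ IsCoprime R (D0 * D1) ∧ IsCoprime Z (D0 * D1) ∧
      IsCoprime (FF f D0 B R Z) (D0 * D1) := by
  have hD : IsPrim (D0 * D1) := hg.2.2.1.prim
  have h1 : IsCoprime (f / D0) (D0 * D1) := by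
    refine hg.2.2.2.2.mul_right ?_
    have h2 : IsCoprime (D0 * (f / D0)) D1 := by rw [h.f']; exact hg.2.2.2.1.symm
    exact h2.of_mul_left_right
  have h2 : IsCoprime R (D0 * D1) := cop_of_primes h.hR fun p hp hpR hpD =>
    hp.not_isUnit (hc.isUnit_of_dvd' (h.gb.2.2.2.1.2 p hp hpR) hpD)
  have h3 : IsCoprime Z (D0 * D1) := cop_of_primes h.hZ fun p hp hpR hpD =>
    hp.not_isUnit (hc.isUnit_of_dvd' (h.gb.2.2.2.2.1.2 p hp hpR) hpD)
  refine ⟨h1, h2, h3, ?_⟩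
  have h4 : IsCoprime (f / D0 * R * Z) (D0 * D1) := (h1.mul_left h2).mul_left h3
  rw [h.hFF] at h4
  exact h4.of_mul_left_right

variable {O : Type} [Fintype O] {lam : O → ℝ} {v w : O → Eis → ℂ}

/-- **the polar part** at fixed data and one `D1` -/
lemma mt_le (h : Dta M f D0 B R Z) {K T₀ Mn : ℝ} {mt : Eis → ℝ → ℂ}
    (hv : ∀ o, SSm M (v o)) (hw : ∀ o, SSm M (w o))
    (H : HM5 M f lam v w K T₀ mt Mn) {D1 : Eis} (hg : GoodD M f D0 D1)
    (hD1 : IsPrim D1) (hc : IsCoprime B (D0 * D1))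
    (hT : (nm D1 : ℝ) * nm (rd Z) ≤ 2 * T₀) :
    (nm (D0 * D1) : ℝ) ^ (3 / 2 : ℝ) * ((nm B : ℝ) ^ 3 *
      ‖∑ o, Bi (tws R B (fun _ => 1) (vD (D0 * D1) (v o)))
        (tws Z B (fun _ => 1) (wD (D0 * D1) D1 (w o)))
        (fun x y => mt (FF f D0 B R Z * x * y) (K / (lam o * nm ((D0 * D1) ^ 2 * B ^ 3))))‖) ≤
      Mn / (nm (D0 * D1) * nm B) := by
  classical
  obtain ⟨c1, c2, c3, c4⟩ := h.copFF hg hc
  have hD : Sm M (D0 * D1) := hg.2.2.1
  have hZ1 : IsCoprime D1 Z := c3.symm.of_mul_left_right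
  have hsD1 : Squarefree D1 := hg.2.1.squarefree_of_dvd (dvd_mul_left _ _)
  have e1 : f * R * (D1 * Z) = (D0 * D1) * B ^ 3 * FF f D0 B R Z := by
    have := h.hFF
    have h2 := h.f'
    calc f * R * (D1 * Z) = (D0 * (f / D0)) * R * (D1 * Z) := by rw [h2]
      _ = (D0 * D1) * (f / D0 * R * Z) := by ring
      _ = _ := by rw [this]; ring
  have hrd : (nm (rd (D1 * Z)) : ℝ) ≤ 2 * T₀ := by
    rw [nm_rd_mul hD1.ne_zero h.hZ.ne_zero hZ1]
    have : rd D1 = D1 := prod_pp hD1 hsD1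
    rw [this]
    exact hT
  have key := H R (D1 * Z) (D0 * D1) B (FF f D0 B R Z) hD h.hB hg.2.1 h.gb.1 hc.symm hrd e1 c4
    h.sFF ⟨h.hR, fun p hp hpR => (h.gb.2.2.2.1.2 p hp hpR).mul_left _⟩
    ⟨hD1.mul h.hZ, fun p hp hpR => by
      rcases hp.dvd_or_dvd hpR with h1 | h1
      · exact (h1.mul_left D0).mul_right B
      · exact (h.gb.2.2.2.2.1.2 p hp h1).mul_left _⟩
  have hND : (0 : ℝ) < nm (D0 * D1) := by exact_mod_cast nm_pos.mpr hD.ne_zero
  have hNB : (0 : ℝ) < nm B := by exact_mod_cast nm_pos.mpr h.hB.ne_zero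
  -- the sum, up to a factor of norm `≤ 1`
  have e2 : ∑ o, Bi (tws R B (fun _ => 1) (vD (D0 * D1) (v o)))
        (tws Z B (fun _ => 1) (wD (D0 * D1) D1 (w o)))
        (fun x y => mt (FF f D0 B R Z * x * y) (K / (lam o * nm ((D0 * D1) ^ 2 * B ^ 3)))) =
      (conj (sy R (D0 * D1)) * conj (sy Z (D0 * D1))) *
        ∑ o, ∑' x : Eis, tws R (D0 * D1 * B) (fun x => conj (sy x (D0 * D1))) (v o) x *
          ∑' y : Eis, tws (D1 * Z) (D0 * D1 * B) (fun y => conj (sy y (D0 * D1))) (w o) y *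
            mt (FF f D0 B R Z * x * y) (K / (lam o * nm ((D0 * D1) ^ 2 * B ^ 3))) := by
    rw [Finset.mul_sum]
    refine Finset.sum_congr rfl fun o _ => ?_
    have a1 : tws R B (fun _ => 1) (vD (D0 * D1) (v o)) = fun x => conj (sy R (D0 * D1)) *
        tws R (D0 * D1 * B) (fun x => conj (sy x (D0 * D1))) (v o) x :=
      funext fun x => tws_vD hD.prim c2 x
    have a2 : tws Z B (fun _ => 1) (wD (D0 * D1) D1 (w o)) = fun y => conj (sy Z (D0 * D1)) *
        tws (D1 * Z) (D0 * D1 * B) (fun y => conj (sy y (D0 * D1))) (w o) y :=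
      funext fun y => tws_wD hD.prim c3 y
    rw [a1, a2, bi_left, bi_right, ← mul_assoc]
    rfl
  rw [e2, norm_mul]
  have h3 : ‖conj (sy R (D0 * D1)) * conj (sy Z (D0 * D1))‖ ≤ 1 := by
    rw [norm_mul, RCLike.norm_conj, RCLike.norm_conj]
    exact mul_le_one₀ (CF61.norm_sy_le _ _) (norm_nonneg _) (CF61.norm_sy_le _ _)
  set T := ‖∑ o, ∑' x : Eis, tws R (D0 * D1 * B) (fun x => conj (sy x (D0 * D1))) (v o) x *
          ∑' y : Eis, tws (D1 * Z) (D0 * D1 * B) (fun y => conj (sy y (D0 * D1))) (w o) y *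
            mt (FF f D0 B R Z * x * y) (K / (lam o * nm ((D0 * D1) ^ 2 * B ^ 3)))‖ with hTd
  have hT0 : 0 ≤ T := norm_nonneg _
  rw [le_div_iff₀ (by positivity)]
  calc (nm (D0 * D1) : ℝ) ^ (3 / 2 : ℝ) * ((nm B : ℝ) ^ 3 *
        (‖conj (sy R (D0 * D1)) * conj (sy Z (D0 * D1))‖ * T)) * (nm (D0 * D1) * nm B)
      ≤ (nm (D0 * D1) : ℝ) ^ (3 / 2 : ℝ) * ((nm B : ℝ) ^ 3 * (1 * T)) *
        (nm (D0 * D1) * nm B) := by gcongr
    _ = ((nm (D0 * D1) : ℝ) ^ (3 / 2 : ℝ) * (nm (D0 * D1) : ℝ) ^ (1 : ℝ)) * (nm B : ℝ) ^ 4 * T := by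
        rw [Real.rpow_one]; ring
    _ = ((nm (D0 * D1) : ℝ) ^ (5 / 2 : ℝ) * (nm B : ℝ) ^ 4) * T := by
        rw [← Real.rpow_add hND]
        norm_num
    _ ≤ Mn := key

end

end Crest.Agent.R017.E4fe502
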