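import Crest.Agent.R017.E4fe1_502

/-!
# Row 17, C70/E4, joint form: the functional-equation half, part 2 (helper502)

`tt_le` : `TT` at fixed data, the dual bound being a hypothesis
-/

set_option autoImplicit false
set_option linter.unusedVariables false

noncomputable section

open Complex
open scoped ComplexConjugate

namespace Crest.Agent.R017.E4fe502

open Crest.Agent.R012 Crest.Agent.R012.Eis Crest.Agent.R012.Mob705 Crest.Agent.R012.Gauss880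
open Crest.Agent.R012.Div277
open Crest.Agent.R012.GaussLoc283
open Crest.Agent.R017.Sx545 Crest.Agent.R017.CM106 Crest.Agent.R017.C70 Crest.Agent.R017.C590
open Crest.Agent.R017.End699 Crest.Agent.R017.B770 Crest.Agent.R017.Sx440
open Crest.Agent.R017.E2440 Crest.Agent.R017.E4352 Crest.Agent.R017.NT47
open Crest.Agent.R017.E4o502 Crest.Agent.R017.E4v5

section

variable {M f D0 B R Z : Eis} {O : Type} [Fintype O] {lam : O → ℝ} {v w : O → Eis → ℂ}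

/-- `x`-side of the family -/
def vv (D0 B R : Eis) (v : O → Eis → ℂ) (𝒟 : Finset Eis) (i : O × {d : Eis // d ∈ 𝒟}) : Eis → ℂ :=
  E4352.tws R B (fun _ => 1) (vD (D0 * i.2.1) (v i.1))

/-- `y`-side of the family -/
def ww (D0 B Z : Eis) (w : O → Eis → ℂ) (𝒟 : Finset Eis) (i : O × {d : Eis // d ∈ 𝒟}) : Eis → ℂ :=
  E4352.tws Z B (fun _ => 1) (wD (D0 * i.2.1) i.2.1 (w i.1))

/-- the coefficient -/
def cf' (f D0 B : Eis) (ψ : Eis → ℂ) (l : ℤ) (d : Eis) : ℂ :=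
  cB (D0 * d) * conj (sy (f / D0) (D0 * d)) * End699.tw ψ l ((D0 * d) ^ 2 * B ^ 3)

/-- the size of the coefficient -/
def Gam (D0 : Eis) (j : ℕ) : ℝ := ((nm D0 : ℝ) * 2 ^ (j + 1)) ^ (3 / 2 : ℝ)

lemma Gam_pos (h0 : D0 ≠ 0) (j : ℕ) : 0 < Gam D0 j := by
  have : (0 : ℝ) < nm D0 := by exact_mod_cast nm_pos.mpr h0
  unfold Gam
  positivity

/-- normalised `y`-side -/
def wn (f D0 B Z : Eis) (ψ : Eis → ℂ) (l : ℤ) (j : ℕ) (w : O → Eis → ℂ) (𝒟 : Finset Eis)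
    (i : O × {d : Eis // d ∈ 𝒟}) (y : Eis) : ℂ :=
  (cf' f D0 B ψ l i.2.1 / (Gam D0 j : ℂ)) * ww D0 B Z w 𝒟 i y

/-- the length after the functional equation -/
def QQ (K : ℝ) (D0 B : Eis) (j : ℕ) : ℝ := K / ((nm D0 : ℝ) ^ 2 * (2 ^ j) ^ 2 * (nm B : ℝ) ^ 3)

/-- the dual summand -/
def dG {ι : Type} (M : Eis) (D : Dt3 ι) (W : ι → ℝ → ℂ) (i : ι) (F : Eis) (Q : ℝ) (x y : Eis) : ℂ :=
  (Q : ℂ) * (End699.tw (D.η i) D.j (F * x * y) *
    D3 M (End699.tw (D.ψ' i) D.l') (F * x * y) (W i) (D.ρ i * nm (F * x * y) / Q))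

lemma mem_DJ {N j : ℕ} {D1 : Eis} (h : D1 ∈ DJ M f D0 B N j) :
    IsPrim D1 ∧ nm D1 ≤ N ∧ GoodD M f D0 D1 ∧ IsCoprime B (D0 * D1) ∧ (2 : ℝ) ^ j ≤ nm D1 ∧
      (nm D1 : ℝ) < 2 ^ (j + 1) := by
  classical
  unfold DJ at h
  rw [Finset.mem_filter, mem_primBall] at h
  exact ⟨h.1.2, h.1.1, h.2.1.1, h.2.1.2, h.2.2.1, h.2.2.2⟩

lemma norm_cf (hd : Dta M f D0 B R Z) {ψ : Eis → ℂ} {l : ℤ} (hψ : HC M ψ) {N j : ℕ} {d : Eis}
    (h : d ∈ DJ M f D0 B N j) :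
    ‖cf' f D0 B ψ l d‖ ≤ (nm (D0 * d) : ℝ) ^ (3 / 2 : ℝ) ∧ ‖cf' f D0 B ψ l d‖ ≤ Gam D0 j := by
  obtain ⟨h1, h2, h3, h4, h5, h6⟩ := mem_DJ h
  have hD : IsPrim (D0 * d) := h3.2.2.1.prim
  have hc : IsPrim ((D0 * d) ^ 2 * B ^ 3) := (hD.pow 2).mul (hd.hB.prim.pow 3)
  have e1 : ‖cf' f D0 B ψ l d‖ ≤ (nm (D0 * d) : ℝ) ^ (3 / 2 : ℝ) := by
    unfold cf'
    rw [norm_mul, norm_mul, RCLike.norm_conj]
    have a1 := norm_cB hD h3.2.1
    have a2 := CF61.norm_sy_le (f / D0) (D0 * d)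
    have a3 := A590.norm_tw_le' hψ l hc
    calc ‖cB (D0 * d)‖ * ‖sy (f / D0) (D0 * d)‖ * ‖End699.tw ψ l ((D0 * d) ^ 2 * B ^ 3)‖
        ≤ (nm (D0 * d) : ℝ) ^ (3 / 2 : ℝ) * 1 * 1 := by gcongr
      _ = _ := by ring
  refine ⟨e1, e1.trans ?_⟩
  unfold Gam
  rw [nm_mul]
  push_cast
  gcongr

lemma alg {ι : Type} [Fintype ι] (𝒟 : Finset Eis) (c : Eis → ℂ) (P : Eis → O → ℂ)
    (G : ι → Eis → O → ℂ) (κ : ι → ℂ) :
    ∑ d ∈ 𝒟, c d * ∑ o, (P d o + ∑ i, κ i * G i d o) =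
      ∑ d ∈ 𝒟, c d * ∑ o, P d o + ∑ i, κ i * ∑ d ∈ 𝒟, c d * ∑ o, G i d o := by
  have e1 : ∀ d ∈ 𝒟, c d * ∑ o, (P d o + ∑ i, κ i * G i d o) =
      c d * ∑ o, P d o + ∑ i, κ i * (c d * ∑ o, G i d o) := by
    intro d _
    rw [Finset.sum_add_distrib, mul_add, Finset.sum_comm]
    congr 1
    rw [Finset.mul_sum]
    refine Finset.sum_congr rfl fun i _ => ?_
    rw [← Finset.mul_sum]
    ring
  rw [Finset.sum_congr rfl e1, Finset.sum_add_distrib, Finset.sum_comm]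
  congr 1
  refine Finset.sum_congr rfl fun i _ => ?_
  rw [Finset.mul_sum]

/-- the family identity and the estimate -/
theorem tt_le {ι : Type} [Fintype ι] {ψ : Eis → ℂ} {l : ℤ} {D : Dt3 ι} {V : ℝ → ℂ}
    {W : ι → ℝ → ℂ} {mt : Eis → ℝ → ℂ} (hψ : HC M ψ) (hL : Law5 M ψ l D V W mt)
    (hd : Dta M f D0 B R Z) (hv : ∀ o, SSm M (v o)) (hw : ∀ o, SSm M (w o))
    (hlam : ∀ o, 0 < lam o) {K T₀ Mn T : ℝ} (hK : 0 < K) (H : HM5 M f lam v w K T₀ mt Mn)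
    {N j : ℕ} (hT : (2 : ℝ) ^ j * nm (rd Z) ≤ T₀)
    (hdual : ∀ i, ‖∑ z : O × {d : Eis // d ∈ DJ M f D0 B N j},
      Bi (vv D0 B R v _ z) (wn f D0 B Z ψ l j w _ z)
        (dG M D W i (FF f D0 B R Z) (QQ K D0 B j / lamD (2 ^ j) lam z))‖ ≤ T) :
    (nm B : ℝ) ^ 3 * ‖TT M f v w (fun o k => End699.tw ψ l k * V (nm k * lam o / K)) N D0 B R Z j‖ ≤
      (nm B : ℝ) ^ 3 * (Gam D0 j * ((∑ i, ‖D.κ i‖) * T)) +
        ∑ D1 ∈ DJ M f D0 B N j, Mn / (nm (D0 * D1) * nm B) := by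
  classical
  set 𝒟 := DJ M f D0 B N j with h𝒟
  set F := FF f D0 B R Z with hF
  have hΓ := Gam_pos hd.pD.ne_zero j
  have hΓC : (Gam D0 j : ℂ) ≠ 0 := by exact_mod_cast hΓ.ne'
  -- the sequences
  have sv : ∀ (o : O) (d : Eis), IsPrim d →
      SSm M (E4352.tws R B (fun _ => 1) (vD (D0 * d) (v o))) := fun o d _ =>
    ssm_tws (ssm_tws (hv o) isPrim_one) hd.hR
  have sw : ∀ (o : O) (d : Eis), IsPrim d →
      SSm M (E4352.tws Z B (fun _ => 1) (wD (D0 * d) d (w o))) := fun o d h1 =>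
    ssm_tws (ssm_tws (hw o) h1) hd.hZ
  -- one term
  have e1 : ∀ d ∈ 𝒟, ∀ o : O,
      (∑' x : Eis, E4352.tws R B (fun _ => 1) (vD (D0 * d) (v o)) x *
        ∑' y : Eis, E4352.tws Z B (fun _ => 1) (wD (D0 * d) d (w o)) y *
          NT M (f / D0 * R * Z / B ^ 3 * x * y)
            (fun k => End699.tw ψ l ((D0 * d) ^ 2 * B ^ 3 * k) *
              V (nm ((D0 * d) ^ 2 * B ^ 3 * k) * lam o / K))) =
      End699.tw ψ l ((D0 * d) ^ 2 * B ^ 3) *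
        (Bi (E4352.tws R B (fun _ => 1) (vD (D0 * d) (v o)))
          (E4352.tws Z B (fun _ => 1) (wD (D0 * d) d (w o)))
          (fun x y => mt (F * x * y) (K / (lam o * nm ((D0 * d) ^ 2 * B ^ 3)))) +
        ∑ i, D.κ i * Bi (E4352.tws R B (fun _ => 1) (vD (D0 * d) (v o)))
          (E4352.tws Z B (fun _ => 1) (wD (D0 * d) d (w o)))
          (dG M D W i F (K / (lam o * nm ((D0 * d) ^ 2 * B ^ 3))))) := by
    intro d hdm o
    obtain ⟨h1, -, h3, -, -, -⟩ := mem_DJ hdm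
    have hc : IsPrim ((D0 * d) ^ 2 * B ^ 3) := (h3.2.2.1.prim.pow 2).mul (hd.hB.prim.pow 3)
    have hnc : (0 : ℝ) < nm ((D0 * d) ^ 2 * B ^ 3) := by exact_mod_cast nm_pos.mpr hc.ne_zero
    have hQ : 0 < K / (lam o * nm ((D0 * d) ^ 2 * B ^ 3)) := by
      have := hlam o
      positivity
    have a1 : (∑' x : Eis, E4352.tws R B (fun _ => 1) (vD (D0 * d) (v o)) x *
        ∑' y : Eis, E4352.tws Z B (fun _ => 1) (wD (D0 * d) d (w o)) y *
          NT M (f / D0 * R * Z / B ^ 3 * x * y)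
            (fun k => End699.tw ψ l ((D0 * d) ^ 2 * B ^ 3 * k) *
              V (nm ((D0 * d) ^ 2 * B ^ 3 * k) * lam o / K))) =
        Bi (E4352.tws R B (fun _ => 1) (vD (D0 * d) (v o)))
          (E4352.tws Z B (fun _ => 1) (wD (D0 * d) d (w o)))
          (fun x y => End699.tw ψ l ((D0 * d) ^ 2 * B ^ 3) *
            N3 M (End699.tw ψ l) (F * x * y) V (K / (lam o * nm ((D0 * d) ^ 2 * B ^ 3)))) := by
      refine bi_congr (sv o d h1) (sw o d h1) fun x y _ _ => ?_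
      exact n3_id (ψ'' := 0) hψ hc _ V hK (hlam o)
    rw [a1, bi_smul, law_bi hL hd.sFF (sv o d h1) (sw o d h1) hQ]
    rfl
  -- the whole sum
  have e2 : TT M f v w (fun o k => End699.tw ψ l k * V (nm k * lam o / K)) N D0 B R Z j =
      ∑ d ∈ 𝒟, cf' f D0 B ψ l d * ∑ o, Bi (E4352.tws R B (fun _ => 1) (vD (D0 * d) (v o)))
          (E4352.tws Z B (fun _ => 1) (wD (D0 * d) d (w o)))
          (fun x y => mt (F * x * y) (K / (lam o * nm ((D0 * d) ^ 2 * B ^ 3)))) +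
      ∑ i, D.κ i * ((Gam D0 j : ℂ) * ∑ z : O × {d : Eis // d ∈ 𝒟},
        Bi (vv D0 B R v _ z) (wn f D0 B Z ψ l j w _ z)
          (dG M D W i F (QQ K D0 B j / lamD (2 ^ j) lam z))) := by
    have a1 : ∀ i, (Gam D0 j : ℂ) * ∑ z : O × {d : Eis // d ∈ 𝒟},
        Bi (vv D0 B R v _ z) (wn f D0 B Z ψ l j w _ z)
          (dG M D W i F (QQ K D0 B j / lamD (2 ^ j) lam z)) =
        ∑ d ∈ 𝒟, cf' f D0 B ψ l d * ∑ o, Bi (E4352.tws R B (fun _ => 1) (vD (D0 * d) (v o)))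
          (E4352.tws Z B (fun _ => 1) (wD (D0 * d) d (w o)))
          (dG M D W i F (K / (lam o * nm ((D0 * d) ^ 2 * B ^ 3)))) := by
      intro i
      rw [Fintype.sum_prod_type, Finset.sum_comm, Finset.mul_sum]
      rw [← Finset.sum_coe_sort 𝒟]
      refine Finset.sum_congr rfl fun d _ => ?_
      rw [Finset.mul_sum, Finset.mul_sum]
      refine Finset.sum_congr rfl fun o _ => ?_
      have hdm := d.2
      obtain ⟨h1, -, h3, -, -, -⟩ := mem_DJ hdm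
      have hnd : (nm d.1 : ℝ) ≠ 0 := by exact_mod_cast (nm_pos.mpr h1.ne_zero).ne'
      have hnD0 : (nm D0 : ℝ) ≠ 0 := by exact_mod_cast (nm_pos.mpr hd.pD.ne_zero).ne'
      have hnB : (nm B : ℝ) ≠ 0 := by exact_mod_cast (nm_pos.mpr hd.hB.ne_zero).ne'
      have hlo := (hlam o).ne'
      have b1 : QQ K D0 B j / lamD (2 ^ j) lam (o, d) =
          K / (lam o * nm ((D0 * d.1) ^ 2 * B ^ 3)) := by
        unfold QQ lamD
        rw [nm_mul, nm_pow, nm_pow, nm_mul]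
        push_cast
        field_simp
      rw [b1]
      have b2 : wn f D0 B Z ψ l j w 𝒟 (o, d) = fun y => (cf' f D0 B ψ l d.1 / (Gam D0 j : ℂ)) *
          ww D0 B Z w 𝒟 (o, d) y := rfl
      rw [b2, bi_right, ← mul_assoc, mul_div_cancel₀ _ hΓC]
      rfl
    have a2 : TT M f v w (fun o k => End699.tw ψ l k * V (nm k * lam o / K)) N D0 B R Z j =
        ∑ d ∈ 𝒟, cf' f D0 B ψ l d * ∑ o,
          (Bi (E4352.tws R B (fun _ => 1) (vD (D0 * d) (v o)))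
            (E4352.tws Z B (fun _ => 1) (wD (D0 * d) d (w o)))
            (fun x y => mt (F * x * y) (K / (lam o * nm ((D0 * d) ^ 2 * B ^ 3)))) +
          ∑ i, D.κ i * Bi (E4352.tws R B (fun _ => 1) (vD (D0 * d) (v o)))
            (E4352.tws Z B (fun _ => 1) (wD (D0 * d) d (w o)))
            (dG M D W i F (K / (lam o * nm ((D0 * d) ^ 2 * B ^ 3))))) := by
      unfold TT
      refine Finset.sum_congr rfl fun d hdm => ?_
      rw [Finset.sum_congr rfl fun o _ => e1 d hdm o, ← Finset.mul_sum]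
      unfold cf'
      ring
    rw [a2, alg]
    congr 1
    exact Finset.sum_congr rfl fun i _ => by rw [a1 i]
  have hNB : (0 : ℝ) < nm B := by exact_mod_cast nm_pos.mpr hd.hB.ne_zero
  -- polar part
  have e3 : (nm B : ℝ) ^ 3 * ‖∑ d ∈ 𝒟, cf' f D0 B ψ l d * ∑ o,
      Bi (E4352.tws R B (fun _ => 1) (vD (D0 * d) (v o)))
          (E4352.tws Z B (fun _ => 1) (wD (D0 * d) d (w o)))
          (fun x y => mt (F * x * y) (K / (lam o * nm ((D0 * d) ^ 2 * B ^ 3))))‖ ≤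
      ∑ d ∈ 𝒟, Mn / (nm (D0 * d) * nm B) := by
    refine (mul_le_mul_of_nonneg_left (norm_sum_le _ _) (by positivity)).trans ?_
    rw [Finset.mul_sum]
    refine Finset.sum_le_sum fun d hdm => ?_
    obtain ⟨h1, -, h3, h4, h5, h6⟩ := mem_DJ hdm
    have hz : (0 : ℝ) ≤ nm (rd Z) := by positivity
    have hT' : (nm d : ℝ) * nm (rd Z) ≤ 2 * T₀ := by
      calc (nm d : ℝ) * nm (rd Z) ≤ 2 ^ (j + 1) * nm (rd Z) := by gcongr
        _ = 2 * (2 ^ j * nm (rd Z)) := by ring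
        _ ≤ _ := by gcongr
    have key := mt_le hd hv hw H h3 h1 h4 hT'
    refine le_trans ?_ key
    rw [norm_mul]
    have hc := (norm_cf hd hψ hdm (l := l)).1
    calc (nm B : ℝ) ^ 3 * (‖cf' f D0 B ψ l d‖ * ‖∑ o,
          Bi (E4352.tws R B (fun _ => 1) (vD (D0 * d) (v o)))
          (E4352.tws Z B (fun _ => 1) (wD (D0 * d) d (w o)))
          (fun x y => mt (F * x * y) (K / (lam o * nm ((D0 * d) ^ 2 * B ^ 3))))‖)
        ≤ (nm B : ℝ) ^ 3 * ((nm (D0 * d) : ℝ) ^ (3 / 2 : ℝ) * ‖∑ o,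
          Bi (E4352.tws R B (fun _ => 1) (vD (D0 * d) (v o)))
          (E4352.tws Z B (fun _ => 1) (wD (D0 * d) d (w o)))
          (fun x y => mt (F * x * y) (K / (lam o * nm ((D0 * d) ^ 2 * B ^ 3))))‖) := by gcongr
      _ = _ := by ring
  -- dual part
  have e4 : ‖∑ i, D.κ i * ((Gam D0 j : ℂ) * ∑ z : O × {d : Eis // d ∈ 𝒟},
        Bi (vv D0 B R v _ z) (wn f D0 B Z ψ l j w _ z)
          (dG M D W i F (QQ K D0 B j / lamD (2 ^ j) lam z)))‖ ≤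
      Gam D0 j * ((∑ i, ‖D.κ i‖) * T) := by
    refine (norm_sum_le _ _).trans ?_
    have : Gam D0 j * ((∑ i, ‖D.κ i‖) * T) = ∑ i, ‖D.κ i‖ * (Gam D0 j * T) := by
      rw [Finset.sum_mul, Finset.mul_sum]
      exact Finset.sum_congr rfl fun i _ => by ring
    rw [this]
    refine Finset.sum_le_sum fun i _ => ?_
    rw [norm_mul, norm_mul, Complex.norm_real, Real.norm_of_nonneg hΓ.le]
    have := hdual i
    gcongr
  rw [e2]
  calc _ ≤ (nm B : ℝ) ^ 3 * (‖∑ d ∈ 𝒟, cf' f D0 B ψ l d * ∑ o,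
      Bi (E4352.tws R B (fun _ => 1) (vD (D0 * d) (v o)))
          (E4352.tws Z B (fun _ => 1) (wD (D0 * d) d (w o)))
          (fun x y => mt (F * x * y) (K / (lam o * nm ((D0 * d) ^ 2 * B ^ 3))))‖ +
      ‖∑ i, D.κ i * ((Gam D0 j : ℂ) * ∑ z : O × {d : Eis // d ∈ 𝒟},
        Bi (vv D0 B R v _ z) (wn f D0 B Z ψ l j w _ z)
          (dG M D W i F (QQ K D0 B j / lamD (2 ^ j) lam z)))‖) :=
        mul_le_mul_of_nonneg_left (norm_add_le _ _) (by positivity)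
    _ ≤ ∑ d ∈ 𝒟, Mn / (nm (D0 * d) * nm B) +
        (nm B : ℝ) ^ 3 * (Gam D0 j * ((∑ i, ‖D.κ i‖) * T)) := by
        rw [mul_add]
        exact add_le_add e3 (mul_le_mul_of_nonneg_left e4 (by positivity))
    _ = _ := by rw [add_comm]

end

end Crest.Agent.R017.E4fe502
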