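import Crest.Agent.R017.E4a_47

/-!
# Row 17, E4 (helper266), separation of the removal of the coprimality

`NT_sep` : in `star_full` (helper47) every term becomes (function of `ρ, δ`) × (function of `m n²`) ×
(complete series at the product frequency).
-/

set_option autoImplicit false
set_option linter.unusedVariables false

noncomputable section

open Complex
open scoped ComplexConjugate

namespace Crest.Agent.R017.E4F266

open Crest.Agent.R012 Crest.Agent.R012.Eis Crest.Agent.R012.GaussLoc283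
open Crest.Agent.R012.Mob705 Crest.Agent.R012.Div277
open Crest.Agent.R012.LS2 (S mem_S)
open Crest.Agent.R017.Sx545 (Sm)
open Crest.Agent.R017.E2440
open Crest.Agent.R017.NT47
open Crest.Agent.R017.PX764 (th Gh n6)

/-- the condition on the `x`-side -/
def condX (ρ δ B0 B1 B2 : Eis) : Prop := B1 ∣ ρ ∧ B2 ∣ δ ∧ IsCoprime B0 (ρ * δ)

lemma sqf_dvd_of_pp {b ρ : Eis} (hb : IsPrim b) (hs : Squarefree b)
    (h : ∀ p, IsPP p → p ∣ b → p ∣ ρ) : b ∣ ρ := by
  rw [← prod_pp hb hs, (ppSet_pp b).prod_dvd]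
  intro p hp
  rw [mem_pp hb.ne_zero] at hp
  exact h p hp.1 hp.2

lemma split2 {B ρ : Eis} (hB : IsPrim B) (hs : Squarefree B) :
    ∃ a b, IsPrim a ∧ IsPrim b ∧ Squarefree a ∧ Squarefree b ∧ B = b * a ∧ b ∣ ρ ∧
      IsCoprime a ρ := by
  obtain ⟨a, b, hb, ha, hab, h⟩ := split_M ρ hB hs
  rw [hab] at hs
  exact ⟨a, b, ha.1, hb, hs.of_mul_right, hs.of_mul_left, hab,
    sqf_dvd_of_pp hb hs.of_mul_left h, ha.2⟩

lemma nm_le_mul_left' {a b : Eis} (hb : IsPrim b) : (nm a : ℝ) ≤ nm (a * b) := by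
  rw [nm_mul, Nat.cast_mul]
  have := one_le_nm hb.ne_zero
  exact le_mul_of_one_le_right (Nat.cast_nonneg _) this

open Classical in
theorem split3 {R : ℝ} (hR : 1 ≤ R) {ρ δ : Eis} (hρδ : IsCoprime ρ δ) {A : Type*} [AddCommMonoid A]
    (F : Eis → A) (hF : ∀ B, F B ≠ 0 → (nm B : ℝ) ≤ R) :
    ∑ B0 ∈ S R, ∑ B1 ∈ S R, ∑ B2 ∈ S R, (if condX ρ δ B0 B1 B2 then F (B0 * B1 * B2) else 0) =
      ∑ B ∈ S R, F B := by
  have hR0 : (0 : ℝ) ≤ R := by linarith
  have hR3 : R ≤ R ^ 3 := by nlinarith [mul_self_nonneg R, sq_nonneg (R - 1)]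
  have h1 : ∑ B ∈ S R, F B = ∑ B ∈ S (R ^ 3), F B := by
    refine Finset.sum_subset (fun B hB => ?_) (fun B hB hB' => ?_)
    · rw [mem_S hR0] at hB
      rw [mem_S (by positivity)]
      exact ⟨hB.1.trans hR3, hB.2⟩
    · by_contra hne
      rw [mem_S (by positivity)] at hB
      exact hB' ((mem_S hR0).mpr ⟨hF B hne, hB.2⟩)
  have h2 : ∑ B0 ∈ S R, ∑ B1 ∈ S R, ∑ B2 ∈ S R,
      (if condX ρ δ B0 B1 B2 then F (B0 * B1 * B2) else 0) =
      ∑ q ∈ (S R ×ˢ (S R ×ˢ S R)).filter (fun q => condX ρ δ q.1 q.2.1 q.2.2),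
        F (q.1 * q.2.1 * q.2.2) := by
    rw [Finset.sum_filter, Finset.sum_product]
    refine Finset.sum_congr rfl fun B0 _ => ?_
    rw [Finset.sum_product]
  rw [h1, h2]
  refine Finset.sum_of_injOn (fun q => q.1 * q.2.1 * q.2.2) ?_ ?_ ?_ (fun _ _ => rfl)
  · rintro ⟨a0, a1, a2⟩ ha ⟨b0, b1, b2⟩ hb hab
    simp only [Finset.coe_filter, Finset.mem_product, Set.mem_ofPred_eq, mem_S hR0] at ha hb
    obtain ⟨⟨⟨-, pa0, -⟩, ⟨-, pa1, -⟩, ⟨-, pa2, -⟩⟩, ca1, ca2, ca0⟩ := ha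
    obtain ⟨⟨⟨-, pb0, -⟩, ⟨-, pb1, -⟩, ⟨-, pb2, -⟩⟩, cb1, cb2, cb0⟩ := hb
    simp only at hab
    have key1 : ∀ {x0 x1 x2 y0 y1 y2 : Eis}, x1 ∣ ρ → y2 ∣ δ → IsCoprime y0 (ρ * δ) →
        x0 * x1 * x2 = y0 * y1 * y2 → x1 ∣ y1 := by
      intro x0 x1 x2 y0 y1 y2 h1 h2 h3 h4
      have c1 : IsCoprime x1 y0 :=
        (h3.of_mul_right_left.of_isCoprime_of_dvd_right h1).symm
      have c2 : IsCoprime x1 y2 :=
        (hρδ.of_isCoprime_of_dvd_left h1).of_isCoprime_of_dvd_right h2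
      have h5 : x1 ∣ y0 * y1 * y2 := by rw [← h4]; exact ⟨x0 * x2, by ring⟩
      exact c1.dvd_of_dvd_mul_left (c2.dvd_of_dvd_mul_right h5)
    have key2 : ∀ {x0 x1 x2 y0 y1 y2 : Eis}, x2 ∣ δ → y1 ∣ ρ → IsCoprime y0 (ρ * δ) →
        x0 * x1 * x2 = y0 * y1 * y2 → x2 ∣ y2 := by
      intro x0 x1 x2 y0 y1 y2 h1 h2 h3 h4
      have c1 : IsCoprime x2 y0 :=
        (h3.of_mul_right_right.of_isCoprime_of_dvd_right h1).symm
      have c2 : IsCoprime x2 y1 :=
        (hρδ.symm.of_isCoprime_of_dvd_left h1).of_isCoprime_of_dvd_right h2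
      have h5 : x2 ∣ y0 * y1 * y2 := by rw [← h4]; exact ⟨x0 * x1, by ring⟩
      exact (c1.mul_right c2).dvd_of_dvd_mul_left h5
    have e1 : a1 = b1 := pa1.eq_of_associated pb1
      (associated_of_dvd_dvd (key1 ca1 cb2 cb0 hab) (key1 cb1 ca2 ca0 hab.symm))
    have e2 : a2 = b2 := pa2.eq_of_associated pb2
      (associated_of_dvd_dvd (key2 ca2 cb1 cb0 hab) (key2 cb2 ca1 ca0 hab.symm))
    subst e1 e2
    have e0 : a0 = b0 := mul_right_cancel₀ pa1.ne_zero (mul_right_cancel₀ pa2.ne_zero hab)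
    rw [e0]
  · rintro ⟨a0, a1, a2⟩ ha
    simp only [Finset.coe_filter, Finset.mem_product, Set.mem_ofPred_eq, mem_S hR0] at ha
    obtain ⟨⟨⟨na0, pa0, sa0⟩, ⟨na1, pa1, sa1⟩, ⟨na2, pa2, sa2⟩⟩, ca1, ca2, ca0⟩ := ha
    simp only [Finset.mem_coe]
    rw [mem_S (by positivity)]
    have c01 : IsCoprime a0 a1 := ca0.of_mul_right_left.of_isCoprime_of_dvd_right ca1
    have c02 : IsCoprime a0 a2 := ca0.of_mul_right_right.of_isCoprime_of_dvd_right ca2
    have c12 : IsCoprime a1 a2 :=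
      (hρδ.of_isCoprime_of_dvd_left ca1).of_isCoprime_of_dvd_right ca2
    refine ⟨?_, (pa0.mul pa1).mul pa2, ?_⟩
    · rw [nm_mul, nm_mul]
      push_cast
      calc (nm a0 : ℝ) * nm a1 * nm a2 ≤ R * R * R := by gcongr
        _ = R ^ 3 := by ring
    · exact squarefree_mul_iff.mpr ⟨(c02.mul_left c12).isRelPrime,
        squarefree_mul_iff.mpr ⟨c01.isRelPrime, sa0, sa1⟩, sa2⟩
  · intro B hB hB'
    by_contra hne
    apply hB'
    rw [mem_S (by positivity)] at hB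
    have hBR := hF B hne
    obtain ⟨a, b1, pa, pb1, sa, sb1, e1, hb1, ha⟩ := split2 (ρ := ρ) hB.2.1 hB.2.2
    obtain ⟨b0, b2, pb0, pb2, sb0, sb2, e2, hb2, hb0⟩ := split2 (ρ := δ) pa sa
    rw [e2] at ha
    refine ⟨(b0, b1, b2), ?_, ?_⟩
    · simp only [Finset.coe_filter, Finset.mem_product, Set.mem_ofPred_eq, mem_S hR0]
      have e3 : B = b0 * (b1 * b2) := by rw [e1, e2]; ring
      have e4 : B = b1 * (b0 * b2) := by rw [e1, e2]; ring
      have e5 : B = b2 * (b0 * b1) := by rw [e1, e2]; ring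
      refine ⟨⟨⟨?_, pb0, sb0⟩, ⟨?_, pb1, sb1⟩, ⟨?_, pb2, sb2⟩⟩, hb1, hb2,
        ha.of_mul_left_right.mul_right hb0⟩
      · exact (nm_le_mul_left' (pb1.mul pb2)).trans (by rw [← e3]; exact hBR)
      · exact (nm_le_mul_left' (pb0.mul pb2)).trans (by rw [← e4]; exact hBR)
      · exact (nm_le_mul_left' (pb0.mul pb1)).trans (by rw [← e5]; exact hBR)
    · simp only
      rw [e1, e2]; ring

/-! ### the separated terms -/

open Classical in
/-- the separated term; `z = m n²` -/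
def QT (c ρ δ z : Eis) (φ : Eis → ℂ) (D B0 B1 B2 : Eis) : ℂ :=
  if D * (B0 ^ 3 * B1 ^ 2 * B2) ∣ z then
    cB D * (conj (sy (c * ρ * δ ^ 2) D) * conj (sy (z / D) D)) *
      ((muE (B0 * B1 * B2) : ℂ) * (nm (B0 * B1 * B2) : ℂ) ^ 3) *
      NT 1 (c * ((ρ / B1) * (δ / B2) ^ 2) * (z / (D * (B0 ^ 3 * B1 ^ 2 * B2))))
        (fun k => φ (D ^ 2 * (B0 * B1 * B2) ^ 3 * k))
  else 0

lemma pp_dvd_z {m n p : Eis} (hp : Prime p) : p ∣ m * n ^ 2 ↔ p ∣ m * n := by
  rw [hp.dvd_mul, hp.dvd_mul, hp.dvd_pow_iff_dvd (by norm_num)]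

lemma sq_dvd_of {p a b : Eis} (ha : p ∣ a) (hb : p ∣ b) : p ^ 2 ∣ a * b := by
  rw [pow_two]; exact mul_dvd_mul ha hb

lemma not_cop_of_sq {D u p : Eis} (hD : D ∣ u) (hDs : Squarefree D) (hD0 : D ≠ 0)
    (hp : Prime p) (hpD : p ∣ D) (h2 : p ^ 2 ∣ u) : ¬ IsCoprime (u / D) D := by
  intro h
  obtain ⟨v, rfl⟩ := hD
  rw [div_eq' hD0 (c := v) rfl] at h
  obtain ⟨D', rfl⟩ := hpD
  have hpD' : ¬ p ∣ D' := fun h' => hp.not_unit (hDs p (mul_dvd_mul_left p h'))
  have h3 : p ∣ D' * v := by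
    have : p * p ∣ p * (D' * v) := by
      have e : p * (D' * v) = p * D' * v := by ring
      rw [e, ← pow_two]; exact h2
    exact (mul_dvd_mul_iff_left hp.ne_zero).mp this
  rcases hp.dvd_or_dvd h3 with h4 | h4
  · exact hpD' h4
  · exact hp.not_unit (h.isUnit_of_dvd' h4 (dvd_mul_right _ _))

section term

variable {c ρ δ m n : Eis} (hc : NoP 1 c) (hρ : IsPrim ρ) (hρs : Squarefree ρ) (hδ : IsPrim δ)
  (hδs : Squarefree δ) (hρδ : IsCoprime ρ δ) (hm : IsPrim m) (hn : IsPrim n)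
include hc hρ hρs hδ hδs hρδ hm hn

lemma term_eq (φ : Eis → ℂ) {D B0 B1 B2 : Eis} (hD : D ∈ dvs (rd (m * (δ * n))))
    (hB0 : IsPrim B0 ∧ Squarefree B0) (hB1 : IsPrim B1 ∧ Squarefree B1)
    (hB2 : IsPrim B2 ∧ Squarefree B2) (hX : condX ρ δ B0 B1 B2) : open Classical in
    (if B0 * B1 * B2 ∣ rd (m * (δ * n)) then
      Tf 1 (c * ρ * (m * (δ * n) ^ 2)) φ D (B0 * B1 * B2) else 0) =
      QT c ρ δ (m * n ^ 2) φ D B0 B1 B2 := by
  classical
  have hF0 : m * (δ * n) ≠ 0 := (hm.mul (hδ.mul hn)).ne_zero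
  have hr0 : rd (m * (δ * n)) ≠ 0 := (rd_prim _).ne_zero
  obtain ⟨pD, hDr⟩ := (mem_dvs hr0).mp hD
  have sD : Squarefree D := (rd_sqf _).squarefree_of_dvd hDr
  obtain ⟨⟨ρ', rfl⟩, ⟨δ', rfl⟩, cX⟩ := hX
  have pρ' : IsPrim ρ' := hρ.of_mul_left hB1.1
  have pδ' : IsPrim δ' := hδ.of_mul_left hB2.1
  set z := m * n ^ 2 with hz
  set u := c * (B1 * ρ') * (m * (B2 * δ' * n) ^ 2) with hu
  have hz0 : z ≠ 0 := (hm.mul (hn.pow 2)).ne_zero
  have euz : u = c * (B1 * ρ') * (B2 * δ') ^ 2 * z := by rw [hu, hz]; ring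
  have hc0 : c ≠ 0 := hc.1
  have hu0 : u ≠ 0 := by
    rw [euz]
    exact mul_ne_zero (mul_ne_zero (mul_ne_zero hc0 hρ.ne_zero) (pow_ne_zero 2 hδ.ne_zero)) hz0
  have hDu : D ∣ u := by
    refine (hDr.trans (rd_dvd _)).trans ?_
    exact ⟨c * (B1 * ρ') * (B2 * δ' * n), by rw [hu]; ring⟩
  by_cases hsy : sy (u / D) D = 0
  · -- both sides vanish
    have hL : (if B0 * B1 * B2 ∣ rd (m * (B2 * δ' * n)) then Tf 1 u φ D (B0 * B1 * B2) else 0)
        = 0 := by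
      split_ifs
      · exact Tf_of_sy hsy
      · rfl
    rw [hL]
    unfold QT
    split_ifs with h
    · obtain ⟨z', hz'⟩ := (dvd_mul_right D _).trans h
      have e1 : z / D = z' := div_eq' pD.ne_zero hz'
      have e2 : u / D = c * (B1 * ρ') * (B2 * δ') ^ 2 * z' :=
        div_eq' pD.ne_zero (by rw [euz, hz']; ring)
      rw [e2, syAx.mul_left _ _ _ pD] at hsy
      rw [e1, ← map_mul, hsy]
      simp
    · rfl
  · have hcop : IsCoprime (u / D) D := by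
      by_contra hcon
      exact hsy ((syAx.eq_zero _ _ pD).mpr hcon)
    -- D is prime to c ρ δ²
    have hDx : IsCoprime D (c * (B1 * ρ') * (B2 * δ') ^ 2) := by
      rw [isCoprime_iff_pp pD]
      intro p hp hpD hpx
      have hpp := hp.prime
      have hpr : p ∣ m * (B2 * δ' * n) := (hpD.trans hDr).trans (rd_dvd _)
      refine not_cop_of_sq hDu sD pD.ne_zero hpp hpD ?_ hcop
      by_cases hpδ : p ∣ B2 * δ'
      · rw [euz]
        exact ((pow_dvd_pow_of_dvd hpδ 2).mul_left _).mul_right _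
      · have h1 : p ∣ z := by
          rw [hz, pp_dvd_z hpp]
          rcases hpp.dvd_or_dvd hpr with h | h
          · exact h.mul_right _
          · rcases hpp.dvd_or_dvd h with h | h
            · exact absurd h hpδ
            · exact h.mul_left _
        rw [euz]
        exact sq_dvd_of hpx h1
    have hDz : D ∣ z := by
      rw [euz] at hDu
      exact hDx.dvd_of_dvd_mul_left hDu
    have c01 : IsCoprime B0 B1 := cX.of_mul_right_left.of_mul_right_left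
    have c02 : IsCoprime B0 B2 := cX.of_mul_right_right.of_mul_right_left
    have c12 : IsCoprime B1 B2 := hρδ.of_mul_left_left.of_mul_right_left
    have cond_iff : (B0 * B1 * B2 ∣ rd (m * (B2 * δ' * n)) ∧ (B0 * B1 * B2) ^ 3 ∣ u) ↔
        D * (B0 ^ 3 * B1 ^ 2 * B2) ∣ z := by
      constructor
      · rintro ⟨-, h3⟩
        have pB : IsPrim (B0 * B1 * B2) := (hB0.1.mul hB1.1).mul hB2.1
        have h4 : B0 ^ 3 * B1 ^ 2 * B2 ∣ c * (ρ' * δ' ^ 2) * z := by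
          have h5 : (B1 * B2 ^ 2) * (B0 ^ 3 * B1 ^ 2 * B2) ∣ (B1 * B2 ^ 2) * (c * (ρ' * δ' ^ 2) * z) := by
            have e1 : (B1 * B2 ^ 2) * (B0 ^ 3 * B1 ^ 2 * B2) = (B0 * B1 * B2) ^ 3 := by ring
            have e2 : (B1 * B2 ^ 2) * (c * (ρ' * δ' ^ 2) * z) = u := by rw [euz]; ring
            rw [e1, e2]; exact h3
          exact (mul_dvd_mul_iff_left (mul_ne_zero hB1.1.ne_zero
            (pow_ne_zero 2 hB2.1.ne_zero))).mp h5
        have k0 : IsCoprime B0 (c * (ρ' * δ' ^ 2)) :=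
          (hc.coprime ⟨hB0.1, isCoprime_one_right⟩).symm.mul_right
            (cX.of_mul_right_left.of_mul_right_right.mul_right
              cX.of_mul_right_right.of_mul_right_right.pow_right)
        have k1 : IsCoprime B1 (c * (ρ' * δ' ^ 2)) := by
          refine (hc.coprime ⟨hB1.1, isCoprime_one_right⟩).symm.mul_right (IsCoprime.mul_right ?_
            (hρδ.of_mul_left_left.of_mul_right_right).pow_right)
          rw [isCoprime_iff_pp hB1.1]
          intro p hp h6 h7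
          exact hp.prime.not_isUnit (hρs p (mul_dvd_mul h6 h7))
        have k2 : IsCoprime B2 (c * (ρ' * δ' ^ 2)) := by
          refine (hc.coprime ⟨hB2.1, isCoprime_one_right⟩).symm.mul_right (IsCoprime.mul_right
            (hρδ.of_mul_right_left.of_mul_left_right).symm (IsCoprime.pow_right ?_))
          rw [isCoprime_iff_pp hB2.1]
          intro p hp h6 h7
          exact hp.prime.not_isUnit (hδs p (mul_dvd_mul h6 h7))
        have h5 : B0 ^ 3 * B1 ^ 2 * B2 ∣ z :=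
          ((k0.pow_left.mul_left k1.pow_left).mul_left k2).dvd_of_dvd_mul_left h4
        have cDB : IsCoprime D (B0 ^ 3 * B1 ^ 2 * B2) := by
          have : IsCoprime D (B0 * B1 * B2) := by
            rw [isCoprime_iff_pp pD]
            intro p hp hpD hpB
            refine not_cop_of_sq hDu sD pD.ne_zero hp.prime hpD ?_ hcop
            exact (pow_dvd_pow p (by norm_num)).trans ((pow_dvd_pow_of_dvd hpB 3).trans h3)
          exact (this.of_mul_right_left.of_mul_right_left.pow_right.mul_right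
            this.of_mul_right_left.of_mul_right_right.pow_right).mul_right this.of_mul_right_right
        exact cDB.mul_dvd hDz h5
      · intro h
        have h5 : B0 ^ 3 * B1 ^ 2 * B2 ∣ z := (dvd_mul_left _ _).trans h
        refine ⟨?_, ?_⟩
        · have hpr : ∀ {b : Eis}, IsPrim b → Squarefree b → b ∣ z ∨ b ∣ B2 →
              b ∣ rd (m * (B2 * δ' * n)) := by
            intro b hb hbs hor
            refine sqf_dvd_of_pp hb hbs fun p hp hpb => ?_
            rw [pp_dvd_rd hF0 hp]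
            rcases hor with h6 | h6
            · have h7 := (pp_dvd_z hp.prime).mp (hpb.trans h6)
              exact h7.trans ⟨B2 * δ', by ring⟩
            · exact (hpb.trans h6).trans ⟨m * (δ' * n), by ring⟩
          have d0 := hpr hB0.1 hB0.2 (Or.inl ((dvd_pow_self B0 (by norm_num)).trans
            (((dvd_mul_right _ (B1 ^ 2)).mul_right _).trans h5)))
          have d1 := hpr hB1.1 hB1.2 (Or.inl ((dvd_pow_self B1 (by norm_num)).trans
            (((dvd_mul_left _ (B0 ^ 3)).mul_right _).trans h5)))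
          have d2 := hpr hB2.1 hB2.2 (Or.inr dvd_rfl)
          exact (c02.mul_left c12).mul_dvd (c01.mul_dvd d0 d1) d2
        · obtain ⟨y, hy⟩ := h5
          exact ⟨c * (ρ' * δ' ^ 2) * y, by rw [euz, hy]; ring⟩
    unfold QT
    by_cases hcd : D * (B0 ^ 3 * B1 ^ 2 * B2) ∣ z
    · obtain ⟨h1, h2⟩ := cond_iff.mpr hcd
      rw [if_pos h1, if_pos hcd]
      obtain ⟨y, hy⟩ := hcd
      have eu : u = D * (B0 * B1 * B2) ^ 3 * (c * (ρ' * δ' ^ 2) * y) := by rw [euz, hy]; ring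
      have pB : IsPrim (B0 * B1 * B2) := (hB0.1.mul hB1.1).mul hB2.1
      have eV : z / (D * (B0 ^ 3 * B1 ^ 2 * B2)) = y :=
        div_eq' (mul_ne_zero pD.ne_zero ((hB0.1.pow 3).mul (hB1.1.pow 2) |>.mul hB2.1).ne_zero) hy
      have eD : z / D = B0 ^ 3 * B1 ^ 2 * B2 * y := div_eq' pD.ne_zero (by rw [hy]; ring)
      rw [eV, eD, eu, Tf_eq pD.ne_zero pB.ne_zero, div_eq' hB1.1.ne_zero (c := ρ') rfl,
        div_eq' hB2.1.ne_zero (c := δ') rfl]
      have e5 : (B0 * B1 * B2) ^ 3 * (c * (ρ' * δ' ^ 2) * y) =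
          (c * (B1 * ρ') * (B2 * δ') ^ 2) * (B0 ^ 3 * B1 ^ 2 * B2 * y) := by ring
      rw [e5, syAx.mul_left _ _ _ pD, map_mul]
    · rw [if_neg hcd]
      split_ifs with h1
      · refine Tf_of_not_dvd fun h2 => hcd (cond_iff.mp ⟨h1, h2⟩)
      · rfl

open Classical in
/-- **separation of the removal** -/
theorem NT_sep {R : ℝ} (hR : 1 ≤ R) (hRr : (nm (m * (δ * n)) : ℝ) ≤ R) (φ : Eis → ℂ) :
    ∑ D ∈ dvs (rd (m * (δ * n))), ∑ B ∈ (dvs (rd (m * (δ * n)))).filter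
        (fun B => B ^ 3 ∣ c * ρ * (m * (δ * n) ^ 2)),
        cB D * conj (sy (c * ρ * (m * (δ * n) ^ 2) / D) D) * ((muE B : ℂ) * (nm B : ℂ) ^ 3) *
          NT 1 (c * ρ * (m * (δ * n) ^ 2) / (D * B ^ 3)) (fun k => φ (D ^ 2 * B ^ 3 * k)) =
      ∑ D ∈ S R, ∑ B0 ∈ S R, ∑ B1 ∈ S R, ∑ B2 ∈ S R,
        if condX ρ δ B0 B1 B2 then QT c ρ δ (m * n ^ 2) φ D B0 B1 B2 else 0 := by
  have hR0 : (0 : ℝ) ≤ R := by linarith
  have hF0 : m * (δ * n) ≠ 0 := (hm.mul (hδ.mul hn)).ne_zero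
  have hr0 : rd (m * (δ * n)) ≠ 0 := (rd_prim _).ne_zero
  have hmem : ∀ {b : Eis}, b ∈ dvs (rd (m * (δ * n))) ↔ b ∈ S R ∧ b ∣ rd (m * (δ * n)) := by
    intro b
    rw [mem_dvs hr0, mem_S hR0]
    constructor
    · rintro ⟨h1, h2⟩
      have h3 : nm b ≤ nm (m * (δ * n)) := nm_le_of_dvd hF0 (h2.trans (rd_dvd _))
      exact ⟨⟨le_trans (by exact_mod_cast h3) hRr, h1, (rd_sqf _).squarefree_of_dvd h2⟩, h2⟩
    · rintro ⟨h1, h2⟩
      exact ⟨h1.2.1, h2⟩
  -- the sum over B for fixed D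
  have hB : ∀ D ∈ dvs (rd (m * (δ * n))),
      ∑ B ∈ (dvs (rd (m * (δ * n)))).filter (fun B => B ^ 3 ∣ c * ρ * (m * (δ * n) ^ 2)),
        cB D * conj (sy (c * ρ * (m * (δ * n) ^ 2) / D) D) * ((muE B : ℂ) * (nm B : ℂ) ^ 3) *
          NT 1 (c * ρ * (m * (δ * n) ^ 2) / (D * B ^ 3)) (fun k => φ (D ^ 2 * B ^ 3 * k)) =
      ∑ B0 ∈ S R, ∑ B1 ∈ S R, ∑ B2 ∈ S R,
        if condX ρ δ B0 B1 B2 then QT c ρ δ (m * n ^ 2) φ D B0 B1 B2 else 0 := by
    intro D hD
    have e1 : ∑ B ∈ (dvs (rd (m * (δ * n)))).filter (fun B => B ^ 3 ∣ c * ρ * (m * (δ * n) ^ 2)),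
        cB D * conj (sy (c * ρ * (m * (δ * n) ^ 2) / D) D) * ((muE B : ℂ) * (nm B : ℂ) ^ 3) *
          NT 1 (c * ρ * (m * (δ * n) ^ 2) / (D * B ^ 3)) (fun k => φ (D ^ 2 * B ^ 3 * k)) =
        ∑ B ∈ S R, if B ∣ rd (m * (δ * n)) then Tf 1 (c * ρ * (m * (δ * n) ^ 2)) φ D B else 0 := by
      rw [Finset.sum_filter, ← Finset.sum_filter]
      have e2 : (S R).filter (fun B => B ∣ rd (m * (δ * n))) = dvs (rd (m * (δ * n))) := by
        ext b
        rw [Finset.mem_filter, hmem]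
      rw [← Finset.sum_filter, e2, Finset.sum_filter]
      rfl
    rw [e1, ← split3 hR hρδ (fun B => if B ∣ rd (m * (δ * n)) then
      Tf 1 (c * ρ * (m * (δ * n) ^ 2)) φ D B else 0) ?_]
    · refine Finset.sum_congr rfl fun B0 h0 => Finset.sum_congr rfl fun B1 h1 =>
        Finset.sum_congr rfl fun B2 h2 => ?_
      rw [mem_S hR0] at h0 h1 h2
      split_ifs with hX h3
      · have := term_eq hc hρ hρs hδ hδs hρδ hm hn φ hD h0.2 h1.2 h2.2 hX
        rw [if_pos h3] at this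
        exact this
      · have := term_eq hc hρ hρs hδ hδs hρδ hm hn φ hD h0.2 h1.2 h2.2 hX
        rw [if_neg h3] at this
        exact this
      · rfl
    · intro B hne
      have h3 : B ∣ rd (m * (δ * n)) := by
        by_contra hcon
        exact hne (if_neg hcon)
      have h4 : nm B ≤ nm (m * (δ * n)) := nm_le_of_dvd hF0 (h3.trans (rd_dvd _))
      exact le_trans (by exact_mod_cast h4) hRr
  rw [Finset.sum_congr rfl hB]
  refine Finset.sum_subset (fun D hD => (hmem.mp hD).1) (fun D hD hD' => ?_)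
  refine Finset.sum_eq_zero fun B0 _ => Finset.sum_eq_zero fun B1 _ =>
    Finset.sum_eq_zero fun B2 _ => ?_
  split_ifs with hX
  · unfold QT
    rw [if_neg]
    intro h
    apply hD'
    refine hmem.mpr ⟨hD, ?_⟩
    rw [mem_S hR0] at hD
    refine sqf_dvd_of_pp hD.2.1 hD.2.2 fun p hp hpD => ?_
    rw [pp_dvd_rd hF0 hp]
    have h7 := (pp_dvd_z hp.prime).mp (hpD.trans ((dvd_mul_right D _).trans h))
    exact h7.trans ⟨δ, by ring⟩
  · rfl

end term

end Crest.Agent.R017.E4F266
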