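import Crest.Agent.R017.E4e_352

/-!
# Row 17, C70/E4: bound of one admissible term (helper352)
-/

set_option autoImplicit false

noncomputable section

open Complex
open scoped ComplexConjugate

namespace Crest.Agent.R017.E4352

open Crest.Agent.R012 Crest.Agent.R012.Eis Crest.Agent.R012.Mob705 Crest.Agent.R012.Gauss880
open Crest.Agent.R012.GaussLoc283
open Crest.Agent.R012.Div277
open Crest.Agent.R017.Sx545 Crest.Agent.R017.CM106 Crest.Agent.R017.C70 Crest.Agent.R017.C590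
open Crest.Agent.R017.B770 Crest.Agent.R017.E2440 Crest.Agent.R017.End699
open Crest.Agent.R017.E4579 (bpt bco SupB)

/-- the coefficient of a term of the opening -/
def cc (D B F : Eis) : ℂ := cB D * conj (sy F D) * ((muE B : ℂ) * (nm B : ℂ) ^ 3)

lemma norm_muE {B : Eis} (hBs : Squarefree B) : ‖(muE B : ℂ)‖ = 1 := by
  have h2 := abs_muE_of_squarefree hBs
  have h3 : ‖(muE B : ℂ)‖ = ((|muE B| : ℤ) : ℝ) := by
    rw [Complex.norm_intCast, Int.cast_abs]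
  rw [h3, h2]; simp

lemma norm_cc_le {D B F : Eis} (hD : IsPrim D) (hDs : Squarefree D) (hBs : Squarefree B) :
    ‖cc D B F‖ ≤ (nm D : ℝ) ^ (3 / 2 : ℝ) * (nm B : ℝ) ^ 3 := by
  have hN : (0 : ℝ) < nm D := by have := one_le_nm hD.ne_zero; linarith
  have h1 : ‖cB D‖ = (nm D : ℝ) ^ (3 / 2 : ℝ) := by
    unfold cB
    rw [norm_mul, norm_mul, norm_mul, Complex.norm_real, norm_muE hDs,
      Gauss880.norm_G Gauss880.syG hD hDs, mul_one, one_mul, Complex.norm_natCast,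
      Real.norm_of_nonneg (Real.sqrt_nonneg _), Real.sqrt_eq_rpow]
    nth_rewrite 1 [← Real.rpow_one (nm D : ℝ)]
    rw [← Real.rpow_add hN]
    norm_num
  have h2 : ‖conj (sy F D)‖ ≤ 1 := by rw [RCLike.norm_conj]; exact norm_sy_le' hD
  unfold cc
  rw [norm_mul, norm_mul, norm_mul, norm_muE hBs, norm_pow, Complex.norm_natCast, one_mul, h1]
  refine mul_le_mul_of_nonneg_right ?_ (by positivity)
  exact mul_le_of_le_one_right (by positivity) h2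

lemma WT.mono {m₀ N₀ m N : ℕ} {B : ℝ} (hB : 0 ≤ B) {W : ℝ → ℂ} (h : WT m₀ N₀ B W) (hm : m ≤ m₀)
    (hN : N ≤ N₀) : WT m N B W where
  smooth := h.smooth
  dec := by
    intro k hk y hy
    refine (h.dec k (hk.trans hm) y hy).trans (mul_le_mul_of_nonneg_left ?_ hB)
    by_cases h1 : 1 ≤ y
    · refine min_le_min le_rfl ?_
      exact inv_anti₀ (by positivity) (pow_le_pow_right₀ h1 hN)
    · push Not at h1
      refine (min_le_left _ _).trans ?_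
      refine le_min le_rfl ?_
      rw [one_le_inv₀ (by positivity)]
      exact pow_le_one₀ hy.le h1.le

lemma BdC.scale {Bd : ℝ → ℝ → ℝ} (h : BdC Bd) {z : ℝ} (hz : 1 ≤ z) :
    BdC (fun κ z' => Bd κ (z * z')) where
  nn := fun κ z' => h.nn _ _
  anti := fun κ a b ha hab => h.anti _ _ _ (by nlinarith) (by nlinarith)

variable {M : Eis} {ψ : Eis → ℂ} {l : ℤ} {ι : Type} [Fintype ι] {DD : Dt3 ι} {V : ℝ → ℂ}
  {W : ι → ℝ → ℂ} {mt : Eis → ℝ → ℝ}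

lemma sm_of_PrI {t R : Eis} (ht : Sm M t) (hR : PrI t R) : Sm M R := by
  refine ⟨hR.1, cop_of_primes hR.1 fun p hp h1 h2 => ?_⟩
  exact hp.not_isUnit (ht.cop.isUnit_of_dvd' (hR.2 p hp h1) h2)

/-- the numeric identity -/
lemma num_id {a₀ a₁ a₃ b K S : ℝ} (h0 : 0 < a₀) (h1 : 0 < a₁) (h3 : 0 < a₃) (hb : 0 < b) :
    (a₀ * a₁) ^ (3 / 2 : ℝ) * b ^ 3 * (K / ((a₀ * a₁) ^ 2 * b ^ 3) *
      (S * (a₀ ^ (1 / 2 : ℝ) * (a₁ ^ (1 / 2 : ℝ) * a₃)⁻¹))) = K * S * (a₁⁻¹ * a₃⁻¹) := by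
  have e1 : (a₀ * a₁) ^ (3 / 2 : ℝ) = (a₀ * a₁) * (a₀ ^ (1 / 2 : ℝ) * a₁ ^ (1 / 2 : ℝ)) := by
    rw [← Real.mul_rpow h0.le h1.le]
    nth_rewrite 2 [← Real.rpow_one (a₀ * a₁)]
    rw [← Real.rpow_add (by positivity)]
    norm_num
  have e2 : a₀ ^ (1 / 2 : ℝ) * a₀ ^ (1 / 2 : ℝ) = a₀ := by
    rw [← Real.rpow_add h0]; norm_num
  have h4 : 0 < a₁ ^ (1 / 2 : ℝ) := by positivity
  have e3 : (a₀ ^ (1 / 2 : ℝ)) ^ 2 = a₀ := by rw [sq, e2]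
  rw [e1]
  field_simp
  rw [e3]


open Classical in
/-- **the bound of one admissible term** -/
theorem good_term {Cp : ℝ} {Ci : ι → ℝ} {mi Ni : ι → ℕ} {ε ε₁ A : ℝ} (hε₁ : 0 < ε₁)
    (hε : 12 * ε₁ ≤ ε) (hA : 0 ≤ A) (hCi : ∀ i, 0 ≤ Ci i) (hCp : 0 ≤ Cp)
    (hψ : HC M ψ) (hDD : DD.OK M)
    (HPr : ∀ (M f : Eis) (O : Type) (_ : Fintype O) (lam : O → ℝ) (v w : O → Eis → ℂ) (X K B : ℝ)
      (φ : O → Eis → ℂ) (Bd : ℝ → ℝ → ℝ) (S : ℝ), Dat4 M f lam v w X → 0 < K → K ≤ X → 0 ≤ B →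
      0 ≤ S → BdC Bd →
      (∀ o k, Sm M k → ‖φ o k‖ ≤ B) → (∀ o k, K / lam o < nm k → φ o k = 0) →
      (∀ b R Z κ, Sm M b → PrI b R → PrI b Z → (∀ p : Eis, Prime p → p ∣ b → p ∣ f * R * Z) →
        0 < κ → PBo M lam b R Z (fun y => sy y b) v w κ ≤ Bd κ (nm (rd Z))) →
      (∀ b₁ b₃ κ : ℝ, 1 ≤ b₁ → 1 ≤ b₃ → 1 / 4 ≤ κ → κ * b₁ ^ 2 * b₃ ^ 3 ≤ K →
        b₁ ^ (1 / 2 : ℝ) * b₃ * κ ^ (-(1 / 2) : ℝ) * Bd κ (b₁ * b₃) ≤ S) →
      ‖∑ o, ∑' x : Eis, v o x * ∑' y : Eis, w o y * NT M (f * x * y) (φ o)‖ ≤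
        Cp * X ^ ε₁ * B * K * S)
    (HDu : ∀ i, ∀ (f : Eis) (O : Type) (_ : Fintype O) (lam : O → ℝ) (v w : O → Eis → ℂ)
      (X Q Kd B : ℝ)
      (W : ℝ → ℂ) (Bd : ℝ → ℝ → ℝ) (S : ℝ), Dat4 M f lam v w X → X⁻¹ ≤ Q → Q ≤ X → 0 < Kd →
      Kd ≤ X → 0 ≤ B → 0 ≤ S → BdC Bd → WT (mi i) (Ni i) B W →
      (∀ o x y, v o x ≠ 0 → w o y ≠ 0 → (nm (f * x * y) : ℝ) * lam o ^ 2 ≤ Kd * Q) →
      (∀ b R Z g ξ κ, Sm M b → PrI b R → PrI b Z →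
        (∀ p : Eis, Prime p → p ∣ b → p ∣ f * R * Z) → TwC DD.M' DD.j b ξ g → 0 < κ →
        PBo M lam b R Z g v w κ ≤ (1 + |ξ|) ^ (A + 4) * Bd κ (nm (rd Z))) →
      (∀ b₁ b₃ κ : ℝ, 1 ≤ b₁ → 1 ≤ b₃ → 1 / 4 ≤ κ → κ * b₁ ^ 2 * b₃ ^ 3 ≤ Kd * X ^ ε₁ →
        b₁ ^ (1 / 2 : ℝ) * b₃ * κ ^ (-(1 / 2) : ℝ) * Bd κ (b₁ * b₃) ≤ S) →
      ‖∑ o, ∑' x : Eis, v o x * ∑' y : Eis, w o y * (((Q / lam o : ℝ) : ℂ) *
        (End699.tw (DD.η i) DD.j (f * x * y) *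
          D3 M (End699.tw (DD.ψ' i) DD.l') (f * x * y) W
            (DD.ρ i * nm (f * x * y) / (Q / lam o))))‖ ≤
        Ci i * X ^ ε₁ * B * (Q * S + X ^ (-(A + 4))))
    {B : ℝ} (hB : 0 ≤ B) (hLaw : Law M ψ l DD V W mt) (hWT : ∀ i, WT (mi i) (Ni i) B (W i))
    (hVB : ∀ y, ‖V y‖ ≤ B) (hV1 : ∀ y, 1 < y → V y = 0)
    {f : Eis} {O : Type} [Fintype O] {lam : O → ℝ} {v w : O → Eis → ℂ} {X K U T₀ : ℝ}
    {Bd : ℝ → ℝ → ℝ} {S Mn : ℝ} (hdat : Dat4 M f lam v w X) (hK1 : 1 ≤ K) (hKX : K ≤ X)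
    (hU : 0 < U) (hUX : U ≤ X) (hS : 0 ≤ S) (hMn : 0 ≤ Mn) (hBd : BdC Bd)
    (hnm : ∀ o x y, v o x ≠ 0 → w o y ≠ 0 → (nm (f * x * y) : ℝ) * lam o ^ 2 ≤ U)
    (HP : ∀ q R Z g ξ κ, Sm M q → PrI q R → PrI q Z →
        (∀ p : Eis, Prime p → p ∣ q → p ∣ f * R * Z) → TwC DD.M' DD.j q ξ g → 0 < κ →
        PBo M lam q R Z g v w κ ≤ (1 + |ξ|) ^ (A + 4) * Bd κ (nm (rd Z)))
    (hnum : ∀ a₀ a₁ a₃ b₁ b₃ κ : ℝ, 1 ≤ a₀ → a₀ ≤ nm (rd f) → 1 ≤ a₁ → 1 ≤ a₃ → 1 ≤ b₁ →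
        1 ≤ b₃ → 1 / 4 ≤ κ →
        κ * b₁ ^ 2 * b₃ ^ 3 ≤
          (if a₁ * a₃ ≤ T₀ then U / K * (a₀ * a₁) else K / (a₀ ^ 2 * a₁ ^ 2 * a₃ ^ 3)) * X ^ ε →
        a₀ ^ (-(1 / 2) : ℝ) * (a₁ ^ (1 / 2 : ℝ) * a₃ * b₁ ^ (1 / 2 : ℝ) * b₃ *
          κ ^ (-(1 / 2) : ℝ) * Bd κ (a₁ * a₃ * (b₁ * b₃))) ≤ S)
    (HM : ∀ R Z q₁ q₃ F : Eis, Sm M q₁ → Sm M q₃ → Squarefree q₁ → Squarefree q₃ →
        IsCoprime q₁ q₃ → (nm (rd Z) : ℝ) ≤ T₀ → f * R * Z = q₁ * q₃ ^ 3 * F → IsCoprime F q₁ →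
        Sm M F → PrI (q₁ * q₃) R → PrI (q₁ * q₃) Z →
        ((nm q₁ : ℝ) ^ (5 / 2 : ℝ) * (nm q₃ : ℝ) ^ 4) *
          ∑ o, ∑' x : Eis, ‖tws R (q₁ * q₃) (fun _ => 1) (v o) x‖ *
            ∑' y : Eis, ‖tws Z (q₁ * q₃) (fun _ => 1) (w o) y‖ *
              mt (F * x * y) (K / (lam o * nm (q₁ ^ 2 * q₃ ^ 3))) ≤ Mn)
    {D Bq R Z : Eis} (hDX : (nm D : ℝ) ≤ X ^ 2) (hBX : (nm Bq : ℝ) ≤ X ^ 2)
    (hRX : (nm R : ℝ) ≤ X) (hZX : (nm Z : ℝ) ≤ X) (hR : PrI (D * Bq) R) (hZ : PrI (D * Bq) Z)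
    (hG : Good M f D Bq R Z) :
    ‖cc D Bq (f * R * Z / (D * Bq ^ 3)) * ∑ o, ∑' x : Eis, tws R (D * Bq) (cj D) (v o) x *
        ∑' y : Eis, tws Z (D * Bq) (cj D) (w o) y *
          NT M (f * R * Z / (D * Bq ^ 3) * x * y) (fun k => End699.tw ψ l (D ^ 2 * Bq ^ 3 * k) *
            V (nm (D ^ 2 * Bq ^ 3 * k) * lam o / K))‖ ≤
      ((nm (bco f D) : ℝ)⁻¹ * (nm (bco f Bq) : ℝ)⁻¹) *
        (((∑ i, ‖DD.κ i‖ * Ci i) + Cp) * X ^ ε * B * (K * S + X ^ (-A)) + Mn) := by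
  have hX1 := hdat.X1
  have hX0 : 0 < X := by linarith
  have hf := hdat.hf.1
  have hfp := hf.prim
  have hDS : Sm M D := hG.2.2.2.1
  have hBS : Sm M Bq := hG.2.2.2.2.1
  have htS : Sm M (D * Bq) := hDS.mul hBS
  have hRS : Sm M R := sm_of_PrI htS hR
  have hZS : Sm M Z := sm_of_PrI htS hZ
  obtain ⟨F, hFe, hF, hF2, hF3, hF4⟩ := hG.F_spec hf hRS hZS
  obtain ⟨Z₃, hZ3p, hZ3, hZ3B, hZ3d⟩ := hG.rdZ hf hRS hZS hZ
  have hDs : Squarefree D := hG.1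
  have hBs : Squarefree Bq := hG.2.1
  rw [← hFe]
  set E : Eis := D ^ 2 * Bq ^ 3 with hE
  have hEp : IsPrim E := (hDS.prim.pow 2).mul (hBS.prim.pow 3)
  -- numbers
  set a₀ : ℝ := ((nm (bpt f D) : ℕ) : ℝ) with ha₀
  set a₁ : ℝ := ((nm (bco f D) : ℕ) : ℝ) with ha₁
  set a₃ : ℝ := ((nm Z₃ : ℕ) : ℝ) with ha₃
  set b : ℝ := ((nm Bq : ℕ) : ℝ) with hb
  set β : ℝ := ((nm (bco f Bq) : ℕ) : ℝ) with hβ
  have ga₀ : 1 ≤ a₀ := one_le_nm (E4579.bpt_prim hfp hDS.prim).ne_zero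
  have ga₁ : 1 ≤ a₁ := one_le_nm (E4579.bco_prim hfp hDS.prim).ne_zero
  have ga₃ : 1 ≤ a₃ := one_le_nm hZ3p.ne_zero
  have gb : 1 ≤ b := one_le_nm hBS.ne_zero
  have gβ : 1 ≤ β := one_le_nm (E4579.bco_prim hfp hBS.prim).ne_zero
  have eD : (nm D : ℝ) = a₀ * a₁ := by
    rw [ha₀, ha₁, ← Nat.cast_mul, ← nm_mul, E4579.bpt_mul_bco hfp hDS.prim]
  have eZ : (nm (rd Z) : ℝ) = a₁ * a₃ := by
    rw [ha₁, ha₃, ← Nat.cast_mul, ← nm_mul, hZ3]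
  have hβa₃ : β ≤ a₃ := by
    rw [hβ, ha₃]; exact_mod_cast nm_le_of_dvd hZ3p.ne_zero hZ3B
  have ha₃b : a₃ ≤ b := by
    rw [hb, ha₃]; exact_mod_cast nm_le_of_dvd hBS.ne_zero hZ3d
  have hβb : β ≤ b := hβa₃.trans ha₃b
  have ha₁D : a₁ ≤ nm D := by rw [eD]; nlinarith
  have ha₀f : a₀ ≤ nm (rd f) := by
    rw [ha₀]; exact_mod_cast nm_le_of_dvd (rd_prim f).ne_zero (bpt_dvd_rd hfp hDS.prim hDs)
  have eE : (nm E : ℝ) = (a₀ * a₁) ^ 2 * b ^ 3 := by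
    rw [hE, nm_mul, nm_pow, nm_pow]; push_cast; rw [eD]
  have hE1 : 1 ≤ (nm E : ℝ) := one_le_nm hEp.ne_zero
  have hEX : (nm E : ℝ) ≤ X ^ 10 := by
    rw [eE, ← eD]
    calc (nm D : ℝ) ^ 2 * b ^ 3 ≤ (X ^ 2) ^ 2 * (X ^ 2) ^ 3 := by gcongr
      _ = X ^ 10 := by ring
  set Y : ℝ := X ^ 12 with hY
  have hXY : X ≤ Y := by
    rw [hY]; exact le_self_pow₀ hX1 (by norm_num)
  have hY0 : 0 < Y := by linarith
  have hX2Y : X ^ 3 ≤ Y := by rw [hY]; exact pow_le_pow_right₀ hX1 (by norm_num)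
  have hYε : Y ^ ε₁ ≤ X ^ ε := by
    rw [hY, ← Real.rpow_natCast, ← Real.rpow_mul hX0.le]
    exact Real.rpow_le_rpow_of_exponent_le hX1 (by push_cast; linarith)
  have hXε1 : 1 ≤ X ^ ε := Real.one_le_rpow hX1 (by linarith)
  have hFY : (nm F : ℝ) ≤ Y := by
    have h1 : (nm F : ℝ) ≤ nm (f * R * Z) := by
      exact_mod_cast nm_le_of_dvd ((hf.mul hRS).mul hZS).ne_zero hF4
    refine h1.trans (le_trans ?_ hX2Y)
    rw [nm_mul, nm_mul]; push_cast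
    calc (nm f : ℝ) * nm R * nm Z ≤ X * X * X := by
          have := hdat.hf.2
          gcongr
      _ = X ^ 3 := by ring
  have hdat' : Dat4 M F lam (fun o => tws R (D * Bq) (cj D) (v o))
      (fun o => tws Z (D * Bq) (cj D) (w o)) Y :=
    Dat4_comp hdat hR.1 hZ.1 hDS.prim hF hXY hFY
  have htf : ∀ p : Eis, Prime p → p ∣ D * Bq → p ∣ f * Z := hG.2.2.2.2.2.2.2
  have hBd' : BdC (fun κ z' => Bd κ ((a₁ * a₃) * z')) := hBd.scale (by nlinarith)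
  have HP' : ∀ b R' Z' g ξ κ, Sm M b → PrI b R' → PrI b Z' →
      (∀ p : Eis, Prime p → p ∣ b → p ∣ F * R' * Z') → TwC DD.M' DD.j b ξ g → 0 < κ →
      PBo M lam b R' Z' g (fun o => tws R (D * Bq) (cj D) (v o))
        (fun o => tws Z (D * Bq) (cj D) (w o)) κ ≤
        (1 + |ξ|) ^ (A + 4) * Bd κ ((a₁ * a₃) * nm (rd Z')) := by
    intro b R' Z' g ξ κ h1 h2 h3 h4 h5 h6
    have := HP_comp (fun o => (hdat.lam1 o).1) hBd hDS.prim (dvd_mul_right D Bq) htS hR hZ htf hF4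
      HP b R' Z' g ξ κ h1 h2 h3 h4 h5 h6
    rwa [eZ] at this
  set St : ℝ := S * (a₀ ^ (1 / 2 : ℝ) * (a₁ ^ (1 / 2 : ℝ) * a₃)⁻¹) with hSt
  have hSt0 : 0 ≤ St := by rw [hSt]; positivity
  have hnum' : ∀ b₁ b₃ κ : ℝ, 1 ≤ b₁ → 1 ≤ b₃ → 1 / 4 ≤ κ → κ * b₁ ^ 2 * b₃ ^ 3 ≤
      (if a₁ * a₃ ≤ T₀ then U / K * (a₀ * a₁) else K / (a₀ ^ 2 * a₁ ^ 2 * a₃ ^ 3)) * X ^ ε →
      b₁ ^ (1 / 2 : ℝ) * b₃ * κ ^ (-(1 / 2) : ℝ) * Bd κ ((a₁ * a₃) * (b₁ * b₃)) ≤ St := by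
    intro b₁ b₃ κ h1 h3 hκ h
    have h5 := hnum a₀ a₁ a₃ b₁ b₃ κ ga₀ ha₀f ga₁ ga₃ h1 h3 hκ h
    have p0 : 0 < a₀ ^ (1 / 2 : ℝ) := by positivity
    have p1 : 0 < a₁ ^ (1 / 2 : ℝ) := by positivity
    have e1 : a₀ ^ (-(1 / 2) : ℝ) = (a₀ ^ (1 / 2 : ℝ))⁻¹ := by
      rw [Real.rpow_neg (by linarith)]
    rw [e1] at h5
    rw [hSt]
    have e2 : b₁ ^ (1 / 2 : ℝ) * b₃ * κ ^ (-(1 / 2) : ℝ) * Bd κ ((a₁ * a₃) * (b₁ * b₃)) =
        ((a₀ ^ (1 / 2 : ℝ))⁻¹ * (a₁ ^ (1 / 2 : ℝ) * a₃ * b₁ ^ (1 / 2 : ℝ) * b₃ *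
          κ ^ (-(1 / 2) : ℝ) * Bd κ (a₁ * a₃ * (b₁ * b₃)))) *
          (a₀ ^ (1 / 2 : ℝ) * (a₁ ^ (1 / 2 : ℝ) * a₃)⁻¹) := by
      field_simp
    rw [e2]
    exact mul_le_mul_of_nonneg_right h5 (by positivity)
  have hcc : ‖cc D Bq F‖ ≤ (a₀ * a₁) ^ (3 / 2 : ℝ) * b ^ 3 := by
    have := norm_cc_le (F := F) hDS.prim hDs hBs
    rwa [eD] at this
  have hcc0 := norm_nonneg (cc D Bq F)
  have hK0 : 0 < K := by linarith
  -- the main inequality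
  have hmain : ‖cc D Bq F‖ * (K / nm E * St) ≤ K * S * (a₁⁻¹ * β⁻¹) := by
    calc ‖cc D Bq F‖ * (K / nm E * St) ≤ (a₀ * a₁) ^ (3 / 2 : ℝ) * b ^ 3 * (K / nm E * St) :=
          mul_le_mul_of_nonneg_right hcc (by positivity)
      _ = K * S * (a₁⁻¹ * a₃⁻¹) := by
          rw [eE, hSt]
          exact num_id (by linarith) (by linarith) (by linarith) (by linarith)
      _ ≤ K * S * (a₁⁻¹ * β⁻¹) := by
          gcongr
  have hsum0 : 0 ≤ ∑ i, ‖DD.κ i‖ * Ci i := Finset.sum_nonneg fun i _ =>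
    mul_nonneg (norm_nonneg _) (hCi i)
  have hXA : 0 ≤ X ^ (-A) := Real.rpow_nonneg hX0.le _
  have hP0 : 0 ≤ K * S + X ^ (-A) := by positivity
  have hab : 0 < a₁⁻¹ * β⁻¹ := by positivity
  rw [norm_mul]
  by_cases hT : a₁ * a₃ ≤ T₀
  · -- the functional equation
    have hvN : ∀ o x, tws R (D * Bq) (cj D) (v o) x ≠ 0 → nm x ≤ ⌊X⌋₊ := fun o x hx =>
      Nat.le_floor (nm_tws_le hR.1 (fun x hx => (hdat.vx o x hx).2) hx)
    have hwN : ∀ o x, tws Z (D * Bq) (cj D) (w o) x ≠ 0 → nm x ≤ ⌊X⌋₊ := fun o x hx =>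
      Nat.le_floor (nm_tws_le hZ.1 (hdat.wy o) hx)
    have h1 := dual_term (V := V) (W := W) hψ hLaw (fun o => (hdat.lam1 o).1)
      (fun o => hdat'.hv o) (fun o => hdat'.hw o) hvN hwN hEp hF hK0
    -- each dual expression
    have h2 : ∀ i, ‖DE M DD W i lam (fun o => tws R (D * Bq) (cj D) (v o))
        (fun o => tws Z (D * Bq) (cj D) (w o)) F (K / nm E)‖ ≤
        Ci i * X ^ ε * B * (K / nm E * St + Y ^ (-(A + 4))) := by
      intro i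
      have h3 := HDu i F O _ lam (fun o => tws R (D * Bq) (cj D) (v o))
        (fun o => tws Z (D * Bq) (cj D) (w o)) Y (K / nm E) (U / K * (a₀ * a₁)) B (W i)
        (fun κ z' => Bd κ ((a₁ * a₃) * z')) St hdat' ?_ ?_ (by positivity) ?_ hB hSt0 hBd'
        (hWT i) ?_ HP' ?_
      · refine h3.trans ?_
        have : 0 ≤ Y ^ (-(A + 4)) := Real.rpow_nonneg hY0.le _
        have : 0 ≤ K / nm E * St := by positivity
        have := hCi i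
        gcongr
      · -- `Y⁻¹ ≤ Q`
        rw [inv_le_comm₀ hY0 (by positivity), inv_div]
        rw [div_le_iff₀ hK0]
        calc (nm E : ℝ) ≤ X ^ 10 := hEX
          _ ≤ Y := by rw [hY]; exact pow_le_pow_right₀ hX1 (by norm_num)
          _ ≤ Y * K := by nlinarith
      · exact (div_le_self hK0.le hE1).trans (hKX.trans hXY)
      · refine le_trans ?_ hX2Y
        have h4 : U / K ≤ X := (div_le_self hU.le hK1).trans hUX
        calc U / K * (a₀ * a₁) ≤ X * X ^ 2 := by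
              rw [← eD]
              gcongr
          _ = X ^ 3 := by ring
      · intro o x y hx hy
        have h4 := hnm o _ _ (tws_ne hx).2 (tws_ne hy).2
        have h5 : f * (R * x) * (Z * y) = D * Bq ^ 3 * (F * x * y) := by
          calc f * (R * x) * (Z * y) = (f * R * Z) * (x * y) := by ring
            _ = _ := by rw [hF2]; ring
        rw [h5, nm_mul, nm_mul D, nm_pow] at h4
        push_cast at h4
        rw [eD] at h4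
        have h6 : U / K * (a₀ * a₁) * (K / nm E) = U / ((a₀ * a₁) * b ^ 3) := by
          rw [eE]; field_simp
        rw [h6, le_div_iff₀ (by positivity)]
        calc (nm (F * x * y) : ℝ) * lam o ^ 2 * (a₀ * a₁ * b ^ 3)
            = a₀ * a₁ * b ^ 3 * nm (F * x * y) * lam o ^ 2 := by ring
          _ ≤ U := h4
      · intro b₁ b₃ κ h1 h3 hκ h
        refine hnum' b₁ b₃ κ h1 h3 hκ (h.trans ?_)
        rw [if_pos hT]
        gcongr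
    -- the error
    have h3 := HM R Z D Bq F hDS hBS hDs hBs hG.2.2.1 (by rw [eZ]; exact hT) hF2 hF3 hF hR hZ
    have h4 : ∑ o, ∑' x : Eis, ‖tws R (D * Bq) (cj D) (v o) x‖ *
        ∑' y : Eis, ‖tws Z (D * Bq) (cj D) (w o) y‖ * mt (F * x * y) (K / (lam o * nm E)) ≤
        ∑ o, ∑' x : Eis, ‖tws R (D * Bq) (fun _ => 1) (v o) x‖ *
        ∑' y : Eis, ‖tws Z (D * Bq) (fun _ => 1) (w o) y‖ *
          mt (F * x * y) (K / (lam o * nm E)) := by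
      refine Finset.sum_le_sum fun o _ => ?_
      have s1 : SSm M (tws R (D * Bq) (fun _ => 1) (v o)) := tws_SSm (hdat.hv o) hR.1
      have s2 : SSm M (tws Z (D * Bq) (fun _ => 1) (w o)) := tws_SSm (hdat.hw o) hZ.1
      have n1 : ∀ x, tws R (D * Bq) (fun _ => 1) (v o) x ≠ 0 → nm x ≤ ⌊X⌋₊ := fun x hx =>
        Nat.le_floor (nm_tws_le hR.1 (fun x hx => (hdat.vx o x hx).2) hx)
      have n2 : ∀ x, tws Z (D * Bq) (fun _ => 1) (w o) x ≠ 0 → nm x ≤ ⌊X⌋₊ := fun x hx =>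
        Nat.le_floor (nm_tws_le hZ.1 (hdat.wy o) hx)
      have hlo : 0 < lam o := by linarith [(hdat.lam1 o).1]
      have hmt : ∀ x y, tws R (D * Bq) (fun _ => 1) (v o) x ≠ 0 →
          tws Z (D * Bq) (fun _ => 1) (w o) y ≠ 0 →
          0 ≤ mt (F * x * y) (K / (lam o * nm E)) := fun x y hx hy =>
        (norm_nonneg _).trans (hLaw (F * x * y) ((hF.mul (s1.sm x hx)).mul (s2.sm y hy)) _
          (by positivity))
      rw [tsum_SSmR (hdat'.hv o) (hvN o), tsum_SSmR s1 n1]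
      refine Finset.sum_le_sum fun x _ => ?_
      rw [tsum_SSmR (hdat'.hw o) (hwN o), tsum_SSmR s2 n2]
      have t1 := norm_tws_le_one (R := R) (t := D * Bq) (c := v o) (cj_le hDS.prim) x
      by_cases hx : tws R (D * Bq) (fun _ => 1) (v o) x = 0
      · rw [hx, norm_zero] at t1
        have t2 : ‖tws R (D * Bq) (cj D) (v o) x‖ = 0 := le_antisymm t1 (norm_nonneg _)
        rw [hx, norm_zero, zero_mul, t2, zero_mul]
      have t3 : ∀ y ∈ primBall ⌊X⌋₊, ‖tws Z (D * Bq) (cj D) (w o) y‖ *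
          mt (F * x * y) (K / (lam o * nm E)) ≤ ‖tws Z (D * Bq) (fun _ => 1) (w o) y‖ *
          mt (F * x * y) (K / (lam o * nm E)) := by
        intro y _
        have t4 := norm_tws_le_one (R := Z) (t := D * Bq) (c := w o) (cj_le hDS.prim) y
        by_cases hy : tws Z (D * Bq) (fun _ => 1) (w o) y = 0
        · rw [hy, norm_zero] at t4
          have t2 : ‖tws Z (D * Bq) (cj D) (w o) y‖ = 0 := le_antisymm t4 (norm_nonneg _)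
          rw [hy, norm_zero, t2]
        · exact mul_le_mul_of_nonneg_right t4 (hmt x y hx hy)
      refine mul_le_mul t1 (Finset.sum_le_sum t3) (Finset.sum_nonneg fun y _ => ?_)
        (norm_nonneg _)
      by_cases hy : tws Z (D * Bq) (cj D) (w o) y = 0
      · rw [hy, norm_zero, zero_mul]
      · refine mul_nonneg (norm_nonneg _) (hmt x y hx ?_)
        intro h0
        have t4 := norm_tws_le_one (R := Z) (t := D * Bq) (c := w o) (cj_le hDS.prim) y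
        rw [h0, norm_zero] at t4
        exact hy (norm_le_zero_iff.mp t4)
    have h5 : ‖cc D Bq F‖ * (∑ o, ∑' x : Eis, ‖tws R (D * Bq) (cj D) (v o) x‖ *
        ∑' y : Eis, ‖tws Z (D * Bq) (cj D) (w o) y‖ * mt (F * x * y) (K / (lam o * nm E))) ≤
        a₁⁻¹ * β⁻¹ * Mn := by
      have q1 : ∑ o, ∑' x : Eis, ‖tws R (D * Bq) (fun _ => 1) (v o) x‖ *
          ∑' y : Eis, ‖tws Z (D * Bq) (fun _ => 1) (w o) y‖ *
          mt (F * x * y) (K / (lam o * nm E)) ≤ Mn / ((a₀ * a₁) ^ (5 / 2 : ℝ) * b ^ 4) := by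
        rw [le_div_iff₀ (by positivity), mul_comm]
        rw [eD] at h3
        exact h3
      have q2 : (a₀ * a₁) ^ (5 / 2 : ℝ) = (a₀ * a₁) ^ (3 / 2 : ℝ) * (a₀ * a₁) := by
        nth_rewrite 3 [← Real.rpow_one (a₀ * a₁)]
        rw [← Real.rpow_add (by positivity)]
        norm_num
      calc ‖cc D Bq F‖ * _ ≤ ‖cc D Bq F‖ * (Mn / ((a₀ * a₁) ^ (5 / 2 : ℝ) * b ^ 4)) :=
            mul_le_mul_of_nonneg_left (h4.trans q1) hcc0
        _ ≤ (a₀ * a₁) ^ (3 / 2 : ℝ) * b ^ 3 * (Mn / ((a₀ * a₁) ^ (5 / 2 : ℝ) * b ^ 4)) :=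
            mul_le_mul_of_nonneg_right hcc (by positivity)
        _ = (a₀ * a₁)⁻¹ * b⁻¹ * Mn := by
            rw [q2]
            have : 0 < (a₀ * a₁) ^ (3 / 2 : ℝ) := by positivity
            field_simp
        _ ≤ a₁⁻¹ * β⁻¹ * Mn := by
            have : a₁ ≤ a₀ * a₁ := by nlinarith
            gcongr
    have h6 : ‖cc D Bq F‖ * Y ^ (-(A + 4)) ≤ X ^ (-A) * (a₁⁻¹ * β⁻¹) := by
      have r1 : (a₀ * a₁) ^ (3 / 2 : ℝ) * b ^ 3 ≤ X ^ (9 : ℝ) := by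
        calc (a₀ * a₁) ^ (3 / 2 : ℝ) * b ^ 3 ≤ (X ^ 2) ^ (3 / 2 : ℝ) * (X ^ 2) ^ 3 := by
              rw [← eD]
              gcongr
          _ = X ^ (9 : ℝ) := by
              rw [← Real.rpow_natCast, ← Real.rpow_mul hX0.le, ← Real.rpow_natCast,
                ← Real.rpow_mul hX0.le, ← Real.rpow_add hX0]
              norm_num
      have r2 : Y ^ (-(A + 4)) = X ^ (-(12 * A) - 48) := by
        rw [hY, ← Real.rpow_natCast, ← Real.rpow_mul hX0.le]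
        congr 1; push_cast; ring
      have r3 : X ^ (-(4 : ℝ)) ≤ a₁⁻¹ * β⁻¹ := by
        rw [Real.rpow_neg hX0.le, ← mul_inv]
        apply inv_anti₀ (by positivity)
        calc a₁ * β ≤ X ^ 2 * X ^ 2 := by
              have := ha₁D.trans hDX
              have := hβb.trans hBX
              gcongr
          _ = X ^ (4 : ℝ) := by
              rw [← pow_add]
              norm_num
      calc ‖cc D Bq F‖ * Y ^ (-(A + 4)) ≤ X ^ (9 : ℝ) * X ^ (-(12 * A) - 48) := by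
            rw [r2]
            exact mul_le_mul_of_nonneg_right (hcc.trans r1) (by positivity)
        _ = X ^ (-(12 * A) - 39) := by rw [← Real.rpow_add hX0]; congr 1; ring
        _ ≤ X ^ (-A + -(4 : ℝ)) := Real.rpow_le_rpow_of_exponent_le hX1 (by linarith)
        _ = X ^ (-A) * X ^ (-(4 : ℝ)) := Real.rpow_add hX0 _ _
        _ ≤ X ^ (-A) * (a₁⁻¹ * β⁻¹) := mul_le_mul_of_nonneg_left r3 hXA
    calc ‖cc D Bq F‖ * _ ≤ ‖cc D Bq F‖ * (∑ i, ‖DD.κ i‖ * ‖DE M DD W i lam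
          (fun o => tws R (D * Bq) (cj D) (v o)) (fun o => tws Z (D * Bq) (cj D) (w o)) F
          (K / nm E)‖ + ∑ o, ∑' x : Eis, ‖tws R (D * Bq) (cj D) (v o) x‖ *
        ∑' y : Eis, ‖tws Z (D * Bq) (cj D) (w o) y‖ * mt (F * x * y) (K / (lam o * nm E))) :=
          mul_le_mul_of_nonneg_left h1 hcc0
      _ ≤ ‖cc D Bq F‖ * (∑ i, ‖DD.κ i‖ * (Ci i * X ^ ε * B * (K / nm E * St +
            Y ^ (-(A + 4))))) + a₁⁻¹ * β⁻¹ * Mn := by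
          rw [mul_add]
          refine add_le_add (mul_le_mul_of_nonneg_left ?_ hcc0) h5
          exact Finset.sum_le_sum fun i _ => mul_le_mul_of_nonneg_left (h2 i) (norm_nonneg _)
      _ = (∑ i, ‖DD.κ i‖ * Ci i) * X ^ ε * B * (‖cc D Bq F‖ * (K / nm E * St) +
            ‖cc D Bq F‖ * Y ^ (-(A + 4))) + a₁⁻¹ * β⁻¹ * Mn := by
          congr 1
          rw [Finset.sum_mul, Finset.sum_mul, Finset.sum_mul, Finset.mul_sum]
          refine Finset.sum_congr rfl fun i _ => ?_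
          ring
      _ ≤ (∑ i, ‖DD.κ i‖ * Ci i) * X ^ ε * B * (K * S * (a₁⁻¹ * β⁻¹) +
            X ^ (-A) * (a₁⁻¹ * β⁻¹)) + a₁⁻¹ * β⁻¹ * Mn := by
          gcongr
      _ = a₁⁻¹ * β⁻¹ * ((∑ i, ‖DD.κ i‖ * Ci i) * X ^ ε * B * (K * S + X ^ (-A)) + Mn) := by
          ring
      _ ≤ a₁⁻¹ * β⁻¹ * (((∑ i, ‖DD.κ i‖ * Ci i) + Cp) * X ^ ε * B * (K * S + X ^ (-A)) + Mn) := by
          have : ∑ i, ‖DD.κ i‖ * Ci i ≤ (∑ i, ‖DD.κ i‖ * Ci i) + Cp := by linarith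
          gcongr
  · -- no functional equation
    have h1 := HPr M F O _ lam (fun o => tws R (D * Bq) (cj D) (v o))
      (fun o => tws Z (D * Bq) (cj D) (w o)) Y (K / nm E) B
      (fun o k => End699.tw ψ l (E * k) * V (nm (E * k) * lam o / K))
      (fun κ z' => Bd κ ((a₁ * a₃) * z')) St hdat' (by positivity)
      ((div_le_self hK0.le hE1).trans (hKX.trans hXY)) hB hSt0 hBd' ?_ ?_ ?_ ?_
    · have hcc2 : ‖cc D Bq F‖ * (Cp * Y ^ ε₁ * B * (K / nm E) * St) ≤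
          Cp * X ^ ε * B * (K * S * (a₁⁻¹ * β⁻¹)) := by
        calc ‖cc D Bq F‖ * (Cp * Y ^ ε₁ * B * (K / nm E) * St)
            = Cp * Y ^ ε₁ * B * (‖cc D Bq F‖ * (K / nm E * St)) := by ring
          _ ≤ Cp * X ^ ε * B * (K * S * (a₁⁻¹ * β⁻¹)) := by
              gcongr
      calc ‖cc D Bq F‖ * _ ≤ ‖cc D Bq F‖ * (Cp * Y ^ ε₁ * B * (K / nm E) * St) :=
            mul_le_mul_of_nonneg_left h1 hcc0
        _ ≤ Cp * X ^ ε * B * (K * S * (a₁⁻¹ * β⁻¹)) := hcc2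
        _ = a₁⁻¹ * β⁻¹ * (Cp * X ^ ε * B * (K * S)) := by ring
        _ ≤ a₁⁻¹ * β⁻¹ * (((∑ i, ‖DD.κ i‖ * Ci i) + Cp) * X ^ ε * B * (K * S + X ^ (-A)) + Mn) := by
            refine mul_le_mul_of_nonneg_left ?_ hab.le
            have h7 : Cp ≤ (∑ i, ‖DD.κ i‖ * Ci i) + Cp := by linarith
            have h8 : Cp * X ^ ε * B * (K * S) ≤
                ((∑ i, ‖DD.κ i‖ * Ci i) + Cp) * X ^ ε * B * (K * S + X ^ (-A)) := by
              gcongr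
              linarith
            linarith
    · intro o k hk
      rw [norm_mul]
      calc _ ≤ 1 * B := mul_le_mul ((hψ.isChar_tw l).norm_le (hEp.mul hk.prim)) (hVB _)
            (norm_nonneg _) zero_le_one
        _ = B := one_mul B
    · intro o k hk
      have hlo : 0 < lam o := by linarith [(hdat.lam1 o).1]
      have h9 : 1 < (nm (E * k) : ℝ) * lam o / K := by
        rw [lt_div_iff₀ hK0, one_mul, nm_mul]
        push_cast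
        rw [div_div, div_lt_iff₀ (by positivity)] at hk
        linarith
      show End699.tw ψ l (E * k) * V (nm (E * k) * lam o / K) = 0
      rw [hV1 _ h9, mul_zero]
    · have h3M' : (3 : Eis) ∣ DD.M' := hψ.three.trans hDD.dvd
      exact fun b' R' Z' κ h1 h2 h3 h4 h5 => HP_primal (B' := fun κ z' => Bd κ ((a₁ * a₃) * z'))
        hDD.ne h3M' hDD.rad hdat'.hv hdat'.hw HP' b' R' Z' κ h1 h2 h3 h4 h5
    · intro b₁ b₃ κ h1 h3 hκ h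
      refine hnum' b₁ b₃ κ h1 h3 hκ (h.trans ?_)
      rw [if_neg hT, eE]
      calc K / ((a₀ * a₁) ^ 2 * b ^ 3) ≤ K / (a₀ ^ 2 * a₁ ^ 2 * a₃ ^ 3) := by
            apply div_le_div_of_nonneg_left hK0.le (by positivity)
            rw [mul_pow]
            gcongr
        _ ≤ K / (a₀ ^ 2 * a₁ ^ 2 * a₃ ^ 3) * X ^ ε := by
            have : 0 ≤ K / (a₀ ^ 2 * a₁ ^ 2 * a₃ ^ 3) := by positivity
            nlinarith

end Crest.Agent.R017.E4352
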