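import Crest.Agent.R017.NT3_47
import Crest.Agent.R017.E3A_164

/-!
# Row 17, block C70, leaf E4, the k-side (helper164)

`phi` rapidly decreasing, `J` an admissible index set, `a` arbitrary, `b₁`, `b₂` finitely supported:

  `Σ_k φ(k) (Σ_{(δ,j) ∈ J} a(δ,j) sy k δ conj (th (j k))) conj (CS b₁ k) CS b₂ k`

is a finite sum of `conj (th (c r) · NT 1 (c r l (m δ)² / (D B³)) (..))`, `j = c r ν²`.
-/

set_option autoImplicit false

noncomputable section

open Finset
open scoped ComplexConjugate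

namespace Crest.Agent.R017.E4K164

open Crest.Agent.R012 Crest.Agent.R012.Eis Crest.Agent.R012.GaussLoc283
open Crest.Agent.R012.Mob705 Crest.Agent.R012.Div277
open Crest.Agent.R017.Sx545 (Sm)
open Crest.Agent.R017.CM106
open Crest.Agent.R017.PX764 (th Gh n6)
open Crest.Agent.R017.C70 Crest.Agent.R017.GrB829 Crest.Agent.R017.GrD829
open Crest.Agent.R017.E3A164
open Crest.Agent.R017.E2440

/-! ### the radical -/

/-- the radical of a primary element -/
def rd (n : Eis) : Eis := ∏ p ∈ pp n, p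

lemma rd_prim (n : Eis) : IsPrim (rd n) := (ppSet_pp n).isPrim_prod

lemma rd_sqf (n : Eis) : Squarefree (rd n) := (ppSet_pp n).squarefree_prod

lemma pp_dvd_rd {n p : Eis} (hn : n ≠ 0) (hp : IsPP p) : p ∣ rd n ↔ p ∣ n := by
  unfold rd
  rw [(ppSet_pp n).dvd_prod hp, mem_pp hn]
  exact ⟨fun h => h.2, fun h => ⟨hp, h⟩⟩

lemma rd_dvd {n : Eis} (hn : IsPrim n) : rd n ∣ n := by
  refine dvd_of_mult (rd_prim n) hn fun p hp => ?_
  by_cases h : p ∣ n
  · exact (mult_le_one hp (rd_prim n) (rd_sqf n)).trans (le_mult hp.2 hn.ne_zero (by simpa using h))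
  · rw [mult_zero_iff.2 (fun h2 => h ((pp_dvd_rd hn.ne_zero hp).mp h2))]
    exact Nat.zero_le _

lemma cop_rd {n d : Eis} (hn : IsPrim n) (hd : IsPrim d) : IsCoprime d (rd n) ↔ IsCoprime d n := by
  rw [isCoprime_iff_pp hd, isCoprime_iff_pp hd]
  refine forall_congr' fun p => forall_congr' fun hp => ?_
  rw [pp_dvd_rd hn.ne_zero hp]

lemma NT_congr {M M' : Eis} (h : ∀ d, IsPrim d → (IsCoprime d M ↔ IsCoprime d M')) (u : Eis)
    (φ : Eis → ℂ) : NT M u φ = NT M' u φ := by
  classical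
  have hS : ∀ d, Sm M d ↔ Sm M' d := fun d =>
    ⟨fun hd => ⟨hd.1, (h d hd.1).mp hd.2⟩, fun hd => ⟨hd.1, (h d hd.1).mpr hd.2⟩⟩
  unfold NT DS
  refine tsum_congr fun e => ?_
  simp only [hS]

lemma NT_rd {n : Eis} (hn : IsPrim n) (u : Eis) (φ : Eis → ℂ) :
    NT n u φ = NT (1 * rd n) u φ := by
  refine NT_congr (fun d hd => ?_) u φ
  rw [one_mul, cop_rd hn hd]

/-! ### one frequency -/

open Classical in
/-- **(B)** arbitrary primary `l`, `m` -/
theorem one_id {c r l m : Eis} (hc : NoP 1 c) (hr : IsPrim r) (hrs : Squarefree r)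
    (hl : IsPrim l) (hm : IsPrim m) {φ : Eis → ℂ} (hφ : Dcy φ) :
    (∑' k : Eis, if IsPrim k then th (c * r * k) * (sy k l * conj (sy k m) * φ k) else 0) =
      th (c * r) * NT (l * m) (c * r * (l * m ^ 2)) (fun k => n23 k * φ k) := by
  have hq : IsPrim (l * m ^ 2) := hl.mul (hm.pow 2)
  have hdM : ∀ d, IsCoprime d (l * m) → IsCoprime d (l * m ^ 2) := fun d hd =>
    hd.of_mul_right_left.mul_right hd.of_mul_right_right.pow_right
  have hψ : Dcy (fun k => sy k (l * m ^ 2) * φ k) :=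
    hφ.mul_bdd (B := 1) fun k _ => norm_sy_le1 hq
  have e1 : (∑' k : Eis, if IsPrim k then th (c * r * k) * (sy k l * conj (sy k m) * φ k) else 0)
      = TS (l * m) (c * r) (fun k => sy k (l * m ^ 2) * φ k) := by
    unfold TS
    refine tsum_congr fun k => ?_
    by_cases hk : IsPrim k
    · rw [if_pos hk]
      by_cases hkl : IsCoprime k l
      · by_cases hkm : IsCoprime k m
        · have hS : Sm (l * m) k := ⟨hk, hkl.mul_right hkm⟩
          rw [if_pos hS]
          show _ = th (c * r * k) * (sy k (l * m ^ 2) * φ k)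
          rw [sy_conj_sq hm hkm, syAx.mul_right _ _ _ hl (hm.pow 2), pow_two,
            syAx.mul_right _ _ _ hm hm]
        · rw [if_neg (fun h => hkm h.2.of_mul_right_right), (syAx.eq_zero _ _ hm).mpr hkm]
          simp
      · rw [if_neg (fun h => hkl h.2.of_mul_right_left), (syAx.eq_zero _ _ hl).mpr hkl]
        simp
    · rw [if_neg hk, if_neg (fun h => hk h.1)]
  have e3 : (fun k => n23 k * (sy k (l * m ^ 2) * φ k)) =
      fun k => sy k (l * m ^ 2) * (n23 k * φ k) := by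
    funext k; ring
  rw [e1, THs_all hc hr hrs (l * m) _ hψ, e3, NT_tw hq hdM]

lemma Dcy.cj {φ : Eis → ℂ} (h : Dcy φ) : Dcy (fun k => conj (φ k)) := by
  obtain ⟨C, hC⟩ := h
  exact ⟨C, fun k hk => by rw [RCLike.norm_conj]; exact hC k hk⟩

open Classical in
/-- the conjugate form -/
theorem one_conj {c r l m δ : Eis} (hc : NoP 1 c) (hr : IsPrim r) (hrs : Squarefree r)
    (hl : IsPrim l) (hm : IsPrim m) (hδ : IsPrim δ) {φ : Eis → ℂ} (hφ : Dcy φ) :
    (∑' k : Eis, if IsPrim k then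
      φ k * (sy k δ * conj (th (c * r * k)) * (conj (sy k l) * sy k m)) else 0) =
      conj (th (c * r) * NT (l * (m * δ)) (c * r * (l * (m * δ) ^ 2))
        (fun k => n23 k * conj (φ k))) := by
  rw [← one_id hc hr hrs hl (hm.mul hδ) (Dcy.cj hφ), Complex.conj_tsum]
  refine tsum_congr fun k => ?_
  split_ifs with hk
  · rw [syAx.mul_right _ _ _ hm hδ]
    simp only [map_mul, Complex.conj_conj]
    ring
  · simp

lemma NoP_C {c : Eis} (hc : IsC c) : NoP 1 c := by
  refine ⟨hc.ne_zero, fun p hpp hp hd => ?_⟩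
  exact not_dvd_c hc ⟨hp.1, hpp⟩ hd

/-- `ν² ∣ j` : only the multiples of `ν` -/
theorem nu_red {c r ν : Eis} (hc : IsC c) (hr : IsPrim r) (hν : IsPrim ν)
    (hνs : Squarefree ν) (hrν : IsCoprime r ν) (g : Eis → ℂ) :
    open Classical in
    (∑' k : Eis, if IsPrim k then g k * conj (th (c * r * ν ^ 2 * k)) else 0) =
      ∑' k : Eis, if IsPrim k then g (ν * k) * conj (th (c * r * k)) else 0 := by
  classical
  have hinj : Function.Injective (fun d : Eis => ν * d) := mul_right_injective₀ hν.ne_zero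
  rw [← hinj.tsum_eq (f := fun k => if IsPrim k then g k * conj (th (c * r * ν ^ 2 * k)) else 0)]
  · refine tsum_congr fun k => ?_
    have h1 : IsPrim (ν * k) ↔ IsPrim k := ⟨fun h => h.of_mul_left hν, fun h => hν.mul h⟩
    simp only [h1]
    split_ifs with hk
    · have e : c * r * ν ^ 2 * (ν * k) = (c * r * k) * ν ^ 3 := by ring
      rw [e, PX764.th_cube hν]
    · rfl
  · intro k hk
    rw [Function.mem_support] at hk
    by_cases hkp : IsPrim k
    · rw [if_pos hkp] at hk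
      have hne : th (c * r * ν ^ 2 * k) ≠ 0 := by
        intro h0
        rw [h0] at hk
        simp at hk
      have hd : ν ∣ k := by
        refine dvd_of_mult hν hkp fun p hp => ?_
        by_cases h2 : p ∣ ν
        · have h3 : p ∣ k := by
            by_contra h4
            apply hne
            have h5 : multiplicity p (r * ν ^ 2) = 2 := by
              rw [mult_ng hp hr hν]
              have h6 : ¬ p ∣ r := fun h7 =>
                hp.2.not_isUnit (hrν.isUnit_of_dvd' h7 h2)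
              have h7 := mult_le_one hp hν hνs
              have h8 : 1 ≤ multiplicity p ν := le_mult hp.2 hν.ne_zero (by simpa using h2)
              rw [mult_zero_iff.2 h6]
              omega
            have := th_zero hc hp (hr.mul (hν.pow 2)) h5 h4
            rw [← this]
            congr 1
            ring
          exact (mult_le_one hp hν hνs).trans (le_mult hp.2 hkp.ne_zero (by simpa using h3))
        · rw [mult_zero_iff.2 h2]
          exact Nat.zero_le _
      obtain ⟨q, hq⟩ := hd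
      exact ⟨q, hq.symm⟩
    · rw [if_neg hkp] at hk
      exact absurd rfl hk

/-! ### the decomposition `j = c r ν²` -/

open Classical in
/-- `(c, r, ν)` with `j = c r ν²` -/
def dc (j : Eis) : Eis × Eis × Eis :=
  if h : JC j then ((exists_fq isPrim_one h (one_dvd j)).choose,
    (exists_fq isPrim_one h (one_dvd j)).choose_spec.choose_spec.choose,
    (exists_fq isPrim_one h (one_dvd j)).choose_spec.choose) else 0

lemma dc_spec {j : Eis} (h : JC j) : IsC (dc j).1 ∧ IsPrim (dc j).2.1 ∧ Squarefree (dc j).2.1 ∧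
    IsPrim (dc j).2.2 ∧ Squarefree (dc j).2.2 ∧ IsCoprime (dc j).2.1 (dc j).2.2 ∧
    j = (dc j).1 * (dc j).2.1 * (dc j).2.2 ^ 2 := by
  classical
  have hsp := (exists_fq isPrim_one h (one_dvd j)).choose_spec.choose_spec.choose_spec
  obtain ⟨s1, s2, s3, s4, s5, s6, s7⟩ := hsp
  unfold dc
  rw [dif_pos h]
  refine ⟨s1, s4, s5, s2, s3, s6, ?_⟩
  conv_lhs => rw [s7]
  unfold fq
  ring

lemma jc_ne_zero {j : Eis} (h : JC j) : j ≠ 0 := by
  obtain ⟨h1, h2, -, h4, -, -, h7⟩ := dc_spec h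
  rw [h7]
  exact mul_ne_zero (mul_ne_zero h1.ne_zero h2.ne_zero) (pow_ne_zero 2 h4.ne_zero)

/-! ### the sum -/

/-- the value of one triple `(x, l, m)` -/
def Uk (φ : Eis → ℂ) (x : Eis × Eis) (l m : Eis) : ℂ :=
  sy (dc x.2).2.2 x.1 * (conj (sy (dc x.2).2.2 l) * sy (dc x.2).2.2 m) *
    conj (th ((dc x.2).1 * (dc x.2).2.1) *
      NT (l * (m * x.1)) ((dc x.2).1 * (dc x.2).2.1 * (l * (m * x.1) ^ 2))
        (fun k => n23 k * conj (φ ((dc x.2).2.2 * k))))

open Classical in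
theorem sum_k {x : Eis × Eis} (hx : IsPrim x.1) (hj : JC x.2) {l m : Eis} (hl : IsPrim l)
    (hm : IsPrim m) {φ : Eis → ℂ} (hφ : Dcy φ) :
    (∑' k : Eis, if IsPrim k then
      φ k * (sy k x.1 * conj (th (x.2 * k)) * (conj (sy k l) * sy k m)) else 0) = Uk φ x l m := by
  obtain ⟨h1, h2, h3, h4, h5, h6, h7⟩ := dc_spec hj
  set c := (dc x.2).1
  set r := (dc x.2).2.1
  set ν := (dc x.2).2.2
  have e1 : (∑' k : Eis, if IsPrim k then
      φ k * (sy k x.1 * conj (th (x.2 * k)) * (conj (sy k l) * sy k m)) else 0) =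
      ∑' k : Eis, if IsPrim k then (φ k * (sy k x.1 * (conj (sy k l) * sy k m))) *
        conj (th (c * r * ν ^ 2 * k)) else 0 := by
    refine tsum_congr fun k => ?_
    split_ifs with hk
    · rw [h7]; ring
    · rfl
  rw [e1, nu_red h1 h2 h4 h5 h6]
  have hφ' : Dcy (fun k => φ (ν * k)) := hφ.dil h4.ne_zero
  have e2 : (∑' k : Eis, if IsPrim k then
      (φ (ν * k) * (sy (ν * k) x.1 * (conj (sy (ν * k) l) * sy (ν * k) m))) *
        conj (th (c * r * k)) else 0) =
      (sy ν x.1 * (conj (sy ν l) * sy ν m)) * ∑' k : Eis, if IsPrim k then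
      φ (ν * k) * (sy k x.1 * conj (th (c * r * k)) * (conj (sy k l) * sy k m)) else 0 := by
    rw [← tsum_mul_left]
    refine tsum_congr fun k => ?_
    split_ifs with hk
    · rw [syAx.mul_left _ _ _ hx, syAx.mul_left _ _ _ hl, syAx.mul_left _ _ _ hm]
      simp only [map_mul]
      ring
    · simp
  rw [e2, one_conj (NoP_C h1) h2 h3 hl hm hx hφ']
  rfl

open Classical in
lemma summable_prim {φ : Eis → ℂ} (hφ : Dcy φ) {g : Eis → ℂ} {B : ℝ}
    (hg : ∀ k, k ≠ 0 → ‖g k‖ ≤ B) : Summable (fun k : Eis => if IsPrim k then φ k * g k else 0) := by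
  have h1 : Dcy (fun k => g k * φ k) := hφ.mul_bdd hg
  obtain ⟨C, hC0, hC⟩ := h1.nonneg
  refine Summable.of_norm_bounded (summable_nm2.mul_left C) fun k => ?_
  split_ifs with hk
  · have h2 := one_le_nm hk.ne_zero
    rw [mul_comm]
    refine (hC k hk.ne_zero).trans (mul_le_mul_of_nonneg_left ?_ hC0)
    apply inv_anti₀ (by positivity)
    nlinarith [sq_nonneg (nm k : ℝ)]
  · rw [norm_zero]; positivity

open Classical in
/-- **the k-side of E4** -/
theorem e4k {J : Finset (Eis × Eis)} (hJ : OKJ J) (a : Eis × Eis → ℂ) {b₁ b₂ : Eis → ℂ}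
    (h₁ : FS b₁) (h₂ : FS b₂) {φ : Eis → ℂ} (hφ : Dcy φ) :
    (∑' k : Eis, if IsPrim k then
      φ k * ((∑ x ∈ J, a x * (sy k x.1 * conj (th (x.2 * k)))) *
        (conj (CS b₁ k) * CS b₂ k)) else 0) =
      ∑ x ∈ J, a x * ∑ l ∈ h₁.fin.toFinset, ∑ m ∈ h₂.fin.toFinset,
        conj (b₁ l) * b₂ m * Uk φ x l m := by
  have hT1 : ∀ l ∈ h₁.fin.toFinset, IsPrim l := fun l hl =>
    h₁.prim l ((Set.Finite.mem_toFinset _).mp hl)
  have hT2 : ∀ l ∈ h₂.fin.toFinset, IsPrim l := fun l hl =>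
    h₂.prim l ((Set.Finite.mem_toFinset _).mp hl)
  have hC1 : ∀ k, CS b₁ k = ∑ l ∈ h₁.fin.toFinset, b₁ l * sy k l := fun k => by
    unfold CS
    refine tsum_eq_sum fun l hl => ?_
    have : b₁ l = 0 := by
      by_contra h
      exact hl ((Set.Finite.mem_toFinset _).mpr h)
    rw [this, zero_mul]
  have hC2 : ∀ k, CS b₂ k = ∑ m ∈ h₂.fin.toFinset, b₂ m * sy k m := fun k => by
    unfold CS
    refine tsum_eq_sum fun l hl => ?_
    have : b₂ l = 0 := by
      by_contra h
      exact hl ((Set.Finite.mem_toFinset _).mpr h)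
    rw [this, zero_mul]
  have e1 : ∀ k : Eis, (if IsPrim k then
      φ k * ((∑ x ∈ J, a x * (sy k x.1 * conj (th (x.2 * k)))) *
        (conj (CS b₁ k) * CS b₂ k)) else 0) =
      ∑ x ∈ J, ∑ l ∈ h₁.fin.toFinset, ∑ m ∈ h₂.fin.toFinset,
        (a x * (conj (b₁ l) * b₂ m)) * (if IsPrim k then
          φ k * (sy k x.1 * conj (th (x.2 * k)) * (conj (sy k l) * sy k m)) else 0) := by
    intro k
    split_ifs with hk
    · rw [hC1, hC2, map_sum, sum_mul_sum, sum_mul, mul_sum]
      refine sum_congr rfl fun x _ => ?_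
      rw [mul_sum, mul_sum]
      refine sum_congr rfl fun l _ => ?_
      rw [mul_sum, mul_sum]
      refine sum_congr rfl fun m _ => ?_
      simp only [map_mul]
      ring
    · simp
  have hs : ∀ x ∈ J, ∀ l ∈ h₁.fin.toFinset, ∀ m ∈ h₂.fin.toFinset,
      Summable (fun k : Eis => (a x * (conj (b₁ l) * b₂ m)) * (if IsPrim k then
          φ k * (sy k x.1 * conj (th (x.2 * k)) * (conj (sy k l) * sy k m)) else 0)) := by
    intro x hx l hl m hm
    refine (summable_prim hφ (B := 1 * Bth * (1 * 1)) fun k hk => ?_).mul_left _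
    rw [norm_mul, norm_mul, norm_mul, RCLike.norm_conj, RCLike.norm_conj]
    have g1 : ‖sy k x.1‖ ≤ 1 := norm_sy_le1 (hJ.prim x hx)
    have g2 : ‖th (x.2 * k)‖ ≤ Bth :=
      E2440.norm_th_le (mul_ne_zero (jc_ne_zero (hJ.jc x hx)) hk)
    have g3 : ‖sy k l‖ ≤ 1 := norm_sy_le1 (hT1 l hl)
    have g4 : ‖sy k m‖ ≤ 1 := norm_sy_le1 (hT2 m hm)
    have g5 := Bth_nonneg
    gcongr
  rw [tsum_congr e1, Summable.tsum_finsetSum (fun x hx => summable_sum fun l hl =>
    summable_sum fun m hm => hs x hx l hl m hm)]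
  refine sum_congr rfl fun x hx => ?_
  rw [Summable.tsum_finsetSum (fun l hl => summable_sum fun m hm => hs x hx l hl m hm), mul_sum]
  refine sum_congr rfl fun l hl => ?_
  rw [Summable.tsum_finsetSum (fun m hm => hs x hx l hl m hm), mul_sum]
  refine sum_congr rfl fun m hm => ?_
  rw [tsum_mul_left, sum_k (hJ.prim x hx) (hJ.jc x hx) (hT1 l hl) (hT2 m hm) hφ]
  ring

/-! ### removal of the coprimality -/

open Classical in
/-- the value with the natural series of modulus `1` -/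
theorem Uk_eq {x : Eis × Eis} (hx : IsPrim x.1) (hj : JC x.2) {l m : Eis} (hl : IsPrim l)
    (hm : IsPrim m) {φ : Eis → ℂ} (hφ : Dcy φ) :
    Uk φ x l m = sy (dc x.2).2.2 x.1 * (conj (sy (dc x.2).2.2 l) * sy (dc x.2).2.2 m) *
      conj (th ((dc x.2).1 * (dc x.2).2.1) *
        ∑ D ∈ dvs (rd (l * (m * x.1))), ∑ B ∈ (dvs (rd (l * (m * x.1)))).filter
          (fun B => B ^ 3 ∣ (dc x.2).1 * (dc x.2).2.1 * (l * (m * x.1) ^ 2)),
        cB D * conj (sy ((dc x.2).1 * (dc x.2).2.1 * (l * (m * x.1) ^ 2) / D) D) *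
          ((muE B : ℂ) * (nm B : ℂ) ^ 3) *
          NT 1 ((dc x.2).1 * (dc x.2).2.1 * (l * (m * x.1) ^ 2) / (D * B ^ 3))
            (fun k => n23 (D ^ 2 * B ^ 3 * k) * conj (φ ((dc x.2).2.2 * (D ^ 2 * B ^ 3 * k))))) := by
  obtain ⟨h1, h2, h3, h4, h5, h6, h7⟩ := dc_spec hj
  unfold Uk
  have hn : IsPrim (l * (m * x.1)) := hl.mul (hm.mul hx)
  have hφ' : Dcy (fun k => n23 k * conj (φ ((dc x.2).2.2 * k))) :=
    (Dcy.cj (hφ.dil h4.ne_zero)).n23
  have hu : (dc x.2).1 * (dc x.2).2.1 * (l * (m * x.1) ^ 2) ≠ 0 :=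
    mul_ne_zero (mul_ne_zero h1.ne_zero h2.ne_zero)
      (mul_ne_zero hl.ne_zero (pow_ne_zero 2 (mul_ne_zero hm.ne_zero hx.ne_zero)))
  have hd : rd (l * (m * x.1)) ∣ (dc x.2).1 * (dc x.2).2.1 * (l * (m * x.1) ^ 2) :=
    (rd_dvd hn).trans ⟨(dc x.2).1 * (dc x.2).2.1 * (m * x.1), by ring⟩
  rw [NT_rd hn, NT47.NT_full (rd_sqf _) ⟨rd_prim _, isCoprime_one_right⟩ hu hd hφ']

end Crest.Agent.R017.E4K164
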