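import Crest.Agent.R017.E5k_54
import Crest.Agent.R017.E5b_54

/-!
# Row 17, R8, leaf E5 (helper54), part m: `k = s k₁` in the core sum

* `Core_shift` : `Core n s J c G = Core n 1 (Js s J) c* (fun k => G (s k))`,
  `c* (δ, j*) = c (δ, j) sy s δ`, `j s = j* e³` (`stj s j = j*`), for `s` primary prime to `n`
* `Core_zero` : the core vanishes if `s` is not prime to `n`
* `Core_eq_sum` : the core sum on `J` (no image)
-/

set_option autoImplicit false

noncomputable section

open Finset Complex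
open scoped ComplexConjugate

namespace Crest.Agent.R017.E5m54

open Crest.Agent.R012 Crest.Agent.R012.Eis
open Crest.Agent.R012.Mob705 hiding pb mem_pb
open Crest.Agent.R017.PX764 (th Gh n6 th_cube)
open Crest.Agent.R017.C70 (JC OKJ)
open Crest.Agent.R017.E5b54
open Crest.Agent.R017.E5k54 (Core)
open Crest.Agent.R012.Gauss880 Crest.Agent.R017.CM106

/-- `s` not prime to `n` -/
lemma Core_zero {n s : Eis} (hsn : ¬ IsCoprime s n) (J : Finset (Eis × Eis))
    (c : Eis × Eis → ℂ) (G : Eis → ℂ) : Core n s J c G = 0 := by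
  classical
  unfold Core
  have : ∀ k : Eis, (if IsPrim k ∧ IsCoprime k n ∧ s ∣ k then
      G k * ∑ x ∈ J, c x * (sy k x.1 * conj (th (x.2 * k))) else 0) = (0 : ℂ) := by
    intro k
    rw [if_neg]
    rintro ⟨-, h, hd⟩
    exact hsn (h.of_isCoprime_of_dvd_left hd)
  rw [tsum_congr this, tsum_zero]

/-- the core sum with `k = s k₁`, frequencies `j* = stj s j` -/
theorem Core_eq_sum {n s : Eis} (hs : IsPrim s) (hsn : IsCoprime s n) {J : Finset (Eis × Eis)}
    (hJ : OKJ J) (c : Eis × Eis → ℂ) (G : Eis → ℂ) :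
    Core n s J c G = by
      classical
      exact ∑' k : Eis, if IsPrim k ∧ IsCoprime k n then
        (G (s * k) * ∑ x ∈ J, (c x * sy s x.1) * (sy k x.1 * conj (th (stj s x.2 * k)))) else 0 := by
  classical
  have hinj : Function.Injective (fun k : Eis => s * k) := fun x y h =>
    mul_left_cancel₀ hs.ne_zero h
  unfold Core
  have hsup : Function.support (fun k : Eis => if IsPrim k ∧ IsCoprime k n ∧ s ∣ k then
      G k * ∑ x ∈ J, c x * (sy k x.1 * conj (th (x.2 * k))) else 0) ⊆
      Set.range (fun k : Eis => s * k) := by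
    intro k hk
    rw [Function.mem_support] at hk
    have : IsPrim k ∧ IsCoprime k n ∧ s ∣ k := by
      by_contra h
      exact hk (if_neg h)
    obtain ⟨r, hr⟩ := this.2.2
    exact ⟨r, hr.symm⟩
  rw [← hinj.tsum_eq hsup]
  refine tsum_congr fun k => ?_
  have h1 : (IsPrim (s * k) ∧ IsCoprime (s * k) n ∧ s ∣ s * k) ↔ (IsPrim k ∧ IsCoprime k n) := by
    constructor
    · rintro ⟨a, b, -⟩
      exact ⟨a.of_mul_left hs, b.of_mul_left_right⟩
    · rintro ⟨a, b⟩
      exact ⟨hs.mul a, hsn.mul_left b, dvd_mul_right _ _⟩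
  by_cases hk : IsPrim k ∧ IsCoprime k n
  · rw [if_pos (h1.mpr hk), if_pos hk]
    congr 1
    refine Finset.sum_congr rfl fun x hx => ?_
    obtain ⟨-, e, he0, he⟩ := stj_spec hs (hJ.jc x hx)
    have h2 : th (x.2 * (s * k)) = th (stj s x.2 * k) := by
      rw [show x.2 * (s * k) = (x.2 * s) * k by ring, he,
        show stj s x.2 * e ^ 3 * k = stj s x.2 * k * e ^ 3 by ring, th_cube he0]
    rw [h2, syG.mul_left _ _ _ (hJ.prim x hx)]
    ring
  · rw [if_neg (fun h => hk (h1.mp h)), if_neg hk]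

/-- **the shift in the core sum** -/
theorem Core_shift {n s : Eis} (hs : IsPrim s) (hsn : IsCoprime s n) {J : Finset (Eis × Eis)}
    (hJ : OKJ J) (c : Eis × Eis → ℂ) (G : Eis → ℂ) :
    Core n s J c G =
      Core n 1 (Js s J) (oms s J (fun x => c x * sy s x.1)) (fun k => G (s * k)) := by
  classical
  rw [Core_eq_sum hs hsn hJ]
  unfold Core
  refine tsum_congr fun k => ?_
  by_cases hk : IsPrim k ∧ IsCoprime k n
  · rw [if_pos hk, if_pos ⟨hk.1, hk.2, one_dvd _⟩]
    congr 1
    have e0 : Js s J = J.image fun x => (x.1, stj s x.2) := by unfold Js; rfl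
    rw [e0, sum_image (star_injOn hs hJ)]
    refine sum_congr rfl fun x hx => ?_
    rw [oms_star hs hJ _ hx]
  · rw [if_neg hk, if_neg (fun h => hk ⟨h.1, h.2.1⟩)]

end Crest.Agent.R017.E5m54
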