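import Crest.Agent.R017.E4s_164
import Crest.Agent.R017.E5m_54
import Crest.Agent.R017.E5P_571

/-!
# Row 17, C70, leaf E4: the middle term through `E4L` (helper164)

* `Core_all` : 54's core with a weight supported on `(k, n) = 1`
* `Core_cop` : `(k, T) = 1` in the core
* `coreJ` : joint dictionary for cores
* `MS_core` : `MS` against the structured function `SS` through cores
* `mid_E4L` : `Σ_q ‖MS n W e (cst SS conj(CS b₁) CS b₂) (s q)‖` is at most a finite sum of `K^{-2/3} ‖E4L‖`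
-/

set_option autoImplicit false

noncomputable section

open Finset Complex
open scoped ComplexConjugate

namespace Crest.Agent.R017.E4D164

open Crest.Agent.R012 Crest.Agent.R012.Eis Crest.Agent.R012.GaussLoc283
open Crest.Agent.R012.Mob705 hiding pb mem_pb
open Crest.Agent.R012.Div277
open Crest.Agent.R012.LS2 (S mem_S)
open Crest.Agent.R017.Sx545 (Sm)
open Crest.Agent.R017.CM106
open Crest.Agent.R017.PX764 (th Gh n6)
open Crest.Agent.R017.C70 Crest.Agent.R017.GrB829 Crest.Agent.R017.GrD829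
open Crest.Agent.R017.E2440
open Crest.Agent.R017.End699 (HC)
open Crest.Agent.R017.E4352 (PrI)
open Crest.Agent.R017.E5b54 (stj stj_spec)
open Crest.Agent.R017.E5k54 (Core StE_core PT alb SS)
open Crest.Agent.R017.E5m54 (Core_eq_sum Core_zero)
open Crest.Agent.R017.DgA829 (lc lc_prim lc_dvd)
open Crest.Agent.R017.E5P571 (MS Gd mem_Gd)
open Crest.Agent.R017.E4K164 (dc dc_spec rd rd_prim)

open Classical in
/-- the core with a weight supported on `(k, n) = 1` -/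
theorem Core_all {n s : Eis} (hs : IsPrim s) {J : Finset (Eis × Eis)} (hJ : OKJ J)
    (c : Eis × Eis → ℂ) {G : Eis → ℂ} (hG : ∀ k, IsPrim k → ¬ IsCoprime k n → G k = 0) :
    Core n s J c G = ∑' k : Eis, if IsPrim k then
      G (s * k) * ∑ x ∈ J, (c x * sy s x.1) * (sy k x.1 * conj (th (stj s x.2 * k))) else 0 := by
  by_cases hsn : IsCoprime s n
  · rw [Core_eq_sum hs hsn hJ]
    refine tsum_congr fun k => ?_
    by_cases hk : IsPrim k
    · rw [if_pos hk]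
      by_cases hkn : IsCoprime k n
      · rw [if_pos ⟨hk, hkn⟩]
      · rw [if_neg (fun h => hkn h.2), hG _ (hs.mul hk) (fun h => hkn h.of_mul_left_right),
          zero_mul]
    · rw [if_neg hk, if_neg (fun h => hk h.1)]
  · rw [Core_zero hsn]
    symm
    refine (tsum_congr fun k => ?_).trans tsum_zero
    split_ifs with hk
    · rw [hG _ (hs.mul hk) (fun h => hsn h.of_mul_left_left), zero_mul]
    · rfl

open Classical in
/-- `(k, T) = 1` in the core -/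
theorem Core_cop {n s T : Eis} (hs : IsPrim s) (hT : IsPrim T) (J : Finset (Eis × Eis))
    (c : Eis × Eis → ℂ) {G : Eis → ℂ} (hG : (Function.support G).Finite) :
    Core n s J c (fun k => G k * if IsCoprime k T then 1 else 0) =
      ∑ t ∈ Gd n T, ((muE t : ℤ) : ℂ) * Core n (lc s t) J c G := by
  have hT0 := hT.ne_zero
  have h1 : ∀ k : Eis, (if IsPrim k ∧ IsCoprime k n ∧ s ∣ k then
      (G k * if IsCoprime k T then 1 else 0) *
        ∑ x ∈ J, c x * (sy k x.1 * conj (th (x.2 * k))) else 0) =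
      ∑ t ∈ Gd n T, ((muE t : ℤ) : ℂ) * (if IsPrim k ∧ IsCoprime k n ∧ lc s t ∣ k then
        G k * ∑ x ∈ J, c x * (sy k x.1 * conj (th (x.2 * k))) else 0) := by
    intro k
    by_cases hk : IsPrim k ∧ IsCoprime k n ∧ s ∣ k
    · rw [if_pos hk]
      have h2 := E5P571.prin0_eq_sum hT0 hk.1 hk.2.1
      have h3 : End699.prin0 T k = if IsCoprime k T then 1 else 0 := by
        unfold End699.prin0; congr
      generalize (∑ x ∈ J, c x * (sy k x.1 * conj (th (x.2 * k)))) = Z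
      rw [← h3, h2, Finset.mul_sum, Finset.sum_mul]
      refine Finset.sum_congr rfl fun t ht => ?_
      have htp : IsPrim t := ((mem_Gd hT0).mp ht).1.1
      have hd : (IsPrim k ∧ IsCoprime k n ∧ lc s t ∣ k) ↔ t ∣ k := by
        rw [lc_dvd hs htp]
        exact ⟨fun h => h.2.2.2, fun h => ⟨hk.1, hk.2.1, hk.2.2, h⟩⟩
      by_cases h : t ∣ k
      · rw [if_pos h, if_pos (hd.mpr h)]; ring
      · rw [if_neg h, if_neg (fun h' => h (hd.mp h'))]; ring
    · rw [if_neg hk]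
      symm
      refine Finset.sum_eq_zero fun t ht => ?_
      have htp : IsPrim t := ((mem_Gd hT0).mp ht).1.1
      rw [if_neg, mul_zero]
      rintro ⟨a, b, d⟩
      exact hk ⟨a, b, ((lc_dvd hs htp k).mp d).1⟩
  have hsm : ∀ t ∈ Gd n T, Summable fun k : Eis => ((muE t : ℤ) : ℂ) *
      (if IsPrim k ∧ IsCoprime k n ∧ lc s t ∣ k then
        G k * ∑ x ∈ J, c x * (sy k x.1 * conj (th (x.2 * k))) else 0) := fun t _ =>
    (E5k54.tsum_fin hG (fun k => IsPrim k ∧ IsCoprime k n ∧ lc s t ∣ k)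
      (fun k => ∑ x ∈ J, c x * (sy k x.1 * conj (th (x.2 * k))))).mul_left _
  unfold Core
  rw [tsum_congr h1, Summable.tsum_finsetSum hsm]
  refine Finset.sum_congr rfl fun t _ => ?_
  rw [tsum_mul_left]

/-! ### the joint core -/

variable {B : Type*}

/-- the index maps of the joint family -/
def jS (s : B → Eis) (i : B × (Eis × Eis)) : Eis := s i.1
def jD (i : B × (Eis × Eis)) : Eis := i.2.1
def jJ (s : B → Eis) (i : B × (Eis × Eis)) : Eis := stj (s i.1) i.2.2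
def jC (s : B → Eis) (c : B → Eis × Eis → ℂ) (i : B × (Eis × Eis)) : ℂ :=
  c i.1 i.2 * sy (s i.1) i.2.1

lemma okI {Q : Finset B} {s : B → Eis} (hs : ∀ b ∈ Q, IsPrim (s b)) {J : Finset (Eis × Eis)}
    (hJ : OKJ J) {c : B → Eis × Eis → ℂ}
    (hc : ∀ b ∈ Q, ∀ x ∈ J, c b x ≠ 0 → IsCoprime x.2 x.1) :
    OKI (Q ×ˢ J) (jS s) jD (jJ s) (jC s c) where
  s i hi := hs _ (Finset.mem_product.mp hi).1
  prim i hi := hJ.prim _ (Finset.mem_product.mp hi).2
  sqf i hi := hJ.sqf _ (Finset.mem_product.mp hi).2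
  jc i hi := (stj_spec (hs _ (Finset.mem_product.mp hi).1)
    (hJ.jc _ (Finset.mem_product.mp hi).2)).1
  cop i hi h0 := by
    obtain ⟨hb, hx⟩ := Finset.mem_product.mp hi
    obtain ⟨-, e, he, h1⟩ := stj_spec (hs _ hb) (hJ.jc _ hx)
    unfold jC at h0
    have h2 := hc _ hb _ hx (left_ne_zero_of_mul h0)
    have h3 : IsCoprime (s i.1) i.2.1 := by
      by_contra h
      exact (right_ne_zero_of_mul h0) ((syAx.eq_zero _ _ (hJ.prim _ hx)).mpr h)
    have h4 : IsCoprime (i.2.2 * s i.1) i.2.1 := h2.mul_left h3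
    rw [h1] at h4
    exact h4.of_mul_left_left

open Classical in
/-- **the joint dictionary for cores** -/
theorem coreJ {n M : Eis} (hn : ∀ p : Eis, Prime p → p ∣ n → p ∣ M) (hn0 : n ≠ 0)
    {ψ : Eis → ℂ} (hψ : HC M ψ) (l : ℤ)
    {V : ℝ → ℂ} {K : ℝ} (hK : 0 < K) (hV : ∀ y, 1 < y → V y = 0) {Q : Finset B} {s : B → Eis}
    (hs : ∀ b ∈ Q, IsPrim (s b)) {J : Finset (Eis × Eis)} (hJ : OKJ J)
    {c : B → Eis × Eis → ℂ} (hc : ∀ b ∈ Q, ∀ x ∈ J, c b x ≠ 0 → IsCoprime x.2 x.1)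
    {b₁ b₂ : Eis → ℂ} (h₁ : FS b₁) (h₂ : FS b₂) {f : Eis} (hf : Sm M f) {N₁ N₂ : ℕ}
    (hN₁ : ∀ i ∈ Q ×ˢ J, nm (XI jD (jJ s) i) ≤ N₁)
    (hN₂ : ∀ n m, b₁ n ≠ 0 → b₂ m ≠ 0 → nm (n * m ^ 2) ≤ N₂) :
    ∑ b ∈ Q, Core n (s b) J (c b)
        (fun k => Wk ψ l f V K k * (conj (CS b₁ k) * CS b₂ k)) =
      ∑ c₀ ∈ C4, ∑ g ∈ MC M N₁, ∑ z ∈ MC M N₂,
        conj ((((K : ℝ) ^ (-(2 / 3) : ℝ) : ℝ) : ℂ) *
          E4L M f (psd ψ (c₀ * g * z)) (-l) (V1 V) K (O := OU M (Q ×ˢ J) (jS s) (jJ s))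
            (fun o => (nm (o.1.1 * o.1.2) : ℝ))
            (fun o => vI M ψ l f (Q ×ˢ J) (jS s) jD (jJ s) (jC s c) c₀ g o.1)
            (fun o => wI M b₁ b₂ (h₁.fin.toFinset ×ˢ h₂.fin.toFinset) z o.1)) := by
  rw [← dictI hψ l hK hV (okI hs hJ hc) h₁ h₂ hf hN₁ hN₂, Finset.sum_product]
  refine Finset.sum_congr rfl fun b hb => ?_
  have hG : ∀ k, IsPrim k → ¬ IsCoprime k n →
      Wk ψ l f V K k * (conj (CS b₁ k) * CS b₂ k) = 0 := by
    intro k hk hkn
    have h1 : ¬ IsCoprime k M := by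
      intro h
      apply hkn
      rw [isCoprime_comm]
      refine isCoprime_of_prime_dvd (fun h => hn0 h.1) fun p hp hpn hpk => ?_
      exact hp.not_isUnit (h.isUnit_of_dvd' hpk (hn p hp hpn))
    unfold Wk End699.tw
    rw [hψ.van k hk h1]
    ring
  rw [Core_all (hs b hb) hJ _ hG]
  have hfin : (Function.support (fun k => Wk ψ l f V K (s b * k))).Finite := by
    refine (fin_le K).subset fun k hk => ?_
    rw [Set.mem_ofPred_eq]
    by_contra h
    apply hk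
    have h1 : (1 : ℝ) ≤ nm (s b) := one_le_nm (hs b hb).ne_zero
    have h2 : 1 < (nm (s b * k) : ℝ) / K := by
      rw [one_lt_div hK, nm_mul, Nat.cast_mul]
      push Not at h
      nlinarith
    show Wk ψ l f V K (s b * k) = 0
    unfold Wk
    rw [hV _ h2]
    ring
  have e1 : ∀ k : Eis, (if IsPrim k then
      Wk ψ l f V K (s b * k) * (conj (CS b₁ (s b * k)) * CS b₂ (s b * k)) *
        ∑ x ∈ J, (c b x * sy (s b) x.1) * (sy k x.1 * conj (th (stj (s b) x.2 * k))) else 0) =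
      ∑ x ∈ J, jC s c (b, x) * (if IsPrim k then Wk ψ l f V K (jS s (b, x) * k) *
        ((sy k (jD (b, x)) * conj (th (jJ s (b, x) * k))) *
          (conj (CS b₁ (jS s (b, x) * k)) * CS b₂ (jS s (b, x) * k))) else 0) := by
    intro k
    split_ifs with hk
    · rw [Finset.mul_sum]
      refine Finset.sum_congr rfl fun x _ => ?_
      simp only [jC, jS, jD, jJ]
      ring
    · simp
  rw [tsum_congr e1, Summable.tsum_finsetSum (fun x _ => Summable.mul_left _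
    (summable_of_hasFiniteSupport (hfin.subset fun k hk => ?_)))]
  · refine Finset.sum_congr rfl fun x _ => ?_
    rw [tsum_mul_left]
  · rw [Function.mem_support] at hk ⊢
    intro h0
    apply hk
    split_ifs
    · show Wk ψ l f V K (s b * k) * _ = 0
      rw [h0, zero_mul]
    · rfl

/-! ### `MS` through cores -/

lemma prim_prodI {κ : Type*} (s : Finset κ) (x : κ → Eis) (h : ∀ i, IsPrim (x i)) :
    IsPrim (∏ i ∈ s, x i) := by
  classical
  induction s using Finset.induction_on with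
  | empty => rw [Finset.prod_empty]; exact isPrim_one
  | insert a s ha ih => rw [Finset.prod_insert ha]; exact (h a).mul ih

variable {ι : Type*} [Fintype ι]

open Classical in
/-- `MS` against the structured function -/
theorem MS_core {n M : Eis} {ψ : Eis → ℂ} (hM : M ≠ 0) (l : ℤ) {V : ℝ → ℂ} {K : ℝ} (hK : 0 < K)
    (hV : ∀ y, 1 < y → V y = 0) {W : Eis → ℂ}
    (hW : ∀ k, IsPrim k → IsCoprime k n → W k = End699.tw ψ l k * V (nm k / K))
    {e : Eis} (he : IsPrim e) {s : Eis} (hs : IsPrim s) (cst : ℂ) (fl : ι → Eis → ℂ) (Y : ℕ)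
    {E0 : ℝ} (hE0 : 0 ≤ E0) (J : Finset (Eis × Eis)) (om : Eis × Eis → ℂ) (b₁ b₂ : Eis → ℂ) :
    MS n W e (fun k => cst * SS fl Y E0 J om k * (CS b₂ k * conj (CS b₁ k))) s =
      cst * ∑ β ∈ PT ι Y, ∑ e₀ ∈ S E0, ∑ t ∈ Gd n (tS (e * ∏ i, β i)),
        ((mu e₀ : ℂ) * ((muE t : ℤ) : ℂ)) *
          Core n (lc (lc s e₀) t) J (fun x => om x * TE (alb fl β) x e₀)
            (fun k => Wk (psE M ψ (e * ∏ i, β i)) l (fN M (e * ∏ i, β i)) V K k *
              (conj (CS b₁ k) * CS b₂ k)) := by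
  have hβp : ∀ β ∈ PT ι Y, IsPrim (∏ i, β i) := by
    intro β hβ
    unfold PT at hβ
    rw [Finset.mem_filter, Fintype.mem_piFinset] at hβ
    exact prim_prodI _ _ fun i => (mem_primBall.mp (hβ.1 i)).2
  set GG : (ι → Eis) → Eis → ℂ := fun β k =>
    Wk (psE M ψ (e * ∏ i, β i)) l (fN M (e * ∏ i, β i)) V K k *
      (conj (CS b₁ k) * CS b₂ k) with hGG
  have hfin : ∀ β, (Function.support (GG β)).Finite := by
    intro β
    refine (fin_le K).subset fun k hk => ?_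
    rw [Set.mem_ofPred_eq]
    by_contra h
    apply hk
    show Wk _ l _ V K k * _ = 0
    unfold Wk
    rw [hV _ ((one_lt_div hK).mpr (not_le.mp h))]
    ring
  have hfin2 : ∀ β, (Function.support (fun k => GG β k *
      if IsCoprime k (tS (e * ∏ i, β i)) then 1 else 0)).Finite := fun β =>
    (hfin β).subset fun k hk => left_ne_zero_of_mul hk
  have h1 : ∀ k : Eis, (if IsPrim k ∧ IsCoprime k n ∧ s ∣ k then
      W k * sy k e * (cst * SS fl Y E0 J om k * (CS b₂ k * conj (CS b₁ k))) else 0) =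
      ∑ β ∈ PT ι Y, cst * (if IsPrim k ∧ IsCoprime k n ∧ s ∣ k then
        (GG β k * if IsCoprime k (tS (e * ∏ i, β i)) then 1 else 0) *
          StE E0 J om (alb fl β) k else 0) := by
    intro k
    split_ifs with hk
    · rw [SS, Finset.mul_sum, Finset.sum_mul, Finset.mul_sum]
      refine Finset.sum_congr rfl fun β hβ => ?_
      have h2 := Wk_E (M := M) (ψ := ψ) hM (he.mul (hβp β hβ)) l V K k
      have h3 : sy k (e * ∏ i, β i) = sy k e * sy k (∏ i, β i) :=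
        syAx.mul_right _ _ _ he (hβp β hβ)
      rw [h3] at h2
      have h4 : W k = End699.tw ψ l k * V (nm k / K) := hW k hk.1 hk.2.1
      rw [hGG]
      simp only
      calc W k * sy k e * (cst * (sy k (∏ i, β i) * StE E0 J om (alb fl β) k) *
            (CS b₂ k * conj (CS b₁ k)))
          = cst * ((End699.tw ψ l k * V (nm k / K) * (sy k e * sy k (∏ i, β i))) *
              (conj (CS b₁ k) * CS b₂ k) * StE E0 J om (alb fl β) k) := by rw [h4]; ring
        _ = _ := by rw [h2]; ring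
    · simp
  have hsm : ∀ β ∈ PT ι Y, Summable fun k : Eis => cst *
      (if IsPrim k ∧ IsCoprime k n ∧ s ∣ k then
        (GG β k * if IsCoprime k (tS (e * ∏ i, β i)) then 1 else 0) *
          StE E0 J om (alb fl β) k else 0) := fun β _ =>
    (E5k54.tsum_fin (hfin2 β) (fun k => IsPrim k ∧ IsCoprime k n ∧ s ∣ k) _).mul_left _
  unfold MS
  rw [tsum_congr h1, Summable.tsum_finsetSum hsm, Finset.mul_sum]
  refine Finset.sum_congr rfl fun β hβ => ?_
  rw [tsum_mul_left, StE_core hs (hfin2 β), Finset.mul_sum, Finset.mul_sum]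
  refine Finset.sum_congr rfl fun e₀ he₀ => ?_
  have he₀p : IsPrim e₀ := (mem_primBall.mp (Finset.mem_filter.mp he₀).1).2
  rw [Core_cop (lc_prim hs he₀p) (tS_prim (he.mul (hβp β hβ))) J _ (hfin β), Finset.mul_sum,
    Finset.mul_sum, Finset.mul_sum]
  refine Finset.sum_congr rfl fun t _ => ?_
  ring

/-! ### the bound -/

/-- the phase -/
def ph (z : ℂ) : ℂ := if z = 0 then 1 else conj z / (‖z‖ : ℂ)

lemma norm_ph (z : ℂ) : ‖ph z‖ = 1 := by
  unfold ph
  split_ifs with h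
  · exact norm_one
  · have h1 : ‖z‖ ≠ 0 := norm_ne_zero_iff.mpr h
    rw [norm_div, RCLike.norm_conj, Complex.norm_real, norm_norm, div_self h1]

lemma ph_mul (z : ℂ) : ph z * z = (‖z‖ : ℂ) := by
  unfold ph
  split_ifs with h
  · rw [h]; simp
  · have h1 : (‖z‖ : ℂ) ≠ 0 := by
      rw [Ne, Complex.ofReal_eq_zero]; exact norm_ne_zero_iff.mpr h
    have h2 : conj z * z = (‖z‖ : ℂ) * (‖z‖ : ℂ) := by
      rw [mul_comm, Complex.mul_conj, Complex.normSq_eq_norm_sq]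
      push_cast
      ring
    rw [div_mul_eq_mul_div, h2, mul_div_assoc, div_self h1, mul_one]

lemma TE_cop {α : Eis → ℂ} {x : Eis × Eis} {e : Eis} (h : TE α x e ≠ 0) : IsCoprime x.2 x.1 := by
  classical
  unfold TE at h
  by_contra hc
  apply h
  refine (tsum_congr fun m => ?_).trans tsum_zero
  rw [if_neg]
  rintro ⟨-, h2⟩
  exact hc h2.of_mul_right_left

/-- the multipliers of the joint family -/
def sE {B : Type*} (s : B → Eis) (e₀ t : Eis) (b : B) : Eis := lc (lc (s b) e₀) t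

/-- the coefficients of the joint family -/
def cE {B : Type*} (ε : B → ℂ) (om : Eis × Eis → ℂ) (α : Eis → ℂ) (e₀ : Eis) (b : B)
    (x : Eis × Eis) : ℂ := ε b * (om x * TE α x e₀)

/-- the `E4L` of the data `(β, e₀, t, c₀, g, z)` -/
def EL {B : Type*} (M : Eis) (ψ : Eis → ℂ) (l : ℤ) (V : ℝ → ℂ) (K : ℝ) (Q : Finset B)
    (s : B → Eis) (ε : B → ℂ) (J : Finset (Eis × Eis)) (om : Eis × Eis → ℂ) (b₁ b₂ : Eis → ℂ)
    (L : Finset (Eis × Eis)) (E : Eis) (α : Eis → ℂ) (e₀ t c₀ g z : Eis) : ℂ :=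
  E4L M (fN M E) (psd (psE M ψ E) (c₀ * g * z)) (-l) (V1 V) K
    (O := OU M (Q ×ˢ J) (jS (sE s e₀ t)) (jJ (sE s e₀ t)))
    (fun o => (nm (o.1.1 * o.1.2) : ℝ))
    (fun o => vI M (psE M ψ E) l (fN M E) (Q ×ˢ J) (jS (sE s e₀ t)) jD (jJ (sE s e₀ t))
      (jC (sE s e₀ t) (cE ε om α e₀)) c₀ g o.1)
    (fun o => wI M b₁ b₂ L z o.1)

open Classical in
/-- **the middle term through `E4L`** -/
theorem mid_E4L {n M : Eis} (hn : ∀ p : Eis, Prime p → p ∣ n → p ∣ M) (hn0 : n ≠ 0)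
    {ψ : Eis → ℂ} (hψ : HC M ψ) (l : ℤ) {V : ℝ → ℂ} {K : ℝ} (hK : 0 < K)
    (hV : ∀ y, 1 < y → V y = 0) {W : Eis → ℂ}
    (hW : ∀ k, IsPrim k → IsCoprime k n → W k = End699.tw ψ l k * V (nm k / K))
    {e : Eis} (he : IsPrim e) {Q : Finset B} {s : B → Eis} (hs : ∀ b ∈ Q, IsPrim (s b)) (cst : ℂ)
    (fl : ι → Eis → ℂ) (Y : ℕ) {E0 : ℝ} (hE0 : 0 ≤ E0) {J : Finset (Eis × Eis)} (hJ : OKJ J)
    (om : Eis × Eis → ℂ) {b₁ b₂ : Eis → ℂ} (h₁ : FS b₁) (h₂ : FS b₂) {N₁ N₂ : ℕ}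
    (hN₁ : ∀ e₀ t, IsPrim e₀ → IsPrim t → (nm e₀ : ℝ) ≤ E0 →
      (∃ β ∈ PT ι Y, t ∣ tS (e * ∏ i, β i)) →
      ∀ i ∈ Q ×ˢ J, nm (XI jD (jJ (sE s e₀ t)) i) ≤ N₁)
    (hN₂ : ∀ n m, b₁ n ≠ 0 → b₂ m ≠ 0 → nm (n * m ^ 2) ≤ N₂) :
    ∃ ε : B → ℂ, (∀ b, ‖ε b‖ = 1) ∧
    ∑ b ∈ Q, ‖MS n W e (fun k => cst * SS fl Y E0 J om k * (CS b₂ k * conj (CS b₁ k))) (s b)‖ ≤
      ‖cst‖ * ∑ β ∈ PT ι Y, ∑ e₀ ∈ S E0, ∑ t ∈ Gd n (tS (e * ∏ i, β i)),
        ∑ c₀ ∈ C4, ∑ g ∈ MC M N₁, ∑ z ∈ MC M N₂, (K : ℝ) ^ (-(2 / 3) : ℝ) *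
          ‖EL M ψ l V K Q s ε J om b₁ b₂ (h₁.fin.toFinset ×ˢ h₂.fin.toFinset)
            (e * ∏ i, β i) (alb fl β) e₀ t c₀ g z‖ := by
  have hM := hψ.q0
  set F : Eis → ℂ := fun k => cst * SS fl Y E0 J om k * (CS b₂ k * conj (CS b₁ k)) with hF
  set ε : B → ℂ := fun b => ph (MS n W e F (s b)) with hε
  refine ⟨ε, fun b => norm_ph _, ?_⟩
  have hβp : ∀ β ∈ PT ι Y, IsPrim (∏ i, β i) := by
    intro β hβ
    unfold PT at hβ
    rw [Finset.mem_filter, Fintype.mem_piFinset] at hβ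
    exact prim_prodI _ _ fun i => (mem_primBall.mp (hβ.1 i)).2
  -- the sum with phases
  have h1 : ((∑ b ∈ Q, ‖MS n W e F (s b)‖ : ℝ) : ℂ) = cst * ∑ β ∈ PT ι Y, ∑ e₀ ∈ S E0,
      ∑ t ∈ Gd n (tS (e * ∏ i, β i)), ((mu e₀ : ℂ) * ((muE t : ℤ) : ℂ)) *
        ∑ b ∈ Q, Core n (sE s e₀ t b) J (cE ε om (alb fl β) e₀ b)
          (fun k => Wk (psE M ψ (e * ∏ i, β i)) l (fN M (e * ∏ i, β i)) V K k *
            (conj (CS b₁ k) * CS b₂ k)) := by
    push_cast
    have e1 : ∀ b ∈ Q, ((‖MS n W e F (s b)‖ : ℝ) : ℂ) = cst * ∑ β ∈ PT ι Y, ∑ e₀ ∈ S E0,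
        ∑ t ∈ Gd n (tS (e * ∏ i, β i)), ((mu e₀ : ℂ) * ((muE t : ℤ) : ℂ)) *
        Core n (sE s e₀ t b) J (cE ε om (alb fl β) e₀ b)
          (fun k => Wk (psE M ψ (e * ∏ i, β i)) l (fN M (e * ∏ i, β i)) V K k *
            (conj (CS b₁ k) * CS b₂ k)) := by
      intro b hb
      have e2 : ((‖MS n W e F (s b)‖ : ℝ) : ℂ) = ε b * MS n W e F (s b) := (ph_mul _).symm
      rw [e2, hF, MS_core hM l hK hV hW he (hs b hb) cst fl Y hE0 J om b₁ b₂]
      rw [← mul_assoc, mul_comm (ε b) cst, mul_assoc, Finset.mul_sum]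
      congr 1
      refine Finset.sum_congr rfl fun β _ => ?_
      rw [Finset.mul_sum]
      refine Finset.sum_congr rfl fun e₀ _ => ?_
      rw [Finset.mul_sum]
      refine Finset.sum_congr rfl fun t _ => ?_
      have e3 : ∀ (s' : Eis) (G : Eis → ℂ), Core n s' J (cE ε om (alb fl β) e₀ b) G =
          ε b * Core n s' J (fun x => om x * TE (alb fl β) x e₀) G := by
        intro s' G
        unfold Core
        rw [← tsum_mul_left]
        refine tsum_congr fun k => ?_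
        split_ifs
        · rw [Finset.mul_sum, Finset.mul_sum, Finset.mul_sum]
          refine Finset.sum_congr rfl fun x _ => ?_
          unfold cE
          ring
        · simp
      rw [e3]
      unfold sE
      ring
    rw [Finset.sum_congr rfl e1, ← Finset.mul_sum]
    congr 1
    rw [Finset.sum_comm]
    refine Finset.sum_congr rfl fun β _ => ?_
    rw [Finset.sum_comm]
    refine Finset.sum_congr rfl fun e₀ _ => ?_
    rw [Finset.sum_comm]
    refine Finset.sum_congr rfl fun t _ => ?_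
    rw [Finset.mul_sum]
  have h0 : 0 ≤ ∑ b ∈ Q, ‖MS n W e F (s b)‖ := Finset.sum_nonneg fun _ _ => norm_nonneg _
  have h2 : ∑ b ∈ Q, ‖MS n W e F (s b)‖ = ‖((∑ b ∈ Q, ‖MS n W e F (s b)‖ : ℝ) : ℂ)‖ := by
    rw [Complex.norm_real, Real.norm_of_nonneg h0]
  rw [h2, h1, norm_mul]
  refine mul_le_mul_of_nonneg_left ?_ (norm_nonneg _)
  refine (norm_sum_le _ _).trans (Finset.sum_le_sum fun β hβ => ?_)
  refine (norm_sum_le _ _).trans (Finset.sum_le_sum fun e₀ he₀ => ?_)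
  refine (norm_sum_le _ _).trans (Finset.sum_le_sum fun t ht => ?_)
  have hE := he.mul (hβp β hβ)
  have htm := (mem_Gd (tS_prim hE).ne_zero).mp ht
  have he₀p : IsPrim e₀ := (mem_primBall.mp (Finset.mem_filter.mp he₀).1).2
  have hμ1 : ‖(mu e₀ : ℂ)‖ ≤ 1 := norm_muE_le e₀
  have hμ2 : ‖((muE t : ℤ) : ℂ)‖ ≤ 1 := norm_muE_le t
  rw [norm_mul, norm_mul]
  have h3 : ‖(mu e₀ : ℂ)‖ * ‖((muE t : ℤ) : ℂ)‖ ≤ 1 := by
    calc _ ≤ (1 : ℝ) * 1 := mul_le_mul hμ1 hμ2 (norm_nonneg _) zero_le_one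
      _ = 1 := one_mul 1
  have hse : ∀ b ∈ Q, IsPrim (sE s e₀ t b) := fun b hb =>
    lc_prim (lc_prim (hs b hb) he₀p) htm.1.1
  have h4 := coreJ hn hn0 (hc_psE hψ hE) l hK hV hse hJ
    (c := cE ε om (alb fl β) e₀) (fun b _ x _ hx => TE_cop (by
      unfold cE at hx
      exact right_ne_zero_of_mul (right_ne_zero_of_mul hx))) h₁ h₂ (fM_spec hM hE).2.1
    (fun i hi => hN₁ e₀ t he₀p htm.1.1 ((mem_S hE0).mp he₀).1 ⟨β, hβ, htm.2.2⟩ i hi) hN₂
  rw [h4]
  refine (mul_le_mul_of_nonneg_right h3 (norm_nonneg _)).trans ?_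
  rw [one_mul]
  refine (norm_sum_le _ _).trans (Finset.sum_le_sum fun c₀ _ => ?_)
  refine (norm_sum_le _ _).trans (Finset.sum_le_sum fun g _ => ?_)
  refine (norm_sum_le _ _).trans (Finset.sum_le_sum fun z _ => ?_)
  rw [RCLike.norm_conj, norm_mul, Complex.norm_real, Real.norm_of_nonneg (by positivity)]
  exact le_rfl

end Crest.Agent.R017.E4D164
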