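import Crest.Agent.R017.E4df_372
import Crest.Agent.R017.E4m_164
import Crest.Agent.R017.SSb_54

/-!
# Row 17, exceptional class, StrUX: the middle term through `E4Lf` (helper372)

helper164's `E4m` with a weight `Φ` on the outer `k` and a general structured function

* `SG T E0 J tx` : `Σ_{β ∈ T} sy k (∏ β) Σ_{e₀} [e₀ ∣ k] μ(e₀) Σ_{x ∈ J} tx β e₀ x sy k δ conj th(j k)`;
  `SST_eq_SG`, `SG_sub`, `SG_smul`
* `coreJf`, `MS_coref`, `ELf`, `mid_E4Lf`
-/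

set_option autoImplicit false

noncomputable section

open Finset Complex
open scoped ComplexConjugate

namespace Crest.Agent.R017.E4Df372

open Crest.Agent.R012 Crest.Agent.R012.Eis Crest.Agent.R012.GaussLoc283
open Crest.Agent.R012.Mob705 hiding pb mem_pb
open Crest.Agent.R012.Div277
open Crest.Agent.R012.LS2 (S mem_S)
open Crest.Agent.R017.Sx545 (Sm)
open Crest.Agent.R017.CM106
open Crest.Agent.R017.PX764 (th Gh n6)
open Crest.Agent.R017.C70 Crest.Agent.R017.GrB829 Crest.Agent.R017.GrD829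
open Crest.Agent.R017.E2440
open Crest.Agent.R017.End699 (HC)
open Crest.Agent.R017.E4352 (PrI)
open Crest.Agent.R017.E5b54 (stj stj_spec)
open Crest.Agent.R017.E5k54 (Core StE_core StE_eq tsum_fin PT alb)
open Crest.Agent.R017.E5m54 (Core_eq_sum Core_zero)
open Crest.Agent.R017.DgA829 (lc lc_prim lc_dvd)
open Crest.Agent.R017.E5P571 (MS Gd mem_Gd)
open Crest.Agent.R017.E4K164 (dc dc_spec rd rd_prim)
open Crest.Agent.R017.SSb54 (SST)
open Crest.Agent.R017.E4D164 hiding E4L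

variable {B : Type*}

open Classical in
/-- **the joint dictionary for cores** -/
theorem coreJf {n M : Eis} (hn : ∀ p : Eis, Prime p → p ∣ n → p ∣ M) (hn0 : n ≠ 0)
    {ψ : Eis → ℂ} (hψ : HC M ψ) (l : ℤ)
    {Φ : Eis → ℂ} {K : ℝ} (hK : 0 < K) (hΦ : ∀ k, K < nm k → Φ k = 0) {Q : Finset B} {s : B → Eis}
    (hs : ∀ b ∈ Q, IsPrim (s b)) {J : Finset (Eis × Eis)} (hJ : OKJ J)
    {c : B → Eis × Eis → ℂ} (hc : ∀ b ∈ Q, ∀ x ∈ J, c b x ≠ 0 → IsCoprime x.2 x.1)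
    {b₁ b₂ : Eis → ℂ} (h₁ : FS b₁) (h₂ : FS b₂) {f : Eis} (hf : Sm M f) {N₁ N₂ : ℕ}
    (hN₁ : ∀ i ∈ Q ×ˢ J, nm (XI jD (jJ s) i) ≤ N₁)
    (hN₂ : ∀ n m, b₁ n ≠ 0 → b₂ m ≠ 0 → nm (n * m ^ 2) ≤ N₂) :
    ∑ b ∈ Q, Core n (s b) J (c b)
        (fun k => Wf ψ l f Φ k * (conj (CS b₁ k) * CS b₂ k)) =
      ∑ c₀ ∈ C4, ∑ g ∈ MC M N₁, ∑ z ∈ MC M N₂,
        conj ((((K : ℝ) ^ (-(2 / 3) : ℝ) : ℝ) : ℂ) *
          E4Lf M f (psd ψ (c₀ * g * z)) (-l) (V1f Φ K) (O := OU M (Q ×ˢ J) (jS s) (jJ s))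
            (fun o => o.1.1 * o.1.2)
            (fun o => vI M ψ l f (Q ×ˢ J) (jS s) jD (jJ s) (jC s c) c₀ g o.1)
            (fun o => wI M b₁ b₂ (h₁.fin.toFinset ×ˢ h₂.fin.toFinset) z o.1)) := by
  rw [← dictIf hψ l hK hΦ (okI hs hJ hc) h₁ h₂ hf hN₁ hN₂, Finset.sum_product]
  refine Finset.sum_congr rfl fun b hb => ?_
  have hG : ∀ k, IsPrim k → ¬ IsCoprime k n →
      Wf ψ l f Φ k * (conj (CS b₁ k) * CS b₂ k) = 0 := by
    intro k hk hkn
    have h1 : ¬ IsCoprime k M := by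
      intro h
      apply hkn
      rw [isCoprime_comm]
      refine isCoprime_of_prime_dvd (fun h => hn0 h.1) fun p hp hpn hpk => ?_
      exact hp.not_isUnit (h.isUnit_of_dvd' hpk (hn p hp hpn))
    unfold Wf End699.tw
    rw [hψ.van k hk h1]
    ring
  rw [Core_all (hs b hb) hJ _ hG]
  have hfin : (Function.support (fun k => Wf ψ l f Φ (s b * k))).Finite := by
    refine (fin_le K).subset fun k hk => ?_
    rw [Set.mem_ofPred_eq]
    by_contra h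
    apply hk
    have h1 : (1 : ℝ) ≤ nm (s b) := one_le_nm (hs b hb).ne_zero
    have h2 : K < (nm (s b * k) : ℝ) := by
      rw [nm_mul, Nat.cast_mul]
      push Not at h
      nlinarith
    show Wf ψ l f Φ (s b * k) = 0
    unfold Wf
    rw [hΦ _ h2]
    ring
  have e1 : ∀ k : Eis, (if IsPrim k then
      Wf ψ l f Φ (s b * k) * (conj (CS b₁ (s b * k)) * CS b₂ (s b * k)) *
        ∑ x ∈ J, (c b x * sy (s b) x.1) * (sy k x.1 * conj (th (stj (s b) x.2 * k))) else 0) =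
      ∑ x ∈ J, jC s c (b, x) * (if IsPrim k then Wf ψ l f Φ (jS s (b, x) * k) *
        ((sy k (jD (b, x)) * conj (th (jJ s (b, x) * k))) *
          (conj (CS b₁ (jS s (b, x) * k)) * CS b₂ (jS s (b, x) * k))) else 0) := by
    intro k
    split_ifs with hk
    · rw [Finset.mul_sum]
      refine Finset.sum_congr rfl fun x _ => ?_
      simp only [jC, jS, jD, jJ]
      ring
    · simp
  rw [tsum_congr e1, Summable.tsum_finsetSum (fun x _ => Summable.mul_left _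
    (summable_of_hasFiniteSupport (hfin.subset fun k hk => ?_)))]
  · refine Finset.sum_congr rfl fun x _ => ?_
    rw [tsum_mul_left]
  · rw [Function.mem_support] at hk ⊢
    intro h0
    apply hk
    split_ifs
    · show Wf ψ l f Φ (s b * k) * _ = 0
      rw [h0, zero_mul]
    · rfl

/-! ### general structured functions -/

variable {ι : Type*} [Fintype ι]

open Classical in
/-- general structured function -/
def SG (T : Finset (ι → Eis)) (E0 : ℝ) (J : Finset (Eis × Eis))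
    (tx : (ι → Eis) → Eis → Eis × Eis → ℂ) (k : Eis) : ℂ :=
  ∑ β ∈ T, sy k (∏ i, β i) * ∑ e ∈ S E0, if e ∣ k then (mu e : ℂ) *
    ∑ x ∈ J, tx β e x * (sy k x.1 * conj (th (x.2 * k))) else 0

lemma SST_eq_SG (T : Finset (ι → Eis)) (f : ι → Eis → ℂ) (E0 : ℝ) (J : Finset (Eis × Eis))
    (om : Eis × Eis → ℂ) (k : Eis) :
    SST T f E0 J om k = SG T E0 J (fun β e x => om x * TE (alb f β) x e) k := by
  unfold SST SG
  refine Finset.sum_congr rfl fun β _ => ?_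
  rw [StE_eq]

lemma SG_smul (T : Finset (ι → Eis)) (E0 : ℝ) (J : Finset (Eis × Eis))
    (tx : (ι → Eis) → Eis → Eis × Eis → ℂ) (c : ℂ) (k : Eis) :
    c * SG T E0 J tx k = SG T E0 J (fun β e x => c * tx β e x) k := by
  unfold SG
  rw [Finset.mul_sum]
  refine Finset.sum_congr rfl fun β _ => ?_
  rw [mul_left_comm, Finset.mul_sum]
  congr 1
  refine Finset.sum_congr rfl fun e _ => ?_
  split_ifs
  · rw [mul_left_comm, Finset.mul_sum]
    congr 1
    refine Finset.sum_congr rfl fun x _ => ?_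
    ring
  · rw [mul_zero]

lemma SG_sub (T : Finset (ι → Eis)) (E0 : ℝ) (J : Finset (Eis × Eis))
    (tx tx' : (ι → Eis) → Eis → Eis × Eis → ℂ) (k : Eis) :
    SG T E0 J tx k - SG T E0 J tx' k = SG T E0 J (fun β e x => tx β e x - tx' β e x) k := by
  unfold SG
  rw [← Finset.sum_sub_distrib]
  refine Finset.sum_congr rfl fun β _ => ?_
  rw [← mul_sub, ← Finset.sum_sub_distrib]
  congr 1
  refine Finset.sum_congr rfl fun e _ => ?_
  split_ifs
  · rw [← mul_sub, ← Finset.sum_sub_distrib]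
    congr 1
    refine Finset.sum_congr rfl fun x _ => ?_
    ring
  · rw [sub_zero]

open Classical in
/-- one tuple: a `k`-sum through cores -/
theorem SG_core {n s : Eis} (hs : IsPrim s) {G : Eis → ℂ} (hG : (Function.support G).Finite)
    (E0 : ℝ) (J : Finset (Eis × Eis)) (tx : Eis → Eis × Eis → ℂ) :
    (∑' k : Eis, if IsPrim k ∧ IsCoprime k n ∧ s ∣ k then
      G k * (∑ e ∈ S E0, if e ∣ k then (mu e : ℂ) *
        ∑ x ∈ J, tx e x * (sy k x.1 * conj (th (x.2 * k))) else 0) else 0) =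
      ∑ e ∈ S E0, (mu e : ℂ) * Core n (lc s e) J (tx e) G := by
  have h1 : ∀ k : Eis, (if IsPrim k ∧ IsCoprime k n ∧ s ∣ k then
      G k * (∑ e ∈ S E0, if e ∣ k then (mu e : ℂ) *
        ∑ x ∈ J, tx e x * (sy k x.1 * conj (th (x.2 * k))) else 0) else 0) =
      ∑ e ∈ S E0, (mu e : ℂ) * (if IsPrim k ∧ IsCoprime k n ∧ lc s e ∣ k then
        G k * ∑ x ∈ J, tx e x * (sy k x.1 * conj (th (x.2 * k))) else 0) := by
    intro k
    by_cases hk : IsPrim k ∧ IsCoprime k n ∧ s ∣ k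
    · rw [if_pos hk, Finset.mul_sum]
      refine Finset.sum_congr rfl fun e he => ?_
      have hep : IsPrim e := (mem_primBall.mp (Finset.mem_filter.mp he).1).2
      have hd : (IsPrim k ∧ IsCoprime k n ∧ lc s e ∣ k) ↔ e ∣ k := by
        rw [lc_dvd hs hep]
        exact ⟨fun h => h.2.2.2, fun h => ⟨hk.1, hk.2.1, hk.2.2, h⟩⟩
      by_cases h : e ∣ k
      · rw [if_pos h, if_pos (hd.mpr h)]; ring
      · rw [if_neg h, if_neg (fun h' => h (hd.mp h'))]; ring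
    · rw [if_neg hk]
      symm
      refine Finset.sum_eq_zero fun e he => ?_
      have hep : IsPrim e := (mem_primBall.mp (Finset.mem_filter.mp he).1).2
      rw [if_neg, mul_zero]
      rintro ⟨a, b, c⟩
      exact hk ⟨a, b, ((lc_dvd hs hep k).mp c).1⟩
  have hsm : ∀ e ∈ S E0, Summable fun k : Eis => (mu e : ℂ) *
      (if IsPrim k ∧ IsCoprime k n ∧ lc s e ∣ k then
        G k * ∑ x ∈ J, tx e x * (sy k x.1 * conj (th (x.2 * k))) else 0) := fun e _ =>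
    (tsum_fin hG (fun k => IsPrim k ∧ IsCoprime k n ∧ lc s e ∣ k)
      (fun k => ∑ x ∈ J, tx e x * (sy k x.1 * conj (th (x.2 * k))))).mul_left _
  rw [tsum_congr h1, Summable.tsum_finsetSum hsm]
  refine Finset.sum_congr rfl fun e _ => ?_
  rw [tsum_mul_left]
  unfold Core
  congr 1

open Classical in
/-- the weight times the symbol -/
theorem Wf_E {M E : Eis} {ψ : Eis → ℂ} (hM : M ≠ 0) (hE : IsPrim E) (l : ℤ) (Φ : Eis → ℂ)
    (k : Eis) : End699.tw ψ l k * Φ k * sy k E =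
      Wf (psE M ψ E) l (fN M E) Φ k * if IsCoprime k (tS E) then 1 else 0 := by
  obtain ⟨h1, h2, h3⟩ := fM_spec hM hE
  rw [sy_E hE, h3, syAx.mul_right _ _ _ h1.1 h2.1]
  unfold Wf psE End699.tw
  rw [map_mul]
  ring

/-! ### `MS` through cores -/

open Classical in
/-- `MS` against the structured function -/
theorem MS_coref {n M : Eis} {ψ : Eis → ℂ} (hM : M ≠ 0) (l : ℤ) {Φ : Eis → ℂ} {K : ℝ}
    (hΦ : ∀ k, K < nm k → Φ k = 0) {W F : Eis → ℂ}
    {e : Eis} (he : IsPrim e) {s : Eis} (hs : IsPrim s) (cst : ℂ)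
    {T : Finset (ι → Eis)} (hT : ∀ β ∈ T, IsPrim (∏ i, β i))
    (E0 : ℝ) (J : Finset (Eis × Eis)) (tx : (ι → Eis) → Eis → Eis × Eis → ℂ) (b₁ b₂ : Eis → ℂ)
    (hW : ∀ k, IsPrim k → IsCoprime k n → W k * F k =
      End699.tw ψ l k * Φ k * (cst * SG T E0 J tx k * (CS b₂ k * conj (CS b₁ k)))) :
    MS n W e F s =
      cst * ∑ β ∈ T, ∑ e₀ ∈ S E0, ∑ t ∈ Gd n (tS (e * ∏ i, β i)),
        ((mu e₀ : ℂ) * ((muE t : ℤ) : ℂ)) *
          Core n (lc (lc s e₀) t) J (tx β e₀)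
            (fun k => Wf (psE M ψ (e * ∏ i, β i)) l (fN M (e * ∏ i, β i)) Φ k *
              (conj (CS b₁ k) * CS b₂ k)) := by
  set GG : (ι → Eis) → Eis → ℂ := fun β k =>
    Wf (psE M ψ (e * ∏ i, β i)) l (fN M (e * ∏ i, β i)) Φ k *
      (conj (CS b₁ k) * CS b₂ k) with hGG
  have hfin : ∀ β, (Function.support (GG β)).Finite := by
    intro β
    refine (fin_le K).subset fun k hk => ?_
    rw [Set.mem_ofPred_eq]
    by_contra h
    apply hk
    show Wf _ l _ Φ k * _ = 0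
    unfold Wf
    rw [hΦ _ (not_le.mp h)]
    ring
  have hfin2 : ∀ β, (Function.support (fun k => GG β k *
      if IsCoprime k (tS (e * ∏ i, β i)) then 1 else 0)).Finite := fun β =>
    (hfin β).subset fun k hk => left_ne_zero_of_mul hk
  have h1 : ∀ k : Eis, (if IsPrim k ∧ IsCoprime k n ∧ s ∣ k then
      W k * sy k e * F k else 0) =
      ∑ β ∈ T, cst * (if IsPrim k ∧ IsCoprime k n ∧ s ∣ k then
        (GG β k * if IsCoprime k (tS (e * ∏ i, β i)) then 1 else 0) *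
          (∑ e ∈ S E0, if e ∣ k then (mu e : ℂ) *
            ∑ x ∈ J, tx β e x * (sy k x.1 * conj (th (x.2 * k))) else 0) else 0) := by
    intro k
    split_ifs with hk
    · have h0 : W k * sy k e * F k = sy k e * (W k * F k) := by ring
      rw [h0, hW k hk.1 hk.2.1, SG, Finset.mul_sum, Finset.sum_mul, Finset.mul_sum,
        Finset.mul_sum]
      refine Finset.sum_congr rfl fun β hβ => ?_
      have h2 := Wf_E (M := M) (ψ := ψ) hM (he.mul (hT β hβ)) l Φ k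
      have h3 : sy k (e * ∏ i, β i) = sy k e * sy k (∏ i, β i) :=
        syAx.mul_right _ _ _ he (hT β hβ)
      rw [h3] at h2
      rw [hGG]
      simp only
      generalize (∑ e ∈ S E0, if e ∣ k then (mu e : ℂ) *
            ∑ x ∈ J, tx β e x * (sy k x.1 * conj (th (x.2 * k))) else 0) = ZZ
      calc sy k e * (End699.tw ψ l k * Φ k * (cst * (sy k (∏ i, β i) * ZZ) *
            (CS b₂ k * conj (CS b₁ k))))
          = cst * ((End699.tw ψ l k * Φ k * (sy k e * sy k (∏ i, β i))) *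
              (conj (CS b₁ k) * CS b₂ k) * ZZ) := by ring
        _ = _ := by rw [h2]; ring
    · simp
  have hsm : ∀ β ∈ T, Summable fun k : Eis => cst *
      (if IsPrim k ∧ IsCoprime k n ∧ s ∣ k then
        (GG β k * if IsCoprime k (tS (e * ∏ i, β i)) then 1 else 0) *
          (∑ e ∈ S E0, if e ∣ k then (mu e : ℂ) *
            ∑ x ∈ J, tx β e x * (sy k x.1 * conj (th (x.2 * k))) else 0) else 0) := fun β _ =>
    (E5k54.tsum_fin (hfin2 β) (fun k => IsPrim k ∧ IsCoprime k n ∧ s ∣ k) _).mul_left _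
  unfold MS
  rw [tsum_congr h1, Summable.tsum_finsetSum hsm, Finset.mul_sum]
  refine Finset.sum_congr rfl fun β hβ => ?_
  rw [tsum_mul_left, SG_core hs (hfin2 β), Finset.mul_sum, Finset.mul_sum]
  refine Finset.sum_congr rfl fun e₀ he₀ => ?_
  have he₀p : IsPrim e₀ := (mem_primBall.mp (Finset.mem_filter.mp he₀).1).2
  rw [Core_cop (lc_prim hs he₀p) (tS_prim (he.mul (hT β hβ))) J _ (hfin β), Finset.mul_sum,
    Finset.mul_sum, Finset.mul_sum]
  refine Finset.sum_congr rfl fun t _ => ?_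
  ring

/-! ### the bound -/

/-- the coefficients of the joint family -/
def cEf {B : Type*} (ε : B → ℂ) (tx : Eis → Eis × Eis → ℂ) (e₀ : Eis) (b : B)
    (x : Eis × Eis) : ℂ := ε b * tx e₀ x

/-- the `E4Lf` of the data `(β, e₀, t, c₀, g, z)` -/
def ELf {B : Type*} (M : Eis) (ψ : Eis → ℂ) (l : ℤ) (Φ : Eis → ℂ) (K : ℝ) (Q : Finset B)
    (s : B → Eis) (ε : B → ℂ) (J : Finset (Eis × Eis)) (tx : Eis → Eis × Eis → ℂ)
    (b₁ b₂ : Eis → ℂ)
    (L : Finset (Eis × Eis)) (E : Eis) (e₀ t c₀ g z : Eis) : ℂ :=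
  E4Lf M (fN M E) (psd (psE M ψ E) (c₀ * g * z)) (-l) (V1f Φ K)
    (O := OU M (Q ×ˢ J) (jS (sE s e₀ t)) (jJ (sE s e₀ t)))
    (fun o => o.1.1 * o.1.2)
    (fun o => vI M (psE M ψ E) l (fN M E) (Q ×ˢ J) (jS (sE s e₀ t)) jD (jJ (sE s e₀ t))
      (jC (sE s e₀ t) (cEf ε tx e₀)) c₀ g o.1)
    (fun o => wI M b₁ b₂ L z o.1)

open Classical in
/-- **the middle term through `E4Lf`** -/
theorem mid_E4Lf {n M : Eis} (hn : ∀ p : Eis, Prime p → p ∣ n → p ∣ M) (hn0 : n ≠ 0)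
    {ψ : Eis → ℂ} (hψ : HC M ψ) (l : ℤ) {Φ : Eis → ℂ} {K : ℝ} (hK : 0 < K)
    (hΦ : ∀ k, K < nm k → Φ k = 0) {W F : Eis → ℂ}
    {e : Eis} (he : IsPrim e) {Q : Finset B} {s : B → Eis} (hs : ∀ b ∈ Q, IsPrim (s b)) (cst : ℂ)
    {T : Finset (ι → Eis)} (hT : ∀ β ∈ T, IsPrim (∏ i, β i)) {E0 : ℝ} (hE0 : 0 ≤ E0)
    {J : Finset (Eis × Eis)} (hJ : OKJ J)
    {tx : (ι → Eis) → Eis → Eis × Eis → ℂ}
    (htx : ∀ β ∈ T, ∀ e₀, ∀ x ∈ J, tx β e₀ x ≠ 0 → IsCoprime x.2 x.1)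
    {b₁ b₂ : Eis → ℂ} (h₁ : FS b₁) (h₂ : FS b₂)
    (hW : ∀ k, IsPrim k → IsCoprime k n → W k * F k =
      End699.tw ψ l k * Φ k * (cst * SG T E0 J tx k * (CS b₂ k * conj (CS b₁ k))))
    {N₁ N₂ : ℕ}
    (hN₁ : ∀ e₀ t, IsPrim e₀ → IsPrim t → (nm e₀ : ℝ) ≤ E0 →
      (∃ β ∈ T, t ∣ tS (e * ∏ i, β i)) →
      ∀ i ∈ Q ×ˢ J, nm (XI jD (jJ (sE s e₀ t)) i) ≤ N₁)
    (hN₂ : ∀ n m, b₁ n ≠ 0 → b₂ m ≠ 0 → nm (n * m ^ 2) ≤ N₂) :
    ∃ ε : B → ℂ, (∀ b, ‖ε b‖ = 1) ∧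
    ∑ b ∈ Q, ‖MS n W e F (s b)‖ ≤
      ‖cst‖ * ∑ β ∈ T, ∑ e₀ ∈ S E0, ∑ t ∈ Gd n (tS (e * ∏ i, β i)),
        ∑ c₀ ∈ C4, ∑ g ∈ MC M N₁, ∑ z ∈ MC M N₂, (K : ℝ) ^ (-(2 / 3) : ℝ) *
          ‖ELf M ψ l Φ K Q s ε J (tx β) b₁ b₂ (h₁.fin.toFinset ×ˢ h₂.fin.toFinset)
            (e * ∏ i, β i) e₀ t c₀ g z‖ := by
  have hM := hψ.q0
  set ε : B → ℂ := fun b => ph (MS n W e F (s b)) with hε
  refine ⟨ε, fun b => norm_ph _, ?_⟩
  -- the sum with phases
  have h1 : ((∑ b ∈ Q, ‖MS n W e F (s b)‖ : ℝ) : ℂ) = cst * ∑ β ∈ T, ∑ e₀ ∈ S E0,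
      ∑ t ∈ Gd n (tS (e * ∏ i, β i)), ((mu e₀ : ℂ) * ((muE t : ℤ) : ℂ)) *
        ∑ b ∈ Q, Core n (sE s e₀ t b) J (cEf ε (tx β) e₀ b)
          (fun k => Wf (psE M ψ (e * ∏ i, β i)) l (fN M (e * ∏ i, β i)) Φ k *
            (conj (CS b₁ k) * CS b₂ k)) := by
    push_cast
    have e1 : ∀ b ∈ Q, ((‖MS n W e F (s b)‖ : ℝ) : ℂ) = cst * ∑ β ∈ T, ∑ e₀ ∈ S E0,
        ∑ t ∈ Gd n (tS (e * ∏ i, β i)), ((mu e₀ : ℂ) * ((muE t : ℤ) : ℂ)) *
        Core n (sE s e₀ t b) J (cEf ε (tx β) e₀ b)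
          (fun k => Wf (psE M ψ (e * ∏ i, β i)) l (fN M (e * ∏ i, β i)) Φ k *
            (conj (CS b₁ k) * CS b₂ k)) := by
      intro b hb
      have e2 : ((‖MS n W e F (s b)‖ : ℝ) : ℂ) = ε b * MS n W e F (s b) := (ph_mul _).symm
      rw [e2, MS_coref hM l hΦ he (hs b hb) cst hT E0 J tx b₁ b₂ hW]
      rw [← mul_assoc, mul_comm (ε b) cst, mul_assoc, Finset.mul_sum]
      congr 1
      refine Finset.sum_congr rfl fun β _ => ?_
      rw [Finset.mul_sum]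
      refine Finset.sum_congr rfl fun e₀ _ => ?_
      rw [Finset.mul_sum]
      refine Finset.sum_congr rfl fun t _ => ?_
      have e3 : ∀ (s' : Eis) (G : Eis → ℂ), Core n s' J (cEf ε (tx β) e₀ b) G =
          ε b * Core n s' J (tx β e₀) G := by
        intro s' G
        unfold Core
        rw [← tsum_mul_left]
        refine tsum_congr fun k => ?_
        split_ifs
        · rw [Finset.mul_sum, Finset.mul_sum, Finset.mul_sum]
          refine Finset.sum_congr rfl fun x _ => ?_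
          unfold cEf
          ring
        · simp
      rw [e3]
      unfold sE
      ring
    rw [Finset.sum_congr rfl e1, ← Finset.mul_sum]
    congr 1
    rw [Finset.sum_comm]
    refine Finset.sum_congr rfl fun β _ => ?_
    rw [Finset.sum_comm]
    refine Finset.sum_congr rfl fun e₀ _ => ?_
    rw [Finset.sum_comm]
    refine Finset.sum_congr rfl fun t _ => ?_
    rw [Finset.mul_sum]
  have h0 : 0 ≤ ∑ b ∈ Q, ‖MS n W e F (s b)‖ := Finset.sum_nonneg fun _ _ => norm_nonneg _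
  have h2 : ∑ b ∈ Q, ‖MS n W e F (s b)‖ = ‖((∑ b ∈ Q, ‖MS n W e F (s b)‖ : ℝ) : ℂ)‖ := by
    rw [Complex.norm_real, Real.norm_of_nonneg h0]
  rw [h2, h1, norm_mul]
  refine mul_le_mul_of_nonneg_left ?_ (norm_nonneg _)
  refine (norm_sum_le _ _).trans (Finset.sum_le_sum fun β hβ => ?_)
  refine (norm_sum_le _ _).trans (Finset.sum_le_sum fun e₀ he₀ => ?_)
  refine (norm_sum_le _ _).trans (Finset.sum_le_sum fun t ht => ?_)
  have hE := he.mul (hT β hβ)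
  have htm := (mem_Gd (tS_prim hE).ne_zero).mp ht
  have he₀p : IsPrim e₀ := (mem_primBall.mp (Finset.mem_filter.mp he₀).1).2
  have hμ1 : ‖(mu e₀ : ℂ)‖ ≤ 1 := norm_muE_le e₀
  have hμ2 : ‖((muE t : ℤ) : ℂ)‖ ≤ 1 := norm_muE_le t
  rw [norm_mul, norm_mul]
  have h3 : ‖(mu e₀ : ℂ)‖ * ‖((muE t : ℤ) : ℂ)‖ ≤ 1 := by
    calc _ ≤ (1 : ℝ) * 1 := mul_le_mul hμ1 hμ2 (norm_nonneg _) zero_le_one
      _ = 1 := one_mul 1
  have hse : ∀ b ∈ Q, IsPrim (sE s e₀ t b) := fun b hb =>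
    lc_prim (lc_prim (hs b hb) he₀p) htm.1.1
  have h4 := coreJf hn hn0 (hc_psE hψ hE) l hK hΦ hse hJ
    (c := cEf ε (tx β) e₀) (fun b _ x hx h0 => htx β hβ e₀ x hx (by
      unfold cEf at h0
      exact right_ne_zero_of_mul h0)) h₁ h₂ (fM_spec hM hE).2.1
    (fun i hi => hN₁ e₀ t he₀p htm.1.1 ((mem_S hE0).mp he₀).1 ⟨β, hβ, htm.2.2⟩ i hi) hN₂
  rw [h4]
  refine (mul_le_mul_of_nonneg_right h3 (norm_nonneg _)).trans ?_
  rw [one_mul]
  refine (norm_sum_le _ _).trans (Finset.sum_le_sum fun c₀ _ => ?_)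
  refine (norm_sum_le _ _).trans (Finset.sum_le_sum fun g _ => ?_)
  refine (norm_sum_le _ _).trans (Finset.sum_le_sum fun z _ => ?_)
  rw [RCLike.norm_conj, norm_mul, Complex.norm_real, Real.norm_of_nonneg (by positivity)]
  exact le_rfl

end Crest.Agent.R017.E4Df372
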