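import Crest.Agent.R017.E4m_164
import Crest.Agent.R017.E5BDefs_71

/-!
# Row 17, R8 / E5, leaf E4: 71's `MidF` through `E4L` (helper164)

* `Vt` : the normalised weight
* `midF_E4L` : `MidF ≤ Σ_{g ∣ d₃} (finite sum of K^{-2/3} ‖EL‖)`
-/

set_option autoImplicit false

noncomputable section

open Finset Complex
open scoped ComplexConjugate

namespace Crest.Agent.R017.E4D164

open Crest.Agent.R012 Crest.Agent.R012.Eis Crest.Agent.R012.GaussLoc283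
open Crest.Agent.R012.Mob705 hiding pb mem_pb
open Crest.Agent.R012.Div277
open Crest.Agent.R012.LS2 (S mem_S)
open Crest.Agent.R017.Sx545 (Sm)
open Crest.Agent.R017.CM106
open Crest.Agent.R017.C70 (OKJ)
open Crest.Agent.R017.E2440
open Crest.Agent.R017.End699 (HC)
open Crest.Agent.R017.E5k54 (PT alb SS)
open Crest.Agent.R017.E5P571 (MS Gd mem_Gd PC BB)
open Crest.Agent.R017.E5B71
open Crest.Agent.R017.B770 (DPar)
open Crest.Agent.R017.Prov71 (Pq)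
open Crest.Agent.R017.FE47 (SM)

/-- the normalised weight -/
def Vt (U : ℝ → ℂ) (τ R K : ℝ) (y : ℝ) : ℂ := ((K * y : ℝ) : ℂ) ^ (I * τ) * U (R * y)

open Classical in
lemma MS_congr {n : Eis} {W : Eis → ℂ} {e : Eis} {F F' : Eis → ℂ}
    (h : ∀ k, IsPrim k → F k = F' k) (s : Eis) : MS n W e F s = MS n W e F' s := by
  unfold MS
  refine tsum_congr fun k => ?_
  split_ifs with hk
  · rw [h k hk.1]
  · rfl

variable {Λ : Type*} {ι : Type*} [Fintype ι]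

open Classical in
/-- **71's structured middle term through `E4L`** -/
theorem midF_E4L {π : Λ → DPar} {h : ℝ → ℝ} {Sf : SF Λ} {lam : Λ × Eis} {a : Bd} {ps : List Pq}
    (hP : (π lam.1).OK) {R : ℝ} (hR : 0 < R) (hU : ∀ y, R < y → (π lam.1).U y = 0)
    (cst : ℂ) (fl : ι → Eis → ℂ) (Y : ℕ) {E0 : ℝ} (hE0 : 0 ≤ E0) {J : Finset (Eis × Eis)}
    (hJ : OKJ J) (om : Eis × Eis → ℂ) {b₁ b₂ : Eis → ℂ} (h₁ : FS b₁) (h₂ : FS b₂)
    (hSf : ∀ k, IsPrim k → Sf.at lam a k = cst * SS fl Y E0 J om k)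
    (hb₁ : ∀ k, IsPrim k → PC h ((amL ps).map (Pt (π lam.1) lam.2)) k = CS b₁ k)
    (hb₂ : ∀ k, IsPrim k → PC h ((bs2 a ps).map (Pt (π lam.1) lam.2)) k = CS b₂ k)
    {N₁ N₂ : ℕ}
    (hN₁ : ∀ g e₀ t, IsPrim g → g ∣ a.d₃ → IsPrim e₀ → IsPrim t → (nm e₀ : ℝ) ≤ E0 →
      (∃ β ∈ PT ι Y, t ∣ tS (a.e * ∏ i, β i)) →
      ∀ i ∈ (a.𝒟.filter (fun q => IsCoprime q a.d₃)) ×ˢ J,
        nm (XI jD (jJ (sE (fun q => q ^ 2 * g) e₀ t)) i) ≤ N₁)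
    (hN₂ : ∀ n m, b₁ n ≠ 0 → b₂ m ≠ 0 → nm (n * m ^ 2) ≤ N₂) :
    ∃ ε : Eis → Eis → ℂ, (∀ g q, ‖ε g q‖ = 1) ∧
    MidF π h Sf lam a ps ≤
      ∑ g ∈ Gd (π lam.1).n a.d₃,
      ‖cst‖ * ∑ β ∈ PT ι Y, ∑ e₀ ∈ S E0, ∑ t ∈ Gd (π lam.1).n (tS (a.e * ∏ i, β i)),
        ∑ c₀ ∈ C4, ∑ g' ∈ MC (π lam.1).n₃ N₁, ∑ z ∈ MC (π lam.1).n₃ N₂,
          (R * Real.exp a.l : ℝ) ^ (-(2 / 3) : ℝ) *
          ‖EL (π lam.1).n₃ (fun k => conj ((π lam.1).χ₃ k)) (π lam.1).l₃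
            (Vt (π lam.1).U a.τ R (R * Real.exp a.l)) (R * Real.exp a.l)
            (a.𝒟.filter (fun q => IsCoprime q a.d₃)) (fun q => q ^ 2 * g) (ε g) J om b₁ b₂
            (h₁.fin.toFinset ×ˢ h₂.fin.toFinset)
            (a.e * ∏ i, β i) (alb fl β) e₀ t c₀ g' z‖ := by
  set P := π lam.1 with hPdef
  set K : ℝ := R * Real.exp a.l with hKdef
  have hK : 0 < K := mul_pos hR (Real.exp_pos _)
  by_cases hcond : a.ok ∧ lam.2 ∈ SM (π lam.1).n ∧ a.okP (π lam.1)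
  swap
  · refine ⟨fun _ _ => 1, fun _ _ => norm_one, ?_⟩
    unfold MidF
    rw [if_neg hcond]
    exact Finset.sum_nonneg fun _ _ => by positivity
  obtain ⟨hok, hSM, hokP⟩ := hcond
  have hψ : HC P.n₃ (fun k => conj (P.χ₃ k)) := hP.χ₃.conj
  have hn : ∀ p : Eis, Prime p → p ∣ P.n → p ∣ P.n₃ := fun p hp hd => (hP.rad p hp).mpr hd
  have hn0 : P.n ≠ 0 := hP.φ.q0
  have hV : ∀ y, 1 < y → Vt P.U a.τ R K y = 0 := by
    intro y hy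
    unfold Vt
    rw [hU _ (by nlinarith), mul_zero]
  have hW : ∀ k, IsPrim k → IsCoprime k P.n →
      Wt P a k = End699.tw (fun k => conj (P.χ₃ k)) P.l₃ k * Vt P.U a.τ R K (nm k / K) := by
    intro k _ _
    unfold Wt SU770.DPar.wp End699.tw Vt
    have e1 : K * ((nm k : ℝ) / K) = nm k := by field_simp
    have e2 : R * ((nm k : ℝ) / K) = (nm k : ℝ) / Real.exp a.l := by
      rw [hKdef]
      field_simp
    rw [e1, e2]
    push_cast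
    ring
  have he : IsPrim a.e := hokP.1.1
  have hq : ∀ q ∈ a.𝒟.filter (fun q => IsCoprime q a.d₃), IsPrim q := fun q hq =>
    (hokP.2.2 q (Finset.mem_filter.mp hq).1).1.1
  have hd3 : a.d₃ ≠ 0 := hok.2.2
  have key : ∀ g : Eis, ∃ ε : Eis → ℂ, (∀ q, ‖ε q‖ = 1) ∧ (g ∈ Gd P.n a.d₃ →
      ∑ q ∈ a.𝒟.filter (fun q => IsCoprime q a.d₃),
        ‖MS P.n (Wt P a) a.e (fun k => cst * SS fl Y E0 J om k * (CS b₂ k * conj (CS b₁ k)))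
          (q ^ 2 * g)‖ ≤
      ‖cst‖ * ∑ β ∈ PT ι Y, ∑ e₀ ∈ S E0, ∑ t ∈ Gd P.n (tS (a.e * ∏ i, β i)),
        ∑ c₀ ∈ C4, ∑ g' ∈ MC P.n₃ N₁, ∑ z ∈ MC P.n₃ N₂, (K : ℝ) ^ (-(2 / 3) : ℝ) *
          ‖EL P.n₃ (fun k => conj (P.χ₃ k)) P.l₃ (Vt P.U a.τ R K) K
            (a.𝒟.filter (fun q => IsCoprime q a.d₃)) (fun q => q ^ 2 * g) ε J om b₁ b₂
            (h₁.fin.toFinset ×ˢ h₂.fin.toFinset)
            (a.e * ∏ i, β i) (alb fl β) e₀ t c₀ g' z‖) := by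
    intro g
    by_cases hg : g ∈ Gd P.n a.d₃
    · have hgm := (mem_Gd hd3).mp hg
      obtain ⟨ε, h1, h2⟩ := mid_E4L (B := Eis) hn hn0 hψ P.l₃ hK hV hW he
        (Q := a.𝒟.filter (fun q => IsCoprime q a.d₃)) (s := fun q => q ^ 2 * g)
        (fun q hq' => ((hq q hq').pow 2).mul hgm.1.1) cst fl Y hE0 hJ om h₁ h₂ (N₁ := N₁)
        (N₂ := N₂) (fun e₀ t he₀ ht hle hex i hi =>
          hN₁ g e₀ t hgm.1.1 hgm.2.2 he₀ ht hle hex i hi) hN₂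
      exact ⟨ε, h1, fun _ => h2⟩
    · exact ⟨fun _ => 1, fun _ => norm_one, fun h => absurd h hg⟩
  choose ε h1 h2 using key
  refine ⟨ε, h1, ?_⟩
  unfold MidF
  rw [if_pos ⟨hok, hSM, hokP⟩, Finset.sum_comm]
  refine Finset.sum_le_sum fun g hg => ?_
  refine le_trans (le_of_eq ?_) (h2 g hg)
  refine Finset.sum_congr rfl fun q _ => ?_
  congr 1
  refine MS_congr (fun k hk => ?_) _
  unfold BB
  rw [hSf k hk, List.append_nil, hb₁ k hk, hb₂ k hk]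

end Crest.Agent.R017.E4D164
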