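import Crest.Agent.R017.E4a_352

/-!
# Row 17, C70/E4: the opening of the coprimality `(k, f y) = 1` (helper502)

`lOpen : E4352.LOpen`
-/

set_option autoImplicit false

noncomputable section

open Complex
open scoped ComplexConjugate

namespace Crest.Agent.R017.E4o502

open Crest.Agent.R012 Crest.Agent.R012.Eis Crest.Agent.R012.Mob705 Crest.Agent.R012.Gauss880
open Crest.Agent.R012.GaussLoc283
open Crest.Agent.R012.Div277
open Crest.Agent.R017.Sx545 Crest.Agent.R017.CM106 Crest.Agent.R017.C70 Crest.Agent.R017.C590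
open Crest.Agent.R017.B770 Crest.Agent.R017.E2440
open Crest.Agent.R017.E4352 Crest.Agent.R017.NT47

/-- admissible `(D, B)` for `(x, y)` -/
def GG (M f x y D B : Eis) : Prop :=
  Squarefree D ∧ Squarefree B ∧ IsCoprime D B ∧ Sm M D ∧ Sm M B ∧ D * B ^ 3 ∣ f * x * y ∧
    IsCoprime (f * x * y / (D * B ^ 3)) D ∧ ∀ p : Eis, Prime p → p ∣ D * B → p ∣ f * y

open Classical in
/-- the term of `(D, B)` -/
def EE (M f : Eis) (φ : Eis → ℂ) (x y D B : Eis) : ℂ :=
  if GG M f x y D B then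
    cB D * conj (sy (f * x * y / (D * B ^ 3)) D) * ((muE B : ℂ) * (nm B : ℂ) ^ 3) *
      NT M (f * x * y / (D * B ^ 3)) (fun k => φ (D ^ 2 * B ^ 3 * k))
  else 0

lemma tf_eq_EE {M f x y D B : Eis} {φ : Eis → ℂ} (hf : Sm M f) (hx : Sm M x) (hy : Sm M y)
    (hD : D ∈ dvs (rd (f * y))) (hB : B ∈ dvs (rd (f * y))) :
    Tf M (f * x * y) φ D B = EE M f φ x y D B := by
  have hfy : IsPrim (f * y) := hf.prim.mul hy.prim
  have hfy0 := hfy.ne_zero
  have hn0 := (rd_prim (f * y)).ne_zero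
  rw [mem_dvs hn0] at hD hB
  have hD2 := (dvd_rd hfy0 hD.1).mp hD.2
  have hB2 := (dvd_rd hfy0 hB.1).mp hB.2
  have hSfy : Sm M (f * y) := hf.mul hy
  have hSn : Sm M (rd (f * y)) := hSfy.of_dvd (rd_prim _) (rd_dvd _)
  have hSD : Sm M D := hSn.of_dvd hD.1 hD.2
  have hSB : Sm M B := hSn.of_dvd hB.1 hB.2
  have hD0 := hD.1.ne_zero
  have hB0 := hB.1.ne_zero
  have hu0 : f * x * y ≠ 0 := mul_ne_zero (mul_ne_zero hf.ne_zero hx.ne_zero) hy.ne_zero
  have hDB0 : D * B ^ 3 ≠ 0 := mul_ne_zero hD0 (pow_ne_zero 3 hB0)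
  have hDu : D ∣ f * x * y := (hD.2.trans (rd_dvd _)).trans ⟨x, by ring⟩
  by_cases hBu : B ^ 3 ∣ f * x * y
  swap
  · rw [Tf_of_not_dvd hBu]
    unfold EE
    rw [if_neg]
    rintro ⟨-, -, -, -, -, h, -⟩
    exact hBu ((dvd_mul_left _ _).trans h)
  obtain ⟨c, hc⟩ := hDu
  have e1 : f * x * y / D = c := div_eq' hD0 hc
  by_cases hcop : IsCoprime c D
  swap
  · have h1 : sy (f * x * y / D) D = 0 := by rw [e1]; exact (syAx.eq_zero _ _ hD.1).mpr hcop
    rw [Tf_of_sy h1]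
    unfold EE
    rw [if_neg]
    rintro ⟨-, -, h3, -, -, ⟨w, hw⟩, h5, -⟩
    rw [div_eq' hDB0 hw] at h5
    apply hcop
    have h6 : c = B ^ 3 * w := by
      apply mul_left_cancel₀ hD0
      rw [← hc, hw]; ring
    rw [h6]
    exact (h3.symm.pow_left).mul_left h5
  · have hBD : IsCoprime B D := by
      rw [isCoprime_iff_pp hB.1]
      intro q hq hqB hqD
      have h1 : q ^ 3 ∣ f * x * y := (pow_dvd_pow_of_dvd hqB 3).trans hBu
      obtain ⟨D', hD'⟩ := hqD
      have hq0 := hq.prime.ne_zero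
      have hqD' : ¬ q ∣ D' := fun h => hq.prime.not_isUnit (hD2.1 q (by
        rw [hD']; exact mul_dvd_mul_left q h))
      rw [hc, hD', show q ^ 3 = q * q ^ 2 by ring, mul_assoc] at h1
      have h2 : q ^ 2 ∣ D' * c := (mul_dvd_mul_iff_left hq0).mp h1
      have h3 : q ∣ c := by
        rcases hq.prime.dvd_or_dvd ((dvd_pow_self q two_ne_zero).trans h2) with h | h
        · exact absurd h hqD'
        · exact h
      exact hq.prime.not_isUnit (hcop.isUnit_of_dvd' h3 (by rw [hD']; exact dvd_mul_right _ _))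
    have h3 : B ^ 3 ∣ c := by
      rw [hc] at hBu
      exact (hBD.pow_left).dvd_of_dvd_mul_left hBu
    obtain ⟨w, rfl⟩ := h3
    have hu : f * x * y = D * B ^ 3 * w := by rw [hc]; ring
    have e2 : f * x * y / (D * B ^ 3) = w := div_eq' hDB0 hu
    have hG : GG M f x y D B := by
      refine ⟨hD2.1, hB2.1, hBD.symm, hSD, hSB, ⟨w, hu⟩, ?_, ?_⟩
      · rw [e2]; exact hcop.of_mul_left_right
      · intro p hp hpd
        rcases hp.dvd_or_dvd hpd with h | h
        · exact hD2.2 p hp h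
        · exact hB2.2 p hp h
    unfold EE
    rw [if_pos hG, e2]
    have e3 : Tf M (f * x * y) φ D B = Tf M (D * B ^ 3 * w) φ D B := by rw [hu]
    rw [e3, Tf_eq hD0 hB0]
    have e8 : sy (B ^ 3 * w) D = sy w D := by
      rw [mul_comm]; exact sy_cube_one hD.1 hBD w
    rw [e8]

/-- **the opening at one pair** -/
lemma open1 {M f x y : Eis} {φ : Eis → ℂ} {N : ℕ} (hf : Sm M f) (hx : Sm M x) (hy : Sm M y)
    (hfN : nm f ≤ N) (hyN : nm y ≤ N) (hφ : Dcy φ) :
    NT (M * (f * y)) (f * x * y) φ =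
      ∑ D ∈ primBall (N ^ 2), ∑ B ∈ primBall (N ^ 2), EE M f φ x y D B := by
  have hfy : IsPrim (f * y) := hf.prim.mul hy.prim
  have hfy0 := hfy.ne_zero
  have hn0 := (rd_prim (f * y)).ne_zero
  have hSfy : Sm M (f * y) := hf.mul hy
  have hSn : Sm M (rd (f * y)) := hSfy.of_dvd (rd_prim _) (rd_dvd _)
  have hu0 : f * x * y ≠ 0 := mul_ne_zero (mul_ne_zero hf.ne_zero hx.ne_zero) hy.ne_zero
  have hnu : rd (f * y) ∣ f * x * y := (rd_dvd _).trans ⟨x, by ring⟩
  rw [NT_rad hfy, NT_full0 _ _ le_rfl (rd_sqf _) M _ hSn hu0 hnu φ hφ]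
  have hsub : dvs (rd (f * y)) ⊆ primBall (N ^ 2) := by
    intro D hD
    rw [mem_dvs hn0] at hD
    rw [mem_primBall]
    refine ⟨?_, hD.1⟩
    calc nm D ≤ nm (f * y) := nm_le_of_dvd hfy0 (hD.2.trans (rd_dvd _))
      _ = nm f * nm y := nm_mul _ _
      _ ≤ N * N := Nat.mul_le_mul hfN hyN
      _ = N ^ 2 := by ring
  have hz : ∀ D B : Eis, IsPrim D → IsPrim B → (D ∉ dvs (rd (f * y)) ∨ B ∉ dvs (rd (f * y))) →
      EE M f φ x y D B = 0 := by
    intro D B hD hB h
    unfold EE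
    rw [if_neg]
    rintro ⟨h1, h2, -, -, -, -, -, h8⟩
    rcases h with h | h
    · exact h ((mem_dvs hn0).mpr ⟨hD, (dvd_rd hfy0 hD).mpr
        ⟨h1, fun p hp hpd => h8 p hp (hpd.mul_right B)⟩⟩)
    · exact h ((mem_dvs hn0).mpr ⟨hB, (dvd_rd hfy0 hB).mpr
        ⟨h2, fun p hp hpd => h8 p hp (hpd.mul_left D)⟩⟩)
  have e1 : ∑ D ∈ dvs (rd (f * y)), ∑ B ∈ dvs (rd (f * y)), Tf M (f * x * y) φ D B =
      ∑ D ∈ dvs (rd (f * y)), ∑ B ∈ dvs (rd (f * y)), EE M f φ x y D B :=
    Finset.sum_congr rfl fun D hD => Finset.sum_congr rfl fun B hB => tf_eq_EE hf hx hy hD hB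
  rw [e1]
  have e2 : ∀ D ∈ dvs (rd (f * y)), ∑ B ∈ dvs (rd (f * y)), EE M f φ x y D B =
      ∑ B ∈ primBall (N ^ 2), EE M f φ x y D B := by
    intro D hD
    refine Finset.sum_subset hsub fun B hB hB' => ?_
    exact hz D B ((mem_dvs hn0).mp hD).1 (mem_primBall.mp hB).2 (Or.inr hB')
  rw [Finset.sum_congr rfl e2]
  refine Finset.sum_subset hsub fun D hD hD' => ?_
  exact Finset.sum_eq_zero fun B hB =>
    hz D B (mem_primBall.mp hD).2 (mem_primBall.mp hB).2 (Or.inl hD')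

/-- the conditions at `(R x, Z y)` -/
lemma GG_iff {M f D B R Z x y : Eis} (hD : IsPrim D) (hB : IsPrim B)
    (hx : IsCoprime x (D * B)) (hy : IsCoprime y (D * B)) :
    GG M f (R * x) (Z * y) D B ↔ Good M f D B R Z := by
  have hD0 := hD.ne_zero
  have hB0 := hB.ne_zero
  have hDB0 : D * B ^ 3 ≠ 0 := mul_ne_zero hD0 (pow_ne_zero 3 hB0)
  have hxy : IsCoprime (x * y) (D * B) := hx.mul_left hy
  have hxyD : IsCoprime (x * y) D := hxy.of_mul_right_left
  have hxyB : IsCoprime (x * y) B := hxy.of_mul_right_right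
  have e0 : f * (R * x) * (Z * y) = f * R * Z * (x * y) := by ring
  have h3 : IsCoprime (D * B ^ 3) (x * y) := hxyD.symm.mul_left (hxyB.symm.pow_left)
  have hdvd : D * B ^ 3 ∣ f * (R * x) * (Z * y) ↔ D * B ^ 3 ∣ f * R * Z := by
    rw [e0]
    exact ⟨fun h => h3.dvd_of_dvd_mul_right h, fun h => h.mul_right _⟩
  have hp : (∀ p : Eis, Prime p → p ∣ D * B → p ∣ f * (Z * y)) ↔
      ∀ p : Eis, Prime p → p ∣ D * B → p ∣ f * Z := by
    refine forall_congr' fun p => forall_congr' fun hp => forall_congr' fun hpd => ?_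
    rw [← mul_assoc]
    refine ⟨fun h => ?_, fun h => h.mul_right _⟩
    rcases hp.dvd_or_dvd h with h | h
    · exact h
    · exact absurd (hy.isUnit_of_dvd' h hpd) hp.not_isUnit
  unfold GG Good
  rw [hdvd, hp]
  constructor
  · rintro ⟨h1, h2, h3, h4, h5, ⟨w, hw⟩, h7, h8⟩
    refine ⟨h1, h2, h3, h4, h5, ⟨w, hw⟩, ?_, h8⟩
    have e1 : f * (R * x) * (Z * y) / (D * B ^ 3) = w * (x * y) :=
      div_eq' hDB0 (by rw [e0, hw]; ring)
    rw [e1] at h7
    rw [div_eq' hDB0 hw]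
    exact h7.of_mul_left_left
  · rintro ⟨h1, h2, h3, h4, h5, ⟨w, hw⟩, h7, h8⟩
    refine ⟨h1, h2, h3, h4, h5, ⟨w, hw⟩, ?_, h8⟩
    have e1 : f * (R * x) * (Z * y) / (D * B ^ 3) = w * (x * y) :=
      div_eq' hDB0 (by rw [e0, hw]; ring)
    rw [div_eq' hDB0 hw] at h7
    rw [e1]
    exact h7.mul_left hxyD

open Classical in
/-- the value at `(R x, Z y)` -/
lemma EE_val {M f D B R Z x y : Eis} {φ : Eis → ℂ} (hD : IsPrim D) (hB : IsPrim B)
    (hx : IsCoprime x (D * B)) (hy : IsCoprime y (D * B)) :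
    EE M f φ (R * x) (Z * y) D B = if Good M f D B R Z then
      (cB D * conj (sy (f * R * Z / (D * B ^ 3)) D) * ((muE B : ℂ) * (nm B : ℂ) ^ 3)) *
        (conj (sy x D) * (conj (sy y D) *
          NT M (f * R * Z / (D * B ^ 3) * x * y) (fun k => φ (D ^ 2 * B ^ 3 * k)))) else 0 := by
  have hD0 := hD.ne_zero
  have hB0 := hB.ne_zero
  have hDB0 : D * B ^ 3 ≠ 0 := mul_ne_zero hD0 (pow_ne_zero 3 hB0)
  unfold EE
  by_cases h : Good M f D B R Z
  · rw [if_pos ((GG_iff hD hB hx hy).mpr h), if_pos h]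
    obtain ⟨w, hw⟩ := h.2.2.2.2.2.1
    have e1 : f * (R * x) * (Z * y) / (D * B ^ 3) = w * x * y :=
      div_eq' hDB0 (by
        rw [show f * (R * x) * (Z * y) = f * R * Z * (x * y) by ring, hw]; ring)
    have e2 : f * R * Z / (D * B ^ 3) = w := div_eq' hDB0 hw
    rw [e1, e2, syAx.mul_left (w * x) y D hD, syAx.mul_left w x D hD]
    simp only [map_mul]
    ring
  · rw [if_neg (fun h' => h ((GG_iff hD hB hx hy).mp h')), if_neg h]

/-- finite form of the sum of a shortened sequence -/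
lemma tsum_tws {M R t : Eis} {g c : Eis → ℂ} (hc : SSm M c) {N : ℕ} (hN : ∀ x, c x ≠ 0 → nm x ≤ N)
    (hR : IsPrim R) (F : Eis → ℂ) :
    ∑' x, tws R t g c x * F x = ∑ x ∈ primBall N, tws R t g c x * F x := by
  classical
  refine tsum_eq_sum fun x hx => ?_
  by_cases h : tws R t g c x = 0
  · rw [h, zero_mul]
  · exfalso
    apply hx
    have h1 : c (R * x) ≠ 0 := by
      intro h0
      apply h
      unfold tws
      rw [h0]
      simp
    have h2 := (hc.sm _ h1).prim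
    have h3 : IsPrim x := h2.of_mul_left hR
    exact mem_primBall.mpr ⟨(nm_le_of_dvd h2.ne_zero (dvd_mul_left x R)).trans (hN _ h1), h3⟩

/-- **LOpen** -/
theorem lOpen : LOpen := by
  classical
  intro M f v w φ N hf hv hw hvN hwN hfN hφ
  -- the left side as a finite sum
  have e1 : ∑' x : Eis, v x * ∑' y : Eis, w y * NT (M * (f * y)) (f * x * y) φ =
      ∑ x ∈ primBall N, v x * ∑ y ∈ primBall N, w y *
        ∑ D ∈ primBall (N ^ 2), ∑ B ∈ primBall (N ^ 2), EE M f φ x y D B := by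
    rw [tsum_SSm hv hvN]
    refine Finset.sum_congr rfl fun x _ => ?_
    by_cases hx0 : v x = 0
    · rw [hx0, zero_mul, zero_mul]
    congr 1
    rw [tsum_SSm hw hwN]
    refine Finset.sum_congr rfl fun y _ => ?_
    by_cases hy0 : w y = 0
    · rw [hy0, zero_mul, zero_mul]
    rw [open1 hf (hv.sm x hx0) (hw.sm y hy0) hfN (hwN y hy0) hφ]
  -- interchange
  have e2 : ∑ x ∈ primBall N, v x * ∑ y ∈ primBall N, w y *
        ∑ D ∈ primBall (N ^ 2), ∑ B ∈ primBall (N ^ 2), EE M f φ x y D B =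
      ∑ D ∈ primBall (N ^ 2), ∑ B ∈ primBall (N ^ 2),
        ∑ x ∈ primBall N, ∑ y ∈ primBall N, v x * (w y * EE M f φ x y D B) := by
    simp only [Finset.mul_sum]
    have h1 : ∀ x ∈ primBall N, ∑ y ∈ primBall N, ∑ D ∈ primBall (N ^ 2),
        ∑ B ∈ primBall (N ^ 2), v x * (w y * EE M f φ x y D B) =
        ∑ D ∈ primBall (N ^ 2), ∑ B ∈ primBall (N ^ 2), ∑ y ∈ primBall N,
          v x * (w y * EE M f φ x y D B) := by
      intro x _
      rw [Finset.sum_comm]
      refine Finset.sum_congr rfl fun D _ => ?_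
      rw [Finset.sum_comm]
    rw [Finset.sum_congr rfl h1, Finset.sum_comm]
    refine Finset.sum_congr rfl fun D _ => ?_
    rw [Finset.sum_comm]
  rw [e1, e2]
  refine Finset.sum_congr rfl fun D hD => Finset.sum_congr rfl fun B hB => ?_
  have hDp := (mem_primBall.mp hD).2
  have hBp := (mem_primBall.mp hB).2
  have ht : IsPrim (D * B) := hDp.mul hBp
  rw [sum_bp ht N]
  refine Finset.sum_congr rfl fun R hR => ?_
  have hRp : IsPrim R := (mem_primBall.mp (Finset.mem_filter.mp hR).1).2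
  -- the sum over `y`
  have e3 : ∀ x ∈ primBall N, (if IsCoprime x (D * B) ∧ nm (R * x) ≤ N then
      ∑ y ∈ primBall N, v (R * x) * (w y * EE M f φ (R * x) y D B) else 0) =
      ∑ Z ∈ (primBall N).filter (fun Z => PrI (D * B) Z), ∑ y ∈ primBall N,
        (if IsCoprime x (D * B) ∧ nm (R * x) ≤ N then
          (if IsCoprime y (D * B) ∧ nm (Z * y) ≤ N then
            v (R * x) * (w (Z * y) * EE M f φ (R * x) (Z * y) D B) else 0) else 0) := by
    intro x _
    by_cases h : IsCoprime x (D * B) ∧ nm (R * x) ≤ N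
    · simp only [if_pos h]
      exact sum_bp ht N (fun y => v (R * x) * (w y * EE M f φ (R * x) y D B))
    · simp only [if_neg h, Finset.sum_const_zero]
  rw [Finset.sum_congr rfl e3, Finset.sum_comm]
  refine Finset.sum_congr rfl fun Z hZ => ?_
  have hZp : IsPrim Z := (mem_primBall.mp (Finset.mem_filter.mp hZ).1).2
  rw [tsum_tws hv hvN hRp]
  by_cases hG : Good M f D B R Z
  · rw [if_pos hG, Finset.mul_sum]
    refine Finset.sum_congr rfl fun x _ => ?_
    rw [tsum_tws hw hwN hZp, Finset.mul_sum, Finset.mul_sum]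
    refine Finset.sum_congr rfl fun y _ => ?_
    by_cases hx : IsCoprime x (D * B)
    swap
    · rw [if_neg (fun h : IsCoprime x (D * B) ∧ nm (R * x) ≤ N => hx h.1)]
      unfold tws
      rw [if_neg hx]
      simp
    by_cases hy : IsCoprime y (D * B)
    swap
    · rw [if_neg (fun h : IsCoprime y (D * B) ∧ nm (Z * y) ≤ N => hy h.1)]
      unfold tws
      rw [if_neg hy]
      simp
    by_cases hvx : v (R * x) = 0
    · unfold tws
      rw [hvx]
      simp
    by_cases hwy : w (Z * y) = 0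
    · unfold tws
      rw [hwy]
      simp
    rw [if_pos ⟨hx, hvN _ hvx⟩, if_pos ⟨hy, hwN _ hwy⟩, EE_val hDp hBp hx hy, if_pos hG]
    unfold tws
    rw [if_pos hx, if_pos hy]
    ring
  · rw [if_neg hG]
    refine Finset.sum_eq_zero fun x _ => Finset.sum_eq_zero fun y _ => ?_
    by_cases hx : IsCoprime x (D * B) ∧ nm (R * x) ≤ N
    swap
    · rw [if_neg hx]
    by_cases hy : IsCoprime y (D * B) ∧ nm (Z * y) ≤ N
    swap
    · rw [if_pos hx, if_neg hy]
    rw [if_pos hx, if_pos hy, EE_val hDp hBp hx.1 hy.1, if_neg hG]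
    ring

end Crest.Agent.R017.E4o502
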