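import Crest.Agent.R017.E4p9_939
import Crest.Agent.R017.E4v5_47

/-!
# Row 17, block C70, leaf E4, case L (helper939): the polar terms, part 10

`hm5_L` : the hypothesis `HM5` of `E4core5` in case L, i.e. for
`mt u Q = mc conj (rho (m₀ u)) Q^(4/3)`.
-/

set_option autoImplicit false
set_option linter.unusedVariables false
set_option linter.unusedSectionVars false

noncomputable section

open Finset
open scoped ComplexConjugate

namespace Crest.Agent.R017.E4P939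

open Crest.Agent.R012 Crest.Agent.R012.Eis Crest.Agent.R012.Mob705 Crest.Agent.R012.Gauss880
open Crest.Agent.R012.LS2 (S mem_S)
open Crest.Agent.R012.Div277 (dvs mem_dvs tau)
open Crest.Agent.R017.Sx545 (Sm)
open Crest.Agent.R017.PX764 (rho th Gh n6 cD)
open Crest.Agent.R017.E2440 (NoP)
open Crest.Agent.R017.E4579 (SupB exists_bp bp_unique)
open Crest.Agent.R017.C70 (CbF)
open Crest.Agent.R017.E4352
open Crest.Agent.R017.E4v5

/-- `pol_W` for infinite sums -/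
theorem pol_Wt {ε : ℝ} (hε : 0 < ε) : ∃ K : ℝ, 0 < K ∧ ∀ (X Y Λ c0 : ℝ) (q κ : Eis)
    (A C : Eis → ℂ), 1 ≤ X → 1 ≤ Y → 0 ≤ Λ → 0 ≤ c0 → NoP q κ → (∀ x, A x ≠ 0 → Sm q x) →
    (∀ y, C y ≠ 0 → Sm q y) → (∀ x, A x ≠ 0 → CbF x ∧ (nm x : ℝ) ≤ X) → LM C c0 Y Λ →
    ‖∑' x : Eis, A x * ∑' y : Eis, C y * conj (rho (κ * x * y))‖ ≤
      c0 * (K * (X * Y) ^ ε * (Real.sqrt (∑ x ∈ primBall ⌊X⌋₊, ‖A x‖ ^ 2 * n6 x ^ 2) *
        (X ^ (1 / 2 : ℝ) * Λ ^ (1 / 3 : ℝ) + X ^ (1 / 4 : ℝ) * Λ ^ (5 / 12 : ℝ)))) := by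
  obtain ⟨K, hK, h⟩ := pol_W hε
  refine ⟨K, hK, fun X Y Λ c0 q κ A C hX hY hΛ hc0 hκ hA hC hAX hLM => ?_⟩
  have e1 : ∑' x : Eis, A x * ∑' y : Eis, C y * conj (rho (κ * x * y)) =
      ∑ x ∈ primBall ⌊X⌋₊, A x * ∑ y ∈ primBall ⌊Y⌋₊, C y * conj (rho (κ * x * y)) := by
    rw [tsum_eq_sum (s := primBall ⌊X⌋₊)]
    · refine Finset.sum_congr rfl fun x _ => ?_
      rw [tsum_eq_sum (s := primBall ⌊Y⌋₊)]
      intro y hy
      have : C y = 0 := by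
        by_contra h0
        exact hy (GLS106.mem_primBall_floor.mpr ⟨(hLM y h0).2.1, (hLM y h0).1⟩)
      rw [this, zero_mul]
    · intro x hx
      have : A x = 0 := by
        by_contra h0
        exact hx (GLS106.mem_primBall_floor.mpr ⟨(hAX x h0).2, (hA x h0).1⟩)
      rw [this, zero_mul]
  rw [e1]
  exact h X Y Λ c0 q κ A C hX hY hΛ hc0 hκ hA hC hAX hLM

/-- the bound -/
def PT (M2 Xv Λ : ℝ) : ℝ :=
  Real.sqrt M2 * (Xv ^ (1 / 2 : ℝ) * Λ ^ (1 / 3 : ℝ) + Xv ^ (1 / 4 : ℝ) * Λ ^ (5 / 12 : ℝ))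

lemma PT_nonneg {M2 Xv Λ : ℝ} (h : 0 ≤ Xv) (h' : 0 ≤ Λ) : 0 ≤ PT M2 Xv Λ := by
  unfold PT; positivity

lemma PT_div {M2 Xv Λ g : ℝ} (hM : 0 ≤ M2) (hX : 0 ≤ Xv) (hΛ : 0 ≤ Λ) (hg : 1 ≤ g) :
    PT (g ^ (1 / 3 : ℝ) * M2) (Xv / g) Λ ≤ PT M2 Xv Λ := by
  have hg0 : 0 < g := by linarith
  unfold PT
  have e1 : Real.sqrt (g ^ (1 / 3 : ℝ) * M2) = g ^ (1 / 6 : ℝ) * Real.sqrt M2 := by
    rw [Real.sqrt_mul (by positivity), Real.sqrt_eq_rpow, ← Real.rpow_mul hg0.le]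
    norm_num
  rw [e1, Real.div_rpow hX hg0.le, Real.div_rpow hX hg0.le]
  have h1 : g ^ (1 / 6 : ℝ) * (Xv ^ (1 / 2 : ℝ) / g ^ (1 / 2 : ℝ)) ≤ Xv ^ (1 / 2 : ℝ) := by
    rw [mul_div_assoc', div_le_iff₀ (by positivity), mul_comm]
    gcongr
    norm_num
  have h2 : g ^ (1 / 6 : ℝ) * (Xv ^ (1 / 4 : ℝ) / g ^ (1 / 4 : ℝ)) ≤ Xv ^ (1 / 4 : ℝ) := by
    rw [mul_div_assoc', div_le_iff₀ (by positivity), mul_comm]
    gcongr
    norm_num
  calc g ^ (1 / 6 : ℝ) * Real.sqrt M2 * (Xv ^ (1 / 2 : ℝ) / g ^ (1 / 2 : ℝ) * Λ ^ (1 / 3 : ℝ) +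
        Xv ^ (1 / 4 : ℝ) / g ^ (1 / 4 : ℝ) * Λ ^ (5 / 12 : ℝ))
      = Real.sqrt M2 * ((g ^ (1 / 6 : ℝ) * (Xv ^ (1 / 2 : ℝ) / g ^ (1 / 2 : ℝ))) *
        Λ ^ (1 / 3 : ℝ) + (g ^ (1 / 6 : ℝ) * (Xv ^ (1 / 4 : ℝ) / g ^ (1 / 4 : ℝ))) *
        Λ ^ (5 / 12 : ℝ)) := by ring
    _ ≤ _ := by gcongr

/-- shifted second moment -/
lemma M2_shift {v A : Eis → ℂ} {N : ℕ} {g : Eis} (hg : IsPrim g) {s : Finset Eis}
    (hs : ∀ x ∈ s, IsPrim x) (hA : ∀ x, ‖A x‖ ≤ ‖v (g * x)‖)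
    (hv : ∀ x, v x ≠ 0 → nm x ≤ N) :
    ∑ x ∈ s, ‖A x‖ ^ 2 * n6 x ^ 2 ≤
      (nm g : ℝ) ^ (1 / 3 : ℝ) * ∑ x ∈ primBall N, ‖v x‖ ^ 2 * n6 x ^ 2 := by
  classical
  have hn : (0 : ℝ) < nm g := lt_of_lt_of_le one_pos (nm_ge hg.ne_zero)
  have h1 : ∀ x ∈ s, ‖A x‖ ^ 2 * n6 x ^ 2 ≤
      (nm g : ℝ) ^ (1 / 3 : ℝ) * (‖v (g * x)‖ ^ 2 * n6 (g * x) ^ 2) := by
    intro x _
    have e1 : (nm g : ℝ) ^ (1 / 3 : ℝ) * n6 g ^ 2 = 1 := by
      unfold PX764.n6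
      rw [← Real.rpow_natCast, ← Real.rpow_mul hn.le, ← Real.rpow_add hn]; norm_num
    have h2 : ‖A x‖ ^ 2 ≤ ‖v (g * x)‖ ^ 2 := pow_le_pow_left₀ (norm_nonneg _) (hA x) 2
    calc ‖A x‖ ^ 2 * n6 x ^ 2 ≤ ‖v (g * x)‖ ^ 2 * n6 x ^ 2 := by gcongr
      _ = ((nm g : ℝ) ^ (1 / 3 : ℝ) * n6 g ^ 2) * (‖v (g * x)‖ ^ 2 * n6 x ^ 2) := by
          rw [e1, one_mul]
      _ = _ := by rw [PX764.n6_mul]; ring
  refine (Finset.sum_le_sum h1).trans ?_
  rw [← Finset.mul_sum]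
  refine mul_le_mul_of_nonneg_left ?_ (by positivity)
  have hinj : Set.InjOn (fun x : Eis => g * x) s := fun a _ b _ h =>
    mul_left_cancel₀ hg.ne_zero h
  have e2 : ∑ x ∈ s, ‖v (g * x)‖ ^ 2 * n6 (g * x) ^ 2 =
      ∑ x ∈ s.image (fun x => g * x), ‖v x‖ ^ 2 * n6 x ^ 2 := by
    rw [Finset.sum_image hinj]
  have e3 : ∑ x ∈ s.image (fun x => g * x), ‖v x‖ ^ 2 * n6 x ^ 2 =
      ∑ x ∈ (s.image (fun x => g * x)).filter (fun x => v x ≠ 0), ‖v x‖ ^ 2 * n6 x ^ 2 := by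
    rw [Finset.sum_filter]
    refine Finset.sum_congr rfl fun x _ => ?_
    split_ifs with h
    · rfl
    · rw [not_ne_iff.mp h, norm_zero]; ring
  rw [e2, e3]
  refine Finset.sum_le_sum_of_subset_of_nonneg ?_ fun x _ _ => by positivity
  intro x hx
  rw [Finset.mem_filter, Finset.mem_image] at hx
  obtain ⟨⟨r, hr, rfl⟩, h0⟩ := hx
  rw [mem_primBall]
  exact ⟨hv _ h0, hg.mul (hs r hr)⟩

lemma PT_mono {M2 M2' Xv Λ : ℝ} (h : M2 ≤ M2') (hX : 0 ≤ Xv) (hΛ : 0 ≤ Λ) :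
    PT M2 Xv Λ ≤ PT M2' Xv Λ := by
  unfold PT
  exact mul_le_mul_of_nonneg_right (Real.sqrt_le_sqrt h) (by positivity)

/-- finite form -/
lemma fin_tsum {A C : Eis → ℂ} {N : ℕ} (hA : ∀ x, A x ≠ 0 → x ∈ primBall N)
    (hC : ∀ x, C x ≠ 0 → x ∈ primBall N) (Φ : Eis → Eis → ℂ) :
    ∑' x : Eis, A x * ∑' y : Eis, C y * Φ x y =
      ∑ x ∈ primBall N, A x * ∑ y ∈ primBall N, C y * Φ x y := by
  rw [tsum_eq_sum (s := primBall N)]
  · refine Finset.sum_congr rfl fun x _ => ?_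
    rw [tsum_eq_sum (s := primBall N)]
    intro y hy
    have : C y = 0 := by
      by_contra h0
      exact hy (hC y h0)
    rw [this, zero_mul]
  · intro x hx
    have : A x = 0 := by
      by_contra h0
      exact hx (hA x h0)
    rw [this, zero_mul]

open Classical in
/-- **one `o`** -/
theorem pol_oz {ε : ℝ} (hε : 0 < ε) : ∃ K : ℝ, 0 < K ∧ ∀ (M m0 F q R Z : Eis)
    (v w g1 g2 : Eis → ℂ) (X Xv Λ c0 : ℝ), NoP M m0 → Sm M F → (nm F : ℝ) ≤ X ^ 6 → IsPrim R →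
    PrI q Z → 1 ≤ X → SSm M v → SSm M w →
    (∀ x, v x ≠ 0 → CbF x ∧ (nm x : ℝ) ≤ X ∧ (nm x : ℝ) ≤ Xv) → Xv ≤ X →
    (∀ y, w y ≠ 0 → (nm y : ℝ) ≤ X ∧ ‖w y‖ ≤ c0 ∧ ∃ z l m : Eis, z ≠ 0 ∧ l ≠ 0 ∧ m ≠ 0 ∧
      IsCoprime z y ∧ z * y = l * m ^ 2 ∧ (nm l : ℝ) ^ 2 * nm m ≤ Λ) → 0 ≤ Λ → 0 ≤ c0 →
    (∀ x, ‖g1 x‖ ≤ 1) → (∀ x, ‖g2 x‖ ≤ 1) →
    ‖∑' x : Eis, tws R q g1 v x * ∑' y : Eis, tws Z q g2 w y *
        conj (rho (m0 * (F * x * y)))‖ ≤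
      K * X ^ ε * (c0 * PT (∑ x ∈ primBall ⌊X⌋₊, ‖v x‖ ^ 2 * n6 x ^ 2) Xv Λ) := by
  obtain ⟨K1, hK1, hW⟩ := pol_Wt (ε := ε / 8) (by positivity)
  obtain ⟨C2, hC2, hcnt⟩ := E4401.lCnt (ε / 24) (by positivity)
  refine ⟨K1 * C2 ^ 2 + 1, by positivity, ?_⟩
  intro M m0 F q R Z v w g1 g2 X Xv Λ c0 hm0 hF hFX hR hZ hX hv hw hvx hXv hwy hΛ hc0 hg1 hg2
  have hX0 : 0 < X := by linarith
  set N := ⌊X⌋₊ with hN
  set M2 := ∑ x ∈ primBall N, ‖v x‖ ^ 2 * n6 x ^ 2 with hM2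
  have hM20 : 0 ≤ M2 := Finset.sum_nonneg fun x _ => by positivity
  -- trivial case
  rcases lt_or_ge Xv 1 with hXv1 | hXv1
  · have hz : ∀ x, tws R q g1 v x = 0 := by
      intro x
      unfold tws
      split_ifs with hc
      · have : v (R * x) = 0 := by
          by_contra h0
          have h1 := (hvx _ h0).2.2
          have h2 := nm_ge (hv.sm _ h0).1.ne_zero
          linarith
        rw [this, mul_zero]
      · rfl
    have : ∑' x : Eis, tws R q g1 v x * ∑' y : Eis, tws Z q g2 w y *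
        conj (rho (m0 * (F * x * y))) = 0 := by
      simp only [hz, zero_mul, tsum_zero]
    rw [this, norm_zero]
    rcases lt_or_ge Xv 0 with hneg | hnn
    · -- then `v = 0`, `M2 = 0`
      have : M2 = 0 := by
        rw [hM2]
        refine Finset.sum_eq_zero fun x _ => ?_
        have : v x = 0 := by
          by_contra h0
          have h1 := (hvx _ h0).2.2
          have h2 := nm_ge (hv.sm _ h0).1.ne_zero
          linarith
        rw [this, norm_zero]; ring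
      rw [this]
      unfold PT
      rw [Real.sqrt_zero, zero_mul, mul_zero, mul_zero]
    · have := PT_nonneg (M2 := M2) hnn hΛ
      positivity
  have hXv0 : 0 ≤ Xv := by linarith
  have hPT : 0 ≤ PT M2 Xv Λ := PT_nonneg hXv0 hΛ
  -- supports
  have ha : ∀ x, tws R q g1 v x ≠ 0 → IsCoprime x q ∧ v (R * x) ≠ 0 ∧ IsPrim x ∧ Sm M x ∧
      x ∈ primBall N := by
    intro x h0
    unfold tws at h0
    split_ifs at h0 with hc
    · have h1 : v (R * x) ≠ 0 := right_ne_zero_of_mul h0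
      have h2 := hv.sm _ h1
      have h3 : IsPrim x := h2.1.of_mul_left hR
      refine ⟨hc, h1, h3, ⟨h3, h2.2.of_mul_left_right⟩, ?_⟩
      rw [hN, GLS106.mem_primBall_floor]
      refine ⟨le_trans ?_ (hvx _ h1).2.1, h3⟩
      exact_mod_cast Div277.nm_le_of_dvd h2.1.ne_zero (dvd_mul_left _ _)
    · exact absurd rfl h0
  have hb : ∀ y, tws Z q g2 w y ≠ 0 → IsCoprime y q ∧ w (Z * y) ≠ 0 ∧ IsPrim y ∧ Sm M y ∧
      y ∈ primBall N := by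
    intro x h0
    unfold tws at h0
    split_ifs at h0 with hc
    · have h1 : w (Z * x) ≠ 0 := right_ne_zero_of_mul h0
      have h2 := hw.sm _ h1
      have h3 : IsPrim x := h2.1.of_mul_left hZ.1
      refine ⟨hc, h1, h3, ⟨h3, h2.2.of_mul_left_right⟩, ?_⟩
      rw [hN, GLS106.mem_primBall_floor]
      refine ⟨le_trans ?_ (hwy _ h1).1, h3⟩
      exact_mod_cast Div277.nm_le_of_dvd h2.1.ne_zero (dvd_mul_left _ _)
    · exact absurd rfl h0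
  have hna : ∀ x, ‖tws R q g1 v x‖ ≤ ‖v (R * x)‖ := by
    intro x
    unfold tws
    split_ifs with hc
    · rw [norm_mul]
      exact mul_le_of_le_one_left (norm_nonneg _) (hg1 x)
    · rw [norm_zero]; exact norm_nonneg _
  have hnb : ∀ x, ‖tws Z q g2 w x‖ ≤ ‖w (Z * x)‖ := by
    intro x
    unfold tws
    split_ifs with hc
    · rw [norm_mul]
      exact mul_le_of_le_one_left (norm_nonneg _) (hg2 x)
    · rw [norm_zero]; exact norm_nonneg _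
  set a := tws R q g1 v with hadef
  set b := tws Z q g2 w with hbdef
  set AP : Eis → Eis → ℂ := fun P x => if IsCoprime x F ∧ nm (P * x) ≤ N then a (P * x) else 0
    with hAP
  set CP : Eis → Eis → ℂ := fun P y => if IsCoprime y F ∧ nm (P * y) ≤ N then b (P * y) else 0
    with hCP
  set PP := (primBall N).filter (fun R => PrI F R) with hPP
  have e0 : ∑' x : Eis, a x * ∑' y : Eis, b y * conj (rho (m0 * (F * x * y))) =
      ∑ P ∈ PP, ∑ P' ∈ PP, ∑ x ∈ primBall N, AP P x * ∑ y ∈ primBall N, CP P' y *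
        conj (rho (m0 * F * P * P' * x * y)) := by
    rw [fin_tsum (fun x h => (ha x h).2.2.2.2) (fun y h => (hb y h).2.2.2.2)
      (fun x y => conj (rho (m0 * (F * x * y))))]
    rw [sum_bp hF.1 N]
    refine Finset.sum_congr rfl fun P _ => ?_
    rw [Finset.sum_comm]
    refine Finset.sum_congr rfl fun x _ => ?_
    have e1 : ∑ y ∈ primBall N, b y * conj (rho (m0 * (F * (P * x) * y))) =
        ∑ P' ∈ PP, ∑ y ∈ primBall N, CP P' y *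
          conj (rho (m0 * F * P * P' * x * y)) := by
      rw [sum_bp hF.1 N]
      refine Finset.sum_congr rfl fun P' _ => Finset.sum_congr rfl fun y _ => ?_
      rw [hCP]
      simp only
      split_ifs with h1
      · congr 3; ring
      · rw [zero_mul]
    rw [hAP]
    simp only
    split_ifs with h1
    · rw [e1, Finset.mul_sum]
    · simp
  rw [e0]
  -- one pair
  have hpair : ∀ P ∈ PP, ∀ P' ∈ PP, ‖∑ x ∈ primBall N, AP P x * ∑ y ∈ primBall N, CP P' y *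
        conj (rho (m0 * F * P * P' * x * y))‖ ≤ c0 * (K1 * (X * X) ^ (ε / 8) * PT M2 Xv Λ) := by
    intro P hP P' hP'
    rw [hPP, Finset.mem_filter, mem_primBall] at hP hP'
    obtain ⟨⟨_, hPp⟩, -, hPs⟩ := hP
    obtain ⟨⟨_, hPp'⟩, -, hPs'⟩ := hP'
    have hAs : ∀ x, AP P x ≠ 0 → IsCoprime x F ∧ a (P * x) ≠ 0 := by
      intro x h0
      rw [hAP] at h0
      simp only at h0
      split_ifs at h0 with h1
      · exact ⟨h1.1, h0⟩
      · exact absurd rfl h0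
    have hCs : ∀ x, CP P' x ≠ 0 → IsCoprime x F ∧ b (P' * x) ≠ 0 := by
      intro x h0
      rw [hCP] at h0
      simp only at h0
      split_ifs at h0 with h1
      · exact ⟨h1.1, h0⟩
      · exact absurd rfl h0
    have hAp : ∀ x, AP P x ≠ 0 → Sm (M * F) x ∧ x ∈ primBall N ∧ v (R * P * x) ≠ 0 := by
      intro x h0
      obtain ⟨h1, h2⟩ := hAs x h0
      obtain ⟨h3, h4, h5, h6, h7⟩ := ha _ h2
      have h8 : IsPrim x := h5.of_mul_left hPp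
      refine ⟨⟨h8, (h6.2.of_mul_left_right).mul_right h1⟩, ?_, ?_⟩
      · rw [mem_primBall] at h7 ⊢
        exact ⟨(Div277.nm_le_of_dvd h5.ne_zero (dvd_mul_left _ _)).trans h7.1, h8⟩
      · rw [mul_assoc]; exact h4
    have hCp : ∀ x, CP P' x ≠ 0 → Sm (M * F) x ∧ x ∈ primBall N ∧ w (Z * (P' * x)) ≠ 0 ∧
        IsCoprime (P' * x) q ∧ IsCoprime x F := by
      intro x h0
      obtain ⟨h1, h2⟩ := hCs x h0
      obtain ⟨h3, h4, h5, h6, h7⟩ := hb _ h2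
      have h8 : IsPrim x := h5.of_mul_left hPp'
      refine ⟨⟨h8, (h6.2.of_mul_left_right).mul_right h1⟩, ?_, h4, h3, h1⟩
      rw [mem_primBall] at h7 ⊢
      exact ⟨(Div277.nm_le_of_dvd h5.ne_zero (dvd_mul_left _ _)).trans h7.1, h8⟩
    have hg : IsPrim (R * P) := hR.mul hPp
    have hgn : (1 : ℝ) ≤ nm (R * P) := nm_ge hg.ne_zero
    have hAn : ∀ x, ‖AP P x‖ ≤ ‖v (R * P * x)‖ := by
      intro x
      rw [hAP]
      simp only
      split_ifs with h1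
      · rw [mul_assoc]; exact hna _
      · rw [norm_zero]; exact norm_nonneg _
    rw [← fin_tsum (fun x h => (hAp x h).2.1) (fun y h => (hCp y h).2.1)
      (fun x y => conj (rho (m0 * F * P * P' * x * y)))]
    rcases lt_or_ge (Xv / nm (R * P)) 1 with hlt | hge
    · have hz : ∀ x, AP P x = 0 := by
        intro x
        by_contra h0
        obtain ⟨h1, -, h3⟩ := hAp x h0
        have h4 := (hvx _ h3).2.2
        rw [nm_mul (R * P) x] at h4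
        push_cast at h4
        have h5 := nm_ge h1.1.ne_zero
        rw [div_lt_one (by linarith)] at hlt
        nlinarith
      have : ∑' x : Eis, AP P x * ∑' y : Eis, CP P' y *
          conj (rho (m0 * F * P * P' * x * y)) = 0 := by
        simp only [hz, zero_mul, tsum_zero]
      rw [this, norm_zero]
      positivity
    · have hLM : LM (CP P') c0 X Λ := by
        intro y h0
        obtain ⟨h1, h2, h3, h4, h5⟩ := hCp y h0
        obtain ⟨k1, k2, z, l, m, hz0, hl, hm, hzc, hlm, hle⟩ := hwy _ h3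
        refine ⟨h1.1, ?_, ?_, z * (Z * P'), l, m,
          mul_ne_zero hz0 (mul_ne_zero hZ.1.ne_zero hPp'.ne_zero), hl, hm, ?_, ?_, hle⟩
        · rw [hN, GLS106.mem_primBall_floor] at h2
          exact h2.1
        · refine le_trans ?_ k2
          rw [hCP]
          simp only
          split_ifs with h6
          · exact hnb _
          · rw [norm_zero]; exact norm_nonneg _
        · exact (hzc.of_mul_right_right.of_mul_right_right).mul_left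
            ((SupB.cop hZ.1 hZ.2 h4.of_mul_left_right).mul_left (SupB.cop hPp' hPs' h5))
        · rw [← hlm]; ring
      have hNoP : NoP (M * F) (m0 * F * P * P') := by
        refine ⟨mul_ne_zero (mul_ne_zero (mul_ne_zero hm0.1 hF.1.ne_zero) hPp.ne_zero)
          hPp'.ne_zero, fun p hp hpS hd => ?_⟩
        have hpF : ¬ p ∣ F := fun h =>
          hp.not_isUnit (hpS.2.of_mul_right_right.isUnit_of_dvd' dvd_rfl h)
        rcases hp.dvd_or_dvd hd with h1 | h1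
        · rcases hp.dvd_or_dvd h1 with h2 | h2
          · rcases hp.dvd_or_dvd h2 with h3 | h3
            · exact hm0.2 p hp ⟨hpS.1, hpS.2.of_mul_right_left⟩ h3
            · exact hpF h3
          · exact hpF (hPs p hp h2)
        · exact hpF (hPs' p hp h1)
      have h1 := hW (Xv / nm (R * P)) X Λ c0 (M * F) (m0 * F * P * P') (AP P) (CP P') hge hX hΛ
        hc0 hNoP (fun x h => (hAp x h).1) (fun y h => (hCp y h).1) ?_ hLM
      · refine h1.trans ?_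
        have h2 : ∑ x ∈ primBall ⌊Xv / nm (R * P)⌋₊, ‖AP P x‖ ^ 2 * n6 x ^ 2 ≤
            (nm (R * P) : ℝ) ^ (1 / 3 : ℝ) * M2 :=
          M2_shift hg (fun x hx => (mem_primBall.mp hx).2) hAn fun x h0 => by
            have := (hvx x h0).2.1
            rw [hN]
            exact Nat.le_floor this
        have h3 : PT (∑ x ∈ primBall ⌊Xv / nm (R * P)⌋₊, ‖AP P x‖ ^ 2 * n6 x ^ 2)
            (Xv / nm (R * P)) Λ ≤ PT M2 Xv Λ :=
          (PT_mono h2 (by positivity) hΛ).trans (PT_div hM20 hXv0 hΛ hgn)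
        have h4 : (Xv / nm (R * P) * X) ^ (ε / 8) ≤ (X * X) ^ (ε / 8) := by
          refine Real.rpow_le_rpow (by positivity) ?_ (by positivity)
          exact mul_le_mul_of_nonneg_right ((div_le_self hXv0 hgn).trans hXv) hX0.le
        have h5 : 0 ≤ PT (∑ x ∈ primBall ⌊Xv / nm (R * P)⌋₊, ‖AP P x‖ ^ 2 * n6 x ^ 2)
            (Xv / nm (R * P)) Λ := PT_nonneg (by positivity) hΛ
        unfold PT at h3 h5 ⊢
        gcongr
      · intro x h0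
        obtain ⟨k1, k2, k3⟩ := hAp x h0
        refine ⟨fun p hp hd => (hvx _ k3).1 p hp (hd.mul_left _), ?_⟩
        rw [le_div_iff₀ (by linarith)]
        have := (hvx _ k3).2.2
        rw [nm_mul (R * P) x] at this
        push_cast at this
        linarith
  have hcard : (PP.card : ℝ) ≤ C2 * X ^ (ε / 4) := by
    have h1 : (1 : ℝ) ≤ X ^ 6 := one_le_pow₀ hX
    have h2 := hcnt F (X ^ 6) h1 hF.1.ne_zero hFX
    have h3 : ((X ^ 6 : ℝ)) ^ (ε / 24) = X ^ (ε / 4) := by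
      rw [← Real.rpow_natCast, ← Real.rpow_mul hX0.le]
      congr 1; push_cast; ring
    rw [h3] at h2
    refine le_trans ?_ h2
    have hsub : PP ⊆ (primBall ⌊X ^ 6⌋₊).filter (fun R => PrI F R) := by
      intro y hy
      rw [hPP, Finset.mem_filter, hN, GLS106.mem_primBall_floor] at hy
      rw [Finset.mem_filter, GLS106.mem_primBall_floor]
      exact ⟨⟨hy.1.1.trans (le_self_pow₀ hX (by norm_num)), hy.1.2⟩, hy.2⟩
    exact_mod_cast Finset.card_le_card hsub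
  have hXX : (X * X) ^ (ε / 8) = X ^ (ε / 4) := by
    rw [show X * X = X ^ (2 : ℕ) by ring, ← Real.rpow_natCast, ← Real.rpow_mul hX0.le]
    congr 1; push_cast; ring
  have hpw : X ^ (ε / 4) * X ^ (ε / 4) * X ^ (ε / 4) ≤ X ^ ε := by
    rw [← Real.rpow_add hX0, ← Real.rpow_add hX0]
    exact Real.rpow_le_rpow_of_exponent_le hX (by linarith)
  calc ‖∑ P ∈ PP, ∑ P' ∈ PP, ∑ x ∈ primBall N, AP P x * ∑ y ∈ primBall N, CP P' y *
        conj (rho (m0 * F * P * P' * x * y))‖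
      ≤ ∑ P ∈ PP, ∑ P' ∈ PP, c0 * (K1 * (X * X) ^ (ε / 8) * PT M2 Xv Λ) :=
        (norm_sum_le _ _).trans (Finset.sum_le_sum fun P hP =>
          (norm_sum_le _ _).trans (Finset.sum_le_sum fun P' hP' => hpair P hP P' hP'))
    _ = (PP.card : ℝ) * ((PP.card : ℝ) * (c0 * (K1 * (X * X) ^ (ε / 8) * PT M2 Xv Λ))) := by
        rw [Finset.sum_const, Finset.sum_const, nsmul_eq_mul, nsmul_eq_mul]
    _ ≤ (C2 * X ^ (ε / 4)) * ((C2 * X ^ (ε / 4)) *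
        (c0 * (K1 * X ^ (ε / 4) * PT M2 Xv Λ))) := by
        rw [hXX]; gcongr
    _ = (K1 * C2 ^ 2) * (X ^ (ε / 4) * X ^ (ε / 4) * X ^ (ε / 4)) * (c0 * PT M2 Xv Λ) := by
        ring
    _ ≤ (K1 * C2 ^ 2 + 1) * X ^ ε * (c0 * PT M2 Xv Λ) := by
        gcongr
        linarith

open Classical in
/-- the special case `z = 1` -/
theorem pol_o {ε : ℝ} (hε : 0 < ε) : ∃ K : ℝ, 0 < K ∧ ∀ (M m0 F q R Z : Eis)
    (v w g1 g2 : Eis → ℂ) (X Xv Λ c0 : ℝ), NoP M m0 → Sm M F → (nm F : ℝ) ≤ X ^ 3 → IsPrim R →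
    PrI q Z → 1 ≤ X → SSm M v → SSm M w →
    (∀ x, v x ≠ 0 → CbF x ∧ (nm x : ℝ) ≤ X ∧ (nm x : ℝ) ≤ Xv) → Xv ≤ X →
    (∀ y, w y ≠ 0 → (nm y : ℝ) ≤ X ∧ ‖w y‖ ≤ c0 ∧ ∃ l m : Eis, l ≠ 0 ∧ m ≠ 0 ∧ y = l * m ^ 2 ∧
      (nm l : ℝ) ^ 2 * nm m ≤ Λ) → 0 ≤ Λ → 0 ≤ c0 → (∀ x, ‖g1 x‖ ≤ 1) → (∀ x, ‖g2 x‖ ≤ 1) →
    ‖∑' x : Eis, tws R q g1 v x * ∑' y : Eis, tws Z q g2 w y *
        conj (rho (m0 * (F * x * y)))‖ ≤
      K * X ^ ε * (c0 * PT (∑ x ∈ primBall ⌊X⌋₊, ‖v x‖ ^ 2 * n6 x ^ 2) Xv Λ) := by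
  obtain ⟨K, hK, h⟩ := pol_oz hε
  refine ⟨K, hK, ?_⟩
  intro M m0 F q R Z v w g1 g2 X Xv Λ c0 h1 h2 h3 h4 h5 h6 h7 h8 h9 h10 h11
  refine h M m0 F q R Z v w g1 g2 X Xv Λ c0 h1 h2
    (h3.trans (pow_le_pow_right₀ h6 (by norm_num))) h4 h5 h6 h7 h8 h9 h10 fun y hy => ?_
  obtain ⟨k1, k2, l, m, k3, k4, k5, k6⟩ := h11 y hy
  exact ⟨k1, k2, 1, l, m, one_ne_zero, k3, k4, isCoprime_one_left, by rw [one_mul, k5], k6⟩

lemma hone_aux {M : Eis} {X Xv Λ : ℝ} {v : Eis → ℂ} (hX : 1 ≤ X) (hv : SSm M v)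
    (hvx : ∀ x, v x ≠ 0 → (nm x : ℝ) ≤ Xv) (hΛ : 0 ≤ Λ) :
    0 ≤ PT (∑ x ∈ primBall ⌊X⌋₊, ‖v x‖ ^ 2 * n6 x ^ 2) Xv Λ := by
  rcases lt_or_ge Xv 0 with hneg | hnn
  · have : ∑ x ∈ primBall ⌊X⌋₊, ‖v x‖ ^ 2 * n6 x ^ 2 = 0 := by
      refine Finset.sum_eq_zero fun x _ => ?_
      have : v x = 0 := by
        by_contra h0
        have h1 := hvx _ h0
        have h2 := nm_ge (hv.sm _ h0).1.ne_zero
        linarith
      rw [this, norm_zero]; ring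
    rw [this]
    unfold PT
    rw [Real.sqrt_zero, zero_mul]
  · exact PT_nonneg hnn hΛ

open Classical in
/-- **HM5 in case L** -/
theorem hm5_Lz {ε : ℝ} (hε : 0 < ε) : ∃ K₁ : ℝ, 0 < K₁ ∧ ∀ (M m0 f : Eis) (O : Type)
    (_ : Fintype O) (lam : O → ℝ) (v w : O → Eis → ℂ) (X K T₀ c0 : ℝ) (Xv Λ : O → ℝ) (mc : ℂ),
    NoP M m0 → Dat4 M f lam v w X → 0 ≤ K → 0 ≤ c0 → (∀ o, Xv o ≤ X) →
    (∀ o x, v o x ≠ 0 → (nm x : ℝ) ≤ Xv o) → (∀ o, 0 ≤ Λ o) →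
    (∀ o y, w o y ≠ 0 → ‖w o y‖ ≤ c0 ∧ ∃ z l m : Eis, z ≠ 0 ∧ l ≠ 0 ∧ m ≠ 0 ∧
      IsCoprime z y ∧ z * y = l * m ^ 2 ∧ (nm l : ℝ) ^ 2 * nm m ≤ Λ o) →
    HM5 M f lam v w K T₀
      (fun u Q => mc * conj (rho (m0 * u)) * ((Q ^ (4 / 3 : ℝ) : ℝ) : ℂ))
      (K₁ * X ^ ε * (‖mc‖ * K ^ (4 / 3 : ℝ) * (c0 * ∑ o, (lam o) ^ (-(4 / 3) : ℝ) *
        PT (∑ x ∈ primBall ⌊X⌋₊, ‖v o x‖ ^ 2 * n6 x ^ 2) (Xv o) (Λ o)))) := by
  obtain ⟨K₁, hK₁, hpo⟩ := pol_oz hε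
  refine ⟨K₁, hK₁, ?_⟩
  intro M m0 f O _ lam v w X K T₀ c0 Xv Λ mc hm0 hD hK hc0 hXv hvx hΛ hwy
  intro R Z q₁ q₃ F hq₁ hq₃ hq₁s hq₃s hqc hZT hfe hFq hF hR hZ
  have hX := hD.X1
  have hX0 : 0 < X := by linarith
  have hq1n : (1 : ℝ) ≤ nm q₁ := nm_ge hq₁.1.ne_zero
  have hq3n : (1 : ℝ) ≤ nm q₃ := nm_ge hq₃.1.ne_zero
  have hlam0 : ∀ o, 0 < lam o := fun o => by have := (hD.lam1 o).1; linarith
  -- bound for one `o`
  set P := fun o => PT (∑ x ∈ primBall ⌊X⌋₊, ‖v o x‖ ^ 2 * n6 x ^ 2) (Xv o) (Λ o) with hP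
  have hone : ∀ o, ‖∑' x : Eis, tws R (q₁ * q₃) (fun x => conj (sy x q₁)) (v o) x *
      ∑' y : Eis, tws Z (q₁ * q₃) (fun y => conj (sy y q₁)) (w o) y *
        conj (rho (m0 * (F * x * y)))‖ ≤ K₁ * X ^ ε * (c0 * P o) := by
    intro o
    have hsy : ∀ x, ‖conj (sy x q₁)‖ ≤ 1 := fun x => by
      rw [RCLike.norm_conj]; exact Char766.norm_sy_le hq₁.1
    by_cases hRX : (nm R : ℝ) ≤ X
    · by_cases hZX : (nm Z : ℝ) ≤ X
      · have hFX : (nm F : ℝ) ≤ X ^ 6 := by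
          have h1 : F ∣ f * R * Z := hfe ▸ dvd_mul_left _ _
          have h0 : f * R * Z ≠ 0 :=
            mul_ne_zero (mul_ne_zero hD.hf.1.1.ne_zero hR.1.ne_zero) hZ.1.ne_zero
          have h2 : (nm F : ℝ) ≤ nm (f * R * Z) := by
            exact_mod_cast Div277.nm_le_of_dvd h0 h1
          rw [nm_mul, nm_mul] at h2
          push_cast at h2
          have := hD.hf.2
          calc (nm F : ℝ) ≤ nm f * nm R * nm Z := h2
            _ ≤ X * X * X := by gcongr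
            _ = X ^ 3 := by ring
            _ ≤ X ^ 6 := pow_le_pow_right₀ hX (by norm_num)
        exact hpo M m0 F (q₁ * q₃) R Z (v o) (w o) (fun x => conj (sy x q₁))
          (fun x => conj (sy x q₁)) X (Xv o) (Λ o) c0 hm0 hF hFX hR.1 hZ hX (hD.hv o) (hD.hw o)
          (fun x h => ⟨(hD.vx o x h).1, (hD.vx o x h).2, hvx o x h⟩) (hXv o)
          (fun y h => ⟨hD.wy o y h, hwy o y h⟩) (hΛ o) hc0 hsy hsy
      · -- `w (Z y) = 0`
        have hz : ∀ y, tws Z (q₁ * q₃) (fun y => conj (sy y q₁)) (w o) y = 0 := by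
          intro y
          unfold tws
          split_ifs with hc
          · have : w o (Z * y) = 0 := by
              by_contra h0
              have h1 := hD.wy o _ h0
              have h2 : (nm Z : ℝ) ≤ nm (Z * y) := by
                exact_mod_cast Div277.nm_le_of_dvd ((hD.hw o).sm _ h0).1.ne_zero
                  (dvd_mul_right _ _)
              exact hZX (h2.trans h1)
            rw [this, mul_zero]
          · rfl
        have hz2 : (∑' x : Eis, tws R (q₁ * q₃) (fun x => conj (sy x q₁)) (v o) x *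
            ∑' y : Eis, tws Z (q₁ * q₃) (fun y => conj (sy y q₁)) (w o) y *
            conj (rho (m0 * (F * x * y)))) = 0 := by
          simp only [hz, zero_mul, tsum_zero, mul_zero]
        have hPo := hone_aux hX (hD.hv o) (hvx o) (hΛ o)
        rw [hz2, norm_zero]
        exact mul_nonneg (by positivity) (mul_nonneg hc0 hPo)
    · have hz : ∀ y, tws R (q₁ * q₃) (fun y => conj (sy y q₁)) (v o) y = 0 := by
        intro y
        unfold tws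
        split_ifs with hc
        · have : v o (R * y) = 0 := by
            by_contra h0
            have h1 := (hD.vx o _ h0).2
            have h2 : (nm R : ℝ) ≤ nm (R * y) := by
              exact_mod_cast Div277.nm_le_of_dvd ((hD.hv o).sm _ h0).1.ne_zero
                (dvd_mul_right _ _)
            exact hRX (h2.trans h1)
          rw [this, mul_zero]
        · rfl
      have hz2 : (∑' x : Eis, tws R (q₁ * q₃) (fun x => conj (sy x q₁)) (v o) x *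
          ∑' y : Eis, tws Z (q₁ * q₃) (fun y => conj (sy y q₁)) (w o) y *
          conj (rho (m0 * (F * x * y)))) = 0 := by
        simp only [hz, zero_mul, tsum_zero]
      have hPo := hone_aux hX (hD.hv o) (hvx o) (hΛ o)
      rw [hz2, norm_zero]
      exact mul_nonneg (by positivity) (mul_nonneg hc0 hPo)
  -- the factor
  have hfac : ∀ o, ((nm q₁ : ℝ) ^ (5 / 2 : ℝ) * (nm q₃ : ℝ) ^ 4) *
      ((K / (lam o * nm (q₁ ^ 2 * q₃ ^ 3))) ^ (4 / 3 : ℝ)) ≤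
      K ^ (4 / 3 : ℝ) * (lam o) ^ (-(4 / 3) : ℝ) := by
    intro o
    have a1 : (0 : ℝ) < nm q₁ := by linarith
    have a3 : (0 : ℝ) < nm q₃ := by linarith
    have hl := hlam0 o
    have e1 : ((nm (q₁ ^ 2 * q₃ ^ 3) : ℕ) : ℝ) = (nm q₁ : ℝ) ^ 2 * (nm q₃ : ℝ) ^ 3 := by
      rw [nm_mul, nm_pow, nm_pow]; push_cast; ring
    rw [e1, Real.div_rpow hK (by positivity), Real.mul_rpow hl.le (by positivity),
      Real.mul_rpow (by positivity) (by positivity)]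
    have e2 : ((nm q₁ : ℝ) ^ 2) ^ (4 / 3 : ℝ) = (nm q₁ : ℝ) ^ (8 / 3 : ℝ) := by
      rw [← Real.rpow_natCast, ← Real.rpow_mul a1.le]; norm_num
    have e3 : ((nm q₃ : ℝ) ^ 3) ^ (4 / 3 : ℝ) = (nm q₃ : ℝ) ^ 4 := by
      rw [← Real.rpow_natCast, ← Real.rpow_mul a3.le, ← Real.rpow_natCast]; norm_num
    rw [e2, e3, Real.rpow_neg hl.le]
    have h1 : (nm q₁ : ℝ) ^ (5 / 2 : ℝ) ≤ (nm q₁ : ℝ) ^ (8 / 3 : ℝ) :=
      Real.rpow_le_rpow_of_exponent_le hq1n (by norm_num)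
    have h2 : (0 : ℝ) < (nm q₁ : ℝ) ^ (8 / 3 : ℝ) := by positivity
    have h3 : (0 : ℝ) < (nm q₃ : ℝ) ^ 4 := by positivity
    have h4 : (0 : ℝ) < (lam o) ^ (4 / 3 : ℝ) := by positivity
    rw [mul_div_assoc', div_le_iff₀ (by positivity)]
    calc (nm q₁ : ℝ) ^ (5 / 2 : ℝ) * (nm q₃ : ℝ) ^ 4 * K ^ (4 / 3 : ℝ)
        ≤ (nm q₁ : ℝ) ^ (8 / 3 : ℝ) * (nm q₃ : ℝ) ^ 4 * K ^ (4 / 3 : ℝ) := by gcongr
      _ = K ^ (4 / 3 : ℝ) * ((lam o) ^ (4 / 3 : ℝ))⁻¹ * ((lam o) ^ (4 / 3 : ℝ) *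
          ((nm q₁ : ℝ) ^ (8 / 3 : ℝ) * (nm q₃ : ℝ) ^ 4)) := by
          field_simp
  -- assembly
  have e1 : ∀ o, ∑' x : Eis, tws R (q₁ * q₃) (fun x => conj (sy x q₁)) (v o) x *
      ∑' y : Eis, tws Z (q₁ * q₃) (fun y => conj (sy y q₁)) (w o) y *
        (mc * conj (rho (m0 * (F * x * y))) *
          (((K / (lam o * nm (q₁ ^ 2 * q₃ ^ 3))) ^ (4 / 3 : ℝ) : ℝ) : ℂ)) =
      (mc * (((K / (lam o * nm (q₁ ^ 2 * q₃ ^ 3))) ^ (4 / 3 : ℝ) : ℝ) : ℂ)) *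
      ∑' x : Eis, tws R (q₁ * q₃) (fun x => conj (sy x q₁)) (v o) x *
      ∑' y : Eis, tws Z (q₁ * q₃) (fun y => conj (sy y q₁)) (w o) y *
        conj (rho (m0 * (F * x * y))) := by
    intro o
    rw [← tsum_mul_left]
    refine tsum_congr fun x => ?_
    rw [← tsum_mul_left, ← tsum_mul_left, ← tsum_mul_left]
    refine tsum_congr fun y => ?_
    ring
  simp only [e1]
  have hPn : ∀ o, 0 ≤ P o := fun o => hone_aux hX (hD.hv o) (hvx o) (hΛ o)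
  calc ((nm q₁ : ℝ) ^ (5 / 2 : ℝ) * (nm q₃ : ℝ) ^ 4) *
        ‖∑ o, (mc * (((K / (lam o * nm (q₁ ^ 2 * q₃ ^ 3))) ^ (4 / 3 : ℝ) : ℝ) : ℂ)) *
      ∑' x : Eis, tws R (q₁ * q₃) (fun x => conj (sy x q₁)) (v o) x *
      ∑' y : Eis, tws Z (q₁ * q₃) (fun y => conj (sy y q₁)) (w o) y *
        conj (rho (m0 * (F * x * y)))‖
      ≤ ((nm q₁ : ℝ) ^ (5 / 2 : ℝ) * (nm q₃ : ℝ) ^ 4) * ∑ o, (‖mc‖ *
        ((K / (lam o * nm (q₁ ^ 2 * q₃ ^ 3))) ^ (4 / 3 : ℝ))) * (K₁ * X ^ ε * (c0 * P o)) := by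
        refine mul_le_mul_of_nonneg_left ((norm_sum_le _ _).trans (Finset.sum_le_sum
          fun o _ => ?_)) (by positivity)
        have hl := hlam0 o
        rw [norm_mul, norm_mul, Complex.norm_real, Real.norm_of_nonneg (by positivity)]
        exact mul_le_mul_of_nonneg_left (hone o) (by positivity)
    _ = ∑ o, (((nm q₁ : ℝ) ^ (5 / 2 : ℝ) * (nm q₃ : ℝ) ^ 4) *
        ((K / (lam o * nm (q₁ ^ 2 * q₃ ^ 3))) ^ (4 / 3 : ℝ))) *
          (‖mc‖ * (K₁ * X ^ ε * (c0 * P o))) := by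
        rw [Finset.mul_sum]
        exact Finset.sum_congr rfl fun o _ => by ring
    _ ≤ ∑ o, (K ^ (4 / 3 : ℝ) * (lam o) ^ (-(4 / 3) : ℝ)) *
          (‖mc‖ * (K₁ * X ^ ε * (c0 * P o))) := by
        refine Finset.sum_le_sum fun o _ => mul_le_mul_of_nonneg_right (hfac o) ?_
        have := hPn o
        positivity
    _ = _ := by
        rw [Finset.mul_sum, Finset.mul_sum, Finset.mul_sum]
        exact Finset.sum_congr rfl fun o _ => by ring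

open Classical in
/-- the special case `z = 1` -/
theorem hm5_L {ε : ℝ} (hε : 0 < ε) : ∃ K₁ : ℝ, 0 < K₁ ∧ ∀ (M m0 f : Eis) (O : Type)
    (_ : Fintype O) (lam : O → ℝ) (v w : O → Eis → ℂ) (X K T₀ c0 : ℝ) (Xv Λ : O → ℝ) (mc : ℂ),
    NoP M m0 → Dat4 M f lam v w X → 0 ≤ K → 0 ≤ c0 → (∀ o, Xv o ≤ X) →
    (∀ o x, v o x ≠ 0 → (nm x : ℝ) ≤ Xv o) → (∀ o, 0 ≤ Λ o) →
    (∀ o y, w o y ≠ 0 → ‖w o y‖ ≤ c0 ∧ ∃ l m : Eis, l ≠ 0 ∧ m ≠ 0 ∧ y = l * m ^ 2 ∧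
      (nm l : ℝ) ^ 2 * nm m ≤ Λ o) →
    HM5 M f lam v w K T₀
      (fun u Q => mc * conj (rho (m0 * u)) * ((Q ^ (4 / 3 : ℝ) : ℝ) : ℂ))
      (K₁ * X ^ ε * (‖mc‖ * K ^ (4 / 3 : ℝ) * (c0 * ∑ o, (lam o) ^ (-(4 / 3) : ℝ) *
        PT (∑ x ∈ primBall ⌊X⌋₊, ‖v o x‖ ^ 2 * n6 x ^ 2) (Xv o) (Λ o)))) := by
  obtain ⟨K, hK, h⟩ := hm5_Lz hε
  refine ⟨K, hK, ?_⟩
  intro M m0 f O iO lam v w X K' T₀ c0 Xv Λ mc h1 h2 h3 h4 h5 h6 h7 h8
  refine h M m0 f O iO lam v w X K' T₀ c0 Xv Λ mc h1 h2 h3 h4 h5 h6 h7 fun o y hy => ?_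
  obtain ⟨k2, l, m, k3, k4, k5, k6⟩ := h8 o y hy
  exact ⟨k2, 1, l, m, one_ne_zero, k3, k4, isCoprime_one_left, by rw [one_mul, k5], k6⟩

end Crest.Agent.R017.E4P939
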