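import Crest.Agent.R017.E4p10_939

/-!
# Row 17, block C70, leaf E4, case L (helper939): the polar terms, part 11

* `PW v N Λ = (Σ ‖v x‖² nm x^(2/3))^(1/2) Λ^(1/3) + (Σ ‖v x‖² nm x^(1/6))^(1/2) Λ^(5/12)`
* `pol_ow` : `pol_oz` with weighted moments (no size parameter)
-/

set_option autoImplicit false
set_option linter.unusedVariables false
set_option linter.unusedSectionVars false

noncomputable section

open Finset
open scoped ComplexConjugate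

namespace Crest.Agent.R017.E4P939

open Crest.Agent.R012 Crest.Agent.R012.Eis Crest.Agent.R012.Mob705 Crest.Agent.R012.Gauss880
open Crest.Agent.R017.Sx545 (Sm)
open Crest.Agent.R017.PX764 (rho th Gh n6 cD)
open Crest.Agent.R017.E2440 (NoP)
open Crest.Agent.R017.C70 (CbF)
open Crest.Agent.R017.E4352
open Crest.Agent.R017.E4v5

/-- weighted moments -/
def W1 (v : Eis → ℂ) (N : ℕ) : ℝ := ∑ x ∈ primBall N, ‖v x‖ ^ 2 * (nm x : ℝ) ^ (2 / 3 : ℝ)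
def W2 (v : Eis → ℂ) (N : ℕ) : ℝ := ∑ x ∈ primBall N, ‖v x‖ ^ 2 * (nm x : ℝ) ^ (1 / 6 : ℝ)

/-- the bound, with weighted moments -/
def PW (v : Eis → ℂ) (N : ℕ) (Λ : ℝ) : ℝ :=
  Real.sqrt (W1 v N) * Λ ^ (1 / 3 : ℝ) + Real.sqrt (W2 v N) * Λ ^ (5 / 12 : ℝ)

lemma W1_nonneg (v : Eis → ℂ) (N : ℕ) : 0 ≤ W1 v N := Finset.sum_nonneg fun _ _ => by positivity
lemma W2_nonneg (v : Eis → ℂ) (N : ℕ) : 0 ≤ W2 v N := Finset.sum_nonneg fun _ _ => by positivity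

lemma PW_nonneg {v : Eis → ℂ} {N : ℕ} {Λ : ℝ} (h : 0 ≤ Λ) : 0 ≤ PW v N Λ := by
  unfold PW; positivity

/-- the dyadic block -/
def blk (v : Eis → ℂ) (n : ℕ) (x : Eis) : ℂ := if Nat.log 2 (nm x) = n then v x else 0

lemma blk_ne {v : Eis → ℂ} {n : ℕ} {x : Eis} (h : blk v n x ≠ 0) :
    Nat.log 2 (nm x) = n ∧ v x ≠ 0 := by
  unfold blk at h
  split_ifs at h with h1
  · exact ⟨h1, h⟩
  · exact absurd rfl h

lemma norm_blk_le (v : Eis → ℂ) (n : ℕ) (x : Eis) : ‖blk v n x‖ ≤ ‖v x‖ := by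
  unfold blk
  split_ifs
  · exact le_rfl
  · rw [norm_zero]; exact norm_nonneg _

lemma sum_blk {v : Eis → ℂ} {L : ℕ} (x : Eis) (h : v x ≠ 0 → Nat.log 2 (nm x) < L) :
    ∑ n ∈ Finset.range L, blk v n x = v x := by
  unfold blk
  rw [Finset.sum_ite_eq]
  split_ifs with h1
  · rfl
  · by_contra h2
    exact h1 (Finset.mem_range.mpr (h (Ne.symm h2)))

lemma blk_lt {n : ℕ} {x : Eis} (hx : x ≠ 0) (h : Nat.log 2 (nm x) = n) :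
    (2 : ℝ) ^ n ≤ nm x ∧ (nm x : ℝ) ≤ 2 ^ (n + 1) := by
  have hn0 : nm x ≠ 0 := (nm_pos.mpr hx).ne'
  constructor
  · rw [← h]
    exact_mod_cast Nat.pow_log_le_self 2 hn0
  · rw [← h]
    have := Nat.lt_pow_succ_log_self (b := 2) (by norm_num) (nm x)
    exact_mod_cast this.le

/-- one block -/
lemma PT_blk {v : Eis → ℂ} {n N : ℕ} {X Λ : ℝ} (hX : 0 ≤ X) (hΛ : 0 ≤ Λ) :
    PT (∑ x ∈ primBall N, ‖blk v n x‖ ^ 2 * n6 x ^ 2) (min (2 ^ (n + 1)) X) Λ ≤ 2 * PW v N Λ := by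
  have hT0 : (0 : ℝ) < 2 ^ (n + 1) := by positivity
  set M2 := ∑ x ∈ primBall N, ‖blk v n x‖ ^ 2 * n6 x ^ 2 with hM2
  have hM20 : 0 ≤ M2 := Finset.sum_nonneg fun _ _ => by positivity
  have hmin0 : 0 ≤ min ((2 : ℝ) ^ (n + 1)) X := le_min hT0.le hX
  have hmin : min ((2 : ℝ) ^ (n + 1)) X ≤ 2 ^ (n + 1) := min_le_left _ _
  -- pointwise
  have key : ∀ x ∈ primBall N, blk v n x ≠ 0 →
      n6 x ^ 2 = (nm x : ℝ) ^ (-(1 / 3) : ℝ) ∧ (0 : ℝ) < nm x ∧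
        (2 : ℝ) ^ (n + 1) ≤ 2 * nm x := by
    intro x hx h0
    have hx0 := (mem_primBall.mp hx).2.ne_zero
    have hn : (0 : ℝ) < nm x := lt_of_lt_of_le one_pos (nm_ge hx0)
    refine ⟨?_, hn, ?_⟩
    · unfold PX764.n6
      rw [← Real.rpow_natCast, ← Real.rpow_mul hn.le]; norm_num
    · have := (blk_lt hx0 (blk_ne h0).1).1
      rw [pow_succ]; linarith
  have e1 : M2 * 2 ^ (n + 1) ≤ 2 * W1 v N := by
    rw [hM2, Finset.sum_mul, W1, Finset.mul_sum]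
    refine Finset.sum_le_sum fun x hx => ?_
    by_cases h0 : blk v n x = 0
    · rw [h0, norm_zero]
      have : 0 ≤ ‖v x‖ ^ 2 * (nm x : ℝ) ^ (2 / 3 : ℝ) := by positivity
      nlinarith
    · obtain ⟨k1, k2, k3⟩ := key x hx h0
      have h5 : (nm x : ℝ) ^ (-(1 / 3) : ℝ) * nm x = (nm x : ℝ) ^ (2 / 3 : ℝ) := by
        conv_lhs => rw [← Real.rpow_one (nm x : ℝ), ← Real.rpow_mul k2.le, ← Real.rpow_add k2]
        norm_num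
      rw [k1]
      have h6 := norm_blk_le v n x
      calc ‖blk v n x‖ ^ 2 * (nm x : ℝ) ^ (-(1 / 3) : ℝ) * 2 ^ (n + 1)
          ≤ ‖v x‖ ^ 2 * (nm x : ℝ) ^ (-(1 / 3) : ℝ) * (2 * nm x) := by gcongr
        _ = 2 * (‖v x‖ ^ 2 * ((nm x : ℝ) ^ (-(1 / 3) : ℝ) * nm x)) := by ring
        _ = _ := by rw [h5]
  have e2 : M2 * ((2 : ℝ) ^ (n + 1)) ^ (1 / 2 : ℝ) ≤ 2 * W2 v N := by
    rw [hM2, Finset.sum_mul, W2, Finset.mul_sum]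
    refine Finset.sum_le_sum fun x hx => ?_
    by_cases h0 : blk v n x = 0
    · rw [h0, norm_zero]
      have : 0 ≤ ‖v x‖ ^ 2 * (nm x : ℝ) ^ (1 / 6 : ℝ) := by positivity
      nlinarith
    · obtain ⟨k1, k2, k3⟩ := key x hx h0
      have h5 : (nm x : ℝ) ^ (-(1 / 3) : ℝ) * (nm x : ℝ) ^ (1 / 2 : ℝ) =
          (nm x : ℝ) ^ (1 / 6 : ℝ) := by
        rw [← Real.rpow_add k2]
        norm_num
      have h7 : ((2 : ℝ) ^ (n + 1)) ^ (1 / 2 : ℝ) ≤ 2 * (nm x : ℝ) ^ (1 / 2 : ℝ) := by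
        calc ((2 : ℝ) ^ (n + 1)) ^ (1 / 2 : ℝ) ≤ (2 * (nm x : ℝ)) ^ (1 / 2 : ℝ) := by gcongr
          _ = 2 ^ (1 / 2 : ℝ) * (nm x : ℝ) ^ (1 / 2 : ℝ) :=
              Real.mul_rpow (by norm_num) k2.le
          _ ≤ 2 * (nm x : ℝ) ^ (1 / 2 : ℝ) := by
              have : (2 : ℝ) ^ (1 / 2 : ℝ) ≤ 2 ^ (1 : ℝ) :=
                Real.rpow_le_rpow_of_exponent_le (by norm_num) (by norm_num)
              rw [Real.rpow_one] at this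
              gcongr
      rw [k1]
      have h6 := norm_blk_le v n x
      calc ‖blk v n x‖ ^ 2 * (nm x : ℝ) ^ (-(1 / 3) : ℝ) * ((2 : ℝ) ^ (n + 1)) ^ (1 / 2 : ℝ)
          ≤ ‖v x‖ ^ 2 * (nm x : ℝ) ^ (-(1 / 3) : ℝ) * (2 * (nm x : ℝ) ^ (1 / 2 : ℝ)) := by gcongr
        _ = 2 * (‖v x‖ ^ 2 * ((nm x : ℝ) ^ (-(1 / 3) : ℝ) * (nm x : ℝ) ^ (1 / 2 : ℝ))) := by ring
        _ = _ := by rw [h5]
  have hsq : ∀ {a : ℝ}, 0 ≤ a → Real.sqrt (2 * a) ≤ 2 * Real.sqrt a := by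
    intro a ha
    rw [show (2 : ℝ) * Real.sqrt a = Real.sqrt (2 ^ 2 * a) by
      rw [Real.sqrt_mul (by norm_num), Real.sqrt_sq (by norm_num)]]
    exact Real.sqrt_le_sqrt (by linarith)
  have f1 : Real.sqrt M2 * (min ((2 : ℝ) ^ (n + 1)) X) ^ (1 / 2 : ℝ) ≤
      2 * Real.sqrt (W1 v N) := by
    calc Real.sqrt M2 * (min ((2 : ℝ) ^ (n + 1)) X) ^ (1 / 2 : ℝ)
        ≤ Real.sqrt M2 * ((2 : ℝ) ^ (n + 1)) ^ (1 / 2 : ℝ) := by gcongr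
      _ = Real.sqrt (M2 * 2 ^ (n + 1)) := by
          rw [Real.sqrt_mul hM20, Real.sqrt_eq_rpow ((2 : ℝ) ^ (n + 1))]
      _ ≤ Real.sqrt (2 * W1 v N) := Real.sqrt_le_sqrt e1
      _ ≤ _ := hsq (W1_nonneg v N)
  have f2 : Real.sqrt M2 * (min ((2 : ℝ) ^ (n + 1)) X) ^ (1 / 4 : ℝ) ≤
      2 * Real.sqrt (W2 v N) := by
    calc Real.sqrt M2 * (min ((2 : ℝ) ^ (n + 1)) X) ^ (1 / 4 : ℝ)
        ≤ Real.sqrt M2 * ((2 : ℝ) ^ (n + 1)) ^ (1 / 4 : ℝ) := by gcongr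
      _ = Real.sqrt (M2 * ((2 : ℝ) ^ (n + 1)) ^ (1 / 2 : ℝ)) := by
          rw [Real.sqrt_mul hM20, Real.sqrt_eq_rpow (((2 : ℝ) ^ (n + 1)) ^ (1 / 2 : ℝ)),
            ← Real.rpow_mul hT0.le]
          norm_num
      _ ≤ Real.sqrt (2 * W2 v N) := Real.sqrt_le_sqrt e2
      _ ≤ _ := hsq (W2_nonneg v N)
  unfold PT PW
  calc Real.sqrt M2 * ((min ((2 : ℝ) ^ (n + 1)) X) ^ (1 / 2 : ℝ) * Λ ^ (1 / 3 : ℝ) +
        (min ((2 : ℝ) ^ (n + 1)) X) ^ (1 / 4 : ℝ) * Λ ^ (5 / 12 : ℝ))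
      = (Real.sqrt M2 * (min ((2 : ℝ) ^ (n + 1)) X) ^ (1 / 2 : ℝ)) * Λ ^ (1 / 3 : ℝ) +
        (Real.sqrt M2 * (min ((2 : ℝ) ^ (n + 1)) X) ^ (1 / 4 : ℝ)) * Λ ^ (5 / 12 : ℝ) := by ring
    _ ≤ (2 * Real.sqrt (W1 v N)) * Λ ^ (1 / 3 : ℝ) +
        (2 * Real.sqrt (W2 v N)) * Λ ^ (5 / 12 : ℝ) := by gcongr
    _ = _ := by ring

lemma ssm_blk {M : Eis} {v : Eis → ℂ} (hv : SSm M v) (n : ℕ) : SSm M (blk v n) where
  fin := hv.fin.subset fun x hx => (blk_ne hx).2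
  sm := fun y h => hv.sm y (blk_ne h).2

open Classical in
/-- **one `o`**, weighted moments -/
theorem pol_ow {ε : ℝ} (hε : 0 < ε) : ∃ K : ℝ, 0 < K ∧ ∀ (M m0 F q R Z : Eis)
    (v w g1 g2 : Eis → ℂ) (X Λ c0 : ℝ), NoP M m0 → Sm M F → (nm F : ℝ) ≤ X ^ 6 → IsPrim R →
    PrI q Z → 1 ≤ X → SSm M v → SSm M w → (∀ x, v x ≠ 0 → CbF x ∧ (nm x : ℝ) ≤ X) →
    (∀ y, w y ≠ 0 → (nm y : ℝ) ≤ X ∧ ‖w y‖ ≤ c0 ∧ ∃ z l m : Eis, z ≠ 0 ∧ l ≠ 0 ∧ m ≠ 0 ∧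
      IsCoprime z y ∧ z * y = l * m ^ 2 ∧ (nm l : ℝ) ^ 2 * nm m ≤ Λ) → 0 ≤ Λ → 0 ≤ c0 →
    (∀ x, ‖g1 x‖ ≤ 1) → (∀ x, ‖g2 x‖ ≤ 1) →
    ‖∑' x : Eis, tws R q g1 v x * ∑' y : Eis, tws Z q g2 w y *
        conj (rho (m0 * (F * x * y)))‖ ≤ K * X ^ ε * (c0 * PW v ⌊X⌋₊ Λ) := by
  obtain ⟨K1, hK1, hpo⟩ := pol_oz (ε := ε / 2) (by positivity)
  refine ⟨K1 * (2 * (2 / (ε / 2) + 1)), by positivity, ?_⟩
  intro M m0 F q R Z v w g1 g2 X Λ c0 hm0 hF hFX hR hZ hX hv hw hvx hwy hΛ hc0 hg1 hg2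
  have hX0 : 0 < X := by linarith
  set L := Nat.log 2 ⌊X⌋₊ + 1 with hL
  have hlog : ∀ x, v x ≠ 0 → Nat.log 2 (nm x) < L := by
    intro x h0
    rw [hL, Nat.lt_succ_iff]
    exact Nat.log_mono_right (Nat.le_floor (hvx x h0).2)
  set B : Eis → ℂ := fun x => ∑' y : Eis, tws Z q g2 w y * conj (rho (m0 * (F * x * y))) with hB
  have e0 : ∀ x, tws R q g1 v x * B x = ∑ n ∈ Finset.range L, tws R q g1 (blk v n) x * B x := by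
    intro x
    unfold tws
    split_ifs with hc
    · rw [← Finset.sum_mul, ← Finset.mul_sum, sum_blk _ (hlog _)]
    · simp
  have hfin : ∀ n, (Function.support (fun x => tws R q g1 (blk v n) x * B x)).Finite := by
    intro n
    have hinj : Set.InjOn (fun x : Eis => R * x) ((fun x : Eis => R * x) ⁻¹'
        (Function.support v)) := fun a _ b _ h => mul_left_cancel₀ hR.ne_zero h
    refine (hv.fin.preimage hinj).subset fun x hx => ?_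
    have h1 := left_ne_zero_of_mul (Function.mem_support.mp hx)
    unfold tws at h1
    split_ifs at h1 with hc
    · exact (blk_ne (right_ne_zero_of_mul h1)).2
    · exact absurd rfl h1
  have e1 : ∑' x : Eis, tws R q g1 v x * B x =
      ∑ n ∈ Finset.range L, ∑' x : Eis, tws R q g1 (blk v n) x * B x := by
    rw [tsum_congr e0]
    exact Summable.tsum_finsetSum fun n _ => summable_of_hasFiniteSupport (hfin n)
  rw [e1]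
  have hPW : 0 ≤ PW v ⌊X⌋₊ Λ := PW_nonneg hΛ
  have hone : ∀ n, ‖∑' x : Eis, tws R q g1 (blk v n) x * B x‖ ≤
      K1 * X ^ (ε / 2) * (c0 * (2 * PW v ⌊X⌋₊ Λ)) := by
    intro n
    have h1 := hpo M m0 F q R Z (blk v n) w g1 g2 X (min (2 ^ (n + 1)) X) Λ c0 hm0 hF hFX hR hZ hX
      (ssm_blk hv n) hw (fun x hx => by
        obtain ⟨k1, k2⟩ := blk_ne hx
        obtain ⟨k3, k4⟩ := hvx x k2
        exact ⟨k3, k4, le_min (blk_lt (hv.sm x k2).1.ne_zero k1).2 k4⟩) (min_le_right _ _) hwy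
      hΛ hc0 hg1 hg2
    refine h1.trans ?_
    have h2 := PT_blk (v := v) (n := n) (N := ⌊X⌋₊) hX0.le hΛ
    gcongr
  refine (norm_sum_le _ _).trans ((Finset.sum_le_sum fun n _ => hone n).trans ?_)
  rw [Finset.sum_const, Finset.card_range, nsmul_eq_mul]
  have hlog2 := log_le (ε := ε / 2) (by positivity) hX
  rw [← hL] at hlog2
  have hpw : X ^ (ε / 2) * X ^ (ε / 2) = X ^ ε := by
    rw [← Real.rpow_add hX0]; congr 1; ring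
  calc (L : ℝ) * (K1 * X ^ (ε / 2) * (c0 * (2 * PW v ⌊X⌋₊ Λ)))
      ≤ ((2 / (ε / 2) + 1) * X ^ (ε / 2)) * (K1 * X ^ (ε / 2) * (c0 * (2 * PW v ⌊X⌋₊ Λ))) := by
        gcongr
    _ = K1 * (2 * (2 / (ε / 2) + 1)) * (X ^ (ε / 2) * X ^ (ε / 2)) *
        (c0 * PW v ⌊X⌋₊ Λ) := by ring
    _ = _ := by rw [hpw]

end Crest.Agent.R017.E4P939
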