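import Crest.Agent.R017.E4p11_939
import Crest.Agent.R017.E4q_164
import Crest.Agent.R017.X6D_502

/-!
# Row 17, block C70, leaf E4, case L (helper939): the polar terms, part 12

`hm5_w` : `HM5` for the data `v`, `mulw f w` (fixed symbol on the `y`-side, no loss in `f`), weighted
moments `PW`.
-/

set_option autoImplicit false
set_option linter.unusedVariables false
set_option linter.unusedSectionVars false

noncomputable section

open Finset
open scoped ComplexConjugate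

namespace Crest.Agent.R017.E4P939

open Crest.Agent.R012 Crest.Agent.R012.Eis Crest.Agent.R012.Mob705 Crest.Agent.R012.Gauss880
open Crest.Agent.R017.Sx545 (Sm)
open Crest.Agent.R017.PX764 (rho th Gh n6 cD)
open Crest.Agent.R017.E2440 (NoP)
open Crest.Agent.R017.C70 (CbF)
open Crest.Agent.R017.E4352
open Crest.Agent.R017.E4v5
open Crest.Agent.R017.E4D164 (mulw mulw_mul mulw_ne)

open Classical in
/-- the `y`-sum against `mulw f w` -/
lemma tsum_tws_mulw {f Z q d f2 Z2 : Eis} (hf : f ≠ 0) (hf' : f = d * f2) (hZ' : Z = d * Z2)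
    (hc : IsCoprime f2 Z2) (g2 w : Eis → ℂ) (Φ : Eis → ℂ) :
    ∑' y : Eis, tws Z q g2 (mulw f w) y * Φ y =
      ∑' y : Eis, tws Z2 q (fun y => if IsCoprime f2 q then g2 (f2 * y) else 0) w y *
        Φ (f2 * y) := by
  have hf2 : f2 ≠ 0 := fun h => hf (by rw [hf', h, mul_zero])
  have hd : d ≠ 0 := fun h => hf (by rw [hf', h, zero_mul])
  have hinj : Function.Injective (fun y : Eis => f2 * y) := mul_right_injective₀ hf2
  rw [← hinj.tsum_eq (f := fun y => tws Z q g2 (mulw f w) y * Φ y)]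
  · refine tsum_congr fun y => ?_
    congr 1
    have e1 : Z * (f2 * y) = f * (Z2 * y) := by rw [hf', hZ']; ring
    unfold tws
    rw [e1, mulw_mul hf]
    by_cases h1 : IsCoprime y q
    · by_cases h2 : IsCoprime f2 q
      · rw [if_pos (h2.mul_left h1), if_pos h1]
        beta_reduce
        rw [if_pos h2]
      · rw [if_neg (fun h => h2 h.of_mul_left_left), if_pos h1]
        beta_reduce
        rw [if_neg h2, zero_mul]
    · rw [if_neg (fun h => h1 h.of_mul_left_right), if_neg h1]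
  · intro y hy
    have h1 := left_ne_zero_of_mul (Function.mem_support.mp hy)
    unfold tws at h1
    split_ifs at h1 with h2
    · obtain ⟨y', h3, -⟩ := mulw_ne hf (right_ne_zero_of_mul h1)
      have h4 : Z2 * y = f2 * y' := by
        apply mul_left_cancel₀ hd
        rw [← mul_assoc, ← hZ', h3, hf']; ring
      have h5 : f2 ∣ y := by
        have : f2 ∣ Z2 * y := ⟨y', h4⟩
        exact hc.dvd_of_dvd_mul_left this
      obtain ⟨t, rfl⟩ := h5
      exact ⟨t, rfl⟩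
    · exact absurd rfl h1

open Classical in
/-- **HM5**, fixed symbol on the `y`-side, weighted moments -/
theorem hm5_w {ε : ℝ} (hε : 0 < ε) : ∃ K₁ : ℝ, 0 < K₁ ∧ ∀ (M m0 f₀ f : Eis) (O : Type)
    (_ : Fintype O) (lam : O → ℝ) (v w : O → Eis → ℂ) (X K T₀ c0 Λ : ℝ) (mc : ℂ),
    NoP M m0 → Sm M f → (nm f : ℝ) ≤ X → Dat4 M f₀ lam v (fun o => mulw f (w o)) X →
    (∀ o, SSm M (w o)) → 0 ≤ K → 0 ≤ c0 → 0 ≤ Λ →
    (∀ o y, w o y ≠ 0 → (nm y : ℝ) ≤ X ∧ ‖w o y‖ ≤ c0 ∧ ∃ z l m : Eis, z ≠ 0 ∧ l ≠ 0 ∧ m ≠ 0 ∧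
      IsCoprime z y ∧ z * y = l * m ^ 2 ∧ (nm l : ℝ) ^ 2 * nm m ≤ Λ) →
    HM5 M f₀ lam v (fun o => mulw f (w o)) K T₀
      (fun u Q => mc * conj (rho (m0 * u)) * ((Q ^ (4 / 3 : ℝ) : ℝ) : ℂ))
      (K₁ * X ^ ε * (‖mc‖ * K ^ (4 / 3 : ℝ) * (c0 * ∑ o, (lam o) ^ (-(4 / 3) : ℝ) *
        PW (v o) ⌊X⌋₊ Λ))) := by
  obtain ⟨K₁, hK₁, hpo⟩ := pol_ow hε
  refine ⟨K₁, hK₁, ?_⟩
  intro M m0 f₀ f O _ lam v w X K T₀ c0 Λ mc hm0 hf hfX hD hw hK hc0 hΛ hwy
  intro R Z q₁ q₃ F hq₁ hq₃ hq₁s hq₃s hqc hZT hfe hFq hF hR hZ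
  have hX := hD.X1
  have hX0 : 0 < X := by linarith
  have hq1n : (1 : ℝ) ≤ nm q₁ := nm_ge hq₁.1.ne_zero
  have hq3n : (1 : ℝ) ≤ nm q₃ := nm_ge hq₃.1.ne_zero
  have hlam0 : ∀ o, 0 < lam o := fun o => by have := (hD.lam1 o).1; linarith
  -- bound for one `o`
  have hPn : ∀ o, 0 ≤ PW (v o) ⌊X⌋₊ Λ := fun o => PW_nonneg hΛ
  have hone : ∀ o, ‖∑' x : Eis, tws R (q₁ * q₃) (fun x => conj (sy x q₁)) (v o) x *
      ∑' y : Eis, tws Z (q₁ * q₃) (fun y => conj (sy y q₁)) (mulw f (w o)) y *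
        conj (rho (m0 * (F * x * y)))‖ ≤ K₁ * X ^ ε * (c0 * PW (v o) ⌊X⌋₊ Λ) := by
    intro o
    have hsy : ∀ x, ‖conj (sy x q₁)‖ ≤ 1 := fun x => by
      rw [RCLike.norm_conj]; exact Char766.norm_sy_le hq₁.1
    by_cases hRX : (nm R : ℝ) ≤ X
    · by_cases hZX : (nm Z : ℝ) ≤ X
      · obtain ⟨d, f2, Z2, hd, hZ2, hf', hZ', hc⟩ := X6D502.exists_gcd f hZ.1
        have hf2p : IsPrim f2 := by
          have : IsPrim (d * f2) := hf' ▸ hf.1
          exact this.of_mul_left hd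
        have hf2 : Sm M f2 := ⟨hf2p, by
          have := hf.2
          rw [hf'] at this
          exact this.of_mul_left_right⟩
        have hf2n : (nm f2 : ℝ) ≤ X := by
          refine le_trans ?_ hfX
          exact_mod_cast Div277.nm_le_of_dvd hf.1.ne_zero ⟨d, by rw [hf']; ring⟩
        have hFX : (nm (F * f2) : ℝ) ≤ X ^ 6 := by
          have h1 : F ∣ f₀ * R * Z := hfe ▸ dvd_mul_left _ _
          have h0 : f₀ * R * Z ≠ 0 :=
            mul_ne_zero (mul_ne_zero hD.hf.1.1.ne_zero hR.1.ne_zero) hZ.1.ne_zero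
          have h2 : (nm F : ℝ) ≤ nm (f₀ * R * Z) := by
            exact_mod_cast Div277.nm_le_of_dvd h0 h1
          rw [nm_mul, nm_mul] at h2
          rw [nm_mul]
          push_cast at h2 ⊢
          have := hD.hf.2
          calc (nm F : ℝ) * nm f2 ≤ (nm f₀ * nm R * nm Z) * nm f2 := by gcongr
            _ ≤ (X * X * X) * X := by gcongr
            _ = X ^ 4 := by ring
            _ ≤ X ^ 6 := pow_le_pow_right₀ hX (by norm_num)
        have hFm : Sm M (F * f2) := ⟨hF.1.mul hf2.1, hF.2.mul_left hf2.2⟩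
        have hZ2I : PrI (q₁ * q₃) Z2 := ⟨hZ2, fun p hp hpd =>
          hZ.2 p hp (by rw [hZ']; exact hpd.mul_left _)⟩
        have e1 : ∀ x : Eis, (∑' y : Eis, tws Z (q₁ * q₃) (fun y => conj (sy y q₁))
            (mulw f (w o)) y * conj (rho (m0 * (F * x * y)))) =
            ∑' y : Eis, tws Z2 (q₁ * q₃) (fun y => if IsCoprime f2 (q₁ * q₃) then
              conj (sy (f2 * y) q₁) else 0) (w o) y *
              conj (rho (m0 * (F * f2 * x * y))) := by
          intro x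
          rw [tsum_tws_mulw hf.1.ne_zero hf' hZ' hc]
          refine tsum_congr fun y => ?_
          congr 3
          ring
        rw [tsum_congr fun x => by rw [e1 x]]
        exact hpo M m0 (F * f2) (q₁ * q₃) R Z2 (v o) (w o) (fun x => conj (sy x q₁)) _ X Λ c0
          hm0 hFm hFX hR.1 hZ2I hX (hD.hv o) (hw o) (fun x h => hD.vx o x h) (hwy o) hΛ hc0 hsy
          (fun x => by
            split_ifs
            · exact hsy _
            · rw [norm_zero]; exact zero_le_one)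
      · have hz : ∀ y, tws Z (q₁ * q₃) (fun y => conj (sy y q₁)) (mulw f (w o)) y = 0 := by
          intro y
          unfold tws
          split_ifs with hc
          · have : mulw f (w o) (Z * y) = 0 := by
              by_contra h0
              have h1 := hD.wy o _ h0
              have h2 : (nm Z : ℝ) ≤ nm (Z * y) := by
                exact_mod_cast Div277.nm_le_of_dvd ((hD.hw o).sm _ h0).1.ne_zero
                  (dvd_mul_right _ _)
              exact hZX (h2.trans h1)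
            rw [this, mul_zero]
          · rfl
        have hz2 : (∑' x : Eis, tws R (q₁ * q₃) (fun x => conj (sy x q₁)) (v o) x *
            ∑' y : Eis, tws Z (q₁ * q₃) (fun y => conj (sy y q₁)) (mulw f (w o)) y *
            conj (rho (m0 * (F * x * y)))) = 0 := by
          simp only [hz, zero_mul, tsum_zero, mul_zero]
        have hPo := hPn o
        rw [hz2, norm_zero]
        exact mul_nonneg (by positivity) (mul_nonneg hc0 hPo)
    · have hz : ∀ y, tws R (q₁ * q₃) (fun y => conj (sy y q₁)) (v o) y = 0 := by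
        intro y
        unfold tws
        split_ifs with hc
        · have : v o (R * y) = 0 := by
            by_contra h0
            have h1 := (hD.vx o _ h0).2
            have h2 : (nm R : ℝ) ≤ nm (R * y) := by
              exact_mod_cast Div277.nm_le_of_dvd ((hD.hv o).sm _ h0).1.ne_zero
                (dvd_mul_right _ _)
            exact hRX (h2.trans h1)
          rw [this, mul_zero]
        · rfl
      have hz2 : (∑' x : Eis, tws R (q₁ * q₃) (fun x => conj (sy x q₁)) (v o) x *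
          ∑' y : Eis, tws Z (q₁ * q₃) (fun y => conj (sy y q₁)) (mulw f (w o)) y *
          conj (rho (m0 * (F * x * y)))) = 0 := by
        simp only [hz, zero_mul, tsum_zero]
      have hPo := hPn o
      rw [hz2, norm_zero]
      exact mul_nonneg (by positivity) (mul_nonneg hc0 hPo)
  -- the factor
  have hfac : ∀ o, ((nm q₁ : ℝ) ^ (5 / 2 : ℝ) * (nm q₃ : ℝ) ^ 4) *
      ((K / (lam o * nm (q₁ ^ 2 * q₃ ^ 3))) ^ (4 / 3 : ℝ)) ≤
      K ^ (4 / 3 : ℝ) * (lam o) ^ (-(4 / 3) : ℝ) := by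
    intro o
    have a1 : (0 : ℝ) < nm q₁ := by linarith
    have a3 : (0 : ℝ) < nm q₃ := by linarith
    have hl := hlam0 o
    have e1 : ((nm (q₁ ^ 2 * q₃ ^ 3) : ℕ) : ℝ) = (nm q₁ : ℝ) ^ 2 * (nm q₃ : ℝ) ^ 3 := by
      rw [nm_mul, nm_pow, nm_pow]; push_cast; ring
    rw [e1, Real.div_rpow hK (by positivity), Real.mul_rpow hl.le (by positivity),
      Real.mul_rpow (by positivity) (by positivity)]
    have e2 : ((nm q₁ : ℝ) ^ 2) ^ (4 / 3 : ℝ) = (nm q₁ : ℝ) ^ (8 / 3 : ℝ) := by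
      rw [← Real.rpow_natCast, ← Real.rpow_mul a1.le]; norm_num
    have e3 : ((nm q₃ : ℝ) ^ 3) ^ (4 / 3 : ℝ) = (nm q₃ : ℝ) ^ 4 := by
      rw [← Real.rpow_natCast, ← Real.rpow_mul a3.le, ← Real.rpow_natCast]; norm_num
    rw [e2, e3, Real.rpow_neg hl.le]
    have h1 : (nm q₁ : ℝ) ^ (5 / 2 : ℝ) ≤ (nm q₁ : ℝ) ^ (8 / 3 : ℝ) :=
      Real.rpow_le_rpow_of_exponent_le hq1n (by norm_num)
    have h2 : (0 : ℝ) < (nm q₁ : ℝ) ^ (8 / 3 : ℝ) := by positivity
    have h3 : (0 : ℝ) < (nm q₃ : ℝ) ^ 4 := by positivity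
    have h4 : (0 : ℝ) < (lam o) ^ (4 / 3 : ℝ) := by positivity
    rw [mul_div_assoc', div_le_iff₀ (by positivity)]
    calc (nm q₁ : ℝ) ^ (5 / 2 : ℝ) * (nm q₃ : ℝ) ^ 4 * K ^ (4 / 3 : ℝ)
        ≤ (nm q₁ : ℝ) ^ (8 / 3 : ℝ) * (nm q₃ : ℝ) ^ 4 * K ^ (4 / 3 : ℝ) := by gcongr
      _ = K ^ (4 / 3 : ℝ) * ((lam o) ^ (4 / 3 : ℝ))⁻¹ * ((lam o) ^ (4 / 3 : ℝ) *
          ((nm q₁ : ℝ) ^ (8 / 3 : ℝ) * (nm q₃ : ℝ) ^ 4)) := by
          field_simp
  -- assembly
  have e1 : ∀ o, ∑' x : Eis, tws R (q₁ * q₃) (fun x => conj (sy x q₁)) (v o) x *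
      ∑' y : Eis, tws Z (q₁ * q₃) (fun y => conj (sy y q₁)) (mulw f (w o)) y *
        (mc * conj (rho (m0 * (F * x * y))) *
          (((K / (lam o * nm (q₁ ^ 2 * q₃ ^ 3))) ^ (4 / 3 : ℝ) : ℝ) : ℂ)) =
      (mc * (((K / (lam o * nm (q₁ ^ 2 * q₃ ^ 3))) ^ (4 / 3 : ℝ) : ℝ) : ℂ)) *
      ∑' x : Eis, tws R (q₁ * q₃) (fun x => conj (sy x q₁)) (v o) x *
      ∑' y : Eis, tws Z (q₁ * q₃) (fun y => conj (sy y q₁)) (mulw f (w o)) y *
        conj (rho (m0 * (F * x * y))) := by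
    intro o
    rw [← tsum_mul_left]
    refine tsum_congr fun x => ?_
    rw [← tsum_mul_left, ← tsum_mul_left, ← tsum_mul_left]
    refine tsum_congr fun y => ?_
    ring
  simp only [e1]
  calc ((nm q₁ : ℝ) ^ (5 / 2 : ℝ) * (nm q₃ : ℝ) ^ 4) *
        ‖∑ o, (mc * (((K / (lam o * nm (q₁ ^ 2 * q₃ ^ 3))) ^ (4 / 3 : ℝ) : ℝ) : ℂ)) *
      ∑' x : Eis, tws R (q₁ * q₃) (fun x => conj (sy x q₁)) (v o) x *
      ∑' y : Eis, tws Z (q₁ * q₃) (fun y => conj (sy y q₁)) (mulw f (w o)) y *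
        conj (rho (m0 * (F * x * y)))‖
      ≤ ((nm q₁ : ℝ) ^ (5 / 2 : ℝ) * (nm q₃ : ℝ) ^ 4) * ∑ o, (‖mc‖ *
        ((K / (lam o * nm (q₁ ^ 2 * q₃ ^ 3))) ^ (4 / 3 : ℝ))) *
          (K₁ * X ^ ε * (c0 * PW (v o) ⌊X⌋₊ Λ)) := by
        refine mul_le_mul_of_nonneg_left ((norm_sum_le _ _).trans (Finset.sum_le_sum
          fun o _ => ?_)) (by positivity)
        have hl := hlam0 o
        rw [norm_mul, norm_mul, Complex.norm_real, Real.norm_of_nonneg (by positivity)]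
        exact mul_le_mul_of_nonneg_left (hone o) (by positivity)
    _ = ∑ o, (((nm q₁ : ℝ) ^ (5 / 2 : ℝ) * (nm q₃ : ℝ) ^ 4) *
        ((K / (lam o * nm (q₁ ^ 2 * q₃ ^ 3))) ^ (4 / 3 : ℝ))) *
          (‖mc‖ * (K₁ * X ^ ε * (c0 * PW (v o) ⌊X⌋₊ Λ))) := by
        rw [Finset.mul_sum]
        exact Finset.sum_congr rfl fun o _ => by ring
    _ ≤ ∑ o, (K ^ (4 / 3 : ℝ) * (lam o) ^ (-(4 / 3) : ℝ)) *
          (‖mc‖ * (K₁ * X ^ ε * (c0 * PW (v o) ⌊X⌋₊ Λ))) := by
        refine Finset.sum_le_sum fun o _ => mul_le_mul_of_nonneg_right (hfac o) ?_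
        have := hPn o
        positivity
    _ = _ := by
        rw [Finset.mul_sum, Finset.mul_sum, Finset.mul_sum]
        exact Finset.sum_congr rfl fun o _ => by ring

end Crest.Agent.R017.E4P939
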