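import Crest.Agent.R017.E4p12_939
import Crest.Agent.R017.E4apB_783
import Crest.Agent.R017.E2n_440
import Crest.Agent.R017.X6C6_180

/-!
# Row 17, block C70, leaf E4, case L (helper939): the polar terms, part 13

Weighted moments of the dictionary `vI`.
-/

set_option autoImplicit false
set_option linter.unusedVariables false
set_option linter.unusedSectionVars false

noncomputable section

open Finset
open scoped ComplexConjugate

namespace Crest.Agent.R017.E4P939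

open Crest.Agent.R012 Crest.Agent.R012.Eis Crest.Agent.R012.Mob705 Crest.Agent.R012.Gauss880
open Crest.Agent.R017.Sx545 (Sm)
open Crest.Agent.R017.PX764 (rho th Gh n6 cD)
open Crest.Agent.R017.E2440 (NoP)
open Crest.Agent.R017.C70 (CbF)
open Crest.Agent.R017.End699 (HC)
open Crest.Agent.R017.GrB829
open Crest.Agent.R017.E4352 (PrI SSm)
open Crest.Agent.R017.E4K164 (dc dc_spec)
open Crest.Agent.R017.E4D164

/-- moments of a push-forward -/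
lemma W_pu {B : Type*} {M g : Eis} {I : Finset B} {X : B → Eis} {a : B → ℂ} {m : ℕ} {κ : ℝ}
    (hκ : 0 ≤ κ) (hg : g ≠ 0) (hX : ∀ i ∈ I, X i ≠ 0)
    (hm : ∀ x, ∀ S : Finset B, (∀ i ∈ S, i ∈ I ∧ X i = x ∧ a i ≠ 0) → S.card ≤ m)
    (P : Finset Eis) :
    ∑ x ∈ P, ‖pu M I X a g x‖ ^ 2 * (nm x : ℝ) ^ κ ≤
      m * ∑ i ∈ I, ‖a i‖ ^ 2 * (nm (X i) : ℝ) ^ κ := by
  classical
  have h1 : ∀ x ∈ P, ‖pu M I X a g x‖ ^ 2 * (nm x : ℝ) ^ κ ≤
      m * ∑ i ∈ I, if X i = g * x then ‖a i‖ ^ 2 * (nm (X i) : ℝ) ^ κ else 0 := by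
    intro x _
    set S := I.filter (fun i => X i = g * x ∧ a i ≠ 0) with hS
    have hS1 : S.card ≤ m := hm (g * x) S fun i hi => by
      rw [hS, Finset.mem_filter] at hi
      exact ⟨hi.1, hi.2.1, hi.2.2⟩
    have hn : ‖pu M I X a g x‖ ≤ ∑ i ∈ S, ‖a i‖ := by
      unfold pu
      split_ifs
      · have e : ∑ i ∈ I.filter (fun i => X i = g * x), a i = ∑ i ∈ S, a i := by
          rw [hS, Finset.sum_filter, Finset.sum_filter]
          refine Finset.sum_congr rfl fun i _ => ?_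
          by_cases h2 : X i = g * x
          · by_cases h3 : a i = 0
            · rw [if_pos h2, if_neg (fun h => h.2 h3), h3]
            · rw [if_pos h2, if_pos ⟨h2, h3⟩]
          · rw [if_neg h2, if_neg (fun h => h2 h.1)]
        rw [e]
        exact norm_sum_le _ _
      · rw [norm_zero]
        exact Finset.sum_nonneg fun _ _ => norm_nonneg _
    have hsq : ‖pu M I X a g x‖ ^ 2 ≤ m * ∑ i ∈ S, ‖a i‖ ^ 2 := by
      have h3 : (∑ i ∈ S, ‖a i‖) ^ 2 ≤ (S.card : ℝ) * ∑ i ∈ S, ‖a i‖ ^ 2 :=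
        sq_sum_le_card_mul_sum_sq
      have h4 : (S.card : ℝ) ≤ m := by exact_mod_cast hS1
      have h5 : 0 ≤ ∑ i ∈ S, ‖a i‖ ^ 2 := Finset.sum_nonneg fun _ _ => by positivity
      calc ‖pu M I X a g x‖ ^ 2 ≤ (∑ i ∈ S, ‖a i‖) ^ 2 :=
            pow_le_pow_left₀ (norm_nonneg _) hn 2
        _ ≤ (S.card : ℝ) * ∑ i ∈ S, ‖a i‖ ^ 2 := h3
        _ ≤ _ := mul_le_mul_of_nonneg_right h4 h5
    calc ‖pu M I X a g x‖ ^ 2 * (nm x : ℝ) ^ κ
        ≤ (m * ∑ i ∈ S, ‖a i‖ ^ 2) * (nm x : ℝ) ^ κ := by gcongr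
      _ = m * ∑ i ∈ S, ‖a i‖ ^ 2 * (nm x : ℝ) ^ κ := by rw [mul_assoc, Finset.sum_mul]
      _ ≤ _ := by
          refine mul_le_mul_of_nonneg_left ?_ (Nat.cast_nonneg _)
          rw [hS, Finset.sum_filter]
          refine Finset.sum_le_sum fun i hi => ?_
          by_cases h2 : X i = g * x
          · rw [if_pos h2]
            have h6 : (nm x : ℝ) ^ κ ≤ (nm (X i) : ℝ) ^ κ := by
              refine Real.rpow_le_rpow (Nat.cast_nonneg _) ?_ hκ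
              rw [h2]
              have : nm x ≤ nm (g * x) := by
                rw [nm_mul]
                exact Nat.le_mul_of_pos_left _ (nm_pos.mpr hg)
              exact_mod_cast this
            split_ifs
            · gcongr
            · positivity
          · rw [if_neg h2, if_neg (fun h => h2 h.1)]
  refine (Finset.sum_le_sum h1).trans ?_
  rw [← Finset.mul_sum, Finset.sum_comm]
  refine mul_le_mul_of_nonneg_left (Finset.sum_le_sum fun i hi => ?_) (Nat.cast_nonneg _)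
  rw [← Finset.sum_filter, Finset.sum_const, nsmul_eq_mul]
  have hc : (P.filter (fun x => X i = g * x)).card ≤ 1 := by
    rw [Finset.card_le_one]
    intro x hx y hy
    rw [Finset.mem_filter] at hx hy
    exact mul_left_cancel₀ hg (hx.2.symm.trans hy.2)
  have hc' : ((P.filter (fun x => X i = g * x)).card : ℝ) ≤ 1 := by exact_mod_cast hc
  have h7 : 0 ≤ ‖a i‖ ^ 2 * (nm (X i) : ℝ) ^ κ := by positivity
  nlinarith

variable {A : Type*} {M : Eis} {ψ : Eis → ℂ} {l : ℤ} {f : Eis} {I : Finset A} {s δ j : A → Eis}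
  {c : A → ℂ} {c₀ g : Eis}

/-- the sizes of `r`, `ν`, `lam` -/
def rn (j : A → Eis) (i : A) : ℝ := (nm (dc (j i)).2.1 : ℝ)
def un (j : A → Eis) (i : A) : ℝ := (nm (dc (j i)).2.2 : ℝ)

/-- the coefficients with the true size of the theta value -/
lemma norm_cI_sq (hψ : HC M ψ) (hI : OKI I s δ j c) (hf : IsPrim f) {i : A} (hi : i ∈ I) :
    ‖cI ψ l f s δ j c i‖ ^ 2 ≤ ‖c i‖ ^ 2 * (rn j i) ^ (-(1 / 3) : ℝ) *
      ((nm (s i) : ℝ) * un j i) ^ (4 / 3 : ℝ) := by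
  obtain ⟨s1, s2, s3, s4, s5, s6, s7⟩ := dc_spec (hI.jc i hi)
  have hsp : IsPrim (s i * (dc (j i)).2.2) := (hI.s i hi).mul s4
  have h1 : ‖sy (dc (j i)).2.2 (δ i)‖ ≤ 1 := E2440.norm_sy_le1 (hI.prim i hi)
  have h2 : ‖th ((dc (j i)).1 * (dc (j i)).2.1)‖ ^ 2 ≤ (rn j i) ^ (-(1 / 3) : ℝ) := by
    have h21 := X6C180.norm_th_su (E2440.isC_sg s1).SM s2 s3
    rw [Complex.mul_conj, Complex.normSq_eq_norm_sq] at h21
    have h22 : ‖th ((dc (j i)).1 * (dc (j i)).2.1)‖ ^ 2 =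
        ‖th (dc (j i)).1‖ ^ 2 * X6C180.n13 (dc (j i)).2.1 := by exact_mod_cast h21
    rw [h22, IsC.norm_th s1]
    have h23 : (nm (dc (j i)).1 : ℝ) ^ (-(1 : ℝ) / 3) ≤ 1 :=
      Real.rpow_le_one_of_one_le_of_nonpos (nm_ge s1.ne_zero) (by norm_num)
    have h24 : X6C180.n13 (dc (j i)).2.1 = (rn j i) ^ (-(1 / 3) : ℝ) := by
      unfold X6C180.n13 rn
      congr 1
      norm_num
    rw [h24]
    have h25 : 0 ≤ (rn j i) ^ (-(1 / 3) : ℝ) := Real.rpow_nonneg (Nat.cast_nonneg _) _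
    nlinarith
  have h3 : ‖End699.tw ψ l (s i * (dc (j i)).2.2)‖ ≤ 1 := (hψ.isChar_tw l).norm_le hsp
  have h4 : ‖sy (s i * (dc (j i)).2.2) f‖ ≤ 1 := E2440.norm_sy_le1 hf
  have h7 : (0 : ℝ) ≤ (nm (s i * (dc (j i)).2.2) : ℝ) ^ (2 / 3 : ℝ) := by positivity
  have h8 : ((nm (s i * (dc (j i)).2.2) : ℝ) ^ (2 / 3 : ℝ)) ^ 2 =
      ((nm (s i) : ℝ) * un j i) ^ (4 / 3 : ℝ) := by
    rw [← Real.rpow_natCast, ← Real.rpow_mul (Nat.cast_nonneg _), nm_mul]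
    unfold un
    push_cast
    norm_num
  unfold cI
  rw [norm_mul, norm_mul, norm_mul, norm_mul, norm_mul, RCLike.norm_conj, RCLike.norm_conj,
    RCLike.norm_conj, Complex.norm_real, Real.norm_of_nonneg h7]
  set T := ‖th ((dc (j i)).1 * (dc (j i)).2.1)‖ with hT
  calc (‖c i‖ * (‖sy (dc (j i)).2.2 (δ i)‖ * T) *
        (‖End699.tw ψ l (s i * (dc (j i)).2.2)‖ * ‖sy (s i * (dc (j i)).2.2) f‖ *
          (nm (s i * (dc (j i)).2.2) : ℝ) ^ (2 / 3 : ℝ))) ^ 2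
      ≤ (‖c i‖ * (1 * T) * (1 * 1 * (nm (s i * (dc (j i)).2.2) : ℝ) ^ (2 / 3 : ℝ))) ^ 2 := by
        gcongr
    _ = ‖c i‖ ^ 2 * T ^ 2 * ((nm (s i * (dc (j i)).2.2) : ℝ) ^ (2 / 3 : ℝ)) ^ 2 := by ring
    _ ≤ ‖c i‖ ^ 2 * (rn j i) ^ (-(1 / 3) : ℝ) * ((nm (s i * (dc (j i)).2.2) : ℝ) ^ (2 / 3 : ℝ)) ^ 2 :=
        by gcongr
    _ = _ := by rw [h8]

/-- the numbers of one index -/
def B1 (s δ j : A → Eis) (c : A → ℂ) (i : A) : ℝ :=
  ‖c i‖ ^ 2 * ((nm (s i) : ℝ) * un j i) ^ (-(4 / 3) : ℝ) * ((rn j i) ^ (1 / 3 : ℝ) *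
    (nm (δ i) : ℝ) ^ (4 / 3 : ℝ))
def B2 (s δ j : A → Eis) (c : A → ℂ) (i : A) : ℝ :=
  ‖c i‖ ^ 2 * ((nm (s i) : ℝ) * un j i) ^ (-(4 / 3) : ℝ) * ((rn j i) ^ (-(1 / 6) : ℝ) *
    (nm (δ i) : ℝ) ^ (1 / 3 : ℝ))

lemma B1_nonneg (i : A) : 0 ≤ B1 s δ j c i := by unfold B1 rn un; positivity
lemma B2_nonneg (i : A) : 0 ≤ B2 s δ j c i := by unfold B2 rn un; positivity

/-- multiplicity of the dictionary -/
def Mul (I : Finset A) (s δ j : A → Eis) (c : A → ℂ) (m : ℕ) : Prop :=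
  ∀ (i₀ : A) (S : Finset A), (∀ i ∈ S, i ∈ I ∧ s i = s i₀ ∧ δ i = δ i₀ ∧ j i = j i₀ ∧ c i ≠ 0) →
    S.card ≤ m

lemma cop_dec (hI : OKI I s δ j c) {i : A} (hi : i ∈ I) (h0 : c i ≠ 0) :
    IsCoprime (dc (j i)).2.1 (δ i) := by
  obtain ⟨s1, s2, s3, s4, s5, s6, s7⟩ := dc_spec (hI.jc i hi)
  refine (hI.cop i hi h0).of_isCoprime_of_dvd_left ?_
  conv_rhs => rw [s7]
  exact ⟨(dc (j i)).1 * (dc (j i)).2.2 ^ 2, by ring⟩

/-- `r δ²` determines `(r, δ)` -/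
lemma sq_unique {r δ r' δ' : Eis} (hr : IsPrim r) (hrs : Squarefree r) (hδ : IsPrim δ)
    (hδs : Squarefree δ) (hr' : IsPrim r') (hrs' : Squarefree r') (hδ' : IsPrim δ')
    (hδs' : Squarefree δ') (hc : IsCoprime r δ) (hc' : IsCoprime r' δ')
    (h : r * δ ^ 2 = r' * δ' ^ 2) : r = r' ∧ δ = δ' := by
  have key : ∀ {r δ r' δ' : Eis}, Squarefree δ → Squarefree r' → IsCoprime r δ →
      IsPrim δ → r * δ ^ 2 = r' * δ' ^ 2 → δ ∣ δ' := by
    intro r δ r' δ' hδs hrs' hc hδ h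
    have hp : ∀ p : Eis, Prime p → p ∣ δ → p ∣ δ' := by
      intro p hp hd
      by_contra hn
      have h1 : p ^ 2 ∣ r' * δ' ^ 2 := by
        rw [← h]
        exact (pow_dvd_pow_of_dvd hd 2).mul_left _
      have h2 : IsCoprime (p ^ 2) (δ' ^ 2) :=
        (hp.irreducible.coprime_iff_not_dvd.mpr hn).pow
      have h3 : p ^ 2 ∣ r' := h2.dvd_of_dvd_mul_right h1
      exact hp.not_isUnit (hrs' p (by rw [← pow_two]; exact h3))
    exact E4ap783.dvd_of_sqf hδs hp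
  have d1 : δ ∣ δ' := key hδs hrs' hc hδ h
  have d2 : δ' ∣ δ := key hδs' hrs hc' hδ' h.symm
  have e1 : δ = δ' := hδ.eq_of_associated hδ' (associated_of_dvd_dvd d1 d2)
  refine ⟨?_, e1⟩
  rw [e1] at h
  exact mul_right_cancel₀ (pow_ne_zero 2 hδ'.ne_zero) h

end Crest.Agent.R017.E4P939
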