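import Crest.Agent.R017.E4p13_939

/-!
# Row 17, block C70, leaf E4, case L (helper939): the polar terms, part 14

`osum_vI` : `Σ_o lam^(-4/3) PW (vI o)` by Cauchy.
-/

set_option autoImplicit false
set_option linter.unusedVariables false
set_option linter.unusedSectionVars false

noncomputable section

open Finset
open scoped ComplexConjugate

namespace Crest.Agent.R017.E4P939

open Crest.Agent.R012 Crest.Agent.R012.Eis Crest.Agent.R012.Mob705 Crest.Agent.R012.Gauss880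
open Crest.Agent.R017.Sx545 (Sm)
open Crest.Agent.R017.PX764 (rho th Gh n6 cD)
open Crest.Agent.R017.E2440 (NoP)
open Crest.Agent.R017.C70 (CbF)
open Crest.Agent.R017.End699 (HC)
open Crest.Agent.R017.GrB829
open Crest.Agent.R017.E4352 (PrI SSm)
open Crest.Agent.R017.E4K164 (dc dc_spec)
open Crest.Agent.R017.E4D164

variable {A : Type*} {M : Eis} {ψ : Eis → ℂ} {l : ℤ} {f : Eis} {I : Finset A} {s δ j : A → Eis}
  {c : A → ℂ} {c₀ g : Eis}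

lemma mem_II {o : Eis × Eis} {i : A} : i ∈ II I s j c₀ o ↔
    i ∈ I ∧ (dc (j i)).1 = c₀ ∧ s i = o.1 ∧ (dc (j i)).2.2 = o.2 := by
  classical
  unfold II
  rw [Finset.mem_filter]

lemma mul_II (hI : OKI I s δ j c) {m : ℕ} (hm : Mul I s δ j c m) (o : Eis × Eis) :
    ∀ x, ∀ S : Finset A, (∀ i ∈ S, i ∈ II I s j c₀ o ∧ XI δ j i = x ∧
      cI ψ l f s δ j c i ≠ 0) → S.card ≤ m := by
  intro x S hS
  rcases S.eq_empty_or_nonempty with rfl | ⟨i₀, hi₀⟩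
  · simp
  refine hm i₀ S fun i hi => ?_
  obtain ⟨h1, h2, h3⟩ := hS i hi
  obtain ⟨g1, g2, g3⟩ := hS i₀ hi₀
  rw [mem_II] at h1 g1
  obtain ⟨h1, h4, h5, h6⟩ := h1
  obtain ⟨g1, g4, g5, g6⟩ := g1
  have hne : ∀ {i : A}, cI ψ l f s δ j c i ≠ 0 → c i ≠ 0 := by
    intro i h h0
    apply h
    unfold cI
    rw [h0]
    simp
  have hc := hne h3
  have gc := hne g3
  obtain ⟨s1, s2, s3, s4, s5, s6, s7⟩ := dc_spec (hI.jc i h1)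
  obtain ⟨t1, t2, t3, t4, t5, t6, t7⟩ := dc_spec (hI.jc i₀ g1)
  obtain ⟨e1, e2⟩ := sq_unique s2 s3 (hI.prim i h1) (hI.sqf i h1) t2 t3 (hI.prim i₀ g1)
    (hI.sqf i₀ g1) (cop_dec hI h1 hc) (cop_dec hI g1 gc) (h2.trans g2.symm)
  refine ⟨h1, h5.trans g5.symm, e2, ?_, hc⟩
  rw [s7, t7, e1, h4, g4, h6, g6]

/-- first moment -/
lemma W1_vI (hψ : HC M ψ) (hI : OKI I s δ j c) (hf : IsPrim f) (hg : g ≠ 0) {m : ℕ}
    (hm : Mul I s δ j c m) {o : Eis × Eis} (ho : o.1 ≠ 0) (ho2 : o.2 ≠ 0) (N : ℕ) :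
    W1 (vI M ψ l f I s δ j c c₀ g o) N ≤
      m * (((nm (o.1 * o.2) : ℝ)) ^ (8 / 3 : ℝ) * ∑ i ∈ II I s j c₀ o, B1 s δ j c i) := by
  unfold W1 vI
  refine (W_pu (by norm_num) hg (fun i hi => (XI_prim hI (mem_II.mp hi).1).ne_zero)
    (mul_II hI hm o) _).trans ?_
  refine mul_le_mul_of_nonneg_left ?_ (Nat.cast_nonneg _)
  rw [Finset.mul_sum]
  refine Finset.sum_le_sum fun i hi => ?_
  obtain ⟨h1, h2, h3, h4⟩ := mem_II.mp hi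
  obtain ⟨s1, s2, s3, s4, s5, s6, s7⟩ := dc_spec (hI.jc i h1)
  have hr : 0 < rn j i := by unfold rn; exact_mod_cast nm_pos.mpr s2.ne_zero
  have hd : (0 : ℝ) < nm (δ i) := by exact_mod_cast nm_pos.mpr (hI.prim i h1).ne_zero
  have hlam : (nm (o.1 * o.2) : ℝ) = (nm (s i) : ℝ) * un j i := by
    rw [nm_mul, ← h3, ← h4]; unfold un; push_cast; rfl
  have hl : (0 : ℝ) < (nm (s i) : ℝ) * un j i := by
    rw [← hlam]; exact_mod_cast nm_pos.mpr (mul_ne_zero ho ho2)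
  have e1 : (nm (XI δ j i) : ℝ) ^ (2 / 3 : ℝ) =
      (rn j i) ^ (2 / 3 : ℝ) * (nm (δ i) : ℝ) ^ (4 / 3 : ℝ) := by
    unfold XI
    rw [nm_mul, nm_pow]
    push_cast
    rw [Real.mul_rpow (Nat.cast_nonneg _) (by positivity), ← Real.rpow_natCast,
      ← Real.rpow_mul hd.le]
    unfold rn
    norm_num
  rw [e1, hlam]
  have h5 := norm_cI_sq (l := l) hψ hI hf h1
  have e2 : (rn j i) ^ (-(1 / 3) : ℝ) * (rn j i) ^ (2 / 3 : ℝ) = (rn j i) ^ (1 / 3 : ℝ) := by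
    rw [← Real.rpow_add hr]; norm_num
  have e3 : ((nm (s i) : ℝ) * un j i) ^ (8 / 3 : ℝ) * ((nm (s i) : ℝ) * un j i) ^ (-(4 / 3) : ℝ) =
      ((nm (s i) : ℝ) * un j i) ^ (4 / 3 : ℝ) := by
    rw [← Real.rpow_add hl]; norm_num
  calc ‖cI ψ l f s δ j c i‖ ^ 2 * ((rn j i) ^ (2 / 3 : ℝ) * (nm (δ i) : ℝ) ^ (4 / 3 : ℝ))
      ≤ (‖c i‖ ^ 2 * (rn j i) ^ (-(1 / 3) : ℝ) * ((nm (s i) : ℝ) * un j i) ^ (4 / 3 : ℝ)) *
        ((rn j i) ^ (2 / 3 : ℝ) * (nm (δ i) : ℝ) ^ (4 / 3 : ℝ)) := by gcongr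
    _ = ‖c i‖ ^ 2 * ((nm (s i) : ℝ) * un j i) ^ (4 / 3 : ℝ) *
        (((rn j i) ^ (-(1 / 3) : ℝ) * (rn j i) ^ (2 / 3 : ℝ)) * (nm (δ i) : ℝ) ^ (4 / 3 : ℝ)) := by
        ring
    _ = ‖c i‖ ^ 2 * ((nm (s i) : ℝ) * un j i) ^ (4 / 3 : ℝ) *
        ((rn j i) ^ (1 / 3 : ℝ) * (nm (δ i) : ℝ) ^ (4 / 3 : ℝ)) := by rw [e2]
    _ = _ := by unfold B1; rw [← e3]; ring

/-- second moment -/
lemma W2_vI (hψ : HC M ψ) (hI : OKI I s δ j c) (hf : IsPrim f) (hg : g ≠ 0) {m : ℕ}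
    (hm : Mul I s δ j c m) {o : Eis × Eis} (ho : o.1 ≠ 0) (ho2 : o.2 ≠ 0) (N : ℕ) :
    W2 (vI M ψ l f I s δ j c c₀ g o) N ≤
      m * (((nm (o.1 * o.2) : ℝ)) ^ (8 / 3 : ℝ) * ∑ i ∈ II I s j c₀ o, B2 s δ j c i) := by
  unfold W2 vI
  refine (W_pu (by norm_num) hg (fun i hi => (XI_prim hI (mem_II.mp hi).1).ne_zero)
    (mul_II hI hm o) _).trans ?_
  refine mul_le_mul_of_nonneg_left ?_ (Nat.cast_nonneg _)
  rw [Finset.mul_sum]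
  refine Finset.sum_le_sum fun i hi => ?_
  obtain ⟨h1, h2, h3, h4⟩ := mem_II.mp hi
  obtain ⟨s1, s2, s3, s4, s5, s6, s7⟩ := dc_spec (hI.jc i h1)
  have hr : 0 < rn j i := by unfold rn; exact_mod_cast nm_pos.mpr s2.ne_zero
  have hd : (0 : ℝ) < nm (δ i) := by exact_mod_cast nm_pos.mpr (hI.prim i h1).ne_zero
  have hlam : (nm (o.1 * o.2) : ℝ) = (nm (s i) : ℝ) * un j i := by
    rw [nm_mul, ← h3, ← h4]; unfold un; push_cast; rfl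
  have hl : (0 : ℝ) < (nm (s i) : ℝ) * un j i := by
    rw [← hlam]; exact_mod_cast nm_pos.mpr (mul_ne_zero ho ho2)
  have e1 : (nm (XI δ j i) : ℝ) ^ (1 / 6 : ℝ) =
      (rn j i) ^ (1 / 6 : ℝ) * (nm (δ i) : ℝ) ^ (1 / 3 : ℝ) := by
    unfold XI
    rw [nm_mul, nm_pow]
    push_cast
    rw [Real.mul_rpow (Nat.cast_nonneg _) (by positivity), ← Real.rpow_natCast,
      ← Real.rpow_mul hd.le]
    unfold rn
    norm_num
  rw [e1, hlam]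
  have h5 := norm_cI_sq (l := l) hψ hI hf h1
  have e2 : (rn j i) ^ (-(1 / 3) : ℝ) * (rn j i) ^ (1 / 6 : ℝ) = (rn j i) ^ (-(1 / 6) : ℝ) := by
    rw [← Real.rpow_add hr]; norm_num
  have e3 : ((nm (s i) : ℝ) * un j i) ^ (8 / 3 : ℝ) * ((nm (s i) : ℝ) * un j i) ^ (-(4 / 3) : ℝ) =
      ((nm (s i) : ℝ) * un j i) ^ (4 / 3 : ℝ) := by
    rw [← Real.rpow_add hl]; norm_num
  calc ‖cI ψ l f s δ j c i‖ ^ 2 * ((rn j i) ^ (1 / 6 : ℝ) * (nm (δ i) : ℝ) ^ (1 / 3 : ℝ))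
      ≤ (‖c i‖ ^ 2 * (rn j i) ^ (-(1 / 3) : ℝ) * ((nm (s i) : ℝ) * un j i) ^ (4 / 3 : ℝ)) *
        ((rn j i) ^ (1 / 6 : ℝ) * (nm (δ i) : ℝ) ^ (1 / 3 : ℝ)) := by gcongr
    _ = ‖c i‖ ^ 2 * ((nm (s i) : ℝ) * un j i) ^ (4 / 3 : ℝ) *
        (((rn j i) ^ (-(1 / 3) : ℝ) * (rn j i) ^ (1 / 6 : ℝ)) * (nm (δ i) : ℝ) ^ (1 / 3 : ℝ)) := by
        ring
    _ = ‖c i‖ ^ 2 * ((nm (s i) : ℝ) * un j i) ^ (4 / 3 : ℝ) *
        ((rn j i) ^ (-(1 / 6) : ℝ) * (nm (δ i) : ℝ) ^ (1 / 3 : ℝ)) := by rw [e2]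
    _ = _ := by unfold B2; rw [← e3]; ring

/-- one `o` -/
lemma PW_vI (hψ : HC M ψ) (hI : OKI I s δ j c) (hf : IsPrim f) (hg : g ≠ 0) {m : ℕ}
    (hm : Mul I s δ j c m) {o : Eis × Eis} (ho : o.1 ≠ 0) (ho2 : o.2 ≠ 0) (N : ℕ) {Λ : ℝ}
    (hΛ : 0 ≤ Λ) :
    (nm (o.1 * o.2) : ℝ) ^ (-(4 / 3) : ℝ) * PW (vI M ψ l f I s δ j c c₀ g o) N Λ ≤
      Real.sqrt m * (Λ ^ (1 / 3 : ℝ) * Real.sqrt (∑ i ∈ II I s j c₀ o, B1 s δ j c i) +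
        Λ ^ (5 / 12 : ℝ) * Real.sqrt (∑ i ∈ II I s j c₀ o, B2 s δ j c i)) := by
  set Lm := (nm (o.1 * o.2) : ℝ) with hLm
  have hl : 0 < Lm := by rw [hLm]; exact_mod_cast nm_pos.mpr (mul_ne_zero ho ho2)
  have hS1 : 0 ≤ ∑ i ∈ II I s j c₀ o, B1 s δ j c i := Finset.sum_nonneg fun i _ => B1_nonneg i
  have hS2 : 0 ≤ ∑ i ∈ II I s j c₀ o, B2 s δ j c i := Finset.sum_nonneg fun i _ => B2_nonneg i
  have key : ∀ {W S : ℝ}, 0 ≤ S → W ≤ m * (Lm ^ (8 / 3 : ℝ) * S) →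
      Lm ^ (-(4 / 3) : ℝ) * Real.sqrt W ≤ Real.sqrt m * Real.sqrt S := by
    intro W S hS hW
    have h1 : Real.sqrt W ≤ Real.sqrt m * (Lm ^ (4 / 3 : ℝ) * Real.sqrt S) := by
      refine (Real.sqrt_le_sqrt hW).trans (le_of_eq ?_)
      rw [Real.sqrt_mul (Nat.cast_nonneg _), Real.sqrt_mul (by positivity),
        Real.sqrt_eq_rpow (Lm ^ (8 / 3 : ℝ)), ← Real.rpow_mul hl.le]
      norm_num
    calc Lm ^ (-(4 / 3) : ℝ) * Real.sqrt W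
        ≤ Lm ^ (-(4 / 3) : ℝ) * (Real.sqrt m * (Lm ^ (4 / 3 : ℝ) * Real.sqrt S)) := by gcongr
      _ = (Lm ^ (-(4 / 3) : ℝ) * Lm ^ (4 / 3 : ℝ)) * (Real.sqrt m * Real.sqrt S) := by ring
      _ = _ := by rw [← Real.rpow_add hl]; norm_num
  have k1 := key hS1 (W1_vI (l := l) (c₀ := c₀) hψ hI hf hg hm ho ho2 N)
  have k2 := key hS2 (W2_vI (l := l) (c₀ := c₀) hψ hI hf hg hm ho ho2 N)
  unfold PW
  calc Lm ^ (-(4 / 3) : ℝ) * (Real.sqrt (W1 (vI M ψ l f I s δ j c c₀ g o) N) * Λ ^ (1 / 3 : ℝ) +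
        Real.sqrt (W2 (vI M ψ l f I s δ j c c₀ g o) N) * Λ ^ (5 / 12 : ℝ))
      = (Lm ^ (-(4 / 3) : ℝ) * Real.sqrt (W1 (vI M ψ l f I s δ j c c₀ g o) N)) *
          Λ ^ (1 / 3 : ℝ) +
        (Lm ^ (-(4 / 3) : ℝ) * Real.sqrt (W2 (vI M ψ l f I s δ j c c₀ g o) N)) *
          Λ ^ (5 / 12 : ℝ) := by ring
    _ ≤ (Real.sqrt m * Real.sqrt (∑ i ∈ II I s j c₀ o, B1 s δ j c i)) * Λ ^ (1 / 3 : ℝ) +
        (Real.sqrt m * Real.sqrt (∑ i ∈ II I s j c₀ o, B2 s δ j c i)) * Λ ^ (5 / 12 : ℝ) := by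
        gcongr
    _ = _ := by ring

/-- Cauchy over the outer parameter -/
lemma cs_o {T : Type*} (s : Finset T) {u h : T → ℝ} (hu : ∀ o ∈ s, 0 < u o)
    (hh : ∀ o ∈ s, 0 ≤ h o) :
    ∑ o ∈ s, Real.sqrt (h o) ≤ Real.sqrt (∑ o ∈ s, u o) * Real.sqrt (∑ o ∈ s, h o / u o) := by
  have h1 : ∀ o ∈ s, Real.sqrt (h o) = Real.sqrt (u o) * Real.sqrt (h o / u o) := by
    intro o ho
    rw [← Real.sqrt_mul (hu o ho).le, mul_div_cancel₀ _ (hu o ho).ne']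
  have h2 : (∑ o ∈ s, Real.sqrt (u o) * Real.sqrt (h o / u o)) ^ 2 ≤
      (∑ o ∈ s, u o) * ∑ o ∈ s, h o / u o := by
    have h3 := Finset.sum_mul_sq_le_sq_mul_sq s (fun o => Real.sqrt (u o))
      (fun o => Real.sqrt (h o / u o))
    refine h3.trans (le_of_eq ?_)
    congr 1
    · exact Finset.sum_congr rfl fun o ho => Real.sq_sqrt (hu o ho).le
    · exact Finset.sum_congr rfl fun o ho => Real.sq_sqrt (div_nonneg (hh o ho) (hu o ho).le)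
  have hu' : 0 ≤ ∑ o ∈ s, u o := Finset.sum_nonneg fun o ho => (hu o ho).le
  rw [Finset.sum_congr rfl h1, ← Real.sqrt_mul hu']
  exact Real.le_sqrt_of_sq_le h2

open Classical in
/-- the sum over `o` of sums over the fibres -/
lemma sum_II_le (F : A → ℝ) (hF : ∀ i ∈ I, 0 ≤ F i) :
    ∑ o ∈ OU M I s j, ∑ i ∈ II I s j c₀ o, F i ≤ ∑ i ∈ I, F i := by
  have h1 : ∀ o, ∑ i ∈ II I s j c₀ o, F i = ∑ i ∈ I,
      if (dc (j i)).1 = c₀ ∧ s i = o.1 ∧ (dc (j i)).2.2 = o.2 then F i else 0 := by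
    intro o
    unfold II
    rw [Finset.sum_filter]
  rw [Finset.sum_congr rfl fun o _ => h1 o, Finset.sum_comm]
  refine Finset.sum_le_sum fun i hi => ?_
  rw [← Finset.sum_filter, Finset.sum_const, nsmul_eq_mul]
  have hc : ((OU M I s j).filter (fun o => (dc (j i)).1 = c₀ ∧ s i = o.1 ∧
      (dc (j i)).2.2 = o.2)).card ≤ 1 := by
    rw [Finset.card_le_one]
    intro x hx y hy
    rw [Finset.mem_filter] at hx hy
    exact Prod.ext (hx.2.2.1.symm.trans hy.2.2.1) (hx.2.2.2.symm.trans hy.2.2.2)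
  have hc' : (((OU M I s j).filter (fun o => (dc (j i)).1 = c₀ ∧ s i = o.1 ∧
      (dc (j i)).2.2 = o.2)).card : ℝ) ≤ 1 := by exact_mod_cast hc
  have := hF i hi
  nlinarith

/-- the weight of the outer parameter -/
def uw (o : Eis × Eis) : ℝ := (nm o.1 : ℝ) ^ (-(1 / 2) : ℝ) * (nm o.2 : ℝ)⁻¹

open Classical in
lemma sum_uw (hI : OKI I s δ j c) {X : ℝ} (hs : ∀ i ∈ I, (nm (s i * (dc (j i)).2.2) : ℝ) ≤ X) :
    ∑ o ∈ OU M I s j, uw o ≤ (∑ t ∈ I.image s, (nm t : ℝ) ^ (-(1 / 2) : ℝ)) *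
      ∑ ν ∈ primBall ⌊X⌋₊, (nm ν : ℝ)⁻¹ := by
  rw [Finset.sum_mul_sum, ← Finset.sum_product']
  refine Finset.sum_le_sum_of_subset_of_nonneg ?_ fun o _ _ => by unfold uw; positivity
  intro o ho
  unfold OU at ho
  rw [Finset.mem_filter, Finset.mem_image] at ho
  obtain ⟨⟨i, hi, h1⟩, h2⟩ := ho
  obtain ⟨s1, s2, s3, s4, s5, s6, s7⟩ := dc_spec (hI.jc i hi)
  rw [Finset.mem_product]
  refine ⟨?_, ?_⟩
  · rw [Finset.mem_image]; exact ⟨i, hi, by rw [← h1]⟩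
  · rw [GLS106.mem_primBall_floor, ← h1]
    refine ⟨le_trans ?_ (hs i hi), s4⟩
    exact_mod_cast Div277.nm_le_of_dvd ((hI.s i hi).mul s4).ne_zero (dvd_mul_left _ _)

open Classical in
/-- **the sum over `o`** -/
theorem osum_vI (hψ : HC M ψ) (hI : OKI I s δ j c) (hf : IsPrim f) (hg : g ≠ 0) {m : ℕ}
    (hm : Mul I s δ j c m) (N : ℕ) {Λ X : ℝ} (hΛ : 0 ≤ Λ)
    (hs : ∀ i ∈ I, (nm (s i * (dc (j i)).2.2) : ℝ) ≤ X) :
    ∑ o : OU M I s j, (nm (o.1.1 * o.1.2) : ℝ) ^ (-(4 / 3) : ℝ) *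
        PW (vI M ψ l f I s δ j c c₀ g o.1) N Λ ≤
      Real.sqrt m * Real.sqrt ((∑ t ∈ I.image s, (nm t : ℝ) ^ (-(1 / 2) : ℝ)) *
        ∑ ν ∈ primBall ⌊X⌋₊, (nm ν : ℝ)⁻¹) *
      (Λ ^ (1 / 3 : ℝ) * Real.sqrt (∑ i ∈ I, B1 s δ j c i *
          ((nm (s i) : ℝ) ^ (1 / 2 : ℝ) * un j i)) +
        Λ ^ (5 / 12 : ℝ) * Real.sqrt (∑ i ∈ I, B2 s δ j c i *
          ((nm (s i) : ℝ) ^ (1 / 2 : ℝ) * un j i))) := by
  have hO : ∀ o ∈ OU M I s j, o.1 ≠ 0 ∧ o.2 ≠ 0 := by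
    intro o ho
    unfold OU at ho
    rw [Finset.mem_filter, Finset.mem_image] at ho
    obtain ⟨⟨i, hi, h1⟩, h2⟩ := ho
    obtain ⟨s1, s2, s3, s4, s5, s6, s7⟩ := dc_spec (hI.jc i hi)
    rw [← h1]
    exact ⟨(hI.s i hi).ne_zero, s4.ne_zero⟩
  have hu : ∀ o ∈ OU M I s j, 0 < uw o := by
    intro o ho
    have h1 : (0 : ℝ) < nm o.1 := by exact_mod_cast nm_pos.mpr (hO o ho).1
    have h2 : (0 : ℝ) < nm o.2 := by exact_mod_cast nm_pos.mpr (hO o ho).2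
    unfold uw; positivity
  set U := Real.sqrt ((∑ t ∈ I.image s, (nm t : ℝ) ^ (-(1 / 2) : ℝ)) *
        ∑ ν ∈ primBall ⌊X⌋₊, (nm ν : ℝ)⁻¹) with hU
  have key : ∀ B : A → ℝ, (∀ i, 0 ≤ B i) →
      ∑ o ∈ OU M I s j, Real.sqrt (∑ i ∈ II I s j c₀ o, B i) ≤
        U * Real.sqrt (∑ i ∈ I, B i * ((nm (s i) : ℝ) ^ (1 / 2 : ℝ) * un j i)) := by
    intro B hB
    refine (cs_o (OU M I s j) (u := uw) (h := fun o => ∑ i ∈ II I s j c₀ o, B i) hu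
      (fun o _ => Finset.sum_nonneg fun i _ => hB i)).trans ?_
    refine mul_le_mul (Real.sqrt_le_sqrt (sum_uw hI hs)) (Real.sqrt_le_sqrt ?_)
      (Real.sqrt_nonneg _) (Real.sqrt_nonneg _)
    have h1 : ∀ o ∈ OU M I s j, (∑ i ∈ II I s j c₀ o, B i) / uw o =
        ∑ i ∈ II I s j c₀ o, B i * ((nm (s i) : ℝ) ^ (1 / 2 : ℝ) * un j i) := by
      intro o ho
      rw [Finset.sum_div]
      refine Finset.sum_congr rfl fun i hi => ?_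
      obtain ⟨h1, h2, h3, h4⟩ := mem_II.mp hi
      have h5 : (0 : ℝ) < nm o.1 := by exact_mod_cast nm_pos.mpr (hO o ho).1
      unfold uw un
      rw [h3, h4, Real.rpow_neg h5.le, ← mul_inv, div_inv_eq_mul]
    rw [Finset.sum_congr rfl h1]
    exact sum_II_le (fun i => B i * ((nm (s i) : ℝ) ^ (1 / 2 : ℝ) * un j i)) fun i _ =>
      mul_nonneg (hB i) (by unfold un; positivity)
  have k1 := key (B1 s δ j c) fun i => B1_nonneg i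
  have k2 := key (B2 s δ j c) fun i => B2_nonneg i
  rw [Finset.sum_coe_sort (OU M I s j) (fun o => (nm (o.1 * o.2) : ℝ) ^ (-(4 / 3) : ℝ) *
        PW (vI M ψ l f I s δ j c c₀ g o) N Λ)]
  calc ∑ o ∈ OU M I s j, (nm (o.1 * o.2) : ℝ) ^ (-(4 / 3) : ℝ) *
        PW (vI M ψ l f I s δ j c c₀ g o) N Λ
      ≤ ∑ o ∈ OU M I s j, Real.sqrt m * (Λ ^ (1 / 3 : ℝ) *
          Real.sqrt (∑ i ∈ II I s j c₀ o, B1 s δ j c i) +
        Λ ^ (5 / 12 : ℝ) * Real.sqrt (∑ i ∈ II I s j c₀ o, B2 s δ j c i)) :=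
        Finset.sum_le_sum fun o ho => PW_vI hψ hI hf hg hm (hO o ho).1 (hO o ho).2 N hΛ
    _ = Real.sqrt m * (Λ ^ (1 / 3 : ℝ) * ∑ o ∈ OU M I s j,
          Real.sqrt (∑ i ∈ II I s j c₀ o, B1 s δ j c i) +
        Λ ^ (5 / 12 : ℝ) * ∑ o ∈ OU M I s j,
          Real.sqrt (∑ i ∈ II I s j c₀ o, B2 s δ j c i)) := by
        rw [← Finset.mul_sum, Finset.sum_add_distrib, Finset.mul_sum, Finset.mul_sum]
    _ ≤ Real.sqrt m * (Λ ^ (1 / 3 : ℝ) * (U * Real.sqrt (∑ i ∈ I, B1 s δ j c i *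
          ((nm (s i) : ℝ) ^ (1 / 2 : ℝ) * un j i))) +
        Λ ^ (5 / 12 : ℝ) * (U * Real.sqrt (∑ i ∈ I, B2 s δ j c i *
          ((nm (s i) : ℝ) ^ (1 / 2 : ℝ) * un j i)))) := by gcongr
    _ = _ := by ring

end Crest.Agent.R017.E4P939
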