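import Crest.Agent.R017.E4p14_939
import Crest.Agent.R017.E4m_164

/-!
# Row 17, block C70, leaf E4, case L (helper939): the polar terms, part 15

* `stj_inj`, `e_dvd` : the starred frequency
* `mul_EL` : multiplicity of the joint family;  `B1_EL`, `B2_EL` : its numbers
-/

set_option autoImplicit false
set_option linter.unusedVariables false
set_option linter.unusedSectionVars false

noncomputable section

open Finset
open scoped ComplexConjugate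

namespace Crest.Agent.R017.E4P939

open Crest.Agent.R012 Crest.Agent.R012.Eis Crest.Agent.R012.Mob705 Crest.Agent.R012.Gauss880
open Crest.Agent.R017.Sx545 (Sm)
open Crest.Agent.R017.CM106 (FS)
open Crest.Agent.R017.PX764 (rho th Gh n6 cD)
open Crest.Agent.R017.E2440 (NoP TE)
open Crest.Agent.R017.C70
open Crest.Agent.R017.End699 (HC)
open Crest.Agent.R017.GrB829
open Crest.Agent.R017.E4352 (PrI SSm)
open Crest.Agent.R017.E4K164 (dc dc_spec)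
open Crest.Agent.R017.E4D164
open Crest.Agent.R017.E5b54 (stj stj_spec)
open Crest.Agent.R017.DgA829 (lc lc_prim lc_dvd)

lemma c_dvd_three {c : Eis} (hc : c = 1 ∨ c = 3 ∨ c = 3 * w ∨ c = 3 * w ^ 2) {e : Eis}
    (he : IsPrim e) : IsCoprime e c := by
  have h3 : IsCoprime e 3 := he.isCoprime_three
  have hw : IsCoprime e w := (isCoprime_one_right (x := e)).of_isCoprime_of_dvd_right
    (isUnit_w.dvd)
  rcases hc with h | h | h | h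
  · rw [h]; exact isCoprime_one_right
  · rw [h]; exact h3
  · rw [h]; exact h3.mul_right hw
  · rw [h]; exact h3.mul_right (hw.pow_right)

/-- a cube dividing a `JC` element -/
lemma cube_jc {j e : Eis} (hj : JC j) (he : IsPrim e) (h : e ^ 3 ∣ j) : e = 1 := by
  obtain ⟨c, hc, j', hp, hcf, rfl⟩ := hj
  have h1 : IsCoprime (e ^ 3) c := (c_dvd_three hc he).pow_left
  have h2 : e ^ 3 ∣ j' := h1.dvd_of_dvd_mul_left h
  have hu : IsUnit e := by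
    by_contra hn
    obtain ⟨p, hpp, hd⟩ := WfDvdMonoid.exists_irreducible_factor hn he.ne_zero
    exact hcf p hpp.prime ((pow_dvd_pow_of_dvd hd 3).trans h2)
  exact he.eq_of_associated isPrim_one (associated_one_iff_isUnit.mpr hu)

/-- the cube root divides the multiplier -/
lemma e_dvd {j s J e : Eis} (hj : JC j) (hs : IsPrim s) (he : IsPrim e) (h : j * s = J * e ^ 3) :
    e ∣ s := by
  obtain ⟨d, s1, e1, hd, he1, hs', he', hc⟩ := X6D502.exists_gcd s he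
  have h1 : j * s1 = J * d ^ 2 * e1 ^ 3 := by
    apply mul_left_cancel₀ hd.ne_zero
    rw [hs', he'] at h
    linear_combination h
  have h2 : e1 ^ 3 ∣ j * s1 := ⟨J * d ^ 2, by rw [h1]; ring⟩
  have h3 : e1 ^ 3 ∣ j := (hc.symm.pow_left).dvd_of_dvd_mul_right h2
  have h4 := cube_jc hj he1 h3
  rw [he', h4, mul_one, hs']
  exact dvd_mul_right _ _

lemma stj_inj {s j₁ j₂ : Eis} (hs : IsPrim s) (h₁ : JC j₁) (h₂ : JC j₂)
    (h : stj s j₁ = stj s j₂) : j₁ = j₂ := by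
  obtain ⟨-, e₁, he₁, h3⟩ := stj_spec hs h₁
  obtain ⟨-, e₂, he₂, h4⟩ := stj_spec hs h₂
  rw [← h] at h4
  have h5 : j₁ * e₂ ^ 3 = j₂ * e₁ ^ 3 := by
    apply mul_right_cancel₀ hs.ne_zero
    linear_combination e₂ ^ 3 * h3 - e₁ ^ 3 * h4
  obtain ⟨d, a, b, hd, hb, ha', hb', hc⟩ := X6D502.exists_gcd e₁ he₂
  have ha : IsPrim a := by
    have : IsPrim (d * a) := ha' ▸ he₁
    exact this.of_mul_left hd
  have h6 : j₁ * b ^ 3 = j₂ * a ^ 3 := by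
    apply mul_left_cancel₀ (pow_ne_zero 3 hd.ne_zero)
    rw [ha', hb'] at h5
    linear_combination h5
  have h7 : a ^ 3 ∣ j₁ := (hc.pow (m := 3) (n := 3)).dvd_of_dvd_mul_right ⟨j₂, by rw [h6]; ring⟩
  have h8 : b ^ 3 ∣ j₂ := (hc.symm.pow (m := 3) (n := 3)).dvd_of_dvd_mul_right
    ⟨j₁, by rw [← h6]; ring⟩
  have h9 := cube_jc h₁ ha h7
  have h10 := cube_jc h₂ hb h8
  rw [h9, h10] at h6
  simpa using h6

lemma nm_c_le {c : Eis} (hc : IsC c) : nm c ≤ 9 := by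
  rcases hc with h | h | h | h <;> rw [h] <;> decide

variable {B : Type*} {M : Eis} {ψ : Eis → ℂ} {l : ℤ} {f : Eis}

/-- multiplicity -/
lemma mul_EL {Q : Finset B} {s' : B → Eis} (hs : ∀ b ∈ Q, IsPrim (s' b)) {s : B → Eis}
    (hinj : Set.InjOn s Q) (hsd : ∀ b ∈ Q, IsPrim (s b) ∧ s b ∣ s' b) {J : Finset (Eis × Eis)}
    (hJ : OKJ J) (c : B → Eis × Eis → ℂ) {m : ℕ} (hm : ∀ b ∈ Q, Div277.tau (s' b) ≤ m) :
    Mul (Q ×ˢ J) (jS s') jD (jJ s') (jC s' c) m := by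
  classical
  intro i₀ S hS
  rcases S.eq_empty_or_nonempty with rfl | ⟨i₁, hi₁⟩
  · simp
  obtain ⟨hb₁, hx₁⟩ := Finset.mem_product.mp (hS i₁ hi₁).1
  have key : ∀ i ∈ S, i.2 = i₁.2 ∧ s' i.1 = s' i₁.1 := by
    intro i hi
    obtain ⟨h1, h2, h3, h4, -⟩ := hS i hi
    obtain ⟨g1, g2, g3, g4, -⟩ := hS i₁ hi₁
    obtain ⟨hb, hx⟩ := Finset.mem_product.mp h1
    have e1 : s' i.1 = s' i₁.1 := h2.trans g2.symm
    have e2 : i.2.1 = i₁.2.1 := h3.trans g3.symm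
    have e3 : stj (s' i.1) i.2.2 = stj (s' i₁.1) i₁.2.2 := h4.trans g4.symm
    rw [← e1] at e3
    exact ⟨Prod.ext e2 (stj_inj (hs _ hb) (hJ.jc _ hx) (hJ.jc _ hx₁) e3), e1⟩
  have hinj2 : Set.InjOn (fun i : B × (Eis × Eis) => s i.1) S := by
    intro i hi i' hi' h
    have h1 := (Finset.mem_product.mp (hS i hi).1).1
    have h2 := (Finset.mem_product.mp (hS i' hi').1).1
    exact Prod.ext (hinj h1 h2 h) ((key i hi).1.trans (key i' hi').1.symm)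
  have h0 : S.card = (S.image (fun i : B × (Eis × Eis) => s i.1)).card :=
    (Finset.card_image_of_injOn hinj2).symm
  rw [h0]
  refine le_trans (Finset.card_le_card ?_) (hm _ hb₁)
  intro t ht
  rw [Finset.mem_image] at ht
  obtain ⟨i, hi, rfl⟩ := ht
  have h1 := (Finset.mem_product.mp (hS i hi).1).1
  rw [Div277.mem_dvs (hs _ hb₁).ne_zero]
  obtain ⟨h2, h3⟩ := hsd _ h1
  exact ⟨h2, by rw [← (key i hi).2]; exact h3⟩

/-- sizes of the data of one index -/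
lemma size_EL {s' : B → Eis} {i : B × (Eis × Eis)} (hs : IsPrim (s' i.1)) (hj : JC i.2.2) :
    ∃ E : ℝ, 1 ≤ E ∧ E ≤ nm (s' i.1) ∧ 1 ≤ rn (jJ s') i ∧ 1 ≤ un (jJ s') i ∧
      ∃ C : ℝ, 1 ≤ C ∧ C ≤ 9 ∧
      (nm i.2.2 : ℝ) * nm (s' i.1) = C * rn (jJ s') i * un (jJ s') i ^ 2 * E ^ 3 := by
  obtain ⟨hJ, e, he, h1⟩ := stj_spec hs hj
  obtain ⟨s1, s2, s3, s4, s5, s6, s7⟩ := dc_spec hJ
  refine ⟨nm e, nm_ge he.ne_zero, ?_, nm_ge s2.ne_zero, nm_ge s4.ne_zero,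
    nm (dc (stj (s' i.1) i.2.2)).1, nm_ge s1.ne_zero, ?_, ?_⟩
  · exact_mod_cast Div277.nm_le_of_dvd hs.ne_zero (e_dvd hj hs he h1)
  · exact_mod_cast nm_c_le s1
  · have h2 := congrArg nm h1
    rw [s7] at h2
    rw [nm_mul, nm_mul, nm_mul, nm_mul, nm_pow, nm_pow] at h2
    unfold rn un jJ
    exact_mod_cast h2

/-- first number -/
lemma B1_one {a S u r x d C E : ℝ} (ha : 0 ≤ a) (hS : 1 ≤ S) (hu : 1 ≤ u) (hr : 1 ≤ r)
    (hx : 0 ≤ x) (hd : 0 ≤ d) (hC : 1 ≤ C) (hE : 1 ≤ E) (h : x * S = C * r * u ^ 2 * E ^ 3) :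
    a * (S * u) ^ (-(4 / 3) : ℝ) * (r ^ (1 / 3 : ℝ) * d) * (S ^ (1 / 2 : ℝ) * u) ≤
      S ^ (-(1 / 2) : ℝ) * (a * (x ^ (1 / 3 : ℝ) * d)) := by
  have hS0 : 0 < S := by linarith
  have hu0 : 0 < u := by linarith
  have hr0 : 0 < r := by linarith
  have h1 : r ≤ x * S := by
    rw [h]
    have h2 : 1 ≤ C * u ^ 2 * E ^ 3 :=
      one_le_mul_of_one_le_of_one_le (one_le_mul_of_one_le_of_one_le hC (one_le_pow₀ hu))
        (one_le_pow₀ hE)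
    nlinarith
  have h3 : r ^ (1 / 3 : ℝ) ≤ x ^ (1 / 3 : ℝ) * S ^ (1 / 3 : ℝ) := by
    rw [← Real.mul_rpow hx hS0.le]
    gcongr
  have h4 : (S * u) ^ (-(4 / 3) : ℝ) * S ^ (1 / 3 : ℝ) * (S ^ (1 / 2 : ℝ) * u) ≤
      S ^ (-(1 / 2) : ℝ) := by
    rw [Real.mul_rpow hS0.le hu0.le]
    have e1 : S ^ (-(4 / 3) : ℝ) * S ^ (1 / 3 : ℝ) * S ^ (1 / 2 : ℝ) = S ^ (-(1 / 2) : ℝ) := by
      rw [← Real.rpow_add hS0, ← Real.rpow_add hS0]; norm_num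
    have e2 : u ^ (-(4 / 3) : ℝ) * u ≤ 1 := by
      have : u ^ (-(4 / 3) : ℝ) * u = u ^ (-(1 / 3) : ℝ) := by
        conv_lhs => rw [← Real.rpow_one u, ← Real.rpow_mul hu0.le, ← Real.rpow_add hu0]
        norm_num
      rw [this]
      exact Real.rpow_le_one_of_one_le_of_nonpos hu (by norm_num)
    calc S ^ (-(4 / 3) : ℝ) * u ^ (-(4 / 3) : ℝ) * S ^ (1 / 3 : ℝ) * (S ^ (1 / 2 : ℝ) * u)
        = (S ^ (-(4 / 3) : ℝ) * S ^ (1 / 3 : ℝ) * S ^ (1 / 2 : ℝ)) * (u ^ (-(4 / 3) : ℝ) * u) := by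
          ring
      _ ≤ S ^ (-(1 / 2) : ℝ) * 1 := by rw [e1]; gcongr
      _ = _ := mul_one _
  calc a * (S * u) ^ (-(4 / 3) : ℝ) * (r ^ (1 / 3 : ℝ) * d) * (S ^ (1 / 2 : ℝ) * u)
      ≤ a * (S * u) ^ (-(4 / 3) : ℝ) * ((x ^ (1 / 3 : ℝ) * S ^ (1 / 3 : ℝ)) * d) *
        (S ^ (1 / 2 : ℝ) * u) := by gcongr
    _ = ((S * u) ^ (-(4 / 3) : ℝ) * S ^ (1 / 3 : ℝ) * (S ^ (1 / 2 : ℝ) * u)) *
        (a * (x ^ (1 / 3 : ℝ) * d)) := by ring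
    _ ≤ _ := by gcongr

/-- second number -/
lemma B2_one {a S u r x d C E : ℝ} (ha : 0 ≤ a) (hS : 1 ≤ S) (hu : 1 ≤ u) (hr : 1 ≤ r)
    (hx : 0 < x) (hd : 0 ≤ d) (hC : 1 ≤ C) (hC9 : C ≤ 9) (hE : 1 ≤ E) (hES : E ≤ S)
    (h : x * S = C * r * u ^ 2 * E ^ 3) :
    a * (S * u) ^ (-(4 / 3) : ℝ) * (r ^ (-(1 / 6) : ℝ) * d) * (S ^ (1 / 2 : ℝ) * u) ≤
      9 * (S ^ (-(1 / 2) : ℝ) * (a * (x ^ (-(1 / 6) : ℝ) * d))) := by
  have hS0 : 0 < S := by linarith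
  have hu0 : 0 < u := by linarith
  have hr0 : 0 < r := by linarith
  have hC0 : 0 < C := by linarith
  have hE0 : 0 < E := by linarith
  -- `r u² = x S / (C E³)`
  have h1 : (r * u ^ 2) ^ (-(1 / 6) : ℝ) = (x * S) ^ (-(1 / 6) : ℝ) * (C * E ^ 3) ^ (1 / 6 : ℝ) := by
    have e : x * S = (r * u ^ 2) * (C * E ^ 3) := by rw [h]; ring
    have hCE : 0 < C * E ^ 3 := by positivity
    have e' : (C * E ^ 3) ^ (-(1 / 6) : ℝ) * (C * E ^ 3) ^ (1 / 6 : ℝ) = 1 := by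
      rw [← Real.rpow_add hCE]; norm_num
    rw [e, Real.mul_rpow (x := r * u ^ 2) (y := C * E ^ 3) (by positivity) hCE.le, mul_assoc, e',
      mul_one]
  have h2 : (r * u ^ 2) ^ (-(1 / 6) : ℝ) = r ^ (-(1 / 6) : ℝ) * u ^ (-(1 / 3) : ℝ) := by
    rw [Real.mul_rpow hr0.le (by positivity), ← Real.rpow_natCast, ← Real.rpow_mul hu0.le]
    norm_num
  have h3 : (C * E ^ 3) ^ (1 / 6 : ℝ) ≤ 9 * S ^ (1 / 2 : ℝ) := by
    rw [Real.mul_rpow hC0.le (by positivity), ← Real.rpow_natCast, ← Real.rpow_mul hE0.le]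
    have e1 : C ^ (1 / 6 : ℝ) ≤ 9 := by
      calc C ^ (1 / 6 : ℝ) ≤ C ^ (1 : ℝ) := Real.rpow_le_rpow_of_exponent_le hC (by norm_num)
        _ = C := Real.rpow_one C
        _ ≤ 9 := hC9
    have e2 : E ^ (((3 : ℕ) : ℝ) * (1 / 6)) ≤ S ^ (1 / 2 : ℝ) := by
      have : ((3 : ℕ) : ℝ) * (1 / 6) = 1 / 2 := by norm_num
      rw [this]
      gcongr
    gcongr
  have h4 : (S * u) ^ (-(4 / 3) : ℝ) * (S ^ (1 / 2 : ℝ) * u) =
      S ^ (-(5 / 6) : ℝ) * u ^ (-(1 / 3) : ℝ) := by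
    rw [Real.mul_rpow hS0.le hu0.le]
    have e1 : S ^ (-(4 / 3) : ℝ) * S ^ (1 / 2 : ℝ) = S ^ (-(5 / 6) : ℝ) := by
      rw [← Real.rpow_add hS0]; norm_num
    have e2 : u ^ (-(4 / 3) : ℝ) * u = u ^ (-(1 / 3) : ℝ) := by
      conv_lhs => rw [← Real.rpow_one u, ← Real.rpow_mul hu0.le, ← Real.rpow_add hu0]
      norm_num
    rw [← e1, ← e2]; ring
  have h5 : S ^ (-(5 / 6) : ℝ) * S ^ (-(1 / 6) : ℝ) * S ^ (1 / 2 : ℝ) = S ^ (-(1 / 2) : ℝ) := by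
    rw [← Real.rpow_add hS0, ← Real.rpow_add hS0]; norm_num
  calc a * (S * u) ^ (-(4 / 3) : ℝ) * (r ^ (-(1 / 6) : ℝ) * d) * (S ^ (1 / 2 : ℝ) * u)
      = ((S * u) ^ (-(4 / 3) : ℝ) * (S ^ (1 / 2 : ℝ) * u)) * (r ^ (-(1 / 6) : ℝ) * (a * d)) := by
        ring
    _ = S ^ (-(5 / 6) : ℝ) * (r ^ (-(1 / 6) : ℝ) * u ^ (-(1 / 3) : ℝ)) * (a * d) := by
        rw [h4]; ring
    _ = S ^ (-(5 / 6) : ℝ) * ((x * S) ^ (-(1 / 6) : ℝ) * (C * E ^ 3) ^ (1 / 6 : ℝ)) * (a * d) := by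
        rw [← h2, h1]
    _ ≤ S ^ (-(5 / 6) : ℝ) * ((x * S) ^ (-(1 / 6) : ℝ) * (9 * S ^ (1 / 2 : ℝ))) * (a * d) := by
        gcongr
    _ = 9 * ((S ^ (-(5 / 6) : ℝ) * S ^ (-(1 / 6) : ℝ) * S ^ (1 / 2 : ℝ)) *
        (a * (x ^ (-(1 / 6) : ℝ) * d))) := by
        rw [Real.mul_rpow hx.le hS0.le]; ring
    _ = _ := by rw [h5]

end Crest.Agent.R017.E4P939
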