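import Crest.Agent.R017.E4p15_939

/-!
# Row 17, block C70, leaf E4, case L (helper939): the polar terms, part 16

`polar_EL` : `HM5` at 164's joint dictionary, fixed symbol on the `y`-side.
-/

set_option autoImplicit false
set_option linter.unusedVariables false
set_option linter.unusedSectionVars false

noncomputable section

open Finset
open scoped ComplexConjugate

namespace Crest.Agent.R017.E4P939

open Crest.Agent.R012 Crest.Agent.R012.Eis Crest.Agent.R012.Mob705 Crest.Agent.R012.Gauss880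
open Crest.Agent.R017.Sx545 (Sm)
open Crest.Agent.R017.CM106 (FS)
open Crest.Agent.R017.PX764 (rho th Gh n6 cD)
open Crest.Agent.R017.E2440 (NoP TE)
open Crest.Agent.R017.C70
open Crest.Agent.R017.End699 (HC)
open Crest.Agent.R017.GrB829
open Crest.Agent.R017.E4352 (PrI SSm Dat4)
open Crest.Agent.R017.E4v5 (HM5)
open Crest.Agent.R017.E4K164 (dc dc_spec)
open Crest.Agent.R017.E4D164
open Crest.Agent.R017.E4ap783 (mtr PG)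
open Crest.Agent.R017.E5b54 (stj stj_spec)
open Crest.Agent.R017.DgA829 (lc lc_prim lc_dvd)

lemma sum_image_le' {α β : Type*} [DecidableEq β] (s : Finset α) (g : α → β) (F : β → ℝ)
    (hF : ∀ a ∈ s, 0 ≤ F (g a)) : ∑ t ∈ s.image g, F t ≤ ∑ a ∈ s, F (g a) := by
  rw [← Finset.sum_fiberwise_of_maps_to (s := s) (t := s.image g) (g := g)
    (fun a ha => Finset.mem_image_of_mem g ha) (fun a => F (g a))]
  refine Finset.sum_le_sum fun t ht => ?_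
  obtain ⟨a, ha, rfl⟩ := Finset.mem_image.mp ht
  exact Finset.single_le_sum (f := fun b => F (g b)) (fun b hb => hF b (Finset.mem_filter.mp hb).1)
    (Finset.mem_filter.mpr ⟨ha, rfl⟩)

variable {B : Type*} {M : Eis} {ψ : Eis → ℂ} {l : ℤ} {f : Eis}

/-- the T-sum -/
def TS (J : Finset (Eis × Eis)) (T : Eis × Eis → ℝ) : ℝ :=
  ∑ x ∈ J, T x ^ 2 * (nm x.2 : ℝ) ^ (-(1 / 3) : ℝ)

lemma TS_nonneg (J : Finset (Eis × Eis)) (T : Eis × Eis → ℝ) : 0 ≤ TS J T :=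
  Finset.sum_nonneg fun _ _ => by positivity

lemma norm_jC_le {s' : B → Eis} {c : B → Eis × Eis → ℂ} {T : Eis × Eis → ℝ}
    {Q : Finset B} {J : Finset (Eis × Eis)} (hJ : OKJ J)
    (hc : ∀ b ∈ Q, ∀ x ∈ J, ‖c b x‖ ≤ T x) {i : B × (Eis × Eis)} (hi : i ∈ Q ×ˢ J) :
    ‖jC s' c i‖ ≤ T i.2 := by
  obtain ⟨hb, hx⟩ := Finset.mem_product.mp hi
  unfold jC
  rw [norm_mul]
  have h1 : ‖sy (s' i.1) i.2.1‖ ≤ 1 := E2440.norm_sy_le1 (hJ.prim _ hx)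
  exact (mul_le_of_le_one_right (norm_nonneg _) h1).trans (hc _ hb _ hx)

lemma jc_ne {j : Eis} (hj : JC j) : j ≠ 0 := by
  obtain ⟨c, hc, j', hp, -, rfl⟩ := hj
  refine mul_ne_zero ?_ hp.ne_zero
  rcases hc with h | h | h | h <;> rw [h] <;> decide

/-- the first number of the joint family -/
lemma sum_B1_EL {Q : Finset B} {s' : B → Eis} (hs : ∀ b ∈ Q, IsPrim (s' b))
    {J : Finset (Eis × Eis)} (hJ : OKJ J) {c : B → Eis × Eis → ℂ} {T : Eis × Eis → ℝ}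
    (hc : ∀ b ∈ Q, ∀ x ∈ J, ‖c b x‖ ≤ T x) {V : ℝ}
    (hV : ∀ x ∈ J, (nm x.2 : ℝ) * nm x.1 ^ 2 ≤ V) :
    ∑ i ∈ Q ×ˢ J, B1 (jS s') jD (jJ s') (jC s' c) i *
        ((nm (jS s' i) : ℝ) ^ (1 / 2 : ℝ) * un (jJ s') i) ≤
      (∑ b ∈ Q, (nm (s' b) : ℝ) ^ (-(1 / 2) : ℝ)) * (V ^ (2 / 3 : ℝ) * TS J T) := by
  rw [Finset.sum_product, TS, Finset.mul_sum, Finset.sum_mul_sum]
  refine Finset.sum_le_sum fun b hb => Finset.sum_le_sum fun x hx => ?_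
  obtain ⟨E, h1, h2, h3, h4, C, h5, h6, h7⟩ := size_EL (i := (b, x)) (hs b hb) (hJ.jc x hx)
  have hx2 : (0 : ℝ) < nm x.2 := by exact_mod_cast nm_pos.mpr (jc_ne (hJ.jc x hx))
  have hx1 : (0 : ℝ) < nm x.1 := by exact_mod_cast nm_pos.mpr (hJ.prim x hx).ne_zero
  have k1 := B1_one (a := ‖jC s' c (b, x)‖ ^ 2) (S := nm (s' b)) (u := un (jJ s') (b, x))
    (r := rn (jJ s') (b, x)) (x := nm x.2) (d := (nm x.1 : ℝ) ^ (4 / 3 : ℝ)) (by positivity)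
    (nm_ge (hs b hb).ne_zero) h4 h3 hx2.le (by positivity) h5 h1 h7
  unfold B1
  refine k1.trans ?_
  refine mul_le_mul_of_nonneg_left ?_ (by positivity)
  have k2 := norm_jC_le (s' := s') hJ hc (Finset.mk_mem_product hb hx)
  have e1 : (nm x.2 : ℝ) ^ (1 / 3 : ℝ) * (nm x.1 : ℝ) ^ (4 / 3 : ℝ) =
      ((nm x.2 : ℝ) * nm x.1 ^ 2) ^ (2 / 3 : ℝ) * (nm x.2 : ℝ) ^ (-(1 / 3) : ℝ) := by
    rw [Real.mul_rpow hx2.le (by positivity), ← Real.rpow_natCast, ← Real.rpow_mul hx1.le,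
      mul_right_comm, ← Real.rpow_add hx2]
    norm_num
  have hVx : ((nm x.2 : ℝ) * nm x.1 ^ 2) ^ (2 / 3 : ℝ) ≤ V ^ (2 / 3 : ℝ) :=
    Real.rpow_le_rpow (by positivity) (hV x hx) (by norm_num)
  have hV0 : 0 ≤ V := le_trans (by positivity) (hV x hx)
  rw [e1]
  calc ‖jC s' c (b, x)‖ ^ 2 * (((nm x.2 : ℝ) * nm x.1 ^ 2) ^ (2 / 3 : ℝ) *
        (nm x.2 : ℝ) ^ (-(1 / 3) : ℝ))
      ≤ T x ^ 2 * (V ^ (2 / 3 : ℝ) * (nm x.2 : ℝ) ^ (-(1 / 3) : ℝ)) := by gcongr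
    _ = _ := by ring

/-- the second number of the joint family -/
lemma sum_B2_EL {Q : Finset B} {s' : B → Eis} (hs : ∀ b ∈ Q, IsPrim (s' b))
    {J : Finset (Eis × Eis)} (hJ : OKJ J) {c : B → Eis × Eis → ℂ} {T : Eis × Eis → ℝ}
    (hc : ∀ b ∈ Q, ∀ x ∈ J, ‖c b x‖ ≤ T x) {V : ℝ}
    (hV : ∀ x ∈ J, (nm x.2 : ℝ) * nm x.1 ^ 2 ≤ V) :
    ∑ i ∈ Q ×ˢ J, B2 (jS s') jD (jJ s') (jC s' c) i *
        ((nm (jS s' i) : ℝ) ^ (1 / 2 : ℝ) * un (jJ s') i) ≤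
      9 * ((∑ b ∈ Q, (nm (s' b) : ℝ) ^ (-(1 / 2) : ℝ)) * (V ^ (1 / 6 : ℝ) * TS J T)) := by
  rw [Finset.sum_product, TS, Finset.mul_sum, Finset.sum_mul_sum, Finset.mul_sum]
  refine Finset.sum_le_sum fun b hb => ?_
  rw [Finset.mul_sum]
  refine Finset.sum_le_sum fun x hx => ?_
  obtain ⟨E, h1, h2, h3, h4, C, h5, h6, h7⟩ := size_EL (i := (b, x)) (hs b hb) (hJ.jc x hx)
  have hx2 : (0 : ℝ) < nm x.2 := by exact_mod_cast nm_pos.mpr (jc_ne (hJ.jc x hx))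
  have hx1 : (0 : ℝ) < nm x.1 := by exact_mod_cast nm_pos.mpr (hJ.prim x hx).ne_zero
  have k1 := B2_one (a := ‖jC s' c (b, x)‖ ^ 2) (S := nm (s' b)) (u := un (jJ s') (b, x))
    (r := rn (jJ s') (b, x)) (x := nm x.2) (d := (nm x.1 : ℝ) ^ (1 / 3 : ℝ)) (by positivity)
    (nm_ge (hs b hb).ne_zero) h4 h3 hx2 (by positivity) h5 h6 h1 h2 h7
  unfold B2
  refine k1.trans ?_
  refine mul_le_mul_of_nonneg_left (mul_le_mul_of_nonneg_left ?_ (by positivity)) (by norm_num)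
  have k2 := norm_jC_le (s' := s') hJ hc (Finset.mk_mem_product hb hx)
  have e1 : (nm x.2 : ℝ) ^ (-(1 / 6) : ℝ) * (nm x.1 : ℝ) ^ (1 / 3 : ℝ) =
      ((nm x.2 : ℝ) * nm x.1 ^ 2) ^ (1 / 6 : ℝ) * (nm x.2 : ℝ) ^ (-(1 / 3) : ℝ) := by
    rw [Real.mul_rpow hx2.le (by positivity), ← Real.rpow_natCast, ← Real.rpow_mul hx1.le,
      mul_right_comm, ← Real.rpow_add hx2]
    norm_num
  have hVx : ((nm x.2 : ℝ) * nm x.1 ^ 2) ^ (1 / 6 : ℝ) ≤ V ^ (1 / 6 : ℝ) :=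
    Real.rpow_le_rpow (by positivity) (hV x hx) (by norm_num)
  have hV0 : 0 ≤ V := le_trans (by positivity) (hV x hx)
  rw [e1]
  calc ‖jC s' c (b, x)‖ ^ 2 * (((nm x.2 : ℝ) * nm x.1 ^ 2) ^ (1 / 6 : ℝ) *
        (nm x.2 : ℝ) ^ (-(1 / 3) : ℝ))
      ≤ T x ^ 2 * (V ^ (1 / 6 : ℝ) * (nm x.2 : ℝ) ^ (-(1 / 3) : ℝ)) := by gcongr
    _ = _ := by ring

lemma _root_.Crest.Agent.R017.E4D164.OKI.mono {A : Type*} {I J : Finset A} {s δ j : A → Eis} {c : A → ℂ}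
    (h : OKI J s δ j c) (hs : I ⊆ J) : OKI I s δ j c :=
  ⟨fun i hi => h.s i (hs hi), fun i hi => h.prim i (hs hi), fun i hi => h.sqf i (hs hi),
    fun i hi => h.jc i (hs hi), fun i hi => h.cop i (hs hi)⟩

lemma Mul.mono {A : Type*} {I J : Finset A} {s δ j : A → Eis} {c : A → ℂ} {m : ℕ}
    (h : Mul J s δ j c m) (hs : I ⊆ J) : Mul I s δ j c m :=
  fun i₀ S hS => h i₀ S fun i hi => ⟨hs (hS i hi).1, (hS i hi).2⟩

/-- **the sum over `o` at the joint family** -/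
theorem osum_EL {ψ : Eis → ℂ} (hψ : HC M ψ) {Q : Finset B} {s' s : B → Eis}
    (hs : ∀ b ∈ Q, IsPrim (s' b)) (hinj : Set.InjOn s Q)
    (hsd : ∀ b ∈ Q, IsPrim (s b) ∧ s b ∣ s' b) {J : Finset (Eis × Eis)} (hJ : OKJ J)
    {I : Finset (B × (Eis × Eis))} (hIQ : I ⊆ Q ×ˢ J)
    {c : B → Eis × Eis → ℂ} (hcc : ∀ b ∈ Q, ∀ x ∈ J, c b x ≠ 0 → IsCoprime x.2 x.1)
    {T : Eis × Eis → ℝ} (hc : ∀ b ∈ Q, ∀ x ∈ J, ‖c b x‖ ≤ T x) {m : ℕ}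
    (hm : ∀ b ∈ Q, Div277.tau (s' b) ≤ m) (hf : IsPrim f) {g : Eis} (hg : g ≠ 0) (c₀ : Eis)
    (N : ℕ) {Λ X V SQ L : ℝ} (hΛ : 0 ≤ Λ) (hV0 : 0 ≤ V)
    (hV : ∀ x ∈ J, (nm x.2 : ℝ) * nm x.1 ^ 2 ≤ V)
    (hsX : ∀ i ∈ I, (nm (jS s' i * (dc (jJ s' i)).2.2) : ℝ) ≤ X)
    (hSQ : ∑ b ∈ Q, (nm (s' b) : ℝ) ^ (-(1 / 2) : ℝ) ≤ SQ)
    (hL : ∑ ν ∈ primBall ⌊X⌋₊, (nm ν : ℝ)⁻¹ ≤ L) :
    ∑ o : OU M I (jS s') (jJ s'), (nm (o.1.1 * o.1.2) : ℝ) ^ (-(4 / 3) : ℝ) *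
        PW (vI M ψ l f I (jS s') jD (jJ s') (jC s' c) c₀ g o.1) N Λ ≤
      3 * (Real.sqrt m * Real.sqrt L * SQ) * (Real.sqrt (TS J T) *
        (Λ ^ (1 / 3 : ℝ) * V ^ (1 / 3 : ℝ) + Λ ^ (5 / 12 : ℝ) * V ^ (1 / 12 : ℝ))) := by
  classical
  have hI := (okI hs hJ hcc).mono hIQ
  have hTS := TS_nonneg J T
  have hSQ0 : 0 ≤ SQ := le_trans (Finset.sum_nonneg fun b _ => by positivity) hSQ
  have hL0 : 0 ≤ L := le_trans (Finset.sum_nonneg fun b _ => by positivity) hL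
  have h0 := osum_vI (l := l) (c₀ := c₀) hψ hI hf hg ((mul_EL hs hinj hsd hJ c hm).mono hIQ) N hΛ hsX
  refine h0.trans ?_
  have h1 : (∑ t ∈ I.image (jS s'), (nm t : ℝ) ^ (-(1 / 2) : ℝ)) ≤ SQ := by
    refine le_trans ?_ hSQ
    refine le_trans (Finset.sum_le_sum_of_subset_of_nonneg (t := Q.image s') ?_
      fun t _ _ => by positivity) (sum_image_le' Q s' (fun t => (nm t : ℝ) ^ (-(1 / 2) : ℝ))
        fun b _ => by positivity)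
    intro t ht
    obtain ⟨i, hi, rfl⟩ := Finset.mem_image.mp ht
    exact Finset.mem_image_of_mem s' (Finset.mem_product.mp (hIQ hi)).1
  have h2 : Real.sqrt ((∑ t ∈ I.image (jS s'), (nm t : ℝ) ^ (-(1 / 2) : ℝ)) *
      ∑ ν ∈ primBall ⌊X⌋₊, (nm ν : ℝ)⁻¹) ≤ Real.sqrt SQ * Real.sqrt L := by
    rw [← Real.sqrt_mul hSQ0]
    refine Real.sqrt_le_sqrt (mul_le_mul h1 hL (Finset.sum_nonneg fun b _ => by positivity) hSQ0)
  have hsub : ∀ {F : B × (Eis × Eis) → ℝ}, (∀ i, 0 ≤ F i) → ∑ i ∈ I, F i ≤ ∑ i ∈ Q ×ˢ J, F i :=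
    fun {F} hF => Finset.sum_le_sum_of_subset_of_nonneg hIQ fun i _ _ => hF i
  have hsq : ∀ {a κ : ℝ}, 0 ≤ a → V ^ κ * a = (V ^ (κ / 2)) ^ 2 * a := by
    intro a κ _
    rw [← Real.rpow_natCast, ← Real.rpow_mul hV0]
    congr 2
    push_cast; ring
  have h3 : Real.sqrt (∑ i ∈ I, B1 (jS s') jD (jJ s') (jC s' c) i *
        ((nm (jS s' i) : ℝ) ^ (1 / 2 : ℝ) * un (jJ s') i)) ≤
      Real.sqrt SQ * (V ^ (1 / 3 : ℝ) * Real.sqrt (TS J T)) := by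
    refine (Real.sqrt_le_sqrt ((hsub fun i => by
      have := B1_nonneg (s := jS s') (δ := jD) (j := jJ s') (c := jC s' c) i; unfold un; positivity).trans ((sum_B1_EL hs hJ hc hV).trans
      (mul_le_mul_of_nonneg_right hSQ (by positivity))))).trans (le_of_eq ?_)
    rw [Real.sqrt_mul hSQ0, hsq hTS, Real.sqrt_mul (by positivity), Real.sqrt_sq (by positivity)]
    norm_num
  have h4 : Real.sqrt (∑ i ∈ I, B2 (jS s') jD (jJ s') (jC s' c) i *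
        ((nm (jS s' i) : ℝ) ^ (1 / 2 : ℝ) * un (jJ s') i)) ≤
      3 * (Real.sqrt SQ * (V ^ (1 / 12 : ℝ) * Real.sqrt (TS J T))) := by
    refine (Real.sqrt_le_sqrt ((hsub fun i => by
      have := B2_nonneg (s := jS s') (δ := jD) (j := jJ s') (c := jC s' c) i; unfold un; positivity).trans ((sum_B2_EL hs hJ hc hV).trans
      (mul_le_mul_of_nonneg_left (mul_le_mul_of_nonneg_right hSQ (by positivity))
        (by norm_num))))).trans (le_of_eq ?_)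
    rw [Real.sqrt_mul (by norm_num), Real.sqrt_mul hSQ0, hsq hTS, Real.sqrt_mul (by positivity),
      Real.sqrt_sq (by positivity), show (9 : ℝ) = 3 ^ 2 by norm_num,
      Real.sqrt_sq (by norm_num)]
    norm_num
  have hsqs : Real.sqrt SQ * Real.sqrt SQ = SQ := Real.mul_self_sqrt hSQ0
  calc Real.sqrt m * Real.sqrt ((∑ t ∈ I.image (jS s'), (nm t : ℝ) ^ (-(1 / 2) : ℝ)) *
        ∑ ν ∈ primBall ⌊X⌋₊, (nm ν : ℝ)⁻¹) *
      (Λ ^ (1 / 3 : ℝ) * Real.sqrt (∑ i ∈ I, B1 (jS s') jD (jJ s') (jC s' c) i *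
        ((nm (jS s' i) : ℝ) ^ (1 / 2 : ℝ) * un (jJ s') i)) +
        Λ ^ (5 / 12 : ℝ) * Real.sqrt (∑ i ∈ I, B2 (jS s') jD (jJ s') (jC s' c) i *
        ((nm (jS s' i) : ℝ) ^ (1 / 2 : ℝ) * un (jJ s') i)))
      ≤ Real.sqrt m * (Real.sqrt SQ * Real.sqrt L) *
      (Λ ^ (1 / 3 : ℝ) * (Real.sqrt SQ * (V ^ (1 / 3 : ℝ) * Real.sqrt (TS J T))) +
        Λ ^ (5 / 12 : ℝ) * (3 * (Real.sqrt SQ * (V ^ (1 / 12 : ℝ) * Real.sqrt (TS J T))))) := by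
        gcongr
    _ = (Real.sqrt m * Real.sqrt L * (Real.sqrt SQ * Real.sqrt SQ)) * (Real.sqrt (TS J T) *
        (Λ ^ (1 / 3 : ℝ) * V ^ (1 / 3 : ℝ) + 3 * (Λ ^ (5 / 12 : ℝ) * V ^ (1 / 12 : ℝ)))) := by ring
    _ ≤ (Real.sqrt m * Real.sqrt L * (Real.sqrt SQ * Real.sqrt SQ)) * (Real.sqrt (TS J T) *
        (3 * (Λ ^ (1 / 3 : ℝ) * V ^ (1 / 3 : ℝ)) +
          3 * (Λ ^ (5 / 12 : ℝ) * V ^ (1 / 12 : ℝ)))) := by
        have : 0 ≤ Λ ^ (1 / 3 : ℝ) * V ^ (1 / 3 : ℝ) := by positivity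
        refine mul_le_mul_of_nonneg_left (mul_le_mul_of_nonneg_left ?_ (Real.sqrt_nonneg _))
          (by positivity)
        linarith
    _ = _ := by rw [hsqs]; ring

end Crest.Agent.R017.E4P939
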