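import Crest.Agent.R017.E4p16_939

/-!
# Row 17, block C70, leaf E4, case L (helper939): the polar terms, part 17

`polar_gen`, `polar_EL` : `HM5` at 164's joint dictionary.
-/

set_option autoImplicit false
set_option linter.unusedVariables false
set_option linter.unusedSectionVars false

noncomputable section

open Finset
open scoped ComplexConjugate

namespace Crest.Agent.R017.E4P939

open Crest.Agent.R012 Crest.Agent.R012.Eis Crest.Agent.R012.Mob705 Crest.Agent.R012.Gauss880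
open Crest.Agent.R017.Sx545 (Sm)
open Crest.Agent.R017.CM106 (FS)
open Crest.Agent.R017.PX764 (rho th Gh n6 cD)
open Crest.Agent.R017.E2440 (NoP TE)
open Crest.Agent.R017.C70
open Crest.Agent.R017.End699 (HC)
open Crest.Agent.R017.GrB829
open Crest.Agent.R017.E4352 (PrI SSm Dat4)
open Crest.Agent.R017.E4v5 (HM5)
open Crest.Agent.R017.E4K164 (dc dc_spec)
open Crest.Agent.R017.E4D164
open Crest.Agent.R017.E4ap783 (mtr PG)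
open Crest.Agent.R017.E5b54 (stj stj_spec)
open Crest.Agent.R017.DgA829 (lc lc_prim lc_dvd)

/-- sup norm of the `y`-side sequence -/
lemma norm_wI_le {M z : Eis} {b₁ b₂ : Eis → ℂ} (h₁ : FS b₁) (h₂ : FS b₂) (hz : PrI M z)
    {Cw : ℝ} (hCw0 : 0 ≤ Cw) (hcw : ∀ n m, ‖b₁ n‖ * ‖b₂ m‖ ≤ Cw) (o : Eis × Eis) {Y : Eis}
    (hY : Sm M Y) :
    ‖wI M b₁ b₂ (h₁.fin.toFinset ×ˢ h₂.fin.toFinset) z o Y‖ ≤ Div277.tau (z * Y) * Cw := by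
  classical
  set L := h₁.fin.toFinset ×ˢ h₂.fin.toFinset with hL
  have hLp : ∀ p ∈ L, IsPrim p.1 ∧ IsPrim p.2 := by
    intro p hp
    rw [hL, Finset.mem_product, Set.Finite.mem_toFinset, Set.Finite.mem_toFinset] at hp
    exact ⟨h₁.prim _ hp.1, h₂.prim _ hp.2⟩
  have hzY : IsPrim (z * Y) := hz.1.mul hY.1
  unfold wI ww pu
  rw [if_pos hY]
  set S := L.filter (fun p => p.1 * p.2 ^ 2 = z * Y) with hS
  have hcard : S.card ≤ Div277.tau (z * Y) := by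
    have hinj : Set.InjOn (fun p : Eis × Eis => p.2) S := by
      intro p hp q hq h
      have h1 := (Finset.mem_filter.mp (Finset.mem_coe.mp hp))
      have h2 := (Finset.mem_filter.mp (Finset.mem_coe.mp hq))
      have h3 : p.2 = q.2 := h
      have h4 : p.1 * p.2 ^ 2 = q.1 * p.2 ^ 2 := by rw [h1.2, h3, h2.2]
      exact Prod.ext (mul_right_cancel₀ (pow_ne_zero 2 (hLp _ h1.1).2.ne_zero) h4) h3
    rw [← Finset.card_image_of_injOn hinj]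
    refine Finset.card_le_card fun t ht => ?_
    obtain ⟨p, hp, rfl⟩ := Finset.mem_image.mp ht
    obtain ⟨h1, h2⟩ := Finset.mem_filter.mp hp
    rw [Div277.mem_dvs hzY.ne_zero]
    exact ⟨(hLp _ h1).2, ⟨p.1 * p.2, by rw [← h2]; ring⟩⟩
  refine (norm_sum_le _ _).trans ((Finset.sum_le_sum (g := fun _ => Cw) fun p hp => ?_).trans ?_)
  · obtain ⟨h1, h2⟩ := Finset.mem_filter.mp hp
    exact (norm_cb_le (hLp _ h1).1 (hLp _ h1).2).trans (hcw _ _)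
  · rw [Finset.sum_const, nsmul_eq_mul]
    exact mul_le_mul_of_nonneg_right (by exact_mod_cast hcard) hCw0

/-- `HM5` is monotone in the number -/
lemma HM5.mono {M f : Eis} {O : Type} [Fintype O] {lam : O → ℝ} {v w : O → Eis → ℂ} {K T₀ : ℝ}
    {mt : Eis → ℝ → ℂ} {Mn Mn' : ℝ} (h : HM5 M f lam v w K T₀ mt Mn) (hM : Mn ≤ Mn') :
    HM5 M f lam v w K T₀ mt Mn' := by
  intro R Z q₁ q₃ F h1 h2 h3 h4 h5 h6 h7 h8 h9 h10 h11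
  exact (h R Z q₁ q₃ F h1 h2 h3 h4 h5 h6 h7 h8 h9 h10 h11).trans hM

lemma sum_inv_X {ε : ℝ} (hε : 0 < ε) : ∃ C : ℝ, 0 < C ∧ ∀ X : ℝ, 1 ≤ X →
    ∑ ν ∈ primBall ⌊X⌋₊, (nm ν : ℝ)⁻¹ ≤ C * X ^ ε := by
  refine ⟨100 * (1 + 1 / ε), by positivity, fun X hX => ?_⟩
  have hX0 : 0 < X := by linarith
  have h1 := Div277.sum_inv_primBall_le ⌊X⌋₊
  have h2 : ∑ ν ∈ primBall ⌊X⌋₊, (nm ν : ℝ)⁻¹ ≤ 100 * (1 + Real.log (⌊X⌋₊ : ℝ)) := by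
    simpa [one_div] using h1
  refine h2.trans ?_
  have hfl : (1 : ℝ) ≤ ⌊X⌋₊ := by exact_mod_cast (Nat.one_le_floor_iff X).mpr hX
  have h3 : Real.log (⌊X⌋₊ : ℝ) ≤ Real.log X :=
    Real.log_le_log (by linarith) (Nat.floor_le hX0.le)
  have h4 : Real.log X ≤ X ^ ε / ε := Real.log_le_rpow_div hX0.le hε
  have h5 : 1 ≤ X ^ ε := Real.one_le_rpow hX hε.le
  calc 100 * (1 + Real.log (⌊X⌋₊ : ℝ)) ≤ 100 * (X ^ ε + X ^ ε / ε) := by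
        gcongr
        exact h3.trans h4
    _ = _ := by ring

/-- **the polar terms at the joint dictionary** -/
theorem polar_gen {ε : ℝ} (hε : 0 < ε) : ∃ C : ℝ, 0 < C ∧ ∀ (M m0 f : Eis) (ψ : Eis → ℂ) (l : ℤ)
    (B : Type) (Q : Finset B) (s' s : B → Eis) (J : Finset (Eis × Eis)) (c : B → Eis × Eis → ℂ)
    (T : Eis × Eis → ℝ) (I : Finset (B × (Eis × Eis))) (c₀ g z : Eis) (b₁ b₂ : Eis → ℂ) (h₁ : FS b₁) (h₂ : FS b₂)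
    (X K T₀ V SQ Λ Cw : ℝ), HC M ψ → NoP M m0 → Sm M f → (nm f : ℝ) ≤ X → PrI M g → PrI M z →
    (∀ b ∈ Q, IsPrim (s' b) ∧ (nm (s' b) : ℝ) ≤ X) → Set.InjOn s Q →
    (∀ b ∈ Q, IsPrim (s b) ∧ s b ∣ s' b) → OKJ J → I ⊆ Q ×ˢ J →
    (∀ b ∈ Q, ∀ x ∈ J, c b x ≠ 0 → IsCoprime x.2 x.1) → (∀ b ∈ Q, ∀ x ∈ J, ‖c b x‖ ≤ T x) →
    0 ≤ V → (∀ x ∈ J, (nm x.2 : ℝ) * nm x.1 ^ 2 ≤ V) →
    (∀ i ∈ I, (nm (jS s' i * (dc (jJ s' i)).2.2) : ℝ) ≤ X) →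
    ∑ b ∈ Q, (nm (s' b) : ℝ) ^ (-(1 / 2) : ℝ) ≤ SQ → 0 ≤ K → 0 ≤ Λ → 0 ≤ Cw →
    (∀ n m, ‖b₁ n‖ * ‖b₂ m‖ ≤ Cw) → (∀ n m, b₁ n ≠ 0 → b₂ m ≠ 0 → (nm (n * m ^ 2) : ℝ) ≤ X) →
    (∀ n m, b₁ n ≠ 0 → b₂ m ≠ 0 → (nm n : ℝ) ^ 2 * nm m ≤ Λ) →
    Dat4 M 1 (O := OU M I (jS s') (jJ s')) (fun o => (nm (o.1.1 * o.1.2) : ℝ))
      (fun o => vI M ψ l f I (jS s') jD (jJ s') (jC s' c) c₀ g o.1)
      (fun o => mulw f (wI M b₁ b₂ (h₁.fin.toFinset ×ˢ h₂.fin.toFinset) z o.1)) X →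
    HM5 M 1 (O := OU M I (jS s') (jJ s')) (fun o => (nm (o.1.1 * o.1.2) : ℝ))
      (fun o => vI M ψ l f I (jS s') jD (jJ s') (jC s' c) c₀ g o.1)
      (fun o => mulw f (wI M b₁ b₂ (h₁.fin.toFinset ×ˢ h₂.fin.toFinset) z o.1)) K T₀
      (mtr (some m0))
      (C * X ^ ε * (K ^ (4 / 3 : ℝ) * (Cw * SQ * (Real.sqrt (TS J T) *
        (Λ ^ (1 / 3 : ℝ) * V ^ (1 / 3 : ℝ) + Λ ^ (5 / 12 : ℝ) * V ^ (1 / 12 : ℝ)))))) := by
  obtain ⟨K1, hK1, hm5⟩ := hm5_w (ε := ε / 4) (by positivity)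
  obtain ⟨C2, hC2, htau⟩ := Div277.tau_le_rpow (ε := ε / 4) (by positivity)
  obtain ⟨C3, hC3, hinv⟩ := sum_inv_X (ε := ε / 4) (by positivity)
  refine ⟨K1 * C2 * (3 * ((C2 + 1) * (C3 + 1))), by positivity, ?_⟩
  intro M m0 f ψ l B Q s' s J c T I c₀ g z b₁ b₂ h₁ h₂ X K T₀ V SQ Λ Cw hψ hm0 hf hfX hg hz hs' hinj
    hsd hJ hIQ hcc hc hV0 hV hsX hSQ hK hΛ hCw0 hcw hN hΛ2 hD
  have hX := hD.X1
  have hX0 : 0 < X := by linarith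
  have hC20 : 0 < C2 := by linarith
  have hX4 : 1 ≤ X ^ (ε / 4) := Real.one_le_rpow hX (by positivity)
  have hSQ0 : 0 ≤ SQ := le_trans (Finset.sum_nonneg fun b _ => by positivity) hSQ
  set L := h₁.fin.toFinset ×ˢ h₂.fin.toFinset with hL
  have hLm : ∀ p ∈ L, b₁ p.1 ≠ 0 ∧ b₂ p.2 ≠ 0 := by
    intro p hp
    rw [hL, Finset.mem_product, Set.Finite.mem_toFinset, Set.Finite.mem_toFinset] at hp
    exact hp
  -- the multiplicity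
  set m : ℕ := ⌊C2 * X ^ (ε / 4)⌋₊ with hm
  have hmb : ∀ b ∈ Q, Div277.tau (s' b) ≤ m := by
    intro b hb
    obtain ⟨h3, h4⟩ := hs' b hb
    refine Nat.le_floor ((htau _ h3.ne_zero).trans ?_)
    gcongr
  have hmle : (m : ℝ) ≤ C2 * X ^ (ε / 4) := Nat.floor_le (by positivity)
  -- the `y`-side
  have hw : ∀ (o : OU M I (jS s') (jJ s')) (y : Eis), wI M b₁ b₂ L z o.1 y ≠ 0 →
      (nm y : ℝ) ≤ X ∧ ‖wI M b₁ b₂ L z o.1 y‖ ≤ C2 * X ^ (ε / 4) * Cw ∧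
        ∃ z l m : Eis, z ≠ 0 ∧ l ≠ 0 ∧ m ≠ 0 ∧
      IsCoprime z y ∧ z * y = l * m ^ 2 ∧ (nm l : ℝ) ^ 2 * nm m ≤ Λ := by
    intro o y hy
    obtain ⟨k1, p, hp, k2, k3, k4⟩ := wI_ne hy
    have k5 : (nm (z * y) : ℝ) ≤ X := by rw [← k2]; exact hN _ _ k3 k4
    have hz0 := hz.1.ne_zero
    have k6 : (nm y : ℝ) ≤ nm (z * y) := by
      exact_mod_cast Div277.nm_le_of_dvd (mul_ne_zero hz0 k1.1.ne_zero) (dvd_mul_left _ _)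
    refine ⟨k6.trans k5, ?_, z, p.1, p.2, hz0, ?_, ?_, cop_PrI hz k1.2, k2.symm,
      hΛ2 _ _ k3 k4⟩
    · refine (norm_wI_le h₁ h₂ hz hCw0 hcw o.1 k1).trans ?_
      refine mul_le_mul_of_nonneg_right ((htau _ (mul_ne_zero hz0 k1.1.ne_zero)).trans ?_) hCw0
      gcongr
    · exact (h₁.prim _ k3).ne_zero
    · exact (h₂.prim _ k4).ne_zero
  have h0 := hm5 M m0 1 f (OU M I (jS s') (jJ s')) _ (fun o => (nm (o.1.1 * o.1.2) : ℝ))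
      (fun o => vI M ψ l f I (jS s') jD (jJ s') (jC s' c) c₀ g o.1)
      (fun o => wI M b₁ b₂ L z o.1) X K T₀ (C2 * X ^ (ε / 4) * Cw) Λ 1 hm0 hf hfX hD
      (fun o => ssm_wI hψ.q0 h₁ h₂ hz) hK (by positivity) hΛ hw
  have e1 : (fun (u : Eis) (Q : ℝ) => (1 : ℂ) * conj (rho (m0 * u)) *
      ((Q ^ (4 / 3 : ℝ) : ℝ) : ℂ)) = mtr (some m0) := by
    funext u Q
    simp only [mtr, one_mul]
  rw [e1] at h0
  refine HM5.mono h0 ?_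
  have hTS := TS_nonneg J T
  have h5 := osum_EL (l := l) (B := B) hψ (fun b hb => (hs' b hb).1) hinj hsd hJ hIQ hcc hc hmb hf.1
    hg.1.ne_zero c₀ ⌊X⌋₊ hΛ hV0 hV hsX hSQ (hinv X hX)
  have h6 : Real.sqrt m * Real.sqrt (C3 * X ^ (ε / 4)) ≤
      (C2 + 1) * (C3 + 1) * (X ^ (ε / 4) * X ^ (ε / 4)) := by
    have hsq : ∀ {a : ℝ}, 1 ≤ a → Real.sqrt a ≤ a := fun {a} ha => by
      rw [Real.sqrt_le_left (by linarith)]
      nlinarith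
    have g1 : Real.sqrt m ≤ (C2 + 1) * X ^ (ε / 4) := by
      refine (Real.sqrt_le_sqrt (hmle.trans (mul_le_mul_of_nonneg_right
        (show C2 ≤ C2 + 1 by linarith) (by positivity)))).trans (hsq ?_)
      nlinarith
    have g2 : Real.sqrt (C3 * X ^ (ε / 4)) ≤ (C3 + 1) * X ^ (ε / 4) := by
      refine (Real.sqrt_le_sqrt (mul_le_mul_of_nonneg_right
        (show C3 ≤ C3 + 1 by linarith) (by positivity))).trans (hsq ?_)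
      nlinarith
    calc Real.sqrt m * Real.sqrt (C3 * X ^ (ε / 4))
        ≤ ((C2 + 1) * X ^ (ε / 4)) * ((C3 + 1) * X ^ (ε / 4)) := by gcongr
      _ = _ := by ring
  have hpw : X ^ (ε / 4) * X ^ (ε / 4) * X ^ (ε / 4) * X ^ (ε / 4) = X ^ ε := by
    rw [← Real.rpow_add hX0, ← Real.rpow_add hX0, ← Real.rpow_add hX0]
    congr 1; ring
  set G := Real.sqrt (TS J T) *
        (Λ ^ (1 / 3 : ℝ) * V ^ (1 / 3 : ℝ) + Λ ^ (5 / 12 : ℝ) * V ^ (1 / 12 : ℝ)) with hG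
  have hG0 : 0 ≤ G := by positivity
  calc K1 * X ^ (ε / 4) * (‖(1 : ℂ)‖ * K ^ (4 / 3 : ℝ) * (C2 * X ^ (ε / 4) * Cw *
        ∑ o : OU M I (jS s') (jJ s'), (nm (o.1.1 * o.1.2) : ℝ) ^ (-(4 / 3) : ℝ) *
        PW (vI M ψ l f I (jS s') jD (jJ s') (jC s' c) c₀ g o.1) ⌊X⌋₊ Λ))
      ≤ K1 * X ^ (ε / 4) * (1 * K ^ (4 / 3 : ℝ) * (C2 * X ^ (ε / 4) * Cw *
        (3 * (Real.sqrt m * Real.sqrt (C3 * X ^ (ε / 4)) * SQ) * G))) := by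
        rw [norm_one]
        gcongr
    _ ≤ K1 * X ^ (ε / 4) * (1 * K ^ (4 / 3 : ℝ) * (C2 * X ^ (ε / 4) * Cw *
        (3 * ((C2 + 1) * (C3 + 1) * (X ^ (ε / 4) * X ^ (ε / 4)) * SQ) * G))) := by
        gcongr
    _ = K1 * C2 * (3 * ((C2 + 1) * (C3 + 1))) *
        (X ^ (ε / 4) * X ^ (ε / 4) * X ^ (ε / 4) * X ^ (ε / 4)) *
        (K ^ (4 / 3 : ℝ) * (Cw * SQ * G)) := by ring
    _ = _ := by rw [hpw]

end Crest.Agent.R017.E4P939
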