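import Crest.Agent.R017.E4d_579
import Crest.Agent.R017.E2d_440
import Crest.Agent.R017.C70Defs_54
import Crest.Agent.R012.BilG_811
import Crest.Agent.R012.LS2Main_448
import Crest.Agent.R012.GLS_106

/-!
# Row 17, block C70, leaf E4, case L (helper939): the polar terms

`pol_bil` : Heath-Brown bound for `Σ_x Σ_y A x C y conj (rho (κ x y))`, `A`, `C` arbitrary finitely
supported on primary elements, `x` cube-free.
-/

set_option autoImplicit false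
set_option linter.unusedVariables false
set_option linter.unusedSectionVars false

noncomputable section

open Finset
open scoped ComplexConjugate

namespace Crest.Agent.R017.E4P939

open Crest.Agent.R012 Crest.Agent.R012.Eis Crest.Agent.R012.Mob705 Crest.Agent.R012.Gauss880
open Crest.Agent.R012.GaussLoc283 (isCoprime_iff_not_dvd)
open Crest.Agent.R012.LS2 (S mem_S)
open Crest.Agent.R012.BilG811 (hbB Sq bil_ls hbB_nonneg)
open Crest.Agent.R012.Tau85 (TP cp)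
open Crest.Agent.R017.Sx545 (Sm)
open Crest.Agent.R017.PX764 (rho th Gh n6 cD)
open Crest.Agent.R017.CM106 (FS)
open Crest.Agent.R017.E2440 (NoP)
open Crest.Agent.R017.E4579 (SupB exists_bp bp_unique)
open Crest.Agent.R017.C70 (CbF)

lemma rho_eq_th (h : Eis) : rho h = (cD : ℂ) * th h := by
  unfold PX764.th
  rw [mul_div_assoc', mul_div_cancel_left₀ _ PX764.cD_ne]

lemma rho_ne {h : Eis} (h0 : rho h ≠ 0) : th h ≠ 0 := by
  intro h1
  apply h0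
  rw [rho_eq_th, h1, mul_zero]

lemma rho_cube {k : Eis} (hk : IsPrim k) (h : Eis) : rho (h * k ^ 3) = rho h := by
  rw [rho_eq_th, rho_eq_th, PX764.th_cube hk]

lemma exists_TP {M h k : Eis} (H : NoP M h) (hk : Sm M k) (h0 : th (h * k) ≠ 0) :
    ∃ q ∈ TP, cp q = k := by
  by_contra hc
  push Not at hc
  exact h0 (E2440.th_eq_zero_of_not_TP H hk hc)

/-- the structure of the pairs `(x, y)` with `rho (κ x y) ≠ 0` -/
lemma rho_str {κ x y : Eis} (hκ : NoP 1 κ) (hx : IsPrim x) (hy : IsPrim y) (hc : CbF x)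
    (h0 : rho (κ * x * y) ≠ 0) :
    ∃ x0 r y0 y' c : Eis, IsPrim x0 ∧ IsPrim r ∧ IsPrim y0 ∧ IsPrim y' ∧ IsPrim c ∧
      x = x0 * r ∧ y = y0 * c ^ 3 * y' ∧ SupB x0 y0 ∧ SupB y0 x0 ∧ Squarefree r ∧
      Squarefree y' ∧ IsCoprime r x0 ∧ IsCoprime r (y0 * c ^ 3 * y') ∧
      IsCoprime (c ^ 3 * y') (x0 * r) := by
  have ht := rho_ne h0
  obtain ⟨x0, r, hx0, hr, hxe, hs, hco⟩ := exists_bp hy _ le_rfl hx
  obtain ⟨y0, z, hy0, hz, hye, hs', hco'⟩ := exists_bp hx _ le_rfl hy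
  -- supports
  have hS1 : SupB y0 x0 := by
    intro p hp hpy
    have h1 := hs' p hp hpy
    rw [hxe] at h1
    rcases hp.dvd_or_dvd h1 with h2 | h2
    · exact h2
    · exact absurd (hco.isUnit_of_dvd' h2 (hye ▸ hpy.mul_right z)) hp.not_isUnit
  have hS2 : SupB x0 y0 := by
    intro p hp hpx
    have h1 := hs p hp hpx
    rw [hye] at h1
    rcases hp.dvd_or_dvd h1 with h2 | h2
    · exact h2
    · exact absurd (hco'.isUnit_of_dvd' h2 (hxe ▸ hpx.mul_right r)) hp.not_isUnit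
  -- the part of `y` prime to `x`
  have hN1 : NoP x (κ * x * y0) := by
    refine ⟨mul_ne_zero (mul_ne_zero hκ.1 hx.ne_zero) hy0.ne_zero, fun p hp hpS hd => ?_⟩
    have hpx : ¬ p ∣ x := fun h => hp.not_isUnit (hpS.2.isUnit_of_dvd' dvd_rfl h)
    rcases hp.dvd_or_dvd hd with h1 | h1
    · rcases hp.dvd_or_dvd h1 with h2 | h2
      · exact hκ.2 p hp ⟨hpS.1, isCoprime_one_right⟩ h2
      · exact hpx h2
    · exact hpx (hs' p hp h1)
  obtain ⟨⟨y', c⟩, hq, hqz⟩ := exists_TP hN1 (k := z) ⟨hz, hco'⟩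
    (by rw [show κ * x * y0 * z = κ * x * y by rw [hye]; ring]; exact ht)
  have hqz' : z = c ^ 3 * y' := by rw [← hqz]; unfold Tau85.cp; ring
  -- the part of `x` prime to `y`
  have hN2 : NoP y (κ * x0 * y) := by
    refine ⟨mul_ne_zero (mul_ne_zero hκ.1 hx0.ne_zero) hy.ne_zero, fun p hp hpS hd => ?_⟩
    have hpy : ¬ p ∣ y := fun h => hp.not_isUnit (hpS.2.isUnit_of_dvd' dvd_rfl h)
    rcases hp.dvd_or_dvd hd with h1 | h1
    · rcases hp.dvd_or_dvd h1 with h2 | h2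
      · exact hκ.2 p hp ⟨hpS.1, isCoprime_one_right⟩ h2
      · exact hpy (hs p hp h2)
    · exact hpy h1
  obtain ⟨⟨d, e⟩, hq2, hq2z⟩ := exists_TP hN2 (k := r) ⟨hr, hco⟩
    (by rw [show κ * x0 * y * r = κ * x * y by rw [hxe]; ring]; exact ht)
  have hre : r = d * e ^ 3 := by rw [← hq2z]; rfl
  have he : e = 1 := by
    by_contra hne
    obtain ⟨p, hp, hpe⟩ : ∃ p, Prime p ∧ p ∣ e := by
      obtain ⟨p, hp, hpd⟩ := WfDvdMonoid.exists_irreducible_factor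
        (a := e) (fun hu => hne (IsPrim.eq_of_associated hq2.2.2 isPrim_one
          (associated_one_iff_isUnit.mpr hu))) (IsPrim.ne_zero hq2.2.2)
      exact ⟨p, hp.prime, hpd⟩
    refine hc p hp ?_
    rw [hxe, hre]
    exact (pow_dvd_pow_of_dvd hpe 3).trans ⟨x0 * d, by ring⟩
  have hrs : Squarefree r := by
    rw [hre, he, one_pow, mul_one]; exact hq2.2.1
  refine ⟨x0, r, y0, y', c, hx0, hr, hy0, hq.1, hq.2.2, hxe, by rw [hye, hqz']; ring, hS2, hS1,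
    hrs, hq.2.1, ?_, ?_, ?_⟩
  · have h1 : IsCoprime x0 r := E4579.SupB.cop hx0 hs hco
    exact h1.symm
  · have : y0 * c ^ 3 * y' = y := by rw [hye, hqz']; ring
    rw [this]; exact hco
  · rw [← hqz', ← hxe]; exact hco'

/-- the value on the structured pairs -/
lemma rho_val {κ x0 r y0 y' c : Eis} (hr : IsPrim r) (hrs : Squarefree r) (hy' : IsPrim y')
    (hys : Squarefree y') (hc : IsPrim c) (h1 : IsCoprime (κ * x0 * y0) r)
    (h2 : IsCoprime (κ * x0 * y0 * r) y') :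
    conj (rho (κ * (x0 * r) * (y0 * c ^ 3 * y'))) = conj (rho (κ * x0 * y0)) *
      (((n6 r : ℝ) : ℂ) * Gh (κ * x0 * y0) r) * (((n6 y' : ℝ) : ℂ) * Gh (κ * x0 * y0) y') *
      conj (sy r y') := by
  rw [show κ * (x0 * r) * (y0 * c ^ 3 * y') = (κ * x0 * y0 * r * y') * c ^ 3 by ring, rho_cube hc,
    PX764.rho_mul hy' _ hys h2, PX764.rho_mul hr _ hrs h1]
  have e : Gh (κ * x0 * y0 * r) y' = Gh (κ * x0 * y0) y' * conj (sy r y') := by
    unfold PX764.Gh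
    rw [syG.mul_left _ r y' hy', map_mul]
    ring
  rw [e]
  simp only [map_mul, Complex.conj_conj, Complex.conj_ofReal]
  ring

open Classical in
/-- the index set `(x₀, y₀, c)` -/
def IP (X Y : ℝ) : Finset (Eis × Eis × Eis) :=
  (primBall ⌊X⌋₊ ×ˢ primBall ⌊Y⌋₊ ×ˢ primBall ⌊Y⌋₊).filter fun i =>
    SupB i.1 i.2.1 ∧ SupB i.2.1 i.1 ∧ IsCoprime i.2.2 i.1

open Classical in
/-- the `x`-coefficients -/
def bA (κ : Eis) (A : Eis → ℂ) (i : Eis × Eis × Eis) (r : Eis) : ℂ :=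
  if IsCoprime r i.2.2 then A (i.1 * r) * (((n6 r : ℝ) : ℂ) * Gh (κ * i.1 * i.2.1) r) else 0

/-- the `y`-coefficients -/
def bC (κ : Eis) (C : Eis → ℂ) (i : Eis × Eis × Eis) (y : Eis) : ℂ :=
  C (i.2.1 * i.2.2 ^ 3 * y) * (((n6 y : ℝ) : ℂ) * Gh (κ * i.1 * i.2.1) y)

lemma Gh_ne {h a : Eis} (ha : IsPrim a) (h0 : Gh h a ≠ 0) : Squarefree a ∧ IsCoprime h a := by
  constructor
  · by_contra hs
    exact h0 (PX764.Gh_not_sqf ha hs)
  · by_contra hs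
    exact h0 (PX764.Gh_zero ha hs)

lemma sy_ne {a b : Eis} (hb : IsPrim b) (h0 : sy a b ≠ 0) : IsCoprime a b := by
  by_contra hs
  exact h0 ((syG.eq_zero a b hb).mpr hs)

open Classical in
/-- **the decomposition** -/
theorem pol_id {X Y : ℝ} {κ : Eis} (hκ : NoP 1 κ) {A C : Eis → ℂ} (hA : FS A) (hC : FS C)
    (hAX : ∀ x, A x ≠ 0 → CbF x ∧ (nm x : ℝ) ≤ X) (hCY : ∀ y, C y ≠ 0 → (nm y : ℝ) ≤ Y) :
    ∑ x ∈ primBall ⌊X⌋₊, A x * ∑ y ∈ primBall ⌊Y⌋₊, C y * conj (rho (κ * x * y)) =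
      ∑ i ∈ IP X Y, conj (rho (κ * i.1 * i.2.1)) *
        ∑ r ∈ primBall ⌊X⌋₊, bA κ A i r * ∑ y ∈ primBall ⌊Y⌋₊, bC κ C i y * conj (sy r y) := by
  have e1 : ∑ x ∈ primBall ⌊X⌋₊, A x * ∑ y ∈ primBall ⌊Y⌋₊, C y * conj (rho (κ * x * y)) =
      ∑ z ∈ primBall ⌊X⌋₊ ×ˢ primBall ⌊Y⌋₊, A z.1 * (C z.2 * conj (rho (κ * z.1 * z.2))) := by
    rw [Finset.sum_product]
    exact Finset.sum_congr rfl fun x _ => by rw [Finset.mul_sum]
  have e2 : ∑ i ∈ IP X Y, conj (rho (κ * i.1 * i.2.1)) *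
        ∑ r ∈ primBall ⌊X⌋₊, bA κ A i r * ∑ y ∈ primBall ⌊Y⌋₊, bC κ C i y * conj (sy r y) =
      ∑ z ∈ IP X Y ×ˢ primBall ⌊X⌋₊ ×ˢ primBall ⌊Y⌋₊, conj (rho (κ * z.1.1 * z.1.2.1)) *
        (bA κ A z.1 z.2.1 * (bC κ C z.1 z.2.2 * conj (sy z.2.1 z.2.2))) := by
    rw [Finset.sum_product]
    refine Finset.sum_congr rfl fun i _ => ?_
    rw [Finset.sum_product, Finset.mul_sum]
    refine Finset.sum_congr rfl fun r _ => ?_
    rw [Finset.mul_sum, Finset.mul_sum]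
  rw [e1, e2]
  symm
  -- facts on the tuples with a nonzero term
  have hval : ∀ z ∈ IP X Y ×ˢ primBall ⌊X⌋₊ ×ˢ primBall ⌊Y⌋₊,
      conj (rho (κ * z.1.1 * z.1.2.1)) *
        (bA κ A z.1 z.2.1 * (bC κ C z.1 z.2.2 * conj (sy z.2.1 z.2.2))) ≠ 0 →
      (IsPrim z.1.1 ∧ IsPrim z.1.2.1 ∧ IsPrim z.1.2.2 ∧ IsPrim z.2.1 ∧ IsPrim z.2.2) ∧
      (SupB z.1.1 z.1.2.1 ∧ SupB z.1.2.1 z.1.1 ∧ IsCoprime z.1.2.2 z.1.1) ∧
      (Squarefree z.2.1 ∧ Squarefree z.2.2 ∧ IsCoprime (κ * z.1.1 * z.1.2.1) z.2.1 ∧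
        IsCoprime (κ * z.1.1 * z.1.2.1 * z.2.1) z.2.2 ∧ IsCoprime z.2.1 z.1.2.2) ∧
      A (z.1.1 * z.2.1) ≠ 0 ∧ C (z.1.2.1 * z.1.2.2 ^ 3 * z.2.2) ≠ 0 ∧
      conj (rho (κ * z.1.1 * z.1.2.1)) *
        (bA κ A z.1 z.2.1 * (bC κ C z.1 z.2.2 * conj (sy z.2.1 z.2.2))) =
        A (z.1.1 * z.2.1) * (C (z.1.2.1 * z.1.2.2 ^ 3 * z.2.2) *
          conj (rho (κ * (z.1.1 * z.2.1) * (z.1.2.1 * z.1.2.2 ^ 3 * z.2.2)))) := by
    intro z hz h0
    rw [Finset.mem_product, Finset.mem_product] at hz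
    obtain ⟨hi, hr, hy⟩ := hz
    unfold IP at hi
    rw [Finset.mem_filter, Finset.mem_product, Finset.mem_product] at hi
    obtain ⟨⟨h1, h2, h3⟩, h4, h5, h6⟩ := hi
    rw [mem_primBall] at h1 h2 h3 hr hy
    have g1 := left_ne_zero_of_mul (right_ne_zero_of_mul h0)
    have g2 := left_ne_zero_of_mul (right_ne_zero_of_mul (right_ne_zero_of_mul h0))
    have g3 := right_ne_zero_of_mul (right_ne_zero_of_mul (right_ne_zero_of_mul h0))
    have g4 : IsCoprime z.2.1 z.1.2.2 := by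
      by_contra hc
      exact g1 (by unfold bA; rw [if_neg hc])
    have g1' : bA κ A z.1 z.2.1 =
        A (z.1.1 * z.2.1) * (((n6 z.2.1 : ℝ) : ℂ) * Gh (κ * z.1.1 * z.1.2.1) z.2.1) := by
      unfold bA; rw [if_pos g4]
    rw [g1'] at g1
    have a1 := left_ne_zero_of_mul g1
    have a2 := Gh_ne hr.2 (right_ne_zero_of_mul (right_ne_zero_of_mul g1))
    unfold bC at g2
    have c1 := left_ne_zero_of_mul g2
    have c2 := Gh_ne hy.2 (right_ne_zero_of_mul (right_ne_zero_of_mul g2))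
    have s1 : IsCoprime z.2.1 z.2.2 := sy_ne hy.2 (fun h => g3 (by rw [h, map_zero]))
    have s2 : IsCoprime (κ * z.1.1 * z.1.2.1 * z.2.1) z.2.2 := c2.2.mul_left s1
    refine ⟨⟨h1.2, h2.2, h3.2, hr.2, hy.2⟩, ⟨h4, h5, h6⟩, ⟨a2.1, c2.1, a2.2, s2, g4⟩, a1, c1, ?_⟩
    rw [rho_val hr.2 a2.1 hy.2 c2.1 h3.2 a2.2 s2, g1']
    unfold bC
    ring
  refine Finset.sum_bij_ne_zero
    (fun z _ _ => (z.1.1 * z.2.1, z.1.2.1 * z.1.2.2 ^ 3 * z.2.2)) ?_ ?_ ?_ ?_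
  · intro z hz h0
    obtain ⟨⟨p1, p2, p3, p4, p5⟩, _, _, a1, c1, _⟩ := hval z hz h0
    rw [Finset.mem_product, GLS106.mem_primBall_floor, GLS106.mem_primBall_floor]
    exact ⟨⟨(hAX _ a1).2, p1.mul p4⟩, hCY _ c1, (p2.mul (p3.pow 3)).mul p5⟩
  · intro z hz h0 z' hz' h0' he
    obtain ⟨⟨p1, p2, p3, p4, p5⟩, ⟨s1, s2, s3⟩, ⟨q1, q2, q3, q4, q5⟩, _, _, _⟩ := hval z hz h0
    obtain ⟨⟨p1', p2', p3', p4', p5'⟩, ⟨s1', s2', s3'⟩, ⟨q1', q2', q3', q4', q5'⟩, _, _, _⟩ :=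
      hval z' hz' h0'
    rw [Prod.mk.injEq] at he
    obtain ⟨e1, e2⟩ := he
    -- `x₀` is the part of `x` at the primes of `y`
    have key : ∀ x0 r y0 y' c : Eis, IsPrim x0 → IsPrim r → IsPrim y0 → IsPrim y' → IsPrim c →
        IsCoprime (κ * x0 * y0) r → IsCoprime (κ * x0 * y0 * r) y' → IsCoprime r c →
        IsCoprime c x0 → IsCoprime r (y0 * c ^ 3 * y') ∧ IsCoprime (c ^ 3 * y') (x0 * r) := by
      intro x0 r y0 y' c hx0 hr hy0 hy' hc k1 k2 k3 k4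
      have t1 : IsCoprime r y0 := k1.symm.of_mul_right_right
      have t2 : IsCoprime r y' := k2.of_mul_left_right
      have t3 : IsCoprime y' x0 := (k2.of_mul_left_left.of_mul_left_left.of_mul_left_right).symm
      exact ⟨(t1.mul_right k3.pow_right).mul_right t2,
        (k4.pow_left.mul_right k3.symm.pow_left).mul_left (t3.mul_right t2.symm)⟩
    obtain ⟨w1, w2⟩ := key _ _ _ _ _ p1 p4 p2 p5 p3 q3 q4 q5 s3
    obtain ⟨w1', w2'⟩ := key _ _ _ _ _ p1' p4' p2' p5' p3' q3' q4' q5' s3'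
    have hY : z.1.2.1 * z.1.2.2 ^ 3 * z.2.2 = z'.1.2.1 * z'.1.2.2 ^ 3 * z'.2.2 := e2
    have hX : z.1.1 * z.2.1 = z'.1.1 * z'.2.1 := e1
    have f1 := bp_unique (b := z.1.2.1 * z.1.2.2 ^ 3 * z.2.2) p1 p1'
      (fun p hp hd => ((s1 p hp hd).mul_right _).mul_right _)
      (fun p hp hd => hY ▸ ((s1' p hp hd).mul_right _).mul_right _) w1 (hY ▸ w1') hX
    have f2 := bp_unique (b := z.1.1 * z.2.1) (y := z.1.2.2 ^ 3 * z.2.2)
      (y' := z'.1.2.2 ^ 3 * z'.2.2) p2 p2'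
      (fun p hp hd => (s2 p hp hd).mul_right _)
      (fun p hp hd => hX ▸ (s2' p hp hd).mul_right _) w2 (hX ▸ w2')
      (by rw [← mul_assoc, ← mul_assoc]; exact hY)
    have f3 := Rho777.cube_factor_inj p5 p3 p5' p3' q2 q2'
      (by rw [mul_comm, f2.2, mul_comm])
    obtain ⟨⟨x0, y0, c⟩, r, y'⟩ := z
    obtain ⟨⟨x0', y0', c'⟩, r', y''⟩ := z'
    simp only at f1 f2 f3 ⊢
    rw [f1.1, f1.2, f2.1, f3.1, f3.2]
  · intro z hz h0
    rw [Finset.mem_product] at hz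
    have a1 := left_ne_zero_of_mul h0
    have c1 := left_ne_zero_of_mul (right_ne_zero_of_mul h0)
    have r1 : rho (κ * z.1 * z.2) ≠ 0 := fun h =>
      right_ne_zero_of_mul (right_ne_zero_of_mul h0) (by rw [h, map_zero])
    have hzx : IsPrim z.1 := hA.prim _ a1
    have hzy : IsPrim z.2 := hC.prim _ c1
    obtain ⟨x0, r, y0, y', c, hx0, hr, hy0, hy', hc, hxe, hye, s1, s2, s3, s4, s5, s6, s7⟩ :=
      rho_str hκ hzx hzy (hAX _ a1).1 r1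
    have n1 : ∀ {a b : Eis}, b ≠ 0 → a ∣ b → (nm a : ℝ) ≤ nm b := fun hb hd => by
      exact_mod_cast Div277.nm_le_of_dvd hb hd
    have m1 := (hAX _ a1).2
    have m2 := hCY _ c1
    have hκr : ∀ {d : Eis}, IsPrim d → IsCoprime κ d := fun hd =>
      NoP.coprime hκ ⟨hd, isCoprime_one_right⟩
    have hry : IsCoprime r y0 := s6.of_mul_right_left.of_mul_right_left
    have hrc : IsCoprime r c :=
      (IsCoprime.pow_right_iff (by norm_num)).mp s6.of_mul_right_left.of_mul_right_right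
    have hry' : IsCoprime r y' := s6.of_mul_right_right
    have hyx : IsCoprime y' x0 := s7.of_mul_left_right.of_mul_right_left
    have hcx : IsCoprime c x0 :=
      (IsCoprime.pow_left_iff (by norm_num)).mp s7.of_mul_left_left.of_mul_right_left
    have hyy : IsCoprime y' y0 := E4579.SupB.cop hy0 s2 hyx |>.symm
    have k1 : IsCoprime (κ * x0 * y0) r := ((hκr hr).mul_left s5.symm).mul_left hry.symm
    have k2 : IsCoprime (κ * x0 * y0 * r) y' :=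
      (((hκr hy').mul_left hyx.symm).mul_left hyy.symm).mul_left hry'
    have hmem : (((x0, y0, c), r, y') : (Eis × Eis × Eis) × Eis × Eis) ∈
        IP X Y ×ˢ primBall ⌊X⌋₊ ×ˢ primBall ⌊Y⌋₊ := by
      rw [Finset.mem_product, Finset.mem_product]
      unfold IP
      rw [Finset.mem_filter, Finset.mem_product, Finset.mem_product]
      simp only [GLS106.mem_primBall_floor]
      refine ⟨⟨⟨⟨?_, hx0⟩, ⟨?_, hy0⟩, ⟨?_, hc⟩⟩, s1, s2, hcx⟩, ⟨?_, hr⟩, ?_, hy'⟩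
      · exact (n1 hzx.ne_zero (hxe ▸ dvd_mul_right _ _)).trans m1
      · exact (n1 hzy.ne_zero (hye ▸ ⟨c ^ 3 * y', by ring⟩)).trans m2
      · exact (n1 hzy.ne_zero (hye ▸ ⟨y0 * c ^ 2 * y', by ring⟩)).trans m2
      · exact (n1 hzx.ne_zero (hxe ▸ dvd_mul_left _ _)).trans m1
      · exact (n1 hzy.ne_zero (hye ▸ dvd_mul_left _ _)).trans m2
    have hv : conj (rho (κ * x0 * y0)) *
        (bA κ A (x0, y0, c) r * (bC κ C (x0, y0, c) y' * conj (sy r y'))) =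
        A z.1 * (C z.2 * conj (rho (κ * z.1 * z.2))) := by
      rw [hxe, hye, rho_val hr s3 hy' s4 hc k1 k2]
      unfold bA bC
      rw [if_pos hrc]
      ring
    refine ⟨((x0, y0, c), r, y'), hmem, ?_, ?_⟩
    · simp only
      rw [hv]; exact h0
    · simp only
      rw [← hxe, ← hye]
  · intro z hz h0
    obtain ⟨_, _, _, _, _, h⟩ := hval z hz h0
    exact h

/-- the bilinear form for one triple -/
def BI (κ : Eis) (A C : Eis → ℂ) (X Y : ℝ) (i : Eis × Eis × Eis) : ℝ :=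
  Real.sqrt (∑ r ∈ S (X / nm i.1), ‖A (i.1 * r)‖ ^ 2 * n6 r ^ 2) *
    Real.sqrt (∑ y ∈ S (Y / nm (i.2.1 * i.2.2 ^ 3)), ‖C (i.2.1 * i.2.2 ^ 3 * y)‖ ^ 2 * n6 y ^ 2)

lemma norm_Gh_le {h a : Eis} (ha : IsPrim a) : ‖Gh h a‖ ≤ 1 := by
  by_cases h0 : Gh h a = 0
  · rw [h0, norm_zero]; exact zero_le_one
  · obtain ⟨h1, h2⟩ := Gh_ne ha h0
    exact (PX764.norm_Gh_one ha h1 h2).le

lemma nm_ge {x : Eis} (hx : x ≠ 0) : (1 : ℝ) ≤ nm x := by exact_mod_cast nm_pos.mpr hx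

open Classical in
/-- **the bound for one triple** -/
theorem bi_le {ε : ℝ} (hε : 0 < ε) : ∃ K : ℝ, 0 < K ∧ ∀ X Y : ℝ, 1 ≤ X → 1 ≤ Y → ∀ κ : Eis,
    ∀ A C : Eis → ℂ, (∀ x, A x ≠ 0 → (nm x : ℝ) ≤ X) → (∀ y, C y ≠ 0 → (nm y : ℝ) ≤ Y) →
    ∀ i ∈ IP X Y,
      ‖∑ r ∈ primBall ⌊X⌋₊, bA κ A i r * ∑ y ∈ primBall ⌊Y⌋₊, bC κ C i y * conj (sy r y)‖ ≤
        Real.sqrt (hbB ε K (max 1 (X / nm i.1)) (max 1 (Y / nm (i.2.1 * i.2.2 ^ 3)))) *
          BI κ A C X Y i := by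
  obtain ⟨K, hK, hls⟩ := bil_ls LS448.hb_final hε
  refine ⟨K, hK, fun X Y hX hY κ A C hAX hCY i hi => ?_⟩
  unfold IP at hi
  rw [Finset.mem_filter, Finset.mem_product, Finset.mem_product] at hi
  obtain ⟨⟨h1, h2, h3⟩, -⟩ := hi
  rw [mem_primBall] at h1 h2 h3
  have hX0 : (0 : ℝ) ≤ X / nm i.1 := by positivity
  have hY0 : (0 : ℝ) ≤ Y / nm (i.2.1 * i.2.2 ^ 3) := by positivity
  have hn1 : (0 : ℝ) < nm i.1 := lt_of_lt_of_le one_pos (nm_ge h1.2.ne_zero)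
  have hq : IsPrim (i.2.1 * i.2.2 ^ 3) := h2.2.mul (h3.2.pow 3)
  have hn2 : (0 : ℝ) < nm (i.2.1 * i.2.2 ^ 3) := lt_of_lt_of_le one_pos (nm_ge hq.ne_zero)
  set SX := S (X / nm i.1) with hSX
  set SY := S (Y / nm (i.2.1 * i.2.2 ^ 3)) with hSY
  -- restriction of the sums
  have hbA0 : ∀ r, IsPrim r → r ∉ SX → bA κ A i r = 0 := by
    intro r hr hn
    unfold bA
    split_ifs with hc
    · by_contra h0
      have a1 := left_ne_zero_of_mul h0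
      have a2 := (Gh_ne hr (right_ne_zero_of_mul (right_ne_zero_of_mul h0))).1
      apply hn
      rw [hSX, mem_S hX0]
      refine ⟨?_, hr, a2⟩
      have := hAX _ a1
      rw [nm_mul, Nat.cast_mul] at this
      rw [le_div_iff₀ hn1]; linarith
    · rfl
  have hbC0 : ∀ y, IsPrim y → y ∉ SY → bC κ C i y = 0 := by
    intro y hy hn
    unfold bC
    by_contra h0
    have a1 := left_ne_zero_of_mul h0
    have a2 := (Gh_ne hy (right_ne_zero_of_mul (right_ne_zero_of_mul h0))).1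
    apply hn
    rw [hSY, mem_S hY0]
    refine ⟨?_, hy, a2⟩
    have := hCY _ a1
    rw [nm_mul, Nat.cast_mul] at this
    rw [le_div_iff₀ hn2]; linarith
  have hsub1 : SX ⊆ primBall ⌊X⌋₊ := by
    intro r hr
    rw [hSX, mem_S hX0] at hr
    rw [GLS106.mem_primBall_floor]
    exact ⟨hr.1.trans (div_le_self (by linarith) (nm_ge h1.2.ne_zero)), hr.2.1⟩
  have hsub2 : SY ⊆ primBall ⌊Y⌋₊ := by
    intro r hr
    rw [hSY, mem_S hY0] at hr
    rw [GLS106.mem_primBall_floor]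
    exact ⟨hr.1.trans (div_le_self (by linarith) (nm_ge hq.ne_zero)), hr.2.1⟩
  have e1 : ∑ r ∈ primBall ⌊X⌋₊, bA κ A i r * ∑ y ∈ primBall ⌊Y⌋₊, bC κ C i y * conj (sy r y) =
      ∑ r ∈ SX, bA κ A i r * ∑ y ∈ SY, bC κ C i y * conj (sy r y) := by
    rw [← Finset.sum_subset hsub1]
    · refine Finset.sum_congr rfl fun r _ => ?_
      rw [← Finset.sum_subset hsub2]
      intro y hy hn
      rw [hbC0 y (mem_primBall.mp hy).2 hn, zero_mul]
    · intro r hr hn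
      rw [hbA0 r (mem_primBall.mp hr).2 hn, zero_mul]
  rw [e1]
  have hSq1 : Sq (max 1 (X / nm i.1)) SX := by
    intro r hr
    rw [hSX, mem_S hX0] at hr
    exact ⟨hr.2.1, hr.2.2, hr.1.trans (le_max_right _ _)⟩
  have hSq2 : Sq (max 1 (Y / nm (i.2.1 * i.2.2 ^ 3))) SY := by
    intro r hr
    rw [hSY, mem_S hY0] at hr
    exact ⟨hr.2.1, hr.2.2, hr.1.trans (le_max_right _ _)⟩
  have hL := hls _ _ (le_max_left _ _) (le_max_left _ _) SX SY hSq1 hSq2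
    (fun y => conj (bC κ C i y))
  have hb1 : ∀ r ∈ SX, ‖bA κ A i r‖ ^ 2 ≤ ‖A (i.1 * r)‖ ^ 2 * n6 r ^ 2 := by
    intro r hr
    rw [hSX, mem_S hX0] at hr
    unfold bA
    split_ifs with hc
    · rw [norm_mul, norm_mul, Complex.norm_real, Real.norm_of_nonneg (PX764.n6_pos
        hr.2.1.ne_zero).le, mul_pow, mul_pow]
      have h5 := norm_Gh_le (h := κ * i.1 * i.2.1) hr.2.1
      have h6 : ‖Gh (κ * i.1 * i.2.1) r‖ ^ 2 ≤ 1 := pow_le_one₀ (norm_nonneg _) h5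
      calc ‖A (i.1 * r)‖ ^ 2 * (n6 r ^ 2 * ‖Gh (κ * i.1 * i.2.1) r‖ ^ 2)
          ≤ ‖A (i.1 * r)‖ ^ 2 * (n6 r ^ 2 * 1) := by gcongr
        _ = _ := by ring
    · rw [norm_zero, zero_pow two_ne_zero]; positivity
  have hb2 : ∀ y ∈ SY, ‖conj (bC κ C i y)‖ ^ 2 ≤
      ‖C (i.2.1 * i.2.2 ^ 3 * y)‖ ^ 2 * n6 y ^ 2 := by
    intro y hy
    rw [hSY, mem_S hY0] at hy
    rw [RCLike.norm_conj]
    unfold bC
    rw [norm_mul, norm_mul, Complex.norm_real, Real.norm_of_nonneg (PX764.n6_pos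
        hy.2.1.ne_zero).le, mul_pow, mul_pow]
    have h5 := norm_Gh_le (h := κ * i.1 * i.2.1) hy.2.1
    have h6 : ‖Gh (κ * i.1 * i.2.1) y‖ ^ 2 ≤ 1 := pow_le_one₀ (norm_nonneg _) h5
    calc ‖C (i.2.1 * i.2.2 ^ 3 * y)‖ ^ 2 * (n6 y ^ 2 * ‖Gh (κ * i.1 * i.2.1) y‖ ^ 2)
        ≤ ‖C (i.2.1 * i.2.2 ^ 3 * y)‖ ^ 2 * (n6 y ^ 2 * 1) := by gcongr
      _ = _ := by ring
  have e3 : ∀ r, ‖∑ y ∈ SY, bC κ C i y * conj (sy r y)‖ =
      ‖∑ y ∈ SY, conj (bC κ C i y) * sy r y‖ := by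
    intro r
    rw [← RCLike.norm_conj, map_sum]
    simp only [map_mul, Complex.conj_conj]
  set Q := hbB ε K (max 1 (X / nm i.1)) (max 1 (Y / nm (i.2.1 * i.2.2 ^ 3))) with hQ
  have hQ0 : 0 ≤ Q := hbB_nonneg hK.le (by positivity) (by positivity)
  calc ‖∑ r ∈ SX, bA κ A i r * ∑ y ∈ SY, bC κ C i y * conj (sy r y)‖
      ≤ ∑ r ∈ SX, ‖bA κ A i r‖ * ‖∑ y ∈ SY, bC κ C i y * conj (sy r y)‖ := by
        refine (norm_sum_le _ _).trans (Finset.sum_le_sum fun r _ => ?_)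
        rw [norm_mul]
    _ ≤ Real.sqrt (∑ r ∈ SX, ‖bA κ A i r‖ ^ 2) *
        Real.sqrt (∑ r ∈ SX, ‖∑ y ∈ SY, bC κ C i y * conj (sy r y)‖ ^ 2) :=
        Real.sum_mul_le_sqrt_mul_sqrt _ _ _
    _ ≤ Real.sqrt (∑ r ∈ SX, ‖A (i.1 * r)‖ ^ 2 * n6 r ^ 2) *
        Real.sqrt (Q * ∑ y ∈ SY, ‖C (i.2.1 * i.2.2 ^ 3 * y)‖ ^ 2 * n6 y ^ 2) := by
        refine mul_le_mul (Real.sqrt_le_sqrt (Finset.sum_le_sum hb1)) (Real.sqrt_le_sqrt ?_)
          (Real.sqrt_nonneg _) (Real.sqrt_nonneg _)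
        calc ∑ r ∈ SX, ‖∑ y ∈ SY, bC κ C i y * conj (sy r y)‖ ^ 2
            = ∑ r ∈ SX, ‖∑ y ∈ SY, conj (bC κ C i y) * sy r y‖ ^ 2 :=
              Finset.sum_congr rfl fun r _ => by rw [e3 r]
          _ ≤ Q * ∑ y ∈ SY, ‖conj (bC κ C i y)‖ ^ 2 := hL
          _ ≤ _ := mul_le_mul_of_nonneg_left (Finset.sum_le_sum hb2) hQ0
    _ = _ := by
        rw [Real.sqrt_mul hQ0]
        unfold BI
        ring

open Classical in
/-- **Heath-Brown bound for the polar terms** -/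
theorem pol_bil {ε : ℝ} (hε : 0 < ε) : ∃ K : ℝ, 0 < K ∧ ∀ X Y : ℝ, 1 ≤ X → 1 ≤ Y → ∀ κ : Eis,
    NoP 1 κ → ∀ A C : Eis → ℂ, FS A → FS C → (∀ x, A x ≠ 0 → CbF x ∧ (nm x : ℝ) ≤ X) →
    (∀ y, C y ≠ 0 → (nm y : ℝ) ≤ Y) →
    ‖∑' x : Eis, A x * ∑' y : Eis, C y * conj (rho (κ * x * y))‖ ≤
      ∑ i ∈ IP X Y, ‖rho (κ * i.1 * i.2.1)‖ *
        (Real.sqrt (hbB ε K (max 1 (X / nm i.1)) (max 1 (Y / nm (i.2.1 * i.2.2 ^ 3)))) *
          BI κ A C X Y i) := by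
  obtain ⟨K, hK, hb⟩ := bi_le hε
  refine ⟨K, hK, fun X Y hX hY κ hκ A C hA hC hAX hCY => ?_⟩
  have e1 : ∑' x : Eis, A x * ∑' y : Eis, C y * conj (rho (κ * x * y)) =
      ∑ x ∈ primBall ⌊X⌋₊, A x * ∑ y ∈ primBall ⌊Y⌋₊, C y * conj (rho (κ * x * y)) := by
    rw [tsum_eq_sum (s := primBall ⌊X⌋₊)]
    · refine Finset.sum_congr rfl fun x _ => ?_
      rw [tsum_eq_sum (s := primBall ⌊Y⌋₊)]
      intro y hy
      have : C y = 0 := by
        by_contra h0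
        exact hy (GLS106.mem_primBall_floor.mpr ⟨hCY y h0, hC.prim y h0⟩)
      rw [this, zero_mul]
    · intro x hx
      have : A x = 0 := by
        by_contra h0
        exact hx (GLS106.mem_primBall_floor.mpr ⟨(hAX x h0).2, hA.prim x h0⟩)
      rw [this, zero_mul]
  rw [e1, pol_id hκ hA hC hAX hCY]
  refine (norm_sum_le _ _).trans (Finset.sum_le_sum fun i hi => ?_)
  rw [norm_mul, RCLike.norm_conj]
  exact mul_le_mul_of_nonneg_left
    (hb X Y hX hY κ A C (fun x hx => (hAX x hx).2) hCY i hi) (norm_nonneg _)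

end Crest.Agent.R017.E4P939
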