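import Crest.Agent.R017.L6a_106
import Crest.Agent.R017.NatPD_401

/-!
# Row 17, section B, leaf L6 (2): phases and the termwise identity
-/

set_option autoImplicit false

noncomputable section

open MeasureTheory Complex Set
open scoped ComplexConjugate ContDiff SchwartzMap

namespace Crest.Agent.R017.L6106

open Crest.Agent.R012 Crest.Agent.R012.Eis Crest.Agent.R012.Mob705 Crest.Agent.R012.Gauss880
open Crest.Agent.R012.Po581
open Crest.Agent.R017.End699 Crest.Agent.R017.Sx440 Crest.Agent.R017.Sx545 Crest.Agent.R017.B770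

/-! ### the modulus `3 m₀` -/

lemma prim_cop3 {a : Eis} (ha : IsPrim a) : IsCoprime a 3 := by
  obtain ⟨t, ht⟩ := ha
  exact ⟨1, -t, by linear_combination ht⟩

section

variable {M m₀ : Eis}

lemma Rad0.cop (h : Rad0 M m₀) {b : Eis} (hb : IsPrim b) (hbM : IsCoprime b M) :
    IsCoprime b (3 * m₀) := by
  refine isCoprime_of_prime_dvd (fun h0 => hb.ne_zero h0.1) fun p hp hpb hp3 => ?_
  have h1 : p ∣ M := (h.iff p hp).mp hp3
  exact hp.not_isUnit (hbM.isUnit_of_dvd' hpb h1)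

lemma Rad0.sm (h : Rad0 M m₀) {b : Eis} (hb : Sm M b) : Sm (3 * m₀) b :=
  ⟨hb.1, Rad0.cop h hb.1 hb.2⟩

lemma Rad0.copm (h : Rad0 M m₀) {b : Eis} (hb : Sm M b) : IsCoprime b m₀ :=
  (Rad0.cop h hb.1 hb.2).of_mul_right_right

lemma Rad0.two (h : Rad0 M m₀) (h36 : (36 : Eis) ∣ M) : (2 : Eis) ∣ 3 * m₀ :=
  (h.iff 2 prime_two).mpr (dvd_trans ⟨18, by norm_num⟩ h36)

lemma hc_m0 (hm : IsPrim m₀) : HC (3 * m₀) (fun a => sy a m₀) where
  q0 := mul_ne_zero (by decide) hm.ne_zero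
  three := ⟨m₀, rfl⟩
  char :=
    { one := Sym645.sy_one_left (Sym645.prim_nm_mod hm)
      mul := fun a b _ _ => Sym645.sy_mul_left (Sym645.prim_nm_mod hm) a b
      norm := fun a _ => by
        by_cases hc : IsCoprime a m₀
        · right; exact Sym645.norm_sy_of_isCoprime (Sym645.prim_nm_mod hm) hc
        · left; exact (Sym645.sy_eq_zero_iff (Sym645.prim_nm_mod hm)).mpr hc }
  per a b _ _ hd := Sym645.sy_congr (Sym645.prim_nm_mod hm) ((dvd_mul_left m₀ 3).trans hd)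
  van a ha hc := by
    apply (Sym645.sy_eq_zero_iff (Sym645.prim_nm_mod hm)).mpr
    intro hc'
    exact hc ((prim_cop3 ha).mul_right hc')

lemma sy_three_sq3 {c : Eis} (hc : IsPrim c) : sy (3 * Po581.sq3) c = 1 := by
  have e : (3 : Eis) * Po581.sq3 = (-Po581.sq3) ^ 3 := by decide
  rw [e]
  exact sy_cube_left hc (PT858.neg_sq3_coprime hc)

/-- the phases cancel -/
lemma phase (h : Rad0 M m₀) {b c : Eis} (hb : Sm M b) (hc : Sm M c) :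
    sy m₀ c * (sy (b * c) m₀ *
      (sy (3 * m₀ * Po581.sq3) c * conj (sy (3 * m₀ * Po581.sq3) b))) = 1 := by
  have hm := h.prim
  have nb := Sym645.prim_nm_mod hb.1
  have nc := Sym645.prim_nm_mod hc.1
  have e1 : ∀ x : Eis, IsPrim x → sy (3 * m₀ * Po581.sq3) x = sy m₀ x := by
    intro x hx
    rw [show 3 * m₀ * Po581.sq3 = (3 * Po581.sq3) * m₀ by ring,
      Sym645.sy_mul_left (Sym645.prim_nm_mod hx), sy_three_sq3 hx, one_mul]
  rw [e1 c hc.1, e1 b hb.1, Sym645.sy_mul_left (Sym645.prim_nm_mod hm),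
    Sym645.sy_reciprocity hb.1 hm, Sym645.sy_reciprocity hc.1 hm]
  have h1 : sy m₀ c ^ 3 = 1 := Sym645.sy_cube nc (Rad0.copm h hc).symm
  have h2 : sy m₀ b * conj (sy m₀ b) = 1 := by
    rw [Complex.mul_conj, Complex.normSq_eq_norm_sq,
      Sym645.norm_sy_of_isCoprime nb (Rad0.copm h hb).symm]
    simp
  calc sy m₀ c * (sy m₀ b * sy m₀ c * (sy m₀ c * conj (sy m₀ b)))
      = sy m₀ c ^ 3 * (sy m₀ b * conj (sy m₀ b)) := by ring
    _ = 1 := by rw [h1, h2, one_mul]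

/-- the primal sum in `k` at `(b, c, e)` -/
def KS (m₀ : Eis) (om : ℝ → ℂ) (K : ℝ) (e b c : Eis) : ℂ :=
  ∑' k : Eis, FE47.DM (3 * m₀) (fun a => sy a m₀) k * Ur om (nm k * (nm e : ℝ) ^ 6 / K) * tk k b c

lemma tk_bdd {b c : Eis} (hb : b ≠ 0) (hc : IsPrim c) : ∃ B : ℝ, ∀ k, ‖tk k b c‖ ≤ B := by
  have hq : b * c ≠ 0 := mul_ne_zero hb hc.ne_zero
  obtain ⟨B, hB0, hB⟩ := perMod_bdd hq (FE47.perMod_iff.mpr (PT858.pmod_FF (b := b) hc))
  refine ⟨‖conj (G c) / (Real.sqrt (nm b * nm c) : ℂ)‖ * (nm (b * c) * B), fun k => ?_⟩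
  unfold tk
  rw [norm_mul]
  refine mul_le_mul_of_nonneg_left ?_ (norm_nonneg _)
  refine norm_sumMod_le hq fun x => ?_
  rw [norm_mul, eC_norm, mul_one]
  exact hB x

/-- the dual argument -/
lemma dual_arg {m₀ e b c : Eis} (hm : m₀ ≠ 0) (he : e ≠ 0) (hb : b ≠ 0) (hc : c ≠ 0) {K β : ℝ}
    (hK : 0 < K) (hβ : β = K / (27 * nm m₀ * (nm b * nm c * (nm e : ℝ) ^ 6))) (k : Eis) :
    ‖dl k / toC (3 * m₀ * (b * c))‖ ^ 2 / β = nm k * (nm e : ℝ) ^ 6 / K := by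
  have h1 : (0 : ℝ) < nm m₀ := by exact_mod_cast nm_pos.mpr hm
  have h2 : (0 : ℝ) < nm e := by exact_mod_cast nm_pos.mpr he
  have h3 : (0 : ℝ) < nm b := by exact_mod_cast nm_pos.mpr hb
  have h4 : (0 : ℝ) < nm c := by exact_mod_cast nm_pos.mpr hc
  have h9 : nm (3 : Eis) = 9 := by decide
  rw [norm_div, div_pow, norm_dl_sq, norm_toC_sq, nm_mul, nm_mul, nm_mul, h9, hβ]
  push_cast
  field_simp
  ring

lemma KS_eq {om : ℝ → ℂ} {m₀ e b c : Eis} (hm : m₀ ≠ 0) (he : e ≠ 0) (hb : b ≠ 0)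
    (hc : c ≠ 0) {K β : ℝ} (hK : 0 < K)
    (hβ : β = K / (27 * nm m₀ * (nm b * nm c * (nm e : ℝ) ^ 6))) (hβ0 : 0 < β) (k : Eis) :
    fC (fun z => om (β * ‖z‖ ^ 2)) (dl k / toC (3 * m₀ * (b * c))) =
      ((β⁻¹ : ℝ) : ℂ) * Ur om (nm k * (nm e : ℝ) ^ 6 / K) := by
  rw [fC_scale om hβ0, dual_arg hm he hb hc hK hβ]

lemma KS_summable {om : ℝ → ℂ} (hom : SW om) (hm : IsPrim m₀) {e b c : Eis}
    (he : e ≠ 0) (hb : b ≠ 0) (hc : IsPrim c) {K : ℝ} (hK : 0 < K) :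
    Summable (fun k : Eis => FE47.DM (3 * m₀) (fun a => sy a m₀) k *
      Ur om (nm k * (nm e : ℝ) ^ 6 / K) * tk k b c) := by
  have h1 : (0 : ℝ) < nm m₀ := by exact_mod_cast nm_pos.mpr hm.ne_zero
  have h2 : (0 : ℝ) < nm e := by exact_mod_cast nm_pos.mpr he
  have h3 : (0 : ℝ) < nm b := by exact_mod_cast nm_pos.mpr hb
  have h4 : (0 : ℝ) < nm c := by exact_mod_cast nm_pos.mpr hc.ne_zero
  obtain ⟨β, hβ⟩ : ∃ β : ℝ, β = K / (27 * nm m₀ * (nm b * nm c * (nm e : ℝ) ^ 6)) := ⟨_, rfl⟩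
  have hβ0 : 0 < β := by rw [hβ]; positivity
  obtain ⟨B, hB⟩ := tk_bdd (b := b) hb hc
  have hB0 : 0 ≤ B := (norm_nonneg _).trans (hB 0)
  have hH := hc_m0 hm
  have hs := fC_summable (rS hom hβ0) (Po581.toC_ne_zero
    (mul_ne_zero hH.q0 (mul_ne_zero hb hc.ne_zero)))
  have hs2 := summable_mul_bdd (χ := fun k : Eis => (β : ℂ) *
      (FE47.DM (3 * m₀) (fun a => sy a m₀) k * tk k b c))
    (B := ‖(β : ℂ)‖ * (nm (3 * m₀) * B)) (fun k => by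
      rw [norm_mul, norm_mul]
      refine mul_le_mul_of_nonneg_left ?_ (norm_nonneg _)
      exact mul_le_mul (FE47.norm_DM_le hH k) (hB k) (norm_nonneg _) (Nat.cast_nonneg _)) hs
  refine hs2.congr fun k => ?_
  rw [coe_rS, KS_eq hm.ne_zero he hb hc.ne_zero hK hβ hβ0]
  have hβc : (β : ℂ) ≠ 0 := by exact_mod_cast hβ0.ne'
  push_cast
  field_simp

/-- **termwise identity** -/
theorem term_eq (h : Rad0 M m₀) (h36 : (36 : Eis) ∣ M) {om : ℝ → ℂ} (hom : SW om) {e b c : Eis}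
    (he : e ≠ 0) (hb : Sm M b) (hc : Sm M c) (hcs : Squarefree c) {K Q : ℝ} (hK : 0 < K)
    (hQ : 0 < Q) :
    sy m₀ c * ((Real.sqrt (nm c))⁻¹ : ℝ) * conj (G c) *
      ∑' a : Eis, ext (fun a => sy a m₀) a * sy a c * ((nm e : ℂ) ^ 2 * (hN a b *
        ((((nm b * (nm e : ℝ) ^ 6 / Q) ^ (-(1 / 2) : ℝ) : ℝ) : ℂ) *
          om (K / (27 * nm m₀ * Q) * nm a / (nm c * (nm b * (nm e : ℝ) ^ 6 / Q)))))) =
    ((2 * Real.sqrt 3 * (Real.sqrt Q / K) : ℝ) : ℂ) * ((nm e : ℂ) ^ 5 * KS m₀ om K e b c) := by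
  have hm := h.prim
  have hH := hc_m0 hm
  have h1 : (0 : ℝ) < nm m₀ := by exact_mod_cast nm_pos.mpr hm.ne_zero
  have h2 : (0 : ℝ) < nm e := by exact_mod_cast nm_pos.mpr he
  have h3 : (0 : ℝ) < nm b := by exact_mod_cast nm_pos.mpr hb.ne_zero
  have h4 : (0 : ℝ) < nm c := by exact_mod_cast nm_pos.mpr hc.ne_zero
  obtain ⟨β, hβ⟩ : ∃ β : ℝ, β = K / (27 * nm m₀ * (nm b * nm c * (nm e : ℝ) ^ 6)) := ⟨_, rfl⟩
  have hβ0 : 0 < β := by rw [hβ]; positivity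
  have hP := PT858.poissonTk (3 * m₀) (fun a => sy a m₀) hH (Rad0.two h h36) b c (Rad0.sm h hb)
    (Rad0.sm h hc) hcs (rS hom hβ0)
  -- the dual sum
  have hk : ∑' k : Eis, FE47.DM (3 * m₀) (fun a => sy a m₀) k * tk k b c *
      fC (rS hom hβ0) (dl k / toC (3 * m₀ * (b * c))) = ((β⁻¹ : ℝ) : ℂ) * KS m₀ om K e b c := by
    unfold KS
    rw [← tsum_mul_left]
    refine tsum_congr fun k => ?_
    rw [coe_rS, KS_eq hm.ne_zero he hb.ne_zero hc.ne_zero hK hβ hβ0]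
    ring
  rw [hk] at hP
  -- the left side
  set y : ℝ := nm b * (nm e : ℝ) ^ 6 / Q with hy
  have hy0 : 0 < y := by rw [hy]; positivity
  have hl : ∑' a : Eis, ext (fun a => sy a m₀) a * sy a c * ((nm e : ℂ) ^ 2 * (hN a b *
        (((y ^ (-(1 / 2) : ℝ) : ℝ) : ℂ) * om (K / (27 * nm m₀ * Q) * nm a / (nm c * y))))) =
      (nm e : ℂ) ^ 2 * ((y ^ (-(1 / 2) : ℝ) : ℝ) : ℂ) *
        ∑' a : Eis, ext (fun a => sy a m₀) a * (hN a b * sy a c) * rS hom hβ0 (toC a) := by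
    rw [← tsum_mul_left]
    refine tsum_congr fun a => ?_
    rw [rS_apply, norm_toC_sq]
    have e1 : K / (27 * nm m₀ * Q) * nm a / (nm c * y) = β * nm a := by
      rw [hβ, hy]; field_simp
    rw [e1]; ring
  rw [hl]
  have key : (Real.sqrt (nm c))⁻¹ * ((nm e : ℝ) ^ 2 * y ^ (-(1 / 2) : ℝ)) *
      ((2 / (Real.sqrt 3 * nm (3 * m₀))) * ((Real.sqrt (nm b * nm c))⁻¹ * β⁻¹)) =
      2 * Real.sqrt 3 * (Real.sqrt Q / K) * (nm e : ℝ) ^ 5 := by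
    have h9 : nm (3 : Eis) = 9 := by decide
    have hs3 : Real.sqrt 3 * Real.sqrt 3 = 3 := Real.mul_self_sqrt (by norm_num)
    have hsc : Real.sqrt (nm c) * Real.sqrt (nm c) = nm c := Real.mul_self_sqrt h4.le
    have hsb : Real.sqrt (nm b) * Real.sqrt (nm b) = nm b := Real.mul_self_sqrt h3.le
    have hsQ : Real.sqrt Q * Real.sqrt Q = Q := Real.mul_self_sqrt hQ.le
    have e1 : y ^ (-(1 / 2) : ℝ) = Real.sqrt Q / (Real.sqrt (nm b) * (nm e : ℝ) ^ 3) := by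
      have e2 : y = (Real.sqrt (nm b) * (nm e : ℝ) ^ 3 / Real.sqrt Q) ^ 2 := by
        rw [div_pow, mul_pow, Real.sq_sqrt h3.le, Real.sq_sqrt hQ.le, hy]
        ring
      have hpos : 0 < Real.sqrt (nm b) * (nm e : ℝ) ^ 3 / Real.sqrt Q := by positivity
      rw [Real.rpow_neg hy0.le, ← Real.sqrt_eq_rpow, e2, Real.sqrt_sq hpos.le, inv_div]
    rw [e1, Real.sqrt_mul h3.le, nm_mul, h9, hβ]
    push_cast
    have hsc0 : 0 < Real.sqrt (nm c) := Real.sqrt_pos.mpr h4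
    have hsb0 : 0 < Real.sqrt (nm b) := Real.sqrt_pos.mpr h3
    have hs30 : 0 < Real.sqrt 3 := by positivity
    have hsQ0 : 0 < Real.sqrt Q := Real.sqrt_pos.mpr hQ
    generalize Real.sqrt (nm c : ℝ) = sc at *
    generalize Real.sqrt (nm b : ℝ) = sb at *
    generalize Real.sqrt (3 : ℝ) = s3 at *
    generalize Real.sqrt Q = sQ at *
    rw [← hsc, ← hsb]
    field_simp
    have hs3' : s3 ^ 2 = 3 := by rw [sq]; exact hs3
    rw [hs3']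
    ring
  have key' : (((Real.sqrt (nm c))⁻¹ : ℝ) : ℂ) * ((nm e : ℂ) ^ 2 * ((y ^ (-(1 / 2) : ℝ) : ℝ) : ℂ)) *
      (((2 / (Real.sqrt 3 * nm (3 * m₀)) : ℝ) : ℂ) *
        ((((Real.sqrt (nm b * nm c))⁻¹ : ℝ) : ℂ) * ((β⁻¹ : ℝ) : ℂ))) =
      ((2 * Real.sqrt 3 * (Real.sqrt Q / K) : ℝ) : ℂ) * (nm e : ℂ) ^ 5 := by
    have := congrArg (fun x : ℝ => (x : ℂ)) key
    push_cast at this ⊢
    exact this
  have hph := phase h hb hc
  calc sy m₀ c * (((Real.sqrt (nm c))⁻¹ : ℝ) : ℂ) * conj (G c) *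
      ((nm e : ℂ) ^ 2 * ((y ^ (-(1 / 2) : ℝ) : ℝ) : ℂ) *
        ∑' a : Eis, ext (fun a => sy a m₀) a * (hN a b * sy a c) * rS hom hβ0 (toC a))
      = sy m₀ c * ((((Real.sqrt (nm c))⁻¹ : ℝ) : ℂ) *
        ((nm e : ℂ) ^ 2 * ((y ^ (-(1 / 2) : ℝ) : ℝ) : ℂ))) * (conj (G c) *
        ∑' a : Eis, ext (fun a => sy a m₀) a * (hN a b * sy a c) * rS hom hβ0 (toC a)) := by ring
    _ = (sy m₀ c * (sy (b * c) m₀ *
      (sy (3 * m₀ * Po581.sq3) c * conj (sy (3 * m₀ * Po581.sq3) b)))) *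
        ((((Real.sqrt (nm c))⁻¹ : ℝ) : ℂ) * ((nm e : ℂ) ^ 2 * ((y ^ (-(1 / 2) : ℝ) : ℝ) : ℂ)) *
      (((2 / (Real.sqrt 3 * nm (3 * m₀)) : ℝ) : ℂ) *
        ((((Real.sqrt (nm b * nm c))⁻¹ : ℝ) : ℂ) * ((β⁻¹ : ℝ) : ℂ)))) * KS m₀ om K e b c := by
        rw [hP]; ring
    _ = _ := by rw [hph, key']; ring

end

end Crest.Agent.R017.L6106
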