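import Crest.Agent.R017.LSc_848

/-!
# Row 17: closed form of `eps2`

For primary `c`:  `eps2 c = -(i/2) (1 + (-i)^(2u-v) + (-i)^(-u-v) + (-i)^(2v-u))`, `c = u + v ω`;
`‖eps2 c‖ = 1` for odd primary `c`.
-/

set_option autoImplicit false
set_option linter.unusedSimpArgs false

noncomputable section

open Complex

namespace Crest.Agent.R017.LS848

open Crest.Agent.R012 Crest.Agent.R012.Eis Crest.Agent.R012.Gauss880 Crest.Agent.R017.Sx440

/-- `e(s/4) = i^(Tr s)` -/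
lemma eC_quarter (s : Eis) : eC (toC s / 4) = I ^ (trE s) := by
  have h1 : (toC s / 4).re = (trE s : ℝ) / 8 := by
    have := two_re_toC s
    have h2 : (toC s / 4).re = (toC s).re / 4 := by
      have : (toC s / 4 : ℂ) = toC s / ((4 : ℝ) : ℂ) := by push_cast; rfl
      rw [this, Complex.div_ofReal_re]
    rw [h2]
    linarith
  rw [Crest.Agent.R017.LS848.eC_eq, h1]
  have h3 : ((4 * Real.pi * ((trE s : ℝ) / 8) : ℝ) : ℂ) * I = (trE s : ℂ) * (Real.pi / 2 * I) := by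
    push_cast; ring
  rw [h3, Complex.exp_int_mul, Complex.exp_pi_div_two_mul_I]

/-- `e(s/3) = ω^(Tr s)` -/
lemma eC_third (s : Eis) : eC (toC s / 3) = wC ^ (trE s) := by
  have h1 : (toC s / 3).re = (trE s : ℝ) / 6 := by
    have := two_re_toC s
    have h2 : (toC s / 3).re = (toC s).re / 3 := by
      have : (toC s / 3 : ℂ) = toC s / ((3 : ℝ) : ℂ) := by push_cast; rfl
      rw [this, Complex.div_ofReal_re]
    rw [h2]
    linarith
  rw [Crest.Agent.R017.LS848.eC_eq, h1]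
  have h3 : ((4 * Real.pi * ((trE s : ℝ) / 6) : ℝ) : ℂ) * I =
      (trE s : ℂ) * (2 * Real.pi / 3 * I) := by
    push_cast; ring
  have h4 : cexp (2 * Real.pi / 3 * I) = wC := by
    have h5 : (2 * Real.pi / 3 : ℂ) = ((2 * Real.pi / 3 : ℝ) : ℂ) := by push_cast; ring
    rw [h5, Complex.exp_mul_I, ← Complex.ofReal_cos, ← Complex.ofReal_sin]
    have h6 : 2 * Real.pi / 3 = Real.pi - Real.pi / 3 := by ring
    rw [h6, Real.cos_pi_sub, Real.sin_pi_sub, Real.cos_pi_div_three, Real.sin_pi_div_three]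
    apply Complex.ext
    · simp [wC]; norm_num
    · simp [wC]
  rw [h3, Complex.exp_int_mul, h4]

lemma pmod_third (c : Eis) : PMod 3 (fun x => eC (toC (c * x ^ 2) / 3)) := by
  intro x t
  have e1 : toC (c * (x + 3 * t) ^ 2) / 3 = toC (c * x ^ 2) / 3 +
      toC (2 * c * x * t + 3 * c * t ^ 2) := by
    simp only [map_add, map_mul, map_ofNat, map_pow]
    ring
  beta_reduce
  rw [e1, Poisson381.eC_add, Poisson381.eC_toC, mul_one]

lemma pmod_quarter (c : Eis) : PMod 2 (fun x => eC (toC (3 * c * x ^ 2) / 4)) := by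
  intro x t
  have e1 : toC (3 * c * (x + 2 * t) ^ 2) / 4 = toC (3 * c * x ^ 2) / 4 +
      toC (3 * c * x * t + 3 * c * t ^ 2) := by
    simp only [map_add, map_mul, map_ofNat, map_pow]
    ring
  beta_reduce
  rw [e1, Poisson381.eC_add, Poisson381.eC_toC, mul_one]

lemma isCoprime_three_two : IsCoprime (3 : Eis) 2 := ⟨1, -1, by norm_num⟩

lemma sumMod_six (c : Eis) : sumMod 6 (fun l => eC (toC c * toC l ^ 2 / 12)) =
    sumMod 3 (fun x => eC (toC (c * x ^ 2) / 3)) *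
      sumMod 2 (fun x => eC (toC (3 * c * x ^ 2) / 4)) := by
  have h6 : (6 : Eis) = 3 * 2 := by norm_num
  rw [h6]
  refine sumMod_crt_mul three_ne_zero' Sx440.two_ne_zero' _ isCoprime_three_two ?_ (fun x y => ?_)
  · rw [← h6]; exact pmod_six c
  · have e1 : toC c * toC (2 * x + 3 * y) ^ 2 / 12 =
        toC (c * x ^ 2) / 3 + toC (3 * c * y ^ 2) / 4 + toC (c * x * y) := by
      simp only [map_add, map_mul, map_ofNat, map_pow]
      ring
    rw [e1, Poisson381.eC_add, Poisson381.eC_add, Poisson381.eC_toC, mul_one]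

/-- the factor at `3` for primary `c` -/
lemma sumMod_three {c : Eis} (hc : IsPrim c) :
    sumMod 3 (fun x => eC (toC (c * x ^ 2) / 3)) = -(3 * (Real.sqrt 3 : ℂ) * I) := by
  obtain ⟨t, ht⟩ := hc
  have hc' : c = 1 + 3 * t := by linear_combination ht
  have h1 : ∀ x : Eis, eC (toC (c * x ^ 2) / 3) = wC ^ (trE (x ^ 2)) := by
    intro x
    have e1 : toC (c * x ^ 2) / 3 = toC (x ^ 2) / 3 + toC (t * x ^ 2) := by
      rw [hc']
      simp only [map_add, map_mul, map_ofNat, map_pow, map_one]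
      ring
    rw [e1, Poisson381.eC_add, Poisson381.eC_toC, mul_one, eC_third]
  have h3 : (3 : Eis) = ((3 : ℕ) : Eis) := by norm_num
  have hp : PMod ((3 : ℕ) : Eis) (fun x => eC (toC (c * x ^ 2) / 3)) := by
    rw [← h3]; exact pmod_third c
  rw [h3, sumMod_natCast (by norm_num) hp]
  simp_rw [h1]
  have hw3 := wC_cube
  have hw : wC = -1 / 2 + (Real.sqrt 3 : ℂ) / 2 * I := by
    apply Complex.ext
    · simp [wC]
    · simp [wC]
  have hw2 := wC_sq
  have key : ∀ n : ℤ, wC ^ (3 * n) = 1 := by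
    intro n
    rw [zpow_mul]
    have : wC ^ (3 : ℤ) = 1 := by exact_mod_cast hw3
    rw [this, one_zpow]
  have k2 : ∀ n : ℤ, wC ^ (3 * n + 2) = -1 - wC := by
    intro n
    rw [zpow_add₀ wC_ne_zero, key, one_mul]
    exact_mod_cast hw2
  have t00 : trE ((⟨((0:ℕ):ℤ), ((0:ℕ):ℤ)⟩ : Eis) ^ 2) = 3 * 0 := by decide
  have t01 : trE ((⟨((0:ℕ):ℤ), ((1:ℕ):ℤ)⟩ : Eis) ^ 2) = 3 * (-1) + 2 := by decide
  have t02 : trE ((⟨((0:ℕ):ℤ), ((2:ℕ):ℤ)⟩ : Eis) ^ 2) = 3 * (-2) + 2 := by decide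
  have t10 : trE ((⟨((1:ℕ):ℤ), ((0:ℕ):ℤ)⟩ : Eis) ^ 2) = 3 * 0 + 2 := by decide
  have t11 : trE ((⟨((1:ℕ):ℤ), ((1:ℕ):ℤ)⟩ : Eis) ^ 2) = 3 * (-1) + 2 := by decide
  have t12 : trE ((⟨((1:ℕ):ℤ), ((2:ℕ):ℤ)⟩ : Eis) ^ 2) = 3 * (-2) := by decide
  have t20 : trE ((⟨((2:ℕ):ℤ), ((0:ℕ):ℤ)⟩ : Eis) ^ 2) = 3 * 2 + 2 := by decide
  have t21 : trE ((⟨((2:ℕ):ℤ), ((1:ℕ):ℤ)⟩ : Eis) ^ 2) = 3 * 1 := by decide
  have t22 : trE ((⟨((2:ℕ):ℤ), ((2:ℕ):ℤ)⟩ : Eis) ^ 2) = 3 * (-2) + 2 := by decide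
  simp only [Finset.sum_range_succ, Finset.sum_range_zero, t00, t01, t02, t10, t11, t12, t20,
    t21, t22, key, k2]
  rw [hw]
  ring

/-- the factor at `2` -/
lemma sumMod_two (c : Eis) :
    sumMod 2 (fun x => eC (toC (3 * c * x ^ 2) / 4)) =
      1 + (-I) ^ (2 * c.re - c.im) + (-I) ^ (-c.re - c.im) + (-I) ^ (2 * c.im - c.re) := by
  have h2 : (2 : Eis) = ((2 : ℕ) : Eis) := by norm_num
  have hp : PMod ((2 : ℕ) : Eis) (fun x => eC (toC (3 * c * x ^ 2) / 4)) := by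
    rw [← h2]; exact pmod_quarter c
  rw [h2, sumMod_natCast (by norm_num) hp]
  have hI3 : ∀ n : ℤ, I ^ (3 * n) = (-I) ^ n := by
    intro n
    rw [zpow_mul]
    congr 1
    have : I ^ (3 : ℤ) = I ^ 3 := by norm_cast
    rw [this, Complex.I_pow_three]
  simp_rw [eC_quarter]
  have t00 : trE (3 * c * (⟨((0:ℕ):ℤ), ((0:ℕ):ℤ)⟩ : Eis) ^ 2) = 0 := by
    unfold trE; simp [pow_two, re_mul', im_mul']
  have t01 : trE (3 * c * (⟨((0:ℕ):ℤ), ((1:ℕ):ℤ)⟩ : Eis) ^ 2) = 3 * (2 * c.im - c.re) := by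
    unfold trE; simp [pow_two, re_mul', im_mul']; ring
  have t10 : trE (3 * c * (⟨((1:ℕ):ℤ), ((0:ℕ):ℤ)⟩ : Eis) ^ 2) = 3 * (2 * c.re - c.im) := by
    unfold trE; simp [pow_two, re_mul', im_mul']; ring
  have t11 : trE (3 * c * (⟨((1:ℕ):ℤ), ((1:ℕ):ℤ)⟩ : Eis) ^ 2) = 3 * (-c.re - c.im) := by
    unfold trE; simp [pow_two, re_mul', im_mul']; ring
  simp only [Finset.sum_range_succ, Finset.sum_range_zero, t00, t01, t10, t11, hI3, zpow_zero]
  ring

/-- **closed form of `eps2` on primary elements.** -/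
theorem eps2_eq {c : Eis} (hc : IsPrim c) : eps2 c =
    -(I / 2) * (1 + (-I) ^ (2 * c.re - c.im) + (-I) ^ (-c.re - c.im) +
      (-I) ^ (2 * c.im - c.re)) := by
  unfold eps2
  rw [sumMod_six, sumMod_three hc, sumMod_two]
  have h33 : (Real.sqrt 3 : ℂ) * (Real.sqrt 3 : ℂ) = 3 := by
    rw [← Complex.ofReal_mul, Real.mul_self_sqrt (by norm_num)]; norm_num
  generalize (1 + (-I) ^ (2 * c.re - c.im) + (-I) ^ (-c.re - c.im) +
      (-I) ^ (2 * c.im - c.re) : ℂ) = X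
  push_cast
  linear_combination (-(1 / 6) * I * X) * h33

/-- `eps2` on primary elements only depends on `c` modulo `4`. -/
theorem eps2_congr_four {c d : Eis} (hc : IsPrim c) (hd : IsPrim d) (h : (4 : Eis) ∣ c - d) :
    eps2 c = eps2 d := by
  have h3 : (3 : Eis) ∣ c - d := by
    have : c - d = (c - 1) - (d - 1) := by ring
    rw [this]; exact dvd_sub hc hd
  have h34 : IsCoprime (3 : Eis) 4 := ⟨-1, 1, by norm_num⟩
  have h12 : (12 : Eis) ∣ c - d := by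
    have e : (12 : Eis) = 3 * 4 := by norm_num
    rw [e]; exact h34.mul_dvd h3 h
  exact pmod_eps2.congr h12

lemma negI_zpow_four (n : ℤ) : (-I : ℂ) ^ (4 * n) = 1 := by
  rw [zpow_mul]
  have : (-I : ℂ) ^ (4 : ℤ) = 1 := by
    have h : (-I : ℂ) ^ (4 : ℤ) = (-I) ^ 4 := by norm_cast
    rw [h]
    have : (-I : ℂ) ^ 4 = I ^ 4 := by ring
    rw [this, Complex.I_pow_four]
  rw [this, one_zpow]

lemma negI_zpow_congr {m n : ℤ} (h : m % 4 = n % 4) : (-I : ℂ) ^ m = (-I) ^ n := by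
  have hI : (-I : ℂ) ≠ 0 := by simp
  have e : ∀ k : ℤ, (-I : ℂ) ^ k = (-I) ^ (k % 4) := by
    intro k
    conv_lhs => rw [← Int.mul_ediv_add_emod k 4]
    rw [zpow_add₀ hI, negI_zpow_four, one_mul]
  rw [e m, e n, h]

/-- `eps2` has modulus one on odd primary elements. -/
theorem norm_eps2 {c : Eis} (hc : IsPrim c) (h2 : Od c) : ‖eps2 c‖ = 1 := by
  rw [eps2_eq hc, norm_mul]
  have h0 : ‖(-(I / 2) : ℂ)‖ = 1 / 2 := by simp
  rw [h0]
  have hodd : ¬ (c.re % 2 = 0 ∧ c.im % 2 = 0) := by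
    rintro ⟨h3, h4⟩
    apply h2
    have : ((2 : ℤ) : Eis) ∣ c := by
      rw [intCast_dvd_iff]
      exact ⟨Int.dvd_of_emod_eq_zero h3, Int.dvd_of_emod_eq_zero h4⟩
    exact_mod_cast this
  set u := c.re with hu
  set v := c.im with hv
  have hu4 : u % 4 = 0 ∨ u % 4 = 1 ∨ u % 4 = 2 ∨ u % 4 = 3 := by omega
  have hv4 : v % 4 = 0 ∨ v % 4 = 1 ∨ v % 4 = 2 ∨ v % 4 = 3 := by omega
  have z0 : (-I : ℂ) ^ (0 : ℤ) = 1 := zpow_zero _
  have z1 : (-I : ℂ) ^ (1 : ℤ) = -I := zpow_one _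
  have z2 : (-I : ℂ) ^ (2 : ℤ) = -1 := by
    have h : (-I : ℂ) ^ (2 : ℤ) = (-I) ^ 2 := by norm_cast
    rw [h, neg_sq, Complex.I_sq]
  have z3 : (-I : ℂ) ^ (3 : ℤ) = I := by
    have h : (-I : ℂ) ^ (3 : ℤ) = (-I) ^ 3 := by norm_cast
    rw [h]
    linear_combination (-I) * Complex.I_sq
  have hn : ∀ a b c' : ℤ, (2 * u - v) % 4 = a % 4 → (-u - v) % 4 = b % 4 →
      (2 * v - u) % 4 = c' % 4 →
      ‖(1 + (-I) ^ (2 * u - v) + (-I) ^ (-u - v) + (-I) ^ (2 * v - u) : ℂ)‖ =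
      ‖(1 + (-I) ^ a + (-I) ^ b + (-I) ^ c' : ℂ)‖ := by
    intro a b c' ha hb hc'
    rw [negI_zpow_congr ha, negI_zpow_congr hb, negI_zpow_congr hc']
  have fin : ‖(1 + (-I) ^ (2 * u - v) + (-I) ^ (-u - v) + (-I) ^ (2 * v - u) : ℂ)‖ = 2 := by
    rcases hu4 with h | h | h | h <;> rcases hv4 with h' | h' | h' | h'
    · exfalso; apply hodd; omega
    · rw [hn 3 3 2 (by omega) (by omega) (by omega), z3, z2]
      have : (1 + I + I + -1 : ℂ) = 2 * I := by ring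
      rw [this]; simp
    · exfalso; apply hodd; omega
    · rw [hn 1 1 2 (by omega) (by omega) (by omega), z1, z2]
      have : (1 + -I + -I + -1 : ℂ) = -(2 * I) := by ring
      rw [this]; simp
    · rw [hn 2 3 3 (by omega) (by omega) (by omega), z3, z2]
      have : (1 + -1 + I + I : ℂ) = 2 * I := by ring
      rw [this]; simp
    · rw [hn 1 2 1 (by omega) (by omega) (by omega), z1, z2]
      have : (1 + -I + -1 + -I : ℂ) = -(2 * I) := by ring
      rw [this]; simp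
    · rw [hn 0 1 3 (by omega) (by omega) (by omega), z0, z1, z3]
      have : (1 + 1 + -I + I : ℂ) = 2 := by ring
      rw [this]; simp
    · rw [hn 3 0 1 (by omega) (by omega) (by omega), z0, z1, z3]
      have : (1 + I + 1 + -I : ℂ) = 2 := by ring
      rw [this]; simp
    · exfalso; apply hodd; omega
    · rw [hn 3 1 0 (by omega) (by omega) (by omega), z0, z1, z3]
      have : (1 + I + -I + 1 : ℂ) = 2 := by ring
      rw [this]; simp
    · exfalso; apply hodd; omega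
    · rw [hn 1 3 0 (by omega) (by omega) (by omega), z0, z1, z3]
      have : (1 + -I + I + 1 : ℂ) = 2 := by ring
      rw [this]; simp
    · rw [hn 2 1 1 (by omega) (by omega) (by omega), z1, z2]
      have : (1 + -1 + -I + -I : ℂ) = -(2 * I) := by ring
      rw [this]; simp
    · rw [hn 1 0 3 (by omega) (by omega) (by omega), z0, z1, z3]
      have : (1 + -I + 1 + I : ℂ) = 2 := by ring
      rw [this]; simp
    · rw [hn 0 3 1 (by omega) (by omega) (by omega), z0, z1, z3]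
      have : (1 + 1 + I + -I : ℂ) = 2 := by ring
      rw [this]; simp
    · rw [hn 3 2 3 (by omega) (by omega) (by omega), z3, z2]
      have : (1 + I + -1 + I : ℂ) = 2 * I := by ring
      rw [this]; simp
  rw [fin]; norm_num

end Crest.Agent.R017.LS848
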