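import Crest.Agent.R017.BDefs2_770
import Crest.Agent.R017.NatZ_571
import Crest.Agent.R017.PoissonTk_858
import Crest.Agent.R017.LSd_848
import Crest.Agent.R017.TkP_848
import Crest.Agent.R017.FE8_47

/-!
# Row 17, section B, leaf L7, steps 7.4 and 7.5: Poisson summation in `a` and separation of variables
-/

set_option autoImplicit false

noncomputable section

open Complex MeasureTheory
open scoped ComplexConjugate SchwartzMap ContDiff

namespace Crest.Agent.R017.L7858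

open Crest.Agent.R012 Crest.Agent.R012.Eis Crest.Agent.R012.Mob705 Crest.Agent.R012.Gauss880
open Crest.Agent.R012.Po581
open Crest.Agent.R012.Weight600 (osc norm_osc)
open Crest.Agent.R017.End699
open Crest.Agent.R017.FE47 Crest.Agent.R017.Sx440 Crest.Agent.R017.Sx545 Crest.Agent.R017.B770
open Crest.Agent.R017.PT858

/-! ### the twist by `(M √-3 / ·)` -/

lemma sq3_sq : Po581.sq3 ^ 2 = -3 := by decide

/-- `(M √-3 / ·)` is a character modulo `9 M` if `9 ∣ M`. -/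
theorem hc_sy9 {M : Eis} (hM : M ≠ 0) (h9 : (9 : Eis) ∣ M) :
    HC (9 * M) (fun b => sy (M * Po581.sq3) b) := by
  obtain ⟨M1, rfl⟩ := h9
  have hM1 : M1 ≠ 0 := right_ne_zero_of_mul hM
  have hs : Po581.sq3 ≠ 0 := by decide
  have hk : Po581.sq3 ^ 2 * M1 ≠ 0 := mul_ne_zero (pow_ne_zero 2 hs) hM1
  have hnine : (9 : Eis) = Po581.sq3 ^ 4 := by decide
  have e1 : (9 : Eis) * M1 * Po581.sq3 = Po581.sq3 ^ 3 * (Po581.sq3 ^ 2 * M1) := by
    rw [hnine]; ring
  have hcube : ∀ b : Eis, IsPrim b → sy (Po581.sq3 ^ 3) b = 1 := fun b hb =>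
    sy_cube_left hb (BL4858.isCoprime_sq3 hb)
  have hper : ∀ b : Eis, IsPrim b → sy (9 * M1 * Po581.sq3) b = sy (Po581.sq3 ^ 2 * M1) b := by
    intro b hb
    rw [e1, Sym645.sy_mul_left (Sym645.prim_nm_mod hb), hcube b hb, one_mul]
  have h := hc_sy hk
  exact
    { q0 := mul_ne_zero nine_ne_zero hM
      three := ⟨3 * (9 * M1), by ring⟩
      char :=
        { one := by rw [hper 1 isPrim_one]; exact h.char.one
          mul := fun a b ha hb => by
            rw [hper a ha, hper b hb, hper _ (ha.mul hb)]; exact h.char.mul a b ha hb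
          norm := fun a ha => by rw [hper a ha]; exact h.char.norm a ha }
      per := fun a b ha hb hd => by
        show sy _ a = sy _ b
        rw [hper a ha, hper b hb]
        refine h.per a b ha hb (dvd_trans ⟨-3, ?_⟩ hd)
        linear_combination (27 * M1) * sq3_sq
      van := fun a ha hc => by
        show sy _ a = 0
        rw [hper a ha]
        refine h.van a ha fun hc' => hc ?_
        have h1 : IsCoprime a (9 : Eis) := hc'.of_mul_right_left
        have h2 : IsCoprime a M1 := hc'.of_mul_right_right.of_mul_right_right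
        exact h1.mul_right (h1.mul_right h2) }

/-! ### twists of the dual side -/

/-- twist of the Möbius variable -/
def psiD (M : Eis) (χ ψ : Eis → ℂ) (b : Eis) : ℂ := ψ b * χ b * conj (sy (M * Po581.sq3) b)

/-- twist of the amplifier variable -/
def phiD (M : Eis) (χ φ : Eis → ℂ) (c : Eis) : ℂ := φ c * χ c * sy (M * Po581.sq3) c

/-- a character modulo `M` is one modulo `9 M` if `3 ∣ M` -/
lemma hc_nine {M : Eis} {χ : Eis → ℂ} (h : HC M χ) : HC (9 * M) χ where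
  q0 := mul_ne_zero nine_ne_zero h.q0
  three := ⟨3 * M, by ring⟩
  char := h.char
  per a b ha hb hd := h.per a b ha hb ((dvd_mul_left M 9).trans hd)
  van a ha hc := h.van a ha fun hc' => hc (by
    have h3 : IsCoprime a (3 : Eis) := hc'.of_isCoprime_of_dvd_right h.three
    have h9 : (9 : Eis) = 3 * 3 := by norm_num
    rw [h9]
    exact (h3.mul_right h3).mul_right hc')

theorem hc_psiD {M : Eis} {χ ψ : Eis → ℂ} (h9 : (9 : Eis) ∣ M) (hχ : HC M χ) (hψ : HC M ψ) :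
    HC (9 * M) (psiD M χ ψ) :=
  ((hc_nine hψ).mul_same (hc_nine hχ)).mul_same (hc_sy9 hχ.q0 h9).conj

theorem hc_phiD {M : Eis} {χ φ : Eis → ℂ} (h9 : (9 : Eis) ∣ M) (hχ : HC M χ) (hφ : HC M φ) :
    HC (9 * M) (phiD M χ φ) :=
  ((hc_nine hφ).mul_same (hc_nine hχ)).mul_same (hc_sy9 hχ.q0 h9)

/-! ### the weights -/

/-- `u ↦ e^{-u} h(u)` -/
def hE (h : ℝ → ℂ) (u : ℝ) : ℂ := (Real.exp (-u) : ℂ) * h u

/-- `y ↦ y^{-1/2} V(y)` -/
def vH (V : ℝ → ℂ) (y : ℝ) : ℂ := ((y ^ (-(1 / 2) : ℝ) : ℝ) : ℂ) * V y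

lemma hw_hE {h : ℝ → ℂ} (hh : HW h) : HW (hE h) where
  cd := by
    unfold hE
    have h1 : ContDiff ℝ ∞ (fun u : ℝ => ((Real.exp (-u) : ℝ) : ℂ)) :=
      Complex.ofRealCLM.contDiff.comp (Real.contDiff_exp.comp contDiff_neg)
    exact h1.mul hh.cd
  supp u hu := hh.supp u (right_ne_zero_of_mul hu)

lemma sw_vH {V : ℝ → ℂ} (hV : SW V) : SW (vH V) where
  smooth := by
    rw [contDiff_iff_contDiffAt]
    intro y
    by_cases hy : 0 < y
    · have h1 : ContDiffAt ℝ ∞ (fun y : ℝ => (((y : ℝ) ^ (-(1 / 2) : ℝ) : ℝ) : ℂ)) y :=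
        Complex.ofRealCLM.contDiff.contDiffAt.comp y (Real.contDiffAt_rpow_const_of_ne hy.ne')
      exact h1.mul hV.smooth.contDiffAt
    · have h2 : y ∉ tsupport V := fun h => hy (hV.supp h)
      have h3 : ∀ᶠ z in nhds y, z ∉ tsupport V := (isClosed_tsupport V).isOpen_compl.mem_nhds h2
      have h4 : vH V =ᶠ[nhds y] fun _ => 0 := by
        filter_upwards [h3] with z hz
        unfold vH
        rw [image_eq_zero_of_notMem_tsupport hz, mul_zero]
      exact contDiffAt_const.congr_of_eventuallyEq h4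
  cpt := hV.cpt.mul_left
  supp := (tsupport_mul_subset_right).trans hV.supp

/-! ### pointwise identities -/

lemma nm_pos' {b : Eis} (hb : b ≠ 0) : (0 : ℝ) < nm b := by exact_mod_cast nm_pos.mpr hb

lemma cpow_eq_osc {b : Eis} (hb : b ≠ 0) (t : ℝ) : (nm b : ℂ) ^ (I * t) = osc t (Real.log (nm b)) := by
  have h := nm_pos' hb
  have h1 : (nm b : ℂ) ≠ 0 := by exact_mod_cast h.ne'
  rw [Complex.cpow_def_of_ne_zero h1]
  unfold osc
  congr 1
  rw [show (nm b : ℂ) = ((nm b : ℝ) : ℂ) by push_cast; rfl, ← Complex.ofReal_log h.le]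
  push_cast
  ring

/-- the weight of the variable `a` -/
lemma weight_a {w : ℝ → ℂ} {χ : Eis → ℂ} (j : ℤ) (t κ : ℝ) {a : Eis} (ha : a ≠ 0) :
    twt χ j t a * w (Real.log (nm a) - κ) =
      χ a * (osc t κ * fX (gt w j t) (Real.exp κ) (toC a)) := by
  have hz : toC a ≠ 0 := Po581.toC_ne_zero ha
  have hX : 0 < Real.exp κ := Real.exp_pos κ
  have hs := Real.sqrt_pos.mpr hX
  have hz' : (((Real.sqrt (Real.exp κ))⁻¹ : ℝ) : ℂ) * toC a ≠ 0 := by
    refine mul_ne_zero ?_ hz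
    exact_mod_cast (inv_pos.mpr hs).ne'
  have hnb := nm_pos' ha
  have e1 : ‖(((Real.sqrt (Real.exp κ))⁻¹ : ℝ) : ℂ) * toC a‖ = (Real.sqrt (Real.exp κ))⁻¹ * ‖toC a‖ := by
    rw [norm_mul, Complex.norm_real, Real.norm_of_nonneg (inv_pos.mpr hs).le]
  have e2 : Real.log (‖(((Real.sqrt (Real.exp κ))⁻¹ : ℝ) : ℂ) * toC a‖ ^ 2) = Real.log (nm a) - κ := by
    rw [e1, mul_pow, norm_toC_sq, inv_pow, Real.sq_sqrt hX.le, Real.log_mul (by positivity) hnb.ne',
      Real.log_inv, Real.log_exp]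
    ring
  have e3 : ((((Real.sqrt (Real.exp κ))⁻¹ : ℝ) : ℂ) * toC a) /
      (‖(((Real.sqrt (Real.exp κ))⁻¹ : ℝ) : ℂ) * toC a‖ : ℂ) = toC a / (‖toC a‖ : ℂ) := by
    rw [e1]
    have h1 : (((Real.sqrt (Real.exp κ))⁻¹ : ℝ) : ℂ) ≠ 0 := by
      exact_mod_cast (inv_pos.mpr hs).ne'
    have h2 : (‖toC a‖ : ℂ) ≠ 0 := by
      exact_mod_cast (norm_pos_iff.mpr hz).ne'
    push_cast at h1 ⊢
    field_simp
  have e4 : osc t (Real.log (nm a)) = osc t κ * osc t (Real.log (nm a) - κ) := by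
    rw [← Weight600.osc_add_right]; congr 1; ring
  simp only [twt, End699.tw, fX, gt, FE47.tws, oz]
  rw [gf_of_ne w j hz', e2, e3, cpow_eq_osc ha, e4]
  unfold ang
  ring

/-- polar form of the dual weight: `log |ξ|² = log nm k - log nm b - log nm c + κ - log(3 nm M)` -/
lemma weight_k {w : ℝ → ℂ} (j : ℤ) (t κ : ℝ) {M k b c : Eis} (hM : M ≠ 0) (hk : k ≠ 0) (hb : b ≠ 0)
    (hc : c ≠ 0) :
    fC (fX (gt w j t) (Real.exp κ)) (dl k / toC (M * (b * c))) =
      ((Real.exp κ : ℝ) : ℂ) * ((iS3 / (‖iS3‖ : ℂ)) ^ j * ang j M) * (ang (-j) k * (ang j b * ang j c)) *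
        rad (gt w j t) (Real.log (nm k) - Real.log (nm b) - Real.log (nm c) + κ -
          Real.log (3 * nm M)) := by
  have hX : 0 < Real.exp κ := Real.exp_pos κ
  have hsX := Real.sqrt_pos.mpr hX
  have tk := Po581.toC_ne_zero hk
  have tM := Po581.toC_ne_zero hM
  have tb := Po581.toC_ne_zero hb
  have tc := Po581.toC_ne_zero hc
  have t3 := iS3_ne_zero
  have nk := nm_pos' hk
  have nM := nm_pos' hM
  have nb := nm_pos' hb
  have nc := nm_pos' hc
  have hξ : ((Real.sqrt (Real.exp κ) : ℝ) : ℂ) * (dl k / toC (M * (b * c))) ≠ 0 := by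
    refine mul_ne_zero (by exact_mod_cast hsX.ne') (div_ne_zero (div_ne_zero tk t3) ?_)
    exact Po581.toC_ne_zero (mul_ne_zero hM (mul_ne_zero hb hc))
  rw [fC_fX _ hX, fC_polar (fun ζ hζ z => gt_rot w j t hζ z) hξ]
  have e1 : ‖((Real.sqrt (Real.exp κ) : ℝ) : ℂ) * (dl k / toC (M * (b * c)))‖ =
      Real.sqrt (Real.exp κ) * (‖toC k‖ / ‖iS3‖ / (‖toC M‖ * (‖toC b‖ * ‖toC c‖))) := by
    unfold dl
    rw [norm_mul, Complex.norm_real, Real.norm_of_nonneg hsX.le, map_mul, map_mul, norm_div,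
      norm_div, norm_mul, norm_mul]
  have e2 : ‖((Real.sqrt (Real.exp κ) : ℝ) : ℂ) * (dl k / toC (M * (b * c)))‖ ^ 2 =
      Real.exp κ * (nm k / (3 * nm M) / (nm b * nm c)) := by
    rw [e1, mul_pow, Real.sq_sqrt hX.le, div_pow, div_pow, mul_pow, mul_pow, norm_toC_sq,
      norm_toC_sq, norm_toC_sq, norm_toC_sq, norm_iS3, Real.sq_sqrt (by norm_num)]
    field_simp
  have e3 : Real.log (‖((Real.sqrt (Real.exp κ) : ℝ) : ℂ) * (dl k / toC (M * (b * c)))‖ ^ 2) =
      Real.log (nm k) - Real.log (nm b) - Real.log (nm c) + κ - Real.log (3 * nm M) := by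
    rw [e2, Real.log_mul hX.ne' (by positivity), Real.log_div (by positivity) (by positivity),
      Real.log_div nk.ne' (by positivity), Real.log_mul nb.ne' nc.ne', Real.log_exp]
    ring
  have e4 : (((Real.sqrt (Real.exp κ) : ℝ) : ℂ) * (dl k / toC (M * (b * c))) /
      (‖((Real.sqrt (Real.exp κ) : ℝ) : ℂ) * (dl k / toC (M * (b * c)))‖ : ℂ)) ^ (-j) =
      ((iS3 / (‖iS3‖ : ℂ)) ^ j * ang j M) * (ang (-j) k * (ang j b * ang j c)) := by
    unfold ang
    rw [zpow_neg (toC k / (‖toC k‖ : ℂ)), ← mul_zpow, ← mul_zpow, ← inv_zpow, ← mul_zpow,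
      ← mul_zpow, zpow_neg, ← inv_zpow]
    congr 1
    rw [e1]
    have h6 : ((Real.sqrt (Real.exp κ) : ℝ) : ℂ) ≠ 0 := by exact_mod_cast hsX.ne'
    have h7 : (‖toC b‖ : ℂ) ≠ 0 := by exact_mod_cast (norm_pos_iff.mpr tb).ne'
    have h8 : (‖toC c‖ : ℂ) ≠ 0 := by exact_mod_cast (norm_pos_iff.mpr tc).ne'
    have h9 : (‖toC k‖ : ℂ) ≠ 0 := by exact_mod_cast (norm_pos_iff.mpr tk).ne'
    have h10 : (‖toC M‖ : ℂ) ≠ 0 := by exact_mod_cast (norm_pos_iff.mpr tM).ne'
    have h11 : (‖iS3‖ : ℂ) ≠ 0 := by exact_mod_cast (norm_pos_iff.mpr t3).ne'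
    unfold dl
    rw [map_mul, map_mul]
    push_cast
    field_simp
  rw [e3, e4]
  ring

/-! ### bounds for `hN`, `tk` -/

lemma norm_hN {a b : Eis} (hb : Sm 2 b) : ‖hN a b‖ ≤ Real.sqrt (nm b) := by
  have hn := nm_pos' hb.1.ne_zero
  have hs := Real.sqrt_pos.mpr hn
  refine (TkP848.norm_hN_le hb).trans ?_
  rw [div_le_iff₀ hs, Real.mul_self_sqrt hn.le]
  exact norm_gsum_le hb.1.ne_zero (isCh_sy6 hb.1 (hb.od (dvd_refl 2))) _

lemma norm_tk_le {k b c : Eis} (hb : Sm 2 b) (hc : IsPrim c) :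
    ‖tk k b c‖ ≤ nm b * Real.sqrt (nm c) := by
  have nb := nm_pos' hb.1.ne_zero
  have nc := nm_pos' hc.ne_zero
  have hq : b * c ≠ 0 := mul_ne_zero hb.1.ne_zero hc.ne_zero
  have h1 : ‖sumMod (b * c) (fun a => hN a b * sy a c * eC (-(toC a * toC k / (toC b * toC c))))‖ ≤
      nm (b * c) * Real.sqrt (nm b) := by
    refine norm_sumMod_le hq (fun a => ?_)
    rw [norm_mul, norm_mul, eC_norm, mul_one]
    calc ‖hN a b‖ * ‖sy a c‖ ≤ Real.sqrt (nm b) * 1 :=
          mul_le_mul (norm_hN hb) (norm_sy_le syG hc) (norm_nonneg _) (Real.sqrt_nonneg _)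
      _ = _ := mul_one _
  unfold tk
  rw [norm_mul, norm_div, RCLike.norm_conj, Complex.norm_real,
    Real.norm_of_nonneg (Real.sqrt_nonneg _)]
  have hs : 0 < Real.sqrt ((nm b : ℝ) * nm c) := Real.sqrt_pos.mpr (by positivity)
  calc ‖G c‖ / Real.sqrt (nm b * nm c) * _
      ≤ 1 / Real.sqrt (nm b * nm c) * (nm (b * c) * Real.sqrt (nm b)) := by
        refine mul_le_mul (div_le_div_of_nonneg_right (norm_G_le syG hc) hs.le) h1
          (norm_nonneg _) (by positivity)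
    _ = nm b * Real.sqrt (nm c) := by
        rw [nm_mul, Real.sqrt_mul nb.le]
        push_cast
        have h2 : Real.sqrt (nm c) * Real.sqrt (nm c) = nm c := Real.mul_self_sqrt nc.le
        have h3 : 0 < Real.sqrt (nm b) := Real.sqrt_pos.mpr nb
        have h4 : 0 < Real.sqrt (nm c) := Real.sqrt_pos.mpr nc
        field_simp
        rw [sq]
        exact h2.symm

lemma summable_tk (f : 𝓢(ℂ, ℂ)) {M : Eis} {χ : Eis → ℂ} (h : HC M χ) {b c : Eis} (hb : Sm 2 b)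
    (hc : IsPrim c) :
    Summable (fun k : Eis => DM M χ k * tk k b c * fC f (dl k / toC (M * (b * c)))) := by
  have hq : M * (b * c) ≠ 0 := mul_ne_zero h.q0 (mul_ne_zero hb.1.ne_zero hc.ne_zero)
  refine summable_mul_bdd (B := nm M * (nm b * Real.sqrt (nm c))) (fun k => ?_)
    (fC_summable f (Po581.toC_ne_zero hq))
  rw [norm_mul]
  exact mul_le_mul (norm_DM_le h k) (norm_tk_le hb hc) (norm_nonneg _) (by positivity)

/-! ### the sum over `a` for fixed `b, c` -/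

/-- the test function -/
def tf {w : ℝ → ℂ} (w1 : ContDiff ℝ ∞ w) (w2 : HasCompactSupport w) (j : ℤ) (t κ : ℝ) : 𝓢(ℂ, ℂ) :=
  (((ad_gf w1 w2 j).tws t).scale (Real.exp_pos κ)).toS

lemma coe_tf {w : ℝ → ℂ} (w1 : ContDiff ℝ ∞ w) (w2 : HasCompactSupport w) (j : ℤ) (t κ : ℝ) :
    (tf w1 w2 j t κ : ℂ → ℂ) = fX (gt w j t) (Real.exp κ) := rfl

theorem inner_eq {w : ℝ → ℂ} (w1 : ContDiff ℝ ∞ w) (w2 : HasCompactSupport w) (j : ℤ) (t κ : ℝ)
    {M : Eis} {χ : Eis → ℂ} (h : HC M χ) (h2 : (2 : Eis) ∣ M) {b c : Eis} (hb : Sm M b)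
    (hc : Sm M c) (hsf : Squarefree c) :
    conj (G c) * ∑' a : Eis, End699.ext (fun a => twt χ j t a * w (Real.log (nm a) - κ)) a *
        (hN a b * sy a c) =
      osc t κ * (((2 / (Real.sqrt 3 * nm M) : ℝ) : ℂ) * ((((Real.sqrt (nm b * nm c))⁻¹ : ℝ) : ℂ) *
        (χ (b * c) * (sy (M * Po581.sq3) c * conj (sy (M * Po581.sq3) b)))) *
        ∑' k : Eis, DM M χ k * tk k b c *
          fC (fX (gt w j t) (Real.exp κ)) (dl k / toC (M * (b * c)))) := by
  have hP := poissonTk M χ h h2 b c hb hc hsf (tf w1 w2 j t κ)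
  rw [coe_tf] at hP
  have e : (∑' a : Eis, End699.ext (fun a => twt χ j t a * w (Real.log (nm a) - κ)) a *
        (hN a b * sy a c)) = osc t κ * ∑' a : Eis, End699.ext χ a * (hN a b * sy a c) *
          fX (gt w j t) (Real.exp κ) (toC a) := by
    rw [← tsum_mul_left]
    refine tsum_congr fun a => ?_
    by_cases ha : IsPrim a
    · simp only [End699.ext, if_pos ha]
      rw [weight_a j t κ ha.ne_zero]
      ring
    · simp only [End699.ext, if_neg ha]
      ring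
  rw [e, mul_left_comm, hP]

/-! ### the tuples of amplifier primes -/

open NatZ571 Crest.Agent.R012.Div277

theorem prod_good_M {M M' : Eis} (h2M : (2 : Eis) ∣ M) (hM0 : M ≠ 0)
    (hrad : ∀ p : Eis, Prime p → p ∣ M' → p ∣ M) {h : ℝ → ℂ} (hh : HW h) {r : ℕ}
    {y Q₀ : ℝ} (hQ₀ : 1 ≤ Q₀) (hMQ : (nm M : ℝ) < Q₀ ^ (y / r) / 9) {J : Finset (Fin r)}
    {p : ∀ _ : J, Eis} (hp : p ∈ tup r y Q₀ J)
    (hne : ∏ i : J, h (Real.log (nm (p i)) - kap r y Q₀ i) ≠ 0) :
    Sm M' (∏ i : J, p i) ∧ Squarefree (∏ i : J, p i) := by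
  obtain ⟨h1, h2⟩ := prod_good h2M hM0 hh hQ₀ hMQ hp hne
  refine ⟨⟨h1.1, ?_⟩, h2⟩
  refine IsCoprime.prod_left fun i _ => ?_
  have hmem : p i ∈ prS (kap r y Q₀ i) := by
    unfold tup at hp
    exact Fintype.mem_piFinset.mp hp i
  have hpr : Prime (p i) := (mem_prS.mp hmem).2
  have hh0 : |Real.log (nm (p i)) - kap r y Q₀ i| ≤ 1 :=
    hh.supp _ (Finset.prod_ne_zero_iff.mp hne i (Finset.mem_univ i))
  rw [hpr.irreducible.coprime_iff_not_dvd]
  intro hd
  have hd' := hrad _ hpr hd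
  have h3 := nm_le_of_dvd hM0 hd'
  have hQ0 : 0 < Q₀ := by linarith
  have hM1 := nm_pos' hM0
  have h4 := (abs_le.mp hh0).1
  have h5 : kap r y Q₀ i = y / r * Real.log Q₀ + 3 * (((i : Fin r) : ℕ) : ℝ) := rfl
  have h6 : Real.log (9 * nm M) < y / r * Real.log Q₀ := by
    rw [← Real.log_rpow hQ0]
    exact Real.log_lt_log (by positivity) (by linarith)
  have h7 : 1 < Real.log 9 := by
    rw [Real.lt_log_iff_exp_lt (by norm_num)]
    linarith [Real.exp_one_lt_d9]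
  have h8 : (0 : ℝ) ≤ (((i : Fin r) : ℕ) : ℝ) := Nat.cast_nonneg _
  rw [Real.log_mul (by norm_num) hM1.ne'] at h6
  have h9 : Real.log (nm M) < Real.log (nm (p i)) := by linarith
  have h10 : Real.log (nm (p i)) ≤ Real.log (nm M) :=
    Real.log_le_log (nm_pos' hpr.ne_zero) (by exact_mod_cast h3)
  linarith

open Classical in
/-- the range of the Möbius variable -/
def FB (M : Eis) (N : ℕ) : Finset Eis := (primBall N).filter (fun b => Sm M b)

lemma mem_FB {M b : Eis} {N : ℕ} : b ∈ FB M N ↔ nm b ≤ N ∧ Sm M b := by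
  classical
  unfold FB
  rw [Finset.mem_filter, mem_primBall]
  exact ⟨fun h => ⟨h.1.1, h.2⟩, fun h => ⟨⟨h.1, h.2.1⟩, h.2⟩⟩

/-- sums over the Möbius variable are finite -/
lemma tsum_Sm {V : ℝ → ℂ} {R : ℝ} (hR : ∀ x, V x ≠ 0 → x ≤ R) (M : Eis) (F : Eis → ℂ) {B : ℝ}
    (hB : 0 < B) (c : ℝ → ℂ) (hc : ∀ x, V x = 0 → c x = 0) [∀ b, Decidable (Sm M b)] :
    (∑' b : Eis, if Sm M b then F b * c (nm b / B) else 0) =
      ∑ b ∈ FB M ⌊R * B⌋₊, F b * c (nm b / B) := by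
  rw [tsum_eq_sum (s := FB M ⌊R * B⌋₊)]
  · exact Finset.sum_congr rfl fun b hb => by rw [if_pos (mem_FB.mp hb).2]
  · intro b hb
    by_cases h1 : Sm M b
    · rw [if_pos h1]
      by_cases h2 : V (nm b / B) = 0
      · rw [hc _ h2, mul_zero]
      · exfalso
        apply hb
        rw [mem_FB]
        refine ⟨Nat.le_floor ?_, h1⟩
        have := hR _ h2
        rwa [div_le_iff₀ hB] at this
    · rw [if_neg h1]

/-! ### partition of unity in the dual variable -/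

lemma tsum_block {hp : ℝ → ℝ} {cc : ℝ} (hpu : PU hp cc) {z : Eis → ℂ} (hz : Summable z)
    (z0 : z 0 = 0) :
    Summable (fun n : ℕ => ∑' k : Eis, ((hp (Real.log (nm k) - cc * n) : ℝ) : ℂ) * z k) ∧
      ∑' k, z k = ∑' n : ℕ, ∑' k : Eis, ((hp (Real.log (nm k) - cc * n) : ℝ) : ℂ) * z k := by
  obtain ⟨R, hR⟩ : ∃ R : ℝ, ∀ u, hp u ≠ 0 → |u| ≤ R := by
    obtain ⟨R, hR⟩ := hpu.cs.isCompact.isBounded.exists_norm_le
    exact ⟨R, fun u hu => hR u (subset_tsupport _ hu)⟩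
  obtain ⟨H, hH⟩ := hpu.cd.continuous.bounded_above_of_compact_support hpu.cs
  have hH0 : 0 ≤ H := (norm_nonneg _).trans (hH 0)
  obtain ⟨B, hB0, hB⟩ := scale_sum one_pos hpu.cpos
  have hle : ∀ u : ℝ, ‖((hp u : ℝ) : ℂ)‖ ≤ H * Real.exp R * Real.exp (-(1 * |u|)) := by
    intro u
    rw [Complex.norm_real]
    by_cases h0 : hp u = 0
    · rw [h0, norm_zero]; positivity
    · calc ‖hp u‖ ≤ H * 1 := by rw [mul_one]; exact hH u
        _ ≤ H * (Real.exp R * Real.exp (-(1 * |u|))) := by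
            refine mul_le_mul_of_nonneg_left ?_ hH0
            rw [← Real.exp_add]
            exact Real.one_le_exp (by have := hR u h0; linarith)
        _ = _ := by ring
  set F : Eis × ℕ → ℂ := fun x => ((hp (Real.log (nm x.1) - cc * x.2) : ℝ) : ℂ) * z x.1 with hF
  obtain ⟨g, hg⟩ : ∃ g : Eis × ℕ → ℝ, ∀ x, g x = (H * Real.exp R) *
    (Real.exp (-(1 * |cc * x.2 + -Real.log (nm x.1)|)) * ‖z x.1‖) := ⟨_, fun _ => rfl⟩
  have hFg : ∀ x, ‖F x‖ ≤ g x := by
    intro x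
    rw [hF, hg]
    simp only
    rw [norm_mul, ← mul_assoc]
    refine mul_le_mul_of_nonneg_right ?_ (norm_nonneg _)
    refine (hle _).trans (le_of_eq ?_)
    congr 3
    rw [← abs_neg]
    congr 2
    ring
  have hg0 : 0 ≤ g := fun x => by rw [hg]; exact mul_nonneg (by positivity) (by positivity)
  have hgs : Summable g := by
    rw [summable_prod_of_nonneg hg0]
    refine ⟨fun k => ?_, ?_⟩
    · have h1 := ((hB (-Real.log (nm k))).1.mul_right ‖z k‖).mul_left (H * Real.exp R)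
      exact h1.congr fun n => (hg (k, n)).symm
    · refine Summable.of_nonneg_of_le (fun k => tsum_nonneg fun n => hg0 (k, n)) (fun k => ?_)
        (hz.norm.mul_left (H * Real.exp R * B))
      have h2 : ∑' n : ℕ, g (k, n) = ∑' n : ℕ, (H * Real.exp R) *
        (Real.exp (-(1 * |cc * n + -Real.log (nm k)|)) * ‖z k‖) := tsum_congr fun n => hg (k, n)
      rw [h2, tsum_mul_left, tsum_mul_right, mul_assoc (H * Real.exp R)]
      refine mul_le_mul_of_nonneg_left ?_ (by positivity)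
      exact mul_le_mul_of_nonneg_right (hB _).2 (norm_nonneg _)
  have hFs : Summable F := Summable.of_norm_bounded hgs hFg
  have hFs' : Summable (fun x : ℕ × Eis => F (x.2, x.1)) := hFs.prod_symm
  refine ⟨hFs'.prod, ?_⟩
  have h1 : ∀ k : Eis, z k = ∑' n : ℕ, F (k, n) := by
    intro k
    by_cases hk : k = 0
    · subst hk
      simp [hF, z0]
    · rw [hF]
      simp only
      rw [tsum_mul_right, ← Complex.ofReal_tsum, hpu.one _ ?_, Complex.ofReal_one, one_mul]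
      exact Real.log_nonneg (by exact_mod_cast Nat.one_le_iff_ne_zero.mpr (nm_pos.mpr hk).ne')
  rw [tsum_congr h1]
  exact (Summable.tsum_comm (f := fun k n => F (k, n)) hFs).symm

/-! ### the general sum -/

variable {ι : Type}

/-- the general sum to be transformed: amplifier variable `c i`, weight `α i` -/
def GS (I : Finset ι) (α : ι → ℂ) (c : ι → Eis) (M : Eis) (χ f : Eis → ℂ) (j : ℤ) (w V : ℝ → ℂ)
    (κ t B : ℝ) : ℂ :=
  ∑ i ∈ I, α i * conj (G (c i)) *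
    ∑' a : Eis, End699.ext (fun a => twt χ j t a * w (Real.log (nm a) - κ)) a *
      sy a (c i) * Psi' M f a V B

/-- the coefficient after Poisson summation -/
def cg (M' : Eis) (χ f : Eis → ℂ) (V : ℝ → ℂ) (B : ℝ) (b c : Eis) : ℂ :=
  f b * V (nm b / B) * ((((Real.sqrt (nm b * nm c))⁻¹ : ℝ) : ℂ) *
    (χ (b * c) * (sy (M' * Po581.sq3) c * conj (sy (M' * Po581.sq3) b))))

/-- the transformed double sum at `k`, with angular twist `j` and height `-s` in both variables -/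
def Dk (I : Finset ι) (α : ι → ℂ) (c : ι → Eis) (M M' : Eis) (χ f : Eis → ℂ) (V : ℝ → ℂ)
    (N : ℕ) (B : ℝ) (j : ℤ) (s : ℝ) (k : Eis) : ℂ :=
  ∑ i ∈ I, ∑ b ∈ FB M N, α i * cg M' χ f V B b (c i) * tk k b (c i) *
    (ang j b * ang j (c i) * (osc (-s) (Real.log (nm b)) * osc (-s) (Real.log (nm (c i)))))

/-- conditions on the amplifier variable -/
def Good (I : Finset ι) (α : ι → ℂ) (c : ι → Eis) (M' : Eis) : Prop :=
  ∀ i ∈ I, α i ≠ 0 → Sm M' (c i) ∧ Squarefree (c i)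

lemma sm_of_rad {M M' : Eis} (hrad : ∀ p : Eis, Prime p → p ∣ M' → p ∣ M) {b : Eis}
    (hb : Sm M b) : Sm M' b := by
  refine ⟨hb.1, ?_⟩
  have hb0 := hb.1.ne_zero
  refine isCoprime_of_prime_dvd (fun h => hb0 h.1) fun p hp hpb hpM => ?_
  exact hp.not_isUnit (hb.2.isUnit_of_dvd' hpb (hrad p hp hpM))

section general

variable {I : Finset ι} {α : ι → ℂ} {c : ι → Eis} {M M' : Eis} {χ f : Eis → ℂ}
  {w V : ℝ → ℂ} {R : ℝ} {j : ℤ} {B : ℝ}

lemma summable_term (w1 : ContDiff ℝ ∞ w) (w2 : HasCompactSupport w) (h2M : (2 : Eis) ∣ M)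
    (hMM : M ∣ M') (hrad : ∀ p : Eis, Prime p → p ∣ M' → p ∣ M) (hχ : HC M' χ)
    (hgood : Good I α c M') (t κ : ℝ) {N : ℕ} {i : ι} (hi : i ∈ I) {b : Eis} (hb : b ∈ FB M N) :
    Summable (fun k : Eis => DM M' χ k *
        (α i * cg M' χ f V B b (c i) * tk k b (c i) *
            fC (fX (gt w j t) (Real.exp κ)) (dl k / toC (M' * (b * c i))))) := by
  by_cases h0 : α i = 0
  · simp [h0]
  obtain ⟨hcS, hcsf⟩ := hgood i hi h0
  have hbS := (sm_of_rad hrad (mem_FB.mp hb).2).mono (h2M.trans hMM)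
  have h4 := (summable_tk (tf w1 w2 j t κ) hχ hbS hcS.1).mul_left
    (α i * cg M' χ f V B b (c i))
  rw [coe_tf] at h4
  refine h4.congr fun k => ?_
  ring

/-- first form of the transformed sum -/
theorem GS_eq (w1 : ContDiff ℝ ∞ w)
    (w2 : HasCompactSupport w) (hR : ∀ x, V x ≠ 0 → x ≤ R)
    (h2M : (2 : Eis) ∣ M) (hMM : M ∣ M')
    (hrad : ∀ p : Eis, Prime p → p ∣ M' → p ∣ M) (hχ : HC M' χ)
    (hgood : Good I α c M') (hB : 0 < B) (κ t : ℝ) :
    GS I α c M χ f j w V κ t B =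
      osc t κ * ((2 / (Real.sqrt 3 * nm M') : ℝ) : ℂ) * ∑' k : Eis, DM M' χ k *
        ∑ i ∈ I, ∑ b ∈ FB M ⌊R * B⌋₊,
          α i * cg M' χ f V B b (c i) * tk k b (c i) *
            fC (fX (gt w j t) (Real.exp κ)) (dl k / toC (M' * (b * c i))) := by
  classical
  have h2M' : (2 : Eis) ∣ M' := h2M.trans hMM
  -- the range of `a`
  obtain ⟨Rw, hRw0, hRw⟩ : ∃ R : ℝ, 0 ≤ R ∧ ∀ u, w u ≠ 0 → |u| ≤ R := by
    obtain ⟨R, hR⟩ := w2.isCompact.isBounded.exists_norm_le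
    exact ⟨max R 0, le_max_right _ _, fun u hu =>
      (hR u (subset_tsupport _ hu)).trans (le_max_left _ _)⟩
  set E : Eis → ℂ := End699.ext (fun a => twt χ j t a * w (Real.log (nm a) - κ)) with hE
  set SA : Finset Eis := ball ⌊Real.exp (κ + Rw)⌋₊ with hSA
  have hE0 : ∀ a, a ∉ SA → E a = 0 := by
    intro a ha
    rw [hE]
    simp only [End699.ext]
    split_ifs with hp
    · by_contra hne
      have h1 := hRw _ (right_ne_zero_of_mul hne)
      have h2 := (abs_le.mp h1).2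
      apply ha
      rw [hSA, mem_ball]
      refine Nat.le_floor ?_
      rw [← Real.log_le_iff_le_exp (nm_pos' hp.ne_zero)]
      linarith
    · rfl
  -- the Psi'-sum
  have hPsi : ∀ a, Psi' M f a V B =
      ∑ b ∈ FB M ⌊R * B⌋₊, f b * hN a b * V (nm b / B) := by
    intro a
    unfold Psi'
    exact tsum_Sm hR M (fun b => f b * hN a b) hB V (fun x hx => hx)
  -- one value of the amplifier variable
  have step : ∀ i ∈ I, α i * conj (G (c i)) *
        ∑' a : Eis, E a * sy a (c i) * Psi' M f a V B =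
      ∑ b ∈ FB M ⌊R * B⌋₊, osc t κ * ((2 / (Real.sqrt 3 * nm M') : ℝ) : ℂ) * ∑' k : Eis, DM M' χ k *
        (α i * cg M' χ f V B b (c i) * tk k b (c i) *
            fC (fX (gt w j t) (Real.exp κ)) (dl k / toC (M' * (b * c i)))) := by
    intro i hi
    by_cases h0 : α i = 0
    · rw [h0]
      simp
    obtain ⟨hcS, hcsf⟩ := hgood i hi h0
    have e1 : (∑' a : Eis, E a * sy a (c i) * Psi' M f a V B) =
        ∑ b ∈ FB M ⌊R * B⌋₊, (f b * V (nm b / B)) * ∑' a : Eis, E a * (hN a b * sy a (c i)) := by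
      rw [tsum_eq_sum (s := SA) (fun a ha => by rw [hE0 a ha, zero_mul, zero_mul])]
      have e2 : ∀ b, (∑' a : Eis, E a * (hN a b * sy a (c i))) =
          ∑ a ∈ SA, E a * (hN a b * sy a (c i)) :=
        fun b => tsum_eq_sum (s := SA) (fun a ha => by rw [hE0 a ha, zero_mul])
      simp only [e2, hPsi, Finset.mul_sum]
      rw [Finset.sum_comm]
      refine Finset.sum_congr rfl fun b _ => Finset.sum_congr rfl fun a _ => ?_
      ring
    rw [e1, Finset.mul_sum]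
    refine Finset.sum_congr rfl fun b hb => ?_
    have hbS := sm_of_rad hrad (mem_FB.mp hb).2
    have h3 := inner_eq w1 w2 j t κ hχ h2M' hbS hcS hcsf
    rw [← hE] at h3
    calc α i * conj (G (c i)) * (f b * V (nm b / B) * ∑' a : Eis, E a * (hN a b * sy a (c i)))
        = α i * (f b * V (nm b / B)) *
          (conj (G (c i)) * ∑' a : Eis, E a * (hN a b * sy a (c i))) := by ring
      _ = _ := by
        rw [h3]
        have e4 : ∀ k : Eis, DM M' χ k * (α i * cg M' χ f V B b (c i) * tk k b (c i) *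
            fC (fX (gt w j t) (Real.exp κ)) (dl k / toC (M' * (b * c i)))) =
            (α i * cg M' χ f V B b (c i)) * (DM M' χ k * tk k b (c i) *
            fC (fX (gt w j t) (Real.exp κ)) (dl k / toC (M' * (b * c i)))) := fun k => by ring
        rw [tsum_congr e4, tsum_mul_left]
        unfold cg
        ring
  unfold GS
  rw [Finset.sum_congr rfl step]
  simp only [← Finset.mul_sum]
  congr 1
  -- interchange
  simp only [Finset.mul_sum]
  rw [Summable.tsum_finsetSum (fun i hi => summable_sum fun b hb =>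
    summable_term w1 w2 h2M hMM hrad hχ hgood t κ hi hb)]
  refine Finset.sum_congr rfl fun i hi => ?_
  rw [Summable.tsum_finsetSum (fun b hb =>
    summable_term w1 w2 h2M hMM hrad hχ hgood t κ hi hb)]

end general

/-! ### identification with the natural sum -/

/-- the logarithmic length of the amplifier -/
def gam (r : ℕ) (y Q₀ : ℝ) : ℝ := ∑ i : (Finset.univ : Finset (Fin r)), kap r y Q₀ i

lemma ang_add {b : Eis} (hb : b ≠ 0) (l j : ℤ) : ang (l + j) b = ang l b * ang j b := by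
  unfold ang
  refine zpow_add₀ ?_ l j
  have hz := Po581.toC_ne_zero hb
  exact div_ne_zero hz (by exact_mod_cast (norm_pos_iff.mpr hz).ne')

lemma twt_split {φ : Eis → ℂ} {b : Eis} (hb : b ≠ 0) (l j : ℤ) (t s : ℝ) (x : ℂ) :
    twt φ l t b * x * ang j b * osc (-s) (Real.log (nm b)) =
      twt (fun b => φ b) (l + j) (t - s) b * x := by
  unfold twt End699.tw
  rw [cpow_eq_osc hb, cpow_eq_osc hb, ang_add hb]
  have e : osc (t - s) (Real.log (nm b)) = osc t (Real.log (nm b)) * osc (-s) (Real.log (nm b)) := by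
    unfold osc
    rw [← Complex.exp_add]
    congr 1
    push_cast
    ring
  rw [e]
  ring

lemma twt_mul (φ om : Eis → ℂ) (l : ℤ) (t : ℝ) (b : Eis) :
    twt (fun b => φ b * om b) l t b = twt φ l t b * om b := by
  unfold twt End699.tw
  ring

lemma isPrim_prod {r : ℕ} {y Q₀ : ℝ} {J : Finset (Fin r)} {p : ∀ _ : J, Eis}
    (hp : p ∈ tup r y Q₀ J) : IsPrim (∏ i : J, p i) := by
  refine Finset.prod_induction _ IsPrim (fun a b ha hb => ha.mul hb) isPrim_one fun i _ => ?_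
  have hmem : p i ∈ prS (kap r y Q₀ i) := by
    unfold tup at hp
    exact Fintype.mem_piFinset.mp hp i
  exact (mem_prS.mp hmem).1.2

lemma prod_hE (h : ℝ → ℂ) {r : ℕ} {y Q₀ : ℝ}
    {p : ∀ _ : (Finset.univ : Finset (Fin r)), Eis} (hp : ∀ i, p i ≠ 0) :
    ∏ i : (Finset.univ : Finset (Fin r)), hE h (Real.log (nm (p i)) - kap r y Q₀ i) =
      ((Real.exp (gam r y Q₀) / nm (∏ i, p i) : ℝ) : ℂ) *
        ∏ i : (Finset.univ : Finset (Fin r)), h (Real.log (nm (p i)) - kap r y Q₀ i) := by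
  unfold hE
  rw [Finset.prod_mul_distrib]
  congr 1
  rw [← Complex.ofReal_prod, ← Real.exp_sum]
  congr 1
  have h1 : ∑ i : (Finset.univ : Finset (Fin r)), -(Real.log (nm (p i)) - kap r y Q₀ i) =
      gam r y Q₀ - Real.log (nm (∏ i, p i)) := by
    rw [Finset.sum_neg_distrib, Finset.sum_sub_distrib]
    unfold gam
    rw [nm_prod', Nat.cast_prod, Real.log_prod (fun i _ => (nm_pos' (hp i)).ne')]
    ring
  have h2 : (0 : ℝ) < nm (∏ i, p i) := nm_pos' (Finset.prod_ne_zero_iff.mpr fun i _ => hp i)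
  rw [h1, Real.exp_sub, Real.exp_log h2]

lemma alg_id {Hp F Sc Ψ Vv Sb SB χb χc s1 s2 T a1 a2 o1 o2 X1 X2 nc : ℂ} (hSB : SB ≠ 0) (hn : nc = Sc * Sc) (hX : X1 * X2 = 1) :
    Hp * (F * Sc⁻¹) * (Ψ * Vv * ((Sb * Sc)⁻¹ * (χb * χc * (s1 * s2)))) * T *
      (a1 * a2 * (o1 * o2)) = (SB⁻¹ * X1) * ((X2 / nc * Hp) * (F * (χc * s1) * a2 * o2) *
        (Ψ * (χb * s2) * a1 * o1 * T * (SB / Sb * Vv))) := by
  have hXX : X1 * X2 * (SB⁻¹ * SB) = 1 := by rw [hX, inv_mul_cancel₀ hSB, one_mul]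
  rw [hn, mul_inv, div_eq_mul_inv, div_eq_mul_inv, mul_inv]
  linear_combination (-(Hp * F * Ψ * Vv * χb * χc * s1 * s2 * T * a1 * a2 * o1 * o2 *
    Sc⁻¹ * Sc⁻¹ * Sb⁻¹)) * hXX

/-- the amplifier weights -/
def alN (h : ℝ → ℂ) (r : ℕ) (y Q₀ : ℝ) (φ : Eis → ℂ) (lc : ℤ) (tc : ℝ)
    (p : ∀ _ : (Finset.univ : Finset (Fin r)), Eis) : ℂ :=
  (∏ i : (Finset.univ : Finset (Fin r)), h (Real.log (nm (p i)) - kap r y Q₀ i)) *
    (twt φ lc tc (∏ i, p i) * ((Real.sqrt (nm (∏ i, p i)))⁻¹ : ℝ))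

/-- the amplifier variable -/
def cN (r : ℕ) (p : ∀ _ : (Finset.univ : Finset (Fin r)), Eis) : Eis := ∏ i, p i

/-- identification of the transformed sum with the natural sum -/
theorem Dk_eq (h : ℝ → ℂ) {V : ℝ → ℂ} {R : ℝ} (hR : ∀ x, V x ≠ 0 → x ≤ R) (r : ℕ)
    (j l lc : ℤ) (M M' : Eis) {χ ψ φ : Eis → ℂ} (hχ : HC M' χ) (y Q₀ : ℝ) {B : ℝ} (hB : 0 < B)
    (tb tc s : ℝ) (k : Eis) :
    Dk (tup r y Q₀ Finset.univ) (alN h r y Q₀ φ lc tc) (cN r) M M' χ (twt ψ l tb) V ⌊R * B⌋₊ B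
      j s k =
      (((Real.sqrt B)⁻¹ * Real.exp (-gam r y Q₀) : ℝ) : ℂ) *
        NSum (hE h) r y Q₀ Finset.univ M (twt (psiD M' χ ψ) (l + j) (tb - s))
          (twt (phiD M' χ φ) (lc + j) (tc - s)) (vH V) B k := by
  classical
  unfold NSum Dk alN cN
  rw [Finset.mul_sum]
  refine Finset.sum_congr rfl fun p hp => ?_
  set c : Eis := ∏ i, p i with hc
  have hcp : IsPrim c := isPrim_prod hp
  have hp0 : ∀ i, p i ≠ 0 := fun i h0 => hcp.ne_zero (Finset.prod_eq_zero (Finset.mem_univ i) h0)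
  have e1 := tsum_Sm (V := V) hR M (fun b => twt (psiD M' χ ψ) (l + j) (tb - s) b * tk k b c) hB
    (vH V) (fun x hx => by unfold vH; rw [hx, mul_zero])
  have e2 : (∑' b : Eis, if Sm M b then twt (psiD M' χ ψ) (l + j) (tb - s) b * tk k b c *
      vH V (nm b / B) else 0) = ∑ b ∈ FB M ⌊R * B⌋₊,
        twt (psiD M' χ ψ) (l + j) (tb - s) b * tk k b c * vH V (nm b / B) := e1
  rw [e2, prod_hE h hp0, ← hc, Finset.mul_sum, Finset.mul_sum]
  refine Finset.sum_congr rfl fun b hb => ?_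
  have hbp := (mem_FB.mp hb).2.1
  have nb := nm_pos' hbp.ne_zero
  have nc := nm_pos' hcp.ne_zero
  have sb := Real.sqrt_pos.mpr nb
  have sc := Real.sqrt_pos.mpr nc
  have sB := Real.sqrt_pos.mpr hB
  have k1 : twt (psiD M' χ ψ) (l + j) (tb - s) b =
      twt ψ l tb b * (χ b * conj (sy (M' * Po581.sq3) b)) * ang j b * osc (-s) (Real.log (nm b)) := by
    rw [twt_split hbp.ne_zero]
    unfold twt End699.tw psiD
    ring
  have k2 : twt (phiD M' χ φ) (lc + j) (tc - s) c =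
      twt φ lc tc c * (χ c * sy (M' * Po581.sq3) c) * ang j c * osc (-s) (Real.log (nm c)) := by
    rw [twt_split hcp.ne_zero]
    unfold twt End699.tw phiD
    ring
  have k3 : vH V (nm b / B) = ((Real.sqrt B / Real.sqrt (nm b) : ℝ) : ℂ) * V (nm b / B) := by
    unfold vH
    congr 2
    rw [Real.rpow_neg (by positivity), ← Real.sqrt_eq_rpow, Real.sqrt_div nb.le, inv_div]
  rw [k1, k2, k3]
  unfold cg
  rw [hχ.char.mul b c hbp hcp, Real.sqrt_mul nb.le]
  have m1 : ((Real.sqrt (nm b) : ℝ) : ℂ) ≠ 0 := by exact_mod_cast sb.ne'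
  have m2 : ((Real.sqrt (nm c) : ℝ) : ℂ) ≠ 0 := by exact_mod_cast sc.ne'
  have m3 : ((Real.sqrt B : ℝ) : ℂ) ≠ 0 := by exact_mod_cast sB.ne'
  have m4 : ((nm c : ℝ) : ℂ) = ((Real.sqrt (nm c) : ℝ) : ℂ) * ((Real.sqrt (nm c) : ℝ) : ℂ) := by
    rw [← Complex.ofReal_mul, Real.mul_self_sqrt nc.le]
  have m5 : (Real.exp (-gam r y Q₀) : ℂ) * (Real.exp (gam r y Q₀) : ℂ) = 1 := by
    rw [← Complex.ofReal_mul, ← Real.exp_add]; simp
  have key := alg_id (Hp := ∏ i : (Finset.univ : Finset (Fin r)),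
      h (Real.log (nm (p i)) - kap r y Q₀ i)) (F := twt φ lc tc c) (Ψ := twt ψ l tb b)
    (Vv := V (nm b / B)) (χb := χ b) (χc := χ c) (s1 := sy (M' * Po581.sq3) c)
    (s2 := conj (sy (M' * Po581.sq3) b)) (T := tk k b c) (a1 := ang j b) (a2 := ang j c)
    (o1 := osc (-s) (Real.log (nm b))) (o2 := osc (-s) (Real.log (nm c)))
    (Sb := ((Real.sqrt (nm b) : ℝ) : ℂ)) m3 m4 m5
  simp only [Complex.ofReal_mul, Complex.ofReal_inv, Complex.ofReal_div] at key ⊢
  exact key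

/-! ### the signed identity -/

/-- the argument of the radial function -/
lemma osc_split (s lk lb lc n B γ : ℝ) :
    osc s ((lk - n) - (lb - B) - (lc - γ)) =
      osc s (B + γ - n) * (osc s lk * (osc (-s) lb * osc (-s) lc)) := by
  unfold osc
  rw [← Complex.exp_add, ← Complex.exp_add, ← Complex.exp_add]
  congr 1
  push_cast
  ring

/-- the block `n` of the dual side, without the constants -/
def blk (hp : ℝ → ℝ) (cc Rp : ℝ) (I : Finset ι) (α : ι → ℂ) (c : ι → Eis) (M M' : Eis)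
    (χ f : Eis → ℂ) (V : ℝ → ℂ) (N : ℕ) (B γ : ℝ) (j : ℤ) (n : ℕ) (s : ℝ) : ℂ :=
  osc s (Real.log B + γ - cc * n) *
    ∑ k ∈ (ball ⌊Real.exp (cc * n + Rp)⌋₊).filter (fun k => k ≠ 0),
      ((hp (Real.log (nm k) - cc * n) : ℝ) : ℂ) * (DM M' χ k * ang (-j) k *
        (osc s (Real.log (nm k)) * Dk I α c M M' χ f V N B j s k))

/-- **Poisson summation and separation of variables, signed identity.** -/
theorem GS_signed {hp : ℝ → ℝ} {cc Rp : ℝ} (hpu : PU hp cc) (hRp : ∀ u, hp u ≠ 0 → |u| ≤ Rp)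
    {w : ℝ → ℂ} (w1 : ContDiff ℝ ∞ w) (w2 : HasCompactSupport w) {V : ℝ → ℂ} {R Rb : ℝ}
    (hR : ∀ x, V x ≠ 0 → x ≤ R) (hRb : ∀ x, V x ≠ 0 → |Real.log x| ≤ Rb)
    (Rc : ℝ) (j : ℤ) (A K : ℕ) :
    ∃ (C : ℝ) (J : ℕ), 0 ≤ C ∧ ∀ {ι : Type} (I : Finset ι) (α : ι → ℂ) (c : ι → Eis)
      (M M' : Eis), (2 : Eis) ∣ M → M ∣ M' → (∀ p : Eis, Prime p → p ∣ M' → p ∣ M) →
      ∀ χ f : Eis → ℂ, HC M' χ → Good I α c M' → ∀ γ : ℝ,
      (∀ i ∈ I, α i ≠ 0 → |Real.log (nm (c i)) - γ| ≤ Rc) → ∀ κ t B : ℝ, 0 < B →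
      ∃ ker : ℕ → ℝ → ℂ, (∀ n, Continuous (ker n)) ∧ (∀ n, Integrable (ker n)) ∧
        (∀ n s, ‖ker n s‖ ≤ C * (1 + |t|) ^ J * ((1 + Real.exp (cc * n - Real.log B - γ + κ -
          Real.log (3 * nm M'))) ^ A)⁻¹ * ((1 + |s|) ^ K)⁻¹) ∧
        Summable (fun n : ℕ => ∫ s, ker n s * blk hp cc Rp I α c M M' χ f V ⌊R * B⌋₊ B γ j n s) ∧
        GS I α c M χ f j w V κ t B =
          osc t κ * ((2 / (Real.sqrt 3 * nm M') : ℝ) : ℂ) * ((Real.exp κ : ℝ) : ℂ) *
            (DM M' χ 0 * fC (gt w j t) 0 * Dk I α c M M' χ f V ⌊R * B⌋₊ B 0 0 0 +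
              ((iS3 / (‖iS3‖ : ℂ)) ^ j * ang j M') *
              ∑' n : ℕ, ∫ s, ker n s * blk hp cc Rp I α c M M' χ f V ⌊R * B⌋₊ B γ j n s) := by
  classical
  set R0 : ℝ := |Rp| + |Rb| + |Rc| with hR0
  have hR00 : 0 ≤ R0 := by positivity
  have hab : (-R0 - 1 : ℝ) ≤ R0 + 1 := by linarith
  have hχ1 : ContDiff ℝ ∞ (Weight600.cutC (-R0 - 1) (R0 + 1) 1) := Weight600.contDiff_cutC
  have hχ2 : HasCompactSupport (Weight600.cutC (-R0 - 1) (R0 + 1) 1) :=
    Weight600.hasCompactSupport_cutC (by norm_num) hab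
  have hχ3 : ∀ u, |u| ≤ R0 → Weight600.cutC (-R0 - 1) (R0 + 1) 1 u = 1 := by
    intro u hu
    have h1 := abs_le.mp hu
    unfold Weight600.cutC
    rw [Weight600.cutL_eq_one (by norm_num) (by linarith) (by linarith)]
    simp
  obtain ⟨C, J, hC, hsep⟩ := rad_sep (ad_gf w1 w2 j) hχ1 hχ2 A K
  refine ⟨C, J, hC, ?_⟩
  intro ι I α c M M' h2M hMM hrad χ f hχ hgood γ hγ κ t B hB
  choose ker hk1 hk2 hk3 hk4 using fun n : ℕ =>
    hsep t (cc * n - Real.log B - γ + κ - Real.log (3 * nm M'))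
  set N := ⌊R * B⌋₊ with hN
  obtain ⟨u0, hu0⟩ : ∃ u0 : ℂ, u0 = (iS3 / (‖iS3‖ : ℂ)) ^ j * ang j M' := ⟨_, rfl⟩
  obtain ⟨S, hS⟩ : ∃ S : Eis → ℂ, ∀ k, S k = ∑ i ∈ I, ∑ b ∈ FB M N,
      α i * cg M' χ f V B b (c i) * tk k b (c i) *
        fC (fX (gt w j t) (Real.exp κ)) (dl k / toC (M' * (b * c i))) := ⟨_, fun _ => rfl⟩
  have hsumm : Summable (fun k => DM M' χ k * S k) := by
    have h1 : Summable (fun k => ∑ i ∈ I, ∑ b ∈ FB M N, DM M' χ k *
        (α i * cg M' χ f V B b (c i) * tk k b (c i) *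
          fC (fX (gt w j t) (Real.exp κ)) (dl k / toC (M' * (b * c i))))) :=
      summable_sum fun i hi => summable_sum fun b hb =>
        summable_term w1 w2 h2M hMM hrad hχ hgood t κ hi hb
    refine h1.congr fun k => ?_
    rw [hS]
    simp only [Finset.mul_sum]
  obtain ⟨z, hz⟩ : ∃ z : Eis → ℂ, ∀ k, z k = if k = 0 then 0 else DM M' χ k * S k :=
    ⟨_, fun _ => rfl⟩
  have hz0 : z 0 = 0 := by rw [hz, if_pos rfl]
  have hzs : Summable z := by
    refine Summable.of_norm_bounded hsumm.norm fun k => ?_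
    rw [hz]
    split_ifs
    · rw [norm_zero]; exact norm_nonneg _
    · exact le_refl _
  have hsplit : ∑' k, DM M' χ k * S k = DM M' χ 0 * S 0 + ∑' k, z k := by
    rw [hsumm.tsum_eq_add_tsum_ite 0]
    congr 1
    exact tsum_congr fun k => (hz k).symm
  have hS0 : S 0 = ((Real.exp κ : ℝ) : ℂ) * (fC (gt w j t) 0 *
      Dk I α c M M' χ f V N B 0 0 0) := by
    have h1 : ∀ b i, fC (fX (gt w j t) (Real.exp κ)) (dl 0 / toC (M' * (b * c i))) =
        ((Real.exp κ : ℝ) : ℂ) * fC (gt w j t) 0 := by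
      intro b i
      rw [fC_fX _ (Real.exp_pos κ)]
      unfold dl
      simp
    rw [hS]
    unfold Dk
    rw [Finset.mul_sum, Finset.mul_sum]
    refine Finset.sum_congr rfl fun i _ => ?_
    rw [Finset.mul_sum, Finset.mul_sum]
    refine Finset.sum_congr rfl fun b _ => ?_
    rw [h1, neg_zero, Weight600.osc_zero_left, Weight600.osc_zero_left]
    unfold ang
    simp only [zpow_zero]
    ring
  -- separation of variables for one `k`
  have hM' := hχ.q0
  have hint : ∀ (n : ℕ) (k : Eis), hp (Real.log (nm k) - cc * n) ≠ 0 → ∀ i ∈ I, ∀ b ∈ FB M N,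
      ∫ s, (α i * cg M' χ f V B b (c i) * tk k b (c i) * (ang j b * ang j (c i))) *
        (ker n s * osc s ((Real.log (nm k) - cc * n) - (Real.log (nm b) - Real.log B) -
          (Real.log (nm (c i)) - γ))) =
      (α i * cg M' χ f V B b (c i) * tk k b (c i) * (ang j b * ang j (c i))) *
        rad (gt w j t) (Real.log (nm k) - Real.log (nm b) - Real.log (nm (c i)) + κ -
          Real.log (3 * nm M')) := by
    intro n k hk i hi b hb
    rw [integral_const_mul]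
    by_cases h0 : α i = 0
    · rw [h0]; simp
    by_cases h1 : V (nm b / B) = 0
    · have : cg M' χ f V B b (c i) = 0 := by unfold cg; rw [h1]; ring
      rw [this]; simp
    congr 1
    rw [hk4, hχ3]
    · rw [one_mul]
      have e1 : (Real.log (nm k) - cc * n) - (Real.log (nm b) - Real.log B) -
          (Real.log (nm (c i)) - γ) + (cc * n - Real.log B - γ + κ - Real.log (3 * nm M')) =
          Real.log (nm k) - Real.log (nm b) - Real.log (nm (c i)) + κ -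
          Real.log (3 * nm M') := by ring
      rw [e1]
      rfl
    · have a1 := hRp _ hk
      have a2 := hRb _ h1
      have a3 := hγ i hi h0
      have hb0 := nm_pos' (mem_FB.mp hb).2.1.ne_zero
      rw [Real.log_div hb0.ne' hB.ne'] at a2
      calc |Real.log (nm k) - cc * n - (Real.log (nm b) - Real.log B) -
            (Real.log (nm (c i)) - γ)|
          ≤ |Real.log (nm k) - cc * n - (Real.log (nm b) - Real.log B)| +
            |Real.log (nm (c i)) - γ| := abs_sub _ _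
        _ ≤ |Real.log (nm k) - cc * n| + |Real.log (nm b) - Real.log B| +
            |Real.log (nm (c i)) - γ| := by gcongr; exact abs_sub _ _
        _ ≤ R0 := by
            rw [hR0]
            have := le_abs_self Rp
            have := le_abs_self Rb
            have := le_abs_self Rc
            linarith
  have hintg : ∀ (n : ℕ) (v : ℝ) (x : ℂ), Integrable (fun s => x * (ker n s * osc s v)) :=
    fun n v x => (integrable_mul_osc (hk2 n) v).const_mul x
  have hDk : ∀ (n : ℕ) (k : Eis) (s : ℝ), ker n s * (osc s (Real.log B + γ - cc * n) *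
      (osc s (Real.log (nm k)) * Dk I α c M M' χ f V N B j s k)) =
      ∑ i ∈ I, ∑ b ∈ FB M N,
        (α i * cg M' χ f V B b (c i) * tk k b (c i) * (ang j b * ang j (c i))) *
        (ker n s * osc s ((Real.log (nm k) - cc * n) - (Real.log (nm b) - Real.log B) -
          (Real.log (nm (c i)) - γ))) := by
    intro n k s
    unfold Dk
    simp only [Finset.mul_sum]
    refine Finset.sum_congr rfl fun i _ => Finset.sum_congr rfl fun b _ => ?_
    rw [osc_split]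
    ring
  have hDki : ∀ (n : ℕ) (k : Eis), Integrable (fun s => ker n s * (osc s (Real.log B + γ - cc * n) *
      (osc s (Real.log (nm k)) * Dk I α c M M' χ f V N B j s k))) := by
    intro n k
    simp only [hDk]
    exact integrable_finsetSum _ fun i _ => integrable_finsetSum _ fun b _ => hintg n _ _
  have hSk : ∀ (n : ℕ) (k : Eis), k ≠ 0 → hp (Real.log (nm k) - cc * n) ≠ 0 →
      S k = ((Real.exp κ : ℝ) : ℂ) * u0 * (ang (-j) k *
        ∫ s, ker n s * (osc s (Real.log B + γ - cc * n) *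
          (osc s (Real.log (nm k)) * Dk I α c M M' χ f V N B j s k))) := by
    intro n k hk0 hk
    have e1 : (∫ s, ker n s * (osc s (Real.log B + γ - cc * n) *
          (osc s (Real.log (nm k)) * Dk I α c M M' χ f V N B j s k))) =
        ∑ i ∈ I, ∑ b ∈ FB M N,
          (α i * cg M' χ f V B b (c i) * tk k b (c i) * (ang j b * ang j (c i))) *
          rad (gt w j t) (Real.log (nm k) - Real.log (nm b) - Real.log (nm (c i)) + κ -
          Real.log (3 * nm M')) := by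
      simp only [hDk]
      rw [integral_finsetSum _ fun i _ => integrable_finsetSum _ fun b _ => hintg n _ _]
      refine Finset.sum_congr rfl fun i hi => ?_
      rw [integral_finsetSum _ fun b _ => hintg n _ _]
      exact Finset.sum_congr rfl fun b hb => hint n k hk i hi b hb
    rw [e1, hS]
    simp only [Finset.mul_sum]
    refine Finset.sum_congr rfl fun i hi => Finset.sum_congr rfl fun b hb => ?_
    by_cases h0 : α i = 0
    · rw [h0]; simp
    have hb0 := (mem_FB.mp hb).2.1.ne_zero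
    have hc0 := (hgood i hi h0).1.1.ne_zero
    rw [weight_k j t κ hM' hk0 hb0 hc0, hu0]
    ring
  -- the block `n`
  have hblk : ∀ n : ℕ, ∑' k : Eis, ((hp (Real.log (nm k) - cc * n) : ℝ) : ℂ) * z k =
      ((Real.exp κ : ℝ) : ℂ) * u0 *
        ∫ s, ker n s * blk hp cc Rp I α c M M' χ f V N B γ j n s := by
    intro n
    set F := (ball ⌊Real.exp (cc * n + Rp)⌋₊).filter (fun k => k ≠ 0) with hF
    have e1 : ∑' k : Eis, ((hp (Real.log (nm k) - cc * n) : ℝ) : ℂ) * z k =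
        ∑ k ∈ F, ((hp (Real.log (nm k) - cc * n) : ℝ) : ℂ) * z k := by
      refine tsum_eq_sum fun k hk => ?_
      by_cases hk0 : k = 0
      · rw [hk0, hz0, mul_zero]
      · have h1 : hp (Real.log (nm k) - cc * n) = 0 := by
          by_contra hne
          apply hk
          rw [hF, Finset.mem_filter, mem_ball]
          refine ⟨Nat.le_floor ?_, hk0⟩
          rw [← Real.log_le_iff_le_exp (nm_pos' hk0)]
          have := (abs_le.mp (hRp _ hne)).2
          linarith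
        rw [h1]; simp
    rw [e1]
    have e2 : (∫ s, ker n s * blk hp cc Rp I α c M M' χ f V N B γ j n s) =
        ∑ k ∈ F, ((hp (Real.log (nm k) - cc * n) : ℝ) : ℂ) * (DM M' χ k * ang (-j) k) *
          ∫ s, ker n s * (osc s (Real.log B + γ - cc * n) *
          (osc s (Real.log (nm k)) * Dk I α c M M' χ f V N B j s k)) := by
      have e3 : ∀ s, ker n s * blk hp cc Rp I α c M M' χ f V N B γ j n s =
          ∑ k ∈ F, (((hp (Real.log (nm k) - cc * n) : ℝ) : ℂ) * (DM M' χ k * ang (-j) k)) *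
            (ker n s * (osc s (Real.log B + γ - cc * n) *
            (osc s (Real.log (nm k)) * Dk I α c M M' χ f V N B j s k))) := by
        intro s
        unfold blk
        rw [← hF, Finset.mul_sum, Finset.mul_sum]
        exact Finset.sum_congr rfl fun k _ => by ring
      simp only [e3]
      rw [integral_finsetSum _ fun k _ => (hDki n k).const_mul _]
      exact Finset.sum_congr rfl fun k _ => integral_const_mul _ _
    rw [e2, Finset.mul_sum]
    refine Finset.sum_congr rfl fun k hk => ?_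
    have hk0 : k ≠ 0 := (Finset.mem_filter.mp hk).2
    by_cases h1 : hp (Real.log (nm k) - cc * n) = 0
    · rw [h1]; simp
    · rw [hz, if_neg hk0, hSk n k hk0 h1]
      ring
  obtain ⟨hb1, hb2⟩ := tsum_block hpu hzs hz0
  simp only [hblk] at hb1 hb2
  have hne : ((Real.exp κ : ℝ) : ℂ) * u0 ≠ 0 := by
    refine mul_ne_zero (by exact_mod_cast (Real.exp_pos κ).ne') ?_
    rw [hu0]
    refine mul_ne_zero (zpow_ne_zero _ (div_ne_zero iS3_ne_zero ?_)) ?_
    · exact_mod_cast (norm_pos_iff.mpr iS3_ne_zero).ne'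
    · unfold ang
      have ht := Po581.toC_ne_zero hM'
      exact zpow_ne_zero _ (div_ne_zero ht (by exact_mod_cast (norm_pos_iff.mpr ht).ne'))
  refine ⟨ker, hk1, hk2, hk3, (summable_mul_left_iff hne).mp hb1, ?_⟩
  rw [GS_eq w1 w2 hR h2M hMM hrad hχ hgood hB κ t]
  have e5 : (∑' k : Eis, DM M' χ k *
        ∑ i ∈ I, ∑ b ∈ FB M ⌊R * B⌋₊,
          α i * cg M' χ f V B b (c i) * tk k b (c i) *
            fC (fX (gt w j t) (Real.exp κ)) (dl k / toC (M' * (b * c i)))) =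
      ∑' k : Eis, DM M' χ k * S k := tsum_congr fun k => by rw [hS]
  rw [e5, hsplit, hb2, hS0, tsum_mul_left, hu0]
  ring

/-! ### the natural sums -/

/-- the sum to be transformed (steps 7.1 - 7.3 lead to it) -/
def TSum (h : ℝ → ℂ) (r : ℕ) (y Q₀ : ℝ) (M : Eis) (χ ψ φ : Eis → ℂ) (j l lc : ℤ) (w V : ℝ → ℂ)
    (κ t tb tc B : ℝ) : ℂ :=
  ∑ p ∈ tup r y Q₀ Finset.univ,
    (∏ i : (Finset.univ : Finset (Fin r)), h (Real.log (nm (p i)) - kap r y Q₀ i)) *
      (twt φ lc tc (∏ i, p i) * ((Real.sqrt (nm (∏ i, p i)))⁻¹ : ℝ) * conj (G (∏ i, p i))) *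
      ∑' a : Eis, End699.ext (fun a => twt χ j t a * w (Real.log (nm a) - κ)) a *
        sy a (∏ i, p i) * Psi' M (twt ψ l tb) a V B

/-- the natural sum on the dual side -/
def ND (h : ℝ → ℂ) (r : ℕ) (y Q₀ : ℝ) (M M' : Eis) (χ ψ φ : Eis → ℂ) (j l lc : ℤ) (V : ℝ → ℂ)
    (tb tc B s : ℝ) (k : Eis) : ℂ :=
  NSum (hE h) r y Q₀ Finset.univ M (twt (psiD M' χ ψ) (l + j) (tb - s))
    (twt (phiD M' χ φ) (lc + j) (tc - s)) (vH V) B k

/-- the block `n` of the dual side -/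
def blkN (hp : ℝ → ℝ) (cc Rp : ℝ) (h : ℝ → ℂ) (r : ℕ) (y Q₀ : ℝ) (M M' : Eis) (χ ψ φ : Eis → ℂ)
    (j l lc : ℤ) (V : ℝ → ℂ) (tb tc B : ℝ) (n : ℕ) (s : ℝ) : ℂ :=
  osc s (Real.log B + gam r y Q₀ - cc * n) *
    ∑ k ∈ (ball ⌊Real.exp (cc * n + Rp)⌋₊).filter (fun k => k ≠ 0),
      ((hp (Real.log (nm k) - cc * n) : ℝ) : ℂ) * (DM M' χ k * ang (-j) k *
        (osc s (Real.log (nm k)) * ND h r y Q₀ M M' χ ψ φ j l lc V tb tc B s k))

lemma TSum_eq_GS (h : ℝ → ℂ) (r : ℕ) (y Q₀ : ℝ) (M : Eis) (χ ψ φ : Eis → ℂ) (j l lc : ℤ)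
    (w V : ℝ → ℂ) (κ t tb tc B : ℝ) :
    TSum h r y Q₀ M χ ψ φ j l lc w V κ t tb tc B =
      GS (tup r y Q₀ Finset.univ) (alN h r y Q₀ φ lc tc) (cN r) M χ (twt ψ l tb) j w V κ t B := by
  unfold TSum GS
  refine Finset.sum_congr rfl fun p _ => ?_
  unfold alN cN
  ring

lemma log_range {h : ℝ → ℂ} (hh : HW h) {r : ℕ} {y Q₀ : ℝ}
    {p : ∀ _ : (Finset.univ : Finset (Fin r)), Eis} (hp : p ∈ tup r y Q₀ Finset.univ)
    (hne : ∏ i : (Finset.univ : Finset (Fin r)), h (Real.log (nm (p i)) - kap r y Q₀ i) ≠ 0) :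
    |Real.log (nm (∏ i, p i)) - gam r y Q₀| ≤ r := by
  have hcp : IsPrim (∏ i, p i) := isPrim_prod hp
  have hp0 : ∀ i, p i ≠ 0 := fun i h0 => hcp.ne_zero (Finset.prod_eq_zero (Finset.mem_univ i) h0)
  rw [nm_prod', Nat.cast_prod, Real.log_prod (fun i _ => (nm_pos' (hp0 i)).ne')]
  unfold gam
  rw [← Finset.sum_sub_distrib]
  refine (Finset.abs_sum_le_sum_abs _ _).trans ?_
  calc ∑ i : (Finset.univ : Finset (Fin r)), |Real.log (nm (p i)) - kap r y Q₀ i|
      ≤ ∑ _i : (Finset.univ : Finset (Fin r)), (1 : ℝ) :=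
        Finset.sum_le_sum fun i _ => hh.supp _ (Finset.prod_ne_zero_iff.mp hne i (Finset.mem_univ i))
    _ = r := by simp

/-- **signed identity for the natural sums** (steps 7.4 and 7.5) -/
theorem TS_signed {hp : ℝ → ℝ} {cc Rp : ℝ} (hpu : PU hp cc) (hRp : ∀ u, hp u ≠ 0 → |u| ≤ Rp)
    {h : ℝ → ℂ} (hh : HW h) (r : ℕ)
    {w : ℝ → ℂ} (w1 : ContDiff ℝ ∞ w) (w2 : HasCompactSupport w) {V : ℝ → ℂ} {R Rb : ℝ}
    (hR : ∀ x, V x ≠ 0 → x ≤ R) (hRb : ∀ x, V x ≠ 0 → |Real.log x| ≤ Rb)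
    (j l lc : ℤ) (A K : ℕ) :
    ∃ (C : ℝ) (J : ℕ), 0 ≤ C ∧ ∀ (M M' : Eis), (2 : Eis) ∣ M → M ∣ M' →
      (∀ p : Eis, Prime p → p ∣ M' → p ∣ M) → ∀ χ ψ φ : Eis → ℂ, HC M' χ →
      ∀ y Q₀ : ℝ, 1 ≤ Q₀ → (nm M : ℝ) < Q₀ ^ (y / r) / 9 → ∀ κ t tb tc B : ℝ, 0 < B →
      ∃ ker : ℕ → ℝ → ℂ, (∀ n, Continuous (ker n)) ∧ (∀ n, Integrable (ker n)) ∧
        (∀ n s, ‖ker n s‖ ≤ C * (1 + |t|) ^ J * ((1 + Real.exp (cc * n - Real.log B -
          gam r y Q₀ + κ - Real.log (3 * nm M'))) ^ A)⁻¹ * ((1 + |s|) ^ K)⁻¹) ∧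
        Summable (fun n : ℕ => ∫ s, ker n s * blkN hp cc Rp h r y Q₀ M M' χ ψ φ j l lc V tb tc B n s) ∧
        TSum h r y Q₀ M χ ψ φ j l lc w V κ t tb tc B =
          osc t κ * ((2 / (Real.sqrt 3 * nm M') : ℝ) : ℂ) * ((Real.exp κ : ℝ) : ℂ) *
            (((Real.sqrt B)⁻¹ * Real.exp (-gam r y Q₀) : ℝ) : ℂ) *
            (DM M' χ 0 * fC (gt w j t) 0 *
              NSum (hE h) r y Q₀ Finset.univ M (twt (psiD M' χ ψ) l tb) (twt (phiD M' χ φ) lc tc)
                (vH V) B 0 +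
              ((iS3 / (‖iS3‖ : ℂ)) ^ j * ang j M') *
              ∑' n : ℕ, ∫ s, ker n s *
                blkN hp cc Rp h r y Q₀ M M' χ ψ φ j l lc V tb tc B n s) := by
  obtain ⟨C, J, hC, H⟩ := GS_signed hpu hRp w1 w2 hR hRb (r : ℝ) j A K
  refine ⟨C, J, hC, ?_⟩
  intro M M' h2M hMM hrad χ ψ φ hχ y Q₀ hQ₀ hMQ κ t tb tc B hB
  have hM0 : M ≠ 0 := fun h0 => hχ.q0 (zero_dvd_iff.mp (h0 ▸ hMM))
  have hgood : Good (tup r y Q₀ Finset.univ) (alN h r y Q₀ φ lc tc) (cN r) M' := by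
    intro p hp hne
    unfold alN at hne
    exact prod_good_M h2M hM0 hrad hh hQ₀ hMQ hp (left_ne_zero_of_mul hne)
  have hlog : ∀ p ∈ tup r y Q₀ Finset.univ, alN h r y Q₀ φ lc tc p ≠ 0 →
      |Real.log (nm (cN r p)) - gam r y Q₀| ≤ r := by
    intro p hp hne
    unfold alN at hne
    exact log_range hh hp (left_ne_zero_of_mul hne)
  obtain ⟨ker, k1, k2, k3, k4, k5⟩ := H (tup r y Q₀ Finset.univ) (alN h r y Q₀ φ lc tc) (cN r)
    M M' h2M hMM hrad χ (twt ψ l tb) hχ hgood (gam r y Q₀) hlog κ t B hB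
  have hblk : ∀ n s, blk hp cc Rp (tup r y Q₀ Finset.univ) (alN h r y Q₀ φ lc tc) (cN r) M M' χ
      (twt ψ l tb) V ⌊R * B⌋₊ B (gam r y Q₀) j n s =
      (((Real.sqrt B)⁻¹ * Real.exp (-gam r y Q₀) : ℝ) : ℂ) *
        blkN hp cc Rp h r y Q₀ M M' χ ψ φ j l lc V tb tc B n s := by
    intro n s
    unfold blk blkN ND
    simp only [Dk_eq h hR r j l lc M M' hχ y Q₀ hB tb tc s]
    simp only [Finset.mul_sum]
    refine Finset.sum_congr rfl fun k _ => ?_
    ring
  have hint : ∀ n, ∫ s, ker n s * blk hp cc Rp (tup r y Q₀ Finset.univ) (alN h r y Q₀ φ lc tc)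
      (cN r) M M' χ (twt ψ l tb) V ⌊R * B⌋₊ B (gam r y Q₀) j n s =
      (((Real.sqrt B)⁻¹ * Real.exp (-gam r y Q₀) : ℝ) : ℂ) *
        ∫ s, ker n s * blkN hp cc Rp h r y Q₀ M M' χ ψ φ j l lc V tb tc B n s := by
    intro n
    rw [← integral_const_mul]
    congr 1
    funext s
    rw [hblk]
    ring
  have hne : (((Real.sqrt B)⁻¹ * Real.exp (-gam r y Q₀) : ℝ) : ℂ) ≠ 0 := by
    have h1 := Real.sqrt_pos.mpr hB
    have h2 : (0 : ℝ) < (Real.sqrt B)⁻¹ * Real.exp (-gam r y Q₀) := by positivity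
    exact_mod_cast h2.ne'
  simp only [hint] at k4 k5
  refine ⟨ker, k1, k2, k3, (summable_mul_left_iff hne).mp k4, ?_⟩
  rw [TSum_eq_GS, k5, tsum_mul_left, Dk_eq h hR r 0 l lc M M' hχ y Q₀ hB tb tc 0 0]
  rw [add_zero, add_zero, sub_zero, sub_zero]
  ring

end Crest.Agent.R017.L7858
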