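import Crest.Agent.R017.L7E_47
import Crest.Agent.R017.L7a_858
import Crest.Agent.R017.L6b_106
import Crest.Agent.R017.BDefs3_770

/-!
# Row 17, section B, L7 (part F): scale sums, the data of the dual terms
-/

set_option autoImplicit false

noncomputable section

open MeasureTheory Complex Set Filter
open scoped ComplexConjugate ContDiff Classical

namespace Crest.Agent.R017.L747

open Crest.Agent.R012 Crest.Agent.R012.Eis
open Crest.Agent.R012.Weight600 (osc norm_osc)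
open Crest.Agent.R017.End699 Crest.Agent.R017.B770 Crest.Agent.R017.FE47 Crest.Agent.R017.Sx545
open Crest.Agent.R017.Sx440 Crest.Agent.R017.Asm986 Crest.Agent.R017.L7858

/-! ### scale sums -/

lemma wexp_le {A : ℕ} {α : ℝ} (h1 : α + 1 ≤ A) (x : ℝ) :
    ((1 + Real.exp x) ^ A)⁻¹ * Real.exp (α * x) ≤ Real.exp (-(min α 1 * |x|)) := by
  have hz : 0 < Real.exp x := Real.exp_pos x
  rcases le_total 0 x with h | h
  · rw [abs_of_nonneg h]
    have h2 : Real.exp (A * x) ≤ (1 + Real.exp x) ^ A := by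
      rw [Real.exp_nat_mul]
      gcongr
      linarith
    calc ((1 + Real.exp x) ^ A)⁻¹ * Real.exp (α * x)
        ≤ (Real.exp (A * x))⁻¹ * Real.exp (α * x) := by gcongr
      _ = Real.exp (-((A - α) * x)) := by
          rw [← Real.exp_neg, ← Real.exp_add]; congr 1; ring
      _ ≤ _ := by
          apply Real.exp_le_exp.mpr
          have : min α 1 ≤ A - α := (min_le_right _ _).trans (by linarith)
          nlinarith
  · rw [abs_of_nonpos h]
    have h2 : ((1 + Real.exp x) ^ A)⁻¹ ≤ 1 := by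
      apply inv_le_one_of_one_le₀
      exact one_le_pow₀ (by linarith)
    calc ((1 + Real.exp x) ^ A)⁻¹ * Real.exp (α * x) ≤ 1 * Real.exp (α * x) := by gcongr
      _ = Real.exp (α * x) := one_mul _
      _ ≤ _ := by
          apply Real.exp_le_exp.mpr
          have : min α 1 ≤ α := min_le_left _ _
          nlinarith

lemma msum {A : ℕ} {α : ℝ} (h0 : 0 < α) (h1 : α + 1 ≤ A) : ∃ B : ℝ, 0 ≤ B ∧ ∀ s : ℝ,
    Summable (fun n : ℕ => ((1 + Real.exp (n + s)) ^ A)⁻¹ * Real.exp (α * n)) ∧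
    ∑' n : ℕ, ((1 + Real.exp (n + s)) ^ A)⁻¹ * Real.exp (α * n) ≤ B * Real.exp (-(α * s)) := by
  obtain ⟨B, hB, hsum⟩ := scale_sum (δ := min α 1) (lt_min h0 one_pos) one_pos
  refine ⟨B, hB, fun s => ?_⟩
  have hle : ∀ n : ℕ, ((1 + Real.exp (n + s)) ^ A)⁻¹ * Real.exp (α * n) ≤
      Real.exp (-(α * s)) * Real.exp (-(min α 1 * |1 * n + s|)) := by
    intro n
    have := wexp_le h1 (n + s)
    calc ((1 + Real.exp (n + s)) ^ A)⁻¹ * Real.exp (α * n)
        = Real.exp (-(α * s)) * (((1 + Real.exp (n + s)) ^ A)⁻¹ * Real.exp (α * (n + s))) := by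
          rw [mul_left_comm, ← Real.exp_add]; congr 2; ring
      _ ≤ _ := by rw [one_mul]; gcongr
  have hs := (hsum s).1.mul_left (Real.exp (-(α * s)))
  have hs1 : Summable (fun n : ℕ => ((1 + Real.exp (n + s)) ^ A)⁻¹ * Real.exp (α * n)) :=
    Summable.of_nonneg_of_le (fun n => by positivity) hle hs
  refine ⟨hs1, ?_⟩
  calc _ ≤ ∑' n : ℕ, Real.exp (-(α * s)) * Real.exp (-(min α 1 * |1 * n + s|)) :=
        hs1.tsum_le_tsum hle hs
    _ = Real.exp (-(α * s)) * ∑' n : ℕ, Real.exp (-(min α 1 * |1 * n + s|)) := tsum_mul_left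
    _ ≤ Real.exp (-(α * s)) * B := by gcongr; exact (hsum s).2
    _ = _ := mul_comm _ _

lemma nsum {N : ℕ} {α : ℝ} (h0 : 0 ≤ α) (h1 : α + 1 ≤ N) : ∃ B : ℝ, 0 ≤ B ∧ ∀ x : ℝ,
    Summable (fun n : ℕ => Real.exp (-(N * |n + x|)) * Real.exp (α * n)) ∧
    ∑' n : ℕ, Real.exp (-(N * |n + x|)) * Real.exp (α * n) ≤ B * Real.exp (-(α * x)) := by
  obtain ⟨B, hB, hsum⟩ := scale_sum (δ := 1) one_pos one_pos
  refine ⟨B, hB, fun s => ?_⟩
  have hle : ∀ n : ℕ, Real.exp (-(N * |n + s|)) * Real.exp (α * n) ≤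
      Real.exp (-(α * s)) * Real.exp (-(1 * |1 * n + s|)) := by
    intro n
    rw [← Real.exp_add, ← Real.exp_add]
    apply Real.exp_le_exp.mpr
    have h2 := le_abs_self ((n : ℝ) + s)
    have h3 := abs_nonneg ((n : ℝ) + s)
    rw [one_mul, one_mul]
    nlinarith [mul_le_mul_of_nonneg_right h1 h3, mul_le_mul_of_nonneg_left h2 h0]
  have hs := (hsum s).1.mul_left (Real.exp (-(α * s)))
  have hs1 : Summable (fun n : ℕ => Real.exp (-(N * |n + s|)) * Real.exp (α * n)) :=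
    Summable.of_nonneg_of_le (fun n => by positivity) hle hs
  refine ⟨hs1, ?_⟩
  calc _ ≤ ∑' n : ℕ, Real.exp (-(α * s)) * Real.exp (-(1 * |1 * n + s|)) :=
        hs1.tsum_le_tsum hle hs
    _ = Real.exp (-(α * s)) * ∑' n : ℕ, Real.exp (-(1 * |1 * n + s|)) := tsum_mul_left
    _ ≤ Real.exp (-(α * s)) * B := by gcongr; exact (hsum s).2
    _ = _ := mul_comm _ _

/-! ### characters -/

lemma dvd_of_sqf {N : Eis} {m : Eis} : Squarefree m → (∀ p : Eis, Prime p → p ∣ m → p ∣ N) →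
    m ∣ N := by
  refine UniqueFactorizationMonoid.induction_on_prime
    (P := fun m => Squarefree m → (∀ p : Eis, Prime p → p ∣ m → p ∣ N) → m ∣ N) m ?_ ?_ ?_
  · intro h
    exact absurd h not_squarefree_zero
  · intro u hu _ _
    exact hu.dvd
  · intro a p ha hp ih hsf hdv
    have h1 : Squarefree a := hsf.squarefree_of_dvd (dvd_mul_left _ _)
    have h2 : ¬ p ∣ a := by
      rintro ⟨b, rfl⟩
      exact hp.not_isUnit (hsf p ⟨b, by ring⟩)
    have h3 : IsCoprime p a := hp.irreducible.coprime_iff_not_dvd.mpr h2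
    exact h3.mul_dvd (hdv p hp (dvd_mul_right _ _))
      (ih h1 fun q hq hqa => hdv q hq (hqa.mul_left _))

lemma hc_lift {q q' : Eis} {χ : Eis → ℂ} (h : HC q χ) (hd : q ∣ q') (h0 : q' ≠ 0)
    (hr : ∀ p : Eis, Prime p → p ∣ q' → p ∣ q) : HC q' χ where
  q0 := h0
  three := h.three.trans hd
  char := h.char
  per a b ha hb hab := h.per a b ha hb (hd.trans hab)
  van a ha hc := by
    refine h.van a ha fun hcop => hc ?_
    refine isCoprime_of_prime_dvd (fun hh => ha.ne_zero hh.1) fun p hp hpa hpq => ?_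
    exact hp.not_isUnit (hcop.isUnit_of_dvd' hpa (hr p hp hpq))

lemma hc_congr {q : Eis} {χ χ' : Eis → ℂ} (h : HC q χ) (he : ∀ a, IsPrim a → χ' a = χ a) :
    HC q χ' where
  q0 := h.q0
  three := h.three
  char :=
    { one := by rw [he 1 isPrim_one]; exact h.char.one
      mul := fun a b ha hb => by
        rw [he _ (ha.mul hb), he a ha, he b hb]; exact h.char.mul a b ha hb
      norm := fun a ha => by rw [he a ha]; exact h.char.norm a ha }
  per a b ha hb hab := by rw [he a ha, he b hb]; exact h.per a b ha hb hab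
  van a ha hc := by rw [he a ha]; exact h.van a ha hc

lemma rad0_dvd {M M' m₀ : Eis} (h36 : (36 : Eis) ∣ M) (hm : Rad0 M m₀) (hMM : M ∣ M') :
    3 * m₀ ∣ M' := by
  have h3 : (3 : Eis) ∣ M := dvd_trans ⟨12, by norm_num⟩ h36
  have h1 : m₀ ∣ M := dvd_of_sqf hm.sqf fun p hp hpm => (hm.iff p hp).mp (hpm.mul_left _)
  exact (IsCoprime.mul_dvd hm.prim.isCoprime_three.symm h3 h1).trans hMM

lemma rad0_rad {M M' m₀ : Eis} (hm : Rad0 M m₀) (hr : ∀ p : Eis, Prime p → p ∣ M' → p ∣ M) :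
    ∀ p : Eis, Prime p → p ∣ M' → p ∣ 3 * m₀ := fun p hp h => (hm.iff p hp).mpr (hr p hp h)

/-- the character of the `a`-sum -/
def ch (m₀ : Eis) (η : Eis → ℂ) (a : Eis) : ℂ := sy a m₀ * η a

lemma hc_m0' {M M' m₀ : Eis} (h36 : (36 : Eis) ∣ M) (hm : Rad0 M m₀) (hMM : M ∣ M')
    (h0 : M' ≠ 0) (hr : ∀ p : Eis, Prime p → p ∣ M' → p ∣ M) : HC M' (fun a => sy a m₀) :=
  hc_lift (L6106.hc_m0 hm.prim) (rad0_dvd h36 hm hMM) h0 (rad0_rad hm hr)

lemma hc_ch {M M' m₀ : Eis} (h36 : (36 : Eis) ∣ M) (hm : Rad0 M m₀) (hMM : M ∣ M')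
    (hr : ∀ p : Eis, Prime p → p ∣ M' → p ∣ M) {η : Eis → ℂ} (hη : HC M' η) :
    HC M' (ch m₀ η) := (hc_m0' h36 hm hMM hη.q0 hr).mul_same hη

lemma hc_left {M M' m₀ : Eis} (h36 : (36 : Eis) ∣ M) (hm : Rad0 M m₀) (hMM : M ∣ M')
    (h0 : M' ≠ 0) (hr : ∀ p : Eis, Prime p → p ∣ M' → p ∣ M) : HC M' (fun c => sy m₀ c) :=
  hc_congr (hc_m0' h36 hm hMM h0 hr) fun _ ha => Sym645.sy_reciprocity hm.prim ha

/-- the data of the `i`-th dual term -/
def PP (h₀ h : ℝ → ℂ) (M' m₀ : Eis) (η ψ' : Eis → ℂ) (j l' : ℤ) : DPar where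
  h₀ := hE h₀
  h := hE h
  V := vH V00
  U := V00
  n := 9 * M'
  φ := phiD M' (ch m₀ η) (fun c => sy m₀ c)
  ψ := psiD M' (ch m₀ η) ψ'
  n₃ := M'
  χ₃ := ch m₀ η
  l₁ := j
  l₂ := l' + j
  l₃ := -j

theorem pp_ok {h₀ h : ℝ → ℂ} (hh₀ : HW h₀) (hh : HW h) {M M' m₀ : Eis} (h36 : (36 : Eis) ∣ M)
    (hm : Rad0 M m₀) (hMM : M ∣ M') (hr : ∀ p : Eis, Prime p → p ∣ M' → p ∣ M)
    {η ψ' : Eis → ℂ} (hη : HC M' η) (hψ : HC M' ψ') {j l' : ℤ} (hj : j ≠ 0)
    (hlj : 4 * l' + j = -4) :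
    (PP h₀ h M' m₀ η ψ' j l').OK := by
  have h9 : (9 : Eis) ∣ M' := (dvd_trans ⟨4, by norm_num⟩ h36).trans hMM
  have hc := hc_ch h36 hm hMM hr hη
  refine ⟨hw_hE hh₀, hw_hE hh, sw_vH sw_V00, sw_V00, (h36.trans hMM).mul_left _,
    hc_phiD h9 hc (hc_left h36 hm hMM hη.q0 hr), hc_psiD h9 hc hψ, hc, ?_,
    Or.inr (Or.inl ⟨hj, rfl, ?_⟩)⟩
  · intro p hp
    refine ⟨fun h => h.mul_left _, fun h => ?_⟩
    rcases hp.dvd_or_dvd h with h1 | h1
    · exact h1.trans h9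
    · exact h1
  · change 4 * (l' + j) = 3 * j - 4
    omega

end Crest.Agent.R017.L747
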