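import Crest.Agent.R017.E4p2_939
import Crest.Agent.R017.E4C_401
import Crest.Agent.R017.E4cnt_92
import Crest.Agent.R017.E4a_352
import Crest.Agent.R017.P3th_283
import Crest.Agent.R017.L7F_47

/-!
# Row 17, block C70, leaf E4, case L (helper939): the polar terms, part 3

Arithmetic of the solutions of `z y₀ c³ y' = l m²`.
-/

set_option autoImplicit false
set_option linter.unusedVariables false
set_option linter.unusedSectionVars false

noncomputable section

open Finset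
open scoped ComplexConjugate

namespace Crest.Agent.R017.E4P939

open Crest.Agent.R012 Crest.Agent.R012.Eis Crest.Agent.R012.Mob705 Crest.Agent.R012.Gauss880
open Crest.Agent.R012.LS2 (S mem_S)
open Crest.Agent.R017.Sx545 (Sm)
open Crest.Agent.R017.PX764 (rho th Gh n6 cD)
open Crest.Agent.R017.CM106 (FS)
open Crest.Agent.R017.E4579 (SupB exists_bp bp_unique)
open Crest.Agent.R017.C70 (CbF)
open Crest.Agent.R017.E4352 (rd rd_prim rd_sqf rd_dvd dvd_rd exists_pp_of_prime)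

/-- squarefree times square -/
lemma exists_sq : ∀ (n : ℕ) {c : Eis}, nm c ≤ n → IsPrim c →
    ∃ s t, IsPrim s ∧ Squarefree s ∧ IsPrim t ∧ c = s * t ^ 2 := by
  intro n
  induction n with
  | zero =>
    intro x hx hp
    exact absurd (nm_eq_zero.mp (Nat.le_zero.mp hx)) hp.ne_zero
  | succ n ih =>
    intro c hn hc
    by_cases h : Squarefree c
    · exact ⟨c, 1, hc, h, isPrim_one, by ring⟩
    · obtain ⟨p, hp, hpc⟩ : ∃ p, Irreducible p ∧ p * p ∣ c := by
        by_contra hcon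
        push Not at hcon
        exact h ((squarefree_iff_no_irreducibles hc.ne_zero).mpr hcon)
      obtain ⟨q, hq, hqp⟩ := exists_pp_of_prime hp.prime hc ((dvd_mul_right p p).trans hpc)
      obtain ⟨c', hc'⟩ : q * q ∣ c := ((hqp.mul_mul hqp).dvd).trans hpc
      have hq2 : IsPrim (q * q) := hq.isPrim.mul hq.isPrim
      have hcp : IsPrim c' := IsPrim.of_mul_left (hc' ▸ hc) hq2
      have hcn : nm c' ≤ n := by
        rw [hc', nm_mul, nm_mul] at hn
        have h2 := hq.one_lt_nm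
        have h3 : 0 < nm c' := nm_pos.mpr hcp.ne_zero
        nlinarith [mul_pos (show 0 < nm q by omega) h3]
      obtain ⟨s, t, hs, hss, ht, rfl⟩ := ih hcn hcp
      exact ⟨s, t * q, hs, hss, ht.mul hq.isPrim, by rw [hc']; ring⟩

/-- odd valuations: `z a b² = l m²`, `p ∣ a` exactly once, `p ∤ z` imply `p ∣ l` -/
lemma dvd_of_odd {p z a b l m : Eis} (hp : Prime p) (hz : ¬ p ∣ z) (ha : p ∣ a)
    (ha2 : ¬ p * p ∣ a) (hb : b ≠ 0) (hm : m ≠ 0) (h : z * (a * b ^ 2) = l * m ^ 2) : p ∣ l := by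
  by_contra hl
  obtain ⟨a', rfl⟩ := ha
  have ha' : ¬ p ∣ a' := fun h' => ha2 (mul_dvd_mul_left p h')
  have fb : FiniteMultiplicity p b := FiniteMultiplicity.of_not_isUnit hp.not_isUnit hb
  have fm : FiniteMultiplicity p m := FiniteMultiplicity.of_not_isUnit hp.not_isUnit hm
  obtain ⟨b', hb', hbn⟩ := fb.exists_eq_pow_mul_and_not_dvd
  obtain ⟨m', hm', hmn⟩ := fm.exists_eq_pow_mul_and_not_dvd
  set k := multiplicity p b
  set j := multiplicity p m
  have e : p ^ (2 * k + 1) * (z * a' * b' ^ 2) = p ^ (2 * j) * (l * m' ^ 2) := by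
    rw [hb', hm'] at h
    calc p ^ (2 * k + 1) * (z * a' * b' ^ 2) = z * (p * a' * (p ^ k * b') ^ 2) := by ring
      _ = l * (p ^ j * m') ^ 2 := h
      _ = _ := by ring
  have n1 : ¬ p ∣ z * a' * b' ^ 2 := fun hd => by
    rcases hp.dvd_or_dvd hd with h1 | h1
    · rcases hp.dvd_or_dvd h1 with h2 | h2
      · exact hz h2
      · exact ha' h2
    · exact hbn (hp.dvd_of_dvd_pow h1)
  have n2 : ¬ p ∣ l * m' ^ 2 := fun hd => by
    rcases hp.dvd_or_dvd hd with h1 | h1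
    · exact hl h1
    · exact hmn (hp.dvd_of_dvd_pow h1)
  have hpn : ∀ i : ℕ, p ^ i ≠ 0 := fun i => pow_ne_zero i hp.ne_zero
  rcases le_or_gt (2 * j) (2 * k + 1) with hle | hlt
  · have e2 : p ^ (2 * k + 1 - 2 * j) * (z * a' * b' ^ 2) = l * m' ^ 2 := by
      apply mul_left_cancel₀ (hpn (2 * j))
      rw [← e, ← mul_assoc, ← pow_add]
      congr 2
      omega
    exact n2 (e2 ▸ ((dvd_pow_self p (by omega)).mul_right _))
  · have e2 : z * a' * b' ^ 2 = p ^ (2 * j - (2 * k + 1)) * (l * m' ^ 2) := by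
      apply mul_left_cancel₀ (hpn (2 * k + 1))
      rw [e, ← mul_assoc (p ^ (2 * k + 1)), ← pow_add]
      congr 2
      omega
    exact n1 (e2 ▸ ((dvd_pow_self p (by omega)).mul_right _))

lemma sqf_dvd_of_odd {z a b l m : Eis} (ha : Squarefree a) (hz : IsCoprime z a)
    (hb : b ≠ 0) (hm : m ≠ 0) (h : z * (a * b ^ 2) = l * m ^ 2) : a ∣ l := by
  refine L747.dvd_of_sqf ha fun p hp hpa => ?_
  refine dvd_of_odd hp (fun hpz => hp.not_isUnit (hz.isUnit_of_dvd' hpz hpa)) hpa ?_ hb hm h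
  intro h2
  exact hp.not_isUnit (ha p h2)

/-- **the key inequality** : `z y₀ c³ y' = l m²` -/
theorem key_n {z y0 c y' l m : Eis} (hy0 : IsPrim y0) (hc : IsPrim c) (hy' : IsPrim y')
    (hs : Squarefree y') (h1 : IsCoprime c y0) (h2 : IsCoprime y' y0) (hz0 : z ≠ 0)
    (hl : l ≠ 0) (hm : m ≠ 0) (hz : IsCoprime z (y0 * c ^ 3 * y'))
    (h : z * (y0 * c ^ 3 * y') = l * m ^ 2) :
    ∃ n : Eis, IsPrim n ∧ n ∣ c ∧ c ∣ y' * n ^ 2 ∧
      (∀ e, Squarefree e → e ∣ c → IsCoprime e y' → e ∣ n) ∧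
      (nm (rd y0) : ℝ) * (nm n : ℝ) ^ 3 * (nm y' : ℝ) ^ 2 ≤ (nm l : ℝ) ^ 2 * nm m := by
  obtain ⟨k0, t0, hk0, hk0s, ht0, hy0e⟩ := exists_sq _ le_rfl hy0
  obtain ⟨s, t, hsp, hss, ht, hce⟩ := exists_sq _ le_rfl hc
  obtain ⟨P, s1, hP, hs1, hse, hPs, hs1c⟩ := exists_bp hy' _ le_rfl hsp
  have hPsq : Squarefree P := hss.squarefree_of_dvd (hse ▸ dvd_mul_right _ _)
  have hs1sq : Squarefree s1 := hss.squarefree_of_dvd (hse ▸ dvd_mul_left _ _)
  obtain ⟨y1, hy1⟩ : P ∣ y' := L747.dvd_of_sqf hPsq hPs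
  have hy1p : IsPrim y1 := IsPrim.of_mul_left (hy1 ▸ hy') hP
  have hy1s : Squarefree y1 := hs.squarefree_of_dvd (hy1 ▸ dvd_mul_left _ _)
  have c1 : IsCoprime s1 y1 := by rw [hy1] at hs1c; exact hs1c.of_mul_right_right
  have c2 : IsCoprime k0 s1 := by
    have : IsCoprime s1 k0 := by
      rw [hce, hse, hy0e] at h1
      exact h1.of_mul_left_left.of_mul_left_right.of_mul_right_left
    exact this.symm
  have c3 : IsCoprime k0 y1 := by
    have : IsCoprime y1 k0 := by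
      rw [hy1, hy0e] at h2
      exact h2.of_mul_left_right.of_mul_right_left
    exact this.symm
  have hasq : Squarefree (k0 * s1 * y1) :=
    (PX764.sqf_mul (c3.mul_left c1)).mpr ⟨(PX764.sqf_mul c2).mpr ⟨hk0s, hs1sq⟩, hy1s⟩
  have hye : y0 * c ^ 3 * y' = (k0 * s1 * y1) * (t0 * P ^ 2 * s1 * t ^ 3) ^ 2 := by
    rw [hy0e, hce, hse, hy1]; ring
  have hal : k0 * s1 * y1 ∣ l := by
    refine sqf_dvd_of_odd (z := z) (b := t0 * P ^ 2 * s1 * t ^ 3) (m := m) hasq ?_ ?_ hm ?_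
    · rw [hye] at hz; exact hz.of_mul_right_left
    · exact mul_ne_zero (mul_ne_zero (mul_ne_zero ht0.ne_zero (pow_ne_zero _ hP.ne_zero))
        hs1.ne_zero) (pow_ne_zero _ ht.ne_zero)
    · rw [← hye]; exact h
  refine ⟨s1 * t, hs1.mul ht, ⟨P * t, by rw [hce, hse]; ring⟩,
    ⟨y1 * s1, by rw [hce, hse, hy1]; ring⟩, ?_, ?_⟩
  · intro e he hec hey
    refine L747.dvd_of_sqf he fun p hp hpe => ?_
    have hpc : p ∣ c := hpe.trans hec
    rw [hce, hse] at hpc
    rcases hp.dvd_or_dvd hpc with h3 | h3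
    · rcases hp.dvd_or_dvd h3 with h4 | h4
      · exact absurd (hey.isUnit_of_dvd' hpe (h4.trans (hy1 ▸ dvd_mul_right _ _))) hp.not_isUnit
      · exact h4.mul_right _
    · exact (hp.dvd_of_dvd_pow h3).mul_left _
  · -- norms
    have n1 : ∀ {a : Eis}, a ≠ 0 → (1 : ℝ) ≤ nm a := fun ha => nm_ge ha
    have hrd : (nm (rd y0) : ℝ) ≤ (nm k0 : ℝ) * nm t0 := by
      have hd : rd y0 ∣ k0 * t0 := by
        refine L747.dvd_of_sqf (rd_sqf y0) fun p hp hpr => ?_
        have : p ∣ y0 := hpr.trans (rd_dvd y0)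
        rw [hy0e] at this
        rcases hp.dvd_or_dvd this with h3 | h3
        · exact h3.mul_right _
        · exact (hp.dvd_of_dvd_pow h3).mul_left _
      have := Div277.nm_le_of_dvd (mul_ne_zero hk0.ne_zero ht0.ne_zero) hd
      rw [nm_mul] at this
      exact_mod_cast this
    have hl1 : (nm k0 : ℝ) * nm s1 * nm y1 ≤ nm l := by
      have := Div277.nm_le_of_dvd hl hal
      rw [nm_mul, nm_mul] at this
      exact_mod_cast this
    have hprod : (nm z : ℝ) * ((nm k0 : ℝ) * (nm t0) ^ 2 * (nm P) ^ 4 * (nm s1) ^ 3 * (nm t) ^ 6 *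
        nm y1) = nm l * (nm m : ℝ) ^ 2 := by
      have e := congrArg (fun x : Eis => (nm x : ℝ)) h

      rw [hye] at e
      simp only [nm_mul, nm_pow] at e
      push_cast at e
      rw [← e]; ring
    have a1 := n1 hk0.ne_zero
    have a2 := n1 ht0.ne_zero
    have a3 := n1 hP.ne_zero
    have a4 := n1 hs1.ne_zero
    have a5 := n1 ht.ne_zero
    have a6 := n1 hy1p.ne_zero
    have a7 := n1 hz0
    have a8 := n1 hl
    have a9 := n1 hm
    have hy'n : (nm y' : ℝ) = nm P * nm y1 := by rw [hy1, nm_mul]; push_cast; ring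
    have hnn : (nm (s1 * t) : ℝ) = nm s1 * nm t := by rw [nm_mul]; push_cast; ring
    rw [hy'n, hnn]
    generalize (nm k0 : ℝ) = K at *
    generalize (nm t0 : ℝ) = T0 at *
    generalize (nm P : ℝ) = p at *
    generalize (nm s1 : ℝ) = S1 at *
    generalize (nm t : ℝ) = T at *
    generalize (nm y1 : ℝ) = Y1 at *
    generalize (nm z : ℝ) = Z at *
    generalize (nm l : ℝ) = L at *
    generalize (nm m : ℝ) = Mm at *
    generalize (nm (rd y0) : ℝ) = ρ at *
    have g1 : ρ * (S1 * T) ^ 3 * (p * Y1) ^ 2 ≤ (K ^ 2 * T0) * (S1 * T) ^ 3 * (p * Y1) ^ 2 := by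
      have : ρ ≤ K ^ 2 * T0 := hrd.trans (by
        have : K * 1 ≤ K * K := mul_le_mul_of_nonneg_left a1 (by linarith)
        nlinarith)
      gcongr
    refine g1.trans ?_
    refine le_of_sq_le_sq ?_ (by positivity)
    have g2 : K * T0 ^ 2 * p ^ 4 * S1 ^ 3 * T ^ 6 * Y1 ≤ L * Mm ^ 2 := by
      rw [← hprod]
      have : 0 ≤ K * T0 ^ 2 * p ^ 4 * S1 ^ 3 * T ^ 6 * Y1 := by positivity
      nlinarith
    have g3 : (K * S1 * Y1) ^ 3 ≤ L ^ 3 := by gcongr
    calc ((K ^ 2 * T0) * (S1 * T) ^ 3 * (p * Y1) ^ 2) ^ 2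
        = (K * S1 * Y1) ^ 3 * (K * T0 ^ 2 * p ^ 4 * S1 ^ 3 * T ^ 6 * Y1) := by ring
      _ ≤ L ^ 3 * (L * Mm ^ 2) := by
          apply mul_le_mul g3 g2 (by positivity) (by positivity)
      _ = (L ^ 2 * Mm) ^ 2 := by ring

end Crest.Agent.R017.E4P939
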