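import Crest.Agent.R017.E4p3_939

/-!
# Row 17, block C70, leaf E4, case L (helper939): the polar terms, part 4

The exact decomposition with primes outside `q`.
-/

set_option autoImplicit false
set_option linter.unusedVariables false
set_option linter.unusedSectionVars false

noncomputable section

open Finset
open scoped ComplexConjugate

namespace Crest.Agent.R017.E4P939

open Crest.Agent.R012 Crest.Agent.R012.Eis Crest.Agent.R012.Mob705 Crest.Agent.R012.Gauss880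
open Crest.Agent.R012.GaussLoc283 (isCoprime_iff_not_dvd)
open Crest.Agent.R012.LS2 (S mem_S)
open Crest.Agent.R012.BilG811 (hbB Sq bil_ls hbB_nonneg)
open Crest.Agent.R012.Tau85 (TP cp)
open Crest.Agent.R017.Sx545 (Sm)
open Crest.Agent.R017.PX764 (rho th Gh n6 cD)
open Crest.Agent.R017.CM106 (FS)
open Crest.Agent.R017.E2440 (NoP)
open Crest.Agent.R017.E4579 (SupB exists_bp bp_unique)
open Crest.Agent.R017.C70 (CbF)
open Crest.Agent.R017.E4352 (rd rd_prim rd_sqf rd_dvd dvd_rd exists_pp_of_prime)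

/-- the structure of the pairs `(x, y)` with `rho (κ x y) ≠ 0` -/
lemma rho_strq {q κ x y : Eis} (hκ : NoP q κ) (hxq : Sm q x) (hyq : Sm q y) (hc : CbF x)
    (h0 : rho (κ * x * y) ≠ 0) :
    ∃ x0 r y0 y' c : Eis, IsPrim x0 ∧ IsPrim r ∧ IsPrim y0 ∧ IsPrim y' ∧ IsPrim c ∧
      x = x0 * r ∧ y = y0 * c ^ 3 * y' ∧ SupB x0 y0 ∧ SupB y0 x0 ∧ Squarefree r ∧
      Squarefree y' ∧ IsCoprime r x0 ∧ IsCoprime r (y0 * c ^ 3 * y') ∧
      IsCoprime (c ^ 3 * y') (x0 * r) := by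
  have ht := rho_ne h0
  have hx := hxq.1
  have hy := hyq.1
  obtain ⟨x0, r, hx0, hr, hxe, hs, hco⟩ := exists_bp hy _ le_rfl hx
  obtain ⟨y0, z, hy0, hz, hye, hs', hco'⟩ := exists_bp hx _ le_rfl hy
  -- supports
  have hS1 : SupB y0 x0 := by
    intro p hp hpy
    have h1 := hs' p hp hpy
    rw [hxe] at h1
    rcases hp.dvd_or_dvd h1 with h2 | h2
    · exact h2
    · exact absurd (hco.isUnit_of_dvd' h2 (hye ▸ hpy.mul_right z)) hp.not_isUnit
  have hS2 : SupB x0 y0 := by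
    intro p hp hpx
    have h1 := hs p hp hpx
    rw [hye] at h1
    rcases hp.dvd_or_dvd h1 with h2 | h2
    · exact h2
    · exact absurd (hco'.isUnit_of_dvd' h2 (hxe ▸ hpx.mul_right r)) hp.not_isUnit
  -- the part of `y` prime to `x`
  have hN1 : NoP (q * x) (κ * x * y0) := by
    refine ⟨mul_ne_zero (mul_ne_zero hκ.1 hx.ne_zero) hy0.ne_zero, fun p hp hpS hd => ?_⟩
    have hpx : ¬ p ∣ x := fun h =>
      hp.not_isUnit (hpS.2.of_mul_right_right.isUnit_of_dvd' dvd_rfl h)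
    rcases hp.dvd_or_dvd hd with h1 | h1
    · rcases hp.dvd_or_dvd h1 with h2 | h2
      · exact hκ.2 p hp ⟨hpS.1, hpS.2.of_mul_right_left⟩ h2
      · exact hpx h2
    · exact hpx (hs' p hp h1)
  have hzq : IsCoprime z q := hyq.2.of_isCoprime_of_dvd_left (hye ▸ dvd_mul_left _ _)
  have hrq : IsCoprime r q := hxq.2.of_isCoprime_of_dvd_left (hxe ▸ dvd_mul_left _ _)
  obtain ⟨⟨y', c⟩, hq, hqz⟩ := exists_TP hN1 (k := z) ⟨hz, hzq.mul_right hco'⟩
    (by rw [show κ * x * y0 * z = κ * x * y by rw [hye]; ring]; exact ht)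
  have hqz' : z = c ^ 3 * y' := by rw [← hqz]; unfold Tau85.cp; ring
  -- the part of `x` prime to `y`
  have hN2 : NoP (q * y) (κ * x0 * y) := by
    refine ⟨mul_ne_zero (mul_ne_zero hκ.1 hx0.ne_zero) hy.ne_zero, fun p hp hpS hd => ?_⟩
    have hpy : ¬ p ∣ y := fun h =>
      hp.not_isUnit (hpS.2.of_mul_right_right.isUnit_of_dvd' dvd_rfl h)
    rcases hp.dvd_or_dvd hd with h1 | h1
    · rcases hp.dvd_or_dvd h1 with h2 | h2
      · exact hκ.2 p hp ⟨hpS.1, hpS.2.of_mul_right_left⟩ h2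
      · exact hpy (hs p hp h2)
    · exact hpy h1
  obtain ⟨⟨d, e⟩, hq2, hq2z⟩ := exists_TP hN2 (k := r) ⟨hr, hrq.mul_right hco⟩
    (by rw [show κ * x0 * y * r = κ * x * y by rw [hxe]; ring]; exact ht)
  have hre : r = d * e ^ 3 := by rw [← hq2z]; rfl
  have he : e = 1 := by
    by_contra hne
    obtain ⟨p, hp, hpe⟩ : ∃ p, Prime p ∧ p ∣ e := by
      obtain ⟨p, hp, hpd⟩ := WfDvdMonoid.exists_irreducible_factor
        (a := e) (fun hu => hne (IsPrim.eq_of_associated hq2.2.2 isPrim_one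
          (associated_one_iff_isUnit.mpr hu))) (IsPrim.ne_zero hq2.2.2)
      exact ⟨p, hp.prime, hpd⟩
    refine hc p hp ?_
    rw [hxe, hre]
    exact (pow_dvd_pow_of_dvd hpe 3).trans ⟨x0 * d, by ring⟩
  have hrs : Squarefree r := by
    rw [hre, he, one_pow, mul_one]; exact hq2.2.1
  refine ⟨x0, r, y0, y', c, hx0, hr, hy0, hq.1, hq.2.2, hxe, by rw [hye, hqz']; ring, hS2, hS1,
    hrs, hq.2.1, ?_, ?_, ?_⟩
  · have h1 : IsCoprime x0 r := E4579.SupB.cop hx0 hs hco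
    exact h1.symm
  · have : y0 * c ^ 3 * y' = y := by rw [hye, hqz']; ring
    rw [this]; exact hco
  · rw [← hqz', ← hxe]; exact hco'

open Classical in
/-- **the decomposition** -/
theorem pol_idq {X Y : ℝ} {q κ : Eis} (hκ : NoP q κ) {A C : Eis → ℂ}
    (hA : ∀ x, A x ≠ 0 → Sm q x) (hC : ∀ y, C y ≠ 0 → Sm q y)
    (hAX : ∀ x, A x ≠ 0 → CbF x ∧ (nm x : ℝ) ≤ X) (hCY : ∀ y, C y ≠ 0 → (nm y : ℝ) ≤ Y) :
    ∑ x ∈ primBall ⌊X⌋₊, A x * ∑ y ∈ primBall ⌊Y⌋₊, C y * conj (rho (κ * x * y)) =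
      ∑ i ∈ IP X Y, conj (rho (κ * i.1 * i.2.1)) *
        ∑ r ∈ primBall ⌊X⌋₊, bA κ A i r * ∑ y ∈ primBall ⌊Y⌋₊, bC κ C i y * conj (sy r y) := by
  have e1 : ∑ x ∈ primBall ⌊X⌋₊, A x * ∑ y ∈ primBall ⌊Y⌋₊, C y * conj (rho (κ * x * y)) =
      ∑ z ∈ primBall ⌊X⌋₊ ×ˢ primBall ⌊Y⌋₊, A z.1 * (C z.2 * conj (rho (κ * z.1 * z.2))) := by
    rw [Finset.sum_product]
    exact Finset.sum_congr rfl fun x _ => by rw [Finset.mul_sum]
  have e2 : ∑ i ∈ IP X Y, conj (rho (κ * i.1 * i.2.1)) *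
        ∑ r ∈ primBall ⌊X⌋₊, bA κ A i r * ∑ y ∈ primBall ⌊Y⌋₊, bC κ C i y * conj (sy r y) =
      ∑ z ∈ IP X Y ×ˢ primBall ⌊X⌋₊ ×ˢ primBall ⌊Y⌋₊, conj (rho (κ * z.1.1 * z.1.2.1)) *
        (bA κ A z.1 z.2.1 * (bC κ C z.1 z.2.2 * conj (sy z.2.1 z.2.2))) := by
    rw [Finset.sum_product]
    refine Finset.sum_congr rfl fun i _ => ?_
    rw [Finset.sum_product, Finset.mul_sum]
    refine Finset.sum_congr rfl fun r _ => ?_
    rw [Finset.mul_sum, Finset.mul_sum]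
  rw [e1, e2]
  symm
  -- facts on the tuples with a nonzero term
  have hval : ∀ z ∈ IP X Y ×ˢ primBall ⌊X⌋₊ ×ˢ primBall ⌊Y⌋₊,
      conj (rho (κ * z.1.1 * z.1.2.1)) *
        (bA κ A z.1 z.2.1 * (bC κ C z.1 z.2.2 * conj (sy z.2.1 z.2.2))) ≠ 0 →
      (IsPrim z.1.1 ∧ IsPrim z.1.2.1 ∧ IsPrim z.1.2.2 ∧ IsPrim z.2.1 ∧ IsPrim z.2.2) ∧
      (SupB z.1.1 z.1.2.1 ∧ SupB z.1.2.1 z.1.1 ∧ IsCoprime z.1.2.2 z.1.1) ∧
      (Squarefree z.2.1 ∧ Squarefree z.2.2 ∧ IsCoprime (κ * z.1.1 * z.1.2.1) z.2.1 ∧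
        IsCoprime (κ * z.1.1 * z.1.2.1 * z.2.1) z.2.2 ∧ IsCoprime z.2.1 z.1.2.2) ∧
      A (z.1.1 * z.2.1) ≠ 0 ∧ C (z.1.2.1 * z.1.2.2 ^ 3 * z.2.2) ≠ 0 ∧
      conj (rho (κ * z.1.1 * z.1.2.1)) *
        (bA κ A z.1 z.2.1 * (bC κ C z.1 z.2.2 * conj (sy z.2.1 z.2.2))) =
        A (z.1.1 * z.2.1) * (C (z.1.2.1 * z.1.2.2 ^ 3 * z.2.2) *
          conj (rho (κ * (z.1.1 * z.2.1) * (z.1.2.1 * z.1.2.2 ^ 3 * z.2.2)))) := by
    intro z hz h0
    rw [Finset.mem_product, Finset.mem_product] at hz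
    obtain ⟨hi, hr, hy⟩ := hz
    unfold IP at hi
    rw [Finset.mem_filter, Finset.mem_product, Finset.mem_product] at hi
    obtain ⟨⟨h1, h2, h3⟩, h4, h5, h6⟩ := hi
    rw [mem_primBall] at h1 h2 h3 hr hy
    have g1 := left_ne_zero_of_mul (right_ne_zero_of_mul h0)
    have g2 := left_ne_zero_of_mul (right_ne_zero_of_mul (right_ne_zero_of_mul h0))
    have g3 := right_ne_zero_of_mul (right_ne_zero_of_mul (right_ne_zero_of_mul h0))
    have g4 : IsCoprime z.2.1 z.1.2.2 := by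
      by_contra hc
      exact g1 (by unfold bA; rw [if_neg hc])
    have g1' : bA κ A z.1 z.2.1 =
        A (z.1.1 * z.2.1) * (((n6 z.2.1 : ℝ) : ℂ) * Gh (κ * z.1.1 * z.1.2.1) z.2.1) := by
      unfold bA; rw [if_pos g4]
    rw [g1'] at g1
    have a1 := left_ne_zero_of_mul g1
    have a2 := Gh_ne hr.2 (right_ne_zero_of_mul (right_ne_zero_of_mul g1))
    unfold bC at g2
    have c1 := left_ne_zero_of_mul g2
    have c2 := Gh_ne hy.2 (right_ne_zero_of_mul (right_ne_zero_of_mul g2))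
    have s1 : IsCoprime z.2.1 z.2.2 := sy_ne hy.2 (fun h => g3 (by rw [h, map_zero]))
    have s2 : IsCoprime (κ * z.1.1 * z.1.2.1 * z.2.1) z.2.2 := c2.2.mul_left s1
    refine ⟨⟨h1.2, h2.2, h3.2, hr.2, hy.2⟩, ⟨h4, h5, h6⟩, ⟨a2.1, c2.1, a2.2, s2, g4⟩, a1, c1, ?_⟩
    rw [rho_val hr.2 a2.1 hy.2 c2.1 h3.2 a2.2 s2, g1']
    unfold bC
    ring
  refine Finset.sum_bij_ne_zero
    (fun z _ _ => (z.1.1 * z.2.1, z.1.2.1 * z.1.2.2 ^ 3 * z.2.2)) ?_ ?_ ?_ ?_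
  · intro z hz h0
    obtain ⟨⟨p1, p2, p3, p4, p5⟩, _, _, a1, c1, _⟩ := hval z hz h0
    rw [Finset.mem_product, GLS106.mem_primBall_floor, GLS106.mem_primBall_floor]
    exact ⟨⟨(hAX _ a1).2, p1.mul p4⟩, hCY _ c1, (p2.mul (p3.pow 3)).mul p5⟩
  · intro z hz h0 z' hz' h0' he
    obtain ⟨⟨p1, p2, p3, p4, p5⟩, ⟨s1, s2, s3⟩, ⟨q1, q2, q3, q4, q5⟩, _, _, _⟩ := hval z hz h0
    obtain ⟨⟨p1', p2', p3', p4', p5'⟩, ⟨s1', s2', s3'⟩, ⟨q1', q2', q3', q4', q5'⟩, _, _, _⟩ :=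
      hval z' hz' h0'
    rw [Prod.mk.injEq] at he
    obtain ⟨e1, e2⟩ := he
    -- `x₀` is the part of `x` at the primes of `y`
    have key : ∀ x0 r y0 y' c : Eis, IsPrim x0 → IsPrim r → IsPrim y0 → IsPrim y' → IsPrim c →
        IsCoprime (κ * x0 * y0) r → IsCoprime (κ * x0 * y0 * r) y' → IsCoprime r c →
        IsCoprime c x0 → IsCoprime r (y0 * c ^ 3 * y') ∧ IsCoprime (c ^ 3 * y') (x0 * r) := by
      intro x0 r y0 y' c hx0 hr hy0 hy' hc k1 k2 k3 k4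
      have t1 : IsCoprime r y0 := k1.symm.of_mul_right_right
      have t2 : IsCoprime r y' := k2.of_mul_left_right
      have t3 : IsCoprime y' x0 := (k2.of_mul_left_left.of_mul_left_left.of_mul_left_right).symm
      exact ⟨(t1.mul_right k3.pow_right).mul_right t2,
        (k4.pow_left.mul_right k3.symm.pow_left).mul_left (t3.mul_right t2.symm)⟩
    obtain ⟨w1, w2⟩ := key _ _ _ _ _ p1 p4 p2 p5 p3 q3 q4 q5 s3
    obtain ⟨w1', w2'⟩ := key _ _ _ _ _ p1' p4' p2' p5' p3' q3' q4' q5' s3'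
    have hY : z.1.2.1 * z.1.2.2 ^ 3 * z.2.2 = z'.1.2.1 * z'.1.2.2 ^ 3 * z'.2.2 := e2
    have hX : z.1.1 * z.2.1 = z'.1.1 * z'.2.1 := e1
    have f1 := bp_unique (b := z.1.2.1 * z.1.2.2 ^ 3 * z.2.2) p1 p1'
      (fun p hp hd => ((s1 p hp hd).mul_right _).mul_right _)
      (fun p hp hd => hY ▸ ((s1' p hp hd).mul_right _).mul_right _) w1 (hY ▸ w1') hX
    have f2 := bp_unique (b := z.1.1 * z.2.1) (y := z.1.2.2 ^ 3 * z.2.2)
      (y' := z'.1.2.2 ^ 3 * z'.2.2) p2 p2'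
      (fun p hp hd => (s2 p hp hd).mul_right _)
      (fun p hp hd => hX ▸ (s2' p hp hd).mul_right _) w2 (hX ▸ w2')
      (by rw [← mul_assoc, ← mul_assoc]; exact hY)
    have f3 := Rho777.cube_factor_inj p5 p3 p5' p3' q2 q2'
      (by rw [mul_comm, f2.2, mul_comm])
    obtain ⟨⟨x0, y0, c⟩, r, y'⟩ := z
    obtain ⟨⟨x0', y0', c'⟩, r', y''⟩ := z'
    simp only at f1 f2 f3 ⊢
    rw [f1.1, f1.2, f2.1, f3.1, f3.2]
  · intro z hz h0
    rw [Finset.mem_product] at hz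
    have a1 := left_ne_zero_of_mul h0
    have c1 := left_ne_zero_of_mul (right_ne_zero_of_mul h0)
    have r1 : rho (κ * z.1 * z.2) ≠ 0 := fun h =>
      right_ne_zero_of_mul (right_ne_zero_of_mul h0) (by rw [h, map_zero])
    have hzx : IsPrim z.1 := (hA _ a1).1
    have hzy : IsPrim z.2 := (hC _ c1).1
    obtain ⟨x0, r, y0, y', c, hx0, hr, hy0, hy', hc, hxe, hye, s1, s2, s3, s4, s5, s6, s7⟩ :=
      rho_strq hκ (hA _ a1) (hC _ c1) (hAX _ a1).1 r1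
    have hrq : Sm q r := ⟨hr, (hA _ a1).2.of_isCoprime_of_dvd_left (hxe ▸ dvd_mul_left _ _)⟩
    have hyq : Sm q y' := ⟨hy', (hC _ c1).2.of_isCoprime_of_dvd_left (hye ▸ dvd_mul_left _ _)⟩
    have n1 : ∀ {a b : Eis}, b ≠ 0 → a ∣ b → (nm a : ℝ) ≤ nm b := fun hb hd => by
      exact_mod_cast Div277.nm_le_of_dvd hb hd
    have m1 := (hAX _ a1).2
    have m2 := hCY _ c1
    have hry : IsCoprime r y0 := s6.of_mul_right_left.of_mul_right_left
    have hrc : IsCoprime r c :=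
      (IsCoprime.pow_right_iff (by norm_num)).mp s6.of_mul_right_left.of_mul_right_right
    have hry' : IsCoprime r y' := s6.of_mul_right_right
    have hyx : IsCoprime y' x0 := s7.of_mul_left_right.of_mul_right_left
    have hcx : IsCoprime c x0 :=
      (IsCoprime.pow_left_iff (by norm_num)).mp s7.of_mul_left_left.of_mul_right_left
    have hyy : IsCoprime y' y0 := E4579.SupB.cop hy0 s2 hyx |>.symm
    have k1 : IsCoprime (κ * x0 * y0) r := ((NoP.coprime hκ hrq).mul_left s5.symm).mul_left hry.symm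
    have k2 : IsCoprime (κ * x0 * y0 * r) y' :=
      (((NoP.coprime hκ hyq).mul_left hyx.symm).mul_left hyy.symm).mul_left hry'
    have hmem : (((x0, y0, c), r, y') : (Eis × Eis × Eis) × Eis × Eis) ∈
        IP X Y ×ˢ primBall ⌊X⌋₊ ×ˢ primBall ⌊Y⌋₊ := by
      rw [Finset.mem_product, Finset.mem_product]
      unfold IP
      rw [Finset.mem_filter, Finset.mem_product, Finset.mem_product]
      simp only [GLS106.mem_primBall_floor]
      refine ⟨⟨⟨⟨?_, hx0⟩, ⟨?_, hy0⟩, ⟨?_, hc⟩⟩, s1, s2, hcx⟩, ⟨?_, hr⟩, ?_, hy'⟩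
      · exact (n1 hzx.ne_zero (hxe ▸ dvd_mul_right _ _)).trans m1
      · exact (n1 hzy.ne_zero (hye ▸ ⟨c ^ 3 * y', by ring⟩)).trans m2
      · exact (n1 hzy.ne_zero (hye ▸ ⟨y0 * c ^ 2 * y', by ring⟩)).trans m2
      · exact (n1 hzx.ne_zero (hxe ▸ dvd_mul_left _ _)).trans m1
      · exact (n1 hzy.ne_zero (hye ▸ dvd_mul_left _ _)).trans m2
    have hv : conj (rho (κ * x0 * y0)) *
        (bA κ A (x0, y0, c) r * (bC κ C (x0, y0, c) y' * conj (sy r y'))) =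
        A z.1 * (C z.2 * conj (rho (κ * z.1 * z.2))) := by
      rw [hxe, hye, rho_val hr s3 hy' s4 hc k1 k2]
      unfold bA bC
      rw [if_pos hrc]
      ring
    refine ⟨((x0, y0, c), r, y'), hmem, ?_, ?_⟩
    · simp only
      rw [hv]; exact h0
    · simp only
      rw [← hxe, ← hye]
  · intro z hz h0
    obtain ⟨_, _, _, _, _, h⟩ := hval z hz h0
    exact h

end Crest.Agent.R017.E4P939
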