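import Crest.Agent.R017.E4p4_939

/-!
# Row 17, block C70, leaf E4, case L (helper939): the polar terms, part 5

Moebius over `(r, c) = 1`, sum over `c` inside.
-/

set_option autoImplicit false
set_option linter.unusedVariables false
set_option linter.unusedSectionVars false

noncomputable section

open Finset
open scoped ComplexConjugate

namespace Crest.Agent.R017.E4P939

open Crest.Agent.R012 Crest.Agent.R012.Eis Crest.Agent.R012.Mob705 Crest.Agent.R012.Gauss880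
open Crest.Agent.R012.LS2 (S mem_S)
open Crest.Agent.R012.Div277 (dvs mem_dvs)
open Crest.Agent.R012.BilG811 (hbB Sq bil_ls hbB_nonneg)
open Crest.Agent.R017.Sx545 (Sm)
open Crest.Agent.R017.PX764 (rho th Gh n6 cD)
open Crest.Agent.R017.E2440 (NoP)
open Crest.Agent.R017.E4579 (SupB exists_bp bp_unique)
open Crest.Agent.R017.C70 (CbF)

open Classical in
/-- the index set `(x₀, y₀)` -/
def IQ (X Y : ℝ) : Finset (Eis × Eis) :=
  (primBall ⌊X⌋₊ ×ˢ primBall ⌊Y⌋₊).filter fun i => SupB i.1 i.2 ∧ SupB i.2 i.1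

open Classical in
/-- the inner sum over `c` -/
def aC (C : Eis → ℂ) (Y : ℝ) (x0 y0 e y : Eis) : ℂ :=
  ∑ c ∈ primBall ⌊Y⌋₊, if IsCoprime c x0 ∧ e ∣ c then C (y0 * c ^ 3 * y) else 0

open Classical in
/-- the bilinear form at `(x₀, y₀, e)` -/
def Ie (κ : Eis) (A C : Eis → ℂ) (X Y : ℝ) (x0 y0 e : Eis) : ℂ :=
  ∑ r ∈ primBall ⌊X⌋₊, (if e ∣ r then A (x0 * r) * (((n6 r : ℝ) : ℂ) * Gh (κ * x0 * y0) r)
    else 0) * ∑ y ∈ primBall ⌊Y⌋₊, (aC C Y x0 y0 e y * (((n6 y : ℝ) : ℂ) *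
      Gh (κ * x0 * y0) y)) * conj (sy r y)

open Classical in
lemma cop_mob {Y : ℝ} {c r : Eis} (hc : c ∈ primBall ⌊Y⌋₊) (hr : IsPrim r) :
    (if IsCoprime r c then (1 : ℂ) else 0) =
      ∑ e ∈ primBall ⌊Y⌋₊, if e ∣ c ∧ e ∣ r then (muE e : ℂ) else 0 := by
  rw [mem_primBall] at hc
  have h := sum_muE_coprime hr hc.2.ne_zero
  have h2 : ((∑ d ∈ dvs c, (if d ∣ r then muE d else 0) : ℤ) : ℂ) =
      ((if IsCoprime r c then 1 else 0 : ℤ) : ℂ) := by rw [h]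
  have e1 : (if IsCoprime r c then (1 : ℂ) else 0) = ((if IsCoprime r c then 1 else 0 : ℤ) : ℂ) := by
    split_ifs <;> simp
  rw [e1, ← h2, Int.cast_sum]
  have e2 : dvs c = (primBall ⌊Y⌋₊).filter (fun e => e ∣ c) := by
    ext e
    rw [mem_dvs hc.2.ne_zero, Finset.mem_filter, mem_primBall]
    constructor
    · rintro ⟨h1, h2⟩
      exact ⟨⟨(Div277.nm_le_of_dvd hc.2.ne_zero h2).trans hc.1, h1⟩, h2⟩
    · rintro ⟨⟨_, h1⟩, h2⟩
      exact ⟨h1, h2⟩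
  rw [e2, Finset.sum_filter]
  refine Finset.sum_congr rfl fun e _ => ?_
  by_cases h1 : e ∣ c <;> by_cases h2 : e ∣ r <;> simp [h1, h2]

open Classical in
/-- **Moebius** -/
lemma mob_c {X Y : ℝ} (κ : Eis) (A C : Eis → ℂ) (x0 y0 : Eis) :
    ∑ c ∈ (primBall ⌊Y⌋₊).filter (fun c => IsCoprime c x0),
      ∑ r ∈ primBall ⌊X⌋₊, bA κ A (x0, y0, c) r *
        ∑ y ∈ primBall ⌊Y⌋₊, bC κ C (x0, y0, c) y * conj (sy r y) =
      ∑ e ∈ primBall ⌊Y⌋₊, (muE e : ℂ) * Ie κ A C X Y x0 y0 e := by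
  -- the left side as a sum over `(c, r, y, e)`
  have e1 : ∀ c ∈ (primBall ⌊Y⌋₊).filter (fun c => IsCoprime c x0), ∀ r ∈ primBall ⌊X⌋₊,
      bA κ A (x0, y0, c) r = ∑ e ∈ primBall ⌊Y⌋₊, if e ∣ c ∧ e ∣ r then
        (muE e : ℂ) * (A (x0 * r) * (((n6 r : ℝ) : ℂ) * Gh (κ * x0 * y0) r)) else 0 := by
    intro c hc r hr
    rw [Finset.mem_filter] at hc
    rw [mem_primBall] at hr
    have h := cop_mob hc.1 hr.2
    have e : bA κ A (x0, y0, c) r = (if IsCoprime r c then (1 : ℂ) else 0) *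
        (A (x0 * r) * (((n6 r : ℝ) : ℂ) * Gh (κ * x0 * y0) r)) := by
      unfold bA
      simp only
      split_ifs <;> simp
    rw [e, h, Finset.sum_mul]
    refine Finset.sum_congr rfl fun e _ => ?_
    split_ifs <;> simp
  have e2 : ∑ c ∈ (primBall ⌊Y⌋₊).filter (fun c => IsCoprime c x0),
      ∑ r ∈ primBall ⌊X⌋₊, bA κ A (x0, y0, c) r *
        ∑ y ∈ primBall ⌊Y⌋₊, bC κ C (x0, y0, c) y * conj (sy r y) =
      ∑ c ∈ (primBall ⌊Y⌋₊).filter (fun c => IsCoprime c x0),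
      ∑ r ∈ primBall ⌊X⌋₊, ∑ e ∈ primBall ⌊Y⌋₊, ∑ y ∈ primBall ⌊Y⌋₊,
        (if e ∣ c ∧ e ∣ r then
        (muE e : ℂ) * (A (x0 * r) * (((n6 r : ℝ) : ℂ) * Gh (κ * x0 * y0) r)) else 0) *
          (bC κ C (x0, y0, c) y * conj (sy r y)) := by
    refine Finset.sum_congr rfl fun c hc => Finset.sum_congr rfl fun r hr => ?_
    rw [e1 c hc r hr, Finset.sum_mul]
    refine Finset.sum_congr rfl fun e _ => ?_
    rw [Finset.mul_sum]
  rw [e2]
  have e3 : ∀ e, (muE e : ℂ) * Ie κ A C X Y x0 y0 e = ∑ r ∈ primBall ⌊X⌋₊,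
      ∑ y ∈ primBall ⌊Y⌋₊, ∑ c ∈ (primBall ⌊Y⌋₊).filter (fun c => IsCoprime c x0),
      (if e ∣ c ∧ e ∣ r then
        (muE e : ℂ) * (A (x0 * r) * (((n6 r : ℝ) : ℂ) * Gh (κ * x0 * y0) r)) else 0) *
          (bC κ C (x0, y0, c) y * conj (sy r y)) := by
    intro e
    unfold Ie
    rw [Finset.mul_sum]
    refine Finset.sum_congr rfl fun r _ => ?_
    rw [Finset.mul_sum, Finset.mul_sum]
    refine Finset.sum_congr rfl fun y _ => ?_
    unfold aC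
    rw [Finset.sum_mul, Finset.sum_mul, Finset.mul_sum, Finset.mul_sum, Finset.sum_filter]
    refine Finset.sum_congr rfl fun c _ => ?_
    unfold bC
    simp only
    by_cases h1 : IsCoprime c x0 <;> by_cases h2 : e ∣ c <;> by_cases h3 : e ∣ r <;>
      simp [h1, h2, h3]
    ring
  simp_rw [e3]
  rw [Finset.sum_comm]
  rw [Finset.sum_comm (s := primBall ⌊Y⌋₊) (t := primBall ⌊X⌋₊)]
  refine Finset.sum_congr rfl fun r _ => ?_
  rw [Finset.sum_comm]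
  refine Finset.sum_congr rfl fun e _ => ?_
  rw [Finset.sum_comm]

open Classical in
/-- **the regrouped form** -/
theorem pol_le {X Y : ℝ} {q κ : Eis} (hκ : NoP q κ) {A C : Eis → ℂ}
    (hA : ∀ x, A x ≠ 0 → Sm q x) (hC : ∀ y, C y ≠ 0 → Sm q y)
    (hAX : ∀ x, A x ≠ 0 → CbF x ∧ (nm x : ℝ) ≤ X) (hCY : ∀ y, C y ≠ 0 → (nm y : ℝ) ≤ Y) :
    ‖∑ x ∈ primBall ⌊X⌋₊, A x * ∑ y ∈ primBall ⌊Y⌋₊, C y * conj (rho (κ * x * y))‖ ≤
      cD * ∑ i ∈ IQ X Y, ∑ e ∈ (primBall ⌊Y⌋₊).filter Squarefree, ‖Ie κ A C X Y i.1 i.2 e‖ := by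
  rw [pol_idq hκ hA hC hAX hCY]
  have e1 : ∑ i ∈ IP X Y, conj (rho (κ * i.1 * i.2.1)) *
        ∑ r ∈ primBall ⌊X⌋₊, bA κ A i r * ∑ y ∈ primBall ⌊Y⌋₊, bC κ C i y * conj (sy r y) =
      ∑ i ∈ IQ X Y, conj (rho (κ * i.1 * i.2)) * ∑ e ∈ primBall ⌊Y⌋₊,
        (muE e : ℂ) * Ie κ A C X Y i.1 i.2 e := by
    unfold IP IQ
    rw [Finset.sum_filter, Finset.sum_filter, Finset.sum_product, Finset.sum_product]
    refine Finset.sum_congr rfl fun x0 _ => ?_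
    rw [Finset.sum_product]
    refine Finset.sum_congr rfl fun y0 _ => ?_
    simp only
    rw [← mob_c κ A C x0 y0]
    by_cases h : SupB x0 y0 ∧ SupB y0 x0
    · rw [if_pos h, Finset.mul_sum, Finset.sum_filter]
      refine Finset.sum_congr rfl fun c _ => ?_
      by_cases h2 : IsCoprime c x0
      · rw [if_pos ⟨h.1, h.2, h2⟩, if_pos h2]
      · rw [if_neg (fun hh => h2 hh.2.2), if_neg h2]
    · rw [if_neg h]
      refine Finset.sum_eq_zero fun c _ => ?_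
      rw [if_neg (fun hh => h ⟨hh.1, hh.2.1⟩)]
  rw [e1, Finset.mul_sum]
  refine (norm_sum_le _ _).trans (Finset.sum_le_sum fun i hi => ?_)
  unfold IQ at hi
  rw [Finset.mem_filter, Finset.mem_product, mem_primBall, mem_primBall] at hi
  have h0 : κ * i.1 * i.2 ≠ 0 :=
    mul_ne_zero (mul_ne_zero hκ.1 hi.1.1.2.ne_zero) hi.1.2.2.ne_zero
  have hrho : ‖rho (κ * i.1 * i.2)‖ ≤ cD := by
    rw [rho_eq_th, norm_mul, Complex.norm_real, Real.norm_of_nonneg PX764.cD_pos.le]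
    exact mul_le_of_le_one_right PX764.cD_pos.le (P3all283.norm_th_le h0)
  rw [norm_mul, RCLike.norm_conj]
  refine mul_le_mul hrho ?_ (norm_nonneg _) PX764.cD_pos.le
  refine (norm_sum_le _ _).trans ?_
  rw [Finset.sum_filter]
  refine Finset.sum_le_sum fun e _ => ?_
  split_ifs with hs
  · rw [norm_mul]
    refine mul_le_of_le_one_left (norm_nonneg _) ?_
    have : |muE e| ≤ 1 := by rw [abs_muE]; split_ifs <;> norm_num
    rw [Complex.norm_intCast]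
    exact_mod_cast this
  · rw [muE_of_not_squarefree hs]
    simp

end Crest.Agent.R017.E4P939
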