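import Crest.Agent.R017.E4p5_939

/-!
# Row 17, block C70, leaf E4, case L (helper939): the polar terms, part 6

The bound for the inner sum over `c`.
-/

set_option autoImplicit false
set_option linter.unusedVariables false
set_option linter.unusedSectionVars false

noncomputable section

open Finset
open scoped ComplexConjugate

namespace Crest.Agent.R017.E4P939

open Crest.Agent.R012 Crest.Agent.R012.Eis Crest.Agent.R012.Mob705 Crest.Agent.R012.Gauss880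
open Crest.Agent.R012.LS2 (S mem_S)
open Crest.Agent.R012.Div277 (dvs mem_dvs tau)
open Crest.Agent.R012.BilG811 (hbB Sq bil_ls hbB_nonneg)
open Crest.Agent.R017.Sx545 (Sm)
open Crest.Agent.R017.PX764 (rho th Gh n6 cD)
open Crest.Agent.R017.E2440 (NoP)
open Crest.Agent.R017.E4579 (SupB exists_bp bp_unique)
open Crest.Agent.R017.C70 (CbF)
open Crest.Agent.R017.E4352 (rd rd_prim rd_sqf rd_dvd dvd_rd exists_pp_of_prime)

/-- the structure of the `y`-coefficients -/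
def LM (C : Eis → ℂ) (c0 Y Λ : ℝ) : Prop :=
  ∀ y, C y ≠ 0 → IsPrim y ∧ (nm y : ℝ) ≤ Y ∧ ‖C y‖ ≤ c0 ∧ ∃ z l m : Eis, z ≠ 0 ∧ l ≠ 0 ∧ m ≠ 0 ∧
    IsCoprime z y ∧ z * y = l * m ^ 2 ∧ (nm l : ℝ) ^ 2 * nm m ≤ Λ

lemma card_primBall_le (N : ℕ) : ((primBall N).card : ℝ) ≤ 100 * N :=
  le_trans (by exact_mod_cast Finset.card_le_card (Div277.primBall_subset_nz N))
    (Div277.card_nz_le N)

open Classical in
/-- multiples of `e` -/
lemma card_mult {e : Eis} (he : IsPrim e) {N Y : ℝ} (hN : 0 ≤ N) :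
    (((primBall ⌊Y⌋₊).filter fun n => e ∣ n ∧ (nm n : ℝ) ≤ N).card : ℝ) ≤ 100 * (N / nm e) := by
  have he1 : (1 : ℝ) ≤ nm e := nm_ge he.ne_zero
  have he0 : (0 : ℝ) < nm e := by linarith
  have hsub : ((primBall ⌊Y⌋₊).filter fun n => e ∣ n ∧ (nm n : ℝ) ≤ N) ⊆
      (primBall ⌊N / nm e⌋₊).image (fun n => e * n) := by
    intro n hn
    rw [Finset.mem_filter, mem_primBall] at hn
    obtain ⟨⟨_, hp⟩, ⟨k, rfl⟩, hk⟩ := hn
    rw [Finset.mem_image]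
    have hkp : IsPrim k := hp.of_mul_left he
    refine ⟨k, ?_, rfl⟩
    rw [GLS106.mem_primBall_floor]
    refine ⟨?_, hkp⟩
    rw [le_div_iff₀ he0]
    rw [nm_mul] at hk
    push_cast at hk
    linarith
  have h1 := Finset.card_le_card hsub
  have h2 : ((primBall ⌊N / nm e⌋₊).image (fun n => e * n)).card ≤ (primBall ⌊N / nm e⌋₊).card :=
    Finset.card_image_le
  calc (((primBall ⌊Y⌋₊).filter fun n => e ∣ n ∧ (nm n : ℝ) ≤ N).card : ℝ)
      ≤ ((primBall ⌊N / nm e⌋₊).card : ℝ) := by exact_mod_cast h1.trans h2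
    _ ≤ 100 * (⌊N / nm e⌋₊ : ℝ) := card_primBall_le _
    _ ≤ 100 * (N / nm e) := by
        gcongr
        exact Nat.floor_le (by positivity)

/-- the length of `n` -/
def Nn (Λ ρ y : ℝ) : ℝ := (Λ / (ρ * y ^ 2)) ^ (1 / 3 : ℝ)

lemma Nn_nonneg {Λ ρ y : ℝ} (hΛ : 0 ≤ Λ) (hρ : 0 ≤ ρ) : 0 ≤ Nn Λ ρ y := by
  unfold Nn; positivity

lemma le_Nn {Λ ρ y n : ℝ} (hρ : 0 < ρ) (hy : 0 < y) (hn : 0 ≤ n) (h : ρ * n ^ 3 * y ^ 2 ≤ Λ) :
    n ≤ Nn Λ ρ y := by
  unfold Nn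
  have h1 : n ^ 3 ≤ Λ / (ρ * y ^ 2) := by
    rw [le_div_iff₀ (by positivity)]; linarith
  calc n = (n ^ 3) ^ (1 / 3 : ℝ) := by
        rw [← Real.rpow_natCast, ← Real.rpow_mul hn]; norm_num
    _ ≤ _ := Real.rpow_le_rpow (by positivity) h1 (by norm_num)

open Classical in
/-- **the inner sum** -/
theorem aC_le {ε : ℝ} (hε : 0 < ε) : ∃ K : ℝ, 0 < K ∧ ∀ (Y Λ c0 : ℝ) (C : Eis → ℂ), 1 ≤ Y →
    0 ≤ Λ → 0 ≤ c0 → LM C c0 Y Λ → ∀ x0 y0 e y : Eis, IsPrim x0 → IsPrim y0 → IsPrim e →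
    IsPrim y → SupB y0 x0 → Squarefree e → Squarefree y → IsCoprime y x0 → IsCoprime e y →
    ‖aC C Y x0 y0 e y‖ ≤ c0 * (K * Y ^ ε * (Nn Λ (nm (rd y0)) (nm y) / nm e)) ∧
      (aC C Y x0 y0 e y ≠ 0 → 1 ≤ Nn Λ (nm (rd y0)) (nm y)) := by
  obtain ⟨K, hK1, hK⟩ := Div277.tau_le_rpow (ε := ε / 3) (by positivity)
  refine ⟨K * 100, by positivity, fun Y Λ c0 C hY hΛ hc0 hLM x0 y0 e y hx0 hy0 he hy hs hes hys
    hyx hey => ?_⟩
  have hρ : (0 : ℝ) < nm (rd y0) := lt_of_lt_of_le one_pos (nm_ge (rd_prim y0).ne_zero)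
  have hyn : (1 : ℝ) ≤ nm y := nm_ge hy.ne_zero
  have hen : (1 : ℝ) ≤ nm e := nm_ge he.ne_zero
  set N := Nn Λ (nm (rd y0)) (nm y) with hN
  have hN0 : 0 ≤ N := Nn_nonneg hΛ hρ.le
  set T := (primBall ⌊Y⌋₊).filter
    (fun c => (IsCoprime c x0 ∧ e ∣ c) ∧ C (y0 * c ^ 3 * y) ≠ 0) with hT
  set 𝒩 := (primBall ⌊Y⌋₊).filter fun n => e ∣ n ∧ (nm n : ℝ) ≤ N with h𝒩
  have hyy0 : IsCoprime y y0 := (SupB.cop hy0 hs hyx).symm
  -- the key inequality
  have key : ∀ c ∈ T, ∃ n ∈ 𝒩, c ∈ dvs (y * n ^ 2) := by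
    intro c hc
    rw [hT, Finset.mem_filter, mem_primBall] at hc
    obtain ⟨⟨hcn, hcp⟩, ⟨hcx, hec⟩, hC0⟩ := hc
    obtain ⟨-, -, -, z, l, m, hz0, hl0, hm0, hzc, heq, hle⟩ := hLM _ hC0
    have hcy0 : IsCoprime c y0 := (SupB.cop hy0 hs hcx).symm
    obtain ⟨n, hn, hnc, hcd, hen', hineq⟩ := key_n hy0 hcp hy hys hcy0 hyy0 hz0 hl0 hm0 hzc heq
    refine ⟨n, ?_, ?_⟩
    · rw [h𝒩, Finset.mem_filter, mem_primBall]
      refine ⟨⟨(Div277.nm_le_of_dvd hcp.ne_zero hnc).trans hcn, hn⟩, hen' e hes hec hey, ?_⟩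
      exact le_Nn hρ (by linarith) (by positivity) (hineq.trans hle)
    · rw [mem_dvs (mul_ne_zero hy.ne_zero (pow_ne_zero _ hn.ne_zero))]
      exact ⟨hcp, hcd⟩
  have hyY : ∀ c ∈ T, (nm y : ℝ) ≤ Y := by
    intro c hc
    rw [hT, Finset.mem_filter, mem_primBall] at hc
    obtain ⟨⟨hcn, hcp⟩, -, hC0⟩ := hc
    obtain ⟨hp, hle, -⟩ := hLM _ hC0
    refine le_trans ?_ hle
    exact_mod_cast Div277.nm_le_of_dvd hp.ne_zero (dvd_mul_left _ _)
  have e1 : aC C Y x0 y0 e y = ∑ c ∈ T, C (y0 * c ^ 3 * y) := by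
    unfold aC
    rw [hT, Finset.sum_filter]
    refine Finset.sum_congr rfl fun c _ => ?_
    by_cases h1 : IsCoprime c x0 ∧ e ∣ c
    · by_cases h2 : C (y0 * c ^ 3 * y) = 0
      · rw [if_pos h1, if_neg (fun h => h.2 h2), h2]
      · rw [if_pos h1, if_pos ⟨h1, h2⟩]
    · rw [if_neg h1, if_neg (fun h => h1 h.1)]
  constructor
  · rcases T.eq_empty_or_nonempty with hTe | hTn
    · rw [e1, hTe, Finset.sum_empty, norm_zero]
      positivity
    · obtain ⟨c1, hc1⟩ := hTn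
      have hyY' := hyY c1 hc1
      have hsub : T ⊆ 𝒩.biUnion (fun n => dvs (y * n ^ 2)) := by
        intro c hc
        obtain ⟨n, hn, hcn⟩ := key c hc
        rw [Finset.mem_biUnion]
        exact ⟨n, hn, hcn⟩
      have hcard : (T.card : ℝ) ≤ ∑ n ∈ 𝒩, (tau (y * n ^ 2) : ℝ) := by
        have h1 := (Finset.card_le_card hsub).trans Finset.card_biUnion_le
        have h2 : (T.card : ℝ) ≤ ((∑ n ∈ 𝒩, (dvs (y * n ^ 2)).card : ℕ) : ℝ) := by
          exact_mod_cast h1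
        rw [Nat.cast_sum] at h2
        exact h2
      have htau : ∀ n ∈ 𝒩, (tau (y * n ^ 2) : ℝ) ≤ K * Y ^ ε := by
        intro n hn
        rw [h𝒩, Finset.mem_filter, GLS106.mem_primBall_floor] at hn
        have h0 : y * n ^ 2 ≠ 0 := mul_ne_zero hy.ne_zero (pow_ne_zero _ hn.1.2.ne_zero)
        refine (hK _ h0).trans ?_
        have hn1 : (nm (y * n ^ 2) : ℝ) ≤ Y ^ 3 := by
          rw [nm_mul, nm_pow]
          push_cast
          calc (nm y : ℝ) * (nm n : ℝ) ^ 2 ≤ Y * Y ^ 2 := by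
                have := hn.1.1
                gcongr
            _ = Y ^ 3 := by ring
        have : (nm (y * n ^ 2) : ℝ) ^ (ε / 3) ≤ Y ^ ε := by
          calc (nm (y * n ^ 2) : ℝ) ^ (ε / 3) ≤ (Y ^ 3) ^ (ε / 3) :=
                Real.rpow_le_rpow (by positivity) hn1 (by positivity)
            _ = Y ^ ε := by
                rw [← Real.rpow_natCast, ← Real.rpow_mul (by linarith)]
                congr 1; push_cast; ring
        gcongr
      have hTc : (T.card : ℝ) ≤ K * 100 * Y ^ ε * (N / nm e) := by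
        calc (T.card : ℝ) ≤ ∑ n ∈ 𝒩, (tau (y * n ^ 2) : ℝ) := hcard
          _ ≤ ∑ n ∈ 𝒩, K * Y ^ ε := Finset.sum_le_sum htau
          _ = (𝒩.card : ℝ) * (K * Y ^ ε) := by rw [Finset.sum_const, nsmul_eq_mul]
          _ ≤ (100 * (N / nm e)) * (K * Y ^ ε) := by
              have := card_mult (Y := Y) he hN0
              gcongr
          _ = _ := by ring
      rw [e1]
      calc ‖∑ c ∈ T, C (y0 * c ^ 3 * y)‖ ≤ ∑ c ∈ T, ‖C (y0 * c ^ 3 * y)‖ := norm_sum_le _ _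
        _ ≤ ∑ c ∈ T, c0 := by
            refine Finset.sum_le_sum fun c hc => ?_
            rw [hT, Finset.mem_filter] at hc
            exact (hLM _ hc.2.2).2.2.1
        _ = c0 * (T.card : ℝ) := by rw [Finset.sum_const, nsmul_eq_mul, mul_comm]
        _ ≤ _ := by gcongr
  · intro h0
    rw [e1] at h0
    obtain ⟨c, hc, -⟩ := Finset.exists_ne_zero_of_sum_ne_zero h0
    obtain ⟨n, hn, -⟩ := key c hc
    rw [h𝒩, Finset.mem_filter, mem_primBall] at hn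
    exact (nm_ge hn.1.2.ne_zero).trans hn.2.2

end Crest.Agent.R017.E4P939
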