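import Crest.Agent.R017.E4p6_939

/-!
# Row 17, block C70, leaf E4, case L (helper939): the polar terms, part 7

The bilinear form at `(x₀, y₀, e)`.
-/

set_option autoImplicit false
set_option linter.unusedVariables false
set_option linter.unusedSectionVars false

noncomputable section

open Finset
open scoped ComplexConjugate

namespace Crest.Agent.R017.E4P939

open Crest.Agent.R012 Crest.Agent.R012.Eis Crest.Agent.R012.Mob705 Crest.Agent.R012.Gauss880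
open Crest.Agent.R012.LS2 (S mem_S)
open Crest.Agent.R012.Div277 (dvs mem_dvs tau)
open Crest.Agent.R012.BilG811 (hbB Sq bil_ls hbB_nonneg)
open Crest.Agent.R017.Sx545 (Sm)
open Crest.Agent.R017.PX764 (rho th Gh n6 cD)
open Crest.Agent.R017.E2440 (NoP)
open Crest.Agent.R017.E4579 (SupB exists_bp bp_unique)
open Crest.Agent.R017.C70 (CbF)
open Crest.Agent.R017.E4352 (rd rd_prim rd_sqf rd_dvd dvd_rd exists_pp_of_prime)

/-- bilinear form of the large sieve -/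
lemma bil_gen {ε : ℝ} (hε : 0 < ε) : ∃ K : ℝ, 0 < K ∧ ∀ C D : ℝ, 1 ≤ C → 1 ≤ D →
    ∀ S T : Finset Eis, Sq C S → Sq D T → ∀ α β : Eis → ℂ,
      ‖∑ r ∈ S, α r * ∑ y ∈ T, β y * conj (sy r y)‖ ≤
        Real.sqrt (hbB ε K C D) * (Real.sqrt (∑ r ∈ S, ‖α r‖ ^ 2) *
          Real.sqrt (∑ y ∈ T, ‖β y‖ ^ 2)) := by
  obtain ⟨K, hK, hls⟩ := bil_ls LS448.hb_final hε
  refine ⟨K, hK, fun C D hC hD S T hS hT α β => ?_⟩
  have hL := hls C D hC hD S T hS hT (fun y => conj (β y))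
  have e3 : ∀ r, ‖∑ y ∈ T, β y * conj (sy r y)‖ = ‖∑ y ∈ T, conj (β y) * sy r y‖ := by
    intro r
    rw [← RCLike.norm_conj, map_sum]
    simp only [map_mul, Complex.conj_conj]
  simp only [RCLike.norm_conj] at hL
  set Q := hbB ε K C D
  have hQ0 : 0 ≤ Q := hbB_nonneg hK.le (by positivity) (by positivity)
  calc ‖∑ r ∈ S, α r * ∑ y ∈ T, β y * conj (sy r y)‖
      ≤ ∑ r ∈ S, ‖α r‖ * ‖∑ y ∈ T, β y * conj (sy r y)‖ := by
        refine (norm_sum_le _ _).trans (Finset.sum_le_sum fun r _ => ?_)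
        rw [norm_mul]
    _ ≤ Real.sqrt (∑ r ∈ S, ‖α r‖ ^ 2) *
        Real.sqrt (∑ r ∈ S, ‖∑ y ∈ T, β y * conj (sy r y)‖ ^ 2) :=
        Real.sum_mul_le_sqrt_mul_sqrt _ _ _
    _ ≤ Real.sqrt (∑ r ∈ S, ‖α r‖ ^ 2) * Real.sqrt (Q * ∑ y ∈ T, ‖β y‖ ^ 2) := by
        gcongr
        calc ∑ r ∈ S, ‖∑ y ∈ T, β y * conj (sy r y)‖ ^ 2
            = ∑ r ∈ S, ‖∑ y ∈ T, conj (β y) * sy r y‖ ^ 2 :=
              Finset.sum_congr rfl fun r _ => by rw [e3 r]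
          _ ≤ Q * ∑ y ∈ T, ‖β y‖ ^ 2 := hL
    _ = _ := by
        rw [Real.sqrt_mul hQ0]
        ring

lemma hb_sqrt {ε K X' H : ℝ} (hε : 0 < ε) (hK : 0 ≤ K) (hX : 1 ≤ X') (hH : 1 ≤ H) :
    Real.sqrt (hbB ε K X' (2 * H)) ≤ Real.sqrt K * (2 * X' * H) ^ (ε / 2) *
      (2 * (X' ^ (1 / 2 : ℝ) * H ^ (1 / 3 : ℝ) + H ^ (1 / 2 : ℝ))) := by
  have hX0 : 0 < X' := by linarith
  have hH0 : 0 < H := by linarith
  apply Real.sqrt_le_iff.mpr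
  refine ⟨by positivity, ?_⟩
  have a2 : (X' ^ (1 / 2 : ℝ) * H ^ (1 / 3 : ℝ)) ^ 2 = X' * H ^ (2 / 3 : ℝ) := by
    rw [mul_pow, ← Real.rpow_natCast, ← Real.rpow_natCast, ← Real.rpow_mul hX0.le,
      ← Real.rpow_mul hH0.le]
    norm_num
  have b2 : (H ^ (1 / 2 : ℝ)) ^ 2 = H := by
    rw [← Real.rpow_natCast, ← Real.rpow_mul hH0.le]; norm_num
  have c2 : ((2 * X' * H) ^ (ε / 2)) ^ 2 = (2 * X' * H) ^ ε := by
    rw [← Real.rpow_natCast, ← Real.rpow_mul (by positivity)]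
    congr 1; push_cast; ring
  have k2 : Real.sqrt K ^ 2 = K := Real.sq_sqrt hK
  have h1 : (X' * (2 * H)) ^ ((2 : ℝ) / 3) ≤ 2 * (X' * H ^ (2 / 3 : ℝ)) := by
    rw [Real.mul_rpow hX0.le (by positivity), Real.mul_rpow (by norm_num) hH0.le]
    have g1 : X' ^ ((2 : ℝ) / 3) ≤ X' := by
      calc X' ^ ((2 : ℝ) / 3) ≤ X' ^ (1 : ℝ) :=
            Real.rpow_le_rpow_of_exponent_le hX (by norm_num)
        _ = X' := Real.rpow_one _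
    have g2 : (2 : ℝ) ^ ((2 : ℝ) / 3) ≤ 2 := by
      calc (2 : ℝ) ^ ((2 : ℝ) / 3) ≤ 2 ^ (1 : ℝ) :=
            Real.rpow_le_rpow_of_exponent_le (by norm_num) (by norm_num)
        _ = 2 := Real.rpow_one _
    calc X' ^ ((2 : ℝ) / 3) * ((2 : ℝ) ^ ((2 : ℝ) / 3) * H ^ ((2 : ℝ) / 3))
        ≤ X' * (2 * H ^ ((2 : ℝ) / 3)) := by gcongr
      _ = _ := by ring
  have h2 : X' ≤ X' * H ^ (2 / 3 : ℝ) :=
    le_mul_of_one_le_right hX0.le (Real.one_le_rpow hH (by norm_num))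
  have e1 : (X' * (2 * H)) ^ ε = (2 * X' * H) ^ ε := by congr 1; ring
  unfold hbB
  rw [e1]
  calc K * (2 * X' * H) ^ ε * (X' + 2 * H + (X' * (2 * H)) ^ ((2 : ℝ) / 3))
      ≤ K * (2 * X' * H) ^ ε * (4 * ((X' ^ (1 / 2 : ℝ) * H ^ (1 / 3 : ℝ)) ^ 2 +
        (H ^ (1 / 2 : ℝ)) ^ 2)) := by
        refine mul_le_mul_of_nonneg_left ?_ (by positivity)
        rw [a2, b2]
        linarith [mul_nonneg hX0.le (Real.rpow_nonneg hH0.le (2 / 3 : ℝ))]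
    _ ≤ K * (2 * X' * H) ^ ε * (2 * (X' ^ (1 / 2 : ℝ) * H ^ (1 / 3 : ℝ) +
        H ^ (1 / 2 : ℝ))) ^ 2 := by
        refine mul_le_mul_of_nonneg_left ?_ (by positivity)
        have p1 : 0 ≤ X' ^ (1 / 2 : ℝ) * H ^ (1 / 3 : ℝ) := by positivity
        have p2 : 0 ≤ H ^ (1 / 2 : ℝ) := by positivity
        nlinarith [mul_nonneg p1 p2]
    _ = (Real.sqrt K * (2 * X' * H) ^ (ε / 2) *
      (2 * (X' ^ (1 / 2 : ℝ) * H ^ (1 / 3 : ℝ) + H ^ (1 / 2 : ℝ)))) ^ 2 := by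
        rw [mul_pow (Real.sqrt K * _), mul_pow (Real.sqrt K), k2, c2]

lemma Nn_eq {Λ ρ y : ℝ} (hΛ : 0 ≤ Λ) (hρ : 0 < ρ) (hy : 0 < y) :
    Nn Λ ρ y = (Λ / ρ) ^ (1 / 3 : ℝ) * y ^ (-(2 / 3) : ℝ) := by
  unfold Nn
  rw [← div_div, Real.div_rpow (by positivity) (by positivity), ← Real.rpow_natCast y 2,
    ← Real.rpow_mul hy.le, div_eq_mul_inv, ← Real.rpow_neg hy.le]
  congr 2; norm_num

lemma Nn_anti {Λ ρ y y' : ℝ} (hΛ : 0 ≤ Λ) (hρ : 0 < ρ) (hy : 0 < y) (h : y ≤ y') :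
    Nn Λ ρ y' ≤ Nn Λ ρ y := by
  unfold Nn
  refine Real.rpow_le_rpow (by positivity) ?_ (by norm_num)
  gcongr

/-- the numeric step at one dyadic block -/
lemma dy_num {Λ ρ X' H : ℝ} (hΛ : 0 ≤ Λ) (hρ : 0 < ρ) (hX : 0 ≤ X') (hH : 0 < H)
    (hN : 1 ≤ Nn Λ ρ H) :
    Nn Λ ρ H * H ^ (1 / 3 : ℝ) * (X' ^ (1 / 2 : ℝ) * H ^ (1 / 3 : ℝ) + H ^ (1 / 2 : ℝ)) ≤
      X' ^ (1 / 2 : ℝ) * (Λ / ρ) ^ (1 / 3 : ℝ) + (Λ / ρ) ^ (5 / 12 : ℝ) := by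
  have hN0 : 0 ≤ Nn Λ ρ H := by linarith
  have h1 : Nn Λ ρ H * H ^ (1 / 3 : ℝ) * H ^ (1 / 3 : ℝ) = (Λ / ρ) ^ (1 / 3 : ℝ) := by
    rw [Nn_eq hΛ hρ hH, mul_assoc, mul_assoc, ← Real.rpow_add hH, ← Real.rpow_add hH]
    norm_num
  have h2 : Nn Λ ρ H ≤ (Nn Λ ρ H) ^ (5 / 4 : ℝ) := by
    calc Nn Λ ρ H = (Nn Λ ρ H) ^ (1 : ℝ) := (Real.rpow_one _).symm
      _ ≤ _ := Real.rpow_le_rpow_of_exponent_le hN (by norm_num)
  have h3 : (Nn Λ ρ H) ^ (5 / 4 : ℝ) * H ^ (1 / 3 : ℝ) * H ^ (1 / 2 : ℝ) =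
      (Λ / ρ) ^ (5 / 12 : ℝ) := by
    rw [Nn_eq hΛ hρ hH, Real.mul_rpow (by positivity) (by positivity), ← Real.rpow_mul
      (by positivity), ← Real.rpow_mul hH.le, mul_assoc, mul_assoc, ← Real.rpow_add hH,
      ← Real.rpow_add hH]
    norm_num
  calc Nn Λ ρ H * H ^ (1 / 3 : ℝ) * (X' ^ (1 / 2 : ℝ) * H ^ (1 / 3 : ℝ) + H ^ (1 / 2 : ℝ))
      = X' ^ (1 / 2 : ℝ) * (Nn Λ ρ H * H ^ (1 / 3 : ℝ) * H ^ (1 / 3 : ℝ)) +
        Nn Λ ρ H * H ^ (1 / 3 : ℝ) * H ^ (1 / 2 : ℝ) := by ring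
    _ ≤ X' ^ (1 / 2 : ℝ) * (Λ / ρ) ^ (1 / 3 : ℝ) +
        (Nn Λ ρ H) ^ (5 / 4 : ℝ) * H ^ (1 / 3 : ℝ) * H ^ (1 / 2 : ℝ) := by
        rw [h1]; gcongr
    _ = _ := by rw [h3]

lemma log_le {ε : ℝ} (hε : 0 < ε) {Y : ℝ} (hY : 1 ≤ Y) :
    ((Nat.log 2 ⌊Y⌋₊ + 1 : ℕ) : ℝ) ≤ (2 / ε + 1) * Y ^ ε := by
  have hY0 : 0 < Y := by linarith
  have h0 : ⌊Y⌋₊ ≠ 0 := by
    have := Nat.one_le_floor_iff Y |>.mpr hY
    omega
  have h1 : (2 : ℝ) ^ (Nat.log 2 ⌊Y⌋₊) ≤ Y := by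
    have : ((2 ^ (Nat.log 2 ⌊Y⌋₊) : ℕ) : ℝ) ≤ (⌊Y⌋₊ : ℝ) := by
      exact_mod_cast Nat.pow_log_le_self 2 h0
    push_cast at this
    exact this.trans (Nat.floor_le hY0.le)
  have h2 : (Nat.log 2 ⌊Y⌋₊ : ℝ) * Real.log 2 ≤ Real.log Y := by
    rw [← Real.log_pow]
    exact Real.log_le_log (by positivity) h1
  have h3 : Real.log Y ≤ Y ^ ε / ε := Real.log_le_rpow_div hY0.le hε
  have h4 : (1 / 2 : ℝ) ≤ Real.log 2 := by
    have := Real.log_two_gt_d9; linarith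
  have h5 : (Nat.log 2 ⌊Y⌋₊ : ℝ) ≤ 2 / ε * Y ^ ε := by
    have h6 : (Nat.log 2 ⌊Y⌋₊ : ℝ) * (1 / 2) ≤ Y ^ ε / ε :=
      (mul_le_mul_of_nonneg_left h4 (Nat.cast_nonneg _)).trans (h2.trans h3)
    calc (Nat.log 2 ⌊Y⌋₊ : ℝ) = 2 * ((Nat.log 2 ⌊Y⌋₊ : ℝ) * (1 / 2)) := by ring
      _ ≤ 2 * (Y ^ ε / ε) := by gcongr
      _ = _ := by ring
  have h6 : 1 ≤ Y ^ ε := Real.one_le_rpow hY hε.le
  push_cast
  calc (Nat.log 2 ⌊Y⌋₊ : ℝ) + 1 ≤ 2 / ε * Y ^ ε + 1 * Y ^ ε := by linarith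
    _ = _ := by ring

/-- the `x`-side norm -/
def Bx (A : Eis → ℂ) (X : ℝ) (x0 : Eis) : ℝ :=
  Real.sqrt (∑ r ∈ S (X / nm x0), ‖A (x0 * r)‖ ^ 2 * n6 r ^ 2)

lemma Bx_nonneg (A : Eis → ℂ) (X : ℝ) (x0 : Eis) : 0 ≤ Bx A X x0 := Real.sqrt_nonneg _

open Classical in
/-- the dyadic classes -/
def Yj (Y : ℝ) (e : Eis) (j : ℕ) : Finset Eis :=
  ((primBall ⌊Y⌋₊).filter fun y => Squarefree y ∧ IsCoprime e y).filter
    fun y => Nat.log 2 (nm y) = j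

lemma mem_Yj {Y : ℝ} {e : Eis} {j : ℕ} {y : Eis} : y ∈ Yj Y e j ↔
    (((nm y : ℝ) ≤ Y ∧ IsPrim y) ∧ Squarefree y ∧ IsCoprime e y) ∧ Nat.log 2 (nm y) = j := by
  classical
  unfold Yj
  rw [Finset.mem_filter, Finset.mem_filter, GLS106.mem_primBall_floor]

lemma Yj_ge {Y : ℝ} {e : Eis} {j : ℕ} {y : Eis} (h : y ∈ Yj Y e j) :
    (2 : ℝ) ^ j ≤ nm y ∧ (nm y : ℝ) ≤ 2 * 2 ^ j := by
  rw [mem_Yj] at h
  have h0 : nm y ≠ 0 := (nm_pos.mpr h.1.1.2.ne_zero).ne'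
  constructor
  · have := Nat.pow_log_le_self 2 h0
    rw [h.2] at this
    exact_mod_cast this
  · have := Nat.lt_pow_succ_log_self (by norm_num : 1 < 2) (nm y)
    rw [h.2] at this
    have h2 : (nm y : ℝ) < 2 ^ (j + 1) := by exact_mod_cast this
    rw [pow_succ] at h2
    linarith

lemma card_Yj {Y : ℝ} {e : Eis} {j : ℕ} : ((Yj Y e j).card : ℝ) ≤ 200 * 2 ^ j := by
  have hsub : Yj Y e j ⊆ primBall (2 ^ (j + 1)) := by
    intro y hy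
    have h1 := (Yj_ge hy).2
    rw [mem_Yj] at hy
    rw [mem_primBall]
    refine ⟨?_, hy.1.1.2⟩
    have : (nm y : ℝ) ≤ ((2 ^ (j + 1) : ℕ) : ℝ) := by push_cast; rw [pow_succ]; linarith
    exact_mod_cast this
  calc ((Yj Y e j).card : ℝ) ≤ ((primBall (2 ^ (j + 1))).card : ℝ) := by
        exact_mod_cast Finset.card_le_card hsub
    _ ≤ 100 * ((2 ^ (j + 1) : ℕ) : ℝ) := card_primBall_le _
    _ = 200 * 2 ^ j := by push_cast; rw [pow_succ]; ring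

open Classical in
/-- the splitting of `Ie` -/
lemma Ie_split {X Y : ℝ} (hX : 1 ≤ X) (hY : 1 ≤ Y) (κ : Eis) (A C : Eis → ℂ) {x0 y0 e : Eis}
    (hx0 : IsPrim x0) (hA : ∀ x, A x ≠ 0 → (nm x : ℝ) ≤ X) :
    Ie κ A C X Y x0 y0 e = ∑ j ∈ range (Nat.log 2 ⌊Y⌋₊ + 1), ∑ r ∈ S (X / nm x0),
      (if e ∣ r then A (x0 * r) * (((n6 r : ℝ) : ℂ) * Gh (κ * x0 * y0) r) else 0) *
      ∑ y ∈ Yj Y e j, (aC C Y x0 y0 e y * (((n6 y : ℝ) : ℂ) * Gh (κ * x0 * y0) y)) *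
        conj (sy r y) := by
  have hn1 : (0 : ℝ) < nm x0 := lt_of_lt_of_le one_pos (nm_ge hx0.ne_zero)
  have hX0 : (0 : ℝ) ≤ X / nm x0 := by positivity
  unfold Ie
  rw [Finset.sum_comm]
  have hsub1 : S (X / nm x0) ⊆ primBall ⌊X⌋₊ := by
    intro r hr
    rw [mem_S hX0] at hr
    rw [GLS106.mem_primBall_floor]
    exact ⟨hr.1.trans (div_le_self (by linarith) (nm_ge hx0.ne_zero)), hr.2.1⟩
  rw [← Finset.sum_subset hsub1]
  · refine Finset.sum_congr rfl fun r hr => ?_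
    rw [← Finset.mul_sum]
    by_cases her : e ∣ r
    · rw [if_pos her]
      congr 1
      have e1 : ∑ y ∈ primBall ⌊Y⌋₊, (aC C Y x0 y0 e y * (((n6 y : ℝ) : ℂ) *
          Gh (κ * x0 * y0) y)) * conj (sy r y) =
          ∑ y ∈ (primBall ⌊Y⌋₊).filter (fun y => Squarefree y ∧ IsCoprime e y),
            (aC C Y x0 y0 e y * (((n6 y : ℝ) : ℂ) * Gh (κ * x0 * y0) y)) * conj (sy r y) := by
        rw [Finset.sum_filter]
        refine Finset.sum_congr rfl fun y hy => ?_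
        rw [mem_primBall] at hy
        split_ifs with hc
        · rfl
        · by_cases hs : Squarefree y
          · have hne : ¬ IsCoprime r y := fun h =>
              hc ⟨hs, h.of_isCoprime_of_dvd_left her⟩
            rw [(syG.eq_zero r y hy.2).mpr hne, map_zero, mul_zero]
          · rw [PX764.Gh_not_sqf hy.2 hs, mul_zero, mul_zero, zero_mul]
      rw [e1]
      unfold Yj
      rw [Finset.sum_fiberwise_of_maps_to]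
      intro y hy
      rw [Finset.mem_filter, mem_primBall] at hy
      rw [Finset.mem_range]
      have := Nat.log_mono_right (b := 2) hy.1.1
      omega
    · rw [if_neg her, zero_mul, zero_mul]
  · intro r hr hn
    rw [mem_primBall] at hr
    split_ifs with he
    · have : A (x0 * r) * (((n6 r : ℝ) : ℂ) * Gh (κ * x0 * y0) r) = 0 := by
        by_contra h0
        have a1 := left_ne_zero_of_mul h0
        have a2 := (Gh_ne hr.2 (right_ne_zero_of_mul (right_ne_zero_of_mul h0))).1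
        apply hn
        rw [mem_S hX0]
        refine ⟨?_, hr.2, a2⟩
        have := hA _ a1
        rw [nm_mul, Nat.cast_mul] at this
        rw [le_div_iff₀ hn1]; linarith
      rw [this]
      simp
    · simp

end Crest.Agent.R017.E4P939
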