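import Crest.Agent.R017.E4p7_939

/-!
# Row 17, block C70, leaf E4, case L (helper939): the polar terms, part 8

The bound of the bilinear form at `(x₀, y₀, e)`.
-/

set_option autoImplicit false
set_option linter.unusedVariables false
set_option linter.unusedSectionVars false

noncomputable section

open Finset
open scoped ComplexConjugate

namespace Crest.Agent.R017.E4P939

open Crest.Agent.R012 Crest.Agent.R012.Eis Crest.Agent.R012.Mob705 Crest.Agent.R012.Gauss880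
open Crest.Agent.R012.LS2 (S mem_S)
open Crest.Agent.R012.Div277 (dvs mem_dvs tau)
open Crest.Agent.R012.BilG811 (hbB Sq bil_ls hbB_nonneg)
open Crest.Agent.R017.Sx545 (Sm)
open Crest.Agent.R017.PX764 (rho th Gh n6 cD)
open Crest.Agent.R017.E2440 (NoP)
open Crest.Agent.R017.E4579 (SupB exists_bp bp_unique)
open Crest.Agent.R017.C70 (CbF)
open Crest.Agent.R017.E4352 (rd rd_prim rd_sqf rd_dvd dvd_rd exists_pp_of_prime)

/-- the two-term bound -/
def tt (Λ ρ X' : ℝ) : ℝ := X' ^ (1 / 2 : ℝ) * (Λ / ρ) ^ (1 / 3 : ℝ) + (Λ / ρ) ^ (5 / 12 : ℝ)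

lemma tt_nonneg {Λ ρ X' : ℝ} (h1 : 0 ≤ Λ) (h2 : 0 ≤ ρ) (h3 : 0 ≤ X') : 0 ≤ tt Λ ρ X' := by
  unfold tt; positivity

open Classical in
theorem Ie_le {ε : ℝ} (hε : 0 < ε) : ∃ K : ℝ, 0 < K ∧ ∀ (X Y Λ c0 : ℝ) (κ : Eis)
    (A C : Eis → ℂ), 1 ≤ X → 1 ≤ Y → 0 ≤ Λ → 0 ≤ c0 → (∀ x, A x ≠ 0 → (nm x : ℝ) ≤ X) →
    LM C c0 Y Λ → ∀ x0 y0 e : Eis, IsPrim x0 → IsPrim y0 → IsPrim e → SupB y0 x0 →
    Squarefree e → (nm x0 : ℝ) ≤ X →
    ‖Ie κ A C X Y x0 y0 e‖ ≤
      c0 * (K * (X * Y) ^ ε * (Bx A X x0 * tt Λ (nm (rd y0)) (X / nm x0)) / nm e) := by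
  obtain ⟨K1, hK1, haC⟩ := aC_le (ε := ε / 4) (by positivity)
  obtain ⟨K2, hK2, hbil⟩ := bil_gen (ε := ε / 2) (by positivity)
  refine ⟨(2 / (ε / 4) + 1) * (30 * Real.sqrt K2 * 2 ^ (ε / 4) * K1), by positivity, ?_⟩
  intro X Y Λ c0 κ A C hX hY hΛ hc0 hA hLM x0 y0 e hx0 hy0 he hs hes hx0X
  have hX0 : 0 < X := by linarith
  have hY0 : 0 < Y := by linarith
  have hn1 : (1 : ℝ) ≤ nm x0 := nm_ge hx0.ne_zero
  have hen : (1 : ℝ) ≤ nm e := nm_ge he.ne_zero
  have hρ : (0 : ℝ) < nm (rd y0) := lt_of_lt_of_le one_pos (nm_ge (rd_prim y0).ne_zero)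
  set ρ : ℝ := (nm (rd y0) : ℝ) with hρd
  set X' : ℝ := X / nm x0 with hX'
  have hX'1 : 1 ≤ X' := by
    rw [hX', le_div_iff₀ (by linarith)]; linarith
  have hX'X : X' ≤ X := div_le_self hX0.le hn1
  have hX'0 : 0 < X' := by linarith
  -- one dyadic block
  have hj : ∀ j ∈ range (Nat.log 2 ⌊Y⌋₊ + 1), ‖∑ r ∈ S X',
      (if e ∣ r then A (x0 * r) * (((n6 r : ℝ) : ℂ) * Gh (κ * x0 * y0) r) else 0) *
      ∑ y ∈ Yj Y e j, (aC C Y x0 y0 e y * (((n6 y : ℝ) : ℂ) * Gh (κ * x0 * y0) y)) *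
        conj (sy r y)‖ ≤ c0 * ((30 * Real.sqrt K2 * 2 ^ (ε / 4) * K1) *
          ((X * Y) ^ (ε / 4) * Y ^ (ε / 4)) * (Bx A X x0 * tt Λ ρ X') / nm e) := by
    intro j hjr
    set H : ℝ := 2 ^ j with hH
    have hH1 : 1 ≤ H := one_le_pow₀ (by norm_num)
    have hH0 : 0 < H := by linarith
    have hHY : H ≤ Y := by
      rw [Finset.mem_range] at hjr
      have h0 : ⌊Y⌋₊ ≠ 0 := by
        have := Nat.one_le_floor_iff Y |>.mpr hY
        omega
      have h1 : (2 : ℝ) ^ (Nat.log 2 ⌊Y⌋₊) ≤ Y := by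
        have : ((2 ^ (Nat.log 2 ⌊Y⌋₊) : ℕ) : ℝ) ≤ (⌊Y⌋₊ : ℝ) := by
          exact_mod_cast Nat.pow_log_le_self 2 h0
        push_cast at this
        exact this.trans (Nat.floor_le hY0.le)
      exact (pow_le_pow_right₀ (by norm_num) (by omega)).trans h1
    have hR : 0 ≤ c0 * ((30 * Real.sqrt K2 * 2 ^ (ε / 4) * K1) *
          ((X * Y) ^ (ε / 4) * Y ^ (ε / 4)) * (Bx A X x0 * tt Λ ρ X') / nm e) := by
      have := Bx_nonneg A X x0
      have := tt_nonneg hΛ hρ.le hX'0.le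
      positivity
    -- coefficients
    have hβ0 : ∀ y ∈ Yj Y e j, ¬ IsCoprime y x0 →
        aC C Y x0 y0 e y * (((n6 y : ℝ) : ℂ) * Gh (κ * x0 * y0) y) = 0 := by
      intro y hy hne
      rw [mem_Yj] at hy
      have : ¬ IsCoprime (κ * x0 * y0) y := fun h =>
        hne h.of_mul_left_left.of_mul_left_right.symm
      rw [PX764.Gh_zero hy.1.1.2 this, mul_zero, mul_zero]
    rcases lt_or_ge (Nn Λ ρ H) 1 with hN | hN
    · have hz : ∀ y ∈ Yj Y e j,
          aC C Y x0 y0 e y * (((n6 y : ℝ) : ℂ) * Gh (κ * x0 * y0) y) = 0 := by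
        intro y hy
        by_cases hc : IsCoprime y x0
        · have hy2 := Yj_ge hy
          have hym := mem_Yj.mp hy
          have h1 := (haC Y Λ c0 C hY hΛ hc0 hLM x0 y0 e y hx0 hy0 he hym.1.1.2 hs hes
            hym.1.2.1 hc hym.1.2.2).2
          have : aC C Y x0 y0 e y = 0 := by
            by_contra h0
            have h2 := h1 h0
            have h3 := Nn_anti hΛ hρ hH0 hy2.1
            linarith
          rw [this, zero_mul]
        · exact hβ0 y hy hc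
      have : (∑ r ∈ S X',
          (if e ∣ r then A (x0 * r) * (((n6 r : ℝ) : ℂ) * Gh (κ * x0 * y0) r) else 0) *
          ∑ y ∈ Yj Y e j, (aC C Y x0 y0 e y * (((n6 y : ℝ) : ℂ) * Gh (κ * x0 * y0) y)) *
            conj (sy r y)) = 0 := by
        refine Finset.sum_eq_zero fun r _ => ?_
        rw [Finset.sum_eq_zero fun y hy => ?_, mul_zero]
        rw [hz y hy, zero_mul]
      rw [this, norm_zero]
      exact hR
    · -- the main case
      set G : ℝ := c0 * (K1 * Y ^ (ε / 4) * (Nn Λ ρ H / nm e)) * H ^ (-(1 : ℝ) / 6) with hG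
      have hNn0 : 0 ≤ Nn Λ ρ H := by linarith
      have hG0 : 0 ≤ G := by positivity
      have hβ : ∀ y ∈ Yj Y e j,
          ‖aC C Y x0 y0 e y * (((n6 y : ℝ) : ℂ) * Gh (κ * x0 * y0) y)‖ ≤ G := by
        intro y hy
        by_cases hc : IsCoprime y x0
        · have hy2 := Yj_ge hy
          have hym := mem_Yj.mp hy
          have hyp := hym.1.1.2
          have h1 := (haC Y Λ c0 C hY hΛ hc0 hLM x0 y0 e y hx0 hy0 he hyp hs hes
            hym.1.2.1 hc hym.1.2.2).1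
          have h3 := Nn_anti hΛ hρ hH0 hy2.1
          have h4 : n6 y ≤ H ^ (-(1 : ℝ) / 6) := by
            unfold PX764.n6
            exact Real.rpow_le_rpow_of_nonpos hH0 hy2.1 (by norm_num)
          have h5 := norm_Gh_le (h := κ * x0 * y0) hyp
          rw [norm_mul, norm_mul, Complex.norm_real, Real.norm_of_nonneg (PX764.n6_pos
            hyp.ne_zero).le]
          have h6 : ‖aC C Y x0 y0 e y‖ ≤ c0 * (K1 * Y ^ (ε / 4) * (Nn Λ ρ H / nm e)) := by
            refine h1.trans ?_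
            gcongr
          calc ‖aC C Y x0 y0 e y‖ * (n6 y * ‖Gh (κ * x0 * y0) y‖)
              ≤ (c0 * (K1 * Y ^ (ε / 4) * (Nn Λ ρ H / nm e))) * (H ^ (-(1 : ℝ) / 6) * 1) := by
                have h7 : 0 ≤ n6 y := (PX764.n6_pos hyp.ne_zero).le
                gcongr
            _ = G := by rw [hG]; ring
        · rw [hβ0 y hy hc, norm_zero]; exact hG0
      have hSq1 : Sq X' (S X') := by
        intro r hr
        rw [mem_S hX'0.le] at hr
        exact ⟨hr.2.1, hr.2.2, hr.1⟩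
      have hSq2 : Sq (2 * H) (Yj Y e j) := by
        intro y hy
        have hy2 := Yj_ge hy
        rw [mem_Yj] at hy
        exact ⟨hy.1.1.2, hy.1.2.1, hy2.2⟩
      have hb := hbil X' (2 * H) hX'1 (by linarith) (S X') (Yj Y e j) hSq1 hSq2
        (fun r => if e ∣ r then A (x0 * r) * (((n6 r : ℝ) : ℂ) * Gh (κ * x0 * y0) r) else 0)
        (fun y => aC C Y x0 y0 e y * (((n6 y : ℝ) : ℂ) * Gh (κ * x0 * y0) y))
      refine hb.trans ?_
      have hα : Real.sqrt (∑ r ∈ S X', ‖(if e ∣ r then A (x0 * r) * (((n6 r : ℝ) : ℂ) *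
          Gh (κ * x0 * y0) r) else 0)‖ ^ 2) ≤ Bx A X x0 := by
        unfold Bx
        refine Real.sqrt_le_sqrt (Finset.sum_le_sum fun r hr => ?_)
        rw [mem_S hX'0.le] at hr
        split_ifs with hc
        · rw [norm_mul, norm_mul, Complex.norm_real, Real.norm_of_nonneg (PX764.n6_pos
            hr.2.1.ne_zero).le, mul_pow, mul_pow]
          have h5 := norm_Gh_le (h := κ * x0 * y0) hr.2.1
          have h6 : ‖Gh (κ * x0 * y0) r‖ ^ 2 ≤ 1 := pow_le_one₀ (norm_nonneg _) h5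
          calc ‖A (x0 * r)‖ ^ 2 * (n6 r ^ 2 * ‖Gh (κ * x0 * y0) r‖ ^ 2)
              ≤ ‖A (x0 * r)‖ ^ 2 * (n6 r ^ 2 * 1) := by gcongr
            _ = _ := by ring
        · rw [norm_zero, zero_pow two_ne_zero]; positivity
      have hβs : Real.sqrt (∑ y ∈ Yj Y e j,
          ‖aC C Y x0 y0 e y * (((n6 y : ℝ) : ℂ) * Gh (κ * x0 * y0) y)‖ ^ 2) ≤
          15 * H ^ (1 / 2 : ℝ) * G := by
        apply Real.sqrt_le_iff.mpr
        refine ⟨by positivity, ?_⟩
        have hH2 : (H ^ (1 / 2 : ℝ)) ^ 2 = H := by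
          rw [← Real.rpow_natCast, ← Real.rpow_mul hH0.le]; norm_num
        calc ∑ y ∈ Yj Y e j,
              ‖aC C Y x0 y0 e y * (((n6 y : ℝ) : ℂ) * Gh (κ * x0 * y0) y)‖ ^ 2
            ≤ ∑ y ∈ Yj Y e j, G ^ 2 := Finset.sum_le_sum fun y hy =>
              pow_le_pow_left₀ (norm_nonneg _) (hβ y hy) 2
          _ = ((Yj Y e j).card : ℝ) * G ^ 2 := by rw [Finset.sum_const, nsmul_eq_mul]
          _ ≤ (200 * H) * G ^ 2 := by
              have := card_Yj (Y := Y) (e := e) (j := j)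
              gcongr
          _ ≤ (225 * H) * G ^ 2 := by gcongr; norm_num
          _ = (15 * H ^ (1 / 2 : ℝ) * G) ^ 2 := by
              rw [mul_pow (15 * H ^ (1 / 2 : ℝ)), mul_pow 15, hH2]; ring
      have hq := hb_sqrt (ε := ε / 2) (K := K2) (by positivity) hK2.le hX'1 hH1
      have hdy := dy_num hΛ hρ hX'0.le hH0 hN
      have hBx := Bx_nonneg A X x0
      have hXY : (2 * X' * H) ^ (ε / 2 / 2) ≤ 2 ^ (ε / 4) * (X * Y) ^ (ε / 4) := by
        rw [← Real.mul_rpow (by norm_num) (by positivity),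
          show ε / 2 / 2 = ε / 4 by ring]
        refine Real.rpow_le_rpow (by positivity) ?_ (by positivity)
        calc 2 * X' * H ≤ 2 * X * Y := by gcongr
          _ = 2 * (X * Y) := by ring
      have hcomb : H ^ (1 / 2 : ℝ) * H ^ (-(1 : ℝ) / 6) = H ^ (1 / 3 : ℝ) := by
        rw [← Real.rpow_add hH0]; norm_num
      calc Real.sqrt (hbB (ε / 2) K2 X' (2 * H)) * (Real.sqrt (∑ r ∈ S X',
            ‖(if e ∣ r then A (x0 * r) * (((n6 r : ℝ) : ℂ) * Gh (κ * x0 * y0) r) else 0)‖ ^ 2) *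
            Real.sqrt (∑ y ∈ Yj Y e j,
              ‖aC C Y x0 y0 e y * (((n6 y : ℝ) : ℂ) * Gh (κ * x0 * y0) y)‖ ^ 2))
          ≤ (Real.sqrt K2 * (2 ^ (ε / 4) * (X * Y) ^ (ε / 4)) *
            (2 * (X' ^ (1 / 2 : ℝ) * H ^ (1 / 3 : ℝ) + H ^ (1 / 2 : ℝ)))) *
            (Bx A X x0 * (15 * H ^ (1 / 2 : ℝ) * G)) := by
            refine mul_le_mul (hq.trans ?_) (mul_le_mul hα hβs (Real.sqrt_nonneg _) hBx)
              (mul_nonneg (Real.sqrt_nonneg _) (Real.sqrt_nonneg _)) (by positivity)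
            gcongr
        _ = c0 * ((30 * Real.sqrt K2 * 2 ^ (ε / 4) * K1) *
          ((X * Y) ^ (ε / 4) * Y ^ (ε / 4)) * (Bx A X x0 *
            (Nn Λ ρ H * (H ^ (1 / 2 : ℝ) * H ^ (-(1 : ℝ) / 6)) *
              (X' ^ (1 / 2 : ℝ) * H ^ (1 / 3 : ℝ) + H ^ (1 / 2 : ℝ)))) / nm e) := by
            rw [hG]; ring
        _ ≤ _ := by
            rw [hcomb]
            unfold tt
            gcongr
  rw [Ie_split hX hY κ A C hx0 hA]
  refine (norm_sum_le _ _).trans ((Finset.sum_le_sum hj).trans ?_)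
  rw [Finset.sum_const, card_range, nsmul_eq_mul]
  have hlog := log_le (ε := ε / 4) (by positivity) hY
  have hBx := Bx_nonneg A X x0
  have htt := tt_nonneg hΛ hρ.le hX'0.le
  have hYX : Y ^ (ε / 4) ≤ (X * Y) ^ (ε / 4) := by
    refine Real.rpow_le_rpow hY0.le ?_ (by positivity)
    exact le_mul_of_one_le_left hY0.le hX
  have hpw : (X * Y) ^ (ε / 4) * ((X * Y) ^ (ε / 4) * (X * Y) ^ (ε / 4)) ≤ (X * Y) ^ ε := by
    have hp : 0 < X * Y := by positivity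
    rw [← Real.rpow_add hp, ← Real.rpow_add hp]
    refine Real.rpow_le_rpow_of_exponent_le ?_ (by linarith)
    nlinarith
  calc ((Nat.log 2 ⌊Y⌋₊ + 1 : ℕ) : ℝ) * (c0 * ((30 * Real.sqrt K2 * 2 ^ (ε / 4) * K1) *
          ((X * Y) ^ (ε / 4) * Y ^ (ε / 4)) * (Bx A X x0 * tt Λ ρ X') / nm e))
      ≤ ((2 / (ε / 4) + 1) * (X * Y) ^ (ε / 4)) *
        (c0 * ((30 * Real.sqrt K2 * 2 ^ (ε / 4) * K1) *
          ((X * Y) ^ (ε / 4) * (X * Y) ^ (ε / 4)) * (Bx A X x0 * tt Λ ρ X') / nm e)) := by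
        refine mul_le_mul (hlog.trans ?_) ?_ (by positivity) (by positivity)
        · gcongr
        · gcongr
    _ = c0 * ((2 / (ε / 4) + 1) * (30 * Real.sqrt K2 * 2 ^ (ε / 4) * K1) *
          ((X * Y) ^ (ε / 4) * ((X * Y) ^ (ε / 4) * (X * Y) ^ (ε / 4))) *
          (Bx A X x0 * tt Λ ρ X') / nm e) := by ring
    _ ≤ _ := by gcongr

end Crest.Agent.R017.E4P939
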