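import Crest.Agent.R017.E4p8_939

/-!
# Row 17, block C70, leaf E4, case L (helper939): the polar terms, part 9

`pol_W` : the bilinear form `Σ A x C y conj (rho (κ x y))` for structured `C`.
-/

set_option autoImplicit false
set_option linter.unusedVariables false
set_option linter.unusedSectionVars false

noncomputable section

open Finset
open scoped ComplexConjugate

namespace Crest.Agent.R017.E4P939

open Crest.Agent.R012 Crest.Agent.R012.Eis Crest.Agent.R012.Mob705 Crest.Agent.R012.Gauss880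
open Crest.Agent.R012.LS2 (S mem_S)
open Crest.Agent.R012.Div277 (dvs mem_dvs tau)
open Crest.Agent.R012.BilG811 (hbB Sq bil_ls hbB_nonneg)
open Crest.Agent.R017.Sx545 (Sm)
open Crest.Agent.R017.PX764 (rho th Gh n6 cD)
open Crest.Agent.R017.E2440 (NoP)
open Crest.Agent.R017.E4579 (SupB exists_bp bp_unique)
open Crest.Agent.R017.C70 (CbF)
open Crest.Agent.R017.E4352 (rd rd_prim rd_sqf rd_dvd dvd_rd exists_pp_of_prime PrI)

lemma nm_rd_le {x : Eis} (hx : x ≠ 0) : (nm (rd x) : ℝ) ≤ nm x := by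
  exact_mod_cast Div277.nm_le_of_dvd hx (rd_dvd x)

lemma rd_eq {x y : Eis} (hx : IsPrim x) (hy : IsPrim y) (h1 : SupB x y) (h2 : SupB y x) :
    rd x = rd y := by
  have a : rd x ∣ rd y := (dvd_rd hy.ne_zero (rd_prim x)).mpr
    ⟨rd_sqf x, fun p hp hd => h1 p hp (hd.trans (rd_dvd x))⟩
  have b : rd y ∣ rd x := (dvd_rd hx.ne_zero (rd_prim y)).mpr
    ⟨rd_sqf y, fun p hp hd => h2 p hp (hd.trans (rd_dvd y))⟩
  exact (rd_prim x).eq_of_associated (rd_prim y) (associated_of_dvd_dvd a b)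

lemma pri_rd {x : Eis} (hx : IsPrim x) : PrI (rd x) x := by
  refine ⟨hx, fun p hp hd => ?_⟩
  obtain ⟨q, hq, hqp⟩ := exists_pp_of_prime hp hx hd
  have h1 : q ∣ rd x := (dvd_rd hx.ne_zero hq.isPrim).mpr
    ⟨hq.prime.squarefree, fun p' _ h' => (h'.trans hqp.dvd).trans hd⟩
  exact hqp.symm.dvd.trans h1

open Classical in
/-- divisor sums -/
lemma sum_conv_le {X : ℝ} (hX : 0 ≤ X) (f : Eis → ℝ) (hf : ∀ x, 0 ≤ f x) :
    ∑ x0 ∈ primBall ⌊X⌋₊, ∑ r ∈ S (X / nm x0), f (x0 * r) ≤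
      ∑ x ∈ primBall ⌊X⌋₊, (tau x : ℝ) * f x := by
  have h1 : ∀ x0 ∈ primBall ⌊X⌋₊, ∑ r ∈ S (X / nm x0), f (x0 * r) ≤
      ∑ x ∈ primBall ⌊X⌋₊, if x0 ∣ x then f x else 0 := by
    intro x0 hx0
    rw [mem_primBall] at hx0
    have hn : (0 : ℝ) < nm x0 := lt_of_lt_of_le one_pos (nm_ge hx0.2.ne_zero)
    have hinj : Set.InjOn (fun r : Eis => x0 * r) (S (X / nm x0)) := fun a _ b _ h =>
      mul_left_cancel₀ hx0.2.ne_zero h
    have e1 : ∑ r ∈ S (X / nm x0), f (x0 * r) =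
        ∑ x ∈ (S (X / nm x0)).image (fun r => x0 * r), f x := by
      rw [Finset.sum_image hinj]
    rw [e1, ← Finset.sum_filter]
    refine Finset.sum_le_sum_of_subset_of_nonneg ?_ fun x _ _ => hf x
    intro x hx
    rw [Finset.mem_image] at hx
    obtain ⟨r, hr, rfl⟩ := hx
    rw [mem_S (by positivity)] at hr
    rw [Finset.mem_filter, GLS106.mem_primBall_floor]
    refine ⟨⟨?_, hx0.2.mul hr.2.1⟩, dvd_mul_right _ _⟩
    have := hr.1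
    rw [le_div_iff₀ hn] at this
    rw [nm_mul]; push_cast; linarith
  refine (Finset.sum_le_sum h1).trans ?_
  rw [Finset.sum_comm]
  refine Finset.sum_le_sum fun x hx => ?_
  rw [mem_primBall] at hx
  rw [← Finset.sum_filter, Finset.sum_const, nsmul_eq_mul]
  refine mul_le_mul_of_nonneg_right ?_ (hf x)
  have hsub : (primBall ⌊X⌋₊).filter (fun x0 => x0 ∣ x) ⊆ dvs x := by
    intro d hd
    rw [Finset.mem_filter, mem_primBall] at hd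
    rw [mem_dvs hx.2.ne_zero]
    exact ⟨hd.1.2, hd.2⟩
  exact_mod_cast Finset.card_le_card hsub

/-- sum of the inverse radicals -/
lemma sum_rd {ε : ℝ} (hε : 0 < ε) : ∃ C : ℝ, 0 ≤ C ∧ ∀ X : ℝ, 1 ≤ X →
    ∑ x ∈ primBall ⌊X⌋₊, (nm (rd x) : ℝ)⁻¹ ≤ C * X ^ ε := by
  classical
  obtain ⟨C1, hC1, h1⟩ := E4cnt92.s1 (ε / 2) (by positivity)
  obtain ⟨C2, hC2, h2⟩ := E4401.lCnt (ε / 2) (by positivity)
  refine ⟨C2 * C1, by positivity, fun X hX => ?_⟩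
  have hX0 : 0 < X := by linarith
  have hm : ∀ x ∈ primBall ⌊X⌋₊, rd x ∈ primBall ⌊X⌋₊ := by
    intro x hx
    rw [mem_primBall] at hx ⊢
    exact ⟨(Div277.nm_le_of_dvd hx.2.ne_zero (rd_dvd x)).trans hx.1, rd_prim x⟩
  rw [← Finset.sum_fiberwise_of_maps_to hm]
  have h3 : ∀ ρ ∈ primBall ⌊X⌋₊, ∑ x ∈ (primBall ⌊X⌋₊).filter (fun x => rd x = ρ),
      (nm (rd x) : ℝ)⁻¹ ≤ (C2 * X ^ (ε / 2)) * (nm ρ : ℝ)⁻¹ := by
    intro ρ hρ
    rw [GLS106.mem_primBall_floor] at hρ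
    have e1 : ∑ x ∈ (primBall ⌊X⌋₊).filter (fun x => rd x = ρ), (nm (rd x) : ℝ)⁻¹ =
        ((primBall ⌊X⌋₊).filter (fun x => rd x = ρ)).card * (nm ρ : ℝ)⁻¹ := by
      rw [← nsmul_eq_mul, ← Finset.sum_const]
      refine Finset.sum_congr rfl fun x hx => ?_
      rw [(Finset.mem_filter.mp hx).2]
    rw [e1]
    refine mul_le_mul_of_nonneg_right ?_ (by positivity)
    refine le_trans ?_ (h2 ρ X hX hρ.2.ne_zero hρ.1)
    have hsub : (primBall ⌊X⌋₊).filter (fun x => rd x = ρ) ⊆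
        (primBall ⌊X⌋₊).filter (fun R => PrI ρ R) := by
      intro x hx
      rw [Finset.mem_filter] at hx ⊢
      refine ⟨hx.1, ?_⟩
      rw [← hx.2]
      exact pri_rd (mem_primBall.mp hx.1).2
    exact_mod_cast Finset.card_le_card hsub
  refine (Finset.sum_le_sum h3).trans ?_
  rw [← Finset.mul_sum]
  have h4 := h1 X hX ⌊X⌋₊ ((Nat.floor_le hX0.le).trans (le_self_pow₀ hX (by norm_num)))
  calc C2 * X ^ (ε / 2) * ∑ ρ ∈ primBall ⌊X⌋₊, (nm ρ : ℝ)⁻¹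
      ≤ C2 * X ^ (ε / 2) * (C1 * X ^ (ε / 2)) := by gcongr
    _ = C2 * C1 * (X ^ (ε / 2) * X ^ (ε / 2)) := by ring
    _ = C2 * C1 * X ^ ε := by rw [← Real.rpow_add hX0]; congr 2; ring

/-- the numeric step over `x₀` -/
lemma x0_num {Λ ρ X x : ℝ} (hΛ : 0 ≤ Λ) (hρ : 1 ≤ ρ) (hx : ρ ≤ x) (hX : x ≤ X) :
    x ^ (1 / 6 : ℝ) * tt Λ ρ (X / x) ≤
      (X ^ (1 / 2 : ℝ) * Λ ^ (1 / 3 : ℝ) + X ^ (1 / 4 : ℝ) * Λ ^ (5 / 12 : ℝ)) *
        ρ ^ (-(1 / 2) : ℝ) := by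
  have hρ0 : 0 < ρ := by linarith
  have hx0 : 0 < x := by linarith
  have hX0 : 0 < X := by linarith
  unfold tt
  have h1 : x ^ (1 / 6 : ℝ) * ((X / x) ^ (1 / 2 : ℝ) * (Λ / ρ) ^ (1 / 3 : ℝ)) ≤
      X ^ (1 / 2 : ℝ) * Λ ^ (1 / 3 : ℝ) * ρ ^ (-(1 / 2) : ℝ) := by
    rw [Real.div_rpow hX0.le hx0.le, Real.div_rpow hΛ hρ0.le]
    have e1 : x ^ (1 / 6 : ℝ) * (X ^ (1 / 2 : ℝ) / x ^ (1 / 2 : ℝ) *
        (Λ ^ (1 / 3 : ℝ) / ρ ^ (1 / 3 : ℝ))) = X ^ (1 / 2 : ℝ) * Λ ^ (1 / 3 : ℝ) *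
        (x ^ (-(1 / 3) : ℝ) * ρ ^ (-(1 / 3) : ℝ)) := by
      have e2 : x ^ (1 / 6 : ℝ) / x ^ (1 / 2 : ℝ) = x ^ (-(1 / 3) : ℝ) := by
        rw [← Real.rpow_sub hx0]; norm_num
      have e3 : ρ ^ (-(1 / 3) : ℝ) = 1 / ρ ^ (1 / 3 : ℝ) := by
        rw [Real.rpow_neg hρ0.le]; exact (one_div _).symm
      rw [← e2, e3]; ring
    rw [e1]
    refine mul_le_mul_of_nonneg_left ?_ (by positivity)
    calc x ^ (-(1 / 3) : ℝ) * ρ ^ (-(1 / 3) : ℝ) ≤ ρ ^ (-(1 / 3) : ℝ) * ρ ^ (-(1 / 3) : ℝ) := by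
          refine mul_le_mul_of_nonneg_right ?_ (by positivity)
          exact Real.rpow_le_rpow_of_nonpos hρ0 hx (by norm_num)
      _ = ρ ^ (-(2 / 3) : ℝ) := by rw [← Real.rpow_add hρ0]; norm_num
      _ ≤ ρ ^ (-(1 / 2) : ℝ) := Real.rpow_le_rpow_of_exponent_le hρ (by norm_num)
  have h2 : x ^ (1 / 6 : ℝ) * (Λ / ρ) ^ (5 / 12 : ℝ) ≤
      X ^ (1 / 4 : ℝ) * Λ ^ (5 / 12 : ℝ) * ρ ^ (-(1 / 2) : ℝ) := by
    rw [Real.div_rpow hΛ hρ0.le]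
    have e1 : x ^ (1 / 6 : ℝ) = x ^ (1 / 4 : ℝ) * x ^ (-(1 / 12) : ℝ) := by
      rw [← Real.rpow_add hx0]; norm_num
    have e3 : ρ ^ (-(1 / 2) : ℝ) = ρ ^ (-(1 / 12) : ℝ) / ρ ^ (5 / 12 : ℝ) := by
      rw [← Real.rpow_sub hρ0]; norm_num
    rw [e1, e3]
    have g1 : x ^ (1 / 4 : ℝ) ≤ X ^ (1 / 4 : ℝ) := Real.rpow_le_rpow hx0.le hX (by norm_num)
    have g2 : x ^ (-(1 / 12) : ℝ) ≤ ρ ^ (-(1 / 12) : ℝ) :=
      Real.rpow_le_rpow_of_nonpos hρ0 hx (by norm_num)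
    calc x ^ (1 / 4 : ℝ) * x ^ (-(1 / 12) : ℝ) * (Λ ^ (5 / 12 : ℝ) / ρ ^ (5 / 12 : ℝ))
        ≤ X ^ (1 / 4 : ℝ) * ρ ^ (-(1 / 12) : ℝ) * (Λ ^ (5 / 12 : ℝ) / ρ ^ (5 / 12 : ℝ)) := by
          gcongr
      _ = _ := by ring
  calc x ^ (1 / 6 : ℝ) * ((X / x) ^ (1 / 2 : ℝ) * (Λ / ρ) ^ (1 / 3 : ℝ) + (Λ / ρ) ^ (5 / 12 : ℝ))
      = x ^ (1 / 6 : ℝ) * ((X / x) ^ (1 / 2 : ℝ) * (Λ / ρ) ^ (1 / 3 : ℝ)) +
        x ^ (1 / 6 : ℝ) * (Λ / ρ) ^ (5 / 12 : ℝ) := by ring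
    _ ≤ _ := by rw [add_mul]; exact add_le_add h1 h2

lemma n6_Bx {A : Eis → ℂ} {X : ℝ} {x0 : Eis} (h0 : IsPrim x0) :
    Bx A X x0 = (nm x0 : ℝ) ^ (1 / 6 : ℝ) *
      Real.sqrt (∑ r ∈ S (X / nm x0), ‖A (x0 * r)‖ ^ 2 * n6 (x0 * r) ^ 2) := by
  have hn : (0 : ℝ) < nm x0 := lt_of_lt_of_le one_pos (nm_ge h0.ne_zero)
  unfold Bx
  have e1 : ∑ r ∈ S (X / nm x0), ‖A (x0 * r)‖ ^ 2 * n6 r ^ 2 =
      ((nm x0 : ℝ) ^ (1 / 6 : ℝ)) ^ 2 *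
        ∑ r ∈ S (X / nm x0), ‖A (x0 * r)‖ ^ 2 * n6 (x0 * r) ^ 2 := by
    rw [Finset.mul_sum]
    refine Finset.sum_congr rfl fun r _ => ?_
    rw [PX764.n6_mul]
    have : (nm x0 : ℝ) ^ (1 / 6 : ℝ) * n6 x0 = 1 := by
      unfold PX764.n6
      rw [← Real.rpow_add hn]; norm_num
    calc ‖A (x0 * r)‖ ^ 2 * n6 r ^ 2
        = ((nm x0 : ℝ) ^ (1 / 6 : ℝ) * n6 x0) ^ 2 * (‖A (x0 * r)‖ ^ 2 * n6 r ^ 2) := by
          rw [this]; ring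
      _ = _ := by ring
  rw [e1, Real.sqrt_mul (by positivity), Real.sqrt_sq (by positivity)]

open Classical in
/-- **the polar bilinear form** -/
theorem pol_W {ε : ℝ} (hε : 0 < ε) : ∃ K : ℝ, 0 < K ∧ ∀ (X Y Λ c0 : ℝ) (q κ : Eis)
    (A C : Eis → ℂ), 1 ≤ X → 1 ≤ Y → 0 ≤ Λ → 0 ≤ c0 → NoP q κ → (∀ x, A x ≠ 0 → Sm q x) →
    (∀ y, C y ≠ 0 → Sm q y) → (∀ x, A x ≠ 0 → CbF x ∧ (nm x : ℝ) ≤ X) → LM C c0 Y Λ →
    ‖∑ x ∈ primBall ⌊X⌋₊, A x * ∑ y ∈ primBall ⌊Y⌋₊, C y * conj (rho (κ * x * y))‖ ≤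
      c0 * (K * (X * Y) ^ ε * (Real.sqrt (∑ x ∈ primBall ⌊X⌋₊, ‖A x‖ ^ 2 * n6 x ^ 2) *
        (X ^ (1 / 2 : ℝ) * Λ ^ (1 / 3 : ℝ) + X ^ (1 / 4 : ℝ) * Λ ^ (5 / 12 : ℝ)))) := by
  obtain ⟨K1, hK1, hIe⟩ := Ie_le (ε := ε / 5) (by positivity)
  obtain ⟨C1, hC1, hs1⟩ := E4cnt92.s1 (ε / 5) (by positivity)
  obtain ⟨C2, hC2, hcnt⟩ := E4401.lCnt (ε / 5) (by positivity)
  obtain ⟨C3, hC3, hrd⟩ := sum_rd (ε := ε / 5) (by positivity)
  obtain ⟨C4, hC4, htau⟩ := Div277.tau_le_rpow (ε := ε / 5) (by positivity)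
  have hC4' : 0 ≤ C4 := by linarith
  refine ⟨cD * K1 * C1 * C2 * Real.sqrt C3 * Real.sqrt C4 + 1, ?_, ?_⟩
  · have := PX764.cD_pos; positivity
  intro X Y Λ c0 q κ A C hX hY hΛ hc0 hκ hA hC hAX hLM
  have hX0 : 0 < X := by linarith
  have hY0 : 0 < Y := by linarith
  have hXY1 : 1 ≤ X * Y := by nlinarith
  have hXY0 : 0 < X * Y := by linarith
  have hXXY : X ≤ X * Y := le_mul_of_one_le_right hX0.le hY
  have hYXY : Y ≤ X * Y := le_mul_of_one_le_left hY0.le hX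
  have hcD := PX764.cD_pos
  set P : ℝ := (X * Y) ^ (ε / 5) with hP
  have hP0 : 0 < P := by positivity
  have hXP : X ^ (ε / 5) ≤ P := Real.rpow_le_rpow hX0.le hXXY (by positivity)
  have hYP : Y ^ (ε / 5) ≤ P := Real.rpow_le_rpow hY0.le hYXY (by positivity)
  set T : ℝ := X ^ (1 / 2 : ℝ) * Λ ^ (1 / 3 : ℝ) + X ^ (1 / 4 : ℝ) * Λ ^ (5 / 12 : ℝ) with hT
  have hT0 : 0 ≤ T := by positivity
  refine (pol_le hκ hA hC hAX (fun y hy => (hLM y hy).2.1)).trans ?_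
  -- the sum over `e`
  have h1 : ∀ i ∈ IQ X Y, ∑ e ∈ (primBall ⌊Y⌋₊).filter Squarefree, ‖Ie κ A C X Y i.1 i.2 e‖ ≤
      c0 * (K1 * P * (Bx A X i.1 * tt Λ (nm (rd i.1)) (X / nm i.1))) * (C1 * P) := by
    intro i hi
    unfold IQ at hi
    rw [Finset.mem_filter, Finset.mem_product, GLS106.mem_primBall_floor,
      GLS106.mem_primBall_floor] at hi
    obtain ⟨⟨⟨hx, hxp⟩, hy, hyp⟩, hs1', hs2'⟩ := hi
    have hrdeq : rd i.2 = rd i.1 := rd_eq hyp hxp hs2' hs1'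
    have hρ0 : (0 : ℝ) ≤ nm (rd i.1) := by positivity
    have hBt : 0 ≤ Bx A X i.1 * tt Λ (nm (rd i.1)) (X / nm i.1) :=
      mul_nonneg (Bx_nonneg _ _ _) (tt_nonneg hΛ hρ0 (by positivity))
    have h2 : ∀ e ∈ (primBall ⌊Y⌋₊).filter Squarefree, ‖Ie κ A C X Y i.1 i.2 e‖ ≤
        c0 * (K1 * P * (Bx A X i.1 * tt Λ (nm (rd i.1)) (X / nm i.1))) * (nm e : ℝ)⁻¹ := by
      intro e he
      rw [Finset.mem_filter, mem_primBall] at he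
      have := hIe X Y Λ c0 κ A C hX hY hΛ hc0 (fun x hx => (hAX x hx).2) hLM i.1 i.2 e hxp hyp
        he.1.2 hs2' he.2 hx
      rw [hrdeq] at this
      refine this.trans (le_of_eq ?_)
      rw [div_eq_mul_inv]; ring
    refine (Finset.sum_le_sum h2).trans ?_
    rw [← Finset.mul_sum]
    refine mul_le_mul_of_nonneg_left ?_ (by positivity)
    have h3 : ∑ e ∈ (primBall ⌊Y⌋₊).filter Squarefree, (nm e : ℝ)⁻¹ ≤
        ∑ e ∈ primBall ⌊Y⌋₊, (nm e : ℝ)⁻¹ :=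
      Finset.sum_le_sum_of_subset_of_nonneg (Finset.filter_subset _ _)
        fun _ _ _ => by positivity
    refine h3.trans ((hs1 Y hY ⌊Y⌋₊ ((Nat.floor_le hY0.le).trans
      (le_self_pow₀ hY (by norm_num)))).trans ?_)
    gcongr
  -- the sum over `y₀`
  have h4 : ∑ i ∈ IQ X Y, ∑ e ∈ (primBall ⌊Y⌋₊).filter Squarefree, ‖Ie κ A C X Y i.1 i.2 e‖ ≤
      (c0 * K1 * P * C1 * P) * ((C2 * P) * ∑ x ∈ primBall ⌊X⌋₊,
        Bx A X x * tt Λ (nm (rd x)) (X / nm x)) := by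
    refine (Finset.sum_le_sum h1).trans ?_
    have e1 : ∀ i ∈ IQ X Y,
        c0 * (K1 * P * (Bx A X i.1 * tt Λ (nm (rd i.1)) (X / nm i.1))) * (C1 * P) =
        (c0 * K1 * P * C1 * P) * (Bx A X i.1 * tt Λ (nm (rd i.1)) (X / nm i.1)) :=
      fun i _ => by ring
    rw [Finset.sum_congr rfl e1, ← Finset.mul_sum]
    refine mul_le_mul_of_nonneg_left ?_ (by positivity)
    unfold IQ
    rw [Finset.sum_filter, Finset.sum_product, Finset.mul_sum]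
    refine Finset.sum_le_sum fun x hx => ?_
    rw [GLS106.mem_primBall_floor] at hx
    have hρ0 : (0 : ℝ) ≤ nm (rd x) := by positivity
    have hBt : 0 ≤ Bx A X x * tt Λ (nm (rd x)) (X / nm x) :=
      mul_nonneg (Bx_nonneg _ _ _) (tt_nonneg hΛ hρ0 (by positivity))
    simp only
    rw [← Finset.sum_filter, Finset.sum_const, nsmul_eq_mul]
    refine mul_le_mul_of_nonneg_right ?_ hBt
    refine le_trans ?_ (hcnt x (X * Y) hXY1 hx.2.ne_zero (hx.1.trans hXXY))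
    have hsub : (primBall ⌊Y⌋₊).filter (fun y => SupB x y ∧ SupB y x) ⊆
        (primBall ⌊X * Y⌋₊).filter (fun R => PrI x R) := by
      intro y hy
      rw [Finset.mem_filter, GLS106.mem_primBall_floor] at hy
      rw [Finset.mem_filter, GLS106.mem_primBall_floor]
      exact ⟨⟨hy.1.1.trans hYXY, hy.1.2⟩, hy.1.2, hy.2.2⟩
    exact_mod_cast Finset.card_le_card hsub
  -- the sum over `x₀`
  have h5 : ∑ x ∈ primBall ⌊X⌋₊, Bx A X x * tt Λ (nm (rd x)) (X / nm x) ≤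
      T * (Real.sqrt (C3 * P) *
        Real.sqrt ((C4 * P) * ∑ x ∈ primBall ⌊X⌋₊, ‖A x‖ ^ 2 * n6 x ^ 2)) := by
    have h6 : ∀ x ∈ primBall ⌊X⌋₊, Bx A X x * tt Λ (nm (rd x)) (X / nm x) ≤
        T * ((nm (rd x) : ℝ) ^ (-(1 / 2) : ℝ) *
          Real.sqrt (∑ r ∈ S (X / nm x), ‖A (x * r)‖ ^ 2 * n6 (x * r) ^ 2)) := by
      intro x hx
      rw [GLS106.mem_primBall_floor] at hx
      have hρ1 : (1 : ℝ) ≤ nm (rd x) := nm_ge (rd_prim x).ne_zero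
      have hnum := x0_num hΛ hρ1 (nm_rd_le hx.2.ne_zero) hx.1
      rw [n6_Bx hx.2]
      set R := Real.sqrt (∑ r ∈ S (X / nm x), ‖A (x * r)‖ ^ 2 * n6 (x * r) ^ 2)
      have hR : 0 ≤ R := Real.sqrt_nonneg _
      calc (nm x : ℝ) ^ (1 / 6 : ℝ) * R * tt Λ (nm (rd x)) (X / nm x)
          = ((nm x : ℝ) ^ (1 / 6 : ℝ) * tt Λ (nm (rd x)) (X / nm x)) * R := by ring
        _ ≤ (T * (nm (rd x) : ℝ) ^ (-(1 / 2) : ℝ)) * R := by gcongr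
        _ = _ := by ring
    refine (Finset.sum_le_sum h6).trans ?_
    rw [← Finset.mul_sum]
    refine mul_le_mul_of_nonneg_left ?_ hT0
    refine (Real.sum_mul_le_sqrt_mul_sqrt _ _ _).trans ?_
    refine mul_le_mul (Real.sqrt_le_sqrt ?_) (Real.sqrt_le_sqrt ?_) (Real.sqrt_nonneg _)
      (Real.sqrt_nonneg _)
    · refine le_trans (le_of_eq ?_) ((hrd X hX).trans ?_)
      · refine Finset.sum_congr rfl fun x hx => ?_
        have hρ1 : (1 : ℝ) ≤ nm (rd x) := nm_ge (rd_prim x).ne_zero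
        have hρ0 : (0 : ℝ) ≤ nm (rd x) := by linarith
        rw [← Real.rpow_natCast, ← Real.rpow_mul hρ0, ← Real.rpow_neg_one]
        congr 1; norm_num
      · gcongr
    · have e1 : ∀ x ∈ primBall ⌊X⌋₊,
          Real.sqrt (∑ r ∈ S (X / nm x), ‖A (x * r)‖ ^ 2 * n6 (x * r) ^ 2) ^ 2 =
          ∑ r ∈ S (X / nm x), ‖A (x * r)‖ ^ 2 * n6 (x * r) ^ 2 := fun x _ =>
        Real.sq_sqrt (Finset.sum_nonneg fun r _ => by positivity)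
      rw [Finset.sum_congr rfl e1]
      refine (sum_conv_le hX0.le (fun x => ‖A x‖ ^ 2 * n6 x ^ 2)
        (fun x => by positivity)).trans ?_
      rw [Finset.mul_sum]
      refine Finset.sum_le_sum fun x hx => ?_
      rw [GLS106.mem_primBall_floor] at hx
      refine mul_le_mul_of_nonneg_right ?_ (by positivity)
      refine (htau x hx.2.ne_zero).trans ?_
      have : (nm x : ℝ) ^ (ε / 5) ≤ P :=
        (Real.rpow_le_rpow (by positivity) hx.1 (by positivity)).trans hXP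
      gcongr
  have h7 : P * P * P * P ≤ (X * Y) ^ ε := by
    rw [hP, ← Real.rpow_add hXY0, ← Real.rpow_add hXY0, ← Real.rpow_add hXY0]
    exact Real.rpow_le_rpow_of_exponent_le hXY1 (by linarith)
  set M2 : ℝ := ∑ x ∈ primBall ⌊X⌋₊, ‖A x‖ ^ 2 * n6 x ^ 2 with hM2
  have hM20 : 0 ≤ M2 := Finset.sum_nonneg fun x _ => by positivity
  have h8 : Real.sqrt (C3 * P) * Real.sqrt ((C4 * P) * M2) =
      P * (Real.sqrt C3 * Real.sqrt C4 * Real.sqrt M2) := by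
    rw [Real.sqrt_mul hC3, Real.sqrt_mul (by positivity), Real.sqrt_mul hC4']
    have := Real.mul_self_sqrt hP0.le
    calc Real.sqrt C3 * Real.sqrt P * (Real.sqrt C4 * Real.sqrt P * Real.sqrt M2)
        = (Real.sqrt P * Real.sqrt P) * (Real.sqrt C3 * Real.sqrt C4 * Real.sqrt M2) := by ring
      _ = _ := by rw [this]
  calc cD * ∑ i ∈ IQ X Y, ∑ e ∈ (primBall ⌊Y⌋₊).filter Squarefree, ‖Ie κ A C X Y i.1 i.2 e‖
      ≤ cD * ((c0 * K1 * P * C1 * P) * ((C2 * P) * (T * (Real.sqrt (C3 * P) *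
        Real.sqrt ((C4 * P) * M2))))) := by
        refine mul_le_mul_of_nonneg_left (h4.trans ?_) hcD.le
        gcongr
    _ = c0 * ((cD * K1 * C1 * C2 * Real.sqrt C3 * Real.sqrt C4) * (P * P * P * P) *
        (Real.sqrt M2 * T)) := by rw [h8]; ring
    _ ≤ c0 * ((cD * K1 * C1 * C2 * Real.sqrt C3 * Real.sqrt C4 + 1) * (X * Y) ^ ε *
        (Real.sqrt M2 * T)) := by
        gcongr
        linarith

end Crest.Agent.R017.E4P939
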