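import Crest.Agent.R017.E4o_164
import Crest.Agent.R017.E5b_54
import Crest.Agent.R017.E4d_579

/-!
# Row 17, C70, leaf E4: `dc (stj S j)` (helper164)

* `star_unique` : `j S = j* e³` determines `j*`
* `dc_stj` : `j = c (r_S r') (ν_S ν')²`, `(r' ν', S) = 1`; with `(1, ρ, μ) = dc (stj S (r_S ν_S²))`:
  `dc (stj S j) = (c, ρ r', μ ν')`
-/

set_option autoImplicit false

noncomputable section

open scoped ComplexConjugate

namespace Crest.Agent.R017.E4K164

open Crest.Agent.R012 Crest.Agent.R012.Eis Crest.Agent.R012.GaussLoc283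
open Crest.Agent.R012.Mob705 hiding pb mem_pb
open Crest.Agent.R012.Div277
open Crest.Agent.R017.C70 Crest.Agent.R017.GrB829 Crest.Agent.R017.GrD829
open Crest.Agent.R017.E3A164
open Crest.Agent.R017.E5b54 (stj stj_spec JC_cf JC_ne_zero)
open Crest.Agent.R017.E4579

lemma star_unique {a b e f : Eis} (ha : JC a) (hb : JC b) (he : IsPrim e) (hf : IsPrim f)
    (h : a * e ^ 3 = b * f ^ 3) : a = b := by
  obtain ⟨i, hi1, hi2⟩ := E1551.cf_unique (JC_cf ha) (JC_cf hb) he.ne_zero hf.ne_zero h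
  have hu : IsUnit (E1551.z6 ^ (i : ℕ)) := E1551.isUnit_z6.pow _
  have h1 : f = e := by
    refine hf.eq_of_associated he ?_
    rw [hi1]
    exact (associated_unit_mul_left e _ hu)
  rw [h1] at h
  exact mul_right_cancel₀ (pow_ne_zero 3 he.ne_zero) h

lemma c_one {c u : Eis} (hc : IsC c) (hu : IsPrim u) (h : IsPrim (c * u)) : c = 1 := by
  have h1 : IsPrim c := h.of_mul_right hu
  rcases hc with h2 | h2
  · exact h2
  · exfalso
    have h3 : (3 : Eis) ∣ c := by
      rcases h2 with h2 | h2 | h2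
      · rw [h2]
      · rw [h2]; exact dvd_mul_right _ _
      · rw [h2]; exact dvd_mul_right _ _
    have h4 := h1.isCoprime_three.isUnit_of_dvd' h3 dvd_rfl
    rw [Eis.isUnit_iff] at h4
    exact absurd h4 (by decide)

/-- the `S`-part of the kernel of `j` -/
def aS (S j : Eis) : Eis := bpt S (dc j).2.1 * bpt S (dc j).2.2 ^ 2

/-- the `S`-part of the kernel of `j S` -/
def rS (S j : Eis) : Eis := (dc (stj S (aS S j))).2.1
def nS (S j : Eis) : Eis := (dc (stj S (aS S j))).2.2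

/-- **the kernel of `j S`** -/
theorem dc_stj {S j : Eis} (hS : IsPrim S) (hj : JC j) :
    dc (stj S j) = ((dc j).1, rS S j * bco S (dc j).2.1, nS S j * bco S (dc j).2.2) ∧
      SupB (rS S j) S ∧ SupB (nS S j) S ∧ IsPrim (rS S j) ∧ IsPrim (nS S j) ∧
      ∃ e, IsPrim e ∧ SupB e S ∧ aS S j * S = rS S j * nS S j ^ 2 * e ^ 3 := by
  obtain ⟨s1, s2, s3, s4, s5, s6, s7⟩ := dc_spec hj
  set c := (dc j).1
  set r := (dc j).2.1 with hr
  set ν := (dc j).2.2 with hν
  have hrb := bpt_mul_bco hS s2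
  have hνb := bpt_mul_bco hS s4
  have hrp := bpt_prim hS s2
  have hνp := bpt_prim hS s4
  have hrc := bco_prim hS s2
  have hνc := bco_prim hS s4
  have hrS : Squarefree (bpt S r) := s3.squarefree_of_dvd (bpt_dvd hS s2)
  have hνS : Squarefree (bpt S ν) := s5.squarefree_of_dvd (bpt_dvd hS s4)
  have hrνS : IsCoprime (bpt S r) (bpt S ν) :=
    (s6.of_isCoprime_of_dvd_left (bpt_dvd hS s2)).of_isCoprime_of_dvd_right (bpt_dvd hS s4)
  have hap : IsPrim (aS S j) := hrp.mul (hνp.pow 2)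
  have hJa : JC (aS S j) := ⟨1, Or.inl rfl, aS S j, hap, GrE579.cbF_dec hrS hνS hrνS, by ring⟩
  obtain ⟨hJm, e, he, hae⟩ := stj_spec hS hJa
  have hmp : IsPrim (stj S (aS S j)) := by
    have h1 : IsPrim (stj S (aS S j) * e ^ 3) := by rw [← hae]; exact hap.mul hS
    exact h1.of_mul_right (he.pow 3)
  have hasup : SupB (aS S j) S := (bpt_sup hS s2).mul ((bpt_sup hS s4).pow 2)
  have hmsup : SupB (stj S (aS S j)) S := by
    intro p hp hd
    have h1 : p ∣ aS S j * S := by rw [hae]; exact hd.mul_right _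
    rcases hp.dvd_or_dvd h1 with h | h
    · exact hasup p hp h
    · exact h
  have hesup : SupB e S := by
    intro p hp hd
    have h1 : p ∣ aS S j * S := by
      rw [hae]; exact (hd.trans (dvd_pow_self _ (by norm_num))).mul_left _
    rcases hp.dvd_or_dvd h1 with h | h
    · exact hasup p hp h
    · exact h
  obtain ⟨t1, t2, t3, t4, t5, t6, t7⟩ := dc_spec hJm
  have hc1 : (dc (stj S (aS S j))).1 = 1 := by
    refine c_one t1 (t2.mul (t4.pow 2)) ?_
    have : (dc (stj S (aS S j))).1 * ((dc (stj S (aS S j))).2.1 *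
        (dc (stj S (aS S j))).2.2 ^ 2) = stj S (aS S j) := by
      conv_rhs => rw [t7]
      ring
    rw [this]; exact hmp
  have t7' : stj S (aS S j) = rS S j * nS S j ^ 2 := by
    conv_lhs => rw [t7, hc1]
    unfold rS nS
    ring
  have hρsup : SupB (rS S j) S := hmsup.of_dvd ⟨nS S j ^ 2, t7'⟩
  have hμsup : SupB (nS S j) S := hmsup.of_dvd ⟨rS S j * nS S j, by rw [t7']; ring⟩
  have hρp : IsPrim (rS S j) := t2
  have hμp : IsPrim (nS S j) := t4
  have hrcc := bco_cop hS s2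
  have hνcc := bco_cop hS s4
  have c1 : IsCoprime (rS S j) (bco S r) := SupB.cop hρp hρsup hrcc
  have c2 : IsCoprime (rS S j) (bco S ν) := SupB.cop hρp hρsup hνcc
  have c3 : IsCoprime (nS S j) (bco S r) := SupB.cop hμp hμsup hrcc
  have c4 : IsCoprime (nS S j) (bco S ν) := SupB.cop hμp hμsup hνcc
  have c5 : IsCoprime (bco S r) (bco S ν) :=
    (s6.of_isCoprime_of_dvd_left ⟨_, by rw [mul_comm]; exact hrb.symm⟩).of_isCoprime_of_dvd_right
      ⟨_, by rw [mul_comm]; exact hνb.symm⟩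
  have hq1 : Squarefree (rS S j * bco S r) :=
    squarefree_mul_iff.mpr ⟨c1.isRelPrime, t3, s3.squarefree_of_dvd
      ⟨_, by rw [mul_comm]; exact hrb.symm⟩⟩
  have hq2 : Squarefree (nS S j * bco S ν) :=
    squarefree_mul_iff.mpr ⟨c4.isRelPrime, t5, s5.squarefree_of_dvd
      ⟨_, by rw [mul_comm]; exact hνb.symm⟩⟩
  have hq3 : IsCoprime (rS S j * bco S r) (nS S j * bco S ν) :=
    (IsCoprime.mul_right t6 c2).mul_left (c3.symm.mul_right c5)
  have hp1 : IsPrim (rS S j * bco S r) := hρp.mul hrc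
  have hp2 : IsPrim (nS S j * bco S ν) := hμp.mul hνc
  have hJs : JC (c * (rS S j * bco S r) * (nS S j * bco S ν) ^ 2) :=
    ⟨c, s1, (rS S j * bco S r) * (nS S j * bco S ν) ^ 2, hp1.mul (hp2.pow 2),
      GrE579.cbF_dec hq1 hq2 hq3, by ring⟩
  obtain ⟨hJst, e', he', hje⟩ := stj_spec hS hj
  have hkey : stj S j = c * (rS S j * bco S r) * (nS S j * bco S ν) ^ 2 := by
    refine star_unique hJst hJs he' he ?_
    rw [← hje]
    have e1 : c * (rS S j * bco S r) * (nS S j * bco S ν) ^ 2 * e ^ 3 =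
        c * bco S r * bco S ν ^ 2 * (stj S (aS S j) * e ^ 3) := by rw [t7']; ring
    rw [e1, ← hae]
    have e2 : aS S j * S * (bco S r * bco S ν ^ 2) =
        (bpt S r * bco S r) * (bpt S ν * bco S ν) ^ 2 * S := by unfold aS; ring
    calc j * S = c * r * ν ^ 2 * S := by conv_lhs => rw [s7]
      _ = c * ((bpt S r * bco S r) * (bpt S ν * bco S ν) ^ 2 * S) := by rw [hrb, hνb]; ring
      _ = c * (aS S j * S * (bco S r * bco S ν ^ 2)) := by rw [e2]
      _ = _ := by ring
  refine ⟨?_, hρsup, hμsup, hρp, hμp, e, he, hesup, ?_⟩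
  · rw [hkey]
    exact dc_unique s1 hp1 hq1 hp2 hq2 hq3
  · rw [hae, t7']

end Crest.Agent.R017.E4K164
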