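import Crest.Agent.R017.E4v5_47

/-!
# Row 17, C70/E4, joint form: fixed data `(D0, j, B, R, Z)` (helper47)

* `DJ` : the `D1` of the shell `[2^j, 2^(j+1))`
* `TT` : the family sum at fixed data
* `GB'` : `GB` without the condition at `D1`
* `SumAll` : final summation (leaf (iv))
-/

set_option autoImplicit false

noncomputable section

open Complex
open scoped ComplexConjugate

namespace Crest.Agent.R017.E4v5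

open Crest.Agent.R012 Crest.Agent.R012.Eis Crest.Agent.R012.Mob705 Crest.Agent.R012.Gauss880
open Crest.Agent.R012.Div277
open Crest.Agent.R017.Sx545 Crest.Agent.R017.CM106 Crest.Agent.R017.C70 Crest.Agent.R017.C590
open Crest.Agent.R017.End699 Crest.Agent.R017.B770 Crest.Agent.R017.Sx440
open Crest.Agent.R017.E2440 Crest.Agent.R017.E4352
open Crest.Agent.R017.E4o502 (vD wD GoodD GB)

open Classical in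
/-- the `D1` of the `j`-th shell -/
def DJ (M f D0 B : Eis) (N j : ℕ) : Finset Eis :=
  (primBall N).filter (fun D1 => (GoodD M f D0 D1 ∧ IsCoprime B (D0 * D1)) ∧
    (2 : ℝ) ^ j ≤ nm D1 ∧ (nm D1 : ℝ) < 2 ^ (j + 1))

/-- `GB` without `D1` -/
def GB' (M f' D0 B R Z : Eis) : Prop :=
  Squarefree B ∧ Sm M B ∧ IsCoprime B D0 ∧ PrI B R ∧ PrI B Z ∧ B ^ 3 ∣ f' * R * Z ∧
    ∀ p : Eis, Prime p → p ∣ B → p ∣ f' * Z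

/-- the family sum at fixed `(D0, j, B, R, Z)` -/
def TT (M f : Eis) {O : Type} [Fintype O] (v w φ : O → Eis → ℂ) (N : ℕ) (D0 B R Z : Eis)
    (j : ℕ) : ℂ :=
  ∑ D1 ∈ DJ M f D0 B N j, (cB (D0 * D1) * conj (sy (f / D0) (D0 * D1))) *
    ∑ o, ∑' x : Eis, tws R B (fun _ => 1) (vD (D0 * D1) (v o)) x *
      ∑' y : Eis, tws Z B (fun _ => 1) (wD (D0 * D1) D1 (w o)) y *
        NT M (f / D0 * R * Z / B ^ 3 * x * y) (fun k => φ o ((D0 * D1) ^ 2 * B ^ 3 * k))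

/-- **(iv) final summation** -/
def SumAll : Prop :=
  ∀ ε : ℝ, 0 < ε → ∃ C : ℝ, 0 ≤ C ∧
    ∀ (M f : Eis) (O : Type) (_ : Fintype O) (lam : O → ℝ) (v w φ : O → Eis → ℂ) (X Y Mn : ℝ),
      Dat4 M f lam v w X → (∀ o, Dcy (φ o)) → 0 ≤ Y → 0 ≤ Mn →
      (∀ (D0 B R Z : Eis) (j : ℕ), IsPrim D0 → D0 ∣ f → Squarefree D0 → nm B ≤ ⌊X⌋₊ ^ 2 →
        nm R ≤ ⌊X⌋₊ → nm Z ≤ ⌊X⌋₊ → (2 : ℝ) ^ j ≤ X → GB' M (f / D0) D0 B R Z →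
        (nm B : ℝ) ^ 3 * ‖TT M f v w φ ⌊X⌋₊ D0 B R Z j‖ ≤
          Y / nm (rd Z) + ∑ D1 ∈ DJ M f D0 B ⌊X⌋₊ j, Mn / (nm (D0 * D1) * nm B)) →
      ‖∑ o, ∑' x : Eis, v o x * ∑' y : Eis, w o y * NT (M * (f * y)) (f * x * y) (φ o)‖ ≤
        C * X ^ ε * (Y + Mn)

/-- numeric condition at fixed data, `L` the bound for `κ b₁² b₃³` -/
def Numf (a₀ a₁ a₃ L : ℝ) (Bd : ℝ → ℝ → ℝ → ℝ) (S : ℝ) : Prop :=
  ∀ b₁ b₃ κ : ℝ, 1 ≤ b₁ → 1 ≤ b₃ → 1 / 4 ≤ κ → κ * b₁ ^ 2 * b₃ ^ 3 ≤ L →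
    a₀ ^ (-(1 / 2) : ℝ) * (a₁ ^ (-(1 / 2) : ℝ) * a₃ * b₁ ^ (1 / 2 : ℝ) * b₃ *
      κ ^ (-(1 / 2) : ℝ) * Bd κ a₁ (a₃ * (b₁ * b₃))) ≤ S

/-- **(ii) the direct half** at fixed data -/
def DirF : Prop :=
  ∀ ε : ℝ, 0 < ε → ∃ C : ℝ, 0 ≤ C ∧
    ∀ (M f : Eis) (O : Type) (_ : Fintype O) (lam : O → ℝ) (v w : O → Eis → ℂ) (X K B' : ℝ)
      (φ : O → Eis → ℂ) (Bd : ℝ → ℝ → ℝ → ℝ) (S : ℝ) (D0 B R Z : Eis) (j : ℕ),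
      Dat4 M f lam v w X → 0 < K → K ≤ X → 0 ≤ B' → 0 ≤ S → BdC5 Bd →
      (∀ o k, Sm M k → ‖φ o k‖ ≤ B') → (∀ o k, K / lam o < nm k → φ o k = 0) →
      HPd M f lam v w Bd →
      IsPrim D0 → D0 ∣ f → Squarefree D0 → nm B ≤ ⌊X⌋₊ ^ 2 → nm R ≤ ⌊X⌋₊ → nm Z ≤ ⌊X⌋₊ →
      (2 : ℝ) ^ j ≤ X → GB' M (f / D0) D0 B R Z →
      Numf (nm D0) (2 ^ j) (nm (rd Z))
        (K / ((nm D0 : ℝ) ^ 2 * (2 ^ j) ^ 2 * (nm (rd Z) : ℝ) ^ 3)) Bd S →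
      (nm B : ℝ) ^ 3 * ‖TT M f v w φ ⌊X⌋₊ D0 B R Z j‖ ≤ C * X ^ ε * (B' * (K * S)) / nm (rd Z)

end Crest.Agent.R017.E4v5
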