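import Crest.Agent.R017.E4Rg_266
import Crest.Agent.R017.E4cls_176
import Crest.Agent.R017.E4fan_47
import Crest.Agent.R017.E4cnt2_176

/-!
# Row 17, C70/E4, version 7: standing conditions and the direct part over the index of the
opening (helper352)

* `QB N q` : sizes of the quintuples
* `datZ` : `DatS` for the family over `z = (o, (D0, D1, B, R, Z))`
* `dirZ` : the direct part
-/

set_option autoImplicit false
set_option linter.unusedVariables false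
set_option linter.unusedSectionVars false

noncomputable section

open Complex
open scoped ComplexConjugate

namespace Crest.Agent.R017.E4J352

open Crest.Agent.R012 Crest.Agent.R012.Eis Crest.Agent.R012.Mob705 Crest.Agent.R012.Gauss880
open Crest.Agent.R012.Div277
open Crest.Agent.R017.Sx545 Crest.Agent.R017.CM106 Crest.Agent.R017.C70 Crest.Agent.R017.C590
open Crest.Agent.R017.End699 Crest.Agent.R017.B770 Crest.Agent.R017.Sx440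
open Crest.Agent.R017.E2440 Crest.Agent.R017.E4352
open Crest.Agent.R017.E4o502 (vD wD GoodD GB ssm_tws bd_tws)
open Crest.Agent.R017.E4v5 (Law5 HM5 card_pb tws_ne norm_tws_le)
open Crest.Agent.R017.E4fe502 (FF Dta Bi)
open Crest.Agent.R017.E4R266
open Crest.Agent.R017.E4S783 (BSf BS BSf_true DatS lBpS lBdSf D3F)

/-- sizes of the quintuples -/
structure QB (N : ℕ) (q : Q5) : Prop where
  D0 : nm q.D0 ≤ N
  D1 : nm q.D1 ≤ N
  B : nm q.B ≤ N ^ 2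
  R : nm q.R ≤ N
  Z : nm q.Z ≤ N

/-- the fixed data -/
lemma dta {M f : Eis} (hf : Sm M f) {q : Q5} (h : QOK M f q) : Dta M f q.D0 q.B q.R q.Z := by
  obtain ⟨g1, g2, g3, g4, g5⟩ := h.good
  obtain ⟨b1, b2, b3, b4, b5⟩ := h.gb
  refine ⟨hf, h.pD0, g1, g2.squarefree_of_dvd (dvd_mul_right _ _), b1, b2,
    b3.of_mul_right_left, h.pR, h.pZ, b4, b5⟩

lemma QB.sz {N : ℕ} {X : ℝ} (hX : 1 ≤ X) (hN : (N : ℝ) ≤ X) {q : Q5} (h : QB N q) :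
    QSz (X ^ 2) q := by
  have h1 : X ≤ X ^ 2 := by nlinarith
  have e : ∀ n : ℕ, n ≤ N → (n : ℝ) ≤ X ^ 2 := fun n hn =>
    (le_trans (by exact_mod_cast hn) hN).trans h1
  refine ⟨e _ h.D0, e _ h.D1, ?_, e _ h.R, e _ h.Z⟩
  calc (nm q.B : ℝ) ≤ ((N ^ 2 : ℕ) : ℝ) := by exact_mod_cast h.B
    _ = (N : ℝ) ^ 2 := by push_cast; ring
    _ ≤ X ^ 2 := by gcongr

lemma qsz_mono {Y Y' : ℝ} (hY : Y ≤ Y') {q : Q5} (h : QSz Y q) : QSz Y' q :=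
  ⟨h.D0.trans hY, h.D1.trans hY, h.B.trans hY, h.R.trans hY, h.Z.trans hY⟩

section

variable {M f : Eis} {O : Type} [Fintype O] {lam : O → ℝ} {v w : O → Eis → ℂ} {X : ℝ}
variable {𝒬 : Finset Q5}

/-- the number of quintuples -/
lemma card_Q (hX : 1 ≤ X) (h : ∀ q ∈ 𝒬, QOK M f q ∧ QB ⌊X⌋₊ q) : (𝒬.card : ℝ) ≤ X ^ 36 := by
  classical
  set N := ⌊X⌋₊ with hN
  have hX0 : 0 < X := by linarith
  have hsub : 𝒬 ⊆ primBall N ×ˢ (primBall N ×ˢ (primBall (N ^ 2) ×ˢ (primBall N ×ˢ primBall N))) := by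
    intro q hq
    obtain ⟨h1, h2⟩ := h q hq
    simp only [Finset.mem_product, mem_primBall]
    exact ⟨⟨h2.D0, h1.pD0⟩, ⟨h2.D1, h1.pD1⟩, ⟨h2.B, h1.gb.2.1.prim⟩, ⟨h2.R, h1.pR.1⟩,
      ⟨h2.Z, h1.pZ.1⟩⟩
  have h1 := card_pb hX
  have h2 : ((primBall (N ^ 2)).card : ℝ) ≤ (X ^ 2) ^ 6 := by
    have hX2 : 1 ≤ X ^ 2 := one_le_pow₀ hX
    refine le_trans ?_ (card_pb hX2)
    norm_cast
    refine Finset.card_le_card fun x hx => ?_
    rw [mem_primBall] at hx ⊢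
    refine ⟨hx.1.trans ?_, hx.2⟩
    refine Nat.le_floor ?_
    push_cast
    have := Nat.floor_le hX0.le
    gcongr
  have h3 := Finset.card_le_card hsub
  simp only [Finset.card_product] at h3
  calc (𝒬.card : ℝ) ≤ (((primBall N).card * ((primBall N).card * ((primBall (N ^ 2)).card *
        ((primBall N).card * (primBall N).card))) : ℕ) : ℝ) := by exact_mod_cast h3
    _ = ((primBall N).card : ℝ) * ((primBall N).card * ((primBall (N ^ 2)).card *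
        ((primBall N).card * (primBall N).card))) := by push_cast; ring
    _ ≤ X ^ 6 * (X ^ 6 * ((X ^ 2) ^ 6 * (X ^ 6 * X ^ 6))) := by gcongr
    _ = X ^ 36 := by ring

lemma norm_cz_le' (hX : 1 ≤ X) (h : ∀ q ∈ 𝒬, QOK M f q ∧ QB ⌊X⌋₊ q)
    (z : O × {q : Q5 // q ∈ 𝒬}) :
    (nm (z.2.1.D0 * z.2.1.D1) : ℝ) ^ (3 / 2 : ℝ) * (nm z.2.1.B : ℝ) ^ 3 ≤ X ^ 9 := by
  obtain ⟨h1, h2⟩ := h _ z.2.2
  have hX0 : 0 < X := by linarith
  have hfl : (⌊X⌋₊ : ℝ) ≤ X := Nat.floor_le hX0.le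
  have e1 : (nm (z.2.1.D0 * z.2.1.D1) : ℝ) ≤ X ^ 2 := by
    rw [nm_mul]
    push_cast
    have a1 : (nm z.2.1.D0 : ℝ) ≤ X := le_trans (by exact_mod_cast h2.D0) hfl
    have a2 : (nm z.2.1.D1 : ℝ) ≤ X := le_trans (by exact_mod_cast h2.D1) hfl
    calc (nm z.2.1.D0 : ℝ) * nm z.2.1.D1 ≤ X * X := by gcongr
      _ = X ^ 2 := by ring
  have e2 : (nm z.2.1.B : ℝ) ≤ X ^ 2 := by
    calc (nm z.2.1.B : ℝ) ≤ ((⌊X⌋₊ ^ 2 : ℕ) : ℝ) := by exact_mod_cast h2.B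
      _ = (⌊X⌋₊ : ℝ) ^ 2 := by push_cast; ring
      _ ≤ X ^ 2 := by gcongr
  calc (nm (z.2.1.D0 * z.2.1.D1) : ℝ) ^ (3 / 2 : ℝ) * (nm z.2.1.B : ℝ) ^ 3
      ≤ (X ^ 2) ^ (3 / 2 : ℝ) * (X ^ 2) ^ 3 := by gcongr
    _ = X ^ 3 * X ^ 6 := by
        rw [← Real.rpow_natCast X 2, ← Real.rpow_mul hX0.le]
        norm_num
        left
        rw [← pow_mul]
    _ = X ^ 9 := by ring

/-- **the standing conditions for the family** -/
theorem datZ (hdat : Dat4 M f lam v w X) (h : ∀ q ∈ 𝒬, QOK M f q ∧ QB ⌊X⌋₊ q)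
    {c : O × {q : Q5 // q ∈ 𝒬} → ℂ}
    (hc : ∀ z, ‖c z‖ ≤ (nm (z.2.1.D0 * z.2.1.D1) : ℝ) ^ (3 / 2 : ℝ) * (nm z.2.1.B : ℝ) ^ 3) :
    DatS M (fz f) (vz v) (fun z y => c z * wz w z y) (X ^ 40) := by
  classical
  have hX1 := hdat.X1
  have hX0 : 0 < X := by linarith
  have hfl : (⌊X⌋₊ : ℝ) ≤ X := Nat.floor_le hX0.le
  have hX40 : X ≤ X ^ 40 := by
    calc X = X ^ 1 := (pow_one X).symm
      _ ≤ X ^ 40 := pow_le_pow_right₀ hX1 (by norm_num)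
  have hnD : ∀ z : O × {q : Q5 // q ∈ 𝒬}, IsPrim (z.2.1.D0 * z.2.1.D1) := fun z =>
    (h _ z.2.2).1.pD0.mul (h _ z.2.2).1.pD1
  have hsv : ∀ z : O × {q : Q5 // q ∈ 𝒬}, SSm M (vz v z) := fun z =>
    ssm_tws (ssm_tws (hdat.hv z.1) isPrim_one) (h _ z.2.2).1.pR.1
  have hsw : ∀ z : O × {q : Q5 // q ∈ 𝒬}, SSm M (wz w z) := fun z =>
    ssm_tws (ssm_tws (hdat.hw z.1) (h _ z.2.2).1.pD1) (h _ z.2.2).1.pZ.1
  refine ⟨one_le_pow₀ hX1, ?_, ?_, hsv, ?_, ?_, ?_, ?_, ?_⟩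
  · rw [Fintype.card_prod, Fintype.card_coe]
    push_cast
    have h1 := card_Q hX1 h
    calc (Fintype.card O : ℝ) * 𝒬.card ≤ X * X ^ 36 := by
          have := hdat.card
          gcongr
      _ = X ^ 37 := by ring
      _ ≤ X ^ 40 := pow_le_pow_right₀ hX1 (by norm_num)
  · intro z
    obtain ⟨h1, h2⟩ := h _ z.2.2
    have hd := dta hdat.hf.1 h1
    refine ⟨hd.sFF, ?_⟩
    have h3 := E4v5.nm_ff_le hdat hd.pD hd.dvd hd.gb h2.R h2.Z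
    have h4 : (1 : ℝ) ≤ (nm z.2.1.B : ℝ) ^ 3 := one_le_pow₀ (one_le_nm hd.hB.ne_zero)
    have e1 : fz f z = f / z.2.1.D0 * z.2.1.R * z.2.1.Z / z.2.1.B ^ 3 := rfl
    rw [e1]
    have h5 : (0 : ℝ) ≤ nm (f / z.2.1.D0 * z.2.1.R * z.2.1.Z / z.2.1.B ^ 3) := Nat.cast_nonneg _
    have h6 : X ^ 3 ≤ X ^ 40 := pow_le_pow_right₀ hX1 (by norm_num)
    nlinarith
  · intro z
    refine ⟨(hsw z).fin.subset fun y hy => ?_, fun y hy => (hsw z).sm y (right_ne_zero_of_mul hy)⟩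
    exact right_ne_zero_of_mul hy
  · intro z x hx
    have h1 : v z.1 (1 * (z.2.1.R * x)) ≠ 0 := tws_ne (tws_ne hx)
    rw [one_mul] at h1
    have h2 := hdat.vx z.1 _ h1
    have h3 : z.2.1.R * x ≠ 0 := ((hdat.hv z.1).sm _ h1).ne_zero
    refine ⟨fun p hp hpd => h2.1 p hp (hpd.trans (dvd_mul_left _ _)), ?_⟩
    have h4 := nm_le_of_dvd h3 (dvd_mul_left x z.2.1.R)
    have h5 : (nm x : ℝ) ≤ nm (z.2.1.R * x) := by exact_mod_cast h4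
    linarith [h2.2]
  · intro z y hy
    have h1 : w z.1 (z.2.1.D1 * (z.2.1.Z * y)) ≠ 0 := tws_ne (tws_ne (right_ne_zero_of_mul hy))
    have h2 := hdat.wy z.1 _ h1
    have h3 : z.2.1.D1 * (z.2.1.Z * y) ≠ 0 := ((hdat.hw z.1).sm _ h1).ne_zero
    have h4 := nm_le_of_dvd h3 ((dvd_mul_left y z.2.1.Z).trans (dvd_mul_left _ z.2.1.D1))
    have h5 : (nm y : ℝ) ≤ nm (z.2.1.D1 * (z.2.1.Z * y)) := by exact_mod_cast h4
    linarith
  · intro z x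
    refine le_trans (norm_tws_le (fun _ => by simp) hX0.le (norm_tws_le ?_ hX0.le
      (hdat.vb z.1)) x) hX40
    intro x
    rw [RCLike.norm_conj]
    exact Gauss880.norm_sy_le Gauss880.syG (hnD z)
  · intro z x
    have h1 : ‖wz w z x‖ ≤ X := by
      refine norm_tws_le (fun _ => by simp) hX0.le (norm_tws_le ?_ hX0.le (hdat.wb z.1)) x
      intro x
      rw [RCLike.norm_conj]
      exact Gauss880.norm_sy_le Gauss880.syG (hnD z)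
    rw [norm_mul]
    have h2 := (hc z).trans (norm_cz_le' hX1 h z)
    calc ‖c z‖ * ‖wz w z x‖ ≤ X ^ 9 * X := by gcongr
      _ = X ^ 10 := by ring
      _ ≤ X ^ 40 := pow_le_pow_right₀ hX1 (by norm_num)

end

/-- class-free bound from `JB` at `Y = X^80` -/
lemma jbt_of {ε : ℝ} (hε : 0 < ε) : ∃ C : ℝ, 0 ≤ C ∧ ∀ (M f : Eis) (O : Type) (lam : O → ℝ)
    (v w : O → Eis → ℂ) (G : Eis → ℂ) (rng : Tm O → Prop) (X S : ℝ), 1 ≤ X → 0 ≤ S →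
    (∀ o, 1 ≤ lam o ∧ lam o ≤ X) → JB M f lam v w G rng S →
    JBt M f lam v w G rng (X ^ 80) (C * X ^ ε * S) := by
  obtain ⟨C, hC, H⟩ := E4cls176.classes (ε / 80) (by positivity)
  refine ⟨C, hC, fun M f O lam v w G rng X S hX hS hlam h => ?_⟩
  have hX0 : 0 < X := by linarith
  have hX80 : X ≤ X ^ 80 := by
    calc X = X ^ 1 := (pow_one X).symm
      _ ≤ X ^ 80 := pow_le_pow_right₀ hX (by norm_num)
  have h1 := H M f O lam v w G rng (X ^ 80) S (one_le_pow₀ hX) hS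
    (fun o => ⟨(hlam o).1, (hlam o).2.trans hX80⟩) h
  have e : (X ^ 80 : ℝ) ^ (ε / 80) = X ^ ε := by
    rw [← Real.rpow_natCast X 80, ← Real.rpow_mul hX0.le]
    congr 1; push_cast; ring
  rwa [e] at h1

/-- **the direct part** -/
theorem dirZ {ε : ℝ} (hε : 0 < ε) : ∃ C : ℝ, 0 ≤ C ∧
    ∀ (M f : Eis) (O : Type) (_ : Fintype O) (lam : O → ℝ) (v w : O → Eis → ℂ) (X K B' : ℝ)
      (φ : O → Eis → ℂ) (S : ℝ) (sw : Eis → Eis → Eis → Eis → Eis → Prop) (𝒬 : Finset Q5)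
      (c : O × {q : Q5 // q ∈ 𝒬} → ℂ),
      Dat4 M f lam v w X → 0 < K → K ≤ X → 0 ≤ B' → 0 ≤ S →
      (∀ o k, Sm M k → ‖φ o k‖ ≤ B') → (∀ o k, K / lam o < nm k → φ o k = 0) →
      JB M f lam v w (fun _ => 1) (rngD sw lam K) S →
      (∀ q ∈ 𝒬, QOK M f q ∧ QB ⌊X⌋₊ q) → (∀ q ∈ 𝒬, ¬ sw q.D0 q.D1 q.B q.R q.Z) →
      (∀ z, ‖c z‖ ≤ (nm (z.2.1.D0 * z.2.1.D1) : ℝ) ^ (3 / 2 : ℝ) * (nm z.2.1.B : ℝ) ^ 3) →
      ‖∑ z : O × {q : Q5 // q ∈ 𝒬}, Bi (vz v z) (fun y => c z * wz w z y)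
        (fun x y => NT M (fz f z * x * y)
          (fun k => φ z.1 ((z.2.1.D0 * z.2.1.D1) ^ 2 * z.2.1.B ^ 3 * k)))‖ ≤
        C * X ^ ε * (B' * (K * S)) := by
  obtain ⟨C1, h10, h1⟩ := lBpS (ε / 80) (by positivity)
  obtain ⟨C2, h20, h2⟩ := jbt_of (ε := ε / 2) (by positivity)
  refine ⟨C1 * C2, by positivity, ?_⟩
  intro M f O _ lam v w X K B' φ S sw 𝒬 c hdat hK hKX hB' hS hφ1 hφ0 hJ h𝒬 hsw hc
  have hX1 := hdat.X1
  have hX0 : 0 < X := by linarith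
  have hlam0 : ∀ o, 0 < lam o := fun o => by linarith [(hdat.lam1 o).1]
  have hD := datZ hdat h𝒬 hc
  have hXp : ∀ n : ℕ, 1 ≤ n → X ≤ X ^ n := fun n hn => by
    calc X = X ^ 1 := (pow_one X).symm
      _ ≤ X ^ n := pow_le_pow_right₀ hX1 hn
  -- the scaled variable
  have hnE : ∀ z : O × {q : Q5 // q ∈ 𝒬},
      IsPrim ((z.2.1.D0 * z.2.1.D1) ^ 2 * z.2.1.B ^ 3) ∧
      Sm M ((z.2.1.D0 * z.2.1.D1) ^ 2 * z.2.1.B ^ 3) := by
    intro z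
    obtain ⟨h3, -⟩ := h𝒬 _ z.2.2
    have hs : Sm M ((z.2.1.D0 * z.2.1.D1) ^ 2 * z.2.1.B ^ 3) := by
      have a1 := h3.good.2.2.1
      have a2 := h3.gb.2.1
      have a3 : Sm M ((z.2.1.D0 * z.2.1.D1) ^ 2) := by rw [sq]; exact a1.mul a1
      have a4 : Sm M (z.2.1.B ^ 3) := by
        rw [pow_succ, sq]; exact (a2.mul a2).mul a2
      exact a3.mul a4
    exact ⟨hs.prim, hs⟩
  have hE1 : ∀ z : O × {q : Q5 // q ∈ 𝒬},
      (1 : ℝ) ≤ nm ((z.2.1.D0 * z.2.1.D1) ^ 2 * z.2.1.B ^ 3) := fun z =>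
    one_le_nm (hnE z).1.ne_zero
  have hQpos : ∀ z : O × {q : Q5 // q ∈ 𝒬}, 0 < Qz lam K z := fun z => by
    have := hlam0 z.1
    have := hE1 z
    unfold Qz
    positivity
  have hQX : ∀ z : O × {q : Q5 // q ∈ 𝒬}, Qz lam K z ≤ X := fun z => by
    unfold Qz
    refine (div_le_self hK.le ?_).trans hKX
    exact one_le_mul_of_one_le_of_one_le (hdat.lam1 z.1).1 (hE1 z)
  have key := h1 M (O × {q : Q5 // q ∈ 𝒬}) _ (fz f) (vz v) (fun z y => c z * wz w z y) (X ^ 40)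
    (Qz lam K) B' (fun z k => φ z.1 ((z.2.1.D0 * z.2.1.D1) ^ 2 * z.2.1.B ^ 3 * k)) hD
    (fun z => ⟨hQpos z, (hQX z).trans (hXp 40 (by norm_num))⟩) hB'
    (fun z k hk => hφ1 _ _ ((hnE z).2.mul hk))
    (fun z k hk => by
      refine hφ0 _ _ ?_
      have h3 := hlam0 z.1
      have h4 : (0 : ℝ) < nm ((z.2.1.D0 * z.2.1.D1) ^ 2 * z.2.1.B ^ 3) := by
        linarith [hE1 z]
      rw [nm_mul, Nat.cast_mul, div_lt_iff₀ h3]
      unfold Qz at hk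
      rw [div_lt_iff₀ (by positivity)] at hk
      calc K < nm k * (lam z.1 * nm ((z.2.1.D0 * z.2.1.D1) ^ 2 * z.2.1.B ^ 3)) := hk
        _ = _ := by ring)
  rw [← BSf_true] at key
  have hbs := bsf_le (M := M) (f := f) (lam := lam) (v := v) (w := w) (𝒬 := 𝒬)
    (G := fun _ => 1) (rng := rngD sw lam K) (Y := X ^ 80) (S := C2 * X ^ (ε / 2) * S)
    (h2 M f O lam v w (fun _ => 1) (rngD sw lam K) X S hX1 hS hdat.lam1 hJ) hlam0 hK
    (fun q hq => ⟨(h𝒬 q hq).1, qsz_mono (pow_le_pow_right₀ hX1 (by norm_num))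
      ((h𝒬 q hq).2.sz hX1 (Nat.floor_le hX0.le))⟩) c hc (X := X ^ 40) (by positivity)
    (pow_le_pow_right₀ hX1 (by norm_num)) (Qz lam K)
    (fun z => (hQX z).trans (hXp 80 (by norm_num))) (fun _ _ => True) (by
      intro z i hi _ _
      refine ⟨hsw _ z.2.2, ?_⟩
      have h3 := hlam0 z.1
      have h4 : (0 : ℝ) < nm ((z.2.1.D0 * z.2.1.D1) ^ 2 * z.2.1.B ^ 3) := by
        linarith [hE1 z]
      unfold Qz at hi
      rw [le_div_iff₀ (by positivity)] at hi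
      have e1 : (nm ((z.2.1.D0 * z.2.1.D1) ^ 2 * z.2.1.B ^ 3 * (i.1.1 * i.1.2)) : ℝ) =
          nm ((z.2.1.D0 * z.2.1.D1) ^ 2 * z.2.1.B ^ 3) * nm (i.1.1 * i.1.2) := by
        rw [nm_mul ((z.2.1.D0 * z.2.1.D1) ^ 2 * z.2.1.B ^ 3)]; push_cast; ring
      show lam z.1 * (nm ((z.2.1.D0 * z.2.1.D1) ^ 2 * z.2.1.B ^ 3 * (i.1.1 * i.1.2)) : ℝ) ≤ K
      rw [e1]
      linarith)
  have e0 : (fun (b y : Eis) => sy y b * (fun _ : Eis => (1 : ℂ)) y) = fun b y => sy y b := by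
    funext b y
    simp
  rw [e0] at hbs
  have e2 : (X ^ 40 : ℝ) ^ (ε / 80) = X ^ (ε / 2) := by
    rw [← Real.rpow_natCast X 40, ← Real.rpow_mul hX0.le]
    congr 1; push_cast; ring
  rw [e2] at key
  have e3 : X ^ ε = X ^ (ε / 2) * X ^ (ε / 2) := by rw [← Real.rpow_add hX0]; congr 1; ring
  refine key.trans ?_
  have hp : 0 ≤ C1 * X ^ (ε / 2) * B' := by positivity
  calc C1 * X ^ (ε / 2) * B' * BSf M (fz f) (vz v) (fun z y => c z * wz w z y)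
        (fun b y => sy y b) (X ^ 40) (Qz lam K) (Qz lam K) (fun _ _ => True)
      ≤ C1 * X ^ (ε / 2) * B' * (K * (C2 * X ^ (ε / 2) * S)) := mul_le_mul_of_nonneg_left hbs hp
    _ = _ := by rw [e3]; ring

end Crest.Agent.R017.E4J352
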