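import Crest.Agent.R017.E4v7b_352
import Crest.Agent.R017.E4fe2_502

/-!
# Row 17, C70/E4, version 7: the functional equation over the index of the opening (helper352)

* `fe_id` : the identity (polar part + dual parts)
* `polZ` : the polar part
* `dualZ` : one dual part, with a filter on the frequencies
* `feZ` : the sum
-/

set_option autoImplicit false
set_option linter.unusedVariables false
set_option linter.unusedSectionVars false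

noncomputable section

open Complex
open scoped ComplexConjugate

namespace Crest.Agent.R017.E4J352

open Crest.Agent.R012 Crest.Agent.R012.Eis Crest.Agent.R012.Mob705 Crest.Agent.R012.Gauss880
open Crest.Agent.R012.Div277
open Crest.Agent.R017.Sx545 Crest.Agent.R017.CM106 Crest.Agent.R017.C70 Crest.Agent.R017.C590
open Crest.Agent.R017.End699 Crest.Agent.R017.B770 Crest.Agent.R017.Sx440
open Crest.Agent.R017.E2440 Crest.Agent.R017.E4352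
open Crest.Agent.R017.E4o502 (vD wD GoodD GB ssm_tws bd_tws)
open Crest.Agent.R017.E4v5 (Law5 HM5 card_pb tws_ne norm_tws_le)
open Crest.Agent.R017.E4fe502 (FF Dta Bi bi_congr bi_smul bi_add bi_sum bi_right law_bi n3_id mt_le dG)
open Crest.Agent.R017.E4R266
open Crest.Agent.R017.E4S783 (BSf BS BSf_true DatS lBpS lBdSf D3F D3F_true)

section

variable {M f : Eis} {O : Type} [Fintype O] {lam : O → ℝ} {v w : O → Eis → ℂ}
variable {𝒬 : Finset Q5}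

/-- the dilation `(D0 D1)² B³` -/
def ez (q : Q5) : Eis := (q.D0 * q.D1) ^ 2 * q.B ^ 3

lemma ez_sm {q : Q5} (h : QOK M f q) : Sm M (ez q) := by
  have a1 := h.good.2.2.1
  have a2 := h.gb.2.1
  have a3 : Sm M ((q.D0 * q.D1) ^ 2) := by rw [sq]; exact a1.mul a1
  have a4 : Sm M (q.B ^ 3) := by rw [pow_succ, sq]; exact (a2.mul a2).mul a2
  exact a3.mul a4

lemma ez_one {q : Q5} (h : QOK M f q) : (1 : ℝ) ≤ nm (ez q) := one_le_nm (ez_sm h).ne_zero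

lemma ssm_vz (hv : ∀ o, SSm M (v o)) (h : ∀ q ∈ 𝒬, QOK M f q) (z : O × {q : Q5 // q ∈ 𝒬}) :
    SSm M (vz v z) := ssm_tws (ssm_tws (hv z.1) isPrim_one) (h _ z.2.2).pR.1

lemma ssm_wz (hw : ∀ o, SSm M (w o)) (h : ∀ q ∈ 𝒬, QOK M f q) (z : O × {q : Q5 // q ∈ 𝒬}) :
    SSm M (wz w z) := ssm_tws (ssm_tws (hw z.1) (h _ z.2.2).pD1) (h _ z.2.2).pZ.1

/-- the functional equation at one `z` -/
lemma fe_one {ι : Type} [Fintype ι] {ψ : Eis → ℂ} {l : ℤ} {D : Dt3 ι} {V : ℝ → ℂ}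
    {W : ι → ℝ → ℂ} {mt : Eis → ℝ → ℂ} (hψ : HC M ψ) (hL : Law5 M ψ l D V W mt)
    (hf : Sm M f) (hv : ∀ o, SSm M (v o)) (hw : ∀ o, SSm M (w o)) (hlam : ∀ o, 0 < lam o)
    {K : ℝ} (hK : 0 < K) (h : ∀ q ∈ 𝒬, QOK M f q) (z : O × {q : Q5 // q ∈ 𝒬}) :
    Bi (vz v z) (wz w z) (fun x y => NT M (fz f z * x * y)
        (fun k => End699.tw ψ l (ez z.2.1 * k) * V (nm (ez z.2.1 * k) * lam z.1 / K))) =
      End699.tw ψ l (ez z.2.1) *
        (Bi (vz v z) (wz w z) (fun x y => mt (fz f z * x * y) (Qz lam K z)) +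
          ∑ i, D.κ i * Bi (vz v z) (wz w z) (dG M D W i (fz f z) (Qz lam K z))) := by
  have hq := h _ z.2.2
  have hd := dta hf hq
  have hc : IsPrim (ez z.2.1) := (ez_sm hq).prim
  have hnc : (0 : ℝ) < nm (ez z.2.1) := by linarith [ez_one hq]
  have hQ : 0 < Qz lam K z := by
    have h1 := hlam z.1
    have h2 : (0 : ℝ) < nm ((z.2.1.D0 * z.2.1.D1) ^ 2 * z.2.1.B ^ 3) := hnc
    unfold Qz
    positivity
  have a1 : Bi (vz v z) (wz w z) (fun x y => NT M (fz f z * x * y)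
        (fun k => End699.tw ψ l (ez z.2.1 * k) * V (nm (ez z.2.1 * k) * lam z.1 / K))) =
      Bi (vz v z) (wz w z) (fun x y => End699.tw ψ l (ez z.2.1) *
        N3 M (End699.tw ψ l) (fz f z * x * y) V (Qz lam K z)) := by
    refine bi_congr (ssm_vz hv h z) (ssm_wz hw h z) fun x y _ _ => ?_
    exact n3_id (ψ'' := 0) hψ hc _ V hK (hlam z.1)
  rw [a1, bi_smul, law_bi hL (F := fz f z) hd.sFF (ssm_vz hv h z) (ssm_wz hw h z) hQ]
  rfl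

/-- **the identity** -/
theorem fe_id {ι : Type} [Fintype ι] {ψ : Eis → ℂ} {l : ℤ} {D : Dt3 ι} {V : ℝ → ℂ}
    {W : ι → ℝ → ℂ} {mt : Eis → ℝ → ℂ} (hψ : HC M ψ) (hL : Law5 M ψ l D V W mt)
    (hf : Sm M f) (hv : ∀ o, SSm M (v o)) (hw : ∀ o, SSm M (w o)) (hlam : ∀ o, 0 < lam o)
    {K : ℝ} (hK : 0 < K) (h : ∀ q ∈ 𝒬, QOK M f q) (a : Q5 → ℂ) :
    ∑ z : O × {q : Q5 // q ∈ 𝒬}, a z.2.1 * Bi (vz v z) (wz w z) (fun x y =>
        NT M (fz f z * x * y)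
          (fun k => End699.tw ψ l (ez z.2.1 * k) * V (nm (ez z.2.1 * k) * lam z.1 / K))) =
      ∑ q : {q : Q5 // q ∈ 𝒬}, (a q.1 * End699.tw ψ l (ez q.1)) *
          ∑ o, Bi (vz v (o, q)) (wz w (o, q)) (fun x y => mt (fz f (o, q) * x * y)
            (Qz lam K (o, q))) +
        ∑ i, D.κ i * ∑ z : O × {q : Q5 // q ∈ 𝒬}, Bi (vz v z)
          (fun y => (a z.2.1 * End699.tw ψ l (ez z.2.1)) * wz w z y)
          (dG M D W i (fz f z) (Qz lam K z)) := by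
  have e1 : ∀ z : O × {q : Q5 // q ∈ 𝒬}, a z.2.1 * Bi (vz v z) (wz w z) (fun x y =>
        NT M (fz f z * x * y)
          (fun k => End699.tw ψ l (ez z.2.1 * k) * V (nm (ez z.2.1 * k) * lam z.1 / K))) =
      (a z.2.1 * End699.tw ψ l (ez z.2.1)) *
          Bi (vz v z) (wz w z) (fun x y => mt (fz f z * x * y) (Qz lam K z)) +
        ∑ i, D.κ i * Bi (vz v z)
          (fun y => (a z.2.1 * End699.tw ψ l (ez z.2.1)) * wz w z y)
          (dG M D W i (fz f z) (Qz lam K z)) := by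
    intro z
    rw [fe_one hψ hL hf hv hw hlam hK h z, ← mul_assoc, mul_add, Finset.mul_sum]
    congr 1
    refine Finset.sum_congr rfl fun i _ => ?_
    rw [bi_right]
    ring
  rw [Finset.sum_congr rfl fun z _ => e1 z, Finset.sum_add_distrib]
  congr 1
  · rw [Fintype.sum_prod_type, Finset.sum_comm]
    refine Finset.sum_congr rfl fun q _ => ?_
    rw [Finset.mul_sum]
  · rw [Finset.sum_comm]
    refine Finset.sum_congr rfl fun i _ => ?_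
    rw [Finset.mul_sum]

end

/-- **the polar part** -/
theorem polZ {ε : ℝ} (hε : 0 < ε) : ∃ C : ℝ, 0 ≤ C ∧
    ∀ (M f : Eis) (O : Type) (_ : Fintype O) (lam : O → ℝ) (v w : O → Eis → ℂ) (X K T₀ Mn : ℝ)
      (mt : Eis → ℝ → ℂ) (𝒬 : Finset Q5) (c : Q5 → ℂ),
      1 ≤ X → 0 ≤ Mn → Sm M f → (∀ o, SSm M (v o)) → (∀ o, SSm M (w o)) →
      HM5 M f lam v w K T₀ mt Mn → (∀ q ∈ 𝒬, QOK M f q ∧ QB ⌊X⌋₊ q) →
      (∀ q ∈ 𝒬, (nm q.D1 : ℝ) * nm (rd q.Z) ≤ 2 * T₀) →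
      (∀ q ∈ 𝒬, ‖c q‖ ≤ (nm (q.D0 * q.D1) : ℝ) ^ (3 / 2 : ℝ) * (nm q.B : ℝ) ^ 3) →
      ‖∑ q : {q : Q5 // q ∈ 𝒬}, c q.1 * ∑ o, Bi (vz v (o, q)) (wz w (o, q))
          (fun x y => mt (fz f (o, q) * x * y) (Qz lam K (o, q)))‖ ≤ C * X ^ ε * Mn := by
  classical
  obtain ⟨C, hC, H⟩ := E4sum176.cnt2 ε hε
  refine ⟨C, hC, ?_⟩
  intro M f O _ lam v w X K T₀ Mn mt 𝒬 c hX hMn hf hv hw hM h𝒬 hT hc
  have hX0 : 0 < X := by linarith
  have h1 : ∀ q : {q : Q5 // q ∈ 𝒬}, ‖c q.1 * ∑ o, Bi (vz v (o, q)) (wz w (o, q))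
          (fun x y => mt (fz f (o, q) * x * y) (Qz lam K (o, q)))‖ ≤
      Mn * ((nm (q.1.D0 * q.1.D1) : ℝ) * nm q.1.B)⁻¹ := by
    intro q
    have hq := (h𝒬 _ q.2).1
    have key := mt_le (dta hf hq) (K := K) (T₀ := T₀) (Mn := Mn) (mt := mt) hv hw hM hq.good
      hq.pD1 hq.gb.2.2.1 (hT _ q.2)
    rw [norm_mul]
    have e1 : ∑ o, Bi (vz v (o, q)) (wz w (o, q))
          (fun x y => mt (fz f (o, q) * x * y) (Qz lam K (o, q))) =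
        ∑ o, Bi (tws q.1.R q.1.B (fun _ => 1) (vD (q.1.D0 * q.1.D1) (v o)))
        (tws q.1.Z q.1.B (fun _ => 1) (wD (q.1.D0 * q.1.D1) q.1.D1 (w o)))
        (fun x y => mt (FF f q.1.D0 q.1.B q.1.R q.1.Z * x * y)
          (K / (lam o * nm ((q.1.D0 * q.1.D1) ^ 2 * q.1.B ^ 3)))) := rfl
    rw [e1]
    set T := ‖∑ o, Bi (tws q.1.R q.1.B (fun _ => 1) (vD (q.1.D0 * q.1.D1) (v o)))
        (tws q.1.Z q.1.B (fun _ => 1) (wD (q.1.D0 * q.1.D1) q.1.D1 (w o)))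
        (fun x y => mt (FF f q.1.D0 q.1.B q.1.R q.1.Z * x * y)
          (K / (lam o * nm ((q.1.D0 * q.1.D1) ^ 2 * q.1.B ^ 3))))‖ with hTd
    have hT0 : 0 ≤ T := norm_nonneg _
    calc ‖c q.1‖ * T ≤ ((nm (q.1.D0 * q.1.D1) : ℝ) ^ (3 / 2 : ℝ) * (nm q.1.B : ℝ) ^ 3) * T :=
          mul_le_mul_of_nonneg_right (hc _ q.2) hT0
      _ = (nm (q.1.D0 * q.1.D1) : ℝ) ^ (3 / 2 : ℝ) * ((nm q.1.B : ℝ) ^ 3 * T) := by ring
      _ ≤ Mn / (nm (q.1.D0 * q.1.D1) * nm q.1.B) := key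
      _ = _ := by rw [div_eq_mul_inv]
  refine (norm_sum_le _ _).trans ((Finset.sum_le_sum fun q _ => h1 q).trans ?_)
  rw [← Finset.mul_sum]
  have h2 : ∑ q : {q : Q5 // q ∈ 𝒬}, ((nm (q.1.D0 * q.1.D1) : ℝ) * nm q.1.B)⁻¹ ≤ C * X ^ ε := by
    rw [Finset.sum_coe_sort 𝒬 (fun q => ((nm (q.D0 * q.D1) : ℝ) * nm q.B)⁻¹)]
    refine le_trans ?_ (H X ⌊X⌋₊ hX (Nat.floor_le hX0.le))
    set N := ⌊X⌋₊ with hN
    have e2 : ∑ D0 ∈ primBall N, ∑ D1 ∈ primBall N, ∑ B ∈ primBall (N ^ 2),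
        ∑ _R ∈ (primBall N).filter (fun R => PrI B R),
          ∑ _Z ∈ (primBall N).filter (fun Z => PrI B Z), ((nm (D0 * D1) : ℝ) * nm B)⁻¹ =
        ∑ q ∈ (primBall N ×ˢ (primBall N ×ˢ (primBall (N ^ 2) ×ˢ
          (primBall N ×ˢ primBall N)))).filter
            (fun q : Q5 => PrI q.2.2.1 q.2.2.2.1 ∧ PrI q.2.2.1 q.2.2.2.2),
          ((nm (q.1 * q.2.1) : ℝ) * nm q.2.2.1)⁻¹ := by
      rw [Finset.sum_filter, Finset.sum_product]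
      refine Finset.sum_congr rfl fun D0 _ => ?_
      rw [Finset.sum_product]
      refine Finset.sum_congr rfl fun D1 _ => ?_
      rw [Finset.sum_product]
      refine Finset.sum_congr rfl fun B _ => ?_
      rw [Finset.sum_product, Finset.sum_filter]
      refine Finset.sum_congr rfl fun R _ => ?_
      by_cases hR : PrI B R
      · rw [if_pos hR, Finset.sum_filter]
        refine Finset.sum_congr rfl fun Z _ => ?_
        by_cases hZ : PrI B Z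
        · rw [if_pos hZ, if_pos ⟨hR, hZ⟩]
        · rw [if_neg hZ, if_neg (fun h => hZ h.2)]
      · rw [if_neg hR]
        symm
        exact Finset.sum_eq_zero fun Z _ => if_neg fun h => hR h.1
    rw [e2]
    refine Finset.sum_le_sum_of_subset_of_nonneg ?_ fun _ _ _ => by positivity
    intro q hq
    obtain ⟨g1, g2⟩ := h𝒬 q hq
    rw [Finset.mem_filter]
    simp only [Finset.mem_product, mem_primBall]
    exact ⟨⟨⟨g2.D0, g1.pD0⟩, ⟨g2.D1, g1.pD1⟩, ⟨g2.B, g1.gb.2.1.prim⟩, ⟨g2.R, g1.pR.1⟩,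
      ⟨g2.Z, g1.pZ.1⟩⟩, g1.pR, g1.pZ⟩
  calc Mn * ∑ q : {q : Q5 // q ∈ 𝒬}, ((nm (q.1.D0 * q.1.D1) : ℝ) * nm q.1.B)⁻¹
      ≤ Mn * (C * X ^ ε) := mul_le_mul_of_nonneg_left h2 hMn
    _ = _ := by ring

/-- the dual length -/
def Kdz {O : Type} (lam : O → ℝ) (U K : ℝ) {𝒬 : Finset Q5} (z : O × {q : Q5 // q ∈ 𝒬}) : ℝ :=
  U / K * nm (z.2.1.D0 * z.2.1.D1) / lam z.1

section

variable {M f : Eis} {O : Type} [Fintype O] {lam : O → ℝ} {v w : O → Eis → ℂ}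
variable {𝒬 : Finset Q5} {X K U : ℝ}

/-- the length condition -/
lemma lenZ (hf : Sm M f) (hK : 0 < K) (hlam : ∀ o, 0 < lam o)
    (H : ∀ o x y, v o x ≠ 0 → w o y ≠ 0 → (nm (f * x * y) : ℝ) * lam o ^ 2 ≤ U)
    (h : ∀ q ∈ 𝒬, QOK M f q) (z : O × {q : Q5 // q ∈ 𝒬}) (x y : Eis) (hx : vz v z x ≠ 0)
    (hy : wz w z y ≠ 0) : (nm (fz f z * x * y) : ℝ) ≤ Kdz lam U K z * Qz lam K z := by
  have hq := h _ z.2.2
  have hd := dta hf hq
  have hx' : v z.1 (1 * (z.2.1.R * x)) ≠ 0 := tws_ne (tws_ne hx)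
  have hy' : w z.1 (z.2.1.D1 * (z.2.1.Z * y)) ≠ 0 := tws_ne (tws_ne hy)
  rw [one_mul] at hx'
  have key := H z.1 _ _ hx' hy'
  have e1 : f * (z.2.1.R * x) * (z.2.1.D1 * (z.2.1.Z * y)) =
      (z.2.1.D0 * z.2.1.D1) * z.2.1.B ^ 3 * (fz f z * x * y) := by
    have a1 := hd.hFF
    have a2 := hd.f'
    have a3 : fz f z = FF f z.2.1.D0 z.2.1.B z.2.1.R z.2.1.Z := rfl
    rw [a3]
    calc f * (z.2.1.R * x) * (z.2.1.D1 * (z.2.1.Z * y)) =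
        (z.2.1.D0 * (f / z.2.1.D0)) * (z.2.1.R * x) * (z.2.1.D1 * (z.2.1.Z * y)) := by rw [a2]
      _ = (z.2.1.D0 * z.2.1.D1) * (f / z.2.1.D0 * z.2.1.R * z.2.1.Z) * x * y := by ring
      _ = _ := by rw [a1]; ring
  rw [e1] at key
  have hDn : (0 : ℝ) < nm (z.2.1.D0 * z.2.1.D1) := by
    exact_mod_cast nm_pos.mpr (hq.pD0.mul hq.pD1).ne_zero
  have hBn : (0 : ℝ) < nm z.2.1.B := by exact_mod_cast nm_pos.mpr hd.hB.ne_zero
  have hl := hlam z.1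
  have e2 : (nm ((z.2.1.D0 * z.2.1.D1) * z.2.1.B ^ 3 * (fz f z * x * y)) : ℝ) =
      nm (z.2.1.D0 * z.2.1.D1) * (nm z.2.1.B : ℝ) ^ 3 * nm (fz f z * x * y) := by
    rw [nm_mul ((z.2.1.D0 * z.2.1.D1) * z.2.1.B ^ 3), nm_mul (z.2.1.D0 * z.2.1.D1), nm_pow]
    push_cast
    ring
  rw [e2] at key
  have e3 : (nm ((z.2.1.D0 * z.2.1.D1) ^ 2 * z.2.1.B ^ 3) : ℝ) =
      (nm (z.2.1.D0 * z.2.1.D1) : ℝ) ^ 2 * (nm z.2.1.B : ℝ) ^ 3 := by
    rw [nm_mul, nm_pow, nm_pow]; push_cast; ring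
  unfold Kdz Qz
  rw [e3]
  set d : ℝ := (nm (z.2.1.D0 * z.2.1.D1) : ℝ) with hdd
  set β : ℝ := (nm z.2.1.B : ℝ) with hβ
  set n : ℝ := (nm (fz f z * x * y) : ℝ) with hn
  have e4 : U / K * d / lam z.1 * (K / (lam z.1 * (d ^ 2 * β ^ 3))) =
      U / (d * β ^ 3 * lam z.1 ^ 2) := by
    field_simp
  rw [e4, le_div_iff₀ (by positivity)]
  calc n * (d * β ^ 3 * lam z.1 ^ 2) = d * β ^ 3 * n * lam z.1 ^ 2 := by ring
    _ ≤ U := key

end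

/-- **one dual part**, with a filter -/
theorem dualZ (M M' : Eis) (J : ℤ) (η ψ' : Eis → ℂ) (l' : ℤ) (ρ : ℝ) (hη : HC M' η)
    (hψ' : HC M' ψ') (hMM : M ∣ M') (hM0 : M' ≠ 0)
    (hrad : ∀ p : Eis, Prime p → p ∣ M' → p ∣ M) (hρ : 0 < ρ) {ε A : ℝ} (hε : 0 < ε)
    (hA : 0 ≤ A) : ∃ (C : ℝ) (m₀ N₀ : ℕ), 0 ≤ C ∧
    ∀ (f : Eis) (O : Type) (_ : Fintype O) (lam : O → ℝ) (v w : O → Eis → ℂ) (X K U B : ℝ)
      (W : ℝ → ℂ) (S : ℝ) (rng : Tm O → Prop) (𝒬 : Finset Q5)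
      (c : O × {q : Q5 // q ∈ 𝒬} → ℂ) (Nf : O × {q : Q5 // q ∈ 𝒬} → Eis → Prop),
      Dat4 M f lam v w X → 1 ≤ K → K ≤ X → 0 < U → U ≤ X → 0 ≤ B → 0 ≤ S → WT m₀ N₀ B W →
      (∀ o x y, v o x ≠ 0 → w o y ≠ 0 → (nm (f * x * y) : ℝ) * lam o ^ 2 ≤ U) →
      (∀ ξ, JB M f lam v w (gx η J ξ) rng ((1 + |ξ|) ^ A * S)) →
      (∀ q ∈ 𝒬, QOK M f q ∧ QB ⌊X⌋₊ q) →
      (∀ z, ‖c z‖ ≤ (nm (z.2.1.D0 * z.2.1.D1) : ℝ) ^ (3 / 2 : ℝ) * (nm z.2.1.B : ℝ) ^ 3) →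
      (∀ (z : O × {q : Q5 // q ∈ 𝒬}) (i : (Eis × Eis) × (Eis × Eis)),
        (nm (i.1.1 * i.1.2) : ℝ) ≤ Kdz lam U K z * X ^ ε → Sm M (i.1.1 * i.1.2) →
          Nf z (i.1.1 * i.1.2) → rng (tm z i)) →
      ‖∑ z : O × {q : Q5 // q ∈ 𝒬}, Bi (vz v z) (fun y => c z * wz w z y)
        (fun x y => (Qz lam K z : ℂ) * (End699.tw η J (fz f z * x * y) *
          D3F M (End699.tw ψ' l') (fz f z * x * y) W
            (ρ * nm (fz f z * x * y) / Qz lam K z) (Nf z)))‖ ≤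
        C * X ^ ε * (B * (K * S + X ^ (-A))) := by
  set e₁ : ℝ := min ε 1 with he₁
  have he₁0 : 0 < e₁ := lt_min hε one_pos
  obtain ⟨C1, m₀, N₀, h10, h1⟩ := lBdSf M M' J η ψ' l' ρ hη hψ' hMM hM0 hrad hρ (e₁ / 80) A
    (by positivity) hA
  obtain ⟨C2, h20, h2⟩ := jbt_of (ε := e₁ / 2) (by positivity)
  refine ⟨C1 * (C2 + 1), m₀, N₀, by positivity, ?_⟩
  intro f O _ lam v w X K U B W S rng 𝒬 c Nf hdat hK1 hKX hU hUX hB hS hW hlen hJ h𝒬 hc hr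
  have hX1 := hdat.X1
  have hX0 : 0 < X := by linarith
  have hK : 0 < K := by linarith
  have hlam0 : ∀ o, 0 < lam o := fun o => by linarith [(hdat.lam1 o).1]
  have hq : ∀ q ∈ 𝒬, QOK M f q := fun q hq => (h𝒬 q hq).1
  have hD := datZ hdat h𝒬 hc
  have hfl : (⌊X⌋₊ : ℝ) ≤ X := Nat.floor_le hX0.le
  have hXp : ∀ n : ℕ, 1 ≤ n → X ≤ X ^ n := fun n hn => by
    calc X = X ^ 1 := (pow_one X).symm
      _ ≤ X ^ n := pow_le_pow_right₀ hX1 hn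
  have hE1 : ∀ z : O × {q : Q5 // q ∈ 𝒬},
      (1 : ℝ) ≤ nm ((z.2.1.D0 * z.2.1.D1) ^ 2 * z.2.1.B ^ 3) := fun z => ez_one (hq _ z.2.2)
  have hDn : ∀ z : O × {q : Q5 // q ∈ 𝒬}, (1 : ℝ) ≤ nm (z.2.1.D0 * z.2.1.D1) ∧
      (nm (z.2.1.D0 * z.2.1.D1) : ℝ) ≤ X ^ 2 := by
    intro z
    obtain ⟨g1, g2⟩ := h𝒬 _ z.2.2
    refine ⟨one_le_nm (g1.pD0.mul g1.pD1).ne_zero, ?_⟩
    rw [nm_mul]
    push_cast
    have a1 : (nm z.2.1.D0 : ℝ) ≤ X := le_trans (by exact_mod_cast g2.D0) hfl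
    have a2 : (nm z.2.1.D1 : ℝ) ≤ X := le_trans (by exact_mod_cast g2.D1) hfl
    calc (nm z.2.1.D0 : ℝ) * nm z.2.1.D1 ≤ X * X := by gcongr
      _ = X ^ 2 := by ring
  have hBn : ∀ z : O × {q : Q5 // q ∈ 𝒬}, (nm z.2.1.B : ℝ) ≤ X ^ 2 := by
    intro z
    obtain ⟨g1, g2⟩ := h𝒬 _ z.2.2
    calc (nm z.2.1.B : ℝ) ≤ ((⌊X⌋₊ ^ 2 : ℕ) : ℝ) := by exact_mod_cast g2.B
      _ = (⌊X⌋₊ : ℝ) ^ 2 := by push_cast; ring
      _ ≤ X ^ 2 := by gcongr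
  have hQpos : ∀ z : O × {q : Q5 // q ∈ 𝒬}, 0 < Qz lam K z := fun z => by
    have := hlam0 z.1
    have := hE1 z
    unfold Qz
    positivity
  have hQX : ∀ z : O × {q : Q5 // q ∈ 𝒬}, Qz lam K z ≤ X := fun z => by
    unfold Qz
    refine (div_le_self hK.le ?_).trans hKX
    exact one_le_mul_of_one_le_of_one_le (hdat.lam1 z.1).1 (hE1 z)
  have hQl : ∀ z : O × {q : Q5 // q ∈ 𝒬}, (X ^ 40)⁻¹ ≤ Qz lam K z := fun z => by
    have g1 := hlam0 z.1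
    have g2 := hE1 z
    unfold Qz
    rw [inv_eq_one_div, div_le_div_iff₀ (by positivity) (by positivity), one_mul]
    have e3 : (nm ((z.2.1.D0 * z.2.1.D1) ^ 2 * z.2.1.B ^ 3) : ℝ) =
      (nm (z.2.1.D0 * z.2.1.D1) : ℝ) ^ 2 * (nm z.2.1.B : ℝ) ^ 3 := by
      rw [nm_mul, nm_pow, nm_pow]; push_cast; ring
    rw [e3]
    calc lam z.1 * ((nm (z.2.1.D0 * z.2.1.D1) : ℝ) ^ 2 * (nm z.2.1.B : ℝ) ^ 3)
        ≤ X * ((X ^ 2) ^ 2 * (X ^ 2) ^ 3) := by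
          have := (hdat.lam1 z.1).2
          have := (hDn z).2
          have := hBn z
          gcongr
      _ = X ^ 11 := by ring
      _ ≤ X ^ 40 := pow_le_pow_right₀ hX1 (by norm_num)
      _ ≤ K * X ^ 40 := le_mul_of_one_le_left (by positivity) hK1
  have hUK : U / K ≤ X := (div_le_self hU.le hK1).trans hUX
  have hUK0 : 0 < U / K := by positivity
  have hKd : ∀ z : O × {q : Q5 // q ∈ 𝒬}, 0 < Kdz lam U K z ∧ Kdz lam U K z ≤ X ^ 3 := by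
    intro z
    have g1 := (hDn z).1
    have g0 : (0 : ℝ) < nm (z.2.1.D0 * z.2.1.D1) := by linarith
    have g2 := hlam0 z.1
    refine ⟨by unfold Kdz; positivity, ?_⟩
    unfold Kdz
    refine (div_le_self (by positivity) (hdat.lam1 z.1).1).trans ?_
    calc U / K * (nm (z.2.1.D0 * z.2.1.D1) : ℝ) ≤ X * X ^ 2 := by
          have := (hDn z).2
          gcongr
      _ = X ^ 3 := by ring
  have hXe : (X ^ 40 : ℝ) ^ (e₁ / 80) = X ^ (e₁ / 2) := by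
    rw [← Real.rpow_natCast X 40, ← Real.rpow_mul hX0.le]
    congr 1; push_cast; ring
  have hXe2 : X ^ (e₁ / 2) ≤ X ^ ε := Real.rpow_le_rpow_of_exponent_le hX1 (by
    have : e₁ ≤ ε := min_le_left _ _
    linarith)
  have hXe3 : X ^ (e₁ / 2) ≤ X := by
    calc X ^ (e₁ / 2) ≤ X ^ (1 : ℝ) := Real.rpow_le_rpow_of_exponent_le hX1 (by
          have : e₁ ≤ 1 := min_le_right _ _
          linarith)
      _ = X := Real.rpow_one X
  have hE : (1 : ℝ) ≤ X ^ (e₁ / 2) := Real.one_le_rpow hX1 (by positivity)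
  have hS2 : 0 ≤ K * (C2 * X ^ (e₁ / 2) * S) := by positivity
  have key := h1 (O × {q : Q5 // q ∈ 𝒬}) _ (fz f) (vz v) (fun z y => c z * wz w z y) (X ^ 40)
    (Qz lam K) (Kdz lam U K) B W (K * (C2 * X ^ (e₁ / 2) * S)) Nf hD
    (fun z => ⟨hQl z, (hQX z).trans (hXp 40 (by norm_num))⟩)
    (fun z => ⟨(hKd z).1, (hKd z).2.trans (pow_le_pow_right₀ hX1 (by norm_num))⟩) hB hS2 hW
    (fun z x y hx hy => lenZ hdat.hf.1 hK hlam0 hlen hq z x y hx (right_ne_zero_of_mul hy))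
    (fun ξ => by
      have hξ : 0 ≤ (1 + |ξ|) ^ A := by positivity
      have hbs := bsf_le (M := M) (f := f) (lam := lam) (v := v) (w := w) (𝒬 := 𝒬)
        (G := gx η J ξ) (rng := rng) (Y := X ^ 80)
        (S := C2 * X ^ (e₁ / 2) * ((1 + |ξ|) ^ A * S))
        (h2 M f O lam v w (gx η J ξ) rng X _ hX1 (by positivity) hdat.lam1 (hJ ξ)) hlam0 hK
        (fun q hq => ⟨(h𝒬 q hq).1, qsz_mono (pow_le_pow_right₀ hX1 (by norm_num))
          ((h𝒬 q hq).2.sz hX1 hfl)⟩) c hc (X := X ^ 40) (by positivity)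
        (pow_le_pow_right₀ hX1 (by norm_num))
        (fun z => Kdz lam U K z * (X ^ 40 : ℝ) ^ (e₁ / 80))
        (fun z => by
          rw [hXe]
          calc Kdz lam U K z * X ^ (e₁ / 2) ≤ X ^ 3 * X := by
                have := (hKd z).2
                gcongr
            _ = X ^ 4 := by ring
            _ ≤ X ^ 80 := pow_le_pow_right₀ hX1 (by norm_num)) Nf
        (fun z i hi hs hN => hr z i (hi.trans (by
          rw [hXe]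
          have := (hKd z).1
          gcongr)) hs hN)
      refine hbs.trans (le_of_eq ?_)
      ring)
  rw [hXe] at key
  refine key.trans ?_
  have e3 : X ^ e₁ = X ^ (e₁ / 2) * X ^ (e₁ / 2) := by rw [← Real.rpow_add hX0]; congr 1; ring
  have e4 : X ^ e₁ ≤ X ^ ε := Real.rpow_le_rpow_of_exponent_le hX1 (min_le_left _ _)
  have e5 : (X ^ 40 : ℝ) ^ (-A) ≤ X ^ (-A) := by
    rw [← Real.rpow_natCast X 40, ← Real.rpow_mul hX0.le]
    apply Real.rpow_le_rpow_of_exponent_le hX1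
    push_cast
    nlinarith
  have hXA : 0 ≤ X ^ (-A) := by positivity
  have hKS : 0 ≤ K * S := by positivity
  have h5 : K * (C2 * X ^ (e₁ / 2) * S) + (X ^ 40 : ℝ) ^ (-A) ≤
      (C2 + 1) * X ^ (e₁ / 2) * (K * S + X ^ (-A)) := by
    have g1 : (X ^ 40 : ℝ) ^ (-A) ≤ X ^ (e₁ / 2) * X ^ (-A) :=
      e5.trans (le_mul_of_one_le_left hXA hE)
    have g2 : 0 ≤ C2 * X ^ (e₁ / 2) * X ^ (-A) := by positivity
    have g3 : 0 ≤ X ^ (e₁ / 2) * (K * S) := by positivity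
    nlinarith
  calc C1 * X ^ (e₁ / 2) * (B * (K * (C2 * X ^ (e₁ / 2) * S) + (X ^ 40 : ℝ) ^ (-A)))
      ≤ C1 * X ^ (e₁ / 2) * (B * ((C2 + 1) * X ^ (e₁ / 2) * (K * S + X ^ (-A)))) := by gcongr
    _ = C1 * (C2 + 1) * X ^ e₁ * (B * (K * S + X ^ (-A))) := by rw [e3]; ring
    _ ≤ _ := by gcongr

end Crest.Agent.R017.E4J352
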