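import Crest.Agent.R017.E4v7d_352
import Crest.Agent.R017.E4v7e_352
import Crest.Agent.R017.E4v7y_266

/-!
# Row 17, C70/E4, version 7: direct half with a filter, `E4dir7y` (helper352)

* `dirQf` : `dirQ` with a filter
* `e4dir7y : E4dir7y`
-/

set_option autoImplicit false
set_option linter.unusedVariables false
set_option linter.unusedSectionVars false

noncomputable section

open Complex
open scoped ComplexConjugate

namespace Crest.Agent.R017.E4J352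

open Crest.Agent.R012 Crest.Agent.R012.Eis Crest.Agent.R012.Mob705 Crest.Agent.R012.Gauss880
open Crest.Agent.R012.Div277
open Crest.Agent.R017.Sx545 Crest.Agent.R017.CM106 Crest.Agent.R017.C70 Crest.Agent.R017.C590
open Crest.Agent.R017.End699 Crest.Agent.R017.B770 Crest.Agent.R017.Sx440
open Crest.Agent.R017.E2440 Crest.Agent.R017.E4352
open Crest.Agent.R017.E4o502 (vD wD GoodD GB ssm_tws bd_tws)
open Crest.Agent.R017.E4v5 (Law5 HM5)
open Crest.Agent.R017.E4fe502 (FF Dta Bi bi_right dG)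
open Crest.Agent.R017.E4R266
open Crest.Agent.R017.E4X266 (PrC rngDC E4dir7y)

/-- the direct part, with the coefficients of the opening and a filter -/
theorem dirQf {ε : ℝ} (hε : 0 < ε) : ∃ C : ℝ, 0 ≤ C ∧
    ∀ (M f : Eis) (O : Type) (_ : Fintype O) (lam : O → ℝ) (v w : O → Eis → ℂ) (X K B' : ℝ)
      (φ : O → Eis → ℂ) (S : ℝ) (sw : Eis → Eis → Eis → Eis → Eis → Prop) (𝒬 : Finset Q5)
      (Np : O → Eis → Eis → Prop),
      Dat4 M f lam v w X → 0 < K → K ≤ X → 0 ≤ B' → 0 ≤ S →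
      (∀ o k, Sm M k → ‖φ o k‖ ≤ B') → (∀ o k, K / lam o < nm k → φ o k = 0) →
      (∀ o D B d e, Sm M D → Sm M B → Sm M d → Sm M e → ¬ Np o D d →
        φ o (D ^ 2 * B ^ 3 * (d * e ^ 3)) = 0) →
      JB M f lam v w (fun _ => 1)
        (fun t => rngD sw lam K t ∧ Np t.o (t.D0 * t.D1) (t.b * t.k)) S →
      (∀ q ∈ 𝒬, QOK M f q ∧ QB ⌊X⌋₊ q) → (∀ q ∈ 𝒬, ¬ sw q.D0 q.D1 q.B q.R q.Z) →
      ‖∑ z : O × {q : Q5 // q ∈ 𝒬}, cq f z.2.1 * Bi (vz v z) (wz w z)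
        (fun x y => NT M (fz f z * x * y) (fun k => φ z.1 (ez z.2.1 * k)))‖ ≤
        C * X ^ ε * (B' * (K * S)) := by
  obtain ⟨C, hC, H⟩ := dirZf hε
  refine ⟨C, hC, ?_⟩
  intro M f O _ lam v w X K B' φ S sw 𝒬 Np hdat hK hKX hB' hS hφ1 hφ0 hNp hJ h𝒬 hsw
  have key := H M f O _ lam v w X K B' φ S sw 𝒬 (fun z => cq f z.2.1) Np hdat hK hKX hB' hS hφ1
    hφ0 (fun z d e hd he hn => by
      have h1 := (h𝒬 _ z.2.2).1
      exact hNp z.1 _ _ d e h1.good.2.2.1 h1.gb.2.1 hd he hn)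
    hJ h𝒬 hsw (fun z => norm_cq (h𝒬 _ z.2.2).1)
  refine le_trans (le_of_eq ?_) key
  congr 1
  refine Finset.sum_congr rfl fun z _ => ?_
  rw [bi_right]
  rfl

/-- the second scale: direct half over the outer non-cubes -/
theorem e4dir7y : E4dir7y := by
  classical
  intro ε hε
  obtain ⟨C, hC, H⟩ := dirQf hε
  refine ⟨C, hC, ?_⟩
  intro M f O _ c lam v w X K B φ S hdat hK1 hKX hB hS hφ1 hφ0 hφc hJ
  have hK : 0 < K := by linarith
  have hdc : ∀ o, Dcy (φ o) := fun o => dcyFin (hφ0 o)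
  rw [open_z hdat φ hdc, sum_Tq]
  refine H M f O _ lam v w X K B φ S (fun _ _ _ _ _ => False) (QA M f ⌊X⌋₊)
    (fun o D d => ¬ PrC (c o) D d) hdat hK hKX hB hS hφ1 hφ0 ?_ hJ
    (fun q hq => qa_ok hq) (fun _ _ h => h)
  intro o D B' d e _ _ _ _ hn
  obtain ⟨z, hz⟩ := not_not.mp hn
  refine hφc o _ ⟨z * (B' * e), ?_⟩
  calc c o * (D ^ 2 * B' ^ 3 * (d * e ^ 3)) = (c o * (d * D ^ 2)) * (B' * e) ^ 3 := by ring
    _ = (z * (B' * e)) ^ 3 := by rw [hz]; ring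

end Crest.Agent.R017.E4J352
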