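import Crest.Agent.R017.E4y_92
import Crest.Agent.R017.E4t_164
import Crest.Agent.R017.E4m_164
import Crest.Agent.R017.E3Db_579

/-!
# Row 17, block C70, leaf E4 (helper92): `v_o` of the dictionary gives structured arrays

* `Vt V S τ r = [(r, S) = 1] V (τ r)`, `CS_split` : `CS V a = Σ_{τ ∣ rd S} sy a τ CS (Vt V S τ) a`
* `Vr_eqS` : the inner sequence at `τ r`, `(r, S) = 1`, is structured
* `FF` : `j = FF S c₀ g₁ ν σ * ρ`; `dc_iff`
* `vS` : the push-forward at the modulus `S`; `vS_val`, `vS_str`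
* `Vt_str` : the arrays of `vS`
-/

set_option autoImplicit false

noncomputable section

open Complex Finset
open scoped ComplexConjugate

namespace Crest.Agent.R017.E4v92

open Crest.Agent.R012 Crest.Agent.R012.Eis Crest.Agent.R012.GaussLoc283
open Crest.Agent.R012.Mob705 hiding pb mem_pb
open Crest.Agent.R012.Div277
open Crest.Agent.R012.LS2 (S mem_S)
open Crest.Agent.R017.Sx545 (Sm)
open Crest.Agent.R017.C70 (CbF JC OKJ)
open Crest.Agent.R017.GrB829 (IsC)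
open Crest.Agent.R017.CM106 (CS FS)
open Crest.Agent.R017.PX764 (n6 th Gh th_mul)
open Crest.Agent.R017.E4352 (tws PrI rd dvd_rd)
open Crest.Agent.R017.E4o502 (vD)
open Crest.Agent.R017.E4579 (SupB bpt bco bpt_mul_bco bpt_prim bco_prim bpt_sup bco_cop bpt_eq
  bpt_mul bpt_eq_iff bpt_dvd sy_mulL)
open Crest.Agent.R017.E3D579 (uS bt cK b0 TE0 conj_TE0 uS_mul uS_supp sy_mulR n6_nonneg norm_cK_le
  uS_cop FS_b0)
open Crest.Agent.R017.E4x681 (recip)
open Crest.Agent.R017.E4y92 (Vr conj_sy_sq sy_r_sq)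
open Crest.Agent.R017.E4K164 (dc dc_spec dc_stj aS rS nS star_unique dc_unique)
open Crest.Agent.R017.E5b54 (stj stj_spec JC_ne_zero)

/-! ### the `S`-part -/

open Classical in
/-- the part of `V` at `τ r`, `(r, S) = 1` -/
def Vt (V : Eis → ℂ) (S τ r : Eis) : ℂ := if IsCoprime r S then V (τ * r) else 0

/-- **splitting by the `S`-part** -/
theorem CS_split {V : Eis → ℂ} {S : Eis} (hS : IsPrim S) (hV : FS V)
    (hq : ∀ r, V r ≠ 0 → Squarefree r) (a : Eis) :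
    CS V a = ∑ τ ∈ dvs (rd S), sy a τ * CS (Vt V S τ) a := by
  classical
  have h1 : ∀ τ ∈ dvs (rd S), sy a τ * CS (Vt V S τ) a =
      ∑' r : Eis, if IsPrim r ∧ bpt S r = τ then V r * sy a r else 0 := by
    intro τ hτ
    have hτp := isPrim_of_mem_dvs hτ
    have hτs : SupB τ S := ((dvd_rd hS.ne_zero hτp).mp (dvd_of_mem_dvs hτ)).2
    have hinj : Function.Injective (fun r : Eis => τ * r) := fun x y h =>
      mul_left_cancel₀ hτp.ne_zero h
    rw [← hinj.tsum_eq (f := fun r => if IsPrim r ∧ bpt S r = τ then V r * sy a r else 0)]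
    · unfold CS
      rw [← tsum_mul_left]
      refine tsum_congr fun r => ?_
      by_cases h0 : V (τ * r) = 0
      · unfold Vt
        split_ifs <;> simp [h0]
      · have hr : IsPrim r := (hV.prim _ h0).of_mul_left hτp
        unfold Vt
        by_cases hc : IsCoprime r S
        · rw [if_pos hc, if_pos ⟨hτp.mul hr, (bpt_eq hS hτp hr hτs hc).1⟩, sy_mulR hτp hr]
          ring
        · rw [if_neg hc, if_neg]
          · ring
          · rintro ⟨-, h⟩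
            obtain ⟨y, hy1, hy2⟩ := (bpt_eq_iff hS (hτp.mul hr) hτp hτs).mp h
            exact hc (mul_left_cancel₀ hτp.ne_zero hy1 ▸ hy2)
    · intro r hr
      rw [Function.mem_support] at hr
      have h2 : IsPrim r ∧ bpt S r = τ := by
        by_contra h
        exact hr (if_neg h)
      exact ⟨bco S r, by rw [← h2.2]; exact bpt_mul_bco hS h2.1⟩
  have hfin : ∀ τ ∈ dvs (rd S), Summable fun r : Eis =>
      if IsPrim r ∧ bpt S r = τ then V r * sy a r else 0 := by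
    intro τ _
    refine summable_of_hasFiniteSupport (hV.fin.subset fun r hr => ?_)
    rw [Function.mem_support] at hr ⊢
    intro h0
    apply hr
    split_ifs
    · rw [h0, zero_mul]
    · rfl
  rw [sum_congr rfl h1, ← Summable.tsum_finsetSum hfin]
  unfold CS
  refine tsum_congr fun r => ?_
  by_cases h0 : V r = 0
  · rw [h0, zero_mul]
    symm
    refine sum_eq_zero fun τ _ => ?_
    split_ifs <;> rfl
  · have hr := hV.prim _ h0
    rw [sum_eq_single_of_mem (bpt S r)]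
    · rw [if_pos ⟨hr, rfl⟩]
    · rw [mem_dvs (E4352.rd_prim S).ne_zero]
      refine ⟨bpt_prim hS hr, (dvd_rd hS.ne_zero (bpt_prim hS hr)).mpr
        ⟨(hq r h0).squarefree_of_dvd (bpt_dvd hS hr), bpt_sup hS hr⟩⟩
    · intro τ _ hne
      rw [if_neg (fun h => hne h.2.symm)]

lemma FS_Vt {V : Eis → ℂ} {S τ : Eis} (hτ : IsPrim τ) (hV : FS V) : FS (Vt V S τ) where
  fin := by
    refine (hV.fin.preimage (f := fun r => τ * r)
      (fun x _ y _ h => mul_left_cancel₀ hτ.ne_zero h)).subset fun r hr => ?_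
    intro h0
    apply hr
    unfold Vt
    split_ifs
    · exact h0
    · rfl
  prim := fun r hr => by
    unfold Vt at hr
    split_ifs at hr
    · exact (hV.prim _ hr).of_mul_left hτ
    · exact absurd rfl hr

/-- **Cauchy over the `S`-parts** -/
theorem sq_split {ι : Type*} {I : Finset ι} {V : ι → Eis → ℂ} {c : ι → ℂ} {S : Eis}
    (hS : IsPrim S) (hV : ∀ i ∈ I, FS (V i)) (hq : ∀ i ∈ I, ∀ r, V i r ≠ 0 → Squarefree r)
    (a : Eis) :
    ‖∑ i ∈ I, c i * CS (V i) a‖ ^ 2 ≤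
      ((dvs (rd S)).card : ℝ) * ∑ τ ∈ dvs (rd S), ‖∑ i ∈ I, c i * CS (Vt (V i) S τ) a‖ ^ 2 := by
  have e1 : ∑ i ∈ I, c i * CS (V i) a =
      ∑ τ ∈ dvs (rd S), sy a τ * ∑ i ∈ I, c i * CS (Vt (V i) S τ) a := by
    simp_rw [mul_sum]
    rw [sum_comm]
    refine sum_congr rfl fun i hi => ?_
    rw [CS_split hS (hV i hi) (hq i hi), mul_sum]
    exact sum_congr rfl fun τ _ => by ring
  rw [e1]
  have h1 : ‖∑ τ ∈ dvs (rd S), sy a τ * ∑ i ∈ I, c i * CS (Vt (V i) S τ) a‖ ≤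
      ∑ τ ∈ dvs (rd S), ‖∑ i ∈ I, c i * CS (Vt (V i) S τ) a‖ := by
    refine (norm_sum_le _ _).trans (sum_le_sum fun τ hτ => ?_)
    rw [norm_mul]
    exact mul_le_of_le_one_left (norm_nonneg _)
      (E4579.norm_sy_le' a (isPrim_of_mem_dvs hτ))
  refine (pow_le_pow_left₀ (norm_nonneg _) h1 2).trans ?_
  exact sq_sum_le_card_mul_sum_sq

/-! ### the inner sequence at `τ r` -/

section vr

variable {R q D s δ Q q₁ q₂ us u w S τ : Eis} {g χ g₀ ev v : Eis → ℂ} {W : Eis → ℝ → ℂ}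
  {Rr : Eis → Eis} {B : Eis → Eis → ℂ}

open Classical in
/-- the coefficient -/
def cfS (Q q₁ q₂ D R s q u w τ : Eis) (χ g₀ ev : Eis → ℂ) (Rr : Eis → Eis) (δ : Eis) : ℂ :=
  if IsCoprime (s * τ * δ) q ∧ IsCoprime (R * (s * (τ * δ))) D ∧ IsCoprime δ s ∧
      IsCoprime τ (s * δ) then
    ev (w * δ) * (χ u * (sy Q u * cK (Rr (w * δ)) u)) *
      (sy (s * (τ * δ ^ 2)) q₁ * conj (sy (s * (τ * δ ^ 2)) q₂) * g₀ (s * (τ * δ ^ 2))) *
        (conj (sy (R * (s * (τ * δ ^ 2))) D) * sy (τ * δ ^ 2) (s ^ 2)) else 0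

lemma norm_cfS_le (hq1 : IsPrim q₁) (hq2 : IsPrim q₂) (hD : IsPrim D) (hs : IsPrim s)
    (hu : IsPrim u) (hχ : ‖χ u‖ ≤ 1) (hg : ‖g₀ (s * (τ * δ ^ 2))‖ ≤ 1) :
    ‖cfS Q q₁ q₂ D R s q u w τ χ g₀ ev Rr δ‖ ≤ ‖ev (w * δ)‖ * n6 u := by
  classical
  unfold cfS
  split_ifs with h
  · simp only [norm_mul, RCLike.norm_conj]
    have a1 := E4579.norm_sy_le' Q hu
    have a2 := norm_cK_le (Rr (w * δ)) hu
    have a3 := E4579.norm_sy_le' (s * (τ * δ ^ 2)) hq1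
    have a4 := E4579.norm_sy_le' (s * (τ * δ ^ 2)) hq2
    have a5 := E4579.norm_sy_le' (R * (s * (τ * δ ^ 2))) hD
    have a6 := E4579.norm_sy_le' (τ * δ ^ 2) (hs.pow 2)
    have b1 : ‖χ u‖ * (‖sy Q u‖ * ‖cK (Rr (w * δ)) u‖) ≤ n6 u := by
      calc _ ≤ 1 * (1 * n6 u) := mul_le_mul hχ (mul_le_mul a1 a2 (norm_nonneg _) zero_le_one)
            (by positivity) zero_le_one
        _ = n6 u := by ring
    have b2 : ‖sy (s * (τ * δ ^ 2)) q₁‖ * ‖sy (s * (τ * δ ^ 2)) q₂‖ * ‖g₀ (s * (τ * δ ^ 2))‖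
        ≤ 1 := by
      calc _ ≤ (1 : ℝ) * 1 * 1 := mul_le_mul (mul_le_mul a3 a4 (norm_nonneg _) zero_le_one) hg
            (norm_nonneg _) (by norm_num)
        _ = 1 := by ring
    have b3 : ‖sy (R * (s * (τ * δ ^ 2))) D‖ * ‖sy (τ * δ ^ 2) (s ^ 2)‖ ≤ 1 := by
      calc _ ≤ (1 : ℝ) * 1 := mul_le_mul a5 a6 (norm_nonneg _) zero_le_one
        _ = 1 := by ring
    calc _ ≤ ‖ev (w * δ)‖ * n6 u * 1 * 1 := by
          refine mul_le_mul (mul_le_mul (mul_le_mul_of_nonneg_left b1 (norm_nonneg _)) b2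
            (by positivity) (mul_nonneg (norm_nonneg _) (n6_nonneg u))) b3 (by positivity) ?_
          exact mul_nonneg (mul_nonneg (norm_nonneg _) (n6_nonneg u)) zero_le_one
      _ = _ := by ring
  · rw [norm_zero]
    exact mul_nonneg (norm_nonneg _) (n6_nonneg u)

open Classical in
/-- **the inner sequence at `τ r`**, `(r, S) = 1`; `R s = (us u) w²`, `us τ` the `S`-part -/
theorem Vr_eqS (hR : PrI q R) (hD : IsPrim D) (hs : IsPrim s) (hδ : IsPrim δ)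
    (hδq : Squarefree δ) (hq1 : IsPrim q₁) (hq2 : IsPrim q₂) (hu : IsPrim u)
    (huq : Squarefree (us * u)) (hw : IsPrim w) (hwq : Squarefree w)
    (huw : IsCoprime (us * u) w) (hRs : R * s = us * u * w ^ 2) (hτ : IsPrim τ)
    (hτq : Squarefree τ) (hτS : SupB τ S) (huS : IsCoprime u S)
    (hg : ∀ y, IsPrim y → g y = sy y q₁ * conj (sy y q₂) * g₀ y)
    (hg0 : ∀ x y, IsPrim x → IsPrim y → g₀ (x * y) = g₀ x * g₀ y)
    (hχ : ∀ x y, IsPrim x → IsPrim y → χ (x * y) = χ x * χ y)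
    (hB : ∀ e, IsPrim e → FS (B e))
    (hv : ∀ e r, Squarefree (us * τ) → IsCoprime (us * τ) e → IsPrim e → Squarefree e →
      IsPrim r → Squarefree r → IsCoprime r e → IsCoprime r S →
      v (us * τ * r * e ^ 2) = ev e * (χ r * (sy Q r * uS (W e) (Rr e) (B e) r))) (r : Eis) :
    Vt (Vr (tws R q g (vD D v)) s δ) S τ r =
      cfS Q q₁ q₂ D R s q u w τ χ g₀ ev Rr δ * ((χ r * g₀ r) *
        (sy (Q * (q₁ * q₂ ^ 2 * (D ^ 2 * s ^ 2))) r *
          uS (fun x => W (w * δ) ((nm u : ℝ) * x)) (Rr (w * δ) * u * (q * s * D * δ * S))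
            (bt u (B (w * δ))) r)) := by
  have hRp := hR.1
  by_cases hr : IsPrim r ∧ Squarefree r ∧ IsCoprime r (q * s * D * δ * S)
  · obtain ⟨hr1, hr2, hr3⟩ := hr
    have hrS : IsCoprime r S := hr3.of_mul_right_right
    have hrδ : IsCoprime r δ := hr3.of_mul_right_left.of_mul_right_right
    have hrD : IsCoprime r D := hr3.of_mul_right_left.of_mul_right_left.of_mul_right_right
    have hrs : IsCoprime r s :=
      hr3.of_mul_right_left.of_mul_right_left.of_mul_right_left.of_mul_right_right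
    have hrq : IsCoprime r q :=
      hr3.of_mul_right_left.of_mul_right_left.of_mul_right_left.of_mul_right_left
    have hcopR : ∀ {x : Eis}, IsCoprime x q → IsCoprime x R := by
      intro x hx
      rw [isCoprime_comm, isCoprime_iff_pp hRp]
      intro p hp h1 h2
      exact hp.prime.not_isUnit (hx.isUnit_of_dvd' h2 (hR.2 p hp.prime h1))
    have hrR : IsCoprime r R := hcopR hrq
    have hruw : IsCoprime r (us * u * w ^ 2) := by rw [← hRs]; exact hrR.mul_right hrs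
    have hru : IsCoprime r (us * u) := hruw.of_mul_right_left
    have hrw : IsCoprime r w := (IsCoprime.pow_right_iff (by norm_num)).mp hruw.of_mul_right_right
    have hδ2 : IsPrim (δ ^ 2) := hδ.pow 2
    have hτδ2 : IsPrim (τ * δ ^ 2) := hτ.mul hδ2
    have hτr : IsCoprime τ r := SupB.cop hτ hτS hrS
    have hcut : uS (fun x => W (w * δ) ((nm u : ℝ) * x)) (Rr (w * δ) * u * (q * s * D * δ * S))
        (bt u (B (w * δ))) r = uS (fun x => W (w * δ) ((nm u : ℝ) * x)) (Rr (w * δ) * u)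
        (bt u (B (w * δ))) r := by
      rw [← uS_cop, if_pos hr3]
    rw [hcut]
    unfold Vt
    rw [if_pos hrS]
    unfold Vr
    have hτrp : IsPrim (τ * r) := hτ.mul hr1
    by_cases hc : IsCoprime (s * τ * δ) q ∧ IsCoprime (R * (s * (τ * δ))) D ∧ IsCoprime δ s ∧
      IsCoprime τ (s * δ)
    · obtain ⟨hc1, hc2, hc3, hc4⟩ := hc
      have hδq' : IsCoprime δ q := hc1.of_mul_left_right
      have hτq' : IsCoprime τ q := hc1.of_mul_left_left.of_mul_left_right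
      have hsq' : IsCoprime s q := hc1.of_mul_left_left.of_mul_left_left
      have hτs : IsCoprime τ s := hc4.of_mul_right_left
      have hτδ : IsCoprime τ δ := hc4.of_mul_right_right
      have hδR : IsCoprime δ R := hcopR hδq'
      have hτR : IsCoprime τ R := hcopR hτq'
      have hδuw : IsCoprime δ (us * u * w ^ 2) := by rw [← hRs]; exact hδR.mul_right hc3
      have hδu : IsCoprime δ (us * u) := hδuw.of_mul_right_left
      have hδw : IsCoprime δ w :=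
        (IsCoprime.pow_right_iff (by norm_num)).mp hδuw.of_mul_right_right
      have hτuw : IsCoprime τ (us * u * w ^ 2) := by rw [← hRs]; exact hτR.mul_right hτs
      have hτu : IsCoprime τ (us * u) := hτuw.of_mul_right_left
      have hτw : IsCoprime τ w :=
        (IsCoprime.pow_right_iff (by norm_num)).mp hτuw.of_mul_right_right
      have i1 : IsCoprime (s * (τ * r * δ ^ 2)) q :=
        hsq'.mul_left ((hτq'.mul_left hrq).mul_left hδq'.pow_left)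
      have i2 : IsCoprime (R * (s * (τ * r * δ ^ 2))) D :=
        hc2.of_mul_left_left.mul_left (hc2.of_mul_left_right.of_mul_left_left.mul_left
          ((hc2.of_mul_left_right.of_mul_left_right.of_mul_left_left.mul_left hrD).mul_left
            hc2.of_mul_left_right.of_mul_left_right.of_mul_left_right.pow_left))
      have i3 : IsPrim (τ * r) ∧ Squarefree (τ * r) ∧ IsCoprime (τ * r) δ ∧
          IsCoprime (τ * r * δ) s :=
        ⟨hτrp, squarefree_mul_iff.mpr ⟨hτr.isRelPrime, hτq, hr2⟩, hτδ.mul_left hrδ,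
          (hτs.mul_left hrs).mul_left hc3⟩
      rw [if_pos i3]
      unfold cfS
      rw [if_pos ⟨hc1, hc2, hc3, hc4⟩]
      unfold tws
      rw [if_pos i1]
      unfold vD tws
      rw [if_pos i2, one_mul]
      have e0 : R * (s * (τ * r * δ ^ 2)) = us * τ * (u * r) * (w * δ) ^ 2 := by
        linear_combination (τ * r * δ ^ 2) * hRs
      have hwδ : IsPrim (w * δ) := hw.mul hδ
      have hwδq : Squarefree (w * δ) :=
        (squarefree_mul_iff.mpr ⟨hδw.symm.isRelPrime, hwq, hδq⟩)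
      have hur : Squarefree (u * r) :=
        (squarefree_mul_iff.mpr ⟨hru.of_mul_right_right.symm.isRelPrime, huq.of_mul_right, hr2⟩)
      have hcop : IsCoprime (u * r) (w * δ) :=
        (huw.of_mul_left_right.mul_right hδu.of_mul_right_right.symm).mul_left
          (hrw.mul_right hrδ)
      have husτ : Squarefree (us * τ) :=
        squarefree_mul_iff.mpr ⟨hτu.of_mul_right_left.symm.isRelPrime, huq.of_mul_left, hτq⟩
      have husτe : IsCoprime (us * τ) (w * δ) :=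
        (huw.of_mul_left_left.mul_left hτw).mul_right
          (hδu.of_mul_right_left.symm.mul_left hτδ)
      have e1 : v (R * (s * (τ * r * δ ^ 2))) = ev (w * δ) * (χ (u * r) * (sy Q (u * r) *
          uS (W (w * δ)) (Rr (w * δ)) (B (w * δ)) (u * r))) := by
        rw [e0]
        exact hv _ _ husτ husτe hwδ hwδq (hu.mul hr1) hur hcop (huS.mul_left hrS)
      have e2 : s * (τ * r * δ ^ 2) = (s * (τ * δ ^ 2)) * r := by ring
      have e3 : R * (s * (τ * r * δ ^ 2)) = (R * (s * (τ * δ ^ 2))) * r := by ring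
      have e4 : τ * r * δ ^ 2 = (τ * δ ^ 2) * r := by ring
      beta_reduce
      rw [e1, hχ u r hu hr1, sy_mulR hu hr1, uS_mul _ _ (hB _ hwδ) hu r, e3, e2, e4,
        hg _ ((hs.mul hτδ2).mul hr1), sy_mulL (x := s * (τ * δ ^ 2)) (y := r) hq1,
        sy_mulL (x := s * (τ * δ ^ 2)) (y := r) hq2,
        sy_mulL (x := R * (s * (τ * δ ^ 2))) (y := r) hD,
        hg0 _ _ (hs.mul hτδ2) hr1, sy_mulL (x := τ * δ ^ 2) (y := r) (hs.pow 2),
        sy_mulL (x := Q) hr1,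
        sy_mulL (x := q₁ * q₂ ^ 2) hr1, sy_mulL (x := q₁) hr1, sy_mulL (x := D ^ 2) hr1,
        ← conj_sy_sq hr1 hq2, ← conj_sy_sq hr1 hD, sy_r_sq hr1 hs, ← recip hr1 hq1]
      simp only [map_mul]
      ring
    · unfold cfS
      rw [if_neg hc, zero_mul]
      by_cases h1 : IsPrim (τ * r) ∧ Squarefree (τ * r) ∧ IsCoprime (τ * r) δ ∧
        IsCoprime (τ * r * δ) s
      · rw [if_pos h1]
        unfold tws
        by_cases h2 : IsCoprime (s * (τ * r * δ ^ 2)) q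
        · rw [if_pos h2]
          unfold vD tws
          by_cases h3 : IsCoprime (R * (s * (τ * r * δ ^ 2))) D
          · exfalso
            apply hc
            have j1 : IsCoprime δ q :=
              (IsCoprime.pow_left_iff (by norm_num)).mp h2.of_mul_left_right.of_mul_left_right
            have j2 : IsCoprime δ D :=
              (IsCoprime.pow_left_iff (by norm_num)).mp
                h3.of_mul_left_right.of_mul_left_right.of_mul_left_right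
            have j3 : IsCoprime τ q := h2.of_mul_left_right.of_mul_left_left.of_mul_left_left
            have j4 : IsCoprime τ D :=
              h3.of_mul_left_right.of_mul_left_right.of_mul_left_left.of_mul_left_left
            exact ⟨(h2.of_mul_left_left.mul_left j3).mul_left j1,
              h3.of_mul_left_left.mul_left (h3.of_mul_left_right.of_mul_left_left.mul_left
                (j4.mul_left j2)),
              h1.2.2.2.of_mul_left_right,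
              h1.2.2.2.of_mul_left_left.of_mul_left_left.mul_right h1.2.2.1.of_mul_left_left⟩
          · rw [if_neg h3]; ring
        · rw [if_neg h2]; ring
      · rw [if_neg h1]
  · have h0 : uS (fun x => W (w * δ) ((nm u : ℝ) * x)) (Rr (w * δ) * u * (q * s * D * δ * S))
        (bt u (B (w * δ))) r = 0 := by
      by_contra h
      obtain ⟨h1, h2, h3, -⟩ := uS_supp h
      exact hr ⟨h1, h2, h3.of_mul_right_right⟩
    rw [h0, mul_zero, mul_zero, mul_zero]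
    unfold Vt
    split_ifs with hrS
    · unfold Vr
      by_cases h1 : IsPrim (τ * r) ∧ Squarefree (τ * r) ∧ IsCoprime (τ * r) δ ∧
        IsCoprime (τ * r * δ) s
      · rw [if_pos h1]
        unfold tws
        by_cases h2 : IsCoprime (s * (τ * r * δ ^ 2)) q
        · rw [if_pos h2]
          unfold vD tws
          by_cases h3 : IsCoprime (R * (s * (τ * r * δ ^ 2))) D
          · exfalso
            apply hr
            refine ⟨h1.1.of_mul_left hτ, h1.2.1.of_mul_right, ?_⟩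
            have j1 : IsCoprime r q := h2.of_mul_left_right.of_mul_left_left.of_mul_left_right
            have j2 : IsCoprime r D :=
              h3.of_mul_left_right.of_mul_left_right.of_mul_left_left.of_mul_left_right
            exact (((j1.mul_right h1.2.2.2.of_mul_left_left.of_mul_left_right).mul_right
              j2).mul_right h1.2.2.1.of_mul_left_right).mul_right hrS
          · rw [if_neg h3]; ring
        · rw [if_neg h2]; ring
      · rw [if_neg h1]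
    · rfl

end vr

/-! ### the frequencies -/

open Classical in
/-- the `S`-part of `j`: `AA S ρ₀ * S = ρ₀ e³` -/
def AA (S ρ₀ : Eis) : Eis :=
  if h : ∃ a, JC a ∧ ∃ e, IsPrim e ∧ a * S = ρ₀ * e ^ 3 then h.choose else 0

lemma AA_eq {S ρ₀ a e : Eis} (hS : IsPrim S) (ha : JC a) (he : IsPrim e)
    (h : a * S = ρ₀ * e ^ 3) : AA S ρ₀ = a := by
  have hx : ∃ a, JC a ∧ ∃ e, IsPrim e ∧ a * S = ρ₀ * e ^ 3 := ⟨a, ha, e, he, h⟩
  unfold AA
  rw [dif_pos hx]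
  obtain ⟨h1, e', he', h2⟩ := hx.choose_spec
  refine star_unique h1 ha he he' ?_
  apply mul_right_cancel₀ hS.ne_zero
  linear_combination e ^ 3 * h2 - e' ^ 3 * h

lemma AA_spec {S ρ₀ : Eis} (h : AA S ρ₀ ≠ 0) :
    JC (AA S ρ₀) ∧ ∃ e, IsPrim e ∧ AA S ρ₀ * S = ρ₀ * e ^ 3 := by
  by_cases hx : ∃ a, JC a ∧ ∃ e, IsPrim e ∧ a * S = ρ₀ * e ^ 3
  · unfold AA
    rw [dif_pos hx]
    exact hx.choose_spec
  · exfalso
    apply h
    unfold AA
    rw [dif_neg hx]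

/-- `j = FF S c₀ g₁ ν σ * ρ` -/
def FF (S c₀ g₁ ν σ : Eis) : Eis :=
  c₀ * AA S (bpt S g₁ * σ * bpt S ν ^ 2) * (bco S g₁ * bco S ν ^ 2)

lemma bpt_sup_self {S σ : Eis} (hS : IsPrim S) (hσ : IsPrim σ) (hσS : SupB σ S) :
    bpt S σ = σ ∧ bco S σ = 1 := by
  have h := bpt_eq hS hσ isPrim_one hσS isCoprime_one_left
  rwa [mul_one] at h

lemma bpt_cop_self {S ρ : Eis} (hS : IsPrim S) (hρ : IsPrim ρ) (hρS : IsCoprime ρ S) :
    bpt S ρ = 1 ∧ bco S ρ = ρ := by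
  have h := bpt_eq hS isPrim_one hρ (SupB.one S) hρS
  rwa [one_mul] at h

lemma JC_aS {S j : Eis} (hS : IsPrim S) (hj : JC j) : JC (aS S j) := by
  obtain ⟨s1, s2, s3, s4, s5, s6, s7⟩ := dc_spec hj
  have hrp := bpt_prim hS s2
  have hνp := bpt_prim hS s4
  have hrS : Squarefree (bpt S (dc j).2.1) := s3.squarefree_of_dvd (bpt_dvd hS s2)
  have hνS : Squarefree (bpt S (dc j).2.2) := s5.squarefree_of_dvd (bpt_dvd hS s4)
  have hrνS : IsCoprime (bpt S (dc j).2.1) (bpt S (dc j).2.2) :=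
    (s6.of_isCoprime_of_dvd_left (bpt_dvd hS s2)).of_isCoprime_of_dvd_right (bpt_dvd hS s4)
  exact ⟨1, Or.inl rfl, aS S j, hrp.mul (hνp.pow 2), GrE579.cbF_dec hrS hνS hrνS, by ring⟩

/-- **the frequencies at the modulus `S`** -/
theorem dc_iff {S c₀ g₁ ν σ ρ j : Eis} (hS : IsPrim S) (hj : JC j) (hc₀ : IsC c₀)
    (hg₁ : IsPrim g₁) (hν : IsPrim ν) (hνq : Squarefree ν) (hσ : IsPrim σ) (hσS : SupB σ S)
    (hρ : IsPrim ρ) (hρS : IsCoprime ρ S) (hsq : Squarefree (g₁ * σ * ρ))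
    (hcop : IsCoprime (g₁ * σ * ρ) ν) :
    dc (stj S j) = (c₀, g₁ * σ * ρ, ν) ↔ j = FF S c₀ g₁ ν σ * ρ := by
  have b1 := bpt_mul hS (hg₁.mul hσ) hρ
  have b2 := bpt_mul hS hg₁ hσ
  have b3 := bpt_sup_self hS hσ hσS
  have b4 := bpt_cop_self hS hρ hρS
  have b5 : bpt S (g₁ * σ * ρ) = bpt S g₁ * σ := by rw [b1.1, b2.1, b3.1, b4.1, mul_one]
  have b6 : bco S (g₁ * σ * ρ) = bco S g₁ * ρ := by rw [b1.2, b2.2, b3.2, b4.2, mul_one]
  have b7 := bpt_mul_bco hS hg₁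
  have b8 := bpt_mul_bco hS hν
  constructor
  · intro h
    obtain ⟨k1, k2, k3, k4, hnS, e, he, hes, k5⟩ := dc_stj hS hj
    obtain ⟨s1, s2, s3, s4, s5, s6, s7⟩ := dc_spec hj
    rw [h] at k1
    obtain ⟨q1, q2⟩ := Prod.mk.inj k1
    obtain ⟨q2, q3⟩ := Prod.mk.inj q2
    have c1 := bpt_eq hS k4 (bco_prim hS s2) k2 (bco_cop hS s2)
    have c2 := bpt_eq hS hnS (bco_prim hS s4) k3 (bco_cop hS s4)
    rw [← q2, b5, b6] at c1
    rw [← q3] at c2
    have hA : AA S (bpt S g₁ * σ * bpt S ν ^ 2) = aS S j := by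
      refine AA_eq hS (JC_aS hS hj) he ?_
      rw [c1.1, c2.1]
      exact k5
    unfold FF
    rw [hA, q1]
    unfold aS
    have e1 := bpt_mul_bco hS s2
    have e2 := bpt_mul_bco hS s4
    calc j = (dc j).1 * (dc j).2.1 * (dc j).2.2 ^ 2 := s7
      _ = (dc j).1 * (bpt S (dc j).2.1 * bco S (dc j).2.1) *
          (bpt S (dc j).2.2 * bco S (dc j).2.2) ^ 2 := by rw [e1, e2]
      _ = _ := by rw [← c1.2, ← c2.2]; ring
  · intro h
    have hj0 := JC_ne_zero hj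
    have hA0 : AA S (bpt S g₁ * σ * bpt S ν ^ 2) ≠ 0 := by
      intro h0
      apply hj0
      rw [h]
      unfold FF
      rw [h0]
      ring
    obtain ⟨hJA, e, he, hA⟩ := AA_spec hA0
    obtain ⟨hJs, e', he', hs⟩ := stj_spec hS hj
    have hJt : JC (c₀ * (g₁ * σ * ρ) * ν ^ 2) :=
      ⟨c₀, hc₀, (g₁ * σ * ρ) * ν ^ 2, ((hg₁.mul hσ).mul hρ).mul (hν.pow 2),
        GrE579.cbF_dec hsq hνq hcop, by ring⟩
    have key : stj S j = c₀ * (g₁ * σ * ρ) * ν ^ 2 := by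
      refine star_unique hJs hJt he' he ?_
      rw [← hs]
      conv_lhs => rw [h]
      unfold FF
      calc c₀ * AA S (bpt S g₁ * σ * bpt S ν ^ 2) * (bco S g₁ * bco S ν ^ 2) * ρ * S
          = c₀ * (bco S g₁ * bco S ν ^ 2) * ρ * (AA S (bpt S g₁ * σ * bpt S ν ^ 2) * S) := by
            ring
        _ = c₀ * (bco S g₁ * bco S ν ^ 2) * ρ * (bpt S g₁ * σ * bpt S ν ^ 2 * e ^ 3) := by
            rw [hA]
        _ = c₀ * ((bpt S g₁ * bco S g₁) * σ * ρ) * (bpt S ν * bco S ν) ^ 2 * e ^ 3 := by ring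
        _ = _ := by rw [b7, b8]
    rw [key]
    exact dc_unique hc₀ ((hg₁.mul hσ).mul hρ) hsq hν hνq hcop

/-! ### the push-forward at the modulus `S` -/

open Classical in
/-- the push-forward at `(c₀, S, ν)`, `M`-part `g` -/
def vS (M S c₀ g ν : Eis) (J : Finset (Eis × Eis)) (c : Eis × Eis → ℂ) (X : Eis) : ℂ :=
  if Sm M X then ∑ y ∈ J.filter (fun y => (dc (stj S y.2)).1 = c₀ ∧ (dc (stj S y.2)).2.2 = ν ∧
    (dc (stj S y.2)).2.1 * y.1 ^ 2 = g * X), c y else 0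

section val

variable {M S c₀ g₁ g₂ ν σ ρ e : Eis} {J : Finset (Eis × Eis)}

lemma cop_of_PrI (hg : PrI M g₁) {x : Eis} (hx : IsCoprime x M) : IsCoprime g₁ x :=
  E4D164.cop_PrI hg hx

open Classical in
/-- **the value at `σ ρ e²`** -/
theorem vS_val (hS : IsPrim S) (hJ : OKJ J) (c : Eis × Eis → ℂ) (hc₀ : IsC c₀)
    (hg₁ : PrI M g₁) (hg₁q : Squarefree g₁) (hg₂ : IsPrim g₂) (hν : IsPrim ν)
    (hνq : Squarefree ν) (hσ : IsPrim σ) (hσq : Squarefree σ) (hσS : SupB σ S) (hρ : IsPrim ρ)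
    (hρq : Squarefree ρ) (hρS : IsCoprime ρ S) (he : IsPrim e) :
    vS M S c₀ (g₁ * g₂ ^ 2) ν J c (σ * ρ * e ^ 2) =
      if Sm M (σ * ρ * e ^ 2) ∧ IsCoprime (g₁ * σ * ρ) ν ∧
        (g₂ * e, FF S c₀ g₁ ν σ * ρ) ∈ J then c (g₂ * e, FF S c₀ g₁ ν σ * ρ) else 0 := by
  unfold vS
  by_cases hX : Sm M (σ * ρ * e ^ 2)
  swap
  · rw [if_neg hX, if_neg (fun h => hX h.1)]
  rw [if_pos hX]
  have hX1 : IsCoprime (σ * ρ) M := hX.2.of_mul_left_left
  have hσρ : IsCoprime σ ρ := SupB.cop hσ hσS hρS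
  have hgσρ : IsCoprime g₁ (σ * ρ) := cop_of_PrI hg₁ hX1
  have hsq : Squarefree (g₁ * σ * ρ) := by
    rw [mul_assoc]
    exact squarefree_mul_iff.mpr ⟨hgσρ.isRelPrime, hg₁q,
      squarefree_mul_iff.mpr ⟨hσρ.isRelPrime, hσq, hρq⟩⟩
  have hgp : IsPrim (g₁ * σ * ρ) := (hg₁.1.mul hσ).mul hρ
  have hP : ∀ y ∈ J, ((dc (stj S y.2)).1 = c₀ ∧ (dc (stj S y.2)).2.2 = ν ∧
      (dc (stj S y.2)).2.1 * y.1 ^ 2 = g₁ * g₂ ^ 2 * (σ * ρ * e ^ 2)) ↔
      (dc (stj S y.2) = (c₀, g₁ * σ * ρ, ν) ∧ y.1 = g₂ * e) := by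
    intro y hy
    obtain ⟨s1, s2, s3, s4, s5, s6, s7⟩ := dc_spec (stj_spec hS (hJ.jc y hy)).1
    constructor
    · rintro ⟨h1, h2, h3⟩
      have h4 : (dc (stj S y.2)).2.1 * y.1 ^ 2 = (g₁ * σ * ρ) * (g₂ * e) ^ 2 := by
        rw [h3]; ring
      obtain ⟨h5, h6⟩ := E3A164.eq_ng s2 s3 (hJ.prim y hy) hgp hsq (hg₂.mul he) h4
      exact ⟨Prod.ext h1 (Prod.ext h5 h2), h6⟩
    · rintro ⟨h1, h2⟩
      rw [h1, h2]
      refine ⟨rfl, rfl, ?_⟩
      show g₁ * σ * ρ * (g₂ * e) ^ 2 = _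
      ring
  rw [filter_congr hP]
  by_cases hcop : IsCoprime (g₁ * σ * ρ) ν
  swap
  · rw [if_neg (fun h => hcop h.2.1)]
    have : J.filter (fun y => dc (stj S y.2) = (c₀, g₁ * σ * ρ, ν) ∧ y.1 = g₂ * e) = ∅ := by
      rw [filter_eq_empty_iff]
      rintro y hy ⟨h1, -⟩
      obtain ⟨s1, s2, s3, s4, s5, s6, s7⟩ := dc_spec (stj_spec hS (hJ.jc y hy)).1
      rw [h1] at s6
      exact hcop s6
    rw [this, sum_empty]
  have hQ : ∀ y ∈ J, (dc (stj S y.2) = (c₀, g₁ * σ * ρ, ν) ∧ y.1 = g₂ * e) ↔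
      y = (g₂ * e, FF S c₀ g₁ ν σ * ρ) := by
    intro y hy
    rw [dc_iff hS (hJ.jc y hy) hc₀ hg₁.1 hν hνq hσ hσS hρ hρS hsq hcop]
    constructor
    · rintro ⟨h1, h2⟩
      exact Prod.ext h2 h1
    · rintro rfl
      exact ⟨rfl, rfl⟩
  rw [filter_congr hQ, filter_eq']
  by_cases hm : (g₂ * e, FF S c₀ g₁ ν σ * ρ) ∈ J
  · rw [if_pos hm, if_pos ⟨hX, hcop, hm⟩, sum_singleton]
  · rw [if_neg hm, if_neg (fun h => hm h.2.2), sum_empty]

lemma FS_sub {α : Eis → ℂ} (hα : FS α) {d : Eis} (hd : IsPrim d) : FS (fun m => α (d * m)) where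
  fin := hα.fin.preimage (f := fun m => d * m)
    (fun _ _ _ _ h => mul_left_cancel₀ hd.ne_zero h)
  prim := fun _ hm => (hα.prim _ hm).of_mul_left hd

lemma TE_eq (α : Eis → ℂ) (d j e : Eis) :
    E2440.TE α (d, j) e = TE0 (fun m => α (d * m)) d j e := by
  unfold E2440.TE TE0
  rfl

/-- the coefficient of the `x`-side -/
def cY (S c₀ e₀ : Eis) (om : Eis × Eis → ℂ) (α κ : Eis → ℂ) (y : Eis × Eis) : ℂ :=
  conj (om y * E2440.TE α y e₀) * (κ y.1 * th (c₀ * (dc (stj S y.2)).2.1))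

open Classical in
/-- the outer factor of the structured form -/
def eY (M c₀ g₁ g₂ ν σ : Eis) (κ : Eis → ℂ) (e : Eis) : ℂ :=
  if Sm M (σ * e) ∧ IsCoprime σ ν then κ (g₂ * e) * th (c₀ * g₁ * σ) else 0

lemma norm_eY_le (hc₀ : IsC c₀) (hg₁ : PrI M g₁) (hg₁q : Squarefree g₁) (hσ : IsPrim σ)
    (hσq : Squarefree σ) (κ : Eis → ℂ) (e : Eis) :
    ‖eY M c₀ g₁ g₂ ν σ κ e‖ ≤ ‖κ (g₂ * e)‖ * (n6 (g₁ * σ) * ‖th c₀‖) := by
  classical
  unfold eY
  split_ifs with h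
  · rw [norm_mul]
    refine mul_le_mul_of_nonneg_left ?_ (norm_nonneg _)
    have hgσ : IsCoprime g₁ σ := cop_of_PrI hg₁ h.1.2.of_mul_left_left
    have hp : IsPrim (g₁ * σ) := hg₁.1.mul hσ
    have hq : Squarefree (g₁ * σ) := squarefree_mul_iff.mpr ⟨hgσ.isRelPrime, hg₁q, hσq⟩
    rw [mul_assoc, E3s164.th_c_mul hc₀ hp hq, norm_mul, norm_mul, RCLike.norm_conj,
      PX764.norm_Gh_one hp hq (E4D164.cop_IsC hc₀ hp), one_mul, Complex.norm_real,
      Real.norm_eq_abs, abs_of_nonneg (n6_nonneg _)]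
  · rw [norm_zero]
    exact mul_nonneg (norm_nonneg _) (mul_nonneg (n6_nonneg _) (norm_nonneg _))

open Classical in
/-- **the push-forward is structured** -/
theorem vS_str (hS : IsPrim S) (hJ : OKJ J) {om : Eis × Eis → ℂ} {α : Eis → ℂ} (hα : FS α)
    (κ : Eis → ℂ) (e₀ : Eis) (hc₀ : IsC c₀)
    (hg₁ : PrI M g₁) (hg₁q : Squarefree g₁) (hg₂ : PrI M g₂) (hν : Sm M ν)
    (hνq : Squarefree ν) (hσ : IsPrim σ) (hσq : Squarefree σ) (hσS : SupB σ S) (hρ : IsPrim ρ)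
    (hρq : Squarefree ρ) (hρS : IsCoprime ρ S) (he : IsPrim e) (hρe : IsCoprime ρ e)
    {W : ℝ → ℂ} (hW : IsCoprime ρ (S * M * ν) →
      (if (g₂ * e, FF S c₀ g₁ ν σ * ρ) ∈ J then conj (om (g₂ * e, FF S c₀ g₁ ν σ * ρ)) else 0) =
        W (nm ρ)) :
    vS M S c₀ (g₁ * g₂ ^ 2) ν J (cY S c₀ e₀ om α κ) (σ * ρ * e ^ 2) =
      eY M c₀ g₁ g₂ ν σ κ e * (sy (c₀ * g₁ * σ) ρ *
        uS W (S * M * ν) (b0 (fun m => α (g₂ * e * m)) (g₂ * e) e₀ (FF S c₀ g₁ ν σ)) ρ) := by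
  rw [vS_val hS hJ _ hc₀ hg₁ hg₁q hg₂.1 hν.1 hνq hσ hσq hσS hρ hρq hρS he]
  by_cases h1 : IsCoprime ρ M ∧ IsCoprime ρ ν
  swap
  · have h2 : uS W (S * M * ν) (b0 (fun m => α (g₂ * e * m)) (g₂ * e) e₀ (FF S c₀ g₁ ν σ)) ρ
        = 0 := by
      by_contra h
      obtain ⟨-, -, h3, -⟩ := uS_supp h
      exact h1 ⟨h3.of_mul_right_left.of_mul_right_right, h3.of_mul_right_right⟩
    rw [h2, if_neg]
    · ring
    · rintro ⟨h3, h4, -⟩
      exact h1 ⟨h3.2.of_mul_left_left.of_mul_left_right, h4.of_mul_left_right⟩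
  obtain ⟨hρM, hρν⟩ := h1
  have hr : IsCoprime ρ (S * M * ν) := (hρS.mul_right hρM).mul_right hρν
  have hW' := hW hr
  have hg₁ν : IsCoprime g₁ ν := cop_of_PrI hg₁ hν.2
  have hg₁ρ : IsCoprime g₁ ρ := cop_of_PrI hg₁ hρM
  have hg₂ρ : IsCoprime g₂ ρ := cop_of_PrI hg₂ hρM
  have hσρ : IsCoprime σ ρ := SupB.cop hσ hσS hρS
  have hu : uS W (S * M * ν) (b0 (fun m => α (g₂ * e * m)) (g₂ * e) e₀ (FF S c₀ g₁ ν σ)) ρ =
      W (nm ρ) * ((n6 ρ : ℂ) * (conj (G ρ) *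
        CS (b0 (fun m => α (g₂ * e * m)) (g₂ * e) e₀ (FF S c₀ g₁ ν σ)) ρ)) := by
    unfold uS
    rw [if_pos ⟨hρ, hρq, hr⟩]
  rw [hu, ← hW']
  unfold eY
  by_cases h2 : Sm M (σ * e) ∧ IsCoprime σ ν
  swap
  · rw [if_neg h2, zero_mul, if_neg]
    rintro ⟨h3, h4, -⟩
    apply h2
    refine ⟨⟨hσ.mul he, h3.2.of_mul_left_left.of_mul_left_left.mul_left
      ((IsCoprime.pow_left_iff (by norm_num)).mp h3.2.of_mul_left_right)⟩,
      h4.of_mul_left_left.of_mul_left_right⟩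
  rw [if_pos h2]
  have hX : Sm M (σ * ρ * e ^ 2) := ⟨(hσ.mul hρ).mul (he.pow 2),
    (h2.1.2.of_mul_left_left.mul_left hρM).mul_left h2.1.2.of_mul_left_right.pow_left⟩
  have hcop : IsCoprime (g₁ * σ * ρ) ν := (hg₁ν.mul_left h2.2).mul_left hρν
  by_cases hm : (g₂ * e, FF S c₀ g₁ ν σ * ρ) ∈ J
  swap
  · rw [if_neg (fun h => hm h.2.2), if_neg hm]
    ring
  rw [if_pos ⟨hX, hcop, hm⟩, if_pos hm]
  have hgσρ : IsCoprime g₁ (σ * ρ) := cop_of_PrI hg₁ hX.2.of_mul_left_left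
  have hsq : Squarefree (g₁ * σ * ρ) := by
    rw [mul_assoc]
    exact squarefree_mul_iff.mpr ⟨hgσρ.isRelPrime, hg₁q,
      squarefree_mul_iff.mpr ⟨hσρ.isRelPrime, hσq, hρq⟩⟩
  have hdc := (dc_iff hS (hJ.jc _ hm) hc₀ hg₁.1 hν.1 hνq hσ hσS hρ hρS hsq hcop).mpr rfl
  have hTE : conj (E2440.TE α (g₂ * e, FF S c₀ g₁ ν σ * ρ) e₀) =
      CS (b0 (fun m => α (g₂ * e * m)) (g₂ * e) e₀ (FF S c₀ g₁ ν σ)) ρ := by
    rw [TE_eq, conj_TE0 (FS_sub hα (hg₂.1.mul he)) hρ,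
      if_pos (hg₂ρ.symm.mul_right hρe)]
  have hcρ : IsCoprime (c₀ * g₁ * σ) ρ := ((E4D164.cop_IsC hc₀ hρ).mul_left hg₁ρ).mul_left hσρ
  unfold cY
  dsimp only
  rw [hdc]
  dsimp only
  rw [show c₀ * (g₁ * σ * ρ) = (c₀ * g₁ * σ) * ρ by ring, th_mul hρ hρq hcρ, map_mul, hTE]
  unfold PX764.Gh
  simp only [map_mul, Complex.conj_conj]
  ring

end val

/-! ### the arrays of the push-forward -/

section arr

variable {M S c₀ g₁ g₂ ν σ e : Eis} {J : Finset (Eis × Eis)}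

open Classical in
/-- the window -/
def WW (S c₀ g₁ g₂ ν σ : Eis) (Om : ℝ → ℂ) (e : Eis) (x : ℝ) : ℂ :=
  if Squarefree (g₂ * e) ∧ JC (FF S c₀ g₁ ν σ) then
    conj (Om ((nm (FF S c₀ g₁ ν σ * (g₂ * e) ^ 2) : ℝ) * x)) else 0

lemma FF_form (hS : IsPrim S) (hg₁ : IsPrim g₁) (hν : IsPrim ν) (hσ : IsPrim σ)
    (hA : AA S (bpt S g₁ * σ * bpt S ν ^ 2) ≠ 0) :
    ∃ P, IsPrim P ∧ FF S c₀ g₁ ν σ = c₀ * P := by
  obtain ⟨hJA, e, he, h⟩ := AA_spec hA
  have hρ₀ : IsPrim (bpt S g₁ * σ * bpt S ν ^ 2) :=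
    ((bpt_prim hS hg₁).mul hσ).mul ((bpt_prim hS hν).pow 2)
  have hAp : IsPrim (AA S (bpt S g₁ * σ * bpt S ν ^ 2)) := by
    have h1 : IsPrim (AA S (bpt S g₁ * σ * bpt S ν ^ 2) * S) := by
      rw [h]; exact hρ₀.mul (he.pow 3)
    exact h1.of_mul_right hS
  exact ⟨_, hAp.mul ((bco_prim hS hg₁).mul ((bco_prim hS hν).pow 2)), by unfold FF; ring⟩

lemma FF_cop (hS : IsPrim S) (hc₀ : IsC c₀) (hg₁ : IsPrim g₁) (hν : IsPrim ν) {ρ : Eis} (hρ : IsPrim ρ) (hρS : IsCoprime ρ S) (hg₁ρ : IsCoprime g₁ ρ)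
    (hνρ : IsCoprime ν ρ) (hσρ : IsCoprime σ ρ)
    (hA : AA S (bpt S g₁ * σ * bpt S ν ^ 2) ≠ 0) : IsCoprime (FF S c₀ g₁ ν σ) ρ := by
  obtain ⟨hJA, e, he, h⟩ := AA_spec hA
  have h1 : IsCoprime (bpt S g₁ * σ * bpt S ν ^ 2) ρ :=
    (((hg₁ρ.of_isCoprime_of_dvd_left (bpt_dvd hS hg₁)).mul_left hσρ)).mul_left
      (hνρ.of_isCoprime_of_dvd_left (bpt_dvd hS hν)).pow_left
  have h2 := (E5b54.coprime_star hρ.ne_zero (E5b54.JC_cf hJA) h hρS.symm h1).2
  have d1 : bco S g₁ ∣ g₁ := ⟨_, by rw [mul_comm]; exact (bpt_mul_bco hS hg₁).symm⟩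
  have d2 : bco S ν ∣ ν := ⟨_, by rw [mul_comm]; exact (bpt_mul_bco hS hν).symm⟩
  unfold FF
  exact ((E4D164.cop_IsC hc₀ hρ).mul_left h2).mul_left
    ((hg₁ρ.of_isCoprime_of_dvd_left d1).mul_left (hνρ.of_isCoprime_of_dvd_left d2).pow_left)

open Classical in
/-- **the window of the level weight** -/
theorem WW_eq (hS : IsPrim S) (hJ : OKJ J) {om : Eis × Eis → ℂ} {Om : ℝ → ℂ}
    (hom : ∀ d j, om (d, j) = Om (nm (j * d ^ 2)))
    (hJom : ∀ d j, IsPrim d → Squarefree d → JC j → om (d, j) ≠ 0 → (d, j) ∈ J)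
    (hc₀ : IsC c₀) (hg₁ : PrI M g₁) (hg₂ : PrI M g₂) (hν : IsPrim ν) (hσ : IsPrim σ)
    (hσS : SupB σ S) (he : IsPrim e) {ρ : Eis} (hρ : IsPrim ρ) (hρq : Squarefree ρ)
    (hρc : IsCoprime ρ (S * M * ν)) :
    (if (g₂ * e, FF S c₀ g₁ ν σ * ρ) ∈ J then conj (om (g₂ * e, FF S c₀ g₁ ν σ * ρ)) else 0) =
      WW S c₀ g₁ g₂ ν σ Om e (nm ρ) := by
  have hρS : IsCoprime ρ S := hρc.of_mul_right_left.of_mul_right_left
  have hρM : IsCoprime ρ M := hρc.of_mul_right_left.of_mul_right_right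
  have hρν : IsCoprime ρ ν := hρc.of_mul_right_right
  have hg₁ρ : IsCoprime g₁ ρ := cop_of_PrI hg₁ hρM
  have hσρ : IsCoprime σ ρ := SupB.cop hσ hσS hρS
  have hnm : (nm (FF S c₀ g₁ ν σ * ρ * (g₂ * e) ^ 2) : ℝ) =
      (nm (FF S c₀ g₁ ν σ * (g₂ * e) ^ 2) : ℝ) * nm ρ := by
    rw [← Nat.cast_mul, ← nm_mul]
    congr 2
    ring
  have hv : om (g₂ * e, FF S c₀ g₁ ν σ * ρ) =
      Om ((nm (FF S c₀ g₁ ν σ * (g₂ * e) ^ 2) : ℝ) * nm ρ) := by rw [hom, hnm]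
  unfold WW
  by_cases hm : (g₂ * e, FF S c₀ g₁ ν σ * ρ) ∈ J
  · rw [if_pos hm, if_pos, hv]
    refine ⟨hJ.sqf _ hm, ?_⟩
    have hj : JC (FF S c₀ g₁ ν σ * ρ) := hJ.jc _ hm
    have hA : AA S (bpt S g₁ * σ * bpt S ν ^ 2) ≠ 0 := by
      intro h0
      apply JC_ne_zero hj
      unfold FF
      rw [h0]
      ring
    obtain ⟨P, hP, hF⟩ := FF_form (c₀ := c₀) hS hg₁.1 hν hσ hA
    obtain ⟨c', hc', j', hj', hcf, he'⟩ := hj
    rw [hF] at he'
    obtain ⟨h1, h2⟩ := E3A164.eq_c hc₀ hc' (hP.mul hρ) hj' (by rw [← he']; ring)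
    refine ⟨c₀, hc₀, P, hP, fun p hp hd => hcf p hp ?_, hF⟩
    rw [← h2]
    exact hd.mul_right ρ
  · rw [if_neg hm]
    split_ifs with h
    · by_contra h0
      apply hm
      refine hJom _ _ (hg₂.1.mul he) h.1 ?_ ?_
      · have hA : AA S (bpt S g₁ * σ * bpt S ν ^ 2) ≠ 0 := by
          intro h0
          apply JC_ne_zero h.2
          unfold FF
          rw [h0]
          ring
        exact GrE579.jc_mul h.2 hρ (GrE579.cbF_of_sqf hρq)
          (FF_cop hS hc₀ hg₁.1 hν hρ hρS hg₁ρ hρν.symm hσρ hA)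
      · rw [hv]
        intro h1
        apply h0
        rw [h1, map_zero]
    · rfl

open Classical in
/-- **the arrays of the push-forward** -/
theorem Vt_str {R q D s δ q₁ q₂ us u w τ : Eis} {g g₀ : Eis → ℂ} (hR : PrI q R)
    (hD : IsPrim D) (hs : IsPrim s) (hδ : IsPrim δ) (hδq : Squarefree δ) (hq1 : IsPrim q₁)
    (hq2 : IsPrim q₂) (hus : IsPrim us) (hu : IsPrim u) (huq : Squarefree (us * u))
    (hw : IsPrim w) (hwq : Squarefree w) (huw : IsCoprime (us * u) w)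
    (hRs : R * s = us * u * w ^ 2) (hτ : IsPrim τ) (hτq : Squarefree τ) (hτS : SupB τ S)
    (husS : SupB us S) (huS : IsCoprime u S)
    (hg : ∀ y, IsPrim y → g y = sy y q₁ * conj (sy y q₂) * g₀ y)
    (hg0 : ∀ x y, IsPrim x → IsPrim y → g₀ (x * y) = g₀ x * g₀ y)
    (hS : IsPrim S) (hJ : OKJ J) {om : Eis × Eis → ℂ} {Om : ℝ → ℂ}
    (hom : ∀ d j, om (d, j) = Om (nm (j * d ^ 2)))
    (hJom : ∀ d j, IsPrim d → Squarefree d → JC j → om (d, j) ≠ 0 → (d, j) ∈ J)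
    {α : Eis → ℂ} (hα : FS α) (κ : Eis → ℂ) (e₀ : Eis) (hc₀ : IsC c₀)
    (hg₁ : PrI M g₁) (hg₁q : Squarefree g₁) (hg₂ : PrI M g₂) (hν : Sm M ν)
    (hνq : Squarefree ν) (r : Eis) :
    Vt (Vr (tws R q g (vD D (vS M S c₀ (g₁ * g₂ ^ 2) ν J (cY S c₀ e₀ om α κ)))) s δ) S τ r =
      cfS (c₀ * g₁ * (us * τ)) q₁ q₂ D R s q u w τ (fun _ => 1) g₀
          (eY M c₀ g₁ g₂ ν (us * τ) κ) (fun _ => S * M * ν) δ *
        (g₀ r * (sy (c₀ * g₁ * (us * τ) * (q₁ * q₂ ^ 2 * (D ^ 2 * s ^ 2))) r *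
          uS (fun x => WW S c₀ g₁ g₂ ν (us * τ) Om (w * δ) ((nm u : ℝ) * x))
            (S * M * ν * u * (q * s * D * δ * S))
            (bt u (b0 (fun m => α (g₂ * (w * δ) * m)) (g₂ * (w * δ)) e₀
              (FF S c₀ g₁ ν (us * τ)))) r)) := by
  have h := Vr_eqS (Q := c₀ * g₁ * (us * τ)) (χ := fun _ => 1)
    (v := vS M S c₀ (g₁ * g₂ ^ 2) ν J (cY S c₀ e₀ om α κ))
    (ev := eY M c₀ g₁ g₂ ν (us * τ) κ) (W := WW S c₀ g₁ g₂ ν (us * τ) Om)
    (Rr := fun _ => S * M * ν)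
    (B := fun e => b0 (fun m => α (g₂ * e * m)) (g₂ * e) e₀ (FF S c₀ g₁ ν (us * τ)))
    hR hD hs hδ hδq hq1 hq2 hu huq hw hwq huw hRs hτ hτq hτS huS hg hg0
    (fun _ _ _ _ => (one_mul 1).symm)
    (fun e he => FS_b0 (FS_sub hα (hg₂.1.mul he)) _ _ _)
    (fun e ρ h1 h2 h3 h4 h5 h6 h7 h8 => ?_) r
  · rw [h, one_mul]
  · rw [one_mul]
    exact vS_str hS hJ hα κ e₀ hc₀ hg₁ hg₁q hg₂ hν hνq (hus.mul hτ) h1 (husS.mul hτS) h5 h6 h8
      h3 h7 (WW_eq hS hJ hom hJom hc₀ hg₁ hg₂ hν.1 (hus.mul hτ) (husS.mul hτS) h3 h5 h6)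

end arr

/-! ### supports -/

section supp

variable {M S c₀ g ν : Eis} {J : Finset (Eis × Eis)} {c : Eis × Eis → ℂ}

lemma vS_ne {X : Eis} (h : vS M S c₀ g ν J c X ≠ 0) : Sm M X ∧ ∃ y ∈ J,
    (dc (stj S y.2)).1 = c₀ ∧ (dc (stj S y.2)).2.2 = ν ∧
      (dc (stj S y.2)).2.1 * y.1 ^ 2 = g * X ∧ c y ≠ 0 := by
  classical
  unfold vS at h
  split_ifs at h with h1
  · obtain ⟨y, hy, h2⟩ := exists_ne_zero_of_sum_ne_zero h
    obtain ⟨h3, h4, h5, h6⟩ := mem_filter.mp hy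
    exact ⟨h1, y, h3, h4, h5, h6, h2⟩
  · exact absurd rfl h

/-- `g X` is cube-free -/
lemma vS_cbf (hS : IsPrim S) (hJ : OKJ J)
    (hc : ∀ y ∈ J, c y ≠ 0 → IsCoprime y.2 y.1 ∧ IsCoprime S y.1) {X : Eis}
    (h : vS M S c₀ g ν J c X ≠ 0) : CbF (g * X) := by
  obtain ⟨-, y, hy, -, -, h1, h2⟩ := vS_ne h
  obtain ⟨hj, e, he, hje⟩ := stj_spec hS (hJ.jc y hy)
  obtain ⟨s1, s2, s3, s4, s5, s6, s7⟩ := dc_spec hj
  obtain ⟨c1, c2⟩ := hc y hy h2
  rw [← h1]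
  refine GrE579.cbF_dec s3 (hJ.sqf y hy) ?_
  have h3 : IsCoprime (stj S y.2 * e ^ 3) y.1 := by rw [← hje]; exact c1.mul_left c2
  refine h3.of_mul_left_left.of_isCoprime_of_dvd_left ?_
  conv_rhs => rw [s7]
  exact ⟨(dc (stj S y.2)).1 * (dc (stj S y.2)).2.2 ^ 2, by ring⟩

lemma vS_fin (hg : g ≠ 0) : (Function.support (vS M S c₀ g ν J c)).Finite := by
  have hinj : Function.Injective (fun X : Eis => g * X) := fun _ _ h => mul_left_cancel₀ hg h
  have hf := ((J.finite_toSet.image (fun y : Eis × Eis =>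
    (dc (stj S y.2)).2.1 * y.1 ^ 2)).preimage hinj.injOn)
  refine hf.subset fun X hX => ?_
  obtain ⟨-, y, hy, -, -, h1, -⟩ := vS_ne hX
  rw [Set.mem_preimage]
  exact ⟨y, mem_coe.mpr hy, h1⟩

/-- the coefficient of the `x`-side vanishes outside the coprime pairs -/
lemma cY_cop {e₀ : Eis} {om : Eis × Eis → ℂ} {α κ : Eis → ℂ}
    (hκ : ∀ d, IsPrim d → κ d ≠ 0 → IsCoprime S d) {y : Eis × Eis} (hy : IsPrim y.1)
    (h : cY S c₀ e₀ om α κ y ≠ 0) : IsCoprime y.2 y.1 ∧ IsCoprime S y.1 := by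
  unfold cY at h
  have h1 := left_ne_zero_of_mul h
  have h2 := left_ne_zero_of_mul (right_ne_zero_of_mul h)
  have h3 : om y * E2440.TE α y e₀ ≠ 0 := by
    intro h0
    apply h1
    rw [h0, map_zero]
  exact ⟨E4D164.TE_cop (right_ne_zero_of_mul h3), hκ _ hy h2⟩

lemma tws_fin {R q : Eis} {gg v : Eis → ℂ} (hR : R ≠ 0) (hv : (Function.support v).Finite) :
    (Function.support (tws R q gg v)).Finite := by
  have hinj : Function.Injective (fun x : Eis => R * x) := fun _ _ h => mul_left_cancel₀ hR h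
  refine (hv.preimage hinj.injOn).subset fun x hx => ?_
  intro h0
  apply hx
  unfold tws
  split_ifs
  · rw [h0, mul_zero]
  · rfl

lemma FS_Vr {v' : Eis → ℂ} {s δ : Eis} (hv : (Function.support v').Finite) (hs : s ≠ 0)
    (hδ : δ ≠ 0) : FS (Vr v' s δ) where
  fin := by
    have hinj : Function.Injective (fun r : Eis => s * (r * δ ^ 2)) := fun _ _ h =>
      mul_right_cancel₀ (pow_ne_zero 2 hδ) (mul_left_cancel₀ hs h)
    refine (hv.preimage hinj.injOn).subset fun r hr => ?_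
    intro h0
    apply hr
    unfold Vr
    split_ifs
    · rw [h0, zero_mul]
    · rfl
  prim := fun r hr => by
    unfold Vr at hr
    split_ifs at hr with h
    · exact h.1
    · exact absurd rfl hr

lemma Vr_ne {v' : Eis → ℂ} {s δ r : Eis} (h : Vr v' s δ r ≠ 0) :
    IsPrim r ∧ Squarefree r ∧ IsCoprime r δ ∧ IsCoprime (r * δ) s ∧
      v' (s * (r * δ ^ 2)) ≠ 0 := by
  unfold Vr at h
  split_ifs at h with h1
  · exact ⟨h1.1, h1.2.1, h1.2.2.1, h1.2.2.2, left_ne_zero_of_mul h⟩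
  · exact absurd rfl h

/-- **Cauchy over the `S`-parts of the inner sequences** -/
theorem sum_Vr_sq {v' : Eis → ℂ} {s a : Eis} {X : ℝ} (hX : 0 ≤ X) (hS : IsPrim S)
    (hs : IsPrim s) (hv : (Function.support v').Finite) (ha : IsPrim a) :
    ‖∑ δ ∈ LS2.S X, sy (δ ^ 2) a * CS (Vr v' s δ) a‖ ^ 2 ≤
      ((dvs (rd S)).card : ℝ) * ∑ τ ∈ dvs (rd S),
        ‖∑ δ ∈ LS2.S X, conj (sy a δ) * CS (Vt (Vr v' s δ) S τ) a‖ ^ 2 := by
  have hδ : ∀ δ ∈ LS2.S X, IsPrim δ := fun δ h => ((mem_S hX).mp h).2.1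
  have e1 : ∑ δ ∈ LS2.S X, sy (δ ^ 2) a * CS (Vr v' s δ) a =
      ∑ δ ∈ LS2.S X, conj (sy a δ) * CS (Vr v' s δ) a :=
    sum_congr rfl fun δ h => by rw [conj_sy_sq ha (hδ δ h)]
  rw [e1]
  exact sq_split hS (fun δ h => FS_Vr hv hs.ne_zero (hδ δ h).ne_zero)
    (fun δ _ r hr => (Vr_ne hr).2.1) a

end supp

/-! ### the dictionary -/

/-- the outer factor of the dictionary -/
def KO (ψ : Eis → ℂ) (l : ℤ) (f S ν : Eis) : ℂ :=
  conj (End699.tw ψ l (S * ν)) * sy (S * ν) f * (((nm (S * ν) : ℝ) ^ (2 / 3 : ℝ) : ℝ) : ℂ)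

open Classical in
/-- the outer coefficient -/
def EB {B : Type*} (Q : Finset B) (sE : B → Eis) (ε : B → ℂ) (S : Eis) : ℂ :=
  ∑ b ∈ Q.filter (fun b => sE b = S), conj (ε b)

open Classical in
/-- **the `x`-side of the dictionary** -/
theorem vI_eq {B : Type*} {M : Eis} {ψ : Eis → ℂ} {l : ℤ} {f : Eis} {Q : Finset B}
    {sE : B → Eis} {J : Finset (Eis × Eis)} (hJ : OKJ J) {ε : B → ℂ} {om : Eis × Eis → ℂ}
    {α : Eis → ℂ} {e₀ c₀ g : Eis} (o : Eis × Eis) (X : Eis) :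
    E4D164.vI M ψ l f (Q ×ˢ J) (E4D164.jS sE) E4D164.jD (E4D164.jJ sE)
        (E4D164.jC sE (E4D164.cE ε om α e₀)) c₀ g o X =
      (EB Q sE ε o.1 * KO ψ l f o.1 o.2) *
        vS M o.1 c₀ g o.2 J (cY o.1 c₀ e₀ om α (fun d => conj (sy (o.1 * o.2) d))) X := by
  unfold E4D164.vI E4D164.pu vS
  by_cases hX : Sm M X
  swap
  · rw [if_neg hX, if_neg hX, mul_zero]
  rw [if_pos hX, if_pos hX]
  unfold E4D164.II
  rw [filter_filter, sum_filter, sum_product]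
  unfold EB
  rw [mul_assoc, sum_filter, sum_mul]
  refine sum_congr rfl fun b _ => ?_
  by_cases hb : sE b = o.1
  · rw [if_pos hb, sum_filter, mul_sum, mul_sum]
    refine sum_congr rfl fun y hy => ?_
    have hP : (((dc (E4D164.jJ sE (b, y))).1 = c₀ ∧ E4D164.jS sE (b, y) = o.1 ∧
        (dc (E4D164.jJ sE (b, y))).2.2 = o.2) ∧
        E4D164.XI E4D164.jD (E4D164.jJ sE) (b, y) = g * X) ↔
        ((dc (stj o.1 y.2)).1 = c₀ ∧ (dc (stj o.1 y.2)).2.2 = o.2 ∧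
          (dc (stj o.1 y.2)).2.1 * y.1 ^ 2 = g * X) := by
      unfold E4D164.XI E4D164.jJ E4D164.jS E4D164.jD
      dsimp only
      rw [hb]
      tauto
    by_cases h1 : (dc (stj o.1 y.2)).1 = c₀ ∧ (dc (stj o.1 y.2)).2.2 = o.2 ∧
          (dc (stj o.1 y.2)).2.1 * y.1 ^ 2 = g * X
    · rw [if_pos h1, if_pos (hP.mpr h1)]
      obtain ⟨h2, h3, -⟩ := h1
      unfold E4D164.cI E4D164.jC E4D164.cE E4D164.jJ E4D164.jS E4D164.jD cY KO
      dsimp only
      rw [hb, h2, h3, sy_mulL (x := o.1) (y := o.2) (hJ.prim y hy)]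
      simp only [map_mul]
      ring
    · rw [if_neg h1, if_neg (fun h => h1 (hP.mp h))]
      ring
  · rw [if_neg hb, zero_mul]
    refine sum_eq_zero fun y _ => if_neg ?_
    rintro ⟨⟨-, h, -⟩, -⟩
    exact hb h

/-- the factor kills `d` not prime to `S` -/
lemma kap_cop {S ν d : Eis} (hd : IsPrim d) (h : conj (sy (S * ν) d) ≠ 0) : IsCoprime S d := by
  by_contra hc
  apply h
  have h1 : ¬ IsCoprime (S * ν) d := fun h' => hc h'.of_mul_left_left
  rw [(GaussLoc283.syAx.eq_zero (S * ν) d hd).mpr h1, map_zero]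

end Crest.Agent.R017.E4v92
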