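import Crest.Agent.R017.E5R_71

/-!
# Row 17, P8a (helper71): the signed sum over primary `k` on the near-equal lists

* `wp_supp` : support and size of the weight
* `prefix` : amplifier share
* `primU_of` : `P1`, `StrU`, `TailU`, `TailCU`, `MomU`, `AbsU` ⟹ `PrimU`
-/

set_option autoImplicit false

noncomputable section

open Set Complex
open scoped ComplexConjugate

namespace Crest.Agent.R017.E5B71

open Crest.Agent.R012 Crest.Agent.R012.Eis Crest.Agent.R012.Mob705
open Crest.Agent.R017.CM106 Crest.Agent.R017.FE47 Crest.Agent.R017.End699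
open Crest.Agent.R017.Sx545 (Sm)
open Crest.Agent.R017.XG702 (Pcs Good_mono)
open Crest.Agent.R017.XT71 (Sys Win mx one_le_mx)
open Crest.Agent.R017.XF71 (const_le_rpow)
open Crest.Agent.R017.UM71
open Crest.Agent.R017.HP842 (Pc pc)
open Crest.Agent.R017.B770 Crest.Agent.R017.Prov71
open Crest.Agent.R017.SU770 (tw1)
open Crest.Agent.R017.E5T54 Crest.Agent.R017.E5P571

/-! ### the weight -/

lemma sw_low {U : ℝ → ℂ} (hU : SW U) : ∃ b : ℝ, 0 < b ∧ ∀ x, x < b → U x = 0 := by
  rcases (tsupport U).eq_empty_or_nonempty with h | h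
  · exact ⟨1, one_pos, fun x _ => by
      by_contra hx
      have := subset_tsupport _ hx
      rw [h] at this
      exact this⟩
  · obtain ⟨x₀, hx₀, hmin⟩ := hU.cpt.isCompact.exists_isMinOn h continuousOn_id
    refine ⟨x₀, hU.supp hx₀, fun x hx => ?_⟩
    by_contra h0
    have := hmin (subset_tsupport _ h0)
    simp only [id_eq] at this
    exact absurd hx (not_lt.2 this)

/-- support and size of the weight -/
theorem wp_bd {P : DPar} (hP : P.OK) : ∃ R C : ℝ, 0 ≤ R ∧ 1 ≤ C ∧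
    (∀ (τ H : ℝ) (k : Eis), 0 < H → SU770.DPar.wp P τ H k ≠ 0 →
      (nm k : ℝ) ≤ Real.exp R * H ∧ Real.exp (-R) * H ≤ nm k) ∧
    ∀ (τ H : ℝ) (k : Eis), IsPrim k → ‖SU770.DPar.wp P τ H k‖ ≤ C := by
  obtain ⟨β, hβ, hβU⟩ := Bx986.exists_supp hP.U
  obtain ⟨b, hb, hbU⟩ := sw_low hP.U
  obtain ⟨C, hC, hCU⟩ := BoxP271.sw_bdd hP.U
  refine ⟨max (Real.log (max β 1)) (-Real.log b), C + 1,
    (Real.log_nonneg (le_max_right _ _)).trans (le_max_left _ _), by linarith, ?_, ?_⟩
  · intro τ H k hH hk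
    have h1 : P.U (nm k / H) ≠ 0 := fun h => hk (by unfold SU770.DPar.wp; rw [h, mul_zero])
    have h2 : (nm k : ℝ) / H ≤ β := by
      by_contra h
      push Not at h
      exact h1 (hβU _ h)
    have h3 : b ≤ (nm k : ℝ) / H := by
      by_contra h
      push Not at h
      exact h1 (hbU _ h)
    rw [div_le_iff₀ hH] at h2
    rw [le_div_iff₀ hH] at h3
    constructor
    · have h4 : max β 1 ≤ Real.exp (max (Real.log (max β 1)) (-Real.log b)) := by
        rw [← Real.exp_log (lt_of_lt_of_le one_pos (le_max_right β 1)), Real.exp_le_exp]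
        rw [Real.exp_log (lt_of_lt_of_le one_pos (le_max_right β 1))]
        exact le_max_left _ _
      exact h2.trans (mul_le_mul_of_nonneg_right ((le_max_left _ _).trans h4) hH.le)
    · have h4 : Real.exp (-(max (Real.log (max β 1)) (-Real.log b))) ≤ b := by
        have e1 : Real.exp (Real.log b) = b := Real.exp_log hb
        calc _ ≤ Real.exp (Real.log b) := Real.exp_le_exp.2 (by
              linarith [le_max_right (Real.log (max β 1)) (-Real.log b)])
          _ = b := e1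
      exact (mul_le_mul_of_nonneg_right h4 hH.le).trans h3
  · intro τ H k hk
    unfold SU770.DPar.wp
    rw [norm_mul, norm_mul, norm_mul]
    have e1 : ‖conj (P.χ₃ k)‖ ≤ 1 := by
      rw [RCLike.norm_conj]; exact hP.χ₃.char.norm_le hk
    have e2 := SU770.norm_ang_le P.l₃ k
    have e3 : ‖(nm k : ℂ) ^ (I * τ)‖ ≤ 1 := by
      have h0 : 0 < nm k := nm_pos.2 hk.ne_zero
      rw [Complex.norm_natCast_cpow_of_pos h0]
      simp
    have e4 := hCU (nm k / H)
    calc ‖conj (P.χ₃ k)‖ * ‖ang P.l₃ k‖ * ‖(nm k : ℂ) ^ (I * τ)‖ * ‖P.U (nm k / H)‖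
        ≤ 1 * 1 * 1 * C := by gcongr
      _ ≤ C + 1 := by linarith

/-! ### the amplifier share -/

/-- a prefix of prescribed total -/
lemma exists_prefix {α : Type*} (f : α → ℝ) {δ : ℝ} (gs : List α) (h0 : ∀ g ∈ gs, 0 ≤ f g)
    (h1 : ∀ g ∈ gs, f g ≤ δ) (hδ : 0 ≤ δ) : ∀ x : ℝ, 0 ≤ x → x ≤ (gs.map f).sum →
    ∃ q₁ q₂, gs = q₁ ++ q₂ ∧ x - δ ≤ (q₁.map f).sum ∧ (q₁.map f).sum ≤ x := by
  induction gs with
  | nil =>
    intro x hx hx1
    exact ⟨[], [], rfl, by simp at hx1 ⊢; linarith, by simpa using hx⟩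
  | cons g gs ih =>
    intro x hx hx1
    rcases le_or_gt (f g) x with h | h
    · obtain ⟨q₁, q₂, e, h2, h3⟩ := ih (fun a ha => h0 a (List.mem_cons_of_mem _ ha))
        (fun a ha => h1 a (List.mem_cons_of_mem _ ha)) (x - f g) (by linarith) (by
          rw [List.map_cons, List.sum_cons] at hx1; linarith)
      refine ⟨g :: q₁, q₂, by rw [e, List.cons_append], ?_, ?_⟩
      · rw [List.map_cons, List.sum_cons]; linarith
      · rw [List.map_cons, List.sum_cons]; linarith
    · refine ⟨[], g :: gs, rfl, ?_, ?_⟩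
      · simp only [List.map_nil, List.sum_nil]
        linarith [h1 g List.mem_cons_self]
      · simpa using hx

lemma mass_kd {X : ℝ} {ps : List Pq} {κ : Kd} (h : ∀ p ∈ ps, p.kd = κ) (t : Kd) :
    Dq.mass X ps t = if κ = t then (ps.map (Dq.nl X)).sum else 0 := by
  induction ps with
  | nil => simp
  | cons p ps ih =>
    rw [Pcs.mass_cons, ih fun q hq => h q (List.mem_cons_of_mem _ hq), Dq_kind,
      h p List.mem_cons_self]
    split_ifs <;> simp

lemma mass_moL (X : ℝ) (ps : List Pq) (t : Kd) :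
    Dq.mass X (moL ps) t = if t = .mo then Dq.mass X ps .mo else 0 := by
  classical
  induction ps with
  | nil => simp [moL]
  | cons p ps ih =>
    unfold moL at ih ⊢
    cases hk : p.kd with
    | mo =>
      rw [List.filter_cons_of_pos (by simp [hk]), Pcs.mass_cons, Pcs.mass_cons, ih, Dq_kind, hk]
      cases t <;> simp
    | am =>
      rw [List.filter_cons_of_neg (by simp [hk]), Pcs.mass_cons, ih, Dq_kind, hk]
      cases t <;> simp

lemma mass_amL (X : ℝ) (ps : List Pq) (t : Kd) :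
    Dq.mass X (amL ps) t = if t = .am then Dq.mass X ps .am else 0 := by
  classical
  induction ps with
  | nil => simp [amL]
  | cons p ps ih =>
    unfold amL at ih ⊢
    cases hk : p.kd with
    | am =>
      rw [List.filter_cons_of_pos (by simp [hk]), Pcs.mass_cons, Pcs.mass_cons, ih, Dq_kind, hk]
      cases t <;> simp
    | mo =>
      rw [List.filter_cons_of_neg (by simp [hk]), Pcs.mass_cons, ih, Dq_kind, hk]
      cases t <;> simp

lemma mem_moL {ps : List Pq} {p : Pq} : p ∈ moL ps ↔ p ∈ ps ∧ p.kd = .mo := by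
  unfold moL; simp

lemma mem_amL {ps : List Pq} {p : Pq} : p ∈ amL ps ↔ p ∈ ps ∧ p.kd = .am := by
  unfold amL; simp

lemma length_moL (ps : List Pq) : (moL ps).length + (amL ps).length = ps.length := by
  classical
  induction ps with
  | nil => simp [moL, amL]
  | cons p ps ih =>
    unfold moL amL at ih ⊢
    cases hk : p.kd with
    | mo =>
      rw [List.filter_cons_of_pos (by simp [hk]), List.filter_cons_of_neg (by simp [hk])]
      simp only [List.length_cons]; omega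
    | am =>
      rw [List.filter_cons_of_neg (by simp [hk]), List.filter_cons_of_pos (by simp [hk])]
      simp only [List.length_cons]; omega

/-! ### homogeneity -/

lemma SgP_congr {n : Eis} {W W' : Eis → ℂ} {c : ℂ} (h : ℝ → ℝ) (d₃ e : Eis) (ps qs : List Pc)
    (q : Eis) (hW : ∀ k, IsPrim k → IsCoprime k n → W k = c * W' k) :
    SgP n W h d₃ e ps qs q = c * SgP n W' h d₃ e ps qs q := by
  classical
  unfold SgP
  rw [← tsum_mul_left]
  refine tsum_congr fun k => ?_
  split_ifs with hk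
  · rw [hW k hk.1 hk.2.1]; ring
  · simp

lemma MS_congr {n : Eis} {W W' : Eis → ℂ} {c : ℂ} (e : Eis) (F : Eis → ℂ)
    (s : Eis) (hW : ∀ k, IsPrim k → IsCoprime k n → W k = c * W' k) :
    E5P571.MS n W e F s = c * E5P571.MS n W' e F s := by
  classical
  unfold E5P571.MS
  rw [← tsum_mul_left]
  refine tsum_congr fun k => ?_
  split_ifs with hk
  · rw [hW k hk.1 hk.2.1]; ring
  · simp

/-- the base datum with share `z` -/
def Bd.setz (a : Bd) (z : ℝ) : Bd := { a with z := z }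

section
variable {Λ : Type*} {π : Λ → DPar} {h : ℝ → ℝ}

lemma BB_app (h : ℝ → ℝ) (bs q1 q2 : List Pc) (k : Eis) :
    BB h bs q1 q2 k = BB h bs (q1 ++ q2) [] k := by
  unfold BB; rw [List.append_nil]

lemma norm_BB (h : ℝ → ℝ) (bs q1 q2 : List Pc) (k : Eis) :
    ‖BB h bs q1 q2 k‖ = ‖PC h bs k‖ * ‖PC h (q1 ++ q2) k‖ := by
  unfold BB; rw [norm_mul, RCLike.norm_conj]

open Classical in
/-- **the inequality at one datum** -/
theorem prim_le {ε : ℝ} (hε : 0 < ε) : ∃ C : ℝ, 0 ≤ C ∧ ∀ (lam : Λ × Eis),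
    (π lam.1).OK → ∀ (R : Λ → ℝ) (CU : ℝ), 1 ≤ CU →
    (∀ (τ H : ℝ) (k : Eis), 0 < H → SU770.DPar.wp (π lam.1) τ H k ≠ 0 →
      (nm k : ℝ) ≤ Real.exp (R lam.1) * H ∧ Real.exp (-R lam.1) * H ≤ nm k) →
    (∀ (τ H : ℝ) (k : Eis), IsPrim k → ‖SU770.DPar.wp (π lam.1) τ H k‖ ≤ CU) →
    ∀ (Sf : SF Λ) (a : Bd) (ps q₁ q₂ : List Pq) (z : ℝ), 0 ≤ z → 0 ≤ a.l + R lam.1 →
      amL ps = q₁ ++ q₂ →
      PrimF π h lam a ps ≤ CU * (C * Real.exp (a.l + R lam.1) ^ ε *
        (Real.sqrt (ErrF π h Sf R lam (a.setz z) q₁) *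
            Real.sqrt (MomF π h R lam (a.setz z) (moL ps ++ q₂)) +
          (TailC π h R lam (a.setz z) ps + (TailS π h Sf R lam (a.setz z) ps +
            TailC π h R lam (a.setz z) ps)))) +
        MidF π h Sf lam (a.setz z) ps := by
  obtain ⟨C, hC, key⟩ := sgP_split hε
  refine ⟨C, hC, ?_⟩
  intro lam hP R CU hCU hsupp hbd Sf a ps q₁ q₂ z hz hl hq
  by_cases hok : a.ok ∧ lam.2 ∈ SM (π lam.1).n ∧ a.okP (π lam.1)
  swap
  · have h0 : PrimF π h lam a ps = 0 := by unfold PrimF; rw [if_neg hok]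
    rw [h0]
    have hnn : ∀ (c : Prop) [Decidable c] (x : ℝ), 0 ≤ x → 0 ≤ if c then x else (0 : ℝ) :=
      fun c _ x hx => by split_ifs; exacts [hx, le_rfl]
    have t1 : 0 ≤ TailC π h R lam (a.setz z) ps := by
      unfold TailC; exact hnn _ _ (Finset.sum_nonneg fun _ _ => by positivity)
    have t2 : 0 ≤ TailS π h Sf R lam (a.setz z) ps := by
      unfold TailS; exact hnn _ _ (Finset.sum_nonneg fun _ _ => by positivity)
    have t3 : 0 ≤ MidF π h Sf lam (a.setz z) ps := by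
      unfold MidF
      exact hnn _ _ (Finset.sum_nonneg fun _ _ => Finset.sum_nonneg fun _ _ => norm_nonneg _)
    have : 0 ≤ CU := by linarith
    positivity
  have hok' : (a.setz z).ok := ⟨hok.1.1, hz, hok.1.2.2⟩
  set P := π lam.1 with hPdef
  set t := lam.2 with ht
  set W : Eis → ℂ := Wt P a with hWdef
  set W' : Eis → ℂ := fun k => if IsPrim k then W k / CU else 0 with hW'
  have hCU0 : (CU : ℂ) ≠ 0 := by
    have : (0 : ℝ) < CU := by linarith
    exact_mod_cast this.ne'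
  have hWW : ∀ k, IsPrim k → IsCoprime k P.n → W k = (CU : ℂ) * W' k := by
    intro k hk _
    simp only [hW', if_pos hk]
    field_simp
  set Kx := Real.exp (a.l + R lam.1) with hKx
  have hKx1 : 1 ≤ Kx := Real.one_le_exp hl
  have hW1 : ∀ k, W' k ≠ 0 → (nm k : ℝ) ≤ Kx := by
    intro k hk
    have h1 : W k ≠ 0 := by
      intro h0
      apply hk
      simp only [hW', h0, zero_div, ite_self]
    have := (hsupp a.τ (Real.exp a.l) k (Real.exp_pos _) h1).1
    rwa [← Real.exp_add, add_comm] at this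
  have hWlow : ∀ k, ¬ Real.exp (a.l - R lam.1) ≤ nm k → W k = 0 := by
    intro k hk
    by_contra h1
    have := (hsupp a.τ (Real.exp a.l) k (Real.exp_pos _) h1).2
    rw [← Real.exp_add, neg_add_eq_sub] at this
    exact hk this
  set G : Eis → ℂ := fun k => if Real.exp (a.l - R lam.1) ≤ nm k then Sf.at lam (a.setz z) k
    else PC h ((as3 a).map (Pt P t)) k with hG
  have hW2 : ∀ k, ‖W' k‖ ≤ 1 := by
    intro k
    simp only [hW']
    split_ifs with hk
    · have hCn : ‖(CU : ℂ)‖ = CU := by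
        rw [Complex.norm_real, Real.norm_eq_abs, abs_of_nonneg (by linarith)]
      rw [norm_div, hCn, div_le_one (by linarith)]
      exact hbd a.τ (Real.exp a.l) k hk
    · simp
  have hD : ∀ q ∈ a.𝒟, IsPrim q := fun q hq => (hok.2.2.2.2 q hq).1.1
  have main := key P.n a.d₃ a.e W' Kx a.𝒟 (cutN P t a.l) h ((as3 a).map (Pt P t))
    ((bs2 a ps).map (Pt P t)) (q₁.map (Pt P t)) (q₂.map (Pt P t)) G
    hok.1.2.2 hKx1 hW1 hW2 hD
  have hprim : PrimF π h lam a ps = CU * ∑ q ∈ a.𝒟, ‖SgP P.n W' h a.d₃ a.e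
      ((as3 a).map (Pt P t) ++ (bs2 a ps).map (Pt P t)) (q₁.map (Pt P t) ++ q₂.map (Pt P t)) q‖ := by
    unfold PrimF
    rw [if_pos hok, Finset.mul_sum]
    refine Finset.sum_congr rfl fun q _ => ?_
    rw [← List.map_append, ← List.map_append, ← hq, SgP_congr h a.d₃ a.e _ _ q hWW, norm_mul,
      Complex.norm_real, Real.norm_eq_abs, abs_of_nonneg (by linarith)]
  have hmid : MidF π h Sf lam (a.setz z) ps = CU * ∑ q ∈ a.𝒟.filter (fun q => IsCoprime q a.d₃),
      ∑ g ∈ Gd P.n a.d₃, ‖E5P571.MS P.n W' a.e (fun k => G k *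
        BB h ((bs2 a ps).map (Pt P t)) (q₁.map (Pt P t)) (q₂.map (Pt P t)) k) (q ^ 2 * g)‖ := by
    unfold MidF
    rw [if_pos ⟨hok', hok.2.1, hok.2.2⟩, Finset.mul_sum]
    refine Finset.sum_congr rfl fun q _ => ?_
    rw [Finset.mul_sum]
    refine Finset.sum_congr rfl fun g _ => ?_
    have e0 : E5P571.MS P.n W a.e (fun k => Sf.at lam (a.setz z) k *
        BB h ((bs2 (a.setz z) ps).map (Pt (π lam.1) lam.2))
          ((amL ps).map (Pt (π lam.1) lam.2)) [] k) (q ^ 2 * g) =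
        E5P571.MS P.n W a.e (fun k => G k * BB h ((bs2 a ps).map (Pt P t))
          (q₁.map (Pt P t)) (q₂.map (Pt P t)) k) (q ^ 2 * g) := by
      unfold E5P571.MS
      refine tsum_congr fun k => ?_
      split_ifs with hk
      · by_cases hlo : Real.exp (a.l - R lam.1) ≤ nm k
        · simp only [hG, if_pos hlo]
          rw [BB_app h _ (q₁.map (Pt P t)), ← List.map_append, ← hq]
          rfl
        · rw [hWlow k hlo]; ring
      · rfl
    have := MS_congr (n := P.n) (W := W) (W' := W') (c := (CU : ℂ)) a.e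
      (fun k => G k * BB h ((bs2 a ps).map (Pt P t))
          (q₁.map (Pt P t)) (q₂.map (Pt P t)) k) (q ^ 2 * g) hWW
    show ‖E5P571.MS P.n W a.e _ _‖ = _
    rw [e0, this, norm_mul, Complex.norm_real, Real.norm_eq_abs, abs_of_nonneg (by linarith)]
  -- the three positive functionals
  have herr : ∑ k ∈ (PB P.n ⌊Kx⌋₊).filter (cutN P t a.l),
      ‖PC h ((as3 a).map (Pt P t)) k - G k‖ ^ 2 *
        ‖PC h (q₁.map (Pt P t)) k‖ ^ 2 ≤ ErrF π h Sf R lam (a.setz z) q₁ := by
    unfold ErrF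
    rw [if_pos ⟨hok', hok.2.1, fun p hp => (mem_amL.1 (hq ▸ List.mem_append_left _ hp)).2⟩]
    have e1 : ∑ k ∈ (PB P.n ⌊Kx⌋₊).filter (cutN P t a.l),
        ‖PC h ((as3 a).map (Pt P t)) k - G k‖ ^ 2 * ‖PC h (q₁.map (Pt P t)) k‖ ^ 2 =
        ∑ k ∈ ((PB P.n ⌊Kx⌋₊).filter (cutN P t a.l)).filter
          (fun k => Real.exp (a.l - R lam.1) ≤ nm k),
        ‖PC h ((as3 a).map (Pt P t)) k - Sf.at lam (a.setz z) k‖ ^ 2 *
          ‖PC h (q₁.map (Pt P t)) k‖ ^ 2 := by
      rw [Finset.sum_filter (s := (PB P.n ⌊Kx⌋₊).filter (cutN P t a.l))]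
      refine Finset.sum_congr rfl fun k _ => ?_
      by_cases hlo : Real.exp (a.l - R lam.1) ≤ nm k
      · simp only [hG, if_pos hlo]
      · simp only [hG, if_neg hlo, sub_self, norm_zero]
        simp
    rw [e1]
    refine Finset.sum_le_sum_of_subset_of_nonneg ?_ fun _ _ _ => by positivity
    intro k hk
    rw [Finset.mem_filter, Finset.mem_filter] at hk
    rw [Finset.mem_filter]
    exact ⟨hk.1.1, hk.1.2.1, hk.2⟩
  have hmom : ∑ k ∈ (PB P.n ⌊Kx⌋₊).filter (cutN P t a.l),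
      ‖PC h ((bs2 a ps).map (Pt P t)) k‖ ^ 2 * ‖PC h (q₂.map (Pt P t)) k‖ ^ 2 ≤
        MomF π h R lam (a.setz z) (moL ps ++ q₂) := by
    unfold MomF
    rw [if_pos ⟨hok', hok.2.1⟩]
    calc ∑ k ∈ (PB P.n ⌊Kx⌋₊).filter (cutN P t a.l),
          ‖PC h ((bs2 a ps).map (Pt P t)) k‖ ^ 2 * ‖PC h (q₂.map (Pt P t)) k‖ ^ 2
        = ∑ k ∈ (PB P.n ⌊Kx⌋₊).filter (cutN P t a.l),
          ‖PC h ((a.us 0 :: a.us 1 :: (moL ps ++ q₂)).map (Pt P t)) k‖ ^ 2 := by
          refine Finset.sum_congr rfl fun k _ => ?_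
          rw [← mul_pow, ← norm_mul, ← PC_append, ← List.map_append]
          rfl
      _ ≤ _ := by
          refine Finset.sum_le_sum_of_subset_of_nonneg ?_ fun _ _ _ => by positivity
          intro k hk
          rw [Finset.mem_filter] at hk ⊢
          exact ⟨hk.1, hk.2.2⟩
  have htc : ∑ k ∈ (PB P.n ⌊Kx⌋₊).filter (fun k => ¬ cutN P t a.l k),
      ‖PC h ((as3 a).map (Pt P t)) k‖ * ‖BB h ((bs2 a ps).map (Pt P t)) (q₁.map (Pt P t))
        (q₂.map (Pt P t)) k‖ = TailC π h R lam (a.setz z) ps := by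
    unfold TailC
    rw [if_pos ⟨hok', hok.2.1⟩]
    refine Finset.sum_congr rfl fun k _ => ?_
    rw [norm_BB, ← List.map_append, ← hq]
    rfl
  have hts : ∑ k ∈ (PB P.n ⌊Kx⌋₊).filter (fun k => ¬ cutN P t a.l k),
      ‖G k‖ * ‖BB h ((bs2 a ps).map (Pt P t)) (q₁.map (Pt P t))
        (q₂.map (Pt P t)) k‖ ≤ TailS π h Sf R lam (a.setz z) ps +
          TailC π h R lam (a.setz z) ps := by
    rw [← htc]
    unfold TailS
    rw [if_pos ⟨hok', hok.2.1⟩]
    have e1 : ∑ k ∈ (PB P.n ⌊Kx⌋₊).filter (fun k => ¬ cutN P t a.l k),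
        (if Real.exp (a.l - R lam.1) ≤ nm k then ‖Sf.at lam (a.setz z) k‖ *
          ‖BB h ((bs2 a ps).map (Pt P t)) (q₁.map (Pt P t)) (q₂.map (Pt P t)) k‖ else 0) =
        ∑ k ∈ (PB (π lam.1).n ⌊Real.exp ((a.setz z).l + R lam.1)⌋₊).filter
            (fun k => ¬ cutN (π lam.1) lam.2 (a.setz z).l k ∧
              Real.exp ((a.setz z).l - R lam.1) ≤ nm k),
          ‖Sf.at lam (a.setz z) k‖ *
          (‖PC h ((bs2 (a.setz z) ps).map (Pt (π lam.1) lam.2)) k‖ *
            ‖PC h ((amL ps).map (Pt (π lam.1) lam.2)) k‖) := by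
      rw [← Finset.sum_filter, Finset.filter_filter]
      refine Finset.sum_congr rfl fun k _ => ?_
      rw [norm_BB, ← List.map_append, ← hq]
      rfl
    rw [← e1, ← Finset.sum_add_distrib]
    refine Finset.sum_le_sum fun k _ => ?_
    simp only [hG]
    split_ifs
    · exact le_add_of_nonneg_right (by positivity)
    · exact le_add_of_nonneg_left le_rfl
  rw [htc] at main
  rw [hprim, hmid]
  have hCU' : 0 ≤ CU := by linarith
  have e1 := mul_le_mul_of_nonneg_left main hCU'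
  have e2 := mul_le_mul (Real.sqrt_le_sqrt herr) (Real.sqrt_le_sqrt hmom) (Real.sqrt_nonneg _)
    (Real.sqrt_nonneg _)
  have hCK : 0 ≤ C * Kx ^ ε := by positivity
  have e3 := mul_le_mul_of_nonneg_left e2 (mul_nonneg hCU' hCK)
  have e4 := mul_le_mul_of_nonneg_left hts (mul_nonneg hCU' hCK)
  calc _ ≤ _ := e1
    _ ≤ _ := by
      rw [mul_add, mul_add]
      nlinarith [e3, e4]

end

end Crest.Agent.R017.E5B71
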