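import Crest.Agent.R017.ExBox8_960
import Crest.Agent.R017.E5A_71

/-!
# Row 17, exceptional class, P8: the double difference over primary `k`, literal Props (helper960)

* `sgF_split` : helper571's analytic inequality for functions
* `BdX` : base datum (71's `Bd` with the replaced lengths `zs`), `S5X` its exponents
* `AX`, `BX` : the differences on the three-lump and on the two-lump side
* `PrimX`, `ErrX`, `MidX`, `TailSX`, `TailCX`, `MomX`, and the Props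
  `P1X`, `StrUX`, `TailUX`, `TailCUX`, `MomUX`, `AbsUX`, `PrimUX`
-/

set_option autoImplicit false

noncomputable section

open Set Complex
open scoped ComplexConjugate

namespace Crest.Agent.R017.ExP960

open Crest.Agent.R012 Crest.Agent.R012.Eis Crest.Agent.R012.Mob705
open Crest.Agent.R017.CM106 Crest.Agent.R017.FE47 Crest.Agent.R017.End699
open Crest.Agent.R017.Sx545 (Sm)
open Crest.Agent.R017.XG702 (Pcs)
open Crest.Agent.R017.XT71 (Sys Win mx)
open Crest.Agent.R017.UM71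
open Crest.Agent.R017.HP842 (Pc pc)
open Crest.Agent.R017.B770 Crest.Agent.R017.Prov71
open Crest.Agent.R017.SU770 (tw1)
open Crest.Agent.R017.E5T54 Crest.Agent.R017.E5P571 Crest.Agent.R017.E5B71
open Crest.Agent.R017.ExBox960

open Classical in
/-- **the analytic inequality, functions** : `F = a * b * conj (q₁ q₂)`, `S` the structured part -/
theorem sgF_split {ε : ℝ} (hε : 0 < ε) : ∃ C : ℝ, 0 ≤ C ∧
    ∀ (n d₃ e : Eis) (W : Eis → ℂ) (Kx : ℝ) (D : Finset Eis) (cut : Eis → Prop)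
      (a b q1 q2 S : Eis → ℂ), d₃ ≠ 0 → 1 ≤ Kx → (∀ k, W k ≠ 0 → (nm k : ℝ) ≤ Kx) →
      (∀ k, ‖W k‖ ≤ 1) → (∀ q ∈ D, IsPrim q) →
      ∑ q ∈ D, ‖SgF n W d₃ e (fun k => a k * (b k * conj (q1 k * q2 k))) q‖ ≤
        C * Kx ^ ε * (Real.sqrt (∑ k ∈ (PB n ⌊Kx⌋₊).filter cut,
            ‖a k - S k‖ ^ 2 * ‖q1 k‖ ^ 2) *
          Real.sqrt (∑ k ∈ (PB n ⌊Kx⌋₊).filter cut, ‖b k * q2 k‖ ^ 2)) +
        ∑ q ∈ D.filter (fun q => IsCoprime q d₃), ∑ g ∈ Gd n d₃,
          ‖MS n W e (fun k => S k * (b k * conj (q1 k * q2 k))) (q ^ 2 * g)‖ +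
        C * Kx ^ ε * (∑ k ∈ (PB n ⌊Kx⌋₊).filter (fun k => ¬ cut k),
            ‖a k‖ * (‖b k‖ * ‖q1 k * q2 k‖) +
          ∑ k ∈ (PB n ⌊Kx⌋₊).filter (fun k => ¬ cut k), ‖S k‖ * (‖b k‖ * ‖q1 k * q2 k‖)) := by
  obtain ⟨C, hC, hτ⟩ := Div277.tau_le_rpow hε
  refine ⟨C, by linarith, ?_⟩
  intro n d₃ e W Kx D cut a b q1 q2 S hd hK hW hW1 hD
  set X := ⌊Kx⌋₊ with hX
  have hWX : ∀ k, W k ≠ 0 → nm k ≤ X := fun k hk => Nat.le_floor (hW k hk)
  have hT : ∀ k, IsPrim k → nm k ≤ X → (Div277.tau k : ℝ) ≤ C * Kx ^ ε := by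
    intro k hk hkX
    refine (hτ k hk.ne_zero).trans ?_
    have h1 : (nm k : ℝ) ≤ Kx := (Nat.cast_le.2 hkX).trans (Nat.floor_le (by linarith))
    gcongr
  set B : Eis → ℂ := fun k => b k * conj (q1 k * q2 k) with hB
  have hsplit : ∀ q, SgF n W d₃ e (fun k => a k * B k) q =
      SgF n W d₃ e (fun k => (a k - S k) * B k) q + SgF n W d₃ e (fun k => S k * B k) q := by
    intro q
    rw [← SgF_add hWX]
    congr 1
    funext k
    ring
  calc ∑ q ∈ D, ‖SgF n W d₃ e (fun k => a k * B k) q‖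
      ≤ ∑ q ∈ D, (AS n X (fun k => (a k - S k) * B k) (q ^ 2) +
          if IsCoprime q d₃ then ∑ g ∈ Gd n d₃, ‖MS n W e (fun k => S k * B k) (q ^ 2 * g)‖
          else 0) := by
        refine Finset.sum_le_sum fun q _ => ?_
        rw [hsplit q]
        refine (norm_add_le _ _).trans (add_le_add ?_ (norm_SgF_le hd hWX _))
        have := norm_SgF_le_abs (n := n) (e := e) hWX hW1 d₃ (fun k => (a k - S k) * B k) q
        rwa [one_mul] at this
    _ = ∑ q ∈ D, AS n X (fun k => (a k - S k) * B k) (q ^ 2) +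
        ∑ q ∈ D.filter (fun q => IsCoprime q d₃), ∑ g ∈ Gd n d₃,
          ‖MS n W e (fun k => S k * B k) (q ^ 2 * g)‖ := by
        rw [Finset.sum_add_distrib, Finset.sum_filter]
    _ ≤ C * Kx ^ ε * ∑ k ∈ PB n X, ‖(a k - S k) * B k‖ +
        ∑ q ∈ D.filter (fun q => IsCoprime q d₃), ∑ g ∈ Gd n d₃,
          ‖MS n W e (fun k => S k * B k) (q ^ 2 * g)‖ := by
        gcongr
        exact sum_AS_le hT _ hD
    _ ≤ _ := by
        have hT0 : 0 ≤ C * Kx ^ ε := by positivity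
        have e1 : ∑ k ∈ PB n X, ‖(a k - S k) * B k‖ =
            ∑ k ∈ (PB n X).filter cut, ‖(a k - S k) * B k‖ +
              ∑ k ∈ (PB n X).filter (fun k => ¬ cut k), ‖(a k - S k) * B k‖ :=
          (Finset.sum_filter_add_sum_filter_not _ _ _).symm
        have e2 : ∑ k ∈ (PB n X).filter cut, ‖(a k - S k) * B k‖ ≤
            Real.sqrt (∑ k ∈ (PB n X).filter cut, ‖a k - S k‖ ^ 2 * ‖q1 k‖ ^ 2) *
            Real.sqrt (∑ k ∈ (PB n X).filter cut, ‖b k * q2 k‖ ^ 2) := by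
          have h1 := Real.sum_mul_le_sqrt_mul_sqrt ((PB n X).filter cut)
            (fun k => ‖a k - S k‖ * ‖q1 k‖) (fun k => ‖b k * q2 k‖)
          simp only [mul_pow] at h1
          refine le_trans (le_of_eq ?_) h1
          refine Finset.sum_congr rfl fun k _ => ?_
          simp only [hB, norm_mul, map_mul, RCLike.norm_conj]
          ring
        have e3 : ∑ k ∈ (PB n X).filter (fun k => ¬ cut k), ‖(a k - S k) * B k‖ ≤
            ∑ k ∈ (PB n X).filter (fun k => ¬ cut k), ‖a k‖ * (‖b k‖ * ‖q1 k * q2 k‖) +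
              ∑ k ∈ (PB n X).filter (fun k => ¬ cut k), ‖S k‖ * (‖b k‖ * ‖q1 k * q2 k‖) := by
          rw [← Finset.sum_add_distrib]
          refine Finset.sum_le_sum fun k _ => ?_
          have e4 : ‖B k‖ = ‖b k‖ * ‖q1 k * q2 k‖ := by
            simp only [hB, norm_mul, map_mul, RCLike.norm_conj]
          rw [norm_mul, ← add_mul, e4]
          exact mul_le_mul_of_nonneg_right (norm_sub_le _ _) (by positivity)
        have e4 := mul_le_mul_of_nonneg_left (add_le_add e2 e3) hT0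
        rw [← e1] at e4
        rw [mul_add] at e4
        linarith

/-! ### data -/

/-- base datum of a double difference: replaced log-lengths `zs` (`0, 1`: the pair `us 0, us 1`;
`2, 3`: the pair `us 2, us 3`) -/
structure BdX extends Bd where
  zs : Fin 4 → ℝ

/-- admissible data -/
structure BdX.ok (a : BdX) : Prop where
  base : a.toBd.ok
  z0 : ∀ i, 0 ≤ a.zs i
  s01 : a.zs 0 + a.zs 1 = (a.us 0).z + (a.us 1).z
  s23 : a.zs 2 + a.zs 3 = (a.us 2).z + (a.us 3).z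
  md : ∀ i j, (a.us i).d = (a.us j).d

/-- the base datum with share `z` -/
def BdX.setz (a : BdX) (z : ℝ) : BdX := ⟨a.toBd.setz z, a.zs⟩

/-- coordinates: 71's, and the two short replaced lengths -/
abbrev IX5 := (Fin 3 ⊕ Fin 5) ⊕ Fin 2

/-- exponents -/
def S5X : Sys BdX IX5 where
  ev X a := Sum.elim (S5.ev X a.toBd) ![a.zs 0 / Real.log X, a.zs 2 / Real.log X]
  g a := S5.g a.toBd
  n a := S5.n a.toBd
  s₁ a := S5.s₁ a.toBd
  s₂ a := S5.s₂ a.toBd

/-- 71's coordinates -/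
def prX (p : IX5 → ℝ) : Fin 3 ⊕ Fin 5 → ℝ := fun i => p (.inl i)

/-- range of the short replaced lengths -/
def ZR (β : ℝ) (p : IX5 → ℝ) : Prop := ∀ i : Fin 2, β * cκ (prX p) ≤ p (.inr i) ∧ p (.inr i) ≤ β

/-! ### functionals -/

section
variable {Λ : Type*} (π : Λ → DPar) (h : ℝ → ℝ)

/-- the three-lump side: difference of the pair `(us 2, us 3)`, times `us 4` -/
def AX (P : DPar) (t : Eis) (a : BdX) (k : Eis) : ℂ :=
  Dp h (Pt P t (a.us 2)) (Pt P t (a.us 3)) (Real.exp (a.zs 2)) (Real.exp (a.zs 3)) k *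
    CS (pc h (Pt P t (a.us 4))) k

/-- the difference of the pair `(us 0, us 1)` -/
def BX (P : DPar) (t : Eis) (a : BdX) (k : Eis) : ℂ :=
  Dp h (Pt P t (a.us 0)) (Pt P t (a.us 1)) (Real.exp (a.zs 0)) (Real.exp (a.zs 1)) k

/-- the two-lump side -/
def BXm (P : DPar) (t : Eis) (a : BdX) (ps : List Pq) (k : Eis) : ℂ :=
  BX h P t a k * PC h ((moL ps).map (Pt P t)) k

/-- structured functions: data `lam`, `S`-unit `t`, family `l`, the three pieces, the replaced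
lengths, share `z` -/
abbrev SFX (Λ : Type*) := Λ → Eis → ℝ → (Fin 3 → Pq) → ℝ → ℝ → ℝ → Eis → ℂ

/-- the structured function of a base datum -/
def SFX.at {Λ : Type*} (Sf : SFX Λ) (lam : Λ × Eis) (a : BdX) : Eis → ℂ :=
  Sf lam.1 lam.2 a.l ![a.us 2, a.us 3, a.us 4] (a.zs 2) (a.zs 3) a.z

open Classical in
/-- **the signed sum over primary `k`** -/
def PrimX (lam : Λ × Eis) (a : BdX) (ps : List Pq) : ℝ :=
  if a.ok ∧ lam.2 ∈ SM (π lam.1).n ∧ a.okP (π lam.1) then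
    ∑ q ∈ a.𝒟, ‖SgF (π lam.1).n (Wt (π lam.1) a.toBd) a.d₃ a.e
      (fun k => AX h (π lam.1) lam.2 a k * (BXm h (π lam.1) lam.2 a ps k *
        conj (PC h ((amL ps).map (Pt (π lam.1) lam.2)) k))) q‖
  else 0

open Classical in
/-- **the error moment**, `e^{l - R} ≤ N k ≤ e^{l + R}`, amplifier pieces (71's v5) -/
def ErrX (Sf : SFX Λ) (R : Λ → ℝ) (lam : Λ × Eis) (a : BdX) (q₁ : List Pq) : ℝ :=
  if a.ok ∧ lam.2 ∈ SM (π lam.1).n ∧ ∀ p ∈ q₁, p.kd = .am then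
    ∑ k ∈ (PB (π lam.1).n ⌊Real.exp (a.l + R lam.1)⌋₊).filter
        (fun k => cutE (Real.exp (a.l / 20)) k ∧ Real.exp (a.l - R lam.1) ≤ nm k),
      ‖AX h (π lam.1) lam.2 a k - Sf.at lam a k‖ ^ 2 *
        ‖PC h (q₁.map (Pt (π lam.1) lam.2)) k‖ ^ 2
  else 0

open Classical in
/-- **the structured middle term** -/
def MidX (Sf : SFX Λ) (lam : Λ × Eis) (a : BdX) (ps : List Pq) : ℝ :=
  if a.ok ∧ lam.2 ∈ SM (π lam.1).n ∧ a.okP (π lam.1) then
    ∑ q ∈ a.𝒟.filter (fun q => IsCoprime q a.d₃), ∑ g ∈ Gd (π lam.1).n a.d₃,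
      ‖MS (π lam.1).n (Wt (π lam.1) a.toBd) a.e (fun k => Sf.at lam a k *
        (BXm h (π lam.1) lam.2 a ps k * conj (PC h ((amL ps).map (Pt (π lam.1) lam.2)) k)))
          (q ^ 2 * g)‖
  else 0

open Classical in
/-- **tail with the structured function**, `e^{l - R} ≤ N k` -/
def TailSX (Sf : SFX Λ) (R : Λ → ℝ) (lam : Λ × Eis) (a : BdX) (ps : List Pq) : ℝ :=
  if a.ok ∧ lam.2 ∈ SM (π lam.1).n then
    ∑ k ∈ (PB (π lam.1).n ⌊Real.exp (a.l + R lam.1)⌋₊).filter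
        (fun k => ¬ cutN (π lam.1) lam.2 a.l k ∧ Real.exp (a.l - R lam.1) ≤ nm k),
      ‖Sf.at lam a k‖ *
      (‖BXm h (π lam.1) lam.2 a ps k‖ * ‖PC h ((amL ps).map (Pt (π lam.1) lam.2)) k‖)
  else 0

open Classical in
/-- **tail of the box** -/
def TailCX (R : Λ → ℝ) (lam : Λ × Eis) (a : BdX) (ps : List Pq) : ℝ :=
  if a.ok ∧ lam.2 ∈ SM (π lam.1).n then
    ∑ k ∈ (PB (π lam.1).n ⌊Real.exp (a.l + R lam.1)⌋₊).filter
        (fun k => ¬ cutN (π lam.1) lam.2 a.l k), ‖AX h (π lam.1) lam.2 a k‖ *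
      (‖BXm h (π lam.1) lam.2 a ps k‖ * ‖PC h ((amL ps).map (Pt (π lam.1) lam.2)) k‖)
  else 0

open Classical in
/-- **second moment of the two-lump side** -/
def MomX (R : Λ → ℝ) (lam : Λ × Eis) (a : BdX) (ps : List Pq) : ℝ :=
  if a.ok ∧ lam.2 ∈ SM (π lam.1).n then
    ∑ k ∈ (PB (π lam.1).n ⌊Real.exp (a.l + R lam.1)⌋₊).filter (fun k => (π lam.1).NP2 (lam.2 * k)),
      ‖BX h (π lam.1) lam.2 a k * PC h (ps.map (Pt (π lam.1) lam.2)) k‖ ^ 2
  else 0

end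

/-! ### domains and Props -/

/-- unmarked lumps are not longer than the fifth one -/
def alX : Set ((IX5 → ℝ) × ℝ) := {p | p.2 ≤ cu (prX p.1) 4}

/-- 71's configuration -/
def prQ (q : (IX5 → ℝ) × (Kd → ℝ)) : (Fin 3 ⊕ Fin 5 → ℝ) × (Kd → ℝ) := (prX q.1, q.2)

/-- a domain of 71 with the range of the short replaced lengths -/
def liftD (β : ℝ) (Dom : Set ((Fin 3 ⊕ Fin 5 → ℝ) × (Kd → ℝ))) : Set ((IX5 → ℝ) × (Kd → ℝ)) :=
  {q | prQ q ∈ Dom ∧ ZR β q.1}

section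
variable {Λ : Type*} (π : Λ → DPar) (h : ℝ → ℝ)

/-- **P1X** : the error moment -/
def P1X (Sf : SFX Λ) (A d β : ℝ) : Prop :=
  ∀ R : Λ → ℝ, (∀ lam, 0 ≤ R lam) →
    UB S5X Dq (ErrX π h Sf R) (liftD β (SqD1 A d)) alX (fun q => E1x d (prQ q))

/-- **StrUX** : the structured middle term -/
def StrUX (θ : ℝ) (Sf : SFX Λ) (A d β μ : ℝ) : Prop :=
  UB S5X Dq (MidX π h Sf) (liftD β (SqD A d)) alX (fun q => T5 θ (prQ q) - μ)

/-- **TailUX** : the tail with the structured function -/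
def TailUX (θ : ℝ) (Sf : SFX Λ) (A d β μ : ℝ) : Prop :=
  ∀ R : Λ → ℝ, (∀ lam, 0 ≤ R lam) →
    UB S5X Dq (TailSX π h Sf R) (liftD β (SqD A d)) alX (fun q => T5 θ (prQ q) - μ)

/-- **TailCUX** : the tail of the box -/
def TailCUX (θ : ℝ) (A d β μ : ℝ) : Prop :=
  ∀ R : Λ → ℝ, (∀ lam, 0 ≤ R lam) →
    UB S5X Dq (TailCX π h R) (liftD β (SqD A d)) alX (fun q => T5 θ (prQ q) - μ)

/-- **MomUX** : the second moment of the two-lump side -/
def MomUX (A d β : ℝ) : Prop :=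
  ∀ R : Λ → ℝ, (∀ lam, 0 ≤ R lam) →
    UB S5X Dq (MomX π h R) (liftD β (MoD A)) alX (fun q => E2x d (prQ q))

/-- **AbsUX** : the absolute closure of the signed sum over primary `k` -/
def AbsUX (θ A d β μ : ℝ) : Prop :=
  UB S5X Dq (PrimX π h) (liftD β (AbD A d)) alX (fun q => T5 θ (prQ q) - μ)

/-- **PrimUX** : the signed sum over primary `k`, all near-equal lists -/
def PrimUX (θ A β μ : ℝ) : Prop :=
  UB S5X Dq (PrimX π h) (liftD β (NrD A)) alX (fun q => T5 θ (prQ q) - μ)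

end

end Crest.Agent.R017.ExP960
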