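import Crest.Agent.R017.E4mf_372
import Crest.Agent.R017.E4Ub_164
import Crest.Agent.R017.ExP1_960

/-!
# Row 17, exceptional class, StrUX: `MidX` through `E4Lf` (helper372)

`flt` a set of outer `k` on which the structured function vanishes (helper974: the cubes).

* `PhF flt V K` : the weight `V (nm k / K)` off `flt`
* `midX_K` : `MidX ≤ Σ_{i ∈ I} Σ_{g ∣ d₃}` (finite sum of `K^{-2/3} ‖ELf‖`), outer set `QK`; `I` the
  shapes of the two-lump side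
-/

set_option autoImplicit false

noncomputable section

open Finset Complex
open scoped ComplexConjugate

namespace Crest.Agent.R017.E4Df372

open Crest.Agent.R012 Crest.Agent.R012.Eis Crest.Agent.R012.GaussLoc283
open Crest.Agent.R012.Mob705 hiding pb mem_pb
open Crest.Agent.R012.Div277
open Crest.Agent.R012.LS2 (S mem_S)
open Crest.Agent.R017.Sx545 (Sm)
open Crest.Agent.R017.CM106
open Crest.Agent.R017.C70 (OKJ)
open Crest.Agent.R017.E2440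
open Crest.Agent.R017.End699 (HC)
open Crest.Agent.R017.E5P571 (MS Gd mem_Gd PC BB)
open Crest.Agent.R017.E5B71
open Crest.Agent.R017.B770 (DPar)
open Crest.Agent.R017.Prov71 (Pq)
open Crest.Agent.R017.FE47 (SM)
open Crest.Agent.R017.ExP960
open Crest.Agent.R017.E4D164 hiding E4L
open Crest.Agent.R017.E4U164 (QK mem_QK MS_zero)

open Classical in
/-- the weight `V (nm k / K)` off the set `flt` -/
def PhF (flt : Eis → Prop) (V : ℝ → ℂ) (K : ℝ) (k : Eis) : ℂ :=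
  if flt k then 0 else V ((nm k : ℝ) / K)

lemma PhF_van {flt : Eis → Prop} {V : ℝ → ℂ} {K : ℝ} (hK : 0 < K) (hV : ∀ y, 1 < y → V y = 0)
    (k : Eis) (hk : K < nm k) : PhF flt V K k = 0 := by
  unfold PhF
  split_ifs with h
  · rfl
  · exact hV _ ((one_lt_div hK).mpr hk)

lemma V1f_PhF (flt : Eis → Prop) (V : ℝ → ℂ) (K : ℝ) (k : Eis) :
    V1f (PhF flt V K) K k = PhF flt (V1 V) K k := by
  unfold V1f PhF V1
  split_ifs with h
  · simp
  · rfl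

variable {Λ : Type*} {ι : Type*} [Fintype ι] {κ : Type*}

open Classical in
/-- **960's structured middle term through `E4Lf`** -/
theorem midX_K {π : Λ → DPar} {h : ℝ → ℝ} {Sf : SFX Λ} {lam : Λ × Eis} {a : BdX}
    {ps : List Pq}
    (hP : (π lam.1).OK) {R : ℝ} (hR : 0 < R) (hU : ∀ y, R < y → (π lam.1).U y = 0)
    (cst : ℂ) {T : Finset (ι → Eis)} (hT : ∀ β ∈ T, IsPrim (∏ i, β i)) {E0 : ℝ} (hE0 : 0 ≤ E0)
    {J : Finset (Eis × Eis)} (hJ : OKJ J)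
    {tx : (ι → Eis) → Eis → Eis × Eis → ℂ}
    (htx : ∀ β ∈ T, ∀ e₀, ∀ x ∈ J, tx β e₀ x ≠ 0 → IsCoprime x.2 x.1)
    {flt : Eis → Prop}
    (hSf : ∀ k, IsPrim k → Sf.at lam a k = if flt k then 0 else cst * SG T E0 J tx k)
    (I : Finset κ) (cc : κ → ℂ) {b₁ : Eis → ℂ} {b₂ : κ → Eis → ℂ} (h₁ : FS b₁)
    (h₂ : ∀ i, FS (b₂ i))
    (hb₁ : ∀ k, IsPrim k → PC h ((amL ps).map (Pt (π lam.1) lam.2)) k = CS b₁ k)
    (hb₂ : ∀ k, IsPrim k → BXm h (π lam.1) lam.2 a ps k = ∑ i ∈ I, cc i * CS (b₂ i) k)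
    {N₁ N₂ : ℕ}
    (hN₁ : ∀ g e₀ t, IsPrim g → g ∣ a.d₃ → IsPrim e₀ → IsPrim t → (nm e₀ : ℝ) ≤ E0 →
      (∃ β ∈ T, t ∣ tS (a.e * ∏ i, β i)) →
      ∀ i ∈ (QK a.toBd (R * Real.exp a.l)) ×ˢ J,
        nm (XI jD (jJ (sE (fun q => q ^ 2 * g) e₀ t)) i) ≤ N₁)
    (hN₂ : ∀ i ∈ I, ∀ n m, b₁ n ≠ 0 → b₂ i m ≠ 0 → nm (n * m ^ 2) ≤ N₂) :
    ∃ ε : κ → Eis → Eis → ℂ, (∀ i g q, ‖ε i g q‖ = 1) ∧
    MidX π h Sf lam a ps ≤
      ∑ i ∈ I, ∑ g ∈ Gd (π lam.1).n a.d₃,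
      ‖cc i * cst‖ * ∑ β ∈ T, ∑ e₀ ∈ S E0, ∑ t ∈ Gd (π lam.1).n (tS (a.e * ∏ i, β i)),
        ∑ c₀ ∈ C4, ∑ g' ∈ MC (π lam.1).n₃ N₁, ∑ z ∈ MC (π lam.1).n₃ N₂,
          (R * Real.exp a.l : ℝ) ^ (-(2 / 3) : ℝ) *
          ‖ELf (π lam.1).n₃ (fun k => conj ((π lam.1).χ₃ k)) (π lam.1).l₃
            (PhF flt (Vt (π lam.1).U a.τ R (R * Real.exp a.l)) (R * Real.exp a.l))
            (R * Real.exp a.l)
            (QK a.toBd (R * Real.exp a.l)) (fun q => q ^ 2 * g) (ε i g) J (tx β)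
            b₁ (b₂ i) (h₁.fin.toFinset ×ˢ (h₂ i).fin.toFinset)
            (a.e * ∏ i, β i) e₀ t c₀ g' z‖ := by
  set P := π lam.1 with hPdef
  set K : ℝ := R * Real.exp a.l with hKdef
  have hK : 0 < K := mul_pos hR (Real.exp_pos _)
  by_cases hcond : a.ok ∧ lam.2 ∈ SM (π lam.1).n ∧ a.okP (π lam.1)
  swap
  · refine ⟨fun _ _ _ => 1, fun _ _ _ => norm_one, ?_⟩
    unfold MidX
    rw [if_neg hcond]
    exact Finset.sum_nonneg fun _ _ => Finset.sum_nonneg fun _ _ => by positivity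
  obtain ⟨hok, hSM, hokP⟩ := hcond
  have hψ : HC P.n₃ (fun k => conj (P.χ₃ k)) := hP.χ₃.conj
  have hn : ∀ p : Eis, Prime p → p ∣ P.n → p ∣ P.n₃ := fun p hp hd => (hP.rad p hp).mpr hd
  have hn0 : P.n ≠ 0 := hP.φ.q0
  have hV : ∀ y, 1 < y → Vt P.U a.τ R K y = 0 := by
    intro y hy
    unfold Vt
    rw [hU _ (by nlinarith), mul_zero]
  have hΦ : ∀ k, K < nm k → PhF flt (Vt P.U a.τ R K) K k = 0 := PhF_van hK hV
  have hWt : ∀ k,
      Wt P a.toBd k = End699.tw (fun k => conj (P.χ₃ k)) P.l₃ k *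
        Vt P.U a.τ R K ((nm k : ℝ) / K) := by
    intro k
    unfold Wt SU770.DPar.wp End699.tw Vt
    have e1 : K * ((nm k : ℝ) / K) = nm k := by field_simp
    have e2 : R * ((nm k : ℝ) / K) = (nm k : ℝ) / Real.exp a.l := by
      rw [hKdef]
      field_simp
    rw [e1, e2]
    push_cast
    ring
  have hWb : ∀ k, Wt P a.toBd k ≠ 0 → nm k ≤ ⌊K⌋₊ := by
    intro k hk
    refine Nat.le_floor ?_
    by_contra hc
    apply hk
    rw [hWt, hV _ ((one_lt_div hK).mpr (not_le.mp hc)), mul_zero]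
  have he : IsPrim a.e := hokP.1.1
  have hq : ∀ q ∈ QK a.toBd K, IsPrim q := fun q hq =>
    (hokP.2.2 q (mem_QK.mp hq).1).1.1
  have hd3 : a.d₃ ≠ 0 := hok.base.2.2
  have key : ∀ (i : κ) (g : Eis), ∃ ε : Eis → ℂ, (∀ q, ‖ε q‖ = 1) ∧ (i ∈ I → g ∈ Gd P.n a.d₃ →
      ∑ q ∈ QK a.toBd K,
        ‖MS P.n (Wt P a.toBd) a.e (fun k => (cc i * CS (b₂ i) k) * (Sf.at lam a k *
          conj (PC h ((amL ps).map (Pt P lam.2)) k))) (q ^ 2 * g)‖ ≤
      ‖cc i * cst‖ * ∑ β ∈ T, ∑ e₀ ∈ S E0, ∑ t ∈ Gd P.n (tS (a.e * ∏ i, β i)),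
        ∑ c₀ ∈ C4, ∑ g' ∈ MC P.n₃ N₁, ∑ z ∈ MC P.n₃ N₂, (K : ℝ) ^ (-(2 / 3) : ℝ) *
          ‖ELf P.n₃ (fun k => conj (P.χ₃ k)) P.l₃ (PhF flt (Vt P.U a.τ R K) K) K
            (QK a.toBd K) (fun q => q ^ 2 * g) ε J (tx β) b₁ (b₂ i)
            (h₁.fin.toFinset ×ˢ (h₂ i).fin.toFinset)
            (a.e * ∏ i, β i) e₀ t c₀ g' z‖) := by
    intro i g
    by_cases hig : i ∈ I ∧ g ∈ Gd P.n a.d₃
    · obtain ⟨hi, hg⟩ := hig
      have hgm := (mem_Gd hd3).mp hg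
      obtain ⟨ε, h1, h2⟩ := mid_E4Lf (B := Eis) hn hn0 hψ P.l₃ hK hΦ he
        (Q := QK a.toBd K) (s := fun q => q ^ 2 * g)
        (fun q hq' => ((hq q hq').pow 2).mul hgm.1.1) (cc i * cst) hT hE0 hJ htx h₁ (h₂ i)
        (W := Wt P a.toBd) (F := fun k => (cc i * CS (b₂ i) k) * (Sf.at lam a k *
          conj (PC h ((amL ps).map (Pt P lam.2)) k)))
        (fun k hk _ => by
          rw [hWt, hSf k hk, hb₁ k hk]
          unfold PhF
          split_ifs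
          · simp
          · ring)
        (N₁ := N₁)
        (N₂ := N₂) (fun e₀ t he₀ ht hle hex i hi =>
          hN₁ g e₀ t hgm.1.1 hgm.2.2 he₀ ht hle hex i hi) (hN₂ i hi)
      exact ⟨ε, h1, fun _ _ => h2⟩
    · exact ⟨fun _ => 1, fun _ => norm_one, fun h h' => absurd ⟨h, h'⟩ hig⟩
  choose ε h1 h2 using key
  refine ⟨ε, h1, ?_⟩
  have h3 : ∀ s : Eis, ‖MS P.n (Wt P a.toBd) a.e (fun k => Sf.at lam a k *
      (BXm h P lam.2 a ps k * conj (PC h ((amL ps).map (Pt P lam.2)) k))) s‖ ≤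
      ∑ i ∈ I, ‖MS P.n (Wt P a.toBd) a.e (fun k => (cc i * CS (b₂ i) k) * (Sf.at lam a k *
          conj (PC h ((amL ps).map (Pt P lam.2)) k))) s‖ := by
    intro s
    have e1 : MS P.n (Wt P a.toBd) a.e (fun k => Sf.at lam a k *
        (BXm h P lam.2 a ps k * conj (PC h ((amL ps).map (Pt P lam.2)) k))) s =
        MS P.n (Wt P a.toBd) a.e (fun k => (∑ i ∈ I, cc i * CS (b₂ i) k) * (Sf.at lam a k *
          conj (PC h ((amL ps).map (Pt P lam.2)) k))) s :=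
      MS_congr (fun k hk => by rw [hb₂ k hk]; ring) s
    rw [e1, E5L770.MS_sum hWb I (fun i k => cc i * CS (b₂ i) k)]
    exact norm_sum_le _ _
  have hsub : QK a.toBd K ⊆ a.𝒟.filter (fun q => IsCoprime q a.d₃) := by
    intro q hq'
    rw [mem_QK] at hq'
    exact mem_filter.mpr ⟨hq'.1, hq'.2.1⟩
  unfold MidX
  rw [if_pos ⟨hok, hSM, hokP⟩]
  calc ∑ q ∈ a.𝒟.filter (fun q => IsCoprime q a.d₃), ∑ g ∈ Gd P.n a.d₃,
      ‖MS P.n (Wt P a.toBd) a.e (fun k => Sf.at lam a k *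
        (BXm h P lam.2 a ps k * conj (PC h ((amL ps).map (Pt P lam.2)) k))) (q ^ 2 * g)‖ =
      ∑ q ∈ QK a.toBd K, ∑ g ∈ Gd P.n a.d₃,
      ‖MS P.n (Wt P a.toBd) a.e (fun k => Sf.at lam a k *
        (BXm h P lam.2 a ps k * conj (PC h ((amL ps).map (Pt P lam.2)) k))) (q ^ 2 * g)‖ := by
        symm
        refine Finset.sum_subset hsub fun q hq1 hq2 => ?_
        rw [mem_filter] at hq1
        refine Finset.sum_eq_zero fun g _ => ?_
        rw [norm_eq_zero]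
        refine MS_zero fun k hk hkn hdk => ?_
        rw [hWt, hV, mul_zero]
        rw [one_lt_div hK]
        have hqp : IsPrim q := (hokP.2.2 q hq1.1).1.1
        have h3 : K < (nm q : ℝ) ^ 2 := by
          by_contra hle
          exact hq2 (mem_QK.mpr ⟨hq1.1, hq1.2, not_lt.mp hle⟩)
        have h4 : nm (q ^ 2) ≤ nm k := nm_le_of_dvd hk.ne_zero ((dvd_mul_right _ _).trans hdk)
        rw [nm_pow] at h4
        have h5 : (nm q : ℝ) ^ 2 ≤ nm k := by exact_mod_cast h4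
        linarith
    _ ≤ ∑ q ∈ QK a.toBd K, ∑ g ∈ Gd P.n a.d₃, ∑ i ∈ I,
        ‖MS P.n (Wt P a.toBd) a.e (fun k => (cc i * CS (b₂ i) k) * (Sf.at lam a k *
          conj (PC h ((amL ps).map (Pt P lam.2)) k))) (q ^ 2 * g)‖ :=
        Finset.sum_le_sum fun q _ => Finset.sum_le_sum fun g _ => h3 _
    _ = ∑ i ∈ I, ∑ g ∈ Gd P.n a.d₃, ∑ q ∈ QK a.toBd K,
        ‖MS P.n (Wt P a.toBd) a.e (fun k => (cc i * CS (b₂ i) k) * (Sf.at lam a k *
          conj (PC h ((amL ps).map (Pt P lam.2)) k))) (q ^ 2 * g)‖ := by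
        rw [Finset.sum_comm]
        rw [Finset.sum_congr rfl fun g _ => Finset.sum_comm, Finset.sum_comm]
    _ ≤ _ := Finset.sum_le_sum fun i hi => Finset.sum_le_sum fun g hg => h2 i g hi hg

end Crest.Agent.R017.E4Df372
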