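import Crest.Agent.R017.P1h_54

/-!
# Row 17, exceptional class, P1 for a combination of two families (helper960)

54's `err_mulT`, `err_leT`, `err_listT` for `z (∏ CS f₁ - c S₁) + w (∏ CS f₂ - c S₂)`, both with the
same amplifier pieces; the window of the structured functions depends on `β` (`SSo`).

* `cmb` : combination of two sequences;  `rhX`, `TmX` : the sequences of the product
* `err_mulX`, `err_leX`, `err_listX`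
-/

set_option autoImplicit false

noncomputable section

open Finset
open scoped ComplexConjugate

namespace Crest.Agent.R017.P1X960

open Crest.Agent.R012 Crest.Agent.R012.Eis Crest.Agent.R012.Div277
open Crest.Agent.R012.Mob705 hiding pb mem_pb
open Crest.Agent.R012.LS2 (S mem_S)
open Crest.Agent.R017.CM106 Crest.Agent.R017.C70
open Crest.Agent.R017.StC828 (SqS cvc)
open Crest.Agent.R017.StD828 (ln Tm)
open Crest.Agent.R017.E2440 (TE StE)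
open Crest.Agent.R017.E3A164 (SteT)
open Crest.Agent.R017.E5k54 (PT alb SS)
open Crest.Agent.R017.P1e54 Crest.Agent.R017.P1f54 Crest.Agent.R017.SSb54 Crest.Agent.R017.P1h54
open Crest.Agent.R017.HP842 (Pc pc al cv Tu mem_Tu scS sc' sqc Th)
open Crest.Agent.R017.Rough381 (sh)
open Crest.Agent.R017.End699 (prin0)

/-! ### combinations -/

/-- combination of two sequences -/
def cmb (z w : ℂ) (a b : Eis → ℂ) : Eis → ℂ := z • a + w • b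

lemma FS_cmb {a b : Eis → ℂ} (ha : FS a) (hb : FS b) (z w : ℂ) : FS (cmb z w a b) :=
  StC828.FS_add (StC828.FS_smul ha z) (StC828.FS_smul hb w)

lemma CS_cmb {a b : Eis → ℂ} (ha : FS a) (hb : FS b) (z w : ℂ) (k : Eis) :
    CS (cmb z w a b) k = z * CS a k + w * CS b k := by
  unfold cmb
  rw [StC828.CS_add (StC828.FS_smul ha z) (StC828.FS_smul hb w), StC828.CS_smul', StC828.CS_smul']

lemma TE_cmb {a b : Eis → ℂ} (ha : FS a) (hb : FS b) (z w : ℂ) {x : Eis × Eis} (hx : x.1 ≠ 0)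
    (e : Eis) : TE (cmb z w a b) x e = z * TE a x e + w * TE b x e := by
  unfold cmb
  rw [StC828.TE_add (StC828.FS_smul ha z) (StC828.FS_smul hb w) hx, StC828.TE_smul,
    StC828.TE_smul]

lemma StE_cmb {a b : Eis → ℂ} (ha : FS a) (hb : FS b) (z w : ℂ) (E0 : ℝ)
    {J : Finset (Eis × Eis)} (hJ : ∀ x ∈ J, x.1 ≠ 0) (om : Eis × Eis → ℂ) (k : Eis) :
    StE E0 J om (cmb z w a b) k = z * StE E0 J om a k + w * StE E0 J om b k := by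
  unfold StE
  rw [mul_sum, mul_sum, ← sum_add_distrib]
  refine sum_congr rfl fun x hx => ?_
  have e1 : ∀ e, (mu e : ℂ) * TE (cmb z w a b) x e =
      z * ((mu e : ℂ) * TE a x e) + w * ((mu e : ℂ) * TE b x e) := by
    intro e
    rw [TE_cmb ha hb z w (hJ x hx)]
    ring
  simp_rw [e1]
  rw [sum_add_distrib, ← mul_sum, ← mul_sum]
  ring

lemma SteT_cmb (J : Finset (Eis × Eis)) (om : Eis × Eis → ℂ) (E0 : ℝ)
    (T₁ T₂ : Eis → Eis → Eis → ℂ) (z w : ℂ) (k : Eis) :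
    SteT J om E0 (fun d e j => z * T₁ d e j + w * T₂ d e j) k =
      z * SteT J om E0 T₁ k + w * SteT J om E0 T₂ k := by
  unfold SteT
  rw [mul_sum, mul_sum, ← sum_add_distrib]
  refine sum_congr rfl fun x _ => ?_
  have e1 : ∀ e, (muE e : ℂ) * (z * T₁ x.1 e x.2 + w * T₂ x.1 e x.2) =
      z * ((muE e : ℂ) * T₁ x.1 e x.2) + w * ((muE e : ℂ) * T₂ x.1 e x.2) := by
    intro e
    ring
  simp_rw [e1]
  rw [sum_add_distrib, ← mul_sum, ← mul_sum]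
  ring

lemma Er_cmb {a b : Eis → ℂ} (ha : FS a) (hb : FS b) (z w : ℂ) (c : ℂ) (E0 : ℝ)
    {J : Finset (Eis × Eis)} (hJ : ∀ x ∈ J, x.1 ≠ 0) (om : Eis × Eis → ℂ) (k : Eis) :
    Er c E0 J om (cmb z w a b) k = z * Er c E0 J om a k + w * Er c E0 J om b k := by
  unfold Er
  rw [CS_cmb ha hb, StE_cmb ha hb z w E0 hJ]
  ring

/-! ### own windows -/

/-- the structured function over `T`, own weight for every `β` -/
def SSo {κ : Type*} [Fintype κ] (T : Finset (κ → Eis)) (f : κ → Eis → ℂ) (E0 : ℝ)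
    (J : Finset (Eis × Eis)) (om : (κ → Eis) → Eis × Eis → ℂ) (k : Eis) : ℂ :=
  ∑ β ∈ T, sy k (∏ i, β i) * StE E0 J (om β) (alb f β) k

lemma SSo_const {κ : Type*} [Fintype κ] (T : Finset (κ → Eis)) (f : κ → Eis → ℂ) (E0 : ℝ)
    (J : Finset (Eis × Eis)) (om : Eis × Eis → ℂ) (k : Eis) :
    SSo T f E0 J (fun _ => om) k = SST T f E0 J om k := rfl

/-! ### the sequences of the product -/

variable {ι κ : Type*} [Fintype ι] [Fintype κ]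

open Classical in
theorem prod_subo {f : κ → Eis → ℂ} {Y : ℕ} (hf : ∀ i m, f i m ≠ 0 → IsPrim m ∧ nm m ≤ Y)
    {T : Finset (κ → Eis)} (hT : T ⊆ PT κ Y) (c : ℂ) (E0 : ℝ) (J : Finset (Eis × Eis))
    (om : (κ → Eis) → Eis × Eis → ℂ) (k : Eis) :
    ∏ i, CS (f i) k - c * SSo T f E0 J om k =
      ∑ β ∈ PT κ Y, sy k (∏ i, β i) *
        (CS (alb f β) k - cT T c β * StE E0 J (om β) (alb f β) k) := by
  have h1 : SSo T f E0 J om k = ∑ β ∈ PT κ Y, (if β ∈ T then (1 : ℂ) else 0) *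
      (sy k (∏ i, β i) * StE E0 J (om β) (alb f β) k) := by
    unfold SSo
    have h2 : ∀ β ∈ PT κ Y, (if β ∈ T then (1 : ℂ) else 0) *
        (sy k (∏ i, β i) * StE E0 J (om β) (alb f β) k) =
        if β ∈ T then sy k (∏ i, β i) * StE E0 J (om β) (alb f β) k else 0 := by
      intro β _
      split_ifs <;> simp
    rw [Finset.sum_congr rfl h2, ← Finset.sum_filter, Finset.filter_mem_eq_inter,
      Finset.inter_eq_right.2 hT]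
  rw [E554.prod_CS hf, h1, Finset.mul_sum]
  unfold PT cT
  rw [← Finset.sum_sub_distrib]
  refine sum_congr rfl fun β _ => ?_
  unfold alb
  split_ifs <;> ring

theorem err_mulo {f : κ → Eis → ℂ} {fa : ι → Eis → ℂ} {Y : ℕ} {Zf : κ → ℝ} {Za : ι → ℝ} {Z : ℝ}
    (hf : ∀ i m, f i m ≠ 0 → IsPrim m ∧ nm m ≤ Y) (hfa : ∀ i m, fa i m ≠ 0 → IsPrim m ∧ nm m ≤ Y)
    (hf' : ∀ i m, f i m ≠ 0 → IsPrim m ∧ (nm m : ℝ) ≤ Zf i)
    (hfa' : ∀ i m, fa i m ≠ 0 → IsPrim m ∧ (nm m : ℝ) ≤ Za i) (hZ : ∏ i, Za i ≤ Z) (hZ0 : 0 ≤ Z)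
    {D Y₀ Y₁ D' Y₀' Y₁' : ℝ} (hD : 0 ≤ D) (h0 : Y₀ < 1) (hY1 : 0 ≤ Y₁) (h1 : Y₁ ≤ D ^ 2)
    (hD' : 0 ≤ D') (h0' : Y₀' < 1) (h1' : Y₁' ≤ D' ^ 2) (hYY : Y₁ * Z ^ 2 ≤ Y₁')
    {o : (κ → Eis) → Eis → ℂ} (ho : ∀ β z, o β z ≠ 0 → (nm z : ℝ) ≤ Y₁) {E0 : ℝ} (hE : 0 ≤ E0)
    {T : Finset (κ → Eis)} (hT : T ⊆ PT κ Y) (c : ℂ) (k : Eis) :
    (∏ i, CS (fa i) k) *
        (∏ j, CS (f j) k - c * SSo T f E0 (JW D Y₀ Y₁) (fun β x => o β (ln x)) k) =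
      ∑ β ∈ PT κ Y, ∑ γ ∈ PT ι Y, ∑ g ∈ S Z, sy k (∏ j, β j) * sy k (∏ i, γ i) *
        (sy k g * (sy k g * (CS (rho Z f fa β γ g) k -
          cT T c β * StE E0 (JW D Y₀ Y₁) (fun x => o β (ln x)) (rho Z f fa β γ g) k) -
          cT T c β * SteT (JW D' Y₀' Y₁') (fun _ => 1) (E0 * Z)
            (Tm E0 Z (o β) (alb fa γ) (alb f β) g) k)) := by
  classical
  rw [prod_subo hf hT]
  have e1 : ∏ i, CS (fa i) k = ∑ γ ∈ PT ι Y, sy k (∏ i, γ i) * CS (alb fa γ) k := by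
    rw [E554.prod_CS hfa]; rfl
  rw [e1, Finset.sum_mul_sum, Finset.sum_comm]
  refine sum_congr rfl fun β hβ => sum_congr rfl fun γ hγ => ?_
  have h2 := StD828.mul_hyb hZ0 (η := alb fa γ) (fun a ha => alb_mem_S hfa' (mem_PT hγ) hZ hZ0 ha)
    (FS_alb hf' (mem_PT hβ)) (SqS_alb f β) k hD h0 hY1 h1 hD' h0' h1' hYY (ho β) hE (cT T c β)
  calc sy k (∏ i, γ i) * CS (alb fa γ) k * (sy k (∏ j, β j) * (CS (alb f β) k -
        cT T c β * StE E0 (JW D Y₀ Y₁) (fun x => o β (ln x)) (alb f β) k))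
      = sy k (∏ j, β j) * sy k (∏ i, γ i) * (CS (alb fa γ) k * (CS (alb f β) k -
        cT T c β * StE E0 (JW D Y₀ Y₁) (fun x => o β (ln x)) (alb f β) k)) := by ring
    _ = _ := by
        rw [h2, Finset.mul_sum]
        rfl

/-- the sequence of the product -/
def rhX (z w : ℂ) (Z : ℝ) (f₁ f₂ : κ → Eis → ℂ) (fa : ι → Eis → ℂ) (β : κ → Eis) (γ : ι → Eis)
    (g : Eis) : Eis → ℂ := cmb z w (rho Z f₁ fa β γ g) (rho Z f₂ fa β γ g)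

/-- the coefficient of the mismatch -/
def TmX (z w : ℂ) (E0 Y : ℝ) (o : Eis → ℂ) (η α₁ α₂ : Eis → ℂ) (g d e j : Eis) : ℂ :=
  z * Tm E0 Y o η α₁ g d e j + w * Tm E0 Y o η α₂ g d e j

lemma FS_rho {f : κ → Eis → ℂ} (fa : ι → Eis → ℂ) {Zf : κ → ℝ} {Z : ℝ} (hZ0 : 0 ≤ Z)
    (hf' : ∀ i m, f i m ≠ 0 → IsPrim m ∧ (nm m : ℝ) ≤ Zf i) {β : κ → Eis}
    (hβ : ∀ i, IsPrim (β i)) (γ : ι → Eis) {g : Eis} (hg : IsPrim g) : FS (rho Z f fa β γ g) :=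
  StC828.FS_cvc hZ0 _ ((FS_alb hf' hβ).sub hg)

theorem err_mulX {f₁ f₂ : κ → Eis → ℂ} {fa : ι → Eis → ℂ} {Y : ℕ} {Zf : κ → ℝ} {Za : ι → ℝ} {Z : ℝ}
    (hf₁ : ∀ i m, f₁ i m ≠ 0 → IsPrim m ∧ nm m ≤ Y) (hf₂ : ∀ i m, f₂ i m ≠ 0 → IsPrim m ∧ nm m ≤ Y)
    (hfa : ∀ i m, fa i m ≠ 0 → IsPrim m ∧ nm m ≤ Y)
    (hf₁' : ∀ i m, f₁ i m ≠ 0 → IsPrim m ∧ (nm m : ℝ) ≤ Zf i)
    (hf₂' : ∀ i m, f₂ i m ≠ 0 → IsPrim m ∧ (nm m : ℝ) ≤ Zf i)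
    (hfa' : ∀ i m, fa i m ≠ 0 → IsPrim m ∧ (nm m : ℝ) ≤ Za i) (hZ : ∏ i, Za i ≤ Z) (hZ0 : 0 ≤ Z)
    {D Y₀ Y₁ D' Y₀' Y₁' : ℝ} (hD : 0 ≤ D) (h0 : Y₀ < 1) (hY1 : 0 ≤ Y₁) (h1 : Y₁ ≤ D ^ 2)
    (hD' : 0 ≤ D') (h0' : Y₀' < 1) (h1' : Y₁' ≤ D' ^ 2) (hYY : Y₁ * Z ^ 2 ≤ Y₁') {o : (κ → Eis) → Eis → ℂ}
    (ho : ∀ β z, o β z ≠ 0 → (nm z : ℝ) ≤ Y₁) {E0 : ℝ} (hE : 0 ≤ E0)
    {T : Finset (κ → Eis)} (hT : T ⊆ PT κ Y) (z w c : ℂ) (k : Eis) :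
    (∏ i, CS (fa i) k) *
        (z * (∏ j, CS (f₁ j) k - c * SSo T f₁ E0 (JW D Y₀ Y₁) (fun β x => o β (ln x)) k) +
          w * (∏ j, CS (f₂ j) k - c * SSo T f₂ E0 (JW D Y₀ Y₁) (fun β x => o β (ln x)) k)) =
      ∑ β ∈ PT κ Y, ∑ γ ∈ PT ι Y, ∑ g ∈ S Z, sy k (∏ j, β j) * sy k (∏ i, γ i) *
        (sy k g * (sy k g * (CS (rhX z w Z f₁ f₂ fa β γ g) k -
          cT T c β * StE E0 (JW D Y₀ Y₁) (fun x => o β (ln x)) (rhX z w Z f₁ f₂ fa β γ g) k) -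
          cT T c β * SteT (JW D' Y₀' Y₁') (fun _ => 1) (E0 * Z)
            (TmX z w E0 Z (o β) (alb fa γ) (alb f₁ β) (alb f₂ β) g) k)) := by
  have e1 := err_mulo hf₁ hfa hf₁' hfa' hZ hZ0 hD h0 hY1 h1 hD' h0' h1' hYY ho hE hT c k
  have e2 := err_mulo hf₂ hfa hf₂' hfa' hZ hZ0 hD h0 hY1 h1 hD' h0' h1' hYY ho hE hT c k
  rw [mul_add, mul_left_comm, mul_left_comm _ w, e1, e2, mul_sum, mul_sum, ← sum_add_distrib]
  refine sum_congr rfl fun β hβ => ?_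
  rw [mul_sum, mul_sum, ← sum_add_distrib]
  refine sum_congr rfl fun γ hγ => ?_
  rw [mul_sum, mul_sum, ← sum_add_distrib]
  refine sum_congr rfl fun g hg => ?_
  have hg' := ((mem_S hZ0).1 hg).2.1
  have F1 := FS_rho fa hZ0 hf₁' (mem_PT hβ) γ hg'
  have F2 := FS_rho fa hZ0 hf₂' (mem_PT hβ) γ hg'
  have e3 : SteT (JW D' Y₀' Y₁') (fun _ => 1) (E0 * Z)
      (TmX z w E0 Z (o β) (alb fa γ) (alb f₁ β) (alb f₂ β) g) k =
      z * SteT (JW D' Y₀' Y₁') (fun _ => 1) (E0 * Z) (Tm E0 Z (o β) (alb fa γ) (alb f₁ β) g) k +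
      w * SteT (JW D' Y₀' Y₁') (fun _ => 1) (E0 * Z) (Tm E0 Z (o β) (alb fa γ) (alb f₂ β) g) k :=
    SteT_cmb _ _ _ _ _ z w k
  unfold rhX
  rw [e3, CS_cmb F1 F2, StE_cmb F1 F2 z w E0
    (fun x hx => ((okJ_JW D Y₀ Y₁).prim x hx).ne_zero)]
  ring

/-- **the second moment of the amplified error** -/
theorem err_leX (ι κ : Type*) [Fintype ι] [Fintype κ] {δ : ℝ} (hδ : 0 < δ) :
    ∃ C : ℝ, 0 ≤ C ∧ ∀ {f₁ f₂ : κ → Eis → ℂ} {fa : ι → Eis → ℂ} {Y : ℕ} {Zf : κ → ℝ} {Za : ι → ℝ}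
      {Z : ℝ}, (∀ i m, f₁ i m ≠ 0 → IsPrim m ∧ nm m ≤ Y) →
      (∀ i m, f₂ i m ≠ 0 → IsPrim m ∧ nm m ≤ Y) →
      (∀ i m, fa i m ≠ 0 → IsPrim m ∧ nm m ≤ Y) →
      (∀ i m, f₁ i m ≠ 0 → IsPrim m ∧ (nm m : ℝ) ≤ Zf i) →
      (∀ i m, f₂ i m ≠ 0 → IsPrim m ∧ (nm m : ℝ) ≤ Zf i) →
      (∀ i m, fa i m ≠ 0 → IsPrim m ∧ (nm m : ℝ) ≤ Za i) → ∏ i, Za i ≤ Z → 0 ≤ Z →
      ∀ {D Y₀ Y₁ D' Y₀' Y₁' : ℝ}, 0 ≤ D → Y₀ < 1 → 0 ≤ Y₁ → Y₁ ≤ D ^ 2 → 0 ≤ D' → Y₀' < 1 →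
      Y₁' ≤ D' ^ 2 → Y₁ * Z ^ 2 ≤ Y₁' → ∀ {o : (κ → Eis) → Eis → ℂ},
      (∀ β z, o β z ≠ 0 → (nm z : ℝ) ≤ Y₁) →
      ∀ {E0 : ℝ}, 0 ≤ E0 → ∀ {T : Finset (κ → Eis)}, T ⊆ PT κ Y →
      ∀ (z w c : ℂ) {u : Eis → ℝ}, (∀ k, 0 ≤ u k) →
      (Function.support u).Finite →
      M2 u (fun k => (∏ i, CS (fa i) k) *
        (z * (∏ j, CS (f₁ j) k - c * SSo T f₁ E0 (JW D Y₀ Y₁) (fun β x => o β (ln x)) k) +
          w * (∏ j, CS (f₂ j) k - c * SSo T f₂ E0 (JW D Y₀ Y₁) (fun β x => o β (ln x)) k))) ≤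
      C * ∑ β ∈ PT κ Y, ∑ γ ∈ PT ι Y, ∑ g ∈ S Z, (wt δ β γ g)⁻¹ *
        (M2 u (fun k => CS (rhX z w Z f₁ f₂ fa β γ g) k -
            cT T c β * StE E0 (JW D Y₀ Y₁) (fun x => o β (ln x)) (rhX z w Z f₁ f₂ fa β γ g) k) +
          ‖cT T c β‖ ^ 2 * M2 u (SteT (JW D' Y₀' Y₁') (fun _ => 1) (E0 * Z)
            (TmX z w E0 Z (o β) (alb fa γ) (alb f₁ β) (alb f₂ β) g))) := by
  classical
  obtain ⟨C, hC, hw⟩ := sum_wt_le ι κ hδ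
  refine ⟨C * 2, by positivity, ?_⟩
  intro f₁ f₂ fa Y Zf Za Z hf₁ hf₂ hfa hf₁' hf₂' hfa' hZ hZ0 D Y₀ Y₁ D' Y₀' Y₁' hD h0 hY1 h1 hD' h0'
    h1' hYY o ho E0 hE T hT z w c u hu0 hu
  set U : Finset ((κ → Eis) × (ι → Eis) × Eis) := PT κ Y ×ˢ (PT ι Y ×ˢ S Z) with hU
  set x : (κ → Eis) × (ι → Eis) × Eis → Eis → ℂ := fun t k =>
    sy k (∏ j, t.1 j) * sy k (∏ i, t.2.1 i) *
        (sy k t.2.2 * (sy k t.2.2 * (CS (rhX z w Z f₁ f₂ fa t.1 t.2.1 t.2.2) k -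
          cT T c t.1 * StE E0 (JW D Y₀ Y₁) (fun x => o t.1 (ln x))
            (rhX z w Z f₁ f₂ fa t.1 t.2.1 t.2.2) k) -
          cT T c t.1 * SteT (JW D' Y₀' Y₁') (fun _ => 1) (E0 * Z)
            (TmX z w E0 Z (o t.1) (alb fa t.2.1) (alb f₁ t.1) (alb f₂ t.1) t.2.2) k)) with hx
  have e1 : (fun k => (∏ i, CS (fa i) k) *
        (z * (∏ j, CS (f₁ j) k - c * SSo T f₁ E0 (JW D Y₀ Y₁) (fun β x => o β (ln x)) k) +
          w * (∏ j, CS (f₂ j) k - c * SSo T f₂ E0 (JW D Y₀ Y₁) (fun β x => o β (ln x)) k))) =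
      fun k => ∑ t ∈ U, x t k := by
    funext k
    rw [err_mulX hf₁ hf₂ hfa hf₁' hf₂' hfa' hZ hZ0 hD h0 hY1 h1 hD' h0' h1' hYY ho hE hT z w c k,
      hU, sum_product]
    refine sum_congr rfl fun β _ => ?_
    rw [sum_product]
  have hW : ∀ t ∈ U, 0 < wt δ t.1 t.2.1 t.2.2 := by
    intro t ht
    rw [hU, mem_product, mem_product] at ht
    exact wt_pos (mem_PT ht.1) (mem_PT ht.2.1) ((mem_S hZ0).1 ht.2.2).2.1
  rw [e1]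
  refine (M2_sum_le hu0 hu U x (fun t => wt δ t.1 t.2.1 t.2.2) hW).trans ?_
  have hsum : ∑ t ∈ U, wt δ t.1 t.2.1 t.2.2 ≤ C := by
    rw [hU, sum_product]
    simp_rw [sum_product]
    exact hw Y Z
  have key : ∀ t ∈ U, (wt δ t.1 t.2.1 t.2.2)⁻¹ * M2 u (x t) ≤ 2 * ((wt δ t.1 t.2.1 t.2.2)⁻¹ *
      (M2 u (fun k => CS (rhX z w Z f₁ f₂ fa t.1 t.2.1 t.2.2) k -
            cT T c t.1 * StE E0 (JW D Y₀ Y₁) (fun x => o t.1 (ln x))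
              (rhX z w Z f₁ f₂ fa t.1 t.2.1 t.2.2) k) +
          ‖cT T c t.1‖ ^ 2 * M2 u (SteT (JW D' Y₀' Y₁') (fun _ => 1) (E0 * Z)
            (TmX z w E0 Z (o t.1) (alb fa t.2.1) (alb f₁ t.1) (alb f₂ t.1) t.2.2)))) := by
    intro t ht
    have ht' := ht
    rw [hU, mem_product, mem_product] at ht'
    have g1 : IsPrim t.2.2 := ((mem_S hZ0).1 ht'.2.2).2.1
    set A := CS (rhX z w Z f₁ f₂ fa t.1 t.2.1 t.2.2) with hA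
    set B := StE E0 (JW D Y₀ Y₁) (fun x => o t.1 (ln x)) (rhX z w Z f₁ f₂ fa t.1 t.2.1 t.2.2) with hB
    set G := SteT (JW D' Y₀' Y₁') (fun _ => 1) (E0 * Z)
      (TmX z w E0 Z (o t.1) (alb fa t.2.1) (alb f₁ t.1) (alb f₂ t.1) t.2.2) with hG
    have h2 : M2 u (x t) ≤ M2 u (fun k => (sy k t.2.2 * (A k - cT T c t.1 * B k)) -
          cT T c t.1 * G k) := by
      refine M2_mono hu0 hu fun k => ?_
      rw [hx]
      simp only [norm_mul]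
      have s1 := norm_sy_le k (E554.isPrim_prod fun i (_ : i ∈ univ) => mem_PT ht'.1 i)
      have s2 := norm_sy_le k (E554.isPrim_prod fun i (_ : i ∈ univ) => mem_PT ht'.2.1 i)
      have s3 := norm_sy_le k g1
      have s12 : ‖sy k (∏ j, t.1 j)‖ * ‖sy k (∏ i, t.2.1 i)‖ ≤ 1 :=
        mul_le_one₀ s1 (norm_nonneg _) s2
      have s123 : ‖sy k (∏ j, t.1 j)‖ * ‖sy k (∏ i, t.2.1 i)‖ * ‖sy k t.2.2‖ ≤ 1 :=
        mul_le_one₀ s12 (norm_nonneg _) s3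
      rw [← mul_assoc]
      exact mul_le_of_le_one_left (norm_nonneg _) s123
    have h3 := M2_sub_le hu0 hu (fun k => sy k t.2.2 * (A k - cT T c t.1 * B k)) G (cT T c t.1)
    have h4 : M2 u (fun k => sy k t.2.2 * (A k - cT T c t.1 * B k)) ≤
        M2 u (fun k => A k - cT T c t.1 * B k) := by
      refine M2_mono hu0 hu fun k => ?_
      rw [norm_mul]
      exact mul_le_of_le_one_left (norm_nonneg _) (norm_sy_le k g1)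
    have hWi : 0 ≤ (wt δ t.1 t.2.1 t.2.2)⁻¹ := inv_nonneg.2 (hW t ht).le
    have h5 := mul_le_mul_of_nonneg_left ((h2.trans h3).trans
      (mul_le_mul_of_nonneg_left (add_le_add_left h4 _) (by norm_num : (0 : ℝ) ≤ 2))) hWi
    refine h5.trans (le_of_eq ?_)
    ring
  have hnn : 0 ≤ ∑ t ∈ U, (wt δ t.1 t.2.1 t.2.2)⁻¹ * M2 u (x t) :=
    sum_nonneg fun t ht => mul_nonneg (inv_nonneg.2 (hW t ht).le) (M2_nonneg hu0 _)
  refine (mul_le_mul hsum (sum_le_sum key) hnn hC).trans (le_of_eq ?_)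
  rw [← mul_sum, ← mul_assoc, hU, sum_product]
  congr 1
  refine sum_congr rfl fun β _ => ?_
  rw [sum_product]

end Crest.Agent.R017.P1X960
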