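import Crest.Agent.R017.E4xf_372
import Crest.Agent.R017.E5LX_770
import Crest.Agent.R017.P1X1_960

/-!
# Row 17, exceptional class, StrUX: the middle term of one level (helper372)

* `alX` : the `x`-side sequence `ph a · alb f β - ph' a · alb f' β`
* `b2X` : the two shapes of the two-lump side, `cX` their phases
* `atEV_SG` : helper770's level function through `SG`
* `midXV` : `MidX` of one level through `ELf`
-/

set_option autoImplicit false

noncomputable section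

open Finset Complex
open scoped ComplexConjugate

namespace Crest.Agent.R017.E4Df372

open Crest.Agent.R012 Crest.Agent.R012.Eis Crest.Agent.R012.GaussLoc283
open Crest.Agent.R012.Mob705 hiding pb mem_pb
open Crest.Agent.R012.Weight600 (osc norm_osc)
open Crest.Agent.R012.LS2 (S mem_S)
open Crest.Agent.R017.Sx545 (Sm)
open Crest.Agent.R017.CM106 (CS FS)
open Crest.Agent.R017.C70 (OKJ)
open Crest.Agent.R017.E2440 (TE StE)
open Crest.Agent.R017.FE47 (cx SM)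
open Crest.Agent.R017.HP842 (Pc pc)
open Crest.Agent.R017.HP842 (alL)
open Crest.Agent.R017.E5k54 (PT alb)
open Crest.Agent.R017.E5P571 (MS Gd mem_Gd PC)
open Crest.Agent.R017.E5B71
open Crest.Agent.R017.B770 (DPar)
open Crest.Agent.R017.Prov71
open Crest.Agent.R017.ExBox960 (Dp Co)
open Crest.Agent.R017.ExP960 hiding alX
open Crest.Agent.R017.E5L770 hiding alL
open Crest.Agent.R017.E5LX770 (SfEV atEV)
open Crest.Agent.R017.SSb54 (SST SSb PTb mem_PTb)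
open Crest.Agent.R017.P1X960 (cmb FS_cmb TE_cmb)
open Crest.Agent.R017.E4D164 hiding E4L
open Crest.Agent.R017.E4U164 (QK mem_QK b1 b2 f3 fs_b1 CS_b1 ok_Pt Y3 T3 T3_prim J3 okJ3)

/-! ### the arrays -/

section arrays

variable (P : DPar) (h : ℝ → ℝ) (t : Eis) (a : BdX) (ps : List Pq)

/-- the three-lump side, replaced lengths -/
def f3' (i : Fin 3) : Eis → ℂ := pc h (Pt P t (u3' a i))

/-- **the `x`-side sequence** -/
def alX (β : Fin 3 → Eis) : Eis → ℂ :=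
  cmb (ExP960.ph a) (-ExP960.ph' a) (alb (f3 P h t a.toBd) β) (alb (f3' P h t a) β)

/-- the two shapes of the two-lump side -/
def bsX : Fin 2 → List Pq :=
  ![a.us 0 :: a.us 1 :: moL ps, stz (a.us 0) (a.zs 0) :: stz (a.us 1) (a.zs 1) :: moL ps]

/-- their phases -/
def cX : Fin 2 → ℂ :=
  ![osc (a.us 0).t (-(a.us 0).z) * osc (a.us 1).t (-(a.us 1).z),
    -(osc (a.us 0).t (-a.zs 0) * osc (a.us 1).t (-a.zs 1))]

/-- the sequences of the two-lump side -/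
def b2X (i : Fin 2) : Eis → ℂ := alL h ((bsX a ps i).map (Pt P t))

variable {P h t a ps}

lemma norm_cX (i : Fin 2) : ‖cX a i‖ = 1 := by
  unfold cX
  fin_cases i
  · show ‖osc (a.us 0).t (-(a.us 0).z) * osc (a.us 1).t (-(a.us 1).z)‖ = 1
    rw [norm_mul, norm_osc, norm_osc, one_mul]
  · show ‖-(osc (a.us 0).t (-a.zs 0) * osc (a.us 1).t (-a.zs 1))‖ = 1
    rw [norm_neg, norm_mul, norm_osc, norm_osc, one_mul]

lemma b2X_zero : b2X P h t a ps 0 = b2 P h t a.toBd ps := rfl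

lemma fs_b2X (hP : P.OK) (hh : Bump h) (i : Fin 2) : FS (b2X P h t a ps i) := by
  refine fs_alL hh fun p hp => ?_
  obtain ⟨q, -, rfl⟩ := List.mem_map.1 hp
  exact ok_Pt P t hP q

lemma CS_b2X (hP : P.OK) (hh : Bump h) (i : Fin 2) (k : Eis) :
    PC h ((bsX a ps i).map (Pt P t)) k = CS (b2X P h t a ps i) k := by
  unfold b2X
  rw [CS_alL hh fun p hp => by
    obtain ⟨q, -, rfl⟩ := List.mem_map.1 hp
    exact ok_Pt P t hP q]
  rfl

/-- **the two-lump side through the two shapes** -/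
theorem BXm_eq (hP : P.OK) (hh : Bump h) (k : Eis) :
    BXm h P t a ps k = ∑ i : Fin 2, cX a i * CS (b2X P h t a ps i) k := by
  rw [Fin.sum_univ_two, ← CS_b2X hP hh, ← CS_b2X hP hh]
  have e0 : PC h ((bsX a ps 0).map (Pt P t)) k = CS (pc h (Pt P t (a.us 0))) k *
      (CS (pc h (Pt P t (a.us 1))) k * PC h ((moL ps).map (Pt P t)) k) := by
    unfold bsX PC
    simp
  have e1 : PC h ((bsX a ps 1).map (Pt P t)) k = CS (pc h (Pt P t (stz (a.us 0) (a.zs 0)))) k *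
      (CS (pc h (Pt P t (stz (a.us 1) (a.zs 1)))) k * PC h ((moL ps).map (Pt P t)) k) := by
    unfold bsX PC
    simp
  have e2 : BXm h P t a ps k =
      (osc (a.us 0).t (-Real.log (Real.exp (a.us 0).z)) * CS (pc h (Pt P t (a.us 0))) k *
          (osc (a.us 1).t (-Real.log (Real.exp (a.us 1).z)) * CS (pc h (Pt P t (a.us 1))) k) -
        osc (a.us 0).t (-Real.log (Real.exp (a.zs 0))) *
            CS (pc h (Pt P t (stz (a.us 0) (a.zs 0)))) k *
          (osc (a.us 1).t (-Real.log (Real.exp (a.zs 1))) *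
            CS (pc h (Pt P t (stz (a.us 1) (a.zs 1)))) k)) *
        PC h ((moL ps).map (Pt P t)) k := rfl
  rw [e0, e1, e2]
  simp only [Real.log_exp, cX, Matrix.cons_val_zero, Matrix.cons_val_one]
  ring

/-- bounded supports of the pieces -/
lemma pc_bd (hP : P.OK) {R : ℝ} (hR : ∀ u, cx h u ≠ 0 → |u| ≤ R) (p : Pq) (m : Eis)
    (hm : pc h (Pt P t p) m ≠ 0) : IsPrim m ∧ (nm m : ℝ) ≤ Real.exp R * Real.exp p.z :=
  HP842.pc_support hR (Real.exp_pos _) hm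

lemma fs_alb (hP : P.OK) (hh : Bump h) {β : Fin 3 → Eis} (hβ : ∀ i, IsPrim (β i)) :
    FS (alb (f3 P h t a.toBd) β) := by
  obtain ⟨R, hR⟩ := hh
  exact P1e54.FS_alb (fun i m hm => pc_bd hP hR _ m hm) hβ

lemma fs_alb' (hP : P.OK) (hh : Bump h) {β : Fin 3 → Eis} (hβ : ∀ i, IsPrim (β i)) :
    FS (alb (f3' P h t a) β) := by
  obtain ⟨R, hR⟩ := hh
  exact P1e54.FS_alb (fun i m hm => pc_bd hP hR _ m hm) hβ

lemma fs_alX (hP : P.OK) (hh : Bump h) {β : Fin 3 → Eis} (hβ : ∀ i, IsPrim (β i)) :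
    FS (alX P h t a β) := FS_cmb (fs_alb hP hh hβ) (fs_alb' hP hh hβ) _ _

end arrays

/-! ### one level -/

variable {Λ : Type*}

lemma SfV_SG (π : Λ → DPar) (h : ℝ → ℝ) (e0 r : ℝ) (Bf : ℝ → ℝ → ℝ → ℝ)
    (Jf : ℝ → ℝ → ℝ → Finset (Eis × Eis)) (i : ℕ) (lam : Λ) (t : Eis) (l : ℝ) (ps : Fin 3 → Pq)
    (z : ℝ) (k : Eis) :
    SfV π h e0 r Bf Jf i lam t l ps z k = (pC : ℂ) *
      SG (PTb (Fin 3) ⌊Real.exp ((∑ i, (ps i).z) + r)⌋₊ (Real.exp (Bf l (∑ i, (ps i).z) z)))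
        (Real.exp (e0 * l)) (Jv (Jf l (∑ i, (ps i).z) z) i)
        (fun β e x => omL i x * TE (alb (fun i : Fin 3 => pc h (Pt (π lam) t (ps i))) β) x e) k := by
  rw [← SST_eq_SG, SST_Jv]
  rfl

open Classical in
/-- **helper770's level function through `SG`** -/
theorem atEV_SG {π : Λ → DPar} {h : ℝ → ℝ} (hh : Bump h) {lam : Λ × Eis} (hP : (π lam.1).OK)
    (e0 r : ℝ) (Bf : ℝ → ℝ → ℝ → ℝ) {Jf : ℝ → ℝ → ℝ → Finset (Eis × Eis)}
    (hJf : ∀ l N z, OKJ (Jf l N z)) (i : ℕ) {a : BdX} (ha : a.ok) (k : Eis) :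
    SFX.at (SfEV π h e0 r Bf Jf i) lam a k = if ∃ w : Eis, k = w ^ 3 then 0 else
      (pC : ℂ) * SG (T3 Bf a.toBd r) (Real.exp (e0 * a.l)) (J3 Jf a.toBd i)
        (fun β e x => omL i x * TE (alX (π lam.1) h lam.2 a β) x e) k := by
  rw [atEV]
  split_ifs with hc
  · rfl
  · rw [SfV_SG, SfV_SG, sum_u3, sum_u3' ha, mul_left_comm, mul_left_comm (ExP960.ph' a), ← mul_sub,
      SG_smul, SG_smul, SG_sub]
    congr 1
    unfold SG
    refine Finset.sum_congr rfl fun β hβ => ?_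
    have hβp := P1e54.mem_PT (mem_PTb.mp hβ).1
    congr 1
    refine Finset.sum_congr rfl fun e _ => ?_
    split_ifs
    · congr 1
      refine Finset.sum_congr rfl fun x hx => ?_
      congr 1
      have hx0 : x.1 ≠ 0 := ((okJ3 hJf a.toBd i).prim x hx).ne_zero
      have e3 := TE_cmb (fs_alb (t := lam.2) (a := a) hP hh hβp)
        (fs_alb' (t := lam.2) (a := a) hP hh hβp) (ExP960.ph a) (-ExP960.ph' a) hx0 e
      have e1 : (f3 (π lam.1) h lam.2 a.toBd) = fun i : Fin 3 => pc h (Pt (π lam.1) lam.2 (u3 a i)) :=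
        rfl
      have e2 : (f3' (π lam.1) h lam.2 a) = fun i : Fin 3 => pc h (Pt (π lam.1) lam.2 (u3' a i)) :=
        rfl
      show _ = omL i x * TE (alX (π lam.1) h lam.2 a β) x e
      unfold alX
      rw [e3, e1, e2]
      ring
    · rfl

open Classical in
/-- **the middle term of one level** -/
theorem midXV {π : Λ → DPar} {h : ℝ → ℝ} (hh : Bump h) {lam : Λ × Eis} (hP : (π lam.1).OK)
    {R : ℝ} (hR : 0 < R) (hU : ∀ y, R < y → (π lam.1).U y = 0) (e0 r : ℝ)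
    (Bf : ℝ → ℝ → ℝ → ℝ) {Jf : ℝ → ℝ → ℝ → Finset (Eis × Eis)}
    (hJf : ∀ l N z, OKJ (Jf l N z)) (i : ℕ) (a : BdX) (ps : List Pq) {N₁ N₂ : ℕ}
    (hN₁ : ∀ g e₀ t, IsPrim g → g ∣ a.d₃ → IsPrim e₀ → IsPrim t →
      (nm e₀ : ℝ) ≤ Real.exp (e0 * a.l) →
      (∃ β ∈ T3 Bf a.toBd r, t ∣ tS (a.e * ∏ i, β i)) →
      ∀ x ∈ (QK a.toBd (R * Real.exp a.l)) ×ˢ J3 Jf a.toBd i,
        nm (XI jD (jJ (sE (fun q => q ^ 2 * g) e₀ t)) x) ≤ N₁)
    (hN₂ : ∀ j n m, b1 (π lam.1) h lam.2 ps n ≠ 0 → b2X (π lam.1) h lam.2 a ps j m ≠ 0 →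
      nm (n * m ^ 2) ≤ N₂) :
    ∃ ε : Fin 2 → Eis → Eis → ℂ, (∀ j g q, ‖ε j g q‖ = 1) ∧
    MidX π h (SfEV π h e0 r Bf Jf i) lam a ps ≤
      ∑ j : Fin 2, ∑ g ∈ Gd (π lam.1).n a.d₃,
      ‖(pC : ℂ)‖ * ∑ β ∈ T3 Bf a.toBd r, ∑ e₀ ∈ S (Real.exp (e0 * a.l)),
        ∑ t ∈ Gd (π lam.1).n (tS (a.e * ∏ i, β i)),
        ∑ c₀ ∈ C4, ∑ g' ∈ MC (π lam.1).n₃ N₁, ∑ z ∈ MC (π lam.1).n₃ N₂,
          (R * Real.exp a.l : ℝ) ^ (-(2 / 3) : ℝ) *
          ‖ELf (π lam.1).n₃ (fun k => conj ((π lam.1).χ₃ k)) (π lam.1).l₃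
            (PhF (fun k => ∃ w : Eis, k = w ^ 3)
              (Vt (π lam.1).U a.τ R (R * Real.exp a.l)) (R * Real.exp a.l))
            (R * Real.exp a.l)
            (QK a.toBd (R * Real.exp a.l)) (fun q => q ^ 2 * g) (ε j g) (J3 Jf a.toBd i)
            (fun e x => omL i x * TE (alX (π lam.1) h lam.2 a β) x e)
            (b1 (π lam.1) h lam.2 ps) (b2X (π lam.1) h lam.2 a ps j)
            ((fs_b1 (t := lam.2) (ps := ps) hP hh).fin.toFinset ×ˢ
              (fs_b2X (t := lam.2) (a := a) (ps := ps) hP hh j).fin.toFinset)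
            (a.e * ∏ i, β i) e₀ t c₀ g' z‖ := by
  by_cases hok : a.ok
  · obtain ⟨ε, h1, h2⟩ := midX_K (Sf := SfEV π h e0 r Bf Jf i) (lam := lam) (a := a) (ps := ps)
      hP hR hU (pC : ℂ) T3_prim (Real.exp_pos _).le
      (okJ3 hJf a.toBd i) (tx := fun β e x => omL i x * TE (alX (π lam.1) h lam.2 a β) x e)
      (fun β _ e₀ x _ hx => TE_cop (right_ne_zero_of_mul hx))
      (flt := fun k => ∃ w : Eis, k = w ^ 3)
      (fun k _ => atEV_SG hh hP e0 r Bf hJf i hok k)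
      (univ : Finset (Fin 2)) (cX a) (fs_b1 (t := lam.2) (ps := ps) hP hh)
      (fun j => fs_b2X (t := lam.2) (a := a) (ps := ps) hP hh j)
      (fun k _ => CS_b1 hP hh k) (fun k _ => BXm_eq hP hh k) hN₁
      (fun j _ => hN₂ j)
    refine ⟨ε, h1, h2.trans (le_of_eq ?_)⟩
    refine Finset.sum_congr rfl fun j _ => Finset.sum_congr rfl fun g _ => ?_
    rw [norm_mul, norm_cX, one_mul]
  · refine ⟨fun _ _ _ => 1, fun _ _ _ => norm_one, ?_⟩
    unfold MidX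
    rw [if_neg (fun h => hok h.1)]
    exact Finset.sum_nonneg fun _ _ => Finset.sum_nonneg fun _ _ => by positivity

end Crest.Agent.R017.E4Df372
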