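import Crest.Agent.R017.E4v_92
import Crest.Agent.R017.E4F_266
import Crest.Agent.R017.E3q5_681

/-!
# Row 17, block C70, leaf E4 (helper92): the `x`-side as a sum of mean squares of pair families

* `AQ_cls` : Cauchy over classes of the index
* `XMb` : the moment with a factor `‖CS bm d‖²`; `XMb_le` : reduction to `AQ`
* `Vt_SA`, `arr_SA` : the arrays are structured (681's `SA`)
-/

set_option autoImplicit false
set_option linter.unusedVariables false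

noncomputable section

open Complex Finset
open scoped ComplexConjugate

namespace Crest.Agent.R017.E4z92

open Crest.Agent.R012 Crest.Agent.R012.Eis Crest.Agent.R012.GaussLoc283
open Crest.Agent.R012.Mob705 hiding pb mem_pb
open Crest.Agent.R012.Div277
open Crest.Agent.R012.LS2 (S mem_S)
open Crest.Agent.R017.Sx545 (Sm)
open Crest.Agent.R017.C70 (CbF JC OKJ)
open Crest.Agent.R017.GrB829 (IsC)
open Crest.Agent.R017.CM106 (CS FS)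
open Crest.Agent.R017.PX764 (n6 th)
open Crest.Agent.R017.E4352 (tws PrI rd dvd_rd Sd)
open Crest.Agent.R017.E4o502 (vD)
open Crest.Agent.R017.E4579 (SupB)
open Crest.Agent.R017.E3D579 (uS bt cK b0 bF n6_nonneg uS_supp)
open Crest.Agent.R017.E3P842 (ua)
open Crest.Agent.R017.E3Sd579 (Us)
open Crest.Agent.R017.Mode405 (Mul1)
open Crest.Agent.R017.E4y92
open Crest.Agent.R017.E4v92
open Crest.Agent.R017.E4F266 (Fa IP VP eP FP fam_b_sq IP_mem VP_ne CS_sq)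
open Crest.Agent.R017.E3q681 (AQ SA SA_ua cA norm_cA_le bF_bF)

/-! ### classes -/

/-- **Cauchy over the classes of the index** -/
theorem AQ_cls {ι κ : Type*} [DecidableEq κ] (I : Finset ι) (m : ι → Eis) (V : ι → Eis → ℂ)
    (cl : ι → κ) (a : Eis) : ‖AQ I m V a‖ ^ 2 ≤ ((I.image cl).card : ℝ) *
      ∑ c ∈ I.image cl, ‖AQ (I.filter (fun i => cl i = c)) m V a‖ ^ 2 := by
  have e1 : AQ I m V a = ∑ c ∈ I.image cl, AQ (I.filter (fun i => cl i = c)) m V a := by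
    unfold AQ
    exact (sum_fiberwise_of_maps_to (fun i hi => mem_image_of_mem cl hi) _).symm
  rw [e1]
  exact (pow_le_pow_left₀ (norm_nonneg _) (norm_sum_le _ _) 2).trans sq_sum_le_card_mul_sum_sq

lemma CS_smul (c : ℂ) (V : Eis → ℂ) (a : Eis) : CS (fun n => c * V n) a = c * CS V a := by
  unfold CS
  rw [← tsum_mul_left]
  exact tsum_congr fun n => by ring

/-! ### the moment with a factor -/

/-- the moment with a weight -/
def XMΦ (M : Eis) (v' : Eis → ℂ) (Φ : Eis → ℝ) (κ : ℝ) : ℝ :=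
  ∑ d ∈ Dk M κ, ((nm d : ℝ))⁻¹ * (‖Sd v' d‖ ^ 2 * Φ d)

/-- the moment with a factor -/
def XMb (M : Eis) (v' bm : Eis → ℂ) (κ : ℝ) : ℝ := XMΦ M v' (fun d => ‖CS bm d‖ ^ 2) κ

open Classical in
/-- the moduli at `s` -/
def As (M : Eis) (κ : ℝ) (s : Eis) : Finset Eis := (S (2 * κ / nm s ^ 2)).filter
  (fun a => Sm M a ∧ IsCoprime a s ∧ κ / nm s ^ 2 < nm a)

open Classical in
/-- the `s` -/
def Ss (M : Eis) (κ : ℝ) : Finset Eis := (S (Real.sqrt (2 * κ))).filter (fun s => Sm M s)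

open Classical in
/-- **the moment at squarefree moduli** -/
theorem XMΦ_le {M : Eis} {v' : Eis → ℂ} {Φ : Eis → ℝ} (hΦ : ∀ d, 0 ≤ Φ d) {κ X : ℝ}
    (hκ : 0 < κ) (hX : 0 ≤ X)
    (hv : ∀ x, v' x ≠ 0 → IsPrim x ∧ CbF x ∧ (nm x : ℝ) ≤ X) :
    XMΦ M v' Φ κ ≤ ∑ s ∈ Ss M κ, (nm s : ℝ) * ∑ a ∈ As M κ s,
          ‖∑ δ ∈ S X, sy (δ ^ 2) a * CS (Vr v' s δ) a‖ ^ 2 * Φ (a * s ^ 2) := by
  have hdec : ∀ d : Eis, ∃ z : Eis × Eis, d ∈ Dk M κ → IsPrim z.1 ∧ Squarefree z.1 ∧ IsPrim z.2 ∧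
      Squarefree z.2 ∧ IsCoprime z.1 z.2 ∧ d = z.1 * z.2 ^ 2 := by
    intro d
    by_cases hd : d ∈ Dk M κ
    · have h1 := mem_filter.mp hd
      obtain ⟨n, m, h⟩ := E3A164.cbf_dec (mem_primBall.mp h1.1).2 h1.2.2.1
      exact ⟨(n, m), fun _ => h⟩
    · exact ⟨(1, 1), fun h => absurd h hd⟩
  choose z hz using hdec
  have hinj : Set.InjOn z (Dk M κ : Set Eis) := by
    intro d hd d' hd' h
    rw [(hz d hd).2.2.2.2.2, (hz d' hd').2.2.2.2.2, h]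
  set G : Eis × Eis → ℝ := fun y => (nm y.2 : ℝ) *
    (‖∑ δ ∈ S X, sy (δ ^ 2) y.1 * CS (Vr v' y.2 δ) y.1‖ ^ 2 * Φ (y.1 * y.2 ^ 2)) with hG
  have hG0 : ∀ y, 0 ≤ G y := fun y => by
    have := hΦ (y.1 * y.2 ^ 2)
    simp only [hG]
    positivity
  have e1 : XMΦ M v' Φ κ = ∑ y ∈ (Dk M κ).image z, G y := by
    rw [sum_image hinj]
    unfold XMΦ
    refine sum_congr rfl fun d hd => ?_
    obtain ⟨h1, h2, h3, h4, h5, h6⟩ := hz d hd
    have h7 := Sd_sq hX h3 h4 h1 h2 h5 hv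
    rw [← h6] at h7
    have h8 : (nm d : ℝ) = nm (z d).1 * nm (z d).2 ^ 2 := by
      conv_lhs => rw [h6, nm_mul, nm_pow]
      push_cast
      ring
    have ha0 : (nm (z d).1 : ℝ) ≠ 0 := by exact_mod_cast (nm_pos.mpr h1.ne_zero).ne'
    have hs0 : (nm (z d).2 : ℝ) ≠ 0 := by exact_mod_cast (nm_pos.mpr h3.ne_zero).ne'
    rw [h7, h8]
    simp only [hG]
    rw [← h6]
    field_simp
  -- the target as a sum over pairs
  set T : Finset (Eis × Eis) := (primBall ⌊2 * κ⌋₊ ×ˢ primBall ⌊Real.sqrt (2 * κ)⌋₊).filter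
    fun y => Squarefree y.1 ∧ Squarefree y.2 ∧ Sm M y.2 ∧ Sm M y.1 ∧ IsCoprime y.1 y.2 ∧
      (nm y.1 : ℝ) ≤ 2 * κ / nm y.2 ^ 2 ∧ κ / nm y.2 ^ 2 < nm y.1 with hT
  have hsub : (Dk M κ).image z ⊆ T := by
    intro y hy
    obtain ⟨d, hd, rfl⟩ := mem_image.mp hy
    obtain ⟨h1, h2, h3, h4, h5, h6⟩ := hz d hd
    have hd' := mem_filter.mp hd
    have hdn : (nm d : ℝ) ≤ 2 * κ := by
      have := (mem_primBall.mp hd'.1).1
      exact (Nat.le_floor_iff (by positivity)).mp this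
    have hnm : (nm d : ℝ) = nm (z d).1 * nm (z d).2 ^ 2 := by
      conv_lhs => rw [h6, nm_mul, nm_pow]
      push_cast
      ring
    have p1 : (1 : ℝ) ≤ nm (z d).1 := by exact_mod_cast nm_pos.mpr h1.ne_zero
    have p2 : (1 : ℝ) ≤ nm (z d).2 := by exact_mod_cast nm_pos.mpr h3.ne_zero
    have p3 : (0 : ℝ) < (nm (z d).2 : ℝ) ^ 2 := by positivity
    have hdM := hd'.2.1.2
    rw [h6] at hdM
    rw [hT, mem_filter, mem_product, mem_primBall, mem_primBall]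
    refine ⟨⟨⟨Nat.le_floor ?_, h1⟩, Nat.le_floor ?_, h3⟩, h2, h4,
      ⟨h3, ?_⟩, ⟨h1, hdM.of_mul_left_left⟩, h5, ?_, ?_⟩
    · have q1 : (nm (z d).1 : ℝ) ≤ nm (z d).1 * nm (z d).2 ^ 2 :=
        le_mul_of_one_le_right (by positivity) (one_le_pow₀ p2)
      linarith
    · have q2 : (nm (z d).2 : ℝ) ^ 2 ≤ nm (z d).1 * nm (z d).2 ^ 2 :=
        le_mul_of_one_le_left (by positivity) p1
      exact Real.le_sqrt_of_sq_le (by linarith)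
    · exact (IsCoprime.pow_left_iff (by norm_num)).mp hdM.of_mul_left_right
    · rw [le_div_iff₀ p3, ← hnm]; exact hdn
    · rw [div_lt_iff₀ p3, ← hnm]; exact hd'.2.2.2
  rw [e1]
  refine (sum_le_sum_of_subset_of_nonneg hsub fun y _ _ => hG0 y).trans ?_
  have e2 : ∑ y ∈ T, G y = ∑ s ∈ primBall ⌊Real.sqrt (2 * κ)⌋₊, ∑ a ∈ primBall ⌊2 * κ⌋₊,
      if Squarefree a ∧ Squarefree s ∧ Sm M s ∧ Sm M a ∧ IsCoprime a s ∧
        (nm a : ℝ) ≤ 2 * κ / nm s ^ 2 ∧ κ / nm s ^ 2 < nm a then G (a, s) else 0 := by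
    rw [hT, sum_filter, sum_product_right]
  rw [e2]
  have e3 : Ss M κ =
      (primBall ⌊Real.sqrt (2 * κ)⌋₊).filter (fun s => Squarefree s ∧ Sm M s) := by
    ext s
    simp only [Ss, S, mem_filter]
    tauto
  rw [e3, sum_filter]
  refine sum_le_sum fun s hs => ?_
  by_cases h1 : Squarefree s ∧ Sm M s
  · rw [if_pos h1, mul_sum]
    have hs1 : (1 : ℝ) ≤ nm s := by exact_mod_cast nm_pos.mpr h1.2.1.ne_zero
    have p3 : (0 : ℝ) < (nm s : ℝ) ^ 2 := by positivity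
    rw [← sum_filter]
    have e4 : (primBall ⌊2 * κ⌋₊).filter (fun a => Squarefree a ∧ Squarefree s ∧ Sm M s ∧ Sm M a ∧
        IsCoprime a s ∧ (nm a : ℝ) ≤ 2 * κ / nm s ^ 2 ∧ κ / nm s ^ 2 < nm a) ⊆ As M κ s := by
      intro a ha
      obtain ⟨ha1, ha2, -, -, ha3, ha4, ha5, ha6⟩ := mem_filter.mp ha
      unfold As
      rw [mem_filter, mem_S (by positivity)]
      exact ⟨⟨ha5, ha3.1, ha2⟩, ha3, ha4, ha6⟩
    exact sum_le_sum_of_subset_of_nonneg e4 fun a _ _ => hG0 (a, s)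
  · rw [if_neg h1]
    apply le_of_eq
    refine sum_eq_zero fun a _ => ?_
    rw [if_neg]
    intro h3
    exact h1 ⟨h3.2.1, h3.2.2.1⟩

lemma mem_As {M s a : Eis} {κ : ℝ} (hκ : 0 ≤ κ) (h : a ∈ As M κ s) :
    IsPrim a ∧ Squarefree a ∧ IsCoprime a s ∧ κ / nm s ^ 2 ≤ nm a ∧
      (nm a : ℝ) ≤ 2 * (κ / nm s ^ 2) := by
  classical
  unfold As at h
  rw [mem_filter, mem_S (by positivity)] at h
  obtain ⟨⟨h1, h2, h3⟩, h4, h5, h6⟩ := h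
  exact ⟨h2, h3, h5, h6.le, by rw [mul_div_assoc] at h1; exact h1⟩

lemma mem_Ss {M s : Eis} {κ : ℝ} (h : s ∈ Ss M κ) :
    IsPrim s ∧ Squarefree s ∧ Sm M s ∧ (nm s : ℝ) ≤ Real.sqrt (2 * κ) := by
  classical
  unfold Ss at h
  rw [mem_filter, mem_S (Real.sqrt_nonneg _)] at h
  exact ⟨h.1.2.1, h.1.2.2, h.2, h.1.1⟩

/-- the array of the pair family at `(s, τ, g, h)` -/
def Vz (v' bm : Eis → ℂ) (S₀ s τ g h : Eis) (i : Eis × Eis) (n : Eis) : ℂ :=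
  eP (fun _ => 1) (fun m => bm m * sy (s ^ 2) m) g h i *
    VP (fun δ => Vt (Vr v' s δ) S₀ τ) g h i n

lemma FP_eq_AQ (Y : ℝ) (Del : Finset Eis) (v' bm : Eis → ℂ) (S₀ s τ g h a : Eis) :
    FP Y Del (fun _ => 1) (fun m => bm m * sy (s ^ 2) m) (fun δ => Vt (Vr v' s δ) S₀ τ) g h a =
      AQ (IP Y Del g h) (fun i => i.1 * i.2) (Vz v' bm S₀ s τ g h) a := by
  unfold FP AQ
  refine sum_congr rfl fun i _ => ?_
  have : CS (Vz v' bm S₀ s τ g h i) a =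
      eP (fun _ => 1) (fun m => bm m * sy (s ^ 2) m) g h i *
        CS (VP (fun δ => Vt (Vr v' s δ) S₀ τ) g h i) a := CS_smul _ _ _
  rw [this]
  ring

/-- **the moment with a factor as a sum of mean squares** -/
theorem XMb_le {M : Eis} {v' bm : Eis → ℂ} {κ X Y : ℝ} (hκ : 0 < κ) (hX : 0 ≤ X) (hXY : X ≤ Y)
    (hv : ∀ x, v' x ≠ 0 → IsPrim x ∧ CbF x ∧ (nm x : ℝ) ≤ X)
    (hvf : (Function.support v').Finite)
    (hb : ∀ m, bm m ≠ 0 → m ∈ S Y) {S₀ : Eis} (hS : IsPrim S₀) {w : Eis → Eis → ℝ}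
    (hw : ∀ g h, 0 < w g h) :
    XMb M v' bm κ ≤ (∑ g ∈ S Y, ∑ h ∈ S Y, (w g h)⁻¹) * ((dvs (rd S₀)).card : ℝ) *
      ∑ s ∈ Ss M κ, (nm s : ℝ) * ∑ τ ∈ dvs (rd S₀), ∑ g ∈ S Y, ∑ h ∈ S Y, w g h *
        ∑ a ∈ As M κ s, ‖AQ (IP Y (S X) g h) (fun i => i.1 * i.2) (Vz v' bm S₀ s τ g h) a‖ ^ 2 := by
  classical
  have hY : 0 ≤ Y := hX.trans hXY
  refine (XMΦ_le (fun _ => by positivity) hκ hX hv).trans ?_
  rw [mul_sum]
  refine sum_le_sum fun s hs => ?_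
  obtain ⟨hsp, hsq, -, -⟩ := mem_Ss hs
  set Cw := ∑ g ∈ S Y, ∑ h ∈ S Y, (w g h)⁻¹ with hCw
  have hCw0 : 0 ≤ Cw := sum_nonneg fun g _ => sum_nonneg fun h _ => (inv_pos.mpr (hw g h)).le
  have hXY' : ∀ δ ∈ S X, δ ∈ S Y := fun δ hδ => by
    obtain ⟨h1, h2, h3⟩ := (mem_S hX).mp hδ
    exact (mem_S hY).mpr ⟨h1.trans hXY, h2, h3⟩
  have hpt : ∀ a ∈ As M κ s,
      ‖∑ δ ∈ S X, sy (δ ^ 2) a * CS (Vr v' s δ) a‖ ^ 2 * ‖CS bm (a * s ^ 2)‖ ^ 2 ≤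
      ((dvs (rd S₀)).card : ℝ) * ∑ τ ∈ dvs (rd S₀), Cw * ∑ g ∈ S Y, ∑ h ∈ S Y, w g h *
        ‖AQ (IP Y (S X) g h) (fun i => i.1 * i.2) (Vz v' bm S₀ s τ g h) a‖ ^ 2 := by
    intro a ha
    obtain ⟨hap, haq, has, -, -⟩ := mem_As hκ.le ha
    have h1 := sum_Vr_sq hX hS hsp hvf hap
    have hbp : ∀ m, bm m ≠ 0 → IsPrim m := fun m hm => ((mem_S hY).mp (hb m hm)).2.1
    rw [CS_sq hbp a s]
    have hB0 : 0 ≤ ‖CS (fun m => bm m * sy (s ^ 2) m) a‖ ^ 2 := by positivity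
    refine (mul_le_mul_of_nonneg_right h1 hB0).trans ?_
    rw [mul_assoc, sum_mul]
    refine mul_le_mul_of_nonneg_left (sum_le_sum fun τ hτ => ?_) (Nat.cast_nonneg _)
    have hτp := isPrim_of_mem_dvs hτ
    have e1 : ∑ δ ∈ S X, conj (sy a δ) * CS (Vt (Vr v' s δ) S₀ τ) a =
        Fa (S X) (fun _ => 1) (fun δ => Vt (Vr v' s δ) S₀ τ) a := by
      unfold Fa
      exact sum_congr rfl fun δ _ => (one_mul _).symm
    rw [e1]
    have h2 := fam_b_sq hY hXY' (b := fun m => bm m * sy (s ^ 2) m)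
      (fun m hm => hb m (left_ne_zero_of_mul hm))
      (V := fun δ => Vt (Vr v' s δ) S₀ τ) (fun δ hδ n hn => ?_) (fun _ => 1) hw hap
    · refine h2.trans (mul_le_mul_of_nonneg_left ?_ hCw0)
      refine sum_le_sum fun g _ => sum_le_sum fun h _ => mul_le_mul_of_nonneg_left ?_ (hw g h).le
      split_ifs
      · rw [FP_eq_AQ]
      · positivity
    · have hδp := ((mem_S hX).mp hδ).2.1
      unfold Vt at hn
      split_ifs at hn with hc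
      · obtain ⟨k1, k2, k3, k4, k5⟩ := Vr_ne hn
        have hnp : IsPrim n := k1.of_mul_left hτp
        refine (mem_S hY).mpr ⟨?_, hnp, k2.of_mul_right⟩
        have k6 := (hv _ k5).2.2
        refine le_trans ?_ (k6.trans hXY)
        have : nm n ≤ nm (s * (τ * n * δ ^ 2)) := nm_le_of_dvd
          (mul_ne_zero hsp.ne_zero (mul_ne_zero k1.ne_zero (pow_ne_zero 2 hδp.ne_zero)))
          ⟨s * τ * δ ^ 2, by ring⟩
        exact_mod_cast this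
      · exact absurd rfl hn
  calc (nm s : ℝ) * ∑ a ∈ As M κ s,
        ‖∑ δ ∈ S X, sy (δ ^ 2) a * CS (Vr v' s δ) a‖ ^ 2 * ‖CS bm (a * s ^ 2)‖ ^ 2
      ≤ (nm s : ℝ) * ∑ a ∈ As M κ s, ((dvs (rd S₀)).card : ℝ) * ∑ τ ∈ dvs (rd S₀),
          Cw * ∑ g ∈ S Y, ∑ h ∈ S Y, w g h *
          ‖AQ (IP Y (S X) g h) (fun i => i.1 * i.2) (Vz v' bm S₀ s τ g h) a‖ ^ 2 :=
        mul_le_mul_of_nonneg_left (sum_le_sum hpt) (Nat.cast_nonneg _)
    _ = _ := by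
        have e2 : ∑ a ∈ As M κ s, ∑ τ ∈ dvs (rd S₀), ∑ g ∈ S Y, ∑ h ∈ S Y, w g h *
            ‖AQ (IP Y (S X) g h) (fun i => i.1 * i.2) (Vz v' bm S₀ s τ g h) a‖ ^ 2 =
            ∑ τ ∈ dvs (rd S₀), ∑ g ∈ S Y, ∑ h ∈ S Y, w g h * ∑ a ∈ As M κ s,
            ‖AQ (IP Y (S X) g h) (fun i => i.1 * i.2) (Vz v' bm S₀ s τ g h) a‖ ^ 2 := by
          rw [sum_comm]
          refine sum_congr rfl fun τ _ => ?_
          rw [sum_comm]
          refine sum_congr rfl fun g _ => ?_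
          rw [sum_comm]
          refine sum_congr rfl fun h _ => ?_
          rw [mul_sum]
        rw [← e2, ← mul_sum]
        simp_rw [← mul_sum]
        ring

/-! ### linearity -/

lemma vD_smul (D : Eis) (k : ℂ) (v : Eis → ℂ) :
    vD D (fun x => k * v x) = fun x => k * vD D v x := by
  funext x
  unfold vD tws
  split_ifs <;> ring

lemma tws_smul (R q : Eis) (gg : Eis → ℂ) (k : ℂ) (v : Eis → ℂ) :
    tws R q gg (fun x => k * v x) = fun x => k * tws R q gg v x := by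
  funext x
  unfold tws
  split_ifs <;> ring

lemma Vr_smul (k : ℂ) (v' : Eis → ℂ) (s δ : Eis) :
    Vr (fun x => k * v' x) s δ = fun r => k * Vr v' s δ r := by
  funext r
  unfold Vr
  split_ifs <;> ring

lemma Vt_smul (k : ℂ) (V : Eis → ℂ) (S₀ τ : Eis) :
    Vt (fun r => k * V r) S₀ τ = fun r => k * Vt V S₀ τ r := by
  funext r
  unfold Vt
  split_ifs <;> ring

lemma Vz_smul (k : ℂ) (v' bm : Eis → ℂ) (S₀ s τ g h : Eis) (i : Eis × Eis) :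
    Vz (fun x => k * v' x) bm S₀ s τ g h i = fun n => k * Vz v' bm S₀ s τ g h i n := by
  funext n
  unfold Vz VP ua
  split_ifs
  · simp only [Vr_smul, Vt_smul]
    ring
  · ring

lemma SA_smul {χ : Eis → ℂ} {c : ℂ} {Q R : Eis} {om : ℝ → ℂ} {b : Eis → ℂ} (k : ℂ) :
    SA χ c Q om R (fun m => k * b m) = SA χ (c * k) Q om R b := by
  funext n
  unfold SA Us uS
  rw [CS_smul]
  split_ifs <;> ring

lemma SA_mul {χ : Eis → ℂ} {c : ℂ} {Q R : Eis} {om : ℝ → ℂ} {b : Eis → ℂ} (k : ℂ) (n : Eis) :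
    k * SA χ c Q om R b n = SA χ (k * c) Q om R b n := by
  unfold SA
  ring

lemma bt_eq_bF {u : Eis} {b : Eis → ℂ} (hb : FS b) : bt u b = bF u 1 b := by
  unfold bF
  congr 1
  funext m
  by_cases h : b m = 0
  · rw [h, zero_mul]
  · rw [Gauss880.sy_one_left Gauss880.syG (hb.prim m h), mul_one]

/-! ### the data -/

/-- the data of the dictionary at `(S₀, ν)`, `c₀`, `g₁ g₂²` -/
structure OKd (M S₀ c₀ g₁ g₂ ν : Eis) (J : Finset (Eis × Eis)) (om : Eis × Eis → ℂ)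
    (Om : ℝ → ℂ) (α : Eis → ℂ) : Prop where
  hS : IsPrim S₀
  hJ : OKJ J
  hom : ∀ d j, om (d, j) = Om (nm (j * d ^ 2))
  hJom : ∀ d j, IsPrim d → Squarefree d → JC j → om (d, j) ≠ 0 → (d, j) ∈ J
  hα : FS α
  hc₀ : IsC c₀
  hg₁ : PrI M g₁
  hg₁q : Squarefree g₁
  hg₂ : PrI M g₂
  hν : Sm M ν
  hνq : Squarefree ν

/-- the prefix -/
structure OKp (q R D q₁ q₂ : Eis) (gg g₀ : Eis → ℂ) : Prop where
  hR : PrI q R
  hD : IsPrim D
  hq1 : IsPrim q₁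
  hq2 : IsPrim q₂
  hg : ∀ y, IsPrim y → gg y = sy y q₁ * conj (sy y q₂) * g₀ y
  hg0 : Mul1 g₀

/-- `R s = us u w²`, `us` the `S₀`-part -/
structure OKs (R s S₀ us u w : Eis) : Prop where
  hs : IsPrim s
  hus : IsPrim us
  hu : IsPrim u
  huq : Squarefree (us * u)
  hw : IsPrim w
  hwq : Squarefree w
  huw : IsCoprime (us * u) w
  hRs : R * s = us * u * w ^ 2
  husS : SupB us S₀
  huS : IsCoprime u S₀

lemma exists_OKs {R s S₀ : Eis} (hS : IsPrim S₀) (hR : IsPrim R) (hs : IsPrim s)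
    (h : CbF (R * s)) : ∃ us u w, OKs R s S₀ us u w := by
  obtain ⟨n, w, h1, h2, h3, h4, h5, h6⟩ := E3A164.cbf_dec (hR.mul hs) h
  have e := E4579.bpt_mul_bco hS h1
  exact ⟨E4579.bpt S₀ n, E4579.bco S₀ n, w, hs, E4579.bpt_prim hS h1, E4579.bco_prim hS h1,
    by rw [e]; exact h2, h3, h4, by rw [e]; exact h5, by rw [e]; exact h6,
    E4579.bpt_sup hS h1, E4579.bco_cop hS h1⟩

/-- the frequency of the arrays -/
def QQ (c₀ g₁ us τ q₁ q₂ D s : Eis) : Eis :=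
  c₀ * g₁ * (us * τ) * (q₁ * q₂ ^ 2 * (D ^ 2 * s ^ 2))

/-- the modulus of the arrays at `δ` -/
def RQ (S₀ M ν u q s D δ : Eis) : Eis := S₀ * M * ν * u * (q * s * D * δ * S₀)

section arr

variable {M S₀ c₀ g₁ g₂ ν : Eis} {J : Finset (Eis × Eis)} {om : Eis × Eis → ℂ} {Om : ℝ → ℂ}
  {α κ : Eis → ℂ} {e₀ : Eis} {q R D q₁ q₂ s us u w : Eis} {gg g₀ : Eis → ℂ}

lemma FS_B0 (hd : OKd M S₀ c₀ g₁ g₂ ν J om Om α) {e : Eis} (he : IsPrim e) (e₀ F : Eis) :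
    FS (b0 (fun m => α (g₂ * e * m)) (g₂ * e) e₀ F) :=
  E3D579.FS_b0 (FS_sub hd.hα (hd.hg₂.1.mul he)) _ _ _

/-- **the arrays at `(δ, τ)`** -/
theorem Vt_SA (hd : OKd M S₀ c₀ g₁ g₂ ν J om Om α) (hp : OKp q R D q₁ q₂ gg g₀)
    (hs : OKs R s S₀ us u w) (κ : Eis → ℂ) (e₀ : Eis) {δ τ : Eis} (hδ : IsPrim δ)
    (hδq : Squarefree δ) (hτ : IsPrim τ) (hτq : Squarefree τ) (hτS : SupB τ S₀) :
    Vt (Vr (tws R q gg (vD D (vS M S₀ c₀ (g₁ * g₂ ^ 2) ν J (cY S₀ c₀ e₀ om α κ)))) s δ) S₀ τ =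
      SA g₀ (cfS (c₀ * g₁ * (us * τ)) q₁ q₂ D R s q u w τ (fun _ => 1) g₀
          (eY M c₀ g₁ g₂ ν (us * τ) κ) (fun _ => S₀ * M * ν) δ)
        (QQ c₀ g₁ us τ q₁ q₂ D s)
        (fun x => WW S₀ c₀ g₁ g₂ ν (us * τ) Om (w * δ) ((nm u : ℝ) * x))
        (RQ S₀ M ν u q s D δ)
        (bt u (b0 (fun m => α (g₂ * (w * δ) * m)) (g₂ * (w * δ)) e₀
              (FF S₀ c₀ g₁ ν (us * τ)))) := by
  funext r
  exact Vt_str hp.hR hp.hD hs.hs hδ hδq hp.hq1 hp.hq2 hs.hus hs.hu hs.huq hs.hw hs.hwq hs.huw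
    hs.hRs hτ hτq hτS hs.husS hs.huS hp.hg hp.hg0.mul hd.hS hd.hJ hd.hom hd.hJom hd.hα κ e₀
    hd.hc₀ hd.hg₁ hd.hg₁q hd.hg₂ hd.hν hd.hνq r

/-- the coefficient of the array `i` -/
def cZ (bm : Eis → ℂ) (k : ℂ) (M c₀ g₁ g₂ ν S₀ q₁ q₂ D R s q us u w τ : Eis) (g₀ κ : Eis → ℂ)
    (g h : Eis) (i : Eis × Eis) : ℂ :=
  eP (fun _ => 1) (fun m => bm m * sy (s ^ 2) m) g h i *
    (k * (cfS (c₀ * g₁ * (us * τ)) q₁ q₂ D R s q u w τ (fun _ => 1) g₀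
          (eY M c₀ g₁ g₂ ν (us * τ) κ) (fun _ => S₀ * M * ν) (g * i.1) *
      cA g₀ (QQ c₀ g₁ us τ q₁ q₂ D s) (RQ S₀ M ν u q s D (g * i.1)) (h * i.2) h *
        (sy 1 u * sy h u)))

/-- **the arrays of the pair family are structured** -/
theorem arr_SA (hd : OKd M S₀ c₀ g₁ g₂ ν J om Om α) (hp : OKp q R D q₁ q₂ gg g₀)
    (hs : OKs R s S₀ us u w) (κ : Eis → ℂ) (e₀ : Eis) (bm : Eis → ℂ) (k : ℂ) {τ g h : Eis}
    (hτ : IsPrim τ) (hτq : Squarefree τ) (hτS : SupB τ S₀) (hh : IsPrim h) {i : Eis × Eis}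
    (hi : IsPrim (g * i.1)) (hiq : Squarefree (g * i.1)) :
    Vz (tws R q gg (vD D (fun x => k *
        vS M S₀ c₀ (g₁ * g₂ ^ 2) ν J (cY S₀ c₀ e₀ om α κ) x))) bm S₀ s τ g h i =
      SA g₀ (cZ bm k M c₀ g₁ g₂ ν S₀ q₁ q₂ D R s q us u w τ g₀ κ g h i)
        (QQ c₀ g₁ us τ q₁ q₂ D s)
        (fun x => WW S₀ c₀ g₁ g₂ ν (us * τ) Om (w * (g * i.1)) ((nm u : ℝ) * ((nm h : ℝ) * x)))
        (RQ S₀ M ν u q s D (g * i.1) * (h * i.2) * h)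
        (bF (h * u) 1 (b0 (fun m => α (g₂ * (w * (g * i.1)) * m)) (g₂ * (w * (g * i.1))) e₀
              (FF S₀ c₀ g₁ ν (us * τ)))) := by
  have hB := FS_B0 hd (hs.hw.mul hi) e₀ (FF S₀ c₀ g₁ ν (us * τ))
  rw [vD_smul, tws_smul, Vz_smul]
  funext n
  unfold Vz VP
  have h1 := Vt_SA hd hp hs κ e₀ hi hiq hτ hτq hτS
  beta_reduce
  rw [h1, bt_eq_bF hB, SA_ua hp.hg0 (E3D579.FS.bF hs.hu hB) (h * i.2) hh,
    bF_bF hh hs.hu hB, SA_smul, SA_mul, SA_mul]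
  unfold cZ
  have e1 : (1 : Eis) * 1 = 1 := one_mul 1
  rw [e1]
  congr 1
  ring

open Classical in
/-- the arrays vanish if `R s` is not cube-free -/
theorem Vz_zero {v : Eis → ℂ} (hv : ∀ x, v x ≠ 0 → CbF x) (h0 : ¬ CbF (R * s))
    (bm : Eis → ℂ) (τ g h : Eis) (i : Eis × Eis) (n : Eis) :
    Vz (tws R q gg (vD D v)) bm S₀ s τ g h i n = 0 := by
  have h1 : VP (fun δ => Vt (Vr (tws R q gg (vD D v)) s δ) S₀ τ) g h i n = 0 := by
    unfold VP ua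
    split_ifs
    · beta_reduce
      unfold Vt
      split_ifs
      · exact Vr_zero hv h0 _
      · rfl
    · rfl
  unfold Vz
  rw [h1, mul_zero]

lemma norm_cA_n6 {χ : Eis → ℂ} {Q R q h : Eis} (hχ : Mul1 χ) (hh : IsPrim h) :
    ‖cA χ Q R q h‖ ≤ n6 h := by
  have h1 := norm_cA_le (Q := Q) (R := R) hχ (q := q) hh
  have h2 : (nm h : ℝ) ^ (-(1 / 3) : ℝ) = n6 h ^ 2 := by
    unfold PX764.n6
    rw [← Real.rpow_natCast, ← Real.rpow_mul (Nat.cast_nonneg _)]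
    norm_num
  rw [h2] at h1
  exact le_of_sq_le_sq h1 (n6_nonneg h)

/-- **the size of the coefficients** -/
theorem norm_cZ_le (hd : OKd M S₀ c₀ g₁ g₂ ν J om Om α) (hp : OKp q R D q₁ q₂ gg g₀)
    (hs : OKs R s S₀ us u w) (κ : Eis → ℂ) (bm : Eis → ℂ) (k : ℂ) {τ g h : Eis}
    (hτ : IsPrim τ) (hτq : Squarefree (us * τ)) (hh : IsPrim h) {i : Eis × Eis}
    (hi : IsPrim (g * i.1)) (hm : IsPrim (g * (h * i.2))) :
    ‖cZ bm k M c₀ g₁ g₂ ν S₀ q₁ q₂ D R s q us u w τ g₀ κ g h i‖ ≤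
      ‖bm (g * (h * i.2))‖ * (‖k‖ * (‖κ (g₂ * (w * (g * i.1)))‖ *
        (n6 (g₁ * (us * τ)) * ‖th c₀‖) * n6 u * n6 h)) := by
  unfold cZ
  rw [norm_mul, norm_mul, norm_mul, norm_mul]
  have h1 : ‖eP (fun _ => 1) (fun m => bm m * sy (s ^ 2) m) g h i‖ ≤ ‖bm (g * (h * i.2))‖ := by
    unfold E4F266.eP
    rw [one_mul, RCLike.norm_conj, norm_mul]
    exact mul_le_of_le_one_right (norm_nonneg _) (E4579.norm_sy_le' _ hm)
  have hx : IsPrim (s * (τ * (g * i.1) ^ 2)) := hs.hs.mul (hτ.mul (hi.pow 2))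
  have h2 := norm_cfS_le (Q := c₀ * g₁ * (us * τ)) (q₁ := q₁) (q₂ := q₂) (D := D) (R := R)
    (s := s) (q := q) (u := u) (w := w) (τ := τ) (χ := fun _ => 1) (g₀ := g₀)
    (ev := eY M c₀ g₁ g₂ ν (us * τ) κ) (Rr := fun _ => S₀ * M * ν) (δ := g * i.1)
    hp.hq1 hp.hq2 hp.hD hs.hs hs.hu (by simp) (hp.hg0.le _ hx)
  have h3 := norm_eY_le (M := M) (g₂ := g₂) (ν := ν) hd.hc₀ hd.hg₁ hd.hg₁q (hs.hus.mul hτ) hτq κ
    (w * (g * i.1))
  have h4 : ‖sy 1 u‖ * ‖sy h u‖ ≤ 1 := by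
    calc ‖sy 1 u‖ * ‖sy h u‖ ≤ 1 * 1 := mul_le_mul (E4579.norm_sy_le' _ hs.hu)
          (E4579.norm_sy_le' _ hs.hu) (norm_nonneg _) zero_le_one
      _ = 1 := one_mul 1
  have h5 := norm_cA_n6 (Q := QQ c₀ g₁ us τ q₁ q₂ D s) (R := RQ S₀ M ν u q s D (g * i.1))
    (q := h * i.2) hp.hg0 hh
  have n1 := n6_nonneg u
  have n2 := n6_nonneg h
  have n3 := n6_nonneg (g₁ * (us * τ))
  have h6 := h2.trans (mul_le_mul_of_nonneg_right h3 n1)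
  refine mul_le_mul h1 (mul_le_mul_of_nonneg_left ?_ (norm_nonneg _)) (by positivity)
    (norm_nonneg _)
  calc _ ≤ (‖κ (g₂ * (w * (g * i.1)))‖ * (n6 (g₁ * (us * τ)) * ‖th c₀‖) * n6 u) * n6 h * 1 := by
        refine mul_le_mul (mul_le_mul h6 h5 (norm_nonneg _) (by positivity))
          ((norm_mul _ _).le.trans h4) (norm_nonneg _) (by positivity)
    _ = _ := by ring

end arr

end Crest.Agent.R017.E4z92
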