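import Crest.Agent.R017.E4Xb_92

/-!
# Row 17, block C70, leaf E4 (x-side): the arrays of a class (helper92)

* `PInv S P` : the class condition `P` sees only the primes of `S`
* `vI_cls` : the `x`-side of the dictionary, pairs of a class
* `Vt_cls`, `Vz_cls` : the arrays of a class
* `clA`, `arr_of` : the fields `arr`, `arr0`, `dec` of `XF.HC`
-/

set_option autoImplicit false
set_option linter.unusedVariables false

noncomputable section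

open Complex Finset
open scoped ComplexConjugate

namespace Crest.Agent.R017.E4zc92

open Crest.Agent.R012 Crest.Agent.R012.Eis Crest.Agent.R012.GaussLoc283
open Crest.Agent.R012.Mob705 hiding pb mem_pb
open Crest.Agent.R012.Div277
open Crest.Agent.R012.LS2 (S mem_S)
open Crest.Agent.R017.Sx545 (Sm)
open Crest.Agent.R017.C70 (CbF JC OKJ)
open Crest.Agent.R017.GrB829 (IsC)
open Crest.Agent.R017.CM106 (CS FS)
open Crest.Agent.R017.PX764 (n6 th)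
open Crest.Agent.R017.E4352 (tws PrI rd dvd_rd Sd)
open Crest.Agent.R017.E4o502 (vD)
open Crest.Agent.R017.E4579 (SupB bpt bco sy_mulL)
open Crest.Agent.R017.E3D579 (uS bt cK b0 bF n6_nonneg uS_supp)
open Crest.Agent.R017.E3P842 (ua)
open Crest.Agent.R017.E3Sd579 (Us)
open Crest.Agent.R017.E4K164 (dc dc_spec dc_stj)
open Crest.Agent.R017.E5b54 (stj stj_spec JC_ne_zero)
open Crest.Agent.R017.E4y92
open Crest.Agent.R017.E4v92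
open Crest.Agent.R017.E4z92
open Crest.Agent.R017.E4zz92
open Crest.Agent.R017.E4X92
open Crest.Agent.R017.E4F266 (Fa IP VP eP FP IP_mem)
open Crest.Agent.R017.E3q681 (AQ SA)

/-- the class condition sees only the primes of `S` -/
def PInv (S : Eis) (P : Eis → Prop) : Prop :=
  ∀ j ρ, IsPrim ρ → IsCoprime ρ S → (P (j * ρ) ↔ P j)

open Classical in
/-- the pairs of a class -/
def Jc (J : Finset (Eis × Eis)) (P : Eis → Prop) : Finset (Eis × Eis) :=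
  J.filter (fun y => P y.2)

lemma mem_Jc {J : Finset (Eis × Eis)} {P : Eis → Prop} {y : Eis × Eis} :
    y ∈ Jc J P ↔ y ∈ J ∧ P y.2 := by
  classical
  unfold Jc
  rw [mem_filter]

lemma okJ_Jc {J : Finset (Eis × Eis)} (hJ : OKJ J) (P : Eis → Prop) : OKJ (Jc J P) :=
  ⟨fun y hy => hJ.prim y (mem_Jc.mp hy).1, fun y hy => hJ.sqf y (mem_Jc.mp hy).1,
    fun y hy => hJ.jc y (mem_Jc.mp hy).1⟩

/-! ### the dictionary -/

open Classical in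
/-- **the `x`-side of the dictionary, pairs of a class** -/
theorem vI_cls {B : Type*} {M : Eis} {ψ : Eis → ℂ} {l : ℤ} {f : Eis} {Q : Finset B}
    {sE : B → Eis} {J : Finset (Eis × Eis)} (hJ : OKJ J) {P : Eis → Eis → Prop}
    {I : Finset (B × (Eis × Eis))} (hI : ∀ i, i ∈ I ↔ (i.1 ∈ Q ∧ i.2 ∈ J) ∧ P (sE i.1) i.2.2)
    {ε : B → ℂ} {om : Eis × Eis → ℂ} {α : Eis → ℂ} {e₀ c₀ g : Eis} (o : Eis × Eis) (X : Eis) :
    E4D164.vI M ψ l f I (E4D164.jS sE) E4D164.jD (E4D164.jJ sE)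
        (E4D164.jC sE (E4D164.cE ε om α e₀)) c₀ g o X =
      (EB Q sE ε o.1 * KO ψ l f o.1 o.2) *
        vS M o.1 c₀ g o.2 (Jc J (P o.1)) (cY o.1 c₀ e₀ om α (fun d => conj (sy (o.1 * o.2) d)))
          X := by
  rw [← vI_eq (Q := Q) (okJ_Jc hJ (P o.1))]
  unfold E4D164.vI E4D164.pu
  split_ifs with hX
  · have h1 : E4D164.II I (E4D164.jS sE) (E4D164.jJ sE) c₀ o =
        E4D164.II (Q ×ˢ Jc J (P o.1)) (E4D164.jS sE) (E4D164.jJ sE) c₀ o := by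
      unfold E4D164.II
      ext i
      rw [mem_filter, mem_filter, hI, mem_product, mem_Jc]
      constructor
      · rintro ⟨⟨⟨h1, h2⟩, h3⟩, h4, h5, h6⟩
        refine ⟨⟨h1, h2, ?_⟩, h4, h5, h6⟩
        have : sE i.1 = o.1 := h5
        rw [← this]
        exact h3
      · rintro ⟨⟨h1, h2, h3⟩, h4, h5, h6⟩
        refine ⟨⟨⟨h1, h2⟩, ?_⟩, h4, h5, h6⟩
        have : sE i.1 = o.1 := h5
        rw [this]
        exact h3
    rw [h1]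
  · rfl

/-! ### the arrays of a class -/

section arr

variable {M S₀ c₀ g₁ g₂ ν : Eis} {J : Finset (Eis × Eis)} {om : Eis × Eis → ℂ} {Om : ℝ → ℂ}
  {α κ : Eis → ℂ} {e₀ : Eis} {q R D q₁ q₂ s us u w : Eis} {gg g₀ : Eis → ℂ} {P : Eis → Prop}

open Classical in
/-- the window of a class -/
def WC (P : Eis → Prop) (S₀ c₀ g₁ g₂ ν σ : Eis) (Om : ℝ → ℂ) (e : Eis) (x : ℝ) : ℂ :=
  if P (FF S₀ c₀ g₁ ν σ) then WW S₀ c₀ g₁ g₂ ν σ Om e x else 0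

open Classical in
/-- **the arrays of a class, structured** -/
theorem Vt_strC (hd : OKd M S₀ c₀ g₁ g₂ ν J om Om α) (hp : OKp q R D q₁ q₂ gg g₀)
    (hs : OKs R s S₀ us u w) (hP : PInv S₀ P) (κ : Eis → ℂ) (e₀ : Eis) {δ τ : Eis}
    (hδ : IsPrim δ) (hδq : Squarefree δ) (hτ : IsPrim τ) (hτq : Squarefree τ)
    (hτS : SupB τ S₀) (r : Eis) :
    Vt (Vr (tws R q gg (vD D (vS M S₀ c₀ (g₁ * g₂ ^ 2) ν (Jc J P) (cY S₀ c₀ e₀ om α κ)))) s δ)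
      S₀ τ r =
      cfS (c₀ * g₁ * (us * τ)) q₁ q₂ D R s q u w τ (fun _ => 1) g₀
          (eY M c₀ g₁ g₂ ν (us * τ) κ) (fun _ => S₀ * M * ν) δ *
        (g₀ r * (sy (c₀ * g₁ * (us * τ) * (q₁ * q₂ ^ 2 * (D ^ 2 * s ^ 2))) r *
          uS (fun x => WC P S₀ c₀ g₁ g₂ ν (us * τ) Om (w * δ) ((nm u : ℝ) * x))
            (S₀ * M * ν * u * (q * s * D * δ * S₀))
            (bt u (b0 (fun m => α (g₂ * (w * δ) * m)) (g₂ * (w * δ)) e₀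
              (FF S₀ c₀ g₁ ν (us * τ)))) r)) := by
  have hW : ∀ e ρ, IsPrim e → IsPrim ρ → Squarefree ρ → IsCoprime ρ (S₀ * M * ν) →
      (if (g₂ * e, FF S₀ c₀ g₁ ν (us * τ) * ρ) ∈ Jc J P then
        conj (om (g₂ * e, FF S₀ c₀ g₁ ν (us * τ) * ρ)) else 0) =
        WC P S₀ c₀ g₁ g₂ ν (us * τ) Om e (nm ρ) := by
    intro e ρ he hρ hρq hρc
    have h1 := WW_eq hd.hS hd.hJ hd.hom hd.hJom hd.hc₀ hd.hg₁ hd.hg₂ hd.hν.1 (hs.hus.mul hτ)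
      (hs.husS.mul hτS) he hρ hρq hρc
    have hρS : IsCoprime ρ S₀ := hρc.of_mul_right_left.of_mul_right_left
    have h2 := hP (FF S₀ c₀ g₁ ν (us * τ)) ρ hρ hρS
    unfold WC
    rw [← h1]
    by_cases h3 : P (FF S₀ c₀ g₁ ν (us * τ))
    · rw [if_pos h3]
      by_cases h4 : (g₂ * e, FF S₀ c₀ g₁ ν (us * τ) * ρ) ∈ J
      · rw [if_pos h4, if_pos (mem_Jc.mpr ⟨h4, h2.mpr h3⟩)]
      · rw [if_neg h4, if_neg (fun h => h4 (mem_Jc.mp h).1)]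
    · rw [if_neg h3, if_neg (fun h => h3 (h2.mp (mem_Jc.mp h).2))]
  have h := Vr_eqS (S := S₀) (Q := c₀ * g₁ * (us * τ)) (χ := fun _ => 1)
    (v := vS M S₀ c₀ (g₁ * g₂ ^ 2) ν (Jc J P) (cY S₀ c₀ e₀ om α κ))
    (ev := eY M c₀ g₁ g₂ ν (us * τ) κ) (W := WC P S₀ c₀ g₁ g₂ ν (us * τ) Om)
    (Rr := fun _ => S₀ * M * ν)
    (B := fun e => b0 (fun m => α (g₂ * e * m)) (g₂ * e) e₀ (FF S₀ c₀ g₁ ν (us * τ)))
    hp.hR hp.hD hs.hs hδ hδq hp.hq1 hp.hq2 hs.hu hs.huq hs.hw hs.hwq hs.huw hs.hRs hτ hτq hτS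
    hs.huS hp.hg hp.hg0.mul (fun _ _ _ _ => (one_mul 1).symm)
    (fun e he => E3D579.FS_b0 (FS_sub hd.hα (hd.hg₂.1.mul he)) _ _ _)
    (fun e ρ h1 h2 h3 h4 h5 h6 h7 h8 => ?_) r
  · rw [h, one_mul]
  · rw [one_mul]
    exact vS_str hd.hS (okJ_Jc hd.hJ P) hd.hα κ e₀ hd.hc₀ hd.hg₁ hd.hg₁q hd.hg₂ hd.hν hd.hνq
      (hs.hus.mul hτ) h1 (hs.husS.mul hτS) h5 h6 h8 h3 h7 (hW e ρ h3 h5 h6)

open Classical in
/-- **the arrays of a class** -/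
theorem Vt_cls (hd : OKd M S₀ c₀ g₁ g₂ ν J om Om α) (hp : OKp q R D q₁ q₂ gg g₀)
    (hs : OKs R s S₀ us u w) (hP : PInv S₀ P) (κ : Eis → ℂ) (e₀ : Eis) {δ τ : Eis}
    (hδ : IsPrim δ) (hδq : Squarefree δ) (hτ : IsPrim τ) (hτq : Squarefree τ)
    (hτS : SupB τ S₀) :
    Vt (Vr (tws R q gg (vD D (vS M S₀ c₀ (g₁ * g₂ ^ 2) ν (Jc J P) (cY S₀ c₀ e₀ om α κ)))) s δ)
      S₀ τ =
    if P (FF S₀ c₀ g₁ ν (us * τ)) ∧ JC (FF S₀ c₀ g₁ ν (us * τ)) then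
      Vt (Vr (tws R q gg (vD D (vS M S₀ c₀ (g₁ * g₂ ^ 2) ν J (cY S₀ c₀ e₀ om α κ)))) s δ) S₀ τ
    else fun _ => 0 := by
  funext r
  rw [Vt_strC hd hp hs hP κ e₀ hδ hδq hτ hτq hτS]
  by_cases h : P (FF S₀ c₀ g₁ ν (us * τ)) ∧ JC (FF S₀ c₀ g₁ ν (us * τ))
  · rw [if_pos h, Vt_str hp.hR hp.hD hs.hs hδ hδq hp.hq1 hp.hq2 hs.hus hs.hu hs.huq hs.hw hs.hwq
      hs.huw hs.hRs hτ hτq hτS hs.husS hs.huS hp.hg hp.hg0.mul hd.hS hd.hJ hd.hom hd.hJom hd.hα κ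
      e₀ hd.hc₀ hd.hg₁ hd.hg₁q hd.hg₂ hd.hν hd.hνq r]
    unfold WC
    simp only [if_pos h.1]
  · rw [if_neg h]
    have h0 : ∀ x : ℝ, WC P S₀ c₀ g₁ g₂ ν (us * τ) Om (w * δ) ((nm u : ℝ) * x) = 0 := by
      intro x
      unfold WC
      split_ifs with h1
      · unfold WW
        rw [if_neg (fun h2 => h ⟨h1, h2.2⟩)]
      · rfl
    have h2 : uS (fun x => WC P S₀ c₀ g₁ g₂ ν (us * τ) Om (w * δ) ((nm u : ℝ) * x))
            (S₀ * M * ν * u * (q * s * D * δ * S₀))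
            (bt u (b0 (fun m => α (g₂ * (w * δ) * m)) (g₂ * (w * δ)) e₀
              (FF S₀ c₀ g₁ ν (us * τ)))) r = 0 := by
      unfold E3D579.uS
      simp only [h0]
      split_ifs <;> simp
    rw [h2]
    ring

open Classical in
/-- **the arrays of the pair family of a class** -/
theorem Vz_cls (hd : OKd M S₀ c₀ g₁ g₂ ν J om Om α) (hp : OKp q R D q₁ q₂ gg g₀)
    (hs : OKs R s S₀ us u w) (hP : PInv S₀ P) (κ : Eis → ℂ) (e₀ : Eis) (bm : Eis → ℂ) (k : ℂ)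
    {τ g h : Eis} (hτ : IsPrim τ) (hτq : Squarefree τ) (hτS : SupB τ S₀) {i : Eis × Eis}
    (hi : IsPrim (g * i.1)) (hiq : Squarefree (g * i.1)) :
    Vz (tws R q gg (vD D (fun x => k *
        vS M S₀ c₀ (g₁ * g₂ ^ 2) ν (Jc J P) (cY S₀ c₀ e₀ om α κ) x))) bm S₀ s τ g h i =
    if P (FF S₀ c₀ g₁ ν (us * τ)) ∧ JC (FF S₀ c₀ g₁ ν (us * τ)) then
      Vz (tws R q gg (vD D (fun x => k *
        vS M S₀ c₀ (g₁ * g₂ ^ 2) ν J (cY S₀ c₀ e₀ om α κ) x))) bm S₀ s τ g h i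
    else fun _ => 0 := by
  have h1 := Vt_cls hd hp hs hP κ e₀ hi hiq hτ hτq hτS
  have h2 : ∀ v : Eis → ℂ, Vz (tws R q gg (vD D (fun x => k * v x))) bm S₀ s τ g h i =
      fun n => k * (eP (fun _ => 1) (fun m => bm m * sy (s ^ 2) m) g h i *
        ua (Vt (Vr (tws R q gg (vD D v)) s (g * i.1)) S₀ τ) (h * i.2) h n) := by
    intro v
    rw [vD_smul, tws_smul, Vz_smul]
    rfl
  rw [h2, h2, h1]
  split_ifs with h
  · rfl
  · funext n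
    unfold E3P842.ua
    split_ifs <;> simp

end arr

/-! ### the fields of `XF.HC` -/

/-- the class condition of a tuple -/
def clA (x : XF) (P : Eis → Eis → Prop) (a : Tu) : Prop :=
  (∃ us u w, OKs x.R a.s (x.Sf a.q) us u w) ∧ P (x.Sf a.q) (x.FFa a) ∧ JC (x.FFa a)

/-- the sequence of an outer index -/
def vC (x : XF) (P : Eis → Eis → Prop) (kk : Eis × Eis → ℂ) (κ' : Eis × Eis → Eis → ℂ)
    (o : Eis × Eis) : Eis → ℂ :=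
  tws x.R x.q x.gg (vD x.D (fun y => kk o * vS x.M o.1 x.c₀ (x.g₁ * x.g₂ ^ 2) o.2
    (Jc x.J (P o.1)) (cY o.1 x.c₀ x.e₀ x.om x.α (κ' o)) y))

/-- the hypotheses -/
structure HD (x : XF) (P : Eis → Eis → Prop) (OO : Finset (Eis × Eis)) (qc : Eis → Eis) :
    Prop where
  hd : ∀ o ∈ OO, OKd x.M o.1 x.c₀ x.g₁ x.g₂ o.2 x.J x.om x.Om x.α
  hp : OKp x.q x.R x.D x.q₁ x.q₂ x.gg x.g₀
  hP : ∀ o ∈ OO, PInv o.1 (P o.1)
  hq : ∀ o ∈ OO, x.Sf (qc o.1) = o.1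
  X0 : 0 ≤ x.X
  XY : x.X ≤ x.Y

section fields

variable {x : XF} {P : Eis → Eis → Prop} {OO : Finset (Eis × Eis)} {qc : Eis → Eis}
  {kk : Eis × Eis → ℂ} {κ' : Eis × Eis → Eis → ℂ}

lemma FFa_tu (H : HD x P OO qc) {o : Eis × Eis} (ho : o ∈ OO) (s τ g h δ : Eis) :
    x.FFa (x.tu qc o s τ g h δ) = FF o.1 x.c₀ x.g₁ o.2 ((dsf x.R s o.1).1 * τ) := by
  show FF (x.Sf (qc o.1)) x.c₀ x.g₁ o.2 ((dsf x.R s o.1).1 * τ) = _
  rw [H.hq o ho]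

lemma ip_facts (H : HD x P OO qc) {g h : Eis} {i : Eis × Eis}
    (hi : i ∈ IP x.Y (S x.X) g h) : IsPrim (g * i.1) ∧ Squarefree (g * i.1) := by
  have hY : 0 ≤ x.Y := H.X0.trans H.XY
  obtain ⟨j1, j2, j3, j4, j5, j6, j7, j8, j9⟩ := IP_mem hY hi
  exact ((mem_S H.X0).mp j6).2

/-- **the field `arr`** -/
theorem arr_of (H : HD x P OO qc) (bm : Eis → ℂ) {o : Eis × Eis} (ho : o ∈ OO) {s τ g h : Eis}
    (hτ : τ ∈ dvs (rd o.1)) (hh : h ∈ S x.Y) {i : Eis × Eis} (hi : i ∈ IP x.Y (S x.X) g h)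
    (hc : clA x P (x.tu qc o s τ g h 1)) :
    Vz (vC x P kk κ' o) bm o.1 s τ g h i =
      x.ar bm (kk o) (κ' o) (x.tu qc o s τ g h 1) i := by
  classical
  have hY : 0 ≤ x.Y := H.X0.trans H.XY
  obtain ⟨⟨us, u, w, hs0⟩, h1, h2⟩ := hc
  have e1 : x.Sf (x.tu qc o s τ g h 1).q = o.1 := H.hq o ho
  rw [e1] at hs0 h1
  have hs : OKs x.R s o.1 (dsf x.R s o.1).1 (dsf x.R s o.1).2.1 (dsf x.R s o.1).2.2 :=
    dsf_spec hs0
  rw [FFa_tu H ho] at h1 h2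
  obtain ⟨i1, i2⟩ := ip_facts H hi
  have hd := H.hd o ho
  have hτp := isPrim_of_mem_dvs hτ
  obtain ⟨t1, t2⟩ := (dvd_rd hd.hS.ne_zero hτp).mp (dvd_of_mem_dvs hτ)
  unfold vC
  rw [Vz_cls hd H.hp hs (H.hP o ho) (κ' o) x.e₀ bm (kk o) hτp t1 t2 i1 i2, if_pos ⟨h1, h2⟩,
    arr_SA hd H.hp hs (κ' o) x.e₀ bm (kk o) hτp t1 t2 ((mem_S hY).1 hh).2.1 i1 i2]
  unfold XF.ar XF.cz XF.cf XF.FFa
  rw [e1]
  rfl

/-- **the field `arr0`** -/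
theorem arr0_of (H : HD x P OO qc) (hR : IsPrim x.R)
    (hcb : ∀ o ∈ OO, ∀ y, kk o * vS x.M o.1 x.c₀ (x.g₁ * x.g₂ ^ 2) o.2
      (Jc x.J (P o.1)) (cY o.1 x.c₀ x.e₀ x.om x.α (κ' o)) y ≠ 0 → CbF y)
    (bm : Eis → ℂ) {o : Eis × Eis} (ho : o ∈ OO) {s τ g h : Eis} (hs : s ∈ Ss x.M x.κ)
    (hτ : τ ∈ dvs (rd o.1)) {i : Eis × Eis} (hi : i ∈ IP x.Y (S x.X) g h)
    (hc : ¬ clA x P (x.tu qc o s τ g h 1)) :
    Vz (vC x P kk κ' o) bm o.1 s τ g h i = fun _ => 0 := by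
  classical
  have e1 : x.Sf (x.tu qc o s τ g h 1).q = o.1 := H.hq o ho
  have hd := H.hd o ho
  by_cases hx : ∃ us u w, OKs x.R s o.1 us u w
  · obtain ⟨us, u, w, hs0⟩ := hx
    have hs := dsf_spec hs0
    obtain ⟨i1, i2⟩ := ip_facts H hi
    have hτp := isPrim_of_mem_dvs hτ
    obtain ⟨t1, t2⟩ := (dvd_rd hd.hS.ne_zero hτp).mp (dvd_of_mem_dvs hτ)
    unfold vC
    rw [Vz_cls hd H.hp hs (H.hP o ho) (κ' o) x.e₀ bm (kk o) hτp t1 t2 i1 i2, if_neg]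
    rintro ⟨h1, h2⟩
    apply hc
    refine ⟨⟨us, u, w, by rw [e1]; exact hs0⟩, ?_, ?_⟩
    · rw [e1, FFa_tu H ho]; exact h1
    · rw [FFa_tu H ho]; exact h2
  · funext n
    unfold vC
    refine Vz_zero (fun y hy => hcb o ho y hy) (fun h0 => hx ?_) bm τ g h i n
    exact exists_OKs hd.hS hR (mem_Ss hs).1 h0

/-- **the field `dec`** -/
theorem dec_of (H : HD x P OO qc) {o : Eis × Eis} (ho : o ∈ OO) {s τ g h : Eis}
    (hc : clA x P (x.tu qc o s τ g h 1)) : ∃ us u w, OKs x.R s o.1 us u w := by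
  have e1 : x.Sf (x.tu qc o s τ g h 1).q = o.1 := H.hq o ho
  obtain ⟨h1, -, -⟩ := hc
  rw [e1] at h1
  exact h1

end fields

end Crest.Agent.R017.E4zc92
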