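import Crest.Agent.R017.E4zc_92
import Crest.Agent.R017.E4m_164

/-!
# Row 17, block C70, leaf E4 (x-side): the data of one prefix (helper92)

* `XD` : the data of 164's dictionary and of a prefix;  `XD.x` : the `XF` of the data
* `v_eq` : the sequences of the prefix are `vC`
* `hd_of`, `ho_of` : the hypotheses `HD`, `XF.HO`
-/

set_option autoImplicit false
set_option linter.unusedVariables false

noncomputable section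

open Complex Finset
open scoped ComplexConjugate

namespace Crest.Agent.R017.E4zc92

open Crest.Agent.R012 Crest.Agent.R012.Eis Crest.Agent.R012.GaussLoc283
open Crest.Agent.R012.Mob705 hiding pb mem_pb
open Crest.Agent.R012.Div277
open Crest.Agent.R012.LS2 (S mem_S)
open Crest.Agent.R017.Sx545 (Sm)
open Crest.Agent.R017.C70 (CbF JC OKJ)
open Crest.Agent.R017.GrB829 (IsC)
open Crest.Agent.R017.CM106 (CS FS)
open Crest.Agent.R017.PX764 (n6 th)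
open Crest.Agent.R017.E4352 (tws PrI rd dvd_rd Sd)
open Crest.Agent.R017.E4o502 (vD)
open Crest.Agent.R017.E4579 (SupB bpt bco sy_mulL)
open Crest.Agent.R017.E4K164 (dc dc_spec dc_stj)
open Crest.Agent.R017.E5b54 (stj stj_spec JC_ne_zero)
open Crest.Agent.R017.DgA829 (lc lc_prim lc_dvd)
open Crest.Agent.R017.E4D164 (sE)
open Crest.Agent.R017.Mode405 (Mul1)
open Crest.Agent.R017.E4y92
open Crest.Agent.R017.E4v92
open Crest.Agent.R017.E4z92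
open Crest.Agent.R017.E4zz92
open Crest.Agent.R017.E4X92
open Crest.Agent.R017.E4F266 (Fa IP VP eP FP IP_mem)
open Crest.Agent.R017.E3q681 (AQ SA)

/-! ### supports and sizes -/

section supp

variable {M S₀ c₀ g ν e₀ : Eis} {J : Finset (Eis × Eis)} {om : Eis × Eis → ℂ} {Om : ℝ → ℂ}
  {α κ : Eis → ℂ} {V : ℝ}

/-- the size of the frequencies -/
lemma vS_size (hS : IsPrim S₀) (hJ : OKJ J) (hg : g ≠ 0)
    (hom : ∀ y ∈ J, om y ≠ 0 → (nm (y.2 * y.1 ^ 2) : ℝ) ≤ 2 * V) {X : Eis}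
    (h : vS M S₀ c₀ g ν J (cY S₀ c₀ e₀ om α κ) X ≠ 0) : (nm X : ℝ) ≤ 2 * V * nm S₀ := by
  obtain ⟨hX, y, hy, -, -, h1, h2⟩ := vS_ne h
  obtain ⟨hj, e, he, hje⟩ := stj_spec hS (hJ.jc y hy)
  obtain ⟨s1, s2, s3, s4, s5, s6, s7⟩ := dc_spec hj
  have h3 : om y ≠ 0 := by
    intro h0
    apply h2
    unfold cY
    rw [h0]
    simp
  have h4 := hom y hy h3
  have hj0 := JC_ne_zero (hJ.jc y hy)
  have hstj0 := JC_ne_zero hj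
  have hy0 : y.1 ≠ 0 := (hJ.prim y hy).ne_zero
  have n1 : nm (dc (stj S₀ y.2)).2.1 ≤ nm (stj S₀ y.2) := by
    refine nm_le_of_dvd hstj0 ?_
    conv_rhs => rw [s7]
    exact ⟨(dc (stj S₀ y.2)).1 * (dc (stj S₀ y.2)).2.2 ^ 2, by ring⟩
  have n2 : nm (stj S₀ y.2) ≤ nm (y.2 * S₀) := by
    rw [hje]
    exact nm_le_of_dvd (mul_ne_zero hstj0 (pow_ne_zero 3 he.ne_zero)) (dvd_mul_right _ _)
  have n3 : nm X ≤ nm (g * X) := nm_le_of_dvd (mul_ne_zero hg hX.1.ne_zero) (dvd_mul_left _ _)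
  have n4 : nm X ≤ nm (y.2 * y.1 ^ 2) * nm S₀ := by
    refine n3.trans ?_
    rw [← h1, nm_mul, nm_mul]
    calc nm (dc (stj S₀ y.2)).2.1 * nm (y.1 ^ 2) ≤ nm (y.2 * S₀) * nm (y.1 ^ 2) :=
          Nat.mul_le_mul_right _ (n1.trans n2)
      _ = _ := by rw [nm_mul]; ring
  calc (nm X : ℝ) ≤ nm (y.2 * y.1 ^ 2) * nm S₀ := by exact_mod_cast n4
    _ ≤ 2 * V * nm S₀ := by gcongr

/-- the frequencies are primary and cube-free -/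
lemma vS_cb (hS : IsPrim S₀) (hJ : OKJ J) (hκ : ∀ d, IsPrim d → κ d ≠ 0 → IsCoprime S₀ d) {X : Eis}
    (h : vS M S₀ c₀ g ν J (cY S₀ c₀ e₀ om α κ) X ≠ 0) : IsPrim X ∧ CbF X := by
  refine ⟨(vS_ne h).1.1, ?_⟩
  have h1 := vS_cbf hS hJ (fun y hy hc => cY_cop hκ (hJ.prim y hy) hc) h
  exact fun p hp hd => h1 p hp (hd.mul_left g)

/-- the outer coefficient -/
lemma norm_EB_le {Q : Finset Eis} {sf : Eis → Eis} {ε : Eis → ℂ} (hε : ∀ q, ‖ε q‖ ≤ 1)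
    (hS : IsPrim S₀) (hQ : ∀ q ∈ Q, IsPrim q ∧ q ∣ sf q) :
    ‖EB Q sf ε S₀‖ ≤ ((dvs S₀).card : ℝ) := by
  classical
  unfold EB
  refine (norm_sum_le _ _).trans ?_
  have h1 : ∀ q ∈ Q.filter (fun b => sf b = S₀), ‖conj (ε q)‖ ≤ 1 := fun q _ => by
    rw [RCLike.norm_conj]; exact hε q
  refine (sum_le_sum h1).trans ?_
  rw [sum_const, nsmul_eq_mul, mul_one]
  have h2 : Q.filter (fun b => sf b = S₀) ⊆ dvs S₀ := by
    intro q hq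
    obtain ⟨h3, h4⟩ := mem_filter.mp hq
    rw [mem_dvs hS.ne_zero]
    refine ⟨(hQ q h3).1, ?_⟩
    rw [← h4]
    exact (hQ q h3).2
  exact_mod_cast card_le_card h2

lemma norm_KO {ψ : Eis → ℂ} {l : ℤ} {f : Eis} (hψ : ∀ n, IsPrim n → ‖End699.tw ψ l n‖ ≤ 1)
    (hf : IsPrim f) (hS : IsPrim S₀) (hν : IsPrim ν) :
    ‖KO ψ l f S₀ ν‖ ≤ (nm (S₀ * ν) : ℝ) ^ (2 / 3 : ℝ) := by
  unfold KO
  rw [norm_mul, norm_mul, RCLike.norm_conj, Complex.norm_real, Real.norm_eq_abs,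
    abs_of_nonneg (by positivity)]
  have h1 := hψ _ (hS.mul hν)
  have h2 := E4579.norm_sy_le' (S₀ * ν) hf
  calc ‖End699.tw ψ l (S₀ * ν)‖ * ‖sy (S₀ * ν) f‖ * (nm (S₀ * ν) : ℝ) ^ (2 / 3 : ℝ)
      ≤ 1 * 1 * (nm (S₀ * ν) : ℝ) ^ (2 / 3 : ℝ) := by gcongr
    _ = _ := by ring

end supp

/-! ### the data -/

/-- the data of the dictionary and of a prefix -/
structure XD where
  (M f g e₀ t c₀ g₁ g₂ B b Pr D : Eis)
  ψ : Eis → ℂ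
  l : ℤ
  Q : Finset Eis
  ph : Eis → ℂ
  J : Finset (Eis × Eis)
  om : Eis × Eis → ℂ
  Om : ℝ → ℂ
  α : Eis → ℂ
  G : Eis → ℂ
  P : Eis → Eis → Prop
  (V κ X Y : ℝ)

/-- the multipliers -/
def XD.sf (d : XD) : Eis → Eis := sE (fun q => q ^ 2 * d.g) d.e₀ d.t

/-- the `XF` of the data -/
def XD.x (d : XD) : XF where
  M := d.M
  c₀ := d.c₀
  g₁ := d.g₁
  g₂ := d.g₂
  F0 := d.g * d.e₀ * d.t
  q := d.B * d.b
  R := d.Pr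
  D := d.D
  q₁ := d.b
  q₂ := 1
  e₀ := d.e₀
  J := d.J
  om := d.om
  Om := d.Om
  α := d.α
  gg := fun y => sy y d.b * d.G y
  g₀ := d.G
  Sf := d.sf
  V := d.V
  κ := d.κ
  X := d.X
  Y := d.Y

open Classical in
/-- the square-free part of a multiplier -/
def XD.qc (d : XD) (S₀ : Eis) : Eis :=
  if h : ∃ q ∈ d.Q, d.sf q = S₀ then h.choose else 1

/-- the outer coefficient -/
def XD.kk (d : XD) (o : Eis × Eis) : ℂ := EB d.Q d.sf d.ph o.1 * KO d.ψ d.l d.f o.1 o.2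

/-- the twist of the divisor -/
def XD.κ' (_d : XD) (o : Eis × Eis) (δ : Eis) : ℂ := conj (sy (o.1 * o.2) δ)

/-- the sequence of the dictionary -/
def XD.v (d : XD) (o : Eis × Eis) (y : Eis) : ℂ :=
  d.kk o * vS d.M o.1 d.c₀ (d.g₁ * d.g₂ ^ 2) o.2 (Jc d.J (d.P o.1))
    (cY o.1 d.c₀ d.e₀ d.om d.α (d.κ' o)) y

/-- admissible data -/
structure XD.OK (d : XD) : Prop where
  J : OKJ d.J
  hom : ∀ δ j, d.om (δ, j) = d.Om (nm (j * δ ^ 2))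
  hJom : ∀ δ j, IsPrim δ → Squarefree δ → JC j → d.om (δ, j) ≠ 0 → (δ, j) ∈ d.J
  α : FS d.α
  c₀ : IsC d.c₀
  g₁ : PrI d.M d.g₁
  g₁q : Squarefree d.g₁
  g₂ : PrI d.M d.g₂
  f : IsPrim d.f
  g : IsPrim d.g
  e₀ : IsPrim d.e₀
  t : IsPrim d.t
  Q : ∀ q ∈ d.Q, IsPrim q ∧ Squarefree q
  ph : ∀ q, ‖d.ph q‖ ≤ 1
  ψ : ∀ n, IsPrim n → ‖End699.tw d.ψ d.l n‖ ≤ 1
  R : PrI (d.B * d.b) d.Pr
  b : IsPrim d.b
  D : IsPrim d.D
  G : Mul1 d.G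
  Om : ∀ t : ℝ, d.Om t ≠ 0 → t ≤ 2 * d.V
  V0 : 0 < d.V
  VY : d.V ≤ d.Y
  Y1 : 1 ≤ d.Y
  κ0 : 0 < d.κ
  κY : d.κ ≤ d.Y
  X0 : 0 ≤ d.X
  XY : d.X ≤ d.Y
  FY : (nm (d.g * d.e₀ * d.t) : ℝ) ≤ d.Y
  gY : (nm d.g₁ : ℝ) ≤ d.Y

/-- admissible outer indices -/
structure XD.OKo (d : XD) (OO : Finset (Eis × Eis)) : Prop where
  s : ∀ o ∈ OO, ∃ q ∈ d.Q, d.sf q = o.1
  ν : ∀ o ∈ OO, Sm d.M o.2
  νq : ∀ o ∈ OO, Squarefree o.2
  SY : ∀ o ∈ OO, (nm o.1 : ℝ) ≤ d.Y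
  νY : ∀ o ∈ OO, (nm o.2 : ℝ) ≤ d.Y
  VX : ∀ o ∈ OO, 2 * d.V * nm o.1 ≤ d.X
  P : ∀ o ∈ OO, PInv o.1 (d.P o.1)

section data

variable {d : XD} {OO : Finset (Eis × Eis)}

lemma sf_facts (h : d.OK) {q : Eis} (hq : IsPrim q) :
    IsPrim (d.sf q) ∧ q ^ 2 ∣ d.sf q ∧ d.sf q ∣ q ^ 2 * (d.g * d.e₀ * d.t) := by
  unfold XD.sf E4D164.sE
  have h1 : IsPrim (q ^ 2 * d.g) := (hq.pow 2).mul h.g
  have h2 := lc_prim h1 h.e₀
  refine ⟨lc_prim h2 h.t, ?_, ?_⟩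
  · have h3 := ((lc_dvd h2 h.t _).mp dvd_rfl).1
    have h4 := ((lc_dvd h1 h.e₀ _).mp dvd_rfl).1
    exact (dvd_mul_right _ _).trans (h4.trans h3)
  · refine (lc_dvd h2 h.t _).mpr ⟨(lc_dvd h1 h.e₀ _).mpr ⟨⟨d.e₀ * d.t, by ring⟩,
      ⟨q ^ 2 * d.g * d.t, by ring⟩⟩, ⟨q ^ 2 * d.g * d.e₀, by ring⟩⟩

lemma qc_spec (ho : d.OKo OO) {o : Eis × Eis} (h : o ∈ OO) :
    d.qc o.1 ∈ d.Q ∧ d.sf (d.qc o.1) = o.1 := by
  have hx := ho.s o h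
  unfold XD.qc
  rw [dif_pos hx]
  exact hx.choose_spec

lemma o1_prim (h : d.OK) (ho : d.OKo OO) {o : Eis × Eis} (hm : o ∈ OO) : IsPrim o.1 := by
  obtain ⟨h1, h2⟩ := qc_spec ho hm
  rw [← h2]
  exact (sf_facts h (h.Q _ h1).1).1

/-- **the hypotheses `HD`** -/
theorem hd_of (h : d.OK) (ho : d.OKo OO) : HD d.x d.P OO d.qc where
  hd := fun o hm => ⟨o1_prim h ho hm, h.J, h.hom, h.hJom, h.α, h.c₀, h.g₁, h.g₁q, h.g₂, ho.ν o hm,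
    ho.νq o hm⟩
  hp := ⟨h.R, h.D, h.b, isPrim_one, fun y hy => by
    show sy y d.b * d.G y = sy y d.b * conj (sy y 1) * d.G y
    rw [syAx.one_right]
    simp, h.G⟩
  hP := ho.P
  hq := fun o hm => (qc_spec ho hm).2
  X0 := h.X0
  XY := h.XY

/-- the outer twist is that of the outer index -/
lemma κ'_cop {o : Eis × Eis} {δ : Eis} (hδ : IsPrim δ) (h : d.κ' o δ ≠ 0) :
    IsCoprime o.1 δ := kap_cop hδ h

lemma v_facts (h : d.OK) (ho : d.OKo OO) {o : Eis × Eis} (hm : o ∈ OO) {y : Eis}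
    (hy : d.v o y ≠ 0) : IsPrim y ∧ CbF y ∧ (nm y : ℝ) ≤ d.X := by
  have hy' := right_ne_zero_of_mul hy
  have hS := o1_prim h ho hm
  obtain ⟨h1, h2⟩ := vS_cb hS (okJ_Jc h.J _) (fun δ hδ hk => κ'_cop hδ hk) hy'
  refine ⟨h1, h2, ?_⟩
  have hg : d.g₁ * d.g₂ ^ 2 ≠ 0 := mul_ne_zero h.g₁.1.ne_zero (pow_ne_zero 2 h.g₂.1.ne_zero)
  refine (vS_size hS (okJ_Jc h.J _) hg (V := d.V) (fun z hz hz0 => ?_) hy').trans (ho.VX o hm)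
  have h3 := h.hom z.1 z.2
  rw [Prod.mk.eta] at h3
  rw [h3] at hz0
  exact h.Om _ hz0

/-- **the hypotheses `HO`** -/
theorem ho_of (h : d.OK) (ho : d.OKo OO) {cw : ℝ} (hcw : 1 ≤ cw) {bm : Eis × Eis → Eis → ℂ}
    {Mb Ek : ℝ} (hMb : 0 ≤ Mb) (hEk : ∀ o ∈ OO, ((dvs o.1).card : ℝ) ^ 2 ≤ Ek) (hEk0 : 0 ≤ Ek)
    (hb : ∀ o ∈ OO, ∀ m, bm o m ≠ 0 → m ∈ S d.Y)
    (hM : ∀ o ∈ OO, ∀ g ∈ S d.Y, ∀ h ∈ S d.Y, ∑ μ ∈ S d.Y, ‖bm o (g * (h * μ))‖ ^ 2 ≤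
      Mb / ((nm g : ℝ) * nm h)) :
    d.x.HO cw OO (vC d.x d.P d.kk d.κ') bm d.kk d.κ' d.qc Mb Ek where
  ok := ⟨h.c₀.ne_zero, h.V0, h.VY, h.Y1, hcw, h.g₁.1, h.g₂.1, ((h.g.mul h.e₀).mul h.t).ne_zero,
    h.FY, h.gY, h.α, h.R.1⟩
  Om := h.Om
  κ0 := h.κ0
  κY := h.κY
  X0 := h.X0
  XY := h.XY
  g0 := h.G
  q1 := h.b
  q2 := isPrim_one
  D := h.D
  c₀ := h.c₀
  g₁ := h.g₁
  g₁q := h.g₁q
  R := h.R
  o1 := fun o hm => ⟨o1_prim h ho hm, (ho.ν o hm).1, ho.SY o hm, ho.νY o hm⟩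
  oq := fun o hm => by
    obtain ⟨h1, h2⟩ := qc_spec ho hm
    obtain ⟨h3, h4⟩ := h.Q _ h1
    obtain ⟨h5, h6, h7⟩ := sf_facts h h3
    rw [h2] at h6 h7
    exact ⟨h3, h4, h2, h6, h7⟩
  hv := fun o hm y hy => by
    unfold vC at hy
    unfold E4352.tws at hy
    split_ifs at hy with hc
    · have h1 := right_ne_zero_of_mul hy
      unfold E4o502.vD E4352.tws at h1
      split_ifs at h1 with hc2
      · have h2 : d.v o (d.Pr * y) ≠ 0 := by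
          have h2' : d.kk o * vS d.M o.1 d.c₀ (d.g₁ * d.g₂ ^ 2) o.2 (Jc d.J (d.P o.1))
            (cY o.1 d.c₀ d.e₀ d.om d.α (d.κ' o)) (1 * (d.Pr * y)) ≠ 0 := right_ne_zero_of_mul h1
          rw [one_mul] at h2'
          exact h2'
        obtain ⟨h3, h4, h5⟩ := v_facts h ho hm h2
        have hy1 : IsPrim y := h3.of_mul_left h.R.1
        refine ⟨hy1, fun p hp hd => h4 p hp (hd.mul_left _), le_trans ?_ h5⟩
        exact_mod_cast nm_le_of_dvd h3.ne_zero (dvd_mul_left _ _)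
      · exact absurd rfl h1
    · exact absurd rfl hy
  hvf := fun o hm => by
    have hg : d.g₁ * d.g₂ ^ 2 ≠ 0 := mul_ne_zero h.g₁.1.ne_zero (pow_ne_zero 2 h.g₂.1.ne_zero)
    refine tws_fin h.R.1.ne_zero (Set.Finite.subset (vS_fin (M := d.M) (S := o.1) (c₀ := d.c₀)
      (ν := o.2) (J := Jc d.J (d.P o.1)) (c := cY o.1 d.c₀ d.e₀ d.om d.α (d.κ' o)) hg)
      fun y hy => ?_)
    intro h0
    apply hy
    unfold E4o502.vD E4352.tws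
    split_ifs
    · have h1 : vS d.M o.1 d.c₀ (d.g₁ * d.g₂ ^ 2) o.2 (Jc d.J (d.P o.1))
          (cY o.1 d.c₀ d.e₀ d.om d.α (d.κ' o)) (1 * y) = 0 := by rw [one_mul]; exact h0
      show _ * (d.kk o * vS d.M o.1 d.c₀ (d.g₁ * d.g₂ ^ 2) o.2 (Jc d.J (d.P o.1))
          (cY o.1 d.c₀ d.e₀ d.om d.α (d.κ' o)) (1 * y)) = 0
      rw [h1, mul_zero, mul_zero]
    · rfl
  hb := hb
  hM := hM
  Mb0 := hMb
  Ek0 := hEk0
  hk := fun o hm => by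
    have hS := o1_prim h ho hm
    have hν := (ho.ν o hm).1
    have h1 := norm_EB_le (Q := d.Q) (sf := d.sf) h.ph hS fun q hq => by
      obtain ⟨k1, k2⟩ := h.Q q hq
      exact ⟨k1, (dvd_pow_self q two_ne_zero).trans (sf_facts h k1).2.1⟩
    have h2 := norm_KO (ψ := d.ψ) (l := d.l) h.ψ h.f hS hν
    have h3 : ((nm (o.1 * o.2) : ℝ) ^ (2 / 3 : ℝ)) ^ 2 =
        ((nm o.1 : ℝ) * nm o.2) ^ (4 / 3 : ℝ) := by
      rw [← Real.rpow_natCast, ← Real.rpow_mul (Nat.cast_nonneg _), nm_mul]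
      push_cast
      norm_num
    unfold XD.kk
    rw [norm_mul, mul_pow, ← h3]
    have h4 := hEk o hm
    calc ‖EB d.Q d.sf d.ph o.1‖ ^ 2 * ‖KO d.ψ d.l d.f o.1 o.2‖ ^ 2
        ≤ ((dvs o.1).card : ℝ) ^ 2 * ((nm (o.1 * o.2) : ℝ) ^ (2 / 3 : ℝ)) ^ 2 := by gcongr
      _ ≤ _ := by gcongr
  hκ' := fun o hm δ hδ => by
    unfold XD.κ'
    rw [RCLike.norm_conj]
    exact E4579.norm_sy_le' _ hδ

open Classical in
/-- **the sequences of a prefix** -/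
theorem v_eq (h : d.OK) {I : Finset (Eis × (Eis × Eis))}
    (hI : ∀ i, i ∈ I ↔ (i.1 ∈ d.Q ∧ i.2 ∈ d.J) ∧ d.P (d.sf i.1) i.2.2) (o : Eis × Eis) :
    tws d.Pr (d.B * d.b) (fun y => sy y d.b * d.G y)
      (vD d.D (E4D164.vI d.M d.ψ d.l d.f I (E4D164.jS d.sf) E4D164.jD (E4D164.jJ d.sf)
        (E4D164.jC d.sf (E4D164.cE d.ph d.om d.α d.e₀)) d.c₀ (d.g₁ * d.g₂ ^ 2) o)) =
      vC d.x d.P d.kk d.κ' o := by
  have h1 : E4D164.vI d.M d.ψ d.l d.f I (E4D164.jS d.sf) E4D164.jD (E4D164.jJ d.sf)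
        (E4D164.jC d.sf (E4D164.cE d.ph d.om d.α d.e₀)) d.c₀ (d.g₁ * d.g₂ ^ 2) o =
      fun y => d.kk o * vS d.M o.1 d.c₀ (d.g₁ * d.g₂ ^ 2) o.2 (Jc d.J (d.P o.1))
        (cY o.1 d.c₀ d.e₀ d.om d.α (d.κ' o)) y := by
    funext y
    exact vI_cls h.J hI o y
  rw [h1]
  rfl

end data

end Crest.Agent.R017.E4zc92
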