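import Crest.Agent.R017.E4yf_372
import Crest.Agent.R017.E4Ud_164
import Crest.Agent.R017.E4ax_783

/-!
# Row 17, exceptional class, StrUX: splitting of the index set (helper372)

* `E4Lf_split` : `E4Lf` of the dictionary is additive in the index set
* `E4Lf_Ly` : `E4Lf` of the weight off the cubes is helper783's `E4Ly`
* `ELf_split` : `ELf` through the local classes of `(S_q, j)`, the symbol part on the `y`-side
-/

set_option autoImplicit false

noncomputable section

open Finset Complex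
open scoped ComplexConjugate

namespace Crest.Agent.R017.E4Df372

open Crest.Agent.R012 Crest.Agent.R012.Eis
open Crest.Agent.R012.Mob705 hiding pb mem_pb
open Crest.Agent.R012.LS2 (S mem_S)
open Crest.Agent.R017.Sx545 (Sm)
open Crest.Agent.R017.CM106 (FS)
open Crest.Agent.R017.C70 Crest.Agent.R017.GrB829 Crest.Agent.R017.GrD829
open Crest.Agent.R017.E2440
open Crest.Agent.R017.End699 (HC)
open Crest.Agent.R017.E4352 (PrI rd)
open Crest.Agent.R017.E4K164 (dc dc_spec)
open Crest.Agent.R017.E4D164 hiding E4L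
open Crest.Agent.R017.E4U164 (sS pS OD lD vX wX vI_split vI_zero kS Kl In In_eq fib mem_fib
  nm_pS_le pS_ne)
open Crest.Agent.R017.E4ap783 (E4Ly)

section split

variable {A : Type*} {M : Eis} {ψ : Eis → ℂ} {l : ℤ} {f : Eis} {I : Finset A} {s δ j : A → Eis}
  {c : A → ℂ} {c₀ g : Eis}

open Classical in
/-- **`E4Lf` is additive in the index set** -/
theorem E4Lf_split {κT : Type*} (hM : M ≠ 0) (hI : OKI I s δ j c) (hg : PrI M g) (χ : Eis → ℂ) (l' : ℤ)
    (Φ1 : Eis → ℂ) (L : Eis × Eis → Eis) (w : Eis × Eis → Eis → ℂ) (f' : Eis)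
    {κ : A → κT} {N : Finset κT} (hκ : ∀ i ∈ I, κ i ∈ N) :
    E4Lf M f' χ l' Φ1 (O := OU M I s j) (fun o => L o.1)
        (fun o => vI M ψ l f I s δ j c c₀ g o.1) (fun o => w o.1) =
      ∑ n ∈ N, E4Lf M f' χ l' Φ1 (O := OU M (I.filter (fun i => κ i = n)) s j)
        (fun o => L o.1) (fun o => vI M ψ l f (I.filter (fun i => κ i = n)) s δ j c c₀ g o.1)
        (fun o => w o.1) := by
  set G : Eis × Eis → Eis → ℂ := fun o x => ∑' y : Eis, w o y *
    NT (M * (f' * y)) (f' * x * y) (fun k => End699.tw χ l' k * Φ1 (L o * k)) with hG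
  have e0 : ∀ (OO : Finset (Eis × Eis)) (v : Eis × Eis → Eis → ℂ),
      E4Lf M f' χ l' Φ1 (O := OO) (fun o => L o.1) (fun o => v o.1) (fun o => w o.1) =
        ∑ o ∈ OO, ∑' x : Eis, v o x * G o x := by
    intro OO v
    unfold E4Lf
    rw [← Finset.sum_coe_sort OO]
  rw [e0 _ (fun o => vI M ψ l f I s δ j c c₀ g o)]
  have h1 : ∀ n ∈ N, E4Lf M f' χ l' Φ1 (O := OU M (I.filter (fun i => κ i = n)) s j)
      (fun o => L o.1) (fun o => vI M ψ l f (I.filter (fun i => κ i = n)) s δ j c c₀ g o.1)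
      (fun o => w o.1) = ∑ o ∈ OU M I s j, ∑' x : Eis,
        vI M ψ l f (I.filter (fun i => κ i = n)) s δ j c c₀ g o x * G o x := by
    intro n _
    rw [e0 _ (fun o => vI M ψ l f (I.filter (fun i => κ i = n)) s δ j c c₀ g o)]
    refine sum_subset ?_ ?_
    · intro o ho
      unfold OU at ho ⊢
      rw [mem_filter, mem_image] at ho ⊢
      obtain ⟨⟨i, hi, h2⟩, h3⟩ := ho
      exact ⟨⟨i, (mem_filter.mp hi).1, h2⟩, h3⟩
    · intro o ho ho'
      have hs : Sm M (o.1 * o.2) := by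
        unfold OU at ho
        exact (mem_filter.mp ho).2
      refine (tsum_congr fun x => ?_).trans tsum_zero
      rw [vI_zero hs ho', zero_mul]
  rw [sum_congr rfl h1, sum_comm]
  refine sum_congr rfl fun o _ => ?_
  have h2 : ∀ n ∈ N, Summable fun x : Eis =>
      vI M ψ l f (I.filter (fun i => κ i = n)) s δ j c c₀ g o x * G o x := by
    intro n _
    have hI' : OKI (I.filter (fun i => κ i = n)) s δ j c :=
      { s := fun i hi => hI.s i (mem_filter.mp hi).1
        prim := fun i hi => hI.prim i (mem_filter.mp hi).1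
        sqf := fun i hi => hI.sqf i (mem_filter.mp hi).1
        jc := fun i hi => hI.jc i (mem_filter.mp hi).1
        cop := fun i hi => hI.cop i (mem_filter.mp hi).1 }
    have hfin := (ssm_vI (ψ := ψ) (l := l) (f := f) (c₀ := c₀) (o := o) hM hI' hg).fin
    refine summable_of_hasFiniteSupport (hfin.subset fun x hx => ?_)
    exact left_ne_zero_of_mul (Function.mem_support.mp hx)
  rw [← Summable.tsum_finsetSum h2]
  refine tsum_congr fun x => ?_
  rw [vI_split hκ o x, sum_mul]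

end split

/-- **the fixed symbol moved to the `y`-side** -/
theorem E4Lf_one {M f : Eis} (hf : f ≠ 0) (ψ : Eis → ℂ) (l : ℤ) (Φ1 : Eis → ℂ) {O : Type}
    [Fintype O] (cO : O → Eis) (v w : O → Eis → ℂ) :
    E4Lf M f ψ l Φ1 cO v w = E4Lf M 1 ψ l Φ1 cO v (fun o => mulw f (w o)) := by
  unfold E4Lf
  refine Finset.sum_congr rfl fun o _ => ?_
  refine tsum_congr fun x => ?_
  congr 1
  rw [tsum_mulw hf (w o) (fun Y => NT (M * (1 * Y)) (1 * x * Y)
    (fun k => End699.tw ψ l k * Φ1 (cO o * k)))]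
  refine tsum_congr fun y => ?_
  have e1 : M * (1 * (f * y)) = M * (f * y) := by ring
  have e2 : 1 * x * (f * y) = f * x * y := by ring
  rw [e1, e2]

/-- **`E4Lf` of the weight off the cubes is `E4Ly`** -/
theorem E4Lf_Ly (M f : Eis) (ψ : Eis → ℂ) (l : ℤ) (V : ℝ → ℂ) (K : ℝ) {O : Type}
    [Fintype O] (cO : O → Eis) (v w : O → Eis → ℂ) :
    E4Lf M f ψ l (V1f (PhF (fun k => ∃ w : Eis, k = w ^ 3) V K) K) cO v w =
      E4Ly M f ψ l (V1 V) K cO (fun o => (nm (cO o) : ℝ)) v w := by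
  unfold E4Lf E4Ly
  refine Finset.sum_congr rfl fun o _ => tsum_congr fun x => ?_
  congr 1
  refine tsum_congr fun y => ?_
  congr 2
  funext k
  rw [V1f_PhF]
  unfold PhF
  split_ifs with h
  · rw [mul_zero]
  · rw [nm_mul, Nat.cast_mul, mul_comm (nm (cO o) : ℝ) (nm k : ℝ)]

/-- the outer frequency `S ν` -/
def cD {OO : Finset (Eis × Eis)} (o : OO) : Eis := o.1.1 * o.1.2

open Classical in
/-- **`ELf` through the local classes, the symbol part on the `y`-side** -/
theorem ELf_split {M : Eis} (hM : M ≠ 0) (ψ : Eis → ℂ) (l : ℤ) (V : ℝ → ℂ) (K : ℝ)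
    {Q : Finset Eis} {g e₀ t : Eis} (hs : ∀ q ∈ Q, IsPrim (sS g e₀ t q)) (ph : Eis → ℂ)
    {J : Finset (Eis × Eis)} (hJ : OKJ J) (om : Eis × Eis → ℂ) (b₁ b₂ : Eis → ℂ)
    (L : Finset (Eis × Eis)) {E : Eis} (hE : fN M E ≠ 0) (α : Eis → ℂ) {c₀ g' z : Eis}
    (hg : PrI M g') {N : ℕ} (hN : ∀ q ∈ Q, nm (sS g e₀ t q) < 2 ^ N) :
    ELf M ψ l (PhF (fun k => ∃ w : Eis, k = w ^ 3) V K) K Q (fun q => q ^ 2 * g) ph J
        (fun e x => om x * TE α x e) b₁ b₂ L E e₀ t c₀ g' z =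
      ∑ m ∈ Kl N, E4Ly M 1 (psd (psE M ψ E) (c₀ * g' * z)) (-l) (V1 V) K
        (O := OD M (In Q J g e₀ t m) g e₀ t) cD lD
        (fun o => vX M ψ l (In Q J g e₀ t m) om ph E α g e₀ t c₀ g' o)
        (fun o => wX M b₁ b₂ L E z o) := by
  have hs' : ∀ b ∈ Q, IsPrim (sE (fun q => q ^ 2 * g) e₀ t b) := hs
  have hI : OKI (Q ×ˢ J) (jS (sE (fun q => q ^ 2 * g) e₀ t)) jD (jJ (sE (fun q => q ^ 2 * g) e₀ t))
      (jC (sE (fun q => q ^ 2 * g) e₀ t) (cEf ph (fun e x => om x * TE α x e) e₀)) :=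
    okI hs' hJ (fun b _ x _ hx => TE_cop (by
      unfold cEf at hx
      exact right_ne_zero_of_mul (right_ne_zero_of_mul hx)))
  unfold ELf
  rw [E4Lf_split hM hI hg (psd (psE M ψ E) (c₀ * g' * z)) (-l)
    (V1f (PhF (fun k => ∃ w : Eis, k = w ^ 3) V K) K)
    (fun o => o.1 * o.2) (fun o => wI M b₁ b₂ L z o) (fN M E)
    (κ := kS g e₀ t) (N := Kl N) (fun i hi => ?_)]
  · refine sum_congr rfl fun m _ => ?_
    have e1 := In_eq Q J g e₀ t m
    unfold fib at e1
    rw [e1, E4Lf_one hE, E4Lf_Ly]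
    rfl
  · have hq := (mem_product.mp hi).1
    unfold Kl
    rw [Fintype.mem_piFinset]
    intro a
    rw [Fintype.mem_piFinset]
    intro b
    rw [mem_range]
    unfold kS
    refine Nat.log_lt_of_lt_pow (nm_pos.mpr (pS_ne _ _ _ _)).ne' ?_
    exact (nm_pS_le (hs _ hq).ne_zero _ _ _).trans_lt (hN _ hq)

end Crest.Agent.R017.E4Df372
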