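import Crest.Agent.R017.E4ze_92
import Crest.Agent.R017.Str3_699

/-!
# Row 17, block C70, leaf E4 (x-side): the structured data at 164's `Dt` (helper92)

* `pInv_PC` : the full class condition sees only the primes of `S`
* `dX` : the data of a prefix;  `okX`, `okoX` : admissible
* `mom_eq` : the moment of 679 / 512 is a sum of `XMb`
-/

set_option autoImplicit false
set_option linter.unusedVariables false

noncomputable section

open Complex Finset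
open scoped ComplexConjugate

namespace Crest.Agent.R017.E4zf92

open Crest.Agent.R012 Crest.Agent.R012.Eis Crest.Agent.R012.GaussLoc283
open Crest.Agent.R012.Mob705 hiding pb mem_pb
open Crest.Agent.R012.Div277
open Crest.Agent.R012.LS2 (S mem_S)
open Crest.Agent.R017.Sx545 (Sm)
open Crest.Agent.R017.C70 (CbF JC OKJ)
open Crest.Agent.R017.GrB829 (IsC)
open Crest.Agent.R017.CM106 (CS FS)
open Crest.Agent.R017.E4352 (tws PrI rd dvd_rd Sd)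
open Crest.Agent.R017.E4o502 (vD)
open Crest.Agent.R017.DgA829 (lc lc_prim lc_dvd)
open Crest.Agent.R017.Mode405 (Mul1)
open Crest.Agent.R017.End699 (HC)
open Crest.Agent.R017.B770 (DPar)
open Crest.Agent.R017.E5B71 Crest.Agent.R017.E4D164 Crest.Agent.R017.E4U164
open Crest.Agent.R017.E5L770 (omL wL nL a3 lv mem_Jv omL_supp wL_supp)
open Crest.Agent.R017.E4RG858 (mult_mul mult_eq_zero mult_pow fac dvd_iff_mult)
open Crest.Agent.R017.E4z92 (XMb)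
open Crest.Agent.R017.E4zc92
open Crest.Agent.R017.E4X92
open Crest.Agent.R017.E4y92 (Dk)

/-! ### the class condition -/

/-- the class condition -/
def PC (m : Fin 2 → Fin 3 → ℕ) (s j : Eis) : Prop :=
  ∀ b c, 2 ^ m b c ≤ nm (pS b c s j) ∧ nm (pS b c s j) < 2 ^ (m b c + 1)

lemma pS_mul {s : Eis} (hs : s ≠ 0) {j ρ : Eis} (hρ : IsPrim ρ) (hc : IsCoprime ρ s)
    (b : Fin 2) (c : Fin 3) : pS b c s (j * ρ) = pS b c s j := by
  classical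
  by_cases hj : j = 0
  · rw [hj, zero_mul]
  unfold pS
  refine prod_congr ?_ fun _ _ => rfl
  refine filter_congr fun p hp => ?_
  have hp' := isPP_of_mem_pp hp
  have hps : p ∣ s := (mem_pp hs).mp hp |>.2
  have h1 : ¬ p ∣ ρ := fun h => hp'.prime.not_isUnit (hc.isUnit_of_dvd' h hps)
  rw [mult_mul hp'.prime hj hρ.ne_zero, mult_eq_zero hp'.prime hρ.ne_zero h1, add_zero]

theorem pInv_PC {s : Eis} (hs : s ≠ 0) (m : Fin 2 → Fin 3 → ℕ) : PInv s (PC m s) := by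
  intro j ρ hρ hc
  unfold PC
  simp_rw [pS_mul hs hρ hc]

/-- a primary number is `g₁ g₂²`, `g₁` square-free -/
theorem exists_dec {M g : Eis} (hg : PrI M g) : ∃ g₁ g₂ : Eis, g = g₁ * g₂ ^ 2 ∧ PrI M g₁ ∧
    Squarefree g₁ ∧ PrI M g₂ := by
  classical
  have h0 := hg.1.ne_zero
  have hpp : PPSet (pp g) := fun _ hp => isPP_of_mem_pp hp
  have h1 := fac hg.1 hpp (subset_refl (pp g))
  have hd : ∀ p ∈ pp g, p ∣ M := fun p hp =>
    hg.2 p (isPP_of_mem_pp hp).prime ((mem_pp h0).mp hp).2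
  have hpr : ∀ {T : Finset Eis} {f : Eis → ℕ}, T ⊆ pp g → PrI M (∏ p ∈ T, p ^ f p) := by
    intro T f hT
    refine ⟨E4BW858.isPrim_prod' fun p hp => (isPP_of_mem_pp (hT hp)).isPrim.pow _, ?_⟩
    intro r hr hrd
    obtain ⟨p, hp, hrp⟩ := (Prime.dvd_finsetProd_iff hr _).mp hrd
    exact (hr.dvd_of_dvd_pow hrp).trans (hd p (hT hp))
  refine ⟨∏ p ∈ pp g, p ^ (multiplicity p g % 2), ∏ p ∈ pp g, p ^ (multiplicity p g / 2), ?_,
    hpr (subset_refl _), ?_, hpr (subset_refl _)⟩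
  · rw [← prod_pow, ← prod_mul_distrib]
    conv_lhs => rw [h1]
    refine prod_congr rfl fun p _ => ?_
    rw [← pow_mul, ← pow_add]
    congr 1
    omega
  · have h2 : ∏ p ∈ pp g, p ^ (multiplicity p g % 2) =
        ∏ p ∈ (pp g).filter (fun p => multiplicity p g % 2 = 1), p := by
      rw [prod_filter]
      refine prod_congr rfl fun p _ => ?_
      split_ifs with h
      · rw [h, pow_one]
      · have : multiplicity p g % 2 = 0 := by omega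
        rw [this, pow_zero]
    rw [h2]
    exact PPSet.squarefree_prod fun p hp => hpp p (mem_filter.mp hp).1

/-! ### the data -/

/-- the data of a prefix -/
def dX (M : Eis) (ψ : Eis → ℂ) (l : ℤ) (Jf : ℝ → ℝ → ℝ → Finset (Eis × Eis)) (a : Bd × ℕ)
    (x : Dt) (E : Eis) (α : Eis → ℂ) (g₁ g₂ B b Pr D : Eis) (G : Eis → ℂ) (κ X Y : ℝ) : XD where
  M := M
  f := fN M E
  g := x.g
  e₀ := x.e₀
  t := x.t
  c₀ := x.c₀
  g₁ := g₁
  g₂ := g₂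
  B := B
  b := b
  Pr := Pr
  D := D
  ψ := psE M ψ E
  l := l
  Q := x.Q
  ph := x.ph
  J := J3 Jf a.1 a.2
  om := omL a.2
  Om := fun t => (wL a.2 (Real.log t) : ℂ)
  α := α
  G := G
  P := PC x.m
  V := 2 ^ a.2
  κ := κ
  X := X
  Y := Y

/-- the window is not cut -/
def JFull (Jf : ℝ → ℝ → ℝ → Finset (Eis × Eis)) : Prop :=
  ∀ l N z d j, IsPrim d → Squarefree d → JC j → (nm (j * d ^ 2) : ℝ) ≤ 2 ^ nL l N z →
    (d, j) ∈ Jf l N z

section ok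

variable {M : Eis} {ψ : Eis → ℂ} {l : ℤ} {Jf : ℝ → ℝ → ℝ → Finset (Eis × Eis)} {a : Bd × ℕ}
  {x : Dt} {E : Eis} {α : Eis → ℂ} {g₁ g₂ B b Pr D : Eis} {G : Eis → ℂ} {κ X Y : ℝ}

lemma wL_le {i : ℕ} {t : ℝ} (h : wL i (Real.log t) ≠ 0) : t ≤ 2 * 2 ^ i := by
  by_cases ht : t ≤ 0
  · exact ht.trans (by positivity)
  rw [not_le] at ht
  have h1 := (abs_le.mp (wL_supp h)).2
  have h2 : Real.log t ≤ Real.log (2 * 2 ^ i) := by
    rw [Real.log_mul (by norm_num) (by positivity), Real.log_pow]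
    linarith
  exact (Real.log_le_log_iff ht (by positivity)).mp h2

/-- **the window is full** -/
lemma hJom (hF : JFull Jf) (hlv : a.2 < nL a.1.l (a3 a.1) a.1.z) {δ j : Eis} (hδ : IsPrim δ)
    (hδq : Squarefree δ) (hj : JC j) (h : omL a.2 (δ, j) ≠ 0) : (δ, j) ∈ J3 Jf a.1 a.2 := by
  have h1 := omL_supp h
  refine mem_Jv.mpr ⟨hF _ _ _ _ _ hδ hδq hj ?_, h1⟩
  have h2 : wL a.2 (Real.log (nm (j * δ ^ 2))) ≠ 0 := fun h0 => h (by
    unfold omL lv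
    rw [h0, Complex.ofReal_zero])
  refine (wL_le h2).trans ?_
  rw [← pow_succ']
  exact pow_le_pow_right₀ (by norm_num) hlv

/-- **admissible data** -/
theorem okX {P : DPar} {Bf : ℝ → ℝ → ℝ → ℝ} {e0 r ε XX : ℝ} (hx : x.OK P Bf e0 r ε XX a.1)
    (ha : a.1.ok) (hP : a.1.okP P) (hJf : ∀ l N z, OKJ (Jf l N z)) (hF : JFull Jf)
    (hlv : a.2 < nL a.1.l (a3 a.1) a.1.z) (hψ : HC M ψ) (hE : IsPrim E) (hα : FS α)
    (hg₁ : PrI M g₁) (hg₁q : Squarefree g₁) (hg₂ : PrI M g₂) (hR : PrI (B * b) Pr)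
    (hb : IsPrim b) (hD : IsPrim D) (hG : Mul1 G) (hVY : (2 : ℝ) ^ a.2 ≤ Y) (hκ : 0 < κ)
    (hκY : κ ≤ Y) (hX : 0 ≤ X) (hXY : X ≤ Y) (hFY : (nm (x.g * x.e₀ * x.t) : ℝ) ≤ Y)
    (hgY : (nm g₁ : ℝ) ≤ Y) :
    (dX M ψ l Jf a x E α g₁ g₂ B b Pr D G κ X Y).OK where
  J := okJ3 hJf a.1 a.2
  hom := fun δ j => rfl
  hJom := fun δ j h1 h2 h3 h4 => hJom hF hlv h1 h2 h3 h4
  α := hα
  c₀ := mem_C4.mp hx.c₀
  g₁ := hg₁
  g₁q := hg₁q
  g₂ := hg₂
  f := (fM_spec hψ.q0 hE).2.1.1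
  g := ((E5P571.mem_Gd ha.2.2).mp hx.g).1.1
  e₀ := ((mem_S (Real.exp_nonneg _)).mp hx.e₀).2.1
  t := ((E5P571.mem_Gd (tS_prim (hP.1.prim.mul (T3_prim x.β hx.β))).ne_zero).mp hx.t).1.1
  Q := fun q hq => ⟨(hx.Q q hq).1.1, (hx.Q q hq).2.1⟩
  ph := hx.ph
  ψ := fun n hn => ((hc_psE hψ hE).isChar_tw l).norm_le hn
  R := hR
  b := hb
  D := hD
  G := hG
  Om := fun t ht => wL_le fun h0 => ht (by
    show ((wL a.2 (Real.log t) : ℝ) : ℂ) = 0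
    rw [h0, Complex.ofReal_zero])
  V0 := by
    show (0 : ℝ) < 2 ^ a.2
    positivity
  VY := hVY
  Y1 := (one_le_pow₀ (by norm_num : (1 : ℝ) ≤ 2)).trans hVY
  κ0 := hκ
  κY := hκY
  X0 := hX
  XY := hXY
  FY := hFY
  gY := hgY

open Classical in
/-- **admissible outer indices** -/
theorem okoX {P : DPar} {Bf : ℝ → ℝ → ℝ → ℝ} {e0 r ε XX : ℝ} (hx : x.OK P Bf e0 r ε XX a.1)
    (ha : a.1.ok) (hP : a.1.okP P) (hJf : ∀ l N z, OKJ (Jf l N z)) {OO : Finset (Eis × Eis)}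
    (hO : OO ⊆ OD M (x.I Jf a) x.g x.e₀ x.t)
    (hsz : ∀ o ∈ OO, (nm o.1 : ℝ) ≤ Y ∧ (nm o.2 : ℝ) ≤ Y ∧ 2 * 2 ^ a.2 * (nm o.1 : ℝ) ≤ X) :
    (dX M ψ l Jf a x E α g₁ g₂ B b Pr D G κ X Y).OKo OO := by
  have key : ∀ o ∈ OO, (∃ q ∈ x.Q, sS x.g x.e₀ x.t q = o.1) ∧ Sm M o.2 ∧ Squarefree o.2 ∧
      IsPrim o.1 := by
    intro o ho
    have h1 := hO ho
    unfold OD OU at h1
    obtain ⟨h2, h3⟩ := mem_filter.mp h1
    obtain ⟨i, hi, rfl⟩ := mem_image.mp h2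
    obtain ⟨⟨hi1, hi2⟩, -⟩ := Dt.mem_I.mp hi
    have hq := (hx.Q _ hi1).1.1
    have hg : IsPrim x.g := ((E5P571.mem_Gd ha.2.2).mp hx.g).1.1
    have he : IsPrim x.e₀ := ((mem_S (Real.exp_nonneg _)).mp hx.e₀).2.1
    have ht : IsPrim x.t :=
      ((E5P571.mem_Gd (tS_prim (hP.1.prim.mul (T3_prim x.β hx.β))).ne_zero).mp hx.t).1.1
    have hS : IsPrim (sS x.g x.e₀ x.t i.1) := lc_prim (lc_prim ((hq.pow 2).mul hg) he) ht
    have hj : JC i.2.2 := (okJ3 hJf a.1 a.2).jc _ hi2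
    obtain ⟨d1, d2, d3, d4, d5, -⟩ := E4K164.dc_spec (E5b54.stj_spec hS hj).1
    exact ⟨⟨i.1, hi1, rfl⟩, ⟨d4, h3.2.of_mul_left_right⟩, d5, hS⟩
  exact ⟨fun o ho => (key o ho).1, fun o ho => (key o ho).2.1, fun o ho => (key o ho).2.2.1,
    fun o ho => (hsz o ho).1, fun o ho => (hsz o ho).2.1, fun o ho => (hsz o ho).2.2,
    fun o ho => pInv_PC (key o ho).2.2.2.ne_zero x.m⟩

end ok

/-! ### the moments -/

open Classical in
/-- **the moment of a class at a prefix** -/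
theorem mom_eq {M : Eis} {ψ : Eis → ℂ} {l : ℤ} {Jf : ℝ → ℝ → ℝ → Finset (Eis × Eis)}
    {a : Bd × ℕ} {x : Dt} {E : Eis} {α : Eis → ℂ} {g₁ g₂ B b Pr D : Eis} {G : Eis → ℂ}
    {κ X Y : ℝ} (hd : (dX M ψ l Jf a x E α g₁ g₂ B b Pr D G κ X Y).OK)
    (hg : x.g' = g₁ * g₂ ^ 2) (o : OD M (x.I Jf a) x.g x.e₀ x.t) :
    tws Pr (B * b) (fun y => sy y b * G y)
      (vD D (vX M ψ l (x.I Jf a) (omL a.2) x.ph E α x.g x.e₀ x.t x.c₀ x.g' o)) =
      vC (dX M ψ l Jf a x E α g₁ g₂ B b Pr D G κ X Y).x (PC x.m)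
        (dX M ψ l Jf a x E α g₁ g₂ B b Pr D G κ X Y).kk
        (dX M ψ l Jf a x E α g₁ g₂ B b Pr D G κ X Y).κ' o.1 := by
  have h := v_eq hd (I := x.I Jf a) (fun i => by
    rw [Dt.mem_I]
    rfl) o.1
  unfold vX
  rw [hg]
  exact h

end Crest.Agent.R017.E4zf92
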