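import Crest.Agent.R017.E4Xi_92
import Crest.Agent.R017.E4zf_92
import Crest.Agent.R017.Str3_699

/-!
# Row 17, block C70, leaf E4 (x-side): the local types of a tuple (helper92)

* `mult_pS` : the multiplicities of the parts of a multiplier
* `TF` : a tuple;  `S_eq`, `bptν_eq`, `bptσ_eq`, `AA_eq'`, `b3_eq'` : the identities
-/

set_option autoImplicit false
set_option linter.unusedVariables false

noncomputable section

open Finset

namespace Crest.Agent.R017.E4zg92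

open Crest.Agent.R012 Crest.Agent.R012.Eis Crest.Agent.R012.Mob705
open Crest.Agent.R012.Div277 (dvs mem_dvs isPrim_of_mem_dvs dvd_of_mem_dvs nm_le_of_dvd)
open Crest.Agent.R017.Sx545 (Sm)
open Crest.Agent.R017.C70 (CbF JC)
open Crest.Agent.R017.E4352 (PrI)
open Crest.Agent.R017.GrB829 (IsC)
open Crest.Agent.R017.E4579 (SupB bpt bco bpt_prim bco_prim bpt_mul_bco bpt_sup bco_cop)
open Crest.Agent.R017.E4v92 (FF AA AA_spec)
open Crest.Agent.R017.E4RG858 (fm pow_dvd_iff dvd_iff_mult mult_mul mult_pow mult_eq_zero fac)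
open Crest.Agent.R017.Str699 (b3 mult_sqf mult_JC mult_isC mult_self pS_prim ppSet_pp isC_ne)
open Crest.Agent.R017.E4U164 (pS)
open Crest.Agent.R017.E4zz92
open Crest.Agent.R017.E4X92

/-! ### equality of primary numbers -/

lemma eq_of_mult {a b : Eis} (ha : IsPrim a) (hb : IsPrim b)
    (h : ∀ p, IsPP p → multiplicity p a = multiplicity p b) : a = b := by
  classical
  have hS : PPSet (pp a ∪ pp b) := fun p hp => by
    rcases mem_union.mp hp with h1 | h1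
    · exact isPP_of_mem_pp h1
    · exact isPP_of_mem_pp h1
  have e1 := fac ha hS subset_union_left
  have e2 := fac hb hS subset_union_right
  have e3 : ∏ p ∈ pp a ∪ pp b, p ^ multiplicity p a = ∏ p ∈ pp a ∪ pp b, p ^ multiplicity p b :=
    prod_congr rfl fun p hp => by rw [h p (hS p hp)]
  exact e1.trans (e3.trans e2.symm)

open Classical in
/-- the product of a set of primes -/
lemma mult_prod {T : Finset Eis} (hT : PPSet T) {p : Eis} (hp : IsPP p) :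
    multiplicity p (∏ q ∈ T, q) = if p ∈ T then 1 else 0 := by
  have hpr : IsPrim (∏ q ∈ T, q) := E4BW858.isPrim_prod' fun q hq => (hT q hq).isPrim
  have hsq : Squarefree (∏ q ∈ T, q) := PPSet.squarefree_prod hT
  split_ifs with h
  · have h1 : p ∣ ∏ q ∈ T, q := dvd_prod_of_mem (fun q => q) h
    have h2 := (dvd_iff_mult hp.prime hpr.ne_zero).mp h1
    have h3 := mult_sqf hsq hpr.ne_zero hp.prime
    omega
  · refine mult_eq_zero hp.prime hpr.ne_zero fun hd => h ?_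
    obtain ⟨q, hq, hpq⟩ := (Prime.dvd_finsetProd_iff hp.prime _).mp hd
    rwa [hp.eq_of_dvd (hT q hq) hpq]

open Classical in
lemma mult_pS {s j p : Eis} (hs : s ≠ 0) (hp : IsPP p) (b : Fin 2) (c : Fin 3) :
    multiplicity p (pS b c s j) =
      if p ∣ s ∧ multiplicity p s = (b : ℕ) + 1 ∧ multiplicity p j = (c : ℕ) then 1 else 0 := by
  unfold pS
  rw [mult_prod (fun q hq => isPP_of_mem_pp (mem_filter.mp hq).1) hp]
  congr 1
  rw [mem_filter, mem_pp hs]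
  simp only [eq_iff_iff]
  constructor
  · rintro ⟨⟨h1, h2⟩, h3⟩
    exact ⟨h2, h3⟩
  · rintro ⟨h2, h3⟩
    exact ⟨⟨hp, h2⟩, h3⟩

lemma pS_sqf (b : Fin 2) (c : Fin 3) (s j : Eis) : Squarefree (pS b c s j) := by
  classical
  unfold pS
  exact PPSet.squarefree_prod fun q hq => isPP_of_mem_pp (mem_filter.mp hq).1

lemma pS_dvd {s j : Eis} (hs : s ≠ 0) (b : Fin 2) (c : Fin 3) {p : Eis} (hp : Prime p)
    (h : p ∣ pS b c s j) : p ∣ s := by
  classical
  unfold pS at h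
  obtain ⟨q, hq, hpq⟩ := (Prime.dvd_finsetProd_iff hp _).mp h
  exact hpq.trans ((mem_pp hs).mp (mem_filter.mp hq).1).2

/-! ### parts -/

lemma mult_bpt {S x p : Eis} (hS : IsPrim S) (hx : IsPrim x) (hp : IsPP p) (h : p ∣ S) :
    multiplicity p (bpt S x) = multiplicity p x := by
  have h1 := congrArg (multiplicity p) (bpt_mul_bco hS hx)
  rw [mult_mul hp.prime (bpt_prim hS hx).ne_zero (bco_prim hS hx).ne_zero] at h1
  rw [mult_eq_zero hp.prime (bco_prim hS hx).ne_zero (fun h2 => hp.prime.not_isUnit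
    ((bco_cop hS hx).isUnit_of_dvd' h2 h)), add_zero] at h1
  exact h1

lemma mult_bco {S x p : Eis} (hS : IsPrim S) (hx : IsPrim x) (hp : IsPP p) (h : p ∣ S) :
    multiplicity p (bco S x) = 0 :=
  mult_eq_zero hp.prime (bco_prim hS hx).ne_zero (fun h2 => hp.prime.not_isUnit
    ((bco_cop hS hx).isUnit_of_dvd' h2 h))

lemma mult_bpt' {S x p : Eis} (hS : IsPrim S) (hx : IsPrim x) (hp : IsPP p) (h : ¬ p ∣ S) :
    multiplicity p (bpt S x) = 0 :=
  mult_eq_zero hp.prime (bpt_prim hS hx).ne_zero fun h2 => h (bpt_sup hS hx p hp.prime h2)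

lemma mult_bco' {S x p : Eis} (hS : IsPrim S) (hx : IsPrim x) (hp : IsPP p) (h : ¬ p ∣ S) :
    multiplicity p (bco S x) = multiplicity p x := by
  have h1 := congrArg (multiplicity p) (bpt_mul_bco hS hx)
  rw [mult_mul hp.prime (bpt_prim hS hx).ne_zero (bco_prim hS hx).ne_zero,
    mult_bpt' hS hx hp h, zero_add] at h1
  exact h1

lemma not_both {a b p : Eis} (hp : IsPP p) (ha : a ≠ 0) (hb : b ≠ 0) (h : IsCoprime a b) :
    ¬ (1 ≤ multiplicity p a ∧ 1 ≤ multiplicity p b) := by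
  rintro ⟨h1, h2⟩
  rw [← dvd_iff_mult hp.prime ha] at h1
  rw [← dvd_iff_mult hp.prime hb] at h2
  exact hp.prime.not_isUnit (h.isUnit_of_dvd' h1 h2)

/-- a tuple: the multiplier, the fixed part, the coprime factors -/
structure TF (S c₀ g₁ ν σ : Eis) : Prop where
  hS : IsPrim S
  h2 : ∀ p, IsPP p → multiplicity p S ≤ 2
  hc₀ : IsC c₀
  hg : IsPrim g₁
  hgq : Squarefree g₁
  hν : IsPrim ν
  hνq : Squarefree ν
  hσ : IsPrim σ
  hσq : Squarefree σ
  hσS : SupB σ S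
  hgν : IsCoprime g₁ ν
  hgσ : IsCoprime g₁ σ
  hσν : IsCoprime σ ν
  hJ : JC (FF S c₀ g₁ ν σ)

section tf

variable {S c₀ g₁ ν σ : Eis}

/-- the `S`-part of the frequency -/
def AS (S g₁ ν σ : Eis) : Eis := AA S (bpt S g₁ * σ * bpt S ν ^ 2)

lemma TF.A0 (h : TF S c₀ g₁ ν σ) : AS S g₁ ν σ ≠ 0 := by
  intro h0
  apply E5b54.JC_ne_zero h.hJ
  rw [FF_eq]
  unfold PP
  unfold AS at h0
  rw [h0, zero_mul, mul_zero]

lemma TF.ρp (h : TF S c₀ g₁ ν σ) : IsPrim (bpt S g₁ * σ * bpt S ν ^ 2) :=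
  ((bpt_prim h.hS h.hg).mul h.hσ).mul ((bpt_prim h.hS h.hν).pow 2)

lemma TF.Ap (h : TF S c₀ g₁ ν σ) : IsPrim (AS S g₁ ν σ) := by
  obtain ⟨hJA, e, he, hA⟩ := AA_spec h.A0
  have h1 : IsPrim (AS S g₁ ν σ * S) := by
    unfold AS
    rw [hA]; exact h.ρp.mul (he.pow 3)
  exact h1.of_mul_right h.hS

lemma TF.PPeq (h : TF S c₀ g₁ ν σ) :
    PP S g₁ ν σ = AS S g₁ ν σ * (bco S g₁ * bco S ν ^ 2) := rfl

lemma TF.Pp (h : TF S c₀ g₁ ν σ) : IsPrim (PP S g₁ ν σ) :=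
  h.Ap.mul ((bco_prim h.hS h.hg).mul ((bco_prim h.hS h.hν).pow 2))

/-- the local data -/
lemma TF.loc (h : TF S c₀ g₁ ν σ) {p : Eis} (hp : IsPP p) (hd : p ∣ S) :
    multiplicity p (FF S c₀ g₁ ν σ) = multiplicity p (AS S g₁ ν σ) ∧
    multiplicity p (AS S g₁ ν σ) ≤ 2 ∧ 1 ≤ multiplicity p S ∧ multiplicity p S ≤ 2 ∧
    multiplicity p g₁ + multiplicity p σ + multiplicity p ν ≤ 1 ∧
    (multiplicity p S + multiplicity p (AS S g₁ ν σ)) % 3 =
      (multiplicity p g₁ + multiplicity p σ + 2 * multiplicity p ν) % 3 := by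
  obtain ⟨hJA, e, he, hA⟩ := AA_spec h.A0
  have e1 : multiplicity p (FF S c₀ g₁ ν σ) = multiplicity p (AS S g₁ ν σ) := by
    rw [FF_eq, h.PPeq, mult_mul hp.prime (isC_ne h.hc₀) (mul_ne_zero h.Ap.ne_zero
      (mul_ne_zero (bco_prim h.hS h.hg).ne_zero (pow_ne_zero 2 (bco_prim h.hS h.hν).ne_zero))),
      mult_mul hp.prime h.Ap.ne_zero (mul_ne_zero (bco_prim h.hS h.hg).ne_zero
      (pow_ne_zero 2 (bco_prim h.hS h.hν).ne_zero)),
      mult_mul hp.prime (bco_prim h.hS h.hg).ne_zero (pow_ne_zero 2 (bco_prim h.hS h.hν).ne_zero),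
      mult_pow hp.prime (bco_prim h.hS h.hν).ne_zero, mult_bco h.hS h.hg hp hd,
      mult_bco h.hS h.hν hp hd, mult_isC h.hc₀ hp]
    omega
  have e2 := congrArg (multiplicity p) hA
  have hρ := h.ρp
  have hA' : AA S (bpt S g₁ * σ * bpt S ν ^ 2) = AS S g₁ ν σ := rfl
  rw [hA', mult_mul hp.prime h.Ap.ne_zero h.hS.ne_zero,
    mult_mul hp.prime hρ.ne_zero (pow_ne_zero 3 he.ne_zero), mult_pow hp.prime he.ne_zero,
    mult_mul hp.prime (mul_ne_zero (bpt_prim h.hS h.hg).ne_zero h.hσ.ne_zero)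
      (pow_ne_zero 2 (bpt_prim h.hS h.hν).ne_zero),
    mult_mul hp.prime (bpt_prim h.hS h.hg).ne_zero h.hσ.ne_zero,
    mult_pow hp.prime (bpt_prim h.hS h.hν).ne_zero, mult_bpt h.hS h.hg hp hd,
    mult_bpt h.hS h.hν hp hd] at e2
  have e3 := mult_JC h.hJ hp
  have e4 := (dvd_iff_mult hp.prime h.hS.ne_zero).mp hd
  have e5 := h.h2 p hp
  have f1 := mult_sqf h.hgq h.hg.ne_zero hp.prime
  have f2 := mult_sqf h.hνq h.hν.ne_zero hp.prime
  have f3 := mult_sqf h.hσq h.hσ.ne_zero hp.prime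
  have f4 := not_both hp h.hg.ne_zero h.hν.ne_zero h.hgν
  have f5 := not_both hp h.hg.ne_zero h.hσ.ne_zero h.hgσ
  have f6 := not_both hp h.hσ.ne_zero h.hν.ne_zero h.hσν
  refine ⟨e1, by omega, e4, e5, by omega, by omega⟩

/-- the `S`-part is supported on `S` -/
lemma TF.Asup (h : TF S c₀ g₁ ν σ) {p : Eis} (hp : IsPP p) (hd : ¬ p ∣ S) :
    multiplicity p (AS S g₁ ν σ) = 0 := by
  have hρS : SupB (bpt S g₁ * σ * bpt S ν ^ 2) S := by
    intro p hp hd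
    rcases hp.dvd_or_dvd hd with h1 | h1
    · rcases hp.dvd_or_dvd h1 with h2 | h2
      · exact E4579.bpt_sup h.hS h.hg p hp h2
      · exact h.hσS p hp h2
    · exact E4579.bpt_sup h.hS h.hν p hp (hp.dvd_of_dvd_pow h1)
  have := sup_AA h.hS h.ρp hρS h.A0
  exact mult_eq_zero hp.prime h.Ap.ne_zero fun h2 => hd (this p hp.prime h2)

/-- **the multiplier** -/
theorem TF.S_eq (h : TF S c₀ g₁ ν σ) :
    S = pS 0 0 S (FF S c₀ g₁ ν σ) * pS 0 1 S (FF S c₀ g₁ ν σ) * pS 0 2 S (FF S c₀ g₁ ν σ) *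
      (pS 1 0 S (FF S c₀ g₁ ν σ) * pS 1 1 S (FF S c₀ g₁ ν σ) * pS 1 2 S (FF S c₀ g₁ ν σ)) ^ 2 := by
  set J := FF S c₀ g₁ ν σ with hJ
  have q : ∀ b c, IsPrim (pS b c S J) := fun b c => pS_prim b c S J
  have q0 : ∀ b c, pS b c S J ≠ 0 := fun b c => (q b c).ne_zero
  refine eq_of_mult h.hS ((((q 0 0).mul (q 0 1)).mul (q 0 2)).mul
    ((((q 1 0).mul (q 1 1)).mul (q 1 2)).pow 2)) fun p hp => ?_
  rw [mult_mul hp.prime (mul_ne_zero (mul_ne_zero (q0 _ _) (q0 _ _)) (q0 _ _)) (pow_ne_zero 2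
      (mul_ne_zero (mul_ne_zero (q0 _ _) (q0 _ _)) (q0 _ _))),
    mult_mul hp.prime (mul_ne_zero (q0 _ _) (q0 _ _)) (q0 _ _),
    mult_mul hp.prime (q0 _ _) (q0 _ _), mult_pow hp.prime (mul_ne_zero (mul_ne_zero (q0 _ _)
      (q0 _ _)) (q0 _ _)), mult_mul hp.prime (mul_ne_zero (q0 _ _) (q0 _ _)) (q0 _ _),
    mult_mul hp.prime (q0 _ _) (q0 _ _)]
  simp only [mult_pS h.hS.ne_zero hp]
  by_cases hd : p ∣ S
  · obtain ⟨e1, e2, e3, e4, e5, e6⟩ := h.loc hp hd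
    rw [← hJ] at e1
    rw [e1]
    simp only [hd, true_and, Fin.val_zero, Fin.val_one, Fin.val_two]
    split_ifs <;> omega
  · have e0 := mult_eq_zero hp.prime h.hS.ne_zero hd
    rw [e0]
    simp only [hd, false_and, if_false]

/-- **the `S`-part of `ν`** -/
theorem TF.ν_eq (h : TF S c₀ g₁ ν σ) :
    bpt S ν = pS 0 1 S (FF S c₀ g₁ ν σ) * pS 1 0 S (FF S c₀ g₁ ν σ) := by
  set J := FF S c₀ g₁ ν σ with hJ
  have q : ∀ b c, IsPrim (pS b c S J) := fun b c => pS_prim b c S J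
  have q0 : ∀ b c, pS b c S J ≠ 0 := fun b c => (q b c).ne_zero
  refine eq_of_mult (bpt_prim h.hS h.hν) ((q 0 1).mul (q 1 0)) fun p hp => ?_
  rw [mult_mul hp.prime (q0 _ _) (q0 _ _)]
  simp only [mult_pS h.hS.ne_zero hp]
  by_cases hd : p ∣ S
  · obtain ⟨e1, e2, e3, e4, e5, e6⟩ := h.loc hp hd
    rw [← hJ] at e1
    rw [e1, mult_bpt h.hS h.hν hp hd]
    simp only [hd, true_and, Fin.val_zero, Fin.val_one, Fin.val_two]
    split_ifs <;> omega
  · rw [mult_bpt' h.hS h.hν hp hd]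
    simp only [hd, false_and, if_false]

/-- **the `S`-part of `g₁ σ`** -/
theorem TF.σ_eq (h : TF S c₀ g₁ ν σ) :
    bpt S g₁ * σ = pS 0 0 S (FF S c₀ g₁ ν σ) * pS 1 2 S (FF S c₀ g₁ ν σ) := by
  set J := FF S c₀ g₁ ν σ with hJ
  have q : ∀ b c, IsPrim (pS b c S J) := fun b c => pS_prim b c S J
  have q0 : ∀ b c, pS b c S J ≠ 0 := fun b c => (q b c).ne_zero
  refine eq_of_mult ((bpt_prim h.hS h.hg).mul h.hσ) ((q 0 0).mul (q 1 2)) fun p hp => ?_
  rw [mult_mul hp.prime (q0 _ _) (q0 _ _),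
    mult_mul hp.prime (bpt_prim h.hS h.hg).ne_zero h.hσ.ne_zero]
  simp only [mult_pS h.hS.ne_zero hp]
  by_cases hd : p ∣ S
  · obtain ⟨e1, e2, e3, e4, e5, e6⟩ := h.loc hp hd
    rw [← hJ] at e1
    rw [e1, mult_bpt h.hS h.hg hp hd]
    simp only [hd, true_and, Fin.val_zero, Fin.val_one, Fin.val_two]
    split_ifs <;> omega
  · rw [mult_bpt' h.hS h.hg hp hd, mult_eq_zero hp.prime h.hσ.ne_zero
      fun h2 => hd (h.hσS p hp.prime h2)]
    simp only [hd, false_and, if_false]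

/-- **the `S`-part of the frequency** -/
theorem TF.A_eq (h : TF S c₀ g₁ ν σ) :
    AS S g₁ ν σ = pS 0 1 S (FF S c₀ g₁ ν σ) * pS 1 1 S (FF S c₀ g₁ ν σ) *
      (pS 0 2 S (FF S c₀ g₁ ν σ) * pS 1 2 S (FF S c₀ g₁ ν σ)) ^ 2 := by
  set J := FF S c₀ g₁ ν σ with hJ
  have q : ∀ b c, IsPrim (pS b c S J) := fun b c => pS_prim b c S J
  have q0 : ∀ b c, pS b c S J ≠ 0 := fun b c => (q b c).ne_zero
  refine eq_of_mult h.Ap (((q 0 1).mul (q 1 1)).mul (((q 0 2).mul (q 1 2)).pow 2)) fun p hp => ?_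
  rw [mult_mul hp.prime (mul_ne_zero (q0 _ _) (q0 _ _)) (pow_ne_zero 2 (mul_ne_zero (q0 _ _)
      (q0 _ _))), mult_mul hp.prime (q0 _ _) (q0 _ _), mult_pow hp.prime (mul_ne_zero (q0 _ _)
      (q0 _ _)), mult_mul hp.prime (q0 _ _) (q0 _ _)]
  simp only [mult_pS h.hS.ne_zero hp]
  by_cases hd : p ∣ S
  · obtain ⟨e1, e2, e3, e4, e5, e6⟩ := h.loc hp hd
    rw [← hJ] at e1
    rw [e1]
    simp only [hd, true_and, Fin.val_zero, Fin.val_one, Fin.val_two]
    split_ifs <;> omega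
  · rw [h.Asup hp hd]
    simp only [hd, false_and, if_false]

/-- **the cube part of `S ν`** -/
theorem TF.b3_eq (h : TF S c₀ g₁ ν σ) : b3 (S * ν) = pS 1 0 S (FF S c₀ g₁ ν σ) := by
  classical
  have h0 : S * ν ≠ 0 := mul_ne_zero h.hS.ne_zero h.hν.ne_zero
  refine eq_of_mult (Str699.b3_prim _) (pS_prim _ _ _ _) fun p hp => ?_
  rw [mult_pS h.hS.ne_zero hp]
  unfold b3
  rw [mult_prod (fun q hq => isPP_of_mem_pp (mem_filter.mp hq).1) hp]
  have h3 : p ∈ (pp (S * ν)).filter (fun p => multiplicity p (S * ν) = 3) ↔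
      multiplicity p S + multiplicity p ν = 3 := by
    rw [mem_filter, mem_pp h0, mult_mul hp.prime h.hS.ne_zero h.hν.ne_zero]
    refine ⟨fun h => h.2, fun h' => ⟨⟨hp, ?_⟩, h'⟩⟩
    rw [dvd_iff_mult hp.prime h0, mult_mul hp.prime h.hS.ne_zero h.hν.ne_zero]
    omega
  simp only [h3]
  have f2 := mult_sqf h.hνq h.hν.ne_zero hp.prime
  by_cases hd : p ∣ S
  · obtain ⟨e1, e2, e3, e4, e5, e6⟩ := h.loc hp hd
    rw [e1]
    simp only [hd, true_and, Fin.val_zero, Fin.val_one, Fin.val_two]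
    split_ifs <;> omega
  · have e0 := mult_eq_zero hp.prime h.hS.ne_zero hd
    rw [e0]
    simp only [hd, false_and, if_false]
    rw [if_neg]
    omega

end tf

end Crest.Agent.R017.E4zg92
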