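import Crest.Agent.R017.E4Xg_92
import Crest.Agent.R017.E4zf_92
import Crest.Agent.R017.BK_858
import Crest.Agent.R017.JxT_679

/-!
# Row 17, C70/E4 (x-side): the relations of the prefix of a block (helper679)

* `pri_pf` : `PrI (B (b₁² b)) (R R')`
* `mul1_gx` : the twist is multiplicative
* `tws_congr` : only the values of `G` on the support matter
* `dec_g'` : `g' = g₁ g₂²`, `N(g₁) ≤ N(n₃)`
* `ps_of_sk` : the property of `s` from that of `k = a s²`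
* `okX_blk`, `okoX_blk` : helper92's `okX`, `okoX` at a block
* `v'_eq`, `mom_sum` : the moment of the block is helper92's sum
-/

set_option autoImplicit false
set_option linter.unusedSectionVars false

noncomputable section

open Complex Finset
open scoped ComplexConjugate Classical

namespace Crest.Agent.R017.E4zh679

open Crest.Agent.R012 Crest.Agent.R012.Eis
open Crest.Agent.R012.Mob705 hiding pb mem_pb kap
open Crest.Agent.R012.PSer47 (IsChar)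
open Crest.Agent.R012.LS2 (S mem_S)
open Crest.Agent.R017.Sx545 (Sm)
open Crest.Agent.R017.CM106 (CS FS)
open Crest.Agent.R017.C70 (CbF JC OKJ)
open Crest.Agent.R017.End699 (HC)
open Crest.Agent.R017.Mode405 (Mul1)
open Crest.Agent.R017.E5B71 Crest.Agent.R017.E4D164
open Crest.Agent.R017.B770 (DPar)
open Crest.Agent.R017.E5L770
open Crest.Agent.R017.E4U164
open Crest.Agent.R017.E4352
open Crest.Agent.R017.E4o502 (vD)
open Crest.Agent.R017.E4J352 (Tm gx)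
open Crest.Agent.R017.E4RH858 (Pf pf Facts)
open Crest.Agent.R017.E4579 (bpt bpt_prim bpt_dvd bpt_sup)
open Crest.Agent.R017.E4y92 (Dk)
open Crest.Agent.R017.E4X92 (XMbP)
open Crest.Agent.R017.E4zc92
open Crest.Agent.R017.E4zf92
open Crest.Agent.R017.JxG679 (Px.v')
open Crest.Agent.R017.JxP679 (pkP)
open Crest.Agent.R017.JxS679 (sk sk_prim)
open Crest.Agent.R017.JxT679 (mem_sk)

/-! ### the prefix -/

/-- the prefix of a term -/
lemma pri_pf {O : Type} {M : Eis} {t : Tm O} (h : Facts M t) {Pp : Pf} (hp : pf t = Pp) :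
    PrI (Pp.B * (E4RH858.b1 t ^ 2 * Pp.b)) (Pp.R * Pp.R') ∧
      IsPrim (E4RH858.b1 t ^ 2 * Pp.b) ∧ IsPrim (Pp.R * Pp.R') := by
  subst hp
  have h1 : IsPrim ((pf t).R * (pf t).R') := h.pR.1.mul h.pR'.1
  refine ⟨⟨h1, fun p hpp hd => ?_⟩, (h.sb1.prim.pow 2).mul h.sb.prim, h1⟩
  rcases hpp.dvd_or_dvd hd with h2 | h2
  · exact (h.pR.2 p hpp h2).mul_right _
  · exact ((h.pR'.2 p hpp h2).mul_left _).mul_left _

/-- the twist is multiplicative -/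
lemma mul1_of_isChar {χ : Eis → ℂ} (h : IsChar χ) : Mul1 χ where
  mul := h.mul
  le a ha := by
    rcases h.norm a ha with h1 | h1
    · rw [h1, norm_zero]
      exact zero_le_one
    · rw [h1]

lemma mul1_gx {M' : Eis} {η : Eis → ℂ} (h : HC M' η) (j : ℤ) (ξ : ℝ) : Mul1 (gx η j ξ) := by
  refine mul1_of_isChar ?_
  have h1 := (h.isChar_tw j).mul' (PSer47.nmTwist_isChar ξ)
  have e : gx η j ξ = fun b => End699.tw η j b * (nm b : ℂ) ^ (ξ * I) := by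
    funext y
    unfold gx
    rw [mul_comm I]
  rw [e]
  exact h1

/-- only the values of `G` on the support matter -/
lemma tws_congr {M Pr q c D : Eis} {v G G' : Eis → ℂ} (hPr : IsPrim Pr)
    (hv : ∀ x, v x ≠ 0 → Sm M x) (hG : ∀ y, Sm M y → G y = G' y) :
    tws Pr q (fun y => sy y c * G y) (vD D v) = tws Pr q (fun y => sy y c * G' y) (vD D v) := by
  funext y
  unfold tws
  by_cases h : IsCoprime y q
  swap
  · rw [if_neg h, if_neg h]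
  rw [if_pos h, if_pos h]
  by_cases h0 : vD D v (Pr * y) = 0
  · rw [h0, mul_zero, mul_zero]
  · obtain ⟨-, h1⟩ := JxG679.vD_ne h0
    have h2 := hv _ h1
    have h3 : Sm M y := ⟨h2.prim.of_mul_left hPr, h2.cop.of_mul_left_right⟩
    show sy y c * G y * _ = sy y c * G' y * _
    rw [hG y h3]

/-! ### the square part -/

/-- the property of `s` from that of `k = a s²` -/
lemma ps_of_sk {g₀ s₁ : Eis} (hg : IsPrim g₀) (a s : Eis) (h : sk g₀ (a * s ^ 2) = s₁)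
    (hs : IsPrim s) (hsq : Squarefree s) : bpt g₀ s ∣ s₁ := by
  have hb := bpt_prim hg hs
  have hbs : Squarefree (bpt g₀ s) := hsq.squarefree_of_dvd (bpt_dvd hg hs)
  rw [← h]
  have e1 : bpt g₀ s = ∏ p ∈ pp (bpt g₀ s), p := (prod_pp hb hbs).symm
  rw [e1]
  unfold sk
  refine prod_dvd_prod_of_subset _ _ _ fun p hp => ?_
  rw [mem_pp hb.ne_zero] at hp
  rw [mem_filter, mem_pp hg.ne_zero]
  exact ⟨⟨hp.1, bpt_sup hg hs p hp.1.prime hp.2⟩,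
    (pow_dvd_pow_of_dvd (hp.2.trans (bpt_dvd hg hs)) 2).mul_left _⟩

/-! ### the data -/

section cls

variable {Λ : Type*} {π : Λ → DPar} {h : ℝ → ℝ} {lam : Λ × Eis}
  {Jf : ℝ → ℝ → ℝ → Finset (Eis × Eis)}
  {a : Bd × ℕ} {x : Dt} {Bf : ℝ → ℝ → ℝ → ℝ} {e0 r ε XX : ℝ}

/-- `g' = g₁ g₂²` -/
theorem dec_g' (hx : x.OK (π lam.1) Bf e0 r ε XX a.1) (hn : (π lam.1).n₃ ≠ 0) :
    ∃ g₁ g₂ : Eis, x.g' = g₁ * g₂ ^ 2 ∧ PrI (π lam.1).n₃ g₁ ∧ Squarefree g₁ ∧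
      PrI (π lam.1).n₃ g₂ ∧ nm g₁ ≤ nm (π lam.1).n₃ := by
  obtain ⟨g₁, g₂, h1, h2, h3, h4⟩ := exists_dec hx.g'
  refine ⟨g₁, g₂, h1, h2, h3, h4, Div277.nm_le_of_dvd hn ?_⟩
  have e1 : g₁ = ∏ p ∈ pp g₁, p := (prod_pp h2.1 h3).symm
  rw [e1]
  refine Finset.prod_dvd_of_coprime (fun p hp q hq hne => ?_) fun p hp => ?_
  · have k1 := isPP_of_mem_pp hp
    have k2 := isPP_of_mem_pp hq
    exact k1.isCoprime_iff.mpr fun h5 => hne (k1.eq_of_dvd k2 h5)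
  · exact h2.2 p (isPP_of_mem_pp hp).prime (dvd_of_mem_pp hp)

variable {g₁ g₂ D b : Eis} {Pp : Pf} {α : Eis → ℂ} {η : Eis → ℂ} {j : ℤ} {ξ κ Y Y' : ℝ}

/-- helper92's data at the prefix `(Pp, D, b)` -/
def dB (π : Λ → DPar) (lam : Λ × Eis) (Jf : ℝ → ℝ → ℝ → Finset (Eis × Eis)) (a : Bd × ℕ)
    (x : Dt) (α : Eis → ℂ) (g₁ g₂ : Eis) (Pp : Pf) (D b : Eis) (G : Eis → ℂ) (κ Y' : ℝ) : XD :=
  dX (π lam.1).n₃ (fun k => conj ((π lam.1).χ₃ k)) (π lam.1).l₃ Jf a x (x.E a.1) α g₁ g₂ Pp.B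
    (b ^ 2 * Pp.b) (Pp.R * Pp.R') D G κ Y' Y'

/-- **helper92's `okX` at a block** -/
theorem okX_blk (hP0 : (π lam.1).OK) (ha : a.1.ok) (hP : a.1.okP (π lam.1))
    (hx : x.OK (π lam.1) Bf e0 r ε XX a.1) (hJ : ∀ l N z, OKJ (Jf l N z)) (hF : JFull Jf)
    (hlv : a.2 < nL a.1.l (a3 a.1) a.1.z) (hα : FS α)
    (hY : 1 ≤ Y) (hlD : ∀ o : x.O π lam Jf a, lD o ≤ Y) (hnY : (nm (π lam.1).n₃ : ℝ) ≤ Y)
    (o₀ : x.O π lam Jf a)
    (hg₁ : PrI (π lam.1).n₃ g₁) (hg₁q : Squarefree g₁) (hg₂ : PrI (π lam.1).n₃ g₂)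
    (hg₁n : nm g₁ ≤ nm (π lam.1).n₃)
    (hR : PrI (Pp.B * (b ^ 2 * Pp.b)) (Pp.R * Pp.R')) (hb : IsPrim (b ^ 2 * Pp.b)) (hD : IsPrim D)
    {G : Eis → ℂ} (hG : Mul1 G) (hκ : 0 < κ) (hκY : κ ≤ Y') (h3 : Y ^ 3 ≤ Y')
    (hVY : 2 * 2 ^ a.2 * Y ≤ Y') :
    (dB π lam Jf a x α g₁ g₂ Pp D b G κ Y').OK := by
  have hY0 : 0 < Y := by linarith
  have hYY : Y ≤ Y' := (le_self_pow₀ hY (by norm_num)).trans h3
  obtain ⟨d1, d2, d3⟩ := BK858.dvd_o ha hP hx o₀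
  have hlo := hlD o₀
  have hsm : Sm (π lam.1).n₃ (o₀.1.1 * o₀.1.2) := by
    have h := o₀.2
    unfold Dt.O OD OU at h
    exact (mem_filter.mp h).2
  have hS1 : (1 : ℝ) ≤ nm o₀.1.1 := by
    exact_mod_cast nm_pos.mpr (left_ne_zero_of_mul hsm.ne_zero)
  have hν1 : (1 : ℝ) ≤ nm o₀.1.2 := by
    exact_mod_cast nm_pos.mpr (right_ne_zero_of_mul hsm.ne_zero)
  have hS : (nm o₀.1.1 : ℝ) ≤ Y := by
    refine le_trans ?_ hlo
    unfold lD
    rw [nm_mul]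
    push_cast
    nlinarith
  have hS0 : o₀.1.1 ≠ 0 := left_ne_zero_of_mul hsm.ne_zero
  have e1 : (nm x.g : ℝ) ≤ Y := le_trans (by exact_mod_cast Div277.nm_le_of_dvd hS0 d1) hS
  have e2 : (nm x.e₀ : ℝ) ≤ Y := le_trans (by exact_mod_cast Div277.nm_le_of_dvd hS0 d2) hS
  have e3 : (nm x.t : ℝ) ≤ Y := le_trans (by exact_mod_cast Div277.nm_le_of_dvd hS0 d3) hS
  have hEp : IsPrim (x.E a.1) := hP.1.prim.mul (T3_prim x.β hx.β)
  unfold dB
  refine okX hx ha hP hJ hF hlv hP0.χ₃.conj hEp hα hg₁ hg₁q hg₂ hR hb hD hG ?_ hκ hκY ?_ le_rfl ?_ ?_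
  · have : (0 : ℝ) ≤ 2 ^ a.2 := by positivity
    nlinarith
  · linarith
  · rw [nm_mul, nm_mul]
    push_cast
    calc (nm x.g : ℝ) * nm x.e₀ * nm x.t ≤ Y * Y * Y := by gcongr
      _ = Y ^ 3 := by ring
      _ ≤ Y' := h3
  · exact le_trans (by exact_mod_cast hg₁n) (hnY.trans hYY)

/-- **helper92's `okoX` at a block** -/
theorem okoX_blk (ha : a.1.ok) (hP : a.1.okP (π lam.1))
    (hx : x.OK (π lam.1) Bf e0 r ε XX a.1) (hJ : ∀ l N z, OKJ (Jf l N z))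
    (hY : 1 ≤ Y) (hlD : ∀ o : x.O π lam Jf a, lD o ≤ Y) {G : Eis → ℂ}
    (h3 : Y ^ 3 ≤ Y') (hVY : 2 * 2 ^ a.2 * Y ≤ Y') (Oc : Finset (x.O π lam Jf a)) :
    (dB π lam Jf a x α g₁ g₂ Pp D b G κ Y').OKo (Oc.image Subtype.val) := by
  have hY0 : 0 < Y := by linarith
  have hYY : Y ≤ Y' := (le_self_pow₀ hY (by norm_num)).trans h3
  unfold dB
  refine okoX hx ha hP hJ ?_ ?_
  · intro o ho
    obtain ⟨o', -, rfl⟩ := mem_image.mp ho
    exact o'.2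
  · intro o ho
    obtain ⟨o', -, rfl⟩ := mem_image.mp ho
    have hlo := hlD o'
    have hsm : Sm (π lam.1).n₃ (o'.1.1 * o'.1.2) := by
      have h := o'.2
      unfold Dt.O OD OU at h
      exact (mem_filter.mp h).2
    have hS1 : (1 : ℝ) ≤ nm o'.1.1 := by
      exact_mod_cast nm_pos.mpr (left_ne_zero_of_mul hsm.ne_zero)
    have hν1 : (1 : ℝ) ≤ nm o'.1.2 := by
      exact_mod_cast nm_pos.mpr (right_ne_zero_of_mul hsm.ne_zero)
    have hS : (nm o'.1.1 : ℝ) ≤ Y := by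
      refine le_trans ?_ hlo
      unfold lD
      rw [nm_mul]
      push_cast
      nlinarith
    have hν : (nm o'.1.2 : ℝ) ≤ Y := by
      refine le_trans ?_ hlo
      unfold lD
      rw [nm_mul]
      push_cast
      nlinarith
    refine ⟨hS.trans hYY, hν.trans hYY, le_trans ?_ hVY⟩
    gcongr

/-- **the sequences of the prefix**, any `α` -/
theorem v'_eqX {G G' : Eis → ℂ} (hok : (dB π lam Jf a x α g₁ g₂ Pp D b G' κ Y').OK)
    (hg : x.g' = g₁ * g₂ ^ 2) (hRp : IsPrim (Pp.R * Pp.R'))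
    (hG : ∀ y, Sm (π lam.1).n₃ y → G y = G' y) (o : x.O π lam Jf a) :
    (pkP Pp o D b).v' (fun o => vX (π lam.1).n₃ (fun k => conj ((π lam.1).χ₃ k)) (π lam.1).l₃
      (x.I Jf a) (omL a.2) x.ph (x.E a.1) α x.g x.e₀ x.t x.c₀ x.g' o) G =
      vC (dB π lam Jf a x α g₁ g₂ Pp D b G' κ Y').x (PC x.m)
        (dB π lam Jf a x α g₁ g₂ Pp D b G' κ Y').kk
        (dB π lam Jf a x α g₁ g₂ Pp D b G' κ Y').κ' o.1 := by
  have h1 := mom_eq hok hg o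
  unfold dB
  rw [← h1]
  unfold Px.v' pkP
  simp only
  refine tws_congr (M := (π lam.1).n₃) hRp (fun y hy => ?_) hG
  unfold vX vI at hy
  exact (pu_ne hy).1

/-- **the sequences of the prefix** -/
theorem v'_eq {G G' : Eis → ℂ}
    (hok : (dB π lam Jf a x (E5k54.alb (f3 (π lam.1) h lam.2 a.1) x.β) g₁ g₂ Pp D b G' κ Y').OK)
    (hg : x.g' = g₁ * g₂ ^ 2) (hRp : IsPrim (Pp.R * Pp.R'))
    (hG : ∀ y, Sm (π lam.1).n₃ y → G y = G' y) (o : x.O π lam Jf a) :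
    (pkP Pp o D b).v' (x.v π h lam Jf a) G =
      vC (dB π lam Jf a x (E5k54.alb (f3 (π lam.1) h lam.2 a.1) x.β) g₁ g₂ Pp D b G' κ Y').x
        (PC x.m)
        (dB π lam Jf a x (E5k54.alb (f3 (π lam.1) h lam.2 a.1) x.β) g₁ g₂ Pp D b G' κ Y').kk
        (dB π lam Jf a x (E5k54.alb (f3 (π lam.1) h lam.2 a.1) x.β) g₁ g₂ Pp D b G' κ Y').κ'
        o.1 :=
  v'_eqX hok hg hRp hG o

/-- an outer family on all pairs -/
def ext0 {OO : Finset (Eis × Eis)} (bm : {x // x ∈ OO} → Eis → ℂ) (o : Eis × Eis) : Eis → ℂ :=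
  if h : o ∈ OO then bm ⟨o, h⟩ else fun _ => 0

lemma ext0_val {OO : Finset (Eis × Eis)} (bm : {x // x ∈ OO} → Eis → ℂ) (o : {x // x ∈ OO}) :
    ext0 bm o.1 = bm o := by
  unfold ext0
  rw [dif_pos o.2]

/-- **the moment of the block** -/
theorem mom_sum {OO : Finset (Eis × Eis)} (M : Eis) (κ : ℝ) (Pk : Eis → Prop)
    (Oc : Finset {x // x ∈ OO}) (v' bm : {x // x ∈ OO} → Eis → ℂ) (V' : Eis × Eis → Eis → ℂ)
    (hV : ∀ o ∈ Oc, v' o = V' o.1) :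
    ∑ o ∈ Oc, ∑ k ∈ (Dk M κ).filter Pk, (nm k : ℝ)⁻¹ * (‖Sd (v' o) k‖ ^ 2 * ‖CS (bm o) k‖ ^ 2) =
      ∑ o ∈ Oc.image Subtype.val, XMbP M (V' o) (ext0 bm o) Pk κ := by
  rw [sum_image (fun o _ o' _ h => Subtype.ext h)]
  refine sum_congr rfl fun o ho => ?_
  unfold XMbP
  rw [ext0_val, hV o ho]

end cls

end Crest.Agent.R017.E4zh679
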