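import Crest.Agent.R017.E4zg_92

/-!
# Row 17, block C70, leaf E4 (x-side): the relations of a class (helper92)

* `rr1`, `rr2` : the square-free parts of the divisor of a prefix
* `OKs.R_eq`, `OKs.s_eq`, `OKs.w_eq`, `OKs.u_eq` : the factors of `R s`
* `Rel` : the relations between the sizes of a class;  `rel_of` : they hold
-/

set_option autoImplicit false
set_option linter.unusedVariables false
set_option linter.unusedSimpArgs false

noncomputable section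

open Finset

namespace Crest.Agent.R017.E4zg92

open Crest.Agent.R012 Crest.Agent.R012.Eis Crest.Agent.R012.Mob705
open Crest.Agent.R012.Div277 (dvs mem_dvs isPrim_of_mem_dvs dvd_of_mem_dvs nm_le_of_dvd)
open Crest.Agent.R017.Sx545 (Sm)
open Crest.Agent.R017.C70 (CbF JC)
open Crest.Agent.R017.E4352 (PrI)
open Crest.Agent.R017.GrB829 (IsC)
open Crest.Agent.R017.E4579 (SupB bpt bco bpt_prim bco_prim bpt_mul_bco bpt_sup bco_cop)
open Crest.Agent.R017.E4v92 (FF AA AA_spec)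
open Crest.Agent.R017.E4z92 (OKs)
open Crest.Agent.R017.E4RG858 (fm pow_dvd_iff dvd_iff_mult mult_mul mult_pow mult_eq_zero fac)
open Crest.Agent.R017.Str699 (b3 mult_sqf mult_JC mult_isC mult_self pS_prim ppSet_pp isC_ne)
open Crest.Agent.R017.E4U164 (pS)
open Crest.Agent.R017.E4zz92
open Crest.Agent.R017.E4X92

/-! ### the factors of `R s` -/

open Classical in
/-- the primes of `R` with exponent `k` -/
def rrk (k : ℕ) (R : Eis) : Eis := ∏ p ∈ (pp R).filter (fun p => multiplicity p R = k), p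

lemma rrk_prim (k : ℕ) (R : Eis) : IsPrim (rrk k R) := by
  classical
  unfold rrk
  exact E4BW858.isPrim_prod' fun _ hp => (isPP_of_mem_pp (mem_filter.mp hp).1).isPrim

lemma rrk_sqf (k : ℕ) (R : Eis) : Squarefree (rrk k R) := by
  classical
  unfold rrk
  exact PPSet.squarefree_prod fun q hq => isPP_of_mem_pp (mem_filter.mp hq).1

open Classical in
lemma mult_rrk {R : Eis} (hR : R ≠ 0) {k : ℕ} (hk : 1 ≤ k) {p : Eis} (hp : IsPP p) :
    multiplicity p (rrk k R) = if multiplicity p R = k then 1 else 0 := by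
  unfold rrk
  rw [mult_prod (fun q hq => isPP_of_mem_pp (mem_filter.mp hq).1) hp]
  congr 1
  rw [mem_filter, mem_pp hR]
  simp only [eq_iff_iff]
  constructor
  · rintro ⟨-, h⟩
    exact h
  · intro h
    exact ⟨⟨hp, (dvd_iff_mult hp.prime hR).mpr (by omega)⟩, h⟩

open Classical in
/-- the part of `s` at the primes of `R` -/
def sR (R s : Eis) : Eis := ∏ p ∈ (pp s).filter (fun p => p ∣ R), p

open Classical in
/-- the part of `s` prime to `R` and `S` -/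
def sU (R S s : Eis) : Eis := ∏ p ∈ (pp s).filter (fun p => ¬ p ∣ R ∧ ¬ p ∣ S), p

lemma sR_prim (R s : Eis) : IsPrim (sR R s) := by
  classical
  unfold sR
  exact E4BW858.isPrim_prod' fun _ hp => (isPP_of_mem_pp (mem_filter.mp hp).1).isPrim

lemma sU_prim (R S s : Eis) : IsPrim (sU R S s) := by
  classical
  unfold sU
  exact E4BW858.isPrim_prod' fun _ hp => (isPP_of_mem_pp (mem_filter.mp hp).1).isPrim

open Classical in
lemma mult_sR {R s : Eis} (hs : s ≠ 0) {p : Eis} (hp : IsPP p) :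
    multiplicity p (sR R s) = if p ∣ s ∧ p ∣ R then 1 else 0 := by
  unfold sR
  rw [mult_prod (fun q hq => isPP_of_mem_pp (mem_filter.mp hq).1) hp]
  congr 1
  rw [mem_filter, mem_pp hs]
  simp only [eq_iff_iff]
  exact ⟨fun h => ⟨h.1.2, h.2⟩, fun h => ⟨⟨hp, h.1⟩, h.2⟩⟩

open Classical in
lemma mult_sU {R S s : Eis} (hs : s ≠ 0) {p : Eis} (hp : IsPP p) :
    multiplicity p (sU R S s) = if p ∣ s ∧ ¬ p ∣ R ∧ ¬ p ∣ S then 1 else 0 := by
  unfold sU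
  rw [mult_prod (fun q hq => isPP_of_mem_pp (mem_filter.mp hq).1) hp]
  congr 1
  rw [mem_filter, mem_pp hs]
  simp only [eq_iff_iff]
  exact ⟨fun h => ⟨h.1.2, h.2⟩, fun h => ⟨⟨hp, h.1⟩, h.2⟩⟩

section oks

variable {R s S us u w : Eis}

/-- the local data of `R s` -/
lemma oks_loc (h : OKs R s S us u w) (hR : IsPrim R) (hsq : Squarefree s) (hRS : IsCoprime R S)
    {p : Eis} (hp : IsPP p) :
    multiplicity p R + multiplicity p s =
      multiplicity p us + multiplicity p u + 2 * multiplicity p w ∧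
    multiplicity p s ≤ 1 ∧ multiplicity p us + multiplicity p u ≤ 1 ∧ multiplicity p w ≤ 1 ∧
    (multiplicity p us + multiplicity p u = 0 ∨ multiplicity p w = 0) ∧
    (p ∣ S → multiplicity p u = 0 ∧ multiplicity p R = 0) ∧
    (¬ p ∣ S → multiplicity p us = 0) := by
  have e1 := congrArg (multiplicity p) h.hRs
  have h0 := mul_ne_zero h.hus.ne_zero h.hu.ne_zero
  rw [mult_mul hp.prime hR.ne_zero h.hs.ne_zero, mult_mul hp.prime h0
    (pow_ne_zero 2 h.hw.ne_zero), mult_mul hp.prime h.hus.ne_zero h.hu.ne_zero,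
    mult_pow hp.prime h.hw.ne_zero] at e1
  have e2 := mult_sqf hsq h.hs.ne_zero hp.prime
  have e3 := mult_sqf h.huq h0 hp.prime
  rw [mult_mul hp.prime h.hus.ne_zero h.hu.ne_zero] at e3
  have e4 := mult_sqf h.hwq h.hw.ne_zero hp.prime
  have e5 := not_both hp h0 h.hw.ne_zero h.huw
  rw [mult_mul hp.prime h.hus.ne_zero h.hu.ne_zero] at e5
  refine ⟨e1, e2, e3, e4, by omega, fun hd => ⟨?_, ?_⟩, fun hd => ?_⟩
  · exact mult_eq_zero hp.prime h.hu.ne_zero fun h2 =>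
      hp.prime.not_isUnit (h.huS.isUnit_of_dvd' h2 hd)
  · exact mult_eq_zero hp.prime hR.ne_zero fun h2 =>
      hp.prime.not_isUnit (hRS.isUnit_of_dvd' h2 hd)
  · exact mult_eq_zero hp.prime h.hus.ne_zero fun h2 => hd (h.husS p hp.prime h2)

theorem oks_R (h : OKs R s S us u w) (hR : IsPrim R) (hsq : Squarefree s)
    (hRS : IsCoprime R S) : R = rrk 1 R * rrk 2 R ^ 2 := by
  have q1 := rrk_prim 1 R
  have q2 := rrk_prim 2 R
  refine eq_of_mult hR (q1.mul (q2.pow 2)) fun p hp => ?_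
  obtain ⟨e1, e2, e3, e4, e5, e6, e7⟩ := oks_loc h hR hsq hRS hp
  rw [mult_mul hp.prime q1.ne_zero (pow_ne_zero 2 q2.ne_zero), mult_pow hp.prime q2.ne_zero,
    mult_rrk hR.ne_zero le_rfl hp, mult_rrk hR.ne_zero (by norm_num) hp]
  split_ifs <;> omega

theorem oks_s (h : OKs R s S us u w) (hR : IsPrim R) (hsq : Squarefree s)
    (hRS : IsCoprime R S) : s = us * (sR R s * sU R S s) := by
  have q1 := sR_prim R s
  have q2 := sU_prim R S s
  refine eq_of_mult h.hs (h.hus.mul (q1.mul q2)) fun p hp => ?_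
  obtain ⟨e1, e2, e3, e4, e5, e6, e7⟩ := oks_loc h hR hsq hRS hp
  rw [mult_mul hp.prime h.hus.ne_zero (mul_ne_zero q1.ne_zero q2.ne_zero),
    mult_mul hp.prime q1.ne_zero q2.ne_zero, mult_sR h.hs.ne_zero hp, mult_sU h.hs.ne_zero hp]
  rw [dvd_iff_mult hp.prime h.hs.ne_zero, dvd_iff_mult hp.prime hR.ne_zero]
  by_cases hd : p ∣ S
  · obtain ⟨e8, e9⟩ := e6 hd
    simp only [hd, not_true_eq_false, and_false, if_false]
    split_ifs <;> omega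
  · have e8 := e7 hd
    simp only [hd, not_false_eq_true, and_true]
    split_ifs <;> omega

theorem oks_w (h : OKs R s S us u w) (hR : IsPrim R) (hsq : Squarefree s)
    (hRS : IsCoprime R S) : w = rrk 2 R * sR R s := by
  have q1 := sR_prim R s
  have q2 := rrk_prim 2 R
  refine eq_of_mult h.hw (q2.mul q1) fun p hp => ?_
  obtain ⟨e1, e2, e3, e4, e5, e6, e7⟩ := oks_loc h hR hsq hRS hp
  rw [mult_mul hp.prime q2.ne_zero q1.ne_zero, mult_sR h.hs.ne_zero hp,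
    mult_rrk hR.ne_zero (by norm_num) hp]
  rw [dvd_iff_mult hp.prime h.hs.ne_zero, dvd_iff_mult hp.prime hR.ne_zero]
  by_cases hd : p ∣ S
  · obtain ⟨e8, e9⟩ := e6 hd
    split_ifs <;> omega
  · have e8 := e7 hd
    split_ifs <;> omega

theorem oks_u (h : OKs R s S us u w) (hR : IsPrim R) (hsq : Squarefree s)
    (hRS : IsCoprime R S) : u * sR R s = rrk 1 R * sU R S s := by
  have q1 := sR_prim R s
  have q2 := sU_prim R S s
  have q3 := rrk_prim 1 R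
  refine eq_of_mult (h.hu.mul q1) (q3.mul q2) fun p hp => ?_
  obtain ⟨e1, e2, e3, e4, e5, e6, e7⟩ := oks_loc h hR hsq hRS hp
  rw [mult_mul hp.prime h.hu.ne_zero q1.ne_zero, mult_mul hp.prime q3.ne_zero q2.ne_zero,
    mult_sR h.hs.ne_zero hp, mult_sU h.hs.ne_zero hp, mult_rrk hR.ne_zero le_rfl hp]
  rw [dvd_iff_mult hp.prime h.hs.ne_zero, dvd_iff_mult hp.prime hR.ne_zero]
  by_cases hd : p ∣ S
  · obtain ⟨e8, e9⟩ := e6 hd
    simp only [hd, not_true_eq_false, and_false, if_false]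
    split_ifs <;> omega
  · have e8 := e7 hd
    simp only [hd, not_false_eq_true, and_true]
    split_ifs <;> omega

/-- `sR` divides `rrk 1 R` -/
lemma sR_dvd (h : OKs R s S us u w) (hR : IsPrim R) (hsq : Squarefree s)
    (hRS : IsCoprime R S) : sR R s ∣ rrk 1 R := by
  classical
  refine dvd_of_primes (n := rrk 1 R) (by
    unfold sR
    exact PPSet.squarefree_prod fun q hq => isPP_of_mem_pp (mem_filter.mp hq).1) fun p hp hd => ?_
  unfold sR at hd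
  obtain ⟨q, hq, hpq⟩ := (Prime.dvd_finsetProd_iff hp _).mp hd
  obtain ⟨h1, h2⟩ := mem_filter.mp hq
  obtain ⟨hqp, h3⟩ := (mem_pp h.hs.ne_zero).mp h1
  obtain ⟨e1, e2, e3, e4, e5, e6, e7⟩ := oks_loc h hR hsq hRS hqp
  have f1 := (dvd_iff_mult hqp.prime h.hs.ne_zero).mp h3
  have f2 := (dvd_iff_mult hqp.prime hR.ne_zero).mp h2
  refine hpq.trans ((dvd_iff_mult hqp.prime (rrk_prim 1 R).ne_zero).mpr ?_)
  rw [mult_rrk hR.ne_zero le_rfl hqp, if_pos (by omega)]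

end oks

/-- divisibility by primary primes -/
lemma dvd_of_pp {n q : Eis} (hq : IsPrim q) (hs : Squarefree q)
    (h : ∀ p, IsPP p → p ∣ q → p ∣ n) : q ∣ n := by
  refine dvd_of_primes hs fun p0 hp0 hd0 => ?_
  have h1 : ¬ lam ∣ p0 := fun h' => hq.not_lam_dvd (h'.trans hd0)
  obtain ⟨p, hp, hpp⟩ := exists_pp_dvd h1 hp0.not_isUnit
  have h2 : Associated p p0 := hp.prime.associated_of_dvd hp0 hpp
  exact h2.dvd'.trans (h p hp (hpp.trans hd0))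

/-! ### sizes -/

/-- lower bound -/
def Lo (a x : ℕ) : Prop := 2 ^ x ≤ a

/-- upper bound -/
def Up (a x : ℕ) : Prop := a < 2 ^ x

lemma Lo.mul {a b x y : ℕ} (h : Lo a x) (h' : Lo b y) : Lo (a * b) (x + y) := by
  unfold Lo at *
  rw [pow_add]
  exact Nat.mul_le_mul h h'

lemma Up.mul {a b x y : ℕ} (h : Up a x) (h' : Up b y) : Up (a * b) (x + y) := by
  unfold Up at *
  rw [pow_add]
  exact Nat.mul_lt_mul_of_lt_of_le h h'.le (by positivity)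

lemma Lo.sq {a x : ℕ} (h : Lo a x) : Lo (a ^ 2) (2 * x) := by
  rw [pow_two, two_mul]; exact h.mul h

lemma Up.sq {a x : ℕ} (h : Up a x) : Up (a ^ 2) (2 * x) := by
  rw [pow_two, two_mul]; exact h.mul h

lemma lo_up {a x y : ℕ} (h : Lo a x) (h' : Up a y) : x < y := by
  unfold Lo Up at *
  exact (Nat.pow_lt_pow_iff_right (by norm_num)).mp (h.trans_lt h')

lemma lo_lg {x : Eis} (hx : x ≠ 0) : Lo (nm x) (lg x) :=
  Nat.pow_log_le_self 2 (nm_pos.mpr hx).ne'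

lemma up_lg (x : Eis) : Up (nm x) (lg x + 1) := Nat.lt_pow_succ_log_self one_lt_two _

/-- **the relations between the sizes of a class**: `m` the types, `γ = lg g₁`, `ρ1`, `ρ2` the parts
of the divisor of the prefix, `ς` the fixed part of `s` -/
structure Rel (m : Fin 2 → Fin 3 → ℕ) (γ ρ1 ρ2 ς : ℕ) (n : Fin 12 → ℕ) (nus nR nU : ℕ) :
    Prop where
  S1 : m 0 0 + m 0 1 + m 0 2 + 2 * (m 1 0 + m 1 1 + m 1 2) ≤ n 0
  S2 : n 0 ≤ m 0 0 + m 0 1 + m 0 2 + 2 * (m 1 0 + m 1 1 + m 1 2) + 8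
  b1 : m 0 1 + m 1 0 ≤ n 2
  b2 : n 2 ≤ m 0 1 + m 1 0 + 1
  ν1 : n 2 ≤ n 1
  P1 : n 3 + m 0 0 + m 1 2 + 2 * (m 0 1 + m 1 0) ≤
    m 0 1 + m 1 1 + 2 * (m 0 2 + m 1 2) + γ + n 5 + 2 * n 1 + 9
  P2 : m 0 1 + m 1 1 + 2 * (m 0 2 + m 1 2) + γ + n 5 + 2 * n 1 ≤
    n 3 + m 0 0 + m 1 2 + 2 * (m 0 1 + m 1 0) + 6
  σ1 : n 5 ≤ m 0 0 + m 1 2 + 1
  σ2 : m 0 0 + m 1 2 ≤ γ + n 5 + 1
  w1 : ρ2 + nR ≤ n 7
  w2 : n 7 ≤ ρ2 + nR + 1
  u1 : n 6 + nR ≤ ρ1 + nU + 1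
  u2 : ρ1 + nU ≤ n 6 + nR + 1
  s1 : nus + nR + nU ≤ n 4
  s2 : n 4 ≤ nus + nR + nU + 2
  us1 : nus ≤ n 5
  us2 : nus ≤ ς + m 1 2 + 1
  R1 : nR ≤ ρ1

/-- the class condition -/
def PCm (m : Fin 2 → Fin 3 → ℕ) (S J : Eis) : Prop :=
  ∀ b c, 2 ^ m b c ≤ nm (pS b c S J) ∧ nm (pS b c S J) < 2 ^ (m b c + 1)

section rel

variable {S c₀ g₁ ν σ : Eis}

/-- `PP` in terms of the types -/
theorem TF.PP_eq (h : TF S c₀ g₁ ν σ) :
    PP S g₁ ν σ * (pS 0 0 S (FF S c₀ g₁ ν σ) * pS 1 2 S (FF S c₀ g₁ ν σ)) *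
      (pS 0 1 S (FF S c₀ g₁ ν σ) * pS 1 0 S (FF S c₀ g₁ ν σ)) ^ 2 =
    pS 0 1 S (FF S c₀ g₁ ν σ) * pS 1 1 S (FF S c₀ g₁ ν σ) *
      (pS 0 2 S (FF S c₀ g₁ ν σ) * pS 1 2 S (FF S c₀ g₁ ν σ)) ^ 2 * g₁ * σ * ν ^ 2 := by
  have e1 := bpt_mul_bco h.hS h.hg
  have e2 := bpt_mul_bco h.hS h.hν
  rw [← h.σ_eq, ← h.ν_eq, ← h.A_eq, h.PPeq]
  generalize AS S g₁ ν σ = A at *
  calc A * (bco S g₁ * bco S ν ^ 2) * (bpt S g₁ * σ) * bpt S ν ^ 2 =
      A * (bpt S g₁ * bco S g₁) * σ * (bpt S ν * bco S ν) ^ 2 := by ring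
    _ = _ := by rw [e1, e2]

theorem rel_P (h : TF S c₀ g₁ ν σ) {m : Fin 2 → Fin 3 → ℕ} (hm : PCm m S (FF S c₀ g₁ ν σ)) :
    (m 0 0 + m 0 1 + m 0 2 + 2 * (m 1 0 + m 1 1 + m 1 2) ≤ lg S ∧
    lg S ≤ m 0 0 + m 0 1 + m 0 2 + 2 * (m 1 0 + m 1 1 + m 1 2) + 8) ∧
    (m 0 1 + m 1 0 ≤ lg (bpt S ν) ∧ lg (bpt S ν) ≤ m 0 1 + m 1 0 + 1 ∧ lg (bpt S ν) ≤ lg ν) ∧
    (lg (PP S g₁ ν σ) + m 0 0 + m 1 2 + 2 * (m 0 1 + m 1 0) ≤
      m 0 1 + m 1 1 + 2 * (m 0 2 + m 1 2) + lg g₁ + lg σ + 2 * lg ν + 9 ∧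
    m 0 1 + m 1 1 + 2 * (m 0 2 + m 1 2) + lg g₁ + lg σ + 2 * lg ν ≤
      lg (PP S g₁ ν σ) + m 0 0 + m 1 2 + 2 * (m 0 1 + m 1 0) + 6) ∧
    (lg σ ≤ m 0 0 + m 1 2 + 1 ∧ m 0 0 + m 1 2 ≤ lg g₁ + lg σ + 1) := by
  have lo : ∀ b c, Lo (nm (pS b c S (FF S c₀ g₁ ν σ))) (m b c) := fun b c => (hm b c).1
  have up : ∀ b c, Up (nm (pS b c S (FF S c₀ g₁ ν σ))) (m b c + 1) := fun b c => (hm b c).2
  have eS := congrArg nm h.S_eq
  have eν := congrArg nm h.ν_eq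
  have eσ := congrArg nm h.σ_eq
  have eP := congrArg nm h.PP_eq
  set J := FF S c₀ g₁ ν σ with hJ
  simp only [nm_mul, nm_pow] at eS eν eσ eP
  have lS := lo_lg h.hS.ne_zero
  have uS := up_lg S
  have lν := lo_lg h.hν.ne_zero
  have uν := up_lg ν
  have lσ := lo_lg h.hσ.ne_zero
  have uσ := up_lg σ
  have lg1 := lo_lg h.hg.ne_zero
  have ug1 := up_lg g₁
  have lP := lo_lg h.Pp.ne_zero
  have uP := up_lg (PP S g₁ ν σ)
  have hbp := bpt_prim h.hS h.hν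
  have lb := lo_lg hbp.ne_zero
  have ub := up_lg (bpt S ν)
  have hbg := bpt_prim h.hS h.hg
  refine ⟨⟨?_, ?_⟩, ⟨?_, ?_, ?_⟩, ⟨?_, ?_⟩, ⟨?_, ?_⟩⟩
  · have h1 : Lo (nm S) (m 0 0 + m 0 1 + m 0 2 + 2 * (m 1 0 + m 1 1 + m 1 2)) := by
      rw [eS]
      exact (((lo 0 0).mul (lo 0 1)).mul (lo 0 2)).mul ((((lo 1 0).mul (lo 1 1)).mul (lo 1 2)).sq)
    have := lo_up h1 uS
    omega
  · have h1 : Up (nm S) (m 0 0 + 1 + (m 0 1 + 1) + (m 0 2 + 1) +
        2 * (m 1 0 + 1 + (m 1 1 + 1) + (m 1 2 + 1))) := by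
      rw [eS]
      exact (((up 0 0).mul (up 0 1)).mul (up 0 2)).mul ((((up 1 0).mul (up 1 1)).mul (up 1 2)).sq)
    have := lo_up lS h1
    omega
  · have h1 : Lo (nm (bpt S ν)) (m 0 1 + m 1 0) := by
      rw [eν]; exact (lo 0 1).mul (lo 1 0)
    have := lo_up h1 ub
    omega
  · have h1 : Up (nm (bpt S ν)) (m 0 1 + 1 + (m 1 0 + 1)) := by
      rw [eν]; exact (up 0 1).mul (up 1 0)
    have := lo_up lb h1
    omega
  · unfold lg
    exact Nat.log_mono_right (nm_le_of_dvd h.hν.ne_zero (E4579.bpt_dvd h.hS h.hν))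
  · have h1 : Lo (nm (PP S g₁ ν σ) * (nm (pS 0 0 S J) * nm (pS 1 2 S J)) *
        (nm (pS 0 1 S J) * nm (pS 1 0 S J)) ^ 2)
        (lg (PP S g₁ ν σ) + (m 0 0 + m 1 2) + 2 * (m 0 1 + m 1 0)) :=
      (lP.mul ((lo 0 0).mul (lo 1 2))).mul (((lo 0 1).mul (lo 1 0)).sq)
    rw [eP] at h1
    have h2 : Up (nm (pS 0 1 S J) * nm (pS 1 1 S J) * (nm (pS 0 2 S J) * nm (pS 1 2 S J)) ^ 2 *
        nm g₁ * nm σ * nm ν ^ 2) (m 0 1 + 1 + (m 1 1 + 1) + 2 * (m 0 2 + 1 + (m 1 2 + 1)) +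
        (lg g₁ + 1) + (lg σ + 1) + 2 * (lg ν + 1)) :=
      (((((up 0 1).mul (up 1 1)).mul (((up 0 2).mul (up 1 2)).sq)).mul ug1).mul uσ).mul uν.sq
    have := lo_up h1 h2
    omega
  · have h1 : Up (nm (PP S g₁ ν σ) * (nm (pS 0 0 S J) * nm (pS 1 2 S J)) *
        (nm (pS 0 1 S J) * nm (pS 1 0 S J)) ^ 2)
        (lg (PP S g₁ ν σ) + 1 + (m 0 0 + 1 + (m 1 2 + 1)) + 2 * (m 0 1 + 1 + (m 1 0 + 1))) :=
      (uP.mul ((up 0 0).mul (up 1 2))).mul (((up 0 1).mul (up 1 0)).sq)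
    rw [eP] at h1
    have h2 : Lo (nm (pS 0 1 S J) * nm (pS 1 1 S J) * (nm (pS 0 2 S J) * nm (pS 1 2 S J)) ^ 2 *
        nm g₁ * nm σ * nm ν ^ 2) (m 0 1 + m 1 1 + 2 * (m 0 2 + m 1 2) +
        lg g₁ + lg σ + 2 * lg ν) :=
      (((((lo 0 1).mul (lo 1 1)).mul (((lo 0 2).mul (lo 1 2)).sq)).mul lg1).mul lσ).mul lν.sq
    have := lo_up h2 h1
    omega
  · have h1 : Up (nm (bpt S g₁) * nm σ) (m 0 0 + 1 + (m 1 2 + 1)) := by
      rw [eσ]; exact (up 0 0).mul (up 1 2)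
    have h2 : Lo (nm (bpt S g₁) * nm σ) (lg (bpt S g₁) + lg σ) :=
      (lo_lg hbg.ne_zero).mul lσ
    have := lo_up h2 h1
    omega
  · have h1 : Lo (nm (bpt S g₁) * nm σ) (m 0 0 + m 1 2) := by
      rw [eσ]; exact (lo 0 0).mul (lo 1 2)
    have h2 : Up (nm (bpt S g₁) * nm σ) (lg (bpt S g₁) + 1 + (lg σ + 1)) :=
      (up_lg _).mul uσ
    have := lo_up h1 h2
    have h3 : lg (bpt S g₁) ≤ lg g₁ := by
      unfold lg
      exact Nat.log_mono_right (nm_le_of_dvd h.hg.ne_zero (E4579.bpt_dvd h.hS h.hg))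
    omega

/-- the primes of the `S`-part of `s` -/
lemma us_dvd {q F0 s s₁ R us τ u w : Eis} (h : TF S c₀ g₁ ν (us * τ)) (ho : OKs R s S us u w)
    (hR : IsPrim R) (hsq : Squarefree s) (hRS : IsCoprime R S)
    (hq : IsPrim q) (hqq : Squarefree q) (h1 : q ^ 2 ∣ S) (h2 : S ∣ q ^ 2 * F0)
    (hPs : ∀ p, Prime p → p ∣ s → p ∣ F0 → p ∣ s₁) :
    us ∣ s₁ * pS 1 2 S (FF S c₀ g₁ ν (us * τ)) := by
  refine dvd_of_pp ho.hus ho.huq.of_mul_left fun p hp hd => ?_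
  have hpS : p ∣ S := ho.husS p hp.prime hd
  obtain ⟨e1, e2, e3, e4, e5, e6, e7⟩ := oks_loc ho hR hsq hRS hp
  have f1 := (dvd_iff_mult hp.prime ho.hus.ne_zero).mp hd
  obtain ⟨f2, f3⟩ := e6 hpS
  have hps : p ∣ s := (dvd_iff_mult hp.prime ho.hs.ne_zero).mpr (by omega)
  by_cases hF : p ∣ F0
  · exact (hPs p hp.prime hps hF).mul_right _
  · refine Dvd.dvd.mul_left ?_ _
    obtain ⟨g1, g2, g3, g4, g5, g6⟩ := h.loc hp hpS
    have hτ0 : τ ≠ 0 := right_ne_zero_of_mul h.hσ.ne_zero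
    rw [mult_mul hp.prime ho.hus.ne_zero hτ0] at g5 g6
    -- the multiplicity of `S`
    have k1 : multiplicity p q ≤ 1 := mult_sqf hqq hq.ne_zero hp.prime
    have k2 : p ∣ q := by
      rcases hp.prime.dvd_or_dvd (hpS.trans h2) with h3 | h3
      · exact hp.prime.dvd_of_dvd_pow h3
      · exact absurd h3 hF
    have k3 : 2 ≤ multiplicity p S := by
      rw [← pow_dvd_iff hp.prime h.hS.ne_zero]
      exact (pow_dvd_pow_of_dvd k2 2).trans h1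
    rw [dvd_iff_mult hp.prime (pS_prim _ _ _ _).ne_zero, mult_pS h.hS.ne_zero hp, if_pos]
    refine ⟨hpS, ?_, ?_⟩
    · show multiplicity p S = 1 + 1
      omega
    · show multiplicity p (FF S c₀ g₁ ν (us * τ)) = 2
      rw [g1]
      omega

end rel

end Crest.Agent.R017.E4zg92
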