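import Crest.Agent.R017.E4zi_92

/-!
# Row 17, block C70, leaf E4 (x-side): the total over a block (helper92)

* `XC` : the outer indices of a block;  `tf_of` : the tuples of a class
* `XD.Kf`, `KRel` : the keys;  `YsC` : the cube parts
* `hcr_of` : the hypotheses `XF.HCR`
* `xclass` : **the moments of a block of the structured `x`-side**
-/

set_option autoImplicit false
set_option linter.unusedVariables false
set_option linter.unusedSimpArgs false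
set_option maxHeartbeats 400000

noncomputable section

open Finset

namespace Crest.Agent.R017.E4zg92

open Crest.Agent.R012 Crest.Agent.R012.Eis Crest.Agent.R012.Mob705
open Crest.Agent.R012.LS2 (S mem_S)
open Crest.Agent.R012.Div277 (dvs mem_dvs isPrim_of_mem_dvs dvd_of_mem_dvs nm_le_of_dvd tau
  tau_le_rpow)
open Crest.Agent.R017.Sx545 (Sm)
open Crest.Agent.R017.C70 (CbF JC)
open Crest.Agent.R017.E4352 (PrI rd dvd_rd)
open Crest.Agent.R017.GrB829 (IsC)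
open Crest.Agent.R017.E4579 (SupB bpt bco bpt_prim bco_prim bpt_mul_bco bpt_sup bco_cop)
open Crest.Agent.R017.E4v92 (FF AA AA_spec)
open Crest.Agent.R017.E4z92 (OKs Ss mem_Ss)
open Crest.Agent.R017.E4zc92
open Crest.Agent.R017.E4RG858 (fm pow_dvd_iff dvd_iff_mult mult_mul mult_pow mult_eq_zero fac)
open Crest.Agent.R017.Str699 (b3 mult_sqf mult_JC mult_isC mult_self pS_prim ppSet_pp isC_ne)
open Crest.Agent.R017.E4U164 (pS)
open Crest.Agent.R017.E4zf92 (PC)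
open Crest.Agent.R017.E4F266 (IP IP_mem)
open Crest.Agent.R017.E4zz92
open Crest.Agent.R017.E4X92

/-! ### the tuples of a class -/

/-- the primes of `s` at the fixed part -/
def PsF (F0 s₁ s : Eis) : Prop :=
  IsPrim s → Squarefree s → ∀ p, Prime p → p ∣ s → p ∣ F0 → p ∣ s₁

/-- the class condition of a tuple -/
def ClS (x : XF) (P : Eis → Eis → Prop) (s₁ : Eis) (a : Tu) : Prop :=
  clA x P a ∧ PsF x.F0 s₁ a.s

lemma cz_eY {x : XF} {bm κ' : Eis → ℂ} {k : ℂ} {a : Tu} {i : Eis × Eis}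
    (h : x.cz bm k κ' a i ≠ 0) :
    IsCoprime (a.us * a.τ) x.M ∧ IsCoprime (a.us * a.τ) a.ν := by
  unfold XF.cz E4z92.cZ at h
  have h0 := left_ne_zero_of_mul (right_ne_zero_of_mul (right_ne_zero_of_mul h))
  have h1 := left_ne_zero_of_mul h0
  unfold E4v92.cfS at h1
  split_ifs at h1 with hc
  · have h3 := left_ne_zero_of_mul (left_ne_zero_of_mul h1)
    have h4 := left_ne_zero_of_mul h3
    unfold E4v92.eY at h4
    split_ifs at h4 with h5
    · exact ⟨h5.1.2.of_mul_left_left, h5.2⟩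
    · exact absurd rfl h4
  · exact absurd rfl h1

/-- hypotheses on the outer indices of a block -/
structure XC (d : XD) (OO : Finset (Eis × Eis)) (m : Fin 2 → Fin 3 → ℕ) (β₀ : Eis) : Prop where
  h : d.OK
  ho : d.OKo OO
  P : d.P = PC m
  h2 : ∀ o ∈ OO, ∀ p, IsPP p → multiplicity p o.1 ≤ 2
  b : ∀ o ∈ OO, b3 (o.1 * o.2) = β₀
  R : ∀ o ∈ OO, IsCoprime d.Pr o.1

section cls

variable {d : XD} {OO : Finset (Eis × Eis)} {m : Fin 2 → Fin 3 → ℕ} {β₀ s₁ : Eis}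

lemma cop_of_PrI {M a b : Eis} (ha : PrI M a) (hb : IsCoprime b M) : IsCoprime a b := by
  refine isCoprime_of_prime_dvd (fun h => ha.1.ne_zero h.1) fun p hp h1 h2 => ?_
  exact hp.not_isUnit (hb.isUnit_of_dvd' h2 (ha.2 p hp h1))

/-- **the tuples of a class** -/
theorem tf_of (C : XC d OO m β₀) {o : Eis × Eis} (hm : o ∈ OO) {s τ g h : Eis}
    (hτ : τ ∈ dvs (rd o.1)) {a : Tu} (ha : a = d.x.tu d.qc o s τ g h 1)
    (hc : clA d.x d.P a) (hco : IsCoprime a.us a.τ) (hM : IsCoprime (a.us * a.τ) d.M)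
    (hν : IsCoprime (a.us * a.τ) a.ν) :
    TF (d.x.Sf a.q) d.c₀ d.g₁ a.ν (a.us * a.τ) := by
  have hS := o1_prim C.h C.ho hm
  have e1 : d.x.Sf a.q = o.1 := by rw [ha]; exact (qc_spec C.ho hm).2
  have e2 : a.ν = o.2 := by rw [ha]; rfl
  have e3 : a.τ = τ := by rw [ha]; rfl
  have hτp : IsPrim τ := isPrim_of_mem_dvs hτ
  obtain ⟨hτq, hτS⟩ := (dvd_rd hS.ne_zero hτp).mp (dvd_of_mem_dvs hτ)
  obtain ⟨⟨us, u, w, hs0⟩, h1, h2⟩ := hc
  have hs := dsf_spec hs0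
  have e4 : (dsf d.x.R a.s (d.x.Sf a.q)).1 = a.us := by
    rw [e1]
    rw [ha]
    rfl
  rw [e4] at hs
  have hνS := C.ho.ν o hm
  have hνp : IsPrim a.ν := by rw [e2]; exact hνS.1
  refine ⟨by rw [e1]; exact hS, by rw [e1]; exact C.h2 o hm, C.h.c₀, C.h.g₁.1, C.h.g₁q, hνp,
    by rw [e2]; exact C.ho.νq o hm, hs.hus.mul (by rw [e3]; exact hτp), ?_, ?_, ?_, ?_, hν, h2⟩
  · exact squarefree_mul_iff.mpr ⟨hco.isRelPrime, hs.huq.of_mul_left, by rw [e3]; exact hτq⟩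
  · refine hs.husS.mul ?_
    rw [e1, e3]
    exact hτS
  · rw [e2]
    exact cop_of_PrI C.h.g₁ hνS.2
  · exact cop_of_PrI C.h.g₁ hM

end cls

/-! ### keys -/

open Classical in
/-- the keys: `(pS 0 1 (pS 0 2)², ν₀ pS 1 2)` -/
def _root_.Crest.Agent.R017.E4zc92.XD.Kf (d : XD) (_n : Fin 12 → ℕ) (q ν σ : Eis) : Eis × Eis :=
  if TF (d.sf q) d.c₀ d.g₁ ν σ then
    (pS 0 1 (d.sf q) (FF (d.sf q) d.c₀ d.g₁ ν σ) *
      pS 0 2 (d.sf q) (FF (d.sf q) d.c₀ d.g₁ ν σ) ^ 2,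
      bco (d.sf q) ν * pS 1 2 (d.sf q) (FF (d.sf q) d.c₀ d.g₁ ν σ))
  else (1, 1)

open Classical in
/-- the set of the keys -/
def _root_.Crest.Agent.R017.E4zc92.XD.Ad (d : XD) : Finset (Eis × Eis) :=
  ((dvs d.x.F0 ×ˢ dvs d.x.F0).image (fun z => z.1 * z.2 ^ 2)) ×ˢ primBall ⌊d.Y ^ 2⌋₊

/-- the sizes of the keys -/
structure KRel (m : Fin 2 → Fin 3 → ℕ) (β₀ : Eis) (n : Fin 12 → ℕ) (k : Eis × Eis) : Prop where
  p1 : IsPrim k.1
  p2 : IsPrim k.2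
  d1 : 2 ^ (m 0 1 + 2 * m 0 2) ≤ nm k.1
  d2 : nm k.1 < 2 ^ (m 0 1 + 2 * m 0 2 + 3)
  r1 : 2 ^ (n 1 + m 1 2) ≤ nm k.2 * 2 ^ (n 2 + 1)
  r2 : nm k.2 * 2 ^ n 2 < 2 ^ (n 1 + m 1 2 + 2)
  P : nm (Ak k) < 2 ^ (n 3 + 1)
  β : lg β₀ = m 1 0

open Classical in
/-- the cube parts -/
def YsC (g₁ : Eis) (m : Fin 2 → Fin 3 → ℕ) (n : Fin 12 → ℕ) (e : Eis) : Finset Eis :=
  (dvs (g₁ * e) ×ˢ primBall (2 ^ (m 1 1 + m 1 2 + 2 + (n 1 - n 2 + 1)))).image
    (fun z => z.1 * z.2)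

section key

variable {S c₀ g₁ ν σ q F0 : Eis} {m : Fin 2 → Fin 3 → ℕ} {n : Fin 12 → ℕ} {β₀ : Eis}

lemma TF.Ak_dvd (h : TF S c₀ g₁ ν σ) :
    Ak (pS 0 1 S (FF S c₀ g₁ ν σ) * pS 0 2 S (FF S c₀ g₁ ν σ) ^ 2,
      bco S ν * pS 1 2 S (FF S c₀ g₁ ν σ)) ∣ PP S g₁ ν σ := by
  rw [h.PPeq, h.A_eq]
  unfold Ak
  exact ⟨pS 1 1 S (FF S c₀ g₁ ν σ) * bco S g₁, by ring⟩

/-- the parts with `v_p(S) = 1` divide the fixed part -/
lemma pS0_dvd {J : Eis} (hS : IsPrim S) (h1 : q ^ 2 ∣ S) (h2 : S ∣ q ^ 2 * F0) (c : Fin 3) :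
    pS 0 c S J ∣ F0 := by
  refine dvd_of_pp (pS_prim 0 c S J) (pS_sqf 0 c S J) fun p hp hd => ?_
  have h3 := (dvd_iff_mult hp.prime (pS_prim 0 c S J).ne_zero).mp hd
  rw [mult_pS hS.ne_zero hp] at h3
  split_ifs at h3 with h4
  · obtain ⟨g1, g2, g3⟩ := h4
    have g2' : multiplicity p S = 1 := g2
    rcases hp.prime.dvd_or_dvd (g1.trans h2) with h5 | h5
    · exfalso
      have h6 : p ^ 2 ∣ S := (pow_dvd_pow_of_dvd (hp.prime.dvd_of_dvd_pow h5) 2).trans h1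
      have h7 := (pow_dvd_iff hp.prime hS.ne_zero).mp h6
      omega
    · exact h5
  · omega

lemma pS_dvd' {J : Eis} (hS : IsPrim S) (b : Fin 2) (c : Fin 3) : pS b c S J ∣ S :=
  dvd_of_pp (pS_prim b c S J) (pS_sqf b c S J) fun p hp hd => pS_dvd hS.ne_zero b c hp.prime hd

/-- **the sizes of the keys** -/
theorem krel_of (h : TF S c₀ g₁ ν σ) (hm : PC m S (FF S c₀ g₁ ν σ)) (hβ : b3 (S * ν) = β₀)
    (n1 : lg ν = n 1) (n2 : lg (bpt S ν) = n 2) (n3 : lg (PP S g₁ ν σ) = n 3) :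
    KRel m β₀ n (pS 0 1 S (FF S c₀ g₁ ν σ) * pS 0 2 S (FF S c₀ g₁ ν σ) ^ 2,
      bco S ν * pS 1 2 S (FF S c₀ g₁ ν σ)) := by
  have lo : ∀ b c, Lo (nm (pS b c S (FF S c₀ g₁ ν σ))) (m b c) := fun b c => (hm b c).1
  have up : ∀ b c, Up (nm (pS b c S (FF S c₀ g₁ ν σ))) (m b c + 1) := fun b c => (hm b c).2
  have q0 : ∀ b c, IsPrim (pS b c S (FF S c₀ g₁ ν σ)) := fun b c => pS_prim b c _ _
  have hco := bco_prim h.hS h.hν
  have hbp := bpt_prim h.hS h.hν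
  have eν : nm (bpt S ν) * nm (bco S ν) = nm ν := by
    rw [← nm_mul, bpt_mul_bco h.hS h.hν]
  have lν := lo_lg h.hν.ne_zero
  have uν := up_lg ν
  have lb := lo_lg hbp.ne_zero
  have ub := up_lg (bpt S ν)
  rw [n1] at lν uν
  rw [n2] at lb ub
  have hAk := h.Ak_dvd
  refine ⟨(q0 0 1).mul ((q0 0 2).pow 2), hco.mul (q0 1 2), ?_, ?_, ?_, ?_, ?_, ?_⟩
  · have := (lo 0 1).mul (lo 0 2).sq
    show Lo (nm (_ * _ ^ 2)) _
    rw [nm_mul, nm_pow]
    exact this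
  · have h1 := (up 0 1).mul (up 0 2).sq
    show nm (_ * _ ^ 2) < _
    rw [nm_mul, nm_pow]
    refine lt_of_lt_of_le h1 (Nat.pow_le_pow_right (by norm_num) (by omega))
  · show 2 ^ (n 1 + m 1 2) ≤ nm (_ * _) * 2 ^ (n 2 + 1)
    rw [nm_mul]
    have h1 : Lo (nm ν * nm (pS 1 2 S (FF S c₀ g₁ ν σ))) (n 1 + m 1 2) := lν.mul (lo 1 2)
    have h2 : nm ν ≤ nm (bco S ν) * 2 ^ (n 2 + 1) := by
      rw [← eν, mul_comm]
      exact Nat.mul_le_mul_left _ ub.le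
    calc 2 ^ (n 1 + m 1 2) ≤ nm ν * nm (pS 1 2 S (FF S c₀ g₁ ν σ)) := h1
      _ ≤ nm (bco S ν) * 2 ^ (n 2 + 1) * nm (pS 1 2 S (FF S c₀ g₁ ν σ)) :=
          Nat.mul_le_mul_right _ h2
      _ = _ := by ring
  · show nm (_ * _) * 2 ^ n 2 < _
    rw [nm_mul]
    have h1 : Up (nm ν * nm (pS 1 2 S (FF S c₀ g₁ ν σ))) (n 1 + 1 + (m 1 2 + 1)) := uν.mul (up 1 2)
    have h2 : nm (bco S ν) * 2 ^ n 2 ≤ nm ν := by
      rw [← eν, mul_comm]
      exact Nat.mul_le_mul_right _ lb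
    calc nm (bco S ν) * nm (pS 1 2 S (FF S c₀ g₁ ν σ)) * 2 ^ n 2 =
        nm (bco S ν) * 2 ^ n 2 * nm (pS 1 2 S (FF S c₀ g₁ ν σ)) := by ring
      _ ≤ nm ν * nm (pS 1 2 S (FF S c₀ g₁ ν σ)) := Nat.mul_le_mul_right _ h2
      _ < 2 ^ (n 1 + 1 + (m 1 2 + 1)) := h1
      _ = _ := by congr 1; omega
  · have h1 := nm_le_of_dvd h.Pp.ne_zero hAk
    have h2 := up_lg (PP S g₁ ν σ)
    rw [n3] at h2
    exact lt_of_le_of_lt h1 h2
  · rw [← hβ, h.b3_eq]
    have h1 := lo_up (lo 1 0) (up_lg (pS 1 0 S (FF S c₀ g₁ ν σ)))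
    have h2 := lo_up (lo_lg (q0 1 0).ne_zero) (up 1 0)
    omega

/-- **the cube parts** -/
theorem ys_of (h : TF S c₀ g₁ ν σ) (hm : PC m S (FF S c₀ g₁ ν σ))
    (n1 : lg ν = n 1) (n2 : lg (bpt S ν) = n 2) {y : Eis} (hy : IsPrim y) (hyq : Squarefree y)
    (hd : y ∣ PP S g₁ ν σ) :
    y ∈ YsC g₁ m n (pS 0 1 S (FF S c₀ g₁ ν σ) * pS 0 2 S (FF S c₀ g₁ ν σ) ^ 2) := by
  classical
  have up : ∀ b c, Up (nm (pS b c S (FF S c₀ g₁ ν σ))) (m b c + 1) := fun b c => (hm b c).2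
  have q0 : ∀ b c, IsPrim (pS b c S (FF S c₀ g₁ ν σ)) := fun b c => pS_prim b c _ _
  set J := FF S c₀ g₁ ν σ with hJ
  set e := pS 0 1 S J * pS 0 2 S J ^ 2 with he
  have hep : IsPrim e := (q0 0 1).mul ((q0 0 2).pow 2)
  have hgp : IsPrim (g₁ * e) := h.hg.mul hep
  have e1 := bpt_mul_bco hgp hy
  have hb := bpt_prim hgp hy
  have hc := bco_prim hgp hy
  unfold YsC
  rw [mem_image]
  refine ⟨(bpt (g₁ * e) y, bco (g₁ * e) y), mem_product.mpr ⟨?_, ?_⟩, e1⟩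
  · refine (mem_dvs hgp.ne_zero).mpr ⟨hb, dvd_of_pp hb ?_ fun p hp hd => ?_⟩
    · exact hyq.squarefree_of_dvd (E4579.bpt_dvd hgp hy)
    · exact bpt_sup hgp hy p hp.prime hd
  · refine mem_primBall.mpr ⟨?_, hc⟩
    have hco := bco_prim h.hS h.hν
    have hbp := bpt_prim h.hS h.hν
    -- the cofactor divides the rest
    have h1 : bco (g₁ * e) y ∣ pS 1 1 S J * pS 1 2 S J * bco S ν := by
      refine dvd_of_pp hc ?_ fun p hp hd' => ?_
      · exact hyq.squarefree_of_dvd (bco_dvd' hgp hy)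
      · have hnd : ¬ p ∣ g₁ * e := fun h2 =>
          hp.prime.not_isUnit ((bco_cop hgp hy).isUnit_of_dvd' hd' h2)
        have hpP : p ∣ PP S g₁ ν σ := (hd'.trans (bco_dvd' hgp hy)).trans hd
        rw [h.PPeq, h.A_eq] at hpP
        have hP := hp.prime
        rcases hP.dvd_or_dvd hpP with h2 | h2
        · rcases hP.dvd_or_dvd h2 with h3 | h3
          · rcases hP.dvd_or_dvd h3 with h4 | h4
            · exact absurd ((h4.mul_right _).mul_left _) hnd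
            · exact (h4.mul_right _).mul_right _
          · rcases hP.dvd_or_dvd (hP.dvd_of_dvd_pow h3) with h4 | h4
            · exact absurd (((h4.trans (dvd_pow_self _ two_ne_zero)).mul_left _).mul_left _) hnd
            · exact (h4.mul_left _).mul_right _
        · rcases hP.dvd_or_dvd h2 with h3 | h3
          · exact absurd ((h3.trans (bco_dvd' h.hS h.hg)).mul_right _) hnd
          · exact (hP.dvd_of_dvd_pow h3).mul_left _
    have h2 := nm_le_of_dvd (mul_ne_zero (mul_ne_zero (q0 1 1).ne_zero (q0 1 2).ne_zero)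
      hco.ne_zero) h1
    rw [nm_mul, nm_mul] at h2
    have eν : nm (bpt S ν) * nm (bco S ν) = nm ν := by
      rw [← nm_mul, bpt_mul_bco h.hS h.hν]
    have uν := up_lg ν
    have lb := lo_lg hbp.ne_zero
    rw [n1] at uν
    rw [n2] at lb
    have n21 : n 2 ≤ n 1 := by
      have h3 : lg (bpt S ν) ≤ lg ν := by
        unfold lg
        exact Nat.log_mono_right (nm_le_of_dvd h.hν.ne_zero (E4579.bpt_dvd h.hS h.hν))
      omega
    have h3 : Up (nm (bco S ν)) (n 1 - n 2 + 1) := by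
      unfold Up at uν ⊢
      unfold Lo at lb
      by_contra hcon
      rw [not_lt] at hcon
      have h4 : 2 ^ (n 2) * 2 ^ (n 1 - n 2 + 1) ≤ nm (bpt S ν) * nm (bco S ν) :=
        Nat.mul_le_mul lb hcon
      rw [eν, ← pow_add] at h4
      have h5 : n 2 + (n 1 - n 2 + 1) = n 1 + 1 := by omega
      rw [h5] at h4
      omega
    have h4 := ((up 1 1).mul (up 1 2)).mul h3
    have h5 : nm (bco (g₁ * e) y) ≤ 2 ^ (m 1 1 + 1 + (m 1 2 + 1) + (n 1 - n 2 + 1)) :=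
      h2.trans h4.le
    refine h5.trans (le_of_eq ?_)
    congr 1
    omega

open Classical in
/-- the `S`-part of `ν` is a divisor of the fixed part times the cube part -/
theorem bpt_eq_b3 (hS : IsPrim S) (h2 : ∀ p, IsPP p → multiplicity p S ≤ 2) (hν : IsPrim ν)
    (hνq : Squarefree ν) (h1 : q ^ 2 ∣ S) (hSd : S ∣ q ^ 2 * F0) (hF : F0 ≠ 0) :
    ∃ e ∈ dvs F0, bpt S ν = e * b3 (S * ν) := by
  have h0 : S * ν ≠ 0 := mul_ne_zero hS.ne_zero hν.ne_zero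
  set T := (pp S).filter (fun p => multiplicity p S = 1 ∧ p ∣ ν) with hT
  have hTp : PPSet T := fun p hp => isPP_of_mem_pp (mem_filter.mp hp).1
  have hp0 : IsPrim (∏ p ∈ T, p) := E4BW858.isPrim_prod' fun p hp => (hTp p hp).isPrim
  refine ⟨∏ p ∈ T, p, (mem_dvs hF).mpr ⟨hp0, dvd_of_pp hp0 (PPSet.squarefree_prod hTp)
    fun p hp hd => ?_⟩, ?_⟩
  · have h3 := (dvd_iff_mult hp.prime hp0.ne_zero).mp hd
    rw [mult_prod hTp hp] at h3
    split_ifs at h3 with h4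
    · obtain ⟨g1, g2, g3⟩ := mem_filter.mp h4
      have g4 := ((mem_pp hS.ne_zero).mp g1).2
      rcases hp.prime.dvd_or_dvd (g4.trans hSd) with h5 | h5
      · exfalso
        have h6 : p ^ 2 ∣ S := (pow_dvd_pow_of_dvd (hp.prime.dvd_of_dvd_pow h5) 2).trans h1
        have h7 := (pow_dvd_iff hp.prime hS.ne_zero).mp h6
        omega
      · exact h5
    · omega
  · refine eq_of_mult (bpt_prim hS hν) (hp0.mul (Str699.b3_prim _)) fun p hp => ?_
    rw [mult_mul hp.prime hp0.ne_zero (Str699.b3_prim _).ne_zero, mult_prod hTp hp]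
    unfold b3
    rw [mult_prod (fun q hq => isPP_of_mem_pp (mem_filter.mp hq).1) hp]
    have h3 : p ∈ (pp (S * ν)).filter (fun p => multiplicity p (S * ν) = 3) ↔
        multiplicity p S + multiplicity p ν = 3 := by
      rw [mem_filter, mem_pp h0, mult_mul hp.prime hS.ne_zero hν.ne_zero]
      refine ⟨fun h => h.2, fun h' => ⟨⟨hp, ?_⟩, h'⟩⟩
      rw [dvd_iff_mult hp.prime h0, mult_mul hp.prime hS.ne_zero hν.ne_zero]
      omega
    have h4 : p ∈ T ↔ multiplicity p S = 1 ∧ 1 ≤ multiplicity p ν := by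
      rw [hT, mem_filter, mem_pp hS.ne_zero, dvd_iff_mult hp.prime hS.ne_zero,
        dvd_iff_mult hp.prime hν.ne_zero]
      constructor
      · rintro ⟨⟨-, -⟩, h⟩
        exact h
      · rintro ⟨g1, g2⟩
        exact ⟨⟨hp, by omega⟩, g1, g2⟩
    simp only [h3, h4]
    have f2 := mult_sqf hνq hν.ne_zero hp.prime
    have f3 := h2 p hp
    by_cases hd : p ∣ S
    · rw [mult_bpt hS hν hp hd]
      have f4 := (dvd_iff_mult hp.prime hS.ne_zero).mp hd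
      split_ifs <;> omega
    · rw [mult_bpt' hS hν hp hd, mult_eq_zero hp.prime hS.ne_zero hd]
      rw [if_neg (by omega), if_neg (by omega)]

end key

end Crest.Agent.R017.E4zg92
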