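import Crest.Agent.R017.XHz_512
import Crest.Agent.R017.E4JB_858

/-!
# Row 17, C70/E4 (version 7), the `x`-side in the large sieve range: one block (helper512)

* `blkX_of` : `BlkX` at a block of 858's `JPU`
* `win_of` : the windows of a term in the class numbers
-/

set_option autoImplicit false

noncomputable section

open Complex Finset
open scoped ComplexConjugate

namespace Crest.Agent.R017.XHn512

open Crest.Agent.R012 Crest.Agent.R012.Eis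
open Crest.Agent.R012.Mob705 hiding pb mem_pb
open Crest.Agent.R012.Div277
open Crest.Agent.R017.C70 (OKJ JC CbF)
open Crest.Agent.R017.E4352 (PrI)
open Crest.Agent.R017.E4J352
open Crest.Agent.R017.B770 (DPar)
open Crest.Agent.R017.Prov71
open Crest.Agent.R017.E5B71 Crest.Agent.R017.E4D164 Crest.Agent.R017.E4U164
open Crest.Agent.R017.E4Dic352 (lg)
open Crest.Agent.R017.E4St352
open Crest.Agent.R017.Str699 (nu0)
open Crest.Agent.R017.E4RH858 (Pf pf Facts kl kl_sq)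
open Crest.Agent.R017.JxS679 (sk)

variable {Λ : Type*} {π : Λ → DPar} {lam : Λ × Eis}
  {Jf : ℝ → ℝ → ℝ → Finset (Eis × Eis)} {a : Bd × ℕ} {x : Dt} {Bf : ℝ → ℝ → ℝ → ℝ}
  {e0 r ε X : ℝ}

/-- the label decides the square part -/
lemma sk_of_kl {N k k' : Eis} (hk : k ≠ 0) (hk' : k' ≠ 0) (h : kl N k = kl N k') :
    sk N k = sk N k' := by
  classical
  unfold JxS679.sk
  congr 1
  refine filter_congr fun p hp => ?_
  exact kl_sq hk hk' h hp

/-- the windows of a term -/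
lemma win_of (hJ : ∀ l N z, OKJ (Jf l N z)) (ha : a.1.ok) (hP : a.1.okP (π lam.1))
    (hx : x.OK (π lam.1) Bf e0 r ε X a.1) {t : Tm (x.O π lam Jf a)} {c : Win}
    (hIn : t.In lD c) (hk : t.k ≠ 0) :
    (2 : ℝ) ^ c.nkk ≤ Real.exp (lg t.k) ∧
    kG x + 2 * kY x + 3 * kW x + kC x + lg (nu0 t.o.1.1 t.o.1.2) ≤
      (c.nlam + 1) * Real.log 2 ∧
    c.nlam * Real.log 2 ≤ kG x + 2 * kY x + 3 * kW x + kC x + lg (nu0 t.o.1.1 t.o.1.2) +
      11 * Real.log 2 := by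
  have hl := lD_pos t.o hJ ha hP hx
  obtain ⟨h1, h2⟩ := log_lam hJ ha hP hx t.o
  have hk0 : (0 : ℝ) < nm t.k := by exact_mod_cast nm_pos.mpr hk
  refine ⟨?_, ?_, ?_⟩
  · unfold E4Dic352.lg
    rw [Real.exp_log hk0]
    exact hIn.hkk.1
  · have e1 := Real.log_le_log hl hIn.hlam.2.le
    rw [Real.log_pow] at e1
    push_cast at e1
    linarith
  · have e1 := Real.log_le_log (by positivity) hIn.hlam.1
    rw [Real.log_pow] at e1
    linarith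

/-- **`BlkX` at a block** -/
theorem blkX_of {M : Eis} {c : Win} {P : Pf} {β : Eis} {τ₁ : Eis}
    {𝒥 : Finset (Tm (x.O π lam Jf a))} {A1 Y : ℝ}
    (hJ𝒥 : ∀ t ∈ 𝒥, Facts M t ∧ t.OK M 1 ∧ t.In lD c ∧ pf t = P ∧ bo3 t = β ∧
      kl (x.g * x.e₀ * x.t) t.k = τ₁ ∧ IsCoprime (t.R * t.R') t.o.1.1)
    (hk : ∀ t ∈ 𝒥, 2 * (nm t.k : ℝ) ≤ Y ^ A1) (hl : ∀ t ∈ 𝒥, 2 * lD t.o ≤ Y ^ A1)
    (hV : 2 ^ 27 * (2 * 2 ^ a.2 * 8 ^ x.nS / 8 ^ x.nE) ≤ Y ^ A1) (hi : 2 * 2 ^ a.2 ≤ Y ^ A1)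
    {t : Tm (x.O π lam Jf a)} (ht : t ∈ 𝒥) :
    BlkX π lam Jf a x A1 Y c.nkk c.nlam P (sk (x.g * x.e₀ * x.t) t.k) β
      (𝒥.image fun t => t.o) (fun k => kl (x.g * x.e₀ * x.t) k = τ₁) := by
  classical
  obtain ⟨hF, hok, hIn, hpf, hb, hkl, hcop⟩ := hJ𝒥 t ht
  have hR : P.R = t.R := by rw [← hpf]; rfl
  have hR' : P.R' = t.R' := by rw [← hpf]; rfl
  have hkk : t.k ≠ 0 := hok.sk.ne_zero
  refine ⟨?_, ?_, ?_, hi, ?_, ?_, ?_, ?_, ?_, ?_⟩
  · exact (mul_le_mul_of_nonneg_left hIn.hkk.1 (by norm_num)).trans (hk t ht)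
  · refine le_trans (div_le_self (by positivity) ?_) hV
    exact one_le_pow₀ (one_le_pow₀ (by norm_num))
  · exact (mul_le_mul_of_nonneg_left hIn.hlam.1 (by norm_num)).trans (hl t ht)
  · rw [hR, hR']
    exact hF.pR.1.mul hF.pR'.1
  · rw [← hpf]
    exact hF.sb.prim
  · intro o ho
    obtain ⟨t', ht', rfl⟩ := mem_image.mp ho
    obtain ⟨-, -, hIn', -⟩ := hJ𝒥 t' ht'
    refine ⟨hIn'.hlam.1, hIn'.hlam.2.le.trans (le_of_eq ?_)⟩
    rw [pow_succ]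
    ring
  · intro o ho
    obtain ⟨t', ht', rfl⟩ := mem_image.mp ho
    obtain ⟨-, -, -, hpf', -, -, hcop'⟩ := hJ𝒥 t' ht'
    have e1 : P.R = t'.R := by rw [← hpf']; rfl
    have e2 : P.R' = t'.R' := by rw [← hpf']; rfl
    rw [e1, e2]
    exact hcop'
  · intro o ho
    obtain ⟨t', ht', rfl⟩ := mem_image.mp ho
    obtain ⟨-, -, -, -, hb', -⟩ := hJ𝒥 t' ht'
    exact hb'
  · intro k hk1 hk2
    have hk0 : k ≠ 0 := by
      unfold E4y92.Dk at hk1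
      exact ((mem_primBall.mp (mem_filter.mp hk1).1).2).ne_zero
    exact sk_of_kl hk0 hkk (hk2.trans hkl.symm)

end Crest.Agent.R017.XHn512
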