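import Crest.Agent.R017.XHo_512

/-!
# Row 17, C70/E4 (version 7), the `x`-side in the large sieve range: the class (helper512)

* `ZF` : the class of a term in logarithms (what `zTr` gives)
* `num_V1`, `num_lam` : the length and the class constant
* `numHB_of` : `NumHB` at a class near the true one
* `xnum_HB` : the number of the `x`-side in the large sieve range
-/

set_option autoImplicit false

noncomputable section

open Complex Finset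
open scoped ComplexConjugate

namespace Crest.Agent.R017.XHn512

open Crest.Agent.R012 Crest.Agent.R012.Eis
open Crest.Agent.R012.Mob705 hiding pb mem_pb
open Crest.Agent.R012.Div277
open Crest.Agent.R017.C70 (OKJ JC CbF)
open Crest.Agent.R017.E4352 (PrI)
open Crest.Agent.R017.E4J352
open Crest.Agent.R017.B770 (DPar)
open Crest.Agent.R017.Prov71
open Crest.Agent.R017.E5B71 Crest.Agent.R017.E4D164 Crest.Agent.R017.E4U164
open Crest.Agent.R017.E4Dic352 (lg)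
open Crest.Agent.R017.E4St352
open Crest.Agent.R017.Str699 (nu0)
open Crest.Agent.R017.E4RH858 (Pf pf Facts)
open Crest.Agent.R017.E4R70 (Cls)
open Crest.Agent.R017.EnX743
open Crest.Agent.R017.E5L770 (omL)

/-- the class in logarithms, `Lg` the unit -/
structure ZF (z : Cls) (Lg : ℝ) (x : Dt) (i : ℕ) (s₁ : Eis) (lk lnu lR : ℝ) : Prop where
  v : Lg * z.v = Real.log 2 * i
  k : Lg * z.k = lk
  Y0 : Lg * z.Y0 = x.m 0 1 * Real.log 2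
  Y1 : Lg * z.Y1 = x.m 1 1 * Real.log 2
  c02 : Lg * z.c02 = x.m 0 2 * Real.log 2
  c12 : Lg * z.c12 = x.m 1 2 * Real.log 2
  nu : Lg * z.nu = lnu
  R : Lg * (z.R1 + 2 * z.R2) = lR
  G : kG x ≤ Lg * (z.G + z.s0)
  W : kW x ≤ Lg * (z.W + z.sW)
  s1 : Lg * z.s1 = min (lg s₁) (kG x)

lemma log8 : Real.log 8 = 3 * Real.log 2 := by
  rw [show (8 : ℝ) = 2 ^ 3 by norm_num, Real.log_pow]
  push_cast
  ring

/-- **the length of the `x`-side** divided by `N(R R') σ` -/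
lemma num_V1 {z : Cls} {Lg : ℝ} {x : Dt} {i : ℕ} {s₁ : Eis} {lk lnu lR : ℝ}
    (h : ZF z Lg x i s₁ lk lnu lR) {nl : ℕ} {P : ℝ} (hP : 0 < P) (hR : Real.log P = lR)
    (hlam : kG x + 2 * kY x + 3 * kW x + kC x + lnu ≤ (nl + 1) * Real.log 2) :
    2 ^ 27 * (2 * 2 ^ i * 8 ^ x.nS / 8 ^ x.nE) / (2 ^ nl : ℝ) ^ 2 / P ≤
      2 ^ 30 * (Real.exp (Lg * z.v1) * 2 ^ (x.m 0 0 + x.m 1 2)) := by
  have e0 : (0 : ℝ) < 2 ^ 27 * (2 * 2 ^ i * 8 ^ x.nS / 8 ^ x.nE) / (2 ^ nl : ℝ) ^ 2 / P := by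
    positivity
  rw [← Real.log_le_log_iff e0 (by positivity), Real.log_div (by positivity) hP.ne',
    Real.log_div (by positivity) (by positivity), Real.log_mul (by positivity) (by positivity),
    Real.log_div (by positivity) (by positivity), Real.log_mul (by positivity) (by positivity),
    Real.log_mul (by positivity) (by positivity), Real.log_mul (by positivity) (by positivity),
    Real.log_mul (by positivity) (by positivity), Real.log_exp]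
  simp only [Real.log_pow]
  rw [log8, hR]
  have h1 := nSE_eq x
  have h2 : Lg * z.v1 = Lg * z.v - Lg * (z.R1 + 2 * z.R2) - Lg * z.Y0 - Lg * z.Y1 -
      2 * (Lg * z.c02) - 2 * (Lg * z.c12) - 2 * (Lg * z.nu) := by
    unfold E4R70.Cls.v1
    ring
  rw [h2, h.v, h.R, h.Y0, h.Y1, h.c02, h.c12, h.nu]
  unfold kG kY kW kC at *
  push_cast
  nlinarith

/-- **the class constant** -/
lemma num_lam {z : Cls} {Lg : ℝ} {x : Dt} {i : ℕ} {s₁ : Eis} {lk lnu lR : ℝ}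
    (h : ZF z Lg x i s₁ lk lnu lR) {nl : ℕ}
    (hlam : nl * Real.log 2 ≤ kG x + 2 * kY x + 3 * kW x + kC x + lnu + 11 * Real.log 2) :
    8 * ((2 * (2 ^ nl : ℝ)) ^ 2 * 2 ^ x.nE / 2 ^ x.nS) ≤
      2 ^ 27 * Real.exp (Lg * (2 * z.lam - z.us / 3)) := by
  have e0 : (0 : ℝ) < 8 * ((2 * (2 ^ nl : ℝ)) ^ 2 * 2 ^ x.nE / 2 ^ x.nS) := by positivity
  rw [← Real.log_le_log_iff e0 (by positivity), Real.log_mul (by positivity) (by positivity),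
    Real.log_div (by positivity) (by positivity), Real.log_mul (by positivity) (by positivity),
    Real.log_mul (by positivity) (by positivity), Real.log_exp]
  simp only [Real.log_pow]
  rw [Real.log_mul (by positivity) (by positivity), Real.log_pow, log8]
  have h1 := nSE_eq x
  have h2 : Lg * (2 * z.lam - z.us / 3) = Lg * (z.G + z.s0) + 3 * (Lg * z.Y0) +
      3 * (Lg * z.Y1) + 3 * (Lg * z.c12) + 4 * (Lg * (z.W + z.sW)) + 2 * (Lg * z.c02) +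
      2 * (Lg * z.nu) := by
    unfold E4R70.Cls.lam E4R70.Cls.us
    ring
  have hG := h.G
  have hW := h.W
  rw [h2, h.Y0, h.Y1, h.c02, h.c12, h.nu]
  unfold kG kY kW kC at *
  push_cast
  nlinarith

/-- the true class and the nominal one : the five numbers of `XHB` -/
structure NrHB (δ : ℝ) (z z' : Cls) : Prop where
  k : z.k ≤ z'.k + δ
  s1a : z.s1 ≤ z'.s1 + δ
  s1b : z'.s1 ≤ z.s1 + δ
  c12 : z.c12 ≤ z'.c12 + δ
  v1 : z.v1 ≤ z'.v1 + 12 * δ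
  lus : 2 * z.lam - z.us / 3 ≤ 2 * z'.lam - z'.us / 3 + 24 * δ

/-- **the numbers of one block at a class near the true one** -/
theorem numHB_of {Jf : ℝ → ℝ → ℝ → Finset (Eis × Eis)} {a : Bd × ℕ} {x : Dt} {α : Eis → ℂ}
    {z z' : Cls} {κ₀ X δ τ : ℝ} (hX : 1 < X) (hκ : 0 ≤ κ₀) (hτ : 12 * κ₀ * δ ≤ τ) (hδ : 0 ≤ δ)
    {s₁ : Eis} (hs₁ : s₁ ≠ 0) {lk lnu lR : ℝ}
    (h : ZF z (κ₀ * Real.log X) x a.2 s₁ lk lnu lR) (hn : NrHB δ z z')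
    {nkk : ℕ} (hk : (2 : ℝ) ^ nkk ≤ Real.exp lk) {Pp : Pf} (hP : IsPrim (Pp.R * Pp.R'))
    (hR : lg (Pp.R * Pp.R') = lR) {nl : ℕ}
    (hlam : kG x + 2 * kY x + 3 * kW x + kC x + lnu ≤ (nl + 1) * Real.log 2) {β₀ : Eis} {V d0 t : ℝ}
    (hV : V = 2 ^ 27 * (2 * 2 ^ a.2 * 8 ^ x.nS / 8 ^ x.nE) / (2 ^ nl : ℝ) ^ 2)
    (hT0 : TWa (xJB Jf a x β₀) (omL a.2) α x.e₀ 1 0 ≤ X ^ (t + τ))
    (hT1 : min (TWa (xJB Jf a x β₀) (omL a.2) α x.e₀ 1 1)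
      (√(V / (nm (Pp.R * Pp.R') * 2 ^ (x.m 0 0 + x.m 1 2))) *
        TWa (xJB Jf a x β₀) (omL a.2) α x.e₀ 1 0) ≤ X ^ (t + d0 + τ)) :
    NumHB Jf a x α nkk Pp s₁ β₀ V (2 ^ 30) X τ (κ₀ * z'.k) (κ₀ * z'.v1) d0 (κ₀ * z'.c12)
      (κ₀ * z'.s1) t := by
  have hX0 : 0 < X := by linarith
  obtain ⟨L, hL⟩ : ∃ L : ℝ, L = Real.log X := ⟨_, rfl⟩
  have hL0 : 0 < L := by rw [hL]; exact Real.log_pos hX
  rw [← hL] at h
  have eX : ∀ r : ℝ, X ^ r = Real.exp (r * L) := fun r => by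
    rw [Real.rpow_def_of_pos hX0, hL, mul_comm]
  have hκL : 0 ≤ κ₀ * L := by positivity
  have hκδ : κ₀ * L * δ ≤ τ * L := by
    have : 12 * κ₀ * δ * L ≤ τ * L := mul_le_mul_of_nonneg_right hτ hL0.le
    have h2 : 0 ≤ κ₀ * L * δ := by positivity
    nlinarith
  have key : ∀ {p q : ℝ}, p ≤ q + δ → κ₀ * L * p ≤ (κ₀ * q + τ) * L := by
    intro p q hpq
    have := mul_le_mul_of_nonneg_left hpq hκL
    nlinarith
  have hnP : (0 : ℝ) < nm (Pp.R * Pp.R') := by exact_mod_cast nm_pos.mpr hP.ne_zero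
  have hns : (0 : ℝ) < nm s₁ := by exact_mod_cast nm_pos.mpr hs₁
  have e2 : (2 : ℝ) ^ x.m 0 0 = Real.exp (kG x) := by
    unfold kG
    rw [Real.exp_nat_mul, Real.exp_log (by norm_num)]
  have es : min (nm s₁ : ℝ) (2 ^ x.m 0 0) = Real.exp (κ₀ * L * z.s1) := by
    rw [h.s1, e2]
    have e3 : (nm s₁ : ℝ) = Real.exp (lg s₁) := by
      unfold E4Dic352.lg
      rw [Real.exp_log hns]
    rw [e3]
    rcases le_total (lg s₁) (kG x) with h1 | h1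
    · rw [min_eq_left h1, min_eq_left (Real.exp_le_exp.2 h1)]
    · rw [min_eq_right h1, min_eq_right (Real.exp_le_exp.2 h1)]
  refine ⟨?_, ?_, ?_, ?_, ?_, hT0, hT1⟩
  · refine hk.trans ?_
    rw [← h.k, eX]
    exact Real.exp_le_exp.2 (key hn.k)
  · rw [es, eX]
    refine Real.exp_le_exp.2 ?_
    have := key hn.s1b
    nlinarith
  · rw [es, eX]
    exact Real.exp_le_exp.2 (key hn.s1a)
  · have e4 : (2 : ℝ) ^ x.m 1 2 = Real.exp (κ₀ * L * z.c12) := by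
      rw [h.c12, Real.exp_nat_mul, Real.exp_log (by norm_num)]
    rw [e4, eX]
    exact Real.exp_le_exp.2 (key hn.c12)
  · have h5 := num_V1 h hnP (by rw [← hR]; rfl) hlam
    rw [← hV] at h5
    refine h5.trans (mul_le_mul_of_nonneg_left (mul_le_mul_of_nonneg_right ?_ (by positivity))
      (by positivity))
    rw [eX]
    refine Real.exp_le_exp.2 ?_
    have h6 := mul_le_mul_of_nonneg_left hn.v1 hκL
    have h7 : 12 * κ₀ * δ * L ≤ τ * L := mul_le_mul_of_nonneg_right hτ hL0.le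
    nlinarith

/-- **the final exponent** -/
lemma fin_HB {z z' : Cls} {κ₀ X δ τ : ℝ} (hX : 1 < X) (hκ : 0 ≤ κ₀) (hτ : 12 * κ₀ * δ ≤ τ)
    {x : Dt} {i : ℕ} {s₁ : Eis} {lk lnu lR : ℝ}
    (h : ZF z (κ₀ * Real.log X) x i s₁ lk lnu lR) (hn : NrHB δ z z') {nl : ℕ}
    (hlam : nl * Real.log 2 ≤ kG x + 2 * kY x + 3 * kW x + kC x + lnu + 11 * Real.log 2)
    {T t ex CY Mb : ℝ} (hT0 : 0 ≤ T) (hT : T ≤ X ^ τ) (h60 : (2 : ℝ) ^ 60 ≤ X ^ τ)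
    (hCY : CY ≤ X ^ τ) (hMb0 : 0 ≤ Mb) (hMb : Mb ≤ X ^ τ) :
    CY * (Mb * (8 * ((2 * (2 ^ nl : ℝ)) ^ 2 * 2 ^ x.nE / 2 ^ x.nS) * T *
      (6 * 2 ^ 30 * X ^ (κ₀ * z'.k + t + ex + 10 * τ)))) ≤
      X ^ (κ₀ * (z'.k + (2 * z'.lam - z'.us / 3)) + t + ex + 16 * τ) := by
  have hX0 : 0 < X := by linarith
  obtain ⟨L, hL⟩ : ∃ L : ℝ, L = Real.log X := ⟨_, rfl⟩
  have hL0 : 0 < L := by rw [hL]; exact Real.log_pos hX
  rw [← hL] at h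
  have eX : ∀ r : ℝ, X ^ r = Real.exp (r * L) := fun r => by
    rw [Real.rpow_def_of_pos hX0, hL, mul_comm]
  have hκL : 0 ≤ κ₀ * L := by positivity
  have p : ∀ r : ℝ, 0 < X ^ r := fun r => Real.rpow_pos_of_pos hX0 r
  have h1 := num_lam h hlam
  have h2 : Real.exp (κ₀ * L * (2 * z.lam - z.us / 3)) ≤
      X ^ (κ₀ * (2 * z'.lam - z'.us / 3) + 2 * τ) := by
    rw [eX]
    refine Real.exp_le_exp.2 ?_
    have h6 := mul_le_mul_of_nonneg_left hn.lus hκL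
    have h7 : 12 * κ₀ * δ * L ≤ τ * L := mul_le_mul_of_nonneg_right hτ hL0.le
    nlinarith
  have h3 : 8 * ((2 * (2 ^ nl : ℝ)) ^ 2 * 2 ^ x.nE / 2 ^ x.nS) ≤
      2 ^ 27 * X ^ (κ₀ * (2 * z'.lam - z'.us / 3) + 2 * τ) :=
    h1.trans (mul_le_mul_of_nonneg_left h2 (by positivity))
  have q1 := p (κ₀ * (2 * z'.lam - z'.us / 3) + 2 * τ)
  have q2 := p (κ₀ * z'.k + t + ex + 10 * τ)
  have q3 := p τ
  calc CY * (Mb * (8 * ((2 * (2 ^ nl : ℝ)) ^ 2 * 2 ^ x.nE / 2 ^ x.nS) * T *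
        (6 * 2 ^ 30 * X ^ (κ₀ * z'.k + t + ex + 10 * τ))))
      ≤ X ^ τ * (X ^ τ * ((2 ^ 27 * X ^ (κ₀ * (2 * z'.lam - z'.us / 3) + 2 * τ)) * X ^ τ *
        (6 * 2 ^ 30 * X ^ (κ₀ * z'.k + t + ex + 10 * τ)))) := by gcongr
    _ = (2 ^ 27 * (6 * 2 ^ 30)) * (X ^ τ * X ^ τ * X ^ τ) *
        (X ^ (κ₀ * (2 * z'.lam - z'.us / 3) + 2 * τ) *
          X ^ (κ₀ * z'.k + t + ex + 10 * τ)) := by ring
    _ ≤ X ^ τ * (X ^ τ * X ^ τ * X ^ τ) *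
        (X ^ (κ₀ * (2 * z'.lam - z'.us / 3) + 2 * τ) *
          X ^ (κ₀ * z'.k + t + ex + 10 * τ)) := by
        have h8 : (2 ^ 27 * (6 * 2 ^ 30) : ℝ) ≤ X ^ τ := le_trans (by norm_num) h60
        gcongr
    _ = X ^ (κ₀ * (z'.k + (2 * z'.lam - z'.us / 3)) + t + ex + 16 * τ) := by
        rw [← Real.rpow_add hX0, ← Real.rpow_add hX0, ← Real.rpow_add hX0, ← Real.rpow_add hX0,
          ← Real.rpow_add hX0]
        congr 1
        ring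

section blk

variable {Λ : Type*}

/-- **sizes and identities of one block**, base `X`, exponent `A1` -/
structure BlkX (π : Λ → DPar) (lam : Λ × Eis) (Jf : ℝ → ℝ → ℝ → Finset (Eis × Eis))
    (a : Bd × ℕ) (x : Dt) (A1 X : ℝ) (nkk nl : ℕ) (Pp : Pf) (s₁ β₀ : Eis)
    (Oc : Finset (x.O π lam Jf a)) (Pk : Eis → Prop) : Prop where
  kY : 2 * 2 ^ nkk ≤ X ^ A1
  VY : 2 ^ 27 * (2 * 2 ^ a.2 * 8 ^ x.nS / 8 ^ x.nE) / (2 ^ nl : ℝ) ^ 2 ≤ X ^ A1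
  LY : 2 * 2 ^ nl ≤ X ^ A1
  iY : 2 * 2 ^ a.2 ≤ X ^ A1
  pP : IsPrim (Pp.R * Pp.R')
  pb : IsPrim Pp.b
  O : ∀ o ∈ Oc, (2 : ℝ) ^ nl ≤ lD o ∧ lD o ≤ 2 * 2 ^ nl
  cop : ∀ o ∈ Oc, IsCoprime (Pp.R * Pp.R') o.1.1
  b3 : ∀ o ∈ Oc, Str699.b3 (o.1.1 * o.1.2) = β₀
  Pk : ∀ k ∈ E4y92.Dk (π lam.1).n₃ (2 ^ nkk - 1 / 2), Pk k → JxS679.sk (x.g * x.e₀ * x.t) k = s₁

set_option maxHeartbeats 1000000 in
/-- **the number of the `x`-side in the large sieve range** -/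
theorem xnum_HB (π : Λ → DPar) {τ A1 : ℝ} (hτ : 0 < τ) (hA1 : 1 ≤ A1) : ∃ X₀ : ℝ, 1 < X₀ ∧
    ∀ X : ℝ, X₀ ≤ X → ∀ (lam : Λ × Eis) (Jf : ℝ → ℝ → ℝ → Finset (Eis × Eis)),
    (∀ l N z, OKJ (Jf l N z)) → ∀ (a : Bd × ℕ) (x : Dt) (Bf : ℝ → ℝ → ℝ → ℝ) (e0 r ε' : ℝ),
    x.OK (π lam.1) Bf e0 r ε' X a.1 → a.1.ok → a.1.okP (π lam.1) → ∀ α : Eis → ℂ,
    End699.HC (π lam.1).n₃ (fun k => conj ((π lam.1).χ₃ k)) →
    ∀ (G : Eis → ℂ), (∀ y, IsPrim y → ‖G y‖ ≤ 1) →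
    ∀ (nkk nl : ℕ) (Pp : Pf) (s₁ β₀ : Eis) (Oc : Finset (x.O π lam Jf a)) (Pk : Eis → Prop),
    BlkX π lam Jf a x A1 X nkk nl Pp s₁ β₀ Oc Pk →
    ∀ (κ₀ δ : ℝ) (z z' : Cls) (lk lnu lR : ℝ), 0 ≤ κ₀ → 0 ≤ δ → 12 * κ₀ * δ ≤ τ → s₁ ≠ 0 →
    ZF z (κ₀ * Real.log X) x a.2 s₁ lk lnu lR → NrHB δ z z' → (2 : ℝ) ^ nkk ≤ Real.exp lk →
    lg (Pp.R * Pp.R') = lR →
    kG x + 2 * kY x + 3 * kW x + kC x + lnu ≤ (nl + 1) * Real.log 2 →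
    nl * Real.log 2 ≤ kG x + 2 * kY x + 3 * kW x + kC x + lnu + 11 * Real.log 2 →
    ∀ (d0 t mx ex : ℝ), 0 ≤ mx → mx + τ ≤ A1 →
    E4R70.XHB (κ₀ * z'.k) (κ₀ * z'.v1) d0 (κ₀ * z'.c12) (κ₀ * z'.s1) mx ex →
    TWa (xJB Jf a x β₀) (omL a.2) α x.e₀ 1 0 ≤ X ^ (t + τ) →
    min (TWa (xJB Jf a x β₀) (omL a.2) α x.e₀ 1 1)
      (√(2 ^ 27 * (2 * 2 ^ a.2 * 8 ^ x.nS / 8 ^ x.nE) / (2 ^ nl : ℝ) ^ 2 /
        (nm (Pp.R * Pp.R') * 2 ^ (x.m 0 0 + x.m 1 2))) *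
        TWa (xJB Jf a x β₀) (omL a.2) α x.e₀ 1 0) ≤ X ^ (t + d0 + τ) →
    (∀ D b : Eis, IsPrim D → IsPrim b →
      XSd512.XMo (π lam.1).n₃ (vG π lam Jf a x α) G Pp Oc nkk Pk D b (fun _ _ => 1) ≤
        X ^ (κ₀ * (z'.k + (2 * z'.lam - z'.us / 3)) + t + ex + 16 * τ)) ∧
    (∀ D b : Eis, IsPrim D → IsPrim b → ∀ bm : x.O π lam Jf a → Eis → ℂ,
      (∀ o ∈ Oc, JxL679.NatS (X ^ (mx + τ)) (X ^ τ * X ^ (mx + τ)) (bm o)) →
      XSd512.XMo (π lam.1).n₃ (vG π lam Jf a x α) G Pp Oc nkk Pk D b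
        (fun o k => ‖CM106.CS (bm o) k‖ ^ 2) ≤
        X ^ (κ₀ * (z'.k + (2 * z'.lam - z'.us / 3)) + t + ex + 16 * τ)) := by
  have hA0 : 0 < A1 := by linarith
  have hε : 0 < τ / (2 * A1) := by positivity
  have hε4 : 0 < τ / (4 * A1) := by positivity
  obtain ⟨C, hC, H⟩ := xmo_HB π hε
  obtain ⟨C', hC', H'⟩ := xmo_HB0 π hε
  obtain ⟨C₂, hC₂, H₂⟩ := JxG679.tau_Z hε4
  set Cm : ℝ := max (max C C') (max (C₂ ^ 2) (2 ^ 60)) with hCm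
  have hCm1 : 1 ≤ Cm := hC.trans ((le_max_left _ _).trans (le_max_left _ _))
  refine ⟨max 2 (Cm ^ (2 / τ)), lt_max_of_lt_left (by norm_num), ?_⟩
  intro X hXX lam Jf hJf a x Bf e0 r ε' hx ha hP α hψ G hG nkk nl Pp s₁ β₀ Oc Pk hb κ₀ δ z z' lk lnu
    lR hκ hδ hκδ hs₁ hz hn hk hR hl1 hl2 d0 t mx ex hmx hmxA hXHB hT0 hT1
  have hX2 : 2 ≤ X := (le_max_left _ _).trans hXX
  have hX1 : 1 < X := by linarith
  have hX0 : 0 < X := by linarith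
  have hCX : Cm ≤ X ^ (τ / 2) := by
    have h1 : Cm ^ (2 / τ) ≤ X := (le_max_right _ _).trans hXX
    calc Cm = (Cm ^ (2 / τ)) ^ (τ / 2) := by
          rw [← Real.rpow_mul (by linarith)]
          have : 2 / τ * (τ / 2) = 1 := by field_simp
          rw [this, Real.rpow_one]
      _ ≤ X ^ (τ / 2) := Real.rpow_le_rpow (by positivity) h1 (by positivity)
  set Y : ℝ := X ^ A1 with hY
  have hY1 : 1 ≤ Y := Real.one_le_rpow hX1.le hA0.le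
  have hYe : Y ^ (τ / (2 * A1)) = X ^ (τ / 2) := by
    rw [hY, ← Real.rpow_mul hX0.le]
    congr 1
    field_simp
  have hYe4 : (Y ^ (τ / (4 * A1))) ^ 2 = X ^ (τ / 2) := by
    rw [hY, ← Real.rpow_mul hX0.le, ← Real.rpow_natCast, ← Real.rpow_mul hX0.le]
    congr 1
    push_cast
    field_simp
    norm_num
  have hXτ : X ^ (τ / 2) * X ^ (τ / 2) = X ^ τ := by
    rw [← Real.rpow_add hX0]
    congr 1
    ring
  have hp2 : 0 < X ^ (τ / 2) := Real.rpow_pos_of_pos hX0 _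
  have hCY : ∀ c : ℝ, c ≤ Cm → c * Y ^ (τ / (2 * A1)) ≤ X ^ τ := by
    intro c hc
    rw [hYe, ← hXτ]
    exact mul_le_mul_of_nonneg_right (hc.trans hCX) hp2.le
  have h60 : (2 : ℝ) ^ 60 ≤ X ^ τ := by
    calc (2 : ℝ) ^ 60 ≤ Cm := (le_max_right _ _).trans (le_max_right _ _)
      _ ≤ X ^ (τ / 2) := hCX
      _ ≤ X ^ τ := Real.rpow_le_rpow_of_exponent_le hX1.le (by linarith)
  -- the number of divisors
  have hT : ∀ y ∈ J3 Jf a.1 a.2, omL a.2 y ≠ 0 → (tau y.1 : ℝ) * tau y.2 ≤ X ^ τ := by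
    intro y hy ho
    have hJ := okJ3 hJf a.1 a.2
    have h1 := lv_le hy hJ ho
    have n1 : y.1 ≠ 0 := (hJ.prim _ hy).ne_zero
    have n2 : y.2 ≠ 0 := E5b54.JC_ne_zero (hJ.jc _ hy)
    have n3 : y.2 * y.1 ^ 2 ≠ 0 := mul_ne_zero n2 (pow_ne_zero 2 n1)
    have b1 : (nm y.1 : ℝ) ≤ Y := by
      refine le_trans ?_ (h1.trans hb.iY)
      exact_mod_cast nm_le_of_dvd n3 ((dvd_pow_self _ two_ne_zero).mul_left _)
    have b2 : (nm y.2 : ℝ) ≤ Y := by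
      refine le_trans ?_ (h1.trans hb.iY)
      exact_mod_cast nm_le_of_dvd n3 (dvd_mul_right _ _)
    have c1 := H₂ Y hY1 y.1 b1
    have c2 := H₂ Y hY1 y.2 b2
    calc (tau y.1 : ℝ) * tau y.2 ≤ (C₂ * Y ^ (τ / (4 * A1))) * (C₂ * Y ^ (τ / (4 * A1))) :=
          mul_le_mul c1 c2 (Nat.cast_nonneg _) (by positivity)
      _ = C₂ ^ 2 * (Y ^ (τ / (4 * A1))) ^ 2 := by ring
      _ ≤ X ^ (τ / 2) * X ^ (τ / 2) := by
          rw [hYe4]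
          exact mul_le_mul_of_nonneg_right
            (((le_max_left _ _).trans (le_max_right _ _)).trans hCX) hp2.le
      _ = X ^ τ := hXτ
  have hB : BlkHB π lam Jf a x Y nkk (2 ^ nl) Pp s₁ β₀ Oc Pk (X ^ τ)
      (2 ^ 27 * (2 * 2 ^ a.2 * 8 ^ x.nS / 8 ^ x.nE) / (2 ^ nl : ℝ) ^ 2) :=
    ⟨by linarith [hb.kY], by positivity, rfl, hb.VY, hb.pP, hb.pb, hb.O, hb.LY, hb.cop, hb.b3,
      hb.Pk, by positivity, hT⟩
  have hN := numHB_of (Jf := Jf) (a := a) (x := x) (α := α) (β₀ := β₀) (d0 := d0) (t := t) hX1 hκ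
    hκδ hδ hs₁ hz hn hk hb.pP hR hl1 rfl hT0 hT1
  have hfin : ∀ c : ℝ, c ≤ Cm → ∀ Mb : ℝ, 0 ≤ Mb → Mb ≤ X ^ τ →
      c * Y ^ (τ / (2 * A1)) * (Mb * (8 * ((2 * (2 ^ nl : ℝ)) ^ 2 * 2 ^ x.nE / 2 ^ x.nS) *
        X ^ τ * (6 * 2 ^ 30 * X ^ (κ₀ * z'.k + t + ex + 10 * τ)))) ≤
      X ^ (κ₀ * (z'.k + (2 * z'.lam - z'.us / 3)) + t + ex + 16 * τ) := fun c hc Mb h0 h1 =>
    fin_HB hX1 hκ hκδ hz hn hl2 (by positivity) le_rfl h60 (hCY c hc) h0 h1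
  constructor
  · intro D b hD hbp
    have k1 := H' lam Jf hJf a x Bf e0 r ε' X hx ha hP α hψ Y hY1 G hG nkk (2 ^ nl) Pp s₁ β₀ Oc Pk
      (X ^ τ) _ hB (2 ^ 30) X τ _ _ d0 _ _ t mx ex hX1 hτ.le (by norm_num) hmx hXHB hN D b hD hbp
    refine k1.trans ?_
    have k2 := hfin C' ((le_max_right _ _).trans (le_max_left _ _)) 1 zero_le_one
      (Real.one_le_rpow hX1.le hτ.le)
    rwa [one_mul] at k2
  · intro D b hD hbp bm hbm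
    have hB1 : 1 ≤ X ^ (mx + τ) := Real.one_le_rpow hX1.le (by linarith)
    have hBY : X ^ (mx + τ) ≤ Y := Real.rpow_le_rpow_of_exponent_le hX1.le hmxA
    have k1 := H lam Jf hJf a x Bf e0 r ε' X hx ha hP α hψ Y hY1 G hG nkk (2 ^ nl) Pp s₁ β₀ Oc Pk
      (X ^ τ) _ hB (2 ^ 30) X τ _ _ d0 _ _ t mx ex hX1 hτ.le (by norm_num) hXHB hN
      (X ^ (mx + τ)) (X ^ τ * X ^ (mx + τ)) hB1 le_rfl hBY (by positivity) D b hD hbp bm hbm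
    have e1 : X ^ τ * X ^ (mx + τ) / X ^ (mx + τ) = X ^ τ := by
      have : X ^ (mx + τ) ≠ 0 := by positivity
      field_simp
    rw [e1] at k1
    exact k1.trans (hfin C ((le_max_left _ _).trans (le_max_left _ _)) (X ^ τ) (by positivity)
      le_rfl)

end blk

end Crest.Agent.R017.XHn512
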