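import Crest.Agent.R017.JxM_679

/-!
# Row 17, C70/E4 (version 7), the `x`-side with moved pieces (helper679)

* `NatS B Mb bm` : natural sequences of length `B` with second moments `Mb`
* `natS_bmv` : the moved factor is such a sequence
* `hxG` : the `x`-side of one class with moved pieces `q i (x t i)`, `i ∈ mv`, from one moment per
  `(D1, b1)` and natural sequence; `hxG0` : without moved pieces
-/

set_option autoImplicit false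

noncomputable section

open Complex Finset
open scoped ComplexConjugate Classical

namespace Crest.Agent.R017.JxL679

open Crest.Agent.R012 Crest.Agent.R012.Eis Crest.Agent.R012.Mob705
open Crest.Agent.R012.Div277
open Crest.Agent.R017.CM106 (CS FS)
open Crest.Agent.R017.FE47 (PU cx)
open Crest.Agent.R017.HP842 (Pc pc FS_pc norm_uv_le)
open Crest.Agent.R017.HSep813 (gw norm_gw_le)
open Crest.Agent.R017.E4352
open Crest.Agent.R017.E4J352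
open Crest.Agent.R017.E4y92 (Dk)
open Crest.Agent.R017.JxG679 Crest.Agent.R017.JxH679 Crest.Agent.R017.JxM679

/-- natural sequences of length `B` with second moments `Mb` -/
structure NatS (B Mb : ℝ) (bm : Eis → ℂ) : Prop where
  supp : ∀ n, bm n ≠ 0 → n ∈ primBall ⌊B⌋₊
  mom : ∀ s, IsPrim s → ∑ d ∈ primBall ⌊B⌋₊, ‖bm (s * d)‖ ^ 2 ≤ Mb / nm s
  bd : ∀ n, B * ‖bm n‖ ^ 2 ≤ Mb

lemma pt_bmv {ε : ℝ} (hε : 0 < ε) (m : ℕ) : ∃ C : ℝ, 1 ≤ C ∧ ∀ (Y A B : ℝ), 1 ≤ Y → 1 ≤ A →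
    0 ≤ B → B ≤ Y → ∀ (mv : Finset (Fin m)) (f : Fin m → Eis → ℂ) (Yi : Fin m → ℝ),
    (∀ i ∈ mv, ∀ n, f i n ≠ 0 → (nm n : ℝ) ≤ Yi i) → ∏ i ∈ mv, Yi i ≤ B →
    (∀ i ∈ mv, ∀ n, ‖f i n‖ ≤ A) → ∀ (u n : Eis),
      ‖bmv mv f u n‖ ^ 2 ≤ C * Y ^ ε * A ^ (2 * m) := by
  have hm : (0 : ℝ) < 2 * m + 1 := by positivity
  have hε1 : 0 < ε / (2 * m + 1) := by positivity
  obtain ⟨C1, hC1, h1⟩ := JxG679.tau_Z hε1
  refine ⟨C1 ^ (2 * m), one_le_pow₀ hC1, ?_⟩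
  intro Y A B hY hA hB hBY mv f Yi hYi hYB hf u n
  have hY0 : 0 < Y := by linarith
  have hc : mv.card ≤ m := by
    have := card_le_univ mv
    simpa using this
  by_cases h0 : bmv mv f u n = 0
  · rw [h0, norm_zero]
    have : 0 ≤ C1 ^ (2 * m) * Y ^ ε * A ^ (2 * m) := by positivity
    norm_num
    exact this
  have h2 := bmv_supp (B := B) hYi hYB h0
  obtain ⟨h3, h4⟩ := mem_primBall.mp h2
  have h5 : (nm n : ℝ) ≤ B := (Nat.le_floor_iff hB).mp h3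
  have h7 := bmv_norm hA hf u n
  have h8 : (tau n : ℝ) ≤ C1 * Y ^ (ε / (2 * m + 1)) := h1 Y hY _ (h5.trans hBY)
  have h9 : (1 : ℝ) ≤ C1 * Y ^ (ε / (2 * m + 1)) :=
    one_le_mul_of_one_le_of_one_le hC1 (Real.one_le_rpow hY hε1.le)
  calc ‖bmv mv f u n‖ ^ 2 ≤ ((tau n : ℝ) ^ mv.card * A ^ m) ^ 2 :=
        pow_le_pow_left₀ (norm_nonneg _) h7 2
    _ ≤ ((C1 * Y ^ (ε / (2 * m + 1))) ^ m * A ^ m) ^ 2 := by
        refine pow_le_pow_left₀ (by positivity) (mul_le_mul_of_nonneg_right ?_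
          (by positivity)) 2
        exact (pow_le_pow_left₀ (Nat.cast_nonneg _) h8 _).trans
          (pow_le_pow_right₀ h9 hc)
    _ = C1 ^ (2 * m) * (Y ^ (ε / (2 * m + 1))) ^ (2 * m) * A ^ (2 * m) := by
        rw [← mul_pow, ← pow_mul, mul_comm m 2]
        rw [mul_pow, mul_pow]
    _ ≤ C1 ^ (2 * m) * Y ^ ε * A ^ (2 * m) := by
        refine mul_le_mul_of_nonneg_right (mul_le_mul_of_nonneg_left ?_ (by positivity))
          (by positivity)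
        rw [← Real.rpow_natCast, ← Real.rpow_mul hY0.le]
        refine Real.rpow_le_rpow_of_exponent_le hY ?_
        push_cast
        rw [div_mul_eq_mul_div, div_le_iff₀ hm]
        nlinarith

/-! ### pieces -/

/-- pieces: size and support -/
lemma pc_facts {h : ℝ → ℝ} {c : ℝ} (hpu : PU h c) : ∃ A R : ℝ, 1 ≤ A ∧ 0 ≤ R ∧
    (∀ u, cx h u ≠ 0 → |u| ≤ R) ∧ ∀ p : Pc, p.OK → ∀ n,
      ‖pc h p n‖ ≤ A ∧ (pc h p n ≠ 0 → (nm n : ℝ) ≤ Real.exp R * p.Y) := by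
  obtain ⟨A, hA⟩ := hpu.cs.exists_bound_of_continuous hpu.cd.continuous
  obtain ⟨R, hR⟩ := hpu.cs.isCompact.isBounded.exists_norm_le
  have hA' : ∀ u, ‖cx h u‖ ≤ max A 1 := fun u => by
    have : ‖cx h u‖ = ‖h u‖ := by
      unfold cx
      rw [Complex.norm_real]
    rw [this]
    exact (hA u).trans (le_max_left _ _)
  have hR' : ∀ u, cx h u ≠ 0 → |u| ≤ max R 0 := by
    intro u hu
    have h1 : h u ≠ 0 := by
      intro h0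
      apply hu
      unfold cx
      rw [h0]
      simp
    have h2 := hR u (subset_tsupport _ h1)
    exact h2.trans (le_max_left _ _)
  refine ⟨max A 1, max R 0, le_max_right _ _, le_max_right _ _, hR', fun p hp n => ⟨?_, ?_⟩⟩
  · unfold pc
    split_ifs with hn
    · rw [norm_mul, norm_mul]
      have h1 := norm_uv_le p.u n
      have h2 := hp.ch.norm_le hn
      have h3 := norm_gw_le hA' p.Y p.t n
      calc ‖HP842.uv p.u n‖ * ‖p.ψ n‖ * ‖gw h p.Y p.t n‖ ≤ 1 * 1 * max A 1 := by gcongr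
        _ = max A 1 := by ring
    · rw [norm_zero]; positivity
  · intro hne
    unfold pc at hne
    split_ifs at hne with hn
    · have h1 : gw h p.Y p.t n ≠ 0 := right_ne_zero_of_mul hne
      unfold gw at h1
      have h2 := hR' _ (right_ne_zero_of_mul h1)
      have h3 : (0 : ℝ) < nm n := by exact_mod_cast nm_pos.2 hn.ne_zero
      have h4 : Real.log (nm n) ≤ max R 0 + Real.log p.Y := by
        have := (abs_le.1 h2).2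
        linarith
      calc (nm n : ℝ) = Real.exp (Real.log (nm n)) := (Real.exp_log h3).symm
        _ ≤ Real.exp (max R 0 + Real.log p.Y) := Real.exp_le_exp.2 h4
        _ = Real.exp (max R 0) * p.Y := by rw [Real.exp_add, Real.exp_log hp.Y0]
    · exact absurd rfl hne

/-- **the moved factor is a natural sequence of length `B`** -/
theorem natS_bmv {h : ℝ → ℝ} {c : ℝ} (hpu : PU h c) {ε : ℝ} (hε : 0 < ε) (m : ℕ) :
    ∃ C A₁ : ℝ, 1 ≤ C ∧ 1 ≤ A₁ ∧ ∀ (Y B : ℝ), 1 ≤ Y → 0 ≤ B → B ≤ Y →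
    ∀ (mv : Finset (Fin m)) (p : Fin m → Pc) (W : Fin m → ℝ), (∀ i ∈ mv, (p i).OK) →
    (∀ i ∈ mv, (p i).Y ≤ W i) → A₁ * ∏ i ∈ mv, W i ≤ B → ∀ u : Eis,
      NatS B (C * Y ^ ε * B) (bmv mv (fun i => pc h (p i)) u) := by
  obtain ⟨A, R, hA, hR, hR', hpc⟩ := pc_facts hpu
  obtain ⟨C1, hC1, h1⟩ := mb_bmv hε m
  obtain ⟨C2, hC2, h2⟩ := pt_bmv hε m
  have hAm : 1 ≤ A ^ (2 * m) := one_le_pow₀ hA
  have hCm : 1 ≤ max C1 C2 := hC1.trans (le_max_left _ _)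
  refine ⟨max C1 C2 * A ^ (2 * m), Real.exp R ^ m, one_le_mul_of_one_le_of_one_le hCm hAm,
    one_le_pow₀ (Real.one_le_exp hR), ?_⟩
  intro Y B hY hB hBY mv p W hp hW hWB u
  have hY0 : 0 < Y := by linarith
  have hW0 : ∀ i ∈ mv, 0 ≤ W i := fun i hi => (hp i hi).Y0.le.trans (hW i hi)
  have hc : mv.card ≤ m := by
    have := card_le_univ mv
    simpa using this
  have s1 : ∀ i ∈ mv, ∀ n, pc h (p i) n ≠ 0 → (nm n : ℝ) ≤ Real.exp R * W i := by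
    intro i hi n hn
    exact ((hpc _ (hp i hi) n).2 hn).trans
      (mul_le_mul_of_nonneg_left (hW i hi) (Real.exp_pos _).le)
  have s2 : ∏ i ∈ mv, Real.exp R * W i ≤ B := by
    rw [prod_mul_distrib, prod_const]
    refine le_trans (mul_le_mul_of_nonneg_right ?_ (prod_nonneg hW0)) hWB
    exact pow_le_pow_right₀ (Real.one_le_exp hR) hc
  have s3 : ∀ i ∈ mv, ∀ n, ‖pc h (p i) n‖ ≤ A := fun i hi n => (hpc _ (hp i hi) n).1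
  refine ⟨fun n hn => bmv_supp s1 s2 hn, fun s hs => ?_, fun n => ?_⟩
  · refine (h1 Y A B hY hA hB hBY mv _ _ s1 s2 s3 u s hs).trans ?_
    refine div_le_div_of_nonneg_right ?_ (Nat.cast_nonneg _)
    refine mul_le_mul_of_nonneg_right ?_ hB
    calc C1 * Y ^ ε * A ^ (2 * m) = C1 * A ^ (2 * m) * Y ^ ε := by ring
      _ ≤ max C1 C2 * A ^ (2 * m) * Y ^ ε := by
          refine mul_le_mul_of_nonneg_right (mul_le_mul_of_nonneg_right (le_max_left _ _)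
            (by positivity)) (by positivity)
  · have h3 := h2 Y A B hY hA hB hBY mv _ _ s1 s2 s3 u n
    calc B * ‖bmv mv (fun i => pc h (p i)) u n‖ ^ 2 ≤ B * (C2 * Y ^ ε * A ^ (2 * m)) :=
          mul_le_mul_of_nonneg_left h3 hB
      _ = C2 * A ^ (2 * m) * Y ^ ε * B := by ring
      _ ≤ max C1 C2 * A ^ (2 * m) * Y ^ ε * B := by
          refine mul_le_mul_of_nonneg_right (mul_le_mul_of_nonneg_right
            (mul_le_mul_of_nonneg_right (le_max_right _ _) (by positivity)) (by positivity)) hB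

/-! ### the class -/

/-- **the `x`-side of a class with moved pieces** -/
theorem hxG {h : ℝ → ℝ} {c : ℝ} (hpu : PU h c) {ε : ℝ} (hε : 0 < ε) (m : ℕ) :
    ∃ C A₁ : ℝ, 1 ≤ C ∧ 1 ≤ A₁ ∧ ∀ {O : Type} [Fintype O] (M : Eis) (Y : ℝ), 1 ≤ Y →
    ∀ (lam : O → ℝ) (v : O → Eis → ℂ) (G : Eis → ℂ) (κ L Sx B : ℝ), 0 < κ → 0 < L → 0 ≤ Sx →
    0 ≤ B → B ≤ Y → ∀ (Oc : Finset O) (𝒥 : Finset (Tm O)) (b1 : Tm O → Eis)
    (pk : O → Eis → Eis → Px O) (x : Tm O → Fin m → Eis) (E : Eis → Eis → Eis)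
    (u : O → Eis → Eis → Eis) (q : Fin m → Eis → Pc) (mv : Finset (Fin m)) (W : Fin m → ℝ),
    (∀ i y, IsPrim y → (q i y).OK) → A₁ * ∏ i ∈ mv, W i ≤ B →
    (∀ t ∈ 𝒥, t.o ∈ Oc ∧ (∀ i ∈ mv, (q i (x t i)).Y ≤ W i)) →
    (∀ t ∈ 𝒥, px t = pk t.o t.D1 (b1 t) ∧ Kw M κ t.k ∧ L ≤ lam t.o * nm t.k ∧
      (IsPrim t.D1 ∧ (nm t.D1 : ℝ) ≤ Y) ∧ (IsPrim (b1 t) ∧ (nm (b1 t) : ℝ) ≤ Y) ∧
      (∀ i, IsPrim (x t i)) ∧ (∀ i, x t i ∣ E t.D1 (b1 t)) ∧ E t.D1 (b1 t) ≠ 0 ∧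
      (nm (E t.D1 (b1 t)) : ℝ) ≤ Y) →
    (∀ t ∈ 𝒥, ∀ t' ∈ 𝒥, t.o = t'.o → t.D1 = t'.D1 → b1 t = b1 t' → t.k = t'.k → t = t') →
    (∀ t ∈ 𝒥, ∀ bm : O → Eis → ℂ, (∀ o ∈ Oc, NatS B (C * Y ^ ε * B) (bm o)) →
      ∑ o ∈ Oc, ∑ k ∈ Dk M κ, (nm k : ℝ)⁻¹ *
        (‖Sd ((pk o t.D1 (b1 t)).v' v G) k‖ ^ 2 * ‖CS (bm o) k‖ ^ 2) ≤ Sx) →
    ∑ t ∈ 𝒥, (nm (t.D1 * b1 t) : ℝ)⁻¹ * ((lam t.o * nm t.k)⁻¹ ^ 2 * (‖t.xs v G‖ ^ 2 *
      ∏ i ∈ mv, ‖CS (pc h (q i (x t i))) (t.k * u t.o t.D1 (b1 t))‖ ^ 2)) ≤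
      C * Y ^ ε * (κ / L ^ 2 * Sx) := by
  obtain ⟨A, R, hA, hR, hR', hpc⟩ := pc_facts hpu
  obtain ⟨C1, A₁, hC1, hA₁, h1⟩ := natS_bmv hpu hε m
  obtain ⟨C2, hC2, h2⟩ := hx_of hε m
  refine ⟨max C1 C2, A₁, hC1.trans (le_max_left _ _), hA₁, ?_⟩
  intro O _ M Y hY lam v G κ L Sx B hκ hL hSx hB hBY Oc 𝒥 b1 pk x E u q mv W hq hWB hJ1 hJ hinj hX
  have hY0 : 0 < Y := by linarith
  obtain ⟨bmf, hbmf⟩ : ∃ bmf : O → Eis → Eis → (Fin m → Eis) → Eis → ℂ, bmf =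
      fun o D b ξ => bmv mv (fun i => pc h (q i (ξ i))) (u o D b) := ⟨_, rfl⟩
  obtain ⟨Hh, hHh⟩ : ∃ Hh : O → Eis → Eis → (Fin m → Eis) → Eis → ℝ, Hh =
      fun o D b ξ k => if o ∈ Oc then ‖CS (bmf o D b ξ) k‖ ^ 2 else 0 := ⟨_, rfl⟩
  have hHh0 : ∀ o D b ξ k, 0 ≤ Hh o D b ξ k := fun o D b ξ k => by
    rw [hHh]
    simp only
    split_ifs
    · positivity
    · exact le_rfl
  have key : ∀ t ∈ 𝒥, ∑ o, ∑ k ∈ Dk M κ, (nm k : ℝ)⁻¹ *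
      (‖Sd ((pk o t.D1 (b1 t)).v' v G) k‖ ^ 2 * Hh o t.D1 (b1 t) (x t) k) ≤ Sx := by
    intro t ht
    obtain ⟨-, -, -, -, -, p5, -⟩ := hJ t ht
    have e1 : ∑ o, ∑ k ∈ Dk M κ, (nm k : ℝ)⁻¹ *
        (‖Sd ((pk o t.D1 (b1 t)).v' v G) k‖ ^ 2 * Hh o t.D1 (b1 t) (x t) k) =
        ∑ o ∈ Oc, ∑ k ∈ Dk M κ, (nm k : ℝ)⁻¹ *
        (‖Sd ((pk o t.D1 (b1 t)).v' v G) k‖ ^ 2 *
          ‖CS (bmf o t.D1 (b1 t) (x t)) k‖ ^ 2) := by
      symm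
      rw [← sum_subset (subset_univ Oc)]
      · refine sum_congr rfl fun o ho => sum_congr rfl fun k _ => ?_
        rw [hHh]
        simp only [if_pos ho]
      · intro o _ ho
        refine sum_eq_zero fun k _ => ?_
        rw [hHh]
        simp only [if_neg ho]
        ring
    rw [e1]
    refine hX t ht (fun o => bmf o t.D1 (b1 t) (x t)) fun o ho => ?_
    have h3 := h1 Y B hY hB hBY mv (fun i => q i (x t i)) W (fun i _ => hq i _ (p5 i))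
      (hJ1 t ht).2 hWB (u o t.D1 (b1 t))
    rw [hbmf]
    simp only
    refine ⟨h3.supp, fun s hs => (h3.mom s hs).trans ?_, fun n => (h3.bd n).trans ?_⟩
    · refine div_le_div_of_nonneg_right ?_ (Nat.cast_nonneg _)
      refine mul_le_mul_of_nonneg_right (mul_le_mul_of_nonneg_right (le_max_left _ _)
        (by positivity)) hB
    · refine mul_le_mul_of_nonneg_right (mul_le_mul_of_nonneg_right (le_max_left _ _)
        (by positivity)) hB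
  have fin := h2 M Y hY lam v G κ L Sx hκ hL hSx 𝒥 b1 pk x E Hh hHh0 hJ hinj key
  have e3 : ∑ t ∈ 𝒥, (nm (t.D1 * b1 t) : ℝ)⁻¹ * ((lam t.o * nm t.k)⁻¹ ^ 2 *
      (‖t.xs v G‖ ^ 2 *
        ∏ i ∈ mv, ‖CS (pc h (q i (x t i))) (t.k * u t.o t.D1 (b1 t))‖ ^ 2)) =
      ∑ t ∈ 𝒥, (nm (t.D1 * b1 t) : ℝ)⁻¹ * ((lam t.o * nm t.k)⁻¹ ^ 2 *
      (‖t.xs v G‖ ^ 2 * Hh t.o t.D1 (b1 t) (x t) t.k)) := by
    refine sum_congr rfl fun t ht => ?_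
    obtain ⟨-, -, -, -, -, p5, -⟩ := hJ t ht
    rw [hHh]
    simp only [if_pos (hJ1 t ht).1]
    rw [hbmf]
    simp only
    rw [norm_CS_bmv_sq (fun i _ => FS_pc hR' (hq i _ (p5 i)))]
  rw [e3]
  refine fin.trans ?_
  exact mul_le_mul_of_nonneg_right (mul_le_mul_of_nonneg_right (le_max_right _ _)
    (by positivity)) (by positivity)

/-- **no moved pieces** -/
theorem hxG0 {ε : ℝ} (hε : 0 < ε) : ∃ C : ℝ, 1 ≤ C ∧ ∀ {O : Type} [Fintype O] (M : Eis)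
    (Y : ℝ), 1 ≤ Y → ∀ (lam : O → ℝ) (v : O → Eis → ℂ) (G : Eis → ℂ) (κ L Sx : ℝ), 0 < κ →
    0 < L → 0 ≤ Sx → ∀ (Oc : Finset O) (𝒥 : Finset (Tm O)) (b1 : Tm O → Eis)
    (pk : O → Eis → Eis → Px O),
    (∀ t ∈ 𝒥, t.o ∈ Oc ∧ px t = pk t.o t.D1 (b1 t) ∧ Kw M κ t.k ∧ L ≤ lam t.o * nm t.k ∧
      (IsPrim t.D1 ∧ (nm t.D1 : ℝ) ≤ Y) ∧ (IsPrim (b1 t) ∧ (nm (b1 t) : ℝ) ≤ Y)) →
    (∀ t ∈ 𝒥, ∀ t' ∈ 𝒥, t.o = t'.o → t.D1 = t'.D1 → b1 t = b1 t' → t.k = t'.k → t = t') →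
    (∀ t ∈ 𝒥, ∑ o ∈ Oc, ∑ k ∈ Dk M κ, (nm k : ℝ)⁻¹ *
        ‖Sd ((pk o t.D1 (b1 t)).v' v G) k‖ ^ 2 ≤ Sx) →
    ∑ t ∈ 𝒥, (nm (t.D1 * b1 t) : ℝ)⁻¹ * ((lam t.o * nm t.k)⁻¹ ^ 2 * ‖t.xs v G‖ ^ 2) ≤
      C * Y ^ ε * (κ / L ^ 2 * Sx) := by
  obtain ⟨C2, hC2, h2⟩ := hx_of hε 0
  refine ⟨C2, hC2, ?_⟩
  intro O _ M Y hY lam v G κ L Sx hκ hL hSx Oc 𝒥 b1 pk hJ hinj hX
  obtain ⟨Hh, hHh⟩ : ∃ Hh : O → Eis → Eis → (Fin 0 → Eis) → Eis → ℝ, Hh =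
      fun o _ _ _ _ => if o ∈ Oc then 1 else 0 := ⟨_, rfl⟩
  have hHh0 : ∀ o D b ξ k, 0 ≤ Hh o D b ξ k := fun o D b ξ k => by
    rw [hHh]
    simp only
    split_ifs
    · exact zero_le_one
    · exact le_rfl
  have key : ∀ t ∈ 𝒥, ∑ o, ∑ k ∈ Dk M κ, (nm k : ℝ)⁻¹ *
      (‖Sd ((pk o t.D1 (b1 t)).v' v G) k‖ ^ 2 * Hh o t.D1 (b1 t) Fin.elim0 k) ≤ Sx := by
    intro t ht
    refine le_trans (le_of_eq ?_) (hX t ht)
    symm
    rw [← sum_subset (subset_univ Oc)]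
    · refine sum_congr rfl fun o ho => sum_congr rfl fun k _ => ?_
      rw [hHh]
      simp only [if_pos ho, mul_one]
    · intro o _ ho
      refine sum_eq_zero fun k _ => ?_
      rw [hHh]
      simp only [if_neg ho]
      ring
  have fin := h2 M Y hY lam v G κ L Sx hκ hL hSx 𝒥 b1 pk (fun _ => Fin.elim0) (fun _ _ => 1) Hh
    hHh0 (fun t ht => by
      obtain ⟨-, q1, q2, q3, q4, q5⟩ := hJ t ht
      exact ⟨q1, q2, q3, q4, q5, fun i => i.elim0, fun i => i.elim0, one_ne_zero, by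
        simpa using hY⟩) hinj key
  have e3 : ∑ t ∈ 𝒥, (nm (t.D1 * b1 t) : ℝ)⁻¹ * ((lam t.o * nm t.k)⁻¹ ^ 2 * ‖t.xs v G‖ ^ 2) =
      ∑ t ∈ 𝒥, (nm (t.D1 * b1 t) : ℝ)⁻¹ * ((lam t.o * nm t.k)⁻¹ ^ 2 *
      (‖t.xs v G‖ ^ 2 * Hh t.o t.D1 (b1 t) Fin.elim0 t.k)) := by
    refine sum_congr rfl fun t ht => ?_
    rw [hHh]
    simp only [if_pos (hJ t ht).1, mul_one]
  rw [e3]
  exact fin

end Crest.Agent.R017.JxL679
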