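import Crest.Agent.R017.GHB1_842
import Crest.Agent.R017.E4z_92
import Crest.Agent.R017.JxL_679

/-!
# Row 17, E4 : natural moved factors from squarefree ones (helper842)

* `nat_slices` : any moment with a squarefree supported factor gives the moment with a natural factor
* `XMb_nat` : the same for 92's `XMb`
-/

set_option autoImplicit false
set_option maxHeartbeats 400000

noncomputable section

open Complex
open scoped ComplexConjugate Classical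

namespace Crest.Agent.R017.XNat842

open Crest.Agent.R012 Crest.Agent.R012.Eis
open Crest.Agent.R012.LS2 (S mem_S)
open Crest.Agent.R012.Div277 (tau tau_le_rpow sum_inv_primBall_le poly_log_le)
open Crest.Agent.R017.CM106 (CS)
open Crest.Agent.R017.PX764 (norm_sy_le')
open Crest.Agent.R017.E1551 (nmpos nm_ge_one)
open Crest.Agent.R017.C70 (CbF)
open Crest.Agent.R017.E4352 (Sd)
open Crest.Agent.R017.E4y92 (Dk)
open Crest.Agent.R017.E4z92 (XMb XMΦ)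
open Crest.Agent.R017.JxL679 (NatS)
open Crest.Agent.R017.GHB842 (cauchy_w dec bc bc_ne norm_bc_le nm_le_mul CS_dec)

/-- the pointwise Cauchy over the slices `n = μ c² r³` -/
lemma CS_slices {Y : ℕ} {b : Eis → ℂ} (hb : ∀ n, b n ≠ 0 → n ∈ primBall Y) {L : ℝ}
    (hL : ∑ s ∈ primBall Y, (1 / (nm s : ℝ)) ≤ L) (k : Eis) :
    ‖CS b k‖ ^ 2 ≤ L * ∑ c ∈ primBall Y, (nm c : ℝ) *
      (L * ∑ r ∈ primBall Y, (nm r : ℝ) * ‖CS (bc b c r) k‖ ^ 2) := by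
  have hP0 : ∀ s ∈ primBall Y, s ≠ 0 := fun s hs => (mem_primBall.mp hs).2.ne_zero
  have hL0 : 0 ≤ L := le_trans (Finset.sum_nonneg fun _ _ => by positivity) hL
  rw [CS_dec hb k]
  refine (cauchy_w hP0 _).trans ?_
  refine mul_le_mul hL (Finset.sum_le_sum fun c hc => ?_)
    (Finset.sum_nonneg fun _ _ => by positivity) hL0
  refine mul_le_mul_of_nonneg_left ?_ (by positivity)
  refine (cauchy_w hP0 _).trans ?_
  refine mul_le_mul hL (Finset.sum_le_sum fun r hr => ?_)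
    (Finset.sum_nonneg fun _ _ => by positivity) hL0
  refine mul_le_mul_of_nonneg_left ?_ (by positivity)
  refine pow_le_pow_left₀ (norm_nonneg _) ?_ 2
  have hcr : IsPrim (c ^ 2 * r ^ 3) :=
    ((mem_primBall.mp hc).2.pow 2).mul ((mem_primBall.mp hr).2.pow 3)
  rw [norm_mul]
  exact mul_le_of_le_one_left (norm_nonneg _) (norm_sy_le' hcr)

/-- the moments of a slice -/
lemma slice_mom {B Mb Y : ℝ} {b : Eis → ℂ} (hb : NatS B Mb b) (hB : 0 ≤ B) (hBY : B ≤ Y)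
    {c r : Eis} (hc : IsPrim c) (hr : IsPrim r) :
    (∀ m, bc b c r m ≠ 0 → m ∈ S Y) ∧
    (∀ g ∈ S Y, ∀ h ∈ S Y, ∑ μ ∈ S Y, ‖bc b c r (g * (h * μ))‖ ^ 2 ≤
      (Mb / ((nm c : ℝ) ^ 2 * (nm r : ℝ) ^ 3)) / ((nm g : ℝ) * nm h)) := by
  have hY : 0 ≤ Y := hB.trans hBY
  have hcr : IsPrim (c ^ 2 * r ^ 3) := (hc.pow 2).mul (hr.pow 3)
  refine ⟨fun m hm => ?_, fun g hg h hh => ?_⟩
  · obtain ⟨h1, h2⟩ := bc_ne hm
    refine (mem_S hY).2 ⟨?_, h1.1, h1.2.1⟩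
    have h3 := (nm_le_mul hcr.ne_zero m).trans (mem_primBall.mp (hb.supp _ h2)).1
    exact ((Nat.le_floor_iff hB).mp h3).trans hBY
  · obtain ⟨-, hgp, -⟩ := (mem_S hY).1 hg
    obtain ⟨-, hhp, -⟩ := (mem_S hY).1 hh
    set s : Eis := g * h * (c ^ 2 * r ^ 3) with hs
    have hsp : IsPrim s := (hgp.mul hhp).mul hcr
    have h1 := hb.mom s hsp
    have e1 : ∀ μ ∈ S Y, ‖bc b c r (g * (h * μ))‖ ^ 2 ≤ ‖b (s * μ)‖ ^ 2 := by
      intro μ _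
      refine pow_le_pow_left₀ (norm_nonneg _) ?_ 2
      have := norm_bc_le b c r (g * (h * μ))
      have e : g * (h * μ) * (c ^ 2 * r ^ 3) = s * μ := by rw [hs]; ring
      rwa [e] at this
    have e2 : ∑ μ ∈ S Y, ‖b (s * μ)‖ ^ 2 ≤ ∑ d ∈ primBall ⌊B⌋₊, ‖b (s * d)‖ ^ 2 := by
      have e3 : ∑ μ ∈ S Y, ‖b (s * μ)‖ ^ 2 =
          ∑ μ ∈ (S Y).filter (fun μ => b (s * μ) ≠ 0), ‖b (s * μ)‖ ^ 2 := by
        symm
        refine Finset.sum_subset (Finset.filter_subset _ _) fun μ hμ hn => ?_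
        have : b (s * μ) = 0 := by
          by_contra h0
          exact hn (Finset.mem_filter.mpr ⟨hμ, h0⟩)
        rw [this]; simp
      rw [e3]
      refine Finset.sum_le_sum_of_subset_of_nonneg (fun μ hμ => ?_) fun _ _ _ => by positivity
      obtain ⟨h2, h3⟩ := Finset.mem_filter.mp hμ
      obtain ⟨-, hμp, -⟩ := (mem_S hY).1 h2
      refine mem_primBall.mpr ⟨?_, hμp⟩
      have h4 := (mem_primBall.mp (hb.supp _ h3)).1
      have h5 : nm μ ≤ nm (s * μ) := by rw [mul_comm]; exact nm_le_mul hsp.ne_zero μ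
      exact h5.trans h4
    have e4 : (nm s : ℝ) = (nm g : ℝ) * nm h * ((nm c : ℝ) ^ 2 * (nm r : ℝ) ^ 3) := by
      rw [hs, nm_mul, nm_mul, nm_mul, nm_pow, nm_pow]; push_cast; ring
    calc ∑ μ ∈ S Y, ‖bc b c r (g * (h * μ))‖ ^ 2 ≤ ∑ μ ∈ S Y, ‖b (s * μ)‖ ^ 2 :=
          Finset.sum_le_sum e1
      _ ≤ Mb / nm s := e2.trans h1
      _ = _ := by
          rw [e4, div_div]
          congr 1
          ring

/-- **natural factor from squarefree factors**, for any nonnegative weight -/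
theorem nat_slices {ε : ℝ} (hε : 0 < ε) : ∃ C : ℝ, 1 ≤ C ∧ ∀ {O : Type} (Y B Mb S₁ : ℝ),
    1 ≤ Y → 0 ≤ B → B ≤ Y → 0 ≤ Mb → ∀ (OO : Finset O) (D : Finset Eis) (w : O → Eis → ℝ),
    (∀ o k, 0 ≤ w o k) → ∀ bm : O → Eis → ℂ, (∀ o ∈ OO, NatS B Mb (bm o)) →
    (∀ Mb' : ℝ, 0 ≤ Mb' → ∀ bm' : O → Eis → ℂ, (∀ o ∈ OO, ∀ m, bm' o m ≠ 0 → m ∈ S Y) →
      (∀ o ∈ OO, ∀ g ∈ S Y, ∀ h ∈ S Y, ∑ μ ∈ S Y, ‖bm' o (g * (h * μ))‖ ^ 2 ≤
        Mb' / ((nm g : ℝ) * nm h)) →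
      ∑ o ∈ OO, ∑ k ∈ D, w o k * ‖CS (bm' o) k‖ ^ 2 ≤ Mb' * S₁) →
    ∑ o ∈ OO, ∑ k ∈ D, w o k * ‖CS (bm o) k‖ ^ 2 ≤ C * Y ^ ε * (Mb * S₁) := by
  set P4 : ℝ := (100 * (1 + ((4 : ℕ) : ℝ) / ε)) ^ 4 with hP4
  have hP41 : 1 ≤ P4 := by
    rw [hP4]
    refine one_le_pow₀ ?_
    have : 0 ≤ ((4 : ℕ) : ℝ) / ε := by positivity
    linarith
  refine ⟨P4, hP41, ?_⟩
  intro O Y B Mb S₁ hY hB hBY hMb OO D w hw bm hbm H
  have hY0 : 0 < Y := by linarith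
  set Yn := ⌊B⌋₊ with hYn
  set L : ℝ := 100 * (1 + Real.log Y) with hL
  have hlY := Real.log_nonneg hY
  have hL0 : 0 ≤ L := by positivity
  have hLs : ∑ s ∈ primBall Yn, (1 / (nm s : ℝ)) ≤ L := by
    refine (sum_inv_primBall_le Yn).trans ?_
    rcases Nat.eq_zero_or_pos Yn with h0 | h0
    · rw [h0]; simp only [Nat.cast_zero, Real.log_zero]; rw [hL]; linarith
    · have : Real.log Yn ≤ Real.log Y :=
        Real.log_le_log (by exact_mod_cast h0) ((Nat.floor_le hB).trans hBY)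
      rw [hL]; linarith
  have hP0 : ∀ s ∈ primBall Yn, s ≠ 0 := fun s hs => (mem_primBall.mp hs).2.ne_zero
  -- the constant is nonnegative
  have hS₁ : 0 ≤ S₁ := by
    have h1 := H 1 zero_le_one (fun _ _ => 0) (fun o _ m hm => absurd rfl hm) (fun o _ g hg h hh => by
      have : (0 : ℝ) ≤ 1 / ((nm g : ℝ) * nm h) := by positivity
      simpa using this)
    have h2 : 0 ≤ ∑ o ∈ OO, ∑ k ∈ D, w o k * ‖CS (fun _ => (0 : ℂ)) k‖ ^ 2 :=
      Finset.sum_nonneg fun o _ => Finset.sum_nonneg fun k _ => mul_nonneg (hw o k) (by positivity)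
    linarith
  have hone : ∀ c ∈ primBall Yn, ∀ r ∈ primBall Yn,
      ∑ o ∈ OO, ∑ k ∈ D, w o k * ‖CS (bc (bm o) c r) k‖ ^ 2 ≤
        Mb / ((nm c : ℝ) ^ 2 * (nm r : ℝ) ^ 3) * S₁ := by
    intro c hc r hr
    have hcp := (mem_primBall.mp hc).2
    have hrp := (mem_primBall.mp hr).2
    refine H _ (by positivity) (fun o => bc (bm o) c r) (fun o ho => ?_) (fun o ho => ?_)
    · exact (slice_mom (hbm o ho) hB hBY hcp hrp).1
    · exact (slice_mom (hbm o ho) hB hBY hcp hrp).2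
  have hpt : ∑ o ∈ OO, ∑ k ∈ D, w o k * ‖CS (bm o) k‖ ^ 2 ≤
      L ^ 2 * ∑ c ∈ primBall Yn, ∑ r ∈ primBall Yn, (nm c : ℝ) * ((nm r : ℝ) *
        ∑ o ∈ OO, ∑ k ∈ D, w o k * ‖CS (bc (bm o) c r) k‖ ^ 2) := by
    calc ∑ o ∈ OO, ∑ k ∈ D, w o k * ‖CS (bm o) k‖ ^ 2
        ≤ ∑ o ∈ OO, ∑ k ∈ D, w o k * (L * ∑ c ∈ primBall Yn, (nm c : ℝ) *
            (L * ∑ r ∈ primBall Yn, (nm r : ℝ) * ‖CS (bc (bm o) c r) k‖ ^ 2)) := by
          refine Finset.sum_le_sum fun o ho => Finset.sum_le_sum fun k _ => ?_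
          exact mul_le_mul_of_nonneg_left (CS_slices (hbm o ho).supp hLs k) (hw o k)
      _ = ∑ o ∈ OO, ∑ k ∈ D, ∑ c ∈ primBall Yn, ∑ r ∈ primBall Yn,
            L ^ 2 * ((nm c : ℝ) * ((nm r : ℝ) * (w o k * ‖CS (bc (bm o) c r) k‖ ^ 2))) := by
          refine Finset.sum_congr rfl fun o _ => Finset.sum_congr rfl fun k _ => ?_
          rw [← mul_assoc, Finset.mul_sum]
          refine Finset.sum_congr rfl fun c _ => ?_
          rw [← mul_assoc, ← mul_assoc, Finset.mul_sum]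
          refine Finset.sum_congr rfl fun r _ => ?_
          ring
      _ = ∑ c ∈ primBall Yn, ∑ r ∈ primBall Yn, ∑ o ∈ OO, ∑ k ∈ D,
            L ^ 2 * ((nm c : ℝ) * ((nm r : ℝ) * (w o k * ‖CS (bc (bm o) c r) k‖ ^ 2))) := by
          rw [Finset.sum_congr rfl (fun o _ => Finset.sum_comm), Finset.sum_comm]
          refine Finset.sum_congr rfl fun c _ => ?_
          rw [Finset.sum_congr rfl (fun o _ => Finset.sum_comm), Finset.sum_comm]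
      _ = _ := by
          simp only [Finset.mul_sum]
  refine hpt.trans ?_
  have h3 : ∑ c ∈ primBall Yn, ∑ r ∈ primBall Yn, (nm c : ℝ) * ((nm r : ℝ) *
        ∑ o ∈ OO, ∑ k ∈ D, w o k * ‖CS (bc (bm o) c r) k‖ ^ 2) ≤ L ^ 2 * (Mb * S₁) := by
    calc ∑ c ∈ primBall Yn, ∑ r ∈ primBall Yn, (nm c : ℝ) * ((nm r : ℝ) *
          ∑ o ∈ OO, ∑ k ∈ D, w o k * ‖CS (bc (bm o) c r) k‖ ^ 2)
        ≤ ∑ c ∈ primBall Yn, ∑ r ∈ primBall Yn, (1 / (nm c : ℝ)) * ((1 / (nm r : ℝ)) *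
            (Mb * S₁)) := by
          refine Finset.sum_le_sum fun c hc => Finset.sum_le_sum fun r hr => ?_
          have nc := nmpos (hP0 c hc)
          have nr := nmpos (hP0 r hr)
          have hr1 : (1 : ℝ) ≤ nm r := nm_ge_one (hP0 r hr)
          calc (nm c : ℝ) * ((nm r : ℝ) * ∑ o ∈ OO, ∑ k ∈ D, w o k * ‖CS (bc (bm o) c r) k‖ ^ 2)
              ≤ (nm c : ℝ) * ((nm r : ℝ) * (Mb / ((nm c : ℝ) ^ 2 * (nm r : ℝ) ^ 3) * S₁)) := by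
                have := hone c hc r hr
                gcongr
            _ = 1 / (nm c : ℝ) * (1 / (nm r : ℝ) ^ 2 * (Mb * S₁)) := by field_simp
            _ ≤ _ := by
                have h5 : 1 / (nm r : ℝ) ^ 2 ≤ 1 / (nm r : ℝ) := by
                  refine one_div_le_one_div_of_le nr ?_
                  nlinarith
                have h6 : 0 ≤ Mb * S₁ := mul_nonneg hMb hS₁
                gcongr
      _ = (∑ c ∈ primBall Yn, 1 / (nm c : ℝ)) * ((∑ r ∈ primBall Yn, 1 / (nm r : ℝ)) *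
            (Mb * S₁)) := by
          rw [Finset.sum_mul]
          refine Finset.sum_congr rfl fun c _ => ?_
          rw [Finset.sum_mul, Finset.mul_sum]
      _ ≤ L * (L * (Mb * S₁)) := by
          have h6 : 0 ≤ Mb * S₁ := mul_nonneg hMb hS₁
          have h7 : 0 ≤ ∑ r ∈ primBall Yn, 1 / (nm r : ℝ) :=
            Finset.sum_nonneg fun _ _ => by positivity
          gcongr
      _ = _ := by ring
  have h8 : L ^ 4 ≤ P4 * Y ^ ε := by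
    have := poly_log_le 4 hY hε
    rw [hL, hP4]
    exact this
  calc L ^ 2 * ∑ c ∈ primBall Yn, ∑ r ∈ primBall Yn, (nm c : ℝ) * ((nm r : ℝ) *
        ∑ o ∈ OO, ∑ k ∈ D, w o k * ‖CS (bc (bm o) c r) k‖ ^ 2)
      ≤ L ^ 2 * (L ^ 2 * (Mb * S₁)) := mul_le_mul_of_nonneg_left h3 (by positivity)
    _ = L ^ 4 * (Mb * S₁) := by ring
    _ ≤ P4 * Y ^ ε * (Mb * S₁) := mul_le_mul_of_nonneg_right h8 (mul_nonneg hMb hS₁)

/-- **92's moment with a natural factor** -/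
theorem XMb_nat {ε : ℝ} (hε : 0 < ε) : ∃ C : ℝ, 1 ≤ C ∧ ∀ {O : Type} (M : Eis) (Y B Mb S₁ κ : ℝ),
    1 ≤ Y → 0 ≤ B → B ≤ Y → 0 ≤ Mb → ∀ (OO : Finset O) (v' bm : O → Eis → ℂ),
    (∀ o ∈ OO, NatS B Mb (bm o)) →
    (∀ Mb' : ℝ, 0 ≤ Mb' → ∀ bm' : O → Eis → ℂ, (∀ o ∈ OO, ∀ m, bm' o m ≠ 0 → m ∈ S Y) →
      (∀ o ∈ OO, ∀ g ∈ S Y, ∀ h ∈ S Y, ∑ μ ∈ S Y, ‖bm' o (g * (h * μ))‖ ^ 2 ≤
        Mb' / ((nm g : ℝ) * nm h)) →
      ∑ o ∈ OO, XMb M (v' o) (bm' o) κ ≤ Mb' * S₁) →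
    ∑ o ∈ OO, XMb M (v' o) (bm o) κ ≤ C * Y ^ ε * (Mb * S₁) := by
  obtain ⟨C, hC, h⟩ := nat_slices hε
  refine ⟨C, hC, ?_⟩
  intro O M Y B Mb S₁ κ hY hB hBY hMb OO v' bm hbm H
  have e : ∀ b : O → Eis → ℂ, ∑ o ∈ OO, XMb M (v' o) (b o) κ =
      ∑ o ∈ OO, ∑ k ∈ Dk M κ, ((nm k : ℝ)⁻¹ * ‖Sd (v' o) k‖ ^ 2) * ‖CS (b o) k‖ ^ 2 := by
    intro b
    unfold XMb XMΦ
    refine Finset.sum_congr rfl fun o _ => Finset.sum_congr rfl fun k _ => ?_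
    ring
  rw [e]
  refine h Y B Mb S₁ hY hB hBY hMb OO (Dk M κ) (fun o k => (nm k : ℝ)⁻¹ * ‖Sd (v' o) k‖ ^ 2)
    (fun o k => by positivity) bm hbm (fun Mb' h1 bm' h2 h3 => ?_)
  rw [← e]
  exact H Mb' h1 bm' h2 h3

end Crest.Agent.R017.XNat842
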