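import Crest.Agent.R017.E4zh_679
import Crest.Agent.R017.XHz_512
import Crest.Agent.R017.XHb_512
import Crest.Agent.R017.XNat_842

/-!
# Row 17, C70/E4 (x-side): the moment of a block from helper92's sums (helper679)

* `mom_ext` : moments on `S B` give moments on `S Y`
* `xmo_of` : helper512's `XMo` with a natural factor, and without, from the sum of `XMbP`
* `ok_blkX`, `oko_blkX` : helper92's data are admissible at a block `BlkX` of helper512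
-/

set_option autoImplicit false
set_option linter.unusedSectionVars false

noncomputable section

open Complex Finset
open scoped ComplexConjugate Classical

namespace Crest.Agent.R017.E4zk679

open Crest.Agent.R012 Crest.Agent.R012.Eis
open Crest.Agent.R012.Mob705 hiding pb mem_pb kap
open Crest.Agent.R012.LS2 (S mem_S)
open Crest.Agent.R017.Sx545 (Sm)
open Crest.Agent.R017.CM106 (CS FS)
open Crest.Agent.R017.C70 (CbF JC OKJ)
open Crest.Agent.R017.End699 (HC)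
open Crest.Agent.R017.E5B71 Crest.Agent.R017.E4D164
open Crest.Agent.R017.B770 (DPar)
open Crest.Agent.R017.E5L770
open Crest.Agent.R017.E4U164
open Crest.Agent.R017.E4352
open Crest.Agent.R017.E4J352 (Tm gx)
open Crest.Agent.R017.E4RH858 (Pf pf Facts)
open Crest.Agent.R017.E4y92 (Dk)
open Crest.Agent.R017.E4X92 (XMbP)
open Crest.Agent.R017.E4zc92
open Crest.Agent.R017.E4zf92
open Crest.Agent.R017.JxG679 (Px.v')
open Crest.Agent.R017.JxL679 (NatS)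
open Crest.Agent.R017.JxP679 (pkP)
open Crest.Agent.R017.JxR679 (b1s CS_b1s)
open Crest.Agent.R017.XHn512 (vG BlkX)
open Crest.Agent.R017.E5k54 (alb)
open Crest.Agent.R017.Mode405 (Mul1)
open Crest.Agent.R017.XSd512 (XMo)
open Crest.Agent.R017.E4zh679

lemma nm_fac {g h μ : Eis} (h0 : g * (h * μ) ≠ 0) {B : ℝ} (hB : (nm (g * (h * μ)) : ℝ) ≤ B) :
    (nm g : ℝ) ≤ B ∧ (nm h : ℝ) ≤ B ∧ (nm μ : ℝ) ≤ B := by
  have d1 : g ∣ g * (h * μ) := dvd_mul_right _ _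
  have d2 : h ∣ g * (h * μ) := (dvd_mul_right _ _).mul_left _
  have d3 : μ ∣ g * (h * μ) := (dvd_mul_left _ _).mul_left _
  exact ⟨le_trans (by exact_mod_cast Div277.nm_le_of_dvd h0 d1) hB,
    le_trans (by exact_mod_cast Div277.nm_le_of_dvd h0 d2) hB,
    le_trans (by exact_mod_cast Div277.nm_le_of_dvd h0 d3) hB⟩

/-- moments on `S B` give moments on `S Y` -/
lemma mom_ext {B Y Mb' : ℝ} (hB : 0 ≤ B) (hBY : B ≤ Y) (hMb : 0 ≤ Mb') {b : Eis → ℂ}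
    (h1 : ∀ m, b m ≠ 0 → m ∈ S B)
    (h2 : ∀ g ∈ S B, ∀ h ∈ S B, ∑ μ ∈ S B, ‖b (g * (h * μ))‖ ^ 2 ≤
      Mb' / ((nm g : ℝ) * nm h)) :
    ∀ g ∈ S Y, ∀ h ∈ S Y, ∑ μ ∈ S Y, ‖b (g * (h * μ))‖ ^ 2 ≤ Mb' / ((nm g : ℝ) * nm h) := by
  intro g hg h hh
  have hY : 0 ≤ Y := hB.trans hBY
  obtain ⟨-, g1, g2⟩ := (mem_S hY).1 hg
  obtain ⟨-, k1, k2⟩ := (mem_S hY).1 hh
  have key : ∀ μ ∈ S Y, b (g * (h * μ)) ≠ 0 → (nm g : ℝ) ≤ B ∧ (nm h : ℝ) ≤ B ∧ μ ∈ S B := by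
    intro μ hμ h0
    obtain ⟨-, m1, m2⟩ := (mem_S hY).1 hμ
    obtain ⟨q1, q2, -⟩ := (mem_S hB).1 (h1 _ h0)
    obtain ⟨r1, r2, r3⟩ := nm_fac q2.ne_zero q1
    exact ⟨r1, r2, (mem_S hB).2 ⟨r3, m1, m2⟩⟩
  by_cases hz : ∃ μ ∈ S Y, b (g * (h * μ)) ≠ 0
  · obtain ⟨μ, hμ, h0⟩ := hz
    obtain ⟨r1, r2, -⟩ := key μ hμ h0
    refine le_trans ?_ (h2 g ((mem_S hB).2 ⟨r1, g1, g2⟩) h ((mem_S hB).2 ⟨r2, k1, k2⟩))
    have e1 : ∑ μ ∈ S Y, ‖b (g * (h * μ))‖ ^ 2 =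
        ∑ μ ∈ (S Y).filter (fun μ => b (g * (h * μ)) ≠ 0), ‖b (g * (h * μ))‖ ^ 2 := by
      symm
      refine sum_subset (filter_subset _ _) fun μ hμ hn => ?_
      have : b (g * (h * μ)) = 0 := by
        by_contra h0
        exact hn (mem_filter.mpr ⟨hμ, h0⟩)
      rw [this]
      simp
    rw [e1]
    refine sum_le_sum_of_subset_of_nonneg (fun μ hμ => ?_) fun _ _ _ => by positivity
    obtain ⟨p1, p2⟩ := mem_filter.mp hμ
    exact (key μ p1 p2).2.2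
  · have e1 : ∑ μ ∈ S Y, ‖b (g * (h * μ))‖ ^ 2 = 0 := by
      refine sum_eq_zero fun μ hμ => ?_
      have : b (g * (h * μ)) = 0 := by
        by_contra h0
        exact hz ⟨μ, hμ, h0⟩
      rw [this]
      simp
    rw [e1]
    positivity

lemma b1s_S {B : ℝ} (hB : 1 ≤ B) : ∀ m, b1s m ≠ 0 → m ∈ S B := by
  intro m hm
  have h1 : m = 1 := by
    by_contra h
    exact hm (by unfold JxR679.b1s; rw [if_neg h])
  subst h1
  exact (mem_S (by linarith)).2 ⟨by simpa using hB, isPrim_one, squarefree_one⟩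

lemma b1s_mom {B : ℝ} (hB : 1 ≤ B) : ∀ g ∈ S B, ∀ h ∈ S B,
    ∑ μ ∈ S B, ‖b1s (g * (h * μ))‖ ^ 2 ≤ 1 / ((nm g : ℝ) * nm h) := by
  intro g hg h hh
  have hB0 : 0 ≤ B := by linarith
  obtain ⟨-, g1, -⟩ := (mem_S hB0).1 hg
  obtain ⟨-, h1, -⟩ := (mem_S hB0).1 hh
  have key : ∀ μ ∈ S B, b1s (g * (h * μ)) ≠ 0 → g = 1 ∧ h = 1 ∧ μ = 1 := by
    intro μ hμ h0
    obtain ⟨-, m1, -⟩ := (mem_S hB0).1 hμ
    have e : g * (h * μ) = 1 := by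
      by_contra h
      exact h0 (by unfold JxR679.b1s; rw [if_neg h])
    have u1 : IsUnit g := IsUnit.of_mul_eq_one _ e
    have e2 : h * (g * μ) = 1 := by rw [← e]; ring
    have e3 : μ * (g * h) = 1 := by rw [← e]; ring
    exact ⟨K695.prim_eq_one_of_isUnit g1 u1,
      K695.prim_eq_one_of_isUnit h1 (IsUnit.of_mul_eq_one _ e2),
      K695.prim_eq_one_of_isUnit m1 (IsUnit.of_mul_eq_one _ e3)⟩
  by_cases hz : ∃ μ ∈ S B, b1s (g * (h * μ)) ≠ 0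
  · obtain ⟨μ, hμ, h0⟩ := hz
    obtain ⟨r1, r2, r3⟩ := key μ hμ h0
    subst r1 r2 r3
    have e1 : ∑ μ ∈ S B, ‖b1s ((1 : Eis) * (1 * μ))‖ ^ 2 = ‖b1s ((1 : Eis) * (1 * 1))‖ ^ 2 := by
      refine sum_eq_single_of_mem 1 hμ fun μ _ hne => ?_
      have : b1s ((1 : Eis) * (1 * μ)) = 0 := by
        rw [one_mul, one_mul]
        unfold JxR679.b1s
        rw [if_neg hne]
      rw [this]
      simp
    rw [e1]
    simp [JxR679.b1s]
  · have e1 : ∑ μ ∈ S B, ‖b1s (g * (h * μ))‖ ^ 2 = 0 := by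
      refine sum_eq_zero fun μ hμ => ?_
      have : b1s (g * (h * μ)) = 0 := by
        by_contra h0
        exact hz ⟨μ, hμ, h0⟩
      rw [this]
      simp
    rw [e1]
    positivity

section cls

variable {Λ : Type*} {π : Λ → DPar} {lam : Λ × Eis} {Jf : ℝ → ℝ → ℝ → Finset (Eis × Eis)}
  {a : Bd × ℕ} {x : Dt}

/-- the sum of 92's moments at the outer indices of a block -/
def BSum (π : Λ → DPar) (lam : Λ × Eis) (Jf : ℝ → ℝ → ℝ → Finset (Eis × Eis)) (a : Bd × ℕ)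
    (x : Dt) (α : Eis → ℂ) (g₁ g₂ : Eis) (Pp : Pf) (D b : Eis) (G : Eis → ℂ) (κ Y' : ℝ)
    (OO : Finset (Eis × Eis)) (bm : Eis × Eis → Eis → ℂ) (Pk : Eis → Prop) : ℝ :=
  ∑ o ∈ OO, XMbP (π lam.1).n₃ (vC (dB π lam Jf a x α g₁ g₂ Pp D b G κ Y').x (PC x.m)
    (dB π lam Jf a x α g₁ g₂ Pp D b G κ Y').kk (dB π lam Jf a x α g₁ g₂ Pp D b G κ Y').κ' o)
    (bm o) Pk κ

/-- **helper512's moment from helper92's sum**, squarefree factor -/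
theorem xmo_eq {α : Eis → ℂ} {G G' : Eis → ℂ} {nkk : ℕ} {Pp : Pf} {D b g₁ g₂ : Eis} {Y' : ℝ}
    (hok : (dB π lam Jf a x α g₁ g₂ Pp D b G' (2 ^ nkk - 1 / 2) Y').OK) (hg : x.g' = g₁ * g₂ ^ 2)
    (hRp : IsPrim (Pp.R * Pp.R')) (hG : ∀ y, Sm (π lam.1).n₃ y → G y = G' y)
    (Oc : Finset (x.O π lam Jf a)) (Pk : Eis → Prop) (bm : x.O π lam Jf a → Eis → ℂ) :
    XMo (π lam.1).n₃ (vG π lam Jf a x α) G Pp Oc nkk Pk D b (fun o k => ‖CS (bm o) k‖ ^ 2) =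
      BSum π lam Jf a x α g₁ g₂ Pp D b G' (2 ^ nkk - 1 / 2) Y' (Oc.image Subtype.val) (ext0 bm)
        Pk := by
  unfold XMo BSum
  exact mom_sum (π lam.1).n₃ (2 ^ nkk - 1 / 2) Pk Oc
    (fun o => (pkP Pp o D b).v' (vG π lam Jf a x α) G) bm
    (fun o => vC (dB π lam Jf a x α g₁ g₂ Pp D b G' (2 ^ nkk - 1 / 2) Y').x (PC x.m)
      (dB π lam Jf a x α g₁ g₂ Pp D b G' (2 ^ nkk - 1 / 2) Y').kk
      (dB π lam Jf a x α g₁ g₂ Pp D b G' (2 ^ nkk - 1 / 2) Y').κ' o)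
    fun o _ => v'_eqX hok hg hRp hG o

/-- **helper512's moments of a block from helper92's sum** -/
theorem xmo_of {ε : ℝ} (hε : 0 < ε) : ∃ C : ℝ, 1 ≤ C ∧ ∀ {Λ : Type*} (π : Λ → DPar)
    (lam : Λ × Eis) (Jf : ℝ → ℝ → ℝ → Finset (Eis × Eis)) (a : Bd × ℕ) (x : Dt) (α : Eis → ℂ)
    (G G' : Eis → ℂ) (nkk : ℕ) (Pp : Pf) (D b g₁ g₂ : Eis) (Y' : ℝ),
    (dB π lam Jf a x α g₁ g₂ Pp D b G' (2 ^ nkk - 1 / 2) Y').OK → x.g' = g₁ * g₂ ^ 2 →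
    IsPrim (Pp.R * Pp.R') → (∀ y, Sm (π lam.1).n₃ y → G y = G' y) →
    ∀ (Oc : Finset (x.O π lam Jf a)) (Pk : Eis → Prop) (B S₁ : ℝ), 1 ≤ B → B ≤ Y' →
    (∀ Mb' : ℝ, 0 ≤ Mb' → ∀ bm' : Eis × Eis → Eis → ℂ,
      (∀ o ∈ Oc.image Subtype.val, ∀ m, bm' o m ≠ 0 → m ∈ S B) →
      (∀ o ∈ Oc.image Subtype.val, ∀ g ∈ S Y', ∀ h ∈ S Y',
        ∑ μ ∈ S Y', ‖bm' o (g * (h * μ))‖ ^ 2 ≤ Mb' / ((nm g : ℝ) * nm h)) →
      BSum π lam Jf a x α g₁ g₂ Pp D b G' (2 ^ nkk - 1 / 2) Y' (Oc.image Subtype.val) bm' Pk ≤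
        Mb' * S₁) →
    XMo (π lam.1).n₃ (vG π lam Jf a x α) G Pp Oc nkk Pk D b (fun _ _ => 1) ≤ S₁ ∧
    ∀ (Mb : ℝ), 0 ≤ Mb → ∀ bm : x.O π lam Jf a → Eis → ℂ, (∀ o ∈ Oc, NatS B Mb (bm o)) →
      XMo (π lam.1).n₃ (vG π lam Jf a x α) G Pp Oc nkk Pk D b (fun o k => ‖CS (bm o) k‖ ^ 2) ≤
        C * B ^ ε * (Mb * S₁) := by
  obtain ⟨C, hC, H⟩ := XNat842.nat_slices hε
  refine ⟨C, hC, ?_⟩
  intro Λ π lam Jf a x α G G' nkk Pp D b g₁ g₂ Y' hok hg hRp hG Oc Pk B S₁ hB hBY HS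
  have hB0 : 0 ≤ B := by linarith
  have e0 : ∀ (bm : x.O π lam Jf a → Eis → ℂ) (o : Eis × Eis),
      o ∈ Oc.image Subtype.val → ∃ o' ∈ Oc, ext0 bm o = bm o' := by
    intro bm o ho
    obtain ⟨o', ho', rfl⟩ := mem_image.mp ho
    exact ⟨o', ho', ext0_val bm o'⟩
  constructor
  · have h1 := HS 1 zero_le_one (ext0 fun _ => b1s)
      (fun o ho m hm => by
        obtain ⟨o', -, e⟩ := e0 (fun _ => b1s) o ho
        rw [e] at hm
        exact b1s_S hB m hm)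
      (fun o ho g hg h hh => by
        obtain ⟨o', -, e⟩ := e0 (fun _ => b1s) o ho
        rw [e]
        exact mom_ext hB0 hBY zero_le_one (b1s_S hB) (b1s_mom hB) g hg h hh)
    rw [one_mul, ← xmo_eq hok hg hRp hG] at h1
    simpa only [CS_b1s, norm_one, one_pow] using h1
  · intro Mb hMb bm hbm
    have h1 := H B B Mb S₁ hB hB0 le_rfl hMb Oc
      ((Dk (π lam.1).n₃ (2 ^ nkk - 1 / 2)).filter Pk)
      (fun o k => (nm k : ℝ)⁻¹ * ‖Sd ((pkP Pp o D b).v' (vG π lam Jf a x α) G) k‖ ^ 2)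
      (fun o k => by positivity) bm hbm (fun Mb' hMb' bm' k1 k2 => by
        have h2 := HS Mb' hMb' (ext0 bm')
          (fun o ho m hm => by
            obtain ⟨o', ho', e⟩ := e0 bm' o ho
            rw [e] at hm
            exact k1 o' ho' m hm)
          (fun o ho g hg h hh => by
            obtain ⟨o', ho', e⟩ := e0 bm' o ho
            rw [e]
            exact mom_ext hB0 hBY hMb' (k1 o' ho') (k2 o' ho') g hg h hh)
        rw [← xmo_eq hok hg hRp hG] at h2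
        refine le_trans (le_of_eq ?_) h2
        unfold XMo
        refine sum_congr rfl fun o _ => sum_congr rfl fun k _ => ?_
        ring)
    refine le_trans (le_of_eq ?_) h1
    unfold XMo
    refine sum_congr rfl fun o _ => sum_congr rfl fun k _ => ?_
    ring

/-! ### admissible data at a block -/

variable {Bf : ℝ → ℝ → ℝ → ℝ} {e0 r ε XX : ℝ} {g₁ g₂ D b : Eis} {Pp : Pf} {α : Eis → ℂ}
  {A1 X : ℝ} {nkk nl : ℕ} {s₁ β₀ : Eis} {Oc : Finset (x.O π lam Jf a)} {Pk : Eis → Prop}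

lemma o_sizes (o : x.O π lam Jf a) : 1 ≤ (nm o.1.1 : ℝ) ∧ 1 ≤ (nm o.1.2 : ℝ) ∧
    lD o = (nm o.1.1 : ℝ) * nm o.1.2 ∧ o.1.1 ≠ 0 := by
  have hsm : Sm (π lam.1).n₃ (o.1.1 * o.1.2) := by
    have h := o.2
    unfold Dt.O OD OU at h
    exact (mem_filter.mp h).2
  refine ⟨?_, ?_, ?_, left_ne_zero_of_mul hsm.ne_zero⟩
  · exact_mod_cast nm_pos.mpr (left_ne_zero_of_mul hsm.ne_zero)
  · exact_mod_cast nm_pos.mpr (right_ne_zero_of_mul hsm.ne_zero)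
  · unfold lD
    rw [nm_mul]
    push_cast
    rfl

/-- **helper92's data are admissible at a block** -/
theorem ok_blkX (hP0 : (π lam.1).OK) (ha : a.1.ok) (hP : a.1.okP (π lam.1))
    (hx : x.OK (π lam.1) Bf e0 r ε XX a.1) (hJ : ∀ l N z, OKJ (Jf l N z)) (hF : JFull Jf)
    (hlv : a.2 < nL a.1.l (a3 a.1) a.1.z) (hα : FS α) (hX : 1 ≤ X) (hA1 : 0 ≤ A1)
    (hb : BlkX π lam Jf a x A1 X nkk nl Pp s₁ β₀ Oc Pk) (hne : Oc.Nonempty)
    (hnX : (nm (π lam.1).n₃ : ℝ) ≤ X ^ A1)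
    (hg₁ : PrI (π lam.1).n₃ g₁) (hg₁q : Squarefree g₁) (hg₂ : PrI (π lam.1).n₃ g₂)
    (hg₁n : nm g₁ ≤ nm (π lam.1).n₃)
    (hR : PrI (Pp.B * (b ^ 2 * Pp.b)) (Pp.R * Pp.R')) (hbp : IsPrim b) (hD : IsPrim D)
    {G : Eis → ℂ} (hG : Mul1 G) :
    (dB π lam Jf a x α g₁ g₂ Pp D b G (2 ^ nkk - 1 / 2) ((X ^ A1) ^ 3)).OK ∧
      (dB π lam Jf a x α g₁ g₂ Pp D b G (2 ^ nkk - 1 / 2) ((X ^ A1) ^ 3)).OKo
        (Oc.image Subtype.val) := by
  obtain ⟨Y, hYe⟩ : ∃ Y : ℝ, Y = X ^ A1 := ⟨_, rfl⟩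
  have hY : 1 ≤ Y := by
    rw [hYe]
    exact Real.one_le_rpow hX hA1
  have hY0 : 0 < Y := by linarith
  have hkY := hb.kY
  have hLY := hb.LY
  have hiY := hb.iY
  rw [← hYe] at hkY hLY hiY hnX ⊢
  have hYY : Y ≤ Y ^ 3 := le_self_pow₀ hY (by norm_num)
  have hYY2 : Y * Y ≤ Y ^ 3 := by
    have : 0 ≤ Y * Y := by positivity
    nlinarith
  have h2 : (0 : ℝ) < 2 ^ a.2 := by positivity
  have h2k : (1 : ℝ) ≤ 2 ^ nkk := one_le_pow₀ (by norm_num)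
  have hκY : (2 : ℝ) ^ nkk - 1 / 2 ≤ Y ^ 3 := by linarith
  have hlo : ∀ o ∈ Oc, lD o ≤ Y := fun o ho => (hb.O o ho).2.trans hLY
  constructor
  · obtain ⟨o₀, ho₀⟩ := hne
    obtain ⟨d1, d2, d3⟩ := BK858.dvd_o ha hP hx o₀
    obtain ⟨n1, n2, n3, n4⟩ := o_sizes o₀
    have hS : (nm o₀.1.1 : ℝ) ≤ Y := by
      refine le_trans ?_ (hlo o₀ ho₀)
      rw [n3]
      nlinarith
    have e1 : (nm x.g : ℝ) ≤ Y := le_trans (by exact_mod_cast Div277.nm_le_of_dvd n4 d1) hS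
    have e2 : (nm x.e₀ : ℝ) ≤ Y := le_trans (by exact_mod_cast Div277.nm_le_of_dvd n4 d2) hS
    have e3 : (nm x.t : ℝ) ≤ Y := le_trans (by exact_mod_cast Div277.nm_le_of_dvd n4 d3) hS
    have hEp : IsPrim (x.E a.1) := hP.1.prim.mul (T3_prim x.β hx.β)
    unfold dB
    refine okX hx ha hP hJ hF hlv hP0.χ₃.conj hEp hα hg₁ hg₁q hg₂ hR ((hbp.pow 2).mul hb.pb) hD hG
      ?_ (by linarith) hκY ?_ le_rfl ?_ ?_
    · linarith
    · linarith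
    · rw [nm_mul, nm_mul]
      push_cast
      calc (nm x.g : ℝ) * nm x.e₀ * nm x.t ≤ Y * Y * Y := by gcongr
        _ = Y ^ 3 := by ring
    · exact le_trans (by exact_mod_cast hg₁n) (hnX.trans hYY)
  · unfold dB
    refine okoX hx ha hP hJ ?_ ?_
    · intro o ho
      obtain ⟨o', -, rfl⟩ := mem_image.mp ho
      exact o'.2
    · intro o ho
      obtain ⟨o', ho', rfl⟩ := mem_image.mp ho
      obtain ⟨n1, n2, n3, n4⟩ := o_sizes o'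
      have h := hlo o' ho'
      have hS : (nm o'.1.1 : ℝ) ≤ Y := by
        refine le_trans ?_ h
        rw [n3]
        nlinarith
      have hν : (nm o'.1.2 : ℝ) ≤ Y := by
        refine le_trans ?_ h
        rw [n3]
        nlinarith
      refine ⟨hS.trans hYY, hν.trans hYY, le_trans ?_ hYY2⟩
      exact mul_le_mul hiY hS (Nat.cast_nonneg _) hY0.le

end cls

end Crest.Agent.R017.E4zk679
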