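import Crest.Agent.R017.E4zk_679
import Crest.Agent.R017.E4zk_92

/-!
# Row 17, C70/E4 (x-side): the moment of a block from the cells and the numbers (helper679)

* `XBk` : the hypotheses of one block;  `xc_blk` : helper92's `XC`
* `pk_sk` : the condition on the square part
* `xmo_LT` : **helper512's moments from helper92's `Cells` and `Phis`**
-/

set_option autoImplicit false
set_option linter.unusedSectionVars false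

noncomputable section

open Complex Finset
open scoped ComplexConjugate Classical

namespace Crest.Agent.R017.E4zl679

open Crest.Agent.R012 Crest.Agent.R012.Eis
open Crest.Agent.R012.Mob705 hiding pb mem_pb kap
open Crest.Agent.R012.LS2 (S mem_S)
open Crest.Agent.R012.Div277 (dvs)
open Crest.Agent.R017.Sx545 (Sm)
open Crest.Agent.R017.CM106 (CS FS)
open Crest.Agent.R017.C70 (CbF JC OKJ)
open Crest.Agent.R017.End699 (HC)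
open Crest.Agent.R017.E5B71 Crest.Agent.R017.E4D164
open Crest.Agent.R017.B770 (DPar)
open Crest.Agent.R017.E5L770
open Crest.Agent.R017.E4U164
open Crest.Agent.R017.E4352
open Crest.Agent.R017.E4J352 (Tm gx)
open Crest.Agent.R017.E4RH858 (Pf pf Facts)
open Crest.Agent.R017.E4579 (bpt bco bpt_prim bpt_mul_bco bco_cop bpt_dvd)
open Crest.Agent.R017.E4y92 (Dk)
open Crest.Agent.R017.E4X92 (XMbP)
open Crest.Agent.R017.E4zc92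
open Crest.Agent.R017.E4zf92
open Crest.Agent.R017.E4zg92
open Crest.Agent.R017.JxL679 (NatS)
open Crest.Agent.R017.JxS679 (sk sk_prim)
open Crest.Agent.R017.XHn512 (vG BlkX)
open Crest.Agent.R017.XSd512 (XMo)
open Crest.Agent.R017.Mode405 (Mul1)
open Crest.Agent.R017.E4zh679
open Crest.Agent.R017.E4zk679

variable {Λ : Type*}

/-- **the hypotheses of one block** -/
structure XBk (π : Λ → DPar) (lam : Λ × Eis) (Jf : ℝ → ℝ → ℝ → Finset (Eis × Eis))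
    (a : Bd × ℕ) (x : Dt) (α : Eis → ℂ) (A1 X : ℝ) (nkk nl : ℕ) (Pp : Pf) (s₁ β₀ : Eis)
    (Oc : Finset (x.O π lam Jf a)) (Pk : Eis → Prop) (g₁ g₂ D b : Eis) (G : Eis → ℂ) : Prop where
  hP0 : (π lam.1).OK
  ha : a.1.ok
  haP : a.1.okP (π lam.1)
  hx : ∃ (Bf : ℝ → ℝ → ℝ → ℝ) (e0 r ε XX : ℝ), x.OK (π lam.1) Bf e0 r ε XX a.1
  hJ : ∀ l N z, OKJ (Jf l N z)
  hF : JFull Jf
  hlv : a.2 < nL a.1.l (a3 a.1) a.1.z
  hα : FS α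
  hX : 1 ≤ X
  hA1 : 0 ≤ A1
  blk : BlkX π lam Jf a x A1 X nkk nl Pp s₁ β₀ Oc Pk
  ne : Oc.Nonempty
  hn : (nm (π lam.1).n₃ : ℝ) ≤ X ^ A1
  hg : x.g' = g₁ * g₂ ^ 2
  g1 : PrI (π lam.1).n₃ g₁
  g1q : Squarefree g₁
  g2 : PrI (π lam.1).n₃ g₂
  g1n : nm g₁ ≤ nm (π lam.1).n₃
  hR : PrI (Pp.B * (b ^ 2 * Pp.b)) (Pp.R * Pp.R')
  hb : IsPrim b
  hD : IsPrim D
  hG : Mul1 G
  hs₁ : IsPrim s₁

section blk

variable {π : Λ → DPar} {lam : Λ × Eis} {Jf : ℝ → ℝ → ℝ → Finset (Eis × Eis)}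
  {a : Bd × ℕ} {x : Dt} {α : Eis → ℂ} {A1 X : ℝ} {nkk nl : ℕ} {Pp : Pf} {s₁ β₀ : Eis}
  {Oc : Finset (x.O π lam Jf a)} {Pk : Eis → Prop} {g₁ g₂ D b : Eis} {G : Eis → ℂ}

/-- the data of a block -/
abbrev dBX (π : Λ → DPar) (lam : Λ × Eis) (Jf : ℝ → ℝ → ℝ → Finset (Eis × Eis)) (a : Bd × ℕ)
    (x : Dt) (α : Eis → ℂ) (A1 X : ℝ) (nkk : ℕ) (Pp : Pf) (g₁ g₂ D b : Eis) (G : Eis → ℂ) : XD :=
  dB π lam Jf a x α g₁ g₂ Pp D b G (2 ^ nkk - 1 / 2) ((X ^ A1) ^ 3)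

theorem XBk.ok (h : XBk π lam Jf a x α A1 X nkk nl Pp s₁ β₀ Oc Pk g₁ g₂ D b G) :
    (dBX π lam Jf a x α A1 X nkk Pp g₁ g₂ D b G).OK ∧
      (dBX π lam Jf a x α A1 X nkk Pp g₁ g₂ D b G).OKo (Oc.image Subtype.val) := by
  obtain ⟨Bf, e0, r, ε, XX, hx⟩ := h.hx
  exact ok_blkX h.hP0 h.ha h.haP hx h.hJ h.hF h.hlv h.hα h.hX h.hA1 h.blk h.ne h.hn h.g1 h.g1q h.g2 h.g1n
    h.hR h.hb h.hD h.hG

/-- **helper92's `XC`** -/
theorem xc_blk (h : XBk π lam Jf a x α A1 X nkk nl Pp s₁ β₀ Oc Pk g₁ g₂ D b G) :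
    XC (dBX π lam Jf a x α A1 X nkk Pp g₁ g₂ D b G) (Oc.image Subtype.val) x.m β₀ where
  h := h.ok.1
  ho := h.ok.2
  P := rfl
  h2 o ho := by
    obtain ⟨o', -, rfl⟩ := mem_image.mp ho
    obtain ⟨Bf, e0, r, ε, XX, hx⟩ := h.hx
    exact (Str699.o_spec h.hJ h.ha h.haP hx o').2.2.2.1
  b o ho := by
    obtain ⟨o', ho', rfl⟩ := mem_image.mp ho
    exact h.blk.b3 o' ho'
  R o ho := by
    obtain ⟨o', ho', rfl⟩ := mem_image.mp ho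
    exact h.blk.cop o' ho'

/-- the window of the outer indices -/
lemma win_blk (h : XBk π lam Jf a x α A1 X nkk nl Pp s₁ β₀ Oc Pk g₁ g₂ D b G) :
    ∀ o ∈ Oc.image Subtype.val, (2 : ℝ) ^ nl ≤ (nm o.1 : ℝ) * nm o.2 ∧
      (nm o.1 : ℝ) * nm o.2 ≤ 2 * 2 ^ nl := by
  intro o ho
  obtain ⟨o', ho', rfl⟩ := mem_image.mp ho
  obtain ⟨-, -, e, -⟩ := o_sizes o'
  rw [← e]
  exact h.blk.O o' ho'

/-- **the condition on the square part** -/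
lemma pk_sk {g₀ : Eis} (hg : IsPrim g₀) {M : Eis} {κ : ℝ}
    (hPk : ∀ k ∈ Dk M κ, Pk k → sk g₀ k = s₁) (a s : Eis)
    (h : Pk (a * s ^ 2) ∧ a * s ^ 2 ∈ Dk M κ) (hs : IsPrim s) (hq : Squarefree s) (p : Eis)
    (hp : Prime p) (h1 : p ∣ s) (h2 : p ∣ g₀) : p ∣ s₁ := by
  refine dvd_trans ?_ (ps_of_sk hg a s (hPk _ h.2 h.1) hs hq)
  have e := bpt_mul_bco hg hs
  rw [← e] at h1
  rcases hp.dvd_or_dvd h1 with h3 | h3
  · exact h3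
  · exact absurd ((bco_cop hg hs).isUnit_of_dvd' h3 h2) hp.not_isUnit

lemma g0_prim (h : XBk π lam Jf a x α A1 X nkk nl Pp s₁ β₀ Oc Pk g₁ g₂ D b G) :
    IsPrim (x.g * x.e₀ * x.t) := by
  obtain ⟨Bf, e0, r, ε, XX, hx⟩ := h.hx
  obtain ⟨g1, -, -⟩ := (E5P571.mem_Gd h.ha.2.2).mp hx.g
  have hEp : IsPrim (x.E a.1) := h.haP.1.prim.mul (T3_prim x.β hx.β)
  obtain ⟨t1, -, -⟩ := (E5P571.mem_Gd (tS_prim hEp).ne_zero).mp hx.t
  obtain ⟨-, e1, -⟩ := (LS2.mem_S (Real.exp_nonneg _)).mp hx.e₀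
  exact (g1.1.mul e1).mul t1.1

/-- the condition on `k` may be restricted to the moduli -/
lemma XMo_pk {OO : Finset (Eis × Eis)} (M : Eis) (v : {x // x ∈ OO} → Eis → ℂ) (G : Eis → ℂ)
    (Pp : Pf) (Oc : Finset {x // x ∈ OO}) (nkk : ℕ) (Pk : Eis → Prop) (D b : Eis)
    (H : {x // x ∈ OO} → Eis → ℝ) :
    XMo M v G Pp Oc nkk Pk D b H =
      XMo M v G Pp Oc nkk (fun k => Pk k ∧ k ∈ Dk M (2 ^ nkk - 1 / 2)) D b H := by
  unfold XMo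
  refine sum_congr rfl fun o _ => ?_
  refine sum_congr ?_ fun _ _ => rfl
  ext k
  simp only [mem_filter]
  exact ⟨fun h => ⟨h.1, h.2, h.1⟩, fun h => ⟨h.1, h.2.1⟩⟩

end blk

lemma PhiR_mb (x : E4X92.XF) (cw Mb Ek : ℝ) (A : Fin 4 → (Fin 12 → ℕ) → Eis × Eis → ℝ)
    (Ys : (Fin 12 → ℕ) → Eis → Finset Eis) (n : Fin 12 → ℕ) (k : Eis × Eis) :
    x.PhiR cw Mb Ek A Ys n k = Mb * x.PhiR cw 1 Ek A Ys n k := by
  unfold E4X92.XF.PhiR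
  ring

set_option maxHeartbeats 800000 in
/-- **helper512's moments of a block from helper92's `Cells` and `Phis`** -/
theorem xmo_LT {ε : ℝ} (hε : 0 < ε) {cw : ℝ} (hcw : 1 ≤ cw) : ∃ C : ℝ, 0 ≤ C ∧
    ∀ {Λ : Type*} (π : Λ → DPar) (lam : Λ × Eis) (Jf : ℝ → ℝ → ℝ → Finset (Eis × Eis))
    (a : Bd × ℕ) (x : Dt) (α : Eis → ℂ) (A1 X : ℝ) (nkk nl : ℕ) (Pp : Pf) (s₁ β₀ : Eis)
    (Oc : Finset (x.O π lam Jf a)) (Pk : Eis → Prop) (g₁ g₂ D b : Eis) (G G₀ : Eis → ℂ),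
    XBk π lam Jf a x α A1 X nkk nl Pp s₁ β₀ Oc Pk g₁ g₂ D b G →
    (∀ y, Sm (π lam.1).n₃ y → G₀ y = G y) →
    ∀ (B S₁ : ℝ) (A : Fin 4 → (Fin 12 → ℕ) → Eis × Eis → ℝ), 1 ≤ B → B ≤ X ^ A1 → 0 ≤ S₁ →
    (∀ j n k, 0 ≤ A j n k) → (∀ j n e r, j ≠ 3 → A j n (e, r) = A j n (e, 1)) →
    (∀ (Mb' Ek : ℝ) (bm' : Eis × Eis → Eis → ℂ),
      (dBX π lam Jf a x α A1 X nkk Pp g₁ g₂ D b G).x.HO cw (Oc.image Subtype.val)
        (vC (dBX π lam Jf a x α A1 X nkk Pp g₁ g₂ D b G).x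
          (dBX π lam Jf a x α A1 X nkk Pp g₁ g₂ D b G).P
          (dBX π lam Jf a x α A1 X nkk Pp g₁ g₂ D b G).kk
          (dBX π lam Jf a x α A1 X nkk Pp g₁ g₂ D b G).κ') bm'
        (dBX π lam Jf a x α A1 X nkk Pp g₁ g₂ D b G).kk
        (dBX π lam Jf a x α A1 X nkk Pp g₁ g₂ D b G).κ'
        (dBX π lam Jf a x α A1 X nkk Pp g₁ g₂ D b G).qc Mb' Ek →
      Cells (dBX π lam Jf a x α A1 X nkk Pp g₁ g₂ D b G) cw (Oc.image Subtype.val) bm' A s₁) →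
    Phis (dBX π lam Jf a x α A1 X nkk Pp g₁ g₂ D b G) cw 1 1 B (2 * 2 ^ nl) (2 ^ nl) x.m β₀ s₁ A
      S₁ →
    XMo (π lam.1).n₃ (vG π lam Jf a x α) G₀ Pp Oc nkk Pk D b (fun _ _ => 1) ≤
      C * ((X ^ A1) ^ 3) ^ ε * S₁ ∧
    ∀ (Mb : ℝ), 0 ≤ Mb → ∀ bm : x.O π lam Jf a → Eis → ℂ, (∀ o ∈ Oc, NatS B Mb (bm o)) →
      XMo (π lam.1).n₃ (vG π lam Jf a x α) G₀ Pp Oc nkk Pk D b
        (fun o k => ‖CS (bm o) k‖ ^ 2) ≤ C * ((X ^ A1) ^ 3) ^ ε * (Mb * S₁) := by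
  have hε2 : 0 < ε / 2 := by positivity
  obtain ⟨C1, hC1, H1⟩ := xclass hε2 hcw
  obtain ⟨C2, hC2, H2⟩ := xmo_of hε2
  refine ⟨C1 * C2, by positivity, ?_⟩
  intro Λ π lam Jf a x α A1 X nkk nl Pp s₁ β₀ Oc Pk g₁ g₂ D b G G₀ h hG B S₁ A hB hBX hS₁ hA0 hA3
    hcell hphi
  obtain ⟨d, hd⟩ : ∃ d : XD, d = dBX π lam Jf a x α A1 X nkk Pp g₁ g₂ D b G := ⟨_, rfl⟩
  obtain ⟨Y, hY⟩ : ∃ Y : ℝ, Y = (X ^ A1) ^ 3 := ⟨_, rfl⟩
  have hY1 : 1 ≤ X ^ A1 := Real.one_le_rpow h.hX h.hA1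
  have hYY : X ^ A1 ≤ Y := by
    rw [hY]
    exact le_self_pow₀ hY1 (by norm_num)
  have hYone : 1 ≤ Y := hY1.trans hYY
  have hBY : B ≤ Y := hBX.trans hYY
  have hB0 : 0 ≤ B := by linarith
  have eY : d.Y = Y := by rw [hd, hY]; rfl
  have hXC : XC d (Oc.image Subtype.val) x.m β₀ := by
    rw [hd]
    exact xc_blk h
  have hok := hXC.h
  have hoko := hXC.ho
  have hRp : IsPrim (Pp.R * Pp.R') := h.blk.pP
  have hYε : 0 ≤ Y ^ (ε / 2) := Real.rpow_nonneg (by linarith) _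
  have hYε1 : 1 ≤ Y ^ (ε / 2) := Real.one_le_rpow hYone hε2.le
  have key := H2 π lam Jf a x α G₀ G nkk Pp D b g₁ g₂ ((X ^ A1) ^ 3)
    (by rw [hd] at hok; exact hok) h.hg hRp hG Oc
    (fun k => Pk k ∧ k ∈ Dk (π lam.1).n₃ (2 ^ nkk - 1 / 2)) B (C1 * Y ^ (ε / 2) * S₁) hB
    (by rw [← hY]; exact hBY) (fun Mb' hMb' bm' k1 k2 => by
      obtain ⟨Ek, hEk, hEk0⟩ : ∃ Ek : ℝ, (∀ o ∈ Oc.image Subtype.val,
          ((dvs o.1).card : ℝ) ^ 2 ≤ Ek) ∧ 0 ≤ Ek :=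
        ⟨∑ o ∈ Oc.image Subtype.val, ((dvs o.1).card : ℝ) ^ 2,
          fun o ho => single_le_sum (f := fun o : Eis × Eis => ((dvs o.1).card : ℝ) ^ 2)
            (fun _ _ => by positivity) ho, sum_nonneg fun _ _ => by positivity⟩
      have hsup : ∀ o ∈ Oc.image Subtype.val, ∀ k, bm' o k ≠ 0 → k ∈ S d.Y ∧ (nm k : ℝ) ≤ B := by
        intro o ho k hk
        obtain ⟨q1, q2, q3⟩ := (mem_S hB0).1 (k1 o ho k hk)
        rw [eY]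
        exact ⟨(mem_S (by linarith)).2 ⟨q1.trans hBY, q2, q3⟩, q1⟩
      have hmass : ∀ o ∈ Oc.image Subtype.val, ∀ g ∈ S d.Y, ∀ h ∈ S d.Y,
          ∑ μ ∈ S d.Y, ‖bm' o (g * (h * μ))‖ ^ 2 ≤ Mb' / ((nm g : ℝ) * nm h) := by
        rw [eY, hY]
        exact k2
      have hHO := ho_of hok hoko hcw (bm := bm') hMb' hEk hEk0 (fun o ho m hm => (hsup o ho m hm).1)
        hmass
      have hC : Cells d cw (Oc.image Subtype.val) bm' A s₁ := by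
        rw [hd] at hHO ⊢
        exact hcell Mb' Ek bm' hHO
      have hphi' : Phis d cw Mb' 1 B (2 * 2 ^ nl) (2 ^ nl) x.m β₀ s₁ A (Mb' * S₁) := by
        rw [hd]
        intro n k nus nR nU r1 r2 r3 r4 r5 r6 r7 r8
        rw [PhiR_mb]
        exact mul_le_mul_of_nonneg_left (hphi n k nus nR nU r1 r2 r3 r4 r5 r6 r7 r8) hMb'
      have k3 := H1 d (Oc.image Subtype.val) x.m β₀ s₁ bm' Mb' B (2 * 2 ^ nl) (2 ^ nl) A
        (fun k => Pk k ∧ k ∈ Dk (π lam.1).n₃ (2 ^ nkk - 1 / 2)) (Mb' * S₁) hXC h.hs₁ hMb' hsup hmass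
        (by
          rw [hd]
          exact fun a s h0 hs hq p hp h3 h4 => pk_sk (g0_prim h) h.blk.Pk a s h0 hs hq p hp h3 h4)
        (win_blk h) hA0 hA3 hC hphi' (by positivity)
      unfold BSum
      rw [eY] at k3
      have e1 : C1 * Y ^ (ε / 2) * (Mb' * S₁) = Mb' * (C1 * Y ^ (ε / 2) * S₁) := by ring
      rw [← e1]
      refine le_trans (le_of_eq ?_) k3
      rw [hd]
      rfl)
  have hYε2 : Y ^ (ε / 2) * Y ^ (ε / 2) = Y ^ ε := by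
    rw [← Real.rpow_add (by linarith)]
    congr 1
    ring
  obtain ⟨key1, key2⟩ := key
  rw [← hY]
  constructor
  · rw [XMo_pk]
    refine key1.trans ?_
    have h1 : C1 * Y ^ (ε / 2) * S₁ ≤ C1 * C2 * (Y ^ (ε / 2) * Y ^ (ε / 2)) * S₁ := by
      refine mul_le_mul_of_nonneg_right ?_ hS₁
      have h2 : C1 * Y ^ (ε / 2) * 1 ≤ C1 * Y ^ (ε / 2) * (C2 * Y ^ (ε / 2)) := by
        refine mul_le_mul_of_nonneg_left ?_ (by positivity)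
        exact one_le_mul_of_one_le_of_one_le hC2 hYε1
      linarith
    rwa [hYε2] at h1
  · intro Mb hMb bm hbm
    rw [XMo_pk]
    refine (key2 Mb hMb bm hbm).trans ?_
    have h1 : B ^ (ε / 2) ≤ Y ^ (ε / 2) := Real.rpow_le_rpow hB0 hBY hε2.le
    have h2 : 0 ≤ Mb * (C1 * Y ^ (ε / 2) * S₁) := by positivity
    calc C2 * B ^ (ε / 2) * (Mb * (C1 * Y ^ (ε / 2) * S₁))
        ≤ C2 * Y ^ (ε / 2) * (Mb * (C1 * Y ^ (ε / 2) * S₁)) := by gcongr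
      _ = C1 * C2 * (Y ^ (ε / 2) * Y ^ (ε / 2)) * (Mb * S₁) := by ring
      _ = C1 * C2 * Y ^ ε * (Mb * S₁) := by rw [hYε2]

end Crest.Agent.R017.E4zl679
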