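import Crest.Agent.R017.XHe_512
import Crest.Agent.R017.E4ScE_266
import Crest.Agent.R017.E4Uz_512
import Crest.Agent.R017.E4JX_372

/-!
# Row 17, StrUX: the large sieve closer of `XNumUX` (helper266)

helper512's `XHe` at the data of class E.

* `TNumUX` : the `T`-numbers of the `x`-side;  `XNumCX` : `XNumUX` with any closer
* **`xnumHX_of`** : the large sieve closer, from `TNumUX`;  `xnumCX_or`, `xnumCX_ClX`
-/

set_option autoImplicit false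

noncomputable section

open Complex Finset
open scoped ComplexConjugate

namespace Crest.Agent.R017.E4SE266

open Crest.Agent.R012 Crest.Agent.R012.Eis
open Crest.Agent.R012.Mob705 hiding pb mem_pb
open Crest.Agent.R012.LS2 (mem_S)
open Crest.Agent.R017.Sx545 (Sm)
open Crest.Agent.R017.CM106 (FS CS)
open Crest.Agent.R017.FE47 (PU SM)
open Crest.Agent.R017.C70 (OKJ)
open Crest.Agent.R017.End699 (HC)
open Crest.Agent.R017.B770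
open Crest.Agent.R017.Prov71
open Crest.Agent.R017.E4352 (PrI Dat4 rd SSm tws)
open Crest.Agent.R017.E4o502 (vD)
open Crest.Agent.R017.E5B71
open Crest.Agent.R017.E5L770
open Crest.Agent.R017.E5LX770 (SqLX)
open Crest.Agent.R017.ExP960 hiding alX
open Crest.Agent.R017.E5k54 (alb)
open Crest.Agent.R017.E4D164 hiding E4L
open Crest.Agent.R017.E4J352 hiding Win
open Crest.Agent.R017.E4U164
open Crest.Agent.R017.E4Df372
open Crest.Agent.R017.E4R70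
open Crest.Agent.R017.E4RH858 (Pf pf Facts kl)
open Crest.Agent.R017.E4Dic352
open Crest.Agent.R017.E4St352
open Crest.Agent.R017.JxG679 (vD_ne)
open Crest.Agent.R017.JxL679 (NatS)
open Crest.Agent.R017.JxP679
open Crest.Agent.R017.XSd512 (XMo)
open Crest.Agent.R017.YsU61 (TwOK)
open Crest.Agent.R017.EnX743 (TWa xJB)
open Crest.Agent.R017.Str699 (nu0)
open Crest.Agent.R017.XHn512

lemma vG_vE {Λ : Type*} (π : Λ → DPar) (h : ℝ → ℝ) (lam : Λ × Eis)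
    (Jf : ℝ → ℝ → ℝ → Finset (Eis × Eis)) (a : BdX × ℕ) (x : Dt) :
    vE π h lam Jf a x = vG π lam Jf (bl a) x (alX (π lam.1) h lam.2 a.1 x.β) := rfl

section num

variable {Λ : Type*} (π : Λ → DPar) (h : ℝ → ℝ)

/-- **the `T`-numbers of the `x`-side** (class E) : weights `1` and `nm y.1` -/
def TNumUX (A d bb e0 r : ℝ)
    (Bf : ℕ → ℝ → ℝ → ℝ → ℝ) (Jf : ℝ → ℝ → ℝ → Finset (Eis × Eis)) : Prop :=
  ∀ ε : ℝ, 0 < ε → ∃ η : ℝ, 0 < η ∧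
    ∀ (lam : Λ × Eis) (N : ℕ) (B : ℝ), ¬ (π lam.1).CaseD →
    ∃ δ' : ℝ, 0 < δ' ∧ ∃ X₀ : ℝ, 1 < X₀ ∧ ∀ X : ℝ, X₀ ≤ X → ∀ δ ε' : ℝ, δ ≤ η → ε' ≤ η →
    ∀ (a : BdX × ℕ) (ps : List Pq) (q : (Option IX5 → ℝ) × (Kd → ℝ)),
      FrLX A d bb δ δ' B X N a ps q → a.1.ok → lam.2 ∈ SM (π lam.1).n → a.1.okP (π lam.1) →
    ∀ x : Dt, x.OK (π lam.1) (Bf a.2) e0 r ε' X a.1.toBd → XLowX d X q x →
      (x.I Jf (bl a)).Nonempty → ∀ z' : Cls,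
      z'.Ok d (1 / cκ (prX (dn q.1))) (cN (prX (dn q.1)) / cκ (prX (dn q.1))) (cM (prX (dn q.1)) / cκ (prX (dn q.1)))
        (q.2 .mo / cκ (prX (dn q.1))) (q.2 .am / cκ (prX (dn q.1))) (cx' (prX (dn q.1)) / cκ (prX (dn q.1))) →
      |z'.v - Real.log 2 * a.2 / (cκ (prX (dn q.1)) * Real.log X)| ≤ η →
      |z'.β - lg (∏ i, x.β i) / (cκ (prX (dn q.1)) * Real.log X)| ≤ η →
      |z'.s - lg x.e₀ / (cκ (prX (dn q.1)) * Real.log X)| ≤ η → ∀ b₀ : Eis,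
      TWa (xJB Jf (bl a) x b₀) (omL a.2) (alX (π lam.1) h lam.2 a.1 x.β) x.e₀ 1 0 ≤
        X ^ (tEx (cκ (prX (dn q.1))) d z' (cN (prX (dn q.1)) / cκ (prX (dn q.1))) (cu (prX (dn q.1)) 4 / cκ (prX (dn q.1))) +
          ε) ∧
      (TWa (xJB Jf (bl a) x b₀) (omL a.2) (alX (π lam.1) h lam.2 a.1 x.β) x.e₀ 1 1 ≤
        X ^ (tEx (cκ (prX (dn q.1))) d z' (cN (prX (dn q.1)) / cκ (prX (dn q.1))) (cu (prX (dn q.1)) 4 / cκ (prX (dn q.1))) +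
          cκ (prX (dn q.1)) * z'.d0 (cN (prX (dn q.1)) / cκ (prX (dn q.1))) (cu (prX (dn q.1)) 4 / cκ (prX (dn q.1))) + ε) ∨
        z'.v1 / 2 ≤ z'.d0 (cN (prX (dn q.1)) / cκ (prX (dn q.1))) (cu (prX (dn q.1)) 4 / cκ (prX (dn q.1))))

/-- **helper372's `XNumUX` with any closer `Cl`** -/
def XNumCX (Cl : ℝ → Cls → ℝ → ℝ → ℝ → ℝ → ℝ → Prop) (A d bb e0 r : ℝ)
    (Bf : ℕ → ℝ → ℝ → ℝ → ℝ) (Jf : ℝ → ℝ → ℝ → Finset (Eis × Eis)) : Prop :=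
  ∀ ε : ℝ, 0 < ε → ∃ η : ℝ, 0 < η ∧
    ∀ (lam : Λ × Eis) (N : ℕ) (B : ℝ) (T : Finset ((Eis → ℂ) × ℤ)), ¬ (π lam.1).CaseD →
    (∀ tt ∈ T, TwOK (π lam.1) tt) →
    ∃ (M₁ : ℕ) (δ' : ℝ), 0 < δ' ∧ ∃ X₀ : ℝ, 1 < X₀ ∧ ∀ X : ℝ, X₀ ≤ X →
    ∀ δ ε' : ℝ, δ ≤ η → ε' ≤ η →
    ∀ (a : BdX × ℕ) (ps : List Pq) (q : (Option IX5 → ℝ) × (Kd → ℝ)),
      FrLX A d bb δ δ' B X N a ps q → a.1.ok → lam.2 ∈ SM (π lam.1).n → a.1.okP (π lam.1) →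
    ∀ x : Dt, x.OK (π lam.1) (Bf a.2) e0 r ε' X a.1.toBd → XLowX d X q x →
      (x.I Jf (bl a)).Nonempty →
    ∀ (j : Fin 2) (h₁ : FS (b1 (π lam.1) h lam.2 ps))
      (h₂ : FS (b2X (π lam.1) h lam.2 a.1 ps j)),
    ∀ tt ∈ T, ∀ (ξ : ℝ) (G : Eis → ℂ), (∀ y, Sm (π lam.1).n₃ y → G y = E4J352.gx tt.1 tt.2 ξ y) →
    ∀ (c : E4J352.Win) (P : Pf) (β : Eis) (τ : Eis × Eis × Eis)
      (𝒥 : Finset (Tm (x.O π lam Jf (bl a)))),
      (∀ t ∈ 𝒥, t.OK (π lam.1).n₃ 1 ∧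
        t.val 1 lD (vE π h lam Jf a x) (wE π h lam Jf a ps x j h₁ h₂) G ≠ 0 ∧ t.In lD c ∧
        pf t = P ∧ bo3 t = β ∧ soL x (fN (π lam.1).n₃ (x.E a.1.toBd)) t = τ) →
    ∀ Oc : Finset (x.O π lam Jf (bl a)), (∀ o, o ∈ Oc ↔ ∃ t ∈ 𝒥, t.o = o) →
    ∀ t ∈ 𝒥, ∀ f1 f2 f3 D1' Z'' l' m : Eis,
      Spl (π lam.1).n₃ (fN (π lam.1).n₃ (x.E a.1.toBd)) x.z t f1 f2 f3 D1' Z'' l' m →
    ∀ (z' : Cls) (sc mx ex : ℝ),
      Nm918.Near η (StrD699.zT (cκ (prX (dn q.1)) * Real.log X) a.2 x (fN (π lam.1).n₃ (x.E a.1.toBd)) t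
        f1 f2 D1' l' m sc) z' →
      z'.Ok d (1 / cκ (prX (dn q.1))) (cN (prX (dn q.1)) / cκ (prX (dn q.1))) (cM (prX (dn q.1)) / cκ (prX (dn q.1)))
        (q.2 .mo / cκ (prX (dn q.1))) (q.2 .am / cκ (prX (dn q.1))) (cx' (prX (dn q.1)) / cκ (prX (dn q.1))) →
      z'.ky ≤ 1 → 0 ≤ mx → mx ≤ 2 →
      Cl (cκ (prX (dn q.1))) z' d (cN (prX (dn q.1)) / cκ (prX (dn q.1))) (cu (prX (dn q.1)) 4 / cκ (prX (dn q.1))) mx ex →
    ∀ t' ∈ 𝒥, ∀ Bm : ℝ, 1 ≤ Bm → Bm ≤ X ^ (mx + η) →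
      ∀ Bd : ℝ, Bd = ((1 + |ξ|) ^ M₁) ^ 2 * X ^ (cκ (prX (dn q.1)) * (z'.k + 2 * z'.lam) +
        (cκ (prX (dn q.1)) * StrD699.Vx z' (cN (prX (dn q.1)) / cκ (prX (dn q.1))) (cu (prX (dn q.1)) 4 / cκ (prX (dn q.1))) +
          cκ (prX (dn q.1)) * (2 / 3 * d * z'.N1 (cN (prX (dn q.1)) / cκ (prX (dn q.1)))) + ex + ε)) →
      (mx = 0 → XMo (π lam.1).n₃ (vE π h lam Jf a x) G P Oc c.nkk
        (fun k => kl (x.g * x.e₀ * x.t) k = τ.1) t'.D1 (E4RH858.b1 t') (fun _ _ => 1) ≤ Bd) ∧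
      (∀ bm : x.O π lam Jf (bl a) → Eis → ℂ, (∀ o ∈ Oc, NatS Bm (X ^ η * Bm) (bm o)) →
        XMo (π lam.1).n₃ (vE π h lam Jf a x) G P Oc c.nkk
          (fun k => kl (x.g * x.e₀ * x.t) k = τ.1) t'.D1 (E4RH858.b1 t')
          (fun o k => ‖CS (bm o) k‖ ^ 2) ≤ Bd)

end num

set_option maxHeartbeats 1000000 in
/-- **the large sieve half of helper372's `XNumUX`** -/
theorem xnumHX_of {Λ : Type*} {π : Λ → DPar} {h : ℝ → ℝ} {c₀ : ℝ} (hh : PU h c₀)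
    (hP : ∀ lam, (π lam).OK) {A d bb e0 r : ℝ} (hA : 2 / 3 ≤ A) {Bf : ℕ → ℝ → ℝ → ℝ → ℝ}
    {Jf : ℝ → ℝ → ℝ → Finset (Eis × Eis)} (hJf : ∀ l N z, OKJ (Jf l N z))
    (HT : TNumUX π h A d bb e0 r Bf Jf) : XNumCX π h HBc A d bb e0 r Bf Jf := by
  classical
  intro ε hε
  obtain ⟨η₁, hη₁, HT1⟩ := HT (ε / 64) (by positivity)
  obtain ⟨η, hη, hηa, hηb, hηc⟩ : ∃ η : ℝ, 0 < η ∧ η ≤ η₁ ∧ η ≤ 1 / 2 ∧ η ≤ ε / 768 :=
    ⟨min η₁ (min (1 / 2) (ε / 768)), by positivity, min_le_left _ _,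
      (min_le_right _ _).trans (min_le_left _ _), (min_le_right _ _).trans (min_le_right _ _)⟩
  refine ⟨η, hη, ?_⟩
  intro lam N B T hD hT
  obtain ⟨δ₁, hδ₁, X₁, hX₁, HT2⟩ := HT1 lam N B hD
  obtain ⟨A0, C0, X₂, hA0, hC0, hX₂, HS⟩ := E4Us512.szUX hh hP d bb hA e0 r Bf hJf lam N B 1 one_pos
  obtain ⟨Bb, hBb⟩ : ∃ Bb : ℝ, Bb = max (max B 4) A0 := ⟨_, rfl⟩
  have hBb1 : B ≤ Bb := by rw [hBb]; exact (le_max_left _ _).trans (le_max_left _ _)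
  have hBb4 : 4 ≤ Bb := by rw [hBb]; exact (le_max_right _ _).trans (le_max_left _ _)
  have hBb3 : 3 ≤ Bb := by linarith
  have hBbA : A0 ≤ Bb := by rw [hBb]; exact le_max_right _ _
  obtain ⟨X₃, hX₃, HX⟩ := xblk_core π hε (B := Bb) (by linarith)
  refine ⟨0, min δ₁ 1, by positivity, max (max X₁ X₂) (max X₃ (max 2 ((2 : ℝ) ^ (64 / ε * 30)))),
    lt_max_of_lt_left (lt_max_of_lt_left hX₁), ?_⟩
  intro X hXX δ ε' hδ hε' a ps q hF ha hlam haP x hx hxl hne j h₁ h₂ tt htt ξ G hG c P β τ 𝒥 h𝒥 Oc hOc t ht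
    f1 f2 f3' D1' Z'' l' m hS z' sc mx ex hN hok hky hmx hmx2 hXHB t' ht' Bm hBm1 hBm Bd hBd
  have hXX₁ : X₁ ≤ X := ((le_max_left _ _).trans (le_max_left _ _)).trans hXX
  have hXX₂ : X₂ ≤ X := ((le_max_right _ _).trans (le_max_left _ _)).trans hXX
  have hXX₃ : X₃ ≤ X := ((le_max_left _ _).trans (le_max_right _ _)).trans hXX
  have hXX₅ : max 2 ((2 : ℝ) ^ (64 / ε * 30)) ≤ X :=
    ((le_max_right _ _).trans (le_max_right _ _)).trans hXX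
  have hX2 : 2 ≤ X := (le_max_left _ _).trans hXX₅
  have hXX₄ : (2 : ℝ) ^ (64 / ε * 30) ≤ X := (le_max_right _ _).trans hXX₅
  have hX1 : 1 < X := hX₁.trans_le hXX₁
  have hX0 : 0 < X := by linarith
  have hL0 : 0 < Real.log X := Real.log_pos hX1
  have h30 : (2 : ℝ) ^ 30 ≤ X ^ (ε / 64) := by
    calc (2 : ℝ) ^ 30 = ((2 : ℝ) ^ (64 / ε * 30)) ^ (ε / 64) := by
          rw [← Real.rpow_mul (by norm_num), ← Real.rpow_natCast]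
          congr 1
          push_cast
          field_simp
      _ ≤ X ^ (ε / 64) := Real.rpow_le_rpow (by positivity) hXX₄ (by positivity)
  -- the parameters
  have hSq : Sq5 A d (prX (dn q.1)) q.2 := by
    have hdom := hF.dom
    unfold SqLX DomL at hdom
    exact hdom.1.1
  have hκ0 : 0 < cκ (prX (dn q.1)) := by have := hSq.κ0; linarith
  have hκ1 : cκ (prX (dn q.1)) ≤ 1 := hSq.κ1
  obtain ⟨κ₀, hκ₀⟩ : ∃ κ₀ : ℝ, κ₀ = cκ (prX (dn q.1)) := ⟨_, rfl⟩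
  rw [← hκ₀] at hN hok hXHB hBd hκ0 hκ1
  have hδ2 : δ ≤ 1 / 2 := hδ.trans hηb
  obtain ⟨-, SD0⟩ := HS X hXX₂ a ps q δ (min δ₁ 1) hδ2 (min_le_right _ _) hF ha hlam haP
  have SD := SD0 x (hx.mono hX1.le (by linarith)) hne j h₁ h₂
  have hT2 := HT2 X hXX₁ δ ε' (hδ.trans hηa) (hε'.trans hηa) a ps q
    (hF.mono hX1.le le_rfl (min_le_left _ _)) ha hlam haP x hx hxl hne z' (by rw [← hκ₀]; exact hok)
    (by rw [← hκ₀]; exact hN.v.trans hηa) (by rw [← hκ₀]; exact hN.β.trans hηa)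
    (by rw [← hκ₀]; exact hN.s.trans hηa) β
  rw [← hκ₀] at hT2
  -- the block
  have hOc' : Oc = 𝒥.image fun t => t.o := by
    ext o
    rw [hOc, mem_image]
  have hn : (π lam.1).n₃ ≠ 0 := (hP lam.1).χ₃.q0
  have h𝒥' : ∀ t ∈ 𝒥, Facts (π lam.1).n₃ t ∧ t.OK (π lam.1).n₃ 1 ∧ t.In lD c ∧ pf t = P ∧
      bo3 t = β ∧ kl (x.g * x.e₀ * x.t) t.k = τ.1 ∧ IsCoprime (t.R * t.R') t.o.1.1 := by
    intro t ht
    obtain ⟨g1, g2, g3, g4, g5, g6⟩ := h𝒥 t ht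
    have hFt := E4RH858.facts SD.dat g1 g2
    refine ⟨hFt, g1, g3, g4, g5, ?_, cop_RSE hJf ha haP hn hx hFt g2⟩
    rw [← g6]
    rfl
  have hk1 := k_le_one hok hky
  have hkt : (nm t.k : ℝ) ≤ X ^ (2 : ℝ) := by
    obtain ⟨g1, -⟩ := h𝒥 t ht
    have hk0 : (0 : ℝ) < nm t.k := by exact_mod_cast nm_pos.mpr g1.sk.ne_zero
    have e1 := (abs_le.mp hN.k).1
    have e2 : lg t.k / (κ₀ * Real.log X) ≤ 2 := by
      have e3 : (StrD699.zT (κ₀ * Real.log X) a.2 x (fN (π lam.1).n₃ (x.E a.1.toBd)) t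
        f1 f2 D1' l' m sc).k = lg t.k / (κ₀ * Real.log X) := rfl
      rw [e3] at e1
      linarith
    rw [div_le_iff₀ (by positivity)] at e2
    have e4 : Real.log (nm t.k) ≤ 2 * Real.log X := by
      have : κ₀ * Real.log X ≤ Real.log X := by nlinarith
      have e5 : lg t.k = Real.log (nm t.k) := rfl
      linarith
    rw [← Real.log_le_log_iff hk0 (by positivity), Real.log_rpow hX0]
    exact e4
  have hkk : ∀ t'' ∈ 𝒥, (nm t''.k : ℝ) ≤ X ^ Bb := by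
    intro t'' ht''
    obtain ⟨-, -, w1, -⟩ := h𝒥 t ht
    obtain ⟨-, -, w2, -⟩ := h𝒥 t'' ht''
    have e1 := w2.hkk.2
    have e2 := w1.hkk.1
    have e3 : (nm t''.k : ℝ) ≤ 2 * nm t.k := by
      rw [pow_succ] at e1
      linarith
    calc (nm t''.k : ℝ) ≤ 2 * nm t.k := e3
      _ ≤ X * X ^ (2 : ℝ) := by gcongr
      _ = X ^ (3 : ℝ) := by
          nth_rewrite 1 [← Real.rpow_one X]
          rw [← Real.rpow_add hX0]
          norm_num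
      _ ≤ X ^ Bb := Real.rpow_le_rpow_of_exponent_le hX1.le hBb3
  have hll : ∀ t'' ∈ 𝒥, lD t''.o ≤ X ^ Bb := fun t'' _ =>
    ((SD.dat.lam1 t''.o).2).trans (Real.rpow_le_rpow_of_exponent_le hX1.le hBbA)
  have hii : (2 : ℝ) ^ a.2 ≤ X ^ Bb := by
    have hFr := E4Us512.fr_of_frLX hA hδ2 hX1 hF ha haP hBb1 hBb4
    have e1 := hFr.fr.lv
    rw [← Real.log_le_log_iff (by positivity) (by positivity), Real.log_pow, Real.log_rpow hX0]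
    linarith
  -- the twist
  obtain ⟨M', hM'⟩ : ∃ M' : Eis, HC M' tt.1 := by
    rcases hT tt htt with h1 | ⟨⟨M', -, -, -, h1⟩, -⟩
    · rw [h1]
      exact ⟨_, End699.hc_prin0 (hP lam.1).χ₃.q0 (hP lam.1).χ₃.three⟩
    · exact ⟨M', h1⟩
  have hcong : ∀ (nkk : ℕ) (Pk : Eis → Prop) (D b : Eis) (H : x.O π lam Jf (bl a) → Eis → ℝ),
      XMo (π lam.1).n₃ (vE π h lam Jf a x) G P Oc nkk Pk D b H =
        XMo (π lam.1).n₃ (vE π h lam Jf a x) (E4J352.gx tt.1 tt.2 ξ) P Oc nkk Pk D b H := by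
    intro nkk Pk D b H
    obtain ⟨hFt, -, -, hpf, -⟩ := h𝒥' t ht
    refine xmo_congr ?_ (fun o y hy => (SD.dat.hv o).sm y hy) hG Oc nkk Pk D b H
    rw [← hpf]
    exact hFt.pR.1.mul hFt.pR'.1
  -- the `T`-numbers
  obtain ⟨t₀, ht₀⟩ : ∃ t₀ : ℝ, t₀ = tEx κ₀ d z' (cN (prX (dn q.1)) / κ₀) (cu (prX (dn q.1)) 4 / κ₀) := ⟨_, rfl⟩
  rw [← ht₀] at hT2
  have h12 : 12 * κ₀ * η ≤ ε / 64 := by nlinarith
  have hT0 : TWa (xJB Jf (bl a) x β) (omL a.2) (alX (π lam.1) h lam.2 a.1 x.β) x.e₀ 1 0 ≤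
      X ^ (t₀ + ε / 16) :=
    hT2.1.trans (Real.rpow_le_rpow_of_exponent_le hX1.le (by linarith))
  have hLg : κ₀ * Real.log X ≠ 0 := (mul_pos hκ0 hL0).ne'
  have hT1 : min (TWa (xJB Jf (bl a) x β) (omL a.2) (alX (π lam.1) h lam.2 a.1 x.β) x.e₀ 1 1)
      (√(2 ^ 27 * (2 * 2 ^ a.2 * 8 ^ x.nS / 8 ^ x.nE) / (2 ^ c.nlam : ℝ) ^ 2 /
        (nm (P.R * P.R') * 2 ^ (x.m 0 0 + x.m 1 2))) *
        TWa (xJB Jf (bl a) x β) (omL a.2) (alX (π lam.1) h lam.2 a.1 x.β) x.e₀ 1 0) ≤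
      X ^ (t₀ + κ₀ * z'.d0 (cN (prX (dn q.1)) / κ₀) (cu (prX (dn q.1)) 4 / κ₀) + ε / 16) := by
    rcases hT2.2 with h1 | h1
    · exact (min_le_left _ _).trans (h1.trans (Real.rpow_le_rpow_of_exponent_le hX1.le
        (by linarith)))
    · refine (min_le_right _ _).trans ?_
      obtain ⟨hFt, g1, g3, hpf, -⟩ := h𝒥' t ht
      obtain ⟨w1, w2, w3⟩ := win_of (a := bl a) hJf ha.base haP hx g3 g1.sk.ne_zero
      have hRP : IsPrim (P.R * P.R') := by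
        rw [← hpf]
        exact hFt.pR.1.mul hFt.pR'.1
      have hnP : (0 : ℝ) < nm (P.R * P.R') := by exact_mod_cast nm_pos.mpr hRP.ne_zero
      have e1 := dm_le hX1 hκ0.le h12
        (zf_tr (a := bl a) hJf ha.base haP hx hLg t (fN (π lam.1).n₃ (x.E a.1.toBd))
          f1 f2 D1' l' m sc)
        (nr_of_near hN) hnP (lgR_of hFt hpf) w2 h30
      refine (mul_le_mul e1 hT2.1 (TWa_nonneg _ _ _ _ _ _) (by positivity)).trans ?_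
      rw [← Real.rpow_add hX0]
      refine Real.rpow_le_rpow_of_exponent_le hX1.le ?_
      have := mul_le_mul_of_nonneg_left h1 hκ0.le
      linarith
  have key := HX X hXX₃ lam Jf hJf (bl a) x (Bf a.2) e0 r ε' hx ha.base haP
    (alX (π lam.1) h lam.2 a.1 x.β) (hP lam.1).χ₃.conj (E4J352.gx tt.1 tt.2 ξ)
    (fun y hy => gx_le hM' _ _ hy) c P β τ.1 𝒥 h𝒥' hkk hll hii t ht κ₀ η
    (fN (π lam.1).n₃ (x.E a.1.toBd)) f1 f2 D1' l' m sc z' hκ0 hη.le (by linarith) hN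
    (κ₀ * z'.d0 (cN (prX (dn q.1)) / κ₀) (cu (prX (dn q.1)) 4 / κ₀)) t₀ mx ex hmx (by linarith) hXHB hT0 hT1
  rw [← vG_vE, ← hOc'] at key
  have hpD : IsPrim t'.D1 := (h𝒥 t' ht').1.pD1
  have hpb : IsPrim (E4RH858.b1 t') := (h𝒥' t' ht').1.sb1.prim
  have eBd : X ^ (κ₀ * (z'.k + (2 * z'.lam - z'.us / 3)) + t₀ + ex + ε) = Bd := by
    rw [hBd, pow_zero, one_pow, one_mul, ht₀]
    congr 1
    unfold tEx StrD699.Vx
    ring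
  rw [eBd] at key
  refine ⟨fun _ => ?_, fun bm hbm => ?_⟩
  · rw [hcong]
    exact key.1 t'.D1 (E4RH858.b1 t') hpD hpb
  · rw [hcong]
    refine key.2 t'.D1 (E4RH858.b1 t') hpD hpb bm fun o ho => ?_
    refine natS_mono (by linarith) ?_ (by positivity) ?_ (hbm o ho)
    · refine hBm.trans (Real.rpow_le_rpow_of_exponent_le hX1.le ?_)
      linarith
    · exact Real.rpow_le_rpow_of_exponent_le hX1.le (by linarith)

/-- **two closers** -/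
theorem xnumCX_or {Λ : Type*} {π : Λ → DPar} {h : ℝ → ℝ}
    {C₁ C₂ : ℝ → Cls → ℝ → ℝ → ℝ → ℝ → ℝ → Prop} {A d bb e0 r : ℝ} {Bf : ℕ → ℝ → ℝ → ℝ → ℝ}
    {Jf : ℝ → ℝ → ℝ → Finset (Eis × Eis)} (H₁ : XNumCX π h C₁ A d bb e0 r Bf Jf)
    (H₂ : XNumCX π h C₂ A d bb e0 r Bf Jf) :
    XNumCX π h (fun κ z d N u x ex => C₁ κ z d N u x ex ∨ C₂ κ z d N u x ex) A d bb e0 r Bf Jf := by
  intro ε hε
  obtain ⟨η₁, hη₁, K₁⟩ := H₁ ε hε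
  obtain ⟨η₂, hη₂, K₂⟩ := H₂ ε hε
  refine ⟨min η₁ η₂, lt_min hη₁ hη₂, ?_⟩
  intro lam N B T hD hT
  obtain ⟨M₁, δ₁, hδ₁, X₁, hX₁, L₁⟩ := K₁ lam N B T hD hT
  obtain ⟨M₂, δ₂, hδ₂, X₂, hX₂, L₂⟩ := K₂ lam N B T hD hT
  refine ⟨max M₁ M₂, min δ₁ δ₂, lt_min hδ₁ hδ₂, max X₁ X₂, lt_max_of_lt_left hX₁, ?_⟩
  intro X hXX δ ε' hδ hε' a ps q hF ha hlam haP x hx hxl hne j h₁ h₂ tt htt ξ G hG c P β τ 𝒥 h𝒥 Oc hOc t ht
    f1 f2 f3' D1' Z'' l' m hS z' sc mx ex hN hok hky hmx hmx2 hC t' ht' Bm hBm1 hBm Bd hBd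
  have hXX₁ : X₁ ≤ X := (le_max_left _ _).trans hXX
  have hXX₂ : X₂ ≤ X := (le_max_right _ _).trans hXX
  have hX1 : 1 < X := hX₁.trans_le hXX₁
  have hX0 : 0 < X := by linarith
  have hξ : 1 ≤ 1 + |ξ| := by
    have := abs_nonneg ξ
    linarith
  have hmono : ∀ {η : ℝ}, min η₁ η₂ ≤ η → ∀ {bm : Eis → ℂ}, NatS Bm (X ^ min η₁ η₂ * Bm) bm →
      NatS Bm (X ^ η * Bm) bm := fun {η} h1 {bm} h2 =>
    natS_mono (by linarith) le_rfl (by positivity)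
      (Real.rpow_le_rpow_of_exponent_le hX1.le h1) h2
  have hBdm : ∀ {M' : ℕ}, M' ≤ max M₁ M₂ → ∀ E : ℝ,
      ((1 + |ξ|) ^ M') ^ 2 * X ^ E ≤ ((1 + |ξ|) ^ max M₁ M₂) ^ 2 * X ^ E := fun {M'} h1 E => by
    have h2 := pow_le_pow_right₀ hξ h1
    have h3 : (0 : ℝ) ≤ (1 + |ξ|) ^ M' := by positivity
    gcongr
  rcases hC with hC | hC
  · have key := L₁ X hXX₁ δ ε' (hδ.trans (min_le_left _ _)) (hε'.trans (min_le_left _ _)) a ps q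
      (hF.mono hX1.le le_rfl (min_le_left _ _)) ha hlam haP x hx hxl hne j h₁ h₂ tt htt ξ G hG c P β τ 𝒥 h𝒥
      Oc hOc t ht f1 f2 f3' D1' Z'' l' m hS z' sc mx ex (near_mono hN (min_le_left _ _)) hok hky hmx
      hmx2 hC t' ht' Bm hBm1 (hBm.trans (Real.rpow_le_rpow_of_exponent_le hX1.le
        (by linarith [min_le_left η₁ η₂]))) _ rfl
    have hle := hBdm (le_max_left M₁ M₂) (cκ (prX (dn q.1)) * (z'.k + 2 * z'.lam) +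
        (cκ (prX (dn q.1)) * StrD699.Vx z' (cN (prX (dn q.1)) / cκ (prX (dn q.1))) (cu (prX (dn q.1)) 4 / cκ (prX (dn q.1))) +
          cκ (prX (dn q.1)) * (2 / 3 * d * z'.N1 (cN (prX (dn q.1)) / cκ (prX (dn q.1)))) + ex + ε))
    rw [← hBd] at hle
    exact ⟨fun h0 => (key.1 h0).trans hle,
      fun bm hbm => (key.2 bm fun o ho => hmono (min_le_left _ _) (hbm o ho)).trans hle⟩
  · have key := L₂ X hXX₂ δ ε' (hδ.trans (min_le_right _ _)) (hε'.trans (min_le_right _ _)) a ps q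
      (hF.mono hX1.le le_rfl (min_le_right _ _)) ha hlam haP x hx hxl hne j h₁ h₂ tt htt ξ G hG c P β τ 𝒥 h𝒥
      Oc hOc t ht f1 f2 f3' D1' Z'' l' m hS z' sc mx ex (near_mono hN (min_le_right _ _)) hok hky hmx
      hmx2 hC t' ht' Bm hBm1 (hBm.trans (Real.rpow_le_rpow_of_exponent_le hX1.le
        (by linarith [min_le_right η₁ η₂]))) _ rfl
    have hle := hBdm (le_max_right M₁ M₂) (cκ (prX (dn q.1)) * (z'.k + 2 * z'.lam) +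
        (cκ (prX (dn q.1)) * StrD699.Vx z' (cN (prX (dn q.1)) / cκ (prX (dn q.1))) (cu (prX (dn q.1)) 4 / cκ (prX (dn q.1))) +
          cκ (prX (dn q.1)) * (2 / 3 * d * z'.N1 (cN (prX (dn q.1)) / cκ (prX (dn q.1)))) + ex + ε))
    rw [← hBd] at hle
    exact ⟨fun h0 => (key.1 h0).trans hle,
      fun bm hbm => (key.2 bm fun o ho => hmono (min_le_right _ _) (hbm o ho)).trans hle⟩

/-- **`XNumUX` from the three closers** -/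
theorem xnumCX_ClX {Λ : Type*} {π : Λ → DPar} {h : ℝ → ℝ} {A d bb e0 r : ℝ} {Bf : ℕ → ℝ → ℝ → ℝ → ℝ}
    {Jf : ℝ → ℝ → ℝ → Finset (Eis × Eis)} (H₁ : XNumCX π h HBc A d bb e0 r Bf Jf)
    (H₂ : XNumCX π h LTc A d bb e0 r Bf Jf) (H₃ : XNumCX π h PVc A d bb e0 r Bf Jf) :
    XNumCX π h Hg918.ClX A d bb e0 r Bf Jf :=
  xnumCX_or H₁ (xnumCX_or H₂ H₃)

end Crest.Agent.R017.E4SE266
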