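import Crest.Agent.R017.E4zn_679
import Crest.Agent.R017.XHfX_266

/-!
# Row 17, StrUX: the hypotheses of one block of class E (helper679)

* `xbk_bfrX`, `xbk_frameX` : `XBk` at `bl a` and `alX` from helper266's frame `BFrX`
-/

set_option autoImplicit false
set_option linter.unusedSectionVars false

noncomputable section

open Complex Finset
open scoped ComplexConjugate Classical

namespace Crest.Agent.R017.E4znX679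

open Crest.Agent.R012 Crest.Agent.R012.Eis
open Crest.Agent.R012.Mob705 hiding pb mem_pb kap
open Crest.Agent.R017.Sx545 (Sm)
open Crest.Agent.R017.CM106 (CS FS)
open Crest.Agent.R017.C70 (CbF JC OKJ)
open Crest.Agent.R017.End699 (HC)
open Crest.Agent.R017.E5B71
open Crest.Agent.R017.E4D164 hiding E4L
open Crest.Agent.R017.B770 (DPar)
open Crest.Agent.R017.Prov71
open Crest.Agent.R017.E5L770
open Crest.Agent.R017.E5LX770 (SqLX)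
open Crest.Agent.R017.ExP960 hiding alX
open Crest.Agent.R017.E4U164
open Crest.Agent.R017.E4352
open Crest.Agent.R017.E5k54 (alb)
open Crest.Agent.R017.E4J352 (Tm gx)
open Crest.Agent.R017.E4RH858 (Pf pf Facts kl)
open Crest.Agent.R017.E4Df372
open Crest.Agent.R017.E4SE266
open Crest.Agent.R017.E4zf92
open Crest.Agent.R017.JxS679 (sk sk_prim)
open Crest.Agent.R017.XHn512
open Crest.Agent.R017.Mode405 (Mul1)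
open Crest.Agent.R017.E4zh679
open Crest.Agent.R017.E4zk679
open Crest.Agent.R017.E4zl679

section blk

variable {Λ : Type*} {π : Λ → DPar} {h : ℝ → ℝ} {lam : Λ × Eis}
  {Jf : ℝ → ℝ → ℝ → Finset (Eis × Eis)} {a : BdX × ℕ} {x : Dt} {Bf : ℝ → ℝ → ℝ → ℝ}
  {e0 r ε' XX : ℝ} {α : Eis → ℂ}

/-- **`XBk` from helper266's `BFrX`**, any `α` -/
theorem xbk_bfrX {X Bb κ₀ η : ℝ} (hX : 1 ≤ X) (hBb : 0 ≤ Bb) (hP0 : (π lam.1).OK)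
    (hJf : ∀ l N z, OKJ (Jf l N z)) (hF : JFull Jf)
    (hx : x.OK (π lam.1) Bf e0 r ε' XX a.1.toBd) (ha : a.1.ok) (hP : a.1.okP (π lam.1))
    (hlv : a.2 < nL a.1.l (a3 a.1.toBd) a.1.z) (hα : FS α)
    {c : E4J352.Win} {P : Pf} {β τ₁ : Eis} {𝒥 : Finset (Tm (x.O π lam Jf (bl a)))}
    {t t' : Tm (x.O π lam Jf (bl a))} {z z' : E4R70.Cls}
    (hB : BFrX π h lam Jf a x Bb X κ₀ η c P β τ₁ 𝒥 t z z') (ht : t ∈ 𝒥) (ht' : t' ∈ 𝒥)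
    {Oc : Finset (x.O π lam Jf (bl a))} (hOc : ∀ o, o ∈ Oc ↔ ∃ t ∈ 𝒥, t.o = o)
    {g₁ g₂ : Eis} (hg : x.g' = g₁ * g₂ ^ 2) (g1 : PrI (π lam.1).n₃ g₁) (g1q : Squarefree g₁)
    (g2 : PrI (π lam.1).n₃ g₂) (g1n : nm g₁ ≤ nm (π lam.1).n₃) {G : Eis → ℂ} (hG : Mul1 G) :
    XBk π lam Jf (bl a) x α (4 * Bb + 1) X c.nkk c.nlam P (sk (x.g * x.e₀ * x.t) t.k) β
      Oc (fun k => kl (x.g * x.e₀ * x.t) k = τ₁) g₁ g₂ t'.D1 (E4RH858.b1 t') G := by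
  have hOc' : Oc = 𝒥.image fun t => t.o := by
    ext o
    rw [hOc, mem_image]
  obtain ⟨hF', hok', -, hpf', -⟩ := hB.tm t' ht'
  obtain ⟨r1, r2, r3⟩ := pri_pf hF' hpf'
  refine ⟨hP0, ha.base, hP, ⟨Bf, e0, r, ε', XX, hx⟩, hJf, hF, hlv, hα, hX, by linarith, ?_,
    ⟨t.o, (hOc _).mpr ⟨t, ht, rfl⟩⟩, ?_, hg, g1, g1q, g2, g1n, r1, hF'.sb1.prim, hok'.pD1, hG,
    sk_prim _ _⟩
  · rw [hOc']
    convert hB.blk
  · exact hB.n₃.trans (Real.rpow_le_rpow_of_exponent_le hX (by linarith))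

end blk

set_option maxHeartbeats 1000000 in
/-- **`XBk` at the data of `XNumCX`** -/
theorem xbk_frameX {Λ : Type*} {π : Λ → DPar} {h : ℝ → ℝ} {c₀ : ℝ} (hh : FE47.PU h c₀)
    (hP : ∀ lam, (π lam).OK) {A : ℝ} (hA : 2 / 3 ≤ A) (d bb e0 r : ℝ)
    (Bf : ℕ → ℝ → ℝ → ℝ → ℝ) {Jf : ℝ → ℝ → ℝ → Finset (Eis × Eis)}
    (hJf : ∀ l N z, OKJ (Jf l N z)) (hF : JFull Jf) (lam : Λ × Eis) (N : ℕ) (B : ℝ) :
    ∃ Bb X₀ : ℝ, 4 ≤ Bb ∧ 2 ≤ X₀ ∧ ∀ X : ℝ, X₀ ≤ X →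
    ∀ δ δ' ε' η : ℝ, δ ≤ 1 / 2 → δ' ≤ 1 → ε' ≤ 1 → 0 ≤ η → η ≤ 1 / 2 →
    ∀ (a : BdX × ℕ) (ps : List Pq) (q : (Option IX5 → ℝ) × (Kd → ℝ)),
      FrLX A d bb δ δ' B X N a ps q → a.1.ok → lam.2 ∈ FE47.SM (π lam.1).n →
      a.1.okP (π lam.1) →
    ∀ x : Dt, x.OK (π lam.1) (Bf a.2) e0 r ε' X a.1.toBd → (x.I Jf (bl a)).Nonempty →
    ∀ (j : Fin 2) (h₁ : FS (b1 (π lam.1) h lam.2 ps))
      (h₂ : FS (b2X (π lam.1) h lam.2 a.1 ps j)),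
    ∀ (G : Eis → ℂ) (c : E4J352.Win) (P : Pf) (β : Eis) (τ : Eis × Eis × Eis)
      (𝒥 : Finset (Tm (x.O π lam Jf (bl a)))),
      (∀ t ∈ 𝒥, t.OK (π lam.1).n₃ 1 ∧
        t.val 1 lD (vE π h lam Jf a x) (wE π h lam Jf a ps x j h₁ h₂) G ≠ 0 ∧ t.In lD c ∧
        pf t = P ∧ bo3 t = β ∧ soL x (fN (π lam.1).n₃ (x.E a.1.toBd)) t = τ) →
    ∀ t ∈ 𝒥, ∀ (f1 f2 D1' l' m : Eis) (sc : ℝ) (z' : E4R70.Cls),
      Nm918.Near η (E4St352.zTr (cκ (prX (dn q.1)) * Real.log X) a.2 x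
        (fN (π lam.1).n₃ (x.E a.1.toBd)) t f1 f2 D1' l' m sc) z' →
      z'.Ok d (1 / cκ (prX (dn q.1))) (cN (prX (dn q.1)) / cκ (prX (dn q.1)))
        (cM (prX (dn q.1)) / cκ (prX (dn q.1))) (q.2 .mo / cκ (prX (dn q.1)))
        (q.2 .am / cκ (prX (dn q.1))) (cx' (prX (dn q.1)) / cκ (prX (dn q.1))) →
      z'.ky ≤ 1 →
      BFrX π h lam Jf a x Bb X (cκ (prX (dn q.1))) η c P β τ.1 𝒥 t
        (E4St352.zTr (cκ (prX (dn q.1)) * Real.log X) a.2 x (fN (π lam.1).n₃ (x.E a.1.toBd)) t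
          f1 f2 D1' l' m sc) z' ∧
      ∃ g₁ g₂ : Eis, x.g' = g₁ * g₂ ^ 2 ∧ ∀ (M' : Eis) (χ : Eis → ℂ) (jj : ℤ) (ξ : ℝ),
        HC M' χ → ∀ t' ∈ 𝒥, ∀ Oc : Finset (x.O π lam Jf (bl a)),
          (∀ o, o ∈ Oc ↔ ∃ t ∈ 𝒥, t.o = o) →
        XBk π lam Jf (bl a) x (E4Df372.alX (π lam.1) h lam.2 a.1 x.β) (4 * Bb + 1) X c.nkk
          c.nlam P (sk (x.g * x.e₀ * x.t) t.k) β Oc (fun k => kl (x.g * x.e₀ * x.t) k = τ.1)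
          g₁ g₂ t'.D1 (E4RH858.b1 t') (gx χ jj ξ) := by
  obtain ⟨Bb, X₀, hBb, hX₀, H⟩ := blk_frameX hh hP hA d bb e0 r Bf hJf lam N B
  refine ⟨Bb, X₀, hBb, hX₀, ?_⟩
  intro X hX δ δ' ε' η hδ hδ' hε' hη hη2 a ps q hFr ha hlam haP x hx hne j h₁ h₂ G c P β τ 𝒥 h𝒥 t
    ht f1 f2 D1' l' m sc z' hN hok hky
  have hB := H X hX δ δ' ε' η hδ hδ' hε' hη hη2 a ps q hFr ha hlam haP x hx hne j h₁ h₂ G c P β τ
    𝒥 h𝒥 t ht f1 f2 D1' l' m sc z' hN hok hky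
  refine ⟨hB, ?_⟩
  have hn : (π lam.1).n₃ ≠ 0 := (hP lam.1).χ₃.q0
  obtain ⟨g₁, g₂, hg, g1, g1q, g2, g1n⟩ := dec_g' (a := bl a) hx hn
  refine ⟨g₁, g₂, hg, ?_⟩
  intro M' χ jj ξ hχ t' ht' Oc hOc
  exact xbk_bfrX (by linarith) (by linarith) (hP lam.1) hJf hF hx ha haP hFr.lvl
    (fs_alX (hP lam.1) (bump_of_cs hh.cs) (P1e54.mem_PT (SSb54.mem_PTb.mp hx.β).1)) hB ht ht' hOc
    hg g1 g1q g2 g1n (mul1_gx hχ jj ξ)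

end Crest.Agent.R017.E4znX679
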