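import Crest.Agent.R017.E4zi_92
import Crest.Agent.R017.ModeH_405
import Crest.Agent.R017.LSq_50
import Crest.Agent.R017.E4G_858
import Crest.Agent.R017.E4Sc_352

/-!
# Row 17, C70/E4 (x-side): the sizes of a block, arithmetic part (helper92)

* `nlog` : integer and real logarithms
* `lg_rrk` : the parts of the divisor of a prefix
* `nk_b` : the kernel of `(b₁² b')²`
* `g2_le` : `N(g₂) ≤ N(n₃)`;  `nm_isC`
-/

set_option autoImplicit false
set_option linter.unusedSectionVars false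
set_option maxHeartbeats 400000

noncomputable section

open Complex Finset
open scoped ComplexConjugate

namespace Crest.Agent.R017.E4zp92

open Crest.Agent.R012 Crest.Agent.R012.Eis
open Crest.Agent.R012.Mob705 hiding pb mem_pb kap
open Crest.Agent.R012.NonCube52 (kc)
open Crest.Agent.R017.Sx545 (Sm)
open Crest.Agent.R017.CM106 (CS FS)
open Crest.Agent.R017.C70
open Crest.Agent.R017.Mode405 (nk nk_le_nm nk_ge_one)
open Crest.Agent.R017.E5B71 Crest.Agent.R017.E4D164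
open Crest.Agent.R017.B770 (DPar)
open Crest.Agent.R017.E5L770
open Crest.Agent.R017.E4U164
open Crest.Agent.R017.GrB829 (IsC)
open Crest.Agent.R017.E4352 (PrI)
open Crest.Agent.R017.E4J352 (Tm)
open Crest.Agent.R017.E4RH858
open Crest.Agent.R017.E4RG858 (pow_dvd_iff dvd_iff_mult mult_mul mult_pow mult_eq_zero fac)
open Crest.Agent.R017.E4F858 (R1S R2S i1 i2)
open Crest.Agent.R017.E4Dic352
open Crest.Agent.R017.Str699 (mult_sqf)
open Crest.Agent.R017.E4zg92 (rrk)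
open Crest.Agent.R017.E4K164 (dc dc_spec)

/-! ### logarithms -/

/-- integer and real logarithms -/
lemma nlog {x : Eis} (hx : x ≠ 0) :
    (E4X92.lg x : ℝ) * Real.log 2 ≤ lg x ∧ lg x ≤ ((E4X92.lg x : ℝ) + 1) * Real.log 2 := by
  have h0 := nm_pos' hx
  have h1 := E4X92.pow_lg_le hx
  have h2 := E4X92.le_pow_lg x
  constructor
  · have := Real.log_le_log (by positivity) h1
    rw [Real.log_pow] at this
    exact this
  · have := Real.log_le_log h0 h2
    rw [Real.log_mul (by norm_num) (by positivity), Real.log_pow] at this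
    unfold lg
    linarith

/-! ### the parts of the divisor of a prefix -/

section pre

variable {O : Type} {M : Eis} {t : Tm O}

/-- the parts of `R R'` -/
lemma lg_rrk (h : Facts M t) (k : ℕ) (hk : 1 ≤ k) :
    lg (rrk k ((pf t).R * (pf t).R')) =
      ∑ p ∈ SP (pf t), ((if multiplicity p (pf t).R + multiplicity p (pf t).R' = k then 1 else 0 : ℕ) :
        ℝ) * lg p := by
  classical
  have hR := h.pR.1
  have hR' := h.pR'.1
  have h0 : (pf t).R * (pf t).R' ≠ 0 := mul_ne_zero hR.ne_zero hR'.ne_zero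
  unfold rrk
  rw [lg_prod1 fun p hp => (isPP_of_mem_pp (mem_filter.mp hp).1).prime.ne_zero]
  have e : ∑ p ∈ SP (pf t), ((if multiplicity p (pf t).R + multiplicity p (pf t).R' = k then 1 else 0 : ℕ) :
        ℝ) * lg p =
      ∑ p ∈ (SP (pf t)).filter (fun p => multiplicity p (pf t).R + multiplicity p (pf t).R' = k),
        lg p := by
    rw [sum_filter]
    refine sum_congr rfl fun p _ => ?_
    split_ifs <;> simp
  rw [e]
  refine sum_congr ?_ fun _ _ => rfl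
  ext p
  rw [mem_filter, mem_filter, mem_pp h0]
  constructor
  · rintro ⟨⟨hp, hd⟩, hm⟩
    rw [mult_mul hp.prime hR.ne_zero hR'.ne_zero] at hm
    refine ⟨?_, hm⟩
    rcases hp.prime.dvd_or_dvd hd with h1 | h1
    · exact sub_of_PrI h (dvd_mul_right _ _) h.pR ((mem_pp hR.ne_zero).mpr ⟨hp, h1⟩)
    · exact sub_of_PrI h (dvd_mul_left _ _) h.pR' ((mem_pp hR'.ne_zero).mpr ⟨hp, h1⟩)
  · rintro ⟨hp, hm⟩
    have hpp := isPP_of_mem_pp hp
    rw [← mult_mul hpp.prime hR.ne_zero hR'.ne_zero] at hm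
    refine ⟨⟨hpp, (dvd_iff_mult hpp.prime h0).mpr (by omega)⟩, hm⟩

lemma lg_rrk1 (h : Facts M t) : lg (rrk 1 ((pf t).R * (pf t).R')) = R1S (pf t) :=
  lg_rrk h 1 le_rfl

lemma lg_rrk2 (h : Facts M t) : lg (rrk 2 ((pf t).R * (pf t).R')) = R2S (pf t) :=
  lg_rrk h 2 (by norm_num)

/-- the kernel of `X₁ C³` -/
lemma nk_le_of_eq' {q X₁ C₁ : Eis} (hq : q ≠ 0) (h : q = X₁ * C₁ ^ 3) : nk q ≤ nm X₁ := by
  have h1 : X₁ ≠ 0 := fun h0 => hq (by rw [h, h0, zero_mul])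
  have h2 : C₁ ≠ 0 := fun h0 => hq (by rw [h, h0]; ring)
  have e : (kc q).1 = (kc X₁).1 := LSq50.kc_of_eq h1 h2 h
  have : nk q = nk X₁ := by unfold Mode405.nk; rw [e]
  rw [this]
  exact nk_le_nm h1

/-- **the kernel of `(b₁² b')²`** -/
theorem nk_b (h : Facts M t) :
    nk ((b1 t ^ 2 * (pf t).b) ^ 2) ≤ Real.exp (lg (b1 t) + lqS (pf t)) := by
  have hb1 := h.sb1.prim
  have hb := h.sb.prim
  have h0 : (b1 t ^ 2 * (pf t).b) ^ 2 ≠ 0 :=
    pow_ne_zero _ (mul_ne_zero (pow_ne_zero _ hb1.ne_zero) hb.ne_zero)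
  have hS : PPSet (SP (pf t)) := ppSet_pp _
  set A : Eis := ∏ p ∈ SP (pf t), p ^ (2 * multiplicity p (pf t).b % 3) with hA
  set B : Eis := ∏ p ∈ SP (pf t), p ^ (2 * multiplicity p (pf t).b / 3) with hB
  have e1 : (pf t).b ^ 2 = A * B ^ 3 := by
    have h1 := fac hb hS (pp_sub h (dvd_mul_left _ _))
    conv_lhs => rw [h1]
    rw [hA, hB, ← Finset.prod_pow, ← Finset.prod_pow, ← Finset.prod_mul_distrib]
    refine Finset.prod_congr rfl fun p _ => ?_
    rw [← pow_mul, ← pow_mul, ← pow_add]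
    congr 1
    omega
  have hAp : IsPrim A := prim_pow hS _
  have h2 := nk_le_of_eq' (X₁ := b1 t * A) (C₁ := b1 t * B) h0 (by
    calc (b1 t ^ 2 * (pf t).b) ^ 2 = b1 t ^ 4 * (pf t).b ^ 2 := by ring
      _ = b1 t ^ 4 * (A * B ^ 3) := by rw [e1]
      _ = _ := by ring)
  refine h2.trans (le_of_eq ?_)
  have e2 : lg (b1 t * A) = lg (b1 t) + lqS (pf t) := by
    rw [lg_mul hb1.ne_zero hAp.ne_zero]
    congr 1
    exact lg_prod (ne_of_mem hS) _
  rw [← e2, exp_lg (mul_ne_zero hb1.ne_zero hAp.ne_zero)]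

end pre

/-! ### constants -/

lemma nm_isC {c : Eis} (h : IsC c) : 1 ≤ nm c ∧ nm c ≤ 9 := by
  have h3 : nm (3 : Eis) = 9 := by decide
  have hw : nm (w : Eis) = 1 := by decide
  rcases h with h | h | h | h <;> rw [h]
  · rw [nm_one]; norm_num
  · rw [h3]; norm_num
  · rw [nm_mul, h3, hw]; norm_num
  · rw [nm_mul, nm_pow, h3, hw]; norm_num

section gp

variable {Λ : Type*} {π : Λ → DPar} {h : ℝ → ℝ} {lam : Λ × Eis}
  {Jf : ℝ → ℝ → ℝ → Finset (Eis × Eis)}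
  {a : Bd × ℕ} {x : Dt} {Bf : ℝ → ℝ → ℝ → ℝ} {e0 r ε X : ℝ}

/-- the fixed frequency is almost cube-free -/
theorem g'_mult (hJ : ∀ l N z, OKJ (Jf l N z)) (ha : a.1.ok) (hP : a.1.okP (π lam.1))
    (hx : x.OK (π lam.1) Bf e0 r ε X a.1) {ψ : Eis → ℂ} {l : ℤ} {E : Eis} {α : Eis → ℂ}
    {o : x.O π lam Jf a} {y : Eis}
    (hy : vX (π lam.1).n₃ ψ l (x.I Jf a) (omL a.2) x.ph E α x.g x.e₀ x.t x.c₀ x.g' o y ≠ 0)
    {p : Eis} (hp : IsPP p) : multiplicity p x.g' ≤ 3 := by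
  classical
  unfold vX vI at hy
  obtain ⟨-, i, hi, h1, h2⟩ := pu_ne hy
  unfold II at hi
  rw [mem_filter] at hi
  obtain ⟨hi1, hi2, hi3, hi4⟩ := hi
  obtain ⟨⟨hq, hxJ⟩, hcl⟩ := Dt.mem_I.mp hi1
  obtain ⟨hs, hc3⟩ := E4Us512.c3_sS hx ha hP hq
  have hJ3 : OKJ (J3 Jf a.1 a.2) := okJ3 hJ a.1 a.2
  have hjc : JC i.2.2 := hJ3.jc _ hxJ
  obtain ⟨hst, e, he, hst2⟩ := E5b54.stj_spec hs hjc
  obtain ⟨d1, d2, d3, d4, d5, d6, d7⟩ := dc_spec hst
  have hδ : IsPrim (jD i) := hJ3.prim _ hxJ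
  have hδq : Squarefree (jD i) := hJ3.sqf _ hxJ
  have e1 : x.g' * y = (dc (jJ (sS x.g x.e₀ x.t) i)).2.1 * jD i ^ 2 := by
    rw [← h1]
    rfl
  have hr : IsPrim (dc (jJ (sS x.g x.e₀ x.t) i)).2.1 := d2
  have h0 : x.g' * y ≠ 0 := by
    rw [e1]
    exact (hr.mul (hδ.pow 2)).ne_zero
  have e2 := congrArg (multiplicity p) e1
  rw [mult_mul hp.prime (left_ne_zero_of_mul h0) (right_ne_zero_of_mul h0),
    mult_mul hp.prime hr.ne_zero (pow_ne_zero 2 hδ.ne_zero), mult_pow hp.prime hδ.ne_zero] at e2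
  have e3 := mult_sqf d3 hr.ne_zero hp.prime
  have e4 := mult_sqf hδq hδ.ne_zero hp.prime
  have e5 : multiplicity p (dc (jJ (sS x.g x.e₀ x.t) i)).2.1 ≤ 1 := e3
  omega

/-- **the square part of the fixed frequency** -/
theorem g2_le {n : Eis} (hn : n ≠ 0) {g' g₁ g₂ : Eis} (hm : ∀ p, IsPP p → multiplicity p g' ≤ 3)
    (hg : g' = g₁ * g₂ ^ 2) (hg₁ : IsPrim g₁) (hg₂ : PrI n g₂) : nm g₂ ≤ nm n := by
  have h2 := hg₂.1
  have hsq : ∀ p, IsPP p → multiplicity p g₂ ≤ 1 := by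
    intro p hp
    have := hm p hp
    rw [hg, mult_mul hp.prime hg₁.ne_zero (pow_ne_zero 2 h2.ne_zero), mult_pow hp.prime h2.ne_zero]
      at this
    omega
  refine Div277.nm_le_of_dvd hn ?_
  have e1 := fac h2 (ppSet_pp g₂) subset_rfl
  have e2 : ∏ p ∈ pp g₂, p ^ multiplicity p g₂ = ∏ p ∈ pp g₂, p := by
    refine prod_congr rfl fun p hp => ?_
    have hpp := isPP_of_mem_pp hp
    have h3 := hsq p hpp
    have h4 := (dvd_iff_mult hpp.prime h2.ne_zero).mp (dvd_of_mem_pp hp)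
    have : multiplicity p g₂ = 1 := by omega
    rw [this, pow_one]
  rw [e1, e2]
  refine Finset.prod_dvd_of_coprime (fun p hp q hq hne => ?_) fun p hp => ?_
  · have k1 := isPP_of_mem_pp hp
    have k2 := isPP_of_mem_pp hq
    exact k1.isCoprime_iff.mpr fun h5 => hne (k1.eq_of_dvd k2 h5)
  · exact hg₂.2 p (isPP_of_mem_pp hp).prime (dvd_of_mem_pp hp)

end gp

end Crest.Agent.R017.E4zp92
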