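import Crest.Agent.R017.E4zq_92
import Crest.Agent.R017.XHfX_266

/-!
# Row 17, E4 (x-side), class E: the sizes of a block at a class near the true one (helper164)

helper92's `bsz_blk` in the frame of class E.

* `bfrX_bfr` : helper266's `BFrX` is helper512's `BFr` at `bl a`
* `NαX_of`, `NαX_le` : the window of `α`
* **`bszX_blk`** : the sizes, at the data of helper679's `BlkCX`
-/

set_option autoImplicit false
set_option linter.unusedSectionVars false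
set_option linter.unusedVariables false
set_option maxHeartbeats 400000

noncomputable section

open Complex Finset
open scoped ComplexConjugate

namespace Crest.Agent.R017.XP164

open Crest.Agent.R012 Crest.Agent.R012.Eis
open Crest.Agent.R012.Mob705 hiding pb mem_pb kap
open Crest.Agent.R017.Sx545 (Sm)
open Crest.Agent.R017.CM106 (CS FS)
open Crest.Agent.R017.C70 (OKJ)
open Crest.Agent.R017.Mode405 (nk)
open Crest.Agent.R017.E5B71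
open Crest.Agent.R017.E4D164 hiding E4L
open Crest.Agent.R017.Prov71
open Crest.Agent.R017.B770 (DPar)
open Crest.Agent.R017.E5L770
open Crest.Agent.R017.E5LX770 (SqLX)
open Crest.Agent.R017.ExP960 hiding alX
open Crest.Agent.R017.E4U164
open Crest.Agent.R017.E4352 (PrI)
open Crest.Agent.R017.E4J352 (Tm Win inW)
open Crest.Agent.R017.E4RH858 (Pf pf Facts kl)
open Crest.Agent.R017.E4Dic352
open Crest.Agent.R017.E4St352
open Crest.Agent.R017.E4Df372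
open Crest.Agent.R017.E4SE266
open Crest.Agent.R017.E4R70 (Cls)
open Crest.Agent.R017.Nm918 (Near)
open Crest.Agent.R017.Str699 (nu0)
open Crest.Agent.R017.JxS679 (sk)
open Crest.Agent.R017.E4zg92 (rrk)
open Crest.Agent.R017.XHn512
open Crest.Agent.R017.XL842 (lx)
open Crest.Agent.R017.E4zc92
open Crest.Agent.R017.E4zl679 (dBX XBk)
open Crest.Agent.R017.E4zp92
open Crest.Agent.R017.E4zq92

section blk

variable {Λ : Type*} {π : Λ → DPar} {h : ℝ → ℝ} {lam : Λ × Eis}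
  {Jf : ℝ → ℝ → ℝ → Finset (Eis × Eis)}
  {a : BdX × ℕ} {x : Dt} {Bb A1 X κ₀ η τ Nα Bm : ℝ} {c : Win} {P : Pf} {β τ₁ : Eis}
  {𝒥 : Finset (Tm (x.O π lam Jf (bl a)))} {t t' : Tm (x.O π lam Jf (bl a))} {z z' : Cls}

/-- helper266's `BFrX` is `BFr` at `bl a` -/
lemma bfrX_bfr (hB : BFrX π h lam Jf a x Bb X κ₀ η c P β τ₁ 𝒥 t z z') :
    BFr π h lam Jf (bl a) x Bb X κ₀ η c P β τ₁ 𝒥 t z z' where
  κ0 := hB.κ0
  κ1 := hB.κ1
  tm := hB.tm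
  kk := hB.kk
  ll := hB.ll
  ii := hB.ii
  n₃ := hB.n₃
  blk := hB.blk
  s0 := hB.s0
  zf := hB.zf
  nr := hB.nr
  lR := hB.lR
  w1 := hB.w1
  w1' := hB.w1'
  w2 := hB.w2
  w3 := hB.w3
  sm := fun o y hy => by
    have hy' : vX (π lam.1).n₃ (fun k => conj ((π lam.1).χ₃ k)) (π lam.1).l₃
      (x.I Jf (bl a)) (omL (bl a).2) x.ph (x.E (bl a).1)
      (E5k54.alb (f3 (π lam.1) h lam.2 (bl a).1) x.β) x.g x.e₀ x.t x.c₀ x.g' o y ≠ 0 := hy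
    unfold vX vI at hy'
    exact (pu_ne hy').1
  hc := hB.hc

/-- the window of `α`, class E -/
lemma NαX_of {f f1 f2 D1' l' m : Eis} {sc : ℝ} (hX : 1 < X)
    (F : BFrX π h lam Jf a x Bb X κ₀ η c P β τ₁ 𝒥 t (zTr (κ₀ * Real.log X) a.2 x f t f1 f2 D1' l' m sc)
      z')
    (N : Near η (zTr (κ₀ * Real.log X) a.2 x f t f1 f2 D1' l' m sc) z')
    {A d bb δ δ' B C : ℝ} {N' : ℕ} {ps : List Pq} {q : (Option IX5 → ℝ) × (Kd → ℝ)}
    (hF : FrLX A d bb δ δ' B X N' a ps q)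
    (hN : |Real.log Nα - ((a.1.us 2).z + (a.1.us 3).z + (a.1.us 4).z - lg (∏ i, x.β i))| ≤ C) :
    |lx X Nα - κ₀ * (cN (prX (dn q.1)) / κ₀ - z'.β)| ≤ 3 * δ + η + C / Real.log X :=
  Nα_of (n₀ := 0) hX (bfrX_bfr F) N (frVX hF hX) hN

end blk

/-- this file's window -/
lemma nαX_164 (a : BdX) (x : Dt) :
    |Real.log (Real.exp (a3 a.toBd - Real.log (nm (∏ i, x.β i)))) -
      ((a.us 2).z + (a.us 3).z + (a.us 4).z - lg (∏ i, x.β i))| ≤ 0 :=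
  nα_164 a.toBd x

set_option maxHeartbeats 800000 in
/-- **the sizes of a block at the data of helper679's `BlkCX`** -/
theorem bszX_blk {Λ : Type*} {π : Λ → DPar} {h : ℝ → ℝ} (hP : ∀ lam, (π lam).OK)
    {Jf : ℝ → ℝ → ℝ → Finset (Eis × Eis)} (hJf : ∀ l N z, OKJ (Jf l N z)) {τ : ℝ} (hτ : 0 < τ)
    (C : ℝ) (lam : Λ × Eis) : ∃ X₀ : ℝ, 1 < X₀ ∧ ∀ X : ℝ, X₀ ≤ X →
    ∀ δ δ' ε' η : ℝ, δ ≤ η → 16 * η ≤ τ →
    ∀ (A d bb e0 r B : ℝ) (N : ℕ) (Bf : ℕ → ℝ → ℝ → ℝ → ℝ)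
      (a : BdX × ℕ) (ps : List Pq) (q : (Option IX5 → ℝ) × (Kd → ℝ)),
      FrLX A d bb δ δ' B X N a ps q → a.1.ok → a.1.okP (π lam.1) →
    ∀ x : Dt, x.OK (π lam.1) (Bf a.2) e0 r ε' X a.1.toBd →
    ∀ (w : x.O π lam Jf (bl a) → Eis → ℂ) (G : Eis → ℂ)
      (c : E4J352.Win) (P : Pf) (β τ₁ : Eis) (𝒥 : Finset (Tm (x.O π lam Jf (bl a)))),
    ∀ t ∈ 𝒥, t.val 1 lD (vE π h lam Jf a x) w G ≠ 0 →
    ∀ f1 f2 f3 D1' Z'' l' m : Eis,
      Spl (π lam.1).n₃ (fN (π lam.1).n₃ (x.E a.1.toBd)) x.z t f1 f2 f3 D1' Z'' l' m →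
    ∀ (z' : Cls) (sc : ℝ) (Bb : ℝ),
      Near η (zTr (cκ (prX (dn q.1)) * Real.log X) a.2 x (fN (π lam.1).n₃ (x.E a.1.toBd)) t
        f1 f2 D1' l' m sc) z' →
      BFrX π h lam Jf a x Bb X (cκ (prX (dn q.1))) η c P β τ₁ 𝒥 t
        (zTr (cκ (prX (dn q.1)) * Real.log X) a.2 x (fN (π lam.1).n₃ (x.E a.1.toBd)) t f1 f2 D1' l'
          m sc) z' →
    ∀ t' ∈ 𝒥, ∀ (α : Eis → ℂ) (A1 : ℝ) (s₁ β₀ : Eis) (Oc : Finset (x.O π lam Jf (bl a)))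
      (Pk : Eis → Prop) (g₁ g₂ : Eis) (G' : Eis → ℂ),
      XBk π lam Jf (bl a) x α A1 X c.nkk c.nlam P s₁ β₀ Oc Pk g₁ g₂ t'.D1 (E4RH858.b1 t') G' →
    ∀ d₀ : XD, d₀ = dBX π lam Jf (bl a) x α A1 X c.nkk P g₁ g₂ t'.D1 (E4RH858.b1 t') G' →
    ∀ mx Bm : ℝ, 1 ≤ Bm → Bm ≤ X ^ (mx + η) →
    ∀ Nα : ℝ,
      |Real.log Nα - ((a.1.us 2).z + (a.1.us 3).z + (a.1.us 4).z - lg (∏ i, x.β i))| ≤ C →
    XL842.BSz X (cκ (prX (dn q.1))) τ z' (cN (prX (dn q.1)) / cκ (prX (dn q.1))) mx x.m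
      (E4X92.lg d₀.g₁) (E4X92.lg (rrk 1 d₀.Pr)) (E4X92.lg (rrk 2 d₀.Pr))
      (E4X92.lg (sk (x.g * x.e₀ * x.t) t.k)) (2 * 2 ^ c.nlam) (2 ^ c.nlam) d₀.V d₀.κ Nα Bm
      (nk (d₀.b ^ 2) * nm d₀.D) (nm d₀.c₀) (nm d₀.g₁) (nm d₀.g₂) := by
  obtain ⟨K, hK⟩ : ∃ K : ℝ, K = 40 + 4 * |C| + Real.log (nm (π lam.1).n₃) := ⟨_, rfl⟩
  have hn0 : (π lam.1).n₃ ≠ 0 := (hP lam.1).χ₃.q0
  have hln : 0 ≤ Real.log (nm (π lam.1).n₃) := Real.log_natCast_nonneg _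
  have hC0 := abs_nonneg C
  refine ⟨max 2 (Real.exp (K / τ)), lt_max_of_lt_left (by norm_num), ?_⟩
  intro X hXX δ δ' ε' η hδ hη A d bb e0 r B N Bf a ps q hFr ha haP x hx w G c P β τ₁ 𝒥 t ht
    hval f1 f2 f3 D1' Z'' l' m hS z' sc Bb hN hF t' ht' α A1 s₁ β₀ Oc Pk g₁ g₂ G' hB d₀ hd₀ mx Bm hBm1
    hBm Nα hNα
  have hX2 : 2 ≤ X := (le_max_left _ _).trans hXX
  have hX1 : 1 < X := by linarith
  have hX0 : 0 < X := by linarith
  have hL : 0 < Real.log X := Real.log_pos hX1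
  have hKL : K ≤ τ * Real.log X := by
    have h1 : Real.exp (K / τ) ≤ X := (le_max_right _ _).trans hXX
    have h2 := (Real.le_log_iff_exp_le hX0).mpr h1
    rw [div_le_iff₀ hτ] at h2
    linarith
  have l2 : Real.log 2 < 0.6931471808 := Real.log_two_lt_d9
  have hc : 20 * lx X 2 ≤ τ / 2 := by
    rw [lx2, ← mul_div_assoc, div_le_iff₀ hL]
    rw [hK] at hKL
    nlinarith
  have h9 : (9 : ℝ) ≤ X ^ τ := by
    rw [Real.rpow_def_of_pos hX0, ← Real.log_le_iff_le_exp (by norm_num)]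
    have e9 : Real.log 9 ≤ 8 := by
      have := Real.log_le_sub_one_of_pos (show (0 : ℝ) < 9 by norm_num)
      linarith
    rw [hK] at hKL
    nlinarith
  have hn : (nm (π lam.1).n₃ : ℝ) ≤ X ^ τ := by
    rw [Real.rpow_def_of_pos hX0, ← Real.log_le_iff_le_exp (nm_pos' hn0)]
    rw [hK] at hKL
    nlinarith
  have hCL : C / Real.log X ≤ τ / 4 := by
    rw [div_le_iff₀ hL]
    have := le_abs_self C
    rw [hK] at hKL
    nlinarith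
  have k := NαX_of hX1 hF hN hFr hNα
  obtain ⟨-, hxs, -⟩ := E4RH858.val_ne hval
  obtain ⟨x1, -, -, hx1⟩ := E4RH858.xs_ne hxs
  refine bsz_of (a := bl a) (h := h) hX1 (bfrX_bfr hF) hN hS ht ht' hB
    (fun p hp => g'_mult (a := bl a) hJf ha.base haP hx hx1 hp) ?_ h9 hn hBm1 hBm ?_ hd₀
  · linarith
  · refine k.trans ?_
    have hη0 : 0 ≤ η := (abs_nonneg _).trans hN.v
    linarith

end Crest.Agent.R017.XP164
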