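import Crest.Agent.R017.UM2_71
import Crest.Agent.R017.ProvE_71

/-!
# Row 17, P8: the absolute near-equal boxes, real input (helper71)

* `Ab5s A d s` : near-equal and closed absolutely (helper918's `Abs`) with slack `s`
* `AbsR` : the real inequality for the exponent function `bc` of the absolute boxes
-/

set_option autoImplicit false

noncomputable section

open Set

namespace Crest.Agent.R017.E5B71

open Crest.Agent.R017.Prov71 Crest.Agent.R017.R8C918 Crest.Agent.R017.ER911

/-- near-equal configurations closed absolutely, slack `s` -/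
structure Ab5s (A d s : ℝ) (p : Fin 3 ⊕ Fin 5 → ℝ) (w : Kd → ℝ) : Prop extends Nr5 A p w where
  ab : R8C918.Abs (cN p / cκ p) (cM p / cκ p) (cu p 4 / cκ p) (w .mo / cκ p) (w .am / cκ p)
    (2 * d * (w .mo / cκ p + w .am / cκ p))
    (R8C918.Al d (1 / cκ p) (cN p / cκ p + cM p / cκ p + w .mo / cκ p) (w .am / cκ p) - s)

/-- **AbsR** : `V` = unmarked smooth pieces, `m` = granular Möbius mass, `c` = amplifier mass -/
def AbsR (A d s μ : ℝ) (bc : EF) : Prop :=
  ∀ (p : Fin 3 ⊕ Fin 5 → ℝ) (V : List ℝ) (m c : ℝ), (∀ y ∈ V, 0 < y) → (∀ y ∈ V, y ≤ cu p 4) →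
    0 ≤ m → 0 ≤ c → Ab5s A d s p (wt (V.sum + m) c) →
    bc (cκ p) (([cu p 0, cu p 1, cu p 2, cu p 3, cu p 4] ++ V : List ℝ) : Multiset ℝ) m c ≤
      T5 (7 / 8 + d) (p, wt (V.sum + m) c) - μ

end Crest.Agent.R017.E5B71
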