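import Crest.Agent.R017.SideD_777
import Crest.Agent.R017.R8Cert_918

/-!
# Row 17, section D, R8: the tails `k = k₁ e³`, `nm e > K^{1/20}` (helper70)

All lengths in base `H` (`K = 1`), `κ` = exponent of the cube-free part `k₁`, `κ ≤ 17/20`.

* `gauss3`, `char3` : side `{y₁,y₂,y₃ | m,a}`, `n` = its length: ideal on the Gauss side at the
  family `n + (3/4) y₃ (+ …)`, hence
  `r κ ≤ (2/3) κ + (4/3) n + y₃/2 (+ (16/5) d (y₃ + w))` for `n - (3/4) y₃ ≤ κ` (TF, SUP, P, P').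
* `pairV` : side `V + {u₁,u₂} | m, c` at any family: `V`, `m` pointwise, then `side79a`.
* `GP`, `GH` : bounds for the Gram sum `∑_{k₁ ~ K^κ} |St|²` over all levels `v ≤ vm`
  (`gram_P`: Poisson in `k₁` + HB on the modes; `gram_H`: HB, with a mass `b` of conjugate
  symbols moved into the structured function).
* `T1_le`, `T2_le`, `T3_le` : the three tails of R8 for every near-equal box that is not closed
  absolutely with `x = 0`; `tails` : together with helper918's certificate.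
-/

set_option autoImplicit false

noncomputable section

namespace Crest.Agent.R017.R8T70

open Crest.Agent.R017.ER911 Crest.Agent.R017.SC777 Crest.Agent.R017.R8C918

variable {d : ℝ} {r s : EF}

/-! ### sides -/

theorem cons_pair (y₁ y₂ y₃ : ℝ) : (y₃ ::ₘ ({y₁, y₂} : Multiset ℝ)) = {y₁, y₂, y₃} := by
  have e1 : (y₃ ::ₘ y₁ ::ₘ ({y₂} : Multiset ℝ)) = y₁ ::ₘ y₃ ::ₘ {y₂} := Multiset.cons_swap _ _ _
  have e2 : (y₃ ::ₘ y₂ ::ₘ (0 : Multiset ℝ)) = y₂ ::ₘ y₃ ::ₘ 0 := Multiset.cons_swap _ _ _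
  have e3 : ({y₁, y₂, y₃} : Multiset ℝ) = y₁ ::ₘ y₂ ::ₘ y₃ ::ₘ 0 := rfl
  have e4 : (y₃ ::ₘ ({y₁, y₂} : Multiset ℝ)) = y₃ ::ₘ y₁ ::ₘ {y₂} := rfl
  have e5 : (y₁ ::ₘ y₃ ::ₘ ({y₂} : Multiset ℝ)) = y₁ ::ₘ (y₃ ::ₘ y₂ ::ₘ 0) := rfl
  rw [e4, e1, e5, e2, e3]

theorem Sh_triple {Y' : Multiset ℝ} {y₁ y₂ y₃ : ℝ} (h : Sh Y' {y₁, y₂, y₃}) :
    ∃ a₁ a₂ a₃ : ℝ, Y' = {a₁, a₂, a₃} ∧ 0 ≤ a₁ ∧ a₁ ≤ y₁ ∧ 0 ≤ a₂ ∧ a₂ ≤ y₂ ∧ 0 ≤ a₃ ∧
      a₃ ≤ y₃ := by
  obtain ⟨a₁, Z, rfl, h1, h2, h3⟩ := Sh.of_cons (Y := {y₂, y₃}) (y := y₁) h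
  obtain ⟨a₂, a₃, rfl, h4, h5, h6, h7⟩ := h3.pair
  exact ⟨a₁, a₂, a₃, rfl, h1, h2, h4, h5, h6, h7⟩

theorem sum_triple (y₁ y₂ y₃ : ℝ) : ({y₁, y₂, y₃} : Multiset ℝ).sum = y₁ + y₂ + y₃ := by
  simp [add_assoc]

theorem ok_triple {y₁ y₂ y₃ m a : ℝ} (h1 : 0 ≤ y₁) (h2 : 0 ≤ y₂) (h3 : 0 ≤ y₃) (hm : 0 ≤ m)
    (ha : 0 ≤ a) : Ok {y₁, y₂, y₃} m a := by
  refine ⟨fun y hy => ?_, hm, ha⟩
  simp only [Multiset.insert_eq_cons, Multiset.mem_cons, Multiset.mem_singleton] at hy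
  rcases hy with rfl | rfl | rfl <;> assumption

/-- the third piece pointwise -/
theorem drop3 (R : ExpRules (7 / 8 + d) r s) {κ y₁ y₂ y₃ m a : ℝ} (hκ : 0 ≤ κ) (h1 : 0 ≤ y₁)
    (h2 : 0 ≤ y₂) (h3 : 0 ≤ y₃) (hm : 0 ≤ m) (ha : 0 ≤ a) :
    r κ {y₁, y₂, y₃} m a ≤ (7 / 4 + 2 * d) * y₃ + r κ {y₁, y₂} m a := by
  have := R.supS κ y₃ {y₁, y₂} m a hκ h3 (ok_pair h1 h2 hm ha)
  rw [cons_pair] at this
  linarith

/-- one column of the Gauss side: the pair with `side79a`, the third piece pointwise -/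
theorem col3 (R : ExpRules (7 / 8 + d) r s) (hd : 0 ≤ d) {i a₁ a₂ a₃ m a : ℝ} (hi : 0 ≤ i)
    (h1 : 0 ≤ a₁) (h2 : 0 ≤ a₂) (h3 : 0 ≤ a₃) (hm : 0 ≤ m) (ha : 0 ≤ a) (hi1 : a₁ ≤ i)
    (hi2 : a₂ ≤ i) {T : ℝ}
    (hT0 : i + (3 / 4 + 2 * d) * a₃ + 2 * d * (m + a) ≤ T)
    (hT1 : 5 / 12 * i + 7 / 12 * (a₁ + a₂) + (3 / 4 + 2 * d) * (a₃ + (m + a)) ≤ T)
    (hT2 : 1 / 2 * i + 1 / 4 * (a₁ + a₂) + (3 / 4 + 2 * d) * (a₃ + (m + a)) ≤ T)
    (hT3 : i ≤ a₁ + a₂ → i + (3 / 4 + 2 * d) * (a₃ + (m + a)) ≤ T) :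
    r i {a₁, a₂, a₃} m a ≤ T + (a₁ + a₂ + a₃ + (m + a)) := by
  have e0 := drop3 R hi h1 h2 h3 hm ha
  rcases le_total i (a₁ + a₂) with h | h
  · have e1 := sup_all R hi h1 h2 hm ha hi1 hi2
    have := hT3 h
    linarith
  · have e2 := side79a R hd (e := max 0 (max (m + a - 7 / 9 * (i - (a₁ + a₂)))
        ((12 * a + 9 * m + 4 * (a₁ + a₂) - 8 * i) / 12))) h1 h2 hm ha h (le_max_left _ _)
      ((le_max_left _ _).trans (le_max_right _ _))
      (by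
        have : (12 * a + 9 * m + 4 * (a₁ + a₂) - 8 * i) / 12 ≤
          max 0 (max (m + a - 7 / 9 * (i - (a₁ + a₂)))
            ((12 * a + 9 * m + 4 * (a₁ + a₂) - 8 * i) / 12)) :=
          (le_max_right _ _).trans (le_max_right _ _)
        linarith) hi le_rfl hi1 hi2
    have e3 : 3 / 4 * max 0 (max (m + a - 7 / 9 * (i - (a₁ + a₂)))
        ((12 * a + 9 * m + 4 * (a₁ + a₂) - 8 * i) / 12)) ≤
        T - i - (3 / 4 + 2 * d) * a₃ - 2 * d * (m + a) := by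
      have : max 0 (max (m + a - 7 / 9 * (i - (a₁ + a₂)))
          ((12 * a + 9 * m + 4 * (a₁ + a₂) - 8 * i) / 12)) ≤
          4 / 3 * (T - i - (3 / 4 + 2 * d) * a₃ - 2 * d * (m + a)) := by
        refine max_le (by linarith) (max_le (by linarith) (by linarith))
      linarith
    linarith

/-- the Gauss side is ideal at the family `v ≥ n + (3/4) y₃ + (24/5) d (y₃ + w)` -/
theorem gauss3 (R : ExpRules (7 / 8 + d) r s) (hd : 0 ≤ d) (hd1 : d ≤ 1 / 8)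
    {y₁ y₂ y₃ m a Yb wb v : ℝ} (h1 : 0 ≤ y₁) (h2 : 0 ≤ y₂) (h3 : 0 ≤ y₃) (hm : 0 ≤ m)
    (ha : 0 ≤ a) (hY : y₃ ≤ Yb) (hw : m + a ≤ wb) (hwY : 2 * wb ≤ Yb)
    (hv : (y₁ + y₂ + y₃ + (m + a)) + 3 / 4 * Yb + 24 / 5 * d * (Yb + wb) ≤ v) :
    ∀ v' : ℝ, 0 ≤ v' → v' ≤ v →
      s v' {y₁, y₂, y₃} m a + (v - v') / 3 ≤ v + (y₁ + y₂ + y₃ + (m + a)) := by
  have hYb : 0 ≤ Yb := h3.trans hY
  have hwb : 0 ≤ wb := by linarith
  have hdY : 0 ≤ d * (Yb + wb) := mul_nonneg hd (by linarith)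
  have hdd : d * (Yb + wb) ≤ 1 / 8 * (Yb + wb) := mul_le_mul_of_nonneg_right hd1 (by linarith)
  refine R.poisG v {y₁, y₂, y₃} m a _ (by linarith) (ok_triple h1 h2 h3 hm ha)
    (by rw [sum_triple]; linarith) ?_ ?_
  · intro Y' m' a' i hYs hm0 hm1 ha0 ha1 hi hyi hii
    obtain ⟨a₁, a₂, a₃, rfl, q1, q1', q2, q2', q3, q3'⟩ := Sh_triple hYs
    rw [sum_triple] at hii
    rw [sum_triple, sum_triple]
    have hi1 : a₁ ≤ i := hyi a₁ (by simp)
    have hi2 : a₂ ≤ i := hyi a₂ (by simp)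
    have p1 : d * (a₃ + (m' + a')) ≤ d * (Yb + wb) := mul_le_mul_of_nonneg_left (by linarith) hd
    have p2 : d * a₃ ≤ d * (a₃ + (m' + a')) := mul_le_mul_of_nonneg_left (by linarith) hd
    have key := col3 R hd hi q1 q2 q3 hm0 ha0 hi1 hi2
      (T := (y₁ + y₂ + y₃ + (m + a)) - (2 * (y₁ + y₂ + y₃ + (m + a)) - v - i) / 3)
      (by linarith) (by linarith) (by linarith) (fun h => by linarith)
    linarith
  · intro Y' m' a' hYs hm0 hm1 ha0 ha1 hk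
    obtain ⟨a₁, a₂, a₃, rfl, q1, q1', q2, q2', q3, q3'⟩ := Sh_triple hYs
    rw [sum_triple] at hk
    rw [sum_triple, sum_triple]
    have p1 : d * m' ≤ 1 / 8 * m' := mul_le_mul_of_nonneg_right hd1 hm0
    linarith

/-- the character side `{y₁,y₂,y₃ | m,a}` below the family `n + (3/2) y₃` -/
theorem char3 (R : ExpRules (7 / 8 + d) r s) (hd : 0 ≤ d) (hd1 : d ≤ 1 / 8)
    {y₁ y₂ y₃ m a κ : ℝ} (h1 : 0 ≤ y₁) (h2 : 0 ≤ y₂) (h3 : 0 ≤ y₃) (hm : 0 ≤ m)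
    (ha : 0 ≤ a) (hwY : 2 * (m + a) ≤ y₃)
    (hκ0 : (y₁ + y₂ + y₃ + (m + a)) - 3 / 4 * y₃ ≤ κ)
    (hκ1 : κ ≤ (y₁ + y₂ + y₃ + (m + a)) + 3 / 2 * y₃) :
    ∀ κ' : ℝ, 0 ≤ κ' → κ' ≤ κ →
      r κ' {y₁, y₂, y₃} m a + (κ - κ') / 3 ≤ 2 / 3 * κ + 4 / 3 * (y₁ + y₂ + y₃ + (m + a)) +
        y₃ / 2 + 16 / 5 * d * (y₃ + (m + a)) := by
  have hdY : 0 ≤ d * (y₃ + (m + a)) := mul_nonneg hd (by linarith)
  refine R.poisC κ {y₁, y₂, y₃} m a _ (by linarith) (ok_triple h1 h2 h3 hm ha)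
    (by rw [sum_triple]; linarith) (by rw [sum_triple]; linarith) ?_
  intro Y' m' a' i hYs hm0 hm1 ha0 ha1 hi hii
  obtain ⟨a₁, a₂, a₃, rfl, q1, q1', q2, q2', q3, q3'⟩ := Sh_triple hYs
  rw [sum_triple] at hii
  rw [sum_triple, sum_triple]
  have := gauss3 R hd hd1 (Yb := y₃) (wb := m + a)
    (v := ((y₁ + y₂ + y₃ + (m + a)) + (a₁ + a₂ + a₃ + (m' + a'))) / 2 + 3 / 4 * y₃ +
      24 / 5 * d * (y₃ + (m + a))) q1 q2 q3 hm0 ha0 q3' (by linarith) hwY (by linarith) i hi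
    (by linarith)
  linarith

/-- TF for every family (pieces longer than the family included) -/
theorem tf0 (R : ExpRules (7 / 8 + d) r s) {κ y₁ y₂ : ℝ} (hκ : 0 ≤ κ) (h1 : 0 ≤ y₁)
    (h2 : 0 ≤ y₂) : r κ {y₁, y₂} 0 0 ≤ κ + (y₁ + y₂) := by
  -- first both pieces `≤ κ`
  have A : ∀ z₁ z₂ : ℝ, 0 ≤ z₁ → 0 ≤ z₂ → z₁ ≤ κ → z₂ ≤ κ → r κ {z₁, z₂} 0 0 ≤ κ + (z₁ + z₂) :=
    fun z₁ z₂ a b c e => R.tf κ z₁ z₂ a b c e
  -- second piece arbitrary
  have B : ∀ z₁ z₂ : ℝ, 0 ≤ z₁ → 0 ≤ z₂ → z₁ ≤ κ → r κ {z₁, z₂} 0 0 ≤ κ + (z₁ + z₂) := by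
    intro z₁ z₂ a b c
    have e : ({z₁, z₂} : Multiset ℝ) = z₂ ::ₘ {z₁} := Multiset.pair_comm z₁ z₂
    rw [e]
    refine R.flip κ z₂ {z₁} 0 0 _ hκ b ⟨by simpa using a, le_rfl, le_rfl⟩ ?_ ?_
    · intro y' h0 hy h2'
      have := A y' z₁ h0 a (by linarith) c
      have e' : (y' ::ₘ ({z₁} : Multiset ℝ)) = {y', z₁} := rfl
      rw [e']
      linarith
    · intro y' t hy hyk hk ht0 ht
      have := A (κ - t - y') z₁ (by linarith) a (by linarith) c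
      have e' : ((κ - t - y') ::ₘ ({z₁} : Multiset ℝ)) = {κ - t - y', z₁} := rfl
      rw [e']
      linarith
  refine R.flip κ y₁ {y₂} 0 0 _ hκ h1 ⟨by simpa using h2, le_rfl, le_rfl⟩ ?_ ?_
  · intro y' h0 hy h2'
    have := B y' y₂ h0 h2 (by linarith)
    have e' : (y' ::ₘ ({y₂} : Multiset ℝ)) = {y', y₂} := rfl
    rw [e']
    linarith
  · intro y' t hy hyk hk ht0 ht
    have := B (κ - t - y') y₂ (by linarith) h2 (by linarith)
    have e' : ((κ - t - y') ::ₘ ({y₂} : Multiset ℝ)) = {κ - t - y', y₂} := rfl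
    rw [e']
    linarith

/-- the second side of R8 at any family: `V`, `m` pointwise, `{u₁,u₂ | c}` by `side79a` -/
theorem pairV (R : ExpRules (7 / 8 + d) r s) (hd : 0 ≤ d) {κ u₁ u₂ m c : ℝ} {V : Multiset ℝ}
    (hκ : 0 ≤ κ) (h1 : 0 ≤ u₁) (h2 : 0 ≤ u₂) (hm : 0 ≤ m) (hc : 0 ≤ c) (hV : ∀ y ∈ V, 0 ≤ y)
    (hκc : κ ≤ 4 * (u₁ + u₂)) :
    r κ (V + {u₁, u₂}) m c ≤ κ + (u₁ + u₂) + (V.sum + m) + c + 2 * d * (V.sum + m + c) +
      3 / 4 * ((V.sum + m) + max 0 (c - 7 / 9 * max 0 (κ - (u₁ + u₂)))) := by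
  have e0 := supV R hκ {u₁, u₂} V (ok_pair (m := 0) (a := 0) h1 h2 le_rfl le_rfl).1 hV hm hc
  have e1 := R.sup κ {u₁, u₂} m c m 0 hκ (ok_pair h1 h2 hm hc) hm le_rfl le_rfl hc
  rw [sub_self, sub_zero] at e1
  have key : r κ {u₁, u₂} 0 c ≤ κ + (u₁ + u₂) + c + 2 * d * c +
      3 / 4 * max 0 (c - 7 / 9 * max 0 (κ - (u₁ + u₂))) := by
    rcases le_total κ (u₁ + u₂) with h | h
    · have e2 := R.sup κ {u₁, u₂} 0 c 0 c hκ (ok_pair h1 h2 le_rfl hc) le_rfl le_rfl hc le_rfl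
      rw [sub_self, sub_self] at e2
      have e3 := tf0 R hκ h1 h2
      rw [max_eq_left (by linarith : κ - (u₁ + u₂) ≤ 0), mul_zero, sub_zero, max_eq_right hc]
      linarith
    · rw [max_eq_right (by linarith : (0:ℝ) ≤ κ - (u₁ + u₂))]
      have he1 : 0 + c - 7 / 9 * (κ - (u₁ + u₂)) ≤ max 0 (c - 7 / 9 * (κ - (u₁ + u₂))) := by
        rw [zero_add]; exact le_max_right _ _
      by_cases hy : u₁ ≤ κ ∧ u₂ ≤ κ
      · have e4 := side79a R hd (m := 0) (a := c) (e := max 0 (c - 7 / 9 * (κ - (u₁ + u₂))))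
          h1 h2 le_rfl hc h (le_max_left _ _) he1
          (by
            have := le_max_left 0 (c - 7 / 9 * (κ - (u₁ + u₂)))
            have := le_max_right 0 (c - 7 / 9 * (κ - (u₁ + u₂)))
            linarith) hκ le_rfl hy.1 hy.2
        linarith
      · exfalso
        apply hy
        exact ⟨by linarith, by linarith⟩
  linarith

/-! ### Gram sums at the family `κ` -/

/-- Poisson in `k₁` and HB on the modes -/
def GP (κ vm N u : ℝ) : ℝ := max (2 / 3 * vm + 5 / 3 * N) (2 / 3 * κ + 4 / 3 * N + u / 3)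

/-- HB, mass `b` of conjugate symbols moved in -/
def GH (κ vm N b : ℝ) : ℝ :=
  5 / 3 * N - (κ + vm) / 3 + b + max (vm + b) (2 / 3 * (κ + vm + b))

/-- level `v`, moment `t` (flat, and C + TF), norm `max κ (v + κ/3)` -/
theorem gram_P {κ v vm N u t : ℝ} (hv : v ≤ vm) (ht : t ≤ 2 * N) (ht' : t ≤ v + N + u) :
    -(κ + v) / 3 - N / 3 + t + max κ (v + κ / 3) ≤ GP κ vm N u := by
  unfold GP
  rcases le_total κ (v + κ / 3) with h | h
  · rw [max_eq_right h]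
    exact (by linarith : _ ≤ 2 / 3 * vm + 5 / 3 * N).trans (le_max_left _ _)
  · rw [max_eq_left h]
    exact (by linarith : _ ≤ 2 / 3 * κ + 4 / 3 * N + u / 3).trans (le_max_right _ _)

/-- level `v`, moment `t`, norm of HB with the mass `b` -/
theorem gram_H {κ v vm N u b t : ℝ} (hv : v ≤ vm) (ht : t ≤ 2 * N) (ht' : t ≤ v + N + u)
    (hb : 0 ≤ b) (hκ : 2 * κ + 3 * u ≤ 3 * N + vm) :
    -(κ + v) / 3 - N / 3 + (t + b) + max κ (max (v + b) (2 / 3 * (κ + v + b))) ≤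
      GH κ vm N b := by
  unfold GH
  have m1 := le_max_left (vm + b) (2 / 3 * (κ + vm + b))
  have m2 := le_max_right (vm + b) (2 / 3 * (κ + vm + b))
  have h1 : max (v + b) (2 / 3 * (κ + v + b)) - v / 3 ≤
      max (vm + b) (2 / 3 * (κ + vm + b)) - vm / 3 := by
    rcases le_total (v + b) (2 / 3 * (κ + v + b)) with h | h
    · rw [max_eq_right h]; linarith
    · rw [max_eq_left h]; linarith
  rcases le_total κ (max (v + b) (2 / 3 * (κ + v + b))) with h | h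
  · rw [max_eq_right h]; linarith
  · rw [max_eq_left h]
    have h2 : v + b ≤ κ := (le_max_left _ _).trans h
    have h3 : 2 / 3 * (κ + v + b) ≤ κ := (le_max_right _ _).trans h
    linarith

/-- amplifier mass moved into the structured function in `T₁` -/
def bm (κ M c : ℝ) : ℝ := max 0 (c - 7 / 9 * max 0 (κ - M))

/-- second side, exponent (`d = 0`) -/
def RE (κ M a c : ℝ) : ℝ := κ + M + a + c + 3 / 4 * (a + bm κ M c)

/-- not closed absolutely with `x = 0` -/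
def NotAbs (r N M u a c : ℝ) : Prop :=
  A0 r (N + M + a) c < 3 / 4 * max 0 (a + c - 7 / 9 * (1 - M)) +
    max 0 (max (5 / 4 * N - 1) (N + u - 1)) / 3

/-- linear consequences of 'not closed absolutely with the mass `x`' -/
lemma notabs_cases {r N M u a c x : ℝ}
    (h0 : A0 r (N + M + a) c < 3 / 4 * max 0 (a + c - x - 7 / 9 * (1 - M)) +
      max 0 (max (5 / 4 * N - 1) (N + u - 1)) / 3) (hs : 1 ≤ N + u) :
    ∃ E P : ℝ, ((E = 0 ∧ a + c - x ≤ 7 / 9 * (1 - M)) ∨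
      (E = a + c - x - 7 / 9 * (1 - M) ∧ 7 / 9 * (1 - M) ≤ a + c - x)) ∧
      ((P = 5 / 4 * N - 1 ∧ u ≤ N / 4) ∨ (P = N + u - 1 ∧ N / 4 ≤ u)) ∧
      0 < 3 / 4 * E + P / 3 ∧ r / 2 - 1 + (N + M + a - c) / 2 < 3 / 4 * E + P / 3 ∧
      5 / 12 * r - 5 / 3 + 3 / 4 * (N + M + a + c) < 3 / 4 * E + P / 3 := by
  obtain ⟨c1, c2, c3⟩ := A0_lt h0
  rw [max_eq_right ((by linarith : (0:ℝ) ≤ N + u - 1).trans (le_max_right _ _))] at c1 c2 c3
  refine ⟨max 0 (a + c - x - 7 / 9 * (1 - M)), max (5 / 4 * N - 1) (N + u - 1), ?_, ?_, c1, c2,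
    c3⟩
  · rcases le_total 0 (a + c - x - 7 / 9 * (1 - M)) with h | h
    · right; rw [max_eq_right h]; exact ⟨rfl, by linarith⟩
    · left; rw [max_eq_left h]; exact ⟨rfl, by linarith⟩
  · rcases le_total (5 / 4 * N - 1) (N + u - 1) with h | h
    · right; rw [max_eq_right h]; exact ⟨rfl, by linarith⟩
    · left; rw [max_eq_left h]; exact ⟨rfl, by linarith⟩

lemma NotAbs.cases {r N M u a c : ℝ} (h0 : NotAbs r N M u a c) (hs : 1 ≤ N + u) :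
    ∃ E P : ℝ, ((E = 0 ∧ a + c ≤ 7 / 9 * (1 - M)) ∨
      (E = a + c - 7 / 9 * (1 - M) ∧ 7 / 9 * (1 - M) ≤ a + c)) ∧
      ((P = 5 / 4 * N - 1 ∧ u ≤ N / 4) ∨ (P = N + u - 1 ∧ N / 4 ≤ u)) ∧
      0 < 3 / 4 * E + P / 3 ∧ r / 2 - 1 + (N + M + a - c) / 2 < 3 / 4 * E + P / 3 ∧
      5 / 12 * r - 5 / 3 + 3 / 4 * (N + M + a + c) < 3 / 4 * E + P / 3 := by
  have := notabs_cases (x := 0) (by rw [sub_zero]; exact h0) hs
  simpa using this

lemma bm_cases {κ M c : ℝ} (hc : 0 ≤ c) : (bm κ M c = c ∧ κ ≤ M) ∨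
    (bm κ M c = c - 7 / 9 * (κ - M) ∧ M ≤ κ ∧ 7 / 9 * (κ - M) ≤ c) ∨
      (bm κ M c = 0 ∧ c ≤ 7 / 9 * (κ - M)) := by
  unfold bm
  rcases le_total κ M with h | h
  · left; rw [max_eq_left (by linarith : κ - M ≤ 0), mul_zero, sub_zero, max_eq_right hc]
    exact ⟨rfl, h⟩
  · rw [max_eq_right (by linarith : (0:ℝ) ≤ κ - M)]
    rcases le_total 0 (c - 7 / 9 * (κ - M)) with h' | h'
    · right; left; rw [max_eq_right h']; exact ⟨rfl, h, by linarith⟩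
    · right; right; rw [max_eq_left h']; exact ⟨rfl, by linarith⟩

set_option maxHeartbeats 2000000 in
/-- **T₁** : `∑_{tail} |St B|` -/
theorem T1_le {r N M u a c κ : ℝ} (B : Box5 r N M u a c) (hr : r ≤ 9 / 8) (ha : a ≤ 1 / 12)
    (h0 : NotAbs r N M u a c) (hκ0 : 0 ≤ κ) (hκ : κ ≤ 17 / 20) :
    2 / 3 * (1 - κ) + min (GP κ (2 * N - 1) N u + RE κ M a c)
      (GH κ (2 * N - 1) N (bm κ M c) + (κ + M + a + (c - bm κ M c) + 3 / 4 * a)) ≤
      2 + (N + M + a + c) + A0 r (N + M + a) c := by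
  obtain ⟨hu, hMN, hM1, hs, ha0, hc, hr1, hD, hP, hcr⟩ := B
  set X1 := GP κ (2 * N - 1) N u + RE κ M a c with hX1
  set X2 := GH κ (2 * N - 1) N (bm κ M c) + (κ + M + a + (c - bm κ M c) + 3 / 4 * a) with hX2
  by_contra hcon
  push Not at hcon
  have g1 : A0 r (N + M + a) c < 2 / 3 * (1 - κ) + X1 - (2 + (N + M + a + c)) := by
    have := min_le_left X1 X2; linarith
  have g2 : A0 r (N + M + a) c < 2 / 3 * (1 - κ) + X2 - (2 + (N + M + a + c)) := by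
    have := min_le_right X1 X2; linarith
  obtain ⟨a1, a2, a3⟩ := A0_lt g1
  obtain ⟨b1, b2, b3⟩ := A0_lt g2
  obtain ⟨E, P, hE, hP', c1, c2, c3⟩ := h0.cases hs
  clear g1 g2 hcon h0
  rw [hX1] at a1 a2 a3
  rw [hX2] at b1 b2 b3
  unfold GP RE at a1 a2 a3
  unfold GH at b1 b2 b3
  clear_value X1 X2
  clear hX1 hX2
  have hb := bm_cases (κ := κ) (M := M) hc
  obtain ⟨b, hbd⟩ : ∃ b, b = bm κ M c := ⟨_, rfl⟩
  rw [← hbd] at a1 a2 a3 b1 b2 b3 hb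
  clear hbd
  obtain ⟨G1, hG1⟩ : ∃ G, G = max (2 / 3 * (2 * N - 1) + 5 / 3 * N)
    (2 / 3 * κ + 4 / 3 * N + u / 3) := ⟨_, rfl⟩
  rw [← hG1] at a1 a2 a3
  have hG1' : G1 = 2 / 3 * (2 * N - 1) + 5 / 3 * N ∨ G1 = 2 / 3 * κ + 4 / 3 * N + u / 3 := by
    rw [hG1]; exact max_choice _ _
  clear hG1
  obtain ⟨G2, hG2⟩ : ∃ G, G = max (2 * N - 1 + b) (2 / 3 * (κ + (2 * N - 1) + b)) := ⟨_, rfl⟩
  rw [← hG2] at b1 b2 b3
  have hG2' : (G2 = 2 * N - 1 + b ∧ 2 / 3 * (κ + (2 * N - 1) + b) ≤ 2 * N - 1 + b) ∨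
      G2 = 2 / 3 * (κ + (2 * N - 1) + b) := by
    rw [hG2]
    rcases le_total (2 * N - 1 + b) (2 / 3 * (κ + (2 * N - 1) + b)) with h | h
    · right; exact max_eq_right h
    · left; exact ⟨max_eq_left h, h⟩
  clear hG2
  rcases hG1' with p1 | p1 <;> rcases hG2' with ⟨p2, p2'⟩ | p2 <;>
  rcases hb with ⟨p3, p3'⟩ | ⟨p3, p3', p3''⟩ | ⟨p3, p3'⟩ <;>
  rcases hE with ⟨p4, p4'⟩ | ⟨p4, p4'⟩ <;> rcases hP' with ⟨p5, p5'⟩ | ⟨p5, p5'⟩ <;>
  linarith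

/-- admissible amplifier mass of the first side in helper918's certificate -/
def AdmT (N M a c x : ℝ) : Prop :=
  0 ≤ x ∧ x ≤ c ∧ (x = 0 ∨ (N + x ≤ 4 / 5 ∧ x ≤ a + c - 7 / 9 * (1 - M)))

/-- two-sided loss in `T₂` -/
def e2 (N : ℝ) : ℝ := max 0 (5 / 4 * N - 1)

/-- **T₂**, `κ` large: `∑_{tail} |α̂₁| |St|`, `n = N + x` -/
theorem T2_le {r N M u a c x κ : ℝ} (B : Box5 r N M u a c) (hx : AdmT N M a c x)
    (hN : N ≤ 17 / 20) (hκ : κ ≤ 17 / 20) :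
    (1 - κ) / 3 + (GP κ (2 * (N + x) - 1) (N + x) (u + x) +
      (2 / 3 * κ + 4 / 3 * (N + x) + u / 2)) / 2 ≤ 1 + (N + x) + e2 N := by
  obtain ⟨hu, hMN, hM1, hs, ha0, hc, hr1, hD, hP, hcr⟩ := B
  obtain ⟨hx0, hxc, hx1⟩ := hx
  have h1 : 0 ≤ e2 N := le_max_left _ _
  have h2 : 5 / 4 * N - 1 ≤ e2 N := le_max_right _ _
  have hG : GP κ (2 * (N + x) - 1) (N + x) (u + x) ≤ 2 * (1 + (N + x) + e2 N - (1 - κ) / 3) -
      (2 / 3 * κ + 4 / 3 * (N + x) + u / 2) := by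
    unfold GP
    rcases hx1 with rfl | ⟨hx1, hx2⟩
    · exact max_le (by linarith) (by linarith)
    · exact max_le (by linarith) (by linarith)
  linarith

set_option maxHeartbeats 2000000 in
/-- **T₂**, `κ` small: the fifth piece (and `x`) moved into the structured function -/
theorem T2_low {r N M u a c x κ : ℝ} (B : Box5 r N M u a c) (hr : r ≤ 9 / 8) (ha : a ≤ 1 / 12)
    (h0 : A0 r (N + M + a) c < 3 / 4 * max 0 (a + c - x - 7 / 9 * (1 - M)) +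
      max 0 (max (5 / 4 * N - 1) (N + u - 1)) / 3) (hx : AdmT N M a c x)
    (hκ0 : 0 ≤ κ) (hκ : κ ≤ (N + x) - 3 / 4 * u) :
    (1 - κ) / 3 + (GH κ (2 * (N + x) - 1) (N + x) (u + x) + (κ + (N - u))) / 2 ≤
      1 + (N + x) + e2 N := by
  obtain ⟨hu, hMN, hM1, hs, ha0, hc, hr1, hD, hP, hcr⟩ := B
  obtain ⟨hx0, hxc, hx1⟩ := hx
  obtain ⟨E, P, hE, hP', c1, c2, c3⟩ := notabs_cases h0 hs
  have h1 : 0 ≤ e2 N := le_max_left _ _
  have h2 : 5 / 4 * N - 1 ≤ e2 N := le_max_right _ _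
  have hG : GH κ (2 * (N + x) - 1) (N + x) (u + x) ≤
      2 * (1 + (N + x) + e2 N - (1 - κ) / 3) - (κ + (N - u)) := by
    unfold GH
    have : max (2 * (N + x) - 1 + (u + x)) (2 / 3 * (κ + (2 * (N + x) - 1) + (u + x))) ≤
        2 * (1 + (N + x) + e2 N - (1 - κ) / 3) - (κ + (N - u)) -
          (5 / 3 * (N + x) - (κ + (2 * (N + x) - 1)) / 3 + (u + x)) := by
      rcases hE with ⟨p4, p4'⟩ | ⟨p4, p4'⟩ <;> rcases hP' with ⟨p5, p5'⟩ | ⟨p5, p5'⟩ <;>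
      rcases hx1 with p6 | ⟨p6, p6'⟩ <;> refine max_le ?_ ?_ <;> linarith
    linarith
  linarith

set_option maxHeartbeats 2000000 in
/-- **T₃** : `∑_{tail} |α̂₁ A₁ B|`, `κ` large -/
theorem T3_le {r N M u a c x κ : ℝ} (B : Box5 r N M u a c) (hr : r ≤ 9 / 8) (ha : a ≤ 1 / 12)
    (h0 : NotAbs r N M u a c) (hx : AdmT N M a c x) (hκ : κ ≤ 17 / 20) :
    2 / 3 * (1 - κ) + (2 / 3 * κ + 4 / 3 * (N + x) + u / 2) + RE κ M a (c - x) ≤
      2 + (N + M + a + c) + A0 r (N + M + a) c := by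
  obtain ⟨hu, hMN, hM1, hs, ha0, hc, hr1, hD, hP, hcr⟩ := B
  obtain ⟨hx0, hxc, hx1⟩ := hx
  obtain ⟨E, P, hE, hP', c1, c2, c3⟩ := h0.cases hs
  by_contra hcon
  push Not at hcon
  have g1 : A0 r (N + M + a) c < 2 / 3 * (1 - κ) + (2 / 3 * κ + 4 / 3 * (N + x) + u / 2) +
      RE κ M a (c - x) - (2 + (N + M + a + c)) := by linarith
  obtain ⟨a1, a2, a3⟩ := A0_lt g1
  clear g1 hcon h0
  unfold RE at a1 a2 a3
  have hb := bm_cases (κ := κ) (M := M) (c := c - x) (by linarith)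
  rcases hb with ⟨p3, p3'⟩ | ⟨p3, p3', p3''⟩ | ⟨p3, p3'⟩ <;>
  rcases hE with ⟨p4, p4'⟩ | ⟨p4, p4'⟩ <;> rcases hP' with ⟨p5, p5'⟩ | ⟨p5, p5'⟩ <;>
  rcases hx1 with p6 | ⟨p6, p6'⟩ <;> linarith

set_option maxHeartbeats 2000000 in
/-- **T₃**, `κ` small -/
theorem T3_low {r N M u a c x κ : ℝ} (B : Box5 r N M u a c) (hr : r ≤ 9 / 8) (ha : a ≤ 1 / 12)
    (h0 : NotAbs r N M u a c) (hx : AdmT N M a c x) (hκ : κ ≤ (N + x) - 3 / 4 * u) :
    2 / 3 * (1 - κ) + (κ + (N + x) + 3 / 4 * (u + x)) + RE κ M a (c - x) ≤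
      2 + (N + M + a + c) + A0 r (N + M + a) c := by
  obtain ⟨hu, hMN, hM1, hs, ha0, hc, hr1, hD, hP, hcr⟩ := B
  obtain ⟨hx0, hxc, hx1⟩ := hx
  obtain ⟨E, P, hE, hP', c1, c2, c3⟩ := h0.cases hs
  by_contra hcon
  push Not at hcon
  have g1 : A0 r (N + M + a) c < 2 / 3 * (1 - κ) + (κ + (N + x) + 3 / 4 * (u + x)) +
      RE κ M a (c - x) - (2 + (N + M + a + c)) := by linarith
  obtain ⟨a1, a2, a3⟩ := A0_lt g1
  clear g1 hcon h0
  unfold RE at a1 a2 a3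
  have hb := bm_cases (κ := κ) (M := M) (c := c - x) (by linarith)
  rcases hb with ⟨p3, p3'⟩ | ⟨p3, p3', p3''⟩ | ⟨p3, p3'⟩ <;>
  rcases hE with ⟨p4, p4'⟩ | ⟨p4, p4'⟩ <;> rcases hP' with ⟨p5, p5'⟩ | ⟨p5, p5'⟩ <;>
  rcases hx1 with p6 | ⟨p6, p6'⟩ <;> linarith

set_option maxHeartbeats 2000000 in
/-- the loss of `T₂` is allowed when `N > 4/5` -/
theorem e2_le {r N M u a c : ℝ} (B : Box5 r N M u a c) (hr : r ≤ 9 / 8) (ha : a ≤ 1 / 12)
    (h0 : NotAbs r N M u a c) (hN : 4 / 5 ≤ N) :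
    3 / 4 * max 0 (a + c - 7 / 9 * (1 - M)) + (5 / 4 * N - 1) ≤ A0 r (N + M + a) c := by
  obtain ⟨hu, hMN, hM1, hs, ha0, hc, hr1, hD, hP, hcr⟩ := B
  obtain ⟨E, P, hE, hP', c1, c2, c3⟩ := h0.cases hs
  by_contra hcon
  push Not at hcon
  obtain ⟨a1, a2, a3⟩ := A0_lt hcon
  rcases le_total 0 (a + c - 7 / 9 * (1 - M)) with h | h
  · rw [max_eq_right h] at a1 a2 a3
    rcases hE with ⟨p4, p4'⟩ | ⟨p4, p4'⟩ <;> rcases hP' with ⟨p5, p5'⟩ | ⟨p5, p5'⟩ <;> linarith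
  · rw [max_eq_left h] at a1 a2 a3
    rcases hE with ⟨p4, p4'⟩ | ⟨p4, p4'⟩ <;> rcases hP' with ⟨p5, p5'⟩ | ⟨p5, p5'⟩ <;> linarith

/-! ### the certificate with the tails -/

/-- as `alt` of helper918, keeping the properties of `x` -/
lemma alt' {r N M u a c x E : ℝ} (hx : Adm N c x) (hn : x = 0 ∨ x ≤ a + c - 7 / 9 * (1 - M))
    (hE : 3 / 4 * max 0 (a + c - x - 7 / 9 * (1 - M)) ≤ E)
    (h : A0 r (N + M + a) c < E + max 0 (max (5 / 4 * N - 1) (N + u - 1)) / 3 →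
      r ≤ 31 / 28 ∧ a ≤ 1 / 12 ∧
        E + max 0 (max (5 / 4 * N - 1) (2 * (N + M + a) + c - 3)) / 3 ≤ A0 r (N + M + a) c) :
    Abs N M u a c 0 (A0 r (N + M + a) c) ∨
      (r ≤ 31 / 28 ∧ a ≤ 1 / 12 ∧ ∃ x, Adm N c x ∧ (x = 0 ∨ x ≤ a + c - 7 / 9 * (1 - M)) ∧
        A0 r (N + M + a) c < 3 / 4 * max 0 (a + c - x - 7 / 9 * (1 - M)) +
          max 0 (max (5 / 4 * N - 1) (N + u - 1)) / 3 ∧
        LS N M a c x ≤ A0 r (N + M + a) c) := by
  rcases le_or_gt (3 / 4 * max 0 (a + c - x - 7 / 9 * (1 - M)) +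
      max 0 (max (5 / 4 * N - 1) (N + u - 1)) / 3) (A0 r (N + M + a) c) with h1 | h1
  · left
    exact ⟨x, hx, by unfold LA; linarith⟩
  · right
    obtain ⟨h2, h3, h4⟩ := h (by linarith)
    exact ⟨h2, h3, x, hx, hn, h1, by unfold LS; linarith⟩

/-- `cert0` of helper918 with the properties of `x` (same proof) -/
theorem cert0' {r N M u a c : ℝ} (B : Box5 r N M u a c) :
    Abs N M u a c 0 (A0 r (N + M + a) c) ∨
      (r ≤ 31 / 28 ∧ a ≤ 1 / 12 ∧ ∃ x, Adm N c x ∧ (x = 0 ∨ x ≤ a + c - 7 / 9 * (1 - M)) ∧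
        A0 r (N + M + a) c < 3 / 4 * max 0 (a + c - x - 7 / 9 * (1 - M)) +
          max 0 (max (5 / 4 * N - 1) (N + u - 1)) / 3 ∧
        LS N M a c x ≤ A0 r (N + M + a) c) := by
  obtain ⟨hu, hMN, hM1, hs, ha, hc, hr, hD, hP, hcr⟩ := B
  have hB : Box5 r N M u a c := ⟨hu, hMN, hM1, hs, ha, hc, hr, hD, hP, hcr⟩
  have hρ := rho_le hB
  rcases le_or_gt N (4 / 5) with hN | hN
  · -- `N ≤ 4/5`
    have m1 : max 0 (max (5 / 4 * N - 1) (N + u - 1)) = N + u - 1 := by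
      rw [max_eq_right (by linarith : 5 / 4 * N - 1 ≤ N + u - 1), max_eq_right (by linarith)]
    have m2 : max 0 (max (5 / 4 * N - 1) (2 * (N + M + a) + c - 3)) ≤
        max 0 (2 * (N + M + a) + c - 3) :=
      max_le (le_max_left _ _) (max_le ((by linarith : 5 / 4 * N - 1 ≤ 0).trans
        (le_max_left _ _)) (le_max_right _ _))
    rcases le_or_gt (a + c - 7 / 9 * (1 - M)) 0 with hn | hn
    · -- nothing to move
      refine alt' (x := 0) (E := 0) ⟨le_rfl, hc, Or.inl rfl⟩ (Or.inl rfl)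
        (by rw [max_eq_left (by linarith)]; simp) fun h => ?_
      rw [m1] at h
      obtain ⟨h0, h1, h2⟩ := A0_lt h
      exact ⟨by linarith, by linarith, by linarith⟩
    · rcases le_or_gt (a + c - 7 / 9 * (1 - M)) (min c (4 / 5 - N)) with hm | hm
      · have hm1 := hm.trans (min_le_left _ _)
        have hm2 := hm.trans (min_le_right _ _)
        refine alt' (x := a + c - 7 / 9 * (1 - M)) (E := 0) ⟨hn.le, hm1, Or.inr (by linarith)⟩
          (Or.inr le_rfl)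
          (by rw [max_eq_left (by linarith)]; simp) fun h => ?_
        rw [m1] at h
        obtain ⟨h0, h1, h2⟩ := A0_lt h
        exact ⟨by linarith, by linarith, by linarith⟩
      · rcases le_total c (4 / 5 - N) with hcN | hcN
        · rw [min_eq_left hcN] at hm
          refine alt' (x := c) (E := 3 / 4 * (a - 7 / 9 * (1 - M)))
            ⟨hc, le_rfl, Or.inr (by linarith)⟩ (Or.inr (by linarith))
            (by rw [max_eq_right (by linarith)]; linarith) fun h => ?_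
          rw [m1] at h
          obtain ⟨h0, h1, h2⟩ := A0_lt h
          exfalso
          linarith
        · rw [min_eq_right hcN] at hm
          refine alt' (x := 4 / 5 - N) (E := 3 / 4 * (a + c - (4 / 5 - N) - 7 / 9 * (1 - M)))
            ⟨by linarith, hcN, Or.inr (by linarith)⟩ (Or.inr (by linarith))
            (by rw [max_eq_right (by linarith)]) fun h => ?_
          rw [m1] at h
          obtain ⟨h0, h1, h2⟩ := A0_lt h
          refine ⟨by linarith, by linarith, ?_⟩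
          rcases le_total (2 * (N + M + a) + c - 3) 0 with h' | h'
          · rw [max_eq_left h'] at m2
            refine A0_ge fun ⟨k0, k1, k2⟩ => ?_
            linarith
          · rw [max_eq_right h'] at m2
            refine A0_ge fun ⟨k0, k1, k2⟩ => ?_
            linarith
  · -- `N > 4/5`
    have hx : Adm N c 0 := ⟨le_rfl, hc, Or.inl rfl⟩
    have m2 : max 0 (max (5 / 4 * N - 1) (2 * (N + M + a) + c - 3)) =
        max (5 / 4 * N - 1) (2 * (N + M + a) + c - 3) :=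
      max_eq_right ((by linarith : 0 ≤ 5 / 4 * N - 1).trans (le_max_left _ _))
    have m1 : max 0 (max (5 / 4 * N - 1) (N + u - 1)) =
        max (5 / 4 * N - 1) (N + u - 1) :=
      max_eq_right ((by linarith : 0 ≤ 5 / 4 * N - 1).trans (le_max_left _ _))
    rcases le_or_gt (a + c - 7 / 9 * (1 - M)) 0 with hn | hn
    · refine alt' (x := 0) (E := 0) hx (Or.inl rfl)
        (by rw [max_eq_left (by linarith)]; simp) fun h => ?_
      rw [m1] at h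
      rw [m2]
      obtain ⟨h0, h1, h2⟩ := A0_lt h
      have e1 : max (5 / 4 * N - 1) (N + u - 1) ≤ 4 / 3 * N - 1 :=
        max_le (by linarith) (by linarith)
      refine ⟨by linarith, by linarith, ?_⟩
      rcases le_total (5 / 4 * N - 1) (2 * (N + M + a) + c - 3) with h' | h'
      · rw [max_eq_right h']
        refine A0_ge fun ⟨k0, k1, k2⟩ => ?_
        linarith
      · rw [max_eq_left h']
        refine A0_ge fun ⟨k0, k1, k2⟩ => ?_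
        linarith
    · refine alt' (x := 0) (E := 3 / 4 * (a + c - 7 / 9 * (1 - M))) hx (Or.inl rfl)
        (by rw [max_eq_right (by linarith)]; linarith) fun h => ?_
      rw [m1] at h
      rw [m2]
      obtain ⟨h0, h1, h2⟩ := A0_lt h
      have e1 : max (5 / 4 * N - 1) (N + u - 1) ≤ 4 / 3 * N - 1 :=
        max_le (by linarith) (by linarith)
      refine ⟨by linarith, by linarith, ?_⟩
      rcases le_total (5 / 4 * N - 1) (2 * (N + M + a) + c - 3) with h' | h'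
      · rw [max_eq_right h']
        refine A0_ge fun ⟨k0, k1, k2⟩ => ?_
        linarith
      · rw [max_eq_left h']
        refine A0_ge fun ⟨k0, k1, k2⟩ => ?_
        linarith

/-- loss of the second side (`x` taken away) -/
def L2 (d M a c x : ℝ) : ℝ := 3 / 4 * max 0 (a + c - x - 7 / 9 * (1 - M)) + 2 * d * (a + c - x)

/-- everything the assembly of R8 needs at one near-equal box, with the same `x`; `A` = allowed
two-sided loss (`Al d r q c - d/2`) -/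
structure Tl (d N M u a c x A : ℝ) : Prop where
  adm : Adm N c x
  need : x = 0 ∨ x ≤ a + c - 7 / 9 * (1 - M)
  N85 : N ≤ 17 / 20
  /-- exact square, `e ≤ K^{1/20}` -/
  sq : LS N M a c x + 2 * d * (a + c) ≤ A
  /-- `∑ |St B|` (natural triple in `St`, levels `≤ 2N-1`; `B` : `{u₁,u₂}, V | a, c`) -/
  T1 : ∀ κ, 0 ≤ κ → κ ≤ 17 / 20 →
    2 / 3 * (1 - κ) + (min (GP κ (2 * N - 1) N u + RE κ M a c)
      (GH κ (2 * N - 1) N (bm κ M c) + (κ + M + a + (c - bm κ M c) + 3 / 4 * a)) +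
        2 * d * (a + c)) ≤ 2 + (N + M + a + c) + A
  /-- cross term of the square, `κ ≥ n - (3/4) u₅`, `n = N + x` -/
  T2 : ∀ κ, κ ≤ 17 / 20 →
    (1 - κ) / 3 + (GP κ (2 * (N + x) - 1) (N + x) (u + x) +
      (2 / 3 * κ + 4 / 3 * (N + x) + u / 2 + 16 / 5 * d * (u + x))) / 2 + L2 d M a c x ≤
        1 + (N + x) + A
  T2l : ∀ κ, 0 ≤ κ → κ ≤ (N + x) - 3 / 4 * u →
    (1 - κ) / 3 + (GH κ (2 * (N + x) - 1) (N + x) (u + x) + (κ + (N - u))) / 2 +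
      L2 d M a c x ≤ 1 + (N + x) + A
  /-- `∑ |α̂₁ A₁ B|` -/
  T3 : ∀ κ, κ ≤ 17 / 20 →
    2 / 3 * (1 - κ) + (2 / 3 * κ + 4 / 3 * (N + x) + u / 2 + 16 / 5 * d * (u + x)) +
      (RE κ M a (c - x) + 2 * d * (a + c - x)) ≤ 2 + (N + M + a + c) + A
  T3l : ∀ κ, κ ≤ (N + x) - 3 / 4 * u →
    2 / 3 * (1 - κ) + (κ + (N + x) + (3 / 4 + 2 * d) * (u + x)) +
      (RE κ M a (c - x) + 2 * d * (a + c - x)) ≤ 2 + (N + M + a + c) + A
  /-- hypotheses of `gram_H` -/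
  gr : ∀ κ, κ ≤ 17 / 20 → 2 * κ + 3 * (u + x) ≤ 3 * (N + x) + (2 * (N + x) - 1)
  gr0 : ∀ κ, κ ≤ 17 / 20 → 2 * κ + 3 * u ≤ 3 * N + (2 * N - 1)

set_option maxHeartbeats 2000000 in
/-- the certificate with the tails, `d = 0` majorants -/
theorem tails_aux {d r N M u a c x : ℝ} (hd : 0 ≤ d) (B : Box5 r N M u a c)
    (hr : r ≤ 31 / 28) (ha : a ≤ 1 / 12) (hx : Adm N c x)
    (hn : x = 0 ∨ x ≤ a + c - 7 / 9 * (1 - M))
    (h0 : A0 r (N + M + a) c < 3 / 4 * max 0 (a + c - x - 7 / 9 * (1 - M)) +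
      max 0 (max (5 / 4 * N - 1) (N + u - 1)) / 3)
    (hS : LS N M a c x ≤ A0 r (N + M + a) c) :
    Tl d N M u a c x (Al d r (N + M + a) c - 1 / 2 * d) := by
  have hA := Al_slack hd B (by linarith : r ≤ 3 / 2)
  have hT : AdmT N M a c x := by
    refine ⟨hx.1, hx.2.1, ?_⟩
    rcases hx.2.2 with h | h
    · exact Or.inl h
    · rcases hn with h' | h'
      · exact Or.inl h'
      · exact Or.inr ⟨h, h'⟩
  have hx0 := hx.1
  have hxc := hx.2.1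
  have h00 : NotAbs r N M u a c := by
    unfold NotAbs
    refine lt_of_lt_of_le h0 ?_
    have : max 0 (a + c - x - 7 / 9 * (1 - M)) ≤ max 0 (a + c - 7 / 9 * (1 - M)) :=
      max_le_max le_rfl (by linarith)
    linarith
  have hN85 : N ≤ 17 / 20 := by
    obtain ⟨hu, hMN, hM1, hs, ha0, hc, hr1, hD, hP, hcr⟩ := B
    obtain ⟨E, P, hE, hP', c1, c2, c3⟩ := h00.cases hs
    by_contra hcon
    push Not at hcon
    rcases hE with ⟨p4, p4'⟩ | ⟨p4, p4'⟩ <;> rcases hP' with ⟨p5, p5'⟩ | ⟨p5, p5'⟩ <;> linarith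
  have hL : 3 / 4 * max 0 (a + c - x - 7 / 9 * (1 - M)) + e2 N ≤ A0 r (N + M + a) c := by
    rcases le_or_gt N (4 / 5) with h | h
    · have : e2 N = 0 := max_eq_left (by linarith)
      rw [this]
      unfold LS at hS
      have := le_max_left 0 (max (5 / 4 * N - 1) (2 * (N + M + a) + c - 3))
      linarith
    · have hx00 : x = 0 := by
        rcases hx.2.2 with h' | h'
        · exact h'
        · linarith
      have : e2 N = 5 / 4 * N - 1 := max_eq_right (by linarith)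
      rw [this, hx00, sub_zero]
      exact e2_le B (by linarith) ha h00 h.le
  have hu1 : u ≤ 17 / 60 := by linarith [B.u5]
  have hx1 : x ≤ 1 / 20 := by
    rcases hx.2.2 with h | h
    · linarith
    · have := B.u5; have := B.sig; linarith
  have q1 : d * u ≤ d * (17 / 60) := mul_le_mul_of_nonneg_left hu1 hd
  have q2 : d * x ≤ d * (1 / 20) := mul_le_mul_of_nonneg_left hx1 hd
  have q3 : 0 ≤ d * x := mul_nonneg hd hx0
  have hu0 : 0 ≤ u := by have := B.u5; have := B.MN; have := B.M1; have := B.sig; linarith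
  have q4 : 0 ≤ d * u := mul_nonneg hd hu0
  refine ⟨hx, hn, hN85, by linarith, ?_, ?_, ?_, ?_, ?_, ?_, ?_⟩
  · intro κ k0 k1
    have := T1_le B (by linarith) ha h00 k0 k1
    linarith
  · intro κ k1
    have := T2_le B hT hN85 k1
    unfold L2
    linarith
  · intro κ k0 k1
    have := T2_low B (by linarith) ha h0 hT k0 k1
    unfold L2
    linarith
  · intro κ k1
    have := T3_le B (by linarith) ha h00 hT k1
    linarith
  · intro κ k1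
    have := T3_low B (by linarith) ha h00 hT k1
    linarith
  · intro κ k1
    have := B.u5; have := B.sig
    linarith
  · intro κ k1
    have := B.u5; have := B.sig
    linarith

/-- **the certificate with the tails** : every near-equal box closes absolutely, or
(`r ≤ 31/28`, `a ≤ 1/12`) by the exact square with cut `K^{1/20}`, tails included -/
theorem tails {d r N M u a c : ℝ} (hd : 0 ≤ d) (hd1 : d ≤ 1 / 8) (B : Box5 r N M u a c) :
    Abs N M u a c (2 * d * (a + c)) (Al d r (N + M + a) c - 3 / 2 * d) ∨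
    (r ≤ 31 / 28 ∧ a ≤ 1 / 12 ∧
      ∃ x, Tl d N M u a c x (Al d r (N + M + a) c - 1 / 2 * d)) := by
  rcases le_or_gt r (3 / 2) with hr | hr
  · have hA := Al_slack hd B hr
    rcases cert0' B with h | ⟨h1, h2, x, h3, h4, h5, h6⟩
    · exact Or.inl (h.mono (by linarith))
    · exact Or.inr ⟨h1, h2, x, tails_aux hd B h1 h2 h3 h4 h5 h6⟩
  · exact Or.inl (cert_big hd hd1 B hr.le)

end Crest.Agent.R017.R8T70
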