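import Crest.Agent.R017.XG4_702
import Crest.Agent.R017.ExpC_702
import Crest.Agent.R017.BxE3_986
import Crest.Agent.R017.Cone2_59

/-!
# Row 17, D.FIN: from the box inequality to `TopC` (helper702)

* `BoxAll θ μ 𝒜 bx` : the box inequality (base `K₀`, families `κ ≥ 1/10`)
* `topC_702 : BoxAll θ μ 𝒜 (ex Dq Bc) → TopC θ (1/3) μ' 𝒜 π h`
-/

set_option autoImplicit false

noncomputable section

open Complex
open scoped ComplexConjugate

namespace Crest.Agent.R017.TopC702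

open Crest.Agent.R012 Crest.Agent.R012.Eis Crest.Agent.R012.LS2
open Crest.Agent.R017.CM106 Crest.Agent.R017.End699 Crest.Agent.R017.FE47
open Crest.Agent.R017.ER911 Crest.Agent.R017.B770
open Crest.Agent.R017.Prov71
open Crest.Agent.R017.XG702 (Pcs BG tot topA)
open Crest.Agent.R017.XHB411
open Crest.Agent.R017.HP842 (UT Pc pc)
open Crest.Agent.R017.Cone59 (Tg Tg2 Tg2_eq)
open Crest.Agent.R017.BxE986 (allowed TopC)
open Crest.Agent.R017.ExpC702
open Crest.Agent.R012.CR2 (card_bl_le)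

/-- **the box inequality**, all configurations in base `K₀` -/
def BoxAll (θ μ : ℝ) (𝒜 : ∀ n, Set (ℝ × (Fin n → ℝ))) (bx : EF) : Prop :=
  ∀ (N : ℕ) (u : Fin N → ℝ) (κ m a : ℝ), (∀ j, 0 < u j) → 0 ≤ m → 0 ≤ a → 1 / 10 ≤ κ → κ ≤ 1 →
    (∑ j, u j) + m ≤ 4 / 3 → a ≤ 1 / 3 → (∑ j, u j) + m - a ≤ 1 → (κ, u) ∈ 𝒜 N →
    bx κ (Finset.univ.val.map u) m a ≤ Tg2 θ κ ((∑ j, u j) + m) a - μ

/-! ### a trivial bound for one piece -/

theorem norm_CS_pc_le {h : ℝ → ℝ} {c : ℝ} (hpu : PU h c) : ∃ C : ℝ, 1 ≤ C ∧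
    ∀ (p : HP842.Pc) (k : Eis), p.OK → ‖CS (pc h p) k‖ ≤ C * p.Y := by
  obtain ⟨R, hR0, hR⟩ := FE47.exists_R (FE47.cs_cx hpu.cs)
  obtain ⟨H1, hH1⟩ := (FE47.cs_cx hpu.cs).exists_bound_of_continuous (FE47.cd_cx hpu.cd).continuous
  set H0 : ℝ := max 1 H1 with hH0d
  have hH01 : 1 ≤ H0 := le_max_left _ _
  have hH0 : 0 < H0 := by linarith
  have hH : ∀ u, ‖cx h u‖ ≤ H0 := fun u => (hH1 u).trans (le_max_right _ _)
  have hR1 : 1 ≤ Real.exp R := Real.one_le_exp hR0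
  refine ⟨H0 * (16 * Real.exp R), by nlinarith, fun p k hp => ?_⟩
  have hcls := Cf_pc hH0 hH hR hp
  set α : Eis → ℂ := fun b => ((H0⁻¹ : ℝ) : ℂ) * pc h p b with hα
  set W := Real.exp R * p.Y with hW
  have hW0 : 0 ≤ W := by have := hp.Y0; positivity
  have h1 : CS (pc h p) k = (H0 : ℂ) * CS α k := by
    rw [hα, TPD813.CS_smul, ← mul_assoc, ← Complex.ofReal_mul, mul_inv_cancel₀ hH0.ne']
    simp
  have h2 : ‖CS α k‖ ≤ 16 * W := by
    unfold CM106.CS
    have hs : ∑' n : Eis, α n * sy k n = ∑ n ∈ bl W, α n * sy k n := by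
      refine tsum_eq_sum fun n hn => ?_
      have : α n = 0 := by
        by_contra h0
        apply hn
        rw [mem_bl hW0]
        exact ⟨(hcls.fs.prim n h0).ne_zero, hcls.supp n h0⟩
      rw [this, zero_mul]
    rw [hs]
    refine (norm_sum_le _ _).trans ?_
    calc ∑ n ∈ bl W, ‖α n * sy k n‖ ≤ ∑ _n ∈ bl W, (1 : ℝ) := by
          refine Finset.sum_le_sum fun n _ => ?_
          by_cases h0 : α n = 0
          · rw [h0]; simp
          · rw [norm_mul]
            have e1 := hcls.bd n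
            rw [pow_zero] at e1
            have e2 : ‖sy k n‖ ≤ 1 := norm_sy_le' (hcls.fs.prim n h0)
            calc ‖α n‖ * ‖sy k n‖ ≤ 1 * 1 := by gcongr
              _ = 1 := one_mul 1
      _ = ((bl W).card : ℝ) := by simp
      _ ≤ 16 * W := card_bl_le hW0
  rw [h1, norm_mul, Complex.norm_real, Real.norm_of_nonneg hH0.le]
  calc H0 * ‖CS α k‖ ≤ H0 * (16 * W) := mul_le_mul_of_nonneg_left h2 hH0.le
    _ = _ := by rw [hW]; ring

theorem Bc_cons {P : DPar} (hP : P.OK) {h : ℝ → ℝ} {C : ℝ}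
    (hC : ∀ (p : HP842.Pc) (k : Eis), p.OK → ‖CS (pc h p) k‖ ≤ C * p.Y) (l : ℝ) (p : Pq)
    (ps : List Pq) : Bc P h l (p :: ps) ≤ C * Real.exp (Dq.len p) * Bc P h l ps := by
  classical
  unfold Bc BQ
  rw [Finset.mul_sum]
  refine Finset.sum_le_sum fun k _ => ?_
  rw [List.map_cons, List.map_cons, List.prod_cons]
  refine mul_le_mul_of_nonneg_right (hC _ k (Pq.ok hP p)) (List.prod_nonneg ?_)
  intro x hx
  obtain ⟨q, _, rfl⟩ := List.mem_map.1 hx
  positivity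

lemma Bc_nonneg (P : DPar) (h : ℝ → ℝ) (l : ℝ) (ps : List Pq) : 0 ≤ Bc P h l ps :=
  BQ_nonneg _ _ _ _

/-! ### exponents -/

/-- homogeneity of `ex` -/
theorem ex_scale {Pc Lam : Type*} {D : Pcs Pc Kd} {Ψ : Lam → ℝ → List Pc → ℝ} (hΨ : Pinv Ψ)
    (ht : Triv D Ψ) {κ : ℝ} {u : List ℝ} {m a c : ℝ} (hκ : 0 ≤ κ) (hu : Okl u m a) (hc : 0 < c) :
    ex D Ψ (c * κ) (u.map (c * ·) : List ℝ) (c * m) (c * a) ≤ c * ex D Ψ κ (u : List ℝ) m a := by
  have h1 := (ex_spec hΨ ht hκ hu).scale hc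
  have h2 : (fun t => c * wt m a t) = wt (c * m) (c * a) := by
    funext t; cases t <;> rfl
  rw [h2] at h1
  exact ex_le hΨ (mul_nonneg hc.le (ex_nonneg _ _ _ _)) h1

/-- SUP for everything -/
theorem bx_sup {θ : ℝ} {r bx : EF} (B : ExpBox θ r bx) {κ : ℝ} (hκ : 0 ≤ κ) (Y : Multiset ℝ)
    (hY : ∀ y ∈ Y, 0 ≤ y) {m a : ℝ} (hm : 0 ≤ m) (ha : 0 ≤ a) :
    bx κ Y m a ≤ κ + θ * (Y.sum + m + a) := by
  have h0 : bx κ 0 0 0 ≤ κ := by
    have := B.outer 0 (fun _ => 0) κ 0 0 κ hκ (fun j => le_rfl) le_rfl le_rfl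
      (fun x om al _ h1 h2 => Or.inr (by
        simp only [Finset.univ_eq_empty, Finset.sum_empty, mul_zero] at h1 h2 ⊢
        linarith))
    simpa using this
  have h1 : ∀ Y : Multiset ℝ, (∀ y ∈ Y, 0 ≤ y) → bx κ Y 0 0 ≤ κ + θ * Y.sum := by
    intro Y
    induction Y using Multiset.induction_on with
    | empty => intro _; simpa using h0
    | cons y Y ih =>
      intro hY
      have hY' : ∀ z ∈ Y, 0 ≤ z := fun z hz => hY z (Multiset.mem_cons_of_mem hz)
      have h2 := B.supS κ y Y 0 0 hκ (hY y (Multiset.mem_cons_self y Y)) ⟨hY', le_rfl, le_rfl⟩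
      have h3 := ih hY'
      rw [Multiset.sum_cons]
      linarith
  have h2 := B.sup κ Y m a m a hκ ⟨hY, hm, ha⟩ hm le_rfl ha le_rfl
  rw [sub_self, sub_self] at h2
  have h3 := h1 Y hY
  linarith

lemma Tg2_cont (θ : ℝ) : Continuous fun p : ℝ × (Kd → ℝ) => Tg2 θ p.1 (p.2 .mo) (p.2 .am) := by
  unfold Cone59.Tg2
  have h1 : Continuous fun p : ℝ × (Kd → ℝ) => p.2 Kd.mo :=
    (continuous_apply _).comp continuous_snd
  have h2 : Continuous fun p : ℝ × (Kd → ℝ) => p.2 Kd.am :=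
    (continuous_apply _).comp continuous_snd
  fun_prop

lemma Tg2_mono {θ : ℝ} (hθ : 0 ≤ θ) {κ q q' c : ℝ} (h : q' ≤ q) : Tg2 θ κ q' c ≤ Tg2 θ κ q c := by
  unfold Cone59.Tg2
  have h1 : θ * (q' - 4 / 3) ≤ θ * (q - 4 / 3) := mul_le_mul_of_nonneg_left (by linarith) hθ
  gcongr

/-- the domain -/
def Dom : Set (ℝ × (Kd → ℝ)) :=
  {p | 0 ≤ p.1 ∧ p.1 ≤ 1 ∧ 0 ≤ p.2 .mo ∧ p.2 .mo ≤ 4 / 3 ∧ 0 ≤ p.2 .am ∧ p.2 .am ≤ 1 / 3 ∧
    p.2 .mo - p.2 .am ≤ 1}

lemma Dom_compact : IsCompact Dom := by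
  have hmo : Continuous fun p : ℝ × (Kd → ℝ) => p.2 Kd.mo :=
    (continuous_apply _).comp continuous_snd
  have ham : Continuous fun p : ℝ × (Kd → ℝ) => p.2 Kd.am :=
    (continuous_apply _).comp continuous_snd
  rw [Metric.isCompact_iff_isClosed_bounded]
  constructor
  · refine (isClosed_le continuous_const continuous_fst).inter
      ((isClosed_le continuous_fst continuous_const).inter
      ((isClosed_le continuous_const hmo).inter ((isClosed_le hmo continuous_const).inter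
      ((isClosed_le continuous_const ham).inter ((isClosed_le ham continuous_const).inter
      (isClosed_le (hmo.sub ham) continuous_const))))))
  · refine (Metric.isBounded_closedBall (x := (0 : ℝ × (Kd → ℝ))) (r := 2)).subset ?_
    rintro p ⟨h1, h2, h3, h4, h5, h6, _⟩
    rw [mem_closedBall_zero_iff, Prod.norm_def]
    refine max_le ?_ ?_
    · rw [Real.norm_eq_abs, abs_of_nonneg h1]; linarith
    · rw [pi_norm_le_iff_of_nonneg (by norm_num)]
      intro t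
      cases t
      · rw [Real.norm_eq_abs, abs_of_nonneg h3]; linarith
      · rw [Real.norm_eq_abs, abs_of_nonneg h5]; linarith

variable {Lam : Type*} {π : Lam → DPar} {h : ℝ → ℝ}

/-- **`TopC` from the box inequality** -/
theorem topC_702 {θ : ℝ} (hθ : 1 / 2 < θ) (hθ1 : θ ≤ 1) (hPF : PF Set.univ θ)
    {c₀ : ℝ} (hpu : PU h c₀) (hP : ∀ lam, (π lam).OK) {𝒜 : ∀ n, Set (ℝ × (Fin n → ℝ))}
    (hA : ∀ n, IsClosed (𝒜 n)) {μ μ' : ℝ} (hμ : μ ≤ 1 / 12) (hμ' : μ' < μ)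
    (H : BoxAll θ μ 𝒜 (ex Dq (fun lam => Bc (π lam) h))) : TopC θ (1 / 3) μ' 𝒜 π h := by
  have B := expBoxC_702 (π := π) hθ hθ1 hPF hpu hP
  set bx := ex Dq (fun lam => Bc (π lam) h) with hbx
  have htriv : Triv Dq (fun lam => Bc (π lam) h) := triv_BQ hP hpu (fun lam => (π lam).NP2)
  obtain ⟨C, hC1, hC⟩ := norm_CS_pc_le hpu
  have hbox : ∀ (κ : ℝ) (u : List ℝ) (w : Kd → ℝ), (∀ x ∈ u, 0 < x) → (∀ t, 0 ≤ w t) →
      (κ, tot Kd.mo u.sum w) ∈ Dom → (κ, u.get) ∈ 𝒜 u.length →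
      BG Dq (fun lam => Bc (π lam) h) κ u w
        (Tg2 θ κ (tot Kd.mo u.sum w .mo) (tot Kd.mo u.sum w .am) - μ) := by
    intro κ u w hu hw hD hAl
    obtain ⟨h1, h2, h3, h4, h5, h6, h7⟩ := hD
    simp only [XG702.tot_same] at h1 h2 h3 h4 h5 h6 h7
    have e2 : tot Kd.mo u.sum w Kd.am = w .am := XG702.tot_ne (by decide) _ _
    rw [e2] at h5 h6 h7
    simp only [XG702.tot_same, e2]
    have hwt : w = wt (w .mo) (w .am) := by funext t; cases t <;> rfl
    have hokl : Okl u (w .mo) (w .am) := ⟨fun y hy => (hu y hy).le, hw _, hw _⟩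
    have hgoal : bx κ (u : Multiset ℝ) (w .mo) (w .am) ≤
        Tg2 θ κ (w .mo + u.sum) (w .am) - μ := by
      rcases le_or_gt κ (1 / 10) with hκ | hκ
      · have hs := bx_sup B h1 (u : Multiset ℝ) (fun y hy => (hu y (by simpa using hy)).le)
          (hw .mo) (hw .am)
        refine hs.trans ?_
        rw [Multiset.sum_coe]
        have h8 : (2 / 3 + θ * (4 / 3)) + ((κ - 1) / 6 + θ * (w .mo + u.sum - 4 / 3) +
            θ * (w .am - 1 / 3)) ≤ Tg2 θ κ (w .mo + u.sum) (w .am) := by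
          unfold Cone59.Tg2
          gcongr
          exact (le_max_right _ _).trans (le_max_right _ _)
        nlinarith
      · have hg := H u.length u.get κ (w .mo) (w .am) (fun j => hu _ (List.get_mem u j)) (hw _)
          (hw _) hκ.le h2
        have e3 : ∑ j, u.get j = u.sum := by
          rw [← List.sum_ofFn, List.ofFn_get]
        have e4 : Finset.univ.val.map u.get = (u : Multiset ℝ) := by
          rw [← coe_ofFn, List.ofFn_get]
        rw [e3, e4] at hg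
        have hg' := hg (by linarith) h6 (by linarith) hAl
        rw [add_comm u.sum] at hg'
        exact hg'
    rw [hwt]
    exact BG_of_ex (pinv_Bc π h) htriv h1 hokl hgoal
  obtain ⟨δ, hδ, K⟩ := topA (D := Dq) (Ψ := fun lam => Bc (π lam) h) Kd.mo
    (fun lam l ps => Bc_nonneg _ _ _ _) (pinv_Bc π h)
    (fun p => by simp only [Dq_s1]; positivity)
    (fun lam => ⟨C, 0, hC1, fun l p ps => by
      rw [pow_zero, mul_one]
      exact Bc_cons (hP lam) hC l p ps⟩)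
    (fun p hp => ((Dq_lump p).1 hp).1) (Dom := Dom) Dom_compact
    (by
      rintro q ⟨_, _, h3, _, h5, _, _⟩ t
      cases t
      · exact h3
      · exact h5)
    (by
      rintro q ⟨h1, h2, h3, h4, h5, h6, h7⟩ b hb0 hb1
      refine ⟨h1, h2, ?_, ?_, ?_, ?_, ?_⟩
      all_goals simp
      · exact hb1
      · linarith
      · exact h5
      · simpa using h6
      · linarith)
    (T := fun p => Tg2 θ p.1 (p.2 .mo) (p.2 .am)) (Tg2_cont θ)
    (by
      rintro q _ b hb0 hb1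
      simp only [Function.update_self, ne_eq, reduceCtorEq, not_false_eq_true,
        Function.update_of_ne]
      exact Tg2_mono (by linarith) (by linarith))
    (μ := μ) (Al := 𝒜) hA hbox (μ' := μ') hμ'
  refine ⟨δ, hδ, fun lam N B' => ?_⟩
  obtain ⟨δ', hδ', X₀, hX₀, K'⟩ := K lam N B'
  refine ⟨δ', hδ', X₀, hX₀, ?_⟩
  intro X hX k ps hlen hps hall hh q c h1 h2 h3 h4 h5 h6 h7 hk hq hc hgood
  have key := K' X hX k ps hlen hps (hh, wt q c)
    ⟨h1, h2, h3, by simp only [wt]; linarith, h5, h6, by simp only [wt]; linarith⟩ hk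
    (by
      intro t
      cases t
      · exact hq
      · exact hc) hgood
    (by
      rintro us ⟨l, hl1, hl2⟩ hl
      obtain ⟨gs, hgs⟩ := hl2.exists_perm_append
      exact hall us gs (hgs.trans (hl1.append_right gs)) hl)
  rw [← Tg2_eq]
  exact key

end Crest.Agent.R017.TopC702
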