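import Crest.Agent.R017.UBR_61
import Crest.Agent.R017.TopC_702
import Crest.Agent.R017.R8Side_918
import Crest.Agent.R017.R8Tail_70

/-!
# Row 17, R8 / E4 at list level: second moments of the two-lump side (helper61)

* `Y2` : base datum (family, two marked lumps), `S2` its exponent vector
* `YMF π h` : second moment over the complete family of `{u₁,u₂} + list`
* `ym_of` : `UB` from an inequality for the exponent function `rc`
* `EA`, `EB`, `EHb` : closed forms; `rc_EA`, `rc_EB`, `rc_EH`, and the corresponding `UB`s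
-/

set_option autoImplicit false

noncomputable section

open Set

namespace Crest.Agent.R017.YM61

open Crest.Agent.R012 Crest.Agent.R012.Eis
open Crest.Agent.R017.FE47 (PU)
open Crest.Agent.R017.CM106
open Crest.Agent.R017.R8T70 (tf0)
open Crest.Agent.R017.XG702 (Pcs BG)
open Crest.Agent.R017.XT71 (Sys Win)
open Crest.Agent.R017.E5B71 (UB)
open Crest.Agent.R017.Prov71
open Crest.Agent.R017.B770
open Crest.Agent.R017.ER911 Crest.Agent.R017.SC777 Crest.Agent.R017.ExpC702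
open Crest.Agent.R017.HP842 (Pc pc)
open Crest.Agent.R017.UBR61

variable {Λ : Type*} {π : Λ → DPar} {h : ℝ → ℝ}

/-- base datum: family and two marked lumps -/
structure Y2 where
  l : ℝ
  u₁ : Pq
  u₂ : Pq

/-- the marked pieces are lumps of nonnegative length -/
def Y2.ok (a : Y2) : Prop := (Dq.lump a.u₁ ∧ 0 ≤ a.u₁.z) ∧ (Dq.lump a.u₂ ∧ 0 ≤ a.u₂.z)

/-- exponent vector `(κ, u₁, u₂)` -/
def S2 : Sys Y2 (Fin 3) where
  ev X a := ![a.l / Real.log X, a.u₁.z / Real.log X, a.u₂.z / Real.log X]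
  g _ := 1
  n _ := 0
  s₁ a := max (1 + |a.u₁.t|) (1 + |a.u₂.t|)
  s₂ a := max (nm a.u₁.d) (nm a.u₂.d)

/-- **second moment of `{u₁,u₂} + ps`**, complete family -/
def YMF (π : Λ → DPar) (h : ℝ → ℝ) : Λ → Y2 → List Pq → ℝ :=
  mkF (fun _ a => a.ok) (fun lam => Rc (π lam) h) (fun _ a => a.l) (fun _ a => [a.u₁, a.u₂])

/-- marked families with a shift `c lam` of the family -/
def YMFs (π : Λ → DPar) (h : ℝ → ℝ) (c : Λ → ℝ) : Λ → Y2 → List Pq → ℝ :=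
  mkF (fun _ a => a.ok) (fun lam => Rc (π lam) h) (fun lam a => a.l + c lam)
    (fun _ a => [a.u₁, a.u₂])

lemma mk_ok (c : Λ → ℝ) : MkOK S2 Dq (fun (_ : Λ) (a : Y2) => a.ok) (fun lam a => a.l + c lam)
    (fun _ a => [a.u₁, a.u₂]) 0 [1, 2] where
  ok lam := by
    refine ⟨1 + |c lam|, by linarith [abs_nonneg (c lam)], fun a ha X hX => ?_⟩
    have hX0 : Real.log X ≠ 0 := (Real.log_pos hX).ne'
    have hc := abs_nonneg (c lam)
    refine ⟨?_, List.Forall₂.cons ?_ (List.Forall₂.cons ?_ List.Forall₂.nil)⟩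
    · have : a.l + c lam - S2.ev X a 0 * Real.log X = c lam := by
        simp only [S2, Matrix.cons_val_zero]
        rw [div_mul_cancel₀ _ hX0]; ring
      rw [this]; linarith
    · have e : Dq.len a.u₁ - S2.ev X a 1 * Real.log X = 0 := by
        simp only [S2, Matrix.cons_val_one, Matrix.cons_val_zero, Dq_len]
        rw [div_mul_cancel₀ _ hX0]; ring
      refine ⟨ha.1.1, by rw [e, abs_zero]; linarith, ha.1.2, ?_, ?_⟩
      · have h1 : Dq.s1 a.u₁ ≤ S2.s₁ a := le_max_left _ _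
        have h2 : 0 ≤ Dq.s1 a.u₁ := by simp only [Dq_s1]; positivity
        nlinarith
      · have h1 : Dq.s2 a.u₁ ≤ S2.s₂ a := le_max_left _ _
        have h2 : 0 ≤ Dq.s2 a.u₁ := by simp only [Dq_s2]; exact Nat.cast_nonneg _
        nlinarith
    · have e : Dq.len a.u₂ - S2.ev X a 2 * Real.log X = 0 := by
        simp only [S2, Matrix.cons_val, Dq_len]
        rw [div_mul_cancel₀ _ hX0]; ring
      refine ⟨ha.2.1, by rw [e, abs_zero]; linarith, ha.2.2, ?_, ?_⟩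
      · have h1 : Dq.s1 a.u₂ ≤ S2.s₁ a := le_max_right _ _
        have h2 : 0 ≤ Dq.s1 a.u₂ := by simp only [Dq_s1]; positivity
        nlinarith
      · have h1 : Dq.s2 a.u₂ ≤ S2.s₂ a := le_max_right _ _
        have h2 : 0 ≤ Dq.s2 a.u₂ := by simp only [Dq_s2]; exact Nat.cast_nonneg _
        nlinarith

/-- one piece removed from a second moment -/
theorem Rc_cons {P : DPar} (hP : P.OK) {h : ℝ → ℝ} {C : ℝ}
    (hC : ∀ (p : HP842.Pc) (k : Eis), p.OK → ‖CS (pc h p) k‖ ≤ C * p.Y) (l : ℝ) (p : Pq)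
    (ps : List Pq) : Rc P h l (p :: ps) ≤ C ^ 2 * Real.exp (2 * Dq.len p) * Rc P h l ps := by
  classical
  unfold Rc RQ
  rw [Finset.mul_sum]
  refine Finset.sum_le_sum fun k _ => ?_
  rw [List.map_cons, List.map_cons, List.prod_cons]
  refine mul_le_mul_of_nonneg_right ?_ (List.prod_nonneg ?_)
  · have h1 := hC _ k (Pq.ok hP p)
    calc ‖CS (pc h (p.pc P)) k‖ ^ 2 ≤ (C * (p.pc P).Y) ^ 2 :=
          pow_le_pow_left₀ (norm_nonneg _) h1 2
      _ = C ^ 2 * Real.exp (2 * Dq.len p) := by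
          rw [Pq.pc_Y, Dq_len, mul_pow, ← Real.exp_nat_mul]; push_cast; rfl
  · intro x hx
    obtain ⟨q, _, rfl⟩ := List.mem_map.1 hx
    positivity

/-- **`UB` of the second moments from an inequality for the exponents** -/
theorem ym_of {c₀ : ℝ} (hpu : PU h c₀) (hP : ∀ lam, (π lam).OK) (c : Λ → ℝ)
    {Dom : Set ((Fin 3 → ℝ) × (Kd → ℝ))} (hDom : IsCompact Dom)
    (hnn : ∀ q ∈ Dom, (∀ i, 0 ≤ q.1 i) ∧ ∀ t, 0 ≤ q.2 t)
    (hdown : ∀ q ∈ Dom, ∀ b, 0 ≤ b → b ≤ q.2 Kd.mo →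
      (q.1, Function.update q.2 Kd.mo (q.2 Kd.mo - b)) ∈ Dom)
    {E : (Fin 3 → ℝ) × (Kd → ℝ) → ℝ} (hE : Continuous E)
    (hEm : ∀ q ∈ Dom, ∀ b, 0 ≤ b → b ≤ q.2 Kd.mo →
      E (q.1, Function.update q.2 Kd.mo (q.2 Kd.mo - b)) ≤ E q)
    {al : Set ((Fin 3 → ℝ) × ℝ)} (hal : IsClosed al)
    (H : ∀ (p : Fin 3 → ℝ) (V : Multiset ℝ) (m a : ℝ), (∀ x ∈ V, 0 ≤ x) → 0 ≤ m → 0 ≤ a →
      (p, wt (V.sum + m) a) ∈ Dom → (∀ x ∈ V, (p, x) ∈ al) →
      ex Dq (fun lam => Rc (π lam) h) (p 0) (V + {p 1, p 2}) m a ≤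
        E (p, wt (V.sum + m) a)) :
    UB S2 Dq (YMFs π h c) Dom al E := by
  obtain ⟨C, hC1, hC⟩ := TopC702.norm_CS_pc_le hpu
  refine ub_of_ex2 (mk_ok c) (fun lam l ps => Rc_nonneg _ _ _ _) (pinv_Rc π h)
    (XHB411.triv_Rc hP hpu) (fun p => by simp only [Dq_s1]; positivity)
    (fun lam => ⟨C ^ 2, 0, one_le_pow₀ hC1, fun l p ps => by
      rw [pow_zero, mul_one]
      exact Rc_cons (hP lam) hC l p ps⟩)
    (fun p hp => ((Dq_lump p).1 hp).1) hDom (fun q hq => (hnn q hq).2)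
    (fun q hq => ⟨(hnn q hq).1 0, fun j _ => (hnn q hq).1 j⟩) hdown hE hEm hal ?_
  intro p u m a hu hm ha hD hA
  have e1 : ((([1, 2] : List (Fin 3)).map p ++ u : List ℝ) : Multiset ℝ) =
      (u : Multiset ℝ) + {p 1, p 2} := by
    rw [← Multiset.coe_add, add_comm]; rfl
  rw [e1]
  have := H p (u : Multiset ℝ) m a (fun x hx => (hu x (by simpa using hx)).le) hm ha
    (by simpa using hD) (fun x hx => hA x (by simpa using hx))
  simpa using this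

/-! ### closed forms -/

/-- excess of the amplifier in `{u₁,u₂ | c}` -/
def eC (κ M c : ℝ) : ℝ := max 0 (c - min (7 / 9 * max 0 (κ - M)) (max 0 (2 / 3 * κ - M / 3)))

/-- unmarked lumps and granular Möbius mass pointwise, `{u₁,u₂ | c}` by `side79a` -/
def EA (d κ M q c : ℝ) : ℝ := κ + M + q + c + 2 * d * (q + c) + 3 / 4 * (q + eC κ M c)

/-- `sideE` (helper918) -/
def EB (d κ M q c : ℝ) : ℝ :=
  κ + M + q + c + 2 * d * (q + c) + 3 / 4 * max 0 (q + c - 7 / 9 * (κ - M))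

/-- (HB) with the mass `b` dropped pointwise, `n` = total length -/
def EHb (d κ n b : ℝ) : ℝ :=
  (7 / 4 + 2 * d) * b + max (κ + (n - b)) (max (2 * (n - b) + κ / 3)
    ((n - b) + 2 / 3 * (κ + (n - b))))

lemma eC_nonneg (κ M c : ℝ) : 0 ≤ eC κ M c := le_max_left _ _

lemma eC_low {κ M c : ℝ} (h : κ ≤ M) (hc : 0 ≤ c) : eC κ M c = c := by
  unfold eC
  rw [max_eq_left (by linarith : κ - M ≤ 0), mul_zero, min_eq_left (le_max_left _ _), sub_zero,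
    max_eq_right hc]

lemma eC_ge1 {κ M c : ℝ} (h : M ≤ κ) : c - 7 / 9 * (κ - M) ≤ eC κ M c := by
  unfold eC
  refine le_trans ?_ (le_max_right _ _)
  have := min_le_left (7 / 9 * max 0 (κ - M)) (max 0 (2 / 3 * κ - M / 3))
  rw [max_eq_right (by linarith : 0 ≤ κ - M)] at this ⊢
  linarith

lemma eC_ge2 {κ M c : ℝ} (h : M ≤ κ) (hM : 0 ≤ M) : c - (2 / 3 * κ - M / 3) ≤ eC κ M c := by
  unfold eC
  refine le_trans ?_ (le_max_right _ _)
  have := min_le_right (7 / 9 * max 0 (κ - M)) (max 0 (2 / 3 * κ - M / 3))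
  rw [max_eq_right (by linarith : 0 ≤ 2 / 3 * κ - M / 3)] at this ⊢
  linarith

/-- `eC` is `7/9`-Lipschitz in the family -/
lemma eC_mono {κ κ' M c : ℝ} (h : κ' ≤ κ) : eC κ' M c ≤ eC κ M c + 7 / 9 * (κ - κ') := by
  have h0 := eC_nonneg κ M c
  have hmin : min (7 / 9 * max 0 (κ - M)) (max 0 (2 / 3 * κ - M / 3)) ≤
      min (7 / 9 * max 0 (κ' - M)) (max 0 (2 / 3 * κ' - M / 3)) + 7 / 9 * (κ - κ') := by
    rw [← min_add_add_right]
    refine min_le_min ?_ ?_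
    · have : max 0 (κ - M) ≤ max 0 (κ' - M) + (κ - κ') :=
        max_le (by have := le_max_left 0 (κ' - M); linarith)
          (by have := le_max_right 0 (κ' - M); linarith)
      linarith
    · refine max_le ?_ ?_
      · have := le_max_left 0 (2 / 3 * κ' - M / 3); linarith
      · have := le_max_right 0 (2 / 3 * κ' - M / 3); linarith
  have h1 : c - min (7 / 9 * max 0 (κ - M)) (max 0 (2 / 3 * κ - M / 3)) ≤ eC κ M c :=
    le_max_right _ _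
  have h2 : eC κ' M c = max 0 (c - min (7 / 9 * max 0 (κ' - M)) (max 0 (2 / 3 * κ' - M / 3))) :=
    rfl
  rw [h2]
  exact max_le (by linarith) (by linarith)

lemma ok_add {V : Multiset ℝ} {u₁ u₂ m c : ℝ} (hV : ∀ y ∈ V, 0 ≤ y) (h1 : 0 ≤ u₁)
    (h2 : 0 ≤ u₂) (hm : 0 ≤ m) (hc : 0 ≤ c) : Ok (V + {u₁, u₂}) m c := by
  refine ⟨fun y hy => ?_, hm, hc⟩
  rcases Multiset.mem_add.1 hy with h | h
  · exact hV y h
  · exact (ok_pair (m := 0) (a := 0) h1 h2 le_rfl le_rfl).1 y h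

variable {d : ℝ} {r s rc : EF}

/-- `{u₁,u₂ | c}` at any family -/
theorem pairA (R : ExpRules (7 / 8 + d) r s) (hd : 0 ≤ d) {κ u₁ u₂ c : ℝ} (hκ : 0 ≤ κ)
    (h1 : 0 ≤ u₁) (h2 : 0 ≤ u₂) (hc : 0 ≤ c) :
    r κ {u₁, u₂} 0 c ≤ κ + (u₁ + u₂) + c + 2 * d * c + 3 / 4 * eC κ (u₁ + u₂) c := by
  rcases le_total κ (u₁ + u₂) with h | h
  · have e2 := R.sup κ {u₁, u₂} 0 c 0 c hκ (ok_pair h1 h2 le_rfl hc) le_rfl le_rfl hc le_rfl
    rw [sub_self, sub_self] at e2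
    have e3 := tf0 R hκ h1 h2
    rw [eC_low h hc]
    linarith
  · have hM : 0 ≤ u₁ + u₂ := by linarith
    have g1 := eC_ge1 (c := c) h
    have g2 := eC_ge2 (c := c) h hM
    have e4 := side79a R hd (m := 0) (a := c) (e := eC κ (u₁ + u₂) c)
      h1 h2 le_rfl hc h (eC_nonneg _ _ _) (by linarith) (by linarith) hκ le_rfl (by linarith)
      (by linarith)
    linarith

/-- `V`, `m` pointwise -/
theorem pairVA (R : ExpRules (7 / 8 + d) r s) (hd : 0 ≤ d) {κ u₁ u₂ m c : ℝ} {V : Multiset ℝ}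
    (hκ : 0 ≤ κ) (h1 : 0 ≤ u₁) (h2 : 0 ≤ u₂) (hm : 0 ≤ m) (hc : 0 ≤ c) (hV : ∀ y ∈ V, 0 ≤ y) :
    r κ (V + {u₁, u₂}) m c ≤ EA d κ (u₁ + u₂) (V.sum + m) c := by
  have e0 := supV R hκ {u₁, u₂} V (ok_pair (m := 0) (a := 0) h1 h2 le_rfl le_rfl).1 hV hm hc
  have e1 := R.sup κ {u₁, u₂} m c m 0 hκ (ok_pair h1 h2 hm hc) hm le_rfl le_rfl hc
  rw [sub_self, sub_zero] at e1
  have e2 := pairA R hd hκ h1 h2 hc
  unfold EA
  linarith

/-- the complete family -/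
theorem rc_EA (R : ExpRules (7 / 8 + d) r s) (C : ExpC r rc) (hd : 0 ≤ d) {κ u₁ u₂ m c : ℝ}
    {V : Multiset ℝ} (hκ : 0 ≤ κ) (h1 : 0 ≤ u₁) (h2 : 0 ≤ u₂) (hm : 0 ≤ m) (hc : 0 ≤ c)
    (hV : ∀ y ∈ V, 0 ≤ y) :
    rc κ (V + {u₁, u₂}) m c ≤ EA d κ (u₁ + u₂) (V.sum + m) c := by
  refine C.le κ _ m c _ hκ (ok_add hV h1 h2 hm hc) fun κ' h0 h1' => ?_
  have e1 := pairVA R hd h0 h1 h2 hm hc hV
  have e2 := eC_mono (M := u₁ + u₂) (c := c) h1'
  unfold EA at e1 ⊢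
  linarith

/-- the complete family, `T6` -/
theorem rc_EB (R : ExpRules (7 / 8 + d) r s) (C : ExpC r rc) (hd : 0 ≤ d) {κ u₁ u₂ m c : ℝ}
    {V : Multiset ℝ} (hκ : 0 ≤ κ) (h1 : 0 ≤ u₁) (h2 : 0 ≤ u₂) (hm : 0 ≤ m) (hc : 0 ≤ c)
    (hV : ∀ y ∈ V, 0 ≤ y) (hs : u₁ + u₂ ≤ κ) (hVs : 27 * V.sum ≤ 8 * (κ - (u₁ + u₂)))
    (hκs : 5 * κ ≤ 14 * (u₁ + u₂)) :
    rc κ (V + {u₁, u₂}) m c ≤ EB d κ (u₁ + u₂) (V.sum + m) c := by
  refine C.le κ _ m c _ hκ (ok_add hV h1 h2 hm hc) fun κ' h0 h1' => ?_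
  have e1 := R8C918.sideE R hd h1 h2 hm hc hV hs hVs hκs h0 h1'
  unfold EB
  linarith

/-- the complete family, (HB) after dropping the mass `b` of the amplifier -/
theorem rc_EH (R : ExpRules (7 / 8 + d) r s) (C : ExpC r rc) {κ u₁ u₂ m c b : ℝ}
    {V : Multiset ℝ} (hκ : 0 ≤ κ) (h1 : 0 ≤ u₁) (h2 : 0 ≤ u₂) (hm : 0 ≤ m) (hc : 0 ≤ c)
    (hV : ∀ y ∈ V, 0 ≤ y) (hb : 0 ≤ b) (hbc : b ≤ c) :
    rc κ (V + {u₁, u₂}) m c ≤ EHb d κ (u₁ + u₂ + (V.sum + m) + c) b := by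
  have hok := ok_add hV h1 h2 hm hc
  refine C.le κ _ m c _ hκ hok fun κ' h0 h1' => ?_
  have e1 := R.sup κ' (V + {u₁, u₂}) m c 0 b h0 hok le_rfl hm hb hbc
  rw [sub_zero] at e1
  have e2 := R.hbC κ' (V + {u₁, u₂}) m (c - b) h0 ⟨hok.1, hm, by linarith⟩
  have e3 : (V + {u₁, u₂} : Multiset ℝ).sum = V.sum + (u₁ + u₂) := by
    rw [Multiset.sum_add]; simp
  rw [e3] at e2
  unfold EHb
  have m1 := le_max_left (κ + (u₁ + u₂ + (V.sum + m) + c - b))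
    (max (2 * (u₁ + u₂ + (V.sum + m) + c - b) + κ / 3)
      ((u₁ + u₂ + (V.sum + m) + c - b) + 2 / 3 * (κ + (u₁ + u₂ + (V.sum + m) + c - b))))
  have m2 := (le_max_left (2 * (u₁ + u₂ + (V.sum + m) + c - b) + κ / 3)
      ((u₁ + u₂ + (V.sum + m) + c - b) + 2 / 3 * (κ + (u₁ + u₂ + (V.sum + m) + c - b)))).trans
    (le_max_right (κ + (u₁ + u₂ + (V.sum + m) + c - b)) _)
  have m3 := (le_max_right (2 * (u₁ + u₂ + (V.sum + m) + c - b) + κ / 3)
      ((u₁ + u₂ + (V.sum + m) + c - b) + 2 / 3 * (κ + (u₁ + u₂ + (V.sum + m) + c - b)))).trans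
    (le_max_right (κ + (u₁ + u₂ + (V.sum + m) + c - b)) _)
  have e4 : r κ' (V + {u₁, u₂}) m (c - b) + (κ - κ') / 3 ≤
      max (κ + (u₁ + u₂ + (V.sum + m) + c - b))
        (max (2 * (u₁ + u₂ + (V.sum + m) + c - b) + κ / 3)
          ((u₁ + u₂ + (V.sum + m) + c - b) + 2 / 3 * (κ + (u₁ + u₂ + (V.sum + m) + c - b)))) := by
    rcases le_max_iff.1 e2 with h | h
    · refine le_trans ?_ m1; linarith
    · rcases le_max_iff.1 h with h | h
      · refine le_trans ?_ m2; linarith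
      · refine le_trans ?_ m3; linarith
  linarith

/-- the complete family, (HB) after dropping `V`, `m` and the mass `b` of the amplifier -/
theorem rc_EHq (R : ExpRules (7 / 8 + d) r s) (C : ExpC r rc) {κ u₁ u₂ m c b : ℝ}
    {V : Multiset ℝ} (hκ : 0 ≤ κ) (h1 : 0 ≤ u₁) (h2 : 0 ≤ u₂) (hm : 0 ≤ m) (hc : 0 ≤ c)
    (hV : ∀ y ∈ V, 0 ≤ y) (hb : 0 ≤ b) (hbc : b ≤ c) :
    rc κ (V + {u₁, u₂}) m c ≤
      EHb d κ (u₁ + u₂ + (V.sum + m) + c) (V.sum + m + b) := by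
  have hok := ok_add hV h1 h2 hm hc
  refine C.le κ _ m c _ hκ hok fun κ' h0 h1' => ?_
  have e0 := supV R h0 {u₁, u₂} V (ok_pair (m := 0) (a := 0) h1 h2 le_rfl le_rfl).1 hV hm hc
  have e1 := R.sup κ' {u₁, u₂} m c m b h0 (ok_pair h1 h2 hm hc) hm le_rfl hb hbc
  rw [sub_self] at e1
  have e2 := R.hbC κ' {u₁, u₂} 0 (c - b) h0 (ok_pair h1 h2 le_rfl (by linarith))
  have e3 : ({u₁, u₂} : Multiset ℝ).sum = u₁ + u₂ := by simp
  rw [e3] at e2
  unfold EHb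
  have e5 : u₁ + u₂ + (V.sum + m) + c - (V.sum + m + b) = u₁ + u₂ + c - b := by ring
  rw [e5]
  have m1 := le_max_left (κ + (u₁ + u₂ + c - b)) (max (2 * (u₁ + u₂ + c - b) + κ / 3)
      ((u₁ + u₂ + c - b) + 2 / 3 * (κ + (u₁ + u₂ + c - b))))
  have m2 := (le_max_left (2 * (u₁ + u₂ + c - b) + κ / 3)
      ((u₁ + u₂ + c - b) + 2 / 3 * (κ + (u₁ + u₂ + c - b)))).trans
    (le_max_right (κ + (u₁ + u₂ + c - b)) _)
  have m3 := (le_max_right (2 * (u₁ + u₂ + c - b) + κ / 3)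
      ((u₁ + u₂ + c - b) + 2 / 3 * (κ + (u₁ + u₂ + c - b)))).trans
    (le_max_right (κ + (u₁ + u₂ + c - b)) _)
  have e4 : r κ' {u₁, u₂} 0 (c - b) + (κ - κ') / 3 ≤
      max (κ + (u₁ + u₂ + c - b)) (max (2 * (u₁ + u₂ + c - b) + κ / 3)
        ((u₁ + u₂ + c - b) + 2 / 3 * (κ + (u₁ + u₂ + c - b)))) := by
    rcases le_max_iff.1 e2 with h | h
    · refine le_trans ?_ m1; linarith
    · rcases le_max_iff.1 h with h | h
      · refine le_trans ?_ m2; linarith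
      · refine le_trans ?_ m3; linarith
  linarith

/-! ### the `UB`s -/

/-- the box `[0,K]` -/
def DomY (K : ℝ) : Set ((Fin 3 → ℝ) × (Kd → ℝ)) :=
  {q | (∀ i, 0 ≤ q.1 i ∧ q.1 i ≤ K) ∧ ∀ t, 0 ≤ q.2 t ∧ q.2 t ≤ K}

lemma DomY_compact (K : ℝ) : IsCompact (DomY K) := by
  have : DomY K = (Set.pi Set.univ fun _ => Set.Icc 0 K) ×ˢ
      (Set.pi Set.univ fun _ => Set.Icc 0 K) := by
    ext q
    exact ⟨fun hq => ⟨fun i _ => ⟨(hq.1 i).1, (hq.1 i).2⟩, fun t _ => ⟨(hq.2 t).1, (hq.2 t).2⟩⟩,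
      fun hq => ⟨fun i => ⟨(hq.1 i trivial).1, (hq.1 i trivial).2⟩,
        fun t => ⟨(hq.2 t trivial).1, (hq.2 t trivial).2⟩⟩⟩
  rw [this]
  exact (isCompact_univ_pi fun _ => isCompact_Icc).prod (isCompact_univ_pi fun _ => isCompact_Icc)

lemma DomY_down {K : ℝ} {q : (Fin 3 → ℝ) × (Kd → ℝ)} (hq : q ∈ DomY K) {b : ℝ} (hb : 0 ≤ b)
    (hb' : b ≤ q.2 Kd.mo) :
    (q.1, Function.update q.2 Kd.mo (q.2 Kd.mo - b)) ∈ DomY K := by
  refine ⟨hq.1, fun t => ?_⟩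
  have h1 := hq.2 t
  cases t
  · simp only [Function.update_self]
    have := hq.2 Kd.mo
    exact ⟨by linarith, by linarith⟩
  · simpa using h1

section
variable {c₀ : ℝ} (hpu : PU h c₀) (hP : ∀ lam, (π lam).OK) (c : Λ → ℝ)
  (R : ExpRules (7 / 8 + d) r s) (C : ExpC r (ex Dq (fun lam => Rc (π lam) h)))

include hpu hP R C

/-- **general form**: `E` a closed form of `(κ, u₁, u₂, q, c)` valid for all lists on `Dom` -/
theorem ymA (hd : 0 ≤ d) (K : ℝ) : UB S2 Dq (YMFs π h c) (DomY K) univ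
    (fun q => EA d (q.1 0) (q.1 1 + q.1 2) (q.2 .mo) (q.2 .am)) := by
  refine ym_of hpu hP c (DomY_compact K) (fun q hq => ⟨fun i => (hq.1 i).1, fun t => (hq.2 t).1⟩)
    (fun q hq b => DomY_down hq) ?_ ?_ isClosed_univ ?_
  · unfold EA eC; fun_prop
  · intro q hq b hb hb'
    simp only [Function.update_self, ne_eq, reduceCtorEq, not_false_eq_true,
        Function.update_of_ne]
    unfold EA
    nlinarith
  · intro p V m a hV hm ha hD _
    exact rc_EA R C hd (hD.1 0).1 (hD.1 1).1 (hD.1 2).1 hm ha hV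

/-- the domain of `T6` -/
def DomB (K : ℝ) : Set ((Fin 3 → ℝ) × (Kd → ℝ)) :=
  {q | q ∈ DomY K ∧ 27 * q.2 .mo ≤ 8 * (q.1 0 - (q.1 1 + q.1 2)) ∧
    5 * q.1 0 ≤ 14 * (q.1 1 + q.1 2)}

omit hpu hP R C in
lemma DomB_compact (K : ℝ) : IsCompact (DomB K) := by
  have h1 : IsClosed {q : (Fin 3 → ℝ) × (Kd → ℝ) |
      27 * q.2 .mo ≤ 8 * (q.1 0 - (q.1 1 + q.1 2))} :=
    isClosed_le (by fun_prop) (by fun_prop)
  have h2 : IsClosed {q : (Fin 3 → ℝ) × (Kd → ℝ) | 5 * q.1 0 ≤ 14 * (q.1 1 + q.1 2)} :=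
    isClosed_le (by fun_prop) (by fun_prop)
  exact (DomY_compact K).inter_right (h1.inter h2)

/-- closed form of `sideE` -/
theorem ymB (hd : 0 ≤ d) (K : ℝ) : UB S2 Dq (YMFs π h c) (DomB K) univ
    (fun q => EB d (q.1 0) (q.1 1 + q.1 2) (q.2 .mo) (q.2 .am)) := by
  refine ym_of hpu hP c (DomB_compact K)
    (fun q hq => ⟨fun i => (hq.1.1 i).1, fun t => (hq.1.2 t).1⟩)
    (fun q hq b hb hb' => ⟨DomY_down hq.1 hb hb', ?_, hq.2.2⟩) ?_ ?_ isClosed_univ ?_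
  · simp only [Function.update_self]
    linarith [hq.2.1]
  · unfold EB; fun_prop
  · intro q hq b hb hb'
    simp only [Function.update_self, ne_eq, reduceCtorEq, not_false_eq_true,
        Function.update_of_ne]
    unfold EB
    have : max 0 (q.2 .mo - b + q.2 .am - 7 / 9 * (q.1 0 - (q.1 1 + q.1 2))) ≤
        max 0 (q.2 .mo + q.2 .am - 7 / 9 * (q.1 0 - (q.1 1 + q.1 2))) :=
      max_le_max le_rfl (by linarith)
    nlinarith
  · intro p V m a hV hm ha hD _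
    have hV0 : 0 ≤ V.sum := Multiset.sum_nonneg hV
    obtain ⟨h1, h2, h3⟩ := hD
    simp only [wt] at h2
    exact rc_EB R C hd (h1.1 0).1 (h1.1 1).1 (h1.1 2).1 hm ha hV (by linarith) (by linarith) h3

/-- closed form of (HB), the mass `B` of the amplifier dropped pointwise -/
theorem ymH (K : ℝ) {B : (Fin 3 → ℝ) × ℝ → ℝ} (hB : Continuous B)
    (hB0 : ∀ q, 0 ≤ q.2 → 0 ≤ B q ∧ B q ≤ q.2) : UB S2 Dq (YMFs π h c) (DomY K) univ
    (fun q => EHb d (q.1 0) (q.1 1 + q.1 2 + q.2 .mo + q.2 .am) (B (q.1, q.2 .am))) := by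
  refine ym_of hpu hP c (DomY_compact K) (fun q hq => ⟨fun i => (hq.1 i).1, fun t => (hq.2 t).1⟩)
    (fun q hq b => DomY_down hq) ?_ ?_ isClosed_univ ?_
  · unfold EHb; fun_prop
  · intro q hq b hb hb'
    simp only [Function.update_self, ne_eq, reduceCtorEq, not_false_eq_true,
        Function.update_of_ne]
    unfold EHb
    gcongr <;> linarith
  · intro p V m a hV hm ha hD _
    obtain ⟨h1, h2⟩ := hB0 (p, a) ha
    exact rc_EH R C (hD.1 0).1 (hD.1 1).1 (hD.1 2).1 hm ha hV h1 h2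

/-- closed form of (HB), `V`, `m` and the mass `B` of the amplifier dropped pointwise -/
theorem ymHq (hd : 0 ≤ d) (K : ℝ) {B : (Fin 3 → ℝ) × ℝ → ℝ} (hB : Continuous B)
    (hB0 : ∀ q, 0 ≤ q.2 → 0 ≤ B q ∧ B q ≤ q.2) : UB S2 Dq (YMFs π h c) (DomY K) univ
    (fun q => EHb d (q.1 0) (q.1 1 + q.1 2 + q.2 .mo + q.2 .am)
      (q.2 .mo + B (q.1, q.2 .am))) := by
  refine ym_of hpu hP c (DomY_compact K) (fun q hq => ⟨fun i => (hq.1 i).1, fun t => (hq.2 t).1⟩)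
    (fun q hq b => DomY_down hq) ?_ ?_ isClosed_univ ?_
  · unfold EHb; fun_prop
  · intro q hq b hb hb'
    simp only [Function.update_self, ne_eq, reduceCtorEq, not_false_eq_true,
        Function.update_of_ne]
    unfold EHb
    have e1 : q.1 1 + q.1 2 + (q.2 Kd.mo - b) + q.2 Kd.am -
        (q.2 Kd.mo - b + B (q.1, q.2 Kd.am)) =
        q.1 1 + q.1 2 + q.2 Kd.mo + q.2 Kd.am - (q.2 Kd.mo + B (q.1, q.2 Kd.am)) := by ring
    rw [e1]
    nlinarith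
  · intro p V m a hV hm ha hD _
    obtain ⟨h1, h2⟩ := hB0 (p, a) ha
    exact rc_EHq R C (hD.1 0).1 (hD.1 1).1 (hD.1 2).1 hm ha hV h1 h2

end

/-! ### other sets of frequencies, `S`-unit twists -/

/-- a smaller set of frequencies -/
lemma RQ_le_Rc {P : DPar} {Q : Eis → Prop} (hQ : ∀ k, Q k → P.NP2 k) (h : ℝ → ℝ) (l : ℝ)
    (ps : List Pq) : RQ Q h l (ps.map (Pq.pc P)) ≤ Rc P h l ps :=
  RQ_mono_set hQ h l _

end Crest.Agent.R017.YM61
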