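import Crest.Agent.R017.E5Mb_372
import Crest.Agent.R017.YM_61

/-!
# Row 17, P8: `MomU` (helper372)

* `momU_372` : the second moment of the two-lump side (71's `MomU`) from helper61's `ymB`
  (918's `sideE` = 777's `T6`)
-/

set_option autoImplicit false

noncomputable section

open Set

namespace Crest.Agent.R017.E5M372

open Crest.Agent.R012 Crest.Agent.R012.Eis
open Crest.Agent.R017.FE47 (PU)
open Crest.Agent.R017.XG702 (Pcs BG)
open Crest.Agent.R017.XT71 (Sys Win)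
open Crest.Agent.R017.B770 Crest.Agent.R017.Prov71
open Crest.Agent.R017.ER911 Crest.Agent.R017.ExpC702
open Crest.Agent.R017.E5B71 Crest.Agent.R017.YM61 Crest.Agent.R017.UBR61

variable {Λ : Type*} {π : Λ → DPar} {h : ℝ → ℝ}

/-! ### change of the parameter type -/

lemma BG_comp {Λ' : Type*} {Φ : Λ → ℝ → List Pq → ℝ} (f : Λ' → Λ) {κ : ℝ} {u : List ℝ}
    {w : Kd → ℝ} {e : ℝ} (H : BG Dq Φ κ u w e) : BG Dq (fun lam => Φ (f lam)) κ u w e := by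
  intro ε hε
  obtain ⟨δ, hδ, H1⟩ := H ε hε
  exact ⟨δ, hδ, fun lam N B => H1 (f lam) N B⟩

lemma ex_comp_le {Λ' : Type*} {Φ : Λ → ℝ → List Pq → ℝ} (ht : Triv Dq Φ) (f : Λ' → Λ) {κ : ℝ}
    {Y : Multiset ℝ} {m a : ℝ} (hκ : 0 ≤ κ) (hY : Ok Y m a) :
    ex Dq (fun lam => Φ (f lam)) κ Y m a ≤ ex Dq Φ κ Y m a := by
  obtain ⟨e₀, he₀⟩ := ht κ Y.toList m a hκ (okl_of hY)
  have hne : {e | 0 ≤ e ∧ BG Dq Φ κ Y.toList (wt m a) e}.Nonempty :=
    ⟨max e₀ 0, le_max_right _ _, he₀.mono (le_max_left _ _)⟩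
  exact csInf_le_csInf (ex_bdd κ Y m a) hne fun e he => ⟨he.1, BG_comp f he.2⟩

lemma expC_comp {Λ' : Type*} {Φ : Λ → ℝ → List Pq → ℝ} {r : EF} (ht : Triv Dq Φ) (f : Λ' → Λ)
    (C : ExpC r (ex Dq Φ)) : ExpC r (ex Dq (fun lam => Φ (f lam))) where
  le κ Y m a E hκ hY H := (ex_comp_le ht f hκ hY).trans (C.le κ Y m a E hκ hY H)

/-! ### `MomU` -/

/-- the datum of the two-lump side -/
def toY2 (a : Bd) : Y2 := ⟨a.l, a.us 0, a.us 1⟩

/-- **`MomU`** -/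
theorem momU_372 {c₀ d A : ℝ} {r s : EF} (hpu : PU h c₀) (hP : ∀ lam, (π lam).OK)
    (R : ExpRules (7 / 8 + d) r s) (C : ExpC r (ex Dq (fun lam => Rc (π lam) h))) (hd : 0 ≤ d)
    (hA : 99 / 100 ≤ A) : MomU π h A d := by
  intro Rf _
  have C' : ExpC r (ex Dq (fun lam : Λ × Eis => Rc (π lam.1) h)) :=
    expC_comp (XHB411.triv_Rc hP hpu) (fun lam : Λ × Eis => lam.1) C
  have hU := ymB (π := fun lam : Λ × Eis => π lam.1) hpu (fun lam => hP lam.1) (shf Rf) R C' hd 2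
  intro ε hε
  obtain ⟨δ, hδ, K⟩ := hU ε hε
  refine ⟨δ, hδ, fun lam N B => ?_⟩
  obtain ⟨δ', hδ', X₀, hX₀, K'⟩ := K lam N B
  refine ⟨δ', hδ', X₀, hX₀, fun X hX a ps h1 h2 q hq hw hm hg hl => ?_⟩
  have hX0 : (0 : ℝ) < X := by linarith
  by_cases hok : a.ok
  swap
  · have : MomF π h Rf lam a ps = 0 := by
      unfold MomF; rw [if_neg fun h' => hok h'.1]
    rw [this]
    exact Real.rpow_nonneg hX0.le _
  refine (momF_le Rf lam a ps hok).trans ?_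
  obtain ⟨hN, hx, ham, _, h31, h12⟩ := hq
  obtain ⟨a1, a2, a3, a4, a5, a6, a7, a8, a9⟩ := hN
  obtain ⟨b1, b2, b3, b4⟩ := a3
  have hmo : 0 ≤ q.2 .mo := a4 .mo
  simp only at a6 a7 a9
  -- real facts
  have hk : 0 < cκ q.1 := by linarith
  have hAk : 99 / 100 * cκ q.1 ≤ A * cκ q.1 := mul_le_mul_of_nonneg_right hA hk.le
  have hNN : 297 / 400 * cκ q.1 ≤ cN q.1 := by
    unfold cN at a5 ⊢; linarith
  have hMN : 2 * cN q.1 ≤ 3 * cM q.1 := by unfold cN cM; linarith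
  have hu1 : 0 ≤ cu q.1 1 := by unfold cN at hNN; linarith
  have hu0 : 0 ≤ cu q.1 0 := by linarith
  have hM2 : cu q.1 0 + cu q.1 1 ≤ 2 := by
    have : cM q.1 = cu q.1 0 + cu q.1 1 := rfl
    linarith
  have hDom : ((![cκ q.1, cu q.1 0, cu q.1 1] : Fin 3 → ℝ), q.2) ∈ DomB 2 := by
    refine ⟨⟨fun i => ?_, fun t => ?_⟩, ?_, ?_⟩
    · fin_cases i
      · exact ⟨hk.le, by simp; linarith⟩
      · exact ⟨hu0, by simp; linarith⟩
      · exact ⟨hu1, by simp; linarith⟩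
    · cases t
      · exact ⟨hmo, by linarith [show cM q.1 = cu q.1 0 + cu q.1 1 from rfl]⟩
      · exact ⟨ham, by simp only; linarith⟩
    · show 27 * q.2 .mo ≤ 8 * (cκ q.1 - (cu q.1 0 + cu q.1 1))
      have : cM q.1 = cu q.1 0 + cu q.1 1 := rfl
      linarith
    · show 5 * cκ q.1 ≤ 14 * (cu q.1 0 + cu q.1 1)
      have : cM q.1 = cu q.1 0 + cu q.1 1 := rfl
      linarith
  have hwin : Win S2 (![cκ q.1, cu q.1 0, cu q.1 1] : Fin 3 → ℝ) δ N B δ' X (toY2 a) := by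
    refine ⟨fun i => ?_, hw.g, hw.n, ?_, ?_⟩
    · fin_cases i
      · exact hw.ev (.inl 0)
      · exact hw.ev (.inr 0)
      · exact hw.ev (.inr 1)
    · exact max_le (good_us hw hok 0).1 (good_us hw hok 1).1
    · exact max_le (good_us hw hok 0).2.1 (good_us hw hok 1).2.1
  have key := K' X hX (toY2 a) ps h1 h2 _ hDom hwin hm hg (fun _ _ _ => trivial)
  have e1 : YMFs (fun lam : Λ × Eis => π lam.1) h (shf Rf) lam (toY2 a) ps =
      Rc (π lam.1) h (a.l + shf Rf lam) ((([0, 1] : List (Fin 5)).map a.us) ++ ps) := by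
    unfold YMFs mkF
    rw [if_pos (show (toY2 a).ok from ⟨hok.1 0, hok.1 1⟩)]
    rfl
  rw [← e1]
  refine key.trans (le_of_eq ?_)
  congr 2
  show EB d (cκ q.1) (cu q.1 0 + cu q.1 1) (q.2 .mo) (q.2 .am) = E2x d q
  have e2 : cM q.1 = cu q.1 0 + cu q.1 1 := rfl
  unfold EB E2x
  rw [e2]
  ring

end Crest.Agent.R017.E5M372
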