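import Crest.Agent.R017.R8Bud_918

/-!
# Row 17, section D, R8: the budget of the cross tail (helper957)

The cross term of the exact square over the `k` with a large powerful part costs the full
`e2 N = max 0 (5/4 N - 1)` (`R8T70.T2_le`), not `e2 N / 3`.

* `L2_e2_le` : `3/4 (a + c - x - 7/9 (1 - M))⁺ + e2 N ≤ A0` for the share `x` of the certificate
* **`certO2`** : `certOE` of helper918 with this budget and the property `need` of the share
* **`certO3`** : the same with the strict form of `need` (share `0` or `≤ a + c - 7/9 (1 - M)`)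
* **`key2`** : the exponents of the error term with the loss `max 0 (5/4 N - κ)` of the first side
-/

set_option autoImplicit false

noncomputable section

namespace Crest.Agent.R017.R8C918

open Crest.Agent.R017.R8T70 Crest.Agent.R017.Cone59

/-- the loss of the cross tail and of the second side -/
theorem L2_e2_le {r N M u a c x : ℝ} (B : Box5 r N M u a c)
    (hr : r ≤ 31 / 28) (ha : a ≤ 1 / 12) (hx : Adm N c x)
    (h0 : A0 r (N + M + a) c < 3 / 4 * max 0 (a + c - x - 7 / 9 * (1 - M)) +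
      max 0 (max (5 / 4 * N - 1) (N + u - 1)) / 3)
    (hS : LS N M a c x ≤ A0 r (N + M + a) c) :
    3 / 4 * max 0 (a + c - x - 7 / 9 * (1 - M)) + e2 N ≤ A0 r (N + M + a) c := by
  rcases le_or_gt N (4 / 5) with h | h
  · have : e2 N = 0 := max_eq_left (by linarith)
    rw [this]
    unfold LS at hS
    have := le_max_left 0 (max (5 / 4 * N - 1) (2 * (N + M + a) + c - 3))
    linarith
  · have hx00 : x = 0 := by
      rcases hx.2.2 with h' | h'
      · exact h'
      · linarith [hx.1]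
    subst hx00
    rw [sub_zero] at h0 ⊢
    have : e2 N = 5 / 4 * N - 1 := max_eq_right (by linarith)
    rw [this]
    exact e2_le B (by linarith) ha h0 h.le

/-- **the certificate of the signed region, with the tails, the twist, the overlap, the property
`need` of the share and the budget of the cross tail** -/
theorem certO2 {d μ r N M u a c : ℝ} (hd : 0 ≤ d) (hd1 : d ≤ 1 / 8) (hμ : 0 ≤ μ)
    (hμ1 : 16 * μ ≤ d) (B : Box5o μ r N M u a c) :
    Abs N M u a c (2 * d * (a + c)) (Al d r (N + M + a) c - d) ∨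
    (r ≤ 31 / 28 ∧ a ≤ 1 / 12 ∧ ∃ x, TlO d N M u a c x (Al d r (N + M + a) c - 1 / 4 * d) ∧
      LSe r N M a c x + 2 * d * (a + c) ≤ Al d r (N + M + a) c - 1 / 4 * d ∧
      x ≤ max 0 (a + c - 7 / 9 * (1 - M)) + 2 * μ ∧
      3 / 4 * max 0 (a + c - x - 7 / 9 * (1 - M)) + max 0 (5 / 4 * N - 1) + 2 * d * (a + c) ≤
        Al d r (N + M + a) c - 1 / 4 * d) := by
  have hB := B.up hμ (by linarith)
  have hA := Al_slack hd hB (by have := B.r2; linarith)
  have hl : Al d (r + 5 / 4 * μ) (N + 3 / 4 * μ + (M + 1 / 2 * μ) + a) c ≤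
      Al d r (N + M + a) c + 2 * μ := by
    have := Al_lip (r := r) (q := N + M + a) (c := c) hd hd1 hμ
    have e : N + M + a + 5 / 4 * μ = N + 3 / 4 * μ + (M + 1 / 2 * μ) + a := by ring
    rwa [e] at this
  rcases certE0 hB with h | ⟨h1, h2, x, h3, h4, h5, h6⟩
  · exact Or.inl (Abs_of hd hd1 hμ hμ1 (h.mono (by linarith)))
  · have hS := (LS_le_LSe (x := x) hB.D).trans h6
    have T := tails_aux hd hB h1 h2 h3 h4 h5 hS
    refine Or.inr ⟨by linarith, h2, x, TlO_of hd hd1 hμ hμ1 B T, ?_, ?_, ?_⟩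
    · have := LSe_mono (r := r) (r' := r + 5 / 4 * μ) (N := N) (N' := N + 3 / 4 * μ) (M := M)
        (M' := M + 1 / 2 * μ) (a := a) (c := c) (x := x) (by linarith) (by linarith) (by linarith)
      linarith
    · rcases h4 with rfl | h4
      · have := le_max_left 0 (a + c - 7 / 9 * (1 - M))
        linarith
      · have := le_max_right 0 (a + c - 7 / 9 * (1 - M))
        linarith
    · have h7 := L2_e2_le hB h1 h2 h3 h5 hS
      unfold e2 at h7
      have h8 : max 0 (a + c - x - 7 / 9 * (1 - M)) ≤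
          max 0 (a + c - x - 7 / 9 * (1 - (M + 1 / 2 * μ))) := max_le_max le_rfl (by linarith)
      have h9 : max 0 (5 / 4 * N - 1) ≤ max 0 (5 / 4 * (N + 3 / 4 * μ) - 1) :=
        max_le_max le_rfl (by linarith)
      linarith

/-- the allowed loss in base `X` -/
lemma Al_leX {d q c κ : ℝ} (hκ : 0 < κ) :
    κ * Al d (1 / κ) (q / κ) (c / κ) ≤ 2 * Tg (7 / 8 + d) (1 / 3) κ q c - 2 * κ - (q + c) := by
  rw [Al_Tg hκ, Tg2_eq]

/-- **the exponents of the error term** (base `X`), loss of the three-lump side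
`max 0 (5/4 N - κ)` : first side `{u₃,u₄,u₅ | x}`, second side `{u₁,u₂, mo | am - x}` -/
theorem key2 {d κ N M x mo am : ℝ} (hκ0 : 8 / 9 ≤ κ) (hd : 0 ≤ d) (hx : 0 ≤ x)
    (h : 3 / 4 * max 0 (mo / κ + am / κ - x / κ - 7 / 9 * (1 - M / κ)) +
      max 0 (5 / 4 * (N / κ) - 1) + 2 * d * (mo / κ + am / κ) ≤
        Al d (1 / κ) (N / κ + M / κ + mo / κ) (am / κ) - 1 / 4 * d) :
    (κ + N + x + max 0 (5 / 4 * N - κ) + (κ + M + mo + (am - x) +
      3 / 4 * max 0 (mo + (am - x) - 7 / 9 * (κ - M)) + 2 * d * (mo + (am - x)))) / 2 ≤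
      Tg (7 / 8 + d) (1 / 3) κ (N + M + mo) am - d / 9 := by
  have hκ : 0 < κ := by linarith
  have hk : κ ≠ 0 := hκ.ne'
  have h1 := mul_le_mul_of_nonneg_left h hκ.le
  have h2 := Al_leX (d := d) (q := N + M + mo) (c := am) hκ
  have e0 : N / κ + M / κ + mo / κ = (N + M + mo) / κ := by field_simp
  rw [e0] at h1
  have e1 : κ * (3 / 4 * max 0 (mo / κ + am / κ - x / κ - 7 / 9 * (1 - M / κ))) =
      3 / 4 * max 0 (mo + (am - x) - 7 / 9 * (κ - M)) := by
    rw [mul_left_comm, mul_max_of_nonneg _ _ hκ.le, mul_zero]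
    congr 2
    field_simp
    ring
  have e2 : κ * max 0 (5 / 4 * (N / κ) - 1) = max 0 (5 / 4 * N - κ) := by
    rw [mul_max_of_nonneg _ _ hκ.le, mul_zero]
    congr 1
    field_simp
  have e3 : κ * (2 * d * (mo / κ + am / κ)) = 2 * d * (mo + am) := by field_simp
  have e5 : κ * (Al d (1 / κ) ((N + M + mo) / κ) (am / κ) - 1 / 4 * d) =
      κ * Al d (1 / κ) ((N + M + mo) / κ) (am / κ) - κ * (1 / 4 * d) := by ring
  rw [mul_add, mul_add, e1, e2, e3, e5] at h1
  have hκ9 : 8 / 9 * (d / 4) ≤ κ * (1 / 4 * d) := by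
    have := mul_le_mul_of_nonneg_right hκ0 (by linarith : 0 ≤ d / 4)
    linarith
  have hdx : 0 ≤ d * x := mul_nonneg hd hx
  linarith

/-! ### the share is never larger than necessary -/

lemma RE_sub {κ M a c x x' : ℝ} (h : x' ≤ x) :
    RE κ M a (c - x') ≤ RE κ M a (c - x) + 7 / 4 * (x - x') := by
  unfold RE
  have h1 : bm κ M (c - x') ≤ bm κ M (c - x) + (x - x') := by
    unfold bm
    refine max_le ?_ ?_
    · have := le_max_left 0 (c - x - 7 / 9 * max 0 (κ - M))
      linarith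
    · have := le_max_right 0 (c - x - 7 / 9 * max 0 (κ - M))
      linarith
  linarith

set_option maxHeartbeats 1000000 in
/-- from the perturbed box back, with a smaller share `x'` -/
lemma TlO_of' {d μ r N M u a c x x' : ℝ} (hd : 0 ≤ d) (hd1 : d ≤ 1 / 8) (hμ : 0 ≤ μ)
    (hμ1 : 16 * μ ≤ d) (B : Box5o μ r N M u a c) (hx0' : 0 ≤ x') (hxx : x' ≤ x)
    (hxμ : x - x' ≤ 2 / 5 * μ)
    (hL : 3 / 4 * max 0 (a + c - x' - 7 / 9 * (1 - M)) ≤
      3 / 4 * max 0 (a + c - x - 7 / 9 * (1 - (M + 1 / 2 * μ))))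
    (T : Tl d (N + 3 / 4 * μ) (M + 1 / 2 * μ) (u + 1 / 4 * μ) a c x
      (Al d (r + 5 / 4 * μ) (N + 3 / 4 * μ + (M + 1 / 2 * μ) + a) c - 1 / 2 * d)) :
    TlO d N M u a c x' (Al d r (N + M + a) c - 1 / 4 * d) := by
  have hl : Al d (r + 5 / 4 * μ) (N + 3 / 4 * μ + (M + 1 / 2 * μ) + a) c ≤
      Al d r (N + M + a) c + 2 * μ := by
    have := Al_lip (r := r) (q := N + M + a) (c := c) hd hd1 hμ
    have e : N + M + a + 5 / 4 * μ = N + 3 / 4 * μ + (M + 1 / 2 * μ) + a := by ring
    rwa [e] at this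
  set N' := N + 3 / 4 * μ with hN'
  set M' := M + 1 / 2 * μ with hM'
  set u' := u + 1 / 4 * μ with hu'
  have iN : N ≤ N' := by linarith
  have iM : M ≤ M' := by linarith
  have iu : u ≤ u' := by linarith
  have hdμ : 0 ≤ d * μ := mul_nonneg hd hμ
  have hx0 : 0 ≤ x := T.adm.1
  have hdx : 0 ≤ d * x := mul_nonneg hd hx0
  have hdx' : d * x' ≤ d * x := mul_le_mul_of_nonneg_left hxx hd
  have hdδ : d * (x - x') ≤ 1 / 8 * (x - x') := mul_le_mul_of_nonneg_right hd1 (by linarith)
  have hdu : d * u ≤ d * u' := mul_le_mul_of_nonneg_left iu hd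
  have gL : L2 d M a c x' ≤ L2 d M' a c x + 2 * d * (x - x') := by
    unfold L2
    linarith
  refine ⟨⟨hx0', hxx.trans T.adm.2.1, ?_⟩, ?_, ?_, ?_, ?_, ?_, ?_, ?_, ?_, ?_⟩
  · rcases T.adm.2.2 with h' | h'
    · exact Or.inl (by linarith)
    · exact Or.inr (by linarith)
  · exact iN.trans T.N85
  · have h1 := T.sq
    unfold LS at h1 ⊢
    have h2 : max 0 (max (5 / 4 * N - 1) (2 * (N + M + a) + c - 3)) ≤
        max 0 (max (5 / 4 * N' - 1) (2 * (N' + M' + a) + c - 3)) :=
      max_le_max le_rfl (max_le_max (by linarith) (by linarith))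
    linarith
  · intro κ k0 k1
    have h := T.T1 κ k0 k1
    have g1 := GP_mono (κ := κ) (vm := 2 * N - 1) (vm' := 2 * N' - 1) (by linarith) iN iu
    have g2 := RE_mono (κ := κ) (a := a) (c := c) iM
    have g3 := GH_mono (κ := κ) (vm := 2 * N - 1) (vm' := 2 * N' - 1) (N := N) (N' := N')
      (by linarith) (by linarith) (bm_mono (κ := κ) (c := c) iM)
    have g4 := min_le_min (add_le_add g1 g2)
      (by linarith : GH κ (2 * N - 1) N (bm κ M c) + (κ + M + a + (c - bm κ M c) + 3 / 4 * a) ≤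
        GH κ (2 * N' - 1) N' (bm κ M' c) + (κ + M' + a + (c - bm κ M' c) + 3 / 4 * a))
    linarith
  · intro κ k1
    have h := T.T2 κ k1
    have g1 := GP_mono (κ := κ) (vm := 2 * (N + x') - 1) (vm' := 2 * (N' + x) - 1)
      (N := N + x') (N' := N' + x) (u := u + x') (u' := u' + x) (by linarith) (by linarith)
      (by linarith)
    linarith
  · intro κ k0 k1
    have h := T.T2l κ k0 (by linarith)
    have g1 := GH_mono (κ := κ) (vm := 2 * (N + x') - 1) (vm' := 2 * (N' + x) - 1)
      (N := N + x') (N' := N' + x) (b := u + x') (b' := u' + x) (by linarith) (by linarith)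
      (by linarith)
    linarith
  · intro κ k1
    have h := T.T3 κ k1
    have g2 := RE_mono (κ := κ) (a := a) (c := c - x) iM
    have g3 := RE_sub (κ := κ) (M := M) (a := a) (c := c) hxx
    linarith
  · intro κ k1
    have h := T.T3l κ (by linarith)
    have g2 := RE_mono (κ := κ) (a := a) (c := c - x) iM
    have g3 := RE_sub (κ := κ) (M := M) (a := a) (c := c) hxx
    linarith
  · intro κ k1
    have := B.u5; have := B.sig
    linarith
  · intro κ k1
    have := B.u5; have := B.sig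
    linarith

/-- **the certificate of the signed region** with the strict form of `need` : the share is `0` or
not larger than `a + c - 7/9 (1 - M)` -/
theorem certO3 {d μ r N M u a c : ℝ} (hd : 0 ≤ d) (hd1 : d ≤ 1 / 8) (hμ : 0 ≤ μ)
    (hμ1 : 16 * μ ≤ d) (B : Box5o μ r N M u a c) :
    Abs N M u a c (2 * d * (a + c)) (Al d r (N + M + a) c - d) ∨
    (r ≤ 31 / 28 ∧ a ≤ 1 / 12 ∧ ∃ x, TlO d N M u a c x (Al d r (N + M + a) c - 1 / 4 * d) ∧
      LSe r N M a c x + 2 * d * (a + c) ≤ Al d r (N + M + a) c - 1 / 4 * d ∧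
      x ≤ max 0 (a + c - 7 / 9 * (1 - M)) ∧
      3 / 4 * max 0 (a + c - x - 7 / 9 * (1 - M)) + max 0 (5 / 4 * N - 1) + 2 * d * (a + c) ≤
        Al d r (N + M + a) c - d) := by
  have hB := B.up hμ (by linarith)
  have hA := Al_slack hd hB (by have := B.r2; linarith)
  have hl : Al d (r + 5 / 4 * μ) (N + 3 / 4 * μ + (M + 1 / 2 * μ) + a) c ≤
      Al d r (N + M + a) c + 2 * μ := by
    have := Al_lip (r := r) (q := N + M + a) (c := c) hd hd1 hμ
    have e : N + M + a + 5 / 4 * μ = N + 3 / 4 * μ + (M + 1 / 2 * μ) + a := by ring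
    rwa [e] at this
  rcases certE0 hB with h | ⟨h1, h2, x, h3, h4, h5, h6⟩
  · exact Or.inl (Abs_of hd hd1 hμ hμ1 (h.mono (by linarith)))
  · have hS := (LS_le_LSe (x := x) hB.D).trans h6
    have T := tails_aux hd hB h1 h2 h3 h4 h5 hS
    set W := a + c - 7 / 9 * (1 - M) with hW
    set x' := min x (max 0 W) with hx'
    have hx0' : 0 ≤ x' := le_min h3.1 (le_max_left _ _)
    have hxx : x' ≤ x := min_le_left _ _
    have hxW : x' ≤ max 0 W := min_le_right _ _
    have hxμ : x - x' ≤ 2 / 5 * μ := by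
      have hm := le_max_right 0 W
      rcases h4 with h4 | h4
      · linarith
      · rcases min_choice x (max 0 W) with hc | hc <;> rw [hx', hc] <;> linarith
    have hL : max 0 (a + c - x' - 7 / 9 * (1 - M)) ≤ max 0 (a + c - x - 7 / 9 * (1 - M)) := by
      rcases min_choice x (max 0 W) with hc | hc
      · rw [hx', hc]
      · rw [hx', hc]
        refine max_le (le_max_left _ _) ?_
        have hm := le_max_right 0 W
        exact le_trans (by linarith) (le_max_left 0 _)
    have hL' : max 0 (a + c - x - 7 / 9 * (1 - M)) ≤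
        max 0 (a + c - x - 7 / 9 * (1 - (M + 1 / 2 * μ))) := max_le_max le_rfl (by linarith)
    refine Or.inr ⟨by linarith, h2, x', TlO_of' hd hd1 hμ hμ1 B hx0' hxx hxμ (by linarith) T,
      ?_, hxW, ?_⟩
    · have h7 := LSe_mono (r := r) (r' := r + 5 / 4 * μ) (N := N) (N' := N + 3 / 4 * μ) (M := M)
        (M' := M + 1 / 2 * μ) (a := a) (c := c) (x := x) (by linarith) (by linarith) (by linarith)
      have h8 : LSe r N M a c x' ≤ LSe r N M a c x := by
        unfold LSe
        linarith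
      linarith
    · have h7 := L2_e2_le hB h1 h2 h3 h5 hS
      unfold e2 at h7
      have h9 : max 0 (5 / 4 * N - 1) ≤ max 0 (5 / 4 * (N + 3 / 4 * μ) - 1) :=
        max_le_max le_rfl (by linarith)
      linarith

end Crest.Agent.R017.R8C918
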