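import Crest.Agent.R017.E5BDefs_71
import Crest.Agent.R017.R8Sq2_957
import Crest.Agent.R017.Cone2_59

/-!
# Row 17, P8: real lemmas (helper71)

* `cert5` : every near-equal configuration is in `Ab5` or (for some share `x`) in `Sq5`
* `key_exp` : `(E1x + E2x)/2 ≤ T5 - d/9` on `Sq5`
-/

set_option autoImplicit false

noncomputable section

open Set

namespace Crest.Agent.R017.E5B71

open Crest.Agent.R017.Prov71 Crest.Agent.R017.R8C918

/-- change of the share -/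
def upx (p : Fin 3 ⊕ Fin 5 → ℝ) (x : ℝ) : Fin 3 ⊕ Fin 5 → ℝ := Function.update p (.inl 1) x

@[simp] lemma cx_upx (p : Fin 3 ⊕ Fin 5 → ℝ) (x : ℝ) : cx' (upx p x) = x := by simp [cx', upx]
@[simp] lemma cκ_upx (p : Fin 3 ⊕ Fin 5 → ℝ) (x : ℝ) : cκ (upx p x) = cκ p := by
  simp [cκ, upx, Function.update]
@[simp] lemma ce_upx (p : Fin 3 ⊕ Fin 5 → ℝ) (x : ℝ) : ce (upx p x) = ce p := by
  simp [ce, upx, Function.update]
@[simp] lemma cu_upx (p : Fin 3 ⊕ Fin 5 → ℝ) (x : ℝ) (i : Fin 5) : cu (upx p x) i = cu p i := by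
  simp [cu, upx, Function.update]
@[simp] lemma cN_upx (p : Fin 3 ⊕ Fin 5 → ℝ) (x : ℝ) : cN (upx p x) = cN p := by simp [cN]
@[simp] lemma cM_upx (p : Fin 3 ⊕ Fin 5 → ℝ) (x : ℝ) : cM (upx p x) = cM p := by simp [cM]

lemma Nr5.upx {A : ℝ} {p : Fin 3 ⊕ Fin 5 → ℝ} {w : Kd → ℝ} (h : Nr5 A p w) (x : ℝ) :
    Nr5 A (upx p x) w := by
  obtain ⟨h1, h2, h3, h4, h5, h6, h7, h8, h9⟩ := h
  refine ⟨?_, ?_, ?_, h4, ?_, ?_, h7, ?_, ?_⟩
  · simpa
  · simpa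
  · simpa
  · simpa
  · simpa
  · simpa
  · simp only [cN_upx, cM_upx, ce_upx]; exact h9

section
variable {A d : ℝ} {p : Fin 3 ⊕ Fin 5 → ℝ} {w : Kd → ℝ}

lemma Nr5.κpos (h : Nr5 A p w) : 0 < cκ p := by linarith [h.κ0]

lemma Nr5.u4N (h : Nr5 A p w) : 3 * cu p 4 ≤ cN p := by
  obtain ⟨a1, a2, a3, a4⟩ := h.anti
  unfold cN; linarith

lemma Nr5.MN (h : Nr5 A p w) : 2 * cN p ≤ 3 * cM p := by
  obtain ⟨a1, a2, a3, a4⟩ := h.anti
  unfold cN cM; linarith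

lemma Nr5.Nlow (h : Nr5 A p w) : 3 / 4 * (A * cκ p) ≤ cN p := by
  linarith [h.u4N, h.near]

/-- `M ≤ κ` and more -/
lemma Nr5.Mup (hA : 99 / 100 ≤ A) (h : Nr5 A p w) : cM p + w .mo ≤ 4 / 3 - 297 / 400 * cκ p := by
  have h1 := h.Nlow
  have h2 : 99 / 100 * cκ p ≤ A * cκ p := mul_le_mul_of_nonneg_right hA h.κpos.le
  linarith [h.q]

lemma Nr5.Mlow (hA : 99 / 100 ≤ A) (h : Nr5 A p w) : 99 / 200 * cκ p ≤ cM p := by
  have h1 := h.Nlow
  have h2 : 99 / 100 * cκ p ≤ A * cκ p := mul_le_mul_of_nonneg_right hA h.κpos.le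
  linarith [h.MN]

lemma Nr5.box (h : Nr5 A p w) :
    Box5o (1 - A) (1 / cκ p) (cN p / cκ p) (cM p / cκ p) (cu p 4 / cκ p) (w .mo / cκ p)
      (w .am / cκ p) := by
  have hκ := h.κpos
  have hk : cκ p ≠ 0 := hκ.ne'
  refine ⟨?_, ?_, ?_, ?_, ?_, ?_, ?_, ?_, ?_, ?_⟩
  · rw [← mul_div_assoc]; exact div_le_div_of_nonneg_right h.u4N hκ.le
  · rw [← mul_div_assoc, ← mul_div_assoc]; exact div_le_div_of_nonneg_right h.MN hκ.le
  · rw [← add_div, le_div_iff₀ hκ]; linarith [h.near]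
  · exact div_nonneg (h.w0 _) hκ.le
  · exact div_nonneg (h.w0 _) hκ.le
  · rw [le_div_iff₀ hκ]; linarith [h.κ1]
  · rw [div_le_iff₀ hκ]; linarith [h.κ0]
  · rw [← add_div, ← add_div, ← sub_div]
    exact div_le_div_of_nonneg_right (by linarith [h.D, h.e0]) hκ.le
  · rw [← add_div, ← add_div, ← add_div, ← mul_div_assoc]
    exact div_le_div_of_nonneg_right (by linarith [h.q, h.c]) hκ.le
  · rw [← mul_div_assoc]; exact div_le_div_of_nonneg_right (by linarith [h.c]) hκ.le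

/-- **the certificate** -/
theorem cert5 (hd : 0 ≤ d) (hd1 : d ≤ 1 / 8) (hA : A ≤ 1) (hA1 : 16 * (1 - A) ≤ d)
    (h : Nr5 A p w) : Ab5 A d p w ∨ ∃ x, Sq5 A d (upx p x) w := by
  have hκ := h.κpos
  by_cases hab : R8C918.Abs (cN p / cκ p) (cM p / cκ p) (cu p 4 / cκ p) (w .mo / cκ p)
      (w .am / cκ p) (2 * d * (w .mo / cκ p + w .am / cκ p))
      (R8C918.Al d (1 / cκ p) (cN p / cκ p + cM p / cκ p + w .mo / cκ p) (w .am / cκ p) - d)
  · exact Or.inl ⟨h, hab⟩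
  rcases certO3 hd hd1 (by linarith) hA1 h.box with h1 | ⟨h1, h2, x, h3, h4, h5, h6⟩
  · exact absurd h1 hab
  · refine Or.inr ⟨x * cκ p, h.upx _, ?_, ?_, ?_, ?_, ?_, ?_, ?_⟩
    · rw [div_le_iff₀ hκ] at h1
      rw [cκ_upx]; linarith
    · rw [div_le_iff₀ hκ] at h2
      rw [cκ_upx]; linarith
    · simp only [cκ_upx, cN_upx, cM_upx, cu_upx, cx_upx]
      rw [mul_div_cancel_right₀ _ hκ.ne']
      exact h3
    · simp only [cκ_upx, cN_upx, cM_upx, cx_upx]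
      rw [mul_div_cancel_right₀ _ hκ.ne']
      exact h4
    · simp only [cκ_upx, cM_upx, cx_upx]
      rw [mul_div_cancel_right₀ _ hκ.ne']
      exact h5
    · simp only [cκ_upx, cN_upx, cM_upx, cx_upx]
      rw [mul_div_cancel_right₀ _ hκ.ne']
      exact h6
    · simp only [cκ_upx, cN_upx, cM_upx, cu_upx]
      intro y hy
      by_contra hc
      exact hab ⟨y, hy, (not_le.1 hc).le⟩

/-- the allowed loss in base `X` -/
lemma Al_le {q c : ℝ} {κ : ℝ} (hκ : 0 < κ) :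
    κ * Al d (1 / κ) (q / κ) (c / κ) ≤ 2 * Cone59.Tg (7 / 8 + d) (1 / 3) κ q c - 2 * κ - (q + c) := by
  rw [← Cone59.Tg2_eq]
  have hk : κ ≠ 0 := hκ.ne'
  have t1 : 1 / 3 + 1 / 3 + (7 / 8 + d) * (4 / 3) + ((κ - 1) + (q - 4 / 3) / 2 + (c - 1 / 3) / 2) ≤
      Cone59.Tg2 (7 / 8 + d) κ q c := by
    unfold Cone59.Tg2
    have := le_max_left (κ - 1 + (q - 4 / 3) / 2 + (c - 1 / 3) / 2)
      (max ((κ - 1) / 2 + 3 / 4 * (q - 4 / 3) + 1 / 4 * (c - 1 / 3))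
        ((κ - 1) / 6 + (7 / 8 + d) * (q - 4 / 3) + (7 / 8 + d) * (c - 1 / 3)))
    linarith
  have t2 : 1 / 3 + 1 / 3 + (7 / 8 + d) * (4 / 3) + ((κ - 1) / 2 + 3 / 4 * (q - 4 / 3) +
      1 / 4 * (c - 1 / 3)) ≤ Cone59.Tg2 (7 / 8 + d) κ q c := by
    unfold Cone59.Tg2
    have := (le_max_left ((κ - 1) / 2 + 3 / 4 * (q - 4 / 3) + 1 / 4 * (c - 1 / 3))
        ((κ - 1) / 6 + (7 / 8 + d) * (q - 4 / 3) + (7 / 8 + d) * (c - 1 / 3))).trans
        (le_max_right (κ - 1 + (q - 4 / 3) / 2 + (c - 1 / 3) / 2) _)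
    linarith
  have t3 : 1 / 3 + 1 / 3 + (7 / 8 + d) * (4 / 3) + ((κ - 1) / 6 + (7 / 8 + d) * (q - 4 / 3) +
      (7 / 8 + d) * (c - 1 / 3)) ≤ Cone59.Tg2 (7 / 8 + d) κ q c := by
    unfold Cone59.Tg2
    have := (le_max_right ((κ - 1) / 2 + 3 / 4 * (q - 4 / 3) + 1 / 4 * (c - 1 / 3))
        ((κ - 1) / 6 + (7 / 8 + d) * (q - 4 / 3) + (7 / 8 + d) * (c - 1 / 3))).trans
        (le_max_right (κ - 1 + (q - 4 / 3) / 2 + (c - 1 / 3) / 2) _)
    linarith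
  unfold Al
  rw [mul_max_of_nonneg _ _ hκ.le, mul_max_of_nonneg _ _ hκ.le]
  refine max_le ?_ (max_le ?_ ?_)
  · have e : κ * (8 / 3 * d * (1 / κ)) = 8 / 3 * d := by field_simp
    rw [e]; linarith
  · have e : κ * (1 / κ * (8 / 3 * d + 1 / 2) - 1 + (q / κ - c / κ) / 2) =
        8 / 3 * d + 1 / 2 - κ + (q - c) / 2 := by field_simp
    rw [e]; linarith
  · have e : κ * (1 / κ * (5 / 12 - 2 / 3 * d) - 5 / 3 + (3 / 4 + 2 * d) * (q / κ + c / κ)) =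
        5 / 12 - 2 / 3 * d - 5 / 3 * κ + (3 / 4 + 2 * d) * (q + c) := by field_simp
    rw [e]; linarith

lemma Sq5.x0 (h : Sq5 A d p w) : 0 ≤ cx' p := by
  have := mul_nonneg h.tl.adm.1 h.κpos.le
  rwa [div_mul_cancel₀ _ h.κpos.ne'] at this

lemma Sq5.xc (h : Sq5 A d p w) : cx' p ≤ w .am := by
  have := mul_le_mul_of_nonneg_right h.tl.adm.2.1 h.κpos.le
  rwa [div_mul_cancel₀ _ h.κpos.ne', div_mul_cancel₀ _ h.κpos.ne'] at this

/-- **the exponents of the error term** -/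
theorem key_exp (h : Sq5 A d p w) (hd : 0 ≤ d) {v v' : Kd → ℝ} (hv : v .mo = w .mo)
    (hv' : v .am = w .am - cx' p) :
    (E1x d (p, v') + E2x d (p, v)) / 2 ≤ T5 (7 / 8 + d) (p, w) - d / 9 := by
  have hκ := h.κpos
  have hk : cκ p ≠ 0 := hκ.ne'
  have hx := h.x0
  have h1 := mul_le_mul_of_nonneg_left h.sq2 hκ.le
  have h2 := Al_le (d := d) (q := cN p + cM p + w .mo) (c := w .am) hκ
  have e0 : cN p / cκ p + cM p / cκ p + w .mo / cκ p = (cN p + cM p + w .mo) / cκ p := by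
    field_simp
  rw [e0] at h1
  have e1 : cκ p * (3 / 4 * max 0 (w .mo / cκ p + w .am / cκ p - cx' p / cκ p -
      7 / 9 * (1 - cM p / cκ p))) = 3 / 4 * max 0 (w .mo + w .am - cx' p -
      7 / 9 * (cκ p - cM p)) := by
    rw [mul_left_comm, mul_max_of_nonneg _ _ hκ.le, mul_zero]
    congr 3
    field_simp
  have e2 : cκ p * max 0 (5 / 4 * (cN p / cκ p) - 1) = max 0 (5 / 4 * cN p - cκ p) := by
    rw [mul_max_of_nonneg _ _ hκ.le, mul_zero]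
    congr 1
    field_simp
  have e3 : cκ p * (2 * d * (w .mo / cκ p + w .am / cκ p)) = 2 * d * (w .mo + w .am) := by
    field_simp
  rw [mul_add, mul_add, e1, e2, e3] at h1
  have e5 : cκ p * (Al d (1 / cκ p) ((cN p + cM p + w .mo) / cκ p) (w .am / cκ p) - d) =
      cκ p * Al d (1 / cκ p) ((cN p + cM p + w .mo) / cκ p) (w .am / cκ p) - cκ p * d := by
    ring
  rw [e5] at h1
  have hκ9 : 8 / 9 * (d / 4) ≤ cκ p * (1 / 4 * d) := by
    have := mul_le_mul_of_nonneg_right h.κ0 (by linarith : 0 ≤ d / 4)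
    linarith
  have hdx : 0 ≤ d * cx' p := mul_nonneg hd hx
  have e4 : w .mo + (w .am - cx' p) - 7 / 9 * (cκ p - cM p) =
      w .mo + w .am - cx' p - 7 / 9 * (cκ p - cM p) := by ring
  unfold E1x E2x T5
  simp only [hv, hv']
  rw [e4]
  linarith

end

end Crest.Agent.R017.E5B71
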