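import Crest.Agent.R017.E5Mc_372
import Crest.Agent.R017.E5M_372
import Crest.Agent.R017.E5R_71

/-!
# Row 17, P8: `TailCU` and the principal `k` (helper372)

* `PrinF`, `prinU_372` : the box over the principal `k` (class N), on `Nr5 A`
* `gA`, `gB`, `EX` : exponents of the tail; `rc_side3` : the three-lump side, complete family
* `tailA_ub` : the tail over the large cubes
* `tailCU_372` : 71's `TailCU`
-/

set_option autoImplicit false
set_option linter.unusedSectionVars false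

noncomputable section

open Set

namespace Crest.Agent.R017.E5M372

open Crest.Agent.R012 Crest.Agent.R012.Eis
open Crest.Agent.R012.LS2 (bl mem_bl)
open Crest.Agent.R017.FE47 (PU SM)
open Crest.Agent.R017.CM106
open Crest.Agent.R017.Sup271 (NPm)
open Crest.Agent.R017.XG702 (Pcs BG tot)
open Crest.Agent.R017.XT71 (Sys Win)
open Crest.Agent.R017.UM71
open Crest.Agent.R017.HP842 (Pc pc)
open Crest.Agent.R017.B770 Crest.Agent.R017.Prov71
open Crest.Agent.R017.ER911 Crest.Agent.R017.ExpC702 Crest.Agent.R017.SC777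
open Crest.Agent.R017.R8T70 Crest.Agent.R017.R8C918
open Crest.Agent.R017.E5P571 Crest.Agent.R017.E5B71 Crest.Agent.R017.YM61
open Crest.Agent.R017.BadK271

variable {Λ : Type*} {π : Λ → DPar} {h : ℝ → ℝ}

/-! ### principal `k` -/

open Classical in
/-- the box over the principal `k` -/
def PrinF (π : Λ → DPar) (h : ℝ → ℝ) (R : Λ → ℝ) (lam : Λ × Eis) (a : Bd) (ps : List Pq) : ℝ :=
  if a.ok ∧ lam.2 ∈ SM (π lam.1).n then
    ∑ k ∈ (PB (π lam.1).n ⌊Real.exp (a.l + R lam.1)⌋₊).filter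
        (fun k => ¬ (π lam.1).NP2 (lam.2 * k)), ‖PC h ((as3 a).map (Pt (π lam.1) lam.2)) k‖ *
      (‖PC h ((bs2 a ps).map (Pt (π lam.1) lam.2)) k‖ *
        ‖PC h ((amL ps).map (Pt (π lam.1) lam.2)) k‖)
  else 0

open Classical in
/-- principal `k`, all signs -/
def PsB (π : Λ → DPar) (h : ℝ → ℝ) (R : Λ → ℝ) (lam : Λ × Eis) (a : Bd) (ps : List Pq) : ℝ :=
  if a.ok then FB (π lam.1) h (a.l + shf R lam) (js5.map a.us ++ ps) else 0

theorem prinF_le (hN : ∀ lam, ∀ k : Eis, k ≠ 0 → NPm (π lam).n (π lam).ψ (π lam).l₂ k)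
    (R : Λ → ℝ) (lam : Λ × Eis) (a : Bd) (ps : List Pq) :
    PrinF π h R lam a ps ≤ PsB π h R lam a ps := by
  classical
  unfold PrinF
  by_cases hc : a.ok ∧ lam.2 ∈ SM (π lam.1).n
  · rw [if_pos hc]
    unfold PsB
    rw [if_pos hc.1]
    have ht : lam.2 ≠ 0 := hc.2.1
    have h1 := sum_PB_le (n := (π lam.1).n) ht (Y := a.l + R lam.1)
      (Q' := fun k => ¬ (π lam.1).NP2 (lam.2 * k))
      (Q := fun k => Bad (π lam.1) k) (fun k hk0 hk => by
        have h3 := hN lam.1 (lam.2 * k) (mul_ne_zero ht hk0)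
        exact ⟨h3, fun h4 => hk ⟨h4, h3⟩⟩)
      (F := fun k => ((js5.map a.us ++ ps).map (GG (π lam.1) h k)).prod)
      (fun k => prodGG_nonneg _ _ _ _)
    have e1 : a.l + R lam.1 + Real.log (nm lam.2) = a.l + shf R lam := by unfold shf; ring
    rw [e1] at h1
    refine le_trans (le_of_eq ?_) (h1.trans (le_of_eq ?_))
    · refine Finset.sum_congr rfl fun k _ => ?_
      rw [tail_term]
    · rfl
  · rw [if_neg hc]
    unfold PsB
    split_ifs
    · exact FB_nonneg _ _ _ _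
    · exact le_rfl

lemma zl_marks {a : Bd} (hok : a.ok) (js : List (Fin 5)) : ((js.map a.us).map zl).sum = 0 := by
  induction js with
  | nil => rfl
  | cons j js ih =>
    rw [List.map_cons, List.map_cons, List.sum_cons, ih, zl_of_lump (hok.1 j).1, add_zero]

/-- the exponent of the principal `k` -/
lemma prin_exp {A θ : ℝ} (hA : 99 / 100 ≤ A) (hθ : 7 / 8 ≤ θ) {p : Fin 3 ⊕ Fin 5 → ℝ}
    {w : Kd → ℝ} (hq : Nr5 A p w) :
    cκ p / 3 + w .mo + w .am + 1 / 10 ≤ T5 θ (p, w) - 1 / 2 := by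
  have hN := hq.Nlow
  have hMN := hq.MN
  have hk := hq.κpos
  have h0 := hq.κ0
  have h2 : 99 / 100 * cκ p ≤ A * cκ p := mul_le_mul_of_nonneg_right hA hk.le
  have hq1 := hq.q
  have hc := hq.c
  have t1 : (1 / 3 + 1 / 3 + θ * (2 - 2 * (1 / 3))) + ((cκ p - 1) +
      (cN p + cM p + w .mo - (2 - 2 * (1 / 3))) / 2 + (w .am - 1 / 3) / 2) ≤ T5 θ (p, w) := by
    unfold T5 Cone59.Tg
    gcongr
    exact le_max_left _ _
  linarith

set_option maxHeartbeats 1000000 in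
/-- **`PrinU`** : the principal `k` of class N, all near-equal lists -/
theorem psB_ub {c₀ : ℝ} (hpu : PU h c₀) (hP : ∀ lam, (π lam).OK) {A θ μ : ℝ}
    (hA : 99 / 100 ≤ A) (hθ : 7 / 8 ≤ θ) (hμ : μ ≤ 1 / 2) (R : Λ → ℝ) :
    UB S5 Dq (PsB π h R) {q | Nr5 A q.1 q.2} al5 (fun q => T5 θ q - μ) := by
  intro ε hε
  refine ⟨1 / 100, by norm_num, fun lam N B => ?_⟩
  obtain ⟨ε', hε'⟩ : ∃ ε' : ℝ, ε' = (1 / 100) / (|B| + 3) := ⟨_, rfl⟩
  have hε'0 : 0 < ε' := by rw [hε']; positivity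
  obtain ⟨C, hC, hbad⟩ := bad_abs (π lam.1) (hP _) hpu (N + 5) hε'0
  obtain ⟨δ', hδ'⟩ : ∃ δ' : ℝ, δ' = (1 / 100) / (4 * (N + 5) + 1) := ⟨_, rfl⟩
  have hδ'0 : 0 < δ' := by rw [hδ']; positivity
  have hδ'2 : 4 * (N + 5) * δ' ≤ 1 / 100 := by
    have h2 : (4 * (N + 5) + 1 : ℝ) * δ' = 1 / 100 := by
      rw [hδ']; field_simp
    nlinarith
  obtain ⟨g, hg⟩ : ∃ g : ℝ, g = Real.exp (shf R lam) := ⟨_, rfl⟩
  have hg0 : 0 < g := by rw [hg]; exact Real.exp_pos _
  obtain ⟨D, hD⟩ : ∃ D : ℝ, D = C * (1 + g) ^ ε' * g ^ (1 / 3 : ℝ) + 1 := ⟨_, rfl⟩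
  have hD1 : 1 ≤ D := by
    have : 0 ≤ C * (1 + g) ^ ε' * g ^ (1 / 3 : ℝ) := by positivity
    linarith
  obtain ⟨X₂, hX₂, HX₂⟩ := XSup271.exists_X hD1 (ε := 1 / 100) (by norm_num)
  refine ⟨δ', hδ'0, X₂, hX₂, fun X hX a ps h1 h2 q hq hw hm hgood hl => ?_⟩
  have hX1 : 1 < X := lt_of_lt_of_le hX₂ hX
  have hX0 : 0 < X := by linarith
  have hlX : 0 < Real.log X := Real.log_pos hX1
  unfold PsB
  split_ifs with hok
  swap
  · exact Real.rpow_nonneg hX0.le _
  unfold FB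
  have hal : a.l / Real.log X ≤ cκ q.1 + 1 / 100 := by
    have := (abs_le.1 (hw.ev (.inl 0))).2
    have h3 : a.l / Real.log X - cκ q.1 ≤ 1 / 100 := this
    linarith
  have hκ1 : cκ q.1 ≤ 1 := hq.κ1
  have hK : Real.exp (a.l + shf R lam) ≤ g * X ^ (cκ q.1 + 1 / 100) := by
    rw [Real.exp_add, ← hg, mul_comm]
    refine mul_le_mul_of_nonneg_left ?_ hg0.le
    rw [Real.rpow_def_of_pos hX0]
    refine Real.exp_le_exp.2 ?_
    rw [div_le_iff₀ hlX] at hal
    linarith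
  have hb := hbad (Real.exp (a.l + shf R lam)) (Real.exp_pos _) (X ^ |B|) (X ^ δ')
    (Real.one_le_rpow hX1.le (abs_nonneg B)) (Real.one_le_rpow hX1.le hδ'0.le)
    (js5.map a.us ++ ps) (by
      rw [List.length_append, List.length_map]
      have : js5.length = 5 := rfl
      omega)
    (fun p hp => by
      have h3 : Dq.s1 p ≤ X ^ δ' ∧ Dq.s2 p ≤ X ^ B := by
        rw [List.mem_append] at hp
        rcases hp with hp | hp
        · obtain ⟨j, _, rfl⟩ := List.mem_map.1 hp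
          exact ⟨(good_us hw hok j).1, (good_us hw hok j).2.1⟩
        · exact ⟨(hgood p hp).1, (hgood p hp).2.1⟩
      exact ⟨h3.2.trans (Real.rpow_le_rpow_of_exponent_le hX1.le (le_abs_self B)), h3.1⟩)
  refine hb.trans ?_
  have hz : ((js5.map a.us ++ ps).map zl).sum ≤
      Real.log X * (q.2 .mo + q.2 .am + 2 / 100) := by
    rw [List.map_append, List.sum_append, zl_marks hok, zero_add]
    refine (sum_zl_le ps fun p hp => (hgood p hp).2.2).trans ?_
    rw [sum_z_eq hX1]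
    refine mul_le_mul_of_nonneg_left ?_ hlX.le
    have m1 := (abs_le.1 (hm .mo)).2
    have m2 := (abs_le.1 (hm .am)).2
    linarith
  have e1 : Real.exp (((js5.map a.us ++ ps).map zl).sum) ≤ X ^ (q.2 .mo + q.2 .am + 2 / 100) := by
    rw [Real.rpow_def_of_pos hX0]
    exact Real.exp_le_exp.2 hz
  have e2 : (X ^ |B| * (1 + Real.exp (a.l + shf R lam))) ^ ε' ≤
      (1 + g) ^ ε' * X ^ (1 / 100 : ℝ) := by
    have h4 : 1 + Real.exp (a.l + shf R lam) ≤ (1 + g) * X ^ (2 : ℝ) := by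
      have h5 : X ^ (cκ q.1 + 1 / 100) ≤ X ^ (2 : ℝ) :=
        Real.rpow_le_rpow_of_exponent_le hX1.le (by linarith)
      have h6 : 1 ≤ X ^ (2 : ℝ) := Real.one_le_rpow hX1.le (by norm_num)
      have h7 : g * X ^ (cκ q.1 + 1 / 100) ≤ g * X ^ (2 : ℝ) :=
        mul_le_mul_of_nonneg_left h5 hg0.le
      linarith
    calc (X ^ |B| * (1 + Real.exp (a.l + shf R lam))) ^ ε' ≤
          (X ^ |B| * ((1 + g) * X ^ (2 : ℝ))) ^ ε' := by gcongr
      _ = (1 + g) ^ ε' * X ^ ((|B| + 2) * ε') := by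
          rw [Real.rpow_mul hX0.le, ← Real.mul_rpow (by positivity) (by positivity),
            Real.rpow_add hX0]
          congr 1
          ring
      _ ≤ _ := by
          have h4 : (|B| + 2) * ε' ≤ 1 / 100 := by
            rw [hε', mul_div_assoc', div_le_iff₀ (by positivity)]
            linarith [abs_nonneg B]
          have := Real.rpow_le_rpow_of_exponent_le hX1.le h4
          gcongr
  have e3 : (X ^ δ') ^ (4 * (N + 5)) ≤ X ^ (1 / 100 : ℝ) := by
    rw [← Real.rpow_natCast, ← Real.rpow_mul hX0.le]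
    refine Real.rpow_le_rpow_of_exponent_le hX1.le ?_
    have h7 : δ' * ((4 * (N + 5) : ℕ) : ℝ) = 4 * (N + 5) * δ' := by push_cast; ring
    rw [h7]
    exact hδ'2
  have e4 : Real.exp (a.l + shf R lam) ^ (1 / 3 : ℝ) ≤
      g ^ (1 / 3 : ℝ) * X ^ ((cκ q.1 + 1 / 100) / 3) := by
    refine (Real.rpow_le_rpow (Real.exp_pos _).le hK (by norm_num)).trans (le_of_eq ?_)
    rw [Real.mul_rpow hg0.le (Real.rpow_nonneg hX0.le _), ← Real.rpow_mul hX0.le]
    congr 2
    ring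
  have hD' : C * (1 + g) ^ ε' * g ^ (1 / 3 : ℝ) ≤ X ^ (1 / 100 : ℝ) := by
    have := HX₂ X hX
    linarith
  have hexp := prin_exp hA hθ hq
  calc C * (X ^ |B| * (1 + Real.exp (a.l + shf R lam))) ^ ε' * (X ^ δ') ^ (4 * (N + 5)) *
        (Real.exp (a.l + shf R lam) ^ (1 / 3 : ℝ) *
          Real.exp (((js5.map a.us ++ ps).map zl).sum))
      ≤ C * ((1 + g) ^ ε' * X ^ (1 / 100 : ℝ)) * X ^ (1 / 100 : ℝ) *
        ((g ^ (1 / 3 : ℝ) * X ^ ((cκ q.1 + 1 / 100) / 3)) *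
          X ^ (q.2 .mo + q.2 .am + 2 / 100)) := by gcongr
    _ = (C * (1 + g) ^ ε' * g ^ (1 / 3 : ℝ)) * (X ^ (1 / 100 : ℝ) * X ^ (1 / 100 : ℝ) *
        X ^ ((cκ q.1 + 1 / 100) / 3) * X ^ (q.2 .mo + q.2 .am + 2 / 100)) := by ring
    _ ≤ X ^ (1 / 100 : ℝ) * (X ^ (1 / 100 : ℝ) * X ^ (1 / 100 : ℝ) *
        X ^ ((cκ q.1 + 1 / 100) / 3) * X ^ (q.2 .mo + q.2 .am + 2 / 100)) := by
        refine mul_le_mul_of_nonneg_right hD' ?_
        positivity
    _ = X ^ (1 / 100 + (1 / 100 + 1 / 100 + (cκ q.1 + 1 / 100) / 3 +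
        (q.2 .mo + q.2 .am + 2 / 100))) := by
        rw [← Real.rpow_add hX0, ← Real.rpow_add hX0, ← Real.rpow_add hX0, ← Real.rpow_add hX0]
    _ ≤ _ := by
        refine Real.rpow_le_rpow_of_exponent_le hX1.le ?_
        linarith

/-- **`PrinU`** for the primary `k` -/
theorem prinU_372 {c₀ : ℝ} (hpu : PU h c₀) (hP : ∀ lam, (π lam).OK)
    (hN : ∀ lam, ∀ k : Eis, k ≠ 0 → NPm (π lam).n (π lam).ψ (π lam).l₂ k) {A θ μ : ℝ}
    (hA : 99 / 100 ≤ A) (hθ : 7 / 8 ≤ θ) (hμ : μ ≤ 1 / 2) (R : Λ → ℝ) :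
    UB S5 Dq (PrinF π h R) {q | Nr5 A q.1 q.2} al5 (fun q => T5 θ q - μ) :=
  ub_mono' le_rfl (fun _ _ => le_rfl) (fun lam a ps => prinF_le hN R lam a ps)
    (psB_ub hpu hP hA hθ hμ R)

/-! ### exponents of the tail -/

/-- `i ≥ n - (3/4) u₅` -/
def gA (d κ i n M u x q c : ℝ) : ℝ :=
  (κ - i) / 3 + ((2 / 3 * i + 4 / 3 * n + u / 2 + 16 / 5 * d * (u + x)) + EA d i M q c) / 2

/-- `i ≤ n - (3/4) u₅` -/
def gB (d κ i n M u x q c : ℝ) : ℝ :=
  (κ - i) / 3 + ((i + n + (3 / 4 + 2 * d) * (u + x)) + EA d i M q c) / 2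

lemma EA_mono {d i i' M q c : ℝ} (h : i ≤ i') :
    EA d i M q c + 5 / 12 * (i' - i) ≤ EA d i' M q c := by
  have := eC_mono (M := M) (c := c) h
  unfold EA
  linarith

lemma EA_mono_q {d i M q q' c : ℝ} (hd : 0 ≤ d) (h : q ≤ q') : EA d i M q c ≤ EA d i M q' c := by
  unfold EA
  have := mul_le_mul_of_nonneg_left h hd
  linarith

lemma gA_mono {d κ i i' n M u x q c : ℝ} (h : i ≤ i') :
    gA d κ i n M u x q c ≤ gA d κ i' n M u x q c := by
  have := EA_mono (d := d) (M := M) (q := q) (c := c) h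
  unfold gA
  linarith

lemma gB_mono {d κ i i' n M u x q c : ℝ} (h : i ≤ i') :
    gB d κ i n M u x q c ≤ gB d κ i' n M u x q c := by
  have := EA_mono (d := d) (M := M) (q := q) (c := c) h
  unfold gB
  linarith

/-- the exponent of the tail over the large cubes -/
def EX (d : ℝ) (q : (Fin 3 ⊕ Fin 5 → ℝ) × (Kd → ℝ)) : ℝ :=
  max (gA d (cκ q.1) (17 / 20 * cκ q.1) (cN q.1 + cx' q.1) (cM q.1) (cu q.1 4) (cx' q.1)
      (q.2 .mo) (q.2 .am - cx' q.1))
    (gB d (cκ q.1) (min (17 / 20 * cκ q.1) (cN q.1 + cx' q.1 - 3 / 4 * cu q.1 4))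
      (cN q.1 + cx' q.1) (cM q.1) (cu q.1 4) (cx' q.1) (q.2 .mo) (q.2 .am - cx' q.1))

lemma EX_cont (d : ℝ) : Continuous (EX d) := by
  unfold EX gA gB EA YM61.eC cN cM cκ cx' cu
  fun_prop

/-- the three-lump side, complete families -/
theorem rc_side3 {d : ℝ} {r s rc : EF} (R : ExpRules (7 / 8 + d) r s) (C : ExpC r rc)
    (hd : 0 ≤ d) (hd1 : d ≤ 1 / 8) {i y₁ y₂ y₃ x : ℝ} (hi : 0 ≤ i) (h1 : 0 ≤ y₁) (h2 : 0 ≤ y₂)
    (h3 : 0 ≤ y₃) (hx : 0 ≤ x) (hxy : 2 * x ≤ y₃)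
    (hi2 : i ≤ (y₁ + y₂ + y₃ + x) + 3 / 2 * y₃) :
    (rc i {y₁, y₂, y₃} 0 x ≤ 2 / 3 * i + 4 / 3 * (y₁ + y₂ + y₃ + x) + y₃ / 2 +
      16 / 5 * d * (y₃ + x)) ∨
    (i ≤ (y₁ + y₂ + y₃ + x) - 3 / 4 * y₃ ∧ rc i {y₁, y₂, y₃} 0 x ≤
      i + (y₁ + y₂ + y₃ + x) + (3 / 4 + 2 * d) * (y₃ + x)) := by
  have hok : Ok {y₁, y₂, y₃} 0 x := ok_triple h1 h2 h3 le_rfl hx
  rcases le_total ((y₁ + y₂ + y₃ + x) - 3 / 4 * y₃) i with h | h
  · left
    refine C.le i _ 0 x _ hi hok fun κ' k0 k1 => ?_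
    have := char3 R hd hd1 (m := 0) (a := x) (κ := i) h1 h2 h3 le_rfl hx (by linarith)
      (by linarith) (by linarith) κ' k0 k1
    rw [zero_add] at this
    exact this
  · right
    refine ⟨h, C.le i _ 0 x _ hi hok fun κ' k0 k1 => ?_⟩
    have e0 := drop3 R k0 h1 h2 h3 (le_refl (0 : ℝ)) hx
    have e1 := R.sup κ' {y₁, y₂} 0 x 0 x k0 (ok_pair h1 h2 le_rfl hx) le_rfl le_rfl hx le_rfl
    rw [sub_self, sub_self] at e1
    have e2 := tf0 R k0 h1 h2
    linarith

/-! ### the tail over the large cubes -/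

/-- near-equal configurations with an admissible share -/
def TaD (A : ℝ) : Set ((Fin 3 ⊕ Fin 5 → ℝ) × (Kd → ℝ)) :=
  {q | Nr5 A q.1 q.2 ∧ 0 ≤ cx' q.1 ∧ cx' q.1 ≤ q.2 .am ∧
    (cx' q.1 ≤ 0 ∨ cN q.1 + cx' q.1 ≤ 4 / 5 * cκ q.1)}

lemma Nr5.u5low {A : ℝ} (hA : 99 / 100 ≤ A) {p : Fin 3 ⊕ Fin 5 → ℝ} {w : Kd → ℝ}
    (hq : Nr5 A p w) : 0 ≤ cu p 4 := by
  obtain ⟨a1, a2, a3, a4, a5, a6, a7, a8, a9⟩ := hq
  obtain ⟨b1, b2, b3, b4⟩ := a3
  have hk : 0 < cκ p := by linarith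
  have hAk : 99 / 100 * cκ p ≤ A * cκ p := mul_le_mul_of_nonneg_right hA hk.le
  have hmo := a4 .mo
  unfold cN cM at a6
  unfold cN at a5
  linarith

lemma TaD_compact {A : ℝ} (hA : 99 / 100 ≤ A) : IsCompact (TaD A) := by
  rw [Metric.isCompact_iff_isClosed_bounded]
  constructor
  · have e : TaD A = {q : (Fin 3 ⊕ Fin 5 → ℝ) × (Kd → ℝ) | 8 / 9 ≤ cκ q.1} ∩
        ({q | cκ q.1 ≤ 1} ∩ ({q | cu q.1 1 ≤ cu q.1 0} ∩ ({q | cu q.1 2 ≤ cu q.1 1} ∩
        ({q | cu q.1 3 ≤ cu q.1 2} ∩ ({q | cu q.1 4 ≤ cu q.1 3} ∩ ({q | 0 ≤ q.2 .mo} ∩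
        ({q | 0 ≤ q.2 .am} ∩ ({q | A * cκ q.1 ≤ cN q.1 + cu q.1 4} ∩
        ({q | cN q.1 + cM q.1 + q.2 .mo ≤ 4 / 3} ∩ ({q | q.2 .am ≤ 1 / 3} ∩
        ({q | 0 ≤ ce q.1} ∩ ({q | cN q.1 + cM q.1 + q.2 .mo + ce q.1 - q.2 .am ≤ 1} ∩
        ({q | 0 ≤ cx' q.1} ∩ ({q | cx' q.1 ≤ q.2 .am} ∩
        ({q | cx' q.1 ≤ 0} ∪ {q | cN q.1 + cx' q.1 ≤ 4 / 5 * cκ q.1}))))))))))))))) := by
      ext q
      constructor
      · rintro ⟨⟨a1, a2, ⟨b1, b2, b3, b4⟩, a4, a5, a6, a7, a8, a9⟩, c1, c2, c3⟩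
        exact ⟨a1, a2, b1, b2, b3, b4, a4 _, a4 _, a5, a6, a7, a8, a9, c1, c2, c3⟩
      · rintro ⟨a1, a2, b1, b2, b3, b4, w1, w2, a5, a6, a7, a8, a9, c1, c2, c3⟩
        exact ⟨⟨a1, a2, ⟨b1, b2, b3, b4⟩, fun t => by cases t; exacts [w1, w2], a5, a6, a7, a8,
          a9⟩, c1, c2, c3⟩
    rw [e]
    unfold cN cM cκ cx' cu ce
    refine (isClosed_le (by fun_prop) (by fun_prop)).inter
      ((isClosed_le (by fun_prop) (by fun_prop)).inter
      ((isClosed_le (by fun_prop) (by fun_prop)).inter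
      ((isClosed_le (by fun_prop) (by fun_prop)).inter
      ((isClosed_le (by fun_prop) (by fun_prop)).inter
      ((isClosed_le (by fun_prop) (by fun_prop)).inter
      ((isClosed_le (by fun_prop) (by fun_prop)).inter
      ((isClosed_le (by fun_prop) (by fun_prop)).inter
      ((isClosed_le (by fun_prop) (by fun_prop)).inter
      ((isClosed_le (by fun_prop) (by fun_prop)).inter
      ((isClosed_le (by fun_prop) (by fun_prop)).inter
      ((isClosed_le (by fun_prop) (by fun_prop)).inter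
      ((isClosed_le (by fun_prop) (by fun_prop)).inter
      ((isClosed_le (by fun_prop) (by fun_prop)).inter
      ((isClosed_le (by fun_prop) (by fun_prop)).inter
      ((isClosed_le (by fun_prop) (by fun_prop)).union
        (isClosed_le (by fun_prop) (by fun_prop)))))))))))))))))
  · refine (Metric.isBounded_closedBall (x := (0 : (Fin 3 ⊕ Fin 5 → ℝ) × (Kd → ℝ)))
      (r := 2)).subset ?_
    rintro q ⟨hq, c1, c2, c3⟩
    have h5 := Nr5.u5low hA hq
    have hNl := hq.Nlow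
    have hMN := hq.MN
    obtain ⟨a1, a2, a3, a4, a5, a6, a7, a8, a9⟩ := hq
    obtain ⟨b1, b2, b3, b4⟩ := a3
    have hmo := a4 .mo
    have ham := a4 .am
    have hN0 : 0 ≤ cN q.1 := by unfold cN; linarith
    have hM0 : 0 ≤ cM q.1 := by unfold cM; linarith
    have hM1 : cu q.1 0 ≤ cM q.1 := by unfold cM; linarith
    rw [mem_closedBall_zero_iff, Prod.norm_def]
    refine max_le ?_ ?_
    · rw [pi_norm_le_iff_of_nonneg (by norm_num)]
      intro i
      rw [Real.norm_eq_abs]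
      rcases i with i | i
      · fin_cases i
        · exact abs_le.2 ⟨by show (-2 : ℝ) ≤ cκ q.1; linarith, by show cκ q.1 ≤ 2; linarith⟩
        · exact abs_le.2 ⟨by show (-2 : ℝ) ≤ cx' q.1; linarith, by show cx' q.1 ≤ 2; linarith⟩
        · exact abs_le.2 ⟨by show (-2 : ℝ) ≤ ce q.1; linarith, by show ce q.1 ≤ 2; linarith⟩
      · fin_cases i
        · exact abs_le.2 ⟨by show (-2 : ℝ) ≤ cu q.1 0; linarith, by show cu q.1 0 ≤ 2; linarith⟩
        · exact abs_le.2 ⟨by show (-2 : ℝ) ≤ cu q.1 1; linarith, by show cu q.1 1 ≤ 2; linarith⟩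
        · exact abs_le.2 ⟨by show (-2 : ℝ) ≤ cu q.1 2; linarith, by show cu q.1 2 ≤ 2; linarith⟩
        · exact abs_le.2 ⟨by show (-2 : ℝ) ≤ cu q.1 3; linarith, by show cu q.1 3 ≤ 2; linarith⟩
        · exact abs_le.2 ⟨by show (-2 : ℝ) ≤ cu q.1 4; linarith, by show cu q.1 4 ≤ 2; linarith⟩
    · rw [pi_norm_le_iff_of_nonneg (by norm_num)]
      intro t
      rw [Real.norm_eq_abs]
      cases t
      · exact abs_le.2 ⟨by linarith, by linarith⟩
      · exact abs_le.2 ⟨by linarith, by linarith⟩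

open Classical in
/-- the tail over the large cubes, all signs -/
def PsA (π : Λ → DPar) (h : ℝ → ℝ) (R : Λ → ℝ) (lam : Λ × Eis) (a : Bd) (ps : List Pq) : ℝ :=
  if a.ok then FA (π lam.1) h (Real.exp (a.l / 20)) (a.l + shf R lam) (js5.map a.us ++ ps) else 0

lemma FA_perm (P : DPar) (h : ℝ → ℝ) (E₁ l : ℝ) {ps qs : List Pq} (hp : ps.Perm qs) :
    FA P h E₁ l ps = FA P h E₁ l qs := by
  unfold FA
  exact Finset.sum_congr rfl fun k _ => (hp.map _).prod_eq

lemma FA_cons {P : DPar} (hP : P.OK) {C : ℝ}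
    (hC : ∀ (p : HP842.Pc) (k : Eis), p.OK → ‖CS (pc h p) k‖ ≤ C * p.Y) (E₁ l : ℝ) (p : Pq)
    (ps : List Pq) : FA P h E₁ l (p :: ps) ≤ C * Real.exp (Dq.len p) * FA P h E₁ l ps := by
  classical
  unfold FA
  rw [Finset.mul_sum]
  refine Finset.sum_le_sum fun k _ => ?_
  rw [List.map_cons, List.prod_cons]
  exact mul_le_mul_of_nonneg_right (hC _ k (Pq.ok hP p)) (prodGG_nonneg _ _ _ _)

lemma Bp_le_Bc (P : DPar) (h : ℝ → ℝ) (l : ℝ) (ps : List Pq) : Bp P h l ps ≤ Bc P h l ps := by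
  classical
  unfold Bp Bc BQ
  refine Finset.sum_le_sum_of_subset_of_nonneg ?_ fun k _ _ => List.prod_nonneg ?_
  · intro k hk
    rw [Finset.mem_filter] at hk ⊢
    exact ⟨hk.1, hk.2.1⟩
  · intro a ha
    obtain ⟨p, _, rfl⟩ := List.mem_map.1 ha
    positivity

lemma FA_neg (P : DPar) (h : ℝ → ℝ) (E₁ : ℝ) {l : ℝ} (hl : l < 0) (ps : List Pq) :
    FA P h E₁ l ps = 0 := by
  unfold FA
  rw [bl_exp_neg hl, Finset.filter_empty, Finset.sum_empty]

set_option maxHeartbeats 1000000 in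
/-- **the tail over the large cubes** -/
theorem tailA_ub {c₀ d A : ℝ} {r s : EF} (hpu : PU h c₀) (hP : ∀ lam, (π lam).OK)
    (Ru : ExpRules (7 / 8 + d) r s) (C : ExpC r (ex Dq (fun lam => Rc (π lam) h))) (hd : 0 ≤ d)
    (hd1 : d ≤ 1 / 8) (hA : 99 / 100 ≤ A) (R : Λ → ℝ) :
    UB S5 Dq (PsA π h R) (TaD A) al5 (EX d) := by
  classical
  obtain ⟨Cc, hC1, hC⟩ := TopC702.norm_CS_pc_le hpu
  have hh : Bump h := bump_of_cs hpu.cs
  refine ub_of_bgb (S := S5) (D := Dq) Kd.mo (fun lam a ps => ?_) (fun lam a ps qs hp => ?_)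
    (fun p => by simp only [Dq_s1]; positivity)
    (fun lam => ⟨Cc, 0, hC1, fun a p ps => ?_⟩) (fun p hp => ((Dq_lump p).1 hp).1)
    (TaD_compact hA) ?_ ?_ (EX_cont d) ?_ ?_ ?_
  · unfold PsA
    split_ifs
    · exact FA_nonneg _ _ _ _ _
    · exact le_rfl
  · unfold PsA
    rw [FA_perm _ _ _ _ (hp.append_left _)]
  · rw [pow_zero, mul_one]
    unfold PsA
    split_ifs
    · rw [FA_perm _ _ _ _ (List.perm_middle (a := p) (l₁ := js5.map a.us) (l₂ := ps))]
      exact FA_cons (hP _) hC _ _ _ _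
    · rw [mul_zero]
  · rintro q ⟨hq, _⟩ t
    exact hq.w0 t
  · rintro q ⟨hq, c1, c2, c3⟩ b hb0 hb1
    obtain ⟨a1, a2, a3, a4, a5, a6, a7, a8, a9⟩ := hq
    refine ⟨⟨a1, a2, a3, fun t => ?_, a5, ?_, ?_, a8, ?_⟩, c1, ?_, c3⟩
    · cases t
      · simp; exact hb1
      · simpa using a4 .am
    · simp only [Function.update_self]; linarith
    · simpa using a7
    · simp only [Function.update_self, ne_eq, reduceCtorEq, not_false_eq_true,
        Function.update_of_ne]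
      linarith
    · simpa using c2
  · rintro q ⟨hq, c1, c2, c3⟩ b hb0 hb1
    unfold EX gA gB
    simp only [Function.update_self, ne_eq, reduceCtorEq, not_false_eq_true,
        Function.update_of_ne]
    refine max_le_max ?_ ?_
    · have := EA_mono_q (d := d) (i := 17 / 20 * cκ q.1) (M := cM q.1) (c := q.2 .am - cx' q.1) hd
        (by linarith : q.2 .mo - b ≤ q.2 .mo)
      linarith
    · have := EA_mono_q (d := d)
        (i := min (17 / 20 * cκ q.1) (cN q.1 + cx' q.1 - 3 / 4 * cu q.1 4)) (M := cM q.1)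
        (c := q.2 .am - cx' q.1) hd (by linarith : q.2 .mo - b ≤ q.2 .mo)
      linarith
  · -- `al5` closed
    unfold al5 cu
    exact isClosed_le (by fun_prop) (by fun_prop)
  · -- boxes
    intro p u w hu hw hD _
    obtain ⟨hq, c1, c2, c3⟩ := hD
    have hk := hq.κpos
    have h5 := Nr5.u5low hA hq
    have hNl := hq.Nlow
    have hMN := hq.MN
    obtain ⟨a1, a2, a3, a4, a5, a6, a7, a8, a9⟩ := hq
    obtain ⟨b1, b2, b3, b4⟩ := a3
    simp only at h5 hNl hMN a1 a2 b1 b2 b3 b4 a5 a8 c1 c3 hk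
    simp only [XG702.tot_same] at a6 a9
    have eam : tot Kd.mo u.sum w Kd.am = w .am := XG702.tot_ne (by decide) _ _
    simp only [eam] at a7 a9 c2
    have hAk : 99 / 100 * cκ p ≤ A * cκ p := mul_le_mul_of_nonneg_right hA hk.le
    have hus : 0 ≤ u.sum := List.sum_nonneg fun x hx => (hu x hx).le
    have hwm := hw .mo
    have h34 : 0 ≤ cu p 3 := by linarith
    have h33 : 0 ≤ cu p 2 := by linarith
    have h31 : 0 ≤ cu p 1 := by linarith
    have h30 : 0 ≤ cu p 0 := by linarith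
    have hNs : cN p = cu p 2 + cu p 3 + cu p 4 := rfl
    have hMs : cM p = cu p 0 + cu p 1 := rfl
    refine bgb_cubes (Φ := fun lam => Bc (π lam) h) (fun lam : Λ × Eis => lam.1) (shf R) js5
      ?_ ?_ hk.le ?_
    · intro lam a ps hok _
      unfold PsA
      rw [if_pos hok]
      refine (FA_le (hP lam.1) hh _ _ _).trans ?_
      exact Finset.sum_le_sum fun m _ => Bp_le_Bc _ _ _ _
    · rintro lam a ps (hn | hn)
      · unfold PsA; rw [if_neg hn]
      · unfold PsA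
        rw [FA_neg _ _ _ hn]
        simp
    · intro i hi0 hi1
      have hx0 : 0 ≤ cx' p := c1
      have hxc : cx' p ≤ w .am := c2
      have hxu : 2 * cx' p ≤ cu p 4 := by
        rcases c3 with c3 | c3
        · linarith
        · linarith
      -- the two sides
      have hs1 := rc_side3 Ru C hd hd1 (i := i) (y₁ := cu p 2) (y₂ := cu p 3) (y₃ := cu p 4)
        (x := cx' p) hi0 h33 h34 h5 hx0 hxu (by linarith)
      have hs2 := rc_EA Ru C hd (κ := i) (u₁ := cu p 0) (u₂ := cu p 1) (m := w .mo)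
        (c := w .am - cx' p) (V := (u : Multiset ℝ)) hi0 h30 h31 hwm (by linarith)
        (fun y hy => (hu y (by simpa using hy)).le)
      rw [Multiset.sum_coe] at hs2
      have key : ∀ e₁ : ℝ, ex Dq (fun lam => Rc (π lam) h) i {cu p 2, cu p 3, cu p 4} 0 (cx' p) ≤
          e₁ → BG Dq (fun lam => Bc (π lam) h) i (js5.map (cu p) ++ u) w
            ((e₁ + EA d i (cu p 0 + cu p 1) (u.sum + w .mo) (w .am - cx' p)) / 2) := by
        intro e₁ he₁
        have B1 : BG Dq (fun lam => Rc (π lam) h) i [cu p 2, cu p 3, cu p 4] (wt 0 (cx' p)) e₁ :=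
          BG_of_ex (pinv_Rc π h) (XHB411.triv_Rc hP hpu) hi0
            ⟨fun y hy => by
              simp only [List.mem_cons, List.not_mem_nil, or_false] at hy
              rcases hy with rfl | rfl | rfl <;> assumption, le_rfl, hx0⟩ he₁
        have B2 : BG Dq (fun lam => Rc (π lam) h) i (u ++ [cu p 0, cu p 1])
            (wt (w .mo) (w .am - cx' p))
            (EA d i (cu p 0 + cu p 1) (u.sum + w .mo) (w .am - cx' p)) := by
          refine BG_of_ex (pinv_Rc π h) (XHB411.triv_Rc hP hpu) hi0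
            ⟨fun y hy => ?_, hwm, by linarith⟩ ?_
          · rw [List.mem_append] at hy
            rcases hy with hy | hy
            · exact (hu y hy).le
            · simp only [List.mem_cons, List.not_mem_nil, or_false] at hy
              rcases hy with rfl | rfl <;> assumption
          · rw [← Multiset.coe_add]
            exact hs2
        have B3 := XG702.BG.cauchy (Ψ := fun lam => Bc (π lam) h) B1 B2
          (fun t => wt_nonneg le_rfl hx0 t) (fun t => wt_nonneg hwm (by linarith) t)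
          (fun lam l ps p₁ p₂ hp => by
            have := BQ_cauchy (π lam).NP2 h l (hp.map (Pq.pc (π lam)) |>.trans
              (by rw [List.map_append]))
            exact this)
        have ew : (fun t => wt 0 (cx' p) t + wt (w .mo) (w .am - cx' p) t) = w := by
          funext t
          cases t
          · simp [wt]
          · simp [wt]
        rw [ew] at B3
        refine XG702.BG.perm (pinv_Bc π h) B3 ?_
        rw [← Multiset.coe_eq_coe]
        simp only [js5, List.map_cons, List.map_nil, ← Multiset.coe_add, ← Multiset.cons_coe,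
          Multiset.coe_nil]
        simp only [← Multiset.singleton_add, add_zero, Multiset.add_zero]
        abel
      have hmo : tot Kd.mo u.sum w Kd.mo = w .mo + u.sum := XG702.tot_same _ _ _
      rcases hs1 with hs1 | ⟨hi3, hs1⟩
      · refine (key _ hs1).mono ?_
        have g1 := gA_mono (d := d) (κ := cκ p) (n := cN p + cx' p) (M := cM p) (u := cu p 4)
          (x := cx' p) (q := tot Kd.mo u.sum w Kd.mo) (c := w .am - cx' p) hi1
        have g2 : gA d (cκ p) (17 / 20 * cκ p) (cN p + cx' p) (cM p) (cu p 4) (cx' p)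
            (tot Kd.mo u.sum w Kd.mo) (w .am - cx' p) ≤ EX d (p, tot Kd.mo u.sum w) := by
          unfold EX
          simp only [eam]
          exact le_max_left _ _
        have g3 := g1.trans g2
        unfold gA at g3
        rw [hmo, hMs, hNs, add_comm (w .mo)] at g3
        linarith
      · refine (key _ hs1).mono ?_
        have hi4 : i ≤ min (17 / 20 * cκ p) (cN p + cx' p - 3 / 4 * cu p 4) :=
          le_min hi1 (by rw [hNs]; linarith)
        have g1 := gB_mono (d := d) (κ := cκ p) (n := cN p + cx' p) (M := cM p) (u := cu p 4)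
          (x := cx' p) (q := tot Kd.mo u.sum w Kd.mo) (c := w .am - cx' p) hi4
        have g2 : gB d (cκ p) (min (17 / 20 * cκ p) (cN p + cx' p - 3 / 4 * cu p 4))
            (cN p + cx' p) (cM p) (cu p 4) (cx' p)
            (tot Kd.mo u.sum w Kd.mo) (w .am - cx' p) ≤ EX d (p, tot Kd.mo u.sum w) := by
          unfold EX
          simp only [eam]
          exact le_max_right _ _
        have g3 := g1.trans g2
        unfold gB at g3
        rw [hmo, hMs, hNs, add_comm (w .mo)] at g3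
        linarith

/-! ### the real inequality -/

lemma RE_hom {t κ M a c : ℝ} (ht : 0 ≤ t) : t * RE κ M a c = RE (t * κ) (t * M) (t * a) (t * c) := by
  unfold RE bm
  have e1 : t * max 0 (c - 7 / 9 * max 0 (κ - M)) =
      max 0 (t * c - 7 / 9 * max 0 (t * κ - t * M)) := by
    rw [mul_max_of_nonneg _ _ ht, mul_zero, mul_sub]
    congr 2
    rw [mul_left_comm, mul_max_of_nonneg _ _ ht, mul_zero, mul_sub]
  rw [← e1]
  ring

lemma EA_RE {d i M q c : ℝ} (h : i ≤ 4 * M) (hi : 0 ≤ i) :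
    EA d i M q c = RE i M q c + 2 * d * (q + c) := by
  have e : min (7 / 9 * max 0 (i - M)) (max 0 (2 / 3 * i - M / 3)) = 7 / 9 * max 0 (i - M) := by
    refine min_eq_left ?_
    rcases le_total i M with h1 | h1
    · rw [max_eq_left (by linarith : i - M ≤ 0), mul_zero]
      exact le_max_left _ _
    · rw [max_eq_right (by linarith : 0 ≤ i - M)]
      exact le_trans (by linarith) (le_max_right _ _)
  unfold EA RE YM61.eC bm
  rw [e]
  ring

/-- **the exponents on the domain of the square** -/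
theorem tail_exp {A d : ℝ} (hA : 99 / 100 ≤ A) (hd : 0 ≤ d) {p : Fin 3 ⊕ Fin 5 → ℝ}
    {w : Kd → ℝ} (hq : Sq5 A d p w) : EX d (p, w) ≤ T5 (7 / 8 + d) (p, w) - d / 9 := by
  have hN5 := hq.toNr5
  have hκ := hN5.κpos
  have hk : cκ p ≠ 0 := hκ.ne'
  have hx0 := hq.x0
  have hκ0 := hN5.κ0
  have hM4 : 17 / 20 * cκ p ≤ 4 * cM p := by
    have := hN5.Mlow hA
    linarith
  have hu5 := Nr5.u5low hA hN5
  have hNl := hN5.Nlow
  have hAk : 99 / 100 * cκ p ≤ A * cκ p := mul_le_mul_of_nonneg_right hA hκ.le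
  have h2 := Al_le (d := d) (q := cN p + cM p + w .mo) (c := w .am) hκ
  have e0 : cN p / cκ p + cM p / cκ p + w .mo / cκ p = (cN p + cM p + w .mo) / cκ p := by
    field_simp
  have hdk : 2 * (d / 9) ≤ cκ p * (1 / 4 * d) := by
    have := mul_le_mul_of_nonneg_right hκ0 (by linarith : 0 ≤ 1 / 4 * d)
    linarith
  unfold EX
  refine max_le ?_ ?_
  · have h1 := mul_le_mul_of_nonneg_left (hq.tl.T3 (17 / 20) le_rfl) hκ.le
    rw [e0] at h1
    have e1 : cκ p * RE (17 / 20) (cM p / cκ p) (w .mo / cκ p) (w .am / cκ p - cx' p / cκ p) =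
        RE (17 / 20 * cκ p) (cM p) (w .mo) (w .am - cx' p) := by
      rw [RE_hom hκ.le]
      congr 1 <;> field_simp
    have e2 : cκ p * (2 / 3 * (1 - 17 / 20) + (2 / 3 * (17 / 20) + 4 / 3 * (cN p / cκ p +
        cx' p / cκ p) + cu p 4 / cκ p / 2 + 16 / 5 * d * (cu p 4 / cκ p + cx' p / cκ p)) +
        (RE (17 / 20) (cM p / cκ p) (w .mo / cκ p) (w .am / cκ p - cx' p / cκ p) +
          2 * d * (w .mo / cκ p + w .am / cκ p - cx' p / cκ p))) =
        2 / 3 * (cκ p - 17 / 20 * cκ p) + (2 / 3 * (17 / 20 * cκ p) + 4 / 3 * (cN p + cx' p) +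
          cu p 4 / 2 + 16 / 5 * d * (cu p 4 + cx' p)) +
        (cκ p * RE (17 / 20) (cM p / cκ p) (w .mo / cκ p) (w .am / cκ p - cx' p / cκ p) +
          2 * d * (w .mo + (w .am - cx' p))) := by
      field_simp
      ring
    rw [e2, e1] at h1
    have e3 : cκ p * (2 + ((cN p + cM p + w .mo) / cκ p + w .am / cκ p) +
        (Al d (1 / cκ p) ((cN p + cM p + w .mo) / cκ p) (w .am / cκ p) - 1 / 4 * d)) =
        2 * cκ p + (cN p + cM p + w .mo + w .am) +
        cκ p * Al d (1 / cκ p) ((cN p + cM p + w .mo) / cκ p) (w .am / cκ p) -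
          cκ p * (1 / 4 * d) := by
      field_simp
      ring
    rw [e3] at h1
    unfold gA
    rw [EA_RE hM4 (by positivity)]
    unfold T5
    simp only
    linarith
  · obtain ⟨i, hi⟩ : ∃ i, i = min (17 / 20 * cκ p) (cN p + cx' p - 3 / 4 * cu p 4) := ⟨_, rfl⟩
    have hi1 : i ≤ 17 / 20 * cκ p := by rw [hi]; exact min_le_left _ _
    have hi2 : i ≤ cN p + cx' p - 3 / 4 * cu p 4 := by rw [hi]; exact min_le_right _ _
    have hu4N := hN5.u4N
    have hi0 : 0 ≤ i := by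
      rw [hi]
      refine le_min (by positivity) ?_
      linarith
    have hi2' : i / cκ p ≤ (cN p / cκ p + cx' p / cκ p) - 3 / 4 * (cu p 4 / cκ p) := by
      have e : (cN p / cκ p + cx' p / cκ p) - 3 / 4 * (cu p 4 / cκ p) =
          (cN p + cx' p - 3 / 4 * cu p 4) / cκ p := by field_simp
      rw [e]
      exact div_le_div_of_nonneg_right hi2 hκ.le
    have h1 := mul_le_mul_of_nonneg_left (hq.tl.T3l (i / cκ p) hi2') hκ.le
    rw [e0] at h1
    have e1 : cκ p * RE (i / cκ p) (cM p / cκ p) (w .mo / cκ p) (w .am / cκ p - cx' p / cκ p) =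
        RE i (cM p) (w .mo) (w .am - cx' p) := by
      rw [RE_hom hκ.le]
      congr 1 <;> field_simp
    have e2 : cκ p * (2 / 3 * (1 - i / cκ p) + (i / cκ p + (cN p / cκ p +
        cx' p / cκ p) + (3 / 4 + 2 * d) * (cu p 4 / cκ p + cx' p / cκ p)) +
        (RE (i / cκ p) (cM p / cκ p) (w .mo / cκ p) (w .am / cκ p - cx' p / cκ p) +
          2 * d * (w .mo / cκ p + w .am / cκ p - cx' p / cκ p))) =
        2 / 3 * (cκ p - i) + (i + (cN p + cx' p) + (3 / 4 + 2 * d) * (cu p 4 + cx' p)) +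
        (cκ p * RE (i / cκ p) (cM p / cκ p) (w .mo / cκ p) (w .am / cκ p - cx' p / cκ p) +
          2 * d * (w .mo + (w .am - cx' p))) := by
      field_simp
      ring
    rw [e2, e1] at h1
    have e3 : cκ p * (2 + ((cN p + cM p + w .mo) / cκ p + w .am / cκ p) +
        (Al d (1 / cκ p) ((cN p + cM p + w .mo) / cκ p) (w .am / cκ p) - 1 / 4 * d)) =
        2 * cκ p + (cN p + cM p + w .mo + w .am) +
        cκ p * Al d (1 / cκ p) ((cN p + cM p + w .mo) / cκ p) (w .am / cκ p) -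
          cκ p * (1 / 4 * d) := by
      field_simp
      ring
    rw [e3] at h1
    show gB d (cκ p) (min (17 / 20 * cκ p) (cN p + cx' p - 3 / 4 * cu p 4)) (cN p + cx' p)
      (cM p) (cu p 4) (cx' p) (w .mo) (w .am - cx' p) ≤ _
    rw [← hi]
    unfold gB
    rw [EA_RE (hi1.trans hM4) hi0]
    unfold T5
    simp only
    linarith

lemma SqD_sub {A d : ℝ} : SqD A d ⊆ TaD A := by
  intro q hq
  have hq' : Sq5 A d q.1 q.2 := hq
  refine ⟨hq'.toNr5, hq'.x0, hq'.xc, ?_⟩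
  have hκ := hq'.toNr5.κpos
  rcases hq'.tl.adm.2.2 with h1 | h1
  · left
    rw [div_eq_zero_iff] at h1
    rcases h1 with h1 | h1
    · exact h1.le
    · exact absurd h1 hκ.ne'
  · right
    rw [← add_div, div_le_iff₀ hκ] at h1
    exact h1

open Classical in
/-- the tail over the large cubes, primary `k` (helper968's text) -/
def TailN (π : Λ → DPar) (h : ℝ → ℝ) (R : Λ → ℝ) (lam : Λ × Eis) (a : Bd) (ps : List Pq) : ℝ :=
  if a.ok ∧ lam.2 ∈ SM (π lam.1).n then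
    ∑ k ∈ (PB (π lam.1).n ⌊Real.exp (a.l + R lam.1)⌋₊).filter
        (fun k => (π lam.1).NP2 (lam.2 * k) ∧ ¬ cutE (Real.exp (a.l / 20)) k),
      ‖PC h ((as3 a).map (Pt (π lam.1) lam.2)) k‖ *
        (‖PC h ((bs2 a ps).map (Pt (π lam.1) lam.2)) k‖ *
          ‖PC h ((amL ps).map (Pt (π lam.1) lam.2)) k‖)
  else 0

theorem tailN_le (R : Λ → ℝ) (lam : Λ × Eis) (a : Bd) (ps : List Pq) :
    TailN π h R lam a ps ≤ PsA π h R lam a ps := by
  classical
  unfold TailN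
  by_cases hc : a.ok ∧ lam.2 ∈ SM (π lam.1).n
  · rw [if_pos hc]
    unfold PsA
    rw [if_pos hc.1]
    have ht : lam.2 ≠ 0 := hc.2.1
    have h1 := sum_PB_le (n := (π lam.1).n) ht (Y := a.l + R lam.1)
      (Q' := fun k => (π lam.1).NP2 (lam.2 * k) ∧ ¬ cutE (Real.exp (a.l / 20)) k)
      (Q := fun k => (π lam.1).NP2 k ∧ Real.exp (a.l / 20) < nm (Lbc298.dc k).m)
      (fun k hk0 hk => by
        refine ⟨hk.1, ?_⟩
        have hcut := hk.2
        unfold cutE at hcut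
        push Not at hcut
        obtain ⟨c, _, hck, hlt⟩ := hcut
        have h2 : nm c ≤ nm (Lbc298.dc (lam.2 * k)).m :=
          nm_le_m (mul_ne_zero ht hk0) (hck.trans (dvd_mul_left _ _))
        exact hlt.trans_le (by exact_mod_cast h2))
      (F := fun k => ((js5.map a.us ++ ps).map (GG (π lam.1) h k)).prod)
      (fun k => prodGG_nonneg _ _ _ _)
    have e1 : a.l + R lam.1 + Real.log (nm lam.2) = a.l + shf R lam := by unfold shf; ring
    rw [e1] at h1
    refine le_trans (le_of_eq ?_) (h1.trans (le_of_eq ?_))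
    · refine Finset.sum_congr rfl fun k _ => ?_
      rw [tail_term]
    · unfold FA
      exact Finset.sum_congr (by congr) fun _ _ => rfl
  · rw [if_neg hc]
    unfold PsA
    split_ifs
    · exact FA_nonneg _ _ _ _ _
    · exact le_rfl

/-- **the tail over the large cubes, on the domain of the square**, every class -/
theorem psA_sq {c₀ d A μ : ℝ} {r s : EF} (hpu : PU h c₀) (hP : ∀ lam, (π lam).OK)
    (Ru : ExpRules (7 / 8 + d) r s) (C : ExpC r (ex Dq (fun lam => Rc (π lam) h))) (hd : 0 ≤ d)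
    (hd1 : d ≤ 1 / 8) (hA : 99 / 100 ≤ A) (hμ : μ ≤ d / 9) (R : Λ → ℝ) :
    UB S5 Dq (PsA π h R) (SqD A d) al5 (fun q => T5 (7 / 8 + d) q - μ) :=
  ub_mono' SqD_sub (fun q hq => by
    have := tail_exp hA hd (p := q.1) (w := q.2) hq
    have e : EX d q = EX d (q.1, q.2) := rfl
    have e' : T5 (7 / 8 + d) q = T5 (7 / 8 + d) (q.1, q.2) := rfl
    rw [e, e']
    linarith) (fun _ _ _ => le_rfl) (tailA_ub hpu hP Ru C hd hd1 hA R)

/-- **the NP2 half of `TailCU`**, every class -/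
theorem tailN_372 {c₀ d A μ : ℝ} {r s : EF} (hpu : PU h c₀) (hP : ∀ lam, (π lam).OK)
    (Ru : ExpRules (7 / 8 + d) r s) (C : ExpC r (ex Dq (fun lam => Rc (π lam) h))) (hd : 0 ≤ d)
    (hd1 : d ≤ 1 / 8) (hA : 99 / 100 ≤ A) (hμ : μ ≤ d / 9) (R : Λ → ℝ) :
    UB S5 Dq (TailN π h R) (SqD A d) al5 (fun q => T5 (7 / 8 + d) q - μ) :=
  ub_mono' le_rfl (fun _ _ => le_rfl) (fun lam a ps => tailN_le R lam a ps)
    (psA_sq hpu hP Ru C hd hd1 hA hμ R)

/-- **`TailCU`** (class N) -/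
theorem tailCU_372 {c₀ d A μ : ℝ} {r s : EF} (hpu : PU h c₀) (hP : ∀ lam, (π lam).OK)
    (hN : ∀ lam, ∀ k : Eis, k ≠ 0 → NPm (π lam).n (π lam).ψ (π lam).l₂ k)
    (Ru : ExpRules (7 / 8 + d) r s) (C : ExpC r (ex Dq (fun lam => Rc (π lam) h))) (hd : 0 ≤ d)
    (hd1 : d ≤ 1 / 8) (hA : 99 / 100 ≤ A) (hμ : μ ≤ d / 9) : TailCU π h (7 / 8 + d) A d μ := by
  classical
  intro R _
  have hA1 := psA_sq hpu hP Ru C hd hd1 hA hμ R
  have hB1 : UB S5 Dq (PsB π h R) (SqD A d) al5 (fun q => T5 (7 / 8 + d) q - μ) :=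
    ub_mono' (fun q hq => (hq : Sq5 A d q.1 q.2).toNr5) (fun _ _ => le_rfl)
      (fun _ _ _ => le_rfl) (psB_ub hpu hP hA (by linarith) (by linarith) R)
  refine ub_mono' le_rfl (fun _ _ => le_rfl) (fun lam a ps => ?_) (ub_add hA1 hB1)
  by_cases hok : a.ok
  · refine (tailC_le hN R lam a ps hok).trans (le_of_eq ?_)
    unfold PsA PsB
    rw [if_pos hok, if_pos hok]
  · have e : TailC π h R lam a ps = 0 := by
      unfold TailC; rw [if_neg fun h' => hok h'.1]
    rw [e]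
    unfold PsA PsB
    rw [if_neg hok, if_neg hok, add_zero]

end Crest.Agent.R017.E5M372
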