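import Crest.Agent.R017.E5BDefs_71

/-!
# Row 17: from the provider (`BG`, `ex`) to uniform bounds with marked lumps (helper61)

* `MkOK S D V fam mk i₀ js` : `mk lam a` = marked lumps of the base datum `a` (when `V lam a`), with
  exponents the coordinates `js` up to `O_lam(1 / log X)`; `fam lam a` = log of the family,
  exponent = coordinate `i₀` up to `O_lam(1 / log X)`
* `mkF V Φ fam mk` : the functional `Φ lam (fam lam a) (mk lam a ++ ps)`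
* `bgb_of_bg` : `BG` at the configuration gives `BGB`
* `ub_of_bg`, `ub_of_ex` : uniform bound over all lists, first moments (`hrem` with `e^{len p}`)
* `ub_of_bg2`, `ub_of_ex2` : the same for second moments (`hrem` with `e^{2 len p}`)
-/

set_option autoImplicit false
set_option linter.unusedSectionVars false

noncomputable section

open Set

namespace Crest.Agent.R017.UBR61

open Crest.Agent.R017.XG702 (Pcs BG tot)
open Crest.Agent.R017.XT71 (Sys Win)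
open Crest.Agent.R017.UM71 (BGB)
open Crest.Agent.R017.E5B71 (UB ub_of_bgb)
open Crest.Agent.R017.Prov71 (Kd wt Pinv Triv ex Okl)

variable {A Pc ι τ Λ : Type*} [DecidableEq τ]

/-- marked lumps of a base datum -/
structure MkOK (S : Sys A ι) (D : Pcs Pc τ) (V : Λ → A → Prop) (fam : Λ → A → ℝ)
    (mk : Λ → A → List Pc) (i₀ : ι) (js : List ι) : Prop where
  ok : ∀ lam, ∃ c : ℝ, 1 ≤ c ∧ ∀ a, V lam a → ∀ X : ℝ, 1 < X →
    |fam lam a - S.ev X a i₀ * Real.log X| ≤ c ∧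
    List.Forall₂ (fun p j => D.lump p ∧ |D.len p - S.ev X a j * Real.log X| ≤ c ∧ 0 ≤ D.len p ∧
      D.s1 p ≤ c * S.s₁ a ∧ D.s2 p ≤ c * S.s₂ a) (mk lam a) js

open Classical in
/-- the functional with marks -/
def mkF (V : Λ → A → Prop) (Φ : Λ → ℝ → List Pc → ℝ) (fam : Λ → A → ℝ)
    (mk : Λ → A → List Pc) : Λ → A → List Pc → ℝ :=
  fun lam a ps => if V lam a then Φ lam (fam lam a) (mk lam a ++ ps) else 0

variable {S : Sys A ι} {D : Pcs Pc τ} {V : Λ → A → Prop} {Φ : Λ → ℝ → List Pc → ℝ}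
  {fam : Λ → A → ℝ} {mk : Λ → A → List Pc} {i₀ : ι} {js : List ι}

lemma near_mk {X δ c s t : ℝ} {p : ι → ℝ} {ps : List Pc} {ks : List ι} {ev : ι → ℝ}
    (hX : 0 < Real.log X) (hc : c / Real.log X ≤ δ / 2) (hev : ∀ i, |ev i - p i| ≤ δ / 2)
    (h : List.Forall₂ (fun q j => D.lump q ∧ |D.len q - ev j * Real.log X| ≤ c ∧ 0 ≤ D.len q ∧
      D.s1 q ≤ s ∧ D.s2 q ≤ t) ps ks) :
    D.Near X δ ps (ks.map p) ∧ ∀ q ∈ ps, D.s1 q ≤ s ∧ D.s2 q ≤ t ∧ 0 ≤ D.len q := by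
  unfold Pcs.Near
  induction h with
  | nil => exact ⟨List.Forall₂.nil, by simp⟩
  | @cons q j ps ks h1 _ ih =>
    rw [List.map_cons]
    refine ⟨List.Forall₂.cons ⟨h1.1, ?_⟩ ih.1, ?_⟩
    · have e1 : D.nl X q - ev j = (D.len q - ev j * Real.log X) / Real.log X := by
        unfold Pcs.nl; field_simp
      have e2 : |D.nl X q - ev j| ≤ c / Real.log X := by
        rw [e1, abs_div, abs_of_pos hX]
        exact div_le_div_of_nonneg_right h1.2.1 hX.le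
      have := abs_sub_le (D.nl X q) (ev j) (p j)
      linarith [hev j]
    · intro q' hq'
      rcases List.mem_cons.1 hq' with rfl | hq'
      · exact ⟨h1.2.2.2.1, h1.2.2.2.2, h1.2.2.1⟩
      · exact ih.2 q' hq'

/-- **from `BG` to `BGB`** -/
theorem bgb_of_bg (M : MkOK S D V fam mk i₀ js) {p : ι → ℝ} {u : List ℝ} {w : τ → ℝ} {e : ℝ}
    (h : BG D Φ (p i₀) (js.map p ++ u) w e) : BGB S D (mkF V Φ fam mk) p u w e := by
  intro ε hε
  obtain ⟨δ, hδ, H⟩ := h ε hε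
  refine ⟨δ / 2, by linarith, fun lam N B => ?_⟩
  obtain ⟨δ', hδ', X₀, hX₀, H1⟩ := H lam N (B + 1)
  obtain ⟨c, hc1, hc⟩ := M.ok lam
  -- `X` large
  obtain ⟨X₁, hX₁⟩ : ∃ X₁ : ℝ, 2 * c / δ ≤ Real.log X₁ ∧ 1 < X₁ := by
    refine ⟨Real.exp (max 1 (2 * c / δ)), ?_, ?_⟩
    · rw [Real.log_exp]; exact le_max_right _ _
    · exact Real.one_lt_exp_iff.2 (lt_of_lt_of_le one_pos (le_max_left _ _))
  obtain ⟨X₂, hX₂, hX₂'⟩ : ∃ X₂ : ℝ, 1 < X₂ ∧ ∀ X, X₂ ≤ X → c ≤ X ^ (min (δ' / 2) 1) := by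
    have hm : 0 < min (δ' / 2) 1 := lt_min (by linarith) one_pos
    refine ⟨max 2 (c ^ (1 / min (δ' / 2) 1)), lt_of_lt_of_le one_lt_two (le_max_left _ _), ?_⟩
    intro X hX
    have h0 : 0 ≤ c ^ (1 / min (δ' / 2) 1) := Real.rpow_nonneg (by linarith) _
    have := Real.rpow_le_rpow h0 ((le_max_right _ _).trans hX) hm.le
    rwa [← Real.rpow_mul (by linarith), one_div_mul_cancel hm.ne', Real.rpow_one] at this
  refine ⟨min δ' (δ' / 2), lt_min hδ' (by linarith), max X₀ (max X₁ X₂),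
    lt_of_lt_of_le hX₀ (le_max_left _ _), ?_⟩
  intro X hX a us gs hw hn hg hG
  have hX0 : X₀ ≤ X := (le_max_left _ _).trans hX
  have hX1 : X₁ ≤ X := ((le_max_left _ _).trans (le_max_right _ _)).trans hX
  have hX2 : X₂ ≤ X := ((le_max_right _ _).trans (le_max_right _ _)).trans hX
  have hX3 : 1 < X := by linarith
  have hX4 : (0:ℝ) < X := by linarith
  have hlog : 0 < Real.log X := Real.log_pos hX3
  have hlog1 : Real.log X₁ ≤ Real.log X := Real.log_le_log (by linarith) hX1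
  have hcl : c / Real.log X ≤ δ / 2 := by
    rw [div_le_iff₀ hlog]
    have := hX₁.1
    rw [div_le_iff₀ hδ] at this
    nlinarith
  have hcX := hX₂' X hX2
  unfold mkF
  by_cases hV : V lam a
  · rw [if_pos hV]
    obtain ⟨f1, f2⟩ := hc a hV X hX3
    obtain ⟨n1, n2⟩ := near_mk (D := D) hlog hcl hw.ev f2
    have e1 : fam lam a = fam lam a / Real.log X * Real.log X := by field_simp
    rw [e1, ← List.append_assoc]
    refine H1 X hX0 _ _ _ ?_ ?_ (XG702.Gran_mono hg (by linarith) le_rfl) ?_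
    · have e2 : fam lam a / Real.log X - S.ev X a i₀ =
          (fam lam a - S.ev X a i₀ * Real.log X) / Real.log X := by field_simp
      have e3 : |fam lam a / Real.log X - S.ev X a i₀| ≤ c / Real.log X := by
        rw [e2, abs_div, abs_of_pos hlog]
        exact div_le_div_of_nonneg_right f1 hlog.le
      have := abs_sub_le (fam lam a / Real.log X) (S.ev X a i₀) (p i₀)
      linarith [hw.ev i₀]
    · have hn' := XG702.Near_mono (δ₂ := δ) hn (by linarith)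
      unfold Pcs.Near at n1 hn' ⊢
      exact List.rel_append n1 hn'
    · intro q hq
      rw [List.append_assoc, List.mem_append] at hq
      rcases hq with hq | hq
      · obtain ⟨m1, m2, m3⟩ := n2 q hq
        refine ⟨m1.trans ?_, m2.trans ?_, m3⟩
        · calc c * S.s₁ a ≤ c * X ^ (δ' / 2) :=
                mul_le_mul_of_nonneg_left (hw.s₁.trans
                  (Real.rpow_le_rpow_of_exponent_le hX3.le (min_le_right _ _))) (by linarith)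
            _ ≤ X ^ (δ' / 2) * X ^ (δ' / 2) :=
                mul_le_mul_of_nonneg_right (hcX.trans
                  (Real.rpow_le_rpow_of_exponent_le hX3.le (min_le_left _ _)))
                  (Real.rpow_nonneg hX4.le _)
            _ = X ^ δ' := by rw [← Real.rpow_add hX4]; congr 1; ring
        · calc c * S.s₂ a ≤ c * X ^ B := mul_le_mul_of_nonneg_left hw.s₂ (by linarith)
            _ ≤ X ^ (1 : ℝ) * X ^ B :=
                mul_le_mul_of_nonneg_right (hcX.trans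
                  (Real.rpow_le_rpow_of_exponent_le hX3.le (min_le_right _ _)))
                  (Real.rpow_nonneg hX4.le _)
            _ = X ^ (B + 1) := by rw [← Real.rpow_add hX4]; congr 1; ring
      · obtain ⟨m1, m2, m3⟩ := hG q hq
        exact ⟨m1.trans (Real.rpow_le_rpow_of_exponent_le hX3.le (min_le_left _ _)),
          m2.trans (Real.rpow_le_rpow_of_exponent_le hX3.le (by linarith)), m3⟩
  · rw [if_neg hV]
    exact Real.rpow_nonneg (by linarith) _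

lemma mkF_nonneg (h0 : ∀ lam l ps, 0 ≤ Φ lam l ps) (lam : Λ) (a : A) (ps : List Pc) :
    0 ≤ mkF V Φ fam mk lam a ps := by
  unfold mkF
  split_ifs
  · exact h0 _ _ _
  · exact le_rfl

lemma mkF_perm (hp : Pinv Φ) (lam : Λ) (a : A) (ps qs : List Pc) (h : ps.Perm qs) :
    mkF V Φ fam mk lam a ps = mkF V Φ fam mk lam a qs := by
  unfold mkF
  rw [hp lam (fam lam a) _ _ (h.append_left (mk lam a))]

lemma mkF_rem (hp : Pinv Φ) {lam : Λ} {C s : ℝ} {N : ℕ}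
    (hrem : ∀ l p ps, Φ lam l (p :: ps) ≤
      C * (1 + D.s1 p) ^ N * Real.exp (s * D.len p) * Φ lam l ps) (a : A) (p : Pc) (ps : List Pc) :
    mkF V Φ fam mk lam a (p :: ps) ≤
      C * (1 + D.s1 p) ^ N * Real.exp (s * D.len p) * mkF V Φ fam mk lam a ps := by
  unfold mkF
  split_ifs
  · rw [hp lam (fam lam a) (mk lam a ++ p :: ps) (p :: (mk lam a ++ ps)) List.perm_middle]
    exact hrem _ _ _
  · rw [mul_zero]

/-- **uniform bound over all lists, from `BG` at the configurations** (first moments) -/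
theorem ub_of_bg [Fintype ι] [Fintype τ] (t₀ : τ) (M : MkOK S D V fam mk i₀ js)
    (h0 : ∀ lam l ps, 0 ≤ Φ lam l ps) (hperm : Pinv Φ) (hs1 : ∀ p, 0 ≤ D.s1 p)
    (hrem : ∀ lam, ∃ (C : ℝ) (N : ℕ), 1 ≤ C ∧ ∀ l p ps,
      Φ lam l (p :: ps) ≤ C * (1 + D.s1 p) ^ N * Real.exp (D.len p) * Φ lam l ps)
    (hkind : ∀ p, D.lump p → D.kind p = t₀) {Dom : Set ((ι → ℝ) × (τ → ℝ))}
    (hDom : IsCompact Dom) (hnn : ∀ q ∈ Dom, ∀ t, 0 ≤ q.2 t)
    (hdown : ∀ q ∈ Dom, ∀ b, 0 ≤ b → b ≤ q.2 t₀ →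
      (q.1, Function.update q.2 t₀ (q.2 t₀ - b)) ∈ Dom) {E : (ι → ℝ) × (τ → ℝ) → ℝ}
    (hE : Continuous E)
    (hEm : ∀ q ∈ Dom, ∀ b, 0 ≤ b → b ≤ q.2 t₀ →
      E (q.1, Function.update q.2 t₀ (q.2 t₀ - b)) ≤ E q)
    {al : Set ((ι → ℝ) × ℝ)} (hal : IsClosed al)
    (hbox : ∀ (p : ι → ℝ) (u : List ℝ) (w : τ → ℝ), (∀ x ∈ u, 0 < x) → (∀ t, 0 ≤ w t) →
      (p, tot t₀ u.sum w) ∈ Dom → (∀ x ∈ u, (p, x) ∈ al) →
      BG D Φ (p i₀) (js.map p ++ u) w (E (p, tot t₀ u.sum w))) :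
    UB S D (mkF V Φ fam mk) Dom al E :=
  ub_of_bgb t₀ (mkF_nonneg h0) (mkF_perm hperm) hs1
    (fun lam => by
      obtain ⟨C, N, hC, h⟩ := hrem lam
      refine ⟨C, N, hC, fun l p ps => ?_⟩
      have := mkF_rem (V := V) (fam := fam) (mk := mk) hperm (lam := lam) (C := C) (N := N)
        (s := 1) (D := D) (by simpa using h) l p ps
      simpa using this)
    hkind hDom hnn hdown hE hEm hal
    fun p u w hu hw hD hA => bgb_of_bg M (hbox p u w hu hw hD hA)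

/-- square roots: `UB` of `√Ψ` gives `UB` of `Ψ` -/
theorem ub_of_sqrt {Ψ : Λ → A → List Pc → ℝ} (h0 : ∀ lam a ps, 0 ≤ Ψ lam a ps)
    {Dom : Set ((ι → ℝ) × (τ → ℝ))} {al : Set ((ι → ℝ) × ℝ)} {E : (ι → ℝ) × (τ → ℝ) → ℝ}
    (h : UB S D (fun lam a ps => Real.sqrt (Ψ lam a ps)) Dom al (fun q => E q / 2)) :
    UB S D Ψ Dom al E := by
  intro ε hε
  obtain ⟨δ, hδ, H⟩ := h (ε / 2) (by linarith)
  refine ⟨δ, hδ, fun lam N B => ?_⟩
  obtain ⟨δ', hδ', X₀, hX₀, H1⟩ := H lam N B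
  refine ⟨δ', hδ', X₀, hX₀, fun X hX a ps h1 h2 q hq hw hm hg hl => ?_⟩
  have := H1 X hX a ps h1 h2 q hq hw hm hg hl
  have hX0 : (0 : ℝ) < X := by linarith
  calc Ψ lam a ps = Real.sqrt (Ψ lam a ps) ^ 2 := (Real.sq_sqrt (h0 lam a ps)).symm
    _ ≤ (X ^ (E q / 2 + ε / 2)) ^ 2 := pow_le_pow_left₀ (Real.sqrt_nonneg _) this 2
    _ = X ^ (E q + ε) := by
      rw [← Real.rpow_natCast, ← Real.rpow_mul hX0.le]
      congr 1; push_cast; ring

/-- square roots: `BGB` of `Ψ` gives `BGB` of `√Ψ` -/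
theorem bgb_sqrt {Ψ : Λ → A → List Pc → ℝ} {p : ι → ℝ} {u : List ℝ} {w : τ → ℝ} {e : ℝ}
    (h : BGB S D Ψ p u w e) :
    BGB S D (fun lam a ps => Real.sqrt (Ψ lam a ps)) p u w (e / 2) := by
  intro ε hε
  obtain ⟨δ, hδ, H⟩ := h (2 * ε) (by linarith)
  refine ⟨δ, hδ, fun lam N B => ?_⟩
  obtain ⟨δ', hδ', X₀, hX₀, H1⟩ := H lam N B
  refine ⟨δ', hδ', X₀, hX₀, fun X hX a us gs hw hn hg hG => ?_⟩
  have := H1 X hX a us gs hw hn hg hG
  have hX0 : (0 : ℝ) < X := by linarith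
  refine Real.sqrt_le_iff.2 ⟨Real.rpow_nonneg hX0.le _, this.trans (le_of_eq ?_)⟩
  rw [← Real.rpow_natCast, ← Real.rpow_mul hX0.le]
  congr 1; push_cast; ring

/-- removable pieces of a second moment, after the square root -/
lemma rem_sqrt {C s x y : ℝ} {N : ℕ} {z : ℝ} (hC : 1 ≤ C) (hz : 0 ≤ z)
    (h : x ≤ C * (1 + z) ^ N * Real.exp (2 * s) * y) :
    Real.sqrt x ≤ C * (1 + z) ^ N * Real.exp s * Real.sqrt y := by
  have h1 : 1 ≤ (1 + z) ^ N := one_le_pow₀ (by linarith)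
  have h2 : 1 ≤ C * (1 + z) ^ N := by nlinarith
  generalize C * (1 + z) ^ N = K at h h2 ⊢
  refine (Real.sqrt_le_sqrt h).trans ?_
  have e1 : K * Real.exp (2 * s) * y = K * (Real.exp s ^ 2 * y) := by
    rw [← Real.exp_nat_mul]; push_cast; ring
  rw [e1, Real.sqrt_mul (by linarith), Real.sqrt_mul (by positivity),
    Real.sqrt_sq (Real.exp_pos s).le, mul_assoc]
  refine mul_le_mul_of_nonneg_right ?_ (by positivity)
  exact Real.sqrt_le_iff.2 ⟨by linarith, by nlinarith⟩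

/-- **uniform bound over all lists, from `BG` at the configurations** (second moments) -/
theorem ub_of_bg2 [Fintype ι] [Fintype τ] (t₀ : τ) (M : MkOK S D V fam mk i₀ js)
    (h0 : ∀ lam l ps, 0 ≤ Φ lam l ps) (hperm : Pinv Φ) (hs1 : ∀ p, 0 ≤ D.s1 p)
    (hrem : ∀ lam, ∃ (C : ℝ) (N : ℕ), 1 ≤ C ∧ ∀ l p ps,
      Φ lam l (p :: ps) ≤ C * (1 + D.s1 p) ^ N * Real.exp (2 * D.len p) * Φ lam l ps)
    (hkind : ∀ p, D.lump p → D.kind p = t₀) {Dom : Set ((ι → ℝ) × (τ → ℝ))}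
    (hDom : IsCompact Dom) (hnn : ∀ q ∈ Dom, ∀ t, 0 ≤ q.2 t)
    (hdown : ∀ q ∈ Dom, ∀ b, 0 ≤ b → b ≤ q.2 t₀ →
      (q.1, Function.update q.2 t₀ (q.2 t₀ - b)) ∈ Dom) {E : (ι → ℝ) × (τ → ℝ) → ℝ}
    (hE : Continuous E)
    (hEm : ∀ q ∈ Dom, ∀ b, 0 ≤ b → b ≤ q.2 t₀ →
      E (q.1, Function.update q.2 t₀ (q.2 t₀ - b)) ≤ E q)
    {al : Set ((ι → ℝ) × ℝ)} (hal : IsClosed al)
    (hbox : ∀ (p : ι → ℝ) (u : List ℝ) (w : τ → ℝ), (∀ x ∈ u, 0 < x) → (∀ t, 0 ≤ w t) →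
      (p, tot t₀ u.sum w) ∈ Dom → (∀ x ∈ u, (p, x) ∈ al) →
      BG D Φ (p i₀) (js.map p ++ u) w (E (p, tot t₀ u.sum w))) :
    UB S D (mkF V Φ fam mk) Dom al E := by
  refine ub_of_sqrt (mkF_nonneg h0) ?_
  refine ub_of_bgb t₀ (fun _ _ _ => Real.sqrt_nonneg _)
    (fun lam a ps qs h => by rw [mkF_perm hperm lam a ps qs h]) hs1 (fun lam => ?_)
    hkind hDom hnn hdown (hE.div_const 2) (fun q hq b h1 h2 => by linarith [hEm q hq b h1 h2]) hal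
    fun p u w hu hw hD hA => bgb_sqrt (bgb_of_bg M (hbox p u w hu hw hD hA))
  obtain ⟨C, N, hC, h⟩ := hrem lam
  refine ⟨C, N, hC, fun l p ps => rem_sqrt hC (hs1 p) ?_⟩
  exact mkF_rem (V := V) (fam := fam) (mk := mk) hperm (lam := lam) (C := C) (N := N)
    (s := 2) (D := D) h l p ps

section ex

variable {D : Pcs Pc Kd}

lemma bg_box {Dom : Set ((ι → ℝ) × (Kd → ℝ))} {al : Set ((ι → ℝ) × ℝ)}
    {E : (ι → ℝ) × (Kd → ℝ) → ℝ} (hperm : Pinv Φ) (htriv : Triv D Φ)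
    (hmk : ∀ q ∈ Dom, 0 ≤ q.1 i₀ ∧ ∀ j ∈ js, 0 ≤ q.1 j)
    (hbox : ∀ (p : ι → ℝ) (u : List ℝ) (m a : ℝ), (∀ x ∈ u, 0 < x) → 0 ≤ m → 0 ≤ a →
      (p, wt (u.sum + m) a) ∈ Dom → (∀ x ∈ u, (p, x) ∈ al) →
      ex D Φ (p i₀) (js.map p ++ u : List ℝ) m a ≤ E (p, wt (u.sum + m) a))
    (p : ι → ℝ) (u : List ℝ) (w : Kd → ℝ) (hu : ∀ x ∈ u, 0 < x) (hw : ∀ t, 0 ≤ w t)
    (hD : (p, tot Kd.mo u.sum w) ∈ Dom) (hA : ∀ x ∈ u, (p, x) ∈ al) :
    BG D Φ (p i₀) (js.map p ++ u) w (E (p, tot Kd.mo u.sum w)) := by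
  have e1 : tot Kd.mo u.sum w = wt (u.sum + w Kd.mo) (w Kd.am) := by
    funext t
    unfold tot
    cases t <;> simp [wt, add_comm]
  have e2 : w = wt (w Kd.mo) (w Kd.am) := by
    funext t
    cases t <;> rfl
  rw [e1] at hD ⊢
  have h1 := hbox p u (w Kd.mo) (w Kd.am) hu (hw _) (hw _) hD hA
  have h2 := hmk _ hD
  have h3 := Prov71.BG_of_ex hperm htriv h2.1 (u := js.map p ++ u) ⟨by
    intro y hy
    rw [List.mem_append, List.mem_map] at hy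
    rcases hy with ⟨j, hj, rfl⟩ | hy
    · exact h2.2 j hj
    · exact (hu y hy).le, hw _, hw _⟩ h1
  rw [← e2] at h3
  exact h3

/-- **uniform bound over all lists, from the exponent function of the provider** (first moments) -/
theorem ub_of_ex [Fintype ι] (M : MkOK S D V fam mk i₀ js)
    (h0 : ∀ lam l ps, 0 ≤ Φ lam l ps) (hperm : Pinv Φ) (htriv : Triv D Φ)
    (hs1 : ∀ p, 0 ≤ D.s1 p)
    (hrem : ∀ lam, ∃ (C : ℝ) (N : ℕ), 1 ≤ C ∧ ∀ l p ps,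
      Φ lam l (p :: ps) ≤ C * (1 + D.s1 p) ^ N * Real.exp (D.len p) * Φ lam l ps)
    (hkind : ∀ p, D.lump p → D.kind p = Kd.mo) {Dom : Set ((ι → ℝ) × (Kd → ℝ))}
    (hDom : IsCompact Dom) (hnn : ∀ q ∈ Dom, ∀ t, 0 ≤ q.2 t)
    (hmk : ∀ q ∈ Dom, 0 ≤ q.1 i₀ ∧ ∀ j ∈ js, 0 ≤ q.1 j)
    (hdown : ∀ q ∈ Dom, ∀ b, 0 ≤ b → b ≤ q.2 Kd.mo →
      (q.1, Function.update q.2 Kd.mo (q.2 Kd.mo - b)) ∈ Dom) {E : (ι → ℝ) × (Kd → ℝ) → ℝ}
    (hE : Continuous E)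
    (hEm : ∀ q ∈ Dom, ∀ b, 0 ≤ b → b ≤ q.2 Kd.mo →
      E (q.1, Function.update q.2 Kd.mo (q.2 Kd.mo - b)) ≤ E q)
    {al : Set ((ι → ℝ) × ℝ)} (hal : IsClosed al)
    (hbox : ∀ (p : ι → ℝ) (u : List ℝ) (m a : ℝ), (∀ x ∈ u, 0 < x) → 0 ≤ m → 0 ≤ a →
      (p, wt (u.sum + m) a) ∈ Dom → (∀ x ∈ u, (p, x) ∈ al) →
      ex D Φ (p i₀) (js.map p ++ u : List ℝ) m a ≤ E (p, wt (u.sum + m) a)) :
    UB S D (mkF V Φ fam mk) Dom al E :=
  ub_of_bg (t₀ := Kd.mo) M h0 hperm hs1 hrem hkind hDom hnn hdown hE hEm hal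
    (bg_box hperm htriv hmk hbox)

/-- **uniform bound over all lists, from the exponent function of the provider** (second
moments) -/
theorem ub_of_ex2 [Fintype ι] (M : MkOK S D V fam mk i₀ js)
    (h0 : ∀ lam l ps, 0 ≤ Φ lam l ps) (hperm : Pinv Φ) (htriv : Triv D Φ)
    (hs1 : ∀ p, 0 ≤ D.s1 p)
    (hrem : ∀ lam, ∃ (C : ℝ) (N : ℕ), 1 ≤ C ∧ ∀ l p ps,
      Φ lam l (p :: ps) ≤ C * (1 + D.s1 p) ^ N * Real.exp (2 * D.len p) * Φ lam l ps)
    (hkind : ∀ p, D.lump p → D.kind p = Kd.mo) {Dom : Set ((ι → ℝ) × (Kd → ℝ))}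
    (hDom : IsCompact Dom) (hnn : ∀ q ∈ Dom, ∀ t, 0 ≤ q.2 t)
    (hmk : ∀ q ∈ Dom, 0 ≤ q.1 i₀ ∧ ∀ j ∈ js, 0 ≤ q.1 j)
    (hdown : ∀ q ∈ Dom, ∀ b, 0 ≤ b → b ≤ q.2 Kd.mo →
      (q.1, Function.update q.2 Kd.mo (q.2 Kd.mo - b)) ∈ Dom) {E : (ι → ℝ) × (Kd → ℝ) → ℝ}
    (hE : Continuous E)
    (hEm : ∀ q ∈ Dom, ∀ b, 0 ≤ b → b ≤ q.2 Kd.mo →
      E (q.1, Function.update q.2 Kd.mo (q.2 Kd.mo - b)) ≤ E q)
    {al : Set ((ι → ℝ) × ℝ)} (hal : IsClosed al)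
    (hbox : ∀ (p : ι → ℝ) (u : List ℝ) (m a : ℝ), (∀ x ∈ u, 0 < x) → 0 ≤ m → 0 ≤ a →
      (p, wt (u.sum + m) a) ∈ Dom → (∀ x ∈ u, (p, x) ∈ al) →
      ex D Φ (p i₀) (js.map p ++ u : List ℝ) m a ≤ E (p, wt (u.sum + m) a)) :
    UB S D (mkF V Φ fam mk) Dom al E :=
  ub_of_bg2 (t₀ := Kd.mo) M h0 hperm hs1 hrem hkind hDom hnn hdown hE hEm hal
    (bg_box hperm htriv hmk hbox)

end ex

end Crest.Agent.R017.UBR61
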