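import Crest.Agent.R017.E5Dom_71
import Crest.Agent.R017.UBR_61
import Crest.Agent.R017.AbsS_918
import Crest.Agent.R017.TopC_702
import Crest.Agent.R017.E5A2_71

/-!
# Row 17, P8: the absolute near-equal boxes (helper71)

* `absR_of_nearS` : the real input from helper918's `NearS`
* `BcF` : complete absolute sum of the box over the `k` with `NP2`
* `bcU_of` : **uniform bound of `BcF` on the absolute boxes**, any class
-/

set_option autoImplicit false

noncomputable section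

open Set

namespace Crest.Agent.R017.E5B71

open Crest.Agent.R012 Crest.Agent.R012.Eis
open Crest.Agent.R017.Prov71 Crest.Agent.R017.R8C918 Crest.Agent.R017.ER911
open Crest.Agent.R017.B770
open Crest.Agent.R017.XG702 (Pcs BG)
open Crest.Agent.R017.XT71 (Sys Win mx one_le_mx le_mx)
open Crest.Agent.R017.UM71 Crest.Agent.R017.UBR61
open Crest.Agent.R017.Cone59

/-- the real input from helper918's theorem -/
theorem absR_of_nearS {A d μ : ℝ} {bc : EF} (hA : 95 / 100 ≤ A)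
    (h : NearS (7 / 8 + d) A d μ bc) : AbsR A d (7 / 8 * d) μ bc := by
  intro p V m c hV0 hV hm hc hab
  have hN : Nr5 A p (wt (V.sum + m) c) := hab.toNr5
  have e1 : wt (V.sum + m) c .mo = V.sum + m := rfl
  have e2 : wt (V.sum + m) c .am = c := rfl
  have h2 := hab.ab
  rw [e1, e2] at h2
  have hs : ((V : Multiset ℝ)).sum = V.sum := Multiset.sum_coe V
  have hq := hN.q
  have hc3 := hN.c
  have hD := hN.D
  have he := hN.e0
  have hnear := hN.near
  rw [e1] at hq hD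
  rw [e2] at hc3 hD
  unfold cN cM at hq hD h2
  unfold cN at hnear
  have key := h (cκ p) m c (cu p 0) (cu p 1) (cu p 2) (cu p 3) (cu p 4) (V : Multiset ℝ)
    hN.anti.1 hN.anti.2.1 hN.anti.2.2.1 hN.anti.2.2.2 (hN.u4pos hA)
    (fun v hv => ⟨hV0 v (by simpa using hv), hV v (by simpa using hv)⟩) hm hc hN.κ0 hN.κ1
    hnear (by rw [hs]; linarith) hc3 (by rw [hs]; linarith) (by rw [hs]; exact h2)
  rw [hs] at key
  unfold T5 cN cM
  rw [← Tg2_eq]
  exact key

/-! ### the functional -/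

/-- the five marked pieces -/
def mk5 (a : Bd) : List Pq := [a.us 0, a.us 1, a.us 2, a.us 3, a.us 4]

/-- the marked pieces are smooth, not short -/
def V5 (a : Bd) : Prop := ∀ i, Dq.lump (a.us i) ∧ 0 ≤ (a.us i).z

section
variable {Λ : Type*} (π : Λ → DPar) (h : ℝ → ℝ)

/-- complete absolute sum of the box over the `k` with `NP2`, family `e^{l + c}` -/
def BcF (c : Λ × Eis → ℝ) : Λ × Eis → Bd → List Pq → ℝ :=
  mkF (fun _ a => V5 a) (fun lam l ps => Bc (π lam.1) h l ps) (fun lam a => a.l + c lam)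
    (fun _ a => mk5 a)

end

lemma mkOK5 {Λ : Type*} (c : Λ → ℝ) : MkOK S5 Dq (fun (_ : Λ) a => V5 a)
    (fun lam a => a.l + c lam) (fun _ a => mk5 a) (.inl 0)
    [.inr 0, .inr 1, .inr 2, .inr 3, .inr 4] := by
  refine ⟨fun lam => ⟨max 1 |c lam|, le_max_left _ _, fun a hV X hX => ?_⟩⟩
  have hl : Real.log X ≠ 0 := (Real.log_pos hX).ne'
  have hc1 : 1 ≤ max 1 |c lam| := le_max_left _ _
  constructor
  · have e : a.l + c lam - S5.ev X a (.inl 0) * Real.log X = c lam := by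
      simp only [S5, Sum.elim_inl, Matrix.cons_val_zero]
      rw [div_mul_cancel₀ _ hl]; ring
    rw [e]; exact le_max_right _ _
  · have key : ∀ i : Fin 5, Dq.lump (a.us i) ∧
        |Dq.len (a.us i) - S5.ev X a (.inr i) * Real.log X| ≤ max 1 |c lam| ∧
        0 ≤ Dq.len (a.us i) ∧ Dq.s1 (a.us i) ≤ max 1 |c lam| * S5.s₁ a ∧
        Dq.s2 (a.us i) ≤ max 1 |c lam| * S5.s₂ a := by
      intro i
      have hmem : a.us i ∈ List.ofFn a.us := (List.mem_ofFn' _ _).2 ⟨i, rfl⟩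
      have m1 : Dq.s1 (a.us i) ≤ S5.s₁ a := (le_mx hmem).trans (le_max_right _ _)
      have m2 : Dq.s2 (a.us i) ≤ S5.s₂ a := (le_mx hmem).trans (le_max_right _ _)
      have n1 : 0 ≤ Dq.s1 (a.us i) := by rw [Dq_s1]; positivity
      have n2 : 0 ≤ Dq.s2 (a.us i) := by rw [Dq_s2]; positivity
      refine ⟨(hV i).1, ?_, (hV i).2, ?_, ?_⟩
      · have e : Dq.len (a.us i) - S5.ev X a (.inr i) * Real.log X = 0 := by
          simp only [S5, Sum.elim_inr, Pcs.nl]
          rw [div_mul_cancel₀ _ hl]; ring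
        rw [e, abs_zero]; linarith
      · nlinarith
      · nlinarith
    exact List.Forall₂.cons (key 0) (List.Forall₂.cons (key 1) (List.Forall₂.cons (key 2)
      (List.Forall₂.cons (key 3) (List.Forall₂.cons (key 4) List.Forall₂.nil))))

lemma T5_cont (θ : ℝ) : Continuous (T5 θ) := by
  have e : T5 θ = fun q : QT => Tg2 θ (cκ q.1) (cN q.1 + cM q.1 + q.2 .mo) (q.2 .am) := by
    funext q; unfold T5; rw [← Tg2_eq]
  rw [e]
  unfold Tg2
  have h1 := c_κ
  have h2 := c_N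
  have h3 := c_M
  fun_prop

lemma T5_down {θ : ℝ} (hθ : 0 ≤ θ) (q : QT) {b : ℝ} (hb : 0 ≤ b) :
    T5 θ (q.1, Function.update q.2 Kd.mo (q.2 .mo - b)) ≤ T5 θ q := by
  unfold T5
  rw [← Tg2_eq, ← Tg2_eq]
  have e2 : Function.update q.2 Kd.mo (q.2 .mo - b) .am = q.2 .am := by simp
  have e1 : Function.update q.2 Kd.mo (q.2 .mo - b) .mo = q.2 .mo - b := by simp
  simp only [e1, e2]
  exact TopC702.Tg2_mono hθ (by linarith)

lemma bg_lift {Λ Ω Pc' τ : Type*} [DecidableEq τ] {D : Pcs Pc' τ}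
    {Ψ : Λ → ℝ → List Pc' → ℝ} {κ : ℝ} {u : List ℝ} {w : τ → ℝ} {e : ℝ} (f : Ω → Λ)
    (H : BG D Ψ κ u w e) : BG D (fun lam : Ω => Ψ (f lam)) κ u w e := by
  intro ε hε
  obtain ⟨δ, hδ, H1⟩ := H ε hε
  exact ⟨δ, hδ, fun lam N B => H1 (f lam) N B⟩

lemma al5_closed : IsClosed al5 := by
  unfold al5
  exact isClosed_le continuous_snd (by unfold cu; fun_prop)

section
variable {Λ : Type*} {π : Λ → DPar} {h : ℝ → ℝ}

/-- **uniform bound of the absolute sum over the `k` with `NP2`**, share `0` -/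
theorem bcU0_of {c₀ : ℝ} (hpu : FE47.PU h c₀) (hP : ∀ lam, (π lam).OK) {A d μ : ℝ}
    (hA : 95 / 100 ≤ A) (hd : 0 < d) (hd1 : d ≤ 1 / 8)
    (H : AbsR A d (7 / 8 * d) μ (ex Dq (fun lam => Bc (π lam) h))) (c : Λ × Eis → ℝ) :
    UB S5 Dq (BcF π h c) (Ab0 A d d) al5 (fun q => T5 (7 / 8 + d) q - μ) := by
  obtain ⟨C, hC1, hC⟩ := TopC702.norm_CS_pc_le hpu
  have htriv : Triv Dq (fun lam => Bc (π lam) h) := XHB411.triv_BQ hP hpu (fun lam => (π lam).NP2)
  have hperm : Pinv (fun (lam : Λ × Eis) l ps => Bc (π lam.1) h l ps) :=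
    fun lam l ps qs hh => ExpC702.pinv_Bc π h lam.1 l ps qs hh
  refine ub_of_bgbL (Dom := Ab0 A d d) (Dom' := Ab0 A d (7 / 8 * d)) Kd.mo
    (mkF_nonneg fun lam l ps => TopC702.Bc_nonneg _ _ _ _) (mkF_perm hperm)
    (fun p => by rw [Dq_s1]; positivity) (fun lam => ?_)
    (fun p hp => ((Dq_lump p).1 hp).1) (Ab0_compact (by linarith)) ?_ ?_
    (b₀ := d / 9) (by linarith) ?_ ((T5_cont _).sub continuous_const) ?_ al5_closed ?_
  · refine ⟨C, 0, hC1, fun a p ps => ?_⟩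
    have h1 := mkF_rem (V := fun (_ : Λ × Eis) a => V5 a) (fam := fun lam a => a.l + c lam)
      (mk := fun _ a => mk5 a) hperm (lam := lam) (C := C) (N := 0) (s := 1) (D := Dq)
      (fun l p ps => by
        rw [pow_zero, mul_one, one_mul]
        exact TopC702.Bc_cons (hP lam.1) hC l p ps) a p ps
    rw [one_mul] at h1
    exact h1
  · rintro q ⟨⟨hN, x, hx, hL⟩, h0⟩
    exact ⟨⟨hN, x, hx, by linarith⟩, h0⟩
  · rintro q ⟨⟨hN, _⟩, _⟩ t
    exact hN.w0 t
  · rintro q ⟨hq, h0⟩ b hb hbw hb0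
    exact ⟨ab5s_down hd.le hd1 hq hb hbw (by linarith), h0⟩
  · rintro q ⟨hq, h0⟩ b hb hbw
    have := T5_down (θ := 7 / 8 + d) (by linarith) q hb
    show T5 (7 / 8 + d) _ - μ ≤ T5 (7 / 8 + d) q - μ
    linarith
  · intro p u w hu hw hD hal
    refine bgb_of_bg (mkOK5 c) ?_
    have e1 : XG702.tot Kd.mo u.sum w = wt (u.sum + w Kd.mo) (w Kd.am) := by
      funext t
      unfold XG702.tot
      cases t <;> simp [wt, add_comm]
    rw [e1] at hD ⊢
    have hN : Nr5 A p (wt (u.sum + w Kd.mo) (w Kd.am)) := hD.1.toNr5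
    have h5 := hN.u4pos hA
    obtain ⟨a1, a2, a3, a4⟩ := hN.anti
    have hx := H p u (w Kd.mo) (w Kd.am) hu hal (hw _) (hw _) hD.1
    have e2 : w = wt (w Kd.mo) (w Kd.am) := by
      funext t
      cases t <;> rfl
    have hb := BG_of_ex (ExpC702.pinv_Bc π h) htriv hN.κpos.le
      (u := [cu p 0, cu p 1, cu p 2, cu p 3, cu p 4] ++ u) ⟨by
        intro y hy
        rw [List.mem_append] at hy
        rcases hy with hy | hy
        · simp only [List.mem_cons, List.not_mem_nil, or_false] at hy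
          rcases hy with rfl | rfl | rfl | rfl | rfl <;> linarith
        · exact (hu y hy).le, hw _, hw _⟩ hx
    rw [← e2] at hb
    exact bg_lift (fun lam : Λ × Eis => lam.1) hb

/-- **uniform bound of the absolute sum over the `k` with `NP2`** -/
theorem bcU_of {c₀ : ℝ} (hpu : FE47.PU h c₀) (hP : ∀ lam, (π lam).OK) {A d μ : ℝ}
    (hA : 95 / 100 ≤ A) (hd : 0 < d) (hd1 : d ≤ 1 / 8)
    (H : AbsR A d (7 / 8 * d) μ (ex Dq (fun lam => Bc (π lam) h))) (c : Λ × Eis → ℝ) :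
    UB S5 Dq (BcF π h c) (AbD A d) al5 (fun q => T5 (7 / 8 + d) q - μ) := by
  intro ε hε
  obtain ⟨δ, hδ, K⟩ := bcU0_of hpu hP hA hd hd1 H c ε hε
  refine ⟨δ, hδ, fun lam N B => ?_⟩
  obtain ⟨δ', hδ', X₀, hX₀, K'⟩ := K lam N B
  refine ⟨δ', hδ', X₀, hX₀, fun X hX a ps h1 h2 q hq hw hm hg hl => ?_⟩
  have hw' : Win S5 (upx q.1 0) δ N B δ' X (a.setz 0) := win_setz hw (by simpa using hδ.le)
  have hq' : (upx q.1 0, q.2) ∈ Ab0 A d d := by
    have hq1 : Ab5 A d q.1 q.2 := hq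
    refine ⟨⟨hq1.toNr5.upx 0, ?_⟩, by simp⟩
    simp only [cκ_upx, cN_upx, cM_upx, cu_upx]
    exact hq1.ab
  have := K' X hX (a.setz 0) ps h1 h2 (upx q.1 0, q.2) hq' hw' hm hg (fun p hp hpl => by
    have := hl p hp hpl
    exact this)
  have e1 : T5 (7 / 8 + d) (upx q.1 0, q.2) = T5 (7 / 8 + d) q := by
    unfold T5; simp only [cκ_upx, cN_upx, cM_upx]
  simp only [e1] at this
  exact this

end

end Crest.Agent.R017.E5B71
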