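import Crest.Agent.R017.E5AbD_71
import Crest.Agent.R017.E5R_71

/-!
# Row 17, P8: the domain of the absolute boxes (helper71)

* `nr5_closed`, `nr5_bdd`, `Ab0_compact` : compactness
* `ab5s_down` : removal of a small Möbius mass
* `AbsR_of_nearS` : the real input from helper918's `NearS`
-/

set_option autoImplicit false

noncomputable section

open Set

namespace Crest.Agent.R017.E5B71

open Crest.Agent.R017.Prov71 Crest.Agent.R017.R8C918 Crest.Agent.R017.ER911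

/-! ### continuity -/

abbrev QT := (Fin 3 ⊕ Fin 5 → ℝ) × (Kd → ℝ)

lemma c_κ : Continuous fun q : QT => cκ q.1 := by unfold cκ; fun_prop
lemma c_x : Continuous fun q : QT => cx' q.1 := by unfold cx'; fun_prop
lemma c_e : Continuous fun q : QT => ce q.1 := by unfold ce; fun_prop
lemma c_u (i : Fin 5) : Continuous fun q : QT => cu q.1 i := by unfold cu; fun_prop
lemma c_N : Continuous fun q : QT => cN q.1 := by
  unfold cN; exact ((c_u 2).add (c_u 3)).add (c_u 4)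
lemma c_M : Continuous fun q : QT => cM q.1 := by
  unfold cM; exact (c_u 0).add (c_u 1)
lemma c_w (t : Kd) : Continuous fun q : QT => q.2 t := by fun_prop

/-- the near-equal configurations form a closed set -/
lemma nr5_closed (A : ℝ) : IsClosed {q : QT | Nr5 A q.1 q.2} := by
  have e : {q : QT | Nr5 A q.1 q.2} =
      {q : QT | 8 / 9 ≤ cκ q.1} ∩ ({q : QT | cκ q.1 ≤ 1} ∩
      ({q : QT | cu q.1 1 ≤ cu q.1 0} ∩ ({q : QT | cu q.1 2 ≤ cu q.1 1} ∩
      ({q : QT | cu q.1 3 ≤ cu q.1 2} ∩ ({q : QT | cu q.1 4 ≤ cu q.1 3} ∩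
      ({q : QT | 0 ≤ q.2 .mo} ∩ ({q : QT | 0 ≤ q.2 .am} ∩
      ({q : QT | A * cκ q.1 ≤ cN q.1 + cu q.1 4} ∩ ({q : QT | cN q.1 + cM q.1 + q.2 .mo ≤ 4 / 3} ∩
      ({q : QT | q.2 .am ≤ 1 / 3} ∩ ({q : QT | 0 ≤ ce q.1} ∩
      {q : QT | cN q.1 + cM q.1 + q.2 .mo + ce q.1 - q.2 .am ≤ 1}))))))))))) := by
    ext q
    constructor
    · rintro ⟨h1, h2, ⟨h3, h4, h5, h6⟩, h7, h8, h9, h10, h11, h12⟩
      exact ⟨h1, h2, h3, h4, h5, h6, h7 _, h7 _, h8, h9, h10, h11, h12⟩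
    · rintro ⟨h1, h2, h3, h4, h5, h6, h7, h7', h8, h9, h10, h11, h12⟩
      refine ⟨h1, h2, ⟨h3, h4, h5, h6⟩, fun t => ?_, h8, h9, h10, h11, h12⟩
      cases t
      · exact h7
      · exact h7'
  rw [e]
  refine (isClosed_le continuous_const c_κ).inter ((isClosed_le c_κ continuous_const).inter
    ((isClosed_le (c_u 1) (c_u 0)).inter ((isClosed_le (c_u 2) (c_u 1)).inter
    ((isClosed_le (c_u 3) (c_u 2)).inter ((isClosed_le (c_u 4) (c_u 3)).inter
    ((isClosed_le continuous_const (c_w _)).inter ((isClosed_le continuous_const (c_w _)).inter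
    ((isClosed_le (continuous_const.mul c_κ) (c_N.add (c_u 4))).inter
    ((isClosed_le ((c_N.add c_M).add (c_w _)) continuous_const).inter
    ((isClosed_le (c_w _) continuous_const).inter ((isClosed_le continuous_const c_e).inter
    (isClosed_le ((((c_N.add c_M).add (c_w _)).add c_e).sub (c_w _)) continuous_const))))))))))))

/-- and it is bounded (up to the share) -/
lemma nr5_bdd {A : ℝ} (hA : 9 / 10 ≤ A) {p : Fin 3 ⊕ Fin 5 → ℝ} {w : Kd → ℝ} (h : Nr5 A p w) :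
    (∀ i, |cu p i| ≤ 10) ∧ |cκ p| ≤ 10 ∧ |ce p| ≤ 10 ∧ ∀ t, |w t| ≤ 10 := by
  obtain ⟨h1, h2, ⟨h3, h4, h5, h6⟩, h7, h8, h9, h10, h11, h12⟩ := h
  have hmo := h7 .mo
  have ham := h7 .am
  have hAκ : 4 / 5 ≤ A * cκ p := by nlinarith
  unfold cN cM at *
  have u4 : -1 ≤ cu p 4 := by linarith
  refine ⟨fun i => ?_, ?_, ?_, fun t => ?_⟩
  · rw [abs_le]
    fin_cases i <;> simp only [Fin.zero_eta, Fin.mk_one, Fin.reduceFinMk, Fin.isValue] <;>
      constructor <;> linarith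
  · rw [abs_le]; constructor <;> linarith
  · rw [abs_le]; constructor <;> linarith
  · cases t
    · rw [abs_le]; constructor <;> linarith
    · rw [abs_le]; constructor <;> linarith

/-- the domain of the absolute boxes, slack `s`, share `0` -/
def Ab0 (A d s : ℝ) : Set QT := {q | Ab5s A d s q.1 q.2 ∧ cx' q.1 = 0}

/-- `1/κ`, continuous -/
def ik (q : QT) : ℝ := (max (cκ q.1) (8 / 9))⁻¹

lemma c_ik : Continuous ik := by
  unfold ik
  refine Continuous.inv₀ (c_κ.max continuous_const) fun q => ?_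
  have : (8 / 9 : ℝ) ≤ max (cκ q.1) (8 / 9) := le_max_right _ _
  intro h
  rw [h] at this
  norm_num at this

lemma ik_eq {q : QT} (h : 8 / 9 ≤ cκ q.1) : ik q = 1 / cκ q.1 := by
  unfold ik; rw [max_eq_left h, one_div]

lemma LA_cont : Continuous fun v : ℝ × ℝ × ℝ × ℝ × ℝ => LA v.1 v.2.1 v.2.2.1 v.2.2.2.1 v.2.2.2.2 := by
  unfold LA; fun_prop

lemma Al_cont (d : ℝ) : Continuous fun v : ℝ × ℝ × ℝ => Al d v.1 v.2.1 v.2.2 := by
  unfold Al; fun_prop

lemma Ab0_compact {A d s : ℝ} (hA : 9 / 10 ≤ A) : IsCompact (Ab0 A d s) := by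
  set K : Set (QT × ℝ) := {v | Nr5 A v.1.1 v.1.2 ∧ cx' v.1.1 = 0 ∧ 0 ≤ v.2 ∧
    v.2 ≤ v.1.2 .am * ik v.1 ∧ (v.2 = 0 ∨ cN v.1.1 * ik v.1 + v.2 ≤ 4 / 5) ∧
    LA (cN v.1.1 * ik v.1) (cM v.1.1 * ik v.1) (cu v.1.1 4 * ik v.1)
      (v.1.2 .mo * ik v.1 + v.1.2 .am * ik v.1) v.2 +
      2 * d * (v.1.2 .mo * ik v.1 + v.1.2 .am * ik v.1) ≤
      Al d (ik v.1) (cN v.1.1 * ik v.1 + cM v.1.1 * ik v.1 + v.1.2 .mo * ik v.1)
        (v.1.2 .am * ik v.1) - s} with hK
  have f1 : Continuous fun v : QT × ℝ => ik v.1 := c_ik.comp continuous_fst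
  have f2 : Continuous fun v : QT × ℝ => cN v.1.1 * ik v.1 := (c_N.comp continuous_fst).mul f1
  have f3 : Continuous fun v : QT × ℝ => cM v.1.1 * ik v.1 := (c_M.comp continuous_fst).mul f1
  have f4 : Continuous fun v : QT × ℝ => cu v.1.1 4 * ik v.1 := ((c_u 4).comp continuous_fst).mul f1
  have f5 : Continuous fun v : QT × ℝ => v.1.2 Kd.mo * ik v.1 :=
    ((c_w .mo).comp continuous_fst).mul f1
  have f6 : Continuous fun v : QT × ℝ => v.1.2 Kd.am * ik v.1 :=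
    ((c_w .am).comp continuous_fst).mul f1
  have f7 : Continuous fun v : QT × ℝ => LA (cN v.1.1 * ik v.1) (cM v.1.1 * ik v.1)
      (cu v.1.1 4 * ik v.1) (v.1.2 .mo * ik v.1 + v.1.2 .am * ik v.1) v.2 :=
    LA_cont.comp (f2.prodMk (f3.prodMk (f4.prodMk ((f5.add f6).prodMk continuous_snd))))
  have f8 : Continuous fun v : QT × ℝ =>
      Al d (ik v.1) (cN v.1.1 * ik v.1 + cM v.1.1 * ik v.1 + v.1.2 .mo * ik v.1)
        (v.1.2 .am * ik v.1) :=
    (Al_cont d).comp (f1.prodMk (((f2.add f3).add f5).prodMk f6))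
  have hcl : IsClosed K := by
    have e : K = (Prod.fst ⁻¹' {q : QT | Nr5 A q.1 q.2}) ∩ ({v : QT × ℝ | cx' v.1.1 = 0} ∩
        ({v : QT × ℝ | 0 ≤ v.2} ∩ ({v : QT × ℝ | v.2 ≤ v.1.2 .am * ik v.1} ∩
        (({v : QT × ℝ | v.2 = 0} ∪ {v : QT × ℝ | cN v.1.1 * ik v.1 + v.2 ≤ 4 / 5}) ∩
        {v : QT × ℝ | LA (cN v.1.1 * ik v.1) (cM v.1.1 * ik v.1) (cu v.1.1 4 * ik v.1)
          (v.1.2 .mo * ik v.1 + v.1.2 .am * ik v.1) v.2 +
          2 * d * (v.1.2 .mo * ik v.1 + v.1.2 .am * ik v.1) ≤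
          Al d (ik v.1) (cN v.1.1 * ik v.1 + cM v.1.1 * ik v.1 + v.1.2 .mo * ik v.1)
            (v.1.2 .am * ik v.1) - s})))) := by
      ext v; rfl
    rw [e]
    refine ((nr5_closed A).preimage continuous_fst).inter
      ((isClosed_eq (c_x.comp continuous_fst) continuous_const).inter
      ((isClosed_le continuous_const continuous_snd).inter
      ((isClosed_le continuous_snd f6).inter
      (((isClosed_eq continuous_snd continuous_const).union
        (isClosed_le (f2.add continuous_snd) continuous_const)).inter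
      (isClosed_le (f7.add ((continuous_const.mul (f5.add f6)))) (f8.sub continuous_const))))))
  have hbd : Bornology.IsBounded K := by
    refine (Metric.isBounded_closedBall (x := (0 : QT × ℝ)) (r := 20)).subset ?_
    rintro ⟨⟨p, w⟩, x⟩ ⟨hN, hx, hx0, hx1, _⟩
    obtain ⟨b1, b2, b3, b4⟩ := nr5_bdd hA hN
    rw [mem_closedBall_zero_iff, Prod.norm_def, Prod.norm_def]
    refine max_le (max_le ?_ ?_) ?_
    · rw [pi_norm_le_iff_of_nonneg (by norm_num)]
      rintro (i | i)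
      · fin_cases i
        · exact (b2.trans (by norm_num) : |cκ p| ≤ 20)
        · have : p (.inl 1) = 0 := hx
          simp [this]
        · exact (b3.trans (by norm_num) : |ce p| ≤ 20)
      · exact (b1 i).trans (by norm_num)
    · rw [pi_norm_le_iff_of_nonneg (by norm_num)]
      exact fun t => (b4 t).trans (by norm_num)
    · have h2 := (abs_le.1 (b4 .am)).2
      have h3 : ik (p, w) ≤ 2 := by
        rw [ik_eq hN.κ0, div_le_iff₀ hN.κpos]
        linarith [hN.κ0]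
      have h4 : 0 ≤ ik (p, w) := by
        rw [ik_eq hN.κ0]; exact div_nonneg zero_le_one hN.κpos.le
      have h5 : w .am * ik (p, w) ≤ 10 * 2 := mul_le_mul h2 h3 h4 (by norm_num)
      simp only at hx0 hx1 ⊢
      rw [Real.norm_eq_abs, abs_of_nonneg hx0]
      linarith
  have hKc : IsCompact K := Metric.isCompact_iff_isClosed_bounded.2 ⟨hcl, hbd⟩
  have : Ab0 A d s = Prod.fst '' K := by
    ext q
    constructor
    · rintro ⟨⟨hN, x, ⟨hx0, hx1, hx2⟩, hx3⟩, hx⟩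
      refine ⟨(q, x), ⟨hN, hx, hx0, ?_, ?_, ?_⟩, rfl⟩
      all_goals simp only [ik_eq hN.κ0, mul_one_div]
      · exact hx1
      · exact hx2
      · exact hx3
    · rintro ⟨⟨q', x⟩, ⟨hN, hx, hx0, hx1, hx2, hx3⟩, rfl⟩
      simp only [ik_eq hN.κ0, mul_one_div] at hx1 hx2 hx3
      exact ⟨⟨hN, x, ⟨hx0, hx1, hx2⟩, hx3⟩, hx⟩
  rw [this]
  exact hKc.image continuous_fst

/-! ### small Möbius masses -/

lemma Al_down {d r q q' c : ℝ} (hd1 : d ≤ 1 / 8) (hq : q' ≤ q) :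
    Al d r q c ≤ Al d r q' c + (q - q') := by
  unfold Al
  have h0 : 0 ≤ q - q' := by linarith
  have h1 : d * (q - q') ≤ 1 / 8 * (q - q') := mul_le_mul_of_nonneg_right hd1 h0
  refine max_le ?_ (max_le ?_ ?_)
  · have := le_max_left (8 / 3 * d * r) (max (r * (8 / 3 * d + 1 / 2) - 1 + (q' - c) / 2)
      (r * (5 / 12 - 2 / 3 * d) - 5 / 3 + (3 / 4 + 2 * d) * (q' + c)))
    linarith
  · have := (le_max_left (r * (8 / 3 * d + 1 / 2) - 1 + (q' - c) / 2)
      (r * (5 / 12 - 2 / 3 * d) - 5 / 3 + (3 / 4 + 2 * d) * (q' + c))).trans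
      (le_max_right (8 / 3 * d * r) _)
    linarith
  · have := (le_max_right (r * (8 / 3 * d + 1 / 2) - 1 + (q' - c) / 2)
      (r * (5 / 12 - 2 / 3 * d) - 5 / 3 + (3 / 4 + 2 * d) * (q' + c))).trans
      (le_max_right (8 / 3 * d * r) _)
    have e : (3 / 4 + 2 * d) * (q + c) = (3 / 4 + 2 * d) * (q' + c) + 3 / 4 * (q - q') +
      2 * (d * (q - q')) := by ring
    rw [e]
    linarith

lemma nr5_down {A : ℝ} {p : Fin 3 ⊕ Fin 5 → ℝ} {w : Kd → ℝ} (h : Nr5 A p w) {b : ℝ} (hb : 0 ≤ b)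
    (hbw : b ≤ w .mo) : Nr5 A p (Function.update w Kd.mo (w .mo - b)) := by
  obtain ⟨h1, h2, h3, h4, h5, h6, h7, h8, h9⟩ := h
  have e2 : Function.update w Kd.mo (w .mo - b) .am = w .am := by simp
  have e1 : Function.update w Kd.mo (w .mo - b) .mo = w .mo - b := by simp
  refine ⟨h1, h2, h3, fun t => ?_, h5, ?_, ?_, h8, ?_⟩
  · cases t
    · rw [e1]; linarith
    · rw [e2]; exact h4 _
  · rw [e1]; linarith
  · rw [e2]; exact h7
  · rw [e1, e2]; linarith

/-- removal of a small Möbius mass -/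
lemma ab5s_down {A d s s' : ℝ} (hd : 0 ≤ d) (hd1 : d ≤ 1 / 8) {p : Fin 3 ⊕ Fin 5 → ℝ}
    {w : Kd → ℝ} (h : Ab5s A d s p w) {b : ℝ} (hb : 0 ≤ b) (hbw : b ≤ w .mo)
    (hs : s' + 9 / 8 * b ≤ s) : Ab5s A d s' p (Function.update w Kd.mo (w .mo - b)) := by
  obtain ⟨hN, x, hx, hL⟩ := h
  refine ⟨nr5_down hN hb hbw, ?_⟩
  have e2 : Function.update w Kd.mo (w .mo - b) .am = w .am := by simp
  have e1 : Function.update w Kd.mo (w .mo - b) .mo = w .mo - b := by simp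
  rw [e1, e2]
  have hκ := hN.κpos
  have hbκ : b / cκ p ≤ 9 / 8 * b := by
    rw [div_le_iff₀ hκ]
    nlinarith [hN.κ0]
  have hbκ0 : 0 ≤ b / cκ p := div_nonneg hb hκ.le
  have e3 : (w .mo - b) / cκ p = w .mo / cκ p - b / cκ p := sub_div _ _ _
  rw [e3]
  refine ⟨x, hx, ?_⟩
  have h1 : LA (cN p / cκ p) (cM p / cκ p) (cu p 4 / cκ p)
      (w .mo / cκ p - b / cκ p + w .am / cκ p) x ≤
      LA (cN p / cκ p) (cM p / cκ p) (cu p 4 / cκ p) (w .mo / cκ p + w .am / cκ p) x := by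
    unfold LA
    have : max 0 (w .mo / cκ p - b / cκ p + w .am / cκ p - x - 7 / 9 * (1 - cM p / cκ p)) ≤
        max 0 (w .mo / cκ p + w .am / cκ p - x - 7 / 9 * (1 - cM p / cκ p)) :=
      max_le_max le_rfl (by linarith)
    linarith
  have h2 := Al_down (d := d) (r := 1 / cκ p) (c := w .am / cκ p)
    (q := cN p / cκ p + cM p / cκ p + w .mo / cκ p)
    (q' := cN p / cκ p + cM p / cκ p + (w .mo / cκ p - b / cκ p)) hd1 (by linarith)
  have h3 : 0 ≤ d * (b / cκ p) := mul_nonneg hd hbκ0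
  have e4 : 2 * d * (w .mo / cκ p - b / cκ p + w .am / cκ p) =
    2 * d * (w .mo / cκ p + w .am / cκ p) - 2 * (d * (b / cκ p)) := by ring
  rw [e4]
  linarith

/-- the smooth pieces are positive -/
lemma Nr5.u4pos {A : ℝ} (hA : 95 / 100 ≤ A) {p : Fin 3 ⊕ Fin 5 → ℝ} {w : Kd → ℝ}
    (h : Nr5 A p w) : 0 < cu p 4 := by
  have h1 := h.MN
  have h2 := h.q
  have h3 := h.w0 .mo
  have h4 := h.near
  have h5 : 95 / 100 * (8 / 9) ≤ A * cκ p := mul_le_mul hA h.κ0 (by norm_num) (by linarith)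
  linarith

end Crest.Agent.R017.E5B71
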