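import Crest.Agent.R017.E5S_271

/-!
# Row 17, R8 (E5), part P5: exponents (helper271)

* `TopP` : the signed theorem over primary `k`, long families
* `bad_abs` : the bad `k`, absolute values
* `short_le` : a short family in terms of `Bc` and the bad `k`
* `topA_of_topP` : `TopP`, `TopC` imply `TopA`; `topS_of_topP`
-/

set_option autoImplicit false

noncomputable section

open Complex MeasureTheory Filter Topology
open scoped ContDiff ComplexConjugate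

namespace Crest.Agent.R017.E5S271

open Crest.Agent.R012 Crest.Agent.R012.Eis Crest.Agent.R012.Gauss880
open Crest.Agent.R012.LS2 (bl mem_bl)
open Crest.Agent.R012.PSer47 Crest.Agent.R012.Div277 Crest.Agent.R012.Mob705
open Crest.Agent.R017.CM106 (CS)
open Crest.Agent.R017.End699 Crest.Agent.R017.FE47 Crest.Agent.R017.Two939
open Crest.Agent.R017.B770 Crest.Agent.R017.Sup271 Crest.Agent.R017.Bx986
open Crest.Agent.R017.HP842 (UT Pc pc)
open Crest.Agent.R017.SU770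
open Crest.Agent.R017.Prov71 Crest.Agent.R017.XG702 Crest.Agent.R017.ER911
open Crest.Agent.R017.E5T54 Crest.Agent.R017.BadK271
open Crest.Agent.R017.BxE986
open Crest.Agent.R017.Sx545 (Sm)
open Crest.Agent.R017.BoxP271 (norm_sy_le' sw_bdd)
open Crest.Agent.R017.Cone59 (Tg a2)

/-- **the signed theorem over the primary `k`** : family `K`, twist `t` (an `S`-unit). -/
def TopP {Λ : Type*} (θ g μ' a₀ A : ℝ) (w : Fin 5 → ℝ) (π : Λ → DPar) (h : ℝ → ℝ) : Prop :=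
  ∃ δ : ℝ, 0 < δ ∧ ∀ (lam : Λ) (t : Eis), t ∈ SM (π lam).n → ∀ (N : ℕ) (B : ℝ),
    ∃ δ' : ℝ, 0 < δ' ∧ ∃ X₀ : ℝ, 1 < X₀ ∧
    ∀ X : ℝ, X₀ ≤ X → ∀ (K : ℝ), 0 < K → ∀ (ps : List Pq), ps.length ≤ N →
      (∀ p ∈ ps, Dq.lump p ∨ Dq.nl X p ≤ δ) → Dq.Good X δ' B ps →
      a₀ ≤ Real.log K / Real.log X → NearQ A w (Real.log K / Real.log X) X ps →
      ∀ (d₃ e : Eis), d₃ ≠ 0 → (nm d₃ : ℝ) ≤ X ^ B → Sm (π lam).n e →
        (∀ p : Eis, Prime p → p ∣ e → p ^ 5 ∣ e) →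
      ∀ τ : ℝ, 1 + |τ| ≤ X ^ δ' →
      ∀ 𝒟 : Finset Eis, (∀ q ∈ 𝒟, Sm (π lam).n q ∧ Squarefree q) →
      ∀ hh q c : ℝ, 0 ≤ hh → hh ≤ 1 → 0 ≤ q → q ≤ 2 - 2 * g → 0 ≤ c → c ≤ g →
        q + Real.log (nm e) / Real.log X - c ≤ 2 - 3 * g + δ →
        |Real.log K / Real.log X - hh| ≤ δ → |Dq.mass X ps .mo - q| ≤ δ →
        |Dq.mass X ps .am - c| ≤ δ →
        ∑ r ∈ 𝒟, ‖SgP (π lam).n (DPar.wp (π lam) τ K) h d₃ e (moP (π lam) t ps)
          (amP (π lam) t ps) r‖ ≤ X ^ (Tg θ g hh q c - μ')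

/-! ### the bad `k`, absolute values -/

open Classical in
/-- **the bad `k`, absolute values** -/
theorem bad_abs (P : DPar) (hP : P.OK) {h : ℝ → ℝ} {c₀ : ℝ} (hpu : PU h c₀) (N : ℕ) {ε : ℝ}
    (hε : 0 < ε) : ∃ C : ℝ, 0 ≤ C ∧
    ∀ K : ℝ, 0 < K → ∀ (M T : ℝ), 1 ≤ M → 1 ≤ T → ∀ ps : List Pq, ps.length ≤ N →
      (∀ p ∈ ps, (nm p.d : ℝ) ≤ M ∧ 1 + |p.t| ≤ T) →
      ∑ k ∈ (bl K).filter fun k => Bad P k, ‖VV P h ps k‖ ≤
        C * (M * (1 + K)) ^ ε * T ^ (4 * N) * (K ^ (1 / 3 : ℝ) * Real.exp ((ps.map zl).sum)) := by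
  set s : ℝ := ε / (N + 1) with hs
  have hs0 : 0 < s := by positivity
  obtain ⟨Ca, hCa, ha⟩ := one_bad (cd_cx hpu.cd) (cs_cx hpu.cs) hP.φ hP.ψ P.l₁ P.l₂ hs0
  obtain ⟨Cb, hCb, hb⟩ := CS_triv hpu
  refine ⟨(Ca * Cb) ^ N * 18, by positivity, ?_⟩
  intro K hK M T hM hT ps hN hps
  set X : ℝ := M * (1 + K) with hX
  have hX1 : 1 ≤ X := one_le_mul_of_one_le_of_one_le hM (by linarith)
  have hXs : 1 ≤ X ^ s := Real.one_le_rpow hX1 hs0.le
  have hT4 : 1 ≤ T ^ 4 := one_le_pow₀ hT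
  set E : ℝ := Ca * Cb * X ^ s * T ^ 4 with hE
  have hCC : 1 ≤ Ca * Cb := one_le_mul_of_one_le_of_one_le hCa hCb
  have hE1 : 1 ≤ E := one_le_mul_of_one_le_of_one_le (one_le_mul_of_one_le_of_one_le hCC hXs) hT4
  set S := (bl K).filter fun k => Bad P k with hSdef
  set V : ℝ := E ^ N * Real.exp ((ps.map zl).sum) with hV
  have hV0 : 0 ≤ V := by positivity
  have hone : ∀ k ∈ S, ‖VV P h ps k‖ ≤ V := by
    intro k hk
    rw [hSdef, Finset.mem_filter, mem_bl hK.le] at hk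
    obtain ⟨⟨hk0, hkK⟩, hbad⟩ := hk
    exact prod_q (P := P) (h := h) (k := k) hE1 ps hN fun p hp => by
      refine piece_q P hP hs0 hCa hCb ha hb hT hk0 hbad ?_ (hps p hp).2
      rw [hX]
      have := (hps p hp).1
      have hk1 : (nm k : ℝ) ≤ 1 + K := by linarith
      gcongr
  rcases lt_or_ge K 1 with hK1 | hK1
  · have hemp : S = ∅ := by
      rw [hSdef, Finset.filter_eq_empty_iff]
      intro k hk
      rw [mem_bl hK.le] at hk
      have : (1 : ℝ) ≤ nm k := by exact_mod_cast nm_pos.mpr hk.1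
      linarith
    rw [hemp, Finset.sum_empty]
    positivity
  have hcard : (S.card : ℝ) ≤ 18 * K ^ (1 / 3 : ℝ) := by
    have h1 : 1 ≤ ⌊K⌋₊ := by rwa [Nat.one_le_floor_iff]
    have h2 := NatP401.card_principal hP.φ P.l₁ h1 S fun k hk => by
      rw [hSdef, Finset.mem_filter, mem_bl hK.le] at hk
      refine ⟨?_, hk.1.1, hk.2.2⟩
      rw [mem_ball]
      exact Nat.le_floor hk.1.2
    refine h2.trans ?_
    have h3 : (⌊K⌋₊ : ℝ) ≤ K := Nat.floor_le hK.le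
    gcongr
  calc ∑ k ∈ S, ‖VV P h ps k‖ ≤ ∑ _k ∈ S, V := Finset.sum_le_sum hone
    _ = S.card * V := by rw [Finset.sum_const, nsmul_eq_mul]
    _ ≤ (18 * K ^ (1 / 3 : ℝ)) * V := by gcongr
    _ = (Ca * Cb) ^ N * 18 * (X ^ s) ^ N * T ^ (4 * N) *
        (K ^ (1 / 3 : ℝ) * Real.exp ((ps.map zl).sum)) := by
        rw [hV, hE, mul_pow, mul_pow, ← pow_mul]
        ring
    _ ≤ _ := by
        have e1 : (X ^ s) ^ N ≤ X ^ ε := by
          rw [← Real.rpow_natCast (X ^ s) N, ← Real.rpow_mul (by linarith)]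
          refine Real.rpow_le_rpow_of_exponent_le hX1 ?_
          rw [hs, div_mul_eq_mul_div, div_le_iff₀ (by positivity)]
          nlinarith
        gcongr

/-! ### the absolute value of a short family -/

lemma norm_VV (P : DPar) (h : ℝ → ℝ) (ps : List Pq) (k : Eis) :
    ‖VV P h ps k‖ = ((ps.map (Pq.pc P)).map fun p => ‖CS (pc h p) k‖).prod := by
  unfold VV
  rw [norm_list_prod, List.map_map, List.map_map]
  congr 1
  refine List.map_congr_left fun p _ => ?_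
  exact norm_Vp P h k p

/-- the weight is bounded -/
lemma norm_wp_le {P : DPar} (hP : P.OK) {BU : ℝ} (hBU : ∀ x, ‖P.U x‖ ≤ BU) (τ K : ℝ) {k : Eis}
    (hk : IsPrim k) : ‖DPar.wp P τ K k‖ ≤ BU := by
  unfold DPar.wp
  have h1 := hP.χ₃.char.norm_le hk
  have h2 := SU770.norm_ang_le P.l₃ k
  have h3 : ‖(nm k : ℂ) ^ (I * τ)‖ = 1 := by
    have h4 : (0 : ℝ) < nm k := by exact_mod_cast nm_pos.mpr hk.ne_zero
    have h5 : ((nm k : ℕ) : ℂ) = ((nm k : ℝ) : ℂ) := by push_cast; rfl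
    rw [h5, Complex.norm_cpow_eq_rpow_re_of_pos h4]
    simp
  rw [norm_mul, norm_mul, norm_mul, h3, RCLike.norm_conj, mul_one]
  calc ‖P.χ₃ k‖ * ‖ang P.l₃ k‖ * ‖P.U (nm k / K)‖ ≤ 1 * 1 * BU := by
        have := hBU (nm k / K)
        gcongr
    _ = BU := by ring

open Classical in
/-- **a short family** : `L = nm t β K` -/
theorem short_le {P : DPar} (hP : P.OK) (hN : ∀ k, k ≠ 0 → NPm P.n P.ψ P.l₂ k) {β : ℝ}
    (hβ : 0 < β) (hβU : ∀ x, β < x → P.U x = 0) {ε : ℝ} (hε : 0 < ε) :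
    ∃ C : ℝ, 0 ≤ C ∧ ∀ (h : ℝ → ℝ) (t : Eis), t ≠ 0 → ∀ K : ℝ, 0 < K → ∀ (τ : ℝ) (d₃ e : Eis),
      IsPrim e → ∀ (ps : List Pq) (𝒟 : Finset Eis), (∀ q ∈ 𝒟, IsPrim q) →
      ∑ q ∈ 𝒟, ‖SgP P.n (DPar.wp P τ K) h d₃ e (moP P t ps) (amP P t ps) q‖ ≤
        C * (1 + K) ^ ε * (Bc P h (Real.log (nm t * (β * K))) ps +
          ∑ k ∈ (bl (nm t * (β * K))).filter fun k => Bad P k, ‖VV P h ps k‖) := by
  obtain ⟨BU, hBU0, hBU⟩ := sw_bdd hP.U
  obtain ⟨Cτ, hCτ, hτ⟩ := tau_le_rpow hε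
  refine ⟨BU * (Cτ * (1 + β) ^ ε), by positivity, ?_⟩
  intro h t ht K hK τ d₃ e he ps 𝒟 h𝒟
  have hβK : 0 < β * K := by positivity
  have ht1 : (1 : ℝ) ≤ nm t := by exact_mod_cast nm_pos.mpr ht
  set L : ℝ := nm t * (β * K) with hL
  have hL0 : 0 < L := by positivity
  set G : Eis → ℝ := fun k => ‖VV P h ps (t * k)‖ with hG
  -- one `q`
  have h1 : ∀ q ∈ 𝒟, ‖SgP P.n (DPar.wp P τ K) h d₃ e (moP P t ps) (amP P t ps) q‖ ≤
      ∑ k ∈ pbn P.n (β * K), if q ^ 2 ∣ k then BU * G k else 0 := by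
    intro q _
    rw [SgP_eq_VV, tsum_eq_sum (s := pbn P.n (β * K))]
    · refine (norm_sum_le _ _).trans (Finset.sum_le_sum fun k hk => ?_)
      obtain ⟨_, hk1, hk2⟩ := (mem_pbn hβK.le).1 hk
      by_cases hqk : q ^ 2 ∣ k
      · rw [if_pos ⟨hk1, hk2, hqk⟩, if_pos hqk, norm_mul, norm_mul]
        have w1 := norm_wp_le hP hBU τ K hk1
        have w2 : ‖prin0 d₃ k * sy k e‖ ≤ 1 := by
          rw [norm_mul]
          refine mul_le_one₀ ?_ (norm_nonneg _) (norm_sy_le' k e he)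
          unfold prin0; split_ifs <;> simp
        calc ‖DPar.wp P τ K k‖ * ‖prin0 d₃ k * sy k e‖ * ‖VV P h ps (t * k)‖ ≤
            BU * 1 * ‖VV P h ps (t * k)‖ := by gcongr
          _ = BU * G k := by rw [mul_one]
      · rw [if_neg fun h' => hqk h'.2.2, if_neg hqk, norm_zero]
    · intro k hk
      split_ifs with hc
      · have h2 : β * K < nm k := by
          by_contra h3
          exact hk ((mem_pbn hβK.le).2 ⟨not_lt.1 h3, hc.1, hc.2.1⟩)
        have h3 : P.U (nm k / K) = 0 := hβU _ (by rwa [lt_div_iff₀ hK])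
        unfold DPar.wp
        rw [h3]
        simp
      · rfl
  have hcount : ∀ k ∈ pbn P.n (β * K), ((𝒟.filter fun q => q ^ 2 ∣ k).card : ℝ) ≤
      Cτ * ((1 + β) ^ ε * (1 + K) ^ ε) := by
    intro k hk
    obtain ⟨hkK, hk1, hk2⟩ := (mem_pbn hβK.le).1 hk
    have h2 : (𝒟.filter fun q => q ^ 2 ∣ k).card ≤ tau k := by
      unfold tau
      refine Finset.card_le_card fun q hq => ?_
      rw [Finset.mem_filter] at hq
      rw [mem_dvs hk1.ne_zero]
      exact ⟨h𝒟 q hq.1, (dvd_pow_self q two_ne_zero).trans hq.2⟩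
    calc ((𝒟.filter fun q => q ^ 2 ∣ k).card : ℝ) ≤ tau k := by exact_mod_cast h2
      _ ≤ Cτ * (nm k : ℝ) ^ ε := hτ k hk1.ne_zero
      _ ≤ Cτ * ((1 + β) ^ ε * (1 + K) ^ ε) := by
          rw [← Real.mul_rpow (by positivity) (by positivity)]
          have h3 : (nm k : ℝ) ≤ (1 + β) * (1 + K) := by nlinarith
          gcongr
  calc ∑ q ∈ 𝒟, ‖SgP P.n (DPar.wp P τ K) h d₃ e (moP P t ps) (amP P t ps) q‖
      ≤ ∑ q ∈ 𝒟, ∑ k ∈ pbn P.n (β * K), (if q ^ 2 ∣ k then BU * G k else 0) :=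
        Finset.sum_le_sum h1
    _ = ∑ k ∈ pbn P.n (β * K), ∑ q ∈ 𝒟, (if q ^ 2 ∣ k then BU * G k else 0) := Finset.sum_comm
    _ = ∑ k ∈ pbn P.n (β * K), ((𝒟.filter fun q => q ^ 2 ∣ k).card : ℝ) * (BU * G k) := by
        refine Finset.sum_congr rfl fun k _ => ?_
        rw [← Finset.sum_filter, Finset.sum_const, nsmul_eq_mul]
    _ ≤ ∑ k ∈ pbn P.n (β * K), (Cτ * ((1 + β) ^ ε * (1 + K) ^ ε)) * (BU * G k) := by
        refine Finset.sum_le_sum fun k hk => ?_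
        refine mul_le_mul_of_nonneg_right (hcount k hk) ?_
        positivity
    _ = BU * (Cτ * (1 + β) ^ ε) * (1 + K) ^ ε * ∑ k ∈ pbn P.n (β * K), G k := by
        rw [Finset.mul_sum]
        refine Finset.sum_congr rfl fun k _ => ?_
        ring
    _ ≤ _ := by
        refine mul_le_mul_of_nonneg_left ?_ (by positivity)
        have h4 : ∑ k ∈ pbn P.n (β * K), G k ≤ ∑ k ∈ bl L, ‖VV P h ps k‖ := by
          have e1 : ∑ k ∈ pbn P.n (β * K), G k =
              ∑ k ∈ (pbn P.n (β * K)).image (fun k => t * k), ‖VV P h ps k‖ := by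
            rw [Finset.sum_image]
            intro a _ b _ hab
            exact mul_left_cancel₀ ht hab
          rw [e1]
          refine Finset.sum_le_sum_of_subset_of_nonneg ?_ fun _ _ _ => norm_nonneg _
          intro x hx
          obtain ⟨k, hk, rfl⟩ := Finset.mem_image.1 hx
          obtain ⟨hkK, hk1, _⟩ := (mem_pbn hβK.le).1 hk
          rw [mem_bl hL0.le]
          refine ⟨mul_ne_zero ht hk1.ne_zero, ?_⟩
          rw [nm_mul, Nat.cast_mul, hL]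
          gcongr
        refine h4.trans (le_of_eq ?_)
        have e2 : ∀ k ∈ bl L, ‖VV P h ps k‖ = (if P.NP2 k then ‖VV P h ps k‖ else 0) +
            (if Bad P k then ‖VV P h ps k‖ else 0) := by
          intro k hk
          rw [mem_bl hL0.le] at hk
          have h5 := hN k hk.1
          unfold DPar.NP2 Bad
          by_cases h6 : NPk P.n P.φ P.l₁ k <;> simp [h5, h6]
        rw [Finset.sum_congr rfl e2, Finset.sum_add_distrib, ← Finset.sum_filter,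
          ← Finset.sum_filter]
        congr 1
        unfold Bc BQ
        rw [Real.exp_log hL0]
        refine Finset.sum_congr rfl fun k _ => ?_
        rw [norm_VV]

/-! ### exponents -/

lemma Tg_mono {θ g hh hh' q q' c : ℝ} (hθ : 0 ≤ θ) (h1 : hh ≤ hh') (h2 : q ≤ q') :
    Tg θ g hh q c ≤ Tg θ g hh' q' c := by
  unfold Tg
  have h3 : θ * (q - (2 - 2 * g)) ≤ θ * (q' - (2 - 2 * g)) := by gcongr
  have e1 : (hh - 1) + (q - (2 - 2 * g)) / 2 + (c - g) / 2 ≤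
      (hh' - 1) + (q' - (2 - 2 * g)) / 2 + (c - g) / 2 := by linarith
  have e2 : (hh - 1) / 2 + 3 / 4 * (q - (2 - 2 * g)) + 1 / 4 * (c - g) ≤
      (hh' - 1) / 2 + 3 / 4 * (q' - (2 - 2 * g)) + 1 / 4 * (c - g) := by linarith
  have e3 : (hh - 1) / 6 + θ * (q - (2 - 2 * g)) + θ * (c - g) ≤
      (hh' - 1) / 6 + θ * (q' - (2 - 2 * g)) + θ * (c - g) := by linarith
  have := max_le_max e1 (max_le_max e2 e3)
  linarith

lemma exists_pos_min (T : Finset Eis) (f : Eis → ℝ) (hf : ∀ t ∈ T, 0 < f t) :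
    ∃ c : ℝ, 0 < c ∧ ∀ t ∈ T, c ≤ f t := by
  classical
  induction T using Finset.induction_on with
  | empty => exact ⟨1, one_pos, fun t ht => absurd ht (Finset.notMem_empty t)⟩
  | @insert a T _ ih =>
    obtain ⟨c, hc, h1⟩ := ih fun t ht => hf t (Finset.mem_insert_of_mem ht)
    refine ⟨min c (f a), lt_min hc (hf a (Finset.mem_insert_self a T)), fun t ht => ?_⟩
    rcases Finset.mem_insert.1 ht with rfl | ht
    · exact min_le_right _ _
    · exact (min_le_left _ _).trans (h1 t ht)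

lemma exists_max' (T : Finset Eis) (f : Eis → ℝ) : ∃ M : ℝ, ∀ t ∈ T, f t ≤ M := by
  obtain ⟨M, hM⟩ := (T.image f).exists_le
  exact ⟨M, fun t ht => hM _ (Finset.mem_image_of_mem f ht)⟩

lemma NearQ_mono {A k k' X : ℝ} {w : Fin 5 → ℝ} {ps : List Pq} (hA : 0 ≤ A) (hk : k' ≤ k)
    (h : NearQ A w k X ps) : NearQ A w k' X ps := by
  obtain ⟨us, gs, h1, h2, h3, h4⟩ := h
  refine ⟨us, gs, h1, h2, h3, le_trans ?_ h4⟩
  gcongr

/-- the exponent of the bad part, uniform in the family -/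
lemma bad_le {P : DPar} {h : ℝ → ℝ} {N : ℕ} {ε C : ℝ} (hε : 0 < ε) (hC : 0 ≤ C) {B : ℝ}
    (hεB : (|B| + 2) * ε ≤ 1 / 300)
    (hbad : ∀ K : ℝ, 0 < K → ∀ (M T : ℝ), 1 ≤ M → 1 ≤ T → ∀ ps : List Pq, ps.length ≤ N →
      (∀ p ∈ ps, (nm p.d : ℝ) ≤ M ∧ 1 + |p.t| ≤ T) → ∀ S : Finset Eis,
      (∀ k ∈ S, k ∈ bl K ∧ Bad P k) →
      ∑ k ∈ S, ‖VV P h ps k‖ ≤
        C * (M * (1 + K)) ^ ε * T ^ (4 * N) * (K ^ (1 / 3 : ℝ) * Real.exp ((ps.map zl).sum)))
    {M₀ : ℝ} (hM₀ : 0 < M₀) {δ' : ℝ} (hδ' : 0 < δ') (hδ'2 : 4 * N * δ' ≤ 1 / 300)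
    {θ g a₀ A : ℝ} {w : Fin 5 → ℝ}
    (hg : 1 / 3 ≤ g) (ha : 0 ≤ a2 θ g) (ha₀ : 7 / 8 ≤ a₀) (hA : 9 / 10 ≤ A) (hw : ∀ i, w i ≤ 2)
    {X k : ℝ} (hX1 : 1 < X) {ps : List Pq} (hlen : ps.length ≤ N) (hgood : Dq.Good X δ' B ps)
    (hka : a₀ ≤ k) (hk2 : k ≤ 2) (hnear : NearQ A w k X ps) {L : ℝ} (hL0 : 0 < L)
    (hL : L ≤ M₀ * X ^ k) {hh q c δ : ℝ} (hδ : 0 ≤ δ) (hδ1 : δ ≤ 1 / 1000) (hkh : |k - hh| ≤ δ)
    (hq : q ≤ 2 - 2 * g) (hc : c ≤ g) (h1 : |Dq.mass X ps .mo - q| ≤ δ)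
    (h2 : |Dq.mass X ps .am - c| ≤ δ) {S : Finset Eis} (hS : ∀ k ∈ S, k ∈ bl L ∧ Bad P k) :
    ∑ k ∈ S, ‖VV P h ps k‖ ≤ (C * (1 + M₀) ^ ε * M₀ ^ (1 / 3 : ℝ)) * X ^ (Tg θ g hh q c - 1 / 10) := by
  have hX0 : 0 < X := by linarith
  have hz : ∀ p ∈ ps, 0 ≤ p.z := fun p hp => (hgood p hp).2.2
  have hb := hbad L hL0 (X ^ |B|) (X ^ δ') (Real.one_le_rpow hX1.le (abs_nonneg B))
    (Real.one_le_rpow hX1.le hδ'.le) ps hlen (fun p hp => ⟨(hgood p hp).2.1.trans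
      (Real.rpow_le_rpow_of_exponent_le hX1.le (le_abs_self B)), (hgood p hp).1⟩) S hS
  have hs := sum_zl_near hX1 hw hz hnear
  have hexp := bad_exp hg ha ha₀ hA hδ hδ1 hka hkh hq hc h1 h2
  have e1 : Real.exp ((ps.map zl).sum) ≤
      X ^ (Dq.mass X ps .mo + Dq.mass X ps .am - A * k / 2) := by
    rw [Real.rpow_def_of_pos hX0]
    exact Real.exp_le_exp.2 hs
  have e2 : (X ^ |B| * (1 + L)) ^ ε ≤ (1 + M₀) ^ ε * X ^ (1 / 300 : ℝ) := by
    have h3 : 1 + L ≤ (1 + M₀) * X ^ (2 : ℝ) := by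
      have h4 : X ^ k ≤ X ^ (2 : ℝ) := Real.rpow_le_rpow_of_exponent_le hX1.le hk2
      have h5 : 1 ≤ X ^ (2 : ℝ) := Real.one_le_rpow hX1.le (by norm_num)
      have h6 : M₀ * X ^ k ≤ M₀ * X ^ (2 : ℝ) := mul_le_mul_of_nonneg_left h4 hM₀.le
      linarith
    calc (X ^ |B| * (1 + L)) ^ ε ≤ (X ^ |B| * ((1 + M₀) * X ^ (2 : ℝ))) ^ ε := by gcongr
      _ = (1 + M₀) ^ ε * X ^ ((|B| + 2) * ε) := by
          rw [Real.rpow_mul hX0.le, ← Real.mul_rpow (by positivity) (by positivity),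
            Real.rpow_add hX0]
          congr 1
          ring
      _ ≤ _ := by
          have := Real.rpow_le_rpow_of_exponent_le hX1.le hεB
          gcongr
  have e3 : (X ^ δ') ^ (4 * N) ≤ X ^ (1 / 300 : ℝ) := by
    rw [← Real.rpow_natCast, ← Real.rpow_mul hX0.le]
    refine Real.rpow_le_rpow_of_exponent_le hX1.le ?_
    have h7 : δ' * ((4 * N : ℕ) : ℝ) = 4 * N * δ' := by push_cast; ring
    rw [h7]
    exact hδ'2
  have e4 : L ^ (1 / 3 : ℝ) ≤ M₀ ^ (1 / 3 : ℝ) * X ^ (k / 3) := by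
    calc L ^ (1 / 3 : ℝ) ≤ (M₀ * X ^ k) ^ (1 / 3 : ℝ) :=
          Real.rpow_le_rpow hL0.le hL (by norm_num)
      _ = _ := by
          rw [Real.mul_rpow hM₀.le (by positivity), ← Real.rpow_mul hX0.le]
          congr 2
          ring
  refine hb.trans ?_
  calc C * (X ^ |B| * (1 + L)) ^ ε * (X ^ δ') ^ (4 * N) *
        (L ^ (1 / 3 : ℝ) * Real.exp ((ps.map zl).sum))
      ≤ C * ((1 + M₀) ^ ε * X ^ (1 / 300 : ℝ)) * X ^ (1 / 300 : ℝ) *
        ((M₀ ^ (1 / 3 : ℝ) * X ^ (k / 3)) *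
          X ^ (Dq.mass X ps .mo + Dq.mass X ps .am - A * k / 2)) := by gcongr
    _ = (C * (1 + M₀) ^ ε * M₀ ^ (1 / 3 : ℝ)) * (X ^ (1 / 300 : ℝ) * X ^ (1 / 300 : ℝ) *
        X ^ (k / 3) * X ^ (Dq.mass X ps .mo + Dq.mass X ps .am - A * k / 2)) := by ring
    _ = (C * (1 + M₀) ^ ε * M₀ ^ (1 / 3 : ℝ)) * X ^ (1 / 300 + 1 / 300 + k / 3 +
        (Dq.mass X ps .mo + Dq.mass X ps .am - A * k / 2)) := by
        rw [← Real.rpow_add hX0, ← Real.rpow_add hX0, ← Real.rpow_add hX0]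
    _ ≤ _ := by
        refine mul_le_mul_of_nonneg_left ?_ (by positivity)
        refine Real.rpow_le_rpow_of_exponent_le hX1.le ?_
        linarith

set_option maxHeartbeats 2000000 in
open Classical in
/-- **P5**: the signed theorem with all `k` from the signed theorem over the primary `k` and the
absolute theorem -/
theorem topA_of_topP {Λ : Type*} {θ g μ₁ μ₂ μ' a₀ a₀' a₁ A A' : ℝ} {w w' : Fin 5 → ℝ}
    {π : Λ → DPar} {h : ℝ → ℝ}
    {c₀ : ℝ} (hpu : PU h c₀) (hπ : ∀ lam, (π lam).OK)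
    (hN : ∀ lam k, k ≠ 0 → NPm (π lam).n (π lam).ψ (π lam).l₂ k)
    (hθ : 0 ≤ θ) (hg : 1 / 3 ≤ g) (hg' : g ≤ 2 / 3) (ha : 0 ≤ a2 θ g) (ha₀ : 7 / 8 ≤ a₀)
    (ha₀' : 0 < a₀') (ha₁ : a₀' < a₁) (hA : 9 / 10 ≤ A) (hw : ∀ i, w i ≤ 2)
    (hμ1 : μ' < μ₁) (hμ2 : μ' < μ₂) (hμ3 : μ' < 1 / 10) (hTP : TopP θ g μ₁ a₀' A w π h)
    (hTC : TopC θ g μ₂ (AL a₁ A' w') π h) : TopA θ g μ' a₀ A w π h := by
  obtain ⟨δP, hδP, HP⟩ := hTP
  obtain ⟨δC, hδC, HC⟩ := hTC
  set δ : ℝ := min (min δP (δC / 4)) (min (1 / 1000) a₀') with hδ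
  have hδ0 : 0 < δ := by positivity
  have hδ1 : δ ≤ δP := (min_le_left _ _).trans (min_le_left _ _)
  have hδ2 : δ ≤ δC / 4 := (min_le_left _ _).trans (min_le_right _ _)
  have hδ3 : δ ≤ 1 / 1000 := (min_le_right _ _).trans (min_le_left _ _)
  have hδ4 : δ ≤ a₀' := (min_le_right _ _).trans (min_le_right _ _)
  clear_value δ
  refine ⟨δ, hδ0, fun lam N B => ?_⟩
  have hP := hπ lam
  have hn0 : (π lam).n ≠ 0 := hP.φ.q0
  obtain ⟨T, hT1, hT2⟩ := exists_reps hn0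
  -- representatives
  have hrep : ∃ rep : Eis → Eis, ∀ s ∈ SM (π lam).n, rep s ∈ T ∧ SameTw (π lam).n s (rep s) := by
    refine ⟨fun s => if h : s ∈ SM (π lam).n then (hT2 s h).choose else 0, fun s hs => ?_⟩
    simp only [dif_pos hs]
    exact (hT2 s hs).choose_spec
  obtain ⟨rep, hrep⟩ := hrep
  -- constants of the long families
  choose! dP hdP xP hxP HP1 using fun t (ht : t ∈ SM (π lam).n) => HP lam t ht N B
  obtain ⟨δP', hδP', hmin⟩ := exists_pos_min T dP fun t ht => hdP t (hT1 t ht)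
  obtain ⟨XP, hXP⟩ := exists_max' T xP
  obtain ⟨MT, hMT⟩ := exists_max' T fun t => (nm t : ℝ)
  -- constants of the short families
  obtain ⟨δC', hδC', XC, hXC, HC1⟩ := HC lam N B
  obtain ⟨β, hβ, hβU⟩ := exists_supp hP.U
  set μm : ℝ := min μ₁ (min μ₂ (1 / 10)) with hμm
  have hμm1 : μm ≤ μ₁ := min_le_left _ _
  have hμm2 : μm ≤ μ₂ := (min_le_right _ _).trans (min_le_left _ _)
  have hμm3 : μm ≤ 1 / 10 := (min_le_right _ _).trans (min_le_right _ _)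
  have hμm4 : μ' < μm := lt_min hμ1 (lt_min hμ2 hμ3)
  clear_value μm
  set μd : ℝ := μm - μ' with hμd
  have hμd0 : 0 < μd := by linarith
  set ε : ℝ := min (μd / 8) (1 / 8) with hε
  have hε0 : 0 < ε := by positivity
  have hε1 : 4 * ε ≤ μd / 2 := by
    have : ε ≤ μd / 8 := min_le_left _ _
    linarith
  have hε3 : ε ≤ 1 := by
    have : ε ≤ 1 / 8 := min_le_right _ _
    linarith
  clear_value ε
  obtain ⟨C₁, hC₁, hshort⟩ := short_le hP (hN lam) hβ hβU hε0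
  set ε₂ : ℝ := (1 / 300) / (|B| + 2) with hε₂
  have hε₂0 : 0 < ε₂ := by positivity
  have hεB : (|B| + 2) * ε₂ ≤ 1 / 300 := by
    rw [hε₂, mul_div_cancel₀ _ (by positivity)]
  clear_value ε₂
  obtain ⟨C₂, hC₂, hbad⟩ := bad_abs (π lam) hP hpu N hε₂0
  obtain ⟨C₃, hC₃, hcard⟩ := card_SU hε0 hn0
  set δ' : ℝ := min (min δP' δC') ((1 / 300) / (4 * N + 1)) with hδ'
  have hδ'0 : 0 < δ' := by positivity
  have hδ'1 : δ' ≤ δP' := (min_le_left _ _).trans (min_le_left _ _)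
  have hδ'2 : δ' ≤ δC' := (min_le_left _ _).trans (min_le_right _ _)
  have hδ'3 : 4 * N * δ' ≤ 1 / 300 := by
    have h1 : δ' ≤ (1 / 300) / (4 * N + 1) := min_le_right _ _
    have h2 : (4 * N + 1 : ℝ) * δ' ≤ 1 / 300 := by
      rw [mul_comm]
      rwa [le_div_iff₀ (by positivity)] at h1
    linarith
  clear_value δ'
  -- the sizes
  set M₀ : ℝ := (|MT| + 1) * β with hM₀
  have hM₀0 : 0 < M₀ := by positivity
  clear_value M₀
  set D₂ : ℝ := C₂ * (1 + M₀) ^ ε₂ * M₀ ^ (1 / 3 : ℝ) with hD₂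
  have hD₂0 : 0 ≤ D₂ := by positivity
  set D₁ : ℝ := 1 + C₁ * 2 * (1 + D₂) with hD₁
  have hD₁0 : 0 ≤ C₁ * 2 * (1 + D₂) := by positivity
  set D₃ : ℝ := nm (π lam).n₃ * (C₃ * β ^ ε) * D₁ + 1 with hD₃
  have hD₁1 : 1 ≤ D₁ := by linarith
  have hD₃1 : 1 ≤ D₃ := by
    have : 0 ≤ nm (π lam).n₃ * (C₃ * β ^ ε) * D₁ := by positivity
    linarith
  obtain ⟨X₄, hX₄, HX₄⟩ := XSup271.exists_X hD₃1 (ε := μd / 2) (by positivity)
  set Λ₀ : ℝ := |Real.log M₀| with hΛ₀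
  have hΛ₀0 : 0 ≤ Λ₀ := abs_nonneg _
  have haa : 0 < a₁ - a₀' := by linarith
  set Y₀ : ℝ := Real.exp (Λ₀ / (a₁ - a₀') + Λ₀ / (δC / 2)) with hY₀
  refine ⟨δ', hδ'0, max (max XP XC) (max X₄ Y₀), lt_of_lt_of_le hXC
    ((le_max_right _ _).trans (le_max_left _ _)), ?_⟩
  intro X hX H hH ps hlen hlump hgood ha₀X hnear d₃ e hd₃ hd₃' he he5 τ hτ 𝒟 h𝒟 hh q c
    hh0 hh1 hq0 hq1 hc0 hc1 hqc hk hm1 hm2
  have hXX1 : XP ≤ X := ((le_max_left _ _).trans (le_max_left _ _)).trans hX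
  have hXX2 : XC ≤ X := ((le_max_right _ _).trans (le_max_left _ _)).trans hX
  have hXX3 : X₄ ≤ X := ((le_max_left _ _).trans (le_max_right _ _)).trans hX
  have hXX4 : Y₀ ≤ X := ((le_max_right _ _).trans (le_max_right _ _)).trans hX
  have hX1 : 1 < X := lt_of_lt_of_le hXC hXX2
  have hX0 : 0 < X := by linarith
  have hlX : 0 < Real.log X := Real.log_pos hX1
  have hlog : Λ₀ / (a₁ - a₀') + Λ₀ / (δC / 2) ≤ Real.log X := by
    rw [← Real.log_exp (Λ₀ / (a₁ - a₀') + Λ₀ / (δC / 2))]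
    exact Real.log_le_log (Real.exp_pos _) hXX4
  have hΛ1 : Λ₀ / Real.log X ≤ a₁ - a₀' := by
    rw [div_le_iff₀ hlX]
    have h1 : Λ₀ / (a₁ - a₀') ≤ Real.log X := le_trans (by
      have : 0 ≤ Λ₀ / (δC / 2) := by positivity
      linarith) hlog
    rw [div_le_iff₀ haa] at h1
    linarith
  have hΛ2 : Λ₀ / Real.log X ≤ δC / 2 := by
    rw [div_le_iff₀ hlX]
    have h1 : Λ₀ / (δC / 2) ≤ Real.log X := le_trans (by
      have : 0 ≤ Λ₀ / (a₁ - a₀') := by positivity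
      linarith) hlog
    rw [div_le_iff₀ (by positivity)] at h1
    linarith
  set k : ℝ := Real.log H / Real.log X with hkdef
  have hHX : H = X ^ k := by
    rw [Real.rpow_def_of_pos hX0, hkdef, mul_div_cancel₀ _ hlX.ne', Real.exp_log hH]
  have hk' := abs_le.1 hk
  have hk2 : k ≤ 2 := by linarith
  have hk0 : 0 ≤ k := by linarith
  have he1 : (1 : ℝ) ≤ nm e := by exact_mod_cast nm_pos.mpr he.1.ne_zero
  have hle : 0 ≤ Real.log (nm e) / Real.log X := div_nonneg (Real.log_nonneg he1) hlX.le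
  set V : ℝ := X ^ (Tg θ g hh q c - μm) with hV
  have hV0 : 0 < V := by positivity
  have hX2ε : 1 ≤ X ^ (2 * ε) := Real.one_le_rpow hX1.le (by positivity)
  -- one `S`-unit
  have key : ∀ s ∈ SU (π lam).n ⌊β * H⌋₊,
      ∑ r ∈ 𝒟, ‖SgP (π lam).n (DPar.wp (π lam) τ (H / nm s)) h d₃ e (moP (π lam) (rep s) ps)
        (amP (π lam) (rep s) ps) r‖ ≤ D₁ * X ^ (2 * ε) * V := by
    intro s hs
    obtain ⟨hs1, hs2⟩ := mem_SU.mp hs
    obtain ⟨ht, hst⟩ := hrep s hs2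
    have htn := hT1 _ ht
    have hsn : (1 : ℝ) ≤ nm s := by exact_mod_cast nm_pos.mpr hs2.1
    have hsH : (nm s : ℝ) ≤ β * H :=
      le_trans (by exact_mod_cast hs1) (Nat.floor_le (by positivity))
    have hK0 : 0 < H / nm s := by positivity
    have hls : 0 ≤ Real.log (nm s) := Real.log_nonneg hsn
    have hkK : Real.log (H / nm s) / Real.log X = k - Real.log (nm s) / Real.log X := by
      rw [Real.log_div hH.ne' (by positivity), sub_div]
    have hσ0 : 0 ≤ Real.log (nm s) / Real.log X := div_nonneg hls hlX.le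
    set σ : ℝ := Real.log (nm s) / Real.log X with hσ
    rcases le_or_gt a₀' (k - σ) with hlong | hsh
    · -- a long family
      have h1 := HP1 (rep s) htn X ((hXP _ ht).trans hXX1) (H / nm s) hK0 ps hlen
        (fun p hp => (hlump p hp).imp id fun h => h.trans hδ1)
        (fun p hp => ⟨(hgood p hp).1.trans (Real.rpow_le_rpow_of_exponent_le hX1.le
          (hδ'1.trans (hmin _ ht))), (hgood p hp).2⟩) (by rw [hkK]; exact hlong)
        (by rw [hkK]; exact NearQ_mono (by linarith) (by linarith) hnear) d₃ e hd₃ hd₃' he he5 τ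
        (hτ.trans (Real.rpow_le_rpow_of_exponent_le hX1.le (hδ'1.trans (hmin _ ht)))) 𝒟 h𝒟
        (hh - σ) q c (by linarith) (by linarith) hq0 hq1 hc0 hc1 (by linarith)
        (by
          rw [hkK]
          have e0 : k - σ - (hh - σ) = k - hh := by ring
          rw [e0]
          exact hk.trans hδ1) (hm1.trans hδ1) (hm2.trans hδ1)
      refine h1.trans ?_
      have h2 : Tg θ g (hh - σ) q c ≤ Tg θ g hh q c := Tg_mono hθ (by linarith) le_rfl
      calc X ^ (Tg θ g (hh - σ) q c - μ₁) ≤ V :=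
            Real.rpow_le_rpow_of_exponent_le hX1.le (by linarith)
        _ = 1 * 1 * V := by ring
        _ ≤ D₁ * X ^ (2 * ε) * V := by gcongr
    · -- a short family
      have ht0 : rep s ≠ 0 := htn.1
      have h1 := hshort h (rep s) ht0 (H / nm s) hK0 τ d₃ e he.1 ps 𝒟 (fun q hq => (h𝒟 q hq).1.1)
      refine h1.trans ?_
      have hnt : (1 : ℝ) ≤ nm (rep s) := by exact_mod_cast nm_pos.mpr ht0
      set L : ℝ := nm (rep s) * (β * (H / nm s)) with hL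
      have hL1 : 1 ≤ L := by
        have h2 : 1 ≤ β * (H / nm s) := by
          rw [← mul_div_assoc, le_div_iff₀ (by positivity), one_mul]
          exact hsH
        exact one_le_mul_of_one_le_of_one_le hnt h2
      have hL0 : 0 < L := by linarith
      have hLM : L ≤ M₀ * (H / nm s) := by
        have h2 : (nm (rep s) : ℝ) ≤ |MT| + 1 := by
          have := hMT _ ht
          have := le_abs_self MT
          linarith
        rw [hL, hM₀, mul_assoc]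
        gcongr
      have hlogL : Real.log L / Real.log X ≤ Λ₀ / Real.log X + (k - σ) := by
        have h2 : Real.log L ≤ Real.log M₀ + Real.log (H / nm s) := by
          rw [← Real.log_mul hM₀0.ne' hK0.ne']
          exact Real.log_le_log hL0 hLM
        have h3 : Real.log L ≤ Λ₀ + Real.log (H / nm s) := by
          have := le_abs_self (Real.log M₀)
          linarith
        rw [← hkK, ← add_div]
        gcongr
      set κ : ℝ := Real.log L / Real.log X with hκ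
      have hκ0 : 0 ≤ κ := div_nonneg (Real.log_nonneg hL1) hlX.le
      have hκ1 : κ ≤ a₁ := by linarith
      -- the parameters
      set q' : ℝ := min q (c + 2 - 3 * g) with hq'
      have hq'1 : q' ≤ q := min_le_left _ _
      have hq'2 : q' - c ≤ 2 - 3 * g := by
        have : q' ≤ c + 2 - 3 * g := min_le_right _ _
        linarith
      have hq'3 : 0 ≤ q' := le_min hq0 (by linarith)
      have hq'4 : q - q' ≤ δ := by
        rcases min_choice q (c + 2 - 3 * g) with h4 | h4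
        · rw [hq', h4]; linarith
        · rw [hq', h4]; linarith
      set h' : ℝ := min κ hh with hh'
      have hh'1 : h' ≤ hh := min_le_right _ _
      have hh'0 : 0 ≤ h' := le_min hκ0 hh0
      have hh'3 : κ - h' ≤ δC := by
        rcases min_choice κ hh with h4 | h4
        · rw [hh', h4]; linarith
        · rw [hh', h4]; linarith
      have hh'4 : h' ≤ κ := min_le_left _ _
      have h5 := HC1 X hXX2 κ ps hlen (fun p hp => (hlump p hp).imp id fun h =>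
        h.trans (by linarith)) (fun us gs _ _ => Or.inl hκ1) h' q' c hh'0 (by linarith) hq'3
        (by linarith) hc0 hc1 hq'2 (by rw [abs_of_nonneg (by linarith)]; exact hh'3)
        (by
          have h6 := abs_le.1 hm1
          rw [abs_le]
          constructor <;> linarith) (hm2.trans (by linarith))
        (fun p hp => ⟨(hgood p hp).1.trans (Real.rpow_le_rpow_of_exponent_le hX1.le hδ'2),
          (hgood p hp).2⟩)
      have e5 : κ * Real.log X = Real.log L := by rw [hκ, div_mul_cancel₀ _ hlX.ne']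
      rw [e5] at h5
      have h6 : Tg θ g h' q' c ≤ Tg θ g hh q c := Tg_mono hθ hh'1 hq'1
      have h7 : Bc (π lam) h (Real.log L) ps ≤ V :=
        h5.trans (Real.rpow_le_rpow_of_exponent_le hX1.le (by linarith))
      have h8 : ∑ k ∈ (bl L).filter fun k => Bad (π lam) k, ‖VV (π lam) h ps k‖ ≤ D₂ * V := by
        have h9 := bad_le (P := π lam) (h := h) hε₂0 hC₂ hεB
          (fun K hK M T hM hT ps hps hps' S hS => by
            refine le_trans (Finset.sum_le_sum_of_subset_of_nonneg (fun k hk => ?_)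
              fun _ _ _ => norm_nonneg _) (hbad K hK M T hM hT ps hps hps')
            exact Finset.mem_filter.2 (hS k hk)) hM₀0 hδ'0 hδ'3 hg ha ha₀ hA hw hX1 hlen hgood
          ha₀X hk2 hnear hL0 (L := L) (by
            refine hLM.trans ?_
            rw [← hHX]
            have : H / nm s ≤ H := div_le_self hH.le hsn
            gcongr) hδ0.le hδ3 hk hq1 hc1 hm1 hm2
            (S := (bl L).filter fun k => Bad (π lam) k) (fun k hk => Finset.mem_filter.1 hk)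
        refine h9.trans ?_
        have h10 : X ^ (Tg θ g hh q c - 1 / 10) ≤ V :=
          Real.rpow_le_rpow_of_exponent_le hX1.le (by linarith)
        gcongr
      have h11 : (1 + H / nm s) ^ ε ≤ 2 * X ^ (2 * ε) := by
        have h12 : 1 + H / nm s ≤ 2 * X ^ (2 : ℝ) := by
          have h13 : H / nm s ≤ H := div_le_self hH.le hsn
          have h14 : H ≤ X ^ (2 : ℝ) := by
            rw [hHX]; exact Real.rpow_le_rpow_of_exponent_le hX1.le hk2
          have h15 : 1 ≤ X ^ (2 : ℝ) := Real.one_le_rpow hX1.le (by norm_num)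
          linarith
        calc (1 + H / nm s) ^ ε ≤ (2 * X ^ (2 : ℝ)) ^ ε := by gcongr
          _ = 2 ^ ε * X ^ (2 * ε) := by
              rw [Real.mul_rpow (by norm_num) (by positivity), ← Real.rpow_mul hX0.le]
          _ ≤ 2 ^ (1 : ℝ) * X ^ (2 * ε) := by
              have : (2 : ℝ) ^ ε ≤ 2 ^ (1 : ℝ) :=
                Real.rpow_le_rpow_of_exponent_le (by norm_num) hε3
              gcongr
          _ = _ := by rw [Real.rpow_one]
      have h16 : 0 ≤ Bc (π lam) h (Real.log L) ps +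
          ∑ k ∈ (bl L).filter fun k => Bad (π lam) k, ‖VV (π lam) h ps k‖ :=
        add_nonneg (BQ_nonneg _ _ _ _) (Finset.sum_nonneg fun _ _ => norm_nonneg _)
      calc C₁ * (1 + H / nm s) ^ ε * (Bc (π lam) h (Real.log L) ps +
            ∑ k ∈ (bl L).filter fun k => Bad (π lam) k, ‖VV (π lam) h ps k‖)
          ≤ C₁ * (2 * X ^ (2 * ε)) * (V + D₂ * V) := by gcongr
        _ = (C₁ * 2 * (1 + D₂)) * X ^ (2 * ε) * V := by ring
        _ ≤ D₁ * X ^ (2 * ε) * V := by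
            have : C₁ * 2 * (1 + D₂) ≤ D₁ := by linarith
            gcongr
  -- all
  have htot : ∑ r ∈ 𝒟, ‖SgA (π lam) h τ H d₃ e ps r‖ ≤ nm (π lam).n₃ *
      ∑ s ∈ SU (π lam).n ⌊β * H⌋₊, ∑ r ∈ 𝒟, ‖SgP (π lam).n (DPar.wp (π lam) τ (H / nm s)) h d₃ e
        (moP (π lam) (rep s) ps) (amP (π lam) (rep s) ps) r‖ := by
    rw [Finset.sum_comm, Finset.mul_sum]
    exact Finset.sum_le_sum fun r hr => norm_SgA_le hP hβ hβU (fun s hs => (hrep s hs).2) hH τ d₃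
      he.1 ps (h𝒟 r hr).1
  have hcardB : ((SU (π lam).n ⌊β * H⌋₊).card : ℝ) ≤ C₃ * β ^ ε * X ^ (2 * ε) := by
    refine (hcard _).trans ?_
    have h1 : ((⌊β * H⌋₊ : ℕ) : ℝ) ≤ β * X ^ (2 : ℝ) := by
      refine (Nat.floor_le (by positivity)).trans ?_
      have h14 : H ≤ X ^ (2 : ℝ) := by
        rw [hHX]; exact Real.rpow_le_rpow_of_exponent_le hX1.le hk2
      gcongr
    calc C₃ * ((⌊β * H⌋₊ : ℕ) : ℝ) ^ ε ≤ C₃ * (β * X ^ (2 : ℝ)) ^ ε := by gcongr
      _ = C₃ * β ^ ε * X ^ (2 * ε) := by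
          rw [Real.mul_rpow hβ.le (by positivity), ← Real.rpow_mul hX0.le]
          ring
  refine htot.trans ?_
  calc (nm (π lam).n₃ : ℝ) * ∑ s ∈ SU (π lam).n ⌊β * H⌋₊, ∑ r ∈ 𝒟,
        ‖SgP (π lam).n (DPar.wp (π lam) τ (H / nm s)) h d₃ e
        (moP (π lam) (rep s) ps) (amP (π lam) (rep s) ps) r‖
      ≤ nm (π lam).n₃ * ∑ _s ∈ SU (π lam).n ⌊β * H⌋₊, D₁ * X ^ (2 * ε) * V := by
        gcongr with s hs
        exact key s hs
    _ = nm (π lam).n₃ * ((SU (π lam).n ⌊β * H⌋₊).card * (D₁ * X ^ (2 * ε) * V)) := by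
        rw [Finset.sum_const, nsmul_eq_mul]
    _ ≤ nm (π lam).n₃ * ((C₃ * β ^ ε * X ^ (2 * ε)) * (D₁ * X ^ (2 * ε) * V)) := by gcongr
    _ = (nm (π lam).n₃ * (C₃ * β ^ ε) * D₁) * (X ^ (2 * ε) * X ^ (2 * ε)) * V := by ring
    _ ≤ D₃ * X ^ (μd / 2) * V := by
        have h1 : nm (π lam).n₃ * (C₃ * β ^ ε) * D₁ ≤ D₃ := by linarith
        have h2 : X ^ (2 * ε) * X ^ (2 * ε) ≤ X ^ (μd / 2) := by
          rw [← Real.rpow_add hX0]
          exact Real.rpow_le_rpow_of_exponent_le hX1.le (by linarith)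
        gcongr
    _ ≤ X ^ (μd / 2) * X ^ (μd / 2) * V := by
        have := HX₄ X hXX3
        gcongr
    _ = X ^ (Tg θ g hh q c - μ') := by
        rw [hV, ← Real.rpow_add hX0, ← Real.rpow_add hX0]
        congr 1
        rw [hμd]
        ring

/-- **the signed theorem from the signed theorem over the primary `k`** (class N) -/
theorem topS_of_topP {Λ : Type*} {θ g μ₁ μ₂ μ' a₀ a₀' a₁ A A' : ℝ} {w w' : Fin 5 → ℝ}
    {π : Λ → DPar} {h : ℝ → ℝ}
    {c₀ : ℝ} (hpu : PU h c₀) (hπ : ∀ lam, (π lam).OK)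
    (hN : ∀ lam k, k ≠ 0 → NPm (π lam).n (π lam).ψ (π lam).l₂ k)
    (hθ : 0 ≤ θ) (hg : 1 / 3 ≤ g) (hg' : g ≤ 2 / 3) (ha : 0 ≤ a2 θ g) (ha₀ : 7 / 8 ≤ a₀)
    (ha₀' : 0 < a₀') (ha₁ : a₀' < a₁) (hA : 9 / 10 ≤ A) (hw : ∀ i, w i ≤ 2)
    (hμ1 : μ' < μ₁) (hμ2 : μ' < μ₂) (hμ3 : μ' < 1 / 10) (hTP : TopP θ g μ₁ a₀' A w π h)
    (hTC : TopC θ g μ₂ (AL a₁ A' w') π h) : TopS θ g μ' a₀ A w π h := by
  obtain ⟨μ, h1, h2⟩ := exists_between (lt_min hμ1 (lt_min hμ2 hμ3))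
  have h3 : μ < μ₁ := lt_of_lt_of_le h2 (min_le_left _ _)
  have h4 : μ < μ₂ := lt_of_lt_of_le h2 ((min_le_right _ _).trans (min_le_left _ _))
  have h5 : μ < 1 / 10 := lt_of_lt_of_le h2 ((min_le_right _ _).trans (min_le_right _ _))
  exact topS_of_topA hpu hπ hN hg ha ha₀ hA hw h1 hμ3
    (topA_of_topP hpu hπ hN hθ hg hg' ha ha₀ ha₀' ha₁ hA hw h3 h4 h5 hTP hTC)

end Crest.Agent.R017.E5S271
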