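import Crest.Agent.R017.E5D_71
import Crest.Agent.R017.E5S2_271

/-!
# Row 17, P8: the absolute near-equal boxes, signed sum over primary `k`, class N (helper71)

* `absU_of` : `AbsR` (helper918's `NearS`) ⟹ `AbsU`
-/

set_option autoImplicit false

noncomputable section

open Set

namespace Crest.Agent.R017.E5B71

open Crest.Agent.R012 Crest.Agent.R012.Eis
open Crest.Agent.R012.LS2 (bl mem_bl)
open Crest.Agent.R017.Prov71 Crest.Agent.R017.R8C918 Crest.Agent.R017.ER911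
open Crest.Agent.R017.XG702 (Pcs BG Good_mono)
open Crest.Agent.R017.XT71 (Sys Win mx one_le_mx le_mx)
open Crest.Agent.R017.XF71 (const_le_rpow)
open Crest.Agent.R017.UM71 Crest.Agent.R017.UBR61
open Crest.Agent.R017.Cone59
open Crest.Agent.R017.B770 Crest.Agent.R017.E5S271 Crest.Agent.R017.BadK271
open Crest.Agent.R017.End699 Crest.Agent.R017.FE47 Crest.Agent.R017.Two939
open Crest.Agent.R017.Sx545 (Sm)
open Crest.Agent.R017.Sup271 (NPm)
open Crest.Agent.R017.Bx986 (exists_supp)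
open Crest.Agent.R017.E5T54

/-- the list of the box -/
def L5 (a : Bd) (ps : List Pq) : List Pq := as3 a ++ a.us 0 :: a.us 1 :: ps

lemma L5_perm (a : Bd) (ps : List Pq) : (mk5 a ++ ps).Perm (L5 a ps) := by
  unfold L5 mk5 as3
  have h1 : ([a.us 0, a.us 1, a.us 2, a.us 3, a.us 4] : List Pq) =
    [a.us 0, a.us 1] ++ [a.us 2, a.us 3, a.us 4] := rfl
  have h2 : a.us 0 :: a.us 1 :: ps = [a.us 0, a.us 1] ++ ps := rfl
  rw [h1, h2, ← List.append_assoc]
  exact List.perm_append_comm.append_right ps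

lemma ofFn5 (a : Bd) : List.ofFn a.us = mk5 a := by
  unfold mk5
  simp [List.ofFn_succ]

lemma moP_L5 {P : DPar} {t : Eis} {a : Bd} (ha : a.ok) (ps : List Pq) :
    moP P t (L5 a ps) = (as3 a ++ bs2 a ps).map (Pt P t) := by
  classical
  have hk : ∀ i, (a.us i).kd = .mo := fun i => (ha.1 i).1.1
  unfold moP L5 as3 bs2 moL
  simp only [List.cons_append, List.nil_append, List.filter_cons, hk, decide_true, if_true,
    List.map_cons]
  rfl

lemma amP_L5 {P : DPar} {t : Eis} {a : Bd} (ha : a.ok) (ps : List Pq) :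
    amP P t (L5 a ps) = (amL ps).map (Pt P t) := by
  classical
  have hk : ∀ i, (a.us i).kd = .mo := fun i => (ha.1 i).1.1
  unfold amP L5 as3 amL
  simp only [List.cons_append, List.nil_append, List.filter_cons, hk, reduceCtorEq, decide_false,
    Bool.false_eq_true, if_false]
  rfl

lemma mass_L5 {X : ℝ} {a : Bd} (ha : a.ok) (ps : List Pq) (t : Kd) :
    Dq.mass X (L5 a ps) t = (if t = .mo then ∑ i, Dq.nl X (a.us i) else 0) + Dq.mass X ps t := by
  have hk : ∀ i, (a.us i).kd = .mo := fun i => (ha.1 i).1.1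
  rw [Pcs.mass_perm _ (L5_perm a ps).symm, Pcs.mass_append]
  congr 1
  unfold mk5
  simp only [Pcs.mass_cons, Dq_kind, hk]
  cases t
  · simp [Fin.sum_univ_five]; ring
  · simp

lemma near5 {X κ : ℝ} {a : Bd} (ha : a.ok) (ps : List Pq) {A : ℝ}
    (h : A * κ ≤ 2 * ∑ i, Dq.nl X (a.us i)) : NearQ A (fun _ => 2) κ X (L5 a ps) := by
  obtain ⟨σ, hσ⟩ := exists_anti (fun i => Dq.nl X (a.us i))
  refine ⟨a.us ∘ σ, ps, ?_, fun i => (ha.1 (σ i)).1, fun i j hij => hσ hij, ?_⟩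
  · refine (L5_perm a ps).symm.trans (List.Perm.append_right ps ?_)
    rw [← ofFn5]
    exact (Equiv.Perm.ofFn_comp_perm σ a.us).symm
  · rw [← Finset.mul_sum]
    have e : ∑ i, Dq.nl X ((a.us ∘ σ) i) = ∑ i, Dq.nl X (a.us i) :=
      Equiv.sum_comp σ fun i => Dq.nl X (a.us i)
    rw [e]; exact h

section
variable {Λ : Type*} {π : Λ → DPar} {h : ℝ → ℝ}

open Classical in
/-- **`AbsU`, class N** -/
theorem absU_of {c₀ : ℝ} (hpu : PU h c₀) (hP : ∀ lam, (π lam).OK)
    (hN : ∀ lam k, k ≠ 0 → NPm (π lam).n (π lam).ψ (π lam).l₂ k) {A d μ μ' : ℝ}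
    (hA : 95 / 100 ≤ A) (hd : 0 < d) (hd1 : d ≤ 1 / 8)
    (H : AbsR A d (7 / 8 * d) μ (ex Dq (fun lam => Bc (π lam) h))) (hμ : μ' ≤ μ)
    (hμ1 : μ' ≤ 1 / 10) : AbsU π h (7 / 8 + d) A d μ' := by
  intro ε hε
  choose β hβ hβU using fun lam : Λ => exists_supp (hP lam).U
  set c : Λ × Eis → ℝ := fun lam => Real.log (nm lam.2) + Real.log (β lam.1) with hcdef
  obtain ⟨δ1, hδ1, K1⟩ := bcU_of hpu hP hA hd hd1 H c (ε / 4) (by linarith)
  set δ : ℝ := min δ1 (1 / 20000) with hδdef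
  have hδ : 0 < δ := lt_min hδ1 (by norm_num)
  have hδa : δ ≤ δ1 := min_le_left _ _
  have hδb : δ ≤ 1 / 20000 := min_le_right _ _
  clear_value δ
  refine ⟨δ, hδ, fun lam N B => ?_⟩
  by_cases ht : lam.2 ∈ SM (π lam.1).n
  swap
  · refine ⟨1, one_pos, 2, by norm_num, fun X hX a ps _ _ q _ _ _ _ _ => ?_⟩
    unfold PrimF
    rw [if_neg fun hh => ht hh.2.1]
    exact Real.rpow_nonneg (by linarith) _
  set t := lam.2 with htdef
  have ht0 : t ≠ 0 := ht.1
  have ht1 : (1 : ℝ) ≤ nm t := by exact_mod_cast nm_pos.mpr ht0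
  obtain ⟨ρ1, hρ1, X1, hX1, L1⟩ := K1 lam N B
  obtain ⟨C₁, hC₁, hshort⟩ := short_le (hP lam.1) (hN lam.1) (hβ lam.1) (hβU lam.1)
    (ε := ε / 16) (by linarith)
  set ε₂ : ℝ := (1 / 300) / (|B| + 2) with hε₂
  have hε₂0 : 0 < ε₂ := by positivity
  have hεB : (|B| + 2) * ε₂ ≤ 1 / 300 := by
    rw [hε₂, mul_div_cancel₀ _ (by positivity)]
  clear_value ε₂
  obtain ⟨C₂, hC₂, hbad⟩ := bad_abs (π lam.1) (hP lam.1) hpu (N + 5) hε₂0
  set δ' : ℝ := min ρ1 ((1 / 300) / (4 * (N + 5 : ℕ) + 1)) with hδ'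
  have hδ'0 : 0 < δ' := by positivity
  have hδ'1 : δ' ≤ ρ1 := min_le_left _ _
  have hδ'3 : 4 * ((N + 5 : ℕ) : ℝ) * δ' ≤ 1 / 300 := by
    have h1 : δ' ≤ (1 / 300) / (4 * (N + 5 : ℕ) + 1) := min_le_right _ _
    have h2 : (4 * ((N + 5 : ℕ) : ℝ) + 1) * δ' ≤ 1 / 300 := by
      rw [mul_comm]
      rwa [le_div_iff₀ (by positivity)] at h1
    linarith
  clear_value δ'
  set M₀ : ℝ := nm t * β lam.1 with hM₀
  have hM₀0 : 0 < M₀ := mul_pos (by linarith) (hβ lam.1)
  set D₂ : ℝ := C₂ * (1 + M₀) ^ ε₂ * M₀ ^ (1 / 3 : ℝ) with hD₂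
  have hD₂0 : 0 ≤ D₂ := by positivity
  obtain ⟨X2, hX2, HX2⟩ := const_le_rpow (C := C₁ * 2 ^ (ε / 16) * (1 + D₂)) (ε := ε / 4) (by linarith)
  refine ⟨δ', hδ'0, max X1 X2, lt_of_lt_of_le hX1 (le_max_left _ _), ?_⟩
  intro X hX a ps hlen hlump q hq hw hmass hgood hal
  have x1 : X1 ≤ X := (le_max_left _ _).trans hX
  have x2 : X2 ≤ X := (le_max_right _ _).trans hX
  have hX1' : 1 < X := by linarith
  have hX0 : 0 < X := by linarith
  have hlX : 0 < Real.log X := Real.log_pos hX1'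
  by_cases hok : a.ok ∧ t ∈ SM (π lam.1).n ∧ a.okP (π lam.1)
  swap
  · unfold PrimF
    rw [if_neg hok]
    exact Real.rpow_nonneg hX0.le _
  obtain ⟨hao, -, hao2⟩ := hok
  have hV5 : V5 a := hao.1
  have hNr : Nr5 A q.1 q.2 := (show Ab5 A d q.1 q.2 from hq).toNr5
  obtain ⟨u1, u2, u3, u4⟩ := hNr.anti
  -- the sum
  have hs := hshort h t ht0 (Real.exp a.l) (Real.exp_pos _) a.τ a.d₃ a.e hao2.1.1 (L5 a ps) a.𝒟
    (fun q hq => (hao2.2.2 q hq).1.1)
  rw [moP_L5 hao, amP_L5 hao] at hs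
  have hprim : PrimF π h lam a ps = ∑ q ∈ a.𝒟, ‖SgP (π lam.1).n
      (SU770.DPar.wp (π lam.1) a.τ (Real.exp a.l)) h a.d₃ a.e
      ((as3 a ++ bs2 a ps).map (Pt (π lam.1) t)) ((amL ps).map (Pt (π lam.1) t)) q‖ := by
    unfold PrimF
    rw [if_pos ⟨hao, ht, hao2⟩]
    rfl
  rw [← hprim] at hs
  -- the family
  have hκw := abs_le.1 (hw.ev (.inl 0))
  have hev0 : S5.ev X a (.inl 0) = a.l / Real.log X := by simp [S5]
  rw [hev0] at hκw
  change -δ ≤ a.l / Real.log X - cκ q.1 ∧ a.l / Real.log X - cκ q.1 ≤ δ at hκw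
  set k : ℝ := a.l / Real.log X with hk
  have hk0 := hNr.κ0
  have hk1 := hNr.κ1
  have hXk : X ^ k = Real.exp a.l := by
    rw [Real.rpow_def_of_pos hX0, hk, mul_div_cancel₀ _ hlX.ne']
  have huw : ∀ i, |Dq.nl X (a.us i) - cu q.1 i| ≤ δ := fun i => by
    have := hw.ev (.inr i)
    simpa [S5, cu] using this
  -- `Bc`
  have hBc : Bc (π lam.1) h (Real.log (nm t * (β lam.1 * Real.exp a.l))) (L5 a ps) ≤
      X ^ (T5 (7 / 8 + d) q - μ' + ε / 4) := by
    have e1 : Real.log (nm t * (β lam.1 * Real.exp a.l)) = a.l + c lam := by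
      rw [Real.log_mul (by positivity) (by have := hβ lam.1; positivity),
        Real.log_mul (hβ lam.1).ne' (Real.exp_pos _).ne', Real.log_exp]
      simp only [hcdef]
      ring
    have e2 : Bc (π lam.1) h (a.l + c lam) (L5 a ps) = BcF π h c lam a ps := by
      unfold BcF mkF
      rw [if_pos hV5]
      exact (ExpC702.pinv_Bc π h lam.1 _ _ _ (L5_perm a ps)).symm
    rw [e1, e2]
    refine (L1 X x1 a ps hlen (fun p hp => (hlump p hp).imp id fun h => h.trans hδa) q hq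
      (hw.mono hX1'.le hδa le_rfl le_rfl hδ'1) (fun t => (hmass t).trans hδa)
      (Good_mono hX1'.le hgood hδ'1) hal).trans ?_
    exact Real.rpow_le_rpow_of_exponent_le hX1'.le (by linarith)
  -- the bad `k`
  have hsumu : |∑ i, Dq.nl X (a.us i) - (cN q.1 + cM q.1)| ≤ 5 * δ := by
    have e : cN q.1 + cM q.1 = ∑ i, cu q.1 i := by
      unfold cN cM
      rw [Fin.sum_univ_five]; ring
    rw [e, ← Finset.sum_sub_distrib]
    refine (Finset.abs_sum_le_sum_abs _ _).trans ?_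
    calc ∑ i, |Dq.nl X (a.us i) - cu q.1 i| ≤ ∑ _i : Fin 5, δ := Finset.sum_le_sum fun i _ => huw i
      _ = 5 * δ := by simp
  have hgL : Dq.Good X δ' B (L5 a ps) := by
    intro p hp
    have hp' := (L5_perm a ps).symm.subset hp
    rcases List.mem_append.1 hp' with h1 | h1
    · rw [← ofFn5] at h1
      have m1 : Dq.s1 p ≤ S5.s₁ a := (le_mx h1).trans (le_max_right _ _)
      have m2 : Dq.s2 p ≤ S5.s₂ a := (le_mx h1).trans (le_max_right _ _)
      obtain ⟨i, rfl⟩ := (List.mem_ofFn' _ _).1 h1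
      exact ⟨m1.trans hw.s₁, m2.trans hw.s₂, (hao.1 i).2⟩
    · exact hgood p h1
  have hlL : (L5 a ps).length ≤ N + 5 := by
    rw [← (L5_perm a ps).length_eq, List.length_append]
    unfold mk5
    simp only [List.length_cons, List.length_nil]
    omega
  have hs5 := abs_le.1 hsumu
  have hnearq : NearQ (9 / 10) (fun _ => 2) k X (L5 a ps) := by
    refine near5 hao ps ?_
    have h1 := hNr.near
    have h2 : 95 / 100 * cκ q.1 ≤ A * cκ q.1 := mul_le_mul_of_nonneg_right hA (by linarith)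
    have h3 : 0 ≤ cM q.1 := by
      unfold cM
      have := hNr.u4pos hA
      linarith
    have h4 : cu q.1 4 ≤ cN q.1 := by
      unfold cN
      have := hNr.u4pos hA
      linarith
    linarith [hκw.2]
  have hbk : ∑ k ∈ (bl (nm t * (β lam.1 * Real.exp a.l))).filter (fun k => Bad (π lam.1) k),
      ‖VV (π lam.1) h (L5 a ps) k‖ ≤ D₂ * X ^ (T5 (7 / 8 + d) q - 1 / 10) := by
    have h9 := bad_le (P := π lam.1) (h := h) (N := N + 5) hε₂0 hC₂ hεB
      (fun K hK M T hM hT ps hps hps' S hS => by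
        refine le_trans (Finset.sum_le_sum_of_subset_of_nonneg (fun k hk => ?_)
          fun _ _ _ => norm_nonneg _) (hbad K hK M T hM hT ps hps hps')
        exact Finset.mem_filter.2 (hS k hk)) hM₀0 hδ'0 hδ'3 (θ := 7 / 8 + d) (g := 1 / 3)
        (a₀ := 7 / 8) (A := 9 / 10) (w := fun _ => 2) le_rfl
        (by unfold a2; norm_num; nlinarith) le_rfl le_rfl (fun _ => le_rfl) hX1' hlL hgL
      (by linarith [hκw.1]) (by linarith [hκw.2]) hnearq
      (L := nm t * (β lam.1 * Real.exp a.l))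
      (by have := hβ lam.1; have := Real.exp_pos a.l; positivity)
      (by rw [hXk, hM₀, mul_assoc]) (hh := cκ q.1) (q := cN q.1 + cM q.1 + q.2 .mo)
      (c := q.2 .am) (δ := 1 / 1000) (by norm_num) le_rfl
      (by rw [abs_le]; constructor <;> linarith [hκw.1, hκw.2]) (by linarith [hNr.q])
      (by linarith [hNr.c])
      (by
        have hm := abs_le.1 (hmass .mo)
        rw [mass_L5 hao, if_pos rfl, abs_le]
        constructor <;> linarith [hm.1, hm.2, hs5.1, hs5.2])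
      (by
        have hm := abs_le.1 (hmass .am)
        rw [mass_L5 hao, if_neg (by simp), abs_le]
        constructor <;> linarith [hm.1, hm.2])
      (S := (bl (nm t * (β lam.1 * Real.exp a.l))).filter fun k => Bad (π lam.1) k)
      (fun k hk => Finset.mem_filter.1 hk)
    exact h9
  -- all
  set V : ℝ := X ^ (T5 (7 / 8 + d) q - μ' + ε / 4) with hV
  have hV0 : 0 ≤ V := by positivity
  have hb2 : X ^ (T5 (7 / 8 + d) q - 1 / 10) ≤ V :=
    Real.rpow_le_rpow_of_exponent_le hX1'.le (by linarith)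
  have h11 : (1 + Real.exp a.l) ^ (ε / 16) ≤ 2 ^ (ε / 16) * X ^ (ε / 8) := by
    have h12 : 1 + Real.exp a.l ≤ 2 * X ^ (2 : ℝ) := by
      have h14 : Real.exp a.l ≤ X ^ (2 : ℝ) := by
        rw [← hXk]; exact Real.rpow_le_rpow_of_exponent_le hX1'.le (by linarith [hκw.2])
      have h15 : 1 ≤ X ^ (2 : ℝ) := Real.one_le_rpow hX1'.le (by norm_num)
      linarith
    calc (1 + Real.exp a.l) ^ (ε / 16) ≤ (2 * X ^ (2 : ℝ)) ^ (ε / 16) :=
          Real.rpow_le_rpow (by positivity) h12 (by linarith)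
      _ = _ := by
        rw [Real.mul_rpow (by norm_num) (by positivity), ← Real.rpow_mul hX0.le]
        congr 2; ring
  have hC := HX2 X x2
  calc PrimF π h lam a ps ≤ _ := hs
    _ ≤ C₁ * (2 ^ (ε / 16) * X ^ (ε / 8)) * (V + D₂ * V) := by
        have hbk' : ∑ k ∈ (bl (nm t * (β lam.1 * Real.exp a.l))).filter
            (fun k => Bad (π lam.1) k), ‖VV (π lam.1) h (L5 a ps) k‖ ≤ D₂ * V :=
          hbk.trans (mul_le_mul_of_nonneg_left hb2 hD₂0)
        have h16 : 0 ≤ Bc (π lam.1) h (Real.log (nm t * (β lam.1 * Real.exp a.l))) (L5 a ps) +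
            ∑ k ∈ (bl (nm t * (β lam.1 * Real.exp a.l))).filter (fun k => Bad (π lam.1) k),
              ‖VV (π lam.1) h (L5 a ps) k‖ :=
          add_nonneg (TopC702.Bc_nonneg _ _ _ _) (Finset.sum_nonneg fun _ _ => norm_nonneg _)
        exact mul_le_mul (mul_le_mul_of_nonneg_left h11 hC₁) (add_le_add hBc hbk') h16
          (by positivity)
    _ = (C₁ * 2 ^ (ε / 16) * (1 + D₂)) * X ^ (ε / 8) * V := by ring
    _ ≤ X ^ (ε / 4) * X ^ (ε / 8) * V := by gcongr
    _ ≤ X ^ (T5 (7 / 8 + d) q - μ' + ε) := by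
        rw [hV, ← Real.rpow_add hX0, ← Real.rpow_add hX0]
        exact Real.rpow_le_rpow_of_exponent_le hX1'.le (by linarith)

end

end Crest.Agent.R017.E5B71
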