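import Crest.Agent.R017.E5S2_271
import Crest.Agent.R017.E5BDefs_71

/-!
# Row 17, P8 (helper271): `TopP` from `PrimU`

* `nearQ_top` : the five marked pieces can be taken as the five longest smooth pieces
* `SgP_perm`
* `topP_of_primU`
-/

set_option autoImplicit false

noncomputable section

open Complex Filter Topology
open scoped ContDiff ComplexConjugate

namespace Crest.Agent.R017.E5S271

open Crest.Agent.R012 Crest.Agent.R012.Eis Crest.Agent.R012.Gauss880
open Crest.Agent.R012.Mob705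
open Crest.Agent.R017.CM106 (CS)
open Crest.Agent.R017.End699 Crest.Agent.R017.FE47
open Crest.Agent.R017.B770 Crest.Agent.R017.Bx986
open Crest.Agent.R017.HP842 (UT Pc pc)
open Crest.Agent.R017.SU770
open Crest.Agent.R017.Prov71 Crest.Agent.R017.XG702
open Crest.Agent.R017.XT71 (Sys Win mx)
open Crest.Agent.R017.E5T54 Crest.Agent.R017.E5B71
open Crest.Agent.R017.Sx545 (Sm)
open Crest.Agent.R017.Cone59 (Tg a2)

/-- the weights `(0, 0, 1, 1, 2)` -/
def w5 : Fin 5 → ℝ := ![0, 0, 1, 1, 2]

/-! ### the five longest smooth pieces -/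

open Classical in
/-- **the five marked pieces can be taken as the five longest smooth pieces** -/
theorem nearQ_top {A k X : ℝ} {w : Fin 5 → ℝ} (hw : ∀ i, 0 ≤ w i) {ps : List Pq}
    (h : NearQ A w k X ps) : ∃ (us : Fin 5 → Pq) (gs : List Pq), ps.Perm (List.ofFn us ++ gs) ∧
      (∀ i, Dq.lump (us i)) ∧ (∀ a b, a ≤ b → Dq.nl X (us b) ≤ Dq.nl X (us a)) ∧
      A * k ≤ ∑ i, w i * Dq.nl X (us i) ∧
      ∀ p ∈ gs, Dq.lump p → Dq.nl X p ≤ Dq.nl X (us 4) := by
  obtain ⟨us, gs, hperm, hl, hanti, hA⟩ := h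
  set L : List Pq := ps.filter fun p => Dq.lump p with hL
  set R : Pq → Pq → Prop := fun a b => Dq.nl X b ≤ Dq.nl X a with hR
  set S : List Pq := L.insertionSort R with hS
  have hSp : S.Perm L := List.perm_insertionSort R L
  have : IsTotal Pq R := ⟨fun a b => le_total _ _⟩
  have : IsTrans Pq R := ⟨fun a b c hab hbc => le_trans hbc hab⟩
  have hSs : S.Pairwise R := List.pairwise_insertionSort R L
  -- the length
  have hsub : (List.ofFn us).Subperm L := by
    have h1 : (List.ofFn us).filter (fun p => Dq.lump p) = List.ofFn us := by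
      rw [List.filter_eq_self]
      intro p hp
      obtain ⟨i, rfl⟩ := (List.mem_ofFn' _ _).1 hp
      simpa using hl i
    have h2 : L.Perm (List.ofFn us ++ gs.filter fun p => Dq.lump p) := by
      have := hperm.filter fun p => Dq.lump p
      rw [List.filter_append, h1] at this
      exact this
    exact (List.Sublist.subperm (List.sublist_append_left _ _)).trans h2.symm.subperm
  have hlen : 5 ≤ S.length := by
    have h1 := hsub.length_le
    rw [List.length_ofFn] at h1
    rw [hSp.length_eq]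
    exact h1
  -- domination
  have hdom : ∀ i : Fin 5, Dq.nl X (us i) ≤ Dq.nl X (S.get ⟨i, by omega⟩) := by
    intro i
    by_contra hcon
    push Not at hcon
    set v : ℝ := Dq.nl X (us i) with hv
    have hiS : (i : ℕ) < S.length := by omega
    -- upper bound of the count in `S`
    have h1 : (S.drop i).countP (fun p => decide (v ≤ Dq.nl X p)) = 0 := by
      rw [List.countP_eq_zero]
      intro p hp
      simp only [decide_eq_true_eq, not_le]
      obtain ⟨j, hj, rfl⟩ := List.mem_iff_getElem.1 hp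
      rw [List.getElem_drop]
      rcases Nat.eq_zero_or_pos j with rfl | hj0
      · simpa using hcon
      · have h2 := (List.pairwise_iff_getElem.1 hSs) i (i + j) hiS
          (by rw [List.length_drop] at hj; omega) (by omega)
        exact lt_of_le_of_lt h2 hcon
    have h2 : S.countP (fun p => decide (v ≤ Dq.nl X p)) ≤ i := by
      rw [← List.take_append_drop i S, List.countP_append, h1, add_zero]
      exact (List.countP_le_length).trans (by rw [List.length_take]; exact min_le_left _ _)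
    -- lower bound
    have h3 : (i : ℕ) + 1 ≤ (List.ofFn us).countP (fun p => decide (v ≤ Dq.nl X p)) := by
      have h4 : ((List.ofFn us).take (i + 1)).countP (fun p => decide (v ≤ Dq.nl X p)) =
          ((List.ofFn us).take (i + 1)).length := by
        rw [List.countP_eq_length]
        intro p hp
        obtain ⟨j, hj, rfl⟩ := List.mem_iff_getElem.1 hp
        rw [List.getElem_take, List.getElem_ofFn]
        simp only [decide_eq_true_eq]
        rw [List.length_take, List.length_ofFn] at hj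
        exact hanti _ i (by rw [Fin.le_def]; simp; omega)
      have h5 : ((List.ofFn us).take (i + 1)).length = i + 1 := by
        rw [List.length_take, List.length_ofFn]
        omega
      rw [← h5, ← h4]
      exact (List.take_sublist _ _).countP_le
    have h6 : (List.ofFn us).countP (fun p => decide (v ≤ Dq.nl X p)) ≤
        S.countP (fun p => decide (v ≤ Dq.nl X p)) := by
      rw [hSp.countP_eq]
      exact hsub.countP_le _
    omega
  refine ⟨fun i => S.get ⟨i, by omega⟩, S.drop 5 ++ ps.filter (fun p => ¬ Dq.lump p), ?_, ?_, ?_,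
    ?_, ?_⟩
  · have e1 : List.ofFn (fun i : Fin 5 => S.get ⟨i, by omega⟩) = S.take 5 := by
      refine List.ext_getElem ?_ fun n h1 h2 => ?_
      · rw [List.length_ofFn, List.length_take]; omega
      · rw [List.getElem_ofFn, List.getElem_take]
        rfl
    rw [e1, ← List.append_assoc, List.take_append_drop]
    have h1 : ps.Perm (L ++ ps.filter fun p => ¬ Dq.lump p) := by
      have := List.filter_append_perm (fun p => decide (Dq.lump p)) ps
      refine this.symm.trans (List.Perm.of_eq ?_)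
      rw [hL]
      congr 2
      funext p
      simp
    exact h1.trans (hSp.symm.append_right _)
  · intro i
    have h1 : S.get ⟨i, by omega⟩ ∈ L := hSp.subset (List.get_mem S _)
    rw [hL, List.mem_filter] at h1
    simpa using h1.2
  · intro a b hab
    rcases eq_or_lt_of_le hab with rfl | hab
    · exact le_rfl
    · exact (List.pairwise_iff_getElem.1 hSs) a b (by omega) (by omega) hab
  · refine hA.trans (Finset.sum_le_sum fun i _ => ?_)
    exact mul_le_mul_of_nonneg_left (hdom i) (hw i)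
  · intro p hp hlp
    rcases List.mem_append.1 hp with hp | hp
    · obtain ⟨j, hj, rfl⟩ := List.mem_iff_getElem.1 hp
      rw [List.getElem_drop]
      exact (List.pairwise_iff_getElem.1 hSs) 4 (5 + j) (by omega)
        (by rw [List.length_drop] at hj; omega) (by omega)
    · rw [List.mem_filter] at hp
      exact absurd hlp (of_decide_eq_true hp.2)

/-! ### permutations -/

open Classical in
lemma SgP_perm (n : Eis) (W : Eis → ℂ) (h : ℝ → ℝ) (d₃ e : Eis) {ps ps' qs qs' : List Pc}
    (h1 : ps.Perm ps') (h2 : qs.Perm qs') (q : Eis) :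
    SgP n W h d₃ e ps qs q = SgP n W h d₃ e ps' qs' q := by
  unfold SgP
  refine tsum_congr fun k => ?_
  rw [(h1.map fun p => CS (pc h p) k).prod_eq, (h2.map fun p => CS (pc h p) k).prod_eq]

open Classical in
lemma moP_perm_five (P : DPar) (t : Eis) {ps gs : List Pq} {us : Fin 5 → Pq}
    (hperm : ps.Perm (List.ofFn us ++ gs)) (hl : ∀ i, Dq.lump (us i)) (a : Bd) (ha : a.us = us) :
    (moP P t ps).Perm ((as3 a ++ bs2 a gs).map (Pt P t)) := by
  have e1 : (List.ofFn us).filter (fun p => p.kd = .mo) = List.ofFn us := by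
    rw [List.filter_eq_self]
    intro p hp
    obtain ⟨i, rfl⟩ := (List.mem_ofFn' _ _).1 hp
    have := hl i
    rw [Dq_lump] at this
    simpa using this.1
  have h1 : (ps.filter fun p => p.kd = .mo).Perm (List.ofFn us ++ moL gs) := by
    have := hperm.filter fun p => p.kd = .mo
    rw [List.filter_append, e1] at this
    refine this.trans (List.Perm.of_eq ?_)
    unfold moL
    congr 1
  have h2 : (List.ofFn us ++ moL gs).Perm (as3 a ++ bs2 a gs) := by
    subst ha
    have e2 : List.ofFn a.us = [a.us 0, a.us 1, a.us 2, a.us 3, a.us 4] := by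
      simp [List.ofFn_succ]
    rw [e2]
    unfold as3 bs2
    have e3 : [a.us 2, a.us 3, a.us 4] ++ a.us 0 :: a.us 1 :: moL gs =
        ([a.us 2, a.us 3, a.us 4] ++ [a.us 0, a.us 1]) ++ moL gs := by simp
    have e4 : [a.us 0, a.us 1, a.us 2, a.us 3, a.us 4] ++ moL gs =
        ([a.us 0, a.us 1] ++ [a.us 2, a.us 3, a.us 4]) ++ moL gs := by simp
    rw [e3, e4]
    exact (List.perm_append_comm).append_right _
  unfold moP
  exact (h1.trans h2).map _

open Classical in
lemma amP_perm_five (P : DPar) (t : Eis) {ps gs : List Pq} {us : Fin 5 → Pq}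
    (hperm : ps.Perm (List.ofFn us ++ gs)) (hl : ∀ i, Dq.lump (us i)) :
    (amP P t ps).Perm ((amL gs).map (Pt P t)) := by
  have e1 : (List.ofFn us).filter (fun p => p.kd = .am) = [] := by
    rw [List.filter_eq_nil_iff]
    intro p hp
    obtain ⟨i, rfl⟩ := (List.mem_ofFn' _ _).1 hp
    have := hl i
    rw [Dq_lump] at this
    simp [this.1]
  have h1 : (ps.filter fun p => p.kd = .am).Perm (amL gs) := by
    have := hperm.filter fun p => p.kd = .am
    rw [List.filter_append, e1, List.nil_append] at this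
    refine this.trans (List.Perm.of_eq ?_)
    unfold amL
    rfl
  unfold amP
  exact h1.map _

/-! ### masses -/

lemma mass_five {X : ℝ} {ps gs : List Pq} {us : Fin 5 → Pq}
    (hperm : ps.Perm (List.ofFn us ++ gs)) (hl : ∀ i, Dq.lump (us i)) :
    Dq.mass X ps .mo = ∑ i, Dq.nl X (us i) + Dq.mass X gs .mo ∧
      Dq.mass X ps .am = Dq.mass X gs .am := by
  have h1 : ∀ (n : ℕ) (us : Fin n → Pq), (∀ i, Dq.lump (us i)) →
      Dq.mass X (List.ofFn us) .mo = ∑ i, Dq.nl X (us i) ∧ Dq.mass X (List.ofFn us) .am = 0 := by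
    intro n
    induction n with
    | zero => intro us _; simp
    | succ n ih =>
      intro us hl
      have h2 := ih (fun i => us i.succ) fun i => hl i.succ
      have h3 := hl 0
      rw [Dq_lump] at h3
      rw [List.ofFn_succ, Pcs.mass_cons, Pcs.mass_cons, h2.1, h2.2, Fin.sum_univ_succ, Dq_kind,
        h3.1]
      simp
  rw [Pcs.mass_perm Dq hperm, Pcs.mass_perm Dq hperm, Pcs.mass_append, Pcs.mass_append,
    (h1 5 us hl).1, (h1 5 us hl).2]
  exact ⟨rfl, zero_add _⟩

lemma Tg_lip {θ g hh q c x : ℝ} (hx : 0 ≤ x) : Tg θ g (hh + x) q c ≤ Tg θ g hh q c + x := by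
  unfold Tg
  rw [add_assoc (1 / 3 + g + θ * (2 - 2 * g))]
  refine add_le_add le_rfl ?_
  refine max_le ?_ (max_le ?_ ?_)
  · have := le_max_left ((hh - 1) + (q - (2 - 2 * g)) / 2 + (c - g) / 2)
      (max ((hh - 1) / 2 + 3 / 4 * (q - (2 - 2 * g)) + 1 / 4 * (c - g))
        ((hh - 1) / 6 + θ * (q - (2 - 2 * g)) + θ * (c - g)))
    linarith
  · have := (le_max_left ((hh - 1) / 2 + 3 / 4 * (q - (2 - 2 * g)) + 1 / 4 * (c - g))
        ((hh - 1) / 6 + θ * (q - (2 - 2 * g)) + θ * (c - g))).trans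
      (le_max_right ((hh - 1) + (q - (2 - 2 * g)) / 2 + (c - g) / 2) _)
    linarith
  · have := (le_max_right ((hh - 1) / 2 + 3 / 4 * (q - (2 - 2 * g)) + 1 / 4 * (c - g))
        ((hh - 1) / 6 + θ * (q - (2 - 2 * g)) + θ * (c - g))).trans
      (le_max_right ((hh - 1) + (q - (2 - 2 * g)) / 2 + (c - g) / 2) _)
    linarith

/-! ### the main theorem -/

lemma mx_ofFn_le {f : Pq → ℝ} {us : Fin 5 → Pq} {c : ℝ} (hc : 1 ≤ c) (h : ∀ i, f (us i) ≤ c) :
    mx f (List.ofFn us) ≤ c := by
  rw [XT71.mx_le hc]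
  intro p hp
  obtain ⟨i, rfl⟩ := (List.mem_ofFn' _ _).1 hp
  exact h i

lemma near_exp {A A' δ k κ S : ℝ} (hA'0 : 0 ≤ A') (hA : A' < A) (hA1 : A ≤ 1) (hδ0 : 0 ≤ δ)
    (hδ3 : δ ≤ (A - A') / 20) (hk : 4 / 5 ≤ k) (h6 : |k - κ| ≤ δ) (hA5 : A * k ≤ S) :
    A' * κ ≤ S - 4 * δ := by
  have h7 : κ ≤ k + δ := by
    have := abs_le.1 h6
    linarith
  have h8 : A' * κ ≤ A' * k + A' * δ := by
    rw [← mul_add]
    exact mul_le_mul_of_nonneg_left h7 hA'0
  have h9 : A' * δ ≤ 1 * δ := mul_le_mul_of_nonneg_right (by linarith) hδ0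
  have h10 : (A - A') * (4 / 5) ≤ (A - A') * k := mul_le_mul_of_nonneg_left hk (by linarith)
  have h11 : (A - A') * k = A * k - A' * k := by ring
  linarith

set_option maxHeartbeats 1000000 in
open Classical in
/-- **the signed theorem over the primary `k`** from helper71's uniform bound; the family starts
slightly below `9/10`. -/
theorem topP_of_primU {Λ : Type*} {θ A A' μ μ' : ℝ} {π : Λ → DPar} {h : ℝ → ℝ} (hθ : 0 ≤ θ)
    (hA'0 : 0 ≤ A')
    (hA : A' < A) (hA1 : A ≤ 1) (hμ : μ' < μ) (H : PrimU π h θ A' μ) :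
    ∃ a₀ : ℝ, 4 / 5 ≤ a₀ ∧ a₀ < 9 / 10 ∧ TopP θ (1 / 3) μ' a₀ A w5 π h := by
  set η : ℝ := μ - μ' with hη
  have hη0 : 0 < η := by linarith
  obtain ⟨δU, hδU, HU⟩ := H (η / 4) (by positivity)
  set δ : ℝ := min (min δU (η / 16)) (min ((A - A') / 20) (1 / 100)) with hδ
  have hAA : 0 < A - A' := by linarith
  have hδ0 : 0 < δ := by positivity
  have hδ1 : δ ≤ δU := (min_le_left _ _).trans (min_le_left _ _)
  have hδ2 : δ ≤ η / 16 := (min_le_left _ _).trans (min_le_right _ _)
  have hδ3 : δ ≤ (A - A') / 20 := (min_le_right _ _).trans (min_le_left _ _)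
  have hδ4 : δ ≤ 1 / 100 := (min_le_right _ _).trans (min_le_right _ _)
  clear_value δ
  refine ⟨9 / 10 - δ, by linarith, by linarith, δ, hδ0, fun lam t ht N B => ?_⟩
  obtain ⟨δ', hδ', X₀, hX₀, HU1⟩ := HU (lam, t) N |B|
  refine ⟨δ', hδ', X₀, hX₀, ?_⟩
  intro X hX K hK ps hlen hlump hgood ha₀ hnear d₃ e hd₃ hd₃' he he5 τ hτ 𝒟 h𝒟 hh q c hh0 hh1
    hq0 hq1 hc0 hc1 hqc hk hm1 hm2
  have hX1 : 1 < X := by linarith
  have hX0 : 0 < X := by linarith
  have hlX : 0 < Real.log X := Real.log_pos hX1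
  have hw5 : ∀ i, 0 ≤ w5 i := by
    intro i
    fin_cases i <;> norm_num [w5]
  obtain ⟨us, gs, hperm, hl, hanti, hA5, htop⟩ := nearQ_top hw5 hnear
  set k : ℝ := Real.log K / Real.log X with hkdef
  have hk' := abs_le.1 hk
  have hgoodu : ∀ i, Dq.s1 (us i) ≤ X ^ δ' ∧ Dq.s2 (us i) ≤ X ^ B ∧ 0 ≤ Dq.len (us i) := fun i =>
    hgood _ (hperm.symm.subset (List.mem_append_left _ ((List.mem_ofFn' _ _).2 ⟨i, rfl⟩)))
  have hgoodg : ∀ p ∈ gs, Dq.s1 p ≤ X ^ δ' ∧ Dq.s2 p ≤ X ^ B ∧ 0 ≤ Dq.len p := fun p hp =>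
    hgood _ (hperm.symm.subset (List.mem_append_right _ hp))
  obtain ⟨hmass1, hmass2⟩ := mass_five (X := X) hperm hl
  have hgmo : 0 ≤ Dq.mass X gs .mo := mass_nonneg (D := Dq) (fun p hp => by
    unfold Pcs.nl
    exact div_nonneg (hgoodg p hp).2.2 hlX.le) _
  have he1 : (1 : ℝ) ≤ nm e := by exact_mod_cast nm_pos.mpr he.1.ne_zero
  have hle : 0 ≤ Real.log (nm e) / Real.log X := div_nonneg (Real.log_nonneg he1) hlX.le
  have h1B : (1 : ℝ) ≤ X ^ |B| := Real.one_le_rpow hX1.le (abs_nonneg B)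
  have hBB : X ^ B ≤ X ^ |B| := Real.rpow_le_rpow_of_exponent_le hX1.le (le_abs_self B)
  have h1δ : (1 : ℝ) ≤ X ^ δ' := Real.one_le_rpow hX1.le hδ'.le
  -- the datum
  set a : Bd := ⟨Real.log K, 0, us, d₃, e, τ, 𝒟⟩ with ha
  -- the exact configuration
  set κ : ℝ := max hh (9 / 10) with hκ
  have hκ1 : hh ≤ κ := le_max_left _ _
  have hκ2 : 9 / 10 ≤ κ := le_max_right _ _
  have hκ3 : κ ≤ 1 := max_le hh1 (by norm_num)
  have hκ4 : κ - hh ≤ 2 * δ := by
    rcases max_choice hh (9 / 10) with h4 | h4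
    · rw [hκ, h4]; linarith
    · rw [hκ, h4]; linarith
  have hκ5 : |k - κ| ≤ δ := by
    rw [abs_le]
    rcases max_choice hh (9 / 10) with h4 | h4
    · rw [hκ, h4]; exact hk'
    · rw [hκ, h4]
      have h5 : hh ≤ 9 / 10 := by
        have := le_max_left hh (9 / 10 : ℝ)
        rwa [h4] at this
      constructor <;> linarith
  clear_value κ
  set p : Fin 3 ⊕ Fin 5 → ℝ := Sum.elim ![κ, 0, Real.log (nm e) / Real.log X]
    (fun i => Dq.nl X (us i) - δ) with hp
  set w : Kd → ℝ := fun t => match t with | .mo => Dq.mass X gs .mo | .am => c with hw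
  have hpκ : cκ p = κ := rfl
  have hpx : cx' p = 0 := rfl
  have hpe : ce p = Real.log (nm e) / Real.log X := rfl
  have hpu : ∀ i, cu p i = Dq.nl X (us i) - δ := fun i => rfl
  have hwm : w .mo = Dq.mass X gs .mo := rfl
  have hwa : w .am = c := rfl
  have hsum : ∑ i, Dq.nl X (us i) = Dq.nl X (us 0) + Dq.nl X (us 1) + Dq.nl X (us 2) +
      Dq.nl X (us 3) + Dq.nl X (us 4) := by
    rw [Fin.sum_univ_five]
  have hsum5 : ∑ i, w5 i * Dq.nl X (us i) = Dq.nl X (us 2) + Dq.nl X (us 3) +
      2 * Dq.nl X (us 4) := by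
    simp only [w5, Fin.sum_univ_five, Matrix.cons_val_zero, Matrix.cons_val_one, Matrix.cons_val]
    ring
  have hm1' := abs_le.1 hm1
  have hm2' := abs_le.1 hm2
  have hNr : Nr5 A' p w := by
    refine ⟨by rw [hpκ]; linarith, by rw [hpκ]; linarith, ?_, ?_, ?_, ?_, ?_, ?_, ?_⟩
    · simp only [hpu]
      refine ⟨?_, ?_, ?_, ?_⟩
      · have := hanti 0 1 (by decide); linarith
      · have := hanti 1 2 (by decide); linarith
      · have := hanti 2 3 (by decide); linarith
      · have := hanti 3 4 (by decide); linarith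
    · intro t
      cases t with
      | mo => exact hgmo
      | am => exact hc0
    · rw [hpκ]
      simp only [cN, hpu]
      rw [hsum5] at hA5
      have h6 := near_exp hA'0 hA hA1 hδ0.le hδ3 (by linarith) hκ5 hA5
      linarith
    · simp only [cN, E5B71.cM, hpu, hwm]
      linarith
    · rw [hwa]; linarith
    · rw [hpe]; exact hle
    · simp only [cN, E5B71.cM, hpu, hwm, hwa, hpe]
      linarith
  have hdom : (p, w) ∈ NrD A' := ⟨hNr, hpx⟩
  have hev : ∀ i, |S5.ev X a i - p i| ≤ δU := by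
    intro i
    rcases i with i | i
    · fin_cases i
      · exact hκ5.trans hδ1
      · show |(0 : ℝ) / Real.log X - 0| ≤ δU
        simpa using hδU.le
      · show |Real.log (nm e) / Real.log X - Real.log (nm e) / Real.log X| ≤ δU
        simpa using hδU.le
    · show |Dq.nl X (us i) - (Dq.nl X (us i) - δ)| ≤ δU
      rw [sub_sub_cancel, abs_of_pos hδ0]
      exact hδ1
  have hwin : Win S5 p δU N |B| δ' X a := by
    refine ⟨hev, Real.one_le_rpow hX1.le hδU.le, Nat.zero_le _, ?_, ?_⟩
    · exact max_le hτ (mx_ofFn_le h1δ fun i => (hgoodu i).1)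
    · exact max_le (hd₃'.trans hBB) (mx_ofFn_le h1B fun i => (hgoodu i).2.1.trans hBB)
  have hU := HU1 X hX a gs (by
      have := hperm.length_eq
      rw [List.length_append] at this
      omega) (fun p hp => (hlump p (hperm.symm.subset (List.mem_append_right _ hp))).imp id
        fun h => h.trans hδ1) (p, w) hdom hwin (by
      intro t
      cases t with
      | mo =>
        show |Dq.mass X gs .mo - Dq.mass X gs .mo| ≤ δU
        simpa using hδU.le
      | am =>
        show |Dq.mass X gs .am - c| ≤ δU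
        rw [← hmass2]
        exact hm2.trans hδ1)
    (fun p hp => ⟨(hgoodg p hp).1, (hgoodg p hp).2.1.trans hBB, (hgoodg p hp).2.2⟩)
    (fun p hp hlp => htop p hp hlp)
  -- the functional
  have hPF : PrimF π h (lam, t) a gs = ∑ r ∈ 𝒟, ‖SgP (π lam).n (DPar.wp (π lam) τ K) h d₃ e
      (moP (π lam) t ps) (amP (π lam) t ps) r‖ := by
    unfold PrimF
    have hok : a.ok := ⟨fun i => ⟨hl i, (hgoodu i).2.2⟩, le_rfl, hd₃⟩
    rw [if_pos ⟨hok, ht, he, he5, h𝒟⟩]
    refine Finset.sum_congr rfl fun r _ => ?_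
    have hW : E5B71.Wt (π lam) a = DPar.wp (π lam) τ K := by
      unfold E5B71.Wt
      rw [Real.exp_log hK]
    rw [hW, SgP_perm (π lam).n _ h d₃ e (moP_perm_five (π lam) t hperm hl a rfl)
      (amP_perm_five (π lam) t hperm hl)]
  rw [hPF] at hU
  refine hU.trans ?_
  refine Real.rpow_le_rpow_of_exponent_le hX1.le ?_
  have h10 : T5 θ (p, w) ≤ Tg θ (1 / 3) hh q c + 2 * δ := by
    have h11 : cN p + E5B71.cM p + w .mo ≤ q := by
      simp only [cN, E5B71.cM, hpu, hwm]
      linarith
    have h12 : T5 θ (p, w) = Tg θ (1 / 3) (hh + (κ - hh)) (cN p + E5B71.cM p + w .mo) c := by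
      have e13 : hh + (κ - hh) = κ := by ring
      rw [e13]
      rfl
    rw [h12]
    calc Tg θ (1 / 3) (hh + (κ - hh)) (cN p + E5B71.cM p + w .mo) c
        ≤ Tg θ (1 / 3) hh (cN p + E5B71.cM p + w .mo) c + (κ - hh) := Tg_lip (by linarith)
      _ ≤ Tg θ (1 / 3) hh q c + 2 * δ := add_le_add (Tg_mono hθ le_rfl h11) hκ4
  linarith

end Crest.Agent.R017.E5S271
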