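import Crest.Agent.R017.E5E_71
import Crest.Agent.R017.E5T3_271

/-!
# Row 17, P8: the signed theorem of class N from its five list-level inputs (helper71)

* `primU_N` : `P1`, `StrU`, `TailU`, `TailCU`, `MomU` and the coverage ⟹ `PrimU`
* `topN_of` : field `topN` of helper986's `Parts`
-/

set_option autoImplicit false

noncomputable section

open Set

namespace Crest.Agent.R017.E5B71

open Crest.Agent.R012 Crest.Agent.R012.Eis
open Crest.Agent.R017.Prov71 Crest.Agent.R017.R8C918 Crest.Agent.R017.ER911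
open Crest.Agent.R017.Cone59 Crest.Agent.R017.CovM59 Crest.Agent.R017.CovBig954
open Crest.Agent.R017.B770 Crest.Agent.R017.E5S271 Crest.Agent.R017.BadK271
open Crest.Agent.R017.End699 Crest.Agent.R017.FE47 Crest.Agent.R017.Two939
open Crest.Agent.R017.Sup271 (NPm)
open Crest.Agent.R017.E5T54 Crest.Agent.R017.BxE986

section
variable {Λ : Type*} {π : Λ → DPar} {h : ℝ → ℝ}

/-- **the signed theorem over primary `k`, class N** -/
theorem primU_N {c₀ : ℝ} (hpu : PU h c₀) (hP : ∀ lam, (π lam).OK)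
    (hN : ∀ lam k, k ≠ 0 → NPm (π lam).n (π lam).ψ (π lam).l₂ k) {d : ℝ} (hd : 0 < d)
    (hd1 : d ≤ 1 / 8) {e₀ t₀ μc : ℝ} (ht0 : 0 ≤ t₀) (ht3 : t₀ ≤ 1 / 3) (hμc : 0 < μc)
    (he : 2 * e₀ + (2 * (7 / 8 + d) - 1) * t₀ + μc ≤ b2 (7 / 8 + d))
    (Hcov : ∀ r s s₀ rc bc : EF, ProvE (7 / 8 + d) r s s₀ rc bc → CoreL e₀ t₀ rc)
    {r s s₀ : EF} (P : ProvE (7 / 8 + d) r s s₀ (ex Dq (fun lam => Rc (π lam) h))
      (ex Dq (fun lam => Bc (π lam) h))) {Sf : SF Λ} {A μ : ℝ} (hA : A ≤ 1)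
    (hA1 : 16 * (1 - A) ≤ d) (hμ : 0 < μ) (h1 : P1 π h Sf A d)
    (h2 : StrU π h (7 / 8 + d) Sf A d μ) (h3 : TailU π h (7 / 8 + d) Sf A d μ)
    (h4 : TailCU π h (7 / 8 + d) A d μ) (h5 : MomU π h A d) :
    ∃ μ' : ℝ, 0 < μ' ∧ PrimU π h (7 / 8 + d) A μ' := by
  have hA99 : 99 / 100 ≤ A := by linarith
  have hS := nearS_of hd.le hd1 ht0 ht3 hμc.le he Hcov P hA99
  have hR := absR_of_nearS (by linarith) hS
  set μ₁ := min (d / 10) (2 / 5 * μc) with hμ₁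
  have hμ₁0 : 0 < μ₁ := lt_min (by linarith) (by linarith)
  set μ₂ := min (min μ₁ (1 / 10)) (min μ (d / 9)) with hμ₂
  have hμ₂0 : 0 < μ₂ := lt_min (lt_min hμ₁0 (by norm_num)) (lt_min hμ (by linarith))
  have m1 : μ₂ ≤ μ₁ := (min_le_left _ _).trans (min_le_left _ _)
  have m2 : μ₂ ≤ 1 / 10 := (min_le_left _ _).trans (min_le_right _ _)
  have m3 : μ₂ ≤ μ := (min_le_right _ _).trans (min_le_left _ _)
  have m4 : μ₂ ≤ d / 9 := (min_le_right _ _).trans (min_le_right _ _)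
  have hab := absU_of hpu hP hN (by linarith) hd hd1 hR m1 m2
  have mono : ∀ {Ψ : Λ × Eis → Bd → List Pq → ℝ} {Dom},
      UB S5 Dq Ψ Dom al5 (fun q => T5 (7 / 8 + d) q - μ) →
      UB S5 Dq Ψ Dom al5 (fun q => T5 (7 / 8 + d) q - μ₂) := by
    intro Ψ Dom HU ε hε
    obtain ⟨δ, hδ, K⟩ := HU ε hε
    refine ⟨δ, hδ, fun lam N B => ?_⟩
    obtain ⟨δ', hδ', X₀, hX₀, K'⟩ := K lam N B
    refine ⟨δ', hδ', X₀, hX₀, fun X hX a ps a1 a2 q a3 a4 a5 a6 a7 => ?_⟩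
    refine (K' X hX a ps a1 a2 q a3 a4 a5 a6 a7).trans ?_
    exact Real.rpow_le_rpow_of_exponent_le (by linarith) (by linarith)
  exact ⟨μ₂, hμ₂0, primU_of hP hd hd1 hA hA1 h1 (mono h2) (fun R hR => mono (h3 R hR))
    (fun R hR => mono (h4 R hR)) h5 hab le_rfl m4⟩

/-- **field `topN` of helper986's `Parts`** -/
theorem topN_of {c₀ : ℝ} (hpu : PU h c₀) (hP : ∀ lam, (π lam).OK)
    (hN : ∀ lam k, k ≠ 0 → NPm (π lam).n (π lam).ψ (π lam).l₂ k) {d : ℝ} (hd : 0 < d)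
    (hd1 : d ≤ 1 / 8) {e₀ t₀ μc : ℝ} (ht0 : 0 ≤ t₀) (ht3 : t₀ ≤ 1 / 3) (hμc : 0 < μc)
    (he : 2 * e₀ + (2 * (7 / 8 + d) - 1) * t₀ + μc ≤ b2 (7 / 8 + d))
    (Hcov : ∀ r s s₀ rc bc : EF, ProvE (7 / 8 + d) r s s₀ rc bc → CoreL e₀ t₀ rc)
    {r s s₀ : EF} (P : ProvE (7 / 8 + d) r s s₀ (ex Dq (fun lam => Rc (π lam) h))
      (ex Dq (fun lam => Bc (π lam) h))) {Sf : SF Λ} {A μ : ℝ} (hA : A < 1)
    (hA1 : 16 * (1 - A) ≤ d) (hμ : 0 < μ) (h1 : P1 π h Sf A d)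
    (h2 : StrU π h (7 / 8 + d) Sf A d μ) (h3 : TailU π h (7 / 8 + d) Sf A d μ)
    (h4 : TailCU π h (7 / 8 + d) A d μ) (h5 : MomU π h A d) {μT : ℝ} (hμT : 0 < μT)
    (hT : TopC (7 / 8 + d) (1 / 3) μT (AL (9 / 10) 1 E5S271.w5) π h) :
    ∃ μ' A₀ : ℝ, 0 < μ' ∧ A₀ < 1 ∧ TopS (7 / 8 + d) (1 / 3) μ' (179 / 200) A₀ E5S271.w5 π h := by
  obtain ⟨μ₁, hμ₁, hpr⟩ := primU_N hpu hP hN hd hd1 ht0 ht3 hμc he Hcov P hA.le hA1 hμ h1 h2 h3 h4 h5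
  obtain ⟨A₀, hA₀, hA₀1⟩ := exists_between hA
  obtain ⟨a₀, ha0, ha1, htop⟩ := topP_of_primU (θ := 7 / 8 + d) (A := A₀) (A' := A)
    (μ' := μ₁ / 2) (by linarith) (by linarith) hA₀ hA₀1.le (by linarith) hpr
  set μ' := min (μ₁ / 4) (min (μT / 2) (1 / 20)) with hμ'
  have hμ'0 : 0 < μ' := lt_min (by linarith) (lt_min (by linarith) (by norm_num))
  have m1 : μ' ≤ μ₁ / 4 := min_le_left _ _
  have m2 : μ' ≤ μT / 2 := (min_le_right _ _).trans (min_le_left _ _)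
  have m3 : μ' ≤ 1 / 20 := (min_le_right _ _).trans (min_le_right _ _)
  refine ⟨μ', A₀, hμ'0, hA₀1, ?_⟩
  exact topS_of_topP (a₀' := a₀) (a₁ := 9 / 10) (A' := 1) (w' := E5S271.w5) hpu hP hN (by linarith)
    le_rfl (by norm_num) (by unfold a2; norm_num; linarith) (by norm_num) (by linarith) ha1
    (by linarith [hA₀]) (by intro i; fin_cases i <;> simp [E5S271.w5]) (by linarith) (by linarith)
    (by linarith) htop hT

end

end Crest.Agent.R017.E5B71
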