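import Crest.Agent.R017.E5H_319

/-!
# Row 17, exceptional class, StrUX: the blocks outside the bands by the plain square (helper783)

The copy of helper319's `E5H_319`.

* `mid_hiX` : `MidX` of any structured function by Cauchy with share `0` and the tail
* `midX_sub`, `tailSX_sub` : subadditivity
* `rest_ofX` : one domain
* **`strUX_of_bands`** : `StrUX` from the bands of `e`, the second moments of the differences and
  the tails
-/

set_option autoImplicit false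

noncomputable section

open Finset
open scoped ComplexConjugate

namespace Crest.Agent.R017.E5HX783

open Crest.Agent.R012 Crest.Agent.R012.Eis
open Crest.Agent.R012.Mob705 hiding pb mem_pb
open Crest.Agent.R017.CM106
open Crest.Agent.R012.Div277 (dvs tau mem_dvs)
open Crest.Agent.R017.FE47 (SM)
open Crest.Agent.R017.XG702 (Pcs Good_mono)
open Crest.Agent.R017.XT71 (Sys Win mx one_le_mx)
open Crest.Agent.R017.XF71 (const_le_rpow)
open Crest.Agent.R017.UM71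
open Crest.Agent.R017.HP842 (Pc pc)
open Crest.Agent.R017.B770 Crest.Agent.R017.Prov71
open Crest.Agent.R017.E5B71 Crest.Agent.R017.E5P571 Crest.Agent.R017.E5L770
open Crest.Agent.R017.E5LX770
open Crest.Agent.R017.ExBox960 Crest.Agent.R017.ExP960
open Crest.Agent.R017.R8C918 (Al)
open Crest.Agent.R017.E5H319 (sum_AS2_le LR key_exp0 ub_empty ub_sub ub_range ub_nil)

section
variable {Λ : Type*} (π : Λ → DPar) (h : ℝ → ℝ)

open Classical in
/-- **the second moment of a structured function** over the cut, no amplifier (= 54's `HiFX`) -/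
def HiGX (Sf : SFX Λ) (R : Λ → ℝ) (lam : Λ × Eis) (a : BdX) : ℝ :=
  if a.ok ∧ lam.2 ∈ SM (π lam.1).n then
    ∑ k ∈ (PB (π lam.1).n ⌊Real.exp (a.l + R lam.1)⌋₊).filter
        (fun k => cutE (Real.exp (a.l / 20)) k ∧ Real.exp (a.l - R lam.1) ≤ nm k),
      ‖SFX.at Sf lam a k‖ ^ 2
  else 0

/-- the difference of two structured functions -/
def subSX (S1 S2 : SFX Λ) : SFX Λ := fun lam t l us Z Z' z k =>
  S1 lam t l us Z Z' z k - S2 lam t l us Z Z' z k

lemma at_subSX (S1 S2 : SFX Λ) (lam : Λ × Eis) (a : BdX) (k : Eis) :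
    SFX.at (subSX S1 S2) lam a k = SFX.at S1 lam a k - SFX.at S2 lam a k := rfl

end

section
variable {Λ : Type*} {π : Λ → DPar} {h : ℝ → ℝ}

lemma tailSX_nonneg (Sf : SFX Λ) (R : Λ → ℝ) (lam : Λ × Eis) (a : BdX) (ps : List Pq) :
    0 ≤ TailSX π h Sf R lam a ps := by
  unfold TailSX
  split_ifs
  exacts [sum_nonneg fun _ _ => by positivity, le_rfl]

lemma momX_nonneg (R : Λ → ℝ) (lam : Λ × Eis) (a : BdX) (ps : List Pq) :
    0 ≤ MomX π h R lam a ps := by
  unfold MomX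
  split_ifs
  exacts [sum_nonneg fun _ _ => by positivity, le_rfl]

lemma hiGX_nonneg (Sf : SFX Λ) (R : Λ → ℝ) (lam : Λ × Eis) (a : BdX) : 0 ≤ HiGX π Sf R lam a := by
  unfold HiGX
  split_ifs
  exacts [sum_nonneg fun _ _ => by positivity, le_rfl]

/-- the tail of a difference -/
lemma tailSX_sub (S1 S2 : SFX Λ) (R : Λ → ℝ) (lam : Λ × Eis) (a : BdX) (ps : List Pq) :
    TailSX π h (subSX S1 S2) R lam a ps ≤
      TailSX π h S1 R lam a ps + TailSX π h S2 R lam a ps := by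
  unfold TailSX
  split_ifs
  · rw [← sum_add_distrib]
    refine sum_le_sum fun k _ => ?_
    rw [← add_mul, at_subSX]
    exact mul_le_mul_of_nonneg_right (norm_sub_le _ _) (by positivity)
  · simp

/-- the middle term of a sum -/
lemma midX_sub {lam : Λ × Eis} (hP : (π lam.1).OK) (S1 S2 : SFX Λ) (a : BdX) (ps : List Pq) :
    MidX π h S1 lam a ps ≤ MidX π h S2 lam a ps + MidX π h (subSX S1 S2) lam a ps := by
  have h1 := midX_le_sum π h hP a ps (univ : Finset (Fin 2)) S1 ![S2, subSX S1 S2]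
    (fun _ k => by
      rw [Fin.sum_univ_two]
      show _ = SFX.at S2 lam a k + SFX.at (subSX S1 S2) lam a k
      rw [at_subSX]
      ring)
  rwa [Fin.sum_univ_two] at h1

open Classical in
/-- **the plain square with share `0`** -/
theorem mid_hiX {ε : ℝ} (hε : 0 < ε) : ∃ C : ℝ, 0 ≤ C ∧ ∀ (lam : Λ × Eis),
    ∀ (R : Λ → ℝ) (CU : ℝ), 1 ≤ CU →
    (∀ (τ H : ℝ) (k : Eis), 0 < H → SU770.DPar.wp (π lam.1) τ H k ≠ 0 →
      (nm k : ℝ) ≤ Real.exp (R lam.1) * H ∧ Real.exp (-R lam.1) * H ≤ nm k) →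
    (∀ (τ H : ℝ) (k : Eis), IsPrim k → ‖SU770.DPar.wp (π lam.1) τ H k‖ ≤ CU) →
    ∀ (Sf : SFX Λ) (a : BdX) (ps : List Pq), 0 ≤ a.l + R lam.1 →
      MidX π h Sf lam a ps ≤ CU * (C * Real.exp (a.l + R lam.1) ^ ε *
        (Real.sqrt (HiGX π Sf R lam a) * Real.sqrt (MomX π h R lam a (moL ps ++ amL ps)) +
          TailSX π h Sf R lam a ps)) := by
  obtain ⟨C, hC, hτ⟩ := Div277.tau_le_rpow (half_pos hε)
  refine ⟨C ^ 2, by positivity, ?_⟩
  intro lam R CU hCU hsupp hbd Sf a ps hl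
  have hCU' : 0 ≤ CU := by linarith
  by_cases hok : a.ok ∧ lam.2 ∈ SM (π lam.1).n ∧ a.okP (π lam.1)
  swap
  · have h0 : MidX π h Sf lam a ps = 0 := by unfold MidX; rw [if_neg hok]
    rw [h0]
    have := tailSX_nonneg (π := π) (h := h) Sf R lam a ps
    positivity
  set P := π lam.1 with hPdef
  set t := lam.2 with ht
  set W : Eis → ℂ := Wt P a.toBd with hWdef
  set W' : Eis → ℂ := fun k => if IsPrim k then W k / CU else 0 with hW'
  have hCU0 : (CU : ℂ) ≠ 0 := by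
    have : (0 : ℝ) < CU := by linarith
    exact_mod_cast this.ne'
  have hWW : ∀ k, IsPrim k → IsCoprime k P.n → W k = (CU : ℂ) * W' k := by
    intro k hk _
    simp only [hW', if_pos hk]
    field_simp
  set Kx := Real.exp (a.l + R lam.1) with hKx
  have hKx1 : 1 ≤ Kx := Real.one_le_exp hl
  have hW1 : ∀ k, W' k ≠ 0 → nm k ≤ ⌊Kx⌋₊ := by
    intro k hk
    have h1 : W k ≠ 0 := by
      intro h0
      apply hk
      simp only [hW', h0, zero_div, ite_self]
    have := (hsupp a.τ (Real.exp a.l) k (Real.exp_pos _) h1).1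
    rw [← Real.exp_add, add_comm] at this
    exact Nat.le_floor this
  have hWlow : ∀ k, ¬ Real.exp (a.l - R lam.1) ≤ nm k → W k = 0 := by
    intro k hk
    by_contra h1
    have := (hsupp a.τ (Real.exp a.l) k (Real.exp_pos _) h1).2
    rw [← Real.exp_add, neg_add_eq_sub] at this
    exact hk this
  have hW2 : ∀ k, ‖W' k‖ ≤ 1 := by
    intro k
    simp only [hW']
    split_ifs with hk
    · have hCn : ‖(CU : ℂ)‖ = CU := by
        rw [Complex.norm_real, Real.norm_eq_abs, abs_of_nonneg (by linarith)]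
      rw [norm_div, hCn, div_le_one (by linarith)]
      exact hbd a.τ (Real.exp a.l) k hk
    · simp
  set B : Eis → ℂ := fun k => BXm h P t a ps k * conj (PC h ((amL ps).map (Pt P t)) k) with hB
  set F : Eis → ℂ := fun k => if Real.exp (a.l - R lam.1) ≤ nm k then SFX.at Sf lam a k * B k else 0
    with hF
  have hd3 : a.d₃ ≠ 0 := hok.1.base.2.2
  have hBn : ∀ k, ‖B k‖ = ‖BXm h P t a ps k‖ * ‖PC h ((amL ps).map (Pt P t)) k‖ := by
    intro k
    simp only [hB, norm_mul, RCLike.norm_conj]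
  -- pointwise
  have hms : ∀ s, ‖MS P.n W a.e (fun k => SFX.at Sf lam a k * B k) s‖ ≤ CU * AS P.n ⌊Kx⌋₊ F s := by
    intro s
    have e0 : MS P.n W a.e (fun k => SFX.at Sf lam a k * B k) s = MS P.n W a.e F s := by
      unfold MS
      refine tsum_congr fun k => ?_
      split_ifs with hk
      · by_cases hlo : Real.exp (a.l - R lam.1) ≤ nm k
        · simp only [hF, if_pos hlo]
        · rw [hWlow k hlo]; ring
      · rfl
    rw [e0, MS_congr (c := (CU : ℂ)) a.e F s hWW, norm_mul, Complex.norm_real, Real.norm_eq_abs,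
      abs_of_nonneg hCU']
    refine mul_le_mul_of_nonneg_left ?_ hCU'
    have := norm_MS_le (n := P.n) (e := a.e) hW1 hW2 F s
    rwa [one_mul] at this
  have hT : ∀ k, IsPrim k → nm k ≤ ⌊Kx⌋₊ → (tau k : ℝ) ≤ C * Kx ^ (ε / 2) := by
    intro k hk hkX
    refine (hτ k hk.ne_zero).trans ?_
    have h1 : (nm k : ℝ) ≤ Kx := (Nat.cast_le.2 hkX).trans (Nat.floor_le (by linarith))
    gcongr
  have hC0 : 0 ≤ C := by linarith
  have hsum := sum_AS2_le (n := P.n) (T := C * Kx ^ (ε / 2)) (by positivity) hT F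
    (D := a.𝒟.filter fun q => IsCoprime q a.d₃) (G := Gd P.n a.d₃)
    (fun q hq => (hok.2.2.2.2 q (mem_filter.1 hq).1).1.1)
    (fun g hg => ((mem_Gd hd3).mp hg).1.prim)
  have hT2 : (C * Kx ^ (ε / 2)) ^ 2 = C ^ 2 * Kx ^ ε := by
    rw [mul_pow, ← Real.rpow_natCast (Kx ^ (ε / 2)), ← Real.rpow_mul (by linarith)]
    congr 2
    push_cast
    ring
  rw [hT2] at hsum
  -- the sum over the family
  have hsplit : ∑ k ∈ PB P.n ⌊Kx⌋₊, ‖F k‖ ≤
      Real.sqrt (HiGX π Sf R lam a) * Real.sqrt (MomX π h R lam a (moL ps ++ amL ps)) +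
          TailSX π h Sf R lam a ps := by
    rw [← sum_filter_add_sum_filter_not (PB P.n ⌊Kx⌋₊) (cutN P t a.l)]
    refine add_le_add ?_ ?_
    · have h1 : ∑ k ∈ (PB P.n ⌊Kx⌋₊).filter (cutN P t a.l), ‖F k‖ =
          ∑ k ∈ (PB P.n ⌊Kx⌋₊).filter (cutN P t a.l),
            (if Real.exp (a.l - R lam.1) ≤ nm k then ‖SFX.at Sf lam a k‖ else 0) * ‖B k‖ := by
        refine sum_congr rfl fun k _ => ?_
        simp only [hF]
        split_ifs
        · rw [norm_mul]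
        · rw [norm_zero, zero_mul]
      rw [h1]
      refine (Real.sum_mul_le_sqrt_mul_sqrt _ _ _).trans ?_
      refine mul_le_mul (Real.sqrt_le_sqrt ?_) (Real.sqrt_le_sqrt ?_) (Real.sqrt_nonneg _)
        (Real.sqrt_nonneg _)
      · unfold HiGX
        rw [if_pos ⟨hok.1, hok.2.1⟩]
        have e1 : ∑ k ∈ (PB P.n ⌊Kx⌋₊).filter (cutN P t a.l),
            (if Real.exp (a.l - R lam.1) ≤ nm k then ‖SFX.at Sf lam a k‖ else 0) ^ 2 =
            ∑ k ∈ ((PB P.n ⌊Kx⌋₊).filter (cutN P t a.l)).filter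
              (fun k => Real.exp (a.l - R lam.1) ≤ nm k), ‖SFX.at Sf lam a k‖ ^ 2 := by
          rw [sum_filter (s := (PB P.n ⌊Kx⌋₊).filter (cutN P t a.l))]
          refine sum_congr rfl fun k _ => ?_
          split_ifs
          · rfl
          · norm_num
        rw [e1]
        refine sum_le_sum_of_subset_of_nonneg ?_ fun _ _ _ => by positivity
        intro k hk
        rw [mem_filter, mem_filter] at hk
        rw [mem_filter]
        exact ⟨hk.1.1, hk.1.2.1, hk.2⟩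
      · unfold MomX
        rw [if_pos ⟨hok.1, hok.2.1⟩]
        calc ∑ k ∈ (PB P.n ⌊Kx⌋₊).filter (cutN P t a.l), ‖B k‖ ^ 2
            = ∑ k ∈ (PB P.n ⌊Kx⌋₊).filter (cutN P t a.l),
              ‖BX h P t a k * PC h ((moL ps ++ amL ps).map (Pt P t)) k‖ ^ 2 := by
              refine sum_congr rfl fun k _ => ?_
              rw [hBn, ← norm_mul, List.map_append, PC_append, ← mul_assoc]
              rfl
          _ ≤ _ := by
              refine sum_le_sum_of_subset_of_nonneg ?_ fun _ _ _ => by positivity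
              intro k hk
              rw [mem_filter] at hk ⊢
              exact ⟨hk.1, hk.2.2⟩
    · unfold TailSX
      rw [if_pos ⟨hok.1, hok.2.1⟩]
      have e1 : ∑ k ∈ (PB P.n ⌊Kx⌋₊).filter (fun k => ¬ cutN P t a.l k), ‖F k‖ =
          ∑ k ∈ ((PB P.n ⌊Kx⌋₊).filter (fun k => ¬ cutN P t a.l k)).filter
            (fun k => Real.exp (a.l - R lam.1) ≤ nm k), ‖SFX.at Sf lam a k‖ * ‖B k‖ := by
        rw [sum_filter (s := (PB P.n ⌊Kx⌋₊).filter (fun k => ¬ cutN P t a.l k))]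
        refine sum_congr rfl fun k _ => ?_
        simp only [hF]
        split_ifs
        · rw [norm_mul]
        · rw [norm_zero]
      rw [e1, filter_filter]
      refine le_of_eq (sum_congr rfl fun k _ => ?_)
      rw [hBn]
  -- conclusion
  have hmid : MidX π h Sf lam a ps ≤ ∑ q ∈ a.𝒟.filter (fun q => IsCoprime q a.d₃),
      ∑ g ∈ Gd P.n a.d₃, CU * AS P.n ⌊Kx⌋₊ F (q ^ 2 * g) := by
    unfold MidX
    rw [if_pos hok]
    exact sum_le_sum fun q _ => sum_le_sum fun g _ => hms _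
  refine hmid.trans ?_
  simp_rw [← mul_sum]
  refine mul_le_mul_of_nonneg_left (hsum.trans ?_) hCU'
  exact mul_le_mul_of_nonneg_left hsplit (by positivity)

end

/-! ### one band -/

section
variable {Λ : Type*} {π : Λ → DPar} {h : ℝ → ℝ}

lemma win_dnX {c : ℝ} {p : Option IX5 → ℝ} {δ : ℝ} {N : ℕ} {B ρ X : ℝ} {a : BdX × ℕ}
    (hw : Win (lev c S5X) p δ N B ρ X a) : Win S5X (dn p) δ N B ρ X a.1 :=
  ⟨fun i => hw.ev (some i), hw.g, hw.n, hw.s₁, hw.s₂⟩

lemma momX_setz (R : Λ → ℝ) (lam : Λ × Eis) (a : BdX) (ps : List Pq) :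
    MomX π h R lam a ps ≤ MomX π h R lam (a.setz 0) ps := by
  by_cases hok : a.ok ∧ lam.2 ∈ SM (π lam.1).n
  · have hok' : (a.setz 0).ok ∧ lam.2 ∈ SM (π lam.1).n :=
      ⟨⟨⟨hok.1.base.1, le_rfl, hok.1.base.2.2⟩, hok.1.z0, hok.1.s01, hok.1.s23, hok.1.md⟩, hok.2⟩
    unfold MomX
    rw [if_pos hok, if_pos hok']
    rfl
  · have : MomX π h R lam a ps = 0 := by unfold MomX; rw [if_neg hok]
    rw [this]
    exact momX_nonneg R lam _ ps

/-- the same configuration with share `0` -/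
def upX (p : IX5 → ℝ) : IX5 → ℝ := Sum.elim (upx (prX p) 0) fun i => p (.inr i)

lemma prX_upX (p : IX5 → ℝ) : prX (upX p) = upx (prX p) 0 := rfl

lemma win_setzX {p : IX5 → ℝ} {δ : ℝ} {N : ℕ} {B ρ X : ℝ} {a : BdX}
    (hw : Win S5X p δ N B ρ X a) (hδ : 0 ≤ δ) : Win S5X (upX p) δ N B ρ X (a.setz 0) := by
  have h1 : Win S5 (prX p) δ N B ρ X a.toBd :=
    ⟨fun i => hw.ev (.inl i), hw.g, hw.n, hw.s₁, hw.s₂⟩
  have h2 : Win S5 (upx (prX p) 0) δ N B ρ X (a.toBd.setz 0) :=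
    win_setz h1 (by rw [zero_div, sub_zero, abs_zero]; exact hδ)
  refine ⟨?_, h2.g, h2.n, h2.s₁, h2.s₂⟩
  rintro (i | i)
  · exact h2.ev i
  · exact hw.ev (.inr i)

/-- **one band**: the first structured function from the second one, the second moment of the
difference and the tails -/
theorem rest_ofX (hP : ∀ lam, (π lam).OK) {A d β μ μ' : ℝ} (hd : 0 ≤ d) (hμ : μ' ≤ μ)
    (hμd : μ' ≤ d / 9) {S1 S2 : ℕ → SFX Λ}
    {Dom DomH : Set ((Option IX5 → ℝ) × (Kd → ℝ))} (hDom : Dom ⊆ SqLX A d β)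
    (hDH : ∀ q ∈ Dom, (q.1, fun _ => (0 : ℝ)) ∈ DomH)
    {al' : Set ((Option IX5 → ℝ) × ℝ)}
    (H2 : UB (lev (Real.log 2) S5X) Dq
      (fun lam a ps => if a.2 < nL a.1.l (a3 a.1.toBd) a.1.z then
        MidX π h (S2 a.2) lam a.1 ps else 0) Dom (alL alX)
      fun q => T5 (7 / 8 + d) (prQ (dn q.1, q.2)) - μ)
    (HH : ∀ R : Λ → ℝ, (∀ lam, 0 ≤ R lam) → UB (lev (Real.log 2) S5X) Dq
      (fun lam (a : BdX × ℕ) _ => if a.2 < nL a.1.l (a3 a.1.toBd) a.1.z then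
        HiGX π (subSX (S1 a.2) (S2 a.2)) R lam a.1 else 0) DomH al'
      fun q => cκ (prX (dn q.1)) + cN (prX (dn q.1)) + LR d (prX (dn q.1)))
    (HT1 : ∀ R : Λ → ℝ, (∀ lam, 0 ≤ R lam) → UB (lev (Real.log 2) S5X) Dq
      (fun lam a ps => if a.2 < nL a.1.l (a3 a.1.toBd) a.1.z then
        TailSX π h (S1 a.2) R lam a.1 ps else 0) Dom (alL alX)
      fun q => T5 (7 / 8 + d) (prQ (dn q.1, q.2)) - μ)
    (HT2 : ∀ R : Λ → ℝ, (∀ lam, 0 ≤ R lam) → UB (lev (Real.log 2) S5X) Dq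
      (fun lam a ps => if a.2 < nL a.1.l (a3 a.1.toBd) a.1.z then
        TailSX π h (S2 a.2) R lam a.1 ps else 0) Dom (alL alX)
      fun q => T5 (7 / 8 + d) (prQ (dn q.1, q.2)) - μ)
    (hm : MomUX π h A d β) :
    UB (lev (Real.log 2) S5X) Dq
      (fun lam a ps => if a.2 < nL a.1.l (a3 a.1.toBd) a.1.z then
        MidX π h (S1 a.2) lam a.1 ps else 0) Dom (alL alX)
      fun q => T5 (7 / 8 + d) (prQ (dn q.1, q.2)) - μ' := by
  intro ε hε
  choose R CU hR hCU hsupp hbd using fun lam => wp_bd (hP lam)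
  obtain ⟨C, hC, key⟩ := mid_hiX (π := π) (h := h) (ε := ε / 8) (by linarith)
  have hε4 : 0 < ε / 4 := by linarith
  obtain ⟨δ1, hδ1, K1⟩ := H2 (ε / 4) hε4
  obtain ⟨δ2, hδ2, K2⟩ := ub_nil (HH R hR) (ε / 4) hε4
  obtain ⟨δ3, hδ3, K3⟩ := HT1 R hR (ε / 4) hε4
  obtain ⟨δ4, hδ4, K4⟩ := HT2 R hR (ε / 4) hε4
  obtain ⟨δ5, hδ5, K5⟩ := hm R hR (ε / 4) hε4
  set D := min (min (min δ1 δ2) (min δ3 δ4)) (min δ5 (1 / 2)) with hDdef
  have hD : 0 < D := lt_min (lt_min (lt_min hδ1 hδ2) (lt_min hδ3 hδ4))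
    (lt_min hδ5 (by norm_num))
  have hD1 : D ≤ δ1 := (min_le_left _ _).trans ((min_le_left _ _).trans (min_le_left _ _))
  have hD2 : D ≤ δ2 := (min_le_left _ _).trans ((min_le_left _ _).trans (min_le_right _ _))
  have hD3 : D ≤ δ3 := (min_le_left _ _).trans ((min_le_right _ _).trans (min_le_left _ _))
  have hD4 : D ≤ δ4 := (min_le_left _ _).trans ((min_le_right _ _).trans (min_le_right _ _))
  have hD5 : D ≤ δ5 := (min_le_right _ _).trans (min_le_left _ _)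
  have hDh : D ≤ 1 / 2 := (min_le_right _ _).trans (min_le_right _ _)
  refine ⟨D, hD, fun lam N B => ?_⟩
  obtain ⟨ρ1, hρ1, X1, hX1, L1⟩ := K1 lam N B
  obtain ⟨ρ2, hρ2, X2, hX2, L2⟩ := K2 lam N B
  obtain ⟨ρ3, hρ3, X3, hX3, L3⟩ := K3 lam N B
  obtain ⟨ρ4, hρ4, X4, hX4, L4⟩ := K4 lam N B
  obtain ⟨ρ5, hρ5, X5, hX5, L5⟩ := K5 lam N B
  set ρ := min (min (min ρ1 ρ2) (min ρ3 ρ4)) ρ5 with hρdef
  have hρ : 0 < ρ := lt_min (lt_min (lt_min hρ1 hρ2) (lt_min hρ3 hρ4)) hρ5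
  have r1 : ρ ≤ ρ1 := (min_le_left _ _).trans ((min_le_left _ _).trans (min_le_left _ _))
  have r2 : ρ ≤ ρ2 := (min_le_left _ _).trans ((min_le_left _ _).trans (min_le_right _ _))
  have r3 : ρ ≤ ρ3 := (min_le_left _ _).trans ((min_le_right _ _).trans (min_le_left _ _))
  have r4 : ρ ≤ ρ4 := (min_le_left _ _).trans ((min_le_right _ _).trans (min_le_right _ _))
  have r5 : ρ ≤ ρ5 := min_le_right _ _
  obtain ⟨X7, hX7, L7⟩ := const_le_rpow
    (C := 3 * (CU lam.1 * C * Real.exp (R lam.1) ^ (ε / 8)) + 1) (ε := ε / 4) hε4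
  refine ⟨ρ, hρ, max (max (max X1 X2) (max X3 X4)) (max X5 X7),
    lt_of_lt_of_le hX1 ((le_max_left _ _).trans ((le_max_left _ _).trans (le_max_left _ _))), ?_⟩
  intro X hX a ps hlen hlump q hq hw hmass hgood hal
  have x1 : X1 ≤ X := ((le_max_left _ _).trans ((le_max_left _ _).trans (le_max_left _ _))).trans hX
  have x2 : X2 ≤ X := ((le_max_right _ _).trans ((le_max_left _ _).trans (le_max_left _ _))).trans hX
  have x3 : X3 ≤ X := ((le_max_left _ _).trans ((le_max_right _ _).trans (le_max_left _ _))).trans hX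
  have x4 : X4 ≤ X :=
    ((le_max_right _ _).trans ((le_max_right _ _).trans (le_max_left _ _))).trans hX
  have x5 : X5 ≤ X := ((le_max_left _ _).trans (le_max_right _ _)).trans hX
  have x7 : X7 ≤ X := ((le_max_right _ _).trans (le_max_right _ _)).trans hX
  have hX1' : 1 < X := by linarith
  have hXp : 0 < X := by linarith
  have hlog : 0 < Real.log X := Real.log_pos hX1'
  have hSq : Sq5 A d (prX (dn q.1)) q.2 := (hDom hq).1.1
  set p := prX (dn q.1) with hp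
  set w := q.2 with hwq
  have hx0 : 0 ≤ cx' p := hSq.x0
  have hlump' : ∀ δ : ℝ, D ≤ δ → ∀ g ∈ ps, Dq.lump g ∨ Dq.nl X g ≤ δ := fun δ hδ g hg =>
    (hlump g hg).imp id fun h => h.trans hδ
  set T := T5 (7 / 8 + d) (p, w) with hT
  -- the four bounds at the level
  have b1 := L1 X x1 a ps hlen (hlump' _ hD1) q hq
    (hw.mono hX1'.le hD1 le_rfl le_rfl r1) (fun t => (hmass t).trans hD1)
    (Good_mono hX1'.le hgood r1) hal
  have b2 := L2 X x2 a q.1 (hDH q hq) (hw.mono hX1'.le hD2 le_rfl le_rfl r2)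
  have b3 := L3 X x3 a ps hlen (hlump' _ hD3) q hq
    (hw.mono hX1'.le hD3 le_rfl le_rfl r3) (fun t => (hmass t).trans hD3)
    (Good_mono hX1'.le hgood r3) hal
  have b4 := L4 X x4 a ps hlen (hlump' _ hD4) q hq
    (hw.mono hX1'.le hD4 le_rfl le_rfl r4) (fun t => (hmass t).trans hD4)
    (Good_mono hX1'.le hgood r4) hal
  -- the two-lump side
  have hwz : Win S5X (upX (dn q.1)) D N B ρ X (a.1.setz 0) := win_setzX (win_dnX hw) hD.le
  have hmem5 : ∀ g ∈ moL ps ++ amL ps, g ∈ ps := by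
    intro g hg
    rcases List.mem_append.1 hg with h2 | h2
    · exact (mem_moL.1 h2).1
    · exact (mem_amL.1 h2).1
  set v : Kd → ℝ := fun t => match t with | .mo => w .mo | .am => w .am with hv
  have hvN : (upX (dn q.1), v) ∈ liftD β (MoD A) := by
    refine ⟨?_, (hDom hq).1.2⟩
    show (upx p 0, v) ∈ MoD A
    refine ⟨?_, ?_, ?_, ?_, hSq.κ31, ?_⟩
    · have e : (fun t : Kd => match t with
          | .mo => v .mo
          | .am => v .am + cx' (upx p 0)) = w := by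
        funext t
        cases t
        · rfl
        · simp [hv]
      have h9 := hSq.toNr5.upx 0
      rw [← e] at h9
      exact h9
    · simp
    · simp only [hv]
      exact hSq.w0 .am
    · left
      simp
    · simpa [hv] using hSq.a12
  have b5 := L5 X x5 (a.1.setz 0) (moL ps ++ amL ps) (by
      rw [List.length_append, length_moL]; exact hlen)
    (fun g hg => (hlump' _ hD5 g (hmem5 g hg))) (upX (dn q.1), v) hvN
    (hwz.mono hX1'.le hD5 le_rfl le_rfl r5) (fun t => by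
      rw [Pcs.mass_append, mass_moL, mass_amL]
      cases t with
      | mo =>
        have := hmass .mo
        simp only [if_true, hv]
        rw [if_neg (by simp), add_zero]
        linarith
      | am =>
        have := hmass .am
        rw [if_neg (by simp), if_pos rfl]
        simp only [hv, zero_add]
        linarith)
    (Good_mono hX1'.le (fun g hg => hgood g (hmem5 g hg)) r5)
    (fun g hg hgl => hal g (hmem5 g hg) hgl)
  change MomX π h R lam (a.1.setz 0) (moL ps ++ amL ps) ≤ X ^ (E2x d (upx p 0, v) + ε / 4) at b5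
  -- the gate
  by_cases hgate : a.2 < nL a.1.l (a3 a.1.toBd) a.1.z
  swap
  · simp only [if_neg hgate]
    positivity
  simp only [if_pos hgate] at b1 b2 b3 b4 ⊢
  -- the family
  have hκw := abs_le.1 (hw.ev (some (.inl (.inl 0))))
  change -D ≤ a.1.l / Real.log X - cκ p ∧ a.1.l / Real.log X - cκ p ≤ D at hκw
  have hl1 : a.1.l / Real.log X ≤ 2 := by linarith [hκw.2, hSq.κ1]
  have hl0 : 0 ≤ a.1.l := by
    have h2 : 0 ≤ a.1.l / Real.log X := by linarith [hκw.1, hSq.κ0]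
    rw [le_div_iff₀ hlog, zero_mul] at h2
    exact h2
  have hexp : Real.exp a.1.l ≤ X ^ (2 : ℝ) := by
    rw [Real.rpow_def_of_pos hXp, Real.exp_le_exp]
    rw [div_le_iff₀ hlog] at hl1
    linarith
  have hKx : Real.exp (a.1.l + R lam.1) ^ (ε / 8) ≤
      Real.exp (R lam.1) ^ (ε / 8) * X ^ (ε / 4) := by
    rw [Real.exp_add, mul_comm, Real.mul_rpow (Real.exp_pos _).le (Real.exp_pos _).le]
    refine mul_le_mul_of_nonneg_left ?_ (by positivity)
    calc Real.exp a.1.l ^ (ε / 8) ≤ (X ^ (2 : ℝ)) ^ (ε / 8) :=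
          Real.rpow_le_rpow (Real.exp_pos _).le hexp (by linarith)
      _ = X ^ (ε / 4) := by rw [← Real.rpow_mul hXp.le]; congr 1; ring
  -- the exponents
  have hkey := key_exp0 (v := v) hSq hd rfl rfl
  have hsqrt : Real.sqrt (HiGX π (subSX (S1 a.2) (S2 a.2)) R lam a.1) *
      Real.sqrt (MomX π h R lam a.1 (moL ps ++ amL ps)) ≤ X ^ (T - μ' + ε / 4) := by
    have s1 : Real.sqrt (HiGX π (subSX (S1 a.2) (S2 a.2)) R lam a.1) ≤
        X ^ ((cκ p + cN p + LR d p + ε / 4) / 2) := by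
      refine (Real.sqrt_le_sqrt b2).trans (le_of_eq ?_)
      rw [Real.sqrt_eq_rpow, ← Real.rpow_mul hXp.le]; congr 1; ring
    have s2 : Real.sqrt (MomX π h R lam a.1 (moL ps ++ amL ps)) ≤
        X ^ ((E2x d (upx p 0, v) + ε / 4) / 2) := by
      refine (Real.sqrt_le_sqrt ((momX_setz R lam a.1 _).trans b5)).trans (le_of_eq ?_)
      rw [Real.sqrt_eq_rpow, ← Real.rpow_mul hXp.le]; congr 1; ring
    calc _ ≤ X ^ ((cκ p + cN p + LR d p + ε / 4) / 2) *
          X ^ ((E2x d (upx p 0, v) + ε / 4) / 2) :=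
          mul_le_mul s1 s2 (Real.sqrt_nonneg _) (by positivity)
      _ = X ^ ((cκ p + cN p + LR d p + E2x d (upx p 0, v)) / 2 + ε / 4) := by
          rw [← Real.rpow_add hXp]; congr 1; ring
      _ ≤ _ := Real.rpow_le_rpow_of_exponent_le hX1'.le (by linarith)
  have hm4 : X ^ (T - μ + ε / 4) ≤ X ^ (T - μ' + ε / 4) :=
    Real.rpow_le_rpow_of_exponent_le hX1'.le (by linarith)
  have hfin := key lam R (CU lam.1) (hCU lam.1) (hsupp lam.1) (hbd lam.1)
    (subSX (S1 a.2) (S2 a.2)) a.1 ps (by linarith [hR lam.1])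
  set Z := X ^ (T - μ' + ε / 4) with hZ
  have hZ0 : 0 ≤ Z := by positivity
  have hsum : Real.sqrt (HiGX π (subSX (S1 a.2) (S2 a.2)) R lam a.1) *
      Real.sqrt (MomX π h R lam a.1 (moL ps ++ amL ps)) +
        TailSX π h (subSX (S1 a.2) (S2 a.2)) R lam a.1 ps ≤ 3 * Z := by
    have := tailSX_sub (π := π) (h := h) (S1 a.2) (S2 a.2) R lam a.1 ps
    linarith [b3.trans hm4, b4.trans hm4]
  have hCUn : 0 ≤ CU lam.1 := by linarith [hCU lam.1]
  have hXe : 1 ≤ X ^ (ε / 4) := Real.one_le_rpow hX1'.le hε4.le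
  calc MidX π h (S1 a.2) lam a.1 ps ≤ MidX π h (S2 a.2) lam a.1 ps +
        MidX π h (subSX (S1 a.2) (S2 a.2)) lam a.1 ps := midX_sub (hP lam.1) _ _ _ _
    _ ≤ Z + CU lam.1 * (C * (Real.exp (R lam.1) ^ (ε / 8) * X ^ (ε / 4)) * (3 * Z)) := by
        refine add_le_add (b1.trans hm4) (hfin.trans ?_)
        refine mul_le_mul_of_nonneg_left ?_ hCUn
        have hs0 : 0 ≤ 3 * Z := by linarith
        refine mul_le_mul (mul_le_mul_of_nonneg_left hKx hC) hsum ?_ (by positivity)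
        have := tailSX_nonneg (π := π) (h := h) (subSX (S1 a.2) (S2 a.2)) R lam a.1 ps
        positivity
    _ = (3 * (CU lam.1 * C * Real.exp (R lam.1) ^ (ε / 8))) * X ^ (ε / 4) * Z + 1 * Z := by ring
    _ ≤ (3 * (CU lam.1 * C * Real.exp (R lam.1) ^ (ε / 8))) * X ^ (ε / 4) * Z +
        X ^ (ε / 4) * Z := add_le_add le_rfl (mul_le_mul_of_nonneg_right hXe hZ0)
    _ = (3 * (CU lam.1 * C * Real.exp (R lam.1) ^ (ε / 8)) + 1) * X ^ (ε / 4) * Z := by ring
    _ ≤ X ^ (ε / 4) * X ^ (ε / 4) * Z := by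
        refine mul_le_mul_of_nonneg_right ?_ hZ0
        exact mul_le_mul_of_nonneg_right (L7 X x7) (by positivity)
    _ = X ^ (T - μ' + 3 * (ε / 4)) := by
        rw [hZ, ← Real.rpow_add hXp, ← Real.rpow_add hXp]; congr 1; ring
    _ ≤ X ^ (T - μ' + ε) := Real.rpow_le_rpow_of_exponent_le hX1'.le (by linarith)

end


/-! ### all bands -/

section
variable {Λ : Type*} (π : Λ → DPar) (h : ℝ → ℝ)

/-- the levels of the band of `e`, measured from `lo` -/
def BandDX (lo : (Fin 3 ⊕ Fin 5 → ℝ) → ℝ) (A d β e : ℝ) : Set ((Option IX5 → ℝ) × (Kd → ℝ)) :=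
  {q | q ∈ SqLX A d β ∧ 4 * e * cκ (prX (dn q.1)) ≤ lo (prX (dn q.1)) - q.1 none + d / 2}

/-- **LowDX** : the middle term of the band of `e` -/
def LowDX (lo : (Fin 3 ⊕ Fin 5 → ℝ) → ℝ) (e r : ℝ) (Bf : ℕ → ℝ → ℝ → ℝ → ℝ) (Jf : ℝ → ℝ → ℝ → Finset (Eis × Eis))
    (A d β μ : ℝ) : Prop :=
  UB (lev (Real.log 2) S5X) Dq
    (fun lam a ps => if a.2 < nL a.1.l (a3 a.1.toBd) a.1.z then
      MidX π h (SfEV π h e r (Bf a.2) Jf a.2) lam a.1 ps else 0)
    (BandDX lo A d β e) (alL alX) fun q => T5 (7 / 8 + d) (prQ (dn q.1, q.2)) - μ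

/-- **TailLX** : the tail at one level -/
def TailLX (e r : ℝ) (Bf : ℕ → ℝ → ℝ → ℝ → ℝ) (Jf : ℝ → ℝ → ℝ → Finset (Eis × Eis))
    (A d β μ : ℝ) : Prop :=
  ∀ R : Λ → ℝ, (∀ lam, 0 ≤ R lam) → UB (lev (Real.log 2) S5X) Dq
    (fun lam a ps => if a.2 < nL a.1.l (a3 a.1.toBd) a.1.z then
      TailSX π h (SfEV π h e r (Bf a.2) Jf a.2) R lam a.1 ps else 0)
    (SqLX A d β) (alL alX) fun q => T5 (7 / 8 + d) (prQ (dn q.1, q.2)) - μ

/-- **HiEX** : the second moment of the `e`-blocks between `e1` and `e0`, levels between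
`lo - s₁ κ` and `lo - s₂ κ` -/
def HiEX (lo : (Fin 3 ⊕ Fin 5 → ℝ) → ℝ) (e1 e0 r : ℝ) (Bf : ℕ → ℝ → ℝ → ℝ → ℝ) (Jf : ℝ → ℝ → ℝ → Finset (Eis × Eis))
    (A d β s₁ s₂ : ℝ) (al' : Set ((Option IX5 → ℝ) × ℝ)) : Prop :=
  ∀ R : Λ → ℝ, (∀ lam, 0 ≤ R lam) → UB (lev (Real.log 2) S5X) Dq
    (fun lam (a : BdX × ℕ) _ => if a.2 < nL a.1.l (a3 a.1.toBd) a.1.z then HiGX π
      (subSX (SfEV π h e0 r (Bf a.2) Jf a.2) (SfEV π h e1 r (Bf a.2) Jf a.2)) R lam a.1 else 0)
    {q | (∃ w, Sq5 A d (prX (dn q.1)) w) ∧ ZR β (dn q.1) ∧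
      lo (prX (dn q.1)) - s₁ * cκ (prX (dn q.1)) ≤ q.1 none ∧
      q.1 none ≤ min (top5 (prX (dn q.1))) (lo (prX (dn q.1)) - s₂ * cκ (prX (dn q.1)))} al'
    fun q => cκ (prX (dn q.1)) + cN (prX (dn q.1)) + LR d (prX (dn q.1))

variable {π} {h}

theorem ub_exp {T Pc' ι τ Λ : Type*} [DecidableEq τ] {S : Sys T ι} {D : Pcs Pc' τ}
    {Ψ : Λ → T → List Pc' → ℝ} {Dom : Set ((ι → ℝ) × (τ → ℝ))} {al : Set ((ι → ℝ) × ℝ)}
    {E E' : (ι → ℝ) × (τ → ℝ) → ℝ} (h : UB S D Ψ Dom al E) (hE : ∀ q ∈ Dom, E q ≤ E' q) :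
    UB S D Ψ Dom al E' := by
  intro ε hε
  obtain ⟨δ, hδ, H⟩ := h ε hε
  refine ⟨δ, hδ, fun lam N B => ?_⟩
  obtain ⟨δ', hδ', X₀, hX₀, H'⟩ := H lam N B
  refine ⟨δ', hδ', X₀, hX₀, fun X hX a ps h1 h2 q hq h3 h4 h5 h6 => ?_⟩
  exact (H' X hX a ps h1 h2 q hq h3 h4 h5 h6).trans
    (Real.rpow_le_rpow_of_exponent_le (hX₀.le.trans hX) (by linarith [hE q hq]))

/-- **StrUX from the bands** (`g = d / 8`): for `e1 < e0` one band each -/
theorem strUX_of_bands (hP : ∀ lam, (π lam).OK) {A d β μ μ' : ℝ} (hA : 2 / 3 ≤ A) (hd : 0 < d)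
    (hμ : μ' ≤ μ) (hμd : μ' ≤ d / 9) {e0 r : ℝ} (he0 : 0 < e0) {Bf : ℕ → ℝ → ℝ → ℝ → ℝ}
    {Jf : ℝ → ℝ → ℝ → Finset (Eis × Eis)} {al' : Set ((Option IX5 → ℝ) × ℝ)}
    {lo : (Fin 3 ⊕ Fin 5 → ℝ) → ℝ} (hlo : ∀ p w, Sq5 A d p w → top5 p ≤ lo p)
    (hlo3 : ∀ p w, Sq5 A d p w → lo p ≤ 3)
    (low : ∀ e, 0 < e → e ≤ e0 → LowDX π h lo e r Bf Jf A d β μ)
    (hi : ∀ j : ℕ, (j * (d / 8) + d / 2) / 4 < e0 →
      HiEX π h lo ((j * (d / 8) + d / 2) / 4) e0 r Bf Jf A d β ((j + 1) * (d / 8)) (j * (d / 8)) al')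
    (tl : ∀ e, 0 < e → e ≤ e0 → TailLX π h e r Bf Jf A d β μ) (hm : MomUX π h A d β) :
    StrUX π h (7 / 8 + d) (SfE π h e0 r Bf Jf nL) A d β μ' := by
  refine E5L3770.strUX_of_lev_gate π h hP hA e0 r Bf Jf ?_
  set g : ℝ := d / 8 with hg
  have hg0 : 0 < g := by positivity
  set Dom : ℕ → Set ((Option IX5 → ℝ) × (Kd → ℝ)) := fun j =>
    {q | q ∈ SqLX A d β ∧
      lo (prX (dn q.1)) - (j + 1) * g * cκ (prX (dn q.1)) ≤ q.1 none ∧
      q.1 none ≤ lo (prX (dn q.1)) - j * g * cκ (prX (dn q.1))} with hDom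
  have hj : ∀ j : ℕ, UB (lev (Real.log 2) S5X) Dq
      (fun lam a ps => if a.2 < nL a.1.l (a3 a.1.toBd) a.1.z then
        MidX π h (SfEV π h e0 r (Bf a.2) Jf a.2) lam a.1 ps else 0)
      (Dom j) (alL alX) fun q => T5 (7 / 8 + d) (prQ (dn q.1, q.2)) - μ' := by
    intro j
    have hj0 : 0 ≤ (j : ℝ) * g := by positivity
    -- the band of `e`
    have hband : ∀ e : ℝ, e ≤ (j * g + d / 2) / 4 → Dom j ⊆ BandDX lo A d β e := by
      intro e he q hq
      refine ⟨hq.1, ?_⟩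
      have hSq : Sq5 A d (prX (dn q.1)) q.2 := hq.1.1.1
      have hκ := hSq.κpos
      have hκ1 := hSq.κ1
      have h1 : 4 * e * cκ (prX (dn q.1)) ≤ (j * g + d / 2) * cκ (prX (dn q.1)) :=
        mul_le_mul_of_nonneg_right (by linarith) hκ.le
      have h2 : d / 2 * cκ (prX (dn q.1)) ≤ d / 2 * 1 :=
        mul_le_mul_of_nonneg_left hκ1 (by positivity)
      have h3 := hq.2.2
      rw [add_mul] at h1
      linarith
    by_cases hje : (j * g + d / 2) / 4 < e0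
    · have he1 : 0 < (j * g + d / 2) / 4 := by positivity
      have hD1 : Dom j ⊆ SqLX A d β := fun q hq => hq.1
      have t0 : ∀ R : Λ → ℝ, (∀ lam, 0 ≤ R lam) → UB (lev (Real.log 2) S5X) Dq
          (fun lam a ps => if a.2 < nL a.1.l (a3 a.1.toBd) a.1.z then
            TailSX π h (SfEV π h e0 r (Bf a.2) Jf a.2) R lam a.1 ps else 0)
          (Dom j) (alL alX) fun q => T5 (7 / 8 + d) (prQ (dn q.1, q.2)) - μ :=
        fun R hR => ub_sub (tl e0 he0 le_rfl R hR) hD1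
      have t1 : ∀ R : Λ → ℝ, (∀ lam, 0 ≤ R lam) → UB (lev (Real.log 2) S5X) Dq
          (fun lam a ps => if a.2 < nL a.1.l (a3 a.1.toBd) a.1.z then
            TailSX π h (SfEV π h ((j * g + d / 2) / 4) r (Bf a.2) Jf a.2) R lam a.1 ps else 0)
          (Dom j) (alL alX) fun q => T5 (7 / 8 + d) (prQ (dn q.1, q.2)) - μ :=
        fun R hR => ub_sub (tl _ he1 hje.le R hR) hD1
      have l1 : UB (lev (Real.log 2) S5X) Dq
          (fun lam a ps => if a.2 < nL a.1.l (a3 a.1.toBd) a.1.z then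
            MidX π h (SfEV π h ((j * g + d / 2) / 4) r (Bf a.2) Jf a.2) lam a.1 ps else 0)
          (Dom j) (alL alX) fun q => T5 (7 / 8 + d) (prQ (dn q.1, q.2)) - μ :=
        ub_sub (low _ he1 hje.le) (hband _ le_rfl)
      refine rest_ofX (S1 := fun i => SfEV π h e0 r (Bf i) Jf i)
        (S2 := fun i => SfEV π h ((j * g + d / 2) / 4) r (Bf i) Jf i) hP hd.le hμ hμd
        hD1 ?_ l1 (hi j hje) t0 t1 hm
      intro q hq
      obtain ⟨k1, k2, k3⟩ := hq
      exact ⟨⟨q.2, k1.1.1⟩, k1.1.2, k2, le_min k1.2.2 k3⟩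
    · rw [not_lt] at hje
      exact ub_exp (ub_sub (low e0 he0 le_rfl) (hband _ hje)) fun q _ => by linarith
  refine ub_sub (ub_range (⌊4 / g⌋₊ + 1) fun j _ => hj j) ?_
  intro q hq
  have hSq : Sq5 A d (prX (dn q.1)) q.2 := hq.1.1
  have hκ : 0 < cκ (prX (dn q.1)) := hSq.κpos
  have hκ0 := hSq.κ0
  have l1 := hlo _ _ hSq
  have l2 := hlo3 _ _ hSq
  have hv0 : 0 ≤ q.1 none := hq.2.1
  have hv1 : q.1 none ≤ top5 (prX (dn q.1)) := hq.2.2
  have hσκ : 0 < g * cκ (prX (dn q.1)) := mul_pos hg0 hκ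
  set y : ℝ := (lo (prX (dn q.1)) - q.1 none) / (g * cκ (prX (dn q.1))) with hy
  have y0 : 0 ≤ y := div_nonneg (by linarith) hσκ.le
  have y2 : y * (g * cκ (prX (dn q.1))) = lo (prX (dn q.1)) - q.1 none := by
    rw [hy]; field_simp
  have y3 : y ≤ 4 / g := by
    rw [hy, div_le_div_iff₀ hσκ hg0]
    nlinarith
  have f1 := Nat.floor_le (a := y) y0
  have f2 := Nat.lt_floor_add_one y
  refine ⟨⌊y⌋₊, Nat.lt_succ_of_le (Nat.floor_mono y3), hq, ?_, ?_⟩
  · have := mul_le_mul_of_nonneg_right f2.le hσκ.le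
    rw [y2] at this
    linarith
  · have := mul_le_mul_of_nonneg_right f1 hσκ.le
    rw [y2] at this
    linarith

end

end Crest.Agent.R017.E5HX783
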