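import Crest.Agent.R017.E5LX_770

/-!
# Row 17, R8: the level split with a gate (helper770, text of helper92)

* `ub_of_lev_gate` : only the levels `i < nT a` are needed
* `strU_of_lev_gate`, `tailU_of_lev_gate`, `strUX_of_lev_gate`, `tailUX_of_lev_gate`
* `JS_full` : the official window contains every class of norm `≤ 2^n`
-/

set_option autoImplicit false

noncomputable section

open Finset Filter Topology
open scoped ComplexConjugate

namespace Crest.Agent.R017.E5L3770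

open Crest.Agent.R012 Crest.Agent.R012.Eis
open Crest.Agent.R017.XG702 (Pcs)
open Crest.Agent.R017.XT71 (Sys Win)
open Crest.Agent.R017.B770 Crest.Agent.R017.Prov71
open Crest.Agent.R017.E5B71 Crest.Agent.R017.E5P571
open Crest.Agent.R017.ExBox960 Crest.Agent.R017.ExP960
open Crest.Agent.R017.E5L770 Crest.Agent.R017.Sf770 Crest.Agent.R017.E5LX770
open Crest.Agent.R017.C70 (JW OKJ JC CbF)

variable {A Pc' ι τ Λ' : Type*} [DecidableEq τ]

/-- **one level `i < nT a` suffices** -/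
theorem ub_of_lev_gate {S : Sys A ι} {D : Pcs Pc' τ} {Ψ : Λ' → A → List Pc' → ℝ}
    {Ψl : ℕ → Λ' → A → List Pc' → ℝ} {Dom : Set ((ι → ℝ) × (τ → ℝ))} {al : Set ((ι → ℝ) × ℝ)}
    {E : (ι → ℝ) × (τ → ℝ) → ℝ} {EL : (Option ι → ℝ) × (τ → ℝ) → ℝ} {top : (ι → ℝ) → ℝ}
    {C₀ M c c₁ : ℝ} (hC₀ : 0 ≤ C₀) (hc : 0 < c) {nT : A → ℕ}
    (htop0 : ∀ q ∈ Dom, 0 ≤ top q.1) (htopM : ∀ q ∈ Dom, top q.1 ≤ M)
    (hlip : ∀ (p p' : ι → ℝ) (δ : ℝ), 0 ≤ δ → (∀ i, |p i - p' i| ≤ δ) → top p ≤ top p' + C₀ * δ)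
    (hnT : ∀ (X : ℝ) (a : A), 1 < X →
      c * (nT a : ℝ) ≤ max 0 (top (S.ev X a)) * Real.log X + c₁)
    (hsplit : ∀ lam a ps, Ψ lam a ps ≤ ∑ i ∈ range (nT a), Ψl i lam a ps)
    (hEL : ∀ q ∈ DomL Dom top, EL q ≤ E (dn q.1, q.2))
    (h : UB (lev c S) D (fun lam a ps => if a.2 < nT a.1 then Ψl a.2 lam a.1 ps else 0)
      (DomL Dom top) (alL al) EL) :
    UB S D Ψ Dom al E :=
  ub_of_lev (Ψl := fun i lam a ps => if i < nT a then Ψl i lam a ps else 0) hC₀ hc htop0 htopM hlip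
    hnT (fun lam a ps => (hsplit lam a ps).trans (le_of_eq (Finset.sum_congr rfl fun i hi => by
      rw [if_pos (mem_range.1 hi)]))) hEL h

variable {Λ : Type*} (π : Λ → DPar) (h : ℝ → ℝ)

/-- **StrU from one level, gated** -/
theorem strU_of_lev_gate (hP : ∀ lam, (π lam).OK) {θ A d μ : ℝ} (hA : 2 / 3 ≤ A) (e0 r : ℝ)
    (Bf : ℝ → ℝ → ℝ → ℝ) (Jf : ℝ → ℝ → ℝ → Finset (Eis × Eis))
    (H : UB (lev (Real.log 2) S5) Dq
      (fun lam a ps => if a.2 < nL a.1.l (a3 a.1) a.1.z then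
        MidF π h (SfV π h e0 r Bf Jf a.2) lam a.1 ps else 0)
      (SqL A d) (alL al5) fun q => T5 θ (dn q.1, q.2) - μ) :
    StrU π h θ (SfP π h e0 r Bf Jf nL) A d μ :=
  ub_of_lev_gate (S := S5) (Ψl := fun i lam a ps => MidF π h (SfV π h e0 r Bf Jf i) lam a ps)
    (C₀ := 10) (M := 2) (c := Real.log 2) (c₁ := Real.log 2) (by norm_num)
    (Real.log_pos (by norm_num)) (nT := fun a => nL a.l (a3 a) a.z)
    (fun q hq => top5_nonneg hA hq) (fun q hq => top5_le hA hq) top5_lip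
    (fun X a hX => nL_le hX a) (fun lam a ps => midF_lev π h e0 r Bf Jf nL (hP lam.1) a ps)
    (fun q _ => le_rfl) H

/-- **TailU from one level, gated** -/
theorem tailU_of_lev_gate {θ A d μ : ℝ} (hA : 2 / 3 ≤ A) (e0 r : ℝ)
    (Bf : ℝ → ℝ → ℝ → ℝ) (Jf : ℝ → ℝ → ℝ → Finset (Eis × Eis))
    (H : ∀ R : Λ → ℝ, (∀ lam, 0 ≤ R lam) →
      UB (lev (Real.log 2) S5) Dq
        (fun lam a ps => if a.2 < nL a.1.l (a3 a.1) a.1.z then
          TailS π h (SfV π h e0 r Bf Jf a.2) R lam a.1 ps else 0)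
        (SqL A d) (alL al5) fun q => T5 θ (dn q.1, q.2) - μ) :
    TailU π h θ (SfP π h e0 r Bf Jf nL) A d μ := fun R hR =>
  ub_of_lev_gate (S := S5) (Ψl := fun i lam a ps => TailS π h (SfV π h e0 r Bf Jf i) R lam a ps)
    (C₀ := 10) (M := 2) (c := Real.log 2) (c₁ := Real.log 2) (by norm_num)
    (Real.log_pos (by norm_num)) (nT := fun a => nL a.l (a3 a) a.z)
    (fun q hq => top5_nonneg hA hq) (fun q hq => top5_le hA hq) top5_lip
    (fun X a hX => nL_le hX a) (fun lam a ps => tailS_lev π h e0 r Bf Jf nL R lam a ps)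
    (fun q _ => le_rfl) (H R hR)

/-- **StrUX from one level, gated** -/
theorem strUX_of_lev_gate (hP : ∀ lam, (π lam).OK) {θ A d β μ : ℝ} (hA : 2 / 3 ≤ A)
    (e0 r : ℝ) (Bf : ℕ → ℝ → ℝ → ℝ → ℝ) (Jf : ℝ → ℝ → ℝ → Finset (Eis × Eis))
    (H : UB (lev (Real.log 2) S5X) Dq
      (fun lam a ps => if a.2 < nL a.1.l (a3 a.1.toBd) a.1.z then
        MidX π h (SfEV π h e0 r (Bf a.2) Jf a.2) lam a.1 ps else 0)
      (SqLX A d β) (alL alX) fun q => T5 θ (prQ (dn q.1, q.2)) - μ) :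
    StrUX π h θ (SfE π h e0 r Bf Jf nL) A d β μ :=
  ub_of_lev_gate (S := S5X)
    (Ψl := fun i lam a ps => MidX π h (SfEV π h e0 r (Bf i) Jf i) lam a ps)
    (top := fun p => top5 (prX p))
    (C₀ := 10) (M := 2) (c := Real.log 2) (c₁ := Real.log 2) (by norm_num)
    (Real.log_pos (by norm_num)) (nT := fun a => nL a.l (a3 a.toBd) a.z)
    (fun q hq => top5_nonneg hA hq.1) (fun q hq => top5_le hA hq.1)
    (fun p p' δ hδ hh => top5_lip _ _ δ hδ fun i => hh (.inl i))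
    (fun X a hX => nLX_le hX a)
    (fun lam a ps => midE_lev π h e0 r Bf Jf nL (hP lam.1) a ps)
    (fun q _ => le_rfl) H

/-- **TailUX from one level, gated** -/
theorem tailUX_of_lev_gate {θ A d β μ : ℝ} (hA : 2 / 3 ≤ A)
    (e0 r : ℝ) (Bf : ℕ → ℝ → ℝ → ℝ → ℝ) (Jf : ℝ → ℝ → ℝ → Finset (Eis × Eis))
    (H : ∀ R : Λ → ℝ, (∀ lam, 0 ≤ R lam) → UB (lev (Real.log 2) S5X) Dq
      (fun lam a ps => if a.2 < nL a.1.l (a3 a.1.toBd) a.1.z then
        TailSX π h (SfEV π h e0 r (Bf a.2) Jf a.2) R lam a.1 ps else 0)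
      (SqLX A d β) (alL alX) fun q => T5 θ (prQ (dn q.1, q.2)) - μ) :
    TailUX π h θ (SfE π h e0 r Bf Jf nL) A d β μ := fun R hR =>
  ub_of_lev_gate (S := S5X)
    (Ψl := fun i lam a ps => TailSX π h (SfEV π h e0 r (Bf i) Jf i) R lam a ps)
    (top := fun p => top5 (prX p))
    (C₀ := 10) (M := 2) (c := Real.log 2) (c₁ := Real.log 2) (by norm_num)
    (Real.log_pos (by norm_num)) (nT := fun a => nL a.l (a3 a.toBd) a.z)
    (fun q hq => top5_nonneg hA hq.1) (fun q hq => top5_le hA hq.1)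
    (fun p p' δ hδ hh => top5_lip _ _ δ hδ fun i => hh (.inl i))
    (fun X a hX => nLX_le hX a)
    (fun lam a ps => tailE_lev π h e0 r Bf Jf nL R lam a ps)
    (fun q _ => le_rfl) (H R hR)

/-- **the official window is full** -/
theorem JS_full {n : ℕ} {d j : Eis} (hd : IsPrim d) (hs : Squarefree d) (hj : JC j)
    (h : (nm (j * d ^ 2) : ℝ) ≤ 2 ^ n) : (d, j) ∈ JS n := by
  classical
  have hj0 : j ≠ 0 := by
    obtain ⟨c, hc, j', hj', -, rfl⟩ := hj
    refine mul_ne_zero ?_ hj'.ne_zero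
    have h3 : (3 : Eis) ≠ 0 := by
      intro h0
      have := congrArg nm h0
      revert this
      decide
    have hw : (w : Eis) ≠ 0 := by
      intro h0
      have := congrArg nm h0
      revert this
      decide
    rcases hc with rfl | rfl | rfl | rfl
    · exact one_ne_zero
    · exact h3
    · exact mul_ne_zero h3 hw
    · exact mul_ne_zero h3 (pow_ne_zero _ hw)
  have nj : (1 : ℝ) ≤ nm j := by exact_mod_cast nm_pos.2 hj0
  have nd : (1 : ℝ) ≤ nm d := by exact_mod_cast nm_pos.2 hd.ne_zero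
  have e : (nm (j * d ^ 2) : ℝ) = nm j * (nm d : ℝ) ^ 2 := by
    rw [nm_mul, nm_pow]; push_cast; ring
  rw [e] at h
  have h1 : (nm j : ℝ) ≤ 2 ^ n := by nlinarith [one_le_pow₀ nd (n := 2)]
  have h2 : (nm d : ℝ) ^ 2 ≤ 2 ^ n := by nlinarith [sq_nonneg (nm d : ℝ)]
  unfold JS JW
  rw [mem_filter, mem_product, mem_primBall, mem_ball]
  refine ⟨⟨⟨?_, hd⟩, ?_⟩, hs, hj, ?_, ?_⟩
  · exact Nat.le_floor (Real.le_sqrt_of_sq_le h2)
  · exact Nat.le_floor h1
  · simp only [e]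
    nlinarith [one_le_pow₀ nd (n := 2)]
  · simp only [e]
    exact h

/-- helper92's `hJfull` for the official window -/
theorem hJfull_JS : ∀ l N z d j, IsPrim d → Squarefree d → JC j →
    (nm (j * d ^ 2) : ℝ) ≤ 2 ^ nL l N z → (d, j) ∈ (fun l N z => JS (nL l N z)) l N z :=
  fun _ _ _ _ _ hd hs hj h => JS_full hd hs hj h

end Crest.Agent.R017.E5L3770

end
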