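import Crest.Agent.R017.E5A2_71
import Crest.Agent.R017.E5L3_770

/-!
# Row 17, StrU: the blocks outside the band by the plain square (helper319)

* `mid_hi` : `MidF` of any structured function by Cauchy with share `0` and the tail
* `midF_sub`, `tailS_sub` : subadditivity
* `key_exp0` : the exponents
* `rest_of` : `StrU` at one level on a domain, from a second structured function, the second
  moment of the difference and the tails
* `strU_of_band` : finitely many bands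
-/

set_option autoImplicit false

noncomputable section

open Finset
open scoped ComplexConjugate

namespace Crest.Agent.R017.E5H319

open Crest.Agent.R012 Crest.Agent.R012.Eis
open Crest.Agent.R012.Mob705 hiding pb mem_pb
open Crest.Agent.R017.CM106
open Crest.Agent.R012.Div277 (dvs tau mem_dvs)
open Crest.Agent.R017.FE47 (SM)
open Crest.Agent.R017.XG702 (Pcs Good_mono)
open Crest.Agent.R017.XT71 (Sys Win mx one_le_mx)
open Crest.Agent.R017.XF71 (const_le_rpow)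
open Crest.Agent.R017.UM71
open Crest.Agent.R017.HP842 (Pc pc)
open Crest.Agent.R017.B770 Crest.Agent.R017.Prov71
open Crest.Agent.R017.E5B71 Crest.Agent.R017.E5P571 Crest.Agent.R017.E5L770
open Crest.Agent.R017.R8C918 (Al)

/-! ### multiplicity -/

open Classical in
/-- the multiplicity of `q² g ∣ k` -/
lemma sum_AS2_le {n : Eis} {X : ℕ} {T : ℝ} (hT0 : 0 ≤ T)
    (hT : ∀ k, IsPrim k → nm k ≤ X → (tau k : ℝ) ≤ T) (F : Eis → ℂ) {D G : Finset Eis}
    (hD : ∀ q ∈ D, IsPrim q) (hG : ∀ g ∈ G, IsPrim g) :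
    ∑ q ∈ D, ∑ g ∈ G, AS n X F (q ^ 2 * g) ≤ T ^ 2 * ∑ k ∈ PB n X, ‖F k‖ := by
  have e1 : ∀ s, AS n X F s = ∑ k ∈ PB n X, if s ∣ k then ‖F k‖ else 0 := by
    intro s
    unfold AS
    rw [← sum_filter]
    refine sum_congr ?_ fun _ _ => rfl
    ext k
    simp only [mem_filter, PB, and_assoc]
  simp only [e1]
  have e2 : ∑ q ∈ D, ∑ g ∈ G, ∑ k ∈ PB n X, (if q ^ 2 * g ∣ k then ‖F k‖ else 0) =
      ∑ k ∈ PB n X, ∑ q ∈ D, ∑ g ∈ G, (if q ^ 2 * g ∣ k then ‖F k‖ else 0) := by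
    rw [sum_congr rfl fun q _ => sum_comm, sum_comm]
  rw [e2, mul_sum]
  refine sum_le_sum fun k hk => ?_
  rw [mem_PB] at hk
  have hc : ∀ D' : Finset Eis, (∀ q ∈ D', IsPrim q ∧ q ∣ k) → (D'.card : ℝ) ≤ T := by
    intro D' h
    refine le_trans ?_ (hT k hk.2.1 hk.1)
    have h1 : D' ⊆ dvs k := fun q hq => (mem_dvs hk.2.1.ne_zero).2 (h q hq)
    have h2 := card_le_card h1
    unfold tau
    exact_mod_cast h2
  have h1 : ∀ q ∈ D, ∑ g ∈ G, (if q ^ 2 * g ∣ k then ‖F k‖ else 0) ≤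
      if q ∣ k then T * ‖F k‖ else 0 := by
    intro q _
    split_ifs with hqk
    · rw [← sum_filter, sum_const, nsmul_eq_mul]
      refine mul_le_mul_of_nonneg_right (hc _ fun g hg => ?_) (norm_nonneg _)
      rw [mem_filter] at hg
      exact ⟨hG g hg.1, (dvd_mul_left g (q ^ 2)).trans hg.2⟩
    · refine le_of_eq (sum_eq_zero fun g _ => if_neg fun hg => hqk ?_)
      exact ((dvd_pow_self q (by norm_num)).trans (dvd_mul_right _ _)).trans hg
  refine (sum_le_sum h1).trans ?_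
  rw [← sum_filter, sum_const, nsmul_eq_mul, pow_two, mul_assoc]
  refine mul_le_mul_of_nonneg_right (hc _ fun q hq => ?_) (by positivity)
  rw [mem_filter] at hq
  exact ⟨hD q hq.1, hq.2⟩

section
variable {Λ : Type*} (π : Λ → DPar) (h : ℝ → ℝ)

open Classical in
/-- **the second moment of a structured function** over the cut, no amplifier (= 54's `HiF`) -/
def HiG (Sf : SF Λ) (R : Λ → ℝ) (lam : Λ × Eis) (a : Bd) : ℝ :=
  if a.ok ∧ lam.2 ∈ SM (π lam.1).n then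
    ∑ k ∈ (PB (π lam.1).n ⌊Real.exp (a.l + R lam.1)⌋₊).filter
        (fun k => cutE (Real.exp (a.l / 20)) k ∧ Real.exp (a.l - R lam.1) ≤ nm k),
      ‖Sf.at lam a k‖ ^ 2
  else 0

/-- the difference of two structured functions -/
def subS (S1 S2 : SF Λ) : SF Λ := fun lam t l us z k => S1 lam t l us z k - S2 lam t l us z k

lemma at_subS (S1 S2 : SF Λ) (lam : Λ × Eis) (a : Bd) (k : Eis) :
    (subS S1 S2).at lam a k = S1.at lam a k - S2.at lam a k := rfl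

end

section
variable {Λ : Type*} {π : Λ → DPar} {h : ℝ → ℝ}

lemma tailS_nonneg (Sf : SF Λ) (R : Λ → ℝ) (lam : Λ × Eis) (a : Bd) (ps : List Pq) :
    0 ≤ TailS π h Sf R lam a ps := by
  unfold TailS
  split_ifs
  exacts [sum_nonneg fun _ _ => by positivity, le_rfl]

lemma momF_nonneg (R : Λ → ℝ) (lam : Λ × Eis) (a : Bd) (ps : List Pq) :
    0 ≤ MomF π h R lam a ps := by
  unfold MomF
  split_ifs
  exacts [sum_nonneg fun _ _ => by positivity, le_rfl]

lemma hiG_nonneg (Sf : SF Λ) (R : Λ → ℝ) (lam : Λ × Eis) (a : Bd) : 0 ≤ HiG π Sf R lam a := by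
  unfold HiG
  split_ifs
  exacts [sum_nonneg fun _ _ => by positivity, le_rfl]

/-- the tail of a difference -/
lemma tailS_sub (S1 S2 : SF Λ) (R : Λ → ℝ) (lam : Λ × Eis) (a : Bd) (ps : List Pq) :
    TailS π h (subS S1 S2) R lam a ps ≤ TailS π h S1 R lam a ps + TailS π h S2 R lam a ps := by
  unfold TailS
  split_ifs
  · rw [← sum_add_distrib]
    refine sum_le_sum fun k _ => ?_
    rw [← add_mul, at_subS]
    exact mul_le_mul_of_nonneg_right (norm_sub_le _ _) (by positivity)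
  · simp

/-- the middle term of a sum -/
lemma midF_sub {lam : Λ × Eis} (hP : (π lam.1).OK) (S1 S2 : SF Λ) (a : Bd) (ps : List Pq) :
    MidF π h S1 lam a ps ≤ MidF π h S2 lam a ps + MidF π h (subS S1 S2) lam a ps := by
  obtain ⟨R, CU, hR, hCU, hsupp, hbd⟩ := wp_bd hP
  have hW : ∀ k, Wt (π lam.1) a k ≠ 0 → nm k ≤ ⌊Real.exp R * Real.exp a.l⌋₊ := fun k hk =>
    Nat.le_floor (hsupp a.τ (Real.exp a.l) k (Real.exp_pos _) hk).1
  unfold MidF
  split_ifs
  · rw [← sum_add_distrib]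
    refine sum_le_sum fun q _ => ?_
    rw [← sum_add_distrib]
    refine sum_le_sum fun g _ => ?_
    have e : (fun k => S1.at lam a k * BB h ((bs2 a ps).map (Pt (π lam.1) lam.2))
        ((amL ps).map (Pt (π lam.1) lam.2)) [] k) = fun k =>
        S2.at lam a k * BB h ((bs2 a ps).map (Pt (π lam.1) lam.2))
          ((amL ps).map (Pt (π lam.1) lam.2)) [] k +
        (subS S1 S2).at lam a k * BB h ((bs2 a ps).map (Pt (π lam.1) lam.2))
          ((amL ps).map (Pt (π lam.1) lam.2)) [] k := by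
      funext k
      rw [at_subS]
      ring
    rw [e, MS_add hW]
    exact norm_add_le _ _
  · simp

open Classical in
/-- **the plain square with share `0`** -/
theorem mid_hi {ε : ℝ} (hε : 0 < ε) : ∃ C : ℝ, 0 ≤ C ∧ ∀ (lam : Λ × Eis),
    ∀ (R : Λ → ℝ) (CU : ℝ), 1 ≤ CU →
    (∀ (τ H : ℝ) (k : Eis), 0 < H → SU770.DPar.wp (π lam.1) τ H k ≠ 0 →
      (nm k : ℝ) ≤ Real.exp (R lam.1) * H ∧ Real.exp (-R lam.1) * H ≤ nm k) →
    (∀ (τ H : ℝ) (k : Eis), IsPrim k → ‖SU770.DPar.wp (π lam.1) τ H k‖ ≤ CU) →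
    ∀ (Sf : SF Λ) (a : Bd) (ps : List Pq), 0 ≤ a.l + R lam.1 →
      MidF π h Sf lam a ps ≤ CU * (C * Real.exp (a.l + R lam.1) ^ ε *
        (Real.sqrt (HiG π Sf R lam a) * Real.sqrt (MomF π h R lam a (moL ps ++ amL ps)) +
          TailS π h Sf R lam a ps)) := by
  obtain ⟨C, hC, hτ⟩ := Div277.tau_le_rpow (half_pos hε)
  refine ⟨C ^ 2, by positivity, ?_⟩
  intro lam R CU hCU hsupp hbd Sf a ps hl
  have hCU' : 0 ≤ CU := by linarith
  by_cases hok : a.ok ∧ lam.2 ∈ SM (π lam.1).n ∧ a.okP (π lam.1)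
  swap
  · have h0 : MidF π h Sf lam a ps = 0 := by unfold MidF; rw [if_neg hok]
    rw [h0]
    have := tailS_nonneg (π := π) (h := h) Sf R lam a ps
    positivity
  set P := π lam.1 with hPdef
  set t := lam.2 with ht
  set W : Eis → ℂ := Wt P a with hWdef
  set W' : Eis → ℂ := fun k => if IsPrim k then W k / CU else 0 with hW'
  have hCU0 : (CU : ℂ) ≠ 0 := by
    have : (0 : ℝ) < CU := by linarith
    exact_mod_cast this.ne'
  have hWW : ∀ k, IsPrim k → IsCoprime k P.n → W k = (CU : ℂ) * W' k := by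
    intro k hk _
    simp only [hW', if_pos hk]
    field_simp
  set Kx := Real.exp (a.l + R lam.1) with hKx
  have hKx1 : 1 ≤ Kx := Real.one_le_exp hl
  have hW1 : ∀ k, W' k ≠ 0 → nm k ≤ ⌊Kx⌋₊ := by
    intro k hk
    have h1 : W k ≠ 0 := by
      intro h0
      apply hk
      simp only [hW', h0, zero_div, ite_self]
    have := (hsupp a.τ (Real.exp a.l) k (Real.exp_pos _) h1).1
    rw [← Real.exp_add, add_comm] at this
    exact Nat.le_floor this
  have hWlow : ∀ k, ¬ Real.exp (a.l - R lam.1) ≤ nm k → W k = 0 := by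
    intro k hk
    by_contra h1
    have := (hsupp a.τ (Real.exp a.l) k (Real.exp_pos _) h1).2
    rw [← Real.exp_add, neg_add_eq_sub] at this
    exact hk this
  have hW2 : ∀ k, ‖W' k‖ ≤ 1 := by
    intro k
    simp only [hW']
    split_ifs with hk
    · have hCn : ‖(CU : ℂ)‖ = CU := by
        rw [Complex.norm_real, Real.norm_eq_abs, abs_of_nonneg (by linarith)]
      rw [norm_div, hCn, div_le_one (by linarith)]
      exact hbd a.τ (Real.exp a.l) k hk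
    · simp
  set B : Eis → ℂ := BB h ((bs2 a ps).map (Pt P t)) ((amL ps).map (Pt P t)) [] with hB
  set F : Eis → ℂ := fun k => if Real.exp (a.l - R lam.1) ≤ nm k then Sf.at lam a k * B k else 0
    with hF
  have hd3 : a.d₃ ≠ 0 := hok.1.2.2
  have hBn : ∀ k, ‖B k‖ = ‖PC h ((bs2 a ps).map (Pt P t)) k‖ *
      ‖PC h ((amL ps).map (Pt P t)) k‖ := by
    intro k
    rw [hB, norm_BB, List.append_nil]
  -- pointwise
  have hms : ∀ s, ‖MS P.n W a.e (fun k => Sf.at lam a k * B k) s‖ ≤ CU * AS P.n ⌊Kx⌋₊ F s := by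
    intro s
    have e0 : MS P.n W a.e (fun k => Sf.at lam a k * B k) s = MS P.n W a.e F s := by
      unfold MS
      refine tsum_congr fun k => ?_
      split_ifs with hk
      · by_cases hlo : Real.exp (a.l - R lam.1) ≤ nm k
        · simp only [hF, if_pos hlo]
        · rw [hWlow k hlo]; ring
      · rfl
    rw [e0, MS_congr (c := (CU : ℂ)) a.e F s hWW, norm_mul, Complex.norm_real, Real.norm_eq_abs,
      abs_of_nonneg hCU']
    refine mul_le_mul_of_nonneg_left ?_ hCU'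
    have := norm_MS_le (n := P.n) (e := a.e) hW1 hW2 F s
    rwa [one_mul] at this
  have hT : ∀ k, IsPrim k → nm k ≤ ⌊Kx⌋₊ → (tau k : ℝ) ≤ C * Kx ^ (ε / 2) := by
    intro k hk hkX
    refine (hτ k hk.ne_zero).trans ?_
    have h1 : (nm k : ℝ) ≤ Kx := (Nat.cast_le.2 hkX).trans (Nat.floor_le (by linarith))
    gcongr
  have hC0 : 0 ≤ C := by linarith
  have hsum := sum_AS2_le (n := P.n) (T := C * Kx ^ (ε / 2)) (by positivity) hT F
    (D := a.𝒟.filter fun q => IsCoprime q a.d₃) (G := Gd P.n a.d₃)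
    (fun q hq => (hok.2.2.2.2 q (mem_filter.1 hq).1).1.1)
    (fun g hg => ((mem_Gd hd3).mp hg).1.prim)
  have hT2 : (C * Kx ^ (ε / 2)) ^ 2 = C ^ 2 * Kx ^ ε := by
    rw [mul_pow, ← Real.rpow_natCast (Kx ^ (ε / 2)), ← Real.rpow_mul (by linarith)]
    congr 2
    push_cast
    ring
  rw [hT2] at hsum
  -- the sum over the family
  have hsplit : ∑ k ∈ PB P.n ⌊Kx⌋₊, ‖F k‖ ≤
      Real.sqrt (HiG π Sf R lam a) * Real.sqrt (MomF π h R lam a (moL ps ++ amL ps)) +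
          TailS π h Sf R lam a ps := by
    rw [← sum_filter_add_sum_filter_not (PB P.n ⌊Kx⌋₊) (cutN P t a.l)]
    refine add_le_add ?_ ?_
    · have h1 : ∑ k ∈ (PB P.n ⌊Kx⌋₊).filter (cutN P t a.l), ‖F k‖ =
          ∑ k ∈ (PB P.n ⌊Kx⌋₊).filter (cutN P t a.l),
            (if Real.exp (a.l - R lam.1) ≤ nm k then ‖Sf.at lam a k‖ else 0) * ‖B k‖ := by
        refine sum_congr rfl fun k _ => ?_
        simp only [hF]
        split_ifs
        · rw [norm_mul]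
        · rw [norm_zero, zero_mul]
      rw [h1]
      refine (Real.sum_mul_le_sqrt_mul_sqrt _ _ _).trans ?_
      refine mul_le_mul (Real.sqrt_le_sqrt ?_) (Real.sqrt_le_sqrt ?_) (Real.sqrt_nonneg _)
        (Real.sqrt_nonneg _)
      · unfold HiG
        rw [if_pos ⟨hok.1, hok.2.1⟩]
        have e1 : ∑ k ∈ (PB P.n ⌊Kx⌋₊).filter (cutN P t a.l),
            (if Real.exp (a.l - R lam.1) ≤ nm k then ‖Sf.at lam a k‖ else 0) ^ 2 =
            ∑ k ∈ ((PB P.n ⌊Kx⌋₊).filter (cutN P t a.l)).filter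
              (fun k => Real.exp (a.l - R lam.1) ≤ nm k), ‖Sf.at lam a k‖ ^ 2 := by
          rw [sum_filter (s := (PB P.n ⌊Kx⌋₊).filter (cutN P t a.l))]
          refine sum_congr rfl fun k _ => ?_
          split_ifs
          · rfl
          · norm_num
        rw [e1]
        refine sum_le_sum_of_subset_of_nonneg ?_ fun _ _ _ => by positivity
        intro k hk
        rw [mem_filter, mem_filter] at hk
        rw [mem_filter]
        exact ⟨hk.1.1, hk.1.2.1, hk.2⟩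
      · unfold MomF
        rw [if_pos ⟨hok.1, hok.2.1⟩]
        calc ∑ k ∈ (PB P.n ⌊Kx⌋₊).filter (cutN P t a.l), ‖B k‖ ^ 2
            = ∑ k ∈ (PB P.n ⌊Kx⌋₊).filter (cutN P t a.l),
              ‖PC h ((a.us 0 :: a.us 1 :: (moL ps ++ amL ps)).map (Pt P t)) k‖ ^ 2 := by
              refine sum_congr rfl fun k _ => ?_
              rw [hBn, ← norm_mul, ← PC_append, ← List.map_append]
              rfl
          _ ≤ _ := by
              refine sum_le_sum_of_subset_of_nonneg ?_ fun _ _ _ => by positivity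
              intro k hk
              rw [mem_filter] at hk ⊢
              exact ⟨hk.1, hk.2.2⟩
    · unfold TailS
      rw [if_pos ⟨hok.1, hok.2.1⟩]
      have e1 : ∑ k ∈ (PB P.n ⌊Kx⌋₊).filter (fun k => ¬ cutN P t a.l k), ‖F k‖ =
          ∑ k ∈ ((PB P.n ⌊Kx⌋₊).filter (fun k => ¬ cutN P t a.l k)).filter
            (fun k => Real.exp (a.l - R lam.1) ≤ nm k), ‖Sf.at lam a k‖ * ‖B k‖ := by
        rw [sum_filter (s := (PB P.n ⌊Kx⌋₊).filter (fun k => ¬ cutN P t a.l k))]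
        refine sum_congr rfl fun k _ => ?_
        simp only [hF]
        split_ifs
        · rw [norm_mul]
        · rw [norm_zero]
      rw [e1, filter_filter]
      refine le_of_eq (sum_congr rfl fun k _ => ?_)
      rw [hBn]
  -- conclusion
  have hmid : MidF π h Sf lam a ps ≤ ∑ q ∈ a.𝒟.filter (fun q => IsCoprime q a.d₃),
      ∑ g ∈ Gd P.n a.d₃, CU * AS P.n ⌊Kx⌋₊ F (q ^ 2 * g) := by
    unfold MidF
    rw [if_pos hok]
    exact sum_le_sum fun q _ => sum_le_sum fun g _ => hms _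
  refine hmid.trans ?_
  simp_rw [← mul_sum]
  refine mul_le_mul_of_nonneg_left (hsum.trans ?_) hCU'
  exact mul_le_mul_of_nonneg_left hsplit (by positivity)

end

/-! ### the exponents -/

/-- budget of the blocks outside the band -/
def LR (d : ℝ) (p : Fin 3 ⊕ Fin 5 → ℝ) : ℝ :=
  max 0 (5 / 4 * cN p - cκ p) - 3 / 4 * cx' p + 3 / 4 * d * cκ p

theorem key_exp0 {A d : ℝ} {p : Fin 3 ⊕ Fin 5 → ℝ} {w v : Kd → ℝ} (hs : Sq5 A d p w)
    (hd : 0 ≤ d) (hv : v .mo = w .mo) (hv' : v .am = w .am) :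
    (cκ p + cN p + LR d p + E2x d (upx p 0, v)) / 2 ≤ T5 (7 / 8 + d) (p, w) - d / 9 := by
  have hκ := hs.κpos
  have hk : cκ p ≠ 0 := hκ.ne'
  have hx := hs.x0
  have h1 := mul_le_mul_of_nonneg_left hs.sq2 hκ.le
  have h2 := Al_le (d := d) (q := cN p + cM p + w .mo) (c := w .am) hκ
  have e0 : cN p / cκ p + cM p / cκ p + w .mo / cκ p = (cN p + cM p + w .mo) / cκ p := by
    field_simp
  rw [e0] at h1
  have e1 : cκ p * (3 / 4 * max 0 (w .mo / cκ p + w .am / cκ p - cx' p / cκ p -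
      7 / 9 * (1 - cM p / cκ p))) = 3 / 4 * max 0 (w .mo + w .am - cx' p -
      7 / 9 * (cκ p - cM p)) := by
    rw [mul_left_comm, mul_max_of_nonneg _ _ hκ.le, mul_zero]
    congr 3
    field_simp
  have e2 : cκ p * max 0 (5 / 4 * (cN p / cκ p) - 1) = max 0 (5 / 4 * cN p - cκ p) := by
    rw [mul_max_of_nonneg _ _ hκ.le, mul_zero]
    congr 1
    field_simp
  have e3 : cκ p * (2 * d * (w .mo / cκ p + w .am / cκ p)) = 2 * d * (w .mo + w .am) := by
    field_simp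
  rw [mul_add, mul_add, e1, e2, e3] at h1
  have e5 : cκ p * (Al d (1 / cκ p) ((cN p + cM p + w .mo) / cκ p) (w .am / cκ p) - d) =
      cκ p * Al d (1 / cκ p) ((cN p + cM p + w .mo) / cκ p) (w .am / cκ p) - cκ p * d := by
    ring
  rw [e5] at h1
  have hκ9 : 8 / 9 * (d / 4) ≤ cκ p * (1 / 4 * d) := by
    have := mul_le_mul_of_nonneg_right hs.κ0 (by linarith : 0 ≤ d / 4)
    linarith
  have e6 : max 0 (w .mo + w .am - 7 / 9 * (cκ p - cM p)) ≤
      max 0 (w .mo + w .am - cx' p - 7 / 9 * (cκ p - cM p)) + cx' p := by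
    refine max_le (add_nonneg (le_max_left _ _) hx) ?_
    have := le_max_right 0 (w .mo + w .am - cx' p - 7 / 9 * (cκ p - cM p))
    linarith
  unfold E2x T5 LR
  simp only [hv, hv', cκ_upx, cM_upx]
  linarith

/-! ### unions -/

section
variable {T Pc' ι τ Λ : Type*} [DecidableEq τ]

theorem ub_empty (S : Sys T ι) (D : Pcs Pc' τ) (Ψ : Λ → T → List Pc' → ℝ)
    (al : Set ((ι → ℝ) × ℝ)) (E : (ι → ℝ) × (τ → ℝ) → ℝ) : UB S D Ψ ∅ al E := by
  intro ε _
  refine ⟨1, one_pos, fun lam N B => ⟨1, one_pos, 2, by norm_num, ?_⟩⟩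
  intro X _ a ps _ _ q hq
  exact absurd hq (Set.notMem_empty _)

theorem ub_sub {S : Sys T ι} {D : Pcs Pc' τ} {Ψ : Λ → T → List Pc' → ℝ}
    {Dom Dom' : Set ((ι → ℝ) × (τ → ℝ))} {al : Set ((ι → ℝ) × ℝ)}
    {E : (ι → ℝ) × (τ → ℝ) → ℝ} (h : UB S D Ψ Dom al E) (hs : Dom' ⊆ Dom) :
    UB S D Ψ Dom' al E := by
  intro ε hε
  obtain ⟨δ, hδ, H⟩ := h ε hε
  refine ⟨δ, hδ, fun lam N B => ?_⟩
  obtain ⟨δ', hδ', X₀, hX₀, H'⟩ := H lam N B
  exact ⟨δ', hδ', X₀, hX₀, fun X hX a ps h1 h2 q hq => H' X hX a ps h1 h2 q (hs hq)⟩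

theorem ub_union {S : Sys T ι} {D : Pcs Pc' τ} {Ψ : Λ → T → List Pc' → ℝ}
    {Dom Dom' : Set ((ι → ℝ) × (τ → ℝ))} {al : Set ((ι → ℝ) × ℝ)}
    {E : (ι → ℝ) × (τ → ℝ) → ℝ} (h : UB S D Ψ Dom al E) (h' : UB S D Ψ Dom' al E) :
    UB S D Ψ (Dom ∪ Dom') al E := by
  intro ε hε
  obtain ⟨δ1, hδ1, H1⟩ := h ε hε
  obtain ⟨δ2, hδ2, H2⟩ := h' ε hε
  refine ⟨min δ1 δ2, lt_min hδ1 hδ2, fun lam N B => ?_⟩
  obtain ⟨r1, hr1, X1, hX1, K1⟩ := H1 lam N B
  obtain ⟨r2, hr2, X2, hX2, K2⟩ := H2 lam N B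
  refine ⟨min r1 r2, lt_min hr1 hr2, max X1 X2, lt_of_lt_of_le hX1 (le_max_left _ _), ?_⟩
  intro X hX a ps hlen hl q hq hw hm hg hal
  have hX1' : 1 ≤ X := hX1.le.trans ((le_max_left _ _).trans hX)
  rcases hq with hq | hq
  · exact K1 X ((le_max_left _ _).trans hX) a ps hlen
      (fun p hp => (hl p hp).imp id fun h => h.trans (min_le_left _ _)) q hq
      (hw.mono hX1' (min_le_left _ _) le_rfl le_rfl (min_le_left _ _))
      (fun t => (hm t).trans (min_le_left _ _)) (Good_mono hX1' hg (min_le_left _ _)) hal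
  · exact K2 X ((le_max_right _ _).trans hX) a ps hlen
      (fun p hp => (hl p hp).imp id fun h => h.trans (min_le_right _ _)) q hq
      (hw.mono hX1' (min_le_right _ _) le_rfl le_rfl (min_le_right _ _))
      (fun t => (hm t).trans (min_le_right _ _)) (Good_mono hX1' hg (min_le_right _ _)) hal

theorem ub_range {S : Sys T ι} {D : Pcs Pc' τ} {Ψ : Λ → T → List Pc' → ℝ}
    {Dom : ℕ → Set ((ι → ℝ) × (τ → ℝ))} {al : Set ((ι → ℝ) × ℝ)}
    {E : (ι → ℝ) × (τ → ℝ) → ℝ} (J : ℕ) (h : ∀ j < J, UB S D Ψ (Dom j) al E) :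
    UB S D Ψ {q | ∃ j < J, q ∈ Dom j} al E := by
  induction J with
  | zero =>
    refine ub_sub (ub_empty S D Ψ al E) ?_
    rintro q ⟨j, hj, -⟩
    omega
  | succ J ih =>
    refine ub_sub (ub_union (ih fun j hj => h j (by omega)) (h J (by omega))) ?_
    rintro q ⟨j, hj, hq⟩
    rcases Nat.lt_succ_iff_lt_or_eq.1 hj with h1 | rfl
    · exact Or.inl ⟨j, h1, hq⟩
    · exact Or.inr hq

/-- a bound for the empty list -/
theorem ub_nil {S : Sys T ι} {D : Pcs Pc' τ} {Ψ : Λ → T → ℝ}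
    {Dom : Set ((ι → ℝ) × (τ → ℝ))} {al : Set ((ι → ℝ) × ℝ)} {E : (ι → ℝ) × (τ → ℝ) → ℝ}
    (h : UB S D (fun lam a _ => Ψ lam a) Dom al E) :
    ∀ ε : ℝ, 0 < ε → ∃ δ : ℝ, 0 < δ ∧ ∀ (lam : Λ) (N : ℕ) (B : ℝ), ∃ δ' : ℝ, 0 < δ' ∧
      ∃ X₀ : ℝ, 1 < X₀ ∧ ∀ X : ℝ, X₀ ≤ X → ∀ (a : T), ∀ p : ι → ℝ, (p, fun _ => 0) ∈ Dom →
        Win S p δ N B δ' X a → Ψ lam a ≤ X ^ (E (p, fun _ => 0) + ε) := by
  intro ε hε
  obtain ⟨δ, hδ, H⟩ := h ε hε
  refine ⟨δ, hδ, fun lam N B => ?_⟩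
  obtain ⟨δ', hδ', X₀, hX₀, H'⟩ := H lam N B
  refine ⟨δ', hδ', X₀, hX₀, fun X hX a p hp hw => ?_⟩
  refine H' X hX a [] (Nat.zero_le _) (by simp) (p, fun _ => 0) hp hw (fun t => ?_)
    (fun _ hp => absurd hp (List.not_mem_nil)) (by simp)
  have : D.mass X [] t = 0 := by simp [Pcs.mass]
  rw [this, sub_zero, abs_zero]
  exact hδ.le

end

/-! ### one band -/

section
variable {Λ : Type*} {π : Λ → DPar} {h : ℝ → ℝ}

lemma win_dn {c : ℝ} {p : Option (Fin 3 ⊕ Fin 5) → ℝ} {δ : ℝ} {N : ℕ} {B ρ X : ℝ} {a : Bd × ℕ}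
    (hw : Win (lev c S5) p δ N B ρ X a) : Win S5 (dn p) δ N B ρ X a.1 :=
  ⟨fun i => hw.ev (some i), hw.g, hw.n, hw.s₁, hw.s₂⟩

lemma momF_setz (R : Λ → ℝ) (lam : Λ × Eis) (a : Bd) (ps : List Pq) :
    MomF π h R lam a ps ≤ MomF π h R lam (a.setz 0) ps := by
  by_cases hok : a.ok ∧ lam.2 ∈ SM (π lam.1).n
  · have hok' : (a.setz 0).ok ∧ lam.2 ∈ SM (π lam.1).n := ⟨⟨hok.1.1, le_rfl, hok.1.2.2⟩, hok.2⟩
    unfold MomF
    rw [if_pos hok, if_pos hok']
    rfl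
  · have : MomF π h R lam a ps = 0 := by unfold MomF; rw [if_neg hok]
    rw [this]
    exact momF_nonneg R lam _ ps

/-- **one band**: the first structured function from the second one, the second moment of the
difference and the tails -/
theorem rest_of (hP : ∀ lam, (π lam).OK) {A d μ μ' : ℝ} (hd : 0 ≤ d) (hμ : μ' ≤ μ)
    (hμd : μ' ≤ d / 9) {S1 S2 : ℕ → SF Λ}
    {Dom DomH : Set ((Option (Fin 3 ⊕ Fin 5) → ℝ) × (Kd → ℝ))} (hDom : Dom ⊆ SqL A d)
    (hDH : ∀ q ∈ Dom, (q.1, fun _ => (0 : ℝ)) ∈ DomH)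
    {al' : Set ((Option (Fin 3 ⊕ Fin 5) → ℝ) × ℝ)}
    (H2 : UB (lev (Real.log 2) S5) Dq
      (fun lam a ps => if a.2 < nL a.1.l (a3 a.1) a.1.z then
        MidF π h (S2 a.2) lam a.1 ps else 0) Dom (alL al5)
      fun q => T5 (7 / 8 + d) (dn q.1, q.2) - μ)
    (HH : ∀ R : Λ → ℝ, (∀ lam, 0 ≤ R lam) → UB (lev (Real.log 2) S5) Dq
      (fun lam (a : Bd × ℕ) _ => HiG π (subS (S1 a.2) (S2 a.2)) R lam a.1) DomH al'
      fun q => cκ (dn q.1) + cN (dn q.1) + LR d (dn q.1))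
    (HT1 : ∀ R : Λ → ℝ, (∀ lam, 0 ≤ R lam) → UB (lev (Real.log 2) S5) Dq
      (fun lam a ps => if a.2 < nL a.1.l (a3 a.1) a.1.z then
        TailS π h (S1 a.2) R lam a.1 ps else 0) Dom (alL al5)
      fun q => T5 (7 / 8 + d) (dn q.1, q.2) - μ)
    (HT2 : ∀ R : Λ → ℝ, (∀ lam, 0 ≤ R lam) → UB (lev (Real.log 2) S5) Dq
      (fun lam a ps => if a.2 < nL a.1.l (a3 a.1) a.1.z then
        TailS π h (S2 a.2) R lam a.1 ps else 0) Dom (alL al5)
      fun q => T5 (7 / 8 + d) (dn q.1, q.2) - μ)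
    (hm : MomU π h A d) :
    UB (lev (Real.log 2) S5) Dq
      (fun lam a ps => if a.2 < nL a.1.l (a3 a.1) a.1.z then
        MidF π h (S1 a.2) lam a.1 ps else 0) Dom (alL al5)
      fun q => T5 (7 / 8 + d) (dn q.1, q.2) - μ' := by
  intro ε hε
  choose R CU hR hCU hsupp hbd using fun lam => wp_bd (hP lam)
  obtain ⟨C, hC, key⟩ := mid_hi (π := π) (h := h) (ε := ε / 8) (by linarith)
  have hε4 : 0 < ε / 4 := by linarith
  obtain ⟨δ1, hδ1, K1⟩ := H2 (ε / 4) hε4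
  obtain ⟨δ2, hδ2, K2⟩ := ub_nil (HH R hR) (ε / 4) hε4
  obtain ⟨δ3, hδ3, K3⟩ := HT1 R hR (ε / 4) hε4
  obtain ⟨δ4, hδ4, K4⟩ := HT2 R hR (ε / 4) hε4
  obtain ⟨δ5, hδ5, K5⟩ := hm R hR (ε / 4) hε4
  set D := min (min (min δ1 δ2) (min δ3 δ4)) (min δ5 (1 / 2)) with hDdef
  have hD : 0 < D := lt_min (lt_min (lt_min hδ1 hδ2) (lt_min hδ3 hδ4))
    (lt_min hδ5 (by norm_num))
  have hD1 : D ≤ δ1 := (min_le_left _ _).trans ((min_le_left _ _).trans (min_le_left _ _))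
  have hD2 : D ≤ δ2 := (min_le_left _ _).trans ((min_le_left _ _).trans (min_le_right _ _))
  have hD3 : D ≤ δ3 := (min_le_left _ _).trans ((min_le_right _ _).trans (min_le_left _ _))
  have hD4 : D ≤ δ4 := (min_le_left _ _).trans ((min_le_right _ _).trans (min_le_right _ _))
  have hD5 : D ≤ δ5 := (min_le_right _ _).trans (min_le_left _ _)
  have hDh : D ≤ 1 / 2 := (min_le_right _ _).trans (min_le_right _ _)
  refine ⟨D, hD, fun lam N B => ?_⟩
  obtain ⟨ρ1, hρ1, X1, hX1, L1⟩ := K1 lam N B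
  obtain ⟨ρ2, hρ2, X2, hX2, L2⟩ := K2 lam N B
  obtain ⟨ρ3, hρ3, X3, hX3, L3⟩ := K3 lam N B
  obtain ⟨ρ4, hρ4, X4, hX4, L4⟩ := K4 lam N B
  obtain ⟨ρ5, hρ5, X5, hX5, L5⟩ := K5 lam N B
  set ρ := min (min (min ρ1 ρ2) (min ρ3 ρ4)) ρ5 with hρdef
  have hρ : 0 < ρ := lt_min (lt_min (lt_min hρ1 hρ2) (lt_min hρ3 hρ4)) hρ5
  have r1 : ρ ≤ ρ1 := (min_le_left _ _).trans ((min_le_left _ _).trans (min_le_left _ _))
  have r2 : ρ ≤ ρ2 := (min_le_left _ _).trans ((min_le_left _ _).trans (min_le_right _ _))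
  have r3 : ρ ≤ ρ3 := (min_le_left _ _).trans ((min_le_right _ _).trans (min_le_left _ _))
  have r4 : ρ ≤ ρ4 := (min_le_left _ _).trans ((min_le_right _ _).trans (min_le_right _ _))
  have r5 : ρ ≤ ρ5 := min_le_right _ _
  obtain ⟨X7, hX7, L7⟩ := const_le_rpow
    (C := 3 * (CU lam.1 * C * Real.exp (R lam.1) ^ (ε / 8)) + 1) (ε := ε / 4) hε4
  refine ⟨ρ, hρ, max (max (max X1 X2) (max X3 X4)) (max X5 X7),
    lt_of_lt_of_le hX1 ((le_max_left _ _).trans ((le_max_left _ _).trans (le_max_left _ _))), ?_⟩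
  intro X hX a ps hlen hlump q hq hw hmass hgood hal
  have x1 : X1 ≤ X := ((le_max_left _ _).trans ((le_max_left _ _).trans (le_max_left _ _))).trans hX
  have x2 : X2 ≤ X := ((le_max_right _ _).trans ((le_max_left _ _).trans (le_max_left _ _))).trans hX
  have x3 : X3 ≤ X := ((le_max_left _ _).trans ((le_max_right _ _).trans (le_max_left _ _))).trans hX
  have x4 : X4 ≤ X :=
    ((le_max_right _ _).trans ((le_max_right _ _).trans (le_max_left _ _))).trans hX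
  have x5 : X5 ≤ X := ((le_max_left _ _).trans (le_max_right _ _)).trans hX
  have x7 : X7 ≤ X := ((le_max_right _ _).trans (le_max_right _ _)).trans hX
  have hX1' : 1 < X := by linarith
  have hXp : 0 < X := by linarith
  have hlog : 0 < Real.log X := Real.log_pos hX1'
  have hSq : Sq5 A d (dn q.1) q.2 := (hDom hq).1
  set p := dn q.1 with hp
  set w := q.2 with hwq
  have hx0 : 0 ≤ cx' p := hSq.x0
  have hlump' : ∀ δ : ℝ, D ≤ δ → ∀ g ∈ ps, Dq.lump g ∨ Dq.nl X g ≤ δ := fun δ hδ g hg =>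
    (hlump g hg).imp id fun h => h.trans hδ
  set T := T5 (7 / 8 + d) (p, w) with hT
  -- the four bounds at the level
  have b1 := L1 X x1 a ps hlen (hlump' _ hD1) q hq
    (hw.mono hX1'.le hD1 le_rfl le_rfl r1) (fun t => (hmass t).trans hD1)
    (Good_mono hX1'.le hgood r1) hal
  have b2 := L2 X x2 a q.1 (hDH q hq) (hw.mono hX1'.le hD2 le_rfl le_rfl r2)
  have b3 := L3 X x3 a ps hlen (hlump' _ hD3) q hq
    (hw.mono hX1'.le hD3 le_rfl le_rfl r3) (fun t => (hmass t).trans hD3)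
    (Good_mono hX1'.le hgood r3) hal
  have b4 := L4 X x4 a ps hlen (hlump' _ hD4) q hq
    (hw.mono hX1'.le hD4 le_rfl le_rfl r4) (fun t => (hmass t).trans hD4)
    (Good_mono hX1'.le hgood r4) hal
  -- the two-lump side
  have hwz : Win S5 (upx p 0) D N B ρ X (a.1.setz 0) :=
    win_setz (win_dn hw) (by rw [zero_div, sub_zero, abs_zero]; exact hD.le)
  have hmem5 : ∀ g ∈ moL ps ++ amL ps, g ∈ ps := by
    intro g hg
    rcases List.mem_append.1 hg with h2 | h2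
    · exact (mem_moL.1 h2).1
    · exact (mem_amL.1 h2).1
  set v : Kd → ℝ := fun t => match t with | .mo => w .mo | .am => w .am with hv
  have hvN : (upx p 0, v) ∈ MoD A := by
    refine ⟨?_, ?_, ?_, ?_, hSq.κ31, ?_⟩
    · have e : (fun t : Kd => match t with
          | .mo => v .mo
          | .am => v .am + cx' (upx p 0)) = w := by
        funext t
        cases t
        · rfl
        · simp [hv]
      have h9 := hSq.toNr5.upx 0
      rw [← e] at h9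
      exact h9
    · simp
    · simp only [hv]
      exact hSq.w0 .am
    · left
      simp
    · simpa [hv] using hSq.a12
  have b5 := L5 X x5 (a.1.setz 0) (moL ps ++ amL ps) (by
      rw [List.length_append, length_moL]; exact hlen)
    (fun g hg => (hlump' _ hD5 g (hmem5 g hg))) (upx p 0, v) hvN
    (hwz.mono hX1'.le hD5 le_rfl le_rfl r5) (fun t => by
      rw [Pcs.mass_append, mass_moL, mass_amL]
      cases t with
      | mo =>
        have := hmass .mo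
        simp only [if_true, hv]
        rw [if_neg (by simp), add_zero]
        linarith
      | am =>
        have := hmass .am
        rw [if_neg (by simp), if_pos rfl]
        simp only [hv, zero_add]
        linarith)
    (Good_mono hX1'.le (fun g hg => hgood g (hmem5 g hg)) r5)
    (fun g hg hgl => hal g (hmem5 g hg) hgl)
  -- the gate
  by_cases hgate : a.2 < nL a.1.l (a3 a.1) a.1.z
  swap
  · simp only [if_neg hgate]
    positivity
  simp only [if_pos hgate] at b1 b3 b4 ⊢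
  -- the family
  have hκw := abs_le.1 (hw.ev (some (.inl 0)))
  have hev0 : (lev (Real.log 2) S5).ev X a (some (.inl 0)) = a.1.l / Real.log X := by
    simp [lev, S5]
  rw [hev0] at hκw
  change -D ≤ a.1.l / Real.log X - cκ p ∧ a.1.l / Real.log X - cκ p ≤ D at hκw
  have hl1 : a.1.l / Real.log X ≤ 2 := by linarith [hκw.2, hSq.κ1]
  have hl0 : 0 ≤ a.1.l := by
    have h2 : 0 ≤ a.1.l / Real.log X := by linarith [hκw.1, hSq.κ0]
    rw [le_div_iff₀ hlog, zero_mul] at h2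
    exact h2
  have hexp : Real.exp a.1.l ≤ X ^ (2 : ℝ) := by
    rw [Real.rpow_def_of_pos hXp, Real.exp_le_exp]
    rw [div_le_iff₀ hlog] at hl1
    linarith
  have hKx : Real.exp (a.1.l + R lam.1) ^ (ε / 8) ≤
      Real.exp (R lam.1) ^ (ε / 8) * X ^ (ε / 4) := by
    rw [Real.exp_add, mul_comm, Real.mul_rpow (Real.exp_pos _).le (Real.exp_pos _).le]
    refine mul_le_mul_of_nonneg_left ?_ (by positivity)
    calc Real.exp a.1.l ^ (ε / 8) ≤ (X ^ (2 : ℝ)) ^ (ε / 8) :=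
          Real.rpow_le_rpow (Real.exp_pos _).le hexp (by linarith)
      _ = X ^ (ε / 4) := by rw [← Real.rpow_mul hXp.le]; congr 1; ring
  -- the exponents
  have hkey := key_exp0 (v := v) hSq hd rfl rfl
  have hsqrt : Real.sqrt (HiG π (subS (S1 a.2) (S2 a.2)) R lam a.1) *
      Real.sqrt (MomF π h R lam a.1 (moL ps ++ amL ps)) ≤ X ^ (T - μ' + ε / 4) := by
    have s1 : Real.sqrt (HiG π (subS (S1 a.2) (S2 a.2)) R lam a.1) ≤
        X ^ ((cκ p + cN p + LR d p + ε / 4) / 2) := by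
      refine (Real.sqrt_le_sqrt b2).trans (le_of_eq ?_)
      rw [Real.sqrt_eq_rpow, ← Real.rpow_mul hXp.le]; congr 1; ring
    have s2 : Real.sqrt (MomF π h R lam a.1 (moL ps ++ amL ps)) ≤
        X ^ ((E2x d (upx p 0, v) + ε / 4) / 2) := by
      refine (Real.sqrt_le_sqrt ((momF_setz R lam a.1 _).trans b5)).trans (le_of_eq ?_)
      rw [Real.sqrt_eq_rpow, ← Real.rpow_mul hXp.le]; congr 1; ring
    calc _ ≤ X ^ ((cκ p + cN p + LR d p + ε / 4) / 2) *
          X ^ ((E2x d (upx p 0, v) + ε / 4) / 2) :=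
          mul_le_mul s1 s2 (Real.sqrt_nonneg _) (by positivity)
      _ = X ^ ((cκ p + cN p + LR d p + E2x d (upx p 0, v)) / 2 + ε / 4) := by
          rw [← Real.rpow_add hXp]; congr 1; ring
      _ ≤ _ := Real.rpow_le_rpow_of_exponent_le hX1'.le (by linarith)
  have hm4 : X ^ (T - μ + ε / 4) ≤ X ^ (T - μ' + ε / 4) :=
    Real.rpow_le_rpow_of_exponent_le hX1'.le (by linarith)
  have hfin := key lam R (CU lam.1) (hCU lam.1) (hsupp lam.1) (hbd lam.1)
    (subS (S1 a.2) (S2 a.2)) a.1 ps (by linarith [hR lam.1])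
  set Z := X ^ (T - μ' + ε / 4) with hZ
  have hZ0 : 0 ≤ Z := by positivity
  have hsum : Real.sqrt (HiG π (subS (S1 a.2) (S2 a.2)) R lam a.1) *
      Real.sqrt (MomF π h R lam a.1 (moL ps ++ amL ps)) +
        TailS π h (subS (S1 a.2) (S2 a.2)) R lam a.1 ps ≤ 3 * Z := by
    have := tailS_sub (π := π) (h := h) (S1 a.2) (S2 a.2) R lam a.1 ps
    linarith [b3.trans hm4, b4.trans hm4]
  have hCUn : 0 ≤ CU lam.1 := by linarith [hCU lam.1]
  have hXe : 1 ≤ X ^ (ε / 4) := Real.one_le_rpow hX1'.le hε4.le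
  calc MidF π h (S1 a.2) lam a.1 ps ≤ MidF π h (S2 a.2) lam a.1 ps +
        MidF π h (subS (S1 a.2) (S2 a.2)) lam a.1 ps := midF_sub (hP lam.1) _ _ _ _
    _ ≤ Z + CU lam.1 * (C * (Real.exp (R lam.1) ^ (ε / 8) * X ^ (ε / 4)) * (3 * Z)) := by
        refine add_le_add (b1.trans hm4) (hfin.trans ?_)
        refine mul_le_mul_of_nonneg_left ?_ hCUn
        have hs0 : 0 ≤ 3 * Z := by linarith
        refine mul_le_mul (mul_le_mul_of_nonneg_left hKx hC) hsum ?_ (by positivity)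
        have := tailS_nonneg (π := π) (h := h) (subS (S1 a.2) (S2 a.2)) R lam a.1 ps
        positivity
    _ = (3 * (CU lam.1 * C * Real.exp (R lam.1) ^ (ε / 8))) * X ^ (ε / 4) * Z + 1 * Z := by ring
    _ ≤ (3 * (CU lam.1 * C * Real.exp (R lam.1) ^ (ε / 8))) * X ^ (ε / 4) * Z +
        X ^ (ε / 4) * Z := add_le_add le_rfl (mul_le_mul_of_nonneg_right hXe hZ0)
    _ = (3 * (CU lam.1 * C * Real.exp (R lam.1) ^ (ε / 8)) + 1) * X ^ (ε / 4) * Z := by ring
    _ ≤ X ^ (ε / 4) * X ^ (ε / 4) * Z := by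
        refine mul_le_mul_of_nonneg_right ?_ hZ0
        exact mul_le_mul_of_nonneg_right (L7 X x7) (by positivity)
    _ = X ^ (T - μ' + 3 * (ε / 4)) := by
        rw [hZ, ← Real.rpow_add hXp, ← Real.rpow_add hXp]; congr 1; ring
    _ ≤ X ^ (T - μ' + ε) := Real.rpow_le_rpow_of_exponent_le hX1'.le (by linarith)

end

/-! ### all bands -/

section
variable {Λ : Type*} {π : Λ → DPar} {h : ℝ → ℝ}

/-- bound of `e` on the band `t` -/
def eT (e0 t : ℝ) : ℝ := min e0 (t / 4)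

/-- bound of the powerful part on the band `t` -/
def bT (t l N z : ℝ) : ℝ := min (bfO l N z) (t / 2 * l)

/-- the blocks outside the band `t`, at one level -/
def SfD (π : Λ → DPar) (h : ℝ → ℝ) (e0 r : ℝ) (Jf : ℝ → ℝ → ℝ → Finset (Eis × Eis)) (t : ℝ)
    (i : ℕ) : SF Λ := subS (SfV π h e0 r bfO Jf i) (SfV π h (eT e0 t) r (bT t) Jf i)

/-- the levels of the band `t` -/
def BandD (A d : ℝ) (lo : (Fin 3 ⊕ Fin 5 → ℝ) → ℝ) (t : ℝ) :
    Set ((Option (Fin 3 ⊕ Fin 5) → ℝ) × (Kd → ℝ)) :=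
  {q | q ∈ SqL A d ∧ t * cκ (dn q.1) ≤ lo (dn q.1) - q.1 none + d / 2}

/-- **HiD** : second moment of the blocks outside the band `t` (width `σ`) -/
def HiD (π : Λ → DPar) (h : ℝ → ℝ) (e0 r : ℝ) (Jf : ℝ → ℝ → ℝ → Finset (Eis × Eis)) (A d : ℝ)
    (lo : (Fin 3 ⊕ Fin 5 → ℝ) → ℝ) (t σ : ℝ)
    (al' : Set ((Option (Fin 3 ⊕ Fin 5) → ℝ) × ℝ)) : Prop :=
  ∀ R : Λ → ℝ, (∀ lam, 0 ≤ R lam) → UB (lev (Real.log 2) S5) Dq
    (fun lam (a : Bd × ℕ) _ => HiG π (SfD π h e0 r Jf t a.2) R lam a.1)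
    {q | (∃ w, Sq5 A d (dn q.1) w) ∧ lo (dn q.1) + d / 2 - (t + σ) * cκ (dn q.1) ≤ q.1 none ∧
      q.1 none ≤ top5 (dn q.1)} al'
    fun q => cκ (dn q.1) + cN (dn q.1) + LR d (dn q.1)

/-- **LowD** : the middle term of the band `t` -/
def LowD (π : Λ → DPar) (h : ℝ → ℝ) (e0 r : ℝ) (Jf : ℝ → ℝ → ℝ → Finset (Eis × Eis)) (A d μ : ℝ)
    (lo : (Fin 3 ⊕ Fin 5 → ℝ) → ℝ) (t : ℝ) : Prop :=
  UB (lev (Real.log 2) S5) Dq
    (fun lam a ps => if a.2 < nL a.1.l (a3 a.1) a.1.z then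
      MidF π h (SfV π h (eT e0 t) r (bT t) Jf a.2) lam a.1 ps else 0)
    (BandD A d lo t) (alL al5) fun q => T5 (7 / 8 + d) (dn q.1, q.2) - μ

/-- **TailL** : the tail at one level, general data -/
def TailL (π : Λ → DPar) (h : ℝ → ℝ) (e0 r : ℝ) (Bf : ℝ → ℝ → ℝ → ℝ)
    (Jf : ℝ → ℝ → ℝ → Finset (Eis × Eis)) (A d μ : ℝ) : Prop :=
  ∀ R : Λ → ℝ, (∀ lam, 0 ≤ R lam) → UB (lev (Real.log 2) S5) Dq
    (fun lam a ps => if a.2 < nL a.1.l (a3 a.1) a.1.z then
      TailS π h (SfV π h e0 r Bf Jf a.2) R lam a.1 ps else 0)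
    (SqL A d) (alL al5) fun q => T5 (7 / 8 + d) (dn q.1, q.2) - μ

/-- **StrU from the bands** -/
theorem strU_of_band (hP : ∀ lam, (π lam).OK) {A d μ μ' : ℝ} (hA : 2 / 3 ≤ A) (hd : 0 < d)
    (hμ : μ' ≤ μ) (hμd : μ' ≤ d / 9) (e0 r : ℝ) {Jf : ℝ → ℝ → ℝ → Finset (Eis × Eis)}
    {lo : (Fin 3 ⊕ Fin 5 → ℝ) → ℝ} (hlo : ∀ q ∈ SqD A d, top5 q.1 ≤ lo q.1)
    (hlo1 : ∀ q ∈ SqD A d, lo q.1 + d / 2 ≤ cκ q.1) {σ : ℝ} (hσ : 0 < σ) (hσd : 2 * σ ≤ d)
    {al' : Set ((Option (Fin 3 ⊕ Fin 5) → ℝ) × ℝ)}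
    (low : ∀ t, 0 < t → t ≤ 1 → LowD π h e0 r Jf A d μ lo t)
    (hi : ∀ t, 0 < t → t ≤ 1 → HiD π h e0 r Jf A d lo t σ al')
    (tl0 : TailL π h e0 r bfO Jf A d μ)
    (tl : ∀ t, 0 < t → t ≤ 1 → TailL π h (eT e0 t) r (bT t) Jf A d μ) (hm : MomU π h A d) :
    StrU π h (7 / 8 + d) (SfP π h e0 r bfO Jf nL) A d μ' := by
  refine E5L3770.strU_of_lev_gate π h hP hA e0 r bfO Jf ?_
  set Dom : ℕ → Set ((Option (Fin 3 ⊕ Fin 5) → ℝ) × (Kd → ℝ)) := fun j =>
    {q | q ∈ SqL A d ∧ 0 < (j : ℝ) * σ ∧ (j : ℝ) * σ ≤ 1 ∧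
      (j : ℝ) * σ * cκ (dn q.1) ≤ lo (dn q.1) - q.1 none + d / 2 ∧
      lo (dn q.1) - q.1 none + d / 2 ≤ ((j : ℝ) * σ + σ) * cκ (dn q.1)} with hDom
  have hj : ∀ j : ℕ, UB (lev (Real.log 2) S5) Dq
      (fun lam a ps => if a.2 < nL a.1.l (a3 a.1) a.1.z then
        MidF π h (SfV π h e0 r bfO Jf a.2) lam a.1 ps else 0)
      (Dom j) (alL al5) fun q => T5 (7 / 8 + d) (dn q.1, q.2) - μ' := by
    intro j
    by_cases ht : 0 < (j : ℝ) * σ ∧ (j : ℝ) * σ ≤ 1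
    swap
    · refine ub_sub (ub_empty _ _ _ _ _) ?_
      intro q hq
      exact ht ⟨hq.2.1, hq.2.2.1⟩
    obtain ⟨h1, h2⟩ := ht
    refine rest_of (S1 := fun i => SfV π h e0 r bfO Jf i)
      (S2 := fun i => SfV π h (eT e0 ((j : ℝ) * σ)) r (bT ((j : ℝ) * σ)) Jf i) hP hd.le hμ hμd
      (fun q hq => hq.1) ?_ (ub_sub (low _ h1 h2) fun q hq => ⟨hq.1, hq.2.2.2.1⟩)
      (hi _ h1 h2) (fun R hR => ub_sub (tl0 R hR) fun q hq => hq.1)
      (fun R hR => ub_sub (tl _ h1 h2 R hR) fun q hq => hq.1) hm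
    intro q hq
    obtain ⟨k1, -, -, -, k2⟩ := hq
    refine ⟨⟨q.2, k1.1⟩, ?_, k1.2.2⟩
    show lo (dn q.1) + d / 2 - ((j : ℝ) * σ + σ) * cκ (dn q.1) ≤ q.1 none
    linarith
  refine ub_sub (ub_range (⌊1 / σ⌋₊ + 1) fun j _ => hj j) ?_
  intro q hq
  have hSq : Sq5 A d (dn q.1) q.2 := hq.1
  have hκ : 0 < cκ (dn q.1) := hSq.κpos
  have hκ1 := hSq.κ1
  have l1 := hlo _ hq.1
  have l2 := hlo1 _ hq.1
  simp only at l1 l2
  have hv0 := hq.2.1
  have hv1 := hq.2.2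
  have hσκ : 0 < σ * cκ (dn q.1) := mul_pos hσ hκ
  set y : ℝ := (lo (dn q.1) - q.1 none + d / 2) / (σ * cκ (dn q.1)) with hy
  have y1 : 1 ≤ y := by
    rw [hy, le_div_iff₀ hσκ]
    nlinarith
  have y2 : y * (σ * cκ (dn q.1)) = lo (dn q.1) - q.1 none + d / 2 := by
    rw [hy]; field_simp
  have y3 : y * σ ≤ 1 := by
    have : y * σ * cκ (dn q.1) ≤ 1 * cκ (dn q.1) := by linarith
    exact le_of_mul_le_mul_right this hκ
  have f1 := Nat.floor_le (a := y) (by linarith)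
  have f2 := Nat.lt_floor_add_one y
  have f3 : 1 ≤ (⌊y⌋₊ : ℝ) := by
    exact_mod_cast Nat.le_floor (by exact_mod_cast y1)
  refine ⟨⌊y⌋₊, ?_, hq, by positivity, ?_, ?_, ?_⟩
  · have : y ≤ 1 / σ := by rw [le_div_iff₀ hσ]; exact y3
    exact Nat.lt_succ_of_le (Nat.floor_mono this)
  · exact (mul_le_mul_of_nonneg_right f1 hσ.le).trans y3
  · have := mul_le_mul_of_nonneg_right f1 hσκ.le
    linarith
  · have := mul_le_mul_of_nonneg_right f2.le hσκ.le
    linarith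

end

end Crest.Agent.R017.E5H319
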