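import Crest.Agent.R017.Hi9c_48
import Crest.Agent.R017.E5H_319
import Crest.Agent.R017.P1t_54

/-!
# Row 17, StrU: the bands with gated levels (helper48)

* `HiDb` : helper319's `HiD`, gated by `a.2 < nL ..`
* `strU_of_bandg` : helper319's `strU_of_band` with `HiDb`
* `hiDb_of` : `HiDb` from `HNDg` and `HNBg` (helper54's natural triples, gated)
-/

set_option autoImplicit false

noncomputable section

open Finset
open scoped ComplexConjugate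

namespace Crest.Agent.R017.E5Hg48

open Crest.Agent.R012 Crest.Agent.R012.Eis
open Crest.Agent.R012.Mob705 hiding pb mem_pb
open Crest.Agent.R017.CM106
open Crest.Agent.R017.FE47 (SM PU cx)
open Crest.Agent.R017.XG702 (Pcs Good_mono)
open Crest.Agent.R017.XT71 (Sys Win)
open Crest.Agent.R017.XF71 (const_le_rpow)
open Crest.Agent.R017.UM71
open Crest.Agent.R017.B770 Crest.Agent.R017.Prov71
open Crest.Agent.R017.E5B71 Crest.Agent.R017.E5P571 Crest.Agent.R017.E5L770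
open Crest.Agent.R017.E5H319
open Crest.Agent.R017.Sf770 (JS)
open Crest.Agent.R017.P1t54 (ParS)
open Crest.Agent.R017.P1l54 (ParOK)

section

variable {Λ : Type*}

/-- a gated family of structured functions -/
def gF (S : ℕ → SF Λ) (i : ℕ) : SF Λ := fun lam t l us z k =>
  if i < nL l ((us 0).z + (us 1).z + (us 2).z) z then S i lam t l us z k else 0

lemma at_gF (S : ℕ → SF Λ) (i : ℕ) (lam : Λ × Eis) (a : Bd) (k : Eis) :
    (gF S i).at lam a k = if i < nL a.l (a3 a) a.z then (S i).at lam a k else 0 := rfl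

variable {π : Λ → DPar} {h : ℝ → ℝ}

lemma midF_gF (S : ℕ → SF Λ) {i : ℕ} (lam : Λ × Eis) {a : Bd} (ps : List Pq)
    (hi : i < nL a.l (a3 a) a.z) : MidF π h (gF S i) lam a ps = MidF π h (S i) lam a ps := by
  unfold MidF
  simp only [at_gF, if_pos hi]

lemma tailS_gF (S : ℕ → SF Λ) (R : Λ → ℝ) {i : ℕ} (lam : Λ × Eis) {a : Bd} (ps : List Pq)
    (hi : i < nL a.l (a3 a) a.z) :
    TailS π h (gF S i) R lam a ps = TailS π h (S i) R lam a ps := by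
  unfold TailS
  simp only [at_gF, if_pos hi]

lemma hiG_gF (S1 S2 : ℕ → SF Λ) (R : Λ → ℝ) (i : ℕ) (lam : Λ × Eis) (a : Bd) :
    HiG π (subS (gF S1 i) (gF S2 i)) R lam a =
      if i < nL a.l (a3 a) a.z then HiG π (subS (S1 i) (S2 i)) R lam a else 0 := by
  unfold HiG
  simp only [at_subS, at_gF]
  split_ifs
  all_goals simp

end

/-- **HiDb** : second moment of the blocks outside the band `t` (width `σ`), gated -/
def HiDb {Λ : Type*} (π : Λ → DPar) (h : ℝ → ℝ) (e0 r : ℝ)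
    (Jf : ℝ → ℝ → ℝ → Finset (Eis × Eis)) (A d : ℝ)
    (lo : (Fin 3 ⊕ Fin 5 → ℝ) → ℝ) (t σ : ℝ)
    (al' : Set ((Option (Fin 3 ⊕ Fin 5) → ℝ) × ℝ)) : Prop :=
  ∀ R : Λ → ℝ, (∀ lam, 0 ≤ R lam) → UB (lev (Real.log 2) S5) Dq
    (fun lam (a : Bd × ℕ) _ => if a.2 < nL a.1.l (a3 a.1) a.1.z then
      HiG π (E5H319.SfD π h e0 r Jf t a.2) R lam a.1 else 0)
    {q | (∃ w, Sq5 A d (dn q.1) w) ∧ lo (dn q.1) + d / 2 - (t + σ) * cκ (dn q.1) ≤ q.1 none ∧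
      q.1 none ≤ top5 (dn q.1)} al'
    fun q => cκ (dn q.1) + cN (dn q.1) + LR d (dn q.1)

/-- pointwise equality of the functionals -/
lemma ub_eq {A' ι τ Λ' Pp : Type*} [DecidableEq τ] {S : Sys A' ι} {D : Pcs Pp τ}
    {Ψ Ψ' : Λ' → A' → List Pp → ℝ} {Dom : Set ((ι → ℝ) × (τ → ℝ))} {al : Set ((ι → ℝ) × ℝ)}
    {E : (ι → ℝ) × (τ → ℝ) → ℝ} (H : UB S D Ψ Dom al E)
    (he : ∀ lam a ps, Ψ' lam a ps = Ψ lam a ps) : UB S D Ψ' Dom al E := by
  have : Ψ' = Ψ := by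
    funext lam a ps
    exact he lam a ps
  rw [this]
  exact H

/-- two functionals -/
lemma ub_two {A' ι τ Λ' Pp : Type*} [DecidableEq τ] {S : Sys A' ι} {D : Pcs Pp τ}
    {Ψ Ψ₁ Ψ₂ : Λ' → A' → List Pp → ℝ} {Dom : Set ((ι → ℝ) × (τ → ℝ))}
    {al : Set ((ι → ℝ) × ℝ)}
    {E : (ι → ℝ) × (τ → ℝ) → ℝ} (H₁ : UB S D Ψ₁ Dom al E) (H₂ : UB S D Ψ₂ Dom al E)
    (he : ∀ lam a ps, Ψ lam a ps ≤ 2 * Ψ₁ lam a ps + 2 * Ψ₂ lam a ps) :
    UB S D Ψ Dom al E := by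
  intro ε hε
  obtain ⟨δ₁, hδ₁, K₁⟩ := H₁ (ε / 2) (by positivity)
  obtain ⟨δ₂, hδ₂, K₂⟩ := H₂ (ε / 2) (by positivity)
  refine ⟨min δ₁ δ₂, lt_min hδ₁ hδ₂, fun lam N B => ?_⟩
  obtain ⟨η₁, hη₁, X₁, hX₁, K₁⟩ := K₁ lam N B
  obtain ⟨η₂, hη₂, X₂, hX₂, K₂⟩ := K₂ lam N B
  obtain ⟨X₃, hX₃, K₃⟩ := const_le_rpow (C := 4) (ε := ε / 2) (by positivity)
  refine ⟨min η₁ η₂, lt_min hη₁ hη₂, max (max X₁ X₂) X₃,
    lt_max_of_lt_left (lt_max_of_lt_left hX₁), ?_⟩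
  intro X hX a ps hl hz q hq hw hm hg hlu
  have x1 : X₁ ≤ X := ((le_max_left _ _).trans (le_max_left _ _)).trans hX
  have x2 : X₂ ≤ X := ((le_max_right _ _).trans (le_max_left _ _)).trans hX
  have x3 : X₃ ≤ X := (le_max_right _ _).trans hX
  have hX1 : 1 ≤ X := by linarith
  have hX0 : 0 < X := by linarith
  have b1 := K₁ X x1 a ps hl (fun p hp => (hz p hp).imp id fun h => h.trans (min_le_left _ _)) q hq
      (hw.mono hX1 (min_le_left _ _) le_rfl le_rfl (min_le_left _ _))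
      (fun t => (hm t).trans (min_le_left _ _)) (Good_mono hX1 hg (min_le_left _ _)) hlu
  have b2 := K₂ X x2 a ps hl (fun p hp => (hz p hp).imp id fun h => h.trans (min_le_right _ _)) q
      hq (hw.mono hX1 (min_le_right _ _) le_rfl le_rfl (min_le_right _ _))
      (fun t => (hm t).trans (min_le_right _ _)) (Good_mono hX1 hg (min_le_right _ _)) hlu
  have b3 := K₃ X x3
  calc Ψ lam a ps ≤ 2 * Ψ₁ lam a ps + 2 * Ψ₂ lam a ps := he lam a ps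
    _ ≤ 4 * X ^ (E q + ε / 2) := by linarith
    _ ≤ X ^ (ε / 2) * X ^ (E q + ε / 2) := mul_le_mul_of_nonneg_right b3 (by positivity)
    _ = X ^ (E q + ε) := by
        rw [← Real.rpow_add hX0]
        congr 1
        ring

section

variable {Λ : Type*} {π : Λ → DPar} {h : ℝ → ℝ}

/-- **one band, gated** -/
theorem rest_ofg (hP : ∀ lam, (π lam).OK) {A d μ μ' : ℝ} (hd : 0 ≤ d) (hμ : μ' ≤ μ)
    (hμd : μ' ≤ d / 9) {S1 S2 : ℕ → SF Λ}
    {Dom DomH : Set ((Option (Fin 3 ⊕ Fin 5) → ℝ) × (Kd → ℝ))} (hDom : Dom ⊆ SqL A d)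
    (hDH : ∀ q ∈ Dom, (q.1, fun _ => (0 : ℝ)) ∈ DomH)
    {al' : Set ((Option (Fin 3 ⊕ Fin 5) → ℝ) × ℝ)}
    (H2 : UB (lev (Real.log 2) S5) Dq
      (fun lam a ps => if a.2 < nL a.1.l (a3 a.1) a.1.z then
        MidF π h (S2 a.2) lam a.1 ps else 0) Dom (alL al5)
      fun q => T5 (7 / 8 + d) (dn q.1, q.2) - μ)
    (HH : ∀ R : Λ → ℝ, (∀ lam, 0 ≤ R lam) → UB (lev (Real.log 2) S5) Dq
      (fun lam (a : Bd × ℕ) _ => if a.2 < nL a.1.l (a3 a.1) a.1.z then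
        HiG π (subS (S1 a.2) (S2 a.2)) R lam a.1 else 0) DomH al'
      fun q => cκ (dn q.1) + cN (dn q.1) + LR d (dn q.1))
    (HT1 : ∀ R : Λ → ℝ, (∀ lam, 0 ≤ R lam) → UB (lev (Real.log 2) S5) Dq
      (fun lam a ps => if a.2 < nL a.1.l (a3 a.1) a.1.z then
        TailS π h (S1 a.2) R lam a.1 ps else 0) Dom (alL al5)
      fun q => T5 (7 / 8 + d) (dn q.1, q.2) - μ)
    (HT2 : ∀ R : Λ → ℝ, (∀ lam, 0 ≤ R lam) → UB (lev (Real.log 2) S5) Dq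
      (fun lam a ps => if a.2 < nL a.1.l (a3 a.1) a.1.z then
        TailS π h (S2 a.2) R lam a.1 ps else 0) Dom (alL al5)
      fun q => T5 (7 / 8 + d) (dn q.1, q.2) - μ)
    (hm : MomU π h A d) :
    UB (lev (Real.log 2) S5) Dq
      (fun lam a ps => if a.2 < nL a.1.l (a3 a.1) a.1.z then
        MidF π h (S1 a.2) lam a.1 ps else 0) Dom (alL al5)
      fun q => T5 (7 / 8 + d) (dn q.1, q.2) - μ' := by
  have key := rest_of (S1 := gF S1) (S2 := gF S2) hP hd hμ hμd hDom hDH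
    (ub_eq H2 fun lam a ps => by
      split_ifs with hg
      · exact midF_gF S2 lam ps hg
      · rfl)
    (fun R hR => ub_eq (HH R hR) fun lam a ps => hiG_gF S1 S2 R a.2 lam a.1)
    (fun R hR => ub_eq (HT1 R hR) fun lam a ps => by
      split_ifs with hg
      · exact tailS_gF S1 R lam ps hg
      · rfl)
    (fun R hR => ub_eq (HT2 R hR) fun lam a ps => by
      split_ifs with hg
      · exact tailS_gF S2 R lam ps hg
      · rfl) hm
  refine ub_eq key fun lam a ps => ?_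
  split_ifs with hg
  · exact (midF_gF S1 lam ps hg).symm
  · rfl

/-- **StrU from the bands, gated** -/
theorem strU_of_bandg (hP : ∀ lam, (π lam).OK) {A d μ μ' : ℝ} (hA : 2 / 3 ≤ A) (hd : 0 < d)
    (hμ : μ' ≤ μ) (hμd : μ' ≤ d / 9) (e0 r : ℝ) {Jf : ℝ → ℝ → ℝ → Finset (Eis × Eis)}
    {lo : (Fin 3 ⊕ Fin 5 → ℝ) → ℝ} (hlo : ∀ q ∈ SqD A d, top5 q.1 ≤ lo q.1)
    (hlo1 : ∀ q ∈ SqD A d, lo q.1 + d / 2 ≤ cκ q.1) {σ : ℝ} (hσ : 0 < σ) (hσd : 2 * σ ≤ d)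
    {al' : Set ((Option (Fin 3 ⊕ Fin 5) → ℝ) × ℝ)}
    (low : ∀ t, 0 < t → t ≤ 1 → LowD π h e0 r Jf A d μ lo t)
    (hi : ∀ t, 0 < t → t ≤ 1 → HiDb π h e0 r Jf A d lo t σ al')
    (tl0 : TailL π h e0 r bfO Jf A d μ)
    (tl : ∀ t, 0 < t → t ≤ 1 → TailL π h (eT e0 t) r (bT t) Jf A d μ) (hm : MomU π h A d) :
    StrU π h (7 / 8 + d) (SfP π h e0 r bfO Jf nL) A d μ' := by
  refine E5L3770.strU_of_lev_gate π h hP hA e0 r bfO Jf ?_
  set Dom : ℕ → Set ((Option (Fin 3 ⊕ Fin 5) → ℝ) × (Kd → ℝ)) := fun j =>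
    {q | q ∈ SqL A d ∧ 0 < (j : ℝ) * σ ∧ (j : ℝ) * σ ≤ 1 ∧
      (j : ℝ) * σ * cκ (dn q.1) ≤ lo (dn q.1) - q.1 none + d / 2 ∧
      lo (dn q.1) - q.1 none + d / 2 ≤ ((j : ℝ) * σ + σ) * cκ (dn q.1)} with hDom
  have hj : ∀ j : ℕ, UB (lev (Real.log 2) S5) Dq
      (fun lam a ps => if a.2 < nL a.1.l (a3 a.1) a.1.z then
        MidF π h (SfV π h e0 r bfO Jf a.2) lam a.1 ps else 0)
      (Dom j) (alL al5) fun q => T5 (7 / 8 + d) (dn q.1, q.2) - μ' := by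
    intro j
    by_cases ht : 0 < (j : ℝ) * σ ∧ (j : ℝ) * σ ≤ 1
    swap
    · refine ub_sub (ub_empty _ _ _ _ _) ?_
      intro q hq
      exact ht ⟨hq.2.1, hq.2.2.1⟩
    obtain ⟨h1, h2⟩ := ht
    refine rest_ofg (S1 := fun i => SfV π h e0 r bfO Jf i)
      (S2 := fun i => SfV π h (eT e0 ((j : ℝ) * σ)) r (bT ((j : ℝ) * σ)) Jf i) hP hd.le hμ hμd
      (fun q hq => hq.1) ?_ (ub_sub (low _ h1 h2) fun q hq => ⟨hq.1, hq.2.2.2.1⟩)
      (hi _ h1 h2) (fun R hR => ub_sub (tl0 R hR) fun q hq => hq.1)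
      (fun R hR => ub_sub (tl _ h1 h2 R hR) fun q hq => hq.1) hm
    intro q hq
    obtain ⟨k1, -, -, -, k2⟩ := hq
    refine ⟨⟨q.2, k1.1⟩, ?_, k1.2.2⟩
    show lo (dn q.1) + d / 2 - ((j : ℝ) * σ + σ) * cκ (dn q.1) ≤ q.1 none
    linarith
  refine ub_sub (ub_range (⌊1 / σ⌋₊ + 1) fun j _ => hj j) ?_
  intro q hq
  have hSq : Sq5 A d (dn q.1) q.2 := hq.1
  have hκ : 0 < cκ (dn q.1) := hSq.κpos
  have hκ1 := hSq.κ1
  have l1 := hlo _ hq.1
  have l2 := hlo1 _ hq.1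
  simp only at l1 l2
  have hv0 := hq.2.1
  have hv1 := hq.2.2
  have hσκ : 0 < σ * cκ (dn q.1) := mul_pos hσ hκ
  set y : ℝ := (lo (dn q.1) - q.1 none + d / 2) / (σ * cκ (dn q.1)) with hy
  have y1 : 1 ≤ y := by
    rw [hy, le_div_iff₀ hσκ]
    nlinarith
  have y2 : y * (σ * cκ (dn q.1)) = lo (dn q.1) - q.1 none + d / 2 := by
    rw [hy]; field_simp
  have y3 : y * σ ≤ 1 := by
    have : y * σ * cκ (dn q.1) ≤ 1 * cκ (dn q.1) := by linarith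
    exact le_of_mul_le_mul_right this hκ
  have f1 := Nat.floor_le (a := y) (by linarith)
  have f2 := Nat.lt_floor_add_one y
  have f3 : 1 ≤ (⌊y⌋₊ : ℝ) := by
    exact_mod_cast Nat.le_floor (by exact_mod_cast y1)
  refine ⟨⌊y⌋₊, ?_, hq, by positivity, ?_, ?_, ?_⟩
  · have : y ≤ 1 / σ := by rw [le_div_iff₀ hσ]; exact y3
    exact Nat.lt_succ_of_le (Nat.floor_mono this)
  · exact (mul_le_mul_of_nonneg_right f1 hσ.le).trans y3
  · have := mul_le_mul_of_nonneg_right f1 hσκ.le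
    linarith
  · have := mul_le_mul_of_nonneg_right f2.le hσκ.le
    linarith

end

/-! ### the input of one band from natural triples -/

/-- sizes of the exact square -/
lemma parOK_sq {A d : ℝ} (hA : 99 / 100 ≤ A) {p : Fin 3 ⊕ Fin 5 → ℝ} {w : Kd → ℝ}
    (hw : Sq5 A d p w) : ParOK p ∧ cx' p ≤ 23 / 400 * cκ p := by
  have hκ0 := hw.κ0
  have hκ1 := hw.κ1
  have hκ31 := hw.κ31
  have hκp : 0 < cκ p := by linarith
  obtain ⟨a1, a2, a3, a4⟩ := hw.anti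
  have hq := hw.q
  have hmo := hw.w0 .mo
  have hnear := hw.near
  have hAκ : 99 / 100 * cκ p ≤ A * cκ p := mul_le_mul_of_nonneg_right hA hκp.le
  have eN : cN p = cu p 2 + cu p 3 + cu p 4 := rfl
  have eM : cM p = cu p 0 + cu p 1 := rfl
  have hN85 : cN p ≤ 17 / 20 * cκ p := by
    have := hw.tl.N85
    rwa [div_le_iff₀ hκp] at this
  have hadm := hw.tl.adm
  have hx0 : 0 ≤ cx' p := hw.x0
  have hx2 : cx' p = 0 ∨ cN p + cx' p ≤ 4 / 5 * cκ p := by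
    rcases hadm.2.2 with h | h
    · left
      rw [div_eq_zero_iff] at h
      rcases h with h | h
      · exact h
      · exact absurd h hκp.ne'
    · right
      rwa [← add_div, div_le_iff₀ hκp] at h
  have hNlo : 297 / 400 * cκ p ≤ cN p := by linarith
  have hxN : cx' p ≤ 23 / 400 * cκ p := by
    rcases hx2 with h | h
    · rw [h]
      linarith
    · linarith
  have h4 : 7 / 50 * cκ p ≤ cu p 4 := by linarith
  refine ⟨⟨hκ0, hκ1, ?_, by linarith, by linarith, hx0, by linarith⟩, hxN⟩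
  intro i
  fin_cases i
  · show 0 ≤ cu p 0
    linarith
  · show 0 ≤ cu p 1
    linarith
  · show 0 ≤ cu p 2
    linarith
  · show 0 ≤ cu p 3
    linarith
  · show 0 ≤ cu p 4
    linarith

/-- the lower end of the levels of the band `t` -/
def loT (lo : (Fin 3 ⊕ Fin 5 → ℝ) → ℝ) (d t σ : ℝ) (p : Fin 3 ⊕ Fin 5 → ℝ) : ℝ :=
  lo p + d / 2 - (t + σ) * cκ p

lemma bT_eq (t : ℝ) : bT t = Hi754.bC (t / 2) := by
  funext l N z
  unfold bT Hi754.bC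
  exact min_comm _ _

lemma hiG_two {Λ : Type*} (π : Λ → DPar) (S S1 S2 : SF Λ) (R : Λ → ℝ) (lam : Λ × Eis) (a : Bd)
    (hS : ∀ k, S.at lam a k = S1.at lam a k + S2.at lam a k) :
    HiG π S R lam a ≤ 2 * Hi154.HiF π S1 R lam a + 2 * Hi154.HiF π S2 R lam a := by
  unfold HiG Hi154.HiF
  split_ifs
  · rw [mul_sum, mul_sum, ← sum_add_distrib]
    refine sum_le_sum fun k _ => ?_
    rw [hS]
    have h1 := norm_add_le (S1.at lam a k) (S2.at lam a k)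
    have h2 := norm_nonneg (S1.at lam a k + S2.at lam a k)
    nlinarith [sq_nonneg (‖S1.at lam a k‖ - ‖S2.at lam a k‖)]
  · simp

/-- **the input of the band `t` from one natural triple** -/
theorem hiDb_of {Λ : Type*} {π : Λ → DPar} (hπ : ∀ l, (π l).OK) {h : ℝ → ℝ} {c : ℝ}
    (hpu : PU h c) {Rh : ℝ} (hRh0 : 0 ≤ Rh) (hRh : ∀ u, cx h u ≠ 0 → |u| ≤ Rh) {e0 : ℝ}
    (r : ℝ) (he0 : 0 ≤ e0) (he1 : e0 ≤ 1) {A d : ℝ} (hA : 99 / 100 ≤ A) (hd : 0 ≤ d)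
    {lo : (Fin 3 ⊕ Fin 5 → ℝ) → ℝ} {t σ : ℝ} (ht : 0 < t) (ht1 : t ≤ 1)
    (hND : Hi948.HNDg π h (eT e0 t) e0 (ParS A d) (loT lo d t σ) top5 (LR d))
    (hNB : Hi948.HNBg π h e0 (t / 2) (ParS A d) (loT lo d t σ) top5 (LR d))
    (al' : Set ((Option (Fin 3 ⊕ Fin 5) → ℝ) × ℝ)) :
    HiDb π h e0 r (fun l N z => JS (nL l N z)) A d lo t σ al' := by
  have hPar : ∀ p ∈ ParS A d, ParOK p := fun p hp => by
    obtain ⟨w, hw⟩ := hp
    exact (parOK_sq hA hw).1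
  have hκx : ∀ p ∈ ParS A d, 0 ≤ cκ p / 2 - 2 * cx' p := fun p hp => by
    obtain ⟨w, hw⟩ := hp
    have h1 := (parOK_sq hA hw).2
    have h2 := (parOK_sq hA hw).1.κ0
    linarith
  have hLH : ∀ p ∈ ParS A d, 0 ≤ cκ p + LR d p := fun p hp => by
    obtain ⟨w, hw⟩ := hp
    have h1 := (parOK_sq hA hw).2
    have h2 := (parOK_sq hA hw).1.κ0
    have h3 : 0 ≤ 3 / 4 * d * cκ p := by positivity
    have h4 := le_max_left 0 (5 / 4 * cN p - cκ p)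
    unfold LR
    linarith
  have heT : eT e0 t ≤ 1 := (min_le_left _ _).trans he1
  intro R hR
  have H1 := Hi948.hiDg_of hπ hpu hRh0 hRh r he0 he1 heT (Bf := Hi754.bC (t / 2))
    (fun l N z => min_le_right _ _) hPar hLH hND al' R hR
  have H2 := Hi948.hiBg_of hπ hpu hRh0 hRh r he0 he1 (b := t / 2) (by linarith) (by linarith)
    hPar hκx hLH hNB al' R hR
  refine ub_two H1 H2 fun lam a ps => ?_
  by_cases hg : a.2 < nL a.1.l (a3 a.1) a.1.z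
  swap
  · simp only [if_neg hg]
    norm_num
  simp only [if_pos hg]
  refine hiG_two π _ _ _ R lam a.1 fun k => ?_
  unfold E5H319.SfD
  rw [bT_eq]
  show SfV π h e0 r bfO P1l54.Jo a.2 lam.1 lam.2 _ _ _ k -
    SfV π h (eT e0 t) r (Hi754.bC (t / 2)) P1l54.Jo a.2 lam.1 lam.2 _ _ _ k =
    (SfV π h e0 r (Hi754.bC (t / 2)) P1l54.Jo a.2 lam.1 lam.2 _ _ _ k -
      SfV π h (eT e0 t) r (Hi754.bC (t / 2)) P1l54.Jo a.2 lam.1 lam.2 _ _ _ k) +
    (SfV π h e0 r bfO P1l54.Jo a.2 lam.1 lam.2 _ _ _ k -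
      SfV π h e0 r (Hi754.bC (t / 2)) P1l54.Jo a.2 lam.1 lam.2 _ _ _ k)
  ring

end Crest.Agent.R017.E5Hg48
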