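import Crest.Agent.R017.E5Hg_48

/-!
# Row 17, StrU: the bands with gated levels, II (helper48)

* `HNDg_self` : no blocks between equal ends
* `hiDb_of'` : `hiDb_of` with the input `HNDg` for `t / 4 < e0` only
-/

set_option autoImplicit false

noncomputable section

open Finset
open scoped ComplexConjugate

namespace Crest.Agent.R017.E5Hg48

open Crest.Agent.R012 Crest.Agent.R012.Eis
open Crest.Agent.R012.Mob705 hiding pb mem_pb
open Crest.Agent.R017.CM106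
open Crest.Agent.R017.FE47 (SM PU cx)
open Crest.Agent.R017.XG702 (Pcs Good_mono)
open Crest.Agent.R017.XT71 (Sys Win)
open Crest.Agent.R017.UM71
open Crest.Agent.R017.B770 Crest.Agent.R017.Prov71
open Crest.Agent.R017.E5B71 Crest.Agent.R017.E5P571 Crest.Agent.R017.E5L770
open Crest.Agent.R017.E5H319
open Crest.Agent.R017.Sf770 (JS)
open Crest.Agent.R017.P1t54 (ParS)
open Crest.Agent.R017.P1l54 (ParOK)

/-- no blocks between equal ends -/
theorem HNDg_self {Λ : Type*} (π : Λ → DPar) (h : ℝ → ℝ) (e0 : ℝ)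
    (Par : Set (Fin 3 ⊕ Fin 5 → ℝ)) (lo hi LH : (Fin 3 ⊕ Fin 5 → ℝ) → ℝ) :
    Hi948.HNDg π h e0 e0 Par lo hi LH := by
  intro R hR ε hε
  refine ⟨1, one_pos, fun lam N B => ⟨1, one_pos, 2, one_lt_two, ?_⟩⟩
  intro X hX a ps _ _ q _ _ _ _ _
  have hX0 : 0 < X := by linarith
  have h0 : Hi948.HndCg π h e0 e0 R lam a ps = 0 := by
    unfold Hi948.HndCg Hi754.HndC
    split_ifs
    · unfold P1e54.M2 Hi754.StD
      simp
    · rfl
    · rfl
  rw [h0]
  positivity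

/-- **the input of the band `t` from one natural triple**, the `e`-blocks only for
`t / 4 < e0` -/
theorem hiDb_of' {Λ : Type*} {π : Λ → DPar} (hπ : ∀ l, (π l).OK) {h : ℝ → ℝ} {c : ℝ}
    (hpu : PU h c) {Rh : ℝ} (hRh0 : 0 ≤ Rh) (hRh : ∀ u, cx h u ≠ 0 → |u| ≤ Rh) {e0 : ℝ}
    (r : ℝ) (he0 : 0 ≤ e0) (he1 : e0 ≤ 1) {A d : ℝ} (hA : 99 / 100 ≤ A) (hd : 0 ≤ d)
    {lo : (Fin 3 ⊕ Fin 5 → ℝ) → ℝ} {t σ : ℝ} (ht : 0 < t) (ht1 : t ≤ 1)
    (hND : t / 4 < e0 → Hi948.HNDg π h (t / 4) e0 (ParS A d) (loT lo d t σ) top5 (LR d))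
    (hNB : Hi948.HNBg π h e0 (t / 2) (ParS A d) (loT lo d t σ) top5 (LR d))
    (al' : Set ((Option (Fin 3 ⊕ Fin 5) → ℝ) × ℝ)) :
    HiDb π h e0 r (fun l N z => JS (nL l N z)) A d lo t σ al' := by
  refine hiDb_of hπ hpu hRh0 hRh r he0 he1 hA hd ht ht1 ?_ hNB al'
  unfold eT
  rcases lt_or_ge (t / 4) e0 with h1 | h1
  · rw [min_eq_right h1.le]
    exact hND h1
  · rw [min_eq_left h1]
    exact HNDg_self π h e0 _ _ _ _

end Crest.Agent.R017.E5Hg48
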