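import Crest.Agent.R017.E5Mb_372

/-!
# Row 17, P8: sums over large cubes, and the principal `k` (helper372)

* `ub_mono'`, `ub_add` : comparison and sum of uniform bounds
* `bgb_cubes` : robust exponent of a sum over the cubes `N m > e^{l/20}`
* `bad_abs` : the boxes over the principal `k` of class N
-/

set_option autoImplicit false
set_option linter.unusedSectionVars false

noncomputable section

open Complex
open scoped ComplexConjugate

namespace Crest.Agent.R017.E5M372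

open Crest.Agent.R012 Crest.Agent.R012.Eis
open Crest.Agent.R012.LS2 (bl mem_bl)
open Crest.Agent.R012.Mob705
open Crest.Agent.R017.CM106 Crest.Agent.R017.FE47 Crest.Agent.R017.End699
open Crest.Agent.R017.Sup271 (NPm)
open Crest.Agent.R017.XG702 (Pcs BG tot)
open Crest.Agent.R017.XT71 (Sys Win mx)
open Crest.Agent.R017.UM71
open Crest.Agent.R017.HP842 (Pc pc)
open Crest.Agent.R017.B770 Crest.Agent.R017.Prov71
open Crest.Agent.R017.SU770 (tw1 CS_tw)
open Crest.Agent.R017.E5T54 Crest.Agent.R017.E5P571 Crest.Agent.R017.E5B71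
open Crest.Agent.R017.BadK271

/-! ### uniform bounds -/

section ub

variable {A Pc' ι τ Λ : Type*} [DecidableEq τ] {S : Sys A ι} {D : Pcs Pc' τ}
  {Dom Dom' : Set ((ι → ℝ) × (τ → ℝ))} {al : Set ((ι → ℝ) × ℝ)}
  {E E' : (ι → ℝ) × (τ → ℝ) → ℝ}

theorem ub_mono' {Ψ Ψ' : Λ → A → List Pc' → ℝ} (hsub : Dom' ⊆ Dom) (hE : ∀ q ∈ Dom', E q ≤ E' q)
    (hΨ : ∀ lam a ps, Ψ' lam a ps ≤ Ψ lam a ps) (H : UB S D Ψ Dom al E) :
    UB S D Ψ' Dom' al E' := by
  intro ε hε
  obtain ⟨δ, hδ, K⟩ := H ε hε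
  refine ⟨δ, hδ, fun lam N B => ?_⟩
  obtain ⟨δ', hδ', X₀, hX₀, K'⟩ := K lam N B
  refine ⟨δ', hδ', X₀, hX₀, fun X hX a ps h1 h2 q hq hw hm hg hl => ?_⟩
  exact ((hΨ lam a ps).trans (K' X hX a ps h1 h2 q (hsub hq) hw hm hg hl)).trans
    (Real.rpow_le_rpow_of_exponent_le (by linarith) (by linarith [hE q hq]))

theorem ub_add {Ψ Ψ' : Λ → A → List Pc' → ℝ} (H : UB S D Ψ Dom al E) (H' : UB S D Ψ' Dom al E) :
    UB S D (fun lam a ps => Ψ lam a ps + Ψ' lam a ps) Dom al E := by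
  intro ε hε
  obtain ⟨δ₁, hδ₁, K₁⟩ := H (ε / 2) (by linarith)
  obtain ⟨δ₂, hδ₂, K₂⟩ := H' (ε / 2) (by linarith)
  refine ⟨min δ₁ δ₂, lt_min hδ₁ hδ₂, fun lam N B => ?_⟩
  obtain ⟨η₁, hη₁, X₁, hX₁, L₁⟩ := K₁ lam N B
  obtain ⟨η₂, hη₂, X₂, hX₂, L₂⟩ := K₂ lam N B
  obtain ⟨X₃, hX₃, HX₃⟩ := XSup271.exists_X (C := 2) (by norm_num) (ε := ε / 2) (by linarith)
  refine ⟨min η₁ η₂, lt_min hη₁ hη₂, max X₁ (max X₂ X₃), lt_of_lt_of_le hX₁ (le_max_left _ _),
    fun X hX a ps h1 h2 q hq hw hm hg hl => ?_⟩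
  have e1 : X₁ ≤ X := (le_max_left _ _).trans hX
  have e2 : X₂ ≤ X := ((le_max_left _ _).trans (le_max_right _ _)).trans hX
  have e3 : X₃ ≤ X := ((le_max_right _ _).trans (le_max_right _ _)).trans hX
  have hX1 : (1 : ℝ) ≤ X := by linarith
  have hX0 : (0 : ℝ) < X := by linarith
  have d1 : min δ₁ δ₂ ≤ δ₁ := min_le_left _ _
  have d2 : min δ₁ δ₂ ≤ δ₂ := min_le_right _ _
  have a1 := L₁ X e1 a ps h1 (fun p hp => (h2 p hp).imp id fun h => h.trans d1) q hq
    (hw.mono hX1 d1 le_rfl le_rfl (min_le_left _ _)) (fun t => (hm t).trans d1)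
    (XG702.Good_mono hX1 hg (min_le_left _ _)) hl
  have a2 := L₂ X e2 a ps h1 (fun p hp => (h2 p hp).imp id fun h => h.trans d2) q hq
    (hw.mono hX1 d2 le_rfl le_rfl (min_le_right _ _)) (fun t => (hm t).trans d2)
    (XG702.Good_mono hX1 hg (min_le_right _ _)) hl
  have a3 := HX₃ X e3
  calc Ψ lam a ps + Ψ' lam a ps ≤ 2 * X ^ (E q + ε / 2) := by linarith
    _ ≤ X ^ (ε / 2) * X ^ (E q + ε / 2) :=
        mul_le_mul_of_nonneg_right a3 (Real.rpow_nonneg hX0.le _)
    _ = X ^ (E q + ε) := by rw [← Real.rpow_add hX0]; congr 1; ring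

end ub

/-! ### large cubes -/

set_option maxHeartbeats 1000000 in
/-- **large cubes**: robust exponent from the families `i ≤ (17/20) κ` -/
theorem bgb_cubes {Λ Λ' : Type*} {Ψ : Λ' → Bd → List Pq → ℝ} {Φ : Λ → ℝ → List Pq → ℝ}
    (f : Λ' → Λ) (c : Λ' → ℝ) (js : List (Fin 5))
    (H : ∀ lam a ps, a.ok → 0 ≤ a.l + c lam → Ψ lam a ps ≤
      ∑ m ∈ (bl (Real.exp ((a.l + c lam) / 3))).filter (fun m => Real.exp (a.l / 20) < nm m),
        Φ (f lam) ((a.l + c lam) - 3 * Real.log (nm m)) ((js.map a.us ++ ps).map (Pq.tw m)))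
    (H0 : ∀ lam a ps, (¬ a.ok ∨ a.l + c lam < 0) → Ψ lam a ps ≤ 0)
    {p : Fin 3 ⊕ Fin 5 → ℝ} {u : List ℝ} {w : Kd → ℝ} {E : ℝ} (hκ : 0 ≤ cκ p)
    (h : ∀ i, 0 ≤ i → i ≤ 17 / 20 * cκ p →
      BG Dq Φ i (js.map (cu p) ++ u) w (E - (cκ p - i) / 3)) :
    BGB S5 Dq Ψ p u w E := by
  classical
  intro ε hε
  obtain ⟨κ, hκd⟩ : ∃ κ, κ = cκ p := ⟨_, rfl⟩
  rw [← hκd] at hκ h
  obtain ⟨v, hv⟩ : ∃ v, v = js.map (cu p) ++ u := ⟨_, rfl⟩
  rw [← hv] at h
  set S : Set (ℝ × (Fin v.length → ℝ) × (Kd → ℝ)) :=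
    (Set.Icc 0 (17 / 20 * κ)) ×ˢ {((fun i => v.get i), w)} with hS
  have hSc : IsCompact S := isCompact_Icc.prod isCompact_singleton
  have hvv : List.ofFn (fun i => v.get i) = v := List.ofFn_get v
  obtain ⟨δ₀, hδ₀, HU⟩ := XG702.unifG (D := Dq) (Ψ := Φ) hSc
    (T := fun p => E - (κ - p.1) / 3) (by fun_prop)
    (by
      rintro ⟨i, v'⟩ ⟨hi, hv'⟩
      rw [Set.mem_singleton_iff] at hv'
      subst hv'
      simp only
      rw [hvv]
      exact h i hi.1 hi.2) (ε := ε / 4) (by positivity)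
  set δ := min (δ₀ / 3) (min (ε / 4) 1) with hδd
  have hδ : 0 < δ := by positivity
  have hδ1 : 3 * δ ≤ δ₀ := by
    have := min_le_left (δ₀ / 3) (min (ε / 4) 1)
    linarith
  have hδ2 : δ ≤ ε / 4 := (min_le_right _ _).trans (min_le_left _ _)
  have hδ3 : δ ≤ 1 := (min_le_right _ _).trans (min_le_right _ _)
  refine ⟨δ, hδ, fun lam N B => ?_⟩
  obtain ⟨δ', hδ', X₀, hX₀, HX⟩ := HU (f lam) N (|B| + κ + 2)
  obtain ⟨X₁, hX₁⟩ : ∃ X₁ : ℝ, ∀ X, X₁ ≤ X → 100 * (1 + (κ + 2) * Real.log X) ≤ X ^ (ε / 4) := by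
    have h1 : (fun X : ℝ => 100 * (1 + (κ + 2) * Real.log X)) =o[Filter.atTop]
        fun X => X ^ (ε / 4) := by
      have a1 : (fun X : ℝ => Real.log X) =o[Filter.atTop] fun X => X ^ (ε / 4) :=
        isLittleO_log_rpow_atTop (by positivity)
      have a2 : (fun _ : ℝ => (1 : ℝ)) =o[Filter.atTop] fun X => X ^ (ε / 4) := by
        refine Asymptotics.isLittleO_const_left.2 (Or.inr ?_)
        exact tendsto_norm_atTop_atTop.comp (tendsto_rpow_atTop (by positivity))
      exact ((a2.add (a1.const_mul_left (κ + 2))).const_mul_left 100)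
    have h2 := h1.bound (by norm_num : (0 : ℝ) < 1)
    obtain ⟨X₁, h3⟩ := Filter.eventually_atTop.1 h2
    refine ⟨max X₁ 1, fun X hX => ?_⟩
    have h4 := h3 X ((le_max_left _ _).trans hX)
    rw [one_mul, Real.norm_eq_abs, Real.norm_eq_abs,
      abs_of_nonneg (Real.rpow_nonneg (by linarith [(le_max_right X₁ 1).trans hX]) _)] at h4
    exact (le_abs_self _).trans h4
  refine ⟨δ', hδ', max (max X₀ (Real.exp (|c lam| / δ))) (max X₁ 2),
    lt_of_lt_of_le hX₀ ((le_max_left _ _).trans (le_max_left _ _)), ?_⟩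
  intro X hX a us gs hw hnear hgran hgood
  have e1 : X₀ ≤ X := ((le_max_left _ _).trans (le_max_left _ _)).trans hX
  have e1' : Real.exp (|c lam| / δ) ≤ X := ((le_max_right _ _).trans (le_max_left _ _)).trans hX
  have e2 : X₁ ≤ X := ((le_max_left _ _).trans (le_max_right _ _)).trans hX
  have e3 : (2 : ℝ) ≤ X := ((le_max_right _ _).trans (le_max_right _ _)).trans hX
  have hX1 : 1 < X := by linarith
  have hX0 : 0 < X := by linarith
  have hlog : 0 < Real.log X := Real.log_pos hX1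
  by_cases hneg : ¬ a.ok ∨ a.l + c lam < 0
  · exact (H0 _ _ _ hneg).trans (Real.rpow_nonneg hX0.le _)
  push Not at hneg
  obtain ⟨hok, hl0⟩ := hneg
  have hk1 : |a.l / Real.log X - κ| ≤ δ := by
    have := hw.ev (.inl 0)
    rw [hκd]
    exact this
  have hk2 := abs_log_le (c := c lam) hδ e1' hX1
  obtain ⟨k, hkd⟩ : ∃ k, k = (a.l + c lam) / Real.log X := ⟨_, rfl⟩
  have hkX : k * Real.log X = a.l + c lam := by rw [hkd]; field_simp
  have hk3 : k = a.l / Real.log X + c lam / Real.log X := by rw [hkd, add_div]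
  have hk4 := abs_le.1 hk1
  have hk5 := abs_le.1 hk2
  have hk6 : k ≤ κ + 2 * δ := by rw [hk3]; linarith
  refine (H _ _ _ hok hl0).trans ?_
  have hterm : ∀ m ∈ (bl (Real.exp ((a.l + c lam) / 3))).filter
      (fun m => Real.exp (a.l / 20) < nm m),
      Φ (f lam) ((a.l + c lam) - 3 * Real.log (nm m))
        ((js.map a.us ++ (us ++ gs)).map (Pq.tw m)) ≤
        X ^ (E + ε / 4 + δ) * (1 / (nm m : ℝ)) := by
    intro m hm
    rw [Finset.mem_filter, mem_bl (Real.exp_pos _).le] at hm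
    obtain ⟨⟨hm0, hmX⟩, hmE⟩ := hm
    have hnm : (1 : ℝ) ≤ nm m := by exact_mod_cast nm_pos.2 hm0
    have hlm : 0 ≤ Real.log (nm m) := Real.log_nonneg hnm
    have hlm2 : Real.log (nm m) ≤ k * Real.log X / 3 := by
      have := Real.log_le_log (by linarith) hmX
      rwa [Real.log_exp, ← hkX] at this
    have hlm3 : a.l / 20 ≤ Real.log (nm m) := by
      have := Real.log_le_log (Real.exp_pos _) hmE.le
      rwa [Real.log_exp] at this
    obtain ⟨i, hi⟩ : ∃ i, i = k - 3 * Real.log (nm m) / Real.log X := ⟨_, rfl⟩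
    have hiX : i * Real.log X = (a.l + c lam) - 3 * Real.log (nm m) := by
      rw [hi, ← hkX]; field_simp
    have hi0 : 0 ≤ i := by
      by_contra hneg
      push Not at hneg
      have : i * Real.log X < 0 := mul_neg_of_neg_of_pos hneg hlog
      rw [hiX, ← hkX] at this
      linarith
    have hi1 : i ≤ 17 / 20 * κ + 3 * δ := by
      have h1 : 3 / 20 * (a.l / Real.log X) ≤ 3 * Real.log (nm m) / Real.log X := by
        rw [← mul_div_assoc]
        exact div_le_div_of_nonneg_right (by linarith) hlog.le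
      rw [hi]
      linarith
    have hlist : (js.map a.us ++ (us ++ gs)).map (Pq.tw m) =
        (js.map a.us ++ us).map (Pq.tw m) ++ gs.map (Pq.tw m) := by
      rw [← List.append_assoc, List.map_append]
    rw [← hiX, hlist]
    have hm := HX X e1 i ((js.map a.us ++ us).map (Pq.tw m)) (gs.map (Pq.tw m))
      (min i (17 / 20 * κ), ((fun i => v.get i), w))
      ⟨⟨le_min hi0 (by positivity), min_le_right _ _⟩, rfl⟩
      (by
        simp only
        rcases le_total i (17 / 20 * κ) with h5 | h5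
        · rw [min_eq_left h5, sub_self, abs_zero]; exact hδ₀.le
        · rw [min_eq_right h5, abs_of_nonneg (by linarith)]
          linarith)
      (by
        simp only
        rw [hvv, hv]
        exact XG702.Near_mono (tws_tw.near hm0 (Near_append (near_us hw hok js) hnear))
          (by linarith))
      (by
        simp only
        exact XG702.Gran_mono (tws_tw.gran hm0 hgran) (by linarith) le_rfl)
      (by
        rw [← List.map_append]
        intro q' hq'
        obtain ⟨q, hq, rfl⟩ := List.mem_map.1 hq'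
        have hq3 : Dq.s1 q ≤ X ^ δ' ∧ Dq.s2 q ≤ X ^ B ∧ 0 ≤ Dq.len q := by
          rw [List.append_assoc, List.mem_append] at hq
          rcases hq with hq | hq
          · obtain ⟨j, _, rfl⟩ := List.mem_map.1 hq
            exact good_us hw hok j
          · exact hgood q hq
        obtain ⟨g1, g2, g3⟩ := hq3
        refine ⟨?_, ?_, ?_⟩
        · rw [tws_tw.s1 m q hm0]; exact g1
        · refine (tws_tw.s2 m q hm0).trans ?_
          have n1 : (nm m : ℝ) ≤ X ^ (κ + 2) := by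
            refine hmX.trans ?_
            rw [Real.rpow_def_of_pos hX0, ← hkX]
            apply Real.exp_le_exp.2
            nlinarith
          calc Dq.s2 q * (nm m : ℝ) ≤ X ^ |B| * X ^ (κ + 2) := by
                have : Dq.s2 q ≤ X ^ |B| := g2.trans
                  (Real.rpow_le_rpow_of_exponent_le hX1.le (le_abs_self B))
                exact mul_le_mul this n1 (by linarith) (Real.rpow_nonneg hX0.le _)
            _ = X ^ (|B| + κ + 2) := by rw [← Real.rpow_add hX0]; congr 1; ring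
        · rw [tws_tw.len m q hm0]; exact g3)
    refine hm.trans ?_
    simp only
    have h6 : (1 / (nm m : ℝ)) = X ^ (-(Real.log (nm m) / Real.log X)) := by
      rw [Real.rpow_neg hX0.le, one_div]
      congr 1
      rw [Real.rpow_def_of_pos hX0]
      have : Real.log X * (Real.log (nm m) / Real.log X) = Real.log (nm m) := by field_simp
      rw [this, Real.exp_log (by linarith)]
    rw [h6, ← Real.rpow_add hX0]
    refine Real.rpow_le_rpow_of_exponent_le hX1.le ?_
    have h7 : Real.log (nm m) / Real.log X = (k - i) / 3 := by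
      rw [hi]; field_simp; ring
    rw [h7]
    have h8 : min i (17 / 20 * κ) ≤ i := min_le_left _ _
    linarith
  refine (Finset.sum_le_sum hterm).trans ?_
  rw [← Finset.mul_sum]
  have h8 : ∑ m ∈ (bl (Real.exp ((a.l + c lam) / 3))).filter
      (fun m => Real.exp (a.l / 20) < nm m), (1 / (nm m : ℝ)) ≤ X ^ (ε / 4) := by
    refine (Finset.sum_le_sum_of_subset_of_nonneg (Finset.filter_subset _ _)
      fun _ _ _ => by positivity).trans ?_
    refine (sum_inv_bl _).trans (le_trans ?_ (hX₁ X e2))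
    have h9 : Real.log (⌊Real.exp ((a.l + c lam) / 3)⌋₊ : ℝ) ≤ (κ + 2) * Real.log X := by
      have h10 : (⌊Real.exp ((a.l + c lam) / 3)⌋₊ : ℝ) ≤ Real.exp ((a.l + c lam) / 3) :=
        Nat.floor_le (Real.exp_pos _).le
      rcases (Nat.cast_nonneg (α := ℝ) ⌊Real.exp ((a.l + c lam) / 3)⌋₊).eq_or_lt with h11 | h11
      · rw [← h11, Real.log_zero]; positivity
      · have := Real.log_le_log h11 h10
        rw [Real.log_exp] at this
        have h12 : k / 3 * Real.log X ≤ (κ + 2) * Real.log X :=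
          mul_le_mul_of_nonneg_right (by linarith) hlog.le
        linarith
    linarith
  calc X ^ (E + ε / 4 + δ) * ∑ m ∈ (bl (Real.exp ((a.l + c lam) / 3))).filter
        (fun m => Real.exp (a.l / 20) < nm m), (1 / (nm m : ℝ))
      ≤ X ^ (E + ε / 4 + δ) * X ^ (ε / 4) := by gcongr
    _ = X ^ (E + ε / 2 + δ) := by rw [← Real.rpow_add hX0]; congr 1; ring
    _ ≤ X ^ (E + ε) := Real.rpow_le_rpow_of_exponent_le hX1.le (by linarith)

/-! ### principal `k` -/

lemma norm_VV (P : DPar) (h : ℝ → ℝ) (k : Eis) (ps : List Pq) :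
    ‖VV P h ps k‖ = (ps.map (GG P h k)).prod := by
  induction ps with
  | nil => simp [VV]
  | cons p ps ih =>
    have e : VV P h (p :: ps) k = Vp P h k p * VV P h ps k := by simp [VV]
    rw [e, norm_mul, ih, norm_Vp, List.map_cons, List.prod_cons]
    rfl

open Classical in
/-- **the boxes over the principal `k`** -/
theorem bad_abs (P : DPar) (hP : P.OK) {h : ℝ → ℝ} {c₀ : ℝ} (hpu : PU h c₀) (N : ℕ) {ε : ℝ}
    (hε : 0 < ε) : ∃ C : ℝ, 0 ≤ C ∧
    ∀ K : ℝ, 0 < K → ∀ (M T : ℝ), 1 ≤ M → 1 ≤ T → ∀ ps : List Pq, ps.length ≤ N →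
      (∀ p ∈ ps, (nm p.d : ℝ) ≤ M ∧ 1 + |p.t| ≤ T) →
      ∑ k ∈ (bl K).filter (Bad P), (ps.map (GG P h k)).prod ≤
        C * (M * (1 + K)) ^ ε * T ^ (4 * N) * (K ^ (1 / 3 : ℝ) * Real.exp ((ps.map zl).sum)) := by
  set s : ℝ := ε / (N + 1) with hs
  have hs0 : 0 < s := by positivity
  obtain ⟨Ca, hCa, ha⟩ := one_bad (cd_cx hpu.cd) (cs_cx hpu.cs) hP.φ hP.ψ P.l₁ P.l₂ hs0
  obtain ⟨Cb, hCb, hb⟩ := CS_triv hpu
  refine ⟨(Ca * Cb) ^ N * 18, by positivity, ?_⟩
  intro K hK M T hM hT ps hN hps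
  set X : ℝ := M * (1 + K) with hX
  have hX1 : 1 ≤ X := one_le_mul_of_one_le_of_one_le hM (by linarith)
  have hXs : 1 ≤ X ^ s := Real.one_le_rpow hX1 hs0.le
  have hT4 : 1 ≤ T ^ 4 := one_le_pow₀ hT
  set E : ℝ := Ca * Cb * X ^ s * T ^ 4 with hE
  have hCC : 1 ≤ Ca * Cb := one_le_mul_of_one_le_of_one_le hCa hCb
  have hE1 : 1 ≤ E := one_le_mul_of_one_le_of_one_le (one_le_mul_of_one_le_of_one_le hCC hXs) hT4
  set S := (bl K).filter fun k => Bad P k with hSdef
  set V : ℝ := E ^ N * Real.exp ((ps.map zl).sum) with hV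
  have hV0 : 0 ≤ V := by positivity
  have hone : ∀ k ∈ S, (ps.map (GG P h k)).prod ≤ V := by
    intro k hk
    rw [hSdef, Finset.mem_filter, mem_bl hK.le] at hk
    obtain ⟨⟨hk0, hkK⟩, hbad⟩ := hk
    rw [← norm_VV]
    exact prod_q (P := P) (h := h) (k := k) hE1 ps hN fun p hp => by
      refine piece_q P hP hs0 hCa hCb ha hb hT hk0 hbad ?_ (hps p hp).2
      rw [hX]
      have := (hps p hp).1
      have hk1 : (nm k : ℝ) ≤ 1 + K := by linarith
      gcongr
  rcases lt_or_ge K 1 with hK1 | hK1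
  · have hemp : S = ∅ := by
      rw [hSdef, Finset.filter_eq_empty_iff]
      intro k hk
      rw [mem_bl hK.le] at hk
      have : (1 : ℝ) ≤ nm k := by exact_mod_cast nm_pos.mpr hk.1
      linarith
    rw [hemp, Finset.sum_empty]
    positivity
  have hcard : (S.card : ℝ) ≤ 18 * K ^ (1 / 3 : ℝ) := by
    have h1 : 1 ≤ ⌊K⌋₊ := by rwa [Nat.one_le_floor_iff]
    have h2 := NatP401.card_principal hP.φ P.l₁ h1 S fun k hk => by
      rw [hSdef, Finset.mem_filter, mem_bl hK.le] at hk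
      refine ⟨?_, hk.1.1, hk.2.2⟩
      rw [mem_ball]
      exact Nat.le_floor hk.1.2
    refine h2.trans ?_
    have h3 : (⌊K⌋₊ : ℝ) ≤ K := Nat.floor_le hK.le
    gcongr
  calc ∑ k ∈ S, (ps.map (GG P h k)).prod ≤ ∑ _k ∈ S, V := Finset.sum_le_sum hone
    _ = S.card * V := by rw [Finset.sum_const, nsmul_eq_mul]
    _ ≤ (18 * K ^ (1 / 3 : ℝ)) * V := mul_le_mul_of_nonneg_right hcard hV0
    _ ≤ _ := by
        have e1 : (X ^ s) ^ N ≤ X ^ ε := by
          rw [← Real.rpow_natCast (X ^ s) N, ← Real.rpow_mul (by linarith)]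
          refine Real.rpow_le_rpow_of_exponent_le hX1 ?_
          rw [hs, div_mul_eq_mul_div, div_le_iff₀ (by positivity)]
          nlinarith
        have e2 : E ^ N = (Ca * Cb) ^ N * (X ^ s) ^ N * T ^ (4 * N) := by
          rw [hE, mul_pow, mul_pow, ← pow_mul]
        rw [hV, e2]
        have e3 : (18 * K ^ (1 / 3 : ℝ)) * ((Ca * Cb) ^ N * (X ^ s) ^ N * T ^ (4 * N) *
            Real.exp ((ps.map zl).sum)) = ((Ca * Cb) ^ N * 18) * (X ^ s) ^ N * T ^ (4 * N) *
            (K ^ (1 / 3 : ℝ) * Real.exp ((ps.map zl).sum)) := by ring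
        rw [e3]
        gcongr

end Crest.Agent.R017.E5M372
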