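import Crest.Agent.R017.Hi3_54
import Crest.Agent.R017.E5Mc_372

/-!
# Row 17, StrU, the blocks outside the windows (helper54): texts and the union of the bands

* `SfD` : the `e`-blocks between `e1` and `e0` of one level; `SfB` : the powerful tuples between two cuts
* `HiD`, `HiB` : their second moments; `HND`, `HNB` : one natural triple
* `midF_3` : `MidF` of one level by the three parts
* `ub_union` : `UB` on a finite union
-/

set_option autoImplicit false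

noncomputable section

open Finset
open scoped ComplexConjugate

namespace Crest.Agent.R017.Hi754

open Crest.Agent.R012 Crest.Agent.R012.Eis
open Crest.Agent.R012.Mob705 hiding pb mem_pb
open Crest.Agent.R012.LS2 (S mem_S)
open Crest.Agent.R017.CM106 Crest.Agent.R017.C70
open Crest.Agent.R017.FE47 (PU cx SM)
open Crest.Agent.R017.E2440 (TE StE)
open Crest.Agent.R017.P1e54 Crest.Agent.R017.P1f54 Crest.Agent.R017.P1i54 Crest.Agent.R017.P1j54
open Crest.Agent.R017.P1k54 Crest.Agent.R017.P1l54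
open Crest.Agent.R017.HP842 (Pc pc al alL cv Tu mem_Tu sqc Th)
open Crest.Agent.R017.B770 Crest.Agent.R017.Prov71
open Crest.Agent.R017.XG702 (Pcs Good_mono)
open Crest.Agent.R017.XT71 (Sys Win mx)
open Crest.Agent.R017.UM71 Crest.Agent.R017.End699
open Crest.Agent.R017.E5B71 Crest.Agent.R017.E5P571 Crest.Agent.R017.E5L770
open Crest.Agent.R017.Hi154

section

variable {Λ : Type*} (π : Λ → DPar) (h : ℝ → ℝ)

/-- the cut `b l` of the powerful tuples -/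
def bC (b l N z : ℝ) : ℝ := min (b * l) (bfO l N z)

/-- **the `e`-blocks between `e1` and `e0`** of one level -/
def SfD (e1 e0 r : ℝ) (Bf : ℝ → ℝ → ℝ → ℝ) (Jf : ℝ → ℝ → ℝ → Finset (Eis × Eis)) (i : ℕ) :
    SF Λ := fun lam t l ps z k =>
  SfV π h e0 r Bf Jf i lam t l ps z k - SfV π h e1 r Bf Jf i lam t l ps z k

/-- **the powerful tuples between the cuts `B1` and `B0`** of one level -/
def SfB (e0 r : ℝ) (B1 B0 : ℝ → ℝ → ℝ → ℝ) (Jf : ℝ → ℝ → ℝ → Finset (Eis × Eis)) (i : ℕ) :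
    SF Λ := fun lam t l ps z k =>
  SfV π h e0 r B0 Jf i lam t l ps z k - SfV π h e0 r B1 Jf i lam t l ps z k

/-- **HiD** : the second moment of the `e`-blocks, all levels between `lo` and `hi` -/
def HiD (e1 e0 r : ℝ) (Bf : ℝ → ℝ → ℝ → ℝ) (Par : Set (Fin 3 ⊕ Fin 5 → ℝ))
    (lo hi LH : (Fin 3 ⊕ Fin 5 → ℝ) → ℝ) (al : Set ((Option (Fin 3 ⊕ Fin 5) → ℝ) × ℝ)) : Prop :=
  ∀ R : Λ → ℝ, (∀ lam, 0 ≤ R lam) → UB (lev (Real.log 2) S5) Dq
    (fun lam (a : Bd × ℕ) _ => HiF π (SfD π h e1 e0 r Bf Jo a.2) R lam a.1)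
    {q | (fun i => q.1 (some i)) ∈ Par ∧ lo (fun i => q.1 (some i)) ≤ q.1 none ∧
      q.1 none ≤ hi (fun i => q.1 (some i))} al
    (fun q => cκ (fun i => q.1 (some i)) + cN (fun i => q.1 (some i)) +
      LH (fun i => q.1 (some i)))

/-- **HiB** : the second moment of the powerful tuples above the cut `b l` -/
def HiB (e0 r b : ℝ) (Par : Set (Fin 3 ⊕ Fin 5 → ℝ))
    (lo hi LH : (Fin 3 ⊕ Fin 5 → ℝ) → ℝ) (al : Set ((Option (Fin 3 ⊕ Fin 5) → ℝ) × ℝ)) : Prop :=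
  ∀ R : Λ → ℝ, (∀ lam, 0 ≤ R lam) → UB (lev (Real.log 2) S5) Dq
    (fun lam (a : Bd × ℕ) _ => HiF π (SfB π h e0 r (bC b) bfO Jo a.2) R lam a.1)
    {q | (fun i => q.1 (some i)) ∈ Par ∧ lo (fun i => q.1 (some i)) ≤ q.1 none ∧
      q.1 none ≤ hi (fun i => q.1 (some i))} al
    (fun q => cκ (fun i => q.1 (some i)) + cN (fun i => q.1 (some i)) +
      LH (fun i => q.1 (some i)))

/-- the difference of two structured functions -/
def StD (E1 E0 : ℝ) (J : Finset (Eis × Eis)) (om : Eis × Eis → ℂ) (α : Eis → ℂ) (k : Eis) : ℂ :=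
  StE E0 J om α k - StE E1 J om α k

open Classical in
/-- **the second moment of the `e`-blocks of one level, one natural triple** (level `a.2`) -/
def HndC (e1 e0 : ℝ) (R : Λ → ℝ) (lam : Λ × Eis) (a : Bc × ℕ) (_ : List Pq) : ℝ :=
  if okC (π lam.1) lam.2 a.1 [] then
    M2 (uM (R lam.1) (Real.exp a.1.1.l) (Real.exp (a.1.1.l / 20)))
      (StD (Real.exp (e1 * a.1.1.l)) (Real.exp (e0 * a.1.1.l)) (Jo a.1.1.l (a3 a.1.1) a.1.1.z)
        (omL a.2) (sqc 1 (alL h ((List.ofFn a.1.2).map (Pt (π lam.1) lam.2)))))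
  else 0

/-- **HND** : the `e`-blocks of one level of one natural triple -/
def HND (e1 e0 : ℝ) (Par : Set (Fin 3 ⊕ Fin 5 → ℝ)) (lo hi LH : (Fin 3 ⊕ Fin 5 → ℝ) → ℝ) :
    Prop :=
  ∀ R : Λ → ℝ, (∀ lam, 0 ≤ R lam) → UB (lev (Real.log 2) S8) Dq (HndC π h e1 e0 R)
    (DomH Par lo hi) ∅ (fun q => cκ (fun i => q.1 (some (.inl i))) +
      ∑ i : Fin 3, q.1 (some (.inr i)) + LH (fun i => q.1 (some (.inl i))))

/-- configurations which lost `b κ` -/
def DomHB (b : ℝ) (Par : Set (Fin 3 ⊕ Fin 5 → ℝ)) (lo hi : (Fin 3 ⊕ Fin 5 → ℝ) → ℝ) :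
    Set ((Option ((Fin 3 ⊕ Fin 5) ⊕ Fin 3) → ℝ) × (Kd → ℝ)) :=
  {q | q ∈ DomH Par lo hi ∧ ∑ i : Fin 3, q.1 (some (.inr i)) ≤
    max (cN (fun i => q.1 (some (.inl i))) - b * cκ (fun i => q.1 (some (.inl i))))
      (cκ (fun i => q.1 (some (.inl i))) / 2 - 2 * cx' (fun i => q.1 (some (.inl i))))}

/-- **HNB** : one level of one natural triple which lost `b κ` -/
def HNB (e0 b : ℝ) (Par : Set (Fin 3 ⊕ Fin 5 → ℝ)) (lo hi LH : (Fin 3 ⊕ Fin 5 → ℝ) → ℝ) :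
    Prop :=
  ∀ R : Λ → ℝ, (∀ lam, 0 ≤ R lam) → UB (lev (Real.log 2) S8) Dq (HnC π h e0 R)
    (DomHB b Par lo hi) ∅ (fun q => cκ (fun i => q.1 (some (.inl i))) +
      ∑ i : Fin 3, q.1 (some (.inr i)) + LH (fun i => q.1 (some (.inl i))))

/-- **the three parts of one level** -/
theorem midF_3 {π : Λ → DPar} {h : ℝ → ℝ} {lam : Λ × Eis} (hP : (π lam.1).OK) (a : Bd)
    (ps : List Pq) (e1 e0 r : ℝ) (B1 B0 : ℝ → ℝ → ℝ → ℝ)
    (Jf : ℝ → ℝ → ℝ → Finset (Eis × Eis)) (i : ℕ) :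
    MidF π h (SfV π h e0 r B0 Jf i) lam a ps ≤ MidF π h (SfV π h e1 r B1 Jf i) lam a ps +
      MidF π h (SfD π h e1 e0 r B1 Jf i) lam a ps +
      MidF π h (SfB π h e0 r B1 B0 Jf i) lam a ps := by
  have h1 := midF_le_sum π h hP a ps (univ : Finset (Fin 3)) (SfV π h e0 r B0 Jf i)
    ![SfV π h e1 r B1 Jf i, SfD π h e1 e0 r B1 Jf i, SfB π h e0 r B1 B0 Jf i] (fun k => by
      rw [Fin.sum_univ_three]
      show _ = SF.at (SfV π h e1 r B1 Jf i) lam a k + SF.at (SfD π h e1 e0 r B1 Jf i) lam a k +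
        SF.at (SfB π h e0 r B1 B0 Jf i) lam a k
      unfold SF.at SfD SfB
      ring)
  rwa [Fin.sum_univ_three] at h1

end

section union

variable {A ι τ Λ : Type*} {Pp : Type*} [DecidableEq τ] {S : Sys A ι} {D : Pcs Pp τ}
  {Ψ : Λ → A → List Pp → ℝ} {al : Set ((ι → ℝ) × ℝ)} {E : (ι → ℝ) × (τ → ℝ) → ℝ}

lemma ub_empty : UB S D Ψ ∅ al E := fun _ _ =>
  ⟨1, one_pos, fun _ _ _ => ⟨1, one_pos, 2, one_lt_two, fun _ _ _ _ _ _ _ hq => absurd hq
    (Set.notMem_empty _)⟩⟩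

/-- two domains -/
theorem ub_or {D₁ D₂ : Set ((ι → ℝ) × (τ → ℝ))} (H₁ : UB S D Ψ D₁ al E)
    (H₂ : UB S D Ψ D₂ al E) : UB S D Ψ (D₁ ∪ D₂) al E := by
  intro ε hε
  obtain ⟨δ₁, hδ₁, K₁⟩ := H₁ ε hε
  obtain ⟨δ₂, hδ₂, K₂⟩ := H₂ ε hε
  refine ⟨min δ₁ δ₂, lt_min hδ₁ hδ₂, fun lam N B => ?_⟩
  obtain ⟨η₁, hη₁, X₁, hX₁, K₁⟩ := K₁ lam N B
  obtain ⟨η₂, hη₂, X₂, hX₂, K₂⟩ := K₂ lam N B
  refine ⟨min η₁ η₂, lt_min hη₁ hη₂, max X₁ X₂, lt_max_of_lt_left hX₁, ?_⟩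
  intro X hX a ps hl hz q hq hw hm hg hlu
  have x1 : X₁ ≤ X := (le_max_left _ _).trans hX
  have x2 : X₂ ≤ X := (le_max_right _ _).trans hX
  have hX1 : 1 ≤ X := by linarith
  rcases hq with hq | hq
  · exact K₁ X x1 a ps hl (fun p hp => (hz p hp).imp id fun h => h.trans (min_le_left _ _)) q hq
      (hw.mono hX1 (min_le_left _ _) le_rfl le_rfl (min_le_left _ _))
      (fun t => (hm t).trans (min_le_left _ _)) (Good_mono hX1 hg (min_le_left _ _)) hlu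
  · exact K₂ X x2 a ps hl (fun p hp => (hz p hp).imp id fun h => h.trans (min_le_right _ _)) q hq
      (hw.mono hX1 (min_le_right _ _) le_rfl le_rfl (min_le_right _ _))
      (fun t => (hm t).trans (min_le_right _ _)) (Good_mono hX1 hg (min_le_right _ _)) hlu

/-- **a finite union of domains** -/
theorem ub_union {κ : Type*} (s : Finset κ) (Dj : κ → Set ((ι → ℝ) × (τ → ℝ)))
    (H : ∀ j ∈ s, UB S D Ψ (Dj j) al E) : UB S D Ψ {q | ∃ j ∈ s, q ∈ Dj j} al E := by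
  classical
  induction s using Finset.induction_on with
  | empty =>
    have e : {q | ∃ j ∈ (∅ : Finset κ), q ∈ Dj j} = ∅ := by ext q; simp
    rw [e]
    exact ub_empty
  | insert j s hj ih =>
    have e : {q | ∃ j' ∈ insert j s, q ∈ Dj j'} = Dj j ∪ {q | ∃ j ∈ s, q ∈ Dj j} := by
      ext q; simp
    rw [e]
    exact ub_or (H j (mem_insert_self _ _)) (ih fun j' hj' => H j' (mem_insert_of_mem hj'))

end union

end Crest.Agent.R017.Hi754
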