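import Crest.Agent.R017.E5H_319
import Crest.Agent.R017.Hi7_54

/-!
# Row 17, StrU: the bands (helper319), in helper54's literals

* `strU_of_bands` : `LowB` (helper436, helper164), `HiD`, `HiB` (helper48), the level tails and
  `MomU` give `StrU` for the official structured function
-/

set_option autoImplicit false

noncomputable section

open Finset
open scoped ComplexConjugate

namespace Crest.Agent.R017.E5I319

open Crest.Agent.R012 Crest.Agent.R012.Eis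
open Crest.Agent.R017.XG702 (Pcs)
open Crest.Agent.R017.XT71 (Sys Win)
open Crest.Agent.R017.B770 Crest.Agent.R017.Prov71
open Crest.Agent.R017.E5B71 Crest.Agent.R017.E5P571 Crest.Agent.R017.E5L770
open Crest.Agent.R017.E5H319 hiding SfD HiD LowD BandD eT bT
open Crest.Agent.R017.Hi154 (HiF)
open Crest.Agent.R017.Hi754 (bC SfD SfB HiD HiB)
open Crest.Agent.R017.P1l54 (Jo)

variable {Λ : Type*} {π : Λ → DPar} {h : ℝ → ℝ}

lemma hiG_add {S T U : SF Λ} {lam : Λ × Eis} {a : Bd}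
    (hs : ∀ k, S.at lam a k = T.at lam a k + U.at lam a k) (R : Λ → ℝ) :
    HiG π S R lam a ≤ (HiG π T R lam a + HiG π T R lam a) +
      (HiG π U R lam a + HiG π U R lam a) := by
  classical
  unfold HiG
  split_ifs
  · rw [← sum_add_distrib, ← sum_add_distrib, ← sum_add_distrib]
    refine sum_le_sum fun k _ => ?_
    rw [hs k]
    have h1 := norm_add_le (T.at lam a k) (U.at lam a k)
    have h2 := pow_le_pow_left₀ (norm_nonneg _) h1 2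
    nlinarith [sq_nonneg (‖T.at lam a k‖ - ‖U.at lam a k‖)]
  · simp

/-- fewer conditions on the lumps -/
theorem ub_al {T Pc' ι τ Λ : Type*} [DecidableEq τ] {S : Sys T ι} {D : Pcs Pc' τ}
    {Ψ : Λ → T → List Pc' → ℝ} {Dom : Set ((ι → ℝ) × (τ → ℝ))} {al al' : Set ((ι → ℝ) × ℝ)}
    {E : (ι → ℝ) × (τ → ℝ) → ℝ} (h : UB S D Ψ Dom al E) (hs : al' ⊆ al) :
    UB S D Ψ Dom al' E := by
  intro ε hε
  obtain ⟨δ, hδ, H⟩ := h ε hε
  refine ⟨δ, hδ, fun lam N B => ?_⟩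
  obtain ⟨δ', hδ', X₀, hX₀, H'⟩ := H lam N B
  exact ⟨δ', hδ', X₀, hX₀, fun X hX a ps h1 h2 q hq hw hm hg hl =>
    H' X hX a ps h1 h2 q hq hw hm hg fun p hp hpl => hs (hl p hp hpl)⟩

/-- the middle term of the band with the cuts `e1`, `b` between the levels -/
def LowB (π : Λ → DPar) (h : ℝ → ℝ) (e1 b r A d μ : ℝ) (lo hi : (Fin 3 ⊕ Fin 5 → ℝ) → ℝ) :
    Prop :=
  UB (lev (Real.log 2) S5) Dq
    (fun lam a ps => if a.2 < nL a.1.l (a3 a.1) a.1.z then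
      MidF π h (SfV π h e1 r (bC b) Jo a.2) lam a.1 ps else 0)
    {q | q ∈ SqL A d ∧ lo (dn q.1) ≤ q.1 none ∧ q.1 none ≤ hi (dn q.1)} (alL al5)
    fun q => T5 (7 / 8 + d) (dn q.1, q.2) - μ

/-- **one band** -/
theorem band_of (hP : ∀ lam, (π lam).OK) {A d μ μ' : ℝ} (hd : 0 ≤ d) (hμ : μ' ≤ μ)
    (hμd : μ' ≤ d / 9) {e0 e1 b r : ℝ} {lo hi : (Fin 3 ⊕ Fin 5 → ℝ) → ℝ}
    {Par : Set (Fin 3 ⊕ Fin 5 → ℝ)} (hPar : ∀ q ∈ SqD A d, q.1 ∈ Par)
    {LH : (Fin 3 ⊕ Fin 5 → ℝ) → ℝ} (hLH : ∀ p ∈ Par, LH p ≤ LR d p)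
    {al₁ al₂ : Set ((Option (Fin 3 ⊕ Fin 5) → ℝ) × ℝ)}
    (low : LowB π h e1 b r A d μ lo hi)
    (hD : HiD π h e1 e0 r (bC b) Par lo hi LH al₁)
    (hB : HiB π h e0 r b Par lo hi LH al₂)
    (tl0 : TailL π h e0 r bfO Jo A d μ) (tl1 : TailL π h e1 r (bC b) Jo A d μ)
    (hm : MomU π h A d) :
    UB (lev (Real.log 2) S5) Dq
      (fun lam a ps => if a.2 < nL a.1.l (a3 a.1) a.1.z then
        MidF π h (SfV π h e0 r bfO Jo a.2) lam a.1 ps else 0)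
      {q | q ∈ SqL A d ∧ lo (dn q.1) ≤ q.1 none ∧ q.1 none ≤ hi (dn q.1)} (alL al5)
      fun q => T5 (7 / 8 + d) (dn q.1, q.2) - μ' := by
  set DH : Set ((Option (Fin 3 ⊕ Fin 5) → ℝ) × (Kd → ℝ)) :=
    {q | (fun i => q.1 (some i)) ∈ Par ∧ lo (fun i => q.1 (some i)) ≤ q.1 none ∧
      q.1 none ≤ hi (fun i => q.1 (some i))} with hDH
  have le1 : ∀ q ∈ DH, cκ (fun i => q.1 (some i)) + cN (fun i => q.1 (some i)) +
      LH (fun i => q.1 (some i)) ≤ cκ (dn q.1) + cN (dn q.1) + LR d (dn q.1) := by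
    intro q hq
    have := hLH _ hq.1
    have e : (fun i => q.1 (some i)) = dn q.1 := rfl
    rw [e] at this ⊢
    linarith
  refine rest_of (S1 := fun i => SfV π h e0 r bfO Jo i) (S2 := fun i => SfV π h e1 r (bC b) Jo i)
    (DomH := DH) (al' := (∅ : Set _)) hP hd hμ hμd (fun q hq => hq.1) ?_ low ?_
    (fun R hR => ub_sub (tl0 R hR) fun q hq => hq.1)
    (fun R hR => ub_sub (tl1 R hR) fun q hq => hq.1) hm
  · intro q hq
    exact ⟨hPar _ hq.1.1, hq.2.1, hq.2.2⟩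
  · intro R hR
    have f1 : UB (lev (Real.log 2) S5) Dq
        (fun lam (a : Bd × ℕ) _ => HiG π (SfD π h e1 e0 r (bC b) Jo a.2) R lam a.1) DH ∅
        fun q => cκ (dn q.1) + cN (dn q.1) + LR d (dn q.1) :=
      ub_al (E5M372.ub_mono' subset_rfl le1 (fun _ _ _ => le_rfl) (hD R hR))
        (Set.empty_subset _)
    have f2 : UB (lev (Real.log 2) S5) Dq
        (fun lam (a : Bd × ℕ) _ => HiG π (SfB π h e0 r (bC b) bfO Jo a.2) R lam a.1) DH ∅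
        fun q => cκ (dn q.1) + cN (dn q.1) + LR d (dn q.1) :=
      ub_al (E5M372.ub_mono' subset_rfl le1 (fun _ _ _ => le_rfl) (hB R hR))
        (Set.empty_subset _)
    refine E5M372.ub_mono' subset_rfl (fun _ _ => le_rfl) (fun lam a _ => ?_)
      (E5M372.ub_add (E5M372.ub_add f1 f1) (E5M372.ub_add f2 f2))
    refine hiG_add (T := SfD π h e1 e0 r (bC b) Jo a.2)
      (U := SfB π h e0 r (bC b) bfO Jo a.2) (fun k => ?_) R
    unfold SF.at subS SfD SfB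
    ring

/-- cut of `e` on the band `j` (helper54) -/
def eJ (e0 g d : ℝ) (j : ℕ) : ℝ := min e0 ((j * g + d / 2) / 4)

/-- cut of the powerful part on the band `j` (helper54) -/
def bJ (g d : ℝ) (j : ℕ) : ℝ := (j * g + d / 2) / 2

/-- lower end of the band `j` -/
def loJ (lo : (Fin 3 ⊕ Fin 5 → ℝ) → ℝ) (g : ℝ) (j : ℕ) (p : Fin 3 ⊕ Fin 5 → ℝ) : ℝ :=
  lo p - (j + 1) * g * cκ p

/-- upper end of the band `j` -/
def hiJ (lo : (Fin 3 ⊕ Fin 5 → ℝ) → ℝ) (g : ℝ) (j : ℕ) (p : Fin 3 ⊕ Fin 5 → ℝ) : ℝ :=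
  lo p - j * g * cκ p

/-- **StrU from the bands**, helper54's literals -/
theorem strU_of_bands (hP : ∀ lam, (π lam).OK) {A d μ μ' : ℝ} (hA : 2 / 3 ≤ A) (hd : 0 ≤ d)
    (hμ : μ' ≤ μ) (hμd : μ' ≤ d / 9) {e0 r : ℝ} {lo : (Fin 3 ⊕ Fin 5 → ℝ) → ℝ}
    (hlo : ∀ q ∈ SqD A d, top5 q.1 ≤ lo q.1) {g : ℝ} (hg : 0 < g) {J : ℕ} (hJ0 : 0 < J)
    (hJ : ∀ q ∈ SqD A d, lo q.1 ≤ J * g * cκ q.1)
    {Par : Set (Fin 3 ⊕ Fin 5 → ℝ)} (hPar : ∀ q ∈ SqD A d, q.1 ∈ Par)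
    {LH : (Fin 3 ⊕ Fin 5 → ℝ) → ℝ} (hLH : ∀ p ∈ Par, LH p ≤ LR d p)
    {al₁ al₂ : Set ((Option (Fin 3 ⊕ Fin 5) → ℝ) × ℝ)}
    (low : ∀ j < J, LowB π h (eJ e0 g d j) (bJ g d j) r A d μ (loJ lo g j) (hiJ lo g j))
    (hD : ∀ j < J, HiD π h (eJ e0 g d j) e0 r (bC (bJ g d j)) Par (loJ lo g j) (hiJ lo g j) LH al₁)
    (hB : ∀ j < J, HiB π h e0 r (bJ g d j) Par (loJ lo g j) (hiJ lo g j) LH al₂)
    (tl0 : TailL π h e0 r bfO Jo A d μ)
    (tl : ∀ j < J, TailL π h (eJ e0 g d j) r (bC (bJ g d j)) Jo A d μ) (hm : MomU π h A d) :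
    StrU π h (7 / 8 + d) (SfP π h e0 r bfO Jo nL) A d μ' := by
  refine E5L3770.strU_of_lev_gate π h hP hA e0 r bfO Jo ?_
  refine ub_sub (ub_range J fun j hj => band_of hP hd hμ hμd hPar hLH (low j hj) (hD j hj)
    (hB j hj) tl0 (tl j hj) hm) ?_
  intro q hq
  have hSq : Sq5 A d (dn q.1) q.2 := hq.1
  have hκ : 0 < cκ (dn q.1) := hSq.κpos
  have l1 := hlo _ hq.1
  have l2 := hJ _ hq.1
  simp only at l1 l2
  have hv0 := hq.2.1
  have hv1 := hq.2.2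
  have hgκ : 0 < g * cκ (dn q.1) := mul_pos hg hκ
  set y : ℝ := (lo (dn q.1) - q.1 none) / (g * cκ (dn q.1)) with hy
  have y0 : 0 ≤ y := div_nonneg (by linarith) hgκ.le
  have y2 : y * (g * cκ (dn q.1)) = lo (dn q.1) - q.1 none := by
    rw [hy]; field_simp
  have f1 := Nat.floor_le y0
  have f2 := Nat.lt_floor_add_one y
  have g1 := mul_le_mul_of_nonneg_right f1 hgκ.le
  have g2 := mul_le_mul_of_nonneg_right f2.le hgκ.le
  by_cases hc : ⌊y⌋₊ < J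
  · refine ⟨⌊y⌋₊, hc, hq, ?_, ?_⟩
    · show lo (dn q.1) - ((⌊y⌋₊ : ℕ) + 1) * g * cκ (dn q.1) ≤ q.1 none
      linarith
    · show q.1 none ≤ lo (dn q.1) - (⌊y⌋₊ : ℕ) * g * cκ (dn q.1)
      linarith
  · -- `v = 0`, the last band
    push Not at hc
    have hJy : (J : ℝ) ≤ y := (Nat.cast_le.2 hc).trans f1
    have g3 := mul_le_mul_of_nonneg_right hJy hgκ.le
    have hv : q.1 none = 0 := by linarith
    refine ⟨J - 1, by omega, hq, ?_, ?_⟩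
    · show lo (dn q.1) - (((J - 1 : ℕ) : ℝ) + 1) * g * cκ (dn q.1) ≤ q.1 none
      have : (((J - 1 : ℕ) : ℝ) + 1) = J := by
        have : J - 1 + 1 = J := by omega
        exact_mod_cast this
      rw [this]
      linarith
    · show q.1 none ≤ lo (dn q.1) - ((J - 1 : ℕ) : ℝ) * g * cκ (dn q.1)
      have : ((J - 1 : ℕ) : ℝ) ≤ J := by exact_mod_cast Nat.sub_le _ _
      have h5 := mul_le_mul_of_nonneg_right this hgκ.le
      linarith

end Crest.Agent.R017.E5I319
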