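import Crest.Agent.R017.E5BDefs_71
import Crest.Agent.R017.XCub_71
import Crest.Agent.R017.XHB4_411

/-!
# Row 17, P8: the second moment and the tail of the box, functional part (helper372)

* `norm_PC`, `tail_term` : the products of the character sums at `t k`
* `momF_le` : `MomF ≤ Rc (π lam) h (l + R + log N t) (u₁ :: u₂ :: ps)`
* `tailC_le` : `TailC ≤ FA + FB` : `k = k₁ m³`, `N m > e^{l/20}`, and the `k` with `φ conj χ_k`
  principal
* `FA_le` : `FA ≤ ∑_{m, N m > E₁} Bp (l - 3 log N m) (tw m)`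
* `bgb_of_bg` : robust exponents with marked pieces from `BG`
* `bgb_cubes` : the same for a sum over large cubes
* `bad_abs`, `bgb_bad` : the principal `k`
-/

set_option autoImplicit false
set_option linter.unusedSectionVars false

noncomputable section

open Complex
open scoped ComplexConjugate

namespace Crest.Agent.R017.E5M372

open Crest.Agent.R012 Crest.Agent.R012.Eis
open Crest.Agent.R012.LS2 (bl mem_bl)
open Crest.Agent.R012.Mob705
open Crest.Agent.R017.CM106 Crest.Agent.R017.FE47 Crest.Agent.R017.End699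
open Crest.Agent.R017.Sup271 (NPm)
open Crest.Agent.R017.XG702 (Pcs BG tot)
open Crest.Agent.R017.XT71 (Sys Win mx)
open Crest.Agent.R017.UM71
open Crest.Agent.R017.HP842 (Pc pc)
open Crest.Agent.R017.B770 Crest.Agent.R017.Prov71
open Crest.Agent.R017.SU770 (tw1 CS_tw)
open Crest.Agent.R017.E5T54 Crest.Agent.R017.E5P571 Crest.Agent.R017.E5B71
open Crest.Agent.R017.BadK271

/-! ### cubes -/

lemma dvd_of_cube_dvd {r : Eis} (hr : Lbc298.CubeFree r) (c : Eis) :
    ∀ m : Eis, c ^ 3 ∣ r * m ^ 3 → c ∣ m := by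
  induction c using UniqueFactorizationMonoid.induction_on_prime with
  | h₁ =>
    intro m h
    rw [zero_pow (by norm_num), zero_dvd_iff] at h
    rcases mul_eq_zero.1 h with h | h
    · exact absurd h hr.1
    · rw [pow_eq_zero_iff (by norm_num)] at h
      rw [h]
  | h₂ x hx => intro m _; exact hx.dvd
  | h₃ a p ha hp ih =>
    intro m h
    have hpm : p ∣ m := by
      by_contra hpm
      have h1 : ¬ p ∣ m ^ 3 := fun h' => hpm (hp.dvd_of_dvd_pow h')
      have h2 : p ^ 3 ∣ r * m ^ 3 := (Dvd.intro _ (mul_pow p a 3).symm).trans h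
      exact hr.2 p hp (hp.pow_dvd_of_dvd_mul_right 3 h1 h2)
    obtain ⟨m', rfl⟩ := hpm
    have h3 : a ^ 3 ∣ r * m' ^ 3 := by
      have h4 : p ^ 3 * a ^ 3 ∣ p ^ 3 * (r * m' ^ 3) := by
        have e1 : p ^ 3 * a ^ 3 = (p * a) ^ 3 := by ring
        have e2 : p ^ 3 * (r * m' ^ 3) = r * (p * m') ^ 3 := by ring
        rw [e1, e2]; exact h
      exact (mul_dvd_mul_iff_left (pow_ne_zero 3 hp.ne_zero)).1 h4
    exact mul_dvd_mul_left p (ih m' h3)

lemma nm_le_m {k c : Eis} (hk : k ≠ 0) (h : c ^ 3 ∣ k) : nm c ≤ nm (Lbc298.dc k).m := by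
  have h' : c ^ 3 ∣ Lbc298.red k * (Lbc298.dc k).m ^ 3 := by
    rw [← Lbc298.red_mul hk]; exact h
  obtain ⟨x, hx⟩ := dvd_of_cube_dvd (Lbc298.red_cubeFree hk) c _ h'
  have hx0 : x ≠ 0 := by
    intro h0
    rw [h0, mul_zero] at hx
    exact Lbc298.m_ne_zero hk hx
  rw [hx, nm_mul]
  exact Nat.le_mul_of_pos_right _ (nm_pos.2 hx0)

/-! ### the values of the lists -/

/-- value of a piece -/
def GG (P : DPar) (h : ℝ → ℝ) (k : Eis) (p : Pq) : ℝ := ‖CS (pc h (p.pc P)) k‖

lemma GG_nonneg (P : DPar) (h : ℝ → ℝ) (k : Eis) (p : Pq) : 0 ≤ GG P h k p := norm_nonneg _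

lemma prodGG_nonneg (P : DPar) (h : ℝ → ℝ) (k : Eis) (ps : List Pq) :
    0 ≤ (ps.map (GG P h k)).prod := by
  refine List.prod_nonneg fun a ha => ?_
  obtain ⟨p, _, rfl⟩ := List.mem_map.1 ha
  exact GG_nonneg _ _ _ _

lemma norm_PC (P : DPar) (h : ℝ → ℝ) (t k : Eis) (ps : List Pq) :
    ‖PC h (ps.map (Pt P t)) k‖ = (ps.map (GG P h (t * k))).prod := by
  induction ps with
  | nil => simp [PC]
  | cons p ps ih =>
    have e : PC h ((p :: ps).map (Pt P t)) k = CS (pc h (Pt P t p)) k *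
        PC h (ps.map (Pt P t)) k := by simp [PC]
    rw [e, norm_mul, ih, List.map_cons, List.prod_cons]
    congr 1
    unfold GG Pt
    rw [CS_tw]

lemma prod_mo_am (F : Pq → ℝ) (ps : List Pq) :
    ((moL ps).map F).prod * ((amL ps).map F).prod = (ps.map F).prod := by
  induction ps with
  | nil => simp [moL, amL]
  | cons p ps ih =>
    cases hk : p.kd with
    | mo =>
      have e1 : moL (p :: ps) = p :: moL ps := by
        unfold moL; rw [List.filter_cons_of_pos (by simp [hk])]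
      have e2 : amL (p :: ps) = amL ps := by
        unfold amL; rw [List.filter_cons_of_neg (by simp [hk])]
      rw [e1, e2, List.map_cons, List.prod_cons, List.map_cons, List.prod_cons, ← ih]; ring
    | am =>
      have e1 : moL (p :: ps) = moL ps := by
        unfold moL; rw [List.filter_cons_of_neg (by simp [hk])]
      have e2 : amL (p :: ps) = p :: amL ps := by
        unfold amL; rw [List.filter_cons_of_pos (by simp [hk])]
      rw [e1, e2, List.map_cons, List.prod_cons, List.map_cons, List.prod_cons, ← ih]; ring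

/-- the five marks -/
def js5 : List (Fin 5) := [0, 1, 2, 3, 4]

lemma tail_term (P : DPar) (h : ℝ → ℝ) (t k : Eis) (a : Bd) (ps : List Pq) :
    ‖PC h ((as3 a).map (Pt P t)) k‖ * (‖PC h ((bs2 a ps).map (Pt P t)) k‖ *
      ‖PC h ((amL ps).map (Pt P t)) k‖) = ((js5.map a.us ++ ps).map (GG P h (t * k))).prod := by
  rw [norm_PC, norm_PC, norm_PC]
  simp only [as3, bs2, js5, List.map_cons, List.map_nil, List.prod_cons, List.prod_nil,
    List.cons_append, List.nil_append]
  rw [← prod_mo_am (GG P h (t * k)) ps]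
  ring

/-! ### from primary `k` to all `k` -/

lemma sum_PB_le {n t : Eis} (ht : t ≠ 0) {Y : ℝ} {Q Q' : Eis → Prop} [DecidablePred Q]
    [DecidablePred Q'] (hQ : ∀ k, k ≠ 0 → Q' k → Q (t * k)) {F : Eis → ℝ} (hF : ∀ k, 0 ≤ F k) :
    ∑ k ∈ (PB n ⌊Real.exp Y⌋₊).filter Q', F (t * k) ≤
      ∑ k ∈ (bl (Real.exp (Y + Real.log (nm t)))).filter Q, F k := by
  classical
  have hinj : Set.InjOn (fun k : Eis => t * k) ((PB n ⌊Real.exp Y⌋₊).filter Q' : Set Eis) :=
    fun a _ b _ h => mul_left_cancel₀ ht h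
  have e := Finset.sum_image (f := F) hinj
  rw [← e]
  refine Finset.sum_le_sum_of_subset_of_nonneg ?_ fun k _ _ => hF k
  intro x hx
  obtain ⟨k, hk, rfl⟩ := Finset.mem_image.1 hx
  rw [Finset.mem_filter, mem_PB] at hk
  have hk0 : k ≠ 0 := hk.1.2.1.ne_zero
  rw [Finset.mem_filter, mem_bl (Real.exp_pos _).le]
  refine ⟨⟨mul_ne_zero ht hk0, ?_⟩, hQ k hk0 hk.2⟩
  have h1 : (nm k : ℝ) ≤ Real.exp Y :=
    (Nat.cast_le.2 hk.1.1).trans (Nat.floor_le (Real.exp_pos _).le)
  have h2 : (0 : ℝ) < nm t := by exact_mod_cast nm_pos.2 ht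
  rw [nm_mul, Real.exp_add, Real.exp_log h2]
  push_cast
  rw [mul_comm]
  exact mul_le_mul_of_nonneg_right h1 h2.le

variable {Λ : Type*} {π : Λ → DPar} {h : ℝ → ℝ}

lemma sq_prod (P : DPar) (k : Eis) (ps : List Pq) :
    ((ps.map (GG P h k)).prod) ^ 2 = ((ps.map (Pq.pc P)).map fun p => ‖CS (pc h p) k‖ ^ 2).prod := by
  induction ps with
  | nil => simp
  | cons p ps ih =>
    simp only [List.map_cons, List.prod_cons] at ih ⊢
    rw [mul_pow, ih]; rfl

/-- the shift of the family -/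
def shf (R : Λ → ℝ) (lam : Λ × Eis) : ℝ := R lam.1 + Real.log (nm lam.2)

/-- **`MomF` in terms of the complete character side** -/
theorem momF_le (R : Λ → ℝ) (lam : Λ × Eis) (a : Bd) (ps : List Pq) (hok : a.ok) :
    MomF π h R lam a ps ≤ Rc (π lam.1) h (a.l + shf R lam)
      ((([0, 1] : List (Fin 5)).map a.us) ++ ps) := by
  classical
  unfold MomF
  split_ifs with hc
  · have ht : lam.2 ≠ 0 := hc.2.1
    have h1 := sum_PB_le (n := (π lam.1).n) ht (Y := a.l + R lam.1)
      (Q' := fun k => (π lam.1).NP2 (lam.2 * k)) (Q := (π lam.1).NP2) (fun k _ hk => hk)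
      (F := fun k => (((a.us 0 :: a.us 1 :: ps).map (GG (π lam.1) h k)).prod) ^ 2)
      (fun k => by positivity)
    have e1 : a.l + R lam.1 + Real.log (nm lam.2) = a.l + shf R lam := by unfold shf; ring
    rw [e1] at h1
    refine le_trans (le_of_eq ?_) (h1.trans (le_of_eq ?_))
    · refine Finset.sum_congr rfl fun k _ => ?_
      rw [norm_PC]
    · unfold Rc RQ
      refine Finset.sum_congr (by congr) fun k _ => ?_
      rw [sq_prod]
      rfl
  · exact Rc_nonneg _ _ _ _

open Classical in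
/-- the `k` with a large cube -/
def FA (P : DPar) (h : ℝ → ℝ) (E₁ l : ℝ) (ps : List Pq) : ℝ :=
  ∑ k ∈ (bl (Real.exp l)).filter (fun k => P.NP2 k ∧ E₁ < nm (Lbc298.dc k).m),
    (ps.map (GG P h k)).prod

open Classical in
/-- the principal `k` -/
def FB (P : DPar) (h : ℝ → ℝ) (l : ℝ) (ps : List Pq) : ℝ :=
  ∑ k ∈ (bl (Real.exp l)).filter (Bad P), (ps.map (GG P h k)).prod

lemma FA_nonneg (P : DPar) (h : ℝ → ℝ) (E₁ l : ℝ) (ps : List Pq) : 0 ≤ FA P h E₁ l ps :=
  Finset.sum_nonneg fun _ _ => prodGG_nonneg _ _ _ _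

lemma FB_nonneg (P : DPar) (h : ℝ → ℝ) (l : ℝ) (ps : List Pq) : 0 ≤ FB P h l ps :=
  Finset.sum_nonneg fun _ _ => prodGG_nonneg _ _ _ _

/-- **the tail**: large cubes and principal `k` -/
theorem tailC_le (hN : ∀ lam, ∀ k : Eis, k ≠ 0 → NPm (π lam).n (π lam).ψ (π lam).l₂ k)
    (R : Λ → ℝ) (lam : Λ × Eis) (a : Bd) (ps : List Pq) (hok : a.ok) :
    TailC π h R lam a ps ≤
      FA (π lam.1) h (Real.exp (a.l / 20)) (a.l + shf R lam) (js5.map a.us ++ ps) +
        FB (π lam.1) h (a.l + shf R lam) (js5.map a.us ++ ps) := by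
  classical
  unfold TailC
  split_ifs with hc
  · have ht : lam.2 ≠ 0 := hc.2.1
    have h1 := sum_PB_le (n := (π lam.1).n) ht (Y := a.l + R lam.1)
      (Q' := fun k => ¬ cutN (π lam.1) lam.2 a.l k)
      (Q := fun k => ((π lam.1).NP2 k ∧ Real.exp (a.l / 20) < nm (Lbc298.dc k).m) ∨
        Bad (π lam.1) k) (fun k hk0 hk => by
        have htk : lam.2 * k ≠ 0 := mul_ne_zero ht hk0
        by_cases hNP : (π lam.1).NP2 (lam.2 * k)
        · left
          refine ⟨hNP, ?_⟩
          have hcut : ¬ cutE (Real.exp (a.l / 20)) k := fun h' => hk ⟨h', hNP⟩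
          unfold cutE at hcut
          push Not at hcut
          obtain ⟨c, _, hck, hlt⟩ := hcut
          have h2 : nm c ≤ nm (Lbc298.dc (lam.2 * k)).m :=
            nm_le_m htk (hck.trans (dvd_mul_left _ _))
          exact hlt.trans_le (by exact_mod_cast h2)
        · right
          have h3 := hN lam.1 (lam.2 * k) htk
          refine ⟨h3, fun h4 => hNP ⟨h4, h3⟩⟩)
      (F := fun k => ((js5.map a.us ++ ps).map (GG (π lam.1) h k)).prod)
      (fun k => prodGG_nonneg _ _ _ _)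
    have e1 : a.l + R lam.1 + Real.log (nm lam.2) = a.l + shf R lam := by unfold shf; ring
    rw [e1] at h1
    refine le_trans (le_of_eq ?_) (h1.trans ?_)
    · refine Finset.sum_congr rfl fun k _ => ?_
      rw [tail_term]
    · unfold FA FB
      rw [Finset.sum_filter, Finset.sum_filter, Finset.sum_filter, ← Finset.sum_add_distrib]
      refine Finset.sum_le_sum fun k _ => ?_
      have h5 := prodGG_nonneg (π lam.1) h k (js5.map a.us ++ ps)
      by_cases hA : (π lam.1).NP2 k ∧ Real.exp (a.l / 20) < nm (Lbc298.dc k).m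
      · rw [if_pos (Or.inl hA), if_pos hA]
        split_ifs <;> linarith
      · by_cases hB : Bad (π lam.1) k
        · rw [if_pos (Or.inr hB), if_pos hB]
          split_ifs; linarith
        · rw [if_neg (fun h' => h'.elim hA hB), if_neg hA, if_neg hB, add_zero]
  · exact add_nonneg (FA_nonneg _ _ _ _ _) (FB_nonneg _ _ _ _)

/-- **large cubes** -/
theorem FA_le {P : DPar} (hP : P.OK) (hh : Bump h) (E₁ l : ℝ) (ps : List Pq) :
    FA P h E₁ l ps ≤ ∑ m ∈ (bl (Real.exp (l / 3))).filter (fun m => E₁ < nm m),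
      Bp P h (l - 3 * Real.log (nm m)) (ps.map (Pq.tw m)) := by
  classical
  have h1 := Lbc298.cube_le_f (K := Real.exp l) (Real.exp_pos _).le P.NP2
    (fun _ hk hQ => NP2_red P hk hQ)
    (F := fun k => if E₁ < nm (Lbc298.dc k).m then (ps.map (GG P h k)).prod else 0)
    (G := fun m k => if E₁ < nm m then ((ps.map (Pq.tw m)).map (GG P h k)).prod else 0)
    (fun m k => by
      split_ifs
      · exact prodGG_nonneg _ _ _ _
      · exact le_rfl)
    (fun k hk _ => by
      refine le_of_eq ?_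
      congr 1
      rw [List.map_map]
      congr 1
      refine List.map_congr_left fun p _ => ?_
      simp only [Function.comp]
      unfold GG
      have hm := Lbc298.m_ne_zero hk
      have e : pc h ((p.tw (Lbc298.dc k).m).pc P) =
          fun n => pc h (p.pc P) n * prin0 (Lbc298.dc k).m n := by
        funext b; exact pc_tw P h hm p b
      rw [e, ← Lbc298.CS_red (fs_pc hh (p.ok hP)) hk])
  unfold FA
  rw [exp_third] at h1
  have e0 : ∑ k ∈ (bl (Real.exp l)).filter (fun k => P.NP2 k ∧ E₁ < nm (Lbc298.dc k).m),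
      (ps.map (GG P h k)).prod = ∑ k ∈ (bl (Real.exp l)).filter P.NP2,
      if E₁ < nm (Lbc298.dc k).m then (ps.map (GG P h k)).prod else 0 := by
    rw [← Finset.sum_filter, Finset.filter_filter]
  rw [e0]
  refine h1.trans (le_of_eq ?_)
  rw [Finset.sum_filter]
  refine Finset.sum_congr rfl fun m hm => ?_
  rw [mem_bl (Real.exp_pos _).le] at hm
  by_cases hE : E₁ < nm m
  · rw [if_pos hE, exp_div_cube l hm.1]
    simp only [if_pos hE]
    unfold Bp BQ
    refine Finset.sum_congr ?_ fun k _ => ?_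
    · ext k
      simp only [Finset.mem_filter]
      exact ⟨fun h => ⟨h.1, h.2.2, h.2.1⟩, fun h => ⟨h.1, h.2.2, h.2.1⟩⟩
    · rw [List.map_map (g := fun p => ‖CS (pc h p) k‖)]
      rfl
  · simp only [if_neg hE]
    exact Finset.sum_const_zero

/-! ### windows -/

lemma Near_append {X δ : ℝ} {us vs : List Pq} {u v : List ℝ} (h1 : Dq.Near X δ us u)
    (h2 : Dq.Near X δ vs v) : Dq.Near X δ (us ++ vs) (u ++ v) := by
  unfold Pcs.Near at h1 h2 ⊢
  induction h1 with
  | nil => exact h2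
  | cons h _ ih => exact List.Forall₂.cons h ih

lemma near_us {p : Fin 3 ⊕ Fin 5 → ℝ} {δ : ℝ} {N : ℕ} {B δ' X : ℝ} {a : Bd}
    (hw : Win S5 p δ N B δ' X a) (hok : a.ok) (js : List (Fin 5)) :
    Dq.Near X δ (js.map a.us) (js.map (cu p)) := by
  unfold Pcs.Near
  induction js with
  | nil => exact List.Forall₂.nil
  | cons j js ih => exact List.Forall₂.cons ⟨(hok.1 j).1, hw.ev (.inr j)⟩ ih

lemma good_us {p : Fin 3 ⊕ Fin 5 → ℝ} {δ : ℝ} {N : ℕ} {B δ' X : ℝ} {a : Bd}
    (hw : Win S5 p δ N B δ' X a) (hok : a.ok) (j : Fin 5) :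
    Dq.s1 (a.us j) ≤ X ^ δ' ∧ Dq.s2 (a.us j) ≤ X ^ B ∧ 0 ≤ Dq.len (a.us j) := by
  have hm : a.us j ∈ List.ofFn a.us := (List.mem_ofFn' _ _).2 ⟨j, rfl⟩
  refine ⟨?_, ?_, (hok.1 j).2⟩
  · exact ((XT71.le_mx (f := Dq.s1) hm).trans (le_max_right _ _)).trans hw.s₁
  · exact ((XT71.le_mx (f := Dq.s2) hm).trans (le_max_right _ _)).trans hw.s₂

lemma abs_log_le {c δ X : ℝ} (hδ : 0 < δ) (hX : Real.exp (|c| / δ) ≤ X) (hX1 : 1 < X) :
    |c / Real.log X| ≤ δ := by
  have hL : 0 < Real.log X := Real.log_pos hX1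
  have h1 : |c| / δ ≤ Real.log X := by
    have := Real.log_le_log (Real.exp_pos _) hX
    rwa [Real.log_exp] at this
  rw [abs_div, abs_of_pos hL, div_le_iff₀ hL]
  rw [div_le_iff₀ hδ] at h1
  linarith

/-- **marked pieces**: `BGB` from `BG` -/
theorem bgb_of_bg {Λ' : Type*} {Ψ : Λ' → Bd → List Pq → ℝ} {Φ : Λ → ℝ → List Pq → ℝ}
    (f : Λ' → Λ) (c : Λ' → ℝ) (js : List (Fin 5))
    (H : ∀ lam a ps, a.ok → Ψ lam a ps ≤ Φ (f lam) (a.l + c lam) (js.map a.us ++ ps))
    (H0 : ∀ lam a ps, ¬ a.ok → Ψ lam a ps ≤ 0)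
    {p : Fin 3 ⊕ Fin 5 → ℝ} {u : List ℝ} {w : Kd → ℝ} {e : ℝ}
    (hB : BG Dq Φ (cκ p) (js.map (cu p) ++ u) w e) : BGB S5 Dq Ψ p u w e := by
  intro ε hε
  obtain ⟨δ, hδ, HL⟩ := hB ε hε
  refine ⟨δ / 2, by positivity, fun lam N B => ?_⟩
  obtain ⟨δ', hδ', X₀, hX₀, HX⟩ := HL (f lam) N B
  refine ⟨δ', hδ', max X₀ (Real.exp (|c lam| / (δ / 2))), lt_of_lt_of_le hX₀ (le_max_left _ _), ?_⟩
  intro X hX a us gs hw hn hg hG
  have hX1 : X₀ ≤ X := (le_max_left _ _).trans hX
  have hX2 : 1 < X := lt_of_lt_of_le hX₀ hX1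
  have hX0 : 0 < X := by linarith
  by_cases hok : a.ok
  swap
  · exact (H0 _ _ _ hok).trans (Real.rpow_nonneg hX0.le _)
  have hL : 0 < Real.log X := Real.log_pos hX2
  refine (H lam a _ hok).trans ?_
  have hk := hw.ev (.inl 0)
  have hk' : |a.l / Real.log X - cκ p| ≤ δ / 2 := hk
  have hcl := abs_log_le (c := c lam) (δ := δ / 2) (by positivity)
    ((le_max_right _ _).trans hX) hX2
  have e1 : a.l + c lam = ((a.l + c lam) / Real.log X) * Real.log X := by field_simp
  rw [e1, ← List.append_assoc]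
  refine HX X hX1 _ _ _ ?_ ?_ ?_ ?_
  · rw [add_div]
    have := abs_add_le (a.l / Real.log X - cκ p) (c lam / Real.log X)
    calc |a.l / Real.log X + c lam / Real.log X - cκ p| =
        |(a.l / Real.log X - cκ p) + c lam / Real.log X| := by congr 1; ring
      _ ≤ δ := by linarith
  · exact XG702.Near_mono (Near_append (near_us hw hok js) hn) (by linarith)
  · exact XG702.Gran_mono hg (by linarith) le_rfl
  · intro q hq
    rw [List.append_assoc, List.mem_append] at hq
    rcases hq with hq | hq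
    · obtain ⟨j, _, rfl⟩ := List.mem_map.1 hq
      exact good_us hw hok j
    · exact hG q hq

end Crest.Agent.R017.E5M372
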