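import Crest.Agent.R017.E5T3_271

/-!
# Row 17, T.3 (helper271): the signed near-equal boxes of class N from `PrimU`

* `topS_of_primU` : `PrimU`, the absolute theorem `TopC` imply `TopS`
* `topN_of_primU` : the field `topN` of `Fin4.Parts`
-/

set_option autoImplicit false

noncomputable section

open Complex Filter Topology
open scoped ContDiff ComplexConjugate

namespace Crest.Agent.R017.E5S271

open Crest.Agent.R012 Crest.Agent.R012.Eis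
open Crest.Agent.R017.End699 Crest.Agent.R017.FE47
open Crest.Agent.R017.B770 Crest.Agent.R017.BxE986
open Crest.Agent.R017.Sup271
open Crest.Agent.R017.Prov71 Crest.Agent.R017.ER911
open Crest.Agent.R017.E5T54 Crest.Agent.R017.E5B71
open Crest.Agent.R017.Cone59 (Tg a2)

lemma w5_le (i : Fin 5) : w5 i ≤ 2 := by
  fin_cases i <;> norm_num [w5]

lemma a2_third {θ : ℝ} (hθ : 7 / 8 ≤ θ) : 0 ≤ a2 θ (1 / 3) := by
  unfold a2
  linarith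

/-- **the signed theorem from the uniform bound over the primary `k`** (class N) -/
theorem topS_of_primU {Λ : Type*} {θ μ₁ μ₂ μ' a₀ A A' A'' : ℝ} {w' : Fin 5 → ℝ}
    {π : Λ → DPar} {h : ℝ → ℝ} {c₀ : ℝ} (hpu : PU h c₀) (hπ : ∀ lam, (π lam).OK)
    (hN : ∀ lam k, k ≠ 0 → NPm (π lam).n (π lam).ψ (π lam).l₂ k)
    (hθ : 7 / 8 ≤ θ) (ha₀ : 7 / 8 ≤ a₀) (hA : 9 / 10 ≤ A) (hA' : 0 ≤ A') (hAA : A' < A)
    (hA1 : A ≤ 1) (hμ1 : μ' < μ₁) (hμ2 : μ' < μ₂) (hμ3 : μ' < 1 / 10)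
    (hU : PrimU π h θ A' μ₁) (hTC : TopC θ (1 / 3) μ₂ (AL (9 / 10) A'' w') π h) :
    TopS θ (1 / 3) μ' a₀ A w5 π h := by
  obtain ⟨μ, h1, h2⟩ := exists_between hμ1
  obtain ⟨a₀', h3, h4, hTP⟩ := topP_of_primU (by linarith) hA' hAA hA1 h2 hU
  exact topS_of_topP hpu hπ hN (by linarith) le_rfl (by norm_num) (a2_third hθ) ha₀ (by linarith)
    h4 hA w5_le h1 hμ2 hμ3 hTP hTC

/-- **T.3**, the field `topN` of helper986's `Fin4.Parts` -/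
theorem topN_of_primU {Λ : Type*} {θ : ℝ} {π : Λ → DPar} {h : ℝ → ℝ} {c₀ : ℝ} (hpu : PU h c₀)
    (hπ : ∀ lam, (π lam).OK)
    (hN : ∀ lam k, k ≠ 0 → NPm (π lam).n (π lam).ψ (π lam).l₂ k) (hθ : 7 / 8 ≤ θ)
    (hU : ∃ μ₁ A' : ℝ, 0 < μ₁ ∧ 0 ≤ A' ∧ A' < 1 ∧ PrimU π h θ A' μ₁) :
    ∀ μ : ℝ, 0 < μ → TopC θ (1 / 3) μ (AL (9 / 10) 1 ![0, 0, 1, 1, 2]) π h →
      ∃ μ' A₀ : ℝ, 0 < μ' ∧ A₀ < 1 ∧
        TopS θ (1 / 3) μ' (179 / 200) A₀ ![0, 0, 1, 1, 2] π h := by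
  obtain ⟨μ₁, A', hμ₁, hA'0, hA'1, hP⟩ := hU
  intro μ hμ hTC
  obtain ⟨A₀, h1, h2⟩ := exists_between (max_lt hA'1 (show (9 / 10 : ℝ) < 1 by norm_num))
  have h3 : A' < A₀ := lt_of_le_of_lt (le_max_left _ _) h1
  have h4 : 9 / 10 < A₀ := lt_of_le_of_lt (le_max_right _ _) h1
  have hm : 0 < min μ₁ (min μ (1 / 10)) := by positivity
  refine ⟨min μ₁ (min μ (1 / 10)) / 2, A₀, by positivity, h2, ?_⟩
  have h5 : min μ₁ (min μ (1 / 10)) ≤ μ₁ := min_le_left _ _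
  have h6 : min μ₁ (min μ (1 / 10)) ≤ μ := (min_le_right _ _).trans (min_le_left _ _)
  have h7 : min μ₁ (min μ (1 / 10)) ≤ 1 / 10 := (min_le_right _ _).trans (min_le_right _ _)
  exact topS_of_primU hpu hπ hN hθ (by norm_num) h4.le hA'0 h3 h2.le (by linarith) (by linarith)
    (by linarith) hP hTC

end Crest.Agent.R017.E5S271
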