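import Crest.Agent.R017.E5m_54
import Crest.Agent.R017.E5P_571

/-!
# Row 17, R8, leaf E5 (helper54), part n: the middle term of `sgP_split` through core sums

* `Cq` : the core sum at `s' = lcm(s, e')` after the shift `k = s' k₁`
* `MS_core` : `‖MS n W e (c₀ SS · B) s‖ ≤ ‖c₀‖ ∑_β ∑_{e'} ‖Cq ..‖`
* `mid_core` : the same summed over `(q, g)`
-/

set_option autoImplicit false

noncomputable section

open Finset Complex
open scoped ComplexConjugate

namespace Crest.Agent.R017.E5n54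

open Crest.Agent.R012 Crest.Agent.R012.Eis
open Crest.Agent.R012.Mob705 hiding pb mem_pb
open Crest.Agent.R012.LS2 (S mem_S)
open Crest.Agent.R017.CM106
open Crest.Agent.R017.C70 (JC OKJ)
open Crest.Agent.R017.E2440 (TE StE)
open Crest.Agent.R017.DgA829 (lc lc_prim lc_dvd)
open Crest.Agent.R017.E5b54
open Crest.Agent.R017.E5k54
open Crest.Agent.R017.E5P571 (MS Gd mem_Gd)

/-- the core sum at `s' = lcm(s, e')`, squarefree sequence `α`, factor `G` -/
def Cq (n : Eis) (J : Finset (Eis × Eis)) (om : Eis × Eis → ℂ) (α : Eis → ℂ) (G : Eis → ℂ)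
    (s e' : Eis) : ℂ :=
  Core n 1 (Js (lc s e') J)
    (oms (lc s e') J (fun x => (om x * TE α x e') * sy (lc s e') x.1))
    (fun k => G (lc s e' * k))

variable {ι : Type*} [Fintype ι]

open Classical in
/-- **one middle term** -/
theorem MS_core {n e : Eis} {W : Eis → ℂ} {X : ℕ} (hW : ∀ k, W k ≠ 0 → nm k ≤ X) (c₀ : ℂ)
    (f : ι → Eis → ℂ) (Y : ℕ) (E0 : ℝ) {J : Finset (Eis × Eis)} (hJ : OKJ J)
    (om : Eis × Eis → ℂ) (B : Eis → ℂ) {s : Eis} (hs : IsPrim s) :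
    ‖MS n W e (fun k => (c₀ * SS f Y E0 J om k) * B k) s‖ ≤
      ‖c₀‖ * ∑ β ∈ PT ι Y, ∑ e' ∈ (S E0).filter (fun e' => IsCoprime (lc s e') n),
        ‖Cq n J om (alb f β) (fun k => W k * sy k e * B k * sy k (∏ i, β i)) s e'‖ := by
  have hG : (Function.support fun k : Eis => W k * sy k e * B k).Finite :=
    (E2440.finite_nm_le X).subset fun k hk => by
      rw [Function.mem_support] at hk
      exact hW k fun h => hk (by rw [h]; ring)
  have h1 : MS n W e (fun k => (c₀ * SS f Y E0 J om k) * B k) s =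
      c₀ * ∑' k : Eis, if IsPrim k ∧ IsCoprime k n ∧ s ∣ k then
        (W k * sy k e * B k) * SS f Y E0 J om k else 0 := by
    unfold MS
    rw [← tsum_mul_left]
    refine tsum_congr fun k => ?_
    by_cases hk : IsPrim k ∧ IsCoprime k n ∧ s ∣ k
    · rw [if_pos hk, if_pos hk]; ring
    · rw [if_neg hk, if_neg hk, mul_zero]
  rw [h1, norm_mul]
  refine mul_le_mul_of_nonneg_left ?_ (norm_nonneg _)
  refine (mid_le hs hG f Y E0 J om).trans (Finset.sum_le_sum fun β _ => ?_)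
  rw [Finset.sum_filter]
  refine Finset.sum_le_sum fun e' he' => ?_
  have hep : IsPrim e' := (mem_primBall.mp (Finset.mem_filter.mp he').1).2
  by_cases hc : IsCoprime (lc s e') n
  · rw [if_pos hc]
    unfold Cq
    rw [E5m54.Core_shift (lc_prim hs hep) hc hJ]
  · rw [if_neg hc, E5m54.Core_zero hc, norm_zero]

open Classical in
/-- **the middle term** of `sgP_split`, summed over `(q, g)` -/
theorem mid_core {n e d₃ : Eis} (hd : d₃ ≠ 0) {W : Eis → ℂ} {X : ℕ}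
    (hW : ∀ k, W k ≠ 0 → nm k ≤ X) (c₀ : ℂ) (f : ι → Eis → ℂ) (Y : ℕ) (E0 : ℝ)
    {J : Finset (Eis × Eis)} (hJ : OKJ J) (om : Eis × Eis → ℂ) (B : Eis → ℂ)
    (𝒟 : Finset Eis) (h𝒟 : ∀ q ∈ 𝒟, IsPrim q) :
    ∑ q ∈ 𝒟, ∑ g ∈ Gd n d₃, ‖MS n W e (fun k => (c₀ * SS f Y E0 J om k) * B k) (q ^ 2 * g)‖ ≤
      ‖c₀‖ * ∑ β ∈ PT ι Y, ∑ g ∈ Gd n d₃, ∑ e' ∈ S E0, ∑ q ∈ 𝒟.filter
        (fun q => IsCoprime (lc (q ^ 2 * g) e') n),
        ‖Cq n J om (alb f β) (fun k => W k * sy k e * B k * sy k (∏ i, β i)) (q ^ 2 * g) e'‖ := by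
  have h1 : ∀ q ∈ 𝒟, ∀ g ∈ Gd n d₃,
      ‖MS n W e (fun k => (c₀ * SS f Y E0 J om k) * B k) (q ^ 2 * g)‖ ≤
        ‖c₀‖ * ∑ β ∈ PT ι Y, ∑ e' ∈ S E0, if IsCoprime (lc (q ^ 2 * g) e') n then
          ‖Cq n J om (alb f β) (fun k => W k * sy k e * B k * sy k (∏ i, β i)) (q ^ 2 * g) e'‖
          else 0 := by
    intro q hq g hg
    have hgp : IsPrim g := ((mem_Gd hd).mp hg).1.prim
    have hqp : IsPrim (q ^ 2 * g) := by
      rw [pow_two]; exact ((h𝒟 q hq).mul (h𝒟 q hq)).mul hgp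
    refine (MS_core hW c₀ f Y E0 hJ om B hqp).trans (le_of_eq ?_)
    congr 1
    refine Finset.sum_congr rfl fun β _ => ?_
    rw [Finset.sum_filter]
  refine (Finset.sum_le_sum fun q hq => Finset.sum_le_sum fun g hg => h1 q hq g hg).trans
    (le_of_eq ?_)
  simp_rw [← Finset.mul_sum, Finset.sum_filter]
  congr 1
  calc _ = ∑ q ∈ 𝒟, ∑ β ∈ PT ι Y, ∑ g ∈ Gd n d₃, ∑ e' ∈ S E0,
        (if IsCoprime (lc (q ^ 2 * g) e') n then ‖Cq n J om (alb f β)
          (fun k => W k * sy k e * B k * sy k (∏ i, β i)) (q ^ 2 * g) e'‖ else 0) :=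
        Finset.sum_congr rfl fun q _ => Finset.sum_comm
    _ = ∑ β ∈ PT ι Y, ∑ q ∈ 𝒟, ∑ g ∈ Gd n d₃, ∑ e' ∈ S E0,
        (if IsCoprime (lc (q ^ 2 * g) e') n then ‖Cq n J om (alb f β)
          (fun k => W k * sy k e * B k * sy k (∏ i, β i)) (q ^ 2 * g) e'‖ else 0) :=
        Finset.sum_comm
    _ = _ := by
        refine Finset.sum_congr rfl fun β _ => ?_
        rw [Finset.sum_comm]
        refine Finset.sum_congr rfl fun g _ => ?_
        rw [Finset.sum_comm]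

end Crest.Agent.R017.E5n54
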