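import Crest.Agent.R017.EHu_320
import Crest.Agent.R017.E1ze_551

/-!
# Row 17, C.REMg (helper83): the weighted `T`-functional by numbers

`EHv c` is the `T`-functional with an arbitrary weight `c (N e) (N(j δ²))`.

* `EHv_le_EVU` : cube-free frequencies `κ U`
* `EHv_le`     : two numbers `Rs Ma + Rl Ml` (hypotheses (SA), (L+) of 64)
* `EHv_num`    : pointwise in the height
* `EHs_num`, `EHt_num` : the weights `θ(V) e 1[e ≤ E₀(V)]` and `θ(V) e⁻¹ 1[e > E₀(V)]`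
-/

set_option autoImplicit false

noncomputable section

open Complex MeasureTheory
open scoped ComplexConjugate Classical

namespace Crest.Agent.R017.EHv83

open Crest.Agent.R012 Crest.Agent.R012.Eis Crest.Agent.R012.MC
open Crest.Agent.R012.LS2 (S mem_S)
open Crest.Agent.R012.Weight600 (pw pw_mul norm_pw)
open Crest.Agent.R017.CM106 (CS TG)
open Crest.Agent.R017.Dual2813 (S_of_dvd)
open Crest.Agent.R017.Rough381 (VF)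
open Crest.Agent.R017.E1551
open Crest.Agent.R017.EHu320 (regroup tws_supp JB_tws norm_TG_tws_tws)

/-- the `T`-functional with weight `c (N e) (N(j δ²))` -/
def EHv (c : ℝ → ℝ → ℝ) (A K X Y Z : ℝ) (α : Eis → ℂ) : ℝ :=
  ∑ δ ∈ S Y, ∑ e ∈ S Y, ((nm δ : ℝ) * Div277.tau δ * (Div277.tau e : ℝ) ^ 4) *
    ∑ j ∈ BF (Z / (nm δ : ℝ) ^ 2), c (nm e) (nm j * (nm δ : ℝ) ^ 2) *
      (lm K X δ j * Wf A α δ j e)

/-- the cell `(h, U)` in cube-free frequencies -/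
def NV (cb : ℝ → ℝ → ℝ) (A K X Z : ℝ) (α : Eis → ℂ) (h U : Eis) : ℝ :=
  ∑ κ ∈ BU (Z / (nm h : ℝ) ^ 2) U, cb (nm U) (nm κ * (nm h : ℝ) ^ 2) *
    (lm K (X / nm (h * U)) 1 (κ * U) * Wb A (sg α (h * U)) (κ * U))

lemma NV_nonneg {cb : ℝ → ℝ → ℝ} (hcb : ∀ u V, 0 ≤ cb u V) {A K X Z : ℝ} (hK : 0 ≤ K)
    (hX : 0 ≤ X) (α : Eis → ℂ) (h U : Eis) : 0 ≤ NV cb A K X Z α h U :=
  Finset.sum_nonneg fun _ _ => mul_nonneg (hcb _ _) (mul_nonneg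
    (lm_nonneg hK (div_nonneg hX (Nat.cast_nonneg _)) _ _) (Wb_nonneg _ _ _))

lemma NV_zero {cb : ℝ → ℝ → ℝ} {A K X Z : ℝ} {α : Eis → ℂ} {h U : Eis}
    (h0 : ∀ m, α (h * (U * m)) = 0) : NV cb A K X Z α h U = 0 := by
  unfold NV
  have : ∀ m, α (h * U * m) = 0 := fun m => by rw [mul_assoc]; exact h0 m
  simp only [Wb_sg_zero this, mul_zero, Finset.sum_const_zero]

/-- one cell `(δ, G)` -/
lemma cell_le {c cb : ℝ → ℝ → ℝ} (hcb : ∀ u V, 0 ≤ cb u V)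
    (hccb : ∀ x u V, 1 ≤ x → 1 ≤ u → 1 ≤ V → c (x * u) V ≤ x * cb u V)
    {A K X Y Z : ℝ} (hK : 0 < K) (hX : 0 < X) (hY : 0 ≤ Y) {α : Eis → ℂ}
    (hα : ∀ n, α n ≠ 0 → n ∈ S Y) {δ G : Eis} (hδ : δ ∈ S Y) (hG : G ∈ S Y) :
    nm δ * (∑ j ∈ BF (Z / (nm δ : ℝ) ^ 2), c (nm G) (nm j * (nm δ : ℝ) ^ 2) *
      (lm K X δ j * Wf A α δ j G)) ≤ ∑ e ∈ S Y, ∑ U ∈ S Y, if e * U = G then
      nm U * (nm (e * δ) * NV cb A K X Z α (e * δ) U) else 0 := by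
  have hδS := (mem_S hY).1 hδ
  have hGS := (mem_S hY).1 hG
  have hδ1 := nmpos hδS.2.1.ne_zero
  have h0 := tau_sum_le (Z := Z / (nm δ : ℝ) ^ 2) hY hG
    (f := fun j => nm δ * (c (nm G) (nm j * (nm δ : ℝ) ^ 2) * (lm K X δ j * Wf A α δ j G)))
    (F := fun e U κ => nm U * (nm (e * δ) * (cb (nm U) (nm κ * (nm (e * δ) : ℝ) ^ 2) *
      (lm K (X / nm (e * δ * U)) 1 (κ * U) * Wb A (sg α (e * δ * U)) (κ * U)))))
    (fun e U κ => mul_nonneg (Nat.cast_nonneg _) (mul_nonneg (Nat.cast_nonneg _)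
      (mul_nonneg (hcb _ _) (mul_nonneg
      (lm_nonneg hK.le (div_nonneg hX.le (Nat.cast_nonneg _)) _ _) (Wb_nonneg _ _ _)))))
    (fun j κ hj h1 h2 => by
      have e1 := Wf_eq_Wb (A := A) hY hα hδS.2.1 hGS.2.1 hGS.2.2 j
      have e2 := lm_tau hK hX hδS.2.1.ne_zero hj.1 hGS.2.1 hGS.2.2
      have e3 := g1_mul_g2 (κ := j) hGS.2.1 hGS.2.2
      have e4 : g2 j G * δ * g1 j G = δ * G := by
        conv_rhs => rw [← e3]
        ring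
      rw [e1, e2, e4, h2]
      have hW := Wb_nonneg A (sg α (δ * G)) (κ * g1 j G)
      have hl0 : 0 ≤ lm K (X / nm (δ * G)) 1 (κ * g1 j G) :=
        lm_nonneg hK.le (div_nonneg hX.le (Nat.cast_nonneg _)) _ _
      generalize lm K (X / nm (δ * G)) 1 (κ * g1 j G) = l at *
      generalize Wb A (sg α (δ * G)) (κ * g1 j G) = W at *
      have hκ0 : κ ≠ 0 := by
        rintro rfl
        exact hj.1 (by rw [h1, zero_mul])
      have hκ1 := nm_ge_one hκ0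
      have hb1 := nm_ge_one (g2_prim j G).ne_zero
      have ha1 := nm_ge_one (g1_prim j G).ne_zero
      have hδ1' := nm_ge_one hδS.2.1.ne_zero
      have e5 : (nm G : ℝ) = nm (g2 j G) * nm (g1 j G) := by
        rw [← Nat.cast_mul, ← nm_mul, mul_comm, e3]
      have e6 : (nm (g2 j G * δ) : ℝ) = nm (g2 j G) * nm δ := by
        rw [nm_mul, Nat.cast_mul]
      have e7 : (nm j : ℝ) * (nm δ : ℝ) ^ 2 = nm κ * ((nm (g2 j G) : ℝ) * nm δ) ^ 2 := by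
        have h3 : (nm j : ℝ) = nm κ * (nm (g2 j G) : ℝ) ^ 2 := by
          have h4 := congrArg nm h1
          rw [nm_mul, nm_pow] at h4
          exact_mod_cast h4
        rw [h3]; ring
      rw [e5, e6, e7]
      have hV1 : 1 ≤ (nm κ : ℝ) * ((nm (g2 j G) : ℝ) * nm δ) ^ 2 := by
        have h8 : 1 ≤ ((nm (g2 j G) : ℝ) * nm δ) := one_le_mul_of_one_le_of_one_le hb1 hδ1'
        exact one_le_mul_of_one_le_of_one_le hκ1 (one_le_pow₀ h8)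
      have hcc := hccb (nm (g2 j G)) (nm (g1 j G)) _ hb1 ha1 hV1
      generalize (nm κ : ℝ) * ((nm (g2 j G) : ℝ) * nm δ) ^ 2 = V at *
      generalize (nm (g1 j G) : ℝ) = a at *
      generalize (nm (g2 j G) : ℝ) = b at *
      generalize (nm δ : ℝ) = v at *
      have hv0 : 0 ≤ v := by linarith
      have ha0 : 0 ≤ a := by linarith
      calc v * (c (b * a) V * (a * l * W)) ≤ v * ((b * cb a V) * (a * l * W)) := by
            refine mul_le_mul_of_nonneg_left (mul_le_mul_of_nonneg_right hcc ?_) hv0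
            exact mul_nonneg (mul_nonneg ha0 hl0) hW
        _ = a * (b * v * (cb a V * (l * W))) := by ring)
  rw [Finset.mul_sum]
  refine h0.trans (le_of_eq ?_)
  refine Finset.sum_congr rfl fun e he => Finset.sum_congr rfl fun U _ => ?_
  split_ifs
  · unfold NV
    rw [Finset.mul_sum, Finset.mul_sum]
    refine Finset.sum_congr ?_ fun _ _ => rfl
    congr 1
    rw [nm_mul]
    push_cast
    rw [div_div]
    congr 1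
    ring
  · rfl

/-- the functional in cube-free frequencies -/
def EVU (cb : ℝ → ℝ → ℝ) (A K X Y Z : ℝ) (α : Eis → ℂ) : ℝ :=
  ∑ p ∈ S Y ×ˢ S Y, ((Div277.tau p.1 : ℝ) ^ 7 * (Div277.tau p.2 : ℝ) ^ 4) *
    ((nm p.1 * nm p.2) * NV cb A K X Z α p.1 p.2)

/-- **cube-free frequencies** -/
theorem EHv_le_EVU {c cb : ℝ → ℝ → ℝ} (hcb : ∀ u V, 0 ≤ cb u V)
    (hccb : ∀ x u V, 1 ≤ x → 1 ≤ u → 1 ≤ V → c (x * u) V ≤ x * cb u V)
    {A K X Y Z : ℝ} (hK : 0 < K) (hX : 0 < X) (hY : 1 ≤ Y) {α : Eis → ℂ}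
    (hα : ∀ n, α n ≠ 0 → n ∈ S Y) : EHv c A K X Y Z α ≤ EVU cb A K X Y Z α := by
  have hY0 : 0 ≤ Y := by linarith
  have h1S : (1 : Eis) ∈ S Y := (mem_S hY0).2 ⟨by rw [nm_one]; simpa using hY, isPrim_one,
    squarefree_one⟩
  have h11 : ((1 : Eis), (1 : Eis)) ∈ S Y ×ˢ S Y := Finset.mem_product.2 ⟨h1S, h1S⟩
  set Wf' : Eis → Eis → ℝ := fun δ G => ∑ j ∈ BF (Z / (nm δ : ℝ) ^ 2),
    c (nm G) (nm j * (nm δ : ℝ) ^ 2) * (lm K X δ j * Wf A α δ j G) with hWf'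
  have e0 : EHv c A K X Y Z α = ∑ p ∈ S Y ×ˢ S Y,
      (nm p.1 * Div277.tau p.1 * (Div277.tau p.2 : ℝ) ^ 4) * Wf' p.1 p.2 := by
    unfold EHv
    rw [Finset.sum_product]
  rw [e0]
  unfold EVU
  rw [← Finset.add_sum_erase _ _ h11, ← Finset.add_sum_erase _ _ h11]
  refine add_le_add ?_ ?_
  · have h2 := cell_le (A := A) (Z := Z) hcb hccb hK hX hY0 hα h1S h1S
    have h3 : (∑ e ∈ S Y, ∑ U ∈ S Y, if e * U = 1 then
        nm U * (nm (e * 1) * NV cb A K X Z α (e * 1) U) else 0 : ℝ) =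
        nm (1 : Eis) * (nm ((1 : Eis) * 1) * NV cb A K X Z α (1 * 1) 1) := by
      rw [Finset.sum_eq_single_of_mem 1 h1S, Finset.sum_eq_single_of_mem 1 h1S, if_pos (by ring)]
      · intro U hU hne
        rw [if_neg]
        intro h4
        exact hne (by simpa using h4)
      · intro e he hne
        refine Finset.sum_eq_zero fun U hU => ?_
        rw [if_neg]
        intro h4
        exact hne (isPrim_mul_eq_one ((mem_S hY0).1 he).2.1 ((mem_S hY0).1 hU).2.1 h4).1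
    rw [h3] at h2
    simp only [nm_one, tau_one551, Nat.cast_one, one_mul, mul_one, one_pow] at h2 ⊢
    simpa [hWf'] using h2
  · exact regroup hY0 hα (N := fun h U => NV cb A K X Z α h U) (W := Wf')
      (fun h U => NV_nonneg hcb hK.le hX.le α h U)
      (fun h U h0 => NV_zero h0)
      (fun δ hδ G hG => cell_le hcb hccb hK hX hY0 hα hδ hG)

/-! ### the two kinds of cells -/

/-- the level `(X² / (K V))^(1/3)` -/
def Lv (K X V : ℝ) : ℝ := (X ^ 2 / (K * V)) ^ (1 / 3 : ℝ)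

lemma Lv_nonneg {K X V : ℝ} (hK : 0 ≤ K) (hV : 0 ≤ V) : 0 ≤ Lv K X V := by
  unfold Lv
  have : 0 ≤ X ^ 2 := sq_nonneg X
  positivity

lemma lm_Lv {K X : ℝ} (hK : 0 < K) (hX : 0 < X) {h κ : Eis} (hh : h ≠ 0) (hκ : κ ≠ 0) :
    lm K X h κ = 3 * Lv K X (nm κ * (nm h : ℝ) ^ 2) := by
  have h1 := nmpos hh
  have h2 := nmpos hκ
  unfold lm Lv
  generalize (nm h : ℝ) = a at *
  generalize (nm κ : ℝ) = b at *
  congr 1
  rw [Real.rpow_def_of_pos (show 0 < X / a by positivity),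
    Real.rpow_def_of_pos (show 0 < K * b by positivity),
    Real.rpow_def_of_pos (show 0 < X ^ 2 / (K * (b * a ^ 2)) by positivity), ← Real.exp_add]
  congr 1
  rw [Real.log_div hX.ne' h1.ne', Real.log_mul hK.ne' h2.ne',
    Real.log_div (by positivity) (by positivity), Real.log_mul hK.ne' (by positivity),
    Real.log_mul h2.ne' (by positivity), Real.log_pow, Real.log_pow]
  push_cast
  ring

/-- a small cell -/
lemma NV_small {cb : ℝ → ℝ → ℝ} {A K X Z G₀ Rs : ℝ} (hK : 0 < K) (hX : 0 < X)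
    (hRs : 0 ≤ Rs)
    (w1 : ∀ u V, 1 ≤ u → u ≤ G₀ → 1 ≤ V → V ≤ Z → cb u V * max u (Lv K X V) ≤ Rs * u)
    (α : Eis → ℂ) {h U : Eis} (hh : h ≠ 0) (hU : U ≠ 0) (hg : (nm (h * U) : ℝ) ≤ G₀)
    (hcb : ∀ u V, 0 ≤ cb u V) :
    NV cb A K X Z α h U ≤ 3 * Rs * UJ A K X Z α h U := by
  unfold NV UJ
  rw [Finset.mul_sum]
  refine Finset.sum_le_sum fun κ hκ => ?_
  obtain ⟨⟨h1, h2⟩, h3⟩ := mem_BU.mp hκ
  have hκ0 := h1.1
  have hW := Wb_nonneg A (sg α (h * U)) (κ * U)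
  have e1 := nmU_lm hK hX hh hU hκ0
  have e2 := lm_Lv hK hX hh hκ0
  have hU1 := nm_ge_one hU
  have hh1 := nm_ge_one hh
  have hκ1 := nm_ge_one hκ0
  have hl0 : 0 ≤ lm K (X / nm (h * U)) 1 (κ * U) :=
    lm_nonneg hK.le (div_nonneg hX.le (Nat.cast_nonneg _)) _ _
  have hUg : (nm U : ℝ) ≤ G₀ := by
    refine le_trans ?_ hg
    rw [nm_mul]
    push_cast
    nlinarith
  have hV1 : 1 ≤ (nm κ : ℝ) * (nm h : ℝ) ^ 2 :=
    one_le_mul_of_one_le_of_one_le hκ1 (one_le_pow₀ hh1)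
  have hVZ : (nm κ : ℝ) * (nm h : ℝ) ^ 2 ≤ Z := by
    rw [le_div_iff₀ (by positivity)] at h2
    exact h2
  have h4 := w1 _ _ hU1 hUg hV1 hVZ
  have hc := hcb (nm U) ((nm κ : ℝ) * (nm h : ℝ) ^ 2)
  rw [e2] at e1
  generalize lm K (X / nm (h * U)) 1 (κ * U) = l at *
  generalize Wb A (sg α (h * U)) (κ * U) = W at *
  generalize Lv K X ((nm κ : ℝ) * (nm h : ℝ) ^ 2) = L at *
  generalize cb (nm U) ((nm κ : ℝ) * (nm h : ℝ) ^ 2) = c at *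
  generalize (nm U : ℝ) = u at *
  have hu0 : 0 < u := by linarith
  have h5 : c * L ≤ Rs * u := (mul_le_mul_of_nonneg_left (le_max_right _ _) hc).trans h4
  have h6 : c * u ≤ Rs * u := (mul_le_mul_of_nonneg_left (le_max_left _ _) hc).trans h4
  have h7 : c ≤ Rs := le_of_mul_le_mul_right h6 hu0
  have h8 : c * l ≤ 3 * Rs := by
    have h9 : (c * l) * u ≤ (3 * Rs) * u := by
      calc (c * l) * u = c * (u * l) := by ring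
        _ = 3 * (c * L) := by rw [e1]; ring
        _ ≤ 3 * (Rs * u) := by linarith
        _ = _ := by ring
    exact le_of_mul_le_mul_right h9 hu0
  have h10 : c * l ≤ 3 * Rs * min 1 l := by
    rw [mul_min_of_nonneg _ _ (by positivity), mul_one]
    refine le_min h8 ?_
    refine mul_le_mul_of_nonneg_right ?_ hl0
    linarith
  calc c * (l * W) = (c * l) * W := by ring
    _ ≤ (3 * Rs * min 1 l) * W := mul_le_mul_of_nonneg_right h10 hW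
    _ = _ := by ring

/-- a large cell -/
lemma NV_large {cb : ℝ → ℝ → ℝ} {A K X Y Z Rl : ℝ} (hK : 0 < K) (hX : 0 < X)
    (w2 : ∀ u V, 1 ≤ u → u ≤ Y → 1 ≤ V → V ≤ Z → cb u V ≤ Rl)
    (α : Eis → ℂ) {h U : Eis} (hh : h ≠ 0) (hU : U ≠ 0) (hUY : (nm U : ℝ) ≤ Y) :
    NV cb A K X Z α h U ≤ Rl * UL A K X Z α h U := by
  unfold NV UL
  rw [Finset.mul_sum]
  refine Finset.sum_le_sum fun κ hκ => ?_
  obtain ⟨⟨h1, h2⟩, h3⟩ := mem_BU.mp hκ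
  have hκ0 := h1.1
  have hW := Wb_nonneg A (sg α (h * U)) (κ * U)
  have hl0 : 0 ≤ lm K (X / nm (h * U)) 1 (κ * U) :=
    lm_nonneg hK.le (div_nonneg hX.le (Nat.cast_nonneg _)) _ _
  have hh1 := nm_ge_one hh
  have hV1 : 1 ≤ (nm κ : ℝ) * (nm h : ℝ) ^ 2 :=
    one_le_mul_of_one_le_of_one_le (nm_ge_one hκ0) (one_le_pow₀ hh1)
  have hVZ : (nm κ : ℝ) * (nm h : ℝ) ^ 2 ≤ Z := by
    rw [le_div_iff₀ (by positivity)] at h2
    exact h2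
  exact mul_le_mul_of_nonneg_right (w2 _ _ (nm_ge_one hU) hUY hV1 hVZ) (mul_nonneg hl0 hW)

/-! ### the numbers -/

set_option maxHeartbeats 1600000 in
/-- the small pairs -/
theorem small_part {A J ε : ℝ} (hA : J + 1 < A) (hJ : 0 ≤ J) (hε : 0 < ε) : ∃ C : ℝ, 0 ≤ C ∧
    ∀ (P K X Y Y₀ Y₁ G₀ a Ma : ℝ) (α : Eis → ℂ) (N : Eis → Eis → ℝ), 1 ≤ P → 0 < K → 0 < X →
      1 ≤ Y → Y ≤ P → 0 ≤ Y₀ → Y₀ ≤ P → 0 ≤ Y₁ → Y₁ ≤ P → 0 ≤ a → 0 ≤ Ma →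
      (∀ n, α n ≠ 0 → n ∈ S Y) →
      (∀ h ∈ S Y, ∀ U ∈ S Y, (nm (h * U) : ℝ) ≤ G₀ →
        N h U ≤ a * (UJ A K X Y₁ α h U + UL A K X Y₀ α h U)) →
      (∀ g ∈ S Y, (nm g : ℝ) ≤ G₀ → ∀ V, 1 ≤ V → V ≤ Y₁ * nm g → ∀ t,
        VF V (tws (sg α g) t) ≤ Ma / (nm g : ℝ) ^ 2 *
          max 1 ((V * K / (X / nm g) ^ 2) ^ (1 / 3 : ℝ)) * (1 + |t|) ^ J) →
      (∀ g ∈ S Y, (nm g : ℝ) ≤ G₀ → ∀ V, 1 ≤ V → V ≤ Y₀ * nm g → ∀ t,
        VF V (tws (sg α g) t) ≤ Ma / (nm g : ℝ) ^ 2 *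
          (V * K / (X / nm g) ^ 2) ^ (1 / 3 : ℝ) * (1 + |t|) ^ J) →
      (∑ p ∈ (S Y ×ˢ S Y).filter (fun p => (nm (p.1 * p.2) : ℝ) ≤ G₀),
        ((Div277.tau p.1 : ℝ) ^ 7 * (Div277.tau p.2 : ℝ) ^ 4) *
          ((nm p.1 * nm p.2) * N p.1 p.2)) ≤ C * P ^ ε * (a * Ma) := by
  obtain ⟨C₁, hC₁, hτ⟩ := CR3436.tau_pow_le 12 (ε := ε / 2) (by positivity)
  obtain ⟨C₄, hC₄, hlg⟩ := PInv255.one_add_log_pow_le 4 (ε / 2) (by positivity)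
  set I := ∫ t, jb (A - J) t with hIdef
  have hI : 0 ≤ I := integral_nonneg fun t => (jb_pos _ t).le
  refine ⟨3200 * I * C₁ * C₄ + 32 * I * C₄, by positivity,
    fun P K X Y Y₀ Y₁ G₀ a Ma α N hP hK hX hY hYP hZ0 hZ0P hZ1 hZ1P ha hMa hα hN hSA hSB => ?_⟩
  have hY0 : 0 ≤ Y := by linarith
  have hP0 : 0 < P := by linarith
  have hlP := Real.log_nonneg hP
  have hlYP : Real.log Y ≤ Real.log P := Real.log_le_log (by linarith) hYP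
  have hsum : ∑ g ∈ S Y, 1 / (nm g : ℝ) ≤ 100 * (1 + Real.log P) :=
    (sum_inv_S551 hY).trans (by linarith)
  have hl4 := hlg P hP
  have hPe : P ^ (ε / 2) * P ^ (ε / 2) = P ^ ε := by
    rw [← Real.rpow_add hP0]; congr 1; ring
  set l := Real.log P with hl
  have hPp : 0 < P ^ (ε / 2) := by positivity
  have hPp1 : 1 ≤ P ^ (ε / 2) := Real.one_le_rpow hP (by positivity)
  have hl14 : (1 + l) ^ 1 ≤ (1 + l) ^ 4 := pow_le_pow_right₀ (by linarith) (by norm_num)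
  have hl24 : (1 + l) ^ 2 ≤ (1 + l) ^ 4 := pow_le_pow_right₀ (by linarith) (by norm_num)
  have h1S : (1 : Eis) ∈ S Y := (mem_S hY0).2 ⟨by rw [nm_one]; simpa using hY, isPrim_one,
    squarefree_one⟩
  have h11 : ((1 : Eis), (1 : Eis)) ∈ S Y ×ˢ S Y := Finset.mem_product.2 ⟨h1S, h1S⟩
  have hM0 : ∀ g ∈ S Y, (nm g : ℝ) ≤ G₀ →
      Mo A K X Y₀ Y₁ α g ≤ 8 * I * (1 + 4 * l) * (Ma / (nm g : ℝ) ^ 2) := by
    intro g hg hgG
    exact Mo_le_VF (M := Ma / (nm g : ℝ) ^ 2) hA hJ hK hX hY0 hP hYP hZ0P hZ1P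
        (by positivity) hα hg (hSA g hg hgG) (hSB g hg hgG)
  set F : Eis × Eis → ℝ := fun p => ((Div277.tau p.1 : ℝ) ^ 7 * (Div277.tau p.2 : ℝ) ^ 4) *
        ((nm p.1 * nm p.2) * (UJ A K X Y₁ α p.1 p.2 + UL A K X Y₀ α p.1 p.2)) with hF
  have hF0 : ∀ p, 0 ≤ F p := fun p => by
    have b1 := UJ_nonneg (A := A) (Z := Y₁) hK.le hX.le α p.1 p.2
    have b2 := UL_nonneg (A := A) (Z := Y₀) hK.le hX.le α p.1 p.2
    simp only [hF]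
    positivity
  have a1 : (∑ p ∈ (S Y ×ˢ S Y).filter (fun p => (nm (p.1 * p.2) : ℝ) ≤ G₀),
      ((Div277.tau p.1 : ℝ) ^ 7 * (Div277.tau p.2 : ℝ) ^ 4) *
        ((nm p.1 * nm p.2) * N p.1 p.2)) ≤
      ∑ p ∈ (S Y ×ˢ S Y).filter (fun p => (nm (p.1 * p.2) : ℝ) ≤ G₀), a * F p := by
    refine Finset.sum_le_sum fun p hp => ?_
    obtain ⟨hp1, hp2⟩ := Finset.mem_filter.mp hp
    have hp3 := Finset.mem_product.mp hp1
    have b3 := hN p.1 hp3.1 p.2 hp3.2 hp2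
    calc ((Div277.tau p.1 : ℝ) ^ 7 * (Div277.tau p.2 : ℝ) ^ 4) *
        ((nm p.1 * nm p.2) * N p.1 p.2) ≤
        ((Div277.tau p.1 : ℝ) ^ 7 * (Div277.tau p.2 : ℝ) ^ 4) *
        ((nm p.1 * nm p.2) * (a * (UJ A K X Y₁ α p.1 p.2 + UL A K X Y₀ α p.1 p.2))) := by
          refine mul_le_mul_of_nonneg_left (mul_le_mul_of_nonneg_left b3 ?_) ?_ <;> positivity
      _ = a * F p := by simp only [hF]; ring
  refine a1.trans ?_
  rw [← Finset.mul_sum]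
  have a2 : ∑ p ∈ (S Y ×ˢ S Y).filter (fun p => (nm (p.1 * p.2) : ℝ) ≤ G₀), F p ≤
      EUp A K X Y Y₀ Y₁ α (fun p => (nm (p.1 * p.2) : ℝ) ≤ G₀) +
        8 * I * (1 + 4 * l) * Ma := by
    by_cases hG : (1 : ℝ) ≤ G₀
    · have hm : ((1 : Eis), (1 : Eis)) ∈ (S Y ×ˢ S Y).filter
          (fun p => (nm (p.1 * p.2) : ℝ) ≤ G₀) := by
        refine Finset.mem_filter.mpr ⟨h11, ?_⟩
        show (nm ((1 : Eis) * 1) : ℝ) ≤ G₀
        rw [mul_one, nm_one]; simpa using hG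
      rw [← Finset.add_sum_erase _ _ hm, add_comm]
      refine add_le_add (le_of_eq ?_) ?_
      · unfold EUp
        refine Finset.sum_congr ?_ fun _ _ => rfl
        ext p
        simp only [Finset.mem_erase, Finset.mem_filter, Finset.mem_product, ne_eq]
        tauto
      · have b1 := UJ_UL_le_Mo (A := A) (K := K) (X := X) (Y₀ := Y₀) (Y₁ := Y₁) hK.le hX.le
          hZ0 hZ1 α (h := 1) (U := 1) one_ne_zero one_ne_zero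
        have b2 := hM0 1 h1S (by rw [nm_one]; simpa using hG)
        rw [mul_one] at b1
        rw [nm_one] at b2
        simp only [Nat.cast_one, one_pow, div_one] at b2
        have b3 : F (1, 1) = UJ A K X Y₁ α 1 1 + UL A K X Y₀ α 1 1 := by
          simp only [hF, nm_one, tau_one551, Nat.cast_one, one_mul, mul_one, one_pow]
        rw [b3]
        exact b1.trans b2
    · have he : (S Y ×ˢ S Y).filter (fun p => (nm (p.1 * p.2) : ℝ) ≤ G₀) = ∅ := by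
        rw [Finset.filter_eq_empty_iff]
        intro p hp hp2
        have hp3 := Finset.mem_product.mp hp
        have d1 := ((mem_S hY0).1 hp3.1).2.1.ne_zero
        have d2 := ((mem_S hY0).1 hp3.2).2.1.ne_zero
        exact hG ((nm_ge_one (mul_ne_zero d1 d2)).trans hp2)
      rw [he, Finset.sum_empty]
      have b1 : 0 ≤ EUp A K X Y Y₀ Y₁ α (fun p => (nm (p.1 * p.2) : ℝ) ≤ G₀) :=
        Finset.sum_nonneg fun p _ => hF0 p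
      have b2 : 0 ≤ 8 * I * (1 + 4 * l) * Ma := by positivity
      linarith
  have a3 : EUp A K X Y Y₀ Y₁ α (fun p => (nm (p.1 * p.2) : ℝ) ≤ G₀) ≤
      3200 * I * C₁ * C₄ * P ^ ε * Ma := by
    refine (EUs_le_Mo hK.le hX.le hY0 hZ0 hZ1 hα).trans ?_
    have h2 : ∀ g ∈ ((S Y).erase 1).filter (fun g => (nm g : ℝ) ≤ G₀),
        nm g * (Div277.tau g : ℝ) ^ 12 * Mo A K X Y₀ Y₁ α g ≤
          (C₁ * P ^ (ε / 2) * (8 * I * (1 + 4 * l) * Ma)) * (1 / (nm g : ℝ)) := by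
      intro g hg
      obtain ⟨hg1, hg2⟩ := Finset.mem_filter.mp hg
      obtain ⟨hg3, hg4⟩ := Finset.mem_erase.mp hg1
      have hgS := (mem_S hY0).1 hg4
      have hg0 := nmpos hgS.2.1.ne_zero
      have a1 := hτ P g hgS.2.1 (hgS.1.trans hYP)
      have a2 := hM0 g hg4 hg2
      have a3 := Mo_nonneg (A := A) (Y₀ := Y₀) (Y₁ := Y₁) hK.le hX.le α g
      calc nm g * (Div277.tau g : ℝ) ^ 12 * Mo A K X Y₀ Y₁ α g
          ≤ nm g * (C₁ * P ^ (ε / 2)) * (8 * I * (1 + 4 * l) * (Ma / (nm g : ℝ) ^ 2)) :=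
            mul_le_mul (mul_le_mul_of_nonneg_left a1 hg0.le) a2 a3 (by positivity)
        _ = _ := by field_simp
    refine (Finset.sum_le_sum h2).trans ?_
    rw [← Finset.mul_sum]
    have h3 : ∑ g ∈ ((S Y).erase 1).filter (fun g => (nm g : ℝ) ≤ G₀), 1 / (nm g : ℝ) ≤
        100 * (1 + l) := by
      refine (Finset.sum_le_sum_of_subset_of_nonneg ?_ fun _ _ _ => by positivity).trans hsum
      exact (Finset.filter_subset _ _).trans (Finset.erase_subset _ _)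
    calc (C₁ * P ^ (ε / 2) * (8 * I * (1 + 4 * l) * Ma)) *
          ∑ g ∈ ((S Y).erase 1).filter (fun g => (nm g : ℝ) ≤ G₀), 1 / (nm g : ℝ)
        ≤ (C₁ * P ^ (ε / 2) * (8 * I * (4 * (1 + l)) * Ma)) * (100 * (1 + l)) := by
          have : 1 + 4 * l ≤ 4 * (1 + l) := by linarith
          gcongr
      _ = 3200 * I * C₁ * P ^ (ε / 2) * Ma * (1 + l) ^ 2 := by ring
      _ ≤ 3200 * I * C₁ * P ^ (ε / 2) * Ma * (C₄ * P ^ (ε / 2)) := by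
          have := hl24.trans hl4
          gcongr
      _ = 3200 * I * C₁ * C₄ * (P ^ (ε / 2) * P ^ (ε / 2)) * Ma := by ring
      _ = _ := by rw [hPe]
  have a4 : 8 * I * (1 + 4 * l) * Ma ≤ 32 * I * C₄ * P ^ ε * Ma := by
    have b1 : 1 + 4 * l ≤ 4 * (1 + l) := by linarith
    have b2 : (1 + l) ≤ C₄ * P ^ (ε / 2) := by
      have := hl14.trans hl4
      rwa [pow_one] at this
    have b3 : P ^ (ε / 2) ≤ P ^ ε := by
      rw [← hPe]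
      exact le_mul_of_one_le_left hPp.le hPp1
    calc 8 * I * (1 + 4 * l) * Ma ≤ 8 * I * (4 * (C₄ * P ^ ε)) * Ma := by
          have b4 : 1 + 4 * l ≤ 4 * (C₄ * P ^ ε) := by
            have : C₄ * P ^ (ε / 2) ≤ C₄ * P ^ ε := mul_le_mul_of_nonneg_left b3 (by linarith)
            linarith
          gcongr
      _ = _ := by ring
  calc a * ∑ p ∈ (S Y ×ˢ S Y).filter (fun p => (nm (p.1 * p.2) : ℝ) ≤ G₀), F p
      ≤ a * (3200 * I * C₁ * C₄ * P ^ ε * Ma + 32 * I * C₄ * P ^ ε * Ma) :=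
        mul_le_mul_of_nonneg_left (a2.trans (add_le_add a3 a4)) ha
    _ = _ := by ring

set_option maxHeartbeats 1600000 in
/-- the large pairs -/
theorem large_part {A J ε : ℝ} (hA : J + 1 < A) (hJ : 0 ≤ J) (hε : 0 < ε) : ∃ C : ℝ, 0 ≤ C ∧
    ∀ (P K X Y Z G₀ a Ml : ℝ) (α : Eis → ℂ) (N : Eis → Eis → ℝ), 1 ≤ P → 0 < K → 0 < X →
      1 ≤ Y → Y ≤ P → 0 ≤ Z → Z ≤ P → 0 ≤ a → 0 ≤ Ml →
      (∀ n, α n ≠ 0 → n ∈ S Y) →
      (∀ h ∈ S Y, ∀ U ∈ S Y, N h U ≤ a * UL A K X Z α h U) →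
      (∀ h ∈ S Y, ∀ B V, 1 ≤ B → B ≤ Y → 1 ≤ V → V ≤ Z / (nm h : ℝ) ^ 2 → ∀ t,
        JB Y α (fun U => G₀ < nm (h * U)) h B V t ≤
          Ml / (nm h : ℝ) ^ 2 * yv K X h V * (1 + |t|) ^ J) →
      (∑ p ∈ (S Y ×ˢ S Y).filter (fun p => ¬ (nm (p.1 * p.2) : ℝ) ≤ G₀),
        ((Div277.tau p.1 : ℝ) ^ 7 * (Div277.tau p.2 : ℝ) ^ 4) *
          ((nm p.1 * nm p.2) * N p.1 p.2)) ≤ C * P ^ ε * (a * Ml) := by
  obtain ⟨C₂, hC₂, hτ7⟩ := CR3436.tau_pow_le 7 (ε := ε / 4) (by positivity)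
  obtain ⟨C₃, hC₃, hτ4⟩ := CR3436.tau_pow_le 4 (ε := ε / 4) (by positivity)
  obtain ⟨C₄, hC₄, hlg⟩ := PInv255.one_add_log_pow_le 4 (ε / 2) (by positivity)
  set I := ∫ t, jb (A - J) t with hIdef
  have hI : 0 ≤ I := integral_nonneg fun t => (jb_pos _ t).le
  refine ⟨1600 * I * (C₂ * C₃) * C₄, by positivity,
    fun P K X Y Z G₀ a Ml α N hP hK hX hY hYP hZ hZP ha hMl hα hN hL => ?_⟩
  have hY0 : 0 ≤ Y := by linarith
  have hP0 : 0 < P := by linarith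
  have hlP := Real.log_nonneg hP
  have hlYP : Real.log Y ≤ Real.log P := Real.log_le_log (by linarith) hYP
  have hsum : ∑ g ∈ S Y, 1 / (nm g : ℝ) ≤ 100 * (1 + Real.log P) :=
    (sum_inv_S551 hY).trans (by linarith)
  have hl4 := hlg P hP
  have hPe : P ^ (ε / 2) * P ^ (ε / 2) = P ^ ε := by
    rw [← Real.rpow_add hP0]; congr 1; ring
  have hPe4 : P ^ (ε / 4) * P ^ (ε / 4) = P ^ (ε / 2) := by
    rw [← Real.rpow_add hP0]; congr 1; ring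
  set l := Real.log P with hl
  have hPp : 0 < P ^ (ε / 2) := by positivity
  have hl34 : (1 + l) ^ 3 ≤ (1 + l) ^ 4 := pow_le_pow_right₀ (by linarith) (by norm_num)
  have h2 : (∑ p ∈ (S Y ×ˢ S Y).filter (fun p => ¬ (nm (p.1 * p.2) : ℝ) ≤ G₀),
      ((Div277.tau p.1 : ℝ) ^ 7 * (Div277.tau p.2 : ℝ) ^ 4) *
        ((nm p.1 * nm p.2) * N p.1 p.2)) ≤
      ∑ h ∈ S Y, (C₂ * C₃ * P ^ (ε / 2) * a) * (nm h * ∑ U ∈ (S Y).filter
        (fun U => G₀ < (nm (h * U) : ℝ)), nm U * UL A K X Z α h U) := by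
    have e1 : ∑ h ∈ S Y, (C₂ * C₃ * P ^ (ε / 2) * a) * (nm h * ∑ U ∈ (S Y).filter
        (fun U => G₀ < (nm (h * U) : ℝ)), nm U * UL A K X Z α h U) =
        ∑ p ∈ (S Y ×ˢ S Y).filter (fun p => ¬ (nm (p.1 * p.2) : ℝ) ≤ G₀),
          (C₂ * C₃ * P ^ (ε / 2)) * ((nm p.1 * nm p.2) * (a * UL A K X Z α p.1 p.2)) := by
      rw [Finset.sum_filter, Finset.sum_product]
      refine Finset.sum_congr rfl fun h _ => ?_
      rw [Finset.sum_filter, Finset.mul_sum, Finset.mul_sum]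
      refine Finset.sum_congr rfl fun U _ => ?_
      simp only [not_le]
      split_ifs <;> ring
    rw [e1]
    refine Finset.sum_le_sum fun p hp => ?_
    obtain ⟨hp1, -⟩ := Finset.mem_filter.mp hp
    have hp2 := Finset.mem_product.mp hp1
    have d1 := (mem_S hY0).1 hp2.1
    have d2 := (mem_S hY0).1 hp2.2
    have a1 := hτ7 P p.1 d1.2.1 (d1.1.trans hYP)
    have a2 := hτ4 P p.2 d2.2.1 (d2.1.trans hYP)
    have h4 := UL_nonneg (A := A) (Z := Z) hK.le hX.le α p.1 p.2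
    have h5 := hN p.1 hp2.1 p.2 hp2.2
    have h6 : (Div277.tau p.1 : ℝ) ^ 7 * (Div277.tau p.2 : ℝ) ^ 4 ≤
        C₂ * C₃ * P ^ (ε / 2) := by
      calc (Div277.tau p.1 : ℝ) ^ 7 * (Div277.tau p.2 : ℝ) ^ 4
          ≤ (C₂ * P ^ (ε / 4)) * (C₃ * P ^ (ε / 4)) := by gcongr
        _ = C₂ * C₃ * (P ^ (ε / 4) * P ^ (ε / 4)) := by ring
        _ = _ := by rw [hPe4]
    calc (Div277.tau p.1 : ℝ) ^ 7 * (Div277.tau p.2 : ℝ) ^ 4 * ((nm p.1 * nm p.2) * N p.1 p.2)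
        ≤ (Div277.tau p.1 : ℝ) ^ 7 * (Div277.tau p.2 : ℝ) ^ 4 *
          ((nm p.1 * nm p.2) * (a * UL A K X Z α p.1 p.2)) := by
          refine mul_le_mul_of_nonneg_left (mul_le_mul_of_nonneg_left h5 ?_) ?_ <;> positivity
      _ ≤ _ := mul_le_mul_of_nonneg_right h6 (by positivity)
  refine h2.trans ?_
  have h3 : ∀ h ∈ S Y, (C₂ * C₃ * P ^ (ε / 2) * a) * (nm h * ∑ U ∈ (S Y).filter
        (fun U => G₀ < (nm (h * U) : ℝ)), nm U * UL A K X Z α h U) ≤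
      (C₂ * C₃ * P ^ (ε / 2) * a * (4 * I * (1 + 2 * l) ^ 2 * Ml)) * (1 / (nm h : ℝ)) := by
    intro h hh
    have hhS := (mem_S hY0).1 hh
    have hh0 := nmpos hhS.2.1.ne_zero
    have hh1 := nm_ge_one hhS.2.1.ne_zero
    have b2 := large_h0 (M := Ml / (nm h : ℝ) ^ 2) (Q := fun U => G₀ < nm (h * U))
      hA hJ hK hX hY (by positivity) hα hhS.2.1 (fun B V => hL h hh B V)
    rw [← hIdef] at b2
    have c1 : Real.log (max 1 (Z / (nm h : ℝ) ^ 2)) ≤ l := by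
      refine Real.log_le_log (by positivity) (max_le hP ?_)
      exact (div_le_self hZ (one_le_pow₀ hh1)).trans hZP
    have c3 := Real.log_nonneg (le_max_left 1 (Z / (nm h : ℝ) ^ 2))
    have hlY := Real.log_nonneg hY
    have b4 : ∑ U ∈ (S Y).filter (fun U => G₀ < (nm (h * U) : ℝ)),
        nm U * UL A K X Z α h U ≤ 4 * I * (1 + 2 * l) * (1 + 2 * l) * (Ml / (nm h : ℝ) ^ 2) := by
      refine b2.trans ?_
      gcongr
    calc (C₂ * C₃ * P ^ (ε / 2) * a) * (nm h *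
          ∑ U ∈ (S Y).filter (fun U => G₀ < (nm (h * U) : ℝ)), nm U * UL A K X Z α h U)
        ≤ (C₂ * C₃ * P ^ (ε / 2) * a) * (nm h *
          (4 * I * (1 + 2 * l) * (1 + 2 * l) * (Ml / (nm h : ℝ) ^ 2))) := by
          gcongr
      _ = _ := by field_simp
  refine (Finset.sum_le_sum h3).trans ?_
  rw [← Finset.mul_sum]
  calc (C₂ * C₃ * P ^ (ε / 2) * a * (4 * I * (1 + 2 * l) ^ 2 * Ml)) *
        ∑ h ∈ S Y, 1 / (nm h : ℝ)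
      ≤ (C₂ * C₃ * P ^ (ε / 2) * a * (4 * I * (2 * (1 + l)) ^ 2 * Ml)) *
        (100 * (1 + l)) := by
        have : 1 + 2 * l ≤ 2 * (1 + l) := by linarith
        gcongr
    _ = 1600 * I * (C₂ * C₃) * P ^ (ε / 2) * (a * Ml) * (1 + l) ^ 3 := by ring
    _ ≤ 1600 * I * (C₂ * C₃) * P ^ (ε / 2) * (a * Ml) * (C₄ * P ^ (ε / 2)) := by
        have := hl34.trans hl4
        gcongr
    _ = 1600 * I * (C₂ * C₃) * C₄ * (P ^ (ε / 2) * P ^ (ε / 2)) * (a * Ml) := by ring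
    _ = _ := by rw [hPe]

lemma EVU_split (cb : ℝ → ℝ → ℝ) (A K X Y Z G₀ : ℝ) (α : Eis → ℂ) :
    EVU cb A K X Y Z α =
      (∑ p ∈ (S Y ×ˢ S Y).filter (fun p => (nm (p.1 * p.2) : ℝ) ≤ G₀),
        ((Div277.tau p.1 : ℝ) ^ 7 * (Div277.tau p.2 : ℝ) ^ 4) *
          ((nm p.1 * nm p.2) * NV cb A K X Z α p.1 p.2)) +
      ∑ p ∈ (S Y ×ˢ S Y).filter (fun p => ¬ (nm (p.1 * p.2) : ℝ) ≤ G₀),
        ((Div277.tau p.1 : ℝ) ^ 7 * (Div277.tau p.2 : ℝ) ^ 4) *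
          ((nm p.1 * nm p.2) * NV cb A K X Z α p.1 p.2) := by
  unfold EVU
  convert (Finset.sum_filter_add_sum_filter_not _ _ _).symm

/-- **the functional by numbers** (flat own claim) -/
theorem EHv_le {A J ε : ℝ} (hA : J + 1 < A) (hJ : 0 ≤ J) (hε : 0 < ε) : ∃ C : ℝ, 0 ≤ C ∧
    ∀ (P K X Y Z G₀ Ma Ml Rs Rl : ℝ) (α : Eis → ℂ), 1 ≤ P → 0 < K → 0 < X → 1 ≤ Y → Y ≤ P →
      0 ≤ Z → Z ≤ P → 0 ≤ Ma → 0 ≤ Ml → 0 ≤ Rs → 0 ≤ Rl → (∀ n, α n ≠ 0 → n ∈ S Y) →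
      ∀ c cb : ℝ → ℝ → ℝ, (∀ u V, 0 ≤ cb u V) →
      (∀ x u V, 1 ≤ x → 1 ≤ u → 1 ≤ V → c (x * u) V ≤ x * cb u V) →
      (∀ u V, 1 ≤ u → u ≤ G₀ → 1 ≤ V → V ≤ Z → cb u V * max u (Lv K X V) ≤ Rs * u) →
      (∀ u V, 1 ≤ u → u ≤ Y → 1 ≤ V → V ≤ Z → cb u V ≤ Rl) →
      (∀ g ∈ S Y, (nm g : ℝ) ≤ G₀ → ∀ V, 1 ≤ V → V ≤ Z * nm g → ∀ t,
        VF V (tws (sg α g) t) ≤ Ma / (nm g : ℝ) ^ 2 *
          max 1 ((V * K / (X / nm g) ^ 2) ^ (1 / 3 : ℝ)) * (1 + |t|) ^ J) →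
      (∀ h ∈ S Y, ∀ B V, 1 ≤ B → B ≤ Y → 1 ≤ V → V ≤ Z / (nm h : ℝ) ^ 2 → ∀ t,
        JB Y α (fun U => G₀ < nm (h * U)) h B V t ≤
          Ml / (nm h : ℝ) ^ 2 * yv K X h V * (1 + |t|) ^ J) →
      EHv c A K X Y Z α ≤ C * P ^ ε * (Rs * Ma + Rl * Ml) := by
  obtain ⟨C₁, hC₁, H₁⟩ := small_part hA hJ hε
  obtain ⟨C₂, hC₂, H₂⟩ := large_part hA hJ hε
  refine ⟨3 * C₁ + C₂, by positivity, fun P K X Y Z G₀ Ma Ml Rs Rl α hP hK hX hY hYP hZ hZP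
    hMa hMl hRs hRl hα c cb hcb hccb w1 w2 hSA hL => ?_⟩
  have hY0 : 0 ≤ Y := by linarith
  have hP0 : 0 < P := by linarith
  refine (EHv_le_EVU hcb hccb hK hX hY hα).trans ?_
  rw [EVU_split cb A K X Y Z G₀ α]
  have h1 := H₁ P K X Y 0 Z G₀ (3 * Rs) Ma α (fun h U => NV cb A K X Z α h U) hP hK hX hY hYP
    le_rfl hP0.le hZ hZP (by positivity) hMa hα (fun h hh U hU hg => by
      have d1 := ((mem_S hY0).1 hh).2.1.ne_zero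
      have d2 := ((mem_S hY0).1 hU).2.1.ne_zero
      have b1 := NV_small (A := A) hK hX hRs w1 α d1 d2 hg hcb
      have b2 := UL_nonneg (A := A) (Z := 0) hK.le hX.le α h U
      exact b1.trans (mul_le_mul_of_nonneg_left (by linarith) (by positivity))) hSA
    (fun g hg _ V hV1 hV2 => by
      rw [zero_mul] at hV2
      exact absurd (hV1.trans hV2) (by norm_num))
  have h2 := H₂ P K X Y Z G₀ Rl Ml α (fun h U => NV cb A K X Z α h U) hP hK hX hY hYP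
    hZ hZP hRl hMl hα (fun h hh U hU => by
      have d1 := ((mem_S hY0).1 hh).2.1.ne_zero
      have d2 := (mem_S hY0).1 hU
      exact NV_large (A := A) hK hX w2 α d1 d2.2.1.ne_zero d2.1) hL
  have hp1 : 0 ≤ C₁ * P ^ ε * (Rl * Ml) := by positivity
  have hp2 : 0 ≤ C₂ * P ^ ε * (Rs * Ma) := by positivity
  refine (add_le_add h1 h2).trans ?_
  nlinarith

/-- **the functional by numbers** (slope form) -/
theorem EHv_le0 {A J ε : ℝ} (hA : J + 1 < A) (hJ : 0 ≤ J) (hε : 0 < ε) : ∃ C : ℝ, 0 ≤ C ∧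
    ∀ (P K X Y Z G₀ Ma Ml R : ℝ) (α : Eis → ℂ), 1 ≤ P → 0 < K → 0 < X → 1 ≤ Y → Y ≤ P →
      0 ≤ Z → Z ≤ P → 0 ≤ Ma → 0 ≤ Ml → 0 ≤ R → (∀ n, α n ≠ 0 → n ∈ S Y) →
      ∀ c cb : ℝ → ℝ → ℝ, (∀ u V, 0 ≤ cb u V) →
      (∀ x u V, 1 ≤ x → 1 ≤ u → 1 ≤ V → c (x * u) V ≤ x * cb u V) →
      (∀ u V, 1 ≤ u → u ≤ Y → 1 ≤ V → V ≤ Z → cb u V ≤ R) →
      (∀ g ∈ S Y, (nm g : ℝ) ≤ G₀ → ∀ V, 1 ≤ V → V ≤ Z * nm g → ∀ t,
        VF V (tws (sg α g) t) ≤ Ma / (nm g : ℝ) ^ 2 *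
          (V * K / (X / nm g) ^ 2) ^ (1 / 3 : ℝ) * (1 + |t|) ^ J) →
      (∀ h ∈ S Y, ∀ B V, 1 ≤ B → B ≤ Y → 1 ≤ V → V ≤ Z / (nm h : ℝ) ^ 2 → ∀ t,
        JB Y α (fun U => G₀ < nm (h * U)) h B V t ≤
          Ml / (nm h : ℝ) ^ 2 * yv K X h V * (1 + |t|) ^ J) →
      EHv c A K X Y Z α ≤ C * P ^ ε * (R * (Ma + Ml)) := by
  obtain ⟨C₁, hC₁, H₁⟩ := small_part hA hJ hε
  obtain ⟨C₂, hC₂, H₂⟩ := large_part hA hJ hε
  refine ⟨C₁ + C₂, by positivity, fun P K X Y Z G₀ Ma Ml R α hP hK hX hY hYP hZ hZP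
    hMa hMl hR hα c cb hcb hccb w2 hSA hL => ?_⟩
  have hY0 : 0 ≤ Y := by linarith
  have hP0 : 0 < P := by linarith
  refine (EHv_le_EVU hcb hccb hK hX hY hα).trans ?_
  rw [EVU_split cb A K X Y Z G₀ α]
  have hNL : ∀ h ∈ S Y, ∀ U ∈ S Y, NV cb A K X Z α h U ≤ R * UL A K X Z α h U :=
    fun h hh U hU => by
      have d1 := ((mem_S hY0).1 hh).2.1.ne_zero
      have d2 := (mem_S hY0).1 hU
      exact NV_large (A := A) hK hX w2 α d1 d2.2.1.ne_zero d2.1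
  have h1 := H₁ P K X Y Z 0 G₀ R Ma α (fun h U => NV cb A K X Z α h U) hP hK hX hY hYP
    hZ hZP le_rfl hP0.le hR hMa hα (fun h hh U hU _ => by
      have b2 := UJ_nonneg (A := A) (Z := 0) hK.le hX.le α h U
      exact (hNL h hh U hU).trans (mul_le_mul_of_nonneg_left (by linarith) hR))
    (fun g hg _ V hV1 hV2 => by
      rw [zero_mul] at hV2
      exact absurd (hV1.trans hV2) (by norm_num)) hSA
  have h2 := H₂ P K X Y Z G₀ R Ml α (fun h U => NV cb A K X Z α h U) hP hK hX hY hYP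
    hZ hZP hR hMl hα hNL hL
  have hp1 : 0 ≤ C₁ * P ^ ε * (R * Ml) := by positivity
  have hp2 : 0 ≤ C₂ * P ^ ε * (R * Ma) := by positivity
  refine (add_le_add h1 h2).trans ?_
  nlinarith

/-- the moments of the sub-sequences under a twist -/
lemma VF_tws {Y : ℝ} (hY : 0 ≤ Y) {α : Eis → ℂ} (hα : ∀ n, α n ≠ 0 → n ∈ S Y)
    {g : Eis} (hg : g ≠ 0) (V s t : ℝ) :
    VF V (tws (sg (tws α s) g) t) = VF V (tws (sg α g) (s + t)) := by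
  unfold Rough381.VF
  exact Finset.sum_congr rfl fun r _ => by rw [norm_TG_tws_tws hY hα hg]

/-- **the functional by numbers, pointwise in the height** -/
theorem EHv_num {A J ε : ℝ} (hA : J + 1 < A) (hJ : 0 ≤ J) (hε : 0 < ε) : ∃ C : ℝ, 0 ≤ C ∧
    ∀ (P K X Y Z G₀ Ma Ml Rs Rl : ℝ) (α : Eis → ℂ), 1 ≤ P → 0 < K → 0 < X → 1 ≤ Y → Y ≤ P →
      0 ≤ Z → Z ≤ P → 0 ≤ Ma → 0 ≤ Ml → 0 ≤ Rs → 0 ≤ Rl → (∀ n, α n ≠ 0 → n ∈ S Y) →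
      ∀ c cb : ℝ → ℝ → ℝ, (∀ u V, 0 ≤ cb u V) →
      (∀ x u V, 1 ≤ x → 1 ≤ u → 1 ≤ V → c (x * u) V ≤ x * cb u V) →
      (∀ u V, 1 ≤ u → u ≤ G₀ → 1 ≤ V → V ≤ Z → cb u V * max u (Lv K X V) ≤ Rs * u) →
      (∀ u V, 1 ≤ u → u ≤ Y → 1 ≤ V → V ≤ Z → cb u V ≤ Rl) →
      (∀ g ∈ S Y, (nm g : ℝ) ≤ G₀ → ∀ V, 1 ≤ V → V ≤ Z * nm g → ∀ t,
        VF V (tws (sg α g) t) ≤ Ma / (nm g : ℝ) ^ 2 *
          max 1 ((V * K / (X / nm g) ^ 2) ^ (1 / 3 : ℝ)) * (1 + |t|) ^ J) →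
      (∀ h ∈ S Y, ∀ B V, 1 ≤ B → B ≤ Y → 1 ≤ V → V ≤ Z / (nm h : ℝ) ^ 2 → ∀ t,
        JB Y α (fun U => G₀ < nm (h * U)) h B V t ≤
          Ml / (nm h : ℝ) ^ 2 * yv K X h V * (1 + |t|) ^ J) →
      ∀ t : ℝ, EHv c A K X Y Z (fun n => α n * pw t (nm n)) ≤
        C * P ^ ε * ((Rs * Ma + Rl * Ml) * (1 + |t|) ^ J) := by
  obtain ⟨C, hC, H⟩ := EHv_le hA hJ hε
  refine ⟨C, hC, fun P K X Y Z G₀ Ma Ml Rs Rl α hP hK hX hY hYP hZ hZP hMa hMl hRs hRl hα c cb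
    hcb hccb w1 w2 hSA hL t => ?_⟩
  have hY0 : 0 ≤ Y := by linarith
  have hα' := tws_supp hα t
  have hpow : ∀ s : ℝ, (1 + |t + s|) ^ J ≤ (1 + |t|) ^ J * (1 + |s|) ^ J := by
    intro s
    rw [← Real.mul_rpow (by positivity) (by positivity)]
    refine Real.rpow_le_rpow (by positivity) ?_ hJ
    have := abs_add_le t s
    nlinarith [abs_nonneg t, abs_nonneg s]
  have hmain := H P K X Y Z G₀ (Ma * (1 + |t|) ^ J) (Ml * (1 + |t|) ^ J) Rs Rl (tws α t) hP hK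
    hX hY hYP hZ hZP (by positivity) (by positivity) hRs hRl hα' c cb hcb hccb w1 w2 ?_ ?_
  · refine hmain.trans (le_of_eq ?_)
    ring
  · intro g hg hgG V hV1 hV2 s
    have hgS := (mem_S hY0).1 hg
    have hg0 := nmpos hgS.2.1.ne_zero
    rw [VF_tws hY0 hα hgS.2.1.ne_zero]
    refine (hSA g hg hgG V hV1 hV2 (t + s)).trans ?_
    have h2 : 0 ≤ Ma / (nm g : ℝ) ^ 2 *
        max 1 ((V * K / (X / nm g) ^ 2) ^ (1 / 3 : ℝ)) := by positivity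
    calc Ma / (nm g : ℝ) ^ 2 * max 1 ((V * K / (X / nm g) ^ 2) ^ (1 / 3 : ℝ)) *
          (1 + |t + s|) ^ J
        ≤ Ma / (nm g : ℝ) ^ 2 * max 1 ((V * K / (X / nm g) ^ 2) ^ (1 / 3 : ℝ)) *
          ((1 + |t|) ^ J * (1 + |s|) ^ J) := mul_le_mul_of_nonneg_left (hpow s) h2
      _ = _ := by ring
  · intro h hh B V hB1 hB2 hV1 hV2 s
    have hhS := (mem_S hY0).1 hh
    have hV0 : 0 < V := by linarith
    have hy := yv_pos hK hX hV0 hhS.2.1.ne_zero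
    have hh0 := nmpos hhS.2.1.ne_zero
    rw [JB_tws hY0 hα _ hhS.2.1.ne_zero]
    refine (hL h hh B V hB1 hB2 hV1 hV2 (t + s)).trans ?_
    have h2 : 0 ≤ Ml / (nm h : ℝ) ^ 2 * yv K X h V := by positivity
    calc Ml / (nm h : ℝ) ^ 2 * yv K X h V * (1 + |t + s|) ^ J
        ≤ Ml / (nm h : ℝ) ^ 2 * yv K X h V * ((1 + |t|) ^ J * (1 + |s|) ^ J) :=
          mul_le_mul_of_nonneg_left (hpow s) h2
      _ = _ := by ring

/-- **the functional by numbers, pointwise in the height** (slope form) -/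
theorem EHv_num0 {A J ε : ℝ} (hA : J + 1 < A) (hJ : 0 ≤ J) (hε : 0 < ε) : ∃ C : ℝ, 0 ≤ C ∧
    ∀ (P K X Y Z G₀ Ma Ml R : ℝ) (α : Eis → ℂ), 1 ≤ P → 0 < K → 0 < X → 1 ≤ Y → Y ≤ P →
      0 ≤ Z → Z ≤ P → 0 ≤ Ma → 0 ≤ Ml → 0 ≤ R → (∀ n, α n ≠ 0 → n ∈ S Y) →
      ∀ c cb : ℝ → ℝ → ℝ, (∀ u V, 0 ≤ cb u V) →
      (∀ x u V, 1 ≤ x → 1 ≤ u → 1 ≤ V → c (x * u) V ≤ x * cb u V) →
      (∀ u V, 1 ≤ u → u ≤ Y → 1 ≤ V → V ≤ Z → cb u V ≤ R) →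
      (∀ g ∈ S Y, (nm g : ℝ) ≤ G₀ → ∀ V, 1 ≤ V → V ≤ Z * nm g → ∀ t,
        VF V (tws (sg α g) t) ≤ Ma / (nm g : ℝ) ^ 2 *
          (V * K / (X / nm g) ^ 2) ^ (1 / 3 : ℝ) * (1 + |t|) ^ J) →
      (∀ h ∈ S Y, ∀ B V, 1 ≤ B → B ≤ Y → 1 ≤ V → V ≤ Z / (nm h : ℝ) ^ 2 → ∀ t,
        JB Y α (fun U => G₀ < nm (h * U)) h B V t ≤
          Ml / (nm h : ℝ) ^ 2 * yv K X h V * (1 + |t|) ^ J) →
      ∀ t : ℝ, EHv c A K X Y Z (fun n => α n * pw t (nm n)) ≤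
        C * P ^ ε * (R * (Ma + Ml) * (1 + |t|) ^ J) := by
  obtain ⟨C, hC, H⟩ := EHv_le0 hA hJ hε
  refine ⟨C, hC, fun P K X Y Z G₀ Ma Ml R α hP hK hX hY hYP hZ hZP hMa hMl hR hα c cb
    hcb hccb w2 hSA hL t => ?_⟩
  have hY0 : 0 ≤ Y := by linarith
  have hα' := tws_supp hα t
  have hpow : ∀ s : ℝ, (1 + |t + s|) ^ J ≤ (1 + |t|) ^ J * (1 + |s|) ^ J := by
    intro s
    rw [← Real.mul_rpow (by positivity) (by positivity)]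
    refine Real.rpow_le_rpow (by positivity) ?_ hJ
    have := abs_add_le t s
    nlinarith [abs_nonneg t, abs_nonneg s]
  have hmain := H P K X Y Z G₀ (Ma * (1 + |t|) ^ J) (Ml * (1 + |t|) ^ J) R (tws α t) hP hK
    hX hY hYP hZ hZP (by positivity) (by positivity) hR hα' c cb hcb hccb w2 ?_ ?_
  · refine hmain.trans (le_of_eq ?_)
    ring
  · intro g hg hgG V hV1 hV2 s
    have hgS := (mem_S hY0).1 hg
    have hg0 := nmpos hgS.2.1.ne_zero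
    rw [VF_tws hY0 hα hgS.2.1.ne_zero]
    refine (hSA g hg hgG V hV1 hV2 (t + s)).trans ?_
    have h2 : 0 ≤ Ma / (nm g : ℝ) ^ 2 *
        (V * K / (X / nm g) ^ 2) ^ (1 / 3 : ℝ) := by
      have : 0 ≤ V := by linarith
      positivity
    calc Ma / (nm g : ℝ) ^ 2 * (V * K / (X / nm g) ^ 2) ^ (1 / 3 : ℝ) *
          (1 + |t + s|) ^ J
        ≤ Ma / (nm g : ℝ) ^ 2 * (V * K / (X / nm g) ^ 2) ^ (1 / 3 : ℝ) *
          ((1 + |t|) ^ J * (1 + |s|) ^ J) := mul_le_mul_of_nonneg_left (hpow s) h2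
      _ = _ := by ring
  · intro h hh B V hB1 hB2 hV1 hV2 s
    have hhS := (mem_S hY0).1 hh
    have hV0 : 0 < V := by linarith
    have hy := yv_pos hK hX hV0 hhS.2.1.ne_zero
    have hh0 := nmpos hhS.2.1.ne_zero
    rw [JB_tws hY0 hα _ hhS.2.1.ne_zero]
    refine (hL h hh B V hB1 hB2 hV1 hV2 (t + s)).trans ?_
    have h2 : 0 ≤ Ml / (nm h : ℝ) ^ 2 * yv K X h V := by positivity
    calc Ml / (nm h : ℝ) ^ 2 * yv K X h V * (1 + |t + s|) ^ J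
        ≤ Ml / (nm h : ℝ) ^ 2 * yv K X h V * ((1 + |t|) ^ J * (1 + |s|) ^ J) :=
          mul_le_mul_of_nonneg_left (hpow s) h2
      _ = _ := by ring

/-! ### the two weights -/

/-- the weight `θ(V) e` on `e ≤ E₀(V)` -/
def cS (θ E₀ : ℝ → ℝ) (u V : ℝ) : ℝ := if u ≤ E₀ V then θ V * u else 0

/-- the weight `θ(V) / e` on `e > E₀(V)` -/
def cT (θ E₀ : ℝ → ℝ) (u V : ℝ) : ℝ := if E₀ V < u then θ V * u⁻¹ else 0

/-- the majorants -/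
def cbS (θ E₀ : ℝ → ℝ) (u V : ℝ) : ℝ := if u ≤ E₀ V then θ V * |u| else 0
def cbT (θ E₀ : ℝ → ℝ) (u V : ℝ) : ℝ := θ V * min |u|⁻¹ (|u| / E₀ V ^ 2)

lemma cbS_nonneg {θ E₀ : ℝ → ℝ} (hθ : ∀ V, 0 ≤ θ V) (u V : ℝ) : 0 ≤ cbS θ E₀ u V := by
  unfold cbS
  split_ifs
  · exact mul_nonneg (hθ V) (abs_nonneg u)
  · exact le_rfl

lemma cS_le {θ E₀ : ℝ → ℝ} (hθ : ∀ V, 0 ≤ θ V) (x u V : ℝ) (hx : 1 ≤ x) (hu : 1 ≤ u)
    (_ : 1 ≤ V) : cS θ E₀ (x * u) V ≤ x * cbS θ E₀ u V := by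
  have hx0 : 0 ≤ x := by linarith
  have hu0 : 0 ≤ u := by linarith
  have h0 := cbS_nonneg (E₀ := E₀) hθ u V
  by_cases h1 : x * u ≤ E₀ V
  · have h2 : u ≤ E₀ V := (le_mul_of_one_le_left hu0 hx).trans h1
    unfold cS cbS
    rw [if_pos h1, if_pos h2, abs_of_nonneg hu0]
    exact le_of_eq (by ring)
  · unfold cS
    rw [if_neg h1]
    positivity

lemma cbS_max {θ E₀ : ℝ → ℝ} (hθ : ∀ V, 0 ≤ θ V) {Rs L u V : ℝ} (hRs : 0 ≤ Rs) (hu : 1 ≤ u)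
    (h : θ V * max (E₀ V) L ≤ Rs) : cbS θ E₀ u V * max u L ≤ Rs * u := by
  have hu0 : 0 ≤ u := by linarith
  have hθV := hθ V
  unfold cbS
  split_ifs with h1
  · rw [abs_of_nonneg hu0]
    have h4 : θ V * max u L ≤ Rs :=
      (mul_le_mul_of_nonneg_left (max_le_max h1 le_rfl) hθV).trans h
    calc θ V * u * max u L = (θ V * max u L) * u := by ring
      _ ≤ Rs * u := mul_le_mul_of_nonneg_right h4 hu0
  · rw [zero_mul]; positivity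

lemma cbS_le {θ E₀ : ℝ → ℝ} (hθ : ∀ V, 0 ≤ θ V) {R u V : ℝ} (hR : 0 ≤ R) (hu : 1 ≤ u)
    (h : θ V * E₀ V ≤ R) : cbS θ E₀ u V ≤ R := by
  have hu0 : 0 ≤ u := by linarith
  unfold cbS
  split_ifs with h1
  · rw [abs_of_nonneg hu0]
    exact (mul_le_mul_of_nonneg_left h1 (hθ V)).trans h
  · exact hR

lemma cbT_nonneg {θ E₀ : ℝ → ℝ} (hθ : ∀ V, 0 ≤ θ V) (u V : ℝ) : 0 ≤ cbT θ E₀ u V := by
  unfold cbT
  exact mul_nonneg (hθ V) (le_min (by positivity) (by positivity))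

lemma cT_le {θ E₀ : ℝ → ℝ} (hθ : ∀ V, 0 ≤ θ V) (hE : ∀ V, 0 < E₀ V) (x u V : ℝ) (hx : 1 ≤ x)
    (hu : 1 ≤ u) (_ : 1 ≤ V) : cT θ E₀ (x * u) V ≤ x * cbT θ E₀ u V := by
  have hx0 : 0 < x := by linarith
  have hu0 : 0 < u := by linarith
  have hθV := hθ V
  have hEV := hE V
  have h0 := cbT_nonneg (E₀ := E₀) hθ u V
  by_cases h1 : E₀ V < x * u
  · unfold cT cbT
    rw [if_pos h1, abs_of_pos hu0]
    have h2 : (x * u)⁻¹ ≤ x * min u⁻¹ (u / E₀ V ^ 2) := by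
      rw [mul_min_of_nonneg _ _ hx0.le]
      refine le_min ?_ ?_
      · rw [mul_inv]
        refine mul_le_mul_of_nonneg_right ?_ (by positivity)
        exact (inv_le_one_of_one_le₀ hx).trans hx
      · rw [inv_le_iff_one_le_mul₀ (by positivity)]
        have h3 : E₀ V ^ 2 ≤ (x * u) ^ 2 := pow_le_pow_left₀ hEV.le h1.le 2
        have h4 : x * (u / E₀ V ^ 2) * (x * u) = (x * u) ^ 2 / E₀ V ^ 2 := by ring
        rw [h4, le_div_iff₀ (by positivity), one_mul]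
        exact h3
    calc θ V * (x * u)⁻¹ ≤ θ V * (x * min u⁻¹ (u / E₀ V ^ 2)) :=
          mul_le_mul_of_nonneg_left h2 hθV
      _ = _ := by ring
  · unfold cT
    rw [if_neg h1]
    positivity

lemma cbT_max {θ E₀ : ℝ → ℝ} (hθ : ∀ V, 0 ≤ θ V) (hE : ∀ V, 0 < E₀ V) {Rs L u V : ℝ}
    (hRs : 0 ≤ Rs) (hu : 1 ≤ u) (h : θ V * max (E₀ V) L ≤ Rs * E₀ V ^ 2) :
    cbT θ E₀ u V * max u L ≤ Rs * u := by
  have hu0 : 0 < u := by linarith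
  have hθV := hθ V
  have hEV := hE V
  have hmx : 0 ≤ max u L := hu0.le.trans (le_max_left _ _)
  unfold cbT
  rw [abs_of_pos hu0]
  rcases le_total u (E₀ V) with h1 | h1
  · have h4 : θ V * max u L ≤ Rs * E₀ V ^ 2 :=
      (mul_le_mul_of_nonneg_left (max_le_max h1 le_rfl) hθV).trans h
    calc θ V * min u⁻¹ (u / E₀ V ^ 2) * max u L
        ≤ θ V * (u / E₀ V ^ 2) * max u L := by
          refine mul_le_mul_of_nonneg_right ?_ hmx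
          exact mul_le_mul_of_nonneg_left (min_le_right _ _) hθV
      _ = (θ V * max u L) * (u / E₀ V ^ 2) := by ring
      _ ≤ (Rs * E₀ V ^ 2) * (u / E₀ V ^ 2) := mul_le_mul_of_nonneg_right h4 (by positivity)
      _ = Rs * u := by field_simp
  · have h5 : θ V * max u L ≤ Rs * u ^ 2 := by
      have h6 : θ V * E₀ V ≤ Rs * E₀ V ^ 2 :=
        (mul_le_mul_of_nonneg_left (le_max_left _ _) hθV).trans h
      have h7 : θ V * L ≤ Rs * E₀ V ^ 2 :=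
        (mul_le_mul_of_nonneg_left (le_max_right _ _) hθV).trans h
      have h8 : θ V ≤ Rs * E₀ V := by
        have : θ V * E₀ V ≤ (Rs * E₀ V) * E₀ V := by
          calc θ V * E₀ V ≤ Rs * E₀ V ^ 2 := h6
            _ = _ := by ring
        exact le_of_mul_le_mul_right this hEV
      have h9 : E₀ V ^ 2 ≤ u ^ 2 := pow_le_pow_left₀ hEV.le h1 2
      rw [mul_max_of_nonneg _ _ hθV]
      refine max_le ?_ (h7.trans (mul_le_mul_of_nonneg_left h9 hRs))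
      calc θ V * u ≤ (Rs * E₀ V) * u := mul_le_mul_of_nonneg_right h8 hu0.le
        _ ≤ (Rs * u) * u := by gcongr
        _ = _ := by ring
    calc θ V * min u⁻¹ (u / E₀ V ^ 2) * max u L
        ≤ θ V * u⁻¹ * max u L := by
          refine mul_le_mul_of_nonneg_right ?_ hmx
          exact mul_le_mul_of_nonneg_left (min_le_left _ _) hθV
      _ = (θ V * max u L) * u⁻¹ := by ring
      _ ≤ (Rs * u ^ 2) * u⁻¹ := mul_le_mul_of_nonneg_right h5 (by positivity)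
      _ = Rs * u := by field_simp

lemma cbT_le {θ E₀ : ℝ → ℝ} (hθ : ∀ V, 0 ≤ θ V) (hE : ∀ V, 0 < E₀ V) {R u V : ℝ}
    (hR : 0 ≤ R) (hu : 1 ≤ u) (h : θ V ≤ R * E₀ V) : cbT θ E₀ u V ≤ R := by
  have hu0 : 0 < u := by linarith
  have hθV := hθ V
  have hEV := hE V
  unfold cbT
  rw [abs_of_pos hu0]
  have h4 : min u⁻¹ (u / E₀ V ^ 2) ≤ (E₀ V)⁻¹ := by
    rcases le_total u (E₀ V) with h1 | h1
    · refine (min_le_right _ _).trans ?_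
      rw [div_le_iff₀ (by positivity)]
      calc u ≤ E₀ V := h1
        _ = (E₀ V)⁻¹ * E₀ V ^ 2 := by field_simp
    · exact (min_le_left _ _).trans (inv_anti₀ hEV h1)
  calc θ V * min u⁻¹ (u / E₀ V ^ 2) ≤ (R * E₀ V) * (E₀ V)⁻¹ :=
        mul_le_mul h h4 (le_min (by positivity) (by positivity)) (by positivity)
    _ = R := by field_simp

/-- **weight `θ(V) e 1[e ≤ E₀(V)]`** (flat own claim) -/
theorem EHs_num {A J ε : ℝ} (hA : J + 1 < A) (hJ : 0 ≤ J) (hε : 0 < ε) : ∃ C : ℝ, 0 ≤ C ∧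
    ∀ (P K X Y Z G₀ Ma Ml Rs Rl : ℝ) (α : Eis → ℂ), 1 ≤ P → 0 < K → 0 < X → 1 ≤ Y → Y ≤ P →
      0 ≤ Z → Z ≤ P → 0 ≤ Ma → 0 ≤ Ml → 0 ≤ Rs → 0 ≤ Rl → (∀ n, α n ≠ 0 → n ∈ S Y) →
      ∀ θ E₀ : ℝ → ℝ, (∀ V, 0 ≤ θ V) →
      (∀ V, 1 ≤ V → V ≤ Z → θ V * max (E₀ V) (Lv K X V) ≤ Rs) →
      (∀ V, 1 ≤ V → V ≤ Z → θ V * E₀ V ≤ Rl) →
      (∀ g ∈ S Y, (nm g : ℝ) ≤ G₀ → ∀ V, 1 ≤ V → V ≤ Z * nm g → ∀ t,
        VF V (tws (sg α g) t) ≤ Ma / (nm g : ℝ) ^ 2 *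
          max 1 ((V * K / (X / nm g) ^ 2) ^ (1 / 3 : ℝ)) * (1 + |t|) ^ J) →
      (∀ h ∈ S Y, ∀ B V, 1 ≤ B → B ≤ Y → 1 ≤ V → V ≤ Z / (nm h : ℝ) ^ 2 → ∀ t,
        JB Y α (fun U => G₀ < nm (h * U)) h B V t ≤
          Ml / (nm h : ℝ) ^ 2 * yv K X h V * (1 + |t|) ^ J) →
      ∀ t : ℝ, EHv (cS θ E₀) A K X Y Z (fun n => α n * pw t (nm n)) ≤
        C * P ^ ε * ((Rs * Ma + Rl * Ml) * (1 + |t|) ^ J) := by
  obtain ⟨C, hC, H⟩ := EHv_num hA hJ hε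
  refine ⟨C, hC, fun P K X Y Z G₀ Ma Ml Rs Rl α hP hK hX hY hYP hZ hZP hMa hMl hRs hRl hα θ E₀
    hθ u1 u2 hSA hL => ?_⟩
  exact H P K X Y Z G₀ Ma Ml Rs Rl α hP hK hX hY hYP hZ hZP hMa hMl hRs hRl hα _ (cbS θ E₀)
    (cbS_nonneg hθ) (cS_le hθ) (fun u V hu _ h1 h2 => cbS_max hθ hRs hu (u1 V h1 h2))
    (fun u V hu _ h1 h2 => cbS_le hθ hRl hu (u2 V h1 h2)) hSA hL

/-- **weight `θ(V) e⁻¹ 1[e > E₀(V)]`** (flat own claim) -/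
theorem EHt_num {A J ε : ℝ} (hA : J + 1 < A) (hJ : 0 ≤ J) (hε : 0 < ε) : ∃ C : ℝ, 0 ≤ C ∧
    ∀ (P K X Y Z G₀ Ma Ml Rs Rl : ℝ) (α : Eis → ℂ), 1 ≤ P → 0 < K → 0 < X → 1 ≤ Y → Y ≤ P →
      0 ≤ Z → Z ≤ P → 0 ≤ Ma → 0 ≤ Ml → 0 ≤ Rs → 0 ≤ Rl → (∀ n, α n ≠ 0 → n ∈ S Y) →
      ∀ θ E₀ : ℝ → ℝ, (∀ V, 0 ≤ θ V) → (∀ V, 0 < E₀ V) →
      (∀ V, 1 ≤ V → V ≤ Z → θ V * max (E₀ V) (Lv K X V) ≤ Rs * E₀ V ^ 2) →
      (∀ V, 1 ≤ V → V ≤ Z → θ V ≤ Rl * E₀ V) →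
      (∀ g ∈ S Y, (nm g : ℝ) ≤ G₀ → ∀ V, 1 ≤ V → V ≤ Z * nm g → ∀ t,
        VF V (tws (sg α g) t) ≤ Ma / (nm g : ℝ) ^ 2 *
          max 1 ((V * K / (X / nm g) ^ 2) ^ (1 / 3 : ℝ)) * (1 + |t|) ^ J) →
      (∀ h ∈ S Y, ∀ B V, 1 ≤ B → B ≤ Y → 1 ≤ V → V ≤ Z / (nm h : ℝ) ^ 2 → ∀ t,
        JB Y α (fun U => G₀ < nm (h * U)) h B V t ≤
          Ml / (nm h : ℝ) ^ 2 * yv K X h V * (1 + |t|) ^ J) →
      ∀ t : ℝ, EHv (cT θ E₀) A K X Y Z (fun n => α n * pw t (nm n)) ≤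
        C * P ^ ε * ((Rs * Ma + Rl * Ml) * (1 + |t|) ^ J) := by
  obtain ⟨C, hC, H⟩ := EHv_num hA hJ hε
  refine ⟨C, hC, fun P K X Y Z G₀ Ma Ml Rs Rl α hP hK hX hY hYP hZ hZP hMa hMl hRs hRl hα θ E₀
    hθ hE u1 u2 hSA hL => ?_⟩
  exact H P K X Y Z G₀ Ma Ml Rs Rl α hP hK hX hY hYP hZ hZP hMa hMl hRs hRl hα _ (cbT θ E₀)
    (cbT_nonneg hθ) (cT_le hθ hE) (fun u V hu _ h1 h2 => cbT_max hθ hE hRs hu (u1 V h1 h2))
    (fun u V hu _ h1 h2 => cbT_le hθ hE hRl hu (u2 V h1 h2)) hSA hL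

/-- **weight `θ(V) e 1[e ≤ E₀(V)]`** (slope form) -/
theorem EHs_num0 {A J ε : ℝ} (hA : J + 1 < A) (hJ : 0 ≤ J) (hε : 0 < ε) : ∃ C : ℝ, 0 ≤ C ∧
    ∀ (P K X Y Z G₀ Ma Ml R : ℝ) (α : Eis → ℂ), 1 ≤ P → 0 < K → 0 < X → 1 ≤ Y → Y ≤ P →
      0 ≤ Z → Z ≤ P → 0 ≤ Ma → 0 ≤ Ml → 0 ≤ R → (∀ n, α n ≠ 0 → n ∈ S Y) →
      ∀ θ E₀ : ℝ → ℝ, (∀ V, 0 ≤ θ V) → (∀ V, 1 ≤ V → V ≤ Z → θ V * E₀ V ≤ R) →
      (∀ g ∈ S Y, (nm g : ℝ) ≤ G₀ → ∀ V, 1 ≤ V → V ≤ Z * nm g → ∀ t,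
        VF V (tws (sg α g) t) ≤ Ma / (nm g : ℝ) ^ 2 *
          (V * K / (X / nm g) ^ 2) ^ (1 / 3 : ℝ) * (1 + |t|) ^ J) →
      (∀ h ∈ S Y, ∀ B V, 1 ≤ B → B ≤ Y → 1 ≤ V → V ≤ Z / (nm h : ℝ) ^ 2 → ∀ t,
        JB Y α (fun U => G₀ < nm (h * U)) h B V t ≤
          Ml / (nm h : ℝ) ^ 2 * yv K X h V * (1 + |t|) ^ J) →
      ∀ t : ℝ, EHv (cS θ E₀) A K X Y Z (fun n => α n * pw t (nm n)) ≤
        C * P ^ ε * (R * (Ma + Ml) * (1 + |t|) ^ J) := by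
  obtain ⟨C, hC, H⟩ := EHv_num0 hA hJ hε
  refine ⟨C, hC, fun P K X Y Z G₀ Ma Ml R α hP hK hX hY hYP hZ hZP hMa hMl hR hα θ E₀
    hθ u2 hSA hL => ?_⟩
  exact H P K X Y Z G₀ Ma Ml R α hP hK hX hY hYP hZ hZP hMa hMl hR hα _ (cbS θ E₀)
    (cbS_nonneg hθ) (cS_le hθ) (fun u V hu _ h1 h2 => cbS_le hθ hR hu (u2 V h1 h2)) hSA hL

/-- **weight `θ(V) e⁻¹ 1[e > E₀(V)]`** (slope form) -/
theorem EHt_num0 {A J ε : ℝ} (hA : J + 1 < A) (hJ : 0 ≤ J) (hε : 0 < ε) : ∃ C : ℝ, 0 ≤ C ∧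
    ∀ (P K X Y Z G₀ Ma Ml R : ℝ) (α : Eis → ℂ), 1 ≤ P → 0 < K → 0 < X → 1 ≤ Y → Y ≤ P →
      0 ≤ Z → Z ≤ P → 0 ≤ Ma → 0 ≤ Ml → 0 ≤ R → (∀ n, α n ≠ 0 → n ∈ S Y) →
      ∀ θ E₀ : ℝ → ℝ, (∀ V, 0 ≤ θ V) → (∀ V, 0 < E₀ V) →
      (∀ V, 1 ≤ V → V ≤ Z → θ V ≤ R * E₀ V) →
      (∀ g ∈ S Y, (nm g : ℝ) ≤ G₀ → ∀ V, 1 ≤ V → V ≤ Z * nm g → ∀ t,
        VF V (tws (sg α g) t) ≤ Ma / (nm g : ℝ) ^ 2 *
          (V * K / (X / nm g) ^ 2) ^ (1 / 3 : ℝ) * (1 + |t|) ^ J) →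
      (∀ h ∈ S Y, ∀ B V, 1 ≤ B → B ≤ Y → 1 ≤ V → V ≤ Z / (nm h : ℝ) ^ 2 → ∀ t,
        JB Y α (fun U => G₀ < nm (h * U)) h B V t ≤
          Ml / (nm h : ℝ) ^ 2 * yv K X h V * (1 + |t|) ^ J) →
      ∀ t : ℝ, EHv (cT θ E₀) A K X Y Z (fun n => α n * pw t (nm n)) ≤
        C * P ^ ε * (R * (Ma + Ml) * (1 + |t|) ^ J) := by
  obtain ⟨C, hC, H⟩ := EHv_num0 hA hJ hε
  refine ⟨C, hC, fun P K X Y Z G₀ Ma Ml R α hP hK hX hY hYP hZ hZP hMa hMl hR hα θ E₀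
    hθ hE u2 hSA hL => ?_⟩
  exact H P K X Y Z G₀ Ma Ml R α hP hK hX hY hYP hZ hZP hMa hMl hR hα _ (cbT θ E₀)
    (cbT_nonneg hθ) (cT_le hθ hE) (fun u V hu _ h1 h2 => cbT_le hθ hE hR hu (u2 V h1 h2))
    hSA hL

end Crest.Agent.R017.EHv83
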