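import Crest.Agent.R017.EHv_83

/-!
# Row 17, C.REMg (helper83): the three `T`-functionals of (LB) by numbers, slope form

`EHc` (320) with the weights `e` on `e ≤ E₀`, `1/e` for all `e`, `1/e` on `e > E₀`.
-/

set_option autoImplicit false

noncomputable section

open Complex MeasureTheory
open scoped ComplexConjugate Classical

namespace Crest.Agent.R017.EHv83

open Crest.Agent.R012 Crest.Agent.R012.Eis Crest.Agent.R012.MC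
open Crest.Agent.R012.LS2 (S mem_S)
open Crest.Agent.R012.Weight600 (pw pw_mul norm_pw)
open Crest.Agent.R017.Rough381 (VF)
open Crest.Agent.R017.E1551
open Crest.Agent.R017.EHu320 (EHc)

/-- 320's functional below the weighted one -/
lemma EHc_le_EHv {c : ℕ → ℝ} {Q : Eis → Prop} {c' : ℝ → ℝ → ℝ} {A K X Y Z : ℝ} (hK : 0 ≤ K)
    (hX : 0 ≤ X) (hc' : ∀ e ∈ S Y, ∀ V, 0 ≤ c' (nm e) V)
    (h : ∀ e ∈ S Y, Q e → ∀ V, c (nm e) ≤ c' (nm e) V) (α : Eis → ℂ) :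
    EHc c Q A K X Y Z α ≤ EHv c' A K X Y Z α := by
  unfold EHu320.EHc EHv
  refine Finset.sum_le_sum fun δ _ => ?_
  rw [Finset.sum_filter]
  refine Finset.sum_le_sum fun e he => ?_
  have h0 : ∀ j, 0 ≤ lm K X δ j * Wf A α δ j e := fun j =>
    mul_nonneg (lm_nonneg hK hX _ _) (Wf_nonneg _ _ _ _ _)
  split_ifs with hQ
  · refine mul_le_mul_of_nonneg_left ?_ (by positivity)
    unfold LJ
    rw [Finset.mul_sum]
    exact Finset.sum_le_sum fun j _ => mul_le_mul_of_nonneg_right (h e he hQ _) (h0 j)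
  · exact mul_nonneg (by positivity) (Finset.sum_nonneg fun j _ =>
      mul_nonneg (hc' e he _) (h0 j))

/-- **weight `e`, `e ≤ E₀`** -/
theorem ehs0 {A J ε : ℝ} (hA : J + 1 < A) (hJ : 0 ≤ J) (hε : 0 < ε) : ∃ C : ℝ, 0 ≤ C ∧
    ∀ (P K X Y Z G₀ Ma Ml E₀ : ℝ) (α : Eis → ℂ), 1 ≤ P → 0 < K → 0 < X → 1 ≤ Y → Y ≤ P →
      0 ≤ Z → Z ≤ P → 0 ≤ Ma → 0 ≤ Ml → 0 ≤ E₀ → (∀ n, α n ≠ 0 → n ∈ S Y) →
      (∀ g ∈ S Y, (nm g : ℝ) ≤ G₀ → ∀ V, 1 ≤ V → V ≤ Z * nm g → ∀ t,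
        VF V (tws (sg α g) t) ≤ Ma / (nm g : ℝ) ^ 2 *
          (V * K / (X / nm g) ^ 2) ^ (1 / 3 : ℝ) * (1 + |t|) ^ J) →
      (∀ h ∈ S Y, ∀ B V, 1 ≤ B → B ≤ Y → 1 ≤ V → V ≤ Z / (nm h : ℝ) ^ 2 → ∀ t,
        JB Y α (fun U => G₀ < nm (h * U)) h B V t ≤
          Ml / (nm h : ℝ) ^ 2 * yv K X h V * (1 + |t|) ^ J) →
      ∀ t : ℝ, EHc (fun n => (n : ℝ)) (fun e => e ∈ S E₀) A K X Y Z
        (fun n => α n * pw t (nm n)) ≤ C * P ^ ε * (E₀ * (Ma + Ml) * (1 + |t|) ^ J) := by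
  obtain ⟨C, hC, H⟩ := EHs_num0 hA hJ hε
  refine ⟨C, hC, fun P K X Y Z G₀ Ma Ml E₀ α hP hK hX hY hYP hZ hZP hMa hMl hE hα hSA hL t => ?_⟩
  have hY0 : 0 ≤ Y := by linarith
  refine (EHc_le_EHv (c' := cS (fun _ => 1) (fun _ => E₀)) hK.le hX.le (fun e _ V => ?_)
    (fun e _ hQ V => ?_) _).trans
    (H P K X Y Z G₀ Ma Ml E₀ α hP hK hX hY hYP hZ hZP hMa hMl hE hα (fun _ => 1) (fun _ => E₀)
      (fun _ => zero_le_one) (fun V _ _ => by rw [one_mul]) hSA hL t)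
  · unfold cS
    split_ifs
    · rw [one_mul]; exact Nat.cast_nonneg _
    · exact le_rfl
  · have h1 := ((mem_S hE).1 hQ).1
    unfold cS
    rw [if_pos h1, one_mul]

/-- **weight `1/e`** -/
theorem ehf0 {A J ε : ℝ} (hA : J + 1 < A) (hJ : 0 ≤ J) (hε : 0 < ε) : ∃ C : ℝ, 0 ≤ C ∧
    ∀ (P K X Y Z G₀ Ma Ml : ℝ) (α : Eis → ℂ), 1 ≤ P → 0 < K → 0 < X → 1 ≤ Y → Y ≤ P →
      0 ≤ Z → Z ≤ P → 0 ≤ Ma → 0 ≤ Ml → (∀ n, α n ≠ 0 → n ∈ S Y) →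
      (∀ g ∈ S Y, (nm g : ℝ) ≤ G₀ → ∀ V, 1 ≤ V → V ≤ Z * nm g → ∀ t,
        VF V (tws (sg α g) t) ≤ Ma / (nm g : ℝ) ^ 2 *
          (V * K / (X / nm g) ^ 2) ^ (1 / 3 : ℝ) * (1 + |t|) ^ J) →
      (∀ h ∈ S Y, ∀ B V, 1 ≤ B → B ≤ Y → 1 ≤ V → V ≤ Z / (nm h : ℝ) ^ 2 → ∀ t,
        JB Y α (fun U => G₀ < nm (h * U)) h B V t ≤
          Ml / (nm h : ℝ) ^ 2 * yv K X h V * (1 + |t|) ^ J) →
      ∀ (Q : Eis → Prop) (t : ℝ), EHc (fun n => ((n : ℝ))⁻¹) Q A K X Y Z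
        (fun n => α n * pw t (nm n)) ≤ C * P ^ ε * ((Ma + Ml) * (1 + |t|) ^ J) := by
  obtain ⟨C, hC, H⟩ := EHv_num0 hA hJ hε
  refine ⟨C, hC, fun P K X Y Z G₀ Ma Ml α hP hK hX hY hYP hZ hZP hMa hMl hα hSA hL Q t => ?_⟩
  have hY0 : 0 ≤ Y := by linarith
  have key := H P K X Y Z G₀ Ma Ml 1 α hP hK hX hY hYP hZ hZP hMa hMl zero_le_one hα
    (fun u _ => |u|⁻¹) (fun u _ => |u|⁻¹) (fun u V => by positivity)
    (fun x u V hx hu _ => by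
      have hx0 : 0 < x := by linarith
      have hu0 : 0 < u := by linarith
      rw [abs_of_pos (by positivity), abs_of_pos hu0, mul_inv]
      exact mul_le_mul_of_nonneg_right ((inv_le_one_of_one_le₀ hx).trans hx) (by positivity))
    (fun u V hu _ _ _ => by
      rw [abs_of_pos (by linarith)]
      exact inv_le_one_of_one_le₀ hu) hSA hL t
  rw [one_mul] at key
  refine (EHc_le_EHv hK.le hX.le (fun e _ V => by positivity) (fun e _ _ V => ?_) _).trans key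
  rw [abs_of_nonneg (Nat.cast_nonneg _)]

/-- **weight `1/e`, `e > E₀`** -/
theorem eht0 {A J ε : ℝ} (hA : J + 1 < A) (hJ : 0 ≤ J) (hε : 0 < ε) : ∃ C : ℝ, 0 ≤ C ∧
    ∀ (P K X Y Z G₀ Ma Ml E₀ : ℝ) (α : Eis → ℂ), 1 ≤ P → 0 < K → 0 < X → 1 ≤ Y → Y ≤ P →
      0 ≤ Z → Z ≤ P → 0 ≤ Ma → 0 ≤ Ml → 0 < E₀ → (∀ n, α n ≠ 0 → n ∈ S Y) →
      (∀ g ∈ S Y, (nm g : ℝ) ≤ G₀ → ∀ V, 1 ≤ V → V ≤ Z * nm g → ∀ t,
        VF V (tws (sg α g) t) ≤ Ma / (nm g : ℝ) ^ 2 *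
          (V * K / (X / nm g) ^ 2) ^ (1 / 3 : ℝ) * (1 + |t|) ^ J) →
      (∀ h ∈ S Y, ∀ B V, 1 ≤ B → B ≤ Y → 1 ≤ V → V ≤ Z / (nm h : ℝ) ^ 2 → ∀ t,
        JB Y α (fun U => G₀ < nm (h * U)) h B V t ≤
          Ml / (nm h : ℝ) ^ 2 * yv K X h V * (1 + |t|) ^ J) →
      ∀ t : ℝ, EHc (fun n => ((n : ℝ))⁻¹) (fun e => e ∉ S E₀) A K X Y Z
        (fun n => α n * pw t (nm n)) ≤ C * P ^ ε * (E₀⁻¹ * (Ma + Ml) * (1 + |t|) ^ J) := by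
  obtain ⟨C, hC, H⟩ := EHt_num0 hA hJ hε
  refine ⟨C, hC, fun P K X Y Z G₀ Ma Ml E₀ α hP hK hX hY hYP hZ hZP hMa hMl hE hα hSA hL t => ?_⟩
  have hY0 : 0 ≤ Y := by linarith
  refine (EHc_le_EHv (c' := cT (fun _ => 1) (fun _ => E₀)) hK.le hX.le (fun e _ V => ?_)
    (fun e he hQ V => ?_) _).trans
    (H P K X Y Z G₀ Ma Ml E₀⁻¹ α hP hK hX hY hYP hZ hZP hMa hMl (by positivity) hα
      (fun _ => 1) (fun _ => E₀)
      (fun _ => zero_le_one) (fun _ => hE) (fun V _ _ => by rw [inv_mul_cancel₀ hE.ne']) hSA hL t)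
  · unfold cT
    split_ifs
    · rw [one_mul]; positivity
    · exact le_rfl
  · have h0 := (mem_S hY0).1 he
    have h1 : E₀ < nm e := by
      by_contra h2
      exact hQ ((mem_S hE.le).2 ⟨not_lt.mp h2, h0.2.1, h0.2.2⟩)
    unfold cT
    rw [if_pos h1, one_mul]

end Crest.Agent.R017.EHv83
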