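import Crest.Agent.R017.P10Xa_764

/-!
# Row 17, class E (helper764): the shift of the second scale

* `etR a qs j = 1/8 (max 0 l) + max 0 (2 LN - l - j log 2)`
-/

set_option autoImplicit false

noncomputable section

namespace Crest.Agent.R017.ER764

open Crest.Agent.R017.Prov71
open Crest.Agent.R017.I1146 (LN)
open Crest.Agent.R017.E5B71 Crest.Agent.R017.E5P571 Crest.Agent.R017.E5L770
open Crest.Agent.R017.ExBox960 Crest.Agent.R017.ExP960
open Crest.Agent.R017.P1X960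
open Crest.Agent.R017.P10X764

/-- the shift of the second scale at the level `j` -/
def etR (a : BcX) (qs : List Pq) (j : ℕ) : ℝ :=
  1 / 8 * max 0 a.1.l + max 0 (2 * LN (clN a qs) - a.1.l - Real.log 2 * j)

lemma etR_nn (a : BcX) (qs : List Pq) (j : ℕ) : 0 ≤ etR a qs j := by
  unfold etR
  have h1 := le_max_left 0 a.1.l
  have h2 := le_max_left 0 (2 * LN (clN a qs) - a.1.l - Real.log 2 * j)
  linarith

lemma etR_lv (a : BcX) (qs : List Pq) (j : ℕ) :
    2 * LN (clN a qs) - a.1.l - Real.log 2 * j ≤ etR a qs j := by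
  unfold etR
  have h1 := le_max_left 0 a.1.l
  have h2 := le_max_right 0 (2 * LN (clN a qs) - a.1.l - Real.log 2 * j)
  linarith

lemma etR_eq (a : BcX) (qs : List Pq) (j : ℕ) (h : 0 ≤ a.1.l) :
    etR a qs j = 1 / 8 * a.1.l + max 0 (2 * LN (clN a qs) - a.1.l - Real.log 2 * j) := by
  unfold etR
  rw [max_eq_right h]

lemma etR_lo (a : BcX) (qs : List Pq) (j : ℕ) (h : 0 ≤ a.1.l) : 1 / 8 * a.1.l ≤ etR a qs j := by
  rw [etR_eq a qs j h]
  have h2 := le_max_left 0 (2 * LN (clN a qs) - a.1.l - Real.log 2 * j)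
  linarith

lemma etR_hi (a : BcX) (qs : List Pq) (j : ℕ) (h : 0 ≤ a.1.l) :
    etR a qs j ≤ 1 / 8 * a.1.l + max 0 (2 * LN (clN a qs) - a.1.l - Real.log 2 * j) :=
  (etR_eq a qs j h).le

lemma etR_hi0 (a : BcX) (qs : List Pq) (j : ℕ) (h : 0 ≤ a.1.l) :
    etR a qs j ≤ 1 / 8 * a.1.l + max 0 (2 * LN (clN a qs) - a.1.l) := by
  rw [etR_eq a qs j h]
  have h2 : 0 ≤ Real.log 2 * j := by
    have := Real.log_nonneg (show (1 : ℝ) ≤ 2 by norm_num)
    positivity
  have h3 := max_le_max (le_refl (0 : ℝ))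
    (show 2 * LN (clN a qs) - a.1.l - Real.log 2 * j ≤ 2 * LN (clN a qs) - a.1.l by linarith)
  linarith

lemma etR_hi3 (a : BcX) (qs : List Pq) (j : ℕ) (h : 0 ≤ a.1.l) :
    etR a qs j ≤ 3 / 20 * a.1.l + max 0 (2 * LN (clN a qs) - a.1.l - Real.log 2 * j) := by
  rw [etR_eq a qs j h]
  linarith

end Crest.Agent.R017.ER764
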