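import Crest.Agent.R017.E5Q_571
import Crest.Agent.R017.LB_48

/-!
# Row 17, R8 / P1: the cross tail `et`, sequence level (helper71)

* `crP_le` : `CrP` by the absolute sum over `primBall ⌊b K⌋`
* `cubes_le` : a nonnegative sum over the `k` which are not cut, dyadic in the cube-free part
* `et_le` : the cross tail by the second moments of the two sides at `m³ k₁`
-/

set_option autoImplicit false

noncomputable section

open Complex Finset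
open scoped ComplexConjugate

namespace Crest.Agent.R017.ET71

open Crest.Agent.R012 Crest.Agent.R012.Eis Crest.Agent.R012.Mob705 Crest.Agent.R012.MC
open Crest.Agent.R017.CM106 Crest.Agent.R017.LB48 Crest.Agent.R017.FE47 Crest.Agent.R017.End699
open Crest.Agent.R017.E5P571 (PB mem_PB)
open Crest.Agent.R017.E5Q571 (Cut notcut_le CS_cube)
open Crest.Agent.R017.C70 (CbF)

variable {w : ℝ → ℝ} {K : ℝ}

/-- **`CrP` by an absolute sum** -/
theorem crP_le (_hw : Wgt w) {Wm b : ℝ} (hWm : ∀ x, |w x| ≤ Wm)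
    (hb : ∀ x, w x ≠ 0 → x ≤ b) (hK : 0 < K) (α u : Eis → ℂ) :
    ‖CrP w K α u‖ ≤ Wm * ∑ k ∈ primBall ⌊b * K⌋₊, ‖CS α k‖ * ‖u k‖ := by
  classical
  have h1 : CrP w K α u = ∑ k ∈ primBall ⌊b * K⌋₊,
      ((w (nm k / K) : ℝ) : ℂ) * (CS α k * conj (u k)) := by
    unfold CrP
    rw [tsum_eq_sum (s := primBall ⌊b * K⌋₊)]
    · refine sum_congr rfl fun k hk => ?_
      rw [if_pos (mem_primBall.1 hk).2]
    · intro k hk
      split_ifs with hp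
      · by_cases h0 : w (nm k / K) = 0
        · simp [h0]
        · exfalso
          apply hk
          rw [mem_primBall]
          have := hb _ h0
          rw [div_le_iff₀ hK] at this
          exact ⟨Nat.le_floor this, hp⟩
      · rfl
  rw [h1, mul_sum]
  refine (norm_sum_le _ _).trans (sum_le_sum fun k _ => ?_)
  rw [norm_mul, norm_mul, RCLike.norm_conj, Complex.norm_real, Real.norm_eq_abs]
  exact mul_le_mul_of_nonneg_right (hWm _) (by positivity)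

lemma PB_one (X : ℕ) : PB 1 X = primBall X := by
  ext k
  rw [mem_PB, mem_primBall]
  constructor
  · rintro ⟨h1, h2, -⟩; exact ⟨h1, h2⟩
  · rintro ⟨h1, h2⟩; exact ⟨h1, h2, isCoprime_one_right⟩

open Classical in
/-- **the `k` which are not cut**, dyadic in the cube-free part; `I` = number of blocks -/
theorem cubes_le {Kx E1 : ℝ} (hK : 0 ≤ Kx) {F : Eis → ℝ} (hF : ∀ k, 0 ≤ F k)
    {I : ℕ} (hI : Kx < 2 ^ I) :
    ∑ k ∈ (primBall ⌊Kx⌋₊).filter (fun k => ¬ Cut E1 k), F k ≤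
      ∑ i ∈ range I, ∑ m ∈ (primBall ⌊Kx⌋₊).filter
          (fun m => E1 < (nm m : ℝ) ∧ (nm m : ℝ) ^ 3 * 2 ^ i ≤ Kx),
        ∑ k₁ ∈ (primBall (2 ^ (i + 1))).filter (fun k => CbF k ∧ 2 ^ i ≤ nm k),
          F (m ^ 3 * k₁) := by
  have h1 := notcut_le 1 hK hF (E1 := E1)
  simp only [PB_one] at h1
  refine h1.trans ?_
  rw [sum_comm' (t' := (primBall ⌊Kx⌋₊).filter
      (fun e => E1 < (nm e : ℝ) ∧ (nm e : ℝ) ^ 3 ≤ Kx))
    (s' := fun m => (range I).filter fun i => (nm m : ℝ) ^ 3 * 2 ^ i ≤ Kx)]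
  · refine sum_le_sum fun m hm => ?_
    rw [mem_filter, mem_primBall] at hm
    obtain ⟨⟨hm1, hmp⟩, hm2, hm3⟩ := hm
    have hm0 : (1 : ℝ) ≤ nm m := by exact_mod_cast nm_pos.2 hmp.ne_zero
    have hm30 : (0 : ℝ) < (nm m : ℝ) ^ 3 := by positivity
    rw [sum_sigma']
    set T := ((range I).filter fun i => (nm m : ℝ) ^ 3 * 2 ^ i ≤ Kx).sigma
      (fun i => (primBall (2 ^ (i + 1))).filter (fun k => CbF k ∧ 2 ^ i ≤ nm k)) with hT
    have hsub : (primBall ⌊Kx / (nm m : ℝ) ^ 3⌋₊).filter CbF ⊆ T.image fun x => x.2 := by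
      intro k hk
      rw [mem_filter, mem_primBall] at hk
      obtain ⟨⟨hk1, hkp⟩, hkc⟩ := hk
      have hk0 : nm k ≠ 0 := (nm_pos.2 hkp.ne_zero).ne'
      have hkK : (nm k : ℝ) ≤ Kx / (nm m : ℝ) ^ 3 :=
        (Nat.cast_le.2 hk1).trans (Nat.floor_le (by positivity))
      rw [le_div_iff₀ hm30] at hkK
      have hlo : 2 ^ Nat.log 2 (nm k) ≤ nm k := Nat.pow_log_le_self 2 hk0
      have hhi : nm k < 2 ^ (Nat.log 2 (nm k) + 1) := Nat.lt_pow_succ_log_self (by norm_num) _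
      rw [mem_image]
      refine ⟨⟨Nat.log 2 (nm k), k⟩, ?_, rfl⟩
      rw [hT, mem_sigma, mem_filter, mem_range, mem_filter, mem_primBall]
      have hlo' : ((2 : ℝ) ^ Nat.log 2 (nm k)) ≤ nm k := by exact_mod_cast hlo
      have h5 : (nm m : ℝ) ^ 3 * 2 ^ Nat.log 2 (nm k) ≤ Kx := by
        have := mul_le_mul_of_nonneg_left hlo' hm30.le
        linarith
      refine ⟨⟨?_, h5⟩, ⟨hhi.le, hkp⟩, hkc, hlo⟩
      by_contra hcon
      push Not at hcon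
      have h6 : (2 : ℝ) ^ I ≤ 2 ^ Nat.log 2 (nm k) := pow_le_pow_right₀ (by norm_num) hcon
      have h7 : (1 : ℝ) ≤ (nm m : ℝ) ^ 3 := one_le_pow₀ hm0
      have h8 : (2 : ℝ) ^ Nat.log 2 (nm k) ≤ (nm m : ℝ) ^ 3 * 2 ^ Nat.log 2 (nm k) :=
        le_mul_of_one_le_left (by positivity) h7
      linarith
    refine (sum_le_sum_of_subset_of_nonneg hsub fun _ _ _ => hF _).trans ?_
    exact sum_image_le_of_nonneg fun _ _ => hF _
  · intro i m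
    simp only [mem_range, mem_filter, mem_primBall]
    constructor
    · rintro ⟨h1, ⟨h2, h3⟩, h4, h5⟩
      refine ⟨⟨h1, h5⟩, ⟨h2, h3⟩, h4, ?_⟩
      have : (1 : ℝ) ≤ 2 ^ i := one_le_pow₀ (by norm_num)
      nlinarith [pow_nonneg (Nat.cast_nonneg (α := ℝ) (nm m)) 3]
    · rintro ⟨⟨h1, h5⟩, ⟨h2, h3⟩, h4, -⟩
      exact ⟨h1, ⟨h2, h3⟩, h4, h5⟩

lemma card_cubes {Kx : ℝ} (hK : 0 ≤ Kx) (E1 : ℝ) (i : ℕ) :
    (((primBall ⌊Kx⌋₊).filter (fun m => E1 < (nm m : ℝ) ∧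
      (nm m : ℝ) ^ 3 * 2 ^ i ≤ Kx)).card : ℝ) ≤ 100 * (Kx / 2 ^ i) ^ ((1 : ℝ) / 3) := by
  classical
  have h1 : (primBall ⌊Kx⌋₊).filter (fun m => E1 < (nm m : ℝ) ∧ (nm m : ℝ) ^ 3 * 2 ^ i ≤ Kx) ⊆
      primBall ⌊(Kx / 2 ^ i) ^ ((1 : ℝ) / 3)⌋₊ := by
    intro m hm
    rw [mem_filter, mem_primBall] at hm
    obtain ⟨⟨-, hp⟩, -, h3⟩ := hm
    rw [mem_primBall]
    refine ⟨Nat.le_floor ?_, hp⟩
    have h4 : (nm m : ℝ) ^ 3 ≤ Kx / 2 ^ i := by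
      rw [le_div_iff₀ (by positivity)]; exact h3
    have h5 : ((nm m : ℝ) ^ 3) ^ ((1 : ℝ) / 3) = nm m := by
      rw [← Real.rpow_natCast, ← Real.rpow_mul (Nat.cast_nonneg _)]
      norm_num
    rw [← h5]
    exact Real.rpow_le_rpow (by positivity) h4 (by norm_num)
  have h2 : ((primBall ⌊(Kx / 2 ^ i) ^ ((1 : ℝ) / 3)⌋₊).card : ℝ) ≤
      100 * (⌊(Kx / 2 ^ i) ^ ((1 : ℝ) / 3)⌋₊ : ℝ) := by
    exact_mod_cast Lat277.card_primBall_le _
  have h3 : (0 : ℝ) ≤ (Kx / 2 ^ i) ^ ((1 : ℝ) / 3) := by positivity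
  calc _ ≤ ((primBall ⌊(Kx / 2 ^ i) ^ ((1 : ℝ) / 3)⌋₊).card : ℝ) := by
        exact_mod_cast card_le_card h1
    _ ≤ _ := h2
    _ ≤ _ := by
        have := Nat.floor_le h3
        linarith

open Classical in
/-- **the cross tail**: the two sides at `m³ k₁`, `2^i ≤ N k₁ ≤ 2^{i+1}`, in mean square -/
theorem et_le (hw : Wgt w) {Wm b : ℝ} (hWm : ∀ x, |w x| ≤ Wm)
    (hb : ∀ x, w x ≠ 0 → x ≤ b) (hb0 : 0 ≤ b) (hK : 0 < K) {α : Eis → ℂ}
    (hα : ∀ m, α m ≠ 0 → IsPrim m) (St : Eis → ℂ) {E1 : ℝ} (hE : 0 ≤ E1) {I : ℕ}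
    (hI : b * K < 2 ^ I) {G : ℕ → ℝ} (hG : ∀ i, 0 ≤ G i)
    (H : ∀ (i : ℕ) (m : Eis), i < I → IsPrim m → E1 < (nm m : ℝ) →
      (nm m : ℝ) ^ 3 * 2 ^ i ≤ b * K →
      (∑ k ∈ (primBall (2 ^ (i + 1))).filter (fun k => CbF k ∧ 2 ^ i ≤ nm k),
          ‖CS (fun n => α n * prin0 m n) k‖ ^ 2) *
        (∑ k ∈ (primBall (2 ^ (i + 1))).filter (fun k => CbF k ∧ 2 ^ i ≤ nm k),
          ‖St (m ^ 3 * k)‖ ^ 2) ≤ (G i) ^ 2) :
    ‖CrP w K α (fun k => if Cut E1 k then 0 else St k)‖ ≤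
      Wm * ∑ i ∈ (range I).filter (fun i => E1 ^ 3 * 2 ^ i ≤ b * K),
        100 * (b * K / 2 ^ i) ^ ((1 : ℝ) / 3) * G i := by
  have hWm0 : 0 ≤ Wm := (abs_nonneg _).trans (hWm 0)
  have hbK : 0 ≤ b * K := by positivity
  refine (crP_le hw hWm hb hK α _).trans (mul_le_mul_of_nonneg_left ?_ hWm0)
  have e1 : ∑ k ∈ primBall ⌊b * K⌋₊, ‖CS α k‖ * ‖(if Cut E1 k then 0 else St k : ℂ)‖ =
      ∑ k ∈ (primBall ⌊b * K⌋₊).filter (fun k => ¬ Cut E1 k), ‖CS α k‖ * ‖St k‖ := by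
    rw [sum_filter]
    refine sum_congr rfl fun k _ => ?_
    by_cases h : Cut E1 k
    · rw [if_pos h, if_neg (not_not.2 h), norm_zero, mul_zero]
    · rw [if_neg h, if_pos h]
  rw [e1]
  refine (cubes_le hbK (E1 := E1) (F := fun k => ‖CS α k‖ * ‖St k‖) (fun k => by positivity) hI).trans ?_
  rw [sum_filter]
  refine sum_le_sum fun i hi => ?_
  rw [mem_range] at hi
  by_cases hEi : E1 ^ 3 * 2 ^ i ≤ b * K
  swap
  · rw [if_neg hEi]
    refine le_of_eq (sum_eq_zero fun m hm => ?_)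
    exfalso
    rw [mem_filter] at hm
    apply hEi
    have h1 : E1 ^ 3 ≤ (nm m : ℝ) ^ 3 := pow_le_pow_left₀ hE hm.2.1.le 3
    have h2 : (0 : ℝ) < 2 ^ i := by positivity
    nlinarith [hm.2.2]
  rw [if_pos hEi]
  have key : ∀ m ∈ (primBall ⌊b * K⌋₊).filter
      (fun m => E1 < (nm m : ℝ) ∧ (nm m : ℝ) ^ 3 * 2 ^ i ≤ b * K),
      ∑ k₁ ∈ (primBall (2 ^ (i + 1))).filter (fun k => CbF k ∧ 2 ^ i ≤ nm k),
        ‖CS α (m ^ 3 * k₁)‖ * ‖St (m ^ 3 * k₁)‖ ≤ G i := by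
    intro m hm
    rw [mem_filter, mem_primBall] at hm
    have h1 := H i m hi hm.1.2 hm.2.1 hm.2.2
    have h2 := sum_mul_sq_le_sq_mul_sq
      ((primBall (2 ^ (i + 1))).filter (fun k => CbF k ∧ 2 ^ i ≤ nm k))
      (fun k => ‖CS α (m ^ 3 * k)‖) (fun k => ‖St (m ^ 3 * k)‖)
    simp only [CS_cube hα] at h2 ⊢
    exact abs_le_of_sq_le_sq' (h2.trans h1) (hG i) |>.2
  refine (sum_le_sum key).trans ?_
  rw [sum_const, nsmul_eq_mul]
  exact mul_le_mul_of_nonneg_right (card_cubes hbK E1 i) (hG i)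

end Crest.Agent.R017.ET71
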