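import Crest.Agent.R017.FNEf_708
import Crest.Agent.R017.R8Tail_70

/-!
# Row 17, R8 / P1: the character side from the far claims (helper71)

* `farS` : helper708's `far3` for the Gauss side with cubes
* `E3s`  : `n + max (κ) ((2 κ + K₀)/3) ((κ + k₁)/3)`, `K₀ = max (Σ y + min y) (5/4 n) (36 w)`;
  **`r_E3s`** : `r κ {y₁, y₂, y₃} m a ≤ E3s`
-/

set_option autoImplicit false

noncomputable section

namespace Crest.Agent.R017.ET71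

open Crest.Agent.R017.ER911 Crest.Agent.R017.SC777
open Crest.Agent.R017.FN708 (Far far3 sw1 sw2)
open Crest.Agent.R017.R8T70 (Sh_triple sum_triple ok_triple)

variable {d : ℝ} {r s s₀ : EF}

/-- smallest lump -/
def mn3 (y₁ y₂ y₃ : ℝ) : ℝ := min y₁ (min y₂ y₃)

lemma mn3_1 (y₁ y₂ y₃ : ℝ) : mn3 y₁ y₂ y₃ ≤ y₁ := min_le_left _ _
lemma mn3_2 (y₁ y₂ y₃ : ℝ) : mn3 y₁ y₂ y₃ ≤ y₂ := (min_le_right _ _).trans (min_le_left _ _)
lemma mn3_3 (y₁ y₂ y₃ : ℝ) : mn3 y₁ y₂ y₃ ≤ y₃ := (min_le_right _ _).trans (min_le_right _ _)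

lemma mn3_mono {y₁ y₂ y₃ z₁ z₂ z₃ : ℝ} (h1 : y₁ ≤ z₁) (h2 : y₂ ≤ z₂) (h3 : y₃ ≤ z₃) :
    mn3 y₁ y₂ y₃ ≤ mn3 z₁ z₂ z₃ := min_le_min h1 (min_le_min h2 h3)

lemma mn3_nonneg {y₁ y₂ y₃ : ℝ} (h1 : 0 ≤ y₁) (h2 : 0 ≤ y₂) (h3 : 0 ≤ y₃) :
    0 ≤ mn3 y₁ y₂ y₃ := le_min h1 (le_min h2 h3)

/-- `mn3` drops by at most the removed length -/
lemma mn3_drop {y₁ y₂ y₃ z₁ z₂ z₃ : ℝ} (h1 : y₁ ≤ z₁) (h2 : y₂ ≤ z₂) (h3 : y₃ ≤ z₃) :
    mn3 z₁ z₂ z₃ - mn3 y₁ y₂ y₃ ≤ z₁ + z₂ + z₃ - (y₁ + y₂ + y₃) := by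
  have a1 := mn3_1 z₁ z₂ z₃
  have a2 := mn3_2 z₁ z₂ z₃
  have a3 := mn3_3 z₁ z₂ z₃
  have : mn3 z₁ z₂ z₃ - (z₁ + z₂ + z₃ - (y₁ + y₂ + y₃)) ≤ mn3 y₁ y₂ y₃ :=
    le_min (by linarith) (le_min (by linarith) (by linarith))
  linarith

/-- **the Gauss side of a far list** -/
theorem farS (R : ExpRules (7 / 8 + d) r s) (Rm : ExpRGFz (7 / 8 + d) r s s₀) (hd : 0 ≤ d)
    (hd8 : 8 * d ≤ 1) {K v y₁ y₂ y₃ m a : ℝ} (hK : 0 ≤ K) (hv : 0 ≤ v) (h1 : 0 ≤ y₁)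
    (h2 : 0 ≤ y₂) (h3 : 0 ≤ y₃) (hm : 0 ≤ m) (ha : 0 ≤ a) (h36 : 36 * (m + a) ≤ K)
    (hs : y₁ + y₂ + y₃ + mn3 y₁ y₂ y₃ ≤ K) (h5 : 5 * (y₁ + y₂ + y₃ + (m + a)) ≤ 4 * K)
    (h12 : 12 * (v + (y₁ + y₂ + y₃ + (m + a))) ≤ 17 * K) (h3v : 3 * v ≤ 2 * K)
    (h2v : 2 * v ≤ y₁ + y₂ + y₃ + (m + a) + K) :
    s v {y₁, y₂, y₃} m a ≤ 4 / 3 * (y₁ + y₂ + y₃ + (m + a)) + (K + v) / 3 +
      2 * d * (mn3 y₁ y₂ y₃ + (m + a)) := by
  refine Rm.cube v {y₁, y₂, y₃} m a _ hv (ok_triple h1 h2 h3 hm ha) fun u hu h3u => ?_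
  have key : ∀ A B C : ℝ, ({A, B, C} : Multiset ℝ) = {y₁, y₂, y₃} → A + B + C = y₁ + y₂ + y₃ →
      0 ≤ C → C ≤ A → C ≤ B → C = mn3 y₁ y₂ y₃ →
      s₀ (v - 3 * u) {y₁, y₂, y₃} m a ≤ 4 / 3 * (y₁ + y₂ + y₃ + (m + a)) + (K + (v - 3 * u)) / 3 +
        2 * d * (mn3 y₁ y₂ y₃ + (m + a)) := by
    intro A B C he hs' hC hCA hCB hCm
    have hf : Far K (v - 3 * u) (y₁ + y₂ + y₃ + (m + a)) A B C (m + a) := by
      refine ⟨hK, by linarith, hC, hCA, hCB, by linarith, h36, by linarith, by linarith, h5,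
        by linarith, by linarith⟩
    have := far3 R Rm hd hd8 hf hm ha (by linarith)
    rw [he] at this
    rw [hCm] at this
    linarith
  have e1 := mn3_1 y₁ y₂ y₃
  rcases le_total y₁ y₂ with h12' | h12'
  · rcases le_total y₁ y₃ with h13 | h13
    · have := key y₂ y₃ y₁ (by rw [sw1 y₁ y₂ y₃, sw2 y₂ y₁ y₃]) (by ring) h1 h12' h13
        (by rw [mn3, min_eq_left (le_min h12' h13)])
      linarith
    · have := key y₁ y₂ y₃ rfl rfl h3 h13 (h13.trans h12')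
        (by rw [mn3, min_eq_right (h13.trans h12'), min_eq_right h13])
      linarith
  · rcases le_total y₂ y₃ with h23 | h23
    · have := key y₁ y₃ y₂ (sw2 y₁ y₃ y₂) (by ring) h2 h12' h23
        (by rw [mn3, min_eq_left h23, min_eq_right h12'])
      linarith
    · have := key y₁ y₂ y₃ rfl rfl h3 (h23.trans h12') h23
        (by rw [mn3, min_eq_right h23, min_eq_right (h23.trans h12')])
      linarith

/-- the family of the far claims -/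
def K0s (S mn w : ℝ) : ℝ := max (S + mn) (max (5 / 4 * (S + w)) (36 * w))

/-- the constant of the lower slope -/
def k1s (S mn w : ℝ) : ℝ :=
  max (2 * (S + w) + K0s S mn w / 3) (min (3 * (S + w) - 5 / 12 * (S + mn)) (119 / 48 * (S + w)))

/-- **the character side from the far claims** -/
def E3s (d κ y₁ y₂ y₃ w : ℝ) : ℝ :=
  (y₁ + y₂ + y₃ + w) + max κ (max ((2 * κ + K0s (y₁ + y₂ + y₃) (mn3 y₁ y₂ y₃) w) / 3)
    ((κ + k1s (y₁ + y₂ + y₃) (mn3 y₁ y₂ y₃) w) / 3)) + 2 * d * (mn3 y₁ y₂ y₃ + w)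

lemma E3s_slope {d κ κ' y₁ y₂ y₃ w : ℝ} (h : κ' ≤ κ) :
    E3s d κ' y₁ y₂ y₃ w + (κ - κ') / 3 ≤ E3s d κ y₁ y₂ y₃ w := by
  unfold E3s
  have : max κ' (max ((2 * κ' + K0s (y₁ + y₂ + y₃) (mn3 y₁ y₂ y₃) w) / 3)
      ((κ' + k1s (y₁ + y₂ + y₃) (mn3 y₁ y₂ y₃) w) / 3)) + (κ - κ') / 3 ≤
      max κ (max ((2 * κ + K0s (y₁ + y₂ + y₃) (mn3 y₁ y₂ y₃) w) / 3)
      ((κ + k1s (y₁ + y₂ + y₃) (mn3 y₁ y₂ y₃) w) / 3)) := by
    rw [← max_add_add_right, ← max_add_add_right]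
    exact max_le_max (by linarith) (max_le_max (by linarith) (by linarith))
  linarith

lemma E3s_mono {d κ y₁ y₂ y₃ w w' : ℝ} (hd : 0 ≤ d) (h : w' ≤ w) :
    E3s d κ y₁ y₂ y₃ w' ≤ E3s d κ y₁ y₂ y₃ w := by
  unfold E3s
  have hK : K0s (y₁ + y₂ + y₃) (mn3 y₁ y₂ y₃) w' ≤ K0s (y₁ + y₂ + y₃) (mn3 y₁ y₂ y₃) w := by
    unfold K0s
    exact max_le_max le_rfl (max_le_max (by linarith) (by linarith))
  have hk : k1s (y₁ + y₂ + y₃) (mn3 y₁ y₂ y₃) w' ≤ k1s (y₁ + y₂ + y₃) (mn3 y₁ y₂ y₃) w := by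
    unfold k1s
    exact max_le_max (by linarith) (min_le_min (by linarith) (by linarith))
  have hd' : 2 * d * (mn3 y₁ y₂ y₃ + w') ≤ 2 * d * (mn3 y₁ y₂ y₃ + w) :=
    mul_le_mul_of_nonneg_left (by linarith) (by linarith)
  have := max_le_max (le_refl κ) (max_le_max
    (show (2 * κ + K0s (y₁ + y₂ + y₃) (mn3 y₁ y₂ y₃) w') / 3 ≤
      (2 * κ + K0s (y₁ + y₂ + y₃) (mn3 y₁ y₂ y₃) w) / 3 by linarith)
    (show (κ + k1s (y₁ + y₂ + y₃) (mn3 y₁ y₂ y₃) w') / 3 ≤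
      (κ + k1s (y₁ + y₂ + y₃) (mn3 y₁ y₂ y₃) w) / 3 by linarith))
  linarith

/-- **the character side** -/
theorem r_E3s (R : ExpRules (7 / 8 + d) r s) (Rm : ExpRGFz (7 / 8 + d) r s s₀) (hd : 0 ≤ d)
    (hd8 : 8 * d ≤ 1) {κ y₁ y₂ y₃ m a : ℝ} (h1 : 0 ≤ y₁) (h2 : 0 ≤ y₂) (h3 : 0 ≤ y₃)
    (hm : 0 ≤ m) (ha : 0 ≤ a) (hκ : 0 ≤ κ) :
    r κ {y₁, y₂, y₃} m a ≤ E3s d κ y₁ y₂ y₃ (m + a) := by
  set S := y₁ + y₂ + y₃ with hS
  set mn := mn3 y₁ y₂ y₃ with hmn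
  have hmn0 : 0 ≤ mn := mn3_nonneg h1 h2 h3
  set w := m + a with hw
  have hw0 : 0 ≤ w := by linarith
  set n := S + w with hn
  set K0 := K0s S mn w with hK0
  have g1 : S + mn ≤ K0 := le_max_left _ _
  have g2 : 5 / 4 * n ≤ K0 := (le_max_left _ _).trans (le_max_right _ _)
  have g3 : 36 * w ≤ K0 := (le_max_right _ _).trans (le_max_right _ _)
  have hn0 : 0 ≤ n := by linarith
  have hK00 : 0 ≤ K0 := by linarith
  -- the direct range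
  have main : ∀ κ₁ : ℝ, 0 ≤ κ₁ → 2 * n - 2 / 3 * K0 ≤ κ₁ → 3 * n - 17 / 12 * K0 ≤ κ₁ →
      ∀ κ' : ℝ, 0 ≤ κ' → κ' ≤ κ₁ → r κ' {y₁, y₂, y₃} m a + (κ₁ - κ') / 3 ≤
        n + max κ₁ ((2 * κ₁ + K0) / 3) + 2 * d * (mn + w) := by
    intro κ₁ hκ₁ q1 q2
    have m1 := le_max_left κ₁ ((2 * κ₁ + K0) / 3)
    have m2 := le_max_right κ₁ ((2 * κ₁ + K0) / 3)
    have hdw : 0 ≤ 2 * d * (mn + w) := by positivity
    refine R.poisC κ₁ {y₁, y₂, y₃} m a _ hκ₁ (ok_triple h1 h2 h3 hm ha)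
      (by rw [sum_triple]; linarith) (by
        rw [sum_triple]
        rcases le_total K0 (3 * n) with h | h <;> linarith) ?_
    intro Y' m' a' i hYs hm0 hm1 ha0 ha1 hi hii
    obtain ⟨a₁, a₂, a₃, rfl, p1, p1', p2, p2', p3, p3'⟩ := Sh_triple hYs
    rw [sum_triple] at hii
    rw [sum_triple, sum_triple]
    have hmm : mn3 a₁ a₂ a₃ ≤ mn := mn3_mono p1' p2' p3'
    have hfar := farS R Rm hd hd8 (K := K0) (v := i) (y₁ := a₁) (y₂ := a₂) (y₃ := a₃) (m := m')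
      (a := a') hK00 hi p1 p2 p3 hm0 ha0 (by linarith) (by linarith) (by linarith) (by linarith)
      (by linarith) (by
        rcases le_total K0 (3 * n) with h | h <;> linarith)
    have hd2 : 2 * d * (mn3 a₁ a₂ a₃ + (m' + a')) ≤ 2 * d * (mn + w) :=
      mul_le_mul_of_nonneg_left (by linarith) (by linarith)
    linarith
  have u1 := le_max_left κ (max ((2 * κ + K0s S mn w) / 3) ((κ + k1s S mn w) / 3))
  have u2 : (2 * κ + K0s S mn w) / 3 ≤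
      max κ (max ((2 * κ + K0s S mn w) / 3) ((κ + k1s S mn w) / 3)) :=
    (le_max_left _ _).trans (le_max_right _ _)
  have u3 : (κ + k1s S mn w) / 3 ≤
      max κ (max ((2 * κ + K0s S mn w) / 3) ((κ + k1s S mn w) / 3)) :=
    (le_max_right _ _).trans (le_max_right _ _)
  rw [← hK0] at u2
  have w1 : 2 * n + K0 / 3 ≤ k1s S mn w := le_max_left _ _
  have w2 : 3 * n - 5 / 12 * K0 ≤ k1s S mn w := by
    refine le_trans ?_ (le_max_right _ _)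
    exact le_min (by linarith) (by linarith)
  have goal : r κ {y₁, y₂, y₃} m a ≤
      n + max κ (max ((2 * κ + K0s S mn w) / 3) ((κ + k1s S mn w) / 3)) + 2 * d * (mn + w) := by
    set ks := max (2 * n - 2 / 3 * K0) (3 * n - 17 / 12 * K0) with hks
    have k1 : 2 * n - 2 / 3 * K0 ≤ ks := le_max_left _ _
    have k2 : 3 * n - 17 / 12 * K0 ≤ ks := le_max_right _ _
    rcases le_total ks κ with h | h
    · have := main κ hκ (k1.trans h) (k2.trans h) κ hκ le_rfl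
      rcases max_cases κ ((2 * κ + K0) / 3) with ⟨e, -⟩ | ⟨e, -⟩ <;> rw [e] at this <;> linarith
    · have h9 := main ks (hκ.trans h) k1 k2 κ hκ h
      have hkK : ks ≤ K0 := max_le (by linarith) (by linarith)
      have hkk : ks + K0 ≤ k1s S mn w := by
        rcases max_cases (2 * n - 2 / 3 * K0) (3 * n - 17 / 12 * K0) with ⟨e, -⟩ | ⟨e, -⟩ <;>
        rw [hks, e] <;> linarith
      rw [max_eq_right (by linarith)] at h9
      linarith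
  unfold E3s
  exact goal

end Crest.Agent.R017.ET71
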