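import Crest.Agent.R017.RM3c_986
import Crest.Agent.R017.R8Tail_70
import Crest.Agent.R017.ET2e_71

/-!
# Row 17, R8 / P1: the character side of the cross tail, exponents (helper71)

* `Yb`; `gauss3x`, `char3x` : helper70's `char3` for every share `w`
* `FT` : the closed form valid for every family; `E2 = min (r3 ..) (FT ..)`, `r_E2`
* `bgf2`, `ub_RF2`, `ubs_RF2`, **`rm_RF2`** : the second moment over all `k ≠ 0`, plain form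
-/

set_option autoImplicit false

noncomputable section

open Set

namespace Crest.Agent.R017.ET71

open Crest.Agent.R012 Crest.Agent.R012.Eis
open Crest.Agent.R017.FE47 (PU)
open Crest.Agent.R017.CM106
open Crest.Agent.R017.XG702 (Pcs BG)
open Crest.Agent.R017.XT71 (Sys Win mx)
open Crest.Agent.R017.E5B71 (UB)
open Crest.Agent.R017.Prov71
open Crest.Agent.R017.B770
open Crest.Agent.R017.ER911 Crest.Agent.R017.SC777 Crest.Agent.R017.ExpC702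
open Crest.Agent.R017.HP842 (Pc pc)
open Crest.Agent.R017.UBR61
open Crest.Agent.R017.XPD571 (RX R0 RF0 RN0 RP0 SP0)
open Crest.Agent.R017.UBT973 (UBs Wn Triv ubs_of_ub)
open Crest.Agent.R017.RM986 Crest.Agent.R017.R8T70

variable {d : ℝ} {r s s₀ : EF}

/-- effective length of the third lump -/
def Yb (n y w : ℝ) : ℝ :=
  max y (max (8 / 15 * (y + w)) (max (4 / 9 * (4 * (y + w) - n)) (40 / 3 * w - 4 * n)))

/-- the Gauss side is ideal at the family `v ≥ n + (3/4) Y + (24/5) d sb` -/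
theorem gauss3x (R : ExpRules (7 / 8 + d) r s) (hd : 0 ≤ d) (hd1 : d ≤ 1 / 8)
    {y₁ y₂ y₃ m a Y sb v : ℝ} (h1 : 0 ≤ y₁) (h2 : 0 ≤ y₂) (h3 : 0 ≤ y₃) (hm : 0 ≤ m)
    (ha : 0 ≤ a) (hY : y₃ ≤ Y) (hw : y₃ + (m + a) ≤ sb) (hwY : 8 / 15 * sb ≤ Y)
    (hS : y₃ + (m + a) ≤ (y₁ + y₂) + 3 / 2 * Y)
    (hw2 : m + a ≤ 2 / 3 * (y₁ + y₂ + y₃ + (m + a)) + Y / 4)
    (hv : (y₁ + y₂ + y₃ + (m + a)) + 3 / 4 * Y + 24 / 5 * d * sb ≤ v) :
    ∀ v' : ℝ, 0 ≤ v' → v' ≤ v →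
      s v' {y₁, y₂, y₃} m a + (v - v') / 3 ≤ v + (y₁ + y₂ + y₃ + (m + a)) := by
  have hYb : 0 ≤ Y := h3.trans hY
  have hsb : 0 ≤ sb := by linarith
  have hdY : 0 ≤ d * sb := mul_nonneg hd hsb
  refine R.poisG v {y₁, y₂, y₃} m a _ (by linarith) (ok_triple h1 h2 h3 hm ha)
    (by rw [sum_triple]; linarith) ?_ ?_
  · intro Y' m' a' i hYs hm0 hm1 ha0 ha1 hi hyi hii
    obtain ⟨a₁, a₂, a₃, rfl, q1, q1', q2, q2', q3, q3'⟩ := Sh_triple hYs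
    rw [sum_triple] at hii
    rw [sum_triple, sum_triple]
    have hi1 : a₁ ≤ i := hyi a₁ (by simp)
    have hi2 : a₂ ≤ i := hyi a₂ (by simp)
    have hs1 : a₃ + (m' + a') ≤ sb := by linarith
    have p1 : d * (a₃ + (m' + a')) ≤ d * sb := mul_le_mul_of_nonneg_left hs1 hd
    have p2 : d * a₃ ≤ d * (a₃ + (m' + a')) := mul_le_mul_of_nonneg_left (by linarith) hd
    have key := col3 R hd hi q1 q2 q3 hm0 ha0 hi1 hi2
      (T := (y₁ + y₂ + y₃ + (m + a)) - (2 * (y₁ + y₂ + y₃ + (m + a)) - v - i) / 3)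
      (by linarith) (by linarith) (by linarith) (fun h => by linarith)
    linarith
  · intro Y' m' a' hYs hm0 hm1 ha0 ha1 hk
    obtain ⟨a₁, a₂, a₃, rfl, q1, q1', q2, q2', q3, q3'⟩ := Sh_triple hYs
    rw [sum_triple] at hk
    rw [sum_triple, sum_triple]
    have p1 : d * m' ≤ 1 / 8 * m' := mul_le_mul_of_nonneg_right hd1 hm0
    linarith

/-- **the closed form, every family** : ideal, the reflected form, and its continuation -/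
def FT (d κ n y w : ℝ) : ℝ :=
  max (κ + n) (max (2 / 3 * κ + 4 / 3 * n + Yb n y w / 2 + 16 / 5 * d * (y + w))
    (1 / 3 * κ + 5 / 3 * n + Yb n y w / 4 + 16 / 5 * d * (y + w)))

/-- **the character side above the family `n - (3/4) Yb`** -/
theorem char3x (R : ExpRules (7 / 8 + d) r s) (hd : 0 ≤ d) (hd1 : d ≤ 1 / 8)
    {y₁ y₂ y₃ m a κ : ℝ} (h1 : 0 ≤ y₁) (h2 : 0 ≤ y₂) (h3 : 0 ≤ y₃) (hm : 0 ≤ m)
    (ha : 0 ≤ a) (hκ : 0 ≤ κ)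
    (hκ0 : (y₁ + y₂ + y₃ + (m + a)) -
      3 / 4 * Yb (y₁ + y₂ + y₃ + (m + a)) y₃ (m + a) ≤ κ) :
    ∀ κ' : ℝ, 0 ≤ κ' → κ' ≤ κ → r κ' {y₁, y₂, y₃} m a + (κ - κ') / 3 ≤
      max (κ + (y₁ + y₂ + y₃ + (m + a))) (2 / 3 * κ + 4 / 3 * (y₁ + y₂ + y₃ + (m + a)) +
        Yb (y₁ + y₂ + y₃ + (m + a)) y₃ (m + a) / 2 + 16 / 5 * d * (y₃ + (m + a))) := by
  set n := y₁ + y₂ + y₃ + (m + a) with hn
  set Y := Yb n y₃ (m + a) with hYd
  have hY1 : y₃ ≤ Y := le_max_left _ _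
  have hY2 : 8 / 15 * (y₃ + (m + a)) ≤ Y := (le_max_left _ _).trans (le_max_right _ _)
  have hY3 : 4 / 9 * (4 * (y₃ + (m + a)) - n) ≤ Y :=
    ((le_max_left _ _).trans (le_max_right _ _)).trans (le_max_right _ _)
  have hY4 : 40 / 3 * (m + a) - 4 * n ≤ Y :=
    ((le_max_right _ _).trans (le_max_right _ _)).trans (le_max_right _ _)
  have e1 : κ + n ≤ max (κ + n) (2 / 3 * κ + 4 / 3 * n + Y / 2 +
    16 / 5 * d * (y₃ + (m + a))) := le_max_left _ _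
  have e2 : 2 / 3 * κ + 4 / 3 * n + Y / 2 + 16 / 5 * d * (y₃ + (m + a)) ≤
    max (κ + n) (2 / 3 * κ + 4 / 3 * n + Y / 2 + 16 / 5 * d * (y₃ + (m + a))) := le_max_right _ _
  have hdY : 0 ≤ d * (y₃ + (m + a)) := mul_nonneg hd (by linarith)
  refine R.poisC κ {y₁, y₂, y₃} m a _ hκ (ok_triple h1 h2 h3 hm ha)
    (by rw [sum_triple]; linarith) (by rw [sum_triple]; linarith) ?_
  intro Y' m' a' i hYs hm0 hm1 ha0 ha1 hi hii
  obtain ⟨a₁, a₂, a₃, rfl, q1, q1', q2, q2', q3, q3'⟩ := Sh_triple hYs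
  rw [sum_triple] at hii
  rw [sum_triple, sum_triple]
  have hw2 : m' + a' ≤ 2 / 3 * (a₁ + a₂ + a₃ + (m' + a')) + Y / 4 := by
    rcases le_total (m' + a') (3 / 4 * Y) with h5 | h5
    · linarith
    · rcases le_total (3 * (m + a)) n with h6 | h6
      · linarith
      · linarith
  have := gauss3x R hd hd1 (Y := Y) (sb := y₃ + (m + a))
    (v := (a₁ + a₂ + a₃ + (m' + a')) + 3 / 4 * Y +
      24 / 5 * d * (y₃ + (m + a))) q1 q2 q3 hm0 ha0 (by linarith) (by linarith) hY2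
    (by linarith) hw2 (by linarith) i hi (by linarith)
  linarith

lemma FT_slope {d κ κ' n y w : ℝ} (h : κ' ≤ κ) : FT d κ' n y w + (κ - κ') / 3 ≤ FT d κ n y w := by
  unfold FT
  rw [← max_add_add_right, ← max_add_add_right]
  exact max_le_max (by linarith) (max_le_max (by linarith) (by linarith))

theorem r_FT (R : ExpRules (7 / 8 + d) r s) (hd : 0 ≤ d) (hd1 : d ≤ 1 / 8)
    {y₁ y₂ y₃ m a κ : ℝ} (h1 : 0 ≤ y₁) (h2 : 0 ≤ y₂) (h3 : 0 ≤ y₃) (hm : 0 ≤ m)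
    (ha : 0 ≤ a) (hκ : 0 ≤ κ) :
    r κ {y₁, y₂, y₃} m a ≤ FT d κ (y₁ + y₂ + y₃ + (m + a)) y₃ (m + a) := by
  have hY0 : 0 ≤ Yb (y₁ + y₂ + y₃ + (m + a)) y₃ (m + a) := h3.trans (le_max_left _ _)
  have hdY : 0 ≤ d * (y₃ + (m + a)) := mul_nonneg hd (by linarith)
  rcases le_total ((y₁ + y₂ + y₃ + (m + a)) -
    3 / 4 * Yb (y₁ + y₂ + y₃ + (m + a)) y₃ (m + a)) κ with h | h
  · have := char3x R hd hd1 h1 h2 h3 hm ha hκ h κ hκ le_rfl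
    unfold FT
    rw [sub_self, zero_div, add_zero] at this
    exact this.trans (max_le_max le_rfl (le_max_left _ _))
  · set κ₀ := (y₁ + y₂ + y₃ + (m + a)) -
      3 / 4 * Yb (y₁ + y₂ + y₃ + (m + a)) y₃ (m + a) with hκ₀
    have h5 := char3x R hd hd1 h1 h2 h3 hm ha (hκ.trans h) le_rfl κ hκ h
    rw [max_eq_right (by linarith)] at h5
    have e2 : 1 / 3 * κ + 5 / 3 * (y₁ + y₂ + y₃ + (m + a)) +
        Yb (y₁ + y₂ + y₃ + (m + a)) y₃ (m + a) / 4 + 16 / 5 * d * (y₃ + (m + a)) ≤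
        FT d κ (y₁ + y₂ + y₃ + (m + a)) y₃ (m + a) :=
      (le_max_right _ _).trans (le_max_right _ _)
    linarith

/-- **the exponent of the character side** -/
def E2 (d κ y₁ y₂ y₃ m a : ℝ) : ℝ :=
  min (min (r3 d κ y₁ y₂ y₃ m a) (FT d κ (y₁ + y₂ + y₃ + (m + a)) y₃ (m + a)))
    (E3s d κ y₁ y₂ y₃ (m + a))

theorem r_E2 (R : ExpRules (7 / 8 + d) r s) (Rm : ExpRGFz (7 / 8 + d) r s s₀) (hd : 0 ≤ d)
    (hd1 : d ≤ 1 / 8)
    {y₁ y₂ y₃ m a κ : ℝ} (h1 : 0 ≤ y₁) (h2 : 0 ≤ y₂) (h3 : 0 ≤ y₃) (hm : 0 ≤ m)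
    (ha : 0 ≤ a) (hκ : 0 ≤ κ) : r κ {y₁, y₂, y₃} m a ≤ E2 d κ y₁ y₂ y₃ m a :=
  le_min (le_min (r_three R hd hd1 hκ h1 h2 h3 hm ha) (r_FT R hd hd1 h1 h2 h3 hm ha hκ))
    (r_E3s R Rm hd (by linarith) h1 h2 h3 hm ha hκ)

lemma E2_slope {d κ κ' y₁ y₂ y₃ m a : ℝ} (hd : 0 ≤ d) (h : κ' ≤ κ) :
    E2 d κ' y₁ y₂ y₃ m a + (κ - κ') / 3 ≤ E2 d κ y₁ y₂ y₃ m a := by
  unfold E2
  rw [← min_add_add_right, ← min_add_add_right]
  exact min_le_min (min_le_min (r3_slope hd h) (FT_slope h)) (E3s_slope h)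

lemma FT_mono {d κ n y w w' : ℝ} (hd : 0 ≤ d) (h : w' ≤ w) :
    FT d κ (n + w') y w' ≤ FT d κ (n + w) y w := by
  have h1 : Yb (n + w') y w' ≤ Yb (n + w) y w := by
    unfold Yb
    exact max_le_max le_rfl (max_le_max (by linarith) (max_le_max (by linarith) (by linarith)))
  have h3 : d * (y + w') ≤ d * (y + w) := mul_le_mul_of_nonneg_left (by linarith) hd
  unfold FT
  exact max_le_max (by linarith) (max_le_max (by linarith) (by linarith))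

lemma E2_mono {d κ y₁ y₂ y₃ m m' a a' : ℝ} (hd : 0 ≤ d) (hm : m' ≤ m) (ha : a' ≤ a) :
    E2 d κ y₁ y₂ y₃ m' a' ≤ E2 d κ y₁ y₂ y₃ m a := by
  unfold E2
  exact min_le_min (min_le_min (r3_mono hd hm ha) (FT_mono hd (by linarith)))
    (E3s_mono hd (by linarith))

/-! ### `BG` -/

section bg

variable {Λ : Type*} {π : Λ → DPar} {h : ℝ → ℝ}

/-- cube-free admissible `k` -/
theorem bgn2 {c₀ : ℝ} (hpu : PU h c₀) (hP : ∀ lam, (π lam).OK)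
    (R : ExpRules (7 / 8 + d) (ex Dq (fun lam => Rp (π lam) h)) s)
    (Rm : ExpRGFz (7 / 8 + d) (ex Dq (fun lam => Rp (π lam) h)) s s₀) (hd : 0 ≤ d)
    (hd8 : d ≤ 1 / 8) {κ y₁ y₂ y₃ m a : ℝ} (hκ : 0 ≤ κ) (h1 : 0 ≤ y₁) (h2 : 0 ≤ y₂)
    (h3 : 0 ≤ y₃) (hm : 0 ≤ m) (ha : 0 ≤ a) :
    BG Dq (fun lam => Rp (π lam) h) κ [y₁, y₂, y₃] (wt m a) (E2 d κ y₁ y₂ y₃ m a) := by
  refine BG_of_ex (pinv_Rp π h) (XHB411.triv_Rp hP hpu) hκ ⟨?_, hm, ha⟩ ?_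
  · intro y hy
    simp only [List.mem_cons, List.not_mem_nil, or_false] at hy
    rcases hy with rfl | rfl | rfl
    · exact h1
    · exact h2
    · exact h3
  · exact r_E2 R Rm hd hd8 h1 h2 h3 hm ha hκ

/-- **all `k ≠ 0`** -/
theorem bgf2 {c₀ : ℝ} (hpu : PU h c₀) (hP : ∀ lam, (π lam).OK)
    (R : ExpRules (7 / 8 + d) (ex Dq (fun lam => Rp (π lam) h)) s)
    (Rm : ExpRGFz (7 / 8 + d) (ex Dq (fun lam => Rp (π lam) h)) s s₀)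
    (hcolP : ∀ (i : ℝ) (u : List ℝ) (m a : ℝ), 0 ≤ i → Okl u m a →
      BG Dq (RP0 π h) i u (wt m a) (2 * a + 2 * (7 / 8 + d) * m)) (hd : 0 ≤ d)
    (hd8 : d ≤ 1 / 8) {κ y₁ y₂ y₃ m a : ℝ} (hκ : 0 ≤ κ) (h1 : 0 ≤ y₁) (h2 : 0 ≤ y₂)
    (h3 : 0 ≤ y₃) (hm : 0 ≤ m) (ha : 0 ≤ a) :
    BG Dq (RF0 π h) κ [y₁, y₂, y₃] (wt m a)
      (max (E2 d κ y₁ y₂ y₃ m a) (κ / 3 + 2 * a + 2 * (7 / 8 + d) * m)) := by
  have hok : Okl [y₁, y₂, y₃] m a := by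
    refine ⟨?_, hm, ha⟩
    intro y hy
    simp only [List.mem_cons, List.not_mem_nil, or_false] at hy
    rcases hy with rfl | rfl | rfl
    · exact h1
    · exact h2
    · exact h3
  refine BG_RF hP (bump_of_cs hpu.cs) hκ fun i hi0 hi => ?_
  refine BG_add (Φ₁ := RN0 π h) (Φ₂ := RP0 π h) ?_ ?_ fun lam l ps => XPD571.RQ_split _ _ _
    (fun k hk => by
      by_cases h1 : (π lam).NP2 k
      · exact Or.inl ⟨h1, hk⟩
      · exact Or.inr ⟨hk, h1⟩) _ _ _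
  · refine (bgn2 hpu hP R Rm hd hd8 hi0 h1 h2 h3 hm ha).mono ?_
    have e1 := E2_slope (y₁ := y₁) (y₂ := y₂) (y₃ := y₃) (m := m) (a := a) hd hi
    have e2 := le_max_left (E2 d κ y₁ y₂ y₃ m a) (κ / 3 + 2 * a + 2 * (7 / 8 + d) * m)
    linarith
  · refine (hcolP i _ m a hi0 hok).mono ?_
    have e2 := le_max_right (E2 d κ y₁ y₂ y₃ m a) (κ / 3 + 2 * a + 2 * (7 / 8 + d) * m)
    linarith

/-- the exponent at a configuration -/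
def E2q (d : ℝ) (q : (Fin 4 → ℝ) × (Kd → ℝ)) : ℝ :=
  max (E2 d (q.1 0) (q.1 1) (q.1 2) (q.1 3) (q.2 .mo) (q.2 .am))
    (q.1 0 / 3 + 2 * q.2 .am + 2 * (7 / 8 + d) * q.2 .mo)

lemma cont_E2q (d : ℝ) : Continuous (E2q d) := by
  have c0 := cont_co (ι := Fin 4) 0
  have c1 := cont_co (ι := Fin 4) 1
  have c2 := cont_co (ι := Fin 4) 2
  have c3 := cont_co (ι := Fin 4) 3
  have cm := cont_mo (ι := Fin 4)
  have ca := cont_am (ι := Fin 4)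
  have h1 : Continuous fun q : (Fin 4 → ℝ) × (Kd → ℝ) =>
      r3 d (q.1 0) (q.1 1) (q.1 2) (q.1 3) (q.2 .mo) (q.2 .am) := by
    unfold r3 rH rA hb eX fL
    fun_prop
  have h2 : Continuous fun q : (Fin 4 → ℝ) × (Kd → ℝ) =>
      FT d (q.1 0) (q.1 1 + q.1 2 + q.1 3 + (q.2 .mo + q.2 .am)) (q.1 3)
        (q.2 .mo + q.2 .am) := by
    unfold FT Yb
    fun_prop
  have h3 : Continuous fun q : (Fin 4 → ℝ) × (Kd → ℝ) =>
      E3s d (q.1 0) (q.1 1) (q.1 2) (q.1 3) (q.2 .mo + q.2 .am) := by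
    unfold E3s k1s K0s mn3
    fun_prop
  have h4 : Continuous fun q : (Fin 4 → ℝ) × (Kd → ℝ) =>
      q.1 0 / 3 + 2 * q.2 .am + 2 * (7 / 8 + d) * q.2 .mo := by fun_prop
  unfold E2q E2
  exact ((h1.min h2).min h3).max h4

lemma E2q_down (hd : 0 ≤ d) (q : (Fin 4 → ℝ) × (Kd → ℝ)) {b : ℝ} (hb : 0 ≤ b) :
    E2q d (q.1, Function.update q.2 Kd.mo (q.2 Kd.mo - b)) ≤ E2q d q := by
  have e : (Function.update q.2 Kd.mo (q.2 Kd.mo - b)) Kd.am = q.2 Kd.am :=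
    Function.update_of_ne (by decide) _ _
  unfold E2q
  simp only [Function.update_self, e]
  refine max_le_max (E2_mono hd (by linarith) le_rfl) ?_
  nlinarith

/-- **uniform bound, all `k ≠ 0`** -/
theorem ub_RF2 {c₀ : ℝ} (hpu : PU h c₀) (hP : ∀ lam, (π lam).OK)
    (R : ExpRules (7 / 8 + d) (ex Dq (fun lam => Rp (π lam) h)) s)
    (Rm : ExpRGFz (7 / 8 + d) (ex Dq (fun lam => Rp (π lam) h)) s s₀)
    (hcolP : ∀ (i : ℝ) (u : List ℝ) (m a : ℝ), 0 ≤ i → Okl u m a →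
      BG Dq (RP0 π h) i u (wt m a) (2 * a + 2 * (7 / 8 + d) * m)) (hd : 0 ≤ d)
    (hd8 : d ≤ 1 / 8) (K : ℝ) (c : Λ → ℝ) :
    UB S3 Dq (M3 (fun _ k => k ≠ 0) π h c) (Bx K) ∅ (E2q d) := by
  refine um_of hpu hP _ c (bx_compact K) (fun q hq => ⟨fun i => (hq.1 i).1, fun t => (hq.2 t).1⟩)
    bx_down (cont_E2q d) (fun q _ b hb _ => E2q_down hd q hb) ?_
  intro p m a hm ha hD
  have h0 := fun i => (hD.1 i).1
  exact bgf2 hpu hP R Rm hcolP hd hd8 (h0 0) (h0 1) (h0 2) (h0 3) hm ha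

/-- **`UBs`, all `k ≠ 0`** -/
theorem ubs_RF2 {c₀ : ℝ} (hpu : PU h c₀) (hP : ∀ lam, (π lam).OK)
    (R : ExpRules (7 / 8 + d) (ex Dq (fun lam => Rp (π lam) h)) s)
    (Rm : ExpRGFz (7 / 8 + d) (ex Dq (fun lam => Rp (π lam) h)) s s₀)
    (hcolP : ∀ (i : ℝ) (u : List ℝ) (m a : ℝ), 0 ≤ i → Okl u m a →
      BG Dq (RP0 π h) i u (wt m a) (2 * a + 2 * (7 / 8 + d) * m)) (hd : 0 ≤ d)
    (hd8 : d ≤ 1 / 8) (K : ℝ) (c : Λ → ℝ) :
    UBs S3 Dq (M3 (fun _ k => k ≠ 0) π h c) (fB K) ∅ (E2q d) :=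
  ubs_of_ub (fB_cont K) (fB_compact K 1) (cont_E2q d) (triv3 hpu hP _ c K ∅)
    (by rw [fB_zero]; exact ub_RF2 hpu hP R Rm hcolP hd hd8 K c)

/-- **plain form**, all `k ≠ 0` -/
theorem rm_RF2 {c₀ : ℝ} (hpu : PU h c₀) (hP : ∀ lam, (π lam).OK)
    (R : ExpRules (7 / 8 + d) (ex Dq (fun lam => Rp (π lam) h)) s)
    (Rm : ExpRGFz (7 / 8 + d) (ex Dq (fun lam => Rp (π lam) h)) s s₀)
    (hcolP : ∀ (i : ℝ) (u : List ℝ) (m a : ℝ), 0 ≤ i → Okl u m a →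
      BG Dq (RP0 π h) i u (wt m a) (2 * a + 2 * (7 / 8 + d) * m)) (hd : 0 ≤ d)
    (hd8 : d ≤ 1 / 8) (K : ℝ) :
    Plain (fun _ k => k ≠ 0) π h K
      (fun κ y₁ y₂ y₃ m a => max (E2 d κ y₁ y₂ y₃ m a) (κ / 3 + 2 * a + 2 * (7 / 8 + d) * m)) :=
  plain_of (E := fun κ y₁ y₂ y₃ m a =>
    max (E2 d κ y₁ y₂ y₃ m a) (κ / 3 + 2 * a + 2 * (7 / 8 + d) * m))
    (ubs_RF2 hpu hP R Rm hcolP hd hd8 K fun _ => 0)

end bg

end Crest.Agent.R017.ET71
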