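import Crest.Agent.R017.MoF1_106
import Crest.Agent.R012.DualGcd_671

/-!
# Row 17, E2: the moment functional of helper440 and second moments of closed families, part 2

* `split_sq'` : vector-valued splitting with two-sided bound for the children
* `mo_split` : one block of `(B, g₂, g₃, m)`: reduction to the children
-/

set_option autoImplicit false

noncomputable section

open MeasureTheory Finset
open scoped ComplexConjugate

namespace Crest.Agent.R017.MoF106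

open Crest.Agent.R012
open Eis CharSum852 Gauss880 LS2 CR2 MelSep811
open Crest.Agent.R012.Weight600 (osc norm_osc)
open Crest.Agent.R017.CM106 (CS TG FS sub)
open Crest.Agent.R017.TP320 (VC VG Fam SplitAt tw)
open Crest.Agent.R017.GR106 (CS_sq_eq)
open Crest.Agent.R017.E2440 (cT MoF)
open Crest.Agent.R017.H1401 (pb mem_pb)
open Div277 (tau dvs mem_dvs tau_le_rpow)

/-- **vector-valued splitting as sums of squares**, two-sided -/
theorem split_sq' {J : Type} {Φ : Fam J} {R A ε s0 C : ℝ} (h : SplitAt Φ R A ε s0 C)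
    {β : Type} (I : Finset β) (a : β → Eis) (W : β → ℝ) (hW : ∀ i ∈ I, 0 ≤ W i)
    (K : Finset Eis) (c : β → Eis → ℂ) (j : J) (α τ : ℝ)
    (hα : ∀ i ∈ I, IsPrim (a i) ∧ α ≤ Real.log (nm (a i)) ∧ Real.log (nm (a i)) ≤ α + 1)
    (hc : ∀ i ∈ I, ∀ b ∈ K, c i b ≠ 0 → IsPrim b ∧ IsCoprime (a i) b)
    {M : ℝ} (hM : 0 ≤ M) (ht : ∀ j, 0 ≤ Φ.ht j)
    (hyp : ∀ j', Φ.good j' → Φ.dom R j' j → Φ.len j' ≤ Φ.len j - α + R →
      Φ.len j - α - R - 1 ≤ Φ.len j' →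
      ∑ i ∈ I, W i * ‖∑ b ∈ K, Φ.w j' b * c i b‖ ^ 2 ≤ (M * Φ.ht j') ^ 2) :
    ∑ i ∈ I, W i * ‖∑ b ∈ K, Φ.w j (a i * b) * tw s0 τ b * c i b‖ ^ 2 ≤
      (C * Real.exp (ε * |α|) * Real.exp (-s0 * (Φ.len j - α)) * (1 + |τ|) ^ A * M *
        Φ.ht j) ^ 2 := by
  classical
  set T : Finset (Eis × Eis) := ((I.image a) ×ˢ K).filter
    (fun p => IsPrim p.1 ∧ IsPrim p.2 ∧ IsCoprime p.1 p.2) with hT
  set v : Eis → Eis → EuclideanSpace ℂ I := fun p b =>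
    WithLp.toLp 2 (fun i : I => if a i.1 = p then (Real.sqrt (W i.1) : ℂ) * c i.1 b else 0) with hv
  have key : ∀ (x : Eis → Eis → ℂ) (i : I),
      (∑ p ∈ T, x p.1 p.2 • v p.1 p.2) i =
        (Real.sqrt (W i.1) : ℂ) * ∑ b ∈ K, x (a i.1) b * c i.1 b := by
    intro x i
    have e0 : (∑ p ∈ T, x p.1 p.2 • v p.1 p.2) i =
        ∑ p ∈ T, x p.1 p.2 * (if a i.1 = p.1 then (Real.sqrt (W i.1) : ℂ) * c i.1 p.2 else 0) := by
      rw [WithLp.ofLp_sum, Finset.sum_apply]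
      refine Finset.sum_congr rfl fun p _ => ?_
      simp [hv]
    rw [e0]
    have e1 : ∑ p ∈ T, x p.1 p.2 * (if a i.1 = p.1 then (Real.sqrt (W i.1) : ℂ) * c i.1 p.2
        else 0) = ∑ p ∈ (I.image a) ×ˢ K, x p.1 p.2 *
          (if a i.1 = p.1 then (Real.sqrt (W i.1) : ℂ) * c i.1 p.2 else 0) := by
      rw [hT]
      apply Finset.sum_filter_of_ne
      intro p hp hne
      rw [Finset.mem_product] at hp
      by_cases h1 : a i.1 = p.1
      · rw [if_pos h1] at hne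
        have h2 : c i.1 p.2 ≠ 0 := fun h0 => hne (by rw [h0, mul_zero, mul_zero])
        have h3 := hc i.1 i.2 p.2 hp.2 h2
        rw [← h1]
        exact ⟨(hα i.1 i.2).1, h3.1, h3.2⟩
      · rw [if_neg h1, mul_zero] at hne
        exact absurd rfl hne
    rw [e1, Finset.sum_product, Finset.sum_eq_single (a i.1)]
    · rw [Finset.mul_sum]
      refine Finset.sum_congr rfl fun b _ => ?_
      rw [if_pos rfl]
      ring
    · intro b _ hb
      refine Finset.sum_eq_zero fun y _ => ?_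
      show x b y * (if a i.1 = b then _ else 0) = 0
      rw [if_neg (fun h0 => hb h0.symm), mul_zero]
    · intro h0
      exact absurd (Finset.mem_image_of_mem a i.2) h0
  have norm_key : ∀ (x : Eis → Eis → ℂ), ‖∑ p ∈ T, x p.1 p.2 • v p.1 p.2‖ ^ 2 =
      ∑ i ∈ I, W i * ‖∑ b ∈ K, x (a i) b * c i b‖ ^ 2 := by
    intro x
    rw [EuclideanSpace.norm_sq_eq]
    have e1 : ∀ i : I, ‖(∑ p ∈ T, x p.1 p.2 • v p.1 p.2) i‖ ^ 2 =
        (fun i : β => W i * ‖∑ b ∈ K, x (a i) b * c i b‖ ^ 2) i.1 := by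
      intro i
      show _ = W i.1 * ‖∑ b ∈ K, x (a i.1) b * c i.1 b‖ ^ 2
      rw [key x i, norm_mul, mul_pow]
      congr 1
      rw [Complex.norm_real, Real.norm_eq_abs, sq_abs, Real.sq_sqrt (hW i.1 i.2)]
    rw [Finset.sum_congr rfl (fun i _ => e1 i)]
    exact Finset.sum_coe_sort I (fun i : β => W i * ‖∑ b ∈ K, x (a i) b * c i b‖ ^ 2)
  have hTm : ∀ p ∈ T, IsPrim p.1 ∧ IsPrim p.2 ∧ IsCoprime p.1 p.2 ∧
      α ≤ Real.log (nm p.1) ∧ Real.log (nm p.1) ≤ α + 1 := by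
    intro p hp
    rw [hT, Finset.mem_filter, Finset.mem_product, Finset.mem_image] at hp
    obtain ⟨⟨⟨i, hi, hip⟩, _⟩, h1, h2, h3⟩ := hp
    have := hα i hi
    rw [hip] at this
    exact ⟨h1, h2, h3, this.2.1, this.2.2⟩
  have h1 := h j α τ I T v M hM hTm (by
    intro κ hκ j' hg hd hl hl2
    have h2 : ‖∑ p ∈ T, (κ p.1 * Φ.w j' p.2) • v p.1 p.2‖ ^ 2 ≤ (M * Φ.ht j') ^ 2 := by
      have e := norm_key (fun x y => κ x * Φ.w j' y)
      rw [e]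
      refine le_trans ?_ (hyp j' hg hd hl hl2)
      refine Finset.sum_le_sum fun i hi => mul_le_mul_of_nonneg_left ?_ (hW i hi)
      apply pow_le_pow_left₀ (norm_nonneg _)
      have e2 : ∑ b ∈ K, κ (a i) * Φ.w j' b * c i b =
          κ (a i) * ∑ b ∈ K, Φ.w j' b * c i b := by
        rw [Finset.mul_sum]
        exact Finset.sum_congr rfl fun _ _ => by ring
      show ‖∑ b ∈ K, κ (a i) * Φ.w j' b * c i b‖ ≤ _
      rw [e2, norm_mul]
      exact mul_le_of_le_one_left (norm_nonneg _) (hκ _)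
    exact le_of_sq_le_sq h2 (mul_nonneg hM (ht j')))
  have e3 := norm_key (fun x y => Φ.w j (x * y) * tw s0 τ y)
  rw [← e3]
  exact pow_le_pow_left₀ (norm_nonneg _) h1 2

/-- the index `(J, B, g₂, g₃, m)` -/
abbrev I5 := Eis × I4

/-- the window conditions of one block -/
structure Blk (α : ℝ) (I : Finset I5) : Prop where
  B : ∀ x ∈ I, IsPrim x.2.1
  g₂ : ∀ x ∈ I, IsPrim x.2.2.1
  g₃ : ∀ x ∈ I, IsPrim x.2.2.2.1
  lo : ∀ x ∈ I, α ≤ Real.log (nm (x.2.1 * (x.2.2.1 * x.2.2.2.1)))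
  hi : ∀ x ∈ I, Real.log (nm (x.2.1 * (x.2.2.1 * x.2.2.2.1))) ≤ α + 1

/-- `h` is the common part of `γ` and `n` -/
def Cg (γ h n : Eis) : Prop :=
  ∃ γ' a : Eis, IsPrim γ' ∧ IsPrim a ∧ γ = h * γ' ∧ n = h * a ∧ IsCoprime a γ'

/-- **one block of `(J, B, g₂, g₃, m)`**, fixed common part `h` -/
theorem mo_split_h {J : Type} {Φ : Fam J} {R A : ℝ} (hΦ : Φ.Ok R A) {ε : ℝ} (hε : 0 < ε) :
    ∃ C : ℝ, 1 ≤ C ∧ ∀ (j : J) (γ h q g₀ δ E τ : Eis), IsPrim h → IsPrim g₀ →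
      ∀ (α t : ℝ) (I : Finset I5), Blk α I →
      (∀ x ∈ I, Cg γ h (g₀ * (x.2.1 * (x.2.2.1 * x.2.2.2.1)))) →
      ∀ ℓ : ℝ, ℓ = Real.log (nm g₀) + α - Real.log (nm h) →
      ∀ M : ℝ, 0 ≤ M →
      (∀ j', Φ.good j' → Φ.dom R j' j → Φ.len j' ≤ Φ.len j - ℓ + R →
        Φ.len j - ℓ - R - 1 ≤ Φ.len j' →
        ∑ x ∈ I, ‖CS (TP320.sq (q * (δ * (g₀ * γ)) * x.2.2.2.1) (Φ.w j'))
          (fr (E * x.1 * τ) x.2)‖ ^ 2 ≤ M * Φ.ht j' ^ 2) →
      ∑ x ∈ I, ‖CS (sub (cT (aG γ q g₀ δ (Φ.w j)) (E * x.1) x.2.1 τ t) (x.2.2.1 * x.2.2.2.1))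
        (x.2.2.1 ^ 2 * x.2.2.2.1 ^ 3 * x.2.2.2.2)‖ ^ 2 ≤
        C * Real.exp (ε * |ℓ|) * (1 + |t|) ^ (2 * A) * M * Φ.ht j ^ 2 := by
  classical
  obtain ⟨C, hC, hs⟩ := hΦ.split (ε / 2) 0 (by linarith)
  refine ⟨C ^ 2, one_le_pow₀ hC, ?_⟩
  intro j γ h q g₀ δ E τ hh hg₀ α₀ t I hI hCg α hα M hM hyp
  have hht : ∀ j, 0 ≤ Φ.ht j := fun j => zero_le_one.trans (hΦ.ht1 j)
  have hR := hΦ.R0
  choose! γf a hγf hap hγe hae hac using hCg
  -- one large support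
  have hsupp : ∀ j' : J, ∀ b, Φ.w j' b ≠ 0 → (nm b : ℝ) ≤ Real.exp (Φ.len j' + R) := by
    intro j' b hb
    have hb0 : (0 : ℝ) < nm b := by exact_mod_cast nm_pos.2 (hΦ.prim j' b hb).ne_zero
    rw [← Real.log_le_iff_le_exp hb0]
    have := (abs_le.1 (hΦ.supp j' b hb)).2
    linarith
  set X₁ : ℝ := Real.exp (|Φ.len j| + |α| + 2 * R) with hX₁
  have hX₁0 : 0 ≤ X₁ := (Real.exp_pos _).le
  have hw1 : ∀ n, Φ.w j n ≠ 0 → (nm n : ℝ) ≤ X₁ := fun n hn => (hsupp j n hn).trans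
    (Real.exp_le_exp.2 (by have := le_abs_self (Φ.len j); have := abs_nonneg α; linarith))
  have h1 : ∑ x ∈ I, ‖CS (sub (cT (aG γ q g₀ δ (Φ.w j)) (E * x.1) x.2.1 τ t)
        (x.2.2.1 * x.2.2.2.1)) (x.2.2.1 ^ 2 * x.2.2.2.1 ^ 3 * x.2.2.2.2)‖ ^ 2 ≤
      ∑ x ∈ I, (fun _ : I5 => (1 : ℝ)) x *
        ‖∑ b ∈ S X₁, Φ.w j (a x * b) *
        tw 0 (-t) b * cM (q * (δ * (g₀ * γ))) (E * x.1 * τ) x.2 b‖ ^ 2 := by
    refine Finset.sum_le_sum fun x hx => ?_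
    rw [one_mul]
    refine pow_le_pow_left₀ (norm_nonneg _) ?_ 2
    exact cT_le hX₁0 hw1 x.2.2.2.2 hh (hγf x hx) (hγe x hx) (hap x hx) hg₀ (hI.B x hx)
      (hI.g₂ x hx) (hI.g₃ x hx) (hae x hx) (hac x hx) t
  refine h1.trans ?_
  have hlog : ∀ x ∈ I, Real.log (nm (a x) : ℝ) =
      Real.log (nm g₀) + Real.log (nm (x.2.1 * (x.2.2.1 * x.2.2.2.1))) - Real.log (nm h) := by
    intro x hx
    have a1 : (nm g₀ : ℝ) ≠ 0 := by exact_mod_cast (nm_pos.2 hg₀.ne_zero).ne'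
    have a2 : (nm (x.2.1 * (x.2.2.1 * x.2.2.2.1)) : ℝ) ≠ 0 := by
      exact_mod_cast (nm_pos.2 ((hI.B x hx).mul ((hI.g₂ x hx).mul (hI.g₃ x hx))).ne_zero).ne'
    have a3 : (nm h : ℝ) ≠ 0 := by exact_mod_cast (nm_pos.2 hh.ne_zero).ne'
    have a4 : (nm (a x) : ℝ) ≠ 0 := by exact_mod_cast (nm_pos.2 (hap x hx).ne_zero).ne'
    have e1 := hae x hx
    have e2 : (nm g₀ : ℝ) * nm (x.2.1 * (x.2.2.1 * x.2.2.2.1)) = nm h * nm (a x) := by
      have h5 : (nm (g₀ * (x.2.1 * (x.2.2.1 * x.2.2.2.1))) : ℝ) = nm (h * a x) := by rw [e1]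
      rwa [nm_mul g₀, nm_mul h, Nat.cast_mul, Nat.cast_mul] at h5
    have e3 := congrArg Real.log e2
    rw [Real.log_mul a1 a2, Real.log_mul a3 a4] at e3
    linarith
  have h2 := split_sq' hs I a (fun _ => 1)
    (fun _ _ => zero_le_one) (S X₁)
    (fun x b => cM (q * (δ * (g₀ * γ))) (E * x.1 * τ) x.2 b) j α (-t)
    (fun x hx => ⟨hap x hx,
      by rw [hlog x hx, hα]; have := hI.lo x hx; linarith,
      by rw [hlog x hx, hα]; have := hI.hi x hx; linarith⟩)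
    (fun x hx b _ hb => ⟨(cM_ne hb).1, (by
      obtain ⟨-, -, h6, -⟩ := cM_ne hb
      have h9 : IsCoprime (g₀ * (x.2.1 * (x.2.2.1 * x.2.2.2.1))) b :=
        h6.of_mul_right_left.of_mul_right_right.of_mul_right_right.of_mul_right_left.symm.mul_left
          (cM_cop hb)
      rw [hae x hx] at h9
      exact h9.of_mul_left_right)⟩) (M := Real.sqrt M)
    (Real.sqrt_nonneg _) hht ?_
  · refine h2.trans ?_
    rw [neg_zero, zero_mul, Real.exp_zero, abs_neg]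
    have e1 : Real.exp (ε / 2 * |α|) ^ 2 = Real.exp (ε * |α|) := by
      rw [← Real.exp_nat_mul]; congr 1; push_cast; ring
    have ht0 : (0 : ℝ) ≤ 1 + |t| := by positivity
    have e2 : ((1 + |t|) ^ A) ^ 2 = (1 + |t|) ^ (2 * A) := by
      rw [← Real.rpow_natCast, ← Real.rpow_mul ht0]; congr 1; push_cast; ring
    apply le_of_eq
    calc (C * Real.exp (ε / 2 * |α|) * 1 * (1 + |t|) ^ A * Real.sqrt M * Φ.ht j) ^ 2
        = C ^ 2 * (Real.exp (ε / 2 * |α|) ^ 2) * (((1 + |t|) ^ A) ^ 2) * (Real.sqrt M ^ 2) *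
          Φ.ht j ^ 2 := by ring
      _ = _ := by rw [e1, e2, Real.sq_sqrt hM]
  · intro j' hg hd hl hl2
    have hw2 : ∀ b, Φ.w j' b ≠ 0 → IsPrim b → Squarefree b → b ∈ S X₁ := by
      intro b hb hp hsf
      rw [mem_S hX₁0]
      refine ⟨(hsupp j' b hb).trans (Real.exp_le_exp.2 ?_), hp, hsf⟩
      have h3 := le_abs_self (Φ.len j)
      have h4 := neg_abs_le α
      linarith
    have e1 : ∀ x ∈ I, (fun _ : I5 => (1 : ℝ)) x *
        ‖∑ b ∈ S X₁, Φ.w j' b * cM (q * (δ * (g₀ * γ))) (E * x.1 * τ) x.2 b‖ ^ 2 =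
          ‖CS (TP320.sq (q * (δ * (g₀ * γ)) * x.2.2.2.1) (Φ.w j')) (fr (E * x.1 * τ) x.2)‖ ^ 2 := by
      intro x _
      rw [sum_cM_eq hw2, one_mul]
    rw [Finset.sum_congr rfl e1, mul_pow, Real.sq_sqrt hM]
    exact hyp j' hg hd hl hl2

/-- a term vanishes unless a common part exists -/
lemma exists_Cg {γ n D c : Eis} (hγ : IsPrim γ) (hγs : Squarefree γ) (hn : IsPrim n)
    (he : n * D = γ * c) (hc : Squarefree (γ * c)) : ∃ h ∈ dvs γ, Cg γ h n := by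
  have hns : Squarefree n := hc.squarefree_of_dvd (he ▸ dvd_mul_right n D)
  obtain ⟨h, γ', a, hh, hγ', ha, h1, h2, hab, -, -, -, -, -⟩ :=
    Tau671.exists_gcd_split hγ hn hγs hns
  refine ⟨h, (mem_dvs hγ.ne_zero).2 ⟨hh, h1 ▸ dvd_mul_right h γ'⟩, γ', a, hγ', ha, h1, h2, hab.symm⟩

lemma cT_sum_zero {w : Eis → ℂ} {γ q g₀ δ E τ B G : Eis} (hγ : IsPrim γ) (hγs : Squarefree γ)
    (hg₀ : IsPrim g₀) (hB : IsPrim B) (hG : IsPrim G) (t : ℝ)
    (hno : ¬ ∃ h ∈ dvs γ, Cg γ h (g₀ * (B * G))) (k : Eis) :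
    CS (sub (cT (aG γ q g₀ δ w) E B τ t) G) k = 0 := by
  unfold CM106.CS CM106.sub
  have : ∀ D : Eis, cT (aG γ q g₀ δ w) E B τ t (G * D) * sy k D = 0 := by
    intro D
    have h1 : aG γ q g₀ δ w (B * (G * D)) = 0 := by
      by_contra h0
      obtain ⟨_, c, h1, _, h3, h4, _⟩ := aG_ne hγ.ne_zero h0
      apply hno
      refine exists_Cg hγ hγs (hg₀.mul (hB.mul hG)) (D := D) (c := c) ?_ ?_
      · rw [← h1]; ring
      · exact squarefree_mul_iff.mpr ⟨h4.of_mul_right_right.symm.isRelPrime, hγs, h3⟩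
    unfold E2440.cT
    rw [h1]; ring
  simp [this]

open Classical in
/-- **one block of `(J, B, g₂, g₃, m)`** -/
theorem mo_split {J : Type} {Φ : Fam J} {R A : ℝ} (hΦ : Φ.Ok R A) {ε : ℝ} (hε : 0 < ε) :
    ∃ C : ℝ, 1 ≤ C ∧ ∀ (j : J) (γ q g₀ δ E τ : Eis), IsPrim γ → Squarefree γ → IsPrim g₀ →
      ∀ (α t : ℝ) (I : Finset I5), 0 ≤ α → Blk α I → ∀ M : ℝ, 0 ≤ M →
      (∀ h ∈ dvs γ, ∀ j', Φ.good j' → Φ.dom R j' j →
        Φ.len j' ≤ Φ.len j - (Real.log (nm g₀) + α - Real.log (nm h)) + R →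
        Φ.len j - (Real.log (nm g₀) + α - Real.log (nm h)) - R - 1 ≤ Φ.len j' →
        ∑ x ∈ I, ‖CS (TP320.sq (q * (δ * (g₀ * γ)) * x.2.2.2.1) (Φ.w j'))
          (fr (E * x.1 * τ) x.2)‖ ^ 2 ≤ M * Φ.ht j' ^ 2) →
      ∑ x ∈ I, ‖CS (sub (cT (aG γ q g₀ δ (Φ.w j)) (E * x.1) x.2.1 τ t) (x.2.2.1 * x.2.2.2.1))
        (x.2.2.1 ^ 2 * x.2.2.2.1 ^ 3 * x.2.2.2.2)‖ ^ 2 ≤
        C * (nm γ * (nm g₀ * Real.exp α)) ^ ε * (1 + |t|) ^ (2 * A) * M * Φ.ht j ^ 2 := by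
  obtain ⟨C, hC, hs⟩ := mo_split_h hΦ (half_pos hε)
  obtain ⟨C₂, hC₂, hτ⟩ := tau_le_rpow (half_pos hε)
  refine ⟨C * C₂, by nlinarith, ?_⟩
  intro j γ q g₀ δ E τ hγ hγs hg₀ α t I hα hI M hM hyp
  have hC0 : 0 ≤ C := by linarith
  have hC₂0 : 0 ≤ C₂ := by linarith
  have hgp : (0 : ℝ) < nm g₀ := by exact_mod_cast nm_pos.2 hg₀.ne_zero
  have hg1 : (1 : ℝ) ≤ nm g₀ := by exact_mod_cast nm_pos.2 hg₀.ne_zero
  have hγp : (0 : ℝ) < nm γ := by exact_mod_cast nm_pos.2 hγ.ne_zero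
  have hγ1 : (1 : ℝ) ≤ nm γ := by exact_mod_cast nm_pos.2 hγ.ne_zero
  set f : I5 → ℝ := fun x => ‖CS (sub (cT (aG γ q g₀ δ (Φ.w j)) (E * x.1) x.2.1 τ t)
    (x.2.2.1 * x.2.2.2.1)) (x.2.2.1 ^ 2 * x.2.2.2.1 ^ 3 * x.2.2.2.2)‖ ^ 2 with hf
  have hf0 : ∀ x, 0 ≤ f x := fun x => sq_nonneg _
  set N : I5 → Eis := fun x => g₀ * (x.2.1 * (x.2.2.1 * x.2.2.2.1)) with hN
  have h1 : ∑ x ∈ I, f x ≤ ∑ h ∈ dvs γ, ∑ x ∈ I.filter (fun x => Cg γ h (N x)), f x := by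
    have e1 : ∑ h ∈ dvs γ, ∑ x ∈ I.filter (fun x => Cg γ h (N x)), f x =
        ∑ x ∈ I, ∑ h ∈ dvs γ, if Cg γ h (N x) then f x else 0 := by
      rw [Finset.sum_comm]
      exact Finset.sum_congr rfl fun h _ => by rw [Finset.sum_filter]
    rw [e1]
    refine Finset.sum_le_sum fun x hx => ?_
    by_cases hex : ∃ h ∈ dvs γ, Cg γ h (N x)
    · obtain ⟨h, hh, hc⟩ := hex
      have : f x = if Cg γ h (N x) then f x else 0 := by rw [if_pos hc]
      calc f x = if Cg γ h (N x) then f x else 0 := this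
        _ ≤ _ := Finset.single_le_sum (f := fun h => if Cg γ h (N x) then f x else 0)
            (fun h _ => by split_ifs; exacts [hf0 x, le_rfl]) hh
    · have : f x = 0 := by
        simp only [hf]
        rw [cT_sum_zero hγ hγs hg₀ (hI.B x hx) ((hI.g₂ x hx).mul (hI.g₃ x hx)) t hex]
        simp
      rw [this]
      refine Finset.sum_nonneg fun h _ => ?_
      split_ifs <;> exact le_rfl
  refine h1.trans ?_
  set Bd : ℝ := C * (nm γ * (nm g₀ * Real.exp α)) ^ (ε / 2) * (1 + |t|) ^ (2 * A) * M *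
    Φ.ht j ^ 2 with hBd
  have h2 : ∀ h ∈ dvs γ, ∑ x ∈ I.filter (fun x => Cg γ h (N x)), f x ≤ Bd := by
    intro h hh
    rw [mem_dvs hγ.ne_zero] at hh
    have hhp : (0 : ℝ) < nm h := by exact_mod_cast nm_pos.2 hh.1.ne_zero
    have hh1 : (1 : ℝ) ≤ nm h := by exact_mod_cast nm_pos.2 hh.1.ne_zero
    have hhγ : (nm h : ℝ) ≤ nm γ := by
      exact_mod_cast Div277.nm_le_of_dvd hγ.ne_zero hh.2
    have hI' : Blk α (I.filter (fun x => Cg γ h (N x))) :=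
      ⟨fun x hx => hI.B x (Finset.mem_filter.1 hx).1,
        fun x hx => hI.g₂ x (Finset.mem_filter.1 hx).1,
        fun x hx => hI.g₃ x (Finset.mem_filter.1 hx).1,
        fun x hx => hI.lo x (Finset.mem_filter.1 hx).1,
        fun x hx => hI.hi x (Finset.mem_filter.1 hx).1⟩
    have h3 := hs j γ h q g₀ δ E τ hh.1 hg₀ α t (I.filter (fun x => Cg γ h (N x))) hI'
      (fun x hx => (Finset.mem_filter.1 hx).2) _ rfl M hM
      (fun j' hg hd hl hl2 => (Finset.sum_le_sum_of_subset_of_nonneg (Finset.filter_subset _ _)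
        fun _ _ _ => sq_nonneg _).trans (hyp h ((mem_dvs hγ.ne_zero).2 hh) j' hg hd hl hl2))
    refine h3.trans ?_
    rw [hBd]
    have e2 : Real.exp (ε / 2 * |Real.log (nm g₀) + α - Real.log (nm h)|) ≤
        (nm γ * (nm g₀ * Real.exp α)) ^ (ε / 2) := by
      have e3 : |Real.log (nm g₀) + α - Real.log (nm h)| ≤
          Real.log (nm γ * (nm g₀ * Real.exp α)) := by
        rw [Real.log_mul hγp.ne' (by positivity), Real.log_mul hgp.ne' (Real.exp_pos _).ne',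
          Real.log_exp]
        have l1 := Real.log_nonneg hg1
        have l2 := Real.log_nonneg hh1
        have l3 := Real.log_le_log hhp hhγ
        rw [abs_le]
        constructor <;> linarith
      have hp : (0 : ℝ) < nm γ * (nm g₀ * Real.exp α) := by positivity
      calc Real.exp (ε / 2 * |Real.log (nm g₀) + α - Real.log (nm h)|)
          ≤ Real.exp (ε / 2 * Real.log (nm γ * (nm g₀ * Real.exp α))) :=
            Real.exp_le_exp.2 (mul_le_mul_of_nonneg_left e3 (by linarith))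
        _ = _ := by rw [Real.rpow_def_of_pos hp, mul_comm]
    have : 0 ≤ (1 + |t|) ^ (2 * A) * M * Φ.ht j ^ 2 := by positivity
    calc C * Real.exp (ε / 2 * |Real.log (nm g₀) + α - Real.log (nm h)|) *
          (1 + |t|) ^ (2 * A) * M * Φ.ht j ^ 2
        = (C * ((1 + |t|) ^ (2 * A) * M * Φ.ht j ^ 2)) *
          Real.exp (ε / 2 * |Real.log (nm g₀) + α - Real.log (nm h)|) := by ring
      _ ≤ (C * ((1 + |t|) ^ (2 * A) * M * Φ.ht j ^ 2)) *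
          (nm γ * (nm g₀ * Real.exp α)) ^ (ε / 2) :=
          mul_le_mul_of_nonneg_left e2 (by positivity)
      _ = _ := by ring
  refine (Finset.sum_le_sum h2).trans ?_
  rw [Finset.sum_const, nsmul_eq_mul]
  have h4 : ((dvs γ).card : ℝ) ≤ C₂ * (nm γ * (nm g₀ * Real.exp α)) ^ (ε / 2) := by
    refine (hτ γ hγ.ne_zero).trans (mul_le_mul_of_nonneg_left ?_ hC₂0)
    refine Real.rpow_le_rpow hγp.le ?_ (by linarith)
    have : 1 ≤ Real.exp α := Real.one_le_exp hα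
    have h5 : 1 ≤ (nm g₀ : ℝ) * Real.exp α := by nlinarith
    nlinarith
  have hBd0 : 0 ≤ Bd := by rw [hBd]; positivity
  calc ((dvs γ).card : ℝ) * Bd ≤ (C₂ * (nm γ * (nm g₀ * Real.exp α)) ^ (ε / 2)) * Bd :=
        mul_le_mul_of_nonneg_right h4 hBd0
    _ = C * C₂ * ((nm γ * (nm g₀ * Real.exp α)) ^ (ε / 2) *
        (nm γ * (nm g₀ * Real.exp α)) ^ (ε / 2)) * (1 + |t|) ^ (2 * A) * M * Φ.ht j ^ 2 := by
        rw [hBd]; ring
    _ = _ := by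
        rw [← Real.rpow_add (by positivity)]
        congr 5
        ring

end Crest.Agent.R017.MoF106
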