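import Crest.Agent.R017.RGwC_813

/-!
# Row 17, C.REMg (RG by positivity), from the E1 inequality to the sequence itself, part D
(helper813): transfer of general error functionals to the twisted windows
-/

set_option autoImplicit false

noncomputable section

open Complex MeasureTheory Filter Topology
open scoped ComplexConjugate Classical

namespace Crest.Agent.R017.RGw813

open Crest.Agent.R012 Crest.Agent.R012.Eis Crest.Agent.R012.MC
open Crest.Agent.R012.LS2 (S mem_S)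
open Crest.Agent.R012.Weight600 (osc pw)
open Crest.Agent.R017.CM106 (CS TG FS)
open Crest.Agent.R017.E1551
open Crest.Agent.R017.Win813

/-- general pointwise functional -/
def PG {ι : Type} (X : Finset ι) (W : ι → ℝ) (g l : ι → Eis) (α : Eis → ℂ) (t : ℝ) : ℝ :=
  ∑ x ∈ X, W x * tgf α (g x) (l x) t

section general

variable {ι : Type} {X : Finset ι} {W : ι → ℝ} {g l : ι → Eis}

lemma PG_nonneg (hW : ∀ x ∈ X, 0 ≤ W x) (α : Eis → ℂ) (t : ℝ) : 0 ≤ PG X W g l α t :=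
  Finset.sum_nonneg fun x hx => mul_nonneg (hW x hx) (tgf_nonneg _ _ _ _)

lemma continuous_PG {α : Eis → ℂ} (h : FS α) (hg : ∀ x ∈ X, g x ≠ 0) :
    Continuous (PG X W g l α) :=
  continuous_finsetSum _ fun x hx => (continuous_tgf h (hg x hx) _).const_mul _

lemma PG_bdd {α : Eis → ℂ} (h : FS α) (hg : ∀ x ∈ X, g x ≠ 0) (hW : ∀ x ∈ X, 0 ≤ W x) :
    ∃ M : ℝ, 0 ≤ M ∧ ∀ t, PG X W g l α t ≤ M := by
  have h1 : ∀ x : ι, ∃ M : ℝ, x ∈ X → ∀ t, tgf α (g x) (l x) t ≤ M := by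
    intro x
    by_cases hx : x ∈ X
    · obtain ⟨M, hM⟩ := tgf_bdd h (hg x hx) (l x)
      exact ⟨M, fun _ => hM⟩
    · exact ⟨0, fun h => absurd h hx⟩
  choose M hM using h1
  exact ⟨∑ x ∈ X, W x * M x, Finset.sum_nonneg fun x hx => mul_nonneg (hW x hx)
      ((tgf_nonneg _ _ _ 0).trans (hM x hx 0)),
    fun t => Finset.sum_le_sum fun x hx => mul_le_mul_of_nonneg_left (hM x hx t) (hW x hx)⟩

lemma tgf_win {C η : ℝ} {B : ℕ} (hC : 0 ≤ C) (hη : 0 < η) (hB : 2 ≤ B) {φ : ℝ → ℝ}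
    (hφ : WK C η B φ) {α : Eis → ℂ} (h : FS α) {e : Eis} (he : e ≠ 0) (l : Eis) (t : ℝ) :
    tgf (wn φ α) e l t ≤ C ^ 2 * iA B * ∫ s, ew B η s * tgf α e l (t + s) := by
  have := KS_win hC hη hB hφ (fun l m => G m * conj (sy l m)) h he (Finset.univ : Finset Unit)
    (fun _ => 1) (fun _ _ => zero_le_one) (fun _ => l) t
  simp only [Finset.univ_unique, Finset.sum_singleton, one_mul] at this
  exact this

lemma integrable_tgf {B : ℕ} (hB : 2 ≤ B) {η : ℝ} (hη : 0 < η) {α : Eis → ℂ} (h : FS α)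
    {e : Eis} (he : e ≠ 0) (l : Eis) (t : ℝ) :
    Integrable fun s => ew B η s * tgf α e l (t + s) := by
  obtain ⟨M, hM⟩ := tgf_bdd h he l
  exact integrable_ew_mul hB hη ((continuous_tgf h he l).comp (continuous_const.add
    continuous_id)) fun s => by
      show |tgf α e l (t + s)| ≤ M
      rw [abs_of_nonneg (tgf_nonneg _ _ _ _)]; exact hM _

/-- sums and integrals -/
lemma sum_int {B : ℕ} (hB : 2 ≤ B) {η : ℝ} (hη : 0 < η) {α : Eis → ℂ} (h : FS α)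
    (hg : ∀ x ∈ X, g x ≠ 0) (t : ℝ) :
    ∑ x ∈ X, W x * ∫ s, ew B η s * tgf α (g x) (l x) (t + s) =
      ∫ s, ew B η s * PG X W g l α (t + s) := by
  unfold PG
  simp_rw [Finset.mul_sum]
  rw [integral_finsetSum _ fun x hx => by
    refine ((integrable_tgf hB hη h (hg x hx) (l x) t).const_mul (W x)).congr
      (Eventually.of_forall fun s => ?_)
    simp only
    ring]
  refine Finset.sum_congr rfl fun x _ => ?_
  rw [← integral_const_mul]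
  refine integral_congr_ae (Eventually.of_forall fun s => ?_)
  simp only
  ring

/-- **a window** -/
theorem PG_win {C η : ℝ} {B J : ℕ} (hC : 0 ≤ C) (hη : 0 < η) (hη1 : η ≤ 1) (hBJ : J + 2 ≤ B)
    {φ : ℝ → ℝ} (hφ : WK C η B φ) {α : Eis → ℂ} (h : FS α) (hg : ∀ x ∈ X, g x ≠ 0)
    (hW : ∀ x ∈ X, 0 ≤ W x) {M : ℝ} (hM0 : 0 ≤ M)
    (hM : ∀ t, PG X W g l α t ≤ M * (1 + |t|) ^ J) (t : ℝ) :
    PG X W g l (wn φ α) t ≤ C ^ 2 * iA B * iA 2 * (η⁻¹) ^ J * M * (1 + |t|) ^ J := by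
  have hB2 : 2 ≤ B := by omega
  obtain ⟨M', hM'0, hM'⟩ := PG_bdd (l := l) h hg hW
  have hCi : 0 ≤ C ^ 2 * iA B := mul_nonneg (by positivity) (iA_nonneg B)
  calc PG X W g l (wn φ α) t ≤ ∑ x ∈ X, W x * (C ^ 2 * iA B *
        ∫ s, ew B η s * tgf α (g x) (l x) (t + s)) :=
        Finset.sum_le_sum fun x hx => mul_le_mul_of_nonneg_left
          (tgf_win hC hη hB2 hφ h (hg x hx) (l x) t) (hW x hx)
    _ = C ^ 2 * iA B * ∑ x ∈ X, W x * ∫ s, ew B η s * tgf α (g x) (l x) (t + s) := by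
        rw [Finset.mul_sum]
        exact Finset.sum_congr rfl fun x _ => by ring
    _ = C ^ 2 * iA B * ∫ s, ew B η s * PG X W g l α (t + s) := by rw [sum_int hB2 hη h hg]
    _ ≤ C ^ 2 * iA B * (iA 2 * (η⁻¹) ^ J * (M * (1 + |t|) ^ J)) :=
        mul_le_mul_of_nonneg_left (int_ew_pt hBJ hη hη1 (continuous_PG h hg) (PG_nonneg hW α)
          hM' hM hM0 t) hCi
    _ = _ := by ring

/-- **means** -/
theorem PG_mean {A J : ℕ} (hAJ : J + 2 ≤ A) {α : Eis → ℂ} (h : FS α) (hg : ∀ x ∈ X, g x ≠ 0)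
    (hW : ∀ x ∈ X, 0 ≤ W x) {M : ℝ} (hM0 : 0 ≤ M)
    (hM : ∀ t, PG X W g l α t ≤ M * (1 + |t|) ^ J) (t : ℝ) :
    ∑ x ∈ X, W x * (∫ u, jb (A : ℝ) u * tgf (fun n => α n * pw t (nm n)) (g x) (l x) u) ≤
      iA 2 * M * (1 + |t|) ^ J := by
  have hA : 2 ≤ A := by omega
  obtain ⟨M', hM'0, hM'⟩ := PG_bdd (l := l) h hg hW
  have e1 : ∑ x ∈ X, W x * (∫ u, jb (A : ℝ) u * tgf (fun n => α n * pw t (nm n)) (g x) (l x) u) =
      ∫ s, ew A 1 s * PG X W g l α (t + s) := by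
    rw [← sum_int hA one_pos h hg]
    refine Finset.sum_congr rfl fun x hx => ?_
    congr 1
    refine integral_congr_ae (Eventually.of_forall fun s => ?_)
    simp only
    rw [tgf_pw h (hg x hx), jb_ew]
  rw [e1]
  have := int_ew_pt hAJ one_pos le_rfl (continuous_PG (W := W) (l := l) h hg) (PG_nonneg hW α)
    hM' hM hM0 t
  rw [inv_one, one_pow, mul_one] at this
  refine this.trans (le_of_eq ?_)
  ring

end general

/-- **transfer of an error functional to the twisted windows** -/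
theorem Er_bt {ι : Type} {X : Finset ι} {W : ι → ℝ} {g l : ι → Eis}
    {C η : ℝ} {A B J : ℕ} (hC : 0 ≤ C) (hη : 0 < η) (hη1 : η ≤ 1) (hBJ : J + 2 ≤ B)
    (hAJ : J + 2 ≤ A) {φ : ℝ → ℝ} (hφ : WK C η B φ) {α : Eis → ℂ} (h : FS α)
    (hg : ∀ x ∈ X, g x ≠ 0) (hW : ∀ x ∈ X, 0 ≤ W x) {M : ℝ} (hM0 : 0 ≤ M) (p : ℕ × ℕ)
    (hM : ∀ t, PG X W g l (tw2 p.1 p.2 α) t ≤ M * (1 + |t|) ^ J) (t : ℝ) :
    ∑ x ∈ X, W x * (∫ u, jb (A : ℝ) u *
        tgf (fun n => bt φ α p n * pw t (nm n)) (g x) (l x) u) ≤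
      C ^ 2 * iA B * iA 2 ^ 2 * (η⁻¹) ^ J * M * (1 + |t|) ^ J := by
  have hCi : 0 ≤ C ^ 2 * iA B := mul_nonneg (by positivity) (iA_nonneg B)
  have h2 := iA_nonneg 2
  have e1 : bt φ α p = wn φ (tw2 p.1 p.2 α) := (wn_tw2 φ p.1 p.2 α).symm
  have h1 := PG_win hC hη hη1 hBJ hφ (FS_tw2 h p.1 p.2) hg hW hM0 hM
  have h3 := PG_mean (X := X) (W := W) (g := g) (l := l) hAJ (FS_bt h φ p) hg hW
    (M := C ^ 2 * iA B * iA 2 * (η⁻¹) ^ J * M) (by positivity) (fun t => by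
      rw [e1]; exact h1 t) t
  refine h3.trans (le_of_eq ?_)
  ring

/-- pointwise version -/
theorem PG_bt {ι : Type} {X : Finset ι} {W : ι → ℝ} {g l : ι → Eis}
    {C η : ℝ} {B J : ℕ} (hC : 0 ≤ C) (hη : 0 < η) (hη1 : η ≤ 1) (hBJ : J + 2 ≤ B)
    {φ : ℝ → ℝ} (hφ : WK C η B φ) {α : Eis → ℂ} (h : FS α)
    (hg : ∀ x ∈ X, g x ≠ 0) (hW : ∀ x ∈ X, 0 ≤ W x) {M : ℝ} (hM0 : 0 ≤ M) (p : ℕ × ℕ)
    (hM : ∀ t, PG X W g l (tw2 p.1 p.2 α) t ≤ M * (1 + |t|) ^ J) (t : ℝ) :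
    PG X W g l (bt φ α p) t ≤ C ^ 2 * iA B * iA 2 * (η⁻¹) ^ J * M * (1 + |t|) ^ J := by
  have e1 : bt φ α p = wn φ (tw2 p.1 p.2 α) := (wn_tw2 φ p.1 p.2 α).symm
  rw [e1]
  exact PG_win hC hη hη1 hBJ hφ (FS_tw2 h p.1 p.2) hg hW hM0 hM t

/-! ### the admissible windows -/

lemma adm_bt {X' Y η : ℝ} {φ : ℝ → ℝ} (hφ : ∀ u, φ u ≠ 0 → |u - Real.log X'| ≤ η / 2)
    {α : Eis → ℂ} (hα : ∀ n, α n ≠ 0 → n ∈ S Y) (p : ℕ × ℕ) (t : ℝ) :
    Adm Y X' η (fun n => bt φ α p n * pw t (nm n)) where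
  sup := fun n hn => hα n (wn_ne (tw2_ne (left_ne_zero_of_mul hn))).1
  win := fun n hn => hφ _ (wn_ne (tw2_ne (left_ne_zero_of_mul hn))).2

lemma FS_of_S {Y : ℝ} (hY : 0 ≤ Y) {α : Eis → ℂ} (hα : ∀ n, α n ≠ 0 → n ∈ S Y) : FS α where
  fin := (S Y).finite_toSet.subset fun n hn => hα n hn
  prim := fun n hn => ((mem_S hY).1 (hα n hn)).2.1

/-! ### change of the scale -/

lemma lm_scale {K X X' r : ℝ} (hK : 0 < K) (hX : 0 < X) (hX' : 0 < X') (hr : 1 ≤ r)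
    (h : X' ≤ r * X) {d κ : Eis} : lm K X' d κ ≤ r * lm K X d κ := by
  unfold lm
  have h1 : (X' / nm d) ^ (2 / 3 : ℝ) ≤ r * (X / nm d) ^ (2 / 3 : ℝ) := by
    calc (X' / nm d) ^ (2 / 3 : ℝ) ≤ (r * (X / nm d)) ^ (2 / 3 : ℝ) := by
          apply Real.rpow_le_rpow (by positivity) _ (by norm_num)
          rw [← mul_div_assoc]
          gcongr
      _ = r ^ (2 / 3 : ℝ) * (X / nm d) ^ (2 / 3 : ℝ) :=
          Real.mul_rpow (by linarith) (by positivity)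
      _ ≤ r * (X / nm d) ^ (2 / 3 : ℝ) := by
          refine mul_le_mul_of_nonneg_right ?_ (by positivity)
          calc r ^ (2 / 3 : ℝ) ≤ r ^ (1 : ℝ) :=
                Real.rpow_le_rpow_of_exponent_le hr (by norm_num)
            _ = r := Real.rpow_one r
  have h2 : (0 : ℝ) ≤ (K * nm κ) ^ (-(1 / 3) : ℝ) := by positivity
  calc 3 * ((X' / nm d) ^ (2 / 3 : ℝ) * (K * nm κ) ^ (-(1 / 3) : ℝ)) ≤
        3 * ((r * (X / nm d) ^ (2 / 3 : ℝ)) * (K * nm κ) ^ (-(1 / 3) : ℝ)) := by gcongr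
    _ = _ := by ring

lemma min_scale {r a b c : ℝ} (hr : 1 ≤ r) (hc : 0 ≤ c) (h : a ≤ r * b) :
    min c a ≤ r * min c b := by
  rw [mul_min_of_nonneg _ _ (by linarith : (0 : ℝ) ≤ r)]
  exact min_le_min (by nlinarith) h

lemma exp_close {X X' R : ℝ} (hX : 0 < X) (hX' : 0 < X')
    (h : |Real.log X' - Real.log X| ≤ R) : X' ≤ Real.exp R * X := by
  have h1 := (abs_le.1 h).2
  calc X' = Real.exp (Real.log X') := (Real.exp_log hX').symm
    _ ≤ Real.exp (R + Real.log X) := Real.exp_le_exp.2 (by linarith)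
    _ = _ := by rw [Real.exp_add, Real.exp_log hX]

/-- the weights `lm` and `min c lm` under classes within a factor `9` -/
lemma lm_nine {K X : ℝ} (hK : 0 < K) (hX : 0 < X) {d r r' : Eis} (hd : d ≠ 0) (hr : r ≠ 0)
    (hr' : r' ≠ 0) (h : nm r' ≤ 9 * nm r) : lm K X d r ≤ 3 * lm K X d r' := by
  unfold lm
  have h1 := nmpos hr
  have h2 := nmpos hr'
  have h0 := nmpos hd
  have h3 : (nm r' : ℝ) ≤ 9 * nm r := by exact_mod_cast h
  have h4 : (K * nm r) ^ (-(1 / 3) : ℝ) ≤ 3 * (K * nm r') ^ (-(1 / 3) : ℝ) := by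
    have h5 : (27 * (K * nm r)) ^ (-(1 / 3) : ℝ) ≤ (K * nm r') ^ (-(1 / 3) : ℝ) := by
      apply Real.rpow_le_rpow_of_nonpos (by positivity)
      · nlinarith
      · norm_num
    rw [Real.mul_rpow (by norm_num) (by positivity)] at h5
    have h6 : (27 : ℝ) ^ (-(1 / 3) : ℝ) = 1 / 3 := by
      rw [show (27 : ℝ) = 3 ^ (3 : ℝ) by norm_num, ← Real.rpow_mul (by norm_num)]
      norm_num
    rw [h6] at h5
    linarith
  have h7 : (0 : ℝ) ≤ (X / nm d) ^ (2 / 3 : ℝ) := by positivity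
  calc 3 * ((X / nm d) ^ (2 / 3 : ℝ) * (K * nm r) ^ (-(1 / 3) : ℝ)) ≤
        3 * ((X / nm d) ^ (2 / 3 : ℝ) * (3 * (K * nm r') ^ (-(1 / 3) : ℝ))) := by gcongr
    _ = _ := by ring

end Crest.Agent.R017.RGw813
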