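import Crest.Agent.R017.XRG3_106

/-!
# Row 17, provider: the raw dual rule (P') in BG form (helper106), part 4

* `locL` : (P') for a list of pieces
* `core` : (P') with exponents, for a fixed parameter
-/

set_option autoImplicit false
set_option maxHeartbeats 6000000

noncomputable section

open Complex
open scoped ComplexConjugate

namespace Crest.Agent.R017.XRG106

open Crest.Agent.R012 Crest.Agent.R012.Eis Crest.Agent.R012.LS2
open Crest.Agent.R017.CM106 Crest.Agent.R017.FE47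
open Crest.Agent.R017.B770
open Crest.Agent.R017.Prov71
open Crest.Agent.R017.XG702
open Crest.Agent.R017.HP842 (UT pc)
open Crest.Agent.R017.XHB411 (tl near_sum sum_nl_eq_mass hbL_C EHB alL0 alL0_eq LL_pc ok_map
  one_le_map bl_neg)

/-- **(P') for a list of pieces** -/
theorem locL {h : ℝ → ℝ} {c : ℝ} (hpu : PU h c) {μ : ℝ} (hμ : 0 ≤ μ) (n : ℕ) {ε : ℝ}
    (hε : 0 < ε) :
    ∃ C : ℝ, 1 ≤ C ∧ ∀ (P : DPar), P.OK → ∀ ps : List Pq, ps.length ≤ n →
      (∀ p ∈ ps, 0 ≤ p.z) → ∀ X0 L a : ℝ, 1 ≤ X0 → 1 ≤ L → L ≤ X0 → 0 ≤ a →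
      Real.exp (tl Dq ps) ≤ X0 →
      (∀ (ps' : List Pq) (W : ℝ), 1 ≤ W → List.Forall₂ (Rl C W) ps' ps →
        RFp P h (Real.log (C * X0 ^ ε * Real.exp (tl Dq ps) ^ 2 / L)) ps' ≤
          a / L * Real.exp (tl Dq ps + tl Dq ps') * W ^ (2 * μ)) →
      Sp P h (Real.log L) ps ≤ C * X0 ^ ε * (L + a) * Real.exp (tl Dq ps) := by
  choose C hC H using fun r => locG hpu hμ r hε
  have hle : ∀ r ≤ n, C r ≤ ∑ r ∈ Finset.range (n + 1), C r := fun r hr =>
    Finset.single_le_sum (f := C) (fun i _ => by linarith [hC i]) (Finset.mem_range.2 (by omega))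
  refine ⟨∑ r ∈ Finset.range (n + 1), C r, (hC 0).trans (hle 0 (Nat.zero_le _)), ?_⟩
  intro P hP ps hlen hz X0 L a h1 h2 h3 h4 h5 hyp
  have e : List.ofFn ps.get = ps := List.ofFn_get ps
  have key := H ps.length _ (hle _ hlen) P hP ps.get (fun i => hz _ (List.get_mem _ _)) X0 L a
    h1 h2 h3 h4 (by rw [e]; exact h5)
  rw [e] at key
  refine key fun s' W hW hR => hyp (List.ofFn s') W hW ?_
  rw [List.forall₂_iff_get]
  refine ⟨by simp, fun i hi hi' => ?_⟩
  have := hR ⟨i, hi'⟩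
  simpa using this

/-- **(P') with exponents**, fixed parameter -/
theorem core {h : ℝ → ℝ} {c : ℝ} (hpu : PU h c) {P : DPar} (hP : P.OK) {κ : ℝ} {u : List ℝ}
    {m a E : ℝ} (hκ : 0 ≤ κ) (hu : Okl u m a) (hE : κ + (u.sum + m + a) ≤ E)
    {ε δ₁ δ₂ : ℝ} (hε : 0 < ε) (hδ₁ : 0 < δ₁) (hδ₂0 : 0 < δ₂) (hδ₂ : δ₂ ≤ 1)
    (hd1 : (2 * (u.length : ℝ) + 8) * δ₁ ≤ δ₂ / 4) (hd2 : (2 * (u.length : ℝ) + 8) * δ₁ ≤ ε / 8)
    (hloc : ∀ (N : ℕ) (B : ℝ), ∃ δ' : ℝ, 0 < δ' ∧ ∃ X₀ : ℝ, 1 < X₀ ∧ ∀ X : ℝ, X₀ ≤ X →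
      ∀ (k : ℝ) (us gs : List Pq) (u' : List ℝ) (m' a' : ℝ), Shl u' u → 0 ≤ m' → m' ≤ m →
        0 ≤ a' → a' ≤ a → |k - (2 * (u.sum + m + a) - κ)| ≤ δ₂ → Dq.Near X δ₂ us u' →
        Dq.Gran X δ₂ N gs (wt m' a') → Dq.Good X δ' B (us ++ gs) →
        RFp P h (k * Real.log X) (us ++ gs) ≤ X ^ (E - κ + (u'.sum + m' + a') + ε / 8))
    (N : ℕ) (B : ℝ) :
    ∃ δ' : ℝ, 0 < δ' ∧ ∃ X₀ : ℝ, 1 < X₀ ∧ ∀ X : ℝ, X₀ ≤ X → ∀ (k : ℝ) (us gs : List Pq),
      |k - κ| ≤ δ₁ → Dq.Near X δ₁ us u → Dq.Gran X δ₁ N gs (wt m a) →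
        Dq.Good X δ' B (us ++ gs) → Sp P h (k * Real.log X) (us ++ gs) ≤ X ^ (E + ε) := by
  have hus : 0 ≤ u.sum := List.sum_nonneg hu.1
  have hm := hu.2.1
  have ha := hu.2.2
  set n : ℝ := u.sum + m + a with hn
  have hn0 : 0 ≤ n := by linarith
  set v : ℝ := (u.length : ℝ) with hv
  have hv0 : 0 ≤ v := Nat.cast_nonneg _
  have hvd : 0 ≤ v * δ₁ := by positivity
  have hvd1 : 2 * (v * δ₁) + 8 * δ₁ ≤ δ₂ / 4 := by linarith
  have hvd2 : 2 * (v * δ₁) + 8 * δ₁ ≤ ε / 8 := by linarith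
  clear hd1 hd2
  set b : ℝ := κ + n + 3 with hb
  have hb0 : 0 < b := by linarith
  set ε3 : ℝ := min (δ₂ / 4) (ε / 8) / b with hε3
  have hmin : 0 < min (δ₂ / 4) (ε / 8) := lt_min (by linarith) (by linarith)
  have hε30 : 0 < ε3 := by positivity
  have hbε : b * ε3 = min (δ₂ / 4) (ε / 8) := by rw [hε3]; field_simp
  have hbε0 : 0 ≤ b * ε3 := by positivity
  have hbε1 : b * ε3 ≤ δ₂ / 4 := by rw [hbε]; exact min_le_left _ _
  have hbε2 : b * ε3 ≤ ε / 8 := by rw [hbε]; exact min_le_right _ _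
  obtain ⟨δ', hδ', X₀, hX₀, H⟩ := hloc N (|B| + b + 1)
  set η : ℝ := δ' / 2 with hη
  have hη0 : 0 < η := by positivity
  set b2 : ℝ := 3 * n + 3 with hb2
  set μ : ℝ := (3 * b2 + 1) / δ' with hμd
  have hμ : 0 ≤ μ := by positivity
  have hμη : η * (2 * μ) = 3 * b2 + 1 := by rw [hη, hμd]; field_simp
  obtain ⟨C, hC, HL⟩ := locL hpu hμ (u.length + N) hε30
  obtain ⟨C2, hC2, HT⟩ := triv_RFp hpu (u.length + N)
  set q : ℝ := ((u.length : ℝ) + N + 1) * C with hq
  have hq0 : 0 < q := by positivity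
  obtain ⟨X₁, hX₁⟩ := Filter.eventually_atTop.1
    (((Real.tendsto_log_atTop.eventually_ge_atTop (4 * q / δ₂)).and
      (Filter.eventually_ge_atTop (max C C2))).and
      ((tendsto_rpow_atTop (by positivity : 0 < ε / 8)).eventually_ge_atTop (2 * C)))
  refine ⟨η, hη0, max X₀ (max X₁ 2), lt_of_lt_of_le hX₀ (le_max_left _ _), ?_⟩
  intro X hX k us gs hk hnear hgran hgood
  have hXX0 : X₀ ≤ X := (le_max_left _ _).trans hX
  obtain ⟨⟨hlogX, hXC⟩, hXe⟩ := hX₁ X (((le_max_left _ _).trans (le_max_right _ _)).trans hX)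
  have hX1 : 1 < X := by linarith
  have hXp : 0 < X := by linarith
  have hXC1 : C ≤ X := (le_max_left _ _).trans hXC
  have hXC2 : C2 ≤ X := (le_max_right _ _).trans hXC
  have hl : 0 < Real.log X := Real.log_pos hX1
  have hk1 := abs_le.1 hk
  rcases lt_or_ge k 0 with hk0 | hk0
  · unfold Sp SK
    rw [bl_neg (mul_neg_of_neg_of_pos hk0 hl), Finset.sum_empty]
    positivity
  set cl : ℝ := C / Real.log X with hcl
  have hcl0 : 0 ≤ cl := by positivity
  have hqcl : ((u.length : ℝ) + N + 1) * cl ≤ δ₂ / 4 := by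
    have e1 : ((u.length : ℝ) + N + 1) * cl = q / Real.log X := by rw [hcl, hq]; ring
    rw [e1, div_le_iff₀ hl]
    have h1 : 4 * q / δ₂ ≤ Real.log X := hlogX
    rw [div_le_iff₀ hδ₂0] at h1
    linarith
  have hN0 : (0 : ℝ) ≤ N := Nat.cast_nonneg _
  have hvcl : 0 ≤ v * cl := by positivity
  have hNcl : 0 ≤ N * cl := by positivity
  have hqcl' : v * cl + N * cl + cl ≤ δ₂ / 4 := by linarith
  set ps : List Pq := us ++ gs with hps
  have hlenus : us.length = u.length := Near_length hnear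
  have hlen : ps.length ≤ u.length + N := by
    rw [hps, List.length_append, hlenus]
    exact Nat.add_le_add_left hgran.1 _
  have hz : ∀ p ∈ ps, 0 ≤ p.z := fun p hp => (hgood p hp).2.2
  set nX : ℝ := nls X ps with hnX
  have hnX0 : 0 ≤ nX := nls_nonneg hl hz
  have hn1 : |nls X us - u.sum| ≤ v * δ₁ := near_sum hnear
  have hn1' := abs_le.1 hn1
  have hn2 := abs_le.1 (hgran.2.2 .mo)
  have hn3 := abs_le.1 (hgran.2.2 .am)
  have e1 : nX = nls X us + (Dq.mass X gs .mo + Dq.mass X gs .am) := by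
    rw [hnX, hps, nls_append, nls_gran gs]
  have ew1 : wt m a .mo = m := rfl
  have ew2 : wt m a .am = a := rfl
  rw [ew1] at hn2
  rw [ew2] at hn3
  have hnXu : nX ≤ n + v * δ₁ + 2 * δ₁ := by rw [e1, hn]; linarith [hn1'.2, hn2.2, hn3.2]
  have hnXl : n - v * δ₁ - 2 * δ₁ ≤ nX := by rw [e1, hn]; linarith [hn1'.1, hn2.1, hn3.1]
  -- parameters
  set L : ℝ := X ^ k with hL
  have hL1 : 1 ≤ L := Real.one_le_rpow hX1.le hk0
  have hLlog : Real.log L = k * Real.log X := Real.log_rpow hXp k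
  have htl : tl Dq ps = nX * Real.log X := tl_nls hX1 ps
  have hexp : Real.exp (tl Dq ps) = X ^ nX := by rw [htl, exp_mul_log hXp]
  set ea : ℝ := E - n + ε / 8 + v * δ₁ + 4 * δ₁ with hea
  have key := HL P hP ps hlen hz (X ^ b) L (X ^ ea) (Real.one_le_rpow hX1.le hb0.le) hL1
    (Real.rpow_le_rpow_of_exponent_le hX1.le (by linarith)) (by positivity)
    (by rw [hexp]; exact Real.rpow_le_rpow_of_exponent_le hX1.le (by linarith)) ?_
  · rw [hLlog] at key
    refine key.trans ?_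
    rw [hexp, ← Real.rpow_mul hXp.le]
    have f1 : X ^ k * X ^ nX ≤ X ^ (E + ε / 4) := by
      rw [← Real.rpow_add hXp]
      exact Real.rpow_le_rpow_of_exponent_le hX1.le (by linarith)
    have f2 : X ^ ea * X ^ nX ≤ X ^ (E + ε / 4) := by
      rw [← Real.rpow_add hXp]
      refine Real.rpow_le_rpow_of_exponent_le hX1.le ?_
      rw [hea]; linarith
    have f3 : X ^ (b * ε3) ≤ X ^ (ε / 8) := Real.rpow_le_rpow_of_exponent_le hX1.le hbε2
    calc C * X ^ (b * ε3) * (L + X ^ ea) * X ^ nX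
        = C * X ^ (b * ε3) * (X ^ k * X ^ nX + X ^ ea * X ^ nX) := by rw [hL]; ring
      _ ≤ C * X ^ (ε / 8) * (X ^ (E + ε / 4) + X ^ (E + ε / 4)) := by gcongr
      _ = (2 * C) * (X ^ (ε / 8) * X ^ (E + ε / 4)) := by ring
      _ ≤ X ^ (ε / 8) * (X ^ (ε / 8) * X ^ (E + ε / 4)) := by gcongr
      _ = X ^ (E + ε / 2) := by
          rw [← Real.rpow_add hXp, ← Real.rpow_add hXp]; congr 1; ring
      _ ≤ X ^ (E + ε) := Real.rpow_le_rpow_of_exponent_le hX1.le (by linarith)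
  -- the children
  intro ps' W hW hR
  set k' : ℝ := Real.log C / Real.log X + b * ε3 + 2 * nX - k with hk'
  have hlogC0 : 0 ≤ Real.log C / Real.log X := div_nonneg (Real.log_nonneg hC) hl.le
  have hlogC : Real.log C / Real.log X ≤ cl := by
    rw [hcl]
    refine div_le_div_of_nonneg_right ?_ hl.le
    have := Real.log_le_sub_one_of_pos (by linarith : 0 < C)
    linarith
  have ek' : Real.log (C * (X ^ b) ^ ε3 * Real.exp (tl Dq ps) ^ 2 / L) = k' * Real.log X := by
    have e2 : C = X ^ (Real.log C / Real.log X) := by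
      rw [← exp_mul_log hXp, div_mul_cancel₀ _ hl.ne', Real.exp_log (by linarith)]
    have e3 : C * (X ^ b) ^ ε3 * Real.exp (tl Dq ps) ^ 2 / L = X ^ k' := by
      rw [hexp, ← Real.rpow_mul hXp.le, ← Real.rpow_natCast, ← Real.rpow_mul hXp.le, hL, hk',
        Real.rpow_sub hXp, Real.rpow_add hXp, Real.rpow_add hXp, ← e2]
      congr 2
      congr 1
      push_cast; ring
    rw [e3, Real.log_rpow hXp]
  rw [ek']
  have hkk : |k' - (2 * n - κ)| ≤ δ₂ := by
    rw [abs_le, hk']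
    constructor <;> linarith
  have hkk' := abs_le.1 hkk
  set n' : ℝ := nls X ps' with hn'
  have hlen' : ps'.length = ps.length := hR.length_eq
  have hz' : ∀ p ∈ ps', 0 ≤ p.z := by
    intro p hp
    obtain ⟨i, hi, rfl⟩ := List.mem_iff_getElem.1 hp
    exact ((List.forall₂_iff_get.1 hR).2 i hi (hlen' ▸ hi)).z0
  have hn'0 : 0 ≤ n' := nls_nonneg hl hz'
  have hn'u : n' ≤ nX + (v * cl + N * cl) := by
    refine (nls_child hl hR).trans ?_
    have h1 : (ps.length : ℝ) ≤ v + N := by rw [hv]; exact_mod_cast hlen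
    have h2 : (ps.length : ℝ) * cl ≤ (v + N) * cl := by gcongr
    linarith
  have htl' : tl Dq ps' = n' * Real.log X := tl_nls hX1 ps'
  have eR : X ^ ea / L * Real.exp (tl Dq ps + tl Dq ps') = X ^ (ea - k + nX + n') := by
    rw [htl, htl', ← add_mul, exp_mul_log hXp, hL, ← Real.rpow_sub hXp, ← Real.rpow_add hXp]
    congr 1; ring
  rw [eR]
  have hEn : n ≤ E - κ := by linarith
  by_cases hW2 : W ≤ X ^ η
  · -- small heights
    have hW3 : 1 ≤ W ^ (2 * μ) := Real.one_le_rpow hW (by positivity)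
    have hsplit : ps' = ps'.take us.length ++ ps'.drop us.length := (List.take_append_drop _ _).symm
    have hR1 : List.Forall₂ (Rl C W) (ps'.take us.length) us := by
      have := List.forall₂_take us.length hR
      rwa [hps, List.take_left] at this
    have hR2 : List.Forall₂ (Rl C W) (ps'.drop us.length) gs := by
      have := List.forall₂_drop us.length hR
      rwa [hps, List.drop_left] at this
    obtain ⟨u', s1, s2, s3⟩ := near_child (δ₂ := δ₂) hl hδ₂0.le (by linarith) hnear hu.1 hR1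
    obtain ⟨m', a', t1, t2, t3, t4, t5, t6⟩ := gran_child (δ₂ := δ₂) hl (by linarith : 0 ≤ C)
      hδ₂0.le (N := N) (by
        have : ((N : ℝ) + 1) * (C / Real.log X) = N * cl + cl := by rw [hcl]; ring
        rw [this]; linarith) hm ha hgran hR2
    have hgc : Dq.Good X δ' (|B| + b + 1) ps' := by
      refine good_child hX1 (by linarith : 0 ≤ C) hgood hR hW2 (by rw [hη]; linarith)
        (b := b) (by linarith) ?_
      calc C * X ^ (B + b) ≤ X * X ^ (|B| + b) := by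
            have : B + b ≤ |B| + b := by linarith [le_abs_self B]
            have h3 := Real.rpow_le_rpow_of_exponent_le hX1.le this
            gcongr
        _ = X ^ (|B| + b + 1) := by rw [Real.rpow_add_one hXp.ne']; ring
    have h5 := H X hXX0 k' (ps'.take us.length) (ps'.drop us.length) u' m' a' s1 t1 t2 t3 t4 hkk
      s2 t5 (by rw [← hsplit]; exact hgc)
    rw [← hsplit] at h5
    have hn'2 : u'.sum + m' + a' ≤ n' := by
      have : n' = nls X (ps'.take us.length) + nls X (ps'.drop us.length) := by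
        rw [hn', ← nls_append, ← hsplit]
      rw [this]; linarith
    refine h5.trans ?_
    calc X ^ (E - κ + (u'.sum + m' + a') + ε / 8) ≤ X ^ (ea - k + nX + n') := by
          refine Real.rpow_le_rpow_of_exponent_le hX1.le ?_
          rw [hea]; linarith [hk1.2]
      _ = X ^ (ea - k + nX + n') * 1 := (mul_one _).symm
      _ ≤ _ := by gcongr
  · -- large heights
    push Not at hW2
    have h5 := HT P hP (k' * Real.log X) ps' (by rw [hlen']; exact hlen) hz'
    refine h5.trans ?_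
    have h6 : max (k' * Real.log X) 0 ≤ (2 * n + 1) * Real.log X := by
      refine max_le ?_ (by positivity)
      exact mul_le_mul_of_nonneg_right (by linarith [hkk'.2]) hl.le
    have h7 : Real.exp (3 * (max (k' * Real.log X) 0 + tl Dq ps')) ≤ X ^ (3 * b2) := by
      rw [← exp_mul_log hXp]
      refine Real.exp_le_exp.2 ?_
      rw [htl']
      have h8 : n' * Real.log X ≤ (n + 1) * Real.log X :=
        mul_le_mul_of_nonneg_right (by linarith) hl.le
      rw [hb2]
      nlinarith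
    have h8 : X ^ (3 * b2 + 1) ≤ W ^ (2 * μ) := by
      rw [← hμη, Real.rpow_mul hXp.le]
      exact Real.rpow_le_rpow (by positivity) hW2.le (by positivity)
    have h9 : 1 ≤ X ^ (ea - k + nX + n') := by
      refine Real.one_le_rpow hX1.le ?_
      rw [hea]; linarith [hk1.2]
    calc C2 * Real.exp (3 * (max (k' * Real.log X) 0 + tl Dq ps'))
        ≤ X * X ^ (3 * b2) := by gcongr
      _ = X ^ (3 * b2 + 1) := by rw [Real.rpow_add_one hXp.ne']; ring
      _ ≤ W ^ (2 * μ) := h8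
      _ ≤ X ^ (ea - k + nX + n') * W ^ (2 * μ) := le_mul_of_one_le_left (by positivity) h9

end Crest.Agent.R017.XRG106
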