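import Crest.Agent.R017.NtC4_320
import Crest.Agent.R017.XRG4_106
import Crest.Agent.R017.MoF2_106
import Crest.Agent.R017.RGwD_813

/-!
# Row 17, E3/E2 for RG and P1: c-side moments of subsequences in terms of natural lists (helper571)

* `Below`   : an index of 571's family of all sides, below a list of pieces
* `grand`   : squarefree moment of a child index → complete families of the lists (after 106's `locG`)
* `natG`    : the moments of `m ↦ [e ∣ m] [(m, π) = 1] al (δ m) nm m ^ (-s0 + i t)`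
-/

set_option autoImplicit false
set_option maxHeartbeats 400000

noncomputable section

open Complex
open scoped ComplexConjugate

namespace Crest.Agent.R017.R3571

open Crest.Agent.R012 Crest.Agent.R012.Eis Crest.Agent.R012.LS2 Crest.Agent.R012.Gauss880
open Crest.Agent.R012.PSer47 (IsChar)
open Crest.Agent.R012.Div277 Crest.Agent.R012.Weight600
open Crest.Agent.R017.CM106 Crest.Agent.R017.FE47
open Crest.Agent.R017.B770
open Crest.Agent.R017.Prov71
open Crest.Agent.R017.HP842 (UT Pc pc KS sqc Th alL al ssub pc_support sq_nat_pc)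
open Crest.Agent.R017.TPOk571 (IP FP SD SD_w SD_len SD_ht sd_ok relU)
open Crest.Agent.R017.TP320 (Fam tw)
open Crest.Agent.R017.XHB411 (tl)
open Crest.Agent.R017.XRG106 (Rl RFp ip chd chd_pc tl_ofFn CS_al RFp_ofFn one_add_mul exists_rep
  rep CS_eq_zero)
open Crest.Agent.R017.NtC320 (gC gC_ne gC_fin MulCh)

variable {r : ℕ}

/-- an index below a list of pieces -/
structure Below (P : DPar) (ρ : ℝ) (j : Fin r → IP) (s : Fin r → Pq) : Prop where
  z : ∀ i, (j i).z ≤ (s i).z + ρ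
  t0 : ∀ i, (j i).t0 = (s i).t
  ψ : ∀ i, (j i).ψ.1 = ((s i).pc P).ψ
  one : ∀ i, (s i).u = .one → (j i).u = .one

/-- the product of the heights -/
def Wt (j : Fin r → IP) : ℝ := ∏ i, (1 + |(j i).s|)

lemma one_le_Wt (j : Fin r → IP) : 1 ≤ Wt j :=
  Finset.one_le_prod fun i _ => by linarith [abs_nonneg (j i).s]

lemma le_Wt (j : Fin r → IP) (i : Fin r) : 1 + |(j i).s| ≤ Wt j := by
  unfold Wt
  rw [← Finset.mul_prod_erase _ _ (Finset.mem_univ i)]
  refine le_mul_of_one_le_right (by linarith [abs_nonneg (j i).s]) ?_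
  exact Finset.one_le_prod fun i _ => by linarith [abs_nonneg (j i).s]

lemma ht_sq (h : ℝ → ℝ) (μ : ℝ) (j : Fin r → IP) :
    (SD h μ r).ht j ^ 2 = Wt j ^ (2 * μ) := by
  have h1 := one_le_Wt j
  rw [SD_ht, Real.finsetProd_rpow _ _ fun i _ => by linarith [abs_nonneg (j i).s]]
  show (Wt j ^ μ) ^ 2 = _
  rw [← Real.rpow_natCast, ← Real.rpow_mul (by linarith)]
  congr 1
  push_cast; ring

/-- **child indices → natural lists** -/
theorem grand {h : ℝ → ℝ} {c : ℝ} (hpu : PU h c) (μ : ℝ) (r : ℕ) {ρ : ℝ}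
    (hρ : 0 ≤ ρ) {ε : ℝ} (hε : 0 < ε) :
    ∃ C : ℝ, 1 ≤ C ∧ ∀ C' : ℝ, C ≤ C' → ∀ (P : DPar), P.OK → ∀ s : Fin r → Pq,
      (∀ i, 0 ≤ (s i).z) → ∀ j : Fin r → IP, Below P ρ j s → ∀ q' : Eis, q' ≠ 0 →
      ∀ X0 Λ B : ℝ, 1 ≤ X0 → (∀ i, Real.exp (s i).z ≤ X0) → 0 < Λ → 0 ≤ B →
      ∀ Ks : Finset Eis, (∀ κ ∈ Ks, κ ∈ bl Λ) →
      (∀ (s' : Fin r → Pq) (W : ℝ), 1 ≤ W → (∀ i, Rl C' W (s' i) (s i)) →
        tl Dq (List.ofFn s') ≤ ∑ i, (j i).z + C' →
        RFp P h (Real.log Λ) (List.ofFn s') ≤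
          B * Real.exp (tl Dq (List.ofFn s')) * W ^ (2 * μ)) →
      ∑ κ ∈ Ks, ‖CS (sqc q' (al h (fun i => (j i).pc))) κ‖ ^ 2 ≤
        C' * (nm q' : ℝ) ^ ε * X0 ^ ε * (B * Real.exp (∑ i, (j i).z) * Wt j ^ (2 * μ)) := by
  classical
  obtain ⟨R, hR0, hR⟩ := exists_R (cs_cx hpu.cs)
  obtain ⟨T, C1, hC1, hT, hrep⟩ := exists_rep hpu hR
  obtain ⟨C3, hC3, hS⟩ := sq_nat_pc r hR0 hε
  set Kr : ℝ := (C1 ^ 2) ^ r * Real.exp (r * (R + C1)) with hKr
  have hKr1 : 1 ≤ Kr := by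
    refine one_le_mul_of_one_le_of_one_le (one_le_pow₀ (one_le_pow₀ hC1)) ?_
    exact Real.one_le_exp (by positivity)
  have hE1 : 1 ≤ Real.exp ρ := Real.one_le_exp hρ
  have hE2 : 1 ≤ Real.exp R := Real.one_le_exp hR0
  have hEe : 1 ≤ Real.exp ρ ^ ε := Real.one_le_rpow hE1 hε.le
  have hr0 : (0 : ℝ) ≤ r := Nat.cast_nonneg r
  have hrR : 0 ≤ r * (R + C1) := by positivity
  have hK0 : 1 ≤ C3 * Real.exp ρ ^ ε * Kr :=
    one_le_mul_of_one_le_of_one_le (one_le_mul_of_one_le_of_one_le hC3 hEe) hKr1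
  refine ⟨C3 * Real.exp ρ ^ ε * Kr + (ρ + R + C1) + Real.exp ρ * Real.exp R + r * (R + C1), ?_, ?_⟩
  · have : 0 ≤ Real.exp ρ * Real.exp R := by positivity
    linarith
  intro C' hC' P hP s hs j hj q' hq' X0 Λ B hX0 hsX hΛ0 hB Ks hKs hyp
  have hEE : 1 ≤ Real.exp ρ * Real.exp R := one_le_mul_of_one_le_of_one_le hE1 hE2
  have hC'a : C3 * Real.exp ρ ^ ε * Kr ≤ C' := by linarith
  have hC'b : ρ + C1 ≤ C' := by linarith
  have hC'c : Real.exp ρ * Real.exp R ≤ C' := by linarith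
  have hC'd : r * (R + C1) ≤ C' := by linarith
  have hC'0 : 1 ≤ C' := by linarith
  have hX00 : 0 < X0 := by linarith
  set W : ℝ := Wt j with hW
  have hW1 : 1 ≤ W := one_le_Wt j
  have hWi : ∀ i, 1 + |(j i).s| ≤ W := le_Wt j
  have hW0 : 0 < W := by linarith
  have eVC : ∑ κ ∈ Ks, ‖CS (sqc q' (al h (fun i => (j i).pc))) κ‖ ^ 2 =
      ∑ k ∈ Ks, (1 : ℝ) * ‖CS (sqc q' (al h (fun i => (j i).pc))) k‖ ^ 2 :=
    Finset.sum_congr rfl fun k _ => (one_mul _).symm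
  rw [eVC]
  set B1 : ℝ := B * W ^ (2 * μ) * Kr with hB1
  have hB10 : 0 ≤ B1 := by positivity
  have key2 := hS h hR (Fin r) (by simp) (fun i => (j i).pc) (fun i => (j i).pc_OK)
    (Real.exp ρ * X0) (one_le_mul_of_one_le_of_one_le hE1 hX0) (fun i => by
      show Real.exp (j i).z ≤ _
      calc Real.exp (j i).z ≤ Real.exp ((s i).z + ρ) := Real.exp_le_exp.2 (hj.z i)
        _ = Real.exp (s i).z * Real.exp ρ := Real.exp_add _ _
        _ ≤ X0 * Real.exp ρ := by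
            have := hsX i
            gcongr
        _ = _ := mul_comm _ _) q' hq' Ks (fun _ => 1) (fun _ _ => zero_le_one) B1 hB10 ?_
  · refine key2.trans ?_
    have e1 : ∏ i, ((j i).pc).Y = Real.exp (∑ i, (j i).z) := by
      rw [Real.exp_sum]
      rfl
    rw [e1]
    have h7 : (Real.exp ρ * X0) ^ ε = Real.exp ρ ^ ε * X0 ^ ε :=
      Real.mul_rpow (Real.exp_pos _).le hX00.le
    rw [h7]
    have hp : 0 ≤ (nm q' : ℝ) ^ ε * X0 ^ ε * (B * Real.exp (∑ i, (j i).z) * W ^ (2 * μ)) := by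
      positivity
    calc C3 * (nm q' : ℝ) ^ ε * (Real.exp ρ ^ ε * X0 ^ ε) * (B1 * Real.exp (∑ i, (j i).z))
        = (C3 * Real.exp ρ ^ ε * Kr) * ((nm q' : ℝ) ^ ε * X0 ^ ε *
          (B * Real.exp (∑ i, (j i).z) * W ^ (2 * μ))) := by rw [hB1]; ring
      _ ≤ C' * ((nm q' : ℝ) ^ ε * X0 ^ ε *
          (B * Real.exp (∑ i, (j i).z) * W ^ (2 * μ))) := mul_le_mul_of_nonneg_right hC'a hp
      _ = _ := by ring
  -- the grandchildren
  intro b hb
  have hb0 : ∀ i, b i ≠ 0 := fun i => (hb i).ne_zero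
  set g : Fin r → Pq := fun i => (chd (s i) (j i)).sub (b i) (hb0 i) with hg
  have hgz : ∀ i, (g i).z = (j i).z - Real.log (nm (b i)) := fun i => rfl
  have hlogb : ∀ i, 0 ≤ Real.log (nm (b i)) := fun i =>
    Real.log_nonneg (by exact_mod_cast nm_pos.2 (hb0 i))
  have hgpc : ∀ i, (g i).pc P = ((j i).pc).sub (b i) := by
    intro i
    have hψ : (j i).ψ = (ip hP (s i)).ψ := Subtype.ext (hj.ψ i)
    rw [← chd_pc hP hψ]
    exact HP842.Pq_sub_pc P _ (hb0 i)
  have e2 : ssub (fun i => (j i).pc) b = fun i => (g i).pc P := by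
    funext i
    rw [hgpc]
    rfl
  have hh : Bump h := ⟨R, hR⟩
  have hY : ∏ i, (ssub (fun i => (j i).pc) b i).Y = ∏ i, Real.exp (g i).z := by
    rw [e2]
    rfl
  rw [hY, e2]
  have hr0' : 0 ≤ B1 * ∏ i, Real.exp (g i).z :=
    mul_nonneg hB10 (Finset.prod_nonneg fun i _ => (Real.exp_pos _).le)
  by_cases hneg : ∃ i, (g i).z < -R
  · obtain ⟨i, hi⟩ := hneg
    rw [Finset.sum_eq_zero]
    · exact hr0'
    intro k _
    rw [CS_al hh hP, Finset.prod_eq_zero (Finset.mem_univ i) (CS_eq_zero hR hP hi k)]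
    simp
  push Not at hneg
  have hRl : ∀ i, Rl C' W (rep T (g i)) (s i) := by
    intro i
    have hd1 : (1 : ℝ) ≤ nm (s i).d := by exact_mod_cast nm_pos.2 (s i).d0
    have hz1 : 1 ≤ Real.exp (s i).z := Real.one_le_exp (hs i)
    unfold rep
    by_cases hz : (g i).z < 0
    · rw [if_pos hz]
      obtain ⟨t1, t2, t3, t4, t5, t6⟩ := hT (g i).kd
      refine ⟨t1, fun _ => t2, t3, ?_, ?_, ?_⟩
      · linarith [hs i]
      · rw [t5, abs_zero, add_zero]
        exact one_le_mul_of_one_le_of_one_le hW1 (by linarith [abs_nonneg (s i).t])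
      · refine t6.trans ?_
        have : C1 ≤ C' := by linarith
        calc C1 ≤ C' * 1 * 1 := by linarith
          _ ≤ C' * nm (s i).d * Real.exp (s i).z := by gcongr
    · rw [if_neg hz]
      push Not at hz
      refine ⟨rfl, fun h1 => ?_, hz, ?_, ?_, ?_⟩
      · have h2 : (j i).u = .one := hj.one i h1
        show ((j i).u).sub (b i) = .one
        rw [h2]
        unfold HP842.UT.sub
        rw [if_neg]
        rintro ⟨h3, _⟩
        exact absurd h3 (by decide)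
      · rw [hgz]
        linarith [hj.z i, hlogb i]
      · show 1 + |(j i).t0 + (j i).s| ≤ _
        rw [hj.t0]
        exact one_add_mul (hWi i)
      · have h3 : (nm (g i).d : ℝ) ≤ nm (s i).d * nm (b i) := by
          have hb1 : (1 : ℝ) ≤ nm (b i) := by exact_mod_cast nm_pos.2 (hb0 i)
          have e5 : (g i).d = if (j i).u = .mu ∨ (j i).u = .sq then (s i).d * b i else (s i).d := by
            rfl
          rw [e5]
          split_ifs
          · rw [nm_mul]; push_cast; exact le_rfl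
          · exact le_mul_of_one_le_right (Nat.cast_nonneg _) hb1
        have h4 : (nm (b i) : ℝ) ≤ Real.exp ρ * Real.exp (s i).z := by
          have hbp : (0 : ℝ) < nm (b i) := by exact_mod_cast nm_pos.2 (hb0 i)
          rw [← Real.exp_add, ← Real.exp_log hbp]
          refine Real.exp_le_exp.2 ?_
          rw [hgz] at hz
          linarith [hj.z i]
        have h5 : Real.exp ρ ≤ C' := by
          refine le_trans ?_ hC'c
          exact le_mul_of_one_le_right (Real.exp_pos _).le hE2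
        calc (nm (g i).d : ℝ) ≤ nm (s i).d * nm (b i) := h3
          _ ≤ nm (s i).d * (Real.exp ρ * Real.exp (s i).z) := by gcongr
          _ ≤ nm (s i).d * (C' * Real.exp (s i).z) := by gcongr
          _ = _ := by ring
  have h9 : tl Dq (List.ofFn fun i => rep T (g i)) ≤ (∑ i, (g i).z) + r * (R + C1) := by
    rw [tl_ofFn]
    calc ∑ i, (rep T (g i)).z ≤ ∑ i, ((g i).z + (R + C1)) := by
          refine Finset.sum_le_sum fun i _ => ?_
          unfold rep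
          by_cases hz : (g i).z < 0
          · rw [if_pos hz]
            have := (hT (g i).kd).2.2.2.1
            linarith [hneg i]
          · rw [if_neg hz]
            linarith
      _ = _ := by
          rw [Finset.sum_add_distrib, Finset.sum_const, Finset.card_univ, Fintype.card_fin,
            nsmul_eq_mul]
  have h10 : ∑ i, (g i).z ≤ ∑ i, (j i).z :=
    Finset.sum_le_sum fun i _ => by rw [hgz]; linarith [hlogb i]
  have h8 := hyp (fun i => rep T (g i)) W hW1 hRl (by linarith)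
  rw [RFp_ofFn _ hΛ0] at h8
  calc ∑ k ∈ Ks, (1 : ℝ) * ‖CS (al h fun i => (g i).pc P) k‖ ^ 2
      ≤ ∑ k ∈ Ks, (C1 ^ 2) ^ r * ∏ i, ‖CS (pc h ((rep T (g i)).pc P)) k‖ ^ 2 := by
        refine Finset.sum_le_sum fun k _ => ?_
        rw [one_mul, CS_al hh hP, norm_prod, ← Finset.prod_pow]
        calc ∏ i, ‖CS (pc h ((g i).pc P)) k‖ ^ 2
            ≤ ∏ i, (C1 ^ 2 * ‖CS (pc h ((rep T (g i)).pc P)) k‖ ^ 2) := by
              refine Finset.prod_le_prod (fun i _ => by positivity) fun i _ => ?_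
              rw [← mul_pow]
              exact pow_le_pow_left₀ (norm_nonneg _) (hrep P hP (g i) k) 2
          _ = _ := by
              rw [Finset.prod_mul_distrib, Finset.prod_const, Finset.card_univ, Fintype.card_fin]
    _ = (C1 ^ 2) ^ r * ∑ k ∈ Ks, ∏ i, ‖CS (pc h ((rep T (g i)).pc P)) k‖ ^ 2 := by
        rw [Finset.mul_sum]
    _ ≤ (C1 ^ 2) ^ r * ∑ k ∈ bl Λ, ∏ i, ‖CS (pc h ((rep T (g i)).pc P)) k‖ ^ 2 := by
        refine mul_le_mul_of_nonneg_left ?_ (by positivity)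
        exact Finset.sum_le_sum_of_subset_of_nonneg hKs fun _ _ _ =>
          Finset.prod_nonneg fun _ _ => by positivity
    _ ≤ (C1 ^ 2) ^ r * (B * Real.exp (tl Dq (List.ofFn fun i => rep T (g i))) *
          W ^ (2 * μ)) := by gcongr
    _ ≤ (C1 ^ 2) ^ r * (B * Real.exp ((∑ i, (g i).z) + r * (R + C1)) *
          W ^ (2 * μ)) := by gcongr
    _ = B1 * ∏ i, Real.exp (g i).z := by
        rw [hB1, hKr, ← Real.exp_sum, Real.exp_add]
        ring

/-! ### reduction to the family -/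

/-- the kernel -/
def cR (N κ b : Eis) : ℂ := by
  classical exact if IsPrim b then Th N b * sy κ b else 0

lemma cR_ne {N κ b : Eis} (h : cR N κ b ≠ 0) : IsPrim b ∧ Squarefree b ∧ IsCoprime b N := by
  unfold cR at h
  split_ifs at h with hb
  · have h1 : Th N b ≠ 0 := left_ne_zero_of_mul h
    unfold Th at h1
    split_ifs at h1 with h2
    · exact ⟨hb, h2⟩
    · exact absurd rfl h1
  · exact absurd rfl h

lemma norm_Th_le (q n : Eis) : ‖Th q n‖ ≤ 1 := by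
  unfold Th
  split_ifs <;> simp

open Classical in
lemma Th_cop (q π n : Eis) :
    (if IsCoprime n π then Th q n else 0) = Th (q * π) n := by
  classical
  unfold Th
  have h : IsCoprime n (q * π) ↔ IsCoprime n q ∧ IsCoprime n π := IsCoprime.mul_right_iff
  by_cases h1 : IsCoprime n π
  · rw [if_pos h1]
    by_cases h2 : Squarefree n ∧ IsCoprime n q
    · rw [if_pos h2, if_pos ⟨h2.1, h.2 ⟨h2.2, h1⟩⟩]
    · rw [if_neg h2, if_neg (fun h3 => h2 ⟨h3.1, (h.1 h3.2).1⟩)]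
  · rw [if_neg h1, if_neg (fun h3 => h1 (h.1 h3.2).2)]

open Classical in
/-- **the functional in terms of the family** -/
theorem norm_CS_gC {w : Eis → ℂ} (hw : ∀ n, w n ≠ 0 → IsPrim n) {X₁ : ℝ} (hX₁ : 0 ≤ X₁)
    (hwX : ∀ n, w n ≠ 0 → (nm n : ℝ) ≤ X₁) (q : Eis) {δ e : Eis} (hδ : IsPrim δ) (he : IsPrim e)
    (π : Eis) (s0 t : ℝ) (κ : Eis) :
    ‖CS (gC (sqc q w) δ e π (tw s0 t)) κ‖ ≤
      (nm e : ℝ) ^ (-s0) * ‖∑ b ∈ S X₁, w (δ * e * b) * tw s0 t b * cR (q * (δ * e) * π) κ b‖ := by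
  have hinj : Function.Injective (fun b : Eis => e * b) := fun a b hab =>
    mul_left_cancel₀ he.ne_zero hab
  set u : ℂ := (if IsCoprime e π then Th q (δ * e) * (tw s0 t e * sy κ e) else 0) with hu
  have hterm : ∀ b, gC (sqc q w) δ e π (tw s0 t) (e * b) * sy κ (e * b) =
      u * (w (δ * e * b) * tw s0 t b * cR (q * (δ * e) * π) κ b) := by
    intro b
    unfold gC HP842.sqc
    have e0 : δ * (e * b) = δ * e * b := by ring
    rw [e0]
    by_cases h0 : w (δ * e * b) = 0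
    · rw [h0]; simp
    have hb : IsPrim b := IsPrim.of_mul_left (hw _ h0) (hδ.mul he)
    have e1 : Th q (δ * e * b) = Th q (δ * e) * Th (q * (δ * e)) b :=
      NtC320.Th_mul_gen q (hδ.mul he) hb
    have e2 : IsCoprime (e * b) π ↔ IsCoprime e π ∧ IsCoprime b π := IsCoprime.mul_left_iff
    have e3 : sy κ (e * b) = sy κ e * sy κ b := syG.mul_right κ e b he hb
    unfold cR
    rw [if_pos hb, ← Th_cop, e1, e3, TP320.tw_mul, hu]
    by_cases h1 : IsCoprime e π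
    · by_cases h2 : IsCoprime b π
      · rw [if_pos ⟨dvd_mul_right e b, e2.2 ⟨h1, h2⟩⟩, if_pos h1, if_pos h2]; ring
      · rw [if_neg (fun h => h2 (e2.1 h.2).2), if_pos h1, if_neg h2]; ring
    · rw [if_neg (fun h => h1 (e2.1 h.2).1), if_neg h1]; ring
  have e5 : CS (gC (sqc q w) δ e π (tw s0 t)) κ =
      ∑' b, u * (w (δ * e * b) * tw s0 t b * cR (q * (δ * e) * π) κ b) := by
    unfold CM106.CS
    rw [← hinj.tsum_eq (f := fun m => gC (sqc q w) δ e π (tw s0 t) m * sy κ m)]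
    · exact tsum_congr fun b => hterm b
    · intro m hm
      have h1 := (gC_ne (left_ne_zero_of_mul (show gC (sqc q w) δ e π (tw s0 t) m * sy κ m ≠ 0
        from hm))).1.1
      obtain ⟨b, rfl⟩ := h1
      exact ⟨b, rfl⟩
  have hnu : ‖u‖ ≤ (nm e : ℝ) ^ (-s0) := by
    rw [hu]
    split_ifs
    · rw [norm_mul, norm_mul, TP320.norm_tw s0 t he]
      have h1 := norm_Th_le q (δ * e)
      have h2 := CF61.norm_sy_le κ e
      have h3 : 0 ≤ (nm e : ℝ) ^ (-s0) := by positivity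
      calc ‖Th q (δ * e)‖ * ((nm e : ℝ) ^ (-s0) * ‖sy κ e‖) ≤ 1 * ((nm e : ℝ) ^ (-s0) * 1) := by
            gcongr
        _ = _ := by ring
    · rw [norm_zero]; positivity
  have e6 : ∑' b, u * (w (δ * e * b) * tw s0 t b * cR (q * (δ * e) * π) κ b) =
      u * ∑ b ∈ S X₁, w (δ * e * b) * tw s0 t b * cR (q * (δ * e) * π) κ b := by
    rw [tsum_mul_left]
    congr 1
    refine tsum_eq_sum fun b hb => ?_
    by_contra h0
    have h1 : w (δ * e * b) ≠ 0 := left_ne_zero_of_mul (left_ne_zero_of_mul h0)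
    have h2 := cR_ne (right_ne_zero_of_mul h0)
    apply hb
    rw [mem_S hX₁]
    refine ⟨?_, h2.1, h2.2.1⟩
    refine le_trans ?_ (hwX _ h1)
    have h3 : nm b ≤ nm (δ * e * b) := by
      rw [nm_mul]
      exact Nat.le_mul_of_pos_left _ (nm_pos.mpr (hδ.mul he).ne_zero)
    exact_mod_cast h3
  rw [e5, e6, norm_mul]
  exact mul_le_mul_of_nonneg_right hnu (norm_nonneg _)

/-! ### natural lists -/

lemma nm_cast_pos {a : Eis} (ha : a ≠ 0) : (0 : ℝ) < nm a := by exact_mod_cast nm_pos.2 ha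

lemma one_le_nm {a : Eis} (ha : a ≠ 0) : (1 : ℝ) ≤ nm a := by exact_mod_cast nm_pos.2 ha

/-- **natural lists**: the moments of the subsequences -/
theorem natG {h : ℝ → ℝ} {c : ℝ} (hpu : PU h c) {μ : ℝ} (hμ : 0 ≤ μ) (s0 : ℝ) (r : ℕ) {ε : ℝ}
    (hε : 0 < ε) :
    ∃ C : ℝ, 1 ≤ C ∧ ∀ (P : DPar), P.OK → ∀ s : Fin r → Pq,
      (∀ i, 0 ≤ (s i).z) → ∀ j : Fin r → IP, Below P 0 j s → (∀ i, (j i).s = 0) →
      ∀ q δ e π f : Eis, q ≠ 0 → IsPrim δ → IsPrim e → π ≠ 0 → f ≠ 0 →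
      ∀ X0 Λ t B : ℝ, 1 ≤ X0 → (nm q : ℝ) ≤ X0 → (nm δ : ℝ) ≤ X0 → (nm e : ℝ) ≤ X0 →
      (nm π : ℝ) ≤ X0 → (∀ i, Real.exp (s i).z ≤ X0) → 0 < Λ → 0 ≤ B →
      (∀ (s' : Fin r → Pq) (W : ℝ), 1 ≤ W → (∀ i, Rl C W (s' i) (s i)) →
        tl Dq (List.ofFn s') ≤ ∑ i, (j i).z - Real.log (nm δ * nm e) + C →
        RFp P h (Real.log (Λ * nm f)) (List.ofFn s') ≤
          B * Real.exp (tl Dq (List.ofFn s')) * W ^ (2 * μ)) →
      ∑ k ∈ bl Λ, ‖CS (gC (sqc q (al h (fun i => (j i).pc))) δ e π (tw s0 t)) (k * f)‖ ^ 2 ≤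
        C * X0 ^ ε * (1 + |t|) ^ (2 * (r * μ)) * B *
          ((Real.exp (∑ i, (j i).z) / nm δ) ^ (-(2 * s0)) *
            (Real.exp (∑ i, (j i).z) / (nm δ * nm e))) := by
  classical
  obtain ⟨R, hR0, hR⟩ := exists_R (cs_cx hpu.cs)
  have hΦ := sd_ok hpu hR0 hR hμ r
  set Rt : ℝ := r * (2 * R + 3) with hRt
  have hRt0 : 0 ≤ Rt := by positivity
  set ε' : ℝ := ε / 9 with hε'
  have hε'0 : 0 < ε' := by positivity
  obtain ⟨C2, hC2, hsp⟩ := hΦ.split ε' s0 hε'0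
  obtain ⟨C3, hC3, hgr⟩ := grand hpu μ r hRt0 hε'0
  have hE1 : 1 ≤ Real.exp Rt := Real.one_le_exp hRt0
  have hK : 1 ≤ C2 ^ 2 * C3 * Real.exp Rt :=
    one_le_mul_of_one_le_of_one_le (one_le_mul_of_one_le_of_one_le (one_le_pow₀ hC2) hC3) hE1
  refine ⟨C2 ^ 2 * C3 * Real.exp Rt + (C3 + Rt), by linarith, ?_⟩
  set C : ℝ := C2 ^ 2 * C3 * Real.exp Rt + (C3 + Rt) with hC
  intro P hP s hs j hj hjs q δ e π f hq hδ he hπ hf X0 Λ t B hX0 hqX hδX heX hπX hsX hΛ hB hyp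
  have hX00 : 0 < X0 := by linarith
  have hf0 := nm_cast_pos hf
  have hδe : IsPrim (δ * e) := hδ.mul he
  set S0 : ℝ := ∑ i, (j i).z with hS0
  set α : ℝ := Real.log (nm δ * nm e) with hα
  have hd1 := one_le_nm hδ.ne_zero
  have he1 := one_le_nm he.ne_zero
  have hde1 : 1 ≤ (nm δ : ℝ) * nm e := one_le_mul_of_one_le_of_one_le hd1 he1
  have hα0 : 0 ≤ α := Real.log_nonneg hde1
  have hαe : α = Real.log (nm (δ * e)) := by rw [hα, nm_mul]; push_cast; rfl
  have hlen : (SD h μ r).len j = S0 := SD_len h μ r j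
  have hht : (SD h μ r).ht j = 1 := by
    rw [SD_ht]
    refine Finset.prod_eq_one fun i _ => ?_
    rw [hjs i, abs_zero, add_zero, Real.one_rpow]
  have hwj : (SD h μ r).w j = al h (fun i => (j i).pc) := SD_w h μ r j
  -- the support
  have hsupp : ∀ j' : Fin r → IP, ∀ b, (SD h μ r).w j' b ≠ 0 →
      (nm b : ℝ) ≤ Real.exp ((SD h μ r).len j' + Rt) := by
    intro j' b hb
    have hb0 : (0 : ℝ) < nm b := nm_cast_pos (hΦ.prim j' b hb).ne_zero
    rw [← Real.log_le_iff_le_exp hb0]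
    have := (abs_le.1 (hΦ.supp j' b hb)).2
    linarith
  set X₁ : ℝ := Real.exp (|S0| + |α| + 2 * Rt) with hX₁
  have hX₁0 : 0 ≤ X₁ := (Real.exp_pos _).le
  have hw1 : ∀ n, (SD h μ r).w j n ≠ 0 → (nm n : ℝ) ≤ X₁ := fun n hn => (hsupp j n hn).trans
    (Real.exp_le_exp.2 (by
      rw [hlen]; have := le_abs_self S0; have := abs_nonneg α; linarith))
  set N : Eis := q * (δ * e) * π with hN
  have hN0 : N ≠ 0 := mul_ne_zero (mul_ne_zero hq hδe.ne_zero) hπ
  -- the bound of the children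
  set M2 : ℝ := C3 * (nm N : ℝ) ^ ε' * X0 ^ ε' * (B * Real.exp (S0 - α + Rt)) with hM2
  have hM20 : 0 ≤ M2 := by positivity
  have hinj : Set.InjOn (fun k : Eis => k * f) (bl Λ : Set Eis) := fun a _ b _ hab =>
    mul_right_cancel₀ hf hab
  have hKs : ∀ κ ∈ (bl Λ).image (fun k => k * f), κ ∈ bl (Λ * nm f) := by
    intro κ hκ
    obtain ⟨k, hk, rfl⟩ := Finset.mem_image.1 hκ
    rw [mem_bl hΛ.le] at hk
    rw [mem_bl (by positivity)]
    refine ⟨mul_ne_zero hk.1 hf, ?_⟩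
    rw [nm_mul]
    push_cast
    exact mul_le_mul_of_nonneg_right hk.2 hf0.le
  have hchild : ∀ j', (SD h μ r).good j' → (SD h μ r).dom Rt j' j →
      (SD h μ r).len j' ≤ (SD h μ r).len j - α + Rt →
      ∑ k ∈ bl Λ, ‖CS (sqc N ((SD h μ r).w j')) (k * f)‖ ^ 2 ≤ M2 * (SD h μ r).ht j' ^ 2 := by
    intro j' _ hdom hl
    have hdom' : ∀ i, (j' i).z ≤ (j i).z + Rt ∧ (j' i).t0 = (j i).t0 ∧ (j' i).ψ = (j i).ψ ∧
      relU (j' i).u (j i).u := hdom
    have hlen' : (SD h μ r).len j' = ∑ i, (j' i).z := SD_len h μ r j'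
    rw [hlen', hlen] at hl
    have hb : Below P Rt j' s := by
      refine ⟨fun i => ?_, fun i => ?_, fun i => ?_, fun i hi => ?_⟩
      · have := hj.z i
        linarith [(hdom' i).1]
      · rw [(hdom' i).2.1, hj.t0]
      · rw [(hdom' i).2.2.1, hj.ψ]
      · have h2 := hj.one i hi
        rcases (hdom' i).2.2.2 with h3 | h3
        · rw [h3, h2]
        · rw [h2] at h3
          exact absurd h3.1 (by decide)
    have e1 : ∑ k ∈ bl Λ, ‖CS (sqc N ((SD h μ r).w j')) (k * f)‖ ^ 2 =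
        ∑ κ ∈ (bl Λ).image (fun k => k * f),
          ‖CS (sqc N (al h (fun i => (j' i).pc))) κ‖ ^ 2 := by
      rw [Finset.sum_image hinj, SD_w]
    rw [e1, ht_sq]
    have h1 := hgr C3 le_rfl P hP s hs j' hb N hN0 X0 (Λ * nm f) B hX0 hsX (by positivity) hB
      ((bl Λ).image (fun k => k * f)) hKs (fun s' W hW hR' hl' => hyp s' W hW
        (fun i => (hR' i).mono (by linarith)) (by linarith))
    refine h1.trans ?_
    have h2 : Real.exp (∑ i, (j' i).z) ≤ Real.exp (S0 - α + Rt) := Real.exp_le_exp.2 hl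
    have h3 : 0 ≤ Wt j' ^ (2 * μ) := Real.rpow_nonneg (by linarith [one_le_Wt j']) _
    rw [hM2]
    calc C3 * (nm N : ℝ) ^ ε' * X0 ^ ε' * (B * Real.exp (∑ i, (j' i).z) * Wt j' ^ (2 * μ))
        ≤ C3 * (nm N : ℝ) ^ ε' * X0 ^ ε' * (B * Real.exp (S0 - α + Rt) * Wt j' ^ (2 * μ)) := by
          gcongr
      _ = _ := by ring
  -- the splitting
  have hcR : ∀ k ∈ bl Λ, ∀ b ∈ S X₁, cR N (k * f) b ≠ 0 → IsPrim b ∧ IsCoprime (δ * e) b := by
    intro k _ b _ hb
    have h1 := cR_ne hb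
    refine ⟨h1.1, ?_⟩
    have h2 := h1.2.2
    rw [hN] at h2
    exact h2.of_mul_right_left.of_mul_right_right.symm
  have hspl := MoF106.split_sq' hsp (bl Λ) (fun _ => δ * e) (fun _ => 1)
    (fun _ _ => zero_le_one) (S X₁) (fun k b => cR N (k * f) b) j α t
    (fun _ _ => ⟨hδe, by rw [← hαe], by rw [← hαe]; linarith⟩) hcR (M := Real.sqrt M2)
    (Real.sqrt_nonneg _) (fun j => zero_le_one.trans (hΦ.ht1 j)) (by
      intro j' hg hd hl hl2
      have hw2 : ∀ b, (SD h μ r).w j' b ≠ 0 → (nm b : ℝ) ≤ X₁ := by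
        intro b hb
        refine (hsupp j' b hb).trans (Real.exp_le_exp.2 ?_)
        rw [hlen] at hl
        have h3 := le_abs_self S0
        have h4 := neg_abs_le α
        linarith
      have e1 : ∀ k ∈ bl Λ, (fun _ : Eis => (1 : ℝ)) k *
          ‖∑ b ∈ S X₁, (SD h μ r).w j' b * cR N (k * f) b‖ ^ 2 =
            ‖CS (sqc N ((SD h μ r).w j')) (k * f)‖ ^ 2 := by
        intro k _
        rw [one_mul]
        congr 2
        unfold CM106.CS
        rw [tsum_eq_sum (s := S X₁)]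
        · refine Finset.sum_congr rfl fun b hb => ?_
          have hbp := ((mem_S hX₁0).1 hb).2.1
          unfold cR HP842.sqc
          rw [if_pos hbp]; ring
        · intro b hb
          by_contra h0
          have h1 : sqc N ((SD h μ r).w j') b ≠ 0 := left_ne_zero_of_mul h0
          have h2 : (SD h μ r).w j' b ≠ 0 := right_ne_zero_of_mul h1
          have h3 : Th N b ≠ 0 := left_ne_zero_of_mul h1
          apply hb
          rw [mem_S hX₁0]
          refine ⟨hw2 b h2, hΦ.prim j' b h2, ?_⟩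
          unfold HP842.Th at h3
          split_ifs at h3 with h4
          · exact h4.1
          · exact absurd rfl h3
      rw [Finset.sum_congr rfl e1, mul_pow, Real.sq_sqrt hM20]
      exact hchild j' hg hd hl)
  -- conclusion
  have hne0 : (0 : ℝ) < nm e := by linarith
  have hnd0 : (0 : ℝ) < nm δ := by linarith
  have hneg : (((nm e : ℝ) ^ (-s0)) ^ 2) = (nm e : ℝ) ^ (-(2 * s0)) := by
    rw [← Real.rpow_natCast, ← Real.rpow_mul hne0.le]; congr 1; push_cast; ring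
  have h1 : ∑ k ∈ bl Λ, ‖CS (gC (sqc q (al h (fun i => (j i).pc))) δ e π (tw s0 t)) (k * f)‖ ^ 2 ≤
      (nm e : ℝ) ^ (-(2 * s0)) * ∑ k ∈ bl Λ, (fun _ : Eis => (1 : ℝ)) k *
        ‖∑ b ∈ S X₁, (SD h μ r).w j ((fun _ => δ * e) k * b) * tw s0 t b * cR N (k * f) b‖ ^ 2 := by
    rw [Finset.mul_sum]
    refine Finset.sum_le_sum fun k _ => ?_
    have h2 := norm_CS_gC (w := (SD h μ r).w j) (fun n => hΦ.prim j n) hX₁0 hw1 q hδ he π s0 t
      (k * f)
    rw [hwj] at h2 ⊢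
    calc ‖CS (gC (sqc q (al h fun i => (j i).pc)) δ e π (tw s0 t)) (k * f)‖ ^ 2
        ≤ ((nm e : ℝ) ^ (-s0) * ‖∑ b ∈ S X₁, al h (fun i => (j i).pc) (δ * e * b) * tw s0 t b *
            cR N (k * f) b‖) ^ 2 := pow_le_pow_left₀ (norm_nonneg _) h2 2
      _ = _ := by rw [mul_pow, hneg, one_mul]
  refine h1.trans ((mul_le_mul_of_nonneg_left hspl (by positivity)).trans ?_)
  rw [hlen, hht, mul_one]
  have ht0 : (0 : ℝ) ≤ 1 + |t| := by positivity
  have e2 : ((1 + |t|) ^ (r * μ)) ^ 2 = (1 + |t|) ^ (2 * (r * μ)) := by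
    rw [← Real.rpow_natCast, ← Real.rpow_mul ht0]; congr 1; push_cast; ring
  have e3 : Real.exp (-s0 * (S0 - α)) ^ 2 * (nm e : ℝ) ^ (-(2 * s0)) =
      (Real.exp S0 / nm δ) ^ (-(2 * s0)) := by
    have h5 : Real.exp (-s0 * (S0 - α)) ^ 2 = (Real.exp S0 / (nm δ * nm e)) ^ (-(2 * s0)) := by
      have h6 : Real.exp S0 / ((nm δ : ℝ) * nm e) = Real.exp (S0 - α) := by
        rw [Real.exp_sub, hα, Real.exp_log (by linarith)]
      rw [h6, ← Real.exp_mul, ← Real.exp_nat_mul]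
      congr 1
      push_cast; ring
    rw [h5, ← Real.mul_rpow (by positivity) hne0.le]
    congr 1
    field_simp
  have e4 : Real.exp (ε' * |α|) ^ 2 ≤ X0 ^ (4 * ε') := by
    rw [abs_of_nonneg hα0, ← Real.exp_nat_mul]
    have h7 : ((2 : ℕ) : ℝ) * (ε' * α) = (2 * ε') * Real.log (nm δ * nm e) := by
      rw [hα]; push_cast; ring
    rw [h7, ← Real.log_rpow (by linarith), Real.exp_log (by positivity)]
    have h8 : (nm δ : ℝ) * nm e ≤ X0 ^ (2 : ℝ) := by
      rw [Real.rpow_two, sq]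
      exact mul_le_mul hδX heX (by positivity) hX00.le
    calc ((nm δ : ℝ) * nm e) ^ (2 * ε') ≤ (X0 ^ (2 : ℝ)) ^ (2 * ε') :=
          Real.rpow_le_rpow (by positivity) h8 (by positivity)
      _ = _ := by rw [← Real.rpow_mul hX00.le]; congr 1; ring
  have e5 : (nm N : ℝ) ^ ε' ≤ X0 ^ (4 * ε') := by
    have h8 : (nm N : ℝ) ≤ X0 ^ (4 : ℝ) := by
      rw [hN, nm_mul, nm_mul, nm_mul]
      push_cast
      have h9 : X0 ^ (4 : ℝ) = X0 * (X0 * X0) * X0 := by
        rw [show (4 : ℝ) = ((4 : ℕ) : ℝ) by norm_num, Real.rpow_natCast]; ring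
      rw [h9]
      gcongr
    calc (nm N : ℝ) ^ ε' ≤ (X0 ^ (4 : ℝ)) ^ ε' :=
          Real.rpow_le_rpow (by positivity) h8 hε'0.le
      _ = _ := by rw [← Real.rpow_mul hX00.le]
  have e6 : Real.exp (S0 - α + Rt) = Real.exp S0 / (nm δ * nm e) * Real.exp Rt := by
    rw [Real.exp_add, Real.exp_sub, hα, Real.exp_log (by linarith)]
  have e7 : X0 ^ (4 * ε') * X0 ^ (4 * ε') * X0 ^ ε' = X0 ^ ε := by
    rw [← Real.rpow_add hX00, ← Real.rpow_add hX00]; congr 1; rw [hε']; ring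
  set T : ℝ := (Real.exp S0 / nm δ) ^ (-(2 * s0)) with hT
  have hT0 : 0 ≤ T := by positivity
  calc (nm e : ℝ) ^ (-(2 * s0)) * (C2 * Real.exp (ε' * |α|) * Real.exp (-s0 * (S0 - α)) *
        (1 + |t|) ^ (r * μ) * Real.sqrt M2) ^ 2
      = C2 ^ 2 * Real.exp (ε' * |α|) ^ 2 * (Real.exp (-s0 * (S0 - α)) ^ 2 *
        (nm e : ℝ) ^ (-(2 * s0))) * ((1 + |t|) ^ (r * μ)) ^ 2 * (Real.sqrt M2 ^ 2) := by ring
    _ = C2 ^ 2 * Real.exp (ε' * |α|) ^ 2 * T * (1 + |t|) ^ (2 * (r * μ)) * M2 := by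
        rw [e3, e2, Real.sq_sqrt hM20]
    _ ≤ C2 ^ 2 * X0 ^ (4 * ε') * T * (1 + |t|) ^ (2 * (r * μ)) *
        (C3 * X0 ^ (4 * ε') * X0 ^ ε' * (B * (Real.exp S0 / (nm δ * nm e) * Real.exp Rt))) := by
        rw [hM2, e6]
        gcongr
    _ = (C2 ^ 2 * C3 * Real.exp Rt) * (X0 ^ (4 * ε') * X0 ^ (4 * ε') * X0 ^ ε') *
        (1 + |t|) ^ (2 * (r * μ)) * B * (T * (Real.exp S0 / (nm δ * nm e))) := by ring
    _ = (C2 ^ 2 * C3 * Real.exp Rt) * X0 ^ ε * (1 + |t|) ^ (2 * (r * μ)) * B *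
        (T * (Real.exp S0 / (nm δ * nm e))) := by rw [e7]
    _ ≤ C * X0 ^ ε * (1 + |t|) ^ (2 * (r * μ)) * B * (T * (Real.exp S0 / (nm δ * nm e))) := by
        have : C2 ^ 2 * C3 * Real.exp Rt ≤ C := by rw [hC]; linarith
        gcongr

end Crest.Agent.R017.R3571
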