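import Crest.Agent.R017.ET2a_71
import Crest.Agent.R017.ET1_71
import Crest.Agent.R017.R3a_571
import Crest.Agent.R017.I1k_146

/-!
# Row 17, R8 / P1: the character side of the cross tail, squarefree natural lists (helper71)

* `CS_tw` : the twist by an `S`-unit moves into `k`
* **`csA`** : `∑_k ‖CS (sqc m (alL h (twisted list))) k‖²` over cube-free primary `k ≤ L`,
  `list = u₁ :: u₂ :: u₃ :: ps`, `ps` = short amplifier pieces, from one real inequality
-/

set_option autoImplicit false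

noncomputable section

open Finset

namespace Crest.Agent.R017.ET71

open Crest.Agent.R012 Crest.Agent.R012.Eis
open Crest.Agent.R012.LS2 (bl mem_bl)
open Crest.Agent.R017.FE47 (PU SM)
open Crest.Agent.R017.CM106
open Crest.Agent.R017.XG702 (Pcs BG)
open Crest.Agent.R017.Prov71
open Crest.Agent.R017.B770
open Crest.Agent.R017.ER911 Crest.Agent.R017.SC777 Crest.Agent.R017.ExpC702
open Crest.Agent.R017.HP842 (Pc pc sqc al alL)
open Crest.Agent.R017.XPD571 (RP0)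
open Crest.Agent.R017.XRG106 (Rl RFp ip ip_pc)
open Crest.Agent.R017.XHB411 (tl)
open Crest.Agent.R017.E5B71 (Pt)
open Crest.Agent.R017.RM986
open Crest.Agent.R017.R3571 (Below grand)
open Crest.Agent.R017.C70 (CbF)

/-! ### the twist -/

lemma CS_tw3 (s : Eis) {a : Eis → ℂ} (ha : ∀ n, a n ≠ 0 → IsPrim n) (k : Eis) :
    CS (I1146.tw3 s a) k = CS a (s * k) := by
  unfold CS I1146.tw3
  refine tsum_congr fun n => ?_
  by_cases h0 : a n = 0
  · simp [h0]
  · rw [Char766.sy_mul_left (ha n h0)]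
    ring

/-- the twist by an `S`-unit moves into `k` -/
lemma CS_tw {P : DPar} (h : ℝ → ℝ) (s q : Eis) (ps : List Pq) (k : Eis) :
    CS (sqc q (alL h (ps.map (Pt P s)))) k = CS (sqc q (alL h (ps.map (Pq.pc P)))) (s * k) := by
  have e : sqc q (alL h (ps.map (Pt P s))) = I1146.tw3 s (sqc q (alL h (ps.map (Pq.pc P)))) := by
    rw [I1146.alL_tw]
    funext n
    unfold HP842.sqc I1146.tw3
    ring
  rw [e, CS_tw3]
  intro n hn
  exact I1146.alL_prim (right_ne_zero_of_mul hn)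

open Classical in
lemma sum_tw_le {P : DPar} (h : ℝ → ℝ) {s : Eis} (hs : s ≠ 0) (q : Eis) (ps : List Pq) {L : ℝ}
    (hL : 0 ≤ L) :
    ∑ k ∈ (primBall ⌊L⌋₊).filter CbF, ‖CS (sqc q (alL h (ps.map (Pt P s)))) k‖ ^ 2 ≤
      ∑ k ∈ bl ((nm s : ℝ) * L), ‖CS (sqc q (alL h (ps.map (Pq.pc P)))) k‖ ^ 2 := by
  have h1 : ∑ k ∈ (primBall ⌊L⌋₊).filter CbF, ‖CS (sqc q (alL h (ps.map (Pt P s)))) k‖ ^ 2 =
      ∑ k ∈ ((primBall ⌊L⌋₊).filter CbF).image (fun k => s * k),
        ‖CS (sqc q (alL h (ps.map (Pq.pc P)))) k‖ ^ 2 := by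
    rw [sum_image (fun a _ b _ hab => mul_left_cancel₀ hs hab)]
    exact sum_congr rfl fun k _ => by rw [CS_tw]
  rw [h1]
  refine sum_le_sum_of_subset_of_nonneg ?_ fun _ _ _ => by positivity
  intro x hx
  rw [mem_image] at hx
  obtain ⟨k, hk, rfl⟩ := hx
  rw [mem_filter, mem_primBall] at hk
  rw [mem_bl (by positivity)]
  refine ⟨mul_ne_zero hs hk.1.2.ne_zero, ?_⟩
  rw [nm_mul]
  push_cast
  have : (nm k : ℝ) ≤ L := (Nat.cast_le.2 hk.1.1).trans (Nat.floor_le hL)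
  exact mul_le_mul_of_nonneg_left this (Nat.cast_nonneg _)

lemma kind_am_not_lump {p : Pq} (h : p.kd = .am) : ¬ Dq.lump p := by
  intro hl
  rw [((Dq_lump p).1 hl).1] at h
  exact absurd h (by decide)

lemma mass_am {X : ℝ} {ps : List Pq} (h : ∀ p ∈ ps, p.kd = .am) :
    Dq.mass X ps .mo = 0 ∧ Dq.mass X ps .am = (ps.map Pq.z).sum / Real.log X := by
  induction ps with
  | nil => simp
  | cons p ps ih =>
    have h1 := ih fun q hq => h q (List.mem_cons_of_mem _ hq)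
    have h2 : p.kd = .am := h p List.mem_cons_self
    rw [Pcs.mass_cons, Pcs.mass_cons, h1.1, h1.2, List.map_cons, List.sum_cons]
    have e : Dq.kind p = p.kd := rfl
    rw [e, h2]
    constructor
    · simp
    · rw [if_pos rfl, add_div]
      rfl

section

variable {Λ : Type*} {π : Λ → DPar} {h : ℝ → ℝ} {d : ℝ} {s s₀ : EF}

/-- the exponent with the principal column -/
def E2p (d κ y₁ y₂ y₃ a : ℝ) : ℝ := max (E2 d κ y₁ y₂ y₃ 0 a) (κ / 3 + 2 * a)

lemma E2p_slope {κ κ' y₁ y₂ y₃ a : ℝ} (hd : 0 ≤ d) (h : κ' ≤ κ) :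
    E2p d κ' y₁ y₂ y₃ a ≤ E2p d κ y₁ y₂ y₃ a := by
  unfold E2p
  have := E2_slope (d := d) (y₁ := y₁) (y₂ := y₂) (y₃ := y₃) (m := 0) (a := a) hd h
  exact max_le_max (by linarith) (by linarith)

open Classical in
/-- **the character side** -/
theorem csA {c₀ : ℝ} (hpu : PU h c₀) (hP : ∀ lam, (π lam).OK)
    (R : ExpRules (7 / 8 + d) (ex Dq (fun lam => Rp (π lam) h)) s)
    (Rm : ExpRGFz (7 / 8 + d) (ex Dq (fun lam => Rp (π lam) h)) s s₀)
    (hcolP : ∀ (i : ℝ) (u : List ℝ) (m a : ℝ), 0 ≤ i → Okl u m a →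
      BG Dq (RP0 π h) i u (wt m a) (2 * a + 2 * (7 / 8 + d) * m)) (hd : 0 ≤ d)
    (hd8 : d ≤ 1 / 8) {ε : ℝ} (hε : 0 < ε) :
    ∃ σ₀ : ℝ, 0 < σ₀ ∧ ∀ σ : ℝ, 0 < σ → σ ≤ σ₀ → ∀ (lam : Λ) (t : Eis), t ≠ 0 →
      ∀ (N : ℕ) (B : ℝ),
      ∃ (M : ℕ) (X₀ : ℝ), 1 < X₀ ∧ ∀ X : ℝ, X₀ ≤ X → ∀ (u₁ u₂ u₃ : Pq) (ps : List Pq) (m : Eis)
        (L H Ec : ℝ),
      (∀ p ∈ [u₁, u₂, u₃], Dq.lump p ∧ 0 ≤ p.z ∧ p.z ≤ 2 * Real.log X ∧ (nm p.d : ℝ) ≤ X ^ B) →
      ps.length ≤ N →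
      (∀ p ∈ ps, p.kd = .am ∧ 0 ≤ p.z ∧ p.z ≤ σ * Real.log X ∧ (nm p.d : ℝ) ≤ X ^ B) →
      (ps.map Pq.z).sum ≤ 2 * Real.log X → m ≠ 0 → (nm m : ℝ) ≤ X ^ B → 1 ≤ L → L ≤ X ^ (2 : ℝ) →
      1 ≤ H → (∀ p ∈ u₁ :: u₂ :: u₃ :: ps, 1 + |p.t| ≤ H) →
      (∀ y₁ y₂ y₃ a : ℝ, 0 ≤ y₁ → y₁ ≤ u₁.z / Real.log X + σ → 0 ≤ y₂ →
        y₂ ≤ u₂.z / Real.log X + σ → 0 ≤ y₃ → y₃ ≤ u₃.z / Real.log X + σ → 0 ≤ a →
        a ≤ (ps.map Pq.z).sum / Real.log X + σ →
        E2p d (Real.log L / Real.log X + σ) y₁ y₂ y₃ a ≤ y₁ + y₂ + y₃ + a + Ec) →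
      ∑ k ∈ (primBall ⌊L⌋₊).filter CbF,
          ‖CS (sqc m (alL h ((u₁ :: u₂ :: u₃ :: ps).map (Pt (π lam) t)))) k‖ ^ 2 ≤
        H ^ M * X ^ ((u₁.z + u₂.z + u₃.z + (ps.map Pq.z).sum) / Real.log X + Ec + ε) := by
  classical
  set ε₁ : ℝ := ε / 8 with hε₁
  have hε₁0 : 0 < ε₁ := by positivity
  obtain ⟨σ₁, hσ₁, PL⟩ := rm_RF2 hpu hP R Rm hcolP hd hd8 3 ε₁ hε₁0
  refine ⟨min (σ₁ / 2) (1 / 2), by positivity, fun σ hσ0 hσσ lam t ht N B => ?_⟩
  have hσ1 : σ ≤ σ₁ / 2 := hσσ.trans (min_le_left _ _)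
  have hσ2 : σ ≤ 1 / 2 := hσσ.trans (min_le_right _ _)
  obtain ⟨M, X₁, hX₁, PX⟩ := PL lam N (|B| + 4)
  set δ₀ : ℝ := ε₁ / (|B| + 3) with hδ₀
  have hδ₀0 : 0 < δ₀ := by positivity
  have hG := fun r : ℕ => grand hpu ((M : ℝ) / 2) r (ρ := 0) le_rfl hδ₀0
  choose C hC1 hC using hG
  set C' : ℝ := ∑ r ∈ range (N + 4), C r with hC'
  have hCr : ∀ r, r < N + 4 → C r ≤ C' := fun r hr =>
    single_le_sum (f := C) (fun i _ => by linarith [hC1 i]) (mem_range.2 hr)
  have hC'1 : 1 ≤ C' := (hC1 0).trans (hCr 0 (by omega))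
  set τ : ℝ := Real.log (nm t) with hτ
  have hnt : (1 : ℝ) ≤ nm t := by exact_mod_cast nm_pos.2 ht
  have hτ0 : 0 ≤ τ := Real.log_nonneg hnt
  obtain ⟨X₂, hX₂, HX₂⟩ := XSup271.exists_X hC'1 (ε := ε₁) hε₁0
  -- large X : constants against `σ log X`
  set X₃ : ℝ := Real.exp (((N + 3) * C' + τ + 1) / σ) with hX₃
  refine ⟨M, max X₁ (max X₂ X₃), lt_of_lt_of_le hX₁ (le_max_left _ _), ?_⟩
  intro X hX u₁ u₂ u₃ ps m L H Ec hu hN hps hsum hm0 hmX hL1 hLX hH hht hE
  have hXX₁ : X₁ ≤ X := (le_max_left _ _).trans hX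
  have hXX₂ : X₂ ≤ X := ((le_max_left _ _).trans (le_max_right _ _)).trans hX
  have hXX₃ : X₃ ≤ X := ((le_max_right _ _).trans (le_max_right _ _)).trans hX
  have hX1 : 1 < X := by linarith
  have hX0 : 0 < X := by linarith
  have hlX : 0 < Real.log X := Real.log_pos hX1
  have hbig : (N + 3) * C' + τ + 1 ≤ σ * Real.log X := by
    have h1 : ((N + 3) * C' + τ + 1) / σ ≤ Real.log X := by
      rw [← Real.log_exp (((N + 3) * C' + τ + 1) / σ)]
      exact Real.log_le_log (Real.exp_pos _) hXX₃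
    rw [div_le_iff₀ hσ0] at h1
    linarith
  have hNC : 0 ≤ (N : ℝ) * C' := by positivity
  have hC'σ : C' ≤ σ * Real.log X := by nlinarith
  have hτσ : τ ≤ σ * Real.log X := by nlinarith
  set l := u₁ :: u₂ :: u₃ :: ps with hl
  set r := l.length with hr
  have hr3 : r = ps.length + 3 := by rw [hr, hl]; rfl
  have hrN : r < N + 4 := by omega
  set sf : Fin r → Pq := fun i => l.get i with hsf
  have hofn : List.ofFn sf = l := List.ofFn_get l
  have hz0 : ∀ p ∈ l, 0 ≤ p.z := by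
    intro p hp
    rw [hl] at hp
    simp only [List.mem_cons] at hp
    rcases hp with rfl | rfl | rfl | hp
    · exact (hu _ (by simp)).2.1
    · exact (hu _ (by simp)).2.1
    · exact (hu _ (by simp)).2.1
    · exact (hps p hp).2.1
  have hz2 : ∀ p ∈ l, p.z ≤ 2 * Real.log X := by
    intro p hp
    rw [hl] at hp
    simp only [List.mem_cons] at hp
    rcases hp with rfl | rfl | rfl | hp
    · exact (hu _ (by simp)).2.2.1
    · exact (hu _ (by simp)).2.2.1
    · exact (hu _ (by simp)).2.2.1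
    · have h1 := (hps p hp).2.2.1
      nlinarith
  have hdB : ∀ p ∈ l, (nm p.d : ℝ) ≤ X ^ B := by
    intro p hp
    rw [hl] at hp
    simp only [List.mem_cons] at hp
    rcases hp with rfl | rfl | rfl | hp
    · exact (hu _ (by simp)).2.2.2
    · exact (hu _ (by simp)).2.2.2
    · exact (hu _ (by simp)).2.2.2
    · exact (hps p hp).2.2.2
  have hmem : ∀ i : Fin r, sf i ∈ l := fun i => List.get_mem l i
  set j : Fin r → TPOk571.IP := fun i => ip (hP lam) (sf i) with hj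
  have hBel : Below (π lam) 0 j sf :=
    ⟨fun i => by show (sf i).z ≤ (sf i).z + 0; linarith, fun i => rfl, fun i => rfl,
      fun i hi => hi⟩
  set Λ₀ : ℝ := (nm t : ℝ) * L with hΛ₀
  have hΛ1 : 1 ≤ Λ₀ := one_le_mul_of_one_le_of_one_le hnt hL1
  have hΛ0 : 0 < Λ₀ := by linarith
  have hlΛ : Real.log Λ₀ = τ + Real.log L := by
    rw [hΛ₀, Real.log_mul (by positivity) (by positivity)]
  have hlL0 : 0 ≤ Real.log L := Real.log_nonneg hL1
  have hlL2 : Real.log L ≤ 2 * Real.log X := by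
    have := Real.log_le_log (by positivity) hLX
    rwa [Real.log_rpow hX0] at this
  set Bd : ℝ := H ^ M * X ^ (Ec + ε₁) with hBd
  have hBd0 : 0 ≤ Bd := by positivity
  have key := hC r C' (hCr r hrN) (π lam) (hP lam) sf (fun i => hz0 _ (hmem i)) j hBel m hm0
    (X ^ (2 : ℝ)) Λ₀ Bd (Real.one_le_rpow hX1.le (by norm_num)) (fun i => by
      rw [Real.rpow_def_of_pos hX0]
      refine Real.exp_le_exp.2 ?_
      have := hz2 _ (hmem i)
      linarith) hΛ0 hBd0 (bl Λ₀) (fun κ hκ => hκ) ?_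
  · -- conclusion
    have e1 : al h (fun i => (j i).pc) = alL h (l.map (Pq.pc (π lam))) := by
      rw [← hofn, XRG106.alL_ofFn]
      congr 1
      funext i
      exact ip_pc (hP lam) (sf i)
    rw [e1] at key
    have e2 : ∑ i, (j i).z = u₁.z + u₂.z + u₃.z + (ps.map Pq.z).sum := by
      have h5 : ∑ i, (j i).z = (l.map Pq.z).sum := by
        rw [← hofn, List.map_ofFn, List.sum_ofFn]
        rfl
      rw [h5, hl]
      simp only [List.map_cons, List.sum_cons]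
      ring
    have e3 : R3571.Wt j = 1 := by
      unfold R3571.Wt
      refine Finset.prod_eq_one fun i _ => ?_
      show 1 + |(0 : ℝ)| = 1
      simp
    rw [e2, e3, Real.one_rpow, mul_one] at key
    refine (sum_tw_le h ht m l (by linarith)).trans (key.trans ?_)
    have h6 : C' ≤ X ^ ε₁ := HX₂ X hXX₂
    have h7 : (nm m : ℝ) ^ δ₀ ≤ X ^ (|B| * δ₀) := by
      rw [Real.rpow_mul hX0.le]
      exact Real.rpow_le_rpow (Nat.cast_nonneg _) (hmX.trans
        (Real.rpow_le_rpow_of_exponent_le hX1.le (le_abs_self B))) hδ₀0.le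
    have h8 : (X ^ (2 : ℝ)) ^ δ₀ = X ^ (2 * δ₀) := (Real.rpow_mul hX0.le _ _).symm
    have h9 : Real.exp (u₁.z + u₂.z + u₃.z + (ps.map Pq.z).sum) =
        X ^ ((u₁.z + u₂.z + u₃.z + (ps.map Pq.z).sum) / Real.log X) := by
      rw [Real.rpow_def_of_pos hX0, mul_div_cancel₀ _ hlX.ne']
    rw [h8, h9]
    calc C' * (nm m : ℝ) ^ δ₀ * X ^ (2 * δ₀) *
          (Bd * X ^ ((u₁.z + u₂.z + u₃.z + (ps.map Pq.z).sum) / Real.log X))
        ≤ X ^ ε₁ * X ^ (|B| * δ₀) * X ^ (2 * δ₀) *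
          (Bd * X ^ ((u₁.z + u₂.z + u₃.z + (ps.map Pq.z).sum) / Real.log X)) := by gcongr
      _ = H ^ M * X ^ (ε₁ + |B| * δ₀ + 2 * δ₀ + (Ec + ε₁) +
          (u₁.z + u₂.z + u₃.z + (ps.map Pq.z).sum) / Real.log X) := by
          rw [hBd, Real.rpow_add hX0 (ε₁ + |B| * δ₀ + 2 * δ₀ + (Ec + ε₁)),
            Real.rpow_add hX0 (ε₁ + |B| * δ₀ + 2 * δ₀), Real.rpow_add hX0 (ε₁ + |B| * δ₀),
            Real.rpow_add hX0 ε₁]
          ring
      _ ≤ _ := by
          refine mul_le_mul_of_nonneg_left ?_ (by positivity)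
          refine Real.rpow_le_rpow_of_exponent_le hX1.le ?_
          have h10 : (|B| + 3) * δ₀ = ε₁ := by
            have h14 : |B| + 3 ≠ 0 := by positivity
            rw [hδ₀, mul_div_assoc', mul_div_cancel_left₀ _ h14]
          have h11 : ε = 8 * ε₁ := by rw [hε₁]; ring
          nlinarith
  -- the children
  intro s' W hW hRl htl
  have hlen : (List.ofFn s').length = r := List.length_ofFn
  -- the child list
  obtain ⟨v₁, v₂, v₃, qs, hvq⟩ : ∃ v₁ v₂ v₃ qs, List.ofFn s' = v₁ :: v₂ :: v₃ :: qs := by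
    rcases hs : List.ofFn s' with _ | ⟨v₁, _ | ⟨v₂, _ | ⟨v₃, qs⟩⟩⟩
    · rw [hs] at hlen; simp only [List.length_cons, List.length_nil] at hlen; omega
    · rw [hs] at hlen; simp only [List.length_cons, List.length_nil] at hlen; omega
    · rw [hs] at hlen; simp only [List.length_cons, List.length_nil] at hlen; omega
    · exact ⟨v₁, v₂, v₃, qs, rfl⟩
  have hF : List.Forall₂ (Rl C' W) (List.ofFn s') l := by
    rw [← hofn]
    rw [List.forall₂_iff_get]
    refine ⟨by simp, fun i h1 h2 => ?_⟩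
    simp only [List.get_eq_getElem, List.getElem_ofFn]
    exact hRl _
  rw [hvq, hl] at hF
  obtain ⟨r1, hF1⟩ := List.forall₂_cons.1 hF
  obtain ⟨r2, hF2⟩ := List.forall₂_cons.1 hF1
  obtain ⟨r3', hF3⟩ := List.forall₂_cons.1 hF2
  have hlump : ∀ {v u : Pq}, Rl C' W v u → Dq.lump u → Dq.lump v := by
    intro v u hr hu
    obtain ⟨h1, h2⟩ := (Dq_lump u).1 hu
    exact (Dq_lump v).2 ⟨hr.kd.trans h1, hr.one h2⟩
  have hdd : ∀ {v u : Pq}, Rl C' W v u → u.z ≤ 2 * Real.log X → (nm u.d : ℝ) ≤ X ^ B →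
      (nm v.d : ℝ) ≤ X ^ (|B| + 4) := by
    intro v u hr h1 h2
    refine hr.dd.trans ?_
    have h3 : C' ≤ X ^ (1 : ℝ) := by
      have h4 : C' ≤ Real.log X := by nlinarith
      rw [Real.rpow_one]
      exact h4.trans (Real.log_le_self hX0.le)
    have h5 : Real.exp u.z ≤ X ^ (2 : ℝ) := by
      rw [Real.rpow_def_of_pos hX0]
      exact Real.exp_le_exp.2 (by linarith)
    have h6 : (nm u.d : ℝ) ≤ X ^ |B| :=
      h2.trans (Real.rpow_le_rpow_of_exponent_le hX1.le (le_abs_self B))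
    calc C' * (nm u.d : ℝ) * Real.exp u.z ≤ X ^ (1 : ℝ) * X ^ |B| * X ^ (2 : ℝ) := by gcongr
      _ = X ^ (|B| + 3) := by
          rw [← Real.rpow_add hX0, ← Real.rpow_add hX0]; congr 1; ring
      _ ≤ _ := Real.rpow_le_rpow_of_exponent_le hX1.le (by linarith)
  have hm1 : u₁ ∈ l := by simp [hl]
  have hm2 : u₂ ∈ l := by simp [hl]
  have hm3 : u₃ ∈ l := by simp [hl]
  have hqs : ∀ v ∈ qs, ∃ u ∈ ps, Rl C' W v u := by
    intro v hv
    obtain ⟨n, hn, rfl⟩ := List.mem_iff_getElem.1 hv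
    have h1 := hF3.length_eq
    have h2 : n < ps.length := by omega
    exact ⟨ps[n], List.getElem_mem h2, (List.forall₂_iff_get.1 hF3).2 n hn h2⟩
  have hqsam : ∀ v ∈ qs, v.kd = .am := by
    intro v hv
    obtain ⟨u, hu', hr'⟩ := hqs v hv
    exact hr'.kd.trans (hps u hu').1
  have hqz : (qs.map Pq.z).sum ≤ (ps.map Pq.z).sum + N * C' := by
    have h1 : ∀ {a b : List Pq}, List.Forall₂ (Rl C' W) a b →
        (a.map Pq.z).sum ≤ (b.map Pq.z).sum + b.length * C' := by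
      intro a b hab
      induction hab with
      | nil => simp
      | @cons x y a b hxy _ ih =>
        have h3 := hxy.zle
        simp only [List.map_cons, List.sum_cons, List.length_cons]
        push_cast
        linarith
    have h2 := h1 hF3
    have h3 : (ps.length : ℝ) * C' ≤ N * C' := by
      have : (ps.length : ℝ) ≤ N := by exact_mod_cast hN
      exact mul_le_mul_of_nonneg_right this (by linarith)
    linarith
  have hqz0 : 0 ≤ (qs.map Pq.z).sum := List.sum_nonneg fun x hx => by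
    obtain ⟨v, hv, rfl⟩ := List.mem_map.1 hx
    obtain ⟨u, _, hr'⟩ := hqs v hv
    exact hr'.z0
  have hNσ : (N : ℝ) * C' ≤ σ * Real.log X := by nlinarith
  have hWH : 1 ≤ W * H := one_le_mul_of_one_le_of_one_le hW hH
  have hPL := PX X hXX₁ (Real.log Λ₀) v₁ v₂ v₃ qs (by
      intro p hp
      simp only [List.mem_cons, List.not_mem_nil, or_false] at hp
      have aux : ∀ {v u : Pq}, Rl C' W v u → u ∈ l → Dq.lump u →
          Dq.lump v ∧ 0 ≤ v.z ∧ v.z ≤ (3 + σ₁) * Real.log X ∧ (nm v.d : ℝ) ≤ X ^ (|B| + 4) := by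
        intro v u hr' hul hu'
        have h1 := hz2 u hul
        have h2 := hr'.zle
        refine ⟨hlump hr' hu', hr'.z0, ?_, hdd hr' h1 (hdB u hul)⟩
        nlinarith
      rcases hp with rfl | rfl | rfl
      · exact aux r1 hm1 (hu _ (by simp)).1
      · exact aux r2 hm2 (hu _ (by simp)).1
      · exact aux r3' hm3 (hu _ (by simp)).1) (by
      have : 0 ≤ Real.log Λ₀ := Real.log_nonneg hΛ1
      nlinarith) (by rw [hlΛ]; nlinarith) (by
      have := hF3.length_eq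
      omega) (by
      intro p hp
      obtain ⟨u, hu', hr'⟩ := hqs p hp
      have h1 := (hps u hu').2.2.1
      have h2 := hr'.zle
      have h3 : u ∈ l := by simp [hl, hu']
      refine ⟨kind_am_not_lump (hqsam p hp), hr'.z0, ?_, hdd hr' (hz2 u h3) (hdB u h3)⟩
      nlinarith) (by
      intro t'
      have h1 := mass_am (X := X) hqsam
      cases t' with
      | mo => rw [h1.1]; positivity
      | am =>
        rw [h1.2, div_le_iff₀ hlX]
        nlinarith) (W * H) hWH (by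
      intro p hp
      rw [← hvq] at hp
      obtain ⟨i, rfl⟩ := (List.mem_ofFn' _ _).1 hp
      have h1 := (hRl i).ht
      have h2 := hht (sf i) (hmem i)
      calc 1 + |(s' i).t| ≤ W * (1 + |(sf i).t|) := h1
        _ ≤ W * H := mul_le_mul_of_nonneg_left h2 (by linarith))
  have hRF : RFp (π lam) h (Real.log Λ₀) (List.ofFn s') =
      RQ (fun k => k ≠ 0) h (Real.log Λ₀) ((v₁ :: v₂ :: v₃ :: qs).map (Pq.pc (π lam))) := by
    unfold RFp
    rw [hvq]
  rw [hRF]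
  refine hPL.trans ?_
  have hmas := mass_am (X := X) hqsam
  rw [hmas.1, hmas.2]
  have e5 : tl Dq (List.ofFn s') = v₁.z + v₂.z + v₃.z + (qs.map Pq.z).sum := by
    have h5 : tl Dq (List.ofFn s') = ((List.ofFn s').map Pq.z).sum := rfl
    rw [h5, hvq]
    simp only [List.map_cons, List.sum_cons]
    ring
  have hdiv : ∀ {a b : ℝ}, a ≤ b + σ * Real.log X → a / Real.log X ≤ b / Real.log X + σ := by
    intro a b hab
    rw [div_le_iff₀ hlX, add_mul, div_mul_cancel₀ _ hlX.ne']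
    exact hab
  have hreal := hE (v₁.z / Real.log X) (v₂.z / Real.log X) (v₃.z / Real.log X)
    ((qs.map Pq.z).sum / Real.log X) (div_nonneg r1.z0 hlX.le)
    (hdiv (by linarith [r1.zle])) (div_nonneg r2.z0 hlX.le) (hdiv (by linarith [r2.zle]))
    (div_nonneg r3'.z0 hlX.le) (hdiv (by linarith [r3'.zle])) (div_nonneg hqz0 hlX.le)
    (hdiv (by linarith))
  have hκ : Real.log Λ₀ / Real.log X ≤ Real.log L / Real.log X + σ := by
    rw [hlΛ]
    exact hdiv (by linarith)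
  have hmono := E2p_slope (d := d) (y₁ := v₁.z / Real.log X) (y₂ := v₂.z / Real.log X)
    (y₃ := v₃.z / Real.log X) (a := (qs.map Pq.z).sum / Real.log X) hd hκ
  have hexp : max (E2 d (Real.log Λ₀ / Real.log X) (v₁.z / Real.log X) (v₂.z / Real.log X)
      (v₃.z / Real.log X) 0 ((qs.map Pq.z).sum / Real.log X))
      (Real.log Λ₀ / Real.log X / 3 + 2 * ((qs.map Pq.z).sum / Real.log X) +
        2 * (7 / 8 + d) * 0) ≤
      tl Dq (List.ofFn s') / Real.log X + Ec := by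
    rw [mul_zero, add_zero, e5, add_div, add_div, add_div]
    exact hmono.trans hreal
  have h12 : (W * H) ^ M = H ^ M * W ^ (2 * ((M : ℝ) / 2)) := by
    rw [mul_div_cancel₀ _ (two_ne_zero), Real.rpow_natCast, mul_pow, mul_comm]
  have h13 : Real.exp (tl Dq (List.ofFn s')) = X ^ (tl Dq (List.ofFn s') / Real.log X) := by
    rw [Real.rpow_def_of_pos hX0, mul_div_cancel₀ _ hlX.ne']
  have hW0 : 0 < W := by linarith
  rw [h12, hBd, h13]
  calc H ^ M * W ^ (2 * ((M : ℝ) / 2)) * X ^ (max (E2 d (Real.log Λ₀ / Real.log X)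
        (v₁.z / Real.log X) (v₂.z / Real.log X) (v₃.z / Real.log X) 0
        ((qs.map Pq.z).sum / Real.log X)) (Real.log Λ₀ / Real.log X / 3 +
          2 * ((qs.map Pq.z).sum / Real.log X) + 2 * (7 / 8 + d) * 0) + ε₁)
      ≤ H ^ M * W ^ (2 * ((M : ℝ) / 2)) * X ^ (tl Dq (List.ofFn s') / Real.log X + Ec + ε₁) := by
        refine mul_le_mul_of_nonneg_left ?_ (by positivity)
        exact Real.rpow_le_rpow_of_exponent_le hX1.le (by linarith)
    _ = _ := by
        rw [show tl Dq (List.ofFn s') / Real.log X + Ec + ε₁ =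
          (Ec + ε₁) + tl Dq (List.ofFn s') / Real.log X by ring, Real.rpow_add hX0]
        ring

end

end Crest.Agent.R017.ET71
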