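import Crest.Agent.R017.P1V5_176
import Crest.Agent.R017.FNEb_708
import Crest.Agent.R017.TMn_968

/-!
# Row 17, R8 / P1: the real line of the large sieve half of `et` (helper90)

* `DmH`, `DmH.of` : helper176's `Dm5` in units of `log X`
* `hb_core` : the linear cases
* **`hb_line`** : for `k' ≤ 3/5 κ` the large sieve bound of the Gram sum at a fixed cube plus the
  three-lump bound `R` of the sequence is at most `2 (κ + n + e₂ + 3/4 d κ) - 2/3 (κ - k')`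
-/

set_option autoImplicit false
set_option linter.unusedVariables false

noncomputable section

namespace Crest.Agent.R017.GHR90

open Crest.Agent.R017.P1V5176 Crest.Agent.R017.TM708 Crest.Agent.R017.TM968

/-- `Dm5` (helper176) times `c`, `D = d c` -/
structure DmH (c D y₃ y₄ u x : ℝ) : Prop where
  u4 : u ≤ y₄
  y43 : y₄ ≤ y₃
  u0 : 2 / 9 * c ≤ u
  y3 : y₃ ≤ 2 / 7 * c
  N1 : y₃ + y₄ + u ≤ 84 / 103 * c
  near : 99 / 100 * c ≤ y₃ + y₄ + 2 * u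
  x0 : 0 ≤ x
  adm : x = 0 ∨ (x + 2 * D ≤ 1 / 36 * c ∧ x + 7 / 10 * (y₃ + y₄ + u) ≤ 199 / 360 * c ∧
    y₃ + y₄ + u + x ≤ 15 / 19 * c ∧ y₃ + x ≤ 2 / 7 * c) ∨
    (8 * x ≤ D ∧ y₃ + y₄ + u + x ≤ 4 / 5 * c)
  d0 : 0 ≤ D
  d1 : D ≤ 1 / 42 * c

lemma DmH.of {c d y₃ y₄ u x : ℝ} (hc : 0 < c) (h : Dm5 (y₃ / c) (y₄ / c) (u / c) (x / c) d) :
    DmH c (d * c) y₃ y₄ u x := by
  obtain ⟨u4, y43, u0, hy3, N1, near, hx0, adm, d0, d1⟩ := h
  have e : ∀ z : ℝ, z / c * c = z := fun z => div_mul_cancel₀ z hc.ne'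
  have m : ∀ {a b : ℝ}, a ≤ b → a * c ≤ b * c := fun h => mul_le_mul_of_nonneg_right h hc.le
  have m1 := m u4
  have m2 := m y43
  have m3 := m u0
  have m4 := m hy3
  have m5 := m N1
  have m6 := m near
  have m7 := m hx0
  have m8 := m d0
  have m9 := m d1
  simp only [add_mul, mul_assoc, e, zero_mul] at m1 m2 m3 m4 m5 m6 m7 m8 m9
  refine ⟨m1, m2, m3, m4, m5, m6, m7, ?_, m8, m9⟩
  rcases adm with h | ⟨h1, h2, h3, h4⟩ | ⟨h1, h2⟩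
  · left
    rcases div_eq_zero_iff.1 h with h | h
    · exact h
    · exact absurd h hc.ne'
  · right; left
    have n1 := m h1
    have n2 := m h2
    have n3 := m h3
    have n4 := m h4
    simp only [add_mul, mul_assoc, e] at n1 n2 n3 n4
    refine ⟨n1, ?_, n3, n4⟩
    have : 7 / 10 * (y₃ / c + y₄ / c + u / c) * c = 7 / 10 * (y₃ + y₄ + u) := by
      field_simp
    have h2' := m h2
    rw [add_mul, e, this] at h2'
    exact h2'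
  · right; right
    have n1 := m h1
    have n2 := m h2
    simp only [add_mul, mul_assoc, e] at n1 n2
    exact ⟨n1, n2⟩

set_option maxHeartbeats 8000000 in
lemma hb_core {c D y₃ y₄ u x a₁ a₂ a₃ ax k v δ z₁ z₂ z₃ w l t Q T m e2 Rr : ℝ}
    (hD : DmH c D y₃ y₄ u x)
    (e20 : 0 ≤ e2) (e21 : 5 / 4 * (y₃ + y₄ + u) - c ≤ e2)
    (a1 : a₁ ≤ y₃ + t) (a2 : a₂ ≤ y₄ + t)
    (a3 : a₃ ≤ u + t) (ax1 : ax ≤ x + t) (ax0 : 0 ≤ ax) (k0 : 0 ≤ k) (k1 : k ≤ 3 / 5 * c + t)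
    (v0 : 0 ≤ v) (v1 : v ≤ 2 * (y₃ + y₄ + u) - c + 11 / 5 * x + t)
    (v2 : v ≤ 3 / 4 * (y₃ + y₄ + u) + 11 / 5 * x + t)
    (δ0 : 0 ≤ δ) (δ1 : 2 * δ ≤ v + t) (z10 : 0 ≤ z₁) (z20 : 0 ≤ z₂) (z30 : 0 ≤ z₃) (w0 : 0 ≤ w)
    (t0 : 0 ≤ t) (wx : w ≤ ax + t) (hn : z₁ + z₂ + z₃ + w ≤ a₁ + a₂ + a₃ + ax - δ + t)
    (hl : l + (z₁ + z₂ + z₃ + w) ≤ v + (a₁ + a₂ + a₃ + ax) - 3 * δ + t)
    (m1 : m ≤ a₁) (m2 : m ≤ a₂) (m3 : m ≤ a₃) (hz2 : z₃ ≤ z₂) (hz1 : z₃ ≤ z₁)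
    (hQ : Q ≤ k ∨ Q ≤ v - 2 * δ ∨ Q ≤ 2 / 3 * (k + (v - 2 * δ)))
    (hT1 : T ≤ 2 * (z₁ + z₂ + z₃ + w) ∨ T ≤ 4 / 3 * (z₁ + z₂ + z₃ + w) + (c + l) / 3 ∨
      T ≤ 4 / 3 * (z₁ + z₂ + z₃ + w) + (5 / 4 * (y₃ + y₄ + u) + l) / 3 ∨
      T ≤ 4 / 3 * (z₁ + z₂ + z₃ + w) + (3 / 2 * l + l) / 3 ∨
      T ≤ 4 / 3 * (z₁ + z₂ + z₃ + w) + (l + (z₁ + z₂ + z₃ + w + w) / 2 + l) / 3 ∨
      T ≤ l + (z₁ + z₂ + z₃ + w))
    (hT2 : T ≤ l + (z₁ + z₂ + z₃ + w) + (z₃ + w) ∨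
      T ≤ z₁ + z₂ + z₃ + w + (2 * (z₁ + z₂) + (l + (z₃ + w))) / 3)
    (hR : Rr ≤ k + (a₁ + a₂ + a₃ + ax) + 3 / 4 * (m + ax) + 3 / 5 * D ∨
      Rr ≤ k + (a₁ + a₂ + a₃ + ax) + (ax - 2 / 3 * k)) :
    -k / 3 - (a₁ + a₂ + a₃ + ax) / 3 - v / 3 + 3 * δ + Q + T + Rr + 7 / 10 * D ≤
      2 * (c + (a₁ + a₂ + a₃ + ax) + e2 + 3 / 4 * D) - 2 / 3 * (c - k) + 32 * t := by
  obtain ⟨u4, y43, u0, hy3, N1, near, hx0, adm, d0, d1⟩ := hD
  rcases adm with rfl | ⟨a1', a2', a3', a4'⟩ | ⟨a1', a2'⟩ <;> rcases hQ with hQ | hQ | hQ <;>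
  rcases hT1 with hT1 | hT1 | hT1 | hT1 | hT1 | hT1 <;> rcases hT2 with hT2 | hT2 <;>
  rcases hR with hR | hR <;> linarith

lemma qd_cases (k v b g : ℝ) : qd k v b g ≤ k ∨ qd k v b g ≤ v + b - 2 * g ∨
    qd k v b g ≤ 2 / 3 * (k + (v + b - 2 * g)) := by
  unfold qd
  rcases max_choice k (max (v + b - 2 * g) (2 / 3 * (k + (v + b - 2 * g)))) with h | h
  · rw [h]; exact Or.inl le_rfl
  · rw [h]
    rcases max_choice (v + b - 2 * g) (2 / 3 * (k + (v + b - 2 * g))) with h' | h'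
    · rw [h']; exact Or.inr (Or.inl le_rfl)
    · rw [h']; exact Or.inr (Or.inr le_rfl)

lemma eH_cases (c N l n : ℝ) : eH (max c N) l n ≤ 2 * n ∨ eH (max c N) l n ≤ 4 / 3 * n + (c + l) / 3 ∨
    eH (max c N) l n ≤ 4 / 3 * n + (N + l) / 3 ∨
    eH (max c N) l n ≤ 4 / 3 * n + (3 / 2 * l + l) / 3 ∨ eH (max c N) l n ≤ l + n := by
  unfold eH
  rcases max_choice (eF (max c N) l n) (l + n) with h0 | h0
  swap
  · rw [h0]; exact Or.inr (Or.inr (Or.inr (Or.inr le_rfl)))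
  rw [h0]
  unfold eF
  rcases max_choice (2 * n) (4 / 3 * n + (max (max c N) (3 / 2 * l) + l) / 3) with h | h
  · rw [h]; exact Or.inl le_rfl
  · rw [h]
    rcases max_choice (max c N) (3 / 2 * l) with h' | h'
    · rw [h']
      rcases max_choice c N with h'' | h''
      · rw [h'']; exact Or.inr (Or.inl le_rfl)
      · rw [h'']; exact Or.inr (Or.inr (Or.inl le_rfl))
    · rw [h']; exact Or.inr (Or.inr (Or.inr (Or.inl le_rfl)))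

lemma eW_cases (c N l n w : ℝ) : eW (max c N) l n w ≤ 2 * n ∨
    eW (max c N) l n w ≤ 4 / 3 * n + (c + l) / 3 ∨
    eW (max c N) l n w ≤ 4 / 3 * n + (N + l) / 3 ∨
    eW (max c N) l n w ≤ 4 / 3 * n + (3 / 2 * l + l) / 3 ∨
    eW (max c N) l n w ≤ 4 / 3 * n + (l + (n + w) / 2 + l) / 3 ∨ eW (max c N) l n w ≤ l + n := by
  unfold eW kW
  rcases max_choice (max c N) (l + (n + w) / 2) with e | e
  · rw [e]
    rcases eH_cases c N l n with h | h | h | h | h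
    · exact Or.inl h
    · exact Or.inr (Or.inl h)
    · exact Or.inr (Or.inr (Or.inl h))
    · exact Or.inr (Or.inr (Or.inr (Or.inl h)))
    · exact Or.inr (Or.inr (Or.inr (Or.inr (Or.inr h))))
  · rw [e]
    have := eH_cases (l + (n + w) / 2) (l + (n + w) / 2) l n
    rw [max_self] at this
    rcases this with h | h | h | h | h
    · exact Or.inl h
    · exact Or.inr (Or.inr (Or.inr (Or.inr (Or.inl h))))
    · exact Or.inr (Or.inr (Or.inr (Or.inr (Or.inl h))))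
    · exact Or.inr (Or.inr (Or.inr (Or.inl h)))
    · exact Or.inr (Or.inr (Or.inr (Or.inr (Or.inr h))))

lemma tCT_cases (v y₁ y₂ y₃ w : ℝ) : tCT v y₁ y₂ y₃ w ≤ v + (y₁ + y₂ + y₃ + w) + (y₃ + w) ∨
    tCT v y₁ y₂ y₃ w ≤ y₁ + y₂ + y₃ + w + (2 * (y₁ + y₂) + (v + (y₃ + w))) / 3 := by
  unfold tCT
  rw [gv_eq]
  rcases max_choice (v + (y₃ + w) + (y₁ + y₂))
    (y₁ + y₂ + (2 * (y₁ + y₂) + (v + (y₃ + w))) / 3) with h | h
  · left; rw [h]; linarith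
  · right; rw [h]; linarith

/-- the closed form through the smallest lump -/
lemma tAll_cases (d v : ℝ) (z₁ z₂ z₃ w : ℝ) : ∃ a b c : ℝ, a + b + c = z₁ + z₂ + z₃ ∧ c ≤ a ∧
    c ≤ b ∧ ((0 ≤ z₁ ∧ 0 ≤ z₂ ∧ 0 ≤ z₃) → 0 ≤ a ∧ 0 ≤ b ∧ 0 ≤ c) ∧
    (tAll d v z₁ z₂ z₃ w ≤ v + (z₁ + z₂ + z₃ + w) + (c + w) ∨
      tAll d v z₁ z₂ z₃ w ≤ z₁ + z₂ + z₃ + w + (2 * (a + b) + (v + (c + w))) / 3) := by
  have h0 := tAll_le_CT3 d v z₁ z₂ z₃ w
  have h1 : tAll d v z₁ z₂ z₃ w ≤ tCT v z₁ z₂ z₃ w := h0.trans (min_le_left _ _)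
  have h2 : tAll d v z₁ z₂ z₃ w ≤ tCT v z₂ z₃ z₁ w :=
    h0.trans ((min_le_right _ _).trans (min_le_left _ _))
  have h3 : tAll d v z₁ z₂ z₃ w ≤ tCT v z₃ z₁ z₂ w :=
    h0.trans ((min_le_right _ _).trans (min_le_right _ _))
  rcases le_total z₁ z₂ with e | e
  · rcases le_total z₁ z₃ with e' | e'
    · refine ⟨z₂, z₃, z₁, by ring, e, e', fun h => ⟨h.2.1, h.2.2, h.1⟩, ?_⟩
      rcases tCT_cases v z₂ z₃ z₁ w with h | h
      · left; linarith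
      · right; linarith
    · refine ⟨z₁, z₂, z₃, by ring, e', e'.trans e, fun h => h, ?_⟩
      rcases tCT_cases v z₁ z₂ z₃ w with h | h
      · left; linarith
      · right; linarith
  · rcases le_total z₂ z₃ with e' | e'
    · refine ⟨z₃, z₁, z₂, by ring, e', e, fun h => ⟨h.2.2, h.1, h.2.1⟩, ?_⟩
      rcases tCT_cases v z₃ z₁ z₂ w with h | h
      · left; linarith
      · right; linarith
    · refine ⟨z₁, z₂, z₃, by ring, e'.trans e, e', fun h => h, ?_⟩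
      rcases tCT_cases v z₁ z₂ z₃ w with h | h
      · left; linarith
      · right; linarith

/-- **the real line**, in units of `log X` : `c = κ log X`, parents `y₃, y₄, u, x`, child list
`a₁, a₂, a₃, ax`, `k = log K'`, level `v`, `δ = log N δ`, `z, w` the child of the T-moment at the
level `l`, tolerance `t` -/
theorem hb_line {c d y₃ y₄ u x a₁ a₂ a₃ ax k v δ z₁ z₂ z₃ w l t : ℝ} (hc : 0 < c)
    (hD : Dm5 (y₃ / c) (y₄ / c) (u / c) (x / c) d)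
    (a1 : a₁ ≤ y₃ + t) (a2 : a₂ ≤ y₄ + t)
    (a3 : a₃ ≤ u + t) (ax1 : ax ≤ x + t) (ax0 : 0 ≤ ax) (k0 : 0 ≤ k) (k1 : k ≤ 3 / 5 * c + t)
    (v0 : 0 ≤ v) (v1 : v ≤ min (2 * (y₃ + y₄ + u) - c) (3 / 4 * (y₃ + y₄ + u)) + 11 / 5 * x + t)
    (δ0 : 0 ≤ δ) (δ1 : 2 * δ ≤ v + t) (z10 : 0 ≤ z₁) (z20 : 0 ≤ z₂) (z30 : 0 ≤ z₃) (w0 : 0 ≤ w)
    (t0 : 0 ≤ t) (wx : w ≤ ax + t) (hn : z₁ + z₂ + z₃ + w ≤ a₁ + a₂ + a₃ + ax - δ + t)
    (hl : l + (z₁ + z₂ + z₃ + w) ≤ v + (a₁ + a₂ + a₃ + ax) - 3 * δ + t) :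
    -k / 3 - (a₁ + a₂ + a₃ + ax) / 3 - v / 3 + 3 * δ + qd k v 0 δ +
      min (eW (max c (5 / 4 * (y₃ + y₄ + u))) l (z₁ + z₂ + z₃ + w) w) (tAll d l z₁ z₂ z₃ w) +
      (k + (a₁ + a₂ + a₃ + ax) +
        max ((3 / 4 + 2 * d) * (min a₁ (min a₂ a₃) + ax)) (ax - 2 / 3 * k)) +
      7 / 10 * (d * c) ≤
      2 * (c + (a₁ + a₂ + a₃ + ax) + max 0 (5 / 4 * (y₃ + y₄ + u) - c) + 3 / 4 * (d * c)) -
        2 / 3 * (c - k) + 33 * t := by
  have H := DmH.of hc hD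
  obtain ⟨a, b, e, h1, h2, h3, h4, h5⟩ := tAll_cases d l z₁ z₂ z₃ w
  obtain ⟨a0, b0, e0⟩ := h4 ⟨z10, z20, z30⟩
  have hv1 := min_le_left (2 * (y₃ + y₄ + u) - c) (3 / 4 * (y₃ + y₄ + u))
  have hv2 := min_le_right (2 * (y₃ + y₄ + u) - c) (3 / 4 * (y₃ + y₄ + u))
  set T := min (eW (max c (5 / 4 * (y₃ + y₄ + u))) l (z₁ + z₂ + z₃ + w) w) (tAll d l z₁ z₂ z₃ w)
    with hT
  have hT1 : T ≤ _ := min_le_left _ _
  have hT2 : T ≤ _ := min_le_right _ _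
  have hd0 := hD.d0
  have hd1 := hD.d1
  have m1 : min a₁ (min a₂ a₃) ≤ a₁ := min_le_left _ _
  have m2 : min a₁ (min a₂ a₃) ≤ a₂ := (min_le_right _ _).trans (min_le_left _ _)
  have m3 : min a₁ (min a₂ a₃) ≤ a₃ := (min_le_right _ _).trans (min_le_right _ _)
  -- the `d`-part of the bound of the sequence
  have hmx : min a₁ (min a₂ a₃) + ax ≤ 3 / 10 * c + 2 * t := by
    rcases H.adm with h | ⟨h, h', h'', h'''⟩ | ⟨h, h'⟩
    · linarith [H.y3]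
    · linarith [H.y3]
    · linarith [H.y3, H.d1]
  have hdm : 2 * d * (min a₁ (min a₂ a₃) + ax) ≤ 3 / 5 * (d * c) + t := by
    have h6 := mul_le_mul_of_nonneg_left hmx (by linarith : (0 : ℝ) ≤ 2 * d)
    have h7 : 4 * d * t ≤ t := by nlinarith
    nlinarith
  have hsum : a + b + e + w = z₁ + z₂ + z₃ + w := by linarith
  have key := hb_core (Q := qd k v 0 δ) (T := T) (m := min a₁ (min a₂ a₃)) (t := t)
    (Rr := k + (a₁ + a₂ + a₃ + ax) +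
      max ((3 / 4 + 2 * d) * (min a₁ (min a₂ a₃) + ax)) (ax - 2 / 3 * k) - t)
    (z₁ := a) (z₂ := b) (z₃ := e) (w := w) (l := l) (v := v) (δ := δ) (k := k) (a₁ := a₁)
    (a₂ := a₂) (a₃ := a₃) (ax := ax) H (le_max_left 0 (5 / 4 * (y₃ + y₄ + u) - c))
    (le_max_right 0 (5 / 4 * (y₃ + y₄ + u) - c)) a1 a2 a3 ax1 ax0 k0 k1 v0 (by linarith)
    (by linarith) δ0 δ1 a0 b0 e0 w0 t0 wx (by linarith) (by linarith) m1 m2 m3 h3 h2
    (by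
      rcases qd_cases k v 0 δ with h | h | h
      · exact Or.inl h
      · right; left; linarith
      · right; right; linarith)
    (by
      rw [hsum]
      rcases eW_cases c (5 / 4 * (y₃ + y₄ + u)) l (z₁ + z₂ + z₃ + w) w with h | h | h | h | h | h
      · left; linarith
      · right; left; linarith
      · right; right; left; linarith
      · right; right; right; left; linarith
      · right; right; right; right; left; linarith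
      · right; right; right; right; right; linarith)
    (by
      rcases h5 with h | h
      · left; linarith
      · right; linarith)
    (by
      rcases max_choice ((3 / 4 + 2 * d) * (min a₁ (min a₂ a₃) + ax)) (ax - 2 / 3 * k) with h | h
      · left
        rw [h]
        linarith
      · right
        rw [h]
        linarith)
  linarith

end Crest.Agent.R017.GHR90
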