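import Crest.Agent.R017.ET2b_71
import Crest.Agent.R017.GHR_90

/-!
# Row 17, R8 / P1: the character side of the cross tail, real inequalities (helper71)

* `E2p_unif` : uniform continuity
* `E2p_lo`   : families `k ≤ 3/5 κ`
* `E2p_hi`   : families `k ≥ 3/5 κ`
-/

set_option autoImplicit false
set_option linter.unusedVariables false

noncomputable section

open Finset

namespace Crest.Agent.R017.ET71

open Crest.Agent.R017.RM986 Crest.Agent.R017.R8T70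
open Crest.Agent.R017.GHR90 (DmH)

/-- the exponent as a function of `(k, y₁, y₂, y₃, a)` -/
def E2f (d : ℝ) (q : Fin 5 → ℝ) : ℝ := E2p d (q 0) (q 1) (q 2) (q 3) (q 4)

lemma cont_E2f (d : ℝ) : Continuous (E2f d) := by
  have h1 : Continuous fun q : Fin 5 → ℝ => r3 d (q 0) (q 1) (q 2) (q 3) 0 (q 4) := by
    unfold r3 rH rA hb eX fL
    fun_prop
  have h2 : Continuous fun q : Fin 5 → ℝ =>
      FT d (q 0) (q 1 + q 2 + q 3 + (0 + q 4)) (q 3) (0 + q 4) := by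
    unfold FT Yb
    fun_prop
  have h3 : Continuous fun q : Fin 5 → ℝ => E3s d (q 0) (q 1) (q 2) (q 3) (0 + q 4) := by
    unfold E3s k1s K0s mn3
    fun_prop
  have h4 : Continuous fun q : Fin 5 → ℝ => q 0 / 3 + 2 * q 4 := by fun_prop
  unfold E2f E2p E2
  exact ((h1.min h2).min h3).max h4

theorem E2p_unif (d : ℝ) {ε : ℝ} (hε : 0 < ε) : ∃ η : ℝ, 0 < η ∧ ∀ q q' : Fin 5 → ℝ,
    (∀ i, 0 ≤ q i ∧ q i ≤ 4) → (∀ i, 0 ≤ q' i ∧ q' i ≤ 4) → (∀ i, |q i - q' i| ≤ η) →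
    E2f d q ≤ E2f d q' + ε := by
  have hc : UniformContinuousOn (E2f d) (Set.Icc (fun _ => 0) (fun _ => 4)) :=
    isCompact_Icc.uniformContinuousOn_of_continuous (cont_E2f d).continuousOn
  rw [Metric.uniformContinuousOn_iff] at hc
  obtain ⟨δ, hδ, H⟩ := hc ε hε
  refine ⟨δ / 2, by positivity, fun q q' hq hq' h => ?_⟩
  have := H q ⟨fun i => (hq i).1, fun i => (hq i).2⟩ q' ⟨fun i => (hq' i).1, fun i => (hq' i).2⟩
    (by
      rw [dist_pi_lt_iff hδ]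
      intro i
      rw [Real.dist_eq]
      exact (h i).trans_lt (by linarith))
  rw [Real.dist_eq] at this
  linarith [le_abs_self (E2f d q - E2f d q')]

lemma fL_le' {y κ : ℝ} (hy : 0 ≤ y) (hκ : 0 ≤ κ) : fL y κ ≤ y :=
  (fL_le hy hκ).trans (min_le_left _ _)

/-- **small families** -/
theorem E2p_lo {d k z₁ z₂ z₃ z c₁ c₂ c₃ b : ℝ} (hd : 0 ≤ d) (hk : 0 ≤ k)
    (c10 : 0 ≤ c₁) (c1 : c₁ ≤ z₁) (c20 : 0 ≤ c₂) (c2 : c₂ ≤ z₂) (c30 : 0 ≤ c₃) (c3 : c₃ ≤ z₃)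
    (b0 : 0 ≤ b) (b1 : b ≤ z) :
    E2p d k c₁ c₂ c₃ b ≤ k + (c₁ + c₂ + c₃ + b) +
      max ((3 / 4 + 2 * d) * (min z₁ (min z₂ z₃) + z)) (z - 2 / 3 * k) := by
  unfold E2p
  refine max_le ?_ ?_
  · have h1 : E2 d k c₁ c₂ c₃ 0 b ≤ r3 d k c₁ c₂ c₃ 0 b :=
      (min_le_left _ _).trans (min_le_left _ _)
    have h2 := r3_le_904 (κ := k) (y₁ := c₁) (y₂ := c₂) (y₃ := c₃) (m := 0) (a := b) hd
    have h3 : min (fL c₁ k) (min (fL c₂ k) (fL c₃ k)) ≤ min z₁ (min z₂ z₃) :=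
      min_le_min ((fL_le' c10 hk).trans c1)
        (min_le_min ((fL_le' c20 hk).trans c2) ((fL_le' c30 hk).trans c3))
    have h4 : (3 / 4 + 2 * d) * (min (fL c₁ k) (min (fL c₂ k) (fL c₃ k)) + (0 + b)) ≤
        (3 / 4 + 2 * d) * (min z₁ (min z₂ z₃) + z) :=
      mul_le_mul_of_nonneg_left (by linarith) (by linarith)
    have := le_max_left ((3 / 4 + 2 * d) * (min z₁ (min z₂ z₃) + z)) (z - 2 / 3 * k)
    linarith
  · have := le_max_right ((3 / 4 + 2 * d) * (min z₁ (min z₂ z₃) + z)) (z - 2 / 3 * k)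
    linarith

/-- the large sieve form at a short child -/
lemma r3_short {d k c₁ c₂ c₃ b : ℝ} (hk : 0 ≤ k) (c10 : 0 ≤ c₁) (c20 : 0 ≤ c₂) (c30 : 0 ≤ c₃)
    (b0 : 0 ≤ b) (hn : 2 * (c₁ + c₂ + c₃ + b) ≤ k) :
    r3 d k c₁ c₂ c₃ 0 b ≤ k + (c₁ + c₂ + c₃ + b) := by
  have e : ∀ y, 0 ≤ y → 2 * y ≤ k → fL y k = y ∧ min y k = y := by
    intro y hy h
    constructor
    · unfold fL
      rw [min_eq_left (by linarith), max_eq_right hy]
    · exact min_eq_left (by linarith)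
  obtain ⟨e1, e1'⟩ := e c₁ c10 (by linarith)
  obtain ⟨e2, e2'⟩ := e c₂ c20 (by linarith)
  obtain ⟨e3, e3'⟩ := e c₃ c30 (by linarith)
  refine (min_le_left _ _).trans ?_
  unfold rH
  rw [e1, e2, e3, e1', e2', e3']
  have : hb k (c₁ + c₂ + c₃ + (0 + b)) ≤ k + (c₁ + c₂ + c₃ + (0 + b)) := by
    unfold hb
    exact max_le le_rfl (max_le (by linarith) (by linarith))
  linarith

set_option maxHeartbeats 1000000 in
/-- **large families** : `z₁, z₂, z₃, z` the whole list, `z₃` its smallest lump; closed form -/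
theorem E2p_hi0 {c d y₃ y₄ u x k z₁ z₂ z₃ z c₁ c₂ c₃ b M : ℝ} (hc : 0 < c)
    (hD : DmH c (d * c) y₃ y₄ u x) (hd : 0 ≤ d) (k0 : 3 / 5 * c ≤ k)
    (hz1 : z₁ ≤ y₃) (hz2 : z₂ ≤ y₃) (h31 : z₃ ≤ z₁) (h32 : z₃ ≤ z₂) (z30 : 0 ≤ z₃)
    (hzx : z ≤ x) (z0 : 0 ≤ z) (p0 : 3 / 10 * c ≤ z₁ + z₂ + z₃ + z)
    (hpN : z₁ + z₂ + z₃ ≤ y₃ + y₄ + u)
    (hM1 : z₃ / 2 ≤ M) (hM2 : 4 / 15 * (z₃ + z) ≤ M)
    (c10 : 0 ≤ c₁) (c1 : c₁ ≤ z₁) (c20 : 0 ≤ c₂) (c2 : c₂ ≤ z₂) (c30 : 0 ≤ c₃) (c3 : c₃ ≤ z₃)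
    (b0 : 0 ≤ b) (b1 : b ≤ z) :
    E2p d k c₁ c₂ c₃ b ≤ c₁ + c₂ + c₃ + b +
      max k (2 / 3 * k + 1 / 3 * (z₁ + z₂ + z₃ + z) + M) + 9 / 10 * (d * c) := by
  have hk : 0 ≤ k := by linarith
  obtain ⟨u4, y43, u0, hy3, N1, near, hx0, adm, d0, d1⟩ := hD
  have hx36 : x ≤ 1 / 36 * c := by
    rcases adm with h | ⟨h, -⟩ | ⟨h, -⟩ <;> linarith
  set T := max k (2 / 3 * k + 1 / 3 * (z₁ + z₂ + z₃ + z) + M) with hT
  have t1 : k ≤ T := le_max_left _ _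
  have t2 : 2 / 3 * k + 1 / 3 * (z₁ + z₂ + z₃ + z) + M ≤ T := le_max_right _ _
  unfold E2p
  refine max_le ?_ (by linarith)
  rcases le_total (2 * (c₁ + c₂ + c₃ + b)) k with hs | hs
  · have h1 : E2 d k c₁ c₂ c₃ 0 b ≤ r3 d k c₁ c₂ c₃ 0 b :=
      (min_le_left _ _).trans (min_le_left _ _)
    have h2 := r3_short (d := d) hk c10 c20 c30 b0 hs
    linarith
  · -- the closed form
    have hcb : c₃ + b ≤ 9 / 32 * c := by
      rcases adm with h | ⟨h, h', h'', h'''⟩ | ⟨h, h'⟩ <;> linarith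
    have hdw : 16 / 5 * d * (c₃ + b) ≤ 9 / 10 * (d * c) := by
      have : d * (c₃ + b) ≤ d * (9 / 32 * c) := mul_le_mul_of_nonneg_left hcb hd
      linarith
    have hdw0 : 0 ≤ d * (c₃ + b) := mul_nonneg hd (by linarith)
    set n := c₁ + c₂ + c₃ + (0 + b) with hn
    have hn' : n = c₁ + c₂ + c₃ + b := by rw [hn]; ring
    rcases le_total (n - 3 / 4 * Yb n c₃ (0 + b)) k with hr | hr
    · -- `FT`
      have h1 : E2 d k c₁ c₂ c₃ 0 b ≤ FT d k n c₃ (0 + b) :=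
        (min_le_left _ _).trans (min_le_right _ _)
      refine h1.trans ?_
      have hY2 : n / 3 + Yb n c₃ (0 + b) / 2 ≤ 1 / 3 * (z₁ + z₂ + z₃ + z) + M := by
        have : Yb n c₃ (0 + b) ≤ 2 * (1 / 3 * (z₁ + z₂ + z₃ + z) + M - n / 3) := by
          unfold Yb
          refine max_le (by linarith) (max_le (by linarith) (max_le (by linarith) (by linarith)))
        linarith
      unfold FT
      have e1 : 16 / 5 * d * (c₃ + (0 + b)) = 16 / 5 * d * (c₃ + b) := by ring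
      rw [e1]
      refine max_le (by linarith) (max_le (by linarith) (by linarith))
    · -- `rA`, no excess
      have h1 : E2 d k c₁ c₂ c₃ 0 b ≤ rA d k c₁ c₂ c₃ 0 b :=
        (min_le_left _ _).trans ((min_le_left _ _).trans
          ((min_le_right _ _).trans (min_le_left _ _)))
      refine h1.trans ?_
      have f1 : fL c₁ k ≤ c₁ := fL_le' c10 hk
      have f2 : fL c₂ k ≤ c₂ := fL_le' c20 hk
      have f3 : fL c₃ k ≤ c₃ := fL_le' c30 hk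
      have hX : eX k (fL c₁ k + fL c₂ k) 0 b ≤ 0 := by
        unfold eX
        rcases adm with h | ⟨h, h', h'', h'''⟩ | ⟨h, h'⟩
        · exact (min_le_left _ _).trans (by linarith)
        · exact (min_le_right _ _).trans (max_le le_rfl (max_le (by linarith) (by linarith)))
        · exact (min_le_right _ _).trans (max_le le_rfl (max_le (by linarith) (by linarith)))
      have hY1 : c₃ ≤ Yb n c₃ (0 + b) := le_max_left _ _
      have g1 := min_le_left c₁ k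
      have g2 := min_le_left c₂ k
      have g3 := min_le_left c₃ k
      have g4 : (3 / 4 + 2 * d) * fL c₃ k ≤ 3 / 4 * c₃ + 2 * (d * c₃) := by
        have := mul_le_mul_of_nonneg_left f3 (show (0 : ℝ) ≤ 3 / 4 + 2 * d by linarith)
        linarith
      unfold rA
      linarith

/-- the constant of the far claims, in units `c` -/
def RSx (c k p um x : ℝ) : ℝ :=
  max k (max ((2 * k + max c (p + um)) / 3)
    (max ((k + 2 * p + max c (p + um) / 3) / 3) ((k + 3 * p - 5 / 12 * (p + um - x)) / 3)))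

/-- **large families**, far claims -/
theorem E2p_hi1 {c d y₃ y₄ u x k z₁ z₂ z₃ z c₁ c₂ c₃ b : ℝ} (hc : 0 < c)
    (hD : DmH c (d * c) y₃ y₄ u x) (hd : 0 ≤ d) (k0 : 3 / 5 * c ≤ k)
    (hz1 : z₁ ≤ y₃) (hz2 : z₂ ≤ y₃) (h31 : z₃ ≤ z₁) (h32 : z₃ ≤ z₂) (z30 : 0 ≤ z₃)
    (hzx : z ≤ x) (z0 : 0 ≤ z) (hpN : z₁ + z₂ + z₃ ≤ y₃ + y₄ + u)
    (c10 : 0 ≤ c₁) (c1 : c₁ ≤ z₁) (c20 : 0 ≤ c₂) (c2 : c₂ ≤ z₂) (c30 : 0 ≤ c₃) (c3 : c₃ ≤ z₃)
    (b0 : 0 ≤ b) (b1 : b ≤ z) :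
    E2p d k c₁ c₂ c₃ b ≤ c₁ + c₂ + c₃ + b + RSx c k (z₁ + z₂ + z₃ + z) z₃ x + 9 / 10 * (d * c) := by
  have hk : 0 ≤ k := by linarith
  obtain ⟨u4, y43, u0, hy3, N1, near, hx0, adm, d0, d1⟩ := hD
  have hx36 : x ≤ 1 / 36 * c := by
    rcases adm with h | ⟨h, -⟩ | ⟨h, -⟩ <;> linarith
  set p := z₁ + z₂ + z₃ + z with hp
  set K0 := max c (p + z₃) with hK0
  have K1 : c ≤ K0 := le_max_left _ _
  have K2 : p + z₃ ≤ K0 := le_max_right _ _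
  have t1 : k ≤ RSx c k p z₃ x := le_max_left _ _
  have t2 : (2 * k + K0) / 3 ≤ RSx c k p z₃ x := (le_max_left _ _).trans (le_max_right _ _)
  have t3 : (k + 2 * p + K0 / 3) / 3 ≤ RSx c k p z₃ x :=
    (le_max_left _ _).trans ((le_max_right _ _).trans (le_max_right _ _))
  have t4 : (k + 3 * p - 5 / 12 * (p + z₃ - x)) / 3 ≤ RSx c k p z₃ x :=
    (le_max_right _ _).trans ((le_max_right _ _).trans (le_max_right _ _))
  have hd0 : 0 ≤ d * c := mul_nonneg hd hc.le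
  unfold E2p
  refine max_le ?_ (by linarith)
  refine (min_le_right _ _).trans ?_
  set S := c₁ + c₂ + c₃ with hS
  have hm0 : 0 ≤ mn3 c₁ c₂ c₃ := mn3_nonneg c10 c20 c30
  have hm3 : mn3 c₁ c₂ c₃ ≤ c₃ := mn3_3 _ _ _
  have hmz : mn3 z₁ z₂ z₃ = z₃ := by
    unfold mn3
    rw [min_eq_right h32, min_eq_right h31]
  have hdrop := mn3_drop c1 c2 c3
  rw [hmz] at hdrop
  have hdw : 2 * d * (mn3 c₁ c₂ c₃ + (0 + b)) ≤ 9 / 10 * (d * c) := by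
    have hcb : mn3 c₁ c₂ c₃ + (0 + b) ≤ 9 / 20 * c := by
      rcases adm with h | ⟨h, h', h'', h3'⟩ | ⟨h, h'⟩ <;> linarith
    have := mul_le_mul_of_nonneg_left hcb (show (0 : ℝ) ≤ 2 * d by linarith)
    linarith
  have h54 : 5 / 4 * (S + (0 + b)) ≤ K0 := by
    rcases adm with h | ⟨h, h', h'', h3'⟩ | ⟨h, h'⟩
    · rcases le_total p (4 / 5 * c) with hpc | hpc
      · linarith
      · linarith
    · linarith
    · linarith
  have hK : K0s S (mn3 c₁ c₂ c₃) (0 + b) ≤ K0 := by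
    unfold K0s
    exact max_le (by linarith) (max_le h54 (by linarith))
  have hk1 : k1s S (mn3 c₁ c₂ c₃) (0 + b) ≤
      max (2 * p + K0 / 3) (3 * p - 5 / 12 * (p + z₃ - x)) := by
    unfold k1s
    refine max_le (le_trans ?_ (le_max_left _ _)) (le_trans ?_ (le_max_right _ _))
    · linarith
    · refine (min_le_left _ _).trans ?_
      linarith
  unfold E3s
  have goal : max k (max ((2 * k + K0s S (mn3 c₁ c₂ c₃) (0 + b)) / 3)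
      ((k + k1s S (mn3 c₁ c₂ c₃) (0 + b)) / 3)) ≤ RSx c k p z₃ x := by
    refine max_le t1 (max_le (by linarith) ?_)
    rcases max_choice (2 * p + K0 / 3) (3 * p - 5 / 12 * (p + z₃ - x)) with e | e <;>
    rw [e] at hk1 <;> linarith
  linarith

/-- **large families** -/
theorem E2p_hi {c d y₃ y₄ u x k z₁ z₂ z₃ z c₁ c₂ c₃ b M : ℝ} (hc : 0 < c)
    (hD : DmH c (d * c) y₃ y₄ u x) (hd : 0 ≤ d) (k0 : 3 / 5 * c ≤ k)
    (hz1 : z₁ ≤ y₃) (hz2 : z₂ ≤ y₃) (h31 : z₃ ≤ z₁) (h32 : z₃ ≤ z₂) (z30 : 0 ≤ z₃)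
    (hzx : z ≤ x) (z0 : 0 ≤ z) (p0 : 3 / 10 * c ≤ z₁ + z₂ + z₃ + z)
    (hpN : z₁ + z₂ + z₃ ≤ y₃ + y₄ + u)
    (hM1 : z₃ / 2 ≤ M) (hM2 : 4 / 15 * (z₃ + z) ≤ M)
    (c10 : 0 ≤ c₁) (c1 : c₁ ≤ z₁) (c20 : 0 ≤ c₂) (c2 : c₂ ≤ z₂) (c30 : 0 ≤ c₃) (c3 : c₃ ≤ z₃)
    (b0 : 0 ≤ b) (b1 : b ≤ z) :
    E2p d k c₁ c₂ c₃ b ≤ c₁ + c₂ + c₃ + b +
      min (max k (2 / 3 * k + 1 / 3 * (z₁ + z₂ + z₃ + z) + M))
        (RSx c k (z₁ + z₂ + z₃ + z) z₃ x) + 9 / 10 * (d * c) := by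
  have h1 := E2p_hi0 hc hD hd k0 hz1 hz2 h31 h32 z30 hzx z0 p0 hpN hM1 hM2 c10 c1 c20 c2 c30 c3 b0 b1
  have h2 := E2p_hi1 hc hD hd k0 hz1 hz2 h31 h32 z30 hzx z0 hpN c10 c1 c20 c2 c30 c3 b0 b1
  rcases min_choice (max k (2 / 3 * k + 1 / 3 * (z₁ + z₂ + z₃ + z) + M))
    (RSx c k (z₁ + z₂ + z₃ + z) z₃ x) with e | e <;> rw [e]
  · exact h1
  · exact h2

end Crest.Agent.R017.ET71
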