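import Crest.Agent.R017.P10d_146
import Crest.Agent.R017.P1t_54

/-!
# Row 17, R8 / P1: the class half of the cross tail (helper71)

* `Bk` : a child and a block `(i, m)`; `S8k`, `GkC` : the Gram sum of the structured function at
  `m³ k`, `2^i ≤ N k ≤ 2^(i+1)`, `k` cube-free
* `RSk`, `EK` : the room
* **`GkU`** : the Gram sum for the families `3/5 κ ≤ k ≤ 17/20 κ`
-/

set_option autoImplicit false

noncomputable section

open Finset
open scoped Classical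

namespace Crest.Agent.R017.ET371

open Crest.Agent.R012 Crest.Agent.R012.Eis
open Crest.Agent.R017.C70 (CbF)
open Crest.Agent.R017.B770
open Crest.Agent.R017.Prov71
open Crest.Agent.R017.XT71 (Sys Win mx)
open Crest.Agent.R017.E5B71
open Crest.Agent.R017.P1l54
open Crest.Agent.R017.P10146 (stC)

/-- a child and a block: `i` = dyadic size of `k`, `m` = the cube -/
abbrev Bk := Bc × (ℕ × Eis)

/-- exponents : `inr ()` = the family `2^(i+1)` -/
def S8k : Sys Bk (((Fin 3 ⊕ Fin 5) ⊕ Fin 3) ⊕ Unit) where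
  ev X a := Sum.elim (S8.ev X a.1) fun _ => ((a.2.1 : ℝ) + 1) * Real.log 2 / Real.log X
  g _ := 1
  n _ := 0
  s₁ a := S8.s₁ a.1
  s₂ a := max (S8.s₂ a.1) (nm a.2.2)

variable {Λ : Type*} (π : Λ → DPar) (h : ℝ → ℝ) (e0 : ℝ)

/-- the Gram sum of the structured function of a child at `m³ k` -/
def GkC (lam : Λ × Eis) (a : Bk) (qs : List Pq) : ℝ :=
  if okC (π lam.1) lam.2 a.1 qs ∧ IsPrim a.2.2 then
    ∑ k ∈ (primBall (2 ^ (a.2.1 + 1))).filter (fun k => CbF k ∧ 2 ^ a.2.1 ≤ nm k),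
      ‖stC π h e0 lam a.1 qs (a.2.2 ^ 3 * k)‖ ^ 2
  else 0

/-- the character side of the whole child at the family `k`, `um` = smallest lump : the closed
form -/
def RS0k (k p um x : ℝ) : ℝ :=
  max (k + p) (2 / 3 * k + 4 / 3 * p + max (um / 2) (4 / 15 * (um + x)))

/-- the same from the far claims at the family `max κ (p + um)` -/
def RS1k (κ k p um x : ℝ) : ℝ :=
  p + max k (max ((2 * k + max κ (p + um)) / 3)
    (max ((k + 2 * p + max κ (p + um) / 3) / 3) ((k + 3 * p - 5 / 12 * (p + um - x)) / 3)))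

/-- **the character side of the whole child** -/
def RSk (κ k p um x : ℝ) : ℝ := min (RS0k k p um x) (RS1k κ k p um x)

/-- the configurations: children `Dom8`, families `3/5 κ ≤ k ≤ 17/20 κ` -/
def DomK (Par : Set (Fin 3 ⊕ Fin 5 → ℝ)) :
    Set ((((Fin 3 ⊕ Fin 5) ⊕ Fin 3) ⊕ Unit → ℝ) × (Kd → ℝ)) :=
  {q | ((fun i => q.1 (.inl i)), q.2) ∈ Dom8 Par ∧
    3 / 5 * cκ (fun i => q.1 (.inl (.inl i))) ≤ q.1 (.inr ()) ∧
    q.1 (.inr ()) ≤ 17 / 20 * cκ (fun i => q.1 (.inl (.inl i)))}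

/-- total length of the child -/
def pK (q : (((Fin 3 ⊕ Fin 5) ⊕ Fin 3) ⊕ Unit → ℝ) × (Kd → ℝ)) : ℝ :=
  ∑ i : Fin 3, q.1 (.inl (.inr i)) + q.2 .am

/-- smallest lump of the child -/
def umK (q : (((Fin 3 ⊕ Fin 5) ⊕ Fin 3) ⊕ Unit → ℝ) × (Kd → ℝ)) : ℝ :=
  min (q.1 (.inl (.inr 0))) (min (q.1 (.inl (.inr 1))) (q.1 (.inl (.inr 2))))

/-- **the room** -/
def EK (d : ℝ) (q : (((Fin 3 ⊕ Fin 5) ⊕ Fin 3) ⊕ Unit → ℝ) × (Kd → ℝ)) : ℝ :=
  2 * (cκ (fun i => q.1 (.inl (.inl i))) + pK q +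
      max 0 (5 / 4 * cN (fun i => q.1 (.inl (.inl i))) - cκ (fun i => q.1 (.inl (.inl i)))) -
      (cκ (fun i => q.1 (.inl (.inl i))) - q.1 (.inr ())) / 3) +
    d * cκ (fun i => q.1 (.inl (.inl i))) / 2 -
    RSk (cκ (fun i => q.1 (.inl (.inl i)))) (q.1 (.inr ())) (pK q) (umK q)
      (cx' (fun i => q.1 (.inl (.inl i))))

/-- **the class half** -/
def GkU (Par : Set (Fin 3 ⊕ Fin 5 → ℝ)) (d : ℝ) : Prop :=
  UB S8k Dq (GkC π h e0) (DomK Par) ∅ (EK d)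

end Crest.Agent.R017.ET371
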