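import Crest.Agent.R017.ET3a_71
import Crest.Agent.R017.FNEb_708
import Crest.Agent.R017.P10d_146

/-!
# Row 17, R8 / P1: the class half, raw form (helper71)

* **`GkB`** : for a parent `PD` (whole child `us`, `gs`, `q = 1`) of length `≥ κ/2 − 2x`, a block
  `2^i ≤ N k ≤ 2^(i+1)`, `3/5 κ ≤ k ≤ 17/20 κ`, and a primary `m`, the Gram sum of
  `StE .. (m³ k)` over cube-free `k`
-/

set_option autoImplicit false

noncomputable section

open Finset
open scoped Classical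

namespace Crest.Agent.R017.ET371

open Crest.Agent.R012 Crest.Agent.R012.Eis Crest.Agent.R012.MC
open Crest.Agent.R017.C70
open Crest.Agent.R017.HP842 (sqc alL)
open Crest.Agent.R017.B770
open Crest.Agent.R017.Prov71
open Crest.Agent.R017.E2440 (StE)
open Crest.Agent.R017.I1146
open Crest.Agent.R017.E5B71 Crest.Agent.R017.E5P571 Crest.Agent.R017.E5L770
open Crest.Agent.R017.P1e54 Crest.Agent.R017.P1f54 Crest.Agent.R017.P1k54 Crest.Agent.R017.P1l54
open Crest.Agent.R017.TM708 (PD)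

/-- the exponent of the class half : `c` = free level, `N` = lumps of the parent, `x` its
amplifier, `P` = length, `um` = smallest lump of the child, `k` = class -/
def GkE (d c N x P um k : ℝ) : ℝ :=
  2 * (c + P + max 0 (5 / 4 * N - c) - (c - k) / 3) + 3 / 5 * (d * c) - RSk c k P um x

variable {Λ : Type*} (π : Λ → DPar) (h : ℝ → ℝ) (e0 : ℝ)

/-- **the class half** -/
def GkB (d : ℝ) (D5 : Set (Fin 5 → ℝ)) : Prop :=
  ∀ ε : ℝ, 0 < ε → ∃ τ : ℝ, 0 < τ ∧ ∀ (lam : Λ) (s : Eis), s ∈ FE47.SM (π lam).n →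
    ∀ (N : ℕ) (B : ℝ), ∃ (M : ℕ) (X₀ : ℝ), 3 ≤ X₀ ∧ ∀ X : ℝ, X₀ ≤ X → ∀ b ∈ D5,
      ∀ (us : Fin 3 → Pq) (gs : List Pq) (κ H : ℝ), PD X τ B H N b 1 us gs κ →
      (b 0 / 2 - 2 * b 4 - τ) * Real.log X ≤ LN ([us 0, us 1, us 2] ++ gs) →
      ∀ (i n : ℕ) (m : Eis), IsPrim m → (nm m : ℝ) ≤ X →
      (3 / 5 * b 0 - τ) * Real.log X ≤ (i + 1) * Real.log 2 →
      (i + 1) * Real.log 2 ≤ (17 / 20 * b 0 + τ) * Real.log X →
      n * Real.log 2 ≤
        (min (2 * (b 1 + b 2 + b 3) - b 0) (3 / 4 * (b 1 + b 2 + b 3)) + 11 / 5 * b 4 + τ) *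
          Real.log X →
      ∑ k ∈ (primBall (2 ^ (i + 1))).filter (fun k => CbF k ∧ 2 ^ i ≤ nm k),
        ‖StE (Real.exp (e0 * κ)) (JW (Real.sqrt (2 ^ n)) (1 / 10) (2 ^ n)) (omP n)
          (sqc 1 (alL h (([us 0, us 1, us 2] ++ gs).map (Pt (π lam) s)))) (m ^ 3 * k)‖ ^ 2 ≤
        H ^ M * X ^ ε * Real.exp (GkE d (b 0 * Real.log X) ((b 1 + b 2 + b 3) * Real.log X)
          (b 4 * Real.log X) (LN ([us 0, us 1, us 2] ++ gs))
          (min (us 0).z (min (us 1).z (us 2).z)) ((i + 1) * Real.log 2))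

end Crest.Agent.R017.ET371
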