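import Crest.Agent.R017.ET3b_71
import Crest.Agent.R017.ET2r_71

/-!
# Row 17, R8 / P1: the cross tail, real lemmas of the assembly (helper71)

* `RSk_scale`, `RSk_lip`
* `E2p_clamp` : children of a window by children of the exact point
* `Ec_lo`, `Ec_hi` : the exponent of the character side, exact point
-/

set_option autoImplicit false
set_option linter.unusedVariables false

noncomputable section

open Finset

namespace Crest.Agent.R017.ET371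

open Crest.Agent.R017.ET71
open Crest.Agent.R017.GHR90 (DmH)

lemma RS0k_scale {L k p u x : ℝ} (hL : 0 ≤ L) :
    RS0k (k * L) (p * L) (u * L) (x * L) = RS0k k p u x * L := by
  unfold RS0k
  rw [max_mul_of_nonneg _ _ hL, add_mul (2 / 3 * k + 4 / 3 * p), max_mul_of_nonneg _ _ hL]
  congr 1
  · ring
  · congr 1
    · ring
    · congr 1 <;> ring

lemma RSx_scale {L κ k p u x : ℝ} (hL : 0 ≤ L) :
    RSx (κ * L) (k * L) (p * L) (u * L) (x * L) = RSx κ k p u x * L := by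
  have e : max (κ * L) (p * L + u * L) = max κ (p + u) * L := by
    rw [max_mul_of_nonneg _ _ hL, add_mul]
  unfold RSx
  rw [e]
  generalize max κ (p + u) = m
  rw [max_mul_of_nonneg k _ hL, max_mul_of_nonneg ((2 * k + m) / 3) _ hL,
    max_mul_of_nonneg ((k + 2 * p + m / 3) / 3) _ hL]
  congr 1
  congr 1
  · ring
  · congr 1 <;> ring

lemma RS1k_eq {κ k p u x : ℝ} : RS1k κ k p u x = p + RSx κ k p u x := rfl

lemma RSk_scale {L κ k p u x : ℝ} (hL : 0 ≤ L) :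
    RSk (κ * L) (k * L) (p * L) (u * L) (x * L) = RSk κ k p u x * L := by
  unfold RSk
  rw [min_mul_of_nonneg _ _ hL, RS0k_scale hL, RS1k_eq, RS1k_eq, RSx_scale hL]
  congr 1
  ring

lemma RSk_lip {κ k p p' u u' x e : ℝ} (hp : |p - p'| ≤ e) (hu : |u - u'| ≤ e) :
    RSk κ k p u x ≤ RSk κ k p' u' x + 3 * e := by
  obtain ⟨p1, p2⟩ := abs_le.1 hp
  obtain ⟨u1, u2⟩ := abs_le.1 hu
  have he : 0 ≤ e := (abs_nonneg _).trans hp
  have h0 : RS0k k p u x ≤ RS0k k p' u' x + 2 * e := by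
    unfold RS0k
    have a1 := le_max_left (k + p') (2 / 3 * k + 4 / 3 * p' + max (u' / 2) (4 / 15 * (u' + x)))
    have a2 := le_max_right (k + p') (2 / 3 * k + 4 / 3 * p' + max (u' / 2) (4 / 15 * (u' + x)))
    refine max_le (by linarith) ?_
    have : max (u / 2) (4 / 15 * (u + x)) ≤ max (u' / 2) (4 / 15 * (u' + x)) + e / 2 := by
      refine max_le ?_ ?_
      · have := le_max_left (u' / 2) (4 / 15 * (u' + x))
        linarith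
      · have := le_max_right (u' / 2) (4 / 15 * (u' + x))
        linarith
    linarith
  have hK : max κ (p + u) ≤ max κ (p' + u') + 2 * e := by
    refine max_le ?_ ?_
    · have := le_max_left κ (p' + u')
      linarith
    · have := le_max_right κ (p' + u')
      linarith
  have h1 : RS1k κ k p u x ≤ RS1k κ k p' u' x + 2 * e + e / 3 := by
    rw [RS1k_eq, RS1k_eq]
    have : RSx κ k p u x ≤ RSx κ k p' u' x + e + e / 3 := by
      have t1 : k ≤ RSx κ k p' u' x := le_max_left _ _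
      have t2 : (2 * k + max κ (p' + u')) / 3 ≤ RSx κ k p' u' x :=
        (le_max_left _ _).trans (le_max_right _ _)
      have t3 : (k + 2 * p' + max κ (p' + u') / 3) / 3 ≤ RSx κ k p' u' x :=
        (le_max_left _ _).trans ((le_max_right _ _).trans (le_max_right _ _))
      have t4 : (k + 3 * p' - 5 / 12 * (p' + u' - x)) / 3 ≤ RSx κ k p' u' x :=
        (le_max_right _ _).trans ((le_max_right _ _).trans (le_max_right _ _))
      unfold RSx at t1 t2 t3 t4 ⊢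
      exact max_le (by linarith) (max_le (by linarith) (max_le (by linarith) (by linarith)))
    linarith
  unfold RSk
  rcases min_choice (RS0k k p' u' x) (RS1k κ k p' u' x) with h | h <;> rw [h]
  · exact (min_le_left _ _).trans (by linarith)
  · exact (min_le_right _ _).trans (by linarith)

/-- **children of a window by children of the exact point** -/
lemma E2p_clamp {d ε' η : ℝ} (HU : ∀ q q' : Fin 5 → ℝ, (∀ i, 0 ≤ q i ∧ q i ≤ 4) →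
      (∀ i, 0 ≤ q' i ∧ q' i ≤ 4) → (∀ i, |q i - q' i| ≤ η) → E2f d q ≤ E2f d q' + ε')
    {k σ v₁ v₂ v₃ av ρ Ec : ℝ} (k0 : 0 ≤ k) (k1 : k ≤ 3) (σ0 : 0 ≤ σ) (hσρ : σ ≤ ρ)
    (hρη : ρ ≤ η) (hρ1 : ρ ≤ 1) (v10 : 0 ≤ v₁) (v11 : v₁ ≤ 3) (v20 : 0 ≤ v₂) (v21 : v₂ ≤ 3)
    (v30 : 0 ≤ v₃) (v31 : v₃ ≤ 3) (a0 : 0 ≤ av) (a1 : av ≤ 3)
    (Hc : ∀ c₁ c₂ c₃ b : ℝ, 0 ≤ c₁ → c₁ ≤ v₁ → 0 ≤ c₂ → c₂ ≤ v₂ → 0 ≤ c₃ → c₃ ≤ v₃ →
      0 ≤ b → b ≤ av → E2p d k c₁ c₂ c₃ b ≤ c₁ + c₂ + c₃ + b + Ec)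
    {y₁ y₂ y₃ a : ℝ} (y10 : 0 ≤ y₁) (y11 : y₁ ≤ v₁ + ρ) (y20 : 0 ≤ y₂) (y21 : y₂ ≤ v₂ + ρ)
    (y30 : 0 ≤ y₃) (y31 : y₃ ≤ v₃ + ρ) (b0 : 0 ≤ a) (b1 : a ≤ av + ρ) :
    E2p d (k + σ) y₁ y₂ y₃ a ≤ y₁ + y₂ + y₃ + a + (Ec + ε') := by
  have hρ : 0 ≤ ρ := σ0.trans hσρ
  have cl : ∀ {y v : ℝ}, 0 ≤ y → y ≤ v + ρ → 0 ≤ v → 0 ≤ min y v ∧ min y v ≤ v ∧
      min y v ≤ y ∧ |y - min y v| ≤ ρ := by
    intro y v h1 h2 h3
    refine ⟨le_min h1 h3, min_le_right _ _, min_le_left _ _, ?_⟩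
    rw [abs_of_nonneg (by linarith [min_le_left y v])]
    rcases min_choice y v with e | e <;> rw [e] <;> linarith
  obtain ⟨p1, p2, p3, p4⟩ := cl y10 y11 v10
  obtain ⟨q1, q2, q3, q4⟩ := cl y20 y21 v20
  obtain ⟨r1, r2, r3, r4⟩ := cl y30 y31 v30
  obtain ⟨s1, s2, s3, s4⟩ := cl b0 b1 a0
  have h1 := HU ![k + σ, y₁, y₂, y₃, a] ![k, min y₁ v₁, min y₂ v₂, min y₃ v₃, min a av]
    (by
      intro i
      fin_cases i <;> simp <;> constructor <;> linarith)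
    (by
      intro i
      fin_cases i
      · exact ⟨k0, by show k ≤ 4; linarith⟩
      · exact ⟨p1, by show min y₁ v₁ ≤ 4; linarith⟩
      · exact ⟨q1, by show min y₂ v₂ ≤ 4; linarith⟩
      · exact ⟨r1, by show min y₃ v₃ ≤ 4; linarith⟩
      · exact ⟨s1, by show min a av ≤ 4; linarith⟩)
    (by
      intro i
      fin_cases i
      · show |k + σ - k| ≤ η
        rw [add_sub_cancel_left, abs_of_nonneg σ0]
        linarith
      · exact p4.trans hρη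
      · exact q4.trans hρη
      · exact r4.trans hρη
      · exact s4.trans hρη)
  have h2 := Hc _ _ _ _ p1 p2 q1 q2 r1 r2 s1 s2
  have h3 : E2f d ![k + σ, y₁, y₂, y₃, a] = E2p d (k + σ) y₁ y₂ y₃ a := rfl
  have h4 : E2f d ![k, min y₁ v₁, min y₂ v₂, min y₃ v₃, min a av] =
      E2p d k (min y₁ v₁) (min y₂ v₂) (min y₃ v₃) (min a av) := rfl
  rw [h3, h4] at h1
  linarith

/-- small families, exact point -/
lemma Ec_lo {d k v₁ v₂ v₃ av : ℝ} (hd : 0 ≤ d) (hk : 0 ≤ k) :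
    ∀ c₁ c₂ c₃ b : ℝ, 0 ≤ c₁ → c₁ ≤ v₁ → 0 ≤ c₂ → c₂ ≤ v₂ → 0 ≤ c₃ → c₃ ≤ v₃ →
      0 ≤ b → b ≤ av → E2p d k c₁ c₂ c₃ b ≤ c₁ + c₂ + c₃ + b +
        (k + max ((3 / 4 + 2 * d) * (min v₁ (min v₂ v₃) + av)) (av - 2 / 3 * k)) := by
  intro c₁ c₂ c₃ b h1 h2 h3 h4 h5 h6 h7 h8
  have := E2p_lo (d := d) (k := k) hd hk h1 h2 h3 h4 h5 h6 h7 h8
  linarith

/-- large families, exact point -/
lemma Ec_hi {c d y₃ y₄ u x k v₁ v₂ v₃ av : ℝ} (hc : 0 < c)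
    (hD : DmH c (d * c) y₃ y₄ u x) (hd : 0 ≤ d) (k0 : 3 / 5 * c ≤ k)
    (hz1 : v₁ ≤ y₃) (hz2 : v₂ ≤ y₃) (h31 : v₃ ≤ v₁) (h32 : v₃ ≤ v₂) (z30 : 0 ≤ v₃)
    (hzx : av ≤ x) (z0 : 0 ≤ av) (p0 : 3 / 10 * c ≤ v₁ + v₂ + v₃ + av)
    (hpN : v₁ + v₂ + v₃ ≤ y₃ + y₄ + u) :
    ∀ c₁ c₂ c₃ b : ℝ, 0 ≤ c₁ → c₁ ≤ v₁ → 0 ≤ c₂ → c₂ ≤ v₂ → 0 ≤ c₃ → c₃ ≤ v₃ →
      0 ≤ b → b ≤ av → E2p d k c₁ c₂ c₃ b ≤ c₁ + c₂ + c₃ + b +
        (RSk c k (v₁ + v₂ + v₃ + av) v₃ x - (v₁ + v₂ + v₃ + av) + 9 / 10 * (d * c)) := by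
  intro c₁ c₂ c₃ b h1 h2 h3 h4 h5 h6 h7 h8
  have hx : av ≤ x := hzx
  have := E2p_hi (M := max (v₃ / 2) (4 / 15 * (v₃ + x))) hc hD hd k0 hz1 hz2 h31 h32 z30 hzx z0
    p0 hpN (le_max_left _ _) (le_trans (by linarith) (le_max_right _ _)) h1 h2 h3 h4 h5 h6 h7 h8
  have e : min (max k (2 / 3 * k + 1 / 3 * (v₁ + v₂ + v₃ + av) +
      max (v₃ / 2) (4 / 15 * (v₃ + x)))) (RSx c k (v₁ + v₂ + v₃ + av) v₃ x) ≤
      RSk c k (v₁ + v₂ + v₃ + av) v₃ x - (v₁ + v₂ + v₃ + av) := by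
    rw [le_sub_iff_add_le]
    unfold RSk
    refine le_min ?_ ?_
    · have h9 := min_le_left (max k (2 / 3 * k + 1 / 3 * (v₁ + v₂ + v₃ + av) +
        max (v₃ / 2) (4 / 15 * (v₃ + x)))) (RSx c k (v₁ + v₂ + v₃ + av) v₃ x)
      have h10 : max k (2 / 3 * k + 1 / 3 * (v₁ + v₂ + v₃ + av) +
        max (v₃ / 2) (4 / 15 * (v₃ + x))) + (v₁ + v₂ + v₃ + av) ≤
          RS0k k (v₁ + v₂ + v₃ + av) v₃ x := by
        unfold RS0k
        rw [← max_add_add_right]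
        exact max_le_max le_rfl (by linarith)
      linarith
    · have h9 := min_le_right (max k (2 / 3 * k + 1 / 3 * (v₁ + v₂ + v₃ + av) +
        max (v₃ / 2) (4 / 15 * (v₃ + x)))) (RSx c k (v₁ + v₂ + v₃ + av) v₃ x)
      rw [RS1k_eq]
      linarith
  linarith

end Crest.Agent.R017.ET371
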