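import Crest.Agent.R017.GHP_90
import Crest.Agent.R017.I1k_146

/-!
# Row 17, R8 / P1: the large sieve half of `et`, the number (helper90)

* **`hb_et`** : for `log K ≤ 3/5 κ` the Gram sum of the structured function of a natural list
  (`S`-unit twist) at a fixed cube, `K/2 ≤ N k ≤ K`, times the three-lump number of the sequence
  is at most `2 (κ + n + e₂ + 3/4 d κ) - 2/3 (κ - log K)`
* `hb_blk` : the same for helper71's blocks `2^i ≤ N k ≤ 2^(i+1)`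
-/

set_option autoImplicit false
set_option linter.unusedSectionVars false

noncomputable section

open Finset
open scoped ComplexConjugate Classical

namespace Crest.Agent.R017.GHE90

open Crest.Agent.R012 Crest.Agent.R012.Eis
open Crest.Agent.R012.LS2 (S mem_S)
open Crest.Agent.R017.FE47 (PU cx)
open Crest.Agent.R017.CM106
open Crest.Agent.R017.Prov71
open Crest.Agent.R017.B770
open Crest.Agent.R017.ER911
open Crest.Agent.R017.HP842 (Pc pc sqc alL)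
open Crest.Agent.R017.I1146 (ChN LN cN SN FlatO FlatL Tail Dom dom_list ds)
open Crest.Agent.R017.Leg381 (Pf alF natl alF_natl)
open Crest.Agent.R017.TM708 Crest.Agent.R017.TM968 Crest.Agent.R017.GHL90
open Crest.Agent.R017.GHP90 Crest.Agent.R017.GHR90
open Crest.Agent.R017.C70 (JC CbF OKJ)
open Crest.Agent.R017.E2440 (StE TE)
open Crest.Agent.R017.E1551 (nm_ge_one)
open Crest.Agent.R017.E5B71 (Pt)
open Crest.Agent.R017.P1V5176 (Dm5)

variable {Λ : Type*} {π : Λ → DPar} {h : ℝ → ℝ} {d : ℝ} {rr : EF}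

/-- the three-lump number of the sequence, `k ≤ 3/5 κ` -/
def Rn (d k a₁ a₂ a₃ ax : ℝ) : ℝ :=
  k + (a₁ + a₂ + a₃ + ax) + max ((3 / 4 + 2 * d) * (min a₁ (min a₂ a₃) + ax)) (ax - 2 / 3 * k)

/-- the target of the product of the two sides, `c = κ`, `N` = lumps of the parent, `n` = total
length of the list -/
def Gt (d c N n k : ℝ) : ℝ :=
  2 * (c + n + max 0 (5 / 4 * N - c) + 3 / 4 * (d * c)) - 2 / 3 * (c - k)

lemma floor_one_ball {n : Eis} (h : one1 n ≠ 0) : n ∈ primBall ⌊(1 : ℝ)⌋₊ := by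
  have h1 : n = 1 := by
    by_contra h0
    exact h (if_neg h0)
  subst h1
  rw [mem_primBall, nm_one, Nat.floor_one]
  exact ⟨le_rfl, isPrim_one⟩

set_option maxHeartbeats 1000000 in
/-- **the large sieve half of `et`** -/
theorem hb_et {c₀ : ℝ} (hpu : PU h c₀) {R₁ : ℝ} (hR₁ : 0 ≤ R₁) (hR₂ : ∀ u, cx h u ≠ 0 → |u| ≤ R₁)
    (hP : ∀ lam, (π lam).OK)
    (R : ExpRules (7 / 8 + d) rr (ex Dq fun lam => Sp (π lam) h)) (hd : 0 ≤ d) (hd1 : d ≤ 1 / 8)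
    {D5 : Set (Fin 5 → ℝ)} (hD : IsCompact D5)
    (hDm : ∀ b ∈ D5, 1 / 2 ≤ b 0 ∧ b 0 ≤ 1 ∧ Dm5 (b 1 / b 0) (b 2 / b 0) (b 3 / b 0) (b 4 / b 0) d)
    {ℓ : (Fin 5 → ℝ) → ℝ} (hℓ : Continuous ℓ) (hℓ0 : ∀ b ∈ D5, 0 ≤ ℓ b)
    (hℓ1 : ∀ b ∈ D5, ℓ b ≤ 7 / 10 * (d * b 0))
    (hFE : FE2L (ex Dq fun lam => S0p (π lam) h) D5 ℓ) {ε : ℝ} (hε : 0 < ε) :
    ∃ τ : ℝ, 0 < τ ∧ ∀ (lam : Λ) (s : Eis), s ∈ FE47.SM (π lam).n → ∀ (N : ℕ) (B : ℝ),
      ∃ (M : ℕ) (X₀ : ℝ), 3 ≤ X₀ ∧ ∀ X : ℝ, X₀ ≤ X → ∀ b ∈ D5,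
      ∀ (q : Eis) (us : Fin 3 → Pq) (gs : List Pq) (κ H : ℝ), PD X τ B H N b q us gs κ →
      ∀ (K Y₁ E0 : ℝ), 1 ≤ K → Real.log K ≤ (3 / 5 * b 0 + τ) * Real.log X → 1 ≤ Y₁ →
      Real.log Y₁ ≤ (min (2 * (b 1 + b 2 + b 3) - b 0) (3 / 4 * (b 1 + b 2 + b 3)) + 11 / 5 * b 4 + τ) *
        Real.log X →
      ∀ (J : Finset (Eis × Eis)) (om : Eis × Eis → ℂ), OKJ J →
      (∀ x ∈ J, (nm (x.2 * x.1 ^ 2) : ℝ) ≤ Y₁) → (∀ x, ‖om x‖ ≤ 1) →
      ∀ t : Eis, IsPrim t → (nm t : ℝ) ≤ X →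
      ∑ k ∈ (primBall ⌊K⌋₊).filter (fun k => CbF k ∧ K / 2 ≤ nm k),
        ‖StE E0 J om (sqc q (alL h (([us 0, us 1, us 2] ++ gs).map (Pt (π lam) s))))
          (k * t ^ 3)‖ ^ 2 ≤
        H ^ M * X ^ ε * Real.exp (Gt d (b 0 * Real.log X) ((b 1 + b 2 + b 3) * Real.log X)
          (LN ([us 0, us 1, us 2] ++ gs)) (Real.log K) -
          Rn d (Real.log K) (us 0).z (us 1).z (us 2).z (LN gs)) := by
  obtain ⟨τ₁, hτ₁, G⟩ := hbP1 hpu hR₁ hR₂ hP R hd hd1 hD hℓ hFE (ε := ε / 4) (by positivity)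
  set τ := min (min τ₁ (ε / 400)) (1 / 100) with hτd
  have hτ : 0 < τ := lt_min (lt_min hτ₁ (by positivity)) (by norm_num)
  have hττ : τ ≤ τ₁ := (min_le_left _ _).trans (min_le_left _ _)
  have hτε : τ ≤ ε / 400 := (min_le_left _ _).trans (min_le_right _ _)
  have hτ1 : τ ≤ 1 / 100 := min_le_right _ _
  refine ⟨τ, hτ, fun lam s hs N B => ?_⟩
  have hds : (1 : ℝ) ≤ (ds s).card := by
    have : 0 < (ds s).card := Finset.card_pos.2 ⟨1, I1146.mem_ds hs.1 (one_dvd _)⟩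
    exact_mod_cast this
  obtain ⟨r, M, X₁, hr, hX₁, G1⟩ := G lam N B ((nm s : ℝ) ^ 2) (ds s).card
    (one_le_pow₀ (I1146.nm_ne hs.1)) hds
  refine ⟨M, max (max X₁ (Real.exp ((2 + (N + 2) * r) / τ))) (2 ^ (4 / ε)),
    hX₁.trans ((le_max_left _ _).trans (le_max_left _ _)), ?_⟩
  intro X hX b hb q us gs κ H hPD K Y₁ E0 hK hKl hY hYl J om hJ hJY hom t ht htX
  have hX1' : X₁ ≤ X := ((le_max_left _ _).trans (le_max_left _ _)).trans hX
  have hXr : Real.exp ((2 + (N + 2) * r) / τ) ≤ X :=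
    ((le_max_right _ _).trans (le_max_left _ _)).trans hX
  have hX2 : (2 : ℝ) ^ (4 / ε) ≤ X := (le_max_right _ _).trans hX
  have hX3 : 3 ≤ X := hX₁.trans hX1'
  have hX1 : 1 < X := by linarith
  have hX0 : 0 < X := by linarith
  obtain ⟨hb0, hb1, hDm'⟩ := hDm b hb
  have hℓb := hℓ0 b hb
  set L := Real.log X with hLd
  have hL : 0 < L := Real.log_pos hX1
  have hNN : (0 : ℝ) ≤ N := Nat.cast_nonneg N
  have hrL : 2 + (N + 2) * r ≤ τ * L := by
    have h2 : (2 + (N + 2) * r) / τ ≤ L := by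
      have := Real.log_le_log (Real.exp_pos _) hXr
      rwa [Real.log_exp] at this
    rw [div_le_iff₀ hτ] at h2
    linarith
  have hNr0 : 0 ≤ N * r := by positivity
  have hr2 : 2 * r ≤ τ * L := by nlinarith
  have hNr : N * r ≤ τ * L := by nlinarith
  have hl2 : Real.log 2 ≤ 1 := by linarith [Real.log_two_lt_d9]
  have hl2L : Real.log 2 ≤ τ * L := by nlinarith
  set t₀ := 2 * (τ * L) with ht₀
  have hτL : 0 < τ * L := by positivity
  -- the parents in units of `log X`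
  have hb0' : 0 < b 0 := by linarith
  have hc : 0 < b 0 * L := by positivity
  have hDL : Dm5 (b 1 * L / (b 0 * L)) (b 2 * L / (b 0 * L)) (b 3 * L / (b 0 * L))
      (b 4 * L / (b 0 * L)) d := by
    rw [mul_div_mul_right _ _ hL.ne', mul_div_mul_right _ _ hL.ne', mul_div_mul_right _ _ hL.ne',
      mul_div_mul_right _ _ hL.ne']
    exact hDm'
  have Hm := DmH.of hb0' hDm'
  have hx01 : b 4 ≤ 1 / 36 := by
    rcases Hm.adm with h | ⟨h, -, -, -⟩ | ⟨h, -⟩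
    · rw [h]; norm_num
    · linarith [Hm.d0]
    · have := Hm.d1
      linarith
  have hx00 := Hm.x0
  have hN1 := Hm.N1
  have hy3 := Hm.y3
  have hy43 := Hm.y43
  have hu4 := Hm.u4
  have hu0 := Hm.u0
  have hz1 := hPD.z1
  have hz2 := hPD.z2
  have hz3 := hPD.z3
  have hgx := hPD.x
  rw [← hLd] at hz1 hz2 hz3 hgx
  have hgs0 : 0 ≤ LN gs := by
    unfold I1146.LN
    refine List.sum_nonneg fun x hx => ?_
    obtain ⟨p, hp, rfl⟩ := List.mem_map.1 hx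
    exact (hPD.am p hp).2.1
  set ps := [us 0, us 1, us 2] ++ gs with hps
  have hLN : LN ps = (us 0).z + (us 1).z + (us 2).z + LN gs := by
    rw [hps]
    unfold I1146.LN
    simp only [List.cons_append, List.nil_append, List.map_cons, List.sum_cons]
    ring
  have hzX : ∀ p ∈ ps, p.z ≤ Real.log X := by
    intro p hp
    rw [← hLd]
    have m : ∀ {c z : ℝ}, z ≤ (c + τ) * L → c ≤ 1 / 2 → z ≤ L := by
      intro c z h1 h2
      have : (c + τ) * L ≤ 1 * L := mul_le_mul_of_nonneg_right (by linarith) hL.le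
      linarith
    rcases List.mem_append.1 hp with hp | hp
    · simp only [List.mem_cons, List.not_mem_nil, or_false] at hp
      rcases hp with rfl | rfl | rfl
      · exact m hz1 (by linarith)
      · exact m hz2 (by linarith)
      · exact m hz3 (by linarith)
    · have h1 := (hPD.am p hp).2.2.1
      rw [← hLd] at h1
      have : τ * L ≤ 1 * L := mul_le_mul_of_nonneg_right (by linarith) hL.le
      linarith
  have hdom := dom_list (hP lam) h hs q ps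
  rw [alF_natl] at hdom
  have hKX : K ≤ X := by
    refine (Real.log_le_log_iff (by linarith) hX0).1 ?_
    rw [← hLd]
    have : (3 / 5 * b 0 + τ) * L ≤ 1 * L := mul_le_mul_of_nonneg_right (by linarith) hL.le
    linarith
  have hm1 := min_le_left (2 * (b 1 + b 2 + b 3) - b 0) (3 / 4 * (b 1 + b 2 + b 3))
  have hm2 := min_le_right (2 * (b 1 + b 2 + b 3) - b 0) (3 / 4 * (b 1 + b 2 + b 3))
  have hYX : 2 * Y₁ ≤ X := by
    refine (Real.log_le_log_iff (by linarith) hX0).1 ?_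
    rw [Real.log_mul (by norm_num) (by linarith), ← hLd]
    have h1 : (min (2 * (b 1 + b 2 + b 3) - b 0) (3 / 4 * (b 1 + b 2 + b 3)) + 11 / 5 * b 4 + τ) * L ≤
        (9 / 10) * L := mul_le_mul_of_nonneg_right (by linarith) hL.le
    have h2 : τ * L ≤ 1 / 100 * L := mul_le_mul_of_nonneg_right hτ1 hL.le
    linarith
  have hYT : Real.log Y₁ ≤ (T5 b + τ₁) * Real.log X := by
    rw [← hLd]
    refine hYl.trans (mul_le_mul_of_nonneg_right ?_ hL.le)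
    unfold T5
    linarith
  set P := LN ps with hPP
  set k := Real.log K with hk
  have hk0 : 0 ≤ k := Real.log_nonneg hK
  set E : ℝ := Gt d (b 0 * L) ((b 1 + b 2 + b 3) * L) P k - Rn d k (us 0).z (us 1).z (us 2).z (LN gs) +
    k / 3 + 33 * t₀ with hE
  have main := G1 X hX1' b hb q us gs κ H (PD_mono hX1.le hττ le_rfl hPD) hzX _ hdom K Y₁ 1 1 E0 E
    hK hKX hY hYX hYT le_rfl (by linarith) (by norm_num) J om hJ hJY hom t one1 ht htX
    (fun n hn => floor_one_ball hn) one1_bd ?_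
  · -- the conclusion
    have hF0 : ∀ k : Eis, 0 ≤ ‖StE E0 J om (sqc q (alL h (ps.map (Pt (π lam) s)))) (k * t ^ 3)‖ ^ 2 :=
      fun k => by positivity
    have h1 := sum_low (A := (primBall ⌊K⌋₊).filter CbF) (L := K / 2) (by linarith)
      (fun k => ‖StE E0 J om (sqc q (alL h (ps.map (Pt (π lam) s)))) (k * t ^ 3)‖ ^ 2) hF0
    rw [Finset.filter_filter] at h1
    refine h1.trans ?_
    simp only [CS_one1, norm_one, one_pow, mul_one, one_mul] at main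
    have h2 : (K / 2) ^ (-(1 : ℝ) / 3) ≤ 2 * Real.exp (-k / 3) := by
      have e1 : (K / 2) ^ (-(1 : ℝ) / 3) = Real.exp (-k / 3) * Real.exp (Real.log 2 / 3) := by
        rw [Real.rpow_def_of_pos (by linarith), Real.log_div (by linarith) (by norm_num),
          ← Real.exp_add, ← hk]
        congr 1
        ring
      have e2 : Real.exp (Real.log 2 / 3) ≤ 2 := by
        calc Real.exp (Real.log 2 / 3) ≤ Real.exp (Real.log 2) :=
              Real.exp_le_exp.2 (by linarith [Real.log_pos (by norm_num : (1 : ℝ) < 2)])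
          _ = 2 := Real.exp_log (by norm_num)
      rw [e1]
      nlinarith [Real.exp_pos (-k / 3)]
    have h3 : (2 : ℝ) ≤ X ^ (ε / 4) := by
      calc (2 : ℝ) = (2 ^ (4 / ε)) ^ (ε / 4) := by
            rw [← Real.rpow_mul (by norm_num), show 4 / ε * (ε / 4) = 1 by field_simp,
              Real.rpow_one]
        _ ≤ X ^ (ε / 4) := Real.rpow_le_rpow (by positivity) hX2 (by positivity)
    have h4 : Real.exp (33 * t₀) ≤ X ^ (ε / 4) := by
      rw [rpow_exp hX1, ← hLd]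
      refine Real.exp_le_exp.2 ?_
      rw [ht₀]
      nlinarith
    have hH1 := hPD.H1
    have hHM : 0 ≤ H ^ M := by positivity
    set E' : ℝ := Gt d (b 0 * L) ((b 1 + b 2 + b 3) * L) P k -
      Rn d k (us 0).z (us 1).z (us 2).z (LN gs) with hE'
    have h5 : Real.exp (-k / 3) * Real.exp E = Real.exp E' * Real.exp (33 * t₀) := by
      rw [← Real.exp_add, ← Real.exp_add]
      congr 1
      rw [hE, hE']
      ring
    have h6 : X ^ (ε / 4) * X ^ (ε / 4) * X ^ (ε / 4) ≤ X ^ ε := by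
      rw [← Real.rpow_add hX0, ← Real.rpow_add hX0]
      exact Real.rpow_le_rpow_of_exponent_le hX1.le (by linarith)
    calc (K / 2) ^ (-(1 : ℝ) / 3) * ∑ k ∈ (primBall ⌊K⌋₊).filter CbF, (nm k : ℝ) ^ ((1 : ℝ) / 3) *
          ‖StE E0 J om (sqc q (alL h (ps.map (Pt (π lam) s)))) (k * t ^ 3)‖ ^ 2
        ≤ (2 * Real.exp (-k / 3)) * (H ^ M * X ^ (ε / 4) * Real.exp E) := by
          refine mul_le_mul h2 main (Finset.sum_nonneg fun k _ => by positivity) (by positivity)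
      _ = H ^ M * (2 * X ^ (ε / 4)) * (Real.exp (-k / 3) * Real.exp E) := by ring
      _ = H ^ M * (2 * X ^ (ε / 4)) * (Real.exp E' * Real.exp (33 * t₀)) := by rw [h5]
      _ ≤ H ^ M * (X ^ (ε / 4) * X ^ (ε / 4)) * (Real.exp E' * X ^ (ε / 4)) := by gcongr
      _ = H ^ M * (X ^ (ε / 4) * X ^ (ε / 4) * X ^ (ε / 4)) * Real.exp E' := by ring
      _ ≤ _ := by gcongr
  · -- the real line
    intro v δ β l z₁ z₂ z₃ w _ hv0 hv1 hδ0 hδ1 hβ hl z10 z20 z30 w0 hw hn hlv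
    obtain ⟨hn1, hn2⟩ := abs_le.1 hn
    obtain ⟨hl1, hl2'⟩ := abs_le.1 hlv
    have hmin : (min (2 * (b 1 + b 2 + b 3) - b 0) (3 / 4 * (b 1 + b 2 + b 3))) * L =
        min (2 * (b 1 * L + b 2 * L + b 3 * L) - b 0 * L)
          (3 / 4 * (b 1 * L + b 2 * L + b 3 * L)) := by
      rw [min_mul_of_nonneg _ _ hL.le]
      congr 1 <;> ring
    have line := hb_line (c := b 0 * L) (d := d) (y₃ := b 1 * L) (y₄ := b 2 * L) (u := b 3 * L)
      (x := b 4 * L) (a₁ := (us 0).z) (a₂ := (us 1).z) (a₃ := (us 2).z) (ax := LN gs) (k := k)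
      (v := v) (δ := δ) (z₁ := z₁) (z₂ := z₂) (z₃ := z₃) (w := w) (l := l) (t := t₀) hc hDL
      (by linarith) (by linarith) (by linarith) (by linarith) hgs0 hk0 (by linarith) hv0
      (by
        rw [← hmin]
        linarith) hδ0 (by linarith) z10 z20 z30 w0 (by linarith) (by linarith)
      (by linarith) (by linarith)
    have hKe : L * K5 b = max (b 0 * L) (5 / 4 * (b 1 * L + b 2 * L + b 3 * L)) := by
      unfold K5
      rw [mul_max_of_nonneg _ _ hL.le]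
      congr 1 <;> ring
    have hle : min (eW (L * K5 b) l (z₁ + z₂ + z₃ + w) w + L * ℓ b) (tAll d l z₁ z₂ z₃ w) ≤
        min (eW (L * K5 b) l (z₁ + z₂ + z₃ + w) w) (tAll d l z₁ z₂ z₃ w) + L * ℓ b := by
      have h0 : 0 ≤ L * ℓ b := mul_nonneg hL.le hℓb
      rw [← min_add_add_right]
      exact min_le_min le_rfl (by linarith)
    rw [hKe] at hle ⊢
    rw [Real.log_one]
    refine (add_le_add_right hle _).trans ?_
    rw [hE]
    unfold Gt Rn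
    have e1 : (b 1 + b 2 + b 3) * L = b 1 * L + b 2 * L + b 3 * L := by ring
    have h9 : L * ℓ b ≤ 7 / 10 * (d * (b 0 * L)) := by
      have := mul_le_mul_of_nonneg_left (hℓ1 b hb) hL.le
      linarith
    rw [e1, hLN]
    linarith

/-- helper71's blocks -/
lemma blk_eq (i : ℕ) : (primBall (2 ^ (i + 1))).filter (fun k => CbF k ∧ 2 ^ i ≤ nm k) =
    (primBall ⌊(2 : ℝ) ^ (i + 1)⌋₊).filter
      (fun k => CbF k ∧ (2 : ℝ) ^ (i + 1) / 2 ≤ nm k) := by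
  have e1 : ⌊(2 : ℝ) ^ (i + 1)⌋₊ = 2 ^ (i + 1) := by
    have : ((2 ^ (i + 1) : ℕ) : ℝ) = (2 : ℝ) ^ (i + 1) := by push_cast; rfl
    rw [← this, Nat.floor_natCast]
  have e2 : (2 : ℝ) ^ (i + 1) / 2 = ((2 ^ i : ℕ) : ℝ) := by
    rw [pow_succ]; push_cast; ring
  rw [e1, e2]
  refine Finset.filter_congr fun k _ => ?_
  rw [Nat.cast_le]

/-- **the large sieve half of `et`, helper71's blocks** -/
theorem hb_blk {c₀ : ℝ} (hpu : PU h c₀) {R₁ : ℝ} (hR₁ : 0 ≤ R₁)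
    (hR₂ : ∀ u, cx h u ≠ 0 → |u| ≤ R₁) (hP : ∀ lam, (π lam).OK)
    (R : ExpRules (7 / 8 + d) rr (ex Dq fun lam => Sp (π lam) h)) (hd : 0 ≤ d) (hd1 : d ≤ 1 / 8)
    {D5 : Set (Fin 5 → ℝ)} (hD : IsCompact D5)
    (hDm : ∀ b ∈ D5, 1 / 2 ≤ b 0 ∧ b 0 ≤ 1 ∧ Dm5 (b 1 / b 0) (b 2 / b 0) (b 3 / b 0) (b 4 / b 0) d)
    {ℓ : (Fin 5 → ℝ) → ℝ} (hℓ : Continuous ℓ) (hℓ0 : ∀ b ∈ D5, 0 ≤ ℓ b)
    (hℓ1 : ∀ b ∈ D5, ℓ b ≤ 7 / 10 * (d * b 0))
    (hFE : FE2L (ex Dq fun lam => S0p (π lam) h) D5 ℓ) {ε : ℝ} (hε : 0 < ε) :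
    ∃ τ : ℝ, 0 < τ ∧ ∀ (lam : Λ) (s : Eis), s ∈ FE47.SM (π lam).n → ∀ (N : ℕ) (B : ℝ),
      ∃ (M : ℕ) (X₀ : ℝ), 3 ≤ X₀ ∧ ∀ X : ℝ, X₀ ≤ X → ∀ b ∈ D5,
      ∀ (q : Eis) (us : Fin 3 → Pq) (gs : List Pq) (κ H : ℝ), PD X τ B H N b q us gs κ →
      ∀ (i : ℕ) (Y₁ E0 : ℝ), (i + 1) * Real.log 2 ≤ (3 / 5 * b 0 + τ) * Real.log X → 1 ≤ Y₁ →
      Real.log Y₁ ≤ (min (2 * (b 1 + b 2 + b 3) - b 0) (3 / 4 * (b 1 + b 2 + b 3)) + 11 / 5 * b 4 + τ) *
        Real.log X →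
      ∀ (J : Finset (Eis × Eis)) (om : Eis × Eis → ℂ), OKJ J →
      (∀ x ∈ J, (nm (x.2 * x.1 ^ 2) : ℝ) ≤ Y₁) → (∀ x, ‖om x‖ ≤ 1) →
      ∀ t : Eis, IsPrim t → (nm t : ℝ) ≤ X →
      ∑ k ∈ (primBall (2 ^ (i + 1))).filter (fun k => CbF k ∧ 2 ^ i ≤ nm k),
        ‖StE E0 J om (sqc q (alL h (([us 0, us 1, us 2] ++ gs).map (Pt (π lam) s))))
          (t ^ 3 * k)‖ ^ 2 ≤
        H ^ M * X ^ ε * Real.exp (Gt d (b 0 * Real.log X) ((b 1 + b 2 + b 3) * Real.log X)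
          (LN ([us 0, us 1, us 2] ++ gs)) ((i + 1) * Real.log 2) -
          Rn d ((i + 1) * Real.log 2) (us 0).z (us 1).z (us 2).z (LN gs)) := by
  obtain ⟨τ, hτ, G⟩ := hb_et hpu hR₁ hR₂ hP R hd hd1 hD hDm hℓ hℓ0 hℓ1 hFE hε
  refine ⟨τ, hτ, fun lam s hs N B => ?_⟩
  obtain ⟨M, X₀, hX₀, G1⟩ := G lam s hs N B
  refine ⟨M, X₀, hX₀, ?_⟩
  intro X hX b hb q us gs κ H hPD i Y₁ E0 hKl hY hYl J om hJ hJY hom t ht htX
  have e : Real.log ((2 : ℝ) ^ (i + 1)) = (i + 1) * Real.log 2 := by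
    rw [Real.log_pow]
    push_cast
    rfl
  have := G1 X hX b hb q us gs κ H hPD (2 ^ (i + 1)) Y₁ E0 (one_le_pow₀ (by norm_num))
    (by rw [e]; exact hKl) hY hYl J om hJ hJY hom t ht htX
  rw [e, ← blk_eq i] at this
  simpa only [mul_comm] using this

end Crest.Agent.R017.GHE90
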