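import Crest.Agent.R017.I1p_146
import Crest.Agent.R017.P10d_146
import Crest.Agent.R017.FNEb_708
import Crest.Agent.R017.WDec2_180

/-!
# Row 17, R8 / P1 (helper146): the assembly of `P10`

* `Sh5`, `Shat`, `Tgt` : the adapted T-numbers (helper440's `T^`); `RpC`, `RpU` : the R-functional
* `FB`, `CB` : the flat bundle (helper708) and the T-claims `CellS`
* **`p10_of`** : `P10` from `FB`, `CB`, `EtU`, `RpU`, `E3U`
-/

set_option autoImplicit false

noncomputable section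

open Finset MeasureTheory
open scoped ComplexConjugate Classical

namespace Crest.Agent.R017.P10146

open Crest.Agent.R012 Crest.Agent.R012.Eis Crest.Agent.R012.MC Crest.Agent.R012.Gauss880
open Crest.Agent.R012.LS2 (S mem_S)
open Crest.Agent.R017.CM106 (CS FS TG)
open Crest.Agent.R017.C70
open Crest.Agent.R017.HP842 (Pc pc sqc alL)
open Crest.Agent.R017.B770
open Crest.Agent.R017.FE47 (PU cx SM)
open Crest.Agent.R017.Prov71
open Crest.Agent.R017.E2440 (StE TE)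
open Crest.Agent.R017.LB48 (CrP GrP)
open Crest.Agent.R017.X6C180 (GF)
open Crest.Agent.R017.WDec180 (WD sc exists_WD)
open Crest.Agent.R017.I1146 hiding cN
open Crest.Agent.R017.StD828 (ln)
open Crest.Agent.R017.StE828 (wD oD oD_zero oD_one log_nm_nonneg)
open Crest.Agent.R017.XG702 (Pcs)
open Crest.Agent.R017.XT71 (Sys Win mx)
open Crest.Agent.R017.UM71 Crest.Agent.R017.End699
open Crest.Agent.R017.E5B71 Crest.Agent.R017.E5P571 Crest.Agent.R017.E5L770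
open Crest.Agent.R017.P1e54 Crest.Agent.R017.P1f54 Crest.Agent.R017.P1k54 Crest.Agent.R017.P1l54
open Crest.Agent.R017.TM708 (T5 K5 eF FE2L PD R5 L5 L5_nonneg)

/-! ### the adapted T-numbers -/

/-- helper440's T-numbers (family `k5`, share `x`, parent length `p`); the family of a block `b` is
`k5 + b/2` -/
def Sh5 (k5 x p γ b v : ℝ) : ℝ :=
  min (eF (k5 + b / 2) (v + b) (p - γ - b))
    (max ((v + b) + 4 / 3 * (p - γ - b)) (5 / 3 * (p - γ - b) + (v + b) / 3) + x)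

lemma lipS_Sh5 (k5 x p : ℝ) : LipS 3 (Sh5 k5 x p) := by
  intro γ b v b' v'
  unfold Sh5 eF
  have h1 := le_abs_self (b - b')
  have h2 := le_abs_self (v - v')
  have h3 := neg_abs_le (b - b')
  have h4 := neg_abs_le (v - v')
  have h0 := abs_nonneg (b - b')
  have h0' := abs_nonneg (v - v')
  set m := |b - b'| + |v - v'| with hm
  have a1 : max (k5 + b / 2) (3 / 2 * (v + b)) ≤
      max (k5 + b' / 2) (3 / 2 * (v' + b')) + 3 / 2 * m := by
    have e1 := le_max_left (k5 + b' / 2) (3 / 2 * (v' + b'))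
    have e2 := le_max_right (k5 + b' / 2) (3 / 2 * (v' + b'))
    exact max_le (by linarith) (by linarith)
  have a2 : max (2 * (p - γ - b)) (4 / 3 * (p - γ - b) +
      (max (k5 + b / 2) (3 / 2 * (v + b)) + (v + b)) / 3) ≤
      max (2 * (p - γ - b')) (4 / 3 * (p - γ - b') +
      (max (k5 + b' / 2) (3 / 2 * (v' + b')) + (v' + b')) / 3) + 3 * m := by
    have e1 := le_max_left (2 * (p - γ - b')) (4 / 3 * (p - γ - b') +
      (max (k5 + b' / 2) (3 / 2 * (v' + b')) + (v' + b')) / 3)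
    have e2 := le_max_right (2 * (p - γ - b')) (4 / 3 * (p - γ - b') +
      (max (k5 + b' / 2) (3 / 2 * (v' + b')) + (v' + b')) / 3)
    exact max_le (by linarith) (by linarith)
  have a3 : max ((v + b) + 4 / 3 * (p - γ - b)) (5 / 3 * (p - γ - b) + (v + b) / 3) + x ≤
      max ((v' + b') + 4 / 3 * (p - γ - b')) (5 / 3 * (p - γ - b') + (v' + b') / 3) + x +
        3 * m := by
    have e1 := le_max_left ((v' + b') + 4 / 3 * (p - γ - b'))
      (5 / 3 * (p - γ - b') + (v' + b') / 3)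
    have e2 := le_max_right ((v' + b') + 4 / 3 * (p - γ - b'))
      (5 / 3 * (p - γ - b') + (v' + b') / 3)
    have e3 : max ((v + b) + 4 / 3 * (p - γ - b)) (5 / 3 * (p - γ - b) + (v + b) / 3) ≤
        max ((v' + b') + 4 / 3 * (p - γ - b')) (5 / 3 * (p - γ - b') + (v' + b') / 3) + 3 * m :=
      max_le (by linarith) (by linarith)
    linarith
  rw [← min_add_add_right]
  exact min_le_min a2 a3

variable {Λ : Type*} (π : Λ → DPar) (h : ℝ → ℝ) (e0 : ℝ)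

/-- the T-numbers of a child -/
def Shat (a : Bc) (qs : List Pq) : ℝ → ℝ → ℝ → ℝ :=
  Sh5 (max a.1.l (5 / 4 * a3 a.1)) a.1.z (LN (cl a qs))

/-- the excess `max 0 (5/4 N - κ)` of a datum -/
def ex5 (a : Bc) : ℝ := max 0 (5 / 4 * a3 a.1 - a.1.l)

/-- target minus `(2/3) p` -/
def Tgc (a : Bc) (qs : List Pq) : ℝ := 4 / 3 * LN (cl a qs) + ex5 a

/-- **R-functional** (weight pieces `Nw`, `Mw`, `Fw`) -/
def RpC (Nw : Λ → ℕ) (Mw : Λ → ℝ) (Fw : Λ → ℕ → ℝ → ℂ) (lam : Λ × Eis) (a : Bc)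
    (qs : List Pq) : ℝ :=
  if okC (π lam.1) lam.2 a qs then
    ∑ i ∈ range (Nw lam.1), RPg (rhoS (Tgc a qs) a.1.l (Shat a qs)) (alC π h lam a qs)
      (sc (Real.exp a.1.l) (Mw lam.1) i)
      (GF (Fw lam.1 i)) (S (Real.sqrt (YT a.1.l (a3 a.1) a.1.z))) (nO a.1 + 1)
      (Real.exp (e0 * a.1.l)) (YT a.1.l (a3 a.1) a.1.z)
  else 0

/-- R-functional, all lists -/
def RpU (Par : Set (Fin 3 ⊕ Fin 5 → ℝ)) (L0 : (Fin 3 ⊕ Fin 5 → ℝ) → ℝ) : Prop :=
  ∀ R : Λ → ℝ, (∀ lam, 0 ≤ R lam) → ∀ (Nw : Λ → ℕ) (Mw : Λ → ℝ) (Fw : Λ → ℕ → ℝ → ℂ),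
    (∀ lam, WD (wM (R lam)) (Nw lam) (Mw lam) (Fw lam)) →
    UB S8 Dq (RpC π h e0 Nw Mw Fw) (Dom8 Par) ∅ (E8 L0)

/-- **the flat bundle** (helper708's `cell_le`; `e1` = threshold of the tails) -/
def FB (e1 : ℝ) (D5 : Set (Fin 5 → ℝ)) (ℓ : (Fin 5 → ℝ) → ℝ) : Prop :=
  ∀ ε : ℝ, 0 < ε → ∃ τ : ℝ, 0 < τ ∧ ∀ (lam : Λ) (N : ℕ) (B : ℝ), ∃ M₀ : ℕ, ∀ r : ℝ, 0 ≤ r →
    ∃ X₀ : ℝ, 1 < X₀ ∧
      ∀ X : ℝ, X₀ ≤ X → ∀ b ∈ D5, ∀ (q : Eis) (us : Fin 3 → Pq) (gs : List Pq) (κ H : ℝ),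
      PD X τ B H N b q us gs κ → ∀ T : ℝ, T ≤ (T5 b + τ) * Real.log X → ∀ θ : ℝ, 0 ≤ θ →
      T ≤ (K5 b - (b 1 + b 2 + b 3) / 2 - b 4 + 3 * θ + τ) * Real.log X → ∀ M : ℝ, (M₀ : ℝ) ≤ M →
      (1 / 3 * b 0 - τ) * Real.log X ≤ LN ([us 0, us 1, us 2] ++ gs) →
      FlatL h (π lam) q ([us 0, us 1, us 2] ++ gs) (X ^ B) r M κ T
        (H ^ M₀ * X ^ (L5 b + θ + ℓ b + ε)) ∧
      ∀ T₀ E : ℝ, (e1 * b 0 - τ) * Real.log X ≤ E →
        2 * LN ([us 0, us 1, us 2] ++ gs) - κ ≤ T₀ + (3 * L5 b + τ) * Real.log X →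
        Tail h (π lam) q ([us 0, us 1, us 2] ++ gs) (X ^ B) r M κ T T₀ E
          (H ^ M₀ * X ^ (L5 b + θ + ℓ b + ε))

/-- **the T-claims with helper440's numbers** -/
def CB (D5 : Set (Fin 5 → ℝ)) (ℓ : (Fin 5 → ℝ) → ℝ) : Prop :=
  ∀ ε : ℝ, 0 < ε → ∃ τ : ℝ, 0 < τ ∧ ∀ (lam : Λ) (N : ℕ) (B : ℝ), ∃ M₀ : ℕ, ∀ r : ℝ, 0 ≤ r →
    ∃ X₀ : ℝ, 1 < X₀ ∧
      ∀ X : ℝ, X₀ ≤ X → ∀ b ∈ D5, ∀ (q : Eis) (us : Fin 3 → Pq) (gs : List Pq) (κ H : ℝ),
      PD X τ B H N b q us gs κ → ∀ T : ℝ, T ≤ (T5 b + τ) * Real.log X →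
      T ≤ (K5 b - (b 1 + b 2 + b 3) / 2 - b 4 + τ) * Real.log X → ∀ M : ℝ, (M₀ : ℝ) ≤ M →
      (b 0 / 2 - 2 * b 4 - τ) * Real.log X ≤ LN ([us 0, us 1, us 2] ++ gs) →
      ∀ E k5 x : ℝ, E ≤ (1 / 20 * b 0 + τ) * Real.log X →
        |k5 - K5 b * Real.log X| ≤ τ * Real.log X → |x - b 4 * Real.log X| ≤ τ * Real.log X →
        CellS h (π lam) q ([us 0, us 1, us 2] ++ gs) (X ^ B) r M T E
          (H ^ M₀ * X ^ (ℓ b + ε)) (Sh5 k5 x (LN ([us 0, us 1, us 2] ++ gs)))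

/-! ### the range of the main form -/

lemma BB_Y {Y Y' : ℝ} (hS : S Y ⊆ S Y') {U V : Eis → ℂ} (hU : ∀ t ∈ S Y', t ∉ S Y → U t = 0)
    (hV : ∀ t ∈ S Y', t ∉ S Y → V t = 0) : I1146.BB Y U V = I1146.BB Y' U V := by
  unfold I1146.BB
  rw [← Finset.sum_subset hS (f := fun t => ∑ t' ∈ S Y', ((Mob705.mu t : ℂ) * (Mob705.mu t' : ℂ) *
    (U t * conj (V t'))) * ((nm (DgA829.lc t t') : ℝ) : ℂ)⁻¹)]
  · refine Finset.sum_congr rfl fun t _ => ?_
    refine Finset.sum_subset hS fun t' ht' hn => ?_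
    rw [hV t' ht' hn, map_zero, mul_zero, mul_zero, zero_mul]
  · intro t ht hn
    refine Finset.sum_eq_zero fun t' _ => ?_
    rw [hU t ht hn, zero_mul, mul_zero, zero_mul]

lemma X3_Y {Y Y' E0 : ℝ} (hY : 0 ≤ Y) (hYY : Y ≤ Y') {α : Eis → ℂ}
    (hα : ∀ n, α n ≠ 0 → n ∈ S Y) {J : Finset (Eis × Eis)} (hJ : ∀ x ∈ J, IsPrim x.1)
    (om : Eis × Eis → ℂ) : X3 Y E0 J om α = X3 Y' E0 J om α := by
  unfold X3
  refine Finset.sum_congr rfl fun x hx => ?_
  have hS : S Y ⊆ S Y' := fun t ht => by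
    obtain ⟨h1, h2, h3⟩ := (mem_S hY).1 ht
    exact (mem_S (hY.trans hYY)).2 ⟨h1.trans hYY, h2, h3⟩
  have h0 : ∀ t ∈ S Y', t ∉ S Y → trunc E0 (TE α x) t = 0 := by
    intro t ht hn
    unfold trunc
    rw [TE_zero hY hα (hJ x hx) ((mem_S (hY.trans hYY)).1 ht).2.1 hn]
    split_ifs <;> rfl
  rw [BB_Y hS h0 h0]

/-! ### bookkeeping -/

lemma mass_am {X : ℝ} {ps : List Pq} (h : ∀ p ∈ ps, p.kd = .am) :
    Dq.mass X ps .am = LN ps / Real.log X := by
  induction ps with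
  | nil => simp [Pcs.mass, LN]
  | cons p ps ih =>
    rw [Pcs.mass_cons, ih fun q hq => h q (List.mem_cons_of_mem _ hq), if_pos]
    · unfold LN Pcs.nl
      rw [List.map_cons, List.sum_cons, add_div]
      rfl
    · rw [Dq_kind, h p List.mem_cons_self]

lemma cl_eq (a : Bc) (qs : List Pq) : cl a qs = [a.2 0, a.2 1, a.2 2] ++ qs := by
  unfold cl
  simp [List.ofFn_succ]

lemma LN_cl (a : Bc) (qs : List Pq) :
    LN (cl a qs) = (a.2 0).z + (a.2 1).z + (a.2 2).z + LN qs := by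
  rw [cl_eq]
  unfold LN
  simp only [List.cons_append, List.nil_append, List.map_cons, List.sum_cons]
  ring

lemma log_YT (l N z : ℝ) : Real.log (YT l N z) = Real.log 2 * nL l N z := by
  unfold YT
  rw [Real.log_pow, mul_comm]

/-- the excess of a parent -/
def exN (p : Fin 3 ⊕ Fin 5 → ℝ) : ℝ := max 0 (5 / 4 * cN p - cκ p)

/-- **the second base point** of a parent (helper47's fictitious share): the family is enlarged by
`(4/3) ex` and the levels reach `2 N - κ` also for `N > (4/5) κ` -/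
def bQ (p : Fin 3 ⊕ Fin 5 → ℝ) : Fin 5 → ℝ :=
  ![cκ p + 4 / 3 * exN p, cu p 2, cu p 3, cu p 4, cx' p + 4 / 15 * exN p]

lemma FlatL.toκ {h : ℝ → ℝ} {P : DPar} {q : Eis} {ps : List Pq} {G r M κ e T F : ℝ} (he : 0 ≤ e)
    (hF : 0 ≤ F) (H : FlatL h P q ps G r M (κ + e) T F) :
    FlatL h P q ps G r M κ T (F * Real.exp (e / 3)) := by
  intro g hg hG b l ps' hb hl hc h1 h2
  refine (H g hg hG b l ps' hb hl hc h1 h2).trans ?_
  have hc0 : 0 ≤ I1146.cN ps' ps ^ M := Real.rpow_nonneg (I1146.cN_nonneg _ _) _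
  have e1 : Real.exp (2 * LN ps' + max 0 ((l - 2 * LN ps' + (κ + e)) / 3) + b) ≤
      Real.exp (e / 3) * Real.exp (2 * LN ps' + max 0 ((l - 2 * LN ps' + κ) / 3) + b) := by
    rw [← Real.exp_add]
    refine Real.exp_le_exp.2 ?_
    have : max 0 ((l - 2 * LN ps' + (κ + e)) / 3) ≤ max 0 ((l - 2 * LN ps' + κ) / 3) + e / 3 := by
      refine max_le ?_ ?_
      · have := le_max_left 0 ((l - 2 * LN ps' + κ) / 3)
        linarith
      · have := le_max_right 0 ((l - 2 * LN ps' + κ) / 3)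
        linarith
    linarith
  calc _ ≤ F * I1146.cN ps' ps ^ M * (Real.exp (e / 3) *
        Real.exp (2 * LN ps' + max 0 ((l - 2 * LN ps' + κ) / 3) + b)) :=
        mul_le_mul_of_nonneg_left e1 (by positivity)
    _ = _ := by ring

lemma Tail.toκ {h : ℝ → ℝ} {P : DPar} {q : Eis} {ps : List Pq} {G r M κ e T T₀ E F : ℝ}
    (H : Tail h P q ps G r M (κ + e) T T₀ E F) :
    Tail h P q ps G r M κ T T₀ E (F * Real.exp (e / 3)) := by
  intro g hg hG b l ps' hb hl hc h1 h2 h3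
  refine (H g hg hG b l ps' hb hl hc h1 h2 h3).trans (le_of_eq ?_)
  have e1 : Real.exp (4 / 3 * LN ps' + (l + (κ + e)) / 3 + 2 * b) =
      Real.exp (e / 3) * Real.exp (4 / 3 * LN ps' + (l + κ) / 3 + 2 * b) := by
    rw [← Real.exp_add]
    congr 1
    ring
  rw [e1]
  ring

/-- **the real inequalities of the frame** -/
lemma frame {L δ τ κ N x l z A n y cs e₁ E : ℝ} (hL : 0 < L) (hδ : 0 ≤ δ) (hδτ : δ ≤ τ / 100)
    (hτ : τ ≤ 1 / 8) (he₁ : e₁ = τ / 4) (hcs : Real.log 2 + cs ≤ τ / 8 * L) (hcs0 : 0 ≤ cs)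
    (hl : |l - κ * L| ≤ δ * L) (hz : |z - x * L| ≤ δ * L) (hA : |A - N * L| ≤ 3 * (δ * L))
    (hn : n ≤ (N + x) * L + 4 * (δ * L)) (hκ : 0 ≤ κ) (hκ1 : κ ≤ 1) (hx : 0 ≤ x)
    (hN0 : κ ≤ 2 * N) (hN : N ≤ 102 / 125 * κ) (hx1 : x ≤ 1 / 36 * κ)
    (hadm : x ≤ 0 ∨ (N + x ≤ 4 / 5 * κ ∧ 2 * N + 5 * x ≤ 59 / 36 * κ))
    (hx4 : x ≤ 0 ∨ 5 / 2 * N + 4 * x ≤ 2 * κ) (hE : E = max 0 (5 / 4 * N - κ))
    (hy1 : y ≤ max 0 (min (2 * A - l) (3 / 4 * A) + 3 * z) + Real.log 2)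
    (hy2 : min (2 * A - l) (3 / 4 * A) + 2 * z ≤ y) :
    y + cs ≤ (min (2 * N - κ) (3 / 4 * N) + 5 * x + τ) * L ∧
      max y (e₁ * L + 2 * n - l) + cs ≤
        (min (2 * N - (κ + 4 / 3 * E)) (3 / 4 * N) + 5 * (x + 4 / 15 * E) + τ) * L ∧
      max y (e₁ * L + 2 * n - l) + cs ≤ L ∧
      2 * n - (l + 4 / 3 * E * L) ≤ (y - Real.log 2) + τ * L ∧ n ≤ L ∧
      y + cs ≤ (max κ (5 / 4 * N) - N / 2 - x + τ) * L ∧
      max y (e₁ * L + 2 * n - l) + cs ≤
        (κ + 4 / 3 * E - N / 2 - (x + 4 / 15 * E) + 3 * (14 / 45 * E) + τ) * L := by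
  obtain ⟨l1, l2⟩ := abs_le.1 hl
  obtain ⟨z1, z2⟩ := abs_le.1 hz
  obtain ⟨A1, A2⟩ := abs_le.1 hA
  have hlog2 : 0 < Real.log 2 := Real.log_pos (by norm_num)
  have hδL : 0 ≤ δ * L := by positivity
  have hδL' : δ * L ≤ τ / 100 * L := mul_le_mul_of_nonneg_right hδτ hL.le
  have hτL : τ * L ≤ 1 / 8 * L := mul_le_mul_of_nonneg_right hτ hL.le
  have hκL : 0 ≤ κ * L := by positivity
  have hκL1 : κ * L ≤ 1 * L := mul_le_mul_of_nonneg_right hκ1 hL.le
  have hxL : 0 ≤ x * L := by positivity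
  have hNL : N * L ≤ 102 / 125 * (κ * L) := by
    have := mul_le_mul_of_nonneg_right hN hL.le
    linarith
  have hNL0 : κ * L ≤ 2 * (N * L) := by
    have := mul_le_mul_of_nonneg_right hN0 hL.le
    linarith
  have hxL1 : x * L ≤ 1 / 36 * (κ * L) := by
    have := mul_le_mul_of_nonneg_right hx1 hL.le
    linarith
  have hadmL : x * L ≤ 0 ∨ (N * L + x * L ≤ 4 / 5 * (κ * L) ∧
      2 * (N * L) + 5 * (x * L) ≤ 59 / 36 * (κ * L)) := by
    rcases hadm with h | ⟨h, h'⟩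
    · exact Or.inl (mul_nonpos_of_nonpos_of_nonneg h hL.le)
    · right
      have e1 := mul_le_mul_of_nonneg_right h hL.le
      have e2 := mul_le_mul_of_nonneg_right h' hL.le
      constructor <;> linarith
  have hT : (min (2 * N - κ) (3 / 4 * N) + 5 * x + τ) * L =
      min (2 * (N * L) - κ * L) (3 / 4 * (N * L)) + 5 * (x * L) + τ * L := by
    rw [add_mul, add_mul, min_mul_of_nonneg _ _ hL.le]
    congr 1
    congr 1
    · congr 1 <;> ring
    · ring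
  have hT' : (min (2 * N - (κ + 4 / 3 * E)) (3 / 4 * N) + 5 * (x + 4 / 15 * E) + τ) * L =
      min (2 * (N * L) - (κ * L + 4 / 3 * (E * L))) (3 / 4 * (N * L)) +
        5 * (x * L + 4 / 15 * (E * L)) + τ * L := by
    rw [add_mul, add_mul, min_mul_of_nonneg _ _ hL.le]
    congr 1
    congr 1
    · congr 1 <;> ring
    · ring
  have hT2 : (max κ (5 / 4 * N) - N / 2 - x + τ) * L =
      max (κ * L) (5 / 4 * (N * L)) - N * L / 2 - x * L + τ * L := by
    rw [add_mul, sub_mul, sub_mul, max_mul_of_nonneg _ _ hL.le,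
      show 5 / 4 * N * L = 5 / 4 * (N * L) by ring]
    ring
  have hT3 : (κ + 4 / 3 * E - N / 2 - (x + 4 / 15 * E) + 3 * (14 / 45 * E) + τ) * L =
      κ * L + 2 * (E * L) - N * L / 2 - x * L + τ * L := by ring
  have hx4L : x * L ≤ 0 ∨ 5 / 2 * (N * L) + 4 * (x * L) ≤ 2 * (κ * L) := by
    rcases hx4 with h | h
    · exact Or.inl (mul_nonpos_of_nonpos_of_nonneg h hL.le)
    · right
      have e1 := mul_le_mul_of_nonneg_right h hL.le
      linarith
  have hEL : E * L = max 0 (5 / 4 * (N * L) - κ * L) := by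
    rw [hE, max_mul_of_nonneg _ _ hL.le, zero_mul]
    congr 1
    ring
  rw [hT, hT', hT2, hT3, show 4 / 3 * E * L = 4 / 3 * (E * L) by ring]
  subst he₁
  have hn' : n ≤ N * L + x * L + 4 * (δ * L) := by linarith
  set NL := N * L
  set xL := x * L
  set κL := κ * L
  set δL := δ * L
  set EL := E * L
  set τL := τ * L with hτL'
  have e4 : τ / 4 * L = τL / 4 := by rw [hτL']; ring
  have e8 : τ / 8 * L = τL / 8 := by rw [hτL']; ring
  have e100 : τ / 100 * L = τL / 100 := by rw [hτL']; ring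
  rw [e8] at hcs
  rw [e100] at hδL'
  rw [e4]
  have hm1 := min_le_left (2 * A - l) (3 / 4 * A)
  have hm2 := min_le_right (2 * A - l) (3 / 4 * A)
  have hmm : min (2 * A - l) (3 / 4 * A) ≤ min (2 * NL - κL) (3 / 4 * NL) + 7 * δL := by
    rw [← min_add_add_right]
    exact min_le_min (by linarith) (by linarith)
  have hmin0 : 0 ≤ min (2 * NL - κL) (3 / 4 * NL) := le_min (by linarith) (by linarith)
  have hy3 : y ≤ min (2 * NL - κL) (3 / 4 * NL) + 5 * xL + 10 * δL + Real.log 2 := by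
    refine hy1.trans ?_
    have : max 0 (min (2 * A - l) (3 / 4 * A) + 3 * z) ≤
        min (2 * NL - κL) (3 / 4 * NL) + 5 * xL + 10 * δL :=
      max_le (by linarith) (by linarith)
    linarith
  have hmin1 := min_le_left (2 * NL - κL) (3 / 4 * NL)
  have hmin2 := min_le_right (2 * NL - κL) (3 / 4 * NL)
  have g0 : y + cs ≤ min (2 * NL - κL) (3 / 4 * NL) + 5 * xL + τL := by linarith
  have hnL : n ≤ L := by rcases hadmL with h | ⟨h, -⟩ <;> linarith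
  have g1 : max y (τL / 4 + 2 * n - l) + cs ≤
      min (2 * NL - (κL + 4 / 3 * EL)) (3 / 4 * NL) + 5 * (xL + 4 / 15 * EL) + τL ∧
      min (2 * NL - (κL + 4 / 3 * EL)) (3 / 4 * NL) + 5 * (xL + 4 / 15 * EL) ≤ 23 / 36 * κL := by
    rcases le_total (5 / 4 * NL) κL with hc | hc
    · have hE0 : EL = 0 := by rw [hEL]; exact max_eq_left (by linarith)
      rw [hE0]
      have e1 : min (2 * NL - (κL + 4 / 3 * 0)) (3 / 4 * NL) = 2 * NL - κL := by
        rw [mul_zero, add_zero]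
        exact min_eq_left (by linarith)
      rw [e1]
      constructor
      · rcases max_cases y (τL / 4 + 2 * n - l) with ⟨h, -⟩ | ⟨h, -⟩ <;> rw [h] <;> linarith
      · rcases hadmL with h | ⟨h, h'⟩ <;> linarith
    · have hE0 : EL = 5 / 4 * NL - κL := by rw [hEL]; exact max_eq_right (by linarith)
      have e1 : min (2 * NL - (κL + 4 / 3 * EL)) (3 / 4 * NL) = 2 * NL - (κL + 4 / 3 * EL) :=
        min_eq_left (by linarith)
      rw [e1]
      have hx0 : xL ≤ 1 / 1 * 0 ∨ 5 / 4 * NL ≤ κL := by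
        rcases hadmL with h | ⟨h, -⟩
        · left; linarith
        · right; linarith
      constructor
      · rcases max_cases y (τL / 4 + 2 * n - l) with ⟨h, -⟩ | ⟨h, -⟩ <;> rw [h] <;>
          rcases hx0 with h' | h' <;> linarith
      · rcases hadmL with h | ⟨h, h'⟩ <;> linarith
  have hy4 : y ≤ min (2 * NL - κL) (3 / 4 * NL) + 3 * xL + 10 * δL + Real.log 2 := by
    refine hy1.trans ?_
    have : max 0 (min (2 * A - l) (3 / 4 * A) + 3 * z) ≤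
        min (2 * NL - κL) (3 / 4 * NL) + 3 * xL + 10 * δL :=
      max_le (by linarith) (by linarith)
    linarith
  have hk1 := le_max_left κL (5 / 4 * NL)
  have hk2 := le_max_right κL (5 / 4 * NL)
  have g2 : y + cs ≤ max κL (5 / 4 * NL) - NL / 2 - xL + τL := by
    rcases hx4L with h | h <;> linarith
  have g3 : max y (τL / 4 + 2 * n - l) + cs ≤ κL + 2 * EL - NL / 2 - xL + τL := by
    rcases le_total (5 / 4 * NL) κL with hc | hc
    · have hE0 : EL = 0 := by rw [hEL]; exact max_eq_left (by linarith)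
      rw [hE0]
      rcases max_cases y (τL / 4 + 2 * n - l) with ⟨h, -⟩ | ⟨h, -⟩ <;> rw [h] <;>
        rcases hx4L with h' | h' <;> linarith
    · have hE0 : EL = 5 / 4 * NL - κL := by rw [hEL]; exact max_eq_right (by linarith)
      have hx0 : xL ≤ 1 / 1 * 0 ∨ 5 / 4 * NL ≤ κL := by
        rcases hadmL with h | ⟨h, -⟩
        · left; linarith
        · right; linarith
      rcases max_cases y (τL / 4 + 2 * n - l) with ⟨h, -⟩ | ⟨h, -⟩ <;> rw [h] <;>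
        rcases hx0 with h' | h' <;> rcases hx4L with h'' | h'' <;> linarith
  refine ⟨g0, g1.1, g1.1.trans (by linarith [g1.2]), ?_, hnL, g2, g3⟩
  have h5 : 0 ≤ EL := by rw [hEL]; exact le_max_left _ _
  have h6 : 5 / 4 * NL - κL ≤ EL := by rw [hEL]; exact le_max_right _ _
  rcases min_cases (2 * A - l) (3 / 4 * A) with ⟨h, -⟩ | ⟨h, -⟩ <;> rw [h] at hy2 <;> linarith

set_option maxHeartbeats 2000000 in
/-- **`P10` from the inputs** -/
theorem p10_of {π : Λ → DPar} {h : ℝ → ℝ} {c₀ : ℝ} (hpu : PU h c₀) (hP : ∀ lam, (π lam).OK)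
    {Rh : ℝ} (hRh0 : 0 ≤ Rh) (hRh : ∀ u, cx h u ≠ 0 → |u| ≤ Rh) {e0 e1 : ℝ} (he10 : 0 ≤ e1)
    (he1 : 77 / 75 * e1 ≤ e0)
    (he0 : 0 ≤ e0) (he0' : e0 ≤ 1 / 20) {Par : Set (Fin 3 ⊕ Fin 5 → ℝ)}
    {L0 : (Fin 3 ⊕ Fin 5 → ℝ) → ℝ} (hPar : ∀ p ∈ Par, ParOK p)
    (hx4 : ∀ p ∈ Par, cx' p ≤ 0 ∨ 5 / 2 * cN p + 4 * cx' p ≤ 2 * cκ p)
    {D5 : Set (Fin 5 → ℝ)} {ℓ : (Fin 5 → ℝ) → ℝ} (hD5 : ∀ p ∈ Par, bP p ∈ D5)
    (hD5' : ∀ p ∈ Par, bQ p ∈ D5)
    (hR5 : ∀ b ∈ D5, R5 b) (hℓ0 : ∀ p ∈ Par, 0 ≤ ℓ (bP p))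
    (hL0 : ∀ p ∈ Par, max 0 (5 / 4 * cN p - cκ p) + ℓ (bP p) ≤ L0 p)
    (hL1 : ∀ p ∈ Par, 34 / 45 * exN p + ℓ (bQ p) ≤ L0 p)
    (hfb : FB π h e1 D5 ℓ) (hcb : CB π h D5 ℓ) (het : EtU π h e0 Par L0)
    (hrp : RpU π h e0 Par L0) (he3 : E3U π h e0 Rh Par L0) : P10 π h e0 Par L0 := by
  intro R hR
  choose Nw Mw Fw hWD using fun lam => exists_WD (wgt_wM (R lam))
  intro ε hε
  obtain ⟨τ₁, hτ₁, hfb⟩ := hfb (ε / 16) (by positivity)
  obtain ⟨τ₂, hτ₂, hcb⟩ := hcb (ε / 16) (by positivity)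
  obtain ⟨δ₁, hδ₁, het⟩ := het R hR (ε / 2) (by positivity)
  obtain ⟨δ₂, hδ₂, hrp⟩ := hrp R hR Nw Mw Fw hWD (ε / 2) (by positivity)
  obtain ⟨δ₃, hδ₃, he3⟩ := he3 R hR (ε / 2) (by positivity)
  obtain ⟨τ, hτ, hττ₁, hττ₂, hτ8⟩ : ∃ τ : ℝ, 0 < τ ∧ τ ≤ τ₁ ∧ τ ≤ τ₂ ∧ τ ≤ 1 / 8 :=
    ⟨min (min τ₁ τ₂) (1 / 8), lt_min (lt_min hτ₁ hτ₂) (by norm_num),
      (min_le_left _ _).trans (min_le_left _ _), (min_le_left _ _).trans (min_le_right _ _),
      min_le_right _ _⟩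
  obtain ⟨δ, hδ, hδ1, hδ2, hδ3, hδτ, hδε⟩ : ∃ δ : ℝ, 0 < δ ∧ δ ≤ δ₁ ∧ δ ≤ δ₂ ∧ δ ≤ δ₃ ∧
      δ ≤ τ / 100 ∧ δ ≤ ε / 100 := by
    refine ⟨min (min δ₁ (min δ₂ δ₃)) (min (τ / 100) (ε / 100)), ?_, ?_, ?_, ?_, ?_, ?_⟩
    · exact lt_min (lt_min hδ₁ (lt_min hδ₂ hδ₃)) (lt_min (by positivity) (by positivity))
    · exact (min_le_left _ _).trans (min_le_left _ _)
    · exact (min_le_left _ _).trans ((min_le_right _ _).trans (min_le_left _ _))
    · exact (min_le_left _ _).trans ((min_le_right _ _).trans (min_le_right _ _))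
    · exact (min_le_right _ _).trans (min_le_left _ _)
    · exact (min_le_right _ _).trans (min_le_right _ _)
  refine ⟨δ, hδ, ?_⟩
  rintro ⟨lam, s⟩ N B
  -- the constants
  by_cases hs0 : s = 0
  · refine ⟨1, one_pos, 2, by norm_num, ?_⟩
    intro X hX a qs _ _ q _ _ _ _ _
    have : ¬ okC (π lam) s a qs := fun hok => hok.2.1.1 hs0
    unfold ErC
    rw [if_neg this]
    positivity
  set B₂ : ℝ := max B 3 with hB₂
  have hBB : B ≤ B₂ := le_max_left _ _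
  have hB3 : 3 ≤ B₂ := le_max_right _ _
  have hB0 : 0 < B₂ := by linarith
  obtain ⟨M₁, hfb⟩ := hfb lam N B₂
  obtain ⟨M₂, hcb⟩ := hcb lam N B₂
  set M : ℝ := max (M₁ : ℝ) M₂ with hM
  have hM0 : 0 ≤ M := (Nat.cast_nonneg M₁).trans (le_max_left _ _)
  have hε16 : 0 < ε / 16 := by positivity
  obtain ⟨C, r, hC, hr, HI⟩ := I1LGT (wgt_wM (R lam)) (wM_nonneg _) (hWD lam) hpu (N + 3) hRh0 hRh
    (ε := ε / 16) (e₁ := τ / 4) (M := M) (B₂ := B₂) hε16 (by positivity) hM0 hB0 hs0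
    (L := 3) (by norm_num)
  obtain ⟨X₁, hX₁, hfb⟩ := hfb r hr
  obtain ⟨X₂, hX₂, hcb⟩ := hcb r hr
  obtain ⟨δ₁', hδ₁', X₃, hX₃, het⟩ := het (lam, s) N B
  obtain ⟨δ₂', hδ₂', X₄, hX₄, hrp⟩ := hrp (lam, s) N B
  obtain ⟨δ₃', hδ₃', X₅, hX₅, he3⟩ := he3 (lam, s) N B
  set m₀ : ℝ := (M₁ : ℝ) + M₂ + 1 with hm₀
  have hm₀1 : 0 < m₀ := by positivity
  obtain ⟨δ', hδ', hd1, hd2, hd3, hdM⟩ : ∃ δ' : ℝ, 0 < δ' ∧ δ' ≤ δ₁' ∧ δ' ≤ δ₂' ∧ δ' ≤ δ₃' ∧
      δ' ≤ ε / (16 * m₀) := by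
    refine ⟨min (min δ₁' (min δ₂' δ₃')) (ε / (16 * m₀)), ?_, ?_, ?_, ?_, ?_⟩
    · exact lt_min (lt_min hδ₁' (lt_min hδ₂' hδ₃')) (by positivity)
    · exact (min_le_left _ _).trans (min_le_left _ _)
    · exact (min_le_left _ _).trans ((min_le_right _ _).trans (min_le_left _ _))
    · exact (min_le_left _ _).trans ((min_le_right _ _).trans (min_le_right _ _))
    · exact min_le_right _ _
  have hP0 := Cst401.pC_pos
  set cs : ℝ := Real.log ((nm s : ℝ) ^ 2) with hcs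
  have hsn : (1 : ℝ) ≤ (nm s : ℝ) ^ 2 := one_le_pow₀ (by exact_mod_cast nm_pos.2 hs0)
  have hcs0 : 0 ≤ cs := Real.log_nonneg hsn
  set CC : ℝ := 3 * C + C + 4 * pC + pC ^ 2 + 1 with hCC
  have hCC1 : 1 ≤ CC := by
    have : 0 ≤ 3 * C + C + 4 * pC + pC ^ 2 := by positivity
    linarith
  have hlCC : 0 ≤ Real.log CC := Real.log_nonneg hCC1
  have hlog2 : 0 < Real.log 2 := Real.log_pos (by norm_num)
  set Q : ℝ := 2 + (((N + 3 : ℕ) : ℝ) * Rh + 1) + 8 * (Real.log 2 + cs) / τ +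
    2 * Real.log CC / ε with hQ
  have hQ1 : 0 ≤ ((N + 3 : ℕ) : ℝ) * Rh + 1 := by positivity
  have hQ2 : 0 ≤ 8 * (Real.log 2 + cs) / τ := by positivity
  have hQ3 : 0 ≤ 2 * Real.log CC / ε := by positivity
  refine ⟨δ', hδ', max (max (max X₁ X₂) (max X₃ (max X₄ X₅))) (Real.exp Q), ?_, ?_⟩
  · exact lt_of_lt_of_le hX₁ ((le_max_left _ _).trans ((le_max_left _ _).trans (le_max_left _ _)))
  intro X hX a qs hlen hgl q hq hw hm hg hl
  have hXa : max (max X₁ X₂) (max X₃ (max X₄ X₅)) ≤ X := (le_max_left _ _).trans hX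
  have hX1' : X₁ ≤ X := (le_max_left _ _).trans ((le_max_left _ _).trans hXa)
  have hX2' : X₂ ≤ X := (le_max_right _ _).trans ((le_max_left _ _).trans hXa)
  have hX3' : X₃ ≤ X := (le_max_left _ _).trans ((le_max_right _ _).trans hXa)
  have hX4' : X₄ ≤ X := (le_max_left _ _).trans ((le_max_right _ _).trans
    ((le_max_right _ _).trans hXa))
  have hX5' : X₅ ≤ X := (le_max_right _ _).trans ((le_max_right _ _).trans
    ((le_max_right _ _).trans hXa))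
  have hXQ : Real.exp Q ≤ X := (le_max_right _ _).trans hX
  have hX1 : 1 < X := by linarith
  have hX0 : 0 < X := by linarith
  set L := Real.log X with hL
  have hQL : Q ≤ L := by
    have := Real.log_le_log (Real.exp_pos Q) hXQ
    rwa [Real.log_exp] at this
  have hL2 : 2 ≤ L := by linarith
  have hL0' : 0 < L := by linarith
  have hX3 : 3 ≤ X := by
    have h1 : Real.exp 2 ≤ X := (Real.exp_le_exp.2 (by linarith)).trans hXQ
    have h2 := Real.add_one_le_exp 2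
    linarith
  have hLN' : ((N + 3 : ℕ) : ℝ) * Rh + 1 ≤ L := by linarith
  have hLτ : Real.log 2 + cs ≤ τ / 8 * L := by
    have h1 : 8 * (Real.log 2 + cs) / τ ≤ L := by linarith
    rw [div_le_iff₀ hτ] at h1
    linarith
  have hLC : CC ≤ X ^ (ε / 2) := by
    have h1 : 2 * Real.log CC / ε ≤ L := by linarith
    rw [div_le_iff₀ hε] at h1
    rw [Real.rpow_def_of_pos hX0, ← hL]
    rw [← Real.exp_log (show 0 < CC by linarith)]
    exact Real.exp_le_exp.2 (by linarith)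
  -- not admissible
  by_cases hok : okC (π lam) s a qs
  swap
  · unfold ErC
    rw [if_neg hok]
    positivity
  obtain ⟨hbok, hsm, hlmp, hamq⟩ := hok
  have hok : okC (π lam) s a qs := ⟨hbok, hsm, hlmp, hamq⟩
  -- the window
  obtain ⟨hq1, hq2, hq3, hq4, hq5, hq6⟩ := hq
  set p : Fin 3 ⊕ Fin 5 → ℝ := fun i => q.1 (.inl i) with hp
  have hPp := hPar p hq1
  have hb5 := hD5 p hq1
  have hRb := hR5 _ hb5
  have hℓp := hℓ0 p hq1
  have hL0p := hL0 p hq1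
  have hb5' := hD5' p hq1
  have hL1p := hL1 p hq1
  have hev : ∀ i, |S8.ev X a i - q.1 i| ≤ δ := hw.ev
  have hdiv : ∀ {z c : ℝ}, |z / L - c| ≤ δ → |z - c * L| ≤ δ * L := by
    intro z c h1
    have h2 : z - c * L = (z / L - c) * L := by field_simp
    rw [h2, abs_mul, abs_of_pos hL0']
    exact mul_le_mul_of_nonneg_right h1 hL0'.le
  have hk : |a.1.l - cκ p * L| ≤ δ * L := hdiv (hev (.inl (.inl 0)))
  have hz : |a.1.z - cx' p * L| ≤ δ * L := hdiv (hev (.inl (.inl 1)))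
  have hu2 : |(a.1.us 2).z - cu p 2 * L| ≤ δ * L := hdiv (hev (.inl (.inr 2)))
  have hu3 : |(a.1.us 3).z - cu p 3 * L| ≤ δ * L := hdiv (hev (.inl (.inr 3)))
  have hu4 : |(a.1.us 4).z - cu p 4 * L| ≤ δ * L := hdiv (hev (.inl (.inr 4)))
  have hv0 : |(a.2 0).z - q.1 (.inr 0) * L| ≤ δ * L := hdiv (hev (.inr 0))
  have hv1 : |(a.2 1).z - q.1 (.inr 1) * L| ≤ δ * L := hdiv (hev (.inr 1))
  have hv2 : |(a.2 2).z - q.1 (.inr 2) * L| ≤ δ * L := hdiv (hev (.inr 2))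
  have hma : |LN qs - q.2 .am * L| ≤ δ * L := by
    have h1 := hm .am
    rw [mass_am hamq] at h1
    exact hdiv h1
  have hA : |a3 a.1 - cN p * L| ≤ 3 * (δ * L) := by
    have e1 : a3 a.1 - cN p * L = ((a.1.us 2).z - cu p 2 * L) + ((a.1.us 3).z - cu p 3 * L) +
        ((a.1.us 4).z - cu p 4 * L) := by unfold E5L770.a3 cN; ring
    rw [e1]
    refine (abs_add_le _ _).trans ?_
    have := abs_add_le ((a.1.us 2).z - cu p 2 * L) ((a.1.us 3).z - cu p 3 * L)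
    linarith
  obtain ⟨k1, k2⟩ := abs_le.1 hk
  obtain ⟨z1, z2⟩ := abs_le.1 hz
  obtain ⟨v01, v02⟩ := abs_le.1 hv0
  obtain ⟨v11, v12⟩ := abs_le.1 hv1
  obtain ⟨v21, v22⟩ := abs_le.1 hv2
  obtain ⟨m1, m2⟩ := abs_le.1 hma
  obtain ⟨A1, A2⟩ := abs_le.1 hA
  have w0 : 0 ≤ q.1 (.inr 0) ∧ q.1 (.inr 0) ≤ cu p 2 := hq2 0
  have w1 : 0 ≤ q.1 (.inr 1) ∧ q.1 (.inr 1) ≤ cu p 3 := hq2 1
  have w2 : 0 ≤ q.1 (.inr 2) ∧ q.1 (.inr 2) ≤ cu p 4 := hq2 2
  have hcN : cN p = cu p 2 + cu p 3 + cu p 4 := rfl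
  have hS3 : ∑ i : Fin 3, q.1 (.inr i) = q.1 (.inr 0) + q.1 (.inr 1) + q.1 (.inr 2) :=
    Fin.sum_univ_three _
  rw [hS3] at hq6
  set n := LN (cl a qs) with hn
  have hnz : n = (a.2 0).z + (a.2 1).z + (a.2 2).z + LN qs := LN_cl a qs
  have hLqs : 0 ≤ LN qs := by
    unfold LN
    refine List.sum_nonneg fun x hx => ?_
    obtain ⟨p', hp', rfl⟩ := List.mem_map.1 hx
    exact (hg p' hp').2.2
  have g0 := (hlmp 0).2
  have g1 := (hlmp 1).2
  have g2 := (hlmp 2).2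
  have hδL : 0 ≤ δ * L := by positivity
  have w0L := mul_le_mul_of_nonneg_right w0.2 hL0'.le
  have w1L := mul_le_mul_of_nonneg_right w1.2 hL0'.le
  have w2L := mul_le_mul_of_nonneg_right w2.2 hL0'.le
  have hq5L := mul_le_mul_of_nonneg_right hq5 hL0'.le
  have hq6L := mul_le_mul_of_nonneg_right hq6 hL0'.le
  have hκp : 0 ≤ cκ p := by linarith [hPp.κ0]
  have hκpL : 0 ≤ cκ p * L := by positivity
  have hnle : n ≤ (cN p + cx' p) * L + 4 * (δ * L) := by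
    rw [hnz, hcN]
    linarith
  have hnup : n ≤ (∑ i : Fin 3, q.1 (.inr i) + q.2 .am) * L + 4 * (δ * L) := by
    rw [hnz, hS3]
    linarith
  have hnlo : (cκ p / 2 - 2 * cx' p) * L - 4 * (δ * L) ≤ n := by
    rw [hnz]
    linarith
  -- the region
  have e0b : bP p 0 = cκ p := rfl
  have e1b : bP p 1 = cu p 2 := rfl
  have e2b : bP p 2 = cu p 3 := rfl
  have e3b : bP p 3 = cu p 4 := rfl
  have e4b : bP p 4 = cx' p := rfl
  have rN := hRb.hN
  have rx1 := hRb.x1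
  have radm := hRb.adm
  rw [e1b, e2b, e3b, e0b, ← hcN] at rN
  rw [e4b, e0b] at rx1
  rw [e1b, e2b, e3b, e0b, e4b, ← hcN] at radm
  set y : ℝ := Real.log (YT a.1.l (a3 a.1) a.1.z) with hy
  have hyn : y = Real.log 2 * nO a.1 := log_YT _ _ _
  have hnO : nO a.1 = ⌊Sf770.tO a.1 / Real.log 2⌋₊ + 1 := rfl
  have hy1 : y ≤ max 0 (min (2 * a3 a.1 - a.1.l) (3 / 4 * a3 a.1) + 3 * a.1.z) + Real.log 2 := by
    have hz0 : 0 ≤ a.1.z := hbok.2.1
    rw [hyn, hnO]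
    push_cast
    rcases le_total 0 (Sf770.tO a.1) with h0 | h0
    · have h1 := Nat.floor_le (div_nonneg h0 hlog2.le)
      rw [le_div_iff₀ hlog2] at h1
      have h2 : Sf770.tO a.1 ≤ max 0 (min (2 * a3 a.1 - a.1.l) (3 / 4 * a3 a.1) + 3 * a.1.z) := by
        refine le_trans ?_ (le_max_right _ _)
        unfold Sf770.tO
        linarith
      linarith
    · rw [Nat.floor_of_nonpos (div_nonpos_of_nonpos_of_nonneg h0 hlog2.le)]
      have h2 := le_max_left 0 (min (2 * a3 a.1 - a.1.l) (3 / 4 * a3 a.1) + 3 * a.1.z)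
      push_cast
      linarith
  have hy2 : min (2 * a3 a.1 - a.1.l) (3 / 4 * a3 a.1) + 2 * a.1.z ≤ y := by
    have hz0 : 0 ≤ a.1.z := hbok.2.1
    rw [hyn, hnO]
    push_cast
    have h1 := Nat.lt_floor_add_one (Sf770.tO a.1 / Real.log 2)
    rw [div_lt_iff₀ hlog2] at h1
    unfold Sf770.tO at h1 ⊢
    linarith
  obtain ⟨F0, F1, F2, F3, F4, F5, F6⟩ := frame (L := L) (δ := δ) (τ := τ) (κ := cκ p) (N := cN p)
    (x := cx' p) (l := a.1.l) (z := a.1.z) (A := a3 a.1) (n := n) (y := y) (cs := cs)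
    (e₁ := τ / 4) (E := exN p) hL0' hδ.le hδτ hτ8 rfl hLτ hcs0 hk hz hA hnle hκp hPp.κ1 hPp.x0
    (by linarith [hPp.N0]) rN rx1 (by rcases radm with h | ⟨h, h', -⟩
                                      · exact Or.inl h
                                      · exact Or.inr ⟨h, h'⟩) (hx4 p hq1) rfl hy1 hy2
  have hexN0 : 0 ≤ exN p := le_max_left _ _
  have hexN1 : exN p ≤ 1 / 50 * cκ p := max_le (by linarith) (by linarith)
  have hexL0 : 0 ≤ exN p * L := by positivity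
  have hexL1 : exN p * L ≤ 1 / 50 * (cκ p * L) := by
    have := mul_le_mul_of_nonneg_right hexN1 hL0'.le
    linarith
  -- the sets
  set E0 := Real.exp (e0 * a.1.l) with hE0
  set K := Real.exp a.1.l with hK
  set Yt := YT a.1.l (a3 a.1) a.1.z with hYt
  have hYt0 : 0 < Yt := by rw [hYt]; unfold YT; positivity
  set Y' : ℝ := max Yt (X ^ (τ / 4) * Real.exp (2 * n - a.1.l)) with hY'
  have hY'0 : 0 < Y' := hYt0.trans_le (le_max_left _ _)
  have hlX : X ^ (τ / 4) * Real.exp (2 * n - a.1.l) = Real.exp (τ / 4 * L + 2 * n - a.1.l) := by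
    rw [Real.rpow_def_of_pos hX0, ← Real.exp_add, ← hL]
    congr 1
    ring
  have hlY' : Real.log Y' = max y (τ / 4 * L + 2 * n - a.1.l) := by
    rw [hY', hlX]
    have hm : Monotone fun x : ℝ => Real.exp x := Real.exp_monotone
    rw [← Real.exp_log hYt0, ← Real.exp_monotone.map_max, Real.log_exp]
  have hlT : Real.log (Y' * (nm s : ℝ) ^ 2) = max y (τ / 4 * L + 2 * n - a.1.l) + cs := by
    rw [Real.log_mul hY'0.ne' (by positivity), hlY']
  have hlT' : Real.log (Yt * (nm s : ℝ) ^ 2) = y + cs := by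
    rw [Real.log_mul hYt0.ne' (by positivity)]
  have hT5 : T5 (bP p) = min (2 * cN p - cκ p) (3 / 4 * cN p) + 5 * cx' p := rfl
  have hT5' : T5 (bQ p) = min (2 * cN p - (cκ p + 4 / 3 * exN p)) (3 / 4 * cN p) +
      5 * (cx' p + 4 / 15 * exN p) := rfl
  have hK5 : K5 (bP p) = max (cκ p) (5 / 4 * cN p) := rfl
  have hK5' : K5 (bQ p) = max (cκ p + 4 / 3 * exN p) (5 / 4 * cN p) := rfl
  have hL5' : L5 (bQ p) = 0 := by
    unfold TM708.L5
    rw [hK5']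
    have h1 : 5 / 4 * E5B71.cN p - cκ p ≤ exN p := le_max_right _ _
    rw [max_eq_left (by linarith)]
    show (_ - (cκ p + 4 / 3 * exN p)) / 3 = _
    ring
  -- parent data
  set H : ℝ := X ^ δ' with hH
  have hH1 : 1 ≤ H := Real.one_le_rpow hX1.le hδ'.le
  have hs1 : ∀ i, Dq.s1 (a.2 i) ≤ H := by
    intro i
    have h1 : mx Dq.s1 (List.ofFn a.2) ≤ X ^ δ' := (le_max_right _ _).trans hw.s₁
    exact (XT71.le_mx (List.mem_ofFn.2 ⟨i, rfl⟩)).trans h1
  have hs2 : ∀ i, Dq.s2 (a.2 i) ≤ X ^ B₂ := by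
    intro i
    have h1 : mx Dq.s2 (List.ofFn a.2) ≤ X ^ B := (le_max_right _ _).trans hw.s₂
    exact ((XT71.le_mx (List.mem_ofFn.2 ⟨i, rfl⟩)).trans h1).trans
      (Real.rpow_le_rpow_of_exponent_le hX1.le hBB)
  have hgran : ∀ p' ∈ qs, p'.z ≤ δ * L := by
    intro p' hp'
    rcases hgl p' hp' with h1 | h1
    · exact absurd (hl p' hp' h1) (Set.notMem_empty _)
    · unfold Pcs.nl at h1
      rw [div_le_iff₀ hL0'] at h1
      exact h1
  have hδτL : δ * L ≤ τ / 100 * L := mul_le_mul_of_nonneg_right hδτ hL0'.le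
  have hτL : 0 ≤ τ * L := by positivity
  have hPDt : ∀ τ' : ℝ, τ ≤ τ' → PD X τ' B₂ H N (bP p) 1 a.2 qs a.1.l := by
    intro τ' hττ'
    have hτ'L : τ * L ≤ τ' * L := mul_le_mul_of_nonneg_right hττ' hL0'.le
    refine ⟨one_ne_zero, ?_, hH1, fun i => (hlmp i).1, fun i => (hlmp i).2, fun i => hs2 i,
      fun i => hs1 i, ?_, ?_, ?_, ?_, hlen, ?_, ?_⟩
    · rw [nm_one, Nat.cast_one]
      exact Real.one_le_rpow hX1.le hB0.le
    · rw [← hL, e1b]
      linarith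
    · rw [← hL, e2b]
      linarith
    · rw [← hL, e3b]
      linarith
    · intro p' hp'
      obtain ⟨s1', s2', z0'⟩ := hg p' hp'
      refine ⟨hamq p' hp', z0', ?_, s2'.trans (Real.rpow_le_rpow_of_exponent_le hX1.le hBB), s1'⟩
      rw [← hL]
      have := hgran p' hp'
      linarith
    · rw [← hL, e4b]
      linarith
    · rw [← hL, e0b]
      refine hk.trans ?_
      linarith
  have hPDq : PD X τ₁ B₂ H N (bQ p) 1 a.2 qs (a.1.l + 4 / 3 * (exN p * L)) := by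
    have g := hPDt τ₁ hττ₁
    have hττ' : τ * L ≤ τ₁ * L := mul_le_mul_of_nonneg_right hττ₁ hL0'.le
    refine ⟨g.q0, g.qB, g.H1, g.lump, g.us0, g.usB, g.usH, g.z1, g.z2, g.z3, g.am, g.len, ?_, ?_⟩
    · refine g.x.trans (mul_le_mul_of_nonneg_right ?_ hL0'.le)
      show cx' p + τ₁ ≤ cx' p + 4 / 15 * exN p + τ₁
      linarith
    · show |a.1.l + 4 / 3 * (exN p * L) - (cκ p + 4 / 3 * exN p) * Real.log X| ≤ _
      rw [← hL]
      have e : a.1.l + 4 / 3 * (exN p * L) - (cκ p + 4 / 3 * exN p) * L = a.1.l - cκ p * L := by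
        ring
      rw [e]
      refine hk.trans ?_
      linarith
  have hcl : [a.2 0, a.2 1, a.2 2] ++ qs = cl a qs := (cl_eq a qs).symm
  have hlo : ∀ τ' : ℝ, τ ≤ τ' → (bP p 0 / 2 - 2 * bP p 4 - τ') * L ≤
      LN ([a.2 0, a.2 1, a.2 2] ++ qs) := by
    intro τ' hττ'
    have hτ'L : τ * L ≤ τ' * L := mul_le_mul_of_nonneg_right hττ' hL0'.le
    rw [hcl, e0b, e4b, ← hn]
    linarith
  have hTle : Real.log (Yt * (nm s : ℝ) ^ 2) ≤ (T5 (bP p) + τ₂) * Real.log X := by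
    rw [hlT', hT5, ← hL]
    refine F0.trans (mul_le_mul_of_nonneg_right (by linarith) hL0'.le)
  have hTle' : Real.log (Y' * (nm s : ℝ) ^ 2) ≤ (T5 (bQ p) + τ₁) * Real.log X := by
    rw [hlT, hT5', ← hL]
    refine F1.trans (mul_le_mul_of_nonneg_right (by linarith) hL0'.le)
  have hθ0 : 0 ≤ 14 / 45 * exN p := by positivity
  have hKQ : K5 (bQ p) = cκ p + 4 / 3 * exN p := by
    rw [hK5']
    have h1 : 5 / 4 * E5B71.cN p - cκ p ≤ exN p := le_max_right _ _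
    exact max_eq_left (by linarith)
  have hTle2 : Real.log (Yt * (nm s : ℝ) ^ 2) ≤
      (K5 (bP p) - (bP p 1 + bP p 2 + bP p 3) / 2 - bP p 4 + τ₂) * Real.log X := by
    rw [hlT', hK5, e1b, e2b, e3b, e4b, ← hcN, ← hL]
    refine F5.trans (mul_le_mul_of_nonneg_right (by linarith) hL0'.le)
  have hTle2' : Real.log (Y' * (nm s : ℝ) ^ 2) ≤
      (K5 (bQ p) - (bQ p 1 + bQ p 2 + bQ p 3) / 2 - bQ p 4 + 3 * (14 / 45 * exN p) + τ₁) *
        Real.log X := by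
    rw [hlT, hKQ, ← hL]
    refine F6.trans (mul_le_mul_of_nonneg_right ?_ hL0'.le)
    show _ ≤ cκ p + 4 / 3 * exN p - (cu p 2 + cu p 3 + cu p 4) / 2 -
      (cx' p + 4 / 15 * exN p) + 3 * (14 / 45 * exN p) + τ₁
    rw [← hcN]
    linarith
  obtain ⟨hFL, hTL⟩ := hfb X hX1' (bQ p) hb5' 1 a.2 qs _ H hPDq _ hTle' _ hθ0 hTle2' M
    (le_max_left _ _) (by
      rw [hcl, ← hn]
      show (1 / 3 * (cκ p + 4 / 3 * exN p) - τ₁) * Real.log X ≤ n
      rw [← hL]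
      have hττ' : τ * L ≤ τ₁ * L := mul_le_mul_of_nonneg_right hττ₁ hL0'.le
      have rx1L := mul_le_mul_of_nonneg_right rx1 hL0'.le
      linarith)
  set F₀ : ℝ := H ^ M₁ * X ^ (L5 (bQ p) + 14 / 45 * exN p + ℓ (bQ p) + ε / 16) with hF₀
  have hF₀0 : 0 ≤ F₀ := by positivity
  set F : ℝ := F₀ * Real.exp (4 / 3 * (exN p * L) / 3) with hF
  set Fs : ℝ := H ^ M₂ * X ^ (ℓ (bP p) + ε / 16) with hFs
  have hF0 : 0 ≤ F := by positivity
  have hFs0 : 0 ≤ Fs := by positivity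
  set T₀ : ℝ := Yt / 2 with hT₀
  have hT₀0 : 0 < T₀ := by positivity
  have hlT₀ : Real.log T₀ = y - Real.log 2 := by
    rw [hT₀, Real.log_div hYt0.ne' (by norm_num)]
  have hlE : Real.log E0 = e0 * a.1.l := by rw [hE0, Real.log_exp]
  have hTL' := hTL (Real.log T₀) (Real.log E0) (by
      rw [hlE, ← hL]
      show (e1 * (cκ p + 4 / 3 * exN p) - τ₁) * L ≤ _
      have h0 : e1 * (cκ p + 4 / 3 * exN p) ≤ e1 * (77 / 75 * cκ p) :=
        mul_le_mul_of_nonneg_left (by linarith) he10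
      have h1 : e1 * (cκ p + 4 / 3 * exN p) ≤ e0 * cκ p := by
        have := mul_le_mul_of_nonneg_right he1 hκp
        linarith
      have h2 := mul_le_mul_of_nonneg_right h1 hL0'.le
      have h3 : e0 * (cκ p * L - δ * L) ≤ e0 * a.1.l :=
        mul_le_mul_of_nonneg_left (by linarith) he0
      have h4 : e0 * (δ * L) ≤ 1 / 20 * (δ * L) := mul_le_mul_of_nonneg_right he0' hδL
      have h5 : τ * L ≤ τ₁ * L := mul_le_mul_of_nonneg_right hττ₁ hL0'.le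
      linarith) (by
      rw [hcl, ← hn, hlT₀, hL5', ← hL]
      have h5 : τ * L ≤ τ₁ * L := mul_le_mul_of_nonneg_right hττ₁ hL0'.le
      linarith)
  have hCS := hcb X hX2' (bP p) hb5 1 a.2 qs a.1.l H (hPDt τ₂ hττ₂) _ hTle hTle2 M
    (le_max_right _ _) (hlo τ₂ hττ₂) (Real.log E0) (max a.1.l (5 / 4 * a3 a.1)) a.1.z (by
      rw [hlE, e0b, ← hL]
      have h3 : e0 * a.1.l ≤ e0 * (cκ p * L + δ * L) :=
        mul_le_mul_of_nonneg_left (by linarith) he0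
      have h4 : e0 * (cκ p * L + δ * L) ≤ 1 / 20 * (cκ p * L + δ * L) :=
        mul_le_mul_of_nonneg_right he0' (by positivity)
      have h5 : τ * L ≤ τ₂ * L := mul_le_mul_of_nonneg_right hττ₂ hL0'.le
      linarith) (by
      rw [hK5, ← hL, max_mul_of_nonneg _ _ hL0'.le]
      refine (abs_max_sub_max_le_max _ _ _ _).trans (max_le ?_ ?_)
      · have h5 : τ * L ≤ τ₂ * L := mul_le_mul_of_nonneg_right hττ₂ hL0'.le
        linarith
      · have h5 : τ * L ≤ τ₂ * L := mul_le_mul_of_nonneg_right hττ₂ hL0'.le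
        have e : 5 / 4 * a3 a.1 - 5 / 4 * cN p * L = 5 / 4 * (a3 a.1 - cN p * L) := by ring
        rw [e, abs_mul, abs_of_pos (by norm_num : (0 : ℝ) < 5 / 4)]
        linarith) (by
      rw [e4b, ← hL]
      have h5 : τ * L ≤ τ₂ * L := mul_le_mul_of_nonneg_right hττ₂ hL0'.le
      linarith)
  rw [hcl] at hFL hTL' hCS
  replace hFL := FlatL.toκ (by positivity) hF₀0 hFL
  replace hTL' := Tail.toκ hTL'
  -- the inputs
  have hw' : ∀ {δ₀ δ₀' : ℝ}, δ ≤ δ₀ → δ' ≤ δ₀' → Win S8 q.1 δ₀ N B δ₀' X a :=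
    fun h1 h2 => hw.mono hX1.le h1 le_rfl le_rfl h2
  have hgl' : ∀ {δ₀ : ℝ}, δ ≤ δ₀ → ∀ p' ∈ qs, Dq.lump p' ∨ Dq.nl X p' ≤ δ₀ :=
    fun h1 p' hp' => (hgl p' hp').imp id fun h2 => h2.trans h1
  have hm' : ∀ {δ₀ : ℝ}, δ ≤ δ₀ → ∀ t, |Dq.mass X qs t - q.2 t| ≤ δ₀ :=
    fun h1 t => (hm t).trans h1
  have hg' : ∀ {δ₀' : ℝ}, δ' ≤ δ₀' → Dq.Good X δ₀' B qs :=
    fun h1 p' hp' => ⟨(hg p' hp').1.trans (Real.rpow_le_rpow_of_exponent_le hX1.le h1),
      (hg p' hp').2⟩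
  have hqD : q ∈ Dom8 Par := ⟨hq1, hq2, hq3, hq4, hq5, by rw [hS3]; exact hq6⟩
  set U : ℝ := X ^ (E8 L0 q + ε / 2) with hU
  have hU0 : 0 < U := by positivity
  have hEt := het X hX3' a qs hlen (hgl' hδ1) q hqD (hw' hδ1 hd1) (hm' hδ1) (hg' hd1) hl
  have hRp := hrp X hX4' a qs hlen (hgl' hδ2) q hqD (hw' hδ2 hd2) (hm' hδ2) (hg' hd2) hl
  have hE3 := he3 X hX5' a qs hlen (hgl' hδ3) q hqD (hw' hδ3 hd3) (hm' hδ3) (hg' hd3) hl
  unfold EtC at hEt
  unfold RpC at hRp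
  unfold E3C at hE3
  rw [if_pos hok] at hEt hRp hE3
  -- the sequence
  have hdom := dom_list (hP lam) h hsm 1 (cl a qs)
  have hlen3 : (cl a qs).length ≤ N + 3 := by
    rw [cl_eq, List.length_append]
    simp only [List.length_cons, List.length_nil]
    omega
  have hcz : ∀ p' ∈ cl a qs, 0 ≤ p'.z := by
    intro p' hp'
    rw [cl_eq] at hp'
    rcases List.mem_append.1 hp' with h1 | h1
    · simp only [List.mem_cons, List.not_mem_nil, or_false] at h1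
      rcases h1 with rfl | rfl | rfl
      · exact g0
      · exact g1
      · exact g2
    · exact (hg p' h1).2.2
  have hczL : ∀ p' ∈ cl a qs, 0 ≤ p'.z ∧ p'.z ≤ Real.log X := by
    intro p' hp'
    refine ⟨hcz p' hp', ?_⟩
    have h1 : p'.z ≤ n := by
      rw [hn]
      unfold LN
      refine List.single_le_sum ?_ _ (List.mem_map.2 ⟨p', hp', rfl⟩)
      intro x hx
      obtain ⟨p'', hp'', rfl⟩ := List.mem_map.1 hx
      exact hcz p'' hp''
    exact h1.trans F4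
  have hn0 : 0 ≤ n := by rw [hnz]; positivity
  have hal : alC π h (lam, s) a qs = sqc 1 (alL h ((cl a qs).map (Pt (π lam) s))) := rfl
  have hYc0 : 0 ≤ Yc Rh a qs := (Real.exp_pos _).le
  have hsup : ∀ m, alC π h (lam, s) a qs m ≠ 0 → m ∈ S (Yc Rh a qs) := by
    intro m hm
    have hadm := Adm_list (h := h) (N := (cl a qs).length) hRh0 hRh (π lam) 1 (ps := cl a qs)
      le_rfl (Y := Yc Rh a qs) (Real.exp_le_exp.2 (by linarith))
    refine hadm.sup m fun h0 => hm ?_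
    have := hdom.le m
    rw [h0, norm_zero] at this
    exact norm_le_zero_iff.1 this
  set Yr : ℝ := Real.exp (n + ((N + 3 : ℕ) : ℝ) * Rh + 1) with hYr
  have hYcYr : Yc Rh a qs ≤ Yr := by
    refine Real.exp_le_exp.2 ?_
    have : ((cl a qs).length : ℝ) * Rh ≤ ((N + 3 : ℕ) : ℝ) * Rh :=
      mul_le_mul_of_nonneg_right (by exact_mod_cast hlen3) hRh0
    linarith
  have hYrX : Yr ≤ X ^ B₂ := by
    rw [Real.rpow_def_of_pos hX0, ← hL]
    refine Real.exp_le_exp.2 ?_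
    have : L * 3 ≤ L * B₂ := mul_le_mul_of_nonneg_left hB3 hL0'.le
    linarith
  have hJo : Jo a.1.l (a3 a.1) a.1.z = JW (Real.sqrt Yt) (1 / 10) Yt := rfl
  have hX3eq := X3_Y (E0 := E0) hYc0 hYcYr hsup (J := Jo a.1.l (a3 a.1) a.1.z)
    (fun x hx => (okJ_JW _ _ _).prim x hx) (omP (nO a.1))
  set D' : ℝ := Real.sqrt Y' with hD'
  have hYY' : Yt ≤ Y' := le_max_left _ _
  have hDD' : Real.sqrt Yt ≤ D' := Real.sqrt_le_sqrt hYY'
  have hYt2 : Yt = 2 ^ nO a.1 := rfl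
  have hK1 : 1 ≤ K := by
    rw [hK]
    apply Real.one_le_exp
    have h3 : 8 / 9 * L ≤ cκ p * L := mul_le_mul_of_nonneg_right hPp.κ0 hL0'.le
    have h4 : τ * L ≤ 1 / 8 * L := mul_le_mul_of_nonneg_right hτ8 hL0'.le
    linarith
  have hlK : Real.log K = a.1.l := by rw [hK, Real.log_exp]
  have hnsX : Y' * (nm s : ℝ) ^ 2 ≤ X := by
    rw [← Real.exp_log (show 0 < Y' * (nm s : ℝ) ^ 2 by positivity), ← Real.exp_log hX0, hlT]
    exact Real.exp_le_exp.2 F2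
  have hKY : Real.exp (2 * n) * X ^ (τ / 4) ≤ K * Y' := by
    have h1 : X ^ (τ / 4) * Real.exp (2 * n - a.1.l) ≤ Y' := le_max_right _ _
    have h2 := mul_le_mul_of_nonneg_left h1 (show 0 ≤ K by linarith)
    refine le_trans (le_of_eq ?_) h2
    rw [hK]
    have e : Real.exp (2 * n) = Real.exp a.1.l * Real.exp (2 * n - a.1.l) := by
      rw [← Real.exp_add]; congr 1; ring
    rw [e]
    ring
  have hLip := lipS_Sh5 (max a.1.l (5 / 4 * a3 a.1)) a.1.z n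
  have hB21 : (1 : ℝ) ≤ X ^ B₂ := Real.one_le_rpow hX1.le hB0.le
  have key := HI X hX3 (π lam) (hP lam) hsm 1 (cl a qs) hlen3 hczL F4 K Yr (Real.sqrt Yt) (1 / 10)
    Yt D' Y' T₀ E0 F F (Tgc a qs) Fs (Shat a qs) (nO a.1 + 1) hK1 le_rfl hYrX
    (Real.sqrt_nonneg _) hYt0 hDD' hYY' (by rw [hD', Real.sq_sqrt hY'0.le]) hnsX hKY
    (by norm_num) (Real.exp_pos _) (by
      rw [hYt2, pow_succ]
      have : (0 : ℝ) < 2 ^ nO a.1 := by positivity
      linarith) hT₀0 hF0 hF0 hFs0 hLip hCS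
    (by rw [hlK]; exact hFL.toO hB21) (by rw [hlK]; exact hFL) (by rw [hlK]; exact hTL')
    (omP (nO a.1)) (fun x => (omP_bd _ x).2) (fun x => (omP_bd _ x).1) (fun x hx => by
      rw [Sf770.omP_eq]
      apply oD_one
      by_cases hx0 : nm (ln x) = 0
      · rw [hx0, Nat.cast_zero, Real.log_zero, zero_add, ← hyn]
        have : Real.log 2 * 1 ≤ Real.log 2 * (nO a.1 : ℝ) := by
          refine mul_le_mul_of_nonneg_left ?_ hlog2.le
          rw [hnO]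
          push_cast
          have : (0 : ℝ) ≤ (⌊Sf770.tO a.1 / Real.log 2⌋₊ : ℝ) := Nat.cast_nonneg _
          linarith
        linarith
      · have hp0 : (0 : ℝ) < nm (ln x) := by exact_mod_cast Nat.pos_of_ne_zero hx0
        have h1 : Real.log (nm (ln x)) ≤ Real.log T₀ := Real.log_le_log hp0 hx
        rw [hlT₀, hyn] at h1
        linarith) (fun x hx hn' => omP_out hx hn')
    (fun k => cutE (Real.exp (a.1.l / 20)) k) U U hEt (by
      have h1 := (le_max_right _ _).trans hE3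
      rw [hX3eq] at h1
      have h2 := sub_le_iff_le_add.1 h1
      rw [add_comm] at h2
      exact h2)
  rw [← hal] at key
  have hM2 : ErC π h e0 R (lam, s) a qs = ∑' k : Eis, (if IsPrim k ∧
      cutE (Real.exp (a.1.l / 20)) k then wM (R lam) (nm k / K) *
        ‖CS (alC π h (lam, s) a qs) k - (pC : ℂ) * StE E0 (JW (Real.sqrt Yt) (1 / 10) Yt)
          (omP (nO a.1)) (alC π h (lam, s) a qs) k‖ ^ 2 else 0) := by
    unfold ErC
    rw [if_pos hok]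
    unfold M2
    refine tsum_congr fun k => ?_
    unfold uM P1f54.Er
    split_ifs
    · rfl
    · rw [zero_mul]
  rw [hM2]
  refine key.trans ?_
  -- the exponents
  set ex : ℝ := cκ p + (∑ i : Fin 3, q.1 (.inr i) + q.2 .am) with hex
  have hE8 : E8 L0 q = ex + L0 p := by
    unfold E8
    rw [hex]
    ring
  have hδε' : 10 * (δ * L) ≤ ε / 10 * L := by
    have := mul_le_mul_of_nonneg_right hδε hL0'.le
    linarith
  have hKn : K * Real.exp n ≤ Real.exp (ex * L + 5 * (δ * L)) := by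
    rw [hK, ← Real.exp_add]
    refine Real.exp_le_exp.2 ?_
    rw [hex]
    linarith
  have hXexp : ∀ z : ℝ, X ^ z = Real.exp (z * L) := fun z => by
    rw [Real.rpow_def_of_pos hX0, ← hL, mul_comm]
  have hHM : ∀ m : ℕ, (m : ℝ) ≤ m₀ → H ^ m ≤ Real.exp (ε / 16 * L) := by
    intro m hm'
    rw [hH, hXexp, ← Real.exp_nat_mul]
    refine Real.exp_le_exp.2 ?_
    have h1 : δ' * m₀ ≤ ε / 16 := by
      have := mul_le_mul_of_nonneg_right hdM hm₀1.le
      refine this.trans (le_of_eq ?_)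
      field_simp
    have h2 : (m : ℝ) * δ' ≤ ε / 16 := by
      refine le_trans ?_ h1
      rw [mul_comm]
      exact mul_le_mul_of_nonneg_left hm' hδ'.le
    calc (m : ℝ) * (δ' * L) = (m : ℝ) * δ' * L := by ring
      _ ≤ _ := mul_le_mul_of_nonneg_right h2 hL0'.le
  have hM₁m : (M₁ : ℝ) ≤ m₀ := by
    have : (0 : ℝ) ≤ M₂ := Nat.cast_nonneg _
    linarith
  have hM₂m : (M₂ : ℝ) ≤ m₀ := by
    have : (0 : ℝ) ≤ M₁ := Nat.cast_nonneg _
    linarith
  have hFle : F ≤ Real.exp (L0 p * L + ε / 8 * L) := by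
    rw [hF, hF₀, hXexp, hL5']
    calc H ^ M₁ * Real.exp ((0 + 14 / 45 * exN p + ℓ (bQ p) + ε / 16) * L) *
            Real.exp (4 / 3 * (exN p * L) / 3) ≤
          Real.exp (ε / 16 * L) * Real.exp ((0 + 14 / 45 * exN p + ℓ (bQ p) + ε / 16) * L) *
            Real.exp (4 / 3 * (exN p * L) / 3) :=
          mul_le_mul_of_nonneg_right (mul_le_mul_of_nonneg_right (hHM M₁ hM₁m)
            (Real.exp_pos _).le) (Real.exp_pos _).le
      _ = Real.exp ((34 / 45 * exN p + ℓ (bQ p)) * L + ε / 8 * L) := by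
          rw [← Real.exp_add, ← Real.exp_add]; congr 1; ring
      _ ≤ _ := by
          refine Real.exp_le_exp.2 ?_
          have : (34 / 45 * exN p + ℓ (bQ p)) * L ≤ L0 p * L :=
            mul_le_mul_of_nonneg_right hL1p hL0'.le
          linarith
  have hL0p0 : 0 ≤ L0 p := by
    have := le_max_left 0 (5 / 4 * E5B71.cN p - cκ p)
    linarith
  have h1F : 1 + F + F ≤ 3 * Real.exp (L0 p * L + ε / 8 * L) := by
    have : 1 ≤ Real.exp (L0 p * L + ε / 8 * L) := Real.one_le_exp (by positivity)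
    linarith
  have hXe16 : X ^ (ε / 16) = Real.exp (ε / 16 * L) := hXexp _
  have hUe : U = Real.exp ((ex + L0 p) * L + ε / 2 * L) := by
    rw [hU, hE8, hXexp]
    congr 1
    ring
  have t1 : C * X ^ (ε / 16) * (K * Real.exp n) * (1 + F + F) ≤ 3 * C * U := by
    rw [hXe16]
    calc C * Real.exp (ε / 16 * L) * (K * Real.exp n) * (1 + F + F) ≤
          C * Real.exp (ε / 16 * L) * Real.exp (ex * L + 5 * (δ * L)) *
            (3 * Real.exp (L0 p * L + ε / 8 * L)) := by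
          gcongr
      _ = 3 * C * (Real.exp (ε / 16 * L) * Real.exp (ex * L + 5 * (δ * L)) *
            Real.exp (L0 p * L + ε / 8 * L)) := by ring
      _ ≤ 3 * C * U := by
          refine mul_le_mul_of_nonneg_left ?_ (by positivity)
          rw [hUe, ← Real.exp_add, ← Real.exp_add]
          refine Real.exp_le_exp.2 ?_
          have : 0 ≤ ε * L := by positivity
          linarith
  have hTgc : Tgc a qs = 4 / 3 * n + ex5 a := rfl
  have hex5 : ex5 a ≤ max 0 (5 / 4 * E5B71.cN p - cκ p) * L + 5 * (δ * L) := by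
    unfold ex5
    rw [max_mul_of_nonneg _ _ hL0'.le, zero_mul]
    have h1 := le_max_left 0 ((5 / 4 * E5B71.cN p - cκ p) * L)
    have h2 := le_max_right 0 ((5 / 4 * E5B71.cN p - cκ p) * L)
    exact max_le (by linarith) (by linarith)
  have hFsle : Fs ≤ Real.exp (ℓ (bP p) * L + ε / 8 * L) := by
    rw [hFs, hXexp]
    calc H ^ M₂ * Real.exp ((ℓ (bP p) + ε / 16) * L) ≤
          Real.exp (ε / 16 * L) * Real.exp ((ℓ (bP p) + ε / 16) * L) :=
          mul_le_mul_of_nonneg_right (hHM M₂ hM₂m) (Real.exp_pos _).le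
      _ = _ := by
          rw [← Real.exp_add]; congr 1; ring
  have t2 : C * X ^ (ε / 16) * (K / Real.exp n) * (Fs * Real.exp (Tgc a qs + 2 / 3 * n)) ≤
      C * U := by
    rw [hXe16, hTgc]
    have e1 : K / Real.exp n * (Fs * Real.exp (4 / 3 * n + ex5 a + 2 / 3 * n)) =
        K * Real.exp n * (Fs * Real.exp (ex5 a)) := by
      have e2 : Real.exp (4 / 3 * n + ex5 a + 2 / 3 * n) =
          Real.exp n * Real.exp n * Real.exp (ex5 a) := by
        rw [← Real.exp_add, ← Real.exp_add]; congr 1; ring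
      rw [e2]
      have := (Real.exp_pos n).ne'
      field_simp
    calc C * Real.exp (ε / 16 * L) * (K / Real.exp n) *
          (Fs * Real.exp (4 / 3 * n + ex5 a + 2 / 3 * n)) =
          C * Real.exp (ε / 16 * L) * (K / Real.exp n *
          (Fs * Real.exp (4 / 3 * n + ex5 a + 2 / 3 * n))) := by ring
      _ = C * (Real.exp (ε / 16 * L) * (K * Real.exp n) * (Fs * Real.exp (ex5 a))) := by
          rw [e1]; ring
      _ ≤ C * (Real.exp (ε / 16 * L) * Real.exp (ex * L + 5 * (δ * L)) *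
            (Real.exp (ℓ (bP p) * L + ε / 8 * L) *
              Real.exp (max 0 (5 / 4 * E5B71.cN p - cκ p) * L + 5 * (δ * L)))) := by
          have hexp := Real.exp_le_exp.2 hex5
          gcongr
      _ ≤ C * U := by
          refine mul_le_mul_of_nonneg_left ?_ hC
          rw [hUe, ← Real.exp_add, ← Real.exp_add, ← Real.exp_add]
          refine Real.exp_le_exp.2 ?_
          have h1 : (max 0 (5 / 4 * E5B71.cN p - cκ p) + ℓ (bP p)) * L ≤ L0 p * L :=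
            mul_le_mul_of_nonneg_right hL0p hL0'.le
          have h2 : 0 ≤ ε * L := by positivity
          linarith
  have t3 : ∑ i ∈ range (Nw lam), RPg (rhoS (Tgc a qs) (Real.log K) (Shat a qs))
      (alC π h (lam, s) a qs) (sc K (Mw lam) i) (GF (Fw lam i)) (S (Real.sqrt Yt)) (nO a.1 + 1)
      E0 Yt ≤ U := by
    rw [hlK]
    exact hRp
  have hfin : 3 * C * U + C * U + 2 * pC * (U + U) + pC ^ 2 * U ≤ CC * U := by
    rw [hCC]
    have e1 : (3 * C + C + 4 * pC + pC ^ 2 + 1) * U = 3 * C * U + C * U + 2 * pC * (U + U) +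
      pC ^ 2 * U + U := by ring
    rw [e1]
    linarith
  have t3' : 2 * pC * (∑ i ∈ range (Nw lam), RPg (rhoS (Tgc a qs) (Real.log K) (Shat a qs))
      (alC π h (lam, s) a qs) (sc K (Mw lam) i) (GF (Fw lam i)) (S (Real.sqrt Yt)) (nO a.1 + 1)
      E0 Yt + U) ≤ 2 * pC * (U + U) :=
    mul_le_mul_of_nonneg_left (by linarith) (by positivity)
  calc _ ≤ 3 * C * U + C * U + 2 * pC * (U + U) + pC ^ 2 * U :=
        add_le_add (add_le_add (add_le_add t1 t2) t3') le_rfl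
    _ ≤ CC * U := hfin
    _ ≤ X ^ (ε / 2) * U := mul_le_mul_of_nonneg_right hLC hU0.le
    _ = X ^ (E8 L0 q + ε) := by
        rw [hU, ← Real.rpow_add hX0]
        congr 1
        ring

end Crest.Agent.R017.P10146
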