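import Crest.Agent.R017.ET3c_71
import Crest.Agent.R017.GHE_90
import Crest.Agent.R017.P10a_146

/-!
# Row 17, R8 / P1: the cross tail (helper71)

* `sideA` : the character side in the frame
* **`etU_of`** : `EtU` from `GkB` (families `≥ 3/5 κ`), helper90's `hb_blk` (families `≤ 3/5 κ`)
  and the character side `csA`
-/

set_option autoImplicit false
set_option linter.unusedVariables false

noncomputable section

open Finset
open scoped ComplexConjugate Classical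

namespace Crest.Agent.R017.ET371

open Crest.Agent.R012 Crest.Agent.R012.Eis Crest.Agent.R012.MC
open Crest.Agent.R017.CM106
open Crest.Agent.R017.C70
open Crest.Agent.R017.HP842 (Pc pc sqc alL Th)
open Crest.Agent.R017.B770
open Crest.Agent.R017.FE47 (PU cx SM)
open Crest.Agent.R017.XG702 (Pcs BG)
open Crest.Agent.R017.Prov71
open Crest.Agent.R017.E2440 (StE)
open Crest.Agent.R017.LB48 (CrP)
open Crest.Agent.R017.I1146 (LN)
open Crest.Agent.R017.XT71 (Sys Win mx)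
open Crest.Agent.R017.End699
open Crest.Agent.R017.E5B71 Crest.Agent.R017.E5P571 Crest.Agent.R017.E5L770
open Crest.Agent.R017.P1e54 Crest.Agent.R017.P1f54 Crest.Agent.R017.P1k54 Crest.Agent.R017.P1l54
open Crest.Agent.R017.ER911 Crest.Agent.R017.SC777 Crest.Agent.R017.ExpC702
open Crest.Agent.R017.XPD571 (RP0)
open Crest.Agent.R017.TM708 Crest.Agent.R017.P10146
open Crest.Agent.R017.ET71
open Crest.Agent.R017.GHR90 (DmH)
open Crest.Agent.R017.GHE90
open Crest.Agent.R017.P1V5176 (Dm5)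
open Crest.Agent.R017.E5Q571 (Cut)

lemma sqc_prin0 (m : Eis) (α : Eis → ℂ) : (fun n => sqc 1 α n * prin0 m n) = sqc m α := by
  funext n
  unfold HP842.sqc HP842.Th prin0
  by_cases h1 : Squarefree n <;> by_cases h2 : IsCoprime n m <;>
    simp [h1, h2, isCoprime_one_right]

lemma sqc_prim {P : DPar} {s m : Eis} {h : ℝ → ℝ} {ps : List Pq} {n : Eis}
    (hn : sqc m (alL h (ps.map (Pt P s))) n ≠ 0) : IsPrim n := by
  rw [I1146.alL_tw] at hn
  have h1 : I1146.tw3 s (alL h (ps.map (Pq.pc P))) n ≠ 0 := right_ne_zero_of_mul hn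
  unfold I1146.tw3 at h1
  refine I1146.alL_prim (P := P) (h := h) (ps := ps) fun h0 => h1 ?_
  rw [h0]
  simp

/-- a permutation which puts the smallest value last -/
lemma exists_perm (v : Fin 3 → ℝ) : ∃ f : Equiv.Perm (Fin 3), v (f 2) ≤ v (f 0) ∧
    v (f 2) ≤ v (f 1) ∧ v (f 2) = min (v 0) (min (v 1) (v 2)) := by
  rcases le_total (v 0) (v 1) with h1 | h1
  · rcases le_total (v 0) (v 2) with h2 | h2
    · refine ⟨Equiv.swap 0 2, ?_⟩
      have e0 : Equiv.swap (0 : Fin 3) 2 0 = 2 := by decide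
      have e1 : Equiv.swap (0 : Fin 3) 2 1 = 1 := by decide
      have e2 : Equiv.swap (0 : Fin 3) 2 2 = 0 := by decide
      rw [e0, e1, e2]
      exact ⟨h2, h1, (min_eq_left (le_min h1 h2)).symm⟩
    · refine ⟨1, ?_⟩
      simp only [Equiv.Perm.one_apply]
      exact ⟨h2, h2.trans h1, by
        rw [min_eq_right (h2.trans h1), min_eq_right h2]⟩
  · rcases le_total (v 1) (v 2) with h2 | h2
    · refine ⟨Equiv.swap 1 2, ?_⟩
      have e0 : Equiv.swap (1 : Fin 3) 2 0 = 0 := by decide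
      have e1 : Equiv.swap (1 : Fin 3) 2 1 = 2 := by decide
      have e2 : Equiv.swap (1 : Fin 3) 2 2 = 1 := by decide
      rw [e0, e1, e2]
      exact ⟨h1, h2, by rw [min_eq_left h2, min_eq_right h1]⟩
    · refine ⟨1, ?_⟩
      simp only [Equiv.Perm.one_apply]
      exact ⟨h2.trans h1, h2, by rw [min_eq_right h2, min_eq_right (h2.trans h1)]⟩

lemma perm_cl (a : Bc) (qs : List Pq) (f : Equiv.Perm (Fin 3)) :
    (a.2 (f 0) :: a.2 (f 1) :: a.2 (f 2) :: qs).Perm (cl a qs) := by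
  have h1 := f.ofFn_comp_perm a.2
  have h2 : List.ofFn (a.2 ∘ f) = [a.2 (f 0), a.2 (f 1), a.2 (f 2)] := by
    simp [List.ofFn_succ]
  rw [h2] at h1
  exact h1.append_right qs

lemma LN_perm (a : Bc) (qs : List Pq) (f : Equiv.Perm (Fin 3)) :
    (a.2 (f 0)).z + (a.2 (f 1)).z + (a.2 (f 2)).z + (qs.map Pq.z).sum = LN (cl a qs) := by
  have h1 := ((perm_cl a qs f).map Pq.z).sum_eq
  unfold I1146.LN
  rw [← h1]
  simp only [List.map_cons, List.sum_cons]
  ring

lemma prod_close {H SA SB x y g : ℝ} {M M₁ M₃ : ℕ} (hH : 1 ≤ H) (hSA : SA ≤ H ^ M₃ * Real.exp x)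
    (hSB0 : 0 ≤ SB) (hSB : SB ≤ H ^ M₁ * Real.exp y) (hM : M₁ + M₃ ≤ 2 * M)
    (hE : x + y ≤ 2 * g) : SA * SB ≤ (H ^ M * Real.exp g) ^ 2 := by
  have hH0 : 0 < H := by linarith
  calc SA * SB ≤ (H ^ M₃ * Real.exp x) * (H ^ M₁ * Real.exp y) :=
        mul_le_mul hSA hSB hSB0 (by positivity)
    _ = H ^ (M₁ + M₃) * Real.exp (x + y) := by
        rw [pow_add, Real.exp_add]
        ring
    _ ≤ H ^ (2 * M) * Real.exp (2 * g) :=
        mul_le_mul (pow_le_pow_right₀ hH hM) (Real.exp_le_exp.2 hE) (Real.exp_pos _).le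
          (by positivity)
    _ = (H ^ M * Real.exp g) ^ 2 := by
        rw [mul_pow, ← pow_mul, mul_comm M 2, ← Real.exp_nat_mul]
        push_cast
        rfl

lemma JW_le {n : ℕ} {x : Eis × Eis} (hx : x ∈ JW (Real.sqrt (2 ^ n)) (1 / 10) (2 ^ n)) :
    (nm (x.2 * x.1 ^ 2) : ℝ) ≤ 2 ^ n := by
  unfold JW at hx
  rw [mem_filter] at hx
  exact hx.2.2.2.2

variable {Λ : Type*}

set_option maxHeartbeats 4000000 in
/-- **the cross tail** -/
theorem etU_of {π : Λ → DPar} {h : ℝ → ℝ} {e0 c₀ : ℝ} (hpu : PU h c₀) {R₁ : ℝ} (hR₁ : 0 ≤ R₁)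
    (hR₂ : ∀ u, cx h u ≠ 0 → |u| ≤ R₁) (hP : ∀ lam, (π lam).OK) {d : ℝ} {rr s' s₀ : EF}
    (R : ExpRules (7 / 8 + d) rr (ex Dq fun lam => Sp (π lam) h))
    (Rc : ExpRules (7 / 8 + d) (ex Dq (fun lam => Rp (π lam) h)) s')
    (Rm : ExpRGFz (7 / 8 + d) (ex Dq (fun lam => Rp (π lam) h)) s' s₀)
    (hcolP : ∀ (i : ℝ) (u : List ℝ) (m a : ℝ), 0 ≤ i → Okl u m a →
      BG Dq (RP0 π h) i u (wt m a) (2 * a + 2 * (7 / 8 + d) * m))
    (hd : 0 ≤ d) (hd1 : d ≤ 1 / 8)
    {D5 : Set (Fin 5 → ℝ)} (hD : IsCompact D5)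
    (hDm : ∀ b ∈ D5, 1 / 2 ≤ b 0 ∧ b 0 ≤ 1 ∧
      Dm5 (b 1 / b 0) (b 2 / b 0) (b 3 / b 0) (b 4 / b 0) d)
    {ℓ : (Fin 5 → ℝ) → ℝ} (hℓ : Continuous ℓ) (hℓ0 : ∀ b ∈ D5, 0 ≤ ℓ b)
    (hℓ1 : ∀ b ∈ D5, ℓ b ≤ 7 / 10 * (d * b 0))
    (hFE : FE2L (ex Dq fun lam => S0p (π lam) h) D5 ℓ) (hgk : GkB π h e0 d D5)
    {Par : Set (Fin 3 ⊕ Fin 5 → ℝ)} {L0 : (Fin 3 ⊕ Fin 5 → ℝ) → ℝ} (hPar : ∀ p ∈ Par, ParOK p)
    (hb5 : ∀ p ∈ Par, bP p ∈ D5)
    (hL0 : ∀ p ∈ Par, max 0 (5 / 4 * cN p - cκ p) + 3 / 4 * d * cκ p ≤ L0 p) :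
    EtU π h e0 Par L0 := by
  intro Rw hRw ε hε
  obtain ⟨ε₁, hε₁, hεε⟩ : ∃ ε₁ : ℝ, 0 < ε₁ ∧ 32 * ε₁ = ε := ⟨ε / 32, by positivity, by ring⟩
  obtain ⟨τ₁, hτ₁, G1⟩ := hb_blk hpu hR₁ hR₂ hP R hd hd1 hD hDm hℓ hℓ0 hℓ1 hFE hε₁
  obtain ⟨τ₂, hτ₂, G2⟩ := hgk ε₁ hε₁
  obtain ⟨σ₀, hσ₀, G3⟩ := csA hpu hP Rc Rm hcolP hd hd1 hε₁
  obtain ⟨η, hη, HU⟩ := E2p_unif d hε₁
  obtain ⟨τ, hτ, hττ₁, hττ₂, hτ8⟩ : ∃ τ : ℝ, 0 < τ ∧ τ ≤ τ₁ ∧ τ ≤ τ₂ ∧ τ ≤ 1 / 8 :=
    ⟨min (min τ₁ τ₂) (1 / 8), lt_min (lt_min hτ₁ hτ₂) (by norm_num),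
      (min_le_left _ _).trans (min_le_left _ _), (min_le_left _ _).trans (min_le_right _ _),
      min_le_right _ _⟩
  obtain ⟨σ, hσ, hσσ₀, hση, hσ4⟩ : ∃ σ : ℝ, 0 < σ ∧ σ ≤ σ₀ ∧ 2 * σ ≤ η ∧ σ ≤ 1 / 4 :=
    ⟨min σ₀ (min (η / 2) (1 / 4)), lt_min hσ₀ (lt_min (by positivity) (by norm_num)),
      min_le_left _ _, by
        have := (min_le_right σ₀ (min (η / 2) (1 / 4))).trans (min_le_left _ _)
        linarith, (min_le_right _ _).trans (min_le_right _ _)⟩
  obtain ⟨δ, hδ, hδσ, hδτ, hδε⟩ : ∃ δ : ℝ, 0 < δ ∧ δ ≤ σ ∧ δ ≤ τ / 100 ∧ δ ≤ ε₁ / 32 :=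
    ⟨min σ (min (τ / 100) (ε₁ / 32)), lt_min hσ (lt_min (by positivity) (by positivity)),
      min_le_left _ _, (min_le_right _ _).trans (min_le_left _ _),
      (min_le_right _ _).trans (min_le_right _ _)⟩
  refine ⟨δ, hδ, ?_⟩
  rintro ⟨lam, s⟩ N B
  by_cases hs : s ∈ SM (π lam).n
  swap
  · refine ⟨1, one_pos, 2, by norm_num, ?_⟩
    intro X hX a qs _ _ q _ _ _ _ _
    have : ¬ okC (π lam) s a qs := fun hok => hs hok.2.1
    unfold EtC
    rw [if_neg this]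
    positivity
  have hs0 : s ≠ 0 := hs.1
  set B₂ : ℝ := max B 3 with hB₂
  have hBB : B ≤ B₂ := le_max_left _ _
  have hB3 : 3 ≤ B₂ := le_max_right _ _
  obtain ⟨M₁, X₁, hX₁, G1⟩ := G1 lam s hs N B₂
  obtain ⟨M₂, X₂, hX₂, G2⟩ := G2 lam s hs N B₂
  obtain ⟨M₃, X₃, hX₃, G3⟩ := G3 σ hσ hσσ₀ lam s hs0 N B₂
  set M : ℕ := M₁ + M₂ + M₃ with hM
  set δ' : ℝ := ε₁ / (M + 1) with hδ'
  have hM1 : (0 : ℝ) < (M : ℝ) + 1 := by positivity
  have hδ'0 : 0 < δ' := by positivity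
  have hMδ : (M : ℝ) * δ' ≤ ε₁ := by
    rw [hδ', mul_div_assoc', div_le_iff₀ hM1]
    nlinarith
  have hlog2 : 0 < Real.log 2 := Real.log_pos (by norm_num)
  set bw : ℝ := 2 * Real.exp (Rw lam) with hbw
  have hbw0 : 0 < bw := by positivity
  have hlb : Real.log bw = Real.log 2 + Rw lam := by
    rw [hbw, Real.log_mul (by norm_num) (Real.exp_pos _).ne', Real.log_exp]
  have hRl := hRw lam
  have hlb0 : 0 ≤ Real.log bw := by rw [hlb]; linarith
  set cs : ℝ := Real.log 2 + Real.log bw with hcs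
  have hcs0 : 0 ≤ cs := by linarith
  set CC : ℝ := 400 * Real.exp cs * (2 / ε₁) with hCC
  have hCC0 : 0 < CC := by positivity
  set Q : ℝ := 2 + 8 * cs / τ + 2 * |Real.log CC| / ε₁ with hQ
  have hQ1 : 0 ≤ 8 * cs / τ := by positivity
  have hQ2 : 0 ≤ 2 * |Real.log CC| / ε₁ := by positivity
  refine ⟨δ', hδ'0, max (max X₁ (max X₂ X₃)) (Real.exp Q), ?_, ?_⟩
  · exact lt_of_lt_of_le (by linarith : (1 : ℝ) < X₁) ((le_max_left _ _).trans (le_max_left _ _))
  intro X hX a qs hlen hgl q hq hw hm hg hl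
  have hXa : max X₁ (max X₂ X₃) ≤ X := (le_max_left _ _).trans hX
  have hX1' : X₁ ≤ X := (le_max_left _ _).trans hXa
  have hX2' : X₂ ≤ X := ((le_max_left _ _).trans (le_max_right _ _)).trans hXa
  have hX3' : X₃ ≤ X := ((le_max_right _ _).trans (le_max_right _ _)).trans hXa
  have hXQ : Real.exp Q ≤ X := (le_max_right _ _).trans hX
  have hX1 : 1 < X := by linarith
  have hX0 : 0 < X := by linarith
  set L := Real.log X with hL
  have hQL : Q ≤ L := by
    have := Real.log_le_log (Real.exp_pos Q) hXQ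
    rwa [Real.log_exp] at this
  have hL2 : 2 ≤ L := by linarith
  have hL0' : 0 < L := by linarith
  have hLτ : cs ≤ τ / 8 * L := by
    have h1 : 8 * cs / τ ≤ L := by linarith
    rw [div_le_iff₀ hτ] at h1
    linarith
  have hLC : Real.log CC ≤ ε₁ / 2 * L := by
    have h1 : 2 * |Real.log CC| / ε₁ ≤ L := by linarith
    rw [div_le_iff₀ hε₁] at h1
    have := le_abs_self (Real.log CC)
    linarith
  have hXe : ∀ e : ℝ, X ^ e = Real.exp (e * L) := fun e => by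
    rw [Real.rpow_def_of_pos hX0, ← hL, mul_comm]
  by_cases hok : okC (π lam) s a qs
  swap
  · unfold EtC
    rw [if_neg hok]
    positivity
  obtain ⟨hbok, hsm, hlmp, hamq⟩ := hok
  have hok : okC (π lam) s a qs := ⟨hbok, hsm, hlmp, hamq⟩
  -- the window
  obtain ⟨hq1, hq2, hq3, hq4, hq5, hq6⟩ := hq
  set p : Fin 3 ⊕ Fin 5 → ℝ := fun i => q.1 (.inl i) with hp
  have hPp := hPar p hq1
  have hb := hb5 p hq1
  obtain ⟨hb1, hb2, hDm'⟩ := hDm _ hb
  have hL0p := hL0 p hq1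
  have hev : ∀ i, |S8.ev X a i - q.1 i| ≤ δ := hw.ev
  have hdiv : ∀ {z c : ℝ}, |z / L - c| ≤ δ → |z - c * L| ≤ δ * L := by
    intro z c h1
    have h2 : z - c * L = (z / L - c) * L := by field_simp
    rw [h2, abs_mul, abs_of_pos hL0']
    exact mul_le_mul_of_nonneg_right h1 hL0'.le
  have hk : |a.1.l - cκ p * L| ≤ δ * L := hdiv (hev (.inl (.inl 0)))
  have hz : |a.1.z - cx' p * L| ≤ δ * L := hdiv (hev (.inl (.inl 1)))
  have hu2 : |(a.1.us 2).z - cu p 2 * L| ≤ δ * L := hdiv (hev (.inl (.inr 2)))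
  have hu3 : |(a.1.us 3).z - cu p 3 * L| ≤ δ * L := hdiv (hev (.inl (.inr 3)))
  have hu4 : |(a.1.us 4).z - cu p 4 * L| ≤ δ * L := hdiv (hev (.inl (.inr 4)))
  have hvd : ∀ j, |(a.2 j).z / L - q.1 (.inr j)| ≤ δ := fun j => hev (.inr j)
  have hv : ∀ j, |(a.2 j).z - q.1 (.inr j) * L| ≤ δ * L := fun j => hdiv (hvd j)
  have hmad : |LN qs / L - q.2 .am| ≤ δ := by
    have h1 := hm .am
    rwa [P10146.mass_am hamq] at h1
  have hma : |LN qs - q.2 .am * L| ≤ δ * L := hdiv hmad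
  have hA : |a3 a.1 - cN p * L| ≤ 3 * (δ * L) := by
    have e1 : a3 a.1 - cN p * L = ((a.1.us 2).z - cu p 2 * L) + ((a.1.us 3).z - cu p 3 * L) +
        ((a.1.us 4).z - cu p 4 * L) := by unfold E5L770.a3 cN; ring
    rw [e1]
    refine (abs_add_le _ _).trans ?_
    have := abs_add_le ((a.1.us 2).z - cu p 2 * L) ((a.1.us 3).z - cu p 3 * L)
    linarith
  obtain ⟨k1, k2⟩ := abs_le.1 hk
  obtain ⟨z1, z2⟩ := abs_le.1 hz
  obtain ⟨v01, v02⟩ := abs_le.1 (hv 0)
  obtain ⟨v11, v12⟩ := abs_le.1 (hv 1)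
  obtain ⟨v21, v22⟩ := abs_le.1 (hv 2)
  obtain ⟨m1, m2⟩ := abs_le.1 hma
  obtain ⟨A1, A2⟩ := abs_le.1 hA
  have w0 : 0 ≤ q.1 (.inr 0) ∧ q.1 (.inr 0) ≤ cu p 2 := hq2 0
  have w1 : 0 ≤ q.1 (.inr 1) ∧ q.1 (.inr 1) ≤ cu p 3 := hq2 1
  have w2 : 0 ≤ q.1 (.inr 2) ∧ q.1 (.inr 2) ≤ cu p 4 := hq2 2
  have hcN : cN p = cu p 2 + cu p 3 + cu p 4 := rfl
  have hS3 : ∑ i : Fin 3, q.1 (.inr i) = q.1 (.inr 0) + q.1 (.inr 1) + q.1 (.inr 2) :=
    Fin.sum_univ_three _
  rw [hS3] at hq6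
  set n := LN (cl a qs) with hn
  have hnz : n = (a.2 0).z + (a.2 1).z + (a.2 2).z + LN qs := LN_cl a qs
  have hLqs : 0 ≤ LN qs := by
    unfold I1146.LN
    refine List.sum_nonneg fun x hx => ?_
    obtain ⟨p', hp', rfl⟩ := List.mem_map.1 hx
    exact (hg p' hp').2.2
  have hδL : 0 ≤ δ * L := by positivity
  have hκp : 0 < cκ p := by linarith [hPp.κ0]
  have hκpL : 0 < cκ p * L := by positivity
  have hκ1 := hPp.κ1
  have hκL1 : cκ p * L ≤ 1 * L := mul_le_mul_of_nonneg_right hκ1 hL0'.le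
  have hDH : DmH (cκ p) (d * cκ p) (cu p 2) (cu p 3) (cu p 4) (cx' p) := DmH.of hκp hDm'
  obtain ⟨du4, dy43, du0, dy3, dN1, dnear, dx0, dadm, dd0, dd1⟩ := id hDH
  have dx36 : cx' p ≤ 1 / 36 * cκ p := by
    rcases dadm with h | ⟨h, -⟩ | ⟨h, -⟩ <;> linarith
  have w0L := mul_le_mul_of_nonneg_right w0.2 hL0'.le
  have w1L := mul_le_mul_of_nonneg_right w1.2 hL0'.le
  have w2L := mul_le_mul_of_nonneg_right w2.2 hL0'.le
  have hq5L := mul_le_mul_of_nonneg_right hq5 hL0'.le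
  have hq6L := mul_le_mul_of_nonneg_right hq6 hL0'.le
  have hdx36L := mul_le_mul_of_nonneg_right dx36 hL0'.le
  have hN1L := mul_le_mul_of_nonneg_right dN1 hL0'.le
  have hδτL : δ * L ≤ τ / 100 * L := mul_le_mul_of_nonneg_right hδτ hL0'.le
  have hδσL : δ * L ≤ σ * L := mul_le_mul_of_nonneg_right hδσ hL0'.le
  have hδεL : δ * L ≤ ε₁ / 32 * L := mul_le_mul_of_nonneg_right hδε hL0'.le
  have hτL : 0 < τ * L := by positivity
  have hτL8 : τ * L ≤ 1 / 8 * L := mul_le_mul_of_nonneg_right hτ8 hL0'.le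
  set vv : ℝ := q.1 (.inr 0) + q.1 (.inr 1) + q.1 (.inr 2) + q.2 .am with hvv
  have hnup : n ≤ vv * L + 4 * (δ * L) := by
    rw [hnz, hvv]
    linarith
  have hnup' : vv * L ≤ n + 4 * (δ * L) := by
    rw [hnz, hvv]
    linarith
  have hnlo : (cκ p / 2 - 2 * cx' p) * L - 4 * (δ * L) ≤ n := by
    rw [hnz]
    linarith
  have e0b : bP p 0 = cκ p := rfl
  have e1b : bP p 1 = cu p 2 := rfl
  have e2b : bP p 2 = cu p 3 := rfl
  have e3b : bP p 3 = cu p 4 := rfl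
  have e4b : bP p 4 = cx' p := rfl
  have eNb : bP p 1 + bP p 2 + bP p 3 = cN p := rfl
  -- the levels
  have hnO : nO a.1 = ⌊Sf770.tO a.1 / Real.log 2⌋₊ + 1 := rfl
  have hy1 : (nO a.1 : ℝ) * Real.log 2 ≤
      max 0 (min (2 * a3 a.1 - a.1.l) (3 / 4 * a3 a.1) + 11 / 5 * a.1.z) + Real.log 2 := by
    rw [hnO]
    push_cast
    have e : max 0 (min (2 * a3 a.1 - a.1.l) (3 / 4 * a3 a.1) + 11 / 5 * a.1.z) =
        max 0 (Sf770.tO a.1) := rfl
    rw [e]
    rcases le_total 0 (Sf770.tO a.1) with h0 | h0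
    · have h1 := Nat.floor_le (div_nonneg h0 hlog2.le)
      rw [le_div_iff₀ hlog2] at h1
      have h2 := le_max_right 0 (Sf770.tO a.1)
      linarith
    · rw [Nat.floor_of_nonpos (div_nonpos_of_nonpos_of_nonneg h0 hlog2.le)]
      have h2 := le_max_left 0 (Sf770.tO a.1)
      push_cast
      linarith
  have hN0 := hPp.N0
  have hlev : ∀ τ' : ℝ, τ ≤ τ' → (nO a.1 : ℝ) * Real.log 2 ≤
      (min (2 * (bP p 1 + bP p 2 + bP p 3) - bP p 0) (3 / 4 * (bP p 1 + bP p 2 + bP p 3)) +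
        11 / 5 * bP p 4 + τ') * L := by
    intro τ' hττ'
    rw [eNb, e0b, e4b, add_mul, add_mul, min_mul_of_nonneg _ _ hL0'.le]
    have h1 : τ * L ≤ τ' * L := mul_le_mul_of_nonneg_right hττ' hL0'.le
    have hmm : min (2 * a3 a.1 - a.1.l) (3 / 4 * a3 a.1) ≤
        min ((2 * cN p - cκ p) * L) (3 / 4 * cN p * L) + 7 * (δ * L) := by
      rw [← min_add_add_right]
      exact min_le_min (by linarith) (by linarith)
    have hNL0 : 3 / 5 * cκ p * L ≤ cN p * L := mul_le_mul_of_nonneg_right hN0 hL0'.le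
    have hmin0 : 0 ≤ min ((2 * cN p - cκ p) * L) (3 / 4 * cN p * L) :=
      le_min (by linarith) (by linarith)
    have hxL0 : 0 ≤ cx' p * L := mul_nonneg dx0 hL0'.le
    refine hy1.trans ?_
    have h2 : max 0 (min (2 * a3 a.1 - a.1.l) (3 / 4 * a3 a.1) + 11 / 5 * a.1.z) ≤
        min ((2 * cN p - cκ p) * L) (3 / 4 * cN p * L) + 11 / 5 * cx' p * L + 10 * (δ * L) :=
      max_le (by linarith) (by linarith)
    linarith
  have hlev3 : ∀ τ' : ℝ, τ ≤ τ' → (nO a.1 : ℝ) * Real.log 2 ≤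
      (min (2 * (bP p 1 + bP p 2 + bP p 3) - bP p 0) (3 / 4 * (bP p 1 + bP p 2 + bP p 3)) +
        3 * bP p 4 + τ') * L := by
    intro τ' hττ'
    refine (hlev τ' hττ').trans (mul_le_mul_of_nonneg_right ?_ hL0'.le)
    rw [e4b]
    linarith
  -- parent data
  set H : ℝ := X ^ δ' with hH
  have hH1 : 1 ≤ H := Real.one_le_rpow hX1.le hδ'0.le
  have hs1 : ∀ i, Dq.s1 (a.2 i) ≤ H := by
    intro i
    have h1 : mx Dq.s1 (List.ofFn a.2) ≤ X ^ δ' := (le_max_right _ _).trans hw.s₁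
    exact (XT71.le_mx (List.mem_ofFn.2 ⟨i, rfl⟩)).trans h1
  have hs2 : ∀ i, Dq.s2 (a.2 i) ≤ X ^ B₂ := by
    intro i
    have h1 : mx Dq.s2 (List.ofFn a.2) ≤ X ^ B := (le_max_right _ _).trans hw.s₂
    exact ((XT71.le_mx (List.mem_ofFn.2 ⟨i, rfl⟩)).trans h1).trans
      (Real.rpow_le_rpow_of_exponent_le hX1.le hBB)
  have hgran : ∀ p' ∈ qs, p'.z ≤ δ * L := by
    intro p' hp'
    rcases hgl p' hp' with h1 | h1
    · exact absurd (hl p' hp' h1) (Set.notMem_empty _)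
    · unfold Pcs.nl at h1
      rw [div_le_iff₀ hL0'] at h1
      exact h1
  have hPDt : ∀ τ' : ℝ, τ ≤ τ' → PD X τ' B₂ H N (bP p) 1 a.2 qs a.1.l := by
    intro τ' hττ'
    have hτ'L : τ * L ≤ τ' * L := mul_le_mul_of_nonneg_right hττ' hL0'.le
    refine ⟨one_ne_zero, ?_, hH1, fun i => (hlmp i).1, fun i => (hlmp i).2, fun i => hs2 i,
      fun i => hs1 i, ?_, ?_, ?_, ?_, hlen, ?_, ?_⟩
    · rw [nm_one, Nat.cast_one]
      exact Real.one_le_rpow hX1.le (by linarith)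
    · rw [← hL, e1b]
      linarith
    · rw [← hL, e2b]
      linarith
    · rw [← hL, e3b]
      linarith
    · intro p' hp'
      obtain ⟨s1', s2', z0'⟩ := hg p' hp'
      refine ⟨hamq p' hp', z0', ?_, s2'.trans (Real.rpow_le_rpow_of_exponent_le hX1.le hBB), s1'⟩
      rw [← hL]
      have := hgran p' hp'
      linarith
    · rw [← hL, e4b]
      linarith
    · rw [← hL, e0b]
      refine hk.trans ?_
      linarith
  have hcl : [a.2 0, a.2 1, a.2 2] ++ qs = cl a qs := (cl_eq a qs).symm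
  have hlo : ∀ τ' : ℝ, τ ≤ τ' → (bP p 0 / 2 - 2 * bP p 4 - τ') * L ≤
      LN ([a.2 0, a.2 1, a.2 2] ++ qs) := by
    intro τ' hττ'
    have hτ'L : τ * L ≤ τ' * L := mul_le_mul_of_nonneg_right hττ' hL0'.le
    rw [hcl, e0b, e4b, ← hn]
    linarith
  -- the character side
  have hvle : ∀ j : Fin 3, 0 ≤ q.1 (.inr j) ∧ q.1 (.inr j) ≤ cu p 2 := by
    intro j
    fin_cases j
    · exact w0
    · exact ⟨w1.1, w1.2.trans dy43⟩
    · exact ⟨w2.1, w2.2.trans (du4.trans dy43)⟩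
  have sideA : ∀ (f : Equiv.Perm (Fin 3)) (Ec₀ : ℝ) (i : ℕ) (m : Eis), IsPrim m →
      (nm m : ℝ) ≤ X → (i + 1) * Real.log 2 ≤ (17 / 20 * cκ p + τ) * L →
      (∀ c₁ c₂ c₃ b : ℝ, 0 ≤ c₁ → c₁ ≤ q.1 (.inr (f 0)) → 0 ≤ c₂ → c₂ ≤ q.1 (.inr (f 1)) →
        0 ≤ c₃ → c₃ ≤ q.1 (.inr (f 2)) → 0 ≤ b → b ≤ q.2 .am →
        E2p d ((i + 1) * Real.log 2 / L) c₁ c₂ c₃ b ≤ c₁ + c₂ + c₃ + b + Ec₀) →
      ∑ k ∈ (primBall (2 ^ (i + 1))).filter (fun k => CbF k ∧ 2 ^ i ≤ nm k),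
        ‖CS (fun n => alC π h (lam, s) a qs n * prin0 m n) k‖ ^ 2 ≤
        H ^ M₃ * Real.exp (n + Ec₀ * L + 2 * ε₁ * L) := by
    intro f Ec₀ i m hmp hmX hi Hc
    have e1 : (fun n => alC π h (lam, s) a qs n * prin0 m n) =
        sqc m (alL h ((a.2 (f 0) :: a.2 (f 1) :: a.2 (f 2) :: qs).map (Pt (π lam) s))) := by
      unfold alC
      rw [sqc_prin0, alL_perm h ((perm_cl a qs f).map (Pt (π lam) s))]
    rw [e1]
    have hkk0 : 0 ≤ (i + 1) * Real.log 2 / L := by positivity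
    have hkk3 : (i + 1) * Real.log 2 / L ≤ 3 := by
      rw [div_le_iff₀ hL0']
      have : (17 / 20 * cκ p + τ) * L ≤ 1 * L := mul_le_mul_of_nonneg_right (by linarith) hL0'.le
      linarith
    have hlogp : Real.log ((2 : ℝ) ^ (i + 1)) = (i + 1) * Real.log 2 := by
      rw [Real.log_pow]
      push_cast
      rfl
    have hy : ∀ {j : Fin 3} {y : ℝ}, y ≤ (a.2 j).z / L + σ → y ≤ q.1 (.inr j) + 2 * σ := by
      intro j y h1
      have h2 := (abs_le.1 (hvd j)).2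
      linarith
    have hLam : LN qs = (qs.map Pq.z).sum := rfl
    have hzlt : ∀ j, (a.2 j).z ≤ 2 * L := by
      intro j
      have h1 := (abs_le.1 (hv j)).2
      have h2 : q.1 (.inr j) * L ≤ 1 * L :=
        mul_le_mul_of_nonneg_right (by linarith [(hvle j).2]) hL0'.le
      linarith
    have key := G3 X hX3' (a.2 (f 0)) (a.2 (f 1)) (a.2 (f 2)) qs m ((2 : ℝ) ^ (i + 1)) H
      (Ec₀ + ε₁) (by
        intro p' hp'
        have aux : ∀ j, Dq.lump (a.2 j) ∧ 0 ≤ (a.2 j).z ∧ (a.2 j).z ≤ 2 * Real.log X ∧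
            (nm (a.2 j).d : ℝ) ≤ X ^ B₂ := fun j =>
          ⟨(hlmp j).1, (hlmp j).2, hzlt j, hs2 j⟩
        simp only [List.mem_cons, List.not_mem_nil, or_false] at hp'
        rcases hp' with rfl | rfl | rfl
        · exact aux _
        · exact aux _
        · exact aux _) hlen (by
        intro p' hp'
        obtain ⟨s1', s2', z0'⟩ := hg p' hp'
        refine ⟨hamq p' hp', z0', ?_, s2'.trans
          (Real.rpow_le_rpow_of_exponent_le hX1.le hBB)⟩
        rw [← hL]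
        exact (hgran p' hp').trans hδσL) (by
        rw [← hLam, ← hL]
        linarith) hmp.ne_zero (hmX.trans (by
        calc X = X ^ (1 : ℝ) := (Real.rpow_one X).symm
          _ ≤ X ^ B₂ := Real.rpow_le_rpow_of_exponent_le hX1.le (by linarith)))
      (one_le_pow₀ (by norm_num)) (by
        rw [hXe, ← Real.exp_log (show (0 : ℝ) < 2 ^ (i + 1) by positivity), hlogp]
        refine Real.exp_le_exp.2 ?_
        have : (17 / 20 * cκ p + τ) * L ≤ 1 * L :=
          mul_le_mul_of_nonneg_right (by linarith) hL0'.le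
        linarith) hH1 (by
        intro p' hp'
        simp only [List.mem_cons] at hp'
        rcases hp' with rfl | rfl | rfl | hp'
        · exact hs1 _
        · exact hs1 _
        · exact hs1 _
        · exact (hg p' hp').1) (by
        intro y₁ y₂ y₃ b y10 y11 y20 y21 y30 y31 b0 b1
        rw [← hL] at y11 y21 y31 b1 ⊢
        rw [hlogp]
        refine E2p_clamp HU (ρ := 2 * σ) hkk0 hkk3 hσ.le (by linarith) hση (by linarith)
          (hvle _).1 (by linarith [(hvle (f 0)).2]) (hvle _).1 (by linarith [(hvle (f 1)).2])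
          (hvle _).1 (by linarith [(hvle (f 2)).2]) hq4 (by linarith) Hc y10 (hy y11) y20
          (hy y21) y30 (hy y31) b0 ?_
        have h2 := (abs_le.1 hmad).2
        rw [hLam] at h2
        linarith)
    have hfl : ⌊(2 : ℝ) ^ (i + 1)⌋₊ = 2 ^ (i + 1) := by
      have : ((2 : ℝ) ^ (i + 1)) = ((2 ^ (i + 1) : ℕ) : ℝ) := by push_cast; rfl
      rw [this, Nat.floor_natCast]
    rw [hfl] at key
    refine (sum_le_sum_of_subset_of_nonneg ?_ fun _ _ _ => by positivity).trans (key.trans ?_)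
    · intro k hk'
      rw [mem_filter] at hk' ⊢
      exact ⟨hk'.1, hk'.2.1⟩
    · rw [LN_perm, ← hn, ← hL, hXe]
      refine mul_le_mul_of_nonneg_left (Real.exp_le_exp.2 (le_of_eq ?_)) (by positivity)
      field_simp
      ring
  -- the blocks
  set e₂ : ℝ := max 0 (5 / 4 * cN p - cκ p) with he₂
  have he₂L : max 0 (5 / 4 * (cN p * L) - cκ p * L) = e₂ * L := by
    rw [he₂, max_mul_of_nonneg _ _ hL0'.le, zero_mul]
    congr 1
    ring
  set g : ℕ → ℝ := fun i => cκ p * L + n + e₂ * L + 3 / 4 * (d * (cκ p * L)) -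
    (cκ p * L - (i + 1) * Real.log 2) / 3 + 3 * ε₁ * L with hg'
  set zm : ℝ := min (a.2 0).z (min (a.2 1).z (a.2 2).z) with hzm
  have hzmle : ∀ j, zm ≤ (a.2 j).z := by
    intro j
    fin_cases j
    · exact min_le_left _ _
    · exact (min_le_right _ _).trans (min_le_left _ _)
    · exact (min_le_right _ _).trans (min_le_right _ _)
  set vm : ℝ := min (q.1 (.inr 0)) (min (q.1 (.inr 1)) (q.1 (.inr 2))) with hvm
  have hvmle : vm * L ≤ zm + δ * L := by
    have aux : ∀ j, vm ≤ q.1 (.inr j) → vm * L - δ * L ≤ (a.2 j).z := by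
      intro j hj
      have h1 := mul_le_mul_of_nonneg_right hj hL0'.le
      have h2 := (abs_le.1 (hv j)).1
      linarith
    rw [← sub_le_iff_le_add]
    exact le_min (aux 0 (min_le_left _ _)) (le_min (aux 1 ((min_le_right _ _).trans
      (min_le_left _ _))) (aux 2 ((min_le_right _ _).trans (min_le_right _ _))))
  have blk : ∀ (i : ℕ) (m : Eis), IsPrim m → Real.exp (a.1.l / 20) < (nm m : ℝ) →
      (nm m : ℝ) ^ 3 * 2 ^ i ≤ bw * Real.exp a.1.l →
      (∑ k ∈ (primBall (2 ^ (i + 1))).filter (fun k => CbF k ∧ 2 ^ i ≤ nm k),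
        ‖CS (fun n => alC π h (lam, s) a qs n * prin0 m n) k‖ ^ 2) *
      (∑ k ∈ (primBall (2 ^ (i + 1))).filter (fun k => CbF k ∧ 2 ^ i ≤ nm k),
        ‖stC π h e0 (lam, s) a qs (m ^ 3 * k)‖ ^ 2) ≤ (H ^ M * Real.exp (g i)) ^ 2 := by
    intro i m hmp hmE hmK
    have hnm0 : (0 : ℝ) < nm m := by exact_mod_cast nm_pos.2 hmp.ne_zero
    have hlm : a.1.l / 20 ≤ Real.log (nm m) := ((Real.lt_log_iff_exp_lt hnm0).2 hmE).le
    have h3 : 3 * Real.log (nm m) + i * Real.log 2 ≤ Real.log bw + a.1.l := by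
      have := Real.log_le_log (by positivity) hmK
      rw [Real.log_mul (by positivity) (by positivity), Real.log_pow, Real.log_pow,
        Real.log_mul hbw0.ne' (Real.exp_pos _).ne', Real.log_exp] at this
      push_cast at this
      exact this
    have hi0 : (0 : ℝ) ≤ i * Real.log 2 := by positivity
    have hmX : (nm m : ℝ) ≤ X := by
      rw [← Real.log_le_log_iff hnm0 hX0, ← hL]
      linarith
    have hiu : (i + 1) * Real.log 2 ≤ (17 / 20 * cκ p + τ) * L := by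
      have : i * Real.log 2 ≤ Real.log bw + 17 / 20 * a.1.l := by linarith
      linarith
    have hkk0 : 0 ≤ (i + 1) * Real.log 2 / L := by positivity
    have hkkL : (i + 1) * Real.log 2 / L * L = (i + 1) * Real.log 2 :=
      div_mul_cancel₀ _ hL0'.ne'
    set K : ℝ := (i + 1) * Real.log 2 with hK
    have hSB0 : 0 ≤ ∑ k ∈ (primBall (2 ^ (i + 1))).filter (fun k => CbF k ∧ 2 ^ i ≤ nm k),
        ‖stC π h e0 (lam, s) a qs (m ^ 3 * k)‖ ^ 2 := sum_nonneg fun _ _ => by positivity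
    by_cases hcase : K ≤ (3 / 5 * bP p 0 + τ₁) * L
    · -- small families
      have B := G1 X hX1' (bP p) hb 1 a.2 qs a.1.l H (hPDt τ₁ hττ₁) i (2 ^ nO a.1)
        (Real.exp (e0 * a.1.l)) hcase (one_le_pow₀ (by norm_num)) (by
          rw [Real.log_pow]
          exact hlev τ₁ hττ₁) (Jo a.1.l (a3 a.1) a.1.z) (omP (nO a.1)) (okJ_JW _ _ _)
          (fun x hx => JW_le hx) (fun x => (omP_bd _ x).1) m hmp hmX
      rw [hcl] at B
      have A := sideA 1 _ i m hmp hmX hiu (Ec_lo hd hkk0)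
      simp only [Equiv.Perm.one_apply] at A
      rw [← hvm] at A
      refine prod_close (M₁ := M₁) hH1 A hSB0 (y := ε₁ * L + (Gt d (bP p 0 * L)
          ((bP p 1 + bP p 2 + bP p 3) * L) n K - Rn d K (a.2 0).z (a.2 1).z (a.2 2).z (LN qs)))
        (B.trans (le_of_eq ?_)) (by omega) ?_
      · rw [hXe, Real.exp_add (ε₁ * L), ← mul_assoc]
      · have hmx : (K / L + max ((3 / 4 + 2 * d) * (vm + q.2 .am)) (q.2 .am - 2 / 3 * (K / L))) *
            L ≤ K + max ((3 / 4 + 2 * d) * (zm + LN qs)) (LN qs - 2 / 3 * K) + 2 * (δ * L) := by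
          rw [add_mul, hkkL, max_mul_of_nonneg _ _ hL0'.le]
          have h6 : (3 / 4 + 2 * d) * (vm + q.2 .am) * L ≤
              (3 / 4 + 2 * d) * (zm + LN qs) + 2 * (δ * L) := by
            have h7 : (3 / 4 + 2 * d) * (vm * L + q.2 .am * L) ≤
                (3 / 4 + 2 * d) * (zm + LN qs + 2 * (δ * L)) :=
              mul_le_mul_of_nonneg_left (by linarith) (by linarith)
            have h8 : (3 / 4 + 2 * d) * (2 * (δ * L)) ≤ 1 * (2 * (δ * L)) :=
              mul_le_mul_of_nonneg_right (by linarith) (by linarith)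
            linarith
          have h9 : (q.2 .am - 2 / 3 * (K / L)) * L ≤ LN qs - 2 / 3 * K + 2 * (δ * L) := by
            have : (q.2 .am - 2 / 3 * (K / L)) * L = q.2 .am * L - 2 / 3 * (K / L * L) := by ring
            rw [this, hkkL]
            linarith
          have h10 : max ((3 / 4 + 2 * d) * (vm + q.2 .am) * L)
              ((q.2 .am - 2 / 3 * (K / L)) * L) ≤
              max ((3 / 4 + 2 * d) * (zm + LN qs)) (LN qs - 2 / 3 * K) + 2 * (δ * L) :=
            max_le (h6.trans (by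
              have := le_max_left ((3 / 4 + 2 * d) * (zm + LN qs)) (LN qs - 2 / 3 * K)
              linarith)) (h9.trans (by
              have := le_max_right ((3 / 4 + 2 * d) * (zm + LN qs)) (LN qs - 2 / 3 * K)
              linarith))
          linarith
        rw [hg', eNb, e0b]
        unfold Gt Rn
        rw [he₂L, ← hzm]
        dsimp only
        rw [← hK]
        linarith
    · -- large families
      push Not at hcase
      rw [e0b] at hcase
      have B := G2 X hX2' (bP p) hb a.2 qs a.1.l H (hPDt τ₂ hττ₂) (hlo τ₂ hττ₂) i (nO a.1) m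
        hmp hmX (by
          rw [← hL, ← hK, e0b]
          have : 0 ≤ τ₁ * L := by positivity
          have : 0 ≤ τ₂ * L := by positivity
          linarith) (by
          rw [← hL, ← hK, e0b]
          have : τ * L ≤ τ₂ * L := mul_le_mul_of_nonneg_right hττ₂ hL0'.le
          linarith) (hlev τ₂ hττ₂)
      rw [hcl] at B
      obtain ⟨f, f1, f2, f3⟩ := exists_perm fun j => q.1 (.inr j)
      have hsumf : q.1 (.inr (f 0)) + q.1 (.inr (f 1)) + q.1 (.inr (f 2)) + q.2 .am = vv := by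
        have := Equiv.sum_comp f fun j => q.1 (.inr j)
        rw [Fin.sum_univ_three, Fin.sum_univ_three] at this
        rw [hvv]
        linarith
      have A := sideA f _ i m hmp hmX hiu (Ec_hi hκp hDH hd (by
          rw [le_div_iff₀ hL0']
          have : 0 ≤ τ₁ * L := by positivity
          linarith) (hvle _).2 (hvle _).2 f1 f2 (hvle _).1 hq5 hq4 (by
          rw [hsumf, hvv]
          linarith) (by linarith [w0.2, w1.2, w2.2]))
      rw [hsumf] at A
      have f3' : q.1 (.inr (f 2)) = vm := f3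
      rw [f3'] at A
      refine prod_close (M₁ := M₂) hH1 A hSB0 (y := ε₁ * L + GkE d (bP p 0 * L)
          ((bP p 1 + bP p 2 + bP p 3) * L) (bP p 4 * L) n zm K)
        (B.trans (le_of_eq ?_)) (by omega) ?_
      · rw [hXe, Real.exp_add (ε₁ * L), ← mul_assoc]
      · have h6 : RSk (cκ p) (K / L) vv vm (cx' p) * L ≤
            RSk (cκ p * L) K n zm (cx' p * L) + 12 * (δ * L) := by
          rw [← RSk_scale hL0'.le, hkkL]
          have := RSk_lip (κ := cκ p * L) (k := K) (p := vv * L) (p' := n) (u := vm * L)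
            (u' := zm) (x := cx' p * L) (e := 4 * (δ * L)) (by
              rw [abs_le]
              constructor <;> linarith) (by
              rw [abs_le]
              have h1 := hzmle (f 2)
              have h2 := (abs_le.1 (hv (f 2))).2
              rw [f3'] at h2
              constructor <;> linarith)
          linarith
        rw [hg', eNb, e0b, e4b]
        unfold GkE
        rw [he₂L]
        dsimp only
        rw [← hK]
        linarith
  -- the sum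
  set bK : ℝ := bw * Real.exp a.1.l with hbK
  have hbK0 : 0 < bK := by positivity
  have hlbK : Real.log bK = Real.log bw + a.1.l := by
    rw [hbK, Real.log_mul hbw0.ne' (Real.exp_pos _).ne', Real.log_exp]
  have hl0 : 0 ≤ a.1.l := by
    have h1 : 8 / 9 * L ≤ cκ p * L := mul_le_mul_of_nonneg_right hPp.κ0 hL0'.le
    have h2 : δ * L ≤ 1 / 4 * L := mul_le_mul_of_nonneg_right (by linarith) hL0'.le
    linarith
  set I : ℕ := ⌊Real.log bK / Real.log 2⌋₊ + 1 with hI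
  have hIb : bK < 2 ^ I := by
    have h1 := Nat.lt_floor_add_one (Real.log bK / Real.log 2)
    rw [div_lt_iff₀ hlog2] at h1
    rw [← Real.log_lt_log_iff hbK0 (by positivity), Real.log_pow, hI]
    push_cast
    exact h1
  have hI2 : (I : ℝ) ≤ 4 * L := by
    have h1 : (0 : ℝ) ≤ Real.log bK / Real.log 2 := div_nonneg (by rw [hlbK]; linarith) hlog2.le
    have h2 := Nat.floor_le h1
    have h3 : Real.log bK / Real.log 2 ≤ 3 * L := by
      rw [div_le_iff₀ hlog2, hlbK]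
      have h4 := Real.log_two_gt_d9
      have h5 : Real.log bw ≤ 1 / 64 * L := by
        have : τ / 8 * L ≤ 1 / 64 * L := mul_le_mul_of_nonneg_right (by linarith) hL0'.le
        linarith
      have h6 : δ * L ≤ 1 / 800 * L := mul_le_mul_of_nonneg_right (by linarith) hL0'.le
      have h7 : 3 * L * (1 / 2) ≤ 3 * L * Real.log 2 :=
        mul_le_mul_of_nonneg_left (by linarith) (by linarith)
      linarith
    rw [hI]
    push_cast
    linarith
  have main := et_le (w := wM (Rw lam)) (wgt_wM (Rw lam)) (Wm := 1) (b := bw)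
    (K := Real.exp a.1.l) (fun x => by
      rw [abs_of_nonneg (wM_nonneg _ _)]
      exact wM_le_one _ _) (fun x hx => (wM_supp hx).2.le) hbw0.le (Real.exp_pos _)
    (α := alC π h (lam, s) a qs) (fun m hm' => sqc_prim hm') (stC π h e0 (lam, s) a qs)
    (E1 := Real.exp (a.1.l / 20)) (Real.exp_pos _).le (I := I) hIb
    (G := fun i => H ^ M * Real.exp (g i)) (fun i => by positivity)
    (fun i m _ h2 h3 h4 => blk i m h2 h3 h4)
  have eEt : EtC π h e0 Rw (lam, s) a qs = ‖CrP (wM (Rw lam)) (Real.exp a.1.l)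
      (alC π h (lam, s) a qs) (fun k => if Cut (Real.exp (a.1.l / 20)) k then 0
        else stC π h e0 (lam, s) a qs k)‖ := by
    unfold EtC
    rw [if_pos hok]
    rfl
  rw [eEt]
  refine main.trans ?_
  rw [one_mul, ← hbK]
  set U : ℝ := Real.exp (cs / 3 + (a.1.l - cκ p * L) / 3 + cκ p * L + n + e₂ * L +
    3 / 4 * (d * (cκ p * L)) + 3 * ε₁ * L) with hU
  have term : ∀ i : ℕ, 100 * (bK / 2 ^ i) ^ ((1 : ℝ) / 3) * (H ^ M * Real.exp (g i)) =
      100 * (H ^ M * U) := by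
    intro i
    have h1 : (bK / 2 ^ i) ^ ((1 : ℝ) / 3) =
        Real.exp ((Real.log bw + a.1.l - i * Real.log 2) / 3) := by
      rw [Real.rpow_def_of_pos (by positivity), Real.log_div hbK0.ne' (by positivity), hlbK,
        Real.log_pow]
      congr 1
      ring
    have h2 : Real.exp ((Real.log bw + a.1.l - i * Real.log 2) / 3) * Real.exp (g i) = U := by
      rw [← Real.exp_add, hU, hg', hcs]
      congr 1
      ring
    rw [h1]
    calc _ = 100 * (H ^ M * (Real.exp ((Real.log bw + a.1.l - i * Real.log 2) / 3) *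
        Real.exp (g i))) := by ring
      _ = _ := by rw [h2]
  rw [sum_congr rfl fun i _ => term i, sum_const, nsmul_eq_mul]
  have hcard : ((((range I).filter fun i => Real.exp (a.1.l / 20) ^ 3 * 2 ^ i ≤ bK).card : ℕ) :
      ℝ) ≤ 4 * L := by
    refine le_trans ?_ hI2
    have h1 := card_filter_le (range I) fun i => Real.exp (a.1.l / 20) ^ 3 * 2 ^ i ≤ bK
    rw [card_range] at h1
    exact_mod_cast h1
  have hHM : H ^ M ≤ Real.exp (ε₁ * L) := by
    rw [hH, ← Real.rpow_natCast, ← Real.rpow_mul hX0.le, hXe]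
    refine Real.exp_le_exp.2 (mul_le_mul_of_nonneg_right ?_ hL0'.le)
    linarith
  have hLe : L ≤ 2 / ε₁ * Real.exp (ε₁ / 2 * L) := by
    have h1 := Real.add_one_le_exp (ε₁ / 2 * L)
    have h2 : L = 2 / ε₁ * (ε₁ / 2 * L) := by field_simp
    calc L = 2 / ε₁ * (ε₁ / 2 * L) := h2
      _ ≤ 2 / ε₁ * Real.exp (ε₁ / 2 * L) :=
        mul_le_mul_of_nonneg_left (by linarith) (by positivity)
  have hCe : CC ≤ Real.exp (ε₁ / 2 * L) := by
    rw [← Real.exp_log hCC0]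
    exact Real.exp_le_exp.2 hLC
  have hUU : U = Real.exp (cs / 3) * Real.exp ((a.1.l - cκ p * L) / 3 + cκ p * L + n + e₂ * L +
      3 / 4 * (d * (cκ p * L)) + 3 * ε₁ * L) := by
    rw [hU, ← Real.exp_add]
    congr 1
    ring
  set V : ℝ := Real.exp ((a.1.l - cκ p * L) / 3 + cκ p * L + n + e₂ * L +
      3 / 4 * (d * (cκ p * L)) + 3 * ε₁ * L) with hV
  have hecs : Real.exp (cs / 3) ≤ Real.exp cs := Real.exp_le_exp.2 (by linarith)
  calc _ ≤ 4 * L * (100 * (H ^ M * U)) := mul_le_mul_of_nonneg_right hcard (by positivity)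
    _ ≤ 4 * (2 / ε₁ * Real.exp (ε₁ / 2 * L)) * (100 * (Real.exp (ε₁ * L) *
        (Real.exp cs * V))) := by
        rw [hUU]
        gcongr
    _ = CC * (Real.exp (ε₁ / 2 * L) * Real.exp (ε₁ * L) * V) := by
        rw [hCC]
        ring
    _ ≤ Real.exp (ε₁ / 2 * L) * (Real.exp (ε₁ / 2 * L) * Real.exp (ε₁ * L) * V) :=
        mul_le_mul_of_nonneg_right hCe (by positivity)
    _ = Real.exp (ε₁ / 2 * L + (ε₁ / 2 * L + ε₁ * L + ((a.1.l - cκ p * L) / 3 + cκ p * L + n +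
          e₂ * L + 3 / 4 * (d * (cκ p * L)) + 3 * ε₁ * L))) := by
        rw [hV, ← Real.exp_add, ← Real.exp_add, ← Real.exp_add]
    _ ≤ X ^ (E8 L0 q + ε) := by
        rw [hXe]
        refine Real.exp_le_exp.2 ?_
        have hE8 : E8 L0 q = cκ p + (q.1 (.inr 0) + q.1 (.inr 1) + q.1 (.inr 2)) + q.2 .am +
            L0 p := by
          unfold E8
          rw [hS3]
        rw [hE8]
        have h1 : (e₂ + 3 / 4 * d * cκ p) * L ≤ L0 p * L :=
          mul_le_mul_of_nonneg_right hL0p hL0'.le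
        have h2 : vv * L = (q.1 (.inr 0) + q.1 (.inr 1) + q.1 (.inr 2) + q.2 .am) * L := rfl
        have h3 : ε * L = 32 * (ε₁ * L) := by rw [← hεε]; ring
        have h4 : 0 < ε₁ * L := by positivity
        linarith

end Crest.Agent.R017.ET371
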