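import Crest.Agent.R017.TNj_90
import Crest.Agent.R017.E3Nc_146
import Crest.Agent.R017.ET4a_548
import Crest.Agent.R017.E3Kf_548

/-!
# Row 17, R8 (E3): the class form of one sequence at a fixed cube (helper90), part 1

* `lw0`, `lw1` : the exponents of the coefficients of the lines; **`LnT`** : the real lines
* `LVTj`       : helper146's `LVTb` from joint numbers
* **`tn_lines`** : the `T`-part of one level and its diagonal
* `XE_level`   : one level of the diagonal `XE`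
-/

set_option autoImplicit false

noncomputable section

open Finset MeasureTheory
open scoped ComplexConjugate Classical

namespace Crest.Agent.R017.ET490

open Crest.Agent.R012 Crest.Agent.R012.Eis Crest.Agent.R012.MC
open Crest.Agent.R012.LS2 (S mem_S)
open Crest.Agent.R017.CM106 (CS FS TG)
open Crest.Agent.R017.C70
open Crest.Agent.R017.HB645 (hh hh_nonneg hh_le_one abs_lt_of_hh)
open Crest.Agent.R017.E1551 hiding tau Dg
open Crest.Agent.R017.E3D579 (TE0)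
open Crest.Agent.R017.E3T829 (cg)
open Crest.Agent.R017.E3M829 (Tal)
open Crest.Agent.R017.E3F548 (XE XE_nonneg)
open Crest.Agent.R017.E3Kc548 (LI mem_LI card_LI)
open Crest.Agent.R017.E3Z548 (TN TN_nonneg JV JVc mem_JV FH FH_nonneg LVn)
open Crest.Agent.R017.E3N146 (cLS cTT LVn_le CF_of_JC)
open Crest.Agent.R017.TNj90

/-! ### the real lines -/

/-- the cube-free lines and the diagonal, `k = log K`, `v` = level, `h = log H` -/
def lw0 (k v h : ℝ) : ℝ := max (2 / 3 * k - v / 3) (max (2 / 3 * k - (h + v) / 3) (2 / 3 * v))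

/-- the lines with cubes -/
def lw1 (k v h : ℝ) : ℝ :=
  max (2 / 3 * k - (h + v) / 3) (max (h / 3 + 2 / 3 * v) (2 / 3 * h + 7 / 6 * v - k / 3))

/-- **the real lines**, absolute logarithms: `k = log K`, `v` = level, `h = log H`, `p` = length,
`E = log E0`, `δ = log N d`, target `G`; `Sh δ b l` = number of the joint block `b` at the level `l` -/
structure LnT (Sh : ℝ → ℝ → ℝ → ℝ) (k v h p E δ t G : ℝ) : Prop where
  c0 : ∀ b l : ℝ, 0 ≤ b → 0 ≤ l → l ≤ v - 2 * δ + t →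
    lw0 k v h + Sh δ b l + 2 * δ - max 0 (b - E) - p / 3 ≤ G
  c1 : ∀ b l : ℝ, 0 ≤ b → 0 ≤ l → l ≤ v - 2 * δ + t →
    lw1 k v h + Sh δ b l + 2 * δ - max 0 (b - E) + (v - 2 * δ - l) / 3 - p / 3 ≤ G

lemma lw0_lip {k v h h' : ℝ} : lw0 k v h ≤ lw0 k v h' + 1 / 3 * |h - h'| := by
  unfold lw0
  have h0 := abs_nonneg (h - h')
  have h1 := neg_abs_le (h - h')
  have e1 := le_max_left (2 / 3 * k - v / 3) (max (2 / 3 * k - (h' + v) / 3) (2 / 3 * v))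
  have e2 := (le_max_left (2 / 3 * k - (h' + v) / 3) (2 / 3 * v)).trans
    (le_max_right (2 / 3 * k - v / 3) _)
  have e3 := (le_max_right (2 / 3 * k - (h' + v) / 3) (2 / 3 * v)).trans
    (le_max_right (2 / 3 * k - v / 3) _)
  exact max_le (by linarith) (max_le (by linarith) (by linarith))

lemma lw1_lip {k v h h' : ℝ} : lw1 k v h ≤ lw1 k v h' + 2 / 3 * |h - h'| := by
  unfold lw1
  have h0 := abs_nonneg (h - h')
  have h1 := neg_abs_le (h - h')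
  have h2 := le_abs_self (h - h')
  have e1 := le_max_left (2 / 3 * k - (h' + v) / 3)
    (max (h' / 3 + 2 / 3 * v) (2 / 3 * h' + 7 / 6 * v - k / 3))
  have e2 := (le_max_left (h' / 3 + 2 / 3 * v) (2 / 3 * h' + 7 / 6 * v - k / 3)).trans
    (le_max_right (2 / 3 * k - (h' + v) / 3) _)
  have e3 := (le_max_right (h' / 3 + 2 / 3 * v) (2 / 3 * h' + 7 / 6 * v - k / 3)).trans
    (le_max_right (2 / 3 * k - (h' + v) / 3) _)
  exact max_le (by linarith) (max_le (by linarith) (by linarith))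

/-- the weight of the numbers -/
lemma FH_exp (k h v : ℝ) : FH (Real.exp k) (Real.exp h) (Real.exp v) =
    Real.exp (2 / 3 * k - (h + v) / 3) := by
  unfold E3Z548.FH
  rw [← Real.exp_add h v, ← Real.exp_mul, ← Real.exp_mul, ← Real.exp_add]
  congr 1
  ring

lemma exp3 (a b c m : ℝ) (h1 : a ≤ m) (h2 : b ≤ m) (h3 : c ≤ m) :
    Real.exp a + Real.exp b + Real.exp c ≤ 3 * Real.exp m := by
  have e1 := Real.exp_le_exp.2 h1
  have e2 := Real.exp_le_exp.2 h2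
  have e3 := Real.exp_le_exp.2 h3
  linarith

/-- the cube-free coefficient -/
lemma FH_cLS {k h v : ℝ} (hk : 0 ≤ k) :
    FH (Real.exp k) (Real.exp h) (Real.exp v) *
      cLS (Real.exp k) (Real.exp h) (Real.exp v) (Real.exp v) 1 1 1 ≤
      3 * Real.exp (lw0 k v h) := by
  have e1 : (Real.exp h * (Real.exp v / Real.exp v)) ^ (1 / 3 : ℝ) = Real.exp (h / 3) := by
    rw [div_self (Real.exp_pos v).ne', mul_one, ← Real.exp_mul]
    congr 1; ring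
  have e2 : Real.exp v / Real.exp k = Real.exp (v - k) := by rw [Real.exp_sub]
  have e3 : (Real.exp h * Real.exp v ^ 2 * Real.exp v * 1 ^ 3 * 1 ^ 2 / Real.exp k ^ 2) ^
      (1 / 3 : ℝ) = Real.exp ((h + 3 * v - 2 * k) / 3) := by
    have : Real.exp h * Real.exp v ^ 2 * Real.exp v * 1 ^ 3 * 1 ^ 2 / Real.exp k ^ 2 =
        Real.exp (h + 3 * v - 2 * k) := by
      rw [← Real.exp_nat_mul, ← Real.exp_nat_mul, one_pow, one_pow, mul_one, mul_one,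
        ← Real.exp_add, ← Real.exp_add, ← Real.exp_sub]
      congr 1
      push_cast
      ring
    rw [this, ← Real.exp_mul]
    congr 1; ring
  unfold E3N146.cLS
  rw [FH_exp, e1, e2, e3]
  have e4 : Real.exp (2 / 3 * k - (h + v) / 3) * (1 + Real.exp (h / 3) * Real.exp (v - k) *
      (1 ^ 2 * 1 ^ 2 * 1) + Real.exp ((h + 3 * v - 2 * k) / 3)) =
      Real.exp (2 / 3 * k - (h + v) / 3) + Real.exp (2 / 3 * v - k / 3) +
        Real.exp (2 / 3 * v) := by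
    have a1 : Real.exp (2 / 3 * v - k / 3) = Real.exp (2 / 3 * k - (h + v) / 3) *
        (Real.exp (h / 3) * Real.exp (v - k)) := by
      rw [← Real.exp_add, ← Real.exp_add]; congr 1; ring
    have a2 : Real.exp (2 / 3 * v) = Real.exp (2 / 3 * k - (h + v) / 3) *
        Real.exp ((h + 3 * v - 2 * k) / 3) := by
      rw [← Real.exp_add]; congr 1; ring
    rw [a1, a2]
    ring
  rw [e4]
  refine exp3 _ _ _ _ ?_ ?_ ?_
  · exact (le_max_left _ _).trans (le_max_right _ _)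
  · refine le_trans ?_ ((le_max_right (2 / 3 * k - (h + v) / 3) (2 / 3 * v)).trans
      (le_max_right _ _))
    linarith
  · exact (le_max_right (2 / 3 * k - (h + v) / 3) (2 / 3 * v)).trans (le_max_right _ _)

/-- the coefficient with cubes -/
lemma FH_cTT (k h v : ℝ) :
    FH (Real.exp k) (Real.exp h) (Real.exp v) *
      cTT (Real.exp k) (Real.exp h) (Real.exp v) ≤ 3 * Real.exp (lw1 k v h) := by
  have e0 : Real.exp h ^ 2 * Real.exp v ^ 3 / Real.exp k ^ 2 =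
      Real.exp (2 * h + 3 * v - 2 * k) := by
    rw [← Real.exp_nat_mul, ← Real.exp_nat_mul, ← Real.exp_nat_mul,
      ← Real.exp_add, ← Real.exp_sub]
    congr 1
  unfold E3N146.cTT
  rw [FH_exp, e0, ← Real.exp_mul, ← Real.exp_mul]
  have e4 : Real.exp (2 / 3 * k - (h + v) / 3) * (1 + Real.exp ((2 * h + 3 * v - 2 * k) *
      (1 / 3)) + Real.exp ((2 * h + 3 * v - 2 * k) * (1 / 2))) =
      Real.exp (2 / 3 * k - (h + v) / 3) + Real.exp (h / 3 + 2 / 3 * v) +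
        Real.exp (2 / 3 * h + 7 / 6 * v - k / 3) := by
    have a1 : Real.exp (h / 3 + 2 / 3 * v) = Real.exp (2 / 3 * k - (h + v) / 3) *
        Real.exp ((2 * h + 3 * v - 2 * k) * (1 / 3)) := by
      rw [← Real.exp_add]; congr 1; ring
    have a2 : Real.exp (2 / 3 * h + 7 / 6 * v - k / 3) = Real.exp (2 / 3 * k - (h + v) / 3) *
        Real.exp ((2 * h + 3 * v - 2 * k) * (1 / 2)) := by
      rw [← Real.exp_add]; congr 1; ring
    rw [a1, a2]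
    ring
  rw [e4]
  refine exp3 _ _ _ _ (le_max_left _ _) ?_ ?_
  · exact (le_max_left _ _).trans (le_max_right _ _)
  · exact (le_max_right _ _).trans (le_max_right _ _)

/-- **the T-part of `Σ (N e)⁻¹ LVn`** -/
theorem LVTj {R : ℝ} (hR : 0 ≤ R) {ε J B₂ : ℝ} (hε : 0 < ε) (hJ : 0 ≤ J) (hB₂ : 0 < B₂) {Lφ : ℝ}
    (hLφ : 0 ≤ Lφ) :
    ∃ C : ℝ, 0 ≤ C ∧ ∀ X : ℝ, 3 ≤ X → ∀ (n Y cc ce V E0 F : ℝ) (Sh : ℝ → ℝ → ℝ → ℝ),
      1 ≤ Y → Y ≤ X ^ B₂ → 0 < V → cc ≤ ce → ce * V ≤ X ^ B₂ → 0 < E0 → E0 ≤ X ^ B₂ → 0 ≤ F →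
      ∀ al : Eis → ℂ, JBc Y (ce * V) F J Sh al → Adm Y (Real.exp n) R al →
      ∀ (Ds EE : Finset Eis) (m : ℝ) (φ₀ φ₁ : ℝ → ℝ) (af : Eis → Eis → Eis → ℂ) (H RN : Eis → Eis → ℝ) (Yg K V' E1 B G1 : ℝ),
      (∀ x y, φ₀ x ≤ φ₀ y + Lφ * |x - y|) → (∀ x y, φ₁ x ≤ φ₁ y + Lφ * |x - y|) →
      (∀ d ∈ Ds, IsPrim d ∧ (nm d : ℝ) ≤ X ^ B₂) → (∀ e ∈ EE, e ∈ S E0) →
      (∀ d ∈ Ds, ∀ e ∈ EE, af d e = fun n => al (d * n)) → 0 < K → (∀ d e, 0 < H d e) →
      (∀ d ∈ Ds, ∀ e ∈ EE, 0 ≤ cLS K (H d e) V V' E1 B G1) →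
      (∀ d ∈ Ds, ∀ e ∈ EE, FH K (H d e) V * cLS K (H d e) V V' E1 B G1 ≤
        Real.exp (φ₀ (Real.log (nm d)))) →
      (∀ d ∈ Ds, ∀ e ∈ EE, FH K (H d e) V * cTT K (H d e) V ≤
        Real.exp (φ₁ (Real.log (nm d)))) →
      (∀ d ∈ Ds, ∀ b v : ℝ, 0 ≤ b → 0 ≤ v → v ≤ Real.log (ce * V) - 2 * Real.log (nm d) →
          φ₀ (Real.log (nm d)) + Sh (Real.log (nm d)) b v + 2 * Real.log (nm d) -
            max 0 (b - Real.log E0) ≤ m) →
      (∀ d ∈ Ds, ∀ b v : ℝ, 0 ≤ b → 0 ≤ v → v ≤ Real.log (ce * V) - 2 * Real.log (nm d) →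
          φ₁ (Real.log (nm d)) + Sh (Real.log (nm d)) b v + 2 * Real.log (nm d) -
            max 0 (b - Real.log E0) + (Real.log (ce * V) - v - 2 * Real.log (nm d)) / 3 ≤ m) →
      ∑ d ∈ Ds, ∑ e ∈ EE, (nm e : ℝ)⁻¹ *
          LVn af {d} {e} cc Yg K (H d e) V V' E1 B G1 (RN d e) ≤
        C * X ^ ε * F * Real.exp (-(n / 3)) * Real.exp m +
          ∑ d ∈ Ds, ∑ e ∈ EE, (nm e : ℝ)⁻¹ * (FH K (H d e) V * RN d e) := by
  obtain ⟨C, hC, G⟩ := TNj1 hR hε hJ hB₂ hLφ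
  refine ⟨3 * C, by positivity, ?_⟩
  intro X hX n Y cc ce V E0 F Sh hY1 hYu hV hcc hWX hE0 hE0X hF al hjb hadm Ds EE m φ₀ φ₁ af H RN
    Yg K V' E1 B G1 hφ₀ hφ₁ hDs hEE haf hK hH hc0 h₀ h₁ ha hb
  have hX0 : 0 < X := by linarith
  have hFH : ∀ d e, 0 ≤ FH K (H d e) V := fun d e => FH_nonneg hK.le (hH d e).le hV.le
  have hcT : ∀ d e, 0 ≤ cTT K (H d e) V := fun d e => by
    have hq : 0 ≤ H d e ^ 2 * V ^ 3 / K ^ 2 := by positivity
    have ht : 0 ≤ (H d e ^ 2 * V ^ 3 / K ^ 2) ^ (1 / 3 : ℝ) := Real.rpow_nonneg hq _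
    have ht' : 0 ≤ (H d e ^ 2 * V ^ 3 / K ^ 2) ^ (1 / 2 : ℝ) := Real.rpow_nonneg hq _
    unfold cTT
    linarith
  have k0 := (G X hX n Y (ce * V) E0 F Sh hY1 hYu hWX hE0 hE0X hF al hjb hadm Ds EE m
    φ₀ (fun d e => FH K (H d e) V * cLS K (H d e) V V' E1 B G1) hφ₀ hDs hEE
    (fun d hd e he => mul_nonneg (hFH d e) (hc0 d hd e he)) h₀).1 ha
    (fun _ => 1) (JVc cc V) id zero_le_one le_rfl (fun _ => zero_le_one) (fun d hd j hj => by
      obtain ⟨h1, h2⟩ := mem_filter.1 hj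
      obtain ⟨h3, h4⟩ := (mem_JV (hDs d hd).1.ne_zero one_ne_zero).1 h1
      refine ⟨CF_of_JC h2, ?_⟩
      rw [nm_one, Nat.cast_one, one_pow, mul_one] at h4
      exact h4.trans (mul_le_mul_of_nonneg_right hcc hV.le))
  have hG := fun Gs : Finset Eis => fun om : Eis → ℝ => fun h1 : (∀ γ, 0 ≤ om γ) =>
    fun h2 : (∀ γ ∈ Gs, IsPrim γ ∧ 0 ≤ om γ ∧ om γ ≤ (nm γ : ℝ) ^ (-(1 / 2) : ℝ)) =>
    (G X hX n Y (ce * V) E0 F Sh hY1 hYu hWX hE0 hE0X hF al hjb hadm Ds EE m φ₁ (fun d e => FH K (H d e) V * cTT K (H d e) V) hφ₁ hDs hEE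
    (fun d _ e _ => mul_nonneg (hFH d e) (hcT d e)) h₁).2 hb
    om Gs (JV cc V) (fun _ => 1) h1 h2 (fun d hd γ hγ j hj => by
      obtain ⟨h3, h4⟩ := (mem_JV (hDs d hd).1.ne_zero (h2 γ hγ).1.ne_zero).1 hj
      exact ⟨h3, h4.trans (mul_le_mul_of_nonneg_right hcc hV.le)⟩)
  have hγ : ∀ γ ∈ primBall ⌊Yg⌋₊, IsPrim γ ∧ (1 : ℝ) ≤ nm γ := fun γ hγ => by
    obtain ⟨-, h2⟩ := mem_primBall.1 hγ
    exact ⟨h2, by exact_mod_cast nm_pos.2 h2.ne_zero⟩
  have k1 := hG (primBall ⌊Yg⌋₊) (fun γ => (nm γ : ℝ)⁻¹) (fun γ => by positivity) (fun γ h1 =>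
    ⟨(hγ γ h1).1, by positivity, by
      rw [← Real.rpow_neg_one]
      exact Real.rpow_le_rpow_of_exponent_le (hγ γ h1).2 (by norm_num)⟩)
  have k2 := hG (primBall ⌊Yg⌋₊) (fun γ => (nm γ : ℝ) ^ (-(1 / 2) : ℝ)) (fun γ => by positivity)
    (fun γ h1 => ⟨(hγ γ h1).1, by positivity, le_rfl⟩)
  have key : ∑ d ∈ Ds, ∑ e ∈ EE, (nm e : ℝ)⁻¹ *
        LVn af {d} {e} cc Yg K (H d e) V V' E1 B G1 (RN d e) ≤
      ∑ d ∈ Ds, ∑ e ∈ EE, (nm e : ℝ)⁻¹ * (FH K (H d e) V * cLS K (H d e) V V' E1 B G1 *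
        TN (fun d _ n => al (d * n)) (fun e => (nm e : ℝ)) {d} {e} (fun _ => 1) {1} (JVc cc V)
          id) +
      ∑ d ∈ Ds, ∑ e ∈ EE, (nm e : ℝ)⁻¹ * (FH K (H d e) V * cTT K (H d e) V *
        TN (fun d _ n => al (d * n)) (fun e => (nm e : ℝ)) {d} {e}
        (fun γ => (nm γ : ℝ)⁻¹) (primBall ⌊Yg⌋₊) (JV cc V) (fun _ => 1)) +
      ∑ d ∈ Ds, ∑ e ∈ EE, (nm e : ℝ)⁻¹ * (FH K (H d e) V * cTT K (H d e) V *
        TN (fun d _ n => al (d * n)) (fun e => (nm e : ℝ)) {d} {e}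
        (fun γ => (nm γ : ℝ) ^ (-(1 / 2) : ℝ)) (primBall ⌊Yg⌋₊) (JV cc V) (fun _ => 1)) +
      ∑ d ∈ Ds, ∑ e ∈ EE, (nm e : ℝ)⁻¹ * (FH K (H d e) V * RN d e) := by
    rw [← sum_add_distrib, ← sum_add_distrib, ← sum_add_distrib]
    refine sum_le_sum fun d hd => ?_
    rw [← sum_add_distrib, ← sum_add_distrib, ← sum_add_distrib]
    refine sum_le_sum fun e he => ?_
    rw [← mul_add, ← mul_add, ← mul_add]
    exact mul_le_mul_of_nonneg_left (LVn_le (haf d hd e he) hK.le (hH d e).le hV.le)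
      (by positivity)
  have e1 : 3 * C * X ^ ε * F * Real.exp (-(n / 3)) * Real.exp m =
      C * X ^ ε * F * Real.exp (-(n / 3)) * Real.exp m +
      C * X ^ ε * F * Real.exp (-(n / 3)) * Real.exp m +
      C * X ^ ε * F * Real.exp (-(n / 3)) * Real.exp m := by ring
  rw [e1]
  refine key.trans ?_
  gcongr

/-- **one level** : the `T`-part and its diagonal -/
theorem tn_lines {R : ℝ} (hR : 0 ≤ R) {ε J B₂ : ℝ} (hε : 0 < ε) (hJ : 0 ≤ J) (hB₂ : 0 < B₂)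
    {Lh : ℝ} (hLh : 0 ≤ Lh) (c : ℝ) (hc : 1 ≤ c) :
    ∃ C : ℝ, 0 ≤ C ∧ ∀ X : ℝ, 3 ≤ X → ∀ (p Y v k E0 F G : ℝ) (Sh : ℝ → ℝ → ℝ → ℝ),
      1 ≤ Y → Y ≤ X ^ B₂ → Real.exp 1 * c * Real.exp v ≤ X ^ B₂ → 0 < E0 → E0 ≤ X ^ B₂ →
      0 ≤ F → 0 ≤ k → ∀ al : Eis → ℂ, JBc Y (Real.exp 1 * c * Real.exp v) F J Sh al →
      Adm Y (Real.exp p) R al → ∀ (Ds EE : Finset Eis) (hf : ℝ → ℝ) (Yg : ℝ)
        (RN : Eis → Eis → ℝ),
      (∀ x y, hf x ≤ hf y + Lh * |x - y|) →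
      (∀ d ∈ Ds, IsPrim d ∧ (nm d : ℝ) ≤ X ^ B₂) → (∀ e ∈ EE, e ∈ S E0) →
      (∀ d ∈ Ds, LnT Sh k v (hf (Real.log (nm d))) p (Real.log E0) (Real.log (nm d))
        (Real.log c + 1) G) →
      (∑ d ∈ Ds, ∑ e ∈ EE, (nm e : ℝ)⁻¹ * LVn (fun d _ n => al (d * n)) {d} {e} c Yg
          (Real.exp k) (Real.exp (hf (Real.log (nm d)))) (Real.exp v) (Real.exp v) 1 1 1
          (RN d e) ≤
        C * X ^ ε * F * Real.exp G + ∑ d ∈ Ds, ∑ e ∈ EE, (nm e : ℝ)⁻¹ *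
          (FH (Real.exp k) (Real.exp (hf (Real.log (nm d)))) (Real.exp v) * RN d e)) ∧
      Real.exp k ^ (2 / 3 : ℝ) * (Real.exp v ^ (-(1 / 3) : ℝ) * ∑ d ∈ Ds, ∑ e ∈ EE,
        (nm e : ℝ)⁻¹ * TN (fun d _ n => al (d * n)) (fun e => (nm e : ℝ)) {d} {e} (fun _ => 1)
          {1} (JVc (Real.exp 1) (Real.exp v)) id) ≤ C * X ^ ε * F * Real.exp G := by
  obtain ⟨C₁, hC₁, H₁⟩ := LVTj hR hε hJ hB₂ (Lφ := 2 / 3 * Lh) (by positivity)
  obtain ⟨C₂, hC₂, H₂⟩ := TNj1 hR hε hJ hB₂ (Lφ := 0) le_rfl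
  set t := Real.log c + 1 with ht
  have hlc : 0 ≤ Real.log c := Real.log_nonneg hc
  have hc0 : 0 < c := by linarith
  refine ⟨C₁ * Real.exp (Real.log 3 + t / 3) + C₂, by positivity, ?_⟩
  intro X hX p Y v k E0 F G Sh hY1 hYu hWX hE0 hE0X hF hk al hjb hadm Ds EE hf Yg RN hlip hDs hEE
    hln
  have hX0 : 0 < X := by linarith
  have hlW : Real.log (Real.exp 1 * c * Real.exp v) = v + t := by
    rw [Real.log_mul (by positivity) (Real.exp_pos _).ne', Real.log_mul (Real.exp_pos _).ne' hc0.ne',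
      Real.log_exp, Real.log_exp]
    rw [ht]; ring
  have h13 : 0 ≤ Real.log 3 := Real.log_nonneg (by norm_num)
  have he3 : Real.exp (Real.log 3) = 3 := Real.exp_log (by norm_num)
  have hcc : c ≤ Real.exp 1 * c := le_mul_of_one_le_left hc0.le (Real.one_le_exp zero_le_one)
  have hec : Real.exp 1 ≤ Real.exp 1 * c := le_mul_of_one_le_right (Real.exp_pos _).le hc
  have hpG : Real.exp (-(p / 3)) * Real.exp (G + p / 3 + Real.log 3 + t / 3) =
      Real.exp (Real.log 3 + t / 3) * Real.exp G := by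
    rw [← Real.exp_add, ← Real.exp_add]; congr 1; ring
  refine ⟨?_, ?_⟩
  · have k1 := H₁ X hX p Y c (Real.exp 1 * c) (Real.exp v) E0 F Sh hY1 hYu (Real.exp_pos v) hcc hWX
      hE0 hE0X hF al hjb hadm Ds EE (G + p / 3 + Real.log 3 + t / 3)
      (fun δ => Real.log 3 + lw0 k v (hf δ)) (fun δ => Real.log 3 + lw1 k v (hf δ))
      (fun d _ n => al (d * n)) (fun d _ => Real.exp (hf (Real.log (nm d)))) RN Yg (Real.exp k)
      (Real.exp v) 1 1 1 (fun x y => by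
        have h1 := lw0_lip (k := k) (v := v) (h := hf x) (h' := hf y)
        have h2 : |hf x - hf y| ≤ Lh * |x - y| := abs_le.2 ⟨by
          have := hlip y x
          rw [abs_sub_comm] at this
          linarith, by linarith [hlip x y]⟩
        have h3 : 0 ≤ Lh * |x - y| := by positivity
        show Real.log 3 + lw0 k v (hf x) ≤ Real.log 3 + lw0 k v (hf y) + 2 / 3 * Lh * |x - y|
        linarith) (fun x y => by
        have h1 := lw1_lip (k := k) (v := v) (h := hf x) (h' := hf y)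
        have h2 : |hf x - hf y| ≤ Lh * |x - y| := abs_le.2 ⟨by
          have := hlip y x
          rw [abs_sub_comm] at this
          linarith, by linarith [hlip x y]⟩
        show Real.log 3 + lw1 k v (hf x) ≤ Real.log 3 + lw1 k v (hf y) + 2 / 3 * Lh * |x - y|
        linarith) hDs hEE (fun _ _ _ _ => rfl) (Real.exp_pos k) (fun _ _ => Real.exp_pos _)
      (fun d _ e _ => by
        unfold E3N146.cLS
        positivity) (fun d _ e _ => by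
        refine (FH_cLS hk).trans (le_of_eq ?_)
        rw [Real.exp_add, he3]) (fun d _ e _ => by
        refine (FH_cTT _ _ _).trans (le_of_eq ?_)
        rw [Real.exp_add, he3]) (fun d hd b l hb hl hlv => by
        rw [hlW] at hlv
        have := (hln d hd).c0 b l hb hl (by linarith)
        linarith) (fun d hd b l hb hl hlv => by
        rw [hlW] at hlv ⊢
        have := (hln d hd).c1 b l hb hl (by linarith)
        linarith)
    refine k1.trans (add_le_add ?_ le_rfl)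
    calc C₁ * X ^ ε * F * Real.exp (-(p / 3)) * Real.exp (G + p / 3 + Real.log 3 + t / 3) =
        C₁ * X ^ ε * F * (Real.exp (-(p / 3)) * Real.exp (G + p / 3 + Real.log 3 + t / 3)) := by
          ring
      _ = C₁ * Real.exp (Real.log 3 + t / 3) * (X ^ ε * F * Real.exp G) := by rw [hpG]; ring
      _ ≤ (C₁ * Real.exp (Real.log 3 + t / 3) + C₂) * (X ^ ε * F * Real.exp G) :=
          mul_le_mul_of_nonneg_right (by linarith) (by positivity)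
      _ = _ := by ring
  · have k2 := (H₂ X hX p Y (Real.exp 1 * c * Real.exp v) E0 F Sh hY1 hYu hWX hE0 hE0X hF al hjb hadm
      Ds EE (G + p / 3) (fun _ => 2 / 3 * k - v / 3)
      (fun _ _ => Real.exp (2 / 3 * k - v / 3)) (fun x y => by simp) hDs hEE
      (fun _ _ _ _ => (Real.exp_pos _).le) (fun _ _ _ _ => le_rfl)).1 (fun d hd b l hb hl hlv => by
        rw [hlW] at hlv
        have := (hln d hd).c0 b l hb hl (by linarith)
        have h1 : 2 / 3 * k - v / 3 ≤ lw0 k v (hf (Real.log (nm d))) := le_max_left _ _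
        linarith) (fun _ => 1) (JVc (Real.exp 1) (Real.exp v)) id zero_le_one le_rfl
      (fun _ => zero_le_one) (fun d hd j hj => by
        obtain ⟨h1, h2⟩ := mem_filter.1 hj
        obtain ⟨h3, h4⟩ := (mem_JV (hDs d hd).1.ne_zero one_ne_zero).1 h1
        refine ⟨CF_of_JC h2, ?_⟩
        rw [nm_one, Nat.cast_one, one_pow, mul_one] at h4
        exact h4.trans (mul_le_mul_of_nonneg_right hec (Real.exp_pos _).le))
    have e1 : Real.exp k ^ (2 / 3 : ℝ) * (Real.exp v ^ (-(1 / 3) : ℝ) * ∑ d ∈ Ds, ∑ e ∈ EE,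
        (nm e : ℝ)⁻¹ * TN (fun d _ n => al (d * n)) (fun e => (nm e : ℝ)) {d} {e} (fun _ => 1)
          {1} (JVc (Real.exp 1) (Real.exp v)) id) = ∑ d ∈ Ds, ∑ e ∈ EE, (nm e : ℝ)⁻¹ *
        (Real.exp (2 / 3 * k - v / 3) * TN (fun d _ n => al (d * n)) (fun e => (nm e : ℝ)) {d} {e}
          (fun _ => 1) {1} (JVc (Real.exp 1) (Real.exp v)) id) := by
      have e2 : Real.exp (2 / 3 * k - v / 3) = Real.exp k ^ (2 / 3 : ℝ) *
          Real.exp v ^ (-(1 / 3) : ℝ) := by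
        rw [← Real.exp_mul, ← Real.exp_mul, ← Real.exp_add]; congr 1; ring
      rw [e2, ← mul_assoc, mul_sum]
      refine sum_congr rfl fun d _ => ?_
      rw [mul_sum]
      refine sum_congr rfl fun e _ => ?_
      ring
    rw [e1]
    refine k2.trans ?_
    have e3 : Real.exp (-(p / 3)) * Real.exp (G + p / 3) = Real.exp G := by
      rw [← Real.exp_add]; congr 1; ring
    calc C₂ * X ^ ε * F * Real.exp (-(p / 3)) * Real.exp (G + p / 3) =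
        C₂ * X ^ ε * F * (Real.exp (-(p / 3)) * Real.exp (G + p / 3)) := by ring
      _ = C₂ * (X ^ ε * F * Real.exp G) := by rw [e3]; ring
      _ ≤ (C₁ * Real.exp (Real.log 3 + t / 3) + C₂) * (X ^ ε * F * Real.exp G) :=
          mul_le_mul_of_nonneg_right (by
            have : 0 ≤ C₁ * Real.exp (Real.log 3 + t / 3) := by positivity
            linarith) (by positivity)
      _ = _ := by ring

/-! ### the diagonal -/

/-- **one level of the diagonal** -/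
lemma XE_level {D Y₀ Y₁ : ℝ} {om : Eis × Eis → ℂ} {α : Eis → ℂ}
    (hom : ∀ x ∈ JW D Y₀ Y₁, ‖om x‖ ≤ 1) (k : ℕ) {f : Eis} (hf : f ≠ 0) :
    ∑ x ∈ JW D Y₀ Y₁, hh (Real.log (nm (x.2 * x.1 ^ 2)) - k) *
        (‖om x‖ ^ 2 * ((nm x.2 : ℝ) ^ (-(1 : ℝ) / 3) * ‖Tal α x.1 f x.2‖ ^ 2)) ≤
      Real.exp 1 ^ (1 / 3 : ℝ) * ((Real.exp k) ^ (-(1 / 3) : ℝ) *
        ∑ d ∈ (JW D Y₀ Y₁).image Prod.fst, (nm f : ℝ)⁻¹ *
          TN (fun d _ m => α (d * m)) (fun e => nm e) {d} {f}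
            (fun _ => 1) {1} (JVc (Real.exp 1) (Real.exp k)) id) := by
  have hJ := okJ_JW D Y₀ Y₁
  have hfn : (0 : ℝ) < nm f := nmpos hf
  set J := JW D Y₀ Y₁ with hJd
  set g : Eis × Eis → ℝ := fun x => (nm x.1 : ℝ) ^ (2 / 3 : ℝ) * ‖Tal α x.1 f x.2‖ ^ 2 with hg
  have hg0 : ∀ x, 0 ≤ g x := fun x => by rw [hg]; positivity
  set c0 : ℝ := Real.exp 1 ^ (1 / 3 : ℝ) * (Real.exp k) ^ (-(1 / 3) : ℝ) with hc0
  have hc00 : 0 ≤ c0 := by rw [hc0]; positivity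
  set P : Finset (Eis × Eis) := ((J.image Prod.fst) ×ˢ (ball ⌊Real.exp 1 * Real.exp k⌋₊)).filter
    fun x => x.2 ∈ JVc (Real.exp 1) (Real.exp k) x.1 1 with hP
  -- the right side
  have e1 : ∑ d ∈ J.image Prod.fst, (nm f : ℝ)⁻¹ *
      TN (fun d _ m => α (d * m)) (fun e => nm e) {d} {f}
        (fun _ => 1) {1} (JVc (Real.exp 1) (Real.exp k)) id = ∑ x ∈ P, g x := by
    rw [hP, sum_filter, sum_product]
    unfold E3Z548.TN
    refine sum_congr rfl fun d _ => ?_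
    have e2 : ∑ j ∈ ball ⌊Real.exp 1 * Real.exp k⌋₊,
        (if j ∈ JVc (Real.exp 1) (Real.exp k) d 1 then g (d, j) else 0) =
        ∑ j ∈ JVc (Real.exp 1) (Real.exp k) d 1, g (d, j) := by
      rw [← sum_filter]
      refine sum_congr ?_ fun _ _ => rfl
      ext j
      rw [mem_filter]
      refine ⟨fun h => h.2, fun h => ⟨?_, h⟩⟩
      unfold E3Z548.JVc E3Z548.JV at h
      exact (mem_filter.mp (mem_filter.mp h).1).1
    rw [e2, hg]
    simp only [sum_singleton, one_mul, id]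
    rw [← mul_sum]
    have e3 : ∑ j ∈ JVc (Real.exp 1) (Real.exp k) d 1, ‖Tal α d f j‖ ^ 2 =
        ∑ j ∈ JVc (Real.exp 1) (Real.exp k) d 1,
          ‖TE0 (cg 1 (fun m => α (d * m))) d j f‖ ^ 2 :=
      sum_congr rfl fun j _ => by rw [E3Kf548.Tal_TE0]
    rw [e3]
    field_simp
  rw [e1, show Real.exp 1 ^ (1 / 3 : ℝ) * ((Real.exp k) ^ (-(1 / 3) : ℝ) *
    ∑ x ∈ P, g x) = ∑ x ∈ P, c0 * g x by rw [hc0, ← mul_sum]; ring]
  -- the left side
  have hle : ∀ x ∈ J, hh (Real.log (nm (x.2 * x.1 ^ 2)) - k) ≠ 0 → x ∈ P ∧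
      hh (Real.log (nm (x.2 * x.1 ^ 2)) - k) *
        (‖om x‖ ^ 2 * ((nm x.2 : ℝ) ^ (-(1 : ℝ) / 3) * ‖Tal α x.1 f x.2‖ ^ 2)) ≤ c0 * g x := by
    intro x hx hne
    have hd := hJ.prim x hx
    have hjc := hJ.jc x hx
    have hj0 : x.2 ≠ 0 := (CF_of_JC hjc).1
    have hn0 : (0 : ℝ) < nm (x.2 * x.1 ^ 2) :=
      nmpos (mul_ne_zero hj0 (pow_ne_zero _ hd.ne_zero))
    obtain ⟨h3, h4⟩ := abs_lt.mp (abs_lt_of_hh hne)
    have hup : (nm (x.2 * x.1 ^ 2) : ℝ) ≤ Real.exp 1 * Real.exp k := by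
      rw [← Real.exp_add, ← Real.log_le_iff_le_exp hn0]
      linarith
    have hlo : Real.exp k / Real.exp 1 ≤ nm (x.2 * x.1 ^ 2) := by
      rw [← Real.exp_sub, ← Real.le_log_iff_exp_le hn0]
      linarith
    have hnm : (nm (x.2 * x.1 ^ 2) : ℝ) = nm x.2 * (nm x.1 : ℝ) ^ 2 := by
      rw [nm_mul, nm_pow]; push_cast; ring
    have hdp : (0 : ℝ) < nm x.1 := nmpos hd.ne_zero
    have hjp : (0 : ℝ) < nm x.2 := nmpos hj0
    have hmem : x.2 ∈ JV (Real.exp 1) (Real.exp k) x.1 1 := by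
      rw [mem_JV hd.ne_zero one_ne_zero]
      refine ⟨hj0, ?_⟩
      rw [nm_one, Nat.cast_one, one_pow, mul_one, ← hnm]
      exact hup
    have hmem' : x.2 ∈ JVc (Real.exp 1) (Real.exp k) x.1 1 := mem_filter.2 ⟨hmem, hjc⟩
    refine ⟨?_, ?_⟩
    · rw [hP, mem_filter, mem_product]
      refine ⟨⟨mem_image_of_mem _ hx, ?_⟩, hmem'⟩
      unfold E3Z548.JV at hmem
      exact (mem_filter.mp hmem).1
    · have n2 : ‖om x‖ ^ 2 ≤ 1 := pow_le_one₀ (norm_nonneg _) (hom x hx)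
      have m2 : (nm x.2 : ℝ) ^ (-(1 : ℝ) / 3) ≤ Real.exp 1 ^ (1 / 3 : ℝ) *
          (Real.exp k) ^ (-(1 / 3) : ℝ) * (nm x.1 : ℝ) ^ (2 / 3 : ℝ) := by
        have r1 : (nm x.2 : ℝ) = nm (x.2 * x.1 ^ 2) * ((nm x.1 : ℝ) ^ 2)⁻¹ := by
          rw [hnm]; field_simp
        have r2 : (nm x.2 : ℝ) ^ (-(1 : ℝ) / 3) =
            (nm (x.2 * x.1 ^ 2) : ℝ) ^ (-(1 : ℝ) / 3) * (nm x.1 : ℝ) ^ (2 / 3 : ℝ) := by
          rw [r1, Real.mul_rpow hn0.le (by positivity), Real.inv_rpow (by positivity),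
            ← Real.rpow_neg (by positivity), ← Real.rpow_natCast, ← Real.rpow_mul hdp.le]
          congr 2
          push_cast
          ring
        rw [r2]
        refine mul_le_mul_of_nonneg_right ?_ (by positivity)
        have r3 : (nm (x.2 * x.1 ^ 2) : ℝ) ^ (-(1 : ℝ) / 3) ≤
            (Real.exp k / Real.exp 1) ^ (-(1 : ℝ) / 3) :=
          Real.rpow_le_rpow_of_nonpos (by positivity) hlo (by norm_num)
        refine r3.trans (le_of_eq ?_)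
        rw [Real.div_rpow (Real.exp_pos _).le (Real.exp_pos _).le, div_eq_mul_inv,
          ← Real.rpow_neg (Real.exp_pos _).le, mul_comm]
        norm_num
      have hh1 := hh_le_one (Real.log (nm (x.2 * x.1 ^ 2)) - k)
      calc hh (Real.log (nm (x.2 * x.1 ^ 2)) - k) *
            (‖om x‖ ^ 2 * ((nm x.2 : ℝ) ^ (-(1 : ℝ) / 3) * ‖Tal α x.1 f x.2‖ ^ 2)) ≤
          1 * (1 * ((Real.exp 1 ^ (1 / 3 : ℝ) *
            (Real.exp k) ^ (-(1 / 3) : ℝ) * (nm x.1 : ℝ) ^ (2 / 3 : ℝ)) *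
              ‖Tal α x.1 f x.2‖ ^ 2)) := by
            have a1 : (nm x.2 : ℝ) ^ (-(1 : ℝ) / 3) * ‖Tal α x.1 f x.2‖ ^ 2 ≤
              (Real.exp 1 ^ (1 / 3 : ℝ) * (Real.exp k) ^ (-(1 / 3) : ℝ) *
                (nm x.1 : ℝ) ^ (2 / 3 : ℝ)) * ‖Tal α x.1 f x.2‖ ^ 2 :=
              mul_le_mul_of_nonneg_right m2 (by positivity)
            have a0 : 0 ≤ (nm x.2 : ℝ) ^ (-(1 : ℝ) / 3) * ‖Tal α x.1 f x.2‖ ^ 2 := by positivity
            exact mul_le_mul hh1 (mul_le_mul n2 a1 a0 zero_le_one) (by positivity) zero_le_one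
        _ = c0 * g x := by rw [hc0, hg]; ring
  calc ∑ x ∈ J, hh (Real.log (nm (x.2 * x.1 ^ 2)) - k) *
        (‖om x‖ ^ 2 * ((nm x.2 : ℝ) ^ (-(1 : ℝ) / 3) * ‖Tal α x.1 f x.2‖ ^ 2)) =
      ∑ x ∈ J.filter (fun x => hh (Real.log (nm (x.2 * x.1 ^ 2)) - k) ≠ 0),
        hh (Real.log (nm (x.2 * x.1 ^ 2)) - k) *
        (‖om x‖ ^ 2 * ((nm x.2 : ℝ) ^ (-(1 : ℝ) / 3) * ‖Tal α x.1 f x.2‖ ^ 2)) := by
        refine (sum_filter_of_ne fun x _ h => ?_).symm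
        intro h2
        exact h (by rw [h2, zero_mul])
    _ ≤ ∑ x ∈ J.filter (fun x => hh (Real.log (nm (x.2 * x.1 ^ 2)) - k) ≠ 0), c0 * g x :=
        sum_le_sum fun x hx => (hle x (mem_filter.mp hx).1 (mem_filter.mp hx).2).2
    _ ≤ ∑ x ∈ P, c0 * g x := sum_le_sum_of_subset_of_nonneg
        (fun x hx => (hle x (mem_filter.mp hx).1 (mem_filter.mp hx).2).1)
        fun x _ _ => mul_nonneg hc00 (hg0 x)

/-- **the diagonal by its levels** -/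
lemma XE_sum {D Y₀ Y₁ : ℝ} {om : Eis × Eis → ℂ} {α : Eis → ℂ}
    (hom : ∀ x ∈ JW D Y₀ Y₁, ‖om x‖ ≤ 1) {f : Eis} (hf : f ≠ 0) :
    XE (JW D Y₀ Y₁) om (Tal α) f ≤ Real.exp 1 ^ (1 / 3 : ℝ) * ∑ i ∈ LI Y₀ Y₁,
      ((Real.exp i) ^ (-(1 / 3) : ℝ) * ∑ d ∈ (JW D Y₀ Y₁).image Prod.fst, (nm f : ℝ)⁻¹ *
          TN (fun d _ m => α (d * m)) (fun e => nm e) {d} {f}
            (fun _ => 1) {1} (JVc (Real.exp 1) (Real.exp i)) id) := by
  have e1 : XE (JW D Y₀ Y₁) om (Tal α) f = ∑ i ∈ LI Y₀ Y₁, ∑ x ∈ JW D Y₀ Y₁,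
      hh (Real.log (nm (x.2 * x.1 ^ 2)) - i) *
        (‖om x‖ ^ 2 * ((nm x.2 : ℝ) ^ (-(1 : ℝ) / 3) * ‖Tal α x.1 f x.2‖ ^ 2)) := by
    unfold E3F548.XE
    rw [sum_comm]
    refine sum_congr rfl fun x hx => ?_
    rw [← sum_mul, E3Kf548.sum_hh hx, one_mul]
  rw [e1, mul_sum]
  exact sum_le_sum fun i _ => XE_level hom i hf

end Crest.Agent.R017.ET490
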