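import Crest.Agent.R017.ET4b_90

/-!
# Row 17, R8 (E3): the class form of one sequence at a fixed cube (helper90), part 2

* `LnE`       : the real lines with the cut slot `E1 = exp e` (`e = 0` : `LnT`)
* **`t_sum`** : the `T`- and `R`-part of all levels
* **`x_sum`** : the diagonal of all levels
* **`gram_ab`** : helper548's `ET4aQ` with joint numbers and real lines
-/

set_option autoImplicit false

noncomputable section

open Finset MeasureTheory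
open scoped ComplexConjugate Classical ContDiff

namespace Crest.Agent.R017.ET490

open Crest.Agent.R012 Crest.Agent.R012.Eis Crest.Agent.R012.MC
open Crest.Agent.R012.LS2 (S mem_S bl)
open Crest.Agent.R017.CM106 (CS FS TG)
open Crest.Agent.R017.C70
open Crest.Agent.R017.HB645 (hh hh_nonneg hh_le_one abs_lt_of_hh)
open Crest.Agent.R017.E1551 hiding tau Dg
open Crest.Agent.R017.E3D579 (TE0)
open Crest.Agent.R017.E3T829 (cg)
open Crest.Agent.R017.E3M829 (Tal)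
open Crest.Agent.R017.E3F548 (XE XE_nonneg)
open Crest.Agent.R017.E3Kc548 (LI mem_LI card_LI)
open Crest.Agent.R017.E3Z548 (TN TN_nonneg JV JVc mem_JV FH FH_nonneg LVn)
open Crest.Agent.R017.E3N146 (cLS cTT LVn_le CF_of_JC)
open Crest.Agent.R017.TNj90
open Crest.Agent.R017.E3Hf290 (RN2F RN2F_nonneg)
open Crest.Agent.R017.E2440 (TE StE StT)
open Crest.Agent.R017.Mode405 (Slp)
open Crest.Agent.R017.PX764 (n6)
open Crest.Agent.R017.R3571 (RMm)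
open Crest.Agent.R012.Weight600 (pw)

/-! ### the real lines with a cut slot -/

/-- the cube-free lines and the diagonal with the slot `E1 = exp e` -/
def lw0e (k v h e : ℝ) : ℝ := max (2 / 3 * k - v / 3) (max (2 / 3 * k - (h + v) / 3) (2 / 3 * v + e))

/-- the real lines with the slot `E1 = exp e` -/
structure LnE (Sh : ℝ → ℝ → ℝ → ℝ) (k v h p E δ t e G : ℝ) : Prop where
  c0 : ∀ b l : ℝ, 0 ≤ b → 0 ≤ l → l ≤ v - 2 * δ + t →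
    lw0e k v h e + Sh δ b l + 2 * δ - max 0 (b - E) - p / 3 ≤ G
  c1 : ∀ b l : ℝ, 0 ≤ b → 0 ≤ l → l ≤ v - 2 * δ + t →
    lw1 k v h + Sh δ b l + 2 * δ - max 0 (b - E) + (v - 2 * δ - l) / 3 - p / 3 ≤ G

lemma LnT.e {Sh : ℝ → ℝ → ℝ → ℝ} {k v h p E δ t G : ℝ} (hl : LnT Sh k v h p E δ t G) :
    LnE Sh k v h p E δ t 0 G where
  c0 := fun b l h1 h2 h3 => by
    have := hl.c0 b l h1 h2 h3
    unfold lw0 at this
    unfold lw0e
    rwa [add_zero]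
  c1 := hl.c1

lemma lw0e_lip {k v h h' e : ℝ} : lw0e k v h e ≤ lw0e k v h' e + 1 / 3 * |h - h'| := by
  unfold lw0e
  have h0 := abs_nonneg (h - h')
  have h1 := neg_abs_le (h - h')
  have e1 := le_max_left (2 / 3 * k - v / 3) (max (2 / 3 * k - (h' + v) / 3) (2 / 3 * v + e))
  have e2 := (le_max_left (2 / 3 * k - (h' + v) / 3) (2 / 3 * v + e)).trans
    (le_max_right (2 / 3 * k - v / 3) _)
  have e3 := (le_max_right (2 / 3 * k - (h' + v) / 3) (2 / 3 * v + e)).trans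
    (le_max_right (2 / 3 * k - v / 3) _)
  refine max_le ?_ (max_le ?_ ?_) <;> linarith

/-- the coefficient of the cube-free lines with the slot -/
lemma FH_cLSe {k h v e : ℝ} (hk : 3 * e ≤ k) :
    FH (Real.exp k) (Real.exp h) (Real.exp v) *
      cLS (Real.exp k) (Real.exp h) (Real.exp v) (Real.exp v) (Real.exp e) 1 1 ≤
        3 * Real.exp (lw0e k v h e) := by
  unfold E3N146.cLS
  rw [FH_exp, div_self (Real.exp_pos v).ne', mul_one, one_pow, mul_one, mul_one, mul_one]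
  have e0 : Real.exp h * Real.exp v ^ 2 * Real.exp v * Real.exp e ^ 3 / Real.exp k ^ 2 =
      Real.exp (h + 3 * v + 3 * e - 2 * k) := by
    rw [← Real.exp_nat_mul, ← Real.exp_nat_mul, ← Real.exp_nat_mul, ← Real.exp_add,
      ← Real.exp_add, ← Real.exp_add, ← Real.exp_sub]
    congr 1
    push_cast
    ring
  have e1 : Real.exp v / Real.exp k = Real.exp (v - k) := by rw [Real.exp_sub]
  have e2 : Real.exp e ^ 2 = Real.exp (2 * e) := by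
    rw [← Real.exp_nat_mul]; norm_num
  rw [e0, e1, e2, ← Real.exp_mul, ← Real.exp_mul]
  have e4 : Real.exp (2 / 3 * k - (h + v) / 3) * (1 + Real.exp (h * (1 / 3)) *
      Real.exp (v - k) * Real.exp (2 * e) + Real.exp ((h + 3 * v + 3 * e - 2 * k) * (1 / 3))) =
      Real.exp (2 / 3 * k - (h + v) / 3) + Real.exp (2 / 3 * v - k / 3 + 2 * e) +
        Real.exp (2 / 3 * v + e) := by
    have a1 : Real.exp (2 / 3 * v - k / 3 + 2 * e) = Real.exp (2 / 3 * k - (h + v) / 3) *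
        (Real.exp (h * (1 / 3)) * Real.exp (v - k) * Real.exp (2 * e)) := by
      rw [← Real.exp_add, ← Real.exp_add, ← Real.exp_add]; congr 1; ring
    have a2 : Real.exp (2 / 3 * v + e) = Real.exp (2 / 3 * k - (h + v) / 3) *
        Real.exp ((h + 3 * v + 3 * e - 2 * k) * (1 / 3)) := by
      rw [← Real.exp_add]; congr 1; ring
    rw [a1, a2]
    ring
  rw [e4]
  have q := (le_max_right (2 / 3 * k - (h + v) / 3) (2 / 3 * v + e)).trans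
    (le_max_right (2 / 3 * k - v / 3) _)
  refine exp3 _ _ _ _ ?_ ?_ ?_
  · exact (le_max_left _ _).trans (le_max_right _ _)
  · refine le_trans ?_ q
    linarith
  · exact q

/-- **one level** : the `T`-part with the slot -/
theorem te_lines {R : ℝ} (hR : 0 ≤ R) {ε J B₂ : ℝ} (hε : 0 < ε) (hJ : 0 ≤ J) (hB₂ : 0 < B₂)
    {Lh : ℝ} (hLh : 0 ≤ Lh) (c : ℝ) (hc : 1 ≤ c) :
    ∃ C : ℝ, 0 ≤ C ∧ ∀ X : ℝ, 3 ≤ X → ∀ (p Y v k e E0 F G : ℝ) (Sh : ℝ → ℝ → ℝ → ℝ),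
      1 ≤ Y → Y ≤ X ^ B₂ → Real.exp 1 * c * Real.exp v ≤ X ^ B₂ → 0 < E0 → E0 ≤ X ^ B₂ →
      0 ≤ F → 3 * e ≤ k → ∀ al : Eis → ℂ, JBc Y (Real.exp 1 * c * Real.exp v) F J Sh al →
      Adm Y (Real.exp p) R al → ∀ (Ds EE : Finset Eis) (hf : ℝ → ℝ) (Yg : ℝ)
        (RN : Eis → Eis → ℝ),
      (∀ x y, hf x ≤ hf y + Lh * |x - y|) →
      (∀ d ∈ Ds, IsPrim d ∧ (nm d : ℝ) ≤ X ^ B₂) → (∀ e ∈ EE, e ∈ S E0) →
      (∀ d ∈ Ds, LnE Sh k v (hf (Real.log (nm d))) p (Real.log E0) (Real.log (nm d))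
        (Real.log c + 1) e G) →
      ∑ d ∈ Ds, ∑ f ∈ EE, (nm f : ℝ)⁻¹ * LVn (fun d _ n => al (d * n)) {d} {f} c Yg
          (Real.exp k) (Real.exp (hf (Real.log (nm d)))) (Real.exp v) (Real.exp v)
          (Real.exp e) 1 1 (RN d f) ≤
        C * X ^ ε * F * Real.exp G + ∑ d ∈ Ds, ∑ f ∈ EE, (nm f : ℝ)⁻¹ *
          (FH (Real.exp k) (Real.exp (hf (Real.log (nm d)))) (Real.exp v) * RN d f) := by
  obtain ⟨C₁, hC₁, H₁⟩ := LVTj hR hε hJ hB₂ (Lφ := 2 / 3 * Lh) (by positivity)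
  set t := Real.log c + 1 with ht
  have hlc : 0 ≤ Real.log c := Real.log_nonneg hc
  have hc0 : 0 < c := by linarith
  refine ⟨C₁ * Real.exp (Real.log 3 + t / 3), by positivity, ?_⟩
  intro X hX p Y v k e E0 F G Sh hY1 hYu hWX hE0 hE0X hF hk al hjb hadm Ds EE hf Yg RN hlip hDs
    hEE hln
  have hX0 : 0 < X := by linarith
  have hlW : Real.log (Real.exp 1 * c * Real.exp v) = v + t := by
    rw [Real.log_mul (by positivity) (Real.exp_pos _).ne', Real.log_mul (Real.exp_pos _).ne' hc0.ne',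
      Real.log_exp, Real.log_exp]
    rw [ht]; ring
  have he3 : Real.exp (Real.log 3) = 3 := Real.exp_log (by norm_num)
  have hcc : c ≤ Real.exp 1 * c := le_mul_of_one_le_left hc0.le (Real.one_le_exp zero_le_one)
  have hpG : Real.exp (-(p / 3)) * Real.exp (G + p / 3 + Real.log 3 + t / 3) =
      Real.exp (Real.log 3 + t / 3) * Real.exp G := by
    rw [← Real.exp_add, ← Real.exp_add]; congr 1; ring
  have h13 : 0 ≤ Real.log 3 := Real.log_nonneg (by norm_num)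
  have k1 := H₁ X hX p Y c (Real.exp 1 * c) (Real.exp v) E0 F Sh hY1 hYu (Real.exp_pos v) hcc hWX
      hE0 hE0X hF al hjb hadm Ds EE (G + p / 3 + Real.log 3 + t / 3)
      (fun δ => Real.log 3 + lw0e k v (hf δ) e) (fun δ => Real.log 3 + lw1 k v (hf δ))
      (fun d _ n => al (d * n)) (fun d _ => Real.exp (hf (Real.log (nm d)))) RN Yg (Real.exp k)
      (Real.exp v) (Real.exp e) 1 1 (fun x y => by
        have h1 := lw0e_lip (k := k) (v := v) (h := hf x) (h' := hf y) (e := e)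
        have h2 : |hf x - hf y| ≤ Lh * |x - y| := abs_le.2 ⟨by
          have := hlip y x
          rw [abs_sub_comm] at this
          linarith, by linarith [hlip x y]⟩
        have h3 : 0 ≤ Lh * |x - y| := by positivity
        show Real.log 3 + lw0e k v (hf x) e ≤ Real.log 3 + lw0e k v (hf y) e +
          2 / 3 * Lh * |x - y|
        linarith) (fun x y => by
        have h1 := lw1_lip (k := k) (v := v) (h := hf x) (h' := hf y)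
        have h2 : |hf x - hf y| ≤ Lh * |x - y| := abs_le.2 ⟨by
          have := hlip y x
          rw [abs_sub_comm] at this
          linarith, by linarith [hlip x y]⟩
        show Real.log 3 + lw1 k v (hf x) ≤ Real.log 3 + lw1 k v (hf y) + 2 / 3 * Lh * |x - y|
        linarith) hDs hEE (fun _ _ _ _ => rfl) (Real.exp_pos k) (fun _ _ => Real.exp_pos _)
      (fun d _ e _ => by
        unfold E3N146.cLS
        positivity) (fun d _ f _ => by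
        refine (FH_cLSe hk).trans (le_of_eq ?_)
        rw [Real.exp_add, he3]) (fun d _ f _ => by
        refine (FH_cTT _ _ _).trans (le_of_eq ?_)
        rw [Real.exp_add, he3]) (fun d hd b l hb hl hlv => by
        rw [hlW] at hlv
        have := (hln d hd).c0 b l hb hl (by linarith)
        linarith) (fun d hd b l hb hl hlv => by
        rw [hlW] at hlv ⊢
        have := (hln d hd).c1 b l hb hl (by linarith)
        linarith)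
  refine k1.trans (add_le_add ?_ le_rfl)
  calc C₁ * X ^ ε * F * Real.exp (-(p / 3)) * Real.exp (G + p / 3 + Real.log 3 + t / 3) =
      C₁ * X ^ ε * F * (Real.exp (-(p / 3)) * Real.exp (G + p / 3 + Real.log 3 + t / 3)) := by
        ring
    _ = _ := by rw [hpG]; ring
    _ ≤ _ := le_rfl

/-! ### the pairs of a level window -/

lemma JW_fst {D Y₀ Y₁ : ℝ} {d : Eis} (hd : d ∈ (JW D Y₀ Y₁).image Prod.fst) :
    IsPrim d ∧ Squarefree d ∧ (1 : ℝ) ≤ nm d ∧ (nm d : ℝ) ^ 2 ≤ Y₁ := by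
  obtain ⟨x, hx, rfl⟩ := mem_image.mp hd
  have hJ := okJ_JW D Y₀ Y₁
  have h1 := hJ.prim x hx
  have h2 := (CF_of_JC (hJ.jc x hx)).1
  have h3 : (1 : ℝ) ≤ nm x.2 := by exact_mod_cast nm_pos.mpr h2
  refine ⟨h1, hJ.sqf x hx, by exact_mod_cast nm_pos.mpr h1.ne_zero, ?_⟩
  unfold C70.JW at hx
  rw [mem_filter] at hx
  have h4 : (nm (x.2 * x.1 ^ 2) : ℝ) ≤ Y₁ := hx.2.2.2.2
  rw [nm_mul, nm_pow] at h4
  push_cast at h4
  exact (le_mul_of_one_le_left (by positivity) h3).trans h4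

lemma log_pow2 {ε : ℝ} (hε : 0 < ε) : ∃ C : ℝ, 0 ≤ C ∧ ∀ Z : ℝ, 1 ≤ Z →
    (100 * (1 + Real.log Z)) * (100 * (1 + Real.log Z)) ≤ C * Z ^ ε := by
  refine ⟨(100 * (1 + 2 / ε)) * (100 * (1 + 2 / ε)), by positivity, fun Z hZ => ?_⟩
  have hZ0 : 0 < Z := by linarith
  have h1 : Real.log Z ≤ Z ^ (ε / 2) / (ε / 2) := Real.log_le_rpow_div hZ0.le (by positivity)
  have h2 : 1 ≤ Z ^ (ε / 2) := Real.one_le_rpow hZ (by positivity)
  have h3 : 0 ≤ Real.log Z := Real.log_nonneg hZ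
  have h4 : 100 * (1 + Real.log Z) ≤ 100 * (1 + 2 / ε) * Z ^ (ε / 2) := by
    have : Z ^ (ε / 2) / (ε / 2) = 2 / ε * Z ^ (ε / 2) := by field_simp
    rw [this] at h1
    nlinarith
  calc (100 * (1 + Real.log Z)) * (100 * (1 + Real.log Z)) ≤
      (100 * (1 + 2 / ε) * Z ^ (ε / 2)) * (100 * (1 + 2 / ε) * Z ^ (ε / 2)) :=
        mul_le_mul h4 h4 (by positivity) (by positivity)
    _ = _ := by
        have : Z ^ (ε / 2) * Z ^ (ε / 2) = Z ^ ε := by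
          rw [← Real.rpow_add hZ0]; congr 1; ring
        rw [← this]; ring

/-- the sum of the `R`-part -/
lemma r_sum {Z E0 MR : ℝ} (hZ : 1 ≤ Z) (hE : E0 ≤ Z) (hE0 : 0 ≤ E0) (hMR : 0 ≤ MR)
    {Ds EE : Finset Eis} (hDs : ∀ d ∈ Ds, d ∈ S Z) (hEE : ∀ f ∈ EE, f ∈ S E0)
    {w : Eis → Eis → ℝ} (hw : ∀ d ∈ Ds, ∀ f ∈ EE, w d f ≤ MR / (nm d * nm f)) :
    ∑ d ∈ Ds, ∑ f ∈ EE, (nm f : ℝ)⁻¹ * w d f ≤
      MR * ((100 * (1 + Real.log Z)) * (100 * (1 + Real.log Z))) := by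
  have hl : 0 ≤ Real.log Z := Real.log_nonneg hZ
  have hEE' : ∀ f ∈ EE, f ∈ S Z := fun f hf => by
    have := (mem_S hE0).mp (hEE f hf)
    exact (mem_S (by linarith)).mpr ⟨this.1.trans hE, this.2⟩
  have h1 : ∀ d ∈ Ds, ∀ f ∈ EE, (nm f : ℝ)⁻¹ * w d f ≤ MR * ((1 / (nm d : ℝ)) * (1 / (nm f : ℝ))) := by
    intro d hd f hf
    have f1 : (1 : ℝ) ≤ nm f := by
      exact_mod_cast nm_pos.mpr ((mem_S hE0).mp (hEE f hf)).2.1.ne_zero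
    have d1 : (1 : ℝ) ≤ nm d := by
      exact_mod_cast nm_pos.mpr ((mem_S (by linarith)).mp (hDs d hd)).2.1.ne_zero
    calc (nm f : ℝ)⁻¹ * w d f ≤ (nm f : ℝ)⁻¹ * (MR / (nm d * nm f)) :=
          mul_le_mul_of_nonneg_left (hw d hd f hf) (by positivity)
      _ ≤ 1 * (MR / (nm d * nm f)) :=
          mul_le_mul_of_nonneg_right (inv_le_one_of_one_le₀ f1) (by positivity)
      _ = _ := by rw [one_mul]; field_simp
  calc ∑ d ∈ Ds, ∑ f ∈ EE, (nm f : ℝ)⁻¹ * w d f ≤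
      ∑ d ∈ Ds, ∑ f ∈ EE, MR * ((1 / (nm d : ℝ)) * (1 / (nm f : ℝ))) :=
        sum_le_sum fun d hd => sum_le_sum fun f hf => h1 d hd f hf
    _ = MR * ((∑ d ∈ Ds, (1 / (nm d : ℝ))) * ∑ f ∈ EE, (1 / (nm f : ℝ))) := by
        rw [sum_mul_sum, mul_sum]
        exact sum_congr rfl fun d _ => by rw [mul_sum]
    _ ≤ _ := by
        refine mul_le_mul_of_nonneg_left (mul_le_mul ?_ ?_ (sum_nonneg fun _ _ => by positivity)
          (by positivity)) hMR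
        · exact (sum_le_sum_of_subset_of_nonneg (fun d hd => hDs d hd)
            fun _ _ _ => by positivity).trans (sum_inv_S551 hZ)
        · exact (sum_le_sum_of_subset_of_nonneg (fun f hf => hEE' f hf)
            fun _ _ _ => by positivity).trans (sum_inv_S551 hZ)

/-! ### all levels -/

/-- **the `T`- and the `R`-part of all levels** -/
theorem t_sum {R0 : ℝ} (hR0 : 0 ≤ R0) {ε J B₂ : ℝ} (hε : 0 < ε) (hJ : 0 ≤ J) (hB₂ : 1 ≤ B₂)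
    {Lh : ℝ} (hLh : 0 ≤ Lh) (c : ℝ) (hc : 1 ≤ c) :
    ∃ C : ℝ, 0 ≤ C ∧ ∀ Z : ℝ, 3 ≤ Z → ∀ (D Y₀ Y₁ Y k e p E0 F G MR Yg : ℝ) (Q : Eis → Prop)
      (al : Eis → ℂ) (hf : ℕ → ℝ → ℝ) (RN : ℕ → Eis → Eis → ℝ) (Sh : ℝ → ℝ → ℝ → ℝ),
      1 ≤ Y → Y ≤ Z ^ B₂ → 0 ≤ Y₁ → Y₁ ≤ Z → Real.exp 2 * c * Y₁ ≤ Z ^ B₂ → 0 < E0 → E0 ≤ Z →
      0 ≤ F → 0 ≤ MR → 3 * e ≤ k → JBc Y (Real.exp 2 * c * Y₁) F J Sh al →
      Adm Y (Real.exp p) R0 al →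
      (∀ i ∈ LI Y₀ Y₁, ∀ x y, hf i x ≤ hf i y + Lh * |x - y|) →
      (∀ i ∈ LI Y₀ Y₁, ∀ δ : ℝ, 0 ≤ δ → 2 * δ ≤ Real.log Y₁ →
        LnE Sh k i (hf i δ) p (Real.log E0) δ (Real.log c + 1) e G) →
      (∀ i ∈ LI Y₀ Y₁, ∀ d ∈ (JW D Y₀ Y₁).image Prod.fst, ∀ f ∈ (S E0).filter Q,
        FH (Real.exp k) (Real.exp (hf i (Real.log (nm d)))) (Real.exp i) * RN i d f ≤
          MR / (nm d * nm f)) →
      ∑ f ∈ (S E0).filter Q, ∑ i ∈ LI Y₀ Y₁, ∑ d ∈ (JW D Y₀ Y₁).image Prod.fst,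
        (nm f : ℝ)⁻¹ * LVn (fun d _ n => al (d * n)) {d} {f} c Yg (Real.exp k)
          (Real.exp (hf i (Real.log (nm d)))) (Real.exp i) (Real.exp i) (Real.exp e) 1 1
          (RN i d f) ≤ C * Z ^ ε * (F * Real.exp G + MR) := by
  obtain ⟨C₁, hC₁, H₁⟩ := te_lines hR0 (half_pos hε) hJ (by linarith : 0 < B₂) hLh c hc
  obtain ⟨C₂, hC₂, H₂⟩ := log_pow2 (half_pos hε)
  refine ⟨(2 + 1 / (ε / 2)) * (C₁ + C₂), by positivity, ?_⟩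
  intro Z hZ D Y₀ Y₁ Y k e p E0 F G MR Yg Q al hf RN Sh hY1 hYu hY10 hY1Z hWX hE0 hE0Z hF hMR hk
    hjb hadm hlip hln hrn
  have hZ0 : 0 < Z := by linarith
  have hc0 : 0 < c := by linarith
  have hZB : Z ≤ Z ^ B₂ := by
    have := Real.rpow_le_rpow_of_exponent_le (by linarith : (1 : ℝ) ≤ Z) hB₂
    rwa [Real.rpow_one] at this
  set Ds := (JW D Y₀ Y₁).image Prod.fst with hDsd
  have hDs : ∀ d ∈ Ds, IsPrim d ∧ (nm d : ℝ) ≤ Z ∧ 0 ≤ Real.log (nm d) ∧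
      2 * Real.log (nm d) ≤ Real.log Y₁ ∧ d ∈ S Z := by
    intro d hd
    obtain ⟨h1, h2, h3, h4⟩ := JW_fst hd
    have h5 : (nm d : ℝ) ≤ Z := by nlinarith
    refine ⟨h1, h5, Real.log_nonneg h3, ?_, (mem_S hZ0.le).mpr ⟨h5, h1, h2⟩⟩
    have := Real.log_le_log (by positivity) h4
    rw [Real.log_pow] at this
    exact_mod_cast this
  have hEE : ∀ f ∈ (S E0).filter Q, f ∈ S E0 := fun f hf => (mem_filter.mp hf).1
  have hlev : ∀ i ∈ LI Y₀ Y₁, ∑ d ∈ Ds, ∑ f ∈ (S E0).filter Q,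
      (nm f : ℝ)⁻¹ * LVn (fun d _ n => al (d * n)) {d} {f} c Yg (Real.exp k)
          (Real.exp (hf i (Real.log (nm d)))) (Real.exp i) (Real.exp i) (Real.exp e) 1 1
          (RN i d f) ≤ (C₁ + C₂) * Z ^ (ε / 2) * (F * Real.exp G + MR) := by
    intro i hi
    obtain ⟨-, -, hi3⟩ := mem_LI hi
    have hW : Real.exp 1 * c * Real.exp i ≤ Real.exp 2 * c * Y₁ := by
      have e2 : Real.exp 2 = Real.exp 1 * Real.exp 1 := by rw [← Real.exp_add]; norm_num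
      rw [e2]
      calc Real.exp 1 * c * Real.exp i ≤ Real.exp 1 * c * (Real.exp 1 * Y₁) := by gcongr
        _ = _ := by ring
    have k1 := H₁ Z hZ p Y i k e E0 F G Sh hY1 hYu (hW.trans hWX) hE0 (hE0Z.trans hZB) hF hk al
      (hjb.mono hW) hadm Ds ((S E0).filter Q) (hf i) Yg (RN i) (hlip i hi)
      (fun d hd => ⟨(hDs d hd).1, (hDs d hd).2.1.trans hZB⟩) hEE
      (fun d hd => hln i hi _ (hDs d hd).2.2.1 (hDs d hd).2.2.2.1)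
    have k2 := r_sum (by linarith : (1 : ℝ) ≤ Z) hE0Z hE0.le hMR
      (fun d hd => (hDs d hd).2.2.2.2) hEE (hrn i hi)
    have k3 := mul_le_mul_of_nonneg_left (H₂ Z (by linarith)) hMR
    refine k1.trans ((add_le_add le_rfl (k2.trans k3)).trans ?_)
    have a1 : 0 ≤ C₂ * Z ^ (ε / 2) * (F * Real.exp G) := by positivity
    have a2 : 0 ≤ C₁ * Z ^ (ε / 2) * MR := by positivity
    nlinarith
  have hcard := card_LI Y₀ (by linarith : (1 : ℝ) ≤ Z) hY10 hY1Z (half_pos hε)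
  have hsw : ∑ f ∈ (S E0).filter Q, ∑ i ∈ LI Y₀ Y₁, ∑ d ∈ Ds,
        (nm f : ℝ)⁻¹ * LVn (fun d _ n => al (d * n)) {d} {f} c Yg (Real.exp k)
          (Real.exp (hf i (Real.log (nm d)))) (Real.exp i) (Real.exp i) (Real.exp e) 1 1
          (RN i d f) = ∑ i ∈ LI Y₀ Y₁, ∑ d ∈ Ds, ∑ f ∈ (S E0).filter Q,
        (nm f : ℝ)⁻¹ * LVn (fun d _ n => al (d * n)) {d} {f} c Yg (Real.exp k)
          (Real.exp (hf i (Real.log (nm d)))) (Real.exp i) (Real.exp i) (Real.exp e) 1 1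
          (RN i d f) := by
    rw [sum_comm]
    exact sum_congr rfl fun i _ => sum_comm
  rw [hsw]
  have hFG : 0 ≤ F * Real.exp G + MR := by positivity
  calc _ ≤ ∑ i ∈ LI Y₀ Y₁, (C₁ + C₂) * Z ^ (ε / 2) * (F * Real.exp G + MR) :=
        sum_le_sum hlev
    _ = (LI Y₀ Y₁).card * ((C₁ + C₂) * Z ^ (ε / 2) * (F * Real.exp G + MR)) := by
        rw [sum_const, nsmul_eq_mul]
    _ ≤ ((2 + 1 / (ε / 2)) * Z ^ (ε / 2)) * ((C₁ + C₂) * Z ^ (ε / 2) * (F * Real.exp G + MR)) :=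
        mul_le_mul_of_nonneg_right hcard (by positivity)
    _ = _ := by
        have : Z ^ (ε / 2) * Z ^ (ε / 2) = Z ^ ε := by
          rw [← Real.rpow_add hZ0]; congr 1; ring
        rw [← this]; ring

/-- **the diagonal of all levels** -/
theorem x_sum {R0 : ℝ} (hR0 : 0 ≤ R0) {ε J B₂ : ℝ} (hε : 0 < ε) (hJ : 0 ≤ J) (hB₂ : 1 ≤ B₂)
    (c : ℝ) (hc : 1 ≤ c) :
    ∃ C : ℝ, 0 ≤ C ∧ ∀ Z : ℝ, 3 ≤ Z → ∀ (D Y₀ Y₁ Y k p E0 F G Qc : ℝ) (Q : Eis → Prop)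
      (om : Eis × Eis → ℂ) (al : Eis → ℂ) (cf : Eis → ℝ) (Sh : ℝ → ℝ → ℝ → ℝ),
      1 ≤ Y → Y ≤ Z ^ B₂ → 0 ≤ Y₁ → Y₁ ≤ Z → Real.exp 2 * c * Y₁ ≤ Z ^ B₂ → 0 < E0 → E0 ≤ Z →
      0 ≤ F → JBc Y (Real.exp 2 * c * Y₁) F J Sh al →
      Adm Y (Real.exp p) R0 al → (∀ x ∈ JW D Y₀ Y₁, ‖om x‖ ≤ 1) →
      (∀ i ∈ LI Y₀ Y₁, ∀ δ : ℝ, 0 ≤ δ → 2 * δ ≤ Real.log Y₁ → ∀ b l : ℝ, 0 ≤ b → 0 ≤ l →
        l ≤ i - 2 * δ + (Real.log c + 1) →
        2 / 3 * k - i / 3 + Sh δ b l + 2 * δ - max 0 (b - Real.log E0) - p / 3 ≤ G) →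
      (∀ f ∈ (S E0).filter Q, cf f ≤ Qc) →
      Real.exp k ^ (2 / 3 : ℝ) * ∑ f ∈ (S E0).filter Q,
        (cf f * XE (JW D Y₀ Y₁) om (Tal al) f) ≤ C * Z ^ ε * (max 0 Qc * (F * Real.exp G)) := by
  obtain ⟨C₂, hC₂, H₂⟩ := TNj1 hR0 (half_pos hε) hJ (by linarith : 0 < B₂) (Lφ := 0) le_rfl
  refine ⟨(2 + 1 / (ε / 2)) * (Real.exp 1 ^ (1 / 3 : ℝ) * C₂), by positivity, ?_⟩
  intro Z hZ D Y₀ Y₁ Y k p E0 F G Qc Q om al cf Sh hY1 hYu hY10 hY1Z hWX hE0 hE0Z hF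
    hjb hadm hom hln hcf
  have hZ0 : 0 < Z := by linarith
  have hc0 : 0 < c := by linarith
  have hZB : Z ≤ Z ^ B₂ := by
    have := Real.rpow_le_rpow_of_exponent_le (by linarith : (1 : ℝ) ≤ Z) hB₂
    rwa [Real.rpow_one] at this
  set Ds := (JW D Y₀ Y₁).image Prod.fst with hDsd
  have hDs : ∀ d ∈ Ds, IsPrim d ∧ (nm d : ℝ) ≤ Z ∧ 0 ≤ Real.log (nm d) ∧
      2 * Real.log (nm d) ≤ Real.log Y₁ := by
    intro d hd
    obtain ⟨h1, h2, h3, h4⟩ := JW_fst hd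
    have h5 : (nm d : ℝ) ≤ Z := by nlinarith
    refine ⟨h1, h5, Real.log_nonneg h3, ?_⟩
    have := Real.log_le_log (by positivity) h4
    rw [Real.log_pow] at this
    exact_mod_cast this
  have hEE : ∀ f ∈ (S E0).filter Q, f ∈ S E0 := fun f hf => (mem_filter.mp hf).1
  have hQ0 : 0 ≤ max 0 Qc := le_max_left _ _
  -- one level
  have hlev : ∀ i ∈ LI Y₀ Y₁, Real.exp k ^ (2 / 3 : ℝ) * (Real.exp i ^ (-(1 / 3) : ℝ) *
      ∑ d ∈ Ds, ∑ f ∈ (S E0).filter Q,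
        (nm f : ℝ)⁻¹ * TN (fun d _ n => al (d * n)) (fun e => (nm e : ℝ)) {d} {f} (fun _ => 1)
          {1} (JVc (Real.exp 1) (Real.exp i)) id) ≤ C₂ * Z ^ (ε / 2) * F * Real.exp G := by
    intro i hi
    obtain ⟨-, -, hi3⟩ := mem_LI hi
    have hec : Real.exp 1 ≤ Real.exp 1 * c := le_mul_of_one_le_right (Real.exp_pos _).le hc
    have hlW : Real.log (Real.exp 1 * c * Real.exp i) = i + (Real.log c + 1) := by
      rw [Real.log_mul (by positivity) (Real.exp_pos _).ne',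
        Real.log_mul (Real.exp_pos _).ne' hc0.ne', Real.log_exp, Real.log_exp]
      ring
    have hW : Real.exp 1 * c * Real.exp i ≤ Real.exp 2 * c * Y₁ := by
      have e2 : Real.exp 2 = Real.exp 1 * Real.exp 1 := by rw [← Real.exp_add]; norm_num
      rw [e2]
      calc Real.exp 1 * c * Real.exp i ≤ Real.exp 1 * c * (Real.exp 1 * Y₁) := by gcongr
        _ = _ := by ring
    have k2 := (H₂ Z hZ p Y (Real.exp 1 * c * Real.exp i) E0 F Sh hY1 hYu (hW.trans hWX) hE0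
      (hE0Z.trans hZB) hF al (hjb.mono hW) hadm
      Ds ((S E0).filter Q) (G + p / 3) (fun _ => 2 / 3 * k - i / 3)
      (fun _ _ => Real.exp (2 / 3 * k - i / 3)) (fun x y => by simp)
      (fun d hd => ⟨(hDs d hd).1, (hDs d hd).2.1.trans hZB⟩) hEE
      (fun _ _ _ _ => (Real.exp_pos _).le) (fun _ _ _ _ => le_rfl)).1 (fun d hd b l hb hl hlv => by
        rw [hlW] at hlv
        have := hln i hi _ (hDs d hd).2.2.1 (hDs d hd).2.2.2 b l hb hl (by linarith)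
        linarith) (fun _ => 1) (JVc (Real.exp 1) (Real.exp i)) id zero_le_one le_rfl
      (fun _ => zero_le_one) (fun d hd j hj => by
        obtain ⟨h1, h2⟩ := mem_filter.1 hj
        obtain ⟨h3, h4⟩ := (mem_JV (hDs d hd).1.ne_zero one_ne_zero).1 h1
        refine ⟨CF_of_JC h2, ?_⟩
        rw [nm_one, Nat.cast_one, one_pow, mul_one] at h4
        exact h4.trans (mul_le_mul_of_nonneg_right hec (Real.exp_pos _).le))
    have e1 : Real.exp k ^ (2 / 3 : ℝ) * (Real.exp i ^ (-(1 / 3) : ℝ) * ∑ d ∈ Ds,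
        ∑ e ∈ (S E0).filter Q,
        (nm e : ℝ)⁻¹ * TN (fun d _ n => al (d * n)) (fun e => (nm e : ℝ)) {d} {e} (fun _ => 1)
          {1} (JVc (Real.exp 1) (Real.exp i)) id) = ∑ d ∈ Ds, ∑ e ∈ (S E0).filter Q,
        (nm e : ℝ)⁻¹ *
        (Real.exp (2 / 3 * k - i / 3) * TN (fun d _ n => al (d * n)) (fun e => (nm e : ℝ)) {d} {e}
          (fun _ => 1) {1} (JVc (Real.exp 1) (Real.exp i)) id) := by
      have e2 : Real.exp (2 / 3 * k - i / 3) = Real.exp k ^ (2 / 3 : ℝ) *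
          Real.exp i ^ (-(1 / 3) : ℝ) := by
        rw [← Real.exp_mul, ← Real.exp_mul, ← Real.exp_add]; congr 1; ring
      rw [e2, ← mul_assoc, mul_sum]
      refine sum_congr rfl fun d _ => ?_
      rw [mul_sum]
      refine sum_congr rfl fun e _ => ?_
      ring
    rw [e1]
    refine k2.trans (le_of_eq ?_)
    have e3 : Real.exp (-(p / 3)) * Real.exp (G + p / 3) = Real.exp G := by
      rw [← Real.exp_add]; congr 1; ring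
    calc C₂ * Z ^ (ε / 2) * F * Real.exp (-(p / 3)) * Real.exp (G + p / 3) =
        C₂ * Z ^ (ε / 2) * F * (Real.exp (-(p / 3)) * Real.exp (G + p / 3)) := by ring
      _ = _ := by rw [e3]
  have hcard := card_LI Y₀ (by linarith : (1 : ℝ) ≤ Z) hY10 hY1Z (half_pos hε)
  -- all levels
  have hall : ∑ i ∈ LI Y₀ Y₁, Real.exp k ^ (2 / 3 : ℝ) * (Real.exp i ^ (-(1 / 3) : ℝ) *
      ∑ d ∈ Ds, ∑ f ∈ (S E0).filter Q,
        (nm f : ℝ)⁻¹ * TN (fun d _ n => al (d * n)) (fun e => (nm e : ℝ)) {d} {f} (fun _ => 1)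
          {1} (JVc (Real.exp 1) (Real.exp i)) id) ≤
      ((2 + 1 / (ε / 2)) * Z ^ (ε / 2)) * (C₂ * Z ^ (ε / 2) * F * Real.exp G) := by
    refine (sum_le_sum hlev).trans ?_
    rw [sum_const, nsmul_eq_mul]
    exact mul_le_mul_of_nonneg_right hcard (by positivity)
  have hXE : ∑ f ∈ (S E0).filter Q, (cf f * XE (JW D Y₀ Y₁) om (Tal al) f) ≤
      max 0 Qc * ∑ f ∈ (S E0).filter Q, (Real.exp 1 ^ (1 / 3 : ℝ) * ∑ i ∈ LI Y₀ Y₁,
        ((Real.exp i) ^ (-(1 / 3) : ℝ) * ∑ d ∈ Ds, (nm f : ℝ)⁻¹ *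
          TN (fun d _ m => al (d * m)) (fun e => (nm e : ℝ)) {d} {f}
            (fun _ => 1) {1} (JVc (Real.exp 1) (Real.exp i)) id)) := by
    rw [mul_sum]
    refine sum_le_sum fun f hf => ?_
    have hf0 := ((mem_S hE0.le).mp (hEE f hf)).2.1.ne_zero
    exact mul_le_mul ((hcf f hf).trans (le_max_right _ _)) (XE_sum hom hf0) (XE_nonneg _ _ _ _) hQ0
  have hsw : ∑ f ∈ (S E0).filter Q, (Real.exp 1 ^ (1 / 3 : ℝ) * ∑ i ∈ LI Y₀ Y₁,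
        ((Real.exp i) ^ (-(1 / 3) : ℝ) * ∑ d ∈ Ds, (nm f : ℝ)⁻¹ *
          TN (fun d _ m => al (d * m)) (fun e => (nm e : ℝ)) {d} {f}
            (fun _ => 1) {1} (JVc (Real.exp 1) (Real.exp i)) id)) =
      Real.exp 1 ^ (1 / 3 : ℝ) * ∑ i ∈ LI Y₀ Y₁, ((Real.exp i) ^ (-(1 / 3) : ℝ) *
        ∑ d ∈ Ds, ∑ f ∈ (S E0).filter Q, (nm f : ℝ)⁻¹ *
          TN (fun d _ m => al (d * m)) (fun e => (nm e : ℝ)) {d} {f}
            (fun _ => 1) {1} (JVc (Real.exp 1) (Real.exp i)) id) := by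
    rw [← mul_sum, sum_comm]
    congr 1
    refine sum_congr rfl fun i _ => ?_
    rw [← mul_sum, sum_comm]
  rw [hsw] at hXE
  have e5 : Real.exp k ^ (2 / 3 : ℝ) * (max 0 Qc * (Real.exp 1 ^ (1 / 3 : ℝ) *
      ∑ i ∈ LI Y₀ Y₁, ((Real.exp i) ^ (-(1 / 3) : ℝ) *
        ∑ d ∈ Ds, ∑ f ∈ (S E0).filter Q, (nm f : ℝ)⁻¹ *
          TN (fun d _ m => al (d * m)) (fun e => (nm e : ℝ)) {d} {f}
            (fun _ => 1) {1} (JVc (Real.exp 1) (Real.exp i)) id))) =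
      max 0 Qc * Real.exp 1 ^ (1 / 3 : ℝ) * ∑ i ∈ LI Y₀ Y₁, Real.exp k ^ (2 / 3 : ℝ) *
        (Real.exp i ^ (-(1 / 3) : ℝ) * ∑ d ∈ Ds, ∑ f ∈ (S E0).filter Q,
        (nm f : ℝ)⁻¹ * TN (fun d _ n => al (d * n)) (fun e => (nm e : ℝ)) {d} {f} (fun _ => 1)
          {1} (JVc (Real.exp 1) (Real.exp i)) id) := by
    rw [← mul_sum]
    ring
  refine (mul_le_mul_of_nonneg_left hXE (by positivity)).trans ?_
  rw [e5]
  refine (mul_le_mul_of_nonneg_left hall (by positivity)).trans (le_of_eq ?_)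
  have : Z ^ (ε / 2) * Z ^ (ε / 2) = Z ^ ε := by
    rw [← Real.rpow_add hZ0]; congr 1; ring
  rw [← this]; ring

/-! ### the gram form -/

lemma nm_gcd_le {f m : Eis} (hf : f ≠ 0) :
    (nm (EuclideanDomain.gcd f m) : ℝ) / nm f ≤ 1 := by
  have h1 : (0 : ℝ) < nm f := nmpos hf
  rw [div_le_one h1]
  obtain ⟨g, hg⟩ := EuclideanDomain.gcd_dvd_left f m
  have h2 : nm f = nm (EuclideanDomain.gcd f m) * nm g := by
    conv_lhs => rw [hg]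
    exact nm_mul _ _
  have h3 : g ≠ 0 := fun h => hf (by rw [hg, h, mul_zero])
  have h4 : 1 ≤ nm g := nm_pos.mpr h3
  have h5 : nm (EuclideanDomain.gcd f m) ≤ nm f := by
    rw [h2]; exact Nat.le_mul_of_pos_right _ h4
  exact_mod_cast h5

set_option maxHeartbeats 1000000 in
/-- **the gram form of one sequence at a fixed cube, range `Q` of `f`** -/
theorem gram_ab {ρ : ℝ} (hρ : 0 < ρ) (hρ1 : ρ ≤ 1) {R0 : ℝ} (hR0 : 0 ≤ R0) (a A₁ : ℕ)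
    (hA₁ : 1 < A₁) {ε J B₂ Lh : ℝ} (hε : 0 < ε) (hJ : 0 ≤ J) (hB₂ : 2 ≤ B₂) (hLh : 0 ≤ Lh) :
    ∃ (A : ℕ) (c C : ℝ), 1 ≤ c ∧ 1 ≤ C ∧
    ∀ (Om : ℝ → ℂ) (Mb : ℝ), 0 ≤ Mb → ContDiff ℝ ∞ Om →
      (∀ n ≤ A + 2, ∀ x, ‖iteratedDeriv n Om x‖ ≤ Mb) →
    ∀ (τ : ℝ) (κ : ℂ), ‖κ‖ ≤ 1 → ∀ (Z : ℝ), 3 ≤ Z → c * Real.exp 2 ≤ Z →
    ∀ (D Y₀ Y₁ : ℝ) (om : Eis × Eis → ℂ) (α : Eis → ℂ) (Q : Eis → Prop)
      (E0 R Y k p F G MR Qc : ℝ) (m : Eis) (KK : Finset Eis) (hf : ℕ → ℝ → ℝ)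
      (W0 : ℕ → Eis → Eis → ℝ → ℝ) (Sh : ℝ → ℝ → ℝ → ℝ),
      FS α → (∀ n, α n ≠ 0 → Squarefree n) → Adm Y (Real.exp p) R0 α → 1 ≤ Y → Y ≤ Z ^ B₂ →
      IsPrim m → (nm m : ℝ) ≤ Z → 0 ≤ D → 0 ≤ Y₁ → Y₁ ≤ Z →
      (∀ x ∈ JW D Y₀ Y₁, om x = κ * (Om (Real.log (nm (x.2 * x.1 ^ 2))) * pw τ (nm x.2))) →
      (∀ i ∈ LI Y₀ Y₁, ∀ n : ℕ, 0 < n → hh (Real.log n - i) ≠ 0 → Om (Real.log n) ≠ 0 →
        Y₀ < n ∧ (n : ℝ) ≤ Y₁) →
      (∀ x ∈ JW D Y₀ Y₁, ‖om x‖ ≤ 1) →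
      0 ≤ k → Real.exp k ≤ Z →
      (∀ u ∈ KK, IsPrim u ∧ CbF u ∧ ρ * Real.exp k ≤ nm u ∧ (nm u : ℝ) ≤ Real.exp k) →
      0 ≤ R → R ≤ Z → (∀ x ∈ JW D Y₀ Y₁, (nm x.2 : ℝ) ≤ R) → 1 ≤ E0 → E0 ≤ Z →
      Real.exp p ≤ Z ^ 5 →
      (∀ i ∈ LI Y₀ Y₁, ∀ δ : ℝ, 0 ≤ δ → Real.log c + hf i δ + 2 * i ≤ k + p) →
      (∀ i ∈ LI Y₀ Y₁, ∀ x y, hf i x ≤ hf i y + Lh * |x - y|) →
      (∀ i d f, Slp a (W0 i d f)) →
      (∀ i ∈ LI Y₀ Y₁, ∀ d ∈ (JW D Y₀ Y₁).image Prod.fst, ∀ f ∈ (S E0).filter Q, ∀ γ π,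
        IsPrim γ → IsPrim π → (nm π : ℝ) ≤ c * Z ^ 300 → ∀ P : ℝ, 0 < P →
        (nm γ : ℝ) * n6 γ ^ 2 * ∑ r ∈ bl P, RMm A₁ (fun n => α (d * n)) f γ π r ≤ W0 i d f P) →
      0 ≤ F → 0 ≤ MR → 1 ≤ Qc → (R / Real.exp k ^ 2) ^ (1 / 6 : ℝ) * E0 ^ (1 / 2 : ℝ) ≤ Qc →
      R / Real.exp k ≤ Qc →
      JBc Y (c * Real.exp 2 * Y₁) F J Sh α →
      (∀ i ∈ LI Y₀ Y₁, ∀ δ : ℝ, 0 ≤ δ → 2 * δ ≤ Real.log Y₁ →
        LnT Sh k i (hf i δ) p (Real.log E0) δ (Real.log c + 1) G) →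
      (∀ i ∈ LI Y₀ Y₁, ∀ d ∈ (JW D Y₀ Y₁).image Prod.fst, ∀ f ∈ (S E0).filter Q,
        FH (Real.exp k) (Real.exp (hf i (Real.log (nm d)))) (Real.exp i) *
          RN2F c (Real.exp k) (Real.exp i) (Real.exp p)
            (fun d _ => Real.exp (hf i (Real.log (nm d)))) (W0 i) d f ≤ MR / (nm d * nm f)) →
      ∑ u ∈ KK, ‖StT E0 (JW D Y₀ Y₁) om (fun x e => if Q e then TE α x e else 0) (m ^ 3 * u)‖ ^ 2 ≤
        C * (1 + Mb) ^ 2 * (1 + |τ|) ^ A * Qc * Z ^ ε * (F * Real.exp G + MR) := by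
  obtain ⟨ε₀, hε₀, hε₁, hε₂⟩ : ∃ ε₀ : ℝ, 0 < ε₀ ∧ ε₀ ≤ 1 ∧ ε₀ ≤ ε / 2 :=
    ⟨min 1 (ε / 2), by positivity, min_le_left _ _, min_le_right _ _⟩
  obtain ⟨A, c, C₀, hc, hC₀, H₀⟩ := ET4a548.ET4aQ hρ hρ1 hR0 a A₁ hA₁ hε₀ hε₁
  obtain ⟨C₁, hC₁, H₁⟩ := t_sum hR0 hε₀ hJ (by linarith : 1 ≤ B₂) hLh c hc
  obtain ⟨C₂, hC₂, H₂⟩ := x_sum hR0 hε₀ hJ (by linarith : 1 ≤ B₂) c hc
  refine ⟨A, c, C₀ * (1 + C₁ + 3 * C₂), hc, by nlinarith, ?_⟩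
  intro Om Mb hMb hOm hOb τ κ hκ Z hZ hcZ D Y₀ Y₁ om α Q E0 R Y k p F G MR Qc m KK hf W0 Sh hα hsq
    hadm hY1 hYu hm hmZ hD hY10 hY1Z homf hwn hom1 hk hkZ hKK hR hRZ hJ2 hE1 hE0Z hpZ hKX hlip
    hS hRH hF hMR hQ1 hQ2 hQ3 hjb hln hrn
  have hZ0 : 0 < Z := by linarith
  have hZ1 : 1 ≤ Z := by linarith
  have hc0 : 0 < c := by linarith
  have hE0 : 0 < E0 := by linarith
  have hexp2 : Real.exp 1 ≤ Real.exp 2 := Real.exp_le_exp.mpr (by norm_num)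
  have hZ2 : Z ^ (2 : ℝ) ≤ Z ^ B₂ := Real.rpow_le_rpow_of_exponent_le hZ1 hB₂
  have hWX : Real.exp 2 * c * Y₁ ≤ Z ^ B₂ := by
    refine le_trans ?_ hZ2
    rw [Real.rpow_two, sq]
    exact mul_le_mul (by linarith) hY1Z hY10 hZ0.le
  have hjb' : JBc Y (Real.exp 2 * c * Y₁) F J Sh α := by rwa [mul_comm (Real.exp 2) c]
  have hVZ : ∀ i ∈ LI Y₀ Y₁, c * Real.exp i ≤ Z ^ 5 := fun i hi => by
    obtain ⟨-, -, hi3⟩ := mem_LI hi
    have h1 : c * Real.exp i ≤ c * Real.exp 2 * Y₁ := by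
      calc c * Real.exp i ≤ c * (Real.exp 1 * Y₁) := by gcongr
        _ ≤ c * (Real.exp 2 * Y₁) := by gcongr
        _ = _ := by ring
    have h2 : c * Real.exp 2 * Y₁ ≤ Z ^ 2 := by
      rw [sq]; exact mul_le_mul hcZ hY1Z hY10 hZ0.le
    exact h1.trans (h2.trans (pow_le_pow_right₀ hZ1 (by norm_num)))
  have hwin : ∀ n, α n ≠ 0 → |Real.log (nm n) - Real.log (Real.exp p)| ≤ R0 := fun n hn =>
    (hadm.win n hn).trans (by linarith)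
  have k0 := H₀ Om Mb hMb hOm hOb τ κ hκ Z hZ1 D Y₀ Y₁ om α Q E0 R (Real.exp k) (Real.exp p) m KK
    (fun i d _ => Real.exp (hf i (Real.log (nm d)))) W0 hα hsq hwin hm hmZ hD hY10 homf hwn
    (Real.exp_pos k) hkZ hKK hR hRZ hE0.le hE0Z hY1Z (fun x hx => by
      obtain ⟨-, -, h3, h4⟩ := JW_fst (mem_image_of_mem Prod.fst hx)
      nlinarith) hJ2 (Real.exp_pos p) hpZ (fun _ _ _ => Real.exp_pos _) hVZ
    (fun i hi d hd f _ => by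
      have h1 : (1 : ℝ) ≤ nm d := by
        exact_mod_cast nm_pos.mpr ((mem_S (by positivity)).mp hd).2.1.ne_zero
      have h2 := hKX i hi _ (Real.log_nonneg h1)
      calc c * (Real.exp (hf i (Real.log (nm d))) * Real.exp i ^ 2) =
          Real.exp (Real.log c + hf i (Real.log (nm d)) + 2 * i) := by
            rw [Real.exp_add, Real.exp_add, Real.exp_log hc0, ← Real.exp_nat_mul]
            push_cast
            ring
        _ ≤ Real.exp (k + p) := Real.exp_le_exp.mpr h2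
        _ = _ := Real.exp_add _ _) hS hRH
  have k1 := H₁ Z hZ D Y₀ Y₁ Y k 0 p E0 F G MR (Z ^ 5) Q α hf
    (fun i d f => RN2F c (Real.exp k) (Real.exp i) (Real.exp p)
            (fun d _ => Real.exp (hf i (Real.log (nm d)))) (W0 i) d f) Sh hY1 hYu hY10 hY1Z hWX hE0
    hE0Z hF hMR (by linarith) hjb' hadm hlip (fun i hi δ h1 h2 => (hln i hi δ h1 h2).e) hrn
  rw [Real.exp_zero] at k1
  have k2 := H₂ Z hZ D Y₀ Y₁ Y k p E0 F G (3 * Qc) Q om α (fun f =>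
      (nm (EuclideanDomain.gcd f m) : ℝ) / nm f +
        (R / Real.exp k ^ 2) ^ (1 / 6 : ℝ) * (nm f : ℝ) ^ (1 / 2 : ℝ) + R / Real.exp k) Sh
    hY1 hYu hY10 hY1Z hWX hE0 hE0Z hF hjb' hadm hom1 (fun i hi δ h1 h2 b l h3 h4 h5 => by
      have h6 := (hln i hi δ h1 h2).c0 b l h3 h4 h5
      have h7 : 2 / 3 * k - (i : ℝ) / 3 ≤ lw0 k i (hf i δ) := le_max_left _ _
      linarith) (fun f hf => by
      obtain ⟨h1, h2⟩ := mem_filter.mp hf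
      obtain ⟨h3, h4, -⟩ := (mem_S hE0.le).mp h1
      have h5 := nm_gcd_le (m := m) h4.ne_zero
      have h6 : (nm f : ℝ) ^ (1 / 2 : ℝ) ≤ E0 ^ (1 / 2 : ℝ) :=
        Real.rpow_le_rpow (Nat.cast_nonneg _) h3 (by norm_num)
      have h7 := mul_le_mul_of_nonneg_left h6
        (by positivity : 0 ≤ (R / Real.exp k ^ 2) ^ (1 / 6 : ℝ))
      show (nm (EuclideanDomain.gcd f m) : ℝ) / nm f +
        (R / Real.exp k ^ 2) ^ (1 / 6 : ℝ) * (nm f : ℝ) ^ (1 / 2 : ℝ) + R / Real.exp k ≤ 3 * Qc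
      linarith)
  rw [max_eq_right (by linarith : (0 : ℝ) ≤ 3 * Qc)] at k2
  have hFG : 0 ≤ F * Real.exp G := by positivity
  have hτ1 : 1 ≤ (1 + |τ|) ^ A := one_le_pow₀ (by linarith [abs_nonneg τ])
  have hM1 : 1 ≤ (1 + Mb) ^ 2 := one_le_pow₀ (by linarith)
  have hM2 : Mb ^ 2 ≤ (1 + Mb) ^ 2 := pow_le_pow_left₀ hMb (by linarith) 2
  have hMt : 1 ≤ (1 + Mb) ^ 2 * (1 + |τ|) ^ A := one_le_mul_of_one_le_of_one_le hM1 hτ1
  obtain ⟨T, hT⟩ : ∃ T, T = (1 + Mb) ^ 2 * (1 + |τ|) ^ A := ⟨_, rfl⟩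
  have hT1 : 1 ≤ T := hT ▸ hMt
  have hT2 : Mb ^ 2 * (1 + |τ|) ^ A ≤ T := by
    rw [hT]; exact mul_le_mul_of_nonneg_right hM2 (by linarith)
  have hze : Z ^ ε₀ * Z ^ ε₀ ≤ Z ^ ε := by
    rw [← Real.rpow_add hZ0]
    exact Real.rpow_le_rpow_of_exponent_le hZ1 (by linarith)
  have hzp : 0 ≤ Z ^ ε₀ := by positivity
  refine k0.trans ?_
  have k3 : Mb ^ 2 * (1 + |τ|) ^ A * (∑ f ∈ (S E0).filter Q, ∑ i ∈ LI Y₀ Y₁,
      ∑ d ∈ (JW D Y₀ Y₁).image Prod.fst,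
        (nm f : ℝ)⁻¹ * LVn (fun d _ n => α (d * n)) {d} {f} c (Z ^ 5) (Real.exp k)
          (Real.exp (hf i (Real.log (nm d)))) (Real.exp i)
          (Real.exp i) 1 1 1 (RN2F c (Real.exp k) (Real.exp i) (Real.exp p)
            (fun d _ => Real.exp (hf i (Real.log (nm d)))) (W0 i) d f)) ≤
      T * (C₁ * Z ^ ε₀ * (F * Real.exp G + MR)) := by
    refine (mul_le_mul_of_nonneg_left k1 (by positivity)).trans ?_
    exact mul_le_mul_of_nonneg_right hT2 (by positivity)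
  refine (mul_le_mul_of_nonneg_left (add_le_add k2 k3) (by positivity)).trans ?_
  have f1 : C₂ * Z ^ ε₀ * (3 * Qc * (F * Real.exp G)) ≤
      T * Qc * (3 * C₂) * (Z ^ ε₀ * (F * Real.exp G + MR)) := by
    have a1 : C₂ * Z ^ ε₀ * (3 * Qc * (F * Real.exp G)) =
        1 * Qc * (3 * C₂) * (Z ^ ε₀ * (F * Real.exp G)) := by ring
    rw [a1]
    have a2 : Z ^ ε₀ * (F * Real.exp G) ≤ Z ^ ε₀ * (F * Real.exp G + MR) :=
      mul_le_mul_of_nonneg_left (by linarith) hzp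
    have a3 : 1 * Qc * (3 * C₂) ≤ T * Qc * (3 * C₂) :=
      mul_le_mul_of_nonneg_right (mul_le_mul_of_nonneg_right hT1 (by positivity)) (by positivity)
    exact mul_le_mul a3 a2 (by positivity) (by positivity)
  have f2 : T * (C₁ * Z ^ ε₀ * (F * Real.exp G + MR)) ≤
      T * Qc * C₁ * (Z ^ ε₀ * (F * Real.exp G + MR)) := by
    have a1 : T * (C₁ * Z ^ ε₀ * (F * Real.exp G + MR)) =
        T * 1 * C₁ * (Z ^ ε₀ * (F * Real.exp G + MR)) := by ring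
    rw [a1]
    have a3 : T * 1 * C₁ ≤ T * Qc * C₁ :=
      mul_le_mul_of_nonneg_right (mul_le_mul_of_nonneg_left hQ1 (by positivity)) hC₁
    exact mul_le_mul_of_nonneg_right a3 (by positivity)
  calc C₀ * Z ^ ε₀ * (C₂ * Z ^ ε₀ * (3 * Qc * (F * Real.exp G)) +
        T * (C₁ * Z ^ ε₀ * (F * Real.exp G + MR))) ≤
      C₀ * Z ^ ε₀ * (T * Qc * (3 * C₂) * (Z ^ ε₀ * (F * Real.exp G + MR)) +
        T * Qc * C₁ * (Z ^ ε₀ * (F * Real.exp G + MR))) :=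
        mul_le_mul_of_nonneg_left (add_le_add f1 f2) (by positivity)
    _ = C₀ * (C₁ + 3 * C₂) * (T * Qc) * ((Z ^ ε₀ * Z ^ ε₀) * (F * Real.exp G + MR)) := by ring
    _ ≤ C₀ * (1 + C₁ + 3 * C₂) * (T * Qc) * (Z ^ ε * (F * Real.exp G + MR)) := by
        refine mul_le_mul (mul_le_mul_of_nonneg_right (mul_le_mul_of_nonneg_left (by linarith)
          (by linarith)) (by positivity)) (mul_le_mul_of_nonneg_right hze (by positivity))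
          (by positivity) (by positivity)
    _ = _ := by rw [hT]; ring

/-- **the gram form of one sequence at a fixed cube** -/
theorem gram_all {ρ : ℝ} (hρ : 0 < ρ) (hρ1 : ρ ≤ 1) {R0 : ℝ} (hR0 : 0 ≤ R0) (a A₁ : ℕ)
    (hA₁ : 1 < A₁) {ε J B₂ Lh : ℝ} (hε : 0 < ε) (hJ : 0 ≤ J) (hB₂ : 2 ≤ B₂) (hLh : 0 ≤ Lh) :
    ∃ (A : ℕ) (c C : ℝ), 1 ≤ c ∧ 1 ≤ C ∧
    ∀ (Om : ℝ → ℂ) (Mb : ℝ), 0 ≤ Mb → ContDiff ℝ ∞ Om →
      (∀ n ≤ A + 2, ∀ x, ‖iteratedDeriv n Om x‖ ≤ Mb) →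
    ∀ (τ : ℝ) (κ : ℂ), ‖κ‖ ≤ 1 → ∀ (Z : ℝ), 3 ≤ Z → c * Real.exp 2 ≤ Z →
    ∀ (D Y₀ Y₁ : ℝ) (om : Eis × Eis → ℂ) (α : Eis → ℂ)
      (E0 R Y k p F G MR Qc : ℝ) (m : Eis) (KK : Finset Eis) (hf : ℕ → ℝ → ℝ)
      (W0 : ℕ → Eis → Eis → ℝ → ℝ) (Sh : ℝ → ℝ → ℝ → ℝ),
      FS α → (∀ n, α n ≠ 0 → Squarefree n) → Adm Y (Real.exp p) R0 α → 1 ≤ Y → Y ≤ Z ^ B₂ →
      IsPrim m → (nm m : ℝ) ≤ Z → 0 ≤ D → 0 ≤ Y₁ → Y₁ ≤ Z →
      (∀ x ∈ JW D Y₀ Y₁, om x = κ * (Om (Real.log (nm (x.2 * x.1 ^ 2))) * pw τ (nm x.2))) →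
      (∀ i ∈ LI Y₀ Y₁, ∀ n : ℕ, 0 < n → hh (Real.log n - i) ≠ 0 → Om (Real.log n) ≠ 0 →
        Y₀ < n ∧ (n : ℝ) ≤ Y₁) →
      (∀ x ∈ JW D Y₀ Y₁, ‖om x‖ ≤ 1) →
      0 ≤ k → Real.exp k ≤ Z →
      (∀ u ∈ KK, IsPrim u ∧ CbF u ∧ ρ * Real.exp k ≤ nm u ∧ (nm u : ℝ) ≤ Real.exp k) →
      0 ≤ R → R ≤ Z → (∀ x ∈ JW D Y₀ Y₁, (nm x.2 : ℝ) ≤ R) → 1 ≤ E0 → E0 ≤ Z →
      Real.exp p ≤ Z ^ 5 →
      (∀ i ∈ LI Y₀ Y₁, ∀ δ : ℝ, 0 ≤ δ → Real.log c + hf i δ + 2 * i ≤ k + p) →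
      (∀ i ∈ LI Y₀ Y₁, ∀ x y, hf i x ≤ hf i y + Lh * |x - y|) →
      (∀ i d f, Slp a (W0 i d f)) →
      (∀ i ∈ LI Y₀ Y₁, ∀ d ∈ (JW D Y₀ Y₁).image Prod.fst, ∀ f ∈ S E0, ∀ γ π,
        IsPrim γ → IsPrim π → (nm π : ℝ) ≤ c * Z ^ 300 → ∀ P : ℝ, 0 < P →
        (nm γ : ℝ) * n6 γ ^ 2 * ∑ r ∈ bl P, RMm A₁ (fun n => α (d * n)) f γ π r ≤ W0 i d f P) →
      0 ≤ F → 0 ≤ MR → 1 ≤ Qc → (R / Real.exp k ^ 2) ^ (1 / 6 : ℝ) * E0 ^ (1 / 2 : ℝ) ≤ Qc →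
      R / Real.exp k ≤ Qc →
      JBc Y (c * Real.exp 2 * Y₁) F J Sh α →
      (∀ i ∈ LI Y₀ Y₁, ∀ δ : ℝ, 0 ≤ δ → 2 * δ ≤ Real.log Y₁ →
        LnT Sh k i (hf i δ) p (Real.log E0) δ (Real.log c + 1) G) →
      (∀ i ∈ LI Y₀ Y₁, ∀ d ∈ (JW D Y₀ Y₁).image Prod.fst, ∀ f ∈ S E0,
        FH (Real.exp k) (Real.exp (hf i (Real.log (nm d)))) (Real.exp i) *
          RN2F c (Real.exp k) (Real.exp i) (Real.exp p)
            (fun d _ => Real.exp (hf i (Real.log (nm d)))) (W0 i) d f ≤ MR / (nm d * nm f)) →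
      ∑ u ∈ KK, ‖StE E0 (JW D Y₀ Y₁) om α (m ^ 3 * u)‖ ^ 2 ≤
        C * (1 + Mb) ^ 2 * (1 + |τ|) ^ A * Qc * Z ^ ε * (F * Real.exp G + MR) := by
  obtain ⟨A, c, C, hc, hC, H⟩ := gram_ab hρ hρ1 hR0 a A₁ hA₁ hε hJ hB₂ hLh
  refine ⟨A, c, C, hc, hC, ?_⟩
  intro Om Mb hMb hOm hOb τ κ hκ Z hZ hcZ D Y₀ Y₁ om α E0 R Y k p F G MR Qc m KK hf W0 Sh hα hsq
    hadm hY1 hYu hm hmZ hD hY10 hY1Z homf hwn hom1 hk hkZ hKK hR hRZ hJ2 hE1 hE0Z hpZ hKX hlip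
    hS hRH hF hMR hQ1 hQ2 hQ3 hjb hln hrn
  have k := H Om Mb hMb hOm hOb τ κ hκ Z hZ hcZ D Y₀ Y₁ om α (fun _ => True) E0 R Y k p F G MR Qc m
    KK hf W0 Sh hα hsq hadm hY1 hYu hm hmZ hD hY10 hY1Z homf hwn hom1 hk hkZ hKK hR hRZ hJ2 hE1
    hE0Z hpZ hKX hlip hS (fun i hi d hd f hf => hRH i hi d hd f (by rwa [ET4a548.filt_true] at hf))
    hF hMR hQ1 hQ2 hQ3 hjb hln
    (fun i hi d hd f hf => hrn i hi d hd f (by rwa [ET4a548.filt_true] at hf))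
  simp only [if_true] at k
  exact k

end Crest.Agent.R017.ET490
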