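import Crest.Agent.R017.ET4c_90

/-!
# Row 17, R8 (E3): the gram form with the diagonal's own number (helper708's `gram_q`, copied from
`NGk_708` without its imports), for `StE`
-/

set_option autoImplicit false

noncomputable section

open Finset MeasureTheory
open scoped ComplexConjugate Classical ContDiff

namespace Crest.Agent.R017.ET490

open Crest.Agent.R012 Crest.Agent.R012.Eis Crest.Agent.R012.MC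
open Crest.Agent.R012.LS2 (S mem_S bl)
open Crest.Agent.R017.CM106 (CS FS TG)
open Crest.Agent.R017.C70
open Crest.Agent.R017.HB645 (hh hh_nonneg hh_le_one abs_lt_of_hh)
open Crest.Agent.R017.E1551 hiding tau Dg
open Crest.Agent.R017.E3D579 (TE0)
open Crest.Agent.R017.E3T829 (cg)
open Crest.Agent.R017.E3M829 (Tal)
open Crest.Agent.R017.E3F548 (XE XE_nonneg)
open Crest.Agent.R017.E3Kc548 (LI mem_LI card_LI)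
open Crest.Agent.R017.E3Z548 (TN TN_nonneg JV JVc mem_JV FH FH_nonneg LVn)
open Crest.Agent.R017.E3N146 (cLS cTT LVn_le CF_of_JC)
open Crest.Agent.R017.TNj90
open Crest.Agent.R017.E3Hf290 (RN2F RN2F_nonneg)
open Crest.Agent.R017.E2440 (TE StE StT)
open Crest.Agent.R017.Mode405 (Slp)
open Crest.Agent.R017.PX764 (n6)
open Crest.Agent.R017.R3571 (RMm)
open Crest.Agent.R012.Weight600 (pw)

set_option maxHeartbeats 1000000 in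
/-- **the gram form of one sequence at a fixed cube, range `Q` of `f`** -/
theorem gram_q {ρ : ℝ} (hρ : 0 < ρ) (hρ1 : ρ ≤ 1) {R0 : ℝ} (hR0 : 0 ≤ R0) (a A₁ : ℕ)
    (hA₁ : 1 < A₁) {ε J B₂ Lh : ℝ} (hε : 0 < ε) (hJ : 0 ≤ J) (hB₂ : 2 ≤ B₂) (hLh : 0 ≤ Lh) :
    ∃ (A : ℕ) (c C : ℝ), 1 ≤ c ∧ 1 ≤ C ∧
    ∀ (Om : ℝ → ℂ) (Mb : ℝ), 0 ≤ Mb → ContDiff ℝ ∞ Om →
      (∀ n ≤ A + 2, ∀ x, ‖iteratedDeriv n Om x‖ ≤ Mb) →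
    ∀ (τ : ℝ) (κ : ℂ), ‖κ‖ ≤ 1 → ∀ (Z : ℝ), 3 ≤ Z → c * Real.exp 2 ≤ Z →
    ∀ (D Y₀ Y₁ : ℝ) (om : Eis × Eis → ℂ) (α : Eis → ℂ) (Q : Eis → Prop)
      (E0 R Y k p F G GX MR Qc : ℝ) (m : Eis) (KK : Finset Eis) (hf : ℕ → ℝ → ℝ)
      (W0 : ℕ → Eis → Eis → ℝ → ℝ) (Sh : ℝ → ℝ → ℝ → ℝ),
      FS α → (∀ n, α n ≠ 0 → Squarefree n) → Adm Y (Real.exp p) R0 α → 1 ≤ Y → Y ≤ Z ^ B₂ →
      IsPrim m → (nm m : ℝ) ≤ Z → 0 ≤ D → 0 ≤ Y₁ → Y₁ ≤ Z →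
      (∀ x ∈ JW D Y₀ Y₁, om x = κ * (Om (Real.log (nm (x.2 * x.1 ^ 2))) * pw τ (nm x.2))) →
      (∀ i ∈ LI Y₀ Y₁, ∀ n : ℕ, 0 < n → hh (Real.log n - i) ≠ 0 → Om (Real.log n) ≠ 0 →
        Y₀ < n ∧ (n : ℝ) ≤ Y₁) →
      (∀ x ∈ JW D Y₀ Y₁, ‖om x‖ ≤ 1) →
      0 ≤ k → Real.exp k ≤ Z →
      (∀ u ∈ KK, IsPrim u ∧ CbF u ∧ ρ * Real.exp k ≤ nm u ∧ (nm u : ℝ) ≤ Real.exp k) →
      0 ≤ R → R ≤ Z → (∀ x ∈ JW D Y₀ Y₁, (nm x.2 : ℝ) ≤ R) → 1 ≤ E0 → E0 ≤ Z →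
      Real.exp p ≤ Z ^ 5 →
      (∀ i ∈ LI Y₀ Y₁, ∀ δ : ℝ, 0 ≤ δ → Real.log c + hf i δ + 2 * i ≤ k + p) →
      (∀ i ∈ LI Y₀ Y₁, ∀ x y, hf i x ≤ hf i y + Lh * |x - y|) →
      (∀ i d f, Slp a (W0 i d f)) →
      (∀ i ∈ LI Y₀ Y₁, ∀ d ∈ (JW D Y₀ Y₁).image Prod.fst, ∀ f ∈ (S E0).filter Q, ∀ γ π,
        IsPrim γ → IsPrim π → (nm π : ℝ) ≤ c * Z ^ 300 → ∀ P : ℝ, 0 < P →
        (nm γ : ℝ) * n6 γ ^ 2 * ∑ r ∈ bl P, RMm A₁ (fun n => α (d * n)) f γ π r ≤ W0 i d f P) →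
      0 ≤ F → 0 ≤ MR → 1 ≤ Qc → (R / Real.exp k ^ 2) ^ (1 / 6 : ℝ) * E0 ^ (1 / 2 : ℝ) ≤ Qc →
      R / Real.exp k ≤ Qc →
      JBc Y (c * Real.exp 2 * Y₁) F J Sh α →
      (∀ i ∈ LI Y₀ Y₁, ∀ δ : ℝ, 0 ≤ δ → 2 * δ ≤ Real.log Y₁ →
        LnT Sh k i (hf i δ) p (Real.log E0) δ (Real.log c + 1) G) →
      (∀ i ∈ LI Y₀ Y₁, ∀ δ : ℝ, 0 ≤ δ → 2 * δ ≤ Real.log Y₁ → ∀ b l : ℝ, 0 ≤ b → 0 ≤ l →
        l ≤ i - 2 * δ + (Real.log c + 1) →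
        2 / 3 * k - i / 3 + Sh δ b l + 2 * δ - max 0 (b - Real.log E0) - p / 3 ≤ GX) →
      (∀ i ∈ LI Y₀ Y₁, ∀ d ∈ (JW D Y₀ Y₁).image Prod.fst, ∀ f ∈ (S E0).filter Q,
        FH (Real.exp k) (Real.exp (hf i (Real.log (nm d)))) (Real.exp i) *
          RN2F c (Real.exp k) (Real.exp i) (Real.exp p)
            (fun d _ => Real.exp (hf i (Real.log (nm d)))) (W0 i) d f ≤ MR / (nm d * nm f)) →
      ∑ u ∈ KK, ‖StT E0 (JW D Y₀ Y₁) om (fun x e => if Q e then TE α x e else 0) (m ^ 3 * u)‖ ^ 2 ≤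
        C * (1 + Mb) ^ 2 * (1 + |τ|) ^ A * Z ^ ε *
          (F * (Qc * Real.exp GX + Real.exp G) + MR) := by
  obtain ⟨ε₀, hε₀, hε₁, hε₂⟩ : ∃ ε₀ : ℝ, 0 < ε₀ ∧ ε₀ ≤ 1 ∧ ε₀ ≤ ε / 2 :=
    ⟨min 1 (ε / 2), by positivity, min_le_left _ _, min_le_right _ _⟩
  obtain ⟨A, c, C₀, hc, hC₀, H₀⟩ := ET4a548.ET4aQ hρ hρ1 hR0 a A₁ hA₁ hε₀ hε₁
  obtain ⟨C₁, hC₁, H₁⟩ := t_sum hR0 hε₀ hJ (by linarith : 1 ≤ B₂) hLh c hc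
  obtain ⟨C₂, hC₂, H₂⟩ := x_sum hR0 hε₀ hJ (by linarith : 1 ≤ B₂) c hc
  refine ⟨A, c, C₀ * (1 + C₁ + 3 * C₂), hc, by nlinarith, ?_⟩
  intro Om Mb hMb hOm hOb τ κ hκ Z hZ hcZ D Y₀ Y₁ om α Q E0 R Y k p F G GX MR Qc m KK hf W0 Sh hα
    hsq hadm hY1 hYu hm hmZ hD hY10 hY1Z homf hwn hom1 hk hkZ hKK hR hRZ hJ2 hE1 hE0Z hpZ hKX hlip
    hS hRH hF hMR hQ1 hQ2 hQ3 hjb hln hlx hrn
  have hZ0 : 0 < Z := by linarith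
  have hZ1 : 1 ≤ Z := by linarith
  have hc0 : 0 < c := by linarith
  have hE0 : 0 < E0 := by linarith
  have hexp2 : Real.exp 1 ≤ Real.exp 2 := Real.exp_le_exp.mpr (by norm_num)
  have hZ2 : Z ^ (2 : ℝ) ≤ Z ^ B₂ := Real.rpow_le_rpow_of_exponent_le hZ1 hB₂
  have hWX : Real.exp 2 * c * Y₁ ≤ Z ^ B₂ := by
    refine le_trans ?_ hZ2
    rw [Real.rpow_two, sq]
    exact mul_le_mul (by linarith) hY1Z hY10 hZ0.le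
  have hjb' : JBc Y (Real.exp 2 * c * Y₁) F J Sh α := by rwa [mul_comm (Real.exp 2) c]
  have hVZ : ∀ i ∈ LI Y₀ Y₁, c * Real.exp i ≤ Z ^ 5 := fun i hi => by
    obtain ⟨-, -, hi3⟩ := mem_LI hi
    have h1 : c * Real.exp i ≤ c * Real.exp 2 * Y₁ := by
      calc c * Real.exp i ≤ c * (Real.exp 1 * Y₁) := by gcongr
        _ ≤ c * (Real.exp 2 * Y₁) := by gcongr
        _ = _ := by ring
    have h2 : c * Real.exp 2 * Y₁ ≤ Z ^ 2 := by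
      rw [sq]; exact mul_le_mul hcZ hY1Z hY10 hZ0.le
    exact h1.trans (h2.trans (pow_le_pow_right₀ hZ1 (by norm_num)))
  have hwin : ∀ n, α n ≠ 0 → |Real.log (nm n) - Real.log (Real.exp p)| ≤ R0 := fun n hn =>
    (hadm.win n hn).trans (by linarith)
  have k0 := H₀ Om Mb hMb hOm hOb τ κ hκ Z hZ1 D Y₀ Y₁ om α Q E0 R (Real.exp k) (Real.exp p) m KK
    (fun i d _ => Real.exp (hf i (Real.log (nm d)))) W0 hα hsq hwin hm hmZ hD hY10 homf hwn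
    (Real.exp_pos k) hkZ hKK hR hRZ hE0.le hE0Z hY1Z (fun x hx => by
      obtain ⟨-, -, h3, h4⟩ := JW_fst (mem_image_of_mem Prod.fst hx)
      nlinarith) hJ2 (Real.exp_pos p) hpZ (fun _ _ _ => Real.exp_pos _) hVZ
    (fun i hi d hd f _ => by
      have h1 : (1 : ℝ) ≤ nm d := by
        exact_mod_cast nm_pos.mpr ((mem_S (by positivity)).mp hd).2.1.ne_zero
      have h2 := hKX i hi _ (Real.log_nonneg h1)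
      calc c * (Real.exp (hf i (Real.log (nm d))) * Real.exp i ^ 2) =
          Real.exp (Real.log c + hf i (Real.log (nm d)) + 2 * i) := by
            rw [Real.exp_add, Real.exp_add, Real.exp_log hc0, ← Real.exp_nat_mul]
            push_cast
            ring
        _ ≤ Real.exp (k + p) := Real.exp_le_exp.mpr h2
        _ = _ := Real.exp_add _ _) hS hRH
  have k1 := H₁ Z hZ D Y₀ Y₁ Y k 0 p E0 F G MR (Z ^ 5) Q α hf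
    (fun i d f => RN2F c (Real.exp k) (Real.exp i) (Real.exp p)
            (fun d _ => Real.exp (hf i (Real.log (nm d)))) (W0 i) d f) Sh hY1 hYu hY10 hY1Z hWX hE0
    hE0Z hF hMR (by linarith) hjb' hadm hlip (fun i hi δ h1 h2 => (hln i hi δ h1 h2).e) hrn
  rw [Real.exp_zero] at k1
  have k2 := H₂ Z hZ D Y₀ Y₁ Y k p E0 F GX (3 * Qc) Q om α (fun f =>
      (nm (EuclideanDomain.gcd f m) : ℝ) / nm f +
        (R / Real.exp k ^ 2) ^ (1 / 6 : ℝ) * (nm f : ℝ) ^ (1 / 2 : ℝ) + R / Real.exp k) Sh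
    hY1 hYu hY10 hY1Z hWX hE0 hE0Z hF hjb' hadm hom1 hlx (fun f hf => by
      obtain ⟨h1, h2⟩ := mem_filter.mp hf
      obtain ⟨h3, h4, -⟩ := (mem_S hE0.le).mp h1
      have h5 := nm_gcd_le (m := m) h4.ne_zero
      have h6 : (nm f : ℝ) ^ (1 / 2 : ℝ) ≤ E0 ^ (1 / 2 : ℝ) :=
        Real.rpow_le_rpow (Nat.cast_nonneg _) h3 (by norm_num)
      have h7 := mul_le_mul_of_nonneg_left h6
        (by positivity : 0 ≤ (R / Real.exp k ^ 2) ^ (1 / 6 : ℝ))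
      show (nm (EuclideanDomain.gcd f m) : ℝ) / nm f +
        (R / Real.exp k ^ 2) ^ (1 / 6 : ℝ) * (nm f : ℝ) ^ (1 / 2 : ℝ) + R / Real.exp k ≤ 3 * Qc
      linarith)
  rw [max_eq_right (by linarith : (0 : ℝ) ≤ 3 * Qc)] at k2
  have hFG : 0 ≤ F * Real.exp G := by positivity
  have hFX : 0 ≤ F * (Qc * Real.exp GX) := by positivity
  have hτ1 : 1 ≤ (1 + |τ|) ^ A := one_le_pow₀ (by linarith [abs_nonneg τ])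
  have hM1 : 1 ≤ (1 + Mb) ^ 2 := one_le_pow₀ (by linarith)
  have hM2 : Mb ^ 2 ≤ (1 + Mb) ^ 2 := pow_le_pow_left₀ hMb (by linarith) 2
  have hMt : 1 ≤ (1 + Mb) ^ 2 * (1 + |τ|) ^ A := one_le_mul_of_one_le_of_one_le hM1 hτ1
  obtain ⟨T, hT⟩ : ∃ T, T = (1 + Mb) ^ 2 * (1 + |τ|) ^ A := ⟨_, rfl⟩
  have hT1 : 1 ≤ T := hT ▸ hMt
  have hT2 : Mb ^ 2 * (1 + |τ|) ^ A ≤ T := by
    rw [hT]; exact mul_le_mul_of_nonneg_right hM2 (by linarith)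
  have hze : Z ^ ε₀ * Z ^ ε₀ ≤ Z ^ ε := by
    rw [← Real.rpow_add hZ0]
    exact Real.rpow_le_rpow_of_exponent_le hZ1 (by linarith)
  have hzp : 0 ≤ Z ^ ε₀ := by positivity
  refine k0.trans ?_
  have k3 : Mb ^ 2 * (1 + |τ|) ^ A * (∑ f ∈ (S E0).filter Q, ∑ i ∈ LI Y₀ Y₁,
      ∑ d ∈ (JW D Y₀ Y₁).image Prod.fst,
        (nm f : ℝ)⁻¹ * LVn (fun d _ n => α (d * n)) {d} {f} c (Z ^ 5) (Real.exp k)
          (Real.exp (hf i (Real.log (nm d)))) (Real.exp i)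
          (Real.exp i) 1 1 1 (RN2F c (Real.exp k) (Real.exp i) (Real.exp p)
            (fun d _ => Real.exp (hf i (Real.log (nm d)))) (W0 i) d f)) ≤
      T * (C₁ * Z ^ ε₀ * (F * Real.exp G + MR)) := by
    refine (mul_le_mul_of_nonneg_left k1 (by positivity)).trans ?_
    exact mul_le_mul_of_nonneg_right hT2 (by positivity)
  refine (mul_le_mul_of_nonneg_left (add_le_add k2 k3) (by positivity)).trans ?_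
  obtain ⟨S₀, hS₀⟩ : ∃ S₀, S₀ = F * (Qc * Real.exp GX + Real.exp G) + MR := ⟨_, rfl⟩
  have hS1 : F * (Qc * Real.exp GX) ≤ S₀ := by rw [hS₀]; linarith
  have hS2 : F * Real.exp G + MR ≤ S₀ := by rw [hS₀]; linarith
  have hS3 : 0 ≤ S₀ := hFX.trans hS1
  have f1 : C₂ * Z ^ ε₀ * (3 * Qc * (F * Real.exp GX)) ≤ T * (3 * C₂) * (Z ^ ε₀ * S₀) := by
    have a1 : C₂ * Z ^ ε₀ * (3 * Qc * (F * Real.exp GX)) =
        1 * (3 * C₂) * (Z ^ ε₀ * (F * (Qc * Real.exp GX))) := by ring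
    rw [a1]
    exact mul_le_mul (mul_le_mul_of_nonneg_right hT1 (by positivity))
      (mul_le_mul_of_nonneg_left hS1 hzp) (by positivity) (by positivity)
  have f2 : T * (C₁ * Z ^ ε₀ * (F * Real.exp G + MR)) ≤ T * C₁ * (Z ^ ε₀ * S₀) := by
    have a1 : T * (C₁ * Z ^ ε₀ * (F * Real.exp G + MR)) =
        T * C₁ * (Z ^ ε₀ * (F * Real.exp G + MR)) := by ring
    rw [a1]
    exact mul_le_mul_of_nonneg_left (mul_le_mul_of_nonneg_left hS2 hzp) (by positivity)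
  calc C₀ * Z ^ ε₀ * (C₂ * Z ^ ε₀ * (3 * Qc * (F * Real.exp GX)) +
        T * (C₁ * Z ^ ε₀ * (F * Real.exp G + MR))) ≤
      C₀ * Z ^ ε₀ * (T * (3 * C₂) * (Z ^ ε₀ * S₀) + T * C₁ * (Z ^ ε₀ * S₀)) :=
        mul_le_mul_of_nonneg_left (add_le_add f1 f2) (by positivity)
    _ = C₀ * (C₁ + 3 * C₂) * T * ((Z ^ ε₀ * Z ^ ε₀) * S₀) := by ring
    _ ≤ C₀ * (1 + C₁ + 3 * C₂) * T * (Z ^ ε * S₀) := by
        refine mul_le_mul (mul_le_mul_of_nonneg_right (mul_le_mul_of_nonneg_left (by linarith)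
          (by linarith)) (by positivity)) (mul_le_mul_of_nonneg_right hze hS3)
          (by positivity) (by positivity)
    _ = _ := by rw [hT, hS₀]; ring



/-- **the same for `StE`** -/
theorem gram_qE {ρ : ℝ} (hρ : 0 < ρ) (hρ1 : ρ ≤ 1) {R0 : ℝ} (hR0 : 0 ≤ R0) (a A₁ : ℕ)
    (hA₁ : 1 < A₁) {ε J B₂ Lh : ℝ} (hε : 0 < ε) (hJ : 0 ≤ J) (hB₂ : 2 ≤ B₂) (hLh : 0 ≤ Lh) :
    ∃ (A : ℕ) (c C : ℝ), 1 ≤ c ∧ 1 ≤ C ∧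
    ∀ (Om : ℝ → ℂ) (Mb : ℝ), 0 ≤ Mb → ContDiff ℝ ∞ Om →
      (∀ n ≤ A + 2, ∀ x, ‖iteratedDeriv n Om x‖ ≤ Mb) →
    ∀ (τ : ℝ) (κ : ℂ), ‖κ‖ ≤ 1 → ∀ (Z : ℝ), 3 ≤ Z → c * Real.exp 2 ≤ Z →
    ∀ (D Y₀ Y₁ : ℝ) (om : Eis × Eis → ℂ) (α : Eis → ℂ)
      (E0 R Y k p F G GX MR Qc : ℝ) (m : Eis) (KK : Finset Eis) (hf : ℕ → ℝ → ℝ)
      (W0 : ℕ → Eis → Eis → ℝ → ℝ) (Sh : ℝ → ℝ → ℝ → ℝ),
      FS α → (∀ n, α n ≠ 0 → Squarefree n) → Adm Y (Real.exp p) R0 α → 1 ≤ Y → Y ≤ Z ^ B₂ →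
      IsPrim m → (nm m : ℝ) ≤ Z → 0 ≤ D → 0 ≤ Y₁ → Y₁ ≤ Z →
      (∀ x ∈ JW D Y₀ Y₁, om x = κ * (Om (Real.log (nm (x.2 * x.1 ^ 2))) * pw τ (nm x.2))) →
      (∀ i ∈ LI Y₀ Y₁, ∀ n : ℕ, 0 < n → hh (Real.log n - i) ≠ 0 → Om (Real.log n) ≠ 0 →
        Y₀ < n ∧ (n : ℝ) ≤ Y₁) →
      (∀ x ∈ JW D Y₀ Y₁, ‖om x‖ ≤ 1) →
      0 ≤ k → Real.exp k ≤ Z →
      (∀ u ∈ KK, IsPrim u ∧ CbF u ∧ ρ * Real.exp k ≤ nm u ∧ (nm u : ℝ) ≤ Real.exp k) →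
      0 ≤ R → R ≤ Z → (∀ x ∈ JW D Y₀ Y₁, (nm x.2 : ℝ) ≤ R) → 1 ≤ E0 → E0 ≤ Z →
      Real.exp p ≤ Z ^ 5 →
      (∀ i ∈ LI Y₀ Y₁, ∀ δ : ℝ, 0 ≤ δ → Real.log c + hf i δ + 2 * i ≤ k + p) →
      (∀ i ∈ LI Y₀ Y₁, ∀ x y, hf i x ≤ hf i y + Lh * |x - y|) →
      (∀ i d f, Slp a (W0 i d f)) →
      (∀ i ∈ LI Y₀ Y₁, ∀ d ∈ (JW D Y₀ Y₁).image Prod.fst, ∀ f ∈ S E0, ∀ γ π,
        IsPrim γ → IsPrim π → (nm π : ℝ) ≤ c * Z ^ 300 → ∀ P : ℝ, 0 < P →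
        (nm γ : ℝ) * n6 γ ^ 2 * ∑ r ∈ bl P, RMm A₁ (fun n => α (d * n)) f γ π r ≤ W0 i d f P) →
      0 ≤ F → 0 ≤ MR → 1 ≤ Qc → (R / Real.exp k ^ 2) ^ (1 / 6 : ℝ) * E0 ^ (1 / 2 : ℝ) ≤ Qc →
      R / Real.exp k ≤ Qc →
      JBc Y (c * Real.exp 2 * Y₁) F J Sh α →
      (∀ i ∈ LI Y₀ Y₁, ∀ δ : ℝ, 0 ≤ δ → 2 * δ ≤ Real.log Y₁ →
        LnT Sh k i (hf i δ) p (Real.log E0) δ (Real.log c + 1) G) →
      (∀ i ∈ LI Y₀ Y₁, ∀ δ : ℝ, 0 ≤ δ → 2 * δ ≤ Real.log Y₁ → ∀ b l : ℝ, 0 ≤ b → 0 ≤ l →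
        l ≤ i - 2 * δ + (Real.log c + 1) →
        2 / 3 * k - i / 3 + Sh δ b l + 2 * δ - max 0 (b - Real.log E0) - p / 3 ≤ GX) →
      (∀ i ∈ LI Y₀ Y₁, ∀ d ∈ (JW D Y₀ Y₁).image Prod.fst, ∀ f ∈ S E0,
        FH (Real.exp k) (Real.exp (hf i (Real.log (nm d)))) (Real.exp i) *
          RN2F c (Real.exp k) (Real.exp i) (Real.exp p)
            (fun d _ => Real.exp (hf i (Real.log (nm d)))) (W0 i) d f ≤ MR / (nm d * nm f)) →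
      ∑ u ∈ KK, ‖StE E0 (JW D Y₀ Y₁) om α (m ^ 3 * u)‖ ^ 2 ≤
        C * (1 + Mb) ^ 2 * (1 + |τ|) ^ A * Z ^ ε *
          (F * (Qc * Real.exp GX + Real.exp G) + MR) := by
  obtain ⟨A, c, C, hc, hC, H⟩ := gram_q hρ hρ1 hR0 a A₁ hA₁ hε hJ hB₂ hLh
  refine ⟨A, c, C, hc, hC, ?_⟩
  intro Om Mb hMb hOm hOb τ κ hκ Z hZ hcZ D Y₀ Y₁ om α E0 R Y k p F G GX MR Qc m KK hf W0 Sh hα hsq
    hadm hY1 hYu hm hmZ hD hY10 hY1Z homf hwn hom1 hk hkZ hKK hR hRZ hJ2 hE1 hE0Z hpZ hKX hlip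
    hS hRH hF hMR hQ1 hQ2 hQ3 hjb hln hlx hrn
  have k := H Om Mb hMb hOm hOb τ κ hκ Z hZ hcZ D Y₀ Y₁ om α (fun _ => True) E0 R Y k p F G GX MR Qc m
    KK hf W0 Sh hα hsq hadm hY1 hYu hm hmZ hD hY10 hY1Z homf hwn hom1 hk hkZ hKK hR hRZ hJ2 hE1
    hE0Z hpZ hKX hlip hS (fun i hi d hd f hf => hRH i hi d hd f (by rwa [ET4a548.filt_true] at hf))
    hF hMR hQ1 hQ2 hQ3 hjb hln hlx
    (fun i hi d hd f hf => hrn i hi d hd f (by rwa [ET4a548.filt_true] at hf))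
  simp only [if_true] at k
  exact k

end Crest.Agent.R017.ET490
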