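import Crest.Agent.R017.GHL_90
import Crest.Agent.R017.GHR_90

/-!
# Row 17, R8 / P1: the large sieve half of the Gram sum at a fixed cube (helper90)

* **`hbP1`** : helper968's `gram_raw`, dyadic levels, helper708's T-moments: one real line left
-/

set_option autoImplicit false
set_option linter.unusedSectionVars false

noncomputable section

open Finset
open scoped ComplexConjugate Classical

namespace Crest.Agent.R017.GHP90

open Crest.Agent.R012 Crest.Agent.R012.Eis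
open Crest.Agent.R012.LS2 (S mem_S)
open Crest.Agent.R017.FE47 (PU cx)
open Crest.Agent.R017.CM106
open Crest.Agent.R017.XG702 (Pcs BG)
open Crest.Agent.R017.XT71 (Sys Win mx le_mx one_le_mx)
open Crest.Agent.R017.Prov71
open Crest.Agent.R017.B770
open Crest.Agent.R017.ER911
open Crest.Agent.R017.HP842 (Pc pc sqc alL)
open Crest.Agent.R017.I1146 (ChN LN cN SN FlatO FlatL Tail Dom)
open Crest.Agent.R017.Leg381 (Pf alF natl alF_natl)
open Crest.Agent.R017.TM708 Crest.Agent.R017.TM968 Crest.Agent.R017.GHL90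
open Crest.Agent.R017.C70 (JC CbF OKJ)
open Crest.Agent.R017.E2440 (StE TE)
open Crest.Agent.R017.E1551 (nm_ge_one)

variable {Λ : Type*} {π : Λ → DPar} {h : ℝ → ℝ} {d : ℝ} {rr : EF}

lemma PD_mono {X τ τ' B B' H κ : ℝ} {N : ℕ} {b : Fin 5 → ℝ} {q : Eis} {us : Fin 3 → Pq}
    {gs : List Pq} (hX : 1 ≤ X) (hτ : τ ≤ τ') (hB : B ≤ B') (h : PD X τ B H N b q us gs κ) :
    PD X τ' B' H N b q us gs κ := by
  have hL : 0 ≤ Real.log X := Real.log_nonneg hX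
  have hBB : X ^ B ≤ X ^ B' := Real.rpow_le_rpow_of_exponent_le hX hB
  have hm : ∀ {c : ℝ}, (c + τ) * Real.log X ≤ (c + τ') * Real.log X := fun {c} =>
    mul_le_mul_of_nonneg_right (by linarith) hL
  have hm0 : τ * Real.log X ≤ τ' * Real.log X := mul_le_mul_of_nonneg_right hτ hL
  exact ⟨h.q0, h.qB.trans hBB, h.H1, h.lump, h.us0, fun i => (h.usB i).trans hBB, h.usH,
    h.z1.trans hm, h.z2.trans hm, h.z3.trans hm, fun p hp => ⟨(h.am p hp).1, (h.am p hp).2.1,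
      (h.am p hp).2.2.1.trans hm0, (h.am p hp).2.2.2.1.trans hBB, (h.am p hp).2.2.2.2⟩, h.len,
    h.x.trans hm, h.k.trans hm0⟩

/-- the number of levels -/
lemma levels {ε : ℝ} (hε : 0 < ε) : ∃ C : ℝ, 0 < C ∧ ∀ X Y₁ : ℝ, 3 ≤ X → 1 ≤ Y₁ → Y₁ ≤ X →
    ∃ I : ℕ, Y₁ < 2 ^ I ∧ (I : ℝ) ^ 2 ≤ C * X ^ ε := by
  refine ⟨(3 * (2 / ε)) ^ 2, by positivity, fun X Y₁ hX hY hYX => ?_⟩
  have hX0 : 0 < X := by linarith
  refine ⟨Nat.log 2 ⌊Y₁⌋₊ + 1, ?_, ?_⟩
  · have h1 := Nat.lt_pow_succ_log_self (b := 2) (by norm_num) ⌊Y₁⌋₊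
    have h2 : ((⌊Y₁⌋₊ + 1 : ℕ) : ℝ) ≤ 2 ^ (Nat.log 2 ⌊Y₁⌋₊ + 1) := by exact_mod_cast h1
    push_cast at h2
    exact (Nat.lt_floor_add_one Y₁).trans_le h2
  · have hlX : 1 ≤ Real.log X := (Real.le_log_iff_exp_le hX0).2 (by
      linarith [Real.exp_one_lt_d9])
    have h1 : (Nat.log 2 ⌊Y₁⌋₊ : ℝ) ≤ 2 * Real.log X := by
      have h2 : ((2 : ℕ) ^ Nat.log 2 ⌊Y₁⌋₊ : ℝ) ≤ X := by
        have h3 : 2 ^ Nat.log 2 ⌊Y₁⌋₊ ≤ ⌊Y₁⌋₊ :=
          Nat.pow_log_le_self 2 (Nat.floor_pos.2 hY).ne'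
        have h4 : ((2 : ℕ) ^ Nat.log 2 ⌊Y₁⌋₊ : ℝ) ≤ (⌊Y₁⌋₊ : ℝ) := by exact_mod_cast h3
        exact h4.trans ((Nat.floor_le (by linarith)).trans hYX)
      have h5 := Real.log_le_log (by positivity) h2
      rw [Real.log_pow] at h5
      push_cast at h5
      have h6 := Real.log_two_gt_d9
      nlinarith
    have h7 : Real.log X ≤ X ^ (ε / 2) / (ε / 2) := Real.log_le_rpow_div hX0.le (by positivity)
    have h8 : ((Nat.log 2 ⌊Y₁⌋₊ + 1 : ℕ) : ℝ) ≤ 3 * (X ^ (ε / 2) / (ε / 2)) := by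
      push_cast
      linarith
    have h9 : X ^ (ε / 2) * X ^ (ε / 2) = X ^ ε := by
      rw [← Real.rpow_add hX0]; congr 1; ring
    calc ((Nat.log 2 ⌊Y₁⌋₊ + 1 : ℕ) : ℝ) ^ 2 ≤ (3 * (X ^ (ε / 2) / (ε / 2))) ^ 2 :=
          pow_le_pow_left₀ (Nat.cast_nonneg _) h8 2
      _ = (3 * (2 / ε)) ^ 2 * (X ^ (ε / 2) * X ^ (ε / 2)) := by
          field_simp
      _ = _ := by rw [h9]

set_option maxHeartbeats 1000000 in
/-- **the large sieve half of the Gram sum at a fixed cube** : parent data `PD` (helper708), any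
sequence dominated by the list, any window `J` of height `Y₁`, a natural factor `b₀`; one real
line -/
theorem hbP1 {c₀ : ℝ} (hpu : PU h c₀) {R₁ : ℝ} (hR₁ : 0 ≤ R₁) (hR₂ : ∀ u, cx h u ≠ 0 → |u| ≤ R₁)
    (hP : ∀ lam, (π lam).OK)
    (R : ExpRules (7 / 8 + d) rr (ex Dq fun lam => Sp (π lam) h)) (hd : 0 ≤ d) (hd1 : d ≤ 1 / 8)
    {D5 : Set (Fin 5 → ℝ)} (hD : IsCompact D5) {ℓ : (Fin 5 → ℝ) → ℝ} (hℓ : Continuous ℓ)
    (hFE : FE2L (ex Dq fun lam => S0p (π lam) h) D5 ℓ) {ε : ℝ} (hε : 0 < ε) :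
    ∃ τ : ℝ, 0 < τ ∧ ∀ (lam : Λ) (N : ℕ) (B ν Dd : ℝ), 1 ≤ ν → 1 ≤ Dd →
      ∃ (r : ℝ) (M : ℕ) (X₀ : ℝ), 0 ≤ r ∧ 3 ≤ X₀ ∧ ∀ X : ℝ, X₀ ≤ X → ∀ b ∈ D5,
      ∀ (q : Eis) (us : Fin 3 → Pq) (gs : List Pq) (κ H : ℝ), PD X τ B H N b q us gs κ →
      (∀ p ∈ [us 0, us 1, us 2] ++ gs, p.z ≤ Real.log X) →
      ∀ al : Eis → ℂ,
      Dom ν Dd (sqc q (alL h (([us 0, us 1, us 2] ++ gs).map (Pq.pc (π lam))))) al →
      ∀ (K Y₁ Bm Mb E0 E : ℝ), 1 ≤ K → K ≤ X → 1 ≤ Y₁ → 2 * Y₁ ≤ X →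
      Real.log Y₁ ≤ (T5 b + τ) * Real.log X → 1 ≤ Bm → Bm ≤ X → 0 ≤ Mb →
      ∀ (J : Finset (Eis × Eis)) (om : Eis × Eis → ℂ), OKJ J →
      (∀ x ∈ J, (nm (x.2 * x.1 ^ 2) : ℝ) ≤ Y₁) → (∀ x, ‖om x‖ ≤ 1) →
      ∀ (t : Eis) (b₀ : Eis → ℂ), IsPrim t → (nm t : ℝ) ≤ X →
      (∀ n, b₀ n ≠ 0 → n ∈ primBall ⌊Bm⌋₊) →
      (∀ s, IsPrim s → ∑ n ∈ primBall ⌊Bm⌋₊, ‖b₀ (s * n)‖ ^ 2 ≤ Mb / nm s) →
      (∀ v δ β l z₁ z₂ z₃ w : ℝ,
        (∃ x ∈ J, |v - Real.log (nm (x.2 * x.1 ^ 2))| ≤ Real.log 2) →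
        0 ≤ v → v ≤ Real.log Y₁ + Real.log 2 → 0 ≤ δ → 2 * δ ≤ v → 0 ≤ β → 0 ≤ l →
        0 ≤ z₁ → 0 ≤ z₂ → 0 ≤ z₃ → 0 ≤ w → w ≤ LN gs + N * r →
        |z₁ + z₂ + z₃ + w - (LN ([us 0, us 1, us 2] ++ gs) - δ - β)| ≤ r →
        |l - (v - 2 * δ + β)| ≤ r →
        -(LN ([us 0, us 1, us 2] ++ gs)) / 3 - v / 3 + 3 * δ +
          qd (Real.log K) v (Real.log Bm) δ +
          min (eW (Real.log X * K5 b) l (z₁ + z₂ + z₃ + w) w + Real.log X * ℓ b)
            (tAll d l z₁ z₂ z₃ w) ≤ E) →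
      ∑ k ∈ (primBall ⌊K⌋₊).filter CbF, (nm k : ℝ) ^ ((1 : ℝ) / 3) *
        (‖StE E0 J om al (k * t ^ 3)‖ ^ 2 * ‖CS b₀ (k * t ^ 3)‖ ^ 2) ≤
        H ^ M * X ^ ε * (Mb * Real.exp E) := by
  obtain ⟨σ, hσ, G⟩ := child_le hpu hP R hd hd1 hD hℓ hFE (ε := ε / 4) (by positivity)
  obtain ⟨CI, hCI, hI⟩ := levels (ε := ε / 4) (by positivity)
  refine ⟨σ / 20, by positivity, fun lam N B ν Dd hν hDd => ?_⟩
  obtain ⟨M, G1⟩ := G lam N (max B 1)
  obtain ⟨C, r, hC, hr, H1⟩ := gram_raw hpu (N + 3) hR₁ hR₂ (ε := ε / 4) (M := (M : ℝ)) (c₀ := 2)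
    (by positivity) (Nat.cast_nonneg _) (by norm_num) hν hDd
  obtain ⟨X₁, hX₁, G2⟩ := G1 r hr
  set Z := (CI * (3 * C)) ^ (4 / ε) with hZ
  refine ⟨r, M, max (max X₁ 3) (max Z (Real.exp (4 * (1 + r) / σ))), hr,
    (le_max_right _ _).trans (le_max_left _ _), ?_⟩
  intro X hX b hb q us gs κ H hPD hzX al hdom K Y₁ Bm Mb E0 E hK hKX hY hYX hYT hBm hBmX hMb J om
    hJ hJY hom t b₀ ht htX hb₀ hMb' HE
  have hX1' : X₁ ≤ X := ((le_max_left _ _).trans (le_max_left _ _)).trans hX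
  have hX3 : 3 ≤ X := ((le_max_right _ _).trans (le_max_left _ _)).trans hX
  have hXZ : Z ≤ X := ((le_max_left _ _).trans (le_max_right _ _)).trans hX
  have hXr : Real.exp (4 * (1 + r) / σ) ≤ X :=
    ((le_max_right _ _).trans (le_max_right _ _)).trans hX
  have hX1 : 1 < X := by linarith
  have hX0 : 0 < X := by linarith
  set L := Real.log X with hLd
  have hL : 0 < L := Real.log_pos hX1
  have hrL : 1 + r ≤ σ / 4 * L := by
    have h2 : 4 * (1 + r) / σ ≤ L := by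
      have := Real.log_le_log (Real.exp_pos _) hXr
      rwa [Real.log_exp] at this
    rw [div_le_iff₀ hσ] at h2
    linarith
  have hl2 : Real.log 2 ≤ 1 := by linarith [Real.log_two_lt_d9]
  have hH1 := hPD.H1
  have hPD' : PD X (σ / 2) (max B 1) H N b q us gs κ :=
    PD_mono hX1.le (by linarith) (le_max_left _ _) hPD
  set ps := [us 0, us 1, us 2] ++ gs with hps
  have hlen : ps.length ≤ N + 3 := by
    rw [hps, List.length_append]
    have := hPD.len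
    simp only [List.length_cons, List.length_nil]
    omega
  have hz0 : ∀ p ∈ ps, 0 ≤ p.z ∧ p.z ≤ Real.log X := by
    intro p hp
    refine ⟨?_, hzX p hp⟩
    rcases List.mem_append.1 hp with hp | hp
    · simp only [List.mem_cons, List.not_mem_nil, or_false] at hp
      rcases hp with rfl | rfl | rfl <;> exact hPD.us0 _
    · exact (hPD.am p hp).2.1
  have hLN : LN ps ≤ (b 1 + b 2 + b 3 + b 4 + 4 * (σ / 20)) * L := by
    have e : LN ps = (us 0).z + (us 1).z + (us 2).z + LN gs := by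
      rw [hps]
      unfold LN
      simp only [List.cons_append, List.nil_append, List.map_cons, List.sum_cons]
      ring
    rw [e]
    have h1 := hPD.z1
    have h2 := hPD.z2
    have h3 := hPD.z3
    have h4 := hPD.x
    rw [← hLd] at h1 h2 h3 h4
    linarith
  have hdom' : Dom ν Dd (sqc q (alF 1 1 (π lam) h (natl ps))) al := by
    rw [alF_natl]
    exact hdom
  obtain ⟨I, hI1, hI2⟩ := hI X Y₁ hX3 hY (by linarith)
  have hlog := log_lt hJY hI1 hJ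
  have hE0 : 0 ≤ H ^ M := by positivity
  set G0 : ℝ := 3 * C * (X ^ (ε / 4) * X ^ (ε / 4)) * (H ^ M * (Mb * Real.exp E)) with hG0
  have hG00 : 0 ≤ G0 := by positivity
  have key := sum_levels hlog om E0 (fun d e j => TE al (d, j) e)
    ((primBall ⌊K⌋₊).filter CbF) (fun k => (nm k : ℝ) ^ ((1 : ℝ) / 3))
    (fun k => ‖CS b₀ (k * t ^ 3)‖ ^ 2) (fun k _ => by positivity) (fun k _ => by positivity)
    (fun k => k * t ^ 3) (G := G0) ?_ hG00
  · refine key.trans ?_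
    have hXe : X ^ (ε / 4) * (X ^ (ε / 4) * X ^ (ε / 4)) * X ^ (ε / 4) = X ^ ε := by
      rw [← Real.rpow_add hX0, ← Real.rpow_add hX0, ← Real.rpow_add hX0]; congr 1; ring
    have hZ' : CI * (3 * C) ≤ X ^ (ε / 4) := by
      have h0 : 0 ≤ CI * (3 * C) := by positivity
      calc CI * (3 * C) = Z ^ (ε / 4) := by
            rw [hZ, ← Real.rpow_mul h0]
            rw [show 4 / ε * (ε / 4) = 1 by field_simp, Real.rpow_one]
        _ ≤ X ^ (ε / 4) := Real.rpow_le_rpow (by positivity) hXZ (by positivity)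
    calc (I : ℝ) ^ 2 * G0 ≤ (CI * X ^ (ε / 4)) * G0 := mul_le_mul_of_nonneg_right hI2 hG00
      _ = (CI * (3 * C)) * (X ^ (ε / 4) * (X ^ (ε / 4) * X ^ (ε / 4)) *
            (H ^ M * (Mb * Real.exp E))) := by rw [hG0]; ring
      _ ≤ X ^ (ε / 4) * (X ^ (ε / 4) * (X ^ (ε / 4) * X ^ (ε / 4)) *
            (H ^ M * (Mb * Real.exp E))) := mul_le_mul_of_nonneg_right hZ' (by positivity)
      _ = (X ^ (ε / 4) * (X ^ (ε / 4) * X ^ (ε / 4)) * X ^ (ε / 4)) *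
            (H ^ M * (Mb * Real.exp E)) := by ring
      _ = _ := by rw [hXe]; ring
  · intro i hi hne
    obtain ⟨x, hx⟩ := hne
    have hxJ : x ∈ J := (Finset.mem_filter.1 hx).1
    obtain ⟨hx1, hx2⟩ := lv_bounds hJ hx
    have hxY := hJY x hxJ
    have hV1 : (1 : ℝ) ≤ 2 ^ (i + 1) := one_le_pow₀ (by norm_num)
    have hVe : (2 : ℝ) ^ (i + 1) = 2 * 2 ^ i := by rw [pow_succ]; ring
    have hVX : (2 : ℝ) ^ (i + 1) ≤ X := by rw [hVe]; linarith
    have hV0 : (0 : ℝ) < 2 ^ (i + 1) := by positivity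
    set v := Real.log ((2 : ℝ) ^ (i + 1)) with hv
    have hv0 : 0 ≤ v := Real.log_nonneg hV1
    have hnx : (0 : ℝ) < nm (x.2 * x.1 ^ 2) := lt_of_lt_of_le (by positivity) hx1
    have hv1 : v = Real.log 2 + Real.log (2 ^ i) := by
      rw [hv, hVe, Real.log_mul (by norm_num) (by positivity)]
    have hv2 : Real.log (2 ^ i) ≤ Real.log (nm (x.2 * x.1 ^ 2)) :=
      Real.log_le_log (by positivity) hx1
    have hv3 : Real.log (nm (x.2 * x.1 ^ 2)) ≤ v := Real.log_le_log hnx hx2.le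
    have hv4 : Real.log (nm (x.2 * x.1 ^ 2)) ≤ Real.log Y₁ := Real.log_le_log hnx hxY
    have hvY : v ≤ Real.log Y₁ + Real.log 2 := by linarith
    have hvx : |v - Real.log (nm (x.2 * x.1 ^ 2))| ≤ Real.log 2 := by
      rw [abs_le]
      constructor <;> linarith [Real.log_pos (by norm_num : (1 : ℝ) < 2)]
    have h1 := H1 X hX3 (π lam) (hP lam) q ps hlen hz0 al hdom' K (2 ^ (i + 1)) Bm Mb E0
      (3 * (H ^ M * X ^ (ε / 4)) * Real.exp (E + LN ps / 3 + v / 3)) hK hKX hV1 hVX hBm hBmX hMb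
      (by positivity) (lvJ J i) om (OKJ_lv hJ i) (fun y hy => (lv_bounds hJ hy).2.le)
      (fun y hy _ => by
        have := (lv_bounds hJ hy).1
        rw [hVe]
        linarith) hom t b₀ ht htX hb₀ hMb' ?_
    · refine le_trans (le_of_eq ?_) (h1.trans (le_of_eq ?_))
      · rfl
      · rw [hG0]
        have e1 : Real.exp (E + LN ps / 3 + v / 3) * Real.exp (-(LN ps) / 3 - v / 3) =
            Real.exp E := by
          rw [← Real.exp_add]
          congr 1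
          ring
        calc C * X ^ (ε / 4) * (Mb * (3 * (H ^ M * X ^ (ε / 4)) *
              Real.exp (E + LN ps / 3 + v / 3)) * Real.exp (-(LN ps) / 3 - v / 3))
            = 3 * C * (X ^ (ε / 4) * X ^ (ε / 4)) * (H ^ M * (Mb *
              (Real.exp (E + LN ps / 3 + v / 3) * Real.exp (-(LN ps) / 3 - v / 3)))) := by ring
          _ = _ := by rw [e1]
    · intro g hg hgV β l ps' hβ hl hch hn hlv
      have hg1 : (1 : ℝ) ≤ nm g := nm_ge_one hg.ne_zero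
      have hδ : 0 ≤ Real.log (nm g) := Real.log_nonneg hg1
      have hδ2 : 2 * Real.log (nm g) ≤ v := by
        have h2 := Real.log_le_log (by positivity) hgV
        rw [Real.log_pow, Nat.cast_ofNat, ← hv] at h2
        exact h2
      have hgX : (nm g : ℝ) ≤ X ^ (max B 1) := by
        have h2 : (nm g : ℝ) ≤ X := by nlinarith
        calc (nm g : ℝ) ≤ X := h2
          _ = X ^ (1 : ℝ) := (Real.rpow_one X).symm
          _ ≤ _ := Real.rpow_le_rpow_of_exponent_le hX1.le (le_max_right _ _)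
      obtain ⟨hn1, hn2⟩ := abs_le.1 hn
      obtain ⟨hl1, hl2'⟩ := abs_le.1 hlv
      rw [← hv] at hl1 hl2'
      obtain ⟨z₁, z₂, z₃, w, a1, a2, a3, a4, -, -, -, a5, a6, a7⟩ := G2 X hX1' b hb q us gs κ H hPD' g hg
        hgX l ps' hl hch (by
          have h3 : v ≤ (T5 b + σ / 20) * L + 1 := by linarith
          have h4 : l + LN ps' ≤ v + LN ps + 2 * r := by linarith
          have h5 : (T5 b + σ / 20) * L + (b 1 + b 2 + b 3 + b 4 + 4 * (σ / 20)) * L +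
              2 * (σ / 4 * L) ≤ (T5 b + (b 1 + b 2 + b 3 + b 4) + σ) * L := by
            nlinarith
          linarith)
      have hcH : (cN ps' ps * H) ^ M = cN ps' ps ^ (M : ℝ) * H ^ M := by
        rw [mul_pow, Real.rpow_natCast]
      refine raw_of (τ := min (eW (L * K5 b) l (LN ps') w + L * ℓ b) (tAll d l z₁ z₂ z₃ w)) hg
        (by linarith) hV0 (by linarith) (by positivity)
        (Real.rpow_nonneg (I1146.cN_nonneg _ _) _) ?_ ?_
      · refine a7.trans (le_of_eq ?_)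
        rw [hcH, Real.exp_add, mul_comm (ε / 4) L, ← rpow_exp hX1]
        ring
      · have h6 := HE v (Real.log (nm g)) β l z₁ z₂ z₃ w ⟨x, hxJ, hvx⟩ hv0 hvY hδ hδ2 hβ hl a1 a2
          a3 a4 a5 (by rw [a6]; exact hn) hlv
        rw [a6] at h6
        rw [← hv]
        linarith

end Crest.Agent.R017.GHP90
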