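import Crest.Agent.R017.RnPa_571

/-!
# Row 17, E3 of `P1`: the choice of `H(d)` (second form, cubes in the `T`-lines), helper904

Homogeneous (`k` = family, `D = d k`), tolerance `t`. `p` = length of the parent, `v` = level,
`δ` = removed divisor, `b` = common divisor in the `T`-part, `e` in the `R`-part.
* `hQ` : the exponent of `H` (function of `(v, p, δ)`)
* `tQ_le` : helper271's condition (T), all levels `l ≤ v - 2 δ + b`, all children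
* `th_le` : `H² V³ ≤ K²`
* `coreQ`, `coreQ2` : the structured part, second form (helper829's `G2`), `e ≤ k/64`
-/

set_option autoImplicit false
set_option linter.unusedVariables false

noncomputable section

namespace Crest.Agent.R017.P1Q904

open Crest.Agent.R017.RnP571 (Dh)

/-- the allowed loss -/
def LQ (N k D : ℝ) : ℝ := max 0 (5 / 4 * N - k) + 3 / 4 * D

/-- the exponent of `H` -/
def hQ (k v p δ x L : ℝ) : ℝ :=
  max (min (2 * v - k - 4 * δ + 5 / 64 * k + 2 * x - 3 * L)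
    (max (3 / 64 * k) (4 / 3 * (p - δ) - k + 5 / 192 * k + 2 / 3 * x - 3 * L)))
    (p - k - δ + k / 32)

/-- number of the `T`-side: level `l`, length `n`, `m` = smallest lump + share -/
def tQ (K5 l n m : ℝ) : ℝ :=
  min (max (2 * n) (4 / 3 * n + (max K5 (3 / 2 * l) + l) / 3)) (max (l + n + m) (5 / 3 * n + l / 3))

/-- exponent of `G2`, dual length `L`, length `I` of the frequency -/
def gQ (L I : ℝ) : ℝ := max (max (L / 3) (L - I / 2)) (max (7 / 9 * L - 2 / 3 * I) (11 / 18 * L - I / 3))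

lemma LQ_ge (N k D : ℝ) : 3 / 4 * D ≤ LQ N k D ∧ 5 / 4 * N - k + 3 / 4 * D ≤ LQ N k D := by
  unfold LQ
  have h1 := le_max_left 0 (5 / 4 * N - k)
  have h2 := le_max_right 0 (5 / 4 * N - k)
  exact ⟨by linarith, by linarith⟩

lemma LQ_le {k y₃ y₄ u x D : ℝ} (hD : Dh k y₃ y₄ u x D) : LQ (y₃ + y₄ + u) k D ≤ k / 25 := by
  obtain ⟨k0, u4, y43, u0, y3, N1, near, x0, adm, d0, d1⟩ := hD
  unfold LQ
  rcases max_choice 0 (5 / 4 * (y₃ + y₄ + u) - k) with h | h <;> rw [h] <;> linarith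

lemma hQ_le (k v p δ x L : ℝ) :
    (hQ k v p δ x L = p - k - δ + k / 32 ∧
      (2 * v - k - 4 * δ + 5 / 64 * k + 2 * x - 3 * L ≤ p - k - δ + k / 32 ∨
        3 / 64 * k ≤ p - k - δ + k / 32)) ∨
    (hQ k v p δ x L ≤ 2 * v - k - 4 * δ + 5 / 64 * k + 2 * x - 3 * L ∧
    (hQ k v p δ x L ≤ 3 / 64 * k ∨
      hQ k v p δ x L ≤ 4 / 3 * (p - δ) - k + 5 / 192 * k + 2 / 3 * x - 3 * L)) := by
  unfold hQ
  rcases le_total (min (2 * v - k - 4 * δ + 5 / 64 * k + 2 * x - 3 * L)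
    (max (3 / 64 * k) (4 / 3 * (p - δ) - k + 5 / 192 * k + 2 / 3 * x - 3 * L)))
    (p - k - δ + k / 32) with h | h
  · left
    refine ⟨max_eq_right h, ?_⟩
    rcases min_le_iff.1 h with h | h
    · exact Or.inl h
    · exact Or.inr ((le_max_left _ _).trans h)
  · right
    rw [max_eq_left h]
    refine ⟨min_le_left _ _, ?_⟩
    rcases max_choice (3 / 64 * k) (4 / 3 * (p - δ) - k + 5 / 192 * k + 2 / 3 * x - 3 * L)
      with h | h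
    · left; rw [h]; exact min_le_right _ _
    · right; rw [h]; exact min_le_right _ _

/-- `H` is at least one of the two -/
lemma hQ_ge (k v p δ x L : ℝ) : p - k - δ + k / 32 ≤ hQ k v p δ x L ∧
    (2 * v - k - 4 * δ + 5 / 64 * k + 2 * x - 3 * L ≤ hQ k v p δ x L ∨
    (3 / 64 * k ≤ hQ k v p δ x L ∧
      4 / 3 * (p - δ) - k + 5 / 192 * k + 2 / 3 * x - 3 * L ≤ hQ k v p δ x L)) := by
  unfold hQ
  refine ⟨le_max_right _ _, ?_⟩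
  rcases min_choice (2 * v - k - 4 * δ + 5 / 64 * k + 2 * x - 3 * L)
    (max (3 / 64 * k) (4 / 3 * (p - δ) - k + 5 / 192 * k + 2 / 3 * x - 3 * L)) with h | h
  · left; rw [h]; exact le_max_left _ _
  · right; rw [h]
    exact ⟨(le_max_left _ _).trans (le_max_left _ _), (le_max_right _ _).trans (le_max_left _ _)⟩

lemma tQ_cases (K5 l n m : ℝ) : (tQ K5 l n m ≤ l + n + m ∨ tQ K5 l n m ≤ 5 / 3 * n + l / 3) ∧
    (tQ K5 l n m ≤ 2 * n ∨ tQ K5 l n m ≤ 4 / 3 * n + (K5 + l) / 3 ∨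
      (tQ K5 l n m ≤ 4 / 3 * n + (3 / 2 * l + l) / 3 ∧ K5 ≤ 3 / 2 * l)) := by
  unfold tQ
  refine ⟨le_max_iff.1 (min_le_right _ _), ?_⟩
  rcases le_total (2 * n) (4 / 3 * n + (max K5 (3 / 2 * l) + l) / 3) with h | h
  · rw [max_eq_right h]
    rcases le_total K5 (3 / 2 * l) with h2 | h2
    · rw [max_eq_right h2]; exact Or.inr (Or.inr ⟨min_le_left _ _, h2⟩)
    · rw [max_eq_left h2]; exact Or.inr (Or.inl (min_le_left _ _))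
  · rw [max_eq_left h]; exact Or.inl (min_le_left _ _)

lemma min3_le (z₁ z₂ z₃ : ℝ) : 3 * min z₁ (min z₂ z₃) ≤ z₁ + z₂ + z₃ := by
  have m1 : min z₁ (min z₂ z₃) ≤ z₁ := min_le_left _ _
  have m2 : min z₁ (min z₂ z₃) ≤ z₂ := (min_le_right _ _).trans (min_le_left _ _)
  have m3 : min z₁ (min z₂ z₃) ≤ z₃ := (min_le_right _ _).trans (min_le_right _ _)
  linarith

/-- the linear core of (T) -/
lemma coreT {k y₃ y₄ u x D t p v δ b l n m x' h L K5 M T : ℝ} (hD : Dh k y₃ y₄ u x D)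
    (t0 : 0 ≤ t) (t1 : t ≤ k / 20000) (v1 : v ≤ 2 * (y₃ + y₄ + u) - k + 3 * x + t)
    (v2 : v ≤ 3 / 4 * (y₃ + y₄ + u) + 3 * x + t) (δ0 : 0 ≤ δ) (b0 : 0 ≤ b)
    (hl : l ≤ v - 2 * δ + b + t) (x0' : 0 ≤ x') (x1' : x' ≤ x + t)
    (hn : n ≤ p - δ - b + t) (hm : 3 * (m - x') ≤ n - x') (M0 : 0 ≤ M) (M1 : b - k / 64 ≤ M)
    (L1 : 3 / 4 * D ≤ L) (L2 : 5 / 4 * (y₃ + y₄ + u) - k + 3 / 4 * D ≤ L)
    (hK : K5 = k ∨ K5 = 5 / 4 * (y₃ + y₄ + u)) (hK' : k ≤ K5)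
    (hh0 : p - k - δ + k / 32 ≤ h)
    (hh : 2 * v - k - 4 * δ + 5 / 64 * k + 2 * x - 3 * L ≤ h ∨
      (3 / 64 * k ≤ h ∧ 4 / 3 * (p - δ) - k + 5 / 192 * k + 2 / 3 * x - 3 * L ≤ h))
    (hT1 : T ≤ l + n + m ∨ T ≤ 5 / 3 * n + l / 3) (hT2 : T ≤ 2 * n ∨ T ≤ 4 / 3 * n + (K5 + l) / 3 ∨
      (T ≤ 4 / 3 * n + (3 / 2 * l + l) / 3 ∧ K5 ≤ 3 / 2 * l)) :
    -(h + p) / 3 + 4 / 3 * δ + 7 / 3 * b - 2 * M + T - l / 3 ≤ k / 3 + p + L + 10 * t := by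
  obtain ⟨k0, u4, y43, u0, y3, N1, near, x0, adm, d0, d1⟩ := hD
  rcases hT1 with hT1 | hT1
  swap
  · linarith
  rcases hh with hh | ⟨h1, h2⟩
  · linarith
  · rcases hT2 with hT2 | hT2 | ⟨hT2, hT3⟩
    · linarith
    · rcases hK with rfl | rfl <;> linarith
    · rcases adm with ⟨a0, rfl | a1⟩ | ⟨a1, a2, a3⟩ <;> linarith

/-- **(T)** -/
theorem tQ_le {k y₃ y₄ u x D t p v δ b l z₁ z₂ z₃ x' : ℝ} (hD : Dh k y₃ y₄ u x D)
    (t0 : 0 ≤ t) (t1 : t ≤ k / 20000) (v1 : v ≤ 2 * (y₃ + y₄ + u) - k + 3 * x + t)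
    (v2 : v ≤ 3 / 4 * (y₃ + y₄ + u) + 3 * x + t) (δ0 : 0 ≤ δ) (b0 : 0 ≤ b)
    (hl : l ≤ v - 2 * δ + b + t) (x0' : 0 ≤ x') (x1' : x' ≤ x + t)
    (hn : z₁ + z₂ + z₃ + x' ≤ p - δ - b + t) :
    -(hQ k v p δ x (LQ (y₃ + y₄ + u) k D) + p) / 3 + 4 / 3 * δ + 7 / 3 * b -
      2 * max 0 (b - k / 64) + tQ (max k (5 / 4 * (y₃ + y₄ + u))) l (z₁ + z₂ + z₃ + x')
        (min z₁ (min z₂ z₃) + x') - l / 3 ≤ k / 3 + p + LQ (y₃ + y₄ + u) k D + 10 * t := by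
  obtain ⟨L1, L2⟩ := LQ_ge (y₃ + y₄ + u) k D
  obtain ⟨hT1, hT2⟩ := tQ_cases (max k (5 / 4 * (y₃ + y₄ + u))) l (z₁ + z₂ + z₃ + x')
    (min z₁ (min z₂ z₃) + x')
  have hm := min3_le z₁ z₂ z₃
  exact coreT hD t0 t1 v1 v2 δ0 b0 hl x0' x1' hn (by linarith) (le_max_left _ _)
    (le_max_right _ _) L1 L2 (max_choice _ _) (le_max_left _ _) (hQ_ge _ _ _ _ _ _).1
    (hQ_ge _ _ _ _ _ _).2 hT1 hT2

/-- `H² V³ ≤ K²` -/
theorem th_le {k y₃ y₄ u x D t p v δ : ℝ} (hD : Dh k y₃ y₄ u x D)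
    (t0 : 0 ≤ t) (t1 : t ≤ k / 20000) (p1 : p ≤ y₃ + y₄ + u + x + t)
    (v1 : v ≤ 2 * (y₃ + y₄ + u) - k + 3 * x + t)
    (v2 : v ≤ 3 / 4 * (y₃ + y₄ + u) + 3 * x + t) (δ0 : 0 ≤ δ) :
    2 * hQ k v p δ x (LQ (y₃ + y₄ + u) k D) + 3 * v + k / 100 ≤ 2 * k := by
  obtain ⟨L1, L2⟩ := LQ_ge (y₃ + y₄ + u) k D
  have hh := hQ_le k v p δ x (LQ (y₃ + y₄ + u) k D)
  have hLQ := LQ_le hD
  generalize LQ (y₃ + y₄ + u) k D = L at *
  generalize hQ k v p δ x L = h at *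
  obtain ⟨k0, u4, y43, u0, y3, N1, near, x0, adm, d0, d1⟩ := hD
  rcases hh with ⟨rfl, hh2⟩ | ⟨hh1, hh2⟩
  · rcases adm with ⟨a0, rfl | a1⟩ | ⟨a1, a2, a3⟩ <;> linarith
  · rcases hh2 with hh2 | hh2 <;> rcases adm with ⟨a0, rfl | a1⟩ | ⟨a1, a2, a3⟩ <;> linarith

lemma gQ_cases (L I : ℝ) : gQ L I = L / 3 ∨ gQ L I = L - I / 2 ∨
    gQ L I = 7 / 9 * L - 2 / 3 * I ∨ gQ L I = 11 / 18 * L - I / 3 := by
  unfold gQ
  rcases max_choice (max (L / 3) (L - I / 2)) (max (7 / 9 * L - 2 / 3 * I) (11 / 18 * L - I / 3))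
    with h | h
  · rw [h]
    rcases max_choice (L / 3) (L - I / 2) with h2 | h2
    · exact Or.inl h2
    · exact Or.inr (Or.inl h2)
  · rw [h]
    rcases max_choice (7 / 9 * L - 2 / 3 * I) (11 / 18 * L - I / 3) with h2 | h2
    · exact Or.inr (Or.inr (Or.inl h2))
    · exact Or.inr (Or.inr (Or.inr h2))

set_option maxHeartbeats 8000000 in
/-- **the structured part, second form** (`w = log (H V)`, `S` bounds `l + x'`) -/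
lemma coreQ {k y₃ y₄ u x D t p v w δ e i n x' S : ℝ} (hD : Dh k y₃ y₄ u x D) (t0 : 0 ≤ t)
    (t1 : t ≤ k / 20000) (p1 : p ≤ y₃ + y₄ + u + x + t)
    (v1 : v ≤ 2 * (y₃ + y₄ + u) - k + 3 * x + t) (v2 : v ≤ 3 / 4 * (y₃ + y₄ + u) + 3 * x + t)
    (hw : w ≤ v + hQ k v p δ x (LQ (y₃ + y₄ + u) k D) + t) (hL : 0 ≤ w + v - k - δ + t)
    (δ0 : 0 ≤ δ) (e0 : 0 ≤ e) (e1 : e ≤ k / 64 + t)
    (x0' : 0 ≤ x') (x1' : x' ≤ x + t) (hn : n ≤ p - δ - e + t) (i0 : 0 ≤ i)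
    (hi : i ≤ w + p - k + t) (s1 : S - x' ≤ u + t) (s2 : 3 * (S - x') ≤ n - x')
    (s3 : 2 * (S - x') ≤ i) :
    2 / 3 * k - w / 3 + 5 / 3 * δ + 2 * e + gQ (w + v - k - δ) (w + p - k) + 2 / 3 * (p - δ) +
      (i + 3 / 4 * S + 61 / 100 * D) + (w + p - k - i) / 3 + k / 200 ≤
      k + p + LQ (y₃ + y₄ + u) k D := by
  obtain ⟨L1, L2⟩ := LQ_ge (y₃ + y₄ + u) k D
  have hh := hQ_le k v p δ x (LQ (y₃ + y₄ + u) k D)
  have hLQ := LQ_le hD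
  have hg := gQ_cases (w + v - k - δ) (w + p - k)
  generalize LQ (y₃ + y₄ + u) k D = L at *
  generalize hQ k v p δ x L = h at *
  generalize gQ (w + v - k - δ) (w + p - k) = g at *
  obtain ⟨k0, u4, y43, u0, y3, N1, near, x0, adm, d0, d1⟩ := hD
  rcases hh with ⟨rfl, hh2 | hh2⟩ | ⟨hh1, hh2⟩
  · exfalso
    rcases adm with ⟨a0, rfl | a1⟩ | ⟨a1, a2, a3⟩ <;> linarith
  · exfalso
    rcases adm with ⟨a0, rfl | a1⟩ | ⟨a1, a2, a3⟩ <;> linarith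
  rcases hg with rfl | rfl | rfl | rfl <;> rcases hh2 with hh2 | hh2 <;>
    rcases adm with ⟨a0, rfl | a1⟩ | ⟨a1, a2, a3⟩ <;> linarith

set_option maxHeartbeats 8000000 in
/-- the principal part -/
lemma coreQ2 {k y₃ y₄ u x D t p v w δ e x' : ℝ} (hD : Dh k y₃ y₄ u x D) (t0 : 0 ≤ t)
    (t1 : t ≤ k / 20000) (p0 : k / 2 - 2 * x - t ≤ p) (p1 : p ≤ y₃ + y₄ + u + x + t)
    (v1 : v ≤ 2 * (y₃ + y₄ + u) - k + 3 * x + t) (v2 : v ≤ 3 / 4 * (y₃ + y₄ + u) + 3 * x + t)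
    (hw : w ≤ v + hQ k v p δ x (LQ (y₃ + y₄ + u) k D) + t) (hL : 0 ≤ w + v - k - δ + t)
    (δ0 : 0 ≤ δ) (e0 : 0 ≤ e) (e1 : e ≤ k / 64 + t) (x0' : 0 ≤ x') (x1' : x' ≤ x + t) :
    2 / 3 * k - w / 3 + 5 / 3 * δ + 2 * e + gQ (w + v - k - δ) (w + p - k) + 2 / 3 * (p - δ) +
      max 0 ((w + p - k) / 3 + x') + k / 200 ≤ k + p + LQ (y₃ + y₄ + u) k D := by
  obtain ⟨L1, L2⟩ := LQ_ge (y₃ + y₄ + u) k D
  have hh := hQ_le k v p δ x (LQ (y₃ + y₄ + u) k D)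
  have hLQ := LQ_le hD
  have hg := gQ_cases (w + v - k - δ) (w + p - k)
  generalize LQ (y₃ + y₄ + u) k D = L at *
  generalize hQ k v p δ x L = h at *
  generalize gQ (w + v - k - δ) (w + p - k) = g at *
  have h0 : max 0 ((w + p - k) / 3 + x') = 0 ∨
      max 0 ((w + p - k) / 3 + x') = (w + p - k) / 3 + x' := max_choice _ _
  obtain ⟨k0, u4, y43, u0, y3, N1, near, x0, adm, d0, d1⟩ := hD
  rcases hh with ⟨rfl, hh2 | hh2⟩ | ⟨hh1, hh2⟩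
  · exfalso
    rcases adm with ⟨a0, rfl | a1⟩ | ⟨a1, a2, a3⟩ <;> linarith
  · exfalso
    rcases adm with ⟨a0, rfl | a1⟩ | ⟨a1, a2, a3⟩ <;> linarith
  rcases h0 with h0 | h0 <;> rw [h0] <;>
  rcases hg with rfl | rfl | rfl | rfl <;> rcases hh2 with hh2 | hh2 <;>
    rcases adm with ⟨a0, rfl | a1⟩ | ⟨a1, a2, a3⟩ <;> linarith

end Crest.Agent.R017.P1Q904
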