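import Crest.Agent.R017.P1G_90
import Crest.Agent.R017.P1Ga_90
import Crest.Agent.R017.RnPe_571

/-!
# Row 17, R8: the class-form Gram sum, the `R`-half (helper90)

* `coreL_g`, `coreL2_g` : helper904's `coreL`, `coreL2` at any room, cost `2 e`
* `lnr_G` : the real line of helper571
* **`rn2_G`** : (RH) and the number of the structured part
-/

set_option autoImplicit false
set_option linter.unusedVariables false

noncomputable section

open Finset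

namespace Crest.Agent.R017.P1G90

open Crest.Agent.R012 Crest.Agent.R012.Eis
open Crest.Agent.R012.LS2 (S mem_S bl mem_bl)
open Crest.Agent.R017.FE47 (PU SM)
open Crest.Agent.R017.CM106
open Crest.Agent.R017.XG702 (Pcs BG)
open Crest.Agent.R017.Prov71
open Crest.Agent.R017.B770
open Crest.Agent.R017.ER911 Crest.Agent.R017.ExpC702
open Crest.Agent.R017.XPD571 (RP0)
open Crest.Agent.R017.HP842 (Pc pc sqc al alL)
open Crest.Agent.R017.E5B71 (Pt)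
open Crest.Agent.R017.RM986 (Plain)
open Crest.Agent.R017.R3571 (RMm)
open Crest.Agent.R017.Mode405 (Slp)
open Crest.Agent.R017.PX764 (n6)
open Crest.Agent.R017.E3Z548 (FH)
open Crest.Agent.R017.E3Sz579 (Ld Md)
open Crest.Agent.R017.E3Hf290 (RN2F)
open Crest.Agent.R017.TM708 (PD)
open Crest.Agent.R017.I1146 (LN)
open Crest.Agent.R017.RnP571
open Crest.Agent.R017.P1Q904 (gQ gQ_cases min3_le)
open Crest.Agent.R017.P1L904

/-- the lower bound of the room -/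
def RG (N k q p um x D G : ℝ) : Prop :=
  2 * (k + p + max 0 (5 / 4 * N - k) - (k - q) / 3) + 2 / 45 * D - RSm k q p um x ≤ G

theorem coreL_g {k y₃ y₄ u x D t q p um v w δ e i n x' S G : ℝ} (hD : Dh k y₃ y₄ u x D)
    (t0 : 0 ≤ t) (t1 : t ≤ k / 20000) (q0 : 3 / 5 * k - t ≤ q) (q1 : q ≤ 17 / 20 * k + t)
    (p0 : k / 2 - 2 * x - t ≤ p) (p1 : p ≤ y₃ + y₄ + u + x + t) (p2 : p ≤ y₃ + y₄ + um + x + t)
    (um0 : 0 ≤ um) (um1 : um ≤ u + t) (um2 : 3 * um ≤ p + t)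
    (v1 : v ≤ 2 * (y₃ + y₄ + u) - k + 11 / 5 * x + t)
    (v2 : v ≤ 3 / 4 * (y₃ + y₄ + u) + 11 / 5 * x + t)
    (hG : RG (y₃ + y₄ + u) k q p um x D G)
    (hw : w ≤ v + hL q v p δ x (max k (5 / 4 * (y₃ + y₄ + u))) G + t)
    (hL' : 0 ≤ w + v - q - δ + t)
    (δ0 : 0 ≤ δ) (e0 : 0 ≤ e) (e1 : e ≤ k / 64 + t)
    (x0' : 0 ≤ x') (x1' : x' ≤ x + t) (hn : n ≤ p - δ - e + t) (i0 : 0 ≤ i)
    (hi : i ≤ w + p - q + t) (s1 : S - x' ≤ u + t) (s2 : 3 * (S - x') ≤ n - x')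
    (s3 : 2 * (S - x') ≤ i) :
    2 / 3 * q - w / 3 + 5 / 3 * δ + 2 * e + gQ (w + v - q - δ) (w + p - q) + 2 / 3 * (p - δ) +
      (i + 3 / 4 * S + 61 / 100 * D) + (w + p - q - i) / 3 + k / 200 ≤ G := by
  have hg := gQ_cases (w + v - q - δ) (w + p - q)
  rcases hL_le q v p δ x (max k (5 / 4 * (y₃ + y₄ + u))) G
    with ⟨h, h'⟩ | ⟨h, h'⟩
  · exact (coreEg hD t0 t1 q0 q1 p0 p1 p2 um0 um1 um2 v1 v2 (max_choice _ _) (le_max_left _ _)
      (le_max_right _ _) (rG hG) (RSm_le1 _ _ _ _ _) h h' hw hL' δ0).elim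
  · exact coreR1g hD t0 t1 q0 q1 p0 p1 p2 um0 um1 um2 v1 v2 (max_choice _ _) (le_max_left _ _)
      (le_max_right _ _) (rG hG) (RSm_le1 _ _ _ _ _) h h' hw hL' δ0 e0 e1 x0' x1'
      hn i0 hi s1 s2 s3 hg

/-- the principal part -/
theorem coreL2_g {k y₃ y₄ u x D t q p um v w δ e x' G : ℝ} (hD : Dh k y₃ y₄ u x D)
    (t0 : 0 ≤ t) (t1 : t ≤ k / 20000) (q0 : 3 / 5 * k - t ≤ q) (q1 : q ≤ 17 / 20 * k + t)
    (p0 : k / 2 - 2 * x - t ≤ p) (p1 : p ≤ y₃ + y₄ + u + x + t) (p2 : p ≤ y₃ + y₄ + um + x + t)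
    (um0 : 0 ≤ um) (um1 : um ≤ u + t) (um2 : 3 * um ≤ p + t)
    (v1 : v ≤ 2 * (y₃ + y₄ + u) - k + 11 / 5 * x + t)
    (v2 : v ≤ 3 / 4 * (y₃ + y₄ + u) + 11 / 5 * x + t)
    (hG : RG (y₃ + y₄ + u) k q p um x D G)
    (hw : w ≤ v + hL q v p δ x (max k (5 / 4 * (y₃ + y₄ + u))) G + t)
    (hL' : 0 ≤ w + v - q - δ + t)
    (δ0 : 0 ≤ δ) (e0 : 0 ≤ e) (e1 : e ≤ k / 64 + t) (x0' : 0 ≤ x') (x1' : x' ≤ x + t) :
    2 / 3 * q - w / 3 + 5 / 3 * δ + 2 * e + gQ (w + v - q - δ) (w + p - q) + 2 / 3 * (p - δ) +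
      max 0 ((w + p - q) / 3 + x') + k / 200 ≤ G := by
  have hg := gQ_cases (w + v - q - δ) (w + p - q)
  have hN := hL_ng hD t0 t1 q0 q1 p0 p1 p2 um0 um1 um2 v1 v2 hG δ0
  have hM : max 0 ((w + p - q) / 3 + x') ≤ 7 / 20 * k := by
    obtain ⟨k0, u4, y43, u0, y3, N1, near, x0, adm, d0, d1⟩ := hD
    refine max_le (by linarith) ?_
    rcases adm with ⟨a0, rfl | a1⟩ | ⟨a1, a2, a3⟩ <;> linarith
  rcases hL_le q v p δ x (max k (5 / 4 * (y₃ + y₄ + u))) G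
    with ⟨h, h'⟩ | ⟨h, h'⟩
  · exact (coreEg hD t0 t1 q0 q1 p0 p1 p2 um0 um1 um2 v1 v2 (max_choice _ _) (le_max_left _ _)
      (le_max_right _ _) (rG hG) (RSm_le1 _ _ _ _ _) h h' hw hL' δ0).elim
  · exact coreR2g hD t0 t1 q0 q1 p0 p1 p2 um0 um1 um2 v1 v2 (max_choice _ _) (le_max_left _ _)
      (le_max_right _ _) (rG hG) (RSm_le1 _ _ _ _ _) h h' hw hL' δ0 e0 e1 hM hg

set_option maxHeartbeats 1600000 in
/-- **the real line of the class form** -/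
theorem lnr_G {d k q y₃ y₄ u x t p um v h δ e z₁ z₂ z₃ w G : ℝ} (hD : Dh k y₃ y₄ u x (d * k))
    (t0 : 0 ≤ t) (t1 : t ≤ k / 80000) (q0 : 3 / 5 * k - t ≤ q) (q1 : q ≤ 17 / 20 * k + t)
    (p0 : k / 2 - 2 * x - t ≤ p)
    (p1 : p ≤ y₃ + y₄ + u + x + 4 * t) (p2 : p ≤ y₃ + y₄ + um + x + 4 * t)
    (um0 : 0 ≤ um) (um1 : um ≤ u + t) (um2 : 3 * um ≤ p + t)
    (v1 : v ≤ 2 * (y₃ + y₄ + u) - k + 11 / 5 * x + t)
    (v2 : v ≤ 3 / 4 * (y₃ + y₄ + u) + 11 / 5 * x + t)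
    (hG : RG (y₃ + y₄ + u) k q p um x (d * k) G)
    (hh : h ≤ hL q v p δ x (max k (5 / 4 * (y₃ + y₄ + u))) G + t) (hL : 0 ≤ h + 2 * v - q - δ)
    (δ0 : 0 ≤ δ) (e0 : 0 ≤ e) (e1 : e ≤ k / 64 + t) (z3 : z₃ ≤ u + t) (w1 : w ≤ x + t) :
    LnR (EN d) g2 G q v h p δ e z₁ z₂ z₃ w t := by
  have hk0 := hD.k0
  have hdk := hD.d0
  have hd0 : 0 ≤ d := by
    by_contra h0
    push Not at h0
    nlinarith
  set W : ℝ := v + h with hW
  have a1 : h + 2 * v - q - δ = W + v - q - δ := by rw [hW]; ring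
  have a2 : p + v + h - q = W + p - q := by rw [hW]; ring
  have hg : g2 (h + 2 * v - q - δ) (p + v + h - q) = gQ (W + v - q - δ) (W + p - q) := by
    rw [g2_eq, a1, a2]
  have hNn : Nn g2 q v h p δ e = 2 / 3 * q - W / 3 + 5 / 3 * δ + 2 * e +
      gQ (W + v - q - δ) (W + p - q) + 2 / 3 * (p - δ) := by
    unfold Nn
    rw [hg, hW]
    ring
  have t4 : 4 * t ≤ k / 20000 := by linarith
  have t40 : 0 ≤ 4 * t := by linarith
  have b1 : k / 2 - 2 * x - 4 * t ≤ p := by linarith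
  have b2 : v ≤ 2 * (y₃ + y₄ + u) - k + 11 / 5 * x + 4 * t := by linarith
  have b3 : v ≤ 3 / 4 * (y₃ + y₄ + u) + 11 / 5 * x + 4 * t := by linarith
  have b4 : W ≤ v + P1L904.hL q v p δ x (max k (5 / 4 * (y₃ + y₄ + u))) G + 4 * t := by
    rw [hW]; linarith
  have b5 : 0 ≤ W + v - q - δ + 4 * t := by rw [← a1]; linarith
  have b6 : e ≤ k / 64 + 4 * t := by linarith
  have b7 : 3 / 5 * k - 4 * t ≤ q := by linarith
  have b8 : q ≤ 17 / 20 * k + 4 * t := by linarith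
  have b9 : um ≤ u + 4 * t := by linarith
  have b10 : 3 * um ≤ p + 4 * t := by linarith
  refine ⟨?_, ?_⟩
  · have h1 := coreL2_g (x' := 0) hD t40 t4 b7 b8 b1 p1 p2 um0 b9 b10 b2 b3 hG b4 b5 δ0 e0 b6
      le_rfl (by have := hD.x0; linarith)
    have h2 : 0 ≤ max 0 ((W + p - q) / 3 + 0) := le_max_left _ _
    rw [hNn]
    linarith
  · intro i q₁ q₂ q₃ x' i0 hi q10 q1' q20 q2 q30 q3 x0' x1 hn
    rw [hNn, a2]
    rw [a2] at hi
    unfold EN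
    have hx1 : x' ≤ x + 4 * t := by linarith
    have hn' : q₁ + q₂ + q₃ + x' ≤ p - δ - e + 4 * t := by linarith
    have hi' : i ≤ W + p - q + 4 * t := by linarith
    have key1 : RM986.r3 d i q₁ q₂ q₃ 0 x' + (W + p - q - i) / 3 +
        (2 / 3 * q - W / 3 + 5 / 3 * δ + 2 * e + gQ (W + v - q - δ) (W + p - q) +
          2 / 3 * (p - δ)) ≤ G + (q₁ + q₂ + q₃ + x') := by
      have h1 := RM986.r3_le_P1 (d := d) (m := 0) (a := x') i0 q10 q20 q30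
      set ζ₁ := min q₁ i
      set ζ₂ := min q₂ i
      set ζ₃ := min q₃ i
      have c1 : ζ₁ ≤ q₁ := min_le_left _ _
      have c2 : ζ₂ ≤ q₂ := min_le_left _ _
      have c3 : ζ₃ ≤ q₃ := min_le_left _ _
      obtain ⟨l1, l2, l3, l4, l5, l6⟩ := P1F904.l3_le i ζ₁ ζ₂ ζ₃
      unfold P1R904.r3 at h1
      rw [zero_add] at h1
      generalize P1R904.l3 i ζ₁ ζ₂ ζ₃ = l at h1 l1 l2 l3 l4 l5 l6
      have hS : l + x' ≤ 305 / 1000 * k := by
        obtain ⟨k0, u4, y43, u0, y3, N1, near, x0, adm, d0, d1⟩ := hD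
        rcases adm with ⟨a0, -⟩ | ⟨-, a2', -⟩ <;> linarith
      have hdS : (3 / 4 + 2 * d) * (l + x') ≤ 3 / 4 * (l + x') + 61 / 100 * (d * k) := by
        have := mul_le_mul_of_nonneg_left hS hd0
        nlinarith
      have key := coreL_g (S := l + x') (i := i) (n := q₁ + q₂ + q₃ + x') (x' := x') hD t40 t4
        b7 b8 b1 p1 p2 um0 b9 b10 b2 b3 hG b4 b5 δ0 e0 b6 x0' hx1 hn' i0 hi' (by linarith)
        (by linarith) (by linarith)
      linarith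
    have key2 : i / 3 + 2 * x' + 2 * (7 / 8 + d) * 0 + (W + p - q - i) / 3 +
        (2 / 3 * q - W / 3 + 5 / 3 * δ + 2 * e + gQ (W + v - q - δ) (W + p - q) +
          2 / 3 * (p - δ)) ≤ G + (q₁ + q₂ + q₃ + x') := by
      have key := coreL2_g (x' := x') hD t40 t4 b7 b8 b1 p1 p2 um0 b9 b10 b2 b3 hG b4 b5 δ0 e0
        b6 x0' hx1
      have h2 : (W + p - q) / 3 + x' ≤ max 0 ((W + p - q) / 3 + x') := le_max_right _ _
      linarith
    rcases max_choice (RM986.r3 d i q₁ q₂ q₃ 0 x') (i / 3 + 2 * x' + 2 * (7 / 8 + d) * 0) with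
      h0 | h0 <;> rw [h0]
    · exact key1
    · exact key2

section

variable {Λ : Type*} {π : Λ → DPar} {h : ℝ → ℝ}

set_option maxHeartbeats 1000000 in
/-- **(RH) and the number of the structured part of the class form** -/
theorem rn2_G {c₀ : ℝ} (hpu : PU h c₀) (hP : ∀ lam, (π lam).OK) {s : EF} {dd : ℝ}
    (R : ExpRules (7 / 8 + dd) (ex Dq (fun lam => Rp (π lam) h)) s)
    (hcolP : ∀ (i : ℝ) (u : List ℝ) (m a : ℝ), 0 ≤ i → Okl u m a →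
      BG Dq (RP0 π h) i u (wt m a) (2 * a + 2 * (7 / 8 + dd) * m)) (hd : 0 ≤ dd)
    (hd8 : dd ≤ 1 / 8) {ε : ℝ} (hε : 0 < ε) (hε1 : ε ≤ 1 / 160000) :
    ∃ τ : ℝ, 0 < τ ∧ τ ≤ ε ∧ ∀ (lam : Λ) (t : Eis), t ≠ 0 → ∀ (N : ℕ) (B : ℝ),
      ∃ (M a A₀ : ℕ), 1 ≤ a ∧ ∀ c : ℝ, 1 ≤ c → ∃ X₀ : ℝ, 1 < X₀ ∧ ∀ X : ℝ, X₀ ≤ X →
      ∀ (b : Fin 5 → ℝ) (q : Eis) (us : Fin 3 → Pq) (gs : List Pq) (κ H : ℝ),
      PD X τ B H N b q us gs κ → Dh (b 0) (b 1) (b 2) (b 3) (b 4) (dd * b 0) → 1 / 2 ≤ b 0 →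
      b 0 ≤ 2 → (b 0 / 2 - 2 * b 4 - ε) * Real.log X ≤ LN ([us 0, us 1, us 2] ++ gs) →
      ∀ (K V um G : ℝ) (Hf : Eis → Eis → ℝ), 0 < K → 0 < V → (∀ d e, 0 < Hf d e) →
      (3 / 5 * b 0 - ε) * Real.log X ≤ Real.log K → Real.log K ≤ (17 / 20 * b 0 + ε) * Real.log X →
      Real.log V ≤ (min (2 * (b 1 + b 2 + b 3) - b 0) (3 / 4 * (b 1 + b 2 + b 3)) +
        11 / 5 * b 4 + ε) * Real.log X →
      um = min (us 0).z (min (us 1).z (us 2).z) →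
      RG (b 1 + b 2 + b 3) (b 0) (Real.log K / Real.log X)
        (LN ([us 0, us 1, us 2] ++ gs) / Real.log X) (um / Real.log X) (b 4) (dd * b 0) G →
      ∀ Pr : Eis → Eis → Prop,
      (∀ d e, Pr d e → IsPrim d ∧ IsPrim e ∧ (nm d : ℝ) ≤ X ^ B ∧ (nm e : ℝ) ≤ X ^ B) →
      (∀ d e, Pr d e → Real.log (nm e) ≤ (b 0 / 64 + ε) * Real.log X) →
      (∀ d e, Pr d e → Real.exp (LN ([us 0, us 1, us 2] ++ gs)) * V * Hf d e / K ≤
        X ^ (8 : ℝ)) →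
      (∀ d e, Pr d e → 1 ≤ Ld K V (Hf d e) d →
        Real.log (Hf d e) ≤ (hL (Real.log K / Real.log X) (Real.log V / Real.log X)
          (LN ([us 0, us 1, us 2] ++ gs) / Real.log X) (Real.log (nm d) / Real.log X) (b 4)
          (max (b 0) (5 / 4 * (b 1 + b 2 + b 3))) G + ε) * Real.log X) →
      ∃ W0 : Eis → Eis → ℝ → ℝ, (∀ d e, Slp a (W0 d e)) ∧
      (∀ A : ℕ, A₀ ≤ A → ∀ d e, Pr d e → ∀ γ φ, IsPrim γ → IsPrim φ → (nm φ : ℝ) ≤ X ^ B →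
        ∀ P : ℝ, 0 < P → (nm γ : ℝ) * n6 γ ^ 2 * ∑ k ∈ bl P, RMm A (fun j =>
            sqc q (alL h (([us 0, us 1, us 2] ++ gs).map (Pt (π lam) t))) (d * j)) e γ φ k ≤
          W0 d e P) ∧
      ∀ d e, Pr d e →
        FH K (Hf d e) V * RN2F c K V (Real.exp (LN ([us 0, us 1, us 2] ++ gs))) Hf W0 d e ≤
        H ^ M * X ^ (G + ε) / (nm d * nm e) := by
  have PL : Plain (fun _ k => k ≠ 0) π h ((8 : ℝ) + 2) (EN dd) :=
    RM986.rm_RF hpu hP R hcolP hd hd8 _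
  have hcE : Continuous (fun q : (Fin 4 → ℝ) × (Kd → ℝ) =>
      EN dd (q.1 0) (q.1 1) (q.1 2) (q.1 3) (q.2 .mo) (q.2 .am)) := RM986.cont_E3c dd
  obtain ⟨τ, hτ0, hτε, HR⟩ := rn2_pd hpu hP (Kc := 8) (by norm_num) PL hcE hε (by linarith)
  refine ⟨τ, hτ0, hτε, fun lam t ht N B => ?_⟩
  obtain ⟨M, a, A₀, ha, HR⟩ := HR lam t ht N B
  refine ⟨M, a, A₀, ha, fun c hc => ?_⟩
  obtain ⟨X₁, hX₁, HR⟩ := HR c hc
  refine ⟨X₁, hX₁, ?_⟩
  intro X hX b q us gs κ H hPD hD hb0 hb02 hp0 K V um G Hf hK hV hHf hK1 hK2 hVb humd hG Pr hPr he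
    hsz hHQ
  have hX1 : 1 < X := by linarith
  have hL : 0 < Real.log X := Real.log_pos hX1
  set L := Real.log X with hLd
  have hbi : ∀ i, b i + τ ≤ 8 := by
    obtain ⟨k0, u4, y43, u0, y3, N1, near, x0, adm, d0, d1⟩ := hD
    have hu0 : 0 ≤ b 3 := by linarith
    intro i
    fin_cases i
    · show b 0 + τ ≤ 8; linarith
    · show b 1 + τ ≤ 8; linarith
    · show b 2 + τ ≤ 8; linarith
    · show b 3 + τ ≤ 8; linarith
    · show b 4 + τ ≤ 8; linarith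
  have hn : LN ([us 0, us 1, us 2] ++ gs) = (us 0).z + (us 1).z + (us 2).z + LN gs := by
    unfold I1146.LN
    simp only [List.cons_append, List.nil_append, List.map_cons, List.sum_cons]
    ring
  have hgs0 : 0 ≤ LN gs := by
    unfold I1146.LN
    refine List.sum_nonneg fun x hx => ?_
    obtain ⟨p, hp, rfl⟩ := List.mem_map.1 hx
    exact (hPD.am p hp).2.1
  set p : ℝ := LN ([us 0, us 1, us 2] ++ gs) / L with hp
  set v : ℝ := Real.log V / L with hv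
  have hpL : p * L = LN ([us 0, us 1, us 2] ++ gs) := div_mul_cancel₀ _ hL.ne'
  have h1 := hPD.z1
  have h2 := hPD.z2
  have h3 := hPD.z3
  have h4 := hPD.x
  have h5 : τ * L ≤ ε * L := mul_le_mul_of_nonneg_right hτε hL.le
  have g1 : b 0 / 2 - 2 * b 4 - ε ≤ p := by
    rw [hp, le_div_iff₀ hL]; exact hp0
  have g2' : p ≤ b 1 + b 2 + b 3 + b 4 + 4 * ε := by
    rw [hp, div_le_iff₀ hL, hn]
    linarith
  have m1 : um ≤ (us 0).z := humd ▸ min_le_left _ _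
  have m2 : um ≤ (us 1).z := humd ▸ (min_le_right _ _).trans (min_le_left _ _)
  have m3 : um ≤ (us 2).z := humd ▸ (min_le_right _ _).trans (min_le_right _ _)
  have m0 : 0 ≤ um := by
    rw [humd]
    exact le_min (hPD.us0 0) (le_min (hPD.us0 1) (hPD.us0 2))
  have hεL : 0 ≤ ε * L := by positivity
  have g2'' : p ≤ b 1 + b 2 + um / L + b 4 + 4 * ε := by
    have hb21 : b 2 ≤ b 1 := hD.y43
    have hb32 : b 3 ≤ b 2 := hD.u4
    have hbL1 := mul_le_mul_of_nonneg_right hb21 hL.le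
    have hbL2 := mul_le_mul_of_nonneg_right hb32 hL.le
    have e1 : (b 1 + b 2 + um / L + b 4 + 4 * ε) * L =
        b 1 * L + b 2 * L + um + b 4 * L + 4 * (ε * L) := by
      field_simp
    rw [hp, div_le_iff₀ hL, hn, e1]
    rw [humd]
    rcases min_choice (us 0).z (min (us 1).z (us 2).z) with hc | hc
    · rw [hc]; linarith
    · rw [hc]
      rcases min_choice (us 1).z (us 2).z with hc' | hc'
      · rw [hc']; linarith
      · rw [hc']; linarith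
  have g3 : v ≤ min (2 * (b 1 + b 2 + b 3) - b 0) (3 / 4 * (b 1 + b 2 + b 3)) +
      11 / 5 * b 4 + ε := by
    rw [hv, div_le_iff₀ hL]; exact hVb
  have g4 : v ≤ 2 * (b 1 + b 2 + b 3) - b 0 + 11 / 5 * b 4 + ε := by
    have := min_le_left (2 * (b 1 + b 2 + b 3) - b 0) (3 / 4 * (b 1 + b 2 + b 3))
    linarith
  have g5 : v ≤ 3 / 4 * (b 1 + b 2 + b 3) + 11 / 5 * b 4 + ε := by
    have := min_le_right (2 * (b 1 + b 2 + b 3) - b 0) (3 / 4 * (b 1 + b 2 + b 3))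
    linarith
  refine HR X hX b q us gs κ H hPD hbi K V Hf (fun _ _ => G) hK hV hHf Pr hPr hsz ?_
  intro d e hde h1'
  obtain ⟨pd, pe, hdB, ne⟩ := hPr d e hde
  have nd1 : (1 : ℝ) ≤ nm d := by exact_mod_cast nm_pos.2 pd.ne_zero
  have ne1 : (1 : ℝ) ≤ nm e := by exact_mod_cast nm_pos.2 pe.ne_zero
  have hHf0 := hHf d e
  refine lnr_G hD hε.le (by linarith) ?_ ?_ g1 g2' g2'' (div_nonneg m0 hL.le) ?_ ?_ g4 g5 hG ?_ ?_
    (div_nonneg (Real.log_nonneg nd1) hL.le) (div_nonneg (Real.log_nonneg ne1) hL.le) ?_ ?_ ?_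
  · rw [le_div_iff₀ hL]; exact hK1
  · rw [div_le_iff₀ hL]; exact hK2
  · rw [div_le_iff₀ hL]
    linarith
  · have e1 : 3 * (um / L) = 3 * um / L := by ring
    rw [e1, div_le_iff₀ hL, add_mul, hpL, hn]
    have : 0 ≤ ε * L := by positivity
    linarith
  · rw [div_le_iff₀ hL]
    exact hHQ d e hde h1'
  · have h2 := Real.log_nonneg h1'
    rw [log_Ld hK hV hHf0 pd.ne_zero] at h2
    unfold lL at h2
    have e1 : Real.log (Hf d e) / L + 2 * v - Real.log K / L - Real.log (nm d) / L =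
        (Real.log (Hf d e) + 2 * Real.log V - Real.log K - Real.log (nm d)) / L := by
      rw [hv]; ring
    rw [e1]
    exact div_nonneg h2 hL.le
  · rw [div_le_iff₀ hL]
    exact he d e hde
  · rw [div_le_iff₀ hL]
    linarith
  · rw [div_le_iff₀ hL]
    linarith

end

end Crest.Agent.R017.P1G90
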