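import Crest.Agent.R017.ET4d_90
import Crest.Agent.R017.P1Gb_90
import Crest.Agent.R017.E3Nd_146
import Crest.Agent.R017.ET3b_71
import Crest.Agent.R017.ET3c_71
import Crest.Agent.R017.E3Kh_548
import Crest.Agent.R017.GHP_90

/-!
# Row 17, R8: the class half of `et` (helper90), part 1

* `Dh_scale`, `hL_hom`, `hL_lip`, `RG_units` ; **`lnT_G`** : the `T`-lines
-/

set_option autoImplicit false

noncomputable section

open Finset

namespace Crest.Agent.R017.ET590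

open Crest.Agent.R017.RnP571 (Dh)
open Crest.Agent.R017.P1L904 (hL RSm tL)
open Crest.Agent.R017.P1G90
open Crest.Agent.R017.E3N146 (ShT ShT_le)
open Crest.Agent.R017.ET490 (LnT)
open Crest.Agent.R017.ET371 (RSk RSk_scale)

lemma Dh_scale {k y₃ y₄ u x D L : ℝ} (hL : 0 < L) (h : Dh k y₃ y₄ u x D) :
    Dh (k * L) (y₃ * L) (y₄ * L) (u * L) (x * L) (D * L) := by
  obtain ⟨k0, u4, y43, u0, y3, N1, near, x0, adm, d0, d1⟩ := h
  have m : ∀ {a b : ℝ}, a ≤ b → a * L ≤ b * L := fun h => mul_le_mul_of_nonneg_right h hL.le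
  have m1 := m u0
  have m2 := m y3
  have m3 := m N1
  have m4 := m near
  have m5 := m d1
  refine ⟨by positivity, m u4, m y43, by linarith, by linarith, by linarith, by linarith,
    by positivity, ?_, by positivity, by linarith⟩
  rcases adm with ⟨a0, h | a1⟩ | ⟨a1, a2, a3⟩
  · refine Or.inl ⟨by linarith [m a0], Or.inl (by rw [h, zero_mul])⟩
  · refine Or.inl ⟨by linarith [m a0], Or.inr (by linarith [m a1])⟩
  · exact Or.inr ⟨by linarith [m a1], by linarith [m a2], by linarith [m a3]⟩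

lemma hL_hom {L : ℝ} (h0 : 0 ≤ L) (q v p δ x K5 G : ℝ) :
    hL (q * L) (v * L) (p * L) (δ * L) (x * L) (K5 * L) (G * L) = hL q v p δ x K5 G * L := by
  unfold P1L904.hL
  have e1 : max (K5 * L) (4 / 3 * (p * L) + 2 / 3 * (x * L) - 4 / 3 * (δ * L)) =
      max K5 (4 / 3 * p + 2 / 3 * x - 4 / 3 * δ) * L := by
    rw [max_mul_of_nonneg _ _ h0]
    congr 1
    ring
  rw [max_mul_of_nonneg _ _ h0, min_mul_of_nonneg _ _ h0, e1]
  congr 1
  · ring
  · congr 1 <;> ring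

lemma hL_lip {q v p δ δ' x K5 G : ℝ} :
    hL q v p δ x K5 G ≤ hL q v p δ' x K5 G + 4 * |δ - δ'| := by
  unfold P1L904.hL
  have h0 := abs_nonneg (δ - δ')
  have h1 := neg_abs_le (δ - δ')
  have e1 := le_max_left (2 * q + 4 * p - δ' - 3 * G)
    (min (2 * q + 2 * v + 3 * p + 2 * x - 4 * δ' - 3 * G)
      (2 * q + 3 * p + max K5 (4 / 3 * p + 2 / 3 * x - 4 / 3 * δ') - 3 * G))
  have e2 := le_max_right (2 * q + 4 * p - δ' - 3 * G)
    (min (2 * q + 2 * v + 3 * p + 2 * x - 4 * δ' - 3 * G)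
      (2 * q + 3 * p + max K5 (4 / 3 * p + 2 / 3 * x - 4 / 3 * δ') - 3 * G))
  have e3 : max K5 (4 / 3 * p + 2 / 3 * x - 4 / 3 * δ) ≤
      max K5 (4 / 3 * p + 2 / 3 * x - 4 / 3 * δ') + 4 * |δ - δ'| := by
    have g1 := le_max_left K5 (4 / 3 * p + 2 / 3 * x - 4 / 3 * δ')
    have g2 := le_max_right K5 (4 / 3 * p + 2 / 3 * x - 4 / 3 * δ')
    exact max_le (by linarith) (by linarith)
  have e4 : min (2 * q + 2 * v + 3 * p + 2 * x - 4 * δ - 3 * G)
      (2 * q + 3 * p + max K5 (4 / 3 * p + 2 / 3 * x - 4 / 3 * δ) - 3 * G) ≤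
      min (2 * q + 2 * v + 3 * p + 2 * x - 4 * δ' - 3 * G)
        (2 * q + 3 * p + max K5 (4 / 3 * p + 2 / 3 * x - 4 / 3 * δ') - 3 * G) +
        4 * |δ - δ'| := by
    rw [← min_add_add_right]
    exact min_le_min (by linarith) (by linarith)
  exact max_le (by linarith) (by linarith)

lemma RG_units {L N k q p um x D G : ℝ} (hL : 0 < L)
    (h : RG (N * L) (k * L) q p um (x * L) (D * L) G) :
    RG N k (q / L) (p / L) (um / L) x D (G / L) := by
  unfold RG at h ⊢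
  rw [le_div_iff₀ hL]
  have e1 : RSm k (q / L) (p / L) (um / L) x * L = RSm (k * L) q p um (x * L) := by
    have := RSk_scale (L := L) (κ := k) (k := q / L) (p := p / L) (u := um / L) (x := x) hL.le
    rw [div_mul_cancel₀ _ hL.ne', div_mul_cancel₀ _ hL.ne', div_mul_cancel₀ _ hL.ne'] at this
    exact this.symm
  have e2 : max 0 (5 / 4 * N - k) * L = max 0 (5 / 4 * (N * L) - k * L) := by
    rw [max_mul_of_nonneg _ _ hL.le, zero_mul]
    congr 1
    ring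
  refine le_trans (le_of_eq ?_) h
  rw [← e1, ← e2]
  field_simp

/-- **the `T`-lines and the line of the diagonal** -/
theorem lnT_G {κ y₃ y₄ u x D t q p um v G k5 δ E tc : ℝ} (hD : Dh κ y₃ y₄ u x D)
    (t0 : 0 ≤ t) (t1 : t ≤ κ / 20000) (q0 : 3 / 5 * κ - t ≤ q) (q1 : q ≤ 17 / 20 * κ + t)
    (p0 : κ / 2 - 2 * x - t ≤ p) (p1 : p ≤ y₃ + y₄ + u + x + t) (p2 : p ≤ y₃ + y₄ + um + x + t)
    (um0 : 0 ≤ um) (um1 : um ≤ u + t) (um2 : 3 * um ≤ p + t)
    (v1 : v ≤ 2 * (y₃ + y₄ + u) - κ + 11 / 5 * x + t)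
    (v2 : v ≤ 3 / 4 * (y₃ + y₄ + u) + 11 / 5 * x + t)
    (hG : RG (y₃ + y₄ + u) κ q p um x D G) (hk5 : k5 = max κ (5 / 4 * (y₃ + y₄ + u)))
    (δ0 : 0 ≤ δ) (htc : tc ≤ t) :
    LnT (ShT k5 x um p) q v (hL q v p δ x k5 G) p E δ tc (G + 12 * t) ∧
    ∀ b l : ℝ, 0 ≤ b → 0 ≤ l → l ≤ v - 2 * δ + tc →
      2 / 3 * q - v / 3 + ShT k5 x um p δ b l + 2 * δ - max 0 (b - E) - p / 3 ≤
        G + 12 * t - κ / 60 := by
  have hx0 := hD.x0
  have key : ∀ b l : ℝ, 0 ≤ b → ShT k5 x um p δ b l ≤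
      max (tL k5 b (l + b) (p - δ - b) (min (um + x) ((p - δ - b) / 3 + 2 / 3 * x)))
        (l + b + (p - δ - b)) := by
    intro b l _
    have h1 := ShT_le (k5 := k5) (x := x) (um := um) (p := p) (γ := δ) (b := b) (l := l + b)
      (m := min (um + x) ((p - δ - b) / 3 + 2 / 3 * x)) le_rfl
    rw [add_sub_cancel_right] at h1
    exact h1
  have hm : ∀ b : ℝ, 3 * (min (um + x) ((p - δ - b) / 3 + 2 / 3 * x) - x) ≤ p - δ - b - x := by
    intro b
    have := min_le_right (um + x) ((p - δ - b) / 3 + 2 / 3 * x)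
    linarith
  have H0 : ∀ b l : ℝ, 0 ≤ b → l ≤ v - 2 * δ + tc →
      ET490.lw0 q v (hL q v p δ x k5 G) + ShT k5 x um p δ b l + 2 * δ - p / 3 ≤ G + 12 * t := by
    intro b l hb hl
    have h1 := c0_g (b := b) (v' := l) (n := p - δ - b)
      (m := min (um + x) ((p - δ - b) / 3 + 2 / 3 * x)) (x' := x)
      (T := ShT k5 x um p δ b l) (h := hL q v p δ x k5 G) (G := G) hD t0 t1 q0 q1 p0 p1 p2 um0 um1
      um2 v1 v2 δ0 hb (by linarith) hx0 (by linarith) (by linarith) (hm b) hG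
      (by rw [← hk5]; exact key b l hb) (by rw [hk5])
    exact h1
  refine ⟨⟨fun b l hb hl0 hl => ?_, fun b l hb hl0 hl => ?_⟩, fun b l hb hl0 hl => ?_⟩
  · have h1 := H0 b l hb hl
    have h2 := le_max_left 0 (b - E)
    linarith
  · have h1 := c1_g (b := b) (v' := l) (n := p - δ - b)
      (m := min (um + x) ((p - δ - b) / 3 + 2 / 3 * x)) (x' := x)
      (T := ShT k5 x um p δ b l) (h := hL q v p δ x k5 G) (G := G) hD t0 t1 q0 q1 p0 p1 p2 um0 um1
      um2 v1 v2 δ0 hb (by linarith) hx0 (by linarith) (by linarith) (hm b) hG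
      (by rw [← hk5]; exact key b l hb) (by rw [hk5])
    have h2 := le_max_left 0 (b - E)
    have h3 : ET490.lw1 q v (hL q v p δ x k5 G) = P1L904.lw1 q v (hL q v p δ x k5 G) := rfl
    rw [h3]
    linarith
  · have h1 := H0 b l hb hl
    have h2 := le_max_left 0 (b - E)
    have h3 := hL_ng (G := G) (δ := δ) hD t0 t1 q0 q1 p0 p1 p2 um0 um1 um2 v1 v2 hG δ0
    rw [← hk5] at h3
    have h4 : 2 / 3 * q - (hL q v p δ x k5 G + v) / 3 ≤ ET490.lw0 q v (hL q v p δ x k5 G) :=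
      (le_max_left _ _).trans (le_max_right _ _)
    linarith

end Crest.Agent.R017.ET590
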