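import Crest.Agent.R017.TUK_47

/-!
# Row 17, R8: `TailU`, the inputs of the three-lump side, final form (helper47)

* `SIn2`, `SIn4` : `k ≤ 7/10 κ`, exponents `g2b + 1/384`, `g4c + 1/192`
* `SInA` : all families, exponent `g2b + 1/8` (for the principal `k`)
* `SPIn'` : `7/10 κ ≤ k ≤ 17/20 κ`, exponent `ESP`
-/

set_option autoImplicit false

noncomputable section

namespace Crest.Agent.R017.TU47

open Crest.Agent.R012 Crest.Agent.R012.Eis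
open Crest.Agent.R017.FE47
open Crest.Agent.R017.XT71 (Sys Win)
open Crest.Agent.R017.B770 Crest.Agent.R017.Prov71
open Crest.Agent.R017.E5B71 Crest.Agent.R017.E5L770
open Crest.Agent.R017.RQ702 (g4c)

variable {Λ : Type*} (π : Λ → DPar)

/-- `e`-th moment of the structured function at `k₁ m³`, families with `C κ k`, exponent `g` -/
def SInC (Sf : ℕ → SF Λ) (A d : ℝ) (e : ℕ) (C : ℝ → ℝ → ℝ → Prop)
    (g : (Option (Fin 3 ⊕ Fin 5) → ℝ) × (Kd → ℝ) → ℝ → ℝ) : Prop :=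
  ∀ R : Λ → ℝ, (∀ lam, 0 ≤ R lam) → ∀ ε : ℝ, 0 < ε → ∃ δ : ℝ, 0 < δ ∧
    ∀ (lam : Λ × Eis) (N : ℕ) (B : ℝ), ∃ δ' : ℝ, 0 < δ' ∧ ∃ X₀ : ℝ, 1 < X₀ ∧
    ∀ X : ℝ, X₀ ≤ X → ∀ (a : Bd × ℕ) (q : (Option (Fin 3 ⊕ Fin 5) → ℝ) × (Kd → ℝ)),
      FrT A d δ δ' B X N a q → lam.2 ∈ SM (π lam.1).n →
      ∀ m : Eis, IsPrim m → (nm m : ℝ) ^ 3 ≤ Real.exp (a.1.l + R lam.1) →
      C (cκ (dn q.1)) (kf a.1.l (R lam.1) X m) δ →
      ∑ k ∈ KS (π lam.1).n (Real.exp (a.1.l - R lam.1)) (Real.exp (a.1.l + R lam.1)) m,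
          ‖(Sf a.2).at lam a.1 (k * m ^ 3)‖ ^ e ≤ X ^ (g q (kf a.1.l (R lam.1) X m) + ε)

/-- second moment, `k ≤ 7/10 κ` -/
def SIn2 (Sf : ℕ → SF Λ) (A d : ℝ) : Prop :=
  SInC π Sf A d 2 (fun κ k _ => k ≤ 7 / 10 * κ) fun q k =>
    g2b d (q.1 none) (cN (dn q.1)) k + 1 / 384

/-- fourth moment, `k ≤ 7/10 κ` -/
def SIn4 (Sf : ℕ → SF Λ) (A d : ℝ) : Prop :=
  SInC π Sf A d 4 (fun κ k _ => k ≤ 7 / 10 * κ) fun q k =>
    g4c d (q.1 none) (cN (dn q.1)) k + 1 / 192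

/-- second moment, all families -/
def SInA (Sf : ℕ → SF Λ) (A d : ℝ) : Prop :=
  SInC π Sf A d 2 (fun _ _ _ => True) fun q k => g2b d (q.1 none) (cN (dn q.1)) k + 1 / 8

/-- **second moment needed for `7/10 κ ≤ k ≤ 17/20 κ`** -/
def SPIn' (Sf : ℕ → SF Λ) (A d μ : ℝ) : Prop :=
  SInC π Sf A d 2 (fun κ k δ => 7 / 10 * κ ≤ k ∧ k ≤ 17 / 20 * κ + δ) fun q k =>
    ESP d μ q (min k (17 / 20 * cκ (dn q.1)))

end Crest.Agent.R017.TU47
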