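import Crest.Agent.R017.TSd_968
import Crest.Agent.R017.TUP2_47

/-!
# Row 17, R8 (helper968): the inputs `SIn2`, `SIn4`, `SInA` of `TailU` (class N)

* `top_le` : the levels of the exact square are `≤ 3/4 N`
* `own_of` : `Own` from helper90's `own_all`
* **`sIn2`**, **`sIn4`**, **`sInA`** : helper47's inputs for one level `SfV π h e0 r Bf Jf i`
-/

set_option autoImplicit false

noncomputable section

open Finset

namespace Crest.Agent.R017.TSc968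

open Crest.Agent.R012 Crest.Agent.R012.Eis
open Crest.Agent.R017.C70
open Crest.Agent.R017.Prov71
open Crest.Agent.R017.B770
open Crest.Agent.R017.FE47 (PU cx SM)
open Crest.Agent.R017.ER911 Crest.Agent.R017.SC777
open Crest.Agent.R017.TM708
open Crest.Agent.R017.E5B71
open Crest.Agent.R017.E5L770
open Crest.Agent.R017.TU47
open Crest.Agent.R017.RQ702 (g4c)

variable {Λ : Type*} {π : Λ → DPar} {h : ℝ → ℝ}

/-- **the levels are at most `3/4 N`** -/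
theorem top_le {A d : ℝ} (hd : 0 ≤ d) (hd1 : d ≤ 1 / 8) (hA1 : 16 * (1 - A) ≤ d) :
    ∀ q ∈ SqL A d, q.1 none ≤ 3 / 4 * cN (dn q.1) := by
  intro q hq
  have f := fct hd hd1 hA1 hq
  have g1 := f.κ0
  have h1 := f.vt
  unfold E5L770.top5 at h1
  have h2 := min_le_left (2 * cN (dn q.1) - cκ (dn q.1)) (3 / 4 * cN (dn q.1))
  have h3 := min_le_right (2 * cN (dn q.1) - cκ (dn q.1)) (3 / 4 * cN (dn q.1))
  rcases f.x with h0 | ⟨x1, x2, x3⟩
  · rw [h0] at h1; linarith only [h1, h3]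
  · linarith only [h1, h2, x1, x2, g1]

/-- **the own numbers from the rules** -/
theorem own_of {d : ℝ} {r s s₀ : EF} (R : ExpRules (7 / 8 + d) r s)
    (Rm : ExpRGFz (7 / 8 + d) r s s₀) (hd : 0 ≤ d) (hd8 : 8 * d ≤ 1)
    (hN : OwA90.NearOwn d s₀) : Own s₀ d := fun _ _ _ _ hv h1 h2 h3 =>
  OwA90.own_all R Rm hd hd8 hN hv h1 h2 h3 (le_max_left _ _)
    ((le_max_left _ _).trans (le_max_right _ _)) ((le_max_right _ _).trans (le_max_right _ _))

lemma m2_le {d v N k : ℝ} (hd : 0 ≤ d) (hN : 0 ≤ N) : m2 d v N k ≤ g2b d v N k := by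
  have h1 : 5 / 4 * N ≤ kT v N := le_max_left _ _
  have h2 := le_max_left (2 * N) (4 / 3 * N + (v + kT v N) / 3)
  have h3 := mul_le_mul_of_nonneg_left h1 hd
  have h4 := mul_nonneg hd hN
  unfold m2 TU47.g2b TU47.tT
  linarith only [h1, h2, h3, h4]

lemma m4_le {d v N k : ℝ} (hd : 0 ≤ d) (hN : 0 ≤ N) : m4 d v N k ≤ g4c d v N k := by
  have h1 : 5 / 4 * N ≤ kT v N := le_max_left _ _
  have h2 := le_max_left (2 * N) (4 / 3 * N + (v + kT v N) / 3)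
  have h3 := mul_le_mul_of_nonneg_left h1 hd
  have h4 := mul_nonneg hd hN
  unfold m4 RQ702.g4c TU47.tT
  linarith only [h1, h2, h3, h4]

section

variable {c₁ : ℝ} (hpu : PU h c₁) (hP : ∀ lam, (π lam).OK) {A d : ℝ} (hd : 0 ≤ d)
  (hd1 : d ≤ 1 / 8) (hA1 : 16 * (1 - A) ≤ d) (hown : Own (ex Dq fun lam => S0p (π lam) h) d)
  {e0 : ℝ} (he0 : 0 ≤ e0) (he1 : e0 ≤ 1 / 64) (r : ℝ) {Bf : ℝ → ℝ → ℝ → ℝ}
  (hBf : ∀ l N z, Bf l N z ≤ bfO l N z) {Jf : ℝ → ℝ → ℝ → Finset (Eis × Eis)}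
  (hJf : ∀ l N z, OKJ (Jf l N z))
include hpu hP hd hd1 hA1 hown he0 he1 hBf hJf

/-- **second moment, `k ≤ 7/10 κ`** -/
theorem sIn2 : SIn2 π (fun i => SfV π h e0 r Bf Jf i) A d := by
  intro R hR ε hε
  obtain ⟨δ, hδ, H⟩ := sinN hpu hP hd hd1 hA1 hown (top_le hd hd1 hA1) he0 he1 r hBf hJf
    (τ₀ := 1 / 384) le_rfl (by norm_num) R hR ε hε
  refine ⟨δ, hδ, fun lam N B => ?_⟩
  obtain ⟨δ', hδ', X₀, hX₀, H'⟩ := H lam N B
  refine ⟨δ', hδ', X₀, hX₀, fun X hX a q hF hs m hm hmX hk => ?_⟩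
  have f := fct hd hd1 hA1 hF.dom
  have f1 := f.κ0
  have f2 := f.N0
  have hk' : kf a.1.l (R lam.1) X m ≤ 7 / 10 * cκ (dn q.1) := hk
  refine (H' X hX a q hF hs m hm hmX (by linarith only [hk', f1, f2, hδ])).1.trans
    (Real.rpow_le_rpow_of_exponent_le (by linarith only [hX, hX₀]) ?_)
  have := m2_le (v := q.1 none) (k := kf a.1.l (R lam.1) X m) hd
    (by linarith only [f1, f2] : 0 ≤ cN (dn q.1))
  show _ ≤ g2b d (q.1 none) (cN (dn q.1)) (kf a.1.l (R lam.1) X m) + 1 / 384 + ε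
  linarith only [this]

/-- **fourth moment, `k ≤ 7/10 κ`** -/
theorem sIn4 : SIn4 π (fun i => SfV π h e0 r Bf Jf i) A d := by
  intro R hR ε hε
  obtain ⟨δ, hδ, H⟩ := sinN hpu hP hd hd1 hA1 hown (top_le hd hd1 hA1) he0 he1 r hBf hJf
    (τ₀ := 1 / 384) le_rfl (by norm_num) R hR ε hε
  refine ⟨δ, hδ, fun lam N B => ?_⟩
  obtain ⟨δ', hδ', X₀, hX₀, H'⟩ := H lam N B
  refine ⟨δ', hδ', X₀, hX₀, fun X hX a q hF hs m hm hmX hk => ?_⟩
  have f := fct hd hd1 hA1 hF.dom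
  have f1 := f.κ0
  have f2 := f.N0
  have hk' : kf a.1.l (R lam.1) X m ≤ 7 / 10 * cκ (dn q.1) := hk
  refine (H' X hX a q hF hs m hm hmX (by linarith only [hk', f1, f2, hδ])).2.trans
    (Real.rpow_le_rpow_of_exponent_le (by linarith only [hX, hX₀]) ?_)
  have := m4_le (v := q.1 none) (k := kf a.1.l (R lam.1) X m) hd
    (by linarith only [f1, f2] : 0 ≤ cN (dn q.1))
  show _ ≤ g4c d (q.1 none) (cN (dn q.1)) (kf a.1.l (R lam.1) X m) + 1 / 192 + ε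
  linarith only [this]

/-- **second moment, all families** -/
theorem sInA : SInA π (fun i => SfV π h e0 r Bf Jf i) A d := by
  intro R hR ε hε
  obtain ⟨δ₁, hδ₁, H⟩ := sinN hpu hP hd hd1 hA1 hown (top_le hd hd1 hA1) he0 he1 r hBf hJf
    (τ₀ := 1 / 8) (by norm_num) (by norm_num) R hR ε hε
  obtain ⟨δ, hδ, e1, e2⟩ : ∃ δ : ℝ, 0 < δ ∧ δ ≤ δ₁ ∧ δ ≤ 1 / 100 :=
    ⟨min δ₁ (1 / 100), lt_min hδ₁ (by norm_num), min_le_left _ _, min_le_right _ _⟩
  refine ⟨δ, hδ, fun lam N B => ?_⟩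
  obtain ⟨δ', hδ', X₀, hX₀, H'⟩ := H lam N B
  obtain ⟨L₀, hL₀⟩ : ∃ L₀ : ℝ, L₀ = 100 * R lam.1 + 1 := ⟨_, rfl⟩
  refine ⟨δ', hδ', max X₀ (Real.exp L₀), lt_max_of_lt_left hX₀,
    fun X hX a q hF hs m hm hmX _ => ?_⟩
  have hXX : X₀ ≤ X := (le_max_left _ _).trans hX
  have hXe : Real.exp L₀ ≤ X := (le_max_right _ _).trans hX
  have hX1 : 1 < X := lt_of_lt_of_le hX₀ hXX
  have hL : 0 < Real.log X := Real.log_pos hX1
  have hLL : L₀ ≤ Real.log X := (Real.le_log_iff_exp_le (by linarith only [hX1])).2 hXe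
  have f := fct hd hd1 hA1 hF.dom
  have f0 := f.κ1
  have f1 := f.κ0
  have f2 := f.N0
  have hF' : FrT A d δ₁ δ' B X N a q := ⟨hF.dom, hF.win.mono hX1.le e1 le_rfl le_rfl le_rfl, hF.ok,
    hF.lvl⟩
  have hm1 : (1 : ℝ) ≤ nm m := by exact_mod_cast nm_pos.2 hm.ne_zero
  have hk : kf a.1.l (R lam.1) X m ≤ cκ (dn q.1) + δ + 1 / 100 := by
    have h1 := (abs_le.1 (ac_of hF).κ).2
    have h2 : kf a.1.l (R lam.1) X m ≤ a.1.l / Real.log X + R lam.1 / Real.log X := by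
      unfold TU47.kf
      rw [← add_div]
      refine div_le_div_of_nonneg_right ?_ hL.le
      have := Real.log_nonneg hm1
      linarith only [this]
    have h3 : R lam.1 / Real.log X ≤ 1 / 100 := by
      rw [div_le_iff₀ hL]
      linarith only [hLL, hL₀]
    linarith only [h1, h2, h3]
  refine (H' X hXX a q hF' hs m hm hmX (by linarith only [hk, f0, f1, f2, hδ₁, e2])).1.trans
    (Real.rpow_le_rpow_of_exponent_le hX1.le ?_)
  have := m2_le (v := q.1 none) (k := kf a.1.l (R lam.1) X m) hd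
    (by linarith only [f1, f2] : 0 ≤ cN (dn q.1))
  show _ ≤ g2b d (q.1 none) (cN (dn q.1)) (kf a.1.l (R lam.1) X m) + 1 / 8 + ε
  linarith only [this]

end

end Crest.Agent.R017.TSc968
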