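import Crest.Agent.R017.NEh_73
import Crest.Agent.R017.OwA_90
import Crest.Agent.R017.P10e_146
import Crest.Agent.R017.TSe_968

/-!
# Row 17, class N: the flat claims from the field of near-equal lists (helper986)

* `NearAll d s₀` : helper73's field `NEF` on the whole domain `NearDom`
* `nearOwn_of` : helper90's `NearOwn`; `own_of_near` : helper968's `Own`
* `fe2L_of` : `FE2L s₀ D5 (3/4 d b₀)` (helper708, helper146)
-/

set_option autoImplicit false

noncomputable section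

namespace Crest.Agent.R017.NrA986

open Crest.Agent.R017.ER911 Crest.Agent.R017.SC777
open Crest.Agent.R017.NE73
open Crest.Agent.R017.TM708 (T5 K5 R5 FE2L)
open Crest.Agent.R017.FN708
open Crest.Agent.R017.P10146 (D5)

/-- **the field of near-equal lists** -/
def NearAll (d : ℝ) (s₀ : EF) : Prop :=
  ∀ κ S y₁ y₂ y₃ : ℝ, NearDom κ S y₁ y₂ y₃ → NEF s₀ κ S y₁ y₂ y₃ (2 * d * y₃)

variable {d : ℝ} {r s s₀ : EF}

/-- **the near claims at the own family** -/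
theorem nearOwn_of (R : ExpRules (7 / 8 + d) r s) (Rm : ExpRGFz (7 / 8 + d) r s s₀)
    (hd : 0 ≤ d) (hd8 : 8 * d ≤ 1) (hG : NearAll d s₀) : OwA90.NearOwn d s₀ := by
  intro K v z₁ z₂ z₃ hK hv h3 h32 h21 hn h5 hkv hz
  exact flat_own R Rm hd hd8 hG (n := z₁ + z₂ + z₃) hK h3 h32 h21 rfl hv (Or.inl hz) h5 hkv
    (by linarith) (by linarith)

/-- **the own numbers** -/
theorem own_of_near (R : ExpRules (7 / 8 + d) r s) (Rm : ExpRGFz (7 / 8 + d) r s s₀)
    (hd : 0 ≤ d) (hd8 : 8 * d ≤ 1) (hG : NearAll d s₀) : TSc968.Own s₀ d :=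
  TSc968.own_of R Rm hd hd8 (nearOwn_of R Rm hd hd8 hG)

/-- **the near part of the flat claims** -/
theorem nearL_of (R : ExpRules (7 / 8 + d) r s) (Rm : ExpRGFz (7 / 8 + d) r s s₀)
    (hd : 0 ≤ d) (hd8 : 8 * d ≤ 1) (hG : NearAll d s₀) :
    NearL s₀ D5 fun b => 3 / 4 * d * b 0 := by
  rintro b ⟨hR5, h5s, k1, k2, b32, b21, hb1⟩ v z₁ z₂ z₃ n hv h3 h32 h21 hn hz hs hnear hlev
  obtain ⟨k0, y1, y2, y3, x0, hN', x1, adm⟩ := hR5
  obtain ⟨K, hK⟩ : ∃ K, K = max (K5 b) (v + n / 2) := ⟨_, rfl⟩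
  have hK1 : K5 b ≤ K := by rw [hK]; exact le_max_left _ _
  have hK2 : v + n / 2 ≤ K := by rw [hK]; exact le_max_right _ _
  have hk1 : b 0 ≤ K5 b := le_max_left _ _
  have hk2 : 5 / 4 * (b 1 + b 2 + b 3) ≤ K5 b := le_max_right _ _
  have m1 := min_le_left (2 * (b 1 + b 2 + b 3) - b 0) (3 / 4 * (b 1 + b 2 + b 3))
  have m2 := min_le_right (2 * (b 1 + b 2 + b 3) - b 0) (3 / 4 * (b 1 + b 2 + b 3))
  have hz' : z₁ ≤ b 1 := by
    refine hz.trans (max_le le_rfl (max_le b21 (b32.trans b21)))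
  unfold T5 at hlev
  have hv3 : 3 * v ≤ 2 * K5 b := by
    rcases h5s with h | h
    · linarith
    · linarith
  have h := flat_own R Rm hd hd8 hG (K := K) (v := v) (z₁ := z₁) (z₂ := z₂) (z₃ := z₃) (n := n)
    (by linarith) h3 h32 h21 hn hv (Or.inl (by linarith)) (by linarith) hK2 (by linarith)
    (by linarith)
  rw [← hK]
  have h4 : d * z₃ ≤ d * (3 / 8 * b 0) := mul_le_mul_of_nonneg_left (by linarith) hd
  show _ ≤ _ + 3 / 4 * d * b 0
  linarith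

/-- **the flat claims** (helper708's `FE2L`) -/
theorem fe2L_of (R : ExpRules (7 / 8 + d) r s) (Rm : ExpRGFz (7 / 8 + d) r s s₀)
    (hd : 0 ≤ d) (hd8 : 8 * d ≤ 1) (hG : NearAll d s₀) :
    FE2L s₀ D5 fun b => 3 / 4 * d * b 0 := by
  refine FE2L_of_near R Rm hd hd8 (fun b hb => hb.1) (fun b hb => hb.2.1) ?_
    (nearL_of R Rm hd hd8 hG)
  rintro b ⟨hR5, -⟩
  obtain ⟨k0, y1, y2, y3, x0, hN', x1, adm⟩ := hR5
  have h4 : d * ((b 1 + b 2 + b 3) / 3 + b 4) ≤ d * (3 / 8 * b 0) :=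
    mul_le_mul_of_nonneg_left (by linarith) hd
  show _ ≤ 3 / 4 * d * b 0
  linarith

end Crest.Agent.R017.NrA986
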