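import Crest.Agent.R017.GkB_575
import Crest.Agent.R017.ET3d_71
import Crest.Agent.R017.P10e_146
import Crest.Agent.R017.NrA_986
import Crest.Agent.R017.P1DomS_918

/-!
# Row 17, R8: `et` of the exact square, class N (helper90)

* `D6`, `D6_compact`, `bP_mem6`
* **`etU_N`** : `EtU π h (1/64) (ParS A d) (LS0 d)`
-/

set_option autoImplicit false

noncomputable section

namespace Crest.Agent.R017.ET690

open Crest.Agent.R012 Crest.Agent.R012.Eis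
open Crest.Agent.R017.FE47 (PU cx)
open Crest.Agent.R017.XG702 (BG)
open Crest.Agent.R017.Prov71
open Crest.Agent.R017.B770
open Crest.Agent.R017.ER911 Crest.Agent.R017.ExpC702
open Crest.Agent.R017.XPD571 (RP0)
open Crest.Agent.R017.SC777
open Crest.Agent.R017.NE73
open Crest.Agent.R017.E5B71
open Crest.Agent.R017.P1l54
open Crest.Agent.R017.TM708 (K5 R5 FE2L)
open Crest.Agent.R017.FN708
open Crest.Agent.R017.P1t54 (ParS LS0 parOK_Sq5)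
open Crest.Agent.R017.P10146 (D5 D5_compact sq_facts bP bP_mem EtU)
open Crest.Agent.R017.P1V5176 (Dm5)
open Crest.Agent.R017.RnP571 (Dh)
open Crest.Agent.R017.NrA986 (NearAll)

/-- the parameters of `et` -/
def D6 (d : ℝ) : Set (Fin 5 → ℝ) :=
  {b | b ∈ D5 ∧ b 0 ≤ 1 ∧ 2 / 9 * b 0 ≤ b 3 ∧ b 1 ≤ 2 / 7 * b 0 ∧
    b 1 + b 2 + b 3 ≤ 84 / 103 * b 0 ∧ 3 / 4 * b 0 ≤ b 1 + b 2 + b 3 ∧
    99 / 100 * b 0 ≤ b 1 + b 2 + 2 * b 3 ∧
    (b 4 ≤ 0 ∨ (b 4 + 2 * (d * b 0) ≤ 1 / 36 * b 0 ∧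
      b 4 + 7 / 10 * (b 1 + b 2 + b 3) ≤ 199 / 360 * b 0 ∧
      b 1 + b 2 + b 3 + b 4 ≤ 15 / 19 * b 0 ∧ b 1 + b 4 ≤ 2 / 7 * b 0))}

lemma D6_compact (d : ℝ) : IsCompact (D6 d) := by
  have c : ∀ i : Fin 5, Continuous fun b : Fin 5 → ℝ => b i := fun i => continuous_apply i
  have hle : ∀ {f g : (Fin 5 → ℝ) → ℝ}, Continuous f → Continuous g → IsClosed {b | f b ≤ g b} :=
    fun hf hg => isClosed_le hf hg
  refine D5_compact.inter_right ?_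
  exact (hle (by fun_prop) (by fun_prop)).inter ((hle (by fun_prop) (by fun_prop)).inter
    ((hle (by fun_prop) (by fun_prop)).inter ((hle (by fun_prop) (by fun_prop)).inter
    ((hle (by fun_prop) (by fun_prop)).inter ((hle (by fun_prop) (by fun_prop)).inter
    ((hle (by fun_prop) (by fun_prop)).union ((hle (by fun_prop) (by fun_prop)).inter
    ((hle (by fun_prop) (by fun_prop)).inter ((hle (by fun_prop) (by fun_prop)).inter
    (hle (by fun_prop) (by fun_prop)))))))))))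

/-- the base point -/
theorem bP_mem6 {A d : ℝ} (hd : 0 ≤ d) (hd1 : d ≤ 1 / 8) (hA : A ≤ 1) (hA1 : 16 * (1 - A) ≤ d)
    {p : Fin 3 ⊕ Fin 5 → ℝ} (hp : p ∈ ParS A d) : bP p ∈ D6 d := by
  have h5 := bP_mem hd hd1 hA1 hp
  obtain ⟨k0, k1, u4, u34, u23, y27, n0, n1, x0, hx⟩ := sq_facts hd hd1 hA1 hp
  obtain ⟨w, hw⟩ := hp
  have hκ := hw.κpos
  obtain ⟨g1, g2, g3, g4, g5, g6, g7, g8, g9, g10⟩ := hw.dm5 hd hd1 hA hA1
  have hs := hw.shrA hd hd1 hA1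
  have eN : cN p = cu p 2 + cu p 3 + cu p 4 := rfl
  rw [le_div_iff₀ hκ] at g3
  have en : cu p 2 / cκ p + cu p 3 / cκ p + 2 * (cu p 4 / cκ p) =
      (cu p 2 + cu p 3 + 2 * cu p 4) / cκ p := by ring
  rw [en, le_div_iff₀ hκ] at g6
  rw [eN] at n0 n1 hs
  refine ⟨h5, k1, ?_, y27, n1, n0, g6, ?_⟩
  · show 2 / 9 * cκ p ≤ cu p 4
    linarith
  · show cx' p ≤ 0 ∨ (cx' p + 2 * (d * cκ p) ≤ 1 / 36 * cκ p ∧
      cx' p + 7 / 10 * (cu p 2 + cu p 3 + cu p 4) ≤ 199 / 360 * cκ p ∧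
      cu p 2 + cu p 3 + cu p 4 + cx' p ≤ 15 / 19 * cκ p ∧ cu p 2 + cx' p ≤ 2 / 7 * cκ p)
    rcases hs with h | ⟨h1, h2, h3, h4⟩
    · exact Or.inl h.le
    · right
      have e1 : cx' p / cκ p + 2 * d = (cx' p + 2 * (d * cκ p)) / cκ p := by
        field_simp
      have e2 : cx' p / cκ p + 7 / 10 * ((cu p 2 + cu p 3 + cu p 4) / cκ p) =
          (cx' p + 7 / 10 * (cu p 2 + cu p 3 + cu p 4)) / cκ p := by ring
      rw [e1, div_le_iff₀ hκ] at h1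
      rw [e2, div_le_iff₀ hκ] at h2
      rw [← add_div, div_le_iff₀ hκ] at h3 h4
      exact ⟨h1, h2, h4, h3⟩

/-- helper571's domain -/
lemma dh6 {d : ℝ} (hd : 0 ≤ d) (hd1 : d ≤ 1 / 42) {b : Fin 5 → ℝ} (hb : b ∈ D6 d) :
    Dh (b 0) (b 1) (b 2) (b 3) (b 4) (d * b 0) := by
  obtain ⟨⟨⟨k0, y1, y2, y3, x0, hN, x1, adm⟩, -, h23, -, b32, b21, -⟩, h1, h2, h3, h4, h5, h6, h7⟩ :=
    hb
  refine ⟨by linarith, b32, b21, by linarith, ?_, by linarith, h6, x0, ?_, by positivity, ?_⟩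
  · rcases h7 with h | ⟨a1, a2, a3, a4⟩ <;> linarith
  · rcases h7 with h | ⟨a1, a2, a3, a4⟩
    · left
      have : b 4 = 0 := le_antisymm h x0
      exact ⟨by rw [this, mul_zero]; positivity, Or.inl this⟩
    · exact Or.inr ⟨h5, a1, a2⟩
  · exact mul_le_mul_of_nonneg_right (by linarith) k0

/-- helper176's domain -/
lemma dm6 {d : ℝ} (hd : 0 ≤ d) (hd1 : d ≤ 1 / 42) {b : Fin 5 → ℝ} (hb : b ∈ D6 d) :
    Dm5 (b 1 / b 0) (b 2 / b 0) (b 3 / b 0) (b 4 / b 0) d := by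
  obtain ⟨⟨⟨k0, y1, y2, y3, x0, hN, x1, adm⟩, -, h23, -, b32, b21, -⟩, h1, h2, h3, h4, h5, h6, h7⟩ :=
    hb
  have hb0 : 0 < b 0 := by linarith
  have e3 : b 1 / b 0 + b 2 / b 0 + b 3 / b 0 = (b 1 + b 2 + b 3) / b 0 := by ring
  have e4 : b 1 / b 0 + b 2 / b 0 + 2 * (b 3 / b 0) = (b 1 + b 2 + 2 * b 3) / b 0 := by ring
  refine ⟨div_le_div_of_nonneg_right b32 k0, div_le_div_of_nonneg_right b21 k0, ?_, ?_, ?_, ?_,
    by positivity, ?_, hd, hd1⟩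
  · rw [le_div_iff₀ hb0]; exact h2
  · rw [div_le_iff₀ hb0]; exact h3
  · rw [e3, div_le_iff₀ hb0]; exact h4
  · rw [e4, le_div_iff₀ hb0]; exact h6
  · rw [e3]
    rcases h7 with h | ⟨a1, a2, a3, a4⟩
    · left
      have : b 4 = 0 := le_antisymm h x0
      rw [this, zero_div]
    · right; left
      have e1 : b 4 / b 0 + 2 * d = (b 4 + 2 * (d * b 0)) / b 0 := by
        field_simp
      have e2 : b 4 / b 0 + 7 / 10 * ((b 1 + b 2 + b 3) / b 0) =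
          (b 4 + 7 / 10 * (b 1 + b 2 + b 3)) / b 0 := by ring
      refine ⟨?_, ?_, ?_, ?_⟩
      · rw [e1, div_le_iff₀ hb0]; exact a1
      · rw [e2, div_le_iff₀ hb0]; exact a2
      · rw [← add_div, div_le_iff₀ hb0]; exact a3
      · rw [← add_div, div_le_iff₀ hb0]; exact a4

/-- the loss of the flat claims -/
lemma l6 {d : ℝ} (hd : 0 ≤ d) {b : Fin 5 → ℝ} (hb : b ∈ D6 d) :
    2 * d * ((b 1 + b 2 + b 3) / 3 + b 4) ≤ 5 / 9 * (d * b 0) := by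
  obtain ⟨⟨⟨k0, y1, y2, y3, x0, hN, x1, adm⟩, -⟩, h1, h2, h3, h4, h5, h6, h7⟩ := hb
  have h : (b 1 + b 2 + b 3) / 3 + b 4 ≤ 5 / 18 * b 0 := by
    have hdb : 0 ≤ d * b 0 := by positivity
    rcases h7 with h | ⟨a1, a2, a3, a4⟩ <;> linarith
  have := mul_le_mul_of_nonneg_left h hd
  linarith

/-- **`et` of the exact square, class N** -/
theorem etU_N {Λ : Type*} {π : Λ → DPar} {h : ℝ → ℝ} {c₀ : ℝ} (hpu : PU h c₀)
    (hP : ∀ lam, (π lam).OK) {d A : ℝ}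
    (R : ExpRules (7 / 8 + d) (ex Dq (fun lam => Rp (π lam) h)) (ex Dq (fun lam => Sp (π lam) h)))
    (Rm : ExpRGFz (7 / 8 + d) (ex Dq (fun lam => Rp (π lam) h)) (ex Dq (fun lam => Sp (π lam) h))
      (ex Dq (fun lam => S0p (π lam) h)))
    (hcolP : ∀ (i : ℝ) (u : List ℝ) (m a : ℝ), 0 ≤ i → Okl u m a →
      BG Dq (RP0 π h) i u (wt m a) (2 * a + 2 * (7 / 8 + d) * m))
    (hd : 0 ≤ d) (hd1 : d ≤ 1 / 42) (hA0 : A ≤ 1) (hA : 9 / 10 ≤ A) (hA1 : 16 * (1 - A) ≤ d)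
    (hG : NearAll d (ex Dq (fun lam => S0p (π lam) h)))
    {Rh : ℝ} (hRh0 : 0 ≤ Rh) (hRh : ∀ u : ℝ, cx h u ≠ 0 → |u| ≤ Rh) :
    EtU π h (1 / 64) (ParS A d) (LS0 d) := by
  have hℓ : Continuous fun b : Fin 5 → ℝ => 5 / 9 * (d * b 0) := by fun_prop
  have hℓ0 : ∀ b ∈ D6 d, (0 : ℝ) ≤ 5 / 9 * (d * b 0) := by
    rintro b ⟨⟨h1, -⟩, -⟩
    have := h1.k0
    positivity
  have hFE : FE2L (ex Dq fun lam => S0p (π lam) h) (D6 d) fun b => 5 / 9 * (d * b 0) :=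
    fe2L_of_ne R Rm hd (by linarith) (fun b hb => hb.1.1) (fun b hb => hb.1.2.1) (fun b hb => by
      obtain ⟨⟨hR5, h5s, k1, k2, b32, b21, hb1⟩, -⟩ := hb
      have h1 : max (b 1) (max (b 2) (b 3)) ≤ b 1 := max_le le_rfl (max_le b21 (b32.trans b21))
      linarith) (fun b hb => l6 hd hb) hG
  have hgk := GkB575.GkB_of (e0 := 1 / 64) hpu hP hRh0 hRh R R hcolP hd (by linarith)
    (D6_compact d) (fun b hb => hb.1.1) (fun b hb => dh6 hd hd1 hb) (fun b hb => by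
      have := hb.1.2.2.1
      linarith) (fun b hb => hb.2.1) (fun b hb => by
      obtain ⟨⟨⟨k0, y1, y2, y3, x0, hN, x1, adm⟩, -⟩, h1, h2, h3, h4, h5, h6, h7⟩ := hb
      rcases h7 with h | ⟨a1, a2, a3, a4⟩
      · exact Or.inl h
      · right; linarith) hℓ hℓ0 (fun b _ => le_rfl) hFE (by norm_num) le_rfl
  exact ET371.etU_of hpu hRh0 hRh hP R R Rm hcolP hd (by linarith) (D6_compact d) (fun b hb =>
      ⟨by
        have := hb.1.2.2.1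
        linarith, hb.2.1, dm6 hd hd1 hb⟩) hℓ hℓ0 (fun b hb => by
      have := hℓ0 b hb
      linarith) hFE hgk (fun p hp => parOK_Sq5 hA hp)
    (fun p hp => bP_mem6 hd (by linarith) hA0 hA1 hp) (fun p _ => le_rfl)

end Crest.Agent.R017.ET690
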