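import Crest.Agent.R017.NTd_813
import Crest.Agent.R017.Et_813

/-!
# Row 17, the tail by the complete `c`-sum, Cauchy version per block (helper537)

* `etc_le` : the cross sum over the `k` with cube-free part in a block `[z, Z]` (compensated
  weight, two scales), by the complete `m`-sum for the small `g` (TINY) and by Cauchy for the
  large `g`
* `CrQ_blocks` : the splitting of the `k` with cube-free part `< y I` into blocks
-/

set_option autoImplicit false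
set_option linter.unusedVariables false

noncomputable section

open Complex MeasureTheory
open scoped ComplexConjugate Classical

namespace Crest.Agent.R017.Etc537

open Crest.Agent.R012 Crest.Agent.R012.Eis Crest.Agent.R012.MC
open Crest.Agent.R012.LS2 (S mem_S)
open Crest.Agent.R012.Mob705 (mu)
open Crest.Agent.R012.Div277 (tau dvs mem_dvs)
open Crest.Agent.R017.X6C180 (n13 cM GF)
open Crest.Agent.R017.X6545 (TF Bd)
open Crest.Agent.R017.X6W180 (tf1_tf)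
open Crest.Agent.R017.CM106 (CS FS)
open Crest.Agent.R017.C70 (JW OKJ okJ_JW CbF)
open Crest.Agent.R017.E2440 (TE StE StT TOK tok_TE Fh)
open Crest.Agent.R017.Ex385 (CrQ)
open Crest.Agent.R017.CubP813 (LTs NTs lamL rl Qc Te alr omb BX CrQ_fin CrQ_and tsum_m bx_of cub_split
  Qc_iff Qc_cube Qc_cf one_le_nm3)
open Crest.Agent.R017.Et404 (GFh_supp)
open Crest.Agent.R017.Et813 (wnd mem_wnd cauchyQ zero_CrQ_s gf_supp gf_bd abs_mu_le)
open Crest.Agent.R017.CubT90 (tiny_JW notQc_le)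

/-! ### one block, one scale -/

lemma cr_one {F : ℝ → ℂ} (hF : TF F) {S0 : ℝ} (hS0 : 0 ≤ S0) (hFb : Bd F 0 S0) {z Z κ : ℝ}
    (hZ : 0 ≤ Z) (hκ : 0 < κ) {Q : Eis → Prop}
    (hQ : ∀ k, IsPrim k → Q k → z ≤ (nm k : ℝ) ∧ (nm k : ℝ) ≤ Z) (α u : Eis → ℂ) :
    ‖CrQ (GF F) Q κ α u‖ ≤ (if z ≤ Real.exp 2 * κ then 1 else 0) *
      (S0 * (√(∑ k ∈ (wnd z Z).filter Q, ‖CS α k‖ ^ 2) *
        √(∑ k ∈ (wnd z Z).filter Q, ‖u k‖ ^ 2))) := by
  by_cases hz : z ≤ Real.exp 2 * κ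
  · rw [if_pos hz, one_mul]
    exact cauchyQ hS0 (gf_bd hS0 hFb) (fun _ h => h) hZ (fun k hk hQk _ => hQ k hk hQk) α u
  · rw [if_neg hz, zero_mul, zero_CrQ_s, norm_zero]
    intro k hk hQk
    by_contra h0
    have h1 := (gf_supp hF h0).2
    rw [div_le_iff₀ hκ] at h1
    exact hz ((hQ k hk hQk).1.trans h1)

lemma GF_Fh (F : ℝ → ℂ) (h x : ℝ) :
    GF (Fh F h) x = GF F x - ((Real.exp (h / 3) : ℝ) : ℂ) * GF F (x * Real.exp h) := by
  unfold X6C180.GF E2440.Fh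
  by_cases hx : 0 < x
  · have h1 : 0 < x * Real.exp h := by positivity
    rw [if_pos hx, if_pos hx, if_pos h1, Real.log_mul hx.ne' (Real.exp_pos _).ne', Real.log_exp]
  · have h1 : ¬ 0 < x * Real.exp h := by
      intro h2
      exact hx (pos_of_mul_pos_left h2 (Real.exp_pos _).le)
    rw [if_neg hx, if_neg hx, if_neg h1]
    simp

/-- the two scales -/
lemma CrQ_Fh {F : ℝ → ℂ} (hF : TF F) {h κ : ℝ} (hh : 0 ≤ h) (hκ : 0 < κ) (Q : Eis → Prop)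
    (α u : Eis → ℂ) :
    CrQ (GF (Fh F h)) Q κ α u = CrQ (GF F) Q κ α u -
      ((Real.exp (h / 3) : ℝ) : ℂ) * CrQ (GF F) Q (κ * Real.exp (-h)) α u := by
  set X : ℕ := ⌈Real.exp 2 * κ⌉₊ with hX
  have hXκ : Real.exp 2 * κ ≤ X := Nat.le_ceil _
  have b1 : BX (GF (Fh F h)) κ X := by
    have := bx_of (U := GF (Fh F h)) (GFh_supp hF hh) hκ hXκ le_rfl
    rwa [div_one] at this
  have b2 : BX (GF F) κ X := by
    have := bx_of (U := GF F) (fun t ht => (gf_supp hF ht).2) hκ hXκ le_rfl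
    rwa [div_one] at this
  have b3 : BX (GF F) (κ * Real.exp (-h)) X := by
    have := bx_of (U := GF F) (fun t ht => (gf_supp hF ht).2) hκ hXκ
      (Real.one_le_exp hh)
    rwa [div_eq_mul_inv, ← Real.exp_neg] at this
  rw [CrQ_fin b1, CrQ_fin b2, CrQ_fin b3, Finset.mul_sum, ← Finset.sum_sub_distrib]
  refine Finset.sum_congr rfl fun k _ => ?_
  rw [GF_Fh]
  have e1 : (nm k : ℝ) / κ * Real.exp h = (nm k : ℝ) / (κ * Real.exp (-h)) := by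
    rw [Real.exp_neg]
    field_simp
  rw [e1]
  ring

lemma cr_two {F : ℝ → ℂ} (hF : TF F) {S0 : ℝ} (hS0 : 0 ≤ S0) (hFb : Bd F 0 S0) {z Z κ h : ℝ}
    (hh : 0 ≤ h) (hZ : 0 ≤ Z) (hκ : 0 < κ) {Q : Eis → Prop}
    (hQ : ∀ k, IsPrim k → Q k → z ≤ (nm k : ℝ) ∧ (nm k : ℝ) ≤ Z) (α u : Eis → ℂ) :
    ‖CrQ (GF (Fh F h)) Q κ α u‖ ≤ ((if z ≤ Real.exp 2 * κ then 1 else 0) +
        Real.exp (h / 3) * (if z ≤ Real.exp 2 * (κ * Real.exp (-h)) then 1 else 0)) *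
      (S0 * (√(∑ k ∈ (wnd z Z).filter Q, ‖CS α k‖ ^ 2) *
        √(∑ k ∈ (wnd z Z).filter Q, ‖u k‖ ^ 2))) := by
  rw [CrQ_Fh hF hh hκ]
  refine (norm_sub_le _ _).trans ?_
  rw [norm_mul, Complex.norm_real, Real.norm_eq_abs, abs_of_pos (Real.exp_pos _), add_mul]
  refine add_le_add (cr_one hF hS0 hFb hZ hκ hQ α u) ?_
  rw [mul_assoc]
  exact mul_le_mul_of_nonneg_left (cr_one hF hS0 hFb hZ (by positivity) hQ α u)
    (Real.exp_pos _).le

/-! ### the count of the `m` -/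

lemma cube_le_iff {x y : ℝ} (hx : 0 ≤ x) (hy : 0 ≤ y) : x ^ 3 ≤ y ↔ x ≤ y ^ (1 / 3 : ℝ) := by
  have e : (y ^ (1 / 3 : ℝ)) ^ 3 = y := by
    rw [← Real.rpow_natCast, ← Real.rpow_mul hy]
    norm_num
  have h0 : 0 ≤ y ^ (1 / 3 : ℝ) := Real.rpow_nonneg hy _
  constructor
  · intro h
    by_contra hc
    have := pow_lt_pow_left₀ (not_le.1 hc) h0 (n := 3) (by norm_num)
    rw [e] at this
    linarith
  · intro h
    have := pow_le_pow_left₀ hx h 3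
    rwa [e] at this

lemma cnt_m {z K : ℝ} (hz : 0 < z) (hK : 0 < K) (X : ℕ) {r : Eis} (hr : IsPrim r) :
    ∑ m ∈ primBall X, (if z ≤ Real.exp 2 * (K / (nm (r * m) : ℝ) ^ 3) then (1 : ℝ) else 0) ≤
      if z * (nm r : ℝ) ^ 3 ≤ Real.exp 2 * K then
        100 * (Real.exp 2 * K / z) ^ (1 / 3 : ℝ) * (nm r : ℝ)⁻¹ else 0 := by
  have hr1 : (1 : ℝ) ≤ nm r := by exact_mod_cast nm_pos.2 hr.ne_zero
  have hr0 : (0 : ℝ) < nm r := by linarith
  have key : ∀ m ∈ primBall X, z ≤ Real.exp 2 * (K / (nm (r * m) : ℝ) ^ 3) →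
      z * ((nm r : ℝ) * nm m) ^ 3 ≤ Real.exp 2 * K := by
    intro m hm h
    have hm1 : (1 : ℝ) ≤ nm m := by exact_mod_cast nm_pos.2 (mem_primBall.1 hm).2.ne_zero
    have e1 : (nm (r * m) : ℝ) = nm r * nm m := by rw [nm_mul]; push_cast; rfl
    rw [e1, ← mul_div_assoc, le_div_iff₀ (by positivity)] at h
    exact h
  split_ifs with h1
  · rw [← Finset.sum_filter, Finset.sum_const, nsmul_eq_mul, mul_one]
    set y := (Real.exp 2 * K / z) ^ (1 / 3 : ℝ) with hy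
    have hy0 : 0 ≤ y := by positivity
    have hsub : (primBall X).filter (fun m => z ≤ Real.exp 2 * (K / (nm (r * m) : ℝ) ^ 3)) ⊆
        primBall ⌊y * (nm r : ℝ)⁻¹⌋₊ := by
      intro m hm
      rw [Finset.mem_filter] at hm
      have h2 := key m hm.1 hm.2
      rw [mem_primBall]
      refine ⟨?_, (mem_primBall.1 hm.1).2⟩
      rw [Nat.le_floor_iff (by positivity)]
      have h3 : ((nm r : ℝ) * nm m) ^ 3 ≤ Real.exp 2 * K / z := by
        rw [le_div_iff₀ hz, mul_comm]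
        exact h2
      rw [cube_le_iff (by positivity) (by positivity)] at h3
      rw [← div_eq_mul_inv, le_div_iff₀ hr0, mul_comm]
      exact h3
    have h4 : (((primBall X).filter (fun m => z ≤ Real.exp 2 * (K / (nm (r * m) : ℝ) ^ 3))).card : ℝ)
        ≤ ((primBall ⌊y * (nm r : ℝ)⁻¹⌋₊).card : ℝ) := by
      exact_mod_cast Finset.card_le_card hsub
    have h5 : ((primBall ⌊y * (nm r : ℝ)⁻¹⌋₊).card : ℝ) ≤
        100 * ((⌊y * (nm r : ℝ)⁻¹⌋₊ : ℕ) : ℝ) := Lat277.card_primBall_le _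
    have h6 := Nat.floor_le (show 0 ≤ y * (nm r : ℝ)⁻¹ by positivity)
    linarith
  · refine le_of_eq (Finset.sum_eq_zero fun m hm => ?_)
    rw [if_neg]
    intro h
    apply h1
    have h2 := key m hm h
    refine le_trans ?_ h2
    have hm1 : (1 : ℝ) ≤ nm m := by exact_mod_cast nm_pos.2 (mem_primBall.1 hm).2.ne_zero
    have : (nm r : ℝ) ≤ nm r * nm m := le_mul_of_one_le_right hr0.le hm1
    gcongr

lemma cnt_two {z K h : ℝ} (hz : 0 < z) (hK : 0 < K) (hh : 0 ≤ h) (X : ℕ) {r : Eis}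
    (hr : IsPrim r) :
    ∑ m ∈ primBall X, ((if z ≤ Real.exp 2 * (K / (nm (r * m) : ℝ) ^ 3) then (1 : ℝ) else 0) +
      Real.exp (h / 3) * (if z ≤ Real.exp 2 * (K / (nm (r * m) : ℝ) ^ 3 * Real.exp (-h))
        then (1 : ℝ) else 0)) ≤
      if z * (nm r : ℝ) ^ 3 ≤ Real.exp 2 * K then
        200 * (Real.exp 2 * K / z) ^ (1 / 3 : ℝ) * (nm r : ℝ)⁻¹ else 0 := by
  have hr1 : (1 : ℝ) ≤ nm r := by exact_mod_cast nm_pos.2 hr.ne_zero
  rw [Finset.sum_add_distrib, ← Finset.mul_sum]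
  have h1 := cnt_m hz hK X hr
  have e1 : ∀ m ∈ primBall X, (if z ≤ Real.exp 2 * (K / (nm (r * m) : ℝ) ^ 3 * Real.exp (-h))
        then (1 : ℝ) else 0) = (if z ≤ Real.exp 2 * (K * Real.exp (-h) / (nm (r * m) : ℝ) ^ 3)
        then (1 : ℝ) else 0) := by
    intro m _
    rw [show K / (nm (r * m) : ℝ) ^ 3 * Real.exp (-h) =
      K * Real.exp (-h) / (nm (r * m) : ℝ) ^ 3 by ring]
  rw [Finset.sum_congr rfl e1]
  have h2 := cnt_m hz (show 0 < K * Real.exp (-h) by positivity) X hr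
  have e2 : (Real.exp 2 * (K * Real.exp (-h)) / z) ^ (1 / 3 : ℝ) =
      (Real.exp 2 * K / z) ^ (1 / 3 : ℝ) * Real.exp (-(h / 3)) := by
    rw [show Real.exp 2 * (K * Real.exp (-h)) / z = (Real.exp 2 * K / z) * Real.exp (-h) by ring,
      Real.mul_rpow (by positivity) (by positivity), ← Real.exp_mul]
    congr 2
    ring
  rw [e2] at h2
  set y := (Real.exp 2 * K / z) ^ (1 / 3 : ℝ) with hy
  have hy0 : 0 ≤ y := by positivity
  have e3 : Real.exp (h / 3) * Real.exp (-(h / 3)) = 1 := by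
    rw [← Real.exp_add, add_neg_cancel, Real.exp_zero]
  have h3 : Real.exp (h / 3) * (if z * (nm r : ℝ) ^ 3 ≤ Real.exp 2 * (K * Real.exp (-h)) then
        100 * (y * Real.exp (-(h / 3))) * (nm r : ℝ)⁻¹ else 0) ≤
      if z * (nm r : ℝ) ^ 3 ≤ Real.exp 2 * K then 100 * y * (nm r : ℝ)⁻¹ else 0 := by
    by_cases c1 : z * (nm r : ℝ) ^ 3 ≤ Real.exp 2 * (K * Real.exp (-h))
    · have c2 : z * (nm r : ℝ) ^ 3 ≤ Real.exp 2 * K := by
        refine c1.trans ?_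
        have : K * Real.exp (-h) ≤ K :=
          mul_le_of_le_one_right hK.le (Real.exp_le_one_iff.2 (by linarith))
        gcongr
      rw [if_pos c1, if_pos c2]
      refine le_of_eq ?_
      calc Real.exp (h / 3) * (100 * (y * Real.exp (-(h / 3))) * (nm r : ℝ)⁻¹) =
          (Real.exp (h / 3) * Real.exp (-(h / 3))) * (100 * y * (nm r : ℝ)⁻¹) := by ring
        _ = _ := by rw [e3, one_mul]
    · rw [if_neg c1, mul_zero]
      split_ifs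
      · positivity
      · exact le_rfl
  have h4 := mul_le_mul_of_nonneg_left h2 (Real.exp_pos (h / 3)).le
  refine (add_le_add h1 (h4.trans h3)).trans (le_of_eq ?_)
  split_ifs
  · ring
  · ring

/-! ### the cell sums -/

/-- the two mean squares of one cell `(g, a, e₀)` over the block `[z, Z]` -/
def cellS (z Z E0 : ℝ) (α : Eis → ℂ) (J : Finset (Eis × Eis)) (om : Eis × Eis → ℂ)
    (T : Eis × Eis → Eis → ℂ) (g a e₀ : Eis) : ℝ :=
  √(∑ k ∈ (wnd z Z).filter (fun k => CbF k ∧ IsCoprime e₀ k),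
      ‖CS (alr α a (g / a * e₀)) k‖ ^ 2) *
    √(∑ k ∈ (wnd z Z).filter (fun k => CbF k ∧ IsCoprime e₀ k),
      ‖StT E0 J (omb om (g / a)) (Te E0 e₀ T) k‖ ^ 2)

lemma cellS_nonneg (z Z E0 : ℝ) (α : Eis → ℂ) (J : Finset (Eis × Eis)) (om : Eis × Eis → ℂ)
    (T : Eis × Eis → Eis → ℂ) (g a e₀ : Eis) : 0 ≤ cellS z Z E0 α J om T g a e₀ := by
  unfold cellS
  positivity

/-- the large `g` : Cauchy -/
lemma NTs_cauchy {F : ℝ → ℂ} (hF : TF F) {S0 : ℝ} (hS0 : 0 ≤ S0) (hFb : Bd F 0 S0)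
    {z Z K E0 h : ℝ} (hh : 0 ≤ h) (hz : 0 < z) (hZ : 0 ≤ Z) (hK : 0 < K) (hE0 : 0 ≤ E0) {Pr : Eis → Prop}
    (hQ : ∀ k, IsPrim k → CbF k → Pr k → z ≤ (nm k : ℝ) ∧ (nm k : ℝ) ≤ Z) (α : Eis → ℂ)
    (J : Finset (Eis × Eis)) (om : Eis × Eis → ℂ) (T : Eis × Eis → Eis → ℂ) {g : Eis}
    (hg : IsPrim g) :
    ‖NTs (GF (Fh F h)) Pr K E0 α J om T g‖ ≤ 200 * Real.exp (2 / 3) * S0 *
      (K / z) ^ (1 / 3 : ℝ) * ∑ a ∈ dvs g, ∑ e₀ ∈ S E0,
        if z * ((nm g : ℝ) * nm e₀) ^ 3 ≤ Real.exp 2 * K then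
          ((nm g : ℝ) * nm e₀)⁻¹ * cellS z Z E0 α J om T g a e₀ else 0 := by
  unfold CubP813.NTs
  rw [Finset.mul_sum]
  refine (norm_sum_le _ _).trans (Finset.sum_le_sum fun a _ => ?_)
  rw [Finset.mul_sum]
  refine (norm_sum_le _ _).trans (Finset.sum_le_sum fun e₀ he₀ => ?_)
  have hep := ((mem_S hE0).1 he₀).2.1
  set X : ℕ := ⌈Real.exp 2 * K⌉₊ with hX
  have hXκ : Real.exp 2 * K ≤ X := Nat.le_ceil _
  have b1 : BX (GF (Fh F h)) K X := by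
    have := bx_of (U := GF (Fh F h)) (GFh_supp hF hh) hK hXκ le_rfl
    rwa [div_one] at this
  have hgep := hg.mul hep
  have hr1 : (1 : ℝ) ≤ nm (g * e₀) := by exact_mod_cast nm_pos.2 hgep.ne_zero
  rw [norm_mul, tsum_m b1 hgep]
  set Q : Eis → Prop := fun k => CbF k ∧ Pr k ∧ IsCoprime e₀ k with hQd
  set Cl := S0 * cellS z Z E0 α J om T g a e₀ with hCl
  have hCl0 : 0 ≤ Cl := mul_nonneg hS0 (cellS_nonneg _ _ _ _ _ _ _ _ _ _)
  have hm1 : ∀ m ∈ primBall X, ‖CrQ (GF (Fh F h)) Q (K / (nm (g * e₀ * m) : ℝ) ^ 3)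
      (alr α a (g / a * e₀)) (StT E0 J (omb om (g / a)) (Te E0 e₀ T))‖ ≤
      ((if z ≤ Real.exp 2 * (K / (nm (g * e₀ * m) : ℝ) ^ 3) then (1 : ℝ) else 0) +
      Real.exp (h / 3) * (if z ≤ Real.exp 2 * (K / (nm (g * e₀ * m) : ℝ) ^ 3 * Real.exp (-h))
        then (1 : ℝ) else 0)) * Cl := by
    intro m hm
    have hmp := (mem_primBall.1 hm).2
    have hn0 : (0 : ℝ) < nm (g * e₀ * m) := by exact_mod_cast nm_pos.2 (hgep.mul hmp).ne_zero
    refine (cr_two hF hS0 hFb hh hZ (κ := K / (nm (g * e₀ * m) : ℝ) ^ 3) (by positivity)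
      (Q := Q) (fun k hk hq => hQ k hk hq.1 hq.2.1) _ _).trans ?_
    refine mul_le_mul_of_nonneg_left ?_ (by positivity)
    rw [hCl]
    refine mul_le_mul_of_nonneg_left ?_ hS0
    unfold cellS
    refine mul_le_mul ?_ ?_ (Real.sqrt_nonneg _) (Real.sqrt_nonneg _)
    · refine Real.sqrt_le_sqrt (Finset.sum_le_sum_of_subset_of_nonneg (fun k hk => ?_)
        fun _ _ _ => sq_nonneg _)
      simp only [Finset.mem_filter, hQd] at hk ⊢
      exact ⟨hk.1, hk.2.1, hk.2.2.2⟩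
    · refine Real.sqrt_le_sqrt (Finset.sum_le_sum_of_subset_of_nonneg (fun k hk => ?_)
        fun _ _ _ => sq_nonneg _)
      simp only [Finset.mem_filter, hQd] at hk ⊢
      exact ⟨hk.1, hk.2.1, hk.2.2.2⟩
  have h1 : ‖∑ m ∈ primBall X, CrQ (GF (Fh F h)) Q (K / (nm (g * e₀ * m) : ℝ) ^ 3)
      (alr α a (g / a * e₀)) (StT E0 J (omb om (g / a)) (Te E0 e₀ T))‖ ≤
      (if z * (nm (g * e₀) : ℝ) ^ 3 ≤ Real.exp 2 * K then
        200 * (Real.exp 2 * K / z) ^ (1 / 3 : ℝ) * (nm (g * e₀) : ℝ)⁻¹ else 0) * Cl := by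
    refine (norm_sum_le _ _).trans ((Finset.sum_le_sum hm1).trans ?_)
    rw [← Finset.sum_mul]
    exact mul_le_mul_of_nonneg_right (cnt_two hz hK hh X hgep) hCl0
  have h2 : ‖(mu e₀ : ℂ)‖ ≤ 1 := abs_mu_le e₀
  refine (mul_le_of_le_one_left (norm_nonneg _) h2).trans (h1.trans (le_of_eq ?_))
  have e1 : (nm (g * e₀) : ℝ) = nm g * nm e₀ := by rw [nm_mul]; push_cast; rfl
  have e2 : (Real.exp 2 * K / z) ^ (1 / 3 : ℝ) = Real.exp (2 / 3) * (K / z) ^ (1 / 3 : ℝ) := by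
    rw [mul_div_assoc, Real.mul_rpow (Real.exp_pos _).le (by positivity), ← Real.exp_mul]
    congr 2
    norm_num
  rw [e1, e2]
  split_ifs
  · rw [hCl]; ring
  · ring

/-! ### the theorem -/

/-- **the tail of one block** : TINY for `nm g ≤ L2`, Cauchy for `nm g > L2` -/
theorem etc_le {B ε : ℝ} (hB : 0 ≤ B) (hε : 0 < ε) : ∃ (Nd : ℕ) (C : ℝ), 0 ≤ C ∧
    ∀ (F : ℝ → ℂ) (S₀ : ℝ), TF F → Bd F Nd S₀ →
    ∀ (P K z Z h E0 G L2 Y D Y₀ Y₁ : ℝ) (Pr : Eis → Prop) (α : Eis → ℂ) (om : Eis × Eis → ℂ),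
      1 ≤ P → 0 < K → 0 < z → 0 ≤ Z → 0 ≤ h → 0 ≤ E0 → 0 ≤ G → 0 ≤ L2 → 0 ≤ Y → 0 ≤ D → 0 ≤ Y₁ →
      Z ≤ P ^ B → Real.exp h ≤ P ^ B → E0 ≤ P ^ B → L2 ≤ P ^ B → Y ≤ P ^ B → D ≤ P ^ B →
      Y₁ ≤ P ^ B → P ^ ε * Real.exp h * Z * (L2 * E0) ^ 3 ≤ K → Real.exp 2 * K ≤ z * G ^ 3 →
      (∀ k c, IsPrim k → IsPrim c → (Pr (c ^ 3 * k) ↔ Pr k)) →
      (∀ k, IsPrim k → CbF k → Pr k → z ≤ (nm k : ℝ) ∧ (nm k : ℝ) ≤ Z) →
      (∀ n, α n ≠ 0 → n ∈ S Y) → (∀ n, ‖α n‖ ≤ P ^ B) → (∀ x, ‖om x‖ ≤ 1) →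
      ‖CrQ (GF (Fh F h)) Pr K α (StE E0 (JW D Y₀ Y₁) om α)‖ ≤
        C * S₀ * P ^ (-B) + 200 * Real.exp (2 / 3) * S₀ * (K / z) ^ (1 / 3 : ℝ) *
        ∑ g ∈ (S G).filter (fun g => L2 < (nm g : ℝ)), ∑ a ∈ dvs g, ∑ e₀ ∈ S E0,
          if z * ((nm g : ℝ) * nm e₀) ^ 3 ≤ Real.exp 2 * K then
            ((nm g : ℝ) * nm e₀)⁻¹ * cellS z Z E0 α (JW D Y₀ Y₁) om (TE α) g a e₀ else 0 := by
  obtain ⟨Nd, C, hC, H⟩ := tiny_JW B ε hB hε
  refine ⟨Nd, C, hC, ?_⟩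
  intro F S₀ hF hS P K z Z h E0 G L2 Y D Y₀ Y₁ Pr α om hP hK hz hZ hh hE0 hG hL2 hY hD hY1 hZB hhB
    hEB hLB hYB hDB hY1B hgap hGK hinv hQ hα hαB hom
  have hS0 : 0 ≤ S₀ := (norm_nonneg _).trans (hS 0 (Nat.zero_le _) 0)
  have hFb : Bd F 0 S₀ := fun i hi y => hS i (hi.trans (Nat.zero_le _)) y
  have hs : ∀ n, α n ≠ 0 → Squarefree n := fun n hn => ((mem_S hY).1 (hα n hn)).2.2
  have hFS : FS α := by
    refine ⟨(S Y).finite_toSet.subset fun n hn => hα n hn, fun n hn => ?_⟩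
    exact ((mem_S hY).1 (hα n hn)).2.1
  have hJ := okJ_JW D Y₀ Y₁
  set X : ℕ := ⌈Real.exp 2 * K⌉₊ with hX
  have hXκ : Real.exp 2 * K ≤ X := Nat.le_ceil _
  have hX0 : (0 : ℝ) ≤ X := Nat.cast_nonneg _
  have e0 : StE E0 (JW D Y₀ Y₁) om α = StT E0 (JW D Y₀ Y₁) om (TE α) := rfl
  have h1 := cub_split (U := GF (Fh F h)) (b0 := Real.exp 2) (P := Pr) (K := K) (E0 := E0)
    (L := (X : ℝ)) (X := X) (α := α) (J := JW D Y₀ Y₁) (T := TE α) (GFh_supp hF hh) hK hE0 hX0 hFS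
    hJ om (tok_TE hs) hinv hXκ
  have hnil : (primBall X).filter (fun l => (X : ℝ) < (nm l : ℝ)) = ∅ := by
    refine Finset.filter_eq_empty_iff.2 fun l hl => ?_
    rw [not_lt]
    exact_mod_cast (mem_primBall.1 hl).1
  rw [hnil, Finset.sum_empty, add_zero] at h1
  rw [e0, h1, ← Finset.sum_filter_add_sum_filter_not (S (X : ℝ)) (fun g => (nm g : ℝ) ≤ L2)]
  refine (norm_add_le _ _).trans (add_le_add ?_ ?_)
  · refine H F S₀ hF hS P K Z h E0 L2 Y D Y₀ Y₁ Pr α om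
      ((S (X : ℝ)).filter (fun g => (nm g : ℝ) ≤ L2)) hP hK hZ hh hE0 hL2 hY hD hY1 ?_ hZB hhB hEB
      hLB hYB hDB hY1B hgap (fun k hk hc hq => (hQ k hk hc hq).2) hα hαB hom
    intro g hg
    rw [Finset.mem_filter, mem_S hX0] at hg
    rw [mem_S hL2]
    exact ⟨hg.2, hg.1.2⟩
  · set f : Eis → ℝ := fun g => ∑ a ∈ dvs g, ∑ e₀ ∈ S E0,
          if z * ((nm g : ℝ) * nm e₀) ^ 3 ≤ Real.exp 2 * K then
            ((nm g : ℝ) * nm e₀)⁻¹ * cellS z Z E0 α (JW D Y₀ Y₁) om (TE α) g a e₀ else 0 with hf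
    set c := 200 * Real.exp (2 / 3) * S₀ * (K / z) ^ (1 / 3 : ℝ) with hc
    have hc0 : 0 ≤ c := by rw [hc]; positivity
    have hf0 : ∀ g, 0 ≤ f g := by
      intro g
      rw [hf]
      refine Finset.sum_nonneg fun a _ => Finset.sum_nonneg fun e₀ _ => ?_
      split_ifs
      · exact mul_nonneg (by positivity) (cellS_nonneg _ _ _ _ _ _ _ _ _ _)
      · exact le_rfl
    have h2 : ‖∑ g ∈ (S (X : ℝ)).filter (fun g => ¬ (nm g : ℝ) ≤ L2),
        (mu g : ℂ) * NTs (GF (Fh F h)) Pr K E0 α (JW D Y₀ Y₁) om (TE α) g‖ ≤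
        ∑ g ∈ (S (X : ℝ)).filter (fun g => ¬ (nm g : ℝ) ≤ L2), c * f g := by
      refine (norm_sum_le _ _).trans (Finset.sum_le_sum fun g hg => ?_)
      have hgp := ((mem_S hX0).1 (Finset.mem_filter.1 hg).1).2.1
      rw [norm_mul]
      refine (mul_le_of_le_one_left (norm_nonneg _) (abs_mu_le g)).trans ?_
      exact NTs_cauchy hF hS0 hFb hh hz hZ hK hE0 hQ α _ om _ hgp
    refine h2.trans ?_
    rw [← Finset.mul_sum]
    refine mul_le_mul_of_nonneg_left ?_ hc0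
    -- the range of `g`
    have h3 : ∀ g ∈ (S (X : ℝ)).filter (fun g => ¬ (nm g : ℝ) ≤ L2), f g ≠ 0 →
        g ∈ (S G).filter (fun g => L2 < (nm g : ℝ)) := by
      intro g hg hne
      rw [Finset.mem_filter, mem_S hX0] at hg
      rw [Finset.mem_filter, mem_S hG]
      refine ⟨⟨?_, hg.1.2⟩, not_le.1 hg.2⟩
      by_contra hlt
      apply hne
      rw [hf]
      refine Finset.sum_eq_zero fun a _ => Finset.sum_eq_zero fun e₀ he₀ => ?_
      rw [if_neg]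
      intro hle
      have he1 : (1 : ℝ) ≤ nm e₀ := by
        exact_mod_cast nm_pos.2 ((mem_S hE0).1 he₀).2.1.ne_zero
      have h4 : (G : ℝ) < nm g * nm e₀ :=
        (not_le.1 hlt).trans_le (le_mul_of_one_le_right (Nat.cast_nonneg _) he1)
      have h5 : z * G ^ 3 < z * ((nm g : ℝ) * nm e₀) ^ 3 := by
        refine mul_lt_mul_of_pos_left ?_ hz
        exact pow_lt_pow_left₀ h4 hG (by norm_num)
      linarith
    calc ∑ g ∈ (S (X : ℝ)).filter (fun g => ¬ (nm g : ℝ) ≤ L2), f g =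
        ∑ g ∈ ((S (X : ℝ)).filter (fun g => ¬ (nm g : ℝ) ≤ L2)).filter (fun g => f g ≠ 0), f g :=
          (Finset.sum_filter_ne_zero _).symm
      _ ≤ ∑ g ∈ (S G).filter (fun g => L2 < (nm g : ℝ)), f g := by
          refine Finset.sum_le_sum_of_subset_of_nonneg (fun g hg => ?_) fun g _ _ => hf0 g
          rw [Finset.mem_filter] at hg
          exact h3 g hg.1 hg.2

/-! ### blocks -/

/-- the predicate: the cube-free part has norm in `[z, Z)` -/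
def Bk (z Z : ℝ) (k : Eis) : Prop := ¬ Qc Z k ∧ Qc z k

lemma Bk_cube {z Z : ℝ} (k c : Eis) (hk : IsPrim k) (hc : IsPrim c) :
    Bk z Z (c ^ 3 * k) ↔ Bk z Z k :=
  and_congr (not_congr (Qc_cube hk hc)) (Qc_cube hk hc)

lemma Bk_bd {z Z : ℝ} (k : Eis) (hk : IsPrim k) (hc : CbF k) (h : Bk z Z k) :
    z ≤ (nm k : ℝ) ∧ (nm k : ℝ) ≤ Z :=
  ⟨(Qc_cf hk hc).1 h.2, notQc_le hk hc h.1⟩

lemma Qc_mono {y y' : ℝ} (hy : y ≤ y') {k : Eis} (h : Qc y' k) : Qc y k := by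
  obtain ⟨j, c, h1, h2, h3, h4, h5⟩ := h
  exact ⟨j, c, h1, h2, h3, h4, hy.trans h5⟩

/-- **the splitting into blocks** -/
theorem CrQ_blocks {U : ℝ → ℂ} {K : ℝ} {X : ℕ} (hX : BX U K X) (y : ℕ → ℝ) (hy : Monotone y)
    (α u : Eis → ℂ) (I : ℕ) :
    CrQ U (fun k => ¬ Qc (y I) k) K α u = CrQ U (fun k => ¬ Qc (y 0) k) K α u +
      ∑ i ∈ Finset.range I, CrQ U (Bk (y i) (y (i + 1))) K α u := by
  induction I with
  | zero => simp
  | succ I ih =>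
    rw [CrQ_and hX (P := fun k => ¬ Qc (y (I + 1)) k) (R := Qc (y I)), Finset.sum_range_succ,
      ← add_assoc, ← ih, add_comm]
    congr 1
    refine Ex385.CrQ_congr (fun k _ => ?_) _ _ _
    constructor
    · exact fun h => h.2
    · exact fun h => ⟨fun h' => h (Qc_mono (hy (Nat.le_succ I)) h'), h⟩

end Crest.Agent.R017.Etc537
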