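import Crest.Agent.R017.ETC_537

/-!
# Row 17, the tail by the complete `c`-sum, Cauchy version per block, part 2 (helper537)

* `etc_pair` : the version of `etc_le` with the PAIR threshold `nm (g e₀) > L2`
-/

set_option autoImplicit false
set_option linter.unusedVariables false

noncomputable section

open Complex MeasureTheory
open scoped ComplexConjugate Classical

namespace Crest.Agent.R017.Etc537

open Crest.Agent.R012 Crest.Agent.R012.Eis Crest.Agent.R012.MC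
open Crest.Agent.R012.LS2 (S mem_S)
open Crest.Agent.R012.Mob705 (mu)
open Crest.Agent.R012.Div277 (tau dvs mem_dvs)
open Crest.Agent.R017.X6C180 (n13 cM GF)
open Crest.Agent.R017.X6545 (TF Bd)
open Crest.Agent.R017.X6W180 (tf1_tf)
open Crest.Agent.R017.CM106 (CS FS)
open Crest.Agent.R017.C70 (JW OKJ okJ_JW CbF)
open Crest.Agent.R017.E2440 (TE StE StT TOK tok_TE Fh)
open Crest.Agent.R017.Ex385 (CrQ)
open Crest.Agent.R017.CubP813 (LTs NTs lamL rl Qc Te alr omb BX CrQ_fin CrQ_and tsum_m bx_of cub_split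
  Qc_iff Qc_cube Qc_cf one_le_nm3 norm_alr_le norm_omb_le)
open Crest.Agent.R017.Et404 (GFh_supp)
open Crest.Agent.R017.Et813 (wnd mem_wnd cauchyQ zero_CrQ_s gf_supp gf_bd abs_mu_le)
open Crest.Agent.R017.CubT90 (tiny_JW notQc_le inner_le card_S card_dvs one_le_nmR norm_CS_le1
  norm_StT_le norm_Te_le norm_TE_le card_JW)

/-- one term of `NTs` -/
def tmS (U : ℝ → ℂ) (Pr : Eis → Prop) (K E0 : ℝ) (α : Eis → ℂ) (J : Finset (Eis × Eis))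
    (om : Eis × Eis → ℂ) (T : Eis × Eis → Eis → ℂ) (g a e₀ : Eis) : ℂ :=
  (mu e₀ : ℂ) * ∑' m : Eis, if IsPrim m then
    CrQ U (fun k => CbF k ∧ Pr k ∧ IsCoprime e₀ k) (K / (nm (g * e₀ * m) : ℝ) ^ 3)
      (alr α a (g / a * e₀)) (StT E0 J (omb om (g / a)) (Te E0 e₀ T)) else 0

lemma NTs_tmS (U : ℝ → ℂ) (Pr : Eis → Prop) (K E0 : ℝ) (α : Eis → ℂ) (J : Finset (Eis × Eis))
    (om : Eis × Eis → ℂ) (T : Eis × Eis → Eis → ℂ) (g : Eis) :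
    NTs U Pr K E0 α J om T g = ∑ a ∈ dvs g, ∑ e₀ ∈ S E0, tmS U Pr K E0 α J om T g a e₀ := rfl

/-- one term : Cauchy -/
lemma tmS_cauchy {F : ℝ → ℂ} (hF : TF F) {S0 : ℝ} (hS0 : 0 ≤ S0) (hFb : Bd F 0 S0)
    {z Z K E0 h : ℝ} (hh : 0 ≤ h) (hz : 0 < z) (hZ : 0 ≤ Z) (hK : 0 < K) {Pr : Eis → Prop}
    (hQ : ∀ k, IsPrim k → CbF k → Pr k → z ≤ (nm k : ℝ) ∧ (nm k : ℝ) ≤ Z) (α : Eis → ℂ)
    (J : Finset (Eis × Eis)) (om : Eis × Eis → ℂ) (T : Eis × Eis → Eis → ℂ) {g a e₀ : Eis}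
    (hg : IsPrim g) (hep : IsPrim e₀) :
    ‖tmS (GF (Fh F h)) Pr K E0 α J om T g a e₀‖ ≤ 200 * Real.exp (2 / 3) * S0 *
      (K / z) ^ (1 / 3 : ℝ) *
        (if z * ((nm g : ℝ) * nm e₀) ^ 3 ≤ Real.exp 2 * K then
          ((nm g : ℝ) * nm e₀)⁻¹ * cellS z Z E0 α J om T g a e₀ else 0) := by
  unfold tmS
  set X : ℕ := ⌈Real.exp 2 * K⌉₊ with hX
  have hXκ : Real.exp 2 * K ≤ X := Nat.le_ceil _
  have b1 : BX (GF (Fh F h)) K X := by
    have := bx_of (U := GF (Fh F h)) (GFh_supp hF hh) hK hXκ le_rfl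
    rwa [div_one] at this
  have hgep := hg.mul hep
  have hr1 : (1 : ℝ) ≤ nm (g * e₀) := by exact_mod_cast nm_pos.2 hgep.ne_zero
  rw [norm_mul, tsum_m b1 hgep]
  set Q : Eis → Prop := fun k => CbF k ∧ Pr k ∧ IsCoprime e₀ k with hQd
  set Cl := S0 * cellS z Z E0 α J om T g a e₀ with hCl
  have hCl0 : 0 ≤ Cl := mul_nonneg hS0 (cellS_nonneg _ _ _ _ _ _ _ _ _ _)
  have hm1 : ∀ m ∈ primBall X, ‖CrQ (GF (Fh F h)) Q (K / (nm (g * e₀ * m) : ℝ) ^ 3)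
      (alr α a (g / a * e₀)) (StT E0 J (omb om (g / a)) (Te E0 e₀ T))‖ ≤
      ((if z ≤ Real.exp 2 * (K / (nm (g * e₀ * m) : ℝ) ^ 3) then (1 : ℝ) else 0) +
      Real.exp (h / 3) * (if z ≤ Real.exp 2 * (K / (nm (g * e₀ * m) : ℝ) ^ 3 * Real.exp (-h))
        then (1 : ℝ) else 0)) * Cl := by
    intro m hm
    have hmp := (mem_primBall.1 hm).2
    have hn0 : (0 : ℝ) < nm (g * e₀ * m) := by exact_mod_cast nm_pos.2 (hgep.mul hmp).ne_zero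
    refine (cr_two hF hS0 hFb hh hZ (κ := K / (nm (g * e₀ * m) : ℝ) ^ 3) (by positivity)
      (Q := Q) (fun k hk hq => hQ k hk hq.1 hq.2.1) _ _).trans ?_
    refine mul_le_mul_of_nonneg_left ?_ (by positivity)
    rw [hCl]
    refine mul_le_mul_of_nonneg_left ?_ hS0
    unfold cellS
    refine mul_le_mul ?_ ?_ (Real.sqrt_nonneg _) (Real.sqrt_nonneg _)
    · refine Real.sqrt_le_sqrt (Finset.sum_le_sum_of_subset_of_nonneg (fun k hk => ?_)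
        fun _ _ _ => sq_nonneg _)
      simp only [Finset.mem_filter, hQd] at hk ⊢
      exact ⟨hk.1, hk.2.1, hk.2.2.2⟩
    · refine Real.sqrt_le_sqrt (Finset.sum_le_sum_of_subset_of_nonneg (fun k hk => ?_)
        fun _ _ _ => sq_nonneg _)
      simp only [Finset.mem_filter, hQd] at hk ⊢
      exact ⟨hk.1, hk.2.1, hk.2.2.2⟩
  have h1 : ‖∑ m ∈ primBall X, CrQ (GF (Fh F h)) Q (K / (nm (g * e₀ * m) : ℝ) ^ 3)
      (alr α a (g / a * e₀)) (StT E0 J (omb om (g / a)) (Te E0 e₀ T))‖ ≤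
      (if z * (nm (g * e₀) : ℝ) ^ 3 ≤ Real.exp 2 * K then
        200 * (Real.exp 2 * K / z) ^ (1 / 3 : ℝ) * (nm (g * e₀) : ℝ)⁻¹ else 0) * Cl := by
    refine (norm_sum_le _ _).trans ((Finset.sum_le_sum hm1).trans ?_)
    rw [← Finset.sum_mul]
    exact mul_le_mul_of_nonneg_right (cnt_two hz hK hh X hgep) hCl0
  have h2 : ‖(mu e₀ : ℂ)‖ ≤ 1 := abs_mu_le e₀
  refine (mul_le_of_le_one_left (norm_nonneg _) h2).trans (h1.trans (le_of_eq ?_))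
  have e1 : (nm (g * e₀) : ℝ) = nm g * nm e₀ := by rw [nm_mul]; push_cast; rfl
  have e2 : (Real.exp 2 * K / z) ^ (1 / 3 : ℝ) = Real.exp (2 / 3) * (K / z) ^ (1 / 3 : ℝ) := by
    rw [mul_div_assoc, Real.mul_rpow (Real.exp_pos _).le (by positivity), ← Real.exp_mul]
    congr 2
    norm_num
  rw [e1, e2]
  split_ifs
  · rw [hCl]; ring
  · ring

/-- the tiny pairs -/
theorem pair_tiny (B ε M : ℝ) (hε : 0 < ε) (hM : 0 ≤ M) : ∃ (N : ℕ) (C : ℝ), 0 ≤ C ∧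
    ∀ (F : ℝ → ℂ) (S₀ : ℝ), TF F → Bd F N S₀ → ∀ (X K Z h E0 G : ℝ) (P : Eis → Prop)
      (α : Eis → ℂ) (J : Finset (Eis × Eis)) (om : Eis × Eis → ℂ) (T : Eis × Eis → Eis → ℂ)
      (hα : FS α), 1 ≤ X → 0 < K → 0 ≤ Z → 0 ≤ h → 0 ≤ E0 → 0 ≤ G →
      Z ≤ M * X ^ B → Real.exp h ≤ M * X ^ B → E0 ≤ M * X ^ B → G ≤ M * X ^ B →
      X ^ ε * Real.exp h * Z * G ^ 3 ≤ K →
      (∀ k, IsPrim k → CbF k → P k → (nm k : ℝ) ≤ Z) →
      ∑ n ∈ hα.fin.toFinset, ‖α n‖ ≤ M * X ^ B → C70.OKJ J → (J.card : ℝ) ≤ M * X ^ B →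
      (∀ x ∈ J, ‖om x‖ ≤ M * X ^ B) → (∀ x ∈ J, ∀ e, ‖T x e‖ ≤ M * X ^ B) →
      ∑ g ∈ S G, ∑ a ∈ dvs g, ∑ e₀ ∈ (S E0).filter (fun e₀ => (nm g : ℝ) * nm e₀ ≤ G),
        ‖tmS (GF (Fh F h)) P K E0 α J om T g a e₀‖ ≤ C * S₀ * X ^ (-B) := by
  obtain ⟨A, hA⟩ := exists_nat_ge (12 * |B| / ε)
  obtain ⟨N, C, hC, H⟩ := inner_le A
  have hB := E2440.Bth_nonneg
  refine ⟨N, 100 * 100 * 100 * (100 * E2440.Bth * C) * M ^ 10, by positivity, ?_⟩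
  intro F S₀ hF hS X K Z h E0 G P α J om T hα hX hK hZ hh hE0 hG hZB hhB hEB hGB hgap hP hM1
    hJ hJc hMo hMT
  have hS0 : 0 ≤ S₀ := (norm_nonneg _).trans (hS 0 (Nat.zero_le _) 0)
  have hX0 : 0 < X := by linarith
  have hXB : 0 < X ^ B := Real.rpow_pos_of_pos hX0 _
  have hXe : 0 < X ^ ε := Real.rpow_pos_of_pos hX0 _
  set R := M * X ^ B with hR
  have hR0 : 0 ≤ R := by positivity
  set D := C * S₀ * R * R * (R * (R * (R * (E2440.Bth * (100 * R * R))))) * ((X ^ ε)⁻¹) ^ A with hD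
  have hD0 : 0 ≤ D := by positivity
  have h5 : Real.exp (h / 3) ≤ R := by
    refine le_trans ?_ hhB
    rw [Real.exp_le_exp]
    linarith
  have hone : ∀ g ∈ S G, ∀ a ∈ dvs g, ∀ e₀ ∈ (S E0).filter (fun e₀ => (nm g : ℝ) * nm e₀ ≤ G),
      ‖tmS (GF (Fh F h)) P K E0 α J om T g a e₀‖ ≤ D := by
    intro g hg a ha e₀ he
    obtain ⟨g1, g2, -⟩ := (mem_S hG).1 hg
    rw [Finset.mem_filter] at he
    obtain ⟨e1, e2, -⟩ := (mem_S hE0).1 he.1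
    unfold tmS
    rw [norm_mul]
    have h4 : ‖(mu e₀ : ℂ)‖ ≤ 1 := abs_mu_le e₀
    have hb : (nm (g * e₀) : ℝ) ≤ G := by
      rw [nm_mul]
      push_cast
      exact he.2
    have h6 := H F S₀ hF hS K (X ^ ε) Z h R ((J.card : ℝ) * (R * (E2440.Bth *
      (100 * E0 * R)))) (g * e₀) (fun k => CbF k ∧ P k ∧ IsCoprime e₀ k)
      (alr α a (g / a * e₀)) (StT E0 J (omb om (g / a)) (Te E0 e₀ T)) hK hXe hZ hh
      (mul_ne_zero g2.ne_zero e2.ne_zero)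
      (le_trans (by
        have : (nm (g * e₀) : ℝ) ^ 3 ≤ G ^ 3 := by gcongr
        calc Real.exp h * X ^ ε * (Z * (nm (g * e₀) : ℝ) ^ 3) ≤
            Real.exp h * X ^ ε * (Z * G ^ 3) := by gcongr
          _ = X ^ ε * Real.exp h * Z * G ^ 3 := by ring) hgap)
      (fun k hk hq => hP k hk hq.1 hq.2.1)
      (fun k _ => (norm_CS_le1 hα (norm_alr_le α _ _) k).trans hM1)
      (fun k hk => norm_StT_le hE0 hJ (fun x hx => (norm_omb_le om _ x).trans (hMo x hx))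
        (fun x hx e => norm_Te_le (hMT x hx) _ _) hR0 hk.ne_zero)
    calc _ ≤ 1 * _ := mul_le_mul h4 h6 (norm_nonneg _) (by norm_num)
      _ ≤ D := by
        rw [one_mul, hD]
        gcongr
  have hin : ∀ g ∈ S G, ∑ a ∈ dvs g, ∑ e₀ ∈ (S E0).filter (fun e₀ => (nm g : ℝ) * nm e₀ ≤ G),
      ‖tmS (GF (Fh F h)) P K E0 α J om T g a e₀‖ ≤ 100 * R * (100 * R * D) := by
    intro g hg
    obtain ⟨g1, g2, -⟩ := (mem_S hG).1 hg
    have h1 : ∀ a ∈ dvs g, ∑ e₀ ∈ (S E0).filter (fun e₀ => (nm g : ℝ) * nm e₀ ≤ G),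
      ‖tmS (GF (Fh F h)) P K E0 α J om T g a e₀‖ ≤ 100 * R * D := by
      intro a ha
      refine (Finset.sum_le_sum (hone g hg a ha)).trans ?_
      rw [Finset.sum_const, nsmul_eq_mul]
      refine mul_le_mul_of_nonneg_right ?_ hD0
      have h2 : (((S E0).filter (fun e₀ => (nm g : ℝ) * nm e₀ ≤ G)).card : ℝ) ≤
          ((S E0).card : ℝ) := by exact_mod_cast Finset.card_filter_le _ _
      exact h2.trans ((card_S hE0).trans (by gcongr))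
    refine (Finset.sum_le_sum h1).trans ?_
    rw [Finset.sum_const, nsmul_eq_mul]
    refine mul_le_mul_of_nonneg_right ?_ (by positivity)
    exact (card_dvs g2.ne_zero).trans (by gcongr; exact g1.trans hGB)
  refine (Finset.sum_le_sum hin).trans ?_
  rw [Finset.sum_const, nsmul_eq_mul]
  have hcard : ((S G).card : ℝ) ≤ 100 * R := (card_S hG).trans (by gcongr)
  calc ((S G).card : ℝ) * (100 * R * (100 * R * D)) ≤ (100 * R) * (100 * R * (100 * R * D)) := by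
        gcongr
    _ = 100 * 100 * 100 * (100 * E2440.Bth * C) * M ^ 10 * S₀ *
        ((X ^ B) ^ 10 * ((X ^ ε)⁻¹) ^ A) := by rw [hD, hR]; ring
    _ ≤ 100 * 100 * 100 * (100 * E2440.Bth * C) * M ^ 10 * S₀ * X ^ (-B) := by
        refine mul_le_mul_of_nonneg_left ?_ (by positivity)
        have e1 : (X ^ B) ^ 10 = X ^ (10 * B) := by
          rw [← Real.rpow_natCast, ← Real.rpow_mul hX0.le]
          congr 1
          push_cast
          ring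
        have e2 : ((X ^ ε)⁻¹) ^ A = X ^ (-(ε * A)) := by
          rw [← Real.rpow_neg hX0.le, ← Real.rpow_natCast, ← Real.rpow_mul hX0.le]
          congr 1
          ring
        rw [e1, e2, ← Real.rpow_add hX0]
        refine Real.rpow_le_rpow_of_exponent_le hX ?_
        have h1 : 12 * |B| ≤ ε * A := by
          rw [div_le_iff₀ hε] at hA
          linarith
        have h2 := le_abs_self B
        have h3 := abs_nonneg B
        linarith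

/-- the tiny pairs in the frame : `α` on `S Y`, `J = JW D Y₀ Y₁`, `T = TE α` -/
theorem pair_tiny_JW (B ε : ℝ) (hB : 0 ≤ B) (hε : 0 < ε) : ∃ (N : ℕ) (C : ℝ), 0 ≤ C ∧
    ∀ (F : ℝ → ℂ) (S₀ : ℝ), TF F → Bd F N S₀ → ∀ (X K Z h E0 G Y D Y₀ Y₁ : ℝ) (P : Eis → Prop)
      (α : Eis → ℂ) (om : Eis × Eis → ℂ), 1 ≤ X → 0 < K → 0 ≤ Z → 0 ≤ h →
      0 ≤ E0 → 0 ≤ G → 0 ≤ Y → 0 ≤ D → 0 ≤ Y₁ → Z ≤ X ^ B → Real.exp h ≤ X ^ B →
      E0 ≤ X ^ B → G ≤ X ^ B → Y ≤ X ^ B → D ≤ X ^ B → Y₁ ≤ X ^ B →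
      X ^ ε * Real.exp h * Z * G ^ 3 ≤ K →
      (∀ k, IsPrim k → CbF k → P k → (nm k : ℝ) ≤ Z) →
      (∀ n, α n ≠ 0 → n ∈ S Y) → (∀ n, ‖α n‖ ≤ X ^ B) → (∀ x, ‖om x‖ ≤ 1) →
      ∑ g ∈ S G, ∑ a ∈ dvs g, ∑ e₀ ∈ (S E0).filter (fun e₀ => (nm g : ℝ) * nm e₀ ≤ G),
        ‖tmS (GF (Fh F h)) P K E0 α (JW D Y₀ Y₁) om (TE α) g a e₀‖ ≤ C * S₀ * X ^ (-B) := by
  obtain ⟨N, C, hC, H⟩ := pair_tiny (2 * B) ε 10000 hε (by norm_num)
  refine ⟨N, C, hC, ?_⟩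
  intro F S₀ hF hS X K Z h E0 G Y D Y₀ Y₁ P α om hX hK hZ hh hE0 hG hY hD hY1 hZB hhB hEB hGB
    hYB hDB hY1B hgap hP hsup hαB hom
  have hS0 : 0 ≤ S₀ := (norm_nonneg _).trans (hS 0 (Nat.zero_le _) 0)
  have hX0 : 0 < X := by linarith
  have hXB : 1 ≤ X ^ B := Real.one_le_rpow hX hB
  have hX2 : X ^ (2 * B) = X ^ B * X ^ B := by
    rw [two_mul, Real.rpow_add hX0]
  have hα : FS α := by
    refine ⟨(S Y).finite_toSet.subset fun n hn => hsup n hn, fun n hn => ?_⟩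
    exact ((mem_S hY).1 (hsup n hn)).2.1
  have w1 : ∀ x : ℝ, x ≤ X ^ B → x ≤ 10000 * X ^ (2 * B) := by
    intro x hx
    rw [hX2]
    nlinarith
  have hsum : ∑ n ∈ hα.fin.toFinset, ‖α n‖ ≤ 10000 * X ^ (2 * B) := by
    have hsub : hα.fin.toFinset ⊆ S Y := fun n hn => by
      rw [Set.Finite.mem_toFinset] at hn
      exact hsup n hn
    calc ∑ n ∈ hα.fin.toFinset, ‖α n‖ ≤ ∑ n ∈ S Y, ‖α n‖ :=
          Finset.sum_le_sum_of_subset_of_nonneg hsub fun _ _ _ => norm_nonneg _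
      _ ≤ ∑ _n ∈ S Y, X ^ B := Finset.sum_le_sum fun n _ => hαB n
      _ = ((S Y).card : ℝ) * X ^ B := by rw [Finset.sum_const, nsmul_eq_mul]
      _ ≤ (100 * X ^ B) * X ^ B := by
          refine mul_le_mul_of_nonneg_right ((card_S hY).trans (by gcongr)) (by positivity)
      _ ≤ _ := by
          rw [hX2]
          nlinarith [mul_nonneg (zero_le_one.trans hXB) (zero_le_one.trans hXB)]
  have hJ := C70.okJ_JW D Y₀ Y₁
  have h1 := H F S₀ hF hS X K Z h E0 G P α (C70.JW D Y₀ Y₁) om (E2440.TE α) hα hX hK hZ hh hE0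
    hG (w1 _ hZB) (w1 _ hhB) (w1 _ hEB) (w1 _ hGB) hgap hP hsum hJ
    (by
      refine (card_JW hD hY1).trans ?_
      rw [hX2]
      calc 100 * D * (100 * Y₁) ≤ 100 * X ^ B * (100 * X ^ B) := by gcongr
        _ = _ := by ring)
    (fun x _ => (hom x).trans (w1 1 hXB))
    (fun x hx e => (norm_TE_le hα (hJ.prim x hx) e).trans hsum)
  refine h1.trans ?_
  refine mul_le_mul_of_nonneg_left ?_ (by positivity)
  exact Real.rpow_le_rpow_of_exponent_le hX (by linarith)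

/-- **the tail of one block, pair threshold** : TINY for `nm (g e₀) ≤ L2`, Cauchy for
`nm (g e₀) > L2` -/
theorem etc_pair {B ε : ℝ} (hB : 0 ≤ B) (hε : 0 < ε) : ∃ (Nd : ℕ) (C : ℝ), 0 ≤ C ∧
    ∀ (F : ℝ → ℂ) (S₀ : ℝ), TF F → Bd F Nd S₀ →
    ∀ (P K z Z h E0 G L2 Y D Y₀ Y₁ : ℝ) (Pr : Eis → Prop) (α : Eis → ℂ) (om : Eis × Eis → ℂ),
      1 ≤ P → 0 < K → 0 < z → 0 ≤ Z → 0 ≤ h → 0 ≤ E0 → 0 ≤ G → 0 ≤ L2 → 0 ≤ Y → 0 ≤ D → 0 ≤ Y₁ →
      Z ≤ P ^ B → Real.exp h ≤ P ^ B → E0 ≤ P ^ B → L2 ≤ P ^ B → Y ≤ P ^ B → D ≤ P ^ B →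
      Y₁ ≤ P ^ B → P ^ ε * Real.exp h * Z * L2 ^ 3 ≤ K → Real.exp 2 * K ≤ z * G ^ 3 →
      (∀ k c, IsPrim k → IsPrim c → (Pr (c ^ 3 * k) ↔ Pr k)) →
      (∀ k, IsPrim k → CbF k → Pr k → z ≤ (nm k : ℝ) ∧ (nm k : ℝ) ≤ Z) →
      (∀ n, α n ≠ 0 → n ∈ S Y) → (∀ n, ‖α n‖ ≤ P ^ B) → (∀ x, ‖om x‖ ≤ 1) →
      ‖CrQ (GF (Fh F h)) Pr K α (StE E0 (JW D Y₀ Y₁) om α)‖ ≤
        C * S₀ * P ^ (-B) + 200 * Real.exp (2 / 3) * S₀ * (K / z) ^ (1 / 3 : ℝ) *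
        ∑ g ∈ S G, ∑ a ∈ dvs g,
          ∑ e₀ ∈ (S E0).filter (fun e₀ => L2 < (nm g : ℝ) * nm e₀ ∧ (nm g : ℝ) * nm e₀ ≤ G),
            ((nm g : ℝ) * nm e₀)⁻¹ * cellS z Z E0 α (JW D Y₀ Y₁) om (TE α) g a e₀ := by
  obtain ⟨Nd, C, hC, H⟩ := pair_tiny_JW B ε hB hε
  refine ⟨Nd, C, hC, ?_⟩
  intro F S₀ hF hS P K z Z h E0 G L2 Y D Y₀ Y₁ Pr α om hP hK hz hZ hh hE0 hG hL2 hY hD hY1 hZB hhB
    hEB hLB hYB hDB hY1B hgap hGK hinv hQ hα hαB hom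
  have hS0 : 0 ≤ S₀ := (norm_nonneg _).trans (hS 0 (Nat.zero_le _) 0)
  have hFb : Bd F 0 S₀ := fun i hi y => hS i (hi.trans (Nat.zero_le _)) y
  have hs : ∀ n, α n ≠ 0 → Squarefree n := fun n hn => ((mem_S hY).1 (hα n hn)).2.2
  have hFS : FS α := by
    refine ⟨(S Y).finite_toSet.subset fun n hn => hα n hn, fun n hn => ?_⟩
    exact ((mem_S hY).1 (hα n hn)).2.1
  have hJ := okJ_JW D Y₀ Y₁
  set X : ℕ := ⌈Real.exp 2 * K⌉₊ with hX
  have hXκ : Real.exp 2 * K ≤ X := Nat.le_ceil _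
  have hX0 : (0 : ℝ) ≤ X := Nat.cast_nonneg _
  have e0 : StE E0 (JW D Y₀ Y₁) om α = StT E0 (JW D Y₀ Y₁) om (TE α) := rfl
  have h1 := cub_split (U := GF (Fh F h)) (b0 := Real.exp 2) (P := Pr) (K := K) (E0 := E0)
    (L := (X : ℝ)) (X := X) (α := α) (J := JW D Y₀ Y₁) (T := TE α) (GFh_supp hF hh) hK hE0 hX0 hFS
    hJ om (tok_TE hs) hinv hXκ
  have hnil : (primBall X).filter (fun l => (X : ℝ) < (nm l : ℝ)) = ∅ := by
    refine Finset.filter_eq_empty_iff.2 fun l hl => ?_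
    rw [not_lt]
    exact_mod_cast (mem_primBall.1 hl).1
  rw [hnil, Finset.sum_empty, add_zero] at h1
  set t : Eis → Eis → Eis → ℝ := fun g a e₀ =>
    ‖tmS (GF (Fh F h)) Pr K E0 α (JW D Y₀ Y₁) om (TE α) g a e₀‖ with ht
  set c := 200 * Real.exp (2 / 3) * S₀ * (K / z) ^ (1 / 3 : ℝ) with hc
  have hc0 : 0 ≤ c := by rw [hc]; positivity
  set f : Eis → Eis → Eis → ℝ := fun g a e₀ =>
    ((nm g : ℝ) * nm e₀)⁻¹ * cellS z Z E0 α (JW D Y₀ Y₁) om (TE α) g a e₀ with hf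
  have hf0 : ∀ g a e₀, 0 ≤ f g a e₀ := fun g a e₀ =>
    mul_nonneg (by positivity) (cellS_nonneg _ _ _ _ _ _ _ _ _ _)
  -- all terms
  have h2 : ‖CrQ (GF (Fh F h)) Pr K α (StE E0 (JW D Y₀ Y₁) om α)‖ ≤
      ∑ g ∈ S (X : ℝ), ∑ a ∈ dvs g, ∑ e₀ ∈ S E0, t g a e₀ := by
    rw [e0, h1]
    refine (norm_sum_le _ _).trans (Finset.sum_le_sum fun g hg => ?_)
    rw [norm_mul]
    refine (mul_le_of_le_one_left (norm_nonneg _) (abs_mu_le g)).trans ?_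
    rw [NTs_tmS]
    refine (norm_sum_le _ _).trans (Finset.sum_le_sum fun a _ => ?_)
    exact norm_sum_le _ _
  refine h2.trans ?_
  -- the split of the pairs
  have h3 : ∀ g ∈ S (X : ℝ), ∑ a ∈ dvs g, ∑ e₀ ∈ S E0, t g a e₀ ≤
      ∑ a ∈ dvs g, ∑ e₀ ∈ (S E0).filter (fun e₀ => (nm g : ℝ) * nm e₀ ≤ L2), t g a e₀ +
      c * ∑ a ∈ dvs g, ∑ e₀ ∈ (S E0).filter
        (fun e₀ => L2 < (nm g : ℝ) * nm e₀ ∧ (nm g : ℝ) * nm e₀ ≤ G), f g a e₀ := by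
    intro g hg
    have hgp := ((mem_S hX0).1 hg).2.1
    rw [Finset.mul_sum, ← Finset.sum_add_distrib]
    refine Finset.sum_le_sum fun a _ => ?_
    rw [← Finset.sum_filter_add_sum_filter_not (S E0) (fun e₀ => (nm g : ℝ) * nm e₀ ≤ L2)]
    refine add_le_add le_rfl ?_
    have h4 : ∀ e₀ ∈ (S E0).filter (fun e₀ => ¬ (nm g : ℝ) * nm e₀ ≤ L2), t g a e₀ ≤
        if (nm g : ℝ) * nm e₀ ≤ G then c * f g a e₀ else 0 := by
      intro e₀ he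
      have hep := ((mem_S hE0).1 (Finset.mem_filter.1 he).1).2.1
      refine (tmS_cauchy hF hS0 hFb hh hz hZ hK hQ α _ om _ hgp hep).trans ?_
      rw [← hc]
      by_cases c1 : z * ((nm g : ℝ) * nm e₀) ^ 3 ≤ Real.exp 2 * K
      · rw [if_pos c1]
        have c2 : (nm g : ℝ) * nm e₀ ≤ G := by
          by_contra hlt
          have h5 : z * G ^ 3 < z * ((nm g : ℝ) * nm e₀) ^ 3 := by
            refine mul_lt_mul_of_pos_left ?_ hz
            exact pow_lt_pow_left₀ (not_le.1 hlt) hG (by norm_num)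
          linarith
        rw [if_pos c2]
      · rw [if_neg c1, mul_zero]
        split_ifs
        · exact mul_nonneg hc0 (hf0 _ _ _)
        · exact le_rfl
    refine (Finset.sum_le_sum h4).trans (le_of_eq ?_)
    rw [← Finset.sum_filter, Finset.filter_filter, Finset.mul_sum]
    refine Finset.sum_congr (Finset.filter_congr fun e₀ _ => ?_) fun _ _ => rfl
    rw [not_le]
  refine (Finset.sum_le_sum h3).trans ?_
  rw [Finset.sum_add_distrib, ← Finset.mul_sum]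
  refine add_le_add ?_ (mul_le_mul_of_nonneg_left ?_ hc0)
  · refine le_trans ?_ (H F S₀ hF hS P K Z h E0 L2 Y D Y₀ Y₁ Pr α om hP hK hZ hh hE0 hL2 hY hD hY1
      hZB hhB hEB hLB hYB hDB hY1B hgap (fun k hk hc hq => (hQ k hk hc hq).2) hα hαB hom)
    have h6 : ∀ g ∈ S (X : ℝ), (∑ a ∈ dvs g, ∑ e₀ ∈ (S E0).filter
        (fun e₀ => (nm g : ℝ) * nm e₀ ≤ L2), t g a e₀) ≠ 0 → g ∈ S L2 := by
      intro g hg hne
      rw [mem_S hX0] at hg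
      rw [mem_S hL2]
      refine ⟨?_, hg.2⟩
      by_contra hlt
      apply hne
      refine Finset.sum_eq_zero fun a _ => ?_
      rw [Finset.filter_false_of_mem, Finset.sum_empty]
      intro e₀ he hle
      have he1 : (1 : ℝ) ≤ nm e₀ := by
        exact_mod_cast nm_pos.2 ((mem_S hE0).1 he).2.1.ne_zero
      exact hlt ((le_mul_of_one_le_right (Nat.cast_nonneg _) he1).trans hle)
    calc _ = ∑ g ∈ (S (X : ℝ)).filter (fun g => (∑ a ∈ dvs g, ∑ e₀ ∈ (S E0).filter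
            (fun e₀ => (nm g : ℝ) * nm e₀ ≤ L2), t g a e₀) ≠ 0), ∑ a ∈ dvs g,
              ∑ e₀ ∈ (S E0).filter (fun e₀ => (nm g : ℝ) * nm e₀ ≤ L2), t g a e₀ :=
          (Finset.sum_filter_ne_zero _).symm
      _ ≤ _ := by
          refine Finset.sum_le_sum_of_subset_of_nonneg (fun g hg => ?_) fun g _ _ =>
            Finset.sum_nonneg fun a _ => Finset.sum_nonneg fun e₀ _ => norm_nonneg _
          rw [Finset.mem_filter] at hg
          exact h6 g hg.1 hg.2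
  · have h6 : ∀ g ∈ S (X : ℝ), (∑ a ∈ dvs g, ∑ e₀ ∈ (S E0).filter
        (fun e₀ => L2 < (nm g : ℝ) * nm e₀ ∧ (nm g : ℝ) * nm e₀ ≤ G), f g a e₀) ≠ 0 →
        g ∈ S G := by
      intro g hg hne
      rw [mem_S hX0] at hg
      rw [mem_S hG]
      refine ⟨?_, hg.2⟩
      by_contra hlt
      apply hne
      refine Finset.sum_eq_zero fun a _ => ?_
      rw [Finset.filter_false_of_mem, Finset.sum_empty]
      intro e₀ he hle
      have he1 : (1 : ℝ) ≤ nm e₀ := by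
        exact_mod_cast nm_pos.2 ((mem_S hE0).1 he).2.1.ne_zero
      exact hlt ((le_mul_of_one_le_right (Nat.cast_nonneg _) he1).trans hle.2)
    calc _ = ∑ g ∈ (S (X : ℝ)).filter (fun g => (∑ a ∈ dvs g, ∑ e₀ ∈ (S E0).filter
            (fun e₀ => L2 < (nm g : ℝ) * nm e₀ ∧ (nm g : ℝ) * nm e₀ ≤ G), f g a e₀) ≠ 0),
          ∑ a ∈ dvs g, ∑ e₀ ∈ (S E0).filter
            (fun e₀ => L2 < (nm g : ℝ) * nm e₀ ∧ (nm g : ℝ) * nm e₀ ≤ G), f g a e₀ :=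
          (Finset.sum_filter_ne_zero _).symm
      _ ≤ _ := by
          refine Finset.sum_le_sum_of_subset_of_nonneg (fun g hg => ?_) fun g _ _ =>
            Finset.sum_nonneg fun a _ => Finset.sum_nonneg fun e₀ _ => hf0 _ _ _
          rw [Finset.mem_filter] at hg
          exact h6 g hg.1 hg.2

end Crest.Agent.R017.Etc537
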