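import Crest.Agent.R017.ETd_548

/-!
# Row 17, exceptional class (helper548): the compensated cross tail from its three halves

* `CrQ_and` : splitting the frequencies
* `EtGt`, `PrGt` : `EtG`, `PrG` with any shifts `et`
* **`etGt_of`**, `etG_of` : `EtGtU` from `GkGU`, `CsGU`, `PrGtU`
-/

set_option autoImplicit false
set_option linter.unusedSectionVars false
set_option linter.unusedVariables false

noncomputable section

open Finset
open scoped ComplexConjugate Classical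

namespace Crest.Agent.R017.ETe548

open Crest.Agent.R012 Crest.Agent.R012.Eis Crest.Agent.R012.MC
open Crest.Agent.R017.CM106 (CS FS)
open Crest.Agent.R017.C70 (CbF JW)
open Crest.Agent.R017.B770
open Crest.Agent.R017.FE47 (SM)
open Crest.Agent.R017.XG702 (Pcs)
open Crest.Agent.R017.Prov71
open Crest.Agent.R017.E2440 (StE Fh)
open Crest.Agent.R017.Ex385 (CrQ)
open Crest.Agent.R017.X6C180 (GF)
open Crest.Agent.R017.X6545 (TF Bd)
open Crest.Agent.R017.WDec180 (WD sc)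
open Crest.Agent.R017.I1146 (LN)
open Crest.Agent.R017.XT71 (Sys Win mx)
open Crest.Agent.R017.End699 (prin0 NP)
open Crest.Agent.R017.E5B71 Crest.Agent.R017.E5P571 Crest.Agent.R017.E5L770
open Crest.Agent.R017.ExBox960 Crest.Agent.R017.ExP960
open Crest.Agent.R017.Sf770
open Crest.Agent.R017.P1e54 Crest.Agent.R017.P1f54 Crest.Agent.R017.P1k54
open Crest.Agent.R017.P1l54 (ParOK)
open Crest.Agent.R017.P1X960
open Crest.Agent.R017.P10X764 (nw alX clN nW_hi)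
open Crest.Agent.R017.ETd548 Crest.Agent.R017.ETp548
open Crest.Agent.R017.ETq548 (etq_le)
open Crest.Agent.R017.E5Q571 (Cut)

/-! ### frequencies -/

theorem CrQ_and {F : ℝ → ℂ} (hF : ∃ B : ℝ, ∀ x, F x ≠ 0 → x ≤ B) (Q P : Eis → Prop) {K : ℝ}
    (hK : 0 < K) (α u : Eis → ℂ) :
    CrQ F Q K α u = CrQ F (fun k => Q k ∧ P k) K α u + CrQ F (fun k => Q k ∧ ¬ P k) K α u := by
  obtain ⟨Q1, hQ1⟩ : ∃ Q1 : Eis → Prop, Q1 = fun k => Q k ∧ P k := ⟨_, rfl⟩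
  obtain ⟨Q2, hQ2⟩ : ∃ Q2 : Eis → Prop, Q2 = fun k => Q k ∧ ¬ P k := ⟨_, rfl⟩
  rw [← hQ1, ← hQ2]
  unfold Ex385.CrQ
  have s1 : Summable fun k : Eis => if IsPrim k ∧ Q1 k then
      F ((nm k : ℝ) / K) * (CS α k * conj (u k)) else 0 :=
    Ex385.sum_CrQ hF hK (fun k => IsPrim k ∧ Q1 k) (fun k => CS α k * conj (u k))
  refine Eq.trans (tsum_congr fun k => ?_) (s1.tsum_add
    (Ex385.sum_CrQ hF hK (fun k => IsPrim k ∧ Q2 k) (fun k => CS α k * conj (u k))))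
  have h1 : Q1 k ↔ Q k ∧ P k := by rw [hQ1]
  have h2 : Q2 k ↔ Q k ∧ ¬ P k := by rw [hQ2]
  by_cases hk : IsPrim k <;> by_cases hq : Q k <;> by_cases hp : P k <;> simp [hk, hq, hp, h1, h2]

lemma NP_cube {n k m : Eis} {χ χ' : Eis → ℂ} {l : ℤ}
    (hχ : ∀ a, IsPrim a → IsCoprime a (k * m ^ 3) → χ a = χ' a)
    (h : NP (n * (9 * (k * m ^ 3))) χ l) : NP (n * (9 * k)) χ' l := by
  rcases h with h | ⟨a, ha, hc, hne⟩
  · exact Or.inl h
  · refine Or.inr ⟨a, ha, ?_, ?_⟩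
    · refine hc.of_isCoprime_of_dvd_right ?_
      exact mul_dvd_mul_left n (mul_dvd_mul_left 9 (dvd_mul_right _ _))
    · have h1 : IsCoprime a (k * m ^ 3) :=
        (IsCoprime.of_mul_right_right (IsCoprime.of_mul_right_right hc))
      rw [← hχ a ha h1]
      exact hne

lemma sy_cube {k m a : Eis} (ha : IsPrim a) (hc : IsCoprime a (k * m ^ 3)) :
    sy (k * m ^ 3) a = sy k a := by
  rw [Lbc298.sy_mul_cube' ha]
  have h1 : IsCoprime a m :=
    (IsCoprime.of_mul_right_right hc).of_isCoprime_of_dvd_right (dvd_pow_self m (by norm_num))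
  unfold prin0
  rw [if_pos h1, one_mul]

lemma NP2_cube (P : DPar) {k m : Eis} (h : P.NP2 (k * m ^ 3)) : P.NP2 k := by
  refine ⟨NP_cube (fun a ha hc => ?_) h.1, NP_cube (fun a ha hc => ?_) h.2⟩
  · rw [sy_cube ha hc]
  · rw [sy_cube ha hc]

/-! ### any shifts -/

section
variable {Λ : Type*} (al : Λ × Eis → BcX → List Pq → Eis → ℂ)
  (ok : Λ × Eis → BcX → List Pq → Prop) (e0 c : ℝ) (et : BcX → List Pq → ℕ → ℝ)
  (Kf : Λ × Eis → Finset Eis)

/-- **compensated tail**, shifts `et` -/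
def EtGt (Nw : Λ → ℕ) (Mw : Λ → ℝ) (Fw : Λ → ℕ → ℝ → ℂ) (lam : Λ × Eis) (a : BcX)
    (qs : List Pq) : ℝ :=
  if ok lam a qs then
    ∑ j ∈ range (nw c a), ∑ i ∈ range (Nw lam.1),
      ‖CrQ (GF (Fh (Fw lam.1 i) (et a qs j))) (fun k => ¬ cutE (Real.exp (a.1.l / 20)) k)
        (sc (Real.exp a.1.l) (Mw lam.1) i) (al lam a qs) (stG al e0 c lam a qs j)‖
  else 0

/-- the part of the classes `k₀ c³`, shifts `et` -/
def PrGt (Nw : Λ → ℕ) (Mw : Λ → ℝ) (Fw : Λ → ℕ → ℝ → ℂ) (lam : Λ × Eis) (a : BcX)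
    (qs : List Pq) : ℝ :=
  if ok lam a qs then
    ∑ j ∈ range (nw c a), ∑ i ∈ range (Nw lam.1),
      ‖CrQ (GF (Fh (Fw lam.1 i) (et a qs j)))
        (fun k => ¬ cutE (Real.exp (a.1.l / 20)) k ∧ ∃ k₀ ∈ Kf lam, ETp548.Ck k₀ k)
        (sc (Real.exp a.1.l) (Mw lam.1) i) (al lam a qs) (stG al e0 c lam a qs j)‖
  else 0

variable (β : ℝ) (Par : Set (Fin 3 ⊕ Fin 5 → ℝ)) (L : (IX5 → ℝ) → ℝ → ℝ → ℝ → Prop)
  (L0 : (Fin 3 ⊕ Fin 5 → ℝ) → ℝ)

/-- principal part, all lists -/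
def PrGtU : Prop :=
  ∀ R : Λ → ℝ, (∀ lam, 0 ≤ R lam) → ∀ (Nw : Λ → ℕ) (Mw : Λ → ℝ) (Fw : Λ → ℕ → ℝ → ℂ),
    (∀ lam, WD (wM (R lam)) (Nw lam) (Mw lam) (Fw lam)) →
    UB S8X Dq (PrGt al ok e0 c et Kf Nw Mw Fw) (Dom8X c β Par L) ∅ (E8X L0)

/-- **compensated tail, all lists** -/
def EtGtU : Prop :=
  ∀ R : Λ → ℝ, (∀ lam, 0 ≤ R lam) → ∀ (Nw : Λ → ℕ) (Mw : Λ → ℝ) (Fw : Λ → ℕ → ℝ → ℂ),
    (∀ lam, WD (wM (R lam)) (Nw lam) (Mw lam) (Fw lam)) →
    UB S8X Dq (EtGt al ok e0 c et Nw Mw Fw) (Dom8X c β Par L) ∅ (E8X L0)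

end

/-! ### the assembly -/

section
variable {Λ : Type*} {π : Λ → DPar} {al : Λ × Eis → BcX → List Pq → Eis → ℂ}
  {ok : Λ × Eis → BcX → List Pq → Prop} {e0 c : ℝ} {Kf : Λ × Eis → Finset Eis}
  {β : ℝ} {Par : Set (Fin 3 ⊕ Fin 5 → ℝ)} {L : (IX5 → ℝ) → ℝ → ℝ → ℝ → Prop}
  {L0 : (Fin 3 ⊕ Fin 5 → ℝ) → ℝ}

set_option maxHeartbeats 4000000 in
/-- **the compensated tail** -/
theorem etGt_of {et : BcX → List Pq → ℕ → ℝ} (het0 : ∀ a qs j, 0 ≤ et a qs j) (hPar : ∀ p ∈ Par, ParOK p)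
    (hal : ∀ lam a qs, ok lam a qs → ∀ n, al lam a qs n ≠ 0 → IsPrim n)
    (hKf : ∀ lam a qs, ok lam a qs → ∀ k, IsPrim k → ¬ (π lam.1).NP2 (lam.2 * k) →
      ∃ k₀ ∈ Kf lam, Ck k₀ k)
    {CE : (I8X ⊕ Unit → ℝ) × (Kd → ℝ) → ℝ} (hcs : CsGU π al ok c β Par L CE)
    (hgk : GkGU al ok e0 c β Par L (fun q => RoomX L0 q - CE q))
    (hpr : PrGtU al ok e0 c et Kf β Par L L0) : EtGtU al ok e0 c et β Par L L0 := by
  intro Rw hRw Nw Mw Fw hWD ε hε
  obtain ⟨ε₁, hε₁, hεε⟩ : ∃ ε₁ : ℝ, 0 < ε₁ ∧ 32 * ε₁ = ε := ⟨ε / 32, by positivity, by ring⟩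
  obtain ⟨δ₁, hδ₁, hcs⟩ := hcs ε₁ hε₁
  obtain ⟨δ₂, hδ₂, hgk⟩ := hgk ε₁ hε₁
  obtain ⟨δ₃, hδ₃, hpr⟩ := hpr Rw hRw Nw Mw Fw hWD (ε / 2) (by positivity)
  obtain ⟨δ, hδ, hδ1, hδ2, hδ3, hδε, hδ1'⟩ : ∃ δ : ℝ, 0 < δ ∧ 4 * δ ≤ δ₁ ∧ 4 * δ ≤ δ₂ ∧ δ ≤ δ₃ ∧
      δ ≤ ε₁ ∧ δ ≤ 1 / 32 := by
    refine ⟨min (min (δ₁ / 4) (δ₂ / 4)) (min δ₃ (min ε₁ (1 / 32))), ?_, ?_, ?_, ?_, ?_, ?_⟩
    · exact lt_min (lt_min (by positivity) (by positivity)) (lt_min hδ₃ (lt_min hε₁ (by norm_num)))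
    · have := (min_le_left (min (δ₁ / 4) (δ₂ / 4)) (min δ₃ (min ε₁ (1 / 32)))).trans (min_le_left _ _)
      linarith
    · have := (min_le_left (min (δ₁ / 4) (δ₂ / 4)) (min δ₃ (min ε₁ (1 / 32)))).trans
        (min_le_right _ _)
      linarith
    · exact (min_le_right _ _).trans (min_le_left _ _)
    · exact (min_le_right _ _).trans ((min_le_right _ _).trans (min_le_left _ _))
    · exact (min_le_right _ _).trans ((min_le_right _ _).trans (min_le_right _ _))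
  refine ⟨δ, hδ, fun lam N B => ?_⟩
  set B₂ : ℝ := max B 3 with hB₂
  have hBB : B ≤ B₂ := le_max_left _ _
  have hB3 : 3 ≤ B₂ := le_max_right _ _
  obtain ⟨ρ₁, hρ₁, X₁, hX₁, hcs⟩ := hcs lam N B₂
  obtain ⟨ρ₂, hρ₂, X₂, hX₂, hgk⟩ := hgk lam N B₂
  obtain ⟨ρ₃, hρ₃, X₃, hX₃, hpr⟩ := hpr lam N B₂
  obtain ⟨Sf, hSf0, hSf⟩ := (hWD lam.1).bd 0
  have hM0 := (hWD lam.1).M0
  set Nn : ℕ := Nw lam.1 with hNn
  have hN0 : (0 : ℝ) ≤ Nn := Nat.cast_nonneg _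
  -- constants
  set c₁ : ℝ := 2 + Nn with hc₁
  have hc₁0 : 0 ≤ c₁ := by rw [hc₁]; linarith
  set CC : ℝ := 4 * (2 / ε₁) * (Nn * (2 * Sf * (4 * (2 / ε₁) * (100 * Real.exp (c₁ + 1))))) with hCC
  have hCC0 : 0 ≤ CC := by positivity
  set Q₀ : ℝ := 2 + 8 * (c₁ + 1) / δ + 2 * (CC + 2) / ε₁ with hQ₀
  have hQ1 : 0 ≤ 8 * (c₁ + 1) / δ := by positivity
  have hQ2 : 0 ≤ 2 * (CC + 2) / ε₁ := by positivity
  refine ⟨min ρ₁ (min ρ₂ ρ₃), lt_min hρ₁ (lt_min hρ₂ hρ₃),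
    max (max X₁ (max X₂ X₃)) (Real.exp Q₀), ?_, ?_⟩
  · exact lt_of_lt_of_le hX₁ ((le_max_left _ _).trans (le_max_left _ _))
  intro X hX a qs hlen hgl q hq hw hm hg hl
  have hXa : max X₁ (max X₂ X₃) ≤ X := (le_max_left _ _).trans hX
  have hX1' : X₁ ≤ X := (le_max_left _ _).trans hXa
  have hX2' : X₂ ≤ X := ((le_max_left _ _).trans (le_max_right _ _)).trans hXa
  have hX3' : X₃ ≤ X := ((le_max_right _ _).trans (le_max_right _ _)).trans hXa
  have hXQ : Real.exp Q₀ ≤ X := (le_max_right _ _).trans hX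
  have hX1 : 1 < X := by linarith
  have hX0 : 0 < X := by linarith
  set Lg := Real.log X with hLg
  have hQL : Q₀ ≤ Lg := by
    have := Real.log_le_log (Real.exp_pos Q₀) hXQ
    rwa [Real.log_exp] at this
  have hL2 : 2 ≤ Lg := by linarith
  have hL0' : 0 < Lg := by linarith
  have hLδ : c₁ + 1 ≤ δ / 8 * Lg := by
    have h1 : 8 * (c₁ + 1) / δ ≤ Lg := by linarith
    rw [div_le_iff₀ hδ] at h1
    linarith
  have hLC : CC + 2 ≤ ε₁ / 2 * Lg := by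
    have h1 : 2 * (CC + 2) / ε₁ ≤ Lg := by linarith
    rw [div_le_iff₀ hε₁] at h1
    linarith
  have hXe : ∀ e : ℝ, X ^ e = Real.exp (e * Lg) := fun e => by
    rw [Real.rpow_def_of_pos hX0, ← hLg, mul_comm]
  by_cases hok : ok lam a qs
  swap
  · unfold EtGt
    rw [if_neg hok]
    positivity
  have hlog2 : 0 < Real.log 2 := Real.log_pos (by norm_num)
  have hlog2' : Real.log 2 ≤ 1 := by
    have := Real.log_two_lt_d9
    linarith
  have hlog2'' : 69 / 100 ≤ Real.log 2 := by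
    have := Real.log_two_gt_d9
    linarith
  -- the point
  set p : Fin 3 ⊕ Fin 5 → ℝ := prX (bp q.1) with hp
  have hPp := hPar p hq.1.par
  have hκ0 := hPp.κ0
  have hκ1 := hPp.κ1
  have hdiv : ∀ {z c : ℝ}, |z / Lg - c| ≤ δ → |z - c * Lg| ≤ δ * Lg := by
    intro z c h1
    have h2 : z - c * Lg = (z / Lg - c) * Lg := by field_simp
    rw [h2, abs_mul, abs_of_pos hL0']
    exact mul_le_mul_of_nonneg_right h1 hL0'.le
  have hev := hw.ev
  have hk : |a.1.l - cκ p * Lg| ≤ δ * Lg := hdiv (hev (.inl (.inl (.inl 0))))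
  have hz : |a.1.z - cx' p * Lg| ≤ δ * Lg := hdiv (hev (.inl (.inl (.inl 1))))
  have hu2 : |(a.1.us 2).z - cu p 2 * Lg| ≤ δ * Lg := hdiv (hev (.inl (.inl (.inr 2))))
  have hu3 : |(a.1.us 3).z - cu p 3 * Lg| ≤ δ * Lg := hdiv (hev (.inl (.inl (.inr 3))))
  have hu4 : |(a.1.us 4).z - cu p 4 * Lg| ≤ δ * Lg := hdiv (hev (.inl (.inl (.inr 4))))
  obtain ⟨k1, k2⟩ := abs_le.1 hk
  obtain ⟨z1, z2⟩ := abs_le.1 hz
  obtain ⟨u21, u22⟩ := abs_le.1 hu2
  obtain ⟨u31, u32⟩ := abs_le.1 hu3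
  obtain ⟨u41, u42⟩ := abs_le.1 hu4
  have hδL : 0 ≤ δ * Lg := by positivity
  have hδL8 : δ * Lg ≤ 1 / 32 * Lg := mul_le_mul_of_nonneg_right hδ1' hL0'.le
  have hδεL : δ * Lg ≤ ε₁ * Lg := mul_le_mul_of_nonneg_right hδε hL0'.le
  have hκL1 : cκ p * Lg ≤ 1 * Lg := mul_le_mul_of_nonneg_right hκ1 hL0'.le
  have hκL0 : 8 / 9 * Lg ≤ cκ p * Lg := mul_le_mul_of_nonneg_right hκ0 hL0'.le
  have hκL00 : 0 ≤ cκ p * Lg := by linarith
  have hl0 : 0 ≤ a.1.l := by linarith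
  have hl1 : a.1.l ≤ 2 * Lg := by linarith
  -- transfer of the premises
  have hρ1 : min ρ₁ (min ρ₂ ρ₃) ≤ ρ₁ := min_le_left _ _
  have hρ2 : min ρ₁ (min ρ₂ ρ₃) ≤ ρ₂ := (min_le_right _ _).trans (min_le_left _ _)
  have hρ3 : min ρ₁ (min ρ₂ ρ₃) ≤ ρ₃ := (min_le_right _ _).trans (min_le_right _ _)
  have hgood : ∀ ρ, min ρ₁ (min ρ₂ ρ₃) ≤ ρ → Dq.Good X ρ B₂ qs := by
    intro ρ hρ p' hp'
    obtain ⟨h1, h2, h3⟩ := hg p' hp'
    exact ⟨h1.trans (Real.rpow_le_rpow_of_exponent_le hX1.le hρ),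
      h2.trans (Real.rpow_le_rpow_of_exponent_le hX1.le hBB), h3⟩
  have hglm : ∀ δ', δ ≤ δ' → ∀ p' ∈ qs, Dq.lump p' ∨ Dq.nl X p' ≤ δ' := fun δ' h p' hp' =>
    (hgl p' hp').imp id fun h' => h'.trans h
  have hnl : ∀ p' ∈ qs, Dq.lump p' → False := fun p' hp' hl' =>
    (Set.notMem_empty _) (hl p' hp' hl')
  -- the principal part
  have HP := hpr X hX3' a qs hlen (hglm δ₃ hδ3) q hq (hw.mono hX1.le hδ3 le_rfl hBB hρ3)
    (fun t => (hm t).trans hδ3) (hgood ρ₃ hρ3) (fun p' hp' hl' => (hnl p' hp' hl').elim)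
  -- the blocks
  set I : ℕ := ⌊(c₁ + a.1.l) / Real.log 2⌋₊ + 1 with hI
  set EE : ℝ := E8X L0 q with hEE
  set kk : ℕ → ℝ := fun i => min (((i : ℝ) + 1) * Real.log 2 / Lg) (17 / 20 * cκ p) with hkk
  have hkk0 : ∀ i, 0 ≤ kk i := fun i => le_min (by positivity) (by linarith)
  set G : ℕ → ℝ := fun i => X ^ (EE - (cκ p - kk i) / 3 + ε₁) with hG
  have hG0 : ∀ i, 0 ≤ G i := fun i => by rw [hG]; positivity
  have blk : ∀ (j i : ℕ) (m : Eis), j < nw c a → IsPrim m →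
      Real.exp (a.1.l / 20) < (nm m : ℝ) →
      (nm m : ℝ) ^ 3 * 2 ^ i ≤ Real.exp (c₁ + a.1.l) →
      (∑ k ∈ (primBall (2 ^ (i + 1))).filter
          (fun k => (CbF k ∧ 2 ^ i ≤ nm k) ∧ ¬ ∃ k₀ ∈ Kf lam, Ck k₀ (m ^ 3 * k)),
        ‖CS (fun n => al lam a qs n * prin0 m n) k‖ ^ 2) *
      (∑ k ∈ (primBall (2 ^ (i + 1))).filter (fun k => CbF k ∧ 2 ^ i ≤ nm k),
        ‖stG al e0 c lam a qs j (m ^ 3 * k)‖ ^ 2) ≤ (G i) ^ 2 := by
    intro j i m hj hmp hmE hmK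
    have hnm0 : (0 : ℝ) < nm m := by exact_mod_cast nm_pos.2 hmp.ne_zero
    have hlm : a.1.l / 20 ≤ Real.log (nm m) := ((Real.lt_log_iff_exp_lt hnm0).2 hmE).le
    have h3 : 3 * Real.log (nm m) + i * Real.log 2 ≤ c₁ + a.1.l := by
      have := Real.log_le_log (by positivity) hmK
      rw [Real.log_mul (by positivity) (by positivity), Real.log_pow, Real.log_pow,
        Real.log_exp] at this
      push_cast at this
      exact this
    have hi0 : (0 : ℝ) ≤ i * Real.log 2 := by positivity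
    have hmX : (nm m : ℝ) ≤ X := by
      rw [← Real.log_le_log_iff hnm0 hX0, ← hLg]
      linarith
    have hiu : ((i : ℝ) + 1) * Real.log 2 ≤ (17 / 20 * cκ p + 2 * δ) * Lg := by
      have : i * Real.log 2 ≤ c₁ + 17 / 20 * a.1.l := by linarith
      linarith
    -- the point of the block
    set q' : (I8X ⊕ Unit → ℝ) × (Kd → ℝ) := (Sum.elim q.1 fun _ => kk i, q.2) with hq'
    have hq'D : q' ∈ DomKX c β Par L := ⟨hq, hkk0 i, min_le_right _ _⟩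
    have hevk : |((i : ℝ) + 1) * Real.log 2 / Lg - kk i| ≤ 2 * δ := by
      rw [hkk]
      dsimp only
      rw [abs_le]
      have e1 := min_le_left (((i : ℝ) + 1) * Real.log 2 / Lg) (17 / 20 * cκ p)
      have e2 : ((i : ℝ) + 1) * Real.log 2 / Lg ≤ 17 / 20 * cκ p + 2 * δ := by
        rw [div_le_iff₀ hL0']
        exact hiu
      refine ⟨by linarith, ?_⟩
      have e3 : ((i : ℝ) + 1) * Real.log 2 / Lg - 2 * δ ≤
          min (((i : ℝ) + 1) * Real.log 2 / Lg) (17 / 20 * cκ p) := le_min (by linarith)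
            (by linarith)
      linarith
    have hwin : ∀ δ' ρ, 4 * δ ≤ δ' → min ρ₁ (min ρ₂ ρ₃) ≤ ρ →
        Win S8Xk q'.1 δ' N B₂ ρ X (a, (j, i, m)) := by
      intro δ' ρ hδ' hρ
      have hw' := hw.mono hX1.le (show δ ≤ δ' by linarith) le_rfl hBB hρ
      refine ⟨?_, ?_, Nat.zero_le _, hw'.s₁, ?_⟩
      · rintro (i' | u)
        · exact hw'.ev i'
        · exact hevk.trans (by linarith)
      · exact hw'.g
      · refine max_le hw'.s₂ (hmX.trans ?_)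
        calc X = X ^ (1 : ℝ) := (Real.rpow_one X).symm
          _ ≤ X ^ B₂ := Real.rpow_le_rpow_of_exponent_le hX1.le (by linarith)
    have A1 := hcs X hX1' (a, (j, i, m)) qs hlen (hglm δ₁ (by linarith)) q' hq'D
      (hwin δ₁ ρ₁ hδ1 hρ1) (fun t => (hm t).trans (by linarith)) (hgood ρ₁ hρ1)
      (fun p' hp' hl' => (hnl p' hp' hl').elim)
    have A2 := hgk X hX2' (a, (j, i, m)) qs hlen (hglm δ₂ (by linarith)) q' hq'D
      (hwin δ₂ ρ₂ hδ2 hρ2) (fun t => (hm t).trans (by linarith)) (hgood ρ₂ hρ2)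
      (fun p' hp' hl' => (hnl p' hp' hl').elim)
    unfold ETd548.CsG at A1
    rw [if_pos ⟨hok, hmp⟩] at A1
    unfold ETd548.GkG at A2
    rw [if_pos ⟨hok, hmp, hj⟩] at A2
    have A3 : ∑ k ∈ (primBall (2 ^ (i + 1))).filter
          (fun k => (CbF k ∧ 2 ^ i ≤ nm k) ∧ ¬ ∃ k₀ ∈ Kf lam, Ck k₀ (m ^ 3 * k)),
        ‖CS (fun n => al lam a qs n * prin0 m n) k‖ ^ 2 ≤ X ^ (CE q' + ε₁) := by
      refine le_trans (sum_le_sum_of_subset_of_nonneg (fun k hk => ?_) fun _ _ _ => by positivity)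
        A1
      rw [mem_filter] at hk ⊢
      refine ⟨hk.1, hk.2.1, ?_⟩
      have hkp := (mem_primBall.1 hk.1).2
      by_contra hnp
      refine hk.2.2 (hKf lam a qs hok _ ((hmp.pow 3).mul hkp) fun h => hnp ?_)
      refine NP2_cube _ (m := m) ?_
      have e : lam.2 * (m ^ 3 * k) = lam.2 * k * m ^ 3 := by ring
      rw [← e]
      exact h
    refine (mul_le_mul A3 A2 (sum_nonneg fun _ _ => by positivity) (by positivity)).trans
      (le_of_eq ?_)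
    rw [hG]
    dsimp only
    rw [← Real.rpow_add hX0, ← Real.rpow_natCast, ← Real.rpow_mul hX0.le]
    congr 1
    have e : RoomX L0 q' = 2 * (EE - (cκ p - kk i) / 3) := rfl
    rw [e]
    push_cast
    ring
  -- one level, one scale
  set U : ℝ := Real.exp (c₁ + 1 + (EE + 2 * ε₁) * Lg) with hU
  have hIb : Real.exp (c₁ + a.1.l) < 2 ^ I := by
    have h1 := Nat.lt_floor_add_one ((c₁ + a.1.l) / Real.log 2)
    rw [div_lt_iff₀ hlog2] at h1
    rw [← Real.lt_log_iff_exp_lt (by positivity), Real.log_pow, hI]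
    push_cast
    exact h1
  have hI2 : (I : ℝ) ≤ 4 * Lg := by
    have h1 : (0 : ℝ) ≤ (c₁ + a.1.l) / Real.log 2 := by positivity
    have h2 := Nat.floor_le h1
    have h3 : (c₁ + a.1.l) / Real.log 2 ≤ 3 * Lg := by
      rw [div_le_iff₀ hlog2]
      have h7 : 3 * Lg * (69 / 100) ≤ 3 * Lg * Real.log 2 :=
        mul_le_mul_of_nonneg_left hlog2'' (by linarith)
      linarith
    rw [hI]
    push_cast
    linarith
  have one : ∀ j < nw c a, ∀ i' < Nn,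
      ‖CrQ (GF (Fh (Fw lam.1 i') (et a qs j))) (fun k => ¬ cutE (Real.exp (a.1.l / 20)) k)
        (sc (Real.exp a.1.l) (Mw lam.1) i') (al lam a qs) (stG al e0 c lam a qs j)‖ ≤
      ‖CrQ (GF (Fh (Fw lam.1 i') (et a qs j)))
        (fun k => ¬ cutE (Real.exp (a.1.l / 20)) k ∧ ∃ k₀ ∈ Kf lam, Ck k₀ k)
        (sc (Real.exp a.1.l) (Mw lam.1) i') (al lam a qs) (stG al e0 c lam a qs j)‖ +
      2 * Sf * (4 * Lg * (100 * U)) := by
    intro j hj i' hi'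
    have hF : TF (Fw lam.1 i') := X6W180.tf1_tf ((hWD lam.1).tf i')
    have hη : 0 ≤ et a qs j := het0 a qs j
    have hK : 0 < sc (Real.exp a.1.l) (Mw lam.1) i' := WDec180.sc_pos (Real.exp_pos _) _ _
    have hKle : Real.exp 2 * sc (Real.exp a.1.l) (Mw lam.1) i' ≤ Real.exp (c₁ + a.1.l) := by
      unfold WDec180.sc
      rw [← Real.exp_add, ← Real.exp_add, hc₁]
      refine Real.exp_le_exp.2 ?_
      have : (i' : ℝ) ≤ Nn := by exact_mod_cast hi'.le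
      linarith
    have e1 := CrQ_and (Ex385.bdd_Fh hF hη) (fun k => ¬ cutE (Real.exp (a.1.l / 20)) k)
      (fun k => ∃ k₀ ∈ Kf lam, Ck k₀ k) hK (al lam a qs) (stG al e0 c lam a qs j)
    rw [e1]
    refine (norm_add_le _ _).trans (add_le_add le_rfl ?_)
    have hS : ∀ y, ‖Fw lam.1 i' y‖ ≤ Sf := fun y => by
      have := hSf i' hi' 0 le_rfl y
      rwa [iteratedDeriv_zero] at this
    refine (etq_le hF hS hη hK (hal lam a qs hok) (stG al e0 c lam a qs j)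
      (fun k => ¬ ∃ k₀ ∈ Kf lam, Ck k₀ k) (Real.exp_pos (a.1.l / 20)).le
      (hKle.trans_lt hIb) hG0
      (fun i m _ hmp h1 h2 => by
        convert blk j i m hj hmp h1 (h2.trans hKle))).trans ?_
    refine mul_le_mul_of_nonneg_left ?_ (by positivity)
    have term : ∀ i : ℕ, 100 * (Real.exp 2 * sc (Real.exp a.1.l) (Mw lam.1) i' / 2 ^ i) ^
        ((1 : ℝ) / 3) * G i ≤ 100 * U := by
      intro i
      have h1 : (Real.exp 2 * sc (Real.exp a.1.l) (Mw lam.1) i' / 2 ^ i) ^ ((1 : ℝ) / 3) ≤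
          Real.exp ((c₁ + a.1.l - i * Real.log 2) / 3) := by
        have h2 : Real.exp 2 * sc (Real.exp a.1.l) (Mw lam.1) i' / 2 ^ i ≤
            Real.exp (c₁ + a.1.l - i * Real.log 2) := by
          rw [Real.exp_sub, mul_comm (i : ℝ), Real.exp_mul, Real.exp_log (by norm_num),
            Real.rpow_natCast]
          gcongr
        refine (Real.rpow_le_rpow (by positivity) h2 (by norm_num)).trans (le_of_eq ?_)
        rw [← Real.exp_mul]
        congr 1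
        ring
      have h3 : Real.exp ((c₁ + a.1.l - i * Real.log 2) / 3) * G i ≤ U := by
        rw [hG, hU]
        dsimp only
        rw [hXe, ← Real.exp_add]
        refine Real.exp_le_exp.2 ?_
        have h4 : kk i * Lg ≤ ((i : ℝ) + 1) * Real.log 2 := by
          have := mul_le_mul_of_nonneg_right
            (min_le_left (((i : ℝ) + 1) * Real.log 2 / Lg) (17 / 20 * cκ p)) hL0'.le
          rwa [div_mul_cancel₀ _ hL0'.ne'] at this
        have h5 : (EE - (cκ p - kk i) / 3 + ε₁) * Lg =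
            EE * Lg - (cκ p * Lg - kk i * Lg) / 3 + ε₁ * Lg := by ring
        have h6 : (EE + 2 * ε₁) * Lg = EE * Lg + 2 * (ε₁ * Lg) := by ring
        rw [h5, h6]
        linarith
      calc _ = 100 * ((Real.exp 2 * sc (Real.exp a.1.l) (Mw lam.1) i' / 2 ^ i) ^
            ((1 : ℝ) / 3) * G i) := by ring
        _ ≤ 100 * (Real.exp ((c₁ + a.1.l - i * Real.log 2) / 3) * G i) := by
            have := hG0 i
            gcongr
        _ ≤ 100 * U := by gcongr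
    refine (sum_le_sum fun i _ => term i).trans ?_
    rw [sum_const, nsmul_eq_mul]
    refine mul_le_mul_of_nonneg_right (le_trans ?_ hI2) (by positivity)
    have h1 := card_filter_le (range I) fun i =>
      Real.exp (a.1.l / 20) ^ 3 * 2 ^ i ≤ Real.exp 2 * sc (Real.exp a.1.l) (Mw lam.1) i'
    rw [card_range] at h1
    exact_mod_cast h1
  -- the number of levels
  have hnw : (nw c a : ℝ) ≤ 4 * Lg := by
    have h1 := nW_hi c a
    have h2 : tO a.1.toBd ≤ 17 / 10 * Lg := by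
      have hNN : cu p 2 + cu p 3 + cu p 4 ≤ 1 := hPp.N1
      have hxx := hPp.x1
      have e1 : (cu p 2 + cu p 3 + cu p 4) * Lg ≤ 1 * Lg :=
        mul_le_mul_of_nonneg_right hNN hL0'.le
      have e2 : cx' p * Lg ≤ 1 / 3 * Lg := mul_le_mul_of_nonneg_right hxx hL0'.le
      have e3 : a3 a.1.toBd = (a.1.us 2).z + (a.1.us 3).z + (a.1.us 4).z := rfl
      have e4 : tO a.1.toBd = min (2 * a3 a.1.toBd - a.1.l) (3 / 4 * a3 a.1.toBd) +
        11 / 5 * a.1.z := rfl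
      have e5 := min_le_right (2 * a3 a.1.toBd - a.1.l) (3 / 4 * a3 a.1.toBd)
      have e6 : (cu p 2 + cu p 3 + cu p 4) * Lg = cu p 2 * Lg + cu p 3 * Lg + cu p 4 * Lg := by
        ring
      rw [e4]
      rw [e3] at e5 ⊢
      linarith
    have h3 : max 0 (min (tO a.1.toBd) (tO a.1.toBd + 2 * (c * a.1.l) - 2 * a.2.2)) ≤
        17 / 10 * Lg := max_le (by linarith) ((min_le_left _ _).trans h2)
    have h4 : 69 / 100 * (nw c a : ℝ) ≤ Real.log 2 * nw c a :=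
      mul_le_mul_of_nonneg_right hlog2'' (Nat.cast_nonneg _)
    linarith
  unfold PrGt at HP
  rw [if_pos hok] at HP
  unfold EtGt
  rw [if_pos hok]
  have hsum : ∑ j ∈ range (nw c a), ∑ i ∈ range Nn,
      ‖CrQ (GF (Fh (Fw lam.1 i) (et a qs j))) (fun k => ¬ cutE (Real.exp (a.1.l / 20)) k)
        (sc (Real.exp a.1.l) (Mw lam.1) i) (al lam a qs) (stG al e0 c lam a qs j)‖ ≤
      X ^ (EE + ε / 2) + 4 * Lg * (Nn * (2 * Sf * (4 * Lg * (100 * U)))) := by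
    have h1 : ∑ j ∈ range (nw c a), ∑ i ∈ range Nn,
        ‖CrQ (GF (Fh (Fw lam.1 i) (et a qs j))) (fun k => ¬ cutE (Real.exp (a.1.l / 20)) k)
          (sc (Real.exp a.1.l) (Mw lam.1) i) (al lam a qs) (stG al e0 c lam a qs j)‖ ≤
        ∑ j ∈ range (nw c a), ∑ i ∈ range Nn,
        (‖CrQ (GF (Fh (Fw lam.1 i) (et a qs j)))
          (fun k => ¬ cutE (Real.exp (a.1.l / 20)) k ∧ ∃ k₀ ∈ Kf lam, Ck k₀ k)
          (sc (Real.exp a.1.l) (Mw lam.1) i) (al lam a qs) (stG al e0 c lam a qs j)‖ +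
        2 * Sf * (4 * Lg * (100 * U))) :=
      sum_le_sum fun j hj => sum_le_sum fun i hi => one j (mem_range.1 hj) i (mem_range.1 hi)
    refine h1.trans ?_
    rw [sum_congr rfl fun j _ => sum_add_distrib, sum_add_distrib]
    refine add_le_add HP ?_
    rw [sum_const, sum_const, card_range, card_range, nsmul_eq_mul, nsmul_eq_mul]
    exact mul_le_mul_of_nonneg_right hnw (by positivity)
  refine hsum.trans ?_
  -- numbers
  have hLe : Lg ≤ 2 / ε₁ * Real.exp (ε₁ / 2 * Lg) := by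
    have h1 := Real.add_one_le_exp (ε₁ / 2 * Lg)
    have h2 : Lg = 2 / ε₁ * (ε₁ / 2 * Lg) := by field_simp
    calc Lg = 2 / ε₁ * (ε₁ / 2 * Lg) := h2
      _ ≤ 2 / ε₁ * Real.exp (ε₁ / 2 * Lg) :=
        mul_le_mul_of_nonneg_left (by linarith) (by positivity)
  have hCe : CC ≤ Real.exp (ε₁ / 2 * Lg) := by
    have h1 := Real.add_one_le_exp (ε₁ / 2 * Lg)
    linarith
  have h2e : 2 ≤ Real.exp (ε₁ / 2 * Lg) := by
    have h1 := Real.add_one_le_exp (ε₁ / 2 * Lg)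
    linarith
  have hNP : 4 * Lg * (Nn * (2 * Sf * (4 * Lg * (100 * U)))) ≤
      Real.exp ((EE + 4 * ε₁) * Lg) := by
    have hUU : U = Real.exp (c₁ + 1) * Real.exp ((EE + 2 * ε₁) * Lg) := by
      rw [hU, ← Real.exp_add]
    calc 4 * Lg * (Nn * (2 * Sf * (4 * Lg * (100 * U)))) ≤
        4 * (2 / ε₁ * Real.exp (ε₁ / 2 * Lg)) * (Nn * (2 * Sf *
          (4 * (2 / ε₁ * Real.exp (ε₁ / 2 * Lg)) * (100 * U)))) := by
          have hU0 : 0 ≤ U := by rw [hU]; positivity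
          gcongr
      _ = CC * (Real.exp (ε₁ / 2 * Lg) * Real.exp (ε₁ / 2 * Lg)) *
            Real.exp ((EE + 2 * ε₁) * Lg) := by
          rw [hUU, hCC]; ring
      _ ≤ Real.exp (ε₁ / 2 * Lg) * (Real.exp (ε₁ / 2 * Lg) * Real.exp (ε₁ / 2 * Lg)) *
            Real.exp ((EE + 2 * ε₁) * Lg) := by gcongr
      _ = Real.exp ((EE + 2 * ε₁ + 3 / 2 * ε₁) * Lg) := by
          rw [← Real.exp_add, ← Real.exp_add, ← Real.exp_add]
          congr 1
          ring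
      _ ≤ _ := by
          refine Real.exp_le_exp.2 (mul_le_mul_of_nonneg_right (by linarith) hL0'.le)
  have e1 : X ^ (EE + ε / 2) = Real.exp ((EE + 16 * ε₁) * Lg) := by
    rw [hXe, ← hεε]
    congr 1
    ring
  have e2 : X ^ (EE + ε) = Real.exp ((EE + 32 * ε₁) * Lg) := by
    rw [hXe, ← hεε]
  rw [e1, e2]
  have h5 : Real.exp ((EE + 4 * ε₁) * Lg) ≤ Real.exp ((EE + 16 * ε₁) * Lg) :=
    Real.exp_le_exp.2 (mul_le_mul_of_nonneg_right (by linarith) hL0'.le)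
  calc Real.exp ((EE + 16 * ε₁) * Lg) + 4 * Lg * (Nn * (2 * Sf * (4 * Lg * (100 * U)))) ≤
      2 * Real.exp ((EE + 16 * ε₁) * Lg) := by linarith
    _ ≤ Real.exp (ε₁ / 2 * Lg) * Real.exp ((EE + 16 * ε₁) * Lg) := by gcongr
    _ = Real.exp ((EE + 33 / 2 * ε₁) * Lg) := by
        rw [← Real.exp_add]
        congr 1
        ring
    _ ≤ _ := Real.exp_le_exp.2 (mul_le_mul_of_nonneg_right (by linarith) hL0'.le)

/-- **the compensated tail**, the shifts `etL` -/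
theorem etG_of (hPar : ∀ p ∈ Par, ParOK p)
    (hal : ∀ lam a qs, ok lam a qs → ∀ n, al lam a qs n ≠ 0 → IsPrim n)
    (hKf : ∀ lam a qs, ok lam a qs → ∀ k, IsPrim k → ¬ (π lam.1).NP2 (lam.2 * k) →
      ∃ k₀ ∈ Kf lam, Ck k₀ k)
    {CE : (I8X ⊕ Unit → ℝ) × (Kd → ℝ) → ℝ} (hcs : CsGU π al ok c β Par L CE)
    (hgk : GkGU al ok e0 c β Par L (fun q => RoomX L0 q - CE q))
    (hpr : PrGU al ok e0 c Kf β Par L L0) : EtGU al ok e0 c β Par L L0 :=
  etGt_of (et := etL) (fun _ _ _ => le_max_left _ _) hPar hal hKf hcs hgk hpr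

end

end Crest.Agent.R017.ETe548
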