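import Crest.Agent.R017.X6C1_180

/-!
# Row 17, exceptional class, X6 (C), part 2 (helper180): `h = d e³`

* `tsum_cf` : `Σ_{h prim} G h = Σ_{(d,e)} G (d e³)` (`d` primary cube-free, `e` primary)
* `thS` : `Σ_{h prim} ρ(v h) φ(h) = ρ v Σ_d conj (gs v d) N(d)^(-2/3) Σ_e φ(d e³)`
-/

set_option autoImplicit false
set_option linter.unusedVariables false

noncomputable section

open Complex
open scoped ComplexConjugate

namespace Crest.Agent.R017.X6C180

open Crest.Agent.R012 Crest.Agent.R012.Eis Crest.Agent.R012.GaussLoc283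

lemma exists_cf : ∀ (n : ℕ) (d : Eis), nm d ≤ n → IsPrim d →
    ∃ c e : Eis, IsPrim c ∧ IsPrim e ∧ CF c ∧ d = c * e ^ 3 := by
  intro n
  induction n with
  | zero =>
    intro d hn hd
    exact absurd (nm_pos.2 hd.ne_zero) (by omega)
  | succ n ih =>
    intro d hn hd
    by_cases hcf : CF d
    · exact ⟨d, 1, hd, isPrim_one, hcf, by ring⟩
    · unfold CF at hcf
      push Not at hcf
      obtain ⟨p, hpp, hp, d', rfl⟩ := hcf
      have hd' : IsPrim d' := hd.of_mul_left (hp.pow 3)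
      have h1 : nm d' < nm (p ^ 3 * d') := by
        have h3 : 0 < nm d' := nm_pos.2 hd'.ne_zero
        have h5 : 0 < nm (p ^ 3) := nm_pos.2 (hp.pow 3).ne_zero
        have h6 : nm (p ^ 3) ≠ 1 := by
          intro h
          have := isUnit_iff.mpr h
          exact hpp.not_isUnit ((isUnit_pow_iff (by norm_num)).mp this)
        rw [nm_mul]
        have h7 : 2 ≤ nm (p ^ 3) := by omega
        nlinarith
      obtain ⟨c, e, hc, he, hcf', hde⟩ := ih d' (by omega) hd'
      exact ⟨c, p * e, hc, hp.mul he, hcf', by rw [hde]; ring⟩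

lemma cf_unique : ∀ (n : ℕ) (c c' e e' : Eis), nm e + nm e' ≤ n → IsPrim c → IsPrim c' →
    IsPrim e → IsPrim e' → CF c → CF c' → c * e ^ 3 = c' * e' ^ 3 → c = c' ∧ e = e' := by
  intro n
  induction n with
  | zero =>
    intro c c' e e' hn _ _ he
    exact absurd (nm_pos.2 he.ne_zero) (by omega)
  | succ n ih =>
    intro c c' e e' hn hc hc' he he' hcf hcf' heq
    have key : ∀ (c c' e e' : Eis), IsPrim c → IsPrim c' → IsPrim e → IsPrim e' → CF c → CF c' →
        c * e ^ 3 = c' * e' ^ 3 → ∀ p : Eis, Prime p → IsPrim p → p ∣ e → p ∣ e' := by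
      intro c c' e e' hc hc' he he' hcf hcf' heq p hpp hp hpe
      by_contra hpe'
      have h1 : p ^ 3 ∣ c' * e' ^ 3 := heq ▸ (pow_dvd_pow_of_dvd hpe 3).mul_left c
      have h2 : IsCoprime (p ^ 3) (e' ^ 3) :=
        ((isCoprime_iff_not_dvd hpp e').mpr hpe').symm.pow
      exact hcf' p hpp hp (h2.dvd_of_dvd_mul_right h1)
    by_cases h1 : e = 1
    · by_cases h1' : e' = 1
      · subst h1; subst h1'
        exact ⟨by simpa using heq, rfl⟩
      · obtain ⟨p, hpp, hp, hpd⟩ := Gauss880.exists_prim_prime_dvd he' h1'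
        have := key c' c e' e hc' hc he' he hcf' hcf heq.symm p hpp hp hpd
        rw [h1] at this
        exact absurd (isUnit_of_dvd_one this) hpp.not_isUnit
    · obtain ⟨p, hpp, hp, hpd⟩ := Gauss880.exists_prim_prime_dvd he h1
      have hpd' := key c c' e e' hc hc' he he' hcf hcf' heq p hpp hp hpd
      obtain ⟨f, rfl⟩ := hpd
      obtain ⟨f', rfl⟩ := hpd'
      have hf : IsPrim f := he.of_mul_left hp
      have hf' : IsPrim f' := he'.of_mul_left hp
      have hlt : nm f + nm f' ≤ n := by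
        have h3 : 0 < nm f := nm_pos.2 hf.ne_zero
        have h3' : 0 < nm f' := nm_pos.2 hf'.ne_zero
        have h5 : 0 < nm p := nm_pos.2 hp.ne_zero
        have h6 : nm p ≠ 1 := fun h => hpp.not_isUnit (isUnit_iff.mpr h)
        have h7 : 2 ≤ nm p := by omega
        rw [nm_mul, nm_mul] at hn
        nlinarith
      have heq' : c * f ^ 3 = c' * f' ^ 3 := by
        have h8 : p ^ 3 * (c * f ^ 3) = p ^ 3 * (c' * f' ^ 3) := by
          calc p ^ 3 * (c * f ^ 3) = c * (p * f) ^ 3 := by ring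
            _ = c' * (p * f') ^ 3 := heq
            _ = _ := by ring
        exact mul_left_cancel₀ (pow_ne_zero 3 hpp.ne_zero) h8
      obtain ⟨r1, r2⟩ := ih c c' f f' hlt hc hc' hf hf' hcf hcf' heq'
      exact ⟨r1, by rw [r2]⟩

open Classical in
/-- **primary = cube-free times cube.** -/
theorem tsum_cf (G : Eis → ℂ) :
    (∑' h : Eis, if IsPrim h then G h else 0) =
      ∑' x : Eis × Eis, if IsPrim x.1 ∧ CF x.1 ∧ IsPrim x.2 then G (x.1 * x.2 ^ 3) else 0 := by
  set S : Set (Eis × Eis) := {x | IsPrim x.1 ∧ CF x.1 ∧ IsPrim x.2} with hS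
  set g : S → Eis := fun x => x.1.1 * x.1.2 ^ 3 with hg
  have hinj : Function.Injective g := by
    rintro ⟨⟨c, e⟩, hc, hcf, he⟩ ⟨⟨c', e'⟩, hc', hcf', he'⟩ h
    obtain ⟨h1, h2⟩ := cf_unique _ c c' e e' le_rfl hc hc' he he' hcf hcf' h
    subst h1; subst h2
    rfl
  have h1 := hinj.tsum_eq (f := fun h : Eis => if IsPrim h then G h else 0) ?_
  · rw [← h1]
    have h2 := tsum_subtype S (fun x : Eis × Eis => G (x.1 * x.2 ^ 3))
    have h3 : (∑' x : S, (if IsPrim (g x) then G (g x) else 0)) =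
        ∑' x : S, G (x.1.1 * x.1.2 ^ 3) := by
      refine tsum_congr fun x => ?_
      rw [if_pos (x.2.1.mul (x.2.2.2.pow 3))]
    rw [h3, h2]
    refine tsum_congr fun x => ?_
    by_cases hx : IsPrim x.1 ∧ CF x.1 ∧ IsPrim x.2
    · rw [if_pos hx, Set.indicator_of_mem (show x ∈ S from hx)]
    · rw [if_neg hx, Set.indicator_of_notMem (show x ∉ S from hx)]
  · intro h hh
    rw [Function.mem_support] at hh
    by_cases hp : IsPrim h
    · obtain ⟨c, e, hc, he, hcf, hce⟩ := exists_cf _ h le_rfl hp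
      exact ⟨⟨(c, e), hc, hcf, he⟩, hce.symm⟩
    · rw [if_neg hp] at hh
      exact absurd rfl hh

/-- finitely supported weights -/
def FSp (φ : Eis → ℂ) : Prop := ∃ N : ℕ, ∀ h, φ h ≠ 0 → nm h ≤ N

open Classical in
/-- **the sum of the residues as a Gauss sum series.** -/
theorem thS {ρ : Eis → ℂ} (hR : M49.RhoRel ρ) {v : Eis}
    (hv : ∀ p : Eis, Prime p → IsPrim p → ¬ p ^ 2 ∣ v) {φ : Eis → ℂ} (hφ : FSp φ) :
    (∑' h : Eis, if IsPrim h then ρ (v * h) * φ h else 0) =
      ρ v * ∑' d : Eis, if IsPrim d then conj (gs v d) * ((n23 d : ℂ) *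
        ∑' e : Eis, if IsPrim e then φ (d * e ^ 3) else 0) else 0 := by
  have hns : ∀ d, NS v d := fun d p hpp hp _ => hv p hpp hp
  rw [tsum_cf (fun h => ρ (v * h) * φ h)]
  set T : Eis × Eis → ℂ := fun x => if IsPrim x.1 ∧ IsPrim x.2 then
    ρ v * (conj (gs v x.1) * ((n23 x.1 : ℂ) * φ (x.1 * x.2 ^ 3))) else 0 with hT
  have e1 : ∀ x : Eis × Eis, (if IsPrim x.1 ∧ CF x.1 ∧ IsPrim x.2 then
      ρ (v * (x.1 * x.2 ^ 3)) * φ (x.1 * x.2 ^ 3) else 0) = T x := by
    rintro ⟨d, e⟩
    simp only [hT]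
    by_cases hd : IsPrim d
    · by_cases he : IsPrim e
      · by_cases hcf : CF d
        · rw [if_pos ⟨hd, hcf, he⟩, if_pos ⟨hd, he⟩, ← mul_assoc v, Rho777.rho_cube_pow hR he,
            rho_cf hR _ d le_rfl hd hcf v (hns d)]
          ring
        · rw [if_neg (fun h => hcf h.2.1), if_pos ⟨hd, he⟩, gs_ncf hd hcf (hns d)]
          simp
      · rw [if_neg (fun h => he h.2.2), if_neg (fun h => he h.2)]
    · rw [if_neg (fun h => hd h.1), if_neg (fun h => hd h.1)]
  rw [tsum_congr e1]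
  obtain ⟨N, hN⟩ := hφ
  have hfin : Summable T := by
    refine summable_of_ne_finset_zero (s := ball N ×ˢ ball N) ?_
    rintro ⟨d, e⟩ hx
    simp only [hT]
    split_ifs with h
    · have h0 : φ (d * e ^ 3) = 0 := by
        by_contra hne
        apply hx
        have h1 := hN _ hne
        have hd1 : 1 ≤ nm d := nm_pos.2 h.1.ne_zero
        have he1 : 1 ≤ nm e := nm_pos.2 h.2.ne_zero
        rw [nm_mul, nm_pow] at h1
        have he3 : nm e ≤ nm e ^ 3 := by nlinarith [Nat.one_le_pow 2 (nm e) he1]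
        rw [Finset.mem_product, mem_ball, mem_ball]
        constructor
        · simp only
          have : nm d * 1 ≤ nm d * nm e ^ 3 := Nat.mul_le_mul_left _ (by omega)
          omega
        · simp only
          have : 1 * nm e ^ 3 ≤ nm d * nm e ^ 3 := Nat.mul_le_mul_right _ hd1
          omega
      rw [h0]
      simp
    · rfl
  rw [hfin.tsum_prod, ← tsum_mul_left]
  refine tsum_congr fun d => ?_
  by_cases hd : IsPrim d
  · rw [if_pos hd, ← tsum_mul_left, ← tsum_mul_left, ← tsum_mul_left]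
    refine tsum_congr fun e => ?_
    simp only [hT]
    by_cases he : IsPrim e
    · rw [if_pos ⟨hd, he⟩, if_pos he]
    · rw [if_neg (fun h => he h.2), if_neg he]
      simp
  · rw [if_neg hd, mul_zero]
    simp only [hT]
    rw [tsum_congr (g := fun _ => (0 : ℂ)) (fun e => if_neg (fun h => hd h.1)), tsum_zero]

end Crest.Agent.R017.X6C180
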