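import Crest.Agent.R017.ETp_548
import Crest.Agent.R017.TNj_90
import Crest.Agent.R017.E3s_164
import Crest.Agent.R017.E3A_164
import Crest.Agent.R017.X6C2_180

/-!
# Row 17, exceptional class (helper548): the classes `k₀ c³`, numbers from the joint numbers

* `th_ck` : `‖th (j k₀)‖² ≤ C N(j)^(-1/3)`
* **`pr_seq`** : `CrQ` over the class `k₀ c³` for a sequence with joint numbers `JBc`
-/

set_option autoImplicit false
set_option linter.unusedSectionVars false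
set_option linter.unusedVariables false

noncomputable section

open Finset
open scoped ComplexConjugate Classical

namespace Crest.Agent.R017.ETf548

open Crest.Agent.R012 Crest.Agent.R012.Eis Crest.Agent.R012.MC
open Crest.Agent.R012.LS2 (S mem_S)
open Crest.Agent.R012.Div277 (tau tau_mul_le tau_le_rpow)
open Crest.Agent.R017.CM106 (CS FS)
open Crest.Agent.R017.C70 (CbF JC JW OKJ)
open Crest.Agent.R017.GrB829 (IsC)
open Crest.Agent.R017.E2440 (StE StT StT_TE TE Fh)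
open Crest.Agent.R017.Ex385 (CrQ)
open Crest.Agent.R017.X6C180 (GF)
open Crest.Agent.R017.X6545 (TF Bd)
open Crest.Agent.R017.PX764 (th th_cube th_two n6 Gh norm_sy_le' norm_G_one)
open Crest.Agent.R017.E1551 (Adm nmpos sum_inv_S551)
open Crest.Agent.R017.E3D579 (TE0)
open Crest.Agent.R017.E3T829 (cg)
open Crest.Agent.R017.TNj90 (JBc TNjw)
open Crest.Agent.R017.ETp548

/-! ### the size of `th (j k₀)` -/

/-- `r³ ∣ j k₀`, `j` cube-free -/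
lemma dvd_of_cube {j k₀ r : Eis} (hj : CbF j) (hk : k₀ ≠ 0) (hr : r ≠ 0)
    (h : r ^ 3 ∣ j * k₀) : r ∣ k₀ := by
  set g := EuclideanDomain.gcd r k₀ with hg
  obtain ⟨a, ha⟩ : g ∣ r := EuclideanDomain.gcd_dvd_left _ _
  obtain ⟨b, hb⟩ : g ∣ k₀ := EuclideanDomain.gcd_dvd_right _ _
  have hg0 : g ≠ 0 := fun h0 => hr (by rw [ha, h0, zero_mul])
  have hcop : IsCoprime a b := by
    have hbez := EuclideanDomain.gcd_eq_gcd_ab r k₀
    rw [← hg] at hbez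
    refine ⟨EuclideanDomain.gcdA r k₀, EuclideanDomain.gcdB r k₀, ?_⟩
    apply mul_left_cancel₀ hg0
    calc g * (EuclideanDomain.gcdA r k₀ * a + EuclideanDomain.gcdB r k₀ * b)
        = (g * a) * EuclideanDomain.gcdA r k₀ + (g * b) * EuclideanDomain.gcdB r k₀ := by ring
      _ = g * 1 := by rw [← ha, ← hb, ← hbez, mul_one]
  have h1 : g ^ 2 * a ^ 3 ∣ j * b := by
    have h2 : g * (g ^ 2 * a ^ 3) ∣ g * (j * b) := by
      have e1 : g * (g ^ 2 * a ^ 3) = r ^ 3 := by rw [ha]; ring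
      have e2 : g * (j * b) = j * k₀ := by rw [hb]; ring
      rw [e1, e2]
      exact h
    exact (mul_dvd_mul_iff_left hg0).1 h2
  have h3 : a ^ 3 ∣ j := (IsCoprime.pow_left hcop).dvd_of_dvd_mul_right
    ((Dvd.intro_left _ rfl).trans h1)
  have ha0 : a ≠ 0 := fun h0 => hr (by rw [ha, h0, mul_zero])
  have hau : IsUnit a := by
    by_contra hnu
    obtain ⟨p, hp, hpx⟩ := WfDvdMonoid.exists_irreducible_factor hnu ha0
    exact hj p hp.prime ((pow_dvd_pow_of_dvd hpx 3).trans h3)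
  rw [ha]
  exact (hau.mul_right_dvd).2 ⟨b, hb⟩

lemma n6_sq' (k : Eis) : n6 k ^ 2 = (nm k : ℝ) ^ (-(1 : ℝ) / 3) := by
  unfold n6
  rw [← Real.rpow_natCast, ← Real.rpow_mul (Nat.cast_nonneg _)]
  norm_num

lemma norm_thc_sq {c r : Eis} (hc : IsC c) (hr : IsPrim r) (hs : Squarefree r) :
    ‖th (c * r)‖ ^ 2 ≤ (nm r : ℝ) ^ (-(1 : ℝ) / 3) := by
  rw [E3s164.th_c_mul hc hr hs, norm_mul, norm_mul, RCLike.norm_conj, Complex.norm_real,
    Real.norm_eq_abs, abs_of_nonneg (by unfold n6; positivity), ← n6_sq']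
  have h1 : ‖Gh c r‖ ≤ 1 := by
    unfold Gh
    rw [norm_mul, RCLike.norm_conj, norm_G_one hr hs, one_mul]
    exact norm_sy_le' hr
  have h2 := E3A164.norm_th_c hc
  have h3 : 0 ≤ n6 r := by unfold n6; positivity
  refine pow_le_pow_left₀ (by positivity) ?_ 2
  calc ‖Gh c r‖ * n6 r * ‖th c‖ ≤ 1 * n6 r * 1 := by gcongr
    _ = n6 r := by ring

/-- the theta coefficients at the multiples of `k₀` -/
lemma th_ck {k₀ : Eis} (hk₀ : IsPrim k₀) {j : Eis} (hj : JC j) :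
    ‖th (j * k₀)‖ ^ 2 ≤ (9 * (nm k₀ : ℝ) ^ 2) ^ (1 / 3 : ℝ) * (nm j : ℝ) ^ (-(1 / 3) : ℝ) := by
  obtain ⟨c, hc, j', hj', hcf, rfl⟩ := hj
  have hc' : IsC c := hc
  obtain ⟨k1, k2, r, h1, h2, h3, s1, s2, hcop, he⟩ := Char766.exists_prim_cubic_decomp (hj'.mul hk₀)
  have hk0n : (0 : ℝ) < nm k₀ := nmpos hk₀.ne_zero
  have e1 : c * j' * k₀ = (c * k1 * k2 ^ 2) * r ^ 3 := by
    rw [mul_assoc, he]; ring
  rw [e1, th_cube h3]
  by_cases hk2 : k2 = 1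
  · have e2 : c * k1 * k2 ^ 2 = c * k1 := by rw [hk2]; ring
    rw [e2]
    refine (norm_thc_sq hc' h1 s1).trans ?_
    have hr : r ∣ k₀ := dvd_of_cube hcf hk₀.ne_zero h3.ne_zero (by
      rw [he]; exact dvd_mul_left _ _)
    have hrn : (nm r : ℝ) ≤ nm k₀ := by
      obtain ⟨t, ht⟩ := hr
      have ht0 : t ≠ 0 := fun h0 => hk₀.ne_zero (by rw [ht, h0, mul_zero])
      have : 1 ≤ nm t := nm_pos.2 ht0
      have h5 : nm r ≤ nm k₀ := by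
        rw [ht, nm_mul]
        exact Nat.le_mul_of_pos_right _ this
      exact_mod_cast h5
    have hrn0 : (0 : ℝ) < nm r := nmpos h3.ne_zero
    have hk1n : (0 : ℝ) < nm k1 := nmpos h1.ne_zero
    have hj'n : (0 : ℝ) < nm j' := nmpos hj'.ne_zero
    have hnn : (nm j' : ℝ) * nm k₀ = nm k1 * (nm r : ℝ) ^ 3 := by
      have h5 : nm (j' * k₀) = nm (k1 * k2 ^ 2 * r ^ 3) := by rw [he]
      rw [hk2] at h5
      rw [nm_mul, one_pow, mul_one, nm_mul, nm_pow] at h5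
      exact_mod_cast h5
    have hcn : (nm c : ℝ) ≤ 9 := by
      rcases hc with rfl | rfl | rfl | rfl
      · rw [nm_one]; norm_num
      · have : nm (3 : Eis) = 9 := by decide
        rw [this]; norm_num
      · have : nm (3 * w : Eis) = 9 := by decide
        rw [this]; norm_num
      · have : nm (3 * w ^ 2 : Eis) = 9 := by decide
        rw [this]; norm_num
    have hc0 : (0 : ℝ) < nm c := by
      rcases hc with rfl | rfl | rfl | rfl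
      · rw [nm_one]; norm_num
      · have : nm (3 : Eis) = 9 := by decide
        rw [this]; norm_num
      · have : nm (3 * w : Eis) = 9 := by decide
        rw [this]; norm_num
      · have : nm (3 * w ^ 2 : Eis) = 9 := by decide
        rw [this]; norm_num
    -- `nm k1 ≥ nm j / (9 nm k₀ ^ 2)`
    have hlow : (nm (c * j') : ℝ) / (9 * (nm k₀ : ℝ) ^ 2) ≤ nm k1 := by
      rw [div_le_iff₀ (by positivity), nm_mul]
      push_cast
      have h6 : (nm r : ℝ) ^ 3 ≤ (nm k₀ : ℝ) ^ 3 := pow_le_pow_left₀ hrn0.le hrn 3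
      have h7 : (nm j' : ℝ) * nm k₀ ≤ nm k1 * (nm k₀ : ℝ) ^ 3 := by
        rw [hnn]
        exact mul_le_mul_of_nonneg_left h6 hk1n.le
      have h8 : (nm j' : ℝ) ≤ nm k1 * (nm k₀ : ℝ) ^ 2 := by
        have h9 : (nm j' : ℝ) * nm k₀ ≤ nm k1 * (nm k₀ : ℝ) ^ 2 * nm k₀ := by
          calc (nm j' : ℝ) * nm k₀ ≤ nm k1 * (nm k₀ : ℝ) ^ 3 := h7
            _ = _ := by ring
        exact le_of_mul_le_mul_right h9 hk0n
      calc (nm c : ℝ) * nm j' ≤ 9 * (nm k1 * (nm k₀ : ℝ) ^ 2) := by gcongr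
        _ = _ := by ring
    have hcj : (0 : ℝ) < nm (c * j') := by
      rw [nm_mul]; push_cast; positivity
    have h10 : (nm k1 : ℝ) ^ (-(1 : ℝ) / 3) ≤
        ((nm (c * j') : ℝ) / (9 * (nm k₀ : ℝ) ^ 2)) ^ (-(1 : ℝ) / 3) :=
      Real.rpow_le_rpow_of_nonpos (by positivity) hlow (by norm_num)
    refine h10.trans (le_of_eq ?_)
    rw [show (-(1 : ℝ) / 3) = (-(1 / 3) : ℝ) by norm_num, Real.div_rpow hcj.le (by positivity),
      Real.rpow_neg (by positivity : (0 : ℝ) ≤ 9 * (nm k₀ : ℝ) ^ 2), div_inv_eq_mul]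
    ring
  · obtain ⟨p, hp, hpp, q, hq⟩ := Char766.exists_prim_prime_dvd h2 hk2
    have e2 : c * k1 * k2 ^ 2 = (c * k1 * q ^ 2) * p ^ 2 := by rw [hq]; ring
    have hpc : ¬ p ∣ c := by
      intro hd
      have hc3 : c ∣ 3 := by
        have e3 : (w : Eis) ^ 3 = 1 := by decide
        rcases hc with rfl | rfl | rfl | rfl
        · exact one_dvd _
        · exact dvd_rfl
        · exact ⟨w ^ 2, by linear_combination (-3) * e3⟩
        · exact ⟨w, by linear_combination (-3) * e3⟩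
      exact hp.not_isUnit ((K695.prim_coprime_three hpp).isUnit_of_dvd' dvd_rfl (hd.trans hc3))
    have hpk1 : ¬ p ∣ k1 := fun hd => hp.not_isUnit (hcop.isUnit_of_dvd' hd ⟨q, hq⟩)
    have hpq : ¬ p ∣ q := by
      rintro ⟨q', hq'⟩
      exact hp.not_isUnit (s2 p ⟨q', by rw [hq, hq']; ring⟩)
    have hnd : ¬ p ∣ c * k1 * q ^ 2 := by
      intro hd
      rcases hp.dvd_or_dvd hd with h4 | h4
      · rcases hp.dvd_or_dvd h4 with h5 | h5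
        · exact hpc h5
        · exact hpk1 h5
      · exact hpq (hp.dvd_of_dvd_pow h4)
    rw [e2, th_two hp hpp hnd, norm_zero, zero_pow two_ne_zero]
    positivity

/-! ### the sum over the classes -/

/-- the size of the window, total -/
lemma sum_win {J : Finset (Eis × Eis)} (hJ : OKJ J) {W : ℝ} (hW : 1 ≤ W)
    (hJW : ∀ x ∈ J, (nm x.2 : ℝ) * (nm x.1 : ℝ) ^ 2 ≤ W) {k₀ : Eis} (hk₀ : IsPrim k₀) :
    ∑ x ∈ J, ‖th (x.2 * k₀)‖ ^ 2 * (nm x.1 : ℝ) ^ (-(2 / 3) : ℝ) ≤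
      (9 * (nm k₀ : ℝ) ^ 2) ^ (1 / 3 : ℝ) * W ^ (2 / 3 : ℝ) *
        ((100 * (1 + Real.log W)) * (100 * (1 + Real.log W))) := by
  set D : ℝ := (9 * (nm k₀ : ℝ) ^ 2) ^ (1 / 3 : ℝ) with hD
  have hD0 : 0 ≤ D := by positivity
  have hW0 : 0 < W := by linarith
  have hx1 : ∀ x ∈ J, (1 : ℝ) ≤ nm x.1 := fun x hx => by
    exact_mod_cast nm_pos.2 (hJ.prim x hx).ne_zero
  have hx20 : ∀ x ∈ J, x.2 ≠ 0 := fun x hx => (E5b54.JC_cf (hJ.jc x hx)).1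
  have hx2 : ∀ x ∈ J, (1 : ℝ) ≤ nm x.2 := fun x hx => by
    exact_mod_cast nm_pos.2 (hx20 x hx)
  have term : ∀ x ∈ J, ‖th (x.2 * k₀)‖ ^ 2 * (nm x.1 : ℝ) ^ (-(2 / 3) : ℝ) ≤
      D * W ^ (2 / 3 : ℝ) * ((1 / nm x.1) * (1 / nm x.2)) := by
    intro x hx
    have h1 := hx1 x hx
    have h2 := hx2 x hx
    have h3 := th_ck hk₀ (hJ.jc x hx)
    have p1 : (0 : ℝ) < nm x.1 := by linarith
    have p2 : (0 : ℝ) < nm x.2 := by linarith
    have h4 : (nm x.2 : ℝ) ^ (2 / 3 : ℝ) * ((nm x.1 : ℝ) ^ 2) ^ (2 / 3 : ℝ) ≤ W ^ (2 / 3 : ℝ) := by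
      rw [← Real.mul_rpow p2.le (by positivity)]
      exact Real.rpow_le_rpow (by positivity) (hJW x hx) (by norm_num)
    have e1 : (nm x.2 : ℝ) ^ (-(1 / 3) : ℝ) = (nm x.2 : ℝ) ^ (2 / 3 : ℝ) * (1 / nm x.2) := by
      have e0 : (1 : ℝ) / nm x.2 = (nm x.2 : ℝ) ^ (-1 : ℝ) := by rw [Real.rpow_neg_one, one_div]
      rw [e0, ← Real.rpow_add p2]
      norm_num
    have e2 : (nm x.1 : ℝ) ^ (-(2 / 3) : ℝ) =
        ((nm x.1 : ℝ) ^ 2) ^ (2 / 3 : ℝ) * (1 / (nm x.1 : ℝ) ^ 2) := by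
      have e3 : ((nm x.1 : ℝ) ^ 2) ^ (2 / 3 : ℝ) = (nm x.1 : ℝ) ^ (4 / 3 : ℝ) := by
        rw [← Real.rpow_natCast, ← Real.rpow_mul p1.le]
        norm_num
      have e4 : 1 / (nm x.1 : ℝ) ^ 2 = (nm x.1 : ℝ) ^ (-2 : ℝ) := by
        rw [Real.rpow_neg p1.le, one_div]
        norm_num
      rw [e3, e4, ← Real.rpow_add p1]
      norm_num
    have h5 : 1 / (nm x.1 : ℝ) ^ 2 ≤ 1 / nm x.1 := by
      refine one_div_le_one_div_of_le p1 ?_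
      nlinarith
    calc ‖th (x.2 * k₀)‖ ^ 2 * (nm x.1 : ℝ) ^ (-(2 / 3) : ℝ)
        ≤ (D * (nm x.2 : ℝ) ^ (-(1 / 3) : ℝ)) * (nm x.1 : ℝ) ^ (-(2 / 3) : ℝ) :=
          mul_le_mul_of_nonneg_right h3 (by positivity)
      _ = D * ((nm x.2 : ℝ) ^ (2 / 3 : ℝ) * ((nm x.1 : ℝ) ^ 2) ^ (2 / 3 : ℝ)) *
          ((1 / (nm x.1 : ℝ) ^ 2) * (1 / nm x.2)) := by
          rw [e1, e2]; ring
      _ ≤ D * W ^ (2 / 3 : ℝ) * ((1 / nm x.1) * (1 / nm x.2)) := by gcongr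
  refine (sum_le_sum term).trans ?_
  rw [← mul_sum]
  refine mul_le_mul_of_nonneg_left ?_ (by positivity)
  have hsub : J ⊆ (primBall ⌊W⌋₊) ×ˢ (Div277.nz ⌊W⌋₊) := by
    intro x hx
    have h1 := hx1 x hx
    have h2 := hx2 x hx
    rw [mem_product, mem_primBall, Div277.mem_nz]
    refine ⟨⟨Nat.le_floor ?_, hJ.prim x hx⟩, hx20 x hx, Nat.le_floor ?_⟩
    · refine le_trans ?_ (hJW x hx)
      nlinarith
    · refine le_trans ?_ (hJW x hx)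
      have : (1 : ℝ) ≤ (nm x.1 : ℝ) ^ 2 := one_le_pow₀ h1
      nlinarith
  refine (sum_le_sum_of_subset_of_nonneg hsub fun _ _ _ => by positivity).trans ?_
  rw [sum_product]
  have hfl : Real.log (⌊W⌋₊ : ℝ) ≤ Real.log W := by
    have h1 : (1 : ℝ) ≤ ⌊W⌋₊ := by exact_mod_cast Nat.le_floor (by simpa using hW)
    exact Real.log_le_log (by linarith) (Nat.floor_le hW0.le)
  have hlW : 0 ≤ Real.log W := Real.log_nonneg hW
  have i1 := (Div277.sum_inv_primBall_le ⌊W⌋₊)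
  have i2 := (Div277.sum_inv_nz_le ⌊W⌋₊)
  calc ∑ d ∈ primBall ⌊W⌋₊, ∑ j ∈ Div277.nz ⌊W⌋₊, ((1 : ℝ) / nm d) * (1 / nm j)
      = (∑ d ∈ primBall ⌊W⌋₊, ((1 : ℝ) / nm d)) * ∑ j ∈ Div277.nz ⌊W⌋₊, ((1 : ℝ) / nm j) := by
        rw [sum_mul_sum]
    _ ≤ (100 * (1 + Real.log W)) * (100 * (1 + Real.log W)) := by
        refine mul_le_mul (i1.trans (by linarith)) (i2.trans (by linarith))
          (sum_nonneg fun _ _ => by positivity) (by positivity)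

/-- sums over `J` by the first component -/
lemma sum_fst (J : Finset (Eis × Eis)) (f : Eis × Eis → ℝ) :
    ∑ x ∈ J, f x = ∑ d ∈ J.image Prod.fst, ∑ j ∈ (J.filter fun x => x.1 = d).image Prod.snd,
      f (d, j) := by
  rw [← sum_fiberwise_of_maps_to (s := J) (t := J.image Prod.fst) (g := Prod.fst)
    (fun x hx => mem_image_of_mem _ hx)]
  refine sum_congr rfl fun d hd => ?_
  rw [sum_image]
  · refine sum_congr rfl fun x hx => ?_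
    have := (mem_filter.1 hx).2
    rw [← this]
  · intro x hx y hy hxy
    have h1 := (mem_filter.1 hx).2
    have h2 := (mem_filter.1 hy).2
    exact Prod.ext (h1.trans h2.symm) hxy

/-- Cauchy -/
lemma sum_cauchy {J : Finset (Eis × Eis)} (hJ : OKJ J) {E0 : ℝ} (hE0 : 0 < E0) (k₀ : Eis)
    {om : Eis × Eis → ℂ} {b : ℝ} (hb : 0 ≤ b) (hom : ∀ x ∈ J, ‖om x‖ ≤ b)
    (T : Eis × Eis → Eis → ℂ) :
    ∑ x ∈ J, ‖om x‖ * ‖th (x.2 * k₀)‖ * (∑ e ∈ S E0, ‖T x e‖) ≤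
      b * (Real.sqrt ((∑ x ∈ J, ‖th (x.2 * k₀)‖ ^ 2 * (nm x.1 : ℝ) ^ (-(2 / 3) : ℝ)) *
        ∑ e ∈ S E0, 1 / (nm e : ℝ)) *
      Real.sqrt (∑ x ∈ J, ∑ e ∈ S E0, (nm x.1 : ℝ) ^ (2 / 3 : ℝ) * (nm e * ‖T x e‖ ^ 2))) := by
  have h1 : ∑ x ∈ J, ‖om x‖ * ‖th (x.2 * k₀)‖ * (∑ e ∈ S E0, ‖T x e‖) ≤
      b * ∑ y ∈ J ×ˢ S E0, (‖th (y.1.2 * k₀)‖ * (nm y.1.1 : ℝ) ^ (-(1 / 3) : ℝ) *
        (Real.sqrt (nm y.2))⁻¹) * ((nm y.1.1 : ℝ) ^ (1 / 3 : ℝ) * (Real.sqrt (nm y.2) *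
          ‖T y.1 y.2‖)) := by
    rw [sum_product, mul_sum]
    refine sum_le_sum fun x hx => ?_
    rw [mul_sum, mul_sum]
    refine sum_le_sum fun e he => ?_
    have hx1 : (0 : ℝ) < nm x.1 := nmpos (hJ.prim x hx).ne_zero
    have he1 : (0 : ℝ) < nm e := nmpos ((mem_S hE0.le).1 he).2.1.ne_zero
    have e1 : (nm x.1 : ℝ) ^ (-(1 / 3) : ℝ) * (nm x.1 : ℝ) ^ (1 / 3 : ℝ) = 1 := by
      rw [← Real.rpow_add hx1]; norm_num
    have e2 : (Real.sqrt (nm e))⁻¹ * Real.sqrt (nm e) = 1 :=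
      inv_mul_cancel₀ (Real.sqrt_pos.2 he1).ne'
    calc ‖om x‖ * ‖th (x.2 * k₀)‖ * ‖T x e‖ ≤ b * ‖th (x.2 * k₀)‖ * ‖T x e‖ := by
          have := hom x hx
          gcongr
      _ = b * (‖th (x.2 * k₀)‖ * ‖T x e‖) * 1 * 1 := by ring
      _ = b * (‖th (x.2 * k₀)‖ * ‖T x e‖) *
          ((nm x.1 : ℝ) ^ (-(1 / 3) : ℝ) * (nm x.1 : ℝ) ^ (1 / 3 : ℝ)) *
          ((Real.sqrt (nm e))⁻¹ * Real.sqrt (nm e)) := by rw [e1, e2]
      _ = _ := by ring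
  refine h1.trans (mul_le_mul_of_nonneg_left ?_ hb)
  refine (Real.sum_mul_le_sqrt_mul_sqrt _ _ _).trans (le_of_eq ?_)
  congr 2
  · rw [sum_product, sum_mul_sum]
    refine sum_congr rfl fun x hx => sum_congr rfl fun e he => ?_
    have hx1 : (0 : ℝ) < nm x.1 := nmpos (hJ.prim x hx).ne_zero
    have he1 : (0 : ℝ) < nm e := nmpos ((mem_S hE0.le).1 he).2.1.ne_zero
    have e1 : ((nm x.1 : ℝ) ^ (-(1 / 3) : ℝ)) ^ 2 = (nm x.1 : ℝ) ^ (-(2 / 3) : ℝ) := by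
      rw [← Real.rpow_natCast, ← Real.rpow_mul hx1.le]; norm_num
    have e2 : ((Real.sqrt (nm e))⁻¹) ^ 2 = 1 / (nm e : ℝ) := by
      rw [inv_pow, Real.sq_sqrt he1.le, one_div]
    rw [mul_pow, mul_pow, e1, e2]
  · rw [sum_product]
    refine sum_congr rfl fun x hx => sum_congr rfl fun e he => ?_
    have hx1 : (0 : ℝ) < nm x.1 := nmpos (hJ.prim x hx).ne_zero
    have he1 : (0 : ℝ) < nm e := nmpos ((mem_S hE0.le).1 he).2.1.ne_zero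
    have e1 : ((nm x.1 : ℝ) ^ (1 / 3 : ℝ)) ^ 2 = (nm x.1 : ℝ) ^ (2 / 3 : ℝ) := by
      rw [← Real.rpow_natCast, ← Real.rpow_mul hx1.le]; norm_num
    rw [mul_pow, mul_pow, e1, Real.sq_sqrt he1.le]

/-- the `l¹` norm with divisors -/
lemma sum_l1 {R : ℝ} (hR : 0 ≤ R) {ε B₂ : ℝ} (hε : 0 < ε) (hB₂ : 0 < B₂) :
    ∃ C : ℝ, 0 ≤ C ∧ ∀ X : ℝ, 3 ≤ X → ∀ (n Y : ℝ), 1 ≤ Y → Y ≤ X ^ B₂ → ∀ (al : Eis → ℂ)
      (hα : FS al), Adm Y (Real.exp n) R al → ∀ A : ℝ, (∀ m, ‖al m‖ ≤ A) → ∀ γ : Eis, γ ≠ 0 →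
      (nm γ : ℝ) ≤ X ^ B₂ →
      ∑ m ∈ hα.fin.toFinset, ‖al m‖ * (tau (m * γ) : ℝ) ≤ C * X ^ ε * A * Real.exp n := by
  have hε' : 0 < ε / (2 * B₂) := by positivity
  obtain ⟨C₁, hC₁, ht⟩ := tau_le_rpow hε'
  refine ⟨100 * Real.exp (R / 2) * C₁, by positivity, ?_⟩
  intro X hX n Y hY1 hYX al hα hadm A hA γ hγ hγX
  have hX0 : 0 < X := by linarith
  have hA0 : 0 ≤ A := (norm_nonneg _).trans (hA 0)
  have hY0 : 0 ≤ Y := by linarith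
  have hXe : (X ^ B₂) ^ (ε / (2 * B₂)) * (X ^ B₂) ^ (ε / (2 * B₂)) = X ^ ε := by
    rw [← Real.rpow_mul hX0.le, ← Real.rpow_add hX0]
    congr 1
    field_simp
    ring
  have hsub : hα.fin.toFinset ⊆ primBall ⌊Real.exp (n + R / 2)⌋₊ := by
    intro m hm
    rw [Set.Finite.mem_toFinset, Function.mem_support] at hm
    rw [mem_primBall]
    refine ⟨Nat.le_floor ?_, hα.prim m hm⟩
    have h1 := hadm.win m hm
    rw [Real.log_exp] at h1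
    have hm0 : (0 : ℝ) < nm m := nmpos (hα.prim m hm).ne_zero
    rw [← Real.exp_log hm0]
    refine Real.exp_le_exp.2 ?_
    have := le_abs_self (Real.log (nm m) - n)
    linarith
  have term : ∀ m ∈ hα.fin.toFinset, ‖al m‖ * (tau (m * γ) : ℝ) ≤ A * (C₁ * X ^ ε) := by
    intro m hm
    rw [Set.Finite.mem_toFinset, Function.mem_support] at hm
    have hmp := hα.prim m hm
    have hm0 : (0 : ℝ) < nm m := nmpos hmp.ne_zero
    have hγ0 : (0 : ℝ) < nm γ := nmpos hγ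
    have h1 := ht (m * γ) (mul_ne_zero hmp.ne_zero hγ)
    have hmX : (nm m : ℝ) ≤ X ^ B₂ := (((mem_S hY0).1 (hadm.sup m hm)).1).trans hYX
    have h2 : (nm (m * γ) : ℝ) ^ (ε / (2 * B₂)) ≤ X ^ ε := by
      rw [nm_mul]
      push_cast
      rw [Real.mul_rpow hm0.le hγ0.le, ← hXe]
      gcongr
    refine mul_le_mul (hA m) (h1.trans ?_) (Nat.cast_nonneg _) hA0
    gcongr
  refine (sum_le_sum term).trans ?_
  rw [sum_const, nsmul_eq_mul]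
  have hcard : ((hα.fin.toFinset).card : ℝ) ≤ 100 * Real.exp (n + R / 2) := by
    refine le_trans (by exact_mod_cast card_le_card hsub) ((Lat277.card_primBall_le _).trans ?_)
    exact mul_le_mul_of_nonneg_left (Nat.floor_le (Real.exp_pos _).le) (by norm_num)
  refine (mul_le_mul_of_nonneg_right hcard (by positivity)).trans (le_of_eq ?_)
  rw [Real.exp_add]
  ring

set_option maxHeartbeats 1000000 in
/-- **the class `k₀ c³`** for a sequence with joint numbers -/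
theorem pr_seq {R : ℝ} (hR : 0 ≤ R) {J B₂ : ℝ} (hJ : 0 ≤ J) (hB₂ : 0 < B₂) :
    ∃ N : ℕ, ∀ k₀ : Eis, IsPrim k₀ → ∀ ε : ℝ, 0 < ε → ∃ C : ℝ, 0 ≤ C ∧ ∀ X : ℝ, 3 ≤ X →
      ∀ (n Y W E0 F : ℝ) (Sh : ℝ → ℝ → ℝ → ℝ), 1 ≤ Y → Y ≤ X ^ B₂ → 1 ≤ W → W ≤ X ^ B₂ →
      1 ≤ E0 → E0 ≤ X ^ B₂ → 0 ≤ F → ∀ al : Eis → ℂ, FS al → JBc Y W F J Sh al →
      Adm Y (Real.exp n) R al → ∀ A : ℝ, (∀ m, ‖al m‖ ≤ A) →
      ∀ JJ : Finset (Eis × Eis), OKJ JJ → (∀ x ∈ JJ, (nm x.2 : ℝ) * (nm x.1 : ℝ) ^ 2 ≤ W) →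
      ∀ (om : Eis × Eis → ℂ) (b : ℝ), 0 ≤ b → (∀ x ∈ JJ, ‖om x‖ ≤ b) → ∀ m : ℝ,
      (∀ g b' v : ℝ, 0 ≤ g → 0 ≤ b' → 0 ≤ v → v ≤ Real.log W - 2 * g →
          Sh g b' v + 2 * g + b' - 2 * max 0 (b' - Real.log E0) ≤ m) →
      ∀ (Fw : ℝ → ℂ) (Sf : ℝ), TF Fw → Bd Fw N Sf → ∀ η K : ℝ, 0 ≤ η → 0 < K →
      ‖CrQ (GF (Fh Fw η)) (Ck k₀) K al (StE E0 JJ om al)‖ ≤
        C * X ^ ε * (Sf * A * b) * (1 + Real.exp (η / 3)) *
          (Real.exp n * (W ^ (1 / 3 : ℝ) * Real.sqrt (F * Real.exp (-(n / 3)) * Real.exp m))) := by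
  obtain ⟨N, C₀, hC₀, hck⟩ := ck_bd
  refine ⟨N, fun k₀ hk₀ ε hε => ?_⟩
  obtain ⟨ε', hε', h3ε⟩ : ∃ ε' : ℝ, 0 < ε' ∧ 3 * ε' = ε := ⟨ε / 3, by positivity, by ring⟩
  obtain ⟨C₁, hC₁, hl1⟩ := sum_l1 (B₂ := B₂) hR hε' hB₂
  obtain ⟨C₃, hC₃, htn⟩ := TNjw (J := J) (B₂ := B₂) hR hε' hJ hB₂ (Lφ := 0) le_rfl
  set D : ℝ := (9 * (nm k₀ : ℝ) ^ 2) ^ (1 / 3 : ℝ) with hD
  have hD0 : 0 ≤ D := by positivity
  set cl : ℝ := 100 * (1 + B₂ / ε') with hcl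
  have hcl0 : 0 ≤ cl := by positivity
  refine ⟨C₀ * C₁ * Real.sqrt (D * cl ^ 3 * C₃), by positivity, ?_⟩
  intro X hX n Y W E0 F Sh hY1 hYX hW1 hWX hE1 hEX hF al hα hjb hadm A hA JJ hJJ hJW om b hb hom m
    hm Fw Sf hFw hSf η K hη hK
  have hX0 : 0 < X := by linarith
  have hX1 : 1 ≤ X := by linarith
  have hW0 : 0 < W := by linarith
  have hE0 : 0 < E0 := by linarith
  have hA0 : 0 ≤ A := (norm_nonneg _).trans (hA 0)
  have hSf0 : 0 ≤ Sf := (norm_nonneg _).trans (hSf 0 (Nat.zero_le _) 0)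
  have hlg : ∀ Z : ℝ, 1 ≤ Z → Z ≤ X ^ B₂ → 100 * (1 + Real.log Z) ≤ cl * X ^ ε' := by
    intro Z hZ1 hZ
    have h1 : Real.log Z ≤ B₂ * Real.log X := by
      have := Real.log_le_log (by linarith) hZ
      rwa [Real.log_rpow hX0] at this
    have h2 : Real.log X ≤ X ^ ε' / ε' := Real.log_le_rpow_div hX0.le hε'
    have h3 : (1 : ℝ) ≤ X ^ ε' := Real.one_le_rpow hX1 hε'.le
    rw [hcl]
    have h4 : B₂ * Real.log X ≤ B₂ * (X ^ ε' / ε') := mul_le_mul_of_nonneg_left h2 hB₂.le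
    have h5 : B₂ * (X ^ ε' / ε') = B₂ / ε' * X ^ ε' := by ring
    nlinarith
  have hx2 : ∀ x ∈ JJ, (1 : ℝ) ≤ nm x.2 := fun x hx => by
    exact_mod_cast nm_pos.2 (E5b54.JC_cf (hJJ.jc x hx)).1
  have hx1 : ∀ x ∈ JJ, (1 : ℝ) ≤ nm x.1 := fun x hx => by
    exact_mod_cast nm_pos.2 (hJJ.prim x hx).ne_zero
  have hx1W : ∀ x ∈ JJ, (nm x.1 : ℝ) ≤ X ^ B₂ := fun x hx => by
    refine le_trans ?_ ((hJW x hx).trans hWX)
    have h1 := hx1 x hx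
    have h2 := hx2 x hx
    have h3 : (nm x.1 : ℝ) ≤ (nm x.1 : ℝ) ^ 2 := by nlinarith
    nlinarith
  -- the three sums
  have S1 := (sum_win hJJ hW1 hJW hk₀)
  rw [← hD] at S1
  have hS1 : ∑ x ∈ JJ, ‖th (x.2 * k₀)‖ ^ 2 * (nm x.1 : ℝ) ^ (-(2 / 3) : ℝ) ≤
      D * W ^ (2 / 3 : ℝ) * (cl * X ^ ε') ^ 2 := by
    refine S1.trans (mul_le_mul_of_nonneg_left ?_ (by positivity))
    have h1 := hlg W hW1 hWX
    have h2 : 0 ≤ 100 * (1 + Real.log W) := by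
      have := Real.log_nonneg hW1
      positivity
    rw [sq]
    exact mul_le_mul h1 h1 h2 (by positivity)
  have hS2 : ∑ e ∈ S E0, 1 / (nm e : ℝ) ≤ cl * X ^ ε' :=
    (sum_inv_S551 hE1).trans (hlg E0 hE1 hEX)
  have hS3 : ∑ x ∈ JJ, ∑ e ∈ S E0, (nm x.1 : ℝ) ^ (2 / 3 : ℝ) * (nm e * ‖TE al x e‖ ^ 2) ≤
      C₃ * X ^ ε' * F * Real.exp (-(n / 3)) * Real.exp m := by
    have h1 := (htn X hX n Y W E0 F Sh hY1 hYX hWX hE0 hF al hjb hadm (JJ.image Prod.fst) (S E0) m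
      (fun _ => 0) (fun _ _ => 1) (fun _ _ => by simp) (fun d hd => by
        obtain ⟨x, hx, rfl⟩ := mem_image.1 hd
        exact ⟨hJJ.prim x hx, hx1W x hx⟩) (fun e he => he)
      (fun d _ e _ => by rw [Real.exp_zero])).1 (fun d hd b' v hb' hv hvW => by
        obtain ⟨x, hx, rfl⟩ := mem_image.1 hd
        have := hm (Real.log (nm x.1)) b' v (Real.log_nonneg (hx1 x hx)) hb' hv hvW
        linarith) (fun _ => 1) (fun d _ => (JJ.filter fun x => x.1 = d).image Prod.snd) id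
      zero_le_one le_rfl (fun _ => zero_le_one) (fun d hd j hj => by
        obtain ⟨x, hx', rfl⟩ := mem_image.1 hj
        obtain ⟨hx, hxd⟩ := mem_filter.1 hx'
        exact ⟨E5b54.JC_cf (hJJ.jc x hx), by rw [← hxd]; exact hJW x hx⟩)
    refine le_trans (le_of_eq ?_) h1
    rw [sum_fst]
    refine sum_congr rfl fun d hd => ?_
    rw [sum_comm]
    refine sum_congr rfl fun e he => ?_
    unfold E3Z548.TN
    rw [sum_singleton, sum_singleton, sum_singleton, one_mul, one_mul, mul_assoc]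
    dsimp only
    rw [mul_sum, mul_sum]
    refine sum_congr rfl fun j _ => ?_
    rw [ET4a548.cg_one']
    rfl
  set G : ℝ := Real.sqrt (F * Real.exp (-(n / 3)) * Real.exp m) with hG
  have hG0 : 0 ≤ G := Real.sqrt_nonneg _
  have hG2 : G ^ 2 = F * Real.exp (-(n / 3)) * Real.exp m := Real.sq_sqrt (by positivity)
  set V₁ : ℝ := (∑ x ∈ JJ, ‖th (x.2 * k₀)‖ ^ 2 * (nm x.1 : ℝ) ^ (-(2 / 3) : ℝ)) *
    ∑ e ∈ S E0, 1 / (nm e : ℝ) with hV₁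
  set V₂ : ℝ := ∑ x ∈ JJ, ∑ e ∈ S E0, (nm x.1 : ℝ) ^ (2 / 3 : ℝ) * (nm e * ‖TE al x e‖ ^ 2)
    with hV₂
  have hV1 : V₁ ≤ D * W ^ (2 / 3 : ℝ) * (cl * X ^ ε') ^ 2 * (cl * X ^ ε') :=
    mul_le_mul hS1 hS2 (sum_nonneg fun _ _ => by positivity) (by positivity)
  have hprod : Real.sqrt V₁ * Real.sqrt V₂ ≤
      Real.sqrt (D * cl ^ 3 * C₃) * X ^ (2 * ε') * (W ^ (1 / 3 : ℝ) * G) := by
    rw [← Real.sqrt_mul (mul_nonneg (sum_nonneg fun _ _ => by positivity)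
      (sum_nonneg fun _ _ => by positivity))]
    refine Real.sqrt_le_iff.2 ⟨by positivity, ?_⟩
    have h1 : V₁ * V₂ ≤ (D * W ^ (2 / 3 : ℝ) * (cl * X ^ ε') ^ 2 * (cl * X ^ ε')) *
        (C₃ * X ^ ε' * F * Real.exp (-(n / 3)) * Real.exp m) :=
      mul_le_mul hV1 hS3 (sum_nonneg fun _ _ => sum_nonneg fun _ _ => by positivity)
        (by positivity)
    refine h1.trans (le_of_eq ?_)
    have e1 : (W ^ (1 / 3 : ℝ)) ^ 2 = W ^ (2 / 3 : ℝ) := by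
      rw [← Real.rpow_natCast, ← Real.rpow_mul hW0.le]; norm_num
    have e2 : (X ^ (2 * ε')) ^ 2 = X ^ ε' * X ^ ε' * X ^ ε' * X ^ ε' := by
      rw [← Real.rpow_natCast, ← Real.rpow_mul hX0.le, ← Real.rpow_add hX0, ← Real.rpow_add hX0,
        ← Real.rpow_add hX0]
      congr 1
      push_cast
      ring
    have e3 : (Real.sqrt (D * cl ^ 3 * C₃) * X ^ (2 * ε') * (W ^ (1 / 3 : ℝ) * G)) ^ 2 =
        Real.sqrt (D * cl ^ 3 * C₃) ^ 2 * (X ^ (2 * ε')) ^ 2 * ((W ^ (1 / 3 : ℝ)) ^ 2 * G ^ 2) := by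
      ring
    rw [e3, e1, e2, hG2, Real.sq_sqrt (by positivity)]
    ring
  have hcau := sum_cauchy hJJ hE0 k₀ hb hom (TE al)
  have key := hck Fw Sf hFw hSf η K E0 hη hK hE0.le al hα JJ hJJ.prim k₀ hk₀ om (TE al)
  have h1 : ∑ x ∈ JJ, ‖om x‖ * ‖th (x.2 * k₀)‖ * (∑ e ∈ S E0, ‖TE al x e‖) *
      ∑ n ∈ hα.fin.toFinset, ‖al n‖ * (tau (n * x.1) : ℝ) ≤
      (b * (Real.sqrt V₁ * Real.sqrt V₂)) * (C₁ * X ^ ε' * A * Real.exp n) := by
    refine le_trans (sum_le_sum fun x hx => mul_le_mul_of_nonneg_left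
      (hl1 X hX n Y hY1 hYX al hα hadm A hA x.1 (hJJ.prim x hx).ne_zero (hx1W x hx))
      (mul_nonneg (by positivity) (sum_nonneg fun _ _ => norm_nonneg _))) ?_
    rw [← sum_mul]
    exact mul_le_mul_of_nonneg_right hcau (by positivity)
  have hXe : X ^ (2 * ε') * X ^ ε' = X ^ ε := by
    rw [← Real.rpow_add hX0]
    congr 1
    linarith
  have hst : StT E0 JJ om (TE al) = StE E0 JJ om al := by
    funext k
    exact StT_TE _ _ _ _ _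
  rw [hst] at key
  refine key.trans ?_
  calc C₀ * Sf * (1 + Real.exp (η / 3)) * ∑ x ∈ JJ, ‖om x‖ * ‖th (x.2 * k₀)‖ *
        (∑ e ∈ S E0, ‖TE al x e‖) * ∑ n ∈ hα.fin.toFinset, ‖al n‖ * (tau (n * x.1) : ℝ)
      ≤ C₀ * Sf * (1 + Real.exp (η / 3)) * ((b * (Real.sqrt (D * cl ^ 3 * C₃) *
          X ^ (2 * ε') * (W ^ (1 / 3 : ℝ) * G))) * (C₁ * X ^ ε' * A * Real.exp n)) := by
        refine mul_le_mul_of_nonneg_left (h1.trans ?_) (by positivity)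
        gcongr
    _ = C₀ * C₁ * Real.sqrt (D * cl ^ 3 * C₃) * (X ^ (2 * ε') * X ^ ε') * (Sf * A * b) *
          (1 + Real.exp (η / 3)) * (Real.exp n * (W ^ (1 / 3 : ℝ) * G)) := by ring
    _ = _ := by rw [hXe]

end Crest.Agent.R017.ETf548
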