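import Crest.Agent.R017.ETf_548
import Crest.Agent.R017.ETe_548
import Crest.Agent.R017.FrX_579

/-!
# Row 17, exceptional class (helper548): the classes `k₀ c³` in the frame `S8X`, the real lines

* `line_pr` : the T-line of a level against the room of the principal part
* `PrFrame` : the facts of a child used by the principal part
* **`prGt_of`** : `PrGtU` for any sequence with the frame `PrFrame`
-/

set_option autoImplicit false
set_option linter.unusedSectionVars false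
set_option linter.unusedVariables false

noncomputable section

open Finset
open scoped ComplexConjugate Classical

namespace Crest.Agent.R017.ETg548

open Crest.Agent.R012 Crest.Agent.R012.Eis Crest.Agent.R012.MC
open Crest.Agent.R017.CM106 (CS FS)
open Crest.Agent.R017.C70 (CbF JC JW OKJ okJ_JW)
open Crest.Agent.R017.B770
open Crest.Agent.R017.XG702 (Pcs)
open Crest.Agent.R017.Prov71
open Crest.Agent.R017.E2440 (StE Fh)
open Crest.Agent.R017.Ex385 (CrQ)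
open Crest.Agent.R017.X6C180 (GF)
open Crest.Agent.R017.X6545 (TF Bd)
open Crest.Agent.R017.WDec180 (WD sc sc_pos)
open Crest.Agent.R017.I1146 (LN)
open Crest.Agent.R017.XT71 (Sys Win mx)
open Crest.Agent.R017.E5B71 Crest.Agent.R017.E5P571 Crest.Agent.R017.E5L770
open Crest.Agent.R017.ExBox960 Crest.Agent.R017.ExP960
open Crest.Agent.R017.Sf770
open Crest.Agent.R017.P1e54 Crest.Agent.R017.P1f54 Crest.Agent.R017.P1k54
open Crest.Agent.R017.P1l54 (ParOK)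
open Crest.Agent.R017.P1X960
open Crest.Agent.R017.P10X764 (nw clN bN)
open Crest.Agent.R017.ETd548 (stG)
open Crest.Agent.R017.ETp548 (Ck)
open Crest.Agent.R017.ETf548 (pr_seq)
open Crest.Agent.R017.ETe548 (PrGt PrGtU)
open Crest.Agent.R017.FrX579 (svX)
open Crest.Agent.R017.TNj90 (JBc)
open Crest.Agent.R017.E1551 (Adm)
open Crest.Agent.R017.StD828 (ln)
open Crest.Agent.R017.TM708 (eF eH R5)

/-- the room of the T-lines of the principal part -/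
def Mpr (κ L0 w η n τ : ℝ) : ℝ := 2 * (κ + L0 + τ) - 2 / 3 * w - 2 / 3 * η + n / 3

/-- the numbers of the principal part -/
lemma num0 {κ N x l n w w' η k5 e lm L0 τ : ℝ} (hκ : 0 ≤ κ) (hx : 0 ≤ x) (hτ : 0 ≤ τ)
    (hN : N ≤ 102 / 125 * κ) (hx1 : x ≤ 1 / 36 * κ)
    (hadm : x ≤ 0 ∨ (N + x ≤ 4 / 5 * κ ∧ 2 * N + 5 * x ≤ 59 / 36 * κ ∧ 2 * N + 6 * x ≤ 5 / 3 * κ))
    (hl : |l - κ| ≤ τ) (hn : n ≤ N + x + τ)
    (hw : w ≤ min (2 * N - κ) (3 / 4 * N) + 11 / 5 * x + τ) (hw' : w - τ ≤ w')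
    (hη : η ≤ 3 / 20 * l + max 0 (2 * n - l - w')) (hk5 : k5 ≤ max κ (5 / 4 * N) + 2 * τ)
    (he : e ≤ l / 20) (hlm : 0 ≤ lm) (hL : max 0 (5 / 4 * N - κ) + lm ≤ L0) :
    5 / 3 * n + 2 / 3 * w + 2 / 3 * η + lm ≤ 2 * (κ + L0) + 10 * τ ∧
    n + w + k5 / 3 + 2 / 3 * η + e / 6 + lm ≤ 2 * (κ + L0) + 10 * τ ∧
    n + 3 / 2 * w + 2 / 3 * η + e / 2 + lm ≤ 2 * (κ + L0) + 10 * τ ∧
    2 / 3 * n + 5 / 3 * w + 2 / 3 * η + e + lm ≤ 2 * (κ + L0) + 10 * τ ∧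
    4 / 3 * (n + w) + 2 / 3 * η ≤ 2 * (κ + L0) + 10 * τ := by
  obtain ⟨l1, l2⟩ := abs_le.1 hl
  have hw1 := hw.trans (add_le_add_left (add_le_add_left (min_le_left _ _) _) _)
  have hw2 := hw.trans (add_le_add_left (add_le_add_left (min_le_right _ _) _) _)
  have m1 := le_max_left 0 (5 / 4 * N - κ)
  have m2 := le_max_right 0 (5 / 4 * N - κ)
  set ex := max 0 (5 / 4 * N - κ) with hex
  have hk : max κ (5 / 4 * N) = κ + ex := by
    rw [hex, ← max_add_add_left]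
    congr 1 <;> ring
  rw [hk] at hk5
  rcases le_total (2 * n - l - w') 0 with h | h
  · rw [max_eq_left h] at hη
    rcases hadm with h0 | ⟨a1, a2, a3⟩
    · have hx0 : x = 0 := le_antisymm h0 hx
      subst hx0
      refine ⟨?_, ?_, ?_, ?_, ?_⟩ <;> linarith
    · refine ⟨?_, ?_, ?_, ?_, ?_⟩ <;> linarith
  · rw [max_eq_right h] at hη
    rcases hadm with h0 | ⟨a1, a2, a3⟩
    · have hx0 : x = 0 := le_antisymm h0 hx
      subst hx0
      refine ⟨?_, ?_, ?_, ?_, ?_⟩ <;> linarith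
    · refine ⟨?_, ?_, ?_, ?_, ?_⟩ <;> linarith

/-- **the T-line of a level** -/
lemma line_pr {κ N x l n w w' η k5 e lm L0 τ : ℝ} (hκ : 0 ≤ κ) (hx : 0 ≤ x) (hτ : 0 ≤ τ)
    (hN : N ≤ 102 / 125 * κ) (hx1 : x ≤ 1 / 36 * κ)
    (hadm : x ≤ 0 ∨ (N + x ≤ 4 / 5 * κ ∧ 2 * N + 5 * x ≤ 59 / 36 * κ ∧ 2 * N + 6 * x ≤ 5 / 3 * κ))
    (hl : |l - κ| ≤ τ) (hn : n ≤ N + x + τ)
    (hw : w ≤ min (2 * N - κ) (3 / 4 * N) + 11 / 5 * x + τ) (hw' : w - τ ≤ w')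
    (hη : η ≤ 3 / 20 * l + max 0 (2 * n - l - w')) (hk5 : k5 ≤ max κ (5 / 4 * N) + 2 * τ)
    (he0 : 0 ≤ e) (he : e ≤ l / 20) (hlm : 0 ≤ lm) (hL : max 0 (5 / 4 * N - κ) + lm ≤ L0)
    {Sh : ℝ → ℝ → ℝ → ℝ} (hSh : ∀ g b v : ℝ, 0 ≤ g → 0 ≤ b → 0 ≤ v → Sh g b v ≤
      max (eH (k5 + b / 2) (v + b) (n - g - b) + lm) (5 / 3 * n + 2 / 3 * (v + b) - 5 / 3 * (g + b)))
    (g b v : ℝ) (hg : 0 ≤ g) (hb : 0 ≤ b) (hv : 0 ≤ v) (hvw : v ≤ w - 2 * g) :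
    Sh g b v + 2 * g + b - 2 * max 0 (b - e) ≤ Mpr κ L0 w η n (5 * τ) := by
  obtain ⟨F1, F2, F3, F4, F5⟩ := num0 hκ hx hτ hN hx1 hadm hl hn hw hw' hη hk5 he hlm hL
  have b1 := le_max_left 0 (b - e)
  have b2 := le_max_right 0 (b - e)
  set mb := max 0 (b - e) with hmb
  have key : max (eH (k5 + b / 2) (v + b) (n - g - b) + lm)
      (5 / 3 * n + 2 / 3 * (v + b) - 5 / 3 * (g + b)) ≤
      Mpr κ L0 w η n (5 * τ) - (2 * g + b - 2 * mb) := by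
    unfold Mpr
    refine max_le ?_ (by linarith)
    have e1 : eH (k5 + b / 2) (v + b) (n - g - b) ≤
        2 * (κ + L0 + 5 * τ) - 2 / 3 * w - 2 / 3 * η + n / 3 - (2 * g + b - 2 * mb) - lm := by
      unfold TM708.eH TM708.eF
      refine max_le (max_le (by linarith) ?_) (by linarith)
      rcases le_total (k5 + b / 2) (3 / 2 * (v + b)) with h | h
      · rw [max_eq_right h]
        linarith
      · rw [max_eq_left h]
        linarith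
    linarith
  have := hSh g b v hg hb hv
  linarith

/-! ### the frequencies -/

/-- the classes are disjoint -/
theorem CrQ_kf {F : ℝ → ℂ} (hF : ∃ B : ℝ, ∀ x, F x ≠ 0 → x ≤ B) {K : ℝ} (hK : 0 < K)
    (Q : Eis → Prop) (Kf : Finset Eis)
    (hd : ∀ k₀ ∈ Kf, ∀ k₁ ∈ Kf, ∀ k, Ck k₀ k → Ck k₁ k → k₀ = k₁)
    (hQ : ∀ k₀ ∈ Kf, ∀ k, IsPrim k → Ck k₀ k → F ((nm k : ℝ) / K) ≠ 0 → Q k) (α u : Eis → ℂ) :
    CrQ F (fun k => Q k ∧ ∃ k₀ ∈ Kf, Ck k₀ k) K α u = ∑ k₀ ∈ Kf, CrQ F (Ck k₀) K α u := by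
  unfold Ex385.CrQ
  rw [← Summable.tsum_finsetSum fun k₀ _ => Ex385.sum_CrQ hF hK (fun k => IsPrim k ∧ Ck k₀ k)
    (fun k => CS α k * conj (u k))]
  refine tsum_congr fun k => ?_
  by_cases hk : IsPrim k
  · by_cases hF0 : F ((nm k : ℝ) / K) = 0
    · rw [hF0]
      simp
    · by_cases he : ∃ k₀ ∈ Kf, Ck k₀ k
      · obtain ⟨k₀, hk₀, hc⟩ := he
        rw [if_pos ⟨hk, hQ k₀ hk₀ k hk hc hF0, k₀, hk₀, hc⟩,
          Finset.sum_eq_single_of_mem k₀ hk₀ (fun k₁ hk₁ hne =>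
            if_neg fun h => hne (hd k₁ hk₁ k₀ hk₀ k h.2 hc)), if_pos ⟨hk, hc⟩]
      · rw [if_neg (fun h => he h.2.2)]
        symm
        exact Finset.sum_eq_zero fun k₀ hk₀ => if_neg fun h => he ⟨k₀, hk₀, h.2⟩
  · rw [if_neg fun h => hk h.1]
    symm
    exact Finset.sum_eq_zero fun k₀ hk₀ => if_neg fun h => hk h.1

/-- the support of the compensated weight -/
lemma supp_Fh {F : ℝ → ℂ} (hF : TF F) {η : ℝ} (hη : 0 ≤ η) {x : ℝ} (h : GF (Fh F η) x ≠ 0) :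
    Real.exp (-2 - η) ≤ x := by
  unfold X6C180.GF at h
  split_ifs at h with h0
  · by_contra hc
    apply h
    have h1 : Real.log x < -2 - η := (Real.log_lt_iff_lt_exp h0).2 (not_le.1 hc)
    unfold E2440.Fh
    rw [hF.supp _ (by rw [abs_of_neg (by linarith)]; linarith),
      hF.supp _ (by rw [abs_of_neg (by linarith)]; linarith)]
    simp
  · exact absurd rfl h

/-- outside the cut -/
lemma not_cut {F : ℝ → ℂ} (hF : TF F) {η l M lk : ℝ} (hη : 0 ≤ η) {k₀ k : Eis} (hk₀ : IsPrim k₀)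
    (hlk : Real.log (nm k₀) ≤ lk) (hb : 3 * (l / 20) + η + M + 2 + lk < l) {i : ℕ}
    (hk : Ck k₀ k) (h : GF (Fh F η) ((nm k : ℝ) / sc (Real.exp l) M i) ≠ 0) :
    ¬ cutE (Real.exp (l / 20)) k := by
  obtain ⟨c, hc, rfl⟩ := hk
  intro hcut
  have h1 := hcut c hc (dvd_mul_left _ _)
  have h2 := supp_Fh hF hη h
  have hs : 0 < sc (Real.exp l) M i := sc_pos (Real.exp_pos _) _ _
  rw [le_div_iff₀ hs] at h2
  unfold WDec180.sc at h2
  have hk0 : (0 : ℝ) < nm k₀ := by exact_mod_cast nm_pos.2 hk₀.ne_zero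
  have hc0 : (0 : ℝ) < nm c := by exact_mod_cast nm_pos.2 hc.ne_zero
  rw [← Real.exp_add, ← Real.exp_add, nm_mul, nm_pow] at h2
  push_cast at h2
  have h3 : (nm k₀ : ℝ) * (nm c : ℝ) ^ 3 ≤ Real.exp lk * Real.exp (l / 20) ^ 3 := by
    have e1 : (nm k₀ : ℝ) ≤ Real.exp lk := by
      rw [← Real.exp_log hk0]
      exact Real.exp_le_exp.2 hlk
    gcongr
  have h4 := h2.trans h3
  rw [← Real.exp_nat_mul, ← Real.exp_add, Real.exp_le_exp] at h4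
  push_cast at h4
  have : (0 : ℝ) ≤ i := Nat.cast_nonneg _
  linarith

/-! ### the frame -/

/-- **the facts of a child**, tolerance `t₀ log X` -/
structure PrFr (L0 : (Fin 3 ⊕ Fin 5 → ℝ) → ℝ) (c B₂ J R' t₀ ε X : ℝ) (al : Eis → ℂ) (a : BcX)
    (qs : List Pq) (q : (I8X → ℝ) × (Kd → ℝ)) : Prop where
  X3 : 3 ≤ X
  kl : |a.1.l - cκ (prX (bp q.1)) * Real.log X| ≤ t₀ * Real.log X
  nl : |LN (clN a qs) - svX q * Real.log X| ≤ t₀ * Real.log X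
  n1 : LN (clN a qs) ≤ (cN (prX (bp q.1)) + cx' (prX (bp q.1))) * Real.log X + t₀ * Real.log X
  yl : Real.log (2 ^ nw c a) ≤ top5 (prX (bp q.1)) * Real.log X + t₀ * Real.log X
  yX : (2 : ℝ) ^ nw c a ≤ X
  fs : FS al
  sup : ∀ m, ‖al m‖ ≤ X ^ ε
  jb : ∃ (Y lm k5 : ℝ) (Sh : ℝ → ℝ → ℝ → ℝ), 1 ≤ Y ∧ Y ≤ X ^ B₂ ∧ 0 ≤ lm ∧
    max 0 (5 / 4 * cN (prX (bp q.1)) - cκ (prX (bp q.1))) + lm ≤ L0 (prX (bp q.1)) ∧
    k5 ≤ max (cκ (prX (bp q.1))) (5 / 4 * cN (prX (bp q.1))) * Real.log X + 2 * (t₀ * Real.log X) ∧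
    (∀ g b v : ℝ, 0 ≤ g → 0 ≤ b → 0 ≤ v → Sh g b v ≤
      max (eH (k5 + b / 2) (v + b) (LN (clN a qs) - g - b) + lm * Real.log X)
        (5 / 3 * LN (clN a qs) + 2 / 3 * (v + b) - 5 / 3 * (g + b))) ∧
    JBc Y (2 ^ nw c a) (X ^ ε) J Sh al ∧ Adm Y (Real.exp (LN (clN a qs))) R' al

/-- **the frame** -/
def PrFrame {Λ : Type*} (al : Λ × Eis → BcX → List Pq → Eis → ℂ)
    (ok : Λ × Eis → BcX → List Pq → Prop) (c β : ℝ) (Par : Set (Fin 3 ⊕ Fin 5 → ℝ))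
    (L : (IX5 → ℝ) → ℝ → ℝ → ℝ → Prop) (L0 : (Fin 3 ⊕ Fin 5 → ℝ) → ℝ) : Prop :=
  ∀ t₀ ε : ℝ, 0 < t₀ → 0 < ε → ∃ δ : ℝ, 0 < δ ∧ ∀ (lam : Λ × Eis) (N : ℕ) (B : ℝ),
    ∃ B₂ J R' : ℝ, 1 ≤ B₂ ∧ 0 ≤ J ∧ 0 ≤ R' ∧ ∃ δ' : ℝ, 0 < δ' ∧ ∃ X₀ : ℝ, 1 < X₀ ∧
    ∀ X : ℝ, X₀ ≤ X → ∀ (a : BcX) (qs : List Pq), qs.length ≤ N →
      (∀ p ∈ qs, Dq.lump p ∨ Dq.nl X p ≤ δ) → ∀ q ∈ Dom8X c β Par L,
      Win S8X q.1 δ N B δ' X a → (∀ t, |Dq.mass X qs t - q.2 t| ≤ δ) → Dq.Good X δ' B qs →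
      (∀ p ∈ qs, ¬ Dq.lump p) → ok lam a qs →
      PrFr L0 c B₂ J R' t₀ ε X (al lam a qs) a qs q

/-! ### the windows -/

lemma omL_bd' : ∃ B : ℝ, 0 ≤ B ∧ ∀ (i : ℕ) (x : Eis × Eis), ‖omL i x‖ ≤ B := by
  obtain ⟨B, hB, H⟩ := wLc_bd 0
  refine ⟨B, hB, fun i x => ?_⟩
  have := H i (lv x)
  rw [iteratedDeriv_zero] at this
  exact this

lemma omL_up {j : ℕ} {x : Eis × Eis} (hx : x.2 * x.1 ^ 2 ≠ 0) (h : omL j x ≠ 0) :
    (nm (x.2 * x.1 ^ 2) : ℝ) ≤ 2 ^ (j + 1) := by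
  have h1 := omL_supp h
  rw [Sf770.lv_eq] at h1
  have hp : (0 : ℝ) < nm (x.2 * x.1 ^ 2) := by exact_mod_cast nm_pos.2 hx
  have e1 : Real.log (nm (ln x)) = Real.log (nm (x.2 * x.1 ^ 2)) := rfl
  rw [e1] at h1
  obtain ⟨h3, h4⟩ := abs_le.1 h1
  have h5 : Real.log (nm (x.2 * x.1 ^ 2)) ≤ Real.log (2 ^ (j + 1)) := by
    rw [Real.log_pow]
    push_cast
    linarith
  exact (Real.log_le_log_iff hp (by positivity)).1 h5

/-- the window of level `j` -/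
def JJw (n j : ℕ) : Finset (Eis × Eis) :=
  (JS n).filter fun x => (nm (x.2 * x.1 ^ 2) : ℝ) ≤ 2 ^ (j + 1)

lemma okJ_JJw (n j : ℕ) : OKJ (JJw n j) where
  prim x hx := (okJ_JS n).prim x (mem_filter.1 hx).1
  sqf x hx := (okJ_JS n).sqf x (mem_filter.1 hx).1
  jc x hx := (okJ_JS n).jc x (mem_filter.1 hx).1

lemma StE_JJw (n j : ℕ) (E0 : ℝ) (α : Eis → ℂ) :
    StE E0 (JS n) (omL j) α = StE E0 (JJw n j) (omL j) α := by
  funext k
  unfold JJw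
  refine (StE_restrict E0 (JS n) _ (fun x hx h => omL_up ?_ h) α k).symm
  exact mul_ne_zero (E5b54.JC_cf ((okJ_JS n).jc x hx)).1
    (pow_ne_zero 2 ((okJ_JS n).prim x hx).ne_zero)

/-! ### the principal part, all lists -/

set_option maxHeartbeats 4000000 in
/-- **the principal part** for any sequence with the frame -/
theorem prGt_of {Λ : Type*} {al : Λ × Eis → BcX → List Pq → Eis → ℂ}
    {ok : Λ × Eis → BcX → List Pq → Prop} {e0 c : ℝ} {et : BcX → List Pq → ℕ → ℝ}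
    {Kf : Λ × Eis → Finset Eis} {β : ℝ} {Par : Set (Fin 3 ⊕ Fin 5 → ℝ)}
    {L : (IX5 → ℝ) → ℝ → ℝ → ℝ → Prop} {L0 : (Fin 3 ⊕ Fin 5 → ℝ) → ℝ}
    (he0 : 0 ≤ e0) (he1 : e0 ≤ 1 / 20) (het0 : ∀ a qs j, 0 ≤ et a qs j)
    (het : ∀ a qs j, 0 ≤ a.1.l → et a qs j ≤
      3 / 20 * a.1.l + max 0 (2 * LN (clN a qs) - a.1.l - Real.log 2 * j))
    (hPar : ∀ p ∈ Par, ParOK p) (hR5 : ∀ p : IX5 → ℝ, prX p ∈ Par → ZR β p → R5 (bN p))
    (hKp : ∀ lam, ∀ k₀ ∈ Kf lam, IsPrim k₀)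
    (hKd : ∀ lam, ∀ k₀ ∈ Kf lam, ∀ k₁ ∈ Kf lam, ∀ k, Ck k₀ k → Ck k₁ k → k₀ = k₁)
    (hfr : PrFrame al ok c β Par L L0) : PrGtU al ok e0 c et Kf β Par L L0 := by
  intro Rw hRw Nw Mw Fw hWD ε hε
  obtain ⟨ε₁, hε₁, hεε⟩ : ∃ ε₁ : ℝ, 0 < ε₁ ∧ 16 * ε₁ = ε := ⟨ε / 16, by positivity, by ring⟩
  obtain ⟨t₀, ht₀, ht1, htε⟩ : ∃ t₀ : ℝ, 0 < t₀ ∧ t₀ ≤ 1 / 1000 ∧ 12 * t₀ ≤ ε₁ :=
    ⟨min (1 / 1000) (ε₁ / 12), lt_min (by norm_num) (by positivity), min_le_left _ _, by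
      have := min_le_right (1 / 1000) (ε₁ / 12)
      linarith⟩
  obtain ⟨δ, hδ, hfr⟩ := hfr t₀ ε₁ ht₀ hε₁
  refine ⟨δ, hδ, fun lam N B => ?_⟩
  obtain ⟨B₂, J, R', hB₂, hJ, hR', δ', hδ', X₁, hX₁, hfr⟩ := hfr lam N B
  have hB₂0 : 0 < B₂ := by linarith
  obtain ⟨Nd, hseq⟩ := pr_seq (R := R') (J := J) (B₂ := B₂) hR' hJ hB₂0
  choose! Cf hCf0 hCf using fun (k₀ : Eis) (hk₀ : IsPrim k₀) => hseq k₀ hk₀ ε₁ hε₁
  obtain ⟨Sf, hSf0, hSf⟩ := (hWD lam.1).bd Nd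
  obtain ⟨b, hb, hom⟩ := omL_bd'
  have hM0 := (hWD lam.1).M0
  set Nn : ℕ := Nw lam.1 with hNn
  set M : ℝ := Mw lam.1 with hM
  set lk : ℝ := ∑ k₀ ∈ Kf lam, Real.log (nm k₀) with hlk
  have hlk1 : ∀ k₀ ∈ Kf lam, 0 ≤ Real.log (nm k₀) := fun k₀ hk₀ =>
    Real.log_nonneg (by exact_mod_cast nm_pos.2 (hKp lam k₀ hk₀).ne_zero)
  have hlk0 : 0 ≤ lk := sum_nonneg hlk1
  have hlk2 : ∀ k₀ ∈ Kf lam, Real.log (nm k₀) ≤ lk := fun k₀ hk₀ =>
    single_le_sum (f := fun k₀ : Eis => Real.log (nm k₀)) hlk1 hk₀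
  set CK : ℝ := ∑ k₀ ∈ Kf lam, Cf k₀ with hCK
  have hCK0 : 0 ≤ CK := sum_nonneg fun k₀ hk₀ => hCf0 k₀ (hKp lam k₀ hk₀)
  set CC : ℝ := 2 * (2 / ε₁) * (Nn * (CK * (2 * (Sf * b)))) with hCC
  have hCC0 : 0 ≤ CC := by positivity
  set Q₀ : ℝ := 2 + 20 * (M + 2 + lk) + 1 / t₀ + 2 * (CC + 2) / ε₁ with hQ₀
  have hQ1 : 0 ≤ 20 * (M + 2 + lk) := by positivity
  have hQ2 : 0 ≤ 2 * (CC + 2) / ε₁ := by positivity
  have hQ3 : 0 ≤ 1 / t₀ := by positivity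
  refine ⟨δ', hδ', max X₁ (Real.exp Q₀), lt_of_lt_of_le hX₁ (le_max_left _ _), ?_⟩
  intro X hX a qs hlen hgl q hq hw hm hg hl
  have hX1' : X₁ ≤ X := (le_max_left _ _).trans hX
  have hXQ : Real.exp Q₀ ≤ X := (le_max_right _ _).trans hX
  have hX1 : 1 < X := by linarith
  have hX0 : 0 < X := by linarith
  set Lg := Real.log X with hLg
  have hQL : Q₀ ≤ Lg := by
    have := Real.log_le_log (Real.exp_pos Q₀) hXQ
    rwa [Real.log_exp] at this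
  have hL2 : 2 ≤ Lg := by linarith
  have hLpos : 0 < Lg := by linarith
  have hLt : 1 ≤ t₀ * Lg := by
    have h1 : 1 / t₀ ≤ Lg := by linarith
    rw [div_le_iff₀ ht₀] at h1
    linarith
  have hLC : CC + 2 ≤ ε₁ / 2 * Lg := by
    have h1 : 2 * (CC + 2) / ε₁ ≤ Lg := by linarith
    rw [div_le_iff₀ hε₁] at h1
    linarith
  have hLM : 20 * (M + 2 + lk) ≤ Lg := by linarith
  have hXe : ∀ e : ℝ, X ^ e = Real.exp (e * Lg) := fun e => by
    rw [Real.rpow_def_of_pos hX0, ← hLg, mul_comm]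
  by_cases hok : ok lam a qs
  swap
  · unfold PrGt
    rw [if_neg hok]
    positivity
  have hnl : ∀ p' ∈ qs, ¬ Dq.lump p' := fun p' hp' hl' =>
    (Set.notMem_empty _) (hl p' hp' hl')
  have HF := hfr X hX1' a qs hlen hgl q hq hw hm hg hnl hok
  obtain ⟨hX3, hkl, hnl', hn1, hyl, hyX, hfs, hsup, Y, lm, k5, Sh, hY1, hYX, hlm0, hlmL, hk5, hSh,
    hjb, hadm⟩ := HF
  -- the point
  obtain ⟨hq1, hq2⟩ := hq
  set p : Fin 3 ⊕ Fin 5 → ℝ := prX (bp q.1) with hp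
  have hPp := hPar p hq1.par
  have hR := hR5 (bp q.1) hq1.par hq1.zr
  have hκ0 := hPp.κ0
  have hκ1 := hPp.κ1
  set κ := cκ p with hκ
  set NN := cN p with hNN
  set xx := cx' p with hxx
  set n := LN (clN a qs) with hn
  set l := a.1.l with hl'
  obtain ⟨kl1, kl2⟩ := abs_le.1 hkl
  obtain ⟨nl1, nl2⟩ := abs_le.1 hnl'
  have hκL0 : 8 / 9 * Lg ≤ κ * Lg := mul_le_mul_of_nonneg_right hκ0 hLpos.le
  have hκL1 : κ * Lg ≤ 1 * Lg := mul_le_mul_of_nonneg_right hκ1 hLpos.le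
  have ht1L : t₀ * Lg ≤ 1 / 1000 * Lg := mul_le_mul_of_nonneg_right ht1 hLpos.le
  have hl0 : 0 ≤ l := by linarith
  have hl2 : l ≤ 2 * Lg := by linarith
  have hxx0 := hPp.x0
  have rN : NN ≤ 102 / 125 * κ := hR.hN
  have rx : xx ≤ 1 / 36 * κ := hR.x1
  have radm : xx ≤ 0 ∨ (NN + xx ≤ 4 / 5 * κ ∧ 2 * NN + 5 * xx ≤ 59 / 36 * κ ∧
      2 * NN + 6 * xx ≤ 5 / 3 * κ) := hR.adm
  -- the scaled numbers
  have mL : ∀ {u v : ℝ}, u ≤ v → u * Lg ≤ v * Lg := fun h => mul_le_mul_of_nonneg_right h hLpos.le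
  have s1 : NN * Lg ≤ 102 / 125 * (κ * Lg) := by have := mL rN; linarith
  have s2 : xx * Lg ≤ 1 / 36 * (κ * Lg) := by have := mL rx; linarith
  have s3 : xx * Lg ≤ 0 ∨ (NN * Lg + xx * Lg ≤ 4 / 5 * (κ * Lg) ∧
      2 * (NN * Lg) + 5 * (xx * Lg) ≤ 59 / 36 * (κ * Lg) ∧
      2 * (NN * Lg) + 6 * (xx * Lg) ≤ 5 / 3 * (κ * Lg)) := by
    rcases radm with h | ⟨h1, h2, h3⟩
    · left
      have := mL h
      linarith
    · right
      have h1' := mL h1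
      have h2' := mL h2
      have h3' := mL h3
      exact ⟨by linarith, by linarith, by linarith⟩
  have hx0L : 0 ≤ xx * Lg := by positivity
  have hκL : 0 ≤ κ * Lg := by linarith
  have htL : 0 ≤ t₀ * Lg := by positivity
  have hn1' : n ≤ NN * Lg + xx * Lg + t₀ * Lg := by
    have e : (NN + xx) * Lg = NN * Lg + xx * Lg := by ring
    linarith
  have hnup : n ≤ 102 / 125 * (κ * Lg) + t₀ * Lg := by
    rcases s3 with h | ⟨h1, -, -⟩
    · linarith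
    · linarith
  have htop : top5 p * Lg = min (2 * (NN * Lg) - κ * Lg) (3 / 4 * (NN * Lg)) +
      11 / 5 * (xx * Lg) := by
    unfold E5L770.top5
    rw [← hNN, ← hκ, ← hxx, add_mul, min_mul_of_nonneg _ _ hLpos.le]
    have e1 : (2 * NN - κ) * Lg = 2 * (NN * Lg) - κ * Lg := by ring
    have e2 : 3 / 4 * NN * Lg = 3 / 4 * (NN * Lg) := by ring
    have e3 : 11 / 5 * xx * Lg = 11 / 5 * (xx * Lg) := by ring
    rw [e1, e2, e3]
  have hmaxL : max (0 : ℝ) (5 / 4 * (NN * Lg) - κ * Lg) + lm * Lg ≤ L0 p * Lg := by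
    have h1 := mL hlmL
    rw [add_mul, max_mul_of_nonneg _ _ hLpos.le, zero_mul] at h1
    have e : (5 / 4 * NN - κ) * Lg = 5 / 4 * (NN * Lg) - κ * Lg := by ring
    rw [e] at h1
    exact h1
  have hk5' : k5 ≤ max (κ * Lg) (5 / 4 * (NN * Lg)) + 2 * (t₀ * Lg) := by
    refine hk5.trans (le_of_eq ?_)
    rw [max_mul_of_nonneg _ _ hLpos.le]
    have e2 : 5 / 4 * NN * Lg = 5 / 4 * (NN * Lg) := by ring
    rw [e2]
  have hlog2 : 0 < Real.log 2 := Real.log_pos (by norm_num)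
  have hlog2' : Real.log 2 ≤ 1 := by
    have := Real.log_two_lt_d9
    linarith
  have hlog2'' : 1 / 2 ≤ Real.log 2 := by
    have := Real.log_two_gt_d9
    linarith
  have hnw : (nw c a : ℝ) ≤ 2 * Lg := by
    have h1 := Real.log_le_log (by positivity) hyX
    rw [Real.log_pow] at h1
    have h2 : (nw c a : ℝ) * (1 / 2) ≤ nw c a * Real.log 2 :=
      mul_le_mul_of_nonneg_left hlog2'' (Nat.cast_nonneg _)
    linarith
  set EE : ℝ := E8X L0 q with hEE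
  have hEEe : EE = κ + svX q + L0 p := by
    rw [hEE]
    unfold P1X960.E8X FrX579.svX
    ring
  -- one class
  have one : ∀ j < nw c a, ∀ i < Nn,
      ‖CrQ (GF (Fh (Fw lam.1 i) (et a qs j)))
        (fun k => ¬ cutE (Real.exp (l / 20)) k ∧ ∃ k₀ ∈ Kf lam, Ck k₀ k)
        (sc (Real.exp l) M i) (al lam a qs) (stG al e0 c lam a qs j)‖ ≤
      CK * (2 * (Sf * b)) * Real.exp ((EE + 3 * ε₁) * Lg) := by
    intro j hj i hi
    have hTF : TF (Fw lam.1 i) := X6W180.tf1_tf ((hWD lam.1).tf i)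
    have hBd : Bd (Fw lam.1 i) Nd Sf := hSf i hi
    have hη := het0 a qs j
    set η := et a qs j with hηd
    have hηu := het a qs j hl0
    rw [← hηd, ← hn, ← hl'] at hηu
    have hK : 0 < sc (Real.exp l) M i := sc_pos (Real.exp_pos _) _ _
    have hj0 : (0 : ℝ) ≤ Real.log 2 * j := by positivity
    have hη2 : η ≤ 3 / 20 * l + (79 / 125 * (κ * Lg) + 3 * (t₀ * Lg)) := by
      refine hηu.trans (add_le_add le_rfl (max_le (by linarith) (by linarith)))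
    -- the support
    have hbig : 3 * (l / 20) + η + M + 2 + lk < l := by linarith
    rw [CrQ_kf (Ex385.bdd_Fh hTF hη) hK _ (Kf lam) (hKd lam) (fun k₀ hk₀ k hkp hk hne =>
      not_cut hTF hη (hKp lam k₀ hk₀) (hlk2 k₀ hk₀) hbig hk hne)]
    refine (norm_sum_le _ _).trans ?_
    rw [hCK, sum_mul, sum_mul]
    refine sum_le_sum fun k₀ hk₀ => ?_
    have hk₀p := hKp lam k₀ hk₀
    -- the level
    set W : ℝ := 2 ^ (j + 1) with hW
    have hW1 : 1 ≤ W := one_le_pow₀ (by norm_num)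
    have hWn : W ≤ 2 ^ nw c a := pow_le_pow_right₀ (by norm_num) hj
    have hXB : X ≤ X ^ B₂ := by
      calc X = X ^ (1 : ℝ) := (Real.rpow_one X).symm
        _ ≤ X ^ B₂ := Real.rpow_le_rpow_of_exponent_le hX1.le hB₂
    have hWX : W ≤ X ^ B₂ := (hWn.trans hyX).trans hXB
    have hE1 : 1 ≤ Real.exp (e0 * l) := Real.one_le_exp (by positivity)
    have he0l : e0 * l ≤ l / 20 := by
      have := mul_le_mul_of_nonneg_right he1 hl0
      linarith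
    have hEX : Real.exp (e0 * l) ≤ X ^ B₂ := by
      refine le_trans ?_ hXB
      rw [← Real.exp_log hX0, ← hLg]
      exact Real.exp_le_exp.2 (by linarith)
    have hlW : Real.log W = Real.log 2 * j + Real.log 2 := by
      rw [hW, Real.log_pow]
      push_cast
      ring
    have hwl : Real.log W ≤ min (2 * (NN * Lg) - κ * Lg) (3 / 4 * (NN * Lg)) +
        11 / 5 * (xx * Lg) + t₀ * Lg := by
      have h1 := Real.log_le_log (by linarith) hWn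
      rw [htop] at hyl
      linarith
    have line := line_pr (κ := κ * Lg) (N := NN * Lg) (x := xx * Lg) (l := l) (n := n)
      (w := Real.log W) (w' := Real.log 2 * j) (η := η) (k5 := k5) (e := e0 * l) (lm := lm * Lg)
      (L0 := L0 p * Lg) (τ := t₀ * Lg) hκL hx0L htL s1 s2 s3 hkl hn1' hwl (by linarith) hηu hk5'
      (by positivity) he0l (by positivity) hmaxL hSh
    have key := hCf k₀ hk₀p X hX3 n Y W (Real.exp (e0 * l)) (X ^ ε₁) Sh hY1 hYX hW1 hWX hE1 hEX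
      (by positivity) (al lam a qs) hfs (hjb.mono hWn) hadm (X ^ ε₁) hsup (JJw (nw c a) j)
      (okJ_JJw _ _) (fun x hx => by
        have h5 : (nm (x.2 * x.1 ^ 2) : ℝ) ≤ 2 ^ (j + 1) := (mem_filter.1 hx).2
        rw [nm_mul, nm_pow] at h5
        push_cast at h5
        exact h5) (omL j) b hb (fun x _ => hom j x)
      (Mpr (κ * Lg) (L0 p * Lg) (Real.log W) η n (5 * (t₀ * Lg))) (by
        intro g b' v hg' hb' hv hvw
        rw [Real.log_exp]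
        exact line g b' v hg' hb' hv hvw) (Fw lam.1 i) Sf hTF hBd η (sc (Real.exp l) M i) hη hK
    have hst : stG al e0 c lam a qs j = StE (Real.exp (e0 * l)) (JJw (nw c a) j) (omL j)
        (al lam a qs) := StE_JJw _ _ _ _
    rw [hst]
    refine key.trans ?_
    -- the exponents
    set m := Mpr (κ * Lg) (L0 p * Lg) (Real.log W) η n (5 * (t₀ * Lg)) with hmd
    have hW0 : 0 < W := by linarith
    have q1 : Real.sqrt (X ^ ε₁ * Real.exp (-(n / 3)) * Real.exp m) =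
        Real.exp ((ε₁ * Lg - n / 3 + m) / 2) := by
      rw [hXe, ← Real.exp_add, ← Real.exp_add, Real.sqrt_eq_rpow, ← Real.exp_mul]
      congr 1
      ring
    have q2 : W ^ (1 / 3 : ℝ) = Real.exp (Real.log W / 3) := by
      rw [Real.rpow_def_of_pos hW0]
      congr 1
      ring
    have q3 : 1 + Real.exp (η / 3) ≤ 2 * Real.exp (η / 3) := by
      have := Real.one_le_exp (show 0 ≤ η / 3 by positivity)
      linarith
    have hC0 := hCf0 k₀ hk₀p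
    rw [q1, q2]
    calc Cf k₀ * X ^ ε₁ * (Sf * X ^ ε₁ * b) * (1 + Real.exp (η / 3)) *
          (Real.exp n * (Real.exp (Real.log W / 3) * Real.exp ((ε₁ * Lg - n / 3 + m) / 2)))
        ≤ Cf k₀ * X ^ ε₁ * (Sf * X ^ ε₁ * b) * (2 * Real.exp (η / 3)) *
          (Real.exp n * (Real.exp (Real.log W / 3) * Real.exp ((ε₁ * Lg - n / 3 + m) / 2))) := by
          gcongr
      _ = Cf k₀ * (2 * (Sf * b)) * (Real.exp (ε₁ * Lg) * Real.exp (ε₁ * Lg) *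
          Real.exp (η / 3) * Real.exp n * Real.exp (Real.log W / 3) *
            Real.exp ((ε₁ * Lg - n / 3 + m) / 2)) := by
          rw [hXe]; ring
      _ ≤ Cf k₀ * (2 * (Sf * b)) * Real.exp ((EE + 3 * ε₁) * Lg) := by
          refine mul_le_mul_of_nonneg_left ?_ (by positivity)
          rw [← Real.exp_add, ← Real.exp_add, ← Real.exp_add, ← Real.exp_add, ← Real.exp_add]
          refine Real.exp_le_exp.2 ?_
          have e1 : m = 2 * (κ * Lg + L0 p * Lg + 5 * (t₀ * Lg)) - 2 / 3 * Real.log W -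
            2 / 3 * η + n / 3 := by rw [hmd]; rfl
          have e2 : (EE + 3 * ε₁) * Lg = κ * Lg + svX q * Lg + L0 p * Lg + 3 * (ε₁ * Lg) := by
            rw [hEEe]; ring
          have e3 : 12 * (t₀ * Lg) ≤ ε₁ * Lg := by
            have := mL htε
            linarith
          rw [e1, e2]
          linarith
  unfold PrGt
  rw [if_pos hok]
  have hsum : ∑ j ∈ range (nw c a), ∑ i ∈ range Nn,
      ‖CrQ (GF (Fh (Fw lam.1 i) (et a qs j)))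
        (fun k => ¬ cutE (Real.exp (l / 20)) k ∧ ∃ k₀ ∈ Kf lam, Ck k₀ k)
        (sc (Real.exp l) M i) (al lam a qs) (stG al e0 c lam a qs j)‖ ≤
      2 * Lg * (Nn * (CK * (2 * (Sf * b)) * Real.exp ((EE + 3 * ε₁) * Lg))) := by
    refine (sum_le_sum fun j hj => sum_le_sum fun i hi =>
      one j (mem_range.1 hj) i (mem_range.1 hi)).trans ?_
    rw [sum_const, sum_const, card_range, card_range, nsmul_eq_mul, nsmul_eq_mul]
    exact mul_le_mul_of_nonneg_right hnw (by positivity)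
  refine hsum.trans ?_
  have hLe : Lg ≤ 2 / ε₁ * Real.exp (ε₁ / 2 * Lg) := by
    have h1 := Real.add_one_le_exp (ε₁ / 2 * Lg)
    have h2 : Lg = 2 / ε₁ * (ε₁ / 2 * Lg) := by field_simp
    calc Lg = 2 / ε₁ * (ε₁ / 2 * Lg) := h2
      _ ≤ 2 / ε₁ * Real.exp (ε₁ / 2 * Lg) :=
        mul_le_mul_of_nonneg_left (by linarith) (by positivity)
  have hCe : CC ≤ Real.exp (ε₁ / 2 * Lg) := by
    have h1 := Real.add_one_le_exp (ε₁ / 2 * Lg)
    linarith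
  calc 2 * Lg * (Nn * (CK * (2 * (Sf * b)) * Real.exp ((EE + 3 * ε₁) * Lg)))
      ≤ 2 * (2 / ε₁ * Real.exp (ε₁ / 2 * Lg)) *
        (Nn * (CK * (2 * (Sf * b)) * Real.exp ((EE + 3 * ε₁) * Lg))) := by gcongr
    _ = CC * Real.exp (ε₁ / 2 * Lg) * Real.exp ((EE + 3 * ε₁) * Lg) := by rw [hCC]; ring
    _ ≤ Real.exp (ε₁ / 2 * Lg) * Real.exp (ε₁ / 2 * Lg) * Real.exp ((EE + 3 * ε₁) * Lg) := by
        gcongr
    _ = Real.exp ((EE + 4 * ε₁) * Lg) := by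
        rw [← Real.exp_add, ← Real.exp_add]
        congr 1
        ring
    _ ≤ X ^ (EE + ε) := by
        rw [hXe, ← hεε]
        exact Real.exp_le_exp.2 (mul_le_mul_of_nonneg_right (by linarith) hLpos.le)

end Crest.Agent.R017.ETg548
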