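import Crest.Agent.R017.ETg_548
import Crest.Agent.R017.AL_813

/-!
# Row 17, exceptional class (helper548): the frame of the principal part for the differences `alX`

* `norm_alF_pow` : size of the sequence of a list
* **`prFrame_alX`** : `PrFrame` for `alX` from `frX`
-/

set_option autoImplicit false
set_option linter.unusedSectionVars false
set_option linter.unusedVariables false

noncomputable section

open Finset
open scoped ComplexConjugate Classical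

namespace Crest.Agent.R017.ETh548

open Crest.Agent.R012 Crest.Agent.R012.Eis Crest.Agent.R012.MC
open Crest.Agent.R012.LS2 (S mem_S)
open Crest.Agent.R012.Div277 (tau tau_le_rpow)
open Crest.Agent.R017.CM106 (CS FS)
open Crest.Agent.R017.B770
open Crest.Agent.R017.HP842 (Pc pc sqc alL)
open Crest.Agent.R017.FE47 (PU cx SM)
open Crest.Agent.R017.Leg381 (Pf alF natl)
open Crest.Agent.R017.XG702 (Pcs)
open Crest.Agent.R017.Prov71
open Crest.Agent.R017.I1146 (LN Dom)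
open Crest.Agent.R017.I1K764
open Crest.Agent.R017.XT71 (Sys Win mx)
open Crest.Agent.R017.E5B71 Crest.Agent.R017.E5P571 Crest.Agent.R017.E5L770
open Crest.Agent.R017.ExBox960 Crest.Agent.R017.ExP960
open Crest.Agent.R017.Sf770
open Crest.Agent.R017.P1e54 Crest.Agent.R017.P1f54 Crest.Agent.R017.P1k54
open Crest.Agent.R017.P1l54 (ParOK)
open Crest.Agent.R017.P1X960
open Crest.Agent.R017.Sup271 (NPm)
open Crest.Agent.R017.PX764 (Dk)
open Crest.Agent.R017.P10X764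
open Crest.Agent.R017.FrX579
open Crest.Agent.R017.E3N146 (ShT)
open Crest.Agent.R017.E3Nx744 (CBA)
open Crest.Agent.R017.TNj90 (JBc)
open Crest.Agent.R017.E1551 (Adm nmpos)
open Crest.Agent.R017.TM708 (eF eH R5)
open Crest.Agent.R017.ETg548

/-- the size of the sequence of a list -/
lemma norm_alF_pow {h : ℝ → ℝ} {c : ℝ} (hpu : PU h c) (K : ℕ) {ε B₂ : ℝ} (hε : 0 < ε)
    (hB₂ : 0 < B₂) : ∃ C : ℝ, 0 ≤ C ∧ ∀ X : ℝ, 3 ≤ X → ∀ P : DPar, P.OK → ∀ (q : Eis)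
      (ps : List Pf), ps.length ≤ K → ∀ m : Eis, m ≠ 0 → (nm m : ℝ) ≤ X ^ B₂ →
      ‖sqc q (alF 1 1 P h ps) m‖ ≤ C * X ^ ε := by
  obtain ⟨A, hA1, hA⟩ := AL813.cx_bdd hpu
  have hK0 : (0 : ℝ) ≤ K := Nat.cast_nonneg _
  set ε' : ℝ := ε / ((2 * K + 1) * B₂) with hε'
  have hε'0 : 0 < ε' := by positivity
  obtain ⟨C₁, hC₁, ht⟩ := tau_le_rpow hε'0
  refine ⟨A ^ K * C₁ ^ (2 * K), by positivity, ?_⟩
  intro X hX P hP q ps hps m hm hmX
  have hX0 : 0 < X := by linarith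
  have hX1 : 1 ≤ X := by linarith
  have hm0 : (0 : ℝ) < nm m := nmpos hm
  refine (AL813.norm_sqc_le q _ m).trans ((AL813.norm_alF_le hA 1 1 hP ps m).trans ?_)
  have h1 : (tau m : ℝ) ≤ C₁ * X ^ (B₂ * ε') := by
    refine (ht m hm).trans (mul_le_mul_of_nonneg_left ?_ (by linarith))
    rw [Real.rpow_mul hX0.le]
    exact Real.rpow_le_rpow hm0.le hmX hε'0.le
  have h2 : 1 ≤ C₁ * X ^ (B₂ * ε') :=
    one_le_mul_of_one_le_of_one_le hC₁ (Real.one_le_rpow hX1 (by positivity))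
  have h3 : (tau m : ℝ) ^ (2 * ps.length) ≤ (C₁ * X ^ (B₂ * ε')) ^ (2 * K) :=
    (pow_le_pow_left₀ (Nat.cast_nonneg _) h1 _).trans (pow_le_pow_right₀ h2 (by omega))
  have h4 : A ^ ps.length ≤ A ^ K := pow_le_pow_right₀ hA1 hps
  have h5 : (X ^ (B₂ * ε')) ^ (2 * K) ≤ X ^ ε := by
    rw [← Real.rpow_natCast, ← Real.rpow_mul hX0.le]
    refine Real.rpow_le_rpow_of_exponent_le hX1 ?_
    have e1 : B₂ * ε' * ((2 * K : ℕ) : ℝ) = ε * (2 * K / (2 * K + 1)) := by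
      rw [hε']
      push_cast
      field_simp
    rw [e1]
    have h6 : (2 * (K : ℝ)) / (2 * K + 1) ≤ 1 := by
      rw [div_le_one (by positivity)]
      linarith
    exact mul_le_of_le_one_right hε.le h6
  calc A ^ ps.length * (tau m : ℝ) ^ (2 * ps.length) ≤
        A ^ K * (C₁ * X ^ (B₂ * ε')) ^ (2 * K) := by gcongr
    _ = A ^ K * C₁ ^ (2 * K) * (X ^ (B₂ * ε')) ^ (2 * K) := by rw [mul_pow]; ring
    _ ≤ A ^ K * C₁ ^ (2 * K) * X ^ ε := by gcongr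

variable {Λ : Type*}

/-- the number of a difference below the two flat forms -/
lemma ShXl_le (lm : ℝ) (a : BcX) (qs : List Pq) (g b v : ℝ) :
    ShXl lm a qs g b v ≤ max (eH (k5X a + b / 2) (v + b) (LN (clN a qs) - g - b) + lm)
      (5 / 3 * LN (clN a qs) + 2 / 3 * (v + b) - 5 / 3 * (g + b)) := by
  unfold FrX579.ShXl P10X764.shB
  refine max_le_max ?_ ?_
  · unfold E3N146.ShT
    exact add_le_add (min_le_left _ _) le_rfl
  · unfold bcx
    have := le_max_left 0 (s0X a - (g + b))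
    linarith

set_option maxHeartbeats 1000000 in
/-- **the frame of the principal part for the differences** -/
theorem prFrame_alX {π : Λ → DPar} {h : ℝ → ℝ} {c₀ : ℝ} (hpu : PU h c₀) (hP : ∀ lam, (π lam).OK)
    (hex : ∀ lam, ¬ NPm (π lam).n (π lam).ψ (π lam).l₂ 1)
    {Rh : ℝ} (hRh0 : 0 ≤ Rh) (hRh : ∀ u, cx h u ≠ 0 → |u| ≤ Rh)
    {c β : ℝ} (hc0 : 0 ≤ c) (hc1 : c ≤ 1)
    {Par : Set (Fin 3 ⊕ Fin 5 → ℝ)} (hPar : ∀ p ∈ Par, ParOK p)
    {D5 : Set (Fin 5 → ℝ)} {ℓ Kf Tf : (Fin 5 → ℝ) → ℝ}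
    (hDN : ∀ p : IX5 → ℝ, prX p ∈ Par → ZR β p → bN p ∈ D5)
    (hDR : ∀ p : IX5 → ℝ, prX p ∈ Par → ZR β p → bR p ∈ D5)
    (hR5 : ∀ p : IX5 → ℝ, prX p ∈ Par → ZR β p → R5 (bN p))
    (hKN : ∀ p : IX5 → ℝ, prX p ∈ Par → ZR β p →
      Kf (bN p) = max (cκ (prX p)) (5 / 4 * cN (prX p)))
    (hKR : ∀ p : IX5 → ℝ, prX p ∈ Par → ZR β p →
      Kf (bR p) = max (cκ (prX p)) (5 / 4 * cN (prX p)))
    (hTN : ∀ (p : IX5 → ℝ) (v₀ v₁ v₂ b x' : ℝ), ChC c β Par p v₀ v₁ v₂ b x' →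
      DifL p v₀ v₁ v₂ → tpW c p b ≤ Tf (bN p))
    (hTR : ∀ (p : IX5 → ℝ) (v₀ v₁ v₂ b x' : ℝ), ChC c β Par p v₀ v₁ v₂ b x' →
      DifL p v₀ v₁ v₂ → tpW c p b ≤ Tf (bR p))
    (hcb : CBA π h Dk Kf Tf D5 ℓ) {L0 : (Fin 3 ⊕ Fin 5 → ℝ) → ℝ}
    (hL0 : ∀ p : IX5 → ℝ, prX p ∈ Par → ZR β p →
      max 0 (5 / 4 * cN (prX p) - cκ (prX p)) + lmX ℓ Kf Tf p ≤ L0 (prX p)) :
    PrFrame (alX π h) (fun lam a qs => okCX (π lam.1) lam.2 a qs ∧ okD a) c β Par DifL L0 := by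
  intro t₀ ε ht₀ hε
  obtain ⟨δ, hδ, H⟩ := frX hpu hP hex hRh0 hRh (e0 := 0) le_rfl zero_le_one hc0 hc1 hPar hDN hDR hR5
    hKN hKR hTN hTR hcb hε ht₀
  refine ⟨δ, hδ, fun lam N B => ?_⟩
  obtain ⟨B₂, J, R', hB₂, hJ, hR', δ', hδ', X₀, hX₀, H⟩ := H lam N B 1 le_rfl
  have hB₂0 : 0 < B₂ := by linarith
  have hε2 : 0 < ε / 2 := by positivity
  obtain ⟨C, hC, HC⟩ := norm_alF_pow hpu (N + 3) hε2 hB₂0
  set Q : ℝ := 2 * (2 * C + 1) / ε with hQ
  refine ⟨B₂, J, R', hB₂, hJ, hR', δ', hδ', max X₀ (Real.exp Q),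
    lt_of_lt_of_le hX₀ (le_max_left _ _), ?_⟩
  intro X hX a qs hlen hgl q hq hw hm hg hl hok
  have hX1' : X₀ ≤ X := (le_max_left _ _).trans hX
  have hXQ : Real.exp Q ≤ X := (le_max_right _ _).trans hX
  have HF := H X hX1' a qs hlen hgl q hq hw hm hg hl hok
  have hX3 := HF.X3
  have hX0 : 0 < X := by linarith
  have hL0' : 0 ≤ Real.log X := Real.log_nonneg (by linarith)
  have hadm := HF.adm
  have hY0 : 0 ≤ YcX Rh a qs := by have := HF.Y1; linarith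
  have hCX : 2 * C ≤ X ^ (ε / 2) := by
    have h1 : Q ≤ Real.log X := by
      have := Real.log_le_log (Real.exp_pos Q) hXQ
      rwa [Real.log_exp] at this
    rw [hQ, div_le_iff₀ hε] at h1
    rw [Real.rpow_def_of_pos hX0]
    have h2 := Real.add_one_le_exp (Real.log X * (ε / 2))
    linarith
  obtain ⟨⟨hbok, hsm, hlmp, hamq, hb0⟩, hD0, hD1⟩ := hok
  have hdom := dom_xD (hP lam.1) h hsm a.2.1 (dz a.1) qs
  have hsup : ∀ m, ‖alX π h lam a qs m‖ ≤ X ^ ε := by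
    intro m
    by_cases h0 : alX π h lam a qs m = 0
    · rw [h0, norm_zero]
      positivity
    obtain ⟨m1, m2, -⟩ := (mem_S hY0).1 (hadm.sup m h0)
    have h1 := hdom.le m
    have h2 : ‖xN (π lam.1) h 1 (a.2.1 0) (a.2.1 1) (a.2.1 2 :: qs) ((a.2.1 1).z + dz a.1) m‖ ≤
        C * X ^ (ε / 2) + C * X ^ (ε / 2) := by
      rw [xN_eq]
      refine (norm_sub_le _ _).trans (add_le_add ?_ ?_)
      · refine HC X hX3 (π lam.1) (hP lam.1) 1 _ ?_ m m2.ne_zero (m1.trans HF.YX)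
        unfold Leg381.natl
        simp only [List.length_map, List.length_cons]
        omega
      · rw [norm_mul, norm_zN, one_mul]
        refine HC X hX3 (π lam.1) (hP lam.1) 1 _ ?_ m m2.ne_zero (m1.trans HF.YX)
        unfold Leg381.natl rl
        simp only [List.length_map, List.length_cons]
        omega
    have h3 : X ^ ε = X ^ (ε / 2) * X ^ (ε / 2) := by
      rw [← Real.rpow_add hX0]
      congr 1
      ring
    refine h1.trans (h2.trans ?_)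
    rw [h3]
    have h4 : 0 ≤ X ^ (ε / 2) := by positivity
    nlinarith
  refine ⟨hX3, HF.kl, HF.nl, HF.n1, ?_, ?_, ?_, hsup, ?_⟩
  · refine HF.yl.trans (add_le_add (mul_le_mul_of_nonneg_right (min_le_left _ _) hL0') le_rfl)
  · have := HF.yX
    rwa [one_mul] at this
  · refine ⟨(S (YcX Rh a qs)).finite_toSet.subset fun m hm => ?_, fun m hm => ?_⟩
    · exact hadm.sup m hm
    · exact ((mem_S hY0).1 (hadm.sup m hm)).2.1
  · refine ⟨YcX Rh a qs, lmX ℓ Kf Tf (bp q.1), k5X a, ShXl (lmX ℓ Kf Tf (bp q.1) * Real.log X) a qs,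
      HF.Y1, HF.YX, le_max_left _ _, hL0 _ hq.1.par hq.1.zr, ?_, fun g b v _ _ _ => ShXl_le _ _ _ _ _ _,
      ?_, hadm⟩
    · have hk := HF.kl
      have hA := HF.Al
      obtain ⟨k1, k2⟩ := abs_le.1 hk
      obtain ⟨A1, A2⟩ := abs_le.1 hA
      have ht : 0 ≤ t₀ * Real.log X := by positivity
      rw [max_mul_of_nonneg _ _ hL0']
      unfold P10X764.k5X
      refine max_le ?_ ?_
      · have := le_max_left (cκ (prX (bp q.1)) * Real.log X)
          (5 / 4 * cN (prX (bp q.1)) * Real.log X)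
        linarith
      · have := le_max_right (cκ (prX (bp q.1)) * Real.log X)
          (5 / 4 * cN (prX (bp q.1)) * Real.log X)
        linarith
    · have := HF.jb
      rwa [one_mul] at this

end Crest.Agent.R017.ETh548
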