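import Crest.Agent.R017.ETp_548
import Crest.Agent.R017.BoxP_271
import Crest.Agent.R017.X6C2_180
import Crest.Agent.R017.E5b_54

/-!
# Row 17, exceptional class (helper548): the finite set of the classes `k₀ c³` of the principal `k`

* `ck_unique` : the classes are disjoint
* **`exists_Kf`** : the `k` for which `NP2 (s k)` fails lie in finitely many classes `k₀ c³`
-/

set_option autoImplicit false
set_option linter.unusedSectionVars false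
set_option linter.unusedVariables false

noncomputable section

open Finset
open scoped ComplexConjugate Classical

namespace Crest.Agent.R017.ETi548

open Crest.Agent.R012 Crest.Agent.R012.Eis Crest.Agent.R012.MC
open Crest.Agent.R017.C70 (CbF)
open Crest.Agent.R017.B770
open Crest.Agent.R017.FE47 (SM)
open Crest.Agent.R017.End699 (HC)
open Crest.Agent.R017.Sup271 (NPm)
open Crest.Agent.R017.E5b54 (exists_cf_prim)
open Crest.Agent.R017.ETp548 (Ck)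

/-- the classes are disjoint -/
lemma ck_unique {j j' k : Eis} (hj : IsPrim j) (hj' : IsPrim j') (hc : CbF j) (hc' : CbF j')
    (h : Ck j k) (h' : Ck j' k) : j = j' := by
  obtain ⟨e, he, h1⟩ := h
  obtain ⟨e', he', h2⟩ := h'
  exact (X6C180.cf_unique (nm e + nm e') j j' e e' le_rfl hj hj' he he'
    (fun p hp _ => hc p hp) (fun p hp _ => hc' p hp) (h1.symm.trans h2)).1

/-- cube-free parts in one class up to cubes -/
lemma cf_eq {j j' z z' : Eis} (hj : IsPrim j) (hj' : IsPrim j') (hc : CbF j) (hc' : CbF j')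
    (hz : z ≠ 0) (hz' : z' ≠ 0) (h : j * z ^ 3 = j' * z' ^ 3) : j = j' := by
  obtain ⟨i, -, h1⟩ := E1551.cf_unique (κ := j) (κ' := j') ⟨hj.ne_zero, hc⟩ ⟨hj'.ne_zero, hc'⟩
    hz hz' h
  rcases Nat.even_or_odd (i : ℕ) with hi | hi
  · rw [hi.neg_one_pow, one_mul] at h1
    exact h1.symm
  · exfalso
    rw [hi.neg_one_pow] at h1
    have h2 : IsPrim ((-1 : Eis) * j) := by rw [← h1]; exact hj'
    have h3 : IsPrim (-1 : Eis) := h2.of_mul_right hj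
    have h4 := K695.prim_eq_one_of_isUnit h3 isUnit_one.neg
    exact absurd h4 (by decide)

/-- one character -/
lemma exists_cls {P : Eis → Prop} {s : Eis} (hs : s ≠ 0)
    (hP : ∃ n₀ : Eis, n₀ ≠ 0 ∧ ∀ k, k ≠ 0 → P k → ∃ z, z ≠ 0 ∧ k = n₀ * z ^ 3) :
    ∃ Kf : Finset Eis, (∀ k₀ ∈ Kf, IsPrim k₀ ∧ CbF k₀) ∧
      ∀ k, IsPrim k → P (s * k) → ∃ k₀ ∈ Kf, Ck k₀ k := by
  obtain ⟨n₀, hn₀, H⟩ := hP
  by_cases he : ∃ k₁, IsPrim k₁ ∧ P (s * k₁)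
  swap
  · exact ⟨∅, fun _ h => absurd h (notMem_empty _), fun k hk hPk => absurd ⟨k, hk, hPk⟩ he⟩
  obtain ⟨k₁, hk₁, hP₁⟩ := he
  obtain ⟨j₁, e₁, hj₁, he₁, hcf₁, rfl⟩ := exists_cf_prim hk₁
  refine ⟨{j₁}, fun k₀ hk₀ => ?_, fun k hk hPk => ⟨j₁, mem_singleton_self _, ?_⟩⟩
  · rw [mem_singleton.1 hk₀]
    exact ⟨hj₁, hcf₁⟩
  obtain ⟨j, e, hj, he, hcf, rfl⟩ := exists_cf_prim hk
  obtain ⟨z, hz, h1⟩ := H _ (mul_ne_zero hs hk.ne_zero) hPk
  obtain ⟨z₁, hz₁, h2⟩ := H _ (mul_ne_zero hs hk₁.ne_zero) hP₁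
  have h3 : j * (e * z₁) ^ 3 = j₁ * (e₁ * z) ^ 3 := by
    apply mul_left_cancel₀ hs
    calc s * (j * (e * z₁) ^ 3) = (s * (j * e ^ 3)) * z₁ ^ 3 := by ring
      _ = n₀ * z ^ 3 * z₁ ^ 3 := by rw [h1]
      _ = (s * (j₁ * e₁ ^ 3)) * z ^ 3 := by rw [h2]; ring
      _ = _ := by ring
  have h4 : j = j₁ := cf_eq hj hj₁ hcf hcf₁ (mul_ne_zero he.ne_zero hz₁)
    (mul_ne_zero he₁.ne_zero hz) h3
  rw [← h4]
  exact ⟨e, he, rfl⟩

/-- the set of the classes of the principal frequencies -/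
theorem exists_Kf {P : DPar} (hP : P.OK) (s : Eis) :
    ∃ Kf : Finset Eis, (∀ k₀ ∈ Kf, IsPrim k₀ ∧ CbF k₀) ∧
      (s ≠ 0 → ∀ k, IsPrim k → ¬ P.NP2 (s * k) → ∃ k₀ ∈ Kf, Ck k₀ k) := by
  by_cases hs : s = 0
  · exact ⟨∅, fun _ h => absurd h (notMem_empty _), fun h => absurd hs h⟩
  obtain ⟨K1, h1, h1'⟩ := exists_cls (P := fun k => ¬ NPk P.n P.φ P.l₁ k) hs
    (BoxP271.principal_form hP.φ P.l₁)
  obtain ⟨K2, h2, h2'⟩ := exists_cls (P := fun k => ¬ NPm P.n P.ψ P.l₂ k) hs (by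
    obtain ⟨n₀, hn₀, H⟩ := BoxP271.principal_form hP.ψ.conj P.l₂
    exact ⟨n₀, hn₀, fun k hk hk' => H k hk (BoxP271.npk_of_npm hk')⟩)
  refine ⟨K1 ∪ K2, fun k₀ hk₀ => ?_, fun _ k hk hn => ?_⟩
  · rcases mem_union.1 hk₀ with h | h
    · exact h1 k₀ h
    · exact h2 k₀ h
  · have hn' : ¬ NPk P.n P.φ P.l₁ (s * k) ∨ ¬ NPm P.n P.ψ P.l₂ (s * k) := by
      by_contra hcon
      push Not at hcon
      exact hn hcon
    rcases hn' with h | h
    · obtain ⟨k₀, h3, h4⟩ := h1' k hk h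
      exact ⟨k₀, mem_union_left _ h3, h4⟩
    · obtain ⟨k₀, h3, h4⟩ := h2' k hk h
      exact ⟨k₀, mem_union_right _ h3, h4⟩

variable {Λ : Type*}

/-- the classes -/
def Kcl (π : Λ → DPar) (lam : Λ × Eis) : Finset Eis :=
  if h : (π lam.1).OK then Classical.choose (exists_Kf h lam.2) else ∅

lemma Kcl_prim {π : Λ → DPar} (lam : Λ × Eis) {k₀ : Eis} (h : k₀ ∈ Kcl π lam) :
    IsPrim k₀ ∧ CbF k₀ := by
  unfold Kcl at h
  split_ifs at h with hP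
  · exact (Classical.choose_spec (exists_Kf hP lam.2)).1 k₀ h
  · exact absurd h (notMem_empty _)

lemma Kcl_disj {π : Λ → DPar} (lam : Λ × Eis) : ∀ k₀ ∈ Kcl π lam, ∀ k₁ ∈ Kcl π lam, ∀ k,
    Ck k₀ k → Ck k₁ k → k₀ = k₁ := fun k₀ h₀ k₁ h₁ k hk hk' =>
  ck_unique (Kcl_prim lam h₀).1 (Kcl_prim lam h₁).1 (Kcl_prim lam h₀).2 (Kcl_prim lam h₁).2 hk hk'

lemma Kcl_np {π : Λ → DPar} (hP : ∀ lam, (π lam).OK) (lam : Λ × Eis) (hs : lam.2 ≠ 0) :
    ∀ k, IsPrim k → ¬ (π lam.1).NP2 (lam.2 * k) → ∃ k₀ ∈ Kcl π lam, Ck k₀ k := by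
  unfold Kcl
  rw [dif_pos (hP lam.1)]
  exact (Classical.choose_spec (exists_Kf (hP lam.1) lam.2)).2 hs

end Crest.Agent.R017.ETi548
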