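import Crest.Agent.R017.ETh_548
import Crest.Agent.R017.ETi_548
import Crest.Agent.R017.FrS_829
import Crest.Agent.R017.E2G_764

/-!
# Row 17, exceptional class (helper548): the compensated cross tail, the two instances

* `prFrame_alS` : `PrFrame` for the single lists from `frS`
* **`etX_of`**, **`etS_of`** : `EtGeU` for the differences and for the single lists from the
  character sums `CsGU` and the Gram sums `GkGU`
-/

set_option autoImplicit false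
set_option linter.unusedSectionVars false
set_option linter.unusedVariables false

noncomputable section

open Finset
open scoped ComplexConjugate Classical

namespace Crest.Agent.R017.ETj548

open Crest.Agent.R012 Crest.Agent.R012.Eis Crest.Agent.R012.MC
open Crest.Agent.R012.LS2 (S mem_S)
open Crest.Agent.R017.CM106 (CS FS)
open Crest.Agent.R017.B770
open Crest.Agent.R017.HP842 (Pc pc sqc alL)
open Crest.Agent.R017.FE47 (PU cx SM)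
open Crest.Agent.R017.Leg381 (Pf alF natl)
open Crest.Agent.R017.XG702 (Pcs)
open Crest.Agent.R017.Prov71
open Crest.Agent.R017.I1146 (LN Dom dom_list)
open Crest.Agent.R017.I1K764
open Crest.Agent.R017.XT71 (Sys Win mx)
open Crest.Agent.R017.E5B71 Crest.Agent.R017.E5P571 Crest.Agent.R017.E5L770
open Crest.Agent.R017.ExBox960 Crest.Agent.R017.ExP960
open Crest.Agent.R017.Sf770
open Crest.Agent.R017.P1e54 Crest.Agent.R017.P1f54 Crest.Agent.R017.P1k54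
open Crest.Agent.R017.P1l54 (ParOK)
open Crest.Agent.R017.P1X960
open Crest.Agent.R017.Sup271 (NPm)
open Crest.Agent.R017.PX764 (Dk)
open Crest.Agent.R017.P10X764
open Crest.Agent.R017.FrX579
open Crest.Agent.R017.FrS829 (frS ShSl)
open Crest.Agent.R017.E3N146 (ShT)
open Crest.Agent.R017.E3Nx744 (CBA)
open Crest.Agent.R017.TNj90 (JBc)
open Crest.Agent.R017.E1551 (Adm nmpos)
open Crest.Agent.R017.TM708 (eF eH R5)
open Crest.Agent.R017.ETd548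
open Crest.Agent.R017.ETe548
open Crest.Agent.R017.ETg548
open Crest.Agent.R017.ETh548
open Crest.Agent.R017.ETi548

variable {Λ : Type*}

lemma ShSl_le (lm : ℝ) (a : BcX) (qs : List Pq) (g b v : ℝ) :
    ShSl lm a qs g b v ≤ max (eH (k5X a + b / 2) (v + b) (LN (clN a qs) - g - b) + lm)
      (5 / 3 * LN (clN a qs) + 2 / 3 * (v + b) - 5 / 3 * (g + b)) := by
  unfold FrS829.ShSl P10X764.shB
  refine max_le_max ?_ ?_
  · unfold E3N146.ShT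
    exact add_le_add (min_le_left _ _) le_rfl
  · unfold bcx
    have := le_max_left 0 (0 - (g + b))
    linarith

set_option maxHeartbeats 1000000 in
/-- **the frame of the principal part for the single lists** -/
theorem prFrame_alS {π : Λ → DPar} {h : ℝ → ℝ} {c₀ : ℝ} (hpu : PU h c₀) (hP : ∀ lam, (π lam).OK)
    {Rh : ℝ} (hRh0 : 0 ≤ Rh) (hRh : ∀ u, cx h u ≠ 0 → |u| ≤ Rh)
    {c β : ℝ} (hc0 : 0 ≤ c) (hc1 : c ≤ 1)
    {Par : Set (Fin 3 ⊕ Fin 5 → ℝ)} (hPar : ∀ p ∈ Par, ParOK p)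
    {D5 : Set (Fin 5 → ℝ)} {ℓ Kf Tf : (Fin 5 → ℝ) → ℝ}
    (hDN : ∀ p : IX5 → ℝ, prX p ∈ Par → ZR β p → bN p ∈ D5)
    (hDR : ∀ p : IX5 → ℝ, prX p ∈ Par → ZR β p → bR p ∈ D5)
    (hR5 : ∀ p : IX5 → ℝ, prX p ∈ Par → ZR β p → R5 (bN p))
    (hKN : ∀ p : IX5 → ℝ, prX p ∈ Par → ZR β p →
      Kf (bN p) = max (cκ (prX p)) (5 / 4 * cN (prX p)))
    (hKR : ∀ p : IX5 → ℝ, prX p ∈ Par → ZR β p →
      Kf (bR p) = max (cκ (prX p)) (5 / 4 * cN (prX p)))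
    (hTN : ∀ (p : IX5 → ℝ) (v₀ v₁ v₂ b x' : ℝ), ChC c β Par p v₀ v₁ v₂ b x' →
      SinL β p v₀ v₁ v₂ → tpW c p b ≤ Tf (bN p))
    (hTR : ∀ (p : IX5 → ℝ) (v₀ v₁ v₂ b x' : ℝ), ChC c β Par p v₀ v₁ v₂ b x' →
      SinL β p v₀ v₁ v₂ → tpW c p b ≤ Tf (bR p))
    (hcb : CBA π h Dk Kf Tf D5 ℓ) {L0 : (Fin 3 ⊕ Fin 5 → ℝ) → ℝ}
    (hL0 : ∀ p : IX5 → ℝ, prX p ∈ Par → ZR β p →
      max 0 (5 / 4 * cN (prX p) - cκ (prX p)) + lmX ℓ Kf Tf p ≤ L0 (prX p)) :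
    PrFrame (alS π h) (fun lam a qs => okCX (π lam.1) lam.2 a qs) c β Par (SinL β) L0 := by
  intro t₀ ε ht₀ hε
  obtain ⟨δ, hδ, H⟩ := frS hpu hP hRh0 hRh (e0 := 0) le_rfl zero_le_one hc0 hc1 hPar hDN hDR hR5
    hKN hKR hTN hTR hcb hε ht₀
  refine ⟨δ, hδ, fun lam N B => ?_⟩
  obtain ⟨B₂, J, R', hB₂, hJ, hR', δ', hδ', X₀, hX₀, H⟩ := H lam N B 1 le_rfl
  have hB₂0 : 0 < B₂ := by linarith
  have hε2 : 0 < ε / 2 := by positivity
  obtain ⟨C, hC, HC⟩ := norm_alF_pow hpu (N + 3) hε2 hB₂0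
  set Q : ℝ := 2 * (2 * C + 1) / ε with hQ
  refine ⟨B₂, J, R', hB₂, hJ, hR', δ', hδ', max X₀ (Real.exp Q),
    lt_of_lt_of_le hX₀ (le_max_left _ _), ?_⟩
  intro X hX a qs hlen hgl q hq hw hm hg hl hok
  have hX1' : X₀ ≤ X := (le_max_left _ _).trans hX
  have hXQ : Real.exp Q ≤ X := (le_max_right _ _).trans hX
  have HF := H X hX1' a qs hlen hgl q hq hw hm hg hl hok
  have hX3 := HF.X3
  have hX0 : 0 < X := by linarith
  have hL0' : 0 ≤ Real.log X := Real.log_nonneg (by linarith)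
  have hadm := HF.adm
  have hY0 : 0 ≤ YcX Rh a qs := by have := HF.Y1; linarith
  have hCX : 2 * C ≤ X ^ (ε / 2) := by
    have h1 : Q ≤ Real.log X := by
      have := Real.log_le_log (Real.exp_pos Q) hXQ
      rwa [Real.log_exp] at this
    rw [hQ, div_le_iff₀ hε] at h1
    rw [Real.rpow_def_of_pos hX0]
    have h2 := Real.add_one_le_exp (Real.log X * (ε / 2))
    linarith
  obtain ⟨hbok, hsm, hlmp, hamq, hb0⟩ := hok
  have hdom := dom_list (hP lam.1) h hsm 1 (clN a qs)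
  have hsup : ∀ m, ‖alS π h lam a qs m‖ ≤ X ^ ε := by
    intro m
    by_cases h0 : alS π h lam a qs m = 0
    · rw [h0, norm_zero]
      positivity
    obtain ⟨m1, m2, -⟩ := (mem_S hY0).1 (hadm.sup m h0)
    have h1 : ‖alS π h lam a qs m‖ ≤ ‖sqc 1 (alF 1 1 (π lam.1) h (natl (clN a qs))) m‖ :=
      hdom.le m
    have h2 : ‖sqc 1 (alF 1 1 (π lam.1) h (natl (clN a qs))) m‖ ≤ C * X ^ (ε / 2) := by
      refine HC X hX3 (π lam.1) (hP lam.1) 1 _ ?_ m m2.ne_zero (m1.trans HF.YX)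
      unfold Leg381.natl clN
      simp only [List.length_map, List.length_append, List.length_ofFn]
      omega
    have h3 : X ^ ε = X ^ (ε / 2) * X ^ (ε / 2) := by
      rw [← Real.rpow_add hX0]
      congr 1
      ring
    refine h1.trans (h2.trans ?_)
    rw [h3]
    have h4 : 0 ≤ X ^ (ε / 2) := by positivity
    nlinarith
  refine ⟨hX3, HF.kl, HF.nl, HF.n1, ?_, ?_, ?_, hsup, ?_⟩
  · refine HF.yl.trans (add_le_add (mul_le_mul_of_nonneg_right (min_le_left _ _) hL0') le_rfl)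
  · have := HF.yX
    rwa [one_mul] at this
  · refine ⟨(S (YcX Rh a qs)).finite_toSet.subset fun m hm => ?_, fun m hm => ?_⟩
    · exact hadm.sup m hm
    · exact ((mem_S hY0).1 (hadm.sup m hm)).2.1
  · refine ⟨YcX Rh a qs, lmX ℓ Kf Tf (bp q.1), k5X a, ShSl (lmX ℓ Kf Tf (bp q.1) * Real.log X) a qs,
      HF.Y1, HF.YX, le_max_left _ _, hL0 _ hq.1.par hq.1.zr, ?_, fun g b v _ _ _ => ShSl_le _ _ _ _ _ _,
      ?_, hadm⟩
    · have hk := HF.kl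
      have hA := HF.Al
      obtain ⟨k1, k2⟩ := abs_le.1 hk
      obtain ⟨A1, A2⟩ := abs_le.1 hA
      have ht : 0 ≤ t₀ * Real.log X := by positivity
      rw [max_mul_of_nonneg _ _ hL0']
      unfold P10X764.k5X
      refine max_le ?_ ?_
      · have := le_max_left (cκ (prX (bp q.1)) * Real.log X)
          (5 / 4 * cN (prX (bp q.1)) * Real.log X)
        linarith
      · have := le_max_right (cκ (prX (bp q.1)) * Real.log X)
          (5 / 4 * cN (prX (bp q.1)) * Real.log X)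
        linarith
    · have := HF.jb
      rwa [one_mul] at this

/-! ### primary support (241's lemmas) -/

lemma sq_prim {P : DPar} {s m : Eis} {h : ℝ → ℝ} {ps : List Pq} {n : Eis}
    (hn : sqc m (alL h (ps.map (Pt P s))) n ≠ 0) : IsPrim n := by
  rw [I1146.alL_tw] at hn
  have h1 : I1146.tw3 s (alL h (ps.map (Pq.pc P))) n ≠ 0 := right_ne_zero_of_mul hn
  unfold I1146.tw3 at h1
  refine I1146.alL_prim (P := P) (h := h) (ps := ps) fun h0 => h1 ?_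
  rw [h0]
  simp

lemma alX_prim {π : Λ → DPar} {h : ℝ → ℝ} {lam : Λ × Eis} {a : BcX} {qs : List Pq}
    {n : Eis} (hn : alX π h lam a qs n ≠ 0) : IsPrim n := by
  by_contra hp
  apply hn
  have e1 : sqc 1 (alL h ((List.ofFn a.2.1 ++ qs).map (Pt (π lam.1) lam.2))) n = 0 := by
    by_contra h1
    exact hp (sq_prim h1)
  have e2 : sqc 1 (alL h ((List.ofFn (rzD a.2.1 (dz a.1)) ++ qs).map (Pt (π lam.1) lam.2))) n
      = 0 := by
    by_contra h1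
    exact hp (sq_prim h1)
  show (oc a.2.1 (a.2.1 0).z (a.2.1 1).z) *
      sqc 1 (alL h ((List.ofFn a.2.1 ++ qs).map (Pt (π lam.1) lam.2))) n +
    (-oc a.2.1 ((a.2.1 0).z - dz a.1) ((a.2.1 1).z + dz a.1)) *
      sqc 1 (alL h ((List.ofFn (rzD a.2.1 (dz a.1)) ++ qs).map (Pt (π lam.1) lam.2))) n = 0
  rw [e1, e2, mul_zero, mul_zero, add_zero]

lemma alS_prim {π : Λ → DPar} {h : ℝ → ℝ} {lam : Λ × Eis} {a : BcX} {qs : List Pq}
    {n : Eis} (hn : alS π h lam a qs n ≠ 0) : IsPrim n := sq_prim hn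

/-! ### the two instances -/

/-- **compensated cross tail of the differences** -/
theorem etX_of {π : Λ → DPar} {h : ℝ → ℝ} {c₀ : ℝ} (hpu : PU h c₀) (hP : ∀ lam, (π lam).OK)
    (hex : ∀ lam, ¬ NPm (π lam).n (π lam).ψ (π lam).l₂ 1)
    {Rh : ℝ} (hRh0 : 0 ≤ Rh) (hRh : ∀ u, cx h u ≠ 0 → |u| ≤ Rh)
    {e0 : ℝ} (he0 : 0 ≤ e0) (he1 : e0 ≤ 1 / 20) {c β : ℝ} (hc0 : 0 ≤ c) (hc1 : c ≤ 1)
    {Par : Set (Fin 3 ⊕ Fin 5 → ℝ)} (hPar : ∀ p ∈ Par, ParOK p)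
    {D5 : Set (Fin 5 → ℝ)} {ℓ Kf Tf : (Fin 5 → ℝ) → ℝ}
    (hDN : ∀ p : IX5 → ℝ, prX p ∈ Par → ZR β p → bN p ∈ D5)
    (hDR : ∀ p : IX5 → ℝ, prX p ∈ Par → ZR β p → bR p ∈ D5)
    (hR5 : ∀ p : IX5 → ℝ, prX p ∈ Par → ZR β p → R5 (bN p))
    (hKN : ∀ p : IX5 → ℝ, prX p ∈ Par → ZR β p →
      Kf (bN p) = max (cκ (prX p)) (5 / 4 * cN (prX p)))
    (hKR : ∀ p : IX5 → ℝ, prX p ∈ Par → ZR β p →
      Kf (bR p) = max (cκ (prX p)) (5 / 4 * cN (prX p)))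
    (hTN : ∀ (p : IX5 → ℝ) (v₀ v₁ v₂ b x' : ℝ), ChC c β Par p v₀ v₁ v₂ b x' →
      DifL p v₀ v₁ v₂ → tpW c p b ≤ Tf (bN p))
    (hTR : ∀ (p : IX5 → ℝ) (v₀ v₁ v₂ b x' : ℝ), ChC c β Par p v₀ v₁ v₂ b x' →
      DifL p v₀ v₁ v₂ → tpW c p b ≤ Tf (bR p))
    (hcb : CBA π h Dk Kf Tf D5 ℓ) {L0 : (Fin 3 ⊕ Fin 5 → ℝ) → ℝ}
    (hL0 : ∀ p : IX5 → ℝ, prX p ∈ Par → ZR β p →
      max 0 (5 / 4 * cN (prX p) - cκ (prX p)) + lmX ℓ Kf Tf p ≤ L0 (prX p))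
    {et : BcX → List Pq → ℕ → ℝ} (het0 : ∀ a qs j, 0 ≤ et a qs j)
    (het : ∀ a qs j, 0 ≤ a.1.l → et a qs j ≤
      3 / 20 * a.1.l + max 0 (2 * LN (clN a qs) - a.1.l - Real.log 2 * j))
    {CE : (I8X ⊕ Unit → ℝ) × (Kd → ℝ) → ℝ}
    (hcs : CsGU π (alX π h) (fun lam a qs => okCX (π lam.1) lam.2 a qs ∧ okD a) c β Par DifL CE)
    (hgk : GkGU (alX π h) (fun lam a qs => okCX (π lam.1) lam.2 a qs ∧ okD a) e0 c β Par DifL
      (fun q => RoomX L0 q - CE q)) :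
    E2G764.EtGeU (alX π h) (fun lam a qs => okCX (π lam.1) lam.2 a qs ∧ okD a) e0 c et β Par
      DifL L0 :=
  etGt_of (Kf := Kcl π) het0 hPar (fun _ _ _ _ _ hn => alX_prim hn)
    (fun lam a qs hok => Kcl_np hP lam hok.1.2.1.1) hcs hgk
    (prGt_of he0 he1 het0 het hPar hR5 (fun lam k₀ h₀ => (Kcl_prim lam h₀).1)
      (fun lam => Kcl_disj lam)
      (prFrame_alX hpu hP hex hRh0 hRh hc0 hc1 hPar hDN hDR hR5 hKN hKR hTN hTR hcb hL0))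

/-- **compensated cross tail of the single lists** -/
theorem etS_of {π : Λ → DPar} {h : ℝ → ℝ} {c₀ : ℝ} (hpu : PU h c₀) (hP : ∀ lam, (π lam).OK)
    {Rh : ℝ} (hRh0 : 0 ≤ Rh) (hRh : ∀ u, cx h u ≠ 0 → |u| ≤ Rh)
    {e0 : ℝ} (he0 : 0 ≤ e0) (he1 : e0 ≤ 1 / 20) {c β : ℝ} (hc0 : 0 ≤ c) (hc1 : c ≤ 1)
    {Par : Set (Fin 3 ⊕ Fin 5 → ℝ)} (hPar : ∀ p ∈ Par, ParOK p)
    {D5 : Set (Fin 5 → ℝ)} {ℓ Kf Tf : (Fin 5 → ℝ) → ℝ}
    (hDN : ∀ p : IX5 → ℝ, prX p ∈ Par → ZR β p → bN p ∈ D5)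
    (hDR : ∀ p : IX5 → ℝ, prX p ∈ Par → ZR β p → bR p ∈ D5)
    (hR5 : ∀ p : IX5 → ℝ, prX p ∈ Par → ZR β p → R5 (bN p))
    (hKN : ∀ p : IX5 → ℝ, prX p ∈ Par → ZR β p →
      Kf (bN p) = max (cκ (prX p)) (5 / 4 * cN (prX p)))
    (hKR : ∀ p : IX5 → ℝ, prX p ∈ Par → ZR β p →
      Kf (bR p) = max (cκ (prX p)) (5 / 4 * cN (prX p)))
    (hTN : ∀ (p : IX5 → ℝ) (v₀ v₁ v₂ b x' : ℝ), ChC c β Par p v₀ v₁ v₂ b x' →
      SinL β p v₀ v₁ v₂ → tpW c p b ≤ Tf (bN p))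
    (hTR : ∀ (p : IX5 → ℝ) (v₀ v₁ v₂ b x' : ℝ), ChC c β Par p v₀ v₁ v₂ b x' →
      SinL β p v₀ v₁ v₂ → tpW c p b ≤ Tf (bR p))
    (hcb : CBA π h Dk Kf Tf D5 ℓ) {L0 : (Fin 3 ⊕ Fin 5 → ℝ) → ℝ}
    (hL0 : ∀ p : IX5 → ℝ, prX p ∈ Par → ZR β p →
      max 0 (5 / 4 * cN (prX p) - cκ (prX p)) + lmX ℓ Kf Tf p ≤ L0 (prX p))
    {et : BcX → List Pq → ℕ → ℝ} (het0 : ∀ a qs j, 0 ≤ et a qs j)
    (het : ∀ a qs j, 0 ≤ a.1.l → et a qs j ≤
      3 / 20 * a.1.l + max 0 (2 * LN (clN a qs) - a.1.l - Real.log 2 * j))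
    {CE : (I8X ⊕ Unit → ℝ) × (Kd → ℝ) → ℝ}
    (hcs : CsGU π (alS π h) (fun lam a qs => okCX (π lam.1) lam.2 a qs) c β Par (SinL β) CE)
    (hgk : GkGU (alS π h) (fun lam a qs => okCX (π lam.1) lam.2 a qs) e0 c β Par (SinL β)
      (fun q => RoomX L0 q - CE q)) :
    E2G764.EtGeU (alS π h) (fun lam a qs => okCX (π lam.1) lam.2 a qs) e0 c et β Par
      (SinL β) L0 :=
  etGt_of (Kf := Kcl π) het0 hPar (fun _ _ _ _ _ hn => alS_prim hn)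
    (fun lam a qs hok => Kcl_np hP lam hok.2.1.1) hcs hgk
    (prGt_of he0 he1 het0 het hPar hR5 (fun lam k₀ h₀ => (Kcl_prim lam h₀).1)
      (fun lam => Kcl_disj lam)
      (prFrame_alS hpu hP hRh0 hRh hc0 hc1 hPar hDN hDR hR5 hKN hKR hTN hTR hcb hL0))

end Crest.Agent.R017.ETj548
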