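import Crest.Agent.R017.R4f_571
import Crest.Agent.R017.HBs_445

/-!
# Row 17, E3: (RH) for one natural family (helper571)

* `RH_nat` : (RH) for all `P`, `sqc q (al h (fun i => (j i).pc))`
-/

set_option autoImplicit false
set_option maxHeartbeats 400000

noncomputable section

open Complex MeasureTheory
open scoped ComplexConjugate

namespace Crest.Agent.R017.R3571

open Crest.Agent.R012 Crest.Agent.R012.Eis Crest.Agent.R012.MC
open Crest.Agent.R012.LS2 (S mem_S bl mem_bl)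
open Crest.Agent.R012.Weight600 (pw norm_pw pw_add_left)
open Crest.Agent.R017.CM106 (CS TG FS)
open Crest.Agent.R017.FE47
open Crest.Agent.R017.B770
open Crest.Agent.R017.Prov71
open Crest.Agent.R017.HP842 (sqc)
open Crest.Agent.R017.TPOk571 (IP)
open Crest.Agent.R017.TP320 (tw)
open Crest.Agent.R017.XHB411 (tl)
open Crest.Agent.R017.XRG106 (Rl RFp)
open Crest.Agent.R017.NtC320 (gC gC_ne gC_fin cg cB cg_prim cB_prim gp_cg gp_cB cB_dvd cg_dvd cop)
open Crest.Agent.R017.StA828 (gp)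
open Crest.Agent.R017.E1551 (jb jb_pos)
open Crest.Agent.R017.PX764 (n6)
open Crest.Agent.R017.E3D579 (n6_nonneg)
open Crest.Agent.R017.Leg381 (Pf alF LF alF_get LF_get)
open Crest.Agent.R017.Win813 (WK wn iA iA_nonneg)
open Crest.Agent.R017.RGw813 (bt)
open Crest.Agent.R017.Mode405 (Slp)

lemma sum_sqc_al {h : ℝ → ℝ} {c : ℝ} (hpu : PU h c) (r : ℕ) : ∃ C : ℝ, 1 ≤ C ∧
    ∀ (s : Fin r → HP842.Pc), (∀ i, (s i).OK) → ∀ (q : Eis) (Y : ℝ), 1 ≤ Y →
      ∑ n ∈ S Y, ‖sqc q (HP842.al h s) n‖ ≤ C * Y ^ 2 := by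
  obtain ⟨A, hA1, hA⟩ := AL813.cx_bdd hpu
  set ε : ℝ := 1 / (r + 1) with hε
  have hr0 : (0 : ℝ) ≤ r := Nat.cast_nonneg _
  have hε0 : 0 < ε := by positivity
  obtain ⟨C, hC, hτ⟩ := Div277.tau_le_rpow hε0
  refine ⟨16 * (C ^ r * A ^ r), ?_, ?_⟩
  · have h1 : 1 ≤ A ^ r := one_le_pow₀ hA1
    have h2 : 1 ≤ C ^ r := one_le_pow₀ hC
    nlinarith [one_le_mul_of_one_le_of_one_le h2 h1]
  intro s hs q Y hY
  have hY0 : 0 < Y := by linarith
  have hb : ∀ n ∈ S Y, ‖sqc q (HP842.al h s) n‖ ≤ C ^ r * A ^ r * Y := by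
    intro n hn
    obtain ⟨h1, h2, -⟩ := (mem_S hY0.le).1 hn
    have hnp := nm_cast_pos h2.ne_zero
    refine ((HBs445.norm_sqc_le q _ n).trans (HBs445.norm_al_le hA hs n)).trans ?_
    rw [Fintype.card_fin]
    have h5 : (Div277.tau n : ℝ) ≤ C * Y ^ ε :=
      (hτ n h2.ne_zero).trans (mul_le_mul_of_nonneg_left (Real.rpow_le_rpow hnp.le h1 hε0.le)
        (by linarith))
    have h6 : (Div277.tau n : ℝ) ^ r ≤ C ^ r * Y := by
      calc (Div277.tau n : ℝ) ^ r ≤ (C * Y ^ ε) ^ r :=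
            pow_le_pow_left₀ (Nat.cast_nonneg _) h5 _
        _ = C ^ r * (Y ^ ε) ^ r := by rw [mul_pow]
        _ ≤ C ^ r * Y := by
            refine mul_le_mul_of_nonneg_left ?_ (by positivity)
            rw [← Real.rpow_natCast, ← Real.rpow_mul hY0.le]
            calc Y ^ (ε * r) ≤ Y ^ (1 : ℝ) := by
                  refine Real.rpow_le_rpow_of_exponent_le hY ?_
                  rw [hε, one_div, inv_mul_le_iff₀ (by positivity)]
                  linarith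
              _ = Y := Real.rpow_one Y
    calc (Div277.tau n : ℝ) ^ r * A ^ r ≤ (C ^ r * Y) * A ^ r := by gcongr
      _ = _ := by ring
  calc ∑ n ∈ S Y, ‖sqc q (HP842.al h s) n‖ ≤ ∑ n ∈ S Y, C ^ r * A ^ r * Y :=
        Finset.sum_le_sum hb
    _ = ((S Y).card : ℝ) * (C ^ r * A ^ r * Y) := by
        rw [Finset.sum_const, nsmul_eq_mul]
    _ ≤ 16 * Y * (C ^ r * A ^ r * Y) := by
        have hc := GLS106.card_S_le hY
        exact mul_le_mul_of_nonneg_right hc (by positivity)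
    _ = _ := by ring

open Classical in
/-- **(RH) for all `P`** with the two-slope function, one natural family below `s` -/
theorem RH_nat {h : ℝ → ℝ} {c : ℝ} (hpu : PU h c) {μ : ℝ} (hμ : 0 ≤ μ) (r : ℕ) {δ : ℝ}
    (hδ : 0 < δ) (m : ℝ) :
    ∃ a : ℕ, 1 ≤ a ∧ ∀ ε : ℝ, 0 < ε →
    ∃ C : ℝ, 1 ≤ C ∧ ∀ (P : DPar), P.OK → ∀ s : Fin r → Pq, (∀ i, 0 ≤ (s i).z) →
      ∀ j : Fin r → IP, Below P 0 j s → (∀ i, (j i).s = 0) →
      ∀ q d e f : Eis, q ≠ 0 → IsPrim d → IsPrim e → f ≠ 0 →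
      ∀ X0 : ℝ, 1 ≤ X0 → (nm q : ℝ) ≤ X0 → (nm d : ℝ) ≤ X0 → (nm e : ℝ) ≤ X0 →
      (∀ i, Real.exp (s i).z ≤ X0) →
      ∀ (J : ℕ), 2 * (r * μ) ≤ J → ∀ (A : ℝ), (J : ℝ) + 2 ≤ A →
      ∀ P1 B : ℝ, 0 < P1 → P1 ≤ X0 ^ m → 1 ≤ B →
      (∀ Λ : ℝ, 1 ≤ Λ → Λ ≤ P1 * X0 ^ δ →
        ∀ (s' : Fin r → Pq) (W : ℝ), 1 ≤ W → (∀ i, Rl C W (s' i) (s i)) →
        tl Dq (List.ofFn s') ≤ ∑ i, (j i).z - Real.log (nm d * nm e) + C →
        RFp P h (Real.log (Λ * nm f)) (List.ofFn s') ≤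
          (Λ / (P1 * X0 ^ δ)) ^ (1 / 3 : ℝ) * B * Real.exp (tl Dq (List.ofFn s')) *
            W ^ (2 * μ)) →
      ∀ γ π : Eis, IsPrim γ → IsPrim π → (nm π : ℝ) ≤ X0 → ∀ Λ : ℝ, 0 < Λ →
      (nm γ : ℝ) * n6 γ ^ 2 * ∑ k ∈ bl Λ, RMm A
          (fun m => sqc q (HP842.al h (fun i => (j i).pc)) (d * m)) e γ π (k * f) ≤
        W2 a P1 (C * X0 ^ ε * B *
          (Real.exp (∑ i, (j i).z) / nm d) ^ (2 / 3 : ℝ)) Λ := by
  classical
  obtain ⟨R, hR0, hR⟩ := exists_R (cs_cx hpu.cs)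
  obtain ⟨C1, hC1, hsum⟩ := sum_sqc_al hpu r
  have hn0 : (0 : ℝ) ≤ r := Nat.cast_nonneg r
  obtain ⟨a0, ha0⟩ := exists_nat_ge ((5 * r + m + 1) / δ)
  refine ⟨a0 + 1, by omega, fun ε hε => ?_⟩
  set ε' : ℝ := ε / (r + 1) with hε'
  have hε'0 : 0 < ε' := by positivity
  obtain ⟨C2, hC2, hmom⟩ := natG hpu hμ (1 / 6) r hε'0
  have hjc := jc_nonneg
  set ER : ℝ := Real.exp (r * R) with hERd
  have hER : 1 ≤ ER := Real.one_le_exp (by positivity)
  have hERe : 1 ≤ ER ^ ε' := Real.one_le_rpow hER hε'0.le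
  set C3 : ℝ := C2 * ER ^ ε' + 16 * (C1 ^ 2 * ER ^ 6) with hC3
  have hC30 : 0 ≤ 16 * (C1 ^ 2 * ER ^ 6) := by positivity
  have hC20 : 1 ≤ C2 * ER ^ ε' := one_le_mul_of_one_le_of_one_le hC2 hERe
  have hC31 : 1 ≤ C3 := by rw [hC3]; linarith
  refine ⟨C3 * (1 + jc), one_le_mul_of_one_le_of_one_le hC31 (by linarith), ?_⟩
  have hCC : C2 ≤ C3 * (1 + jc) := by
    calc C2 ≤ C2 * ER ^ ε' := le_mul_of_one_le_right (by linarith) hERe
      _ ≤ C3 := by rw [hC3]; linarith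
      _ ≤ C3 * (1 + jc) := le_mul_of_one_le_right (by linarith) (by linarith)
  intro P hP s hs j hj hjs q d e f hq hd he hf X0 hX0 hqX hdX heX hsX J hJ A hA P1 B hP1
    hP1X hB hyp γ π hγ hπ hπX Λ hΛ
  have hX00 : 0 < X0 := by linarith
  have hd0 := nm_cast_pos hd.ne_zero
  have hB0 : 0 ≤ B := by linarith
  set al : Eis → ℂ := sqc q (HP842.al h (fun i => (j i).pc)) with hal
  have hOK : ∀ i, ((j i).pc).OK := fun i => (j i).pc_OK
  have hFS : FS al := HP842.FS.sqc (HP842.FS_cv fun i => HP842.FS_pc hR (hOK i)) q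
  set E : ℝ := Real.exp (∑ i, (j i).z) with hE
  have hE0 : 0 < E := Real.exp_pos _
  have hprod : ∏ i, (((fun i => (j i).pc) i).Y * Real.exp R) = E * ER := by
    have e1 : ∀ i : Fin r, (((fun i => (j i).pc) i).Y * Real.exp R) =
        Real.exp ((j i).z) * Real.exp R := fun i => rfl
    rw [Finset.prod_congr rfl fun i _ => e1 i, Finset.prod_mul_distrib, ← Real.exp_sum,
      Finset.prod_const, Finset.card_univ, Fintype.card_fin, ← Real.exp_nat_mul]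
  have hEX : E ≤ X0 ^ r := by
    rw [hE, Real.exp_sum]
    calc ∏ i, Real.exp (j i).z ≤ ∏ _i : Fin r, X0 := by
          refine Finset.prod_le_prod (fun i _ => (Real.exp_pos _).le) fun i _ => ?_
          refine le_trans (Real.exp_le_exp.2 ?_) (hsX i)
          have := hj.z i
          linarith
      _ = X0 ^ r := by rw [Finset.prod_const, Finset.card_univ, Fintype.card_fin]
  set Y : ℝ := X0 ^ r * ER with hY
  have hX1n : 1 ≤ X0 ^ r := one_le_pow₀ hX0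
  have hY1 : 1 ≤ Y := one_le_mul_of_one_le_of_one_le hX1n hER
  have hsupp : ∀ n, al n ≠ 0 → IsPrim n ∧ Squarefree n ∧ (nm n : ℝ) ≤ E * ER := by
    intro n hn
    obtain ⟨h1, h2⟩ := HBs445.sqc_ne hn
    obtain ⟨h3, h4⟩ := HBs445.al_ne hR hOK h2
    rw [hprod] at h4
    exact ⟨h3, h1, h4⟩
  have hYS : ∀ n, al n ≠ 0 → n ∈ S Y := by
    intro n hn
    obtain ⟨h1, h2, h3⟩ := hsupp n hn
    rw [mem_S (by linarith)]
    exact ⟨h3.trans (by rw [hY]; gcongr), h1, h2⟩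
  have hG : ∑ k ∈ S Y, ‖al k‖ ≤ C1 * Y ^ 2 := hsum _ hOK q Y hY1
  set X0' : ℝ := X0 ^ ((r : ℝ) + 1) * ER with hX0'
  have hXn : X0 ^ ((r : ℝ) + 1) = X0 ^ r * X0 := by
    rw [Real.rpow_add_one hX00.ne', Real.rpow_natCast]
  have hXX : X0 ≤ X0' := by
    rw [hX0', hXn]
    calc X0 = 1 * X0 * 1 := by ring
      _ ≤ X0 ^ r * X0 * ER := by gcongr
  have hXe : X0' ^ ε' = X0 ^ ε * ER ^ ε' := by
    rw [hX0', Real.mul_rpow (by positivity) (by positivity), ← Real.rpow_mul hX00.le]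
    congr 2
    rw [hε']; field_simp
  set Bb : ℝ := C3 * X0 ^ ε * B with hBb
  have hBb0 : 0 ≤ Bb := by positivity
  have hXδ : 1 ≤ X0 ^ δ := Real.one_le_rpow hX0 hδ.le
  have hW1n : 0 ≤ C3 * (1 + jc) * X0 ^ ε * B * (E / nm d) ^ (2 / 3 : ℝ) := by positivity
  by_cases hE1 : 1 ≤ E * ER
  swap
  · -- the sequence vanishes
    push Not at hE1
    have hz : ∀ n, al n = 0 := by
      intro n
      by_contra h0
      obtain ⟨h1, -, h3⟩ := hsupp n h0
      have := one_le_nm h1.ne_zero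
      linarith
    have h1 : ∑ k ∈ bl Λ, RMm A (fun m => al (d * m)) e γ π (k * f) = 0 :=
      Finset.sum_eq_zero fun k _ => RMm_zero fun m => hz _
    rw [h1, mul_zero]
    exact (slp_two (by omega) hP1 hW1n).nonneg Λ hΛ
  have hmain := RH_gen (A := A) (J := J) hA hFS (f := f) hd he (Y := Y) (Xπ := X0)
    (E := E) (by linarith) hYS hG hE0 (P1 := P1) (P2 := P1 * X0 ^ δ)
    (B := Bb) (a := a0 + 1) (by omega) hP1 (le_mul_of_one_le_right hP1.le hXδ) hBb0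
    (fun γ π hγ hπ hγY hπX Λ hΛ1 hΛ2 t => by
      have hΛ0 : 0 < Λ := by linarith
      have hγ0 := nm_cast_pos hγ.ne_zero
      have hγ1 := one_le_nm hγ.ne_zero
      have he1 := one_le_nm he.ne_zero
      have hcBp : IsPrim (cB γ e) := cB_prim he
      have hcB1 := one_le_nm hcBp.ne_zero
      have hdγ : IsPrim (d * γ) := hd.mul hγ
      have hnd : (nm (d * γ) : ℝ) = nm d * nm γ := by rw [nm_mul]; push_cast; rfl
      have hcB : (nm e : ℝ) ≤ nm γ * nm (cB γ e) := by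
        have e1 : (nm e : ℝ) = nm (gp γ e) * nm (cB γ e) := by
          have := gp_cB (g := γ) he
          conv_lhs => rw [← this]
          rw [nm_mul]; push_cast; rfl
        have e2 : (nm (gp γ e) : ℝ) ≤ nm γ := by
          have h3 : gp γ e ∣ γ := by
            conv_rhs => rw [← gp_cg (g := γ) he]
            exact dvd_mul_right _ _
          exact_mod_cast Div277.nm_le_of_dvd hγ.ne_zero h3
        rw [e1]
        exact mul_le_mul_of_nonneg_right e2 (Nat.cast_nonneg _)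
      have h1 := hmom P hP s hs j hj hjs q (d * γ) (cB γ e) π f hq hdγ hcBp hπ.ne_zero hf
        X0' Λ t ((Λ / (P1 * X0 ^ δ)) ^ (1 / 3 : ℝ) * B) (hX0.trans hXX)
        (hqX.trans hXX) (by
          rw [hnd, hX0', hXn]
          calc (nm d : ℝ) * nm γ ≤ X0 * (X0 ^ r * ER) := by gcongr
            _ = _ := by ring) ((nm_cB_le' he).trans (heX.trans hXX)) (hπX.trans hXX)
        (fun i => (hsX i).trans hXX) hΛ0 (by positivity) (fun s' W hW hR' hl => by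
          refine hyp Λ hΛ1 hΛ2 s' W hW (fun i => (hR' i).mono hCC) ?_
          have h5 : Real.log (nm d * nm e) ≤ Real.log (nm (d * γ) * nm (cB γ e)) := by
            refine Real.log_le_log (by positivity) ?_
            rw [hnd, mul_assoc]
            exact mul_le_mul_of_nonneg_left hcB hd0.le
          linarith)
      rw [hnd] at h1
      refine h1.trans ?_
      have ht1 : (1 : ℝ) ≤ 1 + |t| := by linarith [abs_nonneg t]
      have h6 : (1 + |t|) ^ (2 * (r * μ)) ≤ (1 + |t|) ^ J := by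
        rw [← Real.rpow_natCast]
        exact Real.rpow_le_rpow_of_exponent_le ht1 hJ
      rw [← hE]
      set V : ℝ := (E / (nm d * nm γ)) ^ (-(2 * (1 / 6 : ℝ))) *
        (E / (nm d * nm γ * nm (cB γ e))) with hV
      have hV0 : 0 ≤ V := by positivity
      have h7 : C2 * ER ^ ε' ≤ C3 := by rw [hC3]; linarith
      calc C2 * X0' ^ ε' * (1 + |t|) ^ (2 * (r * μ)) *
            ((Λ / (P1 * X0 ^ δ)) ^ (1 / 3 : ℝ) * B) * V
          ≤ C2 * X0' ^ ε' * (1 + |t|) ^ J *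
            ((Λ / (P1 * X0 ^ δ)) ^ (1 / 3 : ℝ) * B) * V := by gcongr
        _ = (Λ / (P1 * X0 ^ δ)) ^ (1 / 3 : ℝ) * ((C2 * ER ^ ε') *
            X0 ^ ε * B) * (1 + |t|) ^ J * V := by rw [hXe]; ring
        _ ≤ _ := by
            rw [hBb]
            gcongr) ?_ hγ hπ hπX hΛ
  · refine hmain.trans (W2_mono (a0 + 1) hP1 hΛ ?_)
    rw [hBb]
    have h1 : jc ≤ 1 + jc := by linarith
    calc jc * (C3 * X0 ^ ε * B * (E / nm d) ^ (2 / 3 : ℝ))
        ≤ (1 + jc) * (C3 * X0 ^ ε * B * (E / nm d) ^ (2 / 3 : ℝ)) := by gcongr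
      _ = _ := by ring
  · -- the trivial condition
    have e1 : P1 * X0 ^ δ / P1 = X0 ^ δ := by field_simp
    rw [e1, Nat.add_sub_cancel]
    have h1 : X0 ^ (5 * (r : ℝ) + m + 1) ≤ (X0 ^ δ) ^ a0 := by
      rw [← Real.rpow_natCast, ← Real.rpow_mul hX00.le]
      refine Real.rpow_le_rpow_of_exponent_le hX0 ?_
      rw [div_le_iff₀ hδ] at ha0
      linarith
    have hERi : ER⁻¹ ≤ (ER⁻¹) ^ (2 / 3 : ℝ) := by
      conv_lhs => rw [← Real.rpow_one (ER⁻¹)]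
      exact Real.rpow_le_rpow_of_exponent_ge (by positivity) (inv_le_one_of_one_le₀ hER)
        (by norm_num)
    have h2 : ER⁻¹ * X0 ^ (-(1 : ℝ)) ≤ (E / nm d) ^ (2 / 3 : ℝ) := by
      calc ER⁻¹ * X0 ^ (-(1 : ℝ)) ≤ (ER⁻¹) ^ (2 / 3 : ℝ) * X0 ^ (-(2 / 3 : ℝ)) := by
            refine mul_le_mul hERi (Real.rpow_le_rpow_of_exponent_le hX0 (by norm_num))
              (by positivity) (by positivity)
        _ = (ER⁻¹ / X0) ^ (2 / 3 : ℝ) := by
            rw [Real.div_rpow (by positivity) hX00.le, Real.rpow_neg hX00.le]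
            exact (div_eq_mul_inv _ _).symm
        _ ≤ _ := by
            refine Real.rpow_le_rpow (by positivity) ?_ (by norm_num)
            have : ER⁻¹ ≤ E := by
              rw [inv_le_iff_one_le_mul₀ (by positivity)]; exact hE1
            gcongr
    have h3 : C3 * ER⁻¹ * X0 ^ (5 * (r : ℝ) + m) ≤
        (X0 ^ δ) ^ a0 * (Bb * (E / nm d) ^ (2 / 3 : ℝ)) := by
      have h4 : C3 ≤ Bb := by
        rw [hBb]
        have g2 : 1 ≤ X0 ^ ε := Real.one_le_rpow hX0 hε.le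
        calc C3 = C3 * 1 * 1 := by ring
          _ ≤ _ := by gcongr
      have e2 : X0 ^ (5 * (r : ℝ) + m) = X0 ^ (5 * (r : ℝ) + m + 1) * X0 ^ (-(1 : ℝ)) := by
        rw [← Real.rpow_add hX00]; congr 1; ring
      calc C3 * ER⁻¹ * X0 ^ (5 * (r : ℝ) + m) =
            X0 ^ (5 * (r : ℝ) + m + 1) * (C3 * (ER⁻¹ * X0 ^ (-(1 : ℝ)))) := by rw [e2]; ring
        _ ≤ (X0 ^ δ) ^ a0 * (Bb * (E / nm d) ^ (2 / 3 : ℝ)) := by gcongr
    refine le_trans ?_ h3
    have e3 : X0 ^ (5 * (r : ℝ) + m) = (X0 ^ r) ^ 5 * X0 ^ m := by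
      rw [Real.rpow_add hX00, ← pow_mul, ← Real.rpow_natCast]
      congr 2
      push_cast; ring
    have h5 : 16 * (C1 ^ 2 * ER ^ 5) ≤ C3 * ER⁻¹ := by
      have h6 : 16 * (C1 ^ 2 * ER ^ 6) ≤ C3 := by rw [hC3]; linarith
      calc 16 * (C1 ^ 2 * ER ^ 5) = 16 * (C1 ^ 2 * ER ^ 6) * ER⁻¹ := by
            field_simp
        _ ≤ _ := by gcongr
    calc 16 * (Y * (C1 * Y ^ 2) ^ 2) * P1
        = (16 * (C1 ^ 2 * ER ^ 5)) * (X0 ^ r) ^ 5 * P1 := by
          rw [hY]; ring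
      _ ≤ (C3 * ER⁻¹) * (X0 ^ r) ^ 5 * X0 ^ m := by gcongr
      _ = _ := by rw [e3]; ring

end Crest.Agent.R017.R3571
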