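import Crest.Agent.R017.TEN_792
import Crest.Agent.R017.I1j_146
import Crest.Agent.R017.VFalb_436

/-!
# Row 17, T-numbers : twists (helper792)

* `alb_tw` : `alb` of twisted pieces is the twisted `alb`
* **`vf_tw`** : cube-free moments of the subsequences of a twisted sequence (146's frequency shift)
-/

set_option autoImplicit false
set_option linter.unusedVariables false
set_option linter.unusedSectionVars false

noncomputable section

open scoped ComplexConjugate

namespace Crest.Agent.R017.TEX792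

open Crest.Agent.R012 Crest.Agent.R012.Eis
open Crest.Agent.R012.LS2 (S mem_S bl mem_bl)
open Crest.Agent.R012.Weight600 (pw)
open Crest.Agent.R012.Div277 (dvs isPrim_of_mem_dvs)
open Crest.Agent.R017.CM106 (TG FS)
open Crest.Agent.R017.Prov71
open Crest.Agent.R017.B770
open Crest.Agent.R017.End699 (prin0)
open Crest.Agent.R017.E1551 (tws sg Adm)
open Crest.Agent.R017.Rough381 (VF)
open Crest.Agent.R017.TEL792 (PM FS_PM)
open Crest.Agent.R017.E5k54 (alb)
open Crest.Agent.R017.I1146 (tw3 Dom dom_tw ds)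
open Crest.Agent.R017.TEM792 (nm_pos_r VN)

variable {n : ℕ}

lemma sy_prod (s : Eis) {z : Fin n → Eis} (hz : ∀ i, z i ≠ 0) :
    sy s (∏ i, z i) = ∏ i, sy s (z i) := by
  classical
  have : ∀ T : Finset (Fin n), sy s (∏ i ∈ T, z i) = ∏ i ∈ T, sy s (z i) := by
    intro T
    induction T using Finset.induction_on with
    | empty => rw [Finset.prod_empty, Finset.prod_empty, Char766.sy_one_right]
    | insert a T ha ih =>
      rw [Finset.prod_insert ha, Finset.prod_insert ha,
        Sym645.sy_mul_right s (hz a) (Finset.prod_ne_zero_iff.2 fun i _ => hz i), ih]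
  exact this _

/-- **`alb` of twisted pieces** -/
theorem alb_tw {f f' : Fin n → Eis → ℂ} (hf : ∀ i m, f i m ≠ 0 → IsPrim m) {s : Eis}
    (h : ∀ i m, f' i m = sy s m * f i m) {β : Fin n → Eis} (hβ : ∀ i, IsPrim (β i)) :
    alb f' β = fun m => sy s (∏ i, β i) * tw3 s (alb f β) m := by
  classical
  funext m
  unfold I1146.tw3 E5k54.alb E554.sqc
  split_ifs with hm
  swap
  · ring
  rw [← mul_assoc, Finset.mul_sum]
  refine Finset.sum_congr rfl fun a ha => ?_
  obtain ⟨ha1, ha2⟩ := Finset.mem_filter.1 ha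
  have hap : ∀ i, IsPrim (a i) := fun i => isPrim_of_mem_dvs ((Fintype.mem_piFinset (t := fun _ : Fin n => dvs m)).1 (by convert ha1) i)
  have e1 : ∏ i, CM106.sub (f' i) (β i) (a i) =
      (∏ i, sy s (β i * a i)) * ∏ i, CM106.sub (f i) (β i) (a i) := by
    rw [← Finset.prod_mul_distrib]
    refine Finset.prod_congr rfl fun i _ => ?_
    exact h i _
  have e2 : ∏ i, sy s (β i * a i) = sy s (∏ i, β i) * sy s m := by
    rw [← ha2, sy_prod s fun i => (hβ i).ne_zero, sy_prod s fun i => (hap i).ne_zero,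
      ← Finset.prod_mul_distrib]
    exact Finset.prod_congr rfl fun i _ =>
      Sym645.sy_mul_right s (hβ i).ne_zero (hap i).ne_zero
  show ∏ i, CM106.sub (f' i) (β i) (a i) =
    sy s (∏ i, β i) * sy s m * ∏ i, CM106.sub (f i) (β i) (a i)
  rw [e1, e2]

lemma VF_const_le {c : ℂ} (hc : ‖c‖ ≤ 1) (V : ℝ) (w : Eis → ℂ) :
    VF V (fun m => c * w m) ≤ VF V w := by
  unfold Rough381.VF
  refine Finset.sum_le_sum fun l _ => ?_
  rw [RG64.TG_const_mul, norm_mul]
  refine pow_le_pow_left₀ (by positivity) ?_ 2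
  exact mul_le_of_le_one_left (norm_nonneg _) hc

/-- **moments of the subsequences of a twisted sequence** -/
theorem vf_tw {s : Eis} (hs : s ≠ 0) {α : Eis → ℂ} (hp : ∀ n, α n ≠ 0 → IsPrim n)
    (hc : ∀ n, α n ≠ 0 → IsCoprime s n) {c : ℂ} (hc1 : ‖c‖ ≤ 1) {g : Eis} (hg : IsPrim g) (q : Eis)
    (t : ℝ) {V : ℝ} (hV : 1 ≤ V) :
    VF V (PM q (tws (sg (fun m => c * tw3 s α m) g) t)) ≤
      (ds s).card * VF (V * (nm s : ℝ) ^ 2) (PM q (tws (sg α g) t)) := by
  set be : Eis → ℂ := fun m => sg α g m * prin0 q m with hbe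
  have hbp : ∀ n, be n ≠ 0 → IsPrim n := fun n hn =>
    IsPrim.of_mul_left (hp _ (left_ne_zero_of_mul hn)) hg
  have hbc : ∀ n, be n ≠ 0 → IsCoprime s n := fun n hn =>
    (hc _ (left_ne_zero_of_mul hn)).of_mul_right_right
  have e1 : PM q (tws (sg α g) t) = tws be t := by
    funext m
    unfold TEL792.PM E1551.tws
    rw [hbe]
    ring
  have e2 : PM q (tws (sg (fun m => c * tw3 s α m) g) t) =
      fun m => (c * sy s g) * tws (tw3 s be) t m := by
    funext m
    show c * (sy s (g * m) * α (g * m)) * pw t (nm m) * prin0 q m =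
      c * sy s g * (sy s m * (α (g * m) * prin0 q m) * pw t (nm m))
    by_cases h0 : α (g * m) = 0
    · simp [h0]
    have hm : IsPrim m := IsPrim.of_mul_left (hp _ h0) hg
    rw [Char766.sy_mul_right hg hm]
    ring
  rw [e1, e2]
  have hc2 : ‖c * sy s g‖ ≤ 1 := by
    rw [norm_mul]
    exact mul_le_one₀ hc1 (norm_nonneg _) (Char766.norm_sy_le hg)
  exact (VF_const_le hc2 V _).trans ((dom_tw hs hbp hbc).vf V t hV)

end Crest.Agent.R017.TEX792
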