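import Crest.Agent.R017.RXn1_770
import Crest.Agent.R017.R4h_571
import Crest.Agent.R017.XVNa_792

/-!
# Row 17, x-side of E4: the R-number of three lumps (helper770)

* `alb_nat` : `alb` of typed lumps is one natural family
* **`rh_alb`** : (RH) for all the subsequences of `alb`, one number
-/

set_option autoImplicit false
set_option linter.unusedVariables false
set_option maxHeartbeats 800000

noncomputable section

open Complex MeasureTheory
open scoped ComplexConjugate

namespace Crest.Agent.R017.RXn770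

open Crest.Agent.R012 Crest.Agent.R012.Eis Crest.Agent.R012.MC
open Crest.Agent.R012.LS2 (S mem_S bl mem_bl)
open Crest.Agent.R012.Weight600 (pw)
open Crest.Agent.R017.CM106 (CS TG FS)
open Crest.Agent.R017.FE47
open Crest.Agent.R017.B770
open Crest.Agent.R017.Prov71
open Crest.Agent.R017.End699 (prin0)
open Crest.Agent.R017.HP842 (sqc Pc pc al Tu mem_Tu)
open Crest.Agent.R017.TPOk571 (IP)
open Crest.Agent.R017.XHB411 (tl)
open Crest.Agent.R017.XRG106 (Rl RFp tl_ofFn)
open Crest.Agent.R017.E1551 (jb jb_pos tws sg)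
open Crest.Agent.R017.PX764 (n6)
open Crest.Agent.R017.E3D579 (n6_nonneg)
open Crest.Agent.R017.Mode405 (Slp)
open Crest.Agent.R017.R3571
open Crest.Agent.R017.E5k54 (alb)
open Crest.Agent.R017.P1f54 (k1 norm_k1_le)
open Crest.Agent.R017.Rough381 (sh sh_OK)
open Crest.Agent.R017.TEM792 (LD nL)

/-! ### small lemmas -/

/-- a scalar -/
lemma RMm_smul (A : ℝ) (c : ℂ) (a : Eis → ℂ) (e γ π r : Eis) :
    RMm A (fun m => c * a m) e γ π r = ‖c‖ ^ 2 * RMm A a e γ π r := by
  classical
  unfold R3571.RMm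
  rw [← integral_const_mul]
  congr 1
  funext t
  have e1 : CS (fun m => (if e ∣ γ * m ∧ IsCoprime m π then c * a (γ * m) * (n6 m : ℂ) else 0) *
      pw t (nm m)) r = c * CS (fun m => (if e ∣ γ * m ∧ IsCoprime m π then a (γ * m) * (n6 m : ℂ)
        else 0) * pw t (nm m)) r := by
    unfold CM106.CS
    rw [← tsum_mul_left]
    congr 1
    funext m
    beta_reduce
    split_ifs <;> ring
  rw [e1, norm_mul, mul_pow]
  ring

/-- a twist by a symbol is a shift of the frequency -/
lemma RMm_sy (A : ℝ) {s : Eis} {a : Eis → ℂ} {γ : Eis} (hγ : IsPrim γ)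
    (ha : ∀ m, a (γ * m) ≠ 0 → IsPrim m) (e π r : Eis) :
    RMm A (fun m => sy s m * a m) e γ π r = ‖sy s γ‖ ^ 2 * RMm A a e γ π (r * s) := by
  classical
  unfold R3571.RMm
  rw [← integral_const_mul]
  congr 1
  funext t
  have e1 : CS (fun m => (if e ∣ γ * m ∧ IsCoprime m π then sy s (γ * m) * a (γ * m) *
      (n6 m : ℂ) else 0) * pw t (nm m)) r = sy s γ * CS (fun m => (if e ∣ γ * m ∧ IsCoprime m π
        then a (γ * m) * (n6 m : ℂ) else 0) * pw t (nm m)) (r * s) := by
    unfold CM106.CS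
    rw [← tsum_mul_left]
    congr 1
    funext m
    beta_reduce
    split_ifs with h1
    · by_cases h0 : a (γ * m) = 0
      · rw [h0]; ring
      have hm := ha m h0
      rw [Char766.sy_mul_right hγ hm, Char766.sy_mul_left hm]
      ring
    · ring
  rw [e1, norm_mul, mul_pow]
  ring

variable {n : ℕ}

/-- the index of a shortened piece -/
def ipb {P : DPar} (hP : P.OK) (p : Pq) (b : Eis) : IP :=
  ⟨p.u.sub b, ⟨(p.pc P).ψ, (p.ok hP).ch⟩, p.z - Real.log (nm b), 0, p.t⟩

lemma ipb_pc {P : DPar} (hP : P.OK) (p : Pq) {b : Eis} (hb : b ≠ 0) :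
    (ipb hP p b).pc = sh (p.pc P) b := by
  have h : (0 : ℝ) < nm b := by exact_mod_cast nm_pos.2 hb
  unfold TPOk571.IP.pc ipb Rough381.sh
  simp only [Pq.pc, add_zero]
  rw [Real.exp_sub, Real.exp_log h]

/-- **`alb` of typed pieces is one natural family** -/
theorem alb_nat {h : ℝ → ℝ} {P : DPar} (hP : P.OK) (p : Fin n → Pq) {β : Fin n → Eis}
    (hβ : ∀ i, IsPrim (β i)) : ∃ k : ℂ, ‖k‖ ≤ 1 ∧ ∀ m,
    alb (fun i => pc h ((p i).pc P)) β m =
      k * sqc (∏ i, β i) (al h fun i => (ipb hP (p i) (β i)).pc) m := by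
  classical
  have hsOK : ∀ i, ((p i).pc P).OK := fun i => Pq.ok hP _
  refine ⟨k1 (fun i => (p i).pc P) β (fun _ => 1) 1,
    norm_k1_le hsOK hβ (fun _ => isPrim_one) 1, fun m => ?_⟩
  have h1 := congrFun (VFa436.alb_tws (h := h) hsOK hβ isPrim_one squarefree_one 0 1) m
  have hTu : Tu (Fin n) 1 = {fun _ => 1} := by
    ext x
    rw [mem_Tu, Finset.mem_singleton]
    constructor
    · rintro ⟨h1, h2⟩
      funext i
      refine HP842.eq_one_of_isUnit (h1 i) (isUnit_of_dvd_one ?_)
      rw [← h2]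
      exact Finset.dvd_prod_of_mem x (Finset.mem_univ i)
    · rintro rfl
      exact ⟨fun _ => isPrim_one, by simp⟩
  rw [hTu, Finset.sum_singleton, mul_one, mul_one] at h1
  have e2 : (fun i => VFa436.tsh 0 (sh ((p i).pc P) (β i * 1))) =
      fun i => (ipb hP (p i) (β i)).pc := by
    funext i
    rw [ipb_pc hP (p i) (hβ i).ne_zero, mul_one]
    unfold VFa436.tsh
    simp
  rw [e2] at h1
  rw [← h1]
  unfold E1551.tws E1551.sg
  have e3 : prin0 (1 : Eis) m = 1 := by
    unfold End699.prin0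
    rw [if_pos isCoprime_one_right]
  have e4 : pw 0 (nm m : ℝ) = 1 := Weight600.pw_zero_left _
  rw [one_mul, e3, e4, mul_one, mul_one]


/-! ### (RH) -/

lemma RMm_le_smul {A : ℝ} {c : ℂ} (hc : ‖c‖ ≤ 1) {a b : Eis → ℂ} (hab : ∀ m, a m = c * b m)
    (e γ π r : Eis) (h0 : 0 ≤ RMm A b e γ π r) : RMm A a e γ π r ≤ RMm A b e γ π r := by
  have e1 : a = fun m => c * b m := funext hab
  rw [e1, RMm_smul]
  exact mul_le_of_le_one_left h0 (pow_le_one₀ (norm_nonneg _) hc)

lemma RMm_nonneg (A : ℝ) (a : Eis → ℂ) (e γ π r : Eis) : 0 ≤ RMm A a e γ π r := by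
  unfold R3571.RMm
  exact integral_nonneg fun t => mul_nonneg (jb_pos A t).le (by positivity)

variable {Λ : Type*} {π : Λ → DPar} {h : ℝ → ℝ}

/-- `W2` at the true level -/
lemma W2_max {a : ℕ} {P1 w X : ℝ} (hP1 : 0 < P1) (hX : 1 < X) :
    W2 a (max P1 1) w P1 =
      X ^ (min 0 (Real.log P1 / Real.log X) / 3) * w := by
  have hX0 : 0 < X := by linarith
  have hL : 0 < Real.log X := Real.log_pos hX
  unfold R3571.W2
  rw [if_pos (le_max_left _ _)]
  congr 1
  rcases le_total 1 P1 with h | h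
  · rw [max_eq_left h, div_self hP1.ne', Real.one_rpow, min_eq_left, zero_div, Real.rpow_zero]
    exact div_nonneg (Real.log_nonneg h) hL.le
  · rw [max_eq_right h, div_one, min_eq_right]
    · have e1 : P1 = X ^ (Real.log P1 / Real.log X) := by
        rw [Real.rpow_def_of_pos hX0, mul_div_cancel₀ _ hL.ne', Real.exp_log hP1]
      conv_lhs => rw [e1]
      rw [← Real.rpow_mul hX0.le]
      congr 1
      ring
    · exact div_nonpos_of_nonpos_of_nonneg (Real.log_nonpos hP1.le h) hL.le

lemma g3_max {d : ℝ} (u i : ℝ) : g3 d u (max 0 i) = g3 d u i := by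
  unfold g3
  rcases le_total 0 i with h | h
  · rw [max_eq_right h]
  · rw [max_eq_left h]
    have h1 : min u ((0 : ℝ) / 2) ≤ 0 := (min_le_right _ _).trans (by norm_num)
    have h2 : min u (i / 2) ≤ 0 := (min_le_right _ _).trans (by linarith)
    rw [max_eq_left h1, max_eq_left h2]

set_option maxHeartbeats 4000000 in
/-- **(RH) for the subsequences of three typed lumps, one number** -/
theorem rh_alb {c₀ : ℝ} (hpu : PU h c₀) (hP : ∀ lam, (π lam).OK) {d : ℝ} (hd : 0 ≤ d)
    (hd8 : d ≤ 1 / 8) (HR : RCl π h d) (lam : Λ) {ε : ℝ} (hε : 0 < ε) {K : ℝ} (hK : 1 ≤ K) :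
    ∃ M aS A₀ : ℕ, 1 ≤ aS ∧ ∀ s : Eis, s ≠ 0 → ∃ X₀ : ℝ, 1 < X₀ ∧ ∀ X : ℝ, X₀ ≤ X →
      ∀ H : ℝ, 1 ≤ H → ∀ (us : Fin 3 → Pq) (β : Fin 3 → Eis), LD X K H us β →
      ∀ u : ℝ, (∃ i, (us i).z ≤ u * Real.log X) → ∀ A : ℝ, (A₀ : ℝ) ≤ A →
      ∀ D e : Eis, IsPrim D → IsPrim e → (nm D : ℝ) ≤ X ^ K → (nm e : ℝ) ≤ X ^ K →
      ∀ P1 : ℝ, 0 < P1 → P1 ≤ X ^ K → ∃ W0 : ℝ → ℝ, Slp aS W0 ∧
        (∀ γ φ : Eis, IsPrim γ → IsPrim φ → (nm φ : ℝ) ≤ X ^ K → ∀ P : ℝ, 0 < P →
          (nm γ : ℝ) * n6 γ ^ 2 * ∑ k ∈ bl P,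
            RMm A (fun m => alb (fun i => pc h ((us i).pc (π lam))) β (D * m)) e γ φ (k * s) ≤
              W0 P) ∧
        W0 P1 ≤ H ^ M * X ^ (max (Real.log P1 / Real.log X) (Real.log P1 / Real.log X / 3) +
          g3 d u (Real.log P1 / Real.log X) +
          2 / 3 * (nL X us β - Real.log (nm D) / Real.log X) + ε) := by
  classical
  set η : ℝ := min (ε / 16) 1 with hη
  have hη0 : 0 < η := lt_min (by linarith) one_pos
  have hη1 : η ≤ 1 := min_le_right _ _
  have hηε : 16 * η ≤ ε := by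
    have := min_le_left (ε / 16) 1
    linarith
  have hK0 : 0 < K := by linarith
  set δ : ℝ := η / (3 * K) with hδ
  have hδ0 : 0 < δ := by positivity
  obtain ⟨M, X₁, hX₁, H1⟩ := rf_child hd HR lam (K := K + 2) (by linarith) (2 * K + 1) hη0
  obtain ⟨a, ha, H2⟩ := RH_nat hpu (μ := (M : ℝ) / 2) (by positivity) 3 hδ0 1
  obtain ⟨C, hC, H3⟩ := H2 δ hδ0
  refine ⟨M, a, 3 * M + 2, ha, fun s hs => ?_⟩
  have hsn : (1 : ℝ) ≤ nm s := by exact_mod_cast nm_pos.2 hs
  have hC0 : 0 < C := by linarith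
  set L₀ : ℝ := max (max 1 (C / η)) (max (Real.log C / η) (Real.log (nm s) / η)) with hL₀
  refine ⟨max X₁ (Real.exp L₀), lt_of_lt_of_le hX₁ (le_max_left _ _), ?_⟩
  intro X hX H hH us β hD u hu A hA D e hDp he hDK heK P1 hP1 hP1K
  have hXX : X₁ ≤ X := (le_max_left _ _).trans hX
  have hX1 : 1 < X := lt_of_lt_of_le hX₁ hXX
  have hX0 : 0 < X := by linarith
  have hXe : Real.exp L₀ ≤ X := (le_max_right _ _).trans hX
  set L := Real.log X with hL
  have hLL : L₀ ≤ L := (Real.le_log_iff_exp_le hX0).2 hXe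
  have l1 : 1 ≤ L := ((le_max_left _ _).trans (le_max_left _ _)).trans hLL
  have l2 : C / η ≤ L := ((le_max_right _ _).trans (le_max_left _ _)).trans hLL
  have l3 : Real.log C / η ≤ L := ((le_max_left _ _).trans (le_max_right _ _)).trans hLL
  have l4 : Real.log (nm s) / η ≤ L := ((le_max_right _ _).trans (le_max_right _ _)).trans hLL
  have hL0 : 0 < L := by linarith
  have hCL : C ≤ η * L := by rw [div_le_iff₀ hη0] at l2; linarith
  have hCL' : C / L ≤ η := by rw [div_le_iff₀ hL0]; exact hCL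
  have hCX : C ≤ X ^ η := by
    rw [div_le_iff₀ hη0] at l3
    rw [← Real.exp_log hC0, Real.rpow_def_of_pos hX0]
    exact Real.exp_le_exp.2 l3
  have hsX : (nm s : ℝ) ≤ X ^ η := by
    rw [div_le_iff₀ hη0] at l4
    rw [← Real.exp_log (show (0 : ℝ) < nm s by linarith), Real.rpow_def_of_pos hX0]
    exact Real.exp_le_exp.2 l4
  have hsL : Real.log (nm s) / L ≤ η := by
    rw [div_le_iff₀ hη0] at l4
    rw [div_le_iff₀ hL0]
    linarith
  set X0 : ℝ := X ^ (3 * K) with hX0d
  have hX01 : 1 ≤ X0 := Real.one_le_rpow hX1.le (by positivity)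
  have hX0δ : X0 ^ δ = X ^ η := by
    rw [hX0d, ← Real.rpow_mul hX0.le, hδ]
    congr 1
    field_simp
  have hKX : X ^ K ≤ X0 := Real.rpow_le_rpow_of_exponent_le hX1.le (by linarith)
  -- the level
  set P1' : ℝ := max P1 1 with hP1'
  have hP1'1 : 1 ≤ P1' := le_max_right _ _
  have hP1'0 : 0 < P1' := by linarith
  have hP1'K : P1' ≤ X ^ K := max_le hP1K (Real.one_le_rpow hX1.le (by linarith))
  set i : ℝ := Real.log P1 / L with hi
  have hi' : Real.log P1' / L = max 0 i := by
    rcases le_total 1 P1 with h | h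
    · have : 0 ≤ i := div_nonneg (Real.log_nonneg h) hL0.le
      rw [hP1', max_eq_left h, max_eq_right this]
    · have : i ≤ 0 := div_nonpos_of_nonpos_of_nonneg (Real.log_nonpos hP1.le h) hL0.le
      rw [hP1', max_eq_right h, max_eq_left this, Real.log_one, zero_div]
  have hPX : P1' = X ^ (max 0 i) := by
    rw [← hi', Real.rpow_def_of_pos hX0, mul_div_cancel₀ _ hL0.ne', Real.exp_log hP1'0]
  set T : ℝ := P1' * X0 ^ δ with hT
  have hT0 : 0 < T := by positivity
  have hTX : T = X ^ (max 0 i + η) := by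
    rw [hT, hX0δ, hPX, ← Real.rpow_add hX0]
  set B : ℝ := H ^ M * X ^ (max 0 i + g3 d u i + 6 * η) with hB
  have hH0 : 0 < H := by linarith
  have hg := g3_nonneg hd u i
  have hB1 : 1 ≤ B := one_le_mul_of_one_le_of_one_le (one_le_pow₀ hH)
    (Real.one_le_rpow hX1.le (by
      have := le_max_left 0 i
      linarith))
  have hB0 : 0 < B := by linarith
  set J : Fin 3 → IP := fun i => ipb (hP lam) (us i) (β i) with hJ
  have hβ0 : ∀ i, β i ≠ 0 := fun i => (hD.bp i).ne_zero
  have hnβ : ∀ i, (1 : ℝ) ≤ nm (β i) := fun i => by exact_mod_cast nm_pos.2 (hβ0 i)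
  have hBel : Below (π lam) 0 J us := by
    refine ⟨fun i => ?_, fun i => rfl, fun i => rfl, fun i hi => ?_⟩
    · show (us i).z - Real.log (nm (β i)) ≤ _
      have := Real.log_nonneg (hnβ i)
      linarith
    · show (us i).u.sub (β i) = .one
      unfold HP842.UT.sub
      rw [hi]
      simp
  have hprod : (nm (∏ i, β i) : ℝ) = ∏ i, (nm (β i) : ℝ) := by
    rw [Fin.prod_univ_three, Fin.prod_univ_three, nm_mul, nm_mul]
    push_cast; ring
  have hq0 : (∏ i, β i) ≠ 0 := Finset.prod_ne_zero_iff.2 fun i _ => hβ0 i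
  have hqX : (nm (∏ i, β i) : ℝ) ≤ X0 := by
    rw [hprod, hX0d, mul_comm 3 K, Real.rpow_mul hX0.le]
    calc ∏ i, (nm (β i) : ℝ) ≤ ∏ _i : Fin 3, X ^ K :=
          Finset.prod_le_prod (fun i _ => by linarith [hnβ i]) fun i _ => hD.bK i
      _ = (X ^ K) ^ (3 : ℝ) := by
          rw [Finset.prod_const, Finset.card_univ, Fintype.card_fin, ← Real.rpow_natCast]
          norm_num
  have hsumz : ∑ i, (J i).z = nL X us β * L := by
    unfold TEM792.nL
    rw [div_mul_cancel₀ _ hL0.ne']
    show ∑ i, ((us i).z - Real.log (nm (β i))) = _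
    rw [Finset.sum_sub_distrib, hprod, Real.log_prod (fun i _ => by linarith [hnβ i])]
  set w : ℝ := C * X0 ^ δ * B * (Real.exp (∑ i, (J i).z) / nm D) ^ (2 / 3 : ℝ) with hw
  have hDn : (0 : ℝ) < nm D := nm_cast_pos hDp.ne_zero
  have hw0 : 0 ≤ w := by positivity
  refine ⟨W2 a P1' w, slp_two ha hP1'0 hw0, ?_, ?_⟩
  · intro γ φ hγ hφ hφK P hPP
    have h1 := H3 (π lam) (hP lam) us hD.z0 J hBel (fun _ => rfl) (∏ i, β i) D e s hq0 hDp he hs
      X0 hX01 hqX (hDK.trans hKX) (heK.trans hKX) (fun i => by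
        refine le_trans ?_ hKX
        rw [Real.rpow_def_of_pos hX0]
        refine Real.exp_le_exp.2 ?_
        rw [mul_comm]
        exact hD.zK i) (3 * M) (by push_cast; linarith) A (by
          refine le_trans (le_of_eq ?_) hA
          push_cast; ring) P1' B hP1'0 (by
          rw [Real.rpow_one]
          exact hP1'K.trans hKX) hB1 ?_ γ φ hγ hφ (hφK.trans hKX) P hPP
    · refine le_trans ?_ h1
      obtain ⟨k0, hk0, hk⟩ := alb_nat (h := h) (hP lam) us hD.bp
      refine mul_le_mul_of_nonneg_left (Finset.sum_le_sum fun k _ => ?_) (by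
        have := n6_nonneg γ
        positivity)
      exact RMm_le_smul hk0 (fun m => hk (D * m)) _ _ _ _ (RMm_nonneg _ _ _ _ _ _)
    · intro Lm hLm1 hLmT s' W hW hRl _
      have hLm0 : 0 < Lm := by linarith
      have hns0 : (0 : ℝ) < nm s := by linarith
      have hlog0 : 0 ≤ Real.log (Lm * nm s) :=
        Real.log_nonneg (one_le_mul_of_one_le_of_one_le hLm1 hsn)
      have hlogL : Real.log (Lm * nm s) / L ≤ max 0 i + 2 * η := by
        rw [div_le_iff₀ hL0, Real.log_mul hLm0.ne' hns0.ne']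
        have h1 : Real.log Lm ≤ (max 0 i + η) * L := by
          have h2 := Real.log_le_log hLm0 hLmT
          rw [← hT, hTX, Real.log_rpow hX0] at h2
          exact h2
        rw [div_le_iff₀ hL0] at hsL
        nlinarith
      have hiK : max 0 i ≤ K := by
        rw [← hi', div_le_iff₀ hL0]
        have h2 := Real.log_le_log hP1'0 hP1'K
        rwa [Real.log_rpow hX0] at h2
      have h2 := H1 X hXX (Real.log (Lm * nm s)) hlog0 (by
          rw [div_le_iff₀ hL0] at hlogL
          refine hlogL.trans (mul_le_mul_of_nonneg_right ?_ hL0.le)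
          linarith) s' (fun i => ⟨(hRl i).kd.trans (hD.lump i).1, (hRl i).one (hD.lump i).2⟩)
        (fun i => (hRl i).z0) (fun i => by
          have h3 := (hRl i).zle
          have h4 := hD.zK i
          have h5 : η * L ≤ 1 * L := mul_le_mul_of_nonneg_right hη1 hL0.le
          show _ ≤ (K + 2) * L
          nlinarith) (fun i => by
          refine (hRl i).dd.trans ?_
          have h4 : Real.exp (us i).z ≤ X ^ K := by
            rw [Real.rpow_def_of_pos hX0]
            refine Real.exp_le_exp.2 ?_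
            rw [mul_comm]
            exact hD.zK i
          have h5 : X ^ η ≤ X ^ (1 : ℝ) := Real.rpow_le_rpow_of_exponent_le hX1.le hη1
          calc C * nm (us i).d * Real.exp (us i).z ≤ X ^ (1 : ℝ) * X ^ K * X ^ K := by
                have := hD.dK i
                have h6 := hCX.trans h5
                gcongr
            _ = X ^ (2 * K + 1) := by
                rw [← Real.rpow_add hX0, ← Real.rpow_add hX0]
                congr 1; ring) (W * H) (one_le_mul_of_one_le_of_one_le hW hH) (fun i => by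
          refine (hRl i).ht.trans ?_
          have := hD.tH i
          gcongr) (u + C / L) (by
          obtain ⟨i, hi⟩ := hu
          refine ⟨i, (hRl i).zle.trans ?_⟩
          show _ ≤ (u + C / L) * L
          rw [add_mul, div_mul_cancel₀ _ hL0.ne']
          linarith)
      refine h2.trans ?_
      have hg3 : g3 d (u + C / L) (Real.log (Lm * nm s) / L) ≤ g3 d u i + 3 * η := by
        have h3 := g3_lip (d := d) (u := u) (u' := u + C / L) (i := max 0 i)
          (i' := Real.log (Lm * nm s) / L) hd hd8 (a := C / L) (b := 2 * η) (by positivity)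
          (by positivity) le_rfl hlogL
        rw [g3_max] at h3
        linarith
      have htl : tl Dq (List.ofFn s') = ∑ i, (s' i).z := tl_ofFn s'
      rw [htl]
      have e1 : X ^ (Real.log (Lm * nm s) / L + (∑ i, (s' i).z) / L +
          g3 d (u + C / L) (Real.log (Lm * nm s) / L) + η) =
          (Lm * nm s) * Real.exp (∑ i, (s' i).z) *
            X ^ (g3 d (u + C / L) (Real.log (Lm * nm s) / L) + η) := by
        have q1 : X ^ (Real.log (Lm * nm s) / L) = Lm * nm s := by
          rw [Real.rpow_def_of_pos hX0, mul_div_cancel₀ _ hL0.ne', Real.exp_log (by positivity)]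
        have q2 : X ^ ((∑ i, (s' i).z) / L) = Real.exp (∑ i, (s' i).z) := by
          rw [Real.rpow_def_of_pos hX0, mul_div_cancel₀ _ hL0.ne']
        rw [add_assoc, Real.rpow_add hX0, Real.rpow_add hX0, q1, q2]
      rw [e1]
      have e2 : Lm ≤ (Lm / T) ^ (1 / 3 : ℝ) * T := by
        have h3 : Lm / T ≤ 1 := (div_le_one hT0).2 hLmT
        have h4 : Lm / T ≤ (Lm / T) ^ (1 / 3 : ℝ) := by
          have h5 : 0 < Lm / T := by positivity
          calc Lm / T = (Lm / T) ^ (1 : ℝ) := (Real.rpow_one _).symm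
            _ ≤ (Lm / T) ^ (1 / 3 : ℝ) :=
                Real.rpow_le_rpow_of_exponent_ge h5 h3 (by norm_num)
        calc Lm = Lm / T * T := (div_mul_cancel₀ _ hT0.ne').symm
          _ ≤ _ := by gcongr
      have e3 : X ^ (g3 d (u + C / L) (Real.log (Lm * nm s) / L) + η) ≤
          X ^ (g3 d u i + 4 * η) := Real.rpow_le_rpow_of_exponent_le hX1.le (by linarith)
      have e4 : W ^ (2 * ((M : ℝ) / 2)) = W ^ M := by
        rw [← Real.rpow_natCast]
        congr 1; ring
      rw [e4]
      calc (W * H) ^ M * (Lm * nm s * Real.exp (∑ i, (s' i).z) *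
            X ^ (g3 d (u + C / L) (Real.log (Lm * nm s) / L) + η))
          ≤ (W * H) ^ M * (((Lm / T) ^ (1 / 3 : ℝ) * T) * X ^ η *
            Real.exp (∑ i, (s' i).z) * X ^ (g3 d u i + 4 * η)) := by
            gcongr
        _ = (Lm / T) ^ (1 / 3 : ℝ) * B * Real.exp (∑ i, (s' i).z) * W ^ M := by
            rw [hB, hTX, mul_pow]
            have e5 : X ^ (max 0 i + g3 d u i + 6 * η) =
                X ^ (max 0 i + η) * X ^ η * X ^ (g3 d u i + 4 * η) := by
              rw [← Real.rpow_add hX0, ← Real.rpow_add hX0]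
              congr 1; ring
            rw [e5]
            ring
  · rw [hP1', W2_max hP1 hX1, hw, hX0δ]
    have e1 : (Real.exp (∑ i, (J i).z) / nm D) ^ (2 / 3 : ℝ) =
        X ^ (2 / 3 * (nL X us β - Real.log (nm D) / L)) := by
      have q1 : Real.exp (∑ i, (J i).z) / nm D = X ^ (nL X us β - Real.log (nm D) / L) := by
        rw [Real.rpow_def_of_pos hX0, mul_sub, mul_div_cancel₀ _ hL0.ne', Real.exp_sub,
          Real.exp_log hDn, hsumz, mul_comm]
      rw [q1, ← Real.rpow_mul hX0.le, mul_comm]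
    rw [e1]
    have e2 : max i (i / 3) = min 0 i / 3 + max 0 i := by
      rcases le_total 0 i with h | h
      · rw [min_eq_left h, max_eq_right h, max_eq_left (by linarith)]
        ring
      · rw [min_eq_right h, max_eq_left h, max_eq_right (by linarith)]
        ring
    calc X ^ (min 0 i / 3) * (C * X ^ η * B *
          X ^ (2 / 3 * (nL X us β - Real.log (nm D) / L)))
        ≤ X ^ (min 0 i / 3) * (X ^ η * X ^ η * B *
          X ^ (2 / 3 * (nL X us β - Real.log (nm D) / L))) := by gcongr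
      _ = H ^ M * X ^ (min 0 i / 3 + (η + (η + ((max 0 i + g3 d u i + 6 * η) +
          2 / 3 * (nL X us β - Real.log (nm D) / L))))) := by
          rw [hB, Real.rpow_add hX0 (min 0 i / 3), Real.rpow_add hX0 η, Real.rpow_add hX0 η,
            Real.rpow_add hX0 (max 0 i + g3 d u i + 6 * η)]
          ring
      _ ≤ _ := by
          refine mul_le_mul_of_nonneg_left ?_ (by positivity)
          refine Real.rpow_le_rpow_of_exponent_le hX1.le ?_
          rw [e2]
          linarith

end Crest.Agent.R017.RXn770
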