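import Crest.Agent.R017.VFalb_436
import Crest.Agent.R017.I1K_764

/-!
# Row 17, class E: the children of `alb` for every kernel (helper792; copy of helper436's VFalb_436)

* `VK_shift`, **`VK_alb`** : 436's `VF_shift`, `VF_alb` with a kernel `Kn` (`Ker Kn`)
-/

set_option autoImplicit false

noncomputable section

open Finset
open scoped ComplexConjugate

namespace Crest.Agent.R017.VKa792

open Crest.Agent.R012 Crest.Agent.R012.Eis Crest.Agent.R012.LS2 Crest.Agent.R012.Gauss880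
open Crest.Agent.R012.Mob705 hiding pb mem_pb
open Crest.Agent.R012.Div277 (tau dvs mem_dvs tau_le_rpow isPrim_of_mem_dvs dvd_of_mem_dvs)
open Crest.Agent.R012.Weight600 (osc pw)
open Crest.Agent.R017.CM106 (FS TG)
open Crest.Agent.R017.HP842
open Crest.Agent.R017.FE47 hiding tws
open Crest.Agent.R017.End699 (prin0)
open Crest.Agent.R017.B770 Crest.Agent.R017.Prov71
open Crest.Agent.R017.Rough381 (sh sh_OK cellP vk Sm_one mkc mkc_pc log_pow_le)
open Crest.Agent.R017.Leg381 (WSy alW fw fpc alf)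
open Crest.Agent.R017.I1146 (ChN LN cN)
open Crest.Agent.R017.I1K764 (SNK)
open Crest.Agent.R017.LegK545 (VK VK_sum_le gen_split)
open Crest.Agent.R017.E5k54 (alb)
open Crest.Agent.R017.P1f54 (ch1 k1 side_eq norm_k1_le ch1_OK)
open Crest.Agent.R017.P1e54 (alb_ne alb_prim)
open Crest.Agent.R017.E1551 (sg tws)
open Crest.Agent.R017.VFa436 (wsy_one alW_one alf_false al_ofFn LN_ofFn cN_ofFn forall₂_ofFn tsh
  tsh_OK pc_tsh nm_prodF prin0_prod pw_prod cv_zero pc_prim alb_tws)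

variable {n : ℕ} {Kn : Eis → Eis → ℂ}

/-- **a family of natural pieces shortened by `y i`** -/
theorem VK_shift (hKn : Ker Kn) {h : ℝ → ℝ} {c : ℝ} (hpu : PU h c) (N : ℕ) {B₀ : ℝ} (hB₀ : 0 ≤ B₀) {ε : ℝ}
    (hε : 0 < ε) {M : ℝ} (hM : 0 ≤ M) : ∃ C r : ℝ, 1 ≤ C ∧ 0 ≤ r ∧ ∀ X : ℝ, 1 ≤ X →
    ∀ (P : DPar), P.OK → ∀ (q : Eis) (n : ℕ) (p : Fin n → Pq), n ≤ N →
    (∀ i, (p i).z ≤ B₀ * Real.log X) → ∀ y : Fin n → Eis, (∀ i, IsPrim (y i)) →
    ∀ k t : ℝ, 0 ≤ k → k ≤ B₀ * Real.log X → ∀ Bd : ℝ, 0 ≤ Bd →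
    (∀ (l : ℝ) (ps' : List Pq), 0 ≤ l → List.Forall₂ (ChN r) ps' (List.ofFn p) →
      |LN ps' - (LN (List.ofFn p) - Real.log (nm (∏ i, y i)))| ≤ r → |l - k| ≤ r →
      SNK Kn q P h l ps' ≤ Bd * cN ps' (List.ofFn p) ^ M) →
    VK Kn (Real.exp k) (sqc q (al h fun i => tsh t (sh ((p i).pc P) (y i)))) ≤
      C * X ^ ε * (Bd * (1 + |t|) ^ ((N : ℝ) * M)) := by
  classical
  obtain ⟨R₀, hR₀⟩ := bump_of_cs hpu.cs
  set R := max R₀ 0 with hRd
  have hR0 : 0 ≤ R := le_max_right _ _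
  have hR : ∀ u, cx h u ≠ 0 → |u| ≤ R := fun u hu => (hR₀ u hu).trans (le_max_left _ _)
  obtain ⟨C₁, hC₁, H⟩ := gen_split hKn hpu hR0 hR M
  -- constants
  set η := ε / (4 * ((N : ℝ) + 1) * ((N : ℝ) + 1) * (B₀ + 1)) with hη
  have hN0 : (0 : ℝ) ≤ N := Nat.cast_nonneg _
  have hη0 : 0 < η := by positivity
  obtain ⟨C₂, hC₂, hτ⟩ := tau_le_rpow hη0
  set c₀ : ℝ := Real.log 2 + R + 1 with hc₀
  have hc₀0 : 0 ≤ c₀ := by have := Real.log_nonneg (by norm_num : (1 : ℝ) ≤ 2); linarith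
  obtain ⟨C₃, hC₃, hlog⟩ := log_pow_le (ε := ε / 4) (by linarith) (2 * N) hc₀0
  set A : ℝ := Real.exp 1 * (2 * Real.exp R) with hA
  have hA1 : 1 ≤ A := by
    have h1 : 1 ≤ Real.exp 1 := Real.one_le_exp zero_le_one
    have h2 : 1 ≤ Real.exp R := Real.one_le_exp hR0
    nlinarith
  set r : ℝ := N * (2 * R + 2) + (2 * R + 2) with hr
  have hr0 : 0 ≤ r := by positivity
  set D₀ : ℝ := C₂ ^ N * (A ^ N) ^ (η * N) with hD₀
  refine ⟨(C₁ ^ N * ((B₀ + 1) ^ (2 * N) * C₃)) * D₀ * Real.exp N, r, ?_, hr0, ?_⟩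
  · have h1 : 1 ≤ C₁ ^ N := one_le_pow₀ hC₁
    have h2 : 1 ≤ (B₀ + 1) ^ (2 * N) := one_le_pow₀ (by linarith)
    have h3 : 1 ≤ D₀ := one_le_mul_of_one_le_of_one_le (one_le_pow₀ hC₂)
      (Real.one_le_rpow (one_le_pow₀ hA1) (by positivity))
    have h4 : 1 ≤ Real.exp N := Real.one_le_exp hN0
    exact one_le_mul_of_one_le_of_one_le (one_le_mul_of_one_le_of_one_le
      (one_le_mul_of_one_le_of_one_le h1 (one_le_mul_of_one_le_of_one_le h2 hC₃)) h3) h4
  intro X hX1 P hP q n p hlen hps y hy k t hk hkX Bd hBd hyp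
  have hX0 : (0 : ℝ) < X := by linarith
  have hlX : 0 ≤ Real.log X := Real.log_nonneg hX1
  have hnN : (n : ℝ) ≤ N := by exact_mod_cast hlen
  set s : Fin n → Pc := fun i => tsh t (sh ((p i).pc P) (y i)) with hs
  have hsOK : ∀ i, (s i).OK := fun i => tsh_OK (sh_OK (Pq.ok hP _) (hy i)) t
  have hypos : ∀ i, (0 : ℝ) < nm (y i) := fun i => by exact_mod_cast nm_pos.2 (hy i).ne_zero
  have hylog : ∀ i, 0 ≤ Real.log (nm (y i)) := fun i => by
    apply Real.log_nonneg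
    exact_mod_cast nm_pos.2 (hy i).ne_zero
  set L : ℝ := Real.log (nm (∏ i, y i)) with hLd
  have hL : L = ∑ i, Real.log (nm (y i)) := by
    rw [hLd, nm_prodF, Real.log_prod fun i _ => (hypos i).ne']
  have hT1 : (1 : ℝ) ≤ (1 + |t|) ^ ((N : ℝ) * M) :=
    Real.one_le_rpow (by linarith [abs_nonneg t]) (by positivity)
  -- the support bound
  set X' : ℕ := ⌈X ^ B₀ * Real.exp R⌉₊ with hX'
  have h1R : 1 ≤ Real.exp R := Real.one_le_exp hR0
  have hXB : 1 ≤ X ^ B₀ := Real.one_le_rpow hX1 hB₀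
  have hXR : 1 ≤ X ^ B₀ * Real.exp R := one_le_mul_of_one_le_of_one_le hXB h1R
  have hX'1 : 1 ≤ X' := by
    rw [hX']
    exact Nat.one_le_ceil_iff.2 (by linarith)
  have hX'2 : (X' : ℝ) ≤ 2 * Real.exp R * X ^ B₀ := by
    have := (Nat.ceil_lt_add_one (by linarith : 0 ≤ X ^ B₀ * Real.exp R)).le
    rw [hX']
    linarith
  have hexpB : Real.exp (B₀ * Real.log X) = X ^ B₀ := by
    rw [Real.rpow_def_of_pos hX0, mul_comm]
  have hsY : ∀ i, (s i).Y = Real.exp ((p i).z) / nm (y i) := fun i => rfl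
  have hsX : ∀ i, (s i).Y * Real.exp R ≤ X' := by
    intro i
    refine le_trans ?_ (Nat.le_ceil _)
    refine mul_le_mul_of_nonneg_right ?_ (Real.exp_pos _).le
    rw [hsY, ← hexpB]
    refine (div_le_self (Real.exp_pos _).le ?_).trans (Real.exp_le_exp.2 (hps i))
    exact_mod_cast nm_pos.2 (hy i).ne_zero
  have hlogX' : Real.log X' + 1 ≤ (B₀ + 1) * (Real.log X + c₀) := by
    have h1 : Real.log X' ≤ B₀ * Real.log X + (Real.log 2 + R) := by
      calc Real.log X' ≤ Real.log (2 * Real.exp R * X ^ B₀) :=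
            Real.log_le_log (by exact_mod_cast hX'1) hX'2
        _ = _ := by
            rw [Real.log_mul (by positivity) (by positivity), Real.log_mul two_ne_zero
              (Real.exp_pos _).ne', Real.log_exp, Real.log_rpow hX0]
            ring
    nlinarith [mul_nonneg hB₀ hc₀0]
  -- the divisor bound on the family
  set D : ℝ := D₀ * X ^ (ε / 4) with hD
  have hD00 : 0 ≤ D := by positivity
  have hηN : η * N * (B₀ * ((N : ℝ) + 1)) ≤ ε / 4 := by
    have h0 : (0 : ℝ) < 4 * ((N : ℝ) + 1) * ((N : ℝ) + 1) * (B₀ + 1) := by positivity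
    rw [hη, div_mul_eq_mul_div, div_mul_eq_mul_div, div_le_div_iff₀ h0 (by norm_num)]
    have h1 : (N : ℝ) * (B₀ * ((N : ℝ) + 1)) ≤ ((N : ℝ) + 1) * ((B₀ + 1) * ((N : ℝ) + 1)) := by
      gcongr <;> linarith
    nlinarith [mul_le_mul_of_nonneg_left h1 hε.le]
  have htau : ∀ j : Eis, j ≠ 0 → (nm j : ℝ) ≤ Real.exp k * (Real.exp 1 * X') ^ Fintype.card (Fin n) →
      (tau j : ℝ) ^ Fintype.card (Fin n) ≤ D := by
    intro j hj0 hj
    rw [Fintype.card_fin] at hj ⊢
    have hj1 : (1 : ℝ) ≤ nm j := by exact_mod_cast nm_pos.2 hj0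
    have h1 : (nm j : ℝ) ≤ A ^ N * X ^ (B₀ * ((N : ℝ) + 1)) := by
      have h2 : Real.exp k ≤ X ^ B₀ := by rw [← hexpB]; exact Real.exp_le_exp.2 hkX
      have h3 : Real.exp 1 * X' ≤ A * X ^ B₀ := by
        rw [hA]
        have := mul_le_mul_of_nonneg_left hX'2 (Real.exp_pos 1).le
        linarith
      have h4 : 1 ≤ A * X ^ B₀ := one_le_mul_of_one_le_of_one_le hA1 hXB
      calc (nm j : ℝ) ≤ Real.exp k * (Real.exp 1 * X') ^ n := hj
        _ ≤ X ^ B₀ * (A * X ^ B₀) ^ n := by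
            refine mul_le_mul h2 (pow_le_pow_left₀ (by positivity) h3 n) (by positivity)
              (by positivity)
        _ ≤ X ^ B₀ * (A * X ^ B₀) ^ N :=
            mul_le_mul_of_nonneg_left (pow_le_pow_right₀ h4 hlen) (by positivity)
        _ = A ^ N * X ^ (B₀ * ((N : ℝ) + 1)) := by
            rw [mul_pow, mul_add, mul_one, Real.rpow_add hX0, Real.rpow_mul hX0.le,
              Real.rpow_natCast]
            ring
    have h5 : (tau j : ℝ) ≤ C₂ * (nm j : ℝ) ^ η := hτ j hj0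
    have h6 : (1 : ℝ) ≤ C₂ * (nm j : ℝ) ^ η := by
      have := Real.one_le_rpow hj1 hη0.le
      nlinarith
    calc (tau j : ℝ) ^ n ≤ (C₂ * (nm j : ℝ) ^ η) ^ n :=
          pow_le_pow_left₀ (Nat.cast_nonneg _) h5 n
      _ ≤ (C₂ * (nm j : ℝ) ^ η) ^ N := pow_le_pow_right₀ h6 hlen
      _ = C₂ ^ N * (nm j : ℝ) ^ (η * N) := by
          rw [mul_pow, ← Real.rpow_natCast ((nm j : ℝ) ^ η), ← Real.rpow_mul (by positivity)]
      _ ≤ C₂ ^ N * (A ^ N * X ^ (B₀ * ((N : ℝ) + 1))) ^ (η * N) := by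
          refine mul_le_mul_of_nonneg_left ?_ (by positivity)
          exact Real.rpow_le_rpow (by positivity) h1 (by positivity)
      _ = C₂ ^ N * ((A ^ N) ^ (η * N) * X ^ (B₀ * ((N : ℝ) + 1) * (η * N))) := by
          rw [Real.mul_rpow (by positivity) (by positivity), ← Real.rpow_mul hX0.le]
      _ ≤ C₂ ^ N * ((A ^ N) ^ (η * N) * X ^ (ε / 4)) := by
          refine mul_le_mul_of_nonneg_left ?_ (by positivity)
          refine mul_le_mul_of_nonneg_left ?_ (by positivity)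
          refine Real.rpow_le_rpow_of_exponent_le hX1 ?_
          linarith
      _ = D := by rw [hD, hD₀]; ring
  set B : ℝ := Bd * (1 + |t|) ^ ((N : ℝ) * M) * Real.exp N with hB
  have hB0 : 0 ≤ B := by positivity
  have key := H (Fin n) s hsOK X' hX'1 hsX 1 1 (fun _ _ => 1) (fun _ d => dl d)
    (fun _ _ => false) (wsy_one 1 1 (Fin n)) q (Real.exp k) (Real.exp_pos _).le B D 1 hB0 hD00
    le_rfl (fun i x _ _ => by
      by_cases hx : x = 1
      · rw [hx, dl_one]; simp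
      · rw [dl_ne hx]; simp) htau ?_
  · rw [alW_one] at key
    refine key.trans ?_
    rw [Fintype.card_fin]
    have h2 : 0 ≤ Real.log X' := Real.log_nonneg (by exact_mod_cast hX'1)
    have h3 : 1 ≤ C₁ * 1 ^ 2 * (Real.log X' + 1) ^ 2 := by
      rw [one_pow, mul_one]
      exact one_le_mul_of_one_le_of_one_le hC₁ (one_le_pow₀ (by linarith))
    have h4 : (C₁ * 1 ^ 2 * (Real.log X' + 1) ^ 2) ^ n ≤
        C₁ ^ N * ((B₀ + 1) ^ (2 * N) * C₃) * X ^ (ε / 4) := by
      calc (C₁ * 1 ^ 2 * (Real.log X' + 1) ^ 2) ^ n ≤ (C₁ * 1 ^ 2 * (Real.log X' + 1) ^ 2) ^ N :=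
            pow_le_pow_right₀ h3 hlen
        _ = C₁ ^ N * (Real.log X' + 1) ^ (2 * N) := by
            rw [one_pow, mul_one, mul_pow, ← pow_mul]
        _ ≤ C₁ ^ N * ((B₀ + 1) * (Real.log X + c₀)) ^ (2 * N) :=
            mul_le_mul_of_nonneg_left (pow_le_pow_left₀ (by linarith) hlogX' _)
              (by have : 0 ≤ C₁ := by linarith
                  positivity)
        _ = C₁ ^ N * ((B₀ + 1) ^ (2 * N) * (Real.log X + c₀) ^ (2 * N)) := by rw [mul_pow]
        _ ≤ C₁ ^ N * ((B₀ + 1) ^ (2 * N) * (C₃ * X ^ (ε / 4))) := by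
            refine mul_le_mul_of_nonneg_left (mul_le_mul_of_nonneg_left (hlog X hX1)
              (by positivity)) (by have : 0 ≤ C₁ := by linarith
                                   positivity)
        _ = _ := by ring
    have h5 : 0 ≤ D * B := mul_nonneg hD00 hB0
    refine (mul_le_mul_of_nonneg_right h4 h5).trans ?_
    have h6 : X ^ (ε / 4) * X ^ (ε / 4) ≤ X ^ ε := by
      rw [← Real.rpow_add hX0]
      exact Real.rpow_le_rpow_of_exponent_le hX1 (by linarith)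
    have hD₀0 : 0 ≤ D₀ := by positivity
    have hC₁0 : 0 ≤ C₁ := by linarith
    have hC₃0 : 0 ≤ C₃ := by linarith
    calc C₁ ^ N * ((B₀ + 1) ^ (2 * N) * C₃) * X ^ (ε / 4) * (D * B) =
          (C₁ ^ N * ((B₀ + 1) ^ (2 * N) * C₃)) * D₀ * Real.exp N * (X ^ (ε / 4) * X ^ (ε / 4)) *
            (Bd * (1 + |t|) ^ ((N : ℝ) * M)) := by rw [hD, hB]; ring
      _ ≤ (C₁ ^ N * ((B₀ + 1) ^ (2 * N) * C₃)) * D₀ * Real.exp N * X ^ ε *
            (Bd * (1 + |t|) ^ ((N : ℝ) * M)) := by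
          have : 0 ≤ Bd * (1 + |t|) ^ ((N : ℝ) * M) := by positivity
          refine mul_le_mul_of_nonneg_right (mul_le_mul_of_nonneg_left h6 (by positivity)) this
  · intro b g m Y t' hm hxd hY
    obtain ⟨d, hd⟩ := hxd
    have hg : g = fun _ => false := funext fun i => (hd i).2.2.1
    have hm0 : ∀ i, m i = 0 := by
      intro i
      obtain ⟨-, h1, -, h2, -⟩ := hd i
      have h3 : d i = 1 := by
        by_contra hne
        exact h1 (dl_ne hne)
      rw [h3, nm_one, Nat.cast_one, Real.log_one] at h2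
      have : (m i : ℝ) ≤ 0 := h2
      exact_mod_cast le_antisymm this (Nat.cast_nonneg _)
    have hY0 : ∀ i, 0 < Y i := fun i => by have := (hY i).1; linarith
    have hlogs : ∀ i, Real.log (s i).Y = (p i).z - Real.log (nm (y i)) := by
      intro i
      rw [hsY, Real.log_div (Real.exp_pos _).ne' (hypos i).ne', Real.log_exp]
    have hab : ∀ i, |Real.log (Y i) - ((p i).z - Real.log (nm (y i)))| ≤ 2 * R + 1 := by
      intro i
      have := (hY i).2
      rw [hlogs, hm0, Nat.cast_zero, sub_zero] at this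
      exact this
    set p' : Fin n → Pq := fun i => mkc (p i) (vk s b i) (Y i) (t' i) with hp'
    have hz' : ∀ i, (p' i).z = Real.log (Y i) := fun i => rfl
    have hsum : ∑ i : Fin n, ((m i : ℝ) + 1) = n := by
      rw [sum_congr rfl fun i _ => by rw [hm0 i, Nat.cast_zero, zero_add]]
      simp
    have hch : List.Forall₂ (ChN r) (List.ofFn p') (List.ofFn p) := by
      refine forall₂_ofFn p' p fun i => ⟨rfl, rfl, ?_, ?_, ?_⟩
      · intro hu
        show vk s b i = .one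
        have hu2 : (s i).u = .one := by
          show UT.sub (p i).u (y i) = .one
          unfold UT.sub
          rw [hu, if_neg (by simp)]
        unfold vk
        rw [if_neg (by rw [hu2]; simp), hu2]
      · rw [hz']
        exact Real.log_nonneg (hY i).1
      · rw [hz']
        have h1 := (abs_le.1 (hab i)).2
        have h2 := hylog i
        have h3 : 0 ≤ N * (2 * R + 2) := by positivity
        rw [hr]
        linarith
    have hLN : |LN (List.ofFn p') - (LN (List.ofFn p) - L)| ≤ r := by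
      rw [LN_ofFn, LN_ofFn, hL]
      have e : ∑ i, (p' i).z - (∑ i, (p i).z - ∑ i, Real.log (nm (y i))) =
          ∑ i, (Real.log (Y i) - ((p i).z - Real.log (nm (y i)))) := by
        rw [← sum_sub_distrib, ← sum_sub_distrib]
        exact sum_congr rfl fun i _ => by rw [hz']
      rw [e]
      refine (abs_sum_le_sum_abs _ _).trans ((sum_le_sum fun i _ => hab i).trans ?_)
      rw [sum_const, card_univ, Fintype.card_fin, nsmul_eq_mul, hr]
      have : (n : ℝ) * (2 * R + 1) ≤ N * (2 * R + 2) :=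
        mul_le_mul hnN (by linarith) (by linarith) hN0
      linarith
    have hl0 : 0 ≤ k + n := by positivity
    have hlk : |k + n - k| ≤ r := by
      rw [add_sub_cancel_left, abs_of_nonneg (Nat.cast_nonneg _), hr]
      nlinarith
    have h1 := hyp (k + n) (List.ofFn p') hl0 hch hLN hlk
    have e1 : SNK Kn q P h (k + n) (List.ofFn p') = VK Kn (Real.exp k *
        Real.exp (∑ i, ((m i : ℝ) + 1))) (sqc q (alf 1 1 h (cellP s (vk s b) Y t') g)) := by
      unfold I1K764.SNK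
      rw [hsum, ← Real.exp_add, al_ofFn, hg, alf_false]
      congr 3
      funext i
      exact mkc_pc P (p i) (vk s b i) (hY0 i) (t' i)
    rw [← e1, hsum]
    refine h1.trans ?_
    have e2 : cN (List.ofFn p') (List.ofFn p) = ∏ i, (1 + |t' i - (p i).t|) := by
      rw [cN_ofFn]
      rfl
    have hst : ∀ i, (s i).t = (p i).t + t := fun i => rfl
    have h7 : cN (List.ofFn p') (List.ofFn p) ≤
        (∏ i, (1 + |t' i - (s i).t|)) * (1 + |t|) ^ n := by
      rw [e2]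
      have h8 : ∀ i ∈ (univ : Finset (Fin n)), 1 + |t' i - (p i).t| ≤
          (1 + |t' i - (s i).t|) * (1 + |t|) := by
        intro i _
        rw [hst]
        have e4 : t' i - (p i).t = (t' i - ((p i).t + t)) + t := by ring
        have h6 := abs_add_le (t' i - ((p i).t + t)) t
        rw [← e4] at h6
        nlinarith [abs_nonneg (t' i - ((p i).t + t)), abs_nonneg t]
      refine (prod_le_prod (fun i _ => by positivity) h8).trans (le_of_eq ?_)
      rw [prod_mul_distrib, prod_const, card_univ, Fintype.card_fin]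
    have h9 : cN (List.ofFn p') (List.ofFn p) ^ M ≤
        (∏ i, (1 + |t' i - (s i).t|) ^ M) * (1 + |t|) ^ ((N : ℝ) * M) := by
      have h0 : 0 ≤ cN (List.ofFn p') (List.ofFn p) := I1146.cN_nonneg _ _
      have hp0 : 0 ≤ ∏ i, (1 + |t' i - (s i).t|) := prod_nonneg fun i _ => by positivity
      calc cN (List.ofFn p') (List.ofFn p) ^ M ≤
            ((∏ i, (1 + |t' i - (s i).t|)) * (1 + |t|) ^ n) ^ M := Real.rpow_le_rpow h0 h7 hM
        _ = (∏ i, (1 + |t' i - (s i).t|)) ^ M * ((1 + |t|) ^ n) ^ M :=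
            Real.mul_rpow hp0 (by positivity)
        _ ≤ (∏ i, (1 + |t' i - (s i).t|)) ^ M * ((1 + |t|) ^ N) ^ M := by
            refine mul_le_mul_of_nonneg_left (Real.rpow_le_rpow (by positivity)
              (pow_le_pow_right₀ (by linarith [abs_nonneg t]) hlen) hM) (Real.rpow_nonneg hp0 _)
        _ = _ := by
            rw [← Real.finsetProd_rpow _ _ fun i _ => by positivity, ← Real.rpow_natCast (1 + |t|) N,
              ← Real.rpow_mul (by positivity)]
    have h10 : 0 ≤ ∏ i, (1 + |t' i - (s i).t|) ^ M :=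
      prod_nonneg fun i _ => Real.rpow_nonneg (by positivity) _
    have h11 : 1 ≤ Real.exp N * Real.exp (-(n : ℝ)) := by
      rw [← Real.exp_add]
      exact Real.one_le_exp (by linarith)
    calc Bd * cN (List.ofFn p') (List.ofFn p) ^ M ≤
          Bd * ((∏ i, (1 + |t' i - (s i).t|) ^ M) * (1 + |t|) ^ ((N : ℝ) * M)) :=
          mul_le_mul_of_nonneg_left h9 hBd
      _ ≤ Bd * ((∏ i, (1 + |t' i - (s i).t|) ^ M) * (1 + |t|) ^ ((N : ℝ) * M)) *
            (Real.exp N * Real.exp (-(n : ℝ))) := le_mul_of_one_le_right (by positivity) h11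
      _ = _ := by rw [hB]; ring

/-- **the moments of the subsequences of `alb`**: free extra modulus `q` -/
theorem VK_alb (hKn : Ker Kn) {h : ℝ → ℝ} {c : ℝ} (hpu : PU h c) (N : ℕ) {B₀ : ℝ} (hB₀ : 0 ≤ B₀) {ε : ℝ}
    (hε : 0 < ε) {M : ℝ} (hM : 0 ≤ M) : ∃ C r : ℝ, 1 ≤ C ∧ 0 ≤ r ∧ ∀ X : ℝ, 1 ≤ X →
    ∀ (P : DPar), P.OK → ∀ (q : Eis) (n : ℕ) (p : Fin n → Pq), n ≤ N →
    (∀ i, (p i).z ≤ B₀ * Real.log X) → ∀ β : Fin n → Eis, (∀ i, IsPrim (β i)) →
    ∀ g : Eis, IsPrim g → Squarefree g → (nm g : ℝ) ≤ X ^ B₀ →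
    ∀ k t : ℝ, 0 ≤ k → k ≤ B₀ * Real.log X → ∀ Bd : ℝ, 0 ≤ Bd →
    (∀ (l : ℝ) (ps' : List Pq), 0 ≤ l → List.Forall₂ (ChN r) ps' (List.ofFn p) →
      |LN ps' - (LN (List.ofFn p) - Real.log (nm (∏ i, β i)) - Real.log (nm g))| ≤ r →
      |l - k| ≤ r →
      SNK Kn ((∏ i, β i) * g * q) P h l ps' ≤ Bd * cN ps' (List.ofFn p) ^ M) →
    VK Kn (Real.exp k) (fun m =>
      tws (sg (alb (fun i => pc h ((p i).pc P)) β) g) t m * prin0 q m) ≤
      C * X ^ ε * (Bd * (1 + |t|) ^ ((N : ℝ) * M)) := by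
  classical
  obtain ⟨R₀, hR₀⟩ := bump_of_cs hpu.cs
  obtain ⟨C, r, hC, hr, H⟩ := VK_shift hKn hpu N hB₀ (ε := ε / 2) (by positivity) hM
  set η := ε / (4 * ((N : ℝ) + 1) * (B₀ + 1)) with hη
  have hN0 : (0 : ℝ) ≤ N := Nat.cast_nonneg _
  have hη0 : 0 < η := by positivity
  obtain ⟨C₂, hC₂, hτ⟩ := tau_le_rpow hη0
  refine ⟨(C₂ ^ N) ^ 2 * C, r, one_le_mul_of_one_le_of_one_le (one_le_pow₀ (one_le_pow₀ hC₂)) hC,
    hr, ?_⟩
  intro X hX1 P hP q n p hlen hps β hβ g hg hgs hgX k t hk hkX Bd hBd hyp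
  have hX0 : (0 : ℝ) < X := by linarith
  have hsOK : ∀ i, ((p i).pc P).OK := fun i => Pq.ok hP _
  have hg1 : (1 : ℝ) ≤ nm g := by exact_mod_cast nm_pos.2 hg.ne_zero
  have hβpos : (0 : ℝ) < nm (∏ i, β i) := by
    exact_mod_cast nm_pos.2 (HP842.isPrim_prod hβ).ne_zero
  rw [alb_tws hsOK hβ hg hgs t q]
  set w : (Fin n → Eis) → Eis → ℂ := fun x => if x ∈ Tu (Fin n) g then
    sqc ((∏ i, β i) * g * q) (al h fun i => tsh t (sh ((p i).pc P) (β i * x i))) else
    fun _ => 0 with hw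
  have hwFS : ∀ x, FS (w x) := by
    intro x
    rw [hw]
    beta_reduce
    split_ifs with hx
    · have hxp : ∀ i, IsPrim (x i) := fun i => ((mem_Tu).1 hx).1 i
      exact P1f54.FS_sqc_al hR₀ (fun i => tsh_OK (sh_OK (hsOK i) ((hβ i).mul (hxp i))) t) _
    · exact ⟨by simp [Function.support], fun m hm => absurd rfl hm⟩
  have e1 : (fun m => ∑ x ∈ Tu (Fin n) g, k1 (fun i => (p i).pc P) β x g *
      sqc ((∏ i, β i) * g * q) (al h fun i => tsh t (sh ((p i).pc P) (β i * x i))) m) =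
      fun m => ∑ x ∈ Tu (Fin n) g, k1 (fun i => (p i).pc P) β x g * w x m := by
    funext m
    refine Finset.sum_congr rfl fun x hx => ?_
    rw [hw]
    beta_reduce
    rw [if_pos hx]
  rw [e1]
  refine (VK_sum_le (Real.exp k) (Tu (Fin n) g) (fun x => k1 (fun i => (p i).pc P) β x g) ?_ w
    hwFS).trans ?_
  · intro x hx
    exact norm_k1_le hsOK hβ (fun i => ((mem_Tu).1 hx).1 i) g
  have hB : ∀ x ∈ Tu (Fin n) g, VK Kn (Real.exp k) (w x) ≤
      C * X ^ (ε / 2) * (Bd * (1 + |t|) ^ ((N : ℝ) * M)) := by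
    intro x hx
    have hx' := (mem_Tu).1 hx
    rw [hw]
    beta_reduce
    rw [if_pos hx]
    refine H X hX1 P hP _ n p hlen hps (fun i => β i * x i) (fun i => (hβ i).mul (hx'.1 i)) k t hk
      hkX Bd hBd ?_
    intro l ps' hl hch hLN hlk
    refine hyp l ps' hl hch ?_ hlk
    have e2 : Real.log (nm (∏ i, β i * x i)) =
        Real.log (nm (∏ i, β i)) + Real.log (nm g) := by
      rw [prod_mul_distrib, hx'.2, nm_mul]
      push_cast
      exact Real.log_mul hβpos.ne' (by positivity)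
    rw [e2, ← sub_sub] at hLN
    exact hLN
  refine (mul_le_mul_of_nonneg_left (sum_le_sum hB) (Nat.cast_nonneg _)).trans ?_
  rw [sum_const, nsmul_eq_mul]
  have hcard : ((Tu (Fin n) g).card : ℝ) ≤ C₂ ^ N * X ^ (ε / 4) := by
    have h1 : ((Tu (Fin n) g).card : ℝ) ≤ (tau g : ℝ) ^ n := by
      have := HP842.card_Tu_le (ι := Fin n) g
      rw [Fintype.card_fin] at this
      exact_mod_cast this
    have h2 : (1 : ℝ) ≤ C₂ * (nm g : ℝ) ^ η :=
      one_le_mul_of_one_le_of_one_le hC₂ (Real.one_le_rpow hg1 hη0.le)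
    calc ((Tu (Fin n) g).card : ℝ) ≤ (tau g : ℝ) ^ n := h1
      _ ≤ (C₂ * (nm g : ℝ) ^ η) ^ n := pow_le_pow_left₀ (Nat.cast_nonneg _) (hτ g hg.ne_zero) n
      _ ≤ (C₂ * (nm g : ℝ) ^ η) ^ N := pow_le_pow_right₀ h2 hlen
      _ = C₂ ^ N * (nm g : ℝ) ^ (η * N) := by
          rw [mul_pow, ← Real.rpow_natCast ((nm g : ℝ) ^ η), ← Real.rpow_mul (by positivity)]
      _ ≤ C₂ ^ N * (X ^ B₀) ^ (η * N) := by
          refine mul_le_mul_of_nonneg_left ?_ (by positivity)
          exact Real.rpow_le_rpow (by linarith) hgX (by positivity)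
      _ = C₂ ^ N * X ^ (B₀ * (η * N)) := by rw [← Real.rpow_mul hX0.le]
      _ ≤ C₂ ^ N * X ^ (ε / 4) := by
          refine mul_le_mul_of_nonneg_left (Real.rpow_le_rpow_of_exponent_le hX1 ?_)
            (by positivity)
          have h0 : (0 : ℝ) < 4 * ((N : ℝ) + 1) * (B₀ + 1) := by positivity
          rw [hη, div_mul_eq_mul_div, mul_div_assoc', div_le_div_iff₀ h0 (by norm_num)]
          have h3 : B₀ * N ≤ (B₀ + 1) * ((N : ℝ) + 1) := by
            gcongr <;> linarith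
          nlinarith [mul_le_mul_of_nonneg_left h3 hε.le]
  set Z : ℝ := C * X ^ (ε / 2) * (Bd * (1 + |t|) ^ ((N : ℝ) * M)) with hZ
  have hZ0 : 0 ≤ Z := by
    have : 0 ≤ C := by linarith
    positivity
  have hc0 : (0 : ℝ) ≤ ((Tu (Fin n) g).card : ℝ) := Nat.cast_nonneg _
  have hC20 : 0 ≤ C₂ ^ N * X ^ (ε / 4) := by
    have : 0 ≤ C₂ := by linarith
    positivity
  calc ((Tu (Fin n) g).card : ℝ) * (((Tu (Fin n) g).card : ℝ) * Z) ≤
        (C₂ ^ N * X ^ (ε / 4)) * ((C₂ ^ N * X ^ (ε / 4)) * Z) :=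
        mul_le_mul hcard (mul_le_mul_of_nonneg_right hcard hZ0) (mul_nonneg hc0 hZ0) hC20
    _ = (C₂ ^ N) ^ 2 * C * (X ^ (ε / 4) * X ^ (ε / 4) * X ^ (ε / 2)) *
          (Bd * (1 + |t|) ^ ((N : ℝ) * M)) := by rw [hZ]; ring
    _ = _ := by
        rw [← Real.rpow_add hX0, ← Real.rpow_add hX0]
        congr 3
        ring

end Crest.Agent.R017.VKa792
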