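import Crest.Agent.R017.XVNa_792
import Crest.Agent.R017.VKalb_792
import Crest.Agent.R017.E5BDefs_71
import Crest.Agent.R017.ExRed4_848

/-!
# Row 17, T-numbers : `VN` of the three-lump sequences from the claims of the children (helper792)

* `ClK Kn h P X H M r K us β F` : the claims of the children (untwisted lists)
* `vk_cl` : the moments with kernel `Kn` of the subsequences of `alb`
* **`vn_f3`** : class N, pieces twisted by an `S`-unit
* **`adm_f3`** : the window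
-/

set_option autoImplicit false
set_option linter.unusedVariables false
set_option linter.unusedSectionVars false

noncomputable section

open scoped ComplexConjugate

namespace Crest.Agent.R017.TEX792

open Crest.Agent.R012 Crest.Agent.R012.Eis
open Crest.Agent.R012.LS2 (S mem_S bl mem_bl)
open Crest.Agent.R012.Weight600 (pw)
open Crest.Agent.R017.CM106 (TG FS)
open Crest.Agent.R017.HP842 (Pc pc Ker ker_Kg Kg)
open Crest.Agent.R017.FE47 (PU cx)
open Crest.Agent.R017.Prov71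
open Crest.Agent.R017.B770
open Crest.Agent.R017.End699 (prin0)
open Crest.Agent.R017.E1551 (tws sg Adm)
open Crest.Agent.R017.Rough381 (VF)
open Crest.Agent.R017.TEL792 (PM FS_PM)
open Crest.Agent.R017.E5k54 (alb)
open Crest.Agent.R017.E5B71 (Pt)
open Crest.Agent.R017.I1146 (tw3 Dom dom_tw ds ChN LN cN)
open Crest.Agent.R017.I1K764 (SNK)
open Crest.Agent.R017.LegK545 (VK VK_Kg)
open Crest.Agent.R017.TEM792 (nm_pos_r VN Xn Xn_pos Adm_alb nL)

/-- **the claims of the children of the three lumps** (untwisted lists, kernel `Kn`) -/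
def ClK (Kn : Eis → Eis → ℂ) (h : ℝ → ℝ) (P : DPar) (X H : ℝ) (M : ℕ) (r K : ℝ)
    (us : Fin 3 → Pq) (β : Fin 3 → Eis) (F : ℝ → ℝ → ℝ) : Prop :=
  ∀ g : Eis, IsPrim g → Squarefree g → (nm g : ℝ) ≤ X ^ K → ∀ q : Eis, q ≠ 0 →
    (nm q : ℝ) ≤ X ^ K → ∀ k : ℝ, 0 ≤ k → k ≤ K * Real.log X →
    ∀ (l : ℝ) (ps' : List Pq), 0 ≤ l → List.Forall₂ (ChN r) ps' (List.ofFn us) →
    |LN ps' - (∑ i, (us i).z - Real.log (nm (∏ i, β i)) - Real.log (nm g))| ≤ r →
    |l - k| ≤ r → SNK Kn ((∏ i, β i) * g * q) P h l ps' ≤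
      H ^ M * X ^ F (k / Real.log X) (Real.log (nm g) / Real.log X) *
        cN ps' (List.ofFn us) ^ (M : ℝ)

/-- large powers -/
lemma const_le (C ε : ℝ) (hε : 0 < ε) : ∃ X₀ : ℝ, 1 < X₀ ∧ ∀ X : ℝ, X₀ ≤ X → C ≤ X ^ ε := by
  obtain ⟨X₀, h1, h2⟩ := TEM792.big |C| ε 0 hε (abs_nonneg C) le_rfl
  refine ⟨X₀, h1, fun X hX => ?_⟩
  have h3 := h2 X hX
  rw [zero_mul, add_zero, mul_one] at h3
  exact (le_abs_self C).trans h3

/-- **the moments with kernel `Kn` of the subsequences of `alb`** -/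
theorem vk_cl {Kn : Eis → Eis → ℂ} (hKn : Ker Kn) {h : ℝ → ℝ} {c : ℝ} (hpu : PU h c) {ε : ℝ}
    (hε : 0 < ε) (K : ℝ) (hK : 1 ≤ K) (M : ℕ) : ∃ (r X₀ : ℝ), 0 ≤ r ∧ 1 < X₀ ∧
    ∀ X : ℝ, X₀ ≤ X → ∀ H : ℝ, 1 ≤ H → ∀ P : DPar, P.OK → ∀ (us : Fin 3 → Pq) (β : Fin 3 → Eis),
      (∀ i, (us i).z ≤ K * Real.log X) → (∀ i, IsPrim (β i)) → ∀ F : ℝ → ℝ → ℝ,
      ClK Kn h P X H M r K us β F → ∀ g : Eis, IsPrim g → Squarefree g → (nm g : ℝ) ≤ X ^ K →
      ∀ q : Eis, q ≠ 0 → (nm q : ℝ) ≤ X ^ K → ∀ k : ℝ, 0 ≤ k → k ≤ K * Real.log X → ∀ t : ℝ,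
      VK Kn (Real.exp k) (PM q (tws (sg (alb (fun i => pc h ((us i).pc P)) β) g) t)) ≤
        H ^ M * X ^ (F (k / Real.log X) (Real.log (nm g) / Real.log X) + ε) *
          (1 + |t|) ^ (3 * (M : ℝ)) := by
  obtain ⟨C, r, hC, hr, H1⟩ := VKa792.VK_alb hKn hpu 3 (B₀ := K) (by linarith)
    (show 0 < ε / 2 by positivity) (Nat.cast_nonneg M)
  obtain ⟨X₁, hX₁, H2⟩ := const_le C (ε / 2) (by positivity)
  refine ⟨r, X₁, hr, hX₁, ?_⟩
  intro X hX H hH P hP us β hz hβ F hcl g hg hgs hgK q hq hqK k hk hkK t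
  have hX1 : 1 < X := lt_of_lt_of_le hX₁ hX
  have hX0 : 0 < X := by linarith
  have hB : 0 ≤ H ^ M * X ^ F (k / Real.log X) (Real.log (nm g) / Real.log X) := by positivity
  have h1 := H1 X hX1.le P hP q 3 us le_rfl hz β hβ g hg hgs hgK k t hk hkK
    (H ^ M * X ^ F (k / Real.log X) (Real.log (nm g) / Real.log X)) hB
    (fun l ps' hl hch hLN hlk => hcl g hg hgs hgK q hq hqK k hk hkK l ps' hl hch (by
      rwa [VFa436.LN_ofFn] at hLN) hlk)
  refine h1.trans ?_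
  have h2 := H2 X hX
  have ht : (0 : ℝ) ≤ (1 + |t|) ^ (3 * (M : ℝ)) := by positivity
  have hp : 0 ≤ X ^ (ε / 2) := by positivity
  have e1 : ((3 : ℕ) : ℝ) * (M : ℝ) = 3 * (M : ℝ) := by norm_num
  have e2 : X ^ (F (k / Real.log X) (Real.log (nm g) / Real.log X) + ε) =
      X ^ (ε / 2) * X ^ (ε / 2) * X ^ F (k / Real.log X) (Real.log (nm g) / Real.log X) := by
    rw [← Real.rpow_add hX0, ← Real.rpow_add hX0]
    congr 1
    ring
  rw [e1, e2]
  calc C * X ^ (ε / 2) * (H ^ M * X ^ F (k / Real.log X) (Real.log (nm g) / Real.log X) *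
        (1 + |t|) ^ (3 * (M : ℝ)))
      ≤ X ^ (ε / 2) * X ^ (ε / 2) * (H ^ M *
        X ^ F (k / Real.log X) (Real.log (nm g) / Real.log X) * (1 + |t|) ^ (3 * (M : ℝ))) := by
        gcongr
    _ = _ := by ring

lemma pc_prim' {h : ℝ → ℝ} {s : Pc} {m : Eis} (hm : pc h s m ≠ 0) : IsPrim m := by
  by_contra h0
  apply hm
  unfold HP842.pc
  rw [if_neg h0]

/-- the twisted pieces -/
lemma pc_Pt (h : ℝ → ℝ) (P : DPar) (s : Eis) (p : Pq) (m : Eis) :
    pc h (Pt P s p) m = sy s m * pc h (p.pc P) m := by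
  unfold HP842.pc
  by_cases hm : IsPrim m
  · rw [if_pos hm, if_pos hm]
    show HP842.uv p.u m * ((p.pc P).ψ m * sy s m) * HSep813.gw h (Real.exp p.z) p.t m =
      sy s m * (HP842.uv p.u m * (p.pc P).ψ m * HSep813.gw h (Real.exp p.z) p.t m)
    ring
  · rw [if_neg hm, if_neg hm, mul_zero]

/-- the support of the pieces is prime to `n` -/
lemma pc_cop {P : DPar} (hP : P.OK) {h : ℝ → ℝ} {p : Pq} {m : Eis} (hm : pc h (p.pc P) m ≠ 0) :
    IsCoprime m P.n := by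
  by_contra h0
  exact hm (Red848.pc_zero hP.φ hP.ψ h p fun h1 => h0 h1.2)

lemma alb_cop {P : DPar} (hP : P.OK) {h : ℝ → ℝ} {us : Fin 3 → Pq} {β : Fin 3 → Eis} {n : Eis}
    (hn : alb (fun i => pc h ((us i).pc P)) β n ≠ 0) : IsCoprime n P.n := by
  obtain ⟨-, -, a, rfl, ha⟩ := P1e54.alb_ne hn
  exact IsCoprime.prod_left fun i _ => (pc_cop hP (ha i)).of_mul_left_right

/-- **`VN` for the three twisted lumps (class N)** -/
theorem vn_f3 {h : ℝ → ℝ} {c : ℝ} (hpu : PU h c) {ε : ℝ} (hε : 0 < ε) (K : ℝ) (hK : 1 ≤ K)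
    (M : ℕ) : ∃ r : ℝ, 0 ≤ r ∧ ∀ (P : DPar), P.OK → ∀ s : Eis, s ∈ FE47.SM P.n → ∃ X₀ : ℝ,
    1 < X₀ ∧ ∀ X : ℝ, X₀ ≤ X → ∀ H : ℝ, 1 ≤ H → ∀ (us : Fin 3 → Pq) (β : Fin 3 → Eis),
      (∀ i, (us i).z ≤ K * Real.log X) → (∀ i, IsPrim (β i)) → ∀ F : ℝ → ℝ → ℝ,
      (∀ v σ γ, 0 ≤ σ → F (v + σ) γ ≤ F v γ + σ) → ClK Kg h P X H M r (K + 1) us β F →
      VN X H M K (alb (fun i => pc h (Pt P s (us i))) β) (fun v γ => F v γ + ε) := by
  obtain ⟨r, X₁, hr, hX₁, H1⟩ := vk_cl ker_Kg hpu (show 0 < ε / 4 by positivity) (K + 1)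
    (by linarith) M
  refine ⟨r, hr, fun P hP s hs => ?_⟩
  have hs0 : s ≠ 0 := hs.1
  have hsn := nm_pos_r hs0
  have hsn1 : (1 : ℝ) ≤ nm s := by exact_mod_cast nm_pos.2 hs0
  obtain ⟨X₂, hX₂, H2⟩ := const_le ((ds s).card : ℝ) (ε / 4) (by positivity)
  obtain ⟨X₃, hX₃, H3⟩ := const_le ((nm s : ℝ) ^ 2) (min 1 (ε / 4)) (by positivity)
  refine ⟨max X₁ (max X₂ X₃), lt_of_lt_of_le hX₁ (le_max_left _ _), ?_⟩
  intro X hX H hH us β hz hβ F hF hcl g hg hgs hgK q hq hqK k hk hkK t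
  have hXX1 : X₁ ≤ X := (le_max_left _ _).trans hX
  have hXX2 : X₂ ≤ X := ((le_max_left _ _).trans (le_max_right _ _)).trans hX
  have hXX3 : X₃ ≤ X := ((le_max_right _ _).trans (le_max_right _ _)).trans hX
  have hX1 : 1 < X := lt_of_lt_of_le hX₁ hXX1
  have hX0 : 0 < X := by linarith
  set L := Real.log X with hL
  have hL0 : 0 < L := Real.log_pos hX1
  have hL' := H3 X hXX3
  have hls : 0 ≤ 2 * Real.log (nm s) := by
    have := Real.log_nonneg hsn1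
    linarith
  have hls2 : 2 * Real.log (nm s) ≤ min 1 (ε / 4) * L := by
    have h1 := Real.log_le_log (by positivity) hL'
    rw [Real.log_pow, Real.log_rpow hX0] at h1
    exact_mod_cast h1
  have hls3 : 2 * Real.log (nm s) ≤ L := hls2.trans (by
    have := min_le_left 1 (ε / 4)
    nlinarith)
  have hls4 : 2 * Real.log (nm s) / L ≤ ε / 4 := by
    rw [div_le_iff₀ hL0]
    exact hls2.trans (mul_le_mul_of_nonneg_right (min_le_right _ _) hL0.le)
  set al := alb (fun i => pc h ((us i).pc P)) β with hal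
  have hprim : ∀ n, al n ≠ 0 → IsPrim n := fun n hn =>
    P1e54.alb_prim (fun i m hm => pc_prim' hm) hβ hn
  have hcop : ∀ n, al n ≠ 0 → IsCoprime s n := fun n hn =>
    (FE47.SM.coprime hs (alb_cop hP hn)).symm
  have e1 : alb (fun i => pc h (Pt P s (us i))) β =
      fun m => sy s (∏ i, β i) * tw3 s al m :=
    alb_tw (f := fun i => pc h ((us i).pc P)) (fun i m hm => pc_prim' hm)
      (fun i m => pc_Pt h P s (us i) m) hβ
  rw [e1]
  have hβp : IsPrim (∏ i, β i) := HP842.isPrim_prod hβ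
  have hV1 : 1 ≤ Real.exp k := Real.one_le_exp hk
  refine (vf_tw hs0 hprim hcop (Char766.norm_sy_le hβp) hg q t hV1).trans ?_
  set k' := k + 2 * Real.log (nm s) with hk'
  have e2 : Real.exp k * (nm s : ℝ) ^ 2 = Real.exp k' := by
    rw [hk', Real.exp_add]
    congr 1
    rw [two_mul, Real.exp_add, Real.exp_log hsn]
    ring
  rw [e2, ← VK_Kg]
  have hup : X ^ K ≤ X ^ (K + 1) := Real.rpow_le_rpow_of_exponent_le hX1.le (by linarith)
  have h1 := H1 X hXX1 H hH P hP us β (fun i => (hz i).trans (by nlinarith)) hβ F hcl g hg hgs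
    (hgK.trans hup) q hq (hqK.trans hup) k' (by positivity) (by rw [hk', ← hL]; nlinarith) t
  rw [← hal, ← hL] at h1
  set γ := Real.log (nm g) / L with hγ
  have h2 : F (k' / L) γ ≤ F (k / L) γ + ε / 4 := by
    have h3 := hF (k / L) (2 * Real.log (nm s) / L) γ (by positivity)
    have e3 : k' / L = k / L + 2 * Real.log (nm s) / L := by rw [hk']; ring
    rw [e3]
    linarith
  have hD := H2 X hXX2
  have h4 : X ^ (F (k' / L) γ + ε / 4) ≤ X ^ (F (k / L) γ + ε / 4 + ε / 4) :=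
    Real.rpow_le_rpow_of_exponent_le hX1.le (by linarith)
  have hHM : (0 : ℝ) ≤ H ^ M := by positivity
  have ht : (0 : ℝ) ≤ (1 + |t|) ^ (3 * (M : ℝ)) := by positivity
  have h5 : VK Kg (Real.exp k') (PM q (tws (sg al g) t)) ≤
      H ^ M * X ^ (F (k / L) γ + ε / 4 + ε / 4) * (1 + |t|) ^ (3 * (M : ℝ)) := by
    refine h1.trans ?_
    gcongr
  calc ((ds s).card : ℝ) * VK Kg (Real.exp k') (PM q (tws (sg al g) t))
      ≤ X ^ (ε / 4) * (H ^ M * X ^ (F (k / L) γ + ε / 4 + ε / 4) *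
        (1 + |t|) ^ (3 * (M : ℝ))) :=
        mul_le_mul hD h5 (LegK545.VK_nonneg _ _ _) (by positivity)
    _ = H ^ M * (X ^ (ε / 4) * X ^ (F (k / L) γ + ε / 4 + ε / 4)) *
        (1 + |t|) ^ (3 * (M : ℝ)) := by ring
    _ ≤ H ^ M * X ^ (F (k / L) γ + ε) * (1 + |t|) ^ (3 * (M : ℝ)) := by
        have h6 : X ^ (ε / 4) * X ^ (F (k / L) γ + ε / 4 + ε / 4) ≤ X ^ (F (k / L) γ + ε) := by
          rw [← Real.rpow_add hX0]
          exact Real.rpow_le_rpow_of_exponent_le hX1.le (by linarith)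
        gcongr

/-- **the window of the three twisted lumps** -/
theorem adm_f3 {h : ℝ → ℝ} {R : ℝ} (hR0 : 0 ≤ R) (hR : ∀ u, cx h u ≠ 0 → |u| ≤ R) (P : DPar)
    (s : Eis) (us : Fin 3 → Pq) {β : Fin 3 → Eis} (hβ : ∀ i, IsPrim (β i)) :
    Adm (Xn us β * Real.exp (3 * R)) (Xn us β) (6 * R)
      (alb (fun i => pc h (Pt P s (us i))) β) := by
  have h0 := Adm_alb hR0 hR P us hβ
  have e1 : alb (fun i => pc h (Pt P s (us i))) β =
      fun m => sy s (∏ i, β i) * tw3 s (alb (fun i => pc h ((us i).pc P)) β) m :=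
    alb_tw (f := fun i => pc h ((us i).pc P)) (fun i m hm => pc_prim' hm)
      (fun i m => pc_Pt h P s (us i) m) hβ
  rw [e1]
  have key : ∀ n, sy s (∏ i, β i) * tw3 s (alb (fun i => pc h ((us i).pc P)) β) n ≠ 0 →
      alb (fun i => pc h ((us i).pc P)) β n ≠ 0 := fun n hn =>
    right_ne_zero_of_mul (right_ne_zero_of_mul hn)
  exact ⟨fun n hn => h0.sup n (key n hn), fun n hn => h0.win n (key n hn)⟩

end Crest.Agent.R017.TEX792
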