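import Crest.Agent.R017.ET4c_90
import Crest.Agent.R017.RXn2_770
import Crest.Agent.R017.XVNb_792
import Crest.Agent.R017.P1Q_904
import Crest.Agent.R017.Sf_770

/-!
# Row 17, R8: the second moment of one level of the structured function, tools (helper521)

* `StE_win` : the window of one level
* `rm_alt` : the twisted lumps in the `R`-moments
* `rn_pt` : the `R`-number at one pair
* `lnT_of` : the real lines in units `log X`
-/

set_option autoImplicit false
set_option linter.unusedVariables false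

noncomputable section

open Finset
open scoped Classical ComplexConjugate ContDiff

namespace Crest.Agent.R017.SP521

open Crest.Agent.R012 Crest.Agent.R012.Eis
open Crest.Agent.R012.LS2 (S mem_S bl)
open Crest.Agent.R017.C70
open Crest.Agent.R017.CM106 (CS FS)
open Crest.Agent.R017.HB645 (hh)
open Crest.Agent.R017.E1551 (nmpos Adm)
open Crest.Agent.R017.E3Z548 (FH FH_nonneg)
open Crest.Agent.R017.E3Kc548 (LI mem_LI card_LI)
open Crest.Agent.R017.E3Hf290 (RN2F)
open Crest.Agent.R017.E3Sz579 (Ld Md)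
open Crest.Agent.R017.E2440 (TE StE)
open Crest.Agent.R017.R3571 (RMm RMm_nonneg)
open Crest.Agent.R017.E5L770 (wL omL lv contDiff_wLc wLc_bd wL_supp omL_supp)
open Crest.Agent.R017.Sf770 (JS)
open Crest.Agent.R017.ET490 (lw0 lw1 LnT)
open Crest.Agent.R017.P1Q904 (gQ)
open Crest.Agent.R017.HP842 (Pc pc)
open Crest.Agent.R017.B770 Crest.Agent.R017.Prov71
open Crest.Agent.R017.E5B71 (Pt)
open Crest.Agent.R017.E5k54 (PT alb)

/-! ### the windows -/

/-- the derivatives of the windows, one bound -/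
lemma wL_all (n : ℕ) : ∃ M : ℝ, 1 ≤ M ∧ ∀ i : ℕ, ∀ j ≤ n, ∀ x : ℝ,
    ‖iteratedDeriv j (fun u => (wL i u : ℂ)) x‖ ≤ M := by
  choose C hC H using wLc_bd
  refine ⟨1 + ∑ j ∈ range (n + 1), C j, by
    have : 0 ≤ ∑ j ∈ range (n + 1), C j := sum_nonneg fun j _ => hC j
    linarith, fun i j hj x => ?_⟩
  have h1 : C j ≤ ∑ j ∈ range (n + 1), C j :=
    single_le_sum (f := C) (fun j _ => hC j) (mem_range.2 (by omega))
  have := H j i x
  linarith

/-- the window of a level -/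
lemma wL_win {i₀ : ℕ} {n : ℝ} (hn : 0 < n)
    (hw : |Real.log n - Real.log 2 * i₀| ≤ Real.log 2) : (2 : ℝ) ^ i₀ / 4 < n ∧
      n ≤ 2 ^ (i₀ + 1) := by
  obtain ⟨h1, h2⟩ := abs_le.1 hw
  have hl2 : 0 < Real.log 2 := Real.log_pos (by norm_num)
  have h4 : Real.log 4 = 2 * Real.log 2 := by
    rw [show (4 : ℝ) = 2 ^ 2 by norm_num, Real.log_pow]; push_cast; ring
  constructor
  · rw [← Real.exp_log hn, ← Real.exp_log (show (0 : ℝ) < 2 ^ i₀ / 4 by positivity),
      Real.log_div (by positivity) (by norm_num), Real.log_pow, h4]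
    exact Real.exp_lt_exp.2 (by linarith)
  · rw [← Real.exp_log hn, ← Real.exp_log (show (0 : ℝ) < 2 ^ (i₀ + 1) by positivity),
      Real.log_pow]
    refine Real.exp_le_exp.2 ?_
    push_cast
    linarith

lemma FS_of_Adm {Y X R : ℝ} {al : Eis → ℂ} (hY : 0 ≤ Y) (h : Adm Y X R al) : FS al where
  fin := (S Y).finite_toSet.subset fun n hn => h.sup n (Function.mem_support.1 hn)
  prim := fun n hn => ((mem_S hY).1 (h.sup n hn)).2.1

/-- the window of one level -/
def Jw (i₀ n₀ : ℕ) : Finset (Eis × Eis) :=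
  JW (Real.sqrt (2 ^ n₀)) (2 ^ i₀ / 4) (2 ^ (i₀ + 1))

lemma Jw_mem {i₀ n₀ : ℕ} {x : Eis × Eis} (hx : x ∈ Jw i₀ n₀) : IsPrim x.1 ∧
    (nm x.2 : ℝ) ≤ 2 ^ (i₀ + 1) ∧ (nm x.2 : ℝ) * (nm x.1 : ℝ) ^ 2 ≤ 2 ^ (i₀ + 1) := by
  unfold Jw C70.JW at hx
  rw [mem_filter, mem_product, mem_primBall] at hx
  obtain ⟨⟨⟨h1, h2⟩, h3⟩, h4, h5, h6, h7⟩ := hx
  have hn : (0 : ℝ) ≤ 2 ^ (i₀ + 1) := by positivity
  refine ⟨h2, ?_, ?_⟩
  · rw [mem_ball] at h3
    exact (Nat.le_floor_iff hn).1 h3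
  · rw [nm_mul, nm_pow] at h7
    push_cast at h7
    exact h7

lemma Jw_ne {i₀ n₀ : ℕ} {x : Eis × Eis} (hx : x ∈ Jw i₀ n₀) : x.2 ≠ 0 := by
  intro h0
  unfold Jw C70.JW at hx
  rw [mem_filter] at hx
  have h6 := hx.2.2.2.1
  rw [h0, zero_mul] at h6
  have : (0 : ℝ) < 2 ^ i₀ / 4 := by positivity
  simp at h6
  linarith

/-- **the window of one level** -/
theorem StE_win {i₀ n₀ : ℕ} (h : i₀ < n₀) (E0 : ℝ) (α : Eis → ℂ) (k : Eis) :
    StE E0 (JS n₀) (omL i₀) α k = StE E0 (Jw i₀ n₀) (omL i₀) α k := by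
  have h2 : (2 : ℝ) ^ (i₀ + 1) ≤ 2 ^ n₀ := pow_le_pow_right₀ (by norm_num) h
  have hsub : Jw i₀ n₀ ⊆ JS n₀ := by
    intro x hx
    have hx0 := Jw_ne hx
    have hp := (Jw_mem hx).1
    unfold Jw C70.JW at hx
    unfold Sf770.JS C70.JW
    rw [mem_filter, mem_product, mem_ball] at hx ⊢
    obtain ⟨⟨h1, h3⟩, h4, h5, h6, h7⟩ := hx
    have hn1 : (1 : ℝ) ≤ nm (x.2 * x.1 ^ 2) := by
      exact_mod_cast nm_pos.2 (mul_ne_zero hx0 (pow_ne_zero 2 hp.ne_zero))
    exact ⟨⟨h1, h3.trans (Nat.floor_le_floor h2)⟩, h4, h5, by linarith, h7.trans h2⟩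
  unfold E2440.StE
  symm
  refine sum_subset hsub fun x hx hxn => ?_
  by_cases h0 : omL i₀ x = 0
  · rw [h0, zero_mul]
  exfalso
  apply hxn
  have hlv := omL_supp h0
  have hJ := (okJ_JW _ _ _).prim x (show x ∈ JW _ _ _ from hx)
  unfold Sf770.JS C70.JW at hx
  unfold Jw C70.JW
  rw [mem_filter, mem_product, mem_ball] at hx ⊢
  obtain ⟨⟨h1, h3⟩, h4, h5, h6, h7⟩ := hx
  have hn0 : (0 : ℝ) < nm (x.2 * x.1 ^ 2) := by linarith
  obtain ⟨g1, g2⟩ := wL_win hn0 hlv
  refine ⟨⟨h1, Nat.le_floor (le_trans ?_ g2)⟩, h4, h5, g1, g2⟩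
  rw [nm_mul]
  have : 0 < nm (x.1 ^ 2) := nm_pos.2 (pow_ne_zero 2 hJ.ne_zero)
  exact_mod_cast Nat.le_mul_of_pos_right _ this

/-- the levels of the window -/
lemma LI_win {i₀ i : ℕ} (h : i ∈ LI (2 ^ i₀ / 4) (2 ^ (i₀ + 1))) :
    |(i : ℝ) - Real.log 2 * i₀| ≤ 3 := by
  obtain ⟨h1, h2, h3⟩ := mem_LI h
  have hl2 : 0 < Real.log 2 := Real.log_pos (by norm_num)
  have hl2' : Real.log 2 < 1 := by
    have := Real.log_two_lt_d9
    linarith
  have h4 : Real.log 4 = 2 * Real.log 2 := by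
    rw [show (4 : ℝ) = 2 ^ 2 by norm_num, Real.log_pow]; push_cast; ring
  rw [← Real.exp_add, ← Real.log_le_iff_le_exp (by positivity),
    Real.log_div (by positivity) (by norm_num), Real.log_pow, h4] at h2
  rw [← Real.exp_log (show (0 : ℝ) < 2 ^ (i₀ + 1) by positivity), ← Real.exp_add,
    Real.exp_le_exp, Real.log_pow] at h3
  push_cast at h3
  rw [abs_le]
  constructor <;> linarith

/-! ### the twist -/

variable {h : ℝ → ℝ}

/-- **an `S`-unit twist in the lumps is a shift of the frequency** -/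
theorem rm_alt (A : ℝ) {P : DPar} {s : Eis} {n : ℕ} (us : Fin n → Pq) {β : Fin n → Eis}
    (hβ : ∀ i, IsPrim (β i)) {D : Eis} (hD : IsPrim D) {γ : Eis} (hγ : IsPrim γ) (e φ r : Eis) :
    RMm A (fun m => alb (fun i => pc h (Pt P s (us i))) β (D * m)) e γ φ r ≤
      RMm A (fun m => alb (fun i => pc h ((us i).pc P)) β (D * m)) e γ φ (r * s) := by
  set a0 : Eis → ℂ := alb (fun i => pc h ((us i).pc P)) β with ha0
  have hprim : ∀ m, a0 m ≠ 0 → IsPrim m := fun m hm =>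
    P1e54.alb_prim (fun i m hm => TEX792.pc_prim' hm) hβ hm
  have e1 : (fun m => alb (fun i => pc h (Pt P s (us i))) β (D * m)) = fun m =>
      (sy s (∏ i, β i) * sy s D) * (sy s m * a0 (D * m)) := by
    funext m
    have h1 := congrFun (TEX792.alb_tw (f := fun i => pc h ((us i).pc P))
      (f' := fun i => pc h (Pt P s (us i))) (fun i m hm => TEX792.pc_prim' hm) (s := s)
      (fun i m => TEX792.pc_Pt h P s (us i) m) hβ) (D * m)
    rw [h1]
    unfold I1146.tw3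
    by_cases h0 : a0 (D * m) = 0
    · rw [← ha0, h0]; ring
    have hm : IsPrim m := IsPrim.of_mul_left (hprim _ h0) hD
    rw [Char766.sy_mul_right hD hm]
    ring
  have hk : ‖sy s (∏ i, β i) * sy s D‖ ≤ 1 := by
    rw [norm_mul]
    exact mul_le_one₀ (PX764.norm_sy_le' (HP842.isPrim_prod hβ)) (norm_nonneg _)
      (PX764.norm_sy_le' hD)
  have hb : ∀ m, (fun m => a0 (D * m)) (γ * m) ≠ 0 → IsPrim m := by
    intro m hm
    exact IsPrim.of_mul_left (IsPrim.of_mul_left (hprim _ hm) hD) hγ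
  rw [e1, RXn770.RMm_smul, RXn770.RMm_sy A (s := s) (a := fun m => a0 (D * m)) hγ hb e φ r]
  have h1 : ‖sy s (∏ i, β i) * sy s D‖ ^ 2 ≤ 1 := pow_le_one₀ (norm_nonneg _) hk
  have h2 : ‖sy s γ‖ ^ 2 ≤ 1 := pow_le_one₀ (norm_nonneg _) (PX764.norm_sy_le' hγ)
  have h3 := RMm_nonneg A (fun m => a0 (D * m)) e γ φ (r * s)
  calc ‖sy s (∏ i, β i) * sy s D‖ ^ 2 * (‖sy s γ‖ ^ 2 * RMm A (fun m => a0 (D * m)) e γ φ (r * s))
      ≤ 1 * (1 * RMm A (fun m => a0 (D * m)) e γ φ (r * s)) := by gcongr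
    _ = _ := by ring

/-! ### the `R`-number -/

lemma rpe (a x : ℝ) : Real.exp a ^ x = Real.exp (a * x) := (Real.exp_mul a x).symm

lemma Ld_exp (k v h : ℝ) {d : Eis} (hd : d ≠ 0) : Ld (Real.exp k) (Real.exp v) (Real.exp h) d =
    Real.exp (h + 2 * v - k - Real.log (nm d)) := by
  have nd : (0 : ℝ) < nm d := nmpos hd
  unfold E3Sz579.Ld
  rw [show h + 2 * v - k - Real.log (nm d) = h + v + v - k - Real.log (nm d) by ring,
    Real.exp_sub, Real.exp_sub, Real.exp_add, Real.exp_add, Real.exp_log nd]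
  field_simp

lemma I_exp (k v h p : ℝ) : Real.exp p * Real.exp v * Real.exp h / Real.exp k =
    Real.exp (p + v + h - k) := by
  rw [Real.exp_sub, Real.exp_add, Real.exp_add]

lemma G2_le {c k v h p : ℝ} (hc : 1 ≤ c) {d : Eis} (hd : d ≠ 0) :
    E3T829.G2 (Ld (Real.exp k) (Real.exp v) (Real.exp h) d)
      (Md c (Real.exp k) (Real.exp v) (Real.exp h) (Real.exp p) d)
      (Real.exp p * Real.exp v * Real.exp h / Real.exp k) ≤
      (3 + c) * Real.exp (gQ (h + 2 * v - k - Real.log (nm d)) (p + v + h - k)) := by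
  have e1 : Md c (Real.exp k) (Real.exp v) (Real.exp h) (Real.exp p) d =
      c * Ld (Real.exp k) (Real.exp v) (Real.exp h) d *
        (Real.exp p * Real.exp v * Real.exp h / Real.exp k) ^ (-(1 / 2) : ℝ) := rfl
  unfold E3T829.G2
  rw [e1, Ld_exp k v h hd, I_exp, rpe, rpe, rpe, rpe, rpe, rpe, mul_assoc c, ← Real.exp_add,
    ← Real.exp_add, ← Real.exp_add]
  obtain ⟨l, hl⟩ : ∃ l, l = h + 2 * v - k - Real.log (nm d) := ⟨_, rfl⟩
  obtain ⟨i, hi⟩ : ∃ i, i = p + v + h - k := ⟨_, rfl⟩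
  rw [← hl, ← hi]
  have h1 : Real.exp (l * (1 / 3)) ≤ Real.exp (gQ l i) := by
    refine Real.exp_le_exp.2 (le_trans (le_of_eq ?_) ((le_max_left _ _).trans (le_max_left _ _)))
    ring
  have h2 : Real.exp (l + i * (-(1 / 2))) ≤ Real.exp (gQ l i) := by
    refine Real.exp_le_exp.2 (le_trans (le_of_eq ?_) ((le_max_right _ _).trans (le_max_left _ _)))
    ring
  have h3 : Real.exp (l * (7 / 9) + i * (-(2 / 3))) ≤ Real.exp (gQ l i) := by
    refine Real.exp_le_exp.2 (le_trans (le_of_eq ?_) ((le_max_left _ _).trans (le_max_right _ _)))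
    ring
  have h4 : Real.exp (l * (11 / 18) + i * (-(1 / 3))) ≤ Real.exp (gQ l i) := by
    refine Real.exp_le_exp.2 (le_trans (le_of_eq ?_) ((le_max_right _ _).trans (le_max_right _ _)))
    ring
  have h5 := mul_le_mul_of_nonneg_left h2 (show 0 ≤ c by linarith)
  linarith

/-- **the `R`-number at one pair** -/
theorem rn_pt {c k v h p w m : ℝ} (hc : 1 ≤ c) {d f : Eis} (hd : d ≠ 0) (hf : f ≠ 0)
    {W : Eis → Eis → ℝ → ℝ}
    (hW0 : 0 ≤ W d f (c * (Real.exp p * Real.exp v * Real.exp h / Real.exp k)))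
    (hW : W d f (c * (Real.exp p * Real.exp v * Real.exp h / Real.exp k)) ≤ Real.exp w)
    (hm : 0 ≤ h + 2 * v - k - Real.log (nm d) →
      2 / 3 * k - (h + v) / 3 + 5 / 3 * Real.log (nm d) + 2 * Real.log (nm f) +
        gQ (h + 2 * v - k - Real.log (nm d)) (p + v + h - k) + w ≤ m) :
    FH (Real.exp k) (Real.exp h) (Real.exp v) *
      RN2F c (Real.exp k) (Real.exp v) (Real.exp p) (fun _ _ => Real.exp h) W d f ≤
      (3 + c) * Real.exp m / (nm d * nm f) := by
  have nd : (0 : ℝ) < nm d := nmpos hd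
  have nf : (0 : ℝ) < nm f := nmpos hf
  have hc3 : 0 ≤ 3 + c := by linarith
  rw [le_div_iff₀ (by positivity)]
  unfold E3Hf290.RN2F
  by_cases hL : 1 ≤ Ld (Real.exp k) (Real.exp v) (Real.exp h) d
  · rw [if_pos hL]
    have hL' : 0 ≤ h + 2 * v - k - Real.log (nm d) := by
      rw [Ld_exp k v h hd] at hL
      have h0 := Real.log_le_log one_pos hL
      rwa [Real.log_one, Real.log_exp] at h0
    have hm' := hm hL'
    have g1 := G2_le (p := p) (k := k) (v := v) (h := h) hc hd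
    have g2 : E3T829.G2 (Ld (Real.exp k) (Real.exp v) (Real.exp h) d)
        (Md c (Real.exp k) (Real.exp v) (Real.exp h) (Real.exp p) d)
        (Real.exp p * Real.exp v * Real.exp h / Real.exp k) *
          W d f (c * (Real.exp p * Real.exp v * Real.exp h / Real.exp k)) ≤
        ((3 + c) * Real.exp (gQ (h + 2 * v - k - Real.log (nm d)) (p + v + h - k))) *
          Real.exp w := mul_le_mul g1 hW hW0 (by positivity)
    rw [ET490.FH_exp]
    have e1 : (nm d : ℝ) ^ (2 / 3 : ℝ) = Real.exp (2 / 3 * Real.log (nm d)) := by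
      nth_rw 1 [← Real.exp_log nd]
      rw [rpe]
      congr 1
      ring
    rw [e1]
    calc Real.exp (2 / 3 * k - (h + v) / 3) * (Real.exp (2 / 3 * Real.log (nm d)) * nm f *
          (E3T829.G2 (Ld (Real.exp k) (Real.exp v) (Real.exp h) d)
            (Md c (Real.exp k) (Real.exp v) (Real.exp h) (Real.exp p) d)
            (Real.exp p * Real.exp v * Real.exp h / Real.exp k) *
              W d f (c * (Real.exp p * Real.exp v * Real.exp h / Real.exp k)))) * (nm d * nm f)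
        ≤ Real.exp (2 / 3 * k - (h + v) / 3) * (Real.exp (2 / 3 * Real.log (nm d)) * nm f *
          (((3 + c) * Real.exp (gQ (h + 2 * v - k - Real.log (nm d)) (p + v + h - k))) *
            Real.exp w)) * (nm d * nm f) := by gcongr
      _ = (3 + c) * Real.exp (2 / 3 * k - (h + v) / 3 + 5 / 3 * Real.log (nm d) +
            2 * Real.log (nm f) + gQ (h + 2 * v - k - Real.log (nm d)) (p + v + h - k) + w) := by
          have e2 : 2 / 3 * k - (h + v) / 3 + 5 / 3 * Real.log (nm d) +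
              2 * Real.log (nm f) + gQ (h + 2 * v - k - Real.log (nm d)) (p + v + h - k) + w =
              (2 / 3 * k - (h + v) / 3) + 2 / 3 * Real.log (nm d) + Real.log (nm d) +
                Real.log (nm f) + Real.log (nm f) +
                gQ (h + 2 * v - k - Real.log (nm d)) (p + v + h - k) + w := by ring
          rw [e2]
          simp only [Real.exp_add]
          rw [Real.exp_log nd, Real.exp_log nf]
          ring
      _ ≤ (3 + c) * Real.exp m := mul_le_mul_of_nonneg_left (Real.exp_le_exp.2 hm') hc3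
  · rw [if_neg hL]
    simp only [zero_mul, mul_zero]
    positivity

/-! ### the real lines in units `log X` -/

lemma lw0_hom {L : ℝ} (hL : 0 ≤ L) (k v h : ℝ) : lw0 (L * k) (L * v) (L * h) = L * lw0 k v h := by
  unfold ET490.lw0
  rw [mul_max_of_nonneg _ _ hL, mul_max_of_nonneg _ _ hL]
  congr 1
  · ring
  · congr 1 <;> ring

lemma lw1_hom {L : ℝ} (hL : 0 ≤ L) (k v h : ℝ) : lw1 (L * k) (L * v) (L * h) = L * lw1 k v h := by
  unfold ET490.lw1
  rw [mul_max_of_nonneg _ _ hL, mul_max_of_nonneg _ _ hL]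
  congr 1
  · ring
  · congr 1 <;> ring

lemma gQ_hom {L : ℝ} (hL : 0 ≤ L) (l i : ℝ) : gQ (L * l) (L * i) = L * gQ l i := by
  unfold P1Q904.gQ
  rw [mul_max_of_nonneg _ _ hL, mul_max_of_nonneg _ _ hL, mul_max_of_nonneg _ _ hL]
  congr 1
  · congr 1 <;> ring
  · congr 1 <;> ring

/-- **the real lines in units `log X`** -/
theorem lnT_of {L : ℝ} (hL : 0 < L) {F : ℝ → ℝ → ℝ} {k v h p E δ t G : ℝ}
    (H0 : ∀ b l : ℝ, 0 ≤ b → 0 ≤ l → l ≤ v - 2 * δ + t →
      lw0 k v h + (F (l + b) (δ + b) + min b (max 0 (p - δ))) + 2 * δ - max 0 (b - E) - p / 3 ≤ G)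
    (H1 : ∀ b l : ℝ, 0 ≤ b → 0 ≤ l → l ≤ v - 2 * δ + t →
      lw1 k v h + (F (l + b) (δ + b) + min b (max 0 (p - δ))) + 2 * δ - max 0 (b - E) +
        (v - 2 * δ - l) / 3 - p / 3 ≤ G) :
    LnT (fun δ b l => L * F ((l + b) / L) ((δ + b) / L) + min b (max 0 (L * p - δ)))
      (L * k) (L * v) (L * h) (L * p) (L * E) (L * δ) (L * t) (L * G) := by
  have key : ∀ b l : ℝ, 0 ≤ b → 0 ≤ l → l ≤ L * v - 2 * (L * δ) + L * t →
      ∃ b' l' : ℝ, b = L * b' ∧ l = L * l' ∧ 0 ≤ b' ∧ 0 ≤ l' ∧ l' ≤ v - 2 * δ + t := by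
    intro b l hb hl hv
    refine ⟨b / L, l / L, by field_simp, by field_simp, by positivity, by positivity, ?_⟩
    rw [div_le_iff₀ hL]
    linarith
  have e1 : ∀ b' : ℝ, min (L * b') (max 0 (L * p - L * δ)) = L * min b' (max 0 (p - δ)) := by
    intro b'
    rw [mul_min_of_nonneg _ _ hL.le, mul_max_of_nonneg _ _ hL.le, mul_zero, mul_sub]
  have e2 : ∀ b' : ℝ, max 0 (L * b' - L * E) = L * max 0 (b' - E) := by
    intro b'
    rw [mul_max_of_nonneg _ _ hL.le, mul_zero, mul_sub]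
  have e3 : ∀ x y : ℝ, (L * x + L * y) / L = x + y := by
    intro x y
    field_simp
  constructor
  · intro b l hb hl hv
    obtain ⟨b', l', rfl, rfl, hb', hl', hv'⟩ := key b l hb hl hv
    have := mul_le_mul_of_nonneg_left (H0 b' l' hb' hl' hv') hL.le
    rw [lw0_hom hL.le, e1, e2, e3, e3]
    refine le_trans (le_of_eq ?_) this
    ring
  · intro b l hb hl hv
    obtain ⟨b', l', rfl, rfl, hb', hl', hv'⟩ := key b l hb hl hv
    have := mul_le_mul_of_nonneg_left (H1 b' l' hb' hl' hv') hL.le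
    rw [lw1_hom hL.le, e1, e2, e3, e3]
    refine le_trans (le_of_eq ?_) this
    ring

end Crest.Agent.R017.SP521
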