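import Crest.Agent.R017.ETk_548
import Crest.Agent.R017.SPb_521
import Crest.Agent.R017.E3Hi_290

/-!
# Row 17, exceptional class (helper548): the Gram sum of one level, the two halves

* `WinK` : the premises of one child in the window
* `TOne`, `TFr` : the `T`-half (joint numbers, `LnT`)
* `RFr` : the `R`-half (`W0`, the two classes, the number)
-/

set_option autoImplicit false
set_option linter.unusedSectionVars false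
set_option linter.unusedVariables false

noncomputable section

open Finset
open scoped Classical

namespace Crest.Agent.R017.ETm548

open Crest.Agent.R012 Crest.Agent.R012.Eis Crest.Agent.R012.MC
open Crest.Agent.R012.LS2 (S mem_S bl)
open Crest.Agent.R017.B770
open Crest.Agent.R017.Prov71
open Crest.Agent.R017.I1146 (LN)
open Crest.Agent.R017.XT71 (Sys Win mx)
open Crest.Agent.R017.E5B71 Crest.Agent.R017.E5P571 Crest.Agent.R017.E5L770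
open Crest.Agent.R017.ExBox960 Crest.Agent.R017.ExP960
open Crest.Agent.R017.P1X960
open Crest.Agent.R017.P10X764 (nw alX clN nW_hi)
open Crest.Agent.R017.ETd548 (BkX S8Xk)
open Crest.Agent.R017.ETk548 (DomKc GkGUc)
open Crest.Agent.R017.E1551 (Adm)
open Crest.Agent.R017.TNj90 (JBc)
open Crest.Agent.R017.ET490 (LnT)
open Crest.Agent.R017.E3Kc548 (LI mem_LI)
open Crest.Agent.R017.E3Z548 (FH)
open Crest.Agent.R017.E3Hi290 (RN2XF)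
open Crest.Agent.R017.Mode405 (Slp)
open Crest.Agent.R017.PX764 (n6)
open Crest.Agent.R017.PoHx72 (Cls)
open Crest.Agent.R017.ROX744 (PrU)
open Crest.Agent.R017.R3571 (RMm)
open Crest.Agent.R017.SP521 (Jw)

/-- a point : configuration of the child, family, masses -/
abbrev QK := (I8X ⊕ Unit → ℝ) × (Kd → ℝ)

/-- `h = log H` : character, `X`, child, list, point, level, `log N d` -/
abbrev HfK (Λ : Type*) := Λ × Eis → ℝ → BkX → List Pq → QK → ℕ → ℝ → ℝ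

/-- `h` from a real function : point, family, level, length, `δ` (units `log X`) -/
def hfX {Λ : Type*} (Rg : QK → ℝ → ℝ → ℝ → ℝ → ℝ) : HfK Λ := fun lam X a qs q i g =>
  Real.log X * Rg q (((a.2.2.1 : ℝ) + 1) * Real.log 2 / Real.log X) ((i : ℝ) / Real.log X)
    (LN (clN a.1 qs) / Real.log X) (g / Real.log X)

/-- `log` of the family of a block -/
def kB (a : BkX) : ℝ := ((a.2.2.1 : ℝ) + 1) * Real.log 2

section
variable {Λ : Type*} (al : Λ × Eis → BcX → List Pq → Eis → ℂ)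
  (ok : Λ × Eis → BcX → List Pq → Prop) (e0 c : ℝ) (Dm : Set QK)

/-- **the premises of one child in the window** -/
structure WinK (δ δ' : ℝ) (N : ℕ) (B X : ℝ) (lam : Λ × Eis) (a : BkX) (qs : List Pq) (q : QK) :
    Prop where
  len : qs.length ≤ N
  gl : ∀ p ∈ qs, Dq.lump p ∨ Dq.nl X p ≤ δ
  dom : q ∈ Dm
  win : Win S8Xk q.1 δ N B δ' X a
  ms : ∀ t, |Dq.mass X qs t - q.2 t| ≤ δ
  gd : Dq.Good X δ' B qs
  nlp : ∀ p ∈ qs, ¬ Dq.lump p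
  hok : ok lam a.1 qs
  mp : IsPrim a.2.2.2
  lvl : a.2.1 < nw c a.1

/-- **the `T`-side of one child**, level `a.2.1`, block `a.2.2.1` -/
structure TOne (α : Eis → ℂ) (Lh cw B₂ J R' ε X G : ℝ) (hf : ℕ → ℝ → ℝ) (a : BkX)
    (qs : List Pq) (Y : ℝ) (Sh : ℝ → ℝ → ℝ → ℝ) : Prop where
  Y1 : 1 ≤ Y
  YX : Y ≤ X ^ B₂
  l0 : 0 ≤ a.1.1.l
  l2 : a.1.1.l ≤ 2 * Real.log X
  n0 : 0 ≤ LN (clN a.1 qs)
  n2 : LN (clN a.1 qs) ≤ 2 * Real.log X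
  k2 : kB a ≤ 2 * Real.log X
  yX : (2 : ℝ) ^ nw c a.1 ≤ X
  adm : Adm Y (Real.exp (LN (clN a.1 qs))) R' α
  jb : JBc Y (cw * 2 ^ nw c a.1) (X ^ ε) J Sh α
  lip : ∀ i x y, hf i x ≤ hf i y + Lh * |x - y|
  sz : ∀ i ∈ LI (2 ^ a.2.1 / 4) (2 ^ (a.2.1 + 1)), ∀ g : ℝ, 0 ≤ g →
    Real.log cw + hf i g + 2 * i ≤ kB a + LN (clN a.1 qs)
  ln : ∀ i ∈ LI (2 ^ a.2.1 / 4) (2 ^ (a.2.1 + 1)), ∀ g : ℝ, 0 ≤ g →
    2 * g ≤ Real.log (2 ^ (a.2.1 + 1)) →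
    LnT Sh (kB a) i (hf i g) (LN (clN a.1 qs)) (e0 * a.1.1.l) g (Real.log cw) (G * Real.log X)
  le : ∀ i ∈ LI (2 ^ a.2.1 / 4) (2 ^ (a.2.1 + 1)), ∀ g : ℝ, 0 ≤ g →
    2 * g ≤ Real.log (2 ^ (a.2.1 + 1)) → ∀ b l : ℝ, 0 ≤ b → 0 ≤ l →
    l ≤ i - 2 * g + Real.log cw →
    e0 * a.1.1.l + Sh g b l + 2 * g - max 0 (b - e0 * a.1.1.l) - LN (clN a.1 qs) / 3 ≤
      G * Real.log X

/-- **the `T`-half** -/
def TFr (Lh : ℝ) (hf : HfK Λ) (GE : QK → ℝ) : Prop :=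
  ∀ ε : ℝ, 0 < ε → ∃ δ : ℝ, 0 < δ ∧ ∀ (lam : Λ × Eis) (N : ℕ) (B : ℝ), ∃ R' : ℝ, 0 ≤ R' ∧
    ∀ cw : ℝ, 1 ≤ cw → ∃ B₂ J : ℝ, 0 ≤ J ∧ ∃ δ' : ℝ, 0 < δ' ∧ ∃ X₀ : ℝ, 1 < X₀ ∧
    ∀ X : ℝ, X₀ ≤ X → ∀ (a : BkX) (qs : List Pq) (q : QK),
      WinK ok c Dm δ δ' N B X lam a qs q →
      ∃ (Y : ℝ) (Sh : ℝ → ℝ → ℝ → ℝ),
        TOne e0 c (al lam a.1 qs) Lh cw B₂ J R' ε X (GE q + ε) (hf lam X a qs q) a qs Y Sh

/-- **the `R`-half** : `uu` = the modulus of the classes -/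
def RFr (uu : Λ × Eis → Eis) (hf : HfK Λ) (GE : QK → ℝ) : Prop :=
  ∀ ε : ℝ, 0 < ε → ∃ δ : ℝ, 0 < δ ∧ ∀ (lam : Λ × Eis) (N : ℕ) (B Bp : ℝ), ∃ aS A₀ : ℕ, 1 < A₀ ∧
    ∀ cc : ℝ, 1 ≤ cc → ∃ δ' : ℝ, 0 < δ' ∧ ∃ X₀ : ℝ, 1 < X₀ ∧
    ∀ X : ℝ, X₀ ≤ X → ∀ (a : BkX) (qs : List Pq) (q : QK),
      WinK ok c Dm δ δ' N B X lam a qs q →
      ∃ W0 : ℕ → Bool → Eis → Eis → ℝ → ℝ, (∀ i jj d f, Slp aS (W0 i jj d f)) ∧
        (∀ i ∈ LI (2 ^ a.2.1 / 4) (2 ^ (a.2.1 + 1)), ∀ jj,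
          ∀ d ∈ (Jw a.2.1 (nw c a.1)).image Prod.fst, ∀ f ∈ S (Real.exp (e0 * a.1.1.l)), ∀ γ φ,
          IsPrim γ → IsPrim φ → (nm φ : ℝ) ≤ X ^ Bp → ∀ P : ℝ, 0 < P →
          (nm γ : ℝ) * n6 γ ^ 2 * ∑ r ∈ (bl P).filter (Cls (PrU (uu lam)) jj),
            RMm A₀ (fun n => al lam a.1 qs (d * n)) f γ φ r ≤ W0 i jj d f P) ∧
        (∀ i ∈ LI (2 ^ a.2.1 / 4) (2 ^ (a.2.1 + 1)),
          ∀ d ∈ (Jw a.2.1 (nw c a.1)).image Prod.fst, ∀ f ∈ S (Real.exp (e0 * a.1.1.l)),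
          FH (Real.exp (kB a)) (Real.exp (hf lam X a qs q i (Real.log (nm d)))) (Real.exp i) *
            RN2XF cc (Real.exp (kB a)) (Real.exp i) (Real.exp (LN (clN a.1 qs)))
              (fun d _ => Real.exp (hf lam X a qs q i (Real.log (nm d)))) (W0 i) d f ≤
            X ^ (GE q + ε) / (nm d * nm f))

end

end Crest.Agent.R017.ETm548
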