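import Crest.Agent.R017.ETl_548
import Crest.Agent.R017.ETm_548

/-!
# Row 17, exceptional class (helper548): the Gram sum of one level

* **`gkG_of`** : `UB` of the Gram sum from the `T`-half `TFr` and the `R`-half `RFr`
-/

set_option autoImplicit false
set_option linter.unusedSectionVars false
set_option linter.unusedVariables false

noncomputable section

open Finset
open scoped Classical ComplexConjugate ContDiff

namespace Crest.Agent.R017.ETn548

open Crest.Agent.R012 Crest.Agent.R012.Eis Crest.Agent.R012.MC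
open Crest.Agent.R012.LS2 (S mem_S bl)
open Crest.Agent.R017.C70 (CbF JW)
open Crest.Agent.R017.CM106 (CS FS)
open Crest.Agent.R017.B770
open Crest.Agent.R017.Prov71
open Crest.Agent.R017.XG702 (Pcs)
open Crest.Agent.R017.E2440 (TE StE)
open Crest.Agent.R017.I1146 (LN)
open Crest.Agent.R017.XT71 (Sys Win mx)
open Crest.Agent.R017.E5B71 Crest.Agent.R017.E5P571 Crest.Agent.R017.E5L770
open Crest.Agent.R017.ExBox960 Crest.Agent.R017.ExP960
open Crest.Agent.R017.P1X960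
open Crest.Agent.R017.P10X764 (nw alX clN nW_hi)
open Crest.Agent.R017.ETd548 (BkX S8Xk stG GkG)
open Crest.Agent.R017.ETk548 (DomKc GkGUc)
open Crest.Agent.R017.E1551 (Adm)
open Crest.Agent.R017.TNj90 (JBc)
open Crest.Agent.R017.ET490 (lw0 lw1 LnT)
open Crest.Agent.R017.E3Kc548 (LI mem_LI)
open Crest.Agent.R017.E3Z548 (FH)
open Crest.Agent.R017.E3Hi290 (RN2XF)
open Crest.Agent.R017.Mode405 (Slp)
open Crest.Agent.R017.PX764 (n6)
open Crest.Agent.R017.PoHx72 (Cls)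
open Crest.Agent.R017.ROX744 (PrU)
open Crest.Agent.R017.R3571 (RMm)
open Crest.Agent.R017.Sf770 (JS)
open Crest.Agent.R017.SP521 (Jw Jw_mem Jw_ne StE_win LI_win wL_all wL_win FS_of_Adm rpe)
open Crest.Agent.R017.ETm548
open Crest.Agent.R017.ETl548 (gram_allX2)

lemma _root_.Crest.Agent.R017.ETm548.WinK.mono {Λ : Type*} {ok : Λ × Eis → BcX → List Pq → Prop} {c : ℝ} {Dm : Set QK} {δ δ₁ δ' δ₂ : ℝ} {N : ℕ}
    {B X : ℝ} {lam : Λ × Eis} {a : BkX} {qs : List Pq} {q : QK}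
    (h : WinK ok c Dm δ δ' N B X lam a qs q) (hX : 1 ≤ X) (h1 : δ ≤ δ₁) (h2 : δ' ≤ δ₂) :
    WinK ok c Dm δ₁ δ₂ N B X lam a qs q :=
  ⟨h.len, fun p hp => (h.gl p hp).imp id fun h3 => h3.trans h1, h.dom,
    h.win.mono hX h1 le_rfl le_rfl h2, fun t => (h.ms t).trans h1, XG702.Good_mono hX h.gd h2, h.nlp,
    h.hok, h.mp, h.lvl⟩

lemma norm_omL' (i : ℕ) (x : Eis × Eis) : ‖omL i x‖ ≤ 1 := by
  unfold E5L770.omL E5L770.wL
  exact StE828.hD_bd _

/-- the family of a block -/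
lemma exp_kB (a : BkX) : Real.exp (kB a) = 2 ^ (a.2.2.1 + 1) := by
  unfold kB
  rw [← Real.exp_log (show (0 : ℝ) < 2 ^ (a.2.2.1 + 1) by positivity), Real.log_pow]
  push_cast
  rfl

set_option maxHeartbeats 4000000 in
/-- **the Gram sum of one level from the two halves** -/
theorem gkG_of {Λ : Type*} {al : Λ × Eis → BcX → List Pq → Eis → ℂ}
    {ok : Λ × Eis → BcX → List Pq → Prop} {e0 c : ℝ} {Dm : Set QK}
    {GE : QK → ℝ} {Lh : ℝ} {hf : HfK Λ} {uu : Λ × Eis → Eis}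
    (he0 : 0 ≤ e0) (he1 : e0 ≤ 1) (hLh : 0 ≤ Lh)
    (hu : ∀ lam a qs, ok lam a qs → uu lam ≠ 0)
    (hcop : ∀ lam a qs, ok lam a qs → ∀ n, al lam a qs n ≠ 0 → IsCoprime (uu lam) n)
    (hT : TFr al ok e0 c Dm Lh hf GE) (hR : RFr al ok e0 c Dm uu hf GE) :
    UB S8Xk Dq (GkG al ok e0 c) Dm ∅ GE := by
  intro ε hε
  obtain ⟨ε₁, hε₁, hεε⟩ : ∃ ε₁ : ℝ, 0 < ε₁ ∧ 8 * ε₁ = ε := ⟨ε / 8, by positivity, by ring⟩
  obtain ⟨δT, hδT, HT⟩ := hT ε₁ hε₁
  obtain ⟨δR, hδR, HR⟩ := hR ε₁ hε₁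
  refine ⟨min δT δR, lt_min hδT hδR, fun lam N B => ?_⟩
  set K : ℝ := max B 3 with hK
  have hBK : B ≤ K := le_max_left _ _
  have hK3 : 3 ≤ K := le_max_right _ _
  have hK0 : 0 < K := by linarith
  obtain ⟨aS, A₀, hA₀, HR⟩ := HR lam N B (301 * K)
  obtain ⟨R', hR', HT⟩ := HT lam N B
  obtain ⟨A, cc, hcc, HG⟩ := gram_allX2 (ρ := 1 / 2) (by norm_num) (by norm_num) hR' aS A₀ hA₀
    (ε := ε₁ / K) (by positivity)
  have he2 : (1 : ℝ) ≤ Real.exp 2 := Real.one_le_exp (by norm_num)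
  obtain ⟨B₂, J, hJ, δ'T, hδ'T, XT, hXT, HT⟩ := HT (cc * Real.exp 2)
    (one_le_mul_of_one_le_of_one_le hcc he2)
  obtain ⟨C, hC, HG⟩ := HG J (max B₂ 2) Lh hJ (le_max_right _ _) hLh
  obtain ⟨δ'R, hδ'R, XR, hXR, HR⟩ := HR cc hcc
  obtain ⟨Mb, hMb1, hMb⟩ := wL_all (A + 2)
  set Ct : ℝ := C * (1 + Mb) ^ 2 * (Real.exp 4 + 2) with hCt
  have hCt1 : 0 < Ct := by positivity
  have hcc0 : 0 < cc := by linarith
  have hlc : 0 ≤ Real.log cc := Real.log_nonneg hcc
  set Q : ℝ := |Real.log Ct| / ε₁ + Real.log cc + 4 with hQ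
  have hQ1 : 0 ≤ |Real.log Ct| / ε₁ := by positivity
  refine ⟨min δ'T δ'R, lt_min hδ'T hδ'R, max (max XT XR) (max 3 (Real.exp Q)),
    lt_max_of_lt_left (lt_max_of_lt_left hXT), ?_⟩
  intro X hX a qs hlen hgl q hq hw hm hg hl
  have hXXT : XT ≤ X := ((le_max_left _ _).trans (le_max_left _ _)).trans hX
  have hXXR : XR ≤ X := ((le_max_right _ _).trans (le_max_left _ _)).trans hX
  have hX3 : 3 ≤ X := ((le_max_left _ _).trans (le_max_right _ _)).trans hX
  have hXe : Real.exp Q ≤ X := ((le_max_right _ _).trans (le_max_right _ _)).trans hX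
  have hX1 : 1 < X := by linarith
  have hX0 : 0 < X := by linarith
  set Lg := Real.log X with hLg
  have hQL : Q ≤ Lg := (Real.le_log_iff_exp_le hX0).2 hXe
  have hL0 : 0 < Lg := Real.log_pos hX1
  have hXe' : ∀ e : ℝ, X ^ e = Real.exp (e * Lg) := fun e => by
    rw [Real.rpow_def_of_pos hX0, ← hLg, mul_comm]
  by_cases hok : ok lam a.1 qs ∧ IsPrim a.2.2.2 ∧ a.2.1 < nw c a.1
  swap
  · unfold GkG
    rw [if_neg hok]
    positivity
  have hW : WinK ok c Dm (min δT δR) (min δ'T δ'R) N B X lam a qs q :=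
    ⟨hlen, hgl, hq, hw, hm, hg, fun p hp h3 => absurd (hl p hp h3) (Set.notMem_empty _),
      hok.1, hok.2.1, hok.2.2⟩
  obtain ⟨Y, Sh, T⟩ := HT X hXXT a qs q (hW.mono hX1.le (min_le_left _ _) (min_le_left _ _))
  obtain ⟨W0, hWS, hWH, hWR⟩ := HR X hXXR a qs q
    (hW.mono hX1.le (min_le_right _ _) (min_le_right _ _))
  set α := al lam a.1 qs with hα
  set l := a.1.1.l with hl'
  set n := LN (clN a.1 qs) with hn
  set j := a.2.1 with hj
  set m := a.2.2.2 with hm'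
  have hlog2 : 0 < Real.log 2 := Real.log_pos (by norm_num)
  have hkB0 : 0 ≤ kB a := by unfold kB; positivity
  have hek := exp_kB a
  set k := kB a with hk
  set E0 : ℝ := Real.exp (e0 * l) with hE0
  have hlE : Real.log E0 = e0 * l := Real.log_exp _
  set V : ℝ := 2 ^ (j + 1) with hV
  have hV1 : 1 ≤ V := one_le_pow₀ (by norm_num)
  have hV0 : 0 < V := by linarith
  set v := Real.log V with hv
  have hVe : V = Real.exp v := (Real.exp_log hV0).symm
  have hv0 : 0 ≤ v := Real.log_nonneg hV1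
  have hvj : v = Real.log 2 * j + Real.log 2 := by
    rw [hv, hV, Real.log_pow]
    push_cast
    ring
  have hlog2' : Real.log 2 < 1 := by
    have := Real.log_two_lt_d9
    linarith
  have hXK : (3 : ℝ) ≤ X ^ K := by
    calc (3 : ℝ) ≤ X := hX3
      _ = X ^ (1 : ℝ) := (Real.rpow_one X).symm
      _ ≤ X ^ K := Real.rpow_le_rpow_of_exponent_le hX1.le (by linarith)
  have hXK2 : ∀ x : ℝ, x ≤ 2 * Lg → Real.exp x ≤ X ^ K := by
    intro x hx
    rw [hXe']
    refine Real.exp_le_exp.2 (hx.trans ?_)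
    exact mul_le_mul_of_nonneg_right (by linarith) hL0.le
  have hcX : cc * Real.exp 2 ≤ X ^ K := by
    rw [← Real.exp_log hcc0, ← Real.exp_add]
    exact hXK2 _ (by linarith)
  have hVn : V ≤ 2 ^ nw c a.1 := pow_le_pow_right₀ (by norm_num) hok.2.2
  have hVX : V ≤ X := hVn.trans T.yX
  have hVXK : V ≤ X ^ K := by
    calc V ≤ X := hVX
      _ = X ^ (1 : ℝ) := (Real.rpow_one X).symm
      _ ≤ X ^ K := Real.rpow_le_rpow_of_exponent_le hX1.le (by linarith)
  have hmX : (nm m : ℝ) ≤ X ^ K := by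
    have h1 : (nm a.2.2.2 : ℝ) ≤ X ^ B := (le_max_right _ _).trans hw.s₂
    exact h1.trans (Real.rpow_le_rpow_of_exponent_le hX1.le hBK)
  have hel : e0 * l ≤ l := mul_le_of_le_one_left T.l0 he1
  have hel0 : 0 ≤ e0 * l := mul_nonneg he0 T.l0
  have hE01 : 1 ≤ E0 := Real.one_le_exp hel0
  have hE0X : E0 ≤ X ^ K := hXK2 _ (by have := T.l2; linarith)
  have hX4 : (X ^ K) ^ (300 : ℕ) * X ^ K = X ^ (301 * K) := by
    rw [← Real.rpow_natCast (X ^ K), ← Real.rpow_mul hX0.le, ← Real.rpow_add hX0]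
    congr 1
    push_cast
    ring
  have hlcw : Real.log (cc * Real.exp 2) = Real.log cc + 2 := by
    rw [Real.log_mul hcc0.ne' (Real.exp_pos _).ne', Real.log_exp]
  have hsz := T.sz
  have hln := T.ln
  have hle := T.le
  rw [hlcw] at hsz hln hle
  -- the loss of the cross sum
  obtain ⟨qc, hqc⟩ : ∃ qc : ℝ, qc = max 0 (max (v - k) (v / 6 - k / 3 + e0 * l / 2)) := ⟨_, rfl⟩
  set Gt : ℝ := (GE q + ε₁) * Lg with hGt
  obtain ⟨KK, hKK⟩ : ∃ KK : Finset Eis, KK = (primBall (2 ^ (a.2.2.1 + 1))).filter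
    (fun k => CbF k ∧ 2 ^ a.2.2.1 ≤ nm k) := ⟨_, rfl⟩
  have key := HG (fun u => (wL j u : ℂ)) Mb (by linarith) (contDiff_wLc j)
    (fun n' hn' x => hMb j n' hn' x) 0 1 (by simp) (X ^ K) hXK hcX
    (Real.sqrt (2 ^ nw c a.1)) (2 ^ j / 4) (2 ^ (j + 1)) (omL j) α E0 V Y k n (X ^ ε₁) Gt
    (Gt + 4 - qc) (X ^ (GE q + ε₁)) (Real.exp qc) m KK (hf lam X a qs q) (uu lam) W0 Sh
    (hu _ _ _ hok.1) (fun n' hn' => hcop _ _ _ hok.1 n' hn')
    (FS_of_Adm (by linarith [T.Y1]) T.adm)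
    (fun n' hn' => ((mem_S (by linarith [T.Y1])).1 (T.adm.sup n' hn')).2.2) T.adm T.Y1
    (by
      refine T.YX.trans ?_
      rw [← Real.rpow_mul hX0.le]
      refine Real.rpow_le_rpow_of_exponent_le hX1.le ?_
      have h1 : B₂ ≤ max B₂ 2 := le_max_left _ _
      have h2 : (2 : ℝ) ≤ max B₂ 2 := le_max_right _ _
      nlinarith)
    hok.2.1 hmX (Real.sqrt_nonneg _) hV0.le hVXK
    (fun x hx => by
      rw [one_mul]
      unfold Weight600.pw Weight600.osc
      simp [E5L770.omL, E5L770.lv])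
    (fun i hi n' hn' _ hne => by
      have h1 : (0 : ℝ) < n' := by exact_mod_cast hn'
      exact wL_win h1 (wL_supp (by exact_mod_cast hne)))
    (fun x _ => norm_omL' j x) hkB0 (hXK2 _ T.k2)
    (fun u hu' => by
      rw [hKK, mem_filter, mem_primBall] at hu'
      obtain ⟨⟨h1, h2⟩, h3, h4⟩ := hu'
      refine ⟨h2, h3, ?_, ?_⟩
      · rw [hek, pow_succ]
        have h5 : ((2 ^ a.2.2.1 : ℕ) : ℝ) ≤ nm u := by exact_mod_cast h4
        push_cast at h5
        linarith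
      · rw [hek]
        have h5 : (nm u : ℝ) ≤ ((2 ^ (a.2.2.1 + 1) : ℕ) : ℝ) := by exact_mod_cast h1
        push_cast at h5
        exact h5)
    hV0.le hVXK (fun x hx => (Jw_mem (n₀ := nw c a.1) hx).2.1) hE01 hE0X
    (by
      have h1 := T.n2
      rw [← Real.rpow_natCast, ← Real.rpow_mul hX0.le, hXe']
      refine Real.exp_le_exp.2 ?_
      push_cast
      nlinarith)
    (fun i hi g hg0 => by
      have := hsz i hi g hg0
      linarith)
    (fun i hi x y => T.lip i x y) hWS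
    (fun i hi jj D hD e he γ φ hγ hφ hφX P hP => hWH i hi jj D hD e he γ φ hγ hφ (by
      refine hφX.trans ?_
      rw [← hX4, mul_comm cc]
      refine mul_le_mul_of_nonneg_left ?_ (by positivity)
      exact (le_mul_of_one_le_right hcc0.le he2).trans hcX) P hP)
    (by positivity) (by positivity)
    (Real.one_le_exp (by rw [hqc]; exact le_max_left _ _))
    (by
      rw [hVe, hE0, ← Real.exp_nat_mul, ← Real.exp_sub, rpe, rpe, ← Real.exp_add]
      refine Real.exp_le_exp.2 ?_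
      push_cast
      have h1 : v / 6 - k / 3 + e0 * l / 2 ≤ qc := by
        rw [hqc]; exact (le_max_right _ _).trans (le_max_right _ _)
      linarith)
    (by
      rw [hVe, ← Real.exp_sub]
      refine Real.exp_le_exp.2 ?_
      rw [hqc]
      exact (le_max_left _ _).trans (le_max_right _ _))
    (by
      refine T.jb.mono ?_
      exact mul_le_mul_of_nonneg_left hVn (by positivity))
    (fun i hi g hg0 hg2 => by
      have h1 := hln i hi g hg0 hg2
      rw [hlE]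
      exact ⟨fun b l' hb hl1 hl2 => h1.c0 b l' hb hl1 (by linarith),
        fun b l' hb hl1 hl2 => h1.c1 b l' hb hl1 (by linarith)⟩)
    (fun i hi g hg0 hg2 b l' hb hl1 hl2 => by
      have h1 := (hln i hi g hg0 hg2).c0 b l' hb hl1 (by linarith)
      have h2 := hle i hi g hg0 hg2 b l' hb hl1 (by linarith)
      have h3 : 2 / 3 * k - (i : ℝ) / 3 ≤ lw0 k i (hf lam X a qs q i g) := le_max_left _ _
      have h4 : 2 / 3 * (i : ℝ) ≤ lw0 k i (hf lam X a qs q i g) :=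
        (le_max_right _ _).trans (le_max_right _ _)
      have h5 := abs_le.1 (LI_win hi)
      have h6 := h5.1
      have h7 := h5.2
      rw [hlE]
      rcases max_choice 0 (max (v - k) (v / 6 - k / 3 + e0 * l / 2)) with h8 | h8
      · rw [h8] at hqc
        rw [hqc]
        linarith
      · rw [h8] at hqc
        rcases max_choice (v - k) (v / 6 - k / 3 + e0 * l / 2) with h9 | h9
        · rw [h9] at hqc
          rw [hqc]
          linarith
        · rw [h9] at hqc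
          rw [hqc]
          linarith)
    (fun i hi D hD e he => hWR i hi D hD e he)
  -- conclusion
  unfold GkG
  rw [if_pos hok]
  have e1 : ∀ x : Eis, stG al e0 c lam a.1 qs a.2.1 x =
      StE E0 (JW (Real.sqrt (2 ^ nw c a.1)) (2 ^ j / 4) (2 ^ (j + 1))) (omL j) α x := by
    intro x
    unfold stG
    rw [StE_win hok.2.2]
    rfl
  rw [← hKK, Finset.sum_congr rfl fun x _ => by rw [e1 (a.2.2.2 ^ 3 * x)]]
  refine key.trans ?_
  have z1 : (X ^ K) ^ (ε₁ / K) = X ^ ε₁ := by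
    rw [← Real.rpow_mul hX0.le]
    congr 1
    field_simp
  have z2 : Real.exp qc * (X ^ ε₁ * Real.exp (Gt + 4 - qc)) = Real.exp 4 * X ^ (GE q + 2 * ε₁) := by
    rw [hXe', hXe', ← Real.exp_add, ← Real.exp_add, ← Real.exp_add, hGt]
    congr 1
    ring
  have z3 : X ^ ε₁ * Real.exp Gt = X ^ (GE q + 2 * ε₁) := by
    rw [hXe', hXe', ← Real.exp_add, hGt]
    congr 1
    ring
  have z4 : X ^ (GE q + ε₁) ≤ X ^ (GE q + 2 * ε₁) :=
    Real.rpow_le_rpow_of_exponent_le hX1.le (by linarith)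
  have z5 : Ct ≤ X ^ ε₁ := by
    rw [hXe', ← Real.exp_log hCt1]
    refine Real.exp_le_exp.2 ?_
    have h1 : |Real.log Ct| / ε₁ ≤ Lg := by linarith
    rw [div_le_iff₀ hε₁] at h1
    have := le_abs_self (Real.log Ct)
    linarith
  have z6 : (1 + |(0 : ℝ)|) ^ A = 1 := by simp
  rw [z1, z2, z3, z6, mul_one]
  calc C * (1 + Mb) ^ 2 * X ^ ε₁ *
        (Real.exp 4 * X ^ (GE q + 2 * ε₁) + X ^ (GE q + 2 * ε₁) + X ^ (GE q + ε₁))
      ≤ C * (1 + Mb) ^ 2 * X ^ ε₁ *
        (Real.exp 4 * X ^ (GE q + 2 * ε₁) + X ^ (GE q + 2 * ε₁) + X ^ (GE q + 2 * ε₁)) := by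
        gcongr
    _ = Ct * (X ^ ε₁ * X ^ (GE q + 2 * ε₁)) := by rw [hCt]; ring
    _ ≤ X ^ ε₁ * (X ^ ε₁ * X ^ (GE q + 2 * ε₁)) := mul_le_mul_of_nonneg_right z5 (by positivity)
    _ = X ^ (ε₁ + (ε₁ + (GE q + 2 * ε₁))) := by rw [← Real.rpow_add hX0, ← Real.rpow_add hX0]
    _ ≤ X ^ (GE q + ε) := Real.rpow_le_rpow_of_exponent_le hX1.le (by linarith)

end Crest.Agent.R017.ETn548
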